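import Crest.Agent.T156.CaTr_32

-- ▼ part T156/CaSd_90
section

/-!
# Row 156 (helper90): Schwinger–Dyson identities on replica trees

The planted potential `UT` is a function `UP` of the paths of states, the paths are affine in
(state, noise).  `DP` is the derivative of `UP`.  Results: `UT_eq`, `grP_UP`, `sum_cf`,
`cf_nonneg`, the classes `EgP`, `GrP` of functions of the paths.
-/

set_option autoImplicit false
set_option linter.unusedSectionVars false

noncomputable section

namespace Crest.Agent.T156.Cas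

open MeasureTheory Real Set Filter Topology
open Crest.Agent.T157.E Crest.Agent.T157.Casc Crest.Agent.T157.SL

/-- the leftmost leaf -/
def Sh.fst : (s : Sh) → s.Lf
  | .one => ()
  | .step s => s.fst
  | .split s _ => .inl s.fst

/-- number of levels shared by two leaves among the first `j` -/
def Sh.shr : (s : Sh) → s.Lf → s.Lf → ℕ → ℕ
  | .one, _, _, j => j
  | .step _, _, _, 0 => 0
  | .step s, a, b, j + 1 => s.shr a b j + 1
  | .split s _, .inl a, .inl b, j => s.shr a b j
  | .split _ t, .inr a, .inr b, j => t.shr a b j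
  | .split _ _, .inl _, .inr _, _ => 0
  | .split _ _, .inr _, .inl _, _ => 0

theorem Sh.one_le_br90 : ∀ s : Sh, 1 ≤ s.br
  | .one => le_rfl
  | .step _ => le_rfl
  | .split s _ => s.one_le_br90.trans (Nat.le_add_right _ _)

variable {Ω : Type}

/-- paths of states, one for each leaf -/
abbrev Pa (κ Ω : Type) : Type := κ → ℕ → Ω → ℝ

/-- the weight of the node reached by the leaf `a` after `j` levels (a node shared by several
leaves is charged to the leftmost one) -/
def cf : (s : Sh) → List (Lv Ω) → s.Lf → ℕ → ℝ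
  | .one, _, _, 0 => 0
  | .one, L, _, j + 1 => dm L 0 (j + 1)
  | .step s, [], a, j => cf s [] a j + if a = s.fst ∧ j = 0 then (s.br : ℝ) - 1 else 0
  | .step _, _ :: _, _, 0 => 0
  | .step s, l :: L, a, j + 1 =>
      cf s L a j + if a = s.fst ∧ j = 0 then s.br * ex L 0 - l.m else 0
  | .split s _, L, .inl a, j => cf s L a j
  | .split _ t, L, .inr a, j => cf t L a j

/-- the feature of the noise coordinate `i` -/
def ft (s : Sh) (L : List (Lv Ω)) (i : NT s L) : Pa s.Lf Ω :=
  stT s L 0 (@Pi.single _ _ _ (Classical.decEq _) i 1)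

namespace Sd

/-! ### the paths are affine -/

theorem fld_add (l : Lv Ω) (g g' : l.ι → ℝ) : l.fld (g + g') = l.fld g + l.fld g' := by
  funext x; simp [Lv.fld, mul_add, Finset.sum_add_distrib]

theorem fld_smul (l : Lv Ω) (c : ℝ) (g : l.ι → ℝ) : l.fld (c • g) = c • l.fld g := by
  funext x; simp [Lv.fld, Finset.mul_sum, mul_left_comm]

theorem fld_zero (l : Lv Ω) : l.fld 0 = 0 := by funext x; simp [Lv.fld]

theorem st_lin (c : ℝ) : ∀ (L : List (Lv Ω)) (j : ℕ) (h h' : Ω → ℝ) (g g' : NI L → ℝ),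
    st L j (h + c • h') (g + c • g') = st L j h g + c • st L j h' g'
  | [], 0, _, _, _, _ => rfl
  | _ :: _, 0, _, _, _, _ => rfl
  | [], _ + 1, _, _, _, _ => rfl
  | l :: L, j + 1, h, h', g, g' => by
      have e : h + c • h' + l.fld (fun i => (g + c • g') (.inl i)) =
          (h + l.fld fun i => g (.inl i)) + c • (h' + l.fld fun i => g' (.inl i)) := by
        rw [show (fun i => (g + c • g') (.inl i)) =
          (fun i => g (.inl i)) + c • fun i => g' (.inl i) from rfl, fld_add, fld_smul, smul_add]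
        abel
      exact (congrArg (fun z => st L j z fun i => (g + c • g') (.inr i)) e).trans
        (st_lin c L j _ _ (fun i => g (.inr i)) fun i => g' (.inr i))

theorem stT_lin (c : ℝ) : ∀ (s : Sh) (L : List (Lv Ω)) (h h' : Ω → ℝ) (g g' : NT s L → ℝ)
    (a : s.Lf) (j : ℕ),
    stT s L (h + c • h') (g + c • g') a j = stT s L h g a j + c • stT s L h' g' a j
  | .one, L, h, h', g, g', _, j => st_lin c L j h h' g g'
  | .step s, [], h, h', g, g', a, j => stT_lin c s [] h h' g g' a j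
  | .step _, _ :: _, _, _, _, _, _, 0 => rfl
  | .step s, l :: L, h, h', g, g', a, j + 1 => by
      have e : h + c • h' + l.fld (fun i => (g + c • g') (.inl i)) =
          (h + l.fld fun i => g (.inl i)) + c • (h' + l.fld fun i => g' (.inl i)) := by
        rw [show (fun i => (g + c • g') (.inl i)) =
          (fun i => g (.inl i)) + c • fun i => g' (.inl i) from rfl, fld_add, fld_smul, smul_add]
        abel
      exact (congrArg (fun z => stT s L z (fun i => (g + c • g') (.inr i)) a j) e).trans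
        (stT_lin c s L _ _ (fun i => g (.inr i)) (fun i => g' (.inr i)) a j)
  | .split s _, L, h, h', g, g', .inl a, j =>
      stT_lin c s L h h' (fun i => g (.inl i)) (fun i => g' (.inl i)) a j
  | .split _ t, L, h, h', g, g', .inr a, j =>
      stT_lin c t L h h' (fun i => g (.inr i)) (fun i => g' (.inr i)) a j

theorem st_g0 : ∀ (L : List (Lv Ω)) (j : ℕ) (h : Ω → ℝ), st L j h 0 = h
  | [], 0, _ => rfl
  | _ :: _, 0, _ => rfl
  | [], _ + 1, _ => rfl
  | l :: L, j + 1, h => by
      show st L j (h + l.fld 0) 0 = h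
      rw [fld_zero, add_zero, st_g0 L j h]

theorem stT_g0 : ∀ (s : Sh) (L : List (Lv Ω)) (h : Ω → ℝ) (a : s.Lf) (j : ℕ),
    stT s L h 0 a j = h
  | .one, L, h, _, j => st_g0 L j h
  | .step s, [], h, a, j => stT_g0 s [] h a j
  | .step _, _ :: _, _, _, 0 => rfl
  | .step s, l :: L, h, a, j + 1 => by
      show stT s L (h + l.fld 0) 0 a j = h
      rw [fld_zero, add_zero, stT_g0 s L h a j]
  | .split s _, L, h, .inl a, j => stT_g0 s L h a j
  | .split _ t, L, h, .inr a, j => stT_g0 t L h a j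

theorem stT_zero : ∀ (s : Sh) (L : List (Lv Ω)) (h : Ω → ℝ) (g : NT s L → ℝ) (a : s.Lf),
    stT s L h g a 0 = h
  | .one, [], _, _, _ => rfl
  | .one, _ :: _, _, _, _ => rfl
  | .step s, [], h, g, a => stT_zero s [] h g a
  | .step _, _ :: _, _, _, _ => rfl
  | .split s _, L, h, _, .inl a => stT_zero s L h _ a
  | .split _ t, L, h, _, .inr a => stT_zero t L h _ a

theorem stT_nil : ∀ (s : Sh) (h : Ω → ℝ) (g : NT s ([] : List (Lv Ω)) → ℝ) (a : s.Lf) (j : ℕ),
    stT s [] h g a j = h
  | .one, _, _, _, 0 => rfl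
  | .one, _, _, _, _ + 1 => rfl
  | .step s, h, g, a, j => stT_nil s h g a j
  | .split s _, h, _, .inl a, j => stT_nil s h _ a j
  | .split _ t, h, _, .inr a, j => stT_nil t h _ a j

theorem stT_lin' (s : Sh) (L : List (Lv Ω)) (c : ℝ) (h h' : Ω → ℝ) (g g' : NT s L → ℝ) :
    stT s L (h + c • h') (g + c • g') = stT s L h g + c • stT s L h' g' :=
  funext fun a => funext fun j => stT_lin c s L h h' g g' a j

/-- the noise part of the paths as a linear map -/
def stL (s : Sh) (L : List (Lv Ω)) : (NT s L → ℝ) →ₗ[ℝ] Pa s.Lf Ω where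
  toFun g := stT s L 0 g
  map_add' g g' := by simpa using stT_lin' s L 1 0 0 g g'
  map_smul' c g := by
    have := stT_lin' s L c 0 0 0 g
    rw [show stT s L 0 0 = 0 from funext fun a => funext fun j => stT_g0 s L 0 a j] at this
    simpa using this

theorem stT_eq_add (s : Sh) (L : List (Lv Ω)) (h : Ω → ℝ) (g : NT s L → ℝ) :
    stT s L h g = (fun _ _ => h) + stT s L 0 g := by
  have := stT_lin' s L 1 h 0 0 g
  rw [show stT s L h 0 = fun _ _ => h from funext fun a => funext fun j => stT_g0 s L h a j] at this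
  simpa using this

theorem stT_eq_sum (s : Sh) (L : List (Lv Ω)) (η : NT s L → ℝ) :
    stT s L 0 η = ∑ i, η i • ft s L i := by
  classical
  have := (stL s L).pi_apply_eq_sum_univ η
  refine this.trans (Finset.sum_congr rfl fun i _ => ?_)
  congr 1
  show stT s L 0 _ = stT s L 0 _
  congr 1
  funext k
  by_cases hk : i = k
  · subst hk; simp
  · simp [hk, Ne.symm hk]

theorem stT_apply (s : Sh) (L : List (Lv Ω)) (h : Ω → ℝ) (g : NT s L → ℝ) (a : s.Lf) (j : ℕ)
    (y : Ω) : stT s L h g a j y = h y + ∑ i, g i * ft s L i a j y := by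
  rw [stT_eq_add, stT_eq_sum]
  simp [Finset.sum_apply]

end Sd

variable [Fintype Ω]

/-- the planted potential as a function of the paths -/
def UP (w : Ω → ℝ) (s : Sh) (L : List (Lv Ω)) (x : s.Lf → Ω) (p : Pa s.Lf Ω) : ℝ :=
  ∑ a, ∑ j ∈ Finset.range (L.length + 1), cf s L a j * X w (L.drop j) (p a j) -
    ∑ a, p a L.length (x a)

/-- its derivative in the direction `q` -/
def DP (w : Ω → ℝ) (s : Sh) (L : List (Lv Ω)) (x : s.Lf → Ω) (p q : Pa s.Lf Ω) : ℝ :=
  ∑ a, ∑ j ∈ Finset.range (L.length + 1), cf s L a j * Pf w (L.drop j) (p a j) (q a j) -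
    ∑ a, q a L.length (x a)

/-- functions of the paths that have exponential growth under every substitution -/
def EgP {κ : Type} (Φ : Pa κ Ω → ℝ) : Prop :=
  ∀ (ι : Type) [Fintype ι] (p : (ι → ℝ) → Pa κ Ω), (∀ a j y, Lg fun g => p g a j y) →
    Eg fun g => Φ (p g)

/-- functions of the paths with derivative `Φ'` -/
structure GrP {κ : Type} (Φ : Pa κ Ω → ℝ) (Φ' : Pa κ Ω → Pa κ Ω → ℝ) : Prop where
  eg : EgP Φ
  eg' : ∀ q, EgP fun p => Φ' p q
  lin : ∀ p, IsLinearMap ℝ (Φ' p)
  der : ∀ (c : ℝ → Pa κ Ω) (q : Pa κ Ω) (t : ℝ),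
    (∀ a j y, HasDerivAt (fun t => c t a j y) (q a j y) t) →
    HasDerivAt (fun t => Φ (c t)) (Φ' (c t) q) t

namespace EgP

variable {κ : Type} {Φ Ψ : Pa κ Ω → ℝ}

theorem const (c : ℝ) : EgP fun _ : Pa κ Ω => c := fun _ _ _ _ => Eg.const c

theorem add (h : EgP Φ) (h' : EgP Ψ) : EgP fun p => Φ p + Ψ p :=
  fun ι _ p hp => (h ι p hp).add (h' ι p hp)

theorem sub (h : EgP Φ) (h' : EgP Ψ) : EgP fun p => Φ p - Ψ p :=
  fun ι _ p hp => (h ι p hp).sub (h' ι p hp)

theorem mul (h : EgP Φ) (h' : EgP Ψ) : EgP fun p => Φ p * Ψ p :=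
  fun ι _ p hp => (h ι p hp).mul (h' ι p hp)

theorem sum {α : Type*} (S : Finset α) {Φ : α → Pa κ Ω → ℝ} (h : ∀ k ∈ S, EgP (Φ k)) :
    EgP fun p => ∑ k ∈ S, Φ k p := fun ι _ p hp => Eg.sum S fun k hk => h k hk ι p hp

theorem state {F : (Ω → ℝ) → ℝ} (h : Eg F) (a : κ) (j : ℕ) : EgP fun p : Pa κ Ω => F (p a j) :=
  fun _ _ _ hp => Tr.eg_comp h (hp a j)

theorem comp {κ' : Type} (h : EgP Φ) {T : Pa κ' Ω → Pa κ Ω}
    (hT : ∀ (ι : Type) [Fintype ι] (p : (ι → ℝ) → Pa κ' Ω), (∀ a j y, Lg fun g => p g a j y) →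
      ∀ a j y, Lg fun g => T (p g) a j y) : EgP fun p => Φ (T p) :=
  fun ι _ p hp => h ι (fun g => T (p g)) (hT ι p hp)

theorem stT {s : Sh} {Φ : Pa s.Lf Ω → ℝ} (hΦ : EgP Φ) (L : List (Lv Ω)) (h : Ω → ℝ) :
    Eg fun g => Φ (stT s L h g) :=
  hΦ _ _ fun a j => Tr.lg_stT s L a j (H := fun _ => h) (G := fun g => g)
    (fun _ => Tr.lg_const _) fun i => Tr.lg_coord i

end EgP

theorem eg_Pf {w : Ω → ℝ} (hw : Wt w) (L : List (Lv Ω)) (f : Ω → ℝ) : Eg fun z => Pf w L z f :=
  Eg.sum _ fun x _ => (eg_P hw L x).mul_const _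

theorem gr_Pf {w : Ω → ℝ} (hw : Wt w) (L : List (Lv Ω)) (f : Ω → ℝ) :
    Gr (fun z => Pf w L z f) fun y z => ∑ x, f x * Hs w L z x y := by
  have := Gr.sum Finset.univ fun x _ => (gr_P hw L x).const_mul (f x)
  simpa only [Pf, mul_comm] using this

namespace GrP

variable {κ : Type} {Φ Ψ : Pa κ Ω → ℝ} {Φ' Ψ' : Pa κ Ω → Pa κ Ω → ℝ}

theorem congr (h : GrP Φ Φ') (e : ∀ p q, Ψ' p q = Φ' p q) : GrP Φ Ψ' := by
  rwa [show Ψ' = Φ' from funext fun p => funext (e p)]

theorem const (c : ℝ) : GrP (fun _ : Pa κ Ω => c) fun _ _ => 0 :=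
  ⟨.const c, fun _ => .const 0, fun _ => ⟨by simp, by simp⟩, fun _ _ t _ => hasDerivAt_const t c⟩

theorem add (h : GrP Φ Φ') (h' : GrP Ψ Ψ') :
    GrP (fun p => Φ p + Ψ p) fun p q => Φ' p q + Ψ' p q :=
  ⟨h.eg.add h'.eg, fun q => (h.eg' q).add (h'.eg' q), fun p => ⟨fun q q' => by
    rw [(h.lin p).map_add, (h'.lin p).map_add]; ring, fun c q => by
    rw [(h.lin p).map_smul, (h'.lin p).map_smul, smul_add]⟩,
    fun c q t hc => (h.der c q t hc).add (h'.der c q t hc)⟩

theorem mul (h : GrP Φ Φ') (h' : GrP Ψ Ψ') :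
    GrP (fun p => Φ p * Ψ p) fun p q => Φ' p q * Ψ p + Φ p * Ψ' p q :=
  ⟨h.eg.mul h'.eg, fun q => ((h.eg' q).mul h'.eg).add (h.eg.mul (h'.eg' q)),
    fun p => ⟨fun q q' => by rw [(h.lin p).map_add, (h'.lin p).map_add]; ring, fun c q => by
      rw [(h.lin p).map_smul, (h'.lin p).map_smul]; simp only [smul_eq_mul]; ring⟩,
    fun c q t hc => (h.der c q t hc).mul (h'.der c q t hc)⟩

theorem const_mul (c : ℝ) (h : GrP Φ Φ') : GrP (fun p => c * Φ p) fun p q => c * Φ' p q :=
  ((const c).mul h).congr fun _ _ => by simp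

theorem sub (h : GrP Φ Φ') (h' : GrP Ψ Ψ') :
    GrP (fun p => Φ p - Ψ p) fun p q => Φ' p q - Ψ' p q := by
  simpa [sub_eq_add_neg] using h.add (h'.const_mul (-1))

theorem sum {α : Type*} (S : Finset α) {Φ : α → Pa κ Ω → ℝ} {Φ' : α → Pa κ Ω → Pa κ Ω → ℝ}
    (h : ∀ k ∈ S, GrP (Φ k) (Φ' k)) :
    GrP (fun p => ∑ k ∈ S, Φ k p) fun p q => ∑ k ∈ S, Φ' k p q := by
  classical
  induction S using Finset.induction_on with
  | empty => simpa using const (κ := κ) (Ω := Ω) 0
  | insert a S ha ih =>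
    simp only [Finset.sum_insert ha]
    exact (h a (by simp)).add (ih fun b hb => h b (by simp [hb]))

/-- a smooth function of one state -/
theorem state {F : (Ω → ℝ) → ℝ} {F₁ : Ω → (Ω → ℝ) → ℝ} (h : Gr F F₁) (a : κ) (j : ℕ) :
    GrP (fun p : Pa κ Ω => F (p a j)) fun p q => ∑ y, F₁ y (p a j) * q a j y :=
  ⟨.state h.eg a j, fun q => .sum _ fun y _ => (EgP.state (h.eg' y) a j).mul (.const _),
    fun p => ⟨fun q q' => by simp [mul_add, Finset.sum_add_distrib], fun c q => by
      simp [Finset.mul_sum, mul_left_comm]⟩,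
    fun c q t hc => h.hasDerivAt (c := fun t => c t a j) (hasDerivAt_pi.2 (hc a j))⟩

theorem coord (a : κ) (j : ℕ) (y : Ω) : GrP (fun p : Pa κ Ω => p a j y) fun _ q => q a j y :=
  ⟨.state (Eg.coord y) a j, fun _ => .const _, fun _ => ⟨fun _ _ => rfl, fun _ _ => rfl⟩,
    fun _ _ _ hc => hc a j y⟩

/-- the mean at a node; its derivative is the Hessian form -/
theorem pf {w : Ω → ℝ} (hw : Wt w) (L : List (Lv Ω)) (f : Ω → ℝ) (a : κ) (j : ℕ) :
    GrP (fun p : Pa κ Ω => Pf w L (p a j) f) fun p q => Hb w L (p a j) f (q a j) :=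
  (state (gr_Pf hw L f) a j).congr fun p q => by
    simp only [Hb, Finset.sum_mul]
    rw [Finset.sum_comm]
    exact Finset.sum_congr rfl fun _ _ => Finset.sum_congr rfl fun _ _ => by ring

end GrP

theorem grP_UP {w : Ω → ℝ} (hw : Wt w) (s : Sh) (L : List (Lv Ω)) (x : s.Lf → Ω) :
    GrP (UP w s L x) (DP w s L x) :=
  (GrP.sum _ fun a _ => GrP.sum _ fun j _ =>
    (GrP.state (gr_X hw (L.drop j)) a j).const_mul (cf s L a j)).sub
    (GrP.sum _ fun a _ => GrP.coord a L.length (x a))

namespace Sd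

theorem sum_ite (s : Sh) (n : ℕ) (c : ℝ) (G : s.Lf → ℕ → ℝ) :
    ∑ a, ∑ j ∈ Finset.range (n + 1), (if a = s.fst ∧ j = 0 then c else 0) * G a j =
      c * G s.fst 0 := by
  rw [Finset.sum_eq_single s.fst (fun a _ ha => by simp [ha]) (by simp),
    Finset.sum_eq_single 0 (fun j _ hj => by simp [hj]) (by simp)]
  simp

end Sd

/-- **the potential is a function of the paths** -/
theorem UT_eq (w : Ω → ℝ) : ∀ (s : Sh) (L : List (Lv Ω)) (h : Ω → ℝ) (x : s.Lf → Ω)
    (g : NT s L → ℝ), UT w s L h x g = UP w s L x (stT s L h g)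
  | .one, L, h, x, g => by
      show U w L h (x ()) g = ∑ a : Unit, _ - ∑ a : Unit, _
      rw [Fintype.sum_unique, Fintype.sum_unique, Finset.sum_range_succ']
      show _ = ∑ j ∈ Finset.range L.length, dm L 0 (j + 1) * Ph w L (j + 1) h g + 0 * _ - _
      rw [zero_mul, add_zero]
      rfl
  | .step s, [], h, x, g => by
      show UT w s [] h x g + (s.br - 1) * X w [] h = ∑ a : s.Lf, ∑ j ∈ Finset.range (0 + 1),
        (cf s [] a j + if a = s.fst ∧ j = 0 then (s.br : ℝ) - 1 else 0) *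
          X w (List.drop j []) (stT s [] h g a j) - ∑ a : s.Lf, stT s [] h g a 0 (x a)
      simp only [add_mul, Finset.sum_add_distrib]
      rw [Sd.sum_ite s 0 _ fun a j => X w (List.drop j []) (stT s [] h g a j), UT_eq w s [] h x g,
        Sd.stT_zero, UP]
      simp only [List.length_nil, List.drop_nil]
      ring
  | .step s, l :: L, h, x, g => by
      show UT w s L (h + l.fld fun i => g (.inl i)) x (fun i => g (.inr i)) +
        (s.br * ex L 0 - l.m) * X w L (h + l.fld fun i => g (.inl i)) =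
        ∑ a : s.Lf, ∑ j ∈ Finset.range (L.length + 1 + 1), cf (.step s) (l :: L) a j *
          X w ((l :: L).drop j) (stT (.step s) (l :: L) h g a j) -
          ∑ a : s.Lf, stT s L (h + l.fld fun i => g (.inl i)) (fun i => g (.inr i)) a L.length (x a)
      simp only [Finset.sum_range_succ' _ (L.length + 1)]
      show _ = ∑ a : s.Lf, (∑ j ∈ Finset.range (L.length + 1),
        (cf s L a j + if a = s.fst ∧ j = 0 then s.br * ex L 0 - l.m else 0) * X w (L.drop j)
          (stT s L (h + l.fld fun i => g (.inl i)) (fun i => g (.inr i)) a j) + 0 * _) - _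
      simp only [add_mul, Finset.sum_add_distrib, zero_mul, add_zero]
      rw [Sd.sum_ite s L.length _ fun a j => X w (L.drop j)
        (stT s L (h + l.fld fun i => g (.inl i)) (fun i => g (.inr i)) a j), UT_eq w s L,
        Sd.stT_zero, UP, List.drop_zero]
      ring
  | .split s t, L, h, x, g => by
      show UT w s L h (fun a => x (.inl a)) (fun i => g (.inl i)) +
        UT w t L h (fun a => x (.inr a)) (fun i => g (.inr i)) =
        ∑ a : s.Lf ⊕ t.Lf, _ - ∑ a : s.Lf ⊕ t.Lf, _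
      rw [Fintype.sum_sum_type, Fintype.sum_sum_type, UT_eq w s, UT_eq w t, UP, UP]
      show _ = (∑ a : s.Lf, ∑ j ∈ Finset.range (L.length + 1), cf s L a j *
          X w (L.drop j) (stT s L h (fun i => g (.inl i)) a j) +
        ∑ a : t.Lf, ∑ j ∈ Finset.range (L.length + 1), cf t L a j *
          X w (L.drop j) (stT t L h (fun i => g (.inr i)) a j)) -
        (∑ a : s.Lf, stT s L h (fun i => g (.inl i)) a L.length (x (.inl a)) +
          ∑ a : t.Lf, stT t L h (fun i => g (.inr i)) a L.length (x (.inr a)))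
      ring

omit [Fintype Ω] in
/-- total weight of the new replica -/
theorem sum_cf : ∀ (s : Sh) (L : List (Lv Ω)),
    ∑ a, ∑ j ∈ Finset.range (L.length + 1), cf s L a j = Fintype.card s.Lf - s.br * ex L 0
  | .one, L => by
      show ∑ a : Unit, _ = ((Fintype.card Unit : ℕ) : ℝ) - ((1 : ℕ) : ℝ) * ex L 0
      have h := sum_dm L 0 L.length
      rw [Finset.sum_range_succ', ex_length] at h
      rw [Fintype.sum_unique, Finset.sum_range_succ']
      show ∑ j ∈ Finset.range L.length, dm L 0 (j + 1) + 0 = _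
      have h0 : dm L 0 0 = ex L 0 := sub_zero _
      simp only [Fintype.card_unique, Nat.cast_one]
      linarith
  | .step s, [] => by
      show ∑ a : s.Lf, ∑ j ∈ Finset.range (0 + 1),
        (cf s [] a j + if a = s.fst ∧ j = 0 then (s.br : ℝ) - 1 else 0) =
        ((Fintype.card s.Lf : ℕ) : ℝ) - ((1 : ℕ) : ℝ) * 1
      have h1 := Sd.sum_ite s 0 ((s.br : ℝ) - 1) fun _ _ => 1
      have h2 : ∑ a : s.Lf, ∑ j ∈ Finset.range (0 + 1), cf s ([] : List (Lv Ω)) a j =
        Fintype.card s.Lf - s.br * 1 := sum_cf s []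
      simp only [mul_one] at h1 h2
      simp only [Finset.sum_add_distrib, h1, h2]
      push_cast; ring
  | .step s, l :: L => by
      show ∑ a : s.Lf, ∑ j ∈ Finset.range (L.length + 1 + 1), cf (.step s) (l :: L) a j =
        ((Fintype.card s.Lf : ℕ) : ℝ) - ((1 : ℕ) : ℝ) * l.m
      simp only [Finset.sum_range_succ' _ (L.length + 1)]
      show ∑ a : s.Lf, (∑ j ∈ Finset.range (L.length + 1),
        (cf s L a j + if a = s.fst ∧ j = 0 then s.br * ex L 0 - l.m else 0) + 0) = _
      have h1 := Sd.sum_ite s L.length (s.br * ex L 0 - l.m) fun _ _ => 1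
      simp only [mul_one] at h1
      simp only [Finset.sum_add_distrib, add_zero, h1, sum_cf s L]
      push_cast; ring
  | .split s t, L => by
      show ∑ a : s.Lf ⊕ t.Lf, _ = ((Fintype.card (s.Lf ⊕ t.Lf) : ℕ) : ℝ) -
        ((s.br + t.br : ℕ) : ℝ) * ex L 0
      rw [Fintype.sum_sum_type, Fintype.card_sum]
      show ∑ a : s.Lf, ∑ j ∈ Finset.range (L.length + 1), cf s L a j +
        ∑ a : t.Lf, ∑ j ∈ Finset.range (L.length + 1), cf t L a j = _
      rw [sum_cf s L, sum_cf t L]
      push_cast; ring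

omit [Fintype Ω] in
theorem cf_nonneg : ∀ (s : Sh) (L : List (Lv Ω)) (m0 : ℝ), 0 ≤ m0 → Mono m0 L →
    ∀ a j, 0 ≤ cf s L a j
  | .one, _, _, _, _, _, 0 => le_rfl
  | .one, L, m0, _, h, _, j + 1 => dm_nonneg h (j + 1)
  | .step s, [], m0, h0, h, a, j => add_nonneg (cf_nonneg s [] m0 h0 h a j) (by
      have : (1 : ℝ) ≤ s.br := by exact_mod_cast s.one_le_br90
      split_ifs <;> linarith)
  | .step _, _ :: _, _, _, _, _, 0 => le_rfl
  | .step s, l :: L, m0, h0, h, a, j + 1 =>
      add_nonneg (cf_nonneg s L l.m (h0.trans h.1) h.2 a j) (by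
        have h1 : (1 : ℝ) ≤ s.br := by exact_mod_cast s.one_le_br90
        have h2 : 0 ≤ ex L 0 - l.m := dm_nonneg h.2 0
        have h3 : 0 ≤ l.m := h0.trans h.1
        split_ifs <;> nlinarith)
  | .split s _, L, m0, h0, h, .inl a, j => cf_nonneg s L m0 h0 h a j
  | .split _ t, L, m0, h0, h, .inr a, j => cf_nonneg t L m0 h0 h a j

end Crest.Agent.T156.Cas

end
private theorem rz_10594f0496 : type_of% @_root_.Crest.Agent.T156.Cas.Sh.shr.eq_def := @_root_.Crest.Agent.T156.Cas.Sh.shr.eq_def -- L28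
private theorem rz_9e3dcb6d5f : type_of% @_root_.Crest.Agent.T156.Cas.Sh.shr.eq_1 := @_root_.Crest.Agent.T156.Cas.Sh.shr.eq_1 -- L28
private theorem rz_a8d25f7d57 : type_of% @_root_.Crest.Agent.T156.Cas.cf.eq_def := @_root_.Crest.Agent.T156.Cas.cf.eq_def -- L49
private theorem rz_810daa3775 : type_of% @_root_.Crest.Agent.T156.Cas.cf.eq_1 := @_root_.Crest.Agent.T156.Cas.cf.eq_1 -- L49
end

-- ▼ part T156/CaSdB_90

/-!
# Row 156 (helper90): Stein and response formulas under the tree law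

`stein_tX` (any smooth function of the noise), `stein_dir` (functions of the paths, direction
depending on the leaves), `hasDerivAt_tX` (response to a shift of the root state),
`fe_cov` (covariance of the features), `stein_cov`.
-/

set_option autoImplicit false
set_option linter.unusedSectionVars false

noncomputable section

namespace Crest.Agent.T156.Cas

open MeasureTheory Real Set Filter Topology
open Crest.Agent.T157.E Crest.Agent.T157.Casc Crest.Agent.T157.SL

variable {Ω : Type} [Fintype Ω] {w : Ω → ℝ}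

namespace Sd

theorem tX_sum (hw : Wt w) (s : Sh) (L : List (Lv Ω)) (h : Ω → ℝ) {α : Type*} (S : Finset α)
    {F : α → (NT s L → ℝ) → (s.Lf → Ω) → ℝ} (hF : ∀ k ∈ S, ∀ x, Eg fun g => F k g x) :
    tX w s L h (fun g x => ∑ k ∈ S, F k g x) = ∑ k ∈ S, tX w s L h (F k) := by
  simp only [tX]
  rw [← integral_finsetSum _ fun k hk => Tr.eg_int (Tr.eg_sumT hw s L h (hF k hk))]
  refine integral_congr_ae (.of_forall fun g => ?_)
  simp only [Finset.mul_sum]
  exact Finset.sum_comm

theorem tX_add (hw : Wt w) (s : Sh) (L : List (Lv Ω)) (h : Ω → ℝ)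
    {F G : (NT s L → ℝ) → (s.Lf → Ω) → ℝ} (hF : ∀ x, Eg fun g => F g x)
    (hG : ∀ x, Eg fun g => G g x) :
    tX w s L h (fun g x => F g x + G g x) = tX w s L h F + tX w s L h G := by
  simp only [tX, mul_add, Finset.sum_add_distrib]
  exact integral_add (Tr.eg_int (Tr.eg_sumT hw s L h hF)) (Tr.eg_int (Tr.eg_sumT hw s L h hG))

theorem tX_sub (hw : Wt w) (s : Sh) (L : List (Lv Ω)) (h : Ω → ℝ)
    {F G : (NT s L → ℝ) → (s.Lf → Ω) → ℝ} (hF : ∀ x, Eg fun g => F g x)
    (hG : ∀ x, Eg fun g => G g x) :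
    tX w s L h (fun g x => F g x - G g x) = tX w s L h F - tX w s L h G := by
  simp only [tX, mul_sub, Finset.sum_sub_distrib]
  exact integral_sub (Tr.eg_int (Tr.eg_sumT hw s L h hF)) (Tr.eg_int (Tr.eg_sumT hw s L h hG))

theorem tX_const_mul (w : Ω → ℝ) (s : Sh) (L : List (Lv Ω)) (h : Ω → ℝ) (c : ℝ)
    (F : (NT s L → ℝ) → (s.Lf → Ω) → ℝ) :
    tX w s L h (fun g x => c * F g x) = c * tX w s L h F := by
  simp only [tX, ← integral_const_mul, Finset.mul_sum, mul_left_comm c]

theorem tX_eq_sum (hw : Wt w) (s : Sh) (L : List (Lv Ω)) (h : Ω → ℝ)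
    {F : (NT s L → ℝ) → (s.Lf → Ω) → ℝ} (hF : ∀ x, Eg fun g => F g x) :
    tX w s L h F = ∑ x, ∫ g, denT w s L h g x * F g x ∂gv (NT s L) :=
  integral_finsetSum _ fun x _ => Tr.eg_int ((Tr.eg_denT hw s L h x).mul (hF x))

theorem tX_nonneg (hw : Wt w) (s : Sh) (L : List (Lv Ω)) (h : Ω → ℝ)
    {F : (NT s L → ℝ) → (s.Lf → Ω) → ℝ} (hF : ∀ g x, 0 ≤ F g x) : 0 ≤ tX w s L h F :=
  integral_nonneg fun g => Finset.sum_nonneg fun x _ =>
    mul_nonneg (Tr.denT_nonneg hw s L h g x) (hF g x)

theorem tX_mono (hw : Wt w) (s : Sh) (L : List (Lv Ω)) (h : Ω → ℝ)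
    {F G : (NT s L → ℝ) → (s.Lf → Ω) → ℝ} (hF : ∀ x, Eg fun g => F g x)
    (hG : ∀ x, Eg fun g => G g x) (e : ∀ g x, F g x ≤ G g x) : tX w s L h F ≤ tX w s L h G := by
  rw [← sub_nonneg, ← tX_sub hw s L h hG hF]
  exact tX_nonneg hw s L h fun g x => sub_nonneg.2 (e g x)

/-- the paths along a coordinate line -/
theorem der_upd (s : Sh) (L : List (Lv Ω)) (h : Ω → ℝ) [DecidableEq (NT s L)] (g : NT s L → ℝ)
    (i : NT s L) (t : ℝ) (a : s.Lf) (j : ℕ) (y : Ω) :
    HasDerivAt (fun t => stT s L h (Function.update g i t) a j y) (ft s L i a j y) t := by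
  simp only [stT_apply s L h]
  have := HasDerivAt.fun_sum (u := Finset.univ)
    (A := fun k t => Function.update g i t k * ft s L k a j y)
    (A' := fun k => (if k = i then 1 else 0) * ft s L k a j y) (x := t) fun k _ => by
      refine HasDerivAt.mul_const ?_ _
      by_cases hk : k = i
      · subst hk; simpa using hasDerivAt_id' t
      · simpa [hk] using hasDerivAt_const t (g k)
  exact (this.const_add (h y)).congr_deriv (by simp)

theorem eg_DP (hw : Wt w) (s : Sh) (L : List (Lv Ω)) (h : Ω → ℝ) (x : s.Lf → Ω) (q : Pa s.Lf Ω) :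
    Eg fun g => DP w s L x (stT s L h g) q := ((grP_UP hw s L x).eg' q).stT L h

theorem lin_sum {s : Sh} {L : List (Lv Ω)} {D : Pa s.Lf Ω → ℝ} (hD : IsLinearMap ℝ D)
    (η : NT s L → ℝ) : D (stT s L 0 η) = ∑ i, η i * D (ft s L i) := by
  rw [stT_eq_sum, show D = IsLinearMap.mk' D hD from rfl, map_sum]
  exact Finset.sum_congr rfl fun i _ => by rw [map_smul, smul_eq_mul]

theorem stein_line (hw : Wt w) (s : Sh) (L : List (Lv Ω)) (h : Ω → ℝ) [DecidableEq (NT s L)]
    (i : NT s L) {F F₁ : (NT s L → ℝ) → (s.Lf → Ω) → ℝ} (hF : ∀ x, Eg fun g => F g x)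
    (hF₁ : ∀ x, Eg fun g => F₁ g x)
    (hd : ∀ x g, HasDerivAt (fun t => F (Function.update g i t) x) (F₁ g x) (g i)) :
    tX w s L h (fun g x => g i * F g x) =
      tX w s L h F₁ - tX w s L h fun g x => F g x * DP w s L x (stT s L h g) (ft s L i) := by
  have e2 := fun x => (hF x).mul (eg_DP hw s L h x (ft s L i))
  rw [← tX_sub hw s L h hF₁ e2, tX_eq_sum hw s L h fun x => (Eg.coord i).mul (hF x),
    tX_eq_sum hw s L h fun x => (hF₁ x).sub (e2 x)]
  refine Finset.sum_congr rfl fun x _ => ?_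
  have := stein (I := univ) (((Tr.eg_denT hw s L h x).mul (hF x)).toEG univ)
    (((Tr.eg_denT hw s L h x).mul ((hF₁ x).sub (e2 x))).toEG univ) (mem_univ 0) i fun g => by
      have h1 := (grP_UP hw s L x).der (fun t => stT s L h (Function.update g i t)) (ft s L i)
        (g i) (der_upd s L h g i (g i))
      have h2 := ((h1.neg.exp).const_mul
        ((∏ a, w (x a)) * exp (-(s.br * ex L 0 * X w L h)))).mul (hd x g)
      simp only [Tr.denT_eq, UT_eq]
      refine h2.congr_deriv ?_
      simp only [Function.update_eq_self, Pi.neg_apply]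
      ring
  refine Eq.trans ?_ this
  exact integral_congr_ae (.of_forall fun g => by simp only; ring)

end Sd



/-- **Stein's identity** for functions of the paths -/
theorem stein_dir (hw : Wt w) (s : Sh) (L : List (Lv Ω)) (h : Ω → ℝ)
    (η : (s.Lf → Ω) → NT s L → ℝ) {F : Pa s.Lf Ω → (s.Lf → Ω) → ℝ}
    {F' : (s.Lf → Ω) → Pa s.Lf Ω → Pa s.Lf Ω → ℝ} (hF : ∀ x, GrP (fun p => F p x) (F' x)) :
    tX w s L h (fun g x => (∑ i, η x i * g i) * F (stT s L h g) x) =
      tX w s L h (fun g x => F' x (stT s L h g) (stT s L 0 (η x))) -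
      tX w s L h fun g x => F (stT s L h g) x * DP w s L x (stT s L h g) (stT s L 0 (η x)) := by
  classical
  have h1 : ∀ i, tX w s L h (fun g x => g i * (η x i * F (stT s L h g) x)) =
      tX w s L h (fun g x => η x i * F' x (stT s L h g) (ft s L i)) -
        tX w s L h fun g x => η x i * F (stT s L h g) x * DP w s L x (stT s L h g) (ft s L i) :=
    fun i => Sd.stein_line hw s L h i (fun x => ((hF x).eg.stT L h).const_mul _)
      (fun x => (((hF x).eg' _).stT L h).const_mul _) fun x g => by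
        have := ((hF x).der (fun t => stT s L h (Function.update g i t)) (ft s L i) (g i)
          (Sd.der_upd s L h g i (g i))).const_mul (η x i)
        simpa only [Function.update_eq_self] using this
  have h2 := Finset.sum_congr rfl fun i (_ : i ∈ Finset.univ) => h1 i
  rw [Finset.sum_sub_distrib,
    ← Sd.tX_sum hw s L h _ fun i _ x => (Eg.coord i).mul (((hF x).eg.stT L h).const_mul _),
    ← Sd.tX_sum hw s L h _ fun i _ x => (((hF x).eg' _).stT L h).const_mul _,
    ← Sd.tX_sum hw s L h _ fun i _ x =>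
      (((hF x).eg.stT L h).const_mul _).mul (Sd.eg_DP hw s L h x _)] at h2
  have e : ∀ x g, DP w s L x (stT s L h g) (stT s L 0 (η x)) =
      ∑ i, η x i * DP w s L x (stT s L h g) (ft s L i) :=
    fun x g => Sd.lin_sum ((grP_UP hw s L x).lin (stT s L h g)) (η x)
  have e' : ∀ x g, F' x (stT s L h g) (stT s L 0 (η x)) =
      ∑ i, η x i * F' x (stT s L h g) (ft s L i) :=
    fun x g => Sd.lin_sum ((hF x).lin (stT s L h g)) (η x)
  simp only [e, e', Finset.sum_mul, Finset.mul_sum]
  refine Eq.trans ?_ (h2.trans ?_)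
  · simp only [mul_assoc, mul_left_comm]
  · simp only [mul_assoc, mul_left_comm]

namespace Sd

/-- joint growth in (time, noise) -/
theorem eG_of_eg {ι : Type} [Fintype ι] {G : (Option ι → ℝ) → ℝ} (hG : Eg G) (T : ℝ) :
    EG (Ioo (-T) T) fun p : Pt ι => G fun o => o.elim p.1 p.2 := by
  classical
  refine (hG.toEG univ).comp (J := Ioo (-T) T)
    (φ := fun p : Pt ι => (p.1, fun o : Option ι => o.elim p.1 p.2)) ?_ (fun _ _ => trivial) |T| 1
    fun p hp => ?_
  · refine (continuous_fst.prodMk (continuous_pi fun o => ?_)).continuousOn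
    cases o with
    | none => exact continuous_fst
    | some i => exact (continuous_apply i).comp continuous_snd
  · refine (pi_norm_le_iff_of_nonneg (by positivity)).2 fun o => ?_
    cases o with
    | none =>
      have : |p.1| ≤ |T| := (abs_le.2 ⟨hp.1.le, hp.2.le⟩).trans (le_abs_self T)
      exact this.trans (le_add_of_nonneg_right (by positivity))
    | some i =>
      exact (norm_le_pi_norm p.2 i).trans (by rw [one_mul]; exact le_add_of_nonneg_left (abs_nonneg T))

theorem lg_line {ι : Type} [Fintype ι] (h f : Ω → ℝ) (y : Ω) :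
    Lg fun z : Option ι → ℝ => (h + z none • f) y := by
  simpa [mul_comm] using Tr.lg_add (Tr.lg_const (h y)) (Tr.lg_cmul (f y) (Tr.lg_coord none))

theorem lg_paths (s : Sh) (L : List (Lv Ω)) (h f : Ω → ℝ) (a : s.Lf) (j : ℕ) (y : Ω) :
    Lg fun z : Option (NT s L) → ℝ => stT s L (h + z none • f) (fun i => z (some i)) a j y :=
  Tr.lg_stT s L a j (lg_line h f) (fun i => Tr.lg_coord (some i)) y

end Sd

/-- **response to a shift of the root state** -/
theorem hasDerivAt_tX (hw : Wt w) (s : Sh) (L : List (Lv Ω)) (h f : Ω → ℝ)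
    {F : Pa s.Lf Ω → (s.Lf → Ω) → ℝ} {F' : (s.Lf → Ω) → Pa s.Lf Ω → Pa s.Lf Ω → ℝ}
    (hF : ∀ x, GrP (fun p => F p x) (F' x)) :
    HasDerivAt (fun e : ℝ => tX w s L (h + e • f) fun g x => F (stT s L (h + e • f) g) x)
      (tX w s L h (fun g x => F' x (stT s L h g) fun _ _ => f) -
        tX w s L h fun g x => F (stT s L h g) x *
          (DP w s L x (stT s L h g) (fun _ _ => f) + s.br * ex L 0 * Pf w L h f)) 0 := by
  classical
  have den : ∀ x, Eg fun z : Option (NT s L) → ℝ =>
      denT w s L (h + z none • f) (fun i => z (some i)) x := fun x => by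
    have h1 := (Tr.lg_sub (Tr.lg_neg (Tr.lg_UT hw s L x (Sd.lg_line h f)
      fun i => Tr.lg_coord (some i))) (Tr.lg_cmul (s.br * ex L 0)
        (Tr.lg_comp (lg_X hw L) (Sd.lg_line h f)))).exp 1
    simpa only [one_mul, denT] using h1.const_mul (∏ a, w (x a))
  have e0 : Eg fun z : Option (NT s L) → ℝ => ∑ x,
      denT w s L (h + z none • f) (fun i => z (some i)) x *
        F (stT s L (h + z none • f) fun i => z (some i)) x :=
    Eg.sum _ fun x _ => (den x).mul ((hF x).eg _ _ (Sd.lg_paths s L h f))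
  have e1 : Eg fun z : Option (NT s L) → ℝ => ∑ x,
      denT w s L (h + z none • f) (fun i => z (some i)) x *
        (F' x (stT s L (h + z none • f) fun i => z (some i)) (fun _ _ => f) -
          F (stT s L (h + z none • f) fun i => z (some i)) x *
            (DP w s L x (stT s L (h + z none • f) fun i => z (some i)) (fun _ _ => f) +
              s.br * ex L 0 * Pf w L (h + z none • f) f)) :=
    Eg.sum _ fun x _ => (den x).mul (((hF x).eg' _ _ _ (Sd.lg_paths s L h f)).sub
      (((hF x).eg _ _ (Sd.lg_paths s L h f)).mul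
        (((grP_UP hw s L x).eg' _ _ _ (Sd.lg_paths s L h f)).add
          ((Tr.eg_comp (eg_Pf hw L f) (Sd.lg_line h f)).const_mul _))))
  have key := (Sd.eG_of_eg e0 1).hasDerivAt_int (Sd.eG_of_eg e1 1) (t := 0)
    (Ioo_mem_nhds (by norm_num) one_pos) fun t _ g => by
      refine HasDerivAt.fun_sum fun x _ => ?_
      have hc : ∀ a j y, HasDerivAt (fun t : ℝ => stT s L (h + t • f) g a j y) (f y) t :=
        fun a j y => by
          simp only [Sd.stT_apply s L (h + _ • f), Pi.add_apply, Pi.smul_apply, smul_eq_mul]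
          exact ((((hasDerivAt_id t).mul_const (f y)).const_add (h y)).add_const
            (∑ i, g i * ft s L i a j y)).congr_deriv (one_mul _)
      have h1 := (grP_UP hw s L x).der (fun t => stT s L (h + t • f) g) (fun _ _ => f) t hc
      have h2 := (hF x).der (fun t => stT s L (h + t • f) g) (fun _ _ => f) t hc
      have h3 := ((gr_X hw L).line h f t).const_mul (s.br * ex L 0)
      have h4 := (((h1.neg.sub h3).exp).const_mul (∏ a, w (x a))).mul h2
      simp only [denT, UT_eq, Option.elim]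
      refine h4.congr_deriv ?_
      simp only [Pi.neg_apply, Pi.sub_apply, Pf]
      ring
  rw [← Sd.tX_sub hw s L h (fun x => ((hF x).eg' _).stT L h) fun x => ((hF x).eg.stT L h).mul
    ((Sd.eg_DP hw s L h x _).add (Eg.const _))]
  simpa only [tX, Option.elim, zero_smul, add_zero] using key

/-! ### covariance of the features -/

namespace Sd

omit [Fintype Ω] in
theorem cacc_zero (L : List (Lv Ω)) (x y : Ω) : cacc L 0 x y = 0 := by simp [cacc]


omit [Fintype Ω] in
theorem cacc_cons (l : Lv Ω) (L : List (Lv Ω)) (j : ℕ) (x y : Ω) :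
    cacc (l :: L) (j + 1) x y = l.cov x y + cacc L j x y := by simp [cacc]

end Sd

omit [Fintype Ω] in
/-- the feature vector of the energy of `y` after `j` levels of one path -/
def fe1 : (L : List (Lv Ω)) → ℕ → Ω → NI L → ℝ
  | [], _, _ => 0
  | _ :: _, 0, _ => 0
  | l :: L, j + 1, y => Sum.elim (l.A y) (fe1 L j y)

omit [Fintype Ω] in
/-- the feature vector of the energy of `y` after `j` levels of the path of the leaf `a` -/
def fe : (s : Sh) → (L : List (Lv Ω)) → s.Lf → ℕ → Ω → NT s L → ℝ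
  | .one, L, _, j, y => fe1 L j y
  | .step s, [], a, j, y => fe s [] a j y
  | .step _, _ :: _, _, 0, _ => 0
  | .step s, l :: L, a, j + 1, y => Sum.elim (l.A y) (fe s L a j y)
  | .split s _, L, .inl a, j, y => Sum.elim (fe s L a j y) 0
  | .split _ t, L, .inr a, j, y => Sum.elim 0 (fe t L a j y)

omit [Fintype Ω] in
theorem st_fe : ∀ (L : List (Lv Ω)) (j : ℕ) (h : Ω → ℝ) (g : NI L → ℝ) (y : Ω),
    st L j h g y = h y + ∑ i, fe1 L j y i * g i
  | [], 0, h, g, y => by simp [st, fe1]
  | [], _ + 1, h, g, y => by simp [st, fe1]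
  | _ :: _, 0, h, g, y => by simp [st, fe1]
  | l :: L, j + 1, h, g, y => by
      refine (st_fe L j _ _ y).trans ?_
      show _ = h y + ∑ i : l.ι ⊕ NI L, Sum.elim (l.A y) (fe1 L j y) i * g i
      rw [Fintype.sum_sum_type, ← add_assoc]
      rfl

omit [Fintype Ω] in
theorem stT_fe : ∀ (s : Sh) (L : List (Lv Ω)) (h : Ω → ℝ) (g : NT s L → ℝ) (a : s.Lf) (j : ℕ)
    (y : Ω), stT s L h g a j y = h y + ∑ i, fe s L a j y i * g i
  | .one, L, h, g, _, j, y => st_fe L j h g y
  | .step s, [], h, g, a, j, y => stT_fe s [] h g a j y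
  | .step _, _ :: _, h, g, _, 0, y => by simp [stT, fe]
  | .step s, l :: L, h, g, a, j + 1, y => by
      refine (stT_fe s L _ _ a j y).trans ?_
      show _ = h y + ∑ i : l.ι ⊕ NT s L, Sum.elim (l.A y) (fe s L a j y) i * g i
      rw [Fintype.sum_sum_type, ← add_assoc]
      rfl
  | .split s t, L, h, g, .inl a, j, y => by
      refine (stT_fe s L _ _ a j y).trans ?_
      show _ = h y + ∑ i : NT s L ⊕ NT t L, Sum.elim (fe s L a j y) (0 : NT t L → ℝ) i * g i
      rw [Fintype.sum_sum_type]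
      simp
  | .split s t, L, h, g, .inr a, j, y => by
      refine (stT_fe t L _ _ a j y).trans ?_
      show _ = h y + ∑ i : NT s L ⊕ NT t L, Sum.elim (0 : NT s L → ℝ) (fe t L a j y) i * g i
      rw [Fintype.sum_sum_type]
      simp

omit [Fintype Ω] in
theorem ft_eq_fe (s : Sh) (L : List (Lv Ω)) (i : NT s L) (a : s.Lf) (j : ℕ) (y : Ω) :
    ft s L i a j y = fe s L a j y i := by
  rw [ft, stT_fe]
  simp [Pi.single_apply]






end Crest.Agent.T156.Cas

end
private theorem rz_5376799bf0 : type_of% @_root_.Crest.Agent.T156.Cas.fe.eq_def := @_root_.Crest.Agent.T156.Cas.fe.eq_def -- L293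
private theorem rz_5a6b476d7f : type_of% @_root_.Crest.Agent.T156.Cas.fe.eq_1 := @_root_.Crest.Agent.T156.Cas.fe.eq_1 -- L293
private theorem rz_60c7d7445a : type_of% @_root_.Crest.Agent.T156.Cas.fe1.eq_def := @_root_.Crest.Agent.T156.Cas.fe1.eq_def -- L286
private theorem rz_d0ee008ddb : type_of% @_root_.Crest.Agent.T156.Cas.fe1.eq_1 := @_root_.Crest.Agent.T156.Cas.fe1.eq_1 -- L286
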