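import Crest.Agent.T156.CaTrf_56
import Crest.Agent.T156.CaSdB_90
import Crest.Agent.T156.CaPe_45
import Crest.Agent.T156.CaVar_6
import Crest.Agent.T156.CaLink_33

/-!
# Row 156: the curve of a model and the `sd` form of the root transfer (helper56)
-/

set_option autoImplicit false
set_option linter.unusedSectionVars false

noncomputable section

namespace Crest.Agent.T156.Cas

open MeasureTheory Real Set Filter Topology
open Crest.Agent.T157.E Crest.Agent.T157.Casc Crest.Agent.T157.SL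
open Trf

variable {Ω : Type} [Fintype Ω]

/-- `W = E_{a'} Φ₁ - E_a Φ₁ = ∫ Var_s Φ₁ ds` -/
def Wd (w : Ω → ℝ) (l : Lv Ω) (L : List (Lv Ω)) (h : Ω → ℝ) (a a' : ℝ) : ℝ :=
  tE (rt l a') (X w L) (X w L) h - tE (rt l a) (X w L) (X w L) h

/-- variance under the tree law -/
def vT (w : Ω → ℝ) (s : Sh) (L : List (Lv Ω)) (h : Ω → ℝ)
    (F : (NT s L → ℝ) → (s.Lf → Ω) → ℝ) : ℝ :=
  tX w s L h (fun g x => F g x ^ 2) - tX w s L h F ^ 2

/-- the curve of the model `(w, l, L, h)`: the root level `l` gets the tilt `s n^{-1/6}` -/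
def crv (n : ℕ) (s₁ : ℝ) (w : Ω → ℝ) (l : Lv Ω) (L : List (Lv Ω)) (h : Ω → ℝ) (s : ℝ) : ℝ :=
  (n : ℝ) ^ (-(1 : ℝ) / 6) * (X w (rt l (s * (n : ℝ) ^ (-(1 : ℝ) / 6)) :: L) h -
    X w (rt l (s₁ * (n : ℝ) ^ (-(1 : ℝ) / 6)) :: L) h)

namespace Crv

variable {F φ ψ : (Ω → ℝ) → ℝ} {w : Ω → ℝ}

theorem cont_tE (hF : Lg F) (hφ : Eg φ) (l : Lv Ω) (h : Ω → ℝ) :
    Continuous fun s => tE (rt l s) F φ h :=
  continuous_iff_continuousAt.2 fun s => (der_tE hF hφ l h s).continuousAt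

theorem cont_cT (hF : Lg F) (hφ : Eg φ) (hψ : Eg ψ) (l : Lv Ω) (h : Ω → ℝ) :
    Continuous fun s => cT (rt l s) F φ ψ h :=
  (cont_tE hF (hφ.mul hψ) l h).sub ((cont_tE hF hφ l h).mul (cont_tE hF hψ l h))

theorem cT_nonneg (hF : Lg F) (hφ : Eg φ) (l : Lv Ω) (h : Ω → ℝ) : 0 ≤ cT l F φ φ h := by
  simpa using cT_quad hF hφ hφ l h 1 0

theorem ftc (hF : Lg F) (hφ : Eg φ) (l : Lv Ω) (h : Ω → ℝ) (a a' : ℝ) :
    tE (rt l a') F φ h - tE (rt l a) F φ h = ∫ s in a..a', cT (rt l s) F F φ h :=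
  (intervalIntegral.integral_eq_sub_of_hasDerivAt (fun s _ => der_tE hF hφ l h s)
    ((cont_cT hF hF.eg hφ l h).intervalIntegrable _ _)).symm

/-- integral form -/
theorem delta_int (hF : Lg F) (hφ : Eg φ) (l : Lv Ω) (h : Ω → ℝ) {a a' : ℝ} (haa : a ≤ a') :
    (tE (rt l a') F φ h - tE (rt l a) F φ h) ^ 2 ≤
      (tE (rt l a') F F h - tE (rt l a) F F h) * ∫ s in a..a', cT (rt l s) F φ φ h := by
  rw [ftc hF hφ, ftc hF hF.eg]
  have c1 := cont_cT hF hF.eg hF.eg l h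
  have c2 := cont_cT hF hφ hφ l h
  have c3 := cont_cT hF hF.eg hφ l h
  refine sq_le_of_forall
    (intervalIntegral.integral_nonneg haa fun s _ => cT_nonneg hF hF.eg _ h)
    (intervalIntegral.integral_nonneg haa fun s _ => cT_nonneg hF hφ _ h) fun η hη => ?_
  have c4 : Continuous fun s => η / 2 * cT (rt l s) F F F h := continuous_const.mul c1
  have c5 : Continuous fun s => cT (rt l s) F φ φ h / (2 * η) := c2.div_const _
  rw [← intervalIntegral.integral_const_mul, ← intervalIntegral.integral_div,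
    ← intervalIntegral.integral_add (c4.intervalIntegrable _ _) (c5.intervalIntegrable _ _)]
  refine (intervalIntegral.abs_integral_le_integral_abs haa).trans
    (intervalIntegral.integral_mono_on haa (c3.abs.intervalIntegrable _ _)
      ((c4.add c5).intervalIntegrable _ _) fun s _ => ?_)
  exact cT_abs hF hF.eg hφ _ h hη

theorem W_nonneg (hF : Lg F) (l : Lv Ω) (h : Ω → ℝ) {a a' : ℝ} (haa : a ≤ a') :
    0 ≤ tE (rt l a') F F h - tE (rt l a) F F h := by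
  rw [ftc hF hF.eg]
  exact intervalIntegral.integral_nonneg haa fun s _ => cT_nonneg hF hF.eg _ h

/-- supremum form -/
theorem delta_sup (hF : Lg F) (hφ : Eg φ) (l : Lv Ω) (h : Ω → ℝ) {a a' V : ℝ} (haa : a ≤ a')
    (hV : ∀ s ∈ Icc a a', cT (rt l s) F φ φ h ≤ V) :
    (tE (rt l a') F φ h - tE (rt l a) F φ h) ^ 2 ≤
      (tE (rt l a') F F h - tE (rt l a) F F h) * ((a' - a) * V) := by
  refine (delta_int hF hφ l h haa).trans (mul_le_mul_of_nonneg_left ?_ (W_nonneg hF l h haa))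
  have := intervalIntegral.integral_mono_on haa
    ((cont_cT hF hφ hφ l h).intervalIntegrable (μ := volume) _ _)
    (continuous_const.intervalIntegrable _ _) hV
  simpa using this





theorem tX_const (hw : Wt w) (s : Sh) (L : List (Lv Ω)) (h : Ω → ℝ) (c : ℝ) :
    tX w s L h (fun _ _ => c) = c := by
  have := Sd.tX_const_mul w s L h c fun _ _ => 1
  rwa [Tr.tX_unit peStmt hw, mul_one] at this


end Crv

open Crv

variable {w : Ω → ℝ}



theorem Wd_nonneg (hw : Wt w) (l : Lv Ω) (L : List (Lv Ω)) (h : Ω → ℝ) {a a' : ℝ} (haa : a ≤ a') :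
    0 ≤ Wd w l L h a a' := W_nonneg (lg_X hw L) l h haa

namespace Crv






end Crv







/-! ### the curve -/

theorem rt_eq_lv (l : Lv Ω) (m : ℝ) : rt l m = lv l 1 m := by simp [rt, lv]

theorem abs_cov_le (l : Lv Ω) {c : ℝ} (hc : ∀ x, l.cov x x ≤ c) (x y : Ω) : |l.cov x y| ≤ c := by
  have p : ∀ σ : ℝ, 0 ≤ l.cov x x + 2 * σ * l.cov x y + σ ^ 2 * l.cov y y := fun σ => by
    simp only [Lv.cov, Finset.mul_sum, ← Finset.sum_add_distrib]
    exact Finset.sum_nonneg fun i _ => (sq_nonneg (l.A x i + σ * l.A y i)).trans_eq (by ring)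
  have p1 := p 1
  have p2 := p (-1)
  rw [abs_le]
  constructor <;> linarith [hc x, hc y]

/-- the value is monotone and Lipschitz in the root tilt -/
theorem X_rt_sub (hw : Wt w) (l : Lv Ω) (L : List (Lv Ω)) (h : Ω → ℝ) {c a a' : ℝ}
    (hc : ∀ x, l.cov x x ≤ c) (haa : a ≤ a') :
    0 ≤ X w (rt l a' :: L) h - X w (rt l a :: L) h ∧
      X w (rt l a' :: L) h - X w (rt l a :: L) h ≤ (a' - a) / 2 * c := by
  have e := (varStmt Ω w hw).2 [] L l a a' h
  simp only [List.nil_append, ← rt_eq_lv] at e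
  rw [e]
  have hd : 0 ≤ (a' - a) / 2 := by linarith
  have lo : ∀ (M : List (Lv Ω)) j, 0 ≤ pi2 w M j l.cov h := fun M j => by
    have := pi2_sum hw M j Finset.univ (fun i x y => l.A x i * l.A y i) h
    exact le_of_le_of_eq (Finset.sum_nonneg fun i _ => pi2_sq_nonneg w M j _ h) this.symm
  have up : ∀ (M : List (Lv Ω)) j, pi2 w M j l.cov h ≤ c := fun M j =>
    (pi2_mono hw M j (fun x y => (le_abs_self _).trans (abs_cov_le l hc x y)) h).trans_eq
      (pi2_const hw M j c h)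
  refine ⟨mul_nonneg hd (intervalIntegral.integral_nonneg zero_le_one fun _ _ => lo _ _),
    mul_le_mul_of_nonneg_left ((le_abs_self _).trans ?_) hd⟩
  have := intervalIntegral.norm_integral_le_of_norm_le_const (a := 0) (b := 1) (C := c)
    (f := fun ρ => pi2 w (lv l ρ a :: lv l (1 - ρ) a' :: L) (([] : List (Lv Ω)).length + 1) l.cov h)
    fun ρ _ => by rw [Real.norm_eq_abs, abs_of_nonneg (lo _ _)]; exact up _ _
  simpa using this

theorem X_rt_mono (hw : Wt w) (l : Lv Ω) (L : List (Lv Ω)) (h : Ω → ℝ) {a a' : ℝ} (haa : a ≤ a') :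
    X w (rt l a :: L) h ≤ X w (rt l a' :: L) h :=
  sub_nonneg.1 (X_rt_sub hw l L h (c := ∑ x, |l.cov x x|) (fun x => (le_abs_self _).trans
    (Finset.single_le_sum (f := fun x => |l.cov x x|) (fun _ _ => abs_nonneg _)
      (Finset.mem_univ x))) haa).1

/-- (M): the curve of the SK model -/
theorem Ln_eq_crv {n : ℕ} (hn : 0 < n) (β m : ℝ) {s₁ s : ℝ} (h1 : s₁ ≠ 0) (h2 : s ≠ 0) :
    Soft.Ln n β s₁ s = crv n s₁ (fun _ => 1) (wl n β 1 m) [] 0 s := by
  have he : (n : ℝ) ^ (-(1 : ℝ) / 6) ≠ 0 := (rpow_pos_of_pos (Nat.cast_pos.2 hn) _).ne'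
  rw [Soft.Ln, linkStmt.2.2.1 n β _ hn (mul_ne_zero h2 he),
    linkStmt.2.2.1 n β _ hn (mul_ne_zero h1 he), crv, sub_sub_sub_cancel_right]

theorem crv_mono (hw : Wt w) (n : ℕ) (s₁ : ℝ) (l : Lv Ω) (L : List (Lv Ω)) (h : Ω → ℝ) :
    Monotone (crv n s₁ w l L h) := fun _ _ hs =>
  mul_le_mul_of_nonneg_left (sub_le_sub_right (X_rt_mono hw l L h
    (mul_le_mul_of_nonneg_right hs (by positivity))) _) (by positivity)

theorem crv_self (n : ℕ) (s₁ : ℝ) (l : Lv Ω) (L : List (Lv Ω)) (h : Ω → ℝ) :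
    crv n s₁ w l L h s₁ = 0 := by simp [crv]

theorem crv_nonneg (hw : Wt w) (n : ℕ) {s₁ s : ℝ} (l : Lv Ω) (L : List (Lv Ω)) (h : Ω → ℝ)
    (hs : s₁ ≤ s) : 0 ≤ crv n s₁ w l L h s :=
  (crv_self n s₁ l L h).symm.le.trans (crv_mono hw n s₁ l L h hs)

/-- (T): the trivial bound -/
theorem crv_le (hw : Wt w) (n : ℕ) {s₁ s c : ℝ} (l : Lv Ω) (L : List (Lv Ω)) (h : Ω → ℝ)
    (hc : ∀ x, l.cov x x ≤ c) (hs : s₁ ≤ s) :
    crv n s₁ w l L h s ≤ ((n : ℝ) ^ (-(1 : ℝ) / 6)) ^ 2 * ((s - s₁) / 2 * c) := by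
  have he : 0 ≤ (n : ℝ) ^ (-(1 : ℝ) / 6) := by positivity
  refine (mul_le_mul_of_nonneg_left
    (X_rt_sub hw l L h hc (mul_le_mul_of_nonneg_right hs he)).2 he).trans_eq (by ring)

theorem crv_le' (hw : Wt w) {n : ℕ} (hn : 0 < n) {s₁ s c : ℝ} (l : Lv Ω) (L : List (Lv Ω))
    (h : Ω → ℝ) (h0 : 0 ≤ c) (hc : ∀ x, l.cov x x ≤ c) (hs : s₁ ≤ s) :
    crv n s₁ w l L h s ≤ (s - s₁) / 2 * c := by
  have he : (n : ℝ) ^ (-(1 : ℝ) / 6) ≤ 1 :=
    rpow_le_one_of_one_le_of_nonpos (by exact_mod_cast hn) (by norm_num)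
  refine (crv_le hw n l L h hc hs).trans (mul_le_of_le_one_left
    (mul_nonneg (by linarith) h0) (pow_le_one₀ (by positivity) he))




end Crest.Agent.T156.Cas

end
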