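import Crest.Agent.T156.PrB_28
import Crest.Agent.T156.Crv_56

/-!
# Row 156, ALT route: the class of models and the block statements (helper88)

ONE base profile, ONE path `(τ, y)` of profiles, used for all sizes `m ∈ [n, 2 n]`.  Absolute
units.  Cascade node `k + 1` is the profile node `k`.  Only definitions and propositions.
-/

set_option autoImplicit false

noncomputable section

namespace Crest.Agent.T156.Alt

open MeasureTheory Real Set Filter Topology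
open Crest.Agent.T157.E Crest.Agent.T157.Casc Crest.Agent.T157.SL
open Crest.Agent.T157.G1 (ov fl FL)
open Crest.Agent.T156.Cas (wl)

/-- `C¹` step from `0` (`u ≤ 0`) to `1` (`u ≥ 1`), slope at most `3 / 2` -/
def sm (u : ℝ) : ℝ := 3 * max 0 (min u 1) ^ 2 - 2 * max 0 (min u 1) ^ 3

/-- the data: size `n`, mesh exponent `A`, small exponent `c`, signal scale `s`, base labels -/
structure Pm where
  β : ℝ
  n : ℕ
  A : ℕ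
  c : ℝ
  s : ℝ
  J : ℕ
  z : ℕ → ℝ

namespace Pm

variable (p : Pm)

/-- mesh -/
def v : ℝ := p.β ^ 2 / (p.n : ℝ) ^ p.A
/-- `κ = n^{-c}` -/
def κ : ℝ := (p.n : ℝ) ^ (-p.c)
/-- `r = R₀ n^{-1/6}`, `R₀ = s n^{c/7}` -/
def r : ℝ := p.s * (p.n : ℝ) ^ (p.c / 7 - 1 / 6)
/-- end of the bump: `θ_end = κ ye² = κ⁷` -/
def ye : ℝ := p.κ ^ 3
/-- mass at the start -/
def μ0 : ℝ := (p.n : ℝ) ^ (-(2 / 3) - 2 * p.c)
/-- root tilts lie in `[amin, amax]` -/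
def amin : ℝ := (p.n : ℝ) ^ (-(1 : ℝ) / 6) / 2
def amax : ℝ := p.s * (p.n : ℝ) ^ (p.c / 14 - 1 / 6)
/-- the first mark -/
def j0 : ℕ := ⌈p.r / p.v⌉₊
/-- number of reveal slices (total variance `A log n`) -/
def Nr : ℕ := ⌈p.A * log p.n / p.v⌉₊
/-- bottom of the top atom -/
def xs : ℝ := p.z (p.J - 1)
/-- number of plateau levels -/
def I : ℕ := ⌊(1 - p.xs) / p.v⌋₊ - 1
/-- number of field levels -/
def N : ℕ := p.J + p.I + p.Nr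
/-- tilts: base labels, plateau of mesh `v`, reveal -/
def zz (k : ℕ) : ℝ :=
  if k < p.J then p.z k else if k < p.J + p.I then p.xs + ((k : ℝ) + 1 - p.J) * p.v else 1

/-- admissible data -/
structure Ok (c0 C0 : ℝ) : Prop where
  base : Pr.Base (p.β ^ 2) c0 C0 (C0 / (p.n : ℝ) ^ p.A) p.v p.J p.z
  s1 : 1 ≤ p.s
  s2 : p.s ≤ (p.n : ℝ) ^ ((1 : ℝ) / 19)

/-- the path: stage A (`y = r`, `τ ↑ 1`), stage B (`τ = 1`, `y ↑ ye`) -/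
def Mem (τ y : ℝ) : Prop :=
  (y = p.r ∧ p.μ0 ≤ τ * p.κ * p.r ^ 2 ∧ τ ≤ 1) ∨ (τ = 1 ∧ p.r ≤ y ∧ y ≤ p.ye)

variable (τ y : ℝ)

/-- displacement of the nodes (`Pr.Om v (2 y) (4 κ)`) -/
def om (j : ℕ) : ℝ := τ * p.κ * (j * p.v) * (1 - sm (j * p.v / y - 1))
def eps : ℝ := τ * p.κ * p.r ^ 2
/-- the mass `θ` up to constants -/
def μ : ℝ := τ * p.κ * y ^ 2
/-- the mass at the level `t` up to constants -/
def ms (t : ℝ) : ℝ := τ * p.κ * max p.r (min t y) ^ 2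
/-- the reference one-site list (no plateau nodes) -/
def l : List (ℝ × ℝ) := Pr.lo p.z p.v (p.om τ y) (p.J + p.Nr)
def b : ℝ := Pr.bb (p.l τ y) (p.eps τ)
/-- reference time of the node `k` -/
def ss (k : ℕ) : ℝ :=
  if k ≤ p.J then Pr.sig p.v (p.om τ y) k else if k ≤ p.J + p.I then p.J * p.v
  else ((k : ℝ) - p.I) * p.v
/-- reference overlap -/
def q (k : ℕ) : ℝ := Pr.Gam (p.l τ y) (p.ss τ y k)
/-- replicon coefficient -/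
def e (k : ℕ) : ℝ := Pr.ee (p.l τ y) (p.eps τ) (p.ss τ y k)
/-- `w = (n θ)^{-1/3}` -/
def wt : ℝ := (p.n * p.μ τ y) ^ (-(1 : ℝ) / 3)
/-- static marks of the top atom, as a function of the label -/
def rs (x : ℝ) : ℝ :=
  (if x ≤ p.xs then -(p.wt τ y ^ ((2 : ℝ) / 3) *
      sm (1 - (p.xs - x) / (log p.n * p.wt τ y ^ ((2 : ℝ) / 3))))
    else -(p.wt τ y / √(x - p.xs + p.wt τ y ^ ((2 : ℝ) / 3)))) +
  log ((1 + p.wt τ y / √(1 - max x (1 / 2) + p.v)) / (1 + p.wt τ y / √(1 / 2 + p.v)))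
/-- accumulated marks at the node `k` -/
def H (k : ℕ) : ℝ :=
  if k ≤ p.j0 then 0 else p.ss τ y k - p.b τ y * p.q τ y k + p.μ τ y * p.rs τ y (p.zz (k - 1))
/-- the marks: (tilt, variance) -/
def mk' : List (ℝ × ℝ) :=
  List.ofFn fun k : Fin p.N => (p.zz (max k p.j0), p.H τ y (k + 1) - p.H τ y k)

variable (m : ℕ) (a : ℝ)

/-- the root level: covariance `b m R² / 2`, tilt `a` -/
abbrev root : Lv (Cube m) := wl m p.β (p.b τ y / p.β ^ 2) a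
/-- the field levels -/
def up : List (Lv (Cube m)) := FL m 1 (p.mk' τ y)
/-- **the model** of size `m` -/
def L : List (Lv (Cube m)) := p.root τ y m a :: p.up τ y m
/-- the same as data of `OneP_23` (`M.map (mxL m β)`), with a last empty level -/
def Mx : List (ℝ × ℝ × ℝ) :=
  (a, p.b τ y / p.β ^ 2, 0) :: (p.mk' τ y).map (fun t => (t.1, 0, t.2)) ++ [(1, 0, 0)]
def V : ℝ := X (fun _ => 1) (p.L τ y m a) 0
/-- `E_a Φ` -/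
def EP : ℝ :=
  tE (p.root τ y m a) (X (fun _ => 1) (p.up τ y m)) (X (fun _ => 1) (p.up τ y m)) 0
/-- `W = E_{a'} Φ - E_a Φ` -/
def W (a' : ℝ) : ℝ := Cas.Wd (fun _ => 1) (p.root τ y m 0) (p.up τ y m) 0 a a'
/-- label weight of the node `k` (`zz j0 - a` for `k = 0`, `0` for `1 ≤ k ≤ j0`) -/
def dz (k : ℕ) : ℝ := dm (p.L τ y m a) 0 (k + 1)
/-- `E f (R)` for two replicas split at the node `k` -/
def E2 (f : ℝ → ℝ) (k : ℕ) : ℝ :=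
  pi2 (fun _ => 1) (p.L τ y m a) (k + 1) (fun x x' => f (ov x x')) 0
/-- mean overlap -/
def rb (k : ℕ) : ℝ := p.E2 τ y m a id k
/-- path overlap `ρ_k = |m_k|² / m` as a function of the state at the node `k` -/
def rh (k : ℕ) (h : Cube m → ℝ) : ℝ :=
  qf (P (fun _ => 1) ((p.L τ y m a).drop (k + 1)) h) ov
/-- mean deviation from the reference -/
def del (k : ℕ) : ℝ := p.rb τ y m a k - p.q τ y k
/-- nodes above `j0` whose labels meet `(t, t']` -/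
def blk (t t' : ℝ) : Finset ℕ :=
  (Finset.Ioc p.j0 p.N).filter fun k => t < p.zz k ∧ p.zz (k - 1) ≤ t'
/-- `∫_{(t,t']} |del|^i dx` -/
def En (i : ℕ) (t t' : ℝ) : ℝ := ∑ k ∈ p.blk t t', p.dz τ y m a k * |p.del τ y m a k| ^ i

/-- the flow defect of the END model -/
def T : ℝ := p.V 1 p.ye (m + 1) a - p.V 1 p.ye m a - p.EP 1 p.ye m a / (6 * m)

/-- a member of the class: path point, size, root tilt -/
structure In : Prop where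
  mem : p.Mem τ y
  m1 : p.n ≤ m
  m2 : m ≤ 2 * p.n
  a1 : p.amin ≤ a
  a2 : a ≤ p.amax

/-- `(a' - a) W ≤ Q²` on the whole class -/
def WB (a a' Q : ℝ) : Prop :=
  ∀ τ y, p.Mem τ y → ∀ m, p.n ≤ m → m ≤ 2 * p.n → (a' - a) * p.W τ y m a a' ≤ Q ^ 2

end Pm

/-- all admissible data with the given parameters -/
def All (β c0 C0 : ℝ) (A : ℕ) (c : ℝ) (n : ℕ) (P : Pm → Prop) : Prop :=
  ∀ p : Pm, p.β = β → p.n = n → p.A = A → p.c = c → p.Ok c0 C0 → P p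

/-- **gain form**: `P δ p` with `δ = n^{-c'}` for SOME `c' > 0` -/
def Gain (β : ℝ) (P : ℝ → Pm → Prop) : Prop :=
  ∀ c0 C0 : ℝ, 0 < c0 → 1 ≤ C0 → ∀ᶠ A : ℕ in atTop, ∀ᶠ c in 𝓝[>] (0 : ℝ), ∃ c' : ℝ, 0 < c' ∧
    ∀ᶠ n : ℕ in atTop, All β c0 C0 A c n (P ((n : ℝ) ^ (-c')))

/-- **loss form**: `P Λ p` with `Λ = n^{η}` for EVERY `η > 0` -/
def Loss (β : ℝ) (P : ℝ → Pm → Prop) : Prop :=
  ∀ c0 C0 : ℝ, 0 < c0 → 1 ≤ C0 → ∀ᶠ A : ℕ in atTop, ∀ᶠ c in 𝓝[>] (0 : ℝ), ∀ η : ℝ, 0 < η →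
    ∀ᶠ n : ℕ in atTop, All β c0 C0 A c n (P ((n : ℝ) ^ η))

/-- **constant form**: `P C p` for a constant `C = C(β, c0, C0) ≥ 1` -/
def Cst (β : ℝ) (P : ℝ → Pm → Prop) : Prop :=
  ∀ c0 C0 : ℝ, 0 < c0 → 1 ≤ C0 → ∃ C : ℝ, 1 ≤ C ∧ ∀ A : ℕ, 2 ≤ A → ∀ c : ℝ, 0 < c → c ≤ 1 / 200 →
    ∀ᶠ n : ℕ in atTop, All β c0 C0 A c n (P C)

/-! ### the statements read by the top -/

/-- (P0) the models are legal, the start is small -/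
def P0 (Λ : ℝ) (p : Pm) : Prop :=
  p.μ0 ≤ p.κ * p.r ^ 2 ∧ p.r ≤ p.ye ∧ Monotone p.zz ∧ (∀ k, p.zz k ≤ 1) ∧
  2 * p.amax ≤ p.zz p.j0 ∧ p.zz p.j0 ≤ Λ * p.r ∧ p.zz p.j0 ≤ 1 / 2 ∧ p.j0 < p.J ∧
  ∀ τ y, p.Mem τ y → 0 < p.b τ y ∧ p.b τ y ≤ p.β ^ 2 ∧ 1 - p.b τ y / p.β ^ 2 ≤ Λ * p.μ τ y ∧
    (∀ k, p.j0 ≤ k → k < p.N → p.H τ y k < p.H τ y (k + 1)) ∧
    p.H τ y (p.J + p.I) ≤ Λ * p.μ τ y ∧ p.H τ y p.N ≤ Λ

/-- (R1) the path at fixed size -/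
def R1 (δ : ℝ) (p : Pm) : Prop :=
  ∀ a a' Q : ℝ, p.amin ≤ a → a ≤ a' → a' ≤ p.amax → 0 ≤ Q → p.WB a a' Q →
    ∀ m, p.n ≤ m → m ≤ 2 * p.n → ∀ τ y τ' y', p.Mem τ y → p.Mem τ' y' →
      |p.V τ' y' m a' - p.V τ' y' m a - (p.V τ y m a' - p.V τ y m a)| ≤
        δ * (p.n : ℝ) ^ ((1 : ℝ) / 6) * (Q + p.s ^ 5)

/-- (R2) the flow in the size at the end of the path -/
def R2 (δ : ℝ) (p : Pm) : Prop :=
  ∀ a a' Q : ℝ, p.amin ≤ a → a ≤ a' → a' ≤ p.amax → 0 ≤ Q → p.WB a a' Q →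
    ∀ m, p.n ≤ m → m < 2 * p.n →
      |p.T m a' - p.T m a| ≤ δ * (p.n : ℝ) ^ (-(5 : ℝ) / 6) * (Q + p.s ^ 5)

/-- (Low) the signal for SK -/
def LowS (β : ℝ) : Prop := ∃ c₀ : ℝ, 0 < c₀ ∧ ∀ δ : ℝ, 0 < δ → δ ≤ 1 → ∃ᶠ n : ℕ in atTop,
  c₀ * (δ * (n : ℝ) ^ ((1 : ℝ) / 19)) ^ (5 : ℝ) ≤ Soft.Ln n β 1 (δ * (n : ℝ) ^ ((1 : ℝ) / 19))


/-! ### (P1) the shape of the profiles, in constants -/

/-- mass, slopes and marks of one member -/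
def P1 (C : ℝ) (p : Pm) : Prop := ∀ τ y, p.Mem τ y →
  Pr.Om p.v (2 * y) (4 * p.κ) (p.om τ y) ∧ Pr.Ok (p.l τ y) ∧
  (p.μ τ y / C ≤ 1 - p.b τ y / p.β ^ 2 ∧ 1 - p.b τ y / p.β ^ 2 ≤ C * p.μ τ y) ∧
  (∀ t ∈ Icc 0 (p.J * p.v), p.ms τ y t / C ≤ Pr.ee (p.l τ y) (p.eps τ) t ∧
    Pr.ee (p.l τ y) (p.eps τ) t ≤ C * p.ms τ y t) ∧
  (∀ t ∈ Icc (p.J * p.v) ((p.J + p.Nr : ℕ) * p.v),
    1 - exp (-((t - p.J * p.v) / 2)) * (1 - p.μ τ y / C) ≤ Pr.ee (p.l τ y) (p.eps τ) t) ∧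
  (∀ k, k < p.J → p.v / C ≤ p.q τ y (k + 1) - p.q τ y k ∧ p.q τ y (k + 1) - p.q τ y k ≤ C * p.v) ∧
  (∀ k, 1 ≤ k → k < p.J → k * p.v / C ≤ p.z k ∧ p.z k ≤ C * (k * p.v)) ∧
  ∀ k, p.j0 < k → k < p.J → p.ms τ y (k * p.v) * p.v / C ≤ p.H τ y (k + 1) - p.H τ y k ∧
    p.H τ y (k + 1) - p.H τ y k ≤ C * (p.ms τ y (k * p.v) * p.v +
      p.μ τ y * |p.rs τ y (p.z k) - p.rs τ y (p.z (k - 1))|)

end Crest.Agent.T156.Alt

end
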