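import Crest.Agent.T156.AltCl_88
import Crest.Agent.T156.Lsp_88

/-!
# Row 156, ALT route: the concrete family and the four stages (helper88)

Sloped part from `Pm` (`AltDef_88`), plateau data `Pl` as a parameter.
-/

set_option autoImplicit false

noncomputable section

namespace Crest.Agent.T156.Alt

open MeasureTheory Real Set Filter Topology

/-- plateau data: `I` levels with tilts `x 1 < … < x I` (`x 0 = xs`), static field `hs` and clock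
shift `rs` as functions of the label, size `γ` of the referenced spread -/
structure Pl where
  I : ℕ
  x : ℕ → ℝ
  hs : ℝ → ℝ
  rs : ℝ → ℝ
  γ : ℝ

namespace Pm

variable (p : Pm)

/-- exponent of the window of root tilts, and the largest root tilt -/
def ga : ℝ := p.c / 100
def am : ℝ := p.s * (p.n : ℝ) ^ (p.ga - 1 / 6)
/-- the first mark -/
def jf : ℕ := ⌈p.s * (p.n : ℝ) ^ (p.c / 13 - 1 / 6) / p.v⌉₊
/-- start of the tested stage -/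
def y1 : ℝ := max p.r ((p.n : ℝ) ^ (6 / 25 * p.c - 1 / 6))

section static
variable (μ : ℝ)
/-- the mass in units -/
def mu' : ℝ := μ * (p.n : ℝ) ^ ((1 : ℝ) / 3)
/-- amplitude, cap and end length of the static marks for the mass `μ` (41) -/
def la : ℝ := (p.n : ℝ) ^ (-(1 / 6) - p.c / 2) *
  min (p.mu' μ ^ (-(1 : ℝ) / 3)) (p.mu' μ ^ (-(1 : ℝ) / 2))
def Vc : ℝ := (p.n : ℝ) ^ (-(1 / 6) + 3 * p.c / 4) * max 1 (p.mu' μ ^ (-(1 : ℝ) / 3))
def u2 : ℝ := (p.n : ℝ) ^ (p.c / 2) / (p.n * μ * p.Vc μ)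
/-- bottom part -/
def rB (x : ℝ) : ℝ :=
  if x ≤ p.xs then -(p.la μ ^ ((2 : ℝ) / 3) *
      sm (1 - (p.xs - x) / (log p.n * p.la μ ^ ((2 : ℝ) / 3))))
  else -(p.la μ / √(x - p.xs + p.la μ ^ ((2 : ℝ) / 3)))
/-- top part, `u = 1 - x` -/
def rT (u : ℝ) : ℝ := p.Vc μ * log (1 + p.la μ / (p.Vc μ * √u)) + log (1 + √(p.u2 μ / u))
/-- the static clock shift -/
def rF (x : ℝ) : ℝ := p.rB μ x + (p.rT μ (1 - max x (1 / 2)) - p.rT μ (1 / 2))
end static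

/-- static plateau data for the mass `μ`: uniform clock mesh -/
structure PlOk (μ : ℝ) (P : Pl) : Prop where
  g : P.γ = 0
  rs : P.rs = p.rF μ
  hs : P.hs = fun x => μ * p.rF μ x
  x0 : P.x 0 = p.xs
  xm : StrictMono P.x
  st : ∀ i < P.I, p.v / 2 ≤ P.rs (P.x (i + 1)) - P.rs (P.x i) ∧
    P.rs (P.x (i + 1)) - P.rs (P.x i) ≤ 2 * p.v
  e1 : (p.n : ℝ) ^ (-(3 : ℝ)) ≤ 1 - P.x P.I
  e2 : 1 - P.x P.I ≤ (p.n : ℝ) ^ (-(2 : ℝ))

/-- referenced logarithmic spread of size `n^{-g}` -/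
structure SpOk (g : ℝ) (P : Pl) : Prop where
  g' : P.γ = (p.n : ℝ) ^ (-g)
  rs : P.rs = 0
  hs : P.hs = 0
  x0 : P.x 0 = p.xs
  xm : StrictMono P.x
  st : ∀ i < P.I, p.v / 2 ≤ P.γ * (p.lsp P.γ (P.x (i + 1)) - p.lsp P.γ (P.x i)) ∧
    P.γ * (p.lsp P.γ (P.x (i + 1)) - p.lsp P.γ (P.x i)) ≤ 3 * p.v
  e1 : (p.n : ℝ) ^ (-(3 : ℝ)) ≤ 1 - P.x P.I
  e2 : 1 - P.x P.I ≤ (p.n : ℝ) ^ (-(2 : ℝ))

variable (P : Pl)

def Jp : ℕ := p.J + P.I
def NP : ℕ := p.J + P.I + p.Nr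
/-- tilts -/
def zP (k : ℕ) : ℝ := if k < p.J then p.z k else if k < p.Jp P then P.x (k + 1 - p.J) else 1
/-- lower end of the labels of the node `k`, frozen on the reveal nodes -/
def xP (k : ℕ) : ℝ := p.zP P (min k (p.Jp P) - 1)

variable (τ y : ℝ)

/-- reference times -/
def sP (k : ℕ) : ℝ :=
  if k ≤ p.J then Pr.sig p.v (p.om τ y) k
  else p.J * p.v + P.γ * p.lsp P.γ (p.xP P k) + ((k - p.Jp P : ℕ) : ℝ) * p.v
/-- reference list -/
def lP : List (ℝ × ℝ) := if P.γ = 0 then p.l τ y else Pr.lst (p.zP P) (p.sP P τ y) (p.NP P)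
def qP (k : ℕ) : ℝ := Pr.Gam (p.lP P τ y) (p.sP P τ y k)
/-- marks for the top W variance `b` -/
def HP (b : ℝ) (k : ℕ) : ℝ :=
  if k ≤ p.jf then 0 else p.sP P τ y k - b * p.qP P τ y k + P.hs (p.xP P k)

/-- **the family**: root variance `b₁`, one W-mark `be` at the level `jl`, tilts raised to
`zP jl`, extra residual `g` -/
def fam (jl : ℕ) (b₁ be : ℝ) (g : ℕ → ℝ) : Md where
  N := p.NP P
  z k := p.zP P (max k jl)
  d k := if k ≤ jl then b₁ else b₁ + be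
  H k := p.HP P τ y (b₁ + be) k + g k
  lr := p.lP P τ y
  s := p.sP P τ y
  ck k := p.qP P τ y k + P.rs (p.xP P k)

/-- the models of the tested stage -/
def tst (y : ℝ) : Md := p.fam P 1 y p.jf (p.b 1 y) 0 0

end Pm

/-- a stage from `M₀` that contains `M₁` -/
def Go (δ : ℝ) (p : Pm) (M₀ M₁ : Md) : Prop :=
  ∃ T : Set Md, Stage p.n p.s p.ga (p.β ^ 2) δ M₀ T ∧ M₁ ∈ T

/-- existence of plateau data -/
def PlEx (g : ℝ) (_δ : ℝ) (p : Pm) : Prop :=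
  (∀ μ, p.μ0 ≤ μ → μ ≤ p.κ → ∃ P, p.PlOk μ P) ∧ (∃ P, p.SpOk g P) ∧
    p.μ0 ≤ p.μ 1 p.y1 ∧ p.y1 ≤ p.ye



/-- stage C -/
def SprS (g : ℝ) (δ : ℝ) (p : Pm) : Prop :=
  ∀ P P', p.PlOk (p.μ 1 p.ye) P → p.SpOk g P' → Go δ p (p.tst P p.ye) (p.tst P' p.ye)

/-- the flow at the end model -/
def FlwS (g : ℝ) (δ : ℝ) (p : Pm) : Prop :=
  ∀ P, p.SpOk g P → Flw p.n p.s p.ga δ (p.tst P p.ye)


end Crest.Agent.T156.Alt

end
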