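import Crest.Agent.T156.CasDef_88

-- ▼ part T156/CaTrfA_56
section

/-!
# Row 156: planted Prékopa at the root, finite form (helper56)

`ff` is 94's (ii) in finite form, with the conditional Jensen step over all nodes of `M` included.
No path space is used: `R` is the planted density, defined by recursion on the levels.
-/

set_option autoImplicit false
set_option linter.unusedSectionVars false

noncomputable section

namespace Crest.Agent.T156.Cas

open MeasureTheory Real Set Filter Topology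
open Crest.Agent.T157.E Crest.Agent.T157.Casc Crest.Agent.T157.SL

variable {Ω : Type} [Fintype Ω]

/-- the level `l` with tilt `s` -/
abbrev rt (l : Lv Ω) (s : ℝ) : Lv Ω := ⟨l.ι, l.A, s⟩

namespace Trf

/-- three-function log-concavity -/
def Tri (θ : ℝ) (f f0 f1 : (Ω → ℝ) → ℝ) : Prop :=
  ∀ z0 z1, f0 z0 ^ (1 - θ) * f1 z1 ^ θ ≤ f ((1 - θ) • z0 + θ • z1)

/-- three-function convexity -/
def Cv (θ : ℝ) (F F0 F1 : (Ω → ℝ) → ℝ) : Prop :=
  ∀ z0 z1, F ((1 - θ) • z0 + θ • z1) ≤ (1 - θ) * F0 z0 + θ * F1 z1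

variable {θ : ℝ} {w : Ω → ℝ}

theorem comb_fld (l : Lv Ω) (z0 z1 : Ω → ℝ) (g0 g1 : l.ι → ℝ) :
    (1 - θ) • (z0 + l.fld g0) + θ • (z1 + l.fld g1) =
      ((1 - θ) • z0 + θ • z1) + l.fld ((1 - θ) • g0 + θ • g1) := by
  funext x
  simp only [Lv.fld, Pi.add_apply, Pi.smul_apply, smul_eq_mul, mul_add, Finset.sum_add_distrib,
    Finset.mul_sum]
  have e : ∀ (c : ℝ) (g : l.ι → ℝ), ∑ i, c * (l.A x i * g i) = ∑ i, l.A x i * (c * g i) :=
    fun c g => Finset.sum_congr rfl fun i _ => by ring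
  rw [e, e]
  ring

theorem Tri.int {f f0 f1 : (Ω → ℝ) → ℝ} (h : Tri θ f f0 f1) (h0 : 0 < θ) (h1 : θ < 1)
    (e : Eg f) (e0 : Eg f0) (e1 : Eg f1) (p : ∀ z, 0 ≤ f z) (p0 : ∀ z, 0 ≤ f0 z)
    (p1 : ∀ z, 0 ≤ f1 z) (l : Lv Ω) :
    Tri θ (fun z => ∫ g, f (z + l.fld g) ∂gv l.ι) (fun z => ∫ g, f0 (z + l.fld g) ∂gv l.ι)
      fun z => ∫ g, f1 (z + l.fld g) ∂gv l.ι := by
  intro z0 z1
  have key := Soft.lc_PL_pi l.ι θ h0 h1 (fun g => ENNReal.ofReal (f0 (z0 + l.fld g)))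
    (fun g => ENNReal.ofReal (f1 (z1 + l.fld g)))
    (fun g => ENNReal.ofReal (f ((1 - θ) • z0 + θ • z1 + l.fld g)))
    (e0.cont_fld l z0).measurable.ennreal_ofReal (e1.cont_fld l z1).measurable.ennreal_ofReal
    (e.cont_fld l _).measurable.ennreal_ofReal (fun g0 g1 => by
      rw [ENNReal.ofReal_rpow_of_nonneg (p0 _) (by linarith),
        ENNReal.ofReal_rpow_of_nonneg (p1 _) h0.le,
        ← ENNReal.ofReal_mul (Real.rpow_nonneg (p0 _) _), ← comb_fld]
      exact ENNReal.ofReal_le_ofReal (h _ _))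
  have i0 : 0 ≤ ∫ g, f0 (z0 + l.fld g) ∂gv l.ι := integral_nonneg fun g => p0 _
  have i1 : 0 ≤ ∫ g, f1 (z1 + l.fld g) ∂gv l.ι := integral_nonneg fun g => p1 _
  have i2 : 0 ≤ ∫ g, f ((1 - θ) • z0 + θ • z1 + l.fld g) ∂gv l.ι := integral_nonneg fun g => p _
  rw [← ofReal_integral_eq_lintegral_ofReal (e0.int l z0) (Eventually.of_forall fun g => p0 _),
    ← ofReal_integral_eq_lintegral_ofReal (e1.int l z1) (Eventually.of_forall fun g => p1 _),
    ← ofReal_integral_eq_lintegral_ofReal (e.int l _) (Eventually.of_forall fun g => p _),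
    ENNReal.ofReal_rpow_of_nonneg i0 (by linarith), ENNReal.ofReal_rpow_of_nonneg i1 h0.le,
    ← ENNReal.ofReal_mul (Real.rpow_nonneg i0 _), ENNReal.ofReal_le_ofReal_iff i2] at key
  exact key

theorem Tri.pen {f f0 f1 F F0 F1 : (Ω → ℝ) → ℝ} (h : Tri θ f f0 f1) (hc : Cv θ F F0 F1) {D : ℝ}
    (hD : 0 ≤ D) (p0 : ∀ z, 0 ≤ f0 z) (p1 : ∀ z, 0 ≤ f1 z) :
    Tri θ (fun z => exp (-D * F z) * f z) (fun z => exp (-D * F0 z) * f0 z)
      fun z => exp (-D * F1 z) * f1 z := by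
  intro z0 z1
  dsimp only
  rw [mul_rpow (exp_pos _).le (p0 _), mul_rpow (exp_pos _).le (p1 _), mul_mul_mul_comm,
    ← exp_mul, ← exp_mul, ← exp_add]
  refine mul_le_mul (exp_le_exp.2 ?_) (h z0 z1)
    (mul_nonneg (rpow_nonneg (p0 _) _) (rpow_nonneg (p1 _) _)) (exp_pos _).le
  have := mul_le_mul_of_nonneg_left (hc z0 z1) hD
  linarith

theorem Cv.step {F F0 F1 : (Ω → ℝ) → ℝ} (h : Cv θ F F0 F1) (h0 : 0 ≤ θ) (h1 : θ ≤ 1) (g : Lg F)
    (g0 : Lg F0) (g1 : Lg F1) {l : Lv Ω} (hm : 0 ≤ l.m) :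
    Cv θ (step l F) (step l F0) (step l F1) := by
  intro z0 z1
  set z := (1 - θ) • z0 + θ • z1 with hz
  have a0 := step_ge g (g0.shift (z0 - z)) hm z
  have a1 := step_ge g (g1.shift (z1 - z)) hm z
  have s0 : ∀ (G : (Ω → ℝ) → ℝ) (y : Ω → ℝ),
      T157.Casc.step l (fun u => G (u + (y - z))) z = T157.Casc.step l G y := fun G y => by
    have : ∀ u : Ω → ℝ, z + u + (y - z) = y + u := fun u => by abel
    simp only [T157.Casc.step, this]
  rw [s0] at a0 a1
  have e0 := (g0.shift (z0 - z)).eg.sub g.eg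
  have e1 := (g1.shift (z1 - z)).eg.sub g.eg
  have hp : 0 ≤ tE l F (fun u => (1 - θ) * (F0 (u + (z0 - z)) - F u) +
      θ * (F1 (u + (z1 - z)) - F u)) z := tE_nonneg l F (fun u => by
    have := h (u + (z0 - z)) (u + (z1 - z))
    have e : (1 - θ) • (u + (z0 - z)) + θ • (u + (z1 - z)) = u := by
      rw [hz]; module
    rw [e] at this
    linarith) z
  rw [tE_add g (e0.const_mul _) (e1.const_mul _), tE_const_mul, tE_const_mul] at hp
  have b0 := mul_le_mul_of_nonneg_left a0 (sub_nonneg.2 h1)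
  have b1 := mul_le_mul_of_nonneg_left a1 h0
  linarith

theorem cv_append (hw : Wt w) (h0 : 0 ≤ θ) (h1 : θ ≤ 1) {A B0 B1 : List (Lv Ω)}
    (h : Cv θ (X w A) (X w B0) (X w B1)) : ∀ M : List (Lv Ω), (∀ l ∈ M, 0 ≤ l.m) →
    Cv θ (X w (M ++ A)) (X w (M ++ B0)) (X w (M ++ B1))
  | [], _ => h
  | l :: M, hM => (cv_append hw h0 h1 h M fun l' h' => hM l' (by simp [h'])).step h0 h1
      (lg_X hw _) (lg_X hw _) (lg_X hw _) (hM l (by simp))

theorem cv_X (hw : Wt w) (h0 : 0 ≤ θ) (h1 : θ ≤ 1) (L : List (Lv Ω)) (hL : ∀ l ∈ L, 0 ≤ l.m) :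
    Cv θ (X w L) (X w L) (X w L) := by
  intro z0 z1
  set z := (1 - θ) • z0 + θ • z1 with hz
  have a0 := X_add_ge hw L hL z (z0 - z)
  have a1 := X_add_ge hw L hL z (z1 - z)
  rw [add_sub_cancel] at a0 a1
  have e : (1 - θ) * ∑ x, P w L z x * (z0 - z) x + θ * ∑ x, P w L z x * (z1 - z) x = 0 := by
    rw [Finset.mul_sum, Finset.mul_sum, ← Finset.sum_add_distrib]
    refine Finset.sum_eq_zero fun x _ => ?_
    simp only [hz, Pi.sub_apply, Pi.add_apply, Pi.smul_apply, smul_eq_mul]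
    ring
  have b0 := mul_le_mul_of_nonneg_left a0 (sub_nonneg.2 h1)
  have b1 := mul_le_mul_of_nonneg_left a1 h0
  linarith

theorem exp_step' {F : (Ω → ℝ) → ℝ} (hF : Lg F) (l : Lv Ω) (z : Ω → ℝ) :
    exp (l.m * step l F z) = ∫ g, exp (l.m * F (z + l.fld g)) ∂gv l.ι := by
  by_cases hm : l.m = 0
  · simp [hm]
  · rw [step, if_neg hm, ← mul_assoc, mul_inv_cancel₀ hm, one_mul, exp_log (hF.Z_pos l z)]

/-- the planted density of the leaf `x` -/
def Q (w : Ω → ℝ) (L : List (Lv Ω)) (x : Ω) (z : Ω → ℝ) : ℝ := exp (ex L 0 * X w L z) * P w L z x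

theorem eg_Q (hw : Wt w) (L : List (Lv Ω)) (x : Ω) : Eg (Q w L x) :=
  ((lg_X hw L).exp _).mul (eg_P hw L x)

theorem Q_nonneg (hw : Wt w) (L : List (Lv Ω)) (x : Ω) (z : Ω → ℝ) : 0 ≤ Q w L x z :=
  mul_nonneg (exp_pos _).le (P_nonneg hw L z x)

theorem sum_Q (hw : Wt w) (L : List (Lv Ω)) (z : Ω → ℝ) :
    ∑ x, Q w L x z = exp (ex L 0 * X w L z) := by
  simp only [Q, ← Finset.mul_sum, sum_P hw, mul_one]

theorem Q_nil (hw : Wt w) (x : Ω) (z : Ω → ℝ) : Q w [] x z = w x * exp (z x) := by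
  classical
  have hp := (wt_exp hw z).pos
  have e : ex ([] : List (Lv Ω)) 0 = 1 := rfl
  simp only [Q, X, P, prob, e, one_mul, exp_log hp]
  field_simp

theorem Q_cons (hw : Wt w) (l : Lv Ω) (L : List (Lv Ω)) (x : Ω) (z : Ω → ℝ) :
    Q w (l :: L) x z = ∫ g, exp (-(ex L 0 - l.m) * X w L (z + l.fld g)) *
      Q w L x (z + l.fld g) ∂gv l.ι := by
  have e : ex (l :: L) 0 = l.m := rfl
  simp only [Q, X, P, e]
  rw [exp_step' (lg_X hw L), tE, mul_div_cancel₀ _ ((lg_X hw L).Z_pos l z).ne']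
  refine integral_congr_ae (ae_of_all _ fun g => ?_)
  dsimp only
  rw [← mul_assoc, ← exp_add]
  congr 2
  ring

theorem mono_ex : ∀ {L : List (Lv Ω)} {m0 : ℝ}, Mono m0 L → m0 ≤ ex L 0
  | [], _, h => h
  | _ :: _, _, h => h.1

theorem mono_le : ∀ {L : List (Lv Ω)} {m0 m1 : ℝ}, Mono m0 L → m1 ≤ m0 → Mono m1 L
  | [], _, _, h, e => e.trans h
  | _ :: _, _, _, h, e => ⟨e.trans h.1, h.2⟩

theorem ex_le_one : ∀ {L : List (Lv Ω)} {m0 : ℝ}, Mono m0 L → ex L 0 ≤ 1
  | [], _, _ => le_rfl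
  | _ :: _, _, h => (mono_ex h.2).trans (ex_le_one h.2)

theorem mono_app : ∀ {M A : List (Lv Ω)} {m0 : ℝ}, Mono m0 (M ++ A) → Mono m0 A
  | [], _, _, h => h
  | _ :: _, _, _, h => mono_le (mono_app h.2) h.1

theorem ex_app : ∀ {M A : List (Lv Ω)} {m0 : ℝ}, Mono m0 (M ++ A) → ex (M ++ A) 0 ≤ ex A 0
  | [], _, _, _ => le_rfl
  | _ :: _, _, _, h => (mono_ex h.2).trans (ex_app h.2)

theorem tri_Q (hw : Wt w) (h0 : 0 < θ) (h1 : θ < 1) (x : Ω) :
    ∀ {L : List (Lv Ω)} {m0 : ℝ}, Mono m0 L → 0 ≤ m0 → Tri θ (Q w L x) (Q w L x) (Q w L x)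
  | [], _, _, _ => fun z0 z1 => by
    rw [Q_nil hw, Q_nil hw, Q_nil hw, mul_rpow (hw.nn x) (exp_pos _).le,
      mul_rpow (hw.nn x) (exp_pos _).le, mul_mul_mul_comm, ← exp_mul, ← exp_mul, ← exp_add,
      ← rpow_add' (hw.nn x) (by linarith), sub_add_cancel, rpow_one]
    refine le_of_eq ?_
    congr 2
    simp only [Pi.add_apply, Pi.smul_apply, smul_eq_mul]
    ring
  | l :: L, _, h, hm => by
    have hl : 0 ≤ l.m := hm.trans h.1
    have e := ((lg_X hw L).exp (-(ex L 0 - l.m))).mul (eg_Q hw L x)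
    have p : ∀ z, 0 ≤ exp (-(ex L 0 - l.m) * X w L z) * Q w L x z :=
      fun z => mul_nonneg (exp_pos _).le (Q_nonneg hw L x z)
    have := ((tri_Q hw h0 h1 x h.2 hl).pen (cv_X hw h0.le h1.le L (h.2.nn hl))
      (sub_nonneg.2 (mono_ex h.2)) (Q_nonneg hw L x) (Q_nonneg hw L x)).int h0 h1 e e e p p p l
    intro z0 z1
    rw [Q_cons hw, Q_cons hw, Q_cons hw]
    exact this z0 z1

/-- the planted density with the values of the nodes of `M` read in the model `M ++ B` -/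
def R (w : Ω → ℝ) (A B : List (Lv Ω)) (x : Ω) : List (Lv Ω) → (Ω → ℝ) → ℝ
  | [], z => Q w A x z
  | l :: M, z => ∫ g, exp (-(ex (M ++ A) 0 - l.m) * X w (M ++ B) (z + l.fld g)) *
      R w A B x M (z + l.fld g) ∂gv l.ι

theorem eg_int {f : (Ω → ℝ) → ℝ} (e : Eg f) (l : Lv Ω) :
    Eg fun z => ∫ g, f (z + l.fld g) ∂gv l.ι := by
  have hz : Lg fun _ : Ω → ℝ => (0 : ℝ) := Lg.of continuous_const 0 0 fun z => by simp
  have := e.tE hz l
  convert this using 1
  funext z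
  simp [tE]

theorem eg_R (hw : Wt w) (A B : List (Lv Ω)) (x : Ω) : ∀ M, Eg (R w A B x M)
  | [] => eg_Q hw A x
  | l :: M => eg_int (((lg_X hw (M ++ B)).exp _).mul (eg_R hw A B x M)) l

theorem R_nonneg (hw : Wt w) (A B : List (Lv Ω)) (x : Ω) : ∀ M z, 0 ≤ R w A B x M z
  | [], z => Q_nonneg hw A x z
  | _ :: M, _ => integral_nonneg fun _ => mul_nonneg (exp_pos _).le (R_nonneg hw A B x M _)

theorem R_self (hw : Wt w) (A : List (Lv Ω)) (x : Ω) : ∀ M, R w A A x M = Q w (M ++ A) x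
  | [] => rfl
  | l :: M => by
    funext z
    rw [List.cons_append, Q_cons hw, R, R_self hw A x M]

theorem R_zero (A B : List (Lv Ω)) {x : Ω} (hx : w x = 0) : ∀ M z, R w A B x M z = 0
  | [], z => by simp [R, Q, P_eq_zero hx]
  | l :: M, z => by simp [R, R_zero A B hx M]

theorem tri_R (hw : Wt w) (h0 : 0 < θ) (h1 : θ < 1) (x : Ω) {A B0 B1 : List (Lv Ω)}
    (h : Cv θ (X w A) (X w B0) (X w B1)) : ∀ {M : List (Lv Ω)} {m0 : ℝ}, Mono m0 (M ++ A) →
    0 ≤ m0 → Tri θ (R w A A x M) (R w A B0 x M) (R w A B1 x M)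
  | [], _, hm, h' => tri_Q hw h0 h1 x hm h'
  | l :: M, _, hm, h' => by
    have hl : 0 ≤ l.m := h'.trans hm.1
    have e : ∀ B, Eg fun z => exp (-(ex (M ++ A) 0 - l.m) * X w (M ++ B) z) * R w A B x M z :=
      fun B => ((lg_X hw _).exp _).mul (eg_R hw A B x M)
    have p : ∀ B z, 0 ≤ exp (-(ex (M ++ A) 0 - l.m) * X w (M ++ B) z) * R w A B x M z :=
      fun B z => mul_nonneg (exp_pos _).le (R_nonneg hw A B x M z)
    exact ((tri_R hw h0 h1 x h hm.2 hl).pen (cv_append hw h0.le h1.le h M fun l' h' =>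
      hm.2.nn hl l' (by simp [h'])) (sub_nonneg.2 (mono_ex hm.2)) (R_nonneg hw A B0 x M)
      (R_nonneg hw A B1 x M)).int h0 h1 (e A) (e B0) (e B1) (p A) (p B0) (p B1) l

theorem jensen {F φ : (Ω → ℝ) → ℝ} (hF : Lg F) (hφ : Lg φ) (c : ℝ) (l : Lv Ω) (z : Ω → ℝ) :
    exp (c * tE l F φ z) ≤ tE l F (fun u => exp (c * φ u)) z := by
  set m := tE l F φ z with hm
  have e1 : tE l F (fun y => exp (c * m) * (1 + c * (φ y - m))) z = exp (c * m) := by
    rw [tE_const_mul, tE_add hF (Eg.const _) ((hφ.eg.sub (Eg.const _)).const_mul _), tE_const hF,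
      tE_const_mul, tE_sub hF hφ.eg (Eg.const _), tE_const hF, ← hm]
    simp
  rw [← e1]
  refine tE_mono hF (((Eg.const _).add ((hφ.eg.sub (Eg.const _)).const_mul _)).const_mul _)
    (hφ.exp c) (fun u => ?_) l z
  have := add_one_le_exp (c * (φ u - m))
  rw [show c * φ u = c * m + c * (φ u - m) by ring, exp_add]
  exact mul_le_mul_of_nonneg_left (by linarith) (exp_pos _).le

theorem lg_sub {F G : (Ω → ℝ) → ℝ} (hF : Lg F) (hG : Lg G) : Lg fun z => F z - G z := by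
  obtain ⟨C, c, -, -, h⟩ := hF.bd
  obtain ⟨C', c', -, -, h'⟩ := hG.bd
  refine Lg.of (hF.eg.cont.sub hG.eg.cont) (C + C') (c + c') fun z => ?_
  have a := h (0, z) trivial
  have b := h' (0, z) trivial
  have := abs_sub (F z) (G z)
  dsimp only at a b
  linarith

theorem low1 (hw : Wt w) {A B M : List (Lv Ω)} (l : Lv Ω) (z : Ω → ℝ)
    (ih : ∀ u, exp (ex (M ++ A) 0 * X w (M ++ A) u -
      (ex A 0 - ex (M ++ A) 0) * (X w (M ++ B) u - X w (M ++ A) u)) ≤ ∑ x, R w A B x M u) :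
    exp (l.m * X w (l :: M ++ A) z) * tE l (X w (M ++ A))
      (fun u => exp (-(ex A 0 - l.m) * (X w (M ++ B) u - X w (M ++ A) u))) z ≤
      ∑ x, R w A B x (l :: M) z := by
  have hA := lg_X hw (M ++ A)
  have hB := lg_X hw (M ++ B)
  have e : ∀ x, Eg fun z => exp (-(ex (M ++ A) 0 - l.m) * X w (M ++ B) z) * R w A B x M z :=
    fun x => (hB.exp _).mul (eg_R hw A B x M)
  simp only [List.cons_append, X, R]
  rw [exp_step' hA, tE, mul_div_cancel₀ _ (hA.Z_pos l z).ne',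
    ← integral_finsetSum _ fun x _ => (e x).int l z]
  refine integral_mono (hA.int ((lg_sub hB hA).exp _) l z)
    (integrable_finsetSum _ fun x _ => (e x).int l z) fun g => ?_
  dsimp only
  rw [← Finset.mul_sum, ← exp_add]
  refine le_trans (le_of_eq ?_) (mul_le_mul_of_nonneg_left (ih _) (exp_pos _).le)
  rw [← exp_add]
  congr 1
  ring

theorem low (hw : Wt w) {A B : List (Lv Ω)} : ∀ {M : List (Lv Ω)} {m0 : ℝ}, Mono m0 (M ++ A) →
    0 ≤ m0 → ∀ u, exp (ex (M ++ A) 0 * X w (M ++ A) u -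
      (ex A 0 - ex (M ++ A) 0) * (X w (M ++ B) u - X w (M ++ A) u)) ≤ ∑ x, R w A B x M u
  | [], _, _, _, u => by simp [R, sum_Q hw]
  | l :: M, _, hm, h', u => by
    have hl : 0 ≤ l.m := h'.trans hm.1
    have hA := lg_X hw (M ++ A)
    have hB := lg_X hw (M ++ B)
    refine le_trans ?_ (low1 hw l u (low hw hm.2 hl))
    have e : ex (l :: M ++ A) 0 = l.m := rfl
    have hc : 0 ≤ ex A 0 - l.m := sub_nonneg.2 ((mono_ex hm.2).trans (ex_app hm.2))
    rw [e, sub_eq_add_neg, exp_add]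
    refine mul_le_mul_of_nonneg_left (le_trans (exp_le_exp.2 ?_) (jensen hA (lg_sub hB hA) _ l u))
      (exp_pos _).le
    have := mul_le_mul_of_nonneg_left (step_ge hA hB hl u) hc
    simp only [List.cons_append, X]
    linarith

/-! ### symmetry -/

section sym
variable {τ : Equiv.Perm Ω}

theorem int_co {l : Lv Ω} (hl : ∀ x y, l.cov (τ x) (τ y) = l.cov x y) {G : (Ω → ℝ) → ℝ}
    (hG : Continuous G) (z : Ω → ℝ) :
    ∫ g, G ((fun y => z (τ y)) + l.fld g) ∂gv l.ι =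
      ∫ g, G (fun y => (z + l.fld g) (τ y)) ∂gv l.ι :=
  C.int_fld_eq (l := l) (l' := C.coLv τ l) (by funext x y; exact (hl x y).symm)
    (G := fun f => G ((fun y => z (τ y)) + f)) (by fun_prop)

theorem X_sym (hw : Wt w) (hτ : ∀ x, w (τ x) = w x) : ∀ L : List (Lv Ω),
    (∀ l ∈ L, ∀ x y, l.cov (τ x) (τ y) = l.cov x y) → ∀ z, X w L (fun y => z (τ y)) = X w L z
  | [], _, z => by
    simp only [X]
    rw [← Equiv.sum_comp τ fun x => w x * exp (z x)]
    simp only [hτ]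
  | l :: L, h, z => by
    have ih := X_sym hw hτ L fun l' h' => h l' (by simp [h'])
    have hX := lg_X hw L
    simp only [X, step]
    rw [int_co (h l (by simp)) hX.eg.cont, int_co (h l (by simp)) (hX.exp l.m).cont]
    simp only [ih]

theorem Q_sym (hw : Wt w) (hτ : ∀ x, w (τ x) = w x) (x : Ω) : ∀ L : List (Lv Ω),
    (∀ l ∈ L, ∀ x y, l.cov (τ x) (τ y) = l.cov x y) →
    ∀ z, Q w L x (fun y => z (τ y)) = Q w L (τ x) z
  | [], _, z => by rw [Q_nil hw, Q_nil hw, hτ]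
  | l :: L, h, z => by
    have h' : ∀ l' ∈ L, ∀ x y, l'.cov (τ x) (τ y) = l'.cov x y := fun l' h' => h l' (by simp [h'])
    rw [Q_cons hw, Q_cons hw, int_co (h l (by simp)) (((lg_X hw L).exp _).mul (eg_Q hw L x)).cont]
    simp only [X_sym hw hτ L h', Q_sym hw hτ x L h']

theorem R_sym (hw : Wt w) (hτ : ∀ x, w (τ x) = w x) (x : Ω) {A B : List (Lv Ω)}
    (hA : ∀ l ∈ A, ∀ x y, l.cov (τ x) (τ y) = l.cov x y)
    (hB : ∀ l ∈ B, ∀ x y, l.cov (τ x) (τ y) = l.cov x y) : ∀ M : List (Lv Ω),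
    (∀ l ∈ M, ∀ x y, l.cov (τ x) (τ y) = l.cov x y) →
    ∀ z, R w A B x M (fun y => z (τ y)) = R w A B (τ x) M z
  | [], _, z => Q_sym hw hτ x A hA z
  | l :: M, h, z => by
    have h' : ∀ l' ∈ M, ∀ x y, l'.cov (τ x) (τ y) = l'.cov x y := fun l' h' => h l' (by simp [h'])
    have h'' : ∀ l' ∈ M ++ B, ∀ x y, l'.cov (τ x) (τ y) = l'.cov x y := fun l' hl =>
      (List.mem_append.1 hl).elim (h' l') (hB l')
    rw [R, R, int_co (h l (by simp)) (((lg_X hw (M ++ B)).exp _).mul (eg_R hw A B x M)).cont]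
    simp only [X_sym hw hτ _ h'', R_sym hw hτ x hA hB M h']

end sym

open Classical in
theorem sum_R (hw : Wt w) {A B M : List (Lv Ω)} {h : Ω → ℝ} {T : Set (Equiv.Perm Ω)} {x₀ : Ω}
    (sA : ∀ τ ∈ T, Sym w (M ++ A) h τ) (sB : ∀ τ ∈ T, Sym w (M ++ B) h τ)
    (tr : ∀ x, w x ≠ 0 → ∃ τ ∈ T, τ x₀ = x) :
    ∑ x, R w A B x M h = ((Finset.univ.filter fun x => w x ≠ 0).card : ℝ) * R w A B x₀ M h := by
  rw [← nsmul_eq_mul, ← Finset.sum_const, Finset.sum_filter]
  refine Finset.sum_congr rfl fun x _ => ?_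
  split_ifs with hx
  · obtain ⟨τ, hτ, rfl⟩ := tr x hx
    rw [← R_sym hw (sA τ hτ).w x₀ (fun l hl => (sA τ hτ).cov l (by simp [hl]))
      (fun l hl => (sB τ hτ).cov l (by simp [hl])) M fun l hl => (sA τ hτ).cov l (by simp [hl])]
    simp only [(sA τ hτ).h]
  · exact R_zero A B (not_not.1 hx) M h

/-- **planted Prékopa** for the whole prefix `M` (`∑ x, R w A B x M h = exp (m X) E exp (-∑ D Δ)`) -/
theorem prek_R (hw : Wt w) (h0 : 0 < θ) (h1 : θ < 1) {A B0 B1 M : List (Lv Ω)} {h : Ω → ℝ}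
    {T : Set (Equiv.Perm Ω)} {x₀ : Ω} (hc : Cv θ (X w A) (X w B0) (X w B1))
    (hm : Mono 0 (M ++ A)) (sA : ∀ τ ∈ T, Sym w (M ++ A) h τ) (s0 : ∀ τ ∈ T, Sym w (M ++ B0) h τ)
    (s1 : ∀ τ ∈ T, Sym w (M ++ B1) h τ) (tr : ∀ x, w x ≠ 0 → ∃ τ ∈ T, τ x₀ = x) :
    (∑ x, R w A B0 x M h) ^ (1 - θ) * (∑ x, R w A B1 x M h) ^ θ ≤
      exp (ex (M ++ A) 0 * X w (M ++ A) h) := by
  have key := tri_R hw h0 h1 x₀ hc hm le_rfl h h
  have e : (1 - θ) • h + θ • h = h := by module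
  rw [e] at key
  rw [← sum_Q hw]
  simp only [← R_self hw]
  rw [sum_R hw sA s0 tr, sum_R hw sA s1 tr, sum_R hw sA sA tr,
    mul_rpow (Nat.cast_nonneg _) (R_nonneg hw _ _ _ _ _),
    mul_rpow (Nat.cast_nonneg _) (R_nonneg hw _ _ _ _ _), mul_mul_mul_comm,
    ← rpow_add' (Nat.cast_nonneg _) (by linarith), sub_add_cancel, rpow_one]
  exact mul_le_mul_of_nonneg_left key (Nat.cast_nonneg _)

/-- **finite form at the root** (94 (ii)), `D = ex A 0 - l.m` -/
theorem ff_root (hw : Wt w) (h0 : 0 < θ) (h1 : θ < 1) {A B0 B1 M : List (Lv Ω)} {l : Lv Ω}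
    {h : Ω → ℝ} {T : Set (Equiv.Perm Ω)} {x₀ : Ω} (hc : Cv θ (X w A) (X w B0) (X w B1))
    (hm : Mono 0 (l :: M ++ A)) (sA : ∀ τ ∈ T, Sym w (l :: M ++ A) h τ)
    (s0 : ∀ τ ∈ T, Sym w (l :: M ++ B0) h τ) (s1 : ∀ τ ∈ T, Sym w (l :: M ++ B1) h τ)
    (tr : ∀ x, w x ≠ 0 → ∃ τ ∈ T, τ x₀ = x) :
    tE l (X w (M ++ A))
        (fun u => exp (-(ex A 0 - l.m) * (X w (M ++ B0) u - X w (M ++ A) u))) h ^ (1 - θ) *
      tE l (X w (M ++ A))
        (fun u => exp (-(ex A 0 - l.m) * (X w (M ++ B1) u - X w (M ++ A) u))) h ^ θ ≤ 1 := by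
  have key := prek_R hw h0 h1 (M := l :: M) hc hm sA s0 s1 tr
  have a0 := low1 hw (B := B0) l h (low hw hm.2 hm.1)
  have a1 := low1 hw (B := B1) l h (low hw hm.2 hm.1)
  have p : ∀ B, 0 ≤ tE l (X w (M ++ A))
      (fun u => exp (-(ex A 0 - l.m) * (X w (M ++ B) u - X w (M ++ A) u))) h :=
    fun B => tE_nonneg _ _ (fun _ => (exp_pos _).le) _
  have e : ex (l :: M ++ A) 0 = l.m := rfl
  rw [e] at key
  have hZ := exp_pos (l.m * X w (l :: M ++ A) h)
  have b := (mul_le_mul (rpow_le_rpow (mul_nonneg hZ.le (p B0)) a0 (sub_nonneg.2 h1.le))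
    (rpow_le_rpow (mul_nonneg hZ.le (p B1)) a1 h0.le) (rpow_nonneg (mul_nonneg hZ.le (p B1)) _)
    (rpow_nonneg ((mul_nonneg hZ.le (p B0)).trans a0) _)).trans key
  rw [mul_rpow hZ.le (p B0), mul_rpow hZ.le (p B1), mul_mul_mul_comm, ← rpow_add hZ,
    sub_add_cancel, rpow_one] at b
  exact (mul_le_iff_le_one_right hZ).1 b

end Trf

end Crest.Agent.T156.Cas

end
private theorem rz_72b3e6ac6f : type_of% @_root_.Crest.Agent.T156.Cas.Trf.R.eq_def := @_root_.Crest.Agent.T156.Cas.Trf.R.eq_def -- L215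
private theorem rz_e3dec5431a : type_of% @_root_.Crest.Agent.T156.Cas.Trf.R.eq_1 := @_root_.Crest.Agent.T156.Cas.Trf.R.eq_1 -- L215
end

-- ▼ part T156/CaTrf_56

/-!
# Row 156: tilt transfer (94 (ii), (iii)) without derivatives in the parameter (helper56)
-/

set_option autoImplicit false
set_option linter.unusedSectionVars false

noncomputable section

namespace Crest.Agent.T156.Cas

open MeasureTheory Real Set Filter Topology
open Crest.Agent.T157.E Crest.Agent.T157.Casc Crest.Agent.T157.SL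

variable {Ω : Type} [Fintype Ω]

/-- covariance at one level -/
def cT (l : Lv Ω) (F φ ψ : (Ω → ℝ) → ℝ) (h : Ω → ℝ) : ℝ :=
  tE l F (fun z => φ z * ψ z) h - tE l F φ h * tE l F ψ h

namespace Trf

variable {F G φ ψ : (Ω → ℝ) → ℝ} {w : Ω → ℝ}

theorem tE_quad (hF : Lg F) (hφ : Eg φ) (hψ : Eg ψ) (l : Lv Ω) (h : Ω → ℝ) (a b c d e f : ℝ) :
    tE l F (fun z => a * (φ z * φ z) + b * (φ z * ψ z) + c * (ψ z * ψ z) + d * φ z + e * ψ z + f) h =
      a * tE l F (fun z => φ z * φ z) h + b * tE l F (fun z => φ z * ψ z) h +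
        c * tE l F (fun z => ψ z * ψ z) h + d * tE l F φ h + e * tE l F ψ h + f := by
  have e1 := (hφ.mul hφ).const_mul a
  have e2 := (hφ.mul hψ).const_mul b
  have e3 := (hψ.mul hψ).const_mul c
  have e4 := hφ.const_mul d
  have e5 := hψ.const_mul e
  rw [tE_add hF ((((e1.add e2).add e3).add e4).add e5) (Eg.const _),
    tE_add hF (((e1.add e2).add e3).add e4) e5, tE_add hF ((e1.add e2).add e3) e4,
    tE_add hF (e1.add e2) e3, tE_add hF e1 e2, tE_const hF]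
  simp only [tE_const_mul]

theorem cT_quad (hF : Lg F) (hφ : Eg φ) (hψ : Eg ψ) (l : Lv Ω) (h : Ω → ℝ) (a b : ℝ) :
    0 ≤ a ^ 2 * cT l F φ φ h + 2 * a * b * cT l F φ ψ h + b ^ 2 * cT l F ψ ψ h := by
  set c := a * tE l F φ h + b * tE l F ψ h with hc
  have key := tE_quad hF hφ hψ l h (a ^ 2) (2 * a * b) (b ^ 2) (-2 * c * a) (-2 * c * b) (c ^ 2)
  have p := tE_nonneg l F (Φ := fun z => a ^ 2 * (φ z * φ z) + 2 * a * b * (φ z * ψ z) +
    b ^ 2 * (ψ z * ψ z) + -2 * c * a * φ z + -2 * c * b * ψ z + c ^ 2)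
    (fun z => (sq_nonneg (a * φ z + b * ψ z - c)).trans_eq (by ring)) h
  rw [key] at p
  refine p.trans_eq ?_
  simp only [cT, hc]
  ring

theorem cT_abs (hF : Lg F) (hφ : Eg φ) (hψ : Eg ψ) (l : Lv Ω) (h : Ω → ℝ) {η : ℝ} (hη : 0 < η) :
    |cT l F φ ψ h| ≤ η / 2 * cT l F φ φ h + cT l F ψ ψ h / (2 * η) := by
  have a := cT_quad hF hφ hψ l h η 1
  have b := cT_quad hF hφ hψ l h η (-1)
  have e : η / 2 * cT l F φ φ h + cT l F ψ ψ h / (2 * η) =
      (η ^ 2 * cT l F φ φ h + cT l F ψ ψ h) / (2 * η) := by field_simp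
  rw [e, le_div_iff₀ (by positivity), ← abs_of_pos (show 0 < 2 * η by positivity), ← abs_mul,
    abs_le]
  constructor <;> linarith

theorem tE_abs (hF : Lg F) (hφ : Eg φ) {κ : ℝ} (b : ∀ z, |φ z| ≤ κ) (l : Lv Ω) (h : Ω → ℝ) :
    |tE l F φ h| ≤ κ := by
  have a1 := tE_mono hF hφ (Eg.const κ) (fun z => (abs_le.1 (b z)).2) l h
  have a2 := tE_mono hF (Eg.const (-κ)) hφ (fun z => (abs_le.1 (b z)).1) l h
  rw [tE_const hF] at a1 a2
  exact abs_le.2 ⟨a2, a1⟩

theorem exp_lo {x : ℝ} (h : |x| ≤ 1 / 2) : 1 + x + x ^ 2 / 3 ≤ exp x := by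
  have := Real.exp_bound (x := x) (by linarith) (n := 3) (by norm_num)
  simp only [Finset.sum_range_succ, Finset.range_zero, Finset.sum_empty, Nat.factorial] at this
  norm_num at this
  have h1 := (abs_le.1 this).1
  have h2 : |x| ^ 3 = |x| * x ^ 2 := by rw [← sq_abs]; ring
  nlinarith [sq_nonneg x]

theorem exp_up {x : ℝ} (h : |x| ≤ 1) : exp x ≤ 1 + x + x ^ 2 := by
  have := (abs_le.1 (Real.abs_exp_sub_one_sub_id_le h)).2
  linarith

/-- lower second-order bound of an exponential moment -/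
theorem tE_exp_lo (hF : Lg F) (hφ : Lg φ) {κ c : ℝ} (b : ∀ z, |φ z| ≤ κ) (hc : |c| * κ ≤ 1 / 4)
    (l : Lv Ω) (h : Ω → ℝ) : exp (c * tE l F φ h) * (1 + c ^ 2 / 3 * cT l F φ φ h) ≤
      tE l F (fun z => exp (c * φ z)) h := by
  set m := tE l F φ h with hm
  have bm : |m| ≤ κ := tE_abs hF hφ.eg b l h
  have key := tE_quad hF hφ.eg hφ.eg l h (c ^ 2 / 3) 0 0 (c - 2 * c ^ 2 * m / 3) 0
    (1 - c * m + c ^ 2 * m ^ 2 / 3)
  have e : 1 + c ^ 2 / 3 * cT l F φ φ h = tE l F (fun z => c ^ 2 / 3 * (φ z * φ z) +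
      0 * (φ z * φ z) + 0 * (φ z * φ z) + (c - 2 * c ^ 2 * m / 3) * φ z + 0 * φ z +
      (1 - c * m + c ^ 2 * m ^ 2 / 3)) h := by
    rw [key, cT, ← hm]; ring
  rw [e, ← tE_const_mul]
  have e1 := hφ.eg.mul hφ.eg
  refine tE_mono hF (((((((e1.const_mul _).add (e1.const_mul _)).add (e1.const_mul _)).add
    (hφ.eg.const_mul _)).add (hφ.eg.const_mul _)).add (Eg.const _)).const_mul _) (hφ.exp c)
    (fun z => ?_) l h
  have hx : |c * (φ z - m)| ≤ 1 / 2 := by
    rw [abs_mul]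
    have := mul_le_mul_of_nonneg_left ((abs_sub (φ z) m).trans (add_le_add (b z) bm)) (abs_nonneg c)
    linarith
  rw [show c * φ z = c * m + c * (φ z - m) by ring, exp_add]
  exact mul_le_mul_of_nonneg_left (le_trans (le_of_eq (by ring)) (exp_lo hx)) (exp_pos _).le

/-- second-order upper bound for the increment of one step -/
theorem step_up (hF : Lg F) (hG : Lg G) {κ : ℝ} (b : ∀ z, |G z - F z| ≤ κ) (hκ : κ ≤ 1 / 2)
    {l : Lv Ω} (h0 : 0 < l.m) (h1 : l.m ≤ 1) (h : Ω → ℝ) :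
    step l G h ≤ step l F h + tE l F (fun z => G z - F z) h + 4 * κ ^ 2 := by
  have hφ := lg_sub hG hF
  set m := tE l F (fun z => G z - F z) h with hm
  have bm : |m| ≤ κ := tE_abs hF hφ.eg b l h
  have hκ0 : 0 ≤ κ := (abs_nonneg _).trans bm
  have a1 : tE l F (fun z => exp (l.m * (G z - F z))) h ≤
      tE l F (fun z => exp (l.m * m) * (1 + 4 * (l.m * κ) ^ 2 + l.m * (G z - F z - m))) h := by
    refine tE_mono hF (hφ.exp _) (((Eg.const _).add ((hφ.eg.sub (Eg.const _)).const_mul _)).const_mul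
      _) (fun z => ?_) l h
    have hx : |l.m * (G z - F z - m)| ≤ 2 * (l.m * κ) := by
      rw [abs_mul, abs_of_pos h0]
      have := mul_le_mul_of_nonneg_left ((abs_sub (G z - F z) m).trans (add_le_add (b z) bm)) h0.le
      linarith
    have hx' : 2 * (l.m * κ) ≤ 1 := by nlinarith
    have h2 := exp_up (hx.trans hx')
    have h3 : (l.m * (G z - F z - m)) ^ 2 ≤ (2 * (l.m * κ)) ^ 2 := by
      rw [← sq_abs]
      exact pow_le_pow_left₀ (abs_nonneg _) hx 2
    rw [show l.m * (G z - F z) = l.m * m + l.m * (G z - F z - m) by ring, exp_add]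
    exact mul_le_mul_of_nonneg_left (by linarith) (exp_pos _).le
  rw [tE_const_mul, tE_add hF (Eg.const _) ((hφ.eg.sub (Eg.const _)).const_mul _), tE_const hF,
    tE_const_mul, tE_sub hF hφ.eg (Eg.const _), tE_const hF, ← hm, sub_self, mul_zero, add_zero,
    tE, div_le_iff₀ (hF.Z_pos l h)] at a1
  have e : ∀ g, exp (l.m * F (h + l.fld g)) * exp (l.m * (G (h + l.fld g) - F (h + l.fld g))) =
      exp (l.m * G (h + l.fld g)) := fun g => by rw [← exp_add]; congr 1; ring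
  simp only [e] at a1
  rw [← exp_step' hF, ← exp_step' hG] at a1
  have a2 : exp (l.m * step l G h) ≤ exp (l.m * m + 4 * (l.m * κ) ^ 2 + l.m * step l F h) := by
    rw [exp_add, exp_add]
    refine a1.trans (mul_le_mul_of_nonneg_right (mul_le_mul_of_nonneg_left ?_ (exp_pos _).le)
      (exp_pos _).le)
    linarith [add_one_le_exp (4 * (l.m * κ) ^ 2)]
  have a3 := exp_le_exp.1 a2
  have a4 : l.m * step l G h ≤ l.m * (step l F h + m + 4 * κ ^ 2) := by
    have : l.m * (l.m * κ ^ 2) ≤ l.m * κ ^ 2 := mul_le_mul_of_nonneg_left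
      (mul_le_of_le_one_left (sq_nonneg κ) h1) h0.le
    nlinarith
  exact le_of_mul_le_mul_left a4 h0

theorem der_num (hF : Lg F) (hφ : Eg φ) (l : Lv Ω) (h : Ω → ℝ) (s : ℝ) :
    HasDerivAt (fun s => ∫ g, exp (s * F (h + l.fld g)) * φ (h + l.fld g) ∂gv l.ι)
      (∫ g, exp (s * F (h + l.fld g)) * (F (h + l.fld g) * φ (h + l.fld g)) ∂gv l.ι) s := by
  have e := hF.eg.mul hφ
  refine (hasDerivAt_integral_of_dominated_loc_of_deriv_le (μ := gv l.ι) (s := Metric.ball s 1)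
    (F := fun s g => exp (s * F (h + l.fld g)) * φ (h + l.fld g))
    (F' := fun s g => exp (s * F (h + l.fld g)) * (F (h + l.fld g) * φ (h + l.fld g)))
    (bound := fun g => (exp ((s + 1) * F (h + l.fld g)) + exp ((s - 1) * F (h + l.fld g))) *
      |F (h + l.fld g) * φ (h + l.fld g)|) (Metric.ball_mem_nhds s one_pos)
    (Eventually.of_forall fun t => (((hF.exp t).mul hφ).cont_fld l h).aestronglyMeasurable)
    (((hF.exp s).mul hφ).int l h) (((hF.exp s).mul e).cont_fld l h).aestronglyMeasurable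
    (ae_of_all _ fun g t ht => ?_) ((((hF.exp _).add (hF.exp _)).mul e.abs).int l h)
    (ae_of_all _ fun g t _ => ?_)).2
  · rw [Real.norm_eq_abs, abs_mul, abs_of_pos (exp_pos _)]
    refine mul_le_mul_of_nonneg_right ?_ (abs_nonneg _)
    have ht' := abs_lt.1 (show |t - s| < 1 from ht)
    rcases le_total 0 (F (h + l.fld g)) with hp | hp
    · have : exp (t * F (h + l.fld g)) ≤ exp ((s + 1) * F (h + l.fld g)) :=
        exp_le_exp.2 (mul_le_mul_of_nonneg_right (by linarith) hp)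
      linarith [exp_pos ((s - 1) * F (h + l.fld g))]
    · have : exp (t * F (h + l.fld g)) ≤ exp ((s - 1) * F (h + l.fld g)) :=
        exp_le_exp.2 (mul_le_mul_of_nonpos_right (by linarith) hp)
      linarith [exp_pos ((s + 1) * F (h + l.fld g))]
  · have := (((hasDerivAt_id' t).mul_const (F (h + l.fld g))).exp).mul_const (φ (h + l.fld g))
    exact this.congr_deriv (by ring)

/-- the derivative of a tilted mean in the tilt is a covariance -/
theorem der_tE (hF : Lg F) (hφ : Eg φ) (l : Lv Ω) (h : Ω → ℝ) (s : ℝ) :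
    HasDerivAt (fun s => tE (rt l s) F φ h) (cT (rt l s) F F φ h) s := by
  have hZ := (hF.Z_pos (rt l s) h).ne'
  have a := der_num hF hφ l h s
  have b := der_num hF (Eg.const 1) l h s
  simp only [mul_one] at b
  have alg : ∀ p q r z : ℝ, z ≠ 0 → (p * z - q * r) / z ^ 2 = p / z - r / z * (q / z) :=
    fun p q r z hz => by field_simp
  exact (a.div b hZ).congr_deriv (alg _ _ _ _ hZ)

/-- tilted means against values on a larger interval of tilts -/
theorem W_le' (hF : Lg F) (l : Lv Ω) (h : Ω → ℝ) {a a' a₁ : ℝ} (h0 : 0 < a) (h1 : a ≤ a')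
    (h2 : a' < a₁) : tE (rt l a') F F h - tE (rt l a) F F h ≤
      a₁ / (a₁ - a') * (step (rt l a₁) F h - step (rt l a) F h) := by
  have key : ∀ s t : ℝ, s * step (rt l s) F h + (t - s) * tE (rt l s) F F h ≤
      t * step (rt l t) F h := fun s t => by
    have j := jensen hF hF (t - s) (rt l s) h
    rw [tE.eq_def (rt l s) F (fun u => exp ((t - s) * F u)), le_div_iff₀ (hF.Z_pos _ h)] at j
    have e : ∀ g, exp (s * F (h + (rt l s).fld g)) * exp ((t - s) * F (h + (rt l s).fld g)) =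
        exp (t * F (h + (rt l t).fld g)) := fun g => by
      rw [← exp_add]; congr 1
      show s * F (h + l.fld g) + (t - s) * F (h + l.fld g) = t * F (h + l.fld g)
      ring
    simp only [e] at j
    rw [← exp_step' hF (rt l s), ← exp_step' hF (rt l t), ← exp_add] at j
    have := exp_le_exp.1 j
    linarith
  have k1 := key a' a₁
  have k2 := key a 0
  have k3 := key a a'
  have hd : 0 < a₁ - a' := by linarith
  have k4 : step (rt l a) F h ≤ tE (rt l a) F F h := le_of_mul_le_mul_left (by linarith) h0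
  have k5 : step (rt l a) F h ≤ step (rt l a') F h := by
    have := mul_le_mul_of_nonneg_left k4 (sub_nonneg.2 h1)
    exact le_of_mul_le_mul_left (by linarith) (h0.trans_le h1)
  rw [div_mul_eq_mul_div, le_div_iff₀ hd]
  have k6 := mul_le_mul_of_nonneg_left k4 hd.le
  have k7 := mul_le_mul_of_nonneg_left k5 (h0.le.trans h1)
  linarith

theorem sq_le_of_forall {t A B : ℝ} (hA : 0 ≤ A) (hB : 0 ≤ B)
    (h : ∀ η, 0 < η → |t| ≤ η / 2 * A + B / (2 * η)) : t ^ 2 ≤ A * B := by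
  have h' : ∀ η, 0 < η → 2 * η * |t| ≤ η ^ 2 * A + B := fun η hη => by
    have := mul_le_mul_of_nonneg_left (h η hη) (show 0 ≤ 2 * η by positivity)
    refine this.trans_eq ?_
    field_simp
  rw [← sq_abs]
  rcases (abs_nonneg t).eq_or_lt with h0 | h0
  · rw [← h0]; simpa using mul_nonneg hA hB
  rcases hA.eq_or_lt with h1 | h1
  · have := h' ((B + 1) / |t|) (by positivity)
    rw [← h1, mul_assoc, div_mul_cancel₀ _ h0.ne'] at this
    linarith
  · have := mul_le_mul_of_nonneg_left (h' (|t| / A) (by positivity)) h1.le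
    have e1 : A * (2 * (|t| / A) * |t|) = 2 * |t| ^ 2 := by field_simp
    have e2 : A * ((|t| / A) ^ 2 * A + B) = |t| ^ 2 + A * B := by field_simp
    linarith

end Trf

open Trf

/-- a family of cascades `l :: M ++ N t` whose upper part is jointly convex in (state, `t`) and
which has a transitive family of symmetries -/
structure Fam (w : Ω → ℝ) (l : Lv Ω) (M : List (Lv Ω)) (N : ℝ → List (Lv Ω)) (h : Ω → ℝ)
    (T : Set (Equiv.Perm Ω)) (x₀ : Ω) (α β : ℝ) : Prop where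
  wt : Wt w
  conv : ConvexOn ℝ (univ ×ˢ Icc α β) fun p : (Ω → ℝ) × ℝ => X w (N p.2) p.1
  sym : ∀ τ ∈ T, ∀ t ∈ Icc α β, Sym w (l :: M ++ N t) h τ
  trans : ∀ x, w x ≠ 0 → ∃ τ ∈ T, τ x₀ = x

variable {w : Ω → ℝ} {l : Lv Ω} {M : List (Lv Ω)} {N : ℝ → List (Lv Ω)} {h : Ω → ℝ}
  {T : Set (Equiv.Perm Ω)} {x₀ : Ω} {α β : ℝ}

theorem Fam.cv (H : Fam w l M N h T x₀ α β) {θ t₀ t₁ : ℝ} (h0 : 0 ≤ θ) (h1 : θ ≤ 1)
    (m₀ : t₀ ∈ Icc α β) (m₁ : t₁ ∈ Icc α β) :
    Cv θ (X w (N ((1 - θ) * t₀ + θ * t₁))) (X w (N t₀)) (X w (N t₁)) := fun z0 z1 =>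
  H.conv.2 (x := (z0, t₀)) (y := (z1, t₁)) ⟨trivial, m₀⟩ ⟨trivial, m₁⟩ (sub_nonneg.2 h1) h0
    (by ring)

theorem Fam.sym' (H : Fam w l M N h T x₀ α β) (s : ℝ) {t : ℝ} (m : t ∈ Icc α β) :
    ∀ τ ∈ T, Sym w (rt l s :: M ++ N t) h τ := fun τ hτ =>
  ⟨(H.sym τ hτ t m).w, (H.sym τ hτ t m).h, fun l' hl' => by
    rcases List.mem_cons.1 hl' with rfl | hl'
    · exact (H.sym τ hτ t m).cov l (by simp)
    · exact (H.sym τ hτ t m).cov l' (List.mem_cons_of_mem _ hl')⟩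

/-- **94 (ii), finite form**: `D = ex (N t) 0 - s` -/
theorem Fam.ff (H : Fam w l M N h T x₀ α β) {θ t₀ t₁ t s : ℝ} (h0 : 0 < θ) (h1 : θ < 1)
    (m₀ : t₀ ∈ Icc α β) (m₁ : t₁ ∈ Icc α β) (ht : t = (1 - θ) * t₀ + θ * t₁) (hs : 0 ≤ s)
    (hm : Mono s (M ++ N t)) :
    tE (rt l s) (X w (M ++ N t))
        (fun u => exp (-(ex (N t) 0 - s) * (X w (M ++ N t₀) u - X w (M ++ N t) u))) h ^ (1 - θ) *
      tE (rt l s) (X w (M ++ N t))
        (fun u => exp (-(ex (N t) 0 - s) * (X w (M ++ N t₁) u - X w (M ++ N t) u))) h ^ θ ≤ 1 := by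
  have m : t ∈ Icc α β := by
    rw [ht]
    exact (convex_Icc α β) m₀ m₁ (sub_nonneg.2 h1.le) h0.le (by ring)
  refine ff_root (l := rt l s) H.wt h0 h1 (T := T) (x₀ := x₀) ?_ ⟨hs, hm⟩ (H.sym' s m)
    (H.sym' s m₀) (H.sym' s m₁) H.trans
  rw [ht]
  exact H.cv h0.le h1.le m₀ m₁

/-- **94 (ii), variance form** with second differences -/
theorem Fam.var_le (H : Fam w l M N h T x₀ α β) {t e s D κ : ℝ} (m₀ : t - e ∈ Icc α β)
    (m₁ : t + e ∈ Icc α β) (hs : 0 ≤ s) (hm : Mono s (M ++ N t)) (hD : D ≤ ex (N t) 0 - s)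
    (hκ : κ ≤ 1 / 4) (b₀ : ∀ u, |X w (M ++ N (t - e)) u - X w (M ++ N t) u| ≤ κ)
    (b₁ : ∀ u, |X w (M ++ N (t + e)) u - X w (M ++ N t) u| ≤ κ) :
    D * cT (rt l s) (X w (M ++ N t)) (fun u => X w (M ++ N (t + e)) u - X w (M ++ N t) u)
        (fun u => X w (M ++ N (t + e)) u - X w (M ++ N t) u) h ≤
      6 * (X w (rt l s :: M ++ N (t + e)) h - 2 * X w (rt l s :: M ++ N t) h +
        X w (rt l s :: M ++ N (t - e)) h) := by
  have key := H.ff (θ := 1 / 2) (t := t) (by norm_num) (by norm_num) m₀ m₁ (by ring) hs hm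
  have hF := lg_X H.wt (M ++ N t)
  have h₀ := lg_X H.wt (M ++ N (t - e))
  have h₁ := lg_X H.wt (M ++ N (t + e))
  set d := ex (N t) 0 - s with hd
  have d0 : 0 ≤ d := sub_nonneg.2 ((mono_ex hm).trans (ex_app hm))
  have d1 : d ≤ 1 := by have := ex_le_one (mono_app hm); linarith
  have hκ0 : 0 ≤ κ := (abs_nonneg _).trans (b₀ 0)
  have a₀ := jensen hF (lg_sub h₀ hF) (-d) (rt l s) h
  have a₁ := tE_exp_lo hF (lg_sub h₁ hF) (c := -d) b₁
    (by rw [abs_neg, abs_of_nonneg d0]; nlinarith) (rt l s) h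
  have s₀ := step_ge hF h₀ (l := rt l s) hs h
  have s₁ := step_ge hF h₁ (l := rt l s) hs h
  have u₀ := C.step_le (C.lp_X H.wt (M ++ N (t - e))) (C.lp_X H.wt (M ++ N t)) (rt l s)
    (h := h) (h' := h) (c := κ) fun g => by linarith [(abs_le.1 (b₀ (h + (rt l s).fld g))).2]
  have u₁ := C.step_le (C.lp_X H.wt (M ++ N (t + e))) (C.lp_X H.wt (M ++ N t)) (rt l s)
    (h := h) (h' := h) (c := κ) fun g => by linarith [(abs_le.1 (b₁ (h + (rt l s).fld g))).2]
  have vp := cT_quad hF (lg_sub h₁ hF).eg (lg_sub h₁ hF).eg (rt l s) h 1 0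
  have cp : 0 ≤ tE (rt l s) (X w (M ++ N t)) (fun u => (X w (M ++ N (t - e)) u - X w (M ++ N t) u) +
      (X w (M ++ N (t + e)) u - X w (M ++ N t) u)) h := tE_nonneg _ _ (fun u => by
    have := cv_append H.wt (θ := 1 / 2) (by norm_num) (by norm_num)
      (H.cv (θ := 1 / 2) (by norm_num) (by norm_num) m₀ m₁) M
      (fun l' hl' => hm.nn hs l' (by simp [hl'])) u u
    rw [show (1 - 1 / 2 : ℝ) • u + (1 / 2 : ℝ) • u = u by module,
      show (1 - 1 / 2) * (t - e) + 1 / 2 * (t + e) = t by ring] at this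
    linarith) h
  rw [tE_add hF (lg_sub h₀ hF).eg (lg_sub h₁ hF).eg] at cp
  simp only [List.cons_append, X]
  set E₀ := tE (rt l s) (X w (M ++ N t))
    (fun u => exp (-d * (X w (M ++ N (t - e)) u - X w (M ++ N t) u))) h
  set E₁ := tE (rt l s) (X w (M ++ N t))
    (fun u => exp (-d * (X w (M ++ N (t + e)) u - X w (M ++ N t) u))) h
  set c₀ := tE (rt l s) (X w (M ++ N t)) (fun u => X w (M ++ N (t - e)) u - X w (M ++ N t) u) h
  set c₁ := tE (rt l s) (X w (M ++ N t)) (fun u => X w (M ++ N (t + e)) u - X w (M ++ N t) u) h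
  set v := cT (rt l s) (X w (M ++ N t)) (fun u => X w (M ++ N (t + e)) u - X w (M ++ N t) u)
    (fun u => X w (M ++ N (t + e)) u - X w (M ++ N t) u) h
  set δ := step (rt l s) (X w (M ++ N (t + e))) h - 2 * step (rt l s) (X w (M ++ N t)) h +
    step (rt l s) (X w (M ++ N (t - e))) h with hδ
  have v0 : 0 ≤ v := by linarith
  have hv : 0 < 1 + (-d) ^ 2 / 3 * v := by positivity
  have p₀ : 0 < E₀ := (exp_pos _).trans_le a₀
  have p₁ : 0 < E₁ := (mul_pos (exp_pos _) hv).trans_le a₁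
  have k2 : E₀ * E₁ ≤ 1 := by
    rw [show (1 - 1 / 2 : ℝ) = 1 / 2 by norm_num, ← mul_rpow p₀.le p₁.le] at key
    by_contra hc
    exact absurd key (not_le.2 (one_lt_rpow (not_le.1 hc) (by norm_num)))
  have k3 := (mul_le_mul a₀ a₁ (mul_pos (exp_pos _) hv).le p₀.le).trans k2
  have δ0 : c₀ + c₁ ≤ δ := by linarith
  have δ1 : δ ≤ 1 := by linarith
  have k4 : 1 + (-d) ^ 2 / 3 * v ≤ exp (d * δ) := by
    have e1 : exp (d * (c₀ + c₁)) * (exp (-d * c₀) * (exp (-d * c₁) * (1 + (-d) ^ 2 / 3 * v))) =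
        1 + (-d) ^ 2 / 3 * v := by
      rw [← mul_assoc, ← mul_assoc, ← exp_add, ← exp_add,
        show d * (c₀ + c₁) + -d * c₀ + -d * c₁ = 0 by ring, exp_zero, one_mul]
    rw [← e1]
    refine (mul_le_of_le_one_right (exp_pos _).le k3).trans (exp_le_exp.2 ?_)
    exact mul_le_mul_of_nonneg_left δ0 d0
  have δp : 0 ≤ δ := cp.trans δ0
  have x0 : 0 ≤ d * δ := mul_nonneg d0 δp
  have x1 : d * δ ≤ 1 := mul_le_one₀ d1 δp δ1
  have k5 := exp_up (x := d * δ) (by rw [abs_of_nonneg x0]; exact x1)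
  have k6 : d * (d * v) ≤ d * (6 * δ) := by nlinarith
  rcases d0.eq_or_lt with d2 | d2
  · nlinarith
  · exact (mul_le_mul_of_nonneg_right hD v0).trans (le_of_mul_le_mul_left k6 d2)

theorem sum_second (f : ℕ → ℝ) (k : ℕ) :
    ∑ j ∈ Finset.range k, (f (j + 2) - 2 * f (j + 1) + f j) = f (k + 1) - f k - (f 1 - f 0) := by
  induction k with
  | zero => simp
  | succ k ih => rw [Finset.sum_range_succ, ih]; ring

/-- one partition of the parameter interval -/
theorem Fam.transfer_step (H : Fam w l M N h T x₀ α β) {a a' D K W S η e : ℝ} {k : ℕ} (ha : 0 < a)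
    (haa : a ≤ a') (hD : 0 < D) (hW : 0 ≤ W) (hη : 0 < η) (he : 0 < e)
    (hβ : β = α + (k + 1) * e) (hκ : K * e ≤ 1 / 4)
    (hm : ∀ t ∈ Icc α β, Mono a' (M ++ N t)) (hy : ∀ t ∈ Icc α β, a' + D ≤ ex (N t) 0)
    (hK : ∀ t ∈ Icc α β, ∀ t' ∈ Icc α β, ∀ z, |X w (N t) z - X w (N t') z| ≤ K * |t - t'|)
    (hWb : ∀ t ∈ Icc α β, tE (rt l a') (X w (M ++ N t)) (X w (M ++ N t)) h -
      tE (rt l a) (X w (M ++ N t)) (X w (M ++ N t)) h ≤ W)
    (hS : ∀ s ∈ Icc a a', X w (rt l s :: M ++ N β) h - X w (rt l s :: M ++ N (β - e)) h -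
      (X w (rt l s :: M ++ N (α + e)) h - X w (rt l s :: M ++ N α) h) ≤ S * e) :
    |X w (rt l a' :: M ++ N β) h - X w (rt l a' :: M ++ N α) h -
      (X w (rt l a :: M ++ N β) h - X w (rt l a :: M ++ N α) h)| ≤
      η / 2 * ((β - α) * W) + 6 * (a' - a) * S / D / (2 * η) + (2 * (K * e) + k * (4 * (K * e) ^ 2)) := by
  set p : ℕ → ℝ := fun j => α + j * e with hp
  have hpm : ∀ j, j ≤ k + 1 → p j ∈ Icc α β := fun j hj => by
    have h1 : (j : ℝ) ≤ k + 1 := by exact_mod_cast hj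
    have h2 := mul_le_mul_of_nonneg_right h1 he.le
    have h3 : 0 ≤ (j : ℝ) * e := by positivity
    constructor <;> simp only [hp] <;> linarith
  have hp1 : ∀ j, p j + e = p (j + 1) := fun j => by simp only [hp]; push_cast; ring
  have hp2 : ∀ j, p (j + 1) - e = p j := fun j => by rw [← hp1]; ring
  have hpk : p (k + 1) = β := by simp only [hp, hβ]; push_cast; ring
  have hp0 : p 0 = α := by simp [hp]
  set F : ℕ → (Ω → ℝ) → ℝ := fun j => X w (M ++ N (p j)) with hF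
  have gF : ∀ j, Lg (F j) := fun j => lg_X H.wt _
  have lip : ∀ j, j ≤ k → ∀ u, |F (j + 1) u - F j u| ≤ K * e := fun j hj u => by
    have b := hK _ (hpm (j + 1) (by omega)) _ (hpm j (by omega))
    rw [← hp1, add_sub_cancel_left, abs_of_pos he, hp1] at b
    have b1 := C.X_append_le H.wt H.wt (M := N (p (j + 1))) (M' := N (p j)) (c := K * e)
      (fun z => by linarith [(abs_le.1 (b z)).2]) M u
    have b2 := C.X_append_le H.wt H.wt (M := N (p j)) (M' := N (p (j + 1))) (c := K * e)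
      (fun z => by linarith [(abs_le.1 (b z)).1]) M u
    exact abs_le.2 ⟨by simp only [hF]; linarith, by simp only [hF]; linarith⟩
  set V : ℝ → ℕ → ℝ := fun s j => step (rt l s) (F j) h with hV
  set c : ℝ → ℕ → ℝ := fun s j => tE (rt l s) (F j) (fun u => F (j + 1) u - F j u) h with hc
  have a1 : a' ≤ 1 := (mono_ex (hm α ⟨le_rfl, (hpm 0 (by omega)).2.trans' (hpm 0 (by omega)).1⟩)).trans
    (ex_le_one (hm α ⟨le_rfl, (hpm 0 (by omega)).2.trans' (hpm 0 (by omega)).1⟩))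
  have inc : ∀ s ∈ Icc a a', ∀ j, j ≤ k → c s j ≤ V s (j + 1) - V s j ∧
      V s (j + 1) - V s j ≤ c s j + 4 * (K * e) ^ 2 := fun s hs j hj => by
    have b1 := step_ge (l := rt l s) (gF j) (gF (j + 1)) (ha.le.trans hs.1) h
    have b2 := step_up (l := rt l s) (gF j) (gF (j + 1)) (lip j hj) (by linarith)
      (ha.trans_le hs.1) (hs.2.trans a1) h
    simp only [hV, hc]
    constructor <;> linarith
  have first : ∀ s, |V s 1 - V s 0| ≤ K * e := fun s => by
    have b1 := C.step_le (C.lp_X H.wt (M ++ N (p 1))) (C.lp_X H.wt (M ++ N (p 0))) (rt l s)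
      (h := h) (h' := h) (c := K * e) fun g => by
        linarith [(abs_le.1 (lip 0 (by omega) (h + (rt l s).fld g))).2]
    have b2 := C.step_le (C.lp_X H.wt (M ++ N (p 0))) (C.lp_X H.wt (M ++ N (p 1))) (rt l s)
      (h := h) (h' := h) (c := K * e) fun g => by
        linarith [(abs_le.1 (lip 0 (by omega) (h + (rt l s).fld g))).1]
    exact abs_le.2 ⟨by simp only [hV, hF]; linarith, by simp only [hV, hF]; linarith⟩
  -- derivative bound
  set B := 6 * S / D / (2 * η) with hB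
  set A : ℝ → ℝ := fun s => η * e / 2 * (∑ j ∈ Finset.range k, tE (rt l s) (F (j + 1)) (F (j + 1)) h)
    + B * s with hA
  set Rr : ℝ → ℝ := fun s => ∑ j ∈ Finset.range k, c s (j + 1) with hR
  have dA : ∀ s, HasDerivAt A (η * e / 2 * (∑ j ∈ Finset.range k,
      cT (rt l s) (F (j + 1)) (F (j + 1)) (F (j + 1)) h) + B * 1) s := fun s =>
    ((HasDerivAt.fun_sum fun j _ => der_tE (gF _) (gF _).eg l h s).const_mul _).add
      ((hasDerivAt_id' s).const_mul B)
  have dR : ∀ s, HasDerivAt Rr (∑ j ∈ Finset.range k, cT (rt l s) (F (j + 1)) (F (j + 1))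
      (fun u => F (j + 1 + 1) u - F (j + 1) u) h) s := fun s =>
    HasDerivAt.fun_sum fun j _ => der_tE (gF _) (lg_sub (gF _) (gF _)).eg l h s
  have bd : ∀ s ∈ Icc a a', |∑ j ∈ Finset.range k, cT (rt l s) (F (j + 1)) (F (j + 1))
      (fun u => F (j + 1 + 1) u - F (j + 1) u) h| ≤ η * e / 2 * (∑ j ∈ Finset.range k,
      cT (rt l s) (F (j + 1)) (F (j + 1)) (F (j + 1)) h) + B * 1 := fun s hs => by
    have v : ∀ j ∈ Finset.range k, D * cT (rt l s) (F (j + 1)) (fun u => F (j + 1 + 1) u - F (j + 1) u)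
        (fun u => F (j + 1 + 1) u - F (j + 1) u) h ≤ 6 * (V s (j + 2) - 2 * V s (j + 1) + V s j) := by
      intro j hj
      have hj' := Finset.mem_range.1 hj
      have := H.var_le (t := p (j + 1)) (e := e) (s := s) (D := D) (κ := K * e)
        (by rw [hp2]; exact hpm j (by omega)) (by rw [hp1]; exact hpm _ (by omega))
        (ha.le.trans hs.1) (mono_le (hm _ (hpm _ (by omega))) hs.2)
        (by linarith [hy _ (hpm (j + 1) (by omega)), hs.2]) hκ
        (fun u => by rw [hp2, abs_sub_comm]; exact lip j (by omega) u)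
        (fun u => by rw [hp1]; exact lip (j + 1) (by omega) u)
      rw [hp1, hp2] at this
      exact this
    have v2 := Finset.sum_le_sum v
    rw [← Finset.mul_sum, ← Finset.mul_sum, sum_second (V s) k] at v2
    have v3 : V s (k + 1) - V s k - (V s 1 - V s 0) ≤ S * e := by
      have := hS s hs
      rw [← hpk, hp2, ← hp0, hp1] at this
      exact this
    refine (Finset.abs_sum_le_sum_abs _ _).trans ((Finset.sum_le_sum fun j _ =>
      cT_abs (gF _) (gF _).eg (lg_sub (gF _) (gF _)).eg (rt l s) h (mul_pos hη he)).trans ?_)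
    rw [Finset.sum_add_distrib, ← Finset.mul_sum, ← Finset.sum_div]
    refine add_le_add le_rfl ?_
    rw [mul_one, hB, div_le_div_iff₀ (by positivity) (by positivity)]
    have v4 : ∑ j ∈ Finset.range k, cT (rt l s) (F (j + 1)) (fun u => F (j + 1 + 1) u - F (j + 1) u)
        (fun u => F (j + 1 + 1) u - F (j + 1) u) h ≤ 6 * S / D * e := by
      rw [div_mul_eq_mul_div, le_div_iff₀ hD]
      linarith
    have := mul_le_mul_of_nonneg_right v4 (show 0 ≤ 2 * η by positivity)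
    linarith
  have mono : ∀ σ : ℝ, |σ| = 1 → A a + σ * Rr a ≤ A a' + σ * Rr a' := fun σ hσ => by
    have d : ∀ s, HasDerivAt (fun s => A s + σ * Rr s) _ s := fun s =>
      (dA s).add ((dR s).const_mul σ)
    refine monotoneOn_of_deriv_nonneg (convex_Icc a a') (f := fun s => A s + σ * Rr s)
      (fun s _ => (d s).continuousAt.continuousWithinAt)
      (fun s _ => (d s).differentiableAt.differentiableWithinAt) (fun s hs => ?_)
      ⟨le_rfl, haa⟩ ⟨haa, le_rfl⟩ haa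
    rw [(d s).deriv]
    have b := bd s (interior_subset hs)
    rw [← one_mul (|_|), ← hσ, ← abs_mul, hσ] at b
    linarith [(abs_le.1 b).1]
  have m1 := mono 1 abs_one
  have m2 := mono (-1) (by simp)
  have hAA : A a' - A a ≤ η / 2 * ((β - α) * W) + 6 * (a' - a) * S / D / (2 * η) := by
    have s1 : ∑ j ∈ Finset.range k, (tE (rt l a') (F (j + 1)) (F (j + 1)) h -
        tE (rt l a) (F (j + 1)) (F (j + 1)) h) ≤ ∑ _j ∈ Finset.range k, W :=
      Finset.sum_le_sum fun j hj => hWb _ (hpm (j + 1) (by have := Finset.mem_range.1 hj; omega))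
    rw [Finset.sum_sub_distrib, Finset.sum_const, Finset.card_range, nsmul_eq_mul] at s1
    have s2 := mul_le_mul_of_nonneg_left s1 (show 0 ≤ η * e / 2 by positivity)
    have s3 : 0 ≤ η * e * W := by positivity
    have s4 : 6 * (a' - a) * S / D / (2 * η) = B * a' - B * a := by rw [hB]; ring
    rw [s4, hβ]
    simp only [hA]
    linarith
  have tel : ∀ s, V s (k + 1) - V s 0 =
      V s 1 - V s 0 + ∑ j ∈ Finset.range k, (V s (j + 1 + 1) - V s (j + 1)) := fun s => by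
    rw [Finset.sum_range_sub (fun j => V s (j + 1))]
    ring
  have sm : ∀ s ∈ Icc a a', Rr s ≤ ∑ j ∈ Finset.range k, (V s (j + 1 + 1) - V s (j + 1)) ∧
      ∑ j ∈ Finset.range k, (V s (j + 1 + 1) - V s (j + 1)) ≤ Rr s + k * (4 * (K * e) ^ 2) :=
    fun s hs => ⟨Finset.sum_le_sum fun j hj =>
      (inc s hs (j + 1) (by have := Finset.mem_range.1 hj; omega)).1, by
      refine (Finset.sum_le_sum fun j hj =>
        (inc s hs (j + 1) (by have := Finset.mem_range.1 hj; omega)).2).trans ?_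
      rw [Finset.sum_add_distrib, Finset.sum_const, Finset.card_range, nsmul_eq_mul]⟩
  have goal : |V a' (k + 1) - V a' 0 - (V a (k + 1) - V a 0)| ≤
      η / 2 * ((β - α) * W) + 6 * (a' - a) * S / D / (2 * η) +
        (2 * (K * e) + k * (4 * (K * e) ^ 2)) := by
    have f1 := abs_le.1 (first a)
    have f2 := abs_le.1 (first a')
    have g1 := sm a ⟨le_rfl, haa⟩
    have g2 := sm a' ⟨haa, le_rfl⟩
    rw [tel a, tel a', abs_le]
    constructor <;> linarith [f1.1, f1.2, f2.1, f2.2, g1.1, g1.2, g2.1, g2.2]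
  simp only [hV, hF, hpk, hp0] at goal
  exact goal

/-- **tilt transfer** (94 (iii)) -/
theorem Fam.transfer (H : Fam w l M N h T x₀ α β) {a a' D K W S : ℝ} (ha : 0 < a)
    (haa : a ≤ a') (hαβ : α ≤ β) (hD : 0 < D) (hW : 0 ≤ W) (hS0 : 0 ≤ S)
    (hm : ∀ t ∈ Icc α β, Mono a' (M ++ N t)) (hy : ∀ t ∈ Icc α β, a' + D ≤ ex (N t) 0)
    (hK : ∀ t ∈ Icc α β, ∀ t' ∈ Icc α β, ∀ z, |X w (N t) z - X w (N t') z| ≤ K * |t - t'|)
    (hWb : ∀ t ∈ Icc α β, tE (rt l a') (X w (M ++ N t)) (X w (M ++ N t)) h -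
      tE (rt l a) (X w (M ++ N t)) (X w (M ++ N t)) h ≤ W)
    (hS : ∀ s ∈ Icc a a', ∀ e, 0 < e → e ≤ β - α →
      X w (rt l s :: M ++ N β) h - X w (rt l s :: M ++ N (β - e)) h -
      (X w (rt l s :: M ++ N (α + e)) h - X w (rt l s :: M ++ N α) h) ≤ S * e) :
    (X w (rt l a' :: M ++ N β) h - X w (rt l a' :: M ++ N α) h -
      (X w (rt l a :: M ++ N β) h - X w (rt l a :: M ++ N α) h)) ^ 2 ≤
      6 * (β - α) * (a' - a) * W * S / D := by
  have h1 : 0 ≤ a' - a := sub_nonneg.2 haa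
  rcases hαβ.eq_or_lt with rfl | hlt
  · simp
  have h2 : 0 < β - α := sub_pos.2 hlt
  refine (sq_le_of_forall (A := (β - α) * W) (B := 6 * (a' - a) * S / D) (by positivity)
    (by positivity) fun η hη => ?_).trans_eq (by ring)
  have lim : Tendsto (fun k : ℕ => K * ((β - α) / (k + 1))) atTop (𝓝 0) := by
    have := (tendsto_one_div_add_atTop_nhds_zero_nat (𝕜 := ℝ)).const_mul (K * (β - α))
    rw [mul_zero] at this
    exact this.congr fun k => by ring
  have lim2 : Tendsto (fun k : ℕ => η / 2 * ((β - α) * W) + 6 * (a' - a) * S / D / (2 * η) +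
      (2 * (K * ((β - α) / (k + 1))) + 4 * |K * (β - α)| * |K * ((β - α) / (k + 1))|)) atTop
      (𝓝 (η / 2 * ((β - α) * W) + 6 * (a' - a) * S / D / (2 * η) +
        (2 * 0 + 4 * |K * (β - α)| * |0|))) :=
    ((lim.const_mul 2).add (lim.abs.const_mul _)).const_add _
  simp only [mul_zero, abs_zero, add_zero] at lim2
  refine ge_of_tendsto lim2 ?_
  filter_upwards [lim.eventually (ge_mem_nhds (show (0 : ℝ) < 1 / 4 by norm_num))] with k hk
  have k0 : (0 : ℝ) < k + 1 := by positivity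
  have he : 0 < (β - α) / (k + 1) := div_pos h2 k0
  refine (H.transfer_step (k := k) ha haa hD hW hη he (by field_simp; ring) hk hm hy hK hWb
    fun s hs => hS s hs _ he (div_le_self h2.le (by linarith [Nat.cast_nonneg (α := ℝ) k]))).trans ?_
  have e1 : |K * (β - α)| = (k + 1) * |K * ((β - α) / (k + 1))| := by
    rw [← abs_of_pos k0, ← abs_mul, abs_of_pos k0]
    congr 1
    field_simp
  rw [e1, ← sq_abs (K * ((β - α) / (k + 1)))]
  nlinarith [sq_nonneg |K * ((β - α) / (k + 1))|]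

theorem Fam.sub (H : Fam w l M N h T x₀ α β) {α' β' : ℝ} (h1 : α ≤ α') (h2 : β' ≤ β) :
    Fam w l M N h T x₀ α' β' :=
  ⟨H.wt, H.conv.subset (prod_mono le_rfl (Icc_subset_Icc h1 h2))
    (convex_univ.prod (convex_Icc _ _)), fun τ hτ t ht => H.sym τ hτ t (Icc_subset_Icc h1 h2 ht),
    H.trans⟩

/-- **tilt transfer along a dyadic chain**: the parameter is (a lower bound of) the lowest moved
tilt, all slopes of the value lie in `[lo, lo + S]` -/
theorem Fam.transfer_dyadic (H : Fam w l M N h T x₀ α β) {a a' K W S : ℝ} {lo : ℝ → ℝ} {J : ℕ}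
    (ha : 0 < a) (haa : a ≤ a') (hα : a' < α) (hαβ : α ≤ β) (hJ : β - a' ≤ 2 ^ J * (α - a'))
    (hW : 0 ≤ W) (hS0 : 0 ≤ S) (hm : ∀ t ∈ Icc α β, Mono a' (M ++ N t))
    (hy : ∀ t ∈ Icc α β, t ≤ ex (N t) 0)
    (hK : ∀ t ∈ Icc α β, ∀ t' ∈ Icc α β, ∀ z, |X w (N t) z - X w (N t') z| ≤ K * |t - t'|)
    (hWb : ∀ t ∈ Icc α β, tE (rt l a') (X w (M ++ N t)) (X w (M ++ N t)) h -
      tE (rt l a) (X w (M ++ N t)) (X w (M ++ N t)) h ≤ W)
    (hS : ∀ s ∈ Icc a a', ∀ t ∈ Icc α β, ∀ t' ∈ Icc α β, t ≤ t' →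
      lo s * (t' - t) ≤ X w (rt l s :: M ++ N t') h - X w (rt l s :: M ++ N t) h ∧
      X w (rt l s :: M ++ N t') h - X w (rt l s :: M ++ N t) h ≤ (lo s + S) * (t' - t)) :
    |X w (rt l a' :: M ++ N β) h - X w (rt l a' :: M ++ N α) h -
      (X w (rt l a :: M ++ N β) h - X w (rt l a :: M ++ N α) h)| ≤
      J * √(6 * (a' - a) * W * S) := by
  have h1 : 0 ≤ a' - a := sub_nonneg.2 haa
  have hd : 0 < α - a' := sub_pos.2 hα
  suffices key : ∀ (J : ℕ) (b : ℝ), α ≤ b → b ≤ β → b - a' ≤ 2 ^ J * (α - a') →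
      |X w (rt l a' :: M ++ N b) h - X w (rt l a' :: M ++ N α) h -
        (X w (rt l a :: M ++ N b) h - X w (rt l a :: M ++ N α) h)| ≤
        J * √(6 * (a' - a) * W * S) from key J β hαβ le_rfl hJ
  intro J
  induction J with
  | zero =>
    intro b b1 _ b3
    obtain rfl : b = α := by simp at b3; linarith
    simp
  | succ J ih =>
    intro b b1 b2 b3
    have c0 := Real.sqrt_nonneg (6 * (a' - a) * W * S)
    push_cast
    rcases le_total (b - a') (2 ^ J * (α - a')) with b4 | b4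
    · linarith [ih b b1 b2 b4]
    set m := a' + 2 ^ J * (α - a') with hmid
    have p1 : (1 : ℝ) ≤ 2 ^ J := one_le_pow₀ (by norm_num)
    have m1 : α ≤ m := by nlinarith
    have m2 : m ≤ b := by linarith
    have sub : Icc m b ⊆ Icc α β := Icc_subset_Icc m1 b2
    have hD : 0 < 2 ^ J * (α - a') := by positivity
    have t1 := ih m m1 (m2.trans b2) (by linarith)
    have t2 := (H.sub m1 b2).transfer (D := 2 ^ J * (α - a')) (K := K) ha haa m2 hD hW hS0
      (fun t ht => hm t (sub ht)) (fun t ht => ht.1.trans (hy t (sub ht)))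
      (fun t ht t' ht' => hK t (sub ht) t' (sub ht')) (fun t ht => hWb t (sub ht))
      (fun s hs e he he' => by
        have q1 := (hS s hs (b - e) (sub ⟨by linarith, by linarith⟩) b (sub ⟨m2, le_rfl⟩)
          (by linarith)).2
        have q2 := (hS s hs m (sub ⟨le_rfl, m2⟩) (m + e) (sub ⟨by linarith, by linarith⟩)
          (by linarith)).1
        linarith)
    have t3 : 6 * (b - m) * (a' - a) * W * S / (2 ^ J * (α - a')) ≤ 6 * (a' - a) * W * S := by
      rw [div_le_iff₀ hD]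
      have : b - m ≤ 2 ^ J * (α - a') := by rw [pow_succ] at b3; linarith
      have := mul_le_mul_of_nonneg_left this (show 0 ≤ 6 * (a' - a) * W * S by positivity)
      linarith
    have t4 := abs_le.1 (Real.abs_le_sqrt (t2.trans t3))
    have t5 := abs_le.1 t1
    rw [abs_le]
    constructor <;> linarith [t4.1, t4.2, t5.1, t5.2]



/-- the constant `W` of `transfer` from values on a larger interval of root tilts -/
theorem W_le (hw : Wt w) (l : Lv Ω) (L : List (Lv Ω)) (h : Ω → ℝ) {a a' a₁ : ℝ} (h0 : 0 < a)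
    (h1 : a ≤ a') (h2 : a' < a₁) :
    tE (rt l a') (X w L) (X w L) h - tE (rt l a) (X w L) (X w L) h ≤
      a₁ / (a₁ - a') * (X w (rt l a₁ :: L) h - X w (rt l a :: L) h) :=
  W_le' (lg_X hw L) l h h0 h1 h2

end Crest.Agent.T156.Cas

end
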