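import Crest.Agent.T157.CascC_65
import Crest.Agent.T157.CascP_52
import Crest.Agent.T157.G1Def_52
import Crest.Agent.T156.SoLc_5

/-!
# Row 156: the common cascade frame (helper88)

Built on `T157.Casc` (`Lv`, `X`, `P`, `tE`, `node`, `pi2`, `pair`, `Hs`, `dm`, `Mono`, `Eg`, `Lg`,
`Gr`, `hasDerivAt_X`, `sum_Hs`, `step_ge`, `stein_tE`, `X_split`, `map_fld_eq`).  A level is ANY
Gaussian slice (W-mark `wl`, linear field `G1.fl`, ...); the root tilt `a` is the exponent of the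
first level.  This file only holds definitions and propositions; every `...Stmt` is one leaf.
-/

set_option autoImplicit false
set_option linter.unusedSectionVars false

noncomputable section

namespace Crest.Agent.T156.Cas

open MeasureTheory Real Set Filter Topology
open Crest.Agent.T157.E Crest.Agent.T157.Casc Crest.Agent.T157.SL

/-! ### log-concave tilts of the standard Gaussian -/

section lc
variable {ι : Type} [Fintype ι]

/-- expectation under the law `∝ exp (-U) γ` -/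
def lE (U f : (ι → ℝ) → ℝ) : ℝ := (∫ g, exp (-U g) * f g ∂gv ι) / ∫ g, exp (-U g) ∂gv ι

/-- covariance under the law `∝ exp (-U) γ` -/
def lC (U f f' : (ι → ℝ) → ℝ) : ℝ := lE U (fun g => f g * f' g) - lE U f * lE U f'

end lc


/-- a jointly convex one-sided perturbation `Ψ (g, e) = U g + e O g + e² B g / 2 + o(e²)` -/
structure Pert {ι : Type} [Fintype ι] (e0 : ℝ) (Ψ : (ι → ℝ) × ℝ → ℝ)
    (U O B : (ι → ℝ) → ℝ) : Prop where
  pos : 0 < e0
  conv : ConvexOn ℝ (univ ×ˢ Icc 0 e0) Ψ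
  cont : ∀ e ∈ Icc 0 e0, Continuous fun g => Ψ (g, e)
  low : ∃ C c : ℝ, ∀ e ∈ Icc 0 e0, ∀ g, -C - c * ‖g‖ ≤ Ψ (g, e)
  zero : ∀ g, Ψ (g, 0) = U g
  egO : Eg O
  egB : Eg B
  dom : ∃ R, Eg R ∧ ∀ e ∈ Icc 0 e0, ∀ g, |Ψ (g, e) - U g - e * O g| ≤ e ^ 2 * R g
  lim : ∀ g, Tendsto (fun e => (Ψ (g, e) - U g - e * O g) / e ^ 2) (𝓝[>] 0) (𝓝 (B g / 2))


/-- **Brascamp–Lieb**, dual form (`Γ = ∑ (f₁ i)²` is the Poincaré inequality) -/
def BLStmt : Prop := ∀ (ι : Type) [Fintype ι] (U f Γ : (ι → ℝ) → ℝ) (U₁ f₁ : ι → (ι → ℝ) → ℝ)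
  (U₂ : ι → ι → (ι → ℝ) → ℝ), ConvexOn ℝ univ U → Lg U → Gr U U₁ → (∀ i, Gr (U₁ i) (U₂ i)) →
  Gr f f₁ → Eg Γ → (∀ g, 0 ≤ Γ g) →
  (∀ g η : ι → ℝ, (∑ i, f₁ i g * η i) ^ 2 ≤ Γ g * (∑ i, η i ^ 2 + ∑ i, ∑ j, U₂ i j g * η i * η j)) →
  lC U f f ≤ lE U Γ

/-- Gaussian concentration under a log-concave tilt (Maurey's property (τ) from `PL_pi`) -/
def ConcStmt : Prop := ∀ (ι : Type) [Fintype ι] (U f : (ι → ℝ) → ℝ) (K : ℝ),
  ConvexOn ℝ univ U → Lg U → (∀ g g', (f g - f g') ^ 2 ≤ K ^ 2 * ∑ i, (g i - g' i) ^ 2) →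
  ∀ t : ℝ, lE U (fun g => exp (t * (f g - lE U f))) ≤ exp (t ^ 2 * K ^ 2)



/-! ### paths -/

variable {Ω : Type}

/-- index of all the noise of a cascade -/
def NI : List (Lv Ω) → Type
  | [] => Empty
  | l :: L => l.ι ⊕ NI L

instance finNI : ∀ L : List (Lv Ω), Fintype (NI L)
  | [] => inferInstanceAs (Fintype Empty)
  | l :: L => @instFintypeSum l.ι (NI L) l.fin (finNI L)

/-- the state after `j` levels -/
def st : (L : List (Lv Ω)) → ℕ → (Ω → ℝ) → (NI L → ℝ) → Ω → ℝ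
  | _, 0, h, _ => h
  | [], _ + 1, h, _ => h
  | l :: L, j + 1, h, g => st L j (h + l.fld fun i => g (.inl i)) fun i => g (.inr i)

/-- shapes of replica trees: one leaf, one shared level, a split at the present node -/
inductive Sh : Type
  | one : Sh
  | step : Sh → Sh
  | split : Sh → Sh → Sh

/-- the leaves -/
def Sh.Lf : Sh → Type
  | .one => Unit
  | .step s => s.Lf
  | .split s t => s.Lf ⊕ t.Lf

instance Sh.finLf : ∀ s : Sh, Fintype s.Lf
  | .one => inferInstanceAs (Fintype Unit)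
  | .step s => s.finLf
  | .split s t => @instFintypeSum s.Lf t.Lf s.finLf t.finLf

instance Sh.decLf : ∀ s : Sh, DecidableEq s.Lf
  | .one => inferInstanceAs (DecidableEq Unit)
  | .step s => s.decLf
  | .split s t => @instDecidableEqSum s.Lf t.Lf s.decLf t.decLf

/-- number of branches at the present node -/
def Sh.br : Sh → ℕ
  | .one => 1
  | .step _ => 1
  | .split s t => s.br + t.br

/-- two replicas sharing `j` levels -/
def Sh.two : ℕ → Sh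
  | 0 => .split .one .one
  | j + 1 => .step (Sh.two j)

/-- index of all the noise of a replica tree -/
def NT : Sh → List (Lv Ω) → Type
  | .one, L => NI L
  | .step s, [] => NT s []
  | .step s, l :: L => l.ι ⊕ NT s L
  | .split s t, L => NT s L ⊕ NT t L

instance finNT : ∀ (s : Sh) (L : List (Lv Ω)), Fintype (NT s L)
  | .one, L => finNI L
  | .step s, [] => finNT s []
  | .step s, l :: L => @instFintypeSum l.ι (NT s L) l.fin (finNT s L)
  | .split s t, L => @instFintypeSum (NT s L) (NT t L) (finNT s L) (finNT t L)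

/-- the states along the path of a leaf -/
def stT : (s : Sh) → (L : List (Lv Ω)) → (Ω → ℝ) → (NT s L → ℝ) → s.Lf → ℕ → Ω → ℝ
  | .one, L, h, g, _, j => st L j h g
  | .step s, [], h, g, a, j => stT s [] h g a j
  | .step _, _ :: _, h, _, _, 0 => h
  | .step s, l :: L, h, g, a, j + 1 =>
      stT s L (h + l.fld fun i => g (.inl i)) (fun i => g (.inr i)) a j
  | .split s _, L, h, g, .inl a, j => stT s L h (fun i => g (.inl i)) a j
  | .split _ t, L, h, g, .inr a, j => stT t L h (fun i => g (.inr i)) a j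

/-- accumulated covariance of the first `j` levels -/
def cacc (L : List (Lv Ω)) (j : ℕ) (x y : Ω) : ℝ := ((L.take j).map fun l => l.cov x y).sum

/-- the level `l` with tilt `m` and variance multiplied by `v` -/
abbrev lv (l : Lv Ω) (v m : ℝ) : Lv Ω := ⟨l.ι, fun x i => √v * l.A x i, m⟩

/-- tilts moving on a line -/
def tl (L : List (Lv Ω × ℝ)) (t : ℝ) : List (Lv Ω) :=
  L.map fun p => ⟨p.1.ι, p.1.A, p.1.m + t * p.2⟩

/-- recursion with an arbitrary terminal value -/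
def XT (F : (Ω → ℝ) → ℝ) : List (Lv Ω) → (Ω → ℝ) → ℝ
  | [] => F
  | l :: M => step l (XT F M)

/-- expectation at the end of `M` under the path law of the terminal value `F` -/
def nodeT (F : (Ω → ℝ) → ℝ) : List (Lv Ω) → ((Ω → ℝ) → ℝ) → (Ω → ℝ) → ℝ
  | [], Φ => Φ
  | l :: M, Φ => tE l (XT F M) (nodeT F M Φ)

/-- a symmetry of the data -/
structure Sym (w : Ω → ℝ) (L : List (Lv Ω)) (h : Ω → ℝ) (τ : Equiv.Perm Ω) : Prop where
  w : ∀ x, w (τ x) = w x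
  h : ∀ x, h (τ x) = h x
  cov : ∀ l ∈ L, ∀ x y, l.cov (τ x) (τ y) = l.cov x y

variable [Fintype Ω]

/-- `Φ_j` along the path -/
def Ph (w : Ω → ℝ) (L : List (Lv Ω)) (j : ℕ) (h : Ω → ℝ) (g : NI L → ℝ) : ℝ :=
  X w (L.drop j) (st L j h g)

/-- planted potential of one leaf: `∑_{j ≥ 1} (m_{j+1} - m_j) Φ_j - H(x)` -/
def U (w : Ω → ℝ) (L : List (Lv Ω)) (h : Ω → ℝ) (x : Ω) (g : NI L → ℝ) : ℝ :=
  ∑ j ∈ Finset.range L.length, dm L 0 (j + 1) * Ph w L (j + 1) h g - st L L.length h g x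

/-- joint density of (noise, leaf) with respect to `γ ⊗ counting` -/
def den (w : Ω → ℝ) (L : List (Lv Ω)) (h : Ω → ℝ) (g : NI L → ℝ) (x : Ω) : ℝ :=
  w x * exp (-U w L h x g - ex L 0 * X w L h)

/-- expectation under the path law -/
def pE (w : Ω → ℝ) (L : List (Lv Ω)) (h : Ω → ℝ) (F : (NI L → ℝ) → Ω → ℝ) : ℝ :=
  ∫ g, ∑ x, den w L h g x * F g x ∂gv (NI L)

/-- planted potential of a replica tree -/
def UT (w : Ω → ℝ) : (s : Sh) → (L : List (Lv Ω)) → (Ω → ℝ) → (s.Lf → Ω) → (NT s L → ℝ) → ℝ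
  | .one, L, h, x, g => U w L h (x ()) g
  | .step s, [], h, x, g => UT w s [] h x g + (s.br - 1) * X w [] h
  | .step s, l :: L, h, x, g =>
      UT w s L (h + l.fld fun i => g (.inl i)) x (fun i => g (.inr i)) +
        (s.br * ex L 0 - l.m) * X w L (h + l.fld fun i => g (.inl i))
  | .split s t, L, h, x, g => UT w s L h (fun a => x (.inl a)) (fun i => g (.inl i)) +
      UT w t L h (fun a => x (.inr a)) fun i => g (.inr i)

/-- joint density of (noise, leaves) -/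
def denT (w : Ω → ℝ) (s : Sh) (L : List (Lv Ω)) (h : Ω → ℝ) (g : NT s L → ℝ) (x : s.Lf → Ω) : ℝ :=
  (∏ a, w (x a)) * exp (-UT w s L h x g - s.br * ex L 0 * X w L h)

/-- law of the leaves -/
def PT (w : Ω → ℝ) (s : Sh) (L : List (Lv Ω)) (h : Ω → ℝ) (x : s.Lf → Ω) : ℝ :=
  ∫ g, denT w s L h g x ∂gv (NT s L)

/-- expectation under the tree law -/
def tX (w : Ω → ℝ) (s : Sh) (L : List (Lv Ω)) (h : Ω → ℝ)
    (F : (NT s L → ℝ) → (s.Lf → Ω) → ℝ) : ℝ :=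
  ∫ g, ∑ x, denT w s L h g x * F g x ∂gv (NT s L)

/-- mean of `f` at a node (`m = ∇Φ`) -/
def Pf (w : Ω → ℝ) (L : List (Lv Ω)) (h f : Ω → ℝ) : ℝ := ∑ x, P w L h x * f x

/-- Hessian form at a node (`A = Hess Φ`) -/
def Hb (w : Ω → ℝ) (L : List (Lv Ω)) (h f f' : Ω → ℝ) : ℝ := ∑ x, ∑ y, f x * f' y * Hs w L h x y

/-- covariance form at a node (`C`) -/
def Cb (w : Ω → ℝ) (L : List (Lv Ω)) (h f f' : Ω → ℝ) : ℝ :=
  Pf w L h (fun x => f x * f' x) - Pf w L h f * Pf w L h f'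

/-! ### leaves: the path law -/

/-- growth, recursion and disintegration of the path law -/
def PeStmt : Prop := ∀ (Ω : Type) [Fintype Ω] (w : Ω → ℝ), Wt w →
  (∀ L h x, Lg (U w L h x)) ∧
  (∀ L h j (Φ : (Ω → ℝ) → ℝ), Eg Φ → Eg fun g : NI L → ℝ => Φ (st L j h g)) ∧
  (∀ L h (F : (NI L → ℝ) → Ω → ℝ), (∀ x, Eg fun g => F g x) →
    pE w L h F = ∑ x, P w L h x * lE (U w L h x) fun g => F g x) ∧
  (∀ h (F : (NI ([] : List (Lv Ω)) → ℝ) → Ω → ℝ),
    pE w [] h F = ∑ x, P w [] h x * F (fun i => i.elim) x) ∧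
  (∀ l L h (F : (NI (l :: L) → ℝ) → Ω → ℝ), (∀ x, Eg fun g => F g x) →
    pE w (l :: L) h F = (∫ g, exp (l.m * X w L (h + l.fld g)) *
      pE w L (h + l.fld g) (fun g' => F (Sum.elim g g')) ∂gv l.ι) /
      ∫ g, exp (l.m * X w L (h + l.fld g)) ∂gv l.ι) ∧
  (∀ L h j (Φ : Ω → (Ω → ℝ) → ℝ), (∀ x, Eg (Φ x)) →
    pE w L h (fun g x => Φ x (st L j h g)) =
      node w L j (fun z => ∑ x, P w (L.drop j) z x * Φ x z) h) ∧
  (∀ L h i j (Φ Φ' : (Ω → ℝ) → ℝ), Eg Φ → Eg Φ' →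
    pE w L h (fun g _ => Φ (st L i h g) * Φ' (st L (i + j) h g)) =
      node w L i (fun z => Φ z * node w (L.drop i) j Φ' z) h)



/-- symmetries carry planted laws to planted laws (`map_fld_eq`) -/
def SymStmt : Prop := ∀ (Ω : Type) [Fintype Ω] (w : Ω → ℝ), Wt w → ∀ (L : List (Lv Ω)) (h : Ω → ℝ)
  (τ : Equiv.Perm Ω), Sym w L h τ →
  (∀ j z, X w (L.drop j) (fun y => z (τ y)) = X w (L.drop j) z) ∧
  (∀ j z x, P w (L.drop j) (fun y => z (τ y)) x = P w (L.drop j) z (τ x)) ∧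
  (∀ x (F : (ℕ → Ω → ℝ) → ℝ), Measurable F →
    lE (U w L h (τ x)) (fun g => F fun j => st L j h g) =
      lE (U w L h x) fun g => F fun j y => st L j h g (τ.symm y)) ∧
  ∀ (s : Sh) (x : s.Lf → Ω), PT w s L h (fun a => τ (x a)) = PT w s L h x ∧
    ∀ F : (s.Lf → ℕ → Ω → ℝ) → ℝ, Measurable F →
      lE (UT w s L h fun a => τ (x a)) (fun g => F (stT s L h g)) =
        lE (UT w s L h x) fun g => F fun a j y => stT s L h g a j (τ.symm y)

/-- **planted representation** (94 (i)): a transitive family of symmetries removes the selection -/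
def PlantStmt : Prop := PeStmt → SymStmt → ∀ (Ω : Type) [Fintype Ω] (w : Ω → ℝ), Wt w →
  ∀ (L : List (Lv Ω)) (h : Ω → ℝ) (T : Set (Equiv.Perm Ω)) (x₀ : Ω), (∀ τ ∈ T, Sym w L h τ) →
  (∀ x, w x ≠ 0 → ∃ τ ∈ T, τ x₀ = x) →
  ∀ F : (ℕ → Ω → ℝ) → ℝ, Measurable F → (Eg fun g : NI L → ℝ => F fun j => st L j h g) →
    (∀ τ ∈ T, ∀ p, F (fun j y => p j (τ.symm y)) = F p) →
    pE w L h (fun g _ => F fun j => st L j h g) = lE (U w L h x₀) fun g => F fun j => st L j h g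

/-! ### leaves: convexity and derivatives in the parameters -/


/-- joint convexity in (state, tilts).  Discrete Boué–Dupuis: `S F h = sup_u E F (h + √ε A g +
ε m A u) - ε m |u|²/2` keeps joint convexity, `S ≤ step_ε ≤ S + C ε^{3/2}` on `C^{1,1}` convex
functions, `N` steps with `ε = 1/N` (`X_split`). -/
def TiltStmt : Prop := ∀ (Ω : Type) [Fintype Ω] (w : Ω → ℝ), Wt w → ∀ (L : List (Lv Ω × ℝ))
  (a b : ℝ), (∀ p ∈ L, ∀ t ∈ Icc a b, 0 ≤ p.1.m + t * p.2) →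
  ConvexOn ℝ (univ ×ˢ Icc a b) fun p : (Ω → ℝ) × ℝ => X w (tl L p.2) p.1

/-- derivative in the variance of one level (`hasDerivAt_X`) and the move of variance between two
tilts -/
def VarStmt : Prop := ∀ (Ω : Type) [Fintype Ω] (w : Ω → ℝ), Wt w →
  (∀ (L₁ L₂ : List (Lv Ω)) (l : Lv Ω) (m v : ℝ) (h : Ω → ℝ), 0 < v →
    HasDerivAt (fun v => X w (L₁ ++ lv l v m :: L₂) h)
      ((Pf w (L₁ ++ lv l v m :: L₂) h (fun x => l.cov x x) -
        ∑ j ∈ Finset.Ioc L₁.length (L₁.length + 1 + L₂.length),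
          dm (L₁ ++ lv l v m :: L₂) 0 j * pi2 w (L₁ ++ lv l v m :: L₂) j l.cov h) / 2) v) ∧
  ∀ (L₁ L₂ : List (Lv Ω)) (l : Lv Ω) (m m' : ℝ) (h : Ω → ℝ),
    X w (L₁ ++ lv l 1 m' :: L₂) h - X w (L₁ ++ lv l 1 m :: L₂) h = (m' - m) / 2 *
      ∫ ρ in (0 : ℝ)..1, pi2 w (L₁ ++ lv l ρ m :: lv l (1 - ρ) m' :: L₂) (L₁.length + 1) l.cov h



/-! ### leaves: Hessian bounds -/

/-- `x C ≤ A ≤ C`, the step relation and Cauchy–Schwarz (`sum_Hs`) -/
def HessStmt : Prop := ∀ (Ω : Type) [Fintype Ω] (w : Ω → ℝ), Wt w →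
  (∀ (L : List (Lv Ω)) (m0 : ℝ) (h f : Ω → ℝ), 0 ≤ m0 → Mono m0 L →
    m0 * Cb w L h f f ≤ Hb w L h f f ∧ Hb w L h f f ≤ Cb w L h f f) ∧
  (∀ (l : Lv Ω) (L : List (Lv Ω)) (h f f' : Ω → ℝ),
    Hb w (l :: L) h f f' = tE l (X w L) (fun z => Hb w L z f f') h + l.m *
      (tE l (X w L) (fun z => Pf w L z f * Pf w L z f') h - Pf w (l :: L) h f * Pf w (l :: L) h f') ∧
    Cb w (l :: L) h f f' = tE l (X w L) (fun z => Cb w L z f f') h +
      (tE l (X w L) (fun z => Pf w L z f * Pf w L z f') h - Pf w (l :: L) h f * Pf w (l :: L) h f')) ∧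
  ∀ (L : List (Lv Ω)) (h f f' : Ω → ℝ), (∀ l ∈ L, 0 ≤ l.m) →
    Hb w L h f f' = Hb w L h f' f ∧ 0 ≤ Hb w L h f f ∧
      Hb w L h f f' ^ 2 ≤ Hb w L h f f * Hb w L h f' f'

/-- budget (Cramér–Rao; the Fisher information of `exp (m F) γ` is `≤ 1` for convex `F`):
with `Φ = Pf w L · f` it reads `|A v|² dh ≤` increment of `E m_v²` -/
def BudStmt : Prop := ∀ (Ω : Type) [Fintype Ω] (w : Ω → ℝ), Wt w → ∀ (l : Lv Ω) (L : List (Lv Ω))
  (h : Ω → ℝ) (Φ : (Ω → ℝ) → ℝ) (Ψ : Ω → (Ω → ℝ) → ℝ), 0 ≤ l.m → (∀ l' ∈ L, 0 ≤ l'.m) → Gr Φ Ψ →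
  ∑ i, tE l (X w L) (fun z => ∑ y, Ψ y z * l.A y i) h ^ 2 ≤
    tE l (X w L) (fun z => Φ z ^ 2) h - tE l (X w L) Φ h ^ 2

/-- **Riccati** (36 (3); it bounds the Hessian at the END of the slice): one step
`a' (|η|² + m a) ≤ a |η|²`, and a block `M` of levels -/
def RicStmt : Prop := HessStmt → ∀ (Ω : Type) [Fintype Ω] (w : Ω → ℝ), Wt w →
  (∀ (l : Lv Ω) (L : List (Lv Ω)) (h : Ω → ℝ) (η : l.ι → ℝ), 0 ≤ l.m → (∀ l' ∈ L, 0 ≤ l'.m) →
    tE l (X w L) (fun z => Hb w L z (l.fld η) (l.fld η)) h *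
        (∑ i, η i ^ 2 + l.m * Hb w (l :: L) h (l.fld η) (l.fld η)) ≤
      Hb w (l :: L) h (l.fld η) (l.fld η) * ∑ i, η i ^ 2) ∧
  ∀ (M L : List (Lv Ω)) (h f : Ω → ℝ) (c : ℕ → ℝ), (∀ l ∈ M ++ L, 0 ≤ l.m) →
    (∀ j (hj : j < M.length), ∃ (η : M[j].ι → ℝ) (κ : ℝ),
      (∀ x, M[j].fld η x = c j * f x + κ) ∧ ∑ i, η i ^ 2 ≤ 1) →
    node w (M ++ L) M.length (fun z => Hb w L z f f) h *
        (1 + (∑ j ∈ Finset.range M.length, ex M j * c j ^ 2) * Hb w (M ++ L) h f f) ≤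
      Hb w (M ++ L) h f f

/-! ### leaves: two terminal values -/


/-! ### the SK model in the frame -/

/-- W-mark: covariance `d β² n R² / 2`, tilt `m` -/
abbrev wl (n : ℕ) (β d m : ℝ) : Lv (Cube n) := lv (T157.G1.Jw n β) d m

/-- the type of a tuple relative to its member `a₀` -/
def typ {n : ℕ} {κ : Type} [Fintype κ] (a₀ : κ) (x : κ → Cube n) (b : κ → Bool) : ℕ :=
  (Finset.univ.filter fun i => ∀ a, (x a i == x a₀ i) = b a).card

/-- link with `Soft.psi`; signed permutations are transitive on tuples of one type (69) -/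
def LinkStmt : Prop :=
  (∀ (n : ℕ) (β d m : ℝ) (x y : Cube n), 0 < n → 0 ≤ d →
    (wl n β d m).cov x y = d * (β ^ 2 * n / 2 * T157.G1.ov x y ^ 2)) ∧
  (∀ (n : ℕ) (s : ℝ) (p : ℝ × ℝ) (x y : Cube n), 0 < n → 0 ≤ p.2 →
    (T157.G1.fl n s p).cov x y = s ^ 2 * p.2 * n * T157.G1.ov x y) ∧
  (∀ (n : ℕ) (β m : ℝ), 0 < n → m ≠ 0 →
    Soft.psi n β m = X (fun _ => 1) [wl n β 1 m] 0 - n * log 2) ∧
  ∀ (n : ℕ) (κ : Type) [Fintype κ] (a₀ : κ) (x y : κ → Cube n), typ a₀ x = typ a₀ y →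
    ∃ τ : Equiv.Perm (Cube n), (∀ u v, T157.G1.ov (τ u) (τ v) = T157.G1.ov u v) ∧
      ∀ a, τ (x a) = y a

end Crest.Agent.T156.Cas

end
private theorem rz_b36bf97170 : type_of% @_root_.Crest.Agent.T156.Cas.Sh.br.eq_def := @_root_.Crest.Agent.T156.Cas.Sh.br.eq_def -- L128
private theorem rz_871d872558 : type_of% @_root_.Crest.Agent.T156.Cas.Sh.br.eq_1 := @_root_.Crest.Agent.T156.Cas.Sh.br.eq_1 -- L128
private theorem rz_9c6e153667 : type_of% @_root_.Crest.Agent.T156.Cas.Sh.two.eq_def := @_root_.Crest.Agent.T156.Cas.Sh.two.eq_def -- L134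
private theorem rz_22d417fd69 : type_of% @_root_.Crest.Agent.T156.Cas.XT.eq_def := @_root_.Crest.Agent.T156.Cas.XT.eq_def -- L172
private theorem rz_3385ef95f1 : type_of% @_root_.Crest.Agent.T156.Cas.XT.eq_1 := @_root_.Crest.Agent.T156.Cas.XT.eq_1 -- L172
private theorem rz_153e0deba0 : type_of% @_root_.Crest.Agent.T156.Cas.nodeT.eq_def := @_root_.Crest.Agent.T156.Cas.nodeT.eq_def -- L177
private theorem rz_e5029f7ef0 : type_of% @_root_.Crest.Agent.T156.Cas.nodeT.eq_1 := @_root_.Crest.Agent.T156.Cas.nodeT.eq_1 -- L177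
private theorem rz_4b9b29ad46 : type_of% @_root_.Crest.Agent.T156.Cas.st.eq_def := @_root_.Crest.Agent.T156.Cas.st.eq_def -- L100
private theorem rz_92e08cad66 : type_of% @_root_.Crest.Agent.T156.Cas.st.eq_1 := @_root_.Crest.Agent.T156.Cas.st.eq_1 -- L100
private theorem rz_958cc2922e : type_of% @_root_.Crest.Agent.T156.Cas.stT.eq_def := @_root_.Crest.Agent.T156.Cas.stT.eq_def -- L152
private theorem rz_6d09f01f61 : type_of% @_root_.Crest.Agent.T156.Cas.stT.eq_1 := @_root_.Crest.Agent.T156.Cas.stT.eq_1 -- L152
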