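import Mathlib
import Crest.Prelude.Def_SKModel
import Crest.Agent.T156.CasDef_88

-- ▼ part T156/Sgn_69
section

/-!
# Row 156: signed permutations acting on spins and on Gaussian noise (helper69)

`g = (ε, π)` acts on spin configurations, and on noise vectors indexed by sites, by ordered pairs,
or by the couplings `i < j` of the Prelude model, as a signed reindexing (an isometry that keeps
the Gaussian laws).  The energies are invariant, and the action is transitive on single
configurations, on pairs of equal overlap and on tuples of equal type.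
-/

set_option autoImplicit false
open MeasureTheory ProbabilityTheory Finset
open Crest.ProbabilityR.SpinGlass

namespace Crest.Agent.T156.Sgn

/-! ### signed reindexings of a finite Gaussian vector -/

/-- the sign of a flip bit -/
def sg (b : Bool) : ℝ := if b then -1 else 1

@[simp] lemma sg_true : sg true = -1 := rfl
@[simp] lemma sg_false : sg false = 1 := rfl
lemma sg_mul_self (b : Bool) : sg b * sg b = 1 := by cases b <;> simp
lemma spinVal_xor (a b : Bool) : spinVal (xor a b) = sg a * spinVal b := by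
  cases a <;> cases b <;> simp [spinVal]
lemma spinVal_mul (a b : Bool) : spinVal a * spinVal b = sg (xor a b) := by
  cases a <;> cases b <;> simp [spinVal]

section reindex
variable {J : Type*}

/-- signed reindexing `w ↦ (j ↦ ± w (e j))` -/
def re (s : J → Bool) (e : J ≃ J) (w : J → ℝ) : J → ℝ := fun j => sg (s j) * w (e j)

@[simp] lemma re_apply (s : J → Bool) (e : J ≃ J) (w : J → ℝ) (j : J) :
    re s e w j = sg (s j) * w (e j) := rfl

lemma re_re_symm (s : J → Bool) (e : J ≃ J) (w : J → ℝ) :
    re s e (re (fun j => s (e.symm j)) e.symm w) = w := by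
  funext j; simp [← mul_assoc, sg_mul_self]

lemma re_symm_re (s : J → Bool) (e : J ≃ J) (w : J → ℝ) :
    re (fun j => s (e.symm j)) e.symm (re s e w) = w := by
  funext j; simp [← mul_assoc, sg_mul_self]

/-- as a linear equivalence of the plain function space -/
def reL (s : J → Bool) (e : J ≃ J) : (J → ℝ) ≃ₗ[ℝ] (J → ℝ) where
  toFun := re s e
  invFun := re (fun j => s (e.symm j)) e.symm
  map_add' v w := by funext j; simp [mul_add]
  map_smul' c w := by funext j; simp [mul_left_comm]
  left_inv := re_symm_re s e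
  right_inv := re_re_symm s e

@[simp] lemma reL_apply (s : J → Bool) (e : J ≃ J) (w : J → ℝ) : reL s e w = re s e w := rfl

lemma measurable_re (s : J → Bool) (e : J ≃ J) : Measurable (re s e) :=
  measurable_pi_iff.mpr fun j => (measurable_pi_apply (e j)).const_mul _


/-- as a measurable equivalence -/
def reM (s : J → Bool) (e : J ≃ J) : (J → ℝ) ≃ᵐ (J → ℝ) where
  toEquiv := (reL s e).toEquiv
  measurable_toFun := measurable_re s e
  measurable_invFun := measurable_re _ _

@[simp] lemma reM_apply (s : J → Bool) (e : J ≃ J) (w : J → ℝ) : reM s e w = re s e w := rfl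

variable [Fintype J]

lemma sum_re_mul_re (s : J → Bool) (e : J ≃ J) (v w : J → ℝ) :
    ∑ j, re s e v j * re s e w j = ∑ j, v j * w j := by
  rw [← e.sum_comp (fun j => v j * w j)]
  refine Finset.sum_congr rfl fun j _ => ?_
  simp only [re_apply]
  linear_combination (v (e j) * w (e j)) * sg_mul_self (s j)





/-- as a linear isometry of Euclidean space -/
noncomputable def reI (s : J → Bool) (e : J ≃ J) :
    EuclideanSpace ℝ J ≃ₗᵢ[ℝ] EuclideanSpace ℝ J where
  toLinearEquiv := (WithLp.linearEquiv 2 ℝ (J → ℝ)).trans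
    ((reL s e).trans (WithLp.linearEquiv 2 ℝ (J → ℝ)).symm)
  norm_map' w := by
    rw [EuclideanSpace.norm_eq, EuclideanSpace.norm_eq]
    congr 1
    rw [← e.sum_comp (fun j => ‖w j‖ ^ 2)]
    refine Finset.sum_congr rfl fun j _ => ?_
    change ‖sg (s j) * w (e j)‖ ^ 2 = _
    cases s j <;> simp

@[simp] lemma reI_apply (s : J → Bool) (e : J ≃ J) (w : EuclideanSpace ℝ J) (j : J) :
    reI s e w j = sg (s j) * w (e j) := rfl



end reindex

/-! ### signed permutations of the sites -/

/-- signed permutations of the site set `ι` -/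
abbrev SP (ι : Type*) : Type _ := (ι → Bool) × Equiv.Perm ι

section sites
variable {ι : Type*}

/-- action on configurations -/
def act (g : SP ι) (σ : ι → Bool) : ι → Bool := fun i => xor (g.1 i) (σ (g.2 i))

/-- the inverse signed permutation -/
def inv (g : SP ι) : SP ι := (fun i => g.1 (g.2.symm i), g.2.symm)

/-- the product: `act (mul g h) = act g ∘ act h` -/
def mul (g h : SP ι) : SP ι := (fun i => xor (g.1 i) (h.1 (g.2 i)), g.2.trans h.2)


lemma act_act_inv (g : SP ι) (σ : ι → Bool) : act g (act (inv g) σ) = σ := by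
  funext i; simp [act, inv]

lemma act_inv_act (g : SP ι) (σ : ι → Bool) : act (inv g) (act g σ) = σ := by
  funext i; simp [act, inv]

/-- the action on configurations as a permutation of the leaves -/
def actE (g : SP ι) : (ι → Bool) ≃ (ι → Bool) where
  toFun := act g
  invFun := act (inv g)
  left_inv := act_inv_act g
  right_inv := act_act_inv g

@[simp] lemma actE_apply (g : SP ι) (σ : ι → Bool) : actE g σ = act g σ := rfl

lemma spinVal_act (g : SP ι) (σ : ι → Bool) (i : ι) :
    spinVal (act g σ i) = sg (g.1 i) * spinVal (σ (g.2 i)) := spinVal_xor _ _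

/-- the spin vector -/
def sv (σ : ι → Bool) : ι → ℝ := fun i => spinVal (σ i)

/-- fields: the spin vector is carried by the signed reindexing of the sites -/
lemma sv_act (g : SP ι) (σ : ι → Bool) : sv (act g σ) = re g.1 g.2 (sv σ) := by
  funext i; simp [sv, spinVal_act]

/-- sign pattern on pairs -/
def s2 (g : SP ι) (p : ι × ι) : Bool := xor (g.1 p.1) (g.1 p.2)

/-- reindexing of ordered pairs -/
def e2 (g : SP ι) : ι × ι ≃ ι × ι := g.2.prodCongr g.2

/-- the full matrix `σ_i σ_j` -/
def pv (σ : ι → Bool) : ι × ι → ℝ := fun p => spinVal (σ p.1) * spinVal (σ p.2)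


variable [Fintype ι]

/-- unnormalised overlap -/
def ov (σ τ : ι → Bool) : ℝ := ∑ i, spinVal (σ i) * spinVal (τ i)

lemma ov_act (g : SP ι) (σ τ : ι → Bool) : ov (act g σ) (act g τ) = ov σ τ := by
  have := sum_re_mul_re g.1 g.2 (sv σ) (sv τ)
  rw [← sv_act, ← sv_act] at this
  exact this



end sites

/-! ### the couplings `i < j` -/

section tri
variable {ι : Type*} [LinearOrder ι]

/-- reindexing of pairs that keeps the orientation -/
def triF (π : Equiv.Perm ι) (p : ι × ι) : ι × ι :=
  if (p.1 < p.2 ↔ π p.1 < π p.2) then (π p.1, π p.2) else (π p.2, π p.1)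

lemma triF_symm (π : Equiv.Perm ι) (p : ι × ι) : triF π.symm (triF π p) = p := by
  obtain ⟨i, j⟩ := p
  by_cases h : (i < j ↔ π i < π j)
  · simp [triF, h]
  · have hij : i ≠ j := by rintro rfl; simp at h
    have hπ : π i ≠ π j := fun e => hij (π.injective e)
    have h2 : ¬ (π j < π i ↔ j < i) := by
      intro h3
      apply h
      rw [lt_iff_le_and_ne, lt_iff_le_and_ne, ← not_lt, ← not_lt, h3]
      simp [hij, hπ]
    simp [triF, h, h2]

/-- the orientation preserving permutation of pairs -/
def eT (π : Equiv.Perm ι) : ι × ι ≃ ι × ι where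
  toFun := triF π
  invFun := triF π.symm
  left_inv := triF_symm π
  right_inv p := triF_symm π.symm p



/-- the triangular vector `1_{i<j} σ_i σ_j` -/
def tv (σ : ι → Bool) : ι × ι → ℝ :=
  fun p => if p.1 < p.2 then spinVal (σ p.1) * spinVal (σ p.2) else 0


end tri






/-! ### transitivity -/

section trans
variable {ι : Type*}

/-- the gauge is transitive on single configurations -/
theorem trans_one (σ τ : ι → Bool) : ∃ g : SP ι, act g σ = τ :=
  ⟨(fun i => xor (τ i) (σ i), Equiv.refl ι), by funext i; simp [act]⟩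

variable {L : Type*} [Fintype ι] [Fintype L]

/-- column of a tuple at site `i`, normalised by the replica `l₀` -/
def col (l₀ : L) (σ : L → ι → Bool) (i : ι) : L → Bool := fun l => xor (σ l₀ i) (σ l i)








omit [Fintype L] in
lemma ov_eq_card (σ τ : ι → Bool) :
    ov σ τ = (Fintype.card ι : ℝ) - 2 * ((univ.filter fun i => xor (σ i) (τ i) = true).card : ℝ) := by
  unfold ov
  rw [Finset.card_filter, ← Finset.card_univ, Finset.card_eq_sum_ones]
  push_cast
  rw [Finset.mul_sum, ← Finset.sum_sub_distrib]
  refine Finset.sum_congr rfl fun i _ => ?_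
  rw [spinVal_mul]
  cases xor (σ i) (τ i) <;> norm_num

omit [Fintype L] in
/-- **transitivity on pairs of equal overlap** -/
theorem trans_two (σ₁ σ₂ τ₁ τ₂ : ι → Bool) (h : ov σ₁ σ₂ = ov τ₁ τ₂) :
    ∃ g : SP ι, act g σ₁ = τ₁ ∧ act g σ₂ = τ₂ := by
  classical
  have h1 : (univ.filter fun i => xor (τ₁ i) (τ₂ i) = true).card =
      (univ.filter fun i => xor (σ₁ i) (σ₂ i) = true).card := by
    rw [ov_eq_card, ov_eq_card] at h
    have : ((univ.filter fun i => xor (τ₁ i) (τ₂ i) = true).card : ℝ) =
        ((univ.filter fun i => xor (σ₁ i) (σ₂ i) = true).card : ℝ) := by linarith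
    exact_mod_cast this
  have h0 : (univ.filter fun i => xor (τ₁ i) (τ₂ i) = false).card =
      (univ.filter fun i => xor (σ₁ i) (σ₂ i) = false).card := by
    have a1 := Finset.card_filter_add_card_filter_not (s := (univ : Finset ι))
      (fun i => xor (τ₁ i) (τ₂ i) = true)
    have a2 := Finset.card_filter_add_card_filter_not (s := (univ : Finset ι))
      (fun i => xor (σ₁ i) (σ₂ i) = true)
    simp only [Bool.not_eq_true] at a1 a2
    omega
  have e : ∀ c : Bool, {i // xor (τ₁ i) (τ₂ i) = c} ≃ {i // xor (σ₁ i) (σ₂ i) = c} := fun c =>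
    Fintype.equivOfCardEq (by
      rw [Fintype.card_subtype, Fintype.card_subtype]
      cases c
      · exact h0
      · exact h1)
  refine ⟨(fun i => xor (τ₁ i) (σ₁ (Equiv.ofFiberEquiv e i)), Equiv.ofFiberEquiv e),
    funext fun i => ?_, funext fun i => ?_⟩
  · simp [act]
  · have := Equiv.ofFiberEquiv_map e i
    simp only [act, Bool.xor_assoc, this]
    cases τ₁ i <;> simp

end trans

end Crest.Agent.T156.Sgn
end

-- ▼ part T156/SgnCas_69

/-!
# Row 156: the signed permutations in the cascade frame (helper69)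

Cascades on the cube (or on tuples of configurations) whose levels have covariances depending on
the overlaps only are symmetric under the signed permutations; these act transitively on single
leaves, on pairs of a fixed overlap and on tuples of a fixed type.
-/

set_option autoImplicit false

noncomputable section

namespace Crest.Agent.T156.Cas

open MeasureTheory Real Set
open Crest.Agent.T157.E Crest.Agent.T157.Casc Crest.Agent.T157.SL
open Crest.Agent.T156.Sgn (SP act actE)

variable {n : ℕ}

lemma ov_eq_ov (x y : Cube n) : T157.G1.ov x y = Sgn.ov x y / n := rfl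

lemma ov_act (g : SP (Fin n)) (x y : Cube n) :
    T157.G1.ov (act g x) (act g y) = T157.G1.ov x y := by
  rw [ov_eq_ov, ov_eq_ov, Sgn.ov_act]






/-! ### single leaves -/

/-- the covariance of the level depends on the overlap only -/
def OvLv (l : Lv (Cube n)) : Prop := ∃ φ : ℝ → ℝ, ∀ x y, l.cov x y = φ (T157.G1.ov x y)

lemma cov_lv {Ω : Type} (l : Lv Ω) (v m : ℝ) (x y : Ω) :
    (lv l v m).cov x y = √v ^ 2 * l.cov x y := by
  simp only [Lv.cov, Finset.mul_sum]
  exact Finset.sum_congr rfl fun i _ => by ring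

lemma OvLv.lv {l : Lv (Cube n)} (h : OvLv l) (v m : ℝ) : OvLv (lv l v m) := by
  obtain ⟨φ, hφ⟩ := h
  exact ⟨fun r => √v ^ 2 * φ r, fun x y => by rw [cov_lv, hφ]⟩

lemma OvLv.tilt {l : Lv (Cube n)} (h : OvLv l) (m : ℝ) : OvLv ⟨l.ι, l.A, m⟩ := h

lemma dot_eq (x y : Cube n) : ∑ i, sv x i * sv y i = n * T157.G1.ov x y := by
  rcases Nat.eq_zero_or_pos n with rfl | hn
  · simp
  · have : (n : ℝ) ≠ 0 := by positivity
    unfold T157.G1.ov dotProduct
    field_simp




/-- the signed permutations of the cube -/
def TS (n : ℕ) : Set (Equiv.Perm (Cube n)) := range actE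

theorem sym_act {L : List (Lv (Cube n))} (hL : ∀ l ∈ L, OvLv l) (c c' : ℝ) :
    ∀ τ ∈ TS n, Sym (fun _ => c) L (fun _ => c') τ := by
  rintro _ ⟨g, rfl⟩
  refine ⟨fun _ => rfl, fun _ => rfl, fun l hl x y => ?_⟩
  obtain ⟨φ, hφ⟩ := hL l hl
  rw [hφ, hφ]
  exact congrArg φ (ov_act g x y)

theorem sym_act₀ {L : List (Lv (Cube n))} (hL : ∀ l ∈ L, OvLv l) :
    ∀ τ ∈ TS n, Sym (fun _ => 1) L 0 τ := sym_act hL 1 0

theorem TS_trans (x₀ x : Cube n) : ∃ τ ∈ TS n, τ x₀ = x := by
  obtain ⟨g, hg⟩ := Sgn.trans_one x₀ x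
  exact ⟨actE g, ⟨g, rfl⟩, hg⟩

theorem TS_ov {τ : Equiv.Perm (Cube n)} (h : τ ∈ TS n) (x y : Cube n) :
    T157.G1.ov (τ x) (τ y) = T157.G1.ov x y := by
  obtain ⟨g, rfl⟩ := h
  exact ov_act g x y


theorem TS_two (x₁ x₂ y₁ y₂ : Cube n) (h : T157.G1.ov x₁ x₂ = T157.G1.ov y₁ y₂) :
    ∃ τ ∈ TS n, τ x₁ = y₁ ∧ τ x₂ = y₂ := by
  have h' : Sgn.ov x₁ x₂ = Sgn.ov y₁ y₂ := by
    have a := dot_eq x₁ x₂
    have b := dot_eq y₁ y₂
    rw [h] at a
    exact a.trans b.symm
  obtain ⟨g, hg⟩ := Sgn.trans_two x₁ x₂ y₁ y₂ h'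
  exact ⟨actE g, ⟨g, rfl⟩, hg⟩

/-! ### tuples as leaves (constrained systems) -/

section tuples
variable {κ : Type}

/-- the diagonal action on tuples -/
def actT (g : SP (Fin n)) : Equiv.Perm (κ → Cube n) := Equiv.piCongrRight fun _ => actE g

@[simp] lemma actT_apply (g : SP (Fin n)) (x : κ → Cube n) (a : κ) :
    actT g x a = act g (x a) := rfl

/-- the signed permutations acting on tuples -/
def TT (n : ℕ) (κ : Type) : Set (Equiv.Perm (κ → Cube n)) := range actT










end tuples

end Crest.Agent.T156.Cas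

end
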