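import Crest.Agent.T156.SoftDef_88
import Crest.Agent.T156.CaTrf_56
import Crest.Agent.T156.CaConc_68
import Crest.Agent.T156.CaSym_84
import Crest.Agent.T156.CaLc_44
import Crest.Agent.T156.CaPe_45
import Crest.Agent.T156.SgnCas_69
import Crest.Agent.T156.Crv_56

-- ▼ part T156/Fin_26
section

/-!
# Row 156: the last step of the flow route (helper26)

* `key_of_family`: a family `F n` of model curves that contains `Ln n' β s₁` for `n ≤ n' ≤ 2 n`,
  a trivial bound, the comparison estimate (F) with an error LINEAR in the a priori bound of the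
  family, and a weak lower bound give `Key β` (tightness, Cauchy property, non-zero limit).
* `flow_step`, `flow_tele`: the discrete flow in `n`.
-/

set_option autoImplicit false
open Filter Topology Set

namespace Crest.Agent.T156.Soft.Fin26

/-- one-sided dyadic chaining -/
theorem bdd_dyadic (a : ℕ → ℝ) (c E : ℝ) (n₁ : ℕ) (hc : 0 < c) (hE : 0 ≤ E) (hn₁ : 2 ≤ n₁)
    (h : ∀ n n' : ℕ, n₁ ≤ n → n ≤ n' → n' ≤ 2 * n → a n' ≤ a n + E * (n : ℝ) ^ (-c)) :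
    ∃ M, ∀ n, n₁ ≤ n → a n ≤ M := by
  set ρ : ℝ := (3 / 2 : ℝ) ^ (-c) with hρ
  have hρ1 : ρ < 1 := Real.rpow_lt_one_of_one_lt_of_neg (by norm_num) (by linarith)
  have hρ0 : 0 < ρ := Real.rpow_pos_of_pos (by norm_num) _
  set G : ℝ := E / (1 - ρ) with hG
  have hG0 : 0 ≤ G := div_nonneg hE (by linarith)
  have hGE : G * (1 - ρ) = E := div_mul_cancel₀ _ (by linarith)
  have hle1 : ∀ n : ℕ, 1 ≤ n → (n : ℝ) ^ (-c) ≤ 1 := fun n hn =>
    Real.rpow_le_one_of_one_le_of_nonpos (by exact_mod_cast hn) (by linarith)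
  refine ⟨a n₁ + E + G, fun n hn => ?_⟩
  suffices H : ∀ n, n₁ ≤ n → a n + G * (n : ℝ) ^ (-c) ≤ a n₁ + E + G by
    have := H n hn
    have h2 : 0 ≤ G * (n : ℝ) ^ (-c) := mul_nonneg hG0 (Real.rpow_nonneg (Nat.cast_nonneg _) _)
    linarith
  intro n
  induction n using Nat.strong_induction_on with
  | _ n ih =>
    intro hn
    by_cases h2 : n ≤ 2 * n₁
    · have h3 := h n₁ n le_rfl hn h2
      have h4 := mul_le_mul_of_nonneg_left (hle1 n₁ (by omega)) hE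
      have h5 := mul_le_mul_of_nonneg_left (hle1 n (by omega)) hG0
      linarith
    · obtain ⟨m, hm1, hm2, hm3, hm4⟩ : ∃ m, n₁ ≤ m ∧ m < n ∧ n ≤ 2 * m ∧ 3 * m ≤ 2 * n :=
        ⟨(n + 1) / 2, by omega, by omega, by omega, by omega⟩
      have h3 := h m n hm1 hm2.le hm3
      have h4 := ih m hm2 hm1
      have hm0 : (0 : ℝ) < m := by exact_mod_cast (by omega : 0 < m)
      have h5 : (n : ℝ) ^ (-c) ≤ ρ * (m : ℝ) ^ (-c) := by
        rw [hρ, ← Real.mul_rpow (by norm_num) hm0.le]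
        refine Real.rpow_le_rpow_of_nonpos (by positivity) ?_ (by linarith)
        have : (3 * m : ℝ) ≤ 2 * n := by exact_mod_cast hm4
        linarith
      have h6 := mul_le_mul_of_nonneg_left h5 hG0
      have h7 : E * (m : ℝ) ^ (-c) = G * (m : ℝ) ^ (-c) - G * (ρ * (m : ℝ) ^ (-c)) := by
        rw [← hGE]; ring
      linarith

/-- telescoping to infinity along `n, 2n, 4n, ...` -/
theorem tele_inf (a e : ℕ → ℝ) (ρ : ℝ) (n : ℕ) (hn : 1 ≤ n) (hρ : ρ < 1)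
    (he0 : ∀ m, n ≤ m → 0 ≤ e m) (he : ∀ m, n ≤ m → e (2 * m) ≤ ρ * e m)
    (h : ∀ m, n ≤ m → a m ≤ a (2 * m) + e m) (hlim : ∀ δ : ℝ, 0 < δ → ∀ᶠ m in atTop, a m < δ) :
    a n ≤ e n / (1 - ρ) := by
  have h1 : 0 < 1 - ρ := by linarith
  have key : ∀ i : ℕ, a n - e n / (1 - ρ) ≤ a (2 ^ i * n) - e (2 ^ i * n) / (1 - ρ) := by
    intro i
    induction i with
    | zero => simp
    | succ i ih =>
      have hm : n ≤ 2 ^ i * n := Nat.le_mul_of_pos_left n (by positivity)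
      have e1 : 2 ^ (i + 1) * n = 2 * (2 ^ i * n) := by ring
      rw [e1]
      have h2 := h _ hm
      have h3 := div_le_div_of_nonneg_right (he _ hm) h1.le
      have h4 : ρ * e (2 ^ i * n) / (1 - ρ) = e (2 ^ i * n) / (1 - ρ) - e (2 ^ i * n) := by
        field_simp; ring
      linarith
  refine le_of_forall_pos_lt_add fun δ hδ => ?_
  obtain ⟨N, hN⟩ := eventually_atTop.1 (hlim δ hδ)
  have hm : n ≤ 2 ^ N * n := Nat.le_mul_of_pos_left n (by positivity)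
  have hN' : N ≤ 2 ^ N * n :=
    (Nat.lt_two_pow_self.le).trans (Nat.le_mul_of_pos_right _ (by omega))
  have h2 := hN _ hN'
  have h3 := key N
  have h4 : 0 ≤ e (2 ^ N * n) / (1 - ρ) := div_nonneg (he0 _ hm) h1.le
  linarith

/-- the data of the last step, for an arbitrary reference sequence of curves `L` -/
structure Fam (L : ℕ → ℝ → ℝ) (F : ℕ → Set (ℝ → ℝ)) (s₁ l A r D c k C' : ℝ) (n₀ : ℕ) :
    Prop where
  s1 : 1 ≤ s₁
  hl : 1 ≤ l
  hc : 0 < c
  hk : 0 < k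
  hr : 0 ≤ r
  hC : 0 ≤ C'
  mem : ∀ n n' : ℕ, n₀ ≤ n → n ≤ n' → n' ≤ 2 * n → L n' ∈ F n
  triv : ∀ n, n₀ ≤ n → ∀ f ∈ F n, ∀ s, s₁ ≤ s → f s ≤ A * s * (n : ℝ) ^ r
  cmp : ∀ n, n₀ ≤ n → ∀ s, s₁ ≤ s → s ≤ (n : ℝ) ^ k → ∀ B, 0 ≤ B →
    (∀ g ∈ F n, ∀ u, s₁ ≤ u → u ≤ l * s → g u ≤ B) →
    ∀ f ∈ F n, |f s - L n s| ≤ D * (n : ℝ) ^ (-c) * (B + s ^ C')

variable {L : ℕ → ℝ → ℝ} {F : ℕ → Set (ℝ → ℝ)} {s₁ l A r D c k C' : ℝ} {n₀ : ℕ}

theorem Fam.abs (h : Fam L F s₁ l A r D c k C' n₀) : Fam L F s₁ l |A| r |D| c k C' n₀ where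
  s1 := h.s1
  hl := h.hl
  hc := h.hc
  hk := h.hk
  hr := h.hr
  hC := h.hC
  mem := h.mem
  triv n hn f hf s hs := (h.triv n hn f hf s hs).trans (by
    have := h.s1
    have : 0 ≤ s := by linarith
    gcongr; exact le_abs_self A)
  cmp n hn s hs hs' B hB hg f hf := (h.cmp n hn s hs hs' B hB hg f hf).trans (by
    have := h.s1
    have : 0 ≤ s := by linarith
    gcongr; exact le_abs_self D)

/-- one step of the tightness bootstrap -/
theorem Fam.step (h : Fam L F s₁ l A r D c k C' n₀) (hA : 0 ≤ A) (hD : 0 ≤ D) {p : ℝ}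
    (hp1 : 1 + r / k ≤ p) (hp2 : C' ≤ p) {n : ℕ} (hn : n₀ ≤ n) (hn1 : 1 ≤ n) {K : ℝ}
    (hK1 : 1 ≤ K) (hKA : A ≤ K) (hε : D * (n : ℝ) ^ (-c) * (l ^ p + 1) ≤ 1 / 2)
    (hL : ∀ s, s₁ ≤ s → L n s ≤ K * s ^ p) :
    ∀ f ∈ F n, ∀ s, s₁ ≤ s →
      f s ≤ K * (1 + 2 * (D * (n : ℝ) ^ (-c) * (l ^ p + 1))) * s ^ p := by
  have hs1 := h.s1
  have hl1 := h.hl
  have hl0 : 0 < l := by linarith
  have hrk : 0 ≤ r / k := div_nonneg h.hr h.hk.le
  have hn0 : (1 : ℝ) ≤ n := by exact_mod_cast hn1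
  set ε := D * (n : ℝ) ^ (-c) * (l ^ p + 1) with hεd
  have hε0 : 0 ≤ ε := by positivity
  set S : Set ℝ := {b | K ≤ b ∧ ∀ f ∈ F n, ∀ s, s₁ ≤ s → f s ≤ b * s ^ p} with hS
  have hne : S.Nonempty := by
    refine ⟨max K (A * (n : ℝ) ^ r), le_max_left _ _, fun f hf s hs => ?_⟩
    have h1 : s ≤ s ^ p := by
      have := Real.rpow_le_rpow_of_exponent_le (x := s) (by linarith) (show 1 ≤ p by linarith)
      rwa [Real.rpow_one] at this
    have h0 : 0 ≤ s := by linarith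
    calc f s ≤ A * s * (n : ℝ) ^ r := h.triv n hn f hf s hs
      _ = A * (n : ℝ) ^ r * s := by ring
      _ ≤ max K (A * (n : ℝ) ^ r) * s ^ p :=
        mul_le_mul (le_max_right _ _) h1 h0 (le_max_of_le_left (by linarith))
  have hbd : BddBelow S := ⟨K, fun b hb => hb.1⟩
  set b := sInf S with hb
  have hbK : K ≤ b := le_csInf hne fun b hb => hb.1
  have hbS : ∀ f ∈ F n, ∀ s, s₁ ≤ s → f s ≤ b * s ^ p := by
    intro f hf s hs
    have hsp : 0 < s ^ p := Real.rpow_pos_of_pos (by linarith) _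
    rw [← div_le_iff₀ hsp]
    exact le_csInf hne fun b' hb' => (div_le_iff₀ hsp).2 (hb'.2 f hf s hs)
  have hb2 : b ≤ K + ε * b := by
    refine csInf_le hbd ⟨by nlinarith, fun f hf s hs => ?_⟩
    have h0 : 0 < s := by linarith
    have hsp : 0 < s ^ p := Real.rpow_pos_of_pos h0 _
    by_cases hsk : s ≤ (n : ℝ) ^ k
    · have hb0 : 0 ≤ b := by linarith
      have h1 := h.cmp n hn s hs hsk (b * (l * s) ^ p) (by positivity)
        (fun g hg u hu hu' => (hbS g hg u hu).trans (by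
          have : 0 ≤ u := by linarith
          have : 0 ≤ p := by linarith
          gcongr)) f hf
      have h2 : s ^ C' ≤ b * s ^ p := by
        have := Real.rpow_le_rpow_of_exponent_le (x := s) (by linarith) hp2
        nlinarith
      rw [Real.mul_rpow hl0.le h0.le] at h1
      have h3 : D * (n : ℝ) ^ (-c) * (b * (l ^ p * s ^ p) + s ^ C') ≤ ε * b * s ^ p := by
        have : D * (n : ℝ) ^ (-c) * (b * (l ^ p * s ^ p) + s ^ C') ≤
            D * (n : ℝ) ^ (-c) * (b * (l ^ p * s ^ p) + b * s ^ p) := by gcongr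
        rw [hεd]; linarith
      have h4 := hL s hs
      have h5 := (abs_le.1 h1).2
      nlinarith
    · have h1 : (n : ℝ) ^ r ≤ s ^ (r / k) := by
        have e : (n : ℝ) ^ r = ((n : ℝ) ^ k) ^ (r / k) := by
          rw [← Real.rpow_mul (by linarith), mul_div_cancel₀ _ h.hk.ne']
        rw [e]
        exact Real.rpow_le_rpow (by positivity) (not_le.1 hsk).le hrk
      have h2 : s * s ^ (r / k) ≤ s ^ p := by
        have e : s * s ^ (r / k) = s ^ (1 + r / k) := by rw [Real.rpow_add h0, Real.rpow_one]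
        rw [e]
        exact Real.rpow_le_rpow_of_exponent_le (by linarith) hp1
      calc f s ≤ A * s * (n : ℝ) ^ r := h.triv n hn f hf s hs
        _ ≤ A * s * s ^ (r / k) := by gcongr
        _ = A * (s * s ^ (r / k)) := by ring
        _ ≤ (K + ε * b) * s ^ p := by
          have : 0 ≤ ε * b := mul_nonneg hε0 (by linarith)
          gcongr
          linarith
  intro f hf s hs
  have hsp : 0 < s ^ p := Real.rpow_pos_of_pos (by linarith) _
  refine (hbS f hf s hs).trans (mul_le_mul_of_nonneg_right ?_ hsp.le)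
  have h1 : b ≤ 2 * K := by nlinarith
  nlinarith

theorem ev_small (hc : 0 < c) (E δ : ℝ) (hδ : 0 < δ) :
    ∀ᶠ n : ℕ in atTop, E * (n : ℝ) ^ (-c) ≤ δ := by
  have h1 : Tendsto (fun n : ℕ => E * (n : ℝ) ^ (-c)) atTop (𝓝 (E * 0)) :=
    ((tendsto_rpow_neg_atTop hc).comp tendsto_natCast_atTop_atTop).const_mul E
  rw [mul_zero] at h1
  exact h1.eventually (ge_mem_nhds hδ)

/-- **tightness is an output**: a polynomial bound in the tilt, uniform in `n` -/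
theorem Fam.tight (h : Fam L F s₁ l A r D c k C' n₀) :
    ∃ (p K : ℝ) (n₁ : ℕ), 0 ≤ p ∧ 0 ≤ K ∧ n₀ ≤ n₁ ∧ 2 ≤ n₁ ∧
      ∀ n, n₁ ≤ n → ∀ f ∈ F n, ∀ s, s₁ ≤ s → f s ≤ K * s ^ p := by
  replace h := h.abs
  have hA := abs_nonneg A
  have hD := abs_nonneg D
  generalize |A| = A at h hA
  generalize |D| = D at h hD
  have hs1 := h.s1
  have hl1 := h.hl
  have hl0 : 0 < l := by linarith
  set p := max (1 + r / k) C' with hp
  have hrk : 0 ≤ r / k := div_nonneg h.hr h.hk.le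
  have hp1 : 1 ≤ p := le_max_of_le_left (by linarith)
  set E := D * (l ^ p + 1) with hE
  have hE0 : 0 ≤ E := by positivity
  obtain ⟨N, hN⟩ := eventually_atTop.1 (ev_small h.hc E (1 / 2) (by norm_num))
  set n₁ := max (max N n₀) 2 with hn₁
  have hn₁N : N ≤ n₁ := le_max_of_le_left (le_max_left _ _)
  have hn₁0 : n₀ ≤ n₁ := le_max_of_le_left (le_max_right _ _)
  have hn₁2 : 2 ≤ n₁ := le_max_right _ _
  -- the best constant of `L n`
  set S : ℕ → Set ℝ := fun n => {K | max 1 A ≤ K ∧ ∀ s, s₁ ≤ s → L n s ≤ K * s ^ p} with hS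
  have hne : ∀ n, n₁ ≤ n → (S n).Nonempty := by
    intro n hn
    refine ⟨max (max 1 A) (A * (n : ℝ) ^ r), le_max_left _ _, fun s hs => ?_⟩
    have h1 : s ≤ s ^ p := by
      have := Real.rpow_le_rpow_of_exponent_le (x := s) (by linarith) hp1
      rwa [Real.rpow_one] at this
    have h0 : 0 ≤ s := by linarith
    calc L n s ≤ A * s * (n : ℝ) ^ r :=
          h.triv n (by omega) _ (h.mem n n (by omega) le_rfl (by omega)) s hs
      _ = A * (n : ℝ) ^ r * s := by ring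
      _ ≤ max (max 1 A) (A * (n : ℝ) ^ r) * s ^ p :=
        mul_le_mul (le_max_right _ _) h1 h0 (le_max_of_le_right (by positivity))
  set K : ℕ → ℝ := fun n => sInf (S n) with hK
  have hK1 : ∀ n, n₁ ≤ n → max 1 A ≤ K n := fun n hn => le_csInf (hne n hn) fun b hb => hb.1
  have hK2 : ∀ n, n₁ ≤ n → ∀ s, s₁ ≤ s → L n s ≤ K n * s ^ p := by
    intro n hn s hs
    have hsp : 0 < s ^ p := Real.rpow_pos_of_pos (by linarith) _
    rw [← div_le_iff₀ hsp]
    exact le_csInf (hne n hn) fun b' hb' => (div_le_iff₀ hsp).2 (hb'.2 s hs)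
  have hstep : ∀ n, n₁ ≤ n → ∀ f ∈ F n, ∀ s, s₁ ≤ s →
      f s ≤ K n * (1 + 2 * (E * (n : ℝ) ^ (-c))) * s ^ p := by
    intro n hn
    have e : E * (n : ℝ) ^ (-c) = D * (n : ℝ) ^ (-c) * (l ^ p + 1) := by rw [hE]; ring
    rw [e]
    exact h.step hA hD (le_max_left _ _) (le_max_right _ _) (by omega) (by omega)
      ((le_max_left _ _).trans (hK1 n hn)) ((le_max_right _ _).trans (hK1 n hn))
      (e ▸ hN n (by omega)) (hK2 n hn)
  obtain ⟨M, hM⟩ := bdd_dyadic (fun n => Real.log (K n)) c (2 * E) n₁ h.hc (by positivity) hn₁2 (by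
    intro n n' hn hn' hn''
    have hx : 0 ≤ E * (n : ℝ) ^ (-c) := by positivity
    have k1 : 1 ≤ K n := (le_max_left _ _).trans (hK1 n hn)
    have k1' : 1 ≤ K n' := (le_max_left _ _).trans (hK1 n' (by omega))
    have h1 : K n' ≤ K n * (1 + 2 * (E * (n : ℝ) ^ (-c))) :=
      csInf_le ⟨max 1 A, fun b hb => hb.1⟩ ⟨by nlinarith [hK1 n hn],
        fun s hs => hstep n hn _ (h.mem n n' (by omega) hn' hn'') s hs⟩
    have h2 := Real.log_le_log (by linarith) h1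
    rw [Real.log_mul (by linarith) (by linarith)] at h2
    have h3 := Real.log_le_sub_one_of_pos (show 0 < 1 + 2 * (E * (n : ℝ) ^ (-c)) by linarith)
    show Real.log (K n') ≤ Real.log (K n) + 2 * E * (n : ℝ) ^ (-c)
    linarith)
  refine ⟨p, Real.exp M * 2, n₁, by linarith, by positivity, hn₁0, hn₁2, fun n hn f hf s hs => ?_⟩
  have k1 : 1 ≤ K n := (le_max_left _ _).trans (hK1 n hn)
  have h1 : K n ≤ Real.exp M := by
    rw [← Real.log_le_iff_le_exp (by linarith)]; exact hM n hn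
  have hsp : 0 < s ^ p := Real.rpow_pos_of_pos (by linarith) _
  have h2 := hN n (by omega)
  have hx : 0 ≤ E * (n : ℝ) ^ (-c) := by positivity
  refine (hstep n hn f hf s hs).trans (mul_le_mul_of_nonneg_right ?_ hsp.le)
  gcongr
  linarith

/-- all the curves of the family are within `C n^{-c}` of `L n` on compact sets of tilts -/
theorem Fam.close (h : Fam L F s₁ l A r D c k C' n₀) (s₂ : ℝ) :
    ∃ (C : ℝ) (n₁ : ℕ), n₀ ≤ n₁ ∧ ∀ n, n₁ ≤ n → ∀ f ∈ F n, ∀ s ∈ Icc s₁ s₂,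
      |f s - L n s| ≤ C * (n : ℝ) ^ (-c) := by
  obtain ⟨p, K, n₁, hp, hK, hn₁, -, hb⟩ := h.tight
  have hs1 := h.s1
  have hl1 := h.hl
  have hl0 : 0 < l := by linarith
  obtain ⟨N, hN⟩ := eventually_atTop.1
    (((tendsto_rpow_atTop h.hk).comp tendsto_natCast_atTop_atTop).eventually_ge_atTop s₂)
  refine ⟨|D| * (K * (l * s₂) ^ p + s₂ ^ C'), max n₁ N, le_max_of_le_left hn₁,
    fun n hn f hf s hs => ?_⟩
  have hn1 : n₁ ≤ n := (le_max_left _ _).trans hn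
  have h0 : 0 ≤ s := by linarith [hs.1]
  have h0' : 0 ≤ s₂ := by linarith [hs.2]
  have h1 := h.abs.cmp n (by omega) s hs.1 (hs.2.trans (hN n ((le_max_right _ _).trans hn)))
    (K * (l * s₂) ^ p) (by positivity) (fun g hg u hu hu' => (hb n hn1 g hg u hu).trans (by
      have : 0 ≤ u := by linarith
      have : u ≤ l * s₂ := hu'.trans (by gcongr; exact hs.2)
      gcongr)) f hf
  refine h1.trans ?_
  have h2 : s ^ C' ≤ s₂ ^ C' := Real.rpow_le_rpow h0 hs.2 h.hC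
  calc |D| * (n : ℝ) ^ (-c) * (K * (l * s₂) ^ p + s ^ C')
      ≤ |D| * (n : ℝ) ^ (-c) * (K * (l * s₂) ^ p + s₂ ^ C') := by gcongr
    _ = _ := by ring

/-- if the limit vanishes at every fixed tilt, it vanishes at the rate `n^{-c} s^{C'}` up to the
tilts `n^k / l^j` -/
theorem Fam.feed (h : Fam L F s₁ l A r D c k C' n₀)
    (hlim : ∀ s, s₁ ≤ s → ∀ δ : ℝ, 0 < δ → ∀ᶠ n in atTop, L n s < δ) :
    ∃ (j : ℕ) (K : ℝ) (n₁ : ℕ), ∀ n, n₁ ≤ n → ∀ f ∈ F n, ∀ s, s₁ ≤ s → s ≤ (n : ℝ) ^ k / l ^ j →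
      f s ≤ K * (n : ℝ) ^ (-c) * s ^ C' := by
  obtain ⟨p, K₀, n₁, hp, hK₀, hn₁, hn2, hb⟩ := h.tight
  replace h := h.abs
  have hD := abs_nonneg D
  generalize |D| = D at h hD
  have hs1 := h.s1
  have hl1 := h.hl
  have hl0 : 0 < l := by linarith
  have hc := h.hc
  have hC := h.hC
  set ρ : ℝ := (2 : ℝ) ^ (-c) with hρ
  have hρ1 : ρ < 1 := Real.rpow_lt_one_of_one_lt_of_neg (by norm_num) (by linarith)
  have hρ0 : 0 < ρ := Real.rpow_pos_of_pos (by norm_num) _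
  have hle1 : ∀ n : ℕ, 1 ≤ n → (n : ℝ) ^ (-c) ≤ 1 := fun n hn =>
    Real.rpow_le_one_of_one_le_of_nonpos (by exact_mod_cast hn) (by linarith)
  have main : ∀ j : ℕ, ∃ K, 0 ≤ K ∧ ∀ n, n₁ ≤ n → ∀ f ∈ F n, ∀ s, s₁ ≤ s →
      s ≤ (n : ℝ) ^ k / l ^ j →
      f s ≤ K * (((n : ℝ) ^ (-c)) ^ j * s ^ p + (n : ℝ) ^ (-c) * s ^ C') := by
    intro j
    induction j with
    | zero =>
      refine ⟨K₀, hK₀, fun n hn f hf s hs _ => (hb n hn f hf s hs).trans ?_⟩
      have : 0 ≤ s := by linarith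
      have : 0 ≤ (n : ℝ) ^ (-c) * s ^ C' := by positivity
      rw [pow_zero, one_mul]
      gcongr
      linarith
    | succ j ih =>
      obtain ⟨K, hK, ih⟩ := ih
      set K₁ := D * (K * l ^ p + K * l ^ C' + 1) with hK₁
      have hK₁0 : 0 ≤ K₁ := by positivity
      have err : ∀ n, n₁ ≤ n → ∀ f ∈ F n, ∀ s, s₁ ≤ s → s ≤ (n : ℝ) ^ k / l ^ (j + 1) →
          |f s - L n s| ≤
            K₁ * (((n : ℝ) ^ (-c)) ^ (j + 1) * s ^ p + (n : ℝ) ^ (-c) * s ^ C') := by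
        intro n hn f hf s hs hs'
        have h0 : 0 ≤ s := by linarith
        have hnk : 0 ≤ (n : ℝ) ^ k := by positivity
        have h2s : l * s ≤ (n : ℝ) ^ k / l ^ j := by
          rw [pow_succ, ← div_div, le_div_iff₀ hl0] at hs'
          linarith
        have hsk : s ≤ (n : ℝ) ^ k := by
          have : (n : ℝ) ^ k / l ^ j ≤ (n : ℝ) ^ k := div_le_self hnk (one_le_pow₀ hl1)
          nlinarith
        set x := (n : ℝ) ^ (-c) with hx
        have hx0 : 0 ≤ x := by positivity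
        have hx1 : x ≤ 1 := hle1 n (by omega)
        have h1 := h.cmp n (by omega) s hs hsk (K * (x ^ j * (l * s) ^ p + x * (l * s) ^ C'))
          (by positivity) (fun g hg u hu hu' => (ih n hn g hg u hu (hu'.trans h2s)).trans (by
            have : 0 ≤ u := by linarith
            gcongr)) f hf
        refine h1.trans ?_
        rw [Real.mul_rpow hl0.le h0, Real.mul_rpow hl0.le h0, ← hx]
        have hP : 0 ≤ x ^ (j + 1) * s ^ p := by positivity
        have hQ : 0 ≤ x * s ^ C' := by positivity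
        have h2p : (0 : ℝ) ≤ l ^ p := by positivity
        have h2C : (0 : ℝ) ≤ l ^ C' := by positivity
        have e : D * x * (K * (x ^ j * (l ^ p * s ^ p) + x * (l ^ C' * s ^ C')) + s ^ C') =
            D * (K * l ^ p * (x ^ (j + 1) * s ^ p) + (K * l ^ C' * x + 1) * (x * s ^ C')) := by
          ring
        rw [e, hK₁, mul_assoc D]
        refine mul_le_mul_of_nonneg_left ?_ hD
        have h3 : K * l ^ C' * x ≤ K * l ^ C' := mul_le_of_le_one_right (by positivity) hx1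
        have h4 := mul_le_mul_of_nonneg_right h3 hQ
        have h5 : 0 ≤ K * l ^ p * (x * s ^ C') := by positivity
        have h6 : 0 ≤ K * l ^ C' * (x ^ (j + 1) * s ^ p) := by positivity
        nlinarith
      have hρ2 : 0 < 1 - ρ := by linarith
      refine ⟨K₁ / (1 - ρ) + K₁, by positivity, fun n hn f hf s hs hs' => ?_⟩
      have h0 : 0 ≤ s := by linarith
      have h1 := tele_inf (fun m => L m s)
        (fun m => K₁ * (((m : ℝ) ^ (-c)) ^ (j + 1) * s ^ p + (m : ℝ) ^ (-c) * s ^ C')) ρ n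
        (by omega) hρ1 (fun m _ => by positivity) (fun m hm => by
          have e : ((2 * m : ℕ) : ℝ) ^ (-c) = ρ * (m : ℝ) ^ (-c) := by
            rw [hρ, ← Real.mul_rpow (by norm_num) (Nat.cast_nonneg _)]; push_cast; rfl
          simp only [e]
          set x := (m : ℝ) ^ (-c)
          have hx0 : 0 ≤ x := by positivity
          have h2 : ρ ^ (j + 1) ≤ ρ := pow_le_of_le_one hρ0.le hρ1.le (by omega)
          have h3 : 0 ≤ x ^ (j + 1) * s ^ p := by positivity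
          have h4 := mul_le_mul_of_nonneg_right h2 h3
          rw [mul_pow, mul_left_comm ρ K₁]
          refine mul_le_mul_of_nonneg_left ?_ hK₁0
          nlinarith)
        (fun m hm => by
          have hmk : (n : ℝ) ^ k ≤ (m : ℝ) ^ k :=
            Real.rpow_le_rpow (Nat.cast_nonneg _) (by exact_mod_cast hm) h.hk.le
          have h2 := err m (by omega) _ (h.mem m (2 * m) (by omega) (by omega) le_rfl) s hs
            (hs'.trans (by gcongr))
          have := (abs_le.1 h2).1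
          linarith) (hlim s hs)
      have h2 := (abs_le.1 (err n hn f hf s hs hs')).2
      rw [add_mul, div_mul_eq_mul_div]
      linarith
  obtain ⟨j, hj⟩ := exists_nat_ge ((c + k * p) / c)
  obtain ⟨K, hK, hm⟩ := main j
  refine ⟨j, 2 * K, n₁, fun n hn f hf s hs hs' => (hm n hn f hf s hs hs').trans ?_⟩
  have h0 : 0 ≤ s := by linarith
  have hn1 : (1 : ℝ) ≤ n := by exact_mod_cast (by omega : 1 ≤ n)
  have hsk : s ≤ (n : ℝ) ^ k :=
    hs'.trans (div_le_self (by positivity) (one_le_pow₀ hl1))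
  have h1 : ((n : ℝ) ^ (-c)) ^ j * s ^ p ≤ (n : ℝ) ^ (-c) := by
    calc ((n : ℝ) ^ (-c)) ^ j * s ^ p ≤ ((n : ℝ) ^ (-c)) ^ j * ((n : ℝ) ^ k) ^ p := by gcongr
      _ = (n : ℝ) ^ (-c * j + k * p) := by
        rw [← Real.rpow_natCast, ← Real.rpow_mul (by linarith), ← Real.rpow_mul (by linarith),
          ← Real.rpow_add (by linarith)]
      _ ≤ (n : ℝ) ^ (-c) := by
        refine Real.rpow_le_rpow_of_exponent_le hn1 ?_
        rw [div_le_iff₀ hc] at hj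
        linarith
  have h2 : 1 ≤ s ^ C' := Real.one_le_rpow (by linarith) hC
  have hx0 : 0 ≤ (n : ℝ) ^ (-c) := by positivity
  have h3 : (n : ℝ) ^ (-c) ≤ (n : ℝ) ^ (-c) * s ^ C' := le_mul_of_one_le_right hx0 h2
  have h4 := mul_le_mul_of_nonneg_left (h1.trans h3) hK
  nlinarith

/-- **the last step**: family + weak lower bound give `Key` -/
theorem key_of_family {β : ℝ} (h : Fam (fun n => Ln n β s₁) F s₁ l A r D c k C' n₀)
    (hlb : ∀ K δ : ℝ, 0 < δ → ∃ᶠ n : ℕ in atTop, ∃ f ∈ F n, ∃ s, s₁ ≤ s ∧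
      s ≤ δ * (n : ℝ) ^ k ∧ K * (n : ℝ) ^ (-c) * s ^ C' ≤ f s) : Key β := by
  have hs1 := h.s1
  have hl1 := h.hl
  have hl0 : 0 < l := by linarith
  have hex : ∃ s, s₁ ≤ s ∧ ∃ δ : ℝ, 0 < δ ∧ ∃ᶠ n : ℕ in atTop, δ ≤ Ln n β s₁ s := by
    by_contra hcon
    obtain ⟨j, K, n₁, hb⟩ := h.feed fun s hs δ hδ => by
      by_contra h2
      refine hcon ⟨s, hs, δ, hδ, ?_⟩
      rw [not_eventually] at h2
      exact h2.mono fun n hn => not_lt.1 hn
    obtain ⟨n, ⟨f, hf, s, hs, hs', hlt⟩, hn⟩ :=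
      ((hlb (K + 1) (l ^ j)⁻¹ (by positivity)).and_eventually
        (eventually_ge_atTop (max n₁ 1))).exists
    have h1 := hb n ((le_max_left _ _).trans hn) f hf s hs (by rwa [div_eq_inv_mul])
    have hn0 : (0 : ℝ) < n := by exact_mod_cast (le_max_right _ _).trans hn
    have h0 : 0 < s := by linarith
    have h2 : 0 < (n : ℝ) ^ (-c) * s ^ C' := by positivity
    nlinarith
  obtain ⟨s, hs, δ, hδ, hfr⟩ := hex
  obtain ⟨C, n₁, hn₁, hC⟩ := h.close (3 * s)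
  refine ⟨s₁, 3 * s, c, C, n₁, by linarith, by linarith, h.hc, fun n n' hn hn' hn'' u hu => ?_,
    s₁, s, δ, ⟨le_rfl, by linarith⟩, ⟨hs, by linarith⟩, hδ, hfr⟩
  rw [abs_sub_comm]
  exact hC n hn _ (h.mem n n' (by omega) hn' hn'') u hu


/-- `√(s B) ≤ B + s`: helper5's form of the error is covered by the linear form -/
theorem sqrt_le_lin {s B : ℝ} (hs : 0 ≤ s) (hB : 0 ≤ B) : √(s * B) ≤ B + s := by
  rw [Real.sqrt_le_left (by positivity)]
  nlinarith [mul_nonneg hs hB]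

/-! ### the discrete flow in `n` -/

/-- `τ_n - τ_{n+1} = τ_{n+1} (1 / (6 n) - O(1 / n²))`, `τ_n = n^{-1/6}` -/
theorem tau_step {n : ℝ} (hn : 1 ≤ n) : ∃ θ, n ^ (-(1 : ℝ) / 6) = (n + 1) ^ (-(1 : ℝ) / 6) * (1 + θ) ∧
    0 ≤ θ ∧ θ ≤ 1 / (6 * n) ∧ 1 / (6 * n) - θ ≤ 1 / n ^ 2 := by
  have h0 : 0 < n := by linarith
  set t := (1 + 1 / n) ^ ((1 : ℝ) / 6) with ht
  have hu : 0 < 1 / n := by positivity
  have hu1 : 1 / n ≤ 1 := by rw [div_le_one h0]; exact hn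
  have ht1 : 1 ≤ t := Real.one_le_rpow (by linarith) (by norm_num)
  have ht6 : t ^ 6 = 1 + 1 / n := by
    rw [ht, ← Real.rpow_natCast, ← Real.rpow_mul (by linarith)]; norm_num
  have e6 : 1 / (6 * n) = 1 / n / 6 := by field_simp
  have e2 : 1 / n ^ 2 = (1 / n) ^ 2 := by field_simp
  refine ⟨t - 1, ?_, by linarith, ?_, ?_⟩
  · have e : n + 1 = n * (1 + 1 / n) := by field_simp
    rw [e, Real.mul_rpow h0.le (by linarith), add_sub_cancel, mul_assoc, ht,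
      ← Real.rpow_add (by linarith)]
    norm_num
  · rw [e6]
    generalize 1 / n = u at *
    have := one_add_mul_le_pow (a := t - 1) (by linarith) 6
    rw [add_sub_cancel, ht6] at this
    push_cast at this
    linarith
  · rw [e6, e2]
    clear ht
    clear_value t
    generalize 1 / n = u at *
    obtain ⟨θ, rfl⟩ : ∃ θ, t = 1 + θ := ⟨t - 1, by ring⟩
    have h1 : 0 ≤ θ := by linarith
    have h2 : θ ≤ u / 6 := by
      have := one_add_mul_le_pow (a := θ) (by linarith) 6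
      rw [ht6] at this
      push_cast at this
      linarith
    have h3 : θ ≤ 1 / 6 := by linarith
    have h4 : u = 6 * θ + θ ^ 2 * (15 + θ * (20 + θ * (15 + θ * (6 + θ)))) := by
      have : (1 + θ) ^ 6 = 1 + (6 * θ + θ ^ 2 * (15 + θ * (20 + θ * (15 + θ * (6 + θ))))) := by ring
      linarith
    have h5 : θ * (6 + θ) ≤ 2 := by nlinarith
    have h6 : θ * (15 + θ * (6 + θ)) ≤ 3 := by nlinarith
    have h7 : θ * (20 + θ * (15 + θ * (6 + θ))) ≤ 4 := by nlinarith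
    have h8 : θ ^ 2 ≤ (u / 6) ^ 2 := by gcongr
    have h9 : θ ^ 2 * (15 + θ * (20 + θ * (15 + θ * (6 + θ)))) ≤ θ ^ 2 * 19 := by
      gcongr; linarith
    nlinarith

/-- scaled curve of a family `V n a` (value of the `n`-th model at root tilt `a`) -/
noncomputable def sc (V : ℕ → ℝ → ℝ) (n : ℕ) (s₁ s : ℝ) : ℝ :=
  (n : ℝ) ^ (-(1 : ℝ) / 6) *
    (V n (s * (n : ℝ) ^ (-(1 : ℝ) / 6)) - V n (s₁ * (n : ℝ) ^ (-(1 : ℝ) / 6)))



/-- the hypotheses of the flow for the sizes `n ≤ m < n'` and the tilts `a ∈ [a₀, a₁]` -/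
structure Flow (V E : ℕ → ℝ → ℝ) (κ : ℕ → ℝ) (n n' : ℕ) (a₀ a₁ M e : ℝ) : Prop where
  der : ∀ m, n ≤ m → m < n' → ∀ a ∈ Icc a₀ a₁, HasDerivAt (fun a => a * V m a) (E m a) a
  bd : ∀ m, n ≤ m → m < n' → ∀ a ∈ Icc a₀ a₁, |E m a| ≤ M * m
  lip : ∀ m, n ≤ m → m < n' → ∀ a ∈ Icc a₀ a₁, ∀ a' ∈ Icc a₀ a₁, a' ≤ a →
    |E m a - E m a'| ≤ M * m * (a - a')
  flow : ∀ m, n ≤ m → m < n' → ∀ a ∈ Icc a₀ a₁,
    |V (m + 1) a - V m a - E m a / (6 * m) - κ m| ≤ e



end Crest.Agent.T156.Soft.Fin26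
end

-- ▼ part T156/FlowC_26
section

/-!
# Row 156: the side conditions of the flow in `n` for cascades (helper26)

`V a = X w (rt l a :: L) h`, `E a = tE (rt l a) (X w L) (X w L) h`.  The planted law is log-concave,
so the root value is sub-Gaussian under the tilted law: `root_conc`, `root_tay`.
-/

set_option autoImplicit false
set_option linter.unusedSectionVars false

noncomputable section

namespace Crest.Agent.T156.Cas.Flow26

open MeasureTheory Real Set Filter Topology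
open Crest.Agent.T157.E Crest.Agent.T157.Casc Crest.Agent.T157.SL

variable {Ω : Type} [Fintype Ω] {w : Ω → ℝ} {F : (Ω → ℝ) → ℝ}

/-- moment generating function of the root value under the tilted law -/
theorem mgf_eq (hF : Lg F) (l : Lv Ω) (h : Ω → ℝ) (s t c : ℝ) :
    tE (rt l s) F (fun u => exp ((t - s) * (F u - c))) h =
      exp (t * step (rt l t) F h - s * step (rt l s) F h - (t - s) * c) := by
  have e : ∀ g, exp (s * F (h + (rt l s).fld g)) * exp ((t - s) * (F (h + (rt l s).fld g) - c)) =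
      exp (-((t - s) * c)) * exp (t * F (h + (rt l t).fld g)) := fun g => by
    rw [← exp_add, ← exp_add]; congr 1
    show s * F (h + l.fld g) + (t - s) * (F (h + l.fld g) - c) = -((t - s) * c) + t * F (h + l.fld g)
    ring
  rw [tE.eq_def]
  simp only [e]
  rw [integral_const_mul, ← Trf.exp_step' hF (rt l s), ← Trf.exp_step' hF (rt l t), ← exp_add,
    ← exp_sub]
  congr 1
  ring

/-- `a ↦ a V a` lies above its tangents -/
theorem tan (hF : Lg F) (l : Lv Ω) (h : Ω → ℝ) (s t : ℝ) :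
    s * step (rt l s) F h + (t - s) * tE (rt l s) F F h ≤ t * step (rt l t) F h := by
  have j := Trf.jensen hF hF (t - s) (rt l s) h
  have e := mgf_eq hF l h s t 0
  simp only [sub_zero, mul_zero] at e
  rw [e] at j
  linarith [exp_le_exp.1 j]

theorem step_le_tE (hF : Lg F) (l : Lv Ω) (h : Ω → ℝ) {s : ℝ} (hs : 0 ≤ s) :
    step (rt l s) F h ≤ tE (rt l s) F F h := by
  rcases hs.eq_or_lt with rfl | hs
  · simp [step, tE]
  · exact le_of_mul_le_mul_left (by linarith [tan hF l h s 0]) hs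

/-- the value is monotone in the tilt -/
theorem step_tilt (hF : Lg F) (l : Lv Ω) (h : Ω → ℝ) {s t : ℝ} (hs : 0 ≤ s) (hst : s ≤ t) :
    step (rt l s) F h ≤ step (rt l t) F h := by
  rcases hst.eq_or_lt with rfl | hst
  · exact le_rfl
  · have h1 := mul_le_mul_of_nonneg_left (step_le_tE hF l h hs) (sub_pos.2 hst).le
    exact le_of_mul_le_mul_left (by linarith [tan hF l h s t]) (hs.trans_lt hst)

theorem abs_fld_le (l : Lv Ω) (δ : l.ι → ℝ) (x : Ω) {c : ℝ} (hc : l.cov x x ≤ c) :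
    |l.fld δ x| ≤ √(c * ∑ i, δ i ^ 2) := by
  refine abs_le_sqrt ?_
  refine (Finset.sum_mul_sq_le_sq_mul_sq _ _ _).trans ?_
  refine mul_le_mul_of_nonneg_right ?_ (Finset.sum_nonneg fun _ _ => sq_nonneg _)
  simpa only [Lv.cov, sq] using hc

/-- **the root value is sub-Gaussian under the tilted law** (planted log-concavity) -/
theorem root_conc (hw : Wt w) {l : Lv Ω} {L : List (Lv Ω)} {h : Ω → ℝ} {a c : ℝ}
    (hL : Mono 0 (rt l a :: L)) {T : Set (Equiv.Perm Ω)} {x₀ : Ω}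
    (hT : ∀ τ ∈ T, Sym w (rt l a :: L) h τ) (htr : ∀ x, w x ≠ 0 → ∃ τ ∈ T, τ x₀ = x)
    (hc0 : 0 ≤ c) (hc : ∀ x, w x ≠ 0 → l.cov x x ≤ c) (t : ℝ) :
    tE (rt l a) (X w L) (fun u => exp (t * (X w L u - tE (rt l a) (X w L) (X w L) h))) h ≤
      exp (t ^ 2 * c) := by
  set L' := rt l a :: L with hL'
  have hX := lg_X hw L
  have pl : ∀ φ : ℝ → ℝ, Continuous φ → (Eg fun z => φ (X w L z)) →
      tE (rt l a) (X w L) (fun u => φ (X w L u)) h =
        lE (U w L' h x₀) fun g => φ (X w L (st L' 1 h g)) := by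
    intro φ hφ eφ
    have h1 := plantStmt peStmt symStmt Ω w hw L' h T x₀ hT htr (fun p => φ (X w L (p 1)))
      ((hφ.comp hX.eg.cont).measurable.comp (measurable_pi_apply 1))
      ((peStmt Ω w hw).2.1 L' h 1 _ eφ) (fun τ hτ p => by
        have hs := hT τ hτ
        have : X w L (fun y => p 1 (τ.symm y)) = X w L (p 1) :=
          Trf.X_sym (τ := τ.symm) hw (fun x => by rw [← hs.w (τ.symm x), Equiv.apply_symm_apply]) L
            (fun l' hl' x y => by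
              rw [← hs.cov l' (List.mem_cons_of_mem _ hl') (τ.symm x) (τ.symm y),
                Equiv.apply_symm_apply, Equiv.apply_symm_apply]) _
        simp only [this])
    rw [← h1, Pe.pE_node1 hw eφ L' 1 h]
    simp only [hL', node, node_zero]
  have m := pl id continuous_id hX.eg
  simp only [id] at m
  have ee : Eg fun z => exp (t * (X w L z - tE (rt l a) (X w L) (X w L) h)) := by
    have := (hX.exp t).mul_const (exp (-(t * tE (rt l a) (X w L) (X w L) h)))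
    refine this.of_le (by have := hX.eg.cont; fun_prop) fun z => le_of_eq ?_
    rw [← exp_add]; congr 2; ring
  rw [pl (fun r => exp (t * (r - tE (rt l a) (X w L) (X w L) h))) (by fun_prop) ee]
  have cv : ConvexOn ℝ univ (U w L' h x₀) := by
    refine ⟨convex_univ, fun u _ v _ p q hp hq hpq => ?_⟩
    have := (convexOn_U hw hL x₀).2 (mem_univ (h, u)) (mem_univ (h, v)) hp hq hpq
    simp only [Prod.smul_mk, Prod.mk_add_mk, ← add_smul, hpq, one_smul] at this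
    exact this
  have := concStmt (NI L') (U w L' h x₀) (fun g => X w L (st L' 1 h g)) √c cv
    ((peStmt Ω w hw).1 L' h x₀) (fun g g' => by
      have e : ∀ g : NI L' → ℝ, st L' 1 h g = h + l.fld fun i => g (.inl i) := fun g => by
        simp only [hL', st]; cases L <;> rfl
      rw [e, e, sq_sqrt hc0]
      have b := abs_X_sub_le hw L (z := h + l.fld fun i => g' (.inl i))
        (z' := h + l.fld fun i => g (.inl i))
        (c := √(c * ∑ i, (g (.inl i) - g' (.inl i)) ^ 2)) fun x hx => by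
          have := abs_fld_le l (fun i => g (.inl i) - g' (.inl i)) x (hc x hx)
          convert this using 2
          simp only [Pi.add_apply, Lv.fld, mul_sub, Finset.sum_sub_distrib]
          ring
      have s0 : 0 ≤ ∑ i : l.ι, (g (.inl i) - g' (.inl i)) ^ 2 :=
        Finset.sum_nonneg fun _ _ => sq_nonneg _
      have b2 := sq_le_sq' (abs_le.1 b).1 (abs_le.1 b).2
      rw [sq_sqrt (mul_nonneg hc0 s0)] at b2
      refine b2.trans (mul_le_mul_of_nonneg_left ?_ hc0)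
      have : ∑ i : NI L', (g i - g' i) ^ 2 = ∑ i : l.ι, (g (.inl i) - g' (.inl i)) ^ 2 +
          ∑ i : NI L, (g (.inr i) - g' (.inr i)) ^ 2 := Fintype.sum_sum_type _
      rw [this]
      exact le_add_of_nonneg_right (Finset.sum_nonneg fun _ _ => sq_nonneg _)) t
  rw [← m, sq_sqrt hc0] at this
  exact this

/-- **Taylor form**: `0 ≤ a₁ V a₁ - a V a - (a₁ - a) E a ≤ c (a₁ - a)²` for EVERY real `a₁` -/
theorem root_tay (hw : Wt w) {l : Lv Ω} {L : List (Lv Ω)} {h : Ω → ℝ} {a c : ℝ}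
    (hL : Mono 0 (rt l a :: L)) {T : Set (Equiv.Perm Ω)} {x₀ : Ω}
    (hT : ∀ τ ∈ T, Sym w (rt l a :: L) h τ) (htr : ∀ x, w x ≠ 0 → ∃ τ ∈ T, τ x₀ = x)
    (hc0 : 0 ≤ c) (hc : ∀ x, w x ≠ 0 → l.cov x x ≤ c) (a₁ : ℝ) :
    0 ≤ a₁ * X w (rt l a₁ :: L) h - a * X w (rt l a :: L) h -
        (a₁ - a) * tE (rt l a) (X w L) (X w L) h ∧
      a₁ * X w (rt l a₁ :: L) h - a * X w (rt l a :: L) h -
        (a₁ - a) * tE (rt l a) (X w L) (X w L) h ≤ (a₁ - a) ^ 2 * c := by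
  have h1 := root_conc hw hL hT htr hc0 hc (a₁ - a)
  rw [mgf_eq (lg_X hw L)] at h1
  have h2 := tan (lg_X hw L) l h a a₁
  exact ⟨by simp only [X]; linarith, exp_le_exp.1 h1⟩

/-- `V a ≤ E a ≤ V a + a c` -/
theorem root_mean (hw : Wt w) {l : Lv Ω} {L : List (Lv Ω)} {h : Ω → ℝ} {a c : ℝ} (ha : 0 < a)
    (hL : Mono 0 (rt l a :: L)) {T : Set (Equiv.Perm Ω)} {x₀ : Ω}
    (hT : ∀ τ ∈ T, Sym w (rt l a :: L) h τ) (htr : ∀ x, w x ≠ 0 → ∃ τ ∈ T, τ x₀ = x)
    (hc0 : 0 ≤ c) (hc : ∀ x, w x ≠ 0 → l.cov x x ≤ c) :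
    X w (rt l a :: L) h ≤ tE (rt l a) (X w L) (X w L) h ∧
      tE (rt l a) (X w L) (X w L) h ≤ X w (rt l a :: L) h + a * c := by
  refine ⟨step_le_tE (lg_X hw L) l h ha.le, le_of_mul_le_mul_left ?_ ha⟩
  have := (root_tay hw hL hT htr hc0 hc 0).2
  nlinarith

/-! ### crude two-sided bounds for the value -/

theorem X_le_cons (hw : Wt w) (l : Lv Ω) {L : List (Lv Ω)} (hl : 0 ≤ l.m) (hL : ∀ l ∈ L, 0 ≤ l.m)
    (h : Ω → ℝ) : X w L h ≤ X w (l :: L) h := by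
  have hX := lg_X hw L
  refine le_trans ?_ (step_tilt hX l h le_rfl hl)
  have e : step (rt l 0) (X w L) h = ∫ g, X w L (h + l.fld g) ∂gv l.ι := by simp [step]; rfl
  rw [e]
  have i1 : ∀ x, Integrable (fun g => l.fld g x) (gv l.ι) := fun x => by
    simpa using (Eg.coord x).int l 0
  have i0 : ∀ x, ∫ g, l.fld g x ∂gv l.ι = 0 := fun x => by
    simp only [Lv.fld]
    rw [integral_finsetSum _ fun i _ => (Crest.Agent.R339.Guerra.integrable_coord i).const_mul _]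
    simp [integral_const_mul, Crest.Agent.R339.Guerra.integral_coord]
  have i2 : Integrable (fun g => ∑ x, P w L h x * l.fld g x) (gv l.ι) :=
    integrable_finsetSum _ fun x _ => (i1 x).const_mul _
  have h1 := integral_mono ((integrable_const (X w L h)).add i2) (hX.eg.int l h)
    fun g => X_add_ge hw L hL h (l.fld g)
  simp only [Pi.add_apply] at h1
  rw [integral_add (integrable_const _) i2,
    integral_finsetSum _ fun x _ => (i1 x).const_mul _] at h1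
  simpa [integral_const_mul, i0] using h1

theorem X_nil_le (hw : Wt w) (h : Ω → ℝ) : ∀ L : List (Lv Ω), (∀ l ∈ L, 0 ≤ l.m) →
    X w [] h ≤ X w L h
  | [], _ => le_rfl
  | l :: L, hL => (X_nil_le hw h L fun l' h' => hL l' (by simp [h'])).trans
      (X_le_cons hw l (hL l (by simp)) (fun l' h' => hL l' (by simp [h'])) h)

/-- annealed bound: `c l` bounds the variance of the level `l` -/
theorem X_le_ann (hw : Wt w) (c : Lv Ω → ℝ) : ∀ L : List (Lv Ω),
    (∀ l ∈ L, 0 ≤ l.m ∧ l.m ≤ 1 ∧ ∀ x, w x ≠ 0 → l.cov x x ≤ c l) →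
    ∀ h, X w L h ≤ X w [] h + (L.map c).sum / 2
  | [], _, h => by simp
  | l :: L, hL, h => by
    obtain ⟨h0, h1, h2⟩ := hL l (by simp)
    have ih := X_le_ann hw c L fun l' h' => hL l' (by simp [h'])
    have e : (fun z => X w [] z + (L.map c).sum / 2) = fun z => X w [] (z + fun _ => (L.map c).sum / 2) :=
      funext fun z => (X_add_const hw [] z _).symm
    have g : Lg fun z => X w [] z + (L.map c).sum / 2 := e ▸ (lg_X hw []).shift _
    have a1 : X w (l :: L) h ≤ step l (fun z => X w [] z + (L.map c).sum / 2) h :=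
      step_mono (lg_X hw L) g h0 ih h
    have a2 := step_tilt g l h h0 h1
    have a3 : step (rt l 1) (fun z => X w [] z + (L.map c).sum / 2) h =
        X w [rt l 1] (h + fun _ => (L.map c).sum / 2) := by
      rw [e]
      simp only [X, step, add_right_comm]
    have a4 := C.X_annealed hw (l := rt l 1) rfl (h + fun _ => (L.map c).sum / 2)
    have a5 := X_le_add hw [] (z := h) (c := (L.map c).sum / 2 + c l / 2)
      (z' := (h + fun _ => (L.map c).sum / 2) + fun x => (rt l 1).cov x x / 2) fun x hx => by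
        have : (rt l 1).cov x x ≤ c l := h2 x hx
        simp only [Pi.add_apply]
        linarith
    have a6 : step l (fun z => X w [] z + (L.map c).sum / 2) h =
      step (rt l l.m) (fun z => X w [] z + (L.map c).sum / 2) h := rfl
    simp only [List.map_cons, List.sum_cons]
    linarith

/-! ### the flow in Taylor form -/

open Crest.Agent.T156.Soft.Fin26

/-- one tilt, one step -/
theorem flow_one' {V V' E : ℝ → ℝ} {n M s κ e : ℝ} (hn : 1 ≤ n) (hs : 0 < s)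
    (hE : |E (s * (n + 1) ^ (-(1 : ℝ) / 6))| ≤ M * n)
    (hT : |s * n ^ (-(1 : ℝ) / 6) * V (s * n ^ (-(1 : ℝ) / 6)) -
        s * (n + 1) ^ (-(1 : ℝ) / 6) * V (s * (n + 1) ^ (-(1 : ℝ) / 6)) -
        (s * n ^ (-(1 : ℝ) / 6) - s * (n + 1) ^ (-(1 : ℝ) / 6)) * E (s * (n + 1) ^ (-(1 : ℝ) / 6))| ≤
      M * n * (s * n ^ (-(1 : ℝ) / 6) - s * (n + 1) ^ (-(1 : ℝ) / 6)) ^ 2)
    (hf : |V' (s * (n + 1) ^ (-(1 : ℝ) / 6)) - V (s * (n + 1) ^ (-(1 : ℝ) / 6)) -
      E (s * (n + 1) ^ (-(1 : ℝ) / 6)) / (6 * n) - κ| ≤ e) :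
    |(n + 1) ^ (-(1 : ℝ) / 6) * V' (s * (n + 1) ^ (-(1 : ℝ) / 6)) -
      n ^ (-(1 : ℝ) / 6) * V (s * n ^ (-(1 : ℝ) / 6)) - (n + 1) ^ (-(1 : ℝ) / 6) * κ| ≤
      n ^ (-(1 : ℝ) / 6) * (e + M * (1 + s * n ^ (-(1 : ℝ) / 6)) / n) := by
  obtain ⟨θ, hτ, h0, h1, h2⟩ := tau_step hn
  have hn0 : 0 < n := by linarith
  have ht' : 0 < (n + 1) ^ (-(1 : ℝ) / 6) := by positivity
  generalize (n + 1) ^ (-(1 : ℝ) / 6) = t at *
  generalize n ^ (-(1 : ℝ) / 6) = τ at *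
  subst hτ
  have hM : 0 ≤ M := nonneg_of_mul_nonneg_left ((abs_nonneg _).trans hE) hn0
  have he : 0 ≤ e := (abs_nonneg _).trans hf
  set x := V' (s * t) - V (s * t) - E (s * t) / (6 * n) - κ with hx
  set y := s * (t * (1 + θ)) * V (s * (t * (1 + θ))) - s * t * V (s * t) -
    (s * (t * (1 + θ)) - s * t) * E (s * t) with hy
  have key : t * V' (s * t) - t * (1 + θ) * V (s * (t * (1 + θ))) - t * κ =
      t * x - y / s + t * ((1 / (6 * n) - θ) * E (s * t)) := by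
    rw [hx, hy]; field_simp; ring
  rw [key]
  have b1 : |t * x| ≤ t * e := by rw [abs_mul, abs_of_pos ht']; gcongr
  have hθ : θ ≤ 1 / n := h1.trans (one_div_le_one_div_of_le hn0 (by linarith))
  have b2 : |y / s| ≤ t * (M * (s * t) / n) := by
    rw [abs_div, abs_of_pos hs, div_le_iff₀ hs]
    refine hT.trans ?_
    have e1 : M * n * (s * (t * (1 + θ)) - s * t) ^ 2 = M * n * (s * t) ^ 2 * θ ^ 2 := by ring
    have e2 : t * (M * (s * t) / n) * s = M * n * (s * t) ^ 2 * (1 / n) ^ 2 := by field_simp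
    rw [e1, e2]
    gcongr
  have b3 : |t * ((1 / (6 * n) - θ) * E (s * t))| ≤ t * (M / n) := by
    rw [abs_mul, abs_of_pos ht', abs_mul, abs_of_nonneg (by linarith : 0 ≤ 1 / (6 * n) - θ)]
    have e2 : M / n = 1 / n ^ 2 * (M * n) := by field_simp
    rw [e2]
    gcongr
  have b4 : |t * x - y / s + t * ((1 / (6 * n) - θ) * E (s * t))| ≤
      t * (e + M * (1 + s * t) / n) := by
    have e3 : t * (e + M * (1 + s * t) / n) = t * e + t * (M * (s * t) / n) + t * (M / n) := by ring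
    have := abs_add_le (t * x - y / s) (t * ((1 / (6 * n) - θ) * E (s * t)))
    have := abs_sub (t * x) (y / s)
    linarith
  refine b4.trans ?_
  have : t ≤ t * (1 + θ) := by nlinarith
  gcongr

/-- the flow for the sizes `n ≤ m < n'` and the tilts `a ∈ [a₀, a₁]`, Taylor form -/
structure FlowT (V E : ℕ → ℝ → ℝ) (κ : ℕ → ℝ) (n n' : ℕ) (a₀ a₁ M e : ℝ) : Prop where
  bd : ∀ m, n ≤ m → m < n' → ∀ a ∈ Icc a₀ a₁, |E m a| ≤ M * m
  tay : ∀ m, n ≤ m → m < n' → ∀ a ∈ Icc a₀ a₁, ∀ a' ∈ Icc a₀ a₁,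
    |a * V m a - a' * V m a' - (a - a') * E m a'| ≤ M * m * (a - a') ^ 2
  flow : ∀ m, n ≤ m → m < n' → ∀ a ∈ Icc a₀ a₁,
    |V (m + 1) a - V m a - E m a / (6 * m) - κ m| ≤ e

theorem flowT_step {V E : ℕ → ℝ → ℝ} {κ : ℕ → ℝ} {n n' : ℕ} {a₀ a₁ M e : ℝ}
    (h : FlowT V E κ n n' a₀ a₁ M e) (hn : 1 ≤ n) {s₁ s : ℝ} (hs₁ : 0 < s₁) (hs : s₁ ≤ s)
    (h0 : a₀ ≤ s₁ * (n' : ℝ) ^ (-(1 : ℝ) / 6)) (h1 : s * (n : ℝ) ^ (-(1 : ℝ) / 6) ≤ a₁)
    {m : ℕ} (hm : n ≤ m) (hm' : m < n') :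
    |sc V (m + 1) s₁ s - sc V m s₁ s| ≤ 2 * ((n : ℝ) ^ (-(1 : ℝ) / 6) * (e + M * (1 + a₁) / n)) := by
  have hn1 : (1 : ℝ) ≤ n := by exact_mod_cast hn
  have hmn : (n : ℝ) ≤ m := by exact_mod_cast hm
  have hmn' : (m : ℝ) + 1 ≤ n' := by exact_mod_cast hm'
  have hm1 : (1 : ℝ) ≤ m := by linarith
  have t1 : (m : ℝ) ^ (-(1 : ℝ) / 6) ≤ (n : ℝ) ^ (-(1 : ℝ) / 6) :=
    Real.rpow_le_rpow_of_nonpos (by linarith) hmn (by norm_num)
  have t2 : (n' : ℝ) ^ (-(1 : ℝ) / 6) ≤ ((m : ℝ) + 1) ^ (-(1 : ℝ) / 6) :=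
    Real.rpow_le_rpow_of_nonpos (by linarith) hmn' (by norm_num)
  have t3 : ((m : ℝ) + 1) ^ (-(1 : ℝ) / 6) ≤ (m : ℝ) ^ (-(1 : ℝ) / 6) :=
    Real.rpow_le_rpow_of_nonpos (by linarith) (by linarith) (by norm_num)
  have t4 : 0 < ((m : ℝ) + 1) ^ (-(1 : ℝ) / 6) := by positivity
  have one : ∀ u, s₁ ≤ u → u ≤ s →
      |((m : ℝ) + 1) ^ (-(1 : ℝ) / 6) * V (m + 1) (u * ((m : ℝ) + 1) ^ (-(1 : ℝ) / 6)) -
        (m : ℝ) ^ (-(1 : ℝ) / 6) * V m (u * (m : ℝ) ^ (-(1 : ℝ) / 6)) -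
        ((m : ℝ) + 1) ^ (-(1 : ℝ) / 6) * κ m| ≤
      (n : ℝ) ^ (-(1 : ℝ) / 6) * (e + M * (1 + a₁) / n) := by
    intro u hu hu'
    have hu0 : 0 < u := by linarith
    have l0 : a₀ ≤ u * ((m : ℝ) + 1) ^ (-(1 : ℝ) / 6) := h0.trans (by gcongr)
    have l1 : u * (m : ℝ) ^ (-(1 : ℝ) / 6) ≤ a₁ := le_trans (by gcongr; linarith) h1
    have l2 : u * ((m : ℝ) + 1) ^ (-(1 : ℝ) / 6) ≤ a₁ := le_trans (by gcongr) l1
    have l3 : a₀ ≤ u * (m : ℝ) ^ (-(1 : ℝ) / 6) := l0.trans (by gcongr)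
    have hE := h.bd m hm hm' _ ⟨l0, l2⟩
    have hf := h.flow m hm hm' _ ⟨l0, l2⟩
    have hM : 0 ≤ M := nonneg_of_mul_nonneg_left ((abs_nonneg _).trans hE) (by linarith)
    have he : 0 ≤ e := (abs_nonneg _).trans hf
    have ha : 0 ≤ a₁ := le_trans (by positivity) l1
    refine (flow_one' (V := V m) (V' := V (m + 1)) (E := E m) hm1 hu0 hE
      (h.tay m hm hm' _ ⟨l3, l1⟩ _ ⟨l0, l2⟩) hf).trans ?_
    gcongr
  have o1 := abs_le.1 (one s hs le_rfl)
  have o2 := abs_le.1 (one s₁ le_rfl hs)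
  unfold sc
  push_cast
  rw [abs_le]
  constructor <;> linarith [o1.1, o1.2, o2.1, o2.2]

/-- the flow, telescoped over `n ≤ m ≤ n' ≤ 2 n` -/
theorem flowT_tele {V E : ℕ → ℝ → ℝ} {κ : ℕ → ℝ} {n n' : ℕ} {a₀ a₁ M e : ℝ}
    (h : FlowT V E κ n n' a₀ a₁ M e) (hn : 1 ≤ n) (hn' : n' ≤ 2 * n) (hM : 0 ≤ M) (he : 0 ≤ e)
    (ha : 0 ≤ a₁) {s₁ s : ℝ} (hs₁ : 0 < s₁) (hs : s₁ ≤ s)
    (h0 : a₀ ≤ s₁ * (n' : ℝ) ^ (-(1 : ℝ) / 6)) (h1 : s * (n : ℝ) ^ (-(1 : ℝ) / 6) ≤ a₁)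
    {m : ℕ} (hm : n ≤ m) (hm' : m ≤ n') :
    |sc V m s₁ s - sc V n s₁ s| ≤ 2 * ((n : ℝ) ^ (-(1 : ℝ) / 6) * (n * e + M * (1 + a₁))) := by
  have hn0 : (0 : ℝ) < n := by exact_mod_cast hn
  set b := 2 * ((n : ℝ) ^ (-(1 : ℝ) / 6) * (e + M * (1 + a₁) / n)) with hb
  have hb0 : 0 ≤ b := by positivity
  have key : ∀ i : ℕ, n + i ≤ n' → |sc V (n + i) s₁ s - sc V n s₁ s| ≤ i * b := by
    intro i
    induction i with
    | zero => simp
    | succ i ih =>
      intro hi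
      have h2 := flowT_step h hn hs₁ hs h0 h1 (m := n + i) (by omega) (by omega)
      have h3 := ih (by omega)
      have h4 := abs_sub_le (sc V (n + i + 1) s₁ s) (sc V (n + i) s₁ s) (sc V n s₁ s)
      rw [← add_assoc]
      push_cast
      linarith
  obtain ⟨i, rfl⟩ := Nat.exists_eq_add_of_le hm
  refine (key i hm').trans ?_
  have hi : (i : ℝ) ≤ n := by exact_mod_cast (by omega : i ≤ n)
  calc (i : ℝ) * b ≤ n * b := by gcongr
    _ = _ := by rw [hb]; field_simp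

/-- a model with a root level `l`, whose side conditions hold with the constant `B` on `[a₀, a₁]`:
monotone tilts, a transitive family of symmetries, total variance and entropy at most `B` -/
structure Good (w : Ω → ℝ) (l : Lv Ω) (L : List (Lv Ω)) (h : Ω → ℝ) (a₁ B : ℝ) : Prop where
  wt : Wt w
  mono : Mono a₁ L
  sym : ∃ (T : Set (Equiv.Perm Ω)) (x₀ : Ω), (∀ τ ∈ T, Sym w (l :: L) h τ) ∧
    ∀ x, w x ≠ 0 → ∃ τ ∈ T, τ x₀ = x
  var : ∃ c : Lv Ω → ℝ, 0 ≤ c l ∧ (∀ l' ∈ l :: L, ∀ x, w x ≠ 0 → l'.cov x x ≤ c l') ∧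
    |X w [] h| + 2 * c l + |(L.map c).sum| ≤ B

theorem Good.side {l : Lv Ω} {L : List (Lv Ω)} {h : Ω → ℝ} {a₁ B : ℝ} (H : Good w l L h a₁ B)
    {a' : ℝ} (h0 : 0 < a') (h1 : a' ≤ a₁) :
    |tE (rt l a') (X w L) (X w L) h| ≤ B ∧ ∀ a,
      |a * X w (rt l a :: L) h - a' * X w (rt l a' :: L) h -
        (a - a') * tE (rt l a') (X w L) (X w L) h| ≤ B * (a - a') ^ 2 := by
  obtain ⟨T, x₀, hT, htr⟩ := H.sym
  obtain ⟨c, hc0, hc, hB⟩ := H.var
  have hm : Mono a' L := Trf.mono_le H.mono h1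
  have hL : Mono 0 (rt l a' :: L) := ⟨h0.le, hm⟩
  have hT' : ∀ τ ∈ T, Sym w (rt l a' :: L) h τ := fun τ hτ =>
    ⟨(hT τ hτ).w, (hT τ hτ).h, fun l' hl' => by
      rcases List.mem_cons.1 hl' with rfl | hl'
      · exact (hT τ hτ).cov l (by simp)
      · exact (hT τ hτ).cov l' (by simp [hl'])⟩
  have hcl := hc l (by simp)
  have le1 : ∀ {L : List (Lv Ω)} {m : ℝ}, Mono m L → m ≤ 1 ∧ ∀ l ∈ L, l.m ≤ 1 := by
    intro L
    induction L with
    | nil => exact fun h => ⟨h, by simp⟩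
    | cons l L ih =>
      intro m h
      obtain ⟨i1, i2⟩ := ih h.2
      exact ⟨h.1.trans i1, by simpa using ⟨i1, i2⟩⟩
  have b0 := abs_nonneg (X w [] h)
  have b1 := abs_nonneg (L.map c).sum
  refine ⟨?_, fun a => ?_⟩
  · obtain ⟨m1, m2⟩ := root_mean H.wt h0 hL hT' htr hc0 hcl
    have m3 := X_nil_le H.wt h _ (hL.nn le_rfl)
    have m4 : X w (rt l a' :: L) h ≤ X w [] h + (c l + (L.map c).sum) / 2 := by
      have a1 := step_mono (l := rt l a') (lg_X H.wt L) ((lg_X H.wt []).shift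
        fun _ => (L.map c).sum / 2) h0.le (fun z => by
          have := X_le_ann H.wt c L (fun l' h' => ⟨hm.nn h0.le l' h', (le1 hm).2 l' h',
            hc l' (by simp [h'])⟩) z
          rwa [← X_add_const H.wt] at this) h
      have a2 := X_le_ann H.wt (fun _ => c l) [rt l a'] (by
        simpa using ⟨h0.le, (le1 hm).1, hcl⟩) (h + fun _ => (L.map c).sum / 2)
      have a3 := X_add_const H.wt [] h ((L.map c).sum / 2)
      have a4 : step (rt l a') (fun z => X w [] (z + fun _ => (L.map c).sum / 2)) h =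
          X w [rt l a'] (h + fun _ => (L.map c).sum / 2) := by
        simp only [X, step, add_right_comm]
      simp only [List.map_cons, List.map_nil, List.sum_cons, List.sum_nil, add_zero] at a2
      have a5 : X w [] (h + fun _ => (L.map c).sum / 2) = X w [] h + (L.map c).sum / 2 := a3
      have a6 : X w (rt l a' :: L) h = step (rt l a') (X w L) h := rfl
      linarith
    have m5 : a' * c l ≤ c l := mul_le_of_le_one_left hc0 (le1 hm).1
    rw [abs_le]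
    constructor <;> linarith [le_abs_self (X w [] h), neg_abs_le (X w [] h),
      le_abs_self (L.map c).sum]
  · obtain ⟨t1, t2⟩ := root_tay H.wt hL hT' htr hc0 hcl a
    rw [abs_of_nonneg t1]
    refine t2.trans ?_
    rw [mul_comm]
    exact mul_le_mul_of_nonneg_right (by linarith) (sq_nonneg _)

/-- **the flow for a sequence of cascades**: only the flow equation itself is left -/
theorem flowT_of_good {Ω : ℕ → Type} [∀ m, Fintype (Ω m)] {w : ∀ m, Ω m → ℝ} {l : ∀ m, Lv (Ω m)}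
    {L : ∀ m, List (Lv (Ω m))} {h : ∀ m, Ω m → ℝ} {κ : ℕ → ℝ} {n n' : ℕ} {a₀ a₁ M e : ℝ}
    (ha : 0 < a₀) (H : ∀ m, n ≤ m → m < n' → Good (w m) (l m) (L m) (h m) a₁ (M * m))
    (hf : ∀ m, n ≤ m → m < n' → ∀ a ∈ Icc a₀ a₁,
      |X (w (m + 1)) (rt (l (m + 1)) a :: L (m + 1)) (h (m + 1)) - X (w m) (rt (l m) a :: L m) (h m) -
        tE (rt (l m) a) (X (w m) (L m)) (X (w m) (L m)) (h m) / (6 * m) - κ m| ≤ e) :
    FlowT (fun m a => X (w m) (rt (l m) a :: L m) (h m))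
      (fun m a => tE (rt (l m) a) (X (w m) (L m)) (X (w m) (L m)) (h m)) κ n n' a₀ a₁ M e where
  bd m h1 h2 _ ha' := ((H m h1 h2).side (ha.trans_le ha'.1) ha'.2).1
  tay m h1 h2 a _ _ ha' := ((H m h1 h2).side (ha.trans_le ha'.1) ha'.2).2 a
  flow := hf

/-- the cube: levels that depend on the overlap only; `c l'` bounds the variance of `l'` -/
theorem good_cube {n : ℕ} {l : Lv (Cube n)} {L : List (Lv (Cube n))} {a₁ B : ℝ} (hm : Mono a₁ L)
    (ho : ∀ l' ∈ l :: L, OvLv l') (c : Lv (Cube n) → ℝ) (hc : ∀ l' ∈ l :: L, ∀ x, l'.cov x x ≤ c l')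
    (hB : n + 2 * c l + |(L.map c).sum| ≤ B) : Good (fun _ => 1) l L 0 a₁ B where
  wt := ⟨fun _ => zero_le_one, by simp⟩
  mono := hm
  sym := ⟨TS n, fun _ => true, sym_act₀ ho, fun x _ => TS_trans _ x⟩
  var := ⟨c, le_trans (Finset.sum_nonneg fun _ _ => mul_self_nonneg _) (hc l (by simp) fun _ => true),
    fun l' h' x _ => hc l' h' x, by
      refine le_trans ?_ hB
      have e : X (fun _ : Cube n => (1 : ℝ)) [] 0 = n * log 2 := by simp [X]
      have h2 : log 2 ≤ 1 := by linarith [log_le_sub_one_of_pos (show (0 : ℝ) < 2 by norm_num)]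
      have h3 : 0 ≤ log 2 := log_nonneg (by norm_num)
      rw [e, abs_of_nonneg (by positivity)]
      nlinarith [Nat.cast_nonneg (α := ℝ) n]⟩

end Crest.Agent.T156.Cas.Flow26

end
end

-- ▼ part T156/Clo_5
section

/-!
# Row 156, closure with model classes that depend on the tilt (helper5)

The class of models joining size `n` to size `n'` may depend on `(n, n', s)`; the comparison is
only asked on `[s₁, l ^ J s]` for a fixed `J` with `r + k ≤ c J`.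
-/

set_option autoImplicit false
open Filter Topology Set

namespace Crest.Agent.T156.Soft

open Fin26

/-- nesting of tilt intervals inside one class -/
theorem nest_5 {G : Set (ℝ → ℝ)} {L : ℝ → ℝ} {s₁ l s ε E T B₀ : ℝ} {J : ℕ} (hl : 1 ≤ l)
    (hs : 0 ≤ s) (ε0 : 0 ≤ ε) (ε1 : ε ≤ 1 / 2) (E0 : 0 ≤ E) (T0 : 0 ≤ T) (B0 : 0 ≤ B₀)
    (hT : ∀ f ∈ G, ∀ u ∈ Icc s₁ (l ^ (J + 1) * s), f u ≤ T)
    (hF : ∀ u ∈ Icc s₁ (l ^ J * s), ∀ B : ℝ, 0 ≤ B → (∀ g ∈ G, ∀ v ∈ Icc s₁ (l * u), g v ≤ B) →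
      ∀ f ∈ G, |f u - L u| ≤ ε * (B + E))
    (hL : ∀ u ∈ Icc s₁ (l ^ J * s), L u ≤ B₀) :
    ∀ f ∈ G, ∀ u ∈ Icc s₁ s, |f u - L u| ≤ ε * (2 * B₀ + 2 * E + ε ^ J * T) := by
  have l0 : 0 ≤ l := by linarith
  have ind : ∀ i j : ℕ, i + j = J → ∀ g ∈ G, ∀ v ∈ Icc s₁ (l ^ (j + 1) * s),
      g v ≤ 2 * B₀ + E + ε ^ i * T := by
    intro i
    induction i with
    | zero =>
      intro j hj g hg v hv
      obtain rfl : j = J := by omega
      have := hT g hg v hv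
      rw [pow_zero, one_mul]
      linarith
    | succ i ih =>
      intro j hj g hg v hv
      have m : v ∈ Icc s₁ (l ^ J * s) := ⟨hv.1, hv.2.trans
        (mul_le_mul_of_nonneg_right (pow_le_pow_right₀ hl (by omega)) hs)⟩
      have p0 : 0 ≤ ε ^ i * T := by positivity
      have a1 := (abs_le.1 (hF v m _ (by positivity) (fun g' hg' w hw =>
        ih (j + 1) (by omega) g' hg' w ⟨hw.1, hw.2.trans (by
          rw [pow_succ' l (j + 1), mul_assoc]
          exact mul_le_mul_of_nonneg_left hv.2 l0)⟩) g hg)).2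
      have a2 := hL v m
      have a3 := mul_le_mul_of_nonneg_right ε1 (show 0 ≤ 2 * B₀ + 2 * E by positivity)
      rw [pow_succ']
      nlinarith
  intro f hf u hu
  have m : u ∈ Icc s₁ (l ^ J * s) :=
    ⟨hu.1, hu.2.trans (le_mul_of_one_le_left hs (one_le_pow₀ hl))⟩
  refine (hF u m _ (by positivity) (fun g hg v hv => ind J 0 rfl g hg v ⟨hv.1, hv.2.trans ?_⟩)
    f hf).trans_eq (by ring)
  rw [zero_add, pow_one]
  exact mul_le_mul_of_nonneg_left hu.2 l0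

/-- classes that depend on `(n, n', s)` -/
structure Cls (L : ℕ → ℝ → ℝ) (s₁ l A r D c k C' : ℝ) (J n₀ : ℕ) : Prop where
  s1 : 1 ≤ s₁
  hl : 1 ≤ l
  hc : 0 < c
  hk : 0 < k
  hr : 0 ≤ r
  hC : 0 ≤ C'
  hJ : r + k ≤ c * J
  triv : ∀ n : ℕ, n₀ ≤ n → ∀ s, s₁ ≤ s → L n s ≤ A * s * (n : ℝ) ^ r
  cls : ∀ n n' : ℕ, n₀ ≤ n → n ≤ n' → n' ≤ 2 * n → ∀ s ∈ Icc s₁ ((n : ℝ) ^ k),
    ∃ G : Set (ℝ → ℝ), L n' ∈ G ∧
      (∀ f ∈ G, ∀ u ∈ Icc s₁ (l ^ (J + 1) * s), f u ≤ A * u * (n : ℝ) ^ r) ∧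
      ∀ u ∈ Icc s₁ (l ^ J * s), ∀ B : ℝ, 0 ≤ B → (∀ g ∈ G, ∀ v ∈ Icc s₁ (l * u), g v ≤ B) →
        ∀ f ∈ G, |f u - L n u| ≤ D * (n : ℝ) ^ (-c) * (B + s ^ C')

variable {L : ℕ → ℝ → ℝ} {s₁ l A r D c k C' : ℝ} {J n₀ : ℕ}

theorem Cls.fam (H : Cls L s₁ l A r D c k C' J n₀) : ∃ (A' D' : ℝ) (n₁ : ℕ),
    Fam L (fun n => {f | ∃ n' : ℕ, n ≤ n' ∧ n' ≤ 2 * n ∧ f = L n'}) s₁ (l ^ J) A' r D' c k C' n₁ := by
  have s1 := H.s1
  have hl := H.hl
  have l0 : 0 < l := by linarith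
  obtain ⟨n₁, h₁⟩ := eventually_atTop.1 ((ev_small H.hc |D| (1 / 2) (by norm_num)).and
    ((eventually_ge_atTop n₀).and (eventually_ge_atTop 1)))
  set Q := |D| ^ J * (|A| * l ^ (J + 1)) with hQ
  have Q0 : 0 ≤ Q := by positivity
  refine ⟨|A| * 2 ^ r, |D| * (2 + Q), n₁, s1, one_le_pow₀ hl, H.hc, H.hk, H.hr, H.hC,
    fun n n' _ h2 h3 => ⟨n', h2, h3, rfl⟩, ?_, ?_⟩
  · rintro n hn _ ⟨n', h2, h3, rfl⟩ s hs
    have sp : 0 < s := by linarith
    refine (H.triv n' ((h₁ n hn).2.1.trans h2) s hs).trans ?_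
    have a1 : (n' : ℝ) ^ r ≤ 2 ^ r * (n : ℝ) ^ r := by
      rw [← Real.mul_rpow (by norm_num) (Nat.cast_nonneg n)]
      exact Real.rpow_le_rpow (Nat.cast_nonneg _) (by exact_mod_cast h3) H.hr
    calc A * s * (n' : ℝ) ^ r ≤ |A| * s * (2 ^ r * (n : ℝ) ^ r) :=
        mul_le_mul (mul_le_mul_of_nonneg_right (le_abs_self A) sp.le) a1 (by positivity)
          (by positivity)
      _ = _ := by ring
  · rintro n hn s hs hs' B B0 hB _ ⟨n', h2, h3, rfl⟩
    obtain ⟨e1, e2, e3⟩ := h₁ n hn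
    have sp : 0 < s := by linarith
    have n1 : (1 : ℝ) ≤ n := by exact_mod_cast e3
    have np : (0 : ℝ) < n := by linarith
    obtain ⟨G, g1, g2, g3⟩ := H.cls n n' e2 h2 h3 s ⟨hs, hs'⟩
    have E1 : 1 ≤ s ^ C' := Real.one_le_rpow (s1.trans hs) H.hC
    have a1 := nest_5 (G := G) (L := L n) (s₁ := s₁) (ε := |D| * (n : ℝ) ^ (-c)) (E := s ^ C')
      (T := |A| * (l ^ (J + 1) * s) * (n : ℝ) ^ r) (J := J) hl sp.le (by positivity) e1
      (by positivity) (by positivity) B0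
      (fun f hf u hu => (g2 f hf u hu).trans (mul_le_mul_of_nonneg_right
        (mul_le_mul (le_abs_self A) hu.2 (by linarith [hu.1]) (abs_nonneg A)) (by positivity)))
      (fun u hu B' B0' hB' f hf => (g3 u hu B' B0' hB' f hf).trans
        (mul_le_mul_of_nonneg_right (mul_le_mul_of_nonneg_right (le_abs_self D) (by positivity))
          (by positivity)))
      (fun u hu => hB _ ⟨n, le_rfl, by omega, rfl⟩ u hu.1 hu.2) _ g1 s ⟨hs, le_rfl⟩
    refine a1.trans ?_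
    have a2 : (|D| * (n : ℝ) ^ (-c)) ^ J * (|A| * (l ^ (J + 1) * s) * (n : ℝ) ^ r) ≤ Q := by
      have b1 : ((n : ℝ) ^ (-c)) ^ J * (s * (n : ℝ) ^ r) ≤ 1 := by
        refine (mul_le_mul_of_nonneg_left (mul_le_mul_of_nonneg_right hs' (by positivity))
          (by positivity)).trans ?_
        rw [← Real.rpow_natCast, ← Real.rpow_mul np.le, ← Real.rpow_add np, ← Real.rpow_add np]
        exact Real.rpow_le_one_of_one_le_of_nonpos n1 (by linarith [H.hJ])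
      calc _ = Q * (((n : ℝ) ^ (-c)) ^ J * (s * (n : ℝ) ^ r)) := by rw [hQ, mul_pow]; ring
        _ ≤ Q := mul_le_of_le_one_right Q0 b1
    have a3 : 2 * B + 2 * s ^ C' + (|D| * (n : ℝ) ^ (-c)) ^ J *
        (|A| * (l ^ (J + 1) * s) * (n : ℝ) ^ r) ≤ (2 + Q) * (B + s ^ C') := by
      nlinarith [mul_nonneg Q0 B0, mul_le_mul_of_nonneg_left E1 Q0]
    calc _ ≤ |D| * (n : ℝ) ^ (-c) * ((2 + Q) * (B + s ^ C')) :=
        mul_le_mul_of_nonneg_left a3 (by positivity)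
      _ = _ := by ring

/-- **closure, classes depending on the tilt**; the lower bound is for the target curves -/
theorem key_of_cls {β : ℝ} (H : Cls (fun n => Ln n β s₁) s₁ l A r D c k C' J n₀)
    (hlb : ∀ K δ : ℝ, 0 < δ → ∃ᶠ n : ℕ in atTop, ∃ s, s₁ ≤ s ∧ s ≤ δ * (n : ℝ) ^ k ∧
      K * (n : ℝ) ^ (-c) * s ^ C' ≤ Ln n β s₁ s) : Key β := by
  obtain ⟨A', D', n₁, h⟩ := H.fam
  exact key_of_family h fun K δ hδ => (hlb K δ hδ).mono fun n ⟨s, h1⟩ =>
    ⟨_, ⟨n, le_rfl, by omega, rfl⟩, s, h1⟩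

/-- the same with a signal `c₀ s ^ q`, `k (C' - q) < c`, at `s = δ n ^ k` -/
theorem key_of_cls' {β q c₀ : ℝ} (H : Cls (fun n => Ln n β s₁) s₁ l A r D c k C' J n₀)
    (hq : k * (C' - q) < c) (h0 : 0 < c₀)
    (hlb : ∀ δ : ℝ, 0 < δ → δ ≤ 1 → ∃ᶠ n : ℕ in atTop,
      c₀ * (δ * (n : ℝ) ^ k) ^ q ≤ Ln n β s₁ (δ * (n : ℝ) ^ k)) : Key β := by
  refine key_of_cls H fun K δ hδ => ?_
  set d := min δ 1 with hd
  have d0 : 0 < d := lt_min hδ one_pos
  have e1 := ev_small (c := c - k * (C' - q)) (by linarith) (|K| * d ^ (C' - q)) c₀ h0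
  have e2 : ∀ᶠ n : ℕ in atTop, s₁ / d ≤ (n : ℝ) ^ k :=
    ((tendsto_rpow_atTop H.hk).comp tendsto_natCast_atTop_atTop).eventually_ge_atTop _
  refine ((hlb d d0 (min_le_right _ _)).and_eventually
    (e1.and (e2.and (eventually_ge_atTop 1)))).mono ?_
  rintro n ⟨h1, h2, h3, h4⟩
  have np : (0 : ℝ) < n := by exact_mod_cast h4
  have sp : 0 < d * (n : ℝ) ^ k := by positivity
  refine ⟨d * (n : ℝ) ^ k, by rwa [div_le_iff₀' d0] at h3,
    mul_le_mul_of_nonneg_right (min_le_left _ _) (by positivity), le_trans ?_ h1⟩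
  refine le_trans ?_ (mul_le_mul_of_nonneg_right h2 (by positivity))
  have e : (d * (n : ℝ) ^ k) ^ C' =
      d ^ (C' - q) * (n : ℝ) ^ (k * (C' - q)) * (d * (n : ℝ) ^ k) ^ q := by
    rw [Real.rpow_mul np.le, ← Real.mul_rpow d0.le (by positivity), ← Real.rpow_add sp,
      sub_add_cancel]
  rw [e, show -(c - k * (C' - q)) = -c + k * (C' - q) by ring, Real.rpow_add np]
  calc _ = K * (d ^ (C' - q) * ((n : ℝ) ^ (-c) * (n : ℝ) ^ (k * (C' - q))) *
        (d * (n : ℝ) ^ k) ^ q) := by ring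
    _ ≤ |K| * (d ^ (C' - q) * ((n : ℝ) ^ (-c) * (n : ℝ) ^ (k * (C' - q))) *
        (d * (n : ℝ) ^ k) ^ q) := mul_le_mul_of_nonneg_right (le_abs_self K) (by positivity)
    _ = _ := by ring

end Crest.Agent.T156.Soft
end

-- ▼ part T156/Chain_26
section

/-!
# Row 156: the chain `SK n → model n → model n' → SK n'` gives the closure hypothesis (helper26)

All comparisons are asked in absolute units, on a window `[a₀, a₁]` of root tilts, under a bound
`Wb` for `Wd` on that window.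
-/

set_option autoImplicit false
set_option linter.unusedSectionVars false

noncomputable section

namespace Crest.Agent.T156.Cas.Chain26

open MeasureTheory Real Set Filter Topology
open Crest.Agent.T157.E Crest.Agent.T157.Casc Crest.Agent.T157.SL
open Crest.Agent.T156.Soft Crest.Agent.T156.Soft.Fin26 Crest.Agent.T156.Cas.Flow26

/-! ### paths -/

/-- integration of a bound for the right derivative (breakpoints are allowed) -/
theorem path_le {F d g : ℝ → ℝ} {t₀ t₁ e : ℝ} (hF : ContinuousOn F (Icc t₀ t₁))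
    (hd : ∀ t ∈ Ioo t₀ t₁, HasDerivWithinAt F (d t) (Ioi t) t)
    (hb : ∀ t ∈ Ioo t₀ t₁, |d t| ≤ g t) (hg : IntegrableOn g (Icc t₀ t₁))
    (he : ∫ t in t₀..t₁, g t ≤ e) : ∀ t ∈ Icc t₀ t₁, |F t - F t₀| ≤ e := by
  intro t ht
  have sub : Icc t₀ t ⊆ Icc t₀ t₁ := Icc_subset_Icc_right ht.2
  have sub' : Ioo t₀ t ⊆ Ioo t₀ t₁ := Ioo_subset_Ioo_right ht.2
  have h1 := intervalIntegral.sub_le_integral_of_hasDeriv_right_of_le ht.1 (hF.mono sub)
    (fun x hx => hd x (sub' hx)) (hg.mono_set sub) fun x hx => (le_abs_self _).trans (hb x (sub' hx))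
  have h2 := intervalIntegral.sub_le_integral_of_hasDeriv_right_of_le (g := fun x => -F x)
    (g' := fun x => -d x) ht.1 (hF.mono sub).neg (fun x hx => (hd x (sub' hx)).neg)
    (hg.mono_set sub) fun x hx => (neg_le_abs _).trans (hb x (sub' hx))
  have h01 : t₀ ≤ t₁ := ht.1.trans ht.2
  have i1 : IntervalIntegrable g volume t₀ t :=
    (intervalIntegrable_iff_integrableOn_Icc_of_le ht.1).2 (hg.mono_set sub)
  have i2 : IntervalIntegrable g volume t t₁ :=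
    (intervalIntegrable_iff_integrableOn_Icc_of_le ht.2).2
      (hg.mono_set (Icc_subset_Icc_left ht.1))
  have h3 := intervalIntegral.integral_add_adjacent_intervals i1 i2
  have h4 : 0 ≤ ∫ x in t..t₁, g x := by
    rw [intervalIntegral.integral_of_le ht.2, integral_Ioc_eq_integral_Ioo]
    exact setIntegral_nonneg measurableSet_Ioo fun x hx =>
      (abs_nonneg _).trans (hb x ⟨ht.1.trans_lt hx.1, hx.2⟩)
  rw [abs_le]
  constructor <;> linarith


/-! ### the curvature on the window -/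

variable {Ω : Type} [Fintype Ω] {w : Ω → ℝ}


theorem Wd_mono (hw : Wt w) (l : Lv Ω) (L : List (Lv Ω)) (h : Ω → ℝ) {a₀ a a' a₁ : ℝ} (h0 : a₀ ≤ a)
    (h1 : a' ≤ a₁) : Wd w l L h a a' ≤ Wd w l L h a₀ a₁ := by
  have := Wd_nonneg hw l L h h0
  have := Wd_nonneg hw l L h h1
  unfold Wd at *
  linarith

/-- the window may start a little below the base point `b` -/
theorem Wd_le_win (hw : Wt w) (l : Lv Ω) (L : List (Lv Ω)) (h : Ω → ℝ) {a₀ a₁ b b' D : ℝ}
    (h0 : 0 < a₀) (h1 : a₀ ≤ b) (h2 : b ≤ 2 * a₀) (h3 : a₀ ≤ a₁) (h4 : 2 * a₁ ≤ b') (h5 : 2 * b ≤ b')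
    (hD : X w (rt l b' :: L) h - X w (rt l b :: L) h ≤ D) : Wd w l L h a₀ a₁ ≤ 6 * D := by
  have hF := lg_X hw L
  have b0 : 0 < b := h0.trans_le h1
  have k1 := W_le hw l L h h0 h3 (show a₁ < 2 * a₁ by linarith)
  rw [show 2 * a₁ / (2 * a₁ - a₁) = 2 by
    rw [show 2 * a₁ - a₁ = a₁ by ring]; field_simp [(h0.trans_le h3).ne']] at k1
  have k2 := X_rt_mono hw l L h h4
  have k3 := X_rt_mono hw l L h h5
  have t1 := Flow26.tan hF l h b a₀
  have t2 := Flow26.tan hF l h b (2 * b)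
  have t3 := step_le_tE hF l h b0.le
  have e : ∀ a, step (rt l a) (X w L) h = X w (rt l a :: L) h := fun _ => rfl
  simp only [e] at t1 t2 t3
  set E := tE (rt l b) (X w L) (X w L) h
  set Vb := X w (rt l b :: L) h
  set V0 := X w (rt l a₀ :: L) h
  set V2 := X w (rt l (2 * b) :: L) h
  have u1 : E - Vb ≤ 2 * (V2 - Vb) := le_of_mul_le_mul_left (by linarith) b0
  have u2 : Vb - V0 ≤ E - Vb := by
    refine le_of_mul_le_mul_left ?_ h0
    nlinarith [mul_nonneg (show 0 ≤ 2 * a₀ - b by linarith) (show 0 ≤ E - Vb by linarith)]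
  unfold Wd
  linarith

/-! ### the chain -/

/-- value of a model of size `m` at the root tilt `a` -/
abbrev Vv {m : ℕ} (l : Lv (Cube m)) (L : List (Lv (Cube m))) (a : ℝ) : ℝ :=
  X (fun _ => 1) (rt l a :: L) 0

/-- tilted mean of the root value -/
abbrev Ev {m : ℕ} (l : Lv (Cube m)) (L : List (Lv (Cube m))) (a : ℝ) : ℝ :=
  tE (rt l a) (X (fun _ => 1) L) (X (fun _ => 1) L) 0

/-- the defect of the flow in `n` -/
def Kv {m : ℕ} (l : Lv (Cube m)) (L : List (Lv (Cube m))) (l' : Lv (Cube (m + 1)))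
    (L' : List (Lv (Cube (m + 1)))) (a : ℝ) : ℝ :=
  Vv l' L' a - Vv l L a - Ev l L a / (6 * m)

/-- Models `(l m t, L m t)` of the sizes `n ≤ m ≤ n'`, `t ∈ T`; `t₀` is (almost) SK, the flow in `m`
runs at `t₁`.  Root tilts in `[a₀, A]`; `ε (Wb + E)` is the error when `Wd ≤ Wb` on the window. -/
structure Chn (β : ℝ) (n n' : ℕ) (a₀ A M ε E : ℝ) {ι : Type} (T : Set ι) (t₀ t₁ : ι)
    (l : ∀ m, ι → Lv (Cube m)) (L : ∀ m, ι → List (Lv (Cube m))) : Prop where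
  m0 : t₀ ∈ T
  m1 : t₁ ∈ T
  var : ∀ m, n ≤ m → m ≤ n' → ∀ t ∈ T, ∀ x, (l m t).cov x x ≤ M * m
  good : ∀ m, n ≤ m → m < n' → Good (fun _ => 1) (l m t₁) (L m t₁) 0 A (M * m)
  start : ∀ m, m = n ∨ m = n' → ∀ a₁ ∈ Icc a₀ A, ∀ Wb, 0 ≤ Wb →
    Wd (fun _ => 1) (l m t₀) (L m t₀) 0 a₀ a₁ ≤ Wb →
    Wd (fun _ => 1) (wl m β 1 1) [] 0 a₀ a₁ ≤ Wb → ∀ a ∈ Icc a₀ a₁, ∀ a' ∈ Icc a₀ a₁,
      |Vv (l m t₀) (L m t₀) a - Vv (l m t₀) (L m t₀) a' -
        (Vv (wl m β 1 1) [] a - Vv (wl m β 1 1) [] a')| ≤ ε * (Wb + E)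
  path : ∀ m, m = n ∨ m = n' → ∀ a₁ ∈ Icc a₀ A, ∀ Wb, 0 ≤ Wb →
    (∀ t ∈ T, Wd (fun _ => 1) (l m t) (L m t) 0 a₀ a₁ ≤ Wb) →
    ∀ a ∈ Icc a₀ a₁, ∀ a' ∈ Icc a₀ a₁, ∀ t ∈ T,
      |Vv (l m t) (L m t) a - Vv (l m t) (L m t) a' -
        (Vv (l m t₀) (L m t₀) a - Vv (l m t₀) (L m t₀) a')| ≤ ε * (Wb + E)
  flow : ∀ a₁ ∈ Icc a₀ A, ∀ Wb, 0 ≤ Wb →
    (∀ m, n ≤ m → m ≤ n' → Wd (fun _ => 1) (l m t₁) (L m t₁) 0 a₀ a₁ ≤ Wb) →
    ∀ m, n ≤ m → m < n' → ∀ a ∈ Icc a₀ a₁, ∀ a' ∈ Icc a₀ a₁,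
      |Kv (l m t₁) (L m t₁) (l (m + 1) t₁) (L (m + 1) t₁) a -
        Kv (l m t₁) (L m t₁) (l (m + 1) t₁) (L (m + 1) t₁) a'| ≤ ε * (Wb + E) / n

theorem wt1 (m : ℕ) : Wt (fun _ : Cube m => (1 : ℝ)) := ⟨fun _ => zero_le_one, by simp⟩

theorem wl_var {m : ℕ} (hm : 0 < m) (β : ℝ) (x : Cube m) :
    (wl m β 1 1).cov x x ≤ β ^ 2 / 2 * m := by
  rw [linkStmt.1 m β 1 1 x x hm zero_le_one]
  have e : T157.G1.ov x x = 1 := by
    have hm' : (m : ℝ) ≠ 0 := by exact_mod_cast hm.ne'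
    have : sv x ⬝ᵥ sv x = m := by
      simp only [dotProduct]
      rw [Finset.sum_congr rfl fun i _ => (show sv x i * sv x i = 1 by
        unfold sv ProbabilityR.SpinGlassDynamics.spin; cases x i <;> simp)]
      simp
    rw [T157.G1.ov, this, div_self hm']
  rw [e]
  exact le_of_eq (by ring)

theorem Good.anti {l : Lv Ω} {L : List (Lv Ω)} {h : Ω → ℝ} {a₁ A B : ℝ} (H : Good w l L h A B)
    (ha : a₁ ≤ A) : Good w l L h a₁ B :=
  ⟨H.wt, Trf.mono_le H.mono ha, H.sym, H.var⟩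

theorem tau_le {n m : ℕ} (hn : 1 ≤ n) (hm : n ≤ m) :
    (m : ℝ) ^ (-(1 : ℝ) / 6) ≤ (n : ℝ) ^ (-(1 : ℝ) / 6) :=
  Real.rpow_le_rpow_of_nonpos (by exact_mod_cast hn) (by exact_mod_cast hm) (by norm_num)

theorem tau_ge {n m : ℕ} (hm : 1 ≤ m) (hn : 1 ≤ n) (h : m ≤ 2 * n) :
    (n : ℝ) ^ (-(1 : ℝ) / 6) ≤ 2 * (m : ℝ) ^ (-(1 : ℝ) / 6) := by
  have n0 : (0 : ℝ) < n := by exact_mod_cast hn
  have m0 : (0 : ℝ) < m := by exact_mod_cast hm
  have h1 : ((2 : ℝ) * n) ^ (-(1 : ℝ) / 6) ≤ (m : ℝ) ^ (-(1 : ℝ) / 6) :=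
    Real.rpow_le_rpow_of_nonpos m0 (by exact_mod_cast h) (by norm_num)
  rw [Real.mul_rpow (by norm_num) n0.le] at h1
  have h2 : (2 : ℝ) ^ (-1 : ℝ) ≤ (2 : ℝ) ^ (-(1 : ℝ) / 6) :=
    Real.rpow_le_rpow_of_exponent_le (by norm_num) (by norm_num)
  rw [Real.rpow_neg_one] at h2
  have h3 := mul_le_mul_of_nonneg_right h2 (show 0 ≤ (n : ℝ) ^ (-(1 : ℝ) / 6) by positivity)
  linarith

/-- a bound for the curve gives a bound for `Wd` on the common window -/
theorem Wd_of_crv {n n' m : ℕ} (hn : 1 ≤ n) (h1 : n ≤ m) (h2 : m ≤ n') (h3 : n' ≤ 2 * n)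
    (l : Lv (Cube m)) (L : List (Lv (Cube m))) {s₁ u B : ℝ} (hs : 0 < s₁) (hu : s₁ ≤ u)
    (hB : crv m s₁ (fun _ => 1) l L 0 (4 * u) ≤ B) :
    Wd (fun _ => 1) l L 0 (s₁ * (n' : ℝ) ^ (-(1 : ℝ) / 6)) (u * (n : ℝ) ^ (-(1 : ℝ) / 6)) ≤
      12 * B / (n : ℝ) ^ (-(1 : ℝ) / 6) := by
  have B0 : 0 ≤ B := (crv_nonneg (wt1 m) m l L 0 (by linarith)).trans hB
  have p1 := tau_le hn h1
  have p2 := tau_le (hn.trans h1) h2
  have p3 := tau_ge (hn.trans h1) hn (h2.trans h3)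
  have p4 := tau_ge (hn.trans (h1.trans h2)) (hn.trans h1) (h3.trans (by omega))
  have m0 : (0 : ℝ) < (m : ℝ) ^ (-(1 : ℝ) / 6) :=
    rpow_pos_of_pos (by exact_mod_cast hn.trans h1) _
  have n0 : (0 : ℝ) < (n' : ℝ) ^ (-(1 : ℝ) / 6) :=
    rpow_pos_of_pos (by exact_mod_cast hn.trans (h1.trans h2)) _
  unfold crv at hB
  generalize (m : ℝ) ^ (-(1 : ℝ) / 6) = τ at *
  generalize (n : ℝ) ^ (-(1 : ℝ) / 6) = σ at *
  generalize (n' : ℝ) ^ (-(1 : ℝ) / 6) = ρ at *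
  have u0 : 0 < u := by linarith
  have k := Wd_le_win (wt1 m) l L 0 (a₀ := s₁ * ρ) (a₁ := u * σ) (b := s₁ * τ) (b' := 4 * u * τ)
    (D := B / τ) (by positivity) (by gcongr) (by nlinarith) (by gcongr; linarith) (by nlinarith)
    (by nlinarith [mul_pos u0 m0, mul_le_mul_of_nonneg_right hu m0.le])
    (by rw [le_div_iff₀ m0]; linarith)
  refine k.trans ?_
  rw [← mul_div_assoc, div_le_div_iff₀ m0 (by linarith)]
  nlinarith



end Crest.Agent.T156.Cas.Chain26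

end
end

-- ▼ part T156/ChainQ_26

/-!
# Row 156: the chain for an arbitrary class of models, `Q`-form (helper26)

The class is any set `T` of indices; every size `m ∈ [n, 2 n]`; the errors are measured by `Q` with
`(a' - a) W ≤ Q²` on the whole class.
-/

set_option autoImplicit false
set_option linter.unusedSectionVars false

noncomputable section

namespace Crest.Agent.T156.Cas.Chain26

open MeasureTheory Real Set Filter Topology
open Crest.Agent.T157.E Crest.Agent.T157.Casc Crest.Agent.T157.SL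
open Crest.Agent.T156.Soft Crest.Agent.T156.Soft.Fin26 Crest.Agent.T156.Cas.Flow26

/-! ### stage calculus -/

/-- the increments of `f` and `g` between `a` and `a'` differ by at most `e` -/
def Cl (a a' e : ℝ) (f g : ℝ → ℝ) : Prop := |f a' - f a - (g a' - g a)| ≤ e

namespace Cl

variable {a a' e e' : ℝ} {f g k : ℝ → ℝ}

theorem refl (he : 0 ≤ e) : Cl a a' e f f := by simpa [Cl] using he

theorem symm (h : Cl a a' e f g) : Cl a a' e g f := by
  unfold Cl at *; rwa [abs_sub_comm]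

theorem trans (h : Cl a a' e f g) (h' : Cl a a' e' g k) : Cl a a' (e + e') f k :=
  (abs_sub_le _ _ _).trans (add_le_add h h')

theorem mono (h : Cl a a' e f g) (he : e ≤ e') : Cl a a' e' f g := le_trans h he

theorem swap (h : Cl a a' e f g) : Cl a' a e f g := by
  unfold Cl at *
  rw [← abs_neg]
  exact le_of_eq_of_le (congrArg _ (by ring)) h


/-- finitely many stages -/
theorem chain {F : ℕ → ℝ → ℝ} {E : ℕ → ℝ} : ∀ N : ℕ, (∀ i, i < N → Cl a a' (E i) (F (i + 1)) (F i)) →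
    Cl a a' (∑ i ∈ Finset.range N, E i) (F N) (F 0)
  | 0, _ => refl (by simp)
  | N + 1, h => by
    rw [Finset.sum_range_succ, add_comm]
    exact (h N (by omega)).trans (chain N fun i hi => h i (by omega))


/-- one smooth stage -/
theorem path {F : ℝ → ℝ → ℝ} {d G : ℝ → ℝ} {t₀ t₁ : ℝ}
    (hF : ContinuousOn (fun t => F t a' - F t a) (Icc t₀ t₁))
    (hd : ∀ t ∈ Ioo t₀ t₁, HasDerivWithinAt (fun t => F t a' - F t a) (d t) (Ioi t) t)
    (hb : ∀ t ∈ Ioo t₀ t₁, |d t| ≤ G t) (hg : IntegrableOn G (Icc t₀ t₁))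
    (he : ∫ t in t₀..t₁, G t ≤ e) {t : ℝ} (ht : t ∈ Icc t₀ t₁) : Cl a a' e (F t) (F t₀) :=
  path_le hF hd hb hg he t ht


end Cl

/-! ### the class -/

section
variable (β : ℝ) (n : ℕ) {ι : Type} (T : Set ι) (l : ∀ m, ι → Lv (Cube m))
  (L : ∀ m, ι → List (Lv (Cube m)))

/-- `(a' - a) W ≤ Q²` on the whole class, SK included -/
def WBq (a a' Q : ℝ) : Prop := ∀ m, n ≤ m → m ≤ 2 * n →
  (a' - a) * Wd (fun _ => 1) (wl m β 1 1) [] 0 a a' ≤ Q ^ 2 ∧
    ∀ t ∈ T, (a' - a) * Wd (fun _ => 1) (l m t) (L m t) 0 a a' ≤ Q ^ 2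

/-- every member of the class is close to SK of the same size; the flow in the size runs at `t₁` -/
structure ChnQ (t₁ : ι) (a₀ A M δ s : ℝ) : Prop where
  m1 : t₁ ∈ T
  var : ∀ m, n ≤ m → m ≤ 2 * n → ∀ t ∈ T, ∀ x, (l m t).cov x x ≤ M * m
  good : ∀ m, n ≤ m → m < 2 * n → Good (fun _ => 1) (l m t₁) (L m t₁) 0 A (M * m)
  path : ∀ a a' Q : ℝ, a₀ ≤ a → a ≤ a' → a' ≤ A → 0 ≤ Q → WBq β n T l L a a' Q →
    ∀ m, n ≤ m → m ≤ 2 * n → ∀ t ∈ T,
      Cl a a' (δ * (n : ℝ) ^ ((1 : ℝ) / 6) * (Q + s ^ 5)) (Vv (l m t) (L m t)) (Vv (wl m β 1 1) [])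
  flow : ∀ a a' Q : ℝ, a₀ ≤ a → a ≤ a' → a' ≤ A → 0 ≤ Q → WBq β n T l L a a' Q →
    ∀ m, n ≤ m → m < 2 * n →
      |Kv (l m t₁) (L m t₁) (l (m + 1) t₁) (L (m + 1) t₁) a' -
        Kv (l m t₁) (L m t₁) (l (m + 1) t₁) (L (m + 1) t₁) a| ≤
          δ * (n : ℝ) ^ (-(5 : ℝ) / 6) * (Q + s ^ 5)

end



end Crest.Agent.T156.Cas.Chain26

end
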