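import Crest.Agent.T156.Sc_48

-- ▼ part T156/ScV_48
section

/-!
Row 156 (helper48): corollaries of `Sc_48`: tangent form, monotonicity of the gradient, vector form.
-/

set_option autoImplicit false

namespace Crest.Agent.T156.Sc48

open MeasureTheory ProbabilityTheory Filter Topology Set
open Crest.Agent.R339.B Crest.Agent.R339.Var

noncomputable section

theorem head_lev (θ : ℝ) : ∀ L : List (ℝ × ℝ × ℝ),
    headLv 1 (lev θ L) = (1 - θ) * headLv 1 (lev 0 L) + θ * headLv 1 (lev 1 L)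
  | [] => by simp [lev, headLv]
  | p :: L => by simp only [lev_cons, headLv]; ring

theorem adm_lev {θ : ℝ} (hθ0 : 0 ≤ θ) (hθ1 : θ ≤ 1) : ∀ {L : List (ℝ × ℝ × ℝ)},
    Adm 1 (lev 0 L) → Adm 1 (lev 1 L) → Adm 1 (lev θ L)
  | [], _, _ => trivial
  | p :: L, h0, h1 => by
    rw [lev_cons] at h0 h1 ⊢
    obtain ⟨a1, a2, a3, a4⟩ := h0
    obtain ⟨b1, b2, -, b4⟩ := h1
    simp only [zero_mul, add_zero, one_mul] at a1 a2 b1 b2
    refine ⟨?_, ?_, a3, adm_lev hθ0 hθ1 a4 b4⟩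
    · show 0 < p.1 + θ * p.2.1
      rcases le_total 0 p.2.1 with h | h <;> nlinarith
    · show p.1 + θ * p.2.1 ≤ _
      rw [head_lev]
      nlinarith [mul_le_mul_of_nonneg_left a2 (sub_nonneg.2 hθ1), mul_le_mul_of_nonneg_left b2 hθ0]

theorem adm_le : ∀ {l : List (ℝ × ℝ)}, Adm 1 l → ∀ q ∈ l, q.1 ≤ 1
  | [], _, q, hq => by simp at hq
  | p :: l, h, q, hq => by
    rcases List.mem_cons.1 hq with rfl | hq
    · exact h.2.1.trans h.2.2.2.head_le
    · exact adm_le h.2.2.2 q hq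

theorem hyp_of_adm {L : List (ℝ × ℝ × ℝ)} (h0 : Adm 1 (lev 0 L)) (h1 : Adm 1 (lev 1 L)) :
    ∀ p ∈ L, 0 < p.1 ∧ 0 < p.1 + p.2.1 ∧ |p.2.1| ≤ 1 := by
  intro p hp
  have m0 : (p.1 + 0 * p.2.1, p.2.2) ∈ lev 0 L := List.mem_map.2 ⟨p, hp, rfl⟩
  have m1 : (p.1 + 1 * p.2.1, p.2.2) ∈ lev 1 L := List.mem_map.2 ⟨p, hp, rfl⟩
  have a1 := (Adm.pos h0 _ m0).1
  have a2 := adm_le h0 _ m0
  have b1 := (Adm.pos h1 _ m1).1
  have b2 := adm_le h1 _ m1
  simp only [zero_mul, add_zero, one_mul] at a1 a2 b1 b2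
  exact ⟨a1, b1, abs_le.2 ⟨by linarith, by linarith⟩⟩

theorem TT_lev (θ : ℝ) : ∀ L : List (ℝ × ℝ × ℝ), TT (lev θ L) = TT (lev 0 L)
  | [] => rfl
  | p :: L => by rw [lev_cons, lev_cons, TT_cons, TT_cons, TT_lev θ L]

variable {L : List (ℝ × ℝ × ℝ)} {T : ℝ}

/-- strong convexity between two admissible profiles -/
theorem sconv_adm (h0 : Adm 1 (lev 0 L)) (h1 : Adm 1 (lev 1 L)) (hT : TT (lev 0 L) ≤ T) {θ : ℝ}
    (hθ0 : 0 ≤ θ) (hθ1 : θ ≤ 1) :
    PhiL 1 (lev θ L) 0 ≤ (1 - θ) * PhiL 1 (lev 0 L) 0 + θ * PhiL 1 (lev 1 L) 0 -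
      θ * (1 - θ) * (Real.exp (-14 * T) / 16 * RR L) :=
  sconv hθ0 hθ1 (hyp_of_adm h0 h1) (adm_lev hθ0 hθ1 h0 h1) ((TT_lev θ L).trans_le hT)

theorem slope_le {f : ℝ → ℝ} {f' c : ℝ} (hd : HasDerivAt f f' 0)
    (h : ∀ θ, 0 ≤ θ → θ ≤ 1 → f θ ≤ (1 - θ) * f 0 + θ * f 1 - θ * (1 - θ) * c) :
    f' + c ≤ f 1 - f 0 := by
  have t1 : Tendsto (slope f 0) (𝓝[>] 0) (𝓝 f') :=
    (hasDerivAt_iff_tendsto_slope.1 hd).mono_left (nhdsGT_le_nhdsNE 0)
  have t2 : Tendsto (fun θ : ℝ => f 1 - f 0 - (1 - θ) * c) (𝓝[>] 0)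
      (𝓝 (f 1 - f 0 - (1 - 0) * c)) :=
    (Continuous.tendsto (by fun_prop) 0).mono_left nhdsWithin_le_nhds
  have := le_of_tendsto_of_tendsto t1 t2 (by
    filter_upwards [Ioo_mem_nhdsGT (zero_lt_one' ℝ)] with θ hθ
    rw [slope_def_field, sub_zero, div_le_iff₀ hθ.1]
    have := h θ hθ.1.le hθ.2.le
    linarith)
  linarith

theorem lev_hasDerivAt (h0 : Adm 1 (lev 0 L)) (x : ℝ) :
    HasDerivAt (fun t => PhiL 1 (lev t L) x) (wsum (fun s => QQ 1 (lev 0 L) s x) 0 L) 0 := by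
  have hp : ∀ p ∈ L, 0 < p.1 ∧ 0 ≤ p.2.2 := fun p hp => by
    simpa using Adm.pos h0 _ (List.mem_map.2 ⟨p, hp, rfl⟩)
  obtain ⟨r, hr, hr'⟩ := exists_radius L fun p h => (hp p h).1
  obtain ⟨C, hC⟩ := PhiL_lev_hasDerivAt dmFormula one_pos L (fun p h => (hp p h).2) hr'
  have h1 := (hC 0 (by simpa using hr)).1 x
  rwa [AA_eq dmFormula one_pos L (fun p h => (hp p h).2) (fun p h => (hp p h).1) x] at h1

/-- **tangent form**: `Φ(ζ¹) - Φ(ζ⁰) ≥ (1/2) ∫ (ζ¹ - ζ⁰) Γ⁰ + c ∫ D²` -/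
theorem tangent (h0 : Adm 1 (lev 0 L)) (h1 : Adm 1 (lev 1 L)) (hT : TT (lev 0 L) ≤ T) :
    wsum (fun s => QQ 1 (lev 0 L) s 0) 0 L + Real.exp (-14 * T) / 16 * RR L ≤
      PhiL 1 (lev 1 L) 0 - PhiL 1 (lev 0 L) 0 :=
  slope_le (f := fun t => PhiL 1 (lev t L) 0) (lev_hasDerivAt h0 0)
    fun _ a b => sconv_adm h0 h1 hT a b

/-- the reversed path -/
def rv (L : List (ℝ × ℝ × ℝ)) : List (ℝ × ℝ × ℝ) := L.map fun p => (p.1 + p.2.1, -p.2.1, p.2.2)

theorem rv_cons (p : ℝ × ℝ × ℝ) (L : List (ℝ × ℝ × ℝ)) :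
    rv (p :: L) = (p.1 + p.2.1, -p.2.1, p.2.2) :: rv L := rfl

theorem lev_rv (t : ℝ) : ∀ L : List (ℝ × ℝ × ℝ), lev t (rv L) = lev (1 - t) L
  | [] => rfl
  | p :: L => by
    rw [rv_cons, lev_cons, lev_cons, lev_rv t L]
    congr 2
    ring

theorem DD_rv : ∀ L : List (ℝ × ℝ × ℝ), DD (rv L) = -DD L
  | [] => by simp [rv, DD]
  | p :: L => by rw [rv_cons]; simp only [DD, DD_rv L]; ring

theorem RR_rv : ∀ L : List (ℝ × ℝ × ℝ), RR (rv L) = RR L
  | [] => rfl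
  | p :: L => by rw [rv_cons]; simp only [RR, DD_rv L, RR_rv L]; ring

theorem wsum_rv (q : ℝ → ℝ) : ∀ (L : List (ℝ × ℝ × ℝ)) (t : ℝ), wsum q t (rv L) = -wsum q t L
  | [], _ => by simp [rv, wsum]
  | p :: L, t => by rw [rv_cons]; simp only [wsum, wsum_rv q L]; ring

/-- tangent form at the other end -/
theorem tangent' (h0 : Adm 1 (lev 0 L)) (h1 : Adm 1 (lev 1 L)) (hT : TT (lev 0 L) ≤ T) :
    PhiL 1 (lev 1 L) 0 - PhiL 1 (lev 0 L) 0 + Real.exp (-14 * T) / 16 * RR L ≤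
      wsum (fun s => QQ 1 (lev 1 L) s 0) 0 L := by
  have e0 : lev 0 (rv L) = lev 1 L := by rw [lev_rv, sub_zero]
  have e1 : lev 1 (rv L) = lev 0 L := by rw [lev_rv, sub_self]
  have := tangent (L := rv L) (T := T) (e0 ▸ h1) (e1 ▸ h0) (by rw [e0, TT_lev]; exact hT)
  rw [e0, e1, RR_rv, wsum_rv] at this
  linarith

/-- **monotone gradient**: `(1/2) ∫ (ζ¹ - ζ⁰)(Γ¹ - Γ⁰) ≥ (e^{-14T}/8) ∫ D²` -/
theorem grad_mono (h0 : Adm 1 (lev 0 L)) (h1 : Adm 1 (lev 1 L)) (hT : TT (lev 0 L) ≤ T) :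
    Real.exp (-14 * T) / 8 * RR L ≤
      wsum (fun s => QQ 1 (lev 1 L) s 0) 0 L - wsum (fun s => QQ 1 (lev 0 L) s 0) 0 L := by
  have a := tangent h0 h1 hT
  have b := tangent' h0 h1 hT
  linarith

/-! ### vector form -/

/-- the path from `x` to `y` on slices `v` -/
def pth {K : ℕ} (x y v : Fin K → ℝ) : List (ℝ × ℝ × ℝ) := List.ofFn fun k => (x k, y k - x k, v k)







end

end Crest.Agent.T156.Sc48
end

-- ▼ part T156/Mon_48

/-!
Row 156 (helper48): common refinement of two admissible lists, and (MON): the `H⁻¹` monotonicity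
of `ζ ↦ Γ[ζ]` for any two admissible step profiles with the same total time.
-/

set_option autoImplicit false

namespace Crest.Agent.T156.Sc48

open MeasureTheory ProbabilityTheory Filter Topology Set
open Crest.Agent.R164.GC Crest.Agent.R339.B Crest.Agent.R339.Var Crest.Agent.T157.Pf
open Crest.ProbabilityR.InvariantGlass (gaussOp)

noncomputable section

/-- two lists describing the same profile -/
structure Eqv (l l' : List (ℝ × ℝ)) : Prop where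
  phi : PhiL 1 l = PhiL 1 l'
  phiT : ∀ t, 0 ≤ t → PhiT 1 l t = PhiT 1 l' t
  ex : ∀ t, 0 ≤ t → ∀ F K, BC F K → EX 1 l t F = EX 1 l' t F
  lv : ∀ t, 0 ≤ t → lvr 1 l t = lvr 1 l' t
  tt : TT l = TT l'

theorem Eqv.refl (l : List (ℝ × ℝ)) : Eqv l l :=
  ⟨rfl, fun _ _ => rfl, fun _ _ _ _ _ => rfl, fun _ _ => rfl, rfl⟩

theorem Eqv.trans {a b c : List (ℝ × ℝ)} (h : Eqv a b) (h' : Eqv b c) : Eqv a c :=
  ⟨h.phi.trans h'.phi, fun t ht => (h.phiT t ht).trans (h'.phiT t ht),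
    fun t ht F K hF => (h.ex t ht F K hF).trans (h'.ex t ht F K hF),
    fun t ht => (h.lv t ht).trans (h'.lv t ht), h.tt.trans h'.tt⟩

theorem Eqv.symm {a b : List (ℝ × ℝ)} (h : Eqv a b) : Eqv b a :=
  ⟨h.phi.symm, fun t ht => (h.phiT t ht).symm, fun t ht F K hF => (h.ex t ht F K hF).symm,
    fun t ht => (h.lv t ht).symm, h.tt.symm⟩

theorem Eqv.qq {l l' : List (ℝ × ℝ)} (h : Eqv l l') {s : ℝ} (hs : 0 ≤ s) :
    QQ 1 l s = QQ 1 l' s := by
  funext x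
  unfold QQ
  rw [h.phiT s hs, h.ex s hs _ 1 (sq_BC (PhiT_prof one_pos l' s))]

theorem Eqv.cons (p : ℝ × ℝ) {l l' : List (ℝ × ℝ)} (h : Eqv l l') : Eqv (p :: l) (p :: l') := by
  refine ⟨by simp only [PhiL, h.phi], fun t _ => ?_, fun t _ F K hF => ?_, fun t _ => ?_,
    by rw [TT_cons, TT_cons, h.tt]⟩
  · simp only [PhiT, h.phi]
    split_ifs with h1
    · rfl
    · exact h.phiT _ (by linarith)
  · simp only [EX, h.phi]
    split_ifs with h1
    · rfl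
    · rw [h.ex _ (by linarith) F K hF]
  · simp only [lvr]
    split_ifs with h1
    · rfl
    · exact h.lv _ (by linarith)

theorem EX_at_zero {l : List (ℝ × ℝ)} (hl : ∀ q ∈ l, 0 ≤ q.2) (F : ℝ → ℝ) : EX 1 l 0 F = F := by
  cases l with
  | nil => rfl
  | cons p l => simp only [EX]; rw [if_pos (hl p List.mem_cons_self), tE_v0]

theorem eqv_zero {m : ℝ} (hm : m ≠ 0) {l : List (ℝ × ℝ)} (hl : ∀ q ∈ l, 0 ≤ q.2) :
    Eqv ((m, 0) :: l) l := by
  refine ⟨by simp only [PhiL, gaussOp_v0 hm], fun t ht => ?_, fun t ht F K _ => ?_,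
    fun t ht => ?_, by rw [TT_cons, zero_add]⟩
  · rw [PhiT_next hm hl ht, sub_zero]
  · simp only [EX]
    split_ifs with h1
    · obtain rfl : t = 0 := le_antisymm h1 ht
      rw [tE_v0, EX_at_zero hl]
    · rw [tE_v0, sub_zero]
  · simp only [lvr]
    rw [if_neg (not_lt.2 ht), sub_zero]

theorem eqv_split {m d e : ℝ} (hm : m ≠ 0) (he : 0 ≤ e) (hed : e ≤ d) (l : List (ℝ × ℝ)) :
    Eqv ((m, d) :: l) ((m, e) :: (m, d - e) :: l) := by
  have hp := PhiL_prof one_pos l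
  have s : ∀ {v w u : ℝ}, 0 ≤ v → 0 ≤ w → u = v + w →
      gaussOp m u (PhiL 1 l) = gaussOp m v (gaussOp m w (PhiL 1 l)) := fun hv hw e => by
    rw [e, gaussOp_semi hp hm hv hw]
  refine ⟨s he (by linarith) (by ring), fun t _ => ?_, fun t _ F K hF => ?_, fun t _ => ?_,
    by simp only [TT_cons]; ring⟩
  · simp only [PhiT, PhiL]
    by_cases h1 : t ≤ e
    · rw [if_pos h1, if_pos (h1.trans hed)]
      exact s (by linarith) (by linarith) (by ring)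
    · rw [if_neg h1]
      by_cases h2 : t ≤ d
      · rw [if_pos h2, if_pos (by linarith)]
        congr 1; ring
      · rw [if_neg h2, if_neg (by linarith)]
        congr 1; ring
  · simp only [EX, PhiL]
    by_cases h1 : t ≤ e
    · rw [if_pos h1, if_pos (h1.trans hed), s (u := d - t) (v := e - t) (w := d - e) (by linarith)
        (by linarith) (by ring)]
    · rw [if_neg h1]
      by_cases h2 : t ≤ d
      · rw [if_pos h2, if_pos (by linarith), show d - e - (t - e) = d - t by ring,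
          s (u := d - e) (v := t - e) (w := d - t) (by linarith) (by linarith) (by ring),
          ← tE_semi (hp.step m _) hm he (by linarith) hF.eg]
        congr 1; ring
      · rw [if_neg h2, if_neg (by linarith), show t - e - (d - e) = t - d by ring,
          ← tE_semi hp hm he (by linarith) (EX_BC one_pos l _ hF).eg]
        congr 1; ring
  · simp only [lvr]
    by_cases h1 : t < e
    · rw [if_pos h1, if_pos (h1.trans_le hed)]
    · rw [if_neg h1]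
      by_cases h2 : t < d
      · rw [if_pos h2, if_pos (by linarith)]
      · rw [if_neg h2, if_neg (by linarith)]
        congr 1; ring

/-- `L` is a common refinement of `l0`, `l1` -/
structure Ref (l0 l1 : List (ℝ × ℝ)) (L : List (ℝ × ℝ × ℝ)) : Prop where
  a0 : Adm 1 (lev 0 L)
  a1 : Adm 1 (lev 1 L)
  e0 : Eqv l0 (lev 0 L)
  e1 : Eqv l1 (lev 1 L)
  h0 : headLv 1 l0 ≤ headLv 1 (lev 0 L)
  h1 : headLv 1 l1 ≤ headLv 1 (lev 1 L)

theorem Ref.swap {l0 l1 : List (ℝ × ℝ)} {L : List (ℝ × ℝ × ℝ)} (h : Ref l0 l1 L) :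
    Ref l1 l0 (rv L) := by
  have e0 : lev 0 (rv L) = lev 1 L := by rw [lev_rv, sub_zero]
  have e1 : lev 1 (rv L) = lev 0 L := by rw [lev_rv, sub_self]
  exact ⟨e0 ▸ h.a1, e1 ▸ h.a0, e0 ▸ h.e1, e1 ▸ h.e0, e0 ▸ h.h1, e1 ▸ h.h0⟩

theorem adm_len {l : List (ℝ × ℝ)} (h : Adm 1 l) : ∀ q ∈ l, 0 ≤ q.2 := fun q hq => (Adm.pos h q hq).2

theorem ref_aux : ∀ (n : ℕ) (l0 l1 : List (ℝ × ℝ)), l0.length + l1.length ≤ n → Adm 1 l0 →
    Adm 1 l1 → TT l0 = TT l1 → ∃ L, Ref l0 l1 L := by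
  intro n
  induction n with
  | zero =>
    intro l0 l1 hn _ _ _
    obtain rfl : l0 = [] := List.length_eq_zero_iff.1 (by omega)
    obtain rfl : l1 = [] := List.length_eq_zero_iff.1 (by omega)
    exact ⟨[], trivial, trivial, Eqv.refl _, Eqv.refl _, le_rfl, le_rfl⟩
  | succ n ih =>
    have nil : ∀ (q : ℝ × ℝ) (l1 : List (ℝ × ℝ)), l1.length ≤ n → Adm 1 (q :: l1) →
        TT [] = TT (q :: l1) → ∃ L, Ref [] (q :: l1) L := by
      rintro ⟨m, d⟩ l1 hn h1 hT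
      have t0 : TT ([] : List (ℝ × ℝ)) = 0 := rfl
      have t1 := TT_nonneg (adm_len h1.2.2.2)
      have t2 : 0 ≤ d := h1.2.2.1
      rw [TT_cons, t0] at hT
      obtain rfl : d = 0 := by simp only at hT; linarith
      obtain ⟨L, hL⟩ := ih [] l1 (by simpa using hn) trivial h1.2.2.2
        (by rw [t0]; simp only at hT; linarith)
      exact ⟨L, hL.a0, hL.a1, hL.e0, (eqv_zero h1.1.ne' (adm_len h1.2.2.2)).trans hL.e1, hL.h0,
        h1.2.1.trans hL.h1⟩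
    have both : ∀ (p q : ℝ × ℝ) (l0 l1 : List (ℝ × ℝ)), l0.length + (l1.length + 1) ≤ n →
        Adm 1 (p :: l0) → Adm 1 (q :: l1) → TT (p :: l0) = TT (q :: l1) → p.2 ≤ q.2 →
        ∃ L, Ref (p :: l0) (q :: l1) L := by
      rintro ⟨m, d⟩ ⟨m', d'⟩ l0 l1 hn h0 h1 hT hd
      simp only [TT_cons] at hT hd
      obtain ⟨L, hL⟩ := ih l0 ((m', d' - d) :: l1) (by simpa using hn) h0.2.2.2
        ⟨h1.1, h1.2.1, sub_nonneg.2 hd, h1.2.2.2⟩ (by rw [TT_cons]; simp only; linarith)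
      have e0 : lev 0 ((m, m' - m, d) :: L) = (m, d) :: lev 0 L := by simp [lev_cons]
      have e1 : lev 1 ((m, m' - m, d) :: L) = (m', d) :: lev 1 L := by simp [lev_cons]
      refine ⟨(m, m' - m, d) :: L, ?_, ?_, ?_, ?_, ?_, ?_⟩
      · rw [e0]; exact ⟨h0.1, h0.2.1.trans hL.h0, h0.2.2.1, hL.a0⟩
      · rw [e1]; exact ⟨h1.1, hL.h1, h0.2.2.1, hL.a1⟩
      · rw [e0]; exact hL.e0.cons _
      · rw [e1]; exact (eqv_split h1.1.ne' h0.2.2.1 hd l1).trans (hL.e1.cons _)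
      · rw [e0]; exact le_rfl
      · rw [e1]; exact le_rfl
    intro l0 l1 hn h0 h1 hT
    rcases l0 with _ | ⟨p, l0⟩ <;> rcases l1 with _ | ⟨q, l1⟩
    · exact ⟨[], trivial, trivial, Eqv.refl _, Eqv.refl _, le_rfl, le_rfl⟩
    · exact nil q l1 (by simpa using hn) h1 hT
    · obtain ⟨L, hL⟩ := nil p l0 (by simpa using hn) h0 hT.symm
      exact ⟨_, hL.swap⟩
    · simp only [List.length_cons] at hn
      rcases le_total p.2 q.2 with h | h
      · exact both p q l0 l1 (by omega) h0 h1 hT h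
      · obtain ⟨L, hL⟩ := both q p l1 l0 (by omega) h1 h0 hT.symm h
        exact ⟨_, hL.swap⟩

/-- **common refinement** -/
theorem exists_ref {l0 l1 : List (ℝ × ℝ)} (h0 : Adm 1 l0) (h1 : Adm 1 l1) (hT : TT l0 = TT l1) :
    ∃ L, Ref l0 l1 L := ref_aux _ l0 l1 le_rfl h0 h1 hT

/-! ### sums as integrals -/

/-- the increment as a step function -/
def st : List (ℝ × ℝ × ℝ) → ℝ → ℝ
  | [], _ => 0
  | p :: L, s => if s < p.2.2 then p.2.1 else st L (s - p.2.2)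

theorem st_eq : ∀ (L : List (ℝ × ℝ × ℝ)) (s : ℝ), st L s = lvr 1 (lev 1 L) s - lvr 1 (lev 0 L) s
  | [], _ => by simp [st, lev, lvr]
  | p :: L, s => by
    simp only [st, lev_cons, lvr]
    split_ifs
    · ring
    · exact st_eq L _

theorem st_meas : ∀ L : List (ℝ × ℝ × ℝ), Measurable (st L)
  | [] => measurable_const
  | p :: L => Measurable.ite measurableSet_Iio measurable_const
      ((st_meas L).comp (measurable_id.sub_const p.2.2))

theorem st_bd : ∀ L : List (ℝ × ℝ × ℝ), ∃ B, ∀ s, |st L s| ≤ B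
  | [] => ⟨0, fun _ => by simp [st]⟩
  | p :: L => by
    obtain ⟨B, hB⟩ := st_bd L
    refine ⟨max |p.2.1| B, fun s => ?_⟩
    simp only [st]
    split_ifs
    · exact le_max_left _ _
    · exact (hB _).trans (le_max_right _ _)

theorem ii_of_bdd {f : ℝ → ℝ} (hm : Measurable f) {K : ℝ} (hb : ∀ s, |f s| ≤ K) (a b : ℝ) :
    IntervalIntegrable f volume a b :=
  (intervalIntegrable_const (c := K)).mono_fun hm.aestronglyMeasurable
    (Eventually.of_forall fun s => (hb s).trans (le_abs_self K))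

theorem st_mul_ii (L : List (ℝ × ℝ × ℝ)) {q : ℝ → ℝ} (hq : Measurable q) {K : ℝ}
    (hb : ∀ s, |q s| ≤ K) (a b : ℝ) : IntervalIntegrable (fun s => st L s * q s) volume a b := by
  obtain ⟨B, hB⟩ := st_bd L
  refine ii_of_bdd (f := fun s => st L s * q s) ((st_meas L).mul hq) (K := B * K) (fun s => ?_) a b
  rw [abs_mul]
  exact mul_le_mul (hB s) (hb s) (abs_nonneg _) ((abs_nonneg _).trans (hB s))

theorem st_ii (L : List (ℝ × ℝ × ℝ)) (a b : ℝ) : IntervalIntegrable (st L) volume a b := by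
  obtain ⟨B, hB⟩ := st_bd L
  exact ii_of_bdd (st_meas L) hB a b

theorem int_cons {F : ℝ → ℝ} (hF : ∀ a b, IntervalIntegrable F volume a b) (a d T : ℝ) :
    ∫ s in a..(d + T), F s = (∫ s in a..d, F s) + ∫ s in (0:ℝ)..T, F (s + d) := by
  rw [intervalIntegral.integral_comp_add_right, zero_add, add_comm T d,
    intervalIntegral.integral_add_adjacent_intervals (hF _ _) (hF _ _)]

theorem st_shift (p : ℝ × ℝ × ℝ) (L : List (ℝ × ℝ × ℝ)) {s : ℝ} (hs : 0 ≤ s) :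
    st (p :: L) (s + p.2.2) = st L s := by
  simp only [st]
  rw [if_neg (by linarith), add_sub_cancel_right]

theorem TT_lev_nonneg {L : List (ℝ × ℝ × ℝ)} (h : ∀ p ∈ L, 0 ≤ p.2.2) : 0 ≤ TT (lev 0 L) :=
  TT_nonneg fun q hq => by
    obtain ⟨p, hp, rfl⟩ := List.mem_map.1 hq
    exact h p hp

theorem wsum_int {q : ℝ → ℝ} (hq : Measurable q) {K : ℝ} (hb : ∀ s, |q s| ≤ K) :
    ∀ (L : List (ℝ × ℝ × ℝ)), (∀ p ∈ L, 0 ≤ p.2.2) → ∀ t,
    wsum q t L = 1 / 2 * ∫ s in (0:ℝ)..TT (lev 0 L), st L s * q (t + s)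
  | [], _, t => by simp [wsum, st]
  | p :: L, h, t => by
    have hL : ∀ r ∈ L, 0 ≤ r.2.2 := fun r hr => h r (List.mem_cons_of_mem _ hr)
    have hd := h p List.mem_cons_self
    rw [lev_cons, TT_cons, int_cons (st_mul_ii _ (q := fun s => q (t + s))
      (hq.comp (measurable_id.const_add t)) (fun s => hb _))]
    simp only [wsum]
    rw [wsum_int hq hb L hL]
    have e1 : ∫ s in (0:ℝ)..p.2.2, st (p :: L) s * q (t + s) =
        p.2.1 * ∫ s in t..(t + p.2.2), q s := by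
      rw [intervalIntegral.integral_congr_Ioo_of_le hd (g := fun s => p.2.1 * q (t + s))
        (fun s hs => by simp only [st]; rw [if_pos hs.2]), intervalIntegral.integral_const_mul,
        intervalIntegral.integral_comp_add_left q t, add_zero]
    have e2 : ∫ s in (0:ℝ)..TT (lev 0 L), st (p :: L) (s + p.2.2) * q (t + (s + p.2.2)) =
        ∫ s in (0:ℝ)..TT (lev 0 L), st L s * q (t + p.2.2 + s) :=
      intervalIntegral.integral_congr_Ioo_of_le (TT_lev_nonneg hL) fun s hs => by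
        rw [st_shift p L hs.1.le, show t + (s + p.2.2) = t + p.2.2 + s by ring]
    rw [e1, e2]
    ring

theorem tail_first (p : ℝ × ℝ × ℝ) {L : List (ℝ × ℝ × ℝ)} (hL : ∀ r ∈ L, 0 ≤ r.2.2) {s : ℝ}
    (hs : s ≤ p.2.2) : ∫ r in s..(p.2.2 + TT (lev 0 L)), st (p :: L) r =
      p.2.1 * (p.2.2 - s) + ∫ r in (0:ℝ)..TT (lev 0 L), st L r := by
  rw [int_cons (st_ii _), intervalIntegral.integral_congr_Ioo_of_le hs (g := fun _ => p.2.1)
    (fun r hr => by simp only [st]; rw [if_pos hr.2]),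
    intervalIntegral.integral_congr_Ioo_of_le (TT_lev_nonneg hL) (g := st L)
      (fun r hr => st_shift p L hr.1.le)]
  simp [mul_comm]

theorem DD_int : ∀ (L : List (ℝ × ℝ × ℝ)), (∀ p ∈ L, 0 ≤ p.2.2) →
    DD L = ∫ r in (0:ℝ)..TT (lev 0 L), st L r
  | [], _ => by simp [DD, st]
  | p :: L, h => by
    have hL : ∀ r ∈ L, 0 ≤ r.2.2 := fun r hr => h r (List.mem_cons_of_mem _ hr)
    rw [lev_cons, TT_cons, tail_first p hL (h p List.mem_cons_self), ← DD_int L hL]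
    simp only [DD]
    ring

theorem tail_cont (L : List (ℝ × ℝ × ℝ)) (T : ℝ) : Continuous fun s => ∫ r in s..T, st L r := by
  have := (intervalIntegral.continuous_primitive (st_ii L) T).neg
  refine this.congr fun s => ?_
  simp only [Pi.neg_apply]
  rw [intervalIntegral.integral_symm, neg_neg]

theorem RR_int : ∀ (L : List (ℝ × ℝ × ℝ)), (∀ p ∈ L, 0 ≤ p.2.2) →
    RR L = ∫ s in (0:ℝ)..TT (lev 0 L), (∫ r in s..TT (lev 0 L), st L r) ^ 2
  | [], _ => by simp [RR, st]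
  | p :: L, h => by
    have hL : ∀ r ∈ L, 0 ≤ r.2.2 := fun r hr => h r (List.mem_cons_of_mem _ hr)
    have hd := h p List.mem_cons_self
    rw [lev_cons, TT_cons]
    simp only
    rw [int_cons (F := fun s => (∫ r in s..(p.2.2 + TT (lev 0 L)), st (p :: L) r) ^ 2)
      fun a b => ((tail_cont _ _).pow 2).intervalIntegrable a b]
    simp only [RR]
    have e1 : ∫ s in (0:ℝ)..p.2.2, (∫ r in s..(p.2.2 + TT (lev 0 L)), st (p :: L) r) ^ 2 =
        DD L ^ 2 * p.2.2 + DD L * p.2.1 * p.2.2 ^ 2 + p.2.1 ^ 2 * p.2.2 ^ 3 / 3 := by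
      rw [intervalIntegral.integral_congr_Ioo_of_le hd
        (g := fun s => (p.2.1 * (p.2.2 - s) + DD L) ^ 2)
        (fun s hs => by simp only; rw [tail_first p hL hs.2.le, ← DD_int L hL])]
      rw [intervalIntegral.integral_eq_sub_of_hasDerivAt
        (f := fun s => -(DD L ^ 2 * (p.2.2 - s) + DD L * p.2.1 * (p.2.2 - s) ^ 2 +
          p.2.1 ^ 2 * (p.2.2 - s) ^ 3 / 3)) (fun s _ => ?_)
        (Continuous.intervalIntegrable (by fun_prop) _ _)]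
      · ring
      · have a := (hasDerivAt_id' s).const_sub p.2.2
        refine ((((a.const_mul (DD L ^ 2)).fun_add ((a.fun_pow 2).const_mul (DD L * p.2.1))).fun_add
          (((a.fun_pow 3).const_mul (p.2.1 ^ 2)).div_const 3)).fun_neg).congr_deriv ?_
        simp only [Nat.cast_ofNat, Nat.reduceSub, pow_one]
        ring
    have e2 : ∫ s in (0:ℝ)..TT (lev 0 L),
        (∫ r in (s + p.2.2)..(p.2.2 + TT (lev 0 L)), st (p :: L) r) ^ 2 = RR L := by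
      rw [RR_int L hL]
      refine intervalIntegral.integral_congr_Ioo_of_le (TT_lev_nonneg hL) fun s hs => ?_
      rw [add_comm p.2.2, ← intervalIntegral.integral_comp_add_right,
        intervalIntegral.integral_congr_Ioo_of_le hs.2.le (g := st L)
          (fun r hr => st_shift p L (hs.1.trans hr.1).le)]
    rw [e1, e2]
    ring

/-! ### general profiles -/

variable {l0 l1 : List (ℝ × ℝ)} {S T : ℝ}

/-- `J(s) = ∫_s^S (ζ¹ - ζ⁰)` -/
def Jf (l0 l1 : List (ℝ × ℝ)) (S s : ℝ) : ℝ := ∫ r in s..S, (lvr 1 l1 r - lvr 1 l0 r)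

theorem Ref.len {L : List (ℝ × ℝ × ℝ)} (h : Ref l0 l1 L) : ∀ p ∈ L, 0 ≤ p.2.2 := fun p hp =>
  adm_len h.a0 (p.1 + 0 * p.2.1, p.2.2) (List.mem_map.2 ⟨p, hp, rfl⟩)

theorem Ref.st {L : List (ℝ × ℝ × ℝ)} (h : Ref l0 l1 L) {s : ℝ} (hs : 0 ≤ s) :
    st L s = lvr 1 l1 s - lvr 1 l0 s := by rw [st_eq, h.e0.lv s hs, h.e1.lv s hs]

theorem Ref.RR {L : List (ℝ × ℝ × ℝ)} (h : Ref l0 l1 L) (hS : TT l0 = S) :
    RR L = ∫ s in (0:ℝ)..S, Jf l0 l1 S s ^ 2 := by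
  have hT := TT_lev_nonneg h.len
  rw [RR_int L h.len, ← h.e0.tt, hS]
  rw [← h.e0.tt, hS] at hT
  refine intervalIntegral.integral_congr_Ioo_of_le hT fun s hs => ?_
  simp only [Jf]
  rw [intervalIntegral.integral_congr_Ioo_of_le hs.2.le
    (g := fun r => lvr 1 l1 r - lvr 1 l0 r) (fun r hr => h.st (hs.1.trans hr.1).le)]

theorem Ref.wsum {L : List (ℝ × ℝ × ℝ)} (h : Ref l0 l1 L) (hS : TT l0 = S) {l l' : List (ℝ × ℝ)}
    (e : Eqv l l') (hl : Adm 1 l') (x : ℝ) : wsum (fun s => QQ 1 l' s x) 0 L =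
      1 / 2 * ∫ s in (0:ℝ)..S, (lvr 1 l1 s - lvr 1 l0 s) * QQ 1 l s x := by
  have hT := TT_lev_nonneg h.len
  rw [wsum_int (q := fun s => QQ 1 l' s x) ((meas_QQ one_pos l' fun p hp => (Adm.pos hl p hp).1).comp
    (by fun_prop : Measurable fun s : ℝ => (s, x))) (K := 1) (fun s => (QQ_BC one_pos l' s).bd x)
    L h.len, ← h.e0.tt, hS]
  rw [← h.e0.tt, hS] at hT
  congr 1
  refine intervalIntegral.integral_congr_Ioo_of_le hT fun s hs => ?_
  simp only [zero_add]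
  rw [h.st hs.1.le, e.qq hs.1.le]

/-- **tangent form** for any two admissible profiles -/
theorem tangent_gen (h0 : Adm 1 l0) (h1 : Adm 1 l1) (e0 : TT l0 = S) (e1 : TT l1 = S)
    (hT : S ≤ T) : 1 / 2 * (∫ s in (0:ℝ)..S, (lvr 1 l1 s - lvr 1 l0 s) * QQ 1 l0 s 0) +
      Real.exp (-14 * T) / 16 * ∫ s in (0:ℝ)..S, Jf l0 l1 S s ^ 2 ≤ PhiL 1 l1 0 - PhiL 1 l0 0 := by
  obtain ⟨L, h⟩ := exists_ref h0 h1 (e0.trans e1.symm)
  have := tangent h.a0 h.a1 (T := T) (by rw [← h.e0.tt, e0]; exact hT)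
  rwa [h.wsum e0 h.e0 h.a0, h.RR e0, ← h.e0.phi, ← h.e1.phi] at this

/-- **(MON)** for any two admissible profiles -/
theorem mon_gen (h0 : Adm 1 l0) (h1 : Adm 1 l1) (e0 : TT l0 = S) (e1 : TT l1 = S) (hT : S ≤ T) :
    Real.exp (-14 * T) / 4 * ∫ s in (0:ℝ)..S, Jf l0 l1 S s ^ 2 ≤
      (∫ s in (0:ℝ)..S, (lvr 1 l1 s - lvr 1 l0 s) * QQ 1 l1 s 0) -
        ∫ s in (0:ℝ)..S, (lvr 1 l1 s - lvr 1 l0 s) * QQ 1 l0 s 0 := by
  obtain ⟨L, h⟩ := exists_ref h0 h1 (e0.trans e1.symm)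
  have := grad_mono h.a0 h.a1 (T := T) (by rw [← h.e0.tt, e0]; exact hT)
  rw [h.wsum e0 h.e0 h.a0, h.wsum e0 h.e1 h.a1, h.RR e0] at this
  linarith

theorem lvr_meas : ∀ l : List (ℝ × ℝ), Measurable (lvr 1 l)
  | [] => measurable_const
  | p :: l => Measurable.ite measurableSet_Iio measurable_const
      ((lvr_meas l).comp (measurable_id.sub_const p.2))

theorem lvr_mem : ∀ {l : List (ℝ × ℝ)}, Adm 1 l → ∀ s, headLv 1 l ≤ lvr 1 l s ∧ lvr 1 l s ≤ 1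
  | [], _, _ => ⟨le_rfl, le_rfl⟩
  | p :: l, h, s => by
    simp only [lvr]
    split_ifs
    · exact ⟨le_rfl, h.head_le⟩
    · exact ⟨h.2.1.trans (lvr_mem h.2.2.2 _).1, (lvr_mem h.2.2.2 _).2⟩

theorem lvr_pos {l : List (ℝ × ℝ)} (h : Adm 1 l) (s : ℝ) : 0 < lvr 1 l s :=
  (h.head_pos one_pos).trans_le (lvr_mem h s).1

theorem lvr_mono : ∀ {l : List (ℝ × ℝ)}, Adm 1 l → Monotone (lvr 1 l)
  | [], _ => monotone_const
  | p :: l, h => by
    intro s t hst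
    simp only [lvr]
    split_ifs with h1 h2 h2
    · exact le_rfl
    · exact h.2.1.trans (lvr_mem h.2.2.2 _).1
    · exact absurd (hst.trans_lt h2) h1
    · exact lvr_mono h.2.2.2 (by linarith)

theorem lvr_sub_le (h0 : Adm 1 l0) (h1 : Adm 1 l1) (s : ℝ) : |lvr 1 l1 s - lvr 1 l0 s| ≤ 1 := by
  have := lvr_pos h0 s
  have := lvr_pos h1 s
  have := (lvr_mem h0 s).2
  have := (lvr_mem h1 s).2
  exact abs_le.2 ⟨by linarith, by linarith⟩

theorem dz_mul_ii (h0 : Adm 1 l0) (h1 : Adm 1 l1) {q : ℝ → ℝ} (hq : Measurable q) {K : ℝ}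
    (hb : ∀ s, |q s| ≤ K) (a b : ℝ) :
    IntervalIntegrable (fun s => (lvr 1 l1 s - lvr 1 l0 s) * q s) volume a b := by
  refine ii_of_bdd (f := fun s => (lvr 1 l1 s - lvr 1 l0 s) * q s)
    (((lvr_meas l1).sub (lvr_meas l0)).mul hq) (K := 1 * K) (fun s => ?_) a b
  rw [abs_mul]
  exact mul_le_mul (lvr_sub_le h0 h1 s) (hb s) (abs_nonneg _) zero_le_one

theorem QQ_meas {l : List (ℝ × ℝ)} (h : Adm 1 l) (x : ℝ) : Measurable fun s => QQ 1 l s x :=
  (meas_QQ one_pos l fun p hp => (Adm.pos h p hp).1).comp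
    (by fun_prop : Measurable fun s : ℝ => (s, x))

/-- the residual `r[ζ](σ) = Γ[ζ](σ) - (σ - h(ζ(σ)))/b` -/
def res (b : ℝ) (h : ℝ → ℝ) (l : List (ℝ × ℝ)) (s : ℝ) : ℝ :=
  QQ 1 l s 0 - (s - h (lvr 1 l s)) / b



end

end Crest.Agent.T156.Sc48
private theorem rz_3ec799aaf9 : type_of% @_root_.Crest.Agent.T156.Sc48.st.eq_def := @_root_.Crest.Agent.T156.Sc48.st.eq_def -- L192
private theorem rz_35c1b26420 : type_of% @_root_.Crest.Agent.T156.Sc48.st.eq_1 := @_root_.Crest.Agent.T156.Sc48.st.eq_1 -- L192
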