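import Crest.Agent.T156.Pder_69
import Crest.Agent.T156.Mon_48
import Crest.Agent.T156.PrDef_28

-- ▼ part T156/KerA_31
section

/-!
Row 156 (helper31): dependence of the one-site Parisi data on the tilts, `L¹` norm, two lists on
the same slices.  All space derivatives, derivatives of conditional expectations, and the
comparison of the laws with the parity gain.
-/

set_option autoImplicit false

namespace Crest.Agent.T156.Ker

open MeasureTheory ProbabilityTheory Filter Topology Set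
open Crest.Agent.R164.GC Crest.Agent.R339.B Crest.Agent.R339.Var Crest.Agent.T157.Pf
open Crest.Agent.T156.Pp
open Crest.ProbabilityR.InvariantGlass (gaussOp)

noncomputable section

/-- same slices -/
def Sl (l l' : List (ℝ × ℝ)) : Prop := List.Forall₂ (fun p p' : ℝ × ℝ => p.2 = p'.2) l l'

/-- `∫ |ζ' - ζ|` -/
def dN : List (ℝ × ℝ) → List (ℝ × ℝ) → ℝ
  | p :: l, p' :: l' => |p'.1 - p.1| * p.2 + dN l l'
  | _, _ => 0

/-- `∑ |ζ' - ζ| · length · (end time)` -/
def dW : List (ℝ × ℝ) → List (ℝ × ℝ) → ℝ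
  | p :: l, p' :: l' => p.2 * dN (p :: l) (p' :: l') + dW l l'
  | _, _ => 0

/-- `∫ ζ` -/
def Zs : List (ℝ × ℝ) → ℝ
  | [] => 0
  | p :: l => p.1 * p.2 + Zs l

/-- nonnegative lengths -/
def Nn (l : List (ℝ × ℝ)) : Prop := ∀ p ∈ l, 0 ≤ p.2

theorem Nn.tail {p : ℝ × ℝ} {l : List (ℝ × ℝ)} (h : Nn (p :: l)) : Nn l :=
  fun q hq => h q (List.mem_cons_of_mem _ hq)

theorem Nn.head {p : ℝ × ℝ} {l : List (ℝ × ℝ)} (h : Nn (p :: l)) : 0 ≤ p.2 :=
  h p List.mem_cons_self

theorem nn_of_adm {l : List (ℝ × ℝ)} (h : Adm 1 l) : Nn l := fun q hq => (Adm.pos h q hq).2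

theorem dN_nonneg : ∀ {l : List (ℝ × ℝ)} (l' : List (ℝ × ℝ)), Nn l → 0 ≤ dN l l'
  | [], _, _ => by simp [dN]
  | _ :: _, [], _ => by simp [dN]
  | _ :: _, _ :: l', h => add_nonneg (mul_nonneg (abs_nonneg _) h.head) (dN_nonneg l' h.tail)

theorem dW_nonneg : ∀ {l : List (ℝ × ℝ)} (l' : List (ℝ × ℝ)), Nn l → 0 ≤ dW l l'
  | [], _, _ => by simp [dW]
  | _ :: _, [], _ => by simp [dW]
  | _ :: _, _ :: l', h => add_nonneg (mul_nonneg h.head (dN_nonneg _ h)) (dW_nonneg l' h.tail)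

theorem dW_le : ∀ {l : List (ℝ × ℝ)} (l' : List (ℝ × ℝ)), Nn l → dW l l' ≤ TT l * dN l l'
  | [], _, _ => by simp [dW, dN]
  | _ :: _, [], _ => by simp [dW, dN]
  | p :: l, p' :: l', h => by
    have h1 := dW_le l' h.tail
    have h2 := mul_nonneg (TT_nonneg h.tail) (mul_nonneg (abs_nonneg (p'.1 - p.1)) h.head)
    rw [TT_cons]
    simp only [dW, dN]
    nlinarith

theorem dN_append {M M' : List (ℝ × ℝ)} (h : Sl M M') (R R' : List (ℝ × ℝ)) :
    dN (M ++ R) (M' ++ R') = dN M M' + dN R R' := by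
  induction h with
  | nil => simp [dN]
  | cons _ _ ih => simp only [List.cons_append, dN, ih]; ring

theorem Sl.append {M M' R R' : List (ℝ × ℝ)} (h : Sl M M') (h' : Sl R R') :
    Sl (M ++ R) (M' ++ R') := List.rel_append h h'

theorem Sl.tt {l l' : List (ℝ × ℝ)} (h : Sl l l') : TT l' = TT l := by
  induction h with
  | nil => rfl
  | cons h1 _ ih => rw [TT_cons, TT_cons, ih, h1]

theorem TT_append (M R : List (ℝ × ℝ)) : TT (M ++ R) = TT M + TT R := by simp [TT]

theorem adm_head {p : ℝ × ℝ} {l : List (ℝ × ℝ)} (h : Adm 1 (p :: l)) {v : ℝ} (hv : 0 ≤ v) :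
    Adm 1 ((p.1, v) :: l) := ⟨h.1, h.2.1, hv, h.2.2.2⟩

theorem abs_sum_le {j k : ℕ} (hj : j ≤ k) {a b : ℕ → ℝ} {B : ℝ} (hB : 0 ≤ B)
    (h : ∀ i < j, |a i * b i| ≤ B) :
    |∑ i ∈ Finset.range j, (j.choose (i + 1) : ℝ) * a i * b i| ≤ 2 ^ k * B := by
  have h1 : ∑ i ∈ Finset.range j, (j.choose (i + 1) : ℝ) ≤ 2 ^ k := by
    have h2 := Nat.sum_range_choose j
    rw [Finset.sum_range_succ'] at h2
    have h3 : ∑ i ∈ Finset.range j, j.choose (i + 1) ≤ 2 ^ k :=
      (Nat.le.intro h2).trans (Nat.pow_le_pow_right two_pos hj)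
    exact_mod_cast h3
  refine (Finset.abs_sum_le_sum_abs _ _).trans ?_
  refine le_trans (Finset.sum_le_sum fun i hi => ?_)
    ((Finset.sum_mul _ _ _).symm.trans_le (mul_le_mul_of_nonneg_right h1 hB))
  rw [mul_assoc, abs_mul, Nat.abs_cast]
  exact mul_le_mul_of_nonneg_left (h i (Finset.mem_range.1 hi)) (Nat.cast_nonneg _)

theorem gron_step {A N f d c t : ℝ} (hA : 0 ≤ A) (hc : 0 ≤ c) (ht : 0 ≤ t) (hd : 0 ≤ d)
    (hf : 0 ≤ f) : (A * N * Real.exp (2 * c * t) + A * f * d) * Real.exp (2 * c * d) ≤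
      A * (f * d + N) * Real.exp (2 * c * (d + t)) := by
  have e1 : 1 ≤ Real.exp (2 * c * t) := Real.one_le_exp (by positivity)
  rw [show 2 * c * (d + t) = 2 * c * t + 2 * c * d by ring, Real.exp_add, ← mul_assoc]
  refine mul_le_mul_of_nonneg_right ?_ (Real.exp_pos _).le
  have : 0 ≤ A * f * d := by positivity
  nlinarith

/-- **all space derivatives are Lipschitz in `ζ` for the `L¹` norm** -/
theorem Dn_sl (T : ℝ) (k : ℕ) : ∃ C : ℝ, 1 ≤ C ∧ ∀ l l' : List (ℝ × ℝ), Sl l l' → Adm 1 l →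
    Adm 1 l' → TT l ≤ T → ∀ j ≤ k, ∀ x,
      |Dn j (PhiL 1 l') x - Dn j (PhiL 1 l) x| ≤ C * dN l l' := by
  obtain ⟨C0, h1, hC⟩ := Dn_bound T (k + 2)
  set c : ℝ := 2 ^ k * (2 * C0) + C0 with hc
  set A : ℝ := 2 ^ k * C0 ^ 2 + C0 with hA
  have hC0 : 0 ≤ C0 := by linarith
  have hc0 : 0 ≤ c := by positivity
  have hA1 : 1 ≤ A := by
    have : 0 ≤ 2 ^ k * C0 ^ 2 := by positivity
    linarith
  have hA0 : 0 ≤ A := by linarith
  have key : ∀ l l' : List (ℝ × ℝ), Sl l l' → Adm 1 l → Adm 1 l' → TT l ≤ T → ∀ j ≤ k, ∀ x,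
      |Dn j (PhiL 1 l') x - Dn j (PhiL 1 l) x| ≤ A * dN l l' * Real.exp (2 * c * TT l) := by
    intro l l' hs
    induction hs with
    | nil => intro _ _ _ j _ x; simp [dN]
    | @cons p p' l l' hp hl ih =>
      intro h h' hT j hj x
      have hP := PhiL_prof one_pos l
      have hP' := PhiL_prof one_pos l'
      have hT0 := Min62.TT_nn h.2.2.2
      have hd := h.2.2.1
      have htt : TT l' = TT l := Sl.tt hl
      rw [TT_cons] at hT ⊢
      have hN0 := dN_nonneg l' (nn_of_adm h.2.2.2)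
      have low : ∀ v ∈ Icc 0 p.2, ∀ i < k + 2, ∀ y, |Dn i (gaussOp p.1 v (PhiL 1 l)) y| ≤ C0 :=
        fun v hv i hi y => hC i hi ((p.1, v) :: l) (adm_head h hv.1)
          (by rw [TT_cons]; linarith [hv.2]) y
      have low' : ∀ v ∈ Icc 0 p.2, ∀ i < k + 2, ∀ y, |Dn i (gaussOp p'.1 v (PhiL 1 l')) y| ≤ C0 :=
        fun v hv i hi y => hC i hi ((p'.1, v) :: l') (adm_head h' hv.1)
          (by rw [TT_cons]; linarith [hv.2]) y
      have hB : ∃ B, ∀ (i : Fin (k + 1)) v y, |Dn i (gaussOp p'.1 v (PhiL 1 l')) y -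
          Dn i (gaussOp p.1 v (PhiL 1 l)) y| ≤ B := by
        have : ∀ i : Fin (k + 1), ∃ B, ∀ v y, |Dn i (gaussOp p'.1 v (PhiL 1 l')) y -
            Dn i (gaussOp p.1 v (PhiL 1 l)) y| ≤ B := fun i => by
          obtain ⟨B, hB⟩ := Ak_bdd hP p.1 hP.bd i
          obtain ⟨B', hB'⟩ := Ak_bdd hP' p'.1 hP'.bd i
          rw [Ak_eq hP] at hB
          rw [Ak_eq hP'] at hB'
          exact ⟨B' + B, fun v y => (abs_sub _ _).trans (add_le_add (hB' v y) (hB v y))⟩
        choose B hB using this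
        exact ⟨∑ i, |B i|, fun i v y => (hB i v y).trans ((le_abs_self _).trans
          (Finset.single_le_sum (f := fun i => |B i|) (fun _ _ => abs_nonneg _)
            (Finset.mem_univ i)))⟩
      obtain ⟨B, hB⟩ := hB
      have g := gronwall hP h.1.ne' (ι := Fin (k + 1))
        (F := fun i v y => Dn i (gaussOp p'.1 v (PhiL 1 l')) y - Dn i (gaussOp p.1 v (PhiL 1 l)) y)
        (fun i => (Lip62.TB_change (tb_Dn hP' p'.1 i)).sub (tb_Dn hP p.1 i))
        (c := c) (f := A * |p'.1 - p.1|) (M := A * dN l l' * Real.exp (2 * c * TT l))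
        hc0 (by positivity) (by positivity) hd hB
        (fun v hv N hN hF i y => ?_) (fun i y => ?_) ⟨j, Nat.lt_succ_of_le hj⟩ x
      · refine le_trans (le_of_eq ?_) (g.trans (gron_step hA0 hc0 hT0 hd (abs_nonneg _)))
        simp only [PhiL, hp]
      · have hi : (i : ℕ) ≤ k := Nat.lt_succ_iff.1 i.2
        have hF' : ∀ a ≤ k, ∀ y, |Dn a (gaussOp p'.1 v (PhiL 1 l')) y -
            Dn a (gaussOp p.1 v (PhiL 1 l)) y| ≤ N := fun a ha => hF ⟨a, Nat.lt_succ_of_le ha⟩
        have he0 := abs_nonneg (p'.1 - p.1)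
        have d1 := Lip62.drift_le hP hP' h.1 (Lip62.head_le_one h) (e := |p'.1 - p.1|) (N := N)
          (by rw [abs_sub_comm]) (v := v) (x := y) (by
            rw [abs_sub_comm, ← Dn_zero, ← Dn_zero]; exact hF' 0 (Nat.zero_le _) y)
        have d2 := mul_le_mul d1 (low' v hv (i + 1) (by omega) y) (abs_nonneg _) (by positivity)
        rw [← abs_mul] at d2
        set S' := ∑ a ∈ Finset.range i, ((i : ℕ).choose (a + 1) : ℝ) *
          Dn (a + 1) (gaussOp p'.1 v (PhiL 1 l')) y * Dn (i - a) (gaussOp p'.1 v (PhiL 1 l')) y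
          with hS'
        set S := ∑ a ∈ Finset.range i, ((i : ℕ).choose (a + 1) : ℝ) *
          Dn (a + 1) (gaussOp p.1 v (PhiL 1 l)) y * Dn (i - a) (gaussOp p.1 v (PhiL 1 l)) y with hS
        have s1 : |S'| ≤ 2 ^ k * C0 ^ 2 := abs_sum_le hi (by positivity) fun a ha => by
          rw [abs_mul, sq]
          exact mul_le_mul (low' v hv _ (by omega) y) (low' v hv _ (by omega) y) (abs_nonneg _) hC0
        have s2 : |S' - S| ≤ 2 ^ k * (2 * C0 * N) := by
          have := abs_sum_le hi (b := fun _ => 1) (B := 2 * C0 * N) (a := fun a =>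
            Dn (a + 1) (gaussOp p'.1 v (PhiL 1 l')) y * Dn (i - a) (gaussOp p'.1 v (PhiL 1 l')) y -
            Dn (a + 1) (gaussOp p.1 v (PhiL 1 l)) y * Dn (i - a) (gaussOp p.1 v (PhiL 1 l)) y)
            (by positivity) fun a ha => by
              have a1 := mul_le_mul (hF' (a + 1) (by omega) y) (low' v hv (i - a) (by omega) y)
                (abs_nonneg _) hN
              have a2 := mul_le_mul (low v hv (a + 1) (by omega) y) (hF' (i - a) (by omega) y)
                (abs_nonneg _) hC0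
              rw [← abs_mul] at a1 a2
              refine le_trans (le_of_eq ?_) ((abs_add_le _ _).trans
                ((add_le_add a1 a2).trans_eq (by ring)))
              congr 1
              ring
          refine le_trans (le_of_eq ?_) this
          rw [hS', hS, ← Finset.sum_sub_distrib]
          congr 1
          exact Finset.sum_congr rfl fun a _ => by ring
        have s3 := mul_le_mul_of_nonneg_left s1 he0
        have s4 := mul_le_mul (Lip62.head_le_one h) s2 (abs_nonneg _) zero_le_one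
        rw [← abs_of_pos h.1, ← abs_mul] at s4
        rw [← abs_mul] at s3
        have t1 := abs_le.1 d2
        have t2 := abs_le.1 s3
        have t3 := abs_le.1 s4
        rw [abs_le, hc, hA]
        constructor <;> linarith [t1.1, t1.2, t2.1, t2.2, t3.1, t3.2]
      · simp only [gaussOp_v0 h.1.ne', gaussOp_v0 h'.1.ne']
        exact ih h.2.2.2 h'.2.2.2 (by linarith) i (Nat.lt_succ_iff.1 i.2) y
  refine ⟨A * Real.exp (2 * c * |T|), one_le_mul_of_one_le_of_one_le hA1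
    (Real.one_le_exp (by positivity)), fun l l' hs h h' hT j hj x =>
    (key l l' hs h h' hT j hj x).trans ?_⟩
  have := dN_nonneg l' (nn_of_adm h)
  rw [mul_right_comm]
  gcongr
  exact hT.trans (le_abs_self T)

/-- expectation at the end of `M`; the remaining blocks are `R` -/
def EP (R : List (ℝ × ℝ)) (F : ℝ → ℝ) : List (ℝ × ℝ) → ℝ → ℝ
  | [] => F
  | p :: M => tE p.1 p.2 (PhiL 1 (M ++ R)) (EP R F M)

theorem EP_bd (R : List (ℝ × ℝ)) {F : ℝ → ℝ} (hF : BD F) : ∀ M, BD (EP R F M)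
  | [] => hF
  | _ :: M => (PhiL_prof one_pos _).tE_bd _ _ (EP_bd R hF M)

theorem tE_even {Φ P : ℝ → ℝ} (he : ∀ x, Φ (-x) = Φ x) (hP : ∀ x, P (-x) = P x) (a v x : ℝ) :
    tE a v Φ P (-x) = tE a v Φ P x := by
  unfold tE
  rw [H_neg, H_neg]
  simp only [he, hP]

theorem PhiL_even : ∀ (l : List (ℝ × ℝ)) (x : ℝ), PhiL 1 l (-x) = PhiL 1 l x
  | [], x => phi0_even 1 x
  | p :: l, x => gaussOp_even (PhiL_even l) p.1 p.2 x

theorem EP_even (R : List (ℝ × ℝ)) {F : ℝ → ℝ} (hF : ∀ x, F (-x) = F x) :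
    ∀ M x, EP R F M (-x) = EP R F M x
  | [] => hF
  | _ :: M => tE_even (PhiL_even _) (EP_even R hF M) _ _

/-- derivatives of conditional expectations -/
theorem EP_der (T : ℝ) (k : ℕ) : ∃ C : ℝ, 1 ≤ C ∧ ∀ (M R : List (ℝ × ℝ)) (F : ℝ → ℝ) (K : ℝ),
    Adm 1 (M ++ R) → TT (M ++ R) ≤ T → BD F →
    (∀ j, 1 ≤ j → j ≤ k → ∀ x, |iteratedDeriv j F x| ≤ K) →
    ∀ j, 1 ≤ j → j ≤ k → ∀ x, |iteratedDeriv j (EP R F M) x| ≤ C * K := by
  obtain ⟨C0, h1, hC⟩ := Dn_bound T (k + 1)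
  set c : ℝ := 2 ^ k * C0 with hc
  have hC0 : 0 ≤ C0 := by linarith
  have hc0 : 0 ≤ c := by positivity
  have key : ∀ (R : List (ℝ × ℝ)) (F : ℝ → ℝ) (K : ℝ), BD F →
      (∀ j, 1 ≤ j → j ≤ k → ∀ x, |iteratedDeriv j F x| ≤ K) → ∀ M : List (ℝ × ℝ),
      Adm 1 (M ++ R) → TT (M ++ R) ≤ T → ∀ j, 1 ≤ j → j ≤ k → ∀ x,
        |iteratedDeriv j (EP R F M) x| ≤ K * Real.exp (2 * c * TT M) := by
    intro R F K hF hK M
    induction M with
    | nil => intro _ _ j h1 h2 x; simpa [TT, EP] using hK j h1 h2 x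
    | cons p M ih =>
      intro h hT j j1 j2 x
      rw [List.cons_append] at h hT
      have hP := PhiL_prof one_pos (M ++ R)
      have hd := h.2.2.1
      have hK0 : 0 ≤ K := (abs_nonneg _).trans (hK j j1 j2 0)
      rw [TT_cons] at hT ⊢
      have hE := EP_bd R hF M
      have hB : ∃ B, ∀ (i : {i // 1 ≤ i ∧ i ≤ k}) v y,
          |Ak (PhiL 1 (M ++ R)) p.1 (EP R F M) i v y| ≤ B := by
        choose B hB using fun i => Ak_bdd hP p.1 hE i
        exact ⟨∑ i ∈ Finset.range (k + 1), |B i|, fun i v y => (hB i v y).trans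
          ((le_abs_self _).trans (Finset.single_le_sum (f := fun i => |B i|)
            (fun _ _ => abs_nonneg _) (Finset.mem_range.2 (Nat.lt_succ_of_le i.2.2))))⟩
      obtain ⟨B, hB⟩ := hB
      have g := gronwall hP h.1.ne' (ι := {i // 1 ≤ i ∧ i ≤ k})
        (F := fun i => Ak (PhiL 1 (M ++ R)) p.1 (EP R F M) i) (fun i => tb_Ak hP p.1 hE i)
        (c := c) (f := 0) (M := K * Real.exp (2 * c * TT M)) hc0 le_rfl (by positivity) hd hB
        (fun v hv N hN hF i y => ?_) (fun i y => ?_) ⟨j, j1, j2⟩ x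
      · refine g.trans_eq ?_
        rw [zero_mul, add_zero, mul_assoc, ← Real.exp_add]
        congr 2
        ring
      · unfold LA
        rw [abs_mul, abs_neg, abs_of_pos h.1, add_zero, hc, mul_assoc]
        refine (mul_le_of_le_one_left (abs_nonneg _) (Lip62.head_le_one h)).trans
          (abs_sum_le i.2.2 (by positivity) fun a ha => ?_)
        rw [abs_mul, Ak_eq hP]
        have := i.2.2
        exact mul_le_mul (hC (a + 1) (by omega) ((p.1, v) :: (M ++ R)) (adm_head h hv.1)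
          (by rw [TT_cons]; linarith [hv.2]) y) (hF ⟨i - a, by omega, by omega⟩ y) (abs_nonneg _) hC0
      · have e : At (PhiL 1 (M ++ R)) p.1 (EP R F M) 0 = EP R F M := tE_v0 _ _ _
        unfold Ak
        rw [e]
        exact ih h.2.2.2 (by linarith) i i.2.1 i.2.2 y
  refine ⟨Real.exp (2 * c * |T|), Real.one_le_exp (by positivity),
    fun M R F K h hT hF hK j j1 j2 x => (key R F K hF hK M h hT j j1 j2 x).trans ?_⟩
  have hK0 : 0 ≤ K := (abs_nonneg _).trans (hK j j1 j2 0)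
  have h2 : 0 ≤ TT R := TT_nonneg fun q hq => nn_of_adm h q (List.mem_append_right _ hq)
  rw [TT_append] at hT
  rw [mul_comm]
  gcongr
  linarith [le_abs_self T]

theorem odd_le {g : ℝ → ℝ} {L : ℝ} (hg : Differentiable ℝ g) (h0 : g 0 = 0)
    (hb : ∀ x, |deriv g x| ≤ L) (y : ℝ) : |g y| ≤ L * |y| := by
  simpa [h0] using lip_of_deriv_le (fun x => (hg x).hasDerivAt) hb y 0

theorem zero_of_odd {g : ℝ → ℝ} (h : ∀ x, g (-x) = -g x) : g 0 = 0 := by
  have := h 0
  rw [neg_zero] at this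
  linarith

section block

variable {Φ : ℝ → ℝ} (h : Prof Φ) {m : ℝ} (hm : 0 < m)
include h hm

theorem VV_le {F G : ℝ → ℝ → ℝ} (hF : UG F) (hG : UG G) {d τ : ℝ} (h0 : 0 ≤ τ) (h1 : τ ≤ d)
    {a c : ℝ} (hle : ∀ y, F (d - τ) y ≤ a + c * G (d - τ) y) (x : ℝ) :
    VV Φ m d F x τ ≤ a + c * VV Φ m d G x τ := by
  have hl := (h.step m (d - τ)).lip
  rw [VV_eq h hm.ne' _ h0 h1, VV_eq h hm.ne' _ h0 h1, ← tE_const_mul, ← tE_const hl m τ a x,
    ← tE_add hl m τ (EG.const a) ((hG.eg _).const_mul c)]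
  exact tE_mono hl m τ (hF.eg _) ((EG.const a).add ((hG.eg _).const_mul c)) hle x

theorem VV_abs {F G : ℝ → ℝ → ℝ} (hF : UG F) (hG : UG G) {d τ : ℝ} (h0 : 0 ≤ τ) (h1 : τ ≤ d)
    {a c : ℝ} (hle : ∀ y, |F (d - τ) y| ≤ a + c * G (d - τ) y) (x : ℝ) :
    |VV Φ m d F x τ| ≤ a + c * VV Φ m d G x τ := by
  have a1 := VV_le h hm hF hG h0 h1 (fun y => (le_abs_self _).trans (hle y)) x
  have a2 := VV_le h hm (hF.const_mul (-1)) hG h0 h1 (a := a) (c := c)
    (fun y => by linarith [neg_abs_le (F (d - τ) y), hle y]) x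
  rw [VV_eq h hm.ne' _ h0 h1, tE_const_mul, ← VV_eq h hm.ne' F h0 h1] at a2
  rw [abs_le]
  constructor <;> linarith

/-- second moment inside a block -/
theorem VV_sq (hm1 : m ≤ 1) {d : ℝ}
    (hu : ∀ v ∈ Icc 0 d, ∀ y, |deriv (gaussOp m v Φ) y| ≤ |y|) {τ : ℝ} (h0 : 0 ≤ τ) (h1 : τ ≤ d)
    (x : ℝ) : VV Φ m d (fun _ y => y * y) x τ ≤ (x ^ 2 + τ) * Real.exp (2 * τ) := by
  have t : TB Φ m (fun _ y => y * y) (fun v y => y * Dk Φ m 1 v y + y * Dk Φ m 1 v y + 1 * 1)
      (fun _ y => 1 * y + y * 1) := (tb_id Φ m).mul (tb_id Φ m)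
  have hd := h0.trans h1
  have mono := monotoneOn_of_block (a := 0) (b := d)
    (f := fun τ => -(Real.exp (-2 * (τ - 0)) * (VV Φ m d (fun _ y => y * y) x τ + 1 / 2)))
    ((by fun_prop : Continuous fun τ : ℝ => Real.exp (-2 * (τ - 0))).mul
      ((VV_cont h t.ug d x).add continuous_const)).neg.continuousOn
    (fun τ hτ => by
      have e := exp_hasDerivAt 1 (-2) 0 τ
      simp only [one_mul] at e
      exact (e.fun_mul ((VV_deriv h t hτ.1 hτ.2 x).add_const (1 / 2))).fun_neg)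
    (fun τ hτ => by
      have a := VV_le h hm (t.ugL h) t.ug hτ.1.le hτ.2.le (a := 1) (c := 2) (fun y => by
        have b1 := hu (d - τ) ⟨by linarith [hτ.2], by linarith [hτ.1]⟩ y
        have b2 : y * Dk Φ m 1 (d - τ) y ≤ y * y := by
          rw [D1_eq h, Lip62.At_deriv h]
          calc _ ≤ |y * (m * deriv (gaussOp m (d - τ) Φ) y)| := le_abs_self _
            _ = |y| * (m * |deriv (gaussOp m (d - τ) Φ) y|) := by
                rw [abs_mul, abs_mul, abs_of_pos hm]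
            _ ≤ |y| * (1 * |y|) := mul_le_mul_of_nonneg_left
                (mul_le_mul hm1 b1 (abs_nonneg _) zero_le_one) (abs_nonneg _)
            _ = y * y := by rw [one_mul, abs_mul_abs_self]
        linarith) x
      have e := mul_le_mul_of_nonneg_left a (Real.exp_pos (-2 * (τ - 0))).le
      have key : ∀ E V L : ℝ, E * L ≤ E * (1 + 2 * V) → 0 ≤ -(-2 * E * (V + 1 / 2) + E * L) :=
        fun E V L hh => by linarith
      exact key _ _ _ e)
  have i := mono ⟨le_rfl, hd⟩ ⟨h0, h1⟩ h0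
  simp only at i
  rw [VV_zero h hm.ne' _ hd] at i
  simp only [sub_zero, mul_zero, Real.exp_zero, one_mul] at i
  have e1 : Real.exp (-2 * τ) * Real.exp (2 * τ) = 1 := by rw [← Real.exp_add]; simp
  have e2 := Real.add_one_le_exp (-2 * τ)
  have e3 := Real.exp_pos (2 * τ)
  have i2 := mul_le_mul_of_nonneg_right
    (show Real.exp (-2 * τ) * (VV Φ m d (fun _ y => y * y) x τ + 1 / 2) ≤ x * x + 1 / 2 by
      linarith) e3.le
  rw [mul_right_comm, e1, one_mul] at i2
  nlinarith [mul_le_mul_of_nonneg_right e2 e3.le]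

/-- comparison of two tilted averages with quadratic weights -/
theorem block_par (hm1 : m ≤ 1) {Φ' : ℝ → ℝ} (h' : Prof Φ') {m' d A B c0 c : ℝ} (hd : 0 ≤ d)
    (hu : ∀ v ∈ Icc 0 d, ∀ y, |deriv (gaussOp m v Φ) y| ≤ |y|) {P P' : ℝ → ℝ} (hP : BD P)
    (hP' : BD P') (hB : 0 ≤ B) (hc : 0 ≤ c) (hM : ∀ y, |P y - P' y| ≤ A + B * y ^ 2)
    (hL : ∀ v ∈ Icc 0 d, ∀ y,
      |Dk Φ m 1 v y - Dk Φ' m' 1 v y| * |deriv (At Φ' m' P' v) y| ≤ c0 + c * y ^ 2) (x : ℝ) :
    |tE m d Φ P x - tE m' d Φ' P' x| ≤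
      A + c0 * d + (B + c * d) * ((x ^ 2 + d) * Real.exp (2 * d)) := by
  have t := (Lip62.tb_At' h m hP).sub (Lip62.TB_change (Φ := Φ) (m := m) (Lip62.tb_At' h' m' hP'))
  have u2 : UG fun _ y : ℝ => y * y := UG.id.mul UG.id
  set Q := (x ^ 2 + d) * Real.exp (2 * d) with hQ
  have hq : ∀ τ ∈ Icc 0 d, VV Φ m d (fun _ y => y * y) x τ ≤ Q := fun τ hτ =>
    (VV_sq h hm hm1 hu hτ.1 hτ.2 x).trans (by
      rw [hQ]
      have := hτ.1
      gcongr
      · exact hτ.2
      · exact hτ.2)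
  have a1 := abs_sub_le_of_rder (a := 0) (b := d) (s := 0) (t := d) (C := c0 + c * Q)
    (VV_cont h t.ug d x).continuousOn
    (fun r hr => rder_of_block (VV_cont h t.ug d x) (VV_cont h (t.ugL h) d x)
      (fun τ a b => VV_deriv h t a b x) hr.1 hr.2) ⟨le_rfl, hd⟩ ⟨hd, le_rfl⟩ (fun r hr => by
      rw [min_eq_left hd, max_eq_right hd] at hr
      refine (VV_abs h hm (t.ugL h) u2 hr.1 hr.2.le (a := c0) (c := c) (fun y => ?_) x).trans ?_
      · rw [zero_add, zero_sub, abs_neg, abs_mul, ← sq]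
        exact hL _ ⟨by linarith [hr.2], by linarith [hr.1]⟩ y
      · have := mul_le_mul_of_nonneg_left (hq r ⟨hr.1, hr.2.le⟩) hc
        linarith)
  have a2 := VV_abs h hm t.ug u2 hd le_rfl (a := A) (c := B) (fun y => by
    have e1 : At Φ m P 0 = P := tE_v0 m Φ P
    have e2 : At Φ' m' P' 0 = P' := tE_v0 m' Φ' P'
    rw [sub_self, e1, e2, ← sq]
    exact hM y) x
  rw [VV_zero h hm.ne' _ hd, sub_zero, abs_of_nonneg hd] at a1
  have a3 := mul_le_mul_of_nonneg_left (hq d ⟨hd, le_rfl⟩) hB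
  have b1 := abs_le.1 a1
  have b2 := abs_le.1 a2
  show |At Φ m P d x - At Φ' m' P' d x| ≤ _
  rw [abs_le]
  constructor <;> linarith [b1.1, b1.2, b2.1, b2.2]

end block

theorem u_le {l : List (ℝ × ℝ)} (h : Adm 1 l) (y : ℝ) : |deriv (PhiL 1 l) y| ≤ |y| := by
  have hI := PhiL_inv one_pos h
  simpa using odd_le hI.prof.bd.diff hI.d0 (L := 1) (fun x => by
    rw [abs_of_pos (u2_pos hI x)]
    exact Inv.d2_le hI one_pos x) y

theorem Dn_neg {Φ : ℝ → ℝ} (he : ∀ x, Φ (-x) = Φ x) : ∀ (j : ℕ) (x : ℝ),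
    Dn j Φ (-x) = (-1) ^ (j + 1) * Dn j Φ x
  | 0, x => by rw [Dn_zero, deriv_neg_of_even he]; ring
  | j + 1, x => by
    rw [Dn_succ]
    rcases neg_one_pow_eq_or ℝ (j + 1) with h | h
    · rw [pow_succ, h, deriv_neg_of_even (fun y => by rw [Dn_neg he j y, h, one_mul])]
      ring
    · rw [pow_succ, h, deriv_neg_of_odd (fun y => by rw [Dn_neg he j y, h, neg_one_mul])]
      ring

theorem Zs_nonneg : ∀ {l : List (ℝ × ℝ)}, (∀ p ∈ l, 0 < p.1 ∧ 0 ≤ p.2) → 0 ≤ Zs l
  | [], _ => le_rfl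
  | p :: _, h => add_nonneg (mul_nonneg (h p List.mem_cons_self).1.le (h p List.mem_cons_self).2)
      (Zs_nonneg fun q hq => h q (List.mem_cons_of_mem _ hq))

/-- second moment -/
theorem EP_sq (R : List (ℝ × ℝ)) {F : ℝ → ℝ} (hF : BD F) {A B : ℝ} (hB : 0 ≤ B)
    (hM : ∀ y, |F y| ≤ A + B * y ^ 2) : ∀ M : List (ℝ × ℝ), Adm 1 (M ++ R) → ∀ x,
    |EP R F M x| ≤ A + B * ((x ^ 2 + TT M) * Real.exp (2 * TT M))
  | [], _, x => by simpa [EP, TT] using hM x
  | p :: M, h, x => by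
    rw [List.cons_append] at h
    have hP := PhiL_prof one_pos (M ++ R)
    have hd := h.2.2.1
    have hT : 0 ≤ TT M := TT_nonneg fun q hq => nn_of_adm h.2.2.2 q (List.mem_append_left _ hq)
    have g := block_par hP h.1 (Lip62.head_le_one h) hP (m' := p.1) (c0 := 0) (c := 0)
      (A := A + B * (TT M * Real.exp (2 * TT M))) (B := B * Real.exp (2 * TT M)) hd
      (fun v hv => u_le (adm_head h hv.1)) (EP_bd R hF M) (BD.const 0) (by positivity) le_rfl
      (fun y => by have := EP_sq R hF hB hM M h.2.2.2 y; rw [sub_zero]; linarith)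
      (fun v _ y => by simp) x
    rw [tE_const hP.lip, sub_zero] at g
    refine g.trans ?_
    rw [TT_cons, show 2 * (p.2 + TT M) = 2 * TT M + 2 * p.2 by ring, Real.exp_add]
    have e1 : 1 ≤ Real.exp (2 * p.2) := Real.one_le_exp (by positivity)
    have e2 : 0 ≤ B * (TT M * Real.exp (2 * TT M)) := by positivity
    nlinarith [mul_le_mul_of_nonneg_left e1 e2]

/-- **comparison of the laws**: without parity, and with the parity gain for even `F` -/
theorem EP_sl (T : ℝ) : ∃ C : ℝ, 1 ≤ C ∧ ∀ (R R' : List (ℝ × ℝ)) (F : ℝ → ℝ) (K : ℝ), Sl R R' →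
    BD F → (∀ x, |deriv F x| ≤ K) → ∀ M M' : List (ℝ × ℝ), Sl M M' → Adm 1 (M ++ R) →
    Adm 1 (M' ++ R') → TT (M ++ R) ≤ T →
    (∀ x, |EP R' F M' x - EP R F M x| ≤ C * K * (dN M M' + Zs M * dN R R')) ∧
    ((∀ x, F (-x) = F x) → (∀ x, |deriv (deriv F) x| ≤ K) → ∀ x, |EP R' F M' x - EP R F M x| ≤
      C * K * (dW M M' + TT M * Zs M * dN R R' + (dN M M' + Zs M * dN R R') * x ^ 2)) := by
  obtain ⟨C1, h1, hD⟩ := Dn_sl T 1
  obtain ⟨C2, h2, hE1⟩ := EP_der T 1
  obtain ⟨C3, h3, hE2⟩ := EP_der T 2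
  have hC1 : 0 ≤ C1 := by linarith
  have key : ∀ (R R' : List (ℝ × ℝ)) (F : ℝ → ℝ) (K : ℝ), Sl R R' →
      BD F → (∀ x, |deriv F x| ≤ K) → ∀ M M' : List (ℝ × ℝ), Sl M M' → Adm 1 (M ++ R) →
      Adm 1 (M' ++ R') → TT (M ++ R) ≤ T →
      (∀ x, |EP R F M x - EP R' F M' x| ≤ C1 * C2 * K * (dN M M' + dW M M' + Zs M * dN R R')) ∧
      ((∀ x, F (-x) = F x) → (∀ x, |deriv (deriv F) x| ≤ K) → ∀ x, |EP R F M x - EP R' F M' x| ≤
        C1 * C3 * K * Real.exp (2 * TT M) * (dW M M' * (1 + TT M) + TT M * Zs M * dN R R') +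
        C1 * C3 * K * Real.exp (2 * TT M) * (dN M M' + dW M M' + Zs M * dN R R') * x ^ 2) := by
    intro R R' F K hR hF hK M M' hs
    have hK0 : 0 ≤ K := (abs_nonneg _).trans (hK 0)
    induction hs with
    | nil => intro _ _ _; simp [EP, dN, dW, Zs, TT]
    | @cons p p' M M' hp hl ih =>
      intro h h' hT
      rw [List.cons_append] at h h' hT
      have hP := PhiL_prof one_pos (M ++ R)
      have hP' := PhiL_prof one_pos (M' ++ R')
      have hd := h.2.2.1
      have hm := h.1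
      have hm1 := Lip62.head_le_one h
      have hl' : Sl M M' := hl
      have htt := (hl'.append hR).tt
      rw [TT_cons] at hT
      obtain ⟨i1, i2⟩ := ih h.2.2.2 h'.2.2.2 (by linarith)
      have nM : Nn M := fun q hq => nn_of_adm h.2.2.2 q (List.mem_append_left _ hq)
      have nR : Nn R := fun q hq => nn_of_adm h.2.2.2 q (List.mem_append_right _ hq)
      have a1 := dN_nonneg M' nM
      have a2 := dW_nonneg M' nM
      have a3 := dN_nonneg R' nR
      have a4 : 0 ≤ Zs M := Zs_nonneg fun q hq => Adm.pos h.2.2.2 q (List.mem_append_left _ hq)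
      have a5 := TT_nonneg nM
      have he := abs_nonneg (p'.1 - p.1)
      set e := |p'.1 - p.1| with hed
      set N := e * p.2 + dN M M' + dN R R' with hN
      have hN0 : 0 ≤ N := by positivity
      have hDv : ∀ v ∈ Icc 0 p.2, ∀ j ≤ 1, ∀ y, |Dn j (gaussOp p'.1 v (PhiL 1 (M' ++ R'))) y -
          Dn j (gaussOp p.1 v (PhiL 1 (M ++ R))) y| ≤ C1 * N := fun v hv j hj y => by
        refine (hD ((p.1, v) :: (M ++ R)) ((p'.1, v) :: (M' ++ R'))
          (List.Forall₂.cons rfl (hl'.append hR)) (adm_head h hv.1) (adm_head h' hv.1)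
          (by rw [TT_cons]; linarith [hv.2]) j hj y).trans (mul_le_mul_of_nonneg_left ?_ hC1)
        simp only [dN, dN_append hl']
        nlinarith [mul_le_mul_of_nonneg_left hv.2 he]
      have hdr : ∀ v y, Dk (PhiL 1 (M ++ R)) p.1 1 v y - Dk (PhiL 1 (M' ++ R')) p'.1 1 v y =
          -(p.1 * (Dn 0 (gaussOp p'.1 v (PhiL 1 (M' ++ R'))) y -
            Dn 0 (gaussOp p.1 v (PhiL 1 (M ++ R))) y) +
            (p'.1 - p.1) * deriv (gaussOp p'.1 v (PhiL 1 (M' ++ R'))) y) := fun v y => by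
        rw [D1_eq hP, D1_eq hP', Lip62.At_deriv hP, Lip62.At_deriv hP', Dn_zero, Dn_zero]
        ring
      have hdr2 : ∀ v y b, 0 ≤ b → |Dn 0 (gaussOp p'.1 v (PhiL 1 (M' ++ R'))) y -
          Dn 0 (gaussOp p.1 v (PhiL 1 (M ++ R))) y| ≤ C1 * N * b →
          |deriv (gaussOp p'.1 v (PhiL 1 (M' ++ R'))) y| ≤ b →
          |Dk (PhiL 1 (M ++ R)) p.1 1 v y - Dk (PhiL 1 (M' ++ R')) p'.1 1 v y| ≤
            C1 * (e + p.1 * N) * b := fun v y b hb q1 q2 => by
        rw [hdr, abs_neg]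
        refine (abs_add_le _ _).trans ?_
        rw [abs_mul, abs_mul, abs_of_pos hm, ← hed]
        have := mul_le_mul_of_nonneg_left q1 hm.le
        have := mul_le_mul_of_nonneg_left q2 he
        nlinarith [mul_le_mul_of_nonneg_right h1 (mul_nonneg he hb)]
      have hAt : ∀ v, At (PhiL 1 (M' ++ R')) p'.1 (EP R' F M') v = EP R' F ((p'.1, v) :: M') :=
        fun v => rfl
      have hT' : ∀ v ∈ Icc 0 p.2, TT (((p'.1, v) :: M') ++ R') ≤ T := fun v hv => by
        rw [List.cons_append, TT_cons, htt]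
        linarith [hv.2]
      have hu : ∀ v ∈ Icc 0 p.2, ∀ y, |deriv (gaussOp p.1 v (PhiL 1 (M ++ R))) y| ≤ |y| :=
        fun v hv => u_le (adm_head h hv.1)
      have q1 : p.2 * (p.1 * (e * p.2 + dN M M')) ≤ p.2 * (e * p.2 + dN M M') :=
        mul_le_mul_of_nonneg_left (mul_le_of_le_one_left (by positivity) hm1) hd
      refine ⟨fun x => ?_, fun hev hK2 x => ?_⟩
      · have g := block_par hP hm hm1 hP' (m' := p'.1) (c0 := C1 * (e + p.1 * N) * (C2 * K))
          (c := 0) (B := 0) hd hu (EP_bd R hF M) (EP_bd R' hF M') le_rfl le_rfl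
          (fun y => (i1 y).trans_eq (by rw [zero_mul, add_zero])) (fun v hv y => by
            rw [zero_mul, add_zero, hAt]
            refine mul_le_mul ((hdr2 v y 1 zero_le_one (by rw [mul_one]; exact hDv v hv 0 (by omega) y)
              ((hP'.step _ _).b1 y)).trans_eq (mul_one _)) ?_ (abs_nonneg _) (by positivity)
            have := hE1 _ R' F K (adm_head h' hv.1) (hT' v hv) hF (fun j j1 j2 y => by
              rw [le_antisymm j2 j1, iteratedDeriv_one]; exact hK y) 1 le_rfl le_rfl y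
            rwa [iteratedDeriv_one] at this) x
        simp only [EP, dN, dW, Zs, ← hp, ← hed]
        refine g.trans ?_
        have c0 : 0 ≤ C1 * C2 * K := by positivity
        nlinarith [mul_le_mul_of_nonneg_left q1 c0]
      · have c0 : 0 ≤ C1 * C3 * K := by positivity
        have g := block_par hP hm hm1 hP' (m' := p'.1) (c := C1 * (e + p.1 * N) * (C3 * K))
          (c0 := 0) hd hu (EP_bd R hF M) (EP_bd R' hF M') (by positivity) (by positivity)
          (i2 hev hK2) (fun v hv y => by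
            rw [zero_add, hAt]
            have b1 := hdr2 v y |y| (abs_nonneg y) (odd_le
              (g := fun y => Dn 0 (gaussOp p'.1 v (PhiL 1 (M' ++ R'))) y -
                Dn 0 (gaussOp p.1 v (PhiL 1 (M ++ R))) y)
              ((Dn_bd (hP'.step _ _) 0).diff.sub (Dn_bd (hP.step _ _) 0).diff)
              (by
                simp only [Dn_zero, zero_of_odd (deriv_neg_of_even (gaussOp_even (PhiL_even _) _ _)),
                  sub_self])
              (fun y => by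
                rw [deriv_fun_sub ((Dn_bd (hP'.step _ _) 0).diff y) ((Dn_bd (hP.step _ _) 0).diff y),
                  ← Dn_succ, ← Dn_succ]
                exact hDv v hv 1 le_rfl y) y) (u_le (adm_head h' hv.1) y)
            have b2 := odd_le (EP_bd R' hF ((p'.1, v) :: M')).deriv.diff
              (zero_of_odd (deriv_neg_of_even (EP_even R' hev _))) (L := C3 * K) (fun y => by
                have := hE2 _ R' F K (adm_head h' hv.1) (hT' v hv) hF (fun j j1 j2 y => by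
                  interval_cases j
                  · rw [iteratedDeriv_one]; exact hK y
                  · rw [iteratedDeriv_succ, iteratedDeriv_one]; exact hK2 y) 2 one_le_two le_rfl y
                rwa [iteratedDeriv_succ, iteratedDeriv_one] at this) y
            refine (mul_le_mul b1 b2 (abs_nonneg _) (by positivity)).trans_eq ?_
            rw [← sq_abs y]
            ring) x
        simp only [EP, dN, dW, Zs, TT_cons, ← hp, ← hed]
        refine g.trans ?_
        rw [show 2 * (p.2 + TT M) = 2 * TT M + 2 * p.2 by ring, Real.exp_add]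
        have e1 : 1 ≤ Real.exp (2 * p.2) := Real.one_le_exp (by positivity)
        have e2 : 1 ≤ Real.exp (2 * TT M) := Real.one_le_exp (by positivity)
        set E1 := Real.exp (2 * p.2)
        set E2 := Real.exp (2 * TT M)
        set b' := e * p.2 + dN M M' + (p.2 * (e * p.2 + dN M M') + dW M M') +
          (p.1 * p.2 + Zs M) * dN R R' with hb'
        set a := dW M M' * (1 + TT M) + TT M * Zs M * dN R R' with ha
        have ha0 : 0 ≤ a := by positivity
        have s1 : C1 * C3 * K * E2 * (dN M M' + dW M M' + Zs M * dN R R') +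
            C1 * (e + p.1 * N) * (C3 * K) * p.2 ≤ C1 * C3 * K * E2 * b' := by
          have r1 : (e + p.1 * N) * p.2 ≤ E2 * ((e + p.1 * N) * p.2) :=
            le_mul_of_one_le_left (by positivity) e2
          have r2 : dN M M' + dW M M' + Zs M * dN R R' + (e + p.1 * N) * p.2 ≤ b' := by
            rw [hb', hN]; linarith
          have r3 := mul_le_mul_of_nonneg_left r2 (show 0 ≤ C1 * C3 * K * E2 by positivity)
          have r4 := mul_le_mul_of_nonneg_left r1 c0
          linarith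
        have s2 := mul_le_mul_of_nonneg_right s1 (show 0 ≤ (x ^ 2 + p.2) * E1 by positivity)
        have s3 : C1 * C3 * K * E2 * a ≤ C1 * C3 * K * E2 * a * E1 :=
          le_mul_of_one_le_right (by positivity) e1
        have s4 : a + p.2 * b' ≤ (p.2 * (e * p.2 + dN M M') + dW M M') * (1 + (p.2 + TT M)) +
            (p.2 + TT M) * (p.1 * p.2 + Zs M) * dN R R' := by
          have r1 : 0 ≤ p.2 * (e * p.2 + dN M M') * TT M := by positivity
          have r2 : 0 ≤ TT M * (p.1 * p.2) * dN R R' := by positivity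
          rw [ha, hb']
          linarith
        have s5 := mul_le_mul_of_nonneg_left s4 (show 0 ≤ C1 * C3 * K * (E2 * E1) by positivity)
        linarith
  refine ⟨C1 * (C2 + C3) * Real.exp (2 * |T|) * (1 + |T|), ?_,
    fun R R' F K hR hF hK M M' hs h h' hT => ?_⟩
  · have e1 : 1 ≤ Real.exp (2 * |T|) := Real.one_le_exp (by positivity)
    exact one_le_mul_of_one_le_of_one_le (one_le_mul_of_one_le_of_one_le
      (one_le_mul_of_one_le_of_one_le h1 (by linarith)) e1) (by linarith [abs_nonneg T])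
  obtain ⟨k1, k2⟩ := key R R' F K hR hF hK M M' hs h h' hT
  have hK0 : 0 ≤ K := (abs_nonneg _).trans (hK 0)
  have nM : Nn M := fun q hq => nn_of_adm h q (List.mem_append_left _ hq)
  have nR : Nn R := fun q hq => nn_of_adm h q (List.mem_append_right _ hq)
  have a1 := dN_nonneg M' nM
  have a2 := dW_nonneg M' nM
  have a3 := dN_nonneg R' nR
  have a4 : 0 ≤ Zs M := Zs_nonneg fun q hq => Adm.pos h q (List.mem_append_left _ hq)
  have a5 := TT_nonneg nM
  have a6 : TT M ≤ |T| := by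
    rw [TT_append] at hT
    linarith [le_abs_self T, TT_nonneg nR]
  have a7 : dN M M' + dW M M' + Zs M * dN R R' ≤ (1 + |T|) * (dN M M' + Zs M * dN R R') := by
    nlinarith [dW_le M' nM, mul_le_mul_of_nonneg_right a6 a1,
      mul_nonneg (abs_nonneg T) (mul_nonneg a4 a3)]
  have a8 : dW M M' * (1 + TT M) + TT M * Zs M * dN R R' ≤
      (1 + |T|) * (dW M M' + TT M * Zs M * dN R R') := by
    nlinarith [mul_le_mul_of_nonneg_left a6 a2,
      mul_nonneg (abs_nonneg T) (mul_nonneg (mul_nonneg a5 a4) a3)]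
  have e1 : 1 ≤ Real.exp (2 * |T|) := Real.one_le_exp (by positivity)
  have hC2 : 0 ≤ C2 := by linarith
  have hC3 : 0 ≤ C3 := by linarith
  refine ⟨fun x => ?_, fun hev hK2 x => ?_⟩
  · rw [abs_sub_comm]
    refine (k1 x).trans ?_
    calc _ ≤ C1 * (C2 + C3) * Real.exp (2 * |T|) * K * ((1 + |T|) * (dN M M' + Zs M * dN R R')) := by
          refine mul_le_mul (mul_le_mul_of_nonneg_right ?_ hK0) a7 (by positivity) (by positivity)
          nlinarith [mul_nonneg hC1 hC3, mul_le_mul_of_nonneg_left e1 (mul_nonneg hC1 (add_nonneg hC2 hC3))]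
      _ = _ := by ring
  · rw [abs_sub_comm]
    refine (k2 hev hK2 x).trans ?_
    have c1 : C1 * C3 * K * Real.exp (2 * TT M) ≤ C1 * (C2 + C3) * K * Real.exp (2 * |T|) := by
      gcongr
      linarith
    have c2 := mul_le_mul c1 a8 (by positivity) (by positivity)
    have c3 := mul_le_mul_of_nonneg_right (mul_le_mul c1 a7 (by positivity) (by positivity))
      (sq_nonneg x)
    linarith

end

end Crest.Agent.T156.Ker
private theorem rz_dd9e5a7a7b : type_of% @_root_.Crest.Agent.T156.Ker.EP.eq_def := @_root_.Crest.Agent.T156.Ker.EP.eq_def -- L222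
private theorem rz_14f36dc13b : type_of% @_root_.Crest.Agent.T156.Ker.EP.eq_1 := @_root_.Crest.Agent.T156.Ker.EP.eq_1 -- L222
private theorem rz_2978927a04 : type_of% @_root_.Crest.Agent.T156.Ker.Zs.eq_def := @_root_.Crest.Agent.T156.Ker.Zs.eq_def -- L34
private theorem rz_f8e9d7f03b : type_of% @_root_.Crest.Agent.T156.Ker.Zs.eq_1 := @_root_.Crest.Agent.T156.Ker.Zs.eq_1 -- L34
private theorem rz_60c72ef5df : type_of% @_root_.Crest.Agent.T156.Ker.dN.eq_def := @_root_.Crest.Agent.T156.Ker.dN.eq_def -- L24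
private theorem rz_0cc20532cc : type_of% @_root_.Crest.Agent.T156.Ker.dN.eq_1 := @_root_.Crest.Agent.T156.Ker.dN.eq_1 -- L24
private theorem rz_d00fc34e6f : type_of% @_root_.Crest.Agent.T156.Ker.dW.eq_def := @_root_.Crest.Agent.T156.Ker.dW.eq_def -- L29
private theorem rz_e5151a8afb : type_of% @_root_.Crest.Agent.T156.Ker.dW.eq_1 := @_root_.Crest.Agent.T156.Ker.dW.eq_1 -- L29
end

-- ▼ part T156/Ker_31

/-!
Row 156 (helper31): `L¹`-Lipschitz dependence on the tilt function for any two admissible lists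
with the same total time; the leaves `Lip1S`, `Lip2S` of the text (P).
-/

set_option autoImplicit false

namespace Crest.Agent.T156.Ker

open MeasureTheory ProbabilityTheory Filter Topology Set
open Crest.Agent.R164.GC Crest.Agent.R339.B Crest.Agent.R339.Var Crest.Agent.T157.Pf
open Crest.Agent.T156.Pp Crest.Agent.T156.Sc48
open Crest.ProbabilityR.InvariantGlass (gaussOp)

noncomputable section

/-- comparison of the laws with the parity of the drift only -/
theorem EP_gen (T : ℝ) : ∃ C : ℝ, 1 ≤ C ∧ ∀ (R R' : List (ℝ × ℝ)) (F : ℝ → ℝ) (a b : ℝ), Sl R R' →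
    BD F → 0 ≤ a → 0 ≤ b → (∀ M', Adm 1 (M' ++ R') → TT (M' ++ R') ≤ T → ∀ y,
      |y| * |deriv (EP R' F M') y| ≤ a + b * y ^ 2) → ∀ M M' : List (ℝ × ℝ), Sl M M' →
    Adm 1 (M ++ R) → Adm 1 (M' ++ R') → TT (M ++ R) ≤ T → ∀ x, |EP R' F M' x - EP R F M x| ≤
      C * (a * (dN M M' + Zs M * dN R R') +
        b * (dW M M' + TT M * Zs M * dN R R' + (dN M M' + Zs M * dN R R') * x ^ 2)) := by
  obtain ⟨C1, h1, hD⟩ := Dn_sl T 1
  have hC1 : 0 ≤ C1 := by linarith
  have key : ∀ (R R' : List (ℝ × ℝ)) (F : ℝ → ℝ) (a b : ℝ), Sl R R' →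
      BD F → 0 ≤ a → 0 ≤ b → (∀ M', Adm 1 (M' ++ R') → TT (M' ++ R') ≤ T → ∀ y,
        |y| * |deriv (EP R' F M') y| ≤ a + b * y ^ 2) → ∀ M M' : List (ℝ × ℝ), Sl M M' →
      Adm 1 (M ++ R) → Adm 1 (M' ++ R') → TT (M ++ R) ≤ T → ∀ x, |EP R F M x - EP R' F M' x| ≤
        (C1 * a * (dN M M' + dW M M' + Zs M * dN R R') +
        C1 * b * Real.exp (2 * TT M) * (dW M M' * (1 + TT M) + TT M * Zs M * dN R R')) +
        C1 * b * Real.exp (2 * TT M) * (dN M M' + dW M M' + Zs M * dN R R') * x ^ 2 := by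
    intro R R' F a b hR hF ha0 hb0 hK M M' hs
    induction hs with
    | nil => intro _ _ _; simp [EP, dN, dW, Zs, TT]
    | @cons p p' M M' hp hl ih =>
      intro h h' hT x
      rw [List.cons_append] at h h' hT
      have hP := PhiL_prof one_pos (M ++ R)
      have hP' := PhiL_prof one_pos (M' ++ R')
      have hd := h.2.2.1
      have hm := h.1
      have hm1 := Lip62.head_le_one h
      have hl' : Sl M M' := hl
      have htt := (hl'.append hR).tt
      rw [TT_cons] at hT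
      have i2 := ih h.2.2.2 h'.2.2.2 (by linarith)
      have nM : Nn M := fun q hq => nn_of_adm h.2.2.2 q (List.mem_append_left _ hq)
      have nR : Nn R := fun q hq => nn_of_adm h.2.2.2 q (List.mem_append_right _ hq)
      have a1 := dN_nonneg M' nM
      have a2 := dW_nonneg M' nM
      have a3 := dN_nonneg R' nR
      have a4 : 0 ≤ Zs M := Zs_nonneg fun q hq => Adm.pos h.2.2.2 q (List.mem_append_left _ hq)
      have a5 := TT_nonneg nM
      have he := abs_nonneg (p'.1 - p.1)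
      set e := |p'.1 - p.1| with hed
      set N := e * p.2 + dN M M' + dN R R' with hN
      have hN0 : 0 ≤ N := by positivity
      have hDv : ∀ v ∈ Icc 0 p.2, ∀ j ≤ 1, ∀ y, |Dn j (gaussOp p'.1 v (PhiL 1 (M' ++ R'))) y -
          Dn j (gaussOp p.1 v (PhiL 1 (M ++ R))) y| ≤ C1 * N := fun v hv j hj y => by
        refine (hD ((p.1, v) :: (M ++ R)) ((p'.1, v) :: (M' ++ R'))
          (List.Forall₂.cons rfl (hl'.append hR)) (adm_head h hv.1) (adm_head h' hv.1)
          (by rw [TT_cons]; linarith [hv.2]) j hj y).trans (mul_le_mul_of_nonneg_left ?_ hC1)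
        simp only [dN, dN_append hl']
        nlinarith [mul_le_mul_of_nonneg_left hv.2 he]
      have hdr : ∀ v y, Dk (PhiL 1 (M ++ R)) p.1 1 v y - Dk (PhiL 1 (M' ++ R')) p'.1 1 v y =
          -(p.1 * (Dn 0 (gaussOp p'.1 v (PhiL 1 (M' ++ R'))) y -
            Dn 0 (gaussOp p.1 v (PhiL 1 (M ++ R))) y) +
            (p'.1 - p.1) * deriv (gaussOp p'.1 v (PhiL 1 (M' ++ R'))) y) := fun v y => by
        rw [D1_eq hP, D1_eq hP', Lip62.At_deriv hP, Lip62.At_deriv hP', Dn_zero, Dn_zero]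
        ring
      have hdr2 : ∀ v y b, 0 ≤ b → |Dn 0 (gaussOp p'.1 v (PhiL 1 (M' ++ R'))) y -
          Dn 0 (gaussOp p.1 v (PhiL 1 (M ++ R))) y| ≤ C1 * N * b →
          |deriv (gaussOp p'.1 v (PhiL 1 (M' ++ R'))) y| ≤ b →
          |Dk (PhiL 1 (M ++ R)) p.1 1 v y - Dk (PhiL 1 (M' ++ R')) p'.1 1 v y| ≤
            C1 * (e + p.1 * N) * b := fun v y b hb q1 q2 => by
        rw [hdr, abs_neg]
        refine (abs_add_le _ _).trans ?_
        rw [abs_mul, abs_mul, abs_of_pos hm, ← hed]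
        have := mul_le_mul_of_nonneg_left q1 hm.le
        have := mul_le_mul_of_nonneg_left q2 he
        nlinarith [mul_le_mul_of_nonneg_right h1 (mul_nonneg he hb)]
      have hAt : ∀ v, At (PhiL 1 (M' ++ R')) p'.1 (EP R' F M') v = EP R' F ((p'.1, v) :: M') :=
        fun v => rfl
      have hT' : ∀ v ∈ Icc 0 p.2, TT (((p'.1, v) :: M') ++ R') ≤ T := fun v hv => by
        rw [List.cons_append, TT_cons, htt]
        linarith [hv.2]
      have hu : ∀ v ∈ Icc 0 p.2, ∀ y, |deriv (gaussOp p.1 v (PhiL 1 (M ++ R))) y| ≤ |y| :=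
        fun v hv => u_le (adm_head h hv.1)
      have q1 : p.2 * (p.1 * (e * p.2 + dN M M')) ≤ p.2 * (e * p.2 + dN M M') :=
        mul_le_mul_of_nonneg_left (mul_le_of_le_one_left (by positivity) hm1) hd
      have c0 : 0 ≤ C1 * b := by positivity
      have g := block_par hP hm hm1 hP' (m' := p'.1) (c := C1 * (e + p.1 * N) * b)
        (c0 := C1 * (e + p.1 * N) * a) hd hu (EP_bd R hF M) (EP_bd R' hF M') (by positivity)
        (by positivity) i2 (fun v hv y => by
          rw [hAt]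
          have b1 := hdr2 v y |y| (abs_nonneg y) (odd_le
            (g := fun y => Dn 0 (gaussOp p'.1 v (PhiL 1 (M' ++ R'))) y -
              Dn 0 (gaussOp p.1 v (PhiL 1 (M ++ R))) y)
            ((Dn_bd (hP'.step _ _) 0).diff.sub (Dn_bd (hP.step _ _) 0).diff)
            (by
              simp only [Dn_zero, zero_of_odd (deriv_neg_of_even (gaussOp_even (PhiL_even _) _ _)),
                sub_self])
            (fun y => by
              rw [deriv_fun_sub ((Dn_bd (hP'.step _ _) 0).diff y) ((Dn_bd (hP.step _ _) 0).diff y),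
                ← Dn_succ, ← Dn_succ]
              exact hDv v hv 1 le_rfl y) y) (u_le (adm_head h' hv.1) y)
          have b2 := mul_le_mul_of_nonneg_left
            (hK ((p'.1, v) :: M') (adm_head h' hv.1) (hT' v hv) y)
            (show 0 ≤ C1 * (e + p.1 * N) by positivity)
          refine (mul_le_mul_of_nonneg_right b1 (abs_nonneg _)).trans ?_
          linarith) x
      simp only [EP, dN, dW, Zs, TT_cons, ← hp, ← hed]
      refine g.trans ?_
      rw [show 2 * (p.2 + TT M) = 2 * TT M + 2 * p.2 by ring, Real.exp_add]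
      have e1 : 1 ≤ Real.exp (2 * p.2) := Real.one_le_exp (by positivity)
      have e2 : 1 ≤ Real.exp (2 * TT M) := Real.one_le_exp (by positivity)
      set E1 := Real.exp (2 * p.2)
      set E2 := Real.exp (2 * TT M)
      set b' := e * p.2 + dN M M' + (p.2 * (e * p.2 + dN M M') + dW M M') +
        (p.1 * p.2 + Zs M) * dN R R' with hb'
      set a' := dW M M' * (1 + TT M) + TT M * Zs M * dN R R' with ha
      have ha0' : 0 ≤ a' := by positivity
      have r2 : dN M M' + dW M M' + Zs M * dN R R' + (e + p.1 * N) * p.2 ≤ b' := by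
        rw [hb', hN]; linarith
      have s0 := mul_le_mul_of_nonneg_left r2 (show 0 ≤ C1 * a by positivity)
      have s1 : C1 * b * E2 * (dN M M' + dW M M' + Zs M * dN R R') +
          C1 * (e + p.1 * N) * b * p.2 ≤ C1 * b * E2 * b' := by
        have r1 : (e + p.1 * N) * p.2 ≤ E2 * ((e + p.1 * N) * p.2) :=
          le_mul_of_one_le_left (by positivity) e2
        have r3 := mul_le_mul_of_nonneg_left r2 (show 0 ≤ C1 * b * E2 by positivity)
        have r4 := mul_le_mul_of_nonneg_left r1 c0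
        linarith
      have s2 := mul_le_mul_of_nonneg_right s1 (show 0 ≤ (x ^ 2 + p.2) * E1 by positivity)
      have s3 : C1 * b * E2 * a' ≤ C1 * b * E2 * a' * E1 :=
        le_mul_of_one_le_right (by positivity) e1
      have s4 : a' + p.2 * b' ≤ (p.2 * (e * p.2 + dN M M') + dW M M') * (1 + (p.2 + TT M)) +
          (p.2 + TT M) * (p.1 * p.2 + Zs M) * dN R R' := by
        have r1 : 0 ≤ p.2 * (e * p.2 + dN M M') * TT M := by positivity
        have r2 : 0 ≤ TT M * (p.1 * p.2) * dN R R' := by positivity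
        rw [ha, hb']
        linarith
      have s5 := mul_le_mul_of_nonneg_left s4 (show 0 ≤ C1 * b * (E2 * E1) by positivity)
      linarith
  have e1 : 1 ≤ Real.exp (2 * |T|) := Real.one_le_exp (by positivity)
  refine ⟨C1 * Real.exp (2 * |T|) * (1 + |T|), one_le_mul_of_one_le_of_one_le
    (one_le_mul_of_one_le_of_one_le h1 e1) (by linarith [abs_nonneg T]),
    fun R R' F a b hR hF ha hb hK M M' hs h h' hT x => ?_⟩
  have k2 := key R R' F a b hR hF ha hb hK M M' hs h h' hT x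
  have nM : Nn M := fun q hq => nn_of_adm h q (List.mem_append_left _ hq)
  have nR : Nn R := fun q hq => nn_of_adm h q (List.mem_append_right _ hq)
  have a1 := dN_nonneg M' nM
  have a2 := dW_nonneg M' nM
  have a3 := dN_nonneg R' nR
  have a4 : 0 ≤ Zs M := Zs_nonneg fun q hq => Adm.pos h q (List.mem_append_left _ hq)
  have a5 := TT_nonneg nM
  have a6 : TT M ≤ |T| := by
    rw [TT_append] at hT
    linarith [le_abs_self T, TT_nonneg nR]
  have a7 : dN M M' + dW M M' + Zs M * dN R R' ≤ (1 + |T|) * (dN M M' + Zs M * dN R R') := by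
    nlinarith [dW_le M' nM, mul_le_mul_of_nonneg_right a6 a1,
      mul_nonneg (abs_nonneg T) (mul_nonneg a4 a3)]
  have a8 : dW M M' * (1 + TT M) + TT M * Zs M * dN R R' ≤
      (1 + |T|) * (dW M M' + TT M * Zs M * dN R R') := by
    nlinarith [mul_le_mul_of_nonneg_left a6 a2,
      mul_nonneg (abs_nonneg T) (mul_nonneg (mul_nonneg a5 a4) a3)]
  rw [abs_sub_comm]
  refine k2.trans ?_
  have c0 : C1 * a ≤ C1 * a * Real.exp (2 * |T|) := le_mul_of_one_le_right (by positivity) e1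
  have c1 : C1 * b * Real.exp (2 * TT M) ≤ C1 * b * Real.exp (2 * |T|) := by gcongr
  have c2 := mul_le_mul c1 a8 (by positivity) (by positivity)
  have c3 := mul_le_mul_of_nonneg_right (mul_le_mul c1 a7 (by positivity) (by positivity))
    (sq_nonneg x)
  have c4 := mul_le_mul c0 a7 (by positivity) (by positivity)
  linarith

/-! ### cutting a list -/

theorem head_cut : ∀ (l : List (ℝ × ℝ)) (t : ℝ), headLv 1 (cut l t ++ rest l t) = headLv 1 l
  | [], _ => rfl
  | p :: l, t => by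
    simp only [cut, rest]
    split_ifs <;> rfl

theorem adm_cut : ∀ {l : List (ℝ × ℝ)}, Adm 1 l → ∀ {t : ℝ}, 0 ≤ t →
    Adm 1 (cut l t ++ rest l t) ∧ PhiL 1 (cut l t ++ rest l t) = PhiL 1 l ∧
      TT (cut l t ++ rest l t) = TT l
  | [], _, _, _ => ⟨trivial, rfl, rfl⟩
  | p :: l, h, t, ht => by
    simp only [cut, rest]
    split_ifs with h1
    · refine ⟨⟨h.1, le_rfl, ht, h.1, h.2.1, sub_nonneg.2 h1, h.2.2.2⟩, ?_, ?_⟩
      · show gaussOp p.1 t (gaussOp p.1 (p.2 - t) (PhiL 1 l)) = gaussOp p.1 p.2 (PhiL 1 l)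
        rw [← gaussOp_semi (PhiL_prof one_pos l) h.1.ne' ht (sub_nonneg.2 h1), add_sub_cancel]
      · simp only [List.cons_append, List.nil_append, TT_cons]
        ring
    · obtain ⟨a, b, c⟩ := adm_cut h.2.2.2 (t := t - p.2) (by linarith)
      refine ⟨⟨h.1, (head_cut l _).symm ▸ h.2.1, h.2.2.1, a⟩, ?_, ?_⟩
      · simp only [List.cons_append, PhiL, b]
      · simp only [List.cons_append, TT_cons, c]

theorem EX_eq_EP (F : ℝ → ℝ) : ∀ {l : List (ℝ × ℝ)}, Adm 1 l → ∀ {t : ℝ}, 0 ≤ t →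
    EX 1 l t F = EP (rest l t) F (cut l t)
  | [], _, _, _ => rfl
  | p :: l, h, t, ht => by
    simp only [cut, rest, EX]
    split_ifs with h1
    · rfl
    · have h2 : 0 ≤ t - p.2 := by linarith
      simp only [EP, (adm_cut h.2.2.2 h2).2.1, EX_eq_EP F h.2.2.2 h2]

theorem Sl.cut {l l' : List (ℝ × ℝ)} (h : Sl l l') :
    ∀ t, Sl (cut l t) (cut l' t) ∧ Sl (rest l t) (rest l' t) := by
  induction h with
  | nil => intro t; exact ⟨List.Forall₂.nil, List.Forall₂.nil⟩
  | @cons p p' l l' hp hl ih =>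
    intro t
    simp only [T157.Pf.cut, rest, ← hp]
    split_ifs
    · exact ⟨List.Forall₂.cons rfl List.Forall₂.nil, List.Forall₂.cons rfl hl⟩
    · exact ⟨List.Forall₂.cons hp (ih _).1, (ih _).2⟩

theorem lvr_cut : ∀ (l : List (ℝ × ℝ)) {t s : ℝ}, s < t → lvr 1 (cut l t) s = lvr 1 l s
  | [], _, _, _ => rfl
  | p :: l, t, s, h => by
    simp only [cut]
    split_ifs with h1
    · simp only [lvr]
      rw [if_pos h, if_pos (h.trans_le h1)]
    · simp only [lvr]
      split_ifs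
      · rfl
      · exact lvr_cut l (by linarith)

theorem lvr_rest : ∀ (l : List (ℝ × ℝ)) (t : ℝ) {s : ℝ}, 0 ≤ s →
    lvr 1 (rest l t) s = lvr 1 l (s + t)
  | [], _, _, _ => rfl
  | p :: l, t, s, h => by
    simp only [rest]
    split_ifs with h1
    · simp only [lvr, lt_sub_iff_add_lt]
      rw [show s - (p.2 - t) = s + t - p.2 by ring]
    · simp only [lvr]
      rw [if_neg (by linarith), lvr_rest l _ h, add_sub_assoc]

/-! ### sums as integrals -/

/-- `|ζ' - ζ|` -/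
def et (l l' : List (ℝ × ℝ)) (s : ℝ) : ℝ := |lvr 1 l' s - lvr 1 l s|

theorem lvr_bd : ∀ l : List (ℝ × ℝ), ∃ B, ∀ s, |lvr 1 l s| ≤ B
  | [] => ⟨1, fun _ => by simp [lvr]⟩
  | p :: l => by
    obtain ⟨B, hB⟩ := lvr_bd l
    refine ⟨max |p.1| B, fun s => ?_⟩
    simp only [lvr]
    split_ifs
    · exact le_max_left _ _
    · exact (hB _).trans (le_max_right _ _)

theorem lvr_ii (l : List (ℝ × ℝ)) (a b : ℝ) : IntervalIntegrable (lvr 1 l) volume a b := by
  obtain ⟨B, hB⟩ := lvr_bd l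
  exact ii_of_bdd (lvr_meas l) hB a b

theorem et_ii (l l' : List (ℝ × ℝ)) (a b : ℝ) : IntervalIntegrable (et l l') volume a b :=
  ((lvr_ii l' a b).sub (lvr_ii l a b)).abs

theorem wet_ii (l l' : List (ℝ × ℝ)) (a b : ℝ) :
    IntervalIntegrable (fun s => s * et l l' s) volume a b :=
  (et_ii l l' a b).continuousOn_mul continuousOn_id

theorem lvr_shift (p : ℝ × ℝ) (l : List (ℝ × ℝ)) {s : ℝ} (hs : 0 ≤ s) :
    lvr 1 (p :: l) (s + p.2) = lvr 1 l s := by
  simp only [lvr]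
  rw [if_neg (by linarith), add_sub_cancel_right]

theorem Zs_int : ∀ {l : List (ℝ × ℝ)}, Nn l → Zs l = ∫ s in (0:ℝ)..TT l, lvr 1 l s
  | [], _ => by simp [Zs, TT]
  | p :: l, h => by
    rw [TT_cons, int_cons (lvr_ii _), intervalIntegral.integral_congr_Ioo_of_le h.head
      (g := fun _ => p.1) (fun r hr => by simp only [lvr]; rw [if_pos hr.2]),
      intervalIntegral.integral_congr_Ioo_of_le (TT_nonneg h.tail) (g := lvr 1 l)
        (fun r hr => lvr_shift p l hr.1.le), ← Zs_int h.tail]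
    simp [Zs, mul_comm]

theorem dN_int {l l' : List (ℝ × ℝ)} (hs : Sl l l') : Nn l →
    dN l l' = ∫ s in (0:ℝ)..TT l, et l l' s ∧
      dW l l' ≤ 2 * ∫ s in (0:ℝ)..TT l, s * et l l' s := by
  induction hs with
  | nil => intro _; simp [dN, dW, TT]
  | @cons p p' l l' hp hl ih =>
    intro h
    obtain ⟨i1, i2⟩ := ih h.tail
    have e1 : ∀ r, r < p.2 → et (p :: l) (p' :: l') r = |p'.1 - p.1| := fun r hr => by
      simp only [et, lvr]
      rw [if_pos hr, if_pos (hp ▸ hr)]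
    have e2 : ∀ r, 0 ≤ r → et (p :: l) (p' :: l') (r + p.2) = et l l' r := fun r hr => by
      unfold et
      rw [lvr_shift p l hr, hp, lvr_shift p' l' hr]
    have hT := TT_nonneg h.tail
    constructor
    · rw [TT_cons, int_cons (et_ii _ _), intervalIntegral.integral_congr_Ioo_of_le h.head
        (g := fun _ => |p'.1 - p.1|) (fun r hr => e1 r hr.2),
        intervalIntegral.integral_congr_Ioo_of_le hT (g := et l l') (fun r hr => e2 r hr.1.le), ← i1]
      simp [dN, mul_comm]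
    · rw [TT_cons, int_cons (wet_ii _ _), intervalIntegral.integral_congr_Ioo_of_le h.head
        (g := fun r => |p'.1 - p.1| * r) (fun r hr => by rw [e1 r hr.2, mul_comm]),
        intervalIntegral.integral_congr_Ioo_of_le hT (g := fun r => r * et l l' r + p.2 * et l l' r)
          (fun r hr => by rw [e2 r hr.1.le, add_mul]),
        intervalIntegral.integral_add (wet_ii _ _ _ _) ((et_ii _ _ _ _).const_mul _),
        intervalIntegral.integral_const_mul, intervalIntegral.integral_const_mul, ← i1, integral_id]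
      simp only [dW, dN]
      nlinarith [mul_nonneg h.head (dN_nonneg l' h.tail)]

theorem eqv_of_dN {l l' : List (ℝ × ℝ)} (hs : Sl l l') : Adm 1 l → Adm 1 l' → dN l l' = 0 →
    Eqv l l' := by
  induction hs with
  | nil => intro _ _ _; exact Eqv.refl _
  | @cons p p' l l' hp hl ih =>
    intro h h' h0
    have a1 := dN_nonneg l' (nn_of_adm h.2.2.2)
    have a2 := mul_nonneg (abs_nonneg (p'.1 - p.1)) h.2.2.1
    simp only [dN] at h0
    have i := ih h.2.2.2 h'.2.2.2 (by linarith)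
    rcases mul_eq_zero.1 (show |p'.1 - p.1| * p.2 = 0 by linarith) with h1 | h1
    · obtain rfl : p = p' := Prod.ext (sub_eq_zero.1 (abs_eq_zero.1 h1)).symm hp
      exact i.cons p
    · have e : p = (p.1, 0) := Prod.ext rfl h1
      have e' : p' = (p'.1, 0) := Prod.ext rfl (hp ▸ h1)
      rw [e, e']
      exact ((eqv_zero h.1.ne' (nn_of_adm h.2.2.2)).trans i).trans
        (eqv_zero h'.1.ne' (nn_of_adm h'.2.2.2)).symm

theorem exists_sl {l l' : List (ℝ × ℝ)} (h : Adm 1 l) (h' : Adm 1 l') (e : TT l' = TT l) :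
    ∃ a a', Sl a a' ∧ Adm 1 a ∧ Adm 1 a' ∧ Eqv l a ∧ Eqv l' a' := by
  obtain ⟨L, hL⟩ := exists_ref h h' e.symm
  refine ⟨_, _, ?_, hL.a0, hL.a1, hL.e0, hL.e1⟩
  unfold Sl lev
  rw [List.forall₂_map_left_iff, List.forall₂_map_right_iff, List.forall₂_same]
  exact fun _ _ => rfl

/-- `∫_a^b |ζ' - ζ|` -/
def Nf (l l' : List (ℝ × ℝ)) (a b : ℝ) : ℝ := ∫ s in a..b, |lvr 1 l' s - lvr 1 l s|
/-- `∫_0^t s |ζ' - ζ|(s) ds` -/
def Wf (l l' : List (ℝ × ℝ)) (t : ℝ) : ℝ := ∫ s in (0:ℝ)..t, s * |lvr 1 l' s - lvr 1 l s|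
/-- `∫_0^t ζ` -/
def Zf (l : List (ℝ × ℝ)) (t : ℝ) : ℝ := ∫ s in (0:ℝ)..t, lvr 1 l s

/-- reduction to two lists on the same slices, cut at the time `t` -/
theorem exists_cut {l l' : List (ℝ × ℝ)} (h : Adm 1 l) (h' : Adm 1 l') (e : TT l' = TT l) {t : ℝ}
    (ht : t ∈ Icc 0 (TT l)) : ∃ M M' R R', Sl M M' ∧ Sl R R' ∧ Adm 1 (M ++ R) ∧ Adm 1 (M' ++ R') ∧
    Adm 1 R ∧ Adm 1 R' ∧ TT (M ++ R) = TT l ∧ TT M = t ∧ TT R = TT l - t ∧ PhiT 1 l t = PhiL 1 R ∧
    PhiT 1 l' t = PhiL 1 R' ∧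
    (∀ F, BD F → EX 1 l t F = EP R F M ∧ EX 1 l' t F = EP R' F M') ∧ dN M M' = Nf l l' 0 t ∧
    dN R R' = Nf l l' t (TT l) ∧ dW M M' ≤ 2 * Wf l l' t ∧ Zs M = Zf l t := by
  obtain ⟨a, a', hs, ha, ha', q, q'⟩ := exists_sl h h' e
  obtain ⟨c1, -, c3⟩ := adm_cut ha ht.1
  obtain ⟨r1, r2, -⟩ := Min62.rest_adm ha t ht.1 (q.tt ▸ ht.2)
  have tM : TT (cut a t) = t := by
    rw [TT_append, r2] at c3
    linarith
  have nM : Nn (cut a t) := fun p hp => nn_of_adm c1 p (List.mem_append_left _ hp)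
  obtain ⟨i1, i2⟩ := dN_int (hs.cut t).1 nM
  have i3 := (dN_int (hs.cut t).2 (nn_of_adm r1)).1
  have e1 : ∀ s ∈ Ioo 0 t, et (cut a t) (cut a' t) s = |lvr 1 l' s - lvr 1 l s| := fun s hs => by
    rw [et, lvr_cut a hs.2, lvr_cut a' hs.2, q.lv s hs.1.le, q'.lv s hs.1.le]
  refine ⟨cut a t, cut a' t, rest a t, rest a' t, (hs.cut t).1, (hs.cut t).2, c1,
    (adm_cut ha' ht.1).1, r1, (Lip62.adm_rest ha' t ht.1).1, c3.trans q.tt.symm, tM,
    by rw [r2, q.tt], by rw [q.phiT t ht.1, Lip62.PhiT_eq_rest],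
    by rw [q'.phiT t ht.1, Lip62.PhiT_eq_rest], fun F hF => ?_, ?_, ?_, ?_, ?_⟩
  · obtain ⟨K, hK⟩ := hF.bc
    rw [q.ex t ht.1 F K hK, q'.ex t ht.1 F K hK]
    exact ⟨EX_eq_EP F ha ht.1, EX_eq_EP F ha' ht.1⟩
  · rw [i1, tM]
    exact intervalIntegral.integral_congr_Ioo_of_le ht.1 e1
  · rw [i3, r2, ← q.tt, intervalIntegral.integral_congr_Ioo_of_le (sub_nonneg.2 ht.2)
      (g := fun s => et l l' (s + t)) (fun s hs => by
        have : 0 ≤ s + t := add_nonneg hs.1.le ht.1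
        simp only [et]
        rw [lvr_rest a t hs.1.le, lvr_rest a' t hs.1.le, q.lv _ this, q'.lv _ this]),
      intervalIntegral.integral_comp_add_right, zero_add, sub_add_cancel]
    rfl
  · rw [tM, intervalIntegral.integral_congr_Ioo_of_le ht.1
      (g := fun s => s * |lvr 1 l' s - lvr 1 l s|) (fun s hs => by rw [e1 s hs])] at i2
    exact i2
  · rw [Zs_int nM, tM]
    exact intervalIntegral.integral_congr_Ioo_of_le ht.1 fun s hs => by
      rw [lvr_cut a hs.2, q.lv s hs.1.le]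

theorem Nf_nonneg (l l' : List (ℝ × ℝ)) {a b : ℝ} (h : a ≤ b) : 0 ≤ Nf l l' a b :=
  intervalIntegral.integral_nonneg h fun _ _ => abs_nonneg _

theorem Nf_add (l l' : List (ℝ × ℝ)) (a b c : ℝ) : Nf l l' a b + Nf l l' b c = Nf l l' a c :=
  intervalIntegral.integral_add_adjacent_intervals (et_ii l l' a b) (et_ii l l' b c)

theorem Wf_nonneg (l l' : List (ℝ × ℝ)) {t : ℝ} (h : 0 ≤ t) : 0 ≤ Wf l l' t :=
  intervalIntegral.integral_nonneg h fun _ hs => mul_nonneg hs.1 (abs_nonneg _)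

theorem Zf_mem {l : List (ℝ × ℝ)} (h : Adm 1 l) {t : ℝ} (ht : 0 ≤ t) : Zf l t ∈ Icc 0 t :=
  ⟨intervalIntegral.integral_nonneg ht fun s _ => (lvr_pos h s).le, by
    simpa [Zf] using intervalIntegral.integral_mono_on ht (lvr_ii l 0 t)
      (intervalIntegrable_const (c := (1:ℝ))) fun s _ => (lvr_mem h s).2⟩

theorem Wf_le {l l' : List (ℝ × ℝ)} {Y t : ℝ} (ht : 0 ≤ t)
    (h : ∀ s, Y ≤ s → s ≤ t → lvr 1 l' s = lvr 1 l s) : Wf l l' t ≤ Y * Nf l l' 0 t := by
  rw [Nf, ← intervalIntegral.integral_const_mul]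
  refine intervalIntegral.integral_mono_on ht (wet_ii l l' 0 t) ((et_ii l l' 0 t).const_mul Y)
    fun s hs => ?_
  rcases le_total s Y with h1 | h1
  · exact mul_le_mul_of_nonneg_right h1 (abs_nonneg _)
  · simp [h s h1 hs.2]

theorem Nf_zero {l l' : List (ℝ × ℝ)} {a b : ℝ} (hab : a ≤ b)
    (h : ∀ s, a < s → s < b → lvr 1 l' s = lvr 1 l s) : Nf l l' a b = 0 := by
  rw [Nf, intervalIntegral.integral_congr_Ioo_of_le hab (g := fun _ => 0)
    fun s hs => by simp [h s hs.1 hs.2]]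
  simp

/-- **all space derivatives**: only the tilts above `t` matter -/
theorem Dn_lip (T : ℝ) (k : ℕ) : ∃ C : ℝ, 1 ≤ C ∧ ∀ l l' : List (ℝ × ℝ), Adm 1 l → Adm 1 l' →
    TT l' = TT l → TT l ≤ T → ∀ t ∈ Icc 0 (TT l), ∀ j ≤ k, ∀ x,
      |Dn j (PhiT 1 l' t) x - Dn j (PhiT 1 l t) x| ≤ C * Nf l l' t (TT l) := by
  obtain ⟨C, h1, hC⟩ := Dn_sl T k
  refine ⟨C, h1, fun l l' h h' e hT t ht j hj x => ?_⟩
  obtain ⟨M, M', R, R', -, s, -, -, a, a', -, -, tR, p, p', -, -, n, -⟩ := exists_cut h h' e ht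
  rw [p, p', ← n]
  exact hC R R' s a a' (by linarith [ht.1]) j hj x

theorem phiT_eq {l l' : List (ℝ × ℝ)} (h : Adm 1 l) (h' : Adm 1 l') (e : TT l' = TT l) {t : ℝ}
    (ht : t ∈ Icc 0 (TT l)) (h0 : Nf l l' t (TT l) = 0) : PhiT 1 l' t = PhiT 1 l t := by
  obtain ⟨M, M', R, R', -, s, -, -, a, a', -, -, -, p, p', -, -, n, -⟩ := exists_cut h h' e ht
  rw [p, p', (eqv_of_dN s a a' (n.trans h0)).phi]

/-- second moment: `E X_t² ≤ (x² + t) e^{2t}` -/
theorem EX_sq {l : List (ℝ × ℝ)} (h : Adm 1 l) {t : ℝ} (ht : t ∈ Icc 0 (TT l)) {F : ℝ → ℝ}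
    (hF : BD F) {A B : ℝ} (hB : 0 ≤ B) (hM : ∀ y, |F y| ≤ A + B * y ^ 2) (x : ℝ) :
    |EX 1 l t F x| ≤ A + B * ((x ^ 2 + t) * Real.exp (2 * t)) := by
  obtain ⟨M, M', R, R', -, -, a, -, -, -, -, tM, -, -, -, ex, -⟩ := exists_cut h h rfl ht
  rw [(ex F hF).1, ← tM]
  exact EP_sq R hF hB hM M a x

/-- derivatives of `x ↦ E_x F(X_t)` -/
theorem EX_der (T : ℝ) (k : ℕ) : ∃ C : ℝ, 1 ≤ C ∧ ∀ l : List (ℝ × ℝ), Adm 1 l → TT l ≤ T →
    ∀ t, 0 ≤ t → ∀ (F : ℝ → ℝ) (K : ℝ), BD F →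
    (∀ j, 1 ≤ j → j ≤ k → ∀ x, |iteratedDeriv j F x| ≤ K) →
    ∀ j, 1 ≤ j → j ≤ k → ∀ x, |iteratedDeriv j (EX 1 l t F) x| ≤ C * K := by
  obtain ⟨C, h1, hC⟩ := EP_der T k
  refine ⟨C, h1, fun l h hT t ht F K hF hK => ?_⟩
  rw [EX_eq_EP F h ht]
  exact hC _ _ F K (adm_cut h ht).1 ((adm_cut h ht).2.2.trans_le hT) hF hK

/-- **comparison of the laws**: plain, with the parity of the drift, with the parity of `F` -/
theorem EX_lip (T : ℝ) : ∃ C : ℝ, 1 ≤ C ∧ ∀ l l' : List (ℝ × ℝ), Adm 1 l → Adm 1 l' →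
    TT l' = TT l → TT l ≤ T → ∀ t ∈ Icc 0 (TT l), ∀ (F : ℝ → ℝ) (K : ℝ), BD F →
    (∀ x, |deriv F x| ≤ K) → ∀ x S W, S = Nf l l' 0 t + Zf l t * Nf l l' t (TT l) →
    W = Wf l l' t + t * Zf l t * Nf l l' t (TT l) →
    |EX 1 l' t F x - EX 1 l t F x| ≤ C * K * S ∧
    (∀ δ, 0 < δ → |EX 1 l' t F x - EX 1 l t F x| ≤ C * K * (δ * S + (W + S * x ^ 2) / δ)) ∧
    ((∀ x, F (-x) = F x) → (∀ x, |deriv (deriv F) x| ≤ K) →
      |EX 1 l' t F x - EX 1 l t F x| ≤ C * K * (W + S * x ^ 2)) := by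
  obtain ⟨C1, h1, hC1⟩ := EP_sl T
  obtain ⟨C2, h2, hC2⟩ := EP_gen T
  obtain ⟨C3, h3, hC3⟩ := EP_der T 1
  have c23 := one_le_mul_of_one_le_of_one_le h2 h3
  refine ⟨2 * C1 + C2 * C3, by linarith, fun l l' h h' e hT t ht F K hF hK x S W hS hW => ?_⟩
  obtain ⟨M, M', R, R', sM, sR, a, a', -, -, tt, tM, -, -, -, ex, n1, n2, n3, n4⟩ :=
    exists_cut h h' e ht
  have hK0 : 0 ≤ K := (abs_nonneg _).trans (hK 0)
  have z := (Zf_mem h ht.1).1
  have m1 := Nf_nonneg l l' ht.1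
  have m2 := Nf_nonneg l l' ht.2
  have m3 := Wf_nonneg l l' ht.1
  have t0 := ht.1
  have hS0 : 0 ≤ S := by rw [hS]; positivity
  have hW0 : 0 ≤ W := by rw [hW]; positivity
  have m4 : 0 ≤ t * Zf l t * Nf l l' t (TT l) := by positivity
  have m5 : 0 ≤ S * x ^ 2 := by positivity
  have w : dW M M' + t * Zf l t * Nf l l' t (TT l) + S * x ^ 2 ≤ 2 * (W + S * x ^ 2) := by
    linarith
  obtain ⟨k1, k2⟩ := hC1 R R' F K sR hF hK M M' sM a a' (tt.trans_le hT)
  rw [(ex F hF).1, (ex F hF).2]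
  rw [n1, n2, n4, ← hS] at k1 k2
  refine ⟨(k1 x).trans ?_, fun δ hδ => ?_, fun he hK2 => ?_⟩
  · gcongr
    linarith
  · have k3 := hC2 R R' F (C3 * K * (δ / 2)) (C3 * K * (1 / (2 * δ))) sR hF (by positivity)
      (by positivity) (fun N aN tN y => by
        have b := hC3 N R' F K aN tN hF (fun j j1 j2 y => by
          rw [le_antisymm j2 j1, iteratedDeriv_one]; exact hK y) 1 le_rfl le_rfl y
        rw [iteratedDeriv_one] at b
        have b2 : |y| ≤ δ / 2 + 1 / (2 * δ) * y ^ 2 := by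
          rw [← sq_abs y, ← sub_nonneg, show δ / 2 + 1 / (2 * δ) * |y| ^ 2 - |y| =
            (|y| - δ) ^ 2 / (2 * δ) by field_simp; ring]
          positivity
        refine (mul_le_mul b2 b (abs_nonneg _) (by positivity)).trans_eq (by ring))
      M M' sM a a' (tt.trans_le hT) x
    rw [n1, n2, n4, ← hS, tM] at k3
    refine k3.trans ?_
    have u1 := mul_le_mul_of_nonneg_left w
      (show 0 ≤ C2 * (C3 * K * (1 / (2 * δ))) by positivity)
    have u2 : C2 * (C3 * K * (1 / (2 * δ))) * (2 * (W + S * x ^ 2)) =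
        C2 * C3 * K * ((W + S * x ^ 2) / δ) := by field_simp
    have u3 : 0 ≤ C1 * K * (δ * S + (W + S * x ^ 2) / δ) := by positivity
    have u4 : 0 ≤ C2 * C3 * K * (δ * S) := by positivity
    nlinarith
  · have k3 := k2 he hK2 x
    rw [tM] at k3
    have u1 := mul_le_mul_of_nonneg_left w (show 0 ≤ C1 * K by positivity)
    have u3 : 0 ≤ C2 * C3 * K * (W + S * x ^ 2) := by positivity
    linarith

theorem EX_sub_le (l : List (ℝ × ℝ)) (t : ℝ) {F F' : ℝ → ℝ} (hF : BD F) (hF' : BD F') {M : ℝ}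
    (h : ∀ x, |F' x - F x| ≤ M) (x : ℝ) : |EX 1 l t F' x - EX 1 l t F x| ≤ M := by
  have key : ∀ {F F' : ℝ → ℝ}, BD F → BD F' → (∀ x, F' x ≤ F x + M) →
      EX 1 l t F' x ≤ EX 1 l t F x + M := fun {F F'} hF hF' h => by
    obtain ⟨K, hK⟩ := hF.bc
    obtain ⟨K', hK'⟩ := hF'.bc
    obtain ⟨K1, hK1⟩ := (BD.const M).bc
    obtain ⟨K2, hK2⟩ := (hF.add (BD.const M)).bc
    have := EX_mono one_pos l t hK' hK2 h x
    rwa [EX_add one_pos l t hK hK1, EX_const one_pos] at this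
  have a := key hF hF' fun y => by linarith [(abs_le.1 (h y)).2]
  have b := key hF' hF fun y => by linarith [(abs_le.1 (h y)).1]
  exact abs_le.2 ⟨by linarith, by linarith⟩

theorem S_le {l l' : List (ℝ × ℝ)} (h : Adm 1 l) {T t : ℝ} (hT : TT l ≤ T) (ht : t ∈ Icc 0 (TT l)) :
    Nf l l' 0 t + Zf l t * Nf l l' t (TT l) ≤ (1 + |T|) * Pr.dist1 l l' := by
  have z := Zf_mem h ht.1
  have m1 := Nf_nonneg l l' ht.1
  have m2 := Nf_nonneg l l' ht.2
  have e : Pr.dist1 l l' = Nf l l' 0 t + Nf l l' t (TT l) := (Nf_add l l' 0 t (TT l)).symm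
  have z2 : Zf l t ≤ |T| := by linarith [z.2, ht.2, le_abs_self T]
  rw [e]
  nlinarith [mul_le_mul_of_nonneg_right z2 m2, mul_nonneg (abs_nonneg T) m1]

/-- **(Lip1)** -/
theorem lip1S : Pr.Lip1S := by
  intro T
  obtain ⟨C1, h1, hC1⟩ := Dn_lip T 3
  obtain ⟨C2, h2, hC2⟩ := EX_lip T
  have hT1 : 1 ≤ 1 + |T| := by linarith [abs_nonneg T]
  have c2 := one_le_mul_of_one_le_of_one_le h2 hT1
  refine ⟨C1 + C2 * (1 + |T|), by linarith, fun l l' h h' e hT => ?_⟩
  have d0 : 0 ≤ Pr.dist1 l l' := Nf_nonneg l l' (Min62.TT_nn h.1)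
  refine ⟨fun k hk t ht x => ?_, fun F F' M La t ht hF hF' hM hL => ?_⟩
  · unfold Pr.Dk
    rcases le_total t (TT l) with h3 | h3
    · refine (hC1 l l' h.1 h'.1 e hT t ⟨ht, h3⟩ k hk x).trans (mul_le_mul (by linarith) ?_
        (Nf_nonneg l l' h3) (by linarith))
      have := Nf_nonneg l l' ht
      have e : Pr.dist1 l l' = Nf l l' 0 t + Nf l l' t (TT l) := (Nf_add l l' 0 t (TT l)).symm
      linarith
    · rw [PhiT_end (fun p hp => Adm.pos h.1 p hp) h3,
        PhiT_end (fun p hp => Adm.pos h'.1 p hp) (e.trans_le h3), sub_self, abs_zero]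
      positivity
  · have hL0 : 0 ≤ La := (abs_nonneg _).trans (hL 0)
    have a := EX_sub_le l' t hF hF' hM 0
    have b := ((hC2 l l' h.1 h'.1 e hT t ht F La hF hL 0 _ _ rfl rfl).1).trans
      (mul_le_mul_of_nonneg_left (S_le h.1 hT ht) (by positivity))
    have c : 0 ≤ C1 * La * Pr.dist1 l l' := by positivity
    refine (abs_sub_le _ (EX 1 l' t F 0) _).trans ?_
    unfold Pr.Et
    linarith

/-- **(Lip2)** -/
theorem lip2S : Pr.Lip2S := by
  intro T
  obtain ⟨C, h1, hC⟩ := EX_lip T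
  refine ⟨2 * C, by linarith, fun l l' h h' e hT Y hY hz t ht => ?_⟩
  have ht' : t ∈ Icc 0 (TT l) := ⟨hY.1.trans ht.1, ht.2⟩
  have n0 : Nf l l' t (TT l) = 0 := Nf_zero ht.2 fun s h1 _ => hz s (ht.1.trans h1.le)
  refine ⟨phiT_eq h.1 h'.1 e ht' n0, fun F La hF hL => ?_⟩
  have hL0 : 0 ≤ La := (abs_nonneg _).trans (hL 0)
  have e1 : Pr.dist1 l l' = Nf l l' 0 t := by
    have := Nf_add l l' 0 t (TT l)
    rw [n0, add_zero] at this
    exact this.symm
  obtain ⟨a, b, -⟩ := hC l l' h.1 h'.1 e hT t ht' F La hF hL 0 _ _ rfl rfl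
  rw [n0, mul_zero, add_zero] at a
  simp only [n0, mul_zero, add_zero, ne_eq, OfNat.ofNat_ne_zero, not_false_eq_true, zero_pow] at b
  rw [e1]
  rcases hY.1.eq_or_lt with rfl | hY0
  · rw [Nf_zero ht'.1 fun s h1 _ => hz s h1.le, mul_zero] at a ⊢
    exact a
  · have hs := Real.sqrt_pos.2 hY0
    refine (b _ hs).trans ?_
    have w : Wf l l' t / √Y ≤ √Y * Nf l l' 0 t := by
      rw [div_le_iff₀ hs, mul_right_comm, Real.mul_self_sqrt hY.1]
      exact Wf_le ht'.1 fun s h1 _ => hz s h1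
    nlinarith [mul_le_mul_of_nonneg_left w (show 0 ≤ C * La by positivity)]

end

end Crest.Agent.T156.Ker
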