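import Crest.Agent.T156.Pplus_69

/-!
Row 156 (helper48): `H⁻¹` strong convexity of the one-site Parisi recursion in the tilts.
With `D(s) = ∫_s^T (ζ¹ - ζ⁰)`:
`Φ_{ζ^θ}(0,0) ≤ (1-θ) Φ_{ζ⁰}(0,0) + θ Φ_{ζ¹}(0,0) - θ(1-θ) e^{-14T}/16 ∫ D²`.
Proof: a maximum principle in `(s, x, j)`.
-/

set_option autoImplicit false

namespace Crest.Agent.T156.Sc48

open MeasureTheory ProbabilityTheory Filter Topology Set
open Crest.Agent.R164.GC Crest.Agent.R339.B Crest.Agent.R339.Var Crest.Agent.T157.Pf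
open Crest.Agent.T156.Pp
open Crest.ProbabilityR.InvariantGlass (gaussOp)

noncomputable section

/-! ### an abstract maximum principle -/

theorem d2_test {g g1 : ℝ → ℝ} {g2 x : ℝ} (hmin : ∀ y, g x ≤ g y)
    (h1 : ∀ y, HasDerivAt g (g1 y) y) (h2 : HasDerivAt g1 g2 x) : g1 x = 0 ∧ 0 ≤ g2 := by
  have e0 : g1 x = 0 := IsLocalMin.hasDerivAt_eq_zero (Eventually.of_forall hmin) (h1 x)
  refine ⟨e0, not_lt.1 fun hneg => ?_⟩
  have hs := (hasDerivAt_iff_tendsto_slope.1 h2).eventually (gt_mem_nhds hneg)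
  rw [eventually_nhdsWithin_iff, Metric.eventually_nhds_iff] at hs
  obtain ⟨η, hη, hs⟩ := hs
  obtain ⟨c, hc, e⟩ := exists_hasDerivAt_eq_slope g g1 (show x < x + η / 2 by linarith)
    (fun y _ => (h1 y).continuousAt.continuousWithinAt) (fun y _ => h1 y)
  have h3 := hs (y := c) (by
    rw [Real.dist_eq, abs_of_pos (by linarith [hc.1])]; linarith [hc.2]) (ne_of_gt hc.1)
  rw [slope_def_field, e0, sub_zero] at h3
  have h4 : 0 ≤ g1 c := by
    rw [e]; exact div_nonneg (by linarith [hmin (x + η / 2)]) (by linarith)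
  exact absurd h3 (not_lt.2 (div_nonneg h4 (by linarith [hc.1])))

theorem left_test {f : ℝ → ℝ} {f' v : ℝ} (hv : 0 < v) (hmin : ∀ s ∈ Icc 0 v, f v ≤ f s)
    (h : HasDerivAt f f' v) : f' ≤ 0 := by
  refine not_lt.1 fun hpos => ?_
  have hs := (hasDerivAt_iff_tendsto_slope.1 h).eventually (lt_mem_nhds hpos)
  rw [eventually_nhdsWithin_iff, Metric.eventually_nhds_iff] at hs
  obtain ⟨η, hη, hs⟩ := hs
  have m1 := min_le_left (η / 2) v
  have m2 := min_le_right (η / 2) v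
  have m0 : 0 < min (η / 2) v := lt_min (by linarith) hv
  have h3 := hs (y := v - min (η / 2) v) (by
    rw [Real.dist_eq, abs_of_neg (by linarith)]; linarith) (ne_of_lt (by linarith))
  rw [slope_def_field] at h3
  have h4 := hmin (v - min (η / 2) v) ⟨by linarith, by linarith⟩
  exact absurd h3 (not_lt.2 (div_nonpos_of_nonneg_of_nonpos (by linarith) (by linarith)))

theorem far_le {a b C ε M : ℝ} (hC : 0 ≤ C) (hε : 0 < ε) (hM : 1 ≤ M)
    (hM' : 3 * C ≤ ε * M) (h : M < a ∨ M < b) : C * (1 + a + b) ≤ ε * (1 + a ^ 2 + b ^ 2) := by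
  have r1 := le_max_left a b
  have r2 := le_max_right a b
  have r3 : M < max a b := lt_max_iff.2 h
  have r4 : max a b ^ 2 ≤ 1 + a ^ 2 + b ^ 2 := by
    rcases max_cases a b with h | h <;> rw [h.1] <;> nlinarith
  set r := max a b
  calc C * (1 + a + b) ≤ C * (3 * r) := mul_le_mul_of_nonneg_left (by linarith) hC
    _ = 3 * C * r := by ring
    _ ≤ ε * r * r := mul_le_mul_of_nonneg_right
        (hM'.trans (mul_le_mul_of_nonneg_left r3.le hε.le)) (by linarith)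
    _ = ε * r ^ 2 := by ring
    _ ≤ _ := mul_le_mul_of_nonneg_left r4 hε.le

/-- maximum principle for `-∂_v + ∂_xx/2 + b ∂_x + c ∂_j`, `|b|,|c| ≤ 1` -/
theorem maxp {F : ℝ → ℝ → ℝ → ℝ} {d C : ℝ} (hd : 0 ≤ d) (hC : 0 ≤ C)
    (hc : Continuous fun p : ℝ × ℝ × ℝ => F p.1 p.2.1 p.2.2)
    (hb : ∀ v ∈ Icc 0 d, ∀ x j, -(C * (1 + |x| + |j|)) ≤ F v x j)
    (h0 : ∀ x j, 0 ≤ F 0 x j)
    (hL : ∀ v ∈ Ioc 0 d, ∀ x j, ∃ (Fv Fxx Fj b c : ℝ) (Fx : ℝ → ℝ),
      HasDerivAt (fun s => F s x j) Fv v ∧ (∀ y, HasDerivAt (fun y => F v y j) (Fx y) y) ∧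
      HasDerivAt Fx Fxx x ∧ HasDerivAt (fun k => F v x k) Fj j ∧ |b| ≤ 1 ∧ |c| ≤ 1 ∧
      -Fv + 1 / 2 * Fxx + b * Fx x + c * Fj ≤ 0) (x j : ℝ) : 0 ≤ F d x j := by
  refine not_lt.1 fun hneg => ?_
  have hB : 0 < Real.exp (4 * d) * (1 + x ^ 2 + j ^ 2) := by positivity
  set ε := -F d x j / (2 * (Real.exp (4 * d) * (1 + x ^ 2 + j ^ 2))) with hεd
  have hε : 0 < ε := div_pos (by linarith) (by positivity)
  set Hf : ℝ × ℝ × ℝ → ℝ := fun p =>
    F p.1 p.2.1 p.2.2 + ε * (Real.exp (4 * p.1) * (1 + p.2.1 ^ 2 + p.2.2 ^ 2)) with hH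
  have hHc : Continuous Hf := hc.add (by fun_prop)
  have hneg' : Hf (d, x, j) < 0 := by
    have : ε * (Real.exp (4 * d) * (1 + x ^ 2 + j ^ 2)) = -F d x j / 2 := by
      rw [hεd]; field_simp
    simp only [hH]; linarith
  set M := 1 + |x| + |j| + 3 * C / ε with hM
  have hq : 0 ≤ 3 * C / ε := by positivity
  have ax := abs_nonneg x
  have aj := abs_nonneg j
  have hK : IsCompact (Icc 0 d ×ˢ Icc (-M) M ×ˢ Icc (-M) M) :=
    isCompact_Icc.prod (isCompact_Icc.prod isCompact_Icc)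
  have hmem : (d, x, j) ∈ Icc 0 d ×ˢ Icc (-M) M ×ˢ Icc (-M) M :=
    ⟨⟨hd, le_rfl⟩, abs_le.1 (by simp only; linarith), abs_le.1 (by simp only; linarith)⟩
  obtain ⟨⟨v, y, k⟩, hp, hmin⟩ := hK.exists_isMinOn ⟨_, hmem⟩ hHc.continuousOn
  have hlt : Hf (v, y, k) < 0 := (hmin hmem).trans_lt hneg'
  have hall : ∀ s ∈ Icc 0 d, ∀ y' k', Hf (v, y, k) ≤ Hf (s, y', k') := by
    intro s hs y' k'
    by_cases hin : |y'| ≤ M ∧ |k'| ≤ M
    · exact hmin (show (s, y', k') ∈ Icc 0 d ×ˢ Icc (-M) M ×ˢ Icc (-M) M from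
        ⟨hs, abs_le.1 hin.1, abs_le.1 hin.2⟩)
    · have h1 := far_le (a := |y'|) (b := |k'|) hC hε (M := M) (by linarith)
        (by
          have : ε * (3 * C / ε) = 3 * C := by field_simp
          nlinarith) (by
          rw [not_and_or, not_le, not_le] at hin; exact hin)
      rw [sq_abs, sq_abs] at h1
      have h2 := hb s hs y' k'
      have h3 : 1 ≤ Real.exp (4 * s) := Real.one_le_exp (by linarith [hs.1])
      have h4 : 1 + y' ^ 2 + k' ^ 2 ≤ Real.exp (4 * s) * (1 + y' ^ 2 + k' ^ 2) :=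
        le_mul_of_one_le_left (by positivity) h3
      have h5 := mul_le_mul_of_nonneg_left h4 hε.le
      simp only [hH] at hlt ⊢
      linarith
  have hv : v ∈ Icc 0 d := hp.1
  rcases hv.1.eq_or_lt with h00 | hvp
  · subst h00
    have := h0 y k
    have h2 : 0 ≤ ε * (Real.exp (4 * 0) * (1 + y ^ 2 + k ^ 2)) := by positivity
    simp only [hH] at hlt
    linarith
  obtain ⟨Fv, Fxx, Fj, b, c, Fx, a1, a2, a3, a4, a5, a6, a7⟩ := hL v ⟨hvp, hv.2⟩ y k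
  set E := Real.exp (4 * v) with hE
  have hE0 : 0 < E := Real.exp_pos _
  have t1 := left_test (f := fun s => Hf (s, y, k)) hvp
    (fun s hs => hall s ⟨hs.1, hs.2.trans hv.2⟩ y k)
    (a1.fun_add (((((hasDerivAt_id' v).const_mul 4).exp).mul_const
      (1 + y ^ 2 + k ^ 2)).const_mul ε))
  have t2 := d2_test (g := fun y' => Hf (v, y', k)) (g1 := fun y' => Fx y' + ε * (E * (2 * y')))
    (g2 := Fxx + ε * (E * 2)) (fun y' => hall v hv y' k)
    (fun y' => ((a2 y').fun_add ((((((hasDerivAt_id' y').fun_pow 2).const_add 1).add_const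
      (k ^ 2)).const_mul E).const_mul ε)).congr_deriv (by simp))
    ((a3.fun_add ((((hasDerivAt_id' y).const_mul 2).const_mul E).const_mul ε)).congr_deriv
      (by simp))
  have t3 : Fj + ε * (E * (2 * k)) = 0 :=
    IsLocalMin.hasDerivAt_eq_zero (f := fun k' => Hf (v, y, k'))
      (Eventually.of_forall fun k' => hall v hv y k')
      ((a4.fun_add (((((hasDerivAt_id' k).fun_pow 2).const_add (1 + y ^ 2)).const_mul E).const_mul
        ε)).congr_deriv (by simp))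
  obtain ⟨t2, t4⟩ := t2
  rw [← hE] at t1
  have e1 : Fx y = -(ε * (E * (2 * y))) := by linarith
  have e2 : Fj = -(ε * (E * (2 * k))) := by linarith
  rw [e1, e2] at a7
  have b1 : b * (2 * y) ≤ 1 + y ^ 2 := by
    have := abs_le.1 a5
    nlinarith [sq_nonneg (y - b), sq_nonneg b]
  have b2 : c * (2 * k) ≤ 1 + k ^ 2 := by
    have := abs_le.1 a6
    nlinarith [sq_nonneg (k - c), sq_nonneg c]
  have hεE : 0 < ε * E := mul_pos hε hE0
  have b3 : ε * E * (1 + b * (2 * y) + c * (2 * k)) < ε * E * (4 * (1 + y ^ 2 + k ^ 2)) :=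
    mul_lt_mul_of_pos_left (by nlinarith [sq_nonneg y, sq_nonneg k]) hεE
  nlinarith

/-! ### one block -/

/-- `sech²` -/
def sg (j : ℝ) : ℝ := 1 - th 1 j ^ 2

theorem sg_eq (j : ℝ) : sg j = 1 / Real.cosh j ^ 2 := by
  unfold sg; rw [one_sub_th_sq, one_mul]

theorem sg_pos (j : ℝ) : 0 < sg j := by
  rw [sg_eq]; have := Real.cosh_pos j; positivity

theorem sg_le (j : ℝ) : sg j ≤ 1 := by
  unfold sg; nlinarith [sq_nonneg (th 1 j)]

theorem sg_sq (j : ℝ) : sg j * j ^ 2 ≤ 1 := by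
  rw [sg_eq, one_div, inv_mul_le_iff₀ (by have := Real.cosh_pos j; positivity), mul_one]
  have h1 : |j| ≤ Real.cosh j := by
    rw [← Real.cosh_abs]
    exact (Real.self_le_sinh_iff.2 (abs_nonneg j)).trans (Real.sinh_lt_cosh _).le
  rw [← sq_abs j]
  exact pow_le_pow_left₀ (abs_nonneg j) h1 2

theorem sg_d (j : ℝ) : HasDerivAt sg (-2 * th 1 j * sg j) j := by
  have := ((th_hasDerivAt 1 j).fun_pow 2).const_sub 1
  refine this.congr_deriv ?_
  unfold sg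
  norm_num

theorem ug_comp {X : Type} [TopologicalSpace X] {G : ℝ → ℝ → ℝ} (h : UG G) {a b : X → ℝ}
    (ha : Continuous a) (hb : Continuous b) : Continuous fun p => G (a p) (b p) :=
  h.cont.comp (ha.prodMk hb)

theorem sg_cont : Continuous sg :=
  continuous_iff_continuousAt.2 fun j => (sg_d j).continuousAt

/-- the subsolution -/
def Sb (u a D R τ j : ℝ) : ℝ :=
  Real.exp (-11 * τ) * (sg j * (a * (j + D * u) ^ 2 + a ^ 3 * R / 2))

/-- the propagated inequality -/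
def Gd (θ c : ℝ) (Φ0 Φ1 Φ : ℝ → ℝ) (D R τ : ℝ) : Prop :=
  ∀ x j, c * Sb (deriv Φ x) (deriv (deriv Φ) x) D R τ j ≤
    (1 - θ) * Φ0 (x - θ * j) + θ * Φ1 (x + (1 - θ) * j) - Φ x

theorem tb_ex {Φ : ℝ → ℝ} {m : ℝ} {F LF Fx : ℝ → ℝ → ℝ} (h : Prof Φ) (hm : m ≠ 0)
    (t : TB Φ m F LF Fx) {v : ℝ} (hv : 0 < v) (x : ℝ) : ∃ Fxx,
    HasDerivAt (fun s => F s x) (1 / 2 * Fxx + m * U Φ m 1 v x * Fx v x - LF v x) v ∧
      HasDerivAt (Fx v) Fxx x := by
  obtain ⟨Fv, Fxx, a1, _, a3, _, _, _, _, a8⟩ := t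
  refine ⟨Fxx v x, (a1 v x hv).congr_deriv ?_, a3 v x⟩
  rw [a8, U1_eq h hm]
  field_simp
  ring

theorem alg {m δ e σ t a u w D R j : ℝ} (he : 0 ≤ e) (hσ : 0 ≤ σ) (ht : |t| ≤ 1) (hu : |u| ≤ 1)
    (hδ : |δ| ≤ 1) (ha : 0 ≤ a) (hma : m * a ≤ 1) (hw : |w| ≤ 2 * a) (hR : 0 ≤ R) :
    0 ≤ e * (11 * (σ * (a * (j + D * u) ^ 2 + a ^ 3 * R / 2)) +
      δ * u * (-2 * t * σ) * (a * (j + D * u) ^ 2 + a ^ 3 * R / 2) +
      σ * (a ^ 3 * D ^ 2 / 2 - m * a * (a * (j + D * u) ^ 2) + 2 * w * (j + D * u) * D * a +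
        R / 2 * (3 * a * w ^ 2 - 3 * (m * a) * a ^ 3))) := by
  set Z := j + D * u
  have hQ1 : 0 ≤ a * Z ^ 2 := by positivity
  have hQ2 : 0 ≤ a ^ 3 * R / 2 := by positivity
  have h1 : δ * u * t ≤ 1 := by
    have : |δ * u * t| ≤ 1 := by
      rw [abs_mul, abs_mul]
      exact mul_le_one₀ (mul_le_one₀ hδ (abs_nonneg _) hu) (abs_nonneg _) ht
    exact (le_abs_self _).trans this
  have h2 : w ^ 2 ≤ 4 * a ^ 2 := by
    have := pow_le_pow_left₀ (abs_nonneg w) hw 2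
    rw [sq_abs] at this; linarith
  have h3 : 0 ≤ 8 * Z ^ 2 + 2 * w * Z * D + a ^ 2 * D ^ 2 / 2 := by
    nlinarith [sq_nonneg (8 * Z + w * D), mul_le_mul_of_nonneg_right h2 (sq_nonneg D)]
  have h4 := mul_nonneg ha h3
  have h5 := mul_le_mul_of_nonneg_right h1 (add_nonneg hQ1 hQ2)
  have h6 := mul_le_mul_of_nonneg_right hma hQ1
  have h7 := mul_le_mul_of_nonneg_right hma hQ2
  have h8 : 0 ≤ R * (a * w ^ 2) := by positivity
  refine mul_nonneg he ?_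
  have : 0 ≤ σ * (11 * (a * Z ^ 2 + a ^ 3 * R / 2) - 2 * (δ * u * t * (a * Z ^ 2 + a ^ 3 * R / 2)) +
      (a ^ 3 * D ^ 2 / 2 - m * a * (a * Z ^ 2) + 2 * w * Z * D * a +
        R / 2 * (3 * a * w ^ 2 - 3 * (m * a) * a ^ 3))) := mul_nonneg hσ (by nlinarith)
  linarith

theorem R_nonneg {D R δ v : ℝ} (hR : 0 ≤ R) (hv : 0 ≤ v) :
    0 ≤ R + (D ^ 2 * v + D * δ * v ^ 2 + δ ^ 2 * v ^ 3 / 3) := by
  have : 0 ≤ v * ((D + δ * v / 2) ^ 2 + (δ * v) ^ 2 / 12) := by positivity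
  nlinarith

theorem Sb_le {u a D R τ j : ℝ} (hu : |u| ≤ 1) (ha : 0 ≤ a) (ha1 : a ≤ 1) (hR : 0 ≤ R) :
    Sb u a D R τ j ≤ Real.exp (-11 * τ) * (2 + 2 * D ^ 2 + R / 2) := by
  unfold Sb
  refine mul_le_mul_of_nonneg_left ?_ (Real.exp_pos _).le
  have h1 : u ^ 2 ≤ 1 := (sq_le_one_iff_abs_le_one u).2 hu
  have h2 : (j + D * u) ^ 2 ≤ 2 * j ^ 2 + 2 * D ^ 2 := by
    nlinarith [sq_nonneg (j - D * u), mul_le_mul_of_nonneg_left h1 (sq_nonneg D)]
  have h3 : a * (j + D * u) ^ 2 ≤ 2 * j ^ 2 + 2 * D ^ 2 :=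
    (mul_le_of_le_one_left (sq_nonneg _) ha1).trans h2
  have h4 : a ^ 3 * R / 2 ≤ R / 2 := by
    have := mul_le_of_le_one_left hR (pow_le_one₀ ha ha1 (n := 3))
    linarith
  have h5 := mul_le_mul_of_nonneg_left (add_le_add h3 h4) (sg_pos j).le
  have h6 := sg_sq j
  have h7 := mul_le_of_le_one_left (show 0 ≤ 2 * D ^ 2 + R / 2 by positivity) (sg_le j)
  nlinarith

theorem Gd.step {θ c m0 m δ D R τ d : ℝ} {Φ0 Φ1 Φ : ℝ → ℝ} (hθ0 : 0 ≤ θ) (hθ1 : θ ≤ 1)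
    (hc : 0 ≤ c) (h0 : Prof Φ0) (h1 : Prof Φ1) (h : Inv 1 m Φ) (hU : Up2 1 Φ) (hm0 : 0 < m0)
    (hm1 : 0 < m0 + δ) (hm : m = m0 + θ * δ) (hmp : 0 < m) (hml : m ≤ 1) (hδ : |δ| ≤ 1)
    (hR : 0 ≤ R) (hd : 0 ≤ d) (hG : Gd θ c Φ0 Φ1 Φ D R τ) :
    Gd θ c (gaussOp m0 d Φ0) (gaussOp (m0 + δ) d Φ1) (gaussOp m d Φ) (D + δ * d)
      (R + (D ^ 2 * d + D * δ * d ^ 2 + δ ^ 2 * d ^ 3 / 3)) (τ + d) := by
  have hp := h.prof
  have tA := tb_U0 h0 hm0.ne'
  have tB := tb_U0 h1 hm1.ne'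
  have t0 := tb_U0 hp hmp.ne'
  have t1 := tb_U1 hp hmp.ne'
  have t2 := tb_U2 hp hmp.ne'
  have cs := sg_cont
  set F : ℝ → ℝ → ℝ → ℝ := fun v x j =>
    (1 - θ) * U Φ0 m0 0 v (x - θ * j) + θ * U Φ1 (m0 + δ) 0 v (x + (1 - θ) * j) - U Φ m 0 v x -
      c * (Real.exp (-11 * (τ + v)) * (sg j * (U Φ m 2 v x * (j + (D + δ * v) * U Φ m 1 v x) ^ 2 +
        U Φ m 2 v x ^ 3 * (R + (D ^ 2 * v + D * δ * v ^ 2 + δ ^ 2 * v ^ 3 / 3)) / 2))) with hF
  have facts : ∀ v, 0 ≤ v → ∀ x, |U Φ m 1 v x| ≤ 1 ∧ 0 ≤ U Φ m 2 v x ∧ U Φ m 2 v x ≤ 1 ∧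
      |U Φ m 3 v x| ≤ 2 * U Φ m 2 v x := by
    intro v hv x
    have hI := h.step hmp hml v
    have hU' := Up2.step h hU hmp hml hv
    rw [U_one, U_two, U_three]
    have p1 := hI.prof.b1 x
    have p2 := (u2_pos hI x).le
    refine ⟨p1, p2, Inv.d2_le hI one_pos x, (d3_abs_le hI hU' hmp x).trans ?_⟩
    have := mul_le_of_le_one_right (show 0 ≤ 2 * 1 * deriv (deriv (gaussOp m v Φ)) x by
      positivity) p1
    linarith
  -- lower bound
  have ck : Continuous fun v : ℝ => (1 - θ) * U Φ0 m0 0 v 0 + θ * U Φ1 (m0 + δ) 0 v 0 -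
      U Φ m 0 v 0 - c * (Real.exp (-11 * (τ + v)) * (2 + 2 * (D + δ * v) ^ 2 +
        (R + (D ^ 2 * v + D * δ * v ^ 2 + δ ^ 2 * v ^ 3 / 3)) / 2)) := by
    exact (((continuous_const.mul (ug_comp tA.ug continuous_id' continuous_const)).add
      (continuous_const.mul (ug_comp tB.ug continuous_id' continuous_const))).sub
      (ug_comp t0.ug continuous_id' continuous_const)).sub (by fun_prop)
  obtain ⟨C, hC⟩ := (isCompact_Icc (a := (0 : ℝ)) (b := d)).exists_bound_of_continuousOn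
    ck.continuousOn
  have hC0 : 0 ≤ C := (norm_nonneg _).trans (hC 0 ⟨le_rfl, hd⟩)
  have key := maxp (F := F) (C := C + 2) hd (by linarith) ?_ ?_ ?_ ?_
  · intro x j
    have := key x j
    simp only [hF, U_zero, U_one, U_two] at this
    unfold Sb
    linarith
  · have e1 : Continuous fun p : ℝ × ℝ × ℝ => p.2.1 - θ * p.2.2 := by fun_prop
    have e2 : Continuous fun p : ℝ × ℝ × ℝ => p.2.1 + (1 - θ) * p.2.2 := by fun_prop
    have e3 : Continuous fun p : ℝ × ℝ × ℝ => p.2.1 := by fun_prop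
    have e0 : Continuous fun p : ℝ × ℝ × ℝ => p.1 := by fun_prop
    have f1 := ug_comp t1.ug e0 e3
    have f2 := ug_comp t2.ug e0 e3
    have e4 : Continuous fun p : ℝ × ℝ × ℝ => p.2.2 := by fun_prop
    have e5 : Continuous fun p : ℝ × ℝ × ℝ => Real.exp (-11 * (τ + p.1)) := by fun_prop
    have e6 : Continuous fun p : ℝ × ℝ × ℝ => D + δ * p.1 := by fun_prop
    have e7 : Continuous fun p : ℝ × ℝ × ℝ =>
      R + (D ^ 2 * p.1 + D * δ * p.1 ^ 2 + δ ^ 2 * p.1 ^ 3 / 3) := by fun_prop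
    exact (((continuous_const.mul (ug_comp tA.ug e0 e1)).add
      (continuous_const.mul (ug_comp tB.ug e0 e2))).sub (ug_comp t0.ug e0 e3)).sub
      (continuous_const.mul (e5.mul ((cs.comp e4).mul ((f2.mul ((e4.add (e6.mul f1)).pow 2)).add
        (((f2.pow 3).mul e7).div_const 2)))))
  · intro v hv x j
    obtain ⟨p1, p2, p3, -⟩ := facts v hv.1 x
    have q0 := (abs_le.1 (hC v hv)).1
    have q1 := (h0.step m0 v).lip 0 (x - θ * j)
    have q2 := (h1.step (m0 + δ) v).lip 0 (x + (1 - θ) * j)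
    have q3 := (hp.step m v).lip x 0
    have aj := abs_nonneg j
    have ax := abs_nonneg x
    have r1 : |0 - (x - θ * j)| ≤ |x| + |j| := by
      rw [zero_sub, abs_neg]
      refine (abs_sub _ _).trans ?_
      rw [abs_mul, abs_of_nonneg hθ0]
      nlinarith
    have r2 : |0 - (x + (1 - θ) * j)| ≤ |x| + |j| := by
      rw [zero_sub, abs_neg]
      refine (abs_add_le _ _).trans ?_
      rw [abs_mul, abs_of_nonneg (sub_nonneg.2 hθ1)]
      nlinarith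
    rw [sub_zero] at q3
    have s1 := mul_le_mul_of_nonneg_left (q1.trans (by linarith : _ ≤ gaussOp m0 v Φ0 (x - θ * j) +
      (|x| + |j|))) (sub_nonneg.2 hθ1)
    have s2 := mul_le_mul_of_nonneg_left (q2.trans (by linarith :
      _ ≤ gaussOp (m0 + δ) v Φ1 (x + (1 - θ) * j) + (|x| + |j|))) hθ0
    have s3 := mul_le_mul_of_nonneg_left (Sb_le (D := D + δ * v) (τ := τ + v) (j := j) p1 p2 p3
      (R_nonneg (D := D) (δ := δ) hR hv.1)) hc
    unfold Sb at s3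
    simp only [hF, U_zero] at q0 ⊢
    nlinarith [mul_nonneg hC0 ax, mul_nonneg hC0 aj]
  · intro x j
    have := hG x j
    unfold Sb at this
    rw [neg_mul] at this
    simp only [hF, U_zero, U_one, U_two, gaussOp_v0 hm0.ne', gaussOp_v0 hm1.ne', gaussOp_v0 hmp.ne']
    norm_num
    linarith
  · intro v hv x j
    obtain ⟨p1, p2, p3, p4⟩ := facts v hv.1.le x
    obtain ⟨q0, A1, A2⟩ := tb_ex h0 hm0.ne' tA hv.1 (x - θ * j)
    obtain ⟨q1, B1, B2⟩ := tb_ex h1 hm1.ne' tB hv.1 (x + (1 - θ) * j)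
    obtain ⟨a', C1, C2⟩ := tb_ex hp hmp.ne' t0 hv.1 x
    obtain ⟨w', D1, D2⟩ := tb_ex hp hmp.ne' t1 hv.1 x
    obtain ⟨z, E1, E2⟩ := tb_ex hp hmp.ne' t2 hv.1 x
    obtain rfl : a' = U Φ m 2 v x := C2.unique (t1.dx v x)
    obtain rfl : w' = U Φ m 3 v x := D2.unique (t2.dx v x)
    have iv := hasDerivAt_id' v
    have dD := (iv.const_mul δ).const_add D
    have dR := (((iv.const_mul (D ^ 2)).fun_add ((iv.fun_pow 2).const_mul (D * δ))).fun_add
      (((iv.fun_pow 3).const_mul (δ ^ 2)).div_const 3)).const_add R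
    have dE := ((iv.const_add τ).const_mul (-11)).exp
    set e := Real.exp (-11 * (τ + v)) with he
    set Dv := D + δ * v with hDv
    set Rv := R + (D ^ 2 * v + D * δ * v ^ 2 + δ ^ 2 * v ^ 3 / 3) with hRv
    have sA : ∀ y, HasDerivAt (fun y => y - θ * j) 1 y := fun y => (hasDerivAt_id' y).sub_const _
    have sB : ∀ y, HasDerivAt (fun y => y + (1 - θ) * j) 1 y :=
      fun y => (hasDerivAt_id' y).add_const _
    have dZ := fun y => ((t1.dx v y).const_mul Dv).const_add j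
    have jA := ((hasDerivAt_id' j).const_mul θ).const_sub x
    have jB := ((hasDerivAt_id' j).const_mul (1 - θ)).const_add x
    refine ⟨_, _, _, m * U Φ m 1 v x, δ * U Φ m 1 v x,
      fun y => (1 - θ) * U Φ0 m0 1 v (y - θ * j) + θ * U Φ1 (m0 + δ) 1 v (y + (1 - θ) * j) -
        U Φ m 1 v y - c * (e * (sg j * (U Φ m 3 v y * (j + Dv * U Φ m 1 v y) ^ 2 +
          2 * Dv * (U Φ m 2 v y ^ 2 * (j + Dv * U Φ m 1 v y)) +
          3 * Rv / 2 * (U Φ m 2 v y ^ 2 * U Φ m 3 v y)))),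
      (((A1.const_mul (1 - θ)).fun_add (B1.const_mul θ)).fun_sub C1).fun_sub
        ((dE.fun_mul (((E1.fun_mul (((dD.fun_mul D1).const_add j).fun_pow 2)).fun_add
          (((E1.fun_pow 3).fun_mul dR).div_const 2)).const_mul (sg j))).const_mul c),
      fun y => ((((((tA.dx v _).comp y (sA y)).const_mul (1 - θ)).fun_add
        (((tB.dx v _).comp y (sB y)).const_mul θ)).fun_sub (t0.dx v y)).fun_sub
        ((((((t2.dx v y).fun_mul ((dZ y).fun_pow 2)).fun_add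
          ((((t2.dx v y).fun_pow 3).mul_const Rv).div_const 2)).const_mul (sg j)).const_mul
            e).const_mul c)).congr_deriv ?_,
      ((((A2.comp x (sA x)).const_mul (1 - θ)).fun_add
        ((B2.comp x (sB x)).const_mul θ)).fun_sub (t1.dx v x)).fun_sub
        ((((((E2.fun_mul ((dZ x).fun_pow 2)).fun_add
          ((((t2.dx v x).fun_pow 2).fun_mul (dZ x)).const_mul (2 * Dv))).fun_add
          ((((t2.dx v x).fun_pow 2).fun_mul E2).const_mul (3 * Rv / 2))).const_mul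
            (sg j)).const_mul e).const_mul c),
      (((((tA.dx v _).comp j jA).const_mul (1 - θ)).fun_add
        (((tB.dx v _).comp j jB).const_mul θ)).sub_const (U Φ m 0 v x)).fun_sub
        ((((sg_d j).fun_mul ((((((hasDerivAt_id' j).add_const (Dv * U Φ m 1 v x)).fun_pow
          2).const_mul (U Φ m 2 v x))).add_const (U Φ m 2 v x ^ 3 * Rv / 2))).const_mul
            e).const_mul c), ?_, ?_, ?_⟩
    · simp only [Nat.cast_ofNat, Nat.reduceSub, pow_one]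
      ring
    · rw [abs_mul, abs_of_pos hmp]
      exact mul_le_one₀ hml (abs_nonneg _) p1
    · rw [abs_mul]
      exact mul_le_one₀ hδ (abs_nonneg _) p1
    · have k1 := mul_nonneg hc (alg (m := m) (D := Dv) (j := j) (Real.exp_pos (-11 * (τ + v))).le
        (sg_pos j).le (th_abs_le 1 j) p1 hδ p2 (mul_le_one₀ hml p2 p3) p4
        (R_nonneg (D := D) (δ := δ) hR hv.1.le))
      rw [← he, ← hRv] at k1
      have k2 := mul_nonneg (mul_nonneg (sub_nonneg.2 hθ1) hm0.le)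
        (sq_nonneg (U Φ0 m0 1 v (x - θ * j) - U Φ m 1 v x))
      have k3 := mul_nonneg (mul_nonneg hθ0 hm1.le)
        (sq_nonneg (U Φ1 (m0 + δ) 1 v (x + (1 - θ) * j) - U Φ m 1 v x))
      have eR : D ^ 2 * 1 + D * δ * ((2 : ℕ) * v ^ (2 - 1) * 1) +
          δ ^ 2 * ((3 : ℕ) * v ^ (3 - 1) * 1) / 3 = Dv ^ 2 := by
        rw [hDv]; norm_num; ring
      beta_reduce
      rw [eR]
      simp only [← he, ← hDv, ← hRv]
      generalize U Φ0 m0 1 v (x - θ * j) = p0 at *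
      generalize U Φ1 (m0 + δ) 1 v (x + (1 - θ) * j) = p1' at *
      generalize U Φ m 1 v x = u at *
      generalize U Φ m 2 v x = a at *
      generalize U Φ m 3 v x = w at *
      clear_value e Dv Rv
      subst hm
      refine neg_nonneg.1 ((add_nonneg (add_nonneg k1 (div_nonneg k2 zero_le_two))
        (div_nonneg k3 zero_le_two)).trans_eq ?_)
      simp only [Nat.cast_ofNat, Nat.reduceSub, pow_one]
      ring

/-! ### the terminal condition -/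

theorem sg_lower {x y j : ℝ} (h : |y - x| ≤ |j|) : sg j * sg x / 4 ≤ sg y := by
  have cx := Real.cosh_pos x
  have cj := Real.cosh_pos j
  have cy := Real.cosh_pos y
  have h1 : Real.cosh y ≤ 2 * (Real.cosh x * Real.cosh j) := by
    have e : y = x + (y - x) := by ring
    have a1 : Real.cosh (y - x) ≤ Real.cosh j := Real.cosh_le_cosh.2 h
    have ab : ∀ t, |Real.sinh t| ≤ Real.cosh t := fun t => by
      rw [Real.abs_sinh, ← Real.cosh_abs]; exact (Real.sinh_lt_cosh _).le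
    have a2 : Real.sinh x * Real.sinh (y - x) ≤ Real.cosh x * Real.cosh (y - x) := by
      refine (le_abs_self _).trans ?_
      rw [abs_mul]
      exact mul_le_mul (ab _) (ab _) (abs_nonneg _) cx.le
    have a3 := mul_le_mul_of_nonneg_left a1 cx.le
    rw [e, Real.cosh_add]
    linarith
  rw [sg_eq, sg_eq, sg_eq]
  have h2 := pow_le_pow_left₀ cy.le h1 2
  calc 1 / Real.cosh j ^ 2 * (1 / Real.cosh x ^ 2) / 4
      = 1 / (2 * (Real.cosh x * Real.cosh j)) ^ 2 := by field_simp; ring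
    _ ≤ _ := one_div_le_one_div_of_le (by positivity) h2

theorem gd_phi0 {θ : ℝ} (hθ0 : 0 ≤ θ) (hθ1 : θ ≤ 1) :
    Gd θ (θ * (1 - θ) / 8) (phi0 1) (phi0 1) (phi0 1) 0 0 0 := by
  intro x j
  set κ := sg j * sg x / 4 with hκ
  have d1 : ∀ y, HasDerivAt (fun y => phi0 1 y - κ * y ^ 2 / 2) (th 1 y - κ * y) y := fun y =>
    ((phi0_hasDerivAt one_pos y).fun_sub ((((hasDerivAt_id' y).fun_pow 2).const_mul κ).div_const
      2)).congr_deriv (by
        simp only [Nat.cast_ofNat, Nat.reduceSub, pow_one]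
        unfold th
        ring)
  have d2 : ∀ y, HasDerivAt (fun y => th 1 y - κ * y) (sg y - κ) y := fun y =>
    ((th_hasDerivAt 1 y).fun_sub ((hasDerivAt_id' y).const_mul κ)).congr_deriv (by
      unfold sg; ring)
  have mono : MonotoneOn (fun y => th 1 y - κ * y) (Icc (x - |j|) (x + |j|)) :=
    monotoneOn_of_block (fun y _ => (d2 y).continuousAt.continuousWithinAt) (fun y _ => d2 y)
      (fun y hy => sub_nonneg.2 (sg_lower (abs_le.2 ⟨by linarith [hy.1], by linarith [hy.2]⟩)))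
  have conv : ConvexOn ℝ (Icc (x - |j|) (x + |j|)) (fun y => phi0 1 y - κ * y ^ 2 / 2) := by
    refine MonotoneOn.convexOn_of_deriv (convex_Icc _ _)
      (fun y _ => (d1 y).continuousAt.continuousWithinAt)
      (fun y _ => (d1 y).differentiableAt.differentiableWithinAt) ?_
    rw [show deriv (fun y => phi0 1 y - κ * y ^ 2 / 2) = fun y => th 1 y - κ * y from
      funext fun y => (d1 y).deriv]
    exact mono.mono interior_subset
  have aj := abs_nonneg j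
  have b1 : |θ * j| ≤ |j| := by rw [abs_mul, abs_of_nonneg hθ0]; nlinarith
  have b2 : |(1 - θ) * j| ≤ |j| := by
    rw [abs_mul, abs_of_nonneg (sub_nonneg.2 hθ1)]; nlinarith
  have b3 := abs_le.1 b1
  have b4 := abs_le.1 b2
  have key := conv.2 (x := x - θ * j) (y := x + (1 - θ) * j) ⟨by linarith, by linarith⟩
    ⟨by linarith, by linarith⟩ (sub_nonneg.2 hθ1) hθ0 (by ring)
  simp only [smul_eq_mul] at key
  rw [show (1 - θ) * (x - θ * j) + θ * (x + (1 - θ) * j) = x by ring] at key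
  unfold Sb
  rw [phi0_deriv2 one_pos]
  have e : (1:ℝ) * (1 - th 1 x ^ 2) = sg x := by unfold sg; ring
  simp only [e, mul_zero, Real.exp_zero]
  rw [hκ] at key
  linarith

/-! ### the whole list -/

/-- `D = ∫ (ζ¹ - ζ⁰)` over the list; an entry is (tilt, tilt increment, variance) -/
def DD : List (ℝ × ℝ × ℝ) → ℝ
  | [] => 0
  | p :: L => DD L + p.2.1 * p.2.2

/-- `∫ D(s)² ds` -/
def RR : List (ℝ × ℝ × ℝ) → ℝ
  | [] => 0
  | p :: L => RR L + (DD L ^ 2 * p.2.2 + DD L * p.2.1 * p.2.2 ^ 2 + p.2.1 ^ 2 * p.2.2 ^ 3 / 3)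

/-- `Σ_k v_k (D_k² + D_{k+1}²)` -/
def NN : List (ℝ × ℝ × ℝ) → ℝ
  | [] => 0
  | p :: L => NN L + p.2.2 * (DD (p :: L) ^ 2 + DD L ^ 2)

theorem RR_nonneg : ∀ {L : List (ℝ × ℝ × ℝ)}, (∀ p ∈ L, 0 ≤ p.2.2) → 0 ≤ RR L
  | [], _ => le_rfl
  | p :: _, h => R_nonneg (RR_nonneg fun q hq => h q (List.mem_cons_of_mem _ hq))
      (h p List.mem_cons_self)

theorem NN_le : ∀ {L : List (ℝ × ℝ × ℝ)}, (∀ p ∈ L, 0 ≤ p.2.2) → NN L ≤ 6 * RR L
  | [], _ => by simp [NN, RR]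
  | p :: L, h => by
    have ih := NN_le (L := L) fun q hq => h q (List.mem_cons_of_mem _ hq)
    have := mul_nonneg (h p List.mem_cons_self) (sq_nonneg (2 * DD L + p.2.1 * p.2.2))
    simp only [NN, RR, DD]
    nlinarith

theorem lev_cons (t : ℝ) (p : ℝ × ℝ × ℝ) (L : List (ℝ × ℝ × ℝ)) :
    lev t (p :: L) = (p.1 + t * p.2.1, p.2.2) :: lev t L := rfl

theorem gd_list {θ : ℝ} (hθ0 : 0 ≤ θ) (hθ1 : θ ≤ 1) : ∀ {L : List (ℝ × ℝ × ℝ)},
    (∀ p ∈ L, 0 < p.1 ∧ 0 < p.1 + p.2.1 ∧ |p.2.1| ≤ 1) → Adm 1 (lev θ L) →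
    Gd θ (θ * (1 - θ) / 8) (PhiL 1 (lev 0 L)) (PhiL 1 (lev 1 L)) (PhiL 1 (lev θ L)) (DD L) (RR L)
      (TT (lev θ L))
  | [], _, _ => by simpa [lev, PhiL, DD, RR, TT] using gd_phi0 hθ0 hθ1
  | p :: L, h, hA => by
    rw [lev_cons] at hA
    have ih := gd_list hθ0 hθ1 (L := L) (fun q hq => h q (List.mem_cons_of_mem _ hq)) hA.2.2.2
    obtain ⟨p1, p2, p3⟩ := h p List.mem_cons_self
    have hR : 0 ≤ RR L := RR_nonneg fun q hq =>
      (Adm.pos hA.2.2.2 (q.1 + θ * q.2.1, q.2.2) (List.mem_map.2 ⟨q, hq, rfl⟩)).2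
    have := Gd.step hθ0 hθ1 (div_nonneg (mul_nonneg hθ0 (sub_nonneg.2 hθ1)) (by norm_num))
      (PhiL_prof one_pos _) (PhiL_prof one_pos _) ((PhiL_inv one_pos hA.2.2.2).mono hA.2.1)
      (up2_PhiL one_pos hA.2.2.2) p1 p2 rfl hA.1 (hA.2.1.trans hA.2.2.2.head_le) p3 hR
      hA.2.2.1 ih
    simp only [lev_cons, PhiL, DD, RR, TT_cons, zero_mul, add_zero, one_mul]
    rw [add_comm p.2.2]
    exact this

variable {θ : ℝ} {L : List (ℝ × ℝ × ℝ)}

/-- **Strong convexity in the tilts**, any starting point -/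
theorem sconv_at (hθ0 : 0 ≤ θ) (hθ1 : θ ≤ 1)
    (h : ∀ p ∈ L, 0 < p.1 ∧ 0 < p.1 + p.2.1 ∧ |p.2.1| ≤ 1) (hA : Adm 1 (lev θ L)) {T : ℝ}
    (hT : TT (lev θ L) ≤ T) (x : ℝ) :
    PhiL 1 (lev θ L) x ≤ (1 - θ) * PhiL 1 (lev 0 L) x + θ * PhiL 1 (lev 1 L) x -
      θ * (1 - θ) * (Real.exp (-14 * T) / 16 * (1 - deriv (PhiL 1 (lev θ L)) x ^ 2) ^ 3 * RR L) := by
  have g := gd_list hθ0 hθ1 h hA x 0
  have hR : 0 ≤ RR L := RR_nonneg fun q hq =>
    (Adm.pos hA (q.1 + θ * q.2.1, q.2.2) (List.mem_map.2 ⟨q, hq, rfl⟩)).2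
  have lo := lo2_PhiL hA x
  have hI := PhiL_inv one_pos hA
  have b0 : 0 ≤ 1 - deriv (PhiL 1 (lev θ L)) x ^ 2 :=
    sub_nonneg.2 ((sq_le_one_iff_abs_le_one _).2 (hI.prof.b1 x))
  have a0 := (u2_pos hI x).le
  unfold Sb at g
  have s0 : sg 0 = 1 := by simp [sg, th]
  rw [s0] at g
  simp only [mul_zero, sub_zero, add_zero, zero_add, one_mul] at g
  set a := deriv (deriv (PhiL 1 (lev θ L))) x
  set u := deriv (PhiL 1 (lev θ L)) x
  set S := TT (lev θ L)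
  have e1 : Real.exp (-14 * T) ≤ Real.exp (-11 * S) * Real.exp (-S) ^ 3 := by
    rw [← Real.exp_nat_mul, ← Real.exp_add]
    exact Real.exp_le_exp.2 (by push_cast; linarith)
  have e2 : (Real.exp (-S) * (1 - u ^ 2)) ^ 3 ≤ a ^ 3 :=
    pow_le_pow_left₀ (by positivity) lo 3
  have e3 : Real.exp (-14 * T) * (1 - u ^ 2) ^ 3 ≤ Real.exp (-11 * S) * a ^ 3 := by
    refine (mul_le_mul_of_nonneg_right e1 (by positivity)).trans ?_
    rw [mul_assoc, ← mul_pow]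
    exact mul_le_mul_of_nonneg_left e2 (Real.exp_pos _).le
  have hw : 0 ≤ θ * (1 - θ) := mul_nonneg hθ0 (sub_nonneg.2 hθ1)
  have e4 := mul_le_mul_of_nonneg_left (mul_le_mul_of_nonneg_right e3 hR) hw
  have e5 : 0 ≤ θ * (1 - θ) * (Real.exp (-11 * S) * (a * (DD L * u) ^ 2)) := by positivity
  linarith

/-- **Strong convexity in the tilts** at the origin: constant `e^{-14T}/16` for `∫ D²` -/
theorem sconv (hθ0 : 0 ≤ θ) (hθ1 : θ ≤ 1)
    (h : ∀ p ∈ L, 0 < p.1 ∧ 0 < p.1 + p.2.1 ∧ |p.2.1| ≤ 1) (hA : Adm 1 (lev θ L)) {T : ℝ}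
    (hT : TT (lev θ L) ≤ T) :
    PhiL 1 (lev θ L) 0 ≤ (1 - θ) * PhiL 1 (lev 0 L) 0 + θ * PhiL 1 (lev 1 L) 0 -
      θ * (1 - θ) * (Real.exp (-14 * T) / 16 * RR L) := by
  have := sconv_at hθ0 hθ1 h hA hT 0
  rw [(PhiL_inv one_pos hA).d0] at this
  simpa using this

/-- the same with the discrete norm `Σ v_k (D_k² + D_{k+1}²)` -/
theorem sconv_NN (hθ0 : 0 ≤ θ) (hθ1 : θ ≤ 1)
    (h : ∀ p ∈ L, 0 < p.1 ∧ 0 < p.1 + p.2.1 ∧ |p.2.1| ≤ 1) (hA : Adm 1 (lev θ L)) {T : ℝ}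
    (hT : TT (lev θ L) ≤ T) :
    PhiL 1 (lev θ L) 0 ≤ (1 - θ) * PhiL 1 (lev 0 L) 0 + θ * PhiL 1 (lev 1 L) 0 -
      θ * (1 - θ) * (Real.exp (-14 * T) / 96 * NN L) := by
  have h1 := sconv hθ0 hθ1 h hA hT
  have h2 := NN_le (L := L) fun q hq =>
    (Adm.pos hA (q.1 + θ * q.2.1, q.2.2) (List.mem_map.2 ⟨q, hq, rfl⟩)).2
  have hw : 0 ≤ θ * (1 - θ) * Real.exp (-14 * T) :=
    mul_nonneg (mul_nonneg hθ0 (sub_nonneg.2 hθ1)) (Real.exp_pos _).le
  have := mul_le_mul_of_nonneg_left h2 hw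
  linarith

end

end Crest.Agent.T156.Sc48
private theorem rz_0dd46b722f : type_of% @_root_.Crest.Agent.T156.Sc48.DD.eq_def := @_root_.Crest.Agent.T156.Sc48.DD.eq_def -- L505
private theorem rz_68345e09f3 : type_of% @_root_.Crest.Agent.T156.Sc48.DD.eq_1 := @_root_.Crest.Agent.T156.Sc48.DD.eq_1 -- L505
private theorem rz_234efb0d1e : type_of% @_root_.Crest.Agent.T156.Sc48.NN.eq_def := @_root_.Crest.Agent.T156.Sc48.NN.eq_def -- L515
private theorem rz_729376980c : type_of% @_root_.Crest.Agent.T156.Sc48.NN.eq_1 := @_root_.Crest.Agent.T156.Sc48.NN.eq_1 -- L515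
private theorem rz_d84d2e7604 : type_of% @_root_.Crest.Agent.T156.Sc48.RR.eq_def := @_root_.Crest.Agent.T156.Sc48.RR.eq_def -- L510
private theorem rz_5d4d940420 : type_of% @_root_.Crest.Agent.T156.Sc48.RR.eq_1 := @_root_.Crest.Agent.T156.Sc48.RR.eq_1 -- L510
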