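import Crest.Agent.T156.SoftDef_88

-- ▼ part T156/SoA248_74
section

/-!
# Row 156, soft part: `S27` gives `S24` and `S28` (helper74)
-/

set_option autoImplicit false
open MeasureTheory ProbabilityTheory Filter Topology Set
open Crest.ProbabilityR.SpinGlass

namespace Crest.Agent.T156.Soft

namespace A248

theorem tend_of_rate (m : ℕ → ℝ) (a c C : ℝ) (hc : 0 < c)
    (h : ∀ n : ℕ, 2 ≤ n → |m n - a| ≤ C * (n : ℝ) ^ (-c)) : Tendsto m atTop (𝓝 a) := by
  have h0 : Tendsto (fun n : ℕ => C * (n : ℝ) ^ (-c)) atTop (𝓝 0) := by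
    have := ((tendsto_rpow_neg_atTop hc).comp tendsto_natCast_atTop_atTop).const_mul C
    simpa using this
  rw [tendsto_iff_dist_tendsto_zero]
  refine squeeze_zero' (Eventually.of_forall fun _ => dist_nonneg) ?_ h0
  filter_upwards [eventually_ge_atTop 2] with n hn
  rw [Real.dist_eq]
  exact h n hn

theorem std_eq (n : ℕ) (hn : 1 ≤ n) (V y : ℝ) :
    (n : ℝ) ^ (-(1 : ℝ) / 6) * y / Real.sqrt (V / (n : ℝ) ^ ((1 : ℝ) / 3)) = y / Real.sqrt V := by
  have hn0 : (0 : ℝ) < n := by exact_mod_cast hn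
  have h1 : (0 : ℝ) < (n : ℝ) ^ ((1 : ℝ) / 6) := Real.rpow_pos_of_pos hn0 _
  have h2 : (n : ℝ) ^ ((1 : ℝ) / 3) = ((n : ℝ) ^ ((1 : ℝ) / 6)) ^ 2 := by
    rw [← Real.rpow_natCast, ← Real.rpow_mul hn0.le]; norm_num
  have h3 : (n : ℝ) ^ (-(1 : ℝ) / 6) = ((n : ℝ) ^ ((1 : ℝ) / 6))⁻¹ := by
    rw [← Real.rpow_neg hn0.le]; norm_num
  rw [h2, h3, Real.sqrt_div' _ (sq_nonneg _), Real.sqrt_sq h1.le]
  by_cases hV : Real.sqrt V = 0
  · simp [hV]
  · field_simp

theorem sqrt_pow_eq (v : ℝ) (hv : 0 < v) (k : ℕ) : Real.sqrt v ^ k = v ^ ((k : ℝ) / 2) := by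
  rw [Real.sqrt_eq_rpow, ← Real.rpow_natCast, ← Real.rpow_mul hv.le]
  congr 1; ring

/-- the limit law of the standardised variables -/
theorem limit (hB : BasicStmt) (hX : XMomStmt) (hD : DetStmt) (hL : LimitStmt) (β c C : ℝ)
    (a : ℕ → ℝ) (hc : 0 < c) (ha : 0 < a 2)
    (hy : ∀ n : ℕ, 2 ≤ n → ∫ x, Real.exp (c * |x|) ∂yLaw n β ≤ C)
    (ht : ∀ k : ℕ, 1 ≤ k → Tendsto (fun n : ℕ => fluctuationMoment β k n) atTop (𝓝 (a k))) :
    ∃ ν : Measure ℝ, IsProbabilityMeasure ν ∧
      (∃ c : ℝ, 0 < c ∧ Integrable (fun x => Real.exp (c * |x|)) ν) ∧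
      (∀ k : ℕ, 1 ≤ k → Integrable (fun x => x ^ k) ν ∧
        ∫ x, x ^ k ∂ν = a k / a 2 ^ ((k : ℝ) / 2)) ∧
      ∀ f : BoundedContinuousFunction ℝ ℝ,
        Tendsto
          (fun n : ℕ => ∫ g, f ((logPartitionFunction n β g -
              ∫ g', logPartitionFunction n β g' ∂disorderLaw n) /
              Real.sqrt (variance (logPartitionFunction n β) (disorderLaw n)))
            ∂disorderLaw n)
          atTop (𝓝 (∫ x, f x ∂ν)) := by
  obtain ⟨hxe, hxm⟩ := hX hB β c C a hc hy ht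
  set s : ℕ → ℝ := fun n => Real.sqrt (∫ x, x ^ 2 ∂xLaw n β) with hs
  have hsa : 0 < Real.sqrt (a 2) := Real.sqrt_pos.2 ha
  have hst : Tendsto s atTop (𝓝 (Real.sqrt (a 2))) :=
    (Real.continuous_sqrt.tendsto _).comp (hxm 2 (by norm_num))
  have hN : ∀ n, Nice (xLaw n β) := fun n => (hB n β).2.2.2.2.2.2.2.2.2.2.1
  have hme : ∀ n, Measurable (fun x : ℝ => x / s n) := fun n => measurable_id.div_const _
  set μ : ℕ → Measure ℝ := fun n => (xLaw n β).map (fun x => x / s n) with hμ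
  have hμp : ∀ n, IsProbabilityMeasure (μ n) := fun n => by
    haveI := (hN n).prob
    exact Measure.isProbabilityMeasure_map (hme n).aemeasurable
  have hc' : 0 < c * (Real.sqrt (a 2) / 2) := by positivity
  have hev : ∀ᶠ n in atTop, Integrable (fun x => Real.exp (c * (Real.sqrt (a 2) / 2) * |x|)) (μ n) ∧
      ∫ x, Real.exp (c * (Real.sqrt (a 2) / 2) * |x|) ∂μ n ≤ C := by
    have h1 : ∀ᶠ n in atTop, Real.sqrt (a 2) / 2 < s n :=
      hst.eventually (lt_mem_nhds (by linarith))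
    filter_upwards [h1, eventually_ge_atTop 2] with n hn hn2
    have hs0 : 0 < s n := by linarith
    have hcont : Continuous (fun x : ℝ => Real.exp (c * (Real.sqrt (a 2) / 2) * |x|)) := by
      fun_prop
    have hle : ∀ x : ℝ, Real.exp (c * (Real.sqrt (a 2) / 2) * |x / s n|) ≤ Real.exp (c * |x|) := by
      intro x
      apply Real.exp_le_exp.2
      rw [abs_div, abs_of_pos hs0, mul_assoc]
      apply mul_le_mul_of_nonneg_left _ hc.le
      rw [← mul_div_assoc, div_le_iff₀ hs0, mul_comm]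
      exact mul_le_mul_of_nonneg_left hn.le (abs_nonneg _)
    have hint : Integrable (fun x : ℝ => Real.exp (c * (Real.sqrt (a 2) / 2) * |x / s n|))
        (xLaw n β) := by
      refine ((hN n).expInt c).mono' ?_ (Eventually.of_forall fun x => ?_)
      · exact (hcont.measurable.comp (hme n)).aestronglyMeasurable
      · rw [Real.norm_eq_abs, abs_of_pos (Real.exp_pos _)]; exact hle x
    refine ⟨?_, ?_⟩
    · exact (integrable_map_measure hcont.aestronglyMeasurable (hme n).aemeasurable).2 hint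
    · simp only [hμ]
      rw [integral_map (hme n).aemeasurable hcont.aestronglyMeasurable]
      exact (integral_mono hint ((hN n).expInt c) hle).trans (hxe n hn2)
  have hmom : ∀ k : ℕ, 1 ≤ k → Tendsto (fun n => ∫ x, x ^ k ∂μ n) atTop
      (𝓝 (a k / a 2 ^ ((k : ℝ) / 2))) := by
    intro k hk
    have h1 : ∀ n, ∫ x, x ^ k ∂μ n = (∫ x, x ^ k ∂xLaw n β) / s n ^ k := by
      intro n
      simp only [hμ]
      rw [integral_map (hme n).aemeasurable (continuous_pow k).aestronglyMeasurable]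
      simp only [div_pow]
      exact integral_div _ _
    simp only [h1]
    rw [← sqrt_pow_eq _ ha]
    exact (hxm k hk).div (hst.pow k) (pow_pos hsa k).ne'
  obtain ⟨ν, hν, hνe, hνm, hνf⟩ :=
    hL hD μ (fun k => a k / a 2 ^ ((k : ℝ) / 2)) _ C hμp hc' hev hmom
  refine ⟨ν, hν, ⟨_, hc', hνe⟩, hνm, fun f => (hνf f).congr' ?_⟩
  filter_upwards [eventually_ge_atTop 1] with n hn
  have hxc : Continuous (xs n β) := (hB n β).2.2.2.2.2.1
  simp only [hμ]
  rw [integral_map (hme n).aemeasurable f.continuous.aestronglyMeasurable]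
  have hfm : AEStronglyMeasurable (fun x : ℝ => f (x / s n)) ((disorderLaw n).map (xs n β)) :=
    (f.continuous.measurable.comp (hme n)).aestronglyMeasurable
  rw [xLaw, integral_map hxc.measurable.aemeasurable hfm]
  refine integral_congr_ae (Eventually.of_forall fun g => ?_)
  have h2 := (hB n β).2.2.2.2.2.2.2.2.2.2.2.2.2
  simp only [hs, h2, xs]
  rw [std_eq n hn]

end A248

theorem a248Stmt : A248Stmt := by
  intro hB hX hC hCB hD hL hS hSe β h27
  obtain ⟨a, ha1, ha2, hk, c, hc, C, hexp⟩ := h27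
  have hy : ∀ n : ℕ, 2 ≤ n → ∫ x, Real.exp (c * |x|) ∂yLaw n β ≤ C := by
    intro n hn
    have hsc : Continuous (scaledFluctuation n β) := (hB n β).2.2.2.2.1
    have hcont : Continuous (fun x : ℝ => Real.exp (c * |x|)) := by fun_prop
    rw [yLaw, integral_map hsc.measurable.aemeasurable hcont.aestronglyMeasurable]
    exact (hexp n hn).2
  have ht : ∀ k : ℕ, 1 ≤ k →
      Tendsto (fun n : ℕ => fluctuationMoment β k n) atTop (𝓝 (a k)) := by
    intro k hk1
    obtain ⟨c', hc', C', h⟩ := hk k hk1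
    exact A248.tend_of_rate _ _ c' C' hc' fun n hn => (h n hn).2
  obtain ⟨ν, hν, hνe, hνm, hνf⟩ := A248.limit hB hX hD hL β c C a hc ha2 hy ht
  refine ⟨⟨ν, hν, ?_, ?_, hνe, hνf⟩, a, fun k hk1 => ⟨fun l _ => hC hB l β k, fun h => ?_, ?_,
    ht k hk1⟩, ha2, ν, hν, hνf, hνm⟩
  · have := (hνm 1 le_rfl).2
    simpa [ha1] using this
  · have := (hνm 2 (by norm_num)).2
    rw [this]
    have h2 : ((2 : ℕ) : ℝ) / 2 = 1 := by norm_num
    rw [h2, Real.rpow_one, div_self ha2.ne']
  · obtain ⟨K, hK⟩ := hCB hB k c C hc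
    refine hS (fun l => ∫ ω, |copyProduct l β k ω| ∂copyLaw l β k) K h fun l hl => ?_
    rw [abs_of_nonneg (integral_nonneg fun _ => abs_nonneg _)]
    exact hK l β (hy l hl)
  · obtain ⟨c', hc', C', h⟩ := hk k hk1
    have := hSe (fun l => fluctuationMoment β k l) (a k) c' C' hc' fun l hl => (h l hl).2
    simpa only [(hC hB _ β k).2] using this

end Crest.Agent.T156.Soft
end

-- ▼ part T156/SoA256_64
section

/-!
# Row 156, soft part: `S27` gives `S25` and `S26` (helper64)
-/

set_option autoImplicit false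
open MeasureTheory ProbabilityTheory Filter Topology Set
open Crest.ProbabilityR.SpinGlass

namespace Crest.Agent.T156.Soft

namespace A256

/-- a power rate gives convergence -/
theorem tendsto_of_rate (m : ℕ → ℝ) (a c C : ℝ) (hc : 0 < c)
    (h : ∀ n : ℕ, 2 ≤ n → |m n - a| ≤ C * (n : ℝ) ^ (-c)) : Tendsto m atTop (𝓝 a) := by
  have h0 : Tendsto (fun n : ℕ => C * (n : ℝ) ^ (-c)) atTop (𝓝 0) := by
    have := ((tendsto_rpow_neg_atTop hc).comp tendsto_natCast_atTop_atTop).const_mul C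
    simpa using this
  rw [tendsto_iff_norm_sub_tendsto_zero]
  refine squeeze_zero' (Eventually.of_forall fun n => norm_nonneg _) ?_ h0
  filter_upwards [eventually_ge_atTop 2] with n hn
  simpa [Real.norm_eq_abs] using h n hn

theorem sq_int {μ : Measure ℝ} (h : Nice μ) : Integrable (fun x => x ^ 2) μ := by
  refine ((h.expInt 1).const_mul 2).mono' (by fun_prop) (Eventually.of_forall fun x => ?_)
  have h1 := Real.quadratic_le_exp_of_nonneg (abs_nonneg x)
  have h2 : |x| ^ 2 = x ^ 2 := sq_abs x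
  have h3 := abs_nonneg x
  rw [Real.norm_eq_abs, abs_of_nonneg (sq_nonneg x), one_mul]
  linarith

/-- the mass of an annulus -/
theorem ann {μ : Measure ℝ} (h : Nice μ) {r R ε : ℝ} (hr : r ≤ ε) (hR : 0 < R) :
    1 - μ.real (Ioo (-ε) ε) - (∫ x, x ^ 2 ∂μ) / R ^ 2 ≤ μ.real {x | r ≤ |x| ∧ |x| ≤ R} := by
  have := h.prob
  have hcov : (univ : Set ℝ) ⊆ ({x | r ≤ |x| ∧ |x| ≤ R} ∪ Ioo (-ε) ε) ∪ {x | R ^ 2 ≤ x ^ 2} := by
    intro x _
    by_cases h1 : |x| ≤ R
    · by_cases h2 : r ≤ |x|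
      · exact Or.inl (Or.inl ⟨h2, h1⟩)
      · refine Or.inl (Or.inr ?_)
        have : |x| < ε := lt_of_lt_of_le (not_le.mp h2) hr
        exact abs_lt.mp this
    · refine Or.inr ?_
      have h3 : R ≤ |x| := (not_le.mp h1).le
      have : R ^ 2 ≤ |x| ^ 2 := pow_le_pow_left₀ hR.le h3 2
      simpa [sq_abs] using this
  have h1 : μ.real univ ≤ μ.real {x | r ≤ |x| ∧ |x| ≤ R} + μ.real (Ioo (-ε) ε) +
      μ.real {x | R ^ 2 ≤ x ^ 2} :=
    (measureReal_mono hcov).trans ((measureReal_union_le _ _).trans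
      (add_le_add (measureReal_union_le _ _) le_rfl))
  rw [probReal_univ] at h1
  have h2 : R ^ 2 * μ.real {x | R ^ 2 ≤ x ^ 2} ≤ ∫ x, x ^ 2 ∂μ :=
    mul_meas_ge_le_integral_of_nonneg (Eventually.of_forall fun x => sq_nonneg x) (sq_int h) _
  have h3 : μ.real {x | R ^ 2 ≤ x ^ 2} ≤ (∫ x, x ^ 2 ∂μ) / R ^ 2 := by
    rw [le_div_iff₀ (by positivity)]
    linarith
  linarith

theorem set_eq (n : ℕ) (hn : 1 ≤ n) (β η : ℝ) :
    {g | (n : ℝ) ^ ((1 : ℝ) / 6 - η) ≤
              |logPartitionFunction n β g - ∫ g', logPartitionFunction n β g' ∂disorderLaw n| ∧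
            |logPartitionFunction n β g - ∫ g', logPartitionFunction n β g' ∂disorderLaw n| ≤
              (n : ℝ) ^ ((1 : ℝ) / 6 + η)} =
      xs n β ⁻¹' {x | (n : ℝ) ^ (-η) ≤ |x| ∧ |x| ≤ (n : ℝ) ^ η} := by
  have hn0 : (0 : ℝ) < n := by exact_mod_cast hn
  have hp : 0 < (n : ℝ) ^ (-(1 : ℝ) / 6) := Real.rpow_pos_of_pos hn0 _
  have e1 : (n : ℝ) ^ (-η) = (n : ℝ) ^ (-(1 : ℝ) / 6) * (n : ℝ) ^ ((1 : ℝ) / 6 - η) := by
    rw [← Real.rpow_add hn0]; congr 1; ring
  have e2 : (n : ℝ) ^ η = (n : ℝ) ^ (-(1 : ℝ) / 6) * (n : ℝ) ^ ((1 : ℝ) / 6 + η) := by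
    rw [← Real.rpow_add hn0]; congr 1; ring
  ext g
  simp only [mem_ofPred_eq, mem_preimage, xs]
  rw [abs_mul, abs_of_pos hp, e1, e2, mul_le_mul_iff_right₀ hp, mul_le_mul_iff_right₀ hp]

end A256

open A256 in
theorem a256Stmt : A256Stmt := by
  intro hB hL hX hA β ⟨a, _, ha2, hmom, c, hc, C, hexp⟩
  have hlim : ∀ k : ℕ, 1 ≤ k → Tendsto (fun n : ℕ => fluctuationMoment β k n) atTop (𝓝 (a k)) := by
    intro k hk
    obtain ⟨c', hc', C', h⟩ := hmom k hk
    exact tendsto_of_rate _ _ c' C' hc' fun n hn => (h n hn).2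
  have hy : ∀ n : ℕ, 2 ≤ n → ∫ x, Real.exp (c * |x|) ∂yLaw n β ≤ C := by
    intro n hn
    have hcont : Continuous (scaledFluctuation n β) := (hB n β).2.2.2.2.1
    rw [yLaw, integral_map hcont.measurable.aemeasurable (by fun_prop)]
    exact (hexp n hn).2
  obtain ⟨_, hx⟩ := hX hB β c C a hc hy hlim
  have hnice : ∀ n : ℕ, Nice (xLaw n β) := fun n => (hB n β).2.2.2.2.2.2.2.2.2.2.1
  have hvar : ∀ n : ℕ, ∫ x, x ^ 2 ∂xLaw n β =
      variance (logPartitionFunction n β) (disorderLaw n) / (n : ℝ) ^ ((1 : ℝ) / 3) :=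
    fun n => (hB n β).2.2.2.2.2.2.2.2.2.2.2.2.2
  have h2 := hx 2 (by norm_num)
  have h4 := hx 4 (by norm_num)
  refine ⟨⟨a 2, ha2, by simpa only [hvar] using h2⟩, fun η hη => ⟨?_, ?_⟩⟩
  · have hlo : ∀ᶠ n : ℕ in atTop, a 2 / 2 < ∫ x, x ^ 2 ∂xLaw n β :=
      h2.eventually (lt_mem_nhds (by linarith))
    have hhi : ∀ᶠ n : ℕ in atTop, ∫ x, x ^ 2 ∂xLaw n β < a 2 + 1 :=
      h2.eventually (gt_mem_nhds (by linarith))
    have hs : ∀ᶠ n : ℕ in atTop, (n : ℝ) ^ (-(2 * η)) < a 2 / 2 :=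
      ((tendsto_rpow_neg_atTop (by linarith : 0 < 2 * η)).comp
        tendsto_natCast_atTop_atTop).eventually (gt_mem_nhds (by linarith))
    have hb : ∀ᶠ n : ℕ in atTop, a 2 + 1 < (n : ℝ) ^ (2 * η) :=
      ((tendsto_rpow_atTop (by linarith : 0 < 2 * η)).comp
        tendsto_natCast_atTop_atTop).eventually (eventually_gt_atTop _)
    obtain ⟨n₀, hn₀⟩ := eventually_atTop.mp
      (hlo.and (hhi.and (hs.and (hb.and (eventually_ge_atTop 1)))))
    refine ⟨n₀, fun n hn => ?_⟩
    obtain ⟨h1, h2', h3, h4', h5⟩ := hn₀ n hn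
    have hn0 : (0 : ℝ) < n := by exact_mod_cast h5
    have hp : 0 < (n : ℝ) ^ ((1 : ℝ) / 3) := Real.rpow_pos_of_pos hn0 _
    rw [hvar] at h1 h2'
    have e1 : ((n : ℝ) ^ ((1 : ℝ) / 6 - η)) ^ 2 = (n : ℝ) ^ (-(2 * η)) * (n : ℝ) ^ ((1 : ℝ) / 3) := by
      rw [sq, ← Real.rpow_add hn0, ← Real.rpow_add hn0]; congr 1; ring
    have e2 : ((n : ℝ) ^ ((1 : ℝ) / 6 + η)) ^ 2 = (n : ℝ) ^ (2 * η) * (n : ℝ) ^ ((1 : ℝ) / 3) := by
      rw [sq, ← Real.rpow_add hn0, ← Real.rpow_add hn0]; congr 1; ring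
    constructor
    · refine Real.le_sqrt_of_sq_le ?_
      rw [e1, ← le_div_iff₀ hp]
      linarith
    · refine Real.sqrt_le_iff.mpr ⟨(Real.rpow_pos_of_pos hn0 _).le, ?_⟩
      rw [e2, ← div_le_iff₀ hp]
      linarith
  · rw [tendsto_order]
    refine ⟨fun t ht => ?_, fun t ht => Eventually.of_forall fun n => ?_⟩
    · obtain ⟨ε, hε, hanti⟩ := hA (a 2 / 2) (a 4 + 1) ((1 - t) / 2) (by linarith) (by linarith)
      have hlo : ∀ᶠ n : ℕ in atTop, a 2 / 2 < ∫ x, x ^ 2 ∂xLaw n β :=
        h2.eventually (lt_mem_nhds (by linarith))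
      have hhi : ∀ᶠ n : ℕ in atTop, ∫ x, x ^ 4 ∂xLaw n β < a 4 + 1 :=
        h4.eventually (gt_mem_nhds (by linarith))
      have hs : ∀ᶠ n : ℕ in atTop, (n : ℝ) ^ (-η) < ε :=
        ((tendsto_rpow_neg_atTop hη).comp
          tendsto_natCast_atTop_atTop).eventually (gt_mem_nhds hε)
      have hinf : Tendsto (fun n : ℕ => ((n : ℝ) ^ η) ^ 2) atTop atTop :=
        (tendsto_pow_atTop two_ne_zero).comp
          ((tendsto_rpow_atTop hη).comp tendsto_natCast_atTop_atTop)
      have hc0 : ∀ᶠ n : ℕ in atTop, (∫ x, x ^ 2 ∂xLaw n β) / ((n : ℝ) ^ η) ^ 2 < (1 - t) / 2 :=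
        (h2.div_atTop hinf).eventually (gt_mem_nhds (by linarith))
      filter_upwards [hlo, hhi, hs, hc0, eventually_ge_atTop 1] with n h1 h2' h3 h4' h5
      have hn0 : (0 : ℝ) < n := by exact_mod_cast h5
      have hcont : Continuous (xs n β) := (hB n β).2.2.2.2.2.1
      have hms : MeasurableSet {x : ℝ | (n : ℝ) ^ (-η) ≤ |x| ∧ |x| ≤ (n : ℝ) ^ η} :=
        (measurableSet_le measurable_const measurable_abs).inter
          (measurableSet_le measurable_abs measurable_const)
      rw [set_eq n h5 β η, ← map_measureReal_apply hcont.measurable hms]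
      have h6 := ann (hnice n) h3.le (Real.rpow_pos_of_pos hn0 η)
      have h7 := hanti _ (hnice n) (hL hB n β).1 h1.le h2'.le
      change t < (xLaw n β).real _
      linarith
    · have := (hB n β).1
      exact lt_of_le_of_lt measureReal_le_one ht

end Crest.Agent.T156.Soft
end

-- ▼ part T156/SoAnti_31
section

/-!
# Row 156, soft part, leaf `AntiStmt` (helper31)

A centred law with a log-concave distribution function, second moment `≥ v` and fourth moment
`≤ K` has little mass near zero.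
-/

set_option autoImplicit false
open MeasureTheory ProbabilityTheory Filter Topology Set

namespace Crest.Agent.T156.Soft

namespace Anti31

theorem integrable_pow {μ : Measure ℝ} (h : Nice μ) (k : ℕ) :
    Integrable (fun x : ℝ => x ^ k) μ := by
  have h1 := (h.expInt 1).const_mul (k.factorial : ℝ)
  refine h1.mono' (by fun_prop) (Eventually.of_forall fun x => ?_)
  have h2 := Real.pow_div_factorial_le_exp (|x|) (abs_nonneg x) k
  have h3 : (0 : ℝ) < k.factorial := by positivity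
  rw [div_le_iff₀ h3] at h2
  rw [Real.norm_eq_abs, abs_pow, one_mul]
  linarith

theorem sq_le (A x : ℝ) (hA : 0 < A) : x ^ 2 ≤ A * |x| + x ^ 4 / A ^ 2 := by
  have hx := abs_nonneg x
  have h2 : x ^ 2 = |x| ^ 2 := (sq_abs x).symm
  have h4 : x ^ 4 = (x ^ 2) ^ 2 := by ring
  rcases le_total |x| A with h | h
  · have : 0 ≤ x ^ 4 / A ^ 2 := by positivity
    nlinarith
  · have h5 : A ^ 2 ≤ x ^ 2 := by rw [h2]; exact pow_le_pow_left₀ hA.le h 2
    have h6 : x ^ 2 ≤ x ^ 4 / A ^ 2 := by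
      rw [le_div_iff₀ (by positivity), h4]
      nlinarith [sq_nonneg x]
    nlinarith [mul_nonneg hA.le hx]

theorem mul_abs_le (A x : ℝ) (hA : 0 < A) : A * |x| ≤ A ^ 2 + x ^ 4 / A ^ 2 := by
  have h := sq_le A x hA
  have hx := abs_nonneg x
  have h2 : x ^ 2 = |x| ^ 2 := (sq_abs x).symm
  rcases le_total |x| A with h1 | h1
  · have : 0 ≤ x ^ 4 / A ^ 2 := by positivity
    nlinarith
  · have h5 : A ^ 2 ≤ x ^ 2 := by rw [h2]; exact pow_le_pow_left₀ hA.le h1 2
    have h4 : x ^ 4 = (x ^ 2) ^ 2 := by ring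
    have h6 : x ^ 2 ≤ x ^ 4 / A ^ 2 := by
      rw [le_div_iff₀ (by positivity), h4]
      nlinarith [sq_nonneg x]
    nlinarith [sq_nonneg A]

theorem point (A a x : ℝ) (hA : 0 < A) (ha : 0 < a) :
    x ^ 2 ≤ A * x + 2 * A * a + 2 * A ^ 2 * (Iic (-a)).indicator (fun _ => (1 : ℝ)) x +
      3 / A ^ 2 * x ^ 4 := by
  have h1 := sq_le A x hA
  have h2 := mul_abs_le A x hA
  have h3 : 3 / A ^ 2 * x ^ 4 = 3 * (x ^ 4 / A ^ 2) := by ring
  have h4 : 0 ≤ x ^ 4 / A ^ 2 := by positivity
  have h5 : 0 < A * a := mul_pos hA ha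
  rw [h3]
  by_cases hx : x ∈ Iic (-a)
  · rw [indicator_of_mem hx]
    have hx' : x ≤ -a := hx
    have h6 : |x| = -x := abs_of_nonpos (by linarith)
    rw [h6] at h1 h2
    nlinarith
  · rw [indicator_of_notMem hx]
    have hx' : -a < x := not_le.mp hx
    have h6 : |x| ≤ x + 2 * a := abs_le.mpr ⟨by linarith, by linarith⟩
    have h7 := mul_le_mul_of_nonneg_left h6 hA.le
    nlinarith

theorem lower {μ : Measure ℝ} (h : Nice μ) (A a : ℝ) (hA : 0 < A) (ha : 0 < a) :
    ∫ x, x ^ 2 ∂μ ≤ 2 * A * a + 2 * A ^ 2 * μ.real (Iic (-a)) + 3 / A ^ 2 * ∫ x, x ^ 4 ∂μ := by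
  have := h.prob
  have i1 : Integrable (fun x : ℝ => x) μ := by simpa using integrable_pow h 1
  have i2 := integrable_pow h 2
  have i4 := integrable_pow h 4
  have ii : Integrable (fun x => (Iic (-a)).indicator (fun _ => (1 : ℝ)) x) μ :=
    (integrable_const (1 : ℝ)).indicator measurableSet_Iic
  have j1 : Integrable (fun x : ℝ => A * x) μ := i1.const_mul A
  have j2 : Integrable (fun x : ℝ => A * x + 2 * A * a) μ := j1.add (integrable_const _)
  have j3 : Integrable
      (fun x : ℝ => 2 * A ^ 2 * (Iic (-a)).indicator (fun _ => (1 : ℝ)) x) μ := ii.const_mul _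
  have j4 : Integrable (fun x : ℝ => A * x + 2 * A * a +
      2 * A ^ 2 * (Iic (-a)).indicator (fun _ => (1 : ℝ)) x) μ := j2.add j3
  have j5 : Integrable (fun x : ℝ => 3 / A ^ 2 * x ^ 4) μ := i4.const_mul _
  have key := integral_mono i2 (j4.add j5) (fun x => point A a x hA ha)
  simp only [Pi.add_apply] at key
  rw [integral_add j4 j5, integral_add j2 j3, integral_add j1 (integrable_const _),
    integral_const_mul A, integral_const_mul (2 * A ^ 2), integral_const_mul (3 / A ^ 2), h.mean,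
    integral_const, integral_indicator measurableSet_Iic, setIntegral_const] at key
  simp only [probReal_univ, smul_eq_mul, one_mul, mul_zero, zero_add, mul_one] at key
  exact key

end Anti31

open Anti31 in
theorem antiStmt : AntiStmt := by
  intro v K τ hv hτ
  set K' : ℝ := max K 1 with hK'
  have hK1 : 1 ≤ K' := le_max_right _ _
  set A : ℝ := 12 * K' / v + 1 with hAdef
  have hA0 : 0 ≤ 12 * K' / v := by positivity
  have hA1 : 1 ≤ A := by linarith
  have hA : 0 < A := by linarith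
  set a : ℝ := v / (8 * A) with hadef
  have ha : 0 < a := by positivity
  set p : ℝ := v / (4 * A ^ 2) with hpdef
  have hp : 0 < p := by positivity
  set L : ℝ := |Real.log p| + 1 with hLdef
  have hL : 0 < L := by positivity
  set ε : ℝ := min (a / 2) (τ * a / (2 * L)) with hεdef
  have hε : 0 < ε := lt_min (by positivity) (by positivity)
  have hε1 : ε ≤ a / 2 := min_le_left _ _
  have hε2 : ε ≤ τ * a / (2 * L) := min_le_right _ _
  refine ⟨ε, hε, fun μ hμ hlc h2 h4 => ?_⟩
  have := hμ.prob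
  -- the lower bound on `G (-a)`
  have hG : p ≤ μ.real (Iic (-a)) := by
    have h1 := lower hμ A a hA ha
    have e1 : 2 * A * a = v / 4 := by rw [hadef]; field_simp; norm_num
    have e2 : 3 / A ^ 2 * ∫ x, x ^ 4 ∂μ ≤ v / 4 := by
      have h5 : ∫ x, x ^ 4 ∂μ ≤ K' := h4.trans (le_max_left _ _)
      have h6 : 3 / A ^ 2 * ∫ x, x ^ 4 ∂μ ≤ 3 / A ^ 2 * K' :=
        mul_le_mul_of_nonneg_left h5 (by positivity)
      have h7 : 12 * K' / v ≤ A ^ 2 := by nlinarith
      rw [div_le_iff₀ hv] at h7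
      have h8 : 3 / A ^ 2 * K' ≤ v / 4 := by
        rw [div_mul_eq_mul_div, div_le_div_iff₀ (by positivity) (by norm_num)]
        nlinarith
      linarith
    rw [hpdef, div_le_iff₀ (by positivity)]
    nlinarith
  set θ : ℝ := 2 * ε / (a + ε) with hθdef
  have haε : 0 < a + ε := by positivity
  have hθ0 : 0 < θ := by positivity
  have hθ1 : θ < 1 := by rw [hθdef, div_lt_one haε]; linarith
  have hθ2 : θ * L ≤ τ := by
    have h5 : θ ≤ 2 * ε / a := div_le_div_of_nonneg_left (by positivity) ha (by linarith)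
    have h6 : 2 * ε / a ≤ τ / L := by
      rw [le_div_iff₀ (by positivity)] at hε2
      rw [div_le_div_iff₀ ha hL]
      nlinarith
    have h7 : θ ≤ τ / L := h5.trans h6
    rwa [le_div_iff₀ hL] at h7
  have hc := hlc ε (-a) θ hθ0 hθ1
  have e3 : (1 - θ) * ε + θ * (-a) = -ε := by rw [hθdef]; field_simp; ring
  rw [e3] at hc
  set G : ℝ := μ.real (Iic ε) with hGdef
  have hG0 : 0 ≤ G := measureReal_nonneg
  have hG1 : G ≤ 1 := measureReal_le_one
  have h5 : G ≤ G ^ (1 - θ) := by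
    rcases hG0.eq_or_lt with h | h
    · rw [← h]; exact Real.rpow_nonneg le_rfl _
    · calc G = G ^ (1 : ℝ) := (Real.rpow_one G).symm
        _ ≤ G ^ (1 - θ) := Real.rpow_le_rpow_of_exponent_ge h hG1 (by linarith)
  have h6 : p ^ θ ≤ μ.real (Iic (-a)) ^ θ := Real.rpow_le_rpow hp.le hG hθ0.le
  have h7 : 1 - τ ≤ p ^ θ := by
    rw [Real.rpow_def_of_pos hp]
    have h8 := Real.add_one_le_exp (Real.log p * θ)
    have h9 : -|Real.log p| ≤ Real.log p := neg_abs_le _
    have h10 : -(θ * L) ≤ Real.log p * θ := by rw [hLdef]; nlinarith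
    linarith
  have h8 : G * p ^ θ ≤ μ.real (Iic (-ε)) :=
    (mul_le_mul h5 h6 (Real.rpow_nonneg hp.le _) (hG0.trans h5)).trans hc
  have h9 : μ.real (Ioo (-ε) ε) + μ.real (Iic (-ε)) ≤ G := by
    rw [← measureReal_union (by
      rw [Set.disjoint_left]; intro x hx hx'; exact absurd hx.1 (not_lt.mpr hx'))
      measurableSet_Iic]
    refine measureReal_mono ?_
    rintro x (hx | hx)
    · exact hx.2.le
    · have hx' : x ≤ -ε := hx
      show x ≤ ε
      linarith
  have h10 : G * (1 - τ) ≤ G * p ^ θ := mul_le_mul_of_nonneg_left h7 hG0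
  nlinarith

end Crest.Agent.T156.Soft
end

-- ▼ part T156/SoBasic_50
section

/-!
# Row 156, soft part: elementary facts about the model (helper50)
-/

set_option autoImplicit false
open MeasureTheory ProbabilityTheory Filter Topology Set
open Crest.ProbabilityR.SpinGlass

namespace Crest.Agent.T156.Soft

namespace Basic50

instance probD (n : ℕ) : IsProbabilityMeasure (disorderLaw n) := by
  unfold disorderLaw; infer_instance

instance probC (n : ℕ) (β : ℝ) : IsProbabilityMeasure (completedLaw n β) := by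
  unfold completedLaw; infer_instance

lemma cont_energy (n : ℕ) (σ : Fin n → Bool) : Continuous (fun g : Disorder n => energy n g σ) := by
  unfold energy
  refine continuous_const.mul (continuous_finsetSum _ fun p _ => ?_)
  split_ifs
  · fun_prop
  · exact continuous_const

lemma Z_pos (n : ℕ) (β : ℝ) (g : Disorder n) : 0 < partitionFunction n β g :=
  Finset.sum_pos (fun _ _ => Real.exp_pos _) Finset.univ_nonempty

lemma cont_F (n : ℕ) (β : ℝ) : Continuous (logPartitionFunction n β) := by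
  have h : Continuous (partitionFunction n β) := by
    unfold partitionFunction
    exact continuous_finsetSum _ fun σ _ =>
      Real.continuous_exp.comp (continuous_const.mul (cont_energy n σ))
  exact h.log fun g => (Z_pos n β g).ne'

lemma cont_C (n : ℕ) (β : ℝ) : Continuous (completedFreeEnergy n β) := by
  unfold completedFreeEnergy
  exact (((cont_F n β).comp continuous_fst).sub continuous_const).add continuous_snd

lemma cont_Y (n : ℕ) (β : ℝ) : Continuous (scaledFluctuation n β) := by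
  unfold scaledFluctuation
  exact continuous_const.mul ((cont_C n β).sub continuous_const)

lemma cont_X (n : ℕ) (β : ℝ) : Continuous (xs n β) := by
  unfold xs
  exact continuous_const.mul ((cont_F n β).sub continuous_const)

lemma energy_lin (n : ℕ) (σ : Fin n → Bool) (x y : Disorder n) (a b : ℝ) :
    energy n (a • x + b • y) σ = a * energy n x σ + b * energy n y σ := by
  unfold energy
  rw [mul_left_comm a, mul_left_comm b, ← mul_add, Finset.mul_sum _ _ a, Finset.mul_sum _ _ b,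
    ← Finset.sum_add_distrib]
  congr 1
  refine Finset.sum_congr rfl fun p _ => ?_
  split_ifs
  · simp only [Pi.add_apply, Pi.smul_apply, smul_eq_mul]; ring
  · simp

lemma lse_convex {ι : Type*} [Fintype ι] [Nonempty ι] (u v : ι → ℝ) {a b : ℝ} (ha : 0 ≤ a)
    (hb : 0 ≤ b) (hab : a + b = 1) :
    Real.log (∑ i, Real.exp (a * u i + b * v i)) ≤
      a * Real.log (∑ i, Real.exp (u i)) + b * Real.log (∑ i, Real.exp (v i)) := by
  have hU : 0 < ∑ i, Real.exp (u i) := Finset.sum_pos (fun _ _ => Real.exp_pos _) Finset.univ_nonempty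
  have hV : 0 < ∑ i, Real.exp (v i) := Finset.sum_pos (fun _ _ => Real.exp_pos _) Finset.univ_nonempty
  have hW : 0 < ∑ i, Real.exp (a * u i + b * v i) :=
    Finset.sum_pos (fun _ _ => Real.exp_pos _) Finset.univ_nonempty
  set A := Real.log (∑ i, Real.exp (u i)) with hA
  set B := Real.log (∑ i, Real.exp (v i)) with hB
  have eA : Real.exp A = ∑ i, Real.exp (u i) := Real.exp_log hU
  have eB : Real.exp B = ∑ i, Real.exp (v i) := Real.exp_log hV
  rw [Real.log_le_iff_le_exp hW]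
  have key : ∀ i, Real.exp (a * u i + b * v i) ≤ Real.exp (a * A + b * B) *
      (a * (Real.exp (u i) / Real.exp A) + b * (Real.exp (v i) / Real.exp B)) := by
    intro i
    have h := convexOn_exp.2 (mem_univ (u i - A)) (mem_univ (v i - B)) ha hb hab
    simp only [smul_eq_mul] at h
    rw [← Real.exp_sub, ← Real.exp_sub]
    have e : a * u i + b * v i = (a * A + b * B) + (a * (u i - A) + b * (v i - B)) := by ring
    rw [e, Real.exp_add]
    exact mul_le_mul_of_nonneg_left h (Real.exp_pos _).le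
  refine (Finset.sum_le_sum fun i _ => key i).trans (le_of_eq ?_)
  rw [← Finset.mul_sum, Finset.sum_add_distrib, ← Finset.mul_sum, ← Finset.mul_sum,
    ← Finset.sum_div, ← Finset.sum_div, ← eA, ← eB, div_self (Real.exp_pos _).ne',
    div_self (Real.exp_pos _).ne', mul_one, mul_one, hab, mul_one]

lemma convex_F (n : ℕ) (β : ℝ) : ConvexOn ℝ univ (logPartitionFunction n β) := by
  refine ⟨convex_univ, fun x _ y _ a b ha hb hab => ?_⟩
  have h := lse_convex (fun σ : Fin n → Bool => β * energy n x σ)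
    (fun σ : Fin n → Bool => β * energy n y σ) ha hb hab
  unfold logPartitionFunction partitionFunction
  simp only [smul_eq_mul, energy_lin]
  refine le_of_eq_of_le ?_ h
  congr 1
  refine Finset.sum_congr rfl fun σ _ => ?_
  congr 1
  ring

lemma abs_spin (b : Bool) : |spinVal b| = 1 := by
  cases b <;> simp [spinVal]

lemma abs_energy_le (n : ℕ) (g : Disorder n) (σ : Fin n → Bool) :
    |energy n g σ| ≤ (Real.sqrt n)⁻¹ * ∑ p, |g p| := by
  unfold energy
  rw [abs_mul, abs_of_nonneg (by positivity : (0 : ℝ) ≤ (Real.sqrt n)⁻¹)]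
  refine mul_le_mul_of_nonneg_left ((Finset.abs_sum_le_sum_abs _ _).trans
    (Finset.sum_le_sum fun p _ => ?_)) (by positivity)
  split_ifs
  · rw [abs_mul, abs_mul, abs_spin, abs_spin, mul_one, mul_one]
  · simp

lemma abs_F_le (n : ℕ) (β : ℝ) (g : Disorder n) :
    |logPartitionFunction n β g| ≤ n * Real.log 2 + |β| * (Real.sqrt n)⁻¹ * ∑ p, |g p| := by
  set K := |β| * (Real.sqrt n)⁻¹ * ∑ p, |g p| with hK
  have hb : ∀ σ, |β * energy n g σ| ≤ K := fun σ => by
    rw [abs_mul, hK, mul_assoc]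
    exact mul_le_mul_of_nonneg_left (abs_energy_le n g σ) (abs_nonneg _)
  have h2 : 0 ≤ (n : ℝ) * Real.log 2 := mul_nonneg (Nat.cast_nonneg _) (Real.log_nonneg (by norm_num))
  have hcard : ((Finset.univ : Finset (Fin n → Bool)).card : ℝ) = Real.exp (n * Real.log 2) := by
    rw [Real.exp_nat_mul, Real.exp_log (by norm_num)]
    simp
  unfold logPartitionFunction
  rw [abs_le]
  constructor
  · rw [Real.le_log_iff_exp_le (Z_pos n β g)]
    unfold partitionFunction
    have h1 : Real.exp (-(n * Real.log 2 + K)) ≤ Real.exp (β * energy n g (fun _ => true)) := by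
      apply Real.exp_le_exp.2
      have := (abs_le.1 (hb fun _ => true)).1
      linarith
    exact h1.trans (Finset.single_le_sum (f := fun σ => Real.exp (β * energy n g σ))
      (fun _ _ => (Real.exp_pos _).le) (Finset.mem_univ _))
  · rw [Real.log_le_iff_le_exp (Z_pos n β g)]
    unfold partitionFunction
    refine (Finset.sum_le_card_nsmul _ _ (Real.exp K) fun σ _ =>
      Real.exp_le_exp.2 (abs_le.1 (hb σ)).2).trans (le_of_eq ?_)
    rw [nsmul_eq_mul, hcard, Real.exp_add]

lemma int_gauss (v : NNReal) (c : ℝ) :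
    Integrable (fun x : ℝ => Real.exp (c * |x|)) (gaussianReal 0 v) := by
  refine ((integrable_exp_mul_gaussianReal (μ := 0) (v := v) c).add
    (integrable_exp_mul_gaussianReal (μ := 0) (v := v) (-c))).mono' (by fun_prop) ?_
  refine Eventually.of_forall fun x => ?_
  rw [Real.norm_eq_abs, abs_of_pos (Real.exp_pos _)]
  simp only [Pi.add_apply]
  rcases abs_cases x with h | h
  · rw [h.1]; linarith [Real.exp_pos (-c * x)]
  · rw [h.1, show c * -x = -c * x by ring]; linarith [Real.exp_pos (c * x)]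

lemma int_sum (n : ℕ) (c : ℝ) :
    Integrable (fun g : Disorder n => Real.exp (c * ∑ p, |g p|)) (disorderLaw n) := by
  have h := Integrable.fintype_prod (ι := Fin n × Fin n) (𝕜 := ℝ)
    (μ := fun _ => gaussianReal 0 1) (f := fun _ x => Real.exp (c * |x|)) fun _ => int_gauss 1 c
  refine h.congr (Eventually.of_forall fun g => ?_)
  simp only [Finset.mul_sum, Real.exp_sum]

/-- an exponential moment passes to anything bounded by an affine function -/
lemma int_of_le {Ω : Type*} [MeasurableSpace Ω] {μ : Measure Ω} {f g : Ω → ℝ} (A B : ℝ)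
    (hf : AEStronglyMeasurable f μ) (hg : ∀ c : ℝ, Integrable (fun ω => Real.exp (c * g ω)) μ)
    (hle : ∀ ω, |f ω| ≤ A + B * g ω) (c : ℝ) : Integrable (fun ω => Real.exp (c * |f ω|)) μ := by
  refine ((hg (|c| * B)).const_mul (Real.exp (|c| * A))).mono'
    (Real.continuous_exp.comp_aestronglyMeasurable
      (aestronglyMeasurable_const.mul (continuous_abs.comp_aestronglyMeasurable hf))) ?_
  refine Eventually.of_forall fun ω => ?_
  rw [Real.norm_eq_abs, abs_of_pos (Real.exp_pos _), ← Real.exp_add]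
  apply Real.exp_le_exp.2
  have h1 : c * |f ω| ≤ |c| * |f ω| := mul_le_mul_of_nonneg_right (le_abs_self c) (abs_nonneg _)
  have h2 := mul_le_mul_of_nonneg_left (hle ω) (abs_nonneg c)
  nlinarith

lemma int_of_exp {Ω : Type*} [MeasurableSpace Ω] {μ : Measure Ω} {f : Ω → ℝ}
    (hf : AEStronglyMeasurable f μ) (h : Integrable (fun ω => Real.exp (1 * |f ω|)) μ) :
    Integrable f μ := by
  refine h.mono' hf (Eventually.of_forall fun ω => ?_)
  rw [Real.norm_eq_abs, one_mul]
  linarith [Real.add_one_le_exp |f ω|]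

lemma expF (n : ℕ) (β c : ℝ) :
    Integrable (fun g => Real.exp (c * |logPartitionFunction n β g|)) (disorderLaw n) :=
  int_of_le (n * Real.log 2) (|β| * (Real.sqrt n)⁻¹) (cont_F n β).aestronglyMeasurable
    (int_sum n) (abs_F_le n β) c

lemma intF (n : ℕ) (β : ℝ) : Integrable (logPartitionFunction n β) (disorderLaw n) :=
  int_of_exp (cont_F n β).aestronglyMeasurable (expF n β 1)

lemma expC (n : ℕ) (β c : ℝ) :
    Integrable (fun ω => Real.exp (c * |completedFreeEnergy n β ω|)) (completedLaw n β) := by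
  refine int_of_le (g := fun ω => |logPartitionFunction n β ω.1| + |ω.2|) (|n * Real.log 2|) 1
    (cont_C n β).aestronglyMeasurable (fun c => ?_) (fun ω => ?_) c
  · have h := (expF n β c).mul_prod (int_gauss (Real.toNNReal (β ^ 2 / 2)) c)
    refine h.congr (Eventually.of_forall fun ω => ?_)
    simp only [mul_add, Real.exp_add]
  · unfold completedFreeEnergy
    have h1 := abs_add_le (logPartitionFunction n β ω.1 - n * Real.log 2) ω.2
    have h2 := abs_sub (logPartitionFunction n β ω.1) (n * Real.log 2)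
    linarith


lemma mean_C (n : ℕ) (β : ℝ) : ∫ ω, completedFreeEnergy n β ω ∂completedLaw n β =
    ∫ g, logPartitionFunction n β g ∂disorderLaw n - n * Real.log 2 := by
  have h1 : Integrable (fun ω : Disorder n × ℝ => logPartitionFunction n β ω.1)
      (completedLaw n β) := (intF n β).comp_fst _
  have h2 : Integrable (fun ω : Disorder n × ℝ => ω.2) (completedLaw n β) :=
    (int_of_exp (f := fun x : ℝ => x) (by fun_prop)
      (int_gauss (Real.toNNReal (β ^ 2 / 2)) 1)).comp_snd _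
  have e1 : ∫ ω : Disorder n × ℝ, logPartitionFunction n β ω.1 ∂completedLaw n β =
      ∫ g, logPartitionFunction n β g ∂disorderLaw n := by
    unfold completedLaw
    rw [integral_fun_fst (logPartitionFunction n β)]
    simp
  have e2 : ∫ ω : Disorder n × ℝ, ω.2 ∂completedLaw n β = 0 := by
    unfold completedLaw
    rw [integral_fun_snd (fun x : ℝ => x)]
    simp
  unfold completedFreeEnergy
  have h3 : Integrable (fun ω : Disorder n × ℝ => logPartitionFunction n β ω.1 - n * Real.log 2)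
      (completedLaw n β) := h1.sub (integrable_const _)
  rw [integral_add h3 h2, integral_sub h1 (integrable_const _), e1, e2]
  simp

lemma Y_eq (n : ℕ) (β : ℝ) (ω : Disorder n × ℝ) :
    scaledFluctuation n β ω = xs n β ω.1 + (n : ℝ) ^ (-(1 : ℝ) / 6) * ω.2 := by
  unfold scaledFluctuation xs
  rw [mean_C]
  unfold completedFreeEnergy
  ring

lemma nice_map {Ω : Type*} [MeasurableSpace Ω] (μ : Measure Ω) [IsProbabilityMeasure μ]
    {f : Ω → ℝ} (hf : Measurable f) (h : ∀ c : ℝ, Integrable (fun ω => Real.exp (c * |f ω|)) μ)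
    (m : ℝ) : Nice (μ.map fun ω => m * (f ω - ∫ ω', f ω' ∂μ)) := by
  have hm : Measurable fun ω => m * (f ω - ∫ ω', f ω' ∂μ) := by fun_prop
  have hi : Integrable f μ := int_of_exp hf.aestronglyMeasurable (h 1)
  refine ⟨Measure.isProbabilityMeasure_map hm.aemeasurable, fun c => ?_, ?_⟩
  · rw [integrable_map_measure (by fun_prop) hm.aemeasurable]
    refine int_of_le (g := fun ω => |f ω|) (|m| * |∫ ω', f ω' ∂μ|) |m| hm.aestronglyMeasurable h
      (fun ω => ?_) c
    rw [abs_mul]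
    have := mul_le_mul_of_nonneg_left (abs_sub (f ω) (∫ ω', f ω' ∂μ)) (abs_nonneg m)
    linarith
  · rw [integral_map hm.aemeasurable (by fun_prop), integral_const_mul,
      integral_sub hi (integrable_const _)]
    simp

lemma var_X (n : ℕ) (β : ℝ) : ∫ x, x ^ 2 ∂xLaw n β =
    variance (logPartitionFunction n β) (disorderLaw n) / (n : ℝ) ^ ((1 : ℝ) / 3) := by
  unfold xLaw
  rw [integral_map (cont_X n β).measurable.aemeasurable (by fun_prop),
    variance_eq_integral (cont_F n β).measurable.aemeasurable]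
  unfold xs
  have e : ((n : ℝ) ^ (-(1 : ℝ) / 6)) ^ 2 = ((n : ℝ) ^ ((1 : ℝ) / 3))⁻¹ := by
    rw [← Real.rpow_natCast, ← Real.rpow_mul (Nat.cast_nonneg n),
      ← Real.rpow_neg (Nat.cast_nonneg n)]
    norm_num
  simp only [mul_pow]
  rw [integral_const_mul, e, mul_comm, ← div_eq_mul_inv]

end Basic50

open Basic50 in
theorem basicStmt : BasicStmt := fun n β =>
  ⟨probD n, probC n β, cont_F n β, cont_C n β, cont_Y n β, cont_X n β, convex_F n β, expF n β,
    expC n β, Y_eq n β, nice_map _ (cont_F n β).measurable (expF n β) _,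
    nice_map _ (cont_C n β).measurable (expC n β) _,
    fun k => by
      unfold yLaw fluctuationMoment
      rw [integral_map (cont_Y n β).measurable.aemeasurable (by fun_prop)],
    var_X n β⟩

end Crest.Agent.T156.Soft
end

-- ▼ part T156/SoClose_98
section

/-!
# Row 156, soft part: `CloseStmt` (helper98, task 1220)

`h z = (M_μ z - M_{ν + d} z) / A`, the two-constants theorem gives `|E_μ x^k - E_ν (x+d)^k| ≲ ε^α`,
`k = 1` gives `|d| ≲ ε^α`, and the shift costs `O(|d|)`.
-/

set_option autoImplicit false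
set_option maxHeartbeats 400000
open MeasureTheory ProbabilityTheory Filter Topology Set

namespace Crest.Agent.T156.Soft

namespace Close98

theorem expInt {μ : Measure ℝ} (h : Nice μ) (t d : ℝ) :
    Integrable (fun x => Real.exp (t * (x + d))) μ := by
  refine Integrable.mono' ((h.expInt |t|).mul_const (Real.exp (t * d))) ?_ ?_
  · exact (by fun_prop : Continuous fun x : ℝ => Real.exp (t * (x + d))).aestronglyMeasurable
  · refine Eventually.of_forall fun x => ?_
    rw [Real.norm_eq_abs, abs_of_pos (Real.exp_pos _), ← Real.exp_add]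
    apply Real.exp_le_exp.2
    have : t * x ≤ |t| * |x| := by rw [← abs_mul]; exact le_abs_self _
    nlinarith

theorem expInt0 {μ : Measure ℝ} (h : Nice μ) (t : ℝ) :
    Integrable (fun x => Real.exp (t * x)) μ := by
  simpa using expInt h t 0

theorem iset {μ : Measure ℝ} (h : Nice μ) (d : ℝ) :
    integrableExpSet (fun x : ℝ => x + d) μ = univ := by
  refine eq_univ_of_forall fun t => ?_
  exact expInt h t d

theorem diff {μ : Measure ℝ} (h : Nice μ) (d : ℝ) :
    Differentiable ℂ (complexMGF (fun x : ℝ => x + d) μ) := by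
  intro z
  have hz : z.re ∈ interior (integrableExpSet (fun x : ℝ => x + d) μ) := by
    rw [iset h d]; simp
  exact (hasDerivAt_complexMGF hz).differentiableAt

theorem iter {μ : Measure ℝ} (h : Nice μ) (d : ℝ) (k : ℕ) :
    iteratedDeriv k (complexMGF (fun x : ℝ => x + d) μ) 0 = ((∫ x, (x + d) ^ k ∂μ : ℝ) : ℂ) := by
  have hz : (0 : ℂ).re ∈ interior (integrableExpSet (fun x : ℝ => x + d) μ) := by
    rw [iset h d]; simp
  rw [iteratedDeriv_complexMGF hz k, ← integral_complex_ofReal]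
  simp

theorem powInt {μ : Measure ℝ} (h : Nice μ) (d : ℝ) (k : ℕ) :
    Integrable (fun x : ℝ => (x + d) ^ k) μ := by
  have hz : (0 : ℝ) ∈ interior (integrableExpSet (fun x : ℝ => x + d) μ) := by
    rw [iset h d]; simp
  exact integrable_pow_of_mem_interior_integrableExpSet hz k

theorem mgf_shift (μ : Measure ℝ) (t d : ℝ) :
    mgf (fun x : ℝ => x + d) μ t = (∫ x, Real.exp (t * x) ∂μ) * Real.exp (t * d) := by
  rw [mgf, ← integral_mul_const]
  congr 1
  ext x
  rw [← Real.exp_add]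
  congr 1
  ring

theorem mgf_le {μ : Measure ℝ} (h : Nice μ) {c₀ s₂ M t : ℝ} (hc : 0 ≤ c₀)
    (h1 : ∫ x, Real.exp (c₀ * |x|) ∂μ ≤ M) (h2 : ∫ x, Real.exp (s₂ * x) ∂μ ≤ M)
    (ht1 : -c₀ ≤ t) (ht2 : t ≤ s₂) : ∫ x, Real.exp (t * x) ∂μ ≤ 2 * M := by
  have hle : ∫ x, Real.exp (t * x) ∂μ ≤
      ∫ x, (Real.exp (c₀ * |x|) + Real.exp (s₂ * x)) ∂μ := by
    refine integral_mono (expInt0 h t) ((h.expInt c₀).add (expInt0 h s₂)) fun x => ?_
    have p1 := Real.exp_pos (c₀ * |x|)
    have p2 := Real.exp_pos (s₂ * x)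
    rcases le_total 0 x with hx | hx
    · have : Real.exp (t * x) ≤ Real.exp (s₂ * x) :=
        Real.exp_le_exp.2 (mul_le_mul_of_nonneg_right ht2 hx)
      simp only
      linarith
    · have : Real.exp (t * x) ≤ Real.exp (c₀ * |x|) := by
        apply Real.exp_le_exp.2
        rw [abs_of_nonpos hx]
        nlinarith
      simp only
      linarith
  rw [integral_add (h.expInt c₀) (expInt0 h s₂)] at hle
  linarith

theorem one_le_mgf {μ : Measure ℝ} (h : Nice μ) (t : ℝ) : 1 ≤ ∫ x, Real.exp (t * x) ∂μ := by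
  haveI := h.prob
  have hx : Integrable (fun x : ℝ => x) μ := by simpa using powInt h 0 1
  have hle : ∫ x, (t * x + 1) ∂μ ≤ ∫ x, Real.exp (t * x) ∂μ :=
    integral_mono ((hx.const_mul t).add (integrable_const 1)) (expInt0 h t)
      fun x => Real.add_one_le_exp _
  rw [integral_add (hx.const_mul t) (integrable_const 1), integral_const_mul, h.mean] at hle
  simpa using hle

theorem lam_nonneg {μ : Measure ℝ} (h : Nice μ) (t : ℝ) : 0 ≤ lam μ t :=
  Real.log_nonneg (one_le_mgf h t)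

theorem exp_lam {μ : Measure ℝ} (h : Nice μ) (t : ℝ) :
    Real.exp (lam μ t) = ∫ x, Real.exp (t * x) ∂μ :=
  Real.exp_log (lt_of_lt_of_le one_pos (one_le_mgf h t))

theorem lam_le {μ : Measure ℝ} (h : Nice μ) {t B : ℝ} (hB : ∫ x, Real.exp (t * x) ∂μ ≤ B) :
    lam μ t ≤ B := by
  have := Real.add_one_le_exp (lam μ t)
  rw [exp_lam h t] at this
  linarith

theorem shift_bd {ν : Measure ℝ} (h : Nice ν) {c₀ M D d : ℝ} (hc : 0 < c₀)
    (h1 : ∫ x, Real.exp (c₀ * |x|) ∂ν ≤ M) (hd : |d| ≤ D) (k : ℕ) :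
    |∫ x, (x + d) ^ k ∂ν - ∫ x, x ^ k ∂ν| ≤
      |d| * (k * ((k - 1).factorial / c₀ ^ (k - 1) * Real.exp (c₀ * D)) * M) := by
  have hx : Integrable (fun x : ℝ => x ^ k) ν := by simpa using powInt h 0 k
  rw [← integral_sub (powInt h d k) hx]
  set K : ℝ := |d| * (k * ((k - 1).factorial / c₀ ^ (k - 1) * Real.exp (c₀ * D))) with hK
  have hK0 : 0 ≤ K := by positivity
  have hpt : ∀ x : ℝ, ‖(x + d) ^ k - x ^ k‖ ≤ K * Real.exp (c₀ * |x|) := by
    intro x
    have hD : 0 ≤ D := (abs_nonneg d).trans hd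
    have e1 : |(x + d) ^ k - x ^ k| ≤ |x + d - x| * k * max |x + d| |x| ^ (k - 1) :=
      abs_pow_sub_pow_le ..
    have e2 : max |x + d| |x| ≤ |x| + D := by
      refine max_le ((abs_add_le _ _).trans (by linarith)) (by linarith)
    have e3 : max |x + d| |x| ^ (k - 1) ≤ (|x| + D) ^ (k - 1) :=
      pow_le_pow_left₀ (le_max_of_le_right (abs_nonneg _)) e2 _
    have e4 := Real.pow_div_factorial_le_exp (c₀ * (|x| + D)) (by positivity) (k - 1)
    have hf : (0 : ℝ) < (k - 1).factorial := by exact_mod_cast Nat.factorial_pos _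
    have hcp : 0 < c₀ ^ (k - 1) := pow_pos hc _
    have e5 : (|x| + D) ^ (k - 1) ≤
        (k - 1).factorial / c₀ ^ (k - 1) * Real.exp (c₀ * D) * Real.exp (c₀ * |x|) := by
      rw [mul_pow, div_le_iff₀ hf] at e4
      rw [mul_assoc, ← Real.exp_add, div_mul_eq_mul_div, le_div_iff₀ hcp]
      have : c₀ * D + c₀ * |x| = c₀ * (|x| + D) := by ring
      rw [this]
      nlinarith
    rw [Real.norm_eq_abs]
    have e6 : |x + d - x| = |d| := by congr 1; ring
    rw [e6] at e1
    calc |(x + d) ^ k - x ^ k| ≤ |d| * k * max |x + d| |x| ^ (k - 1) := e1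
      _ ≤ |d| * k * ((k - 1).factorial / c₀ ^ (k - 1) * Real.exp (c₀ * D) *
            Real.exp (c₀ * |x|)) :=
          mul_le_mul_of_nonneg_left (e3.trans e5) (by positivity)
      _ = K * Real.exp (c₀ * |x|) := by rw [hK]; ring
  have hb := norm_integral_le_of_norm_le ((h.expInt c₀).const_mul K) (Eventually.of_forall hpt)
  rw [integral_const_mul, Real.norm_eq_abs] at hb
  calc _ ≤ K * ∫ x, Real.exp (c₀ * |x|) ∂ν := hb
    _ ≤ K * M := mul_le_mul_of_nonneg_left h1 hK0
    _ = _ := by rw [hK]; ring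

theorem abs_exp_sub_le {a b B η S : ℝ} (ha : Real.exp a ≤ B) (hab : |a - b| ≤ η) (hη : η ≤ S) :
    |Real.exp a - Real.exp b| ≤ B * (η * Real.exp S) := by
  have hη0 : 0 ≤ η := (abs_nonneg _).trans hab
  have hB : 0 ≤ B := (Real.exp_pos a).le.trans ha
  have hu := abs_le.1 hab
  have hS1 : 1 ≤ Real.exp S := Real.one_le_exp (hη0.trans hη)
  have key : |1 - Real.exp (b - a)| ≤ η * Real.exp S := by
    rw [abs_le]
    constructor
    · -- exp u - 1 ≤ u exp u ≤ η exp S
      have h1 := Real.add_one_le_exp (-(b - a))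
      have h2 : Real.exp (-(b - a)) * Real.exp (b - a) = 1 := by
        rw [← Real.exp_add]; simp
      have h3 : Real.exp (b - a) ≤ Real.exp S := Real.exp_le_exp.2 (by linarith)
      have h4 := Real.exp_pos (b - a)
      have h5 : (-(b - a) + 1) * Real.exp (b - a) ≤ 1 := by
        exact (mul_le_mul_of_nonneg_right h1 h4.le).trans h2.le
      have h6 : (b - a) * Real.exp (b - a) ≤ η * Real.exp (b - a) :=
        mul_le_mul_of_nonneg_right (by linarith) h4.le
      have h7 : η * Real.exp (b - a) ≤ η * Real.exp S := mul_le_mul_of_nonneg_left h3 hη0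
      nlinarith
    · have h1 := Real.add_one_le_exp (b - a)
      have h7 : η * 1 ≤ η * Real.exp S := mul_le_mul_of_nonneg_left hS1 hη0
      linarith
  have e : Real.exp a - Real.exp b = Real.exp a * (1 - Real.exp (b - a)) := by
    rw [mul_sub, ← Real.exp_add]; congr 2 <;> ring
  rw [e, abs_mul, abs_of_pos (Real.exp_pos a)]
  exact mul_le_mul ha key (abs_nonneg _) hB

end Close98

open Close98 in
theorem closeStmt : CloseStmt := by
  intro htwo s₁ s₂ c₀ M hs₁ hs hc
  have hs₂ : 0 < s₂ := by linarith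
  set D : ℝ := 2 * M / s₁ with hD
  set A : ℝ := |2 * M * (s₂ * Real.exp s₂)| + 1 with hA
  have hA0 : 0 < A := by positivity
  obtain ⟨α, hα, hC⟩ := htwo s₁ s₂ c₀ ((2 * M + 2 * M * Real.exp ((c₀ + s₂) * D)) / A) hs₁ hs hc
  refine ⟨α, hα, fun k => ?_⟩
  obtain ⟨Ck, hCk⟩ := hC k
  obtain ⟨C1, hC1⟩ := hC 1
  refine ⟨A * Ck + A * C1 * (k * ((k - 1).factorial / c₀ ^ (k - 1) * Real.exp (c₀ * D)) * M),
    fun μ ν hμ hν hμ1 hν1 hμ2 hν2 ε hε hε1 hL => ?_⟩
  set d : ℝ := lam μ s₁ / s₁ - lam ν s₁ / s₁ with hd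
  have hM : 0 ≤ M := le_trans (integral_nonneg fun x => (Real.exp_pos _).le) hμ1
  have hdD : |d| ≤ D := by
    have a1 := lam_nonneg hμ s₁
    have a2 := lam_nonneg hν s₁
    have a3 := lam_le hμ (mgf_le hμ hc.le hμ1 hμ2 (t := s₁) (by linarith) (by linarith))
    have a4 := lam_le hν (mgf_le hν hc.le hν1 hν2 (t := s₁) (by linarith) (by linarith))
    rw [hd, ← sub_div, abs_div, abs_of_pos hs₁, hD]
    apply div_le_div_of_nonneg_right _ hs₁.le
    rw [abs_le]; constructor <;> linarith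
  set h : ℂ → ℂ := fun z =>
    (complexMGF (fun x : ℝ => x + 0) μ z - complexMGF (fun x : ℝ => x + d) ν z) / (A : ℂ) with hh
  have hdiff : Differentiable ℂ h := ((diff hμ 0).sub (diff hν d)).div_const _
  have hnA : ‖(A : ℂ)‖ = A := by rw [Complex.norm_real, Real.norm_eq_abs, abs_of_pos hA0]
  have hstrip : ∀ z : ℂ, -c₀ ≤ z.re → z.re ≤ s₂ →
      ‖h z‖ ≤ (2 * M + 2 * M * Real.exp ((c₀ + s₂) * D)) / A := by
    intro z hz1 hz2
    rw [hh]
    simp only
    rw [norm_div, hnA]
    apply div_le_div_of_nonneg_right _ hA0.le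
    refine (norm_sub_le _ _).trans (add_le_add ?_ ?_)
    · refine norm_complexMGF_le_mgf.trans ?_
      rw [mgf_shift]
      simpa using mgf_le hμ hc.le hμ1 hμ2 hz1 hz2
    · refine norm_complexMGF_le_mgf.trans ?_
      rw [mgf_shift]
      refine mul_le_mul (mgf_le hν hc.le hν1 hν2 hz1 hz2) (Real.exp_le_exp.2 ?_)
        (Real.exp_pos _).le (by linarith)
      have b1 : |z.re| ≤ c₀ + s₂ := by rw [abs_le]; constructor <;> linarith
      calc z.re * d ≤ |z.re * d| := le_abs_self _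
        _ = |z.re| * |d| := abs_mul _ _
        _ ≤ (c₀ + s₂) * D := mul_le_mul b1 hdD (abs_nonneg _) (by linarith)
  have hreal : ∀ s ∈ Icc s₁ s₂, ‖h (s : ℂ)‖ ≤ ε := by
    intro s hsI
    have hs0 : 0 < s := lt_of_lt_of_le hs₁ hsI.1
    rw [hh]
    simp only
    rw [norm_div, hnA, div_le_iff₀ hA0, complexMGF_ofReal, complexMGF_ofReal, mgf_shift, mgf_shift,
      ← exp_lam hμ, ← exp_lam hν, ← Complex.ofReal_sub, Complex.norm_real, Real.norm_eq_abs,
      ← Real.exp_add, ← Real.exp_add]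
    have b1 : Real.exp (lam μ s + s * 0) ≤ 2 * M := by
      rw [mul_zero, add_zero, exp_lam hμ]
      exact mgf_le hμ hc.le hμ1 hμ2 (by linarith) hsI.2
    have b2 : |lam μ s + s * 0 - (lam ν s + s * d)| ≤ ε * s₂ := by
      have e : lam μ s + s * 0 - (lam ν s + s * d) = (Lm μ s₁ s - Lm ν s₁ s) * s := by
        rw [hd, Lm, Lm]
        field_simp
        ring
      rw [e, abs_mul, abs_of_pos hs0]
      exact mul_le_mul (hL s hsI) hsI.2 hs0.le hε.le
    have b3 : ε * s₂ ≤ s₂ := by nlinarith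
    refine (abs_exp_sub_le b1 b2 b3).trans ?_
    have b4 : 2 * M * (s₂ * Real.exp s₂) ≤ A := by
      have := le_abs_self (2 * M * (s₂ * Real.exp s₂))
      linarith
    calc 2 * M * (ε * s₂ * Real.exp s₂) = ε * (2 * M * (s₂ * Real.exp s₂)) := by ring
      _ ≤ ε * A := mul_le_mul_of_nonneg_left b4 hε.le
  have hit : ∀ j : ℕ, ‖iteratedDeriv j h 0‖ =
      |∫ x, x ^ j ∂μ - ∫ x, (x + d) ^ j ∂ν| / A := by
    intro j
    rw [hh, iteratedDeriv_div_const,
      iteratedDeriv_fun_sub ((diff hμ 0).contDiff.contDiffAt) ((diff hν d).contDiff.contDiffAt),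
      iter hμ, iter hν, norm_div, hnA, ← Complex.ofReal_sub, Complex.norm_real, Real.norm_eq_abs]
    simp
  have r1 := hC1 h hdiff hstrip ε hε hε1 hreal
  have rk := hCk h hdiff hstrip ε hε hε1 hreal
  rw [hit, div_le_iff₀ hA0] at r1 rk
  have hd1 : |d| ≤ A * C1 * ε ^ α := by
    haveI := hν.prob
    have hx : Integrable (fun x : ℝ => x) ν := by simpa using powInt hν 0 1
    have e : ∫ x, x ^ 1 ∂μ - ∫ x, (x + d) ^ 1 ∂ν = -d := by
      simp only [pow_one]
      rw [integral_add hx (integrable_const d), hμ.mean, hν.mean]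
      simp
    rw [e, abs_neg] at r1
    linarith
  have hsh := shift_bd hν hc hν1 hdD k
  have hK0 : 0 ≤ (k * ((k - 1).factorial / c₀ ^ (k - 1) * Real.exp (c₀ * D)) * M : ℝ) := by
    positivity
  have hsh2 := hsh.trans (mul_le_mul_of_nonneg_right hd1 hK0)
  calc |∫ x, x ^ k ∂μ - ∫ x, x ^ k ∂ν|
      ≤ |∫ x, x ^ k ∂μ - ∫ x, (x + d) ^ k ∂ν| + |∫ x, (x + d) ^ k ∂ν - ∫ x, x ^ k ∂ν| :=
        abs_sub_le _ _ _
    _ ≤ Ck * ε ^ α * A + A * C1 * ε ^ α *
          (k * ((k - 1).factorial / c₀ ^ (k - 1) * Real.exp (c₀ * D)) * M) := add_le_add rk hsh2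
    _ = _ := by ring

end Crest.Agent.T156.Soft
end

-- ▼ part T156/SoCopy_81

/-!
# Row 156, soft part: the copy product (helper81)

`copyStmt` (integrable, mean = moment) and `copyBdStmt` (uniform bound of the absolute mean).
-/

set_option autoImplicit false
open MeasureTheory ProbabilityTheory Filter Topology Set
open Crest.ProbabilityR.SpinGlass

namespace Crest.Agent.T156.Soft

section generic
variable {Ω : Type} [MeasurableSpace Ω] {μ : Measure Ω}

omit [MeasurableSpace Ω] in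
theorem cp81_bd (Y : Ω → ℝ) (k : ℕ) {c : ℝ} (hc : 0 < c) (ω : Fin (k + 1) → Ω) :
    |∏ i : Fin k, (Y (ω 0) - Y (ω i.succ))| ≤
      2 ^ k * (k.factorial / c ^ k) * ∑ j : Fin (k + 1), Real.exp (c * |Y (ω j)|) := by
  obtain ⟨j, hj⟩ := Finite.exists_max (fun j : Fin (k + 1) => |Y (ω j)|)
  have h1 : |∏ i : Fin k, (Y (ω 0) - Y (ω i.succ))| ≤ (2 * |Y (ω j)|) ^ k := by
    rw [Finset.abs_prod]
    calc ∏ i : Fin k, |Y (ω 0) - Y (ω i.succ)| ≤ ∏ _i : Fin k, (2 * |Y (ω j)|) := by
          refine Finset.prod_le_prod (fun i _ => abs_nonneg _) (fun i _ => ?_)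
          have := abs_sub (Y (ω 0)) (Y (ω i.succ))
          have := hj 0
          have := hj i.succ
          linarith
      _ = (2 * |Y (ω j)|) ^ k := by simp
  have h2 : (c * |Y (ω j)|) ^ k / k.factorial ≤ Real.exp (c * |Y (ω j)|) :=
    Real.pow_div_factorial_le_exp _ (by positivity) k
  have hf : (0 : ℝ) < k.factorial := by exact_mod_cast k.factorial_pos
  have hck : 0 < c ^ k := pow_pos hc k
  have h3 : |Y (ω j)| ^ k ≤ (k.factorial / c ^ k) * Real.exp (c * |Y (ω j)|) := by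
    rw [div_le_iff₀ hf, mul_pow] at h2
    rw [div_mul_eq_mul_div, le_div_iff₀ hck]
    linarith
  have h4 : Real.exp (c * |Y (ω j)|) ≤ ∑ j : Fin (k + 1), Real.exp (c * |Y (ω j)|) :=
    Finset.single_le_sum (f := fun j : Fin (k + 1) => Real.exp (c * |Y (ω j)|))
      (fun i _ => (Real.exp_pos _).le) (Finset.mem_univ j)
  calc _ ≤ (2 * |Y (ω j)|) ^ k := h1
    _ = 2 ^ k * |Y (ω j)| ^ k := mul_pow _ _ _
    _ ≤ 2 ^ k * ((k.factorial / c ^ k) * ∑ j : Fin (k + 1), Real.exp (c * |Y (ω j)|)) := by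
        gcongr
        exact h3.trans (by gcongr)
    _ = _ := by ring

theorem cp81_dom [IsProbabilityMeasure μ] (Y : Ω → ℝ) (k : ℕ) {c : ℝ}
    (hI : Integrable (fun x => Real.exp (c * |Y x|)) μ) :
    Integrable (fun ω : Fin (k + 1) → Ω => ∑ j : Fin (k + 1), Real.exp (c * |Y (ω j)|))
      (Measure.pi fun _ => μ) ∧
    ∫ ω : Fin (k + 1) → Ω, ∑ j : Fin (k + 1), Real.exp (c * |Y (ω j)|) ∂(Measure.pi fun _ => μ) =
      (k + 1) * ∫ x, Real.exp (c * |Y x|) ∂μ := by
  have hj : ∀ j : Fin (k + 1), Integrable (fun ω : Fin (k + 1) → Ω => Real.exp (c * |Y (ω j)|))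
      (Measure.pi fun _ => μ) := fun j =>
    (measurePreserving_eval (fun _ : Fin (k + 1) => μ) j).integrable_comp_of_integrable hI
  refine ⟨integrable_finsetSum _ fun j _ => hj j, ?_⟩
  rw [integral_finsetSum _ fun j _ => hj j]
  have : ∀ j : Fin (k + 1), ∫ ω : Fin (k + 1) → Ω, Real.exp (c * |Y (ω j)|)
      ∂(Measure.pi fun _ => μ) = ∫ x, Real.exp (c * |Y x|) ∂μ := fun j =>
    integral_comp_eval (μ := fun _ : Fin (k + 1) => μ) (i := j)
      (f := fun x => Real.exp (c * |Y x|)) hI.aestronglyMeasurable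
  simp [this]

theorem cp81_int [IsProbabilityMeasure μ] {Y : Ω → ℝ} (hY : Measurable Y) (k : ℕ) {c : ℝ}
    (hc : 0 < c) (hI : Integrable (fun x => Real.exp (c * |Y x|)) μ) :
    Integrable (fun ω : Fin (k + 1) → Ω => ∏ i : Fin k, (Y (ω 0) - Y (ω i.succ)))
      (Measure.pi fun _ => μ) := by
  refine Integrable.mono' ((cp81_dom Y k hI).1.const_mul (2 ^ k * (k.factorial / c ^ k))) ?_
    (Eventually.of_forall fun ω => ?_)
  · refine Measurable.aestronglyMeasurable ?_
    exact Finset.measurable_prod _ fun i _ =>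
      (hY.comp (measurable_pi_apply 0)).sub (hY.comp (measurable_pi_apply _))
  · exact cp81_bd Y k hc ω

theorem cp81_abs [IsProbabilityMeasure μ] {Y : Ω → ℝ} (hY : Measurable Y) (k : ℕ) {c : ℝ}
    (hc : 0 < c) (hI : Integrable (fun x => Real.exp (c * |Y x|)) μ) :
    ∫ ω : Fin (k + 1) → Ω, |∏ i : Fin k, (Y (ω 0) - Y (ω i.succ))| ∂(Measure.pi fun _ => μ) ≤
      2 ^ k * (k.factorial / c ^ k) * ((k + 1) * ∫ x, Real.exp (c * |Y x|) ∂μ) := by
  rw [← (cp81_dom Y k hI).2, ← integral_const_mul]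
  exact integral_mono (cp81_int hY k hc hI).abs ((cp81_dom Y k hI).1.const_mul _)
    fun ω => cp81_bd Y k hc ω

theorem cp81_mean [IsProbabilityMeasure μ] {Y : Ω → ℝ} (hY : Measurable Y) (k : ℕ)
    (hI : Integrable (fun x => Real.exp (1 * |Y x|)) μ) (h0 : ∫ x, Y x ∂μ = 0) :
    ∫ ω : Fin (k + 1) → Ω, ∏ i : Fin k, (Y (ω 0) - Y (ω i.succ)) ∂(Measure.pi fun _ => μ) =
      ∫ x, Y x ^ k ∂μ := by
  have hYI : Integrable Y μ := by
    refine hI.mono' hY.aestronglyMeasurable (Eventually.of_forall fun x => ?_)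
    have := Real.add_one_le_exp (1 * |Y x|)
    rw [Real.norm_eq_abs]
    linarith
  have hmp := measurePreserving_piFinSuccAbove (fun _ : Fin (k + 1) => μ) 0
  set G : Ω × (Fin k → Ω) → ℝ := fun p => ∏ i : Fin k, (Y p.1 - Y (p.2 i)) with hG
  have hcomp : (fun ω : Fin (k + 1) → Ω => ∏ i : Fin k, (Y (ω 0) - Y (ω i.succ))) =
      fun ω => G (MeasurableEquiv.piFinSuccAbove (fun _ : Fin (k + 1) => Ω) 0 ω) := by
    funext ω
    rfl
  have hGI : Integrable G (μ.prod (Measure.pi fun _ : Fin k => μ)) := by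
    have h := cp81_int hY k one_pos hI
    rw [hcomp] at h
    exact (hmp.integrable_comp_emb
      (MeasurableEquiv.piFinSuccAbove (fun _ : Fin (k + 1) => Ω) 0).measurableEmbedding).1 h
  rw [hcomp, hmp.integral_comp' G, integral_prod _ hGI]
  refine integral_congr_ae (Eventually.of_forall fun x => ?_)
  simp only [hG]
  rw [integral_fintype_prod_eq_pow (ι := Fin k) (fun y => Y x - Y y),
    integral_sub (integrable_const _) hYI, h0]
  simp

end generic

theorem cp81_eq (l : ℕ) (β : ℝ) (k : ℕ) : copyProduct l β k = fun ω =>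
    ∏ i : Fin k, (scaledFluctuation l β (ω 0) - scaledFluctuation l β (ω i.succ)) := by
  funext ω
  unfold copyProduct scaledFluctuation
  refine Finset.prod_congr rfl fun i _ => ?_
  ring

theorem cp81_facts (hB : BasicStmt) (l : ℕ) (β : ℝ) :
    IsProbabilityMeasure (completedLaw l β) ∧ Measurable (scaledFluctuation l β) ∧
    (∀ c : ℝ, Integrable (fun x => Real.exp (c * |scaledFluctuation l β x|)) (completedLaw l β) ∧
      ∫ x, Real.exp (c * |x|) ∂yLaw l β =
        ∫ x, Real.exp (c * |scaledFluctuation l β x|) ∂completedLaw l β) ∧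
    ∫ x, scaledFluctuation l β x ∂completedLaw l β = 0 := by
  obtain ⟨-, hP, -, -, hS, -, -, -, -, -, -, hN, -, -⟩ := hB l β
  have hm : Measurable (scaledFluctuation l β) := hS.measurable
  refine ⟨hP, hm, fun c => ⟨?_, ?_⟩, ?_⟩
  · have h := hN.expInt c
    unfold yLaw at h
    exact (integrable_map_measure h.aestronglyMeasurable hm.aemeasurable).1 h
  · unfold yLaw
    exact integral_map hm.aemeasurable (by fun_prop)
  · have h := hN.mean
    unfold yLaw at h
    rw [integral_map hm.aemeasurable (by fun_prop)] at h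
    exact h

theorem copyStmt : CopyStmt := by
  intro hB l β k
  obtain ⟨hP, hm, hE, h0⟩ := cp81_facts hB l β
  rw [cp81_eq]
  exact ⟨cp81_int hm k one_pos (hE 1).1, cp81_mean hm k (hE 1).1 h0⟩

theorem copyBdStmt : CopyBdStmt := by
  intro hB k c C hc
  refine ⟨2 ^ k * (k.factorial / c ^ k) * ((k + 1) * C), fun l β hC => ?_⟩
  obtain ⟨hP, hm, hE, -⟩ := cp81_facts hB l β
  rw [cp81_eq]
  refine (cp81_abs hm k hc (hE c).1).trans ?_
  rw [← (hE c).2]
  gcongr

end Crest.Agent.T156.Soft
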