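import Crest.Agent.T156.SoftDef_88
import Crest.Agent.T156.SoA27_88
import Crest.Agent.T156.SoCopy_81_Mg
import Crest.Agent.T156.SoLc_5
import Crest.Agent.T157.G1_52
import Crest.Agent.T157.Sc2_68
import Crest.Agent.T156.CaLink_33
import Crest.Agent.T156.CaTilt_43
import Crest.Agent.T156.Dn_41
import Crest.Agent.T156.Sc_48
import Crest.Agent.T157.PfC_56
import Crest.Agent.T156.AltDef_88
import Crest.Agent.T156.ChainQ_26
import Crest.Agent.T156.PrB_28
import Crest.Agent.T156.StrB_62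
import Crest.Agent.T156.AltFam_88
import Crest.Agent.T156.AltNum_11
import Crest.Agent.T156.PrU_28

-- ▼ part T156/SoExp_56
section

/-! # Row 156, soft part: `ExpStmt` (helper56) -/

set_option autoImplicit false
open MeasureTheory ProbabilityTheory Filter Topology Set

namespace Crest.Agent.T156.Soft

namespace Exp56

theorem int_exp {μ : Measure ℝ} (h : Nice μ) (a : ℝ) :
    Integrable (fun x => Real.exp (a * x)) μ := by
  refine (h.expInt |a|).mono' (by fun_prop) (ae_of_all _ fun x => ?_)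
  rw [Real.norm_eq_abs, abs_of_pos (Real.exp_pos _), ← abs_mul]
  exact Real.exp_le_exp.2 (le_abs_self _)

theorem int_id {μ : Measure ℝ} (h : Nice μ) : Integrable (fun x : ℝ => x) μ := by
  refine (h.expInt 1).mono' (by fun_prop) (ae_of_all _ fun x => ?_)
  rw [Real.norm_eq_abs, one_mul]
  linarith [Real.add_one_le_exp |x|]

theorem int_exp' {μ : Measure ℝ} (h : Nice μ) (c a : ℝ) :
    Integrable (fun x => Real.exp (c * (a - x))) μ := by
  have := (int_exp h (-c)).const_mul (Real.exp (c * a))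
  refine this.congr (ae_of_all _ fun x => ?_)
  simp only [← Real.exp_add]
  congr 1
  ring

/-- Jensen in the form `1 + c a ≤ E exp (c (a - x))` -/
theorem jensen {μ : Measure ℝ} (h : Nice μ) (c a : ℝ) :
    1 + c * a ≤ ∫ x, Real.exp (c * (a - x)) ∂μ := by
  have := h.prob
  have h1 : ∫ x, (1 + c * a - c * x) ∂μ = 1 + c * a := by
    rw [integral_sub (integrable_const _) ((int_id h).const_mul c), integral_const_mul, h.mean]
    simp
  rw [← h1]
  refine integral_mono ((integrable_const _).sub ((int_id h).const_mul c)) (int_exp' h c a)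
    fun x => ?_
  have := Real.add_one_le_exp (c * (a - x))
  dsimp only
  linarith

theorem one_le {μ : Measure ℝ} (h : Nice μ) (s : ℝ) : 1 ≤ ∫ x, Real.exp (s * x) ∂μ := by
  have := jensen h (-s) 0
  simpa using this

theorem exp_lam {μ : Measure ℝ} (h : Nice μ) (s : ℝ) :
    Real.exp (lam μ s) = ∫ x, Real.exp (s * x) ∂μ :=
  Real.exp_log (by linarith [one_le h s])

/-- Markov -/
theorem markov {μ : Measure ℝ} (h : Nice μ) {s : ℝ} (hs : 0 < s) (u : ℝ) :
    μ.real (Ioi ((lam μ s + u) / s)) ≤ Real.exp (-u) := by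
  have := h.prob
  rw [← integral_indicator_one measurableSet_Ioi]
  have h1 : ∫ x, Real.exp (-(lam μ s + u)) * Real.exp (s * x) ∂μ = Real.exp (-u) := by
    rw [integral_const_mul, ← exp_lam h s, ← Real.exp_add]
    congr 1
    ring
  rw [← h1]
  refine integral_mono ((integrable_const (1 : ℝ)).indicator measurableSet_Ioi)
    ((int_exp h s).const_mul _) fun x => ?_
  by_cases hx : x ∈ Ioi ((lam μ s + u) / s)
  · rw [indicator_of_mem hx]
    have : lam μ s + u < s * x := by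
      have := (div_lt_iff₀ hs).1 hx
      linarith
    dsimp only
    rw [← Real.exp_add]
    exact Real.one_le_exp (by linarith)
  · rw [indicator_of_notMem hx]
    positivity

theorem amgm {e M E : ℝ} (hM : 0 < M) (hE : 0 < E) :
    e ≤ 1 / (4 * M * E) * (e * e) + M * E := by
  have h : 0 < M * E := mul_pos hM hE
  have h2 : 1 / (4 * M * E) * (e * e) + M * E - e = (e - 2 * (M * E)) ^ 2 / (4 * (M * E)) := by
    field_simp
    ring
  have h3 : 0 ≤ (e - 2 * (M * E)) ^ 2 / (4 * (M * E)) := by positivity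
  linarith

/-- Paley–Zygmund -/
theorem pz {μ : Measure ℝ} (h : Nice μ) {s K : ℝ} (hs : 0 < s)
    (hK : lam μ (2 * s) ≤ 2 * lam μ s + K) :
    Real.exp (-K) / 4 ≤ μ.real (Ioi ((lam μ s - Real.log 2) / s)) := by
  have := h.prob
  set A := Ioi ((lam μ s - Real.log 2) / s) with hA
  set M := Real.exp (lam μ s) with hM
  set E := Real.exp K with hE
  have hM0 : 0 < M := Real.exp_pos _
  have hE0 : 0 < E := Real.exp_pos _
  have hI : Integrable (A.indicator (1 : ℝ → ℝ)) μ :=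
    (integrable_const (1 : ℝ)).indicator measurableSet_Ioi
  have h2 : ∫ x, Real.exp (2 * s * x) ∂μ ≤ M * M * E := by
    rw [← exp_lam h (2 * s), hM, hE, ← Real.exp_add, ← Real.exp_add]
    exact Real.exp_le_exp.2 (by linarith)
  have h1 : ∫ x, Real.exp (s * x) ∂μ ≤
      ∫ x, (M / 2 + 1 / (4 * M * E) * Real.exp (2 * s * x) + M * E * A.indicator 1 x) ∂μ := by
    refine integral_mono (int_exp h s)
      (((integrable_const _).add ((int_exp h (2 * s)).const_mul _)).add (hI.const_mul _))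
      fun x => ?_
    dsimp only
    have he : Real.exp (2 * s * x) = Real.exp (s * x) * Real.exp (s * x) := by
      rw [← Real.exp_add]; congr 1; ring
    by_cases hx : x ∈ A
    · rw [indicator_of_mem hx, he]
      have := amgm (e := Real.exp (s * x)) hM0 hE0
      simp only [Pi.one_apply, mul_one]
      linarith
    · rw [indicator_of_notMem hx]
      have hx' : s * x ≤ lam μ s - Real.log 2 := by
        have : x ≤ (lam μ s - Real.log 2) / s := not_lt.1 hx
        have := (le_div_iff₀ hs).1 this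
        linarith
      have h3 : Real.exp (s * x) ≤ M / 2 := by
        refine (Real.exp_le_exp.2 hx').trans_eq ?_
        rw [Real.exp_sub, Real.exp_log (by norm_num)]
      have h4 : 0 ≤ 1 / (4 * M * E) * Real.exp (2 * s * x) := by positivity
      linarith
  have hJ : Integrable (fun x => M / 2 + 1 / (4 * M * E) * Real.exp (2 * s * x)) μ :=
    (integrable_const _).add ((int_exp h (2 * s)).const_mul _)
  rw [integral_add hJ (hI.const_mul _),
    integral_add (integrable_const _) ((int_exp h (2 * s)).const_mul _), integral_const_mul,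
    integral_const_mul, integral_indicator_one measurableSet_Ioi, ← exp_lam h s, ← hM] at h1
  simp only [integral_const, probReal_univ, smul_eq_mul, one_mul] at h1
  have h5 : 1 / (4 * M * E) * ∫ x, Real.exp (2 * s * x) ∂μ ≤ M / 4 := by
    refine (mul_le_mul_of_nonneg_left h2 (by positivity)).trans_eq ?_
    field_simp
  have h6 : M * (1 / 4) ≤ M * (E * μ.real A) := by linarith
  have h7 := le_of_mul_le_mul_left h6 hM0
  rw [Real.exp_neg, ← hE, div_le_iff₀ (by norm_num), inv_le_iff_one_le_mul₀' hE0]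
  linarith

/-- log-concavity gives an exponential lower tail -/
theorem tail {μ : Measure ℝ} (h : Nice μ) (hc : CdfLC μ) {a w p : ℝ} (hw : 0 < w) (hp : 0 < p)
    (hp' : p ≤ 1 / 4) (ha : μ.real (Iic a) ≤ 1 - 2 * p) (hb : 1 - p ≤ μ.real (Iic (a + w)))
    (t : ℝ) : μ.real (Iic t) ≤
      Real.exp (-(-Real.log ((1 - 2 * p) / (1 - p)) / w) * (a - t)) := by
  have := h.prob
  have hq0 : 0 < (1 - 2 * p) / (1 - p) := div_pos (by linarith) (by linarith)
  have hq1 : (1 - 2 * p) / (1 - p) ≤ 1 := (div_le_one (by linarith)).2 (by linarith)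
  have hl : Real.log ((1 - 2 * p) / (1 - p)) ≤ 0 := Real.log_nonpos hq0.le hq1
  set q := (1 - 2 * p) / (1 - p) with hq
  have hγ : 0 ≤ -Real.log q / w := div_nonneg (by linarith) hw.le
  rcases le_or_gt a t with hat | hat
  · refine measureReal_le_one.trans (Real.one_le_exp ?_)
    nlinarith
  rcases (measureReal_nonneg (μ := μ) (s := Iic t)).eq_or_lt with h0 | h0
  · rw [← h0]; positivity
  have hd : 0 < a + w - t := by linarith
  have hθ0 : 0 < (a - t) / (a + w - t) := div_pos (by linarith) hd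
  have hθ1 : (a - t) / (a + w - t) < 1 := (div_lt_one hd).2 (by linarith)
  set θ := (a - t) / (a + w - t) with hθ
  have h1 := hc t (a + w) θ hθ0 hθ1
  have he : (1 - θ) * t + θ * (a + w) = a := by
    rw [hθ]; field_simp; ring
  rw [he] at h1
  have h2 : 1 - p ≤ μ.real (Iic (a + w)) ^ θ := by
    refine hb.trans ?_
    conv_lhs => rw [← Real.rpow_one (μ.real (Iic (a + w)))]
    exact Real.rpow_le_rpow_of_exponent_ge (by linarith) measureReal_le_one hθ1.le
  have h3 : μ.real (Iic t) ^ (1 - θ) ≤ q := by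
    rw [hq, le_div_iff₀ (by linarith)]
    exact ((mul_le_mul_of_nonneg_left h2 (by positivity)).trans h1).trans ha
  have h4 : (1 - θ) * Real.log (μ.real (Iic t)) ≤ Real.log q := by
    rw [← Real.log_rpow h0]
    exact Real.log_le_log (by positivity) h3
  have h5 : 1 - θ = w / (a + w - t) := by
    rw [hθ]; field_simp; ring
  rw [h5, div_mul_eq_mul_div, div_le_iff₀ hd] at h4
  rw [← Real.exp_log h0]
  refine Real.exp_le_exp.2 ?_
  have h6 : -(-Real.log q / w) * (a - t) = Real.log q * (a - t) / w := by ring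
  rw [h6, le_div_iff₀ hw]
  nlinarith

/-- the constant of the layer-cake bound -/
noncomputable def C1 : ℝ := ∫ t in Ioi (0 : ℝ), 2 * (1 + t ^ 2)⁻¹

theorem C1_nonneg : 0 ≤ C1 := integral_nonneg fun t => by positivity

theorem layer {μ : Measure ℝ} (h : Nice μ) {a c : ℝ} (hc : 0 < c)
    (ht : ∀ t, μ.real (Iic t) ≤ Real.exp (-(2 * c) * (a - t))) :
    ∫ x, Real.exp (c * (a - x)) ∂μ ≤ C1 := by
  have := h.prob
  rw [(int_exp' h c a).integral_eq_integral_meas_le (ae_of_all _ fun x => (Real.exp_pos _).le)]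
  refine integral_mono_of_nonneg (ae_of_all _ fun t => measureReal_nonneg)
    (integrable_inv_one_add_sq.const_mul 2).integrableOn ?_
  filter_upwards [ae_restrict_mem measurableSet_Ioi] with t ht0
  have ht0 : 0 < t := ht0
  rcases le_or_gt t 1 with h1 | h1
  · refine measureReal_le_one.trans ?_
    rw [← div_eq_mul_inv, le_div_iff₀ (by positivity)]
    nlinarith
  have hsub : {x : ℝ | t ≤ Real.exp (c * (a - x))} ⊆ Iic (a - Real.log t / c) := by
    intro x hx
    have hx' : Real.log t ≤ c * (a - x) := (Real.log_le_iff_le_exp ht0).2 hx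
    have : Real.log t / c ≤ a - x := (div_le_iff₀ hc).2 (by linarith)
    show x ≤ a - Real.log t / c
    linarith
  refine ((measureReal_mono hsub).trans (ht _)).trans ?_
  have he : -(2 * c) * (a - (a - Real.log t / c)) = -(Real.log t + Real.log t) := by
    field_simp
    ring
  rw [he, Real.exp_neg, Real.exp_add, Real.exp_log ht0, ← div_eq_mul_inv, ← one_div,
    div_le_div_iff₀ (by positivity) (by positivity)]
  nlinarith

end Exp56

open Exp56 in
theorem expStmt : ExpStmt := by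
  intro s k hs
  set K := max k 0 with hKdef
  have hK0 : 0 ≤ K := le_max_right _ _
  set p := Real.exp (-K) / 8 with hpdef
  have hp : 0 < p := by positivity
  have hp' : p ≤ 1 / 4 := by
    have : Real.exp (-K) ≤ 1 := Real.exp_le_one_iff.2 (by linarith)
    linarith
  have hl2 : 0 < Real.log 2 := Real.log_pos (by norm_num)
  have hl8 : 0 < Real.log 8 := Real.log_pos (by norm_num)
  set w := (K + Real.log 8 + Real.log 2) / s with hwdef
  have hw : 0 < w := by positivity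
  have hq0 : 0 < (1 - 2 * p) / (1 - p) := div_pos (by linarith) (by linarith)
  have hq1 : (1 - 2 * p) / (1 - p) < 1 := (div_lt_one (by linarith)).2 (by linarith)
  have hl : Real.log ((1 - 2 * p) / (1 - p)) < 0 := Real.log_neg hq0 hq1
  set c := -Real.log ((1 - 2 * p) / (1 - p)) / w / 2 with hcdef
  have hc : 0 < c := div_pos (div_pos (by linarith) hw) (by norm_num)
  set L := s * (C1 / c) + Real.log 2 with hL
  have hC1 := C1_nonneg
  have hL0 : 0 ≤ L := by positivity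
  refine ⟨min c s, Real.exp L + Real.exp (c * (Real.log 2 / s)) * C1 + L, lt_min hc hs,
    fun μ h hcl hk => ?_⟩
  have := h.prob
  set a := (lam μ s - Real.log 2) / s with hadef
  have hΛ : 0 ≤ lam μ s := Real.log_nonneg (one_le h s)
  have ha : μ.real (Iic a) ≤ 1 - 2 * p := by
    have h1 := pz h hs (K := K) (hk.trans (by linarith [le_max_left k 0]))
    rw [← compl_Ioi, probReal_compl_eq_one_sub measurableSet_Ioi]
    linarith
  have hb : 1 - p ≤ μ.real (Iic (a + w)) := by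
    have h1 := markov h hs (K + Real.log 8)
    have he : a + w = (lam μ s + (K + Real.log 8)) / s := by
      rw [hadef, hwdef]; ring
    have h2 : Real.exp (-(K + Real.log 8)) = p := by
      rw [neg_add, Real.exp_add, Real.exp_neg (Real.log 8), Real.exp_log (by norm_num), hpdef]
      ring
    rw [he, ← compl_Ioi, probReal_compl_eq_one_sub measurableSet_Ioi]
    linarith
  have hlay : ∫ x, Real.exp (c * (a - x)) ∂μ ≤ C1 := by
    refine layer h hc fun t => (tail h hcl hw hp hp' ha hb t).trans_eq ?_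
    congr 2
    rw [hcdef]; ring
  have haC : a ≤ C1 / c := by
    have := (jensen h c a).trans hlay
    rw [le_div_iff₀ hc]
    linarith
  have hΛL : lam μ s ≤ L := by
    have h1 : lam μ s = s * a + Real.log 2 := by rw [hadef]; field_simp; ring
    have h2 := mul_le_mul_of_nonneg_left haC hs.le
    linarith
  have hE : 0 ≤ Real.exp (c * (Real.log 2 / s)) * C1 := by positivity
  refine ⟨?_, by rw [abs_of_nonneg hΛ]; linarith [Real.exp_pos L]⟩
  have h1 : ∫ x, Real.exp (min c s * |x|) ∂μ ≤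
      ∫ x, (Real.exp (s * x) + Real.exp (c * (Real.log 2 / s)) * Real.exp (c * (a - x))) ∂μ := by
    refine integral_mono (h.expInt _) ((int_exp h s).add ((int_exp' h c a).const_mul _))
      fun x => ?_
    dsimp only
    rcases le_or_gt 0 x with hx | hx
    · have h2 : Real.exp (min c s * |x|) ≤ Real.exp (s * x) := by
        rw [abs_of_nonneg hx]
        exact Real.exp_le_exp.2 (mul_le_mul_of_nonneg_right (min_le_right _ _) hx)
      have h3 : 0 ≤ Real.exp (c * (Real.log 2 / s)) * Real.exp (c * (a - x)) := by positivity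
      linarith
    · have ha0 : 0 ≤ Real.log 2 / s + a := by
        rw [hadef, ← add_div]
        exact div_nonneg (by linarith) hs.le
      have h2 : Real.exp (min c s * |x|) ≤
          Real.exp (c * (Real.log 2 / s)) * Real.exp (c * (a - x)) := by
        rw [abs_of_neg hx, ← Real.exp_add]
        refine Real.exp_le_exp.2 ?_
        have h3 := mul_le_mul_of_nonneg_right (min_le_left c s) (neg_nonneg.2 hx.le)
        have h4 := mul_nonneg hc.le ha0
        linarith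
      linarith [Real.exp_pos (s * x)]
  rw [integral_add (int_exp h s) ((int_exp' h c a).const_mul _), integral_const_mul,
    ← exp_lam h s] at h1
  have h2 := Real.exp_le_exp.2 hΛL
  have h3 := mul_le_mul_of_nonneg_left hlay (Real.exp_pos (c * (Real.log 2 / s))).le
  linarith

end Crest.Agent.T156.Soft
end

-- ▼ part T156/SoLimit_87
section

/-!
# Row 156, soft part: the method of moments (`LimitStmt`, helper87)

Tightness by Markov, Prokhorov, truncation for the moments of every cluster point, `DetStmt`.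
-/

set_option autoImplicit false
open MeasureTheory ProbabilityTheory Filter Topology Set

namespace Crest.Agent.T156.Soft

/-- truncation of a continuous function at height `R` -/
noncomputable def trunc87 (g : ℝ → ℝ) (hg : Continuous g) (R : ℝ) : BoundedContinuousFunction ℝ ℝ :=
  BoundedContinuousFunction.ofNormedAddCommGroup (fun x => max (-|R|) (min (g x) |R|))
    (continuous_const.max (hg.min continuous_const)) |R| (fun x => by
      rw [Real.norm_eq_abs, abs_le]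
      exact ⟨le_max_left _ _, max_le (by linarith [abs_nonneg R]) (min_le_right _ _)⟩)

lemma trunc87_apply (g : ℝ → ℝ) (hg : Continuous g) (R x : ℝ) :
    trunc87 g hg R x = max (-|R|) (min (g x) |R|) := rfl

lemma trunc87_err (g : ℝ → ℝ) (hg : Continuous g) {R : ℝ} (hR : 0 < R) (x : ℝ) :
    |g x - trunc87 g hg R x| ≤ g x ^ 2 / R := by
  rw [trunc87_apply, abs_of_pos hR, le_div_iff₀ hR]
  rcases le_total (g x) R with h | h
  · rw [min_eq_left h]
    rcases le_total (-R) (g x) with h' | h'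
    · rw [max_eq_right h']; simp; positivity
    · rw [max_eq_left h', abs_of_nonpos (by linarith)]; nlinarith
  · rw [min_eq_right h, max_eq_right (by linarith), abs_of_nonneg (by linarith)]; nlinarith

/-- a function dominated by `K exp ((c/2)|x|)` is uniformly close to its truncations -/
lemma int_trunc87 (g : ℝ → ℝ) (hg : Continuous g) {c K C R : ℝ} (hR : 0 < R)
    (hK : ∀ x, g x ^ 2 ≤ K * Real.exp (c * |x|)) (hK0 : 0 ≤ K) (μ : Measure ℝ)
    [IsProbabilityMeasure μ] (hi : Integrable (fun x => Real.exp (c * |x|)) μ)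
    (hC : ∫ x, Real.exp (c * |x|) ∂μ ≤ C) :
    Integrable g μ ∧ |∫ x, g x ∂μ - ∫ x, trunc87 g hg R x ∂μ| ≤ K * C / R := by
  have ht : Integrable (fun x => trunc87 g hg R x) μ := (trunc87 g hg R).integrable μ
  have hb : ∀ x, |g x - trunc87 g hg R x| ≤ K / R * Real.exp (c * |x|) := fun x => by
    refine (trunc87_err g hg hR x).trans ?_
    rw [div_mul_eq_mul_div]
    exact div_le_div_of_nonneg_right (hK x) hR.le
  have hd : Integrable (fun x => g x - trunc87 g hg R x) μ :=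
    (hi.const_mul (K / R)).mono' ((hg.sub (trunc87 g hg R).continuous).aestronglyMeasurable)
      (Eventually.of_forall fun x => by rw [Real.norm_eq_abs]; exact hb x)
  have hgi : Integrable g μ := by
    have := hd.add ht
    refine this.congr (Eventually.of_forall fun x => by simp)
  refine ⟨hgi, ?_⟩
  rw [← integral_sub hgi ht]
  calc |∫ x, (g x - trunc87 g hg R x) ∂μ| ≤ ∫ x, |g x - trunc87 g hg R x| ∂μ :=
        abs_integral_le_integral_abs
    _ ≤ ∫ x, K / R * Real.exp (c * |x|) ∂μ := integral_mono hd.abs (hi.const_mul _) hb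
    _ = K / R * ∫ x, Real.exp (c * |x|) ∂μ := integral_const_mul _ _
    _ ≤ K / R * C := mul_le_mul_of_nonneg_left hC (div_nonneg hK0 hR.le)
    _ = K * C / R := by ring

/-- the exponential moment passes to a weak limit -/
lemma exp_limit87 {F : Filter ℕ} [F.NeBot] (P : ℕ → ProbabilityMeasure ℝ) (ν : ProbabilityMeasure ℝ)
    (hP : Tendsto P F (𝓝 ν)) {c C : ℝ}
    (h : ∀ᶠ n in F, Integrable (fun x => Real.exp (c * |x|)) (P n : Measure ℝ) ∧
      ∫ x, Real.exp (c * |x|) ∂(P n : Measure ℝ) ≤ C) :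
    Integrable (fun x => Real.exp (c * |x|)) (ν : Measure ℝ) ∧
      ∫ x, Real.exp (c * |x|) ∂(ν : Measure ℝ) ≤ C := by
  have he : Continuous (fun x : ℝ => Real.exp (c * |x|)) := by fun_prop
  have hval : ∀ (m : ℕ) (x : ℝ), trunc87 _ he m x = min (Real.exp (c * |x|)) m := fun m x => by
    rw [trunc87_apply, abs_of_nonneg (Nat.cast_nonneg m)]
    refine max_eq_right ?_
    have : (0 : ℝ) ≤ min (Real.exp (c * |x|)) m := le_min (Real.exp_pos _).le (Nat.cast_nonneg m)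
    linarith [(Nat.cast_nonneg m : (0 : ℝ) ≤ m)]
  have hm : ∀ m : ℕ, ∫ x, min (Real.exp (c * |x|)) m ∂(ν : Measure ℝ) ≤ C := fun m => by
    have h1 := (ProbabilityMeasure.tendsto_iff_forall_integral_tendsto.1 hP) (trunc87 _ he m)
    simp only [hval] at h1
    refine le_of_tendsto h1 (h.mono fun n hn => le_trans ?_ hn.2)
    refine integral_mono ?_ hn.1 (fun x => min_le_left _ _)
    have := (trunc87 _ he m).integrable (P n : Measure ℝ)
    exact this.congr (Eventually.of_forall fun x => hval m x)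
  have hint : ∀ m : ℕ, Integrable (fun x => min (Real.exp (c * |x|)) m) (ν : Measure ℝ) :=
    fun m => ((trunc87 _ he m).integrable (ν : Measure ℝ)).congr
      (Eventually.of_forall fun x => hval m x)
  have hnn : ∀ (m : ℕ) (x : ℝ), (0 : ℝ) ≤ min (Real.exp (c * |x|)) m := fun m x =>
    le_min (Real.exp_pos _).le (Nat.cast_nonneg m)
  have hlim : Tendsto (fun m : ℕ => ∫⁻ x, ENNReal.ofReal (min (Real.exp (c * |x|)) m)
      ∂(ν : Measure ℝ)) atTop (𝓝 (∫⁻ x, ENNReal.ofReal (Real.exp (c * |x|)) ∂(ν : Measure ℝ))) := by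
    refine lintegral_tendsto_of_tendsto_of_monotone (fun m => ?_) (Eventually.of_forall fun x => ?_)
      (Eventually.of_forall fun x => ?_)
    · exact ((he.min continuous_const).measurable.ennreal_ofReal).aemeasurable
    · intro m m' hmm
      exact ENNReal.ofReal_le_ofReal (min_le_min_left _ (Nat.cast_le.2 hmm))
    · refine tendsto_const_nhds.congr' ?_
      filter_upwards [tendsto_natCast_atTop_atTop.eventually_ge_atTop (Real.exp (c * |x|))]
        with m hm'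
      rw [min_eq_left hm']
  have hle : ∫⁻ x, ENNReal.ofReal (Real.exp (c * |x|)) ∂(ν : Measure ℝ) ≤ ENNReal.ofReal C := by
    refine le_of_tendsto' hlim fun m => ?_
    rw [← ofReal_integral_eq_lintegral_ofReal (hint m) (Eventually.of_forall (hnn m))]
    exact ENNReal.ofReal_le_ofReal (hm m)
  have hI : Integrable (fun x => Real.exp (c * |x|)) (ν : Measure ℝ) := by
    refine ⟨he.aestronglyMeasurable, ?_⟩
    rw [hasFiniteIntegral_iff_ofReal (Eventually.of_forall fun x => (Real.exp_pos _).le)]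
    exact hle.trans_lt ENNReal.ofReal_lt_top
  refine ⟨hI, ?_⟩
  have hC0 : 0 ≤ C := le_trans (integral_nonneg (hnn 0)) (hm 0)
  rw [← ofReal_integral_eq_lintegral_ofReal hI
    (Eventually.of_forall fun x => (Real.exp_pos _).le)] at hle
  exact (ENNReal.ofReal_le_ofReal_iff hC0).1 hle

lemma pow_sq_le87 {c : ℝ} (hc : 0 < c) (k : ℕ) (x : ℝ) :
    (x ^ k) ^ 2 ≤ ((2 * k).factorial / c ^ (2 * k)) * Real.exp (c * |x|) := by
  have h := Real.pow_div_factorial_le_exp (c * |x|) (by positivity) (2 * k)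
  have hf : (0 : ℝ) < (2 * k).factorial := by exact_mod_cast Nat.factorial_pos _
  rw [div_le_iff₀ hf, mul_pow] at h
  have e : (x ^ k) ^ 2 = |x| ^ (2 * k) := by
    rw [← pow_mul, mul_comm k 2, pow_mul, pow_mul, sq_abs]
  rw [e, div_mul_eq_mul_div, le_div_iff₀ (by positivity)]
  linarith

/-- the moments pass to a weak limit -/
lemma mom_limit87 {F : Filter ℕ} [F.NeBot] (P : ℕ → ProbabilityMeasure ℝ) (ν : ProbabilityMeasure ℝ)
    (hP : Tendsto P F (𝓝 ν)) {c C : ℝ} (hc : 0 < c)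
    (h : ∀ᶠ n in F, Integrable (fun x => Real.exp (c * |x|)) (P n : Measure ℝ) ∧
      ∫ x, Real.exp (c * |x|) ∂(P n : Measure ℝ) ≤ C) (k : ℕ) :
    Integrable (fun x : ℝ => x ^ k) (ν : Measure ℝ) ∧
      Tendsto (fun n => ∫ x, x ^ k ∂(P n : Measure ℝ)) F (𝓝 (∫ x, x ^ k ∂(ν : Measure ℝ))) := by
  obtain ⟨hν, hνC⟩ := exp_limit87 P ν hP h
  have hg : Continuous (fun x : ℝ => x ^ k) := continuous_pow k
  set K : ℝ := (2 * k).factorial / c ^ (2 * k) with hK
  have hK0 : 0 ≤ K := by positivity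
  refine ⟨(int_trunc87 _ hg one_pos (pow_sq_le87 hc k) hK0 _ hν hνC).1, ?_⟩
  rw [Metric.tendsto_nhds]
  intro ε hε
  obtain ⟨R, hR, hRε⟩ : ∃ R : ℝ, 0 < R ∧ K * C / R < ε / 3 := by
    refine ⟨3 * (|K * C| + 1) / ε, by positivity, ?_⟩
    rw [div_lt_iff₀ (by positivity)]
    have : ε / 3 * (3 * (|K * C| + 1) / ε) = |K * C| + 1 := by field_simp
    rw [this]; linarith [le_abs_self (K * C)]
  have h1 := (ProbabilityMeasure.tendsto_iff_forall_integral_tendsto.1 hP) (trunc87 _ hg R)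
  rw [Metric.tendsto_nhds] at h1
  filter_upwards [h, h1 (ε / 3) (by positivity)] with n hn hn1
  have a1 := (int_trunc87 _ hg hR (pow_sq_le87 hc k) hK0 _ hn.1 hn.2).2
  have a2 := (int_trunc87 _ hg hR (pow_sq_le87 hc k) hK0 _ hν hνC).2
  rw [Real.dist_eq] at hn1 ⊢
  rw [abs_le] at a1 a2
  rw [abs_lt] at hn1 ⊢
  constructor <;> linarith [a1.1, a1.2, a2.1, a2.2, hn1.1, hn1.2]

lemma tight87 (μ : ℕ → Measure ℝ) [∀ n, IsProbabilityMeasure (μ n)] {c C : ℝ} (hc : 0 < c)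
    (h : ∀ᶠ n in atTop, Integrable (fun x => Real.exp (c * |x|)) (μ n) ∧
      ∫ x, Real.exp (c * |x|) ∂μ n ≤ C) : IsTightMeasureSet (range μ) := by
  refine isTightMeasureSet_range_of_tendsto_limsup_measure_norm_gt ?_
  have hlim : Tendsto (fun r : ℝ => ENNReal.ofReal (C * Real.exp (-(c * r)))) atTop (𝓝 0) := by
    have : Tendsto (fun r : ℝ => C * Real.exp (-(c * r))) atTop (𝓝 (C * 0)) :=
      (Real.tendsto_exp_neg_atTop_nhds_zero.comp (tendsto_id.const_mul_atTop hc)).const_mul C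
    rw [mul_zero] at this
    simpa using ENNReal.tendsto_ofReal this
  refine tendsto_of_tendsto_of_tendsto_of_le_of_le tendsto_const_nhds hlim (fun r => zero_le)
    (fun r => ?_)
  refine limsup_le_of_le (h := h.mono fun n hn => ?_)
  have hm := mul_meas_ge_le_integral_of_nonneg (μ := μ n)
    (Eventually.of_forall fun x => (Real.exp_pos (c * |x|)).le) hn.1 (Real.exp (c * r))
  have hsub : {x : ℝ | r < ‖x‖} ⊆ {x | Real.exp (c * r) ≤ Real.exp (c * |x|)} := fun x hx =>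
    Real.exp_le_exp.2 (mul_le_mul_of_nonneg_left (le_of_lt hx) hc.le)
  refine (measure_mono hsub).trans ?_
  rw [← ofReal_measureReal]
  refine ENNReal.ofReal_le_ofReal ?_
  rw [Real.exp_neg, ← div_eq_mul_inv, le_div_iff₀ (Real.exp_pos _)]
  linarith [hn.2]

theorem limitStmt : LimitStmt := by
  intro hdet μ b c C hprob hc h hb
  let P : ℕ → ProbabilityMeasure ℝ := fun n => ⟨μ n, hprob n⟩
  have hT : IsTightMeasureSet {((ρ : ProbabilityMeasure ℝ) : Measure ℝ) | ρ ∈ range P} := by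
    refine (tight87 μ hc h).subset ?_
    rintro _ ⟨_, ⟨n, rfl⟩, rfl⟩
    exact ⟨n, rfl⟩
  have hK : IsCompact (closure (range P)) := isCompact_closure_of_isTightMeasureSet hT
  have hmem : ∀ᶠ n in atTop, P n ∈ closure (range P) :=
    Eventually.of_forall fun n => subset_closure ⟨n, rfl⟩
  have key : ∀ ν : ProbabilityMeasure ℝ, MapClusterPt ν atTop P →
      Integrable (fun x => Real.exp (c * |x|)) (ν : Measure ℝ) ∧
      ∀ k : ℕ, 1 ≤ k → Integrable (fun x : ℝ => x ^ k) (ν : Measure ℝ) ∧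
        ∫ x, x ^ k ∂(ν : Measure ℝ) = b k := by
    intro ν hν
    obtain ⟨U, hU, hUP⟩ := mapClusterPt_iff_ultrafilter.1 hν
    have h' : ∀ᶠ n in (U : Filter ℕ), Integrable (fun x => Real.exp (c * |x|)) (P n : Measure ℝ) ∧
        ∫ x, Real.exp (c * |x|) ∂(P n : Measure ℝ) ≤ C := h.filter_mono hU
    refine ⟨(exp_limit87 P ν hUP h').1, fun k hk => ?_⟩
    obtain ⟨h1, h2⟩ := mom_limit87 P ν hUP hc h' k
    exact ⟨h1, tendsto_nhds_unique h2 ((hb k hk).mono_left hU)⟩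
  obtain ⟨ν, -, hν⟩ := hK.exists_mapClusterPt_of_frequently hmem.frequently
  have hconv : Tendsto P atTop (𝓝 ν) := by
    refine hK.tendsto_nhds_of_unique_mapClusterPt hmem fun ρ _ hρ => ?_
    apply ProbabilityMeasure.toMeasure_injective
    refine hdet _ _ c inferInstance inferInstance hc (key ρ hρ).1 (key ν hν).1 fun k hk => ?_
    rw [((key ρ hρ).2 k hk).2, ((key ν hν).2 k hk).2]
  exact ⟨ν, inferInstance, (key ν hν).1, (key ν hν).2,
    fun f => (ProbabilityMeasure.tendsto_iff_forall_integral_tendsto.1 hconv) f⟩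

end Crest.Agent.T156.Soft
end

-- ▼ part T156/SoSeq_10
section

/-! Row 156, soft part: `psiStmt`, `cauchyStmt`, `summStmt` (helper10). -/

set_option autoImplicit false
open MeasureTheory ProbabilityTheory Filter Topology Set
open Crest.ProbabilityR.SpinGlass

namespace Crest.Agent.T156.Soft

namespace Seq10

lemma lam_div (hB : BasicStmt) (n : ℕ) (β s : ℝ) (hn : 1 ≤ n) (hs : 0 < s) :
    lam (yLaw n β) s / s =
      (n : ℝ) ^ (-(1 : ℝ) / 6) * psi n β (s * (n : ℝ) ^ (-(1 : ℝ) / 6)) -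
        (n : ℝ) ^ (-(1 : ℝ) / 6) * ∫ ω', completedFreeEnergy n β ω' ∂completedLaw n β := by
  obtain ⟨-, hP, -, hcF, hcY, -, -, -, hI, -⟩ := hB n β
  have hn0 : (0 : ℝ) < n := by exact_mod_cast hn
  set u : ℝ := (n : ℝ) ^ (-(1 : ℝ) / 6) with hu
  have hu0 : 0 < u := Real.rpow_pos_of_pos hn0 _
  set E : ℝ := ∫ ω', completedFreeEnergy n β ω' ∂completedLaw n β with hE
  have hint : Integrable (fun ω => Real.exp (s * u * completedFreeEnergy n β ω))
      (completedLaw n β) := by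
    refine (hI (s * u)).mono' (by fun_prop) (Eventually.of_forall fun ω => ?_)
    rw [Real.norm_eq_abs, abs_of_pos (Real.exp_pos _)]
    exact Real.exp_le_exp.2 (mul_le_mul_of_nonneg_left (le_abs_self _) (by positivity))
  have hpos : 0 < ∫ ω, Real.exp (s * u * completedFreeEnergy n β ω) ∂completedLaw n β :=
    integral_exp_pos hint
  have h1 : ∫ x, Real.exp (s * x) ∂yLaw n β =
      Real.exp (-(s * u * E)) *
        ∫ ω, Real.exp (s * u * completedFreeEnergy n β ω) ∂completedLaw n β := by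
    unfold yLaw
    rw [integral_map hcY.measurable.aemeasurable (by fun_prop), ← integral_const_mul]
    refine integral_congr_ae (Eventually.of_forall fun ω => ?_)
    simp only [scaledFluctuation]
    rw [← Real.exp_add]
    congr 1
    rw [← hu, ← hE]; ring
  unfold lam psi
  rw [h1, Real.log_mul (Real.exp_pos _).ne' hpos.ne', Real.log_exp]
  field_simp
  ring

lemma chain (m : ℕ → ℝ) (c C : ℝ) (n₁ : ℕ) (hc : 0 < c) (h1 : 1 ≤ n₁)
    (h : ∀ n n' : ℕ, n₁ ≤ n → n ≤ n' → n' ≤ 2 * n → |m n - m n'| ≤ C * (n : ℝ) ^ (-c)) :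
    ∃ K : ℝ, 0 ≤ K ∧ ∀ n n' : ℕ, n₁ ≤ n → n ≤ n' → |m n - m n'| ≤ K * (n : ℝ) ^ (-c) := by
  set r : ℝ := (2 : ℝ) ^ (-c) with hr
  have hr0 : 0 < r := Real.rpow_pos_of_pos two_pos _
  have hr1 : r < 1 := Real.rpow_lt_one_of_one_lt_of_neg one_lt_two (by linarith)
  have hC : 0 ≤ C := by
    have h0 := h n₁ n₁ le_rfl le_rfl (by omega)
    have hp : (0 : ℝ) < (n₁ : ℝ) ^ (-c) := Real.rpow_pos_of_pos (by exact_mod_cast h1) _
    rw [sub_self, abs_zero] at h0
    exact nonneg_of_mul_nonneg_left h0 hp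
  set K : ℝ := C / (1 - r) with hK
  have hK0 : 0 ≤ K := div_nonneg hC (by linarith)
  have hKr : C + K * r = K := by
    have : (1 - r) ≠ 0 := by linarith
    rw [hK]; field_simp; ring
  have key : ∀ k : ℕ, ∀ n n' : ℕ, n₁ ≤ n → n ≤ n' → n' ≤ 2 ^ k * n →
      |m n - m n'| ≤ K * (n : ℝ) ^ (-c) := by
    intro k
    induction k with
    | zero =>
      intro n n' _ h2 h3
      have : n' = n := by omega
      subst this
      rw [sub_self, abs_zero]; positivity
    | succ k ih =>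
      intro n n' hn h2 h3
      have hp : (0 : ℝ) ≤ (n : ℝ) ^ (-c) := by positivity
      by_cases hle : n' ≤ 2 * n
      · refine (h n n' hn h2 hle).trans (mul_le_mul_of_nonneg_right ?_ hp)
        nlinarith [mul_nonneg hK0 hr0.le]
      · have ha := h n (2 * n) hn (by omega) le_rfl
        have hb := ih (2 * n) n' (by omega) (by omega) (by rw [pow_succ] at h3; linarith)
        have hc2 : ((2 * n : ℕ) : ℝ) ^ (-c) = r * (n : ℝ) ^ (-c) := by
          push_cast
          rw [Real.mul_rpow (by norm_num) (by positivity)]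
        rw [hc2] at hb
        calc |m n - m n'| ≤ |m n - m (2 * n)| + |m (2 * n) - m n'| := abs_sub_le _ _ _
          _ ≤ C * (n : ℝ) ^ (-c) + K * (r * (n : ℝ) ^ (-c)) := add_le_add ha hb
          _ = (C + K * r) * (n : ℝ) ^ (-c) := by ring
          _ = K * (n : ℝ) ^ (-c) := by rw [hKr]
  refine ⟨K, hK0, fun n n' hn h2 => key n' n n' hn h2 ?_⟩
  have h3 : n' < 2 ^ n' := Nat.lt_two_pow_self
  have h4 : 1 ≤ n := le_trans h1 hn
  nlinarith

lemma pow_fact_le (l : ℕ) (hl : 2 ≤ l) (h : ℕ) :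
    Real.log l ^ h / (Nat.factorial h : ℝ) ≤ 2 ^ h * (l : ℝ) ^ ((1 : ℝ) / 2) := by
  have hl0 : (0 : ℝ) < l := by exact_mod_cast (by omega : 0 < l)
  have ht : 0 ≤ Real.log l := Real.log_natCast_nonneg l
  have h1 := Real.pow_div_factorial_le_exp (Real.log l / 2) (by positivity) h
  have h2 : Real.exp (Real.log l / 2) = (l : ℝ) ^ ((1 : ℝ) / 2) := by
    rw [Real.rpow_def_of_pos hl0]; congr 1; ring
  rw [h2, div_pow] at h1
  have h3 : Real.log l ^ h / (Nat.factorial h : ℝ) =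
      2 ^ h * (Real.log l ^ h / 2 ^ h / (Nat.factorial h : ℝ)) := by
    field_simp
  rw [h3]
  exact mul_le_mul_of_nonneg_left h1 (by positivity)

lemma weight_le (l : ℕ) (hl : 2 ≤ l) (h : ℕ) :
    |seriesWeight h (Real.log l)| ≤ (2 ^ h + 2 ^ (h - 1)) * (l : ℝ) ^ ((1 : ℝ) / 2) := by
  have ht : 0 ≤ Real.log l := Real.log_natCast_nonneg l
  have h1 := pow_fact_le l hl h
  have h2 := pow_fact_le l hl (h - 1)
  have h3 : 0 ≤ Real.log l ^ h / (Nat.factorial h : ℝ) := by positivity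
  have h4 : 0 ≤ Real.log l ^ (h - 1) / (Nat.factorial (h - 1) : ℝ) := by positivity
  have h5 : (0 : ℝ) ≤ 2 ^ (h - 1) * (l : ℝ) ^ ((1 : ℝ) / 2) := by positivity
  unfold seriesWeight
  rw [add_mul, abs_le]
  split_ifs with h0
  · constructor <;> linarith
  · constructor <;> linarith

end Seq10

open Seq10

theorem psiStmt : PsiStmt := by
  intro hB n β s s' hn hs hs'
  unfold Lm Ln
  rw [lam_div hB n β s hn hs, lam_div hB n β s' hn hs']
  ring

theorem cauchyStmt : CauchyStmt := by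
  intro m c C n₁ hc h
  obtain ⟨K, hK0, hK⟩ := chain m c C (max n₁ 1) hc (le_max_right _ _)
    (fun n n' hn => h n n' (le_trans (le_max_left _ _) hn))
  set N : ℕ := max n₁ 1 with hN
  have ht : Tendsto (fun n : ℕ => K * ((n + N : ℕ) : ℝ) ^ (-c)) atTop (𝓝 0) := by
    have h1 : Tendsto (fun n : ℕ => ((n + N : ℕ) : ℝ) ^ (-c)) atTop (𝓝 0) :=
      (tendsto_rpow_neg_atTop hc).comp
        (tendsto_natCast_atTop_atTop.comp (tendsto_add_atTop_nat N))
    simpa using h1.const_mul K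
  have hcs : CauchySeq (fun n : ℕ => m (n + N)) := by
    refine cauchySeq_of_le_tendsto_0' _ (fun n n' hnn => ?_) ht
    rw [Real.dist_eq]
    exact hK _ _ (by omega) (by omega)
  obtain ⟨a, ha⟩ := cauchySeq_tendsto_of_complete hcs
  have hS : 0 ≤ ∑ i ∈ Finset.range N, |m i - a| * (i : ℝ) ^ c :=
    Finset.sum_nonneg fun i _ => by positivity
  refine ⟨a, K + ∑ i ∈ Finset.range N, |m i - a| * (i : ℝ) ^ c, fun n hn => ?_⟩
  have hn0 : (0 : ℝ) < n := by exact_mod_cast hn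
  have hp : (0 : ℝ) < (n : ℝ) ^ (-c) := Real.rpow_pos_of_pos hn0 _
  by_cases hle : N ≤ n
  · have h2 : Tendsto (fun k : ℕ => |m n - m (k + N)|) atTop (𝓝 |m n - a|) :=
      (tendsto_const_nhds.sub ha).abs
    have h3 : |m n - a| ≤ K * (n : ℝ) ^ (-c) := by
      refine le_of_tendsto h2 ?_
      filter_upwards [eventually_ge_atTop n] with k hk
      exact hK _ _ hle (by omega)
    nlinarith [mul_nonneg hS hp.le]
  · have h2 : |m n - a| * (n : ℝ) ^ c ≤ ∑ i ∈ Finset.range N, |m i - a| * (i : ℝ) ^ c :=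
      Finset.single_le_sum (f := fun i : ℕ => |m i - a| * (i : ℝ) ^ c)
        (fun i _ => by positivity) (Finset.mem_range.2 (by omega))
    have h3 : (n : ℝ) ^ c * (n : ℝ) ^ (-c) = 1 := by
      rw [← Real.rpow_add hn0]; simp
    calc |m n - a| = |m n - a| * (n : ℝ) ^ c * (n : ℝ) ^ (-c) := by rw [mul_assoc, h3, mul_one]
      _ ≤ _ := mul_le_mul_of_nonneg_right (by linarith) hp.le

theorem summStmt : SummStmt := by
  intro b K h hb
  have hK : 0 ≤ K := le_trans (abs_nonneg _) (hb 2 le_rfl)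
  have hs : Summable (fun l : ℕ => (|sizeWeightSum|⁻¹ * K * (2 ^ h + 2 ^ (h - 1))) *
      (l : ℝ) ^ (-(3 : ℝ) / 2)) :=
    (Real.summable_nat_rpow.2 (by norm_num)).mul_left _
  refine Summable.of_norm_bounded hs fun l => ?_
  by_cases hl : l < 2
  · have : sizeLaw l = 0 := by simp [sizeLaw, sizeWeight, hl]
    rw [this, zero_mul, zero_mul, norm_zero]
    positivity
  · have hl2 : 2 ≤ l := by omega
    have hl0 : (0 : ℝ) < l := by exact_mod_cast (by omega : 0 < l)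
    have h1 : |sizeLaw l| = |sizeWeightSum|⁻¹ * (l : ℝ) ^ (-(2 : ℝ)) := by
      simp only [sizeLaw, sizeWeight, if_neg hl]
      rw [abs_div, abs_of_pos (by positivity), Real.rpow_neg hl0.le, Real.rpow_two]
      ring
    have h2 : (l : ℝ) ^ (-(3 : ℝ) / 2) = (l : ℝ) ^ (-(2 : ℝ)) * (l : ℝ) ^ ((1 : ℝ) / 2) := by
      rw [← Real.rpow_add hl0]; norm_num
    rw [Real.norm_eq_abs, abs_mul, abs_mul, abs_abs, h1, h2]
    have h3 := weight_le l hl2 h
    have h4 := hb l hl2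
    have h5 : (0 : ℝ) ≤ |sizeWeightSum|⁻¹ * (l : ℝ) ^ (-(2 : ℝ)) := by positivity
    calc |sizeWeightSum|⁻¹ * (l : ℝ) ^ (-(2 : ℝ)) * |b l| * |seriesWeight h (Real.log l)|
        ≤ |sizeWeightSum|⁻¹ * (l : ℝ) ^ (-(2 : ℝ)) * K *
            ((2 ^ h + 2 ^ (h - 1)) * (l : ℝ) ^ ((1 : ℝ) / 2)) := by
          refine mul_le_mul (mul_le_mul_of_nonneg_left h4 h5) h3 (abs_nonneg _) (by positivity)
      _ = _ := by ring

end Crest.Agent.T156.Soft
end

-- ▼ part T156/SoSeries_93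
section

/-!
# Row 156, soft part: the random-size series (`SeriesStmt`)

Both the error part and the difference between the main part and a telescoping sum are
absolutely summable double series whose sums over `h` vanish.
-/

set_option autoImplicit false
open MeasureTheory ProbabilityTheory Filter Topology Set
open Crest.ProbabilityR.SpinGlass

namespace Crest.Agent.T156.Soft
namespace Ser93

noncomputable def p (t : ℝ) (h : ℕ) : ℝ := t ^ h / (Nat.factorial h : ℝ)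

noncomputable def sh (f : ℕ → ℝ) (h : ℕ) : ℝ := if h = 0 then 0 else f (h - 1)

@[simp] lemma sh_zero (f : ℕ → ℝ) : sh f 0 = 0 := by simp [sh]
@[simp] lemma sh_succ (f : ℕ → ℝ) (h : ℕ) : sh f (h + 1) = f h := by simp [sh]

lemma w_eq (h : ℕ) (t : ℝ) : seriesWeight h t = p t h - sh (p t) h := rfl

lemma hasSum_p (t : ℝ) : HasSum (p t) (Real.exp t) := by
  rw [Real.exp_eq_exp_ℝ]
  exact NormedSpace.expSeries_div_hasSum_exp t

lemma hasSum_sh {f : ℕ → ℝ} {s : ℝ} (hf : HasSum f s) : HasSum (sh f) s := by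
  rw [← hasSum_nat_add_iff' 1]
  simpa using hf

lemma hasSum_w (t : ℝ) : HasSum (fun h => seriesWeight h t) 0 := by
  have := (hasSum_p t).sub (hasSum_sh (hasSum_p t))
  simpa [w_eq] using this

lemma p_nonneg {t : ℝ} (ht : 0 ≤ t) (h : ℕ) : 0 ≤ p t h := by unfold p; positivity

lemma sh_nonneg {f : ℕ → ℝ} (hf : ∀ h, 0 ≤ f h) (h : ℕ) : 0 ≤ sh f h := by
  cases h with
  | zero => simp
  | succ h => simpa using hf h

lemma abs_w_le {t : ℝ} (ht : 0 ≤ t) (h : ℕ) : |seriesWeight h t| ≤ p t h + sh (p t) h := by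
  rw [w_eq, abs_le]
  have h1 := p_nonneg ht h
  have h2 := sh_nonneg (p_nonneg ht) h
  constructor <;> linarith

lemma key (F G : ℕ → ℕ → ℝ) (σ : ℕ → ℝ) (hb : ∀ h l, |F h l| ≤ G h l)
    (hG : ∀ l, HasSum (fun h => G h l) (σ l)) (hσ : Summable σ)
    (h0 : ∀ l, HasSum (fun h => F h l) 0) :
    (∀ h, Summable (F h)) ∧ HasSum (fun h => ∑' l, F h l) 0 := by
  have hG0 : ∀ h l, 0 ≤ G h l := fun h l => (abs_nonneg _).trans (hb h l)
  have hGs : Summable (fun x : ℕ × ℕ => G x.2 x.1) := by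
    rw [summable_prod_of_nonneg (fun x => hG0 x.2 x.1)]
    refine ⟨fun l => (hG l).summable, ?_⟩
    simpa [fun l => (hG l).tsum_eq] using hσ
  have hFs : Summable (fun x : ℕ × ℕ => F x.2 x.1) :=
    Summable.of_norm_bounded hGs (fun x => by simpa using hb x.2 x.1)
  have hs0 : ∑' x : ℕ × ℕ, F x.2 x.1 = 0 := by
    have := HasSum.prod_fiberwise (g := fun _ => (0 : ℝ)) hFs.hasSum (fun l => h0 l)
    exact this.unique hasSum_zero
  have hsw : HasSum (fun x : ℕ × ℕ => F x.1 x.2) 0 := by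
    have h1 := hFs.hasSum
    rw [hs0] at h1
    exact ((Equiv.prodComm ℕ ℕ).hasSum_iff (f := fun x : ℕ × ℕ => F x.1 x.2)).1 h1
  have hf : ∀ h, Summable (F h) := fun h => hsw.summable.prod_factor h
  exact ⟨hf, HasSum.prod_fiberwise hsw (fun h => (hf h).hasSum)⟩

lemma hasDerivAt_p (h : ℕ) (t : ℝ) : HasDerivAt (fun t => p t h) (sh (p t) h) t := by
  cases h with
  | zero => simpa [p] using hasDerivAt_const t (1 : ℝ)
  | succ i =>
    have := (hasDerivAt_pow (i + 1) t).div_const (Nat.factorial (i + 1) : ℝ)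
    refine this.congr_deriv ?_
    rw [sh_succ, p, Nat.factorial_succ]
    have : (Nat.factorial i : ℝ) ≠ 0 := by positivity
    push_cast
    field_simp

lemma p_lip {s t : ℝ} (hs : 0 ≤ s) (hst : s ≤ t) (j : ℕ) :
    |p t j - p s j| ≤ (t - s) * sh (p t) j := by
  cases j with
  | zero => simp [p]
  | succ i =>
    have h1 := abs_pow_sub_pow_le t s (i + 1)
    rw [abs_of_nonneg (hs.trans hst), abs_of_nonneg hs, max_eq_left hst,
      abs_of_nonneg (sub_nonneg.2 hst)] at h1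
    rw [sh_succ, p, p, p, ← sub_div, abs_div, Nat.factorial_succ]
    have h2 : (0 : ℝ) < (Nat.factorial i : ℝ) := by positivity
    rw [abs_of_pos (by positivity : (0 : ℝ) < (((i + 1) * Nat.factorial i : ℕ) : ℝ)),
      div_le_iff₀ (by positivity)]
    refine h1.trans (le_of_eq ?_)
    push_cast
    field_simp

noncomputable def φ (y : ℝ) (j : ℕ) : ℝ := (y ^ 2)⁻¹ * p (Real.log y) j

lemma φ_lip {x ξ : ℝ} (hx : 2 ≤ x) (h1 : x - 1 ≤ ξ) (h2 : ξ ≤ x) (j : ℕ) :
    |φ x j - φ ξ j| ≤ 8 / x ^ 3 * (p (Real.log x) j + sh (p (Real.log x)) j) := by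
  have hξ1 : 1 ≤ ξ := by linarith
  have hξ0 : 0 < ξ := by linarith
  have hx0 : 0 < x := by linarith
  have hl0 : 0 ≤ Real.log ξ := Real.log_nonneg hξ1
  have hl : Real.log ξ ≤ Real.log x := Real.log_le_log hξ0 h2
  have hP := p_nonneg (hl0.trans hl) j
  have hQ := sh_nonneg (p_nonneg (hl0.trans hl)) j
  have hlip := p_lip hl0 hl j
  have hhalf : x ≤ 2 * ξ := by linarith
  have hlog : Real.log x - Real.log ξ ≤ 2 / x := by
    rw [← Real.log_div hx0.ne' hξ0.ne']
    refine (Real.log_le_sub_one_of_pos (by positivity)).trans ?_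
    rw [div_sub_one hξ0.ne', div_le_div_iff₀ hξ0 hx0]
    nlinarith
  have hinv : (ξ ^ 2)⁻¹ ≤ 4 / x ^ 2 := by
    rw [inv_eq_one_div, div_le_div_iff₀ (by positivity) (by positivity)]
    nlinarith
  have hd0 : 0 ≤ (ξ ^ 2)⁻¹ - (x ^ 2)⁻¹ := by
    rw [sub_nonneg]
    exact inv_anti₀ (by positivity) (by nlinarith)
  have hd : (ξ ^ 2)⁻¹ - (x ^ 2)⁻¹ ≤ 8 / x ^ 3 := by
    have e : (ξ ^ 2)⁻¹ - (x ^ 2)⁻¹ = (ξ ^ 2)⁻¹ * ((x - ξ) * (x + ξ) / x ^ 2) := by
      field_simp; ring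
    have h3 : (x - ξ) * (x + ξ) / x ^ 2 ≤ 2 / x := by
      rw [div_le_div_iff₀ (by positivity) hx0]
      have : (x - ξ) * (x + ξ) ≤ 2 * x := by nlinarith
      nlinarith
    rw [e]
    calc _ ≤ 4 / x ^ 2 * (2 / x) :=
          mul_le_mul hinv h3 (div_nonneg (by nlinarith) (by positivity)) (by positivity)
      _ = 8 / x ^ 3 := by field_simp; ring
  have e : φ x j - φ ξ j = (ξ ^ 2)⁻¹ * (p (Real.log x) j - p (Real.log ξ) j) -
      ((ξ ^ 2)⁻¹ - (x ^ 2)⁻¹) * p (Real.log x) j := by unfold φ; ring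
  rw [e]
  have a1 : |(ξ ^ 2)⁻¹ * (p (Real.log x) j - p (Real.log ξ) j)| ≤
      8 / x ^ 3 * sh (p (Real.log x)) j := by
    rw [abs_mul, abs_of_pos (by positivity : 0 < (ξ ^ 2)⁻¹)]
    calc _ ≤ 4 / x ^ 2 * (2 / x * sh (p (Real.log x)) j) :=
          mul_le_mul hinv (hlip.trans (mul_le_mul_of_nonneg_right hlog hQ)) (abs_nonneg _)
            (by positivity)
      _ = _ := by field_simp; ring
  have a2 : |((ξ ^ 2)⁻¹ - (x ^ 2)⁻¹) * p (Real.log x) j| ≤ 8 / x ^ 3 * p (Real.log x) j := by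
    rw [abs_of_nonneg (mul_nonneg hd0 hP)]
    exact mul_le_mul_of_nonneg_right hd hP
  refine (abs_sub _ _).trans ?_
  linarith [mul_add (8 / x ^ 3) (p (Real.log x) j) (sh (p (Real.log x)) j)]

noncomputable def B (h : ℕ) (y : ℝ) : ℝ := y⁻¹ * p (Real.log y) h

lemma hasDerivAt_B (h : ℕ) {y : ℝ} (hy : y ≠ 0) :
    HasDerivAt (B h) (-(φ y h - sh (φ y) h)) y := by
  have h1 := (hasDerivAt_p h (Real.log y)).comp y (Real.hasDerivAt_log hy)
  have h2 := (hasDerivAt_inv hy).mul h1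
  refine h2.congr_deriv ?_
  cases h with
  | zero => simp [φ]
  | succ i => simp only [φ, sh_succ, Function.comp]; field_simp; ring

lemma E_bound (h : ℕ) {x : ℝ} (hx : 2 ≤ x) :
    |(x ^ 2)⁻¹ * seriesWeight h (Real.log x) - (B h (x - 1) - B h x)| ≤
      8 / x ^ 3 * (p (Real.log x) h + 2 * sh (p (Real.log x)) h +
        sh (sh (p (Real.log x))) h) := by
  have hder : ∀ y ∈ Icc (x - 1) x, HasDerivAt (B h) (-(φ y h - sh (φ y) h)) y :=
    fun y hy => hasDerivAt_B h (by linarith [hy.1] : (0 : ℝ) < y).ne'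
  obtain ⟨ξ, hξ, e⟩ := exists_hasDerivAt_eq_slope (B h) (fun y => -(φ y h - sh (φ y) h))
    (by linarith : x - 1 < x) (fun y hy => (hder y hy).continuousAt.continuousWithinAt)
    (fun y hy => hder y (Ioo_subset_Icc_self hy))
  rw [show x - (x - 1) = 1 by ring, div_one] at e
  have e1 : B h (x - 1) - B h x = φ ξ h - sh (φ ξ) h := by linarith
  rw [e1, w_eq]
  have l1 := φ_lip hx hξ.1.le hξ.2.le h
  cases h with
  | zero =>
    simp only [sh_zero] at l1 ⊢
    simpa [φ] using l1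
  | succ i =>
    have l2 := φ_lip hx hξ.1.le hξ.2.le i
    simp only [sh_succ] at l1 ⊢
    have e2 : (x ^ 2)⁻¹ * (p (Real.log x) (i + 1) - p (Real.log x) i) - (φ ξ (i + 1) - φ ξ i) =
        (φ x (i + 1) - φ ξ (i + 1)) - (φ x i - φ ξ i) := by unfold φ; ring
    rw [e2]
    refine (abs_sub _ _).trans ((add_le_add l1 l2).trans (le_of_eq ?_))
    ring

lemma p_le {t : ℝ} (ht : 0 ≤ t) (h : ℕ) : p t h ≤ 2 ^ h * Real.exp (t / 2) := by
  have := Real.pow_div_factorial_le_exp (t / 2) (by positivity) h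
  calc p t h = 2 ^ h * ((t / 2) ^ h / (Nat.factorial h : ℝ)) := by
        rw [p, div_pow]; field_simp
    _ ≤ _ := by gcongr

lemma exp_half {x : ℝ} (hx : 0 < x) : Real.exp (Real.log x / 2) = x ^ ((1 : ℝ) / 2) := by
  rw [Real.rpow_def_of_pos hx]; congr 1; ring

lemma summable_shift {q : ℝ} (hq : q < -1) : Summable (fun k : ℕ => ((k : ℝ) + 2) ^ q) := by
  have := (summable_nat_add_iff 2).2 (Real.summable_nat_rpow.2 hq)
  simpa using this

lemma summable_φ (h : ℕ) : Summable (fun k : ℕ => φ ((k : ℝ) + 2) h) := by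
  refine Summable.of_nonneg_of_le (fun k => ?_) (fun k => ?_)
    ((summable_shift (q := -3 / 2) (by norm_num)).mul_left (2 ^ h))
  · exact mul_nonneg (by positivity)
      (p_nonneg (Real.log_nonneg (by linarith [(Nat.cast_nonneg k : (0 : ℝ) ≤ k)])) h)
  · have hx : (0 : ℝ) < (k : ℝ) + 2 := by positivity
    have h1 := p_le (Real.log_nonneg
      (by linarith [(Nat.cast_nonneg k : (0 : ℝ) ≤ k)] : (1 : ℝ) ≤ (k : ℝ) + 2)) h
    rw [exp_half hx] at h1
    have e : ((k : ℝ) + 2) ^ (-3 / 2 : ℝ) = (((k : ℝ) + 2) ^ 2)⁻¹ * ((k : ℝ) + 2) ^ ((1 : ℝ) / 2) := by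
      rw [← Real.rpow_natCast, ← Real.rpow_neg hx.le, ← Real.rpow_add hx]; norm_num
    rw [φ, e]
    calc _ ≤ (((k : ℝ) + 2) ^ 2)⁻¹ * (2 ^ h * ((k : ℝ) + 2) ^ ((1 : ℝ) / 2)) := by gcongr
      _ = _ := by ring

lemma summable_w (h : ℕ) :
    Summable (fun k : ℕ => (((k : ℝ) + 2) ^ 2)⁻¹ * seriesWeight h (Real.log ((k : ℝ) + 2))) := by
  cases h with
  | zero => simpa [w_eq, φ] using summable_φ 0
  | succ i =>
    refine ((summable_φ (i + 1)).sub (summable_φ i)).congr (fun k => ?_)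
    simp only [w_eq, φ, sh_succ]; ring

lemma tendsto_B (h : ℕ) : Tendsto (fun k : ℕ => B h ((k : ℝ) + 1)) atTop (𝓝 0) := by
  have h1 : Tendsto (fun k : ℕ => (2 : ℝ) ^ h * ((k : ℝ) + 1) ^ (-(1 / 2 : ℝ))) atTop
      (𝓝 (2 ^ h * 0)) :=
    ((tendsto_rpow_neg_atTop (by norm_num : (0 : ℝ) < 1 / 2)).comp
      (tendsto_atTop_add_const_right _ 1 tendsto_natCast_atTop_atTop)).const_mul _
  rw [mul_zero] at h1
  refine squeeze_zero (fun k => ?_) (fun k => ?_) h1
  · exact mul_nonneg (by positivity)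
      (p_nonneg (Real.log_nonneg (by linarith [(Nat.cast_nonneg k : (0 : ℝ) ≤ k)])) h)
  · have hx : (0 : ℝ) < (k : ℝ) + 1 := by positivity
    have h1 := p_le (Real.log_nonneg
      (by linarith [(Nat.cast_nonneg k : (0 : ℝ) ≤ k)] : (1 : ℝ) ≤ (k : ℝ) + 1)) h
    rw [exp_half hx] at h1
    have e : ((k : ℝ) + 1) ^ (-(1 / 2 : ℝ)) = ((k : ℝ) + 1)⁻¹ * ((k : ℝ) + 1) ^ ((1 : ℝ) / 2) := by
      rw [← Real.rpow_neg_one, ← Real.rpow_add hx]; norm_num
    rw [B, e]
    calc _ ≤ ((k : ℝ) + 1)⁻¹ * (2 ^ h * ((k : ℝ) + 1) ^ ((1 : ℝ) / 2)) := by gcongr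
      _ = _ := by ring

/-- the main part -/
lemma main_part : HasSum (fun h : ℕ => ∑' k : ℕ,
    (((k : ℝ) + 2) ^ 2)⁻¹ * seriesWeight h (Real.log ((k : ℝ) + 2))) 1 := by
  have hx : ∀ k : ℕ, (2 : ℝ) ≤ (k : ℝ) + 2 := fun k => by
    linarith [(Nat.cast_nonneg k : (0 : ℝ) ≤ k)]
  obtain ⟨hs, h0⟩ := key
    (fun h k => (((k : ℝ) + 2) ^ 2)⁻¹ * seriesWeight h (Real.log ((k : ℝ) + 2)) -
      (B h ((k : ℝ) + 2 - 1) - B h ((k : ℝ) + 2)))
    (fun h k => 8 / ((k : ℝ) + 2) ^ 3 * (p (Real.log ((k : ℝ) + 2)) h +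
      2 * sh (p (Real.log ((k : ℝ) + 2))) h + sh (sh (p (Real.log ((k : ℝ) + 2)))) h))
    (fun k => 32 * ((k : ℝ) + 2) ^ (-2 : ℝ)) (fun h k => E_bound h (hx k))
    (fun k => by
      have h1 := hasSum_p (Real.log ((k : ℝ) + 2))
      have h2 := ((h1.add ((hasSum_sh h1).mul_left 2)).add
        (hasSum_sh (hasSum_sh h1))).mul_left (8 / ((k : ℝ) + 2) ^ 3)
      have hk : (0 : ℝ) < (k : ℝ) + 2 := by positivity
      rw [Real.exp_log hk] at h2
      have e : 32 * ((k : ℝ) + 2) ^ (-2 : ℝ) =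
          8 / ((k : ℝ) + 2) ^ 3 * ((k : ℝ) + 2 + 2 * ((k : ℝ) + 2) + ((k : ℝ) + 2)) := by
        rw [Real.rpow_neg hk.le, Real.rpow_two]; field_simp; ring
      rw [e]; exact h2)
    ((summable_shift (by norm_num)).mul_left 32)
    (fun k => by
      have hk : (0 : ℝ) < (k : ℝ) + 2 := by positivity
      have hk1 : (0 : ℝ) < (k : ℝ) + 2 - 1 := by linarith [hx k]
      have h1 := (hasSum_p (Real.log ((k : ℝ) + 2))).mul_left ((k : ℝ) + 2)⁻¹
      have h2 := (hasSum_p (Real.log ((k : ℝ) + 2 - 1))).mul_left ((k : ℝ) + 2 - 1)⁻¹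
      rw [Real.exp_log hk, inv_mul_cancel₀ hk.ne'] at h1
      rw [Real.exp_log hk1, inv_mul_cancel₀ hk1.ne'] at h2
      have h3 := ((hasSum_w (Real.log ((k : ℝ) + 2))).mul_left
        ((((k : ℝ) + 2) ^ 2)⁻¹)).sub (h2.sub h1)
      simpa [B] using h3)
  have htel : ∀ h, HasSum (fun k : ℕ => B h ((k : ℝ) + 2 - 1) - B h ((k : ℝ) + 2)) (B h 1) := by
    intro h
    have hsum : Summable (fun k : ℕ => B h ((k : ℝ) + 2 - 1) - B h ((k : ℝ) + 2)) :=
      ((summable_w h).sub (hs h)).congr (fun k => by ring)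
    rw [hsum.hasSum_iff_tendsto_nat]
    have e : ∀ n : ℕ, ∑ k ∈ Finset.range n, (B h ((k : ℝ) + 2 - 1) - B h ((k : ℝ) + 2)) =
        B h 1 - B h ((n : ℝ) + 1) := by
      intro n
      induction n with
      | zero => simp
      | succ n ih =>
        rw [Finset.sum_range_succ, ih]
        push_cast
        rw [show (n : ℝ) + 2 - 1 = n + 1 by ring, show (n : ℝ) + 1 + 1 = n + 2 by ring]
        ring
    simp_rw [e]
    simpa using (tendsto_B h).const_sub (B h 1)
  have hB : HasSum (fun h => B h 1) 1 := by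
    have := hasSum_p 0
    simpa [B] using this
  have := h0.add hB
  rw [zero_add] at this
  refine this.congr_fun ?_
  intro h
  rw [Summable.tsum_sub (summable_w h) (htel h).summable, (htel h).tsum_eq]
  ring

lemma sum_pos : 0 < sizeWeightSum := by
  have hs : Summable sizeWeight := by
    rw [← summable_nat_add_iff 2]
    refine (summable_shift (q := -2) (by norm_num)).congr (fun k => ?_)
    have hk : (0 : ℝ) < (k : ℝ) + 2 := by positivity
    rw [sizeWeight, if_neg (by omega), Real.rpow_neg hk.le, Real.rpow_two]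
    push_cast; ring
  refine hs.tsum_pos (fun l => ?_) 2 (by norm_num [sizeWeight])
  unfold sizeWeight; split_ifs <;> positivity

end Ser93

open Ser93 in
theorem seriesStmt : SeriesStmt := by
  intro m a c C hc hm
  have hx : ∀ k : ℕ, (1 : ℝ) ≤ (k : ℝ) + 2 := fun k => by
    linarith [(Nat.cast_nonneg k : (0 : ℝ) ≤ k)]
  obtain ⟨hs, h0⟩ := key
    (fun h k => (((k : ℝ) + 2) ^ 2)⁻¹ * (m (k + 2) - a) * seriesWeight h (Real.log ((k : ℝ) + 2)))
    (fun h k => (((k : ℝ) + 2) ^ 2)⁻¹ * (C * ((k : ℝ) + 2) ^ (-c)) *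
      (p (Real.log ((k : ℝ) + 2)) h + sh (p (Real.log ((k : ℝ) + 2))) h))
    (fun k => 2 * C * ((k : ℝ) + 2) ^ (-1 - c))
    (fun h k => by
      have h1 := hm (k + 2) (by omega)
      push_cast at h1
      rw [abs_mul, abs_mul, abs_of_pos (by positivity : (0 : ℝ) < (((k : ℝ) + 2) ^ 2)⁻¹)]
      exact mul_le_mul (mul_le_mul_of_nonneg_left h1 (by positivity))
        (abs_w_le (Real.log_nonneg (hx k)) h) (abs_nonneg _)
        (mul_nonneg (by positivity) ((abs_nonneg _).trans h1)))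
    (fun k => by
      have h1 := hasSum_p (Real.log ((k : ℝ) + 2))
      have h2 := (h1.add (hasSum_sh h1)).mul_left
        ((((k : ℝ) + 2) ^ 2)⁻¹ * (C * ((k : ℝ) + 2) ^ (-c)))
      have hk : (0 : ℝ) < (k : ℝ) + 2 := by positivity
      rw [Real.exp_log hk] at h2
      have e : 2 * C * ((k : ℝ) + 2) ^ (-1 - c) = (((k : ℝ) + 2) ^ 2)⁻¹ *
          (C * ((k : ℝ) + 2) ^ (-c)) * ((k : ℝ) + 2 + ((k : ℝ) + 2)) := by
        rw [sub_eq_add_neg, Real.rpow_add hk, Real.rpow_neg_one]; field_simp; ring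
      rw [e]; exact h2)
    ((summable_shift (by linarith)).mul_left (2 * C))
    (fun k => by
      have h1 := (hasSum_w (Real.log ((k : ℝ) + 2))).mul_left
        ((((k : ℝ) + 2) ^ 2)⁻¹ * (m (k + 2) - a))
      rwa [mul_zero] at h1)
  have := h0.add (main_part.mul_left a)
  rw [zero_add, mul_one] at this
  refine this.congr_fun ?_
  intro h
  have h1 := ((hs h).hasSum.add ((summable_w h).hasSum.mul_left a)).mul_left sizeWeightSum⁻¹
  have h2 : HasSum (fun l : ℕ => sizeLaw l * m l * seriesWeight h (Real.log l))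
      (sizeWeightSum⁻¹ * (∑' k : ℕ, (((k : ℝ) + 2) ^ 2)⁻¹ * (m (k + 2) - a) *
        seriesWeight h (Real.log ((k : ℝ) + 2)) + a * ∑' k : ℕ,
        (((k : ℝ) + 2) ^ 2)⁻¹ * seriesWeight h (Real.log ((k : ℝ) + 2)))) := by
    rw [← hasSum_nat_add_iff' 2]
    have e0 : ∑ i ∈ Finset.range 2, sizeLaw i * m i * seriesWeight h (Real.log i) = 0 := by
      simp [Finset.sum_range_succ, sizeLaw, sizeWeight]
    rw [e0, sub_zero]
    refine h1.congr_fun ?_
    intro k
    rw [sizeLaw, sizeWeight, if_neg (by omega)]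
    push_cast; ring
  rw [h2.tsum_eq, ← mul_assoc, mul_inv_cancel₀ sum_pos.ne', one_mul]

end Crest.Agent.T156.Soft
end

-- ▼ part T156/SoTwo_2
section

/-!
# Row 156, soft part: the two-constants theorem (`TwoStmt`)
-/

set_option autoImplicit false
open Set Complex

namespace Crest.Agent.T156.Soft

/-- every complex number is a `cosh w` with `0 ≤ re w`, and then `exp (re w) ≤ 2 ‖ζ‖ + 1` -/
lemma two_exists_cosh (ζ : ℂ) :
    ∃ w : ℂ, 0 ≤ w.re ∧ Complex.cosh w = ζ ∧ Real.exp w.re ≤ 2 * ‖ζ‖ + 1 := by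
  obtain ⟨δ, hδ⟩ : ∃ δ : ℂ, δ ^ 2 = ζ ^ 2 - 1 :=
    IsAlgClosed.exists_pow_nat_eq (ζ ^ 2 - 1) (by norm_num)
  have hmul : (ζ + δ) * (ζ - δ) = 1 := by linear_combination (-1 : ℂ) * hδ
  have ht : ζ + δ ≠ 0 := left_ne_zero_of_mul_eq_one hmul
  have hinv : (ζ + δ)⁻¹ = ζ - δ := inv_eq_of_mul_eq_one_right hmul
  have hc : Complex.cosh (Complex.log (ζ + δ)) = ζ := by
    rw [Complex.cosh, Complex.exp_neg, Complex.exp_log ht, hinv]; ring
  have key : ∀ w : ℂ, 0 ≤ w.re → Complex.cosh w = ζ → Real.exp w.re ≤ 2 * ‖ζ‖ + 1 := by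
    intro w hw hcw
    have h1 : Complex.exp w = 2 * ζ - Complex.exp (-w) := by
      rw [← hcw, Complex.cosh]; ring
    have h2 : ‖Complex.exp w‖ ≤ 2 * ‖ζ‖ + ‖Complex.exp (-w)‖ := by
      rw [h1]
      refine (norm_sub_le _ _).trans ?_
      rw [norm_mul]; simp
    rw [Complex.norm_exp, Complex.norm_exp] at h2
    have h3 : Real.exp (-w).re ≤ 1 := by
      rw [Real.exp_le_one_iff]; simpa using hw
    linarith
  by_cases h0 : 0 ≤ (Complex.log (ζ + δ)).re
  · exact ⟨_, h0, hc, key _ h0 hc⟩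
  · have h0' : 0 ≤ (-Complex.log (ζ + δ)).re := by
      rw [Complex.neg_re]; linarith [not_le.mp h0]
    have hc' : Complex.cosh (-Complex.log (ζ + δ)) = ζ := by rw [Complex.cosh_neg, hc]
    exact ⟨_, h0', hc', key _ h0' hc'⟩

lemma two_norm_cosh_le (w : ℂ) (A : ℝ) (hw : 0 ≤ w.re) (hA : Real.exp w.re ≤ A) :
    ‖Complex.cosh w‖ ≤ (A + 1) / 2 := by
  have h3 : Real.exp (-w).re ≤ 1 := by
    rw [Real.exp_le_one_iff]; simpa using hw
  rw [Complex.cosh, norm_div]
  have h2 : ‖Complex.exp w + Complex.exp (-w)‖ ≤ A + 1 := by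
    refine (norm_add_le _ _).trans ?_
    rw [Complex.norm_exp, Complex.norm_exp]; linarith
  have : ‖(2 : ℂ)‖ = 2 := by simp
  rw [this]; linarith

lemma two_cosh_of_re_zero (w : ℂ) (hw : w.re = 0) :
    Complex.cosh w = ((Real.cos w.im : ℝ) : ℂ) := by
  have : w = (w.im : ℂ) * Complex.I := by
    apply Complex.ext <;> simp [hw]
  rw [this, Complex.cosh_mul_I, Complex.ofReal_cos]
  simp

theorem twoStmt : TwoStmt := by
  intro s₁ s₂ c₀ M hs₁ hs₂ hc₀
  set c' : ℝ := min c₀ (s₁ / 2) with hc'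
  have hc'0 : 0 < c' := lt_min hc₀ (by linarith)
  have hc'1 : c' ≤ c₀ := min_le_left _ _
  have hc'2 : c' ≤ s₁ / 2 := min_le_right _ _
  set l : ℝ := c' / 4 with hl
  have hl0 : 0 < l := by positivity
  set x₀ : ℝ := s₁ + l with hx₀
  have hx0 : 0 < x₀ := by positivity
  set A : ℝ := 2 * ((x₀ + c') / l) - 1 with hA
  set A' : ℝ := 2 * ((x₀ + l) / l) + 1 with hA'
  have hA'1 : 1 < A' := by
    have : 0 < (x₀ + l) / l := by positivity
    linarith
  have hAA : A' < A := by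
    have h1 : (x₀ + c') / l = (x₀ + l) / l + 3 := by
      field_simp; rw [hl]; ring
    rw [hA, hA', h1]; linarith
  set b : ℝ := Real.log A with hb
  set b' : ℝ := Real.log A' with hb'
  have hb'0 : 0 < b' := Real.log_pos hA'1
  have hbb : b' < b := Real.log_lt_log (by linarith) hAA
  have hb0 : 0 < b := by linarith
  have hα : 0 < 1 - b' / b := by
    rw [sub_pos, div_lt_one hb0]; exact hbb
  refine ⟨1 - b' / b, hα, fun k => ⟨k.factorial * max M 1 / l ^ k, ?_⟩⟩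
  intro h hd hM ε hε0 hε1 hε
  set G : ℂ → ℂ := fun w => h ((x₀ : ℂ) + (l : ℂ) * Complex.cosh w) with hG
  have hGd : Differentiable ℂ G :=
    hd.comp ((differentiable_const _).add ((differentiable_const _).mul Complex.differentiable_cosh))
  have hGM : ∀ w : ℂ, 0 ≤ w.re → w.re ≤ b → ‖G w‖ ≤ max M 1 := by
    intro w hw0 hwb
    have hexp : Real.exp w.re ≤ A := by
      calc Real.exp w.re ≤ Real.exp b := Real.exp_le_exp.mpr hwb
        _ = A := Real.exp_log (by linarith)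
    have h1 := two_norm_cosh_le w A hw0 hexp
    have h2 : (A + 1) / 2 = (x₀ + c') / l := by rw [hA]; ring
    rw [h2, le_div_iff₀ hl0] at h1
    have h3 : |(Complex.cosh w).re| ≤ ‖Complex.cosh w‖ := Complex.abs_re_le_norm _
    have h4 : ((x₀ : ℂ) + (l : ℂ) * Complex.cosh w).re = x₀ + l * (Complex.cosh w).re := by simp
    obtain ⟨h5, h6⟩ := abs_le.mp h3
    refine (hM _ ?_ ?_).trans (le_max_left _ _)
    · rw [h4]; nlinarith
    · rw [h4]; nlinarith
  have hGε : ∀ w : ℂ, w.re = 0 → ‖G w‖ ≤ ε := by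
    intro w hw
    have h1 : (x₀ : ℂ) + (l : ℂ) * Complex.cosh w = ((x₀ + l * Real.cos w.im : ℝ) : ℂ) := by
      rw [two_cosh_of_re_zero w hw]; push_cast; ring
    simp only [hG]
    rw [h1]
    have h2 := Real.neg_one_le_cos w.im
    have h3 := Real.cos_le_one w.im
    apply hε
    constructor <;> nlinarith
  have hdisc : ∀ z ∈ Metric.sphere (0 : ℂ) l, ‖h z‖ ≤ max M 1 * ε ^ (1 - b' / b) := by
    intro z hz
    have hzn : ‖z‖ = l := by simpa using hz
    obtain ⟨w, hw0, hwc, hwe⟩ := two_exists_cosh ((z - x₀) / l)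
    have hn : ‖(z - x₀) / (l : ℂ)‖ ≤ (x₀ + l) / l := by
      rw [norm_div, Complex.norm_real, Real.norm_of_nonneg hl0.le]
      refine div_le_div_of_nonneg_right ?_ hl0.le
      refine (norm_sub_le _ _).trans ?_
      rw [hzn, Complex.norm_real, Real.norm_of_nonneg hx0.le]; linarith
    have hwb' : w.re ≤ b' := by
      rw [hb', Real.le_log_iff_exp_le (by linarith)]
      rw [hA']; linarith
    have hGw : G w = h z := by
      simp only [hG]
      rw [hwc]
      congr 1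
      have : (l : ℂ) ≠ 0 := by exact_mod_cast hl0.ne'
      field_simp
      ring
    have h3 := Complex.HadamardThreeLines.norm_le_interp_of_mem_verticalClosedStrip'
      (f := G) (z := w) (a := ε) (b := max M 1) (l := 0) (u := b) hb0
      (by simp only [Complex.HadamardThreeLines.verticalClosedStrip, mem_preimage, mem_Icc]
          exact ⟨hw0, by linarith⟩)
      hGd.diffContOnCl
      ⟨max M 1, by
        rintro _ ⟨v, hv, rfl⟩
        simp only [Complex.HadamardThreeLines.verticalClosedStrip, mem_preimage, mem_Icc] at hv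
        exact hGM v hv.1 hv.2⟩
      (fun v hv => hGε v (by simpa using hv))
      (fun v hv => by
        have : v.re = b := by simpa using hv
        exact hGM v (by rw [this]; exact hb0.le) this.le)
    rw [hGw, sub_zero, sub_zero] at h3
    have hθ0 : 0 ≤ w.re / b := div_nonneg hw0 hb0.le
    have hθ1 : w.re / b ≤ b' / b := div_le_div_of_nonneg_right hwb' hb0.le
    have h4 : ε ^ (1 - w.re / b) ≤ ε ^ (1 - b' / b) :=
      Real.rpow_le_rpow_of_exponent_ge hε0 hε1 (by linarith)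
    have h5 : (max M 1) ^ (w.re / b) ≤ max M 1 := by
      calc (max M 1) ^ (w.re / b) ≤ (max M 1) ^ (1 : ℝ) :=
            Real.rpow_le_rpow_of_exponent_le (le_max_right _ _) (by linarith)
        _ = max M 1 := Real.rpow_one _
    refine h3.trans ?_
    rw [mul_comm]
    exact mul_le_mul h5 h4 (Real.rpow_nonneg hε0.le _) (le_trans zero_le_one (le_max_right _ _))
  have h6 := Complex.norm_iteratedDeriv_le_of_forall_mem_sphere_norm_le k hl0 hd.diffContOnCl hdisc
  refine h6.trans (le_of_eq ?_)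
  ring

end Crest.Agent.T156.Soft
end

-- ▼ part T156/SoXMom_6
section

/-!
# Row 156, soft part, leaf `XMomStmt` (helper6)

The Gaussian completion does not change the limits of the moments (binomial formula on the
product law and strong induction), and it only increases the exponential moment (tangent line of
the convex function in the completion variable).
-/

set_option autoImplicit false
open MeasureTheory ProbabilityTheory Filter Topology Set
open Crest.ProbabilityR.SpinGlass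

namespace Crest.Agent.T156.Soft

namespace XMom6

lemma int_gauss (v : NNReal) (c : ℝ) :
    Integrable (fun x : ℝ => Real.exp (c * |x|)) (gaussianReal 0 v) := by
  refine ((integrable_exp_mul_gaussianReal (μ := 0) (v := v) c).add
    (integrable_exp_mul_gaussianReal (μ := 0) (v := v) (-c))).mono' (by fun_prop) ?_
  refine Eventually.of_forall fun x => ?_
  rw [Real.norm_eq_abs, abs_of_pos (Real.exp_pos _)]
  simp only [Pi.add_apply]
  rcases abs_cases x with h | h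
  · rw [h.1]; linarith [Real.exp_pos (-c * x)]
  · rw [h.1, show c * -x = -c * x by ring]; linarith [Real.exp_pos (c * x)]

lemma nice_gauss (v : NNReal) : Nice (gaussianReal 0 v) :=
  ⟨inferInstance, int_gauss v, integral_id_gaussianReal⟩

lemma int_pow {μ : Measure ℝ} (h : Nice μ) (k : ℕ) :
    Integrable (fun x : ℝ => x ^ k) μ := by
  have h1 := (h.expInt 1).const_mul (k.factorial : ℝ)
  refine h1.mono' (by fun_prop) (Eventually.of_forall fun x => ?_)
  have h2 := Real.pow_div_factorial_le_exp (|x|) (abs_nonneg x) k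
  have h3 : (0 : ℝ) < k.factorial := by positivity
  rw [div_le_iff₀ h3] at h2
  rw [Real.norm_eq_abs, abs_pow, one_mul]
  linarith

/-- tangent line -/
lemma tangent (c x y : ℝ) (hc : 0 ≤ c) : ∃ s : ℝ, ∀ z : ℝ,
    Real.exp (c * |x|) + s * z ≤ Real.exp (c * |x + y * z|) := by
  have key : ∀ σ : ℝ, (∀ w : ℝ, |x| + σ * w ≤ |x + w|) → ∀ z : ℝ,
      Real.exp (c * |x|) + (Real.exp (c * |x|) * c * σ * y) * z ≤ Real.exp (c * |x + y * z|) := by
    intro σ hσ z
    have h1 := hσ (y * z)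
    have h2 : c * |x| + c * σ * (y * z) ≤ c * |x + y * z| := by
      have := mul_le_mul_of_nonneg_left h1 hc
      linarith
    have h3 := Real.exp_le_exp.2 h2
    rw [Real.exp_add] at h3
    have h4 := Real.add_one_le_exp (c * σ * (y * z))
    have h5 := mul_le_mul_of_nonneg_left h4 (Real.exp_pos (c * |x|)).le
    linarith
  rcases le_total 0 x with h | h
  · refine ⟨_, key 1 fun w => ?_⟩
    rw [abs_of_nonneg h, one_mul]
    exact le_abs_self _
  · refine ⟨_, key (-1) fun w => ?_⟩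
    rw [abs_of_nonpos h]
    have := neg_le_abs (x + w)
    linarith

lemma int_exp_prod {μ γ : Measure ℝ} (hμ : Nice μ) (hγ : Nice γ) (c m : ℝ) (hc : 0 ≤ c) :
    Integrable (fun p : ℝ × ℝ => Real.exp (c * |p.1 + m * p.2|)) (μ.prod γ) := by
  have := hμ.prob
  have := hγ.prob
  refine ((hμ.expInt c).mul_prod (hγ.expInt (c * |m|))).mono' (by fun_prop) ?_
  refine Eventually.of_forall fun p => ?_
  rw [Real.norm_eq_abs, abs_of_pos (Real.exp_pos _), ← Real.exp_add]
  apply Real.exp_le_exp.2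
  have h1 := abs_add_le p.1 (m * p.2)
  rw [abs_mul] at h1
  have := mul_le_mul_of_nonneg_left h1 hc
  linarith

lemma exp_le {μ γ : Measure ℝ} (hμ : Nice μ) (hγ : Nice γ) (c m : ℝ) (hc : 0 ≤ c) :
    ∫ x, Real.exp (c * |x|) ∂μ ≤ ∫ p : ℝ × ℝ, Real.exp (c * |p.1 + m * p.2|) ∂(μ.prod γ) := by
  have := hμ.prob
  have := hγ.prob
  have hI := int_exp_prod hμ hγ c m hc
  rw [integral_prod _ hI]
  refine integral_mono_ae (hμ.expInt c) hI.integral_prod_left ?_
  filter_upwards [hI.prod_right_ae] with x hx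
  obtain ⟨s, hs⟩ := tangent c x m hc
  have hid : Integrable (fun z : ℝ => z) γ := by simpa using int_pow hγ 1
  have h1 : ∫ z, (Real.exp (c * |x|) + s * z) ∂γ = Real.exp (c * |x|) := by
    rw [integral_add (integrable_const _) (hid.const_mul s), integral_const_mul, hγ.mean]
    simp
  rw [← h1]
  exact integral_mono ((integrable_const _).add (hid.const_mul s)) hx hs

lemma mom_eq {μ γ : Measure ℝ} (hμ : Nice μ) (hγ : Nice γ) (m : ℝ) (k : ℕ) :
    ∫ p : ℝ × ℝ, (p.1 + m * p.2) ^ k ∂(μ.prod γ) =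
      ∑ j ∈ Finset.range (k + 1),
        (∫ x, x ^ j ∂μ) * (m ^ (k - j) * (k.choose j : ℝ) * ∫ z, z ^ (k - j) ∂γ) := by
  have := hμ.prob
  have := hγ.prob
  have h1 : ∀ p : ℝ × ℝ, (p.1 + m * p.2) ^ k = ∑ j ∈ Finset.range (k + 1),
      p.1 ^ j * (m ^ (k - j) * (k.choose j : ℝ) * p.2 ^ (k - j)) := by
    intro p
    rw [add_pow]
    refine Finset.sum_congr rfl fun j _ => ?_
    rw [mul_pow]; ring
  simp_rw [h1]
  rw [integral_finsetSum]
  · refine Finset.sum_congr rfl fun j _ => ?_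
    rw [integral_prod_mul (fun x : ℝ => x ^ j)
      (fun z : ℝ => m ^ (k - j) * (k.choose j : ℝ) * z ^ (k - j)), integral_const_mul]
  · intro j _
    exact (int_pow hμ j).mul_prod ((int_pow hγ (k - j)).const_mul _)

lemma yLaw_eq (hB : BasicStmt) (n : ℕ) (β : ℝ) :
    yLaw n β = ((xLaw n β).prod (gaussianReal 0 (Real.toNNReal (β ^ 2 / 2)))).map
      (fun p : ℝ × ℝ => p.1 + (n : ℝ) ^ (-(1 : ℝ) / 6) * p.2) := by
  obtain ⟨hP, -, -, -, -, hX, -, -, -, hY, -⟩ := hB n β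
  have hm : Measurable (xs n β) := hX.measurable
  have h1 : (xLaw n β).prod (gaussianReal 0 (Real.toNNReal (β ^ 2 / 2))) =
      (completedLaw n β).map (Prod.map (xs n β) id) := by
    unfold xLaw completedLaw
    rw [← Measure.map_prod_map _ _ hm measurable_id, Measure.map_id]
  rw [h1, Measure.map_map (by fun_prop) (hm.prodMap measurable_id)]
  unfold yLaw
  congr 1
  funext ω
  exact hY ω

end XMom6

open XMom6 in
theorem xMomStmt : XMomStmt := by
  intro hB β c C a hc hC ha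
  set γ : Measure ℝ := gaussianReal 0 (Real.toNNReal (β ^ 2 / 2)) with hγdef
  have hγ : Nice γ := nice_gauss _
  have hX : ∀ n : ℕ, Nice (xLaw n β) := fun n => (hB n β).2.2.2.2.2.2.2.2.2.2.1
  have hF : ∀ n k : ℕ, ∫ x, x ^ k ∂yLaw n β = fluctuationMoment β k n :=
    fun n => (hB n β).2.2.2.2.2.2.2.2.2.2.2.2.1
  have hmeas : ∀ n : ℕ, Measurable
      (fun p : ℝ × ℝ => p.1 + (n : ℝ) ^ (-(1 : ℝ) / 6) * p.2) := fun n => by fun_prop
  refine ⟨fun n hn => ?_, ?_⟩
  · refine le_trans ?_ (hC n hn)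
    rw [yLaw_eq hB n β, integral_map (hmeas n).aemeasurable (by fun_prop)]
    exact exp_le (hX n) hγ c _ hc.le
  · have hm : Tendsto (fun n : ℕ => (n : ℝ) ^ (-(1 : ℝ) / 6)) atTop (𝓝 0) := by
      have := (tendsto_rpow_neg_atTop (y := (1 : ℝ) / 6) (by norm_num)).comp
        tendsto_natCast_atTop_atTop
      refine this.congr fun n => ?_
      simp only [Function.comp]
      congr 1
      ring
    have hrec : ∀ n k : ℕ, ∫ x, x ^ k ∂xLaw n β = fluctuationMoment β k n -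
        ∑ j ∈ Finset.range k, (∫ x, x ^ j ∂xLaw n β) *
          (((n : ℝ) ^ (-(1 : ℝ) / 6)) ^ (k - j) * (k.choose j : ℝ) * ∫ z, z ^ (k - j) ∂γ) := by
      intro n k
      have := hγ.prob
      rw [← hF n k, yLaw_eq hB n β, integral_map (hmeas n).aemeasurable (by fun_prop),
        mom_eq (hX n) hγ, Finset.sum_range_succ]
      simp
    have main : ∀ k : ℕ, Tendsto (fun n : ℕ => ∫ x, x ^ k ∂xLaw n β) atTop
        (𝓝 (if k = 0 then 1 else a k)) := by
      intro k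
      induction k using Nat.strong_induction_on with
      | _ k ih =>
        by_cases hk : k = 0
        · subst hk
          simp only [pow_zero, if_true]
          refine tendsto_const_nhds.congr fun n => ?_
          have := (hX n).prob
          simp
        · rw [if_neg hk]
          have h0 : Tendsto (fun n : ℕ => ∑ j ∈ Finset.range k, (∫ x, x ^ j ∂xLaw n β) *
              (((n : ℝ) ^ (-(1 : ℝ) / 6)) ^ (k - j) * (k.choose j : ℝ) * ∫ z, z ^ (k - j) ∂γ))
              atTop (𝓝 (∑ j ∈ Finset.range k, (if j = 0 then 1 else a j) *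
                ((0 : ℝ) ^ (k - j) * (k.choose j : ℝ) * ∫ z, z ^ (k - j) ∂γ))) := by
            refine tendsto_finsetSum _ fun j hj => ?_
            exact (ih j (Finset.mem_range.1 hj)).mul
              (((hm.pow (k - j)).mul_const _).mul_const _)
          have h1 : (∑ j ∈ Finset.range k, (if j = 0 then 1 else a j) *
              ((0 : ℝ) ^ (k - j) * (k.choose j : ℝ) * ∫ z, z ^ (k - j) ∂γ)) = 0 := by
            refine Finset.sum_eq_zero fun j hj => ?_
            have : k - j ≠ 0 := by have := Finset.mem_range.1 hj; omega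
            simp [zero_pow this]
          rw [h1] at h0
          have h2 := (ha k (by omega)).sub h0
          rw [sub_zero] at h2
          exact h2.congr fun n => (hrec n k).symm
    intro k hk
    have := main k
    rwa [if_neg (by omega)] at this

end Crest.Agent.T156.Soft
end

-- ▼ part T156/SoPD_88
section

/-!
# Row 156, soft part: `PosStmt`, `DetStmt` (helper88)
-/

set_option autoImplicit false
open MeasureTheory ProbabilityTheory Filter Topology Set

namespace Crest.Agent.T156.Soft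

theorem pd88_sub {μ : Measure ℝ} {c : ℝ} (h : Integrable (fun x => Real.exp (c * |x|)) μ) :
    Ioo (-c) c ⊆ interior (integrableExpSet id μ) := by
  refine interior_maximal (fun t ht => ?_) isOpen_Ioo
  refine h.mono' (by fun_prop) (ae_of_all _ fun x => ?_)
  rw [Real.norm_eq_abs, abs_of_pos (Real.exp_pos _)]
  apply Real.exp_le_exp.mpr
  have h1 : |t| ≤ c := (abs_lt.mpr ht).le
  calc t * id x ≤ |t * x| := le_abs_self _
    _ = |t| * |x| := abs_mul _ _
    _ ≤ c * |x| := mul_le_mul_of_nonneg_right h1 (abs_nonneg _)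

theorem detStmt_88 : DetStmt := by
  intro μ ν c hμ hν hc iμ iν hm
  set U : Set ℂ := {z | z.re ∈ Ioo (-c) c} with hU
  have aμ : AnalyticOnNhd ℂ (complexMGF id μ) U :=
    analyticOnNhd_complexMGF.mono fun z hz => pd88_sub iμ hz
  have aν : AnalyticOnNhd ℂ (complexMGF id ν) U :=
    analyticOnNhd_complexMGF.mono fun z hz => pd88_sub iν hz
  have h0 : (0 : ℂ) ∈ U := by simp [hU, hc]
  have hconv : Convex ℝ U := (convex_Ioo (-c) c).linear_preimage Complex.reLm
  have hd : ∀ k : ℕ, iteratedDeriv k (complexMGF id μ) 0 = iteratedDeriv k (complexMGF id ν) 0 := by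
    intro k
    rw [iteratedDeriv_complexMGF (pd88_sub iμ h0), iteratedDeriv_complexMGF (pd88_sub iν h0)]
    simp only [id, zero_mul, Complex.exp_zero, mul_one]
    have e : ∀ ρ : Measure ℝ, ∫ x : ℝ, (x : ℂ) ^ k ∂ρ = ((∫ x, x ^ k ∂ρ : ℝ) : ℂ) := by
      intro ρ
      rw [← integral_complex_ofReal]
      simp
    rw [e, e]
    rcases Nat.eq_zero_or_pos k with rfl | hk
    · simp
    · rw [hm k hk]
  have hev : complexMGF id μ =ᶠ[𝓝 0] complexMGF id ν := by
    have a := (aμ 0 h0).sub (aν 0 h0)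
    have hz : analyticOrderAt (complexMGF id μ - complexMGF id ν) 0 = ⊤ := by
      rw [← top_le_iff]
      refine ENat.forall_natCast_le_iff_le.mp fun k _ => ?_
      rw [natCast_le_analyticOrderAt_iff_iteratedDeriv_eq_zero a]
      intro i _
      rw [iteratedDeriv_sub (aμ 0 h0).contDiffAt (aν 0 h0).contDiffAt, hd, sub_self]
    rw [analyticOrderAt_eq_top] at hz
    filter_upwards [hz] with z hz using sub_eq_zero.mp hz
  have heq := aμ.eqOn_of_preconnected_of_eventuallyEq aν hconv.isPreconnected h0 hev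
  refine Measure.ext_of_charFun (funext fun t => ?_)
  rw [← complexMGF_id_mul_I, ← complexMGF_id_mul_I]
  exact heq (by simp [hU, hc])

theorem posStmt_88 : PosStmt := by
  intro s s' s₂ M δ hs hs' h2 h2' hδ
  have hA : 0 < 2 + |M| := by positivity
  refine ⟨δ ^ 2 / (2 + |M|), by positivity, fun μ hμ hM hL => ?_⟩
  have := hμ.prob
  have i1 : Integrable (fun x : ℝ => x) μ := by simpa using hμ.int_pow_88 1
  have i2 := hμ.int_pow_88 2
  have lam0 : 0 ≤ lam μ s := by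
    rw [← Real.one_le_exp_iff, ← hμ.mgf_eq_88]
    have : ∫ x, (s * x + 1) ∂μ ≤ ∫ x, Real.exp (s * x) ∂μ :=
      integral_mono ((i1.const_mul s).add (integrable_const _)) (hμ.int_exp_88 s)
        fun x => Real.add_one_le_exp _
    rw [integral_add (i1.const_mul s) (integrable_const _), integral_const_mul, hμ.mean] at this
    simpa using this
  have h1 : δ * s' ≤ lam μ s' := by
    have : 0 ≤ lam μ s / s := div_nonneg lam0 hs.le
    rw [Lm] at hL
    rw [← le_div_iff₀ hs']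
    linarith
  set A := 2 + |M| with hAdef
  set t := δ / A with ht
  have ht0 : 0 < t := by positivity
  have pt : ∀ x : ℝ, Real.exp (s' * x) ≤
      1 + s' * (x ^ 2 / (2 * t) + t / 2 * (2 + Real.exp (s₂ * x))) := by
    intro x
    have hb : ∀ y : ℝ, |x| * y ≤ x ^ 2 / (2 * t) + t / 2 * y ^ 2 := by
      intro y
      have h3 : 0 ≤ (|x| - t * y) ^ 2 / (2 * t) := by positivity
      have h4 : (|x| - t * y) ^ 2 / (2 * t) = |x| ^ 2 / (2 * t) + t / 2 * y ^ 2 - |x| * y := by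
        field_simp; ring
      rw [h4, sq_abs] at h3
      linarith
    have hE := Real.exp_pos (s₂ * x)
    rcases le_total x 0 with hx | hx
    · have : Real.exp (s' * x) ≤ 1 := Real.exp_le_one_iff.mpr (by nlinarith)
      have : 0 ≤ s' * (x ^ 2 / (2 * t) + t / 2 * (2 + Real.exp (s₂ * x))) := by positivity
      linarith
    · have e1 : Real.exp (s' * x) - 1 ≤ s' * x * Real.exp (s' * x) := by
        have h5 := Real.add_one_le_exp (-(s' * x))
        have h6 : Real.exp (-(s' * x)) * Real.exp (s' * x) = 1 := by rw [← Real.exp_add]; simp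
        nlinarith [Real.exp_pos (s' * x)]
      have e2 : Real.exp (s' * x) ^ 2 ≤ Real.exp (s₂ * x) := by
        rw [← Real.exp_nat_mul]
        exact Real.exp_le_exp.mpr (by push_cast; nlinarith)
      have e3 := hb (Real.exp (s' * x))
      rw [abs_of_nonneg hx] at e3
      have e4 : x * Real.exp (s' * x) ≤ x ^ 2 / (2 * t) + t / 2 * (2 + Real.exp (s₂ * x)) := by
        nlinarith
      nlinarith
  have iE := hμ.int_exp_88 s₂
  have iQ : Integrable (fun x : ℝ => t / 2 * (2 + Real.exp (s₂ * x))) μ :=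
    ((integrable_const _).add iE).const_mul _
  have iR : Integrable (fun x : ℝ => x ^ 2 / (2 * t) + t / 2 * (2 + Real.exp (s₂ * x))) μ :=
    (i2.div_const _).add iQ
  have h3 := integral_mono (hμ.int_exp_88 s') ((integrable_const 1).add (iR.const_mul s')) pt
  rw [hμ.mgf_eq_88] at h3
  simp only [Pi.add_apply] at h3
  rw [integral_add (integrable_const 1) (iR.const_mul s'), integral_const_mul,
    integral_add (i2.div_const _) iQ, integral_div,
    integral_const_mul, integral_add (integrable_const _) iE] at h3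
  simp only [integral_const, probReal_univ, smul_eq_mul, one_mul] at h3
  have h4 := Real.add_one_le_exp (lam μ s')
  have h5 : δ ≤ (∫ x, x ^ 2 ∂μ) / (2 * t) + t / 2 * (2 + ∫ x, Real.exp (s₂ * x) ∂μ) := by
    refine le_of_mul_le_mul_left ?_ hs'
    linarith
  have h6 : t / 2 * (2 + ∫ x, Real.exp (s₂ * x) ∂μ) ≤ δ / 2 := by
    have : 2 + ∫ x, Real.exp (s₂ * x) ∂μ ≤ A := by linarith [le_abs_self M]
    calc _ ≤ t / 2 * A := mul_le_mul_of_nonneg_left this (by positivity)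
      _ = δ / 2 := by rw [ht]; field_simp
  have h7 : δ / 2 ≤ (∫ x, x ^ 2 ∂μ) / (2 * t) := by linarith
  rw [le_div_iff₀ (by positivity)] at h7
  calc δ ^ 2 / A = δ / 2 * (2 * t) := by rw [ht]; field_simp
    _ ≤ _ := h7

end Crest.Agent.T156.Soft
end

-- ▼ part T156/SoTop_88
section

/-!
# Row 156, soft part assembled (helper88): `Key β` gives the five statements
-/

set_option autoImplicit false

namespace Crest.Agent.T156.Soft

theorem s27_of_key {β : ℝ} (h : Key β) : S27 β :=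
  a27Stmt basicStmt lcStmt psiStmt expStmt twoStmt closeStmt posStmt_88 cauchyStmt β h

theorem s25_of_s27 {β : ℝ} (h : S27 β) : S25 β :=
  (a256Stmt basicStmt lcStmt xMomStmt antiStmt β h).1

theorem s26_of_s27 {β : ℝ} (h : S27 β) {η : ℝ} (hη : 0 < η) : S26 β η :=
  (a256Stmt basicStmt lcStmt xMomStmt antiStmt β h).2 η hη

theorem s24_of_s27 {β : ℝ} (h : S27 β) : S24 β :=
  (a248Stmt basicStmt xMomStmt copyStmt copyBdStmt detStmt_88 limitStmt summStmt seriesStmt β h).1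

theorem s28_of_s27 {β : ℝ} (h : S27 β) : S28 β :=
  (a248Stmt basicStmt xMomStmt copyStmt copyBdStmt detStmt_88 limitStmt summStmt seriesStmt β h).2

end Crest.Agent.T156.Soft
end

-- ▼ part T157/G1b_52
section

/-!
# Row 157, part D: bridges for the Guerra interpolation (helper52)
-/

set_option autoImplicit false

noncomputable section

namespace Crest.Agent.T157.G1

open MeasureTheory Real
open Crest.Agent.T157.E Crest.Agent.T157.Casc Crest.Agent.T157.SL Crest.Agent.T157.Pf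
open Crest.Agent.R339.B Crest.Agent.R339.Var
open Crest.Agent.R339.Guerra (pen)
open Crest.ProbabilityR.SpinGlassDynamics

variable {n : ℕ} {β : ℝ}

theorem cut_TT : ∀ (l : List (ℝ × ℝ)), (∀ p ∈ l, 0 < p.2) → Sc.cut l (TT l) = l
  | [], _ => rfl
  | [p], _ => by simp [Sc.cut, TT]
  | p :: r :: l, h => by
    have h1 : 0 < TT (r :: l) := by
      rw [TT_cons]
      exact add_pos_of_pos_of_nonneg (h r (by simp))
        (TT_nonneg fun q hq => (h q (by simp [hq])).le)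
    rw [TT_cons, Sc.cut, if_neg (by linarith), add_sub_cancel_left,
      cut_TT (r :: l) fun q hq => h q (List.mem_cons_of_mem _ hq)]

theorem lst_pos {P : Par} (h : P.OK) (hβ : 0 < β) (N : ℕ) : ∀ p ∈ P.lst β N, 0 < p.2 := by
  intro p hp
  obtain ⟨k, rfl⟩ := List.mem_ofFn.1 hp
  have : (0 : ℝ) < P.K := by exact_mod_cast h.Kpos
  positivity

theorem Ph_zero {P : Par} (h : P.OK) (hβ : 0 < β) : P.Ph β 0 = PhiL 1 (P.lst β P.K) := by
  have e4 : ∀ l : List (ℝ × ℝ), (∀ p ∈ l, 0 < p.2) → PhiT 1 l 0 = PhiL 1 l := fun l hl => by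
    cases l with
    | nil => rfl
    | cons p l => simp [PhiT, PhiL, (hl p (by simp)).le]
  funext x
  rw [Par.Ph, mul_zero, e4 _ (lst_pos h hβ _)]

theorem cor_lst {P : Par} (h : P.OK) (hβ : 0 < β) : cor β (P.lst β P.K) = P.pen β 0 := by
  have h1 := Sc.pen_cut h hβ (s := 1) ⟨zero_le_one, le_rfl⟩
  rw [mul_one] at h1
  nth_rewrite 1 [← Sc.TT_lst h β] at h1
  rw [cut_TT _ (lst_pos h hβ _)] at h1
  rw [cor, h1, mul_div_cancel_left₀ _ (by positivity)]
  simp [Par.pen]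

/-- the two Parisi values agree -/
theorem val_lst {P : Par} (h : P.OK) (hβ : 0 < β) : val β (P.lst β P.K) = P.val β := by
  rw [val, Par.val, Ph_zero h hβ, cor_lst h hβ]




/-- the interpolation for the list of a step function -/
theorem g1_lst (hn : 0 < n) (hβ : 0 < β) {J : Lv (Cube n)} (hJ : IsJ β J) {P : Par} (h : P.OK) :
    G1 β J (P.lst β P.K) := g1Stmt n hn β hβ J hJ _ (Sc.adm_lst h β _) (Sc.TT_lst h β)






end Crest.Agent.T157.G1

end
end

-- ▼ part T156/Low_76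
section

/-!
# Row 156 (helper76): the lower bound `c s⁵ ≤ L_n(s₁,s)` for `s ≥ δ n^k`, `k > 5/102`, pure SK

Convexity in the root tilt, Guerra's bound at tilt `0`, the soft Parisi formula with a floor
(`DnStmt`), `H⁻¹` convexity of the one-site functional (`ScStmt`) and the grid minimiser.
-/

set_option autoImplicit false

noncomputable section

namespace Crest.Agent.T156.Cas.Low76

open MeasureTheory Real Set Filter
open Crest.Agent.T157.E Crest.Agent.T157.Casc Crest.Agent.T157.SL Crest.Agent.T157.Pf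
open Crest.Agent.R339.B Crest.Agent.R339.Var
open Crest.Agent.R339.Guerra (pen)
open Crest.Agent.T157

/-- the functional on the grid -/
def PG (β : ℝ) {K : ℕ} (x : Fin K → ℝ) : ℝ :=
  PhiL 1 (List.ofFn fun k => (x k, β ^ 2 / K)) 0 -
    β ^ 2 / 4 * ∑ k : Fin K, x k * ((2 * (k : ℕ) + 1) / (K : ℝ) ^ 2)

/-- the soft Parisi formula with a floor (helper41) -/
def DnStmt : Prop := ∀ β : ℝ, 0 < β → ∃ C : ℝ, 0 < C ∧ ∀ n : ℕ, 0 < n → ∀ a : ℝ, 0 < a → a ≤ 1 →
  ∀ K : ℕ, 0 < K → β ^ 2 * n ≤ K → ∃ x ∈ Kkt.Simp K a 1,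
    n * PG β x - C * (1 + log (1 + β ^ 2 * n)) ^ 4 *
      ((n : ℝ) ^ (1 / 3 : ℝ) * a ^ (-(2 / 3) : ℝ) + a ^ (-2 : ℝ)) ≤
      X (fun _ => 1) [wl n β 1 a] 0

/-- midpoint form of the `H⁻¹` modulus (helper48) -/
def ScStmt : Prop := ∀ T : ℝ, 0 < T → ∃ c : ℝ, 0 < c ∧ ∀ K : ℕ, 0 < K → ∀ x y : ℕ → ℝ,
  Monotone x → Monotone y → (∀ k, 0 < x k ∧ x k ≤ 1) → (∀ k, 0 < y k ∧ y k ≤ 1) →
  PhiL 1 (List.ofFn fun k : Fin K => ((x k + y k) / 2, T / K)) 0 ≤
    (PhiL 1 (List.ofFn fun k : Fin K => (x k, T / K)) 0 +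
      PhiL 1 (List.ofFn fun k : Fin K => (y k, T / K)) 0) / 2 -
    c * ∑ k ∈ Finset.range K, T / K * (∑ j ∈ Finset.Ico k K, T / K * (y j - x j)) ^ 2

/-- the lower bound -/
def LowSk (β : ℝ) : Prop := ∃ c : ℝ, 0 < c ∧ ∀ k δ s₁ : ℝ, 5 / 102 < k → 0 < δ → 0 < s₁ →
  ∀ᶠ n : ℕ in atTop, ∀ s, δ * (n : ℝ) ^ k ≤ s → s ≤ (n : ℝ) ^ (1 / 6 : ℝ) →
    c * s ^ 5 ≤ Soft.Ln n β s₁ s

theorem pen_ofFn (v : ℝ) : ∀ (K : ℕ) (x : Fin K → ℝ) (i : ℕ),
    pen (i * v) (List.ofFn fun k => (x k, v)) =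
      ∑ k : Fin K, x k * ((2 * (i + (k : ℕ)) + 1) * v ^ 2)
  | 0, _, _ => by simp [pen]
  | K + 1, x, i => by
    rw [List.ofFn_succ, pen, Fin.sum_univ_succ]
    have := pen_ofFn v K (fun k => x k.succ) (i + 1)
    push_cast at this
    rw [show (i : ℝ) * v + v = (i + 1) * v by ring, this]
    simp only [Fin.val_zero, Fin.val_succ]
    push_cast
    congr 1
    · ring
    · exact Finset.sum_congr rfl fun k _ => by ring

theorem PG_eq {β : ℝ} (hβ : 0 < β) {K : ℕ} (hK : 0 < K) (x : Fin K → ℝ) :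
    PG β x = G1.val β (List.ofFn fun k => (x k, β ^ 2 / K)) := by
  have h := pen_ofFn (β ^ 2 / K) K x 0
  simp only [Nat.cast_zero, zero_mul, zero_add] at h
  have hK' : (K : ℝ) ≠ 0 := Nat.cast_ne_zero.2 hK.ne'
  rw [PG, G1.val, G1.cor, h, Finset.mul_sum, Finset.sum_div]
  congr 1
  refine Finset.sum_congr rfl fun k _ => ?_
  field_simp

theorem DD_ofFn (v : ℝ) : ∀ (N : ℕ) (x d : ℕ → ℝ),
    Sc48.DD (List.ofFn fun k : Fin N => (x k, d k, v)) = ∑ j ∈ Finset.range N, v * d j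
  | 0, _, _ => by simp [Sc48.DD]
  | N + 1, x, d => by
    rw [List.ofFn_succ, Sc48.DD, Finset.sum_range_succ']
    have := DD_ofFn v N (fun j => x (j + 1)) (fun j => d (j + 1))
    simp only [Fin.val_succ, Fin.val_zero]
    rw [this, mul_comm]

theorem NN_ofFn {v : ℝ} (hv : 0 ≤ v) : ∀ (N : ℕ) (x d : ℕ → ℝ),
    ∑ k ∈ Finset.range N, v * (∑ j ∈ Finset.Ico k N, v * d j) ^ 2 ≤
      Sc48.NN (List.ofFn fun k : Fin N => (x k, d k, v))
  | 0, _, _ => by simp [Sc48.NN]
  | N + 1, x, d => by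
    have h1 := DD_ofFn v (N + 1) x d
    have h2 := NN_ofFn hv N (fun j => x (j + 1)) (fun j => d (j + 1))
    rw [List.ofFn_succ] at h1
    rw [List.ofFn_succ, Sc48.NN, h1, Finset.sum_range_succ', ← Finset.range_eq_Ico]
    simp only [Fin.val_succ]
    have h3 : ∀ k, ∑ j ∈ Finset.Ico (k + 1) (N + 1), v * d j =
        ∑ j ∈ Finset.Ico k N, v * d (j + 1) := fun k =>
      (Finset.sum_Ico_add' (fun j => v * d j) k N 1).symm
    simp only [h3]
    have h4 := mul_nonneg hv (sq_nonneg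
      (Sc48.DD (List.ofFn fun k : Fin N => (x (k + 1), d (k + 1), v))))
    nlinarith

theorem scStmt : ScStmt := fun T hT => by
  refine ⟨exp (-14 * T) / 384, by positivity, fun K hK x y hx hy x1 y1 => ?_⟩
  have hv : 0 ≤ T / K := by positivity
  have e : ∀ t, lev t (List.ofFn fun k : Fin K => (x k, y k - x k, T / K)) =
      List.ofFn fun k : Fin K => ((1 - t) * x k + t * y k, T / K) := fun t => by
    rw [lev, List.map_ofFn]
    congr 1
    funext k
    simp only [Function.comp]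
    congr 1
    ring
  have e2 : lev (1 / 2) (List.ofFn fun k : Fin K => (x k, y k - x k, T / K)) =
      List.ofFn fun k : Fin K => ((x k + y k) / 2, T / K) := by
    rw [e]
    congr 1
    funext k
    congr 1
    ring
  have h := Sc48.sconv_NN (θ := 1 / 2) (T := T)
    (L := List.ofFn fun k : Fin K => (x k, y k - x k, T / K)) (by norm_num) (by norm_num)
    (fun p hp => by
      obtain ⟨k, rfl⟩ := List.mem_ofFn.1 hp
      refine ⟨(x1 k).1, by simpa using (y1 k).1, abs_le.2 ⟨?_, ?_⟩⟩ <;>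
        linarith [(x1 k).1, (x1 k).2, (y1 k).1, (y1 k).2])
    (by
      rw [e2]
      exact R339.V4.adm_ofFn hv (fun i j hij => by
          have := hx (show (i : ℕ) ≤ j from hij); have := hy (show (i : ℕ) ≤ j from hij)
          linarith)
        (fun k => by linarith [(x1 k).1, (y1 k).1]) fun k => by linarith [(x1 k).2, (y1 k).2])
    (by
      have hK' : (K : ℝ) ≠ 0 := Nat.cast_ne_zero.2 hK.ne'
      rw [e2, R339.Var.TT, List.map_ofFn, List.sum_ofFn]
      simp only [Function.comp, Finset.sum_const, Finset.card_univ, Fintype.card_fin, nsmul_eq_mul]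
      rw [mul_div_cancel₀ _ hK'])
  rw [e2, e 0, e 1] at h
  simp only [sub_zero, one_mul, zero_mul, add_zero, sub_self, zero_add] at h
  have h2 := mul_le_mul_of_nonneg_left (NN_ofFn hv K x fun j => y j - x j) (exp_pos (-14 * T)).le
  linarith

/-- a step function with a free top -/
def mk (K : ℕ) (z : ℕ → ℝ) : Par := ⟨K, K, fun k => if k < K then z k else 1⟩

theorem mk_ok {K : ℕ} (hK : 0 < K) {z : ℕ → ℝ} (hm : Monotone z) (hz : ∀ k, 0 < z k ∧ z k ≤ 1) :
    (mk K z).OK where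
  Kpos := hK
  aK := le_rfl
  mono := fun i j hij => by
    simp only [mk]
    split_ifs with h1 h2 h2
    · exact hm hij
    · exact (hz i).2
    · omega
    · exact le_rfl
  pos := fun k => by
    simp only [mk]
    split_ifs
    · exact (hz k).1
    · exact one_pos
  top := fun k hk => by
    simp only [mk] at hk ⊢
    rw [if_neg (by omega)]

theorem mk_lst (β : ℝ) (K : ℕ) (z : ℕ → ℝ) :
    (mk K z).lst β K = List.ofFn fun k : Fin K => (z k, β ^ 2 / K) := by
  simp only [Par.lst, mk]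
  congr 1
  funext k
  rw [if_pos k.2]

theorem z_le_one {P : Par} (h : P.OK) (k : ℕ) : P.z k ≤ 1 :=
  (h.mono (le_max_left k P.a)).trans (h.top _ (le_max_right _ _)).le

/-- the grid minimiser is below every step function of the grid -/
theorem min_le {β c C η : ℝ} (hβ : 0 < β) {P : Par} (hG : P.Good β c C η) {Q : Par} (hQ : Q.OK) :
    P.val β ≤ Q.val β + η := by
  rw [hQ.val_sc hβ]
  refine hG.min _ ?_ ?_
  · exact R339.V4.adm_ofFn (by positivity) (fun i j hij => mul_le_mul_of_nonneg_left (hQ.mono hij) hβ.le)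
      (fun k => mul_pos hβ (hQ.pos k)) fun k => mul_le_of_le_one_right hβ.le (z_le_one hQ k)
  · exact TT_grid hQ.Kpos _

/-- a tail sum with a steady slope has a large square sum -/
theorem sq_sum_ge {K m : ℕ} (hm : 2 * m ≤ K) {v b : ℝ} (hv : 0 ≤ v) (hb : 0 ≤ b) (u : ℕ → ℝ)
    (hu : ∀ j < 2 * m, b ≤ u j) :
    (m * v) ^ 3 * b ^ 2 / 2 ≤ ∑ k ∈ Finset.range K, v * (∑ j ∈ Finset.Ico k K, v * u j) ^ 2 := by
  set D : ℕ → ℝ := fun k => ∑ j ∈ Finset.Ico k K, v * u j with hD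
  have h1 : ∀ i < m, (m * v * b) ^ 2 / 2 ≤ D i ^ 2 + D (m + i) ^ 2 := fun i hi => by
    have e : D i = ∑ j ∈ Finset.Ico i (m + i), v * u j + D (m + i) :=
      (Finset.sum_Ico_consecutive _ (by omega) (by omega)).symm
    have h2 : ∑ _j ∈ Finset.Ico i (m + i), v * b ≤ ∑ j ∈ Finset.Ico i (m + i), v * u j :=
      Finset.sum_le_sum fun j hj => mul_le_mul_of_nonneg_left
        (hu j (by have := (Finset.mem_Ico.1 hj).2; omega)) hv
    rw [Finset.sum_const, Nat.card_Ico, show m + i - i = m by omega, nsmul_eq_mul] at h2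
    have h3 : m * v * b ≤ D i - D (m + i) := by rw [e]; linarith
    have h4 := pow_le_pow_left₀ (by positivity) h3 2
    nlinarith [sq_nonneg (D i + D (m + i))]
  have h5 : ∑ k ∈ Finset.range (m + m), v * D k ^ 2 ≤ ∑ k ∈ Finset.range K, v * D k ^ 2 :=
    Finset.sum_le_sum_of_subset_of_nonneg (Finset.range_mono (by omega))
      fun k _ _ => by positivity
  rw [Finset.sum_range_add, ← Finset.sum_add_distrib] at h5
  have h6 : ∑ _i ∈ Finset.range m, v * ((m * v * b) ^ 2 / 2) ≤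
      ∑ i ∈ Finset.range m, (v * D i ^ 2 + v * D (m + i) ^ 2) :=
    Finset.sum_le_sum fun i hi => by
      rw [← mul_add]
      exact mul_le_mul_of_nonneg_left (h1 i (Finset.mem_range.1 hi)) hv
  rw [Finset.sum_const, Finset.card_range, nsmul_eq_mul] at h6
  calc (m * v) ^ 3 * b ^ 2 / 2 = m * (v * ((m * v * b) ^ 2 / 2)) := by ring
    _ ≤ _ := h6.trans h5

/-- **mean-field law with a floor, lower half** -/
theorem mf5 (hS : ScStmt) {β : ℝ} (hβ : 1 < β) {C : ℝ} (hC : 1 ≤ C) : ∃ c' : ℝ, 0 < c' ∧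
    ∀ (c η : ℝ) (P : Par), P.OK → P.Good β c C η → ∀ a, a ≤ 1 → 4 * η ≤ a → 16 * C ≤ P.K * a →
      ∀ x ∈ Kkt.Simp P.K a 1, P.val β + c' * a ^ 5 - 2 * η ≤ PG β x := by
  have hβ0 : 0 < β := by linarith
  obtain ⟨c0, hc0, hS⟩ := hS (β ^ 2) (by positivity)
  refine ⟨c0 * (β ^ 2 / (16 * C)) ^ 3 / 4, by positivity, fun c η P h hG a ha1 hη hKa x hx => ?_⟩
  have hK := h.Kpos
  have hK' : (0 : ℝ) < P.K := Nat.cast_pos.2 hK
  have ha : 0 < a := by
    by_contra hc
    have := mul_nonpos_of_nonneg_of_nonpos hK'.le (not_lt.1 hc)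
    linarith
  set y : ℕ → ℝ := fun k => if hk : k < P.K then x ⟨k, hk⟩ else 1 with hy
  have y1 : ∀ k, a ≤ y k ∧ y k ≤ 1 := fun k => by
    simp only [hy]
    split_ifs with hk
    · exact hx.2 _
    · exact ⟨ha1, le_rfl⟩
  have ym : Monotone y := fun i j hij => by
    simp only [hy]
    split_ifs with h1 h2 h2
    · exact hx.1 (show (⟨i, h1⟩ : Fin P.K) ≤ ⟨j, h2⟩ from hij)
    · exact (hx.2 _).2
    · omega
    · exact le_rfl
  have yx : ∀ k : Fin P.K, y k = x k := fun k => by simp [hy]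
  have z1 : ∀ k, 0 < P.z k ∧ P.z k ≤ 1 := fun k => ⟨h.pos k, z_le_one h k⟩
  have y2 : ∀ k, 0 < y k ∧ y k ≤ 1 := fun k => ⟨ha.trans_le (y1 k).1, (y1 k).2⟩
  have h1 := hS P.K hK P.z y h.mono ym z1 y2
  have hQ := mk_ok hK (z := fun k => (P.z k + y k) / 2)
    (fun i j hij => by have := h.mono hij; have := ym hij; dsimp only; linarith)
    (fun k => ⟨by linarith [(z1 k).1, (y2 k).1], by linarith [(z1 k).2, (y2 k).2]⟩)
  have h2 := min_le hβ0 hG hQ
  have e1 : (mk P.K fun k => (P.z k + y k) / 2).val β =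
      PG β fun k : Fin P.K => (P.z k + y k) / 2 := by
    rw [← G1.val_lst hQ hβ0, PG_eq hβ0 hK]
    exact congrArg _ (mk_lst β P.K _)
  have e2 : P.val β = PG β fun k : Fin P.K => P.z k := by
    rw [← G1.val_lst h hβ0, PG_eq hβ0 hK]; rfl
  have e3 : x = fun k : Fin P.K => y k := funext fun k => (yx k).symm
  set m := ⌊P.K * a / (8 * C)⌋₊ with hm
  have m1 : (m : ℝ) ≤ P.K * a / (8 * C) := Nat.floor_le (by positivity)
  have m2 : P.K * a / (8 * C) < m + 1 := Nat.lt_floor_add_one _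
  have m3 : P.K * a / (16 * C) ≤ m := by
    have e : P.K * a / (8 * C) = 2 * (P.K * a / (16 * C)) := by field_simp; ring
    have : 1 ≤ P.K * a / (16 * C) := by rw [le_div_iff₀ (by positivity)]; linarith
    linarith
  have m4 : (m : ℝ) * (8 * C) ≤ P.K * a := by rwa [le_div_iff₀ (by positivity)] at m1
  have m5 : 2 * m ≤ P.K := by
    have : (2 * m : ℝ) ≤ P.K := by nlinarith [Nat.cast_nonneg (α := ℝ) m]
    exact_mod_cast this
  have h3 := sq_sum_ge m5 (v := β ^ 2 / P.K) (b := a / 2) (by positivity) (by positivity)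
    (fun j => y j - P.z j) fun j hj => by
      have hj' : (j : ℝ) ≤ 2 * m := by exact_mod_cast hj.le
      have hjK : (j : ℝ) / P.K ≤ 1 := by
        rw [div_le_one hK']; exact_mod_cast (by omega : j ≤ P.K)
      have := hG.zlin (j / P.K) ⟨by positivity, hjK⟩
      rw [Par.zeta, div_mul_cancel₀ _ hK'.ne', Nat.floor_natCast] at this
      have h4 : C * (j / P.K) ≤ a / 4 := by
        rw [← mul_div_assoc, div_le_iff₀ hK']
        nlinarith
      linarith [(y1 j).1]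
  have h5 : a * (β ^ 2 / (16 * C)) ≤ m * (β ^ 2 / P.K) := by
    have := mul_le_mul_of_nonneg_right m3 (show 0 ≤ β ^ 2 / P.K by positivity)
    refine le_trans (le_of_eq ?_) this
    field_simp
  have h6 := pow_le_pow_left₀ (by positivity) h5 3
  have h7 : (β ^ 2 / (16 * C)) ^ 3 / 8 * a ^ 5 ≤ (m * (β ^ 2 / P.K)) ^ 3 * (a / 2) ^ 2 / 2 := by
    have := mul_le_mul_of_nonneg_right h6 (show 0 ≤ (a / 2) ^ 2 / 2 by positivity)
    refine le_trans (le_of_eq ?_) (this.trans (le_of_eq ?_)) <;> ring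
  have h8 := mul_le_mul_of_nonneg_left (h7.trans h3) hc0.le
  have e4 : ∑ k : Fin P.K, (P.z k + y k) / 2 * ((2 * (k : ℕ) + 1) / (P.K : ℝ) ^ 2) =
      (∑ k : Fin P.K, P.z k * ((2 * (k : ℕ) + 1) / (P.K : ℝ) ^ 2) +
        ∑ k : Fin P.K, y k * ((2 * (k : ℕ) + 1) / (P.K : ℝ) ^ 2)) / 2 := by
    rw [← Finset.sum_add_distrib, Finset.sum_div]
    exact Finset.sum_congr rfl fun k _ => by ring
  rw [e1, e2] at h2
  rw [e2, e3]
  simp only [PG] at h2 ⊢
  rw [e4] at h2
  nlinarith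

/-- Guerra's bound at the tilt `0` -/
theorem guerra0 {n : ℕ} (hn : 0 < n) {β : ℝ} (hβ : 0 < β) {P : Par} (h : P.OK) :
    X (fun _ => 1) [wl n β 1 0] 0 ≤ n * P.val β := by
  have h1 := (G1.g1_lst hn hβ (G1.isJ_Jw hn β) h).phi_le 1 zero_le_one le_rfl
  have h2 := C.X_of_zero (fun _ : Cube n => (1 : ℝ)) (L := G1.FL n √(1 - 1) (P.lst β P.K))
    (fun l hl x i => by
      obtain ⟨p, _, rfl⟩ := List.mem_map.1 hl
      simp) []
  rw [List.append_nil] at h2
  rw [G1.phi, G1.Lt, C.X_cons, h2, ← C.X_cons, one_mul, sub_zero] at h1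
  rw [← G1.val_lst h hβ]
  exact h1

/-- convexity in the root tilt -/
theorem conv_root (n : ℕ) (β : ℝ) :
    ConvexOn ℝ (Icc 0 1) fun m => X (fun _ => 1) [wl n β 1 m] 0 := by
  have h := tiltStmt (Cube n) (fun _ => 1) Link33.wt1 [(wl n β 1 0, 1)] 0 1 (fun p hp t ht => by
    rw [List.mem_singleton.1 hp]; simpa using ht.1)
  refine ⟨convex_Icc _ _, fun u hu v hv s t hs ht hst => ?_⟩
  have := h.2 (show ((0 : Cube n → ℝ), u) ∈ _ from ⟨mem_univ _, hu⟩)
    (show ((0 : Cube n → ℝ), v) ∈ _ from ⟨mem_univ _, hv⟩) hs ht hst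
  have e : ∀ m, tl [(wl n β 1 0, 1)] m = [wl n β 1 m] := fun m => by
    show [(⟨_, _, 0 + m * 1⟩ : Lv (Cube n))] = _
    rw [zero_add, mul_one]
  simpa only [e, Prod.smul_mk, Prod.mk_add_mk, smul_zero, add_zero] using this

theorem ev_gap {γ A : ℝ} (hγ : 0 < γ) (β : ℝ) :
    ∀ᶠ n : ℕ in atTop, A * (1 + log (1 + β ^ 2 * n)) ^ 4 ≤ (n : ℝ) ^ γ := by
  have h1 : ∀ᶠ n : ℕ in atTop, (1 + log (1 + β ^ 2 * n)) ≤
      (1 + 8 / γ * (1 + β ^ 2) ^ (γ / 8)) * (n : ℝ) ^ (γ / 8) := by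
    filter_upwards [eventually_ge_atTop 1] with n hn
    have hn' : (1 : ℝ) ≤ n := by exact_mod_cast hn
    have h2 := Real.log_le_rpow_div (x := 1 + β ^ 2 * n) (by positivity) (show 0 < γ / 8 by positivity)
    have h3 : (1 + β ^ 2 * n) ^ (γ / 8) ≤ (1 + β ^ 2) ^ (γ / 8) * (n : ℝ) ^ (γ / 8) := by
      rw [← Real.mul_rpow (by positivity) (by positivity)]
      exact Real.rpow_le_rpow (by positivity) (by nlinarith [sq_nonneg β]) (by positivity)
    have h4 : 1 ≤ (n : ℝ) ^ (γ / 8) := Real.one_le_rpow hn' (by positivity)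
    have h5 : (1 + β ^ 2 * n) ^ (γ / 8) / (γ / 8) ≤
        8 / γ * ((1 + β ^ 2) ^ (γ / 8) * (n : ℝ) ^ (γ / 8)) := by
      rw [div_div_eq_mul_div, mul_div_assoc, mul_comm]
      exact mul_le_mul_of_nonneg_left h3 (by positivity)
    nlinarith
  have h6 := ((tendsto_rpow_atTop (show 0 < γ / 2 by positivity)).comp
    tendsto_natCast_atTop_atTop).eventually_ge_atTop
      (|A| * (1 + 8 / γ * (1 + β ^ 2) ^ (γ / 8)) ^ 4)
  filter_upwards [h1, h6, eventually_ge_atTop 1] with n h1 h6 hn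
  have hn' : (0 : ℝ) < n := by exact_mod_cast hn
  have h0 : 0 ≤ 1 + log (1 + β ^ 2 * n) := by
    have := Real.log_nonneg (show 1 ≤ 1 + β ^ 2 * n by nlinarith [sq_nonneg β])
    linarith
  have h7 := pow_le_pow_left₀ h0 h1 4
  have e : ((n : ℝ) ^ (γ / 8)) ^ 4 = (n : ℝ) ^ (γ / 2) := by
    rw [← Real.rpow_natCast, ← Real.rpow_mul hn'.le]; congr 1; push_cast; ring
  have e2 : (n : ℝ) ^ γ = (n : ℝ) ^ (γ / 2) * (n : ℝ) ^ (γ / 2) := by
    rw [← Real.rpow_add hn']; congr 1; ring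
  rw [mul_pow, e] at h7
  have h8 : A * (1 + log (1 + β ^ 2 * n)) ^ 4 ≤ |A| * (1 + log (1 + β ^ 2 * n)) ^ 4 :=
    mul_le_mul_of_nonneg_right (le_abs_self A) (by positivity)
  have h9 := mul_le_mul_of_nonneg_left h7 (abs_nonneg A)
  have h10 := mul_le_mul_of_nonneg_right h6 (show 0 ≤ (n : ℝ) ^ (γ / 2) by positivity)
  simp only [Function.comp] at h10
  rw [e2]
  nlinarith

/-- the estimate at one size -/
theorem low_one {β c' C η D : ℝ} (hβ : 0 < β) {n : ℕ} (hn : 0 < n) {P : Par} (h : P.OK) {a a₁ : ℝ}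
    (h1 : 0 < a₁) (h2 : 2 * a₁ ≤ a) (h3 : a ≤ 1) {p : ℝ} (h4 : P.val β + c' * a ^ 5 - 2 * η ≤ p)
    (h5 : n * p - D ≤ X (fun _ => 1) [wl n β 1 a] 0) (h6 : 0 ≤ C)
    (h7 : C + 2 * n * η + D ≤ n * (c' * a ^ 5)) :
    C / 2 ≤ Soft.psi n β a - Soft.psi n β a₁ := by
  have ha : 0 < a := by linarith
  rw [Link33.psi_eq n β a hn ha.ne', Link33.psi_eq n β a₁ hn h1.ne']
  have g0 := guerra0 hn hβ h
  have t1 : a₁ / a ≤ 1 / 2 := by rw [div_le_iff₀ ha]; linarith
  have t0 : 0 ≤ a₁ / a := by positivity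
  have cv := (conv_root n β).2 (show (0 : ℝ) ∈ Icc 0 1 from ⟨le_rfl, zero_le_one⟩)
    (show a ∈ Icc 0 1 from ⟨ha.le, h3⟩) (show 0 ≤ 1 - a₁ / a by linarith) t0 (by ring)
  simp only [smul_eq_mul, mul_zero, zero_add, div_mul_cancel₀ _ ha.ne'] at cv
  have hn' : (0 : ℝ) ≤ n := Nat.cast_nonneg n
  have h8 := mul_le_mul_of_nonneg_left h4 hn'
  have h9 : C ≤ X (fun _ => 1) [wl n β 1 a] 0 - X (fun _ => 1) [wl n β 1 0] 0 := by nlinarith
  nlinarith

set_option maxHeartbeats 1600000 in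
/-- **the lower bound** -/
theorem lowSk (hD : DnStmt) (hS : ScStmt) {β : ℝ} (hβ : 1 < β) : LowSk β := by
  have hβ0 : 0 < β := by linarith
  obtain ⟨c, C, -, -, hC, K0, hP⟩ := parStmt β hβ
  obtain ⟨c', hc', hM⟩ := mf5 hS hβ hC
  obtain ⟨D, hD0, hD⟩ := hD β hβ0
  refine ⟨c' / 4, by positivity, fun k δ s₁ hk hδ hs₁ => ?_⟩
  have k0 : 0 < k := by linarith
  have T := fun {γ : ℝ} (hγ : 0 < γ) (A : ℝ) => ((tendsto_rpow_atTop hγ).comp
    tendsto_natCast_atTop_atTop).eventually_ge_atTop A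
  filter_upwards [ev_gap (A := D * δ ^ (-(2 / 3) : ℝ) / (c' / 8 * δ ^ 5))
      (show 0 < 17 * k / 3 - 5 / 18 by linarith) β,
    ev_gap (A := D * δ ^ (-2 : ℝ) / (c' / 8 * δ ^ 5)) (show 0 < 7 * k - 1 / 6 by linarith) β,
    T k0 ((2 * s₁ + 1) / δ), T (show (0:ℝ) < 1 / 6 by norm_num) (2 * C / (c' / 4)),
    T (show (0:ℝ) < 5 / 6 by norm_num) (16 * C), T one_pos (β ^ 2), eventually_ge_atTop K0,
    eventually_ge_atTop 1] with n g1 g2 g3 g4 g5 g6 g7 hn s hs hs'
  simp only [Function.comp, rpow_one] at g3 g4 g5 g6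
  have hn1 : (1 : ℝ) ≤ n := by exact_mod_cast hn
  have hn0 : (0 : ℝ) < n := by linarith
  set e := (n : ℝ) ^ (-(1 : ℝ) / 6) with he
  have e0 : 0 < e := by positivity
  have e1 : (n : ℝ) ^ (1 / 6 : ℝ) * e = 1 := by
    rw [he, ← rpow_add hn0]; norm_num
  have e2 : (n : ℝ) * e = (n : ℝ) ^ (5 / 6 : ℝ) := by
    rw [he, ← rpow_one_add' hn0.le (by norm_num)]; norm_num
  have e5 : (n : ℝ) * e ^ 5 = (n : ℝ) ^ (1 / 6 : ℝ) := by
    rw [he, ← rpow_natCast, ← rpow_mul hn0.le, ← rpow_one_add' hn0.le (by norm_num)]; norm_num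
  rw [div_le_iff₀ hδ] at g3
  have s1 : 2 * s₁ + 1 ≤ s := by linarith
  have s0 : 1 ≤ s := by linarith
  have a1 : s * e ≤ 1 := by rw [← e1]; gcongr
  have a0 : 0 < s * e := by positivity
  have hK8 : n ≤ n ^ 8 := Nat.le_self_pow (by norm_num) n
  obtain ⟨P, pK, pO, pG⟩ := hP (n ^ 8) (g7.trans hK8)
  have eη : C * ((n ^ 8 : ℕ) : ℝ) ^ (-(1 / 8 : ℝ)) = C / n := by
    rw [Nat.cast_pow, ← rpow_natCast, ← rpow_mul hn0.le]
    norm_num
    rw [rpow_neg_one, div_eq_mul_inv]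
  rw [eη] at pG
  have ne : 16 * C ≤ n * (s * e) := by
    rw [mul_left_comm, e2]
    exact g5.trans (le_mul_of_one_le_left (by positivity) s0)
  have nK : (n : ℝ) * n ≤ P.K := by
    rw [pK]
    have : n ^ 2 ≤ n ^ 8 := Nat.pow_le_pow_right hn (by norm_num)
    rw [← sq]; exact_mod_cast this
  obtain ⟨x, hx, hX⟩ := hD n hn (s * e) a0 a1 P.K pO.Kpos
    ((mul_le_mul_of_nonneg_right g6 hn0.le).trans nK)
  have hm := hM c (C / n) P pO pG (s * e) a1
    (by rw [← mul_div_assoc, div_le_iff₀ hn0]; linarith)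
    (ne.trans (mul_le_mul_of_nonneg_right ((le_mul_of_one_le_left hn0.le hn1).trans nK) a0.le)) x hx
  set Λ := (1 + log (1 + β ^ 2 * n)) ^ 4 with hΛ
  have Λ0 : 0 ≤ Λ := by positivity
  have b0 : δ * (n : ℝ) ^ (k - 1 / 6) ≤ s * e := by
    have : (n : ℝ) ^ (k - 1 / 6) = (n : ℝ) ^ k * e := by
      rw [he, ← rpow_add hn0]; congr 1; ring
    rw [this, ← mul_assoc]; gcongr
  have b1 : ∀ r : ℝ, r ≤ 0 → (s * e) ^ r ≤ δ ^ r * (n : ℝ) ^ ((k - 1 / 6) * r) := fun r hr => by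
    rw [rpow_mul hn0.le, ← mul_rpow hδ.le (by positivity)]
    exact rpow_le_rpow_of_nonpos (by positivity) b0 hr
  have b2 : δ ^ 5 * (n : ℝ) ^ (5 * k + 1 / 6) ≤ s ^ 5 * (n : ℝ) ^ (1 / 6 : ℝ) := by
    rw [rpow_add hn0, ← mul_assoc, mul_comm 5 k, rpow_mul hn0.le,
      show (5 : ℝ) = (5 : ℕ) by norm_num, rpow_natCast, ← mul_pow]
    gcongr
  have cδ : 0 < c' / 8 * δ ^ 5 := by positivity
  have d1 : D * Λ * ((n : ℝ) ^ (1 / 3 : ℝ) * (s * e) ^ (-(2 / 3) : ℝ)) ≤
      c' / 8 * (s ^ 5 * (n : ℝ) ^ (1 / 6 : ℝ)) := by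
    rw [div_mul_eq_mul_div, div_le_iff₀ cδ] at g1
    have q : (n : ℝ) ^ (5 * k + 1 / 6) = (n : ℝ) ^ (17 * k / 3 - 5 / 18) *
        ((n : ℝ) ^ (1 / 3 : ℝ) * (n : ℝ) ^ ((k - 1 / 6) * (-(2 / 3)))) := by
      rw [← rpow_add hn0, ← rpow_add hn0]; congr 1; ring
    calc _ ≤ D * Λ * ((n : ℝ) ^ (1 / 3 : ℝ) * (δ ^ (-(2 / 3) : ℝ) *
          (n : ℝ) ^ ((k - 1 / 6) * (-(2 / 3))))) := by
          have := b1 (-(2 / 3)) (by norm_num); gcongr
      _ = D * δ ^ (-(2 / 3) : ℝ) * Λ *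
          ((n : ℝ) ^ (1 / 3 : ℝ) * (n : ℝ) ^ ((k - 1 / 6) * (-(2 / 3)))) := by ring
      _ ≤ (n : ℝ) ^ (17 * k / 3 - 5 / 18) * (c' / 8 * δ ^ 5) *
          ((n : ℝ) ^ (1 / 3 : ℝ) * (n : ℝ) ^ ((k - 1 / 6) * (-(2 / 3)))) := by gcongr
      _ = c' / 8 * (δ ^ 5 * (n : ℝ) ^ (5 * k + 1 / 6)) := by rw [q]; ring
      _ ≤ _ := by gcongr
  have d2 : D * Λ * (s * e) ^ (-2 : ℝ) ≤ c' / 8 * (s ^ 5 * (n : ℝ) ^ (1 / 6 : ℝ)) := by
    rw [div_mul_eq_mul_div, div_le_iff₀ cδ] at g2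
    have q : (n : ℝ) ^ (5 * k + 1 / 6) = (n : ℝ) ^ (7 * k - 1 / 6) *
        (n : ℝ) ^ ((k - 1 / 6) * (-2)) := by
      rw [← rpow_add hn0]; congr 1; ring
    calc _ ≤ D * Λ * (δ ^ (-2 : ℝ) * (n : ℝ) ^ ((k - 1 / 6) * (-2))) := by
          have := b1 (-2) (by norm_num); gcongr
      _ = D * δ ^ (-2 : ℝ) * Λ * (n : ℝ) ^ ((k - 1 / 6) * (-2)) := by ring
      _ ≤ (n : ℝ) ^ (7 * k - 1 / 6) * (c' / 8 * δ ^ 5) * (n : ℝ) ^ ((k - 1 / 6) * (-2)) := by gcongr
      _ = c' / 8 * (δ ^ 5 * (n : ℝ) ^ (5 * k + 1 / 6)) := by rw [q]; ring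
      _ ≤ _ := by gcongr
  have d3 : 2 * C ≤ c' / 4 * (s ^ 5 * (n : ℝ) ^ (1 / 6 : ℝ)) := by
    rw [div_le_iff₀ (by positivity)] at g4
    have : 1 * (n : ℝ) ^ (1 / 6 : ℝ) ≤ s ^ 5 * (n : ℝ) ^ (1 / 6 : ℝ) := by
      gcongr; exact one_le_pow₀ s0
    have := mul_le_mul_of_nonneg_left this (show 0 ≤ c' / 4 by positivity)
    linarith
  have e6 : (n : ℝ) * (c' * (s * e) ^ 5) = c' * (s ^ 5 * (n : ℝ) ^ (1 / 6 : ℝ)) := by
    rw [← e5]; ring
  have e7 : 2 * (n : ℝ) * (C / n) = 2 * C := by field_simp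
  have key := low_one (C := c' / 2 * (s ^ 5 * (n : ℝ) ^ (1 / 6 : ℝ))) hβ0 hn pO
    (a₁ := s₁ * e) (by positivity)
    (by rw [← mul_assoc]; exact mul_le_mul_of_nonneg_right (by linarith) e0.le) a1 hm hX (by positivity)
    (by rw [e6, e7, mul_add]; linarith)
  have := mul_le_mul_of_nonneg_left key e0.le
  rw [Soft.Ln, ← he]
  refine le_trans (le_of_eq ?_) this
  calc c' / 4 * s ^ 5 = c' / 4 * s ^ 5 * ((n : ℝ) ^ (1 / 6 : ℝ) * e) := by rw [e1, mul_one]
    _ = _ := by ring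

/-- **unconditional** -/
theorem low {β : ℝ} (hβ : 1 < β) : LowSk β := lowSk Sy41.dn_sk scStmt hβ

/-- the form of `Clo_5.key_of_cls'` (`q = 5`) -/
theorem low_cls {β : ℝ} (hβ : 1 < β) : ∃ c : ℝ, 0 < c ∧ ∀ k s₁ : ℝ, 5 / 102 < k → k ≤ 1 / 6 → 0 < s₁ →
    ∀ δ : ℝ, 0 < δ → δ ≤ 1 → ∃ᶠ n : ℕ in atTop,
      c * (δ * (n : ℝ) ^ k) ^ (5 : ℝ) ≤ Soft.Ln n β s₁ (δ * (n : ℝ) ^ k) := by
  obtain ⟨c, hc, h⟩ := low hβ
  refine ⟨c, hc, fun k s₁ hk hk' hs δ hδ hδ' => Eventually.frequently ?_⟩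
  filter_upwards [h k δ s₁ hk hδ hs, eventually_ge_atTop 1] with n hn h1
  have hn1 : (1 : ℝ) ≤ n := by exact_mod_cast h1
  rw [show (5 : ℝ) = (5 : ℕ) by norm_num, rpow_natCast]
  exact hn _ le_rfl ((mul_le_of_le_one_left (by positivity) hδ').trans
    (rpow_le_rpow_of_exponent_le hn1 hk'))


end Crest.Agent.T156.Cas.Low76

end
end

-- ▼ part T156/AltLow_76
section

/-!
# Row 156 (helper76): the block `LowS` of `AltDef_88`
-/

set_option autoImplicit false

namespace Crest.Agent.T156.Alt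

theorem lowS {β : ℝ} (hβ : 1 < β) : LowS β := by
  obtain ⟨c, hc, h⟩ := Cas.Low76.low_cls hβ
  exact ⟨c, hc, h (1 / 19) 1 (by norm_num) (by norm_num) one_pos⟩

end Crest.Agent.T156.Alt
end

-- ▼ part T156/ChainS_26
section

/-!
# Row 156: the chain for an arbitrary class of models, `Q s²`-form with total variance `n^{1/12}` (helper26, after helper11)

The class is any set `T` of indices; every size `m ∈ [n, 2 n]`; the errors are measured by `Q` with
`(a' - a) W ≤ Q²` on the whole class.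
-/

set_option autoImplicit false
set_option linter.unusedSectionVars false

noncomputable section

namespace Crest.Agent.T156.Cas.Chain26

open MeasureTheory Real Set Filter Topology
open Crest.Agent.T157.E Crest.Agent.T157.Casc Crest.Agent.T157.SL
open Crest.Agent.T156.Soft Crest.Agent.T156.Soft.Fin26 Crest.Agent.T156.Cas.Flow26

/-! ### the class -/

section
variable (β : ℝ) (n : ℕ) {ι : Type} (T : Set ι) (l : ∀ m, ι → Lv (Cube m))
  (L : ∀ m, ι → List (Lv (Cube m)))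

/-- every member of the class is close to SK of the same size; the flow in the size runs at `t₁` -/
structure ChnS (t₁ : ι) (a₀ A M δ s : ℝ) : Prop where
  m1 : t₁ ∈ T
  var : ∀ m, n ≤ m → m ≤ 2 * n → ∀ t ∈ T, ∀ x, (l m t).cov x x ≤ M * m
  good : ∀ m, n ≤ m → m < 2 * n → Good (fun _ => 1) (l m t₁) (L m t₁) 0 A (M * (n : ℝ) ^ ((1 : ℝ) / 12) * m)
  path : ∀ a a' Q : ℝ, a₀ ≤ a → a ≤ a' → a' ≤ A → 0 ≤ Q → WBq β n T l L a a' Q →
    ∀ m, n ≤ m → m ≤ 2 * n → ∀ t ∈ T,
      Cl a a' (δ * (n : ℝ) ^ ((1 : ℝ) / 6) * (Q * s ^ 2 + s ^ 5)) (Vv (l m t) (L m t)) (Vv (wl m β 1 1) [])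
  flow : ∀ a a' Q : ℝ, a₀ ≤ a → a ≤ a' → a' ≤ A → 0 ≤ Q → WBq β n T l L a a' Q →
    ∀ m, n ≤ m → m < 2 * n →
      |Kv (l m t₁) (L m t₁) (l (m + 1) t₁) (L (m + 1) t₁) a' -
        Kv (l m t₁) (L m t₁) (l (m + 1) t₁) (L (m + 1) t₁) a| ≤
          δ * (n : ℝ) ^ (-(5 : ℝ) / 6) * (Q * s ^ 2 + s ^ 5)

end

/-- **the class gives the hypothesis of the closure** (`l = 4`, `r = 1`, `C' = 5`) -/
theorem cls_of_chnS {β c k D M : ℝ} {J n₀ : ℕ} (hc : 0 < c) (hc' : c ≤ 1 / 12)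
    (hk : 0 < k) (hJ : 1 + k ≤ c * J) (hD : 0 ≤ D) (hM : 0 ≤ M) (hn₀ : 1 ≤ n₀)
    (hA : ∀ n : ℕ, n₀ ≤ n → 4 ^ J * (n : ℝ) ^ k * (n : ℝ) ^ (-(1 : ℝ) / 6) ≤ 1)
    (H : ∀ n : ℕ, n₀ ≤ n → ∀ s ∈ Icc 1 ((n : ℝ) ^ k),
      ∃ (ι : Type) (T : Set ι) (t₁ : ι) (l : ∀ m, ι → Lv (Cube m))
        (L : ∀ m, ι → List (Lv (Cube m))) (a₀ A : ℝ), a₀ ≤ (n : ℝ) ^ (-(1 : ℝ) / 6) / 2 ∧
        4 ^ J * s * (n : ℝ) ^ (-(1 : ℝ) / 6) ≤ A ∧
        ChnS β n T l L t₁ a₀ A M (D * (n : ℝ) ^ (-c)) s) :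
    Cls (fun n => Ln n β 1) 1 4 (M + β ^ 2) 1 (5 * (D * (12 + 4 ^ J + 1)) + 4 * M) c k 5 J n₀ := by
  have lnc : ∀ m : ℕ, 0 < m → ∀ u, 1 ≤ u →
      Ln m β 1 u = crv m 1 (fun _ => 1) (wl m β 1 1) [] 0 u := fun m hm u hu =>
    Ln_eq_crv hm β 1 one_ne_zero (by linarith)
  have triv : ∀ (m : ℕ) (l : Lv (Cube m)) (L : List (Lv (Cube m))) (K : ℝ), 0 < m → 0 ≤ K →
      (∀ x, l.cov x x ≤ K * m) → ∀ u, 1 ≤ u → crv m 1 (fun _ => 1) l L 0 u ≤ K / 2 * u * m := by
    intro m l L K hm hK hv u hu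
    refine (crv_le' (wt1 m) hm l L 0 (by positivity) hv hu).trans ?_
    nlinarith [show 0 ≤ K * m by positivity]
  refine ⟨le_rfl, by norm_num, hc, hk, zero_le_one, by norm_num, hJ, fun n hn s hs => ?_,
    fun n n' hn h1 h2 s hs => ?_⟩
  · have n0 : 0 < n := by omega
    rw [lnc n n0 s hs, rpow_one]
    refine (triv n _ _ _ n0 (by positivity) (wl_var n0 β) s hs).trans ?_
    have : 0 < s := by linarith
    gcongr
    nlinarith [sq_nonneg β]
  obtain ⟨ι, T, t₁, l, L, a₀, A, ha₀, hA', h⟩ := H n hn s hs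
  have n1 : 1 ≤ n := hn₀.trans hn
  have n0 : 0 < n := n1
  have nR : (1 : ℝ) ≤ n := by exact_mod_cast n1
  have h12 : n ≤ 2 * n := by omega
  set cv : ∀ m, ι → ℝ → ℝ := fun m t => crv m 1 (fun _ => 1) (l m t) (L m t) 0 with hcv
  refine ⟨{f | ∃ m, n ≤ m ∧ m ≤ 2 * n ∧ (f = (fun u => Ln m β 1 u) ∨ ∃ t ∈ T, f = cv m t)},
    ⟨n', h1, h2, Or.inl rfl⟩, ?_, ?_⟩
  · rintro f ⟨m, a1, a2, rfl | ⟨t, ht, rfl⟩⟩ u hu <;> rw [rpow_one]
    · have m0 : 0 < m := by omega
      show Ln m β 1 u ≤ _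
      rw [lnc m m0 u hu.1]
      refine (triv m _ _ _ m0 (by positivity) (wl_var m0 β) u hu.1).trans ?_
      have mR : (m : ℝ) ≤ 2 * n := by exact_mod_cast a2
      have u0 : 0 < u := by linarith [hu.1]
      nlinarith [mul_nonneg (mul_nonneg (sq_nonneg β) u0.le) (sub_nonneg.2 mR),
        mul_nonneg (mul_nonneg hM u0.le) (show (0 : ℝ) ≤ n by linarith),
        mul_nonneg (mul_nonneg (sq_nonneg β) u0.le) (show (0 : ℝ) ≤ n by linarith)]
    · refine (triv m _ _ _ (by omega) hM (h.var m a1 a2 t ht) u hu.1).trans ?_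
      have mR : (m : ℝ) ≤ 2 * n := by exact_mod_cast a2
      have u0 : 0 < u := by linarith [hu.1]
      nlinarith [mul_nonneg (mul_nonneg hM u0.le) (sub_nonneg.2 mR),
        mul_nonneg (mul_nonneg (sq_nonneg β) u0.le) (show (0 : ℝ) ≤ n by linarith)]
  intro u hu B B0 hB
  set σ := (n : ℝ) ^ (-(1 : ℝ) / 6) with hσ
  set ρ := ((2 * n : ℕ) : ℝ) ^ (-(1 : ℝ) / 6) with hρ
  have σ0 : 0 < σ := rpow_pos_of_pos (by linarith) _
  have ρ0 : 0 < ρ := rpow_pos_of_pos (by exact_mod_cast (by omega : 0 < 2 * n)) _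
  have ρσ : ρ ≤ σ := tau_le n1 h12
  have σρ : σ ≤ 2 * ρ := tau_ge (by omega) n1 le_rfl
  have u1 : 1 ≤ u := hu.1
  have u0 : 0 < u := by linarith
  have u4 : 4 * u ∈ Icc 1 (4 * u) := ⟨by linarith, le_rfl⟩
  have lo : a₀ ≤ 1 * ρ := by linarith
  have hi : u * σ ≤ A := (mul_le_mul_of_nonneg_right hu.2 σ0.le).trans hA'
  have lh : 1 * ρ ≤ u * σ := by gcongr
  set Q := √(12 * u * B) with hQ
  have Q0 : 0 ≤ Q := sqrt_nonneg _
  have s1 : 1 ≤ s := hs.1
  have s5 : s ≤ s ^ 5 := le_self_pow₀ s1 (by norm_num)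
  have e5 : s ^ (5 : ℝ) = s ^ 5 := by exact_mod_cast Real.rpow_natCast s 5
  set ε := D * (n : ℝ) ^ (-c) with hε
  have ε0 : 0 ≤ ε := by positivity
  set K := (12 : ℝ) + 4 ^ J + 1 with hK
  have p4 : (0 : ℝ) < 4 ^ J := by positivity
  have QK : Q * s ^ 2 + s ^ 5 ≤ K * (B + s ^ 5) := by
    have : Q * s ^ 2 ≤ 12 * B + u * s ^ 4 := by
      have e : Q * s ^ 2 = √(u * s ^ 4 * (12 * B)) := by
        rw [hQ, show u * s ^ 4 * (12 * B) = 12 * u * B * (s ^ 2) ^ 2 by ring,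
          sqrt_mul' _ (sq_nonneg _), sqrt_sq (sq_nonneg _)]
      rw [e]
      exact sqrt_le_lin (by positivity) (by positivity)
    have h3 : u * s ^ 4 ≤ 4 ^ J * s ^ 5 :=
      (mul_le_mul_of_nonneg_right hu.2 (by positivity)).trans_eq (by ring)
    rw [hK]
    nlinarith [mul_nonneg p4.le B0]
  have wd : ∀ m, n ≤ m → m ≤ 2 * n → ∀ (l' : Lv (Cube m)) (L' : List (Lv (Cube m))),
      crv m 1 (fun _ => 1) l' L' 0 (4 * u) ≤ B → ∀ a a', 1 * ρ ≤ a → a ≤ a' → a' ≤ u * σ →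
      (a' - a) * Wd (fun _ => 1) l' L' 0 a a' ≤ Q ^ 2 := by
    intro m a1 a2 l' L' hb a a' b1 b2 b3
    have k1 := (Wd_mono (wt1 m) l' L' 0 b1 b3).trans
      (Wd_of_crv n1 a1 a2 le_rfl l' L' one_pos u1 hb)
    rw [hQ, sq_sqrt (by positivity)]
    refine (mul_le_mul (show a' - a ≤ u * σ by linarith) k1 (Wd_nonneg (wt1 m) l' L' 0 b2)
      (by positivity)).trans_eq ?_
    rw [← hσ]
    field_simp
  have wb : ∀ a a', 1 * ρ ≤ a → a ≤ a' → a' ≤ u * σ → WBq β n T l L a a' Q := by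
    intro a a' b1 b2 b3 m a1 a2
    refine ⟨wd m a1 a2 _ _ ?_ a a' b1 b2 b3, fun t ht => wd m a1 a2 _ _
      (hB (cv m t) ⟨m, a1, a2, Or.inr ⟨t, ht, rfl⟩⟩ _ u4) a a' b1 b2 b3⟩
    rw [← lnc m (by omega) _ u4.1]
    exact hB (fun u => Ln m β 1 u) ⟨m, a1, a2, Or.inl rfl⟩ _ u4
  have σ6 : σ * (n : ℝ) ^ ((1 : ℝ) / 6) = 1 := by
    rw [hσ, ← Real.rpow_add (by linarith)]
    norm_num
  set e := ε * K * (B + s ^ 5) with he
  have e0 : 0 ≤ e := by positivity
  have σe : σ * (ε * (n : ℝ) ^ ((1 : ℝ) / 6) * (Q * s ^ 2 + s ^ 5)) ≤ e := by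
    calc _ = σ * (n : ℝ) ^ ((1 : ℝ) / 6) * (ε * (Q * s ^ 2 + s ^ 5)) := by ring
      _ ≤ 1 * (ε * (K * (B + s ^ 5))) := by rw [σ6]; gcongr
      _ = e := by rw [he]; ring
  have c1 : ∀ m, n ≤ m → m ≤ 2 * n → ∀ t ∈ T, |cv m t u - Ln m β 1 u| ≤ e := by
    intro m a1 a2 t ht
    have p1 : (m : ℝ) ^ (-(1 : ℝ) / 6) ≤ σ := tau_le n1 a1
    have p2 : ρ ≤ (m : ℝ) ^ (-(1 : ℝ) / 6) := tau_le (n1.trans a1) a2
    have p3 : 0 ≤ (m : ℝ) ^ (-(1 : ℝ) / 6) := ρ0.le.trans p2
    have b1 : 1 * ρ ≤ 1 * (m : ℝ) ^ (-(1 : ℝ) / 6) := by gcongr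
    have b2 : 1 * (m : ℝ) ^ (-(1 : ℝ) / 6) ≤ u * (m : ℝ) ^ (-(1 : ℝ) / 6) := by gcongr
    have b3 : u * (m : ℝ) ^ (-(1 : ℝ) / 6) ≤ u * σ := by gcongr
    have k := h.path _ _ Q (lo.trans b1) b2 (b3.trans hi) Q0 (wb _ _ b1 b2 b3) m a1 a2 t ht
    rw [lnc m (by omega) u u1, hcv]
    unfold crv
    simp only
    rw [← mul_sub, abs_mul, abs_of_nonneg p3]
    exact (mul_le_mul p1 k (abs_nonneg _) σ0.le).trans σe
  have c3 : ∀ m, n ≤ m → m ≤ 2 * n →
      |cv m t₁ u - cv n t₁ u| ≤ 2 * e + 4 * M * (n : ℝ) ^ (-c) * (B + s ^ 5) := by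
    intro m a1 a2
    have fl := flowT_of_good (w := fun m _ => 1) (l := fun m => l m t₁) (L := fun m => L m t₁)
      (h := fun _ => 0) (κ := fun m => Kv (l m t₁) (L m t₁) (l (m + 1) t₁) (L (m + 1) t₁) (1 * ρ))
      (n := n) (n' := 2 * n) (a₀ := 1 * ρ) (a₁ := u * σ) (M := M * (n : ℝ) ^ ((1 : ℝ) / 12))
      (e := ε * (n : ℝ) ^ (-(5 : ℝ) / 6) * (Q * s ^ 2 + s ^ 5))
      (by positivity) (fun m b1 b2 => Good.anti (h.good m b1 b2) hi)
      (fun m b1 b2 a ha => h.flow _ a Q lo ha.1 (ha.2.trans hi) Q0 (wb _ _ le_rfl ha.1 ha.2) m b1 b2)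
    have k := flowT_tele fl n1 le_rfl (by positivity) (by positivity) (by positivity) one_pos u1 le_rfl le_rfl
      a1 a2
    refine le_trans k ?_
    have q6 : (n : ℝ) * (ε * (n : ℝ) ^ (-(5 : ℝ) / 6) * (Q * s ^ 2 + s ^ 5)) =
        ε * (n : ℝ) ^ ((1 : ℝ) / 6) * (Q * s ^ 2 + s ^ 5) := by
      rw [show (1 : ℝ) / 6 = 1 + -(5 : ℝ) / 6 by norm_num, Real.rpow_add (by linarith), rpow_one]
      ring
    rw [q6, ← hσ]
    have a3 : u * σ ≤ 1 := (mul_le_mul_of_nonneg_right hu.2 σ0.le).trans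
      (le_trans (by gcongr; exact hs.2) (hA n hn))
    have a4 : σ * (n : ℝ) ^ ((1 : ℝ) / 12) ≤ (n : ℝ) ^ (-c) := by
      rw [hσ, ← Real.rpow_add (by linarith)]
      exact Real.rpow_le_rpow_of_exponent_le nR (by linarith)
    have a5 : σ * (M * (n : ℝ) ^ ((1 : ℝ) / 12) * (1 + u * σ)) ≤
        (n : ℝ) ^ (-c) * (M * 2) * (B + s ^ 5) := by
      rw [show σ * (M * (n : ℝ) ^ ((1 : ℝ) / 12) * (1 + u * σ)) =
        σ * (n : ℝ) ^ ((1 : ℝ) / 12) * (M * (1 + u * σ)) by ring]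
      exact le_trans (by gcongr; linarith) (le_mul_of_one_le_right (by positivity) (by linarith))
    rw [mul_add σ]
    linarith
  have tot : (5 * (D * K) + 4 * M) * (n : ℝ) ^ (-c) * (B + s ^ (5 : ℝ)) =
      5 * e + 4 * M * (n : ℝ) ^ (-c) * (B + s ^ 5) := by
    rw [e5, he, hε]; ring
  have d1 := abs_le.1 (c1 n le_rfl h12 t₁ h.m1)
  rw [tot]
  rintro f ⟨m, a1, a2, rfl | ⟨t, ht, rfl⟩⟩
  · have d2 := abs_le.1 (c1 m a1 a2 t₁ h.m1)
    have d3 := abs_le.1 (c3 m a1 a2)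
    rw [abs_le]
    constructor <;> linarith [d1.1, d1.2, d2.1, d2.2, d3.1, d3.2]
  · have d2 := abs_le.1 (c1 m a1 a2 t₁ h.m1)
    have d3 := abs_le.1 (c3 m a1 a2)
    have d4 := abs_le.1 (c1 m a1 a2 t ht)
    rw [abs_le]
    constructor <;> linarith [d1.1, d1.2, d2.1, d2.2, d3.1, d3.2, d4.1, d4.2]

/-- **the class and the lower bound for the SK curve give `Key`**.  The window of root tilts must
contain `[n^{-1/6}/2, s n^{γ - 1/6}]` for some fixed `γ > 0`. -/
theorem key_of_chnS {β c k γ D M c₀ : ℝ} (hc : 0 < c) (hk : 0 < k) (hk' : k < 1 / 6) (hγ : 0 < γ)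
    (hD : 0 ≤ D) (hM : 0 ≤ M)
    (H : ∀ᶠ n : ℕ in atTop, ∀ s ∈ Icc 1 ((n : ℝ) ^ k),
      ∃ (ι : Type) (T : Set ι) (t₁ : ι) (l : ∀ m, ι → Lv (Cube m))
        (L : ∀ m, ι → List (Lv (Cube m))) (a₀ A : ℝ), a₀ ≤ (n : ℝ) ^ (-(1 : ℝ) / 6) / 2 ∧
        s * (n : ℝ) ^ (γ - 1 / 6) ≤ A ∧ ChnS β n T l L t₁ a₀ A M (D * (n : ℝ) ^ (-c)) s)
    (h0 : 0 < c₀) (hlb : ∀ δ : ℝ, 0 < δ → δ ≤ 1 → ∃ᶠ n : ℕ in atTop,
      c₀ * (δ * (n : ℝ) ^ k) ^ (5 : ℝ) ≤ Ln n β 1 (δ * (n : ℝ) ^ k)) : Key β := by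
  set c' := min c (1 / 12) with hc'
  have c0 : 0 < c' := lt_min hc (by norm_num)
  obtain ⟨J, hJ⟩ := exists_nat_ge ((1 + k) / c')
  obtain ⟨n₁, h₁⟩ := eventually_atTop.1 (H.and ((ev_small (c := 1 / 6 - k) (by linarith) (4 ^ J) 1
    one_pos).and ((ev_small hγ (4 ^ J) 1 one_pos).and (eventually_ge_atTop 1))))
  refine key_of_cls' (cls_of_chnS (c := c') (D := D) (J := J) (n₀ := max n₁ 1) c0 (min_le_right _ _) hk
    (by rwa [div_le_iff₀' c0] at hJ) hD hM (le_max_right _ _) (fun n hn => ?_) fun n hn s hs => ?_)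
    (by simpa using c0) h0 hlb
  · obtain ⟨-, a1, -, a2⟩ := h₁ n ((le_max_left _ _).trans hn)
    rw [mul_assoc, ← Real.rpow_add (by exact_mod_cast a2),
      show k + -(1 : ℝ) / 6 = -(1 / 6 - k) by ring]
    exact a1
  · obtain ⟨a0, -, a1, a2⟩ := h₁ n ((le_max_left _ _).trans hn)
    obtain ⟨ι, T, t₁, l, L, a₀, A, b1, b2, h⟩ := a0 s hs
    have nR : (1 : ℝ) ≤ n := by exact_mod_cast a2
    have s0 : 0 < s := by linarith [hs.1]
    have mono : D * (n : ℝ) ^ (-c) ≤ D * (n : ℝ) ^ (-c') :=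
      mul_le_mul_of_nonneg_left (Real.rpow_le_rpow_of_exponent_le nR
        (neg_le_neg (min_le_left _ _))) hD
    refine ⟨ι, T, t₁, l, L, a₀, A, b1, le_trans ?_ b2, h.m1, h.var, h.good,
      fun a a' Q e1 e2 e3 e4 e5 m e6 e7 t ht => (h.path a a' Q e1 e2 e3 e4 e5 m e6 e7 t ht).mono
        (by gcongr), fun a a' Q e1 e2 e3 e4 e5 m e6 e7 =>
          (h.flow a a' Q e1 e2 e3 e4 e5 m e6 e7).trans (by gcongr)⟩
    have e : (n : ℝ) ^ (-(1 : ℝ) / 6) = (n : ℝ) ^ (-γ) * (n : ℝ) ^ (γ - 1 / 6) := by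
      rw [← Real.rpow_add (by linarith)]
      congr 1
      ring
    rw [e]
    calc _ = 4 ^ J * (n : ℝ) ^ (-γ) * (s * (n : ℝ) ^ (γ - 1 / 6)) := by ring
      _ ≤ 1 * (s * (n : ℝ) ^ (γ - 1 / 6)) := by gcongr
      _ = _ := one_mul _

/-- **the row from any class**: `k = 1 / 19`, the signal is discharged -/
theorem key_of_chnS' {β c γ D M : ℝ} (hβ : 1 < β) (hc : 0 < c) (hγ : 0 < γ) (hD : 0 ≤ D)
    (hM : 0 ≤ M) (H : ∀ᶠ n : ℕ in atTop, ∀ s ∈ Icc 1 ((n : ℝ) ^ ((1 : ℝ) / 19)),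
      ∃ (ι : Type) (T : Set ι) (t₁ : ι) (l : ∀ m, ι → Lv (Cube m))
        (L : ∀ m, ι → List (Lv (Cube m))) (a₀ A : ℝ), a₀ ≤ (n : ℝ) ^ (-(1 : ℝ) / 6) / 2 ∧
        s * (n : ℝ) ^ (γ - 1 / 6) ≤ A ∧ ChnS β n T l L t₁ a₀ A M (D * (n : ℝ) ^ (-c)) s) :
    Key β := by
  obtain ⟨c₀, h0, hl⟩ := Alt.lowS hβ
  exact key_of_chnS hc (by norm_num) (by norm_num) hγ hD hM H h0 hl

end Crest.Agent.T156.Cas.Chain26

end
end

-- ▼ part T156/PrBase_85
section

/-!
Row 156, ALT, text (P) (helper85): existence of base profiles.  The grid minimiser on a very fine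
grid is sampled on a coarse grid; its labels are then exactly bi-Lipschitz at the grid scale.
-/

set_option autoImplicit false

namespace Crest.Agent.T156.Pr

open MeasureTheory Set Filter Topology
open Crest.Agent.R164.GC Crest.Agent.R339.B Crest.Agent.R339.Var Crest.Agent.T157.Pf
open Crest.Agent.T156.Pp (Dn Dn_one Dn_shift)

noncomputable section

namespace B85

variable {P : Par} {β : ℝ}

theorem lst_eq (P : Par) (β : ℝ) (N : ℕ) :
    lst P.z (fun j => j * (β ^ 2 / P.K)) N = P.lst β N := by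
  unfold lst Par.lst
  congr 1
  funext k
  congr 1
  push_cast
  ring

theorem GG_app (h : P.OK) (β : ℝ) {N M : ℕ} (hN : P.a ≤ N) (hNM : N ≤ M) {t : ℝ}
    (ht : t ≤ TT (P.lst β N)) : GG (P.lst β M) t = GG (P.lst β N) t := by
  obtain ⟨l', e, hl'⟩ := h.lst_add β hN hNM
  have hp : ∀ p ∈ P.lst β N, 0 < p.1 := fun p hp => (Adm.pos (h.adm β N) p hp).1
  obtain ⟨c, hc⟩ := PhiT_append one_pos hl' hp t
  unfold GG Et Dk
  rw [e, EX_append one_pos hl' hp ht, hc, Dn_shift]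

theorem GG_K (h : P.OK) (β : ℝ) {s : ℝ} (hs : s ≤ 1) :
    β ^ 2 * GG (P.lst β P.K) (β ^ 2 * s) = P.Gam' β s := by
  unfold Par.Gam'
  rw [h.E_eq β h.aK (mul_le_of_le_one_left h.Kp.le hs)]
  unfold GG Et Dk
  rw [Dn_one]
  rfl

/-- the replicon functional of the list is `Γ'` -/
theorem GG_par (h : P.OK) (β : ℝ) {N : ℕ} (hN : P.a ≤ N) {s : ℝ} (hs : s ≤ P.b) :
    β ^ 2 * GG (P.lst β N) (β ^ 2 * s) = P.Gam' β s := by
  have hK := h.Kp
  have h1 : s * P.K ≤ P.a := by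
    have := mul_le_mul_of_nonneg_right hs hK.le
    unfold Par.b at this
    rwa [div_mul_cancel₀ _ hK.ne'] at this
  rw [← GG_K h β (hs.trans h.b_le_one), GG_app h β le_rfl hN (h.le_TT β h1),
    GG_app h β le_rfl h.aK (h.le_TT β h1)]

/-- the coarse profile -/
def co (P : Par) (K M J : ℕ) : Par := ⟨K, J, fun j => if j < J then P.z (j * M) else 1⟩

theorem co_ok (h : P.OK) {K M J : ℕ} (hK : 0 < K) (hJ : J ≤ K) : (co P K M J).OK where
  Kpos := hK
  aK := hJ
  mono := fun i j hij => by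
    simp only [co]
    split_ifs with h1 h2 h2
    · exact h.mono (Nat.mul_le_mul_right _ hij)
    · exact h.le_one _
    · omega
    · exact le_rfl
  pos := fun k => by
    simp only [co]
    split_ifs
    · exact h.pos _
    · exact one_pos
  top := fun k hk => by
    simp only [co] at hk ⊢
    rw [if_neg (by omega)]

theorem z_eq (h : P.OK) {K M : ℕ} (hK : 0 < K) (hM : 0 < M) (e : P.K = K * M) (j : ℕ) :
    P.z (j * M) = P.zeta ((j : ℝ) / K) := by
  rw [← Str.zeta_grid h, e]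
  congr 1
  have : (0:ℝ) < K := by exact_mod_cast hK
  have : (0:ℝ) < M := by exact_mod_cast hM
  push_cast
  field_simp

/-- `L¹` distance of two profiles from pointwise bounds -/
theorem dist_le {Q : Par} (h : P.OK) (h' : Q.OK) (hβ : 0 < β) {A p : ℝ} (hA : 0 ≤ A)
    (hp : p ≤ P.b) (h1 : ∀ s, 0 ≤ s → s < p → |Q.zeta s - P.zeta s| ≤ A) (h2 : Q.b ≤ P.b) :
    dist1 (P.lst β P.K) (Q.lst β Q.K) ≤ β ^ 2 * A + β ^ 2 * (P.b - p) := by
  have b2 : 0 < β ^ 2 := by positivity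
  unfold dist1
  rw [h.TT_K]
  set I := Ico (β ^ 2 * p) (β ^ 2 * P.b) with hI
  have hi : Integrable (I.indicator fun _ => (1:ℝ)) := by
    rw [integrable_indicator_iff measurableSet_Ico]
    exact integrableOn_const (by simp)
  have key := intervalIntegral.norm_integral_le_of_norm_le (μ := volume) (a := 0) (b := β ^ 2)
    (f := fun s => |lvr 1 (Q.lst β Q.K) s - lvr 1 (P.lst β P.K) s|)
    (g := fun s => A + I.indicator (fun _ => (1:ℝ)) s) b2.le ?_
    (intervalIntegrable_const.add hi.intervalIntegrable)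
  · refine (le_abs_self _).trans (key.trans ?_)
    rw [intervalIntegral.integral_add intervalIntegrable_const hi.intervalIntegrable,
      intervalIntegral.integral_const, intervalIntegral.integral_of_le b2.le]
    have a1 : ∫ x in Ioc 0 (β ^ 2), I.indicator (fun _ => (1:ℝ)) x ≤
        ∫ x, I.indicator (fun _ => (1:ℝ)) x :=
      setIntegral_le_integral hi (.of_forall fun x => indicator_nonneg (fun _ _ => zero_le_one) x)
    have a2 : ∫ x, I.indicator (fun _ => (1:ℝ)) x = β ^ 2 * P.b - β ^ 2 * p := by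
      rw [integral_indicator measurableSet_Ico, setIntegral_const, Real.volume_real_Ico_of_le
        (mul_le_mul_of_nonneg_left hp b2.le), smul_eq_mul, mul_one]
    rw [a2] at a1
    simp only [smul_eq_mul, sub_zero]
    linarith
  · have ne : ∀ᵐ t : ℝ, t ≠ β ^ 2 := by simp [ae_iff]
    filter_upwards [ne] with t ht hm
    have t0 : 0 ≤ t / β ^ 2 := div_nonneg hm.1.le b2.le
    have t1 : t / β ^ 2 < 1 := (div_lt_one b2).2 (lt_of_le_of_ne hm.2 ht)
    have e : t = β ^ 2 * (t / β ^ 2) := by field_simp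
    set s := t / β ^ 2 with hs
    rw [Real.norm_eq_abs, abs_abs, e, h.lvr_eq hβ t0 (mul_lt_of_lt_one_left h.Kp t1),
      h'.lvr_eq hβ t0 (mul_lt_of_lt_one_left h'.Kp t1)]
    have i0 : 0 ≤ I.indicator (fun _ => (1:ℝ)) (β ^ 2 * s) :=
      indicator_nonneg (fun _ _ => zero_le_one) _
    rcases lt_or_ge s p with c1 | c1
    · linarith [h1 s t0 c1]
    rcases lt_or_ge s P.b with c2 | c2
    · rw [indicator_of_mem (show β ^ 2 * s ∈ I from
        ⟨mul_le_mul_of_nonneg_left c1 b2.le, mul_lt_mul_of_pos_left c2 b2⟩)]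
      have := h.zeta_pos s
      have := h'.zeta_pos s
      have := h.zeta_le s
      have := h'.zeta_le s
      rw [abs_le]
      constructor <;> linarith
    · rw [h.zeta_top c2, h'.zeta_top (h2.trans c2), sub_self, abs_zero]
      linarith

theorem exists_M (C : ℝ) {ε : ℝ} (hε : 0 < ε) (K0 : ℕ) {K : ℕ} (hK : 0 < K) :
    ∃ M : ℕ, 0 < M ∧ K0 ≤ K * M ∧ C * ((K * M : ℕ) : ℝ) ^ (-(1 / 8 : ℝ)) ≤ ε := by
  have t : Tendsto (fun n : ℕ => C * (n : ℝ) ^ (-(1 / 8 : ℝ))) atTop (𝓝 (C * 0)) :=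
    ((tendsto_rpow_neg_atTop (by norm_num)).comp tendsto_natCast_atTop_atTop).const_mul C
  rw [mul_zero] at t
  obtain ⟨N, hN⟩ := eventually_atTop.1 (t.eventually (Iic_mem_nhds hε))
  have le : N + K0 + 1 ≤ K * (N + K0 + 1) := Nat.le_mul_of_pos_left _ hK
  exact ⟨N + K0 + 1, by omega, by omega, hN _ (by omega)⟩

end B85

open B85

/-- **existence of base profiles** -/
theorem baseS (hL : LipFS) : BaseS := by
  intro β hβ
  have hβ0 : 0 < β := by linarith
  have b1 : 1 ≤ β ^ 2 := one_le_pow₀ hβ.le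
  have b2 : 0 < β ^ 2 := by positivity
  obtain ⟨c, C, hc, hc1, hC, K0, hP⟩ := parStmt β hβ
  obtain ⟨C', hC', hS⟩ := Str.slopes hβ.le C (by linarith)
  obtain ⟨CL, hCL, hLip⟩ := hL (β ^ 2)
  have cs0 := Str.cs_pos hβ0
  set cs := Str.cs β with hcs
  set δ := min (1 / 2) (cs / 6) with hδ
  have δ0 : 0 < δ := lt_min (by norm_num) (by positivity)
  have δ1 : δ ≤ 1 / 2 := min_le_left _ _
  have δ2 : δ ≤ cs / 6 := min_le_right _ _
  have q1 : 0 < 2 / c := by positivity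
  have q2 : 0 ≤ β ^ 2 * (CL * (β ^ 2 * (2 * C') + β ^ 2 * 2)) := by positivity
  set CB := C + 2 * C' + 2 / c + β ^ 2 * (CL * (β ^ 2 * (2 * C') + β ^ 2 * 2)) + 1 with hCB
  refine ⟨min (c / 2) (cs / (2 * β ^ 2)), CB, lt_min (by positivity) (by positivity),
    by linarith, ⌈4 / c⌉₊ + 1, fun K hK => ?_⟩
  have K1 : 0 < K := by omega
  have Kp : (0:ℝ) < K := by exact_mod_cast K1
  have K2 : (1:ℝ) ≤ K := by exact_mod_cast K1
  have K4 : 4 / c ≤ K := (Nat.le_ceil _).trans (by exact_mod_cast (by omega))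
  rw [div_le_iff₀ hc] at K4
  set u : ℝ := 1 / K with hu
  have u0 : 0 < u := by positivity
  have uK : u * K = 1 := by rw [hu]; field_simp
  have u1 : u ≤ 1 := by rw [hu, div_le_one Kp]; exact K2
  have kU : ∀ x : ℝ, x * K * u = x := fun x => by rw [mul_assoc, mul_comm (K:ℝ), uK, mul_one]
  have uc : 4 * u ≤ c := by linarith [mul_le_mul_of_nonneg_right K4 u0.le, kU c]
  obtain ⟨M, M0, hM, hη⟩ := exists_M C (ε := (δ * u) ^ 2) (by positivity) K0 K1
  obtain ⟨P, e, h, hG⟩ := hP (K * M) hM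
  set η := C * ((K * M : ℕ) : ℝ) ^ (-(1 / 8 : ℝ)) with hηd
  have η0 : 0 < η := by
    have : (0:ℝ) < ((K * M : ℕ) : ℝ) := by exact_mod_cast Nat.mul_pos K1 M0
    positivity
  have r1 : √η ≤ δ * u := Real.sqrt_le_iff.2 ⟨by positivity, hη⟩
  have du : δ * u ≤ u / 2 := by linarith [mul_le_mul_of_nonneg_right δ1 u0.le]
  have du0 : 0 < δ * u := by positivity
  have dd : (δ * u) ^ 2 ≤ δ * u := by
    rw [sq]
    exact mul_le_of_le_one_left du0.le (by linarith)
  have η1 : η ≤ u := by linarith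
  have η2 : η ≤ 1 / 2 := by linarith
  have r0 := Real.sqrt_nonneg η
  have bc := hG.b_ge
  have bl := h.b_le_one
  have f1 : (⌊P.b * K⌋₊ : ℝ) ≤ P.b * K := Nat.floor_le (mul_nonneg (by linarith) Kp.le)
  have f2 : P.b * K < ⌊P.b * K⌋₊ + 1 := Nat.lt_floor_add_one _
  have f3 : 2 ≤ ⌊P.b * K⌋₊ := Nat.le_floor (by
    push_cast
    linarith [mul_le_mul_of_nonneg_right bc Kp.le])
  obtain ⟨J, hJ⟩ : ∃ J, ⌊P.b * K⌋₊ = J + 1 := ⟨⌊P.b * K⌋₊ - 1, by omega⟩
  rw [hJ] at f1 f2 f3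
  push_cast at f1 f2
  have J0 : 0 < J := by omega
  have dv : ∀ x : ℝ, x / K = x * u := fun x => by rw [hu]; ring
  have j1 : J * u + u ≤ P.b := by linarith [mul_le_mul_of_nonneg_right f1 u0.le, kU P.b]
  have j2 : P.b ≤ J * u + 2 * u := by linarith [mul_le_mul_of_nonneg_right f2.le u0.le, kU P.b]
  have JK : J ≤ K := by
    have : (J:ℝ) ≤ K := by linarith [mul_le_of_le_one_left Kp.le bl]
    exact_mod_cast this
  have hQ := co_ok h (M := M) K1 JK
  set Q := co P K M J with hQd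
  have zlt : ∀ j, j < J → Q.z j = P.zeta (j * u) := fun j hj => by
    rw [← dv, ← z_eq h K1 M0 e]
    simp only [hQd, co, if_pos hj]
  have sl := hS P c η h hG η0 η2
  have vu : u ≤ β ^ 2 * u := le_mul_of_one_le_left u0.le b1
  have Jv : c / 2 ≤ J * (β ^ 2 * u) := by
    linarith [mul_le_mul_of_nonneg_left vu (Nat.cast_nonneg J)]
  have cle : ∀ j : ℕ, j ≤ J → (j:ℝ) * u ≤ J * u := fun j hj =>
    mul_le_mul_of_nonneg_right (by exact_mod_cast hj) u0.le
  refine ⟨J, Q.z, ?_⟩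
  rw [dv, dv]
  have CB1 : 1 ≤ CB := by linarith
  refine ⟨by positivity, ⟨hQ.mono, hQ.pos 0, hQ.top⟩, (min_le_left _ _).trans Jv, ?_, ?_,
    fun j hj => ?_, fun j => ?_, fun N hN t ht => ?_⟩
  · have : (J:ℝ) * u ≤ 1 := by linarith
    linarith [mul_le_mul_of_nonneg_left this b2.le]
  · rw [zlt 0 J0]
    have := hG.zlin 0 ⟨le_rfl, zero_le_one⟩
    simp only [Nat.cast_zero, zero_mul, mul_zero, zero_add] at this ⊢
    linarith [le_mul_of_one_le_left (u0.le.trans vu) CB1]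
  · unfold dm
    rw [zlt _ hj, zlt j (by omega)]
    have a0 := cle (j + 1) hj.le
    have a := sl (j * u) (((j + 1 : ℕ) : ℝ) * u) (by positivity) (by push_cast; linarith)
    have a1 := a.1 (by linarith)
    have a2 := a.2 (by linarith)
    have e1 : ((j + 1 : ℕ) : ℝ) * u - j * u = u := by push_cast; ring
    rw [e1] at a1 a2
    constructor
    · have m1 : min (c / 2) (cs / (2 * β ^ 2)) * (β ^ 2 * u) ≤ cs / (2 * β ^ 2) * (β ^ 2 * u) :=
        mul_le_mul_of_nonneg_right (min_le_right _ _) (by positivity)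
      have m2 : cs / (2 * β ^ 2) * (β ^ 2 * u) = cs * u / 2 := by field_simp
      linarith [mul_le_mul_of_nonneg_right δ2 u0.le]
    · have m1 : C' * (u + √η) ≤ C' * (2 * (β ^ 2 * u)) :=
        mul_le_mul_of_nonneg_left (by linarith) (by linarith)
      have m2 : 2 * C' * (β ^ 2 * u) ≤ CB * (β ^ 2 * u) :=
        mul_le_mul_of_nonneg_right (by linarith) (by positivity)
      linarith
  · have p0 : 0 ≤ (j:ℝ) * (β ^ 2 * u) := by positivity
    have p1 : u ≤ CB * u := le_mul_of_one_le_left u0.le CB1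
    rcases lt_or_ge j J with hj | hj
    · rw [zlt j hj]
      have a0 := cle j hj.le
      have a := hG.zlin (j * u) ⟨by positivity, by linarith⟩
      have m1 : C * (j * u) ≤ C * (j * (β ^ 2 * u)) :=
        mul_le_mul_of_nonneg_left (mul_le_mul_of_nonneg_left vu (Nat.cast_nonneg _)) (by linarith)
      have m2 : C * (j * (β ^ 2 * u)) ≤ CB * (j * (β ^ 2 * u)) :=
        mul_le_mul_of_nonneg_right (by linarith) p0
      linarith
    · rw [hQ.top j hj]
      have m0 : (J:ℝ) * (β ^ 2 * u) ≤ j * (β ^ 2 * u) :=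
        mul_le_mul_of_nonneg_right (by exact_mod_cast hj) (by positivity)
      have m1 : 2 / c * (c / 2) ≤ 2 / c * (j * (β ^ 2 * u)) :=
        mul_le_mul_of_nonneg_left (by linarith) q1.le
      have m2 : 2 / c * (j * (β ^ 2 * u)) ≤ CB * (j * (β ^ 2 * u)) :=
        mul_le_mul_of_nonneg_right (by linarith) p0
      have m3 : 2 / c * (c / 2) = 1 := by field_simp
      linarith
  · have QK : Q.K = K := rfl
    have Qb : Q.b = J * u := by rw [← dv]; rfl
    have e1 := lst_eq Q β N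
    rw [QK, dv] at e1
    rw [e1]
    set s := t / β ^ 2 with hs
    have et : t = β ^ 2 * s := by rw [hs]; field_simp
    have s0 : 0 ≤ s := div_nonneg ht.1 b2.le
    have s1 : s ≤ J * u := by
      rw [hs, div_le_iff₀ b2]
      linarith [ht.2]
    rw [et, GG_par hQ β hN (by rw [Qb]; exact s1), ← GG_K hQ β (by linarith)]
    have g := abs_le.1 (hG.gam' s ⟨s0, by linarith⟩)
    rw [← GG_K h β (by linarith)] at g
    have d := dist_le h hQ hβ0 (A := 2 * C' * u) (p := J * u) (by positivity) (by linarith)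
      (fun r r0' r1' => by
        have k1 : (⌊r * K⌋₊ : ℝ) ≤ r * K := Nat.floor_le (by positivity)
        have k2 : r * K < ⌊r * K⌋₊ + 1 := Nat.lt_floor_add_one _
        have k3 : ⌊r * K⌋₊ < J := by
          have : (⌊r * K⌋₊ : ℝ) < J := by linarith [mul_lt_mul_of_pos_right r1' Kp, kU J]
          exact_mod_cast this
        have e2 : Q.zeta r = P.zeta (⌊r * K⌋₊ * u) := zlt _ k3
        have k4 : (⌊r * K⌋₊ : ℝ) * u ≤ r := by
          linarith [mul_le_mul_of_nonneg_right k1 u0.le, kU r]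
        have k5 : r - ⌊r * K⌋₊ * u ≤ u := by
          linarith [mul_le_mul_of_nonneg_right k2.le u0.le, kU r]
        have a := (sl (⌊r * K⌋₊ * u) r (by positivity) k4).2 (by linarith)
        have a' := h.zeta_mono k4
        have m1 : C' * (r - ⌊r * K⌋₊ * u + √η) ≤ C' * (2 * u) :=
          mul_le_mul_of_nonneg_left (by linarith) (by linarith)
        have m2 : 0 ≤ C' * u := by positivity
        rw [e2, abs_le]
        constructor <;> linarith)
      (by rw [Qb]; linarith)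
    have l := (hLip (P.lst β P.K) (Q.lst β Q.K) ⟨h.adm β _, h.lst_pos hβ0 _⟩
      ⟨hQ.adm β _, hQ.lst_pos hβ0 _⟩ (by rw [hQ.TT_K, h.TT_K]) (h.TT_K β).le (β ^ 2 * s)
      ⟨by positivity, by rw [h.TT_K]; exact mul_le_of_le_one_right b2.le (by linarith)⟩).2.1
    have d2 : dist1 (P.lst β P.K) (Q.lst β Q.K) ≤ (β ^ 2 * (2 * C') + β ^ 2 * 2) * u := by
      have : β ^ 2 * (P.b - J * u) ≤ β ^ 2 * (2 * u) :=
        mul_le_mul_of_nonneg_left (by linarith) b2.le
      linarith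
    have l2 := abs_le.1 (l.trans (mul_le_mul_of_nonneg_left d2 (by linarith)))
    have l3 := mul_le_mul_of_nonneg_left l2.1 b2.le
    have l4 := mul_le_mul_of_nonneg_left l2.2 b2.le
    have m2 : (β ^ 2 * (CL * (β ^ 2 * (2 * C') + β ^ 2 * 2)) + 1) * u ≤ CB * u :=
      mul_le_mul_of_nonneg_right (by linarith) u0.le
    rw [abs_le]
    constructor <;> linarith [g.1, g.2]

end

end Crest.Agent.T156.Pr
end

-- ▼ part T156/AltTopF_11

/-!
# Row 156, ALT route: `StageTrans`, `TopC`, `TopF` (helper11)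
-/

set_option autoImplicit false

noncomputable section

namespace Crest.Agent.T156.Alt

open MeasureTheory Real Set Filter Topology
open Crest.Agent.T157.E Crest.Agent.T157.Casc Crest.Agent.T157.SL
open Crest.Agent.T157.G1 (ov fl FL)
open Crest.Agent.T156.Cas Crest.Agent.T156.Cas.Chain26

theorem WT.anti {n : ℕ} {T T' : Set Md} {a a' Q : ℝ} (h : WT n T a a' Q) (hT : T' ⊆ T) :
    WT n T' a a' Q := fun M hM => h M (hT hM)

theorem Stage.mono {n : ℕ} {s γ C δ δ' : ℝ} {M₀ : Md} {T : Set Md} (h : Stage n s γ C δ M₀ T)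
    (hs : 0 ≤ s) (hδ : δ ≤ δ') : Stage n s γ C δ' M₀ T :=
  ⟨h.mem, h.leg, fun a a' Q w hQ wt m m1 m2 M hM =>
    (h.lnk a a' Q w hQ wt m m1 m2 M hM).trans (by gcongr)⟩

theorem Flw.mono {n : ℕ} {s γ δ δ' : ℝ} {M : Md} (h : Flw n s γ δ M) (hs : 0 ≤ s) (hδ : δ ≤ δ') :
    Flw n s γ δ' M :=
  ⟨h.tot, fun a a' Q w hQ wt m m1 m2 => (h.flow a a' Q w hQ wt m m1 m2).trans (by gcongr)⟩

/-- **stages compose** -/
theorem stageTrans : StageTrans := by
  intro n s γ C δ δ' M₀ M₁ T T' hs hδ hδ' h h1 h'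
  refine ⟨Or.inl h.mem, fun M hM => hM.elim (h.leg M) (h'.leg M),
    fun a a' Q w hQ wt m m1 m2 M hM => ?_⟩
  rcases hM with hM | hM
  · exact (h.mono hs (le_add_of_nonneg_right hδ')).lnk a a' Q w hQ (wt.anti subset_union_left)
      m m1 m2 M hM
  · have k1 := h.lnk a a' Q w hQ (wt.anti subset_union_left) m m1 m2 M₁ h1
    have k2 := h'.lnk a a' Q w hQ (wt.anti subset_union_right) m m1 m2 M hM
    refine (abs_sub_le _ (M₁.V m a' - M₁.V m a) _).trans ?_
    linarith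

theorem Stage.refl {n : ℕ} {s γ C δ : ℝ} {M : Md} (h : M.Leg (s * (n : ℝ) ^ (γ - 1 / 6)))
    (hC : M.d 0 ≤ C) (hs : 0 ≤ s) (hδ : 0 ≤ δ) : Stage n s γ C δ M {M} :=
  ⟨rfl, fun _ hM => hM ▸ ⟨h, hC⟩, fun a a' Q _ hQ _ m _ _ M' hM => by
    rw [hM, sub_self, abs_zero]; positivity⟩

theorem Go.mono {δ δ' : ℝ} {p : Pm} {M₀ M₁ : Md} (h : Go δ p M₀ M₁) (hs : 0 ≤ p.s) (hδ : δ ≤ δ') :
    Go δ' p M₀ M₁ := h.imp fun _ h => ⟨h.1.mono hs hδ, h.2⟩

theorem Go.trans {δ δ' : ℝ} {p : Pm} {M₀ M₁ M₂ : Md} (h : Go δ p M₀ M₁) (h' : Go δ' p M₁ M₂)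
    (hs : 0 ≤ p.s) (hδ : 0 ≤ δ) (hδ' : 0 ≤ δ') : Go (δ + δ') p M₀ M₂ := by
  obtain ⟨T, a, b⟩ := h
  obtain ⟨T', a', b'⟩ := h'
  exact ⟨T ∪ T', stageTrans _ _ _ _ _ _ _ _ _ _ hs hδ hδ' a b a', Or.inr b'⟩

/-- finitely many stages -/
theorem Go.chain {p : Pm} (hs : 0 ≤ p.s) {M : ℕ → Md} {δ : ℕ → ℝ} (hδ : ∀ i, 0 ≤ δ i) :
    ∀ N : ℕ, (∀ i ≤ N, Go (δ i) p (M i) (M (i + 1))) →
      Go (∑ i ∈ Finset.range (N + 1), δ i) p (M 0) (M (N + 1))
  | 0, h => by simpa using h 0 le_rfl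
  | N + 1, h => by
    rw [Finset.sum_range_succ]
    exact (Go.chain hs hδ N fun i hi => h i (by omega)).trans (h _ le_rfl) hs
      (Finset.sum_nonneg fun i _ => hδ i) (hδ _)

namespace Top11

theorem ov_self {m : ℕ} (hm : 0 < m) (x : Cube m) : ov x x = 1 := by
  have hn' : (m : ℝ) ≠ 0 := Nat.cast_ne_zero.2 hm.ne'
  simp [ov, dotProduct, Link33.sv_sq, hn']

theorem mono_mx (m : ℕ) : ∀ (N : ℕ) (g d f : ℕ → ℝ) (x : ℝ), Monotone g → (∀ k, g k ≤ 1) →
    x ≤ g 0 → Mono x ((List.ofFn fun k : Fin N => (g k, d k, f k)).map (mxL m 1))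
  | 0, g, _, _, _, _, h1, h0 => by simpa [Mono] using h0.trans (h1 0)
  | N + 1, g, d, f, x, hg, h1, h0 => by
    rw [List.ofFn_succ]
    exact ⟨h0, mono_mx m N (fun k => g (k + 1)) (fun k => d (k + 1)) (fun k => f (k + 1)) (g 0)
      (fun _ _ h => hg (Nat.succ_le_succ h)) (fun k => h1 _) (hg (Nat.zero_le _))⟩

variable {M : Md} {x : ℝ} {m : ℕ}

theorem up_mono (h : M.Leg x) (m : ℕ) : Mono x (M.up m) :=
  mono_mx m M.N M.z (fun k => M.d (k + 1) - M.d k) (fun k => M.H (k + 1) - M.H k) x h.zm h.z1 h.z0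

theorem ov_mx (hm : 0 < m) {p : ℝ × ℝ × ℝ} (hd : 0 ≤ p.2.1) (hf : 0 ≤ p.2.2) :
    OvLv (mxL m 1 p) :=
  ⟨fun r => p.2.1 * (1 ^ 2 * m / 2 * r ^ 2) + p.2.2 * m * r, mxL_cov hm 1 hd hf⟩

theorem ov_dg (hm : 0 < m) {l : Lv (Cube m)} (h : OvLv l) (x y : Cube m) :
    l.cov y y = l.cov x x := by
  obtain ⟨φ, h⟩ := h
  rw [h, h, ov_self hm, ov_self hm]

theorem ov_all (h : M.Leg x) (hm : 0 < m) (a : ℝ) : ∀ l ∈ M.root m a :: M.up m, OvLv l := by
  intro l hl
  rcases List.mem_cons.1 hl with rfl | hl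
  · exact ov_mx hm h.d0 le_rfl
  · obtain ⟨p, hp, rfl⟩ := List.mem_map.1 hl
    obtain ⟨k, rfl⟩ := (List.mem_ofFn' _ _).1 hp
    exact ov_mx hm (sub_nonneg.2 (h.dm (Nat.le_succ _))) (sub_nonneg.2 (h.Hm (Nat.le_succ _)))

theorem root_cov (h : M.Leg x) (hm : 0 < m) (a : ℝ) (y : Cube m) :
    (M.root m a).cov y y = M.d 0 * m / 2 := by
  rw [Md.root, mxL_cov hm 1 h.d0 le_rfl, ov_self hm]; ring

theorem up_sum (h : M.Leg x) (hm : 0 < m) (y : Cube m) :
    ((M.up m).map fun l => l.cov y y).sum = m * ((M.d M.N - M.d 0) / 2 + M.H M.N) := by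
  have e : ∀ N : ℕ, ∑ k ∈ Finset.range N, (mxL m 1
      (M.z k, M.d (k + 1) - M.d k, M.H (k + 1) - M.H k)).cov y y =
      m * ((M.d N - M.d 0) / 2 + M.H N) := by
    intro N
    induction N with
    | zero => simp [h.H0]
    | succ N ih =>
      rw [Finset.sum_range_succ, ih, mxL_cov hm 1 (sub_nonneg.2 (h.dm (Nat.le_succ _)))
        (sub_nonneg.2 (h.Hm (Nat.le_succ _))), ov_self hm]
      ring
  rw [← e, Md.up, Md.Mu, List.map_map, List.map_ofFn, List.sum_ofFn]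
  exact Fin.sum_univ_eq_sum_range (fun k => (mxL m 1
    (M.z k, M.d (k + 1) - M.d k, M.H (k + 1) - M.H k)).cov y y) M.N

theorem good (h : M.Leg x) (hm : 0 < m) {B : ℝ} (hB : m * (1 + (M.b + M.H M.N)) ≤ B) :
    Flow26.Good (fun _ => 1) (M.root m 0) (M.up m) 0 x B := by
  have ho := ov_all h hm 0
  refine Flow26.good_cube (up_mono h m) ho (fun l => l.cov (fun _ => true) fun _ => true)
    (fun l hl y => (ov_dg hm (ho l hl) _ y).le) (le_trans ?_ hB)
  have d1 : M.d 0 ≤ M.d M.N := h.dm (Nat.zero_le _)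
  have H1 : 0 ≤ M.H M.N := h.H0 ▸ h.Hm (Nat.zero_le _)
  have m0 : (0 : ℝ) ≤ m := Nat.cast_nonneg m
  rw [up_sum h hm, root_cov h hm, abs_of_nonneg (mul_nonneg m0 (by linarith)), Md.b]
  nlinarith [mul_le_mul_of_nonneg_left d1 m0]

theorem sk_V (β : ℝ) (hm : 0 < m) (a : ℝ) : (Md.sk β).V m a = Vv (wl m β 1 1) [] a := by
  have := Tp.step_sameC (w := fun _ : Cube m => (1 : ℝ)) ⟨fun _ => zero_le_one, by simp⟩ (c := 0)
    (l := mxL m 1 (a, β ^ 2, 0)) (l' := rt (wl m β 1 1) a) ⟨rfl, fun x y => by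
      rw [mxL_cov hm 1 (sq_nonneg β) le_rfl]
      have e : (rt (wl m β 1 1) a).cov x y = (wl m β 1 1).cov x y := rfl
      rw [e, Link33.cov_wl m β _ _ x y hm zero_le_one]
      ring⟩ [] 0
  rw [mul_zero, zero_div, add_zero] at this
  exact this

end Top11

open Top11

/-- **the top, chain form** -/
theorem topC : TopC := by
  intro β hβ γ c' C hγ hc H _
  refine key_of_chnS' (D := 1) (M := |C| + 2) hβ hc hγ zero_le_one (by positivity) ?_
  filter_upwards [H, eventually_ge_atTop 1] with n hn n1 s hs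
  obtain ⟨T, M, hM, hS, hF⟩ := hn s hs
  have nR : (1 : ℝ) ≤ n := by exact_mod_cast n1
  refine ⟨Md, T, M, fun m t => t.root m 0, fun m t => t.up m, _, _, le_rfl, le_rfl, hM,
    fun m m1 _ t ht x => ?_, fun m m1 _ => ?_, fun a a' Q e1 e2 e3 e4 e5 m e6 e7 t ht => ?_,
    fun a a' Q e1 e2 e3 e4 e5 m e6 e7 => ?_⟩
  · rw [root_cov (hS.leg t ht).1 (by omega)]
    have := (hS.leg t ht).2
    have m0 : (0 : ℝ) ≤ m := Nat.cast_nonneg m
    nlinarith [le_abs_self C, abs_nonneg C, mul_le_mul_of_nonneg_right this m0,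
      mul_le_mul_of_nonneg_right (le_abs_self C) m0, mul_nonneg (abs_nonneg C) m0]
  · refine good (hS.leg M hM).1 (by omega) ?_
    have m0 : (0 : ℝ) ≤ m := Nat.cast_nonneg m
    have a1 : 1 ≤ (n : ℝ) ^ ((1 : ℝ) / 12) := one_le_rpow nR (by norm_num)
    have a2 : 1 + (M.b + M.H M.N) ≤ (|C| + 2) * (n : ℝ) ^ ((1 : ℝ) / 12) := by
      nlinarith [hF.tot, abs_nonneg C]
    rw [mul_comm]
    exact mul_le_mul_of_nonneg_right a2 m0
  · have := hS.lnk a a' Q ⟨e1, e2, e3⟩ e4 (fun M' hM' m' a1 a2 => (e5 m' a1 a2).2 M' hM')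
      m e6 e7 t ht
    rw [sk_V β (by omega), sk_V β (by omega)] at this
    rw [one_mul]
    exact this
  · rw [one_mul]
    exact hF.flow a a' Q ⟨e1, e2, e3⟩ e4 (fun M' hM' m' a1 a2 => hM' ▸ (e5 m' a1 a2).2 M hM)
      m e6 e7

/-- the row from one gain statement: a stage from SK and the flow at its end -/
theorem key_of_go {β : ℝ} (hβ : 1 < β) (h : Gain β fun δ p =>
    ∃ M, Go δ p (Md.sk p.β) M ∧ Flw p.n p.s p.ga δ M) : Soft.Key β := by
  obtain ⟨c0, C0, c00, C01, K0, hK⟩ := Pr.baseS Pr.lipFS β hβ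
  obtain ⟨A, a1, A1⟩ := ((h c0 C0 c00 C01).and (eventually_ge_atTop 1)).exists
  obtain ⟨c, ⟨c', c1, b1⟩, cp, -⟩ := (a1.and (ev_small one_pos)).exists
  refine topC β hβ (c / 100) c' (β ^ 2) (by positivity) c1 ?_ (lowS hβ)
  filter_upwards [b1, eventually_ge_atTop K0] with n hn nK s hs
  obtain ⟨J, z, hz⟩ := hK (n ^ A) (nK.trans (Nat.le_self_pow (by omega) n))
  obtain ⟨M, ⟨T, a, b⟩, f⟩ := hn ⟨β, n, A, c, s, J, z⟩ rfl rfl rfl rfl
    ⟨by simpa [Pm.v] using hz, hs.1, hs.2⟩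
  exact ⟨T, M, b, a, f⟩



end Crest.Agent.T156.Alt

end
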