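import Crest.Agent.T156.PlEx_13
import Crest.Agent.T156.PlW_13
import Crest.Agent.T156.SprDef_59

-- ▼ part T156/PlS_13
section

/-!
# Row 156, ALT: existence of the grid of the logarithmic spread, `PlEx` (helper13)
-/

set_option autoImplicit false

noncomputable section

namespace Crest.Agent.T156.Alt.Plt13

open Real Set Finset
open Crest.Agent.T157.Nm

/-- the grid of a clock with a lower slope -/
theorem exists_grid {ρ : ℝ → ℝ} {x0 v ue κ : ℝ} (hv : 0 < v) (hκ : 0 < κ) (h1 : x0 ≤ 1 - ue)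
    (hm : 2 * v ≤ κ * ue) (cont : ContinuousOn ρ (Set.Ico x0 1))
    (inc : ∀ a b, x0 ≤ a → a ≤ b → b < 1 → κ * (b - a) ≤ ρ b - ρ a) :
    ∃ (I : ℕ) (x : ℕ → ℝ), x 0 = x0 ∧ StrictMono x ∧ (∀ i < I, ρ (x (i + 1)) - ρ (x i) = v) ∧
      ue / 2 ≤ 1 - x I ∧ 1 - x I ≤ ue := by
  have u0 : 0 < ue := by by_contra c; nlinarith [not_lt.1 c]
  have p0 := inc x0 (1 - ue) le_rfl h1 (by linarith)
  have p1 : 0 ≤ ρ (1 - ue) - ρ x0 := le_trans (mul_nonneg hκ.le (by linarith)) p0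
  set I := ⌈(ρ (1 - ue) - ρ x0) / v⌉₊ with hI
  have a : (ρ (1 - ue) - ρ x0) / v ≤ I := Nat.le_ceil _
  have b : (I : ℝ) < (ρ (1 - ue) - ρ x0) / v + 1 := Nat.ceil_lt_add_one (by positivity)
  rw [div_le_iff₀ hv] at a
  have b' := mul_le_mul_of_nonneg_right b.le hv.le
  rw [add_mul, div_mul_cancel₀ _ hv.ne', one_mul] at b'
  have t := inc (1 - ue) (1 - ue / 2) h1 (by linarith) (by linarith)
  have ex : ∀ k : ℕ, ∃ y ∈ Set.Icc x0 (1 - ue / 2), ρ y = ρ x0 + (min k I : ℕ) * v := fun k => by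
    have c : ((min k I : ℕ) : ℝ) ≤ I := by exact_mod_cast min_le_right k I
    exact intermediate_value_Icc (by linarith)
      (cont.mono fun z hz => ⟨hz.1, by linarith [hz.2]⟩)
      ⟨le_add_of_nonneg_right (by positivity), by nlinarith⟩
  choose y hy ey using ex
  have lt : ∀ k, y k < 1 := fun k => by linarith [(hy k).2]
  have st : ∀ i < I, ρ (y (i + 1)) - ρ (y i) = v := fun i hi => by
    rw [ey, ey, min_eq_left hi, min_eq_left hi.le]; push_cast; ring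
  refine ⟨I, fun k => y (min k I) + ((k - I : ℕ) : ℝ), ?_, strictMono_nat_of_lt_succ fun k => ?_,
    fun i hi => ?_, ?_, ?_⟩
  · have c := inc x0 (y 0) le_rfl (hy 0).1 (lt 0)
    rw [ey 0] at c
    simp only [Nat.zero_min, Nat.cast_zero, zero_mul, add_zero, sub_self, Nat.zero_sub] at c ⊢
    by_contra d
    nlinarith [mul_pos hκ (sub_pos.2 (lt_of_le_of_ne (hy 0).1 (Ne.symm d)))]
  · rcases Nat.lt_or_ge k I with c | c
    · simp only [min_eq_left c.le, min_eq_left (show k + 1 ≤ I from c), Nat.sub_eq_zero_of_le c.le,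
        Nat.sub_eq_zero_of_le (show k + 1 ≤ I from c), add_lt_add_iff_right]
      by_contra d
      have e := inc _ _ (hy (k + 1)).1 (not_lt.1 d) (lt k)
      linarith [st k c, mul_nonneg hκ.le (sub_nonneg.2 (not_lt.1 d))]
    · simp only [min_eq_right c, min_eq_right (c.trans (Nat.le_succ k)), add_lt_add_iff_left,
        Nat.cast_lt]
      omega
  · simp only [min_eq_left hi.le, min_eq_left (show i + 1 ≤ I from hi), Nat.sub_eq_zero_of_le hi.le,
      Nat.sub_eq_zero_of_le (show i + 1 ≤ I from hi), Nat.cast_zero, add_zero]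
    exact st i hi
  · simp only [min_self, Nat.sub_self, Nat.cast_zero, add_zero]; linarith [(hy I).2]
  · simp only [min_self, Nat.sub_self, Nat.cast_zero, add_zero]
    by_contra d
    have e := inc (y I) (1 - ue) (hy I).1 (by linarith [not_le.1 d]) (by linarith)
    rw [ey I, min_self] at e
    nlinarith [mul_pos hκ (show 0 < 1 - ue - y I by linarith [not_le.1 d])]

theorem cont_lsp (p : Pm) (γ : ℝ) : ContinuousOn (p.lsp γ) (Set.Ico p.xs 1) := fun _ hx =>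
  (p.hasDerivAt_lsp γ hx.1 hx.2.le).continuousAt.continuousWithinAt

theorem lL_le {p : Pm} (hn : (2 : ℝ) ≤ p.n) : p.lL ≤ 12 * p.n := by
  have := log_le_sub_one_of_pos (show (0 : ℝ) < p.n + 3 by linarith)
  unfold Pm.lL; linarith

theorem exists_spOk {p : Pm} {g : ℝ} (hn : (2 : ℝ) ≤ p.n) (hv : 0 < p.v) (x0 : 0 ≤ p.xs)
    (hx : p.xs ≤ 1 - 1 / p.n) (g1 : g ≤ 1) (v4 : 1000 * p.v ≤ 1 / (p.n : ℝ) ^ 4) :
    ∃ P, p.SpOk g P := by
  have np : (0 : ℝ) < p.n := by linarith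
  have γ0 : 0 < (p.n : ℝ) ^ (-g) := rpow_pos_of_pos np _
  have γn : 1 / p.n ≤ (p.n : ℝ) ^ (-g) := by
    rw [one_div, ← rpow_neg_one]
    exact rpow_le_rpow_of_exponent_le (by linarith) (by linarith)
  have L := p.lL_pos
  have e2 : (p.n : ℝ) ^ (-(2 : ℝ)) = 1 / (p.n : ℝ) ^ 2 := by rw [rpow_neg np.le]; norm_num
  have e3 : (p.n : ℝ) ^ (-(3 : ℝ)) = 1 / (p.n : ℝ) ^ 3 := by rw [rpow_neg np.le]; norm_num
  have u1 : 1 / (p.n : ℝ) ^ 2 ≤ 1 / p.n := one_div_le_one_div_of_le np (by nlinarith)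
  have u3 : (p.n : ℝ) ^ (-(3 : ℝ)) ≤ (p.n : ℝ) ^ (-(2 : ℝ)) / 2 := by
    rw [e2, e3, div_div]
    exact one_div_le_one_div_of_le (by positivity) (by nlinarith [pow_pos np 2])
  obtain ⟨I, x, a, b, c, d, e⟩ := exists_grid (ρ := fun x => (p.n : ℝ) ^ (-g) * p.lsp ((p.n : ℝ) ^ (-g)) x)
    (x0 := p.xs) (ue := (p.n : ℝ) ^ (-(2 : ℝ))) (κ := (p.n : ℝ) ^ (-g) / (2 * p.lL)) hv
    (by positivity) (by rw [e2]; linarith) (by
      have k : 1 / p.n / (2 * (12 * p.n)) ≤ (p.n : ℝ) ^ (-g) / (2 * p.lL) :=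
        div_le_div₀ γ0.le γn (by positivity) (by linarith [lL_le hn])
      have k' := mul_le_mul_of_nonneg_right k (show 0 ≤ 1 / (p.n : ℝ) ^ 2 by positivity)
      have e : 1 / p.n / (2 * (12 * p.n)) * (1 / (p.n : ℝ) ^ 2) = 1 / (p.n : ℝ) ^ 4 / 24 := by
        field_simp; ring
      rw [e2]; linarith)
    (continuousOn_const.mul (cont_lsp p _)) fun a b ha hab hb => by
      have := mul_le_mul_of_nonneg_left (p.lsp_inc ((p.n : ℝ) ^ (-g)) x0 ha hab hb.le) γ0.le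
      rw [div_mul_eq_mul_div, mul_div_assoc]; linarith
  refine ⟨⟨I, x, 0, 0, (p.n : ℝ) ^ (-g)⟩, rfl, rfl, rfl, a, b, fun i hi => ?_, u3.trans d, e⟩
  have := c i hi
  simp only [mul_sub]
  constructor <;> linarith

theorem v4_of {β c0 C0 K η : ℝ} {p : Pm} (h : Ctx β c0 C0 K η p) (hK : 1000 * β ^ 2 ≤ p.n)
    (hA : 5 ≤ p.A) : 1000 * p.v ≤ 1 / (p.n : ℝ) ^ 4 := by
  have np := h.n_pos
  have a := h.v_le (k := 5) (by exact_mod_cast hA)
  rw [rpow_neg np.le, show ((p.n : ℝ) ^ (5 : ℝ)) = (p.n : ℝ) ^ 5 by norm_num] at a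
  have b : 1000 * (β ^ 2 * ((p.n : ℝ) ^ 5)⁻¹) ≤ 1 / (p.n : ℝ) ^ 4 := by
    rw [← mul_assoc, ← div_eq_mul_inv, div_le_div_iff₀ (by positivity) (by positivity)]
    nlinarith [mul_le_mul_of_nonneg_right hK (pow_pos np 4).le]
  linarith

end Crest.Agent.T156.Alt.Plt13

namespace Crest.Agent.T156.Alt

/-- **`PlEx`** -/
theorem plEx {β g : ℝ} (hβ : 1 < β) (g1 : g ≤ 1) : Gain β (PlEx g) :=
  Gain.introF (Par.intro' 5 one_pos fun c0 C0 _ _ h0 h1 hA _ _ => by
    obtain ⟨K, c2, hc, H⟩ := Plt13.fin_nm hβ c0 C0 h0 h1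
    refine ⟨1, one_pos, 1, one_pos, max K (1000 * β ^ 2), fun p a _ h => ?_⟩
    have h' := h.mono (le_max_left _ _) le_rfl
    have k := h.big.le_rpow
    rw [Real.rpow_one] at k
    have N := (H p h').2 p.μ0 le_rfl ((h.μ0_le_μ h.mem_end).trans ((h.μ_le h.mem_end).trans
      (pow_le_of_le_one h.κ_pos.le h.κ_le_one (by norm_num))))
    exact ⟨fun μ a b => ((H p h').2 μ a b).exists_plOk,
      Plt13.exists_spOk N.n2 N.v0 N.x0.le N.x1 g1
        (Plt13.v4_of h ((le_max_right _ _).trans k) (a ▸ hA)),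
      (Plt13.y1_facts h).1, (Plt13.y1_facts h).2.1⟩)

end Crest.Agent.T156.Alt

end
end

-- ▼ part T156/AlEx_13

/-!
# Row 156, ALT: the grids of stage C (helper13)
-/

set_option autoImplicit false
set_option linter.unusedSectionVars false

noncomputable section

namespace Crest.Agent.T156.Alt.Plt13

open Real Set Finset
open Crest.Agent.T157.Nm

/-- the clock `α rF + γ lsp` -/
def rA (g : ℝ) (p : Pm) (α x : ℝ) : ℝ :=
  α * p.rF p.μe x + (p.n : ℝ) ^ (-g) * p.lsp ((p.n : ℝ) ^ (-g)) x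



theorem log_sub_bd {a b : ℝ} (ha : 0 < a) (h : a ≤ b) :
    (b - a) / b ≤ log b - log a ∧ log b - log a ≤ (b - a) / a := by
  have hb := ha.trans_le h
  have c := log_le_sub_one_of_pos (div_pos ha hb)
  have d := log_le_sub_one_of_pos (div_pos hb ha)
  rw [log_div ha.ne' hb.ne'] at c
  rw [log_div hb.ne' ha.ne'] at d
  rw [sub_div, sub_div, div_self ha.ne', div_self hb.ne']
  constructor <;> linarith

/-- two-sided increments of the spread -/
theorem lsp_bd (p : Pm) (γ : ℝ) {a b : ℝ} (ha : p.xs ≤ a) (hab : a ≤ b) (hb : b ≤ 1) :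
    (1 / (b - p.xs + p.l0' γ) + 1 / (1 - a + p.l1')) / p.lL * (b - a) ≤ p.lsp γ b - p.lsp γ a ∧
      p.lsp γ b - p.lsp γ a ≤
        (1 / (a - p.xs + p.l0' γ) + 1 / (1 - b + p.l1')) / p.lL * (b - a) := by
  have c := log_sub_bd (a := a - p.xs + p.l0' γ) (b := b - p.xs + p.l0' γ)
    (by linarith [p.l0'_pos γ]) (by linarith)
  have d := log_sub_bd (a := 1 - b + p.l1') (b := 1 - a + p.l1') (by linarith [p.l1'_pos])
    (by linarith)
  rw [show b - p.xs + p.l0' γ - (a - p.xs + p.l0' γ) = b - a by ring] at c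
  rw [show 1 - a + p.l1' - (1 - b + p.l1') = b - a by ring] at d
  unfold Pm.lsp
  rw [← sub_div, div_mul_eq_mul_div, div_mul_eq_mul_div, add_mul, add_mul, one_div_mul_eq_div,
    one_div_mul_eq_div, one_div_mul_eq_div, one_div_mul_eq_div]
  exact ⟨div_le_div_of_nonneg_right (by linarith [c.1, d.1]) p.lL_pos.le,
    div_le_div_of_nonneg_right (by linarith [c.2, d.2]) p.lL_pos.le⟩





/-- numeric facts of stage C -/
structure Ne (g : ℝ) (p : Pm) : Prop where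
  nm : Nm p p.μe
  gl : 256 * (p.n : ℝ) ^ (-g) ≤ p.la p.μe
  gL : p.lL / p.n ≤ (p.n : ℝ) ^ (-g)
  v4 : 1000 * p.v ≤ 1 / (p.n : ℝ) ^ 4

theorem rA_sub (g : ℝ) (p : Pm) (α a b : ℝ) : rA g p α b - rA g p α a =
    α * (p.rF p.μe b - p.rF p.μe a) + (p.n : ℝ) ^ (-g) *
      (p.lsp ((p.n : ℝ) ^ (-g)) b - p.lsp ((p.n : ℝ) ^ (-g)) a) := by unfold rA; ring

namespace Ne

variable {g : ℝ} {p : Pm} (h : Ne g p)
include h

theorem γ0 : 0 < (p.n : ℝ) ^ (-g) := rpow_pos_of_pos h.nm.np _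
theorem γ1 : (p.n : ℝ) ^ (-g) ≤ 1 / 16 := by linarith [h.gl, h.nm.l_le]
theorem e2 : (p.n : ℝ) ^ (-(2 : ℝ)) = 1 / (p.n : ℝ) ^ 2 := by rw [rpow_neg h.nm.np.le]; norm_num
theorem e3 : (p.n : ℝ) ^ (-(3 : ℝ)) = 1 / (p.n : ℝ) ^ 3 := by rw [rpow_neg h.nm.np.le]; norm_num

theorem gn : 1 / p.n ≤ (p.n : ℝ) ^ (-g) :=
  (div_le_div_of_nonneg_right (by linarith [p.lL_ge]) h.nm.np.le).trans h.gL

theorem l0_eq : p.l0' ((p.n : ℝ) ^ (-g)) = 64 * ((p.n : ℝ) ^ (-g) / p.lL) := by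
  rw [p.l0'_eq ((one_div_le_one_div_of_le h.nm.np (by linarith)).trans h.gn), mul_div_assoc]

theorem w_ge : 1 / p.n ≤ (p.n : ℝ) ^ (-g) / p.lL := by
  have := h.gL
  rw [div_le_iff₀ h.nm.np] at this
  rw [div_le_div_iff₀ h.nm.np p.lL_pos]; linarith

theorem w_le : 1536 * ((p.n : ℝ) ^ (-g) / p.lL) ≤ p.la p.μe := by
  have := div_le_div_of_nonneg_left h.γ0.le (by norm_num : (0 : ℝ) < 6) p.lL_ge
  linarith [h.gl]


/-- lower slope `1 / (2 n)` of the spread -/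
theorem sp_ge {a b : ℝ} (ha : p.xs ≤ a) (hab : a ≤ b) (hb : b ≤ 1) : 1 / p.n / 2 * (b - a) ≤
    (p.n : ℝ) ^ (-g) * (p.lsp ((p.n : ℝ) ^ (-g)) b - p.lsp ((p.n : ℝ) ^ (-g)) a) := by
  have a1 := mul_le_mul_of_nonneg_left (p.lsp_inc ((p.n : ℝ) ^ (-g)) h.nm.x0.le ha hab hb) h.γ0.le
  have a2 := mul_le_mul_of_nonneg_right h.w_ge (sub_nonneg.2 hab)
  have e : (p.n : ℝ) ^ (-g) * ((b - a) / (2 * p.lL)) = (p.n : ℝ) ^ (-g) / p.lL * (b - a) / 2 := by
    ring
  linarith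


theorem n32 : (p.n : ℝ) ^ (-(3 : ℝ)) ≤ (p.n : ℝ) ^ (-(2 : ℝ)) / 2 := by
  have np := h.nm.np
  rw [h.e2, h.e3, div_div]
  exact one_div_le_one_div_of_le (by positivity) (by nlinarith [pow_pos np 2, h.nm.n2])

theorem n21 : (p.n : ℝ) ^ (-(2 : ℝ)) ≤ 1 / p.n := by
  have np := h.nm.np
  rw [h.e2]
  exact one_div_le_one_div_of_le np (by nlinarith [h.nm.n2])

theorem n30 : 0 < (p.n : ℝ) ^ (-(3 : ℝ)) := rpow_pos_of_pos h.nm.np _

/-- a label step with `d / (2 n) ≤ 3 v` is tiny -/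
theorem tiny {d : ℝ} (hd : 1 / p.n / 2 * d ≤ 3 * p.v) : d ≤ (p.n : ℝ) ^ (-(3 : ℝ)) / 100 := by
  have np := h.nm.np
  have e : 1 / (p.n : ℝ) ^ 4 = 1 / p.n * (1 / (p.n : ℝ) ^ 3) := by field_simp
  have a := h.v4
  rw [h.e3]
  refine le_of_mul_le_mul_left ?_ (one_div_pos.2 np)
  linarith [h.nm.v0]






theorem rA_ge {α a b : ℝ} (hα : 0 ≤ α) (ha : p.xs ≤ a) (hab : a ≤ b) (hb : b < 1) :
    1 / p.n / 2 * (b - a) ≤ rA g p α b - rA g p α a := by
  rw [rA_sub]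
  exact (h.sp_ge ha hab hb.le).trans
    (le_add_of_nonneg_left (mul_nonneg hα (sub_nonneg.2 (h.nm.clw.le ha hab hb))))

theorem exists_alOk {α : ℝ} (hα : 0 ≤ α) : ∃ P, p.AlOk g α P := by
  have hv := h.nm.v0
  have np := h.nm.np
  have u1 : p.xs ≤ 1 - (p.n : ℝ) ^ (-(2 : ℝ)) := by linarith [h.nm.x1, h.n21]
  obtain ⟨I, x, a, b, c, d, e⟩ := exists_grid (ρ := rA g p α) (κ := 1 / p.n / 2) hv
    (by positivity) u1 (by
      have e : 1 / (p.n : ℝ) ^ 4 = 1 / p.n * (1 / (p.n : ℝ) ^ 3) := by field_simp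
      have f := mul_le_mul_of_nonneg_left h.n32 (one_div_pos.2 np).le
      rw [h.e3] at f
      linarith [h.v4])
    ((continuousOn_const.mul h.nm.clw.cont).add (continuousOn_const.mul (cont_lsp p _)))
    fun a b ha hab hb => h.rA_ge hα ha hab hb
  have lt : x I < 1 := by linarith [h.n32, h.n30]
  refine ⟨⟨I, x, 0, 0, 0⟩, ⟨a, b, fun i hi => ?_, lt, e⟩, fun i hi => ?_, h.n32.trans d⟩
  · have := h.rA_ge hα (a.ge.trans (b.monotone (Nat.zero_le i))) (b.monotone (Nat.le_succ i))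
      ((b.monotone hi).trans_lt lt)
    rw [c i hi] at this
    exact (h.tiny (by linarith)).trans (by linarith [h.n32, h.n30])
  · have := c i hi
    rw [rA_sub] at this
    simp only [this]; constructor <;> linarith

/-- **the spread is slower than the static clock** on shells -/
theorem sp_le_rF {a b : ℝ} (ha : p.xs ≤ a) (hab : a ≤ b) (hb : b < 1)
    (hs : b - a ≤ min (a - p.xs + u0 p p.μe) (1 - b)) :
    2 * ((p.n : ℝ) ^ (-g) * (p.lsp ((p.n : ℝ) ^ (-g)) b - p.lsp ((p.n : ℝ) ^ (-g)) a)) ≤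
      p.rF p.μe b - p.rF p.μe a := by
  have N := h.nm
  obtain ⟨s1, s2⟩ := le_min_iff.1 hs
  have d := sub_nonneg.2 hab
  have e := mul_le_mul_of_nonneg_left (lsp_bd p ((p.n : ℝ) ^ (-g)) ha hab hb.le).2 h.γ0.le
  rw [h.l0_eq] at e
  have w1 := h.w_le
  have w0 : 0 < (p.n : ℝ) ^ (-g) / p.lL := div_pos h.γ0 p.lL_pos
  have e' : (p.n : ℝ) ^ (-g) * ((1 / (a - p.xs + 64 * ((p.n : ℝ) ^ (-g) / p.lL)) +
      1 / (1 - b + p.l1')) / p.lL * (b - a)) =
      (p.n : ℝ) ^ (-g) / p.lL / (a - p.xs + 64 * ((p.n : ℝ) ^ (-g) / p.lL)) * (b - a) +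
        (p.n : ℝ) ^ (-g) / p.lL / (1 - b + p.l1') * (b - a) := by ring
  rw [e'] at e
  set w := (p.n : ℝ) ^ (-g) / p.lL
  have lp := N.lp
  have pA : 0 < a - p.xs + u0 p p.μe := by linarith [N.u0p]
  have pB : 0 < b - p.xs + u0 p p.μe := by linarith
  have sB := sqrt_pos.2 pB
  have i := (Rs13.inv_sqrt_sub lp.le pA (u' := b - p.xs + u0 p p.μe) (by linarith)).1
  have r := N.rise_ge ha hab hb
  have e1 : p.la p.μe * (b - p.xs + u0 p p.μe - (a - p.xs + u0 p p.μe)) /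
      (2 * ((b - p.xs + u0 p p.μe) * √(b - p.xs + u0 p p.μe))) =
      db (p.la p.μe) (b - p.xs + u0 p p.μe) * (b - a) := by unfold db; ring
  rw [e1] at i
  have k1 : 4 * (w / (a - p.xs + 64 * w)) ≤ db (p.la p.μe) (b - p.xs + u0 p p.μe) := by
    unfold db
    rw [← mul_div_assoc, div_le_div_iff₀ (by linarith) (by positivity)]
    rcases le_total (b - p.xs + u0 p p.μe) (4 * u0 p p.μe) with c | c
    · have q : √(b - p.xs + u0 p p.μe) ≤ 2 * √(u0 p p.μe) := by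
        rw [sqrt_le_left (by positivity), mul_pow, sq_sqrt N.u0p.le]; linarith
      have su := sqrt_pos.2 N.u0p
      have f := N.fb_u0
      unfold fb at f
      rw [div_eq_iff su.ne'] at f
      have m := mul_le_mul c q sB.le (by linarith [N.u0p])
      nlinarith [mul_le_mul_of_nonneg_left m w0.le, mul_nonneg lp.le (sub_nonneg.2 ha)]
    · have q : √(b - p.xs + u0 p p.μe) ≤ 3 / 2 := by
        rw [sqrt_le_left (by norm_num)]; linarith [N.u0_le, N.x0]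
      have m := mul_le_mul_of_nonneg_left q pB.le
      have m2 : b - p.xs + u0 p p.μe ≤ 4 * (a - p.xs) := by linarith
      nlinarith [mul_le_mul_of_nonneg_left m w0.le, mul_le_mul_of_nonneg_right w1 pB.le,
        mul_le_mul_of_nonneg_left m2 lp.le, mul_pos lp w0]
  have k2 : 156 * (w / (1 - b + p.l1')) ≤ dn p p.μe a := by
    have u : 0 < 1 - a := by linarith
    have su := sqrt_pos.2 u
    have s1' : √(1 - a) ≤ 1 := sqrt_le_one.2 (by linarith [N.x0])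
    have t : p.la p.μe / (4 * (1 - a)) ≤ dt (p.Vc p.μe) (p.la p.μe) (1 - a) := by
      have Vp := N.Vp
      unfold dt
      rw [div_le_div_iff₀ (by positivity) (by positivity)]
      have : p.Vc p.μe * √(1 - a) + p.la p.μe ≤ 2 * p.Vc p.μe := by nlinarith [N.lV]
      nlinarith [mul_le_mul_of_nonneg_left this (mul_pos lp u).le]
    have t2 : 156 * (w / (1 - b + p.l1')) ≤ p.la p.μe / (4 * (1 - a)) := by
      rw [← mul_div_assoc, div_le_div_iff₀ (by linarith [p.l1'_pos]) (by positivity)]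
      have : 1 - a ≤ 2 * (1 - b + p.l1') := by linarith [p.l1'_pos]
      nlinarith [mul_le_mul_of_nonneg_left this w0.le,
        mul_le_mul_of_nonneg_right w1 (show 0 ≤ 1 - b + p.l1' by linarith [p.l1'_pos]),
        mul_pos w0 (show 0 < 1 - b + p.l1' by linarith [p.l1'_pos])]
    unfold dn
    rw [den_eq ha (hab.trans_lt hb)]
    linarith [db_pos lp pA, dt_nn one_pos N.sp.le u]
  have s := (N.clw.slope a b ha hab hb hs).1
  have j1 := mul_le_mul_of_nonneg_right k1 d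
  have j2 := mul_le_mul_of_nonneg_right k2 d
  unfold fb at r
  linarith

theorem alOk_of_plOk {P : Pl} (H : p.PlOk p.μe P) : p.AlOk g 1 P := by
  have k := fun i (hi : i < P.I) => h.sp_le_rF (x_ge h.nm H i) (H.xm.monotone (Nat.le_succ i))
    (x_lt h.nm H hi) (x_shell h.nm H hi)
  have k' := fun i (hi : i < P.I) => h.sp_ge (x_ge h.nm H i) (H.xm.monotone (Nat.le_succ i))
    (x_lt h.nm H hi).le
  refine ⟨⟨H.x0, H.xm, fun i hi => ?_, x_lt h.nm H le_rfl, H.e2⟩, fun i hi => ?_, H.e1⟩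
  · have b := H.st i hi
    rw [H.rs] at b
    exact (h.tiny (by linarith [k i hi, k' i hi, b.2, h.nm.v0])).trans (by linarith [h.n32, h.n30])
  · have b := H.st i hi
    rw [H.rs] at b
    have d := mul_nonneg h.γ0.le (sub_nonneg.2 (p.lsp_le ((p.n : ℝ) ^ (-g)) (x_ge h.nm H i)
      (H.xm.monotone (Nat.le_succ i)) (x_lt h.nm H hi).le))
    constructor <;> linarith [b.1, b.2, k i hi]

/-- the grid of the spread is the grid at `α = 0` -/
theorem alOk_of_spOk {P : Pl} (H : p.SpOk g P) : p.AlOk g 0 P := by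
  have lt : P.x P.I < 1 := by linarith [H.e1, h.n30]
  refine ⟨⟨H.x0, H.xm, fun i hi => ?_, lt, H.e2⟩, fun i hi => ?_, H.e1⟩
  · have a := (H.st i hi).2
    rw [H.g'] at a
    have b := h.sp_ge (H.x0.ge.trans (H.xm.monotone (Nat.zero_le i))) (H.xm.monotone (Nat.le_succ i))
      ((H.xm.monotone hi).trans lt.le)
    exact (h.tiny (b.trans a)).trans (by linarith [h.n32, h.n30])
  · have a := H.st i hi
    rw [H.g'] at a
    rwa [zero_mul, zero_add]

theorem fine_of_spOk {P : Pl} (H : p.SpOk g P) : p.Fine P := (h.alOk_of_spOk H).toFine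

theorem alEx (δ : ℝ) : AlEx g δ p :=
  ⟨fun _ H => h.alOk_of_plOk H, fun _ H => h.fine_of_spOk H, fun _ a _ => h.exists_alOk a.le⟩

/-! ### facts on every grid of stage C -/

section alok
variable {α : ℝ} {P : Pl} (hα : 0 ≤ α) (H : p.AlOk g α P)
include hα H













end alok

end Ne

theorem ne_of {β c0 C0 K η g : ℝ} {p : Pm} (h : Ctx β c0 C0 K η p) (hn : Nm p p.μe)
    (hK : 1000 * β ^ 2 ≤ p.n) (hA : 5 ≤ p.A) (g0 : 1 / 3 ≤ g) (g1 : g ≤ 1 / 2)
    (hc : log 256 ≤ p.c * log p.n) (hl : 8 * log (log p.n) ≤ log p.n) : Ne g p := by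
  have np := h.n_pos
  have Eμ : Eb p.μe _ := (Eb.one.mul h.Eκ).mul h.Eye.pow
  have Em : Eb (p.mu' p.μe) _ := Eμ.mul (h.Epow ((1 : ℝ) / 3))
  have El : Eb (p.la p.μe) _ := (h.Epow _).mul (Em.rpow.min Em.rpow)
  have E16 := Eb.log (show (0 : ℝ) < 256 by norm_num)
  have l2 := h.l2
  have c0 := h.cl_pos
  have c1 := h.cl_le
  have gg := mul_le_mul_of_nonneg_right g0 (show 0 ≤ log (p.n : ℝ) by linarith)
  have gg' := mul_le_mul_of_nonneg_right g1 (show 0 ≤ log (p.n : ℝ) by linarith)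
  refine ⟨hn, ?_, ?_, v4_of h hK hA⟩
  · rw [(E16.mul (h.Epow (-g))).le_iff El]
    push_cast
    rw [← sub_le_iff_le_add', le_min_iff]
    constructor <;> linarith
  · have ll := h.big.ll
    have n3 : (3 : ℝ) ≤ p.n := by
      have := log_le_sub_one_of_pos np
      linarith
    have a : p.lL ≤ 12 * log p.n := by
      have := log_le_log (by linarith) (show (p.n : ℝ) + 3 ≤ (p.n : ℝ) ^ 2 by nlinarith)
      rw [log_pow] at this
      unfold Pm.lL; push_cast at this; linarith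
    have b : (12 : ℝ) ≤ exp 3 := by
      have := exp_one_gt_d9
      rw [show (3 : ℝ) = 1 + 1 + 1 by norm_num, exp_add, exp_add]; nlinarith
    have d : p.lL ≤ exp 3 * log p.n := a.trans (mul_le_mul_of_nonneg_right b (by linarith))
    refine (div_le_div_of_nonneg_right d np.le).trans ?_
    have E3 : Eb (exp 3) 3 := rfl
    rw [((E3.mul h.El).div h.En).le_iff (h.Epow (-g))]
    linarith

/-- for `n` large: `Ne` -/
theorem fin_ne {β g : ℝ} (hβ : 1 < β) (g0 : 1 / 3 ≤ g) (g1 : g ≤ 1 / 2) (c0 C0 c : ℝ) (h0 : 0 < c0)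
    (h1 : 1 ≤ C0) (hc : 0 < c) : ∃ K : ℝ, ∀ p : Pm, p.c = c → 5 ≤ p.A → Ctx β c0 C0 K 1 p →
      Ne g p := by
  obtain ⟨K, c2, _, H⟩ := fin_nm hβ c0 C0 h0 h1
  refine ⟨max (max K 8) (max (1000 * β ^ 2) (log 256 / c)), fun p e hA h => ?_⟩
  have h' := h.mono ((le_max_left _ _).trans (le_max_left _ _)) le_rfl
  have h8 := (h.mono ((le_max_right _ _).trans (le_max_left _ _)) le_rfl).big.le'
  have k := h.big.le_rpow
  rw [rpow_one] at k
  have k2 := h.big.le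
  rw [one_mul] at k2 h8
  have k3 := (le_max_right _ _).trans ((le_max_right _ _).trans k2)
  rw [div_le_iff₀ hc] at k3
  refine ne_of h ((H p h').2 _ (h.μ0_le_μ h.mem_end) ((h.μ_le h.mem_end).trans ?_))
    ((le_max_left _ _).trans ((le_max_right _ _).trans k)) hA g0 g1 (by rw [e]; linarith) h8
  exact pow_le_of_le_one h.κ_pos.le h.κ_le_one (by norm_num)

end Crest.Agent.T156.Alt.Plt13

namespace Crest.Agent.T156.Alt

/-- **`AlEx`** -/
theorem alEx {β g : ℝ} (hβ : 1 < β) (g0 : 1 / 3 ≤ g) (g1 : g ≤ 1 / 2) : Gain β (AlEx g) :=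
  Gain.introF (Par.intro' 5 one_pos fun c0 C0 A c h0 h1 hA hc _ => by
    obtain ⟨K, H⟩ := Plt13.fin_ne hβ g0 g1 c0 C0 c h0 h1 hc
    exact ⟨1, one_pos, 1, one_pos, K, fun p a b h => (H p b (a ▸ hA) h).alEx _⟩)

end Crest.Agent.T156.Alt

end
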