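import Crest.Agent.T156.CaGf_90

/-!
# Row 156 (helper90): transport of the tree law

`tF w s L h F` is the expectation of a function of the paths and of the leaves.  It only depends on
the covariances (`tF_same`), up to constants for shift-invariant functions (`tF_sameC`); a level can
be split in two (`tF_dbl`).
-/

set_option autoImplicit false
set_option linter.unusedSectionVars false

noncomputable section

namespace Crest.Agent.T156.Cas

open MeasureTheory Real Set Filter Topology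
open Crest.Agent.T157.E Crest.Agent.T157.Casc Crest.Agent.T157.SL
open Crest.Agent.T157.Casc.C (Same addLv)

variable {Ω : Type} [Fintype Ω] {w : Ω → ℝ}

/-- expectation of a function of the paths and of the leaves -/
def tF (w : Ω → ℝ) (s : Sh) (L : List (Lv Ω)) (h : Ω → ℝ)
    (F : Pa s.Lf Ω → (s.Lf → Ω) → ℝ) : ℝ := tX w s L h fun g x => F (stT s L h g) x




namespace Tp

/-! ### growth of parametrised expectations -/

theorem eg_par {κ ι : Type} [Fintype κ] [Fintype ι] {G : (κ ⊕ ι → ℝ) → ℝ} (hG : Eg G) :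
    Eg fun z : κ → ℝ => ∫ g, G (Sum.elim z g) ∂gv ι := by
  classical
  exact eg_of_EG (T157.Casc.eg_int (hG.toEG univ)) (mem_univ 0)

theorem eg_tX (hw : Wt w) (s : Sh) (L : List (Lv Ω)) {κ : Type} [Fintype κ]
    {H : (κ → ℝ) → Ω → ℝ} (hH : ∀ y, Lg fun z => H z y)
    {F : (κ → ℝ) → (NT s L → ℝ) → (s.Lf → Ω) → ℝ}
    (hF : ∀ x, Eg fun q : κ ⊕ NT s L → ℝ => F (fun i => q (.inl i)) (fun i => q (.inr i)) x) :
    Eg fun z => tX w s L (H z) (F z) := by
  have hH' : ∀ y, Lg fun q : κ ⊕ NT s L → ℝ => H (fun i => q (.inl i)) y := fun y =>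
    Tr.lg_comp (hH y) fun i => Tr.lg_coord _
  have h1 : Eg fun q : κ ⊕ NT s L → ℝ => ∑ x, denT w s L (H fun i => q (.inl i))
      (fun i => q (.inr i)) x * F (fun i => q (.inl i)) (fun i => q (.inr i)) x :=
    Eg.sum _ fun x _ => Eg.mul (Eg.const_mul _ (by
      have := (Tr.lg_sub (Tr.lg_neg (Tr.lg_UT hw s L x hH' fun i => Tr.lg_coord (Sum.inr i)))
        (Tr.lg_cmul (s.br * ex L 0) (Tr.lg_comp (lg_X hw L) hH'))).exp 1
      simpa only [one_mul] using this)) (hF x)
  exact eg_par h1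

/-- as a function of the initial state -/
theorem eg_tF (hw : Wt w) (s : Sh) (L : List (Lv Ω)) {F : Pa s.Lf Ω → (s.Lf → Ω) → ℝ}
    (hF : ∀ x, EgP fun p => F p x) : Eg fun z => tF w s L z F :=
  eg_tX hw s L (H := fun z => z) (fun y => Tr.lg_coord y) (F := fun z g => F (stT s L z g))
    fun x => hF x _ _ fun a j => Tr.lg_stT s L a j (fun y => Tr.lg_coord (Sum.inl y))
      fun i => Tr.lg_coord (Sum.inr i)

/-- as a function of the paths of another tree -/
theorem egP_tF (hw : Wt w) (t : Sh) (L : List (Lv Ω)) (h : Ω → ℝ) {κ : Type}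
    {F : Pa (κ ⊕ t.Lf) Ω → (t.Lf → Ω) → ℝ} (hF : ∀ y, EgP fun p => F p y) :
    EgP fun p : Pa κ Ω => tF w t L h fun q => F (Sum.elim p q) := fun ι _ p hp =>
  eg_tX hw t L (H := fun _ => h) (fun _ => Tr.lg_const _)
    (F := fun z g => F (Sum.elim (p z) (stT t L h g))) fun y => hF y _ _ fun a j u => by
      cases a with
      | inl a => exact Tr.lg_comp (hp a j u) fun i => Tr.lg_coord (Sum.inl i)
      | inr a =>
        exact Tr.lg_stT t L a j (H := fun _ => h) (fun _ => Tr.lg_const _)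
          (fun i => Tr.lg_coord (Sum.inr i)) u

/-! ### recursion -/

theorem tF_step_nil (w : Ω → ℝ) (s : Sh) (h : Ω → ℝ) (F : Pa s.Lf Ω → (s.Lf → Ω) → ℝ) :
    tF w (.step s) [] h F = tF w s [] h F := Tr.tX_step_nil w s h _

theorem tF_step_cons (hw : Wt w) (s : Sh) (l : Lv Ω) (L : List (Lv Ω)) (h : Ω → ℝ)
    {F : Pa s.Lf Ω → (s.Lf → Ω) → ℝ} (hF : ∀ x, EgP fun p => F p x) :
    tF w (.step s) (l :: L) h F =
      tE l (X w L) (fun z => tF w s L z fun p => F fun b => Gf.cons h (p b)) h := by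
  refine (Tr.tX_step_cons hw s l L h _ fun x => (hF x).stT (s := .step s) _ h).trans ?_
  rw [tE]
  congr 2
  funext g
  congr 2
  funext g' x
  congr 1
  funext b
  exact Gf.stT_step s l L h g g' b

theorem tF_one_cons (w : Ω → ℝ) (l : Lv Ω) (L : List (Lv Ω)) (h : Ω → ℝ)
    (F : Pa Unit Ω → (Unit → Ω) → ℝ) :
    tF w .one (l :: L) h F = tF w (.step .one) (l :: L) h F := by
  refine (Gf.tX_one_cons w l L h _).trans ?_
  have : ∀ g, stT .one (l :: L) h g = stT (.step .one) (l :: L) h g := fun g => by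
    funext a k; cases k <;> rfl
  simp only [this]
  rfl

theorem tF_split (hw : Wt w) (s t : Sh) (L : List (Lv Ω)) (h : Ω → ℝ)
    {F : Pa (s.Lf ⊕ t.Lf) Ω → (s.Lf ⊕ t.Lf → Ω) → ℝ} (hF : ∀ x, EgP fun p => F p x) :
    tF w (.split s t) L h F =
      tF w s L h fun p x => tF w t L h fun q y => F (Sum.elim p q) (Sum.elim x y) := by
  refine (Tr.tX_split hw s t L h _ fun x => (hF x).stT (s := .split s t) _ h).trans ?_
  simp only [Gf.stT_split]
  rfl

/-! ### equal covariances -/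



end Tp




/-! ### covariances equal up to constants -/

/-- the same tilt, covariances that differ by the constant `c` -/
def SameC (c : ℝ) (l l' : Lv Ω) : Prop := l.m = l'.m ∧ ∀ x y, l.cov x y = l'.cov x y + c

/-- functions that do not see constants added to the states -/
def ShI {κ : Type} (F : Pa κ Ω → (κ → Ω) → ℝ) : Prop :=
  ∀ (p : Pa κ Ω) (c : κ → ℕ → ℝ), F (fun a j y => p a j y + c a j) = F p

/-- the level of variance `c` that does not depend on the configuration -/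
abbrev cLv (Ω : Type) (c m : ℝ) : Lv Ω := ⟨Unit, fun _ _ => √c, m⟩

namespace Tp

omit [Fintype Ω] in
theorem cov_cLv {c : ℝ} (hc : 0 ≤ c) (m : ℝ) (x y : Ω) : (cLv Ω c m).cov x y = c := by
  simp [Lv.cov, mul_self_sqrt hc]

theorem tE_shift (l : Lv Ω) (F Φ : (Ω → ℝ) → ℝ) (c : ℝ) :
    tE l (fun z => F z + c) Φ = tE l F Φ := by
  funext h
  simp only [tE, mul_add, exp_add, mul_right_comm _ (exp (l.m * c)), integral_mul_const]
  exact mul_div_mul_right _ _ (exp_pos _).ne'

theorem step_shift (l : Lv Ω) {F : (Ω → ℝ) → ℝ} (hF : C.Lp F) (c : ℝ) (h : Ω → ℝ) :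
    step l (fun z => F z + c) h = step l F h + c := by
  have := (C.Same.rel (l := l) (l' := l) ⟨rfl, rfl⟩).step (F := fun z => F z + c) (c := c)
    one_ne_zero (hF.meas.add_const c) hF (fun _ => by rw [one_mul]) h
  rwa [one_mul] at this

theorem same_add {c : ℝ} (hc : 0 ≤ c) {l l' : Lv Ω} (H : SameC c l l') :
    Same l (addLv l' (cLv Ω c l'.m)) :=
  ⟨H.1, by funext x y; rw [C.addLv_cov, cov_cLv hc, H.2]⟩

theorem step_cLv (hw : Wt w) (L : List (Lv Ω)) {c : ℝ} (hc : 0 ≤ c) (m : ℝ) :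
    step (cLv Ω c m) (X w L) = fun z => X w L z + m * c / 2 := by
  funext z
  rw [C.step_of_const (l := cLv Ω c m) (a := fun _ => √c) (fun _ => rfl) (C.X_add_const hw L)]
  simp [mul_self_sqrt hc]

theorem step_sameC₀ (hw : Wt w) {c : ℝ} (hc : 0 ≤ c) {l l' : Lv Ω} (H : SameC c l l')
    (L : List (Lv Ω)) (h : Ω → ℝ) : X w (l :: L) h = X w (l' :: L) h + l.m * c / 2 := by
  rw [C.X_cons, (same_add hc H).step (C.lp_X hw L),
    C.step_addLv (l := l') (l' := cLv Ω c l'.m) rfl (C.lp_X hw L), step_cLv hw L hc,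
    step_shift l' (C.lp_X hw L), H.1]
  rfl

theorem tE_sameC₀ (hw : Wt w) {c : ℝ} (hc : 0 ≤ c) {l l' : Lv Ω} (H : SameC c l l')
    (L : List (Lv Ω)) {Φ : (Ω → ℝ) → ℝ} (hΦ : Eg Φ) (hs : ∀ z a, Φ (z + fun _ => a) = Φ z)
    (h : Ω → ℝ) : tE l (X w L) Φ h = tE l' (X w L) Φ h := by
  rw [(same_add hc H).tE (C.lp_X hw L).meas hΦ.cont.measurable,
    C.tE_addLv (l := l') (l' := cLv Ω c l'.m) rfl (C.lp_X hw L) h
      ((lg_X hw L).int hΦ (addLv l' (cLv Ω c l'.m)) h), step_cLv hw L hc, tE_shift]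
  congr 1
  funext z
  have e : ∀ g, Φ (z + (cLv Ω c l'.m).fld g) = Φ z := fun g => hs z (∑ i, √c * g i)
  simp only [tE, e, integral_mul_const]
  exact mul_div_cancel_left₀ _ ((C.lp_X hw L).pos (cLv Ω c l'.m) l'.m z).ne'

omit [Fintype Ω] in
theorem SameC.symm {c : ℝ} {l l' : Lv Ω} (H : SameC c l l') : SameC (-c) l' l :=
  ⟨H.1.symm, fun x y => by rw [H.2]; ring⟩

theorem step_sameC (hw : Wt w) {c : ℝ} {l l' : Lv Ω} (H : SameC c l l')
    (L : List (Lv Ω)) (h : Ω → ℝ) : X w (l :: L) h = X w (l' :: L) h + l.m * c / 2 := by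
  rcases le_total 0 c with hc | hc
  · exact step_sameC₀ hw hc H L h
  · rw [step_sameC₀ hw (neg_nonneg.2 hc) (SameC.symm H) L h, H.1]
    ring

theorem tE_sameC (hw : Wt w) {c : ℝ} {l l' : Lv Ω} (H : SameC c l l')
    (L : List (Lv Ω)) {Φ : (Ω → ℝ) → ℝ} (hΦ : Eg Φ) (hs : ∀ z a, Φ (z + fun _ => a) = Φ z)
    (h : Ω → ℝ) : tE l (X w L) Φ h = tE l' (X w L) Φ h := by
  rcases le_total 0 c with hc | hc
  · exact tE_sameC₀ hw hc H L hΦ hs h
  · exact (tE_sameC₀ hw (neg_nonneg.2 hc) (SameC.symm H) L hΦ hs h).symm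

/-- a constant added to the initial state -/
theorem tF_shift (hw : Wt w) (s : Sh) (L : List (Lv Ω)) (h : Ω → ℝ) (a : ℝ)
    {F : Pa s.Lf Ω → (s.Lf → Ω) → ℝ} (hF : ShI F) :
    tF w s L (h + fun _ => a) F = tF w s L h F := by
  refine integral_congr_ae (.of_forall fun g => Finset.sum_congr rfl fun x _ => ?_)
  have e : stT s L (h + fun _ => a) g = fun b j y => stT s L h g b j y + a := by
    funext b j y
    simp only [Sd.stT_apply s L _ g, Pi.add_apply]
    ring
  have e2 : ∀ b j, stT s L (h + fun _ => a) g b j = stT s L h g b j + fun _ => a := fun b j => by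
    rw [e]; rfl
  show denT w s L _ g x * F _ x = denT w s L h g x * F _ x
  rw [e, hF _ fun _ _ => a]
  congr 1
  simp only [denT, UT_eq, UP, e2, C.X_add_const hw, Pi.add_apply, mul_add, Finset.sum_add_distrib,
    ← Finset.sum_mul, sum_cf, Finset.sum_const, Finset.card_univ, nsmul_eq_mul]
  congr 2
  ring

omit [Fintype Ω] in
theorem shI_cons {κ : Type} {F : Pa κ Ω → (κ → Ω) → ℝ} (hF : ShI F) (h : Ω → ℝ) :
    ShI fun p : Pa κ Ω => F fun b => Gf.cons h (p b) := fun p c => by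
  refine Eq.trans ?_ (hF _ fun a j => Nat.casesOn j 0 (c a))
  show F _ = F _
  congr 1
  funext a j y
  cases j with
  | zero => exact (add_zero _).symm
  | succ j => rfl

omit [Fintype Ω] in
theorem shI_inr {κ κ' : Type} {F : Pa (κ ⊕ κ') Ω → (κ ⊕ κ' → Ω) → ℝ} (hF : ShI F) (p : Pa κ Ω)
    (x : κ → Ω) : ShI fun (q : Pa κ' Ω) y => F (Sum.elim p q) (Sum.elim x y) := fun q c => by
  funext y
  refine Eq.trans ?_ (congrFun (hF _ (Sum.elim 0 c)) _)
  show F _ _ = F _ _
  congr 1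
  funext a j u
  cases a with
  | inl a => exact (add_zero _).symm
  | inr a => rfl

omit [Fintype Ω] in
theorem shI_inl {κ κ' : Type} {F : Pa (κ ⊕ κ') Ω → (κ ⊕ κ' → Ω) → ℝ} (hF : ShI F) (p : Pa κ Ω)
    (c : κ → ℕ → ℝ) (q : Pa κ' Ω) :
    F (Sum.elim (fun a j y => p a j y + c a j) q) = F (Sum.elim p q) := by
  refine Eq.trans ?_ (hF _ (Sum.elim c 0))
  congr 1
  funext a j u
  cases a with
  | inl a => rfl
  | inr a => exact (add_zero _).symm

end Tp

/-- lists of levels whose covariances agree up to constants; `k = ∑ m_j c_j / 2` -/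
inductive SameL : List (Lv Ω) → List (Lv Ω) → ℝ → Prop
  | nil : SameL [] [] 0
  | cons {l l' : Lv Ω} {L L' : List (Lv Ω)} {c k : ℝ} : SameC c l l' → SameL L L' k →
      SameL (l :: L) (l' :: L') (l.m * c / 2 + k)

theorem SameL.map {α : Type} (f f' : α → Lv Ω) (c : α → ℝ) : ∀ M : List α,
    (∀ a ∈ M, SameC (c a) (f a) (f' a)) →
    SameL (M.map f) (M.map f') (M.map fun a => (f a).m * c a / 2).sum
  | [], _ => .nil
  | a :: M, H => .cons (H a (by simp)) (SameL.map f f' c M fun b hb => H b (by simp [hb]))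

/-- **the value moves by a constant** -/
theorem X_sameC (hw : Wt w) {L L' : List (Lv Ω)} {k : ℝ} (H : SameL L L' k) :
    X w L = fun h => X w L' h + k := by
  induction H with
  | nil => simp
  | @cons l l' L L' c k h1 _ ih =>
    funext h
    rw [C.X_cons, ih, Tp.step_shift l (C.lp_X hw _), ← C.X_cons, Tp.step_sameC hw h1]
    ring

namespace Tp

theorem sameC_step (hw : Wt w) {s : Sh} {l l' : Lv Ω} {L L' : List (Lv Ω)} {c k : ℝ}
    (H : SameC c l l') (HL : SameL L L' k)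
    (ih : ∀ h F, (∀ x, EgP fun p => F p x) → ShI F → tF w s L h F = tF w s L' h F)
    (h : Ω → ℝ) (F : Pa s.Lf Ω → (s.Lf → Ω) → ℝ) (hF : ∀ x, EgP fun p => F p x) (hI : ShI F) :
    tF w (.step s) (l :: L) h F = tF w (.step s) (l' :: L') h F := by
  rw [tF_step_cons hw s l L h hF, tF_step_cons hw s l' L' h hF, X_sameC hw HL, tE_shift]
  simp only [fun z => ih z _ (fun x => Gf.egP_cons (hF x) h) (shI_cons hI h)]
  exact tE_sameC hw H L' (eg_tF hw s L' fun x => Gf.egP_cons (hF x) h)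
    (fun z a => tF_shift hw s L' z a (shI_cons hI h)) h

theorem sameC_one (hw : Wt w) {L L' : List (Lv Ω)} {k : ℝ} (H : SameL L L' k) :
    ∀ h F, (∀ x, EgP fun p => F p x) → ShI F → tF w .one L h F = tF w .one L' h F := by
  induction H with
  | nil => exact fun _ _ _ _ => rfl
  | cons h1 h2 ih =>
    intro h F hF hI
    rw [tF_one_cons, tF_one_cons]
    exact sameC_step hw h1 h2 ih h F hF hI

end Tp

/-- **constants in the covariances are not seen by shift-invariant functions** -/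
theorem tF_sameC (hw : Wt w) : ∀ (s : Sh) {L L' : List (Lv Ω)} {k : ℝ}, SameL L L' k →
    ∀ h F, (∀ x, EgP fun p => F p x) → ShI F → tF w s L h F = tF w s L' h F
  | .one, _, _, _, H => Tp.sameC_one hw H
  | .step _, _, _, _, .nil => fun _ _ _ _ => rfl
  | .step s, _, _, _, .cons h1 h2 => Tp.sameC_step hw h1 h2 (tF_sameC hw s h2)
  | .split s t, L, L', _, H => fun h F hF hI => by
      rw [Tp.tF_split hw s t L h hF, Tp.tF_split hw s t L' h hF]
      simp only [fun p x => tF_sameC hw t H h (fun q y => F (Sum.elim p q) (Sum.elim x y))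
        (fun y => Gf.egP_inr (hF _) p) (Tp.shI_inr hI p x)]
      refine tF_sameC hw s H h _ (fun x =>
        Tp.egP_tF hw t L' h (F := fun p y => F p (Sum.elim x y)) fun y => hF _) fun p c => ?_
      simp only [Tp.shI_inl hI]


/-! ### splitting a level -/

/-- the shape with the step at depth `k` doubled -/
def Sh.dbl : Sh → ℕ → Sh
  | .one, _ => .one
  | .step s, 0 => .step (.step s)
  | .step s, k + 1 => .step (s.dbl k)
  | .split s t, k => .split (s.dbl k) (t.dbl k)

/-- its leaves -/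
def Sh.dE : (s : Sh) → (k : ℕ) → s.Lf ≃ (s.dbl k).Lf
  | .one, _ => .refl _
  | .step _, 0 => .refl _
  | .step s, k + 1 => s.dE k
  | .split s t, k => .sumCongr (s.dE k) (t.dE k)

/-- the depths: `j` for `j ≤ k`, `j + 1` for `j > k` -/
def skp : ℕ → ℕ → ℕ
  | _, 0 => 0
  | 0, j + 1 => j + 2
  | k + 1, j + 1 => skp k j + 1


namespace Tp

theorem egP_re {κ κ' : Type} {Φ : Pa κ Ω → ℝ} (hΦ : EgP Φ) (e : κ → κ') (σ : ℕ → ℕ) :
    EgP fun p : Pa κ' Ω => Φ fun b j => p (e b) (σ j) :=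
  hΦ.comp fun _ _ _ hp a j y => hp (e a) (σ j) y

/-- the statement for two shapes and two lists -/
def Dbl (w : Ω → ℝ) (s s' : Sh) (e : s.Lf → s'.Lf) (k : ℕ) (L L' : List (Lv Ω)) : Prop :=
  ∀ h F, (∀ x, EgP fun p => F p x) → tF w s L h F =
    tF w s' L' h fun p x => F (fun b j => p (e b) (skp k j)) fun b => x (e b)





end Tp


end Crest.Agent.T156.Cas

end
private theorem rz_5336066192 : type_of% @_root_.Crest.Agent.T156.Cas.skp.eq_def := @_root_.Crest.Agent.T156.Cas.skp.eq_def -- L377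
private theorem rz_e38c75a257 : type_of% @_root_.Crest.Agent.T156.Cas.skp.eq_1 := @_root_.Crest.Agent.T156.Cas.skp.eq_1 -- L377
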