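import Crest.Agent.T156.CasDef_88

/-!
# Row 156: the tree law (helper32)

`trStmt : TrStmt`, and general tools: closure of `Lg`/`Eg` under substitution (`lg_comp`, `eg_comp`),
Fubini on `gv (ι ⊕ κ)` (`int_sum`), joint growth of `st`, `U`, `stT`, `UT` in (state, noise).
-/

set_option autoImplicit false
set_option linter.unusedSectionVars false

noncomputable section

namespace Crest.Agent.T156.Cas

open MeasureTheory Real Set Filter Topology
open Crest.Agent.T157.E Crest.Agent.T157.Casc Crest.Agent.T157.SL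
open Crest.Agent.R339.Guerra (mp_int mp_sum)

namespace Tr

section tools
variable {κ ι ι' : Type*} [Fintype κ] [Fintype ι] [Fintype ι'] {F G : (κ → ℝ) → ℝ}

theorem lg_bd (h : Lg F) : ∃ C c : ℝ, 0 ≤ C ∧ 0 ≤ c ∧ ∀ z, |F z| ≤ C + c * ‖z‖ := by
  obtain ⟨C, c, h1, h2, h3⟩ := h.bd
  exact ⟨C, c, h1, h2, fun z => h3 (0, z) trivial⟩

theorem lg_const (c : ℝ) : Lg fun _ : κ → ℝ => c :=
  Lg.of continuous_const |c| 0 fun _ => by simp

theorem lg_coord (i : κ) : Lg fun z : κ → ℝ => z i :=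
  Lg.of (continuous_apply i) 0 1 fun z => by simpa using norm_le_pi_norm z i

theorem lg_add (h : Lg F) (h' : Lg G) : Lg fun z => F z + G z := by
  obtain ⟨C, c, -, -, h3⟩ := lg_bd h
  obtain ⟨C', c', -, -, h3'⟩ := lg_bd h'
  refine Lg.of (h.eg.cont.add h'.eg.cont) (C + C') (c + c') fun z => (abs_add_le _ _).trans ?_
  linarith [h3 z, h3' z]

theorem lg_cmul (a : ℝ) (h : Lg F) : Lg fun z => a * F z := by
  obtain ⟨C, c, -, -, h3⟩ := lg_bd h
  refine Lg.of (continuous_const.mul h.eg.cont) (|a| * C) (|a| * c) fun z => ?_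
  rw [abs_mul, mul_assoc, ← mul_add]
  exact mul_le_mul_of_nonneg_left (h3 z) (abs_nonneg a)

theorem lg_neg (h : Lg F) : Lg fun z => -F z := by simpa using lg_cmul (-1) h

theorem lg_sub (h : Lg F) (h' : Lg G) : Lg fun z => F z - G z := by
  simpa [sub_eq_add_neg] using lg_add h (lg_neg h')

theorem lg_sum {α : Type*} (s : Finset α) {F : α → (κ → ℝ) → ℝ} (h : ∀ a ∈ s, Lg (F a)) :
    Lg fun z => ∑ a ∈ s, F a z := by
  classical
  induction s using Finset.induction_on with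
  | empty => simpa using lg_const 0
  | insert a s ha ih =>
    simp only [Finset.sum_insert ha]
    exact lg_add (h a (by simp)) (ih fun b hb => h b (by simp [hb]))

theorem norm_le_of_lg {φ : (κ → ℝ) → ι → ℝ} (h : ∀ i, Lg fun p => φ p i) :
    Continuous φ ∧ ∃ a b : ℝ, 0 ≤ a ∧ 0 ≤ b ∧ ∀ p, ‖φ p‖ ≤ a + b * ‖p‖ := by
  refine ⟨continuous_pi fun i => (h i).eg.cont, ?_⟩
  choose C c h1 h2 h3 using fun i => lg_bd (h i)
  have hC : 0 ≤ ∑ i, C i := Finset.sum_nonneg fun i _ => h1 i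
  have hc : 0 ≤ ∑ i, c i := Finset.sum_nonneg fun i _ => h2 i
  refine ⟨∑ i, C i, ∑ i, c i, hC, hc, fun p => ?_⟩
  refine (pi_norm_le_iff_of_nonneg (by positivity)).2 fun i => (h3 i p).trans ?_
  gcongr
  · exact Finset.single_le_sum (fun i _ => h1 i) (Finset.mem_univ i)
  · exact Finset.single_le_sum (fun i _ => h2 i) (Finset.mem_univ i)

theorem lg_comp {F : (ι → ℝ) → ℝ} (hF : Lg F) {φ : (κ → ℝ) → ι → ℝ} (h : ∀ i, Lg fun p => φ p i) :
    Lg fun p => F (φ p) := by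
  obtain ⟨hc, a, b, -, -, h3⟩ := norm_le_of_lg h
  obtain ⟨C, c, -, h2, h4⟩ := lg_bd hF
  refine Lg.of (hF.eg.cont.comp hc) (C + c * a) (c * b) fun p => (h4 _).trans ?_
  have := mul_le_mul_of_nonneg_left (h3 p) h2
  linarith

theorem eg_comp {F : (ι → ℝ) → ℝ} (hF : Eg F) {φ : (κ → ℝ) → ι → ℝ} (h : ∀ i, Lg fun p => φ p i) :
    Eg fun p => F (φ p) := by
  obtain ⟨hc, a, b, -, hb, h3⟩ := norm_le_of_lg h
  obtain ⟨C, c, h1, h2, h4⟩ := hF.bd
  refine ⟨hF.cont.comp hc, C * exp (c * a), c * b, by positivity, by positivity,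
    fun p => (h4 _).trans ?_⟩
  rw [mul_assoc C, ← exp_add]
  have := mul_le_mul_of_nonneg_left (h3 p) h2
  gcongr
  linarith

theorem eg_int (h : Eg F) : Integrable F (gv κ) := by
  classical
  obtain ⟨C, c, -, -, h3⟩ := h.bd
  exact ((int_exp c).const_mul C).mono' h.cont.aestronglyMeasurable (.of_forall h3)

theorem lg_elim_right (g : ι → ℝ) (k : ι ⊕ ι') : Lg fun g' : ι' → ℝ => Sum.elim g g' k := by
  cases k with
  | inl i => exact lg_const (g i)
  | inr i => exact lg_coord i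

theorem lg_elim_left (g' : ι' → ℝ) (k : ι ⊕ ι') : Lg fun g : ι → ℝ => Sum.elim g g' k := by
  cases k with
  | inl i => exact lg_coord i
  | inr i => exact lg_const (g' i)

/-- Fubini on a sum of index types -/
theorem int_sum {f : (ι ⊕ ι' → ℝ) → ℝ} (hf : Integrable f (gv (ι ⊕ ι'))) :
    ∫ G, f G ∂gv (ι ⊕ ι') = ∫ g, ∫ g', f (Sum.elim g g') ∂gv ι' ∂gv ι := by
  classical
  have h1 := mp_sum (ι := ι) (κ := ι')
  exact (mp_int h1 hf.aestronglyMeasurable).symm.trans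
    (integral_prod _ (h1.integrable_comp_of_integrable hf))

theorem lg_exp_pos (h : Lg F) : 0 < ∫ g, exp (-F g) ∂gv κ :=
  integral_exp_pos (eg_int (by simpa using h.exp (-1)))

end tools

variable {Ω : Type} [Fintype Ω] {w : Ω → ℝ} {κ : Type*} [Fintype κ]

theorem lg_fld (l : Lv Ω) {H : (κ → ℝ) → Ω → ℝ} {G : (κ → ℝ) → l.ι → ℝ}
    (hH : ∀ y, Lg fun p => H p y) (hG : ∀ i, Lg fun p => G p i) (y : Ω) :
    Lg fun p => (H p + l.fld (G p)) y :=
  lg_add (hH y) (lg_sum Finset.univ fun i _ => lg_cmul (l.A y i) (hG i))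

theorem lg_st : ∀ (L : List (Lv Ω)) (j : ℕ) {H : (κ → ℝ) → Ω → ℝ} {G : (κ → ℝ) → NI L → ℝ},
    (∀ y, Lg fun p => H p y) → (∀ i, Lg fun p => G p i) → ∀ y, Lg fun p => st L j (H p) (G p) y
  | [], 0, _, _, hH, _, y => hH y
  | _ :: _, 0, _, _, hH, _, y => hH y
  | [], _ + 1, _, _, hH, _, y => hH y
  | l :: L, j + 1, _, _, hH, hG, y =>
      lg_st L j (lg_fld l hH fun i => hG (.inl i)) (fun i => hG (.inr i)) y

theorem lg_U (hw : Wt w) (L : List (Lv Ω)) (x : Ω) {H : (κ → ℝ) → Ω → ℝ}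
    {G : (κ → ℝ) → NI L → ℝ} (hH : ∀ y, Lg fun p => H p y) (hG : ∀ i, Lg fun p => G p i) :
    Lg fun p => U w L (H p) x (G p) :=
  lg_sub (lg_sum _ fun j _ => lg_cmul _ (lg_comp (lg_X hw _) (lg_st L (j + 1) hH hG)))
    (lg_st L _ hH hG x)

theorem lg_UT (hw : Wt w) : ∀ (s : Sh) (L : List (Lv Ω)) (x : s.Lf → Ω) {H : (κ → ℝ) → Ω → ℝ}
    {G : (κ → ℝ) → NT s L → ℝ}, (∀ y, Lg fun p => H p y) → (∀ i, Lg fun p => G p i) →
    Lg fun p => UT w s L (H p) x (G p)
  | .one, L, x, _, _, hH, hG => lg_U hw L (x ()) hH hG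
  | .step s, [], x, _, _, hH, hG =>
      lg_add (lg_UT hw s [] x hH hG) (lg_cmul _ (lg_comp (lg_X hw []) hH))
  | .step s, l :: L, x, _, _, hH, hG =>
      lg_add (lg_UT hw s L x (lg_fld l hH fun i => hG (.inl i)) fun i => hG (.inr i))
        (lg_cmul _ (lg_comp (lg_X hw L) (lg_fld l hH fun i => hG (.inl i))))
  | .split s t, L, x, _, _, hH, hG =>
      lg_add (lg_UT hw s L (fun a => x (.inl a)) hH fun i => hG (.inl i))
        (lg_UT hw t L (fun a => x (.inr a)) hH fun i => hG (.inr i))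

theorem lg_stT : ∀ (s : Sh) (L : List (Lv Ω)) (a : s.Lf) (j : ℕ) {H : (κ → ℝ) → Ω → ℝ}
    {G : (κ → ℝ) → NT s L → ℝ}, (∀ y, Lg fun p => H p y) → (∀ i, Lg fun p => G p i) →
    ∀ y, Lg fun p => stT s L (H p) (G p) a j y
  | .one, L, _, j, _, _, hH, hG, y => lg_st L j hH hG y
  | .step s, [], a, j, _, _, hH, hG, y => lg_stT s [] a j hH hG y
  | .step _, _ :: _, _, 0, _, _, hH, _, y => hH y
  | .step s, l :: L, a, j + 1, _, _, hH, hG, y =>
      lg_stT s L a j (lg_fld l hH fun i => hG (.inl i)) (fun i => hG (.inr i)) y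
  | .split s _, L, .inl a, j, _, _, hH, hG, y => lg_stT s L a j hH (fun i => hG (.inl i)) y
  | .split _ t, L, .inr a, j, _, _, hH, hG, y => lg_stT t L a j hH (fun i => hG (.inr i)) y

theorem lg_UT' (hw : Wt w) (s : Sh) (L : List (Lv Ω)) (h : Ω → ℝ) (x : s.Lf → Ω) :
    Lg (UT w s L h x) :=
  lg_UT hw s L x (H := fun _ => h) (G := fun g => g) (fun _ => lg_const _) fun i => lg_coord i

theorem denT_eq (w : Ω → ℝ) (s : Sh) (L : List (Lv Ω)) (h : Ω → ℝ) (g : NT s L → ℝ)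
    (x : s.Lf → Ω) : denT w s L h g x =
      ((∏ a, w (x a)) * exp (-(s.br * ex L 0 * X w L h))) * exp (-UT w s L h x g) := by
  rw [denT, sub_eq_add_neg, exp_add]; ring

theorem eg_denT (hw : Wt w) (s : Sh) (L : List (Lv Ω)) (h : Ω → ℝ) (x : s.Lf → Ω) :
    Eg fun g => denT w s L h g x := by
  simp only [denT_eq]
  exact Eg.const_mul _ (by simpa using (lg_UT' hw s L h x).exp (-1))

theorem denT_nonneg (hw : Wt w) (s : Sh) (L : List (Lv Ω)) (h : Ω → ℝ) (g : NT s L → ℝ)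
    (x : s.Lf → Ω) : 0 ≤ denT w s L h g x :=
  mul_nonneg (Finset.prod_nonneg fun _ _ => hw.nn _) (exp_pos _).le

theorem eg_sumT (hw : Wt w) (s : Sh) (L : List (Lv Ω)) (h : Ω → ℝ)
    {F : (NT s L → ℝ) → (s.Lf → Ω) → ℝ} (hF : ∀ x, Eg fun g => F g x) :
    Eg fun g => ∑ x, denT w s L h g x * F g x :=
  Eg.sum _ fun x _ => (eg_denT hw s L h x).mul (hF x)

theorem tX_eq (hw : Wt w) (s : Sh) (L : List (Lv Ω)) (h : Ω → ℝ)
    (F : (NT s L → ℝ) → (s.Lf → Ω) → ℝ) (hF : ∀ x, Eg fun g => F g x) :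
    tX w s L h F = ∑ x, PT w s L h x * lE (UT w s L h x) fun g => F g x := by
  rw [tX, integral_finsetSum _ fun x _ => eg_int ((eg_denT hw s L h x).mul (hF x))]
  refine Finset.sum_congr rfl fun x _ => ?_
  simp only [PT, lE, denT_eq, mul_assoc, integral_const_mul]
  rw [mul_div_cancel₀ _ (lg_exp_pos (lg_UT' hw s L h x)).ne']

theorem tX_one (w : Ω → ℝ) (L : List (Lv Ω)) (h : Ω → ℝ) (F : (NI L → ℝ) → (Unit → Ω) → ℝ) :
    tX w .one L h F = pE w L h fun g x => F g fun _ => x := by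
  refine integral_congr_ae (.of_forall fun g => ?_)
  refine Fintype.sum_equiv (Equiv.funUnique Unit Ω) _ _ fun x => ?_
  have e : denT w .one L h g x = den w L h g (x ()) := by
    show (∏ a : Unit, w (x a)) * exp (-U w L h (x ()) g - ((1 : ℕ) : ℝ) * ex L 0 * X w L h) = _
    rw [Fintype.prod_unique, Nat.cast_one, one_mul]
    rfl
  rw [e]
  rfl

theorem tX_step_nil (w : Ω → ℝ) (s : Sh) (h : Ω → ℝ)
    (F : (NT s ([] : List (Lv Ω)) → ℝ) → (s.Lf → Ω) → ℝ) :
    tX w (.step s) [] h F = tX w s [] h F := by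
  refine integral_congr_ae (.of_forall fun g => ?_)
  refine Finset.sum_congr rfl fun x _ => ?_
  have e : denT w (.step s) [] h g x = denT w s [] h g x := by
    show (∏ a : s.Lf, w (x a)) * exp (-(UT w s [] h x g + (s.br - 1) * X w [] h) -
      ((1 : ℕ) : ℝ) * 1 * X w [] h) = (∏ a : s.Lf, w (x a)) *
        exp (-UT w s [] h x g - s.br * 1 * X w [] h)
    congr 2
    push_cast
    ring
  rw [e]

theorem exp_X_cons (hw : Wt w) (l : Lv Ω) (L : List (Lv Ω)) (h : Ω → ℝ) :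
    exp (l.m * X w (l :: L) h) = ∫ g, exp (l.m * X w L (h + l.fld g)) ∂gv l.ι := by
  by_cases hm : l.m = 0
  · simp [hm]
  · show exp (l.m * step l (X w L) h) = _
    rw [step, if_neg hm, ← mul_assoc, mul_inv_cancel₀ hm, one_mul, exp_log ((lg_X hw L).Z_pos l h)]

theorem denT_step (w : Ω → ℝ) (s : Sh) (l : Lv Ω) (L : List (Lv Ω)) (h : Ω → ℝ) (g : l.ι → ℝ)
    (g' : NT s L → ℝ) (x : s.Lf → Ω) :
    denT w (.step s) (l :: L) h (Sum.elim g g') x =
      exp (l.m * X w L (h + l.fld g)) / exp (l.m * X w (l :: L) h) *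
        denT w s L (h + l.fld g) g' x := by
  show (∏ a : s.Lf, w (x a)) * exp (-(UT w s L (h + l.fld g) x g' +
      (s.br * ex L 0 - l.m) * X w L (h + l.fld g)) - ((1 : ℕ) : ℝ) * l.m * X w (l :: L) h) = _
  rw [denT, ← exp_sub, mul_left_comm, ← exp_add]
  congr 2
  push_cast
  ring

theorem tX_step_cons (hw : Wt w) (s : Sh) (l : Lv Ω) (L : List (Lv Ω)) (h : Ω → ℝ)
    (F : (NT (.step s) (l :: L) → ℝ) → (s.Lf → Ω) → ℝ) (hF : ∀ x, Eg fun g => F g x) :
    tX w (.step s) (l :: L) h F = (∫ g, exp (l.m * X w L (h + l.fld g)) *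
      tX w s L (h + l.fld g) (fun g' => F (Sum.elim g g')) ∂gv l.ι) /
      ∫ g, exp (l.m * X w L (h + l.fld g)) ∂gv l.ι := by
  have h1 := int_sum (ι := l.ι) (ι' := NT s L) (eg_int (eg_sumT hw (.step s) (l :: L) h hF))
  refine h1.trans ?_
  rw [← exp_X_cons hw, ← integral_div]
  refine integral_congr_ae (.of_forall fun g => ?_)
  simp only [tX]
  rw [mul_div_right_comm, ← integral_const_mul]
  refine integral_congr_ae (.of_forall fun g' => ?_)
  simp only [Finset.mul_sum]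
  refine Finset.sum_congr rfl fun x _ => ?_
  rw [← mul_assoc, ← denT_step]

theorem denT_split (w : Ω → ℝ) (s t : Sh) (L : List (Lv Ω)) (h : Ω → ℝ) (g : NT s L → ℝ)
    (g' : NT t L → ℝ) (x : s.Lf → Ω) (x' : t.Lf → Ω) :
    denT w (.split s t) L h (Sum.elim g g') (Sum.elim x x') =
      denT w s L h g x * denT w t L h g' x' := by
  show (∏ a : s.Lf ⊕ t.Lf, w (Sum.elim x x' a)) * exp (-(UT w s L h x g + UT w t L h x' g') -
      ((s.br + t.br : ℕ) : ℝ) * ex L 0 * X w L h) = _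
  rw [Fintype.prod_sum_type, denT, denT, mul_mul_mul_comm, ← exp_add]
  congr 2
  push_cast
  ring

theorem tX_split (hw : Wt w) (s t : Sh) (L : List (Lv Ω)) (h : Ω → ℝ)
    (F : (NT (.split s t) L → ℝ) → (s.Lf ⊕ t.Lf → Ω) → ℝ) (hF : ∀ x, Eg fun g => F g x) :
    tX w (.split s t) L h F =
      tX w s L h fun g x => tX w t L h fun g' x' => F (Sum.elim g g') (Sum.elim x x') := by
  have h1 := int_sum (ι := NT s L) (ι' := NT t L) (eg_int (eg_sumT hw (.split s t) L h hF))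
  refine h1.trans ?_
  refine integral_congr_ae (.of_forall fun g => ?_)
  simp only [tX, ← integral_const_mul]
  rw [← integral_finsetSum _ fun x _ => (eg_int (eg_sumT hw t L h
    (F := fun g' x' => F (Sum.elim g g') (Sum.elim x x')) fun x' =>
      eg_comp (hF (Sum.elim x x')) (lg_elim_right g))).const_mul _]
  refine integral_congr_ae (.of_forall fun g' => ?_)
  simp only [Finset.mul_sum]
  rw [← Fintype.sum_prod_type']
  refine (Fintype.sum_equiv (Equiv.sumArrowEquivProdArrow s.Lf t.Lf Ω).symm _ _ fun p => ?_).symm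
  rw [← mul_assoc, ← denT_split]
  rfl

theorem lE_one {ι : Type} [Fintype ι] {V : (ι → ℝ) → ℝ} (h : Lg V) : lE V (fun _ => 1) = 1 := by
  simp only [lE, mul_one]
  exact div_self (lg_exp_pos h).ne'

theorem tX_unit (pe : PeStmt) (hw : Wt w) : ∀ (s : Sh) (L : List (Lv Ω)) (h : Ω → ℝ),
    tX w s L h (fun _ _ => 1) = 1
  | .one, L, h => by
      obtain ⟨p1, -, p3, -⟩ := pe Ω w hw
      refine (tX_one w L h fun _ _ => 1).trans ?_
      rw [p3 L h _ fun _ => Eg.const 1]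
      simp only [lE_one (p1 L h _), mul_one, sum_P hw]
  | .step s, [], h => (tX_step_nil w s h fun _ _ => 1).trans (tX_unit pe hw s [] h)
  | .step s, l :: L, h => by
      refine (tX_step_cons hw s l L h (fun _ _ => 1) fun _ => Eg.const 1).trans ?_
      simp only [tX_unit pe hw s L, mul_one]
      exact div_self ((lg_X hw L).Z_pos l h).ne'
  | .split s t, L, h => by
      refine (tX_split hw s t L h (fun _ _ => 1) fun _ => Eg.const 1).trans ?_
      simp only [tX_unit pe hw t L, tX_unit pe hw s L]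

theorem sum_PT (pe : PeStmt) (hw : Wt w) (s : Sh) (L : List (Lv Ω)) (h : Ω → ℝ) :
    ∑ x, PT w s L h x = 1 := by
  have := tX_eq hw s L h (fun _ _ => 1) fun _ => Eg.const 1
  rw [tX_unit pe hw] at this
  simpa only [lE_one (lg_UT' hw s L h _), mul_one] using this.symm

end Tr


end Crest.Agent.T156.Cas

end
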