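import Crest.Agent.T156.CaPe_45
import Crest.Agent.T156.CaTr_32
import Crest.Agent.T156.CaTp_90

/-!
# Row 156: transport and products of tree laws, functions of the leaves (helper45)

`TE w s L h F` is the expectation of a function of the leaves.  It only depends on tilts and
covariances (up to constants), it is transported by relabelling, it does not see constant levels,
the splitting of a level, or an annealed last level, and it factorises on product systems.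
-/

set_option autoImplicit false
set_option linter.unusedSectionVars false

noncomputable section

namespace Crest.Agent.T156.Cas

open MeasureTheory Real Set Filter Topology
open Crest.Agent.T157.E Crest.Agent.T157.Casc Crest.Agent.T157.SL
open Crest.Agent.T157.Casc.C (Rel Same coLv push addLv Lp lp_X)
open Crest.Agent.R339.Guerra (mp_int mp_sum)

variable {Ω Ω' Ω₁ Ω₂ : Type} [Fintype Ω] [Fintype Ω'] [Fintype Ω₁] [Fintype Ω₂]

/-- expectation of a function of the leaves -/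
def TE (w : Ω → ℝ) (s : Sh) (L : List (Lv Ω)) (h : Ω → ℝ) (F : (s.Lf → Ω) → ℝ) : ℝ :=
  tX w s L h fun _ x => F x

/-- `l` is `l'` read through `ρ` (same tilt) -/
def CoS (ρ : Ω → Ω') (l : Lv Ω) (l' : Lv Ω') : Prop :=
  l.m = l'.m ∧ ∀ x y, l.cov x y = l'.cov (ρ x) (ρ y)

/-- `l` is the sum of independent levels of the two factors (same tilt) -/
def Prd (l : Lv (Ω₁ × Ω₂)) (p : Lv Ω₁ × Lv Ω₂) : Prop :=
  l.m = p.1.m ∧ l.m = p.2.m ∧ ∀ x y, l.cov x y = p.1.cov x.1 y.1 + p.2.cov x.2 y.2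

/-- additive state -/
def ad (h₁ : Ω₁ → ℝ) (h₂ : Ω₂ → ℝ) : Ω₁ × Ω₂ → ℝ := fun x => h₁ x.1 + h₂ x.2

/-- product weight -/
def pw2 (w₁ : Ω₁ → ℝ) (w₂ : Ω₂ → ℝ) : Ω₁ × Ω₂ → ℝ := fun x => w₁ x.1 * w₂ x.2

/-- the sum of independent levels of the two factors -/
def prLv (l₁ : Lv Ω₁) (l₂ : Lv Ω₂) : Lv (Ω₁ × Ω₂) := addLv (coLv Prod.fst l₁) (coLv Prod.snd l₂)

/-- insert one shared level at depth `j` -/
def Sh.ins : Sh → ℕ → Sh
  | s, 0 => .step s
  | .one, _ + 1 => .one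
  | .step s, j + 1 => .step (s.ins j)
  | .split s t, j + 1 => .split (s.ins (j + 1)) (t.ins (j + 1))


/-- the depth of the last shared level -/
def Sh.dep : Sh → ℕ
  | .one => 0
  | .step s => s.dep + 1
  | .split s t => max s.dep t.dep

namespace Law

variable {w : Ω → ℝ} {w' : Ω' → ℝ}

/-! ### the recursion -/

theorem TE_eq (hw : Wt w) (s : Sh) (L : List (Lv Ω)) (h : Ω → ℝ) (F : (s.Lf → Ω) → ℝ) :
    TE w s L h F = ∑ x, PT w s L h x * F x := by
  rw [TE, tX, integral_finsetSum _ fun x _ =>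
    Tr.eg_int ((Tr.eg_denT hw s L h x).mul (Eg.const (F x)))]
  simp only [integral_mul_const, PT]

theorem PT_eq (w : Ω → ℝ) (s : Sh) (L : List (Lv Ω)) (h : Ω → ℝ) (x : s.Lf → Ω) :
    PT w s L h x = TE w s L h fun y => by classical exact if y = x then 1 else 0 := by
  classical
  simp only [TE, tX, PT, mul_ite, mul_one, mul_zero, Finset.sum_ite_eq', Finset.mem_univ, if_true]

theorem TE_one (hw : Wt w) (L : List (Lv Ω)) (h : Ω → ℝ) (F : (Sh.one.Lf → Ω) → ℝ) :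
    TE w .one L h F = Pf w L h fun x => F fun _ => x :=
  (Tr.tX_one w L h fun _ x => F x).trans (Pe.pE_leaf hw (fun x => F fun _ => x) L h)

theorem TE_step_nil (w : Ω → ℝ) (s : Sh) (h : Ω → ℝ) (F : ((Sh.step s).Lf → Ω) → ℝ) :
    TE w (.step s) [] h F = TE w s [] h fun x : s.Lf → Ω => F x := Tr.tX_step_nil w s h fun _ x => F x

theorem TE_step (hw : Wt w) (s : Sh) (l : Lv Ω) (L : List (Lv Ω)) (h : Ω → ℝ)
    (F : ((Sh.step s).Lf → Ω) → ℝ) : TE w (.step s) (l :: L) h F =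
      tE l (X w L) (fun z => TE w s L z fun x : s.Lf → Ω => F x) h :=
  Tr.tX_step_cons hw s l L h (fun _ x => F x) fun x => Eg.const (F x)

theorem TE_split (hw : Wt w) (s t : Sh) (L : List (Lv Ω)) (h : Ω → ℝ)
    (F : ((Sh.split s t).Lf → Ω) → ℝ) : TE w (.split s t) L h F =
      TE w s L h fun x => TE w t L h fun x' => F (Sum.elim x x') :=
  Tr.tX_split hw s t L h (fun _ x => F x) fun x => Eg.const (F x)

theorem TE_one_cons (hw : Wt w) (l : Lv Ω) (L : List (Lv Ω)) (h : Ω → ℝ)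
    (F : (Sh.one.Lf → Ω) → ℝ) : TE w .one (l :: L) h F = tE l (X w L) (fun z => TE w .one L z F) h := by
  simp only [TE_one hw]
  have := node_sum_P hw (fun x => F fun _ => x) (l :: L) 1 h
  rw [node_cons, node_zero] at this
  exact this.symm

theorem eg_TE (hw : Wt w) : ∀ (s : Sh) (L : List (Lv Ω)) (F : (s.Lf → Ω) → ℝ),
    Eg fun z => TE w s L z F
  | .one, L, F => by
    simp only [fun z => TE_one hw L z F]
    exact Eg.sum _ fun x _ => (eg_P hw L x).mul_const _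
  | .step s, [], F => by
    simp only [fun z => TE_step_nil w s z F]
    exact eg_TE hw s [] F
  | .step s, l :: L, F => by
    simp only [fun z => TE_step hw s l L z F]
    exact (eg_TE hw s L F).tE (lg_X hw L) l
  | .split s t, L, F => by
    simp only [fun z => TE_split hw s t L z F, fun z => TE_eq hw s L z]
    refine Eg.sum _ fun x _ => Eg.mul ?_ (eg_TE hw t L _)
    simp only [PT_eq]
    exact eg_TE hw s L _

theorem eg_PT (hw : Wt w) (s : Sh) (L : List (Lv Ω)) (x : s.Lf → Ω) :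
    Eg fun z => PT w s L z x := by
  simp only [PT_eq]
  exact eg_TE hw s L _

theorem meas_TE (hw : Wt w) (s : Sh) (L : List (Lv Ω)) (F : (s.Lf → Ω) → ℝ) :
    Measurable fun z => TE w s L z F := (eg_TE hw s L F).cont.measurable

theorem TE_const (hw : Wt w) (s : Sh) (L : List (Lv Ω)) (h : Ω → ℝ) (c : ℝ) :
    TE w s L h (fun _ => c) = c := by
  rw [TE_eq hw, ← Finset.sum_mul, Tr.sum_PT peStmt hw, one_mul]

theorem TE_add (hw : Wt w) (s : Sh) (L : List (Lv Ω)) (h : Ω → ℝ) (F G : (s.Lf → Ω) → ℝ) :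
    TE w s L h (fun x => F x + G x) = TE w s L h F + TE w s L h G := by
  simp only [TE_eq hw, mul_add, Finset.sum_add_distrib]

theorem TE_sub (hw : Wt w) (s : Sh) (L : List (Lv Ω)) (h : Ω → ℝ) (F G : (s.Lf → Ω) → ℝ) :
    TE w s L h (fun x => F x - G x) = TE w s L h F - TE w s L h G := by
  simp only [TE_eq hw, mul_sub, Finset.sum_sub_distrib]

theorem TE_const_mul (hw : Wt w) (s : Sh) (L : List (Lv Ω)) (h : Ω → ℝ) (c : ℝ)
    (F : (s.Lf → Ω) → ℝ) : TE w s L h (fun x => c * F x) = c * TE w s L h F := by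
  simp only [TE_eq hw, Finset.mul_sum, mul_left_comm]

theorem TE_mul_const (hw : Wt w) (s : Sh) (L : List (Lv Ω)) (h : Ω → ℝ) (c : ℝ)
    (F : (s.Lf → Ω) → ℝ) : TE w s L h (fun x => F x * c) = TE w s L h F * c := by
  simp only [TE_eq hw, Finset.sum_mul, mul_assoc]

theorem TE_sum (hw : Wt w) (s : Sh) (L : List (Lv Ω)) (h : Ω → ℝ) {κ : Type*} (S : Finset κ)
    (F : κ → (s.Lf → Ω) → ℝ) :
    TE w s L h (fun x => ∑ k ∈ S, F k x) = ∑ k ∈ S, TE w s L h (F k) := by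
  simp only [TE_eq hw, Finset.mul_sum]
  exact Finset.sum_comm

theorem PT_nonneg (hw : Wt w) (s : Sh) (L : List (Lv Ω)) (h : Ω → ℝ) (x : s.Lf → Ω) :
    0 ≤ PT w s L h x := integral_nonneg fun g => Tr.denT_nonneg hw s L h g x

theorem TE_mono (hw : Wt w) (s : Sh) (L : List (Lv Ω)) (h : Ω → ℝ) {F G : (s.Lf → Ω) → ℝ}
    (H : ∀ x, F x ≤ G x) : TE w s L h F ≤ TE w s L h G := by
  simp only [TE_eq hw]
  exact Finset.sum_le_sum fun x _ => mul_le_mul_of_nonneg_left (H x) (PT_nonneg hw s L h x)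

theorem abs_TE_le (hw : Wt w) (s : Sh) (L : List (Lv Ω)) (h : Ω → ℝ) (F : (s.Lf → Ω) → ℝ) :
    |TE w s L h F| ≤ TE w s L h fun x => |F x| := by
  refine abs_le.2 ⟨?_, TE_mono hw s L h fun x => le_abs_self _⟩
  have := TE_mono hw s L h (F := fun x => -1 * |F x|) (G := F) fun x => by
    linarith [neg_abs_le (F x)]
  rw [TE_const_mul hw] at this
  linarith

/-- two replicas sharing `j` levels -/
theorem TE_two (hw : Wt w) (K : Ω → Ω → ℝ) : ∀ (j : ℕ) (L : List (Lv Ω)) (h : Ω → ℝ)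
    (a b : (Sh.two j).Lf), a ≠ b → (∀ x y, K x y = K y x) →
    TE w (Sh.two j) L h (fun x => K (x a) (x b)) = pi2 w L j K h
  | 0, L, h, a, b, hab, hK => by
    have e : TE w (.split .one .one) L h (fun x => K (x (.inl ())) (x (.inr ()))) =
        pi2 w L 0 K h := by
      refine (TE_split hw .one .one L h _).trans ((TE_one hw L h _).trans ?_)
      have e' : ∀ x : Ω, (TE w .one L h fun x' => K x (x' ())) = Pf w L h (K x) := fun x =>
        TE_one hw L h _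
      rw [pi2_zero]
      refine (congrArg (Pf w L h) (funext e')).trans ?_
      simp only [Pf, qf, Finset.mul_sum, mul_assoc]
    rcases a with a | a <;> rcases b with b | b
    · exact absurd rfl hab
    · exact e
    · exact (congrArg _ (funext fun x => hK _ _)).trans e
    · exact absurd rfl hab
  | j + 1, [], h, a, b, hab, hK => by
    refine (TE_step_nil w (Sh.two j) h _).trans ((TE_two hw K j [] h a b hab hK).trans ?_)
    simp [pi2]
  | j + 1, l :: L, h, a, b, hab, hK => by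
    refine (TE_step hw (Sh.two j) l L h _).trans ?_
    rw [pi2_cons]
    exact congrArg (fun Φ => tE l (X w L) Φ h) (funext fun z => TE_two hw K j L z a b hab hK)

/-! ### invariance under constants -/

theorem tE_shift {F Φ : (Ω → ℝ) → ℝ} (l : Lv Ω) {c : ℝ}
    (hF : ∀ z, F (z + fun _ => c) = F z + c) (hΦ : ∀ z, Φ (z + fun _ => c) = Φ z) (h : Ω → ℝ) :
    tE l F Φ (h + fun _ => c) = tE l F Φ h := by
  simp only [tE, add_right_comm h, hF, hΦ, mul_add, exp_add]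
  simp only [mul_right_comm _ (exp (l.m * c)), integral_mul_const]
  exact mul_div_mul_right _ _ (exp_pos _).ne'

theorem P_shift (hw : Wt w) (c : ℝ) (x : Ω) : ∀ (L : List (Lv Ω)) (h : Ω → ℝ),
    P w L (h + fun _ => c) x = P w L h x
  | [], h => by
    simp only [P, prob, Pi.add_apply, exp_add, ← mul_assoc, ← Finset.sum_mul]
    exact mul_div_mul_right _ _ (exp_pos _).ne'
  | l :: L, h => tE_shift l (fun z => X_add_const hw L z c) (P_shift hw c x L) h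

theorem TE_shift (hw : Wt w) (c : ℝ) : ∀ (s : Sh) (L : List (Lv Ω)) (F : (s.Lf → Ω) → ℝ)
    (h : Ω → ℝ), TE w s L (h + fun _ => c) F = TE w s L h F
  | .one, L, F, h => by
    rw [TE_one hw, TE_one hw]
    simp only [Pf, P_shift hw]
  | .step s, [], F, h => by rw [TE_step_nil, TE_step_nil, TE_shift hw c s]
  | .step s, l :: L, F, h => by
    rw [TE_step hw, TE_step hw]
    exact tE_shift l (fun z => X_add_const hw L z c) (TE_shift hw c s L F) h
  | .split s t, L, F, h => by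
    rw [TE_split hw, TE_split hw, TE_shift hw c s]
    simp only [TE_shift hw c t]

theorem tE_add_const (l : Lv Ω) (F Φ : (Ω → ℝ) → ℝ) (c : ℝ) :
    tE l (fun z => F z + c) Φ = tE l F Φ := by
  funext h
  simp only [tE, mul_add, exp_add]
  simp only [mul_right_comm _ (exp (l.m * c)), integral_mul_const]
  exact mul_div_mul_right _ _ (exp_pos _).ne'

theorem step_add_const (l : Lv Ω) {F : (Ω → ℝ) → ℝ} (hF : Lp F) (c : ℝ) (h : Ω → ℝ) :
    step l (fun z => F z + c) h = step l F h + c := by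
  have hF' : Measurable fun z => F z + c := hF.meas.add_const c
  simpa using (Same.rel (l := l) (l' := l) ⟨rfl, rfl⟩).step (c := c) one_ne_zero hF' hF
    (fun z => by simp) h

/-- a level with constant features is invisible -/
theorem tE_of_const {l : Lv Ω} {a : l.ι → ℝ} (H : ∀ x, l.A x = a) {F Φ : (Ω → ℝ) → ℝ} (hF : Lp F)
    (hΦ : ∀ z c, Φ (z + fun _ => c) = Φ z) (h : Ω → ℝ) : tE l F Φ h = Φ h := by
  have e : ∀ g, l.fld g = fun _ => ∑ i, a i * g i := fun g => by funext x; simp [Lv.fld, H]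
  rw [← C.tE_one hF l (Φ h) h]
  simp only [tE, e, hΦ]

theorem cLv_cov {c : ℝ} (hc : 0 ≤ c) (m : ℝ) (x y : Ω) : (cLv Ω c m).cov x y = c := by
  show ∑ _ : Unit, √c * √c = c
  simp [hc]

theorem sameC_same {c : ℝ} {l l' : Lv Ω} (H : SameC c l l') (hc : 0 ≤ c) :
    Same l (addLv l' (cLv Ω c l'.m)) :=
  ⟨H.1, by funext x y; rw [C.addLv_cov, cLv_cov hc, H.2]⟩

theorem sameC_symm {c : ℝ} {l l' : Lv Ω} (H : SameC c l l') : SameC (-c) l' l :=
  ⟨H.1.symm, fun x y => by rw [H.2]; ring⟩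

theorem step_sameC' {c : ℝ} {l l' : Lv Ω} (H : SameC c l l') (hc : 0 ≤ c) {F : (Ω → ℝ) → ℝ}
    (hF : Lp F) (hc' : ∀ z c, F (z + fun _ => c) = F z + c) (h : Ω → ℝ) :
    step l F h = step l' F h + l.m * c / 2 := by
  rw [(sameC_same H hc).step hF, C.step_addLv (l := l') (l' := cLv Ω c l'.m) rfl hF,
    show step (cLv Ω c l'.m) F = fun z => F z + l.m * c / 2 from funext fun z => ?_,
    step_add_const l' hF]
  rw [C.step_of_const (l := cLv Ω c l'.m) (a := fun _ => √c) (fun _ => rfl) hc', H.1]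
  exact congrArg (fun t => F z + l'.m * t / 2) (cLv_cov (Ω := Unit) hc 0 () ())

theorem step_sameC {c : ℝ} {l l' : Lv Ω} (H : SameC c l l') {F : (Ω → ℝ) → ℝ}
    (hF : Lp F) (hc' : ∀ z c, F (z + fun _ => c) = F z + c) (h : Ω → ℝ) :
    step l F h = step l' F h + l.m * c / 2 := by
  rcases le_total 0 c with hc | hc
  · exact step_sameC' H hc hF hc' h
  · rw [step_sameC' (sameC_symm H) (neg_nonneg.2 hc) hF hc' h, H.1]
    ring

theorem tE_sameC' {c : ℝ} {l l' : Lv Ω} (H : SameC c l l') (hc : 0 ≤ c) {F Φ : (Ω → ℝ) → ℝ}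
    (hF : Lp F) (hF' : Lg F) (hc' : ∀ z c, F (z + fun _ => c) = F z + c) (hΦ : Eg Φ)
    (hΦ' : ∀ z c, Φ (z + fun _ => c) = Φ z) : tE l F Φ = tE l' F Φ := by
  funext h
  rw [(sameC_same H hc).tE hF.meas hΦ.cont.measurable, C.tE_addLv (l := l') (l' := cLv Ω c l'.m) rfl hF h
    (hF'.int hΦ (addLv l' (cLv Ω c l'.m)) h),
    show step (cLv Ω c l'.m) F = fun z => F z + l'.m * (∑ _ : Unit, √c * √c) / 2 from
      funext fun z => C.step_of_const (l := cLv Ω c l'.m) (a := fun _ => √c) (fun _ => rfl) hc' z,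
    tE_add_const,
    show tE (cLv Ω c l'.m) F Φ = Φ from
      funext (tE_of_const (l := cLv Ω c l'.m) (a := fun _ => √c) (fun _ => rfl) hF hΦ')]

theorem tE_sameC {c : ℝ} {l l' : Lv Ω} (H : SameC c l l') {F Φ : (Ω → ℝ) → ℝ}
    (hF : Lp F) (hF' : Lg F) (hc' : ∀ z c, F (z + fun _ => c) = F z + c) (hΦ : Eg Φ)
    (hΦ' : ∀ z c, Φ (z + fun _ => c) = Φ z) : tE l F Φ = tE l' F Φ := by
  rcases le_total 0 c with hc | hc
  · exact tE_sameC' H hc hF hF' hc' hΦ hΦ'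
  · exact (tE_sameC' (sameC_symm H) (neg_nonneg.2 hc) hF hF' hc' hΦ hΦ').symm

/-- exact shift of the value -/
theorem X_sameC (hw : Wt w) : ∀ T : List (Lv Ω × Lv Ω × ℝ), (∀ t ∈ T, SameC t.2.2 t.1 t.2.1) →
    ∀ h, X w (T.map fun t => t.1) h =
      X w (T.map fun t => t.2.1) h + (T.map fun t => t.1.m * t.2.2 / 2).sum
  | [], _, h => by simp
  | t :: T, H, h => by
    have ih := funext (X_sameC hw T fun t' ht => H t' (List.mem_cons_of_mem _ ht))
    simp only [List.map_cons, List.sum_cons, C.X_cons]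
    rw [step_sameC (H t List.mem_cons_self) (lp_X hw _) (X_add_const hw _), ih,
      step_add_const _ (lp_X hw _)]
    ring

theorem X_sameC' (hw : Wt w) {L L' : List (Lv Ω)}
    (H : List.Forall₂ (fun l l' => ∃ c, SameC c l l') L L') :
    ∃ D, ∀ h, X w L h = X w L' h + D := by
  induction H with
  | nil => exact ⟨0, fun _ => (add_zero _).symm⟩
  | @cons l l' L L' h1 _ ih =>
    obtain ⟨c, h1⟩ := h1
    obtain ⟨D, ih⟩ := ih
    refine ⟨D + l.m * c / 2, fun h => ?_⟩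
    rw [C.X_cons, C.X_cons, step_sameC h1 (lp_X hw _) (X_add_const hw _), funext ih,
      step_add_const _ (lp_X hw _), add_assoc]

theorem P_sameC (hw : Wt w) {L L' : List (Lv Ω)}
    (H : List.Forall₂ (fun l l' => ∃ c, SameC c l l') L L') : P w L = P w L' := by
  induction H with
  | nil => rfl
  | @cons l l' L L' h1 h2 ih =>
    obtain ⟨c, h1⟩ := h1
    obtain ⟨D, hC⟩ := X_sameC' hw h2
    funext h x
    show tE l (X w L) (fun z => P w L z x) h = tE l' (X w L') (fun z => P w L' z x) h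
    rw [tE_sameC h1 (lp_X hw _) (lg_X hw _) (X_add_const hw _) (eg_P hw L x)
      fun z c => P_shift hw c x L z, funext hC, tE_add_const, ih]

/-- the law of the leaves only depends on tilts and on covariances up to constants -/
theorem TE_sameC (hw : Wt w) : ∀ (s : Sh) {L L' : List (Lv Ω)},
    List.Forall₂ (fun l l' => ∃ c, SameC c l l') L L' → ∀ (F : (s.Lf → Ω) → ℝ) (h : Ω → ℝ),
    TE w s L h F = TE w s L' h F
  | .one, L, L', H, F, h => by
    rw [TE_one hw, TE_one hw, Pf, Pf, P_sameC hw H]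
  | .step s, _, _, .nil, F, h => rfl
  | .step s, _, _, .cons (a := l) (b := l') (l₁ := L) (l₂ := L') ⟨c, h1⟩ h2, F, h => by
    obtain ⟨D, hC⟩ := X_sameC' hw h2
    rw [TE_step hw, TE_step hw, tE_sameC h1 (lp_X hw _) (lg_X hw _) (X_add_const hw _)
      (eg_TE hw s L F) fun z c => TE_shift hw c s L F z, funext hC, tE_add_const,
      funext (TE_sameC hw s h2 F)]
  | .split s t, L, L', H, F, h => by
    rw [TE_split hw, TE_split hw, TE_sameC hw s H]
    simp only [TE_sameC hw t H]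

theorem same_sameC {L L' : List (Lv Ω)} (H : List.Forall₂ Same L L') :
    List.Forall₂ (fun l l' => ∃ c, SameC c l l') L L' :=
  H.imp fun _ _ h => ⟨0, h.1, fun x y => by rw [h.2, add_zero]⟩

theorem TE_same (hw : Wt w) (s : Sh) {L L' : List (Lv Ω)} (H : List.Forall₂ Same L L')
    (F : (s.Lf → Ω) → ℝ) (h : Ω → ℝ) : TE w s L h F = TE w s L' h F :=
  TE_sameC hw s (same_sameC H) F h



/-! ### relabelling -/

theorem coS_rel {ρ : Ω → Ω'} {l : Lv Ω} {l' : Lv Ω'} (H : CoS ρ l l') :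
    Rel (fun (h : Ω' → ℝ) x => h (ρ x)) 1 l l' :=
  ⟨by rw [mul_one, H.1], fun h G hG =>
    C.int_fld_eq (l := l) (l' := coLv ρ l') (funext fun x => funext fun y => H.2 x y)
      (G := fun f => G ((fun x => h (ρ x)) + f)) (hG.comp (measurable_const_add _))⟩


theorem X_coS (hw : Wt w) {ρ : Ω → Ω'} {L : List (Lv Ω)} {L' : List (Lv Ω')}
    (H : List.Forall₂ (CoS ρ) L L') (h : Ω' → ℝ) :
    X w L (fun x => h (ρ x)) = X (push ρ w) L' h := by
  simpa using C.X_transfer hw (C.wt_push ρ hw) one_ne_zero (C.X_nil_co ρ w)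
    (H.imp fun _ _ => coS_rel) h

theorem node_coS (hw : Wt w) {ρ : Ω → Ω'} {L : List (Lv Ω)} {L' : List (Lv Ω')}
    (H : List.Forall₂ (CoS ρ) L L') {Φ : (Ω → ℝ) → ℝ} (hΦ : Measurable Φ) (j : ℕ) (h : Ω' → ℝ) :
    node w L j Φ (fun x => h (ρ x)) = node (push ρ w) L' j (fun z => Φ fun x => z (ρ x)) h := by
  induction H generalizing j h with
  | nil => simp
  | cons h1 h2 ih =>
    cases j with
    | zero => simp
    | succ j =>
      rw [node_cons, node_cons, (coS_rel h1).tE (c := 0) (lp_X hw _).meas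
        (fun z => by rw [X_coS hw h2, one_mul, add_zero]) (C.meas_node hw _ j hΦ) h]
      exact congrArg (fun Ψ => tE _ _ Ψ h) (funext (ih j))

theorem Pf_coS (hw : Wt w) {ρ : Ω → Ω'} {L : List (Lv Ω)} {L' : List (Lv Ω')}
    (H : List.Forall₂ (CoS ρ) L L') (f : Ω' → ℝ) (h : Ω' → ℝ) :
    Pf w L (fun x => h (ρ x)) (fun x => f (ρ x)) = Pf (push ρ w) L' h f := by
  have e1 := node_sum_P hw (fun x => f (ρ x)) L L.length fun x => h (ρ x)
  have e2 := node_sum_P (C.wt_push ρ hw) f L' L'.length h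
  rw [List.drop_length] at e1 e2
  rw [Pf, Pf, ← e1, ← e2, node_coS hw H (Eg.sum _ fun x _ =>
    (eg_P hw [] x).mul_const _).cont.measurable, H.length_eq]
  congr 1
  funext z
  have a1 := C.sum_push ρ w fun y => exp (z y) * f y
  have a2 := C.sum_push ρ w fun y => exp (z y)
  simp only [P, prob, div_mul_eq_mul_div, ← Finset.sum_div, mul_assoc, a1, a2]

/-- relabelling: the law of `ρ ∘ leaves` is the law of the leaves for the pushed weight -/
theorem TE_coS (hw : Wt w) {ρ : Ω → Ω'} : ∀ (s : Sh) {L : List (Lv Ω)} {L' : List (Lv Ω')},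
    List.Forall₂ (CoS ρ) L L' → ∀ (F : (s.Lf → Ω') → ℝ) (h : Ω' → ℝ),
    TE w s L (fun x => h (ρ x)) (fun x => F fun a => ρ (x a)) = TE (push ρ w) s L' h F
  | .one, L, L', H, F, h => by
    rw [TE_one hw, TE_one (C.wt_push ρ hw)]
    exact Pf_coS hw H (fun y => F fun _ => y) h
  | .step s, _, _, .nil, F, h => by
    rw [TE_step_nil, TE_step_nil]
    exact TE_coS hw s .nil F h
  | .step s, _, _, .cons h1 h2, F, h => by
    rw [TE_step hw, TE_step (C.wt_push ρ hw), (coS_rel h1).tE (c := 0) (lp_X hw _).meas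
      (fun z => by rw [X_coS hw h2, one_mul, add_zero]) (meas_TE hw s _ _) h]
    exact congrArg (fun Ψ => tE _ _ Ψ h) (funext (TE_coS hw s h2 F))
  | .split s t, L, L', H, F, h => by
    rw [TE_split hw, TE_split (C.wt_push ρ hw), ← TE_coS hw s H]
    congr 1
    funext x
    rw [← TE_coS hw t H]
    congr 1
    funext x'
    congr 1
    funext a
    cases a <;> rfl

theorem push_one (ρ : Ω ≃ Ω') : push ρ (fun _ => 1) = fun _ => 1 := C.push_equiv ρ _

/-! ### product systems -/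

section prod
variable {w₁ : Ω₁ → ℝ} {w₂ : Ω₂ → ℝ}

theorem sum_pw2 (f₁ : Ω₁ → ℝ) (f₂ : Ω₂ → ℝ) : ∑ x, pw2 f₁ f₂ x = (∑ x, f₁ x) * ∑ y, f₂ y := by
  rw [Fintype.sum_prod_type, Finset.sum_mul_sum]
  rfl

theorem wt_pw2 (h₁ : Wt w₁) (h₂ : Wt w₂) : Wt (pw2 w₁ w₂) :=
  ⟨fun x => mul_nonneg (h₁.nn _) (h₂.nn _), by rw [sum_pw2]; exact mul_pos h₁.pos h₂.pos⟩

theorem pw2_one : pw2 (fun _ : Ω₁ => (1 : ℝ)) (fun _ : Ω₂ => (1 : ℝ)) = fun _ => 1 := by
  funext x; simp [pw2]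

theorem ad_zero : ad (0 : Ω₁ → ℝ) (0 : Ω₂ → ℝ) = 0 := by funext x; simp [ad]

theorem prLv_cov (l₁ : Lv Ω₁) (l₂ : Lv Ω₂) (x y : Ω₁ × Ω₂) :
    (prLv l₁ l₂).cov x y = l₁.cov x.1 y.1 + l₂.cov x.2 y.2 := C.addLv_cov _ _ x y


theorem ad_fld (l₁ : Lv Ω₁) (l₂ : Lv Ω₂) (h₁ : Ω₁ → ℝ) (h₂ : Ω₂ → ℝ) (g₁ : l₁.ι → ℝ)
    (g₂ : l₂.ι → ℝ) : ad h₁ h₂ + (prLv l₁ l₂).fld (Sum.elim g₁ g₂) =
      ad (h₁ + l₁.fld g₁) (h₂ + l₂.fld g₂) := by
  have := C.addLv_fld (coLv Prod.fst l₁) (coLv Prod.snd l₂) g₁ g₂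
  funext x
  have e := congrFun this x
  show h₁ x.1 + h₂ x.2 + (prLv l₁ l₂).fld (Sum.elim g₁ g₂) x =
    (h₁ x.1 + l₁.fld g₁ x.1) + (h₂ x.2 + l₂.fld g₂ x.2)
  rw [show (prLv l₁ l₂).fld (Sum.elim g₁ g₂) x = l₁.fld g₁ x.1 + l₂.fld g₂ x.2 from e]
  ring

theorem int_prd {l : Lv (Ω₁ × Ω₂)} {p : Lv Ω₁ × Lv Ω₂} (H : Prd l p) {G : (Ω₁ × Ω₂ → ℝ) → ℝ}
    (hG : Measurable G) (h₁ : Ω₁ → ℝ) (h₂ : Ω₂ → ℝ) :
    ∫ g, G (ad h₁ h₂ + l.fld g) ∂gv l.ι =
      ∫ q, G (ad (h₁ + p.1.fld q.1) (h₂ + p.2.fld q.2)) ∂(gv p.1.ι).prod (gv p.2.ι) := by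
  classical
  have hG' : Measurable fun f => G (ad h₁ h₂ + f) := hG.comp (measurable_const_add _)
  rw [C.int_fld_eq (l := l) (l' := prLv p.1 p.2) (by
    funext x y; rw [H.2.2, prLv_cov]) hG']
  have h1 := mp_sum (ι := p.1.ι) (κ := p.2.ι)
  refine (mp_int h1 (hG'.comp (C.cont_fld (prLv p.1 p.2)).measurable).aestronglyMeasurable).symm.trans
    (integral_congr_ae (.of_forall fun q => ?_))
  exact congrArg G (ad_fld p.1 p.2 h₁ h₂ q.1 q.2)

variable {F Φ : (Ω₁ × Ω₂ → ℝ) → ℝ} {F₁ Φ₁ : (Ω₁ → ℝ) → ℝ} {F₂ Φ₂ : (Ω₂ → ℝ) → ℝ}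
  {l : Lv (Ω₁ × Ω₂)} {p : Lv Ω₁ × Lv Ω₂}

theorem int_exp_prd (H : Prd l p) (hF : Measurable F) (hΦ : Measurable Φ)
    (eF : ∀ z₁ z₂, F (ad z₁ z₂) = F₁ z₁ + F₂ z₂) (eΦ : ∀ z₁ z₂, Φ (ad z₁ z₂) = Φ₁ z₁ * Φ₂ z₂)
    (h₁ : Ω₁ → ℝ) (h₂ : Ω₂ → ℝ) :
    ∫ g, exp (l.m * F (ad h₁ h₂ + l.fld g)) * Φ (ad h₁ h₂ + l.fld g) ∂gv l.ι =
      (∫ g, exp (p.1.m * F₁ (h₁ + p.1.fld g)) * Φ₁ (h₁ + p.1.fld g) ∂gv p.1.ι) *
        ∫ g, exp (p.2.m * F₂ (h₂ + p.2.fld g)) * Φ₂ (h₂ + p.2.fld g) ∂gv p.2.ι := by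
  rw [int_prd H (G := fun z => exp (l.m * F z) * Φ z) ((hF.const_mul _).exp.mul hΦ),
    ← integral_prod_mul]
  refine integral_congr_ae (.of_forall fun q => ?_)
  simp only [eF, eΦ, ← H.1, ← H.2.1, mul_add, exp_add]
  ring

theorem tE_prd (H : Prd l p) (hF : Measurable F) (hΦ : Measurable Φ)
    (eF : ∀ z₁ z₂, F (ad z₁ z₂) = F₁ z₁ + F₂ z₂) (eΦ : ∀ z₁ z₂, Φ (ad z₁ z₂) = Φ₁ z₁ * Φ₂ z₂)
    (h₁ : Ω₁ → ℝ) (h₂ : Ω₂ → ℝ) :
    tE l F Φ (ad h₁ h₂) = tE p.1 F₁ Φ₁ h₁ * tE p.2 F₂ Φ₂ h₂ := by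
  have e := int_exp_prd H hF (Φ := fun _ => 1) (Φ₁ := fun _ => 1) (Φ₂ := fun _ => 1)
    measurable_const eF (by simp) h₁ h₂
  simp only [mul_one] at e
  rw [tE, tE, tE, int_exp_prd H hF hΦ eF eΦ, e, div_mul_div_comm]

theorem step_prd (H : Prd l p) (hF : Measurable F) (hF₁ : Lp F₁) (hF₂ : Lp F₂)
    (eF : ∀ z₁ z₂, F (ad z₁ z₂) = F₁ z₁ + F₂ z₂) (h₁ : Ω₁ → ℝ) (h₂ : Ω₂ → ℝ) :
    step l F (ad h₁ h₂) = step p.1 F₁ h₁ + step p.2 F₂ h₂ := by
  by_cases hm : l.m = 0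
  · rw [C.step_zero hm, C.step_zero (H.1 ▸ hm), C.step_zero (H.2.1 ▸ hm), int_prd H hF]
    simp only [eF]
    rw [integral_add ((hF₁.int p.1 h₁).comp_fst _) ((hF₂.int p.2 h₂).comp_snd _),
      integral_fun_fst (fun g => F₁ (h₁ + p.1.fld g)), integral_fun_snd
        (fun g => F₂ (h₂ + p.2.fld g))]
    simp
  · have e := int_exp_prd H hF (Φ := fun _ => 1) (Φ₁ := fun _ => 1) (Φ₂ := fun _ => 1)
      measurable_const eF (by simp) h₁ h₂
    simp only [mul_one] at e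
    rw [C.step_ne hm, C.step_ne (H.1 ▸ hm), C.step_ne (H.2.1 ▸ hm), e,
      log_mul (hF₁.pos _ _ _).ne' (hF₂.pos _ _ _).ne', mul_add, ← H.1, ← H.2.1]

theorem pw2_exp (w₁ z₁ : Ω₁ → ℝ) (w₂ z₂ : Ω₂ → ℝ) : (fun x => pw2 w₁ w₂ x * exp (ad z₁ z₂ x)) =
    pw2 (fun x => w₁ x * exp (z₁ x)) fun x => w₂ x * exp (z₂ x) := by
  funext x
  simp only [pw2, ad, exp_add]
  ring

/-- the values add -/
theorem X_prd (h₁ : Wt w₁) (h₂ : Wt w₂) {L : List (Lv (Ω₁ × Ω₂))} {T : List (Lv Ω₁ × Lv Ω₂)}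
    (H : List.Forall₂ Prd L T) (z₁ : Ω₁ → ℝ) (z₂ : Ω₂ → ℝ) :
    X (pw2 w₁ w₂) L (ad z₁ z₂) = X w₁ (T.map Prod.fst) z₁ + X w₂ (T.map Prod.snd) z₂ := by
  induction H generalizing z₁ z₂ with
  | nil =>
    have := sum_pw2 (fun x => w₁ x * exp (z₁ x)) fun x => w₂ x * exp (z₂ x)
    rw [← pw2_exp] at this
    simp only [List.map_nil, X]
    rw [this, log_mul (C.sum_exp_pos h₁ _).ne' (C.sum_exp_pos h₂ _).ne']
  | cons h1 _ ih =>
    exact step_prd h1 (lp_X (wt_pw2 h₁ h₂) _).meas (lp_X h₁ _) (lp_X h₂ _) ih z₁ z₂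


theorem P_prd (h₁ : Wt w₁) (h₂ : Wt w₂) {L : List (Lv (Ω₁ × Ω₂))} {T : List (Lv Ω₁ × Lv Ω₂)}
    (H : List.Forall₂ Prd L T) (x : Ω₁ × Ω₂) (z₁ : Ω₁ → ℝ) (z₂ : Ω₂ → ℝ) :
    P (pw2 w₁ w₂) L (ad z₁ z₂) x = P w₁ (T.map Prod.fst) z₁ x.1 * P w₂ (T.map Prod.snd) z₂ x.2 := by
  induction H generalizing z₁ z₂ with
  | nil =>
    simp only [List.map_nil, P]
    rw [pw2_exp, prob, sum_pw2, prob, prob, div_mul_div_comm]
    rfl
  | cons h1 h2 ih =>
    exact tE_prd h1 (lp_X (wt_pw2 h₁ h₂) _).meas (C.meas_P (wt_pw2 h₁ h₂) _ x)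
      (X_prd h₁ h₂ h2) ih z₁ z₂

/-- **factorisation of the tree law on a product system** -/
theorem TE_prd (h₁ : Wt w₁) (h₂ : Wt w₂) : ∀ (s : Sh) {L : List (Lv (Ω₁ × Ω₂))}
    {T : List (Lv Ω₁ × Lv Ω₂)}, List.Forall₂ Prd L T →
    ∀ (G₁ : (s.Lf → Ω₁) → ℝ) (G₂ : (s.Lf → Ω₂) → ℝ) (z₁ : Ω₁ → ℝ) (z₂ : Ω₂ → ℝ),
    TE (pw2 w₁ w₂) s L (ad z₁ z₂) (fun x => G₁ (fun a => (x a).1) * G₂ fun a => (x a).2) =
      TE w₁ s (T.map Prod.fst) z₁ G₁ * TE w₂ s (T.map Prod.snd) z₂ G₂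
  | .one, L, T, H, G₁, G₂, z₁, z₂ => by
    rw [TE_one (wt_pw2 h₁ h₂), TE_one h₁, TE_one h₂]
    simp only [Pf, P_prd h₁ h₂ H]
    rw [← sum_pw2]
    exact Finset.sum_congr rfl fun x _ => by simp only [pw2]; ring
  | .step s, _, _, .nil, G₁, G₂, z₁, z₂ => by
    simp only [List.map_nil]
    rw [TE_step_nil, TE_step_nil, TE_step_nil]
    exact TE_prd h₁ h₂ s .nil G₁ G₂ z₁ z₂
  | .step s, _, _, .cons h1 h2, G₁, G₂, z₁, z₂ => by
    simp only [List.map_cons]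
    rw [TE_step (wt_pw2 h₁ h₂), TE_step h₁, TE_step h₂]
    exact tE_prd h1 (lp_X (wt_pw2 h₁ h₂) _).meas (meas_TE (wt_pw2 h₁ h₂) s _ _)
      (X_prd h₁ h₂ h2) (TE_prd h₁ h₂ s h2 G₁ G₂) z₁ z₂
  | .split s t, L, T, H, G₁, G₂, z₁, z₂ => by
    rw [TE_split (wt_pw2 h₁ h₂), TE_split h₁, TE_split h₂, ← TE_prd h₁ h₂ s H]
    congr 1
    funext x
    rw [← TE_prd h₁ h₂ t H]
    congr 1
    funext x'
    congr 2 <;> funext a <;> cases a <;> rfl



end prod

/-! ### changing the levels below a prefix -/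

/-- the tail only enters through its value and its law -/
theorem P_tail (hw : Wt w) {N N' : List (Lv Ω)} {c : ℝ} (hX : ∀ h, X w N h = X w N' h + c)
    (hP : P w N = P w N') : ∀ M : List (Lv Ω),
    (∀ h, X w (M ++ N) h = X w (M ++ N') h + c) ∧ P w (M ++ N) = P w (M ++ N')
  | [] => ⟨hX, hP⟩
  | l :: M => by
    obtain ⟨i1, i2⟩ := P_tail hw hX hP M
    refine ⟨fun h => ?_, funext fun h => funext fun x => ?_⟩
    · rw [List.cons_append, List.cons_append, C.X_cons, C.X_cons, funext i1,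
        step_add_const _ (lp_X hw _)]
    · show tE l (X w (M ++ N)) (fun z => P w (M ++ N) z x) h =
        tE l (X w (M ++ N')) (fun z => P w (M ++ N') z x) h
      rw [funext i1, tE_add_const, i2]

theorem TE_tail (hw : Wt w) {N N' : List (Lv Ω)} {c : ℝ} (hX : ∀ h, X w N h = X w N' h + c)
    (hP : P w N = P w N') : ∀ (s : Sh) (M : List (Lv Ω)), s.dep ≤ M.length →
    ∀ (F : (s.Lf → Ω) → ℝ) (h : Ω → ℝ), TE w s (M ++ N) h F = TE w s (M ++ N') h F
  | .one, M, _, F, h => by rw [TE_one hw, TE_one hw, Pf, Pf, (P_tail hw hX hP M).2]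
  | .step s, [], H, _, _ => absurd H (by simp [Sh.dep])
  | .step s, l :: M, H, F, h => by
    rw [List.cons_append, List.cons_append, TE_step hw, TE_step hw, funext (P_tail hw hX hP M).1,
      tE_add_const, funext (TE_tail hw hX hP s M (by simpa [Sh.dep] using H) _)]
  | .split s t, M, H, F, h => by
    rw [TE_split hw, TE_split hw, TE_tail hw hX hP s M ((le_max_left _ _).trans H)]
    simp only [TE_tail hw hX hP t M ((le_max_right _ _).trans H)]

/-- a last level of tilt `1` and constant variance is invisible -/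
theorem TE_annealed (hw : Wt w) {l : Lv Ω} (hm : l.m = 1) {v : ℝ} (hv : ∀ x, l.cov x x = v)
    (s : Sh) (M : List (Lv Ω)) (H : s.dep ≤ M.length) (F : (s.Lf → Ω) → ℝ) (h : Ω → ℝ) :
    TE w s (M ++ [l]) h F = TE w s M h F := by
  have := TE_tail hw (N := [l]) (N' := []) (C.X_annealed_const hw hm hv) (by
    funext z x
    rw [C.P_annealed hw hm]
    simp only [hv]
    exact P_shift hw _ x [] z) s M H F h
  rwa [List.append_nil] at this






end Law

end Crest.Agent.T156.Cas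

end
private theorem rz_419b2b4012 : type_of% @_root_.Crest.Agent.T156.Cas.Sh.dep.eq_def := @_root_.Crest.Agent.T156.Cas.Sh.dep.eq_def -- L66
private theorem rz_75e468d1dd : type_of% @_root_.Crest.Agent.T156.Cas.Sh.dep.eq_1 := @_root_.Crest.Agent.T156.Cas.Sh.dep.eq_1 -- L66
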