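import Crest.Agent.T156.CaSpB_38
import Crest.Agent.T156.CaLaw_45

/-!
# Row 156: combinatorics of replica shapes and explicit weights (helper87)

`shr` is an ultrametric, grafting adds one leaf, the total node weights `Wn` (weights `cw`, so
with the root term) obey an explicit recursion under grafting;
two leaves are `pi2`.
-/

set_option autoImplicit false
set_option linter.unusedSectionVars false

noncomputable section

namespace Crest.Agent.T156.Cas

open MeasureTheory Real Set Filter Topology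
open Crest.Agent.T157.E Crest.Agent.T157.Casc Crest.Agent.T157.SL

namespace Wt87

/-! ### shared levels -/

theorem shr_zero : ∀ (s : Sh) (a b : s.Lf), s.shr a b 0 = 0
  | .one, _, _ => rfl
  | .step _, _, _ => rfl
  | .split s _, .inl a, .inl b => shr_zero s a b
  | .split _ t, .inr a, .inr b => shr_zero t a b
  | .split _ _, .inl _, .inr _ => rfl
  | .split _ _, .inr _, .inl _ => rfl

theorem shr_self : ∀ (s : Sh) (a : s.Lf) (j : ℕ), s.shr a a j = j
  | .one, _, _ => rfl
  | .step _, _, 0 => rfl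
  | .step s, a, j + 1 => congrArg (· + 1) (shr_self s a j)
  | .split s _, .inl a, j => shr_self s a j
  | .split _ t, .inr a, j => shr_self t a j

theorem shr_comm : ∀ (s : Sh) (a b : s.Lf) (j : ℕ), s.shr a b j = s.shr b a j
  | .one, _, _, _ => rfl
  | .step _, _, _, 0 => rfl
  | .step s, a, b, j + 1 => congrArg (· + 1) (shr_comm s a b j)
  | .split s _, .inl a, .inl b, j => shr_comm s a b j
  | .split _ t, .inr a, .inr b, j => shr_comm t a b j
  | .split _ _, .inl _, .inr _, _ => rfl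
  | .split _ _, .inr _, .inl _, _ => rfl

theorem shr_min : ∀ (s : Sh) (a b : s.Lf) (j k : ℕ), s.shr a b (min j k) = min j (s.shr a b k)
  | .one, _, _, _, _ => rfl
  | .step s, a, b, 0, k => by rw [Nat.zero_min, Nat.zero_min]; rfl
  | .step s, a, b, j + 1, 0 => by rw [Nat.min_zero]; exact (Nat.min_zero _).symm
  | .step s, a, b, j + 1, k + 1 => by
      rw [Nat.succ_min_succ]
      show s.shr a b (min j k) + 1 = min (j + 1) (s.shr a b k + 1)
      rw [shr_min s a b j k, Nat.succ_min_succ]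
  | .split s _, .inl a, .inl b, j, k => shr_min s a b j k
  | .split _ t, .inr a, .inr b, j, k => shr_min t a b j k
  | .split _ _, .inl _, .inr _, _, _ => (Nat.min_zero _).symm
  | .split _ _, .inr _, .inl _, _, _ => (Nat.min_zero _).symm

theorem shr_le (s : Sh) (a b : s.Lf) (j : ℕ) : s.shr a b j ≤ j := by
  have := shr_min s a b j j
  rw [min_self] at this
  omega


/-- ultrametricity -/
theorem shr_ultra : ∀ (s : Sh) (a b c : s.Lf) (j : ℕ),
    min (s.shr a b j) (s.shr b c j) ≤ s.shr a c j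
  | .one, _, _, _, _ => min_le_left _ _
  | .step _, _, _, _, 0 => min_le_left _ _
  | .step s, a, b, c, j + 1 => by
      have := shr_ultra s a b c j
      show min (s.shr a b j + 1) (s.shr b c j + 1) ≤ s.shr a c j + 1
      omega
  | .split s _, .inl a, .inl b, .inl c, j => shr_ultra s a b c j
  | .split _ t, .inr a, .inr b, .inr c, j => shr_ultra t a b c j
  | .split _ _, .inl _, .inr _, _, _ => (min_le_left _ _).trans (Nat.zero_le _)
  | .split _ _, .inr _, .inl _, _, _ => (min_le_left _ _).trans (Nat.zero_le _)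
  | .split _ _, .inl _, .inl _, .inr _, _ => min_le_right _ _
  | .split _ _, .inr _, .inr _, .inl _, _ => min_le_right _ _

/-- if `a`, `b` share the node after `j` levels, a third leaf sees them alike below `j` -/
theorem shr_congr (s : Sh) {a b : s.Lf} {j : ℕ} (h : s.shr a b j = j) (c : s.Lf) :
    s.shr c a j = s.shr c b j := by
  have h1 := shr_ultra s c a b j
  have h2 := shr_ultra s c b a j
  have h3 := shr_le s c a j
  have h4 := shr_le s c b j
  rw [shr_comm s b a, h] at h2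
  rw [h] at h1
  omega

theorem shr_two : ∀ j k : ℕ, (Sh.two j).shr (Sh.twoL j) (Sh.twoR j) k = min j k
  | 0, _ => (Nat.zero_min _).symm
  | _ + 1, 0 => (Nat.min_zero _).symm
  | j + 1, k + 1 => by
      rw [Nat.succ_min_succ]; exact congrArg (· + 1) (shr_two j k)

theorem shr_emb : ∀ (s : Sh) (a : s.Lf) (j : ℕ) (b c : s.Lf) (k : ℕ),
    (s.graft a j).shr (s.emb a j b) (s.emb a j c) k = s.shr b c k
  | .one, _, j, _, _, k => shr_self (Sh.two j) _ k
  | .step _, _, 0, _, _, _ => rfl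
  | .step _, _, _ + 1, _, _, 0 => rfl
  | .step s, a, j + 1, b, c, k + 1 => congrArg (· + 1) (shr_emb s a j b c k)
  | .split s _, .inl a, j, .inl b, .inl c, k => shr_emb s a j b c k
  | .split _ _, .inl _, _, .inr _, .inr _, _ => rfl
  | .split _ _, .inl _, _, .inl _, .inr _, _ => rfl
  | .split _ _, .inl _, _, .inr _, .inl _, _ => rfl
  | .split _ t, .inr a, j, .inr b, .inr c, k => shr_emb t a j b c k
  | .split _ _, .inr _, _, .inl _, .inl _, _ => rfl
  | .split _ _, .inr _, _, .inl _, .inr _, _ => rfl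
  | .split _ _, .inr _, _, .inr _, .inl _, _ => rfl

theorem shr_nw : ∀ (s : Sh) (a : s.Lf) (j : ℕ) (b : s.Lf) (k : ℕ),
    (s.graft a j).shr (s.emb a j b) (s.nw a j) k = s.shr b a (min j k)
  | .one, _, j, _, k => shr_two j k
  | .step s, a, 0, b, k => by rw [Nat.zero_min]; rfl
  | .step s, a, j + 1, b, 0 => by rw [Nat.min_zero]; rfl
  | .step s, a, j + 1, b, k + 1 => by
      rw [Nat.succ_min_succ]; exact congrArg (· + 1) (shr_nw s a j b k)
  | .split s _, .inl a, j, .inl b, k => shr_nw s a j b k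
  | .split _ _, .inl _, _, .inr _, _ => rfl
  | .split _ t, .inr a, j, .inr b, k => shr_nw t a j b k
  | .split _ _, .inr _, _, .inl _, _ => rfl

theorem shr_nw' (s : Sh) (a : s.Lf) (j : ℕ) (b : s.Lf) (k : ℕ) :
    (s.graft a j).shr (s.nw a j) (s.emb a j b) k = s.shr b a (min j k) :=
  (shr_comm _ _ _ _).trans (shr_nw s a j b k)

theorem fst_two : ∀ j : ℕ, (Sh.two j).fst = Sh.twoL j
  | 0 => rfl
  | j + 1 => fst_two j

theorem fst_graft : ∀ (s : Sh) (a : s.Lf) (j : ℕ), (s.graft a j).fst = s.emb a j s.fst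
  | .one, _, j => fst_two j
  | .step _, _, 0 => rfl
  | .step s, a, j + 1 => fst_graft s a j
  | .split s _, .inl a, j => congrArg Sum.inl (fst_graft s a j)
  | .split _ _, .inr _, _ => rfl

theorem br_graft : ∀ (s : Sh) (a : s.Lf) (j : ℕ),
    (s.graft a j).br = s.br + if j = 0 then 1 else 0
  | .one, _, 0 => rfl
  | .one, _, _ + 1 => rfl
  | .step _, _, 0 => rfl
  | .step _, _, _ + 1 => rfl
  | .split s t, .inl a, j => by
      show (s.graft a j).br + t.br = s.br + t.br + _
      rw [br_graft s a j]; omega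
  | .split s t, .inr a, j => by
      show s.br + (t.graft a j).br = s.br + t.br + _
      rw [br_graft t a j]; omega

theorem sum_split {M : Type*} [AddCommMonoid M] (s t : Sh) (G : (Sh.split s t).Lf → M) :
    ∑ a, G a = ∑ a : s.Lf, G (.inl a) + ∑ a : t.Lf, G (.inr a) :=
  Fintype.sum_sum_type (α₁ := s.Lf) (α₂ := t.Lf) G

theorem sum_one {M : Type*} [AddCommMonoid M] (G : Sh.one.Lf → M) : ∑ a, G a = G () :=
  Fintype.sum_unique (ι := Unit) G

theorem sum_two {M : Type*} [AddCommMonoid M] : ∀ (j : ℕ) (G : (Sh.two j).Lf → M),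
    ∑ a, G a = G (Sh.twoL j) + G (Sh.twoR j)
  | 0, G => (sum_split .one .one G).trans (congrArg₂ (· + ·) (sum_one _) (sum_one _))
  | j + 1, G => sum_two j G

/-- the leaves of a graft: the old ones and the new one -/
theorem sum_graft {M : Type*} [AddCommMonoid M] : ∀ (s : Sh) (a : s.Lf) (j : ℕ)
    (G : (s.graft a j).Lf → M), ∑ b, G b = ∑ b, G (s.emb a j b) + G (s.nw a j)
  | .one, _, j, G => (sum_two j G).trans
      (congrArg₂ (· + ·) (sum_one fun _ => G (Sh.twoL j)).symm rfl)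
  | .step s, _, 0, G => (sum_split (.step s) .one G).trans (congrArg₂ (· + ·) rfl (sum_one _))
  | .step s, a, j + 1, G => sum_graft s a j G
  | .split s t, .inl a, j, G => (sum_split (s.graft a j) t G).trans
      ((congrArg₂ (· + ·) (sum_graft s a j _) rfl).trans ((add_right_comm _ _ _).trans
        (congrArg₂ (· + ·) (sum_split s t fun b => G (Sum.map (s.emb a j) id b)).symm rfl)))
  | .split s t, .inr a, j, G => (sum_split s (t.graft a j) G).trans
      ((congrArg₂ (· + ·) rfl (sum_graft t a j _)).trans ((add_assoc _ _ _).symm.trans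
        (congrArg₂ (· + ·) (sum_split s t fun b => G (Sum.map id (t.emb a j) b)).symm rfl)))


theorem card_graft (s : Sh) (a : s.Lf) (j : ℕ) :
    Fintype.card (s.graft a j).Lf = Fintype.card s.Lf + 1 := by
  simpa using sum_graft s a j fun _ => (1 : ℕ)

theorem card_two (j : ℕ) : Fintype.card (Sh.two j).Lf = 2 := by
  simpa using sum_two j fun _ => (1 : ℕ)

theorem two_cases : ∀ (j : ℕ) (a : (Sh.two j).Lf), a = Sh.twoL j ∨ a = Sh.twoR j
  | 0, .inl _ => .inl rfl
  | 0, .inr _ => .inr rfl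
  | j + 1, a => two_cases j a

theorem graft_cases : ∀ (s : Sh) (a : s.Lf) (j : ℕ) (c : (s.graft a j).Lf),
    (∃ b, c = s.emb a j b) ∨ c = s.nw a j
  | .one, _, j, c => (two_cases j c).imp_left fun h => ⟨(), h⟩
  | .step _, _, 0, .inl b => .inl ⟨b, rfl⟩
  | .step _, _, 0, .inr _ => .inr rfl
  | .step s, a, j + 1, c => graft_cases s a j c
  | .split s _, .inl a, j, .inl c => (graft_cases s a j c).imp
      (fun ⟨b, h⟩ => ⟨.inl b, congrArg Sum.inl h⟩) (congrArg Sum.inl)
  | .split _ _, .inl _, _, .inr c => .inl ⟨.inr c, rfl⟩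
  | .split _ t, .inr a, j, .inr c => (graft_cases t a j c).imp
      (fun ⟨b, h⟩ => ⟨.inr b, congrArg Sum.inr h⟩) (congrArg Sum.inr)
  | .split _ _, .inr _, _, .inl c => .inl ⟨.inl c, rfl⟩

variable {Ω : Type}

/-- leaves with a common node have the same state there -/
theorem stT_of_shr : ∀ (s : Sh) (L : List (Lv Ω)) (h : Ω → ℝ) (g : NT s L → ℝ) (a b : s.Lf)
    (j : ℕ), s.shr a b j = j → stT s L h g a j = stT s L h g b j
  | .one, _, _, _, _, _, _, _ => rfl
  | .step s, [], h, g, a, b, j, _ =>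
      (Sd.stT_nil (.step s) h g a j).trans (Sd.stT_nil (.step s) h g b j).symm
  | .step _, _ :: _, _, _, _, _, 0, _ => rfl
  | .step s, _ :: L, _, _, a, b, j + 1, e => stT_of_shr s L _ _ a b j (Nat.succ.inj e)
  | .split s _, L, h, _, .inl a, .inl b, j, e => stT_of_shr s L h _ a b j e
  | .split _ t, L, h, _, .inr a, .inr b, j, e => stT_of_shr t L h _ a b j e
  | .split s t, L, h, g, .inl a, .inr b, j, e => by
      obtain rfl : 0 = j := e
      exact (Sd.stT_zero (.split s t) L h g _).trans (Sd.stT_zero (.split s t) L h g _).symm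
  | .split s t, L, h, g, .inr a, .inl b, j, e => by
      obtain rfl : 0 = j := e
      exact (Sd.stT_zero (.split s t) L h g _).trans (Sd.stT_zero (.split s t) L h g _).symm

end Wt87

variable {Ω : Type}

/-- `G a j` only depends on the node reached by `a` after `j` levels -/
def NC (s : Sh) (G : s.Lf → ℕ → ℝ) : Prop := ∀ a b j, s.shr a b j = j → G a j = G b j

/-- all the node weights, the root included (total weight = number of leaves) -/
def Wn (s : Sh) (L : List (Lv Ω)) (G : s.Lf → ℕ → ℝ) : ℝ :=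
  ∑ a, ∑ j ∈ Finset.range (L.length + 1), cf s L a j * G a j + s.br * ex L 0 * G s.fst 0

namespace Wt87

theorem NC.zero {s : Sh} {G : s.Lf → ℕ → ℝ} (h : NC s G) (a b : s.Lf) : G a 0 = G b 0 :=
  h a b 0 (shr_zero s a b)

theorem NC.step {s : Sh} {G : s.Lf → ℕ → ℝ} (h : NC (.step s) G) : NC s fun a j => G a (j + 1) :=
  fun a b j e => h a b (j + 1) (congrArg (· + 1) e)

theorem NC.inl {s t : Sh} {G : s.Lf ⊕ t.Lf → ℕ → ℝ} (h : NC (.split s t) G) :
    NC s fun a => G (.inl a) := fun a b j e => h (.inl a) (.inl b) j e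

theorem NC.inr {s t : Sh} {G : s.Lf ⊕ t.Lf → ℕ → ℝ} (h : NC (.split s t) G) :
    NC t fun a => G (.inr a) := fun a b j e => h (.inr a) (.inr b) j e

theorem NC.emb {s : Sh} {a : s.Lf} {j : ℕ} {G : (s.graft a j).Lf → ℕ → ℝ}
    (h : NC (s.graft a j) G) : NC s fun b => G (s.emb a j b) :=
  fun b c k e => h _ _ k ((shr_emb s a j b c k).trans e)

theorem Wn_const (s : Sh) (L : List (Lv Ω)) (c : ℝ) :
    Wn s L (fun _ _ => c) = Fintype.card s.Lf * c := by
  simp only [Wn, ← Finset.sum_mul, sum_cf]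
  ring

theorem Wn_congr (s : Sh) (L : List (Lv Ω)) {G G' : s.Lf → ℕ → ℝ}
    (e : ∀ a j, j ≤ L.length → G a j = G' a j) : Wn s L G = Wn s L G' := by
  rw [Wn, Wn, e _ 0 (Nat.zero_le _)]
  congr 1
  exact Finset.sum_congr rfl fun a _ => Finset.sum_congr rfl fun j hj => by
    rw [e a j (Nat.lt_succ_iff.1 (Finset.mem_range.1 hj))]

theorem Wn_add (s : Sh) (L : List (Lv Ω)) (G G' : s.Lf → ℕ → ℝ) :
    Wn s L (fun a j => G a j + G' a j) = Wn s L G + Wn s L G' := by
  simp only [Wn, mul_add, Finset.sum_add_distrib]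
  ring

theorem Wn_const_mul (s : Sh) (L : List (Lv Ω)) (c : ℝ) (G : s.Lf → ℕ → ℝ) :
    Wn s L (fun a j => c * G a j) = c * Wn s L G := by
  simp only [Wn, mul_add, Finset.mul_sum, mul_left_comm c]

theorem Wn_mono (s : Sh) {L : List (Lv Ω)} (hL : Mono 0 L) {G G' : s.Lf → ℕ → ℝ}
    (e : ∀ a j, j ≤ L.length → G a j ≤ G' a j) : Wn s L G ≤ Wn s L G' := by
  have h0 : 0 ≤ ex L 0 := by simpa [dm, exP] using dm_nonneg hL 0
  exact add_le_add (Finset.sum_le_sum fun a _ => Finset.sum_le_sum fun j hj =>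
    mul_le_mul_of_nonneg_left (e a j (Nat.lt_succ_iff.1 (Finset.mem_range.1 hj)))
      (cf_nonneg s L 0 le_rfl hL a j))
    (mul_le_mul_of_nonneg_left (e _ 0 (Nat.zero_le _)) (by positivity))

theorem abs_Wn_le (s : Sh) {L : List (Lv Ω)} (hL : Mono 0 L) {G G' : s.Lf → ℕ → ℝ}
    (e : ∀ a j, j ≤ L.length → |G a j| ≤ G' a j) : |Wn s L G| ≤ Wn s L G' := by
  have h1 := Wn_mono s hL fun a j hj => (abs_le.1 (e a j hj)).2
  have h2 := Wn_mono s hL (G := fun a j => -1 * G' a j) (G' := G) fun a j hj => by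
    linarith [(abs_le.1 (e a j hj)).1]
  rw [Wn_const_mul] at h2
  rw [abs_le]
  constructor <;> linarith

theorem Wn_nil (s : Sh) {G : s.Lf → ℕ → ℝ} {c : ℝ} (e : ∀ a, G a 0 = c) :
    Wn s ([] : List (Lv Ω)) G = Fintype.card s.Lf * c := by
  rw [← Wn_const s ([] : List (Lv Ω)) c]
  exact Wn_congr s [] fun a j hj => by obtain rfl : j = 0 := Nat.le_zero.1 hj; exact e a

/-- one leaf -/
theorem Wn_one (L : List (Lv Ω)) (G : Unit → ℕ → ℝ) :
    Wn .one L G = ∑ j ∈ Finset.range (L.length + 1), dm L 0 j * G () j := by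
  show ∑ a : Unit, _ + ((1 : ℕ) : ℝ) * ex L 0 * G () 0 = _
  rw [Fintype.sum_unique, Finset.sum_range_succ', Finset.sum_range_succ']
  show ∑ j ∈ Finset.range L.length, dm L 0 (j + 1) * G () (j + 1) + 0 * _ + _ = _
  simp [dm, exP]

theorem Wn_step_cons (s : Sh) (l : Lv Ω) (L : List (Lv Ω)) (G : s.Lf → ℕ → ℝ) :
    Wn (.step s) (l :: L) G = Wn s L (fun a j => G a (j + 1)) + l.m * (G s.fst 0 - G s.fst 1) := by
  show ∑ a : s.Lf, ∑ j ∈ Finset.range (L.length + 1 + 1), cf (.step s) (l :: L) a j * G a j +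
    ((1 : ℕ) : ℝ) * l.m * G s.fst 0 = _
  simp only [Finset.sum_range_succ' _ (L.length + 1)]
  show ∑ a : s.Lf, (∑ j ∈ Finset.range (L.length + 1),
    (cf s L a j + if a = s.fst ∧ j = 0 then s.br * ex L 0 - l.m else 0) * G a (j + 1) +
      0 * G a 0) + _ = _
  have h1 := Sd.sum_ite s L.length (s.br * ex L 0 - l.m) fun a j => G a (j + 1)
  simp only [add_mul, Finset.sum_add_distrib, zero_mul, add_zero, h1, Wn]
  push_cast; ring

theorem Wn_one_cons (l : Lv Ω) (L : List (Lv Ω)) (G : Unit → ℕ → ℝ) :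
    Wn .one (l :: L) G = Wn .one L (fun a j => G a (j + 1)) + l.m * (G () 0 - G () 1) := by
  refine (Wn_one _ _).trans (Eq.trans ?_ (congrArg₂ (· + ·) (Wn_one L _).symm rfl))
  rw [List.length_cons, Finset.sum_range_succ' _ (L.length + 1),
    Finset.sum_range_succ' _ L.length, Finset.sum_range_succ' _ L.length]
  have e : ∀ j, dm (l :: L) 0 (j + 1 + 1) = dm L 0 (j + 1) := fun _ => rfl
  have e0 : dm (l :: L) 0 0 = l.m := sub_zero _
  have e1 : dm (l :: L) 0 (0 + 1) = dm L 0 0 - l.m := by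
    show ex L 0 - l.m = ex L 0 - 0 - l.m
    ring
  simp only [e, e0, e1]
  ring

theorem Wn_split (s t : Sh) (L : List (Lv Ω)) {G : s.Lf ⊕ t.Lf → ℕ → ℝ}
    (e : G (.inr t.fst) 0 = G (.inl s.fst) 0) :
    Wn (.split s t) L G = Wn s L (fun a => G (.inl a)) + Wn t L fun a => G (.inr a) := by
  show ∑ a : s.Lf ⊕ t.Lf, _ + ((s.br + t.br : ℕ) : ℝ) * ex L 0 * G (.inl s.fst) 0 = _
  rw [Fintype.sum_sum_type, Wn, Wn, e]
  show ∑ a : s.Lf, ∑ j ∈ Finset.range (L.length + 1), cf s L a j * G (.inl a) j +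
    ∑ a : t.Lf, ∑ j ∈ Finset.range (L.length + 1), cf t L a j * G (.inr a) j + _ = _
  push_cast; ring

theorem Wn_one' (L : List (Lv Ω)) (G : Unit → ℕ → ℝ) :
    Wn .one L G = ex L 0 * G () 0 + ∑ j ∈ Finset.Ioc 0 L.length, dm L 0 j * G () j := by
  rw [Wn_one, Finset.range_eq_Ico, Finset.sum_eq_sum_Ico_succ_bot (Nat.succ_pos _)]
  simp only [dm, exP, sub_zero]
  rfl

theorem sum_Ioc_cons (l : Lv Ω) (L : List (Lv Ω)) (j : ℕ) (G : ℕ → ℝ) :
    ∑ k ∈ Finset.Ioc (j + 1) (l :: L).length, dm (l :: L) 0 k * G k =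
      ∑ k ∈ Finset.Ioc j L.length, dm L 0 k * G (k + 1) := by
  rw [List.length_cons, ← Finset.map_add_right_Ioc, Finset.sum_map]
  refine Finset.sum_congr rfl fun k hk => ?_
  obtain ⟨k, rfl⟩ := Nat.exists_eq_succ_of_ne_zero
    (Nat.pos_iff_ne_zero.1 ((Nat.zero_le j).trans_lt (Finset.mem_Ioc.1 hk).1))
  rfl

/-- `s'` is `s` with a new leaf `ν` grafted at the node `(a, j)`, as far as weights go -/
def Gw (L : List (Lv Ω)) (s s' : Sh) (e : s.Lf → s'.Lf) (ν : s'.Lf) (a : s.Lf) (j : ℕ) : Prop :=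
  ∀ G : s'.Lf → ℕ → ℝ, NC s' G → Wn s' L G = Wn s L (fun b => G (e b)) +
    ex L (min j L.length) * G (e a) (min j L.length) +
    ∑ k ∈ Finset.Ioc j L.length, dm L 0 k * G ν k

theorem gw_zero (L : List (Lv Ω)) (s : Sh) (a : s.Lf) :
    Gw L s (.split s .one) Sum.inl (.inr ()) a 0 := fun G h => by
  have alg : ∀ {A B C x y z S : ℝ}, A = B + C → C = x * y + S → y = z → A = B + x * z + S := by
    intro A B C x y z S h1 h2 h3
    rw [h1, h2, h3, add_assoc]
  rw [Nat.zero_min]
  exact alg (Wn_split s .one L (NC.zero h _ _)) (Wn_one' L _) (NC.zero h _ _)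

theorem alg_step {A B C D E m x y x' y' S S' : ℝ} (h1 : A = B + m * (x - y)) (h2 : B = C + D + S)
    (h3 : E = C + m * (x' - y')) (hx : x = x') (hy : y = y') (hS : S' = S) : A = E + D + S' := by
  rw [h1, h2, h3, hx, hy, hS]; ring

theorem gw_step {L : List (Lv Ω)} {s s' : Sh} {e : s.Lf → s'.Lf} {ν : s'.Lf} {a : s.Lf} {j : ℕ}
    (l : Lv Ω) (H : Gw L s s' e ν a j) (hf : s'.fst = e s.fst) :
    Gw (l :: L) (.step s) (.step s') e ν a (j + 1) := fun G h => by
  rw [List.length_cons, Nat.succ_min_succ]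
  exact alg_step (Wn_step_cons s' l L G) (H _ (NC.step h)) (Wn_step_cons s l L _)
    (congrArg (G · 0) hf) (congrArg (G · 1) hf) (sum_Ioc_cons l L j _)

theorem gw_one {L : List (Lv Ω)} {s' : Sh} {e : Unit → s'.Lf} {ν : s'.Lf} {j : ℕ}
    (l : Lv Ω) (H : Gw L .one s' e ν () j) (hf : s'.fst = e ()) :
    Gw (l :: L) .one (.step s') e ν () (j + 1) := fun G h => by
  rw [List.length_cons, Nat.succ_min_succ]
  exact alg_step (Wn_step_cons s' l L G) (H _ (NC.step h)) (Wn_one_cons l L _)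
    (congrArg (G · 0) hf) (congrArg (G · 1) hf) (sum_Ioc_cons l L j _)

theorem gw_inl {L : List (Lv Ω)} {s s' : Sh} (t : Sh) {e : s.Lf → s'.Lf} {ν : s'.Lf} {a : s.Lf}
    {j : ℕ} (H : Gw L s s' e ν a j) :
    Gw L (.split s t) (.split s' t) (Sum.map e id) (.inl ν) (.inl a) j := fun G h => by
  have alg : ∀ {A B C D E T S : ℝ}, A = B + T → B = C + D + S → E = C + T → A = E + D + S := by
    intro A B C D E T S h1 h2 h3
    rw [h1, h2, h3]; ring
  exact alg (Wn_split s' t L (NC.zero h _ _)) (H _ (NC.inl h))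
    (Wn_split s t L (G := fun b => G (Sum.map e id b)) (NC.zero h _ _))

theorem gw_inr {L : List (Lv Ω)} (s : Sh) {t t' : Sh} {e : t.Lf → t'.Lf} {ν : t'.Lf} {a : t.Lf}
    {j : ℕ} (H : Gw L t t' e ν a j) :
    Gw L (.split s t) (.split s t') (Sum.map id e) (.inr ν) (.inr a) j := fun G h => by
  have alg : ∀ {A B C D E T S : ℝ}, A = T + B → B = C + D + S → E = T + C → A = E + D + S := by
    intro A B C D E T S h1 h2 h3
    rw [h1, h2, h3]; ring
  exact alg (Wn_split s t' L (NC.zero h _ _)) (H _ (NC.inr h))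
    (Wn_split s t L (G := fun b => G (Sum.map id e b)) (NC.zero h _ _))

theorem gw_graft : ∀ (L : List (Lv Ω)) (s : Sh) (a : s.Lf) (j : ℕ),
    Gw L s (s.graft a j) (s.emb a j) (s.nw a j) a j
  | [], s, a, j => fun G h => by
      rw [Wn_nil _ fun b => NC.zero h b (s.emb a j a), Wn_nil _ fun b => NC.zero h _ (s.emb a j a),
        card_graft, List.length_nil, Nat.min_zero, Finset.Ioc_eq_empty (by omega)]
      simp [ex, add_mul]
  | l :: L, .one, _, 0 => gw_zero (l :: L) .one ()
  | l :: L, .one, _, j + 1 => gw_one l (gw_graft L .one () j) (fst_two j)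
  | l :: L, .step s, a, 0 => gw_zero (l :: L) (.step s) a
  | l :: L, .step s, a, j + 1 => gw_step l (gw_graft L s a j) (fst_graft s a j)
  | l :: L, .split s t, .inl a, j => gw_inl t (gw_graft (l :: L) s a j)
  | l :: L, .split s t, .inr a, j => gw_inr s (gw_graft (l :: L) t a j)

/-- **weights of a graft**: the node of the graft gains `ex`, the new branch carries `dm` -/
theorem Wn_graft (L : List (Lv Ω)) (s : Sh) (a : s.Lf) (j : ℕ) {G : (s.graft a j).Lf → ℕ → ℝ}
    (h : NC (s.graft a j) G) : Wn (s.graft a j) L G = Wn s L (fun b => G (s.emb a j b)) +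
      ex L (min j L.length) * G (s.emb a j a) (min j L.length) +
      ∑ k ∈ Finset.Ioc j L.length, dm L 0 k * G (s.nw a j) k := gw_graft L s a j G h

/-- two leaves split after `j` levels -/
theorem Wn_two (L : List (Lv Ω)) {j : ℕ} (hj : j ≤ L.length) {G : (Sh.two j).Lf → ℕ → ℝ}
    (h : NC (Sh.two j) G) : Wn (Sh.two j) L G =
      ∑ k ∈ Finset.range (j + 1), dm L 0 k * G (Sh.twoL j) k + ex L j * G (Sh.twoL j) j +
      ∑ k ∈ Finset.Ioc j L.length, dm L 0 k * (G (Sh.twoL j) k + G (Sh.twoR j) k) := by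
  have h1 : Wn (Sh.two j) L G = Wn .one L (fun _ => G (Sh.twoL j)) +
      ex L (min j L.length) * G (Sh.twoL j) (min j L.length) +
      ∑ k ∈ Finset.Ioc j L.length, dm L 0 k * G (Sh.twoR j) k := gw_graft L .one () j G h
  have h2 : Wn .one L (fun _ => G (Sh.twoL j)) = _ := Wn_one L fun _ => G (Sh.twoL j)
  rw [h1, h2, min_eq_left hj, ← Finset.sum_range_add_sum_Ico _ (Nat.succ_le_succ hj)]
  simp only [mul_add, Finset.sum_add_distrib]
  rw [show Finset.Ico j.succ L.length.succ = Finset.Ioc j L.length from by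
    ext k; simp only [Finset.mem_Ico, Finset.mem_Ioc]; omega]
  ring

/-- `Wn` is the sum with the weights `cw` of helper38 -/
theorem sum_cw_eq (s : Sh) (L : List (Lv Ω)) (G : s.Lf → ℕ → ℝ) :
    ∑ a, ∑ j ∈ Finset.range (L.length + 1), cw s L a j * G a j = Wn s L G :=
  sum_cw_mul s L L.length G

/-- the weights below a node -/
theorem sum_dm_drop (L : List (Lv Ω)) {j : ℕ} (hj : j ≤ L.length) (G : ℕ → ℝ) :
    ∑ i ∈ Finset.range (L.length - j + 1), dm (L.drop j) 0 i * G (i + j) =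
      ex L j * G j + ∑ k ∈ Finset.Ioc j L.length, dm L 0 k * G k := by
  have hex : ∀ i, ex (L.drop j) i = ex L (i + j) := fun i => by
    simp only [ex, List.getElem?_drop, add_comm j]
  rw [Finset.sum_range_succ', add_comm, zero_add]
  congr 1
  · simp [dm, exP, hex]
  · rw [show Finset.Ioc j L.length = Finset.Ico (j + 1) (L.length + 1) from by
        ext k; simp only [Finset.mem_Ico, Finset.mem_Ioc]; omega,
      Finset.sum_Ico_eq_sum_range, show L.length + 1 - (j + 1) = L.length - j by omega]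
    refine Finset.sum_congr rfl fun i _ => ?_
    rw [dm, dm, hex, show i + 1 + j = i + j + 1 by omega, show j + 1 + i = i + j + 1 by omega]
    simp only [exP, hex]

/-- weights of a graft, the new branch charged from the node of the graft on -/
theorem Wn_graft' (L : List (Lv Ω)) (s : Sh) (a : s.Lf) {j : ℕ} (hj : j ≤ L.length)
    {G : (s.graft a j).Lf → ℕ → ℝ} (h : NC (s.graft a j) G) :
    Wn (s.graft a j) L G = Wn s L (fun b => G (s.emb a j b)) +
      ∑ i ∈ Finset.range (L.length - j + 1), dm (L.drop j) 0 i * G (s.nw a j) (i + j) := by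
  rw [Wn_graft L s a j h, sum_dm_drop L hj, min_eq_left hj, add_assoc,
    h (s.emb a j a) (s.nw a j) j (by rw [shr_nw, min_self, shr_self])]

variable [Fintype Ω] {w : Ω → ℝ}

/-- a grafted leaf only sees the node of the graft -/
theorem nc_graft (hw : Wt w) (s : Sh) (L : List (Lv Ω)) (h : Ω → ℝ)
    {G : s.Lf → ℕ → (s.Lf → Ω) → Ω → ℝ} (hG : ∀ a b j, s.shr a b j = j → G a j = G b j) :
    NC s fun a j => tX w (s.graft a j) L h fun _ x =>
      G a j (fun b => x (s.emb a j b)) (x (s.nw a j)) := fun a b j e => by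
  refine (graft_leaf hw s a j L h _).trans (Eq.trans ?_ (graft_leaf hw s b j L h _).symm)
  simp only [hG a b j e, fun g => stT_of_shr s L h g a b j e]


/-- two leaves, any kernel -/
theorem tX_two (hw : Wt w) (K : Ω → Ω → ℝ) (j : ℕ) (L : List (Lv Ω)) (h : Ω → ℝ) :
    tX w (Sh.two j) L h (fun _ x => K (x (Sh.twoL j)) (x (Sh.twoR j))) = pi2 w L j K h := by
  refine (graft_leaf hw .one () j L h fun x y => K (x ()) y).trans
    ((Tr.tX_one w L h _).trans ((Pe.pE_node hw (fun x z => ∑ y, P w (L.drop j) z y * K x y)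
      (fun x => Eg.sum _ fun y _ => (eg_P hw _ y).mul_const _) L j h).trans ?_))
  simp only [pi2, qf, Finset.mul_sum, mul_assoc]

end Wt87

end Crest.Agent.T156.Cas

end
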