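import Crest.Agent.T156.CaTay_38
import Crest.Agent.T156.CaWt_87

/-!
# Row 156 (helper38): the remainder of the Taylor expansion on replica trees

`abs_Dop_iter_le`: the `k`-th formal derivative is bounded by moments of the kernels under the
two-replica laws, with a constant that depends only on `k` and on the number of leaves.
-/

set_option autoImplicit false
set_option linter.unusedSectionVars false

noncomputable section

namespace Crest.Agent.T156.Cas

open MeasureTheory Real Set Filter Topology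
open Crest.Agent.T157.E Crest.Agent.T157.Casc Crest.Agent.T157.SL

variable {Ω : Type}

/-- sum over the ordered pairs of distinct leaves -/
def prs (s : Sh) (G : s.Lf → s.Lf → ℝ) : ℝ := ∑ a, ∑ b, if a = b then 0 else G a b

/-- total size of the kernels `T` on the pairs of leaves -/
def Dv (K : ℕ) (T : ℕ → Ω → Ω → ℝ) (s : Sh) (x : s.Lf → Ω) : ℝ :=
  prs s fun a b => T (s.shr a b K) (x a) (x b)

/-- a function of the level, summed over the splitting levels of `s` and against the tilts -/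
def Nv (M : List (Lv Ω)) (g : ℕ → ℝ) (s : Sh) : ℝ :=
  prs s (fun a b => g (s.shr a b M.length)) + ∑ j ∈ Finset.range (M.length + 1), dm M 0 j * g j

namespace Tay38

open Wt87

theorem ite_nonneg {p : Prop} [Decidable p] {x : ℝ} (h : 0 ≤ x) : 0 ≤ if p then 0 else x := by
  split_ifs
  exacts [le_rfl, h]


theorem prs_nonneg (s : Sh) {G : s.Lf → s.Lf → ℝ} (h : ∀ a b, 0 ≤ G a b) : 0 ≤ prs s G :=
  Finset.sum_nonneg fun a _ => Finset.sum_nonneg fun b _ => ite_nonneg (h a b)

theorem le_prs (s : Sh) {G : s.Lf → s.Lf → ℝ} (h : ∀ a b, 0 ≤ G a b) {a b : s.Lf} (hab : a ≠ b) :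
    G a b ≤ prs s G := by
  refine le_trans ?_ (Finset.single_le_sum (f := fun a => ∑ b, if a = b then 0 else G a b)
    (fun a _ => Finset.sum_nonneg fun b _ => ite_nonneg (h a b)) (Finset.mem_univ a))
  refine le_trans ?_ (Finset.single_le_sum (f := fun b => if a = b then 0 else G a b)
    (fun b _ => ite_nonneg (h a b)) (Finset.mem_univ b))
  rw [if_neg hab]

theorem row_le_prs (s : Sh) {G : s.Lf → s.Lf → ℝ} (h : ∀ a b, 0 ≤ G a b) (a : s.Lf) :
    (∑ b, if a = b then 0 else G a b) ≤ prs s G :=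
  Finset.single_le_sum (f := fun a => ∑ b, if a = b then 0 else G a b)
    (fun a _ => Finset.sum_nonneg fun b _ => ite_nonneg (h a b)) (Finset.mem_univ a)

theorem emb_ne (s : Sh) (a : s.Lf) (j : ℕ) (b : s.Lf) : s.emb a j b ≠ s.nw a j := fun e => by
  have h := sum_graft s a j fun c => if c = s.nw a j then (1 : ℕ) else 0
  have h2 := Finset.single_le_sum (f := fun c => if s.emb a j c = s.nw a j then (1 : ℕ) else 0)
    (fun _ _ => Nat.zero_le _) (Finset.mem_univ b)
  simp only [Finset.sum_ite_eq', Finset.mem_univ, if_true, e] at h h2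
  omega

theorem emb_inj (s : Sh) (a : s.Lf) (j : ℕ) : Function.Injective (s.emb a j) := fun b c e => by
  by_contra hbc
  have h := sum_graft s a j fun d => if d = s.emb a j b then (1 : ℕ) else 0
  have h2 := Finset.add_le_sum (f := fun d => if s.emb a j d = s.emb a j b then (1 : ℕ) else 0)
    (fun _ _ => Nat.zero_le _) (Finset.mem_univ b) (Finset.mem_univ c) hbc
  simp only [Finset.sum_ite_eq', Finset.mem_univ, if_true, ← e] at h h2
  omega

theorem prs_graft (s : Sh) (a : s.Lf) (j : ℕ) (G : (s.graft a j).Lf → (s.graft a j).Lf → ℝ) :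
    prs (s.graft a j) G = prs s (fun b c => G (s.emb a j b) (s.emb a j c)) +
      ∑ b, G (s.emb a j b) (s.nw a j) + ∑ b, G (s.nw a j) (s.emb a j b) := by
  simp only [prs, sum_graft s a j, (emb_inj s a j).eq_iff, emb_ne, (emb_ne s a j _).symm, if_true,
    if_false, Finset.sum_add_distrib, add_zero]

theorem prs_split (s t : Sh) (G : (Sh.split s t).Lf → (Sh.split s t).Lf → ℝ) :
    prs (.split s t) G = prs s (fun a b => G (.inl a) (.inl b)) +
      prs t (fun a b => G (.inr a) (.inr b)) +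
      (∑ a, ∑ b, G (.inl a) (.inr b) + ∑ a, ∑ b, G (.inr a) (.inl b)) := by
  have e1 : ∀ a b : s.Lf, (@Eq (Sh.split s t).Lf (.inl a) (.inl b)) ↔ a = b :=
    fun a b => Sum.inl_injective.eq_iff
  have e2 : ∀ a b : t.Lf, (@Eq (Sh.split s t).Lf (.inr a) (.inr b)) ↔ a = b :=
    fun a b => Sum.inr_injective.eq_iff
  have e3 : ∀ (a : s.Lf) (b : t.Lf), ¬ (@Eq (Sh.split s t).Lf (.inl a) (.inr b)) :=
    fun a b => Sum.inl_ne_inr
  have e4 : ∀ (a : t.Lf) (b : s.Lf), ¬ (@Eq (Sh.split s t).Lf (.inr a) (.inl b)) :=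
    fun a b => Sum.inr_ne_inl
  simp only [prs, sum_split s t, e1, e2, e3, e4, if_false, Finset.sum_add_distrib]
  ring

theorem shr_cases (s : Sh) (a b : s.Lf) {j K : ℕ} (hj : j ≤ K) :
    s.shr a b j = j ∨ (a ≠ b ∧ s.shr a b j = s.shr a b K) := by
  have h := shr_min s a b j K
  rw [min_eq_left hj] at h
  by_cases e : s.shr a b j = j
  · exact .inl e
  · exact .inr ⟨fun hab => e (hab ▸ shr_self s a j), by omega⟩

theorem ex_le_one : ∀ {L : List (Lv Ω)} {m0 : ℝ}, Mono m0 L → ∀ j, ex L j ≤ 1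
  | [], _, _, _ => le_rfl
  | [_], _, h, 0 => h.2
  | _ :: l :: L, _, h, 0 => h.2.1.trans (ex_le_one (L := l :: L) h.2 0)
  | _ :: _, _, h, j + 1 => ex_le_one h.2 j

theorem one_le_card (s : Sh) : (1 : ℝ) ≤ Fintype.card s.Lf := by
  exact_mod_cast Fintype.card_pos_iff.2 ⟨s.fst⟩

theorem Wn_level : ∀ (s : Sh) (L : List (Lv Ω)) (m0 : ℝ) (g : ℕ → ℝ), Mono m0 L → (∀ j, 0 ≤ g j) →
    Wn s L (fun _ j => g j) + (s.br - 1) * g 0 - s.br * ex L 0 * g 0 ≤
      Fintype.card s.Lf * ∑ j ∈ Finset.range L.length, dm L 0 (j + 1) * g (j + 1) +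
        prs s fun a b => g (s.shr a b L.length)
  | .one, L, _, g, _, hg => by
      have h := prs_nonneg .one (G := fun a b => g (Sh.one.shr a b L.length)) fun _ _ => hg _
      have e0 : Wn .one L (fun _ j => g j) = ∑ j ∈ Finset.range (L.length + 1), dm L 0 j * g j :=
        Wn_one L fun _ j => g j
      rw [e0, Finset.sum_range_succ', show Fintype.card Sh.one.Lf = 1 from rfl,
        show Sh.one.br = 1 from rfl]
      simp only [dm, exP, Nat.cast_one] at h ⊢
      linarith
  | .step s, [], m0, g, hL, hg => by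
      have h := Wn_level s [] m0 g hL hg
      rw [Wn_nil (c := g 0) _ fun _ => rfl] at h ⊢
      rw [show (Sh.step s).br = 1 from rfl, show ex ([] : List (Lv Ω)) 0 = 1 from rfl] at *
      simp only [List.length_nil, shr_zero, Nat.cast_one] at h ⊢
      have e : Fintype.card (Sh.step s).Lf = Fintype.card s.Lf := rfl
      have e' : prs (.step s) (fun _ _ => g 0) = prs s fun _ _ => g 0 := rfl
      rw [e, e']
      linarith
  | .step s, l :: L, m0, g, hL, hg => by
      have h := Wn_level s L l.m (fun j => g (j + 1)) hL.2 fun j => hg _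
      have h1 := ex_le_one hL.2 0
      have h2 : 0 ≤ ex L 0 - l.m := dm_nonneg hL.2 0
      have h3 := one_le_card s
      have h4 : (1 : ℝ) ≤ s.br := by exact_mod_cast s.one_le_br90
      have e : Fintype.card (Sh.step s).Lf = Fintype.card s.Lf := rfl
      have e' : prs (.step s) (fun a b => g ((Sh.step s).shr a b (l :: L).length)) =
        prs s fun a b => g (s.shr a b L.length + 1) := rfl
      have e2 : ∀ j, dm (l :: L) 0 (j + 1 + 1) = dm L 0 (j + 1) := fun j => rfl
      have e3 : dm (l :: L) 0 (0 + 1) = ex L 0 - l.m := rfl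
      have e0 : Wn (.step s) (l :: L) (fun _ j => g j) =
          Wn s L (fun _ j => g (j + 1)) + l.m * (g 0 - g 1) := Wn_step_cons s l L fun _ j => g j
      rw [e0, e, e', show (Sh.step s).br = 1 from rfl,
        show ex (l :: L) 0 = l.m from rfl, List.length_cons, Finset.sum_range_succ', e3]
      simp only [e2, Nat.cast_one, zero_add] at h ⊢
      have h5 := mul_nonneg (mul_nonneg (sub_nonneg.2 h4) (sub_nonneg.2 h1)) (hg 1)
      have h6 := mul_nonneg (mul_nonneg (sub_nonneg.2 h3) h2) (hg 1)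
      nlinarith
  | .split s t, L, m0, g, hL, hg => by
      have h := Wn_level s L m0 g hL hg
      have h' := Wn_level t L m0 g hL hg
      have e : (Fintype.card (Sh.split s t).Lf : ℝ) = Fintype.card s.Lf + Fintype.card t.Lf := by
        exact_mod_cast Fintype.card_sum (α := s.Lf) (β := t.Lf)
      have e1 : ∀ a b, (Sh.split s t).shr (.inl a) (.inr b) L.length = 0 := fun _ _ => rfl
      have e2 : ∀ a b, (Sh.split s t).shr (.inr a) (.inl b) L.length = 0 := fun _ _ => rfl
      have e3 : ∀ a b, (Sh.split s t).shr (.inl a) (.inl b) L.length = s.shr a b L.length :=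
        fun _ _ => rfl
      have e4 : ∀ a b, (Sh.split s t).shr (.inr a) (.inr b) L.length = t.shr a b L.length :=
        fun _ _ => rfl
      have e0 : Wn (.split s t) L (fun _ j => g j) =
          Wn s L (fun _ j => g j) + Wn t L fun _ j => g j :=
        Wn_split s t L (G := fun _ j => g j) rfl
      rw [e0, e, prs_split,
        show (Sh.split s t).br = s.br + t.br from rfl]
      simp only [e1, e2, e3, e4, Finset.sum_const, Finset.card_univ, nsmul_eq_mul]
      push_cast
      have h3 := one_le_card s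
      have h4 := one_le_card t
      have h5 := mul_nonneg (mul_nonneg (sub_nonneg.2 h3) (zero_le_one.trans h4)) (hg 0)
      have h6 := mul_nonneg (sub_nonneg.2 h4) (hg 0)
      have h7 := mul_nonneg (mul_nonneg (zero_le_one.trans h4) (zero_le_one.trans h3)) (hg 0)
      nlinarith

variable {M : List (Lv Ω)} {g : ℕ → ℝ}

theorem N0_nonneg (hM : Mono 0 M) (hg : ∀ j, 0 ≤ g j) :
    0 ≤ ∑ j ∈ Finset.range (M.length + 1), dm M 0 j * g j :=
  Finset.sum_nonneg fun j _ => mul_nonneg (dm_nonneg hM j) (hg j)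

theorem Nv_nonneg (hM : Mono 0 M) (hg : ∀ j, 0 ≤ g j) (s : Sh) : 0 ≤ Nv M g s :=
  add_nonneg (prs_nonneg s fun _ _ => hg _) (N0_nonneg hM hg)

/-- the node weights, summed level by level -/
theorem sum_cw_level (hM : Mono 0 M) (hg : ∀ j, 0 ≤ g j) (s : Sh) :
    ∑ a, ∑ j ∈ Finset.range (M.length + 1), cw s M a j * g j ≤ Fintype.card s.Lf * Nv M g s := by
  have h := Wn_level s M 0 g hM hg
  have h1 := ex_le_one hM 0
  have h2 : 0 ≤ ex M 0 - 0 := dm_nonneg hM 0
  have h3 := one_le_card s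
  have h4 : (1 : ℝ) ≤ s.br := by exact_mod_cast s.one_le_br90
  have h7 := prs_nonneg s (G := fun a b => g (s.shr a b M.length)) fun _ _ => hg _
  rw [sum_cw_eq s M fun _ j => g j, Nv, Finset.sum_range_succ', show dm M 0 0 = ex M 0 - 0 from rfl]
  have h5 := mul_nonneg (mul_nonneg (sub_nonneg.2 h4) (sub_nonneg.2 h1)) (hg 0)
  have h6 := mul_nonneg (mul_nonneg (sub_nonneg.2 h3) h2) (hg 0)
  nlinarith

theorem Nv_graft (hM : Mono 0 M) (hg : ∀ j, 0 ≤ g j) (s : Sh) (a : s.Lf) {j : ℕ}
    (hj : j ≤ M.length) :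
    Nv M g (s.graft a j) ≤ 3 * Nv M g s + 2 * Fintype.card s.Lf * g j := by
  have h1 : ∑ b, g (s.shr b a j) ≤ Fintype.card s.Lf * g j +
      prs s fun a b => g (s.shr a b M.length) := by
    refine le_trans (Finset.sum_le_sum (g := fun b => g j +
      if a = b then 0 else g (s.shr a b M.length)) fun b _ => ?_) ?_
    · rw [shr_comm]
      rcases shr_cases s a b hj with e | ⟨hab, e⟩
      · rw [e]
        exact le_add_of_nonneg_right (ite_nonneg (hg _))
      · rw [e, if_neg hab]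
        exact le_add_of_nonneg_left (hg _)
    · rw [Finset.sum_add_distrib, Finset.sum_const, Finset.card_univ, nsmul_eq_mul]
      exact add_le_add le_rfl (row_le_prs s (G := fun a b => g (s.shr a b M.length))
        (fun _ _ => hg _) a)
  have h2 := N0_nonneg hM hg
  rw [Nv, Nv, prs_graft]
  simp only [shr_emb, shr_nw, shr_nw', min_eq_left hj]
  linarith

theorem sum_dm_le (hM : Mono 0 M) (hg : ∀ j, 0 ≤ g j) (s : Sh) {j : ℕ} (hj : j ≤ M.length) :
    ∑ i ∈ Finset.range (M.length - j + 1), dm (M.drop j) 0 i * g (i + j) ≤ g j + Nv M g s := by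
  rw [sum_dm_drop M hj, Nv]
  have h1 := mul_le_mul_of_nonneg_right (ex_le_one hM j) (hg j)
  have h2 : ∑ k ∈ Finset.Ioc j M.length, dm M 0 k * g k ≤
      ∑ k ∈ Finset.range (M.length + 1), dm M 0 k * g k :=
    Finset.sum_le_sum_of_subset_of_nonneg
      (fun k hk => Finset.mem_range.2 (Nat.lt_succ_of_le (Finset.mem_Ioc.1 hk).2))
      fun k _ _ => mul_nonneg (dm_nonneg hM k) (hg k)
  have h7 := prs_nonneg s (G := fun a b => g (s.shr a b M.length)) fun _ _ => hg _
  linarith

theorem mono_drop : ∀ (j : ℕ) {L : List (Lv Ω)} {m0 : ℝ}, 0 ≤ m0 → Mono m0 L → Mono 0 (L.drop j)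
  | 0, [], _, _, _ => zero_le_one
  | 0, _ :: _, _, h0, h => ⟨h0.trans h.1, h.2⟩
  | _ + 1, [], _, _, _ => zero_le_one
  | j + 1, _ :: _, _, h0, h => mono_drop j (h0.trans h.1) h.2

theorem sum_dm_one (hM : Mono 0 M) (j n : ℕ) :
    ∑ i ∈ Finset.range (n + 1), dm (M.drop j) 0 i ≤ 1 := by
  rw [sum_dm, sub_zero]
  exact ex_le_one (mono_drop j le_rfl hM) n

theorem sum_cw_aff (hM : Mono 0 M) (hg : ∀ j, 0 ≤ g j) (s : Sh) {X : s.Lf → ℕ → ℝ} {α β : ℝ}
    (hβ : 0 ≤ β) (h : ∀ a j, j ≤ M.length → |X a j| ≤ α + β * g j) :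
    |∑ a, ∑ j ∈ Finset.range (M.length + 1), cw s M a j * X a j| ≤
      Fintype.card s.Lf * (α + β * Nv M g s) := by
  rw [sum_cw_eq]
  refine (abs_Wn_le s hM h).trans ?_
  rw [Wn_add s M (fun _ _ => α) fun _ j => β * g j, Wn_const, Wn_const_mul s M β fun _ j => g j,
    ← sum_cw_eq s M fun _ j => g j]
  have := mul_le_mul_of_nonneg_left (sum_cw_level hM hg s) hβ
  linarith

theorem abs_sum_le_card {α : Type} [Fintype α] {X : α → ℝ} {c : ℝ} (h : ∀ a, |X a| ≤ c) :
    |∑ a, X a| ≤ Fintype.card α * c :=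
  (Finset.abs_sum_le_sum_abs _ _).trans <| by
    simpa using Finset.sum_le_sum (s := Finset.univ) fun a _ => h a

/-- one step: every term of `Dop` is bounded by `α + β * Nv` of its own shape -/
theorem abs_Dop_le (hM : Mono 0 M) (hg : ∀ j, 0 ≤ g j) {S : ℕ → Ω → Ω → ℝ} {Λ : Fn Ω} (s : Sh)
    (F : (s.Lf → Ω) → ℝ) {α β : ℝ} (hα : 0 ≤ α) (hβ : 0 ≤ β)
    (H : ∀ (s' : Sh) (e : s.Lf → s'.Lf) (c d : s'.Lf) (i : ℕ), c ≠ d → s'.shr c d M.length = i →
      ((∃ h : s = s', e = h ▸ id) ∨ (∃ a j, ∃ h : s.graft a j = s', e = h ▸ s.emb a j) ∨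
        ∃ a j a' j', ∃ h : (s.graft a j).graft a' j' = s',
          e = h ▸ fun b => (s.graft a j).emb a' j' (s.emb a j b)) →
      |Λ s' fun x => F (fun b => x (e b)) * S i (x c) (x d)| ≤ α + β * Nv M g s') :
    |Dop M S Λ s F| ≤ 53 * (Fintype.card s.Lf : ℝ) ^ 3 * (α + β * Nv M g s) := by
  obtain ⟨r, hr⟩ : ∃ r : ℝ, r = (Fintype.card s.Lf : ℕ) := ⟨_, rfl⟩
  obtain ⟨N, hN⟩ : ∃ N, N = Nv M g s := ⟨_, rfl⟩
  rw [← hr, ← hN]
  have r1 : 1 ≤ r := hr ▸ one_le_card s
  have N0 : 0 ≤ N := hN ▸ Nv_nonneg hM hg s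
  have g1 : ∀ a j, j ≤ M.length → Nv M g (s.graft a j) ≤ 3 * N + 2 * r * g j :=
    fun a j hj => hr ▸ hN ▸ Nv_graft hM hg s a hj
  have aff : ∀ {X : s.Lf → ℕ → ℝ} {α β : ℝ}, 0 ≤ β → (∀ a j, j ≤ M.length → |X a j| ≤ α + β * g j) →
      |∑ a, ∑ j ∈ Finset.range (M.length + 1), cw s M a j * X a j| ≤ r * (α + β * N) :=
    fun h1 h2 => hr ▸ hN ▸ sum_cw_aff hM hg s h1 h2
  have crd : ∀ {X : s.Lf → ℝ} {c : ℝ}, (∀ a, |X a| ≤ c) → |∑ a, X a| ≤ r * c :=
    fun h => hr ▸ abs_sum_le_card h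
  have g2 : ∀ a j a' j', j ≤ M.length → j' ≤ M.length → Nv M g ((s.graft a j).graft a' j') ≤
      9 * N + 6 * r * g j + 4 * r * g j' := fun a j a' j' hj hj' => by
    have h1 := Nv_graft hM hg (s.graft a j) a' hj'
    have h2 := g1 a j hj
    have h3 := mul_nonneg (sub_nonneg.2 r1) (hg j')
    rw [card_graft] at h1
    push_cast at h1
    rw [← hr] at h1
    linarith
  have b1 : |Dop1 M S Λ s F| ≤ r * (r * (α + β * N)) :=
    crd fun a => crd fun b => by
      split_ifs with hab
      · rw [abs_zero]; positivity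
      · exact hN ▸ H s id a b _ hab rfl (.inl ⟨rfl, rfl⟩)
  have b2 : |Dop2 M S Λ s F| ≤ r * (2 * r * (α + 3 * β * N) + 4 * r ^ 2 * β * N) := by
    refine aff (by positivity) fun a j hj => (abs_add_le _ _).trans ?_
    have h0 := mul_le_mul_of_nonneg_left (g1 a j hj) hβ
    have h1 := crd fun b => (H _ (s.emb a j) (s.emb a j b) (s.nw a j) (s.shr b a j)
      (emb_ne s a j b) (by rw [shr_nw, min_eq_left hj]) (.inr (.inl ⟨a, j, rfl, rfl⟩))).trans
        (add_le_add le_rfl h0)
    have h2 := crd fun b => (H _ (s.emb a j) (s.nw a j) (s.emb a j b) (s.shr a b j)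
      (emb_ne s a j b).symm (by rw [shr_nw', min_eq_left hj, shr_comm])
        (.inr (.inl ⟨a, j, rfl, rfl⟩))).trans (add_le_add le_rfl h0)
    linarith
  have b3 : |Dop3 M S Λ s F| ≤ r * ((r * (α + 9 * β * N + 6 * r * β * N) +
      (α + 9 * β * N + 4 * r * β * N)) + (4 * r ^ 2 * β + 10 * r * β) * N) := by
    refine aff (by positivity) fun a j hj => (abs_add_le _ _).trans ?_
    have h1 := aff (α := α + 9 * β * N + 4 * r * β * g j) (β := 6 * r * β)
      (by positivity) fun b k hk => (H _ (fun c => (s.graft b k).emb (s.emb b k a) j (s.emb b k c))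
        ((s.graft b k).nw (s.emb b k a) j) ((s.graft b k).emb (s.emb b k a) j (s.nw b k))
        (s.shr a b (min j k)) (emb_ne _ _ _ _).symm
        (by rw [shr_nw', min_eq_left hj, shr_nw', min_comm])
        (.inr (.inr ⟨b, k, _, j, rfl, rfl⟩))).trans (by
          have := mul_le_mul_of_nonneg_left (g2 b k (s.emb b k a) j hk hj) hβ
          linarith)
    have hd := fun i => dm_nonneg (mono_drop j le_rfl hM) i
    have h2 : ∀ i ∈ Finset.range (M.length - j + 1), _ := fun i hi => by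
      have hi' : i + j ≤ M.length := by have := Finset.mem_range.1 hi; omega
      exact mul_le_mul_of_nonneg_left ((H _ (fun b => (s.graft a j).emb (s.nw a j) (i + j)
        (s.emb a j b)) ((s.graft a j).emb (s.nw a j) (i + j) (s.nw a j))
        ((s.graft a j).nw (s.nw a j) (i + j)) (i + j) (emb_ne _ _ _ _)
        (by rw [shr_nw, shr_self, min_eq_left hi']) (.inr (.inr ⟨a, j, _, _, rfl, rfl⟩))).trans
        (show _ ≤ (α + 9 * β * N + 6 * r * β * g j) + 4 * r * β * g (i + j) by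
          have := mul_le_mul_of_nonneg_left (g2 a j (s.nw a j) (i + j) hj hi') hβ
          linarith)) (hd i)
    have h3 := Finset.sum_le_sum h2
    simp only [mul_add (dm _ _ _) _ (4 * r * β * _), Finset.sum_add_distrib, ← Finset.sum_mul,
      mul_left_comm _ (4 * r * β), ← Finset.mul_sum] at h3
    have h4 := mul_le_mul_of_nonneg_left (sum_dm_le hM hg s hj) (show 0 ≤ 4 * r * β by positivity)
    have h5 := mul_le_mul_of_nonneg_right (sum_dm_one hM j (M.length - j))
      (show 0 ≤ α + 9 * β * N + 6 * r * β * g j by have := hg j; positivity)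
    refine (add_le_add h1 ((Finset.abs_sum_le_sum_abs _ _).trans ((Finset.sum_le_sum fun i _ =>
      (by rw [abs_mul, abs_of_nonneg (hd i)] : _ = _).le).trans h3))).trans ?_
    rw [← hN] at h4
    linarith
  have hb : 0 ≤ β * N := mul_nonneg hβ N0
  have r2 : r ≤ r ^ 2 := by nlinarith
  have r3 : r ^ 2 ≤ r ^ 3 := by nlinarith
  have e1 := mul_le_mul_of_nonneg_right r2 hα
  have e2 := mul_le_mul_of_nonneg_right r3 hα
  have e3 := mul_le_mul_of_nonneg_right r2 hb
  have e4 := mul_le_mul_of_nonneg_right r3 hb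
  have e5 : 0 ≤ r ^ 3 * α := by positivity
  have e6 : 0 ≤ r ^ 3 * (β * N) := by positivity
  refine ((abs_add_le _ _).trans (add_le_add (abs_sub _ _) le_rfl)).trans ?_
  linarith

variable [Fintype Ω] {w : Ω → ℝ}

theorem TE_leaf (hw : Wt w) (f : Ω → ℝ) : ∀ (s : Sh) (L : List (Lv Ω)) (h : Ω → ℝ) (a : s.Lf),
    TE w s L h (fun x => f (x a)) = Pf w L h f
  | .one, L, h, _ => Law.TE_one hw L h _
  | .step s, [], h, a => (Law.TE_step_nil w s h _).trans (TE_leaf hw f s [] h a)
  | .step s, l :: L, h, a => by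
      refine (Law.TE_step hw s l L h _).trans (Eq.trans ?_
        ((Law.TE_one_cons hw l L h fun x => f (x ())).symm.trans (Law.TE_one hw _ h _)))
      congr 1
      funext z
      exact (TE_leaf hw f s L z a).trans (Law.TE_one hw L z fun x => f (x ())).symm
  | .split s t, L, h, .inl a => by
      refine (Law.TE_split hw s t L h _).trans (Eq.trans ?_ (TE_leaf hw f s L h a))
      congr 1
      funext x
      exact Law.TE_const hw t L h (f (x a))
  | .split s t, L, h, .inr a => by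
      refine (Law.TE_split hw s t L h _).trans (Eq.trans ?_ (TE_leaf hw f t L h a))
      exact Law.TE_const hw s L h (TE w t L h fun x => f (x a))

theorem pi2_zero38 (w : Ω → ℝ) (L : List (Lv Ω)) (Q : Ω → Ω → ℝ) (h : Ω → ℝ) :
    pi2 w L 0 Q h = qf (P w L h) Q := by cases L <;> rfl

theorem TE_pair (hw : Wt w) (Q : Ω → Ω → ℝ) : ∀ (s : Sh) (L : List (Lv Ω)) (h : Ω → ℝ)
    (a b : s.Lf), a ≠ b →
    TE w s L h (fun x => Q (x a) (x b)) = pi2 w L (s.shr a b L.length) Q h
  | .one, _, _, _, _, hab => (hab rfl).elim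
  | .step s, [], h, a, b, hab => by
      refine (Law.TE_step_nil w s h _).trans ((TE_pair hw Q s [] h a b hab).trans ?_)
      exact congrArg (fun j => pi2 w [] j Q h) (shr_zero s a b)
  | .step s, l :: L, h, a, b, hab => by
      refine (Law.TE_step hw s l L h _).trans ?_
      show _ = tE l (X w L) (fun z => pi2 w L (s.shr a b L.length) Q z) h
      congr 1
      funext z
      exact TE_pair hw Q s L z a b hab
  | .split s t, L, h, .inl a, .inl b, hab => by
      refine (Law.TE_split hw s t L h _).trans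
        (Eq.trans ?_ (TE_pair hw Q s L h a b fun e => hab (congrArg _ e)))
      congr 1
      funext x
      exact Law.TE_const hw t L h (Q (x a) (x b))
  | .split s t, L, h, .inr a, .inr b, hab => by
      refine (Law.TE_split hw s t L h _).trans
        (Eq.trans ?_ (TE_pair hw Q t L h a b fun e => hab (congrArg _ e)))
      exact Law.TE_const hw s L h (TE w t L h fun x => Q (x a) (x b))
  | .split s t, L, h, .inl a, .inr b, _ => by
      refine (Law.TE_split hw s t L h _).trans ?_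
      refine (congrArg (TE w s L h) (funext fun x : s.Lf → Ω => TE_leaf hw (Q (x a)) t L h b)).trans
        ((TE_leaf hw (fun y => Pf w L h (Q y)) s L h a).trans ?_)
      refine Eq.trans ?_ (pi2_zero38 w L Q h).symm
      simp only [Pf, qf, Finset.mul_sum, mul_assoc]
  | .split s t, L, h, .inr a, .inl b, _ => by
      refine (Law.TE_split hw s t L h _).trans ?_
      refine (congrArg (TE w s L h)
        (funext fun x : s.Lf → Ω => TE_leaf hw (fun y => Q y (x b)) t L h a)).trans
        ((TE_leaf hw (fun y => Pf w L h fun z => Q z y) s L h b).trans ?_)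
      refine Eq.trans ?_ (pi2_zero38 w L Q h).symm
      simp only [Pf, qf, Finset.mul_sum]
      rw [Finset.sum_comm]
      simp only [mul_left_comm, mul_assoc]

variable {T : ℕ → Ω → Ω → ℝ}

theorem Dv_nonneg (hT : ∀ j x y, 0 ≤ T j x y) (K : ℕ) (s : Sh) (x : s.Lf → Ω) : 0 ≤ Dv K T s x :=
  prs_nonneg s fun _ _ => hT _ _ _

theorem Dv_graft (hT : ∀ j x y, 0 ≤ T j x y) (K : ℕ) (s : Sh) (a : s.Lf) (j : ℕ)
    (x : (s.graft a j).Lf → Ω) : Dv K T s (fun b => x (s.emb a j b)) ≤ Dv K T (s.graft a j) x := by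
  rw [Dv, Dv, prs_graft, add_assoc]
  simp only [shr_emb]
  exact le_add_of_nonneg_right (add_nonneg (Finset.sum_nonneg fun _ _ => hT _ _ _)
    (Finset.sum_nonneg fun _ _ => hT _ _ _))

theorem TE_Dv_pow (hw : Wt w) (hT : ∀ j x y, 0 ≤ T j x y) (hM : Mono 0 M) (h : Ω → ℝ) (q : ℕ)
    (s : Sh) : TE w s M h (fun x => Dv M.length T s x ^ (q + 1)) ≤
      (Fintype.card s.Lf : ℝ) ^ (2 * q) *
        Nv M (fun j => pi2 w M j (fun x y => T j x y ^ (q + 1)) h) s := by
  have h1 : ∀ x, Dv M.length T s x ^ (q + 1) ≤ (Fintype.card s.Lf : ℝ) ^ (2 * q) *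
      prs s fun a b => T (s.shr a b M.length) (x a) (x b) ^ (q + 1) := fun x => by
    have := pow_sum_le_card_mul_sum_pow (s := (Finset.univ : Finset (s.Lf × s.Lf)))
      (f := fun p => if p.1 = p.2 then 0 else T (s.shr p.1 p.2 M.length) (x p.1) (x p.2))
      (fun p _ => ite_nonneg (hT _ _ _)) q
    simp only [Fintype.sum_prod_type, Finset.card_univ, Fintype.card_prod, ite_pow,
      zero_pow (Nat.succ_ne_zero q)] at this
    rw [pow_mul, sq]
    push_cast at this
    exact this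
  refine (Law.TE_mono hw s M h h1).trans ?_
  rw [Law.TE_const_mul hw]
  refine mul_le_mul_of_nonneg_left ?_ (by positivity)
  refine le_trans (le_of_eq ?_) (le_add_of_nonneg_right (N0_nonneg hM fun j =>
    pi2_nonneg hw M j (fun x y => pow_nonneg (hT j x y) _) h))
  simp only [prs, Law.TE_sum hw]
  refine Finset.sum_congr rfl fun a _ => Finset.sum_congr rfl fun b _ => ?_
  split_ifs with hab
  · exact Law.TE_const hw s M h 0
  · exact TE_pair hw (fun x y => T (s.shr a b M.length) x y ^ (q + 1)) s M h a b hab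

theorem iter_le (hw : Wt w) (hM : Mono 0 M) {S : ℕ → Ω → Ω → ℝ}
    (hST : ∀ j x y, |S j x y| ≤ T j x y) (h : Ω → ℝ) (q : ℕ) {B R : ℝ} (hB : 0 ≤ B) :
    ∀ (k : ℕ) (s : Sh) (F A : (s.Lf → Ω) → ℝ), (Fintype.card s.Lf : ℝ) + 2 * k ≤ R →
      (∀ x, 0 ≤ A x) → (∀ x d, Dv M.length T s x ≤ d → |F x| * d ^ k ≤ A x + B * d ^ (q + 1)) →
      |(Dop M S)^[k] (TEf w M h) s F| ≤ (53 * R ^ 3) ^ k * R ^ (2 * q) *
        (TE w s M h A + B * Nv M (fun j => pi2 w M j (fun x y => T j x y ^ (q + 1)) h) s) := by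
  have hT : ∀ j x y, 0 ≤ T j x y := fun j x y => (abs_nonneg _).trans (hST j x y)
  set g : ℕ → ℝ := fun j => pi2 w M j (fun x y => T j x y ^ (q + 1)) h with hg'
  have hg : ∀ j, 0 ≤ g j := fun j => pi2_nonneg hw M j (fun x y => pow_nonneg (hT j x y) _) h
  have hA : ∀ (s : Sh) (A : (s.Lf → Ω) → ℝ), (∀ x, 0 ≤ A x) → 0 ≤ TE w s M h A := fun s A hA =>
    (Law.TE_const hw s M h 0).symm.trans_le (Law.TE_mono hw s M h hA)
  intro k
  induction k with
  | zero =>
    intro s F A hR hA0 H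
    have r1 := one_le_card s
    rw [Nat.cast_zero, mul_zero, add_zero] at hR
    have h1 : 1 ≤ R ^ (2 * q) := one_le_pow₀ (r1.trans hR)
    have h2 : (Fintype.card s.Lf : ℝ) ^ (2 * q) ≤ R ^ (2 * q) := by gcongr
    refine (Law.abs_TE_le hw s M h F).trans ((Law.TE_mono hw s M h fun x => by
      simpa using H x _ le_rfl).trans ?_)
    rw [Law.TE_add hw, Law.TE_const_mul hw, pow_zero, one_mul, mul_add]
    refine add_le_add (le_mul_of_one_le_left (hA s A hA0) h1) ?_
    rw [mul_left_comm]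
    exact mul_le_mul_of_nonneg_left ((TE_Dv_pow hw hT hM h q s).trans
      (mul_le_mul_of_nonneg_right h2 (Nv_nonneg hM hg s))) hB
  | succ k ih =>
    intro s F A hR hA0 H
    have r1 := one_le_card s
    push_cast at hR
    have hk : (0 : ℝ) ≤ k := Nat.cast_nonneg k
    have R0 : 0 ≤ R := by linarith
    set C := (53 * R ^ 3) ^ k * R ^ (2 * q) with hC
    have C0 : 0 ≤ C := by positivity
    have key : ∀ (s' : Sh) (e : s.Lf → s'.Lf) (c d : s'.Lf) (i : ℕ), c ≠ d →
        s'.shr c d M.length = i → (Fintype.card s'.Lf : ℝ) ≤ Fintype.card s.Lf + 2 →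
        TE w s' M h (fun x => A fun b => x (e b)) = TE w s M h A →
        (∀ x : s'.Lf → Ω, Dv M.length T s (fun b => x (e b)) ≤ Dv M.length T s' x) →
        |(Dop M S)^[k] (TEf w M h) s' fun x => F (fun b => x (e b)) * S i (x c) (x d)| ≤
          C * TE w s M h A + C * B * Nv M g s' := fun s' e c d i hcd hi h1 h2 h3 => by
      refine (ih s' _ (fun x => A fun b => x (e b)) (by linarith) (fun x => hA0 _)
        fun x d' hd => ?_).trans (by rw [h2, mul_add, mul_assoc C])
      refine le_trans ?_ (H _ d' ((h3 x).trans hd))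
      have h4 : |S i (x c) (x d)| ≤ d' := (hST _ _ _).trans (le_trans (hi ▸ le_prs s'
        (G := fun a b => T (s'.shr a b M.length) (x a) (x b)) (fun _ _ => hT _ _ _) hcd) hd)
      have h5 : 0 ≤ d' := (abs_nonneg _).trans h4
      rw [abs_mul, pow_succ', mul_assoc]
      gcongr
    rw [Function.iterate_succ_apply']
    refine (abs_Dop_le hM hg s F (mul_nonneg C0 (hA s A hA0)) (mul_nonneg C0 hB)
      fun s' e c d i hcd hi H' => ?_).trans ?_
    · rcases H' with ⟨rfl, rfl⟩ | ⟨a, j, rfl, rfl⟩ | ⟨a, j, a', j', rfl, rfl⟩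
      · exact key s id c d i hcd hi (by linarith) rfl fun _ => le_rfl
      · exact key _ _ c d i hcd hi (by rw [card_graft]; push_cast; linarith)
          (TE_graft hw s a j M h A) (Dv_graft hT _ s a j)
      · exact key _ _ c d i hcd hi (by rw [card_graft, card_graft]; push_cast; linarith)
          ((TE_graft hw _ a' j' M h fun x => A fun b => x (s.emb a j b)).trans
            (TE_graft hw s a j M h A))
          fun x => (Dv_graft hT _ s a j fun b => x ((s.graft a j).emb a' j' b)).trans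
            (Dv_graft hT _ _ a' j' x)
    · have h1 : (Fintype.card s.Lf : ℝ) ^ 3 ≤ R ^ 3 := by gcongr; linarith
      have h2 := hA s A hA0
      have h3 := Nv_nonneg hM hg s
      calc _ ≤ 53 * R ^ 3 * (C * TE w s M h A + C * B * Nv M g s) := by gcongr
        _ = _ := by rw [hC]; ring

end Tay38

variable [Fintype Ω] {w : Ω → ℝ} {M : List (Lv Ω)} {S T : ℕ → Ω → Ω → ℝ}

/-- the constant of the remainder -/
def cTay (k q r : ℕ) : ℝ := (53 * ((r : ℝ) + 2 * k) ^ 3) ^ k * ((r : ℝ) + 2 * k) ^ (2 * q)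

theorem cTay_nonneg (k q r : ℕ) : 0 ≤ cTay k q r := by unfold cTay; positivity

/-- the moments of the kernels `T` seen from the shape `s` -/
def momT (w : Ω → ℝ) (M : List (Lv Ω)) (h : Ω → ℝ) (T : ℕ → Ω → Ω → ℝ) (p : ℕ) (s : Sh) : ℝ :=
  Nv M (fun j => pi2 w M j (fun x y => T j x y ^ p) h) s

/-- **the remainder**, Young form -/
theorem abs_Dop_iter_le (hw : Wt w) (hM : Mono 0 M) (hST : ∀ j x y, |S j x y| ≤ T j x y)
    (h : Ω → ℝ) (k q : ℕ) (s : Sh) {F A : (s.Lf → Ω) → ℝ} {B : ℝ} (hB : 0 ≤ B) (hA : ∀ x, 0 ≤ A x)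
    (H : ∀ x d, Dv M.length T s x ≤ d → |F x| * d ^ k ≤ A x + B * d ^ (q + 1)) :
    |(Dop M S)^[k] (TEf w M h) s F| ≤
      cTay k q (Fintype.card s.Lf) * (TE w s M h A + B * momT w M h T (q + 1) s) :=
  Tay38.iter_le hw hM hST h q hB k s F A le_rfl hA H


/-- test function of degree `m` in the kernels -/
theorem abs_Dop_iter_deg (hw : Wt w) (hM : Mono 0 M) (hST : ∀ j x y, |S j x y| ≤ T j x y)
    (h : Ω → ℝ) (k m q : ℕ) (hq : m + k = q + 1) (s : Sh) {F : (s.Lf → Ω) → ℝ} {B : ℝ} (hB : 0 ≤ B)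
    (hF : ∀ x, |F x| ≤ B * Dv M.length T s x ^ m) :
    |(Dop M S)^[k] (TEf w M h) s F| ≤
      cTay k q (Fintype.card s.Lf) * (B * momT w M h T (q + 1) s) := by
  have := abs_Dop_iter_le hw hM hST h k q s (F := F) (A := fun _ => 0) hB (fun _ => le_rfl)
    fun x d hd => by
      have h0 := Tay38.Dv_nonneg (fun j x y => (abs_nonneg _).trans (hST j x y)) M.length s x
      have h1 : 0 ≤ d := h0.trans hd
      rw [zero_add, ← hq, pow_add, ← mul_assoc]
      refine mul_le_mul_of_nonneg_right ((hF x).trans ?_) (pow_nonneg h1 _)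
      gcongr
  rwa [Law.TE_const hw, zero_add] at this


end Crest.Agent.T156.Cas

end
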