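import Crest.Agent.T156.CaERic_43

/-!
# Row 156: exponential Riccati, instances and tail forms (helper43)
-/

set_option autoImplicit false
set_option linter.unusedSectionVars false

noncomputable section

namespace Crest.Agent.T156.Cas.ERic43

open MeasureTheory Real Set Filter Topology Matrix
open Crest.Agent.T157.E Crest.Agent.T157.Casc Crest.Agent.T157.SL

variable {Ω : Type} [Fintype Ω] {w : Ω → ℝ}





/-! ### from exponential moments to tails -/


theorem pow_le_cosh (y : ℝ) (k : ℕ) :
    y ^ (2 * k) ≤ (2 * k).factorial * (exp y + exp (-y)) := by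
  have h := Real.pow_div_factorial_le_exp |y| (abs_nonneg y) (2 * k)
  have p : (0 : ℝ) < (2 * k).factorial := by positivity
  rw [div_le_iff₀ p, pow_mul, sq_abs, ← pow_mul, mul_comm (exp _)] at h
  refine h.trans (mul_le_mul_of_nonneg_left ?_ p.le)
  rcases abs_cases y with ⟨e, -⟩ | ⟨e, -⟩ <;> rw [e] <;> linarith [exp_pos y, exp_pos (-y)]


end Crest.Agent.T156.Cas.ERic43

end
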