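import Crest.Agent.T156.CaGf_90

-- ▼ part T156/CaSp_38
section

/-!
# Row 156 (helper38): the smart path on replica trees, node form

`hasDerivAt_tX_node`: the derivative of `t ↦ tX w s (atL L t) h F` for a function `F` of the leaves.
-/

set_option autoImplicit false
set_option linter.unusedSectionVars false

noncomputable section

namespace Crest.Agent.T156.Cas

open MeasureTheory Real Set Filter Topology
open Crest.Agent.T157.E Crest.Agent.T157.Casc Crest.Agent.T157.SL

variable {Ω : Type}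

namespace Sp38

/-! ### features on a fixed index set -/

/-- a choice of features for every level -/
abbrev Sel (Ω : Type) : Type 1 := (l : TL Ω) → Ω → l.ι → ℝ

def fs1 (φ : Sel Ω) (u : ℝ) : (L : List (TL Ω)) → ℕ → Ω → NI (atL L u) → ℝ
  | [], _, _ => 0
  | _ :: _, 0, _ => 0
  | l :: L, j + 1, y => (Sum.elim (φ l y) (fs1 φ u L j y) : l.ι ⊕ NI (atL L u) → ℝ)

def fs (φ : Sel Ω) (u : ℝ) : (s : Sh) → (L : List (TL Ω)) → s.Lf → ℕ → Ω → NT s (atL L u) → ℝ
  | .one, L, _, j, y => fs1 φ u L j y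
  | .step s, [], a, j, y => fs φ u s [] a j y
  | .step _, _ :: _, _, 0, _ => 0
  | .step s, l :: L, a, j + 1, y => (Sum.elim (φ l y) (fs φ u s L a j y) : l.ι ⊕ NT s (atL L u) → ℝ)
  | .split s t, L, .inl a, j, y =>
      (Sum.elim (fs φ u s L a j y) 0 : NT s (atL L u) ⊕ NT t (atL L u) → ℝ)
  | .split s t, L, .inr a, j, y =>
      (Sum.elim 0 (fs φ u t L a j y) : NT s (atL L u) ⊕ NT t (atL L u) → ℝ)

def e1 (t u : ℝ) : (L : List (TL Ω)) → NI (atL L t) ≃ NI (atL L u)
  | [] => Equiv.refl _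
  | l :: L => (Equiv.sumCongr (Equiv.refl l.ι) (e1 t u L) :
      l.ι ⊕ NI (atL L t) ≃ l.ι ⊕ NI (atL L u))

def eT (t u : ℝ) : (s : Sh) → (L : List (TL Ω)) → NT s (atL L t) ≃ NT s (atL L u)
  | .one, L => e1 t u L
  | .step s, [] => eT t u s []
  | .step s, l :: L => (Equiv.sumCongr (Equiv.refl l.ι) (eT t u s L) :
      l.ι ⊕ NT s (atL L t) ≃ l.ι ⊕ NT s (atL L u))
  | .split s s', L => (Equiv.sumCongr (eT t u s L) (eT t u s' L) :
      NT s (atL L t) ⊕ NT s' (atL L t) ≃ NT s (atL L u) ⊕ NT s' (atL L u))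

theorem fe1_eq (t u : ℝ) : ∀ (L : List (TL Ω)) (j : ℕ) (y : Ω) (i : NI (atL L t)),
    fe1 (atL L t) j y i = fs1 (fun l => l.A t) u L j y (e1 t u L i)
  | [], _, _, i => Empty.elim i
  | _ :: _, 0, _, _ => rfl
  | _ :: _, _ + 1, _, .inl _ => rfl
  | _ :: L, j + 1, y, .inr i => fe1_eq t u L j y i

theorem fe_eq (t u : ℝ) : ∀ (s : Sh) (L : List (TL Ω)) (a : s.Lf) (j : ℕ) (y : Ω)
    (i : NT s (atL L t)), fe s (atL L t) a j y i = fs (fun l => l.A t) u s L a j y (eT t u s L i)
  | .one, L, _, j, y, i => fe1_eq t u L j y i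
  | .step s, [], a, j, y, i => fe_eq t u s [] a j y i
  | .step _, _ :: _, _, 0, _, _ => rfl
  | .step _, _ :: _, _, _ + 1, _, .inl _ => rfl
  | .step s, _ :: L, a, j + 1, y, .inr i => fe_eq t u s L a j y i
  | .split s _, L, .inl a, j, y, .inl i => fe_eq t u s L a j y i
  | .split _ _, _, .inl _, _, _, .inr _ => rfl
  | .split _ _, _, .inr _, _, _, .inl _ => rfl
  | .split _ s, L, .inr a, j, y, .inr i => fe_eq t u s L a j y i

theorem fs1_self (u : ℝ) : ∀ (L : List (TL Ω)) (j : ℕ) (y : Ω) (i : NI (atL L u)),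
    fs1 (fun l => l.A u) u L j y i = fe1 (atL L u) j y i
  | [], _, _, i => Empty.elim i
  | _ :: _, 0, _, _ => rfl
  | _ :: _, _ + 1, _, .inl _ => rfl
  | _ :: L, j + 1, y, .inr i => fs1_self u L j y i

theorem fs_self (u : ℝ) : ∀ (s : Sh) (L : List (TL Ω)) (a : s.Lf) (j : ℕ) (y : Ω)
    (i : NT s (atL L u)), fs (fun l => l.A u) u s L a j y i = fe s (atL L u) a j y i
  | .one, L, _, j, y, i => fs1_self u L j y i
  | .step s, [], a, j, y, i => fs_self u s [] a j y i
  | .step _, _ :: _, _, 0, _, _ => rfl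
  | .step _, _ :: _, _, _ + 1, _, .inl _ => rfl
  | .step s, _ :: L, a, j + 1, y, .inr i => fs_self u s L a j y i
  | .split s _, L, .inl a, j, y, .inl i => fs_self u s L a j y i
  | .split _ _, _, .inl _, _, _, .inr _ => rfl
  | .split _ _, _, .inr _, _, _, .inl _ => rfl
  | .split _ s, L, .inr a, j, y, .inr i => fs_self u s L a j y i

theorem fs1_ind (Q : (ℝ → ℝ) → (ℝ → ℝ) → Prop) (h0 : Q (fun _ => 0) fun _ => 0) (u : ℝ) :
    ∀ (L : List (TL Ω)), (∀ l ∈ L, ∀ x i, Q (fun t => l.A t x i) fun t => l.A' t x i) →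
    ∀ (j : ℕ) (y : Ω) (i : NI (atL L u)),
      Q (fun t => fs1 (fun l => l.A t) u L j y i) fun t => fs1 (fun l => l.A' t) u L j y i
  | [], _, _, _, i => Empty.elim i
  | _ :: _, _, 0, _, _ => h0
  | l :: _, h, _ + 1, y, .inl i => h l (by simp) y i
  | _ :: L, h, j + 1, y, .inr i => fs1_ind Q h0 u L (fun k hk => h k (by simp [hk])) j y i

theorem fs_ind (Q : (ℝ → ℝ) → (ℝ → ℝ) → Prop) (h0 : Q (fun _ => 0) fun _ => 0) (u : ℝ) :
    ∀ (s : Sh) (L : List (TL Ω)), (∀ l ∈ L, ∀ x i, Q (fun t => l.A t x i) fun t => l.A' t x i) →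
    ∀ (a : s.Lf) (j : ℕ) (y : Ω) (i : NT s (atL L u)),
      Q (fun t => fs (fun l => l.A t) u s L a j y i) fun t => fs (fun l => l.A' t) u s L a j y i
  | .one, L, h, _, j, y, i => fs1_ind Q h0 u L h j y i
  | .step s, [], h, a, j, y, i => fs_ind Q h0 u s [] h a j y i
  | .step _, _ :: _, _, _, 0, _, _ => h0
  | .step _, l :: _, h, _, _ + 1, y, .inl i => h l (by simp) y i
  | .step s, _ :: L, h, a, j + 1, y, .inr i =>
      fs_ind Q h0 u s L (fun k hk => h k (by simp [hk])) a j y i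
  | .split s _, L, h, .inl a, j, y, .inl i => fs_ind Q h0 u s L h a j y i
  | .split _ _, _, _, .inl _, _, _, .inr _ => h0
  | .split _ _, _, _, .inr _, _, _, .inl _ => h0
  | .split _ s, L, h, .inr a, j, y, .inr i => fs_ind Q h0 u s L h a j y i

theorem Sacc_nil (t : ℝ) (j : ℕ) (x y : Ω) : Sacc ([] : List (TL Ω)) t j x y = 0 := by simp [Sacc]

theorem Sacc_zero' (L : List (TL Ω)) (t : ℝ) (x y : Ω) : Sacc L t 0 x y = 0 := by simp [Sacc]

theorem Sacc_cons' (l : TL Ω) (L : List (TL Ω)) (t : ℝ) (j : ℕ) (x y : Ω) :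
    Sacc (l :: L) t (j + 1) x y = l.S t x y + Sacc L t j x y := by simp [Sacc]

theorem fs1_cov (u : ℝ) : ∀ (L : List (TL Ω)) (j k : ℕ) (y y' : Ω),
    ∑ i, fe1 (atL L u) k y' i * fs1 (fun l => l.A' u) u L j y i = Sacc L u (min j k) y y'
  | [], j, k, y, y' => by rw [Sacc_nil]; exact Finset.sum_eq_zero fun i _ => Empty.elim i
  | _ :: _, 0, k, y, y' => by
      rw [Nat.zero_min, Sacc_zero']; exact Finset.sum_eq_zero fun i _ => mul_zero _
  | _ :: _, j + 1, 0, y, y' => by
      rw [Nat.min_zero, Sacc_zero']; exact Finset.sum_eq_zero fun i _ => zero_mul _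
  | l :: L, j + 1, k + 1, y, y' => by
      rw [Nat.succ_min_succ, Sacc_cons', ← fs1_cov u L j k y y']
      show ∑ i : l.ι ⊕ NI (atL L u), Sum.elim (l.A u y') (fe1 (atL L u) k y') i *
        Sum.elim (l.A' u y) (fs1 (fun l => l.A' u) u L j y) i = _
      rw [Fintype.sum_sum_type]
      congr 1
      exact Finset.sum_congr rfl fun i _ => mul_comm _ _

theorem fs_cov (u : ℝ) : ∀ (s : Sh) (L : List (TL Ω)) (a b : s.Lf) (j k : ℕ) (y y' : Ω),
    ∑ i, fe s (atL L u) b k y' i * fs (fun l => l.A' u) u s L a j y i =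
      Sacc L u (s.shr a b (min j k)) y y'
  | .one, L, _, _, j, k, y, y' => fs1_cov u L j k y y'
  | .step s, [], a, b, j, k, y, y' => by
      rw [Sacc_nil]; exact (fs_cov u s [] a b j k y y').trans (Sacc_nil _ _ _ _)
  | .step _, _ :: _, a, b, 0, k, y, y' => by
      rw [Nat.zero_min]
      exact (Finset.sum_eq_zero fun i _ => mul_zero _).trans (Sacc_zero' _ _ _ _).symm
  | .step _, _ :: _, a, b, j + 1, 0, y, y' => by
      rw [Nat.min_zero]
      exact (Finset.sum_eq_zero fun i _ => zero_mul _).trans (Sacc_zero' _ _ _ _).symm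
  | .step s, l :: L, a, b, j + 1, k + 1, y, y' => by
      rw [Nat.succ_min_succ]
      show ∑ i : l.ι ⊕ NT s (atL L u), Sum.elim (l.A u y') (fe s (atL L u) b k y') i *
        Sum.elim (l.A' u y) (fs (fun l => l.A' u) u s L a j y) i =
          Sacc (l :: L) u (s.shr a b (min j k) + 1) y y'
      rw [Sacc_cons', ← fs_cov u s L a b j k y y', Fintype.sum_sum_type]
      congr 1
      exact Finset.sum_congr rfl fun i _ => mul_comm _ _
  | .split s t, L, .inl a, .inl b, j, k, y, y' => by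
      show ∑ i : NT s (atL L u) ⊕ NT t (atL L u),
        Sum.elim (fe s (atL L u) b k y') (0 : NT t (atL L u) → ℝ) i *
        Sum.elim (fs (fun l => l.A' u) u s L a j y) (0 : NT t (atL L u) → ℝ) i =
        Sacc L u (s.shr a b (min j k)) y y'
      rw [← fs_cov u s L a b j k y y', Fintype.sum_sum_type]
      simp
  | .split s t, L, .inr a, .inr b, j, k, y, y' => by
      show ∑ i : NT s (atL L u) ⊕ NT t (atL L u),
        Sum.elim (0 : NT s (atL L u) → ℝ) (fe t (atL L u) b k y') i *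
        Sum.elim (0 : NT s (atL L u) → ℝ) (fs (fun l => l.A' u) u t L a j y) i =
        Sacc L u (t.shr a b (min j k)) y y'
      rw [← fs_cov u t L a b j k y y', Fintype.sum_sum_type]
      simp
  | .split s t, L, .inl a, .inr b, j, k, y, y' => by
      show ∑ i : NT s (atL L u) ⊕ NT t (atL L u),
        Sum.elim (0 : NT s (atL L u) → ℝ) (fe t (atL L u) b k y') i *
        Sum.elim (fs (fun l => l.A' u) u s L a j y) (0 : NT t (atL L u) → ℝ) i = Sacc L u 0 y y'
      rw [Sacc_zero', Fintype.sum_sum_type]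
      simp
  | .split s t, L, .inr a, .inl b, j, k, y, y' => by
      show ∑ i : NT s (atL L u) ⊕ NT t (atL L u),
        Sum.elim (fe s (atL L u) b k y') (0 : NT t (atL L u) → ℝ) i *
        Sum.elim (0 : NT s (atL L u) → ℝ) (fs (fun l => l.A' u) u t L a j y) i = Sacc L u 0 y y'
      rw [Sacc_zero', Fintype.sum_sum_type]
      simp

/-- the direction of the paths when the noise moves along a derivative feature -/
theorem stT_dir (u : ℝ) (s : Sh) (L : List (TL Ω)) (a : s.Lf) (j : ℕ) (y : Ω) :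
    stT s (atL L u) 0 (fs (fun l => l.A' u) u s L a j y) =
      fun b k z => Sacc L u (s.shr a b (min j k)) y z := by
  funext b k z
  rw [stT_fe, fs_cov]
  simp

/-! ### the tilts do not move -/

theorem len_at (L : List (TL Ω)) (t : ℝ) : (atL L t).length = L.length := List.length_map _

theorem drop_at (L : List (TL Ω)) (t : ℝ) (j : ℕ) : (atL L t).drop j = atL (L.drop j) t :=
  List.map_drop.symm

theorem ex_at (t u : ℝ) : ∀ (L : List (TL Ω)) (j : ℕ), ex (atL L t) j = ex (atL L u) j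
  | [], _ => rfl
  | _ :: _, 0 => rfl
  | _ :: L, j + 1 => ex_at t u L j

theorem dm_at (t u : ℝ) (L : List (TL Ω)) (m0 : ℝ) (j : ℕ) :
    dm (atL L t) m0 j = dm (atL L u) m0 j := by
  cases j <;> simp only [dm, exP, ex_at t u]

theorem cf_step (s : Sh) (l : Lv Ω) (L : List (Lv Ω)) (a : s.Lf) (j : ℕ) :
    cf (.step s) (l :: L) a (j + 1) =
      cf s L a j + if a = s.fst ∧ j = 0 then s.br * ex L 0 - l.m else 0 := rfl

theorem cf_at (t u : ℝ) : ∀ (s : Sh) (L : List (TL Ω)) (a : s.Lf) (j : ℕ),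
    cf s (atL L t) a j = cf s (atL L u) a j
  | .one, _, _, 0 => rfl
  | .one, L, _, j + 1 => dm_at t u L 0 (j + 1)
  | .step _, [], _, _ => rfl
  | .step _, _ :: _, _, 0 => rfl
  | .step s, l :: L, a, j + 1 => by
      refine (cf_step s (l.at t) (atL L t) a j).trans
        (Eq.trans ?_ (cf_step s (l.at u) (atL L u) a j).symm)
      rw [cf_at t u s L a j, ex_at t u]
  | .split s _, L, .inl a, j => cf_at t u s L a j
  | .split _ s, L, .inr a, j => cf_at t u s L a j

theorem Sacc_add (t : ℝ) (i : ℕ) (x y : Ω) : ∀ (L : List (TL Ω)) (j : ℕ),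
    Sacc L t (j + i) x y = Sacc L t j x y + Sacc (L.drop j) t i x y
  | L, 0 => by rw [Sacc_zero', zero_add, zero_add, List.drop_zero]
  | [], j + 1 => by simp [Sacc_nil]
  | l :: L, j + 1 => by
      rw [show j + 1 + i = j + i + 1 by omega, Sacc_cons', Sacc_cons', Sacc_add t i x y L j,
        List.drop_succ_cons, add_assoc]

theorem shr_self : ∀ (s : Sh) (a : s.Lf) (j : ℕ), s.shr a a j = j
  | .one, _, _ => rfl
  | .step _, _, 0 => rfl
  | .step s, a, j + 1 => congrArg (· + 1) (shr_self s a j)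
  | .split s _, .inl a, j => shr_self s a j
  | .split _ t, .inr a, j => shr_self t a j

theorem int_equiv {ι κ : Type} [Fintype ι] [Fintype κ] (e : ι ≃ κ) (G : (ι → ℝ) → ℝ) :
    ∫ g, G g ∂gv ι = ∫ g : κ → ℝ, G (fun i => g (e i)) ∂gv κ := by
  have h := (measurePreserving_piCongrLeft (fun _ : κ => ProbabilityTheory.gaussianReal 0 1) e).symm
  exact (h.integral_comp' G).symm

variable [Fintype Ω] {w : Ω → ℝ}

/-- the paths at time `t` on the index set of time `u` -/
def pa (u : ℝ) (s : Sh) (L : List (TL Ω)) (h : Ω → ℝ) (t : ℝ) (g : NT s (atL L u) → ℝ) :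
    Pa s.Lf Ω := fun a j y => h y + ∑ i, fs (fun l => l.A t) u s L a j y i * g i

/-- their velocity -/
def pa' (u : ℝ) (s : Sh) (L : List (TL Ω)) (t : ℝ) (g : NT s (atL L u) → ℝ) :
    Pa s.Lf Ω := fun a j y => ∑ i, fs (fun l => l.A' t) u s L a j y i * g i

theorem pa_self (u : ℝ) (s : Sh) (L : List (TL Ω)) (h : Ω → ℝ) (g : NT s (atL L u) → ℝ) :
    pa u s L h u g = stT s (atL L u) h g := by
  funext a j y
  simp only [pa, stT_fe, fs_self]

/-- the exponent of the density -/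
def ee (w : Ω → ℝ) (u : ℝ) (s : Sh) (L : List (TL Ω)) (h : Ω → ℝ) (x : s.Lf → Ω)
    (p : Pt (NT s (atL L u))) : ℝ :=
  -(∑ a, ∑ j ∈ Finset.range (L.length + 1), cf s (atL L u) a j *
      XP w (L.drop j) (p.1, pa u s L h p.1 p.2 a j) - ∑ a, pa u s L h p.1 p.2 a L.length (x a)) -
    s.br * ex (atL L u) 0 * XP w L (p.1, h)

theorem tX_at (w : Ω → ℝ) (t u : ℝ) (s : Sh) (L : List (TL Ω)) (h : Ω → ℝ)
    (F : (s.Lf → Ω) → ℝ) : tX w s (atL L t) h (fun _ x => F x) =
      ∫ g, ∑ x, (∏ a, w (x a)) * exp (ee w u s L h x (t, g)) * F x ∂gv (NT s (atL L u)) := by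
  rw [tX, int_equiv (eT t u s L)]
  refine integral_congr_ae (.of_forall fun g => Finset.sum_congr rfl fun x _ => ?_)
  have e : stT s (atL L t) h (fun i => g (eT t u s L i)) = pa u s L h t g := by
    funext a j y
    rw [stT_fe, pa]
    congr 1
    simp only [fe_eq t u]
    exact (eT t u s L).sum_comp fun i => fs (fun l => l.A t) u s L a j y i * g i
  simp only [denT, UT_eq, e, UP, ee, len_at, drop_at, cf_at t u, ex_at t u, XP]

/-- its time derivative -/
def ee' (w : Ω → ℝ) (u : ℝ) (s : Sh) (L : List (TL Ω)) (h : Ω → ℝ) (x : s.Lf → Ω)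
    (p : Pt (NT s (atL L u))) : ℝ :=
  -(∑ a, ∑ j ∈ Finset.range (L.length + 1), cf s (atL L u) a j *
      (D0 w (L.drop j) (p.1, pa u s L h p.1 p.2 a j) +
        ∑ y, PP w (L.drop j) y (p.1, pa u s L h p.1 p.2 a j) * pa' u s L p.1 p.2 a j y) -
      ∑ a, pa' u s L p.1 p.2 a L.length (x a)) -
    s.br * ex (atL L u) 0 * D0 w L (p.1, h)

/-- the regularity of one feature -/
def Rg (I : Set ℝ) (f f' : ℝ → ℝ) : Prop :=
  (∀ t ∈ I, HasDerivAt f (f' t) t) ∧ ContinuousOn f' I ∧ ∃ B, ∀ t ∈ I, |f t| ≤ B ∧ |f' t| ≤ B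

theorem rg_fs {I : Set ℝ} (u : ℝ) (s : Sh) {L : List (TL Ω)} (hL : ∀ l ∈ L, l.OkD I) (a : s.Lf)
    (j : ℕ) (y : Ω) (i : NT s (atL L u)) :
    Rg I (fun t => fs (fun l => l.A t) u s L a j y i) fun t => fs (fun l => l.A' t) u s L a j y i := by
  refine fs_ind (Rg I) ⟨fun t _ => hasDerivAt_const t _, continuousOn_const, 0, by simp⟩ u s L
    (fun l hl x i => ⟨fun t ht => (hL l hl).der t ht x i, (hL l hl).cont' x i, ?_⟩) a j y i
  obtain ⟨B, hB⟩ := (hL l hl).bd
  obtain ⟨B', hB'⟩ := (hL l hl).bd'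
  exact ⟨max B B', fun t ht => ⟨(hB t ht x i).trans (le_max_left _ _),
    (hB' t ht x i).trans (le_max_right _ _)⟩⟩

theorem lG_lin {ι : Type} [Fintype ι] {I : Set ℝ} {f : ι → ℝ → ℝ} (c : ℝ)
    (hc : ∀ i, ContinuousOn (f i) I) (hb : ∀ i, ∃ B, ∀ t ∈ I, |f i t| ≤ B) :
    LG I fun p : Pt ι => c + ∑ i, f i p.1 * p.2 i := by
  choose B hB using hb
  refine ⟨continuousOn_const.add (continuousOn_finsetSum _ fun i _ =>
    ((hc i).comp continuousOn_fst fun _ hp => hp.1).mul (by fun_prop)), |c|, ∑ i, |B i|,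
    abs_nonneg _, by positivity, fun p hp => (abs_add_le _ _).trans (add_le_add le_rfl ?_)⟩
  rw [Finset.sum_mul]
  refine (Finset.abs_sum_le_sum_abs _ _).trans (Finset.sum_le_sum fun i _ => ?_)
  rw [abs_mul]
  exact mul_le_mul ((hB i p.1 hp).trans (le_abs_self _)) (norm_le_pi_norm p.2 i) (abs_nonneg _)
    (abs_nonneg _)

theorem lG_bd {ι : Type} [Fintype ι] {I : Set ℝ} {φ : Pt ι → Ω → ℝ}
    (h : ∀ y, LG I fun p => φ p y) : ∃ A B : ℝ, 0 ≤ A ∧ 0 ≤ B ∧ ∀ p : Pt ι, p.1 ∈ I →
      ‖φ p‖ ≤ A + B * ‖p.2‖ := by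
  choose C c h1 h2 h3 using fun y => (h y).bd
  refine ⟨∑ y, C y, ∑ y, c y, Finset.sum_nonneg fun y _ => h1 y, Finset.sum_nonneg fun y _ => h2 y,
    fun p hp => (pi_norm_le_iff_of_nonneg (add_nonneg (Finset.sum_nonneg fun y _ => h1 y)
      (mul_nonneg (Finset.sum_nonneg fun y _ => h2 y) (norm_nonneg _)))).2 fun y =>
      (h3 y p hp).trans (add_le_add (Finset.single_le_sum (fun y _ => h1 y) (Finset.mem_univ y))
        (mul_le_mul_of_nonneg_right (Finset.single_le_sum (fun y _ => h2 y) (Finset.mem_univ y))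
          (norm_nonneg _)))⟩

theorem eG_comp {ι : Type} [Fintype ι] {I : Set ℝ} {G : Pt Ω → ℝ} (hG : EG I G)
    {φ : Pt ι → Ω → ℝ} (h : ∀ y, LG I fun p => φ p y) : EG I fun p : Pt ι => G (p.1, φ p) := by
  classical
  obtain ⟨A, B, -, -, hb⟩ := lG_bd h
  exact hG.comp (φ := fun p : Pt ι => (p.1, φ p))
    (continuousOn_fst.prodMk (continuousOn_pi.2 fun y => (h y).cont)) (fun _ hp => hp) A B hb

theorem lG_comp {ι : Type} [Fintype ι] {I : Set ℝ} {G : Pt Ω → ℝ} (hG : LG I G)
    {φ : Pt ι → Ω → ℝ} (h : ∀ y, LG I fun p => φ p y) : LG I fun p : Pt ι => G (p.1, φ p) := by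
  obtain ⟨A, B, hA, hB, hb⟩ := lG_bd h
  obtain ⟨C, c, h1, h2, h3⟩ := hG.bd
  refine ⟨hG.cont.comp (continuousOn_fst.prodMk (continuousOn_pi.2 fun y => (h y).cont))
    fun p hp => ⟨hp.1, trivial⟩, C + c * A, c * B, by positivity, by positivity, fun p hp =>
      (h3 (p.1, φ p) hp).trans ?_⟩
  have := mul_le_mul_of_nonneg_left (hb p hp) h2
  simp only
  linarith

section lg
variable {ι : Type} [Fintype ι] {I : Set ℝ} {F G : Pt ι → ℝ}

theorem lG_add (h : LG I F) (h' : LG I G) : LG I fun p => F p + G p := by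
  obtain ⟨C, c, h1, h2, h3⟩ := h.bd
  obtain ⟨C', c', h1', h2', h3'⟩ := h'.bd
  exact ⟨h.cont.add h'.cont, C + C', c + c', by positivity, by positivity, fun p hp =>
    (abs_add_le _ _).trans (by linarith [h3 p hp, h3' p hp])⟩

theorem lG_cmul (k : ℝ) (h : LG I F) : LG I fun p => k * F p := by
  obtain ⟨C, c, h1, h2, h3⟩ := h.bd
  refine ⟨continuousOn_const.mul h.cont, |k| * C, |k| * c, by positivity, by positivity,
    fun p hp => ?_⟩
  rw [abs_mul, mul_assoc, ← mul_add]
  exact mul_le_mul_of_nonneg_left (h3 p hp) (abs_nonneg _)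

theorem lG_neg (h : LG I F) : LG I fun p => -F p := by simpa using lG_cmul (-1) h

theorem lG_sub (h : LG I F) (h' : LG I G) : LG I fun p => F p - G p := by
  simpa [sub_eq_add_neg] using lG_add h (lG_neg h')

theorem lG_const (c : ℝ) : LG I fun _ : Pt ι => c :=
  ⟨continuousOn_const, |c|, 0, abs_nonneg _, le_rfl, fun _ _ => by simp⟩

theorem lG_sum {α : Type*} (S : Finset α) {F : α → Pt ι → ℝ} (h : ∀ k ∈ S, LG I (F k)) :
    LG I fun p => ∑ k ∈ S, F k p := by
  classical
  induction S using Finset.induction_on with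
  | empty => simpa using lG_const 0
  | insert a S ha ih =>
    simp only [Finset.sum_insert ha]
    exact lG_add (h a (by simp)) (ih fun b hb => h b (by simp [hb]))

end lg

variable {I : Set ℝ} {L : List (TL Ω)}

theorem lG_pa (hL : ∀ l ∈ L, l.OkD I) (u : ℝ) (s : Sh) (h : Ω → ℝ) (a : s.Lf) (j : ℕ) (y : Ω) :
    LG I fun p : Pt (NT s (atL L u)) => pa u s L h p.1 p.2 a j y :=
  lG_lin (f := fun i t => fs (fun l => l.A t) u s L a j y i) (h y)
    (fun i t ht => ((rg_fs u s hL a j y i).1 t ht).continuousAt.continuousWithinAt)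
    fun i => (rg_fs u s hL a j y i).2.2.imp fun _ hB t ht => (hB t ht).1

theorem lG_pa' (hL : ∀ l ∈ L, l.OkD I) (u : ℝ) (s : Sh) (a : s.Lf) (j : ℕ) (y : Ω) :
    LG I fun p : Pt (NT s (atL L u)) => pa' u s L p.1 p.2 a j y := by
  simpa only [zero_add, pa'] using lG_lin (f := fun i t => fs (fun l => l.A' t) u s L a j y i) 0
    (fun i => (rg_fs u s hL a j y i).2.1)
    fun i => (rg_fs u s hL a j y i).2.2.imp fun _ hB t ht => (hB t ht).2

theorem okD_drop (hL : ∀ l ∈ L, l.OkD I) (j : ℕ) : ∀ l ∈ L.drop j, l.OkD I :=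
  fun l hl => hL l (List.mem_of_mem_drop hl)

theorem lG_ee (hw : Wt w) (hL : ∀ l ∈ L, l.OkC I)
    (u : ℝ) (s : Sh) (h : Ω → ℝ) (x : s.Lf → Ω)
    (hp : ∀ a j y, LG I fun p : Pt (NT s (atL L u)) => pa u s L h p.1 p.2 a j y) :
    LG I (ee w u s L h x) := by
  classical
  exact lG_sub (lG_neg (lG_sub (lG_sum _ fun a _ => lG_sum _ fun j _ => lG_cmul _
    (lG_comp (lg_XP hw fun l hl => hL l (List.mem_of_mem_drop hl)) (hp a j)))
    (lG_sum _ fun a _ => hp a _ _)))
    (lG_cmul _ (lG_comp (lg_XP hw hL) fun y => lG_const (h y)))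

theorem eG_ee' (hw : Wt w) (hI : IsOpen I) (hL : ∀ l ∈ L, l.OkD I) (u : ℝ) (s : Sh) (h : Ω → ℝ)
    (x : s.Lf → Ω) : EG I (ee' w u s L h x) := by
  classical
  exact (((EG.sum _ fun a _ => EG.sum _ fun j _ =>
    ((eG_comp (sm_XP hI hw (okD_drop hL j)).ega (lG_pa hL u s h a j)).add (EG.sum _ fun y _ =>
      (eG_comp ((sm_XP hI hw (okD_drop hL j)).egb y) (lG_pa hL u s h a j)).mul
        (lG_pa' hL u s a j y).eg)).const_mul _).sub
    (EG.sum _ fun a _ => (lG_pa' hL u s a _ _).eg)).neg).sub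
    ((eG_comp (sm_XP hI hw hL).ega fun y => lG_const (h y)).const_mul _)

theorem der_pa (hL : ∀ l ∈ L, l.OkD I) (u : ℝ) (s : Sh) (h : Ω → ℝ) (g : NT s (atL L u) → ℝ)
    {t : ℝ} (ht : t ∈ I) (a : s.Lf) (j : ℕ) (y : Ω) :
    HasDerivAt (fun t => pa u s L h t g a j y) (pa' u s L t g a j y) t :=
  (HasDerivAt.fun_sum fun i _ => ((rg_fs u s hL a j y i).1 t ht).mul_const (g i)).const_add (h y)

theorem der_XP (hw : Wt w) (hI : IsOpen I) (hL : ∀ l ∈ L, l.OkD I) {b : ℝ → Ω → ℝ} {b' : Ω → ℝ}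
    {t : ℝ} (ht : t ∈ I) (hb : ∀ y, HasDerivAt (fun t => b t y) (b' y) t) :
    HasDerivAt (fun t => XP w L (t, b t)) (D0 w L (t, b t) + ∑ y, PP w L y (t, b t) * b' y) t := by
  classical
  have h1 := ((sm_XP hI hw hL).fd (t, b t) ht).comp_hasDerivAt t
    ((hasDerivAt_id t).prodMk (hasDerivAt_pi.2 hb))
  refine h1.congr_deriv ?_
  rw [D2_apply, mul_one]

theorem der_ee (hw : Wt w) (hI : IsOpen I) (hL : ∀ l ∈ L, l.OkD I) (u : ℝ) (s : Sh) (h : Ω → ℝ)
    (x : s.Lf → Ω) (g : NT s (atL L u) → ℝ) {t : ℝ} (ht : t ∈ I) :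
    HasDerivAt (fun t => ee w u s L h x (t, g)) (ee' w u s L h x (t, g)) t := by
  have h1 := HasDerivAt.fun_sum (u := Finset.univ) fun a _ =>
    HasDerivAt.fun_sum (u := Finset.range (L.length + 1)) fun j _ =>
      (der_XP hw hI (okD_drop hL j) ht (der_pa hL u s h g ht a j)).const_mul (cf s (atL L u) a j)
  have h2 := HasDerivAt.fun_sum (u := Finset.univ) fun a _ =>
    der_pa hL u s h g ht a L.length (x a)
  have h3 := (der_XP hw hI hL ht (b := fun _ => h) (b' := 0)
    fun y => hasDerivAt_const t (h y)).const_mul (s.br * ex (atL L u) 0)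
  refine ((h1.fun_sub h2).fun_neg.fun_sub h3).congr_deriv ?_
  simp [ee']

theorem hasDerivAt_raw (hw : Wt w) (hI : IsOpen I) (hL : ∀ l ∈ L, l.OkD I) {u : ℝ} (hu : u ∈ I)
    (s : Sh) (h : Ω → ℝ) (F : (s.Lf → Ω) → ℝ) :
    HasDerivAt (fun t => tX w s (atL L t) h fun _ x => F x)
      (tX w s (atL L u) h fun g x => ee' w u s L h x (u, g) * F x) u := by
  classical
  have e0 : ∀ x, EG I fun p => (∏ a, w (x a)) * exp (ee w u s L h x p) := fun x => by
    simpa only [one_mul] using ((lG_ee hw (fun l hl => (hL l hl).toOkC) u s h x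
      (lG_pa hL u s h)).exp 1).const_mul (∏ a, w (x a))
  have key := (EG.sum Finset.univ fun x _ => (e0 x).mul (EG.const (F x))).hasDerivAt_int
    (EG.sum Finset.univ fun x _ => (e0 x).mul ((eG_ee' hw hI hL u s h x).mul (EG.const (F x))))
    (hI.mem_nhds hu) fun t ht g => HasDerivAt.fun_sum fun x _ =>
      ((((der_ee hw hI hL u s h x g ht).exp).const_mul (∏ a, w (x a))).mul_const
        (F x)).congr_deriv (by ring)
  simp only [tX_at w _ u s L h F]
  refine key.congr_deriv ?_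
  refine integral_congr_ae (.of_forall fun g => Finset.sum_congr rfl fun x _ => ?_)
  simp only [denT, UT_eq, UP, ee, len_at, drop_at, pa_self, XP]

theorem continuousOn_tX (hw : Wt w) (hL : ∀ l ∈ L, l.OkC I) (s : Sh) (h : Ω → ℝ)
    (F : (s.Lf → Ω) → ℝ) : ContinuousOn (fun t => tX w s (atL L t) h fun _ x => F x) I := by
  classical
  have hq := fs_ind (fun f _ => ContinuousOn f I ∧ ∃ B, ∀ t ∈ I, |f t| ≤ B)
    ⟨continuousOn_const, 0, by simp⟩ 0 s L
    fun l hl x i => ⟨(hL l hl).cont x i, (hL l hl).bd.imp fun _ hB t ht => hB t ht x i⟩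
  have e0 : ∀ x, EG I fun p => (∏ a, w (x a)) * exp (ee w 0 s L h x p) := fun x => by
    simpa only [one_mul] using ((lG_ee hw hL 0 s h x fun a j y =>
      lG_lin (f := fun i t => fs (fun l => l.A t) 0 s L a j y i) (h y) (fun i => (hq a j y i).1)
        fun i => (hq a j y i).2).exp 1).const_mul (∏ a, w (x a))
  simp only [tX_at w _ 0 s L h F]
  exact (EG.sum Finset.univ fun x _ => (e0 x).mul (EG.const (F x))).continuousOn_int

end Sp38

end Crest.Agent.T156.Cas

end
private theorem rz_732ac1cec2 : type_of% @_root_.Crest.Agent.T156.Cas.Sp38.e1.eq_def := @_root_.Crest.Agent.T156.Cas.Sp38.e1.eq_def -- L43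
private theorem rz_741576709f : type_of% @_root_.Crest.Agent.T156.Cas.Sp38.e1.eq_1 := @_root_.Crest.Agent.T156.Cas.Sp38.e1.eq_1 -- L43
end

-- ▼ part T156/CaSpB_38

/-!
# Row 156 (helper38): the smart path on replica trees, replica form

`hasDerivAt_tX_t`: the derivative of `t ↦ tX w s (atL L t) h F` as a sum over grafted trees.
-/

set_option autoImplicit false
set_option linter.unusedSectionVars false

noncomputable section

namespace Crest.Agent.T156.Cas

open MeasureTheory Real Set Filter Topology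
open Crest.Agent.T157.E Crest.Agent.T157.Casc Crest.Agent.T157.SL

variable {Ω : Type}

/-- the weight of the node `(a, j)` for a new replica, the root included (total: number of leaves) -/
def cw (s : Sh) (L : List (Lv Ω)) (a : s.Lf) (j : ℕ) : ℝ :=
  cf s L a j + if a = s.fst ∧ j = 0 then s.br * ex L 0 else 0

theorem sum_cw_mul (s : Sh) (L : List (Lv Ω)) (n : ℕ) (G : s.Lf → ℕ → ℝ) :
    ∑ a, ∑ j ∈ Finset.range (n + 1), cw s L a j * G a j =
      ∑ a, ∑ j ∈ Finset.range (n + 1), cf s L a j * G a j + s.br * ex L 0 * G s.fst 0 := by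
  simp only [cw, add_mul, Finset.sum_add_distrib, Sd.sum_ite]

theorem sum_cw (s : Sh) (L : List (Lv Ω)) :
    ∑ a, ∑ j ∈ Finset.range (L.length + 1), cw s L a j = Fintype.card s.Lf := by
  have := sum_cw_mul s L L.length fun _ _ => 1
  simp only [mul_one] at this
  rw [this, sum_cf]
  ring

theorem cw_nonneg (s : Sh) {L : List (Lv Ω)} (hL : Mono 0 L) (a : s.Lf) (j : ℕ) :
    0 ≤ cw s L a j := by
  have h1 : 0 ≤ ex L 0 := by simpa [dm, exP] using dm_nonneg hL 0
  refine add_nonneg (cf_nonneg s L 0 le_rfl hL a j) ?_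
  split_ifs
  · positivity
  · exact le_rfl

theorem shr_zero38 : ∀ (s : Sh) (a b : s.Lf), s.shr a b 0 = 0
  | .one, _, _ => rfl
  | .step _, _, _ => rfl
  | .split s _, .inl a, .inl b => shr_zero38 s a b
  | .split _ t, .inr a, .inr b => shr_zero38 t a b
  | .split _ _, .inl _, .inr _ => rfl
  | .split _ _, .inr _, .inl _ => rfl

variable [Fintype Ω] {w : Ω → ℝ}

namespace Sp38

open Gf

/-- the new leaf has the path law of the node -/
def Gf2 (w : Ω → ℝ) (s s' : Sh) (e : s.Lf → s'.Lf) (ν : s'.Lf) (a : s.Lf) (j : ℕ) : Prop :=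
  ∀ (L : List (Lv Ω)) (h : Ω → ℝ) (F : Pa s.Lf Ω → (s.Lf → Ω) → ℝ) (Φ : Ω → (Ω → ℝ) → ℝ) (i : ℕ),
    (∀ x, EgP fun p => F p x) → (∀ y, Eg (Φ y)) →
    tX w s' L h (fun g x => F (fun b => stT s' L h g (e b)) (fun b => x (e b)) *
        Φ (x ν) (stT s' L h g ν (i + j))) =
      tX w s L h fun g x => F (stT s L h g) x * node w (L.drop j) i
        (fun z => ∑ y, P w (L.drop (i + j)) z y * Φ y z) (stT s L h g a j)

theorem egL {κ κ' : Type} {F : Pa κ Ω → ℝ} (hF : EgP F) (e : κ → κ') {Φ : (Ω → ℝ) → ℝ}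
    (hΦ : Eg Φ) (ν : κ') (k : ℕ) : EgP fun p : Pa κ' Ω => F (fun b => p (e b)) * Φ (p ν k) :=
  (egP_emb hF e).mul (EgP.state hΦ ν k)

theorem egR (hw : Wt w) {κ : Type} {F : Pa κ Ω → ℝ} (hF : EgP F) {Φ : Ω → (Ω → ℝ) → ℝ}
    (hΦ : ∀ y, Eg (Φ y)) (M M' : List (Lv Ω)) (i : ℕ) (a : κ) (j : ℕ) :
    EgP fun p : Pa κ Ω => F p * node w M i (fun z => ∑ y, P w M' z y * Φ y z) (p a j) :=
  hF.mul (EgP.state ((Eg.sum _ fun y _ => (eg_P hw M' y).mul (hΦ y)).node hw M i) a j)

theorem gf2_zero (hw : Wt w) (s : Sh) (a : s.Lf) :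
    Gf2 w s (.split s .one) Sum.inl (.inr ()) a 0 := fun L h F Φ i hF hΦ => by
  refine (Tr.tX_split hw s .one L h _ fun x =>
    (egL (hF _) Sum.inl (hΦ _) _ _).stT (s := .split s .one) L h).trans ?_
  congr 1
  funext g x
  rw [Sd.stT_zero, List.drop_zero, add_zero, ← Pe.pE_node hw Φ hΦ, ← Pe.pE_const_mul]
  exact Tr.tX_one w L h _

theorem gf2_step (hw : Wt w) {s s' : Sh} {e : s.Lf → s'.Lf} {ν : s'.Lf} {a : s.Lf} {j : ℕ}
    (H : Gf2 w s s' e ν a j) : Gf2 w (.step s) (.step s') e ν a (j + 1)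
  | [], h, F, Φ, i, hF, hΦ => by
      refine (Tr.tX_step_nil w s' h _).trans (Eq.trans ?_ ((H [] h F Φ i hF hΦ).trans ?_))
      · congr 1
        funext g x
        exact congrArg (fun z => _ * Φ (x ν) z)
          ((Sd.stT_nil s' h g ν _).trans (Sd.stT_nil s' h g ν _).symm)
      refine Eq.trans ?_ (Tr.tX_step_nil w s h _).symm
      congr 1
      funext g x
      simp only [List.drop_nil]
      exact congrArg (fun z => _ * node w [] i _ z)
        ((Sd.stT_nil s h g a _).trans (Sd.stT_nil s h g a _).symm)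
  | l :: L, h, F, Φ, i, hF, hΦ => by
      refine (Tr.tX_step_cons hw s' l L h _ fun x =>
        (egL (hF _) e (hΦ _) _ _).stT (s := .step s') _ h).trans ?_
      refine Eq.trans ?_ (Tr.tX_step_cons hw s l L h _ fun x =>
        (egR hw (hF x) hΦ _ _ i a (j + 1)).stT (s := .step s) _ h).symm
      congr 2
      funext g
      congr 1
      have := H L (h + l.fld g) (fun p => F fun b => cons h (p b)) Φ i
        (fun x => egP_cons (hF x) h) hΦ
      simp only [stT_step]
      refine this.trans ?_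
      congr 1
      funext g' x
      congr 2
      funext b
      exact (stT_step s l L h g g' b).symm

theorem gf2_inl (hw : Wt w) {s s' : Sh} (t : Sh) {e : s.Lf → s'.Lf} {ν : s'.Lf} {a : s.Lf} {j : ℕ}
    (H : Gf2 w s s' e ν a j) :
    Gf2 w (.split s t) (.split s' t) (Sum.map e id) (.inl ν) (.inl a) j :=
    fun L h F Φ i hF hΦ => by
  refine (tX_split' hw s' t L h _ fun x =>
    (egL (hF _) (Sum.map e id) (hΦ _) _ _).stT (s := .split s' t) _ h).trans ?_
  refine Eq.trans ?_ (tX_split' hw s t L h _ fun x =>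
    (egR hw (hF x) hΦ _ _ i (.inl a) j).stT (s := .split s t) _ h).symm
  congr 1
  funext g' x'
  have := H L h (fun p x => F (Sum.elim p (stT t L h g')) (Sum.elim x x')) Φ i
    (fun x => egP_inl (hF _) _) hΦ
  simp only [stT_split]
  refine Eq.trans ?_ this
  congr 1
  funext g x
  congr 2
  · funext b; cases b <;> rfl
  · funext b; cases b <;> rfl

theorem gf2_inr (hw : Wt w) (s : Sh) {t t' : Sh} {e : t.Lf → t'.Lf} {ν : t'.Lf} {a : t.Lf} {j : ℕ}
    (H : Gf2 w t t' e ν a j) :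
    Gf2 w (.split s t) (.split s t') (Sum.map id e) (.inr ν) (.inr a) j :=
    fun L h F Φ i hF hΦ => by
  refine (Tr.tX_split hw s t' L h _ fun x =>
    (egL (hF _) (Sum.map id e) (hΦ _) _ _).stT (s := .split s t') _ h).trans ?_
  refine Eq.trans ?_ (Tr.tX_split hw s t L h _ fun x =>
    (egR hw (hF x) hΦ _ _ i (.inr a) j).stT (s := .split s t) _ h).symm
  congr 1
  funext g x
  have := H L h (fun p x' => F (Sum.elim (stT s L h g) p) (Sum.elim x x')) Φ i
    (fun x => egP_inr (hF _) _) hΦ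
  simp only [stT_split]
  refine Eq.trans ?_ this
  congr 1
  funext g' x'
  congr 2
  · funext b; cases b <;> rfl
  · funext b; cases b <;> rfl

theorem gf2_one {s' : Sh} {e : Unit → s'.Lf} {ν : s'.Lf} {j : ℕ}
    (H : Gf2 w (.step .one) s' e ν () j) : Gf2 w .one s' e ν () j
  | [], h, F, Φ, i, hF, hΦ => (H [] h F Φ i hF hΦ).trans (Tr.tX_step_nil w .one h _)
  | l :: L, h, F, Φ, i, hF, hΦ => by
      refine (H (l :: L) h F Φ i hF hΦ).trans (Eq.trans ?_ (tX_one_cons w l L h _).symm)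
      congr 1
      funext g x
      have : stT (.step .one) (l :: L) h g = stT .one (l :: L) h g := by
        funext a k; cases k <;> rfl
      rw [this]

theorem gf2_two (hw : Wt w) : ∀ j : ℕ,
    Gf2 w .one (Sh.two j) (fun _ => Sh.twoL j) (Sh.twoR j) () j
  | 0 => gf2_zero hw .one ()
  | j + 1 => gf2_one (gf2_step hw (gf2_two hw j))

theorem gf2_graft (hw : Wt w) : ∀ (s : Sh) (a : s.Lf) (j : ℕ),
    Gf2 w s (s.graft a j) (s.emb a j) (s.nw a j) a j
  | .one, _, j => gf2_two hw j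
  | .step s, a, 0 => gf2_zero hw (.step s) a
  | .step s, a, j + 1 => gf2_step hw (gf2_graft hw s a j)
  | .split s t, .inl a, j => gf2_inl hw t (gf2_graft hw s a j)
  | .split s t, .inr a, j => gf2_inr hw s (gf2_graft hw t a j)

end Sp38

/-- **the grafted leaf has the path law of the node** -/
theorem tX_graft_path (hw : Wt w) (s : Sh) (a : s.Lf) (j i : ℕ) (L : List (Lv Ω)) (h : Ω → ℝ)
    (F : Pa s.Lf Ω → (s.Lf → Ω) → ℝ) (Φ : Ω → (Ω → ℝ) → ℝ) (hF : ∀ x, EgP fun p => F p x)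
    (hΦ : ∀ y, Eg (Φ y)) :
    tX w (s.graft a j) L h (fun g x => F (fun b => stT (s.graft a j) L h g (s.emb a j b))
        (fun b => x (s.emb a j b)) * Φ (x (s.nw a j)) (stT (s.graft a j) L h g (s.nw a j) (i + j))) =
      tX w s L h fun g x => F (stT s L h g) x * node w (L.drop j) i
        (fun z => ∑ y, P w (L.drop (i + j)) z y * Φ y z) (stT s L h g a j) :=
  Sp38.gf2_graft hw s a j L h F Φ i hF hΦ

/-- one new leaf -/
theorem graft_leaf (hw : Wt w) (s : Sh) (a : s.Lf) (j : ℕ) (L : List (Lv Ω)) (h : Ω → ℝ)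
    (G : (s.Lf → Ω) → Ω → ℝ) :
    tX w (s.graft a j) L h (fun _ x => G (fun b => x (s.emb a j b)) (x (s.nw a j))) =
      tX w s L h fun g x => ∑ y, P w (L.drop j) (stT s L h g a j) y * G x y :=
  tX_graft hw s a j L h (fun _ => G) fun _ _ => .const _

/-- two new leaves, the second one split from the first one -/
theorem graft_pi2 (hw : Wt w) (s : Sh) (a : s.Lf) (j i : ℕ) (L : List (Lv Ω)) (h : Ω → ℝ)
    (F : (s.Lf → Ω) → ℝ) (K : Ω → Ω → ℝ) :
    tX w ((s.graft a j).graft (s.nw a j) (i + j)) L h (fun _ x =>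
        F (fun b => x ((s.graft a j).emb (s.nw a j) (i + j) (s.emb a j b))) *
          K (x ((s.graft a j).emb (s.nw a j) (i + j) (s.nw a j)))
            (x ((s.graft a j).nw (s.nw a j) (i + j)))) =
      tX w s L h fun g x => F x * pi2 w (L.drop j) i K (stT s L h g a j) := by
  rw [graft_leaf hw (s.graft a j) (s.nw a j) (i + j) L h
    fun x y => F (fun b => x (s.emb a j b)) * K (x (s.nw a j)) y]
  have := tX_graft_path hw s a j i L h (fun _ => F)
    (fun y z => ∑ y', P w (L.drop (i + j)) z y' * K y y') (fun _ => .const _)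
    fun y => Eg.sum _ fun y' _ => (eg_P hw _ y').mul_const _
  simp only [mul_left_comm _ (F _), ← Finset.mul_sum]
  rw [this]
  simp only [pi2, qf, List.drop_drop, add_comm j i, Finset.mul_sum, mul_assoc]

namespace Sp38

theorem eg_lin {ι : Type} [Fintype ι] (η : ι → ℝ) : Eg fun g : ι → ℝ => ∑ i, η i * g i :=
  Eg.sum _ fun i _ => (Eg.coord i).const_mul _

theorem eg_node (s : Sh) (L : List (Lv Ω)) (h : Ω → ℝ) {Φ : (Ω → ℝ) → ℝ} (hΦ : Eg Φ) (a : s.Lf)
    (j : ℕ) : Eg fun g => Φ (stT s L h g a j) := (EgP.state hΦ a j).stT L h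

theorem fs1_zero (φ : Sel Ω) (u : ℝ) : ∀ (L : List (TL Ω)) (y : Ω), fs1 φ u L 0 y = 0
  | [], _ => rfl
  | _ :: _, _ => rfl

theorem fs_zero (φ : Sel Ω) (u : ℝ) : ∀ (s : Sh) (L : List (TL Ω)) (a : s.Lf) (y : Ω)
    (i : NT s (atL L u)), fs φ u s L a 0 y i = 0
  | .one, L, _, y, i => congrFun (fs1_zero φ u L y) i
  | .step s, [], a, y, i => fs_zero φ u s [] a y i
  | .step _, _ :: _, _, _, _ => rfl
  | .split s _, L, .inl a, y, .inl i => fs_zero φ u s L a y i
  | .split _ _, _, .inl _, _, .inr _ => rfl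
  | .split _ _, _, .inr _, _, .inl _ => rfl
  | .split _ s, L, .inr a, y, .inr i => fs_zero φ u s L a y i

variable {I : Set ℝ} {L : List (TL Ω)} {u : ℝ}

theorem eg_D0 (hw : Wt w) (hI : IsOpen I) (hL : ∀ l ∈ L, l.OkD I) (hu : u ∈ I) :
    Eg fun z => D0 w L (u, z) := by
  classical
  exact eg_of_EG (sm_XP hI hw hL).ega hu

/-- splitting of the raw derivative -/
theorem raw_eq (hw : Wt w) (hI : IsOpen I) (hL : ∀ l ∈ L, l.OkD I) (hu : u ∈ I) (s : Sh)
    (h : Ω → ℝ) (F : (s.Lf → Ω) → ℝ) :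
    tX w s (atL L u) h (fun g x => ee' w u s L h x (u, g) * F x) =
      ∑ a, tX w s (atL L u) h (fun g x =>
        (∑ i, fs (fun l => l.A' u) u s L a L.length (x a) i * g i) * F x) -
      ∑ a, ∑ j ∈ Finset.range (L.length + 1), cw s (atL L u) a j *
        (tX w s (atL L u) h (fun g x => F x * D0 w (L.drop j) (u, stT s (atL L u) h g a j)) +
        ∑ y, tX w s (atL L u) h fun g x => (∑ i, fs (fun l => l.A' u) u s L a j y i * g i) *
          (P w ((atL L u).drop j) (stT s (atL L u) h g a j) y * F x)) := by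
  have g1 : ∀ a x, Eg fun g : NT s (atL L u) → ℝ =>
      (∑ i, fs (fun l => l.A' u) u s L a L.length (x a) i * g i) * F x :=
    fun a x => (eg_lin _).mul_const _
  have g2 : ∀ a j x, Eg fun g => F x * D0 w (L.drop j) (u, stT s (atL L u) h g a j) :=
    fun a j x => (eg_node s _ h (eg_D0 hw hI (okD_drop hL j) hu) a j).const_mul _
  have g3 : ∀ a j y x, Eg fun g : NT s (atL L u) → ℝ =>
      (∑ i, fs (fun l => l.A' u) u s L a j y i * g i) *
        (P w ((atL L u).drop j) (stT s (atL L u) h g a j) y * F x) :=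
    fun a j y x => (eg_lin _).mul ((eg_node s _ h (eg_P hw _ y) a j).mul_const _)
  have g4 := fun a j x => ((g2 a j x).add (Eg.sum Finset.univ fun y _ => g3 a j y x)).const_mul
    (cw s (atL L u) a j)
  simp only [fun a j => (Sd.tX_sum hw s _ h Finset.univ fun y _ => g3 a j y).symm,
    fun a j => (Sd.tX_add hw s _ h (g2 a j) fun x => Eg.sum Finset.univ fun y _ => g3 a j y x).symm,
    ← Sd.tX_const_mul]
  simp only [fun a => (Sd.tX_sum hw s _ h (Finset.range (L.length + 1)) fun j _ => g4 a j).symm]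
  rw [← Sd.tX_sum hw s _ h _ fun a _ x => Eg.sum _ fun j _ => g4 a j x,
    ← Sd.tX_sum hw s _ h _ fun a _ => g1 a,
    ← Sd.tX_sub hw s _ h (fun x => Eg.sum _ fun a _ => g1 a x)
      fun x => Eg.sum _ fun a _ => Eg.sum _ fun j _ => g4 a j x]
  congr 1
  funext g x
  rw [sum_cw_mul]
  simp only [ee', pa_self, pa', PP, drop_at, fs_zero, zero_mul, Finset.sum_const_zero, add_zero,
    Sd.stT_zero, List.drop_zero, sub_mul, neg_mul, Finset.sum_mul]
  have e : ∀ a j, cf s (atL L u) a j * (D0 w (L.drop j) (u, stT s (atL L u) h g a j) +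
      ∑ y, P w (atL (L.drop j) u) (stT s (atL L u) h g a j) y *
        ∑ i, fs (fun l => l.A' u) u s L a j y i * g i) * F x =
      cf s (atL L u) a j * (F x * D0 w (L.drop j) (u, stT s (atL L u) h g a j) +
        ∑ y, ∑ i, fs (fun l => l.A' u) u s L a j y i * g i *
          (P w (atL (L.drop j) u) (stT s (atL L u) h g a j) y * F x)) := fun a j => by
    rw [mul_assoc, add_mul, Finset.sum_mul]
    congr 2
    · ring
    · exact Finset.sum_congr rfl fun y _ => by rw [← Finset.sum_mul]; ring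
  simp only [e]
  ring

/-- the leaf terms -/
theorem t1_eq (hw : Wt w) (s : Sh) (h : Ω → ℝ) (F : (s.Lf → Ω) → ℝ) (a : s.Lf) :
    tX w s (atL L u) h (fun g x =>
        (∑ i, fs (fun l => l.A' u) u s L a L.length (x a) i * g i) * F x) =
      ∑ b, tX w s (atL L u) h (fun _ x => F x * Sacc L u (s.shr a b L.length) (x a) (x b)) -
      ∑ b, ∑ k ∈ Finset.range (L.length + 1), cw s (atL L u) b k *
        tX w (s.graft b k) (atL L u) h fun _ x => F (fun c => x (s.emb b k c)) *
          Sacc L u (s.shr a b k) (x (s.emb b k a)) (x (s.nw b k)) := by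
  have := sd_leaf hw s (atL L u) h F fun x => fs (fun l => l.A' u) u s L a L.length (x a)
  simp only [stT_dir, len_at, min_self] at this
  rw [this, sum_cw_mul]
  simp only [shr_zero38, Sacc_zero', mul_zero, show ∀ s' : Sh, tX w s' (atL L u) h
    (fun _ _ => 0) = 0 from fun s' => by simp [tX], add_zero]
  congr 1
  refine Finset.sum_congr rfl fun b _ => Finset.sum_congr rfl fun k hk => ?_
  rw [min_eq_right (Nat.lt_succ_iff.1 (Finset.mem_range.1 hk))]

/-- the node terms -/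
theorem t3_eq (hw : Wt w) (s : Sh) (h : Ω → ℝ) (F : (s.Lf → Ω) → ℝ) (a : s.Lf) {j : ℕ}
    (hj : j ≤ L.length) :
    ∑ y, tX w s (atL L u) h (fun g x => (∑ i, fs (fun l => l.A' u) u s L a j y i * g i) *
        (P w ((atL L u).drop j) (stT s (atL L u) h g a j) y * F x)) =
      tX w s (atL L u) h (fun g x => F x * ∑ y, ∑ z, Sacc L u j y z *
        Hs w ((atL L u).drop j) (stT s (atL L u) h g a j) y z) -
      ∑ b, ∑ k ∈ Finset.range (L.length + 1), cw s (atL L u) b k *
        tX w ((s.graft b k).graft (s.emb b k a) j) (atL L u) h (fun _ x =>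
          F (fun c => x ((s.graft b k).emb (s.emb b k a) j (s.emb b k c))) *
            Sacc L u (s.shr a b (min j k)) (x ((s.graft b k).nw (s.emb b k a) j))
              (x ((s.graft b k).emb (s.emb b k a) j (s.nw b k)))) +
      ∑ b, tX w (s.graft a j) (atL L u) h fun _ x => F (fun c => x (s.emb a j c)) *
        Sacc L u (s.shr a b j) (x (s.nw a j)) (x (s.emb a j b)) := by
  have h1 := fun y => stein_dir hw s (atL L u) h (fun _ => fs (fun l => l.A' u) u s L a j y)
    (F := fun p x => P w ((atL L u).drop j) (p a j) y * F x)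
    (F' := fun x p q => (∑ z, Hs w ((atL L u).drop j) (p a j) y z * q a j z) * F x)
    fun x => ((GrP.state (gr_P hw ((atL L u).drop j) y) a j).mul (GrP.const (F x))).congr
      fun _ _ => by simp
  have h2 := fun y => sd_rep hw s (atL L u) h
    (F := fun p x => P w ((atL L u).drop j) (p a j) y * F x)
    (fun x => (EgP.state (eg_P hw ((atL L u).drop j) y) a j).mul (.const _))
    fun _ => stT s (atL L u) 0 (fs (fun l => l.A' u) u s L a j y)
  simp only [h1, h2]
  simp only [stT_dir, len_at, min_self, shr_self, min_eq_left hj]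
  generalize atL L u = M
  rw [Finset.sum_sub_distrib, Finset.sum_sub_distrib, ← sub_add,
    ← Sd.tX_sum hw s M h _ fun y _ x =>
      (Eg.sum _ fun z _ => (eg_node s M h (eg_Hs hw _ y z) a j).mul_const _).mul_const _,
    sum_cw_mul]
  simp only [Nat.min_zero, shr_zero38, Sacc_zero', mul_zero, show ∀ s' : Sh, tX w s' M h
    (fun _ _ => 0) = 0 from fun s' => by simp [tX], add_zero]
  congr 1
  · congr 1
    · congr 1
      funext g x
      rw [← Finset.sum_mul, mul_comm]
      simp only [mul_comm (Sacc _ _ _ _ _)]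
    · rw [Finset.sum_comm]
      refine Finset.sum_congr rfl fun b _ => ?_
      rw [Finset.sum_comm]
      refine Finset.sum_congr rfl fun k _ => ?_
      rw [← Finset.mul_sum, graft_leaf hw (s.graft b k) (s.emb b k a) j M h fun x y =>
        F (fun c => x (s.emb b k c)) * Sacc L u (s.shr a b (min j k)) y (x (s.nw b k)),
        Sd.tX_sum hw _ M h _ fun y _ x => (eg_node _ M h (eg_P hw _ y) _ j).mul_const _]
      simp only [mul_assoc]
  · rw [Finset.sum_comm]
    refine Finset.sum_congr rfl fun b _ => ?_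
    rw [graft_leaf hw s a j M h fun x y => F x * Sacc L u (s.shr a b j) y (x b),
      Sd.tX_sum hw _ M h _ fun y _ x => (eg_node _ M h (eg_P hw _ y) _ j).mul_const _]
    simp only [mul_assoc]

/-- the moving node value together with the Hessian term -/
theorem t2_eq (hw : Wt w) (hI : IsOpen I) (hL : ∀ l ∈ L, l.OkD I) (hu : u ∈ I) (s : Sh)
    (h : Ω → ℝ) (F : (s.Lf → Ω) → ℝ) (a : s.Lf) {j : ℕ} (hj : j ≤ L.length) :
    tX w s (atL L u) h (fun g x => F x * D0 w (L.drop j) (u, stT s (atL L u) h g a j)) +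
      tX w s (atL L u) h (fun g x => F x * ∑ y, ∑ z, Sacc L u j y z *
        Hs w ((atL L u).drop j) (stT s (atL L u) h g a j) y z) =
      tX w (s.graft a j) (atL L u) h (fun _ x => F (fun c => x (s.emb a j c)) *
        Sacc L u L.length (x (s.nw a j)) (x (s.nw a j))) -
      ∑ i ∈ Finset.range (L.length - j + 1), dm ((atL L u).drop j) 0 i *
        tX w ((s.graft a j).graft (s.nw a j) (i + j)) (atL L u) h fun _ x =>
          F (fun b => x ((s.graft a j).emb (s.nw a j) (i + j) (s.emb a j b))) *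
            Sacc L u (i + j) (x ((s.graft a j).emb (s.nw a j) (i + j) (s.nw a j)))
              (x ((s.graft a j).nw (s.nw a j) (i + j))) := by
  set M := atL L u with hM
  have g5 : ∀ i x, Eg fun g => dm (M.drop j) 0 i *
      (F x * pi2 w (M.drop j) i (Sacc L u (i + j)) (stT s M h g a j)) := fun i x =>
    ((eg_node s M h (eg_pi2 hw _ i _) a j).const_mul _).const_mul _
  simp only [graft_pi2 hw, ← Sd.tX_const_mul]
  rw [graft_leaf hw s a j M h fun x y => F x * Sacc L u L.length y y,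
    ← Sd.tX_sum hw s M h _ fun i _ => g5 i,
    ← Sd.tX_sub hw s M h (fun x => Eg.sum _ fun y _ => (eg_node s M h (eg_P hw _ y) a j).mul_const _)
      fun x => Eg.sum _ fun i _ => g5 i x,
    ← Sd.tX_add hw s M h
      (fun x => (eg_node s _ h (eg_D0 hw hI (okD_drop hL j) hu) a j).const_mul _)
      fun x => (Eg.sum _ fun y _ => Eg.sum _ fun z _ =>
        (eg_node s M h (eg_Hs hw _ y z) a j).const_mul _).const_mul _]
  congr 1
  funext g x
  have e1 := D0_eq hw hu hI (L.drop j) (okD_drop hL j) 0 (stT s M h g a j)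
  have e2 := sum_Hs hw (Sacc L u j) (M.drop j) 0 (stT s M h g a j)
  simp only [zero_mul, add_zero] at e2
  rw [← drop_at, ← hM] at e1
  have e3 := pair_add hw (M.drop j) 0 (fun _ => Sacc L u j) (Sacc (L.drop j) u) (stT s M h g a j)
  have e4 : ∀ y, Sacc L u L.length y y =
      Sacc L u j y y + Sacc (L.drop j) u (L.drop j).length y y := fun y => by
    rw [← Sacc_add, List.length_drop, Nat.add_sub_cancel' hj]
  simp only [← Sacc_add] at e3
  rw [pair_eq_sum hw, List.length_drop, show M.length = L.length from len_at L u] at e3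
  simp only [add_comm j] at e3
  simp only [mul_left_comm _ (F x), ← Finset.mul_sum]
  rw [e1, e2, e3]
  simp only [e4, mul_add, Finset.sum_add_distrib]
  ring

end Sp38

/-- the derivative of a tree expectation for the kernels `S j` (`S j + (S j)ᵀ` is the derivative
of the covariance of the first `j` levels) -/
def dT (w : Ω → ℝ) (s : Sh) (M : List (Lv Ω)) (h : Ω → ℝ) (S : ℕ → Ω → Ω → ℝ)
    (F : (s.Lf → Ω) → ℝ) : ℝ :=
  ∑ a, ∑ b, tX w s M h (fun _ x => F x * S (s.shr a b M.length) (x a) (x b)) -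
  ∑ a, ∑ j ∈ Finset.range (M.length + 1), cw s M a j *
    (∑ b, tX w (s.graft a j) M h (fun _ x => F (fun c => x (s.emb a j c)) *
        S (s.shr b a j) (x (s.emb a j b)) (x (s.nw a j))) +
      ∑ b, tX w (s.graft a j) M h (fun _ x => F (fun c => x (s.emb a j c)) *
        S (s.shr a b j) (x (s.nw a j)) (x (s.emb a j b))) +
      tX w (s.graft a j) M h fun _ x => F (fun c => x (s.emb a j c)) *
        S M.length (x (s.nw a j)) (x (s.nw a j))) +
  ∑ a, ∑ j ∈ Finset.range (M.length + 1), cw s M a j *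
    (∑ b, ∑ k ∈ Finset.range (M.length + 1), cw s M b k *
      tX w ((s.graft b k).graft (s.emb b k a) j) M h (fun _ x =>
        F (fun c => x ((s.graft b k).emb (s.emb b k a) j (s.emb b k c))) *
          S (s.shr a b (min j k)) (x ((s.graft b k).nw (s.emb b k a) j))
            (x ((s.graft b k).emb (s.emb b k a) j (s.nw b k)))) +
    ∑ i ∈ Finset.range (M.length - j + 1), dm (M.drop j) 0 i *
      tX w ((s.graft a j).graft (s.nw a j) (i + j)) M h fun _ x =>
        F (fun b => x ((s.graft a j).emb (s.nw a j) (i + j) (s.emb a j b))) *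
          S (i + j) (x ((s.graft a j).emb (s.nw a j) (i + j) (s.nw a j)))
            (x ((s.graft a j).nw (s.nw a j) (i + j))))

/-- **the smart path on a replica tree** -/
theorem hasDerivAt_tX_t (hw : Wt w) {I : Set ℝ} (hI : IsOpen I) {L : List (TL Ω)}
    (hL : ∀ l ∈ L, l.C1 I) {u : ℝ} (hu : u ∈ I) (s : Sh) (h : Ω → ℝ) (F : (s.Lf → Ω) → ℝ) :
    HasDerivAt (fun t => tX w s (atL L t) h fun _ x => F x)
      (dT w s (atL L u) h (Sacc L u) F) u := by
  obtain ⟨a, c, hac, hs⟩ := exists_Icc_mem_subset_of_mem_nhds (hI.mem_nhds hu)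
  have hu' : u ∈ Ioo a c := by
    have := mem_interior_iff_mem_nhds.2 hs.1
    rwa [interior_Icc] at this
  have hD := fun l hl => (hL l hl).okD hs.2
  refine (Sp38.hasDerivAt_raw hw isOpen_Ioo hD hu' s h F).congr_deriv ?_
  rw [Sp38.raw_eq hw isOpen_Ioo hD hu', dT]
  simp only [Sp38.t1_eq hw, Sp38.len_at]
  have hc := Finset.sum_comm (s := Finset.univ) (t := Finset.univ) (f := fun a b =>
      ∑ k ∈ Finset.range (L.length + 1), cw s (atL L u) b k *
        tX w (s.graft b k) (atL L u) h fun _ x => F (fun c => x (s.emb b k c)) *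
          Sacc L u (s.shr a b k) (x (s.emb b k a)) (x (s.nw b k)))
  rw [Finset.sum_sub_distrib, hc, sub_sub, sub_add]
  congr 1
  rw [← Finset.sum_add_distrib, ← Finset.sum_sub_distrib]
  refine Finset.sum_congr rfl fun a _ => ?_
  rw [Finset.sum_comm, ← Finset.sum_add_distrib, ← Finset.sum_sub_distrib]
  refine Finset.sum_congr rfl fun j hj => ?_
  have hj' := Nat.lt_succ_iff.1 (Finset.mem_range.1 hj)
  have e2 := Sp38.t2_eq hw isOpen_Ioo hD hu' s h F a hj'
  rw [Sp38.t3_eq hw s h F a hj', ← Finset.mul_sum, ← mul_add, ← mul_sub]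
  congr 1
  linarith

end Crest.Agent.T156.Cas

end
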