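import Crest.Agent.T156.Cav_22
import Crest.Agent.T156.CaTayB_38
import Crest.Agent.T156.Nu_87
import Crest.Agent.T156.One_15

/-!
# Row 156 (helper15): tree expectations as functions of the node times

First and mixed second differences of `TE` between cascades with the same tilts; deleting a level
of variance zero; moving nodes of a replica tree by one level; the same with the parity gain.
-/

set_option autoImplicit false
set_option linter.unusedSectionVars false

noncomputable section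

namespace Crest.Agent.T156.Cas

open MeasureTheory Real Set Filter Topology
open Crest.Agent.T157.E Crest.Agent.T157.Casc Crest.Agent.T157.SL
open Crest.Agent.T157.Casc.C (Same Rk1 lp_X)
open Crest.Agent.R339.Var (TT)
open Crest.ProbabilityR.SpinGlassDynamics (spin)

/-- delete the level at depth `j` -/
def Sh.del : Sh → ℕ → Sh
  | .one, _ => .one
  | .step s, 0 => s
  | .step s, j + 1 => .step (s.del j)
  | .split s t, j => .split (s.del j) (t.del j)

/-- the leaves of `s.del j` are the leaves of `s` -/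
def Sh.delL : (s : Sh) → (j : ℕ) → s.Lf → (s.del j).Lf
  | .one, _, a => a
  | .step _, 0, a => a
  | .step s, j + 1, a => s.delL j a
  | .split s _, j, .inl a => .inl (s.delL j a)
  | .split _ t, j, .inr a => .inr (t.delL j a)

namespace Ker15

variable {Ω : Type}

/-! ### the segment between two cascades with the same tilts -/

/-- the level of variance zero -/
def z0 (Ω : Type) (m : ℝ) : Lv Ω := ⟨Empty, fun _ => Empty.elim, m⟩

theorem z0_cov (m : ℝ) (x y : Ω) : (z0 Ω m).cov x y = 0 := by simp [z0, Lv.cov]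

/-- same tilts -/
abbrev ST (M M' : List (Lv Ω)) : Prop := M.map Lv.m = M'.map Lv.m

/-- the linear path from `M` to `M'` -/
def sgm (M M' : List (Lv Ω)) : List (IL Ω) := List.zipWith (fun l l' => ⟨z0 Ω l.m, l', l⟩) M M'

/-- the point `t` of the segment -/
def mid (M M' : List (Lv Ω)) (t : ℝ) : List (Lv Ω) := ipl (sgm M M') t

/-- the change of the accumulated covariance -/
def dC (M M' : List (Lv Ω)) (j : ℕ) (x y : Ω) : ℝ := cacc M' j x y - cacc M j x y

/-- the kernel of the marked edge -/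
def hK (M M' : List (Lv Ω)) (j : ℕ) (x y : Ω) : ℝ := 1 / 2 * dC M M' j x y

theorem sgm_spec : ∀ {M M' : List (Lv Ω)}, ST M M' → (sgm M M').map IL.k1 = M' ∧
    (sgm M M').map IL.k0 = M ∧ ST ((sgm M M').map IL.b) M ∧
    ∀ c ∈ sgm M M', c.b = z0 Ω c.k0.m ∧ c.k1.m = c.k0.m
  | [], [], _ => ⟨rfl, rfl, rfl, by simp [sgm]⟩
  | [], _ :: _, H => by simp [ST] at H
  | _ :: _, [], H => by simp [ST] at H
  | l :: M, l' :: M', H => by
    simp only [ST, List.map_cons, List.cons.injEq] at H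
    obtain ⟨h1, h2, h3, h4⟩ := sgm_spec H.2
    refine ⟨congrArg (l' :: ·) h1, congrArg (l :: ·) h2, congrArg (l.m :: ·) h3, fun c hc => ?_⟩
    rcases List.mem_cons.1 hc with rfl | hc
    · exact ⟨rfl, H.1.symm⟩
    · exact h4 c hc

variable [Fintype Ω] {w : Ω → ℝ} {M M' A B C D L : List (Lv Ω)}

theorem ST.len (H : ST M M') : M.length = M'.length := Cav22.len_tilt H

theorem len_sgm (H : ST M M') : (sgm M M').length = M.length := by
  simpa using congrArg List.length (sgm_spec H).2.1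

theorem st_mid (H : ST M M') (t : ℝ) : ST (mid M M' t) M :=
  (tilt_ipl _ t).trans (sgm_spec H).2.2.1

theorem iD_sgm (H : ST M M') : iD (sgm M M') = dC M M' := by
  funext j x y
  rw [iD_eq, (sgm_spec H).1, (sgm_spec H).2.1, dC]

theorem same0 (H : ST M M') : List.Forall₂ Same (mid M M' 0) M := by
  have := same_ipl (sgm M M') (t := 0) ⟨le_rfl, zero_le_one⟩ IL.k0 fun c hc => by
    rw [((sgm_spec H).2.2.2 c hc).1]
    exact ⟨rfl, fun x y => by rw [z0_cov]; ring⟩
  rwa [(sgm_spec H).2.1] at this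

theorem same1 (H : ST M M') : List.Forall₂ Same (mid M M' 1) M' := by
  have := same_ipl (sgm M M') (t := 1) ⟨zero_le_one, le_rfl⟩ IL.k1 fun c hc => by
    rw [((sgm_spec H).2.2.2 c hc).1]
    exact ⟨((sgm_spec H).2.2.2 c hc).2, fun x y => by rw [z0_cov]; ring⟩
  rwa [(sgm_spec H).1] at this

theorem cacc_mid {t : ℝ} (ht : t ∈ Icc (0 : ℝ) 1) (x y : Ω) : ∀ {M M' : List (Lv Ω)}, ST M M' →
    ∀ j, cacc (mid M M' t) j x y = cacc M j x y + t * dC M M' j x y
  | [], [], _, j => by simp [mid, sgm, ipl, atL, cacc, dC]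
  | [], _ :: _, H, _ => by simp [ST] at H
  | _ :: _, [], H, _ => by simp [ST] at H
  | _ :: _, _ :: _, _, 0 => by simp [cacc, dC]
  | l :: M, l' :: M', H, j + 1 => by
    simp only [ST, List.map_cons, List.cons.injEq] at H
    have ih := cacc_mid ht x y H.2 j
    have e : mid (l :: M) (l' :: M') t = (IL.tl ⟨z0 Ω l.m, l', l⟩).at t :: mid M M' t := rfl
    rw [e, Sd.cacc_cons, IL.cov_at _ ht, ih, z0_cov]
    simp only [dC, Sd.cacc_cons]
    ring

theorem dC_mid {t : ℝ} (ht : t ∈ Icc (0 : ℝ) 1) (h1 : ST A C) (h2 : ST B D)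
    (hp : dC B D = dC A C) : dC (mid A C t) (mid B D t) = dC A B := by
  funext j x y
  rw [dC, cacc_mid ht x y h1, cacc_mid ht x y h2, hp, dC]
  simp only [dC]
  ring

theorem der_mid (hw : Wt w) (H : ST M M') {c : ℝ} (hc : ∀ y, dC M M' M.length y y = c) (s : Sh)
    (h : Ω → ℝ) (F : (s.Lf → Ω) → ℝ) {t : ℝ} (ht : t ∈ Ioo (0 : ℝ) 1) :
    HasDerivAt (fun t => TE w s (mid M M' t) h F)
      (sg (-1) M s fun τ => TE w τ.sh (mid M M' t) h (τ.ev (hK M M') F)) t := by
  have := hasDerivAt_iDn hw (sgm M M') h (c := c) (by rw [len_sgm H, iD_sgm H]; exact hc) ht 0 s F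
  refine this.congr_deriv ?_
  rw [← sg_tilt _ (sgm_spec H).2.2.1]
  simp only [iDn, itE, iD_sgm H]
  rfl

theorem cont_mid (hw : Wt w) (M M' : List (Lv Ω)) (s : Sh) (h : Ω → ℝ) (F : (s.Lf → Ω) → ℝ) :
    ContinuousOn (fun t => TE w s (mid M M' t) h F) (Icc 0 1) :=
  continuousOn_iDn hw (sgm M M') h 0 s F

/-- **first difference, exact form** -/
theorem ker1_eq (hw : Wt w) (H : ST M M') {c : ℝ} (hc : ∀ y, dC M M' M.length y y = c) (s : Sh)
    (h : Ω → ℝ) (F : (s.Lf → Ω) → ℝ) : ∃ θ ∈ Ioo (0 : ℝ) 1, TE w s M' h F - TE w s M h F =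
      sg (-1) M s fun τ => TE w τ.sh (mid M M' θ) h (τ.ev (hK M M') F) := by
  obtain ⟨θ, hθ, e⟩ := exists_hasDerivAt_eq_slope _ _ zero_lt_one (cont_mid hw M M' s h F)
    fun t ht => der_mid hw H hc s h F ht
  refine ⟨θ, hθ, ?_⟩
  rw [e, Law.TE_same hw s (same0 H), Law.TE_same hw s (same1 H), sub_zero, div_one]

/-- **first difference, term by term** -/
theorem ker1_sg (hw : Wt w) (hM : Mono 0 M) (H : ST M M') {c : ℝ}
    (hc : ∀ y, dC M M' M.length y y = c) (s : Sh) (h : Ω → ℝ) (F : (s.Lf → Ω) → ℝ) {Ψ : GT s → ℝ}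
    (hΨ : ∀ θ ∈ Ioo (0 : ℝ) 1, ∀ τ : GT s, τ.Mem s M.length →
      |TE w τ.sh (mid M M' θ) h (τ.ev (hK M M') F)| ≤ Ψ τ) :
    |TE w s M' h F - TE w s M h F| ≤ sg 1 M s Ψ := by
  obtain ⟨θ, hθ, e⟩ := ker1_eq hw H hc s h F
  rw [e]
  exact abs_sg_le hM s (hΨ θ hθ)

theorem abs_ev {s : Sh} (τ : GT s) {K : ℕ → Ω → Ω → ℝ} {F : (s.Lf → Ω) → ℝ} {b g : ℝ}
    (hF : ∀ x, |F x| ≤ b) (hK : ∀ x y, |K τ.j x y| ≤ g) (x : τ.sh.Lf → Ω) :
    |τ.ev K F x| ≤ b * g := by
  rw [GT.ev, abs_mul]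
  exact mul_le_mul (hF _) (hK _ _) (abs_nonneg _) ((abs_nonneg _).trans (hF fun c => x (τ.e c)))

theorem abs_hK {j : ℕ} {g : ℝ} {x y : Ω} (h : |dC M M' j x y| ≤ g) : |hK M M' j x y| ≤ g / 2 := by
  rw [hK, abs_mul, abs_of_pos (by norm_num : (0 : ℝ) < 1 / 2)]
  linarith

theorem sg_le {Θ : Type} (M : List (Lv Θ)) (s : Sh) {N : ℕ} (hN : Fintype.card s.Lf ≤ N) {a : ℝ}
    (ha : 0 ≤ a) : sg 1 M s (fun _ => a) ≤ 4 * N ^ 2 * a := by
  rw [sg_const]
  have : (Fintype.card s.Lf : ℝ) ≤ N := Nat.cast_le.2 hN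
  calc _ = 4 * (Fintype.card s.Lf : ℝ) ^ 2 * a := by ring
    _ ≤ _ := by gcongr

/-- **(Ker1)** `TE` is Lipschitz in the node times, uniformly in the number of levels -/
theorem ker1 (hw : Wt w) (hM : Mono 0 M) (H : ST M M') {c : ℝ}
    (hc : ∀ y, dC M M' M.length y y = c) (s : Sh) {N : ℕ} (hN : Fintype.card s.Lf ≤ N) (h : Ω → ℝ)
    {F : (s.Lf → Ω) → ℝ} {b g : ℝ} (hF : ∀ x, |F x| ≤ b)
    (hg : ∀ j ≤ M.length, ∀ x y, |dC M M' j x y| ≤ g) :
    |TE w s M' h F - TE w s M h F| ≤ 2 * N ^ 2 * (b * g) := by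
  obtain ⟨y, -⟩ := Finset.nonempty_of_sum_ne_zero hw.2.ne'
  have b0 : 0 ≤ b := (abs_nonneg _).trans (hF fun _ => y)
  have g0 : 0 ≤ g := (abs_nonneg _).trans (hg 0 (Nat.zero_le _) y y)
  refine (ker1_sg hw hM H hc s h F (Ψ := fun _ => b * (g / 2)) fun θ _ τ hτ =>
    One15.abs_TE_le hw _ _ h (abs_ev τ hF fun x y => abs_hK (hg _ hτ.le x y))).trans
    ((sg_le M s hN (by positivity)).trans_eq (by ring))

/-- the total weight of the terms, level by level -/
theorem sg_lvl {Θ : Type} {M : List (Lv Θ)} (hM : Mono 0 M) (s : Sh) {g : ℕ → ℝ}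
    (hg : ∀ j, 0 ≤ g j) :
    sg 1 M s (fun τ => g τ.j) ≤ 10 * (Fintype.card s.Lf : ℝ) ^ 2 * Nv M g s := by
  have V0 := Tay38.Nv_nonneg hM hg s
  have r1 := Tay38.one_le_card s
  have p1 : ∀ a b, a ≠ b → g (s.shr a b M.length) ≤ Nv M g s := fun a b hab =>
    (Tay38.le_prs s (G := fun a b => g (s.shr a b M.length)) (fun _ _ => hg _) hab).trans
      (le_add_of_nonneg_right (Tay38.N0_nonneg hM hg))
  have p2 : ∀ a b j, j ≤ M.length → |g (s.shr a b j)| ≤ Nv M g s + g j := fun a b j hj => by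
    rw [abs_of_nonneg (hg _)]
    rcases Tay38.shr_cases s a b hj with e | ⟨hab, e⟩ <;> rw [e]
    · exact le_add_of_nonneg_left V0
    · exact (p1 a b hab).trans (le_add_of_nonneg_right (hg _))
  have b0 := Tay38.abs_sum_le_card (X := fun a => ∑ b ∈ Finset.univ.erase a,
    g (s.shr a b M.length)) (c := Fintype.card s.Lf * Nv M g s) fun a => by
      rw [abs_of_nonneg (Finset.sum_nonneg fun _ _ => hg _)]
      refine (Finset.sum_le_card_nsmul _ _ _ fun b hb =>
        p1 a b (Finset.ne_of_mem_erase hb).symm).trans ?_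
      rw [nsmul_eq_mul]
      exact mul_le_mul_of_nonneg_right (Nat.cast_le.2 (Finset.card_le_univ _)) V0
  have b1 := Tay38.sum_cw_aff hM hg s (X := fun a j => ∑ b, g (s.shr b a j) + ∑ b, g (s.shr a b j))
    (α := 2 * Fintype.card s.Lf * Nv M g s) (β := 2 * Fintype.card s.Lf) (by positivity)
    fun a j hj => (abs_add_le _ _).trans (by
      linarith [Tay38.abs_sum_le_card fun b => p2 b a j hj,
        Tay38.abs_sum_le_card fun b => p2 a b j hj])
  have b2 := Tay38.sum_cw_aff hM hg s (X := fun a j =>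
    ∑ b, ∑ k ∈ Finset.range (M.length + 1), cw s M b k * g (s.shr a b (min j k)) +
      ∑ i ∈ Finset.range (M.length - j + 1), dm (M.drop j) 0 i * g (i + j))
    (α := (2 * Fintype.card s.Lf + 1) * Nv M g s) (β := Fintype.card s.Lf + 1) (by positivity)
    fun a j hj => (abs_add_le _ _).trans (by
      have h1 := Tay38.sum_cw_aff hM hg s (X := fun b k => g (s.shr a b (min j k)))
        (α := Nv M g s + g j) (β := 1) zero_le_one fun b k hk =>
          (p2 a b _ ((min_le_left _ _).trans hj)).trans (by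
            rcases min_choice j k with e | e <;> rw [e] <;> linarith [hg j, hg k])
      have h2 := Tay38.sum_dm_le hM hg s hj
      rw [abs_of_nonneg (Finset.sum_nonneg fun i _ =>
        mul_nonneg (dm_nonneg (Cav22.mono_drop j hM) i) (hg _))]
      linarith)
  have h3 := mul_nonneg (mul_nonneg (zero_le_one.trans r1) (sub_nonneg.2 r1)) V0
  have e := add_le_add (add_le_add (le_of_abs_le b0) (le_of_abs_le b1)) (le_of_abs_le b2)
  rw [sg, one_mul]
  exact e.trans (by nlinarith)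


/-- **mixed second difference, term by term**: `A`, `B`, `C`, `D` is a parallelogram -/
theorem ker2_sg (hw : Wt w) (hM : Mono 0 A) (hB : ST A B) (hC : ST A C) (hD : ST A D)
    (hp : dC B D = dC A C) {c c' : ℝ} (hc : ∀ y, dC A B A.length y y = c)
    (hc' : ∀ y, dC A C A.length y y = c') (s : Sh) (h : Ω → ℝ) (F : (s.Lf → Ω) → ℝ)
    {Ψ : (τ : GT s) → GT τ.sh → ℝ}
    (hΨ : ∀ θ ∈ Ioo (0 : ℝ) 1, ∀ θ' ∈ Ioo (0 : ℝ) 1, ∀ τ : GT s, τ.Mem s A.length →
      ∀ τ' : GT τ.sh, τ'.Mem τ.sh A.length → |TE w τ'.sh (mid (mid A C θ) (mid B D θ) θ') h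
        (τ'.ev (hK A B) (τ.ev (hK A C) F))| ≤ Ψ τ τ') :
    |TE w s D h F - TE w s B h F - (TE w s C h F - TE w s A h F)| ≤
      sg 1 A s fun τ => sg 1 A τ.sh (Ψ τ) := by
  have hBD : ST B D := hB.symm.trans hD
  have e1 : hK B D = hK A C := by funext j x y; rw [hK, hK, hp]
  obtain ⟨θ, hθ, e⟩ := exists_hasDerivAt_eq_slope _ _ zero_lt_one
    ((cont_mid hw B D s h F).sub (cont_mid hw A C s h F)) fun t ht =>
      (der_mid hw hBD (c := c') (by rw [hp, ← hB.len]; exact hc') s h F ht).sub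
        (der_mid hw hC hc' s h F ht)
  simp only [Pi.sub_apply, Law.TE_same hw s (same0 hBD), Law.TE_same hw s (same1 hBD),
    Law.TE_same hw s (same0 hC), Law.TE_same hw s (same1 hC), sub_zero, div_one] at e
  rw [show ∀ a b c d : ℝ, a - b - (c - d) = a - c - (b - d) from fun _ _ _ _ => by ring, ← e,
    ← sg_tilt _ hB, e1, ← sg_sub]
  refine abs_sg_le hM s fun τ hτ => ?_
  have h1 := st_mid hC θ
  have h2 := dC_mid (Ioo_subset_Icc_self hθ) hC hBD hp
  have e2 : hK (mid A C θ) (mid B D θ) = hK A B := by funext j x y; rw [hK, hK, h2]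
  rw [← sg_tilt _ h1]
  refine ker1_sg hw (Cav22.mono_tilt h1.symm hM) (h1.trans (hB.trans (st_mid hBD θ).symm)) (c := c)
    (by rw [h2, h1.len]; exact hc) τ.sh h _ fun θ' hθ' τ' hτ' => ?_
  rw [e2]
  exact hΨ θ hθ θ' hθ' τ hτ τ' (h1.len ▸ hτ')

theorem sg2_le {Θ : Type} {M : List (Lv Θ)} (hM : Mono 0 M) (s : Sh) {N : ℕ}
    (hN : Fintype.card s.Lf ≤ N) {a : ℝ} (ha : 0 ≤ a) :
    sg 1 M s (fun τ => sg 1 M τ.sh fun _ => a) ≤ 16 * N ^ 2 * (N + 2) ^ 2 * a := by
  refine (sg_mono zero_le_one hM s (Ψ := fun _ => 4 * (N + 2 : ℕ) ^ 2 * a) fun τ hτ =>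
    sg_le M _ (hτ.card.trans (by omega)) ha).trans ((sg_le M s hN (by positivity)).trans_eq ?_)
  push_cast
  ring

/-- **(Ker2)** mixed second differences -/
theorem ker2 (hw : Wt w) (hM : Mono 0 A) (hB : ST A B) (hC : ST A C) (hD : ST A D)
    (hp : dC B D = dC A C) {c c' : ℝ} (hc : ∀ y, dC A B A.length y y = c)
    (hc' : ∀ y, dC A C A.length y y = c') (s : Sh) {N : ℕ} (hN : Fintype.card s.Lf ≤ N) (h : Ω → ℝ)
    {F : (s.Lf → Ω) → ℝ} {b g g' : ℝ} (hF : ∀ x, |F x| ≤ b)
    (hg : ∀ j ≤ A.length, ∀ x y, |dC A B j x y| ≤ g)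
    (hg' : ∀ j ≤ A.length, ∀ x y, |dC A C j x y| ≤ g') :
    |TE w s D h F - TE w s B h F - (TE w s C h F - TE w s A h F)| ≤
      4 * N ^ 2 * (N + 2) ^ 2 * (b * g * g') := by
  obtain ⟨y, -⟩ := Finset.nonempty_of_sum_ne_zero hw.2.ne'
  have b0 : 0 ≤ b := (abs_nonneg _).trans (hF fun _ => y)
  have g0 : 0 ≤ g := (abs_nonneg _).trans (hg 0 (Nat.zero_le _) y y)
  have g0' : 0 ≤ g' := (abs_nonneg _).trans (hg' 0 (Nat.zero_le _) y y)
  refine (ker2_sg hw hM hB hC hD hp hc hc' s h F (Ψ := fun _ _ => b * (g' / 2) * (g / 2))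
    fun θ _ θ' _ τ hτ τ' hτ' => One15.abs_TE_le hw _ _ h (abs_ev τ'
      (abs_ev τ hF fun x y => abs_hK (hg' _ hτ.le x y)) fun x y => abs_hK (hg _ hτ'.le x y))).trans
    ((sg2_le hM s hN (by positivity)).trans_eq (by ring))

/-! ### deleting a level -/

/-- depth after deleting the level at depth `j` -/
def dn (j i : ℕ) : ℕ := if i ≤ j then i else i - 1

theorem delL_inj : ∀ (s : Sh) (j : ℕ), Function.Injective (s.delL j)
  | .one, _, _, _, e => e
  | .step _, 0, _, _, e => e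
  | .step s, j + 1, _, _, e => delL_inj s j e
  | .split s _, j, .inl _, .inl _, e => congrArg Sum.inl (delL_inj s j (Sum.inl_injective e))
  | .split _ t, j, .inr _, .inr _, e => congrArg Sum.inr (delL_inj t j (Sum.inr_injective e))
  | .split _ _, _, .inl _, .inr _, e => absurd e Sum.inl_ne_inr
  | .split _ _, _, .inr _, .inl _, e => absurd e Sum.inr_ne_inl

theorem shr_del : ∀ (s : Sh) (j : ℕ) (a b : s.Lf) (k : ℕ), j ≤ k →
    (s.del j).shr (s.delL j a) (s.delL j b) k = dn j (s.shr a b (k + 1))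
  | .one, j, _, _, k, h => by
    show k = dn j (k + 1)
    rw [dn, if_neg (by omega)]; rfl
  | .step s, 0, a, b, k, _ => by
    show s.shr a b k = dn 0 (s.shr a b k + 1)
    rw [dn, if_neg (by omega)]; rfl
  | .step _, j + 1, _, _, 0, h => absurd h (by omega)
  | .step s, j + 1, a, b, k + 1, h => by
    show (s.del j).shr (s.delL j a) (s.delL j b) k + 1 = dn (j + 1) (s.shr a b (k + 1) + 1)
    rw [shr_del s j a b k (by omega), dn, dn]
    split_ifs <;> omega
  | .split s _, j, .inl a, .inl b, k, h => shr_del s j a b k h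
  | .split _ t, j, .inr a, .inr b, k, h => shr_del t j a b k h
  | .split _ _, _, .inl _, .inr _, _, _ => (if_pos (Nat.zero_le _)).symm
  | .split _ _, _, .inr _, .inl _, _, _ => (if_pos (Nat.zero_le _)).symm

/-- **a level with constant features contracts the shape** -/
theorem TE_del (hw : Wt w) {l : Lv Ω} {a : l.ι → ℝ} (H : ∀ x, l.A x = a) (N : List (Lv Ω)) :
    ∀ (s : Sh) (M : List (Lv Ω)) (F : (s.Lf → Ω) → ℝ) (h : Ω → ℝ),
      TE w s (M ++ l :: N) h F =
        TE w (s.del M.length) (M ++ N) h fun x => F fun b => x (s.delL M.length b) := by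
  have hT := Law.P_tail hw (N := l :: N) (N' := N) (c := l.m * (∑ i, a i * a i) / 2)
    (fun z => C.step_of_const H (X_add_const hw N) z)
    (funext fun z => funext fun x => Law.tE_of_const H (Φ := fun z => P w N z x) (lp_X hw N)
      (fun z c => Law.P_shift hw c x N z) z)
  intro s
  induction s with
  | one =>
    intro M F h
    refine (Law.TE_one hw _ h _).trans ((Law.TE_one hw _ h _).trans ?_).symm
    rw [Pf, Pf, (hT M).2]
  | step s ih =>
    intro M F h
    cases M with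
    | nil =>
      exact (Law.TE_step hw s l N h _).trans
        (Law.tE_of_const H (lp_X hw N) (fun z c => Law.TE_shift hw c s N F z) h)
    | cons k M =>
      refine (Law.TE_step hw s k (M ++ l :: N) h _).trans
        ((Law.TE_step hw (s.del M.length) k (M ++ N) h _).trans ?_).symm
      rw [funext (hT M).1, Law.tE_add_const]
      exact congrArg (fun Ψ => tE _ _ Ψ h) (funext fun z => (ih M F z).symm)
  | split s t ihs iht =>
    intro M F h
    refine (Law.TE_split hw s t _ h _).trans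
      ((Law.TE_split hw (s.del M.length) (t.del M.length) _ h _).trans ?_).symm
    refine Eq.trans ?_ (ihs M _ h).symm
    congr 1
    funext x
    refine Eq.trans ?_ (iht M _ h).symm
    congr 1
    funext x'
    congr 1
    funext b
    cases b <;> rfl

/-- insert a level of variance zero before (`false`) or after (`true`) the level `j` -/
def rf : List (Lv Ω) → ℕ → Bool → List (Lv Ω)
  | [], _, _ => []
  | l :: L, 0, false => z0 Ω l.m :: l :: L
  | l :: L, 0, true => l :: z0 Ω l.m :: L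
  | l :: L, j + 1, b => l :: rf L j b

theorem rf_eq : ∀ (L : List (Lv Ω)) (j : ℕ) (b : Bool), j < L.length → ∃ m,
    rf L j b = L.take (j + b.toNat) ++ z0 Ω m :: L.drop (j + b.toNat)
  | [], _, _, h => absurd h (by simp)
  | l :: _, 0, false, _ => ⟨l.m, rfl⟩
  | l :: _, 0, true, _ => ⟨l.m, rfl⟩
  | l :: L, j + 1, b, h => by
    obtain ⟨m, e⟩ := rf_eq L j b (by simpa using h)
    exact ⟨m, by rw [rf, e, Nat.add_right_comm]; rfl⟩

theorem rf_len : ∀ (L : List (Lv Ω)) (j : ℕ) (b : Bool), j < L.length →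
    (rf L j b).length = L.length + 1
  | [], _, _, h => absurd h (by simp)
  | _ :: _, 0, false, _ => rfl
  | _ :: _, 0, true, _ => rfl
  | _ :: L, j + 1, b, h => congrArg (· + 1) (rf_len L j b (by simpa using h))

theorem st_rf : ∀ {L L' : List (Lv Ω)}, ST L L' → ∀ (j : ℕ) (b b' : Bool),
    ST (rf L j b) (rf L' j b')
  | [], [], _, _, _, _ => rfl
  | [], _ :: _, H, _, _, _ => by simp [ST] at H
  | _ :: _, [], H, _, _, _ => by simp [ST] at H
  | l :: L, l' :: L', H, 0, b, b' => by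
    simp only [ST, List.map_cons, List.cons.injEq] at H
    cases b <;> cases b' <;> simp [ST, rf, z0, H.1, H.2]
  | l :: L, l' :: L', H, j + 1, b, b' => by
    simp only [ST, List.map_cons, List.cons.injEq] at H
    exact congrArg₂ List.cons H.1 (st_rf H.2 j b b')

theorem mono_rf : ∀ {L : List (Lv Ω)} {m : ℝ}, Mono m L → ∀ (j : ℕ) (b : Bool), Mono m (rf L j b)
  | [], _, h, _, _ => h
  | _ :: _, _, h, 0, false => ⟨h.1, le_rfl, h.2⟩
  | _ :: _, _, h, 0, true => ⟨h.1, le_rfl, h.2⟩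
  | _ :: _, _, h, j + 1, b => ⟨h.1, mono_rf h.2 j b⟩

theorem cacc_rf (x y : Ω) : ∀ (L : List (Lv Ω)) (j : ℕ) (b : Bool) (i : ℕ),
    cacc (rf L j b) i x y = cacc L (dn (j + b.toNat) i) x y
  | [], _, _, _ => by simp [rf, cacc]
  | _ :: _, _, _, 0 => by simp [cacc, dn]
  | l :: L, 0, false, i + 1 => by
    rw [rf, Sd.cacc_cons, z0_cov, zero_add, dn, if_neg (by simp)]; rfl
  | l :: L, 0, true, 1 => by simp [rf, cacc, dn]
  | l :: L, 0, true, i + 2 => by
    rw [rf, Sd.cacc_cons, Sd.cacc_cons, z0_cov, zero_add, dn, if_neg (by simp)]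
    exact (Sd.cacc_cons l L i x y).symm
  | l :: L, j + 1, b, i + 1 => by
    have e : dn (j + 1 + b.toNat) (i + 1) = dn (j + b.toNat) i + 1 := by
      rw [dn, dn]; split_ifs <;> omega
    rw [rf, Sd.cacc_cons, cacc_rf x y L j b i, e, Sd.cacc_cons]

theorem TE_rf (hw : Wt w) {j : ℕ} (hj : j < L.length) (b : Bool) (s : Sh) (h : Ω → ℝ)
    (F : (s.Lf → Ω) → ℝ) : TE w s (rf L j b) h F =
      TE w (s.del (j + b.toNat)) L h fun x => F fun c => x (s.delL (j + b.toNat) c) := by
  obtain ⟨m, e⟩ := rf_eq L j b hj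
  have h1 : (L.take (j + b.toNat)).length = j + b.toNat :=
    List.length_take_of_le (by cases b <;> simp <;> omega)
  have := TE_del hw (l := z0 Ω m) (a := Empty.elim) (fun _ => rfl) (L.drop (j + b.toNat)) s
    (L.take (j + b.toNat)) F h
  rw [h1, List.take_append_drop] at this
  rw [e, this]

/-- the covariance of the level `j` -/
def cv (L : List (Lv Ω)) (j : ℕ) (x y : Ω) : ℝ := cacc L (j + 1) x y - cacc L j x y

theorem cv_eq : ∀ (L : List (Lv Ω)) (j : ℕ) (hj : j < L.length) (x y : Ω),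
    cv L j x y = L[j].cov x y
  | [], _, h, _, _ => absurd h (by simp)
  | l :: L, 0, _, x, y => by simp [cv, cacc]
  | l :: L, j + 1, h, x, y => by
    rw [List.getElem_cons_succ, ← cv_eq L j (by simpa using h), cv, cv, Sd.cacc_cons, Sd.cacc_cons]
    ring

theorem dC_rf (L : List (Lv Ω)) (j i : ℕ) (x y : Ω) :
    dC (rf L j false) (rf L j true) i x y = if i = j + 1 then cv L j x y else 0 := by
  rw [dC, cacc_rf, cacc_rf]
  split_ifs with h
  · rw [h, dn, dn, if_pos (by simp), if_neg (by simp)]; rfl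
  · have : dn (j + true.toNat) i = dn (j + false.toNat) i := by
      simp only [dn, Bool.toNat_true, Bool.toNat_false]; split_ifs <;> omega
    rw [this, sub_self]

theorem abs_ite {p : Prop} [Decidable p] {a v : ℝ} (h : |a| ≤ v) : |if p then a else 0| ≤ v := by
  split_ifs
  · exact h
  · rw [abs_zero]; exact (abs_nonneg _).trans h

/-- **node move, shape form**: the nodes of depth `j + 1` of `r` go from depth `j` to `j + 1` -/
theorem move_sh (hw : Wt w) (hM : Mono 0 L) {j : ℕ} (hj : j < L.length) (r : Sh) {N : ℕ}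
    (hN : Fintype.card r.Lf ≤ N) (h : Ω → ℝ) {F : (r.Lf → Ω) → ℝ} {b v : ℝ} (hF : ∀ x, |F x| ≤ b)
    (hv : ∀ x y, |cv L j x y| ≤ v) :
    |TE w r (rf L j true) h F - TE w r (rf L j false) h F| ≤ 2 * N ^ 2 * (b * v) :=
  ker1 hw (mono_rf hM j false) (st_rf rfl j false true) (c := 0)
    (fun y => by rw [dC_rf, rf_len L j _ hj, if_neg (by omega)]) r hN h hF
    fun i _ x y => by rw [dC_rf]; exact abs_ite (hv x y)

/-- two refinements -/
def rf2 (L : List (Lv Ω)) (j j' : ℕ) (b b' : Bool) : List (Lv Ω) := rf (rf L j' b') j b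

theorem dC_rf2 (L : List (Lv Ω)) {j j' : ℕ} (hjj : j < j') (b' : Bool) (i : ℕ) (x y : Ω) :
    dC (rf2 L j j' false b') (rf2 L j j' true b') i x y = if i = j + 1 then cv L j x y else 0 := by
  rw [rf2, rf2, dC_rf, cv, cacc_rf, cacc_rf, dn, dn, if_pos (by omega : j + 1 ≤ j' + b'.toNat),
    if_pos (by omega : j ≤ j' + b'.toNat)]
  rfl

theorem dC_rf2' (L : List (Lv Ω)) {j j' : ℕ} (hjj : j < j') (b : Bool) (i : ℕ) (x y : Ω) :
    dC (rf2 L j j' b false) (rf2 L j j' b true) i x y =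
      if i = j' + 2 then cv L j' x y else 0 := by
  rw [rf2, rf2, dC, cacc_rf x y (rf L j' true), cacc_rf x y (rf L j' false), ← dC, dC_rf]
  refine if_congr ?_ rfl rfl
  have : b.toNat ≤ 1 := Bool.toNat_le b
  rw [dn]
  split_ifs <;> omega

theorem rf2_len {j j' : ℕ} (hjj : j < j') (hj : j' < L.length) (b b' : Bool) :
    (rf2 L j j' b b').length = L.length + 2 := by
  rw [rf2, rf_len _ _ _ (by rw [rf_len _ _ _ hj]; omega), rf_len _ _ _ hj]

theorem st_rf2 (L : List (Lv Ω)) (j j' : ℕ) (b b' c c' : Bool) :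
    ST (rf2 L j j' b b') (rf2 L j j' c c') := st_rf (st_rf rfl j' b' c') j b c

theorem mono_rf2 (hM : Mono 0 L) (j j' : ℕ) (b b' : Bool) : Mono 0 (rf2 L j j' b b') :=
  mono_rf (mono_rf hM j' b') j b

/-- **two node moves, shape form** -/
theorem move2_sh (hw : Wt w) (hM : Mono 0 L) {j j' : ℕ} (hjj : j < j') (hj : j' < L.length) (r : Sh)
    {N : ℕ} (hN : Fintype.card r.Lf ≤ N) (h : Ω → ℝ) {F : (r.Lf → Ω) → ℝ} {b v v' : ℝ}
    (hF : ∀ x, |F x| ≤ b) (hv : ∀ x y, |cv L j x y| ≤ v) (hv' : ∀ x y, |cv L j' x y| ≤ v') :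
    |TE w r (rf2 L j j' true true) h F - TE w r (rf2 L j j' true false) h F -
      (TE w r (rf2 L j j' false true) h F - TE w r (rf2 L j j' false false) h F)| ≤
      4 * N ^ 2 * (N + 2) ^ 2 * (b * v * v') :=
  ker2 hw (mono_rf2 hM j j' false false) (st_rf2 L j j' _ _ _ _) (st_rf2 L j j' _ _ _ _)
    (st_rf2 L j j' _ _ _ _) (by funext i x y; rw [dC_rf2' L hjj, dC_rf2' L hjj]) (c := 0) (c' := 0)
    (fun y => by rw [dC_rf2 L hjj, rf2_len hjj hj, if_neg (by omega)])
    (fun y => by rw [dC_rf2' L hjj, rf2_len hjj hj, if_neg (by omega)]) r hN h hF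
    (fun i _ x y => by rw [dC_rf2 L hjj]; exact abs_ite (hv x y))
    fun i _ x y => by rw [dC_rf2' L hjj]; exact abs_ite (hv' x y)

/-! ### split matrices -/

section mat
variable {κ : Type}

/-- ultrametric matrices with diagonal `n` -/
structure Um (n : ℕ) (σ : κ → κ → ℕ) : Prop where
  self : ∀ a, σ a a = n
  comm : ∀ a b, σ a b = σ b a
  ultra : ∀ a b c, min (σ a b) (σ b c) ≤ σ a c

theorem um_sm (s : Sh) (e : κ → s.Lf) (n : ℕ) : Um n (sm s e n) :=
  ⟨fun _ => Wt87.shr_self _ _ _, fun _ _ => Wt87.shr_comm _ _ _ _,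
    fun _ _ _ => Wt87.shr_ultra _ _ _ _ _⟩

theorem Um.le {n : ℕ} {σ : κ → κ → ℕ} (H : Um n σ) (a b : κ) : σ a b ≤ n := by
  have := H.ultra a b a
  rwa [H.self, H.comm b a, min_self] at this

theorem Um.lab' [DecidableEq κ] {n : ℕ} {σ : κ → κ → ℕ} (H : Um n σ) (A : Finset κ) :
    ∃ (s : Sh) (e : κ → s.Lf), Fintype.card s.Lf ≤ max 1 A.card ∧
      (∀ a ∈ A, ∀ b ∈ A, e a = e b → a = b) ∧ ∀ a ∈ A, ∀ b ∈ A, sm s e n a b = σ a b := by
  induction A using Finset.induction_on with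
  | empty => exact ⟨.one, fun _ => (), le_max_left _ _, by simp, by simp⟩
  | insert x A hx ih =>
    rcases A.eq_empty_or_nonempty with rfl | hA
    · refine ⟨.one, fun _ => (), le_max_left _ _, by simp +contextual, fun a ha b hb => ?_⟩
      simp only [insert_empty_eq, Finset.mem_singleton] at ha hb
      rw [ha, hb, H.self]
      rfl
    obtain ⟨s, e, h1, h2, h3⟩ := ih
    obtain ⟨a₀, h0, hm⟩ := A.exists_max_image (σ x) hA
    have ne : ∀ a ∈ A, a ≠ x := fun a ha e => hx (e ▸ ha)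
    have key : ∀ b ∈ A, s.shr (e b) (e a₀) (min (σ x a₀) n) = σ x b := fun b hb => by
      have u1 := H.ultra x a₀ b
      have u2 := H.ultra b x a₀
      have u3 := hm b hb
      rw [Wt87.shr_min, show s.shr (e b) (e a₀) n = _ from h3 b hb a₀ h0]
      rw [H.comm a₀ b] at u1
      rw [H.comm b x] at u2
      omega
    refine ⟨s.graft (e a₀) (σ x a₀), fun c => if c = x then s.nw _ _ else s.emb _ _ (e c), ?_,
      fun a ha b hb => ?_, fun a ha b hb => ?_⟩
    · have := hA.card_pos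
      rw [Wt87.card_graft, Finset.card_insert_of_notMem hx]
      omega
    · beta_reduce
      rcases Finset.mem_insert.1 ha with rfl | ha' <;> rcases Finset.mem_insert.1 hb with rfl | hb'
      · exact fun _ => rfl
      · rw [if_pos rfl, if_neg (ne b hb')]
        exact fun e => absurd e.symm (Tay38.emb_ne _ _ _ _)
      · rw [if_pos rfl, if_neg (ne a ha')]
        exact fun e => absurd e (Tay38.emb_ne _ _ _ _)
      · rw [if_neg (ne a ha'), if_neg (ne b hb')]
        exact fun e => h2 a ha' b hb' (Tay38.emb_inj _ _ _ e)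
    · rcases Finset.mem_insert.1 ha with rfl | ha' <;> rcases Finset.mem_insert.1 hb with rfl | hb'
      · rw [sm, Wt87.shr_self, H.self]
      · rw [sm, if_pos rfl, if_neg (ne b hb'), Wt87.shr_nw', key b hb']
      · rw [sm, if_pos rfl, if_neg (ne a ha'), Wt87.shr_nw, key a ha', H.comm]
      · rw [sm, if_neg (ne a ha'), if_neg (ne b hb'), Wt87.shr_emb]
        exact h3 a ha' b hb'

variable [Fintype κ]

/-- **every ultrametric matrix is the split matrix of a tree** -/
theorem Um.lab {n : ℕ} {σ : κ → κ → ℕ} (H : Um n σ) : ∃ (s : Sh) (e : κ → s.Lf),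
    Fintype.card s.Lf ≤ max 1 (Fintype.card κ) ∧ Function.Injective e ∧ sm s e n = σ := by
  classical
  obtain ⟨s, e, h1, h2, h3⟩ := H.lab' Finset.univ
  exact ⟨s, e, h1, fun a b => h2 a (by simp) b (by simp),
    funext fun a => funext fun b => h3 a (by simp) b (by simp)⟩

/-- `σ'` is `σ` with some nodes of depth `j` moved to depth `j + 1` -/
def Mv (j : ℕ) (σ σ' : κ → κ → ℕ) : Prop := ∀ a b, σ' a b = σ a b ∨ (σ a b = j ∧ σ' a b = j + 1)

theorem TE_rf_lab (hw : Wt w) {j : ℕ} (hj : j < L.length) (b : Bool) {r s : Sh} {er : κ → r.Lf}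
    {e : κ → s.Lf} (hr : Function.Injective er) (he : Function.Injective e)
    (H : ∀ a c, sm s e L.length a c = dn (j + b.toNat) (sm r er (L.length + 1) a c)) (h : Ω → ℝ)
    (F : (κ → Ω) → ℝ) : TE w s L h (fun x => F fun a => x (e a)) =
      TE w r (rf L j b) h fun x => F fun a => x (er a) := by
  rw [TE_rf hw hj]
  refine TE_lab hw s _ L h he ((delL_inj r _).comp hr) (fun a c _ => (H a c).trans ?_) F
  exact (shr_del r _ _ _ _ (by have := Bool.toNat_le b; omega)).symm

/-- one move is a variance move on a refined tree -/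
theorem refine1 {n j : ℕ} (hj : j < n) {σ : Bool → κ → κ → ℕ} (hσ : ∀ b, Um n (σ b))
    (H : Mv j (σ false) (σ true)) : ∃ (r : Sh) (er : κ → r.Lf),
      Fintype.card r.Lf ≤ max 1 (Fintype.card κ) ∧ Function.Injective er ∧
      (∀ b a c, σ b a c = dn (j + b.toNat) (sm r er (n + 1) a c)) ∧
      ∀ i ≤ j, ∀ a c, i < sm r er (n + 1) a c ↔ i < σ true a c := by
  have U : Um (n + 1) fun a c => σ false a c + if j < σ true a c then 1 else 0 := by
    refine ⟨fun a => by rw [(hσ _).self, (hσ _).self, if_pos hj],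
      fun a c => by rw [(hσ _).comm a c, (hσ true).comm a c], fun a b c => ?_⟩
    have := (hσ false).ultra a b c
    have := (hσ true).ultra a b c
    have := H a b
    have := H b c
    have := H a c
    split_ifs <;> omega
  obtain ⟨r, er, h1, h2, h3⟩ := U.lab
  refine ⟨r, er, h1, h2, fun b a c => ?_, fun i hi a c => ?_⟩ <;> have := H a c <;> rw [h3]
  · cases b <;> simp only [dn, Bool.toNat_true, Bool.toNat_false] <;> split_ifs <;> omega
  · simp only []
    split_ifs <;> omega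

/-- two moves are variance moves on a twice refined tree -/
theorem refine2 {n j j' : ℕ} (hjj : j < j') (hj : j' < n) {σ : Bool → Bool → κ → κ → ℕ}
    (hσ : ∀ b b', Um n (σ b b')) (H : Mv j (σ false false) (σ true false))
    (H' : Mv j' (σ false false) (σ false true))
    (H2 : ∀ a c, σ true true a c + σ false false a c = σ true false a c + σ false true a c) :
    ∃ (r : Sh) (er : κ → r.Lf), Fintype.card r.Lf ≤ max 1 (Fintype.card κ) ∧
      Function.Injective er ∧
      (∀ b b' a c, σ b b' a c = dn (j' + b'.toNat) (dn (j + b.toNat) (sm r er (n + 2) a c))) ∧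
      ∀ i ≤ j, ∀ a c, i < sm r er (n + 2) a c ↔ i < σ true false a c := by
  have U : Um (n + 2) fun a c => σ false false a c + (if j < σ true false a c then 1 else 0) +
      if j' < σ false true a c then 1 else 0 := by
    refine ⟨fun a => by rw [(hσ _ _).self, (hσ _ _).self, (hσ _ _).self, if_pos hj,
        if_pos (hjj.trans hj)],
      fun a c => by rw [(hσ _ _).comm a c, (hσ true _).comm a c, (hσ _ true).comm a c],
      fun a b c => ?_⟩
    have := (hσ false false).ultra a b c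
    have := (hσ true false).ultra a b c
    have := (hσ false true).ultra a b c
    have := H a b
    have := H b c
    have := H a c
    have := H' a b
    have := H' b c
    have := H' a c
    split_ifs <;> omega
  obtain ⟨r, er, h1, h2, h3⟩ := U.lab
  refine ⟨r, er, h1, h2, fun b b' a c => ?_, fun i hi a c => ?_⟩ <;> have := H a c <;>
    have := H' a c <;> have := H2 a c <;> rw [h3]
  · cases b <;> cases b' <;> simp only [dn, Bool.toNat_true, Bool.toNat_false] <;> split_ifs <;>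
      omega
  · simp only []
    split_ifs <;> omega

theorem TE_rf2_lab (hw : Wt w) {j j' : ℕ} (hjj : j < j') (hj : j' < L.length) (b b' : Bool)
    {r s : Sh} {er : κ → r.Lf} {e : κ → s.Lf} (hr : Function.Injective er)
    (he : Function.Injective e) (H : ∀ a c, sm s e L.length a c =
      dn (j' + b'.toNat) (dn (j + b.toNat) (sm r er (L.length + 2) a c))) (h : Ω → ℝ)
    (F : (κ → Ω) → ℝ) : TE w s L h (fun x => F fun a => x (e a)) =
      TE w r (rf2 L j j' b b') h fun x => F fun a => x (er a) := by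
  have h1 := rf_len L j' b' hj
  rw [rf2, TE_rf hw (by omega)]
  refine TE_rf_lab hw hj b' ((delL_inj r _).comp hr) he (fun a c => (H a c).trans ?_) h F
  exact congrArg _ (shr_del r _ _ _ _ (by have := Bool.toNat_le b; omega)).symm

/-- **node move**: moving nodes from depth `j` to depth `j + 1` costs the variance of level `j` -/
theorem move1 (hw : Wt w) (hM : Mono 0 L) {j : ℕ} (hj : j < L.length) {s : Bool → Sh}
    {e : ∀ b, κ → (s b).Lf} (he : ∀ b, Function.Injective (e b))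
    (H : Mv j (sm _ (e false) L.length) (sm _ (e true) L.length)) {N : ℕ} (h1 : 1 ≤ N)
    (hN : Fintype.card κ ≤ N) (h : Ω → ℝ) {F : (κ → Ω) → ℝ} {b v : ℝ} (hF : ∀ x, |F x| ≤ b)
    (hv : ∀ x y, |cv L j x y| ≤ v) :
    |TE w (s true) L h (fun x => F fun a => x (e true a)) -
      TE w (s false) L h (fun x => F fun a => x (e false a))| ≤ 2 * N ^ 2 * (b * v) := by
  obtain ⟨r, er, c, hr, e1, -⟩ := refine1 hj (fun b => um_sm _ (e b) _) H
  simp only [fun b => TE_rf_lab hw hj b hr (he b) (e1 b) h F]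
  exact move_sh hw hM hj r (c.trans (max_le h1 hN)) h (fun x => hF _) hv

/-- **two node moves**: the mixed difference costs the product of the variances -/
theorem move2 (hw : Wt w) (hM : Mono 0 L) {j j' : ℕ} (hjj : j < j') (hj : j' < L.length)
    {s : Bool → Bool → Sh} {e : ∀ b b', κ → (s b b').Lf} (he : ∀ b b', Function.Injective (e b b'))
    (H : Mv j (sm _ (e false false) L.length) (sm _ (e true false) L.length))
    (H' : Mv j' (sm _ (e false false) L.length) (sm _ (e false true) L.length))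
    (H2 : ∀ a c, sm _ (e true true) L.length a c + sm _ (e false false) L.length a c =
      sm _ (e true false) L.length a c + sm _ (e false true) L.length a c) {N : ℕ} (h1 : 1 ≤ N)
    (hN : Fintype.card κ ≤ N) (h : Ω → ℝ) {F : (κ → Ω) → ℝ} {b v v' : ℝ} (hF : ∀ x, |F x| ≤ b)
    (hv : ∀ x y, |cv L j x y| ≤ v) (hv' : ∀ x y, |cv L j' x y| ≤ v') :
    |TE w (s true true) L h (fun x => F fun a => x (e true true a)) -
      TE w (s true false) L h (fun x => F fun a => x (e true false a)) -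
      (TE w (s false true) L h (fun x => F fun a => x (e false true a)) -
        TE w (s false false) L h (fun x => F fun a => x (e false false a)))| ≤
      4 * N ^ 2 * (N + 2) ^ 2 * (b * v * v') := by
  obtain ⟨r, er, c, hr, e1, -⟩ := refine2 hjj hj (fun b b' => um_sm _ (e b b') _) H H' H2
  simp only [fun b b' => TE_rf2_lab hw hjj hj b b' hr (he b b') (e1 b b') h F]
  exact move2_sh hw hM hjj hj r (c.trans (max_le h1 hN)) h (fun x => hF _) hv hv'

end mat

/-! ### one site: the parity gain is kept -/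

section site

open One15

variable {κ κ' : Type} {L M M' A B C D : List (Lv Bool)} {ℓ : List (ℝ × ℝ)}

/-- all levels are of rank one -/
def R1 (L : List (Lv Bool)) : Prop :=
  ∀ l ∈ L, ∃ v, 0 ≤ v ∧ ∀ a b, l.cov a b = v * (spin a * spin b)

/-- the time of depth `j` -/
def tm (L : List (Lv Bool)) (j : ℕ) : ℝ := cacc L j true true

theorem r1_of (H : List.Forall₂ (Rk1 spin) L ℓ) : R1 L := by
  induction H with
  | nil => intro l hl; simp at hl
  | cons h1 _ ih =>
    intro l hl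
    rcases List.mem_cons.1 hl with rfl | hl
    exacts [⟨_, h1.2⟩, ih l hl]

theorem R1.rk (H : R1 L) :
    List.Forall₂ (Rk1 spin) L (L.map fun l => (l.m, l.cov true true)) := by
  have := Lin22.forall₂_map (R := Rk1 spin) id (fun l => (l.m, l.cov true true)) L fun l hl => by
    obtain ⟨v, h1, h2⟩ := H l hl
    have e : l.cov true true = v := by rw [h2]; simp [spin]
    exact ⟨rfl, e ▸ h1, fun a b => (h2 a b).trans (by rw [e])⟩
  rwa [List.map_id] at this

theorem cacc_rk (H : List.Forall₂ (Rk1 spin) L ℓ) (x y : Bool) : ∀ j,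
    cacc L j x y = TT (ℓ.take j) * (spin x * spin y) := by
  induction H with
  | nil => intro j; simp [cacc, TT]
  | cons h1 _ ih =>
    intro j
    cases j with
    | zero => simp [cacc, TT]
    | succ j => rw [Sd.cacc_cons, ih, List.take_succ_cons, TT_cons, h1.2.2, add_mul]

theorem tm_eq (H : List.Forall₂ (Rk1 spin) L ℓ) (j : ℕ) : tm L j = TT (ℓ.take j) := by
  rw [tm, cacc_rk H]; simp [spin]

theorem R1.cacc (H : R1 L) (j : ℕ) (x y : Bool) : cacc L j x y = tm L j * (spin x * spin y) := by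
  rw [tm_eq H.rk, cacc_rk H.rk]

theorem R1.dC (H : R1 M) (H' : R1 M') (j : ℕ) (x y : Bool) :
    dC M M' j x y = (tm M' j - tm M j) * (spin x * spin y) := by
  rw [Ker15.dC, H.cacc, H'.cacc, sub_mul]

theorem R1.diag (H : R1 M) (H' : R1 M') (j : ℕ) (y : Bool) :
    Ker15.dC M M' j y y = tm M' j - tm M j := by rw [H.dC H', ← sq, One15.spin_sq, mul_one]

theorem R1.abs_dC (H : R1 M) (H' : R1 M') (j : ℕ) (x y : Bool) :
    |Ker15.dC M M' j x y| = |tm M' j - tm M j| := by
  rw [H.dC H', abs_mul, abs_mul, One15.abs_spin, One15.abs_spin, mul_one, mul_one]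

theorem R1.tm_mono : ∀ {L : List (Lv Bool)}, R1 L → ∀ {i j : ℕ}, i ≤ j → tm L i ≤ tm L j
  | [], _, _, _, _ => by simp [tm, Cas.cacc]
  | _ :: _, _, 0, 0, _ => le_rfl
  | l :: L, H, 0, j + 1, _ => by
    rw [tm_eq H.rk, tm_eq H.rk]
    exact TT_nonneg fun p hp => nn_of H.rk p (List.mem_of_mem_take hp)
  | l :: L, H, i + 1, j + 1, h => by
    have := R1.tm_mono (L := L) (fun k hk => H k (List.mem_cons_of_mem _ hk)) (Nat.le_of_succ_le_succ h)
    rw [tm, tm, Sd.cacc_cons, Sd.cacc_cons]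
    exact add_le_add le_rfl this

theorem R1.mid (H : R1 M) (H' : R1 M') (h : ST M M') {t : ℝ} (ht : t ∈ Icc (0 : ℝ) 1) :
    R1 (mid M M' t) := fun l hl => by
  rw [Ker15.mid, ipl_eq] at hl
  obtain ⟨c, hc, rfl⟩ := List.mem_map.1 hl
  obtain ⟨v, h1, h2⟩ := H c.k0 ((sgm_spec h).2.1 ▸ List.mem_map_of_mem hc)
  obtain ⟨v', h1', h2'⟩ := H' c.k1 ((sgm_spec h).1 ▸ List.mem_map_of_mem hc)
  refine ⟨t * v' + (1 - t) * v, add_nonneg (mul_nonneg ht.1 h1') (mul_nonneg (sub_nonneg.2 ht.2) h1),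
    fun a b => ?_⟩
  rw [c.cov_at ht, ((sgm_spec h).2.2.2 c hc).1, z0_cov, h2, h2']
  ring

theorem tm_mid (h : ST M M') {t : ℝ} (ht : t ∈ Icc (0 : ℝ) 1) (j : ℕ) :
    tm (mid M M' t) j = tm M j + t * (tm M' j - tm M j) := cacc_mid ht _ _ h j

theorem R1.rf : ∀ {L : List (Lv Bool)}, R1 L → ∀ (j : ℕ) (b : Bool), R1 (rf L j b)
  | [], H, _, _ => H
  | l :: L, H, 0, false => fun k hk => (List.mem_cons.1 hk).elim
      (fun e => ⟨0, le_rfl, fun a b => by rw [e, z0_cov, zero_mul]⟩) (H k)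
  | l :: L, H, 0, true => fun k hk => (List.mem_cons.1 hk).elim
      (fun e => H k (e ▸ List.mem_cons_self)) fun hk => (List.mem_cons.1 hk).elim
        (fun e => ⟨0, le_rfl, fun a b => by rw [e, z0_cov, zero_mul]⟩)
        fun hk => H k (List.mem_cons_of_mem _ hk)
  | l :: L, H, j + 1, b => fun k hk => (List.mem_cons.1 hk).elim
      (fun e => H k (e ▸ List.mem_cons_self))
      (R1.rf (L := L) (fun k hk => H k (List.mem_cons_of_mem _ hk)) j b k)

theorem od0_odd : ∀ (s : Sh) (k : s.Lf → ℕ), Odd (∑ a, k a) → 1 ≤ od0 s k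
  | .one, _, h => (if_pos h).ge
  | .step _, _, h => (if_pos h).ge
  | .split s t, k, h => by
    rw [Wt87.sum_split] at h
    rw [od0]
    rcases Nat.even_or_odd (∑ a : s.Lf, k (.inl a)) with h1 | h1
    · exact (od0_odd t _ ((Nat.odd_add'.1 h).2 h1)).trans (Nat.le_add_left _ _)
    · exact (od0_odd s _ h1).trans (Nat.le_add_right _ _)

theorem od_zero (s : Sh) (k : s.Lf → ℕ) (a : s.Lf) : od s k a 0 = od0 s k := by cases s <;> rfl

/-- **odd branches come in pairs** -/
theorem odd_pair : ∀ (s : Sh) (k : s.Lf → ℕ) (a : s.Lf) (j : ℕ), Odd (bd s k a j) →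
    Odd (∑ a, k a) ∨ ∃ i ≤ j, ∃ b, 2 ≤ od s k b i
  | .one, k, a, j, h => .inl (bd_one k a j ▸ h)
  | .step s, k, a, 0, h => .inl (bd_step_zero s k a ▸ h)
  | .step s, k, a, j + 1, h => (odd_pair s k a j (bd_step s k a j ▸ h)).imp_right
      fun ⟨i, hi, b, hb⟩ => ⟨i + 1, Nat.succ_le_succ hi, b, hb⟩
  | .split s t, k, .inl a, j, h => by
    rcases odd_pair s _ a j (bd_inl s t k a j ▸ h) with h1 | ⟨i, hi, b, hb⟩
    · rcases Nat.even_or_odd (∑ a : t.Lf, k (.inr a)) with h2 | h2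
      · exact .inl (Wt87.sum_split s t k ▸ h1.add_even h2)
      · exact .inr ⟨0, Nat.zero_le _, .inl a, add_le_add (od0_odd s _ h1) (od0_odd t _ h2)⟩
    · refine .inr ⟨i, hi, .inl b, ?_⟩
      cases i with
      | zero => exact (od_zero s _ b ▸ hb).trans (Nat.le_add_right _ _)
      | succ i => exact hb
  | .split s t, k, .inr a, j, h => by
    rcases odd_pair t _ a j (bd_inr s t k a j ▸ h) with h1 | ⟨i, hi, b, hb⟩
    · rcases Nat.even_or_odd (∑ a : s.Lf, k (.inl a)) with h2 | h2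
      · exact .inl (Wt87.sum_split s t k ▸ h2.add_odd h1)
      · exact .inr ⟨0, Nat.zero_le _, .inr a, add_le_add (od0_odd s _ h2) (od0_odd t _ h1)⟩
    · refine .inr ⟨i, hi, .inr b, ?_⟩
      cases i with
      | zero => exact (od_zero t _ b ▸ hb).trans (Nat.le_add_left _ _)
      | succ i => exact hb

/-- the size of a site factor with an odd branch at time `σ` -/
def PB (N : ℕ) (σ : ℝ) : ℝ := 16 * exp (1 / 2 + √σ) * N ^ 2 * σ

theorem PB_nonneg (N : ℕ) {σ : ℝ} (h : 0 < σ) : 0 ≤ PB N σ := by unfold PB; positivity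

/-- **(PAR)** one odd branch above a node of depth `j` costs `σ_j` -/
theorem par1 (H : R1 L) (hM : Mono 0 L) (s : Sh) (k : s.Lf → ℕ) {a : s.Lf} {j N : ℕ}
    (hN : Fintype.card s.Lf ≤ N) (ha : Odd (bd s k a j)) {σ : ℝ} (h0 : 0 < σ) (hσ : tm L j ≤ σ) :
    |TE (fun _ => 1) s L 0 (mo k)| ≤ PB N σ := by
  rcases odd_pair s k a j ha with h | ⟨i, hi, b, hb⟩
  · rw [TE_mo_odd (fl_of H.rk) s h, abs_zero]
    exact PB_nonneg N h0
  · refine (par H.rk hM s k b i hN hb h0 (tm_eq H.rk i ▸ (H.tm_mono hi).trans hσ)).trans_eq ?_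
    rw [mul_pow _ √σ, sq_sqrt h0.le, PB]
    norm_num [Nat.factorial]
    ring

/-- the exponents after relabelling -/
def pk [Fintype κ] [DecidableEq κ'] (e : κ → κ') (k : κ → ℕ) (c : κ') : ℕ :=
  ∑ a, if e a = c then k a else 0

theorem mo_pk [Fintype κ] [Fintype κ'] [DecidableEq κ'] (e : κ → κ') (k : κ → ℕ) (x : κ' → Bool) :
    mo k (fun a => x (e a)) = mo (pk e k) x := by
  simp only [mo, pk, ← Finset.prod_pow_eq_pow_sum]
  rw [Finset.prod_comm]
  simp [pow_ite, Finset.prod_ite_eq]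

theorem sum_pk [Fintype κ] [Fintype κ'] [DecidableEq κ'] (e : κ → κ') (k : κ → ℕ) (p : κ' → Prop)
    [DecidablePred p] : ∑ c, (if p c then pk e k c else 0) = ∑ a, if p (e a) then k a else 0 := by
  have : ∀ c, (if p c then pk e k c else 0) = ∑ a, if e a = c then (if p c then k a else 0) else 0 :=
    fun c => by split_ifs <;> simp [pk]
  simp only [this]
  rw [Finset.sum_comm]
  simp

/-- the exponents of a term -/
def kk {s : Sh} (τ : GT s) (k : s.Lf → ℕ) : τ.sh.Lf → ℕ :=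
  pk τ.e k + Pi.single τ.p 1 + Pi.single τ.q 1

theorem ev_mo {s : Sh} (τ : GT s) {K : ℕ → Bool → Bool → ℝ} {γ : ℝ}
    (hK : ∀ x y, K τ.j x y = γ * (spin x * spin y)) (c : ℝ) (k : s.Lf → ℕ) :
    τ.ev K (fun x => c * mo k x) = fun x => c * γ * mo (kk τ k) x := by
  funext x
  rw [GT.ev, hK, kk, mo_add, mo_add, mo_single, mo_single, mo_pk]
  ring

theorem bd_kk {s : Sh} {n : ℕ} {τ : GT s} (H : τ.Mem s n) (k : s.Lf → ℕ) (a : s.Lf) (i : ℕ) :
    bd τ.sh (kk τ k) (τ.e a) i = bd s k a i +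
      (if τ.sh.shr (τ.e a) τ.p (i + 1) = i + 1 then 1 else 0) +
      if τ.sh.shr (τ.e a) τ.q (i + 1) = i + 1 then 1 else 0 := by
  have h1 := sum_pk τ.e k fun c => τ.sh.shr (τ.e a) c (i + 1) = i + 1
  simp only [H.shr_e] at h1
  have h2 : ∀ (p : τ.sh.Lf) (P : τ.sh.Lf → Prop) [DecidablePred P],
      ∑ c, (if P c then (Pi.single p 1 : τ.sh.Lf → ℕ) c else 0) = if P p then 1 else 0 :=
    fun p P _ => by rw [Finset.sum_eq_single p (fun b _ hb => by simp [hb]) (by simp)]; simp
  simp only [bd, kk, Pi.add_apply, ite_add_zero, Finset.sum_add_distrib, h1, h2]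

/-- an edge above the node does not change the parity of a branch -/
theorem odd_kk {s : Sh} {n : ℕ} {τ : GT s} (H : τ.Mem s n) {k : s.Lf → ℕ} {a : s.Lf} {i : ℕ}
    (hi : i < τ.j) (h : Odd (bd s k a i)) : Odd (bd τ.sh (kk τ k) (τ.e a) i) := by
  have h1 := Wt87.shr_min τ.sh τ.p τ.q (i + 1) n
  rw [min_eq_left (hi.trans_le H.le), H.shr, min_eq_left hi] at h1
  rw [bd_kk H, Wt87.shr_congr τ.sh h1, add_assoc, ← two_mul]
  exact h.add_even (even_two_mul _)

theorem hK_r1 (H : R1 M) (H' : R1 M') (j : ℕ) (x y : Bool) :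
    hK M M' j x y = (tm M' j - tm M j) / 2 * (spin x * spin y) := by
  rw [hK, H.dC H']; ring

/-- one term of the variance response of a monomial -/
theorem TE_ev_mo (H : R1 M) (H' : R1 M') {s : Sh} (τ : GT s) (L : List (Lv Bool)) (z : Bool → ℝ)
    (c : ℝ) (k : s.Lf → ℕ) : TE (fun _ => 1) τ.sh L z (τ.ev (hK M M') fun x => c * mo k x) =
      c * ((tm M' τ.j - tm M τ.j) / 2) * TE (fun _ => 1) τ.sh L z (mo (kk τ k)) := by
  rw [ev_mo τ (hK_r1 H H' _), Law.TE_const_mul w1]

theorem one_mo [Fintype κ] (k : κ → ℕ) : mo k = fun x => 1 * mo k x := by simp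

/-- **(Ker1) with parity**: a move above the node keeps the factor `σ_i` -/
theorem ker1_par (H : R1 M) (H' : R1 M') (hM : Mono 0 M) (h : ST M M') (s : Sh) {N : ℕ}
    (hN : Fintype.card s.Lf ≤ N) {k : s.Lf → ℕ} {a : s.Lf} {i : ℕ} (ha : Odd (bd s k a i))
    {g σ : ℝ} (h0 : ∀ j ≤ i, tm M' j = tm M j) (hg : ∀ j ≤ M.length, |tm M' j - tm M j| ≤ g)
    (hp : 0 < σ) (hσ : tm M i ≤ σ) :
    |TE (fun _ => 1) s M' 0 (mo k) - TE (fun _ => 1) s M 0 (mo k)| ≤
      2 * N ^ 2 * (PB (N + 2) σ * g) := by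
  have g0 : 0 ≤ g := (abs_nonneg _).trans (hg 0 (Nat.zero_le _))
  have p0 := PB_nonneg (N + 2) hp
  refine (ker1_sg w1 hM h (H.diag H' _) s 0 _ (Ψ := fun _ => g / 2 * PB (N + 2) σ)
    fun θ hθ τ hτ => ?_).trans ((sg_le M s hN (by positivity)).trans_eq (by ring))
  have ht := Ioo_subset_Icc_self hθ
  rw [one_mo k, TE_ev_mo H H', one_mul, abs_mul]
  rcases le_or_gt τ.j i with hi | hi
  · rw [h0 _ hi, sub_self, zero_div, abs_zero, zero_mul]
    positivity
  · refine mul_le_mul (by rw [abs_div, abs_two]; linarith [hg _ hτ.le])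
      (par1 (H.mid H' h ht) (Cav22.mono_tilt (st_mid h θ).symm hM) _ _
        (hτ.card.trans (by omega)) (odd_kk hτ hi ha) hp ?_) (abs_nonneg _) (by positivity)
    rwa [tm_mid h ht, h0 i le_rfl, sub_self, mul_zero, add_zero]



variable [Fintype κ]

/-- degree of the branch of `a` above its node of depth `i`, from the split matrix -/
def bm (σ : κ → κ → ℕ) (k : κ → ℕ) (a : κ) (i : ℕ) : ℕ := ∑ c, if i < σ a c then k c else 0

theorem bd_pk (s : Sh) (e : κ → s.Lf) (k : κ → ℕ) (a : κ) {i n : ℕ} (hi : i < n) :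
    bd s (pk e k) (e a) i = bm (sm s e n) k a i := by
  rw [bd, sum_pk e k fun c => s.shr (e a) c (i + 1) = i + 1]
  refine Finset.sum_congr rfl fun c _ => if_congr ?_ rfl rfl
  have := Wt87.shr_min s (e a) (e c) (i + 1) n
  rw [min_eq_left hi] at this
  rw [sm]
  omega

/-- **(PAR), matrix form** -/
theorem par1_m (H : R1 L) (hM : Mono 0 L) {s : Sh} {e : κ → s.Lf} (he : Function.Injective e)
    {N : ℕ} (h1 : 1 ≤ N) (hN : Fintype.card κ ≤ N) {k : κ → ℕ} {a : κ} {i : ℕ} (hi : i < L.length)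
    (ha : Odd (bm (sm s e L.length) k a i)) {σ : ℝ} (h0 : 0 < σ) (hσ : tm L i ≤ σ) :
    |TE (fun _ => 1) s L 0 fun x => mo k fun a => x (e a)| ≤ PB N σ := by
  obtain ⟨r, er, c, hr, e1⟩ := (um_sm s e L.length).lab
  rw [TE_lab w1 s r L 0 he hr (fun a b _ => (congrFun (congrFun e1 a) b).symm) (mo k)]
  simp only [mo_pk er k]
  exact par1 H hM r _ (c.trans (max_le h1 hN)) (by rwa [bd_pk r er k a hi, e1]) h0 hσ

theorem tm_rf (L : List (Lv Bool)) (j : ℕ) (b : Bool) {i : ℕ} (hi : i ≤ j) :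
    tm (rf L j b) i = tm L i := by rw [tm, cacc_rf, dn, if_pos (by omega), tm]

theorem bm_congr {σ σ' : κ → κ → ℕ} {i : ℕ} (H : ∀ a c, i < σ a c ↔ i < σ' a c) (k : κ → ℕ)
    (a : κ) : bm σ k a i = bm σ' k a i := Finset.sum_congr rfl fun c _ => if_congr (H a c) rfl rfl

/-- **node move with parity**: an odd branch above a node of depth `i ≤ j` (after the move) -/
theorem move1_par (rL : R1 L) (hM : Mono 0 L) {j : ℕ} (hj : j < L.length) {s : Bool → Sh}
    {e : ∀ b, κ → (s b).Lf} (he : ∀ b, Function.Injective (e b))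
    (H : Mv j (sm _ (e false) L.length) (sm _ (e true) L.length)) {N : ℕ} (h1 : 1 ≤ N)
    (hN : Fintype.card κ ≤ N) {k : κ → ℕ} {a : κ} {i : ℕ} (hi : i ≤ j)
    (ha : Odd (bm (sm _ (e true) L.length) k a i)) {σ : ℝ} (h0 : 0 < σ) (hσ : tm L i ≤ σ) :
    |TE (fun _ => 1) (s true) L 0 (fun x => mo k fun a => x (e true a)) -
      TE (fun _ => 1) (s false) L 0 (fun x => mo k fun a => x (e false a))| ≤
      2 * N ^ 2 * (PB (N + 2) σ * (tm L (j + 1) - tm L j)) := by
  obtain ⟨r, er, c, hr, e1, e2⟩ := refine1 hj (fun b => um_sm _ (e b) _) H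
  simp only [fun b => TE_rf_lab w1 hj b hr (he b) (e1 b) 0 (mo k), mo_pk er k]
  refine ker1_par (rL.rf j _) (rL.rf j _) (mono_rf hM j false) (st_rf rfl j false true) r
    (c.trans (max_le h1 hN)) (a := er a) (i := i)
    (by rwa [bd_pk r er k a (by omega : i < L.length + 1), bm_congr (e2 i hi)])
    (fun i' hi' => by rw [tm_rf L j _ (hi'.trans hi), tm_rf L j _ (hi'.trans hi)])
    (fun i' _ => ?_) h0 (by rwa [tm_rf L j _ hi])
  exact (congrArg abs (dC_rf L j i' true true)).trans_le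
    (abs_ite (abs_of_nonneg (sub_nonneg.2 (rL.tm_mono j.le_succ))).le)


end site

end Ker15

end Crest.Agent.T156.Cas

end
private theorem rz_4e05d7340e : type_of% @_root_.Crest.Agent.T156.Cas.Ker15.rf.eq_def := @_root_.Crest.Agent.T156.Cas.Ker15.rf.eq_def -- L379
private theorem rz_238b460dd7 : type_of% @_root_.Crest.Agent.T156.Cas.Ker15.rf.eq_1 := @_root_.Crest.Agent.T156.Cas.Ker15.rf.eq_1 -- L379
private theorem rz_dd96591417 : type_of% @_root_.Crest.Agent.T156.Cas.Sh.del.eq_def := @_root_.Crest.Agent.T156.Cas.Sh.del.eq_def -- L27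
private theorem rz_6ae99f2542 : type_of% @_root_.Crest.Agent.T156.Cas.Sh.del.eq_1 := @_root_.Crest.Agent.T156.Cas.Sh.del.eq_1 -- L27
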