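import Crest.Agent.T156.CaSpB_38
import Crest.Agent.T156.CaLin_22
import Crest.Agent.T156.CaLaw_45

/-!
# Row 156: the second variation of a cascade is symmetric (helper55)

`V1 M S` is the first variation of `X` for the kernels `S` (`S j + (S j)ᵀ` is the derivative of
the covariance of the first `j` levels), `V2 M S T` the variation of `V1 M S` for the kernels `T`.
`V2_symm`: it is symmetric.  `V2_prd`: at a factorised model, a site test in a mixed direction is
the bulk mean of the direction times the one-site variation (the linearised equation is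
self-adjoint).
-/

set_option autoImplicit false
set_option linter.all false

noncomputable section

namespace Crest.Agent.T156.Cas.Adj55

open MeasureTheory Real Set Filter Topology
open Crest.Agent.T157.E Crest.Agent.T157.Casc Crest.Agent.T157.SL
open Crest.Agent.T157.Casc.C (Same addLv coLv)

/-! ### Schwarz at a corner -/


/-! ### the graft formula for an abstract functional -/

variable {Ω : Type}

/-- functionals of leaf functions -/
abbrev Fn (Ω : Type) : Type := (s : Sh) → ((s.Lf → Ω) → ℝ) → ℝ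

/-- `dT` with the tree expectation replaced by `E` -/
def dG (K : ℕ) (c : (s : Sh) → s.Lf → ℕ → ℝ) (d : ℕ → ℕ → ℝ) (E : Fn Ω) (s : Sh)
    (S : ℕ → Ω → Ω → ℝ) (F : (s.Lf → Ω) → ℝ) : ℝ :=
  ∑ a, ∑ b, E s (fun x => F x * S (s.shr a b K) (x a) (x b)) -
  ∑ a, ∑ j ∈ Finset.range (K + 1), c s a j *
    (∑ b, E (s.graft a j) (fun x => F (fun c => x (s.emb a j c)) *
        S (s.shr b a j) (x (s.emb a j b)) (x (s.nw a j))) +
      ∑ b, E (s.graft a j) (fun x => F (fun c => x (s.emb a j c)) *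
        S (s.shr a b j) (x (s.nw a j)) (x (s.emb a j b))) +
      E (s.graft a j) fun x => F (fun c => x (s.emb a j c)) *
        S K (x (s.nw a j)) (x (s.nw a j))) +
  ∑ a, ∑ j ∈ Finset.range (K + 1), c s a j *
    (∑ b, ∑ k ∈ Finset.range (K + 1), c s b k *
      E ((s.graft b k).graft (s.emb b k a) j) (fun x =>
        F (fun c => x ((s.graft b k).emb (s.emb b k a) j (s.emb b k c))) *
          S (s.shr a b (min j k)) (x ((s.graft b k).nw (s.emb b k a) j))
            (x ((s.graft b k).emb (s.emb b k a) j (s.nw b k)))) +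
    ∑ i ∈ Finset.range (K - j + 1), d j i *
      E ((s.graft a j).graft (s.nw a j) (i + j)) fun x =>
        F (fun b => x ((s.graft a j).emb (s.nw a j) (i + j) (s.emb a j b))) *
          S (i + j) (x ((s.graft a j).emb (s.nw a j) (i + j) (s.nw a j)))
            (x ((s.graft a j).nw (s.nw a j) (i + j))))

/-- the first variation with the tree expectation replaced by `E` -/
def vG (K : ℕ) (d : ℕ → ℝ) (E : Fn Ω) (S : ℕ → Ω → Ω → ℝ) : ℝ :=
  E .one (fun x => S K (x ()) (x ())) -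
    ∑ j ∈ Finset.range (K + 1), d j * E (Sh.two j) fun x => S j (x (Sh.twoL j)) (x (Sh.twoR j))

theorem cont_dG (K : ℕ) (c : (s : Sh) → s.Lf → ℕ → ℝ) (d : ℕ → ℕ → ℝ) (s : Sh)
    (S : ℕ → Ω → Ω → ℝ) (F : (s.Lf → Ω) → ℝ) : Continuous fun E : Fn Ω => dG K c d E s S F := by
  unfold dG
  fun_prop


theorem shr_le : ∀ (s : Sh) (a b : s.Lf) (j : ℕ), s.shr a b j ≤ j
  | .one, _, _, _ => le_rfl
  | .step _, _, _, 0 => le_rfl
  | .step s, a, b, j + 1 => Nat.succ_le_succ (shr_le s a b j)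
  | .split s _, .inl a, .inl b, j => shr_le s a b j
  | .split _ t, .inr a, .inr b, j => shr_le t a b j
  | .split _ _, .inl _, .inr _, _ => Nat.zero_le _
  | .split _ _, .inr _, .inl _, _ => Nat.zero_le _

theorem dG_congr {K : ℕ} (c : (s : Sh) → s.Lf → ℕ → ℝ) (d : ℕ → ℕ → ℝ) (E : Fn Ω) (s : Sh)
    {S S' : ℕ → Ω → Ω → ℝ} (H : ∀ j ≤ K, S j = S' j) (F : (s.Lf → Ω) → ℝ) :
    dG K c d E s S F = dG K c d E s S' F := by
  have h1 : ∀ a b j, j ≤ K → S (s.shr a b j) = S' (s.shr a b j) := fun a b j hj =>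
    H _ ((shr_le s a b j).trans hj)
  unfold dG
  congr 1
  · congr 1
    · simp only [h1 _ _ K le_rfl]
    · refine Finset.sum_congr rfl fun a _ => Finset.sum_congr rfl fun j hj => ?_
      simp only [h1 _ _ j (Nat.lt_succ_iff.1 (Finset.mem_range.1 hj)), H K le_rfl]
  · refine Finset.sum_congr rfl fun a _ => Finset.sum_congr rfl fun j hj => ?_
    have hj' := Nat.lt_succ_iff.1 (Finset.mem_range.1 hj)
    simp only [fun b k => h1 a b (min j k) ((min_le_left _ _).trans hj')]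
    congr 2
    refine Finset.sum_congr rfl fun i hi => ?_
    rw [H (i + j) (by have := Finset.mem_range.1 hi; omega)]


/-- linear functionals -/
def Lin (E : Fn Ω) : Prop := ∀ (s : Sh) (a b : ℝ) (F G : (s.Lf → Ω) → ℝ),
  E s (fun x => a * F x + b * G x) = a * E s F + b * E s G

theorem dG_linS {E : Fn Ω} (hE : Lin E) (K : ℕ) (c : (s : Sh) → s.Lf → ℕ → ℝ) (d : ℕ → ℕ → ℝ)
    (s : Sh) (a b : ℝ) (S T : ℕ → Ω → Ω → ℝ) (F : (s.Lf → Ω) → ℝ) :
    dG K c d E s (fun j x y => a * S j x y + b * T j x y) F =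
      a * dG K c d E s S F + b * dG K c d E s T F := by
  have e : ∀ u v z : ℝ, u * (a * v + b * z) = a * (u * v) + b * (u * z) := fun u v z => by ring
  simp only [dG, e, hE _ a b, mul_add, mul_sub, Finset.sum_add_distrib, Finset.mul_sum,
    mul_left_comm _ a, mul_left_comm _ b]
  ring





/-! ### lists with the same tilts -/

/-- same tilts -/
def ST (M M' : List (Lv Ω)) : Prop := List.Forall₂ (fun l l' : Lv Ω => l.m = l'.m) M M'

theorem ST.ex {M M' : List (Lv Ω)} (H : ST M M') : ∀ j, ex M j = ex M' j := by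
  induction H with
  | nil => exact fun _ => rfl
  | cons h _ ih => exact fun j => by cases j; exacts [h, ih _]

theorem ST.dm {M M' : List (Lv Ω)} (H : ST M M') (m0 : ℝ) (j : ℕ) : dm M m0 j = dm M' m0 j := by
  cases j <;> simp only [T157.Casc.dm, exP, H.ex]

theorem ST.cf : ∀ (s : Sh) {M M' : List (Lv Ω)}, ST M M' → ∀ (a : s.Lf) (j : ℕ),
    cf s M a j = cf s M' a j
  | .one, _, _, _, _, 0 => rfl
  | .one, _, _, H, _, j + 1 => H.dm 0 (j + 1)
  | .step _, _, _, .nil, _, _ => rfl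
  | .step _, _, _, .cons _ _, _, 0 => rfl
  | .step s, _, _, .cons h H, a, j + 1 => by
      refine (Sp38.cf_step s _ _ a j).trans (Eq.trans ?_ (Sp38.cf_step s _ _ a j).symm)
      rw [ST.cf s H a j, ST.ex H, h]
  | .split s _, _, _, H, .inl a, j => ST.cf s H a j
  | .split _ s, _, _, H, .inr a, j => ST.cf s H a j

theorem ST.cw {M M' : List (Lv Ω)} (H : ST M M') (s : Sh) (a : s.Lf) (j : ℕ) :
    cw s M a j = cw s M' a j := by rw [Cas.cw, Cas.cw, ST.cf s H, H.ex]

theorem ST.of_same {M M' : List (Lv Ω)} (H : List.Forall₂ Same M M') : ST M M' :=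
  H.imp fun _ _ h => h.1

theorem ST.map {α : Type*} (Z : List α) {f g : α → Lv Ω} (H : ∀ z, (f z).m = (g z).m) :
    ST (Z.map f) (Z.map g) := Lin22.forall₂_map f g Z fun z _ => H z

theorem ST.atL (L : List (TL Ω)) (t u : ℝ) : ST (atL L t) (atL L u) := ST.map L fun _ => rfl

/-- the graft formula with the weights of `M` -/
def dW (M : List (Lv Ω)) (E : Fn Ω) (S : ℕ → Ω → Ω → ℝ) : Fn Ω := fun s F =>
  dG M.length (fun s => cw s M) (fun j => dm (M.drop j) 0) E s S F

/-- the first variation with the weights of `M` -/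
def vW (M : List (Lv Ω)) (E : Fn Ω) (S : ℕ → Ω → Ω → ℝ) : ℝ := vG M.length (dm M 0) E S

theorem ST.dW {M M' : List (Lv Ω)} (H : ST M M') : dW M = dW M' := by
  funext E S s F
  have e1 : (fun s => Cas.cw s M) = fun s => Cas.cw s M' := by
    funext s a j; exact H.cw s a j
  have e2 : (fun j => T157.Casc.dm (M.drop j) 0) = fun j => T157.Casc.dm (M'.drop j) 0 := by
    funext j i; exact ST.dm (List.forall₂_drop j H) 0 i
  rw [Adj55.dW, Adj55.dW, e1, e2, H.length_eq]

theorem ST.vW {M M' : List (Lv Ω)} (H : ST M M') : vW M = vW M' := by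
  funext E S
  rw [Adj55.vW, Adj55.vW, H.length_eq, funext (H.dm 0)]

theorem cont_dW (M : List (Lv Ω)) (S : ℕ → Ω → Ω → ℝ) (s : Sh) (F : (s.Lf → Ω) → ℝ) :
    Continuous fun E : Fn Ω => dW M E S s F := cont_dG _ _ _ s S F


theorem dW_congr (M : List (Lv Ω)) (E : Fn Ω) (s : Sh) {S S' : ℕ → Ω → Ω → ℝ}
    (H : ∀ j ≤ M.length, S j = S' j) (F : (s.Lf → Ω) → ℝ) : dW M E S s F = dW M E S' s F :=
  dG_congr _ _ E s H F

theorem dW_linS {E : Fn Ω} (hE : Lin E) (M : List (Lv Ω)) (s : Sh) (a b : ℝ)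
    (S T : ℕ → Ω → Ω → ℝ) (F : (s.Lf → Ω) → ℝ) :
    dW M E (fun j x y => a * S j x y + b * T j x y) s F = a * dW M E S s F + b * dW M E T s F :=
  dG_linS hE _ _ _ s a b S T F



theorem der_dW (M : List (Lv Ω)) {E : ℝ → Fn Ω} {E' : Fn Ω} {u : ℝ} {I : Set ℝ}
    (H : ∀ s F, HasDerivWithinAt (fun t => E t s F) (E' s F) I u) (S : ℕ → Ω → Ω → ℝ) (s : Sh)
    (F : (s.Lf → Ω) → ℝ) : HasDerivWithinAt (fun t => dW M (E t) S s F) (dW M E' S s F) I u := by
  unfold dW dG
  refine ((HasDerivWithinAt.fun_sum fun _ _ => HasDerivWithinAt.fun_sum fun _ _ => H _ _).fun_sub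
    (HasDerivWithinAt.fun_sum fun _ _ => HasDerivWithinAt.fun_sum fun _ _ =>
      HasDerivWithinAt.const_mul _ ?_)).fun_add
    (HasDerivWithinAt.fun_sum fun _ _ => HasDerivWithinAt.fun_sum fun _ _ =>
      HasDerivWithinAt.const_mul _ ?_)
  · exact ((HasDerivWithinAt.fun_sum fun _ _ => H _ _).fun_add
      (HasDerivWithinAt.fun_sum fun _ _ => H _ _)).fun_add (H _ _)
  · exact (HasDerivWithinAt.fun_sum fun _ _ => HasDerivWithinAt.fun_sum fun _ _ =>
      (H _ _).const_mul _).fun_add (HasDerivWithinAt.fun_sum fun _ _ => (H _ _).const_mul _)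


theorem dW_linE (M : List (Lv Ω)) (a b : ℝ) (E E' : Fn Ω) (S : ℕ → Ω → Ω → ℝ) :
    dW M (fun s F => a * E s F + b * E' s F) S = fun s F => a * dW M E S s F + b * dW M E' S s F := by
  funext s F
  simp only [dW, dG, mul_add, mul_sub, Finset.sum_add_distrib, Finset.mul_sum,
    mul_left_comm _ a, mul_left_comm _ b]
  ring


variable [Fintype Ω] {w : Ω → ℝ}

/-- the tree expectations of a model -/
def tE' (w : Ω → ℝ) (M : List (Lv Ω)) (h : Ω → ℝ) : Fn Ω := fun s F => TE w s M h F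

theorem dT_eq (s : Sh) (M : List (Lv Ω)) (h : Ω → ℝ) (S : ℕ → Ω → Ω → ℝ)
    (F : (s.Lf → Ω) → ℝ) : dT w s M h S F = dW M (tE' w M h) S s F := rfl

theorem lin_tE' (hw : Wt w) (M : List (Lv Ω)) (h : Ω → ℝ) : Lin (tE' w M h) := fun s a b F G => by
  simp only [tE', Law.TE_add hw, Law.TE_const_mul hw]

theorem tE'_same (hw : Wt w) {M M' : List (Lv Ω)} (H : List.Forall₂ Same M M') (h : Ω → ℝ) :
    tE' w M h = tE' w M' h := by
  funext s F
  exact Law.TE_same hw s H F h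



theorem dT_congr (s : Sh) (M : List (Lv Ω)) (h : Ω → ℝ) {S S' : ℕ → Ω → Ω → ℝ}
    (H : ∀ j ≤ M.length, S j = S' j) (F : (s.Lf → Ω) → ℝ) : dT w s M h S F = dT w s M h S' F :=
  by rw [dT_eq, dT_eq]; exact dW_congr M _ s H F

theorem dT_linS (hw : Wt w) (s : Sh) (M : List (Lv Ω)) (h : Ω → ℝ) (a b : ℝ)
    (S T : ℕ → Ω → Ω → ℝ) (F : (s.Lf → Ω) → ℝ) :
    dT w s M h (fun j x y => a * S j x y + b * T j x y) F =
      a * dT w s M h S F + b * dT w s M h T F := by
  rw [dT_eq, dT_eq, dT_eq]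
  exact dW_linS (lin_tE' hw M h) M s a b S T F


/-- **first variation** of `X` -/
def V1 (w : Ω → ℝ) (M : List (Lv Ω)) (h : Ω → ℝ) (S : ℕ → Ω → Ω → ℝ) : ℝ := vW M (tE' w M h) S

/-- **second variation**: the variation of `V1 M S` for the kernels `T` -/
def V2 (w : Ω → ℝ) (M : List (Lv Ω)) (h : Ω → ℝ) (S T : ℕ → Ω → Ω → ℝ) : ℝ :=
  dT w .one M h T (fun x => S M.length (x ()) (x ())) -
    ∑ j ∈ Finset.range (M.length + 1), dm M 0 j *
      dT w (Sh.two j) M h T fun x => S j (x (Sh.twoL j)) (x (Sh.twoR j))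


theorem TE_two' (hw : Wt w) (K : Ω → Ω → ℝ) : ∀ (j : ℕ) (L : List (Lv Ω)) (h : Ω → ℝ),
    TE w (Sh.two j) L h (fun x => K (x (Sh.twoL j)) (x (Sh.twoR j))) = pi2 w L j K h
  | 0, L, h => by
    refine (Law.TE_split hw .one .one L h _).trans ((Law.TE_one hw L h _).trans ?_)
    have e' : ∀ x : Ω, (TE w .one L h fun x' => K x (x' ())) = Pf w L h (K x) := fun x =>
      Law.TE_one hw L h _
    rw [pi2_zero]
    refine (congrArg (Pf w L h) (funext e')).trans ?_
    simp only [Pf, qf, Finset.mul_sum, mul_assoc]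
  | j + 1, [], h => by
    refine (Law.TE_step_nil w (Sh.two j) h _).trans ((TE_two' hw K j [] h).trans ?_)
    simp [pi2]
  | j + 1, l :: L, h => by
    refine (Law.TE_step hw (Sh.two j) l L h _).trans ?_
    rw [pi2_cons]
    exact congrArg (fun Φ => tE l (X w L) Φ h) (funext fun z => TE_two' hw K j L z)




/-! ### adding variance -/

/-- the levels `y.1 + u y.2` -/
def N1 (Y : List (Lv Ω × Lv Ω)) (u : ℝ) : List (Lv Ω) := Y.map fun y => addLv y.1 (lv y.2 u 0)

/-- half of the accumulated covariance -/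
def hc (P : List (Lv Ω)) (j : ℕ) (x y : Ω) : ℝ := 1 / 2 * cacc P j x y

/-- as a linear path -/
def il (y : Lv Ω × Lv Ω) : IL Ω := ⟨y.1, y.2, lv y.2 0 0⟩

omit [Fintype Ω] in
theorem same_N1 (Y : List (Lv Ω × Lv Ω)) {u : ℝ} (hu : u ∈ Icc (0 : ℝ) 1) :
    List.Forall₂ Same (ipl (Y.map il) u) (N1 Y u) := by
  rw [ipl_eq, List.map_map]
  refine Lin22.forall₂_map _ _ Y fun y _ => ⟨rfl, ?_⟩
  funext a b
  refine (IL.cov_at _ hu a b).trans ?_
  simp only [il, Lin22.add_cov, Lin22.lv_cov _ hu.1, Lin22.lv_cov _ le_rfl]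
  ring

omit [Fintype Ω] in
theorem Sacc_il (Y : List (Lv Ω × Lv Ω)) {u : ℝ} (hu : u ∈ Ioo (0 : ℝ) 1) :
    Sacc ((Y.map il).map IL.tl) u = hc (Y.map Prod.snd) := by
  rw [Sacc_ipl _ hu]
  funext j x y
  simp only [hc, iD, cacc, ← List.map_take, List.map_map, Function.comp_def, IL.D, il,
    Lin22.lv_cov _ le_rfl, zero_mul, sub_zero]

omit [Fintype Ω] in
theorem same_N1_zero (Y : List (Lv Ω × Lv Ω)) : List.Forall₂ Same (N1 Y 0) (Y.map Prod.fst) :=
  Lin22.forall₂_map _ _ Y fun y _ => ⟨rfl, by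
    funext a b; simp only [Lin22.add_cov, Lin22.lv_cov _ le_rfl, zero_mul, add_zero]⟩

omit [Fintype Ω] in
theorem st_N1 (Y : List (Lv Ω × Lv Ω)) (u : ℝ) : ST (N1 Y u) (Y.map Prod.fst) :=
  ST.map Y fun _ => rfl


theorem cont_tE'_N1 (hw : Wt w) (Y : List (Lv Ω × Lv Ω)) (h : Ω → ℝ) :
    ContinuousOn (fun u => tE' w (N1 Y u) h) (Icc 0 1) :=
  continuousOn_pi.2 fun s => continuousOn_pi.2 fun F =>
    (continuousOn_tX_ipl hw s (Y.map il) h F).congr fun u hu =>
      (Law.TE_same hw s (same_N1 Y hu) F h).symm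


theorem der_tE'_N1 (hw : Wt w) (Y : List (Lv Ω × Lv Ω)) (h : Ω → ℝ) {u : ℝ}
    (hu : u ∈ Ioo (0 : ℝ) 1) (s : Sh) (F : (s.Lf → Ω) → ℝ) :
    HasDerivAt (fun u => tE' w (N1 Y u) h s F)
      (dW (Y.map Prod.fst) (tE' w (N1 Y u) h) (hc (Y.map Prod.snd)) s F) u := by
  have H := same_N1 Y (Ioo_subset_Icc_self hu)
  have := hasDerivAt_tX_t hw isOpen_Ioo (c1_ipl (Y.map il)) hu s h F
  rw [Sacc_il Y hu, dT_eq] at this
  change HasDerivAt (fun t => TE w s (ipl _ t) h F) (dW (ipl _ u) (tE' w (ipl _ u) h) _ s F) u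
    at this
  rw [(ST.of_same H).dW, tE'_same hw H, (st_N1 Y u).dW] at this
  refine this.congr_of_eventuallyEq ?_
  filter_upwards [Icc_mem_nhds hu.1 hu.2] with t ht
  exact (Law.TE_same hw s (same_N1 Y ht) F h).symm

/-- **the right derivative at zero added variance** -/
theorem der_tE'_zero (hw : Wt w) (Y : List (Lv Ω × Lv Ω)) (h : Ω → ℝ) (s : Sh)
    (F : (s.Lf → Ω) → ℝ) : HasDerivWithinAt (fun u => TE w s (N1 Y u) h F)
      (dT w s (Y.map Prod.fst) h (hc (Y.map Prod.snd)) F) (Ici 0) 0 := by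
  have m0 : (0 : ℝ) ∈ Icc (0 : ℝ) 1 := ⟨le_rfl, zero_le_one⟩
  have hI : Ioo (0 : ℝ) 1 ∈ 𝓝[>] (0 : ℝ) := Ioo_mem_nhdsGT zero_lt_one
  have c0 := (cont_tE'_N1 hw Y h 0 m0).mono Ioo_subset_Icc_self
  refine hasDerivWithinAt_Ici_of_tendsto_deriv (s := Ioo 0 1)
    (fun u hu => (der_tE'_N1 hw Y h hu s F).differentiableAt.differentiableWithinAt)
    (continuousWithinAt_pi.1 (continuousWithinAt_pi.1 c0 s) F) hI ?_
  have t1 := ((cont_dW (Y.map Prod.fst) (hc (Y.map Prod.snd)) s F).tendsto _).comp c0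
  beta_reduce at t1
  rw [tE'_same hw (same_N1_zero Y), ← dT_eq] at t1
  refine (t1.mono_left (nhdsWithin_le_of_mem hI)).congr' ?_
  filter_upwards [hI] with u hu
  exact (der_tE'_N1 hw Y h hu s F).deriv.symm

/-! ### two directions -/

/-- the levels `l + s p + t q` -/
def G2 (Z : List (Lv Ω × Lv Ω × Lv Ω)) (s t : ℝ) : List (Lv Ω) :=
  N1 (Z.map fun z => (addLv z.1 (lv z.2.1 s 0), z.2.2)) t

/-- exchange of the two directions -/
def sw (Z : List (Lv Ω × Lv Ω × Lv Ω)) : List (Lv Ω × Lv Ω × Lv Ω) :=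
  Z.map fun z => (z.1, z.2.2, z.2.1)


















open Classical in
/-- a level whose covariance is one half of the polarisation of `k` -/
def pol (e : ℝ) (k : Ω → Ω → ℝ) : Lv Ω :=
  ⟨Ω, fun x u => ((if x = u then 1 else 0) + e * k u x) / √2, 0⟩

theorem pol_cov (k : Ω → Ω → ℝ) (x y : Ω) :
    (pol 1 k).cov x y - (pol (-1) k).cov x y = k x y + k y x := by
  classical
  have h2 : √2 * √2 = (2 : ℝ) := mul_self_sqrt zero_le_two
  have h3 : (√2 : ℝ) ≠ 0 := by positivity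
  show ∑ u : Ω, _ - ∑ u : Ω, _ = _
  rw [← Finset.sum_sub_distrib]
  have : ∀ u : Ω, ((pol 1 k).A x u * (pol 1 k).A y u - (pol (-1) k).A x u * (pol (-1) k).A y u) =
      (if x = u then k u y else 0) + if y = u then k u x else 0 := fun u => by
    simp only [pol, div_mul_div_comm, h2]
    split_ifs <;> ring
  simp only [this, Finset.sum_add_distrib, Finset.sum_ite_eq, Finset.mem_univ, if_true]

/-- the polarisations of the increments of `S` -/
def mkP (e : ℝ) : ℕ → (ℕ → Ω → Ω → ℝ) → List (Lv Ω)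
  | 0, _ => []
  | K + 1, S => pol e (fun x y => S 1 x y - S 0 x y) :: mkP e K fun j => S (j + 1)

theorem mkP_length (e : ℝ) : ∀ (K : ℕ) (S : ℕ → Ω → Ω → ℝ), (mkP e K S).length = K
  | 0, _ => rfl
  | K + 1, _ => congrArg (· + 1) (mkP_length e K _)

theorem cacc_mkP (x y : Ω) : ∀ (K : ℕ) (S : ℕ → Ω → Ω → ℝ) (j : ℕ), j ≤ K →
    cacc (mkP 1 K S) j x y - cacc (mkP (-1) K S) j x y = S j x y + S j y x - (S 0 x y + S 0 y x)
  | _, _, 0, _ => by simp [cacc]
  | 0, _, _ + 1, h => by omega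
  | K + 1, S, j + 1, h => by
      have h1 := cacc_mkP x y K (fun j => S (j + 1)) j (by omega)
      have h2 := pol_cov (fun x y => S 1 x y - S 0 x y) x y
      rw [mkP, mkP, Sd.cacc_cons, Sd.cacc_cons]
      simp only [zero_add] at h1
      linarith

/-- symmetric kernels that vanish at the root -/
def Adm (S : ℕ → Ω → Ω → ℝ) : Prop := (∀ j x y, S j x y = S j y x) ∧ ∀ x y, S 0 x y = 0

/-- an admissible direction is a difference of two directions that add variance -/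
theorem Adm.dec {S : ℕ → Ω → Ω → ℝ} (H : Adm S) (K : ℕ) : ∃ P Q : List (Lv Ω), P.length = K ∧
    Q.length = K ∧ ∀ j ≤ K, S j = fun x y => 1 * hc P j x y + -1 * hc Q j x y :=
  ⟨mkP 1 K S, mkP (-1) K S, mkP_length _ _ _, mkP_length _ _ _, fun j hj => by
    funext x y
    have := cacc_mkP x y K S j hj
    rw [H.2, H.2, H.1 j y x] at this
    simp only [hc]
    linarith⟩





/-- **transfer**: a linear relation between tree expectations that holds for all models with the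
tilts of `M` holds for the variations -/
theorem dT_of_const (hw : Wt w) (M : List (Lv Ω)) (h : Ω → ℝ) {S : ℕ → Ω → Ω → ℝ} (hS : Adm S)
    {κ : Type*} (A : Finset κ) (c : κ → ℝ) (s : κ → Sh) (F : ∀ k, ((s k).Lf → Ω) → ℝ) (v : ℝ)
    (H : ∀ M', ST M' M → ∑ k ∈ A, c k * TE w (s k) M' h (F k) = v) :
    ∑ k ∈ A, c k * dT w (s k) M h S (F k) = 0 := by
  have key : ∀ P : List (Lv Ω), P.length = M.length →
      ∑ k ∈ A, c k * dT w (s k) M h (hc P) (F k) = 0 := fun P hP => by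
    have e1 : (M.zip P).map Prod.fst = M := List.map_fst_zip hP.ge
    have e2 : (M.zip P).map Prod.snd = P := List.map_snd_zip hP.le
    have d := HasDerivWithinAt.fun_sum fun k (_ : k ∈ A) =>
      (der_tE'_zero hw (M.zip P) h (s k) (F k)).const_mul (c k)
    rw [e1, e2] at d
    simp only [fun u => H _ (e1 ▸ st_N1 (M.zip P) u)] at d
    exact (uniqueDiffWithinAt_Ici 0).eq_deriv _ d (hasDerivWithinAt_const _ _ _)
  obtain ⟨P, Q, h1, h2, e⟩ := hS.dec M.length
  simp only [fun k => dT_congr (w := w) (s k) M h e, dT_linS hw, mul_add, Finset.sum_add_distrib,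
    mul_left_comm (c _), ← Finset.mul_sum, key P h1, key Q h2]
  simp

theorem dT_const (hw : Wt w) (s : Sh) (M : List (Lv Ω)) (h : Ω → ℝ) {S : ℕ → Ω → Ω → ℝ}
    (hS : Adm S) (v : ℝ) : dT w s M h S (fun _ => v) = 0 := by
  simpa using dT_of_const hw M h hS {()} (fun _ => 1) (fun _ => s) (fun _ _ => v) v
    fun M' _ => by simp [Law.TE_const hw]

/-! ### the variations commute -/

omit [Fintype Ω] in
theorem dW_dec {E : Fn Ω} (hE : Lin E) (M : List (Lv Ω)) {S P Q : ℕ → Ω → Ω → ℝ}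
    (e : ∀ j ≤ M.length, S j = fun x y => 1 * P j x y + -1 * Q j x y) :
    dW M E S = fun s F => 1 * dW M E P s F + -1 * dW M E Q s F := by
  funext s F
  rw [dW_congr M E s e, dW_linS hE]


/-- finite linear combinations of evaluations -/
structure Ev (φ : Fn Ω → ℝ) : Prop where
  lin : ∀ (a b : ℝ) (E E' : Fn Ω), φ (fun s F => a * E s F + b * E' s F) = a * φ E + b * φ E'
  der : ∀ (E : ℝ → Fn Ω) (E' : Fn Ω) (I : Set ℝ) (u : ℝ),
    (∀ s F, HasDerivWithinAt (fun t => E t s F) (E' s F) I u) →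
    HasDerivWithinAt (fun t => φ (E t)) (φ E') I u

omit [Fintype Ω] in
theorem Ev.eval (s : Sh) (F : (s.Lf → Ω) → ℝ) : Ev fun E : Fn Ω => E s F :=
  ⟨fun _ _ _ _ => rfl, fun _ _ _ _ H => H s F⟩

omit [Fintype Ω] in
theorem Ev.sub {φ ψ : Fn Ω → ℝ} (h : Ev φ) (h' : Ev ψ) : Ev fun E => φ E - ψ E :=
  ⟨fun a b E E' => by rw [h.lin, h'.lin]; ring,
    fun E E' I u H => (h.der E E' I u H).fun_sub (h'.der E E' I u H)⟩

omit [Fintype Ω] in
theorem Ev.add {φ ψ : Fn Ω → ℝ} (h : Ev φ) (h' : Ev ψ) : Ev fun E => φ E + ψ E :=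
  ⟨fun a b E E' => by rw [h.lin, h'.lin]; ring,
    fun E E' I u H => (h.der E E' I u H).fun_add (h'.der E E' I u H)⟩

omit [Fintype Ω] in
theorem Ev.cmul {φ : Fn Ω → ℝ} (h : Ev φ) (c : ℝ) : Ev fun E => c * φ E :=
  ⟨fun a b E E' => by rw [h.lin]; ring, fun E E' I u H => (h.der E E' I u H).const_mul c⟩

omit [Fintype Ω] in
theorem Ev.sum {κ : Type*} (A : Finset κ) {φ : κ → Fn Ω → ℝ} (h : ∀ k ∈ A, Ev (φ k)) :
    Ev fun E => ∑ k ∈ A, φ k E :=
  ⟨fun a b E E' => by
    rw [Finset.mul_sum, Finset.mul_sum, ← Finset.sum_add_distrib]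
    exact Finset.sum_congr rfl fun k hk => (h k hk).lin a b E E',
    fun E E' I u H => HasDerivWithinAt.fun_sum fun k hk => (h k hk).der E E' I u H⟩

omit [Fintype Ω] in
theorem Ev.dW {φ : Fn Ω → ℝ} (h : Ev φ) (M : List (Lv Ω)) (S : ℕ → Ω → Ω → ℝ) :
    Ev fun E => φ (dW M E S) :=
  ⟨fun a b E E' => by rw [dW_linE, h.lin], fun E E' I u H =>
    h.der (fun t => Adj55.dW M (E t) S) _ I u fun s F => der_dW M H S s F⟩

/-- a relation that holds for all models with the tilts of `M` -/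
def Cst (w : Ω → ℝ) (M : List (Lv Ω)) (h : Ω → ℝ) (φ : Fn Ω → ℝ) (v : ℝ) : Prop :=
  ∀ M', ST M' M → φ (tE' w M' h) = v

omit [Fintype Ω] in
theorem ST.trans {M M' M'' : List (Lv Ω)} (H : ST M M') (H' : ST M' M'') : ST M M'' := by
  induction H generalizing M'' with
  | nil => exact H'
  | cons h _ ih => cases H' with | cons h' H' => exact .cons (h.trans h') (ih H')

omit [Fintype Ω] in
theorem ST.refl (M : List (Lv Ω)) : ST M M := List.forall₂_same.2 fun _ _ => rfl

/-- **transfer** -/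
theorem Cst.dW (hw : Wt w) {M : List (Lv Ω)} {h : Ω → ℝ} {φ : Fn Ω → ℝ} {v : ℝ} (hφ : Ev φ)
    (H : Cst w M h φ v) {S : ℕ → Ω → Ω → ℝ} (hS : Adm S) :
    Cst w M h (fun E => φ (dW M E S)) 0 := by
  intro M' hM
  have key : ∀ P : List (Lv Ω), P.length = M'.length →
      φ (Adj55.dW M' (tE' w M' h) (hc P)) = 0 := fun P hP => by
    have e1 : (M'.zip P).map Prod.fst = M' := List.map_fst_zip hP.ge
    have e2 : (M'.zip P).map Prod.snd = P := List.map_snd_zip hP.le
    have d := hφ.der (fun u => tE' w (N1 (M'.zip P) u) h)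
      (Adj55.dW M' (tE' w M' h) (hc P)) (Ici 0) 0 fun s F => by
        have := der_tE'_zero hw (M'.zip P) h s F
        rwa [e1, e2, dT_eq] at this
    simp only [fun u => H _ (ST.trans (e1 ▸ st_N1 (M'.zip P) u) hM)] at d
    exact (uniqueDiffWithinAt_Ici 0).eq_deriv _ d (hasDerivWithinAt_const _ _ _)
  obtain ⟨P, Q, h1, h2, e⟩ := hS.dec M'.length
  beta_reduce
  rw [← hM.dW, dW_dec (lin_tE' hw M' h) M' e, hφ.lin, key P h1, key Q h2]
  simp

/-- iterated variations (the head of the list is the outermost one) -/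
def it (M : List (Lv Ω)) (E : Fn Ω) : List (ℕ → Ω → Ω → ℝ) → Fn Ω
  | [] => E
  | S :: U => dW M (it M E U) S

/-- relations pass to all iterated variations -/
theorem Cst.it (hw : Wt w) {M : List (Lv Ω)} {h : Ω → ℝ} : ∀ (U : List (ℕ → Ω → Ω → ℝ))
    {φ : Fn Ω → ℝ}, Ev φ → Cst w M h φ 0 → (∀ S ∈ U, Adm S) →
    Cst w M h (fun E => φ (it M E U)) 0
  | [], _, _, H, _ => H
  | S :: U, _, hφ, H, hU => Cst.it hw U (hφ.dW M S) (H.dW hw hφ (hU S (by simp)))
      fun T hT => hU T (by simp [hT])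






/-! ### factorised models -/

section prd
variable {Ω₁ Ω₂ : Type} [Fintype Ω₁] [Fintype Ω₂] {w₁ : Ω₁ → ℝ} {w₂ : Ω₂ → ℝ}
  {L : List (Lv (Ω₁ × Ω₂))} {T : List (Lv Ω₁ × Lv Ω₂)}

theorem TE_emb (hw : Wt w) (s : Sh) (a : s.Lf) (j : ℕ) (M : List (Lv Ω)) (h : Ω → ℝ)
    (F : (s.Lf → Ω) → ℝ) :
    TE w (s.graft a j) M h (fun x => F fun c => x (s.emb a j c)) = TE w s M h F := by
  have := graft_leaf hw s a j M h fun x _ => F x
  simp only [← Finset.sum_mul, sum_P hw, one_mul] at this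
  exact this









end prd


end Crest.Agent.T156.Cas.Adj55

end
private theorem rz_ed69614b91 : type_of% @_root_.Crest.Agent.T156.Cas.Adj55.it.eq_def := @_root_.Crest.Agent.T156.Cas.Adj55.it.eq_def -- L888
private theorem rz_d2605a31c1 : type_of% @_root_.Crest.Agent.T156.Cas.Adj55.it.eq_1 := @_root_.Crest.Agent.T156.Cas.Adj55.it.eq_1 -- L888
private theorem rz_428260de2d : type_of% @_root_.Crest.Agent.T156.Cas.Adj55.mkP.eq_def := @_root_.Crest.Agent.T156.Cas.Adj55.mkP.eq_def -- L694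
private theorem rz_20645efe0e : type_of% @_root_.Crest.Agent.T156.Cas.Adj55.mkP.eq_1 := @_root_.Crest.Agent.T156.Cas.Adj55.mkP.eq_1 -- L694
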