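import Crest.Agent.T156.CaTp_90
import Crest.Agent.T156.CaLink_33
import Crest.Agent.T157.CascD_52

-- ▼ part T156/CaPr_90
section

/-!
# Row 156 (helper90): relabelling and products of tree laws

`tF_co`: levels read through a map.  `X_pl`, `tX_prod`, `tF_prod`, `tX_prod_mul`: two independent
systems with the same tilts; the value is additive and the tree law is the product of the tree laws
of the same shape (the synchronised end point of the cavity interpolation).
-/

set_option autoImplicit false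
set_option linter.unusedSectionVars false

noncomputable section

namespace Crest.Agent.T156.Cas

open MeasureTheory Real Set Filter Topology
open Crest.Agent.T157.E Crest.Agent.T157.Casc Crest.Agent.T157.SL
open Crest.Agent.T157.Casc.C (Same addLv coLv push Rel)
open Crest.Agent.R339.Guerra (mp_int mp_comp)

variable {Ω Ω' : Type} [Fintype Ω] [Fintype Ω'] {w : Ω → ℝ} {w' : Ω' → ℝ}

/-! ### relabelling -/

namespace Tp

theorem tF_one_nil (hw : Wt w) (h : Ω → ℝ) (F : Pa Unit Ω → (Unit → Ω) → ℝ) :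
    tF w .one [] h F = ∑ x, P w [] h x * F (fun _ _ => h) fun _ => x := by
  refine (Tr.tX_one w [] h _).trans ((Pe.pE_nil hw h _).trans ?_)
  congr 1
  funext x
  congr 2
  funext a j
  exact Sd.stT_nil .one h _ a j

/-- paths read through a map -/
def rp (ρ : Ω → Ω') {κ : Type} (p : Pa κ Ω') : Pa κ Ω := fun a j u => p a j (ρ u)

theorem egP_rp (ρ : Ω → Ω') {κ : Type} {Φ : Pa κ Ω → ℝ} (hΦ : EgP Φ) :
    EgP fun p : Pa κ Ω' => Φ (rp ρ p) := fun ι _ _ hp => hΦ ι _ fun a j y => hp a j (ρ y)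

/-- the statement for one shape and one list -/
def Co (w : Ω → ℝ) (ρ : Ω → Ω') (s : Sh) (L : List (Lv Ω')) : Prop :=
  ∀ (h : Ω' → ℝ) (F : Pa s.Lf Ω → (s.Lf → Ω') → ℝ), (∀ y, EgP fun p => F p y) →
    tF w s (L.map (coLv ρ)) (fun x => h (ρ x)) (fun p x => F p fun a => ρ (x a)) =
      tF (push ρ w) s L h fun p => F (rp ρ p)

theorem co_step (hw : Wt w) (ρ : Ω → Ω') {s : Sh} {L : List (Lv Ω')} (H : Co w ρ s L)
    (l : Lv Ω') : Co w ρ (.step s) (l :: L) := fun h F hF => by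
  refine (tF_step_cons hw s (coLv ρ l) (L.map (coLv ρ)) _ fun x => hF _).trans
    (Eq.trans ?_ (tF_step_cons (C.wt_push ρ hw) s l L h fun y => egP_rp ρ (hF y)).symm)
  refine ((C.rel_co ρ l).tE (F' := X (push ρ w) L) (c := 0) (C.lp_X hw _).meas
    (fun z => by rw [C.X_co ρ hw, one_mul, add_zero])
    (eg_tF hw s _ fun x => Gf.egP_cons (hF _) _).cont.measurable h).trans ?_
  congr 1
  funext z
  refine (H z (fun p => F fun b => Gf.cons (fun x => h (ρ x)) (p b))
    fun y => Gf.egP_cons (hF y) _).trans ?_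
  congr 1
  funext p
  congr 1
  funext b j
  cases j <;> rfl

theorem co_one (hw : Wt w) (ρ : Ω → Ω') : ∀ L : List (Lv Ω'), Co w ρ .one L
  | [] => fun h F _ => by
      refine (tF_one_nil hw _ _).trans (Eq.trans ?_ (tF_one_nil (C.wt_push ρ hw) h _).symm)
      simp only [P, prob, div_mul_eq_mul_div, ← Finset.sum_div, mul_assoc]
      rw [C.sum_push ρ w fun y => exp (h y), C.sum_push ρ w]
      rfl
  | l :: L => fun h F hF => (tF_one_cons w _ _ _ _).trans
      ((co_step hw ρ (co_one hw ρ L) l h F hF).trans (tF_one_cons _ l L h _).symm)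

theorem co_all (hw : Wt w) (ρ : Ω → Ω') : ∀ (s : Sh) (L : List (Lv Ω')), Co w ρ s L
  | .one, L => co_one hw ρ L
  | .step s, [] => fun h F hF => (tF_step_nil w s _ _).trans
      ((co_all hw ρ s [] h F hF).trans (tF_step_nil _ s h _).symm)
  | .step s, l :: L => co_step hw ρ (co_all hw ρ s L) l
  | .split s t, L => fun h F hF => by
      refine (tF_split hw s t _ _ fun x => hF _).trans
        (Eq.trans ?_ (tF_split (C.wt_push ρ hw) s t L h fun y => egP_rp ρ (hF y)).symm)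
      have e : ∀ (x : s.Lf → Ω) (y : t.Lf → Ω), (fun a => ρ (Sum.elim x y a)) =
          Sum.elim (fun a => ρ (x a)) fun a => ρ (y a) := fun x y => by
        funext a; cases a <;> rfl
      have h1 := fun p (x : s.Lf → Ω') => co_all hw ρ t L h
        (fun q y => F (Sum.elim p q) (Sum.elim x y)) fun y => Gf.egP_inr (hF _) p
      refine Eq.trans ?_ ((co_all hw ρ s L h (fun p x => tF (push ρ w) t L h fun q y =>
        F (Sum.elim p (rp ρ q)) (Sum.elim x y)) fun x => ?_).trans ?_)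
      · congr 1
        funext p x
        refine Eq.trans ?_ (h1 p _)
        congr 1
        funext q y
        exact congrArg _ (e x y)
      · refine fun ι _ p hp => eg_tX (C.wt_push ρ hw) _ _ (H := fun _ => h)
          (fun _ => Tr.lg_const _) fun y => hF _ _ _ fun a j u => ?_
        cases a with
        | inl a => exact Tr.lg_comp (hp a j u) fun i => Tr.lg_coord (Sum.inl i)
        | inr a =>
          exact Tr.lg_stT _ _ _ _ (H := fun _ => h) (fun _ => Tr.lg_const _)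
            (fun i => Tr.lg_coord (Sum.inr i)) (ρ u)
      · congr 1
        funext p x
        congr 1
        funext q y
        congr 1
        funext b; cases b <;> rfl

end Tp

/-- **levels read through a map**: the law of the images is the law for the pushed weight -/
theorem tF_co (hw : Wt w) (ρ : Ω → Ω') (s : Sh) (L : List (Lv Ω')) (h : Ω' → ℝ)
    {F : Pa s.Lf Ω → (s.Lf → Ω') → ℝ} (hF : ∀ y, EgP fun p => F p y) :
    tF w s (L.map (coLv ρ)) (fun x => h (ρ x)) (fun p x => F p fun a => ρ (x a)) =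
      tF (push ρ w) s L h fun p => F fun a j u => p a j (ρ u) := Tp.co_all hw ρ s L h F hF


/-! ### products -/

/-- two independent levels with the tilt of the first -/
def pl (p : Lv Ω × Lv Ω') : Lv (Ω × Ω') := addLv (coLv Prod.fst p.1) (coLv Prod.snd p.2)


/-- product weights -/
def ow (w : Ω → ℝ) (w' : Ω' → ℝ) : Ω × Ω' → ℝ := fun x => w x.1 * w' x.2


theorem pl_cov (p : Lv Ω × Lv Ω') (x y : Ω × Ω') :
    (pl p).cov x y = p.1.cov x.1 y.1 + p.2.cov x.2 y.2 := C.addLv_cov _ _ x y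




namespace Tp






theorem ex_congr {L : List (Lv Ω)} {L' : List (Lv Ω')} (H : L.map Lv.m = L'.map Lv.m) (j : ℕ) :
    ex L j = ex L' j := by
  have := congrArg (fun l : List ℝ => l[j]?) H
  simp only [List.getElem?_map] at this
  unfold ex
  cases h1 : L[j]? <;> cases h2 : L'[j]? <;> simp_all


end Tp










end Crest.Agent.T156.Cas

end
end

-- ▼ part T156/CaRow_90

/-!
# Row 156 (helper90): the cavity row decomposition

`rmv i : Cube (n+1) ≃ Cube n × Bool` removes the site `i`.  A level of covariance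
`d β² (n+1) R² / 2 + f (n+1) R` is, up to the constant `d β² / (2 (n+1))`, the bulk level with
`β'² = β² n / (n+1)`, the row `ε ε' d β'² R` and the field `f ε ε'`.
-/

set_option autoImplicit false
set_option linter.unusedSectionVars false

noncomputable section

namespace Crest.Agent.T156.Cas

open MeasureTheory Real Set Filter Topology
open Crest.Agent.T157.E Crest.Agent.T157.Casc Crest.Agent.T157.SL
open Crest.Agent.T157.Casc.C (Same addLv coLv push)
open Crest.Agent.T157.G1 (ov fl)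
open Crest.ProbabilityR.SpinGlassDynamics (spin)

section general
variable {Ω Ω' : Type} [Fintype Ω] [Fintype Ω'] {w : Ω → ℝ} {α : Type}

/-- **covariances read through a map, up to constants**: the value -/
theorem X_coC (hw : Wt w) (ρ : Ω → Ω') (f : α → Lv Ω) (f' : α → Lv Ω') (c : α → ℝ) (M : List α)
    (H : ∀ a ∈ M, SameC (c a) (f a) (coLv ρ (f' a))) (h : Ω' → ℝ) :
    X w (M.map f) (fun x => h (ρ x)) =
      X (push ρ w) (M.map f') h + (M.map fun a => (f a).m * c a / 2).sum := by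
  rw [X_sameC hw (SameL.map f (fun a => coLv ρ (f' a)) c M H), ← C.X_co ρ hw, List.map_map]
  rfl

/-- the tree law -/
theorem tF_coC (hw : Wt w) (ρ : Ω → Ω') (f : α → Lv Ω) (f' : α → Lv Ω') (c : α → ℝ) (M : List α)
    (H : ∀ a ∈ M, SameC (c a) (f a) (coLv ρ (f' a))) (s : Sh) (h : Ω' → ℝ)
    {F : Pa s.Lf Ω → (s.Lf → Ω') → ℝ} (hF : ∀ y, EgP fun p => F p y)
    (hI : ∀ (p : Pa s.Lf Ω) (c : s.Lf → ℕ → ℝ), F (fun a j y => p a j y + c a j) = F p) :
    tF w s (M.map f) (fun x => h (ρ x)) (fun p x => F p fun a => ρ (x a)) =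
      tF (push ρ w) s (M.map f') h fun p => F fun a j u => p a j (ρ u) := by
  rw [tF_sameC hw s (SameL.map f (fun a => coLv ρ (f' a)) c M H) _ _ (fun x => hF _)
    fun p c => by simp only [hI], ← tF_co hw ρ s _ h hF, List.map_map]
  rfl




/-- the level `k` multiplied by the spin -/
def spL (k : Lv Ω) : Lv (Ω × Bool) := ⟨k.ι, fun x i => spin x.2 * k.A x.1 i, k.m⟩

omit [Fintype Ω] in
theorem spL_cov (k : Lv Ω) (x y : Ω × Bool) :
    (spL k).cov x y = spin x.2 * spin y.2 * k.cov x.1 y.1 := by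
  show ∑ i : k.ι, spin x.2 * k.A x.1 i * (spin y.2 * k.A y.1 i) = _
  rw [Lv.cov, Finset.mul_sum]
  exact Finset.sum_congr rfl fun _ _ => by ring

end general

variable {n : ℕ}

/-- removing the site `i` -/
def rmv (i : Fin (n + 1)) : Cube (n + 1) ≃ Cube n × Bool :=
  (Fin.insertNthEquiv (fun _ => Bool) i).symm.trans (Equiv.prodComm _ _)



theorem dot_rmv (i : Fin (n + 1)) (u v : Fin (n + 1) → ℝ) :
    u ⬝ᵥ v = (fun k => u (i.succAbove k)) ⬝ᵥ (fun k => v (i.succAbove k)) + u i * v i := by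
  rw [dotProduct, Fin.sum_univ_succAbove _ i, add_comm]
  rfl

theorem ov_rmv (hn : 0 < n) (i : Fin (n + 1)) (x y : Cube (n + 1)) :
    (n + 1) * ov x y = n * ov (rmv i x).1 (rmv i y).1 + spin (rmv i x).2 * spin (rmv i y).2 := by
  have hn' : (n : ℝ) ≠ 0 := Nat.cast_ne_zero.2 hn.ne'
  have h1 : (n : ℝ) + 1 ≠ 0 := by positivity
  rw [ov, ov, dot_rmv i, Nat.cast_succ, mul_div_cancel₀ _ h1, mul_div_cancel₀ _ hn']
  rfl

theorem spin_mul_self90 (b : Bool) : spin b * spin b = 1 := by cases b <;> simp [spin]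


/-- the inverse temperature of the bulk -/
def bb (n : ℕ) (β : ℝ) : ℝ := β * √(n / (n + 1))

theorem bb_sq (n : ℕ) (β : ℝ) : bb n β ^ 2 = β ^ 2 * n / (n + 1) := by
  rw [bb, mul_pow, sq_sqrt (by positivity), mul_div_assoc]

/-- **the row identity** -/
theorem row_alg (hn : 0 < n) (i : Fin (n + 1)) (β d f : ℝ) (x y : Cube (n + 1)) :
    d * (β ^ 2 * (n + 1 : ℕ) / 2 * ov x y ^ 2) + f * (n + 1 : ℕ) * ov x y =
      d * (bb n β ^ 2 * n / 2 * ov (rmv i x).1 (rmv i y).1 ^ 2) +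
        f * n * ov (rmv i x).1 (rmv i y).1 +
        spin (rmv i x).2 * spin (rmv i y).2 * (d * bb n β ^ 2 * ov (rmv i x).1 (rmv i y).1 + f) +
        d * β ^ 2 / (2 * (n + 1)) := by
  have h1 : (n : ℝ) + 1 ≠ 0 := by positivity
  have h2 : ov x y = (n * ov (rmv i x).1 (rmv i y).1 + spin (rmv i x).2 * spin (rmv i y).2) /
      (n + 1) := by rw [← ov_rmv hn, mul_div_cancel_left₀ _ h1]
  have h3 : (spin (rmv i x).2 * spin (rmv i y).2) ^ 2 = 1 := by
    rw [mul_pow, sq, sq, spin_mul_self90, spin_mul_self90, mul_one]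
  rw [h2, bb_sq, Nat.cast_succ]
  generalize spin (rmv i x).2 * spin (rmv i y).2 = e at h3 ⊢
  generalize ov (rmv i x).1 (rmv i y).1 = R
  field_simp
  linear_combination (d * β ^ 2) * h3

/-- W-mark of variance `d` and fields of variance `f` at the tilt `m`; `p = (m, d, f)` -/
def mxL (n : ℕ) (β : ℝ) (p : ℝ × ℝ × ℝ) : Lv (Cube n) :=
  addLv (wl n β p.2.1 p.1) (fl n 1 (p.1, p.2.2))

theorem mxL_m (β : ℝ) (p : ℝ × ℝ × ℝ) : (mxL n β p).m = p.1 := rfl

theorem mxL_cov (hn : 0 < n) (β : ℝ) {p : ℝ × ℝ × ℝ} (hd : 0 ≤ p.2.1) (hf : 0 ≤ p.2.2)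
    (x y : Cube n) :
    (mxL n β p).cov x y = p.2.1 * (β ^ 2 * n / 2 * ov x y ^ 2) + p.2.2 * n * ov x y := by
  rw [mxL, C.addLv_cov, Link33.cov_wl n β _ _ x y hn hd, Link33.cov_fl n 1 (p.1, p.2.2) x y hn hf]
  ring

/-- the row of the removed site: covariance `ε ε' d β² R` -/
def rowL (n : ℕ) (β d m : ℝ) : Lv (Cube n × Bool) := spL (fl n β (m, d / n))

theorem rowL_cov (hn : 0 < n) (β : ℝ) {d : ℝ} (hd : 0 ≤ d) (m : ℝ) (x y : Cube n × Bool) :
    (rowL n β d m).cov x y = spin x.2 * spin y.2 * (d * β ^ 2 * ov x.1 y.1) := by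
  have hn' : (n : ℝ) ≠ 0 := Nat.cast_ne_zero.2 hn.ne'
  rw [rowL, spL_cov, Link33.cov_fl n β (m, d / n) _ _ hn (by positivity)]
  field_simp

/-- bulk, field of the removed site and row -/
def cavL (n : ℕ) (β : ℝ) (p : ℝ × ℝ × ℝ) : Lv (Cube n × Bool) :=
  addLv (pl (mxL n β p, C.sl spin (p.1, p.2.2))) (rowL n β p.2.1 p.1)


theorem sl_cov90 {m v : ℝ} (hv : 0 ≤ v) (a b : Bool) :
    (C.sl spin (m, v)).cov a b = v * (spin a * spin b) := by
  show ∑ _i : Unit, √v * spin a * (√v * spin b) = _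
  rw [Fintype.sum_unique, mul_mul_mul_comm, mul_self_sqrt hv]

theorem cavL_cov (hn : 0 < n) (β : ℝ) {p : ℝ × ℝ × ℝ} (hd : 0 ≤ p.2.1) (hf : 0 ≤ p.2.2)
    (x y : Cube n × Bool) : (cavL n β p).cov x y =
      p.2.1 * (β ^ 2 * n / 2 * ov x.1 y.1 ^ 2) + p.2.2 * n * ov x.1 y.1 +
        spin x.2 * spin y.2 * (p.2.1 * β ^ 2 * ov x.1 y.1 + p.2.2) := by
  rw [cavL, C.addLv_cov, pl_cov, mxL_cov hn β hd hf, sl_cov90 hf, rowL_cov hn β hd]
  ring

/-- **one level of the `n + 1` system** (any realisation `l`) -/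
theorem sameC_row (hn : 0 < n) (i : Fin (n + 1)) (β : ℝ) {p : ℝ × ℝ × ℝ} (hd : 0 ≤ p.2.1)
    (hf : 0 ≤ p.2.2) {l : Lv (Cube (n + 1))} (hm : l.m = p.1) (hl : ∀ x y, l.cov x y =
      p.2.1 * (β ^ 2 * (n + 1 : ℕ) / 2 * ov x y ^ 2) + p.2.2 * (n + 1 : ℕ) * ov x y) :
    SameC (p.2.1 * β ^ 2 / (2 * (n + 1))) l (coLv (rmv i) (cavL n (bb n β) p)) :=
  ⟨hm, fun x y => by rw [hl, C.coLv_cov, cavL_cov hn _ hd hf, row_alg hn i]⟩

theorem wt_one90 {Ω : Type} [Fintype Ω] [Nonempty Ω] : Wt fun _ : Ω => (1 : ℝ) := C.wt_one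


/-- **the value of the `n + 1` system** -/
theorem X_row (hn : 0 < n) (i : Fin (n + 1)) (β : ℝ) {M : List (ℝ × ℝ × ℝ)}
    (hM : ∀ p ∈ M, 0 ≤ p.2.1 ∧ 0 ≤ p.2.2) (h : Cube n × Bool → ℝ) :
    X (fun _ => 1) (M.map (mxL (n + 1) β)) (fun x => h (rmv i x)) =
      X (fun _ => 1) (M.map (cavL n (bb n β))) h +
        (M.map fun p => p.1 * p.2.1).sum * (β ^ 2 / (4 * (n + 1))) := by
  rw [X_coC wt_one90 (rmv i) _ _ _ M (fun p hp => sameC_row hn i β (hM p hp).1 (hM p hp).2 rfl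
    (mxL_cov n.succ_pos β (hM p hp).1 (hM p hp).2)), C.push_equiv, ← List.sum_map_mul_right]
  congr 3
  funext p
  have h1 : (n : ℝ) + 1 ≠ 0 := by positivity
  rw [mxL_m]
  field_simp
  ring

/-- **the tree law of the `n + 1` system** -/
theorem tF_row (hn : 0 < n) (i : Fin (n + 1)) (β : ℝ) {M : List (ℝ × ℝ × ℝ)}
    (hM : ∀ p ∈ M, 0 ≤ p.2.1 ∧ 0 ≤ p.2.2) (s : Sh) (h : Cube n × Bool → ℝ)
    {F : Pa s.Lf (Cube (n + 1)) → (s.Lf → Cube n × Bool) → ℝ} (hF : ∀ y, EgP fun p => F p y)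
    (hI : ∀ p (c : s.Lf → ℕ → ℝ), F (fun a j y => p a j y + c a j) = F p) :
    tF (fun _ => 1) s (M.map (mxL (n + 1) β)) (fun x => h (rmv i x))
        (fun p x => F p fun a => rmv i (x a)) =
      tF (fun _ => 1) s (M.map (cavL n (bb n β))) h fun p => F fun a j u => p a j (rmv i u) := by
  rw [tF_coC wt_one90 (rmv i) _ _ _ M (fun p hp => sameC_row hn i β (hM p hp).1 (hM p hp).2 rfl
    (mxL_cov n.succ_pos β (hM p hp).1 (hM p hp).2)) s h hF hI, C.push_equiv]

theorem tX_row (hn : 0 < n) (i : Fin (n + 1)) (β : ℝ) {M : List (ℝ × ℝ × ℝ)}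
    (hM : ∀ p ∈ M, 0 ≤ p.2.1 ∧ 0 ≤ p.2.2) (s : Sh) (h : Cube n × Bool → ℝ)
    (F : (s.Lf → Cube n × Bool) → ℝ) :
    tX (fun _ => 1) s (M.map (mxL (n + 1) β)) (fun x => h (rmv i x))
        (fun _ x => F fun a => rmv i (x a)) =
      tX (fun _ => 1) s (M.map (cavL n (bb n β))) h fun _ => F :=
  tF_row hn i β hM s h (F := fun _ => F) (fun _ => .const _) fun _ _ => rfl

end Crest.Agent.T156.Cas

end
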