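import Crest.Agent.T156.CavR_22
import Crest.Agent.T156.CaSym_84
import Crest.Agent.T156.CaTr_32
import Crest.Agent.T156.CaPe_45
import Crest.Agent.T156.SgnCas_69
import Crest.Agent.T156.CaRow_90
import Crest.Agent.T156.Mov_21

-- ▼ part T156/CavM_22
section

/-!
# Row 156 (helper22): product form for kernels that are sums of tensors
-/

set_option autoImplicit false
set_option linter.unusedSectionVars false

noncomputable section

namespace Crest.Agent.T156.Cas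

open MeasureTheory Real Set Filter Topology
open Crest.Agent.T157.E Crest.Agent.T157.Casc Crest.Agent.T157.SL

variable {Ω S Θ Θ' A : Type} [Fintype A]

/-- additive functionals -/
def FnLin (E : Fn Ω) : Prop :=
  (∀ s F F', E s (fun x => F x + F' x) = E s F + E s F') ∧
    ∀ s c F, E s (fun x => c * F x) = c * E s F

theorem FnLin.sum {E : Fn Ω} (H : FnLin E) (s : Sh) {α : Type*} (T : Finset α)
    (F : α → (s.Lf → Ω) → ℝ) : E s (fun x => ∑ i ∈ T, F i x) = ∑ i ∈ T, E s (F i) := by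
  classical
  induction T using Finset.induction_on with
  | empty => simpa using H.2 s 0 fun _ => 0
  | insert a T ha ih => simp only [Finset.sum_insert ha, H.1, ih]

theorem FnLin.sub {E : Fn Ω} (H : FnLin E) (s : Sh) (F F' : (s.Lf → Ω) → ℝ) :
    E s (fun x => F x - F' x) = E s F - E s F' := by
  have := H.1 s F fun x => -1 * F' x
  rw [H.2] at this
  simpa only [neg_one_mul, ← sub_eq_add_neg] using this

theorem FnLin.itE {E : Fn Ω} (H : FnLin E) (ε : ℝ) (M : List (Lv Θ)) (K : ℕ → Ω → Ω → ℝ) :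
    ∀ n, FnLin (itE ε M K E n)
  | 0 => H
  | n + 1 => ⟨fun s F F' => by
      have e : ∀ τ : GT s, τ.ev K (fun x => F x + F' x) = fun x => τ.ev K F x + τ.ev K F' x :=
        fun τ => funext fun x => add_mul _ _ _
      simp only [Cas.itE, e, (H.itE ε M K n).1, sg_add], fun s c F => by
      have e : ∀ τ : GT s, τ.ev K (fun x => c * F x) = fun x => c * τ.ev K F x :=
        fun τ => funext fun x => mul_assoc _ _ _
      simp only [Cas.itE, e, (H.itE ε M K n).2, sg_const_mul]⟩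

/-- a sum of tensor kernels -/
def tK (U : A → ℕ → Ω → Ω → ℝ) (Z : A → ℕ → S → S → ℝ) : ℕ → Ω × S → Ω × S → ℝ :=
  fun j x y => ∑ α, U α j x.1 y.1 * Z α j x.2 y.2

/-- the `n`-fold graft sum, one tensor for each edge -/
def itM (ε : ℝ) (M : List (Lv Θ)) (U : A → ℕ → Ω → Ω → ℝ) (Z : A → ℕ → S → S → ℝ)
    (B : (s : Sh) → ((s.Lf → Ω) → ℝ) → ((s.Lf → S) → ℝ) → ℝ) :
    ℕ → (s : Sh) → ((s.Lf → Ω) → ℝ) → ((s.Lf → S) → ℝ) → ℝ
  | 0, s, G, ξ => B s G ξ
  | n + 1, s, G, ξ => ∑ α, sg ε M s fun τ => itM ε M U Z B n τ.sh (τ.ev (U α) G) (τ.ev (Z α) ξ)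

theorem GT.ev_tK {s : Sh} (τ : GT s) (U : A → ℕ → Ω → Ω → ℝ) (Z : A → ℕ → S → S → ℝ)
    (G : (s.Lf → Ω) → ℝ) (ξ : (s.Lf → S) → ℝ) :
    τ.ev (tK U Z) (tens G ξ) = fun x => ∑ α, tens (τ.ev (U α) G) (τ.ev (Z α) ξ) x := by
  funext x
  simp only [GT.ev, tens, tK, Finset.mul_sum]
  exact Finset.sum_congr rfl fun α _ => by ring

theorem itE_tK (ε : ℝ) (M : List (Lv Θ)) (U : A → ℕ → Ω → Ω → ℝ) (Z : A → ℕ → S → S → ℝ)
    {E : Fn (Ω × S)} (H : FnLin E) : ∀ (n : ℕ) (s : Sh) (G : (s.Lf → Ω) → ℝ)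
    (ξ : (s.Lf → S) → ℝ), itE ε M (tK U Z) E n s (tens G ξ) =
      itM ε M U Z (fun s G ξ => E s (tens G ξ)) n s G ξ
  | 0, _, _, _ => rfl
  | n + 1, s, G, ξ => by
      simp only [itE, itM, GT.ev_tK, (H.itE ε M _ n).sum, itE_tK ε M U Z H n, sg_sum]


/-- only the levels `j ≤ M.length` of the kernel are read -/
theorem itE_congr (ε : ℝ) (M : List (Lv Θ)) {K K' : ℕ → Ω → Ω → ℝ}
    (H : ∀ j ≤ M.length, K j = K' j) (E : Fn Ω) : ∀ n, itE ε M K E n = itE ε M K' E n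
  | 0 => rfl
  | n + 1 => by
      funext s F
      simp only [itE, itE_congr ε M H E n]
      refine sg_congr ε M s fun τ hτ => ?_
      congr 1
      funext x
      rw [GT.ev, GT.ev, H _ hτ.le]

variable [Fintype Ω] [Fintype S] {w w₁ : Ω → ℝ} {w₂ : S → ℝ}

theorem fnLin_TEf (hw : Wt w) (M : List (Lv Ω)) (h : Ω → ℝ) : FnLin (TEf w M h) :=
  ⟨fun s F F' => Law.TE_add hw s M h F F', fun s c F => Law.TE_const_mul hw s M h c F⟩

theorem fnLin_iDn (hw : Wt w) (L : List (IL Ω)) (h : Ω → ℝ) (n : ℕ) (t : ℝ) :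
    FnLin fun s F => iDn w L h n s F t := (fnLin_TEf hw (ipl L t) h).itE _ _ _ n


/-- a functional of bulk functions read on the product -/
theorem itE_fst (ε : ℝ) (M : List (Lv Θ)) (U : ℕ → Ω → Ω → ℝ) (E : Fn (Ω × S)) :
    ∀ (n : ℕ) (s : Sh) (G : (s.Lf → Ω) → ℝ),
      itE ε M (fun j x y => U j x.1 y.1) E n s (fun x => G fun a => (x a).1) =
        itE ε M U (fun s G => E s fun x => G fun a => (x a).1) n s G
  | 0, _, _ => rfl
  | n + 1, s, G => congrArg (sg ε M s) (funext fun τ => itE_fst ε M U E n τ.sh (τ.ev U G))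



end Crest.Agent.T156.Cas

end
private theorem rz_9d57746cbb : type_of% @_root_.Crest.Agent.T156.Cas.itM.eq_def := @_root_.Crest.Agent.T156.Cas.itM.eq_def -- L53
private theorem rz_2e3fe54d65 : type_of% @_root_.Crest.Agent.T156.Cas.itM.eq_1 := @_root_.Crest.Agent.T156.Cas.itM.eq_1 -- L53
end

-- ▼ part T156/Site_55
section

/-!
# Row 156: site exchangeability on replica trees (helper55)

The tree law `tX` is invariant under every symmetry of the data.  On the cube with levels that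
depend on the overlap only, a one-site function of the leaves may be replaced by its site average,
odd one-site functions vanish, and `k` distinct sites may be replaced by `k` independent averages at
the cost `k²/n`.
-/

set_option autoImplicit false
set_option linter.all false

noncomputable section

namespace Crest.Agent.T156.Cas.Site55

open MeasureTheory Real Set
open Crest.Agent.T157.E Crest.Agent.T157.Casc Crest.Agent.T157.SL
open Crest.Agent.T156.Sgn (SP act actE)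

section gen
variable {Ω : Type} [Fintype Ω] {w : Ω → ℝ}

/-- the tree law is invariant under the symmetries of the data -/
theorem tX_sym (hw : Wt w) {L : List (Lv Ω)} {h : Ω → ℝ} {τ : Equiv.Perm Ω} (H : Sym w L h τ)
    (s : Sh) {F : (s.Lf → ℕ → Ω → ℝ) → (s.Lf → Ω) → ℝ} (hF : ∀ x, Measurable fun p => F p x) :
    tX w s L h (fun g x => F (stT s L h g) x) =
      tX w s L h fun g x => F (fun a j y => stT s L h g a j (τ y)) fun a => τ.symm (x a) := by
  unfold tX denT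
  simp only [Sy84.UT_eq]
  rw [Sy84.int_tree H s (G := fun p => ∑ x : s.Lf → Ω, (∏ a, w (x a)) *
      exp (-Sy84.UP w s L x p - s.br * ex L 0 * X w L h) * F p x)
    (Finset.measurable_sum _ fun x _ =>
      ((((Sy84.meas_UP hw s L x).neg.sub_const _).exp).const_mul _).mul (hF x))]
  refine integral_congr_ae (.of_forall fun g => ?_)
  simp only [Sy84.UP_sym hw H.w s L H.cov]
  refine Fintype.sum_equiv (Equiv.piCongrRight fun _ => τ) _ _ fun x => ?_
  have e : (Equiv.piCongrRight fun _ : s.Lf => τ) x = fun a => τ (x a) := rfl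
  simp only [e, H.w, Equiv.symm_apply_apply]


variable (s : Sh) (L : List (Lv Ω)) (h : Ω → ℝ)

theorem tX_cmul (c : ℝ) (F : (NT s L → ℝ) → (s.Lf → Ω) → ℝ) :
    tX w s L h (fun g x => c * F g x) = c * tX w s L h F := by
  unfold tX
  rw [← integral_const_mul]
  refine integral_congr_ae (.of_forall fun g => ?_)
  simp only [Finset.mul_sum]
  exact Finset.sum_congr rfl fun x _ => by ring

theorem tX_neg (F : (NT s L → ℝ) → (s.Lf → Ω) → ℝ) :
    tX w s L h (fun g x => -F g x) = -tX w s L h F := by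
  simpa using tX_cmul (w := w) s L h (-1) F

theorem tX_sum (hw : Wt w) {α : Type*} (S : Finset α) {F : α → (NT s L → ℝ) → (s.Lf → Ω) → ℝ}
    (hF : ∀ k ∈ S, ∀ x, Eg fun g => F k g x) :
    tX w s L h (fun g x => ∑ k ∈ S, F k g x) = ∑ k ∈ S, tX w s L h (F k) := by
  unfold tX
  rw [← integral_finsetSum _ fun k hk => Tr.eg_int (Tr.eg_sumT hw s L h (hF k hk))]
  refine integral_congr_ae (.of_forall fun g => ?_)
  simp only [Finset.mul_sum]
  exact Finset.sum_comm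

theorem tX_mono (hw : Wt w) {F F' : (NT s L → ℝ) → (s.Lf → Ω) → ℝ}
    (hF : ∀ x, Eg fun g => F g x) (hF' : ∀ x, Eg fun g => F' g x) (e : ∀ g x, F g x ≤ F' g x) :
    tX w s L h F ≤ tX w s L h F' :=
  integral_mono (Tr.eg_int (Tr.eg_sumT hw s L h hF)) (Tr.eg_int (Tr.eg_sumT hw s L h hF'))
    fun g => Finset.sum_le_sum fun x _ =>
      mul_le_mul_of_nonneg_left (e g x) (Tr.denT_nonneg hw s L h g x)

theorem tX_nonneg (hw : Wt w) {F : (NT s L → ℝ) → (s.Lf → Ω) → ℝ} (e : ∀ g x, 0 ≤ F g x) :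
    0 ≤ tX w s L h F :=
  integral_nonneg fun g => Finset.sum_nonneg fun x _ =>
    mul_nonneg (Tr.denT_nonneg hw s L h g x) (e g x)


theorem abs_tX_le (hw : Wt w) {F F' : (NT s L → ℝ) → (s.Lf → Ω) → ℝ}
    (hF : ∀ x, Eg fun g => F g x) (hF' : ∀ x, Eg fun g => F' g x) (e : ∀ g x, |F g x| ≤ F' g x) :
    |tX w s L h F| ≤ tX w s L h F' := by
  refine abs_le.2 ⟨?_, tX_mono s L h hw hF hF' fun g x => (le_abs_self _).trans (e g x)⟩
  rw [← tX_neg]
  exact tX_mono s L h hw (fun x => by simpa using (hF' x).const_mul (-1)) hF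
    fun g x => (abs_le.1 (e g x)).1


end gen

/-! ### the cube -/

variable {n : ℕ}

/-- paths of the leaves `κ` -/
abbrev Pt55 (κ : Type) (n : ℕ) : Type := κ → ℕ → Cube n → ℝ

/-- `G (path, leaves)` is invariant under the signed permutation `g` -/
def InvAt {κ : Type} (G : Pt55 κ n → (κ → Cube n) → ℝ) (g : SP (Fin n)) : Prop :=
  ∀ p x, G (fun a j y => p a j (act g y)) (fun a => (actE g).symm (x a)) = G p x

/-- invariant under the permutations of the sites -/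
def SInv {κ : Type} (G : Pt55 κ n → (κ → Cube n) → ℝ) : Prop :=
  ∀ pr : Equiv.Perm (Fin n), InvAt G (fun _ => false, pr)

/-- invariant under all signed permutations -/
def BInv {κ : Type} (G : Pt55 κ n → (κ → Cube n) → ℝ) : Prop := ∀ g, InvAt G g

theorem BInv.sInv {κ : Type} {G : Pt55 κ n → (κ → Cube n) → ℝ} (h : BInv G) : SInv G :=
  fun _ => h _

theorem ov_symm_act (g : SP (Fin n)) (x y : Cube n) :
    T157.G1.ov ((actE g).symm x) ((actE g).symm y) = T157.G1.ov x y := ov_act (Sgn.inv g) x y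

/-- functions of the overlap matrix of the leaves are invariant -/
theorem bInv_ov {κ : Type} (ψ : (κ → κ → ℝ) → ℝ) :
    BInv fun (_ : Pt55 κ n) x => ψ fun a b => T157.G1.ov (x a) (x b) := fun g p x => by
  simp only [ov_symm_act]

theorem BInv.mul {κ : Type} {G G' : Pt55 κ n → (κ → Cube n) → ℝ} (h : BInv G) (h' : BInv G') :
    BInv fun p x => G p x * G' p x := fun g p x => by
  beta_reduce
  rw [h g, h' g]

theorem SInv.mul {κ : Type} {G G' : Pt55 κ n → (κ → Cube n) → ℝ} (h : SInv G) (h' : SInv G') :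
    SInv fun p x => G p x * G' p x := fun g p x => by
  beta_reduce
  rw [h g, h' g]

theorem wt_one : Wt fun _ : Cube n => (1 : ℝ) := ⟨fun _ => zero_le_one, by simp⟩

variable {L : List (Lv (Cube n))} {s : Sh} {G : Pt55 s.Lf n → (s.Lf → Cube n) → ℝ}

local notation "tx" => tX (fun _ => (1 : ℝ)) s L 0
local notation "pa" => stT s L 0

/-- an invariant factor times any function of the leaves -/
theorem tX_act (hL : ∀ l ∈ L, OvLv l) (hm : ∀ x, Measurable fun p => G p x) {g : SP (Fin n)}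
    (hG : InvAt G g) (Ξ : (s.Lf → Cube n) → ℝ) :
    tx (fun u x => G (pa u) x * Ξ x) =
      tx fun u x => G (pa u) x * Ξ fun a => (actE g).symm (x a) := by
  rw [tX_sym wt_one (sym_act₀ hL (actE g) ⟨g, rfl⟩) s (F := fun p x => G p x * Ξ x)
    fun x => (hm x).mul_const _]
  simp only [Sgn.actE_apply, hG _]

/-- **distinct sites are exchangeable** -/
theorem tX_inj (hL : ∀ l ∈ L, OvLv l) (hm : ∀ x, Measurable fun p => G p x) (hG : SInv G)
    {ι : Type} [Finite ι] {e e' : ι → Fin n} (he : Function.Injective e)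
    (he' : Function.Injective e') (Ξ : (ι → s.Lf → Bool) → ℝ) :
    tx (fun u x => G (pa u) x * Ξ fun r a => x a (e r)) =
      tx fun u x => G (pa u) x * Ξ fun r a => x a (e' r) := by
  obtain ⟨pr, hpr⟩ := Equiv.Perm.exists_extending_pair e' e he' he
  rw [tX_act hL hm (hG pr)]
  congr 1
  funext u x
  congr 2
  funext r a
  change act (Sgn.inv _) (x a) (e r) = _
  simp [act, Sgn.inv, ← hpr r]

theorem tX_site_eq (hL : ∀ l ∈ L, OvLv l) (hm : ∀ x, Measurable fun p => G p x) (hG : SInv G)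
    (i j : Fin n) (ξ : (s.Lf → Bool) → ℝ) :
    tx (fun u x => G (pa u) x * ξ fun a => x a i) = tx fun u x => G (pa u) x * ξ fun a => x a j :=
  tX_inj hL hm hG (ι := Unit) (e := fun _ => i) (e' := fun _ => j)
    (Function.injective_of_subsingleton _) (Function.injective_of_subsingleton _) fun b => ξ (b ())

/-- **last spin to site average** -/
theorem tX_site (hL : ∀ l ∈ L, OvLv l) (hm : ∀ x, Measurable fun p => G p x)
    (hE : ∀ x, Eg fun u => G (pa u) x) (hG : SInv G) (i : Fin n) (ξ : (s.Lf → Bool) → ℝ) :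
    tx (fun u x => G (pa u) x * ξ fun a => x a i) =
      tx fun u x => G (pa u) x * ((∑ j, ξ fun a => x a j) / n) := by
  have hn : (n : ℝ) ≠ 0 := Nat.cast_ne_zero.2 (Fin.pos i).ne'
  have e : (fun (u : NT s L → ℝ) (x : s.Lf → Cube n) => G (pa u) x * ((∑ j, ξ fun a => x a j) / n))
      = fun u x => (n : ℝ)⁻¹ * ∑ j, G (pa u) x * ξ fun a => x a j := by
    funext u x
    rw [← Finset.mul_sum]
    ring
  rw [e, tX_cmul, tX_sum s L 0 wt_one _ fun j _ x => (hE x).mul (Eg.const _),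
    Finset.sum_congr rfl fun j _ => tX_site_eq hL hm hG j i ξ]
  simp only [Finset.sum_const, Finset.card_univ, Fintype.card_fin, nsmul_eq_mul]
  field_simp

/-- **last spin to overlap** -/
theorem tX_ov (hL : ∀ l ∈ L, OvLv l) (hm : ∀ x, Measurable fun p => G p x)
    (hE : ∀ x, Eg fun u => G (pa u) x) (hG : SInv G) (i : Fin n) (a b : s.Lf) :
    tx (fun u x => G (pa u) x * (sv (x a) i * sv (x b) i)) =
      tx fun u x => G (pa u) x * T157.G1.ov (x a) (x b) :=
  tX_site hL hm hE hG i fun c => Crest.ProbabilityR.SpinGlassDynamics.spin (c a) * Crest.ProbabilityR.SpinGlassDynamics.spin (c b)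

/-- odd one-site functions vanish -/
theorem tX_odd (hL : ∀ l ∈ L, OvLv l) (hm : ∀ x, Measurable fun p => G p x) (i : Fin n)
    (hG : InvAt G (fun j => decide (j = i), 1)) (Ξ : (s.Lf → Cube n) → ℝ)
    (hΞ : ∀ x, Ξ (fun a => Function.update (x a) i (!x a i)) = -Ξ x) :
    tx (fun u x => G (pa u) x * Ξ x) = 0 := by
  have h1 := tX_act hL hm hG Ξ
  have e : ∀ x : s.Lf → Cube n, (fun a => (actE ((fun j => decide (j = i), 1) : SP (Fin n))).symm
      (x a)) = fun a => Function.update (x a) i (!x a i) := by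
    intro x
    funext a j
    change act (Sgn.inv _) (x a) j = _
    by_cases hj : j = i
    · subst hj; simp [act, Sgn.inv, Equiv.Perm.one_def]
    · simp [act, Sgn.inv, hj, Equiv.Perm.one_def]
  simp only [e, hΞ, mul_neg, tX_neg] at h1
  linarith


/-! ### `k` distinct sites against `k` independent averages -/





/-! ### functions of the leaves only -/

section leaf
variable (ψ : (s.Lf → s.Lf → ℝ) → ℝ)


theorem leaf_ov (hL : ∀ l ∈ L, OvLv l) (i : Fin n) (a b : s.Lf) :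
    tx (fun _ x => ψ (fun a b => T157.G1.ov (x a) (x b)) * (sv (x a) i * sv (x b) i)) =
      tx fun _ x => ψ (fun a b => T157.G1.ov (x a) (x b)) * T157.G1.ov (x a) (x b) :=
  tX_ov (G := fun _ x => ψ fun a b => T157.G1.ov (x a) (x b)) hL (fun _ => measurable_const)
    (fun _ => Eg.const _) (bInv_ov ψ).sInv i a b


end leaf

end Crest.Agent.T156.Cas.Site55

end
end

-- ▼ part T156/OneP_23

/-!
# Row 156: the ONE cavity path (helper23)

On `Cube n × Bool`, the path `op n β M q θ` joins (`n`-system) × (site cascade) at `θ = 0` to the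
`n + 1` system at `θ = 1`; the derivative of its covariance at the split `j` is
`τ_j (η U - U² / 2)`, `U = R - q_j`, `η = ε ε' - q_j`.
-/

set_option autoImplicit false
set_option linter.unusedSectionVars false

noncomputable section

namespace Crest.Agent.T156.Cas

open MeasureTheory Real Set Filter Topology
open Crest.Agent.T157.E Crest.Agent.T157.Casc Crest.Agent.T157.SL
open Crest.Agent.T157.Casc.C (Same addLv coLv push)
open Crest.Agent.T157.G1 (ov fl)
open Crest.ProbabilityR.SpinGlassDynamics (spin)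

/-- a level `p = (m, d, f)` with the increments `u` of `τ q` and `v` of `τ q² / 2` -/
structure OL where
  p : ℝ × ℝ × ℝ
  u : ℝ
  v : ℝ

/-- all variances are nonnegative -/
def OL.Ok (c : OL) : Prop := 0 ≤ c.p.2.1 ∧ 0 ≤ c.p.2.2 ∧ 0 ≤ c.u ∧ 0 ≤ c.v

/-- one level of the path -/
def OL.il (n : ℕ) (β : ℝ) (c : OL) : IL (Cube n × Bool) :=
  ⟨pl (mxL n (bb n β) c.p, C.sl spin (c.p.1, c.p.2.2)),
    addLv (rowL n (bb n β) c.p.2.1 c.p.1) (cLv _ c.v c.p.1),
    pl (wl n (bb n β) (c.p.2.1 / n) c.p.1, C.sl spin (c.p.1, c.u))⟩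

/-- the increments of `τ q` and `τ q² / 2` along `M`, started from `τ = T` -/
def oInc (κ : ℝ) : ℝ → (ℕ → ℝ) → List (ℝ × ℝ × ℝ) → List OL
  | _, _, [] => []
  | T, q, p :: M => ⟨p, (T + κ * p.2.1) * q 1 - T * q 0,
      ((T + κ * p.2.1) * q 1 ^ 2 - T * q 0 ^ 2) / 2⟩ :: oInc κ (T + κ * p.2.1) (fun j => q (j + 1)) M

/-- accumulated W-variance -/
def dAcc (M : List (ℝ × ℝ × ℝ)) (j : ℕ) : ℝ := ((M.take j).map fun p => p.2.1).sum

/-- accumulated field variance -/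
def fAcc (M : List (ℝ × ℝ × ℝ)) (j : ℕ) : ℝ := ((M.take j).map fun p => p.2.2).sum

/-- `τ_j = β² n / (n + 1) ∑_{i<j} d_i` -/
def oTau (n : ℕ) (β : ℝ) (M : List (ℝ × ℝ × ℝ)) (j : ℕ) : ℝ := bb n β ^ 2 * dAcc M j

/-- admissible data: variances, and a nondecreasing reference from `q 0 ≥ 0` to `1` -/
structure OOk (M : List (ℝ × ℝ × ℝ)) (q : ℕ → ℝ) : Prop where
  nn : ∀ p ∈ M, 0 ≤ p.2.1 ∧ 0 ≤ p.2.2
  q0 : 0 ≤ q 0
  mono : ∀ j < M.length, q j ≤ q (j + 1)
  top : q M.length = 1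

/-- the levels of the path -/
def opL (n : ℕ) (β : ℝ) (M : List (ℝ × ℝ × ℝ)) (q : ℕ → ℝ) : List (IL (Cube n × Bool)) :=
  (oInc (bb n β ^ 2) 0 q M).map (OL.il n β)

/-- **the ONE path** -/
def op (n : ℕ) (β : ℝ) (M : List (ℝ × ℝ × ℝ)) (q : ℕ → ℝ) (θ : ℝ) : List (Lv (Cube n × Bool)) :=
  ipl (opL n β M q) θ

/-- tilts and variances of the site cascade -/
def opV (n : ℕ) (β : ℝ) (M : List (ℝ × ℝ × ℝ)) (q : ℕ → ℝ) : List (ℝ × ℝ) :=
  (oInc (bb n β ^ 2) 0 q M).map fun c => (c.p.1, c.p.2.2 + c.u)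

/-- the site cascade -/
def opS (n : ℕ) (β : ℝ) (M : List (ℝ × ℝ × ℝ)) (q : ℕ → ℝ) : List (Lv Bool) :=
  (opV n β M q).map (C.sl spin)

/-- `U = R - q_j` -/
def oU {n : ℕ} (q : ℕ → ℝ) (j : ℕ) (x y : Cube n) : ℝ := ov x y - q j

/-- `η = ε ε' - q_j` -/
def oE (q : ℕ → ℝ) (j : ℕ) (a b : Bool) : ℝ := spin a * spin b - q j

/-- `τ_j (η U - U² / 2)` -/
def oD (n : ℕ) (β : ℝ) (M : List (ℝ × ℝ × ℝ)) (q : ℕ → ℝ) (j : ℕ) (x y : Cube n × Bool) : ℝ :=
  oTau n β M j * (oE q j x.2 y.2 * oU q j x.1 y.1 - oU q j x.1 y.1 ^ 2 / 2)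

/-- the overlap of the `n + 1` system -/
def ov1 {n : ℕ} (x y : Cube n × Bool) : ℝ := (n * ov x.1 y.1 + spin x.2 * spin y.2) / (n + 1)

namespace OneP

theorem dAcc_cons (p : ℝ × ℝ × ℝ) (M : List (ℝ × ℝ × ℝ)) (j : ℕ) :
    dAcc (p :: M) (j + 1) = p.2.1 + dAcc M j := by simp [dAcc]

theorem dAcc_zero (M : List (ℝ × ℝ × ℝ)) : dAcc M 0 = 0 := by simp [dAcc]

theorem oInc_p (κ : ℝ) : ∀ (M : List (ℝ × ℝ × ℝ)) (T : ℝ) (q : ℕ → ℝ), (oInc κ T q M).map OL.p = M
  | [], _, _ => rfl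
  | p :: M, _, _ => by rw [oInc, List.map_cons, oInc_p κ M]

theorem oInc_map {α : Type*} (κ T : ℝ) (q : ℕ → ℝ) (M : List (ℝ × ℝ × ℝ)) (f : ℝ × ℝ × ℝ → α) :
    ((oInc κ T q M).map fun c => f c.p) = M.map f := by
  conv_rhs => rw [← oInc_p κ M T q, List.map_map]
  rfl

theorem oInc_length (κ T : ℝ) (q : ℕ → ℝ) (M : List (ℝ × ℝ × ℝ)) :
    (oInc κ T q M).length = M.length := by
  simpa using congrArg List.length (oInc_p κ M T q)

theorem oInc_ok {κ : ℝ} (hκ : 0 ≤ κ) : ∀ (M : List (ℝ × ℝ × ℝ)) (T : ℝ) (q : ℕ → ℝ), 0 ≤ T →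
    (∀ p ∈ M, 0 ≤ p.2.1 ∧ 0 ≤ p.2.2) → 0 ≤ q 0 → (∀ j < M.length, q j ≤ q (j + 1)) →
    ∀ c ∈ oInc κ T q M, c.Ok
  | [], _, _, _, _, _, _, _, hc => by simp [oInc] at hc
  | p :: M, T, q, hT, hM, h0, hq, c, hc => by
    have h1 := hM p (by simp)
    have h2 : q 0 ≤ q 1 := hq 0 (by simp)
    have h3 := mul_nonneg hκ h1.1
    rcases List.mem_cons.1 hc with rfl | hc
    · refine ⟨h1.1, h1.2, ?_, ?_⟩
      · show 0 ≤ (T + κ * p.2.1) * q 1 - T * q 0
        nlinarith [mul_nonneg hT (sub_nonneg.2 h2), mul_nonneg h3 (h0.trans h2)]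
      · show 0 ≤ ((T + κ * p.2.1) * q 1 ^ 2 - T * q 0 ^ 2) / 2
        have h4 := pow_le_pow_left₀ h0 h2 2
        nlinarith [mul_nonneg hT (sub_nonneg.2 h4), mul_nonneg h3 (sq_nonneg (q 1))]
    · exact oInc_ok hκ M _ _ (add_nonneg hT h3) (fun p hp => hM p (by simp [hp])) (h0.trans h2)
        (fun j hj => hq (j + 1) (by simpa using hj)) c hc

theorem oInc_uv (κ : ℝ) : ∀ (M : List (ℝ × ℝ × ℝ)) (T : ℝ) (q : ℕ → ℝ) (j : ℕ), j ≤ M.length →
    (((oInc κ T q M).take j).map OL.u).sum = (T + κ * dAcc M j) * q j - T * q 0 ∧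
    (((oInc κ T q M).take j).map OL.v).sum = ((T + κ * dAcc M j) * q j ^ 2 - T * q 0 ^ 2) / 2
  | _, _, _, 0, _ => by simp [dAcc_zero]
  | [], _, _, _ + 1, h => by simp at h
  | p :: M, T, q, j + 1, h => by
    have := oInc_uv κ M (T + κ * p.2.1) (fun j => q (j + 1)) j (by simpa using h)
    simp only [oInc, List.take_succ_cons, List.map_cons, List.sum_cons, this.1, this.2, dAcc_cons,
      zero_add]
    constructor <;> ring

/-- summation by parts against the tilts -/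
theorem abel {α Θ : Type} (f : α → Lv Θ) (v : α → ℝ) : ∀ (A : List α) (m0 a : ℝ),
    ∑ j ∈ Finset.range (A.length + 1), dm (A.map f) m0 j * (a + ((A.take j).map v).sum) =
      a + (A.map v).sum - m0 * a - (A.map fun c => (f c).m * v c).sum
  | [], m0, a => by simp [dm, ex, exP]; ring
  | c :: A, m0, a => by
    have := abel f v A (f c).m (a + v c)
    rw [List.length_cons, Finset.sum_range_succ']
    simp only [List.map_cons, dm_cons_succ, List.take_succ_cons, List.sum_cons, ← add_assoc, this]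
    simp [dm, ex, exP]
    ring

variable {n : ℕ} {β : ℝ}

theorem b_cov (hn : 0 < n) {c : OL} (hc : c.Ok) (x y : Cube n × Bool) :
    (c.il n β).b.cov x y = c.p.2.1 * (bb n β ^ 2 * n / 2 * ov x.1 y.1 ^ 2) +
      c.p.2.2 * n * ov x.1 y.1 + c.p.2.2 * (spin x.2 * spin y.2) := by
  simp only [OL.il, pl_cov, mxL_cov hn _ hc.1 hc.2.1, sl_cov90 hc.2.1]

theorem k1_cov (hn : 0 < n) {c : OL} (hc : c.Ok) (x y : Cube n × Bool) :
    (c.il n β).k1.cov x y = spin x.2 * spin y.2 * (c.p.2.1 * bb n β ^ 2 * ov x.1 y.1) + c.v := by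
  simp only [OL.il, Lin22.add_cov, rowL_cov hn _ hc.1, cLv_cov23 hc.2.2.2]

theorem k0_cov (hn : 0 < n) {c : OL} (hc : c.Ok) (x y : Cube n × Bool) :
    (c.il n β).k0.cov x y =
      c.p.2.1 * bb n β ^ 2 * ov x.1 y.1 ^ 2 / 2 + c.u * (spin x.2 * spin y.2) := by
  have hn' : (n : ℝ) ≠ 0 := Nat.cast_ne_zero.2 hn.ne'
  simp only [OL.il, pl_cov, sl_cov90 hc.2.2.1,
    Link33.cov_wl n _ _ _ _ _ hn (div_nonneg hc.1 n.cast_nonneg)]
  field_simp

theorem iD_il (hn : 0 < n) (x y : Cube n × Bool) : ∀ (L : List OL) (j : ℕ), (∀ c ∈ L, c.Ok) →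
    iD (L.map (OL.il n β)) j x y =
      bb n β ^ 2 * ((L.take j).map fun c => c.p.2.1).sum *
        (spin x.2 * spin y.2 * ov x.1 y.1 - ov x.1 y.1 ^ 2 / 2) +
      ((L.take j).map OL.v).sum - ((L.take j).map OL.u).sum * (spin x.2 * spin y.2)
  | [], _, _ => by simp [iD]
  | _ :: _, 0, _ => by simp [iD]
  | c :: L, j + 1, H => by
    rw [List.map_cons, iD_cons, iD_il hn x y L j fun c hc => H c (by simp [hc]), IL.D,
      k1_cov hn (H c (by simp)), k0_cov hn (H c (by simp))]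
    simp only [List.take_succ_cons, List.map_cons, List.sum_cons]
    ring

theorem abs_spin2 (a b : Bool) : |spin a * spin b| = 1 := by cases a <;> cases b <;> simp [spin]

end OneP

open OneP

variable {n : ℕ} {β : ℝ} {M : List (ℝ × ℝ × ℝ)} {q : ℕ → ℝ}

theorem OOk.ok (H : OOk M q) (n : ℕ) (β : ℝ) : ∀ c ∈ oInc (bb n β ^ 2) 0 q M, c.Ok :=
  oInc_ok (sq_nonneg _) M 0 q le_rfl H.nn H.q0 H.mono

theorem OOk.le (H : OOk M q) {i j : ℕ} (hij : i ≤ j) (hj : j ≤ M.length) : q i ≤ q j := by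
  induction hij with
  | refl => exact le_rfl
  | step _ ih => exact (ih (Nat.le_of_succ_le hj)).trans (H.mono _ hj)

theorem OOk.mem (H : OOk M q) {j : ℕ} (hj : j ≤ M.length) : q j ∈ Icc (0 : ℝ) 1 :=
  ⟨H.q0.trans (H.le (Nat.zero_le j) hj), (H.le hj le_rfl).trans_eq H.top⟩

theorem OOk.dAcc_le (H : OOk M q) (j : ℕ) : 0 ≤ dAcc M j ∧ dAcc M j ≤ dAcc M M.length := by
  have h : ∀ N : List (ℝ × ℝ × ℝ), (∀ p ∈ N, p ∈ M) → 0 ≤ (N.map fun p => p.2.1).sum :=
    fun N hN => List.sum_nonneg fun x hx => by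
      obtain ⟨p, hp, rfl⟩ := List.mem_map.1 hx
      exact (H.nn p (hN p hp)).1
  refine ⟨h _ fun p hp => List.mem_of_mem_take hp, ?_⟩
  have := h (M.drop j) fun p hp => List.mem_of_mem_drop hp
  rw [dAcc, dAcc, List.take_length]
  conv_rhs => rw [← List.take_append_drop j M, List.map_append, List.sum_append]
  linarith

theorem OOk.oTau_le (H : OOk M q) (n : ℕ) (β : ℝ) (j : ℕ) :
    0 ≤ oTau n β M j ∧ oTau n β M j ≤ oTau n β M M.length :=
  ⟨mul_nonneg (sq_nonneg _) (H.dAcc_le j).1,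
    mul_le_mul_of_nonneg_left (H.dAcc_le j).2 (sq_nonneg _)⟩

theorem opL_length : (opL n β M q).length = M.length := by rw [opL, List.length_map, oInc_length]

theorem op_length (θ : ℝ) : (op n β M q θ).length = M.length := by rw [op, ipl_length, opL_length]

theorem opS_length : (opS n β M q).length = M.length := by
  rw [opS, opV, List.length_map, List.length_map, oInc_length]

theorem tilt_opL : ((opL n β M q).map IL.b).map Lv.m = (M.map (mxL n β)).map Lv.m := by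
  simp only [opL, List.map_map]
  exact oInc_map _ _ _ _ fun p => p.1

theorem tilt_op (θ : ℝ) : (op n β M q θ).map Lv.m = (M.map (mxL n β)).map Lv.m :=
  (tilt_ipl _ θ).trans tilt_opL

theorem tilt_opS : (opS n β M q).map Lv.m = (M.map (mxL n β)).map Lv.m := by
  simp only [opS, opV, List.map_map]
  exact oInc_map _ _ _ _ fun p => p.1

theorem dm_opL (m0 : ℝ) (j : ℕ) :
    dm ((opL n β M q).map IL.b) m0 j = dm (M.map (mxL n β)) m0 j := Cav22.dm_tilt tilt_opL m0 j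

theorem mono_opL (hM : Mono 0 (M.map (mxL n β))) : Mono 0 ((opL n β M q).map IL.b) :=
  Cav22.mono_tilt tilt_opL.symm hM

/-- accumulated variance of the site cascade: `σ_j = τ_j q_j + h_j` -/
theorem opV_acc {j : ℕ} (hj : j ≤ M.length) :
    (((opV n β M q).take j).map Prod.snd).sum = oTau n β M j * q j + fAcc M j := by
  have h1 := (oInc_uv (bb n β ^ 2) M 0 q j hj).1
  have h2 : (((oInc (bb n β ^ 2) 0 q M).take j).map fun c => c.p.2.2).sum = fAcc M j := by
    rw [List.map_take, oInc_map _ _ _ _ fun p => p.2.2, fAcc, List.map_take]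
  rw [opV, ← List.map_take, List.map_map]
  simp only [Function.comp_def, List.sum_map_add, h2]
  erw [h1]
  rw [oTau]
  ring

theorem opV_nn (H : OOk M q) : ∀ p ∈ opV n β M q, 0 ≤ p.2 := fun p hp => by
  obtain ⟨c, hc, rfl⟩ := List.mem_map.1 hp
  exact add_nonneg (H.ok n β c hc).2.1 (H.ok n β c hc).2.2.1

/-- **the derivative of the covariance** -/
theorem iD_op (hn : 0 < n) (H : OOk M q) {j : ℕ} (hj : j ≤ M.length) :
    iD (opL n β M q) j = oD n β M q j := by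
  funext x y
  have h := oInc_uv (bb n β ^ 2) M 0 q j hj
  rw [opL, iD_il hn x y _ j (H.ok n β), h.1, h.2, List.map_take, oInc_map _ _ _ _ fun p => p.2.1,
    ← List.map_take, oD, oTau, oE, oU, dAcc]
  ring

theorem iD_op_min (hn : 0 < n) (H : OOk M q) (j : ℕ) :
    iD (opL n β M q) j = oD n β M q (min j M.length) := by
  rw [← iD_op hn H (min_le_right _ _)]
  funext x y
  rw [iD, iD, ← opL_length (n := n) (β := β) (q := q), ← List.take_eq_take_min]

/-- zero on the diagonal -/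
theorem iD_op_diag (hn : 0 < n) (H : OOk M q) (y : Cube n × Bool) :
    iD (opL n β M q) (opL n β M q).length y y = 0 := by
  rw [opL_length, iD_op hn H le_rfl, oD, oU, ov_self hn, H.top]
  simp

theorem abs_oU_le (H : OOk M q) {j : ℕ} (hj : j ≤ M.length) (x y : Cube n) : |oU q j x y| ≤ 2 := by
  have h1 := abs_le.1 (abs_ov_le x y)
  have h2 := H.mem hj
  exact abs_le.2 ⟨by rw [oU]; linarith [h2.2], by rw [oU]; linarith [h2.1]⟩

theorem abs_oE_le (H : OOk M q) {j : ℕ} (hj : j ≤ M.length) (a b : Bool) : |oE q j a b| ≤ 2 := by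
  have h1 := abs_le.1 (abs_spin2 a b).le
  have h2 := H.mem hj
  exact abs_le.2 ⟨by rw [oE]; linarith [h2.2], by rw [oE]; linarith [h2.1]⟩

theorem abs_oD_le (H : OOk M q) {j : ℕ} (hj : j ≤ M.length) (x y : Cube n × Bool) :
    |oD n β M q j x y| ≤ 3 * oTau n β M j * |oU q j x.1 y.1| := by
  have h1 := abs_oU_le H hj x.1 y.1
  have h2 := abs_oE_le H hj x.2 y.2
  have h3 := (H.oTau_le n β j).1
  rw [oD, show ∀ e u : ℝ, e * u - u ^ 2 / 2 = (e - u / 2) * u from fun e u => by ring, abs_mul,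
    abs_mul, abs_of_nonneg h3, mul_comm 3, mul_assoc]
  refine mul_le_mul_of_nonneg_left (mul_le_mul_of_nonneg_right ?_ (abs_nonneg _)) h3
  rw [abs_le] at h1 h2 ⊢
  constructor <;> linarith [h1.1, h1.2, h2.1, h2.2]

theorem abs_iD_op (hn : 0 < n) (H : OOk M q) (j : ℕ) (x y : Cube n × Bool) :
    |iD (opL n β M q) j x y| ≤ 6 * oTau n β M M.length := by
  rw [iD_op_min hn H]
  refine (abs_oD_le H (min_le_right _ _) x y).trans ?_
  have h1 := abs_oU_le H (min_le_right j _) x.1 y.1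
  have h2 := H.oTau_le n β (min j M.length)
  nlinarith [h2.1, h2.2, abs_nonneg (oU q (min j M.length) x.1 y.1)]

/-! ### the endpoint `θ = 0` -/

theorem prd_op (hn : 0 < n) (H : OOk M q) : List.Forall₂ Prd (op n β M q 0)
    ((oInc (bb n β ^ 2) 0 q M).map fun c => (mxL n β c.p, C.sl spin (c.p.1, c.p.2.2 + c.u))) := by
  have hn' : (n : ℝ) + 1 ≠ 0 := by positivity
  rw [op, opL, ipl_eq, List.map_map]
  refine Lin22.forall₂_map _ _ _ fun c hc => ⟨rfl, rfl, fun x y => ?_⟩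
  have h := H.ok n β c hc
  refine (IL.cov_at _ ⟨le_rfl, zero_le_one⟩ x y).trans ?_
  rw [b_cov hn h, k0_cov hn h, mxL_cov hn β h.1 h.2.1, sl_cov90 (add_nonneg h.2.1 h.2.2.1), bb_sq]
  field_simp
  ring

theorem X_op_zero (hn : 0 < n) (H : OOk M q) (z₁ : Cube n → ℝ) (z₂ : Bool → ℝ) :
    X (fun _ => 1) (op n β M q 0) (ad z₁ z₂) =
      X (fun _ => 1) (M.map (mxL n β)) z₁ + X (fun _ => 1) (opS n β M q) z₂ := by
  have := Law.X_prd wt_one90 wt_one90 (prd_op (β := β) hn H) z₁ z₂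
  rw [Law.pw2_one, List.map_map, List.map_map] at this
  rw [this, opS, opV, List.map_map, ← oInc_map (bb n β ^ 2) 0 q M]
  rfl

theorem TE_op_zero (hn : 0 < n) (H : OOk M q) (z₁ : Cube n → ℝ) (z₂ : Bool → ℝ) (s : Sh)
    (G : (s.Lf → Cube n) → ℝ) (ξ : (s.Lf → Bool) → ℝ) :
    TE (fun _ => 1) s (op n β M q 0) (ad z₁ z₂) (tens G ξ) =
      TE (fun _ => 1) s (M.map (mxL n β)) z₁ G * TE (fun _ => 1) s (opS n β M q) z₂ ξ := by
  have := Law.TE_prd wt_one90 wt_one90 s (prd_op (β := β) hn H) G ξ z₁ z₂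
  rw [Law.pw2_one, List.map_map, List.map_map] at this
  rw [opS, opV, List.map_map, ← oInc_map (bb n β ^ 2) 0 q M]
  exact this

theorem pi2_op_zero (hn : 0 < n) (H : OOk M q) (z₁ : Cube n → ℝ) (z₂ : Bool → ℝ) (j : ℕ)
    (U : Cube n → Cube n → ℝ) (Z : Bool → Bool → ℝ) :
    pi2 (fun _ => 1) (op n β M q 0) j (fun x y => U x.1 y.1 * Z x.2 y.2) (ad z₁ z₂) =
      pi2 (fun _ => 1) (M.map (mxL n β)) j U z₁ * pi2 (fun _ => 1) (opS n β M q) j Z z₂ := by
  rw [← Wt87.tX_two wt_one90, ← Wt87.tX_two wt_one90, ← Wt87.tX_two wt_one90]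
  exact TE_op_zero hn H z₁ z₂ _ (pr2 j U) (pr2 j Z)

/-! ### the endpoint `θ = 1` -/

theorem sameC_op (hn : 0 < n) {c : OL} (hc : c.Ok) :
    SameC c.v ((c.il n β).tl.at 1) (cavL n (bb n β) c.p) := ⟨rfl, fun x y => by
  rw [IL.cov_at _ ⟨zero_le_one, le_rfl⟩, b_cov hn hc, k1_cov hn hc, cavL_cov hn _ hc.1 hc.2.1]
  ring⟩

theorem sameC_op_one (hn : 0 < n) (H : OOk M q) :
    List.Forall₂ (fun l l' => ∃ c, SameC c l l') (op n β M q 1) (M.map (cavL n (bb n β))) := by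
  rw [op, opL, ipl_eq, List.map_map, ← oInc_map (bb n β ^ 2) 0 q M]
  exact Lin22.forall₂_map _ _ _ fun c hc => ⟨c.v, sameC_op hn (H.ok n β c hc)⟩

/-- the laws at `θ = 1` are those of the `n + 1` system -/
theorem TE_op_one (hn : 0 < n) (H : OOk M q) (i : Fin (n + 1)) (s : Sh) (h : Cube n × Bool → ℝ)
    (F : (s.Lf → Cube n × Bool) → ℝ) : TE (fun _ => 1) s (op n β M q 1) h F =
      TE (fun _ => 1) s (M.map (mxL (n + 1) β)) (fun x => h (rmv i x))
        fun x => F fun a => rmv i (x a) :=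
  (Law.TE_sameC wt_one90 s (sameC_op_one hn H) F h).trans (tX_row hn i β H.nn s h F).symm


/-- the spin-free part: `(τ(1) - ∑ dm_j τ_j q_j²) / 4` -/
def oC (n : ℕ) (β : ℝ) (M : List (ℝ × ℝ × ℝ)) (q : ℕ → ℝ) : ℝ :=
  (oTau n β M M.length - ∑ j ∈ Finset.range (M.length + 1),
    dm (M.map (mxL n β)) 0 j * (oTau n β M j * q j ^ 2)) / 4

/-- the diagonal constant `c_n = β² ∑ m_j d_j / (4 (n + 1))` -/
def oN (n : ℕ) (β : ℝ) (M : List (ℝ × ℝ × ℝ)) : ℝ :=
  (M.map fun p => p.1 * p.2.1).sum * (β ^ 2 / (4 * (n + 1)))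


theorem sum_mv (H : OOk M q) :
    ((oInc (bb n β ^ 2) 0 q M).map fun c => c.p.1 * c.v / 2).sum = oC n β M q := by
  have h := abel (fun c : OL => mxL n β c.p) OL.v (oInc (bb n β ^ 2) 0 q M) 0 0
  have h1 := (oInc_uv (bb n β ^ 2) M 0 q M.length le_rfl).2
  rw [List.take_of_length_le (oInc_length _ _ _ _).le] at h1
  rw [oInc_map, oInc_length, h1, Finset.sum_congr rfl fun j hj => by
    rw [(oInc_uv (bb n β ^ 2) M 0 q j (Nat.lt_succ_iff.1 (Finset.mem_range.1 hj))).2]] at h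
  simp only [zero_add, zero_mul, sub_zero, mxL_m, H.top, ← mul_div_assoc, ← Finset.sum_div] at h
  simp only [div_eq_mul_inv _ (2 : ℝ), List.sum_map_mul_right, oC, oTau]
  linarith

theorem X_op_one (hn : 0 < n) (H : OOk M q) (i : Fin (n + 1)) (h : Cube n × Bool → ℝ) :
    X (fun _ => 1) (M.map (mxL (n + 1) β)) (fun x => h (rmv i x)) =
      X (fun _ => 1) (op n β M q 1) h - oC n β M q + oN n β M := by
  have := Law.X_sameC wt_one90 ((oInc (bb n β ^ 2) 0 q M).map fun c =>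
      ((c.il n β).tl.at 1, cavL n (bb n β) c.p, c.v)) (fun t ht => by
      obtain ⟨c, hc, rfl⟩ := List.mem_map.1 ht
      exact sameC_op hn (H.ok n β c hc)) h
  simp only [List.map_map, Function.comp_def] at this
  rw [oInc_map _ _ _ _ (cavL n (bb n β))] at this
  rw [X_row hn i β H.nn, ← sum_mv H, op, opL, ipl_eq, List.map_map]
  erw [this]
  rw [oN]
  have e : ∀ a b c : ℝ, a + c = a + b - b + c := fun a b c => by ring
  exact e _ _ _

theorem ad_rmv_zero (i : Fin (n + 1)) :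
    (fun x => (0 : Cube n × Bool → ℝ) (rmv i x)) = (0 : Cube (n + 1) → ℝ) := rfl

/-- `n`-th derivative of `∑ dm_j E_θ K_j`, for the path -/
abbrev oW (n : ℕ) (β : ℝ) (M : List (ℝ × ℝ × ℝ)) (q : ℕ → ℝ)
    (K : ℕ → Cube n × Bool → Cube n × Bool → ℝ) (k : ℕ) (θ : ℝ) : ℝ :=
  iW (fun _ => 1) (opL n β M q) 0 K k θ

theorem oW_zero (K : ℕ → Cube n × Bool → Cube n × Bool → ℝ) (θ : ℝ) :
    oW n β M q K 0 θ = ∑ j ∈ Finset.range (M.length + 1),
      dm (M.map (mxL n β)) 0 j * pi2 (fun _ => 1) (op n β M q θ) j (K j) 0 := by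
  simp only [oW, iW_zero wt_one90, opL_length, dm_opL, op]

theorem oW_iD (hn : 0 < n) (H : OOk M q) (k : ℕ) (θ : ℝ) :
    oW n β M q (iD (opL n β M q)) k θ = oW n β M q (oD n β M q) k θ :=
  Finset.sum_congr rfl fun j hj => by
    rw [iD_op hn H (by simpa only [opL_length] using Nat.lt_succ_iff.1 (Finset.mem_range.1 hj))]

/-- **(val)**, Taylor form -/
theorem val_taylor (hn : 0 < n) (H : OOk M q) (J : ℕ) :
    X (fun _ => 1) (M.map (mxL (n + 1) β)) 0 - X (fun _ => 1) (M.map (mxL n β)) 0 =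
      X (fun _ => 1) (opS n β M q) 0 - oC n β M q + oN n β M -
      (∑ k ∈ Finset.range J, oW n β M q (oD n β M q) k 0 / (k + 1).factorial +
        ∫ θ in (0 : ℝ)..1, oW n β M q (oD n β M q) J θ * (1 - θ) ^ J / J.factorial) / 2 := by
  have h1 := taylor_X_ipl wt_one90 (opL n β M q) 0 (iD_op_diag hn H) ⟨zero_le_one, le_rfl⟩ J
  have h2 := X_op_zero (β := β) hn H 0 0
  have h3 := X_op_one (β := β) hn H 0 0
  rw [Law.ad_zero] at h2
  rw [ad_rmv_zero] at h3
  simp only [oW_iD hn H, one_pow, mul_one, zero_div, add_zero] at h1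
  rw [h3, op, h1, ← op, h2]
  ring


/-! ### site symmetry at `θ = 1` -/

theorem ov1_rmv (hn : 0 < n) (i : Fin (n + 1)) (x y : Cube (n + 1)) :
    ov1 (rmv i x) (rmv i y) = ov x y := by
  have h1 : (n : ℝ) + 1 ≠ 0 := by positivity
  rw [ov1, ← ov_rmv hn, mul_div_cancel_left₀ _ h1]

theorem ovLv_mxL (hn : 0 < n) (hM : ∀ p ∈ M, 0 ≤ p.2.1 ∧ 0 ≤ p.2.2) :
    ∀ l ∈ M.map (mxL n β), OvLv l := fun l hl => by
  obtain ⟨p, hp, rfl⟩ := List.mem_map.1 hl
  exact ⟨fun r => p.2.1 * (β ^ 2 * n / 2 * r ^ 2) + p.2.2 * n * r,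
    mxL_cov hn β (hM p hp).1 (hM p hp).2⟩

/-- **(Sym)**, general form: against any function of the overlaps of the `n + 1` system -/
theorem sym_op (hn : 0 < n) (H : OOk M q) (s : Sh) (ψ : (s.Lf → s.Lf → ℝ) → ℝ) (a b : s.Lf) :
    TE (fun _ => 1) s (op n β M q 1) 0
        (fun x => ψ (fun c d => ov1 (x c) (x d)) * (spin (x a).2 * spin (x b).2)) =
      TE (fun _ => 1) s (op n β M q 1) 0
        fun x => ψ (fun c d => ov1 (x c) (x d)) * ov1 (x a) (x b) := by
  rw [TE_op_one hn H 0, TE_op_one hn H 0]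
  simp only [ov1_rmv hn]
  exact Site55.leaf_ov ψ (ovLv_mxL n.succ_pos H.nn) 0 a b


/-- **(Sym)**: `E (ε ε' - R) ψ = 0` -/
theorem sym_one (hn : 0 < n) (H : OOk M q) (s : Sh) (ψ : (s.Lf → s.Lf → ℝ) → ℝ) (a b : s.Lf) :
    TE (fun _ => 1) s (op n β M q 1) 0 (fun x => ψ (fun c d => ov1 (x c) (x d)) *
      (spin (x a).2 * spin (x b).2 - ov (x a).1 (x b).1)) = 0 := by
  have hn' : (n : ℝ) ≠ 0 := Nat.cast_ne_zero.2 hn.ne'
  have h1 : (n : ℝ) + 1 ≠ 0 := by positivity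
  have := sub_eq_zero.2 (sym_op (β := β) hn H s ψ a b)
  rw [← Law.TE_sub wt_one90] at this
  rw [← mul_zero (((n : ℝ) + 1) / n), ← this, ← Law.TE_const_mul wt_one90]
  congr 1
  funext x
  rw [ov1]
  field_simp
  ring

/-- **(test)** at every split -/
theorem test_op (hn : 0 < n) (H : OOk M q) (j : ℕ) :
    pi2 (fun _ => 1) (op n β M q 1) j (fun x y => oE q j x.2 y.2 - oU q j x.1 y.1) 0 = 0 := by
  rw [← Wt87.tX_two wt_one90]
  refine Eq.trans ?_ (sym_one (β := β) hn H (Sh.two j) (fun _ => 1) (Sh.twoL j) (Sh.twoR j))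
  simp only [oE, oU, one_mul, sub_sub_sub_cancel_right, TE]

/-- **(amp)** at every split, exact form -/
theorem amp_op (hn : 0 < n) (H : OOk M q) (j : ℕ) :
    pi2 (fun _ => 1) (op n β M q 1) j
        (fun x y => (oE q j x.2 y.2 - oU q j x.1 y.1) * oU q j x.1 y.1) 0 =
      -pi2 (fun _ => 1) (op n β M q 1) j
        (fun x y => 1 - spin x.2 * spin y.2 * ov x.1 y.1) 0 / n := by
  have hn' : (n : ℝ) ≠ 0 := Nat.cast_ne_zero.2 hn.ne'
  have h1 : (n : ℝ) + 1 ≠ 0 := by positivity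
  have h2 := sym_one (β := β) hn H (Sh.two j)
    (fun r => (r (Sh.twoL j) (Sh.twoR j) * (n + 1)) / n - q j) (Sh.twoL j) (Sh.twoR j)
  rw [← Wt87.tX_two wt_one90, ← Wt87.tX_two wt_one90, neg_div, eq_neg_iff_add_eq_zero,
    div_eq_mul_inv, ← h2]
  refine (congrArg _ (Law.TE_mul_const wt_one90 _ _ _ _ _).symm).trans
    ((Law.TE_add wt_one90 _ _ _ _ _).symm.trans ?_)
  congr 1
  funext x
  have h3 : (spin (x (Sh.twoL j)).2 * spin (x (Sh.twoR j)).2) ^ 2 = 1 := by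
    rw [← sq_abs, abs_spin2, one_pow]
  simp only [oE, oU, ov1]
  generalize spin (x (Sh.twoL j)).2 * spin (x (Sh.twoR j)).2 = e at h3 ⊢
  generalize ov (x (Sh.twoL j)).1 (x (Sh.twoR j)).1 = R
  field_simp
  linear_combination -h3

theorem abs_amp_op (hn : 0 < n) (H : OOk M q) (j : ℕ) :
    |pi2 (fun _ => 1) (op n β M q 1) j
      (fun x y => (oE q j x.2 y.2 - oU q j x.1 y.1) * oU q j x.1 y.1) 0| ≤ 2 / n := by
  rw [amp_op hn H, abs_div, abs_neg, Nat.abs_cast, ← Wt87.tX_two wt_one90]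
  refine div_le_div_of_nonneg_right ((abs_TE_le' wt_one90 _ _ _ (F' := fun _ => 2)
    fun x => ?_).trans_eq (Law.TE_const wt_one90 _ _ _ _)) n.cast_nonneg
  refine (abs_sub _ _).trans ?_
  rw [abs_mul, abs_spin2, abs_one]
  linarith [abs_ov_le (x (Sh.twoL j)).1 (x (Sh.twoR j)).1]


/-- **(amp φ)** -/
theorem amp_oW (hn : 0 < n) (H : OOk M q) (hM : Mono 0 (M.map (mxL n β))) (φ : ℕ → ℝ) :
    |oW n β M q (fun j x y => φ j * ((oE q j x.2 y.2 - oU q j x.1 y.1) * oU q j x.1 y.1)) 0 1| ≤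
      2 / n * ∑ j ∈ Finset.range (M.length + 1), dm (M.map (mxL n β)) 0 j * |φ j| := by
  rw [oW_zero, Finset.mul_sum]
  refine (Finset.abs_sum_le_sum_abs _ _).trans (Finset.sum_le_sum fun j _ => ?_)
  rw [pi2_const_mul, abs_mul, abs_mul, abs_of_nonneg (dm_nonneg hM j), mul_left_comm (2 / (n : ℝ)),
    mul_comm (2 / (n : ℝ))]
  exact mul_le_mul_of_nonneg_left (mul_le_mul_of_nonneg_left (abs_amp_op hn H j) (abs_nonneg _))
    (dm_nonneg hM j)

/-! ### comparison with the `n`-system and the expansion -/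

/-- `ν_θ ≤ e^C ν_0` -/
theorem cmp_op (hn : 0 < n) (H : OOk M q) (hM : Mono 0 (M.map (mxL n β))) (s : Sh)
    (h : Cube n × Bool → ℝ) {F : (s.Lf → Cube n × Bool) → ℝ} (hF : ∀ x, 0 ≤ F x) {θ θ' : ℝ}
    (hθ : θ ∈ Icc (0 : ℝ) 1) (hθ' : θ' ∈ Icc (0 : ℝ) 1) :
    TE (fun _ => 1) s (op n β M q θ) h F ≤
      exp ((2 * Fintype.card s.Lf ^ 2 + Fintype.card s.Lf) * (6 * oTau n β M M.length)) *
        TE (fun _ => 1) s (op n β M q θ') h F :=
  ipl_cmp' wt_one90 s (mono_opL hM) (abs_iD_op hn H) h hF hθ hθ'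

theorem TE_op_fst (hn : 0 < n) (H : OOk M q) (s : Sh) (G : (s.Lf → Cube n) → ℝ) :
    TE (fun _ => 1) s (op n β M q 0) 0 (fun x => G fun a => (x a).1) =
      TE (fun _ => 1) s (M.map (mxL n β)) 0 G := by
  have := TE_op_zero (β := β) hn H 0 0 s G fun _ => 1
  rw [Law.ad_zero, Law.TE_const wt_one90, mul_one] at this
  rw [← this]
  congr 1
  funext x
  rw [tens, mul_one]

/-- only moments of the `n`-system are needed -/
theorem abs_TE_op_le (hn : 0 < n) (H : OOk M q) (hM : Mono 0 (M.map (mxL n β))) (s : Sh)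
    {F : (s.Lf → Cube n × Bool) → ℝ} {G : (s.Lf → Cube n) → ℝ}
    (hF : ∀ x, |F x| ≤ G fun a => (x a).1) {θ : ℝ} (hθ : θ ∈ Icc (0 : ℝ) 1) :
    |TE (fun _ => 1) s (op n β M q θ) 0 F| ≤
      exp ((2 * Fintype.card s.Lf ^ 2 + Fintype.card s.Lf) * (6 * oTau n β M M.length)) *
        TE (fun _ => 1) s (M.map (mxL n β)) 0 G := by
  rw [← TE_op_fst hn H]
  exact (abs_TE_le' wt_one90 s _ 0 hF).trans (cmp_op hn H hM s 0
    (fun x => (abs_nonneg _).trans (hF x)) hθ ⟨le_rfl, zero_le_one⟩)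

/-- bulk factors of the two letters of `oD / 2` -/
def oUb (n : ℕ) (β : ℝ) (M : List (ℝ × ℝ × ℝ)) (q : ℕ → ℝ) : Bool → ℕ → Cube n → Cube n → ℝ
  | true, j, x, y => oTau n β M j / 2 * oU q j x y
  | false, j, x, y => -(oTau n β M j / 4) * oU q j x y ^ 2

/-- site factors of the two letters of `oD / 2` -/
def oZs (q : ℕ → ℝ) : Bool → ℕ → Bool → Bool → ℝ
  | true, j, a, b => oE q j a b
  | false, _, _, _ => 1

theorem oD_tK (j : ℕ) (x y : Cube n × Bool) :
    1 / 2 * oD n β M q j x y = tK (oUb n β M q) (oZs q) j x y := by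
  simp only [tK, Fintype.sum_bool, oUb, oZs, oD]
  ring

/-- the Taylor coefficients at `θ = 0`: weight × bulk expectation × site expectation -/
def opC (n : ℕ) (β : ℝ) (M : List (ℝ × ℝ × ℝ)) (q : ℕ → ℝ) :=
  itM (-1) (M.map (mxL n β)) (oUb n β M q) (oZs q) fun s G ξ =>
    TE (fun _ => 1) s (M.map (mxL n β)) 0 G * TE (fun _ => 1) s (opS n β M q) 0 ξ

theorem iDn_op (hn : 0 < n) (H : OOk M q) (h : Cube n × Bool → ℝ) (k : ℕ) (s : Sh)
    (F : (s.Lf → Cube n × Bool) → ℝ) (θ : ℝ) : iDn (fun _ => 1) (opL n β M q) h k s F θ =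
      itE (-1) (M.map (mxL n β)) (tK (oUb n β M q) (oZs q))
        (TEf (fun _ => 1) (op n β M q θ) h) k s F := by
  rw [iDn, itE_tilt (-1) tilt_opL, itE_congr (-1) _ (K' := tK (oUb n β M q) (oZs q))
    fun j hj => funext fun x => funext fun y => by
      rw [iD_op hn H (by simpa using hj), oD_tK]]
  rfl

theorem iDn_op_zero (hn : 0 < n) (H : OOk M q) (k : ℕ) (s : Sh) (G : (s.Lf → Cube n) → ℝ)
    (ξ : (s.Lf → Bool) → ℝ) :
    iDn (fun _ => 1) (opL n β M q) 0 k s (tens G ξ) 0 = opC n β M q k s G ξ := by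
  rw [iDn_op hn H, itE_tK _ _ _ _ (fnLin_TEf wt_one90 _ _), opC]
  congr 1
  funext s G ξ
  rw [← TE_op_zero hn H, Law.ad_zero]
  rfl

/-- pair sums of sums of tensors at `θ = 0` -/
theorem oW_tK (hn : 0 < n) (H : OOk M q) {A : Type} [Fintype A] (U : A → ℕ → Cube n → Cube n → ℝ)
    (Z : A → ℕ → Bool → Bool → ℝ) (k : ℕ) : oW n β M q (tK U Z) k 0 =
      ∑ α, ∑ j ∈ Finset.range (M.length + 1), dm (M.map (mxL n β)) 0 j *
        opC n β M q k (Sh.two j) (pr2 j (U α j)) (pr2 j (Z α j)) := by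
  rw [Finset.sum_comm]
  simp only [oW, iW, opL_length, dm_opL, ← Finset.mul_sum, ← iDn_op_zero hn H]
  refine Finset.sum_congr rfl fun j _ => congrArg _ ?_
  exact (fnLin_iDn wt_one90 _ _ k 0).sum (Sh.two j) Finset.univ
    fun α => tens (pr2 j (U α j)) (pr2 j (Z α j))

theorem oW_oD (k : ℕ) (θ : ℝ) :
    oW n β M q (oD n β M q) k θ = 2 * oW n β M q (tK (oUb n β M q) (oZs q)) k θ := by
  simp only [oW, iW, Finset.mul_sum]
  refine Finset.sum_congr rfl fun j _ => ?_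
  rw [mul_left_comm]
  refine congrArg _ (Eq.trans ?_ ((fnLin_iDn wt_one90 _ _ k θ).2 _ _ _))
  congr 1
  funext x
  simp only [pr2, ← oD_tK]
  ring

/-- **remainder**: total variation in the `n`-system -/
theorem abs_iDn_op_le (hn : 0 < n) (H : OOk M q) (hM : Mono 0 (M.map (mxL n β))) {θ : ℝ}
    (hθ : θ ∈ Icc (0 : ℝ) 1) {N k : ℕ} {s : Sh} (hs : Fintype.card s.Lf + 2 * k ≤ N)
    {F : (s.Lf → Cube n × Bool) → ℝ} {G : (s.Lf → Cube n) → ℝ}
    (hF : ∀ x, |F x| ≤ G fun a => (x a).1) :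
    |iDn (fun _ => 1) (opL n β M q) 0 k s F θ| ≤ exp ((2 * N ^ 2 + N) * (6 * oTau n β M M.length)) *
      itE 1 (M.map (mxL n β)) (fun j x y => 3 / 2 * oTau n β M j * |oU q j x y|)
        (TEf (fun _ => 1) (M.map (mxL n β)) 0) k s G := by
  refine (abs_iDn_le wt_one90 (mono_opL hM) (abs_iD_op hn H) 0
    (K := fun j x y => 3 / 2 * oTau n β M j * |oU q j x.1 y.1|) (fun j hj x y => ?_) hθ
    ⟨le_rfl, zero_le_one⟩ hs hF).trans_eq ?_
  · rw [opL_length] at hj
    rw [iD_op hn H hj, abs_mul, abs_of_pos one_half_pos]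
    linarith [abs_oD_le (n := n) (β := β) H hj x y]
  · rw [itE_tilt 1 tilt_opL,
      itE_fst 1 _ fun j (x y : Cube n) => 3 / 2 * oTau n β M j * |oU q j x y|]
    congr 2
    funext s G
    exact TE_op_fst hn H s G


/-- **Taylor expansion of a pair sum** -/
theorem taylor_oW (hn : 0 < n) (H : OOk M q) (K : ℕ → Cube n × Bool → Cube n × Bool → ℝ) {T : ℝ}
    (hT : T ∈ Icc (0 : ℝ) 1) (J : ℕ) :
    oW n β M q K 0 T = ∑ k ∈ Finset.range (J + 1), oW n β M q K k 0 * T ^ k / k.factorial +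
      ∫ t in (0 : ℝ)..T, oW n β M q K (J + 1) t * (T - t) ^ J / J.factorial :=
  taylor_iW wt_one90 _ _ (iD_op_diag hn H) K hT J

end Crest.Agent.T156.Cas

end
private theorem rz_d50f243f79 : type_of% @_root_.Crest.Agent.T156.Cas.oInc.eq_def := @_root_.Crest.Agent.T156.Cas.oInc.eq_def -- L43
private theorem rz_cfc78a95ac : type_of% @_root_.Crest.Agent.T156.Cas.oInc.eq_1 := @_root_.Crest.Agent.T156.Cas.oInc.eq_1 -- L43
private theorem rz_8fe18f8986 : type_of% @_root_.Crest.Agent.T156.Cas.oUb.eq_1 := @_root_.Crest.Agent.T156.Cas.oUb.eq_1 -- L596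
private theorem rz_8ddae6870a : type_of% @_root_.Crest.Agent.T156.Cas.oZs.eq_1 := @_root_.Crest.Agent.T156.Cas.oZs.eq_1 -- L601
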