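import Crest.Agent.T156.NuC_87
import Crest.Agent.T156.Mul_55
import Crest.Agent.T156.Ker_15

/-!
# Row 156: words of derivatives in the replica law, edge lists (helper87)

`WdO M U TEf` (tree frame) is `nW U` (split matrix frame); `nDv U F k` is `F` times a product of `k`
signed sums of edges.
-/

set_option autoImplicit false
set_option linter.unusedSectionVars false

noncomputable section

namespace Crest.Agent.T156.Cas

open MeasureTheory Real Set Filter Topology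
open Crest.Agent.T157.E Crest.Agent.T157.Casc Crest.Agent.T157.SL
open Wt87 Law Nu87

variable {Ω : Type} [Fintype Ω] {w : Ω → ℝ} {r : ℕ}

/-- a word of derivatives given the split matrix -/
def nW (w : Ω → ℝ) (L : List (Lv Ω)) (h : Ω → ℝ) : List (ℕ → Ω → Ω → ℝ) →
    {r : ℕ} → SM (r + 1) → RF Ω (r + 1) → ℝ
  | [], _, σ, F => TM w L h σ fun x => F x σ
  | S :: U, _, σ, F => up1 L (up1 L fun τ => nW w L h U τ (Dr S F)) σ

/-- the first `k` letters of `U` applied to `F` -/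
def nDv (U : ℕ → ℕ → Ω → Ω → ℝ) (F : RF Ω (r + 1)) : (k : ℕ) → RF Ω (r + 2 * k + 1)
  | 0 => F
  | k + 1 => Dr (r := r + 2 * k) (U k) (nDv U F k)

/-- the coefficient of the edge `(a, b)`: `N` old replicas `≥ s + 2`, new ones `s + 1`, `s` -/
def nCf (N : ℝ) (s a b : ℕ) : ℝ :=
  if s + 2 ≤ a then (if s + 2 ≤ b then (if a = b then 0 else 1) else if b = s + 1 then -N else 0)
  else if a = s + 1 then (if s + 2 ≤ b then -N else 0)
  else if a = s ∧ b = s + 1 then N * (N + 1) else 0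

/-- one signed sum of edges -/
def nDk {R : ℕ} (S : ℕ → Ω → Ω → ℝ) (N : ℝ) (s : ℕ) : RF Ω R :=
  fun x σ => ∑ a : Fin R, ∑ b : Fin R, nCf N s a b * ed S a b x σ

namespace Nu87

theorem rz_of_um {K : ℕ} {σ : SM (r + 1)} (H : Ker15.Um K σ) : Rz K σ := by
  obtain ⟨s, e, h1, h2, rfl⟩ := H.lab
  rw [max_eq_right (by simp)] at h1
  exact ⟨s, Equiv.ofBijective e ((Fintype.bijective_iff_injective_and_card e).2
    ⟨h2, (Fintype.card_le_of_injective e h2).antisymm h1⟩), rfl⟩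

theorem Rz.re {K r' : ℕ} {σ : SM r} (H : Rz K σ) (ι : Fin (r' + 1) → Fin r) :
    Rz K fun a b => σ (ι a) (ι b) :=
  rz_of_um ⟨fun _ => H.self _, fun _ _ => H.comm _ _, fun _ _ _ => H.ultra _ _ _⟩

open Classical in
/-- a functional on trees, read on a split matrix -/
def LM (K : ℕ) (Λ : Fn Ω) (σ : SM r) (G : (Fin r → Ω) → ℝ) : ℝ :=
  if H : Rz K σ then Λ H.choose fun x => G fun a => x (H.choose_spec.choose a) else 0

theorem fl_LM (K : ℕ) (σ : SM r) (G : (Fin r → Ω) → ℝ) : FL fun Λ => LM K Λ σ G := by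
  by_cases H : Rz K σ
  · simp only [LM, dif_pos H]
    exact FL.ev _ _
  · simp only [LM, dif_neg H]
    exact fun R h _ _ _ => h.zero

theorem fl_up1 (L : List (Lv Ω)) (σ : SM (r + 1)) {Φ : SM (r + 2) → Fn Ω → ℝ} (H : ∀ τ, FL (Φ τ)) :
    FL fun Λ => up1 L (fun τ => Φ τ Λ) σ := by
  simp only [up1, Ws, div_eq_inv_mul]
  exact FL.cmul _ ((FL.sum _ fun _ _ => H _).add (FL.sum _ fun _ _ => FL.cmul _
    (FL.sum _ fun _ _ => FL.cmul _ ((H _).sub (H _)))))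

theorem LM_eq {K : ℕ} {Λ : Fn Ω} {σ : SM r} (H : Rz K σ) {G : (Fin r → Ω) → ℝ} {v : ℝ}
    (e : ∀ (s : Sh) (e : Fin r ≃ s.Lf), σ = sm s e K → Λ s (fun x => G fun a => x (e a)) = v) :
    LM K Λ σ G = v := by
  rw [LM, dif_pos H]
  exact e _ _ H.choose_spec.choose_spec

theorem LM_TEf (hw : Wt w) {L : List (Lv Ω)} (h : Ω → ℝ) {σ : SM r} (H : Rz L.length σ)
    (G : (Fin r → Ω) → ℝ) : LM L.length (TEf w L h) σ G = TM w L h σ G :=
  LM_eq H fun s e he => by rw [he, TM_sm hw s L h e.injective]; rfl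

theorem up1_tilt {L L' : List (Lv Ω)} (H : L.map Lv.m = L'.map Lv.m) :
    up1 (r := r) L = up1 L' := by
  funext φ τ
  simp only [up1, Ws, Sch6.len_congr H, Sch6.ex_congr H]

end Nu87

variable {L : List (Lv Ω)} {h : Ω → ℝ}

/-- **the bridge between the tree frame and the split matrix frame** -/
theorem WdO_eq_nW (hw : Wt w) : ∀ (U : List (ℕ → Ω → Ω → ℝ)), (∀ S ∈ U, S ∈ Mul55.Ok Ω L.length) →
    ∀ {r : ℕ} (s : Sh) (e : Fin (r + 1) ≃ s.Lf) (F : RF Ω (r + 1)),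
    WdO L U (TEf w L h) s (fun x => F (fun a => x (e a)) (sm s e L.length)) =
      nW w L h U (sm s e L.length) F
  | [], _, _, s, e, F => (TM_sm hw s L h e.injective fun x => F x (sm s e L.length)).symm
  | S :: U, H, r, s, e, F => by
      have hU : ∀ T ∈ U, T ∈ Mul55.Ok Ω L.length := fun T hT => H T (List.mem_cons_of_mem _ hT)
      have hσ : Rz L.length (sm s e L.length) := ⟨s, e, rfl⟩
      obtain ⟨c, hc⟩ := (H S List.mem_cons_self).2
      have key := pd_wordO hw h L (((FL.ev s fun x => F (fun a => x (e a)) (sm s e L.length)).dop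
        L S).sub (fl_up1 L (sm s e L.length) fun τ' => fl_up1 L τ' fun τ =>
          fl_LM L.length τ fun x => Dr S F x τ)) (fun M hM => ?_) hU
      · refine (sub_eq_zero.1 key).trans (up1_congr hσ fun τ' hτ' => up1_congr hτ' fun τ hτ =>
          LM_eq hτ fun s' e' he => ?_)
        rw [he]
        exact WdO_eq_nW hw U hU s' e' (Dr S F)
      · have hl := Sch6.len_congr hM
        rw [← hl] at hc hσ ⊢
        rw [← Dop_tilt hM, ← dT_eq_Dop hw s M h hc, dT_eq_dM hw e S fun x => F x (sm s e M.length),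
          dM_eq hw hσ hc, ← up1_tilt hM, ← up1_tilt hM, sub_eq_zero]
        refine Eq.symm (up1_congr hσ fun τ' hτ' => up1_congr hτ' fun τ hτ => ?_)
        exact LM_TEf hw h hτ fun x => Dr S F x τ




theorem twoF_eq_nW (hw : Wt w) {U : List (ℕ → Ω → Ω → ℝ)} (hU : ∀ S ∈ U, S ∈ Mul55.Ok Ω L.length)
    {j : ℕ} (hj : j ≤ L.length) (S : ℕ → Ω → Ω → ℝ) :
    twoF j (S j) (WdO L U (TEf w L h)) = nW (r := 1) w L h U (tw L.length j) (ed S 0 1) := by
  have e1 : sm (Sh.one.graft () j) ((Equiv.swap 0 1).trans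
      (grE (s := .one) (Equiv.ofUnique (Fin 1) Unit :) () j)) L.length = tw L.length j := by
    have := sm_gr (K := L.length) (s := .one) (Equiv.ofUnique (Fin 1) Unit :) 0 j
    funext a b
    refine (congrFun₂ this (Equiv.swap 0 1 a) (Equiv.swap 0 1 b)).trans ?_
    fin_cases a <;> fin_cases b <;> rfl
  have := WdO_eq_nW (h := h) hw U hU _ ((Equiv.swap 0 1).trans
      (grE (s := .one) (Equiv.ofUnique (Fin 1) Unit :) () j)) (ed S 0 1)
  rw [e1] at this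
  rw [← this]
  simp only [ed, tw_01 hj]
  rfl

/-- **the Taylor coefficients of the value** -/
theorem Lam_eq_nW (hw : Wt w) (S : ℕ → Ω → Ω → ℝ) {U : List (ℕ → Ω → Ω → ℝ)}
    (hU : ∀ S ∈ U, S ∈ Mul55.Ok Ω L.length) :
    Mul55.Lam w L h (S :: U) = avm L 1 fun σ => nW w L h U σ (ed S 0 1) := by
  rw [avm_one, Mul55.Lam_cons, pairF]
  exact Finset.sum_congr rfl fun j hj => by
    rw [twoF_eq_nW hw hU (Nat.lt_succ_iff.1 (Finset.mem_range.1 hj))]

/-- words with a general end point -/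
def nWc (L : List (Lv Ω)) (Φ : ∀ r : ℕ, SM (r + 1) → RF Ω (r + 1) → ℝ) :
    List (ℕ → Ω → Ω → ℝ) → (r : ℕ) → SM (r + 1) → RF Ω (r + 1) → ℝ
  | [], r, σ, F => Φ r σ F
  | S :: U, r, σ, F => up1 L (up1 L fun τ => nWc L Φ U (r + 2) τ (Dr S F)) σ

theorem nWc_eq : ∀ (U : List (ℕ → Ω → Ω → ℝ)) (r : ℕ) (σ : SM (r + 1)) (F : RF Ω (r + 1)),
    nWc L (fun _ σ F => TM w L h σ fun x => F x σ) U r σ F = nW w L h U σ F
  | [], _, _, _ => rfl
  | _ :: U, _, _, _ => by simp only [nWc, nW, nWc_eq U]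

theorem nWc_snoc (Φ : ∀ r : ℕ, SM (r + 1) → RF Ω (r + 1) → ℝ) (S : ℕ → Ω → Ω → ℝ) :
    ∀ (U : List (ℕ → Ω → Ω → ℝ)) (r : ℕ) (σ : SM (r + 1)) (F : RF Ω (r + 1)),
    nWc L Φ (U ++ [S]) r σ F =
      nWc L (fun r σ F => up1 L (up1 L fun τ => Φ (r + 2) τ (Dr S F)) σ) U r σ F
  | [], _, _, _ => rfl
  | _ :: U, _, _, _ => by simp only [List.cons_append, nWc, nWc_snoc Φ S U]

theorem nWc_range (U : ℕ → ℕ → Ω → Ω → ℝ) (σ : SM (r + 1)) (F : RF Ω (r + 1)) :
    ∀ (k : ℕ) (Φ : ∀ r : ℕ, SM (r + 1) → RF Ω (r + 1) → ℝ),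
    nWc L Φ ((List.range k).map U) r σ F = avc L σ (2 * k) fun τ => Φ (r + 2 * k) τ (nDv U F k)
  | 0, _ => rfl
  | k + 1, Φ => by
      rw [List.range_succ, List.map_append, List.map_singleton, nWc_snoc, nWc_range U σ F k]
      rfl

/-- a word is the conditional law of one function of `2 k` more replicas -/
theorem nW_range (U : ℕ → ℕ → Ω → Ω → ℝ) (σ : SM (r + 1)) (F : RF Ω (r + 1)) (k : ℕ) :
    nW w L h ((List.range k).map U) σ F = nuc w L h σ (2 * k) (nDv U F k) :=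
  (nWc_eq _ r σ F).symm.trans (nWc_range U σ F k _)

theorem nW_eq_nuc (U : List (ℕ → Ω → Ω → ℝ)) (σ : SM (r + 1)) (F : RF Ω (r + 1)) :
    nW w L h U σ F = nuc w L h σ (2 * U.length) (nDv (fun i => U.getD i 0) F U.length) := by
  rw [← nW_range]
  congr 1
  refine List.ext_getElem (by simp) fun i h1 _ => ?_
  simp [List.getElem?_eq_getElem h1]

theorem Lam_range (hw : Wt w) (S : ℕ → Ω → Ω → ℝ) {U : ℕ → ℕ → Ω → Ω → ℝ} {k : ℕ}
    (hU : ∀ i < k, U i ∈ Mul55.Ok Ω L.length) :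
    Mul55.Lam w L h (S :: (List.range k).map U) = nu w L h (1 + 2 * k) (nDv U (ed S 0 1) k) := by
  rw [Lam_eq_nW hw S fun T hT => by
    obtain ⟨i, hi, rfl⟩ := List.mem_map.1 hT
    exact hU i (List.mem_range.1 hi), nu_nuc]
  simp only [nW_range]


/-! ### edge lists -/

theorem nCf_self (N : ℝ) (s a : ℕ) : nCf N s a a = 0 := by
  unfold nCf
  split_ifs <;> first | rfl | omega

theorem nCf_shift (N : ℝ) (s a b : ℕ) : nCf N (s + 1) (a + 1) (b + 1) = nCf N s a b := by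
  unfold nCf
  simp only [show ∀ a, s + 1 + 2 ≤ a + 1 ↔ s + 2 ≤ a from fun a => by omega, Nat.add_right_cancel_iff]

theorem nCf_zero (N : ℝ) (s b : ℕ) : nCf N (s + 1) 0 b = 0 ∧ nCf N (s + 1) b 0 = 0 := by
  constructor <;> simp [nCf]

theorem abs_nCf_le {N R : ℝ} (hN : 0 ≤ N) (hR : N + 1 ≤ R) (s a b : ℕ) : |nCf N s a b| ≤ R ^ 2 := by
  unfold nCf
  split_ifs <;> simp only [abs_zero, abs_one, abs_neg, abs_of_nonneg hN,
    abs_of_nonneg (show 0 ≤ N * (N + 1) by positivity)] <;> nlinarith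

theorem nDk_succ {R : ℕ} (S : ℕ → Ω → Ω → ℝ) (N : ℝ) (s : ℕ) :
    (nDk (R := R) S N s).re Fin.succ = nDk S N (s + 1) := by
  funext x σ
  simp only [nDk, RF.re, Fin.sum_univ_succ, Fin.val_zero, Fin.val_succ, nCf_shift, (nCf_zero N s _).1,
    (nCf_zero N s _).2, zero_mul, Finset.sum_const_zero, zero_add, ed]

theorem Dr_eq_nDk (S : ℕ → Ω → Ω → ℝ) (F : RF Ω (r + 1)) (x : Fin (r + 3) → Ω) (σ : SM (r + 3)) :
    Dr S F x σ = F.re (fun b => b.succ.succ) x σ * nDk S (r + 1) 0 x σ := by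
  have e1 : ∀ a : Fin (r + 1), ∑ b ∈ Finset.univ.erase a, ed S a.succ.succ b.succ.succ x σ =
      ∑ b : Fin (r + 1), (if (a : ℕ) = b then 0 else 1) * ed S a.succ.succ b.succ.succ x σ :=
    fun a => by
      rw [← Finset.add_sum_erase _ _ (Finset.mem_univ a), if_pos rfl, zero_mul, zero_add]
      exact Finset.sum_congr rfl fun b hb => by
        rw [if_neg fun e => Finset.ne_of_mem_erase hb (Fin.ext e).symm, one_mul]
  have c1 : ∀ a b : ℕ, nCf (r + 1) 0 (a + 1 + 1) (b + 1 + 1) = if a = b then 0 else 1 :=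
    fun a b => by simp [nCf]
  have c2 : ∀ a : ℕ, nCf (r + 1) 0 (a + 1 + 1) 0 = 0 ∧ nCf (r + 1) 0 (a + 1 + 1) (0 + 1) = -(r + 1) ∧
      nCf (r + 1) 0 0 (a + 1 + 1) = 0 ∧ nCf (r + 1) 0 (0 + 1) (a + 1 + 1) = -(r + 1) :=
    fun a => by simp [nCf]
  have c3 : nCf (r + 1) 0 0 (0 + 1) = (r + 1) * (r + 2) ∧ nCf (r + 1) 0 (0 + 1) 0 = 0 := by
    simp [nCf, add_assoc, one_add_one_eq_two]
  rw [Dr, nDk, Fin.sum_univ_succ (n := r + 2), Fin.sum_univ_succ (n := r + 1)]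
  simp only [e1, Fin.sum_univ_succ (n := r + 2), Fin.sum_univ_succ (n := r + 1) fun b => _ * ed S _
    (Fin.succ b) x σ, Fin.val_zero, Fin.val_succ, c1, c2, c3, nCf_self, zero_mul, zero_add,
    Finset.sum_const_zero, Finset.sum_add_distrib, neg_mul, Finset.sum_neg_distrib,
    ← Finset.mul_sum, Fin.succ_zero_eq_one, Fin.val_one]
  ring

/-- **product form** -/
theorem nDv_eq (U : ℕ → ℕ → Ω → Ω → ℝ) (F : RF Ω (r + 1)) : ∀ (k : ℕ) (x : Fin (r + 2 * k + 1) → Ω)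
    (σ : SM (r + 2 * k + 1)), nDv U F k x σ = F.re (old (2 * k)) x σ *
      ∏ i ∈ Finset.range k, nDk (U i) (r + 2 * i + 1) (2 * (k - 1 - i)) x σ
  | 0, _, _ => (mul_one _).symm
  | k + 1, x, σ => by
      refine (Dr_eq_nDk (r := r + 2 * k) (U k) (nDv U F k) x σ).trans ?_
      rw [Finset.prod_range_succ, ← mul_assoc, show k + 1 - 1 - k = 0 by omega]
      refine congrArg₂ (· * ·) ((nDv_eq U F k _ _).trans (congrArg₂ (· * ·) rfl
        (Finset.prod_congr rfl fun i hi => ?_))) (by push_cast; rfl)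
      have := Finset.mem_range.1 hi
      rw [show 2 * (k + 1 - 1 - i) = 2 * (k - 1 - i) + 1 + 1 by omega, ← nDk_succ, ← nDk_succ]
      rfl

/-- the coefficient of an edge list -/
def nCG (r k : ℕ) (f : Fin k → Fin (r + 2 * k + 1) × Fin (r + 2 * k + 1)) : ℝ :=
  ∏ i : Fin k, nCf (r + 2 * (i : ℕ) + 1) (2 * (k - 1 - i)) (f i).1 (f i).2

/-- **sum over edge lists** -/
theorem nDv_sum (U : ℕ → ℕ → Ω → Ω → ℝ) (F : RF Ω (r + 1)) (k : ℕ) (x : Fin (r + 2 * k + 1) → Ω)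
    (σ : SM (r + 2 * k + 1)) : nDv U F k x σ =
      ∑ f : Fin k → Fin (r + 2 * k + 1) × Fin (r + 2 * k + 1), nCG r k f *
        (F.re (old (2 * k)) x σ * ∏ i : Fin k, ed (U i) (f i).1 (f i).2 x σ) := by
  rw [nDv_eq, Finset.prod_range]
  simp only [nDk, ← Fintype.sum_prod_type']
  rw [Fintype.prod_sum, Finset.mul_sum]
  refine Finset.sum_congr rfl fun f _ => ?_
  rw [Finset.prod_mul_distrib, nCG, mul_left_comm]

theorem nCG_ne {k : ℕ} {f : Fin k → Fin (r + 2 * k + 1) × Fin (r + 2 * k + 1)} (H : nCG r k f ≠ 0)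
    (i : Fin k) : (f i).1 ≠ (f i).2 := fun e =>
  H (Finset.prod_eq_zero (Finset.mem_univ i) (by rw [e, nCf_self]))

theorem abs_nCG_le {k : ℕ} (f : Fin k → Fin (r + 2 * k + 1) × Fin (r + 2 * k + 1)) :
    |nCG r k f| ≤ ((r + 2 * k + 1 : ℝ) ^ 2) ^ k := by
  rw [nCG, Finset.abs_prod]
  refine (Finset.prod_le_prod (fun _ _ => abs_nonneg _) fun i _ =>
    abs_nCf_le (R := r + 2 * k + 1) (by positivity) ?_ _ _ _).trans (by simp)
  have : ((i : ℕ) : ℝ) + 1 ≤ k := by exact_mod_cast i.2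
  linarith

/-- **every edge list is bounded by `B`** -/
theorem abs_sum_nCG_le {k : ℕ} {B : ℝ} (hB : 0 ≤ B)
    {v : (Fin k → Fin (r + 2 * k + 1) × Fin (r + 2 * k + 1)) → ℝ}
    (H : ∀ f, (∀ i, (f i).1 ≠ (f i).2) → |v f| ≤ B) :
    |∑ f, nCG r k f * v f| ≤ (r + 2 * k + 1 : ℝ) ^ (4 * k) * B := by
  refine (Finset.abs_sum_le_sum_abs _ _).trans ((Finset.sum_le_card_nsmul _ _
    (((r + 2 * k + 1 : ℝ) ^ 2) ^ k * B) fun f _ => ?_).trans_eq ?_)
  · by_cases h0 : nCG r k f = 0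
    · rw [h0, zero_mul, abs_zero]
      positivity
    · rw [abs_mul]
      exact mul_le_mul (abs_nCG_le f) (H f (nCG_ne h0)) (abs_nonneg _) (by positivity)
  · simp only [Finset.card_univ, Fintype.card_fun, Fintype.card_prod, Fintype.card_fin, nsmul_eq_mul]
    push_cast
    generalize (r + 2 * k + 1 : ℝ) = R
    ring

theorem nu_nDv (U : ℕ → ℕ → Ω → Ω → ℝ) (F : RF Ω (r + 1)) (k : ℕ) (χ : SM (r + 2 * k + 1) → ℝ) :
    nu w L h (r + 2 * k) (fun x σ => χ σ * nDv U F k x σ) = ∑ f, nCG r k f * nu w L h (r + 2 * k)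
      fun x σ => χ σ * (F.re (old (2 * k)) x σ * ∏ i : Fin k, ed (U i) (f i).1 (f i).2 x σ) := by
  simp only [nDv_sum, Finset.mul_sum, mul_left_comm (χ _), nu_sum, nu_mul]

theorem nuc_nDv (σ : SM (r + 1)) (U : ℕ → ℕ → Ω → Ω → ℝ) (F : RF Ω (r + 1)) (k : ℕ)
    (χ : SM (r + 2 * k + 1) → ℝ) :
    nuc w L h σ (2 * k) (fun x τ => χ τ * nDv U F k x τ) = ∑ f, nCG r k f * nuc w L h σ (2 * k)
      fun x τ => χ τ * (F.re (old (2 * k)) x τ * ∏ i : Fin k, ed (U i) (f i).1 (f i).2 x τ) := by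
  simp only [nDv_sum, Finset.mul_sum, mul_left_comm (χ _), nuc_sum, nuc_mul]

end Crest.Agent.T156.Cas

end
private theorem rz_9ea5c67d7e : type_of% @_root_.Crest.Agent.T156.Cas.nW.eq_def := @_root_.Crest.Agent.T156.Cas.nW.eq_def -- L26
private theorem rz_18239aa7dc : type_of% @_root_.Crest.Agent.T156.Cas.nW.eq_1 := @_root_.Crest.Agent.T156.Cas.nW.eq_1 -- L26
private theorem rz_3b3daed7ae : type_of% @_root_.Crest.Agent.T156.Cas.nWc.eq_def := @_root_.Crest.Agent.T156.Cas.nWc.eq_def -- L166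
private theorem rz_fac18ec733 : type_of% @_root_.Crest.Agent.T156.Cas.nWc.eq_1 := @_root_.Crest.Agent.T156.Cas.nWc.eq_1 -- L166
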