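import Crest.Agent.T156.Nu_87

/-!
# Row 156: the weights of replica trees in product (density) form (helper52)

The law `avm` of the split matrix is dominated by independent labels of law `dm`.
-/

set_option autoImplicit false
set_option linter.unusedSectionVars false

noncomputable section

namespace Crest.Agent.T156.Cas.Wp52

open Crest.Agent.T157.E Crest.Agent.T157.Casc Crest.Agent.T157.SL
open Nu87

variable {Ω : Type}

/-- the average over one label -/
def Br (L : List (Lv Ω)) (g : ℕ → ℝ) : ℝ := ∑ j ∈ Finset.range (L.length + 1), dm L 0 j * g j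

theorem Br_one (L : List (Lv Ω)) : Br L (fun _ => 1) = 1 := by
  simp only [Br, mul_one]
  rw [sum_dm, ex_length, sub_zero]

theorem Br_mono {L : List (Lv Ω)} (hL : Mono 0 L) {g g' : ℕ → ℝ}
    (h : ∀ j, j ≤ L.length → g j ≤ g' j) : Br L g ≤ Br L g' :=
  Finset.sum_le_sum fun j hj => mul_le_mul_of_nonneg_left
    (h j (Nat.lt_succ_iff.1 (Finset.mem_range.1 hj))) (dm_nonneg hL j)

theorem Br_nonneg {L : List (Lv Ω)} (hL : Mono 0 L) {g : ℕ → ℝ}
    (h : ∀ j, j ≤ L.length → 0 ≤ g j) : 0 ≤ Br L g :=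
  Finset.sum_nonneg fun j hj => mul_nonneg (dm_nonneg hL j)
    (h j (Nat.lt_succ_iff.1 (Finset.mem_range.1 hj)))

theorem Br_mul (L : List (Lv Ω)) (c : ℝ) (g : ℕ → ℝ) : Br L (fun j => c * g j) = c * Br L g := by
  simp only [Br, Finset.mul_sum, mul_left_comm c]

theorem Br_add (L : List (Lv Ω)) (g g' : ℕ → ℝ) :
    Br L (fun j => g j + g' j) = Br L g + Br L g' := by
  simp only [Br, mul_add, Finset.sum_add_distrib]

theorem Br_sum (L : List (Lv Ω)) {α : Type*} (A : Finset α) (g : α → ℕ → ℝ) :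
    Br L (fun j => ∑ i ∈ A, g i j) = ∑ i ∈ A, Br L (g i) := by
  simp only [Br, Finset.mul_sum]
  exact Finset.sum_comm

theorem Br_le {L : List (Lv Ω)} (hL : Mono 0 L) (t : ℕ) :
    Br L (fun j => if j ≤ t then 1 else 0) ≤ ex L t := by
  rcases le_or_gt L.length t with h | h
  · rw [show ex L t = 1 by simp [ex, List.getElem?_eq_none h]]
    exact (Br_mono hL fun j _ => by split_ifs <;> norm_num).trans (Br_one L).le
  · have := sum_dm L 0 t
    rw [sub_zero] at this
    rw [← this, Br]
    simp only [mul_ite, mul_one, mul_zero]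
    rw [← Finset.sum_filter]
    refine le_of_eq (Finset.sum_congr ?_ fun _ _ => rfl)
    ext j
    simp only [Finset.mem_filter, Finset.mem_range]
    omega

theorem ex_mul_le {L : List (Lv Ω)} (hL : Mono 0 L) {t : ℕ} (ht : t ≤ L.length) {c : ℝ}
    {g : ℕ → ℝ} (h0 : ∀ j, j ≤ L.length → 0 ≤ g j) (h : ∀ j, j ≤ t → c ≤ g j) :
    ex L t * c ≤ Br L g := by
  have := sum_dm L 0 t
  rw [sub_zero] at this
  rw [← this, Finset.sum_mul]
  refine (Finset.sum_le_sum fun j hj => mul_le_mul_of_nonneg_left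
    (h j (Nat.lt_succ_iff.1 (Finset.mem_range.1 hj))) (dm_nonneg hL j)).trans ?_
  exact Finset.sum_le_sum_of_subset_of_nonneg (Finset.range_subset_range.2 (by omega))
    fun j hj _ => mul_nonneg (dm_nonneg hL j) (h0 j (Nat.lt_succ_iff.1 (Finset.mem_range.1 hj)))

theorem abel_w (L : List (Lv Ω)) (G d : ℕ → ℝ) : ∀ n : ℕ,
    ex L n * G n / d (n + 1) + ∑ j ∈ Finset.range n, ex L j * ((G j - G (j + 1)) / d (j + 1)) =
      ∑ j ∈ Finset.range (n + 1), (ex L j / d (j + 1) - exP L 0 j / d j) * G j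
  | 0 => by simp [exP]; ring
  | n + 1 => by
      rw [Finset.sum_range_succ _ (n + 1), ← abel_w L G d n, Finset.sum_range_succ]
      simp only [exP]
      ring

/-- **one graft**: a new node (weight `dm`) or an old node (weight at most `ex`) -/
theorem Ws_le {r : ℕ} {L : List (Lv Ω)} (hL : Mono 0 L) {σ : SM r} (h : Rz L.length σ)
    {G : Fin r → ℕ → ℝ} (hG : ∀ a j, j ≤ L.length → 0 ≤ G a j) :
    Ws L σ G ≤ ∑ a, (Br L (G a) +
      ∑ b ∈ Finset.univ.erase a, ex L (σ a b) * G a (σ a b)) := by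
  rw [Ws]
  simp only [Finset.mul_sum]
  rw [Finset.sum_comm (s := Finset.range L.length), ← Finset.sum_add_distrib]
  refine Finset.sum_le_sum fun a _ => ?_
  set N : ℕ → ℕ := fun j => ((Finset.univ.erase a).filter fun b => j ≤ σ a b).card with hN
  set n : ℕ → ℕ := fun j => ((Finset.univ.erase a).filter fun b => σ a b = j).card with hn
  have hc : ∀ j, j ≤ L.length → cls σ a j = 1 + N j := fun j hj => by
    simp only [cls, hN]
    rw [Finset.filter_erase, add_comm, Finset.card_erase_add_one]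
    simp [h.self, hj]
  have hNn : ∀ j, N j = N (j + 1) + n j := fun j => by
    simp only [hN, hn]
    rw [← Finset.card_union_of_disjoint (Finset.disjoint_filter.2 fun b _ h1 h2 => by omega),
      ← Finset.filter_or]
    exact congrArg Finset.card (Finset.filter_congr fun b _ => by omega)
  have hK : N (L.length + 1) = 0 := by
    simp only [hN, Finset.card_eq_zero, Finset.filter_eq_empty_iff]
    intro b _
    have := h.le a b
    omega
  have e1 := abel_w L (G a) (fun j => 1 + (N j : ℝ)) L.length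
  rw [hK, ex_length] at e1
  have e2 : ∑ j ∈ Finset.range L.length, ex L j * ((G a j - G a (j + 1)) / (cls σ a (j + 1) : ℝ))
      = ∑ j ∈ Finset.range L.length, ex L j * ((G a j - G a (j + 1)) / (1 + (N (j + 1) : ℝ))) :=
    Finset.sum_congr rfl fun j hj => by
      rw [hc (j + 1) (Finset.mem_range.1 hj)]; push_cast; rfl
  have e3 : ∑ b ∈ Finset.univ.erase a, ex L (σ a b) * G a (σ a b)
      = ∑ j ∈ Finset.range (L.length + 1), (n j : ℝ) * (ex L j * G a j) := by
    rw [← Finset.sum_fiberwise_of_maps_to (t := Finset.range (L.length + 1)) (g := σ a)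
      fun b _ => Finset.mem_range.2 (Nat.lt_succ_of_le (h.le a b))]
    refine Finset.sum_congr rfl fun j _ => ?_
    rw [Finset.sum_congr rfl (g := fun _ => ex L j * G a j) fun b hb => by
      rw [(Finset.mem_filter.1 hb).2], Finset.sum_const, nsmul_eq_mul]
  simp only [Nat.cast_zero, add_zero, div_one, one_mul] at e1
  rw [e2, e1, e3, Br, ← Finset.sum_add_distrib]
  refine Finset.sum_le_sum fun j hj => ?_
  have g0 := hG a j (Nat.lt_succ_iff.1 (Finset.mem_range.1 hj))
  have x0 := ex_nonneg hL j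
  have d0 := dm_nonneg hL j
  have e4 : (N j : ℝ) = N (j + 1) + n j := by exact_mod_cast hNn j
  have p1 : (0 : ℝ) ≤ N (j + 1) := Nat.cast_nonneg _
  have p2 : (0 : ℝ) ≤ n j := Nat.cast_nonneg _
  have e5 : exP L 0 j = ex L j - dm L 0 j := by simp [dm]
  rw [show dm L 0 j * G a j + n j * (ex L j * G a j) = (dm L 0 j + n j * ex L j) * G a j by ring]
  refine mul_le_mul_of_nonneg_right ?_ g0
  rw [e5, e4]
  set u : ℝ := 1 + N (j + 1) with hu
  have hu1 : 1 ≤ u := by linarith
  rw [show (1 : ℝ) + (N (j + 1) + n j) = u + n j by ring]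
  have q1 : dm L 0 j / (u + n j) ≤ dm L 0 j := div_le_self d0 (by linarith)
  have q2 : 1 / u - 1 / (u + n j) ≤ n j := by
    have hu0 : 0 < u := by linarith
    have hu2 : 0 < u + n j := by linarith
    rw [div_sub_div _ _ hu0.ne' hu2.ne', div_le_iff₀ (mul_pos hu0 hu2)]
    have : 1 ≤ u * (u + n j) := by nlinarith
    nlinarith
  have q3 := mul_le_mul_of_nonneg_left q2 x0
  have e6 : ex L j / u - (ex L j - dm L 0 j) / (u + n j)
      = ex L j * (1 / u - 1 / (u + n j)) + dm L 0 j / (u + n j) := by ring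
  rw [e6]
  linarith

/-- independent labels of law `dm` -/
def Ey (L : List (Lv Ω)) : (r : ℕ) → ((Fin r → ℕ) → ℝ) → ℝ
  | 0, Ψ => Ψ Fin.elim0
  | r + 1, Ψ => Ey L r fun y => Br L fun j => Ψ (Fin.cons j y)

theorem Ey_mul (L : List (Lv Ω)) (c : ℝ) : ∀ (r : ℕ) (Ψ : (Fin r → ℕ) → ℝ),
    Ey L r (fun y => c * Ψ y) = c * Ey L r Ψ
  | 0, _ => rfl
  | r + 1, _ => by simp only [Ey, Br_mul, Ey_mul L c r]

theorem Ey_add (L : List (Lv Ω)) : ∀ (r : ℕ) (Ψ Ψ' : (Fin r → ℕ) → ℝ),
    Ey L r (fun y => Ψ y + Ψ' y) = Ey L r Ψ + Ey L r Ψ'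
  | 0, _, _ => rfl
  | r + 1, _, _ => by simp only [Ey, Br_add, Ey_add L r]

theorem Ey_sum (L : List (Lv Ω)) {α : Type*} (A : Finset α) : ∀ (r : ℕ)
    (Ψ : α → (Fin r → ℕ) → ℝ), Ey L r (fun y => ∑ i ∈ A, Ψ i y) = ∑ i ∈ A, Ey L r (Ψ i)
  | 0, _ => rfl
  | r + 1, _ => by simp only [Ey, Br_sum, Ey_sum L A r]

theorem Ey_mono {L : List (Lv Ω)} (hL : Mono 0 L) : ∀ (r : ℕ) {Ψ Ψ' : (Fin r → ℕ) → ℝ},
    (∀ y, (∀ i, y i ≤ L.length) → Ψ y ≤ Ψ' y) → Ey L r Ψ ≤ Ey L r Ψ'
  | 0, _, _, h => h _ fun i => i.elim0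
  | r + 1, _, _, h => Ey_mono hL r fun _ hy => Br_mono hL fun _ hj =>
      h _ fun i => Fin.cases hj hy i


/-- a split matrix and labels that are compatible -/
def Cmp (K : ℕ) : (r : ℕ) → SM (r + 1) → (Fin r → ℕ) → Prop
  | 0, σ, _ => σ = fun _ _ => K
  | r + 1, σ, y => ∃ σ' a j, Cmp K r σ' (Fin.tail y) ∧ σ = gr K σ' a j ∧ y 0 ≤ j ∧ j ≤ K ∧
      (j = y 0 ∨ ∃ b, b ≠ a ∧ j = σ' a b)

theorem Cmp.rz {K : ℕ} : ∀ {r : ℕ} {σ : SM (r + 1)} {y : Fin r → ℕ}, Cmp K r σ y → Rz K σ
  | 0, _, _, h => by rw [show _ = _ from h]; exact rz_one K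
  | _ + 1, _, _, ⟨_, a, j, h, e, _⟩ => by rw [e]; exact h.rz.gr a j

/-- **coupling**: the law of the split matrix is dominated by independent labels -/
theorem avm_le_Ey {L : List (Lv Ω)} (hL : Mono 0 L) : ∀ (r : ℕ) {Φ : SM (r + 1) → ℝ}
    {Ψ : (Fin r → ℕ) → ℝ}, (∀ y, (∀ i, y i ≤ L.length) → 0 ≤ Ψ y) →
    (∀ σ y, (∀ i, y i ≤ L.length) → Cmp L.length r σ y → Φ σ ≤ Ψ y) →
    avm L r Φ ≤ r.factorial * Ey L r Ψ
  | 0, Φ, Ψ, _, h => by
      simpa [avm, Ey] using h _ Fin.elim0 (fun i => i.elim0) rfl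
  | r + 1, Φ, Ψ, h0, h => by
      have ih := avm_le_Ey hL r
        (Φ := fun σ => Ws L σ (fun a j => Φ (gr L.length σ a j)) / (r + 1))
        (Ψ := fun y => (r + 1) * Br L fun j => Ψ (Fin.cons j y))
        (fun y hy => mul_nonneg (by positivity)
          (Br_nonneg hL fun j hj => h0 _ fun i => Fin.cases hj hy i))
        (fun σ y hy hc => by
          have hσ := hc.rz
          have hB : 0 ≤ Br L fun j => Ψ (Fin.cons j y) :=
            Br_nonneg hL fun j hj => h0 _ fun i => Fin.cases hj hy i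
          rw [div_le_iff₀ (by positivity)]
          refine (Ws_mono hL hσ (hσ.ncm Φ) (hσ.ncm fun σ => max (Φ σ) 0)
            fun _ _ _ => le_max_left _ _).trans ?_
          refine (Ws_le hL hσ fun _ _ _ => le_max_right _ _).trans ?_
          refine (Finset.sum_le_card_nsmul _ _ ((r + 1) * Br L fun j => Ψ (Fin.cons j y))
            fun a _ => ?_).trans (le_of_eq (by simp; ring))
          have b1 : Br L (fun j => max (Φ (gr L.length σ a j)) 0)
              ≤ Br L fun j => Ψ (Fin.cons j y) :=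
            Br_mono hL fun j hj => max_le
              (h _ _ (fun i => Fin.cases hj hy i) ⟨σ, a, j, hc, rfl, le_rfl, hj, .inl rfl⟩)
              (h0 _ fun i => Fin.cases hj hy i)
          have b2 : ∑ b ∈ Finset.univ.erase a,
              ex L (σ a b) * max (Φ (gr L.length σ a (σ a b))) 0
              ≤ r * Br L fun j => Ψ (Fin.cons j y) := by
            refine (Finset.sum_le_card_nsmul _ _ (Br L fun j => Ψ (Fin.cons j y))
              fun b hb => ?_).trans (le_of_eq (by simp))
            refine ex_mul_le hL (hσ.le a b) (fun j hj => h0 _ fun i => Fin.cases hj hy i)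
              fun j hj => ?_
            have hj' : j ≤ L.length := hj.trans (hσ.le a b)
            exact max_le (h _ _ (fun i => Fin.cases hj' hy i) ⟨σ, a, σ a b, hc, rfl, hj,
              hσ.le a b, .inr ⟨b, Finset.ne_of_mem_erase hb, rfl⟩⟩)
              (h0 _ fun i => Fin.cases hj' hy i)
          linarith)
      rw [Ey_mul] at ih
      rw [avm, Ey, Nat.factorial_succ]
      push_cast
      linarith

/-- (P1) every split level is one of the labels -/
theorem Cmp.mem {K : ℕ} : ∀ {r : ℕ} {σ : SM (r + 1)} {y : Fin r → ℕ}, Cmp K r σ y →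
    ∀ a b, a ≠ b → ∃ i, σ a b = y i
  | 0, _, _, _, a, b, hab => absurd (Subsingleton.elim (α := Fin 1) a b) hab
  | r + 1, _, y, ⟨σ, c, j, h, e, _, hj, hc⟩, a, b, hab => by
      have old : ∀ a b, a ≠ b → ∃ i, σ a b = y i := fun a b hab => by
        obtain ⟨i, hi⟩ := h.mem a b hab
        exact ⟨i.succ, hi⟩
      have hjy : ∃ i, j = y i := by
        rcases hc with hc | ⟨b, hb, hc⟩
        · exact ⟨0, hc⟩
        · rw [hc]; exact old c b hb.symm
      have nw : ∀ b, ∃ i, min j (σ b c) = y i := fun b => by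
        rcases le_total j (σ b c) with h1 | h1
        · rw [min_eq_left h1]; exact hjy
        · by_cases hbc : b = c
          · subst hbc
            rw [h.rz.self, min_eq_left hj]; exact hjy
          · rw [min_eq_right h1]; exact old b c hbc
      subst e
      revert hab
      refine Fin.cases ?_ (fun a => ?_) a <;> refine Fin.cases ?_ (fun b => ?_) b <;> intro hab
      · exact absurd rfl hab
      · exact nw b
      · exact nw a
      · exact old a b fun e => hab (congrArg Fin.succ e)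

/-- (P2) `|A|` replicas pairwise split at levels `≤ t` need `|A| - 1` labels `≤ t` -/
theorem Cmp.card {K : ℕ} (t : ℕ) : ∀ {r : ℕ} {σ : SM (r + 1)} {y : Fin r → ℕ}, Cmp K r σ y →
    ∀ A : Finset (Fin (r + 1)), (∀ a ∈ A, ∀ b ∈ A, a ≠ b → σ a b ≤ t) →
    A.card ≤ (Finset.univ.filter fun i => y i ≤ t).card + 1
  | 0, _, _, _, A, _ => (Finset.card_le_univ A).trans (by simp)
  | r + 1, _, y, ⟨σ, c, j, h, e, hy, hj, _⟩, A, hA => by
      subst e
      set A' : Finset (Fin (r + 1)) := Finset.univ.filter fun b => b.succ ∈ A with hA'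
      have hcA : A.card = (if 0 ∈ A then 1 else 0) + A'.card := by
        rw [hA', Finset.card_filter, ← Fin.sum_univ_succ (fun b => if b ∈ A then 1 else 0),
          ← Finset.card_filter]
        simp
      have hcy : (Finset.univ.filter fun i => y i ≤ t).card = (if y 0 ≤ t then 1 else 0) +
          (Finset.univ.filter fun i => Fin.tail y i ≤ t).card := by
        simp only [Finset.card_filter, Fin.sum_univ_succ]
        rfl
      have p' : ∀ a ∈ A', ∀ b ∈ A', a ≠ b → σ a b ≤ t := fun a ha b hb hab =>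
        hA a.succ (Finset.mem_filter.1 ha).2 b.succ (Finset.mem_filter.1 hb).2
          fun e => hab (Fin.succ_injective _ e)
      have ih := Cmp.card t h A' p'
      by_cases h0 : (0 : Fin (r + 2)) ∈ A
      · rcases le_or_gt j t with hjt | hjt
        · rw [hcA, hcy, if_pos h0, if_pos (hy.trans hjt)]; omega
        · have q : ∀ b ∈ A', σ b c ≤ t := fun b hb => by
            have := hA 0 h0 b.succ (Finset.mem_filter.1 hb).2 (Fin.succ_ne_zero b).symm
            rw [gr_0s] at this
            omega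
          have hc : c ∉ A' := fun hc => by
            have := q c hc
            rw [h.rz.self] at this
            omega
          have ih' := Cmp.card t h (insert c A') fun a ha b hb hab => by
            rcases Finset.mem_insert.1 ha with ea | ha'
            · rcases Finset.mem_insert.1 hb with eb | hb'
              · exact absurd (ea.trans eb.symm) hab
              · rw [ea, h.rz.comm]; exact q b hb'
            · rcases Finset.mem_insert.1 hb with eb | hb'
              · rw [eb]; exact q a ha'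
              · exact p' a ha' b hb' hab
          rw [Finset.card_insert_of_notMem hc] at ih'
          rw [hcA, hcy, if_pos h0]; omega
      · rw [hcA, hcy, if_neg h0]; omega


section cor
variable {E : Type} [Fintype E] [DecidableEq E] {r : ℕ} {L : List (Lv Ω)}




/-- labels of the edges, equal levels sharing one label -/
theorem Cmp.fn {K : ℕ} {σ : SM (r + 1)} {y : Fin r → ℕ} (h : Cmp K r σ y)
    (a b : E → Fin (r + 1)) (hab : ∀ e, a e ≠ b e) :
    ∃ f : E → Fin r, (∀ e, σ (a e) (b e) = y (f e)) ∧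
      ∀ e e', σ (a e) (b e) = σ (a e') (b e') → f e = f e' := by
  classical
  have H : ∀ e, ∃ i, y i = σ (a e) (b e) := fun e =>
    (h.mem _ _ (hab e)).imp fun _ h => h.symm
  refine ⟨fun e => Classical.choose (H e), fun e => (Classical.choose_spec (H e)).symm,
    fun e e' hh => ?_⟩
  simp only [hh]




end cor

end Crest.Agent.T156.Cas.Wp52

end
private theorem rz_cf086e4067 : type_of% @_root_.Crest.Agent.T156.Cas.Wp52.Ey.eq_def := @_root_.Crest.Agent.T156.Cas.Wp52.Ey.eq_def -- L153
private theorem rz_e1ee0fcc15 : type_of% @_root_.Crest.Agent.T156.Cas.Wp52.Ey.eq_1 := @_root_.Crest.Agent.T156.Cas.Wp52.Ey.eq_1 -- L153
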