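import Crest.Agent.T156.Site_94
import Crest.Agent.T156.NuC_87
import Crest.Agent.T156.Wp_52

/-!
# Row 156 (helper94): weights and site column on a FIXED base shape (test at a node)

`avc L σ₀ k` is dominated by independent labels added to the labels of the base (`avc_le`);
one edge (`avc_pair_le`), one edge with a third branch (`avc_out`), good terms (`avc_good`).
-/

set_option autoImplicit false
set_option linter.unusedSectionVars false

noncomputable section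

namespace Crest.Agent.T156.Cas

open MeasureTheory Real Set Filter Topology
open Crest.Agent.T157.E Crest.Agent.T157.Casc Crest.Agent.T157.SL Crest.Agent.T157.Casc.C
open Crest.Agent.R339.B Crest.Agent.R339.Var Crest.Agent.T157
open Crest.ProbabilityR.SpinGlassDynamics (spin)
open Nu87 One15 Wp52

namespace Site94

variable {Ω' : Type} {M : List (Lv Ω')} {r : ℕ}

/-- independent labels added to the labels `y₀` -/
def EyC (M : List (Lv Ω')) (y₀ : Fin r → ℕ) : (k : ℕ) → ((Fin (r + k) → ℕ) → ℝ) → ℝ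
  | 0, Ψ => Ψ y₀
  | k + 1, Ψ => EyC M y₀ k fun y => Br M fun j => Ψ (Fin.cons j y)

theorem EyC_mul (y₀ : Fin r → ℕ) (c : ℝ) : ∀ (k : ℕ) (Ψ : (Fin (r + k) → ℕ) → ℝ),
    EyC M y₀ k (fun y => c * Ψ y) = c * EyC M y₀ k Ψ
  | 0, _ => rfl
  | k + 1, _ => by simp only [EyC, Br_mul, EyC_mul y₀ c k]

theorem EyC_mono (hM : Mono 0 M) {y₀ : Fin r → ℕ} (h0 : ∀ i, y₀ i ≤ M.length) : ∀ (k : ℕ)
    {Ψ Ψ' : (Fin (r + k) → ℕ) → ℝ}, (∀ y, (∀ i, y i ≤ M.length) → Ψ y ≤ Ψ' y) →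
    EyC M y₀ k Ψ ≤ EyC M y₀ k Ψ'
  | 0, _, _, h => h _ h0
  | k + 1, _, _, h => EyC_mono hM h0 k fun _ hy => Br_mono hM fun _ hj =>
      h _ fun i => Fin.cases hj hy i

/-- one graft against one more label -/
theorem up1_le (hM : Mono 0 M) {Φ : SM (r + 2) → ℝ} {Ψ : (Fin (r + 1) → ℕ) → ℝ}
    (h0 : ∀ y, (∀ i, y i ≤ M.length) → 0 ≤ Ψ y)
    (h : ∀ σ y, (∀ i, y i ≤ M.length) → Cmp M.length (r + 1) σ y → Φ σ ≤ Ψ y) {σ : SM (r + 1)}
    {y : Fin r → ℕ} (hy : ∀ i, y i ≤ M.length) (hc : Cmp M.length r σ y) :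
    up1 M Φ σ ≤ (r + 1) * Br M fun j => Ψ (Fin.cons j y) := by
  have hσ := hc.rz
  rw [up1, div_le_iff₀ (by positivity)]
  refine (Ws_mono hM hσ (hσ.ncm Φ) (hσ.ncm fun σ => max (Φ σ) 0)
    fun _ _ _ => le_max_left _ _).trans ?_
  refine (Ws_le hM hσ fun _ _ _ => le_max_right _ _).trans ?_
  refine (Finset.sum_le_card_nsmul _ _ ((r + 1) * Br M fun j => Ψ (Fin.cons j y))
    fun a _ => ?_).trans (le_of_eq (by simp; ring))
  have b1 : Br M (fun j => max (Φ (gr M.length σ a j)) 0) ≤ Br M fun j => Ψ (Fin.cons j y) :=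
    Br_mono hM fun j hj => max_le
      (h _ _ (fun i => Fin.cases hj hy i) ⟨σ, a, j, hc, rfl, le_rfl, hj, .inl rfl⟩)
      (h0 _ fun i => Fin.cases hj hy i)
  have b2 : ∑ b ∈ Finset.univ.erase a, ex M (σ a b) * max (Φ (gr M.length σ a (σ a b))) 0
      ≤ r * Br M fun j => Ψ (Fin.cons j y) := by
    refine (Finset.sum_le_card_nsmul _ _ (Br M fun j => Ψ (Fin.cons j y))
      fun b hb => ?_).trans (le_of_eq (by simp))
    refine ex_mul_le hM (hσ.le a b) (fun j hj => h0 _ fun i => Fin.cases hj hy i) fun j hj => ?_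
    have hj' : j ≤ M.length := hj.trans (hσ.le a b)
    exact max_le (h _ _ (fun i => Fin.cases hj' hy i) ⟨σ, a, σ a b, hc, rfl, hj,
      hσ.le a b, .inr ⟨b, Finset.ne_of_mem_erase hb, rfl⟩⟩) (h0 _ fun i => Fin.cases hj' hy i)
  linarith

/-- **coupling on a fixed base** -/
theorem avc_le (hM : Mono 0 M) {σ₀ : SM (r + 1)} {y₀ : Fin r → ℕ} (hy₀ : ∀ i, y₀ i ≤ M.length)
    (hc₀ : Cmp M.length r σ₀ y₀) : ∀ (k : ℕ) {Φ : SM (r + k + 1) → ℝ}
    {Ψ : (Fin (r + k) → ℕ) → ℝ}, (∀ y, (∀ i, y i ≤ M.length) → 0 ≤ Ψ y) →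
    (∀ σ y, (∀ i, y i ≤ M.length) → Cmp M.length (r + k) σ y → Φ σ ≤ Ψ y) →
    avc M σ₀ k Φ ≤ (r + k : ℝ) ^ k * EyC M y₀ k Ψ
  | 0, _, _, _, h => by simpa [avc, EyC] using h _ _ hy₀ hc₀
  | k + 1, Φ, Ψ, h0, h => by
      have hB : ∀ y : Fin (r + k) → ℕ, (∀ i, y i ≤ M.length) →
          0 ≤ Br M fun j => Ψ (Fin.cons j y) := fun y hy =>
        Br_nonneg hM fun j hj => h0 _ fun i => Fin.cases hj hy i
      have ih := avc_le hM hy₀ hc₀ k (Φ := up1 (r := r + k) M Φ)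
        (Ψ := fun y => ((r + k : ℕ) + 1) * Br M fun j => Ψ (Fin.cons j y))
        (fun y hy => mul_nonneg (by positivity) (hB y hy)) fun σ y hy hc => up1_le hM h0 h hy hc
      have h1 := EyC_mono hM hy₀ k (Ψ := fun y => 0 * (0 : ℝ)) fun y hy =>
        (zero_mul _).trans_le (hB y hy)
      rw [EyC_mul] at ih h1
      rw [zero_mul] at h1
      refine ih.trans ?_
      rw [← mul_assoc, pow_succ]
      push_cast
      refine mul_le_mul_of_nonneg_right ?_ h1
      rw [show (r : ℝ) + (k + 1) = r + k + 1 by ring]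
      exact mul_le_mul_of_nonneg_right (pow_le_pow_left₀ (by positivity) (by linarith) k)
        (by positivity)

theorem cmp_tw {K j : ℕ} (hj : j ≤ K) : Cmp K 1 (tw K j) fun _ => j :=
  ⟨_, 0, j, rfl, rfl, le_rfl, hj, .inl rfl⟩

/-- potential of a function of two different labels -/
def P2 (M : List (Lv Ω')) (F : ℕ → ℕ → ℝ) {n : ℕ} (y : Fin n → ℕ) : ℝ :=
  ∑ i, ∑ i', (if i = i' then 0 else F (y i) (y i')) +
    ∑ i, (Br M (F (y i)) + Br M fun v => F v (y i)) + Br M fun v => Br M (F v)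

theorem Br_const (c : ℝ) : Br M (fun _ => c) = c := by
  simpa [Br_one] using Br_mul M c fun _ => 1

theorem Br_comm (F : ℕ → ℕ → ℝ) :
    Br M (fun v => Br M fun u => F u v) = Br M fun u => Br M (F u) := by
  simp only [Br, Finset.mul_sum]
  rw [Finset.sum_comm]
  simp only [mul_left_comm]

theorem P2_step (hM : Mono 0 M) {F : ℕ → ℕ → ℝ} (hF : ∀ u v, 0 ≤ F u v) {n : ℕ} (y : Fin n → ℕ) :
    Br M (fun j => P2 M F (Fin.cons j y : Fin (n + 1) → ℕ)) ≤ 3 * P2 M F y := by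
  have h1 : 0 ≤ ∑ i, ∑ i', (if i = i' then 0 else F (y i) (y i')) :=
    Finset.sum_nonneg fun _ _ => Finset.sum_nonneg fun _ _ => by
      split_ifs
      exacts [le_rfl, hF _ _]
  have h2 : 0 ≤ ∑ i, (Br M (F (y i)) + Br M fun v => F v (y i)) :=
    Finset.sum_nonneg fun _ _ => add_nonneg (Br_nonneg hM fun _ _ => hF _ _)
      (Br_nonneg hM fun _ _ => hF _ _)
  simp only [P2, Fin.sum_univ_succ, Fin.cons_zero, Fin.cons_succ, if_true, Fin.succ_ne_zero,
    (Fin.succ_ne_zero _).symm, if_false, Fin.succ_inj, Finset.sum_add_distrib, Br_add, Br_sum,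
    Br_const] at h1 h2 ⊢
  linarith [Br_comm (M := M) F]

theorem EyC_P2 (hM : Mono 0 M) {F : ℕ → ℕ → ℝ} (hF : ∀ u v, 0 ≤ F u v) {y₀ : Fin r → ℕ}
    (h0 : ∀ i, y₀ i ≤ M.length) : ∀ k : ℕ, EyC M y₀ k (P2 M F) ≤ 3 ^ k * P2 M F y₀
  | 0 => by simp [EyC]
  | k + 1 => by
      refine (EyC_mono hM h0 k fun y _ => P2_step hM hF y).trans ?_
      rw [EyC_mul, pow_succ', mul_assoc]
      exact mul_le_mul_of_nonneg_left (EyC_P2 hM hF h0 k) (by norm_num)

theorem P2_nonneg (hM : Mono 0 M) {F : ℕ → ℕ → ℝ} (hF : ∀ u v, 0 ≤ F u v) {n : ℕ} (y : Fin n → ℕ) :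
    0 ≤ ∑ i, ∑ i', (if i = i' then 0 else F (y i) (y i')) ∧
      0 ≤ ∑ i, (Br M (F (y i)) + Br M fun v => F v (y i)) ∧ 0 ≤ Br M fun v => Br M (F v) :=
  ⟨Finset.sum_nonneg fun _ _ => Finset.sum_nonneg fun _ _ => by
      split_ifs
      exacts [le_rfl, hF _ _],
    Finset.sum_nonneg fun _ _ => add_nonneg (Br_nonneg hM fun _ _ => hF _ _)
      (Br_nonneg hM fun _ _ => hF _ _), Br_nonneg hM fun _ _ => Br_nonneg hM fun _ _ => hF _ _⟩

theorem le_P2 (hM : Mono 0 M) {F : ℕ → ℕ → ℝ} (hF : ∀ u v, 0 ≤ F u v) {n : ℕ} (y : Fin n → ℕ)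
    {i i' : Fin n} (h : i ≠ i') : F (y i) (y i') ≤ P2 M F y := by
  obtain ⟨-, h2, h3⟩ := P2_nonneg hM hF y
  have h0 : ∀ i i', 0 ≤ if i = i' then 0 else F (y i) (y i') := fun _ _ => by
    split_ifs
    exacts [le_rfl, hF _ _]
  have h1 := (Finset.single_le_sum (fun i' _ => h0 i i') (Finset.mem_univ i')).trans
    (Finset.single_le_sum (fun i _ => Finset.sum_nonneg fun i' _ => h0 i i') (Finset.mem_univ i))
  rw [if_neg h] at h1
  rw [P2]
  linarith

theorem le_P2' (hM : Mono 0 M) {F : ℕ → ℕ → ℝ} (hF : ∀ u v, 0 ≤ F u v) {n : ℕ} (y : Fin n → ℕ)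
    (i : Fin n) : Br M (F (y i)) ≤ P2 M F y := by
  obtain ⟨h1, -, h3⟩ := P2_nonneg hM hF y
  have h2 := Finset.single_le_sum (f := fun i => Br M (F (y i)) + Br M fun v => F v (y i))
    (fun _ _ => add_nonneg (Br_nonneg hM fun _ _ => hF _ _) (Br_nonneg hM fun _ _ => hF _ _))
    (Finset.mem_univ i)
  have h4 : 0 ≤ Br M fun v => F v (y i) := Br_nonneg hM fun _ _ => hF _ _
  rw [P2]
  linarith

/-- functions of two different labels, base split at `j` -/
theorem avc_two (hM : Mono 0 M) {j : ℕ} (hj : j ≤ M.length) (k : ℕ) {F : ℕ → ℕ → ℝ}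
    (hF : ∀ u v, 0 ≤ F u v) {Φ : SM (1 + k + 1) → ℝ}
    (h : ∀ σ y, (∀ i, y i ≤ M.length) → Cmp M.length (1 + k) σ y → Φ σ ≤ P2 M F y) :
    avc M (tw M.length j) k Φ ≤ (3 * (1 + k)) ^ k *
      (Br M (F j) + (Br M fun v => F v j) + Br M fun v => Br M (F v)) := by
  refine (avc_le hM (fun _ => hj) (cmp_tw hj) k (fun y _ => ?_) h).trans ?_
  · obtain ⟨h1, h2, h3⟩ := P2_nonneg hM hF y
    exact add_nonneg (add_nonneg h1 h2) h3
  · refine (mul_le_mul_of_nonneg_left (EyC_P2 hM hF (fun _ => hj) k) (by positivity)).trans_eq ?_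
    simp [P2, mul_pow]
    ring

/-- one edge, base split at `j` -/
theorem avc_pair_le (hM : Mono 0 M) {j : ℕ} (hj : j ≤ M.length) (k : ℕ) {D : ℕ → ℝ}
    (hD : ∀ j, 0 ≤ D j) {a b : Fin (1 + k + 1)} (hab : a ≠ b) :
    avc M (tw M.length j) k (fun σ => D (σ a b)) ≤ (3 * (1 + k)) ^ k * (D j + 2 * Br M D) := by
  refine (avc_two hM hj k (F := fun u _ => D u) (fun u _ => hD u) fun σ y _ hc => ?_).trans_eq ?_
  · obtain ⟨i, hi⟩ := hc.mem a b hab
    rw [hi]
    exact (Br_const _).symm.trans_le (le_P2' hM (F := fun u _ => D u) (fun u _ => hD u) y i)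
  · simp only [Br_const]
    ring

/-- one edge with a third branch, base split at `j` -/
theorem avc_out (hM : Mono 0 M) {j : ℕ} (hj : j ≤ M.length) (k : ℕ) {c : ℕ → ℕ}
    (hc' : ∀ j, j ≤ c j) {D : ℕ → ℝ} (hD : ∀ j, 0 ≤ D j) {a b : Fin (1 + k + 1)} (hab : a ≠ b) :
    avc M (tw M.length j) k (fun σ => if Out c σ a b then D (σ a b) else 0) ≤
      (3 * (1 + k)) ^ k * (ex M (c j) * D j + (Br M fun v => if j ≤ c v then D v else 0) +
        Br M fun v => ex M (c v) * D v) := by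
  have hF : ∀ u v, 0 ≤ D u * if v ≤ c u then 1 else 0 := fun u v => mul_nonneg (hD u) (by positivity)
  have hB : ∀ u, Br M (fun v => D u * if v ≤ c u then 1 else 0) ≤ ex M (c u) * D u := fun u => by
    rw [Br_mul, mul_comm]
    exact mul_le_mul_of_nonneg_right (Br_le hM _) (hD u)
  refine (avc_two hM hj k hF fun σ y hy hc => ?_).trans (mul_le_mul_of_nonneg_left
    (add_le_add (add_le_add (hB j) (by simp)) (Br_mono hM fun v _ => hB v)) (by positivity))
  split_ifs with h1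
  · obtain ⟨i, hi⟩ := hc.mem a b hab
    obtain ⟨d, h2, h3⟩ := h1
    by_cases hd : d = a ∨ d = b
    · have h4 : M.length ≤ c (y i) := by
        rw [← hi]
        rcases hd with rfl | rfl
        exacts [hc.rz.self d ▸ h2, hc.rz.self d ▸ h3]
      refine le_trans ?_ (le_P2' hM hF y i)
      rw [hi]
      exact (Br_const _).symm.trans_le (Br_mono hM fun v hv => by rw [if_pos (hv.trans h4), mul_one])
    · rw [not_or] at hd
      have h4 := hc.card (c (σ a b)) {d, a, b} fun x hx z hz hxz => by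
        have := hc' (σ a b)
        have := hc.rz.comm a b; have := hc.rz.comm a d; have := hc.rz.comm b d
        simp only [Finset.mem_insert, Finset.mem_singleton] at hx hz
        rcases hx with rfl | rfl | rfl <;> rcases hz with rfl | rfl | rfl <;> omega
      rw [Finset.card_insert_of_notMem (by simp [hd.1, hd.2]), Finset.card_pair hab] at h4
      obtain ⟨i', h5, h6⟩ := Finset.exists_mem_ne
        (show 1 < (Finset.univ.filter fun i => y i ≤ c (σ a b)).card by omega) i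
      refine le_trans ?_ (le_P2 hM hF y h6.symm)
      rw [← hi, if_pos (Finset.mem_filter.1 h5).2, mul_one]
  · obtain ⟨h1, h2, h3⟩ := P2_nonneg hM hF y
    exact add_nonneg (add_nonneg h1 h2) h3

section good
variable {Ω ι ι' : Type} [Fintype Ω] [Fintype Ω'] [DecidableEq ι] {w : Ω → ℝ} {Lb : List (Lv Ω)} {h : Ω → ℝ}
  {L : List (Lv Bool)} {ℓ : List (ℝ × ℝ)} {U : ι' → ℕ → Ω → Ω → ℝ} {B' : Finset ι'}

theorem abs_avc_le (hM : Mono 0 M) {σ₀ : SM (r + 1)} (h0 : Rz M.length σ₀) (k : ℕ)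
    {f g : SM (r + k + 1) → ℝ} (e : ∀ σ, Rz M.length σ →
      (∀ a b, σ (old k a) (old k b) = σ₀ a b) → |f σ| ≤ g σ) : |avc M σ₀ k f| ≤ avc M σ₀ k g := by
  have h1 := avc_mono' hM h0 k fun σ hσ ho => (abs_le.1 (e σ hσ ho)).2
  have h2 := avc_mono' hM h0 k (φ := fun σ => -1 * g σ) (ψ := f) fun σ hσ ho => by
    linarith [(abs_le.1 (e σ hσ ho)).1]
  rw [avc_mul] at h2
  rw [abs_le]
  constructor <;> linarith




end good

end Site94

end Crest.Agent.T156.Cas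

end
private theorem rz_01ccb3d841 : type_of% @_root_.Crest.Agent.T156.Cas.Site94.EyC.eq_def := @_root_.Crest.Agent.T156.Cas.Site94.EyC.eq_def -- L30
private theorem rz_85babc517e : type_of% @_root_.Crest.Agent.T156.Cas.Site94.EyC.eq_1 := @_root_.Crest.Agent.T156.Cas.Site94.EyC.eq_1 -- L30
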