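import Crest.Agent.T156.CErr_54
import Crest.Agent.T156.NuW_87
import Crest.Agent.T156.SiteC_94

/-!
# Row 156, block C: the local cubic term is an error in the value direction (helper76)
-/

set_option autoImplicit false
set_option linter.unusedSectionVars false

noncomputable section

namespace Crest.Agent.T156.Cas

open MeasureTheory Real Set Filter Topology
open Crest.Agent.T157.E Crest.Agent.T157.Casc Crest.Agent.T157.SL Crest.Agent.T157.Casc.C
open Crest.Agent.R339.B Crest.Agent.R339.Var Crest.Agent.T157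
open Crest.ProbabilityR.SpinGlassDynamics (spin)
open Nu87 One15 Site94 Wp52

namespace L376

variable {L : List (Lv Bool)} {ℓ : List (ℝ × ℝ)}

/-- `η` at the level `t` only -/
def lvK (q : ℝ) (t : ℕ) : ℕ → Bool → Bool → ℝ :=
  fun j a b => if j = t then spin a * spin b - q else 0

theorem TT_take_mono (h : ∀ p ∈ ℓ, 0 ≤ p.2) : Monotone fun i => R339.Var.TT (ℓ.take i) :=
  monotone_nat_of_le_succ (TT_take_succ h)


theorem SF_odd2 {ι : Type} [DecidableEq ι] {r : ℕ} {σ : SM r} {q : ι → ℕ → ℝ} {p p' : ι → Fin r}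
    {B : Finset ι} (H : List.Forall₂ (Rk1 spin) L ℓ) (hM : Mono 0 L) (hσ : Rz L.length σ)
    (h1 : ∀ e ∈ B, |q e (σ (p e) (p' e))| ≤ 1) {j t : ℕ} (ho : OddAt σ p p' B j) {s : ℝ}
    (hp : 0 < s) (hj : j ≤ t) (hs : 1 ≤ s ∨ R339.Var.TT (ℓ.take t) ≤ s)
    (hq : ∀ e ∈ B, σ (p e) (p' e) ≤ j → |q e (σ (p e) (p' e))| ≤ s) :
    |SF L q p p' B σ| ≤ 2 ^ B.card * (cP r s * s) := by
  rcases hs with hs | hs
  · obtain ⟨a, -⟩ := ho
    exact (abs_SF_le hσ h1).trans (le_mul_of_one_le_right (by positivity)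
      (one_le_mul_of_one_le_of_one_le (one_le_cP a s) hs))
  · exact SF_odd H hM hσ h1 ho hp ((TT_take_mono (nn_of H) hj).trans hs) hq

/-- three edges at the level `t` -/
theorem tri_le (H : List.Forall₂ (Rk1 spin) L ℓ) (hM : Mono 0 L) {r t : ℕ} {q s : ℝ} (hp : 0 < s)
    (hs : 1 ≤ s ∨ R339.Var.TT (ℓ.take t) ≤ s) (hq : |q| ≤ s) (h1 : |q| ≤ 1)
    {p p' : Fin 3 → Fin (r + 1)}
    (hab : p 0 ≠ p' 0) :
    |nu (fun _ => 1) L 0 r fun x σ => ∏ e, ed (lvK q t) (p e) (p' e) x σ| ≤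
      8 * (cP (r + 1) s * s + (r + 1) * ex L t) * dm L 0 t := by
  have h0 := mul_nonneg (cP_nonneg (r + 1) s) hp.le
  have nD : ∀ j, (0 : ℝ) ≤ if j = t then 1 else 0 := fun j => by positivity
  have one : ∀ g : ℕ → ℝ, (∀ j, 0 ≤ g j) → ∑ j ∈ Finset.range (L.length + 1),
      dm L 0 j * (g j * if j = t then 1 else 0) ≤ g t * dm L 0 t := fun g hg => by
    simp only [mul_ite, mul_one, mul_zero, Finset.sum_ite_eq']
    split_ifs
    · rw [mul_comm]
    · exact mul_nonneg (hg t) (dm_nonneg hM t)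
  refine (abs_avm_le hM (g := fun σ => 8 * ((cP (r + 1) s * s * if σ (p 0) (p' 0) = t then 1 else 0) +
    if Out id σ (p 0) (p' 0) then (if σ (p 0) (p' 0) = t then 1 else 0) else 0)) fun σ hσ => ?_).trans ?_
  · by_cases ha : ∀ e, σ (p e) (p' e) = t
    · have e1 : (TM (fun _ => 1) L 0 σ fun x => ∏ e, ed (lvK q t) (p e) (p' e) x σ) =
          SF L (fun _ _ => q) p p' Finset.univ σ := by
        simp only [SF, ed, lvK, et, ha, if_true]
      have c8 : (2 : ℝ) ^ (Finset.univ : Finset (Fin 3)).card = 8 := by norm_num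
      rw [e1, if_pos (ha 0), mul_one]
      rcases good_three hσ (c := id) monotone_id (fun _ => le_rfl) (p := p) (p' := p')
        (fun ⟨i₀, _, i₂, _, _, _, _, h, _⟩ => by rw [ha, ha] at h; exact lt_irrefl _ h) with
        ⟨j, ho, hj⟩ | ho
      · refine (SF_odd2 H hM hσ (fun _ _ => h1) ho hp
          ((hj 0 (Finset.mem_univ _)).trans_eq (ha 0)) hs fun _ _ _ => hq).trans ?_
        rw [c8]
        exact mul_le_mul_of_nonneg_left (le_add_of_nonneg_right (by positivity)) (by norm_num)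
      · refine (abs_SF_le hσ fun _ _ => h1).trans ?_
        rw [c8, if_pos (ho 0 (Finset.mem_univ _))]
        linarith
    · obtain ⟨e, he⟩ := not_forall.1 ha
      rw [show (fun x => ∏ e, ed (lvK q t) (p e) (p' e) x σ) = fun _ => 0 from funext fun x =>
        Finset.prod_eq_zero (Finset.mem_univ e) (if_neg he), TM_const w1 hσ, abs_zero]
      positivity
  · rw [avm_mul, avm_add, avm_pair L (fun j => cP (r + 1) s * s * if j = t then 1 else 0) r hab]
    have h2 := (avm_out hM id nD hab).trans (mul_le_mul_of_nonneg_left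
      (one (fun j => ex L j) fun j => Nu87.ex_nonneg hM j) (by positivity))
    have h3 := one (fun _ => cP (r + 1) s * s) fun _ => h0
    nlinarith

/-- **the site factor of the local cubic term** -/
theorem lam3_le (H : List.Forall₂ (Rk1 spin) L ℓ) (hM : Mono 0 L) {t : ℕ} (h0 : 0 < t)
    (ht : t < L.length) {q s : ℝ} (hp : 0 < s) (hs : 1 ≤ s ∨ R339.Var.TT (ℓ.take t) ≤ s)
    (hq : |q| ≤ s) (h1 : |q| ≤ 1) :
    |Mul55.Lam (fun _ => 1) L 0 [lvK q t, lvK q t, lvK q t]| ≤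
      6 ^ 8 * (8 * (cP 6 s * s + 6 * ex L t) * dm L 0 t) := by
  have hk : lvK q t ∈ Mul55.Ok Bool L.length :=
    ⟨funext fun _ => funext fun _ => if_neg h0.ne, 0, fun _ => if_neg ht.ne'⟩
  have e1 := Lam_range (L := L) (h := 0) w1 (lvK q t) (U := fun _ => lvK q t) (k := 2) fun _ _ => hk
  have e2 := nu_nDv (w := fun _ => 1) (L := L) (h := 0) (r := 1) (fun _ => lvK q t)
    (ed (lvK q t) 0 1) 2 fun _ => 1
  simp only [one_mul] at e2
  have hB : 0 ≤ 8 * (cP 6 s * s + 6 * ex L t) * dm L 0 t := mul_nonneg (mul_nonneg (by norm_num)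
    (add_nonneg (mul_nonneg (cP_nonneg _ _) hp.le)
      (mul_nonneg (by norm_num) (Nu87.ex_nonneg hM t)))) (dm_nonneg hM t)
  refine (congrArg abs (e1.trans e2)).trans_le ((abs_sum_nCG_le hB fun f _ => ?_).trans_eq
    (by norm_num))
  have := tri_le H hM (r := 5) hp hs hq h1
    (p := Fin.cons (old (r := 1) 4 0) fun i => (f i).1)
    (p' := Fin.cons (old (r := 1) 4 1) fun i => (f i).2) (show old (r := 1) 4 0 ≠ old (r := 1) 4 1 by decide)
  norm_num only at this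
  simp only [Fin.prod_univ_succ (n := 2), Fin.cons_zero, Fin.cons_succ] at this
  exact this

theorem Br_one_le (hM : Mono 0 L) (t : ℕ) {g : ℕ → ℝ} (hg : 0 ≤ g t) :
    Br L (fun j => g j * if j = t then 1 else 0) ≤ g t * dm L 0 t := by
  simp only [Br, mul_ite, mul_one, mul_zero, Finset.sum_ite_eq']
  split_ifs
  · rw [mul_comm]
  · exact mul_nonneg hg (dm_nonneg hM t)

/-- a marked edge and three edges at the level `t` -/
theorem quad_eq {r t : ℕ} {q : ℕ → ℝ} {a b : Fin r} {p p' : Fin 3 → Fin r} {σ : SM r}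
    (ha : ∀ e, σ (p e) (p' e) = t) :
    (TM (fun _ => 1) L 0 σ fun x => ed (et q) a b x σ * ∏ e, ed (lvK (q t) t) (p e) (p' e) x σ) =
      SF L (fun _ => q) (Fin.cons a p : Fin 4 → Fin r) (Fin.cons b p') Finset.univ σ := by
  simp only [SF, Fin.prod_univ_succ (n := 3), Fin.cons_zero, Fin.cons_succ, ed, lvK, et, ha,
    if_true]

theorem quad_zero {r t : ℕ} {q : ℕ → ℝ} {a b : Fin r} {p p' : Fin 3 → Fin r} {σ : SM r}
    (hσ : Rz L.length σ) (ha : ¬∀ e, σ (p e) (p' e) = t) :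
    (TM (fun _ => 1) L 0 σ fun x =>
      ed (et q) a b x σ * ∏ e, ed (lvK (q t) t) (p e) (p' e) x σ) = 0 := by
  obtain ⟨e, he⟩ := not_forall.1 ha
  rw [show (fun x => ed (et q) a b x σ * ∏ e, ed (lvK (q t) t) (p e) (p' e) x σ) = fun _ => 0 from
    funext fun x => mul_eq_zero_of_right _
      (Finset.prod_eq_zero (Finset.mem_univ e) (if_neg he)), TM_const w1 hσ]

theorem quad_le (H : List.Forall₂ (Rk1 spin) L ℓ) (hM : Mono 0 L) {r t j : ℕ} {q : ℕ → ℝ} {s : ℝ}
    (hp : 0 < s) (hs : 1 ≤ s ∨ R339.Var.TT (ℓ.take t) ≤ s) (hq : ∀ v ≤ t, |q v| ≤ s)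
    (h1 : ∀ v ≤ L.length, |q v| ≤ 1) {a b : Fin r} {p p' : Fin 3 → Fin r} {σ : SM r}
    (hσ : Rz L.length σ) (hj : σ a b = j) (hjt : j ≠ t) (ha : ∀ e, σ (p e) (p' e) = t) :
    |SF L (fun _ => q) (Fin.cons a p : Fin 4 → Fin r) (Fin.cons b p') Finset.univ σ| ≤
      16 * (cP r s * s + if t < j ∧ Out id σ (p 0) (p' 0) then 1 else 0) := by
  have h0 := mul_nonneg (cP_nonneg r s) hp.le
  have c16 : (2 : ℝ) ^ (Finset.univ : Finset (Fin 4)).card = 16 := by norm_num
  have odd : ∀ i ≤ t, OddAt σ (Fin.cons a p : Fin 4 → Fin r) (Fin.cons b p') Finset.univ i →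
      |SF L (fun _ => q) (Fin.cons a p : Fin 4 → Fin r) (Fin.cons b p') Finset.univ σ| ≤
        16 * (cP r s * s + if t < j ∧ Out id σ (p 0) (p' 0) then 1 else 0) := fun i hi ho => by
    refine (SF_odd2 H hM hσ (fun _ _ => h1 _ (hσ.le _ _)) ho hp hi hs
      fun _ _ h => hq _ (h.trans hi)).trans ?_
    rw [c16]
    exact mul_le_mul_of_nonneg_left (le_add_of_nonneg_right (by positivity)) (by norm_num)
  rcases lt_or_gt_of_ne hjt with hlt | hlt
  · refine odd j hlt.le ⟨a, ?_⟩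
    have h2 : ∀ e, ¬Crs σ a j (p e) (p' e) := fun e h => by
      have := h.le hσ
      rw [ha] at this
      omega
    have h3 : Crs σ a j a b := by
      have := hσ.le (p 0) (p' 0)
      rw [ha] at this
      rw [Crs, hσ.self, hj]
      omega
    rw [Finset.card_filter, Fin.sum_univ_succ]
    simp [h2, h3]
  · rcases good_or hσ (c := id) monotone_id (fun _ => le_rfl) (Fin.cons a p : Fin 4 → Fin r)
      (Fin.cons b p') Finset.univ (B' := Finset.univ) (t := p) (t' := p') (e₀ := 0)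
      (fun e _ => by rw [ha, ha]) with (⟨i, ho, hi⟩ | ho) | ⟨-, h⟩
    · exact odd i ((hi 0 (Finset.mem_univ _)).trans_eq (ha 0)) ho
    · refine (abs_SF_le hσ fun _ _ => h1 _ (hσ.le _ _)).trans ?_
      rw [c16, if_pos ⟨hlt, ho 0 (Finset.mem_univ _)⟩]
      linarith
    · rw [Finset.card_filter, Fin.sum_univ_succ] at h
      simp only [Fin.cons_zero, Fin.cons_succ, ha, hj, if_neg hjt, if_true] at h
      exact absurd h (by decide)

theorem word_eq {t j : ℕ} (h0 : 0 < t) (ht : t < L.length) (hj : j ≤ L.length) (q : ℕ → ℝ) :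
    twoF j (et q j) (WdO L [lvK (q t) t, lvK (q t) t, lvK (q t) t] (TEf (fun _ => 1) L 0)) =
      ∑ f, nCG 1 3 f * avc L (tw L.length j) 6 fun σ => TM (fun _ => 1) L 0 σ fun x =>
        ed (et q) (old (r := 1) 6 0) (old (r := 1) 6 1) x σ *
          ∏ e : Fin 3, ed (lvK (q t) t) (f e).1 (f e).2 x σ := by
  have hk : lvK (q t) t ∈ Mul55.Ok Bool L.length :=
    ⟨funext fun _ => funext fun _ => if_neg h0.ne, 0, fun _ => if_neg ht.ne'⟩
  have e1 := twoF_eq_nW (L := L) (h := 0) w1 (U := [lvK (q t) t, lvK (q t) t, lvK (q t) t])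
    (fun S hS => by simp only [List.mem_cons, List.not_mem_nil, or_false, or_self] at hS; exact hS ▸ hk)
    hj (et q)
  have e2 := nW_range (w := fun _ => 1) (L := L) (h := 0) (fun _ => lvK (q t) t) (tw L.length j)
    (ed (et q) 0 1) 3
  have e3 := nuc_nDv (w := fun _ => 1) (L := L) (h := 0) (tw L.length j) (fun _ => lvK (q t) t)
    (ed (et q) 0 1) 3 fun _ => 1
  simp only [one_mul] at e3
  exact e1.trans (e2.trans e3)

/-- the marked word, crude -/
theorem word_crude (hM : Mono 0 L) {t j : ℕ} (h0 : 0 < t) (ht : t < L.length) (hj : j ≤ L.length)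
    {q : ℕ → ℝ} (h1 : ∀ v ≤ L.length, |q v| ≤ 1) :
    |twoF j (et q j) (WdO L [lvK (q t) t, lvK (q t) t, lvK (q t) t] (TEf (fun _ => 1) L 0))| ≤
      8 ^ 12 * 16 := by
  rw [word_eq h0 ht hj]
  refine (abs_sum_nCG_le (B := 16) (by norm_num) fun f _ => ?_).trans_eq (by norm_num)
  refine (abs_avc_le hM (rz_tw _ j) 6 (g := fun _ => 16) fun σ hσ _ => ?_).trans_eq (avc_const _ _)
  by_cases ha : ∀ e, σ (f e).1 (f e).2 = t
  · rw [quad_eq ha]
    exact (abs_SF_le hσ fun _ _ => h1 _ (hσ.le _ _)).trans_eq (by norm_num)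
  · rw [quad_zero hσ ha]
    norm_num

/-- the marked word, marked pair at another level -/
theorem word_le (H : List.Forall₂ (Rk1 spin) L ℓ) (hM : Mono 0 L) {t j : ℕ} (h0 : 0 < t)
    (ht : t < L.length) (hj : j ≤ L.length) (hjt : j ≠ t) {q : ℕ → ℝ} {s : ℝ} (hp : 0 < s)
    (hs : 1 ≤ s ∨ R339.Var.TT (ℓ.take t) ≤ s) (hq : ∀ v ≤ t, |q v| ≤ s)
    (h1 : ∀ v ≤ L.length, |q v| ≤ 1) :
    |twoF j (et q j) (WdO L [lvK (q t) t, lvK (q t) t, lvK (q t) t] (TEf (fun _ => 1) L 0))| ≤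
      8 ^ 12 * (16 * 21 ^ 6 * ((2 * (cP 8 s * s) + ex L t) * dm L 0 t)) := by
  have n0 := mul_nonneg (cP_nonneg 8 s) hp.le
  have n1 := Nu87.ex_nonneg hM t
  have n2 := dm_nonneg hM t
  have nD : ∀ j, (0 : ℝ) ≤ if j = t then 1 else 0 := fun j => by positivity
  rw [word_eq h0 ht hj]
  refine (abs_sum_nCG_le (B := 16 * 21 ^ 6 * ((2 * (cP 8 s * s) + ex L t) * dm L 0 t))
    (by positivity) fun f hf => ?_).trans_eq (by norm_num)
  refine (abs_avc_le hM (rz_tw _ j) 6 (g := fun σ => 16 * ((cP 8 s * s *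
      if σ (f 0).1 (f 0).2 = t then 1 else 0) + (if t < j then 1 else 0) *
      if Out id σ (f 0).1 (f 0).2 then (if σ (f 0).1 (f 0).2 = t then 1 else 0) else 0))
    fun σ hσ ho => ?_).trans ?_
  · by_cases ha : ∀ e, σ (f e).1 (f e).2 = t
    · rw [quad_eq ha]
      refine (quad_le H hM hp hs hq h1 hσ ((ho 0 1).trans (tw_01 hj)) hjt ha).trans_eq ?_
      simp only [ha 0, if_true, mul_one, ite_and, ite_mul, one_mul, zero_mul]
    · rw [quad_zero hσ ha, abs_zero]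
      positivity
  · rw [avc_mul, avc_add, avc_mul _ 6 fun σ => if Out id σ (f 0).1 (f 0).2 then _ else _]
    have h2 := avc_pair_le hM hj 6 (D := fun v => cP 8 s * s * if v = t then 1 else 0)
      (fun v => mul_nonneg n0 (nD v)) (hf 0)
    have h3 := Br_one_le hM t (g := fun _ => cP 8 s * s) n0
    have h4 := avc_out hM hj 6 (c := id) (fun _ => le_rfl) nD (hf 0)
    have h5 := Br_one_le hM t (g := ex L) n1
    simp only [if_neg hjt, mul_zero, zero_add, id] at h2 h4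
    norm_num only at h2 h4
    split_ifs with h
    · rw [show (Br L fun v => if j ≤ v then (if v = t then (1 : ℝ) else 0) else 0) = 0 from
        Finset.sum_eq_zero fun v _ => by
          beta_reduce
          split_ifs <;> first | exact mul_zero _ | omega] at h4
      nlinarith
    · nlinarith [mul_nonneg n1 n2]

end L376

namespace C40

open L376 Mul55

variable {D : CD} {τ0 : ℝ}

/-- the constant of the site bounds -/
def c76 : ℝ := 8 ^ 12 * (16 * 21 ^ 6 * (2 * (cP 8 (2 * (cP 2 2 + 1)) * (cP 2 2 + 1)) + 1))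

theorem lev_eq76 (D : CD) (t : ℕ) : D.lev t = lvK (D.q t) t := by
  funext j a b
  rw [CD.lev, lvK]
  split_ifs with h
  · rw [h, oE]
  · rfl

theorem sL_eq76 (D : CD) (V : List SK) : D.sL V = D.dd (Lam (fun _ => 1) D.S 0 V)
    (∑ j ∈ D.up, D.om j * twoF j (et D.q j) (WdO D.S V (TEf (fun _ => 1) D.S 0))) := by
  simp only [CD.sL, CD.sH, List.drop_zero, zero_mul, add_zero, List.map_id', Nat.sub_zero]
  rfl

theorem le_of_eps76 {x C s : ℝ} (hC : 0 ≤ C)
    (h : ∀ ε, 0 < ε → ε ≤ 1 → x ≤ C * (s + ε)) : x ≤ C * s := by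
  refine le_of_forall_pos_le_add fun δ hδ => ?_
  have h1 : 0 < δ / (C + 1) := by positivity
  have h2 := h (min 1 (δ / (C + 1))) (lt_min one_pos h1) (min_le_left _ _)
  have h3 : C * min 1 (δ / (C + 1)) ≤ δ := by
    refine (mul_le_mul (le_add_of_nonneg_right zero_le_one) (min_le_right _ _)
      (lt_min one_pos h1).le (by positivity)).trans_eq ?_
    field_simp
  linarith

/-- the sizes at an upper level -/
theorem size76 (H : D.Ok τ0) {t : ℕ} (ht : t ∈ D.up) {ε : ℝ} (h0 : 0 < ε) (h1 : ε ≤ 1) :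
    ∃ s, 0 < s ∧ s ≤ 2 * (cP 2 2 + 1) ∧ s ≤ (cP 2 2 + 1) * (D.e t + ε) ∧ ex D.S t ≤ D.e t ∧
      (1 ≤ s ∨ R339.Var.TT ((opV D.n D.β D.M D.q).take t) ≤ s) ∧ ∀ v ≤ t, |D.q v| ≤ s := by
  have hK : t < D.K := (Finset.mem_Ioo.1 ht).2
  have hc := one_le_cP (r := 2) 0 2
  have hq := fun v (hv : v ≤ D.K) => H.ook.mem hv
  have hs := H.sig0 hK.le
  have hx : ex D.S t = ex D.B t := Cav22.ex_tilt tilt_opS t
  have hx0 := Nu87.ex_nonneg H.mono t
  have hx1 : ex D.B t ≤ 1 := Tay38.ex_le_one H.mono t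
  have he := H.esc t ht
  have he0 : 0 ≤ D.e t := (le_min zero_le_one (add_nonneg hx0 hs)).trans he
  have hm : 0 ≤ min 1 (D.e t) := le_min zero_le_one he0
  refine ⟨(cP 2 2 + 1) * (min 1 (D.e t) + ε), by positivity, ?_, ?_, ?_, ?_⟩
  · nlinarith [min_le_left 1 (D.e t)]
  · gcongr
    exact min_le_right _ _
  · exact hx ▸ (le_min hx1 (le_add_of_nonneg_right hs)).trans he
  rcases le_or_gt 1 (D.e t) with h | h
  · have : 1 ≤ (cP 2 2 + 1) * (min 1 (D.e t) + ε) := by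
      rw [min_eq_left h]
      nlinarith
    exact ⟨.inl this, fun v hv => (abs_le.2 ⟨by linarith [(hq v (hv.trans hK.le)).1],
      (hq v (hv.trans hK.le)).2⟩).trans this⟩
  · rw [min_eq_right h.le]
    have h2 : ex D.B t + D.sig t ≤ D.e t := (min_le_iff.1 he).resolve_left h.not_ge
    have h3 : R339.Var.TT ((opV D.n D.β D.M D.q).take t) ≤ D.e t + ε :=
      (opV_acc hK.le).trans_le (by change D.sig t ≤ _; linarith)
    refine ⟨.inr (h3.trans (le_mul_of_one_le_left (by positivity) (by linarith))), fun v hv => ?_⟩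
    have h5 := H.qe t ht
    have h9 : D.q v ≤ D.q t := H.ook.le hv hK.le
    rw [abs_of_nonneg (hq v (hv.trans hK.le)).1]
    nlinarith

theorem q176 (H : D.Ok τ0) : ∀ v ≤ D.S.length, |D.q v| ≤ 1 := fun v hv => by
  have := H.ook.mem (hv.trans_eq opS_length)
  exact abs_le.2 ⟨by linarith [this.1], this.2⟩

theorem cP_le76 {s e ε : ℝ} (r : ℕ) (h0 : 0 < s) (h1 : s ≤ 2 * (cP 2 2 + 1))
    (h2 : s ≤ (cP 2 2 + 1) * (e + ε)) :
    cP r s * s ≤ cP r (2 * (cP 2 2 + 1)) * (cP 2 2 + 1) * (e + ε) := by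
  rw [mul_assoc]
  exact mul_le_mul (cP_mono r h1) h2 h0.le (cP_nonneg _ _)

theorem c76_nonneg : 0 ≤ c76 := by
  have := cP_nonneg 2 2
  have := cP_nonneg 8 (2 * (cP 2 2 + 1))
  unfold c76
  positivity

/-- **value**: the site factor of the local cubic term -/
theorem CD.Ok.lam3_le (H : D.Ok τ0) {t : ℕ} (ht : t ∈ D.up) :
    |Lam (fun _ => 1) D.S 0 [D.lev t, D.lev t, D.lev t]| ≤ c76 * (D.dx t * D.e t) := by
  rw [← mul_assoc]
  refine le_of_eps76 (mul_nonneg c76_nonneg (H.dx0 t)) fun ε h0 h1 => ?_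
  obtain ⟨s, s0, s1, s2, s3, s4, s5⟩ := size76 H ht h0 h1
  have hK := CD.mem_up.1 ht
  have := L376.lam3_le (C.forall₂_sl spin (opV_nn H.ook)) (Cav22.mono_tilt tilt_opS.symm H.mono)
    (Nat.zero_lt_of_lt hK.1) (opS_length.symm ▸ hK.2) s0 s4 (s5 t le_rfl)
    (q176 H t (opS_length.symm ▸ hK.2.le))
  rw [lev_eq76]
  refine this.trans ?_
  have h2 := cP_le76 6 s0 s1 s2
  have h3 : cP 6 (2 * (cP 2 2 + 1)) ≤ cP 8 (2 * (cP 2 2 + 1)) := by
    unfold cP
    gcongr
    norm_num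
  have h4 := mul_le_mul_of_nonneg_right (mul_le_mul_of_nonneg_right h3
    (show 0 ≤ cP 2 2 + 1 by linarith [cP_nonneg 2 2])) (show 0 ≤ D.e t + ε by linarith [H.e0 t])
  have h5 : 0 ≤ cP 8 (2 * (cP 2 2 + 1)) * (cP 2 2 + 1) * (D.e t + ε) :=
    ((mul_nonneg (cP_nonneg _ _) s0.le).trans h2).trans h4
  rw [show dm (List.map (sl spin) (opV D.n D.β D.M D.q)) 0 t = D.dx t from
    Cav22.dm_tilt tilt_opS 0 t, c76, ← mul_assoc, mul_right_comm _ (D.dx t)]
  refine mul_le_mul_of_nonneg_right ?_ (H.dx0 t)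
  change ex (List.map (sl spin) (opV D.n D.β D.M D.q)) t ≤ _ at s3
  linarith [H.e0 t]

/-- **test, node by node**: marked pair at `j`, three edges at `t` -/
theorem CD.Ok.word3_le (H : D.Ok τ0) {t j : ℕ} (ht : t ∈ D.up) (hj : j ≤ D.K) :
    |twoF j (oE D.q j) (WdO D.S [D.lev t, D.lev t, D.lev t] (TEf (fun _ => 1) D.S 0))| ≤
      c76 * ((if j = t then 1 else 0) + D.dx t * D.e t) := by
  have hK := CD.mem_up.1 ht
  have hM : Mono 0 D.S := Cav22.mono_tilt tilt_opS.symm H.mono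
  have h0 := mul_nonneg (H.dx0 t) (H.e0 t)
  rw [lev_eq76]
  split_ifs with h
  · refine (word_crude hM (Nat.zero_lt_of_lt hK.1) (opS_length.symm ▸ hK.2)
      (opS_length.symm ▸ hj) (q176 H)).trans (le_trans ?_
        (le_mul_of_one_le_right c76_nonneg (le_add_of_nonneg_right h0)))
    have := mul_nonneg (cP_nonneg 8 (2 * (cP 2 2 + 1))) (show 0 ≤ cP 2 2 + 1 by
      linarith [cP_nonneg 2 2])
    unfold c76
    linarith
  rw [zero_add, ← mul_assoc]
  refine le_of_eps76 (mul_nonneg c76_nonneg (H.dx0 t)) fun ε h0 h1 => ?_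
  obtain ⟨s, s0, s1, s2, s3, s4, s5⟩ := size76 H ht h0 h1
  refine (word_le (C.forall₂_sl spin (opV_nn H.ook)) hM (Nat.zero_lt_of_lt hK.1)
    (opS_length.symm ▸ hK.2) (opS_length.symm ▸ hj) h s0 s4 s5 (q176 H)).trans ?_
  have h2 := cP_le76 8 s0 s1 s2
  rw [show dm (List.map (sl spin) (opV D.n D.β D.M D.q)) 0 t = D.dx t from
    Cav22.dm_tilt tilt_opS 0 t, c76, ← mul_assoc (16 * 21 ^ 6), ← mul_assoc (8 ^ 12),
    mul_right_comm _ (D.dx t)]
  refine mul_le_mul_of_nonneg_right ?_ (H.dx0 t)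
  change ex (List.map (sl spin) (opV D.n D.β D.M D.q)) t ≤ _ at s3
  linarith

/-- **(S3)**: both directions -/
theorem CD.Ok.sL3_le (H : D.Ok τ0) {t : ℕ} (ht : t ∈ D.up) :
    |D.sL [D.lev t, D.lev t, D.lev t]| ≤ c76 * (|D.om t| + D.dx t * D.e t * D.wt) := by
  rw [sL_eq76]
  rcases hW : D.W.isSome with _ | _
  · rw [CD.dd_val hW, CD.wt_val hW, mul_one]
    exact (H.lam3_le ht).trans (mul_le_mul_of_nonneg_left
      (le_add_of_nonneg_left (abs_nonneg _)) c76_nonneg)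
  · rw [CD.dd_test hW, CD.wt_test hW]
    refine (D.abs_sum_om fun j hj => H.word3_le ht (CD.mem_up.1 hj).2.le).trans_eq ?_
    rw [D.Iw_mul, D.Iw_add, D.Iw_const]
    simp only [CD.Iw, mul_ite, mul_one, mul_zero, Finset.sum_ite_eq', if_pos ht]

theorem abs_u376 (D : CD) (t : ℕ) : |D.u3 t| ≤ D.g t ^ 3 := by
  rw [D.g_cube]
  have h1 := Casc.pi2_mono wt_one90 D.B t (K := fun x y => oU D.q t x y ^ 3)
    (fun x y => (le_abs_self _).trans_eq (abs_pow _ _)) 0
  have h2 := Casc.pi2_mono wt_one90 D.B t (K := fun x y => -1 * oU D.q t x y ^ 3)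
    (fun x y => (neg_one_mul _).trans_le ((neg_le_abs _).trans_eq (abs_pow _ _))) 0
  rw [pi2_const_mul, neg_one_mul] at h2
  exact abs_le.2 ⟨neg_le.1 h2, h1⟩

/-- the local cubic term, both directions -/
theorem CD.Ok.LOC3_le (H : D.Ok τ0) : |D.LOC3| ≤ τ0 ^ 3 / 8 * c76 *
    (D.Iw (fun j => D.g j ^ 3) + D.wt * D.I fun j => D.e j * D.g j ^ 3) := by
  refine (Finset.abs_sum_le_sum_abs _ _).trans ((Finset.sum_le_sum (g := fun t => τ0 ^ 3 / 8 *
    D.g t ^ 3 * (c76 * (|D.om t| + D.dx t * D.e t * D.wt))) fun t ht => ?_).trans_eq ?_)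
  · have := H.tau_mem t
    have := D.g0 t
    have := H.tau0
    rw [abs_mul, abs_mul, abs_of_nonneg (by have := (H.tau_mem t).1; positivity)]
    refine mul_le_mul (mul_le_mul ?_ (abs_u376 D t) (abs_nonneg _) (by positivity)) (H.sL3_le ht)
      (abs_nonneg _) (by positivity)
    gcongr
    exacts [(H.tau_mem t).1, (H.tau_mem t).2]
  · simp only [CD.Iw, CD.I, Finset.mul_sum, ← Finset.sum_add_distrib]
    exact Finset.sum_congr rfl fun t _ => by ring

/-- **leaf `L3S`** -/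
theorem l3S : L3S := fun τ0 => by
  refine ⟨|τ0| ^ 3 / 8 * c76, mul_nonneg (by positivity) c76_nonneg, fun D H hW => ?_⟩
  have h0 : D.Iw (fun j => D.g j ^ 3) = 0 := Finset.sum_eq_zero fun j _ => by
    cases h : D.W <;> simp_all [CD.om]
  refine H.LOC3_le.trans ?_
  rw [h0, zero_add, CD.wt_val hW, one_mul, abs_of_nonneg H.tau0]
  exact mul_le_mul_of_nonneg_left (H.Ig3_le hW) (mul_nonneg (by have := H.tau0; positivity) c76_nonneg)

end C40

end Crest.Agent.T156.Cas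

end
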