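import Crest.Agent.Lib.PrekopaLeindler
import Crest.Agent.T156.CaLc_44
import Crest.Agent.T156.CaConc_68

-- ▼ part T156/Mor_41
section

/-!
# Row 156: Brascamp–Lieb in finite form (Prékopa–Leindler with a state dependent shift)
-/

set_option autoImplicit false
set_option linter.unusedSectionVars false
open MeasureTheory ProbabilityTheory Filter Topology Set
open scoped ENNReal NNReal RealInnerProductSpace
open Crest.Agent.Lib.PrekopaLeindler

namespace Crest.Agent.T156.Mor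

section Core
variable {E : Type*} [AddCommGroup E] [Module ℝ E] [MeasurableSpace E] {μ : Measure E}

theorem int_mul_bdd {U g : E → ℝ} (hU : Integrable (fun w => Real.exp (-U w)) μ)
    (hg : Measurable g) {C : ℝ} (hC : ∀ w, g w ≤ C) :
    Integrable (fun w => Real.exp (-U w + g w)) μ := by
  have h1 : Integrable (fun w => Real.exp (g w) * Real.exp (-U w)) μ := by
    refine hU.bdd_mul (c := Real.exp C) (by fun_prop) (Eventually.of_forall fun w => ?_)
    rw [Real.norm_eq_abs, abs_of_pos (Real.exp_pos _)]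
    exact Real.exp_le_exp.2 (hC w)
  refine h1.congr (Eventually.of_forall fun w => ?_)
  simp only
  rw [← Real.exp_add, add_comm]

theorem tilt_exp {U g : E → ℝ} :
    ∫ w, Real.exp (g w) ∂(μ.tilted fun w => -U w) =
      (∫ w, Real.exp (-U w + g w) ∂μ) / ∫ w, Real.exp (-U w) ∂μ := by
  rw [integral_tilted, ← integral_div]
  refine integral_congr_ae (Eventually.of_forall fun w => ?_)
  simp only [smul_eq_mul]
  rw [Real.exp_add]; ring

/-- one value of the interpolation parameter -/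
theorem core_t [NeZero μ] (hμ : PL E μ) {U X f : E → ℝ} (hUm : Measurable U) (hXm : Measurable X)
    (hfm : Measurable f) (hU : Integrable (fun w => Real.exp (-U w)) μ) {C C' : ℝ}
    (hf : ∀ w, |f w| ≤ C) (hX : ∀ w, X w ≤ C') {t : ℝ} (ht0 : 0 < t) (ht1 : t < 1)
    (H : ∀ x y, U ((1 - t) • x + t • y) - t * f ((1 - t) • x + t • y) ≤
      (1 - t) * U x + t * (U y - X y)) :
    (∫ w, Real.exp (X w) ∂(μ.tilted fun w => -U w)) ^ t ≤
      ∫ w, Real.exp (t * f w) ∂(μ.tilted fun w => -U w) := by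
  have hI := int_mul_bdd hU hXm hX
  have hJ : Integrable (fun w => Real.exp (-U w + t * f w)) μ :=
    int_mul_bdd (g := fun w => t * f w) hU (by fun_prop) (C := t * C)
      fun w => mul_le_mul_of_nonneg_left (le_of_abs_le (hf w)) ht0.le
  have hZ : 0 < ∫ w, Real.exp (-U w) ∂μ := integral_exp_pos hU
  have hI0 : 0 ≤ ∫ w, Real.exp (-U w + X w) ∂μ := integral_nonneg fun w => (Real.exp_pos _).le
  have hJ0 : 0 ≤ ∫ w, Real.exp (-U w + t * f w) ∂μ := integral_nonneg fun w => (Real.exp_pos _).le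
  have key := hμ t ht0 ht1 (fun w => ENNReal.ofReal (Real.exp (-U w)))
    (fun w => ENNReal.ofReal (Real.exp (-U w + X w)))
    (fun w => ENNReal.ofReal (Real.exp (-U w + t * f w))) (by fun_prop) (by fun_prop)
    (by fun_prop) ?_
  · rw [← ofReal_integral_eq_lintegral_ofReal hU (Eventually.of_forall fun w => (Real.exp_pos _).le),
      ← ofReal_integral_eq_lintegral_ofReal hI (Eventually.of_forall fun w => (Real.exp_pos _).le),
      ← ofReal_integral_eq_lintegral_ofReal hJ (Eventually.of_forall fun w => (Real.exp_pos _).le),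
      ENNReal.ofReal_rpow_of_nonneg hZ.le (by linarith), ENNReal.ofReal_rpow_of_nonneg hI0 ht0.le,
      ← ENNReal.ofReal_mul (Real.rpow_nonneg hZ.le _), ENNReal.ofReal_le_ofReal_iff hJ0] at key
    rw [tilt_exp, tilt_exp, Real.div_rpow hI0 hZ.le, le_div_iff₀ hZ]
    rw [Real.rpow_sub hZ, Real.rpow_one] at key
    calc _ = (∫ w, Real.exp (-U w) ∂μ) / (∫ w, Real.exp (-U w) ∂μ) ^ t *
          (∫ w, Real.exp (-U w + X w) ∂μ) ^ t := by ring
      _ ≤ _ := key
  · intro x y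
    rw [ENNReal.ofReal_rpow_of_nonneg (Real.exp_pos _).le (by linarith),
      ENNReal.ofReal_rpow_of_nonneg (Real.exp_pos _).le ht0.le,
      ← ENNReal.ofReal_mul (Real.rpow_nonneg (Real.exp_pos _).le _), ← Real.exp_mul, ← Real.exp_mul,
      ← Real.exp_add]
    refine ENNReal.ofReal_le_ofReal (Real.exp_le_exp.2 ?_)
    have := H x y
    linarith

end Core

section Prob
variable {Ω : Type*} [MeasurableSpace Ω] {ν : Measure Ω} [IsProbabilityMeasure ν]

theorem int_bdd {f : Ω → ℝ} (hfm : Measurable f) {C : ℝ} (hf : ∀ w, |f w| ≤ C) :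
    Integrable f ν :=
  Integrable.of_bound hfm.aestronglyMeasurable C (Eventually.of_forall fun w => hf w)

theorem abs_int_le {f : Ω → ℝ} {C : ℝ} (hf : ∀ w, |f w| ≤ C) : |∫ w, f w ∂ν| ≤ C := by
  have := norm_integral_le_of_norm_le_const (μ := ν) (f := f) (C := C)
    (Eventually.of_forall fun w => hf w)
  simpa using this

theorem mgf_small {f : Ω → ℝ} (hfm : Measurable f) {C : ℝ} (hf : ∀ w, |f w| ≤ C) {t : ℝ}
    (ht0 : 0 < t) (ht : t * (2 * C) ≤ 1) :
    ∫ w, Real.exp (t * f w) ∂ν ≤ Real.exp (t * ∫ w, f w ∂ν + t ^ 2 * (2 * C) ^ 2) := by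
  set m := ∫ w, f w ∂ν with hm
  have hmC : |m| ≤ C := abs_int_le hf
  have hb : ∀ w, |t * (f w - m)| ≤ t * (2 * C) := fun w => by
    rw [abs_mul, abs_of_pos ht0]
    refine mul_le_mul_of_nonneg_left ?_ ht0.le
    have := abs_sub (f w) m
    linarith [hf w]
  have hp : ∀ w, Real.exp (t * f w) ≤
      Real.exp (t * m) * (1 + t * (f w - m) + t ^ 2 * (2 * C) ^ 2) := fun w => by
    have h1 := Real.abs_exp_sub_one_sub_id_le ((hb w).trans ht)
    have h2 : (t * (f w - m)) ^ 2 ≤ (t * (2 * C)) ^ 2 := by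
      rw [← sq_abs]
      exact pow_le_pow_left₀ (abs_nonneg _) (hb w) 2
    have h3 : Real.exp (t * f w) = Real.exp (t * m) * Real.exp (t * (f w - m)) := by
      rw [← Real.exp_add]; ring_nf
    rw [h3]
    refine mul_le_mul_of_nonneg_left ?_ (Real.exp_pos _).le
    have := le_of_abs_le h1
    nlinarith
  have hfi : Integrable f ν := int_bdd hfm hf
  have hi2 : Integrable (fun w => Real.exp (t * m) * (1 + t * (f w - m) + t ^ 2 * (2 * C) ^ 2)) ν :=
    (((integrable_const _).add ((hfi.sub (integrable_const _)).const_mul t)).add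
      (integrable_const _)).const_mul _
  calc _ ≤ ∫ w, Real.exp (t * m) * (1 + t * (f w - m) + t ^ 2 * (2 * C) ^ 2) ∂ν :=
        integral_mono_of_nonneg (Eventually.of_forall fun w => (Real.exp_pos _).le) hi2
          (Eventually.of_forall hp)
    _ = Real.exp (t * m) * (1 + t ^ 2 * (2 * C) ^ 2) := by
        rw [integral_const_mul, integral_add, integral_add, integral_const_mul, integral_sub]
        · simp [hm]
        · exact hfi
        · exact integrable_const _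
        · exact integrable_const _
        · exact (hfi.sub (integrable_const _)).const_mul t
        · exact (integrable_const _).add ((hfi.sub (integrable_const _)).const_mul t)
        · exact integrable_const _
    _ ≤ _ := by
        rw [Real.exp_add]
        refine mul_le_mul_of_nonneg_left ?_ (Real.exp_pos _).le
        linarith [Real.add_one_le_exp (t ^ 2 * (2 * C) ^ 2)]

theorem le_exp_of_pow {f : Ω → ℝ} (hfm : Measurable f) {C : ℝ} (hf : ∀ w, |f w| ≤ C) {a : ℝ}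
    (ha : 0 ≤ a) (H : ∀ t : ℝ, 0 < t → t < 1 → a ^ t ≤ ∫ w, Real.exp (t * f w) ∂ν) :
    a ≤ Real.exp (∫ w, f w ∂ν) := by
  rcases ha.eq_or_lt with rfl | ha
  · exact (Real.exp_pos _).le
  have hC : 0 ≤ C := (abs_nonneg _).trans (abs_int_le (ν := ν) hf)
  rw [← Real.log_le_iff_le_exp ha]
  refine le_of_forall_pos_le_add fun δ hδ => ?_
  set t : ℝ := min (1 / (2 * C + 2)) (δ / ((2 * C) ^ 2 + 1)) with htd
  have ht0 : 0 < t := lt_min (by positivity) (by positivity)
  have h1 : t ≤ 1 / (2 * C + 2) := min_le_left _ _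
  have h2 : t ≤ δ / ((2 * C) ^ 2 + 1) := min_le_right _ _
  rw [le_div_iff₀ (by positivity)] at h1 h2
  have h3 := (H t ht0 (by nlinarith)).trans (mgf_small hfm hf ht0 (by nlinarith))
  rw [Real.rpow_def_of_pos ha, Real.exp_le_exp] at h3
  have h4 : t * Real.log a ≤ t * (∫ w, f w ∂ν + δ) := by nlinarith
  exact le_of_mul_le_mul_left h4 ht0

/-- from the exponential inequality to the variance bound -/
theorem var_of_exp {f : Ω → ℝ} (hfm : Measurable f) {C : ℝ} (hf : ∀ w, |f w| ≤ C)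
    {R : ℝ → Ω → ℝ} (hRm : ∀ e, Measurable (R e)) {K : ℝ}
    (hR : ∀ e, 0 < e → ∀ w, 0 ≤ R e w ∧ R e w ≤ K * e ^ 2) {B : ℝ}
    (hB : ∀ δ, 0 < δ → ∀ᶠ e in 𝓝[>] (0 : ℝ), ∫ w, R e w ∂ν ≤ (B / 2 + δ) * e ^ 2)
    (H : ∀ᶠ e in 𝓝[>] (0 : ℝ),
      ∫ w, Real.exp (e * f w - R e w) ∂ν ≤ Real.exp (e * ∫ w, f w ∂ν)) :
    ∫ w, (f w - ∫ w', f w' ∂ν) ^ 2 ∂ν ≤ B := by
  set m := ∫ w, f w ∂ν with hm
  have hmC : |m| ≤ C := abs_int_le hf
  have hC : 0 ≤ C := (abs_nonneg _).trans hmC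
  have hK : 0 ≤ K := by
    obtain ⟨w⟩ : Nonempty Ω := nonempty_of_isProbabilityMeasure ν
    have := hR 1 one_pos w
    linarith [this.1, this.2]
  have hg : ∀ w, |f w - m| ≤ 2 * C := fun w => by
    have := abs_sub (f w) m
    linarith [hf w]
  have hfi : Integrable f ν := int_bdd hfm hf
  have hg2 : Integrable (fun w => (f w - m) ^ 2) ν :=
    int_bdd (by fun_prop) (C := (2 * C) ^ 2) fun w => by
      rw [abs_pow]; exact pow_le_pow_left₀ (abs_nonneg _) (hg w) 2
  set L : ℝ := 2 * C * K + (2 * C + K) ^ 3 with hL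
  have hL0 : 0 ≤ L := by positivity
  refine le_of_forall_pos_le_add fun δ hδ => ?_
  have hsm : ∀ᶠ e in 𝓝[>] (0 : ℝ), e < min (1 / (2 * C + K + 1)) (δ / 4 / (L + 1)) :=
    nhdsWithin_le_nhds (Iio_mem_nhds (lt_min (by positivity) (by positivity)))
  obtain ⟨e, ⟨⟨h1, h2⟩, h3⟩, he⟩ :=
    ((((hB (δ / 4) (by positivity)).and H).and hsm).and self_mem_nhdsWithin).exists
  have he : 0 < e := he
  have h4 : e < 1 / (2 * C + K + 1) := h3.trans_le (min_le_left _ _)
  have h5 : e < δ / 4 / (L + 1) := h3.trans_le (min_le_right _ _)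
  rw [lt_div_iff₀ (by positivity)] at h4 h5
  have he1 : e ≤ 1 := by nlinarith
  have hRi : Integrable (R e) ν := int_bdd (hRm e) (C := K * e ^ 2) fun w => by
    rw [abs_of_nonneg (hR e he w).1]; exact (hR e he w).2
  have hp : ∀ w, Real.exp (e * m) *
      (1 + e * (f w - m) - R e w + e ^ 2 / 2 * (f w - m) ^ 2 - L * e ^ 3) ≤
      Real.exp (e * f w - R e w) := fun w => by
    obtain ⟨r0, r1⟩ := hR e he w
    set g := f w - m with hgd
    set r := R e w
    have hgb := hg w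
    have hy : |e * g - r| ≤ e * (2 * C + K) := by
      have a1 : |e * g| ≤ e * (2 * C) := by
        rw [abs_mul, abs_of_pos he]; exact mul_le_mul_of_nonneg_left hgb he.le
      have a2 : |r| ≤ e * K := by
        rw [abs_of_nonneg r0]
        have : K * e ^ 2 ≤ e * K := by nlinarith [mul_nonneg hK he.le]
        linarith
      have := abs_sub (e * g) r
      linarith
    have hy1 : |e * g - r| ≤ 1 := by nlinarith
    have hb := Real.exp_bound hy1 (n := 3) (by norm_num)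
    simp only [Finset.sum_range_succ, Finset.range_zero, Finset.sum_empty, Nat.factorial] at hb
    have hc : |e * g - r| ^ 3 ≤ (e * (2 * C + K)) ^ 3 := pow_le_pow_left₀ (abs_nonneg _) hy 3
    have hb2 := neg_le_of_abs_le hb
    norm_num at hb2
    have hq : e ^ 2 * g ^ 2 - 2 * (2 * C * K) * e ^ 3 ≤ (e * g - r) ^ 2 := by
      have b1 : g * r ≤ 2 * C * (K * e ^ 2) :=
        (mul_le_mul_of_nonneg_right (le_of_abs_le hgb) r0).trans
          (mul_le_mul_of_nonneg_left r1 (by positivity))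
      nlinarith [mul_le_mul_of_nonneg_left b1 he.le, sq_nonneg r]
    have h3' : Real.exp (e * f w - r) = Real.exp (e * m) * Real.exp (e * g - r) := by
      rw [← Real.exp_add, hgd]; ring_nf
    rw [h3']
    refine mul_le_mul_of_nonneg_left ?_ (Real.exp_pos _).le
    have hn : 0 ≤ |e * g - r| ^ 3 := by positivity
    have : (e * (2 * C + K)) ^ 3 = (2 * C + K) ^ 3 * e ^ 3 := by ring
    rw [hL]
    nlinarith
  have hi1 : Integrable (fun w => Real.exp (e * f w - R e w)) ν :=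
    int_bdd (by have := hRm e; fun_prop) (C := Real.exp (e * C)) fun w => by
      rw [abs_of_pos (Real.exp_pos _)]
      refine Real.exp_le_exp.2 ?_
      have := mul_le_mul_of_nonneg_left (le_of_abs_le (hf w)) he.le
      linarith [(hR e he w).1]
  have hi0 : Integrable (fun w => e * (f w - m)) ν := (hfi.sub (integrable_const _)).const_mul e
  have hi2 : Integrable (fun w => 1 + e * (f w - m)) ν := (integrable_const _).add hi0
  have hi3 : Integrable (fun w => 1 + e * (f w - m) - R e w) ν := hi2.sub hRi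
  have hi4 : Integrable (fun w => 1 + e * (f w - m) - R e w + e ^ 2 / 2 * (f w - m) ^ 2) ν :=
    hi3.add (hg2.const_mul _)
  have hi5 : Integrable (fun w => Real.exp (e * m) *
      (1 + e * (f w - m) - R e w + e ^ 2 / 2 * (f w - m) ^ 2 - L * e ^ 3)) ν :=
    (hi4.sub (integrable_const (L * e ^ 3))).const_mul (Real.exp (e * m))
  have hI := (integral_mono hi5 hi1 hp).trans h2
  rw [integral_const_mul, integral_sub hi4 (integrable_const _), integral_add hi3 (hg2.const_mul _),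
    integral_sub hi2 hRi, integral_add (integrable_const _) hi0,
    integral_const_mul, integral_const_mul,
    integral_sub hfi (integrable_const _)] at hI
  simp only [integral_const, probReal_univ, smul_eq_mul, one_mul, ← hm, sub_self, mul_zero,
    add_zero] at hI
  have hI2 : 1 - ∫ w, R e w ∂ν + e ^ 2 / 2 * ∫ w, (f w - m) ^ 2 ∂ν - L * e ^ 3 ≤ 1 := by
    have hx := Real.exp_pos (e * m)
    by_contra hcon
    rw [not_le] at hcon
    nlinarith
  have he2 : 0 < e ^ 2 := by positivity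
  have h6 : e ^ 2 / 2 * ∫ w, (f w - m) ^ 2 ∂ν ≤ e ^ 2 / 2 * (B + δ) := by
    have : L * e ^ 3 ≤ δ / 4 * e ^ 2 := by
      have : L * e ≤ δ / 4 := by nlinarith
      nlinarith
    nlinarith
  exact le_of_mul_le_mul_left h6 (by positivity)

/-- dominated convergence for the Taylor remainder -/
theorem rem_of_tendsto {R : ℝ → Ω → ℝ} (hRm : ∀ e, Measurable (R e)) {K : ℝ}
    (hR : ∀ e, 0 < e → ∀ w, 0 ≤ R e w ∧ R e w ≤ K * e ^ 2) {b : Ω → ℝ}
    (hb : ∀ w, Tendsto (fun e => R e w / e ^ 2) (𝓝[>] 0) (𝓝 (b w / 2))) :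
    ∀ δ, 0 < δ → ∀ᶠ e in 𝓝[>] (0 : ℝ), ∫ w, R e w ∂ν ≤ ((∫ w, b w ∂ν) / 2 + δ) * e ^ 2 := by
  intro δ hδ
  have h := tendsto_integral_filter_of_dominated_convergence (μ := ν) (l := 𝓝[>] (0 : ℝ))
    (F := fun e w => R e w / e ^ 2) (f := fun w => b w / 2) (fun _ => K)
    (Eventually.of_forall fun e => ((hRm e).div_const _).aestronglyMeasurable)
    (by
      filter_upwards [self_mem_nhdsWithin] with e he
      refine Eventually.of_forall fun w => ?_
      have he : 0 < e := he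
      obtain ⟨r0, r1⟩ := hR e he w
      rw [Real.norm_eq_abs, abs_of_nonneg (by positivity), div_le_iff₀ (by positivity)]
      exact r1)
    (integrable_const _) (Eventually.of_forall hb)
  rw [integral_div] at h
  filter_upwards [h.eventually (Iio_mem_nhds (lt_add_of_pos_right _ hδ)), self_mem_nhdsWithin]
    with e h1 he
  have he : 0 < e := he
  rw [integral_div, div_lt_iff₀ (by positivity)] at h1
  exact h1.le

end Prob

/-- second order Taylor remainder of a function with Lipschitz derivative -/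
theorem taylor2 {g g' : ℝ → ℝ} (hg : ∀ s, HasDerivAt g (g' s) s) {b : ℝ}
    (hb : HasDerivAt g' b 0) :
    Tendsto (fun e => (g (-e) - g 0 + e * g' 0) / e ^ 2) (𝓝[>] 0) (𝓝 (b / 2)) := by
  have h1 : ∀ e : ℝ, HasDerivAt (fun e => g (-e) - g 0 + e * g' 0) (g' 0 - g' (-e)) e := fun e => by
    have := (((hg (-e)).comp e (hasDerivAt_neg e)).sub_const (g 0)).add
      ((hasDerivAt_id e).mul_const (g' 0))
    refine this.congr_deriv ?_
    ring
  have h2 : ∀ e : ℝ, HasDerivAt (fun e : ℝ => e ^ 2) (2 * e) e := fun e => by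
    simpa using hasDerivAt_pow 2 e
  refine HasDerivAt.lhopital_zero_nhdsGT (Eventually.of_forall h1) (Eventually.of_forall h2) ?_ ?_ ?_ ?_
  · filter_upwards [self_mem_nhdsWithin] with e he
    have he : 0 < e := he
    positivity
  · have := (h1 0).continuousAt.tendsto
    simp only [neg_zero, sub_self, zero_mul, add_zero] at this
    exact this.mono_left nhdsWithin_le_nhds
  · have := (h2 0).continuousAt.tendsto
    simp only [ne_eq, OfNat.ofNat_ne_zero, not_false_eq_true, zero_pow] at this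
    exact this.mono_left nhdsWithin_le_nhds
  · have h3 : HasDerivAt (fun e : ℝ => g' 0 - g' (-e)) b 0 := by
      have h0 : HasDerivAt g' b (-0) := by simpa using hb
      have := (h0.comp (0 : ℝ) (hasDerivAt_neg 0)).const_sub (g' 0)
      refine this.congr_deriv ?_
      ring
    have h4 := (hasDerivAt_iff_tendsto_slope_zero.1 h3).mono_left (nhdsGT_le_nhdsNE 0)
    refine (h4.div_const 2).congr' ?_
    filter_upwards [self_mem_nhdsWithin] with e he
    have he : 0 < e := he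
    simp only [zero_add, neg_zero, sub_self, sub_zero, smul_eq_mul]
    field_simp


section Main
variable {E : Type*} [AddCommGroup E] [Module ℝ E] [MeasurableSpace E] {μ : Measure E}
  {F : Type*} [NormedAddCommGroup F] [InnerProductSpace ℝ F] {κ : Type*} [Fintype κ]

/-- the planted potential `U0 + ∑ D_k Φ_k(·, 0)` -/
def pot (U0 : E → ℝ) (D : κ → ℝ) (Φ : κ → E → F → ℝ) (w : E) : ℝ := U0 w + ∑ k, D k * Φ k w 0

/-- the Taylor remainder of `Φ_k(w, ·)` at `0` in the direction `-u_k(w)` -/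
noncomputable def rem (D : κ → ℝ) (Φ : κ → E → F → ℝ) (m u : κ → E → F) (e : ℝ) (w : E) : ℝ :=
  ∑ k, D k * (Φ k w (-(e • u k w)) - Φ k w 0 + e * ⟪m k w, u k w⟫)

theorem rem_nonneg {D : κ → ℝ} (hD : ∀ k, 0 ≤ D k) {Φ : κ → E → F → ℝ} {m u : κ → E → F}
    (hm : ∀ k w v, Φ k w 0 + ⟪m k w, v⟫ ≤ Φ k w v) (e : ℝ) (w : E) : 0 ≤ rem D Φ m u e w := by
  refine Finset.sum_nonneg fun k _ => mul_nonneg (hD k) ?_
  have := hm k w (-(e • u k w))
  rw [inner_neg_right, inner_smul_right] at this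
  linarith

/-- **Brascamp–Lieb, exponential form.** -/
theorem bl_exp [NeZero μ] (hμ : PL E μ) {U0 : E → ℝ} (hU0 : ConvexOn ℝ univ U0) {D : κ → ℝ}
    (hD : ∀ k, 0 ≤ D k) {Φ : κ → E → F → ℝ}
    (hΦ : ∀ k, ConvexOn ℝ univ fun p : E × F => Φ k p.1 p.2) {m u : κ → E → F}
    (hm : ∀ k w v, Φ k w 0 + ⟪m k w, v⟫ ≤ Φ k w v) {f : κ → E → ℝ}
    (hf : ∀ k y z, f k y + ⟪m k z - m k y, u k y⟫ ≤ f k z)
    (hPm : Measurable (pot U0 D Φ)) (hP : Integrable (fun w => Real.exp (-pot U0 D Φ w)) μ)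
    (hfm : Measurable fun w => ∑ k, D k * f k w) {C : ℝ} (hC : ∀ w, |∑ k, D k * f k w| ≤ C)
    {e : ℝ} (he : 0 ≤ e) (hRm : Measurable (rem D Φ m u e)) :
    ∫ w, Real.exp (e * (∑ k, D k * f k w) - rem D Φ m u e w) ∂(μ.tilted fun w => -pot U0 D Φ w) ≤
      Real.exp (e * ∫ w, ∑ k, D k * f k w ∂(μ.tilted fun w => -pot U0 D Φ w)) := by
  have : IsProbabilityMeasure (μ.tilted fun w => -pot U0 D Φ w) := isProbabilityMeasure_tilted hP
  have hC' : ∀ w, |e * ∑ k, D k * f k w| ≤ e * C := fun w => by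
    rw [abs_mul, abs_of_nonneg he]; exact mul_le_mul_of_nonneg_left (hC w) he
  rw [← integral_const_mul]
  refine le_exp_of_pow (f := fun w => e * ∑ k, D k * f k w) (hfm.const_mul e) hC'
    (integral_nonneg fun w => (Real.exp_pos _).le) fun t ht0 ht1 => ?_
  refine core_t (X := fun w => e * (∑ k, D k * f k w) - rem D Φ m u e w) hμ hPm
    ((hfm.const_mul e).sub hRm) (hfm.const_mul e) hP hC' (C' := e * C)
    (fun w => ?_) ht0 ht1 fun x y => ?_
  · linarith [le_of_abs_le (hC' w), rem_nonneg (u := u) hD hm e w]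
  set z := (1 - t) • x + t • y with hz
  have h0 := hU0.2 (mem_univ x) (mem_univ y) (show (0 : ℝ) ≤ 1 - t by linarith) ht0.le (by ring)
  have hk : ∀ k, D k * Φ k z 0 - t * (e * (D k * f k z)) ≤ (1 - t) * (D k * Φ k x 0) +
      t * (D k * Φ k y 0 - (e * (D k * f k y) -
        D k * (Φ k y (-(e • u k y)) - Φ k y 0 + e * ⟪m k y, u k y⟫))) := fun k => by
    have h1 := (hΦ k).2 (mem_univ (x, (0 : F))) (mem_univ (y, -(e • u k y)))
      (show (0 : ℝ) ≤ 1 - t by linarith) ht0.le (by ring)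
    simp only [Prod.smul_mk, Prod.mk_add_mk, smul_zero, zero_add, smul_eq_mul] at h1
    have h2 := hm k z (t • -(e • u k y))
    rw [inner_smul_right, inner_neg_right, inner_smul_right] at h2
    have h3 := hf k y z
    rw [inner_sub_left] at h3
    have h4 := mul_le_mul_of_nonneg_left h3 (mul_nonneg ht0.le he)
    have h5 : Φ k z 0 - t * (e * f k z) ≤ (1 - t) * Φ k x 0 +
        t * (Φ k y 0 - (e * f k y - (Φ k y (-(e • u k y)) - Φ k y 0 + e * ⟪m k y, u k y⟫))) := by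
      rw [← hz] at h1
      nlinarith
    have h6 := mul_le_mul_of_nonneg_left h5 (hD k)
    nlinarith
  have hs := Finset.sum_le_sum fun k (_ : k ∈ Finset.univ) => hk k
  simp only [Finset.sum_add_distrib, Finset.sum_sub_distrib, ← Finset.mul_sum] at hs
  simp only [pot, rem, smul_eq_mul] at h0 ⊢
  rw [← hz] at h0
  nlinarith

/-- **Brascamp–Lieb, variance form**: the remainder is `O(e²)` and asymptotically `e² b / 2`. -/
theorem bl_var [NeZero μ] (hμ : PL E μ) {U0 : E → ℝ} (hU0 : ConvexOn ℝ univ U0) {D : κ → ℝ}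
    (hD : ∀ k, 0 ≤ D k) {Φ : κ → E → F → ℝ}
    (hΦ : ∀ k, ConvexOn ℝ univ fun p : E × F => Φ k p.1 p.2) {m u : κ → E → F}
    (hm : ∀ k w v, Φ k w 0 + ⟪m k w, v⟫ ≤ Φ k w v) {f : κ → E → ℝ}
    (hf : ∀ k y z, f k y + ⟪m k z - m k y, u k y⟫ ≤ f k z)
    (hPm : Measurable (pot U0 D Φ)) (hP : Integrable (fun w => Real.exp (-pot U0 D Φ w)) μ)
    (hfm : Measurable fun w => ∑ k, D k * f k w) {C : ℝ} (hC : ∀ w, |∑ k, D k * f k w| ≤ C)
    (hRm : ∀ e, Measurable (rem D Φ m u e)) {K : ℝ}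
    (hK : ∀ e, 0 < e → ∀ w, rem D Φ m u e w ≤ K * e ^ 2) {b : E → ℝ}
    (hb : ∀ w, Tendsto (fun e => rem D Φ m u e w / e ^ 2) (𝓝[>] 0) (𝓝 (b w / 2))) :
    ∫ w, (∑ k, D k * f k w - ∫ w', ∑ k, D k * f k w' ∂(μ.tilted fun w => -pot U0 D Φ w)) ^ 2
        ∂(μ.tilted fun w => -pot U0 D Φ w) ≤ ∫ w, b w ∂(μ.tilted fun w => -pot U0 D Φ w) := by
  have : IsProbabilityMeasure (μ.tilted fun w => -pot U0 D Φ w) := isProbabilityMeasure_tilted hP
  have hR : ∀ e, 0 < e → ∀ w, 0 ≤ rem D Φ m u e w ∧ rem D Φ m u e w ≤ K * e ^ 2 :=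
    fun e he w => ⟨rem_nonneg hD hm e w, hK e he w⟩
  refine var_of_exp hfm hC hRm hR (rem_of_tendsto hRm hR hb) ?_
  filter_upwards [self_mem_nhdsWithin] with e he
  exact bl_exp hμ hU0 hD hΦ hm hf hPm hP hfm hC (le_of_lt he) (hRm e)


end Main

end Crest.Agent.T156.Mor
end

-- ▼ part T156/CaSync_41

/-!
# Row 156: soft synchronisation, Brascamp–Lieb part

Under the path law of a symmetric cascade, `∑ dm_j f_j` has variance at most
`∑ dm_j E u_jᵀ A_j u_j` for convex functions `f_j` of the node laws with gradients `u_j`.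
-/

set_option autoImplicit false
set_option linter.unusedSectionVars false

noncomputable section

namespace Crest.Agent.T156.Cas.Sy41

open MeasureTheory Real Set Filter Topology
open Crest.Agent.T157.E Crest.Agent.T157.Casc Crest.Agent.T157.SL
open scoped RealInnerProductSpace

section lc
variable {ι : Type} [Fintype ι] {U f : (ι → ℝ) → ℝ}

theorem lE_tilt (U f : (ι → ℝ) → ℝ) : lE U f = ∫ g, f g ∂((gv ι).tilted fun g => -U g) := by
  rw [integral_tilted, lE, ← integral_div]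
  refine integral_congr_ae (.of_forall fun g => ?_)
  simp only [smul_eq_mul]; ring

theorem eg_expU (hU : Lg U) : Eg fun g => exp (-U g) := by simpa using hU.exp (-1)

theorem lC_eq (hU : Lg U) (hf : Measurable f) {C : ℝ} (hC : ∀ g, |f g| ≤ C) :
    lC U f f = ∫ g, (f g - ∫ g', f g' ∂((gv ι).tilted fun g => -U g)) ^ 2
      ∂((gv ι).tilted fun g => -U g) := by
  have : IsProbabilityMeasure ((gv ι).tilted fun g => -U g) :=
    isProbabilityMeasure_tilted (Eg.int68 (eg_expU hU))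
  have i1 := Mor.int_bdd (ν := (gv ι).tilted fun g => -U g) hf hC
  have i2 : Integrable (fun g => f g * f g) ((gv ι).tilted fun g => -U g) :=
    Mor.int_bdd (hf.mul hf) (C := C * C) fun g => by
      rw [abs_mul]; exact mul_self_le_mul_self (abs_nonneg _) (hC g)
  rw [lC, lE_tilt, lE_tilt]
  set c := ∫ g', f g' ∂((gv ι).tilted fun g => -U g) with hc
  have e : ∀ g, (f g - c) ^ 2 = f g * f g - 2 * c * f g + c ^ 2 := fun g => by ring
  simp only [e]
  have i3 : Integrable (fun g => f g * f g - 2 * c * f g) ((gv ι).tilted fun g => -U g) :=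
    i2.sub (i1.const_mul _)
  rw [integral_add i3 (integrable_const _), integral_sub i2 (i1.const_mul _),
    integral_const_mul, integral_const, ← hc]
  simp only [probReal_univ, smul_eq_mul]; ring

theorem lE_sum (hU : Lg U) {κ : Type*} (s : Finset κ) (c : κ → ℝ) {Φ : κ → (ι → ℝ) → ℝ}
    (h : ∀ k, Eg (Φ k)) : lE U (fun g => ∑ k ∈ s, c k * Φ k g) = ∑ k ∈ s, c k * lE U (Φ k) := by
  simp only [lE, Finset.mul_sum, mul_left_comm _ (c _)]
  rw [integral_finsetSum _ fun k _ => (Eg.int68 ((eg_expU hU).mul (h k))).const_mul _,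
    Finset.sum_div]
  simp only [integral_const_mul, mul_div_assoc]

end lc

variable {Ω : Type} [Fintype Ω] {w : Ω → ℝ}

theorem eg_Pf (hw : Wt w) (L : List (Lv Ω)) {u : (Ω → ℝ) → Ω → ℝ} (hu : ∀ x, Eg fun z => u z x) :
    Eg fun z => Pf w L z (u z) := Eg.sum _ fun x _ => (eg_P hw L x).mul (hu x)

theorem eg_Hb (hw : Wt w) (L : List (Lv Ω)) {u u' : (Ω → ℝ) → Ω → ℝ} (hu : ∀ x, Eg fun z => u z x)
    (hu' : ∀ x, Eg fun z => u' z x) : Eg fun z => Hb w L z (u z) (u' z) :=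
  Eg.sum _ fun x _ => Eg.sum _ fun y _ => ((hu x).mul (hu' y)).mul (eg_Hs hw L x y)

theorem eg_Cb (hw : Wt w) (L : List (Lv Ω)) {u u' : (Ω → ℝ) → Ω → ℝ} (hu : ∀ x, Eg fun z => u z x)
    (hu' : ∀ x, Eg fun z => u' z x) : Eg fun z => Cb w L z (u z) (u' z) :=
  (eg_Pf hw L fun x => (hu x).mul (hu' x)).sub ((eg_Pf hw L hu).mul (eg_Pf hw L hu'))

theorem der_Pf (hw : Wt w) (L : List (Lv Ω)) (z f : Ω → ℝ) :
    HasDerivAt (fun s : ℝ => ∑ x, P w L (z + s • f) x * f x) (Hb w L z f f) 0 := by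
  have := (Gr.sum Finset.univ fun x _ => (gr_P hw L x).const_mul (f x)).line z f 0
  simp only [zero_smul, add_zero, mul_comm (f _) (P w L _ _)] at this
  refine this.congr_deriv ?_
  simp only [Hb, Finset.sum_mul]
  exact Finset.sum_comm.trans (Finset.sum_congr rfl fun x _ => Finset.sum_congr rfl fun y _ => by
    ring)

omit [Fintype Ω] in
theorem st_aff (L : List (Lv Ω)) (j : ℕ) (h : Ω → ℝ) {a b : ℝ} (hab : a + b = 1)
    (g g' : NI L → ℝ) : st L j h (a • g + b • g') = a • st L j h g + b • st L j h g' := by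
  rw [← st_lin, ← add_smul, hab, one_smul]

/-- **Brascamp–Lieb under the planted law of one leaf** -/
theorem sync_lE (hPe : PeStmt) (hw : Wt w) {L : List (Lv Ω)} (hL : Mono 0 L) (h : Ω → ℝ) (x₀ : Ω)
    {f : ℕ → (Ω → ℝ) → ℝ} {u : ℕ → (Ω → ℝ) → Ω → ℝ}
    (hf : ∀ j z z', f j z + ∑ x, (P w (L.drop j) z' x - P w (L.drop j) z x) * u j z x ≤ f j z')
    (hfc : ∀ j, Continuous (f j)) (huc : ∀ j x, Continuous fun z => u j z x) {C M : ℝ}
    (hC : ∀ j z, |f j z| ≤ C) (hM : ∀ j z x, u j z x ^ 2 ≤ M) :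
    lC (U w L h x₀)
      (fun g => ∑ j ∈ Finset.range L.length, dm L 0 (j + 1) * f (j + 1) (st L (j + 1) h g))
      (fun g => ∑ j ∈ Finset.range L.length, dm L 0 (j + 1) * f (j + 1) (st L (j + 1) h g)) ≤
    lE (U w L h x₀) fun g => ∑ j ∈ Finset.range L.length, dm L 0 (j + 1) *
      Hb w (L.drop (j + 1)) (st L (j + 1) h g) (u (j + 1) (st L (j + 1) h g))
        (u (j + 1) (st L (j + 1) h g)) := by
  obtain ⟨lU, eS, -⟩ := hPe Ω w hw
  have cS : ∀ j, Continuous fun g : NI L → ℝ => st L j h g := fun j =>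
    continuous_pi fun x => (eS L h j _ (Eg.coord x)).cont
  have nn : ∀ j, ∀ l ∈ L.drop j, 0 ≤ l.m := fun j l hl =>
    hL.nn le_rfl l (List.mem_of_mem_drop hl)
  have mo : ∀ (j : ℕ) {L : List (Lv Ω)}, Mono 0 L → Mono 0 (L.drop j) := fun j => by
    induction j with
    | zero => exact fun h => h
    | succ j ih =>
      intro L hL
      cases L with
      | nil => exact hL
      | cons l L => exact ih (mono_le hL.1 hL.2)
  set D : Fin L.length → ℝ := fun k => dm L 0 (k + 1) with hD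
  set Φ : Fin L.length → (NI L → ℝ) → EuclideanSpace ℝ Ω → ℝ :=
    fun k g v => X w (L.drop (k + 1)) (st L (k + 1) h g + v.ofLp) with hΦ
  set m : Fin L.length → (NI L → ℝ) → EuclideanSpace ℝ Ω :=
    fun k g => WithLp.toLp 2 (P w (L.drop (k + 1)) (st L (k + 1) h g)) with hm
  set u' : Fin L.length → (NI L → ℝ) → EuclideanSpace ℝ Ω :=
    fun k g => WithLp.toLp 2 (u (k + 1) (st L (k + 1) h g)) with hu'
  have inn : ∀ a b : EuclideanSpace ℝ Ω, ⟪a, b⟫ = ∑ x, a.ofLp x * b.ofLp x := fun a b => by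
    simp [PiLp.inner_apply, mul_comm]
  have hpot : Mor.pot (fun g => -st L L.length h g x₀) D Φ = U w L h x₀ := by
    funext g
    simp only [Mor.pot, U, Ph, hD, hΦ, WithLp.ofLp_zero, add_zero]
    rw [Finset.sum_range]; ring
  have hrem : ∀ e g, Mor.rem D Φ m u' e g = ∑ k : Fin L.length, D k *
      (X w (L.drop (k + 1)) (st L (k + 1) h g + (-e) • u (k + 1) (st L (k + 1) h g)) -
        X w (L.drop (k + 1)) (st L (k + 1) h g) + e * ∑ x,
          P w (L.drop (k + 1)) (st L (k + 1) h g) x * u (k + 1) (st L (k + 1) h g) x) := by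
    intro e g
    simp only [Mor.rem, hΦ, hm, hu', inn, WithLp.ofLp_zero, add_zero, neg_smul]
    rfl
  have hD0 : ∀ k, 0 ≤ D k := fun k => dm_nonneg hL _
  have cF : Continuous fun g : NI L → ℝ =>
      ∑ k : Fin L.length, D k * f (k + 1) (st L (k + 1) h g) :=
    continuous_finsetSum _ fun k _ => continuous_const.mul ((hfc _).comp (cS _))
  have bF : ∀ g : NI L → ℝ, |∑ k : Fin L.length, D k * f (k + 1) (st L (k + 1) h g)| ≤
      ∑ k, D k * C := fun g => (Finset.abs_sum_le_sum_abs _ _).trans <|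
    Finset.sum_le_sum fun k _ => by
      rw [abs_mul, abs_of_nonneg (hD0 k)]; exact mul_le_mul_of_nonneg_left (hC _ _) (hD0 k)
  have key := Mor.bl_var (μ := gv (NI L)) (Soft.lc_PL_pi _) (U0 := fun g => -st L L.length h g x₀)
    ?_ hD0 (Φ := Φ) ?_ (m := m) (u := u') ?_ (f := fun k g => f (k + 1) (st L (k + 1) h g)) ?_
    (by rw [hpot]; exact (lU L h x₀).eg.cont.measurable)
    (by rw [hpot]; exact Eg.int68 (eg_expU (lU L h x₀))) cF.measurable bF ?_
    (K := ∑ k, D k * M) ?_ (b := fun g => ∑ k : Fin L.length, D k *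
      Hb w (L.drop (k + 1)) (st L (k + 1) h g) (u (k + 1) (st L (k + 1) h g))
        (u (k + 1) (st L (k + 1) h g))) ?_
  · rw [hpot] at key
    simp only [Finset.sum_range]
    rw [lC_eq (lU L h x₀) cF.measurable bF, lE_tilt]
    exact key
  · refine ⟨convex_univ, fun g _ g' _ a b _ _ hab => le_of_eq ?_⟩
    simp only [st_aff L _ h hab, Pi.add_apply, Pi.smul_apply, smul_eq_mul]; ring
  · refine fun k => ⟨convex_univ, fun p _ p' _ a b ha hb hab => ?_⟩
    refine le_trans (le_of_eq ?_) ((convexOn_X hw (nn (k + 1))).2 (mem_univ _) (mem_univ _) ha hb hab)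
    simp only [hΦ, Prod.fst_add, Prod.smul_fst, Prod.snd_add, Prod.smul_snd, st_aff L _ h hab,
      WithLp.ofLp_add, WithLp.ofLp_smul, smul_add]
    congr 1; abel
  · intro k g v
    simpa only [hΦ, hm, inn, WithLp.ofLp_zero, add_zero] using X_add_ge hw _ (nn (k + 1)) _ v.ofLp
  · intro k g g'
    simpa only [hm, hu', inn, WithLp.ofLp_sub, Pi.sub_apply] using hf (k + 1) _ _
  · intro e
    rw [funext (hrem e)]
    refine Continuous.measurable (continuous_finsetSum _ fun k _ => continuous_const.mul ?_)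
    have c1 := (lg_X hw (L.drop (k + 1))).eg.cont
    have c2 : Continuous fun g : NI L → ℝ => u (k + 1) (st L (k + 1) h g) :=
      continuous_pi fun x => (huc _ x).comp (cS _)
    refine ((c1.comp ((cS _).add (c2.const_smul (-e)))).sub (c1.comp (cS _))).add
      (continuous_const.mul (continuous_finsetSum _ fun x _ =>
        ((eg_P hw _ x).cont.comp (cS _)).mul ((huc _ x).comp (cS _))))
  · intro e _ g
    rw [hrem, Finset.sum_mul]
    refine Finset.sum_le_sum fun k _ => ?_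
    rw [mul_assoc]
    refine mul_le_mul_of_nonneg_left ?_ (hD0 k)
    have := X_add_le_sq hw (mo (k + 1) hL) (st L (k + 1) h g)
      (f := (-e) • u (k + 1) (st L (k + 1) h g)) (M := M * e ^ 2) fun x _ => by
        have := hM (k + 1) (st L (k + 1) h g) x
        simp only [Pi.smul_apply, smul_eq_mul, mul_pow, neg_sq]
        nlinarith [sq_nonneg e]
    simp only [Pi.smul_apply, smul_eq_mul, mul_left_comm _ (-e), ← Finset.mul_sum] at this
    linarith
  · intro g
    simp only [hrem, Finset.sum_div]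
    refine tendsto_finsetSum _ fun k _ => ?_
    have := (Mor.taylor2 ((gr_X hw (L.drop (k + 1))).line (st L (k + 1) h g)
      (u (k + 1) (st L (k + 1) h g))) (der_Pf hw _ _ _)).const_mul (D k)
    simpa only [zero_smul, add_zero, mul_div_assoc] using this

/-- a sum of functions of the nodes -/
def nsum (L : List (Lv Ω)) (h : Ω → ℝ) (c : ℕ → ℝ) (f : ℕ → (Ω → ℝ) → ℝ) (g : NI L → ℝ) : ℝ :=
  ∑ j ∈ Finset.range L.length, c (j + 1) * f (j + 1) (st L (j + 1) h g)

theorem eg_nsum (hPe : PeStmt) (hw : Wt w) (L : List (Lv Ω)) (h : Ω → ℝ) (c : ℕ → ℝ)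
    {f : ℕ → (Ω → ℝ) → ℝ} (hf : ∀ j, Eg (f j)) : Eg (nsum L h c f) :=
  Eg.sum _ fun j _ => ((hPe Ω w hw).2.1 L h _ _ (hf (j + 1))).const_mul _

theorem pE_st (hPe : PeStmt) (hw : Wt w) (L : List (Lv Ω)) (h : Ω → ℝ) (j : ℕ)
    {Φ : (Ω → ℝ) → ℝ} (hΦ : Eg Φ) : pE w L h (fun g _ => Φ (st L j h g)) = node w L j Φ h := by
  rw [(hPe Ω w hw).2.2.2.2.2.1 L h j (fun _ => Φ) fun _ => hΦ]
  simp only [← Finset.sum_mul, sum_P hw, one_mul]

theorem pE_sum (hPe : PeStmt) (hw : Wt w) (L : List (Lv Ω)) (h : Ω → ℝ) {κ : Type*} (s : Finset κ)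
    (c : κ → ℝ) {Φ : κ → (NI L → ℝ) → ℝ} (hΦ : ∀ k, Eg (Φ k)) :
    pE w L h (fun g _ => ∑ k ∈ s, c k * Φ k g) = ∑ k ∈ s, c k * pE w L h fun g _ => Φ k g := by
  obtain ⟨lU, -, dis, -⟩ := hPe Ω w hw
  rw [dis L h _ fun _ => Eg.sum s fun k _ => (hΦ k).const_mul _]
  simp only [lE_sum (lU L h _) s c hΦ, dis L h _ fun _ => hΦ _, Finset.mul_sum]
  exact Finset.sum_comm.trans (Finset.sum_congr rfl fun x _ => Finset.sum_congr rfl fun y _ => by
    ring)

theorem pE_nsum (hPe : PeStmt) (hw : Wt w) (L : List (Lv Ω)) (h : Ω → ℝ) (c : ℕ → ℝ)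
    {f : ℕ → (Ω → ℝ) → ℝ} (hf : ∀ j, Eg (f j)) : pE w L h (fun g _ => nsum L h c f g) =
      ∑ j ∈ Finset.range L.length, c (j + 1) * node w L (j + 1) (f (j + 1)) h := by
  simp only [nsum]
  rw [pE_sum hPe hw L h _ (fun j => c (j + 1)) fun j => (hPe Ω w hw).2.1 L h _ _ (hf (j + 1))]
  simp only [pE_st hPe hw L h _ (hf _)]

/-- **Brascamp–Lieb under the path law** -/
theorem sync (hPe : PeStmt) (hSy : SymStmt) (hPl : PlantStmt) (hw : Wt w) {L : List (Lv Ω)}
    (hL : Mono 0 L) (h : Ω → ℝ) {T : Set (Equiv.Perm Ω)} (hT : ∀ τ ∈ T, Sym w L h τ)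
    (htr : ∀ x y, w x ≠ 0 → w y ≠ 0 → ∃ τ ∈ T, τ x = y)
    {f : ℕ → (Ω → ℝ) → ℝ} {u : ℕ → (Ω → ℝ) → Ω → ℝ}
    (hf : ∀ j z z', f j z + ∑ x, (P w (L.drop j) z' x - P w (L.drop j) z x) * u j z x ≤ f j z')
    (hfc : ∀ j, Continuous (f j)) (huc : ∀ j x, Continuous fun z => u j z x) {C M : ℝ}
    (hC : ∀ j z, |f j z| ≤ C) (hM : ∀ j z x, u j z x ^ 2 ≤ M)
    (hinv : ∀ τ ∈ T, ∀ j z, f j (fun y => z (τ.symm y)) = f j z) :
    pE w L h (fun g _ => nsum L h (dm L 0) f g ^ 2) - pE w L h (fun g _ => nsum L h (dm L 0) f g) ^ 2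
      ≤ ∑ j ∈ Finset.range L.length, dm L 0 (j + 1) * node w L (j + 1)
        (fun z => Hb w (L.drop (j + 1)) z (u (j + 1) z) (u (j + 1) z)) h := by
  have ef : ∀ j, Eg (f j) := fun j => Eg.of_bdd (hfc j) C (hC j)
  have eu : ∀ j x, Eg fun z => u j z x := fun j x =>
    Eg.of_bdd (huc j x) √M fun z => abs_le_sqrt (hM j z x)
  have eB : ∀ j, Eg fun z => Hb w (L.drop j) z (u j z) (u j z) := fun j => eg_Hb hw _ (eu j) (eu j)
  have eF := eg_nsum hPe hw L h (dm L 0) ef
  rw [← pE_nsum hPe hw L h (dm L 0) eB]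
  obtain ⟨-, -, dis, -⟩ := hPe Ω w hw
  set c := pE w L h fun g _ => nsum L h (dm L 0) f g with hc
  have pl : ∀ x, w x ≠ 0 → c = lE (U w L h x) (nsum L h (dm L 0) f) := fun x hx =>
    hPl hPe hSy Ω w hw L h T x hT (fun y hy => htr x y hx hy)
      (fun p => ∑ j ∈ Finset.range L.length, dm L 0 (j + 1) * f (j + 1) (p (j + 1)))
      (Finset.measurable_sum _ fun j _ => ((hfc _).measurable.comp (measurable_pi_apply _)).const_mul _)
      eF fun τ hτ p => by simp only [hinv τ hτ]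
  have e1 : c ^ 2 = ∑ x, P w L h x * c ^ 2 := by rw [← Finset.sum_mul, sum_P hw, one_mul]
  rw [e1, dis L h _ fun _ => eF.pow 2, dis L h _ fun _ => eg_nsum hPe hw L h _ eB,
    ← Finset.sum_sub_distrib]
  refine Finset.sum_le_sum fun x _ => ?_
  by_cases hx : w x = 0
  · simp [P_eq_zero hx]
  rw [← mul_sub]
  refine mul_le_mul_of_nonneg_left ?_ (P_nonneg hw L h x)
  have := sync_lE hPe hw hL h x hf hfc huc hC hM
  rw [pl x hx]
  simp only [sq]
  exact this

/-! ### overlaps -/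

/-- the mean of the features of `l₀` at a node -/
def mv (w : Ω → ℝ) (L : List (Lv Ω)) (l₀ : Lv Ω) (z : Ω → ℝ) (i : l₀.ι) : ℝ :=
  Pf w L z fun x => l₀.A x i

/-- its squared length, the conditional mean overlap of two replicas split at the node -/
def rr (w : Ω → ℝ) (L : List (Lv Ω)) (l₀ : Lv Ω) (z : Ω → ℝ) : ℝ := ∑ i, mv w L l₀ z i ^ 2

/-- `mᵀ A m` -/
def mAm (w : Ω → ℝ) (L : List (Lv Ω)) (l₀ : Lv Ω) (z : Ω → ℝ) : ℝ :=
  Hb w L z (l₀.fld (mv w L l₀ z)) (l₀.fld (mv w L l₀ z))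

theorem rr_eq (L : List (Lv Ω)) (l₀ : Lv Ω) (z : Ω → ℝ) : rr w L l₀ z = qf (P w L z) l₀.cov := by
  have := qf_sum Finset.univ (P w L z) fun i x y => l₀.A x i * l₀.A y i
  simp only [qf_mul] at this
  simp only [rr, mv, Pf, sq]
  exact this.symm

theorem Pf_fld (L : List (Lv Ω)) (l₀ : Lv Ω) (z : Ω → ℝ) (v : l₀.ι → ℝ) :
    Pf w L z (l₀.fld v) = ∑ i, mv w L l₀ z i * v i := by
  simp only [Pf, mv, Lv.fld, Finset.mul_sum, Finset.sum_mul]
  exact Finset.sum_comm.trans (Finset.sum_congr rfl fun x _ => Finset.sum_congr rfl fun y _ => by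
    ring)

theorem eg_mv (hw : Wt w) (L : List (Lv Ω)) (l₀ : Lv Ω) (i : l₀.ι) : Eg fun z => mv w L l₀ z i :=
  eg_Pf hw L fun _ => Eg.const _

theorem eg_rr (hw : Wt w) (L : List (Lv Ω)) (l₀ : Lv Ω) : Eg (rr w L l₀) :=
  Eg.sum _ fun i _ => (eg_mv hw L l₀ i).pow 2

omit [Fintype Ω] in
theorem eg_fld [Fintype Ω] (l₀ : Lv Ω) {v : (Ω → ℝ) → l₀.ι → ℝ} (hv : ∀ i, Eg fun z => v z i) (x : Ω) :
    Eg fun z => l₀.fld (v z) x := Eg.sum _ fun i _ => (hv i).const_mul _

theorem eg_mAm (hw : Wt w) (L : List (Lv Ω)) (l₀ : Lv Ω) : Eg (mAm w L l₀) :=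
  eg_Hb hw L (eg_fld l₀ (eg_mv hw L l₀)) (eg_fld l₀ (eg_mv hw L l₀))

theorem abs_mv_le (hw : Wt w) (L : List (Lv Ω)) (l₀ : Lv Ω) (z : Ω → ℝ) (i : l₀.ι) :
    |mv w L l₀ z i| ≤ ∑ x, |l₀.A x i| :=
  (Finset.abs_sum_le_sum_abs _ _).trans (Finset.sum_le_sum fun x _ => by
    rw [abs_mul, abs_of_nonneg (P_nonneg hw L z x)]
    exact mul_le_of_le_one_left (abs_nonneg _) (P_le_one hw L z x))

theorem Hb_smul (L : List (Lv Ω)) (z f : Ω → ℝ) (c : ℝ) :
    Hb w L z (fun x => c * f x) (fun x => c * f x) = c ^ 2 * Hb w L z f f := by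
  simp only [Hb, Finset.mul_sum]
  exact Finset.sum_congr rfl fun x _ => Finset.sum_congr rfl fun y _ => by ring

/-- **window variance** (41 #6985 (1)): `Var (∑ dm φ r) ≤ 4 ∑ dm φ² E mᵀ A m` -/
theorem sync_ov (hPe : PeStmt) (hSy : SymStmt) (hPl : PlantStmt) (hw : Wt w) {L : List (Lv Ω)}
    (hL : Mono 0 L) (h : Ω → ℝ) {T : Set (Equiv.Perm Ω)} (hT : ∀ τ ∈ T, Sym w L h τ)
    (htr : ∀ x y, w x ≠ 0 → w y ≠ 0 → ∃ τ ∈ T, τ x = y) (l₀ : Lv Ω)
    (h₀ : ∀ τ ∈ T, ∀ x y, l₀.cov (τ x) (τ y) = l₀.cov x y) {φ : ℕ → ℝ} {b : ℝ}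
    (hφ : ∀ j, 0 ≤ φ j ∧ φ j ≤ b) :
    pE w L h (fun g _ => nsum L h (fun j => dm L 0 j * φ j) (fun j => rr w (L.drop j) l₀) g ^ 2) -
      pE w L h (fun g _ => nsum L h (fun j => dm L 0 j * φ j) (fun j => rr w (L.drop j) l₀) g) ^ 2
      ≤ 4 * ∑ j ∈ Finset.range L.length, dm L 0 (j + 1) * φ (j + 1) ^ 2 *
        node w L (j + 1) (mAm w (L.drop (j + 1)) l₀) h := by
  have hb : 0 ≤ b := (hφ 0).1.trans (hφ 0).2
  have key := sync hPe hSy hPl hw hL h hT htr (f := fun j z => φ j * rr w (L.drop j) l₀ z)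
    (u := fun j z x => 2 * φ j * l₀.fld (mv w (L.drop j) l₀ z) x) ?_
    (fun j => ((eg_rr hw _ l₀).const_mul _).cont)
    (fun j x => ((eg_fld l₀ (eg_mv hw _ l₀) x).const_mul _).cont)
    (C := b * ∑ i, (∑ x, |l₀.A x i|) ^ 2)
    (M := (2 * b * ∑ i, (∑ x, |l₀.A x i|) * ∑ x, |l₀.A x i|) ^ 2) ?_ ?_ ?_
  · simp only [nsum, mul_assoc, Hb_smul] at key ⊢
    refine key.trans (le_of_eq ?_)
    rw [Finset.mul_sum]
    refine Finset.sum_congr rfl fun j _ => ?_
    rw [node_const_mul, node_const_mul]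
    unfold mAm
    ring
  · intro j z z'
    have e : ∑ x, (P w (L.drop j) z' x - P w (L.drop j) z x) *
        (2 * φ j * l₀.fld (mv w (L.drop j) l₀ z) x) = 2 * φ j *
        ∑ i, (mv w (L.drop j) l₀ z' i - mv w (L.drop j) l₀ z i) * mv w (L.drop j) l₀ z i := by
      simp only [sub_mul, Finset.sum_sub_distrib, ← Pf_fld, Pf, mul_left_comm _ (2 * φ j),
        ← Finset.mul_sum, mul_sub]
    rw [e, rr, rr, mul_comm 2, mul_assoc, ← mul_add, Finset.mul_sum _ _ 2, ← Finset.sum_add_distrib]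
    refine mul_le_mul_of_nonneg_left (Finset.sum_le_sum fun i _ => ?_) (hφ j).1
    nlinarith [sq_nonneg (mv w (L.drop j) l₀ z' i - mv w (L.drop j) l₀ z i)]
  · intro j z
    rw [abs_mul, abs_of_nonneg (hφ j).1, abs_of_nonneg (Finset.sum_nonneg fun i _ => sq_nonneg _)]
    refine mul_le_mul (hφ j).2 (Finset.sum_le_sum fun i _ => ?_)
      (Finset.sum_nonneg fun i _ => sq_nonneg _) hb
    exact sq_le_sq' (abs_le.1 (abs_mv_le hw _ l₀ z i)).1 (abs_le.1 (abs_mv_le hw _ l₀ z i)).2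
  · intro j z x
    refine sq_le_sq' (abs_le.1 ?_).1 (abs_le.1 ?_).2 <;>
    · rw [abs_mul, abs_of_nonneg (mul_nonneg zero_le_two (hφ j).1)]
      refine mul_le_mul (by linarith [(hφ j).2]) ((Finset.abs_sum_le_sum_abs _ _).trans
        (Finset.sum_le_sum fun i _ => ?_)) (abs_nonneg _) (by positivity)
      rw [abs_mul]
      exact mul_le_mul (Finset.single_le_sum (f := fun x => |l₀.A x i|) (fun _ _ => abs_nonneg _)
        (Finset.mem_univ x)) (abs_mv_le hw _ l₀ z i) (abs_nonneg _) (by positivity)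
  · intro τ hτ j z
    rw [rr_eq, rr_eq]
    congr 1
    have e := fun x => (hSy Ω w hw L h τ (hT τ hτ)).2.1 j (fun y => z (τ.symm y)) x
    simp only [Equiv.symm_apply_apply] at e
    simp only [qf, e]
    rw [← Equiv.sum_comp τ]
    refine Finset.sum_congr rfl fun x _ => ?_
    rw [← Equiv.sum_comp τ]
    simp only [h₀ τ hτ]

end Crest.Agent.T156.Cas.Sy41

end
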