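import Crest.Agent.T156.NuC_87
import Crest.Agent.T156.Ker_15
import Crest.Agent.T156.OneP_23
import Crest.Agent.T156.CaSync_41

/-!
# Row 156 (helper91): the node form of the first cavity equation, statements

Frame of `NuC_87`: the test pair is `4, 5` in `SM 6`, the two edges are `(c, d)` and `(e, f)`.
-/

set_option autoImplicit false
set_option linter.unusedSectionVars false

noncomputable section

namespace Crest.Agent.T156.Cas.E91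

open MeasureTheory Real Set Filter Topology
open Crest.Agent.T157.E Crest.Agent.T157.Casc Crest.Agent.T157.SL
open Crest.ProbabilityR.SpinGlassDynamics (spin)
open Crest.Agent.T157.G1 (ov)
open Nu87

/-- bulk system, reference, site cascade and majorants -/
structure Dat (Ω : Type) where
  w : Ω → ℝ
  L : List (Lv Ω)
  h : Ω → ℝ
  l0 : Lv Ω
  t : ℕ → ℝ
  q : ℕ → ℝ
  T : List (Lv Bool)
  un : ℕ → ℝ
  sg : ℕ → ℝ
  ms : ℝ

/-- the coefficients of `Dr` -/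
def cf (r : ℕ) (a b : Fin (r + 3)) : ℝ :=
  if 2 ≤ a.val ∧ 2 ≤ b.val then (if a = b then 0 else 1)
  else if (2 ≤ a.val ∧ b.val = 1) ∨ (a.val = 1 ∧ 2 ≤ b.val) then -((r : ℝ) + 1)
  else if a.val = 0 ∧ b.val = 1 then ((r : ℝ) + 1) * (r + 2) else 0

/-- the signed sum over the patterns of two edges -/
def D2 (Φ : Fin 6 → Fin 6 → Fin 6 → Fin 6 → ℝ) : ℝ :=
  ∑ c : Fin 4, ∑ d : Fin 4, ∑ e : Fin 6, ∑ f : Fin 6,
    cf 1 c d * cf 3 e f * Φ c.succ.succ d.succ.succ e f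

variable {Ω : Type} [Fintype Ω]

namespace Dat

variable (D : Dat Ω)

/-- number of levels -/
abbrev K : ℕ := D.L.length

/-- centred overlap -/
def U0 (y : ℕ) (x x' : Ω) : ℝ := D.l0.cov x x' - D.q y

/-- bulk factor of the letter `α` -/
def U (y : ℕ) (x x' : Ω) : ℝ := D.t y * D.U0 y x x'

/-- site factor of the letter `α` -/
def eta (y : ℕ) (a b : Bool) : ℝ := spin a * spin b - D.q y

/-- integral against the tilts -/
def I (g : ℕ → ℝ) : ℝ := ∑ y ∈ Finset.range (D.K + 1), dm D.L 0 y * g y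

/-- `N_k` -/
def N (k : ℕ) : ℝ := D.I fun y => D.un y ^ k

/-- parity size of a node of depth `y` -/
def pz (y : ℕ) : ℝ := min 1 (Ker15.PB 6 (D.sg y)) + D.q y + ex D.L y

/-- parity size seen from the test node `j` -/
def gz (j y : ℕ) : ℝ := if y < j then D.pz y else 1

/-- admissible data -/
structure Ok (tb : ℝ) : Prop where
  wt : Wt D.w
  mono : Mono 0 D.L
  tilt : D.L.map Lv.m = D.T.map Lv.m
  r1 : Ker15.R1 D.T
  sg0 : ∀ y, 0 < D.sg y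
  sgt : ∀ y, Ker15.tm D.T y ≤ D.sg y
  q01 : ∀ y ≤ D.K, 0 ≤ D.q y ∧ D.q y ≤ 1
  qm : ∀ y < D.K, D.q y ≤ D.q (y + 1)
  cov1 : ∀ x x', |D.l0.cov x x'| ≤ 1
  tb : ∀ y, |D.t y| ≤ tb
  un0 : ∀ y, 0 ≤ D.un y ∧ D.un y ≤ 2
  mom : ∀ y ≤ D.K, D.t y ≠ 0 → pi2 D.w D.L y (fun x x' => D.U0 y x x' ^ 4) D.h ≤ D.un y ^ 4
  cen : ∀ y < D.K, D.t y ≠ 0 → pi2 D.w D.L y (D.U0 y) D.h = 0
  top : dm D.L 0 D.K = 0
  ms0 : 0 ≤ D.ms

/-- bulk factor of a pattern -/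
def Bf (c d e f : Fin 6) (τ : SM 6) : ℝ :=
  TM D.w D.L D.h τ fun x => ed D.U c d x τ * ed D.U e f x τ

/-- site factor of a pattern -/
def Sf (c d e f : Fin 6) (τ : SM 6) : ℝ :=
  TM (fun _ => 1) D.T 0 τ fun x => ed D.eta 4 5 x τ * ed D.eta c d x τ * ed D.eta e f x τ

/-- average over four grafts on the test pair split at `j` -/
def A (j : ℕ) (φ : SM 6 → ℝ) : ℝ := avc (r := 1) D.L (tw D.K j) 4 φ

/-- the word `η × α α` -/
def W2 (j : ℕ) : ℝ := D2 fun c d e f => D.A j fun τ => D.Bf c d e f τ * D.Sf c d e f τ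

/-- the site number `κ_j` -/
def kap (j : ℕ) : ℝ :=
  D2 fun c d e f => D.A j fun τ => if τ c d = j ∧ τ e f = j then D.Sf c d e f τ else 0

/-- `E (ρ_j - q_j)²` -/
def rt2 (j : ℕ) : ℝ :=
  node D.w D.L j (fun z => (Sy41.rr D.w (D.L.drop j) D.l0 z - D.q j) ^ 2) D.h

/-- `V_j` -/
def V (j : ℕ) : ℝ := pi2 D.w D.L j (fun x x' => D.U0 j x x' ^ 2) D.h - D.rt2 j

/-- the weak input at the test node `j` -/
def Gm (j : ℕ) (G : ℝ) : Prop := 0 ≤ G ∧ ∀ φ : ℕ → ℝ, (∀ y, |φ y| ≤ D.gz j y) →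
  (∀ y, D.t y = 0 → φ y = 0) →
  pE D.w D.L D.h (fun g _ => (D.I fun y =>
    φ y * (Sy41.rr D.w (D.L.drop y) D.l0 (st D.L y D.h g) - D.q y)) ^ 2) ≤ G ^ 2 ∧
  pE D.w D.L D.h (fun g x => (D.I fun y =>
    φ y * (D.l0.fld (Sy41.mv D.w (D.L.drop y) D.l0 (st D.L y D.h g)) x - D.q y)) ^ 2) ≤ G ^ 2

/-- `E R_{02} R_{12}`: the pair `1, 2` split at `y`, the replica `0` grafted on `1` at `i` -/
def lam3 (y i : ℕ) : ℝ := TM D.w D.L D.h (gr D.K (tw D.K y) 0 i) fun x =>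
  D.l0.cov (x 0) (x 2) * D.l0.cov (x 1) (x 2)

/-- `VV (j)` -/
def VV (j : ℕ) : ℝ := ∑ y ∈ Finset.range j, if D.t y = 0 then 0 else
  dm D.L 0 y * (pi2 D.w D.L y (fun x x' => D.l0.cov x x' ^ 2) D.h - D.lam3 y j)

/-- one pattern of the source -/
def src (c d e f : Fin 6) (j : ℕ) : ℝ :=
  D.A j fun τ => if τ c d = τ e f ∧ τ c d ≠ j then D.Bf c d e f τ * D.Sf c d e f τ else 0

/-- the clock between two nodes -/
def clk (j j' : ℕ) : ℝ := D.N 2 * (Ker15.tm D.T j' - Ker15.tm D.T j + (ex D.L j' - ex D.L j) +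
  (D.q j' - D.q j)) + ∑ y ∈ Finset.Ioo j j', dm D.L 0 y * D.un y ^ 2

/-- the residual `Γ_j - q_j` -/
def res (j : ℕ) : ℝ := pi2 (fun _ => 1) D.T j (D.eta j) 0

/-- the crude classes; `n3` is `N 3` or its parity form -/
def crude (n3 : ℝ) (j : ℕ) : ℝ :=
  D.un j ^ 3 + n3 + (D.un j + D.N 1) * (D.N 2 + D.N 1 ^ 2) + D.N 4 + D.ms

/-- parity form of `N 3` -/
def N3p (j : ℕ) : ℝ := D.I fun y => D.gz j y * D.un y ^ 3

/-- `η₀ (j)` -/
def eta0 (n3 G : ℝ) (j : ℕ) : ℝ :=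
  |D.kap j| * D.rt2 j + D.pz j * D.V j + G * (D.un j + D.N 1) + D.VV j + D.crude n3 j

end Dat

/-- the data of the one path -/
def opD (n : ℕ) (β : ℝ) (M : List (ℝ × ℝ × ℝ)) (q : ℕ → ℝ) (l0 : Lv (Cube n)) (un sg : ℕ → ℝ)
    (ms : ℝ) : Dat (Cube n) :=
  ⟨fun _ => 1, M.map (mxL n β), 0, l0, fun y => oTau n β M y / 2, q, opS n β M q, un, sg, ms⟩

/-- leaf E-a: Taylor expansion of (Sym); `p = true` is the parity form -/
def EaS (p : Bool) : Prop := ∀ tb : ℝ, ∃ C : ℝ, 0 ≤ C ∧ ∀ (n : ℕ) (β : ℝ) (M : List (ℝ × ℝ × ℝ))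
  (q : ℕ → ℝ) (l0 : Lv (Cube n)) (un sg : ℕ → ℝ) (ms : ℝ), 0 < n → OOk M q →
  (∀ x y, l0.cov x y = ov x y) → ∀ D : Dat (Cube n), D = opD n β M q l0 un sg ms → D.Ok tb →
  ∀ j < D.K, D.t j ≠ 0 → dm D.L 0 j ≤ D.ms →
    |D.res j| ≤ C * ((D.un j + D.N 1) ^ 2 + D.N 2) ∧
    |D.res j + D.W2 j / 2| ≤ C * D.crude (if p then D.N3p j else D.N 3) j

/-- leaf E-b: both edges at the level of the test node -/
def EbS : Prop := ∀ tb : ℝ, ∃ C : ℝ, 0 ≤ C ∧ ∀ (Ω : Type) [Fintype Ω] (D : Dat Ω), D.Ok tb →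
  ∀ j < D.K, dm D.L 0 j ≤ D.ms → 0 ≤ D.V j ∧ ∀ c d e f : Fin 6, c ≠ d → e ≠ f →
    |D.A j fun τ => if τ c d = j ∧ τ e f = j then
      (D.Bf c d e f τ - D.t j ^ 2 * D.rt2 j) * D.Sf c d e f τ else 0| ≤ C * (D.pz j * D.V j + D.ms)

/-- leaf E-c: two different levels -/
def EcS : Prop := ∀ tb : ℝ, ∃ C : ℝ, 0 ≤ C ∧ ∀ (Ω : Type) [Fintype Ω] (D : Dat Ω), D.Ok tb →
  ∀ j < D.K, D.t j ≠ 0 → ∀ G, D.Gm j G → ∀ c d e f : Fin 6, c ≠ d → e ≠ f →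
    |D.A j fun τ => if τ c d ≠ τ e f then D.Bf c d e f τ * D.Sf c d e f τ else 0| ≤
      C * (G * (D.un j + D.N 1))

/-- leaf E-d: the move of the bulk factor, two edges on one node below the test node -/
def EdS : Prop := ∀ (Ω : Type) [Fintype Ω] (D : Dat Ω), Wt D.w → ∀ (y i : ℕ), y < i → i < D.K →
  D.lam3 y i ≤ D.lam3 y (i + 1) ∧
  D.lam3 y (i + 1) ≤ pi2 D.w D.L y (fun x x' => D.l0.cov x x' ^ 2) D.h ∧
  ∀ (τ τ' : SM 6) (c d e f : Fin 6), Rz D.K τ → Rz D.K τ' → τ c d = y → τ e f = y → τ c e = i →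
    τ' c e = i + 1 → τ' e c = i + 1 → (∀ a ∈ ({c, d, e, f} : Finset (Fin 6)),
      ∀ b ∈ ({c, d, e, f} : Finset (Fin 6)), ¬(a = c ∧ b = e) → ¬(a = e ∧ b = c) → τ' a b = τ a b) →
    |D.Bf c d e f τ' - D.Bf c d e f τ| ≤ D.t y ^ 2 * (D.lam3 y (i + 1) - D.lam3 y i)

/-- leaf E-d2: two different nodes of the same depth -/
def EiS : Prop := ∀ (Ω : Type) [Fintype Ω] (D : Dat Ω) (tb : ℝ), D.Ok tb → ∀ y ≤ D.K,
  (∀ (τ : SM 6) (c d e f : Fin 6), Rz D.K τ → c ≠ d → e ≠ f → τ c d = y → τ e f = y → τ c e < y →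
    |D.Bf c d e f τ| ≤ D.t y ^ 2 * D.rt2 y) ∧
  ∀ j ≤ y, ∀ G, D.Gm j G → D.t y ≠ 0 → dm D.L 0 y ^ 2 * D.rt2 y ≤ G * (dm D.L 0 y * D.un y)




theorem cf_self (r : ℕ) (a : Fin (r + 3)) : cf r a a = 0 := by
  unfold cf
  split_ifs <;> first | rfl | omega

theorem abs_cf_le (r : ℕ) (a b : Fin (r + 3)) : |cf r a b| ≤ (r + 1) * (r + 2) := by
  have h : (0 : ℝ) ≤ r := Nat.cast_nonneg r
  unfold cf
  split_ifs
  · rw [abs_zero]; positivity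
  · rw [abs_one]; nlinarith
  · rw [abs_neg, abs_of_nonneg (by positivity)]; nlinarith
  · rw [abs_of_nonneg (by positivity)]
  · rw [abs_zero]; positivity

end Crest.Agent.T156.Cas.E91
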