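import Crest.Agent.T156.CKit_32
import Crest.Agent.T156.CL3_76
import Crest.Agent.T156.C3W_43
import Crest.Agent.T156.C3n_47
import Crest.Agent.T156.Cub_94

-- ▼ part T156/C3F_43
section

/-!
# Row 156, block C: the frame of the cubic upper word in the test direction (helper43)
-/

set_option autoImplicit false
set_option linter.all false

noncomputable section

namespace Crest.Agent.T156.Cas.C3T43

open MeasureTheory Real Set Filter Topology
open Crest.Agent.T157.E Crest.Agent.T157.Casc Crest.Agent.T157.SL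
open Crest.Agent.T157.G1 (ov)
open Mul55 C40 G90 Nu87 Ck32

theorem DG_tilt {Ω Ω' : Type} {L : List (Lv Ω)} {L' : List (Lv Ω')} (hl : L.length = L'.length)
    (H : ∀ j, ex L j = ex L' j) (ε : ℝ) : DG ε L = DG ε L' := by
  funext Φ r σ E
  simp only [DG, Ws, hl, H]

theorem LamG_tilt {Ω Ω' : Type} {L : List (Lv Ω)} {L' : List (Lv Ω')} (hl : L.length = L'.length)
    (H : ∀ j, ex L j = ex L' j) (μ : ℕ → ℝ) (k : ℕ) (Φ : GF) : LamG L μ k Φ = LamG L' μ k Φ := by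
  simp only [LamG, DG_tilt hl H, hl]

/-- indicator of a level -/
def i1 (u t : ℕ) : ℝ := if u = t then 1 else 0

section defs
variable (D : CD) {r : ℕ} (σ : SM r) (a b : Fin 3 → Fin r)

/-- the factors `τ / 2` on the upper cell -/
def tf : ℝ := ∏ i, if D.J < σ (a i) (b i) then D.τ (σ (a i) (b i)) / 2 else 0

/-- the bulk factor -/
def Bk : ℝ := TB D σ fun x => ∏ i, oU D.q (σ (a i) (b i)) (x (a i)) (x (b i))

/-- the bulk factor minus the local term -/
def Dn : ℝ := Bk D σ a b -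
  if (∀ i, σ (a i) (b i) = σ (a 0) (b 0)) ∧ σ (a 0) (b 0) < D.K then D.u3 (σ (a 0) (b 0)) else 0

/-- the site factor, marked pair `(p, p')` -/
def Sx (p p' : Fin r) : ℝ := Ck32.TS D σ fun x => oE D.q (σ p p') (x p) (x p') *
  ∏ i, oE D.q (σ (a i) (b i)) (x (a i)) (x (b i))

end defs

variable {D : CD} {τ0 : ℝ} {r : ℕ}

theorem kU_eq (j : ℕ) (x y : Cube D.n) : (lt D.n D.β D.M D.q D.cl C40.aU).1 j x y =
    (if D.J < j then D.τ j / 2 else 0) * oU D.q j x y := by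
  by_cases h : D.J < j
  · simp [lt, cut, CD.cl, h, oUb]
  · simp [lt, cut, CD.cl, h]

theorem lev_eq (t j : ℕ) (x y : Bool) :
    D.lev t j x y = i1 j t * oE D.q j x y := by
  simp only [CD.lev, i1, ite_mul, one_mul, zero_mul]

theorem loc_eq (σ : SM r) (a b : Fin 3 → Fin r) :
    ∑ t ∈ D.up, D.τ t ^ 3 / 8 * D.u3 t * ∏ i, i1 (σ (a i) (b i)) t =
      tf D σ a b * (Bk D σ a b - Dn D σ a b) := by
  rw [Dn, sub_sub_cancel, tf]
  simp only [i1]
  by_cases h : ∀ i, σ (a i) (b i) = σ (a 0) (b 0)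
  · simp only [h, forall_const, true_and, Fin.prod_univ_three, mul_ite, mul_one, mul_zero,
      Finset.sum_ite_eq, Finset.mem_Ioo]
    by_cases h1 : D.J < σ (a 0) (b 0) <;> by_cases h2 : σ (a 0) (b 0) < D.K <;>
      simp [h1, h2] <;> ring_nf <;> simp
  · rw [if_neg (c := _ ∧ _) fun h' => h h'.1, mul_zero]
    refine Finset.sum_eq_zero fun t _ => ?_
    obtain ⟨i, hi⟩ := not_forall.1 h
    by_cases h0 : σ (a 0) (b 0) = t
    · rw [Finset.prod_eq_zero (Finset.mem_univ i) (if_neg (h0 ▸ hi)), mul_zero]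
    · exact mul_eq_zero_of_right _ (Finset.prod_eq_zero (Finset.mem_univ 0) (if_neg h0))

/-- **the frame** -/
theorem frame3 (H : D.Ok τ0) (hW : D.W.isSome = true) {B : ℕ → ℝ}
    (h : ∀ k ≤ 6, ∀ a b : Fin 3 → Fin (1 + k + 1), (∀ i, a i ≠ b i) → ∀ j ∈ D.up,
      |avc D.B (tw D.B.length j) k fun σ =>
        tf D σ a b * (Dn D σ a b * Sx D σ a b (old k 1) (old k 0))| ≤ B j) :
    |D.tw [C40.aU, C40.aU, C40.aU] - D.LOC3| ≤ cG 3 * D.Iw B := by
  set μ : ℕ → ℝ := fun j => if j ∈ D.up then D.om j else 0 with hμ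
  have e1 := frame (D := D) μ (fun _ _ _ => 1, oE D.q)
    ([C40.aU, C40.aU, C40.aU].map (lt D.n D.β D.M D.q D.cl))
  replace e1 : D.tw [C40.aU, C40.aU, C40.aU] = _ := Eq.trans (by
    rw [CD.tw, CD.dd_test hW, sum_up H]
    simp only [← ite_zero_mul]
    rfl) e1
  have e2 : ∀ t, D.sL [D.lev t, D.lev t, D.lev t] = LamG D.B μ 3
      (tmG (fun _ => 1) D.S 0 [D.lev t, D.lev t, D.lev t, oE D.q]) := fun t => by
    rw [sL_eq76, CD.dd_test hW, sum_up H, ← LamG_tilt lenS (Cav22.ex_tilt tilt_opS), ← lenS]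
    simp only [← ite_zero_mul]
    exact Finset.sum_congr rfl fun j hj => congrArg _ ((rep_WdO D.S _ _
      [D.lev t, D.lev t, D.lev t] [oE D.q] (rep_TE wt_one90 D.S 0 _)).two
        (Nat.lt_succ_iff.1 (Finset.mem_range.1 hj)))
  rw [e1, CD.LOC3]
  simp only [e2, ← LamG_mul, ← LamG_sum, List.length_map, List.length_cons, List.length_nil,
    zero_add, Nat.reduceAdd]
  rw [← LamG_sub]
  refine abs_LamG_le _ _ _ fun k hk N hN hO => ?_
  obtain ⟨e₀, e₁, e₂, rfl⟩ := List.length_eq_three.1 hN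
  set a : Fin 3 → Fin (1 + k + 1) := ![e₀.1, e₁.1, e₂.1] with ha
  set b : Fin 3 → Fin (1 + k + 1) := ![e₀.2, e₁.2, e₂.2] with hb
  have hab : ∀ i, a i ≠ b i := fun i => by
    fin_cases i
    exacts [hO e₀ (by simp), hO e₁ (by simp), hO e₂ (by simp)]
  refine le_of_eq_of_le (congrArg abs (congrArg _ (funext fun σ => (?_ : _ =
    tf D σ a b * (Dn D σ a b * Sx D σ a b (old k 1) (old k 0)))))) ?_
  · have f1 : TB D σ (eF (((List.map (lt D.n D.β D.M D.q D.cl) [C40.aU, C40.aU, C40.aU]).reverse ++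
        [((fun _ _ _ => 1 : ℕ → Cube D.n → Cube D.n → ℝ), oE D.q)]).map Prod.fst) σ
        ([e₀, e₁, e₂] ++ [(old k 1, old k 0)])) = tf D σ a b * Bk D σ a b := by
      rw [Bk, TB, TB, ← TM_mul]
      refine congrArg _ (funext fun x => ?_)
      simp only [List.map_cons, List.map_nil, List.reverse_cons, List.reverse_nil, List.nil_append,
        List.cons_append, eF, kU_eq, tf, Fin.prod_univ_three, ha, hb, Matrix.cons_val]
      ring
    have f2 : Ck32.TS D σ (eF (((List.map (lt D.n D.β D.M D.q D.cl) [C40.aU, C40.aU, C40.aU]).reverse ++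
        [((fun _ _ _ => 1 : ℕ → Cube D.n → Cube D.n → ℝ), oE D.q)]).map Prod.snd) σ
        ([e₀, e₁, e₂] ++ [(old k 1, old k 0)])) = Sx D σ a b (old k 1) (old k 0) := by
      refine congrArg _ (funext fun x => ?_)
      simp only [List.map_cons, List.map_nil, List.reverse_cons, List.reverse_nil, List.nil_append,
        List.cons_append, eF, lt, oZs, Fin.prod_univ_three, ha, hb, Matrix.cons_val]
      ring
    have f3 : ∀ t, tmG (fun _ => 1) D.S 0 [D.lev t, D.lev t, D.lev t, oE D.q] _ σ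
        ([e₀, e₁, e₂] ++ [(old k 1, old k 0)]) =
        (∏ i, i1 (σ (a i) (b i)) t) * Sx D σ a b (old k 1) (old k 0) :=
      fun t => by
        rw [Sx, Ck32.TS, ← TM_mul]
        refine congrArg _ (funext fun x => ?_)
        simp only [List.nil_append, List.cons_append, eF, lev_eq, Fin.prod_univ_three, ha, hb,
          Matrix.cons_val]
        ring
    simp only [f1, f2, f3, ← mul_assoc, ← Finset.sum_mul, loc_eq]
    ring
  · rw [avt, CD.Iw, sum_up H]
    refine (Finset.abs_sum_le_sum_abs _ _).trans (Finset.sum_le_sum fun j _ => ?_)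
    simp only [hμ]
    split_ifs with hj
    · rw [abs_mul]
      exact mul_le_mul_of_nonneg_left (h k hk a b hab j hj) (abs_nonneg _)
    · simp

end Crest.Agent.T156.Cas.C3T43

end
end

-- ▼ part T156/C3T_43

/-!
# Row 156, block C: the cubic upper word in the test direction (helper43)
-/

set_option autoImplicit false
set_option linter.all false

noncomputable section

namespace Crest.Agent.T156.Cas.C3T43

open MeasureTheory Real Set Filter Topology
open Crest.Agent.T157.E Crest.Agent.T157.Casc Crest.Agent.T157.SL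
open Crest.Agent.T157.G1 (ov)
open Crest.ProbabilityR.SpinGlassDynamics (spin)
open Mul55 C40 G90 Nu87 Ck32 C3W43
open Wp52 (Br Br_add Br_mul Br_mono Br_le Br_nonneg Cmp)
open Site94 (SF OddAt Out Crs cP)

variable {D : CD} {τ0 : ℝ} {r : ℕ} {σ : SM r} {a b : Fin 3 → Fin r} {p p' : Fin r}

/-! ### the site factor -/

/-- the constant of the site factor -/
def cS : ℝ := 16 * (cP 8 (2 * (cP 2 2 + 1)) * (cP 2 2 + 1) + 1)

theorem cS_ge : 16 ≤ cS := by
  have := mul_nonneg (Site94.cP_nonneg 8 (2 * (cP 2 2 + 1))) (show 0 ≤ cP 2 2 + 1 by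
    linarith [Site94.cP_nonneg 2 2])
  unfold cS
  linarith

theorem Sx_eq : Sx D σ a b p p' =
    SF D.S (fun _ => D.q) (Fin.cons p a : Fin 4 → Fin r) (Fin.cons p' b) Finset.univ σ := by
  unfold Sx Ck32.TS SF
  exact congrArg _ (funext fun x => by rw [Fin.prod_univ_succ (n := 3)]; rfl)

theorem Sx_le (H : D.Ok τ0) (hσ : Rz D.B.length σ) : |Sx D σ a b p p'| ≤ cS := by
  rw [Sx_eq]
  exact (Site94.abs_SF_le (lenS (D := D) ▸ hσ) fun _ _ => abs_q_le H (hσ.le _ _)).trans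
    (le_trans (by norm_num) cS_ge)

theorem Sx_odd (H : D.Ok τ0) (hσ : Rz D.B.length σ) (hr : r ≤ 8) {i t : ℕ} (ht : t ∈ D.up)
    (hi : i ≤ t) (ho : OddAt σ (Fin.cons p a : Fin 4 → Fin r) (Fin.cons p' b) Finset.univ i) :
    |Sx D σ a b p p'| ≤ cS * D.e t := by
  refine le_of_eps76 (by linarith [cS_ge]) fun ε h0 h1 => ?_
  obtain ⟨s, s0, s1, s2, -, s4, s5⟩ := size76 H ht h0 h1
  rw [Sx_eq]
  refine (L376.SF_odd2 (C.forall₂_sl spin (opV_nn H.ook)) (Cav22.mono_tilt tilt_opS.symm H.mono)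
    (lenS (D := D) ▸ hσ) (fun _ _ => abs_q_le H (hσ.le _ _)) ho s0 hi s4
    fun _ _ h => s5 _ (h.trans hi)).trans ?_
  have h2 := cP_le76 8 s0 s1 s2
  have h3 : cP r s ≤ cP 8 s := by
    have : (r : ℝ) ≤ (8 : ℕ) := by exact_mod_cast hr
    unfold cP
    gcongr
  have h4 := mul_le_mul_of_nonneg_right h3 s0.le
  rw [Finset.card_univ, Fintype.card_fin, cS, show (2 : ℝ) ^ (3 + 1) = 16 by norm_num]
  nlinarith [H.e0 t]

/-- one lowest edge -/
theorem odd_one {K : ℕ} (hσ : Rz K σ) {P P' : Fin 4 → Fin r} (e : Fin 4) (hK : σ (P e) (P' e) < K)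
    (h : ∀ e', e' ≠ e → σ (P e) (P' e) < σ (P e') (P' e')) :
    OddAt σ P P' Finset.univ (σ (P e) (P' e)) := by
  refine ⟨P e, ?_⟩
  rw [show Finset.univ.filter (fun e' => Crs σ (P e) (σ (P e) (P' e)) (P e') (P' e')) = {e} from
    Finset.eq_singleton_iff_unique_mem.2 ⟨Finset.mem_filter.2 ⟨Finset.mem_univ _, by
      rw [Crs, hσ.self]; omega⟩, fun e' he => by
        by_contra hne
        exact absurd ((Finset.mem_filter.1 he).2.le hσ) (not_le.2 (h e' hne))⟩,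
    Finset.card_singleton]
  exact ⟨0, rfl⟩

/-- an odd number of edges at one level -/
theorem odd_or {K : ℕ} (hσ : Rz K σ) {P P' : Fin 4 → Fin r} (e : Fin 4)
    (h : Odd (Finset.univ.filter fun e' => σ (P e') (P' e') = σ (P e) (P' e)).card) :
    (∃ i ≤ σ (P e) (P' e), OddAt σ P P' Finset.univ i) ∨
      ∃ d, σ (P e) d ≤ σ (P e) (P' e) ∧ σ (P' e) d ≤ σ (P e) (P' e) := by
  rcases Site94.good_or (B' := ({e} : Finset (Fin 4))) hσ (c := id) monotone_id (fun _ => le_rfl)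
    P P' Finset.univ (t := P) (t' := P') (e₀ := e) (by simp) with (⟨i, ho, hi⟩ | ho) | ⟨-, he⟩
  · exact .inl ⟨i, hi e (by simp), ho⟩
  · exact .inr (ho e (by simp))
  · exact absurd he (Nat.not_even_iff_odd.2 h)

/-! ### the bulk factor -/

theorem Bk_le (H : D.Ok τ0) (hσ : Rz D.B.length σ) : |Bk D σ a b| ≤ 8 := by
  refine (abs_TB_le hσ (G := fun _ => 8) fun x => ?_).trans_eq (TM_const wt_one90 hσ _)
  rw [Finset.abs_prod]
  exact (Finset.prod_le_prod (fun _ _ => abs_nonneg _) fun i _ =>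
    abs_oU_le H.ook ((hσ.le _ _).trans_eq lenB) _ _).trans_eq (by norm_num)

theorem Dn_le (H : D.Ok τ0) (hσ : Rz D.B.length σ) : |Dn D σ a b| ≤ 100 * 1 := by
  have h1 := Bk_le (a := a) (b := b) H hσ
  refine (abs_sub _ _).trans ?_
  split_ifs with h
  · have h2 := abs_u376 D (σ (a 0) (b 0))
    have h3 : D.u 3 (σ (a 0) (b 0)) ≤ 8 := by
      refine (T157.Casc.pi2_mono wt_one90 _ _ (K' := fun _ _ => 8) (fun x y => ?_) 0).trans_eq
        (pi2_const wt_one90 _ _ _ _)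
      exact (pow_le_pow_left₀ (abs_nonneg _) (abs_oU_le H.ook h.2.le x y) 3).trans_eq (by norm_num)
    rw [D.g_cube] at h2
    linarith
  · rw [abs_zero]
    linarith

theorem Bk_g (hσ : Rz D.B.length σ) (hab : ∀ i, a i ≠ b i) : |Bk D σ a b| ≤
    100 * (D.g (σ (a 0) (b 0)) * D.g (σ (a 1) (b 1)) * D.g (σ (a 2) (b 2))) := by
  have := Cub94.TM_holder (h := 0) wt_one90 hσ (B := Finset.univ) (n := 3) (by simp)
    (f := fun i x => oU D.q (σ (a i) (b i)) (x (a i)) (x (b i))) (u := fun i => D.g (σ (a i) (b i)))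
    (fun _ _ => D.g0 _) fun i _ => (TB_pow hσ (hab i) 3).trans_le (D.g_cube _).ge
  rw [Fin.prod_univ_three, Finset.card_univ, Fintype.card_fin] at this
  refine this.trans (mul_le_mul_of_nonneg_right (by norm_num) ?_)
  exact mul_nonneg (mul_nonneg (D.g0 _) (D.g0 _)) (D.g0 _)

theorem Bk_two (hσ : Rz D.B.length σ) (hab : ∀ i, a i ≠ b i)
    (h : σ (a 1) (b 1) = σ (a 0) (b 0)) : |Bk D σ a b| ≤
      100 * (√(D.u 2 (σ (a 2) (b 2))) * √(D.u 4 (σ (a 0) (b 0)))) := by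
  have s4 : ∀ z : ℝ, 0 ≤ z → √√z ^ 4 = z := fun z hz => by
    rw [show 4 = 2 * 2 from rfl, pow_mul, sq_sqrt (sqrt_nonneg _), sq_sqrt hz]
  have := Cub94.TM_holder (h := 0) wt_one90 hσ (B := Finset.univ) (n := 4) (by simp)
    (f := fun i x => ![|oU D.q (σ (a 0) (b 0)) (x (a 0)) (x (b 0))|,
      |oU D.q (σ (a 1) (b 1)) (x (a 1)) (x (b 1))|, √|oU D.q (σ (a 2) (b 2)) (x (a 2)) (x (b 2))|,
      √|oU D.q (σ (a 2) (b 2)) (x (a 2)) (x (b 2))|] i)
    (u := ![√√(D.u 4 (σ (a 0) (b 0))), √√(D.u 4 (σ (a 1) (b 1))), √√(D.u 2 (σ (a 2) (b 2))),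
      √√(D.u 2 (σ (a 2) (b 2)))]) (fun i _ => by fin_cases i <;> exact sqrt_nonneg _) fun i _ => by
      have e2 : ∀ z : ℝ, abs (√(abs z)) ^ 4 = |z| ^ 2 := fun z => by
        rw [abs_of_nonneg (sqrt_nonneg _), show 4 = 2 * 2 from rfl, pow_mul,
          sq_sqrt (abs_nonneg _)]
      fin_cases i <;> simp only [Fin.zero_eta, Fin.mk_one, Fin.reduceFinMk, Matrix.cons_val,
        abs_abs, e2, s4 _ (D.u0 _ _)]
      exacts [(TB_pow hσ (hab 0) 4).le, (TB_pow hσ (hab 1) 4).le, (TB_pow hσ (hab 2) 2).le,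
        (TB_pow hσ (hab 2) 2).le]
  simp only [Fin.prod_univ_four, Matrix.cons_val, Finset.card_univ, Fintype.card_fin, mul_assoc,
    mul_self_sqrt (abs_nonneg _), mul_self_sqrt (sqrt_nonneg _)] at this
  rw [h, ← mul_assoc (√√_), mul_self_sqrt (sqrt_nonneg _), mul_comm (√_)] at this
  refine (abs_TB_le hσ fun x => ?_).trans ((le_abs_self _).trans
    (this.trans (mul_le_mul_of_nonneg_right (by norm_num) (by positivity))))
  rw [Fin.prod_univ_three, abs_mul, abs_mul, mul_assoc, h]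

theorem Dn_ne (h : σ (a 0) (b 0) ≠ σ (a 2) (b 2)) : Dn D σ a b = Bk D σ a b := by
  rw [Dn, if_neg fun h' => h (h'.1 2).symm, sub_zero]

theorem Dn_eq (H : D.Ok τ0) (hσ : Rz D.B.length σ) {t : ℕ} (ht : t ∈ D.up)
    (h : ∀ i, σ (a i) (b i) = t) (h0 : ∀ i, t ≤ σ (a 0) (a i)) :
    |Dn D σ a b| ≤ 100 * (D.e t * D.v t t + D.tl) := by
  have := C3n47.cd3 H hσ ht h h0
  rw [Dn, if_pos ⟨fun i => (h i).trans (h 0).symm, (h 0).trans_lt (CD.mem_up.1 ht).2⟩, Bk]
  simp only [h]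
  linarith [mul_nonneg (H.e0 t) (D.v0 t t), H.tl0]

/-! ### patterns -/

section pat
variable (D) (j : ℕ)

/-- a function on a set of levels -/
def ind (S : Finset ℕ) (f : ℕ → ℝ) (u : ℕ) : ℝ := if u ∈ S then f u else 0

def wv (u : ℕ) : ℝ := D.e u * D.v u u + D.tl
def mn (u : ℕ) : ℝ := min (D.g j * D.g u ^ 2) (√(D.u 2 j) * √(D.u 4 u))

/-- patterns with one label -/
def PA (u : ℕ) : ℝ := ind {D.K} (fun _ => 1) u + ind {j} (wv D) u +
  ind (D.up.erase j) (fun u => D.e u ^ 2 * D.v u u + D.tl) u +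
  ind (Finset.Ioo j D.K) (fun u => D.g j * D.g u ^ 2) u +
  ind (Finset.Ioo j D.K) (fun u => D.e j * D.g j ^ 2 * D.g u) u +
  ind (Finset.Ioo D.J j) (mn D j) u + ind (Finset.Ioo D.J j) (fun u => D.g j ^ 2 * (D.e u * D.g u)) u

/-- patterns with two labels -/
def PT (u v : ℕ) : ℝ := ind D.up (fun u => ind {u} (fun _ => 1) v) u +
  ind (Finset.Ioo D.J j) (fun u => wv D u * if v ≤ u then 1 else 0) u +
  ind (D.up.erase j) (fun u => D.g u ^ 2) u * ind (D.up.erase j) D.g v +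
  ind (Finset.Ioo D.J j) (fun u => D.g j * (D.e u * D.g u)) u * ind (D.up.erase j) D.g v +
  ind (Finset.Ioo j D.K) (fun u => D.g j ^ 2 * D.g u) u * ind (Finset.range j) (fun _ => 1) v

end pat

theorem ind_nn {S : Finset ℕ} {f : ℕ → ℝ} (h : ∀ u, 0 ≤ f u) (u : ℕ) : 0 ≤ ind S f u := by
  unfold ind
  split_ifs
  exacts [h u, le_rfl]

theorem ind_pos {S : Finset ℕ} {f : ℕ → ℝ} {u : ℕ} (h : u ∈ S) : ind S f u = f u := if_pos h

theorem ind_neg {S : Finset ℕ} {f : ℕ → ℝ} {u : ℕ} (h : u ∉ S) : ind S f u = 0 := if_neg h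

theorem wv0 (H : D.Ok τ0) (u : ℕ) : 0 ≤ wv D u := add_nonneg (mul_nonneg (H.e0 u) (D.v0 u u)) H.tl0

theorem PA_parts (H : D.Ok τ0) (j u : ℕ) : 0 ≤ ind {D.K} (fun _ => 1) u ∧ 0 ≤ ind {j} (wv D) u ∧
    0 ≤ ind (D.up.erase j) (fun u => D.e u ^ 2 * D.v u u + D.tl) u ∧
    0 ≤ ind (Finset.Ioo j D.K) (fun u => D.g j * D.g u ^ 2) u ∧
    0 ≤ ind (Finset.Ioo j D.K) (fun u => D.e j * D.g j ^ 2 * D.g u) u ∧
    0 ≤ ind (Finset.Ioo D.J j) (mn D j) u ∧
    0 ≤ ind (Finset.Ioo D.J j) (fun u => D.g j ^ 2 * (D.e u * D.g u)) u := by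
  have hg := D.g0
  have he := H.e0
  exact ⟨ind_nn (fun _ => zero_le_one) u, ind_nn (wv0 H) u,
    ind_nn (fun u => add_nonneg (mul_nonneg (sq_nonneg _) (D.v0 u u)) H.tl0) u,
    ind_nn (fun u => mul_nonneg (hg j) (sq_nonneg _)) u,
    ind_nn (fun u => mul_nonneg (mul_nonneg (he j) (sq_nonneg _)) (hg u)) u,
    ind_nn (fun u => le_min (mul_nonneg (hg j) (sq_nonneg _)) (by positivity)) u,
    ind_nn (fun u => mul_nonneg (sq_nonneg _) (mul_nonneg (he u) (hg u))) u⟩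

theorem PT_parts (H : D.Ok τ0) (j u v : ℕ) : 0 ≤ ind D.up (fun u => ind {u} (fun _ => 1) v) u ∧
    0 ≤ ind (Finset.Ioo D.J j) (fun u => wv D u * if v ≤ u then 1 else 0) u ∧
    0 ≤ ind (D.up.erase j) (fun u => D.g u ^ 2) u * ind (D.up.erase j) D.g v ∧
    0 ≤ ind (Finset.Ioo D.J j) (fun u => D.g j * (D.e u * D.g u)) u * ind (D.up.erase j) D.g v ∧
    0 ≤ ind (Finset.Ioo j D.K) (fun u => D.g j ^ 2 * D.g u) u *
      ind (Finset.range j) (fun _ => 1) v := by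
  have hg := D.g0
  have he := H.e0
  exact ⟨ind_nn (fun u => ind_nn (fun _ => zero_le_one) v) u,
    ind_nn (fun u => mul_nonneg (wv0 H u) (by positivity)) u,
    mul_nonneg (ind_nn (fun _ => sq_nonneg _) u) (ind_nn hg v),
    mul_nonneg (ind_nn (fun u => mul_nonneg (hg j) (mul_nonneg (he u) (hg u))) u) (ind_nn hg v),
    mul_nonneg (ind_nn (fun u => mul_nonneg (sq_nonneg _) (hg u)) u)
      (ind_nn (fun _ => zero_le_one) v)⟩

theorem PA0 (H : D.Ok τ0) (j u : ℕ) : 0 ≤ PA D j u := by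
  obtain ⟨h1, h2, h3, h4, h5, h6, h7⟩ := PA_parts H j u
  unfold PA
  linarith

theorem PT0 (H : D.Ok τ0) (j u v : ℕ) : 0 ≤ PT D j u v := by
  obtain ⟨h1, h2, h3, h4, h5⟩ := PT_parts H j u v
  unfold PT
  linarith

theorem mk1 {β ς x P : ℝ} (hβ : |β| ≤ 100 * x) (hς : |ς| ≤ cS) (h : x ≤ P) :
    |β * ς| ≤ 100 * cS * P := by
  have h0 := (abs_nonneg _).trans hβ
  rw [abs_mul]
  refine (mul_le_mul hβ hς (abs_nonneg _) h0).trans ?_
  nlinarith [cS_ge]

theorem mk2 {β ς x e P : ℝ} (hβ : |β| ≤ 100 * x) (hς : |ς| ≤ cS * e) (h : e * x ≤ P) :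
    |β * ς| ≤ 100 * cS * P := by
  have h0 := (abs_nonneg _).trans hβ
  rw [abs_mul]
  refine (mul_le_mul hβ hς (abs_nonneg _) h0).trans ?_
  nlinarith [cS_ge]

theorem mul_le_max {x y : ℝ} (hx : 0 ≤ x) (hy : 0 ≤ y) : x * y ≤ x ^ 2 ∨ x * y ≤ y ^ 2 := by
  rcases le_total x y with h | h
  · exact .inr (by nlinarith)
  · exact .inl (by nlinarith)

/-- **the classes**, levels sorted -/
theorem classes (H : D.Ok τ0) {R : ℕ} (hR : R + 1 ≤ 8) {σ : SM (R + 1)} {y : Fin R → ℕ}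
    (hc : Cmp D.B.length R σ y) {a b : Fin 3 → Fin (R + 1)} (hab : ∀ i, a i ≠ b i)
    {p p' : Fin (R + 1)} {j : ℕ} (hj : j ∈ D.up) (hp : σ p p' = j)
    (hJ : D.J < σ (a 0) (b 0)) (h01 : σ (a 0) (b 0) ≤ σ (a 1) (b 1))
    (h12 : σ (a 1) (b 1) ≤ σ (a 2) (b 2)) :
    (∃ i, |Dn D σ a b * Sx D σ a b p p'| ≤ 100 * cS * PA D j (y i)) ∨
      ∃ i i', i ≠ i' ∧ |Dn D σ a b * Sx D σ a b p p'| ≤ 100 * cS * PT D j (y i) (y i') := by
  have hσ := hc.rz
  have hK := lenB (D := D)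
  have hj' := CD.mem_up.1 hj
  have S0 := Sx_le (a := a) (b := b) (p := p) (p' := p') H hσ
  have D0 := Dn_le (a := a) (b := b) H hσ
  have l2 := hσ.le (a 2) (b 2)
  obtain ⟨i₀, y0⟩ := hc.mem _ _ (hab 0)
  obtain ⟨i₁, y1⟩ := hc.mem _ _ (hab 1)
  obtain ⟨i₂, y2⟩ := hc.mem _ _ (hab 2)
  have hg := D.g0
  have he := H.e0
  have LA : ∀ {i x}, x ≤ PA D j (y i) → |Dn D σ a b * Sx D σ a b p p'| ≤ 100 * cS * x →
      (∃ i, |Dn D σ a b * Sx D σ a b p p'| ≤ 100 * cS * PA D j (y i)) ∨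
      ∃ i i', i ≠ i' ∧ |Dn D σ a b * Sx D σ a b p p'| ≤ 100 * cS * PT D j (y i) (y i') :=
    fun h1 h2 => .inl ⟨_, h2.trans (mul_le_mul_of_nonneg_left h1 (by linarith [cS_ge]))⟩
  have LT : ∀ {i i' x}, i ≠ i' → x ≤ PT D j (y i) (y i') →
      |Dn D σ a b * Sx D σ a b p p'| ≤ 100 * cS * x →
      (∃ i, |Dn D σ a b * Sx D σ a b p p'| ≤ 100 * cS * PA D j (y i)) ∨
      ∃ i i', i ≠ i' ∧ |Dn D σ a b * Sx D σ a b p p'| ≤ 100 * cS * PT D j (y i) (y i') :=
    fun h0 h1 h2 => .inr ⟨_, _, h0, h2.trans (mul_le_mul_of_nonneg_left h1 (by linarith [cS_ge]))⟩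
  have ne : ∀ {i i'}, y i ≠ y i' → i ≠ i' := fun h e => h (e ▸ rfl)
  -- an edge at the top
  by_cases hT : σ (a 2) (b 2) = D.K
  · refine LA (i := i₂) ?_ (mk1 D0 S0 le_rfl)
    obtain ⟨h1, h2, h3, h4, h5, h6, h7⟩ := PA_parts H j (y i₂)
    rw [PA, ind_pos (S := {D.K}) (by simp; omega)]
    linarith
  -- two equal labels
  by_cases hD : ∃ i i', i ≠ i' ∧ y i ∈ D.up ∧ y i' = y i
  · obtain ⟨i, i', h0, h1, h2⟩ := hD
    refine LT h0 ?_ (mk1 D0 S0 le_rfl)
    obtain ⟨-, h2', h3, h4, h5⟩ := PT_parts H j (y i) (y i')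
    rw [PT, ind_pos h1, ind_pos (S := {y i}) (by simp [h2])]
    linarith
  have nd : ∀ {i i'}, i ≠ i' → y i ∈ D.up → y i' ≠ y i := fun h0 h1 h2 => hD ⟨_, _, h0, h1, h2⟩
  have u0 : y i₀ ∈ D.up := CD.mem_up.2 (by omega)
  have u1 : y i₁ ∈ D.up := CD.mem_up.2 (by omega)
  have u2 : y i₂ ∈ D.up := CD.mem_up.2 (by omega)
  have er : ∀ {u}, u ∈ D.up → u ≠ j → u ∈ D.up.erase j := fun h1 h2 => Finset.mem_erase.2 ⟨h2, h1⟩
  have c0 : σ ((Fin.cons p a : Fin 4 → _) 0) ((Fin.cons p' b : Fin 4 → _) 0) = j := hp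
  have c1 : σ ((Fin.cons p a : Fin 4 → _) 1) ((Fin.cons p' b : Fin 4 → _) 1) = y i₀ := y0
  have c2 : σ ((Fin.cons p a : Fin 4 → _) 2) ((Fin.cons p' b : Fin 4 → _) 2) = y i₁ := y1
  have c3 : σ ((Fin.cons p a : Fin 4 → _) 3) ((Fin.cons p' b : Fin 4 → _) 3) = y i₂ := y2
  by_cases hE : σ (a 0) (b 0) = σ (a 2) (b 2)
  · -- one level
    have ha : ∀ i, σ (a i) (b i) = y i₀ := fun i => by
      fin_cases i <;> simp only [Fin.zero_eta, Fin.mk_one, Fin.reduceFinMk] <;> omega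
    have D1 := Dn_eq H hσ u0 ha fun i => by
      by_contra h
      obtain ⟨k, k', h1, h2, h3⟩ := two_lab hc (a 0) (b 0) (a i) (b i) (hab 0) (hab i)
        (by rw [ha]; omega) (by rw [ha]; omega)
      rw [ha] at h2 h3
      exact nd h1 (h2 ▸ u0) (h3.symm.trans h2)
    have W2 : |Sx D σ a b p p'| ≤ cS * D.e (y i₀) → y i₀ ≠ j →
        (∃ i, |Dn D σ a b * Sx D σ a b p p'| ≤ 100 * cS * PA D j (y i)) ∨
        ∃ i i', i ≠ i' ∧ |Dn D σ a b * Sx D σ a b p p'| ≤ 100 * cS * PT D j (y i) (y i') :=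
      fun h1 h2 => by
        refine LA (i := i₀) (x := D.e (y i₀) ^ 2 * D.v (y i₀) (y i₀) + D.tl) ?_ ?_
        · obtain ⟨h1, h2', -, h4, h5, h6, h7⟩ := PA_parts H j (y i₀)
          rw [PA, ind_pos (er u0 h2)]
          linarith
        · rcases le_total (D.e (y i₀)) 1 with h | h
          · exact mk2 D1 h1 (by nlinarith [H.tl0])
          · exact mk1 D1 S0 (by nlinarith [mul_nonneg (he (y i₀)) (D.v0 (y i₀) (y i₀))])
    rcases lt_trichotomy (y i₀) j with h | h | h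
    · rcases odd_or hσ (P := Fin.cons p a) (P' := Fin.cons p' b) 1 (by
          rw [Finset.card_filter, Fin.sum_univ_four, c0, c1, c2, c3, if_neg h.ne', if_pos rfl,
            if_pos (by omega), if_pos (by omega)]
          decide) with ⟨i, hi, ho⟩ | ⟨d, h1, h2⟩
      · exact W2 (Sx_odd H hσ hR u0 (c1 ▸ hi) ho) h.ne
      · obtain ⟨k, k', h3, h4, h5⟩ := out_lab hc (t := y i₀) (by omega) c1.le (c1 ▸ h1) (c1 ▸ h2)
        obtain ⟨k, h6, h7⟩ : ∃ k, i₀ ≠ k ∧ y k ≤ y i₀ := by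
          by_cases e : i₀ = k
          exacts [⟨k', e ▸ h3, h5⟩, ⟨k, e, h4⟩]
        refine LT h6 ?_ (mk1 D1 S0 le_rfl)
        obtain ⟨h1, -, h3, h4, h5⟩ := PT_parts H j (y i₀) (y k)
        rw [PT, ind_pos (S := Finset.Ioo D.J j) (Finset.mem_Ioo.2 (by omega)), if_pos h7, mul_one]
        unfold wv
        linarith
    · refine LA (i := i₀) ?_ (mk1 D1 S0 le_rfl)
      obtain ⟨h1, -, h3, h4, h5, h6, h7⟩ := PA_parts H j (y i₀)
      rw [PA, ind_pos (S := {j}) (by simp [h])]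
      unfold wv
      linarith
    · refine W2 (Sx_odd H hσ hR u0 (c0.trans_le h.le) (odd_one hσ 0 (by omega) fun e he => ?_)) h.ne'
      fin_cases e <;> simp only [Fin.zero_eta, Fin.mk_one, Fin.reduceFinMk] at he ⊢ <;>
        first | exact absurd rfl he | omega
  -- several levels
  have D1 := Bk_g (D := D) hσ hab
  rw [← Dn_ne hE, y0, y1, y2] at D1
  have T2 : ∀ {i i'}, y i ∈ D.up → y i' ∈ D.up → y i ≠ j → y i' ≠ j →
      D.g (y i) ^ 2 * D.g (y i') ≤ PT D j (y i) (y i') := fun {i i'} h1 h2 h3 h4 => by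
    obtain ⟨p1, p2, -, p4, p5⟩ := PT_parts H j (y i) (y i')
    rw [PT, ind_pos (er h1 h3), ind_pos (f := D.g) (er h2 h4)] at *
    linarith
  by_cases hn : y i₀ ≠ j ∧ y i₁ ≠ j ∧ y i₂ ≠ j
  · by_cases e : y i₁ = y i₂
    · exact LT (ne (by omega)) (T2 u2 u0 hn.2.2 hn.1) (mk1 D1 S0 (by rw [e]; ring_nf; rfl))
    · rcases mul_le_max (hg (y i₀)) (hg (y i₁)) with h | h
      · exact LT (ne (by omega)) (T2 u0 u2 hn.1 hn.2.2)
          (mk1 D1 S0 (mul_le_mul_of_nonneg_right h (hg _)))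
      · exact LT (ne e) (T2 u1 u2 hn.2.1 hn.2.2) (mk1 D1 S0 (mul_le_mul_of_nonneg_right h (hg _)))
  by_cases e0 : y i₀ = j
  · by_cases e1 : y i₁ = j
    · rw [e0, e1] at D1
      have m2 : y i₂ ∈ Finset.Ioo j D.K := Finset.mem_Ioo.2 (by omega)
      rcases odd_or hσ (P := Fin.cons p a) (P' := Fin.cons p' b) 0 (by
          rw [Finset.card_filter, Fin.sum_univ_four, c0, c1, c2, c3, if_pos rfl, if_pos e0,
            if_pos e1, if_neg (by omega)]
          decide) with ⟨i, hi, ho⟩ | ⟨d, h1, h2⟩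
      · refine LA (i := i₂) ?_ (mk2 D1 (Sx_odd H hσ hR hj (c0 ▸ hi) ho) le_rfl)
        obtain ⟨h1, h2, h3, h4, -, h6, h7⟩ := PA_parts H j (y i₂)
        rw [PA, ind_pos (f := fun u => D.e j * D.g j ^ 2 * D.g u) m2]
        linarith
      · obtain ⟨k, k', h3, h4, h5⟩ := out_lab hc (t := j) (by omega) c0.le (c0 ▸ h1) (c0 ▸ h2)
        obtain ⟨k, h6⟩ : ∃ k, y k < j := by
          by_contra h
          simp only [not_exists, not_lt] at h
          exact nd h3 ((h4.antisymm (h k)) ▸ hj) (by have := h k; have := h k'; omega)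
        refine LT (i := i₂) (i' := k) (ne (by omega)) ?_ (mk1 D1 S0 le_rfl)
        obtain ⟨h1, h2, h3, h4, -⟩ := PT_parts H j (y i₂) (y k)
        rw [PT, ind_pos m2, ind_pos (Finset.mem_range.2 h6)]
        linarith
    · have A3 : ∀ {i}, j < y i → y i ∈ D.up → D.g j * D.g (y i) ^ 2 ≤ PA D j (y i) :=
        fun {i} h1 h2 => by
          obtain ⟨p1, p2, p3, -, p5, p6, p7⟩ := PA_parts H j (y i)
          rw [PA, ind_pos (f := fun u => D.g j * D.g u ^ 2)
            (Finset.mem_Ioo.2 ⟨h1, (CD.mem_up.1 h2).2⟩)]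
          linarith
      rw [e0, mul_assoc] at D1
      rcases mul_le_max (hg (y i₁)) (hg (y i₂)) with h | h
      · exact LA (A3 (by omega) u1) (mk1 D1 S0 (mul_le_mul_of_nonneg_left h (hg _)))
      · exact LA (A3 (by omega) u2) (mk1 D1 S0 (mul_le_mul_of_nonneg_left h (hg _)))
  have m0 : y i₀ ∈ Finset.Ioo D.J j := Finset.mem_Ioo.2 (by omega)
  by_cases e1 : y i₀ = y i₁
  · have e2 : y i₂ = j := by omega
    have D2 := Bk_two (D := D) hσ hab (by omega)
    rw [← Dn_ne hE, y0, y2, e2] at D2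
    rw [← e1, e2] at D1
    refine LA (i := i₀) (x := mn D j (y i₀)) ?_ (mk1 ?_ S0 le_rfl)
    · obtain ⟨h1, h2, h3, h4, h5, -, h7⟩ := PA_parts H j (y i₀)
      rw [PA, ind_pos (f := mn D j) m0]
      linarith
    · rw [mn, mul_min_of_nonneg _ _ (by norm_num : (0 : ℝ) ≤ 100)]
      exact le_min (D1.trans_eq (by ring)) D2
  have S1 := Sx_odd (a := a) (b := b) (p := p) (p' := p') H hσ hR u0 c1.le
    (odd_one hσ 1 (by omega) fun e he => by
      fin_cases e <;> simp only [Fin.zero_eta, Fin.mk_one, Fin.reduceFinMk] at he ⊢ <;>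
        first | exact absurd rfl he | omega)
  have T3 : ∀ {i}, y i ∈ D.up → y i ≠ j →
      D.g j * (D.e (y i₀) * D.g (y i₀)) * D.g (y i) ≤ PT D j (y i₀) (y i) := fun {i} h1 h2 => by
    obtain ⟨p1, p2, p3, -, p5⟩ := PT_parts H j (y i₀) (y i)
    rw [PT, ind_pos (f := fun u => D.g j * (D.e u * D.g u)) m0, ind_pos (f := D.g) (er h1 h2)] at *
    linarith
  by_cases e2 : y i₁ = j
  · by_cases e3 : y i₂ = j
    · rw [e2, e3] at D1
      refine LA (i := i₀) ?_ (mk2 D1 S1 le_rfl)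
      obtain ⟨h1, h2, h3, h4, h5, h6, -⟩ := PA_parts H j (y i₀)
      rw [PA, ind_pos (f := fun u => D.g j ^ 2 * (D.e u * D.g u)) m0]
      linarith
    · rw [e2] at D1
      exact LT (ne (by omega)) (T3 u2 e3) (mk2 D1 S1 (le_of_eq (by ring)))
  · rw [show y i₂ = j by omega] at D1
    exact LT (ne e1) (T3 u1 e2) (mk2 D1 S1 (le_of_eq (by ring)))

/-! ### sorting the edges -/


theorem Sx_perm (ρ : Equiv.Perm (Fin 3)) : Sx D σ (a ∘ ρ) (b ∘ ρ) p p' = Sx D σ a b p p' := by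
  unfold Sx
  exact congrArg _ (funext fun x => congrArg _
    (Equiv.prod_comp ρ fun i => oE D.q (σ (a i) (b i)) (x (a i)) (x (b i))))

theorem Dn_perm (ρ : Equiv.Perm (Fin 3)) : Dn D σ (a ∘ ρ) (b ∘ ρ) = Dn D σ a b := by
  have e : Bk D σ (a ∘ ρ) (b ∘ ρ) = Bk D σ a b := by
    unfold Bk
    exact congrArg _ (funext fun x =>
      Equiv.prod_comp ρ fun i => oU D.q (σ (a i) (b i)) (x (a i)) (x (b i)))
  rw [Dn, Dn, e]
  simp only [Function.comp_apply]
  by_cases h : ∀ i, σ (a i) (b i) = σ (a 0) (b 0)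
  · simp only [h]
  · have h' : ¬∀ i, σ (a (ρ i)) (b (ρ i)) = σ (a (ρ 0)) (b (ρ 0)) := fun h' => h fun i => by
      have h1 := h' (ρ.symm i)
      have h2 := h' (ρ.symm 0)
      rw [ρ.apply_symm_apply] at h1 h2
      rw [h1, h2]
    rw [if_neg fun h'' => h' h''.1, if_neg fun h'' => h h''.1]

theorem tf_le (H : D.Ok τ0) : |tf D σ a b| ≤ τ0 ^ 3 := by
  rw [tf, Finset.abs_prod]
  refine (Finset.prod_le_prod (fun _ _ => abs_nonneg _) (g := fun _ => τ0) fun i _ => ?_).trans_eq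
    (by simp)
  have := H.tau_mem (σ (a i) (b i))
  split_ifs
  · rw [abs_of_nonneg (by linarith)]
    linarith
  · rw [abs_zero]
    exact H.tau0

/-- the pointwise bound -/
theorem point (H : D.Ok τ0) {R : ℕ} (hR : R + 1 ≤ 8) {σ : SM (R + 1)} {y : Fin R → ℕ}
    (hc : Cmp D.B.length R σ y) {a b : Fin 3 → Fin (R + 1)} (hab : ∀ i, a i ≠ b i)
    {p p' : Fin (R + 1)} {j : ℕ} (hj : j ∈ D.up) (hp : σ p p' = j) :
    |tf D σ a b * (Dn D σ a b * Sx D σ a b p p')| ≤ 0 ∨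
    (∃ i, |tf D σ a b * (Dn D σ a b * Sx D σ a b p p')| ≤
      τ0 ^ 3 * (100 * cS) * PA D j (y i)) ∨ ∃ i i', i ≠ i' ∧
      |tf D σ a b * (Dn D σ a b * Sx D σ a b p p')| ≤
        τ0 ^ 3 * (100 * cS) * PT D j (y i) (y i') := by
  by_cases hJ : ∀ i, D.J < σ (a i) (b i)
  · set ρ := Tuple.sort fun i => σ (a i) (b i)
    have hm : Monotone ((fun i => σ (a i) (b i)) ∘ ρ) := Tuple.monotone_sort _
    have := classes H hR hc (a := a ∘ ρ) (b := b ∘ ρ) (fun i => hab _) hj hp (hJ _)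
      (hm (show (0 : Fin 3) ≤ 1 by decide)) (hm (show (1 : Fin 3) ≤ 2 by decide))
    rw [Dn_perm, Sx_perm] at this
    have key : ∀ {x}, |Dn D σ a b * Sx D σ a b p p'| ≤ 100 * cS * x →
        |tf D σ a b * (Dn D σ a b * Sx D σ a b p p')| ≤ τ0 ^ 3 * (100 * cS) * x := fun h => by
      rw [abs_mul, mul_assoc]
      exact mul_le_mul (tf_le H) h (abs_nonneg _) (pow_nonneg H.tau0 _)
    rcases this with ⟨i, h⟩ | ⟨i, i', e, h⟩
    exacts [.inr (.inl ⟨i, key h⟩), .inr (.inr ⟨i, i', e, key h⟩)]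
  · obtain ⟨i, hi⟩ := not_forall.1 hJ
    rw [tf, Finset.prod_eq_zero (Finset.mem_univ i) (if_neg hi), zero_mul, abs_zero]
    exact .inl le_rfl

/-! ### the sums of the patterns -/

theorem Bi (S : Finset ℕ) (hS : ∀ u ∈ S, u ≤ D.K) (f : ℕ → ℝ) :
    Br D.B (fun u => ind S f u) = ∑ u ∈ S, D.dx u * f u :=
  Br_ind S (fun u hu => (hS u hu).trans_eq lenB.symm) f

theorem ex_le (H : D.Ok τ0) {j : ℕ} (hj : j ∈ D.up) : ex D.B j ≤ D.e j ∧ ex D.B j ≤ 1 :=
  ⟨(le_min (Tay38.ex_le_one H.mono j)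
    (le_add_of_nonneg_right (H.sig0 (CD.mem_up.1 hj).2.le))).trans (H.esc j hj),
    Tay38.ex_le_one H.mono j⟩

theorem er_le (H : D.Ok τ0) (j : ℕ) {f : ℕ → ℝ} (hf : ∀ u, 0 ≤ f u) :
    ∑ u ∈ D.up.erase j, D.dx u * f u ≤ D.I f :=
  Finset.sum_le_sum_of_subset_of_nonneg (Finset.erase_subset _ _) fun u _ _ =>
    mul_nonneg (H.dx0 u) (hf u)

/-- the cubic integrand -/
def cub (D : CD) (j : ℕ) : ℝ := D.e j * D.g j ^ 2 * D.hi D.g j +
  D.g j * (D.hi (fun t => D.g t ^ 2) j + D.lw (fun t => D.e t * D.g t ^ 2) j +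
    (D.g j + D.N1) * D.lw (fun t => D.e t * D.g t) j)

def mm (D : CD) (j : ℕ) : ℝ := min (D.g j * D.lw (fun t => D.g t ^ 2) j)
  (√(D.u 2 j) * D.lw (fun t => √(D.u 4 t)) j)

theorem I_ev (H : D.Ok τ0) : D.I (fun u => D.e u ^ 2 * D.v u u + D.tl) ≤
    D.I (fun u => D.e u ^ 2 * D.v u u) + D.tl := by
  rw [D.I_add]
  linarith [H.I_le (a := fun _ => D.tl) H.tl0 fun _ _ => le_rfl]

theorem PA_self {j : ℕ} (hj : j ∈ D.up) : PA D j j = wv D j := by
  have := CD.mem_up.1 hj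
  rw [PA, ind_neg (by simp; omega), ind_pos (by simp), ind_neg (by simp), ind_neg (by simp),
    ind_neg (by simp), ind_neg (by simp), ind_neg (by simp)]
  ring

theorem Br_PA (H : D.Ok τ0) {j : ℕ} (hj : j ∈ D.up) : Br D.B (PA D j) ≤ wv D j +
    (D.I (fun u => D.e u ^ 2 * D.v u u) + D.tl) + D.g j * D.hi (fun t => D.g t ^ 2) j +
    D.e j * D.g j ^ 2 * D.hi D.g j + mm D j + D.g j ^ 2 * D.lw (fun t => D.e t * D.g t) j := by
  have hj' := CD.mem_up.1 hj
  have s1 : ∀ u ∈ Finset.Ioo j D.K, u ≤ D.K := fun u hu => (Finset.mem_Ioo.1 hu).2.le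
  have s2 : ∀ u ∈ Finset.Ioo D.J j, u ≤ D.K := fun u hu => (Finset.mem_Ioo.1 hu).2.le.trans hj'.2.le
  unfold PA
  simp only [Br_add]
  rw [Bi _ (by simp), Bi _ (by simp; omega), Bi _ fun u hu =>
    (CD.mem_up.1 (Finset.mem_of_mem_erase hu)).2.le, Bi _ s1, Bi _ s1, Bi _ s2, Bi _ s2,
    Finset.sum_singleton, Finset.sum_singleton, H.top]
  have a1 := mul_le_mul_of_nonneg_right (H.dx1 hj'.2.le) (wv0 H j)
  have a2 := (er_le H j (f := fun u => D.e u ^ 2 * D.v u u + D.tl) fun u =>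
    add_nonneg (mul_nonneg (sq_nonneg _) (D.v0 u u)) H.tl0).trans (I_ev H)
  have a3 : ∑ u ∈ Finset.Ioo D.J j, D.dx u * mn D j u ≤ mm D j := le_min
    (by
      rw [CD.lw, Finset.mul_sum]
      exact Finset.sum_le_sum fun u _ =>
        (mul_le_mul_of_nonneg_left (min_le_left _ _) (H.dx0 u)).trans_eq (by ring))
    (by
      rw [CD.lw, Finset.mul_sum]
      exact Finset.sum_le_sum fun u _ =>
        (mul_le_mul_of_nonneg_left (min_le_right _ _) (H.dx0 u)).trans_eq (by ring))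
  simp only [CD.hi, CD.lw, Finset.mul_sum, mul_left_comm (D.dx _)] at *
  linarith

theorem Br_PT1 {j : ℕ} (hj : j ∈ D.up) : Br D.B (PT D j j) = D.dx j := by
  have := CD.mem_up.1 hj
  rw [show PT D j j = fun v => ind {j} (fun _ => 1) v from funext fun v => by
    rw [PT, ind_pos hj, ind_neg (S := Finset.Ioo D.J j) (u := j) (by simp),
      ind_neg (S := D.up.erase j) (u := j) (by simp),
      ind_neg (S := Finset.Ioo D.J j) (u := j) (by simp),
      ind_neg (S := Finset.Ioo j D.K) (u := j) (by simp)]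
    ring, Bi _ (by simp; omega), Finset.sum_singleton, mul_one]

theorem Br_PT2 {j : ℕ} (hj : j ∈ D.up) : Br D.B (fun u => PT D j u j) = D.dx j := by
  have := CD.mem_up.1 hj
  rw [show (fun u => PT D j u j) = fun u => ind {j} (fun _ => 1) u from funext fun u => by
    rw [PT, ind_neg (S := D.up.erase j) (u := j) (by simp),
      ind_neg (S := Finset.range j) (u := j) (by simp)]
    simp only [ind, Finset.mem_singleton, Finset.mem_Ioo]
    split_ifs <;> first | omega | simp, Bi _ (by simp; omega), Finset.sum_singleton, mul_one]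

theorem Br_PT3 (H : D.Ok τ0) {j : ℕ} (hj : j ∈ D.up) :
    Br D.B (fun u => Br D.B (PT D j u)) ≤ D.I D.dx + (D.I (fun u => D.e u ^ 2 * D.v u u) + D.tl) +
      D.N1 * D.N2 + D.g j * D.N1 * D.lw (fun t => D.e t * D.g t) j +
      D.e j * D.g j ^ 2 * D.hi D.g j := by
  have hj' := CD.mem_up.1 hj
  have hg := D.g0
  have he := H.e0
  have s0 : ∀ u ∈ D.up, u ≤ D.K := fun u hu => (CD.mem_up.1 hu).2.le
  have s1 : ∀ u ∈ Finset.Ioo j D.K, u ≤ D.K := fun u hu => (Finset.mem_Ioo.1 hu).2.le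
  have s2 : ∀ u ∈ Finset.Ioo D.J j, u ≤ D.K := fun u hu => (Finset.mem_Ioo.1 hu).2.le.trans hj'.2.le
  have G1 : Br D.B (fun v => ind (D.up.erase j) D.g v) ≤ D.N1 := by
    rw [Bi _ fun u hu => s0 u (Finset.mem_of_mem_erase hu)]
    exact er_le H j hg
  have G2 : Br D.B (fun v => ind (Finset.range j) (fun _ => 1) v) ≤ D.e j := by
    rw [Bi _ fun u hu => (Finset.mem_range.1 hu).le.trans hj'.2.le]
    simp only [mul_one]
    exact (H.sum_dx_le fun u hu => (Finset.mem_range.1 hu).le).trans (ex_le H hj).1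
  refine (Br_mono H.mono (g' := fun u => ind D.up D.dx u +
    ind D.up (fun u => D.e u ^ 2 * D.v u u + D.tl) u + D.N1 * ind D.up (fun u => D.g u ^ 2) u +
    D.g j * D.N1 * ind (Finset.Ioo D.J j) (fun t => D.e t * D.g t) u +
    D.e j * D.g j ^ 2 * ind (Finset.Ioo j D.K) D.g u) fun u _ => ?_).trans ?_
  · unfold PT
    simp only [Br_add, Br_mul]
    refine add_le_add (add_le_add (add_le_add (add_le_add ?_ ?_) ?_) ?_) ?_
    · by_cases hu : u ∈ D.up
      · simp only [ind_pos hu]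
        rw [Bi _ (by simpa using s0 u hu), Finset.sum_singleton, mul_one]
      · simp only [ind_neg hu, Site94.Br_const, le_refl]
    · by_cases hu : u ∈ Finset.Ioo D.J j
      · have hu' : u ∈ D.up := CD.mem_up.2 (by have := Finset.mem_Ioo.1 hu; omega)
        simp only [ind_pos hu, ind_pos hu', Br_mul]
        refine (mul_le_mul_of_nonneg_left (Br_le H.mono u) (wv0 H u)).trans ?_
        have b1 := mul_le_mul_of_nonneg_left (ex_le H hu').1 (mul_nonneg (he u) (D.v0 u u))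
        have b2 := mul_le_mul_of_nonneg_left (ex_le H hu').2 H.tl0
        unfold wv
        nlinarith
      · simp only [ind_neg hu, Site94.Br_const]
        exact ind_nn (fun u => add_nonneg (mul_nonneg (sq_nonneg _) (D.v0 u u)) H.tl0) u
    · rw [mul_comm D.N1]
      refine mul_le_mul ?_ G1 (Br_nonneg H.mono fun v _ => ind_nn hg v)
        (ind_nn (fun _ => sq_nonneg _) u)
      by_cases hu : u ∈ D.up.erase j
      · rw [ind_pos hu, ind_pos (Finset.mem_of_mem_erase hu)]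
      · rw [ind_neg hu]
        exact ind_nn (fun _ => sq_nonneg _) u
    · refine (mul_le_mul_of_nonneg_left G1
        (ind_nn (fun u => mul_nonneg (hg j) (mul_nonneg (he u) (hg u))) u)).trans_eq ?_
      unfold ind
      split_ifs <;> ring
    · refine (mul_le_mul_of_nonneg_left G2
        (ind_nn (fun u => mul_nonneg (sq_nonneg _) (hg u)) u)).trans_eq ?_
      unfold ind
      split_ifs <;> ring
  · simp only [Br_add, Br_mul]
    rw [Bi _ s0, Bi _ s0]
    have b1 := Bi _ s0 fun u => D.g u ^ 2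
    have b2 := Bi _ s2 fun t => D.e t * D.g t
    have b3 := Bi _ s1 D.g
    erw [b1, b2, b3]
    have := I_ev H
    unfold CD.N2 CD.lw CD.hi CD.I at *
    linarith

/-- the bound at one marked level -/
theorem level (H : D.Ok τ0) {k : ℕ} (hk : k ≤ 6) {a b : Fin 3 → Fin (1 + k + 1)}
    (hab : ∀ i, a i ≠ b i) {j : ℕ} (hj : j ∈ D.up) :
    |avc D.B (tw D.B.length j) k fun σ =>
      tf D σ a b * (Dn D σ a b * Sx D σ a b (old k 1) (old k 0))| ≤
    21 ^ 6 * (τ0 ^ 3 * (100 * cS)) * 3 *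
      ((D.I D.dx + D.I (fun u => D.e u ^ 2 * D.v u u) + 2 * D.tl + D.N1 * D.N2) +
        (D.e j * D.v j j + D.dx j + cub D j + mm D j)) := by
  have hj' := CD.mem_up.1 hj
  have hjK : j ≤ D.B.length := hj'.2.le.trans_eq lenB.symm
  have hC : 0 ≤ τ0 ^ 3 * (100 * cS) := mul_nonneg (pow_nonneg H.tau0 _) (by linarith [cS_ge])
  refine (Site94.abs_avc_le H.mono (rz_tw _ _) k (g := fun σ =>
    if σ (old k 1) (old k 0) = j then
      |tf D σ a b * (Dn D σ a b * Sx D σ a b (old k 1) (old k 0))| else 0) fun σ _ ho => by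
      rw [if_pos ((ho 1 0).trans (tw_old _ _ hjK))]).trans ?_
  refine (avc_pat H.mono hjK k (A := fun u => τ0 ^ 3 * (100 * cS) * PA D j u)
    (T := fun u v => τ0 ^ 3 * (100 * cS) * PT D j u v) (fun u => mul_nonneg hC (PA0 H j u))
    (fun u v => mul_nonneg hC (PT0 H j u v)) fun σ y hc => ?_).trans ?_
  · split_ifs with h
    · exact point H (by omega) hc hab hj h
    · exact .inl le_rfl
  · simp only [Br_mul]
    have b1 := Br_PA H hj
    have b2 := Br_PT1 hj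
    have b3 := Br_PT2 hj
    have b4 := Br_PT3 H hj
    have b5 := PA_self hj
    have hg := D.g0 j
    have c1 := mul_nonneg hg (H.hi0 (a := fun t => D.g t ^ 2) (fun _ => sq_nonneg _) j)
    have c2 := mul_nonneg hg (H.lw0 (a := fun t => D.e t * D.g t ^ 2)
      (fun t => mul_nonneg (H.e0 t) (sq_nonneg _)) j)
    have c3 := H.lw0 (a := fun t => D.e t * D.g t) (fun t => mul_nonneg (H.e0 t) (D.g0 t)) j
    have c4 := mul_nonneg (sq_nonneg (D.g j)) c3
    have c5 := mul_nonneg (mul_nonneg hg H.N10) c3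
    have c6 : 0 ≤ mm D j := le_min (mul_nonneg hg (H.lw0 (fun _ => sq_nonneg _) j))
      (mul_nonneg (sqrt_nonneg _) (H.lw0 (fun _ => sqrt_nonneg _) j))
    have c7 := H.I0 (a := D.dx) fun u _ => H.dx0 u
    have c8 := mul_nonneg H.N10 H.N20
    have c9 := H.dx0 j
    have hb : PA D j j + 2 * Br D.B (PA D j) + Br D.B (PT D j j) + (Br D.B fun u => PT D j u j) +
        (Br D.B fun u => Br D.B (PT D j u)) ≤ 3 *
        ((D.I D.dx + D.I (fun u => D.e u ^ 2 * D.v u u) + 2 * D.tl + D.N1 * D.N2) +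
          (D.e j * D.v j j + D.dx j + cub D j + mm D j)) := by
      unfold cub wv at *
      nlinarith
    have h0 : 0 ≤ PA D j j + 2 * Br D.B (PA D j) + Br D.B (PT D j j) +
        (Br D.B fun u => PT D j u j) + (Br D.B fun u => Br D.B (PT D j u)) := by
      have := Br_nonneg H.mono fun u _ => PA0 H j u
      have := Br_nonneg H.mono fun u (_ : u ≤ D.B.length) => Br_nonneg H.mono fun v _ => PT0 H j u v
      linarith [PA0 H j j]
    have hp : ((3 : ℝ) * (1 + k)) ^ k ≤ 21 ^ 6 := by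
      have : (k : ℝ) ≤ 6 := by exact_mod_cast hk
      exact (pow_le_pow_left₀ (by positivity) (by linarith) k).trans
        (pow_le_pow_right₀ (by norm_num) hk)
    calc _ = ((3 : ℝ) * (1 + k)) ^ k * (τ0 ^ 3 * (100 * cS) * (PA D j j + 2 * Br D.B (PA D j) +
          Br D.B (PT D j j) + (Br D.B fun u => PT D j u j) +
          (Br D.B fun u => Br D.B (PT D j u)))) := by ring
      _ ≤ 21 ^ 6 * (τ0 ^ 3 * (100 * cS) * (3 * _)) :=
        mul_le_mul hp (mul_le_mul_of_nonneg_left hb hC) (mul_nonneg hC h0) (by positivity)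
      _ = _ := by ring

end Crest.Agent.T156.Cas.C3T43

namespace Crest.Agent.T156.Cas.C40

open C3T43

/-- **the cubic upper word, test direction** -/
theorem c3T : C3S true := Bd.mk' fun τ0 =>
  ⟨G90.cG 3 * (21 ^ 6 * (τ0 ^ 3 * (100 * cS)) * 3 * 8), fun D H hW => by
    refine (frame3 H hW fun k hk a b hab j hj => level H hk hab hj).trans ?_
    have hC : 0 ≤ 21 ^ 6 * (τ0 ^ 3 * (100 * cS)) * 3 := mul_nonneg (mul_nonneg (by norm_num)
      (mul_nonneg (pow_nonneg H.tau0 _) (by linarith [cS_ge]))) (by norm_num)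
    rw [mul_assoc (G90.cG 3), mul_assoc _ 8, D.Iw_mul]
    refine mul_le_mul_of_nonneg_left (mul_le_mul_of_nonneg_left ?_ hC) (G90.cG_pos 3).le
    rw [D.Iw_add (fun _ => D.I D.dx + D.I (fun u => D.e u ^ 2 * D.v u u) + 2 * D.tl + D.N1 * D.N2),
      D.Iw_const, ← CD.wt_test hW, D.Iw_add _ (mm D), D.Iw_add _ (cub D), D.Iw_add _ D.dx]
    have x1 := H.xc
    rw [CD.dd_test hW, mul_one] at x1
    have x2 := H.Z_le
    have x3 := H.E1_le hW
    have x4 := H.wtE0_le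
    have x5 : D.Iw (cub D) ≤ D.E1 := H.Cub_le
    have x6 := H.Iwdx_le
    have x7 : D.Iw (fun j => D.e j * D.v j j) ≤ D.E1 := (D.Iw_mono fun j _ =>
      le_add_of_nonneg_right (H.sv_low0 _ j)).trans H.Lad1_le
    have x8 : D.I D.dx + D.I (fun u => D.e u ^ 2 * D.v u u) + 2 * D.tl ≤ 4 * D.E0 := by
      obtain ⟨p1, p2, p3⟩ := H.Lad0_parts
      have := H.Lad0_le
      unfold CD.Lad0 at this
      linarith [H.dx_le, H.tl_le]
    have x9 := mul_le_mul_of_nonneg_left x8 D.wt0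
    have x0 : D.Iw (mm D) = D.Iw fun j => min (D.g j * D.lw (fun t => D.g t ^ 2) j)
      (√(D.u 2 j) * D.lw (fun t => √(D.u 4 t)) j) := rfl
    linarith⟩

end Crest.Agent.T156.Cas.C40

end
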