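import Crest.Agent.T156.Mul_55

/-!
# Row 156: bounds of mixed words by moments (helper55)

Every word `WdO M U TEf` whose letters are dominated by functions of finitely many size kernels
`T i` is bounded by moments of the `T i` under the two-replica laws (Young and Hölder forms).
-/

set_option autoImplicit false
set_option linter.all false

noncomputable section

namespace Crest.Agent.T156.Cas.Mul55

open MeasureTheory Real Set Filter Topology
open Crest.Agent.T157.E Crest.Agent.T157.Casc Crest.Agent.T157.SL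
open Tay38 Wt87

variable {Ω : Type} {ι : Type} [Fintype ι]

theorem Nv_sum (M : List (Lv Ω)) (B : ι → ℝ) (g : ι → ℕ → ℝ) (s : Sh) :
    Nv M (fun j => ∑ i, B i * g i j) s = ∑ i, B i * Nv M (g i) s := by
  have e : ∀ a b : s.Lf, (if a = b then 0 else ∑ i, B i * g i (s.shr a b M.length)) =
      ∑ i, B i * if a = b then 0 else g i (s.shr a b M.length) := fun a b => by
    split_ifs <;> simp
  simp only [Nv, prs, e, mul_add, Finset.sum_add_distrib, Finset.mul_sum]
  congr 1
  · rw [Finset.sum_comm (s := Finset.univ (α := ι))]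
    exact Finset.sum_congr rfl fun a _ => Finset.sum_comm
  · rw [Finset.sum_comm]
    simp only [mul_left_comm]

/-- the letter `p.1` is dominated by the function `p.2` of the sizes -/
def Dom (K : ℕ) (T : ι → ℕ → Ω → Ω → ℝ) (p : (ℕ → Ω → Ω → ℝ) × ((ι → ℝ) → ℝ)) : Prop :=
  ∀ j ≤ K, ∀ x y d, (∀ i, T i j x y ≤ d i) → |p.1 j x y| ≤ p.2 d

variable [Fintype Ω] {w : Ω → ℝ} {M : List (Lv Ω)} {T : ι → ℕ → Ω → Ω → ℝ}

theorem word_le (hw : Wt w) (hM : Mono 0 M) (hT : ∀ i j x y, 0 ≤ T i j x y) (h : Ω → ℝ)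
    (q : ι → ℕ) {Q : ℕ} (hQ : ∀ i, q i ≤ Q) {B : ι → ℝ} (hB : ∀ i, 0 ≤ B i) {R : ℝ} :
    ∀ (U : List ((ℕ → Ω → Ω → ℝ) × ((ι → ℝ) → ℝ))), (∀ p ∈ U, Dom M.length T p) →
      ∀ (s : Sh) (F A : (s.Lf → Ω) → ℝ), (Fintype.card s.Lf : ℝ) + 2 * U.length ≤ R →
      (∀ x, 0 ≤ A x) → (∀ x d, (∀ i, Dv M.length (T i) s x ≤ d i) →
        |F x| * (U.map fun p => p.2 d).prod ≤ A x + ∑ i, B i * d i ^ (q i + 1)) →
      |WdO M (U.map Prod.fst) (TEf w M h) s F| ≤ (53 * R ^ 3) ^ U.length * R ^ (2 * Q) *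
        (TE w s M h A + ∑ i, B i * momT w M h (T i) (q i + 1) s) := by
  set g₀ : ι → ℕ → ℝ := fun i j => pi2 w M j (fun x y => T i j x y ^ (q i + 1)) h with hg0
  have hg₀ : ∀ i j, 0 ≤ g₀ i j := fun i j => pi2_nonneg hw M j (fun x y => pow_nonneg (hT i j x y) _) h
  set g : ℕ → ℝ := fun j => ∑ i, B i * g₀ i j with hg'
  have hg : ∀ j, 0 ≤ g j := fun j => Finset.sum_nonneg fun i _ => mul_nonneg (hB i) (hg₀ i j)
  have eN : ∀ s, ∑ i, B i * momT w M h (T i) (q i + 1) s = Nv M g s := fun s =>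
    (Nv_sum M B g₀ s).symm
  have hA : ∀ (s : Sh) (A : (s.Lf → Ω) → ℝ), (∀ x, 0 ≤ A x) → 0 ≤ TE w s M h A := fun s A hA =>
    (Law.TE_const hw s M h 0).symm.trans_le (Law.TE_mono hw s M h hA)
  intro U
  induction U with
  | nil =>
    intro _ s F A hR hA0 H
    have r1 := one_le_card s
    rw [List.length_nil, Nat.cast_zero, mul_zero, add_zero] at hR
    have h1 : 1 ≤ R ^ (2 * Q) := one_le_pow₀ (r1.trans hR)
    refine (Law.abs_TE_le hw s M h F).trans ((Law.TE_mono hw s M h fun x => by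
      simpa using H x _ fun _ => le_rfl).trans ?_)
    rw [Law.TE_add hw, Law.TE_sum hw, List.length_nil, pow_zero, one_mul, mul_add, Finset.mul_sum]
    refine add_le_add (le_mul_of_one_le_left (hA s A hA0) h1) (Finset.sum_le_sum fun i _ => ?_)
    rw [Law.TE_const_mul hw, mul_left_comm]
    have h2 : (Fintype.card s.Lf : ℝ) ^ (2 * q i) ≤ R ^ (2 * Q) :=
      (pow_le_pow_left₀ (by positivity) hR _).trans
        (pow_le_pow_right₀ (r1.trans hR) (by have := hQ i; omega))
    exact mul_le_mul_of_nonneg_left ((TE_Dv_pow hw (hT i) hM h (q i) s).trans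
      (mul_le_mul_of_nonneg_right h2 (Nv_nonneg hM (hg₀ i) s))) (hB i)
  | cons p U ih =>
    intro hU s F A hR hA0 H
    have r1 := one_le_card s
    rw [List.length_cons] at hR
    push_cast at hR
    have hk : (0 : ℝ) ≤ U.length := Nat.cast_nonneg _
    have R0 : 0 ≤ R := by linarith
    set C := (53 * R ^ 3) ^ U.length * R ^ (2 * Q) with hC
    have C0 : 0 ≤ C := by positivity
    have key : ∀ (s' : Sh) (e : s.Lf → s'.Lf) (c d : s'.Lf) (i : ℕ), c ≠ d →
        s'.shr c d M.length = i → (Fintype.card s'.Lf : ℝ) ≤ Fintype.card s.Lf + 2 →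
        TE w s' M h (fun x => A fun b => x (e b)) = TE w s M h A →
        (∀ k, ∀ x : s'.Lf → Ω, Dv M.length (T k) s (fun b => x (e b)) ≤ Dv M.length (T k) s' x) →
        |WdO M (U.map Prod.fst) (TEf w M h) s' fun x => F (fun b => x (e b)) * p.1 i (x c) (x d)| ≤
          C * TE w s M h A + C * Nv M g s' := fun s' e c d i hcd hi h1 h2 h3 => by
      refine (ih (fun r hr => hU r (List.mem_cons_of_mem _ hr)) s' _ (fun x => A fun b => x (e b))
        (by linarith) (fun x => hA0 _) fun x d' hd => ?_).trans (by rw [h2, eN, mul_add])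
      refine le_trans ?_ (H _ d' fun k => (h3 k x).trans (hd k))
      have hiK : i ≤ M.length := hi ▸ Wt87.shr_le s' c d _
      have h0 : ∀ k, T k i (x c) (x d) ≤ d' k := fun k => le_trans (hi ▸ le_prs s'
        (G := fun a b => T k (s'.shr a b M.length) (x a) (x b)) (fun _ _ => hT _ _ _ _) hcd) (hd k)
      have h4 := hU p List.mem_cons_self i hiK _ _ d' h0
      have h5 : 0 ≤ (U.map fun p => p.2 d').prod := List.prod_nonneg fun y hy => by
        obtain ⟨r, hr, rfl⟩ := List.mem_map.1 hy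
        exact (abs_nonneg _).trans (hU r (List.mem_cons_of_mem _ hr) i hiK _ _ d' h0)
      rw [abs_mul, List.map_cons, List.prod_cons, mul_assoc]
      gcongr
    rw [List.map_cons, WdO_cons, eN]
    refine (abs_Dop_le hM hg s F (mul_nonneg C0 (hA s A hA0)) C0
      fun s' e c d i hcd hi H' => ?_).trans ?_
    · rcases H' with ⟨rfl, rfl⟩ | ⟨a, j, rfl, rfl⟩ | ⟨a, j, a', j', rfl, rfl⟩
      · exact key s id c d i hcd hi (by linarith) rfl fun _ _ => le_rfl
      · exact key _ _ c d i hcd hi (by rw [card_graft]; push_cast; linarith)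
          (TE_graft hw s a j M h A) fun k => Dv_graft (hT k) _ s a j
      · exact key _ _ c d i hcd hi (by rw [card_graft, card_graft]; push_cast; linarith)
          ((TE_graft hw _ a' j' M h fun x => A fun b => x (s.emb a j b)).trans
            (TE_graft hw s a j M h A))
          fun k x => (Dv_graft (hT k) _ s a j fun b => x ((s.graft a j).emb a' j' b)).trans
            (Dv_graft (hT k) _ _ a' j' x)
    · have h1 : (Fintype.card s.Lf : ℝ) ^ 3 ≤ R ^ 3 := by gcongr; linarith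
      have h2 := hA s A hA0
      have h3 := Nv_nonneg hM hg s
      calc _ ≤ 53 * R ^ 3 * (C * TE w s M h A + C * Nv M g s) := by gcongr
        _ = _ := by rw [hC, List.length_cons]; ring

/-- **Young form on any shape** -/
theorem abs_WdO_young (hw : Wt w) (hM : Mono 0 M) (hT : ∀ i j x y, 0 ≤ T i j x y) (h : Ω → ℝ)
    (q : ι → ℕ) {Q : ℕ} (hQ : ∀ i, q i ≤ Q) {B : ι → ℝ} (hB : ∀ i, 0 ≤ B i)
    {U : List ((ℕ → Ω → Ω → ℝ) × ((ι → ℝ) → ℝ))} (hU : ∀ p ∈ U, Dom M.length T p)
    (s : Sh) {F A : (s.Lf → Ω) → ℝ} (hA : ∀ x, 0 ≤ A x)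
    (H : ∀ x d, (∀ i, Dv M.length (T i) s x ≤ d i) →
      |F x| * (U.map fun p => p.2 d).prod ≤ A x + ∑ i, B i * d i ^ (q i + 1)) :
    |WdO M (U.map Prod.fst) (TEf w M h) s F| ≤ cTay U.length Q (Fintype.card s.Lf) *
      (TE w s M h A + ∑ i, B i * momT w M h (T i) (q i + 1) s) :=
  word_le hw hM hT h q hQ hB U hU s F A le_rfl hA H

theorem mom0_nonneg (hw : Wt w) (hM : Mono 0 M) {S : ℕ → Ω → Ω → ℝ} (hS : ∀ j x y, 0 ≤ S j x y)
    (h : Ω → ℝ) (p : ℕ) : 0 ≤ mom0 w M h S p :=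
  N0_nonneg hM fun j => pi2_nonneg hw M j (fun x y => pow_nonneg (hS j x y) _) h

/-- a two-replica test at one level -/
theorem abs_twoF_word (hw : Wt w) (hM : Mono 0 M) (hT : ∀ i j x y, 0 ≤ T i j x y) (h : Ω → ℝ)
    (q : ι → ℕ) {Q : ℕ} (hQ : ∀ i, q i ≤ Q) {A : ℝ} {B : ι → ℝ} (hA : 0 ≤ A) (hB : ∀ i, 0 ≤ B i)
    {p : (ℕ → Ω → Ω → ℝ) × ((ι → ℝ) → ℝ)} {U : List ((ℕ → Ω → Ω → ℝ) × ((ι → ℝ) → ℝ))}
    (hU : ∀ r ∈ p :: U, Dom M.length T r)
    (H : ∀ d : ι → ℝ, (∀ i, 0 ≤ d i) →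
      ((p :: U).map fun r => r.2 d).prod ≤ A + ∑ i, B i * d i ^ (q i + 1))
    {j : ℕ} (hj : j ≤ M.length) :
    |twoF j (p.1 j) (WdO M (U.map Prod.fst) (TEf w M h))| ≤ cTay U.length Q 2 *
      (A + ∑ i, B i * (2 * pi2 w M j (fun x y => T i j x y ^ (q i + 1)) h +
        mom0 w M h (T i) (q i + 1))) := by
  have := abs_WdO_young hw hM hT h q hQ hB (fun r hr => hU r (List.mem_cons_of_mem _ hr)) (Sh.two j)
    (F := fun x => p.1 j (x (Sh.twoL j)) (x (Sh.twoR j))) (A := fun _ => A) (fun _ => hA)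
    fun x d hd => by
      have h0 : ∀ k, T k j (x (Sh.twoL j)) (x (Sh.twoR j)) ≤ d k := fun k => by
        refine le_trans ?_ (hd k)
        rw [Dv, Tay38.prs_two, Wt87.shr_two, min_eq_left hj]
        exact le_add_of_nonneg_right (hT _ _ _ _)
      refine le_trans ?_ (H d fun k => (hT _ _ _ _).trans (h0 k))
      rw [List.map_cons, List.prod_cons]
      refine mul_le_mul_of_nonneg_right (hU p List.mem_cons_self j hj _ _ d h0)
        (List.prod_nonneg fun y hy => ?_)
      obtain ⟨r, hr, rfl⟩ := List.mem_map.1 hy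
      exact (abs_nonneg _).trans (hU r (List.mem_cons_of_mem _ hr) j hj _ _ d h0)
  simp only [Wt87.card_two, momT_two M h _ _ hj, Law.TE_const hw] at this
  exact this

/-- **Young form for the symmetric forms** -/
theorem abs_Lam_le (hw : Wt w) (hM : Mono 0 M) (hT : ∀ i j x y, 0 ≤ T i j x y) (h : Ω → ℝ)
    (q : ι → ℕ) {Q : ℕ} (hQ : ∀ i, q i ≤ Q) {A : ℝ} {B : ι → ℝ} (hA : 0 ≤ A) (hB : ∀ i, 0 ≤ B i)
    {U : List ((ℕ → Ω → Ω → ℝ) × ((ι → ℝ) → ℝ))} (hU : ∀ r ∈ U, Dom M.length T r)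
    (H : ∀ d : ι → ℝ, (∀ i, 0 ≤ d i) → (U.map fun r => r.2 d).prod ≤ A + ∑ i, B i * d i ^ (q i + 1)) :
    |Lam w M h (U.map Prod.fst)| ≤ cTay (U.length - 1) Q 2 *
      (A + 3 * ∑ i, B i * mom0 w M h (T i) (q i + 1)) := by
  have h0 : 0 ≤ ∑ i, B i * mom0 w M h (T i) (q i + 1) :=
    Finset.sum_nonneg fun i _ => mul_nonneg (hB i) (mom0_nonneg hw hM (hT i) h _)
  cases U with
  | nil =>
    have := cTay_nonneg 0 Q 2
    simp only [List.map_nil, Lam, abs_zero, List.length_nil]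
    positivity
  | cons p U =>
    have h1 : ∑ j ∈ Finset.range (M.length + 1), dm M 0 j ≤ 1 := Tay38.sum_dm_one hM 0 _
    have hc := cTay_nonneg U.length Q 2
    have h3 : ∀ j ∈ Finset.range (M.length + 1),
        |dm M 0 j * twoF j (p.1 j) (WdO M (U.map Prod.fst) (TEf w M h))| ≤
          dm M 0 j * (cTay U.length Q 2 * (A + ∑ i, B i *
            (2 * pi2 w M j (fun x y => T i j x y ^ (q i + 1)) h + mom0 w M h (T i) (q i + 1)))) :=
      fun j hj => by
        rw [abs_mul, abs_of_nonneg (dm_nonneg hM j)]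
        exact mul_le_mul_of_nonneg_left (abs_twoF_word hw hM hT h q hQ hA hB hU H
          (Nat.lt_succ_iff.1 (Finset.mem_range.1 hj))) (dm_nonneg hM j)
    rw [List.map_cons, Lam_cons, List.length_cons, Nat.add_sub_cancel]
    refine (Finset.abs_sum_le_sum_abs _ _).trans ((Finset.sum_le_sum h3).trans ?_)
    have e : ∀ j, dm M 0 j * (cTay U.length Q 2 * (A + ∑ i, B i *
        (2 * pi2 w M j (fun x y => T i j x y ^ (q i + 1)) h + mom0 w M h (T i) (q i + 1)))) =
        cTay U.length Q 2 * 2 *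
          (∑ i, B i * (dm M 0 j * pi2 w M j (fun x y => T i j x y ^ (q i + 1)) h)) +
        dm M 0 j * (cTay U.length Q 2 * (A + ∑ i, B i * mom0 w M h (T i) (q i + 1))) := fun j => by
      simp only [mul_add, Finset.sum_add_distrib, Finset.mul_sum]
      rw [add_left_comm]
      congr 2
      exact funext fun i => by ring
    simp only [e, Finset.sum_add_distrib, ← Finset.mul_sum, ← Finset.sum_mul]
    rw [Finset.sum_comm]
    simp only [← Finset.mul_sum]
    have h2 := mul_le_mul_of_nonneg_right h1 (mul_nonneg hc (add_nonneg hA h0))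
    change _ * (∑ i, B i * mom0 w M h (T i) (q i + 1)) + _ ≤ _
    linarith

/-! ### monomial letters, Hölder form -/

theorem prod_pow_le {α : Type} (a : α → ι) (e : α → ℕ) {y : ι → ℝ} (hy : ∀ i, 0 ≤ y i) {m : ℝ}
    (hm : ∀ i, y i ≤ m) : ∀ f : List α, (f.map fun r => y (a r) ^ e r).prod ≤ m ^ (f.map e).sum
  | [] => by simp
  | r :: f => by
      rw [List.map_cons, List.prod_cons, List.map_cons, List.sum_cons, pow_add]
      refine mul_le_mul (pow_le_pow_left₀ (hy _) (hm _) _) (prod_pow_le a e hy hm f)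
        (List.prod_nonneg fun z hz => ?_) (pow_nonneg ((hy _).trans (hm (a r))) _)
      obtain ⟨r, -, rfl⟩ := List.mem_map.1 hz
      exact pow_nonneg (hy _) _

theorem prod_pow_le_sum {α : Type} (a : α → ι) (e : α → ℕ) {y : ι → ℝ} (hy : ∀ i, 0 ≤ y i)
    {f : List α} (hf : f ≠ []) :
    (f.map fun r => y (a r) ^ e r).prod ≤ ∑ i, y i ^ (f.map e).sum := by
  obtain ⟨r, -⟩ := List.exists_mem_of_ne_nil f hf
  obtain ⟨i, -, hi⟩ := Finset.exists_max_image Finset.univ y ⟨a r, Finset.mem_univ _⟩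
  exact (prod_pow_le a e hy (fun k => hi k (Finset.mem_univ _)) f).trans
    (Finset.single_le_sum (f := fun i => y i ^ (f.map e).sum) (fun k _ => pow_nonneg (hy k) _)
      (Finset.mem_univ i))

/-- **Hölder form**: the letter `S r` is at most `c r * T (a r) ^ e r`, the total degree is
`q + 1`, and `N i` is any positive scale -/
theorem abs_Lam_scale (hw : Wt w) (hM : Mono 0 M) (hT : ∀ i j x y, 0 ≤ T i j x y) (h : Ω → ℝ)
    {α : Type} (S : α → ℕ → Ω → Ω → ℝ) (c : α → ℝ) (a : α → ι) (e : α → ℕ) (f : List α)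
    (hc : ∀ r ∈ f, 0 ≤ c r)
    (hS : ∀ r ∈ f, ∀ j ≤ M.length, ∀ x y, |S r j x y| ≤ c r * T (a r) j x y ^ e r)
    {q : ℕ} (hq : (f.map e).sum = q + 1) {N : ι → ℝ} (hN : ∀ i, 0 < N i) :
    |Lam w M h (f.map S)| ≤ 3 * cTay (f.length - 1) q 2 * (f.map fun r => c r * N (a r) ^ e r).prod *
      ∑ i, mom0 w M h (T i) (q + 1) / N i ^ (q + 1) := by
  set P := (f.map fun r => c r * N (a r) ^ e r).prod with hP
  have P0 : 0 ≤ P := List.prod_nonneg fun z hz => by
    obtain ⟨r, hr, rfl⟩ := List.mem_map.1 hz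
    exact mul_nonneg (hc r hr) (pow_nonneg (hN _).le _)
  have hf : f ≠ [] := by rintro rfl; simp at hq
  have := abs_Lam_le hw hM hT h (fun _ => q) (Q := q) (fun _ => le_rfl) (A := 0)
    (B := fun i => P / N i ^ (q + 1)) le_rfl (fun i => div_nonneg P0 (pow_nonneg (hN i).le _))
    (U := f.map fun r => (S r, fun d => c r * d (a r) ^ e r)) (fun p hp => by
      obtain ⟨r, hr, rfl⟩ := List.mem_map.1 hp
      exact fun j hj x y d hd => (hS r hr j hj x y).trans (mul_le_mul_of_nonneg_left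
        (pow_le_pow_left₀ (hT _ _ _ _) (hd _) _) (hc r hr))) fun d hd => by
      have h1 := prod_pow_le_sum a e (y := fun i => d i / N i)
        (fun i => div_nonneg (hd i) (hN i).le) hf
      have h2 : (List.map (fun r => c r * d (a r) ^ e r) f).prod =
          P * (f.map fun r => (d (a r) / N (a r)) ^ e r).prod := by
        rw [hP, ← List.prod_map_mul]
        congr 1
        refine List.map_congr_left fun r _ => ?_
        rw [mul_assoc, ← mul_pow, mul_div_cancel₀ _ (hN _).ne']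
      rw [List.map_map, zero_add]
      refine h2.trans_le ((mul_le_mul_of_nonneg_left h1 P0).trans_eq ?_)
      rw [hq, Finset.mul_sum]
      exact Finset.sum_congr rfl fun i _ => by rw [div_pow]; ring
  rw [List.map_map, List.length_map, zero_add] at this
  refine this.trans_eq ?_
  simp only [Finset.mul_sum]
  exact Finset.sum_congr rfl fun i _ => by ring


/-- **one size kernel**: a word of total degree `q + 1` is bounded by the moment of order `q + 1` -/
theorem abs_Lam_deg (hw : Wt w) (hM : Mono 0 M) {T : ℕ → Ω → Ω → ℝ} (hT : ∀ j x y, 0 ≤ T j x y)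
    (h : Ω → ℝ) {α : Type} (S : α → ℕ → Ω → Ω → ℝ) (c : α → ℝ) (e : α → ℕ) (f : List α)
    (hc : ∀ r ∈ f, 0 ≤ c r) (hS : ∀ r ∈ f, ∀ j ≤ M.length, ∀ x y, |S r j x y| ≤ c r * T j x y ^ e r)
    {q : ℕ} (hq : (f.map e).sum = q + 1) :
    |Lam w M h (f.map S)| ≤ 3 * cTay (f.length - 1) q 2 * (f.map c).prod * mom0 w M h T (q + 1) := by
  simpa using abs_Lam_scale (ι := Unit) (T := fun _ => T) hw hM (fun _ => hT) h S c (fun _ => ()) e f
    hc hS hq (N := fun _ => 1) fun _ => one_pos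

/-! ### the one path -/

section op
variable {n : ℕ} {β : ℝ} {M : List (ℝ × ℝ × ℝ)} {q : ℕ → ℝ} {C : Type} [DecidableEq C]

/-- `|U|` on the levels of a set of splits -/
def aU (n : ℕ) (q : ℕ → ℝ) (I : ℕ → Prop) [DecidablePred I] :
    ℕ → Cube n × Bool → Cube n × Bool → ℝ := fun j x y => if I j then |oU q j x.1 y.1| else 0

theorem aU_nonneg (I : ℕ → Prop) [DecidablePred I] (j : ℕ) (x y : Cube n × Bool) :
    0 ≤ aU n q I j x y := by
  unfold aU
  split_ifs
  exacts [abs_nonneg _, le_rfl]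

/-- the moments of `U` in the bulk, on a set of splits -/
def mU (n : ℕ) (β : ℝ) (M : List (ℝ × ℝ × ℝ)) (q : ℕ → ℝ) (I : ℕ → Prop) [DecidablePred I]
    (p : ℕ) : ℝ := ∑ j ∈ Finset.range (M.length + 1), if I j then dm (M.map (mxL n β)) 0 j *
      pi2 (fun _ => 1) (M.map (mxL n β)) j (fun x y => |oU q j x y| ^ p) 0 else 0

theorem mono_op (hM : Mono 0 (M.map (mxL n β))) (θ : ℝ) : Mono 0 (op n β M q θ) :=
  Cav22.mono_tilt (tilt_op θ).symm hM

theorem mom0_aU (hn : 0 < n) (H : OOk M q) (I : ℕ → Prop) [DecidablePred I] (p : ℕ) :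
    mom0 (fun _ => 1) (op n β M q 0) 0 (aU n q I) (p + 1) = mU n β M q I (p + 1) := by
  simp only [mom0, mU, op_length, Cav22.dm_tilt (tilt_op (q := q) 0)]
  refine Finset.sum_congr rfl fun j _ => ?_
  by_cases h : I j
  · have := pi2_op_zero (β := β) hn H 0 0 j (fun x y => |oU q j x y| ^ (p + 1)) fun _ _ => 1
    rw [Law.ad_zero, pi2_const wt_one90] at this
    simp only [mul_one] at this
    simp only [aU, h, if_true, this]
  · simp only [aU, h, if_false, zero_pow (Nat.succ_ne_zero p), pi2_const wt_one90, mul_zero]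

theorem dg_pos (a : C × Bool) : 0 < dg a := by unfold dg; split_ifs <;> norm_num

/-- a letter is at most `τ |U| ^ dg` on any set of splits that contains its cell -/
theorem abs_lt_le (H : OOk M q) (cl : ℕ → C) (a : C × Bool) (I : ℕ → Prop) [DecidablePred I]
    (hI : ∀ j, cl j = a.1 → I j) {j : ℕ} (hj : j ≤ M.length) (x y : Cube n × Bool) :
    |ten (lt n β M q cl a) j x y| ≤ oTau n β M M.length * aU n q I j x y ^ dg a := by
  obtain ⟨t0, t1⟩ := H.oTau_le n β j
  by_cases h : cl j = a.1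
  · obtain ⟨c, b⟩ := a
    have h2 := abs_oE_le H hj x.2 y.2
    have h3 := abs_nonneg (oU q j x.1 y.1)
    simp only [ten, lt, cut, aU, h, hI j h, if_true]
    cases b
    · simp only [oUb, oZs, dg, mul_one, abs_mul, abs_neg, abs_pow, abs_div, abs_of_nonneg t0]
      norm_num
      rw [← sq_abs]
      nlinarith [sq_nonneg |oU q j x.1 y.1|]
    · simp only [oUb, oZs, dg, abs_mul, abs_div, abs_of_nonneg t0]
      norm_num
      calc _ ≤ oTau n β M j / 2 * |oU q j x.1 y.1| * 2 := by gcongr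
        _ = oTau n β M j * |oU q j x.1 y.1| := by ring
        _ ≤ _ := by gcongr
  · simp only [ten, lt, cut, h, if_false, Pi.zero_apply, zero_mul, abs_zero]
    exact mul_nonneg (t0.trans t1) (pow_nonneg (aU_nonneg I j x y) _)

theorem prod_const' {α : Type} (f : List α) (c : ℝ) : (f.map fun _ => c).prod = c ^ f.length := by
  simp

/-- **a word of total degree `p + 1`, at any `θ`** -/
theorem abs_word_deg (H : OOk M q) (hM : Mono 0 (M.map (mxL n β))) (cl : ℕ → C)
    (f : List (C × Bool)) (I : ℕ → Prop) [DecidablePred I] (hI : ∀ a ∈ f, ∀ j, cl j = a.1 → I j)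
    {p : ℕ} (hp : (f.map dg).sum = p + 1) (θ : ℝ) :
    |Lam (fun _ => 1) (op n β M q θ) 0 (f.map fun a => ten (lt n β M q cl a))| ≤
      3 * cTay (f.length - 1) p 2 * oTau n β M M.length ^ f.length *
        mom0 (fun _ => 1) (op n β M q θ) 0 (aU n q I) (p + 1) := by
  have := abs_Lam_deg wt_one90 (mono_op (q := q) hM θ) (aU_nonneg I) 0
    (fun a => ten (lt n β M q cl a)) (fun _ => oTau n β M M.length) dg f
    (fun _ _ => (H.oTau_le n β _).1)
    (fun a ha j hj => abs_lt_le H cl a I (hI a ha) (by rwa [op_length] at hj)) hp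
  rwa [prod_const'] at this

/-- **the term of a word is bounded by the bulk moment of its total degree** -/
theorem abs_tm_deg (hn : 0 < n) (H : OOk M q) (hM : Mono 0 (M.map (mxL n β))) (cl : ℕ → C)
    (f : List (C × Bool)) (I : ℕ → Prop) [DecidablePred I] (hI : ∀ a ∈ f, ∀ j, cl j = a.1 → I j)
    {p : ℕ} (hp : (f.map dg).sum = p + 1) :
    |tm n β M q cl f| ≤ 3 * cTay (f.length - 1) p 2 * oTau n β M M.length ^ f.length *
      mU n β M q I (p + 1) := by
  rw [← mom0_aU hn H]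
  exact abs_word_deg H hM cl f I hI hp 0




/-- higher moments are bounded by lower ones -/
theorem mU_succ_le (H : OOk M q) (hM : Mono 0 (M.map (mxL n β))) (I : ℕ → Prop) [DecidablePred I]
    (p k : ℕ) : mU n β M q I (p + k) ≤ 2 ^ k * mU n β M q I p := by
  rw [mU, mU, Finset.mul_sum]
  refine Finset.sum_le_sum fun j hj => ?_
  split_ifs
  · rw [mul_left_comm, ← pi2_const_mul _ _ _ _ (2 ^ k)]
    refine mul_le_mul_of_nonneg_left (Crest.Agent.T157.Casc.pi2_mono (Ω := Cube n) wt_one90 _ j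
      (fun x y => ?_) 0) (dm_nonneg hM j)
    rw [pow_add, mul_comm]
    exact mul_le_mul_of_nonneg_right (pow_le_pow_left₀ (abs_nonneg _)
      (abs_oU_le H (Nat.lt_succ_iff.1 (Finset.mem_range.1 hj)) x y) k) (by positivity)
  · simp

theorem mU_nonneg (hM : Mono 0 (M.map (mxL n β))) (I : ℕ → Prop) [DecidablePred I] (p : ℕ) :
    0 ≤ mU n β M q I p := Finset.sum_nonneg fun j _ => by
  split_ifs
  · exact mul_nonneg (dm_nonneg hM j) (pi2_nonneg (Ω := Cube n) wt_one90 _ j
      (fun _ _ => pow_nonneg (abs_nonneg _) _) 0)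
  · exact le_rfl

end op

end Crest.Agent.T156.Cas.Mul55
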