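import Crest.Agent.T156.CWk_55
import Crest.Agent.T156.CErr_54

/-!
# Row 156, block C: the weak forms on one path for the `L²` inputs `Wk2` (helper40)
-/

set_option autoImplicit false
set_option linter.all false

noncomputable section

namespace Crest.Agent.T156.Cas.Cw55

open MeasureTheory Real Set Filter Topology
open Crest.Agent.T157.E Crest.Agent.T157.Casc Crest.Agent.T157.SL
open Crest.ProbabilityR.SpinGlassDynamics (spin)
open Wf99 Wt87 C40 Mul55

variable {D : CD} {τ0 : ℝ} {μ F f c : ℕ → ℝ} {j0 r m : ℕ} {B A : ℝ} {s : Sh}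
  {G : (NT s D.B → ℝ) → (s.Lf → Cube D.n) → ℝ}


/-- **one path, not centred**, `L²` inputs (replaces `path_env`) -/
theorem path_sq (H : D.Ok τ0) (W : D.Wk2 μ F f) (hj : D.J ≤ j0) (a : s.Lf)
    (hG : ∀ x, Eg fun g => G g x) (hc : DV D.dv j0 D.K B r c) (hm : m ≤ D.K) (hA : 0 ≤ A)
    (HA : tX (fun _ => 1) s D.B 0 (fun g x => G g x ^ 2) ≤ A ^ 2) :
    |∑ t ∈ Finset.Ico (j0 + 1) m, c t * (μ t * tX (fun _ => 1) s D.B 0 fun g x =>
        G g x * Yn D t (stT s D.B 0 g a t))| ≤ 2 * B * ((r + 1) * (A * D.fs F j0)) ∧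
    |∑ t ∈ Finset.Ico (j0 + 1) m, c t * (μ t * tX (fun _ => 1) s D.B 0 fun g x =>
        G g x * Yl D t (x a) (stT s D.B 0 g a t))| ≤ 2 * B * ((r + 1) * (A * D.fs F j0)) := by
  constructor <;> refine (abel (F := fun j => A * F j) (ε := 0) (fun t _ b => dv_nonneg H b.le) hc
    le_rfl (fun j => mul_nonneg hA (W.nn j).1) (fun j => mul_le_mul_of_nonneg_left (W.anti j).1 hA)
    (fun j x _ => ?_) hm).trans_eq (by rw [fz_mul, mul_zero, add_zero, fs_eq]) <;>
    rw [add_zero, ← tail_eq D (by omega : D.J < j)]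
  · exact tail_cen wt_one90 s a D.B 0 hG _ μ (Y := fun t _ z => Yn D t z)
      (fun t _ => eg_Yn D t) hA (W.nn j).1 HA (W.sqN j)
  · exact tail_cen wt_one90 s a D.B 0 hG _ μ (Y := Yl D) (eg_Yl D) hA (W.nn j).1 HA (W.sqL j)

end Crest.Agent.T156.Cas.Cw55

end
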