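import Crest.Agent.T156.CaSand_41
import Crest.Agent.T156.CaERicB_43

/-!
# Row 156: the tower property of the path law (helper43)

`glue L i g₀ g'` has the noise of `g₀` on the first `i` levels and the noise `g'` afterwards;
`Ad L i F` says that `F` depends on the first `i` levels only; `pE_le_of_glue` integrates a
conditional inequality.
-/

set_option autoImplicit false
set_option linter.unusedSectionVars false

noncomputable section

namespace Crest.Agent.T156.Cas.LpR43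

open MeasureTheory Real Set Filter Topology
open Crest.Agent.T157.E Crest.Agent.T157.Casc Crest.Agent.T157.SL
open Crest.Agent.R339.Guerra (mp_int mp_sum)

variable {Ω : Type}

/-- past noise from `g₀`, future noise `g'` -/
def glue : (L : List (Lv Ω)) → (i : ℕ) → (NI L → ℝ) → (NI (L.drop i) → ℝ) → NI L → ℝ
  | _, 0, _, g' => g'
  | [], _ + 1, g₀, _ => g₀
  | _ :: L, i + 1, g₀, g' =>
      Sum.elim (fun a => g₀ (.inl a)) (glue L i (fun a => g₀ (.inr a)) g')

theorem glue_zero (L : List (Lv Ω)) (g₀ : NI L → ℝ) (g' : NI (L.drop 0) → ℝ) :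
    glue L 0 g₀ g' = g' := by cases L <;> rfl

theorem st_glue_le : ∀ (L : List (Lv Ω)) (i j : ℕ) (h : Ω → ℝ) (g₀ : NI L → ℝ)
    (g' : NI (L.drop i) → ℝ), j ≤ i → st L j h (glue L i g₀ g') = st L j h g₀
  | L, _, 0, h, _, _, _ => by rw [Pe.st_zero, Pe.st_zero]
  | [], _ + 1, _ + 1, _, _, _, _ => rfl
  | l :: L, i + 1, j + 1, h, g₀, g', hj =>
    st_glue_le L i j _ (fun a => g₀ (.inr a)) g' (Nat.le_of_succ_le_succ hj)

theorem st_glue_add : ∀ (L : List (Lv Ω)) (i d : ℕ) (h : Ω → ℝ) (g₀ : NI L → ℝ)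
    (g' : NI (L.drop i) → ℝ), st L (i + d) h (glue L i g₀ g') = st (L.drop i) d (st L i h g₀) g'
  | L, 0, d, h, g₀, g' => by rw [glue_zero, Pe.st_zero, zero_add]; rfl
  | [], i + 1, d, h, g₀, g' => by rw [Pe.st_nil, Pe.st_nil]; exact (Pe.st_nil _ _ _).symm
  | l :: L, i + 1, d, h, g₀, g' => by
    rw [show i + 1 + d = i + d + 1 by omega]
    exact st_glue_add L i d _ (fun a => g₀ (.inr a)) g'

theorem st_glue (L : List (Lv Ω)) {i j : ℕ} (hij : i ≤ j) (h : Ω → ℝ) (g₀ : NI L → ℝ)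
    (g' : NI (L.drop i) → ℝ) :
    st L j h (glue L i g₀ g') = st (L.drop i) (j - i) (st L i h g₀) g' := by
  rw [← st_glue_add, Nat.add_sub_cancel' hij]




/-- `F` depends on the first `i` levels only -/
def Ad (L : List (Lv Ω)) (i : ℕ) {α : Type*} (F : (NI L → ℝ) → α) : Prop :=
  ∀ g₀ g', F (glue L i g₀ g') = F g₀

section ad
variable {L : List (Lv Ω)} {i : ℕ} {α β γ : Type*}

theorem Ad.const (L : List (Lv Ω)) (i : ℕ) (c : α) : Ad L i fun _ => c := fun _ _ => rfl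

theorem Ad.st (L : List (Lv Ω)) {i j : ℕ} (hj : j ≤ i) (h : Ω → ℝ) (Φ : (Ω → ℝ) → α) :
    Ad L i fun g => Φ (st L j h g) := fun g₀ g' => by simp only [st_glue_le L i j h g₀ g' hj]

theorem Ad.comp {F : (NI L → ℝ) → α} (hF : Ad L i F) (φ : α → β) : Ad L i fun g => φ (F g) :=
  fun g₀ g' => by simp only [hF g₀ g']

theorem Ad.comp₂ {F : (NI L → ℝ) → α} {G : (NI L → ℝ) → β} (hF : Ad L i F) (hG : Ad L i G)
    (φ : α → β → γ) : Ad L i fun g => φ (F g) (G g) := fun g₀ g' => by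
  simp only [hF g₀ g', hG g₀ g']

theorem Ad.pi {κ : Type*} {F : (NI L → ℝ) → κ → α} (hF : ∀ k, Ad L i fun g => F g k) :
    Ad L i F := fun g₀ g' => funext fun k => hF k g₀ g'

theorem Ad.sum {κ : Type*} (s : Finset κ) {F : κ → (NI L → ℝ) → ℝ} (hF : ∀ k ∈ s, Ad L i (F k)) :
    Ad L i fun g => ∑ k ∈ s, F k g := fun g₀ g' => Finset.sum_congr rfl fun k hk => hF k hk g₀ g'

theorem glue_glue : ∀ (L : List (Lv Ω)) (i j : ℕ) (g₀ : NI L → ℝ) (g' : NI (L.drop j) → ℝ),
    i ≤ j → ∃ g'', glue L j g₀ g' = glue L i g₀ g''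
  | L, 0, j, g₀, g', _ => ⟨glue L j g₀ g', (glue_zero L g₀ _).symm⟩
  | [], _ + 1, _ + 1, _, g', _ => ⟨g', rfl⟩
  | _ :: L, i + 1, j + 1, g₀, g', hj => by
    obtain ⟨g'', e⟩ := glue_glue L i j (fun a => g₀ (.inr a)) g' (Nat.le_of_succ_le_succ hj)
    exact ⟨g'', congrArg (Sum.elim _) e⟩

theorem Ad.mono {F : (NI L → ℝ) → α} (hF : Ad L i F) {j : ℕ} (hj : i ≤ j) : Ad L j F :=
  fun g₀ g' => by
    obtain ⟨g'', e⟩ := glue_glue L i j g₀ g' hj
    rw [e, hF]

end ad

variable [Fintype Ω] {w : Ω → ℝ}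

theorem int_cons (hw : Wt w) (l : Lv Ω) (L : List (Lv Ω)) (h : Ω → ℝ)
    (F : (NI (l :: L) → ℝ) → Ω → ℝ) (hF : ∀ x, Eg fun g => F g x) :
    Integrable (fun g => exp (l.m * X w L (h + l.fld g)) *
      pE w L (h + l.fld g) (fun g' => F (Sum.elim g g'))) (gv l.ι) := by
  have h1 := ((mp_sum (ι := l.ι) (κ := NI L)).integrable_comp_of_integrable
    (Pe.int_pE hw (l :: L) h hF)).integral_prod_left
  have hZ := ((lg_X hw L).Z_pos l h).ne'
  have hd := Pe.den_cons hw l L h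
  generalize ∫ g, exp (l.m * X w L (h + l.fld g)) ∂gv l.ι = Z at hZ hd
  refine (h1.const_mul Z).congr (.of_forall fun g => ?_)
  simp only [pE, Function.comp]
  rw [← integral_const_mul, ← integral_const_mul]
  refine integral_congr_ae (.of_forall fun g' => ?_)
  simp only [hd, Finset.mul_sum]
  exact Finset.sum_congr rfl fun x _ => by field_simp

/-- **tower property**: a conditional inequality is integrated -/
theorem pE_le_of_glue (hw : Wt w) : ∀ (i : ℕ) (L : List (Lv Ω)) (h : Ω → ℝ)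
    (F G : (NI L → ℝ) → Ω → ℝ), (∀ x, Eg fun g => F g x) → (∀ x, Eg fun g => G g x) →
    (∀ g₀, pE w (L.drop i) (st L i h g₀) (fun g' => F (glue L i g₀ g')) ≤
      pE w (L.drop i) (st L i h g₀) fun g' => G (glue L i g₀ g')) → pE w L h F ≤ pE w L h G
  | 0, L, h, F, G, _, _, H => by
    have := H 0
    simp only [glue_zero, Pe.st_zero] at this
    exact this
  | i + 1, [], h, F, G, _, _, H => by
    have := H fun i => i.elim
    rw [Pe.pE_nil hw, Pe.pE_nil hw]
    rw [Pe.st_nil] at this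
    exact (Pe.pE_nil hw h fun _ => F fun i => i.elim).symm.trans_le
      (this.trans_eq (Pe.pE_nil hw h fun _ => G fun i => i.elim))
  | i + 1, l :: L, h, F, G, hF, hG, H => by
    rw [Pe.pE_cons hw l L h F hF, Pe.pE_cons hw l L h G hG]
    refine div_le_div_of_nonneg_right (integral_mono (int_cons hw l L h F hF)
      (int_cons hw l L h G hG) fun g => mul_le_mul_of_nonneg_left ?_ (exp_pos _).le)
      ((lg_X hw L).Z_pos l h).le
    exact pE_le_of_glue hw i L _ _ _ (fun x => Pe.eg_elim (hF x) g) (fun x => Pe.eg_elim (hG x) g)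
      fun g₀ => H (Sum.elim g g₀)

theorem pE_mono' (hw : Wt w) (L : List (Lv Ω)) (h : Ω → ℝ) {F G : (NI L → ℝ) → Ω → ℝ}
    (hF : ∀ x, Eg fun g => F g x) (hG : ∀ x, Eg fun g => G g x) (e : ∀ g x, F g x ≤ G g x) :
    pE w L h F ≤ pE w L h G :=
  integral_mono (Pe.int_pE hw L h hF) (Pe.int_pE hw L h hG) fun g =>
    Finset.sum_le_sum fun x _ => mul_le_mul_of_nonneg_left (e g x) (Pe.den_nonneg hw L h g x)

theorem pE_add' (hw : Wt w) (L : List (Lv Ω)) (h : Ω → ℝ) {F G : (NI L → ℝ) → Ω → ℝ}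
    (hF : ∀ x, Eg fun g => F g x) (hG : ∀ x, Eg fun g => G g x) :
    pE w L h (fun g x => F g x + G g x) = pE w L h F + pE w L h G := by
  simp only [pE, mul_add, Finset.sum_add_distrib]
  exact integral_add (Pe.int_pE hw L h hF) (Pe.int_pE hw L h hG)

theorem pE_sum' (hw : Wt w) (L : List (Lv Ω)) (h : Ω → ℝ) {κ : Type*} (s : Finset κ)
    {F : κ → (NI L → ℝ) → Ω → ℝ} (hF : ∀ k ∈ s, ∀ x, Eg fun g => F k g x) :
    pE w L h (fun g x => ∑ k ∈ s, F k g x) = ∑ k ∈ s, pE w L h (F k) := by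
  simp only [pE, Finset.mul_sum]
  rw [← integral_finsetSum _ fun k hk => Pe.int_pE hw L h (hF k hk)]
  exact integral_congr_ae (.of_forall fun g => Finset.sum_comm)



/-- **Markov property** with an adapted factor -/
theorem pE_markov (hw : Wt w) {i j : ℕ} (hij : i ≤ j) (L : List (Lv Ω)) (h : Ω → ℝ)
    {G : (NI L → ℝ) → ℝ} (hG : Eg G) (aG : Ad L i G) {Φ : (Ω → ℝ) → ℝ} (hΦ : Eg Φ) :
    pE w L h (fun g _ => G g * Φ (st L j h g)) =
      pE w L h fun g _ => G g * node w (L.drop i) (j - i) Φ (st L i h g) := by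
  have e1 := hG.mul (Pe.eg_st L h j hΦ)
  have e2 := hG.mul (Pe.eg_st L h i (hΦ.node hw (L.drop i) (j - i)))
  have key : ∀ g₀, pE w (L.drop i) (st L i h g₀)
      (fun g' _ => G (glue L i g₀ g') * Φ (st L j h (glue L i g₀ g'))) =
      pE w (L.drop i) (st L i h g₀) fun g' _ => G (glue L i g₀ g') *
        node w (L.drop i) (j - i) Φ (st L i h (glue L i g₀ g')) := fun g₀ => by
    simp only [aG g₀, st_glue L hij, st_glue_le L i i h g₀ _ le_rfl, Sy41.pE_const hw]
    rw [Pe.pE_const_mul w _ _ (G g₀) fun g' _ => Φ (st (L.drop i) (j - i) (st L i h g₀) g'),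
      Pe.pE_node1 hw hΦ]
  exact le_antisymm
    (pE_le_of_glue hw i L h _ _ (fun _ => e1) (fun _ => e2) fun g₀ => (key g₀).le)
    (pE_le_of_glue hw i L h _ _ (fun _ => e2) (fun _ => e1) fun g₀ => (key g₀).ge)


end Crest.Agent.T156.Cas.LpR43

end
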