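import Crest.Agent.T156.WfB_99
import Crest.Agent.T156.LpT_43
import Crest.Agent.T156.NuC_87
import Crest.Agent.T156.Eg_33

-- ▼ part T156/WfC_99
section

/-!
# Row 156 (helper99): one edge in weak form, the site factor

`cf_site`: the site factor of a rank-one edge is an admissible coefficient (martingale
orthogonality along the path).  Closure properties of admissible coefficients.
-/

set_option autoImplicit false
set_option linter.unusedSectionVars false

noncomputable section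

namespace Crest.Agent.T156.Cas

open MeasureTheory Real Set Filter Topology
open Crest.Agent.T157.E Crest.Agent.T157.Casc Crest.Agent.T157.SL

namespace Wf99

open Wt87

/-! ### closure -/

theorem BV.mono {n : ℕ} {B V B' V' : ℝ} {β : ℕ → ℝ} (h : BV n B V β) (hB : B ≤ B') (hV : V ≤ V') :
    BV n B' V' β := ⟨fun k hk => (h.1 k hk).trans hB, h.2.trans hV⟩

theorem BV.congr {n : ℕ} {B V : ℝ} {β β' : ℕ → ℝ} (h : BV n B V β) (e : ∀ k ≤ n, β' k = β k) :
    BV n B V β' := by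
  refine ⟨fun k hk => e k hk ▸ h.1 k hk, le_of_eq_of_le (Finset.sum_congr rfl fun k hk => ?_) h.2⟩
  have := Finset.mem_range.1 hk
  rw [e k (by omega), e (k + 1) (by omega)]

theorem BV.add {n : ℕ} {B V B' V' : ℝ} {β β' : ℕ → ℝ} (h : BV n B V β) (h' : BV n B' V' β') :
    BV n (B + B') (V + V') fun k => β k + β' k := by
  refine ⟨fun k hk => (abs_add_le _ _).trans (add_le_add (h.1 k hk) (h'.1 k hk)), ?_⟩
  refine le_trans ?_ (add_le_add h.2 h'.2)
  rw [← Finset.sum_add_distrib]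
  exact Finset.sum_le_sum fun k _ => by
    rw [add_sub_add_comm]; exact abs_add_le _ _

theorem BV.mul {n : ℕ} {B V B' V' : ℝ} {β β' : ℕ → ℝ} (h : BV n B V β) (h' : BV n B' V' β') :
    BV n (B * B') (V * B' + B * V') fun k => β k * β' k := by
  have hB : 0 ≤ B := (abs_nonneg _).trans (h.1 0 (Nat.zero_le _))
  have hB' : 0 ≤ B' := (abs_nonneg _).trans (h'.1 0 (Nat.zero_le _))
  refine ⟨fun k hk => by
    rw [abs_mul]; exact mul_le_mul (h.1 k hk) (h'.1 k hk) (abs_nonneg _) hB, ?_⟩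
  refine le_trans ?_ (add_le_add (mul_le_mul_of_nonneg_right h.2 hB')
    (mul_le_mul_of_nonneg_left h'.2 hB))
  rw [Finset.sum_mul, Finset.mul_sum, ← Finset.sum_add_distrib]
  refine Finset.sum_le_sum fun k hk => ?_
  have := Finset.mem_range.1 hk
  rw [show β (k + 1) * β' (k + 1) - β k * β' k =
    (β (k + 1) - β k) * β' (k + 1) + β k * (β' (k + 1) - β' k) by ring]
  refine (abs_add_le _ _).trans (add_le_add ?_ ?_) <;> rw [abs_mul]
  · exact mul_le_mul_of_nonneg_left (h'.1 _ (by omega)) (abs_nonneg _)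
  · exact mul_le_mul_of_nonneg_right (h.1 _ (by omega)) (abs_nonneg _)


theorem Cf.mono {s : Sh} {n : ℕ} {B V B' V' : ℝ} {c : GT s → ℝ} (h : Cf n B V c) (hB : B ≤ B')
    (hV : V ≤ V') : Cf n B' V' c :=
  ⟨h.inv, fun τ hτ => (h.bd τ hτ).trans hB, fun b => (h.v1 b).mono hB hV,
    fun a j hj => (h.v2 a j hj).mono hB hV, fun a => (h.v3 a).mono hB hV⟩

theorem Cf.add {s : Sh} {n : ℕ} {B V B' V' : ℝ} {c c' : GT s → ℝ} (h : Cf n B V c)
    (h' : Cf n B' V' c') : Cf n (B + B') (V + V') fun τ => c τ + c' τ :=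
  ⟨h.inv.comp₂ h'.inv (· + ·),
    fun τ hτ => (abs_add_le _ _).trans (add_le_add (h.bd τ hτ) (h'.bd τ hτ)),
    fun b => (h.v1 b).add (h'.v1 b), fun a j hj => (h.v2 a j hj).add (h'.v2 a j hj),
    fun a => (h.v3 a).add (h'.v3 a)⟩

theorem Cf.mul {s : Sh} {n : ℕ} {B V B' V' : ℝ} {c c' : GT s → ℝ} (h : Cf n B V c)
    (h' : Cf n B' V' c') : Cf n (B * B') (V * B' + B * V') fun τ => c τ * c' τ :=
  ⟨h.inv.mul h'.inv, fun τ hτ => by
      rw [abs_mul]
      exact mul_le_mul (h.bd τ hτ) (h'.bd τ hτ) (abs_nonneg _) ((abs_nonneg _).trans (h.bd τ hτ)),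
    fun b => (h.v1 b).mul (h'.v1 b), fun a j hj => (h.v2 a j hj).mul (h'.v2 a j hj),
    fun a => (h.v3 a).mul (h'.v3 a)⟩



/-! ### the martingale of a function of one leaf -/

variable {Ω Θ : Type} [Fintype Ω] {w : Ω → ℝ}



theorem abs_Pf_le' (hw : Wt w) (L : List (Lv Ω)) (z : Ω → ℝ) {f : Ω → ℝ} {κ : ℝ}
    (hf : ∀ y, |f y| ≤ κ) : |Pf w L z f| ≤ κ := by
  refine (Finset.abs_sum_le_sum_abs _ _).trans ((Finset.sum_le_sum (g := fun y => P w L z y * κ)
    fun y _ => ?_).trans_eq (by rw [← Finset.sum_mul, sum_P hw, one_mul]))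
  rw [abs_mul, abs_of_nonneg (P_nonneg hw L z y)]
  exact mul_le_mul_of_nonneg_left (hf y) (P_nonneg hw L z y)















end Wf99

end Crest.Agent.T156.Cas

end
end

-- ▼ part T156/Wf_99

/-!
# Row 156 (helper99): one edge in weak form, usable forms

`sg_gm` (hypothesis `GmB`, bounded invariant coefficient), `cf_site2` (site kernels
`u_j f f' + v_j`), and the product forms `abs_Dop_prd`, `abs_nuc_Dr`, `abs_nu_Dr`.
-/

set_option autoImplicit false
set_option linter.unusedSectionVars false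

noncomputable section

namespace Crest.Agent.T156.Cas

open MeasureTheory Real Set Filter Topology
open Crest.Agent.T157.E Crest.Agent.T157.Casc Crest.Agent.T157.SL

namespace Wf99

open Wt87 Eg33

variable {Ω Θ : Type} [Fintype Ω] {w : Ω → ℝ}


theorem gq_mem {s : Sh} {n : ℕ} {c : GT s → ℝ} (I : Inv n c) (a : s.Lf) {j k : ℕ} (hj : j ≤ n)
    (hk : k ≤ n) : ∃ τ : GT s, τ.Mem s n ∧ τ.j = k ∧ c (gq s a j k) = c τ := by
  rcases le_total k j with e | e
  · refine ⟨_, .g2 a a hj hk, ?_, (I.i2 a j a k e hj (shr_self _ _ _)).symm⟩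
    show s.shr a a (min j k) = k
    rw [shr_self, min_eq_right e]
  · obtain ⟨i, rfl⟩ : ∃ i, k = i + j := ⟨k - j, by omega⟩
    exact ⟨_, .g3 a hk, rfl, rfl⟩

theorem wk_gm (hw : Wt w) (s : Sh) (a : s.Lf) (L : List (Lv Ω)) (h : Ω → ℝ)
    (F : (s.Lf → Ω) → ℝ) {S : Finset ℕ} {g c : ℕ → ℝ} {Y : ℕ → Ω → (Ω → ℝ) → ℝ}
    (hY : ∀ j x, Eg (Y j x)) {B A Γ : ℝ} (hB : 0 ≤ B) (hA : 0 ≤ A) (hΓ : 0 ≤ Γ)
    (hg : ∀ j, 0 ≤ g j) (hS : ∀ j ≤ L.length, j ∉ S → g j = 0)
    (hc : ∀ j ≤ L.length, |c j| ≤ B * g j) (HA : TE w s L h (fun x => F x ^ 2) ≤ A ^ 2)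
    (H : ∀ φ : ℕ → ℝ, (∀ y, |φ y| ≤ g y) → pE w L h (fun p x =>
      (∑ y ∈ S, dm L 0 y * φ y * Y y x (st L y h p)) ^ 2) ≤ Γ ^ 2) :
    Wk L (B * (A * Γ)) fun j => c j *
      tX w s L h fun g x => F x * Y j (x a) (stT s L h g a j) := fun m hm => by
  have h1 := abs_path_le hw s a L h F S (fun y => dm L 0 y * if y < m then c y / B else 0) hY hA hΓ
    HA (H _ fun y => by
      split_ifs with e
      · rw [abs_div, abs_of_nonneg hB]
        exact div_le_of_le_mul₀ hB (hg y) ((hc y (by omega)).trans_eq (mul_comm _ _))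
      · rw [abs_zero]; exact hg y)
  refine le_of_eq_of_le ?_ (mul_le_mul_of_nonneg_left h1 hB)
  rw [← abs_of_nonneg hB, ← abs_mul, abs_of_nonneg hB, Finset.mul_sum]
  congr 1
  have z : ∀ j ≤ L.length, B * g j = 0 → c j = 0 := fun j hj e =>
    abs_nonpos_iff.1 ((hc j hj).trans_eq e)
  rw [← Finset.sum_subset (Finset.inter_subset_left (s₁ := Finset.range m) (s₂ := S)),
    ← Finset.sum_subset (Finset.inter_subset_right (s₁ := Finset.range m) (s₂ := S))]
  · refine Finset.sum_congr rfl fun y hy => ?_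
    have hy' := Finset.mem_range.1 (Finset.mem_inter.1 hy).1
    rw [if_pos hy']
    rcases hB.eq_or_lt with e | e
    · have := z y (by omega) (by rw [← e, zero_mul])
      simp [this]
    · field_simp
  · intro y hy hy'
    rw [if_neg fun e => hy' (Finset.mem_inter.2 ⟨Finset.mem_range.2 e, hy⟩)]
    simp
  · intro y hy hy'
    have := Finset.mem_range.1 hy
    have := z y (by omega)
      (by rw [hS y (by omega) fun e => hy' (Finset.mem_inter.2 ⟨hy, e⟩), mul_zero])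
    simp [this]

/-- **one edge in weak form**, bounded invariant coefficient, hypothesis `GmB` -/
theorem sg_gm (hw : Wt w) {s : Sh} {M : List (Lv Θ)} (hM : Mono 0 M) {L : List (Lv Ω)}
    (e : M.map Lv.m = L.map Lv.m) (h : Ω → ℝ) {K : ℕ → Ω → Ω → ℝ}
    (hK : ∀ j x y, K j x y = K j y x) (F : (s.Lf → Ω) → ℝ) {c : GT s → ℝ} (I : Inv L.length c)
    {S : Finset ℕ} {g : ℕ → ℝ} {B A Γ α : ℝ} (hB : 0 ≤ B) (hA : 0 ≤ A) (hΓ : 0 ≤ Γ) (hα : 0 ≤ α)
    (hg : ∀ j, 0 ≤ g j) (hS : ∀ j ≤ L.length, j ∉ S → g j = 0)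
    (hc : ∀ τ : GT s, τ.Mem s L.length → |c τ| ≤ B * g τ.j)
    (HA : TE w s L h (fun x => F x ^ 2) ≤ A ^ 2) (H : GmB w L h K S g Γ)
    (HO : ∀ τ : GT s, τ.Mem s L.length → Old s L.length τ.j →
      |c τ * TE w τ.sh L h (τ.ev K F)| ≤ α) :
    |sg (-1) M s fun τ => c τ * TE w τ.sh L h (τ.ev K F)| ≤
      (Fintype.card s.Lf : ℝ) ^ 2 * (14 * (B * (A * Γ)) + 9 * α) := by
  have cq : ∀ a {j k}, j ≤ L.length → k ≤ L.length → |c (gq s a j k)| ≤ B * g k :=
    fun a j k hj hk => by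
      obtain ⟨τ, h1, h2, h3⟩ := gq_mem I a hj hk
      rw [h3, ← h2]
      exact hc τ h1
  have y1 : ∀ j x, Eg fun z => Pf w (L.drop j) z (K j x) := fun j x => eg_Pf hw _ _
  rw [sg_tilt _ e]
  refine sg_weak (Cav22.mono_tilt e hM) (I.mul (inv_TE hw s L h hK F _)) hα HO (fun b => ?_)
    (fun a j hj => ?_) fun a => ?_
  · simp only [g1_eq hw, shr_self]
    exact wk_gm hw s b L h F y1 hB hA hΓ hg hS (fun j hj => (hc _ (.g1 b b hj)).trans_eq
      (congrArg (fun k => B * g k) (shr_self s b j))) HA fun φ hφ => (H φ hφ).1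
  · refine (wk_gm hw (s.graft a j) (s.nw a j) L h (fun x => F fun c => x (s.emb a j c)) y1 hB hA hΓ
      hg hS (fun k hk => cq a hj hk) ((TE_emb hw s a j L h fun x => F x ^ 2).trans_le HA)
      fun φ hφ => (H φ hφ).1).congr fun k _ => congrArg _ ?_
    refine Eq.trans ?_ ((g1_eq hw (s.graft a j) (s.nw a j) k (s.nw a j) L h (fun _ => K k)
      fun x => F fun c => x (s.emb a j c)))
    rfl
  · simp only [gq_eq hw s a le_rfl]
    exact wk_gm hw s a L h F (Y := fun j _ z => qf (P w (L.drop j) z) (K j))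
      (fun j _ => eg_qf hw _ _) hB hA hΓ hg hS (fun j hj => cq a hj hj) HA fun φ hφ => (H φ hφ).2


section prd

variable {Ω₁ Ω₂ : Type} [Fintype Ω₁] [Fintype Ω₂] {w₁ : Ω₁ → ℝ} {w₂ : Ω₂ → ℝ}
  {L : List (Lv (Ω₁ × Ω₂))} {T : List (Lv Ω₁ × Lv Ω₂)}




variable {r : ℕ}




end prd

end Wf99

end Crest.Agent.T156.Cas

end
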