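import Crest.Agent.T156.CLink_87
import Crest.Agent.T156.CQ2A_10
import Crest.Agent.T156.CWk_55
import Crest.Agent.T156.CWk2_40
import Crest.Agent.T156.C3n_47
import Crest.Agent.T156.Cub_94

-- ▼ part T156/CUbA_4
section

/-!
# Row 156, block C: a marked pair and one more edge, tree forms and crude parts (helper4)
-/

set_option autoImplicit false
set_option linter.all false

noncomputable section

namespace Crest.Agent.T156.Cas.Ub4

open Finset
open Crest.Agent.T157.E Crest.Agent.T157.Casc Crest.Agent.T157.SL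
open Nu87 Q75 Wt87 Tay38

theorem inj3 {α : Type} {a b c : α} (h1 : a ≠ b) (h2 : a ≠ c) (h3 : b ≠ c) :
    Function.Injective ![a, b, c] := by
  intro i j h
  fin_cases i <;> fin_cases j <;> simp_all [h1.symm, h2.symm, h3.symm]

theorem inj4 {α : Type} {a b c d : α} (h1 : a ≠ b) (h2 : a ≠ c) (h3 : a ≠ d) (h4 : b ≠ c)
    (h5 : b ≠ d) (h6 : c ≠ d) : Function.Injective ![a, b, c, d] := by
  intro i j h
  fin_cases i <;> fin_cases j <;>
    simp_all [h1.symm, h2.symm, h3.symm, h4.symm, h5.symm, h6.symm]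

theorem shr_two' (j k : ℕ) : (Sh.two j).shr (Sh.twoR j) (Sh.twoL j) k = min j k :=
  (shr_comm _ _ _ _).trans (shr_two j k)

section tree
variable {Ω : Type} [Fintype Ω] {w : Ω → ℝ} (hw : Wt w) (L : List (Lv Ω)) (h : Ω → ℝ)
  (S S' : ℕ → Ω → Ω → ℝ)
include hw

/-- the free end is the leaf -/
theorem lo_leaf {y x : ℕ} (e : y ≤ x) (hx : x ≤ L.length) :
    (ee w L h S S').lo L.length y x (L.length + 1) = tX w (Sh.two y) L h fun g ξ =>
      S' y (ξ (Sh.twoR y)) (ξ (Sh.twoL y)) *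
        Pf w (L.drop x) (stT (Sh.two y) L h g (Sh.twoL y) x) (S x (ξ (Sh.twoL y))) := by
  have hσ : m3 L.length y y x = sm ((Sh.two y).graft (Sh.twoL y) x)
      ![(Sh.two y).emb (Sh.twoL y) x (Sh.twoR y), (Sh.two y).emb (Sh.twoL y) x (Sh.twoL y),
        (Sh.two y).nw (Sh.twoL y) x] L.length := by
    funext a b
    fin_cases a <;> fin_cases b <;>
      simp [m3, sm, shr_self, shr_emb, shr_nw, shr_nw', shr_two, shr_two'] <;> omega
  have h1 := TM_sm hw _ L h (inj3 ((emb_inj (Sh.two y) (Sh.twoL y) x).ne (two_ne y).symm)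
    (emb_ne _ _ _ _) (emb_ne _ _ _ _)) fun u => S x (u 1) (u 2) * S' y (u 0) (u 1)
  rw [← hσ] at h1
  rw [Tw.lo, if_pos rfl, ← (Cw55.three hw (Sh.two y) L h S
    (fun ξ => S' y (ξ (Sh.twoR y)) (ξ (Sh.twoL y))) (Sh.twoL y)).1 x]
  refine h1.trans (congrArg (TE w _ L h) (funext fun ξ => ?_))
  simp only [GT.ev, GT.g1, shr_self]
  exact mul_comm _ _

/-- the free end leaves the path at `t` -/
theorem lo_node {y x t : ℕ} (e : y ≤ x) (hx : x ≤ L.length) (e' : y ≤ t) (ht : t ≤ L.length) :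
    (ee w L h S S').lo L.length y x t = tX w ((Sh.two y).graft (Sh.twoL y) t) L h fun g ξ =>
      S' y (ξ ((Sh.two y).nw (Sh.twoL y) t)) (ξ ((Sh.two y).emb (Sh.twoL y) t (Sh.twoR y))) *
        Pf w (L.drop x) (stT _ L h g ((Sh.two y).emb (Sh.twoL y) t (Sh.twoL y)) x)
          (S x (ξ ((Sh.two y).emb (Sh.twoL y) t (Sh.twoL y)))) := by
  set s := (Sh.two y).graft (Sh.twoL y) t with hs
  set a : s.Lf := (Sh.two y).emb (Sh.twoL y) t (Sh.twoL y) with ha
  set b : s.Lf := (Sh.two y).emb (Sh.twoL y) t (Sh.twoR y) with hb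
  set c : s.Lf := (Sh.two y).nw (Sh.twoL y) t with hc
  have ab : ∀ k, s.shr a b k = min y k := fun k => (shr_emb _ _ _ _ _ _).trans (shr_two _ _)
  have ac : ∀ k, s.shr a c k = min t k := fun k => (shr_nw _ _ _ _ _).trans (shr_self _ _ _)
  have bc : ∀ k, s.shr b c k = min y (min t k) := fun k => (shr_nw _ _ _ _ _).trans (shr_two' _ _)
  have ba := fun k => (shr_comm s b a k).trans (ab k)
  have ca := fun k => (shr_comm s c a k).trans (ac k)
  have cb := fun k => (shr_comm s c b k).trans (bc k)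
  have hσ : m4 L.length y x t (min t x) y y = sm (s.graft a x)
      ![s.emb a x c, s.emb a x b, s.emb a x a, s.nw a x] L.length := by
    funext i j
    fin_cases i <;> fin_cases j <;>
      simp [m4, sm, shr_self, shr_emb, shr_nw, shr_nw', ab, ac, bc, ba, ca, cb] <;> omega
  have n1 : c ≠ b := (emb_ne _ _ _ _).symm
  have n2 : c ≠ a := (emb_ne _ _ _ _).symm
  have n3 : b ≠ a := (emb_inj (Sh.two y) (Sh.twoL y) t).ne (two_ne y).symm
  have h1 := TM_sm hw _ L h (inj4 ((emb_inj s a x).ne n1) ((emb_inj s a x).ne n2) (emb_ne _ _ _ _)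
    ((emb_inj s a x).ne n3) (emb_ne _ _ _ _) (emb_ne _ _ _ _))
    fun u => S x (u 2) (u 3) * S' y (u 0) (u 1)
  rw [← hσ] at h1
  rw [Tw.lo, if_neg (by omega), ← (Cw55.three hw s L h S (fun ξ => S' y (ξ c) (ξ b)) a).1 x]
  refine h1.trans (congrArg (TE w _ L h) (funext fun ξ => ?_))
  simp only [GT.ev, GT.g1, shr_self]
  exact mul_comm _ _

/-- the free end leaves at the node of the pair -/
theorem lo_diag {y x : ℕ} (e : y ≤ x) (hx : x ≤ L.length) :
    (ee w L h S S').lo L.length y x x = tX w (Sh.two y) L h fun g ξ =>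
      S' y (ξ (Sh.twoL y)) (ξ (Sh.twoR y)) *
        qf (P w (L.drop x) (stT (Sh.two y) L h g (Sh.twoL y) x)) (S x) := by
  set s := (Sh.two y).graft (Sh.twoL y) x with hs
  set a : s.Lf := (Sh.two y).emb (Sh.twoL y) x (Sh.twoL y) with ha
  set b : s.Lf := (Sh.two y).emb (Sh.twoL y) x (Sh.twoR y) with hb
  set c : s.Lf := (Sh.two y).nw (Sh.twoL y) x with hc
  have ab : ∀ k, s.shr a b k = min y k := fun k => (shr_emb _ _ _ _ _ _).trans (shr_two _ _)
  have ac : ∀ k, s.shr a c k = min x k := fun k => (shr_nw _ _ _ _ _).trans (shr_self _ _ _)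
  have bc : ∀ k, s.shr b c k = min y (min x k) := fun k => (shr_nw _ _ _ _ _).trans (shr_two' _ _)
  have ba := fun k => (shr_comm s b a k).trans (ab k)
  have ca := fun k => (shr_comm s c a k).trans (ac k)
  have cb := fun k => (shr_comm s c b k).trans (bc k)
  have hσ : m4 L.length y x x (min x x) y y = sm (s.graft c x)
      ![s.emb c x a, s.emb c x b, s.emb c x c, s.nw c x] L.length := by
    funext i j
    fin_cases i <;> fin_cases j <;>
      simp [m4, sm, shr_self, shr_emb, shr_nw, shr_nw', ab, ac, bc, ba, ca, cb] <;> omega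
  have n1 : b ≠ c := emb_ne _ _ _ _
  have n2 : a ≠ c := emb_ne _ _ _ _
  have n3 : a ≠ b := (emb_inj (Sh.two y) (Sh.twoL y) x).ne (two_ne y)
  have h1 := TM_sm hw _ L h (inj4 ((emb_inj s c x).ne n3) ((emb_inj s c x).ne n2) (emb_ne _ _ _ _)
    ((emb_inj s c x).ne n1) (emb_ne _ _ _ _) (emb_ne _ _ _ _))
    fun u => S x (u 2) (u 3) * S' y (u 0) (u 1)
  rw [← hσ] at h1
  rw [Tw.lo, if_neg (by omega), ← (Cw55.three hw (Sh.two y) L h S
    (fun ξ => S' y (ξ (Sh.twoL y)) (ξ (Sh.twoR y))) (Sh.twoL y)).2.2 x]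
  refine h1.trans (congrArg (TE w _ L h) (funext fun ξ => ?_))
  simp only [GT.ev, Wf99.gq]
  exact mul_comm _ _

end tree

section alg
variable {Θ : Type} {L : List (Lv Θ)} (hM : Mono 0 L) {T : Tw}
include hM

theorem dm_le_ex (y : ℕ) : dm L 0 y ≤ ex L y := by
  have h7 := sum_dm L 0 y
  have h8 := single_le_sum (f := fun j => dm L 0 j) (fun j _ => dm_nonneg hM j)
    (self_mem_range_succ y)
  linarith

theorem abs_LO {y x : ℕ} {b : ℝ} (e : y ≤ x) (hx : x ≤ L.length)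
    (h : ∀ t, y ≤ t → t ≤ L.length + 1 → |T.lo L.length y x t| ≤ b) : |LO L T y x| ≤ 10 * b := by
  have h1 := (A10.abs_Lg hM (e.trans hx) h).1
  have h1' := (A10.abs_Lg hM hx fun t a c => h t (e.trans a) c).2
  have h2 := h y le_rfl (by omega)
  have h5 : dm L 0 y + ex L y ≤ 2 := by linarith [dm_le_ex hM y, ex_le_one hM y]
  have h6 : |(dm L 0 y + ex L y) * T.lo L.length y x y| ≤ 2 * b := by
    rw [abs_mul, abs_of_nonneg (add_nonneg (dm_nonneg hM y) (A10.ex_nn hM y))]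
    exact mul_le_mul h5 h2 (abs_nonneg _) zero_le_two
  rw [LO, cP]
  rw [abs_le] at h1 h1' h6 ⊢
  constructor <;> linarith [h6.1, h6.2, h1.1, h1.2, h1'.1, h1'.2]

theorem abs_dm_sum (A : Finset ℕ) {F G : ℕ → ℝ} (h : ∀ k ∈ A, |F k| ≤ G k) :
    |∑ k ∈ A, dm L 0 k * F k| ≤ ∑ k ∈ A, dm L 0 k * G k :=
  (abs_sum_le_sum_abs _ _).trans (sum_le_sum fun k hk => by
    rw [abs_mul, abs_of_nonneg (dm_nonneg hM k)]
    exact mul_le_mul_of_nonneg_left (h k hk) (dm_nonneg hM k))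

/-- **the non-local part**: everything except the signed leg sums below the pair is crude -/
theorem NLx_le {J x : ℕ} (hJ : J < x) (hx : x ≤ L.length) {b c : ℕ → ℝ} (b0 : ∀ k, 0 ≤ b k)
    (bJ : ∀ k ≤ J, b k = 0) (c1 : ∀ k, J < k → k < x → ex L k ≤ c k) (c2 : ∀ k, x ≤ k → 1 ≤ c k)
    (h3 : ∀ σ : SM 3, Rz L.length σ → σ 1 2 = x → |T.f3 σ| ≤ b (σ 0 1))
    (h4 : ∀ σ : SM 4, Rz L.length σ → σ 2 3 = x → |T.f4 σ| ≤ b (σ 0 1)) :
    |NLx L T x + 2 * ∑ y ∈ Ioo J x, dm L 0 y * cP L T y y x| ≤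
      11 * ∑ k ∈ range (L.length + 1), dm L 0 k * (b k * c k) := by
  have bc : ∀ k, b k * min 1 (ex L k) ≤ b k * c k ∧ (x ≤ k → b k ≤ b k * c k) := fun k => by
    refine ⟨?_, fun e => le_mul_of_one_le_right (b0 k) (c2 k e)⟩
    rcases le_or_gt k J with e | e
    · rw [bJ k e, zero_mul, zero_mul]
    · refine mul_le_mul_of_nonneg_left ?_ (b0 k)
      rcases lt_or_ge k x with e' | e'
      exacts [(min_le_right _ _).trans (c1 k e e'), (min_le_left _ _).trans (c2 k e')]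
  have bc1 : ∀ k, b k * ex L k ≤ b k * c k := fun k => by
    have := (bc k).1
    rwa [min_eq_right (ex_le_one hM k)] at this
  have bc0 : ∀ k, 0 ≤ b k * c k := fun k => (mul_nonneg (b0 k) (A10.ex_nn hM k)).trans (bc1 k)
  have l1 : ∀ y ≤ x, ∀ t, y ≤ t → t ≤ L.length + 1 → |T.lo L.length y x t| ≤ b y :=
    fun y e t h1 h2 => by
      rw [Tw.lo]
      split_ifs with h
      exacts [h3 _ (rz_lo3 hx e) rfl, h4 _ (rz_lo4 hx e h1 (by omega)) rfl]
  have l2 : ∀ y, x ≤ y → y ≤ L.length → ∀ t, x ≤ t → t ≤ L.length + 1 →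
      |T.tr.lo L.length x y t| ≤ b y := fun y e hy t h1 h2 => by
    rw [Tw.lo]
    split_ifs with h
    exacts [h3 _ ((rz_lo3 hy e).re ![2, 1, 0]) rfl,
      h4 _ ((rz_lo4 hy e h1 (by omega)).re ![2, 3, 0, 1]) rfl]
  have s1 : |∑ y ∈ range (x + 1), dm L 0 y * LO L T y x +
      2 * ∑ y ∈ Ioo J x, dm L 0 y * cP L T y y x| ≤
      ∑ y ∈ range (x + 1), dm L 0 y * (10 * (b y * c y)) := by
    have e : 2 * ∑ y ∈ Ioo J x, dm L 0 y * cP L T y y x = ∑ y ∈ range (x + 1),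
        dm L 0 y * if y ∈ Ioo J x then 2 * cP L T y y x else 0 := by
      simp only [mul_ite, mul_zero]
      rw [← sum_filter, filter_mem_eq_inter, inter_eq_right.2 fun y hy => mem_range.2 (by
        have := mem_Ioo.1 hy; omega), mul_sum]
      exact sum_congr rfl fun _ _ => by ring
    rw [e, ← sum_add_distrib]
    simp only [← mul_add]
    refine abs_dm_sum hM _ fun y hy => ?_
    have hy' : y ≤ x := Nat.lt_succ_iff.1 (mem_range.1 hy)
    split_ifs with h
    · have e1 : LO L T y x + 2 * cP L T y y x = (dm L 0 y + ex L y) * T.lo L.length y x y := by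
        rw [LO]; ring
      rw [e1, abs_mul, abs_of_nonneg (add_nonneg (dm_nonneg hM y) (A10.ex_nn hM y))]
      have h1 := mul_le_mul (add_le_add (dm_le_ex hM y) (le_refl (ex L y)))
        (l1 y hy' y le_rfl (by omega)) (abs_nonneg _) (add_nonneg (A10.ex_nn hM y) (A10.ex_nn hM y))
      linarith [bc1 y, bc0 y]
    · rw [add_zero]
      refine (abs_LO hM hy' hx (l1 y hy')).trans (mul_le_mul_of_nonneg_left ?_ (by norm_num))
      rcases le_or_gt y J with e | e
      · rw [bJ y e, zero_mul]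
      · exact (bc y).2 (by rw [mem_Ioo] at h; omega)
  have s2 : |∑ y ∈ Ioc x L.length, dm L 0 y * LO L T.tr x y| ≤
      ∑ y ∈ Ioc x L.length, dm L 0 y * (10 * (b y * c y)) := abs_dm_sum hM _ fun y hy => by
    obtain ⟨h1, h2⟩ := mem_Ioc.1 hy
    exact (abs_LO hM h1.le h2 (l2 y h1.le h2)).trans
      (mul_le_mul_of_nonneg_left ((bc y).2 h1.le) (by norm_num))
  have s3 : |∑ z ∈ range x, dm L 0 z * ∑ k ∈ Ioc z L.length, dm L 0 k * T.off L.length z x k| ≤
      ∑ k ∈ range (L.length + 1), dm L 0 k * (b k * c k) := by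
    refine (abs_dm_sum hM _ (G := fun z => ∑ k ∈ range (L.length + 1),
      dm L 0 k * if z < k then b k else 0) fun z hz => ?_).trans ?_
    · refine (abs_dm_sum hM _ (G := fun k => if z < k then b k else 0) fun k hk => ?_).trans
        (sum_le_sum_of_subset_of_nonneg (fun k hk => mem_range.2 (by have := mem_Ioc.1 hk; omega))
          fun k _ _ => mul_nonneg (dm_nonneg hM k) (by split_ifs; exacts [b0 k, le_rfl]))
      obtain ⟨h1, h2⟩ := mem_Ioc.1 hk
      rw [if_pos h1]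
      exact h4 _ (rz_off hx (mem_range.1 hz).le h1.le h2) rfl
    · simp only [mul_sum]
      rw [sum_comm]
      refine sum_le_sum fun k _ => ?_
      simp only [mul_left_comm _ (dm L 0 k), ← mul_sum]
      refine mul_le_mul_of_nonneg_left (le_trans ?_ (bc1 k)) (dm_nonneg hM k)
      have h1 := sum_dm L 0 k
      rw [sub_zero] at h1
      rw [← h1, mul_sum]
      simp only [mul_ite, mul_zero, ← sum_filter, mul_comm (b k)]
      exact sum_le_sum_of_subset_of_nonneg (fun z hz => mem_range.2 (by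
        have := (mem_filter.1 hz).2; omega)) fun z _ _ => mul_nonneg (dm_nonneg hM z) (b0 k)
  have e2 : ∑ y ∈ range (x + 1), dm L 0 y * (10 * (b y * c y)) +
      ∑ y ∈ Ioc x L.length, dm L 0 y * (10 * (b y * c y)) =
      10 * ∑ k ∈ range (L.length + 1), dm L 0 k * (b k * c k) := by
    rw [← Finset.Ico_add_one_add_one_eq_Ioc, sum_range_add_sum_Ico _ (by omega), mul_sum]
    exact sum_congr rfl fun _ _ => by ring
  rw [NLx]
  rw [abs_le] at s1 s2 s3 ⊢
  constructor <;> linarith [s1.1, s1.2, s2.1, s2.2, s3.1, s3.2]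

/-- **the same node**: the signed weights add up to zero -/
theorem SN_le {x : ℕ} (hx : x ≤ L.length) {a b : ℝ}
    (h : ∀ t t', x ≤ t → t ≤ L.length + 1 → x ≤ t' → t' ≤ L.length + 1 →
      |T.sN L.length x t t' - a| ≤ b) : |SN L T x| ≤ 4 * b := by
  have e : ∀ g : ℕ → ℝ, Lx L x g = Lx L x fun t => g t - a := fun g => by
    simp only [Lx, Q75.Lg, mul_sub, sum_sub_distrib, ← sum_mul, A10.sum_dm_Ioc hx]
    ring
  refine ((A10.abs_Lg hM hx (b := 2 * b) fun t h1 h2 => ?_).2).trans_eq (by ring)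
  rw [e]
  exact (A10.abs_Lg hM hx (h t · h1 h2)).2

/-- **the weak form**: the leg sums against weights on the pairs above `y` -/
theorem cP_le {y : ℕ} (hy : y < L.length) {ω : ℕ → ℝ} {E : ℝ}
    (h1 : ∀ t, y < t → t ≤ L.length + 1 → ∀ m ≤ L.length,
      |∑ x ∈ Ico (y + 1) m, ω x * T.lo L.length y x t| ≤ E)
    (h2 : |∑ x ∈ Ico (y + 1) L.length, ex L x * (ω x * T.lo L.length y x x)| ≤ E) :
    |∑ x ∈ Ico (y + 1) L.length, ω x * cP L T y y x| ≤ 5 * E := by
  have E0 : 0 ≤ E := (abs_nonneg _).trans h2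
  have w1 : ∑ t ∈ Ioc y L.length, dm L 0 t * E ≤ E := by
    rw [← sum_mul, A10.sum_dm_Ioc hy.le]
    nlinarith [A10.ex_nn hM y]
  have a1 := h1 _ (by omega) le_rfl _ le_rfl
  have a2 := (abs_dm_sum hM (Ioc y L.length) fun t ht =>
    h1 t (mem_Ioc.1 ht).1 (by have := mem_Ioc.1 ht; omega) _ le_rfl).trans w1
  have a3 := (abs_dm_sum hM (Ioc y L.length) fun t ht =>
    h1 t (mem_Ioc.1 ht).1 (by have := mem_Ioc.1 ht; omega) t (mem_Ioc.1 ht).2).trans w1
  have e2 : ∑ t ∈ Ioc y L.length, dm L 0 t * ∑ x ∈ Ico (y + 1) L.length, ω x * T.lo L.length y x t =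
      ∑ x ∈ Ico (y + 1) L.length, ω x * ∑ t ∈ Ioc y L.length, dm L 0 t * T.lo L.length y x t := by
    simp only [mul_sum]
    rw [sum_comm]
    simp only [mul_left_comm]
  have e3 : ∑ t ∈ Ioc y L.length, dm L 0 t * ∑ x ∈ Ico (y + 1) t, ω x * T.lo L.length y x t =
      ∑ x ∈ Ico (y + 1) L.length, ω x * ∑ t ∈ Ioc x L.length, dm L 0 t * T.lo L.length y x t := by
    simp only [mul_sum]
    rw [sum_comm' (t' := Ico (y + 1) L.length) (s' := fun x => Ioc x L.length) fun t x => by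
      simp only [mem_Ioc, mem_Ico]; omega]
    simp only [mul_left_comm]
  have e : ∑ x ∈ Ico (y + 1) L.length, ω x * cP L T y y x =
      2 * ∑ x ∈ Ico (y + 1) L.length, ω x * T.lo L.length y x (L.length + 1) -
      ∑ x ∈ Ico (y + 1) L.length, ω x * ∑ t ∈ Ioc y L.length, dm L 0 t * T.lo L.length y x t -
      ∑ x ∈ Ico (y + 1) L.length, ω x * ∑ t ∈ Ioc x L.length, dm L 0 t * T.lo L.length y x t -
      ∑ x ∈ Ico (y + 1) L.length, ex L x * (ω x * T.lo L.length y x x) := by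
    rw [mul_sum, ← sum_sub_distrib, ← sum_sub_distrib, ← sum_sub_distrib]
    exact sum_congr rfl fun x _ => by rw [cP, Lx, Q75.Lg, Q75.Lg]; ring
  rw [e2] at a2
  rw [e3] at a3
  rw [e]
  rw [abs_le] at a1 a2 a3 h2 ⊢
  constructor <;> linarith [a1.1, a1.2, a2.1, a2.2, a3.1, a3.2, h2.1, h2.2]

end alg

end Crest.Agent.T156.Cas.Ub4

end
end

-- ▼ part T156/CStUb_4

/-!
# Row 156, block C: the marked pair and the letter `bU` (helper4)
-/

set_option autoImplicit false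
set_option linter.all false

noncomputable section

namespace Crest.Agent.T156.Cas.Ub4

open Finset
open Crest.Agent.T157.E Crest.Agent.T157.Casc Crest.Agent.T157.SL
open Nu87 Q75 Wt87 Tay38 Mul55 C40

/-- `-τ / 4` on UP -/
def ps (D : CD) (j : ℕ) : ℝ := if D.J < j then -(D.τ j / 4) else 0

/-- the bulk kernel of `bU` -/
def Sb (D : CD) : ℕ → Cube D.n → Cube D.n → ℝ := fun j x y => ps D j * oU D.q j x y ^ 2

/-- the two edges -/
def Tb (D : CD) : Tw := ee (fun _ => 1) D.B 0 (oU D.q) (Sb D)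

/-- the marked pair at `j` against the letter `bU` -/
def Rb (D : CD) (j : ℕ) : ℝ := twoF j (oU D.q j) (Dop D.B (Sb D) (TEf (fun _ => 1) D.B 0))

variable {D : CD} {τ0 : ℝ}

theorem lt_bU (D : CD) : (lt D.n D.β D.M D.q D.cl C40.bU).1 = Sb D := by
  funext j x y
  by_cases h : D.J < j
  · simp [lt, cut, CD.cl, Sb, ps, oUb, h]
  · simp [lt, cut, CD.cl, Sb, ps, h]

theorem tU_eq (D : CD) : D.tU [C40.bU] = ∑ j ∈ D.up, D.om j * Rb D j := by
  refine sum_congr rfl fun j _ => congrArg (D.om j * ·) ?_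
  rw [List.map_singleton, wB, Rb, twoF, Dop_eq_sg, lt_bU]
  refine sg_congr _ _ _ fun τ _ => ?_
  have e : τ.ev (lt D.n D.β D.M D.q D.cl C40.bU).2 (fun _ => (1 : ℝ)) = fun _ => 1 := by
    funext x
    simp [GT.ev, lt, oZs]
  rw [wB, oB, e]
  simp only [WdO, List.foldr_nil, TEf, Law.TE_const wt_one90, mul_one]
  rfl

theorem Sb_comm (D : CD) (j : ℕ) (x y : Cube D.n) : Sb D j x y = Sb D j y x := by
  rw [Sb, Sb, Cw55.oU_comm]

theorem Rb_eq (H : D.Ok τ0) {j : ℕ} (hj : j ≤ D.K) :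
    Rb D j = 2 * SN D.B (Tb D) j + NLx D.B (Tb D) j := by
  have hO : Sb D ∈ Mul55.Ok (Cube D.n) D.B.length := by
    rw [← lt_bU, D.B_len]
    exact cut_mem _ ⟨oUb_zero _, 0, oUb_diag H.pos H.ook _⟩
  have hj' : j ≤ D.B.length := D.B_len ▸ hj
  rw [Rb, L87.twoF_ex wt_one90 (Cw55.oU_comm D.q) (Sb_comm D) hO hj']
  exact expS _ _ _ (L87.ee_sy wt_one90 (Cw55.oU_comm D.q) (Sb_comm D)) j hj'

theorem abs_ps (H : D.Ok τ0) (j : ℕ) : |ps D j| ≤ τ0 / 4 := by
  have := H.tau_mem j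
  unfold ps
  split_ifs
  · rw [abs_neg, abs_of_nonneg (by linarith [this.1])]; linarith [this.2]
  · rw [abs_zero]; linarith [H.tau0]

section edge
variable {r : ℕ} {σ : SM r} {a b c d : Fin r}

theorem ed_eq (D : CD) (σ : SM r) (a b c d : Fin r) :
    TM (fun _ => 1) D.B 0 σ (fun x => ed (oU D.q) a b x σ * ed (Sb D) c d x σ) =
      ps D (σ c d) * TM (fun _ => 1) D.B 0 σ fun x => ∏ i : Fin 3,
        oU D.q (σ (![a, c, c] i) (![b, d, d] i)) (x (![a, c, c] i)) (x (![b, d, d] i)) := by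
  rw [← TM_mul]
  congr 1
  funext x
  simp only [ed, Sb, Fin.prod_univ_three, Matrix.cons_val_zero, Matrix.cons_val_one,
    Matrix.cons_val_two, Matrix.head_cons, Matrix.tail_cons]
  ring

/-- both edges at one node -/
theorem ed_same (H : D.Ok τ0) (hσ : Rz D.B.length σ) {t : ℕ} (ht : t ∈ D.up) (h1 : σ a b = t)
    (h2 : σ c d = t) (h3 : t ≤ σ a a) (h4 : t ≤ σ a c) :
    |TM (fun _ => 1) D.B 0 σ (fun x => ed (oU D.q) a b x σ * ed (Sb D) c d x σ) -
      ps D t * D.u3 t| ≤ τ0 / 4 * (48 * (D.e t * D.v t t) + 96 * D.tl) := by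
  have hab : ∀ i : Fin 3, σ (![a, c, c] i) (![b, d, d] i) = t := fun i => by
    fin_cases i
    exacts [h1, h2, h2]
  have := C3n47.cd3 H hσ (a := ![a, c, c]) (b := ![b, d, d]) ht hab fun i => by
    fin_cases i
    exacts [h3, h4, h4]
  rw [ed_eq, h2]
  simp only [hab]
  rw [← mul_sub, abs_mul]
  exact mul_le_mul (abs_ps H t) this (abs_nonneg _) (by linarith [H.tau0])

/-- the crude bound -/
def bb4 (D : CD) (τ0 : ℝ) (x k : ℕ) : ℝ :=
  if D.J < k then (if k = x then 2 * τ0 else τ0 * (D.g x * D.g k ^ 2)) else 0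

theorem ed_crude (H : D.Ok τ0) (hσ : Rz D.B.length σ) (hab : a ≠ b) (hcd : c ≠ d) :
    |TM (fun _ => 1) D.B 0 σ (fun x => ed (oU D.q) a b x σ * ed (Sb D) c d x σ)| ≤
      bb4 D τ0 (σ a b) (σ c d) := by
  have t0 := H.tau0
  have hne : ∀ i : Fin 3, ![a, c, c] i ≠ ![b, d, d] i := fun i => by
    fin_cases i
    exacts [hab, hcd, hcd]
  rw [ed_eq, bb4, abs_mul]
  split_ifs with h1 h2
  · have h3 := A10.abs_TM (h := 0) wt_one90 hσ (b := 8) (F := fun x => ∏ i : Fin 3,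
      oU D.q (σ (![a, c, c] i) (![b, d, d] i)) (x (![a, c, c] i)) (x (![b, d, d] i))) fun x => by
        rw [abs_prod]
        refine (prod_le_prod (fun _ _ => abs_nonneg _) (g := fun _ => 2) fun i _ =>
          abs_oU_le H.ook ((hσ.le _ _).trans_eq D.B_len) _ _).trans (by norm_num)
    exact (mul_le_mul (abs_ps H _) h3 (abs_nonneg _) (by linarith)).trans_eq (by ring)
  · have h3 := Cub94.TM_holder (h := 0) (B := (univ : Finset (Fin 3))) wt_one90 hσ (n := 3)
      (by simp) (f := fun i x => oU D.q (σ (![a, c, c] i) (![b, d, d] i)) (x (![a, c, c] i))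
        (x (![b, d, d] i))) (u := fun i => D.g (σ (![a, c, c] i) (![b, d, d] i)))
      (fun _ _ => D.g0 _) fun i _ => by
        rw [D.g_cube]
        exact (Ck32.TB_pow hσ (hne i) 3).le
    refine (mul_le_mul (abs_ps H _) h3 (abs_nonneg _) (by linarith)).trans_eq ?_
    simp only [Fin.prod_univ_three, Matrix.cons_val_zero, Matrix.cons_val_one,
      Matrix.cons_val_two, Matrix.head_cons, Matrix.tail_cons, card_univ, Fintype.card_fin]
    push_cast
    ring
  · rw [ps, if_neg h1, abs_zero, zero_mul]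

end edge

theorem SN_bd (H : D.Ok τ0) {x : ℕ} (hx : x ∈ D.up) :
    |SN D.B (Tb D) x| ≤ τ0 * (48 * (D.e x * D.v x x) + 96 * D.tl) := by
  have hK : x ≤ D.B.length := D.B_len ▸ (CD.mem_up.1 hx).2.le
  refine (SN_le H.mono hK (a := ps D x * D.u3 x) fun t t' h1 h2 h3 h4 => ?_).trans_eq
    (show 4 * (τ0 / 4 * (48 * (D.e x * D.v x x) + 96 * D.tl)) = _ by ring)
  rw [Tw.sN]
  split_ifs with e1 e2 e2
  · exact ed_same H (rz_tw _ _) hx (tw_01 hK) (tw_01 hK) hK hK
  · exact ed_same H (rz_sn3 h3 (by omega)) hx rfl rfl hK le_rfl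
  · exact ed_same H (rz_sn3 h1 (by omega)) hx rfl rfl hK le_rfl
  · exact ed_same H (rz_sn4 h1 (by omega) h3 (by omega)) hx rfl rfl hK h1

theorem NL_bd (H : D.Ok τ0) {x : ℕ} (hx : x ∈ D.up) :
    |NLx D.B (Tb D) x + 2 * ∑ y ∈ Ioo D.J x, D.dx y * cP D.B (Tb D) y y x| ≤
      11 * (τ0 * (2 * D.dx x + D.g x * (D.hi (fun t => D.g t ^ 2) x +
        D.lw (fun t => D.e t * D.g t ^ 2) x))) := by
  obtain ⟨h1, h2⟩ := CD.mem_up.1 hx
  have t0 := H.tau0
  refine (NLx_le H.mono h1 (D.B_len ▸ h2.le) (b := bb4 D τ0 x)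
    (c := fun k => if k < x then D.e k else 1) (fun k => ?_) (fun k hk => if_neg (by omega))
    (fun k a b => ?_) (fun k hk => (if_neg (by omega)).ge)
    (fun σ hσ e => e ▸ ed_crude H hσ (by decide) (by decide))
    (fun σ hσ e => e ▸ ed_crude H hσ (by decide) (by decide))).trans
    (mul_le_mul_of_nonneg_left (le_of_eq ?_) (by norm_num))
  · have := D.g0 x
    unfold bb4
    split_ifs <;> positivity
  · rw [if_pos b]
    refine le_trans (le_min (ex_le_one H.mono k) ?_) (H.esc k (CD.mem_up.2 ⟨a, by omega⟩))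
    linarith [H.sig0 (j := k) (by omega)]
  · have e1 : range (D.B.length + 1) = range (D.J + 1) ∪ Ioo D.J x ∪ {x} ∪ Ioo x D.K ∪ {D.K} := by
      ext k
      simp only [D.B_len, mem_range, mem_union, mem_Ioo, mem_singleton]
      omega
    have z1 : ∑ k ∈ range (D.J + 1), dm D.B 0 k * (bb4 D τ0 x k * if k < x then D.e k else 1) = 0 :=
      sum_eq_zero fun k hk => by rw [bb4, if_neg (by have := mem_range.1 hk; omega)]; simp
    have z2 : ∑ k ∈ Ioo D.J x, dm D.B 0 k * (bb4 D τ0 x k * if k < x then D.e k else 1) =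
        τ0 * (D.g x * D.lw (fun t => D.e t * D.g t ^ 2) x) := by
      rw [CD.lw, mul_sum, mul_sum]
      refine sum_congr rfl fun k hk => ?_
      obtain ⟨a, b⟩ := mem_Ioo.1 hk
      rw [bb4, if_pos a, if_neg b.ne, if_pos b]
      ring
    have z3 : ∑ k ∈ Ioo x D.K, dm D.B 0 k * (bb4 D τ0 x k * if k < x then D.e k else 1) =
        τ0 * (D.g x * D.hi (fun t => D.g t ^ 2) x) := by
      rw [CD.hi, mul_sum, mul_sum]
      refine sum_congr rfl fun k hk => ?_
      obtain ⟨a, b⟩ := mem_Ioo.1 hk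
      rw [bb4, if_pos (h1.trans a), if_neg a.ne', if_neg a.not_gt]
      ring
    rw [e1, sum_union, sum_union, sum_union, sum_union, z1, z2, z3, sum_singleton, sum_singleton,
      show dm D.B 0 D.K = 0 from H.top, bb4, if_pos h1, if_pos rfl, if_neg (lt_irrefl _)]
    · ring
    all_goals
      rw [disjoint_left]
      intro k
      simp only [mem_range, mem_union, mem_Ioo, mem_singleton]
      omega

/-- the per-node bound -/
def nb (D : CD) (x : ℕ) : ℝ := 96 * (D.e x * D.v x x) + 22 * D.dx x +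
  11 * (D.g x * (D.hi (fun t => D.g t ^ 2) x + D.lw (fun t => D.e t * D.g t ^ 2) x)) + 192 * D.tl

/-- **one node**: everything except the signed leg sums below the pair -/
theorem Rb_node (H : D.Ok τ0) {x : ℕ} (hx : x ∈ D.up) :
    |Rb D x + 2 * ∑ y ∈ Ioo D.J x, D.dx y * cP D.B (Tb D) y y x| ≤ τ0 * nb D x := by
  have h1 := SN_bd H hx
  have h2 := NL_bd H hx
  rw [Rb_eq H (CD.mem_up.1 hx).2.le, nb]
  rw [abs_le] at h1 h2 ⊢
  constructor <;> linarith [h1.1, h1.2, h2.1, h2.2]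

variable {μ F f : ℕ → ℝ}

theorem abs_Sb (H : D.Ok τ0) {y : ℕ} (hy : y ≤ D.K) (a b : Cube D.n) :
    |Sb D y a b| ≤ τ0 * |oU D.q y a b| ^ 2 ∧ |Sb D y a b| ≤ τ0 := by
  have h1 := abs_ps H y
  have h2 := pow_le_pow_left₀ (abs_nonneg _) (abs_oU_le H.ook hy a b) 2
  have h3 := sq_nonneg |oU D.q y a b|
  have t0 := H.tau0
  rw [Sb, abs_mul, abs_pow]
  exact ⟨mul_le_mul_of_nonneg_right (by linarith) h3,
    (mul_le_mul h1 h2 h3 (by linarith)).trans_eq (by ring)⟩

theorem tX_Sb (H : D.Ok τ0) {y : ℕ} (hy : y ≤ D.K) (s : Sh) {a b : s.Lf} (hab : a ≠ b)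
    (e : s.shr a b D.B.length = y) :
    tX (fun _ => 1) s D.B 0 (fun _ ξ => |Sb D y (ξ a) (ξ b)|) ≤ τ0 * D.u 2 y ∧
    tX (fun _ => 1) s D.B 0 (fun _ ξ => Sb D y (ξ a) (ξ b) ^ 2) ≤ (τ0 * √(D.u 4 y)) ^ 2 := by
  constructor
  · refine (Tay38.TE_pair wt_one90 (fun a b => |Sb D y a b|) s D.B 0 a b hab).trans_le ?_
    rw [e, CD.u, uM, ← pi2_const_mul]
    exact pi2_mono wt_one90 _ _ (fun a b => (abs_Sb H hy a b).1) 0
  · refine (Tay38.TE_pair wt_one90 (fun a b => Sb D y a b ^ 2) s D.B 0 a b hab).trans_le ?_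
    rw [e, mul_pow, Real.sq_sqrt (D.u0 4 y), CD.u, uM, ← pi2_const_mul]
    refine pi2_mono wt_one90 _ _ (fun a b => ?_) 0
    rw [← sq_abs]
    exact (pow_le_pow_left₀ (abs_nonneg _) (abs_Sb H hy a b).1 2).trans_eq (by ring)

/-- weak bounds on one path against the kernel `Sb` at the node `y` -/
def PB (D : CD) (μ E : ℕ → ℝ) : Prop := ∀ y ∈ D.up, ∀ (s : Sh) (a b c : s.Lf), b ≠ c →
  s.shr b c D.B.length = y → ∀ (k : ℕ → ℝ) (B : ℝ) (r m : ℕ), Cw55.DV D.dv y D.K B r k → m ≤ D.K →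
    |∑ t ∈ Ico (y + 1) m, k t * (μ t * tX (fun _ => 1) s D.B 0 fun g x =>
        Sb D y (x b) (x c) * Cw55.Yn D t (stT s D.B 0 g a t))| ≤ 2 * B * ((r + 1) * E y) ∧
    |∑ t ∈ Ico (y + 1) m, k t * (μ t * tX (fun _ => 1) s D.B 0 fun g x =>
        Sb D y (x b) (x c) * Cw55.Yl D t (x a) (stT s D.B 0 g a t))| ≤ 2 * B * ((r + 1) * E y)

theorem pb_env (H : D.Ok τ0) (W : D.Wk μ F f) :
    PB D μ fun y => τ0 * (D.u 2 y * D.fs F y + (D.K + 1) * D.tl) := by
  intro y hy s a b c hbc e k B r m hk hm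
  obtain ⟨h1, h2⟩ := CD.mem_up.1 hy
  have h3 : 0 ≤ r * (B * (τ0 * ((D.K + 1) * D.tl))) := by
    have := H.tau0; have := H.tl0; have := hk.nn; positivity
  obtain ⟨p, q⟩ := Cw55.path_env H W h1.le a (G := fun _ ξ => Sb D y (ξ b) (ξ c))
    (fun _ => Eg.const _) hk hm (tX_Sb H h2.le s hbc e).1 fun _ _ => (abs_Sb H h2.le _ _).2
  exact ⟨p.trans (by linarith), q.trans (by linarith)⟩

theorem pb_sq (H : D.Ok τ0) (W : D.Wk2 μ F f) : PB D μ fun y => τ0 * (√(D.u 4 y) * D.fs F y) := by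
  intro y hy s a b c hbc e k B r m hk hm
  obtain ⟨h1, h2⟩ := CD.mem_up.1 hy
  simpa only [mul_assoc τ0] using Cw55.path_sq H W h1.le a (G := fun _ ξ => Sb D y (ξ b) (ξ c))
    (fun _ => Eg.const _) hk hm (mul_nonneg H.tau0 (Real.sqrt_nonneg _)) (tX_Sb H h2.le s hbc e).2

theorem dv_ex (H : D.Ok τ0) {y : ℕ} (h1 : D.J ≤ y) : Cw55.DV D.dv y D.K 1 0 (ex D.B) := by
  refine ⟨zero_le_one, fun t _ _ => ?_, ∅, le_rfl, fun t a b _ => ?_⟩
  · rw [abs_of_nonneg (H.ex0 t)]; exact ex_le_one H.mono t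
  · have h3 := (Cw55.dv_dom H.ook H.mono (t := t) (by omega) b.le).2.2.2
    have h4 : ex D.B t - ex D.B (t - 1) = D.dx t := by
      obtain ⟨u, rfl⟩ : ∃ u, t = u + 1 := ⟨t - 1, by omega⟩
      rfl
    rw [h4, abs_of_nonneg (H.dx0 t), one_mul]
    linarith [H.dx0 (t - 1)]

variable {c E : ℕ → ℝ} {B : ℝ} {r : ℕ}

/-- **the weak form** at the trunk node `y`, with a coefficient of bounded variation -/
theorem weak_node (H : D.Ok τ0) (W : PB D μ E) (hc : Cw55.DV D.dv D.J D.K B r c) {y : ℕ}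
    (hy : y ∈ D.up) : |∑ x ∈ Ico (y + 1) D.K, c x * μ x * cP D.B (Tb D) y y x| ≤
      20 * (r + 1) * B * E y := by
  obtain ⟨h1, h2⟩ := CD.mem_up.1 hy
  have hB := D.B_len
  have B0 := hc.nn
  have c1 : Cw55.DV D.dv y D.K (2 * (1 * B)) (0 + r) c :=
    (hc.up h1.le).mono (fun t _ b => H.dv0 b.le) (by linarith) (by omega)
  have c2 := (dv_ex H h1.le).mul (hc.up h1.le)
  have := cP_le (T := Tb D) H.mono (y := y) (hB ▸ h2) (ω := fun x => c x * μ x)
    (E := 2 * (2 * (1 * B)) * ((((0 + r : ℕ) : ℝ) + 1) * E y)) (fun t a b m hm => ?_) ?_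
  · rw [hB] at this
    exact this.trans_eq (by push_cast; ring)
  · rw [hB] at hm
    rcases b.eq_or_lt with rfl | b
    · refine le_of_eq_of_le (congrArg abs (sum_congr rfl fun x hx => ?_))
        (W y hy (Sh.two y) (Sh.twoL y) _ _ (two_ne y).symm
          ((shr_two' _ _).trans (min_eq_left (hB ▸ h2.le))) _ _ _ _ c1 hm).2
      obtain ⟨p, q⟩ := mem_Ico.1 hx
      rw [mul_assoc, Tb, lo_leaf wt_one90 _ _ _ _ (by omega) (by omega)]
      rfl
    · refine le_of_eq_of_le (congrArg abs (sum_congr rfl fun x hx => ?_))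
        (W y hy ((Sh.two y).graft (Sh.twoL y) t) ((Sh.two y).emb (Sh.twoL y) t (Sh.twoL y))
          ((Sh.two y).nw (Sh.twoL y) t) ((Sh.two y).emb (Sh.twoL y) t (Sh.twoR y))
          (emb_ne _ _ _ _).symm ((shr_comm _ _ _ _).trans
            ((shr_nw _ _ _ _ _).trans ((shr_two' _ _).trans (by omega)))) _ _ _ _ c1 hm).2
      obtain ⟨p, q⟩ := mem_Ico.1 hx
      rw [mul_assoc, Tb, lo_node wt_one90 _ _ _ _ (by omega) (by omega) a.le (by omega)]
      rfl
  · rw [hB]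
    refine le_of_eq_of_le (congrArg abs (sum_congr rfl fun x hx => ?_))
      (W y hy (Sh.two y) (Sh.twoL y) _ _ (two_ne y)
        ((shr_two _ _).trans (min_eq_left (hB ▸ h2.le))) _ _ _ _ c2 le_rfl).1
    obtain ⟨p, q⟩ := mem_Ico.1 hx
    rw [← hB, Tb, lo_diag wt_one90 _ _ _ _ (by omega) (by omega), mul_assoc, mul_assoc]
    rfl

/-- **any measure with weak bounds, any coefficient of bounded variation** -/
theorem sum_Rb (H : D.Ok τ0) (W : PB D μ E) (hc : Cw55.DV D.dv D.J D.K B r c) :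
    |∑ x ∈ D.up, c x * μ x * Rb D x| ≤
      τ0 * ∑ x ∈ D.up, |c x * μ x| * nb D x + 40 * (r + 1) * B * D.I E := by
  have h1 : |∑ x ∈ D.up, c x * μ x *
      (Rb D x + 2 * ∑ y ∈ Ioo D.J x, D.dx y * cP D.B (Tb D) y y x)| ≤
      τ0 * ∑ x ∈ D.up, |c x * μ x| * nb D x := by
    rw [mul_sum]
    refine (abs_sum_le_sum_abs _ _).trans (sum_le_sum fun x hx => ?_)
    rw [abs_mul, mul_left_comm]
    exact mul_le_mul_of_nonneg_left (Rb_node H hx) (abs_nonneg _)
  have h2 : |∑ x ∈ D.up, c x * μ x * ∑ y ∈ Ioo D.J x, D.dx y * cP D.B (Tb D) y y x| ≤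
      20 * (r + 1) * B * D.I E := by
    have e : ∑ x ∈ D.up, c x * μ x * ∑ y ∈ Ioo D.J x, D.dx y * cP D.B (Tb D) y y x =
        ∑ y ∈ D.up, D.dx y * ∑ x ∈ Ico (y + 1) D.K, c x * μ x * cP D.B (Tb D) y y x := by
      simp only [mul_sum]
      rw [sum_comm' (t' := D.up) (s' := fun y => Ico (y + 1) D.K) fun x y => by
        simp only [mem_Ioo, mem_Ico]; omega]
      simp only [mul_left_comm _ (D.dx _)]
    rw [e]
    exact (abs_dm_sum H.mono _ fun y hy => weak_node H W hc hy).trans_eq (D.I_mul _ _)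
  simp only [mul_add, mul_left_comm _ (2 : ℝ), sum_add_distrib, ← mul_sum] at h1
  rw [abs_le] at h1 h2 ⊢
  constructor <;> linarith [h1.1, h1.2, h2.1, h2.2]

theorem Iw_nb (H : D.Ok τ0) (hW : D.W.isSome = true) : D.Iw (nb D) ≤ 321 * D.Err := by
  have h1 : D.Iw (fun x => D.e x * D.v x x) ≤ D.E1 :=
    (D.Iw_mono fun x _ => le_add_of_nonneg_right (H.sv_low0 _ _)).trans H.Lad1_le
  have h2 : D.Iw (fun x => D.g x * (D.hi (fun t => D.g t ^ 2) x +
      D.lw (fun t => D.e t * D.g t ^ 2) x)) ≤ D.E1 := (D.Iw_mono fun x _ => by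
    obtain ⟨a0, -, -, -, a4⟩ := H.Cub_parts x
    have a5 := mul_nonneg (mul_nonneg (H.e0 x) (sq_nonneg (D.g x))) a0
    have a6 := mul_nonneg (D.g0 x) a4
    nlinarith).trans H.Cub_le
  have h3 := H.Iwdx_le
  refine (H.Iw_split hW (c := 192) (c' := 129) (by norm_num) (by norm_num)
    (mul_le_mul_of_nonneg_left H.tl_le (by norm_num)) ?_).trans_eq (by norm_num)
  rw [D.Iw_add, D.Iw_add, D.Iw_mul, D.Iw_mul, D.Iw_mul]
  linarith

end Crest.Agent.T156.Cas.Ub4

namespace Crest.Agent.T156.Cas.C40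

/-- **the `U` part of the test, letter `bU`** -/
theorem stUb : Bd true fun D => D.tU [bU] := Bd.mk' fun τ0 => ⟨361 * τ0, fun D H hW => by
  have h1 := mul_le_mul_of_nonneg_left (Ub4.Iw_nb H hW) H.tau0
  have h2 := mul_le_mul_of_nonneg_left ((H.u4F_Z.trans H.Z_le).trans (H.E1_le hW)) H.tau0
  have h3 := Ub4.sum_Rb H (Ub4.pb_sq H H.wk1)
    (Cw55.dv_const (d := D.dv) (j0 := D.J) (K := D.K) (fun t _ b => H.dv0 b.le) 1)
  simp only [one_mul, abs_one, D.I_mul, Nat.cast_zero] at h3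
  rw [Ub4.tU_eq]
  rw [CD.Iw] at h1
  linarith⟩

end Crest.Agent.T156.Cas.C40

end
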