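import Crest.Agent.T156.CAbD_83
import Crest.Agent.T156.CWk_55
import Crest.Agent.T156.CEx_23
import Crest.Agent.T156.CStUb_4

-- ▼ part T156/CAbS_45
section

/-!
# Row 156, block C (helper45): the site coefficient of `AbS` (size, parity, regularity)
-/

set_option autoImplicit false
set_option linter.all false

noncomputable section

namespace Crest.Agent.T156.Cas.C40.Ab45

open Finset
open Crest.Agent.T157.E Crest.Agent.T157.Casc Crest.Agent.T157.SL
open Crest.ProbabilityR.SpinGlassDynamics (spin)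
open Ker15 Nu87 Ed50 One15

variable {L : List (Lv Bool)} {r : ℕ}

/-- the parity constant -/
def cS : ℝ := 16 * Real.exp (1 / 2 + √2) * 4 ^ 2

theorem one_le_cS : 1 ≤ cS := by
  have : 1 ≤ Real.exp (1 / 2 + √2) := Real.one_le_exp (by positivity)
  rw [cS]; linarith

theorem PB_le {s : ℝ} (h0 : 0 < s) (h2 : s ≤ 2) : PB 4 s ≤ cS * s := by
  rw [PB, cS]
  push_cast
  gcongr

theorem tm0 (rL : R1 L) (i : ℕ) : 0 ≤ tm L i := by
  have := rL.tm_mono (Nat.zero_le i)
  rwa [show tm L 0 = 0 by cases L <;> rfl] at this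

/-- one odd cluster, matrix form -/
theorem parM (rL : R1 L) (hM : Mono 0 L) (hr : r ≤ 4) {σ : SM r} (U : Um L.length σ)
    {k : Fin r → ℕ} {a : Fin r} {i : ℕ} (hi : i < L.length) (ha : Odd (bm σ k a i)) {p : ℝ}
    (hp : min 1 (tm L i) ≤ p) : |TM (fun _ => 1) L 0 σ (mo k)| ≤ cS * p := by
  have q1 := one_le_cS
  have t0 := tm0 rL i
  rcases le_total 1 (tm L i) with h1 | h1
  · rw [min_eq_left h1] at hp
    refine (TM_abs w1 U fun x => (abs_mo k x).le).trans ?_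
    nlinarith
  rw [min_eq_right h1] at hp
  obtain ⟨s, e, -, he, rfl⟩ := U.lab
  rw [TM_sm w1 s L 0 he]
  refine le_trans (le_of_forall_pos_le_add fun δ hδ => ?_)
    (mul_le_mul_of_nonneg_left hp (by linarith))
  have h2 : 0 < min 1 (δ / cS) := lt_min one_pos (by positivity)
  have h3 := par1_m rL hM he (N := 4) (by norm_num) (by simpa using hr) hi ha
    (σ := tm L i + min 1 (δ / cS)) (by linarith) (by linarith)
  refine h3.trans ((PB_le (by linarith) (by linarith [min_le_left 1 (δ / cS)])).trans ?_)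
  have h5 : cS * min 1 (δ / cS) ≤ δ :=
    (mul_le_mul_of_nonneg_left (min_le_right _ _) (by linarith)).trans_eq (by field_simp)
  linarith [mul_add cS (tm L i) (min 1 (δ / cS))]

/-- two edges at different levels -/
theorem par4 (rL : R1 L) (hM : Mono 0 L) (hr : r ≤ 4) {σ : SM r} (U : Um L.length σ)
    {a b c d : Fin r} (h : σ a b < σ c d) {p : ℝ} (hp : min 1 (tm L (σ a b)) ≤ p) :
    |TM (fun _ => 1) L 0 σ fun x => spin (x a) * spin (x b) * (spin (x c) * spin (x d))| ≤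
      cS * p := by
  have hK := U.le c d
  set k : Fin r → ℕ := fun e => (if a = e then 1 else 0) + (if b = e then 1 else 0) +
    ((if c = e then 1 else 0) + if d = e then 1 else 0) with hk
  have e1 : (fun x : Fin r → Bool => spin (x a) * spin (x b) * (spin (x c) * spin (x d))) =
      mo k := by
    funext x
    simp only [mo, hk, pow_add, Finset.prod_mul_distrib, pow_ite, pow_one, pow_zero,
      Finset.prod_ite_eq, Finset.mem_univ, if_true]
  have e2 : ∀ o, bm σ k o (σ a b) = (if σ a b < σ o a then 1 else 0) +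
      (if σ a b < σ o b then 1 else 0) + ((if σ a b < σ o c then 1 else 0) +
        if σ a b < σ o d then 1 else 0) := fun o => by
    have : ∀ (z : Fin r), ∑ e, (if σ a b < σ o e then (if z = e then 1 else 0) else 0) =
        if σ a b < σ o z then 1 else 0 := fun z => by
      rw [Finset.sum_eq_single z (fun e _ he => by simp [he.symm]) (by simp)]
      simp
    simp only [bm, hk, ← this, ← Finset.sum_add_distrib]
    refine Finset.sum_congr rfl fun e _ => ?_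
    split_ifs <;> rfl
  have u := U.ultra
  have m := U.comm
  rw [e1]
  by_cases hc : σ a b < σ a c
  · refine parM rL hM hr U (a := b) (by omega) ?_ hp
    have h1 := u a c b
    have h2 := u c d b
    have h3 := m c b
    have h4 := m d b
    rw [e2, U.self, m b a, if_neg (lt_irrefl _), if_pos (by omega), if_neg (by omega),
      if_neg (by omega)]
    decide
  · refine parM rL hM hr U (a := a) (by omega) ?_ hp
    have h1 := u a d c
    have h2 := m d c
    rw [e2, U.self, if_pos (by omega), if_neg (lt_irrefl _), if_neg hc, if_neg (by omega)]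
    decide

/-- `ε ε'` -/
def ss : Bool → Bool → ℝ := fun a b => spin a * spin b

/-- the marked pair -/
def F2 : (Fin 2 → Bool) → ℝ := fun x => spin (x 0) * spin (x 1)

theorem abs_ss (x y : Bool) : |ss x y| ≤ 1 := (OneP.abs_spin2 x y).le

theorem abs_F2 (x : Fin 2 → Bool) : |F2 x| ≤ 1 := (OneP.abs_spin2 _ _).le

section par
variable (rL : R1 L) (hM : Mono 0 L) {j t : ℕ} (hjt : t ≠ j) {p : ℝ}
  (hp : min 1 (tm L (min j t)) ≤ p)
include rL hM hjt hp

theorem p0 : 0 ≤ cS * p :=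
  mul_nonneg (zero_le_one.trans one_le_cS) ((le_min zero_le_one (tm0 rL _)).trans hp)

theorem ed_par (hr : r ≤ 4) {σ : SM r} (U : Um L.length σ) {a b : Fin r} (hab : σ a b = j)
    (c d : Fin r) :
    |TM (fun _ => 1) L 0 σ fun x => spin (x a) * spin (x b) * ed (lvl t ss) c d x σ| ≤ cS * p := by
  by_cases h : σ c d = t
  · simp only [ed, lvl, h, if_true, ss]
    rcases lt_or_gt_of_ne hjt with e | e
    · have := par4 rL hM hr U (a := c) (b := d) (c := a) (d := b) (by omega) (p := p)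
        (by rwa [h, ← min_eq_right e.le])
      refine le_of_eq_of_le (congrArg _ (congrArg _ (funext fun x => mul_comm _ _))) this
    · exact par4 rL hM hr U (by omega) (by rwa [hab, ← min_eq_left e.le])
  · simp only [ed, lvl, h, if_false, mul_zero, Ed50.TM_zero, abs_zero]
    exact p0 rL hM hjt hp

theorem T3_par {σ : SM 4} (U : Um L.length σ) (h : σ 2 3 = j) :
    |T3 (fun _ => 1) L 0 (lvl t ss) F2 σ| ≤ cS * p := ed_par rL hM hjt hp le_rfl U h 0 1

theorem T2_par {σ : SM 3} (U : Um L.length σ) (h : σ 1 2 = j) :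
    |T2 (fun _ => 1) L 0 (lvl t ss) F2 σ| ≤ 5 * (cS * p) := by
  have k := ed_par rL hM hjt hp (by norm_num) U h
  have e : T2 (fun _ => 1) L 0 (lvl t ss) F2 σ = TM (fun _ => 1) L 0 σ fun x =>
      spin (x 1) * spin (x 2) * ed (lvl t ss) 1 0 x σ +
      spin (x 1) * spin (x 2) * ed (lvl t ss) 0 1 x σ +
      spin (x 1) * spin (x 2) * ed (lvl t ss) 2 0 x σ +
      spin (x 1) * spin (x 2) * ed (lvl t ss) 0 2 x σ +
      spin (x 1) * spin (x 2) * ed (lvl t ss) 0 0 x σ := by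
    rw [T2]
    congr 1
    funext x
    rw [E2, Fin.sum_univ_two]
    show spin (x 1) * spin (x 2) * (ed (lvl t ss) 1 0 x σ + ed (lvl t ss) 0 1 x σ +
      (ed (lvl t ss) 2 0 x σ + ed (lvl t ss) 0 2 x σ) + ed (lvl t ss) 0 0 x σ) = _
    ring
  rw [e, TM_add, TM_add, TM_add, TM_add]
  have k1 := abs_le.1 (k 1 0)
  have k2 := abs_le.1 (k 0 1)
  have k3 := abs_le.1 (k 2 0)
  have k4 := abs_le.1 (k 0 2)
  have k5 := abs_le.1 (k 0 0)
  exact abs_le.2 ⟨by linarith, by linarith⟩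

theorem Nw_par (ht : t ≤ L.length) {σ : SM 2} (U : Um L.length σ) (h : σ 0 1 = j) :
    |Nw (fun _ => 1) L 0 t ss σ F2| ≤ 22 * (cS * p) := by
  have q := p0 rL hM hjt hp
  have a1 := abs_Pc U ht fun a => T2_par rL hM hjt hp (um_gr U a t) h
  have a2 := abs_Pc U ht (g := fun a => T4 (fun _ => 1) L 0 (lvl t ss) F2 (gr L.length σ a t))
    fun a => abs_Ws hM (um_gr U a t) fun c k _ =>
      T3_par rL hM hjt hp (um_gr (um_gr U a t) c k) h
  have a3 := Ed50.abs_sum_le fun a => (abs_wsum (A := (range (L.length + 1)).erase t)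
    (fun k hk => om_nonneg hM U a (mem_range_succ_iff.1 (mem_of_mem_erase hk)))
    (f := fun k => T5 (fun _ => 1) L 0 t ss F2 (gr L.length σ a k))
    fun k _ => abs_Pc (um_gr U a k) ht fun c =>
      T3_par rL hM hjt hp (um_gr (um_gr U a k) c t) h).trans
      (mul_le_of_le_one_left (by positivity) (sum_om_le hM U a (erase_subset _ _)))
  rw [Nw]
  push_cast at *
  rw [abs_le] at a1 a2 a3 ⊢
  constructor <;> linarith

end par

/-- the labelling of a pair -/
def e2 (j : ℕ) : Fin 2 ≃ (Sh.two j).Lf :=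
  Equiv.ofBijective ![Sh.twoL j, Sh.twoR j] (by
    refine (Fintype.bijective_iff_surjective_and_card _).2 ⟨fun c => ?_, ?_⟩
    · rcases Wt87.two_cases j c with rfl | rfl
      exacts [⟨0, rfl⟩, ⟨1, rfl⟩]
    · rw [Wt87.card_two]; simp)

/-- the split matrix of a pair -/
def s2 (K j : ℕ) : SM 2 := sm (Sh.two j) (e2 j) K

theorem um_s2 (K j : ℕ) : Um K (s2 K j) := um_sm _ _ _

theorem s2_01 {K j : ℕ} (h : j ≤ K) : s2 K j 0 1 = j := (Wt87.shr_two j K).trans (min_eq_left h)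

theorem s2_eq {K j : ℕ} (h : j ≤ K) (a b : Fin 2) : s2 K j a b = if a = b then K else j := by
  have U := um_s2 K j
  fin_cases a <;> fin_cases b
  · exact U.self _
  · exact s2_01 h
  · exact (U.comm _ _).trans (s2_01 h)
  · exact U.self _

/-- no `q` enters -/
theorem W_eq (D : CD) (j : ℕ) {t : ℕ} (ht : t ∈ D.up) :
    Ab83.W D j t = dM (fun _ => 1) D.S 0 (lvl t ss) (s2 D.S.length j) F2 := by
  have l : D.S.length = D.K := opS_length
  have ht' := Finset.mem_Ioo.1 ht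
  have e1 : lvl t (oE D.q t) = fun i x y =>
      1 * lvl t ss i x y + 1 * (fun i _ _ => if i = t then -D.q t else 0) i x y := by
    funext i x y
    simp only [lvl, oE, ss]
    split_ifs <;> ring
  have e2' : (fun x : (Sh.two j).Lf → Bool => oE D.q j (x (Sh.twoL j)) (x (Sh.twoR j))) =
      fun x => 1 * F2 (fun a => x (e2 j a)) + -D.q j * (fun _ => 1) x := by
    funext x
    show spin _ * spin _ - _ = 1 * (spin (x (Sh.twoL j)) * spin (x (Sh.twoR j))) + _
    ring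
  have I := isLin_TEf w1 D.S 0
  have z : Dop D.S (lvl t ss) (TEf (fun _ => 1) D.S 0) (Sh.two j) (fun _ => 1) = 0 := by
    rw [← dT_eq_Dop w1 _ _ _ (c := 0) fun y => if_neg (by omega)]
    exact Mul55.dT_const' w1 _ _ _ (funext fun x => funext fun y => if_neg (by omega)) 1
  rw [Ab83.W, twoF, e1, I.dopS, Ex23.Dop_lev w1 _ _ (if_neg (by omega)), e2', I.dop, z,
    Dop_lvl w1 (by omega) (e2 j)]
  simp [s2]

theorem st_site {D : CD} {τ0 : ℝ} (H : D.Ok τ0) {t : ℕ} (h1 : D.J < t) (h2 : t + 1 < D.K) :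
    St (fun _ => 1) D.S t ss ss 1 0 (D.dv (t + 1)) :=
  ⟨w1, Cw55.monoS H.mono, (opS_length (n := D.n) (β := D.β) (M := D.M) (q := D.q)).symm ▸ h2,
    abs_ss, abs_ss, fun _ _ => by simp,
    fun x y => Cw55.cv_S H.ook H.mono (t := t + 1) (by omega) h2.le x y⟩

theorem step_le {D : CD} {τ0 : ℝ} (H : D.Ok τ0) {t : ℕ} (h1 : D.J < t) (h2 : t + 1 < D.K) :
    4 * ((2 + 2 : ℕ) : ℝ) ^ 2 * (1 * (cst 2 1 0 (D.dv (t + 1)) +
      4 * 1 * (dm D.S 0 t + dm D.S 0 (t + 1)))) ≤ 2304 * D.dv (t + 1) := by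
  have := (Cw55.dv_dom H.ook H.mono (t := t + 1) (by omega) h2.le).2.2.2
  rw [Nat.add_sub_cancel, CD.dx, CD.dx, ← Cav22.dm_tilt tilt_opS, ← Cav22.dm_tilt tilt_opS] at this
  rw [cst]
  push_cast
  linarith

end Ab45

open Ab45 Ker15 Nu87 Ed50 One15 in
/-- **the site coefficient of `AbS`** -/
theorem sitS : Ab83.SitS := by
  have q1 := one_le_cS
  refine ⟨2304 * cS, by linarith, fun τ0 D H =>
    ⟨fun j t => Nw (fun _ => 1) D.S 0 t ss (s2 D.S.length j) F2, ?_⟩⟩
  have l : D.S.length = D.K := opS_length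
  have hM := Cw55.monoS H.mono
  have rL := Cw55.r1_S H.ook
  have no : ∀ j ∈ D.up, ∀ t, t < D.K → t ≠ j → No t (s2 D.S.length j) := fun j hj t h1 h2 a b => by
    have := Finset.mem_Ioo.1 hj
    rw [s2_eq (by omega)]
    split_ifs <;> omega
  have dv : ∀ t, t + 1 < D.K → 2304 * D.dv (t + 1) ≤ 2304 * cS * D.dv (t + 1) := fun t h => by
    nlinarith [Cw55.dv_nonneg H h.le]
  refine ⟨fun j hj t ht e => ?_, fun j hj t ht e => ?_, fun j hj t ht ht' e e' => ?_,
    fun j hj => ?_, fun j hj hj' => ?_⟩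
  · have := Finset.mem_Ioo.1 ht
    rw [W_eq D j ht, dM_no (no j hj t this.2 e) (by omega), Cav22.dm_tilt tilt_opS]
  · have h1 := Finset.mem_Ioo.1 ht
    have h2 := Finset.mem_Ioo.1 hj
    have hm : min j t ∈ D.up := Finset.mem_Ioo.2 (by omega)
    have hp : min 1 (tm D.S (min j t)) ≤ min 1 (D.e (min j t)) := by
      rw [Cw55.tm_S H.ook (by omega)]
      refine le_min (min_le_left _ _) (le_trans (min_le_min_left _ ?_) (H.esc _ hm))
      exact le_add_of_nonneg_left (Wf99.ex_nn H.mono _)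
    refine (Nw_par rL hM e hp (by omega) (um_s2 _ _) (s2_01 (by omega))).trans ?_
    nlinarith [p0 rL hM e hp]
  · have h1 := Finset.mem_Ioo.1 ht
    have h2 := Finset.mem_Ioo.1 ht'
    exact (((st_site H h1.1 h2.2).Nw_up abs_F2 (um_s2 _ _) (no j hj t h1.2 e)
      (no j hj _ h2.2 e')).trans (step_le H h1.1 h2.2)).trans (dv t h2.2)
  · rw [W_eq D j hj]
    refine (abs_dM w1 hM (um_s2 _ _) abs_ss abs_F2).trans ?_
    push_cast
    linarith
  · have h1 := Finset.mem_Ioo.1 hj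
    have h2 := Finset.mem_Ioo.1 hj'
    rw [W_eq D _ hj, W_eq D _ hj']
    refine (((st_site H h1.1 h2.2).dM_up abs_F2 (um_s2 _ _) (um_s2 _ _) fun a b => ?_).trans
      (step_le H h1.1 h2.2)).trans (dv j h2.2)
    rw [s2_eq (by omega), s2_eq (by omega)]
    split_ifs <;> omega

end Crest.Agent.T156.Cas.C40

end
end

-- ▼ part T156/CAbT_45
section

/-!
# Row 156, block C (helper45): the words `[aU, b]` in the test direction, exact reduction
-/

set_option autoImplicit false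
set_option linter.all false

noncomputable section

namespace Crest.Agent.T156.Cas.C40.Ab45

open Finset
open Crest.Agent.T157.E Crest.Agent.T157.Casc Crest.Agent.T157.SL
open Crest.ProbabilityR.SpinGlassDynamics (spin)
open Ed50 One15 Mul55

/-- a word applied to a function of two leaves only sees their splitting level -/
theorem WdO_pair {Ω : Type} [Fintype Ω] {w : Ω → ℝ} (hw : Wt w) (L : List (Lv Ω)) (h : Ω → ℝ)
    {l : List (ℕ → Ω → Ω → ℝ)} (hl : ∀ S ∈ l, S 0 = 0 ∧ ∃ c, ∀ y, S L.length y y = c) {s : Sh}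
    {a b : s.Lf} (hab : a ≠ b) (Q : Ω → Ω → ℝ) :
    WdO L l (TEf w L h) s (fun x => Q (x a) (x b)) =
      twoF (s.shr a b L.length) Q (WdO L l (TEf w L h)) := by
  have := pd_wordO hw h L (l := l) (Φ := fun Λ => Λ s (fun x => Q (x a) (x b)) +
    -1 * twoF (s.shr a b L.length) Q Λ) (fun R H Λ Λ' e => H.add (e _ _) (H.smul _ (e _ _)))
    (fun M' e => by
      show TE w s M' h _ + -1 * tX w _ M' h _ = 0
      rw [TE_pair hw s M' h hab, Wt87.tX_two hw, Cav22.len_tilt e]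
      ring) hl
  linarith

/-- the top level carries no weight -/
theorem Dop_top {Ω : Type} [Fintype Ω] {w : Ω → ℝ} (hw : Wt w) {L : List (Lv Ω)} (hM : Mono 0 L)
    (h0 : dm L 0 L.length = 0) (h : Ω → ℝ) {j : ℕ} (hj : j < L.length) {k : Ω → Ω → ℝ}
    {ξ : ((Sh.two j).Lf → Ω) → ℝ} {b c : ℝ} (hξ : ∀ x, |ξ x| ≤ b) (hk : ∀ x y, |k x y| ≤ c) :
    Dop L (lvl L.length k) (TEf w L h) (Sh.two j) ξ = 0 := by
  obtain ⟨y, -⟩ := Finset.exists_ne_zero_of_sum_ne_zero hw.pos.ne'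
  have b0 : 0 ≤ b := (abs_nonneg _).trans (hξ fun _ => y)
  have c0 : 0 ≤ c := (abs_nonneg _).trans (hk y y)
  rw [Dop_eq_sg, ← abs_nonpos_iff]
  obtain ⟨g, hg⟩ : ∃ g : ℕ → ℝ, ∀ i, g i = if i = L.length then b * c else 0 := ⟨_, fun _ => rfl⟩
  have h1 := Ker15.sg_lvl hM (Sh.two j) (g := g) fun i => by rw [hg]; positivity
  have h2 : Nv L g (Sh.two j) = 0 := by
    rw [Nv, Tay38.prs_two, Wt87.shr_comm _ (Sh.twoR j), Wt87.shr_two, min_eq_left hj.le, hg,
      if_neg hj.ne]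
    simp [h0, hg]
  rw [h2, mul_zero] at h1
  refine le_trans (abs_sg_le hM _ fun τ _ => ?_) h1
  refine One15.abs_TE_le hw τ.sh L h fun x => ?_
  rw [hg, GT.ev, lvl]
  split_ifs
  · exact Ed50.abs_mul_le (hξ _) (hk _ _)
  · simp

variable {D : CD} {τ0 : ℝ}

theorem ok_b (H : D.Ok τ0) (a : Lt) : (lt D.n D.β D.M D.q D.cl a).1 0 = 0 ∧
    ∃ v, ∀ y, (lt D.n D.β D.M D.q D.cl a).1 D.B.length y y = v :=
  ⟨by simp [lt, cut, oUb_zero], 0, fun y => by
    rw [Cw55.lenB]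
    simp only [lt, cut]
    split_ifs
    exacts [oUb_diag H.pos H.ook _ y, rfl]⟩

/-- a spin-free letter innermost -/
theorem wB_b (D : CD) (c : Bool) (s : Sh) (G : (s.Lf → Cube D.n) → ℝ) (ξ : (s.Lf → Bool) → ℝ) :
    wB (-1) D.B (oB D.n D.β D.M D.q []) [lt D.n D.β D.M D.q D.cl (c, false)] s G ξ =
      TE (fun _ => 1) s D.S 0 ξ *
        Dop D.B (lt D.n D.β D.M D.q D.cl (c, false)).1 (TEf (fun _ => 1) D.B 0) s G := by
  rw [wB, Dop_eq_sg, ← sg_const_mul]
  refine sg_congr _ _ _ fun τ hτ => ?_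
  rw [wB, oB, mul_comm, ← hτ.TE_e w1 D.S 0 ξ]
  congr 1
  show TE _ _ _ _ _ = _
  congr 1
  funext x
  exact mul_one _

/-- `aU` first, on a marked pair, the inner word only depending on the level -/
theorem sg_aU (H : D.Ok τ0) {j : ℕ} (hj : j ∈ D.up) (R : ℕ → ℝ) :
    sg (-1) D.B (Sh.two j) (fun τ => TE (fun _ => 1) τ.sh D.S 0
      (τ.ev (oE D.q) (pr2 j (oE D.q j))) * (Cw55.off D.J ∅ τ.j * R τ.j)) =
      ∑ t ∈ D.up, Ab83.W D j t * R t := by
  have l : D.S.length = D.K := opS_length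
  have hj' := mem_Ioo.1 hj
  have q2 : ∀ i ≤ D.K, ∀ x y, |oE D.q i x y| ≤ 2 := fun i hi x y => by
    have := H.ook.mem hi
    refine (abs_sub _ _).trans ?_
    rw [OneP.abs_spin2, abs_of_nonneg this.1]
    linarith [this.2]
  have z : Ab83.W D j D.K = 0 := by
    have := Dop_top w1 (Cw55.monoS H.mono) (by rw [Cav22.dm_tilt tilt_opS, l]; exact H.top) 0
      (j := j) (by omega) (k := oE D.q D.K) (ξ := pr2 j (oE D.q j))
      (fun _ => q2 j (by omega) _ _) (q2 _ le_rfl)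
    rw [l] at this
    exact this
  have e : ∑ t ∈ D.up, Ab83.W D j t * R t = ∑ t ∈ Ioc D.J D.K, R t * Ab83.W D j t := by
    rw [← sum_Ioo_add_eq_sum_Ioc H.cut, z, mul_zero, add_zero]
    exact sum_congr rfl fun t _ => mul_comm _ _
  rw [e]
  simp only [Ab83.W, twoF, Dop_eq_sg, sg_tilt _ tilt_opS, ← sg_const_mul]
  rw [← sg_sum]
  refine sg_congr _ _ _ fun τ hτ => ?_
  have h1 := hτ.le
  rw [Cw55.lenB] at h1
  have k : ∀ t, TEf (fun _ => 1) D.S 0 τ.sh (τ.ev (lvl t (oE D.q t)) fun x =>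
      oE D.q j (x (Sh.twoL j)) (x (Sh.twoR j))) = if τ.j = t then TE (fun _ => 1) τ.sh D.S 0
        (τ.ev (oE D.q) (pr2 j (oE D.q j))) else 0 := fun t => by
    split_ifs with h
    · subst h
      refine congrArg (TE _ _ _ _) (funext fun x => ?_)
      rw [GT.ev, GT.ev, lvl, if_pos rfl]
      rfl
    · refine (congrArg (TE _ _ _ _) (funext fun x => ?_)).trans (Law.TE_const w1 _ _ _ 0)
      rw [GT.ev, lvl, if_neg h, mul_zero]
  simp only [k, mul_ite, mul_zero, sum_ite_eq, mem_Ioc, Cw55.off, notMem_empty, not_false_eq_true,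
    and_true, h1]
  split_ifs <;> ring

end Ab45

open Ab45 Mul55 One15 in
/-- **the words `[aU, b]`, test direction** -/
theorem tw_red {D : CD} {τ0 : ℝ} (c : Bool) (H : D.Ok τ0) (hW : D.W.isSome = true) :
    D.tw [aU, (c, false)] = ∑ j ∈ D.up, D.om j * ∑ t ∈ D.up, Ab83.W D j t * (D.τ t / 2 *
      twoF t (oU D.q t) (Dop D.B (lt D.n D.β D.M D.q D.cl (c, false)).1
        (TEf (fun _ => 1) D.B 0))) := by
  obtain ⟨ω, hω⟩ := Option.isSome_iff_exists.1 hW
  simp only [CD.tw, CD.dd, hω]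
  refine Finset.sum_congr rfl fun j hj => congrArg _ ?_
  rw [← sg_aU H hj, List.map_cons, wB, List.map_singleton]
  refine sg_congr _ _ _ fun τ hτ => ?_
  rw [wB_b, Cw55.lt_aU]
  congr 1
  have e := WdO_pair wt_one90 D.B 0 (l := [(lt D.n D.β D.M D.q D.cl (c, false)).1])
    (fun S hS => List.mem_singleton.1 hS ▸ ok_b H _) hτ.ne (oU D.q τ.j)
  rw [hτ.shr, WdO_cons, WdO_nil] at e
  have e2 : τ.ev (Cw55.phU D (Cw55.off D.J ∅)).1 (fun _ => 1) = fun x =>
      Cw55.off D.J ∅ τ.j * (D.τ τ.j / 2) * oU D.q τ.j (x τ.p) (x τ.q) +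
        0 * oU D.q τ.j (x τ.p) (x τ.q) := by
    funext x
    simp only [GT.ev, Cw55.phU, oUb]
    ring
  rw [e2, (isLin_TEf wt_one90 D.B 0).dop, e]
  ring

end Crest.Agent.T156.Cas.C40

end
end

-- ▼ part T156/CAbU_4
section

/-!
# Row 156, block C: the word `[aU, bU]` in the test direction (helper4)
-/

set_option autoImplicit false
set_option linter.all false

noncomputable section

namespace Crest.Agent.T156.Cas.Ub4

open Finset
open Crest.Agent.T157.E Crest.Agent.T157.Casc Crest.Agent.T157.SL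
open Nu87 Q75 Wt87 Tay38 Mul55 C40

variable {D : CD} {τ0 : ℝ} {μ F f c : ℕ → ℝ} {B : ℝ} {r : ℕ}

theorem nb0 (H : D.Ok τ0) (x : ℕ) : 0 ≤ nb D x := by
  obtain ⟨-, -, a2, a3, -⟩ := H.Cub_parts x
  have := H.e0 x; have := D.v0 x x; have := H.dx0 x; have := D.g0 x; have := H.tl0
  unfold nb
  positivity

/-- the crude part with one more envelope is an unmarked error -/
theorem I_nb (H : D.Ok τ0) : D.I (fun x => min 1 (D.e x) * nb D x) ≤ 321 * D.E0 := by
  have h1 : D.I (fun t => D.e t ^ 2 * D.v t t) ≤ D.E0 := by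
    obtain ⟨a, -, b⟩ := H.Lad0_parts
    have := H.Lad0_le
    rw [CD.Lad0] at this
    linarith
  have h2 : D.I (fun x => D.g x * D.lw (fun t => D.e t * D.g t ^ 2) x) =
      D.I fun y => D.e y * (D.g y ^ 2 * D.hi D.g y) := by
    simp only [CD.I, CD.lw, CD.hi, mul_sum]
    rw [sum_comm' (t' := D.up) (s' := fun y => Ioo y D.K) fun x y => by
      simp only [mem_Ioo]; omega]
    exact sum_congr rfl fun _ _ => sum_congr rfl fun _ _ => by ring
  have h3 := H.T3_le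
  simp only [CD.T3, mul_add, D.I_add] at h3
  have h4 := H.I_le (a := fun _ => D.tl) H.tl0 fun _ _ => le_rfl
  refine (H.I_mono (b := fun x => 96 * (D.e x ^ 2 * D.v x x) + 22 * D.dx x +
    11 * (D.e x * (D.g x * D.hi (fun t => D.g t ^ 2) x)) +
    11 * (D.g x * D.lw (fun t => D.e t * D.g t ^ 2) x) + 192 * D.tl) fun x _ => ?_).trans ?_
  · obtain ⟨-, -, a2, a3, -⟩ := H.Cub_parts x
    have m1 := min_le_left 1 (D.e x)
    have m2 := min_le_right 1 (D.e x)
    have b1 := mul_le_mul_of_nonneg_right m2 (mul_nonneg (H.e0 x) (D.v0 x x))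
    have b2 := mul_le_mul_of_nonneg_right m1 (H.dx0 x)
    have b3 := mul_le_mul_of_nonneg_right m2 (mul_nonneg (D.g0 x) a2)
    have b4 := mul_le_mul_of_nonneg_right m1 (mul_nonneg (D.g0 x) a3)
    have b5 := mul_le_mul_of_nonneg_right m1 H.tl0
    rw [nb]
    linarith
  · rw [D.I_add, D.I_add, D.I_add, D.I_add, D.I_mul, D.I_mul, D.I_mul, D.I_mul, D.I_mul, h2]
    linarith [H.dx_le, H.tl_le]

section site
variable {C : ℝ} {κ : ℕ → ℕ → ℝ}

theorem dv_diag (hC : 0 ≤ C) (S : Ab83.Sit D C κ) :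
    Cw55.DV D.dv D.J D.K C 0 fun j => Ab83.W D j j := by
  refine ⟨hC, fun t a b => S.bd' t (CD.mem_up.2 ⟨a, b⟩), ∅, le_rfl, fun t a b _ => ?_⟩
  obtain ⟨u, rfl⟩ : ∃ u, t = u + 1 := ⟨t - 1, by omega⟩
  exact S.lip' u (CD.mem_up.2 ⟨by omega, by omega⟩) (CD.mem_up.2 ⟨by omega, b⟩)

theorem dv_offd (hC : 0 ≤ C) (S : Ab83.Sit D C κ) {j : ℕ} (hj : j ∈ D.up) :
    Cw55.DV D.dv D.J D.K C 2 fun t => if t = j then 0 else κ j t := by
  refine ⟨hC, fun t a b => ?_, {j, j + 1}, card_le_two, fun t a b e => ?_⟩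
  · split_ifs with h
    · rwa [abs_zero]
    · exact (S.bd j hj t (CD.mem_up.2 ⟨a, b⟩) h).trans (mul_le_of_le_one_right hC (min_le_left _ _))
  · obtain ⟨u, rfl⟩ : ∃ u, t = u + 1 := ⟨t - 1, by omega⟩
    simp only [mem_insert, mem_singleton, not_or] at e
    rw [if_neg e.1, Nat.add_sub_cancel, if_neg (by omega)]
    exact S.lip j hj u (CD.mem_up.2 ⟨by omega, by omega⟩) (CD.mem_up.2 ⟨by omega, b⟩) (by omega) e.1

/-- the edge at the marked node -/
theorem diag_bd (H : D.Ok τ0) (hW : D.W.isSome = true) (hC : 0 ≤ C) (S : Ab83.Sit D C κ) :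
    |∑ j ∈ D.up, Ab83.W D j j * D.τ j * D.om j * Rb D j| ≤
      401 * (2 * (C * (τ0 + 1))) * τ0 * D.Err := by
  have hc := (dv_diag hC S).mul (Cw55.dv_tau H le_rfl)
  have B0 := mul_nonneg hc.nn H.tau0
  have h1 : ∑ x ∈ D.up, |Ab83.W D x x * D.τ x * D.om x| * nb D x ≤
      2 * (C * (τ0 + 1)) * D.Iw (nb D) := by
    rw [CD.Iw, mul_sum]
    refine sum_le_sum fun x hx => ?_
    rw [abs_mul, ← mul_assoc]
    exact mul_le_mul_of_nonneg_right (mul_le_mul_of_nonneg_right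
      (hc.bd x (CD.mem_up.1 hx).1 (CD.mem_up.1 hx).2) (abs_nonneg _)) (nb0 H x)
  have h2 := mul_le_mul_of_nonneg_left h1 H.tau0
  have h3 := mul_le_mul_of_nonneg_left (Iw_nb H hW) B0
  have h4 := mul_le_mul_of_nonneg_left ((H.u4F_Z.trans H.Z_le).trans (H.E1_le hW)) B0
  have h5 := mul_nonneg B0 H.Err0
  have h6 := sum_Rb H (pb_sq H H.wk1) hc
  rw [D.I_mul] at h6
  push_cast at h6
  linarith

/-- the edge at another node -/
theorem offd_bd (H : D.Ok τ0) (hC : 0 ≤ C) (S : Ab83.Sit D C κ) {j : ℕ} (hj : j ∈ D.up) :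
    |∑ t ∈ D.up, (if t = j then 0 else κ j t) * D.τ t * D.dx t * Rb D t| ≤
      561 * (2 * (C * (τ0 + 1))) * τ0 * D.E0 := by
  have hc := (dv_offd hC S hj).mul (Cw55.dv_tau H le_rfl)
  have B0 := mul_nonneg hc.nn H.tau0
  have t0 := H.tau0
  have h1 : ∑ x ∈ D.up, |(if x = j then 0 else κ j x) * D.τ x * D.dx x| * nb D x ≤
      2 * (C * (τ0 + 1)) * D.I fun x => min 1 (D.e x) * nb D x := by
    rw [CD.I, mul_sum]
    refine sum_le_sum fun x hx => ?_
    have m0 : 0 ≤ min 1 (D.e x) := le_min zero_le_one (H.e0 x)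
    have a1 : |if x = j then 0 else κ j x| ≤ C * min 1 (D.e x) := by
      split_ifs with h
      · rw [abs_zero]; positivity
      · exact (S.bd j hj x hx h).trans (mul_le_mul_of_nonneg_left
          (min_le_min le_rfl (H.e_mono (min_le_right _ _))) hC)
    have a2 := mul_le_mul a1 (show D.τ x ≤ 2 * (τ0 + 1) by linarith [(H.tau_mem x).2])
      (H.tau_mem x).1 (by positivity)
    rw [abs_mul, abs_mul, abs_of_nonneg (H.dx0 x), abs_of_nonneg (H.tau_mem x).1, mul_assoc]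
    exact (mul_le_mul_of_nonneg_right a2 (mul_nonneg (H.dx0 x) (nb0 H x))).trans_eq (by ring)
  have h2 := mul_le_mul_of_nonneg_left h1 H.tau0
  have h3 := mul_le_mul_of_nonneg_left (I_nb H) B0
  have h4 := mul_le_mul_of_nonneg_left H.uF_le B0
  have h5 := mul_le_mul_of_nonneg_left ((H.I_le (a := fun _ => ((D.K : ℝ) + 1) * D.tl)
    (mul_nonneg (by positivity) H.tl0) fun _ _ => le_rfl).trans H.K1tl_le) B0
  have h6 := sum_Rb H (pb_env H H.wk0) hc
  rw [D.I_mul, D.I_add] at h6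
  push_cast at h6
  linarith

end site

end Crest.Agent.T156.Cas.Ub4

namespace Crest.Agent.T156.Cas.C40

open Finset Ub4

/-- **the word `[aU, bU]`, test direction** -/
theorem abU_true : Bd true fun D => D.tw [aU, bU] := Bd.mk' fun τ0 => by
  obtain ⟨C, hC, hS⟩ := sitS
  refine ⟨481 * (2 * (C * (τ0 + 1))) * τ0, fun D H hW => ?_⟩
  obtain ⟨κ, S⟩ := hS τ0 D H
  have e : D.tw [aU, bU] = (∑ j ∈ D.up, Ab83.W D j j * D.τ j * D.om j * Rb D j +
      ∑ j ∈ D.up, D.om j *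
        ∑ t ∈ D.up, (if t = j then 0 else κ j t) * D.τ t * D.dx t * Rb D t) / 2 := by
    rw [tw_red false H hW, lt_bU, ← sum_add_distrib, sum_div]
    refine sum_congr rfl fun j hj => ?_
    rw [← add_sum_erase _ _ hj, ← add_sum_erase _ _ hj, if_pos rfl, zero_mul, zero_mul, zero_mul,
      zero_add, add_div, mul_add, mul_div_assoc (D.om j), sum_div]
    congr 1
    · rw [Rb]; ring
    · congr 1
      refine sum_congr rfl fun t ht => ?_
      rw [if_neg (ne_of_mem_erase ht), S.eq j hj t (mem_of_mem_erase ht) (ne_of_mem_erase ht), Rb]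
      ring
  have h1 := diag_bd H hW hC S
  have h2 := D.abs_sum_om fun j hj => offd_bd H hC S hj
  rw [D.Iw_const, ← CD.wt_test hW] at h2
  have h3 := mul_le_mul_of_nonneg_left H.wtE0_le
    (show 0 ≤ 2 * (C * (τ0 + 1)) * τ0 by have := H.tau0; positivity)
  rw [e, abs_div, abs_two]
  linarith [abs_add_le (∑ j ∈ D.up, Ab83.W D j j * D.τ j * D.om j * Rb D j) (∑ j ∈ D.up, D.om j *
    ∑ t ∈ D.up, (if t = j then 0 else κ j t) * D.τ t * D.dx t * Rb D t)]

end Crest.Agent.T156.Cas.C40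

end
end

-- ▼ part T156/CAbL_45

/-!
# Row 156, block C (helper45): the site coefficient against weak and absolute bulk bounds
-/

set_option autoImplicit false
set_option linter.all false

noncomputable section

namespace Crest.Agent.T156.Cas.C40.Ab45

open Finset
open Crest.Agent.T157.E Crest.Agent.T157.Casc Crest.Agent.T157.SL
open Mul55

/-- summation by parts with a weighted start value -/
theorem abelE {c Y F d : ℕ → ℝ} {a K : ℕ} {B ε : ℝ} (h : a < K) (hε : 0 ≤ ε) (F0 : ∀ t, 0 ≤ F t)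
    (bd : ∀ t, a ≤ t → t < K → |c t| ≤ B) (h1 : |c a| ≤ B * d a)
    (h2 : ∀ t, a < t → t < K → |c t - c (t - 1)| ≤ B * d t)
    (hY : ∀ j, a ≤ j → j < K → |∑ t ∈ Ico j K, Y t| ≤ F j + ε) :
    |∑ t ∈ Ico a K, c t * Y t| ≤ B * ∑ t ∈ Ico a K, d t * F t + 2 * B * K * ε := by
  have B0 : 0 ≤ B := (abs_nonneg _).trans (bd a le_rfl h)
  have k : ∀ x T b t : ℝ, |x| ≤ b → |x| ≤ 2 * B → |T| ≤ t + ε → 0 ≤ t →
      |x * T| ≤ b * t + 2 * B * ε := fun x T b t e1 e2 e3 e4 => by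
    rw [abs_mul]
    refine (mul_le_mul_of_nonneg_left e3 (abs_nonneg _)).trans ?_
    rw [mul_add]
    exact add_le_add (mul_le_mul_of_nonneg_right e1 e4) (mul_le_mul_of_nonneg_right e2 hε)
  rw [Cw55.abel_eq Y c a K K h le_rfl, Ico_self, sum_empty, mul_zero, sub_zero,
    sum_eq_sum_Ico_succ_bot h fun t => d t * F t]
  have x1 := k _ _ _ _ h1 (by linarith [bd a le_rfl h]) (hY a le_rfl h) (F0 a)
  have x2 : |∑ t ∈ Ico (a + 1) K, (c t - c (t - 1)) * ∑ u ∈ Ico t K, Y u| ≤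
      ∑ t ∈ Ico (a + 1) K, (B * (d t * F t) + 2 * B * ε) :=
    (abs_sum_le_sum_abs _ _).trans (sum_le_sum fun t ht => by
      have ht' := mem_Ico.1 ht
      rw [← mul_assoc]
      exact k _ _ _ _ (h2 t (by omega) ht'.2) ((abs_sub _ _).trans (by
        linarith [bd t (by omega) ht'.2, bd (t - 1) (by omega) (by omega)]))
        (hY t (by omega) ht'.2) (F0 t))
  rw [sum_add_distrib, ← mul_sum, sum_const, nsmul_eq_mul, Nat.card_Ico] at x2
  have x3 : ((K - (a + 1) : ℕ) : ℝ) + 1 ≤ K := by exact_mod_cast (by omega)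
  have x4 := mul_le_mul_of_nonneg_right x3 (by positivity : 0 ≤ 2 * B * ε)
  refine (abs_add_le _ _).trans ?_
  nlinarith

variable {D : CD} {τ0 C : ℝ} {κ : ℕ → ℕ → ℝ}

theorem up_eq (D : CD) : D.up = Ico (D.J + 1) D.K := by
  ext t; simp only [mem_Ioo, mem_Ico]; omega

/-- the diagonal and the rest -/
theorem W_split (S : Ab83.Sit D C κ) {j : ℕ} (hj : j ∈ D.up) (R : ℕ → ℝ) :
    ∑ t ∈ D.up, Ab83.W D j t * R t =
      Ab83.W D j j * R j + ∑ t ∈ D.up, (if t = j then 0 else κ j t) * (D.dx t * R t) := by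
  rw [← add_sum_erase _ _ hj, ← add_sum_erase _ (fun t => (if t = j then 0 else κ j t) * _) hj,
    if_pos rfl, zero_mul, zero_add]
  refine congrArg _ (sum_congr rfl fun t ht => ?_)
  have := mem_erase.1 ht
  rw [S.eq j hj t this.2 this.1, if_neg this.1]
  ring

theorem kap_le (hC : 0 ≤ C) (S : Ab83.Sit D C κ) {j t : ℕ} (hj : j ∈ D.up) (ht : t ∈ D.up) :
    |if t = j then 0 else κ j t| ≤ C := by
  split_ifs with e
  · simpa using hC
  · exact (S.bd j hj t ht e).trans (mul_le_of_le_one_right hC (min_le_left _ _))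

/-- **absolute form** -/
theorem site_abs (H : D.Ok τ0) (hC : 0 ≤ C) (S : Ab83.Sit D C κ) {R a : ℕ → ℝ}
    (hR : ∀ t ∈ D.up, |R t| ≤ a t) :
    |∑ j ∈ D.up, D.om j * ∑ t ∈ D.up, Ab83.W D j t * R t| ≤ C * D.Iw fun j => a j + D.I a := by
  rw [← D.Iw_mul]
  refine D.abs_sum_om fun j hj => ?_
  rw [W_split S hj, mul_add, CD.I, mul_sum]
  refine (abs_add_le _ _).trans (add_le_add (Ed50.abs_mul_le (S.bd' j hj) (hR j hj))
    ((abs_sum_le_sum_abs _ _).trans (sum_le_sum fun t ht => Ed50.abs_mul_le (kap_le hC S hj ht) ?_)))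
  rw [abs_mul, abs_of_nonneg (H.dx0 t)]
  exact mul_le_mul_of_nonneg_left (hR t ht) (H.dx0 t)

/-- the new labels in weak form -/
theorem new_weak (H : D.Ok τ0) (hC : 0 ≤ C) (S : Ab83.Sit D C κ) {j : ℕ} (hj : j ∈ D.up)
    {R G : ℕ → ℝ} {ε : ℝ} (hε : 0 ≤ ε) (G0 : ∀ t, 0 ≤ G t) (Ga : G (j + 1) ≤ G j)
    (hY : ∀ i, D.J < i → i < D.K → |∑ t ∈ Ico i D.K, D.dx t * R t| ≤ G i + ε) :
    |∑ t ∈ D.up, (if t = j then 0 else κ j t) * (D.dx t * (D.τ t / 2 * R t))| ≤
      C * (τ0 + 1) * (D.sv G D.J + 2 * (D.e j * G j) + 2 * D.K * ε) := by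
  have hj' := mem_Ioo.1 hj
  have t0 := H.tau0
  have ej := H.e0 j
  have tb : ∀ t, |D.τ t / 2| ≤ τ0 + 1 := fun t => by
    have := H.tau_mem t
    rw [abs_of_nonneg (by linarith)]; linarith
  have ke : ∀ t ∈ D.up, t ≠ j → |κ j t * (D.τ t / 2)| ≤ C * (τ0 + 1) * D.e (min j t) :=
    fun t ht e => (Ed50.abs_mul_le ((S.bd j hj t ht e).trans
      (mul_le_mul_of_nonneg_left (min_le_right _ _) hC)) (tb t)).trans_eq (by ring)
  have B0 : 0 ≤ C * (τ0 + 1) := by positivity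
  have := abelE (c := fun t => (if t = j then 0 else κ j t) * (D.τ t / 2))
    (Y := fun t => D.dx t * R t) (F := G) (a := D.J + 1) (K := D.K) (B := C * (τ0 + 1))
    (d := fun t => D.dv t + ((if t = j then D.e j else 0) + if t = j + 1 then D.e j else 0))
    (by omega) hε G0
    (fun t a b => Ed50.abs_mul_le (kap_le hC S hj (mem_Ioo.2 ⟨a, b⟩)) (tb t)) ?_
    (fun t a b => ?_) fun i a b => hY i a b
  · rw [← up_eq] at this
    refine le_of_eq_of_le (congrArg _ (sum_congr rfl fun t _ => by ring)) (this.trans ?_)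
    simp only [add_mul, sum_add_distrib, ite_mul, zero_mul, sum_ite_eq', hj, if_true]
    have x : (if j + 1 ∈ D.up then D.e j * G (j + 1) else 0) ≤ D.e j * G j := by
      split_ifs
      · exact mul_le_mul_of_nonneg_left Ga ej
      · exact mul_nonneg ej (G0 j)
    have y := mul_le_mul_of_nonneg_left x B0
    rw [CD.sv]
    nlinarith
  · have d0 := H.dv0 (j := D.J + 1) (by omega)
    show |(if D.J + 1 = j then 0 else _) * _| ≤ _ * (_ + ((if D.J + 1 = j then _ else 0) +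
      if D.J + 1 = j + 1 then _ else 0))
    rw [if_neg (by omega : ¬D.J + 1 = j + 1)]
    split_ifs with e
    · rw [zero_mul, abs_zero]; positivity
    · refine (ke _ (mem_Ioo.2 (by omega)) e).trans_eq ?_
      rw [min_eq_right (by omega), CD.dv, if_pos le_rfl, add_zero, add_zero]
  · have d0 := H.dv0 b.le
    have m1 : t ∈ D.up := mem_Ioo.2 (by omega)
    have m2 : t - 1 ∈ D.up := mem_Ioo.2 (by omega)
    show |(if t = j then 0 else _) * _ - (if t - 1 = j then 0 else _) * _| ≤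
      _ * (_ + ((if t = j then _ else 0) + if t = j + 1 then _ else 0))
    by_cases e1 : t = j
    · rw [if_pos e1, if_pos e1, if_neg (by omega), if_neg (by omega), zero_mul, zero_sub, abs_neg]
      refine (ke _ m2 (by omega)).trans (mul_le_mul_of_nonneg_left ?_ B0)
      linarith [H.e_mono (min_le_left j (t - 1))]
    by_cases e2 : t = j + 1
    · rw [if_neg e1, if_neg e1, if_pos (by omega), if_pos e2, zero_mul, sub_zero]
      refine (ke _ m1 e1).trans (mul_le_mul_of_nonneg_left ?_ B0)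
      linarith [H.e_mono (min_le_left j t)]
    rw [if_neg e1, if_neg e1, if_neg (by omega), if_neg e2, add_zero, add_zero]
    have l1 := S.lip j hj (t - 1) m2 (by rwa [show t - 1 + 1 = t by omega]) (by omega) (by omega)
    rw [show t - 1 + 1 = t by omega] at l1
    have l2 := (Cw55.dv_dom H.ook H.mono a b.le).2.1
    have l3 := (S.bd j hj _ m2 (by omega)).trans (mul_le_of_le_one_right hC (min_le_left _ _))
    have l4 : |D.τ t / 2| ≤ τ0 := by
      have := H.tau_mem t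
      rw [abs_of_nonneg (by linarith)]; linarith
    have l5 : |D.τ t / 2 - D.τ (t - 1) / 2| ≤ D.dv t := by
      rw [← sub_div, abs_div, abs_two]; linarith
    rw [show κ j t * (D.τ t / 2) - κ j (t - 1) * (D.τ (t - 1) / 2) = (κ j t - κ j (t - 1)) *
      (D.τ t / 2) + κ j (t - 1) * (D.τ t / 2 - D.τ (t - 1) / 2) by ring]
    exact ((abs_add_le _ _).trans (add_le_add (Ed50.abs_mul_le l1 l4)
      (Ed50.abs_mul_le l3 l5))).trans_eq (by ring)

theorem dv_W (hC : 0 ≤ C) (S : Ab83.Sit D C κ) :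
    Cw55.DV D.dv D.J D.K C 0 fun j => Ab83.W D j j :=
  ⟨hC, fun t a b => S.bd' t (mem_Ioo.2 ⟨a, b⟩), ∅, le_rfl, fun t a b _ => by
    have := S.lip' (t - 1) (mem_Ioo.2 (by omega)) (mem_Ioo.2 (by omega))
    rwa [show t - 1 + 1 = t by omega] at this⟩

/-- the marked label in weak form -/
theorem old_weak (H : D.Ok τ0) (hC : 0 ≤ C) (S : Ab83.Sit D C κ) {R G : ℕ → ℝ} {ε : ℝ}
    (hε : 0 ≤ ε) (G0 : ∀ t, 0 ≤ G t) (Ga : ∀ t, G (t + 1) ≤ G t)
    (hY : ∀ i, D.J < i → i < D.K → |∑ t ∈ Ico i D.K, D.om t * R t| ≤ G i + ε) :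
    |∑ j ∈ D.up, D.om j * (Ab83.W D j j * (D.τ j / 2 * R j))| ≤
      2 * (C * (τ0 + 1)) * (D.fs G D.J + (D.K + 1) * ε) := by
  have := Cw55.abel (fun t _ b => H.dv0 b.le) ((dv_W hC S).mul ((Cw55.dv_tau H le_rfl).smul (1 / 2)))
    (Y := fun t => D.om t * R t) hε G0 Ga (fun i a b => by
      rcases b.lt_or_eq with b | b
      · exact hY i a b
      · rw [b, Ico_self, sum_empty, abs_zero]; linarith [G0 D.K]) le_rfl
  rw [← up_eq, ← Cw55.fs_eq, abs_of_pos (by norm_num : (0 : ℝ) < 1 / 2)] at this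
  refine le_of_eq_of_le (congrArg _ (sum_congr rfl fun t _ => by ring)) (this.trans_eq ?_)
  push_cast
  ring

/-- **weak form** -/
theorem site_weak (H : D.Ok τ0) (hC : 0 ≤ C) (S : Ab83.Sit D C κ) {R G G' : ℕ → ℝ} {ε ε' : ℝ}
    (hε : 0 ≤ ε) (G0 : ∀ t, 0 ≤ G t) (Ga : ∀ t, G (t + 1) ≤ G t)
    (hY : ∀ i, D.J < i → i < D.K → |∑ t ∈ Ico i D.K, D.dx t * R t| ≤ G i + ε)
    (hε' : 0 ≤ ε') (G0' : ∀ t, 0 ≤ G' t) (Ga' : ∀ t, G' (t + 1) ≤ G' t)
    (hY' : ∀ i, D.J < i → i < D.K → |∑ t ∈ Ico i D.K, D.om t * R t| ≤ G' i + ε') :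
    |∑ j ∈ D.up, D.om j * ∑ t ∈ D.up, Ab83.W D j t * (D.τ t / 2 * R t)| ≤
      2 * (C * (τ0 + 1)) * (D.fs G' D.J + (D.K + 1) * ε') +
        C * (τ0 + 1) * D.Iw fun j => D.sv G D.J + 2 * (D.e j * G j) + 2 * D.K * ε := by
  rw [sum_congr rfl fun j hj => by rw [W_split S hj, mul_add], sum_add_distrib, ← D.Iw_mul]
  exact (abs_add_le _ _).trans (add_le_add (old_weak H hC S hε' G0' Ga' hY')
    (D.abs_sum_om fun j hj => new_weak H hC S hj hε G0 (Ga j) hY))

/-- the bulk factor of `[aU, bL]` -/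
def RL (D : CD) (t : ℕ) : ℝ := twoF t (oU D.q t)
  (Dop D.B (lt D.n D.β D.M D.q D.cl (true, false)).1 (TEf (fun _ => 1) D.B 0))

/-- the bulk input -/
def TL : Prop := ∀ τ0 : ℝ, ∃ C : ℝ, 0 ≤ C ∧ ∀ D : CD, D.Ok τ0 → D.W.isSome = true →
  ∃ On : ℕ → ℝ, (∀ t ∈ D.up, |RL D t - On t| ≤ C * (D.X ^ 4 * D.g t + D.tl)) ∧
    (∀ i, D.J < i → i < D.K →
      |∑ t ∈ Ico i D.K, D.dx t * On t| ≤ C * (D.X ^ 3 * D.G0 i + D.tl)) ∧
    ∀ i, D.J < i → i < D.K →
      |∑ t ∈ Ico i D.K, D.om t * On t| ≤ C * (D.X ^ 3 * D.F1 i + (1 + D.wt) * D.tl)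

theorem sv_mul (D : CD) (a : ℝ) (F : ℕ → ℝ) (j : ℕ) : D.sv (fun t => a * F t) j = a * D.sv F j := by
  simp only [CD.sv, mul_sum, mul_left_comm a]

theorem abL_of (T : TL) : Bd true fun D => D.tw [aU, bL] := fun τ0 => by
  obtain ⟨C, hC, hS⟩ := sitS
  obtain ⟨C', hC', hT⟩ := T τ0
  refine ⟨C * (|τ0| + 1) * C' * 16, by positivity, fun D H hW => ?_⟩
  obtain ⟨κ, S⟩ := hS τ0 D H
  obtain ⟨On, h1, h2, h3⟩ := hT D H hW
  have t0 := H.tau0
  have X0 := H.X0
  have tl := H.tl0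
  have w0 := D.wt0
  have K0 : (0 : ℝ) ≤ D.K := Nat.cast_nonneg _
  rw [abs_of_nonneg t0]
  have A := site_abs H hC S (R := fun t => D.τ t / 2 * (RL D t - On t))
    (a := fun t => (τ0 + 1) * (C' * (D.X ^ 4 * D.g t + D.tl))) fun t ht => Ed50.abs_mul_le (by
      have := H.tau_mem t
      rw [abs_of_nonneg (by linarith)]; linarith) (h1 t ht)
  have B := site_weak H hC S (R := On) (G := fun i => C' * D.X ^ 3 * D.G0 i) (ε := C' * D.tl)
    (G' := fun i => C' * D.X ^ 3 * D.F1 i) (ε' := C' * ((1 + D.wt) * D.tl)) (by positivity)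
    (fun t => mul_nonneg (by positivity) (H.G00 t))
    (fun t => mul_le_mul_of_nonneg_left (H.wg0.anti t).1 (by positivity))
    (fun i a b => (h2 i a b).trans_eq (by ring)) (by positivity)
    (fun t => mul_nonneg (by positivity) (H.F10 t))
    (fun t => mul_le_mul_of_nonneg_left (H.wk1.anti t).1 (by positivity))
    fun i a b => (h3 i a b).trans_eq (by ring)
  have e : D.tw [aU, bL] =
      ∑ j ∈ D.up, D.om j * ∑ t ∈ D.up, Ab83.W D j t * (D.τ t / 2 * (RL D t - On t)) +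
        ∑ j ∈ D.up, D.om j * ∑ t ∈ D.up, Ab83.W D j t * (D.τ t / 2 * On t) := by
    rw [tw_red true H hW, ← sum_add_distrib]
    refine sum_congr rfl fun j _ => ?_
    rw [← mul_add, ← sum_add_distrib]
    refine congrArg _ (sum_congr rfl fun t _ => ?_)
    rw [RL]
    ring
  have cw : ∀ a : ℝ, (D.Iw fun _ => a) = a * D.wt := fun a => by
    rw [CD.wt_test hW, ← D.Iw_mul]; simp only [mul_one]
  have eA : (D.Iw fun j => (τ0 + 1) * (C' * (D.X ^ 4 * D.g j + D.tl)) +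
      D.I fun t => (τ0 + 1) * (C' * (D.X ^ 4 * D.g t + D.tl))) = (τ0 + 1) * C' *
        (D.Iw (fun j => D.X ^ 4 * D.g j) + D.wt * D.tl +
          D.wt * (D.X ^ 4 * D.N1 + D.I fun _ => D.tl)) := by
    simp only [D.Iw_add, D.I_add, D.I_mul, D.Iw_mul, cw, CD.N1, mul_add]
    ring
  have eB : (D.Iw fun j => D.sv (fun i => C' * D.X ^ 3 * D.G0 i) D.J +
      2 * (D.e j * (C' * D.X ^ 3 * D.G0 j)) + 2 * D.K * (C' * D.tl)) =
      C' * (D.X ^ 3 * (D.wt * D.sv D.G0 D.J) + 2 * D.Iw (fun j => D.X ^ 3 * (D.e j * D.G0 j)) +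
        2 * (D.wt * (D.K * D.tl))) := by
    have : ∀ j, 2 * (D.e j * (C' * D.X ^ 3 * D.G0 j)) = 2 * C' * (D.X ^ 3 * (D.e j * D.G0 j)) :=
      fun j => by ring
    simp only [this, D.Iw_add, sv_mul, cw, D.Iw_mul (2 * C')]
    ring
  have eC : D.fs (fun i => C' * D.X ^ 3 * D.F1 i) D.J = C' * (D.X ^ 3 * D.fs D.F1 D.J) := by
    rw [CD.fs, CD.fs, sv_mul]; ring
  rw [eA] at A
  rw [eB, eC] at B
  have E1 := H.E1_le hW
  have E0 := H.wtE0_le
  have b1 := H.IwXg_le
  have b2 := mul_le_mul_of_nonneg_left H.tl_le w0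
  have b3 := mul_le_mul_of_nonneg_left H.XN1_le w0
  have b4 := mul_le_mul_of_nonneg_left ((H.I_le tl fun _ _ => le_rfl).trans H.tl_le) w0
  have b5 := H.XF0_le
  have b6 := H.IwXeF_le
  have b7 := mul_le_mul_of_nonneg_left H.K1tl_le w0
  have b8 : D.X ^ 3 * D.fs D.F1 D.J ≤ D.E1 := le_trans (mul_le_mul_of_nonneg_right
    (le_add_of_nonneg_left H.Lv10) (H.fs0 H.F10 _)) H.LvF1_le
  have b9 : (D.K + 1) * D.tl ≤ D.E1 := by
    refine le_trans ?_ (H.stw.trans H.Z_le)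
    refine le_trans ?_ (le_add_of_nonneg_left (D.Iw0 fun j _ => mul_nonneg (D.g0 j) (add_nonneg
      (mul_nonneg (abs_nonneg _) (D.g0 j)) (H.I0 fun t _ => mul_nonneg (abs_nonneg _) (D.g0 t)))))
    exact mul_le_mul_of_nonneg_right (by nlinarith) tl
  have p0 : 0 ≤ C * (τ0 + 1) * C' := by positivity
  have s1 : D.Iw (fun j => D.X ^ 4 * D.g j) + D.wt * D.tl +
      D.wt * (D.X ^ 4 * D.N1 + D.I fun _ => D.tl) ≤ 4 * D.Err := by linarith
  have s2 : 2 * (D.X ^ 3 * D.fs D.F1 D.J + (D.K + 1) * ((1 + D.wt) * D.tl)) +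
      (D.X ^ 3 * (D.wt * D.sv D.G0 D.J) + 2 * D.Iw (fun j => D.X ^ 3 * (D.e j * D.G0 j)) +
        2 * (D.wt * (D.K * D.tl))) ≤ 12 * D.Err := by
    linarith [mul_nonneg w0 tl, H.Err0]
  have s3 := mul_le_mul_of_nonneg_left s1 p0
  have s4 := mul_le_mul_of_nonneg_left s2 p0
  refine (congrArg abs e).trans_le ((abs_add_le _ _).trans ?_)
  linarith

end Crest.Agent.T156.Cas.C40.Ab45

end
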