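import Crest.Agent.T156.MulB_55
import Crest.Agent.T156.CEx_23
import Crest.Agent.T156.CErr_54

-- ▼ part T156/CLow_4
section

/-!
# Row 156, block C: a low letter on a shape without low pairs costs the low weight (helper4)
-/

set_option autoImplicit false
set_option linter.all false

noncomputable section

namespace Crest.Agent.T156.Cas.Low4

open MeasureTheory Real Set Filter Topology
open Crest.Agent.T157.E Crest.Agent.T157.Casc Crest.Agent.T157.SL
open Tay38 Wt87 Mul55

variable {Ω : Type} {M : List (Lv Ω)} {g : ℕ → ℝ}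

/-- indicator of the low levels -/
def chi (J j : ℕ) : ℝ := if j ≤ J then 1 else 0

theorem chi_nonneg (J j : ℕ) : 0 ≤ chi J j := by unfold chi; split_ifs <;> norm_num

theorem Nv_lin (a b : ℝ) (g g' : ℕ → ℝ) (s : Sh) :
    Nv M (fun j => a * g j + b * g' j) s = a * Nv M g s + b * Nv M g' s := by
  have := Nv_sum (ι := Bool) M (fun i => cond i a b) (fun i => cond i g g') s
  simpa only [Fintype.sum_bool, cond_true, cond_false] using this

theorem Nv_chi (hM : Mono 0 M) {J : ℕ} (s : Sh) (hs : ∀ a b : s.Lf, J < s.shr a b M.length) :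
    Nv M (chi J) s = ex M J := by
  have hJ : J < M.length := (hs s.fst s.fst).trans_le (shr_le _ _ _ _)
  have e1 : prs s (fun a b => chi J (s.shr a b M.length)) = 0 :=
    Finset.sum_eq_zero fun a _ => Finset.sum_eq_zero fun b _ => by
      simp [chi, not_le.2 (hs a b)]
  have e2 := sum_dm M 0 J
  rw [Nv, e1, zero_add, ← sub_zero (ex M J), ← e2]
  symm
  refine (Finset.sum_subset (fun j hj => Finset.mem_range.2 (by
    have := Finset.mem_range.1 hj; omega)) fun j _ hj => ?_ : ∑ j ∈ Finset.range (J + 1),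
      dm M 0 j * chi J j = _).symm.trans ?_ |>.symm
  · rw [chi, if_neg (fun h => hj (Finset.mem_range.2 (Nat.lt_succ_of_le h))), mul_zero]
  · exact Finset.sum_congr rfl fun j hj => by
      rw [chi, if_pos (Nat.lt_succ_iff.1 (Finset.mem_range.1 hj)), mul_one]

/-- **one low step** -/
theorem abs_Dop_low (hM : Mono 0 M) (hg : ∀ j, 0 ≤ g j) {J : ℕ} (hgJ : ∀ j ≤ J, g j = 0)
    {S : ℕ → Ω → Ω → ℝ} {Λ : Fn Ω} (s : Sh) (hs : ∀ a b : s.Lf, J < s.shr a b M.length)
    (F : (s.Lf → Ω) → ℝ) {α β : ℝ} (hα : 0 ≤ α) (hβ : 0 ≤ β)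
    (H : ∀ (s' : Sh) (e : s.Lf → s'.Lf) (c d : s'.Lf) (i : ℕ), c ≠ d → s'.shr c d M.length = i →
      ((∃ h : s = s', e = h ▸ id) ∨ (∃ a j, ∃ h : s.graft a j = s', e = h ▸ s.emb a j) ∨
        ∃ a j a' j', ∃ h : (s.graft a j).graft a' j' = s',
          e = h ▸ fun b => (s.graft a j).emb a' j' (s.emb a j b)) →
      |Λ s' fun x => F (fun b => x (e b)) * S i (x c) (x d)| ≤ chi J i * (α + β * Nv M g s')) :
    |Dop M S Λ s F| ≤ 43 * (Fintype.card s.Lf : ℝ) ^ 3 * (ex M J * (α + β * Nv M g s)) := by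
  obtain ⟨r, hr⟩ : ∃ r : ℝ, r = (Fintype.card s.Lf : ℕ) := ⟨_, rfl⟩
  obtain ⟨N, hN⟩ : ∃ N, N = Nv M g s := ⟨_, rfl⟩
  obtain ⟨x, hx⟩ : ∃ x, x = ex M J := ⟨_, rfl⟩
  rw [← hr, ← hN, ← hx]
  have r1 : 1 ≤ r := hr ▸ one_le_card s
  have N0 : 0 ≤ N := hN ▸ Nv_nonneg hM hg s
  have x0 : 0 ≤ x := hx ▸ Nv_chi hM s hs ▸ Nv_nonneg hM (chi_nonneg J) s
  have g1 : ∀ a j, j ≤ M.length → Nv M g (s.graft a j) ≤ 3 * N + 2 * r * g j :=
    fun a j hj => hr ▸ hN ▸ Nv_graft hM hg s a hj
  have aff : ∀ {X : s.Lf → ℕ → ℝ} {α β γ : ℝ}, 0 ≤ β → 0 ≤ γ →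
      (∀ a j, j ≤ M.length → |X a j| ≤ α + β * g j + γ * chi J j) →
      |∑ a, ∑ j ∈ Finset.range (M.length + 1), cw s M a j * X a j| ≤ r * (α + β * N + γ * x) :=
    fun {X α β γ} h1 h2 h3 => by
      have := sum_cw_aff (g := fun j => β * g j + γ * chi J j) hM
        (fun j => add_nonneg (mul_nonneg h1 (hg j)) (mul_nonneg h2 (chi_nonneg J j))) s (X := X)
        (α := α) zero_le_one fun a j hj => by rw [one_mul, ← add_assoc]; exact h3 a j hj
      rwa [Nv_lin, Nv_chi hM s hs, one_mul, ← add_assoc, ← hr, ← hN, ← hx] at this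
  have crd : ∀ {X : s.Lf → ℝ} {c : ℝ}, (∀ a, |X a| ≤ c) → |∑ a, X a| ≤ r * c :=
    fun h => hr ▸ abs_sum_le_card h
  have g2 : ∀ a j a' j', j ≤ M.length → j' ≤ M.length → Nv M g ((s.graft a j).graft a' j') ≤
      9 * N + 6 * r * g j + 4 * r * g j' := fun a j a' j' hj hj' => by
    have h1 := Nv_graft hM hg (s.graft a j) a' hj'
    have h2 := g1 a j hj
    have h3 := mul_nonneg (sub_nonneg.2 r1) (hg j')
    rw [card_graft] at h1
    push_cast at h1
    rw [← hr] at h1
    linarith
  have lv : ∀ a b j, j ≤ M.length → chi J (s.shr a b j) = chi J j := fun a b j hj => by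
    have h1 := shr_min s a b j M.length
    have h2 := hs a b
    rw [min_eq_left hj] at h1
    unfold chi
    exact if_congr (by omega) rfl rfl
  have b1 : |Dop1 M S Λ s F| ≤ r * (r * 0) :=
    crd fun a => crd fun b => by
      split_ifs with hab
      · rw [abs_zero]
      · refine (H s id a b _ hab rfl (.inl ⟨rfl, rfl⟩)).trans ?_
        rw [chi, if_neg (not_le.2 (hs a b)), zero_mul]
  have k1 : ∀ a b c j, j ≤ M.length → chi J (s.shr b c j) * (α + β * Nv M g (s.graft a j)) ≤
      (α + 3 * β * N) * chi J j := fun a b c j hj => by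
    rw [lv b c j hj]
    unfold chi
    split_ifs with h
    · have := mul_le_mul_of_nonneg_left (g1 a j hj) hβ
      rw [hgJ j h] at this
      linarith
    · simp
  have b2 : |Dop2 M S Λ s F| ≤ r * (0 + 0 * N + 2 * r * (α + 3 * β * N) * x) := by
    refine aff le_rfl (by positivity) fun a j hj => (abs_add_le _ _).trans ?_
    have h1 := crd fun b => (H _ (s.emb a j) (s.emb a j b) (s.nw a j) (s.shr b a j)
      (emb_ne s a j b) (by rw [shr_nw, min_eq_left hj]) (.inr (.inl ⟨a, j, rfl, rfl⟩))).trans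
        (k1 a b a j hj)
    have h2 := crd fun b => (H _ (s.emb a j) (s.nw a j) (s.emb a j b) (s.shr a b j)
      (emb_ne s a j b).symm (by rw [shr_nw', min_eq_left hj, shr_comm])
        (.inr (.inl ⟨a, j, rfl, rfl⟩))).trans (k1 a a b j hj)
    linarith
  have hA : 0 ≤ α + 9 * β * N := by positivity
  have b3 : |Dop3 M S Λ s F| ≤ r * (r * x * (α + 9 * β * N) + 4 * r ^ 2 * β * x * N +
      (r * (α + 9 * β * N + 6 * r * β * N) + (α + 9 * β * N)) * x) := by
    refine aff (by positivity) (by positivity) fun a j hj => (abs_add_le _ _).trans ?_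
    have c0 := chi_nonneg J j
    have g0 := hg j
    have h1 := aff (α := chi J j * (α + 9 * β * N)) (β := chi J j * (6 * r * β))
      (γ := α + 9 * β * N + 4 * r * β * g j)
      (by positivity) (by positivity) fun b k hk => (H _
        (fun c => (s.graft b k).emb (s.emb b k a) j (s.emb b k c))
        ((s.graft b k).nw (s.emb b k a) j) ((s.graft b k).emb (s.emb b k a) j (s.nw b k))
        (s.shr a b (min j k)) (emb_ne _ _ _ _).symm
        (by rw [shr_nw', min_eq_left hj, shr_nw', min_comm])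
        (.inr (.inr ⟨b, k, _, j, rfl, rfl⟩))).trans (by
          have h := mul_le_mul_of_nonneg_left (g2 b k (s.emb b k a) j hk hj) hβ
          have gk := hg k
          have p1 : 0 ≤ r * β * g j := by positivity
          have p2 : 0 ≤ r * β * g k := by positivity
          rw [lv a b _ ((min_le_left _ _).trans hj)]
          unfold chi
          by_cases h1 : j ≤ J <;> by_cases h2 : k ≤ J
          · rw [if_pos ((min_le_left _ _).trans h1), if_pos h1, if_pos h2]
            linarith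
          · rw [if_pos ((min_le_left _ _).trans h1), if_pos h1, if_neg h2]
            rw [hgJ j h1] at h
            linarith
          · rw [if_pos ((min_le_right _ _).trans h2), if_neg h1, if_pos h2]
            rw [hgJ k h2] at h
            linarith
          · rw [if_neg (by omega), if_neg h1, if_neg h2]
            simp)
    have hd := fun i => dm_nonneg (mono_drop j le_rfl hM) i
    have h2 : ∀ i ∈ Finset.range (M.length - j + 1), _ := fun i hi => by
      have hi' : i + j ≤ M.length := by have := Finset.mem_range.1 hi; omega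
      exact mul_le_mul_of_nonneg_left ((H _ (fun b => (s.graft a j).emb (s.nw a j) (i + j)
        (s.emb a j b)) ((s.graft a j).emb (s.nw a j) (i + j) (s.nw a j))
        ((s.graft a j).nw (s.nw a j) (i + j)) (i + j) (emb_ne _ _ _ _)
        (by rw [shr_nw, shr_self, min_eq_left hi']) (.inr (.inr ⟨a, j, _, _, rfl, rfl⟩))).trans
        (show _ ≤ (α + 9 * β * N) * chi J j by
          have h := mul_le_mul_of_nonneg_left (g2 a j (s.nw a j) (i + j) hj hi') hβ
          by_cases h1 : i + j ≤ J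
          · rw [hgJ _ h1, hgJ j (by omega)] at h
            rw [chi, chi, if_pos h1, if_pos (by omega)]
            linarith
          · rw [chi, if_neg h1, zero_mul]
            positivity)) (hd i)
    have h3 := Finset.sum_le_sum h2
    rw [← Finset.sum_mul] at h3
    have h5 := mul_le_mul_of_nonneg_right (sum_dm_one hM j (M.length - j))
      (show 0 ≤ (α + 9 * β * N) * chi J j by positivity)
    refine (add_le_add h1 ((Finset.abs_sum_le_sum_abs _ _).trans ((Finset.sum_le_sum fun i _ =>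
      (by rw [abs_mul, abs_of_nonneg (hd i)] : _ = _).le).trans h3))).trans ?_
    linarith
  have hb : 0 ≤ x * (β * N) := by positivity
  have ha : 0 ≤ x * α := by positivity
  have r2 : r ≤ r ^ 2 := by nlinarith
  have r3 : r ^ 2 ≤ r ^ 3 := by nlinarith
  have e1 := mul_le_mul_of_nonneg_right r2 ha
  have e2 := mul_le_mul_of_nonneg_right r3 ha
  have e3 := mul_le_mul_of_nonneg_right r2 hb
  have e4 := mul_le_mul_of_nonneg_right r3 hb
  have e5 : 0 ≤ r ^ 3 * (x * α) := by positivity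
  have e6 : 0 ≤ r ^ 3 * (x * (β * N)) := by positivity
  refine ((abs_add_le _ _).trans (add_le_add (abs_sub _ _) le_rfl)).trans ?_
  linarith

theorem Nv_le (hM : Mono 0 M) {c : ℝ} (hc : 0 ≤ c) (h : ∀ j ≤ M.length, g j ≤ c) (s : Sh) :
    Nv M g s ≤ ((Fintype.card s.Lf : ℝ) ^ 2 + 1) * c := by
  have h1 : prs s (fun a b => g (s.shr a b M.length)) ≤ ∑ a : s.Lf, ∑ b : s.Lf, c :=
    Finset.sum_le_sum fun a _ => Finset.sum_le_sum fun b _ => by
      split_ifs
      exacts [hc, h _ (shr_le _ _ _ _)]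
  have h2 : ∑ j ∈ Finset.range (M.length + 1), dm M 0 j * g j ≤
      ∑ j ∈ Finset.range (M.length + 1), dm M 0 j * c := Finset.sum_le_sum fun j hj =>
    mul_le_mul_of_nonneg_left (h j (Nat.lt_succ_iff.1 (Finset.mem_range.1 hj))) (dm_nonneg hM j)
  have h3 : ∑ j ∈ Finset.range (M.length + 1), dm M 0 j ≤ 1 := sum_dm_one hM 0 _
  rw [← Finset.sum_mul] at h2
  simp only [Finset.sum_const, Finset.card_univ, nsmul_eq_mul] at h1
  have := mul_le_mul_of_nonneg_right h3 hc
  rw [Nv]
  nlinarith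

variable [Fintype Ω] {w : Ω → ℝ}

/-- the constant -/
def cLow (k q r : ℕ) : ℝ := 43 * ((r : ℝ) + 2 * (k + 1)) ^ 3 * (53 * ((r : ℝ) + 2 * (k + 1)) ^ 3) ^ k *
  ((r : ℝ) + 2 * (k + 1)) ^ (2 * q) * (((r : ℝ) + 2 * (k + 1)) ^ 2 + 1)

theorem cLow_nonneg (k q r : ℕ) : 0 ≤ cLow k q r := by unfold cLow; positivity

/-- **a word whose first letter is low, on a shape without low pairs** (Young form; `T true` is the
size on the low levels, `T false` the size on the upper levels) -/
theorem abs_WdO_low (hw : Wt w) (hM : Mono 0 M) {T : Bool → ℕ → Ω → Ω → ℝ}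
    (hT : ∀ i j x y, 0 ≤ T i j x y) (h : Ω → ℝ) {J : ℕ} (hTU : ∀ j ≤ J, ∀ x y, T false j x y = 0)
    (q : Bool → ℕ) {Q : ℕ} (hQ : ∀ i, q i ≤ Q) {A c : ℝ} {B : Bool → ℝ} (hA : 0 ≤ A)
    (hB : ∀ i, 0 ≤ B i) (hc0 : 0 ≤ c)
    (hc : ∀ j ≤ M.length, pi2 w M j (fun x y => T true j x y ^ (q true + 1)) h ≤ c)
    {p : (ℕ → Ω → Ω → ℝ) × ((Bool → ℝ) → ℝ)} {U : List ((ℕ → Ω → Ω → ℝ) × ((Bool → ℝ) → ℝ))}
    (hU : ∀ r ∈ p :: U, Dom M.length T r) (hp : ∀ i, J < i → ∀ x y, p.1 i x y = 0)
    (s : Sh) (hs : ∀ a b : s.Lf, J < s.shr a b M.length) {F : (s.Lf → Ω) → ℝ}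
    (H : ∀ x d, (∀ i, Dv M.length (T i) s x ≤ d i) →
      |F x| * ((p :: U).map fun r => r.2 d).prod ≤ A + ∑ i, B i * d i ^ (q i + 1)) :
    |WdO M ((p :: U).map Prod.fst) (TEf w M h) s F| ≤ cLow U.length Q (Fintype.card s.Lf) *
      (ex M J * (A + B true * c + B false * momT w M h (T false) (q false + 1) s)) := by
  obtain ⟨R, hR⟩ : ∃ R : ℝ, R = (Fintype.card s.Lf : ℝ) + 2 * (U.length + 1) := ⟨_, rfl⟩
  have r1 := one_le_card s
  have hk : (0 : ℝ) ≤ U.length := Nat.cast_nonneg _
  have R0 : 0 ≤ R := by linarith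
  set C := (53 * R ^ 3) ^ U.length * R ^ (2 * Q) with hC
  have C0 : 0 ≤ C := by positivity
  have hBt := hB true
  have hBf := hB false
  set g : ℕ → ℝ := fun j => pi2 w M j (fun x y => T false j x y ^ (q false + 1)) h with hg'
  have hg : ∀ j, 0 ≤ g j := fun j => pi2_nonneg hw M j (fun x y => pow_nonneg (hT _ j x y) _) h
  have hgJ : ∀ j ≤ J, g j = 0 := fun j hj => by
    simp only [hg', hTU j hj, zero_pow (Nat.succ_ne_zero _), pi2_const hw]
  have key : ∀ (s' : Sh) (e : s.Lf → s'.Lf) (c' d : s'.Lf) (i : ℕ), c' ≠ d →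
      s'.shr c' d M.length = i → (Fintype.card s'.Lf : ℝ) ≤ Fintype.card s.Lf + 2 →
      (∀ k, ∀ x : s'.Lf → Ω, Dv M.length (T k) s (fun b => x (e b)) ≤ Dv M.length (T k) s' x) →
      |WdO M (U.map Prod.fst) (TEf w M h) s' fun x => F (fun b => x (e b)) * p.1 i (x c') (x d)| ≤
        chi J i * (C * (A + B true * ((R ^ 2 + 1) * c)) + C * B false * Nv M g s') :=
    fun s' e c' d i hcd hi h1 h3 => by
      by_cases hiJ : i ≤ J
      swap
      · simp only [hp i (not_le.1 hiJ), mul_zero, chi, if_neg hiJ, zero_mul]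
        have := word_le hw hM hT h q hQ (B := fun _ => 0) (fun _ => le_rfl) (R := R) U
          (fun r hr => hU r (List.mem_cons_of_mem _ hr)) s' (fun _ => 0) (fun _ => 0) (by linarith)
          (fun _ => le_rfl) fun x d' hd => by simp
        simpa [Law.TE_const hw] using this
      rw [chi, if_pos hiJ, one_mul]
      refine (word_le hw hM hT h q hQ hB (R := R) U (fun r hr => hU r (List.mem_cons_of_mem _ hr))
        s' _ (fun _ => A) (by linarith) (fun _ => hA) fun x d' hd => ?_).trans ?_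
      · refine le_trans ?_ (H _ d' fun k => (h3 k x).trans (hd k))
        have hiK : i ≤ M.length := hi ▸ Wt87.shr_le s' c' d _
        have h0 : ∀ k, T k i (x c') (x d) ≤ d' k := fun k => le_trans (hi ▸ le_prs s'
          (G := fun a b => T k (s'.shr a b M.length) (x a) (x b)) (fun _ _ => hT _ _ _ _) hcd) (hd k)
        have h4 := hU p List.mem_cons_self i hiK _ _ d' h0
        have h5 : 0 ≤ (U.map fun p => p.2 d').prod := List.prod_nonneg fun y hy => by
          obtain ⟨r, hr, rfl⟩ := List.mem_map.1 hy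
          exact (abs_nonneg _).trans (hU r (List.mem_cons_of_mem _ hr) i hiK _ _ d' h0)
        rw [abs_mul, List.map_cons, List.prod_cons, mul_assoc]
        gcongr
      · have h6 : momT w M h (T true) (q true + 1) s' ≤ (R ^ 2 + 1) * c :=
          (Nv_le hM hc0 hc s').trans (by gcongr; linarith)
        have h7 := mul_le_mul_of_nonneg_left (mul_le_mul_of_nonneg_left h6 hBt) C0
        rw [Law.TE_const hw, Fintype.sum_bool, ← hC]
        change C * (A + (_ + B false * Nv M g s')) ≤ _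
        linarith
  rw [List.map_cons, WdO_cons]
  refine (abs_Dop_low hM hg hgJ s hs F (α := C * (A + B true * ((R ^ 2 + 1) * c)))
    (β := C * B false) (by positivity) (by positivity) fun s' e c d i hcd hi H' => ?_).trans ?_
  · rcases H' with ⟨rfl, rfl⟩ | ⟨a, j, rfl, rfl⟩ | ⟨a, j, a', j', rfl, rfl⟩
    · exact key s id c d i hcd hi (by linarith) fun _ _ => le_rfl
    · exact key _ _ c d i hcd hi (by rw [card_graft]; push_cast; linarith)
        fun k => Dv_graft (hT k) _ s a j
    · exact key _ _ c d i hcd hi (by rw [card_graft, card_graft]; push_cast; linarith)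
        fun k x => (Dv_graft (hT k) _ s a j fun b => x ((s.graft a j).emb a' j' b)).trans
          (Dv_graft (hT k) _ _ a' j' x)
  · have h1 : (Fintype.card s.Lf : ℝ) ^ 3 ≤ R ^ 3 := by gcongr; linarith
    have h3 := Nv_nonneg hM hg s
    have x0 : 0 ≤ ex M J := Nv_chi hM s hs ▸ Nv_nonneg hM (chi_nonneg J) s
    have h4 : C * (A + B true * ((R ^ 2 + 1) * c)) + C * B false * Nv M g s ≤
        C * (R ^ 2 + 1) * (A + B true * c + B false * Nv M g s) := by
      have e1 : 0 ≤ C * R ^ 2 * A := by positivity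
      have e2 : 0 ≤ C * R ^ 2 * (B false * Nv M g s) := by positivity
      linarith
    calc _ ≤ 43 * R ^ 3 * (ex M J * (C * (R ^ 2 + 1) * (A + B true * c + B false * Nv M g s))) := by
          gcongr
      _ = _ := by rw [hC, cLow, ← hR, momT]; ring

end Crest.Agent.T156.Cas.Low4

end
end

-- ▼ part T156/CCr4T_4

/-!
# Row 156, block C: crude words of degree four, test direction (helper4)
-/

set_option autoImplicit false
set_option linter.all false

noncomputable section

namespace Crest.Agent.T156.Cas.C40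

open MeasureTheory Real Set Filter Topology
open Crest.Agent.T157.E Crest.Agent.T157.Casc Crest.Agent.T157.SL
open Crest.Agent.T157.G1 (ov)
open Mul55 Tay38 Wt87 Low4

namespace T4

/-- degree carried by a cell -/
def dC (c : Bool) (f : List Lt) : ℕ := (f.map fun a => if a.1 = c then dg a else 0).sum

theorem dC_cons (c : Bool) (a : Lt) (f : List Lt) :
    dC c (a :: f) = (if a.1 = c then dg a else 0) + dC c f := by simp [dC]

theorem deg_eq : ∀ f : List Lt, deg f = dC true f + dC false f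
  | [] => rfl
  | a :: f => by
      have := deg_eq f
      rw [dC_cons, dC_cons, deg, List.map_cons, List.sum_cons]
      rw [deg] at this
      obtain ⟨c, b⟩ := a
      cases c <;> simp [this] <;> omega

theorem par : ∀ f : List Lt, dC true f % 2 = f.count aL % 2
  | [] => rfl
  | a :: f => by
      have := par f
      rw [dC_cons, List.count_cons]
      obtain ⟨c, b⟩ := a
      cases c <;> cases b <;> simp [dg] <;> omega


theorem dC_pos {c : Bool} : ∀ {f : List Lt}, 0 < dC c f ↔ ∃ a ∈ f, a.1 = c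
  | [] => by simp [dC]
  | a :: f => by
      have h := dg_pos a
      rw [dC_cons, Nat.add_pos_iff_pos_or_pos, dC_pos]
      by_cases e : a.1 = c <;> simp [e, h]

theorem dC_perm (c : Bool) {f f' : List Lt} (p : f.Perm f') : dC c f = dC c f' := (p.map _).sum_eq

theorem prod_eq (τ : ℝ) (d : Bool → ℝ) : ∀ f : List Lt, (f.map fun a => τ * d a.1 ^ dg a).prod =
    τ ^ f.length * (d true ^ dC true f * d false ^ dC false f)
  | [] => by simp [dC]
  | a :: f => by
      rw [List.map_cons, List.prod_cons, prod_eq τ d f, dC_cons, dC_cons, List.length_cons]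
      obtain ⟨c, b⟩ := a
      cases c <;> simp [pow_add] <;> ring

variable {D : CD} {τ0 : ℝ}

/-- sizes -/
def Tz (D : CD) (c : Bool) : ℕ → Cube D.n × Bool → Cube D.n × Bool → ℝ :=
  Mul55.aU D.n D.q fun j => j ≠ 0 ∧ D.cl j = c

theorem Tz_nonneg (c : Bool) (j : ℕ) (x y : Cube D.n × Bool) : 0 ≤ Tz D c j x y :=
  Mul55.aU_nonneg _ j x y

/-- a letter with its majorant -/
def lP (D : CD) (τ : ℝ) (a : Lt) :
    (ℕ → Cube D.n × Bool → Cube D.n × Bool → ℝ) × ((Bool → ℝ) → ℝ) :=
  (ten (lt D.n D.β D.M D.q D.cl a), fun d => τ * d a.1 ^ dg a)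

theorem tau0 (H : D.Ok τ0) : 0 ≤ τ0 := (H.ook.oTau_le D.n D.β D.K).1.trans H.tau

theorem dom (H : D.Ok τ0) (a : Lt) : Dom (op D.n D.β D.M D.q 0).length (Tz D) (lP D τ0 a) := by
  intro j hj x y d hd
  have h0 := (Tz_nonneg a.1 j x y).trans (hd a.1)
  have t0 := tau0 H
  by_cases e : j = 0
  · subst e
    have := (lt_mem (β := D.β) H.pos H.ook D.cl a).1
    simp only [lP, this, Pi.zero_apply, abs_zero]
    positivity
  · refine (abs_lt_le H.ook D.cl a (fun j => D.cl j = a.1) (fun _ h => h)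
      (by rwa [op_length] at hj) x y).trans ?_
    have e1 : Mul55.aU D.n D.q (fun j => D.cl j = a.1) j x y = Tz D a.1 j x y := by
      simp [Tz, Mul55.aU, e]
    rw [e1]
    exact mul_le_mul H.tau (pow_le_pow_left₀ (Tz_nonneg _ _ _ _) (hd _) _)
      (pow_nonneg (Tz_nonneg _ _ _ _) _) t0

theorem pi2_Tz (H : D.Ok τ0) (c : Bool) (p j : ℕ) :
    pi2 (fun _ => 1) (op D.n D.β D.M D.q 0) j (fun x y => Tz D c j x y ^ (p + 1)) 0 =
      if j ≠ 0 ∧ D.cl j = c then D.u (p + 1) j else 0 := by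
  by_cases h : j ≠ 0 ∧ D.cl j = c
  · have := pi2_op_zero (β := D.β) H.pos H.ook 0 0 j (fun x y => |oU D.q j x y| ^ (p + 1))
      fun _ _ => 1
    rw [Law.ad_zero, pi2_const wt_one90] at this
    simp only [mul_one] at this
    simp only [Tz, Mul55.aU, if_pos h, this, uM]
  · simp only [Tz, Mul55.aU, if_neg h, zero_pow (Nat.succ_ne_zero p), pi2_const wt_one90]

theorem mom_up (H : D.Ok τ0) (p : ℕ) {j : ℕ} (hj : j ∈ D.up) :
    momT (fun _ => 1) (op D.n D.β D.M D.q 0) 0 (Tz D false) (p + 1) (Sh.two j) =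
      2 * D.u (p + 1) j + D.I (D.u (p + 1)) := by
  obtain ⟨h1, h2⟩ := Finset.mem_Ioo.1 hj
  rw [momT_two _ _ _ _ (by rw [op_length]; exact h2.le), pi2_Tz H,
    if_pos ⟨by omega, by simp [CD.cl, h1]⟩, mom0, op_length, CD.I,
    ← Ex23.sum_up (J := D.J) (K := D.K) (g := fun j => D.dx j * D.u (p + 1) j)
      (by rw [H.top, zero_mul])]
  congr 1
  refine Finset.sum_congr rfl fun i _ => ?_
  rw [pi2_Tz H, Cav22.dm_tilt (tilt_op (q := D.q) 0)]
  by_cases h : i ≤ D.J
  · simp [CD.cl, h]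
  · rw [if_neg h, if_pos ⟨by omega, by simp [CD.cl, h]⟩]

theorem ex_nonneg' (H : D.Ok τ0) : 0 ≤ ex D.B D.J := by
  have := sum_dm D.B 0 D.J
  rw [sub_zero] at this
  exact this ▸ Finset.sum_nonneg fun j _ => dm_nonneg H.mono j

theorem X0 (H : D.Ok τ0) : 0 ≤ D.X := (ex_nonneg' H).trans H.x1

theorem low4 (H : D.Ok τ0) (j : ℕ) :
    pi2 (fun _ => 1) (op D.n D.β D.M D.q 0) j (fun x y => Tz D true j x y ^ (3 + 1)) 0 ≤
      D.X ^ 4 + 4 * D.tl := by
  have x0 := X0 H
  have t0 := H.tl0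
  rw [pi2_Tz H]
  split_ifs with h
  swap
  · positivity
  have hJ : j ≤ D.J := by simpa [CD.cl] using h.2
  have h1 := H.envL j (Finset.mem_Icc.2 ⟨Nat.pos_of_ne_zero h.1, hJ⟩)
  refine (Crest.Agent.T157.Casc.pi2_mono (Ω := Cube D.n) wt_one90 D.B j
    (K' := fun x y => D.X ^ 4 + 4 * max (|ov x y| - D.X) 0) (fun x y => ?_) 0).trans ?_
  · rw [oU, H.qlo j hJ, sub_zero]
    have a0 := abs_nonneg (ov x y)
    have a1 := abs_ov_le x y
    have x1 := H.X1
    generalize |ov x y| = r at *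
    rcases le_total r D.X with e | e
    · exact (pow_le_pow_left₀ a0 e _).trans (le_add_of_nonneg_right (by positivity))
    · rw [max_eq_left (sub_nonneg.2 e)]
      have h2 : r ^ 3 + r ^ 2 * D.X + r * D.X ^ 2 + D.X ^ 3 ≤ 4 := by
        have := pow_le_one₀ a0 a1 (n := 3)
        have := pow_le_one₀ x0 x1 (n := 3)
        have := mul_le_one₀ (pow_le_one₀ a0 a1 (n := 2)) x0 x1
        have := mul_le_one₀ a1 (pow_nonneg x0 2) (pow_le_one₀ x0 x1 (n := 2))
        linarith
      show r ^ 4 ≤ _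
      nlinarith [mul_le_mul_of_nonneg_left h2 (sub_nonneg.2 e)]
  · rw [pi2_add wt_one90, pi2_const wt_one90, pi2_const_mul]
    exact add_le_add le_rfl (mul_le_mul_of_nonneg_left h1 (by norm_num))

/-- the marked word at the level `j` -/
def mW (D : CD) (f : List Lt) (j : ℕ) : ℝ :=
  wB (-1) D.B (oB D.n D.β D.M D.q []) (f.map (lt D.n D.β D.M D.q D.cl))
    (Sh.two j) (fun _ => 1) (pr2 j (oE D.q j))

theorem mW_eq (H : D.Ok τ0) (f : List Lt) (j : ℕ) : mW D f j =
    WdO (op D.n D.β D.M D.q 0) ((f.map (lP D τ0)).map Prod.fst)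
      (TEf (fun _ => 1) (op D.n D.β D.M D.q 0) 0) (Sh.two j)
      (tens (fun _ => 1) (pr2 j (oE D.q j))) := by
  rw [mW, Ex23.wB_eq H.pos H.ook, List.map_map, List.map_map]
  rfl

theorem abs_mark (H : D.Ok τ0) {j : ℕ} (hj : j ∈ D.up) (x : (Sh.two j).Lf → Cube D.n × Bool) :
    |tens (fun _ => 1) (pr2 j (oE D.q j)) x| ≤ 2 := by
  rw [tens, one_mul]
  exact abs_oE_le H.ook (Finset.mem_Ioo.1 hj).2.le _ _

theorem prod_lP (f : List Lt) (d : Bool → ℝ) : ((f.map (lP D τ0)).map fun r => r.2 d).prod =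
    τ0 ^ f.length * (d true ^ dC true f * d false ^ dC false f) := by
  rw [List.map_map, ← prod_eq]
  rfl

/-- upper letters only -/
theorem mW_up (H : D.Ok τ0) {f : List Lt} {p : ℕ} (h0 : dC true f = 0) (h1 : dC false f = p + 1)
    {j : ℕ} (hj : j ∈ D.up) : |mW D f j| ≤ cTay f.length p 2 * (2 * τ0 ^ f.length) *
      (2 * D.u (p + 1) j + D.I (D.u (p + 1))) := by
  have t0 := tau0 H
  have := abs_WdO_young wt_one90 (mono_op (q := D.q) H.mono 0) (T := Tz D) Tz_nonneg 0
    (fun _ => p) (Q := p) (fun _ => le_rfl) (B := fun c => cond c 0 (2 * τ0 ^ f.length))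
    (fun c => by cases c <;> simp only [cond] <;> positivity) (U := f.map (lP D τ0))
    (fun r hr => by obtain ⟨a, -, rfl⟩ := List.mem_map.1 hr; exact dom H a) (Sh.two j)
    (F := tens (fun _ => 1) (pr2 j (oE D.q j))) (A := fun _ => 0) (fun _ => le_rfl)
    fun x d hd => by
      have d0 := (Dv_nonneg (Tz_nonneg false) _ _ x).trans (hd false)
      rw [prod_lP, h0, h1, Fintype.sum_bool]
      simp only [cond, pow_zero, one_mul, zero_mul, zero_add]
      rw [mul_assoc]
      exact mul_le_mul_of_nonneg_right (abs_mark H hj x) (by positivity)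
  rw [← mW_eq H, Law.TE_const wt_one90, Fintype.sum_bool, mom_up H p hj, card_two,
    List.length_map] at this
  simpa only [cond, zero_mul, zero_add, mul_assoc] using this

/-- two low and two upper factors -/
theorem mW_22 (H : D.Ok τ0) {f : List Lt} (h0 : dC true f = 2) (h1 : dC false f = 2)
    {j : ℕ} (hj : j ∈ D.up) : |mW D f j| ≤ cLow (f.length - 1) 3 2 * τ0 ^ f.length *
      (D.X ^ 6 + 4 * D.tl + (2 * D.u 4 j + D.I (D.u 4))) := by
  have t0 := tau0 H
  have x0 := X0 H
  have tl0 := H.tl0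
  obtain ⟨a, ha, hac⟩ := dC_pos.1 (h0 ▸ two_pos : 0 < dC true f)
  have pf := List.perm_cons_erase ha
  have e0 : mW D f j = mW D (a :: f.erase a) j := Ex23.wB_perm H.pos H.ook D.cl pf _ _ _
  have hl : (f.erase a).length = f.length - 1 := List.length_erase_of_mem ha
  have N0 : 0 ≤ 2 * D.u 4 j + D.I (D.u 4) := mom_up H 3 hj ▸
    Nv_nonneg (mono_op (q := D.q) H.mono 0)
      (fun j => pi2_nonneg wt_one90 _ j (fun x y => pow_nonneg (Tz_nonneg _ _ _ _) _) 0) _
  have key : ∀ l : ℝ, 0 < l → |mW D f j| ≤ cLow (f.length - 1) 3 2 * τ0 ^ f.length *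
      (ex D.B D.J * (l * (D.X ^ 4 + 4 * D.tl) + (2 * D.u 4 j + D.I (D.u 4)) / l)) := fun l hl0 => by
    have := abs_WdO_low wt_one90 (mono_op (q := D.q) H.mono 0) (T := Tz D) Tz_nonneg 0 (J := D.J)
      (fun i hi x y => by simp [Tz, Mul55.aU, CD.cl, hi]) (fun _ => 3) (Q := 3) (fun _ => le_rfl)
      (A := 0) (B := fun c => cond c (τ0 ^ f.length * l) (τ0 ^ f.length / l)) le_rfl
      (fun c => by cases c <;> simp only [cond] <;> positivity) (by positivity)
      (fun i _ => low4 H i) (p := lP D τ0 a) (U := (f.erase a).map (lP D τ0))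
      (fun r hr => by
        rw [← List.map_cons] at hr
        obtain ⟨a, -, rfl⟩ := List.mem_map.1 hr
        exact dom H a)
      (fun i hi x y => by simp [lP, ten, lt, cut, CD.cl, hac, not_le.2 hi]) (Sh.two j)
      (fun a b => by
        obtain ⟨h1, h2⟩ := Finset.mem_Ioo.1 hj
        have hK := H.cut
        rw [op_length]
        rcases two_cases j a with rfl | rfl <;> rcases two_cases j b with rfl | rfl
        · rwa [shr_self]
        · rwa [shr_two, min_eq_left h2.le]
        · rwa [shr_comm, shr_two, min_eq_left h2.le]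
        · rwa [shr_self])
      (F := tens (fun _ => 1) (pr2 j (oE D.q j))) fun x d hd => by
        rw [← List.map_cons, prod_lP, ← dC_perm _ pf, ← dC_perm _ pf, ← pf.length_eq, h0, h1,
          Fintype.sum_bool]
        simp only [cond]
        refine (mul_le_mul_of_nonneg_right (abs_mark H hj x) (by positivity)).trans ?_
        have h2 : 2 * (d true ^ 2 * d false ^ 2) ≤ l * d true ^ 4 + d false ^ 4 / l := by
          have : 0 ≤ (l * d true ^ 2 - d false ^ 2) ^ 2 / l := by positivity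
          refine le_of_sub_nonneg (this.trans_eq ?_)
          field_simp
          ring
        have h3 := mul_le_mul_of_nonneg_left h2 (pow_nonneg t0 f.length)
        refine le_trans (le_of_eq (by ring)) (h3.trans_eq (by ring))
    rw [← List.map_cons, ← mW_eq H, ← e0, mom_up H 3 hj, card_two, List.length_map, hl,
      Cav22.ex_tilt (tilt_op (q := D.q) 0)] at this
    simp only [cond] at this
    exact this.trans_eq (by ring)
  have c0 : 0 ≤ cLow (f.length - 1) 3 2 * τ0 ^ f.length :=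
    mul_nonneg (cLow_nonneg _ _ _) (pow_nonneg t0 _)
  rcases x0.eq_or_lt with e | e
  · refine (key 1 one_pos).trans (mul_le_mul_of_nonneg_left ?_ c0)
    rw [le_antisymm (H.x1.trans e.ge) (ex_nonneg' H), zero_mul]
    positivity
  · refine (key _ e).trans (mul_le_mul_of_nonneg_left ?_ c0)
    refine (mul_le_mul_of_nonneg_right H.x1 (by positivity)).trans ?_
    have h2 : D.X ^ 2 * D.tl ≤ D.tl := mul_le_of_le_one_left tl0 (pow_le_one₀ x0 H.X1)
    have h3 : D.X * ((2 * D.u 4 j + D.I (D.u 4)) / D.X) = 2 * D.u 4 j + D.I (D.u 4) :=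
      mul_div_cancel₀ _ e.ne'
    rw [mul_add, h3]
    nlinarith

theorem bd_of {f : List Lt} (c : ℝ → ℝ) (hc : ∀ τ0, 0 ≤ τ0 → 0 ≤ c τ0)
    (H : ∀ τ0 (D : CD), D.Ok τ0 → ∀ j ∈ D.up, |mW D f j| ≤
      c τ0 * (D.X ^ 6 + 4 * D.tl + (2 * D.u 4 j + D.I (D.u 4)))) : Bd true fun D => D.tw f := by
  refine Bd.mk' fun τ0 => ⟨c τ0 * 6 + c τ0 * 2, fun D h hW => ?_⟩
  have c0 := hc τ0 (tau0 h)
  rw [CD.tw, CD.dd_test hW]
  refine (D.abs_sum_om (b := fun j => c τ0 * 2 * D.u 4 j +
    c τ0 * (D.X ^ 6 + 4 * D.tl + D.I (D.u 4))) fun j hj => (H τ0 D h j hj).trans_eq (by ring)).trans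
    (h.Iw_split hW (by positivity) (by positivity) ?_ ?_)
  · rw [mul_assoc]
    exact mul_le_mul_of_nonneg_left (by linarith [h.X6_le, h.tl_le, h.Iu4_le]) c0
  · rw [D.Iw_mul]
    exact mul_le_mul_of_nonneg_left h.Iwu4_le (by positivity)

end T4

open T4 in
/-- **degree four with an upper letter, test direction** -/
theorem cr4T : Cr4 true := fun f hd he hu => by
  have h1 := deg_eq f
  have h2 := par f
  have h3 : 0 < dC false f := dC_pos.2 (hu.elim (fun h => ⟨_, h, rfl⟩) fun h => ⟨_, h, rfl⟩)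
  rw [Nat.even_iff] at he
  by_cases h0 : dC true f = 0
  · refine bd_of (fun τ0 => cTay f.length 3 2 * (2 * τ0 ^ f.length))
      (fun τ0 h => mul_nonneg (cTay_nonneg _ _ _) (by positivity)) fun τ0 D h j hj => ?_
    have t0 := tau0 h
    have := h.tl0
    have := X0 h
    exact (mW_up h h0 (p := 3) (by omega) hj).trans (mul_le_mul_of_nonneg_left
      (le_add_of_nonneg_left (by positivity)) (mul_nonneg (cTay_nonneg _ _ _) (by positivity)))
  · exact bd_of (fun τ0 => cLow (f.length - 1) 3 2 * τ0 ^ f.length)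
      (fun τ0 h => mul_nonneg (cLow_nonneg _ _ _) (pow_nonneg h _))
      fun τ0 D h j hj => mW_22 h (by omega) (by omega) hj

end Crest.Agent.T156.Cas.C40

end
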