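import Crest.Agent.T156.AltPre_67

/-!
# Row 156, ALT route: calculus of the prefixes `Loss`, `Gain`, `Cst`; the parameters (helper29)

`Sml β P`: `P (n ^ η)` for all SMALL `η`; every quantifier is a filter, so `Sml` is closed under
`∧` and `→`.  `Reg` collects what may be used about one `p`; exponents are `logb p.n`.
-/

set_option autoImplicit false

noncomputable section

namespace Crest.Agent.T156.Alt

open Real Set Filter Topology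

/-- `P (n ^ η) p` for all small `η` -/
def Sml (β : ℝ) (P : ℝ → Pm → Prop) : Prop :=
  ∀ c0 C0 : ℝ, 0 < c0 → 1 ≤ C0 → ∀ᶠ A : ℕ in atTop, ∀ᶠ c in 𝓝[>] (0 : ℝ), ∀ᶠ η in 𝓝[>] (0 : ℝ),
    ∀ᶠ n : ℕ in atTop, All β c0 C0 A c n (P ((n : ℝ) ^ η))

/-- what may be used about one `p`; `Λ = p.n ^ η` -/
structure Reg (β c0 C0 : ℝ) (A : ℕ) (c η K : ℝ) (p : Pm) : Prop where
  hβ : p.β = β
  hA : p.A = A
  hc : p.c = c
  ok : p.Ok c0 C0
  β1 : 1 < β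
  c00 : 0 < c0
  C01 : 1 ≤ C0
  A2 : 2 ≤ A
  c_pos : 0 < c
  c_le : c ≤ 1 / 200
  η_pos : 0 < η
  η_le : η ≤ c
  n3 : 3 ≤ p.n
  K_le : K ≤ (p.n : ℝ) ^ η
  log_le : log p.n ≤ (p.n : ℝ) ^ η
  β_le : β ^ 2 ≤ (p.n : ℝ) ^ η
  C0_le : C0 ≤ (p.n : ℝ) ^ η
  c0_le : 1 / c0 ≤ (p.n : ℝ) ^ η
  A_le : (A : ℝ) ≤ (p.n : ℝ) ^ η
  num_le : 1000 ≤ (p.n : ℝ) ^ η

variable {β : ℝ} {P Q R : ℝ → Pm → Prop}

namespace Pre29

theorem ev_pos : ∀ᶠ x in 𝓝[>] (0 : ℝ), 0 < x := self_mem_nhdsWithin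

theorem ev_le {a : ℝ} (ha : 0 < a) : ∀ᶠ x in 𝓝[>] (0 : ℝ), x ≤ a :=
  mem_nhdsWithin_of_mem_nhds (Iic_mem_nhds ha)

theorem ev_of_le {a : ℝ} (ha : 0 < a) {S : ℝ → Prop} (h : ∀ x, 0 < x → x ≤ a → S x) :
    ∀ᶠ x in 𝓝[>] (0 : ℝ), S x := (ev_pos.and (ev_le ha)).mono fun x hx => h x hx.1 hx.2

theorem ev_K (K : ℝ) {η : ℝ} (hη : 0 < η) : ∀ᶠ n : ℕ in atTop, K ≤ (n : ℝ) ^ η :=
  ((tendsto_rpow_atTop hη).comp tendsto_natCast_atTop_atTop).eventually_ge_atTop K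

theorem ev_log {η : ℝ} (hη : 0 < η) : ∀ᶠ n : ℕ in atTop, log n ≤ (n : ℝ) ^ η := by
  have h := (isLittleO_log_rpow_atTop hη).bound one_pos
  filter_upwards [tendsto_natCast_atTop_atTop.eventually h] with n hn
  rw [one_mul, Real.norm_eq_abs, Real.norm_eq_abs, abs_of_nonneg (rpow_nonneg n.cast_nonneg _)] at hn
  exact (le_abs_self _).trans hn

theorem rp_le {n : ℕ} (hn : 1 ≤ n) {a b : ℝ} (h : a ≤ b) : (n : ℝ) ^ a ≤ (n : ℝ) ^ b :=
  rpow_le_rpow_of_exponent_le (by exact_mod_cast hn) h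

theorem rp_pos {n : ℕ} (hn : 1 ≤ n) (a : ℝ) : 0 < (n : ℝ) ^ a :=
  rpow_pos_of_pos (by exact_mod_cast hn) a

theorem rp_pow (n : ℕ) (a : ℝ) (k : ℕ) : ((n : ℝ) ^ a) ^ k = (n : ℝ) ^ (a * k) :=
  (rpow_mul_natCast n.cast_nonneg a k).symm

theorem ev_reg (hβ : 1 < β) {c0 C0 : ℝ} (h0 : 0 < c0) (h1 : 1 ≤ C0) :
    ∀ᶠ A : ℕ in atTop, ∀ᶠ c in 𝓝[>] (0 : ℝ), ∀ᶠ η in 𝓝[>] (0 : ℝ), ∀ K : ℝ,
      ∀ᶠ n : ℕ in atTop, All β c0 C0 A c n (Reg β c0 C0 A c η K) := by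
  filter_upwards [eventually_ge_atTop 2] with A hA
  filter_upwards [ev_pos, ev_le (by norm_num : (0 : ℝ) < 1 / 200)] with c hc hc'
  filter_upwards [ev_pos, ev_le hc] with η hη hη' K
  filter_upwards [eventually_ge_atTop 3, ev_K K hη, ev_log hη, ev_K (β ^ 2) hη, ev_K C0 hη,
    ev_K (1 / c0) hη, ev_K A hη, ev_K 1000 hη] with n a1 a2 a3 a4 a5 a6 a7 a8 p b1 b2 b3 b4 b5
  subst b2
  exact ⟨b1, b3, b4, b5, hβ, h0, h1, hA, hc, hc', hη, hη', a1, a2, a3, a4, a5, a6, a7, a8⟩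

end Pre29

open Pre29

/-! ### `Sml` -/

theorem Sml.and (H : Sml β P) (G : Sml β Q) : Sml β fun Λ p => P Λ p ∧ Q Λ p := by
  intro c0 C0 h0 h1
  filter_upwards [H c0 C0 h0 h1, G c0 C0 h0 h1] with A H G
  filter_upwards [H, G] with c H G
  filter_upwards [H, G] with η H G
  filter_upwards [H, G] with n H G p b1 b2 b3 b4 b5
  exact ⟨H p b1 b2 b3 b4 b5, G p b1 b2 b3 b4 b5⟩

theorem Sml.mono (H : Sml β P) (h : ∀ Λ p, P Λ p → Q Λ p) : Sml β Q := fun c0 C0 h0 h1 =>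
  (H c0 C0 h0 h1).mono fun _ H => H.mono fun _ H => H.mono fun _ H => H.mono
    fun _ H p b1 b2 b3 b4 b5 => h _ _ (H p b1 b2 b3 b4 b5)

theorem Sml.mp (H : Sml β fun Λ p => P Λ p → Q Λ p) (G : Sml β P) : Sml β Q :=
  (H.and G).mono fun _ _ h => h.1 h.2

theorem Sml.triv : Sml β fun _ _ => True := fun _ _ _ _ =>
  .of_forall fun _ => .of_forall fun _ => .of_forall fun _ => .of_forall
    fun _ _ _ _ _ _ _ => trivial

/-- **introduction rule**, filter form -/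
theorem Sml.intro (hβ : 1 < β) (h : ∀ c0 C0 : ℝ, 0 < c0 → 1 ≤ C0 → ∀ᶠ A : ℕ in atTop,
    ∀ᶠ c in 𝓝[>] (0 : ℝ), ∀ᶠ η in 𝓝[>] (0 : ℝ), ∃ K : ℝ, ∀ p, Reg β c0 C0 A c η K p →
      P ((p.n : ℝ) ^ η) p) : Sml β P := by
  intro c0 C0 h0 h1
  filter_upwards [h c0 C0 h0 h1, ev_reg hβ h0 h1] with A H G
  filter_upwards [H, G] with c H G
  filter_upwards [H, G] with η ⟨K, H⟩ G
  filter_upwards [G K] with n G p b1 b2 b3 b4 b5
  subst b2
  exact H p (G p b1 rfl b3 b4 b5)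

/-- thresholds in the order `A`, `c`, `η`, `K` -/
def Thr (β : ℝ) (S : ℝ → ℝ → ℝ → Pm → Prop) : Prop :=
  ∀ c0 C0 : ℝ, 0 < c0 → 1 ≤ C0 → ∃ A0 : ℕ, ∀ A, A0 ≤ A → ∃ c1 : ℝ, 0 < c1 ∧ ∀ c, c ≤ c1 →
    0 < c → ∃ η1 : ℝ, 0 < η1 ∧ ∀ η, η ≤ η1 → 0 < η → ∃ K : ℝ, ∀ p, Reg β c0 C0 A c η K p →
      S c0 C0 ((p.n : ℝ) ^ η) p

/-- **introduction rule**, explicit thresholds -/
theorem Sml.of_thr (hβ : 1 < β) (h : Thr β fun _ _ => P) : Sml β P :=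
  Sml.intro hβ fun c0 C0 h0 h1 => by
    obtain ⟨A0, h⟩ := h c0 C0 h0 h1
    filter_upwards [eventually_ge_atTop A0] with A hA
    obtain ⟨c1, hc1, h⟩ := h A hA
    refine ev_of_le hc1 fun c hc hc' => ?_
    obtain ⟨η1, hη1, h⟩ := h c hc' hc
    exact ev_of_le hη1 fun η hη hη' => h η hη' hη

/-- **glue**: a pointwise implication under `Reg` -/
theorem Sml.glue (hβ : 1 < β) (H : Sml β P) (h : Thr β fun _ _ Λ p => P Λ p → R Λ p) : Sml β R :=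
  (Sml.of_thr hβ h).mp H

/-- the most common thresholds: numbers `A0`, `c1`, and `j η ≤ c` -/
theorem Sml.glue' (hβ : 1 < β) (H : Sml β P) (A0 : ℕ) {c1 : ℝ} (hc1 : 0 < c1) (j : ℕ)
    (h : ∀ (c0 C0 : ℝ) (A : ℕ) (c η : ℝ), 0 < c0 → 1 ≤ C0 → 0 < c → 0 < η → ∃ K : ℝ, ∀ p,
      Reg β c0 C0 A c η K p → A0 ≤ A → c ≤ c1 → j * η ≤ c → P ((p.n : ℝ) ^ η) p →
      R ((p.n : ℝ) ^ η) p) : Sml β R :=
  H.glue hβ fun c0 C0 h0 h1 => ⟨A0, fun A hA => ⟨c1, hc1, fun c hc hc' =>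
    ⟨c / (j + 1), by positivity, fun η hη hη' => by
      obtain ⟨K, h⟩ := h c0 C0 A c η h0 h1 hc' hη'
      rw [le_div_iff₀ (by positivity)] at hη
      exact ⟨K, fun p hp => h p hp hA hc (by linarith)⟩⟩⟩⟩

/-- **glue with a constant**: `C` is fixed before all thresholds -/
theorem Sml.glueC (hβ : 1 < β) (G : Cst β Q) (H : Sml β P)
    (h : ∀ C : ℝ, 1 ≤ C → Thr β fun _ _ Λ p => Q C p → P Λ p → R Λ p) : Sml β R := by
  intro c0 C0 h0 h1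
  obtain ⟨C, hC, G⟩ := G c0 C0 h0 h1
  filter_upwards [Sml.of_thr (P := fun Λ p => Q C p → P Λ p → R Λ p) hβ (h C hC) c0 C0 h0 h1,
    H c0 C0 h0 h1, eventually_ge_atTop 2] with A h H hA
  filter_upwards [h, H, ev_pos, ev_le (by norm_num : (0 : ℝ) < 1 / 200)] with c h H hc hc'
  filter_upwards [h, H] with η h H
  filter_upwards [h, H, G A hA c hc hc'] with n h H G p b1 b2 b3 b4 b5
  exact h p b1 b2 b3 b4 b5 (G p b1 b2 b3 b4 b5) (H p b1 b2 b3 b4 b5)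

/-! ### conversions -/

theorem Loss.sml (H : Loss β P) : Sml β P := fun c0 C0 h0 h1 =>
  (H c0 C0 h0 h1).mono fun _ H => H.mono fun _ H => ev_pos.mono fun η hη => H η hη

/-- a power of `Λ` (depending on `A` and `c` if necessary) is free -/
theorem Sml.loss' (k : ℕ → ℝ → ℕ) (H : Sml β fun Λ p => R (Λ ^ k p.A p.c) p) (hR : Mo R) :
    Loss β R := by
  intro c0 C0 h0 h1
  filter_upwards [H c0 C0 h0 h1] with A H
  filter_upwards [H] with c H η hη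
  obtain ⟨η', H, h2, h3⟩ :=
    (H.and (ev_pos.and (ev_le (by positivity : 0 < η / (k A c + 1))))).exists
  rw [le_div_iff₀ (by positivity)] at h3
  filter_upwards [H, eventually_ge_atTop 1] with n H hn p b1 b2 b3 b4 b5
  refine hR _ _ p (pow_pos (rp_pos hn _) _) ?_ (H p b1 b2 b3 b4 b5)
  rw [rp_pow, b3, b4]
  exact rp_le hn (by linarith)

theorem Sml.loss (k : ℕ) (H : Sml β fun Λ p => R (Λ ^ k) p) (hR : Mo R) : Loss β R :=
  Sml.loss' (fun _ _ => k) H hR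

theorem Sml.loss1 (H : Sml β R) (hR : Mo R) : Loss β R :=
  Sml.loss 1 (H.mono fun _ _ h => by rwa [pow_one]) hR

theorem Sml.gain (H : Sml β fun Λ p => R Λ⁻¹ p) : Gain β R := by
  intro c0 C0 h0 h1
  filter_upwards [H c0 C0 h0 h1] with A H
  filter_upwards [H] with c H
  obtain ⟨η, H, h2⟩ := (H.and ev_pos).exists
  refine ⟨η, h2, H.mono fun n H p b1 b2 b3 b4 b5 => ?_⟩
  rw [rpow_neg n.cast_nonneg]
  exact H p b1 b2 b3 b4 b5

theorem Gain.sml (k : ℕ) (H : Gain β Q) (hQ : Mo Q) : Sml β fun Λ p => Q (Λ⁻¹ ^ k) p := by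
  intro c0 C0 h0 h1
  filter_upwards [H c0 C0 h0 h1] with A H
  filter_upwards [H] with c ⟨c', hc', H⟩
  refine ev_of_le (by positivity : 0 < c' / (k + 1)) fun η hη h3 => ?_
  rw [le_div_iff₀ (by positivity)] at h3
  filter_upwards [H, eventually_ge_atTop 1] with n H hn p b1 b2 b3 b4 b5
  refine hQ _ _ p (rp_pos hn _) ?_ (H p b1 b2 b3 b4 b5)
  rw [← rpow_neg n.cast_nonneg, rp_pow]
  exact rp_le hn (by linarith)

theorem Cst.sml (H : Cst β P) : Sml β fun Λ p => ∃ C, 1 ≤ C ∧ C ≤ Λ ∧ P C p := by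
  intro c0 C0 h0 h1
  obtain ⟨C, hC, G⟩ := H c0 C0 h0 h1
  filter_upwards [eventually_ge_atTop 2] with A hA
  filter_upwards [ev_pos, ev_le (by norm_num : (0 : ℝ) < 1 / 200)] with c hc hc'
  filter_upwards [ev_pos] with η hη
  filter_upwards [G A hA c hc hc', ev_K C hη] with n G hK p b1 b2 b3 b4 b5
  exact ⟨C, hC, hK, G p b1 b2 b3 b4 b5⟩

/-! ### exponents -/

theorem lg_sqrt (b : ℝ) {x : ℝ} (hx : 0 ≤ x) : logb b √x = logb b x / 2 := by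
  rw [logb, log_sqrt hx, logb]
  ring

theorem lg_max {b x y : ℝ} (hb : 1 < b) (hx : 0 < x) (hy : 0 < y) :
    logb b (max x y) = max (logb b x) (logb b y) := by
  rcases le_total x y with h | h
  · rw [max_eq_right h, max_eq_right (logb_le_logb_of_le hb hx h)]
  · rw [max_eq_left h, max_eq_left (logb_le_logb_of_le hb hy h)]

theorem lg_min {b x y : ℝ} (hb : 1 < b) (hx : 0 < x) (hy : 0 < y) :
    logb b (min x y) = min (logb b x) (logb b y) := by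
  rcases le_total x y with h | h
  · rw [min_eq_left h, min_eq_left (logb_le_logb_of_le hb hx h)]
  · rw [min_eq_right h, min_eq_right (logb_le_logb_of_le hb hy h)]

/-- `logb b` of a monomial (positivity of the atoms must be in the context) -/
macro "lg_norm" : tactic => `(tactic| simp (disch := positivity) only [Real.logb_mul,
  Real.logb_div, Real.logb_pow, Real.logb_rpow_eq_mul_logb_of_pos, Real.logb_inv, Real.logb_one,
  Crest.Agent.T156.Alt.lg_sqrt, Nat.cast_ofNat, Nat.cast_one])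

namespace Reg

variable {c0 C0 : ℝ} {A : ℕ} {c η K : ℝ} {p : Pm} (H : Reg β c0 C0 A c η K p)
include H

theorem mono_K {K' : ℝ} (h : K' ≤ K) : Reg β c0 C0 A c η K' p := { H with K_le := h.trans H.K_le }

theorem n1 : 1 ≤ p.n := le_trans (by norm_num) H.n3
theorem n0 : 0 < p.n := H.n1
theorem N3 : (3 : ℝ) ≤ p.n := by exact_mod_cast H.n3
theorem N1 : (1 : ℝ) < p.n := by linarith [H.N3]
theorem N0 : (0 : ℝ) < p.n := by linarith [H.N3]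
theorem Λ0 : 0 < (p.n : ℝ) ^ η := rp_pos H.n1 _
theorem Λ1 : 1 ≤ (p.n : ℝ) ^ η := le_trans (by norm_num) H.num_le
theorem log1 : 1 ≤ log (p.n : ℝ) := by
  rw [le_log_iff_exp_le H.N0]
  exact (exp_one_lt_d9.le.trans (by norm_num)).trans H.N3
theorem β0 : 0 < p.β := by rw [H.hβ]; linarith [H.β1]
theorem β2 : 1 < p.β ^ 2 := by rw [H.hβ]; nlinarith [H.β1]
theorem s0 : 0 < p.s := lt_of_lt_of_le one_pos H.ok.s1
theorem v0 : 0 < p.v := H.ok.base.v_pos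
theorem κ0 : 0 < p.κ := rp_pos H.n1 _
theorem r0 : 0 < p.r := mul_pos H.s0 (rp_pos H.n1 _)
theorem ye0 : 0 < p.ye := pow_pos H.κ0 3
theorem μ00 : 0 < p.μ0 := rp_pos H.n1 _
theorem amax0 : 0 < p.amax := mul_pos H.s0 (rp_pos H.n1 _)

/-- monomial inequalities are linear inequalities of exponents -/
theorem le_of_lg {x y : ℝ} (hx : 0 < x) (hy : 0 < y) (h : logb p.n x ≤ logb p.n y) : x ≤ y :=
  (logb_le_logb H.N1 hx hy).1 h

theorem lg_mono {x y : ℝ} (hx : 0 < x) (h : x ≤ y) : logb p.n x ≤ logb p.n y :=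
  logb_le_logb_of_le H.N1 hx h

theorem lg_n : logb (p.n : ℝ) p.n = 1 := logb_self_eq_one H.N1
theorem lg_rp (a : ℝ) : logb p.n ((p.n : ℝ) ^ a) = a := logb_rpow H.N0 H.N1.ne'
theorem lg_nn {x : ℝ} (hx : 1 ≤ x) : 0 ≤ logb p.n x := logb_nonneg H.N1 hx
theorem lg_np {x : ℝ} (h0 : 0 < x) (hx : x ≤ 1) : logb p.n x ≤ 0 := logb_nonpos H.N1 h0.le hx

/-- a constant below `Λ` has exponent at most `η` -/
theorem lg_le {x : ℝ} (hx : 0 < x) (h : x ≤ (p.n : ℝ) ^ η) : logb p.n x ≤ η :=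
  (H.lg_mono hx h).trans_eq (H.lg_rp η)

theorem lg_cst {x : ℝ} (hx : 1 ≤ x) (h : x ≤ (p.n : ℝ) ^ η) :
    0 ≤ logb p.n x ∧ logb p.n x ≤ η := ⟨H.lg_nn hx, H.lg_le (by linarith) h⟩

theorem lg_num {x : ℝ} (hx : 1 ≤ x) (h : x ≤ 1000) : 0 ≤ logb p.n x ∧ logb p.n x ≤ η :=
  H.lg_cst hx (h.trans H.num_le)

theorem lg_log : 0 ≤ logb p.n (log p.n) ∧ logb p.n (log p.n) ≤ η := H.lg_cst H.log1 H.log_le

theorem lg_β : 0 ≤ logb p.n p.β ∧ 2 * logb p.n p.β ≤ η := by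
  have h := H.lg_le (x := p.β ^ 2) (by linarith [H.β2]) (by rw [H.hβ]; exact H.β_le)
  rw [logb_pow] at h
  exact ⟨H.lg_nn (by rw [H.hβ]; exact H.β1.le), by simpa using h⟩

theorem lg_s : 0 ≤ logb p.n p.s ∧ logb p.n p.s ≤ 1 / 19 :=
  ⟨H.lg_nn H.ok.s1, (H.lg_mono H.s0 H.ok.s2).trans_eq (H.lg_rp _)⟩

theorem lg_κ : logb p.n p.κ = -c := by rw [Pm.κ, H.lg_rp, H.hc]

theorem lg_r : logb p.n p.r = logb p.n p.s + c / 7 - 1 / 6 := by
  rw [Pm.r, logb_mul H.s0.ne' (rp_pos H.n1 _).ne', H.lg_rp, H.hc]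
  ring

theorem lg_ye : logb p.n p.ye = -(3 * c) := by
  rw [Pm.ye, logb_pow, H.lg_κ]
  push_cast
  ring

theorem lg_μ0 : logb p.n p.μ0 = -(2 / 3) - 2 * c := by rw [Pm.μ0, H.lg_rp, H.hc]


theorem lg_amax : logb p.n p.amax = logb p.n p.s + c / 14 - 1 / 6 := by
  rw [Pm.amax, logb_mul H.s0.ne' (rp_pos H.n1 _).ne', H.lg_rp, H.hc]
  ring

theorem lg_v : logb p.n p.v = 2 * logb p.n p.β - A := by
  rw [Pm.v, logb_div (pow_pos H.β0 2).ne' (pow_pos H.N0 _).ne', logb_pow, logb_pow, H.lg_n, H.hA]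
  push_cast
  ring

theorem lg_m {m : ℕ} (h1 : p.n ≤ m) (h2 : m ≤ 2 * p.n) :
    1 ≤ logb p.n m ∧ logb p.n m ≤ 1 + η := by
  have a1 : (p.n : ℝ) ≤ m := Nat.cast_le.2 h1
  have a2 : (m : ℝ) ≤ 2 * p.n := by exact_mod_cast h2
  have a3 := H.lg_mono (H.N0.trans_le a1) a2
  rw [logb_mul two_ne_zero H.N0.ne', H.lg_n] at a3
  exact ⟨H.lg_n.ge.trans (H.lg_mono H.N0 a1),
    by linarith [(H.lg_num (x := 2) (by norm_num) (by norm_num)).2]⟩

theorem κ1 : p.κ ≤ 1 := H.le_of_lg H.κ0 one_pos (by rw [H.lg_κ, logb_one]; linarith [H.c_pos])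

theorem r_le_ye : p.r ≤ p.ye := H.le_of_lg H.r0 H.ye0 (by
  rw [H.lg_r, H.lg_ye]
  linarith [H.lg_s.2, H.c_le])

theorem ye1 : p.ye ≤ 1 := pow_le_one₀ H.κ0.le H.κ1

theorem μ0_le : p.μ0 ≤ p.κ * p.r ^ 2 := by
  have := H.κ0
  have := H.r0
  refine H.le_of_lg H.μ00 (by positivity) ?_
  lg_norm
  linarith [H.lg_μ0, H.lg_κ, H.lg_r, H.lg_s.1, H.c_le, H.c_pos]


theorem amax_le : p.amax ≤ p.r := H.le_of_lg H.amax0 H.r0 (by
  linarith [H.lg_r, H.lg_amax, H.c_pos])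

/-- the mesh is below every fixed power -/
theorem lg_v_le : logb p.n p.v ≤ η - A := by linarith [H.lg_v, H.lg_β.2]


theorem v_le_r : p.v ≤ p.r := by
  have h : (2 : ℝ) ≤ A := by exact_mod_cast H.A2
  exact H.le_of_lg H.v0 H.r0 (by linarith [H.lg_v_le, H.lg_r, H.η_le, H.c_le, H.c_pos, H.lg_s.1])



theorem Nr_bds : A * log p.n ≤ p.Nr * p.v ∧ p.Nr * p.v ≤ A * log p.n + p.v := by
  have h0 : 0 ≤ (p.A : ℝ) * log p.n / p.v :=
    div_nonneg (mul_nonneg p.A.cast_nonneg (by linarith [H.log1])) H.v0.le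
  have h1 := Nat.le_ceil ((p.A : ℝ) * log p.n / p.v)
  have h2 := (Nat.ceil_lt_add_one h0).le
  rw [div_le_iff₀ H.v0] at h1
  rw [div_add_one H.v0.ne', le_div_iff₀ H.v0] at h2
  rw [← H.hA]
  exact ⟨h1, h2⟩

section mem

variable {τ y : ℝ} (M : p.Mem τ y)
include M

theorem τ0 : 0 < τ := by
  rcases M with ⟨_, h, _⟩ | ⟨h, _⟩
  · have := H.μ00.trans_le h
    rw [mul_assoc] at this
    exact (mul_pos_iff_of_pos_right (mul_pos H.κ0 (pow_pos H.r0 2))).1 this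
  · rw [h]; exact one_pos

omit H in
theorem τ1 : τ ≤ 1 := by
  rcases M with ⟨_, _, h⟩ | ⟨h, _⟩
  · exact h
  · exact h.le

theorem y_bds : p.r ≤ y ∧ y ≤ p.ye := by
  rcases M with ⟨h, _⟩ | ⟨_, h⟩
  · exact ⟨h.ge, h.trans_le H.r_le_ye⟩
  · exact h

theorem y0 : 0 < y := H.r0.trans_le (H.y_bds M).1

theorem eps0 : 0 < p.eps τ := mul_pos (mul_pos (H.τ0 M) H.κ0) (pow_pos H.r0 2)

theorem μ0_le_eps : p.μ0 ≤ p.eps τ := by
  rcases M with ⟨_, h, _⟩ | ⟨h, _⟩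
  · exact h
  · rw [Pm.eps, h, one_mul]; exact H.μ0_le

theorem eps_le_ms (t : ℝ) : p.eps τ ≤ p.ms τ y t :=
  mul_le_mul_of_nonneg_left (pow_le_pow_left₀ H.r0.le (le_max_left _ _) 2)
    (mul_pos (H.τ0 M) H.κ0).le

theorem ms_le_μ (t : ℝ) : p.ms τ y t ≤ p.μ τ y :=
  mul_le_mul_of_nonneg_left (pow_le_pow_left₀ (H.r0.le.trans (le_max_left _ _))
    (max_le (H.y_bds M).1 (min_le_right _ _)) 2) (mul_pos (H.τ0 M) H.κ0).le


theorem ms_top {t : ℝ} (h : y ≤ t) : p.ms τ y t = p.μ τ y := by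
  rw [Pm.ms, min_eq_right h, max_eq_right (H.y_bds M).1, Pm.μ]

/-- doubling -/
theorem ms_mul {t k : ℝ} (hk : 1 ≤ k) : p.ms τ y (k * t) ≤ k ^ 2 * p.ms τ y t := by
  have h0 := H.r0
  have h1 := H.y0 M
  have h2 : max p.r (min (k * t) y) ≤ k * max p.r (min t y) := by
    refine max_le ?_ ?_
    · nlinarith [le_max_left p.r (min t y)]
    · rcases le_total t y with h | h
      · exact (min_le_left _ _).trans (mul_le_mul_of_nonneg_left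
          ((min_eq_left h).ge.trans (le_max_right _ _)) (by linarith))
      · have := (min_eq_right h).ge.trans (le_max_right p.r (min t y))
        exact (min_le_right _ _).trans (by nlinarith)
  have h3 := pow_le_pow_left₀ (h0.le.trans (le_max_left _ _)) h2 2
  have h4 := mul_le_mul_of_nonneg_left h3 (mul_pos (H.τ0 M) H.κ0).le
  rw [Pm.ms, Pm.ms]
  linarith [h4, show τ * p.κ * (k * max p.r (min t y)) ^ 2 =
    k ^ 2 * (τ * p.κ * max p.r (min t y) ^ 2) by ring]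

theorem ms0 (t : ℝ) : 0 < p.ms τ y t := (H.eps0 M).trans_le (H.eps_le_ms M t)

theorem μ_pos : 0 < p.μ τ y := (H.ms0 M 0).trans_le (H.ms_le_μ M 0)

theorem eps_le_μ : p.eps τ ≤ p.μ τ y := (H.eps_le_ms M 0).trans (H.ms_le_μ M 0)

theorem μ0_le_μ : p.μ0 ≤ p.μ τ y := (H.μ0_le_eps M).trans (H.eps_le_μ M)

theorem μ_le : p.μ τ y ≤ p.κ ^ 7 := by
  have h1 := pow_le_pow_left₀ (H.y0 M).le (H.y_bds M).2 2
  have h2 := H.κ0
  have h3 : τ * p.κ ≤ p.κ := mul_le_of_le_one_left h2.le (τ1 M)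
  calc p.μ τ y ≤ p.κ * p.ye ^ 2 := mul_le_mul h3 h1 (sq_nonneg _) h2.le
    _ = p.κ ^ 7 := by rw [Pm.ye]; ring

theorem wt0 : 0 < p.wt τ y := rpow_pos_of_pos (mul_pos H.N0 (H.μ_pos M)) _


theorem lg_y : logb p.n p.r ≤ logb p.n y ∧ logb p.n y ≤ -(3 * c) :=
  ⟨H.lg_mono H.r0 (H.y_bds M).1, (H.lg_mono (H.y0 M) (H.y_bds M).2).trans_eq H.lg_ye⟩

theorem lg_μ_eq : logb p.n (p.μ τ y) = logb p.n τ - c + 2 * logb p.n y := by
  have := H.τ0 M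
  have := H.κ0
  have := H.y0 M
  rw [Pm.μ]
  lg_norm
  rw [H.lg_κ]
  ring





end mem


theorem mem_end : p.Mem 1 p.ye := .inr ⟨rfl, H.r_le_ye, le_rfl⟩


end Reg

end Crest.Agent.T156.Alt

end
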