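import Crest.Agent.T156.QClDef_98

/-!
# Row 156, block Q on the class: the two exact Brascamp–Lieb leaves `QBlS`, `QVarS` (helper21)

General form on a symmetric cascade (`QCas98.Dat`), along any strictly increasing family of nodes
`ν k ≥ 1`; then the models `Md` with `ν k = k + 1`.
-/

set_option autoImplicit false

noncomputable section

namespace Crest.Agent.T156.Alt.QBl21

open MeasureTheory Real Finset
open Crest.Agent.T157.E Crest.Agent.T157.Casc Crest.Agent.T157.SL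
open Crest.Agent.T156.Cas Crest.Agent.T156.Cas.Lp12 Crest.Agent.T156.Q57
open Crest.Agent.T156.Cas.QCas98 Crest.Agent.T156.Cas.QSys98
open Crest.Agent.T157.G1 (ov)

section gen
variable {Ω : Type} [Fintype Ω] {w : Ω → ℝ} {L : List (Lv Ω)} {h : Ω → ℝ} {l₀ : Lv Ω} {τ : ℕ → ℝ}

theorem ok_nu (D : Dat w L h l₀ τ) {ν : ℕ → ℕ} (hν : StrictMono ν) : (qsys w L l₀ h ν).Ok := by
  obtain ⟨T, a, b, c⟩ := D.sym
  exact qsys_ok D.hw D.mono h a b l₀ c D.one hν

theorem ep_g (hw : Wt w) {g : ℝ → ℝ} (hg : Continuous g) (j : ℕ) :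
    EP fun q => g (rP w L l₀ j q) := EP.state (Sy41.eg_comp_rr hw (L.drop j) l₀ hg) j

/-- the variance as a second moment -/
theorem mo_var (hw : Wt w) {F : Pth Ω → ℝ} (hF : EP F) {B : ℝ} (hB : 0 ≤ B)
    (H : EE w L h (fun q => F q ^ 2) - EE w L h F ^ 2 ≤ B ^ 2) :
    Mo w L h 2 (fun q => F q - EE w L h F) B := by
  refine ⟨hF.sub (EP.const _), hB, le_trans (le_of_eq ?_) H⟩
  have e : (fun q => |F q - EE w L h F| ^ 2) =
      fun q => F q ^ 2 - 2 * EE w L h F * F q + EE w L h F ^ 2 := by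
    funext q; rw [sq_abs]; ring
  rw [e, EE_add hw L h ((hF.pow 2).sub (hF.const_mul _)) (EP.const _),
    EE_sub hw L h (hF.pow 2) (hF.const_mul _), EE_const_mul, EE_const hw]
  ring

/-- **variance of a local functional**, path frame -/
theorem var_cas (D : Dat w L h l₀ τ) {ν : ℕ → ℕ} (hν : StrictMono ν) (h1 : ∀ k, 1 ≤ ν k)
    (J : Finset ℕ) (g g' : ℕ → ℝ → ℝ) (c ψ : ℕ → ℝ) (i : ℕ) (B : ℝ)
    (hg : ∀ k r, HasDerivAt (g k) (g' k r) r) (hc : ∀ k, Continuous (g' k))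
    (hb : ∀ k ∈ J, ∀ r, 0 ≤ r → r ≤ 1 → |g' k r| ≤ ψ k * |r - c k| ^ i) (hB : 0 ≤ B)
    (H : 4 * ∑ k ∈ J, dm L 0 (ν k) * ψ k ^ 2 *
      EE w L h (fun q => |rP w L l₀ (ν k) q - c k| ^ (2 * i) * aP w L l₀ (ν k) q) ≤ B ^ 2) :
    Mo w L h 2 (fun q => ∑ k ∈ J, dm L 0 (ν k) * g k (rP w L l₀ (ν k) q) -
      EE w L h fun q => ∑ k ∈ J, dm L 0 (ν k) * g k (rP w L l₀ (ν k) q)) B := by
  have hw := D.hw
  have cg : ∀ k, Continuous (g k) := fun k =>
    continuous_iff_continuousAt.2 fun t => (hg k t).continuousAt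
  have eF : EP fun q => ∑ k ∈ J, dm L 0 (ν k) * g k (rP w L l₀ (ν k) q) :=
    EP.sum _ fun k _ => (ep_g hw (cg k) _).const_mul _
  have key := Blk24.var_loc (ok_nu D hν) J g g' c ψ i hg hc hb
  simp only [qsys_dm w L l₀ h ν (h1 _), qsys_aa, qsys_rho, qsys_mu] at key
  have e1 := int_EE hw L h (eF.pow 2)
  have e2 := int_EE hw L h eF
  have e3 : ∀ k, _ = _ := fun k => int_EE hw L h
    ((((ep_rP (L := L) (l₀ := l₀) hw (ν k)).sub (EP.const (c k))).abs.pow (2 * i)).mul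
      (ep_aP (L := L) (l₀ := l₀) hw (ν k)))
  simp only [rP, aP] at e1 e2 e3 H eF ⊢
  rw [e1, e2] at key
  simp only [e3] at key
  exact mo_var hw eF hB (key.trans H)


end gen

theorem sm_succ : StrictMono fun k : ℕ => k + 1 := fun _ _ h => Nat.succ_lt_succ h

theorem rb_eq (M : Md) {m : ℕ} (hm : 0 < m) (a : ℝ) (k : ℕ) :
    M.rb m a k = pi2 (fun _ => 1) (M.L m a) (k + 1) (Q33.sl m).cov 0 := by
  rw [show (Q33.sl m).cov = ov from funext fun x => funext fun y => Q33.sl_cov hm x y]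
  rfl


/-- **`QVarS`** -/
theorem qVar_of (hD : QDatS) : QVarS :=
  fun M m a x hm h0 hx hL J g g' c ψ i B hg hc hb hB H =>
    var_cas (hD M m a x hm h0 hx hL) sm_succ (fun k => Nat.le_add_left 1 k) J g g' c ψ i B
      hg hc hb hB H

end Crest.Agent.T156.Alt.QBl21

end
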