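import Crest.Agent.T156.QCas_98

/-!
# Row 156, block Q on a cascade: Lipschitz tolerances (helper98)
-/

set_option autoImplicit false
set_option maxHeartbeats 400000

noncomputable section

namespace Crest.Agent.T156.Cas.QCas98

open MeasureTheory Real Finset
open Crest.Agent.T157.E Crest.Agent.T157.Casc Crest.Agent.T157.SL
open Crest.Agent.T156.Cas.Sy41 Crest.Agent.T156.Q57 Crest.Agent.T156.Cas.Lp12
open Crest.Agent.T156.Q57.Blk24 (Nw Nw_v Nw_ge Nw_one Nw_two lip_near)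

theorem steps {j0 j1 : ℕ} {f : ℕ → ℝ} {α β : ℝ}
    (H : ∀ k, j0 ≤ k → k < j1 → α ≤ f (k + 1) - f k ∧ f (k + 1) - f k ≤ β) {i : ℕ} (hi : j0 ≤ i) :
    ∀ d : ℕ, i + d ≤ j1 → d * α ≤ f (i + d) - f i ∧ f (i + d) - f i ≤ d * β
  | 0, _ => by simp
  | d + 1, hd => by
    obtain ⟨a, b⟩ := steps H hi d (by omega)
    obtain ⟨a', b'⟩ := H (i + d) (by omega) (by omega)
    rw [← add_assoc]
    push_cast
    exact ⟨by linarith, by linarith⟩

theorem cl_steps {j0 j1 : ℕ} (h01 : j0 ≤ j1) {f : ℕ → ℝ} {α β : ℝ} (hα : α ≤ 0) (hβ : 0 ≤ β)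
    (H : ∀ k, j0 ≤ k → k < j1 → α ≤ f (k + 1) - f k ∧ f (k + 1) - f k ≤ β) {i j : ℕ} (hij : i ≤ j) :
    ((j : ℝ) - i) * α ≤ cl j0 j1 f j - cl j0 j1 f i ∧
      cl j0 j1 f j - cl j0 j1 f i ≤ ((j : ℝ) - i) * β := by
  obtain ⟨d, hd⟩ := Nat.exists_eq_add_of_le
    (show max j0 (min i j1) ≤ max j0 (min j j1) by omega)
  obtain ⟨a, b⟩ := steps H (le_max_left j0 (min i j1)) d (by omega)
  rw [← hd] at a b
  have e : (d : ℝ) ≤ j - i := by
    have : ((i + d : ℕ) : ℝ) ≤ j := by exact_mod_cast (by omega : i + d ≤ j)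
    push_cast at this
    linarith
  exact ⟨(mul_le_mul_of_nonpos_right e hα).trans a, b.trans (mul_le_mul_of_nonneg_right e hβ)⟩

theorem cl_lip {j0 j1 : ℕ} (h01 : j0 ≤ j1) {f : ℕ → ℝ} {β : ℝ} (hβ : 0 ≤ β)
    (H : ∀ k, j0 ≤ k → k < j1 → |f (k + 1) - f k| ≤ β) (i j : ℕ) :
    |cl j0 j1 f i - cl j0 j1 f j| ≤ |(i : ℝ) - j| * β := by
  have key : ∀ i j : ℕ, i ≤ j → |cl j0 j1 f j - cl j0 j1 f i| ≤ |(j : ℝ) - i| * β := fun i j hij => by
    obtain ⟨a, b⟩ := cl_steps h01 (neg_nonpos.2 hβ) hβ (fun k a b => abs_le.1 (H k a b)) hij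
    rw [abs_of_nonneg (sub_nonneg.2 (by exact_mod_cast hij : (i : ℝ) ≤ j))]
    exact abs_le.2 ⟨by linarith, b⟩
  rcases le_total i j with h | h
  · rw [abs_sub_comm, abs_sub_comm (i : ℝ)]; exact key i j h
  · exact key j i h

variable {Ω : Type} [Fintype Ω] {w : Ω → ℝ} {L : List (Lv Ω)} {h : Ω → ℝ} {l₀ : Lv Ω} {τ : ℕ → ℝ}

/-- a block with the clock `c` and the Lipschitz tolerance `ρ`, multiplied by `Λ` -/
structure LB (w : Ω → ℝ) (L : List (Lv Ω)) (h : Ω → ℝ) (l₀ : Lv Ω) (LL j0 j1 : ℕ)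
    (x v w3 K lam Λ : ℝ) (c ρ : ℕ → ℝ) : Prop where
  j01 : 1 ≤ j0
  le : j0 ≤ j1
  K3 : 3 ≤ K
  L1 : 1 ≤ Λ
  c0 : 0 ≤ c j0
  clk : ∀ k, j0 ≤ k → k < j1 → c k ≤ c (k + 1) ∧ c (k + 1) ≤ c k + v
  lip : ∀ k, j0 ≤ k → k < j1 → |ρ (k + 1) - ρ k| ≤ v / 16
  r16 : ∀ k, j0 ≤ k → k ≤ j1 → 16 * v ≤ ρ k
  loc : ∀ k, j0 ≤ k → k ≤ j1 → |rho w L l₀ h k - c k| ≤ ρ k
  old : ∀ k, j0 ≤ k → k ≤ j1 → rho w L l₀ h k ≤ Λ * (2 ^ LL * v + ρ k)
  T4 : ∀ k, j0 ≤ k → k ≤ j1 →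
    ((LL : ℝ) + 2) ^ 2 * (lam * w3 / x) ≤ Λ * ρ k * min (ρ k / 2) (2 ^ LL * v)
  T3 : ∀ k, j0 ≤ k → k ≤ j1 → 2 ≤ Λ * ρ k ∨ ∀ y : ℕ, j0 < y → y < j1 → |(y : ℝ) - k| * v ≤ ρ k →
    ((LL : ℝ) + 2) ^ 2 * (lam * K * w3) * v ≤ dm L 0 y * (Λ * ρ k * min (ρ k / 2) (2 ^ LL * v) ^ 2)

/-- a block with the clock `c` and the Lipschitz tolerance `ρ`, multiplied by `Λ`; location up to `Λ ρ` -/
structure LB' (w : Ω → ℝ) (L : List (Lv Ω)) (h : Ω → ℝ) (l₀ : Lv Ω) (LL j0 j1 : ℕ)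
    (x v w3 K lam Λ : ℝ) (c ρ : ℕ → ℝ) : Prop where
  j01 : 1 ≤ j0
  le : j0 ≤ j1
  K3 : 3 ≤ K
  L1 : 1 ≤ Λ
  c0 : 0 ≤ c j0
  clk : ∀ k, j0 ≤ k → k < j1 → c k ≤ c (k + 1) ∧ c (k + 1) ≤ c k + v
  lip : ∀ k, j0 ≤ k → k < j1 → |ρ (k + 1) - ρ k| ≤ v / 16
  r16 : ∀ k, j0 ≤ k → k ≤ j1 → 16 * v ≤ ρ k
  loc : ∀ k, j0 ≤ k → k ≤ j1 → |rho w L l₀ h k - c k| ≤ Λ * ρ k
  old : ∀ k, j0 ≤ k → k ≤ j1 → rho w L l₀ h k ≤ Λ * (2 ^ LL * v + ρ k)
  T4 : ∀ k, j0 ≤ k → k ≤ j1 →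
    ((LL : ℝ) + 2) ^ 2 * (lam * w3 / x) ≤ Λ * ρ k * min (ρ k / 2) (2 ^ LL * v)
  T3 : ∀ k, j0 ≤ k → k ≤ j1 → 2 ≤ Λ * ρ k ∨ ∀ y : ℕ, j0 < y → y < j1 → |(y : ℝ) - k| * v ≤ ρ k →
    ((LL : ℝ) + 2) ^ 2 * (lam * K * w3) * v ≤ dm L 0 y * (Λ * ρ k * min (ρ k / 2) (2 ^ LL * v) ^ 2)

section lb
variable {LL j0 j1 j2 : ℕ} {x v w3 K lam Λ : ℝ} {c ρ : ℕ → ℝ} {t' : ℕ → ℕ}

theorem LB'.glip (B : LB' w L h l₀ LL j0 j1 x v w3 K lam Λ c ρ) (hv : 0 < v) (i j : ℕ) :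
    |cl j0 j1 ρ i - cl j0 j1 ρ j| ≤ |(i : ℝ) - j| * v / 16 := by
  rw [mul_div_assoc]
  exact cl_lip B.le (by positivity) B.lip i j

theorem LB'.g16 (B : LB' w L h l₀ LL j0 j1 x v w3 K lam Λ c ρ) (j : ℕ) : 16 * v ≤ cl j0 j1 ρ j :=
  B.r16 _ (le_max_left _ _) (by have := B.le; omega)

theorem LB'.win (B : LB' w L h l₀ LL j0 j1 x v w3 K lam Λ c ρ) (D : Dat w L h l₀ τ)
    (R : Ric L τ t' LL j0 j1 j2 x v w3 K) (hl : 0 < lam) {a0 a1 : ℕ} (h0 : j0 + 2 ^ LL < a0)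
    (h1 : a1 + 2 ^ LL ≤ j1) :
    (sysC w L h l₀).Win LL v (lam * w3 / x) (lam * K * w3) K a0 a1 (Nw LL v (cl j0 j1 ρ))
      (fun j => Λ * cl j0 j1 ρ j) (fun j => min (cl j0 j1 c j) 2)
      fun j => ((LL : ℝ) + 2) ^ 2 * (lam * K * w3) * v /
        (Λ * ρ j * min (ρ j / 2) (2 ^ LL * v) ^ 2) := by
  have hv := R.v0
  have x0 := R.x0
  have K2 := B.K3
  have L1 := B.L1
  have w0 : 0 < w3 := by linarith [R.vw]
  have le := B.le
  have hP : 0 < 2 ^ LL := Nat.two_pow_pos LL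
  set σ := cl j0 j1 ρ with hσ
  have t16 : ∀ j, 16 * v ≤ σ j := B.g16
  have lip : ∀ i j : ℕ, |σ i - σ j| ≤ |(i : ℝ) - j| * v / 16 := B.glip hv
  have t0 : ∀ j, 0 ≤ σ j := fun j => by linarith [t16 j]
  have tL : ∀ j, σ j ≤ Λ * σ j := fun j => le_mul_of_one_le_left (t0 j) L1
  have Nv : ∀ j, Nw LL v σ j * v ≤ σ j := fun j => Nw_v hv (t0 j)
  have Nl : ∀ j, min (σ j / 2) (2 ^ LL * v) ≤ Nw LL v σ j * v := fun j =>
    Nw_ge hv (t16 j) ((min_le_left _ _).trans (by linarith [t0 j])) (min_le_right _ _)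
  have NU : ∀ j, Nw LL v σ j ≤ 2 ^ LL := fun j => min_le_right _ _
  have es : ∀ j, a0 ≤ j → j ≤ a1 → σ j = ρ j := fun j a b => cl_eq ρ (by omega) (by omega)
  have ec : ∀ j, a0 ≤ j → j ≤ a1 → cl j0 j1 c j = c j := fun j a b => cl_eq c (by omega) (by omega)
  have st : ∀ i j : ℕ, i ≤ j → 0 ≤ cl j0 j1 c j - cl j0 j1 c i ∧
      cl j0 j1 c j - cl j0 j1 c i ≤ ((j : ℝ) - i) * v := fun i j hij => by
    have := cl_steps le le_rfl hv.le (f := c)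
      (fun k a b => ⟨by linarith [(B.clk k a b).1], by linarith [(B.clk k a b).2]⟩) hij
    rwa [mul_zero] at this
  have c0 : ∀ j, 0 ≤ cl j0 j1 c j := fun j => by
    have a := (st 0 j (Nat.zero_le j)).1
    have b : cl j0 j1 c 0 = c j0 := by simp [cl]
    linarith [B.c0]
  refine ⟨hv, by linarith, by positivity, by positivity, fun j => Nw_one hv (t16 j), NU,
    fun i j hij => ?_, fun j => ⟨le_min (c0 j) zero_le_two, min_le_right _ _⟩,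
    fun j => (Nv j).trans (tL j), fun j a b => ?_, fun i j _ _ _ _ h1 h2 => ?_,
    fun i j _ _ h1 _ => ?_, fun j a b => ?_, fun j a b => ?_, fun j a b => ?_⟩
  · obtain ⟨a, b⟩ := st i j hij
    have : 0 ≤ ((j : ℝ) - i) * v := a.trans b
    constructor
    · exact sub_nonneg.2 (min_le_min (by linarith) le_rfl)
    · rcases le_total (cl j0 j1 c i) 2 with e | e
      · rw [min_eq_left e]; linarith [min_le_left (cl j0 j1 c j) 2]
      · rw [min_eq_right e]; linarith [min_le_right (cl j0 j1 c j) 2]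
  · rw [sysC_r L h l₀ D.hw, ec j a b]
    have k := abs_le.1 (B.loc j (by omega) (by omega))
    have r1 := Q33.rho_le D.hw L D.one h j
    rw [es j a b]
    rcases le_total (c j) 2 with e | e
    · rw [min_eq_left e]; exact abs_le.2 k
    · rw [min_eq_right e]; exact abs_le.2 ⟨by linarith [k.1], by linarith [k.1]⟩
  · have k := abs_le.1 (lip_near hv lip h1 h2)
    push_cast at k
    have := Nv j
    have := t0 j
    refine ⟨Nw_two hv (t0 i) (t16 j) (by linarith [k.2]),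
      Nw_two hv (t0 j) (t16 i) (by linarith [k.1]), ?_⟩
    have : σ i ≤ K * σ j := by nlinarith [k.2]
    nlinarith
  · have a1 : (i : ℝ) + Nw LL v σ j ≤ j := by exact_mod_cast h1
    have n0 : (0 : ℝ) ≤ Nw LL v σ j := Nat.cast_nonneg _
    have k := (abs_le.1 (lip i j)).2
    rw [abs_of_nonpos (by linarith)] at k
    have e1 := mul_le_mul_of_nonneg_right k n0
    have e2 := mul_le_mul_of_nonneg_left (Nv j) (show 0 ≤ (j : ℝ) - i by linarith)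
    have e3 := mul_le_mul_of_nonneg_left (show (Nw LL v σ j : ℝ) ≤ j - i by linarith) (t0 j)
    have e4 : 0 ≤ σ j * ((j : ℝ) - i) := mul_nonneg (t0 j) (by linarith)
    have e5 : σ i * Nw LL v σ j ≤ K * (σ j * ((j : ℝ) - i)) := by nlinarith
    nlinarith [mul_le_mul_of_nonneg_left e5 (zero_le_one.trans L1)]
  · have n0 : (0 : ℝ) ≤ Nw LL v σ j := Nat.cast_nonneg _
    have k := (abs_le.1 (B.loc j (by omega) (by omega))).1
    have k2 := B.old j (by omega) (by omega)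
    have e0 : min (cl j0 j1 c j) 2 ≤ Λ * (2 ^ LL * v) + 2 * (Λ * σ j) := by
      have := tL j
      rw [ec j a b, es j a b] at *; linarith [min_le_left (c j) 2]
    have e1 := mul_le_mul_of_nonneg_right e0 n0
    have e2 := mul_le_mul_of_nonneg_left (Nv j) (show 0 ≤ Λ * 2 ^ LL by positivity)
    have e3 : (Nw LL v σ j : ℝ) ≤ 2 ^ LL := by exact_mod_cast NU j
    have e4 := mul_le_mul_of_nonneg_left e3 ((t0 j).trans (tL j))
    have e5 : 0 ≤ Λ * σ j * 2 ^ LL := by have := t0 j; positivity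
    nlinarith
  · refine (B.T4 j (by omega) (by omega)).trans ?_
    rw [← es j a b]
    exact mul_le_mul_of_nonneg_left (Nl j) ((t0 j).trans (tL j))
  · rw [es j a b]
    have r0 : 0 < ρ j := by linarith [t16 j, es j a b]
    have m0 : 0 < min (ρ j / 2) (2 ^ LL * v) := lt_min (by positivity) (by positivity)
    refine (B.T3 j (by omega) (by omega)).imp id fun h3 => ⟨by positivity, fun y a' b' => ?_, ?_⟩
    · have j01 := B.j01
      have := R.j12.trans R.j2L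
      have := NU j
      rw [sysC_dm w L h l₀ (by omega) (by omega), div_le_iff₀ (by positivity)]
      refine h3 y (by omega) (by omega) (le_trans ?_ ((Nv j).trans (es j a b).le))
      have a1 : (j : ℝ) ≤ y + Nw LL v σ j := by exact_mod_cast a'
      have a2 : (y : ℝ) ≤ j + Nw LL v σ j := by exact_mod_cast b'.le
      exact mul_le_mul_of_nonneg_right (abs_le.2 ⟨by linarith, by linarith⟩) hv.le
    · have e1 := Nl j
      rw [es j a b] at e1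
      have e2 := pow_le_pow_left₀ m0.le e1 2
      rw [div_mul_eq_mul_div, div_mul_eq_mul_div, le_div_iff₀ (by positivity)]
      have e3 : 0 ≤ ((LL : ℝ) + 2) ^ 2 * (lam * K * w3) * (Λ * ρ j) := by positivity
      nlinarith [mul_le_mul_of_nonneg_left e2 e3]

theorem LB.glip (B : LB w L h l₀ LL j0 j1 x v w3 K lam Λ c ρ) (hv : 0 < v) (i j : ℕ) :
    |cl j0 j1 ρ i - cl j0 j1 ρ j| ≤ |(i : ℝ) - j| * v / 16 := by
  rw [mul_div_assoc]
  exact cl_lip B.le (by positivity) B.lip i j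

theorem LB.g16 (B : LB w L h l₀ LL j0 j1 x v w3 K lam Λ c ρ) (j : ℕ) : 16 * v ≤ cl j0 j1 ρ j :=
  B.r16 _ (le_max_left _ _) (by have := B.le; omega)

theorem LB.wk (B : LB w L h l₀ LL j0 j1 x v w3 K lam Λ c ρ) :
    LB' w L h l₀ LL j0 j1 x v w3 K lam Λ c ρ :=
  ⟨B.j01, B.le, B.K3, B.L1, B.c0, B.clk, B.lip, B.r16, fun k a b => (B.loc k a b).trans
    (le_mul_of_one_le_left ((abs_nonneg _).trans (B.loc k a b)) B.L1), B.old, B.T4, B.T3⟩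

theorem LB.win (B : LB w L h l₀ LL j0 j1 x v w3 K lam Λ c ρ) (D : Dat w L h l₀ τ)
    (R : Ric L τ t' LL j0 j1 j2 x v w3 K) (hl : 0 < lam) {a0 a1 : ℕ} (h0 : j0 + 2 ^ LL < a0)
    (h1 : a1 + 2 ^ LL ≤ j1) :
    (sysC w L h l₀).Win LL v (lam * w3 / x) (lam * K * w3) K a0 a1 (Nw LL v (cl j0 j1 ρ))
      (fun j => Λ * cl j0 j1 ρ j) (fun j => min (cl j0 j1 c j) 2)
      fun j => ((LL : ℝ) + 2) ^ 2 * (lam * K * w3) * v /
        (Λ * ρ j * min (ρ j / 2) (2 ^ LL * v) ^ 2) := B.wk.win D R hl h0 h1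

end lb

/-- **(Q2) for a Lipschitz tolerance** -/
theorem lip_syn' (r i : ℕ) (K : ℝ) (hi : 1 ≤ i) (hr : r ≤ i) : ∃ C : ℝ, 1 ≤ C ∧
    ∀ (Ω : Type) [Fintype Ω] (w : Ω → ℝ) (L : List (Lv Ω)) (h : Ω → ℝ) (l₀ : Lv Ω) (τ : ℕ → ℝ)
      (t' : ℕ → ℕ) (LL j0 j1 j2 a0 a1 : ℕ) (x v w3 lam Λ : ℝ) (c ρ : ℕ → ℝ),
      Dat w L h l₀ τ → Ric L τ t' LL j0 j1 j2 x v w3 K → C ≤ lam → Pol r LL j1 v lam →
      LB' w L h l₀ LL j0 j1 x v w3 K lam Λ c ρ →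
      j0 + (r + 3) * (8 * 2 ^ LL) ≤ a0 → a1 + (r + 3) * (8 * 2 ^ LL) ≤ j1 → a0 ≤ a1 →
      Syn w L h l₀ (2 ^ i) a0 a1 v (2 * lam ^ 3) (lam ^ 4 * (((LL : ℝ) + 2) ^ 2 * (lam * K * w3)))
        (Nw LL v (cl j0 j1 ρ)) (fun j => Λ * cl j0 j1 ρ j) c := by
  obtain ⟨C, C1, H⟩ := sync_cas r i K hi hr
  refine ⟨C, C1, ?_⟩
  intro Ω _ w L h l₀ τ t' LL j0 j1 j2 a0 a1 x v w3 lam Λ c ρ D R hC P B h0 h1 h01
  have hP : 0 < 2 ^ LL := Nat.two_pow_pos LL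
  have l1 : 1 ≤ lam := C1.trans hC
  have e : (r + 3) * (8 * 2 ^ LL) = (r + 2) * (8 * 2 ^ LL) + 8 * 2 ^ LL := by ring
  have S := H Ω w L h l₀ τ t' LL (j0 + 2 ^ LL + 1) (j1 - 2 ^ LL) j2 a0 a1 x v w3 lam _ _ _ _ D
    (R.sub (by omega) (by omega)) hC ⟨P.v1, P.L1, le_trans (by
      have : ((j1 - 2 ^ LL : ℕ) : ℝ) ≤ j1 := by exact_mod_cast Nat.sub_le _ _
      linarith) P.j1⟩ (B.win D R (by linarith) (Nat.lt_succ_self _) (by omega)) (by omega) (by omega)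
  have v0 := R.v0
  have L1 := B.L1
  have t0 : ∀ j, 0 ≤ cl j0 j1 ρ j := fun j => by linarith [B.g16 j]
  have l3 : 1 ≤ lam ^ 3 := one_le_pow₀ l1
  have k0 : ∀ j, 0 ≤ lam ^ 3 * (Λ * cl j0 j1 ρ j) := fun j => by have := t0 j; positivity
  refine ⟨fun j a b => ?_, S.ric, fun j j' a b a' b' =>
    (S.inc j j' a b a' b').mono (by linarith [k0 j])⟩
  have k1 := ((S.loc j a b).add D.hw (Mo.const D.hw (min (cl j0 j1 c j) 2 - c j))).congr
    (F := fun q => rP w L l₀ j q - c j) fun _ => by ring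
  refine k1.mono ?_
  have k2 : |min (cl j0 j1 c j) 2 - c j| ≤ Λ * cl j0 j1 ρ j := by
    rw [cl_eq c (by omega) (by omega), cl_eq ρ (by omega) (by omega)]
    have k := abs_le.1 (B.loc j (by omega) (by omega))
    have r1 := Q33.rho_le D.hw L D.one h j
    rcases le_total (c j) 2 with e | e
    · rw [min_eq_left e, sub_self, abs_zero]; linarith [k.1, k.2]
    · rw [min_eq_right e]; exact abs_le.2 ⟨by linarith [k.1], by linarith [k.1, k.2]⟩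
  have k3 : Λ * cl j0 j1 ρ j ≤ lam ^ 3 * (Λ * cl j0 j1 ρ j) :=
    le_mul_of_one_le_left (by have := t0 j; positivity) l3
  linarith


section sums
variable {p a0 a1 LL : ℕ} {v A G Λ : ℝ} {σ c : ℕ → ℝ}

theorem win_near (hv : 0 < v) (t16 : ∀ j, 16 * v ≤ σ j)
    (lip : ∀ i j : ℕ, |σ i - σ j| ≤ |(i : ℝ) - j| * v / 16) {j y : ℕ}
    (hy : y ∈ Ico j (j + Nw LL v σ j)) : σ y ≤ 2 * σ j ∧ σ j ≤ 2 * σ y ∧ Nw LL v σ j * v ≤ 2 * σ y := by
  obtain ⟨a, b⟩ := mem_Ico.1 hy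
  have k := abs_le.1 (lip_near hv lip (i := y) (j := j) (M := Nw LL v σ j) b.le (by omega))
  have t0 : 0 ≤ σ j := by linarith [t16 j]
  have := Nw_v (L := LL) hv t0
  exact ⟨by linarith [k.2], by linarith [k.1], by linarith [k.1]⟩

theorem ratio_le (hv : 0 < v) (t16 : ∀ j, 16 * v ≤ σ j) (hΛ : 0 ≤ Λ) {j : ℕ} {s : ℝ}
    (hs : σ j ≤ 2 * s) :
    Λ * σ j / (Nw LL v σ j * v) ≤ 2 * Λ * (1 + s / (2 ^ LL * v)) := by
  have t0 : 0 < σ j := by linarith [t16 j]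
  have e1 : min (σ j / 2) (2 ^ LL * v) ≤ Nw LL v σ j * v :=
    Nw_ge hv (t16 j) ((min_le_left _ _).trans (by linarith)) (min_le_right _ _)
  have m0 : 0 < min (σ j / 2) (2 ^ LL * v) := lt_min (by positivity) (by positivity)
  have u0 : (0 : ℝ) < 2 ^ LL * v := by positivity
  have s0 : 0 ≤ s / (2 ^ LL * v) := div_nonneg (by linarith) u0.le
  refine (div_le_div_of_nonneg_left (by positivity) m0 e1).trans ?_
  rw [div_le_iff₀ m0]
  have : σ j ≤ 2 * (1 + s / (2 ^ LL * v)) * min (σ j / 2) (2 ^ LL * v) := by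
    rcases min_choice (σ j / 2) (2 ^ LL * v) with e | e <;> rw [e]
    · nlinarith
    · have : s / (2 ^ LL * v) * (2 ^ LL * v) = s := div_mul_cancel₀ _ u0.ne'
      nlinarith
  nlinarith [mul_le_mul_of_nonneg_left this hΛ]

/-- the largest weight on a window -/
def ubw (u : ℕ → ℝ) (N : ℕ → ℕ) (j : ℕ) : ℝ := ⨆ y : Ico j (j + N j), u y

theorem le_ubw (u : ℕ → ℝ) (N : ℕ → ℕ) {j y : ℕ} (hy : y ∈ Ico j (j + N j)) : u y ≤ ubw u N j :=
  le_ciSup (f := fun y : Ico j (j + N j) => u y) (Set.finite_range _).bddAbove ⟨y, hy⟩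

theorem ubw_le {u : ℕ → ℝ} {N : ℕ → ℕ} {j : ℕ} {B : ℝ} (hB : 0 ≤ B)
    (H : ∀ y ∈ Ico j (j + N j), u y ≤ B) : ubw u N j ≤ B :=
  Real.iSup_le (fun y => H y y.2) hB

variable (S : Syn w L h l₀ p a0 a1 v A G (Nw LL v σ) (fun j => Λ * σ j) c) (D : Dat w L h l₀ τ)
  (hv : 0 < v) (t16 : ∀ j, 16 * v ≤ σ j) (lip : ∀ i j : ℕ, |σ i - σ j| ≤ |(i : ℝ) - j| * v / 16)
  (hp : 1 ≤ p) (hΛ : 1 ≤ Λ) (hG : 0 < G) {b0 b1 U : ℕ} {u Gm : ℕ → ℝ} (h0 : a0 ≤ b0)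
  (hU : ∀ j, b0 ≤ j → j < b1 → Nw LL v σ j ≤ U) (u0 : ∀ y, 0 ≤ u y) (G0 : ∀ y, 0 ≤ Gm y)
  (maj : ∀ j, b0 ≤ j → j < b1 → ∀ y ∈ Ico j (j + Nw LL v σ j), ∀ y' ∈ Ico j (j + Nw LL v σ j),
    u y ≤ Gm y')
include S D hv t16 lip hp hΛ hG h0 hU u0 G0 maj

/-- **(A)** weighted sums of `mᵀ A m` -/
theorem Syn.asum (h1 : b1 ≤ a1 + 1) :
    Mo w L h p (fun q => ∑ y ∈ Ico b0 b1, u y * aP w L l₀ y q)
      (2 * Λ * G * ∑ y ∈ Ico b0 (b1 + U), Gm y * (1 + σ y / (2 ^ LL * v))) := by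
  have t0 : ∀ j, 0 < σ j := fun j => by linarith [t16 j]
  refine mo_of_nb D.hw (EP.sum _ fun y _ => (ep_aP D.hw y).const_mul _) ?_
  have key := Blk24.a_sum N89.nbS D.ok hp (Nw LL v σ) U b0 b1 u (ubw u (Nw LL v σ))
    (fun j => G * (Λ * σ j / (Nw LL v σ j * v)))
    (fun y => 2 * Λ * G * (Gm y * (1 + σ y / (2 ^ LL * v)))) u0
    (fun y => by have := t0 y; have := G0 y; positivity)
    (fun j a b => ⟨Nw_one hv (t16 j), hU j a b⟩)
    (fun j a b => by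
      simp only [sysC_aa]
      exact nb_of_mo D.hw (S.ric j (by omega) (by omega)))
    fun j a b y hy => ⟨le_ubw u _ hy, by
      have e1 := ubw_le (G0 y) fun y' hy' => maj j a b y' hy' y hy
      have e2 := ratio_le (LL := LL) hv t16 (zero_le_one.trans hΛ) (win_near hv t16 lip hy).2.1
      have := t0 j
      calc _ ≤ Gm y * (G * (2 * Λ * (1 + σ y / (2 ^ LL * v)))) :=
            mul_le_mul e1 (mul_le_mul_of_nonneg_left e2 hG.le) (by positivity) (G0 y)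
        _ = _ := by ring⟩
  simp only [sysC_aa] at key
  rw [mul_sum]
  exact key

/-- **(Q3)** the joint bound -/
theorem Syn.jsum (h1 : ∀ j, b0 ≤ j → j < b1 → j + Nw LL v σ j ≤ a1 + 1) (hA : 0 ≤ A) {lam : ℝ}
    (hl : 1 ≤ lam) (hGl : 1 ≤ G * lam ^ p) {i : ℕ} (hi : i ≤ p) :
    ∑ y ∈ Ico b0 b1, u y * EE w L h (fun q => |rP w L l₀ y q - c y| ^ i * aP w L l₀ y q) ≤
      4 * Λ * G * (4 * lam * A * Λ) ^ i *
        ∑ y ∈ Ico b0 (b1 + U), Gm y * (σ y ^ i * (1 + σ y / (2 ^ LL * v))) := by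
  have t0 : ∀ j, 0 < σ j := fun j => by linarith [t16 j]
  have N0 : ∀ j, (0 : ℝ) < Nw LL v σ j := fun j => by exact_mod_cast Nw_one hv (t16 j)
  have key := Blk24.q3_sum N89.jointS D.ok hp hi (Nw LL v σ) U b0 b1 c (fun j => A * (Λ * (2 * σ j)))
    u (ubw u (Nw LL v σ)) (fun j => G * (Λ * σ j / (Nw LL v σ j * v)))
    (fun y => 4 * Λ * G * (4 * lam * A * Λ) ^ i * (Gm y * (σ y ^ i * (1 + σ y / (2 ^ LL * v))))) hl
    u0 (fun y => by have := t0 y; have := G0 y; positivity)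
    (fun j a b => ⟨Nw_one hv (t16 j), hU j a b⟩)
    (fun j a b => by
      have := t0 j
      have := N0 j
      refine ⟨by positivity, hGl.trans (mul_le_mul_of_nonneg_right
        (le_mul_of_one_le_right hG.le ?_) (by positivity))⟩
      rw [le_div_iff₀ (by positivity), one_mul]
      exact (Nw_v hv (t0 j).le).trans (le_mul_of_one_le_left (t0 j).le hΛ))
    (fun j a b y hy => by
      have e := h1 j a b
      obtain ⟨a', b'⟩ := mem_Ico.1 hy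
      exact nb_of_mo D.hw ((S.loc y (by omega) (by omega)).mono (mul_le_mul_of_nonneg_left
        (mul_le_mul_of_nonneg_left (win_near hv t16 lip hy).1 (by linarith)) hA)))
    (fun j a b => by
      have e := h1 j a b
      have := Nw_one (L := LL) hv (t16 j)
      simp only [sysC_aa]
      exact nb_of_mo D.hw (S.ric j (by omega) (by omega)))
    fun j a b y hy => ⟨le_ubw u _ hy, by
      have e1 := ubw_le (G0 y) fun y' hy' => maj j a b y' hy' y hy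
      have e0 := (win_near hv t16 lip hy).2.1
      have e2 := ratio_le (LL := LL) hv t16 (zero_le_one.trans hΛ) e0
      have := t0 j
      have := t0 y
      have e3 : (lam * (A * (Λ * (2 * σ j)))) ^ i ≤ (4 * lam * A * Λ * σ y) ^ i :=
        pow_le_pow_left₀ (by positivity) (by
          nlinarith [mul_le_mul_of_nonneg_left e0 (show 0 ≤ 2 * lam * A * Λ by positivity)]) i
      calc _ ≤ Gm y * (2 * (4 * lam * A * Λ * σ y) ^ i * (G * (2 * Λ * (1 + σ y / (2 ^ LL * v))))) :=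
            mul_le_mul e1 (mul_le_mul (by linarith) (mul_le_mul_of_nonneg_left e2 hG.le)
              (by positivity) (by positivity)) (by positivity) (G0 y)
        _ = _ := by rw [mul_pow _ (σ y)]; ring⟩
  rw [mul_sum]
  refine le_trans (le_of_eq (sum_congr rfl fun y _ => ?_)) key
  simp only [sysC_aa]
  rw [← QSys98.int_EE D.hw L h ((((ep_rP D.hw y).sub (EP.const _)).abs.pow i).mul (ep_aP D.hw y))]
  rfl

end sums

end Crest.Agent.T156.Cas.QCas98
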