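import Crest.Agent.T156.QCl_33
import Crest.Agent.T156.QLip_98
import Crest.Agent.T156.ClReg_29
import Crest.Agent.T156.QBl_21

/-!
# Row 156, block Q on the class `Cl`: `QSyncS` and `QLowS` (helper98)
-/

set_option autoImplicit false
set_option linter.unusedSectionVars false
set_option linter.unusedVariables false
set_option maxHeartbeats 400000

noncomputable section

namespace Crest.Agent.T156.Alt.QS98

open MeasureTheory Real Finset Filter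
open Crest.Agent.T157.E Crest.Agent.T157.Casc Crest.Agent.T157.SL
open Crest.Agent.T156.Cas Crest.Agent.T156.Cas.Lp12 Crest.Agent.T156.Alt.Md67
open Crest.Agent.T156.Cas.QCas98 Crest.Agent.T156.Alt.C33
open Crest.Agent.T156.Q57.Blk24 (Nw Nw_v Nw_ge Nw_one)

theorem Ric.monoK {Ω : Type} {L : List (Lv Ω)} {τ : ℕ → ℝ} {t' : ℕ → ℕ} {LL j0 j1 j2 : ℕ}
    {x v w3 K K2 : ℝ} (R : Ric L τ t' LL j0 j1 j2 x v w3 K) (h : K ≤ K2) :
    Ric L τ t' LL j0 j1 j2 x v w3 K2 := by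
  have := R.x0
  have := R.v0
  have : 0 ≤ w3 := by linarith [R.vw]
  exact ⟨R.x0, R.v0, R.vw, R.K1.trans h, R.j12, R.j2L, R.blk, R.top.trans (by gcongr), R.up,
    R.sum.trans (by gcongr)⟩

/-- everything at a fixed size; `lam = n^η'` -/
structure Cx (K K' lam : ℝ) (r i p : ℕ) (S : Sc) (M : Md) (m : ℕ) (a : ℝ) : Prop where
  fn : Fn S M m a
  K1 : 1 ≤ K
  K1' : 1 ≤ K'
  ric : ∀ t k0 k1, QB K S M t k0 k1 → ∀ LL : ℕ, 2 ^ LL * (16 * K * S.v) ≤ t →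
    ∃ (t' : ℕ → ℕ) (j2 : ℕ), Ric (M.L m a) (M.τ m) t' LL (k0 + 1) (k1 + 1) j2 (t / K')
      (16 * K * S.v) (K' * S.w3 t) (3 * K' ^ 2)
  up : ∀ (t Λ : ℝ) (b : ℕ), QB K S M t b b → 1 ≤ Λ →
    (∀ k, b ≤ k → k ≤ S.Jp → M.Mo m a p (M.rP m a k) (Λ * max (M.z k) t)) →
    ∃ (k : ℕ) (u : ℕ → ℕ) (θ ρ : ℕ → ℝ),
      Up (fun _ => 1) (M.L m a) 0 (Q33.sl m) (M.τ m) p (b + 1) k u θ ρ ∧
      ρ 0 ≤ lam * Λ * t ∧ ∑ l ∈ range k, √(θ (l + 1) * ρ (l + 1)) ≤ lam * √(Λ * S.w3 t / t)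
  syn : ∀ (t' : ℕ → ℕ) (LL j0 j1 j2 a0 a1 : ℕ) (x v w3 Λ : ℝ) (c ρ : ℕ → ℝ),
    Ric (M.L m a) (M.τ m) t' LL j0 j1 j2 x v w3 (3 * K' ^ 2) → Pol r LL j1 v lam →
    LB' (fun _ => 1) (M.L m a) 0 (Q33.sl m) LL j0 j1 x v w3 (3 * K' ^ 2) lam Λ c ρ →
    j0 + (r + 3) * (8 * 2 ^ LL) ≤ a0 → a1 + (r + 3) * (8 * 2 ^ LL) ≤ j1 → a0 ≤ a1 →
    Syn (fun _ => 1) (M.L m a) 0 (Q33.sl m) (2 ^ i) a0 a1 v (2 * lam ^ 3)
      (lam ^ 4 * (((LL : ℝ) + 2) ^ 2 * (lam * (3 * K' ^ 2) * w3))) (Nw LL v (cl j0 j1 ρ))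
      (fun j => Λ * cl j0 j1 ρ j) c
  l0 : 1000 ≤ lam
  Kl : K ≤ lam
  Kl' : K' ≤ lam
  Cl : S.C ≤ lam
  Rl : ((r : ℝ) + 4) * 8 ≤ lam
  Al : (S.A : ℝ) ≤ lam
  lgl : log S.n ≤ lam
  ckl : LpR43.cK p ≤ lam
  A2 : 2 ≤ S.A
  ln : lam ^ 20 ≤ S.n
  nr : (S.n : ℝ) ^ (S.A + 3) ≤ lam ^ r
  ip : 2 * p ≤ 2 ^ i
  ir : r ≤ 2 ^ i

/-- the context holds for large sizes -/
theorem cx_ev (Kf : ℝ → ℝ) (hK : ∀ C, 1 ≤ Kf C) (p : ℕ) : CL fun _ Λ S M m a =>
    ∃ (K' lam : ℝ) (r i : ℕ), Cx (Kf S.C) K' lam r i p S M m a ∧ lam ^ 40 ≤ Λ := by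
  intro C
  obtain ⟨K', h1, hR⟩ := qRicS (Kf C) C (hK C)
  obtain ⟨K'', h2, hU⟩ := qUpS (Kf C) C (hK C)
  filter_upwards [eventually_ge_atTop 2] with A hA ε hε η hη
  set η' : ℝ := min η 1 / 40 with hη'
  have e0 : 0 < η' := by have := lt_min hη one_pos; positivity
  set r : ℕ := ⌈((A : ℝ) + 3) / η'⌉₊ with hr
  obtain ⟨Cl, hCl, hS⟩ := lip_syn' r (r + p + 1) (3 * K' ^ 2) (by omega) (by omega)
  have ck := LpR43.cK_pos p
  have hKC := hK C
  filter_upwards [hR A hA, hU A hA, ev_fn C hA,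
    ev_rgc C hA e0 (Kf C + K' + K'' + Cl + LpR43.cK p + ((r : ℝ) + 4) * 8)]
    with n a1 a2 a3 a4 S M e1 e2 e3 h m a I
  have G := a4 S e1 e2 e3
  have F := a3 S M e1 e2 e3 h m a I
  have k := G.K_le
  have r0 : (0 : ℝ) ≤ ((r : ℝ) + 4) * 8 := by positivity
  have n1 := G.N1.le
  have pw : ∀ j : ℕ, ((S.n : ℝ) ^ η') ^ j = (S.n : ℝ) ^ (η' * j) := fun j =>
    (rpow_mul_natCast G.N0.le _ _).symm
  subst e1 e2 e3
  refine ⟨K', (S.n : ℝ) ^ η', r, r + p + 1, ⟨F, hKC, h1, fun t k0 k1 B LL hL => ?_,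
    fun t Λ b B hΛ H => ?_, fun t' LL j0 j1 j2 a0 a1 x v w3 Λ c ρ R P B => ?_, G.num_le,
    by linarith, by linarith, G.C_le h, by linarith, G.A_le, G.log_le, by linarith, hA, ?_, ?_,
    ?_, ?_⟩, ?_⟩
  · obtain ⟨t', j2, R⟩ := a1 S M rfl rfl rfl h m a I t k0 k1 B LL hL
    exact ⟨t', j2, Ric.monoK R (by nlinarith)⟩
  · obtain ⟨k, u, θ, ρ, U, b1, b2⟩ := a2 S M rfl rfl rfl h m a I t Λ p b B hΛ H
    have := B.t0
    exact ⟨k, u, θ, ρ, U, b1.trans (by gcongr; linarith), b2.trans (by gcongr; linarith)⟩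
  · exact hS _ _ _ _ _ _ t' LL j0 j1 j2 a0 a1 x v w3 _ Λ c ρ (dat F.lg) R (by linarith) P B
  · rw [pw]
    refine (rpow_le_rpow_of_exponent_le n1 ?_).trans (rpow_one _).le
    have := min_le_right η 1
    push_cast
    linarith
  · rw [pw, ← rpow_natCast]
    refine rpow_le_rpow_of_exponent_le n1 ?_
    have := Nat.le_ceil (((S.A : ℝ) + 3) / η')
    rw [div_le_iff₀ e0] at this
    push_cast
    linarith
  · calc 2 * p ≤ 2 * 2 ^ p := Nat.mul_le_mul_left 2 Nat.lt_two_pow_self.le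
      _ = 2 ^ (p + 1) := by ring
      _ ≤ _ := Nat.pow_le_pow_right (by norm_num) (by omega)
  · exact Nat.lt_two_pow_self.le.trans (Nat.pow_le_pow_right (by norm_num) (by omega))
  · rw [pw]
    refine rpow_le_rpow_of_exponent_le n1 ?_
    have := min_le_left η 1
    push_cast
    linarith

/-- the input of the core: `QH` with a local crude location -/
structure BH (K Λ₀ : ℝ) (S : Sc) (M : Md) (m : ℕ) (a t : ℝ) (k0 k1 : ℕ) (c ρ : ℕ → ℝ) : Prop where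
  blk : QB K S M t k0 k1
  L1 : 1 ≤ Λ₀
  old : ∀ k, k0 ≤ k → k ≤ k1 → M.rb m a k ≤ Λ₀ * (K * t + ρ k)
  c0 : 0 ≤ c k0
  clk : ∀ k, k0 ≤ k → k < k1 → c k ≤ c (k + 1) ∧ c (k + 1) ≤ c k + K * S.v
  lip : ∀ k, k0 ≤ k → k < k1 → |ρ (k + 1) - ρ k| ≤ K * S.v
  wρ : ∀ k, k0 ≤ k → k ≤ k1 → S.w3 t ≤ Λ₀ * (ρ k * min (ρ k) t ^ 2)
  fine : ∀ k, k0 ≤ k → k ≤ k1 → S.w3 t ≤ S.n * ρ k ^ 3
  loc : ∀ k, k0 ≤ k → k ≤ k1 → |M.rb m a k - c k| ≤ Λ₀ * ρ k
  den : ∀ k y : ℕ, k0 ≤ k → k ≤ k1 → S.J ≤ y → y < k1 → |(y : ℝ) - k| * S.v ≤ ρ k →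
    1 ≤ Λ₀ * ρ k ∨ S.w3 t * S.v ≤ K * M.dz m a y * (Λ₀ * (ρ k * min (ρ k) t ^ 2))

/-- **input of Q with a free slope**: windows `ρ`, tolerance `Λ₀ ρ` -/
structure QH' (K Λ₀ : ℝ) (S : Sc) (M : Md) (m : ℕ) (a t : ℝ) (k0 k1 : ℕ) (c ρ : ℕ → ℝ) : Prop where
  blk : QB K S M t k0 k1
  crude : Crude Λ₀ S M m a t k0
  c0 : 0 ≤ c k0
  clk : ∀ k, k0 ≤ k → k < k1 → c k ≤ c (k + 1) ∧ c (k + 1) ≤ c k + K * S.v
  lip : ∀ k, k0 ≤ k → k < k1 → |ρ (k + 1) - ρ k| ≤ K * S.v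
  wρ : ∀ k, k0 ≤ k → k ≤ k1 → S.w3 t ≤ Λ₀ * (ρ k * min (ρ k) t ^ 2)
  fine : ∀ k, k0 ≤ k → k ≤ k1 → S.w3 t ≤ S.n * ρ k ^ 3
  loc : ∀ k, k0 ≤ k → k ≤ k1 → |M.rb m a k - c k| ≤ Λ₀ * ρ k
  den : ∀ k y : ℕ, k0 ≤ k → k ≤ k1 → S.J ≤ y → y < k1 → |(y : ℝ) - k| * S.v ≤ ρ k →
    1 ≤ Λ₀ * ρ k ∨ S.w3 t * S.v ≤ K * M.dz m a y * (Λ₀ * (ρ k * min (ρ k) t ^ 2))

/-- **(Q2), (Q3)** on the class, free slope -/
def QSyncS' : Prop := ∀ (K : ℝ) (p : ℕ), 1 ≤ K → CL fun _ Λ S M m a =>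
  ∀ Λ₀ t k0 k1 c ρ, QH' K Λ₀ S M m a t k0 k1 c ρ → QO K (Λ * Λ₀) p S M m a t k0 k1 c ρ

/-- cascade index -/
def sh (f : ℕ → ℝ) (j : ℕ) : ℝ := f (j - 1)

theorem sh_succ (f : ℕ → ℝ) (k : ℕ) : sh f (k + 1) = f k := rfl

/-- the depth of the dyadic scheme at the level `t` -/
structure Dp (K : ℝ) (r : ℕ) (S : Sc) (t : ℝ) (LL : ℕ) : Prop where
  lo : ((r : ℝ) + 4) * 8 * (2 ^ LL * S.v) ≤ t / K
  hi : t / K ≤ 2 * (((r : ℝ) + 4) * 8 * (2 ^ LL * S.v))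


theorem pos_of_cube {w x : ℝ} (h0 : 0 < w) (hx : w ≤ x ^ 3) : 0 < x :=
  (Odd.pow_pos_iff (by decide : Odd 3)).1 (h0.trans_le hx)

/-- the output of the core -/
structure BO (K K' lam Λ₀ : ℝ) (r i : ℕ) (S : Sc) (M : Md) (m : ℕ) (a t : ℝ) (k0 k1 LL : ℕ)
    (c ρ : ℕ → ℝ) : Prop where
  ric : ∃ (t' : ℕ → ℕ) (j2 : ℕ), Ric (M.L m a) (M.τ m) t' LL (k0 + 1) (k1 + 1) j2 (t / K')
    (16 * K * S.v) (K' * S.w3 t) (3 * K' ^ 2)
  lb : LB' (fun _ => 1) (M.L m a) 0 (Q33.sl m) LL (k0 + 1) (k1 + 1) (t / K')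
    (16 * K * S.v) (K' * S.w3 t) (3 * K' ^ 2) lam (lam ^ 17 * Λ₀) (sh c) (sh ρ)
  pol : Pol r LL (k1 + 1) (16 * K * S.v) lam
  syn : Syn (fun _ => 1) (M.L m a) 0 (Q33.sl m) (2 ^ i) (k0 + 1 + (r + 3) * (8 * 2 ^ LL))
    (k1 + 1 - (r + 3) * (8 * 2 ^ LL)) (16 * K * S.v) (2 * lam ^ 3)
    (lam ^ 4 * (((LL : ℝ) + 2) ^ 2 * (lam * (3 * K' ^ 2) * (K' * S.w3 t))))
    (Nw LL (16 * K * S.v) (cl (k0 + 1) (k1 + 1) (sh ρ)))
    (fun j => lam ^ 17 * Λ₀ * cl (k0 + 1) (k1 + 1) (sh ρ) j) (sh c)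

theorem cl_sh {k0 k1 k : ℕ} (f : ℕ → ℝ) (h0 : k0 ≤ k) (h1 : k ≤ k1) :
    cl (k0 + 1) (k1 + 1) (sh f) (k + 1) = f k := cl_eq _ (by omega) (by omega)

theorem pos_of_cube' {w x y : ℝ} (h0 : 0 < w) (hy : 0 ≤ y) (hx : w ≤ y * x ^ 3) : 0 < x :=
  pos_of_cube ((mul_pos_iff_of_pos_left (lt_of_le_of_ne hy fun e => by
    rw [← e, zero_mul] at hx; linarith)).1 (h0.trans_le hx)) le_rfl

namespace Cx

variable {K K' lam : ℝ} {r i p : ℕ} {S : Sc} {M : Md} {m : ℕ} {a : ℝ}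
  (X : Cx K K' lam r i p S M m a)
include X

theorem l1 : 1 ≤ lam := by linarith [X.l0]

theorem pw {j k : ℕ} (h : j ≤ k) : lam ^ j ≤ lam ^ k := pow_le_pow_right₀ X.l1 h

theorem R32 : (32 : ℝ) ≤ ((r : ℝ) + 4) * 8 := by linarith [Nat.cast_nonneg (α := ℝ) r]

/-- the mesh is tiny -/
theorem vsm : S.v * S.n * lam ^ 19 ≤ 1 := by
  have F := X.fn
  have b1 : S.v * (S.n : ℝ) ^ 2 ≤ S.C :=
    (mul_le_mul_of_nonneg_left (pow_le_pow_right₀ F.n1 X.A2) F.v0.le).trans F.v2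
  have l1 := X.l1
  have := F.v0
  have := F.n1
  refine le_of_mul_le_mul_right ?_ (by positivity : 0 < lam)
  calc S.v * S.n * lam ^ 19 * lam = S.v * S.n * lam ^ 20 := by ring
    _ ≤ S.v * S.n * S.n := by gcongr; exact X.ln
    _ ≤ 1 * lam := by nlinarith [X.Cl]

theorem t_ge {t : ℝ} (h0 : 0 < t) (hw : S.w3 t ≤ t ^ 3) : 1 ≤ S.n * t := by
  have F := X.fn
  have n1 := F.n1
  have m0 := F.ms_pos h0.le
  have m1 := F.ms_le_one t
  rw [Sc.w3, div_le_iff₀ (by positivity)] at hw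
  by_contra hc
  push Not at hc
  have t1 : t ≤ 1 := by nlinarith
  have : t ^ 3 * (S.n * t * S.ms t) ≤ 1 * (S.n * t * 1) := by
    gcongr
    exact pow_le_one₀ h0.le t1
  linarith [F.F1]

theorem vt {t : ℝ} (h0 : 0 < t) (hw : S.w3 t ≤ t ^ 3) : S.v * lam ^ 19 ≤ t := by
  have := X.fn.v0
  have := X.l1
  calc S.v * lam ^ 19 ≤ S.v * lam ^ 19 * (S.n * t) :=
        le_mul_of_one_le_right (by positivity) (X.t_ge h0 hw)
    _ = S.v * S.n * lam ^ 19 * t := by ring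
    _ ≤ 1 * t := by gcongr; exact X.vsm
    _ = t := one_mul t

theorem ex_dp {t : ℝ} (h0 : 0 < t) (hw : S.w3 t ≤ t ^ 3) : ∃ LL, Dp K r S t LL := by
  have v0 := X.fn.v0
  have R := X.R32
  have K1 := X.K1
  have l1 := X.l1
  have e : 1 ≤ t / K / (((r : ℝ) + 4) * 8 * S.v) := by
    rw [le_div_iff₀ (by positivity), le_div_iff₀ (by positivity)]
    calc 1 * (((r : ℝ) + 4) * 8 * S.v) * K ≤ 1 * (lam * S.v) * lam := by
          gcongr; exacts [X.Rl, X.Kl]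
      _ = S.v * lam ^ 2 := by ring
      _ ≤ S.v * lam ^ 19 := by gcongr; norm_num
      _ ≤ t := X.vt h0 hw
  obtain ⟨LL, h1, h2⟩ := exists_nat_pow_near e (one_lt_two (α := ℝ))
  rw [le_div_iff₀ (by positivity)] at h1
  rw [div_lt_iff₀ (by positivity), pow_succ] at h2
  exact ⟨LL, by linarith, by linarith⟩

variable {Λ₀ t : ℝ} {k0 k1 LL : ℕ} {c ρ : ℕ → ℝ}

theorem u_le (h0 : 0 < t) (D : Dp K r S t LL) : 2 ^ LL * (16 * K * S.v) ≤ t := by
  have h := D.lo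
  have K1 := X.K1
  have := X.fn.v0
  rw [le_div_iff₀ (by positivity)] at h
  nlinarith [mul_le_mul_of_nonneg_right X.R32 (show 0 ≤ 2 ^ LL * S.v * K by positivity),
    show 0 ≤ 2 ^ LL * S.v * K by positivity]

theorem u_ge (D : Dp K r S t LL) : t ≤ lam * (2 ^ LL * (16 * K * S.v)) := by
  have h := D.hi
  have K1 := X.K1
  have := X.fn.v0
  rw [div_le_iff₀ (by positivity)] at h
  nlinarith [mul_le_mul_of_nonneg_right X.Rl (show 0 ≤ 2 ^ LL * S.v * K by positivity),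
    show 0 ≤ lam * (2 ^ LL * S.v * K) by have := X.l1; positivity]

theorem two_le (B : QB K S M t k0 k1) (D : Dp K r S t LL) :
    (2 : ℝ) ^ (LL + 3) ≤ (S.n : ℝ) ^ (S.A + 3) := by
  have F := X.fn
  have v0 := F.v0
  have C0 := F.C0
  have K1 := X.K1
  have n1 := F.n1
  have e1 := (X.u_le B.t0 D).trans (F.t_le B K1)
  have e2 : 2 ^ LL * (16 * S.v) ≤ S.C := le_of_mul_le_mul_left (a := K) (by linarith) (by positivity)
  have e3 := F.v1
  rw [div_le_iff₀ C0] at e3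
  have Cn : S.C ≤ S.n := X.Cl.trans ((le_self_pow₀ X.l1 (by norm_num)).trans X.ln)
  calc (2 : ℝ) ^ (LL + 3) ≤ 2 ^ (LL + 3) * (S.v * (S.n : ℝ) ^ S.A * S.C) :=
        le_mul_of_one_le_right (by positivity) e3
    _ = 2 ^ LL * (16 * S.v) / 2 * ((S.n : ℝ) ^ S.A * S.C) := by ring
    _ ≤ S.n * ((S.n : ℝ) ^ S.A * S.n) := by gcongr; linarith
    _ = (S.n : ℝ) ^ (S.A + 2) := by ring
    _ ≤ _ := pow_le_pow_right₀ n1 (by omega)

theorem LL_le (B : QB K S M t k0 k1) (D : Dp K r S t LL) : (LL : ℝ) + 2 ≤ lam ^ 3 := by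
  have h := log_le_log (by positivity) (X.two_le B D)
  rw [log_pow, log_pow] at h
  push_cast at h
  have l2 := log_two_gt_d9
  have l0 := X.l0
  have e1 : ((S.A : ℝ) + 3) * log S.n ≤ (lam + 3) * lam := by
    gcongr
    exacts [X.Al, X.lgl]
  have e2 : ((LL : ℝ) + 3) * (1 / 2) ≤ ((LL : ℝ) + 3) * log 2 := by gcongr; linarith
  nlinarith [mul_le_mul_of_nonneg_right l0 (show 0 ≤ lam ^ 2 by positivity)]

theorem pol (B : QB K S M t k0 k1) (D : Dp K r S t LL) :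
    Pol r LL (k1 + 1) (16 * K * S.v) lam := by
  have F := X.fn
  have v0 := F.v0
  have C0 := F.C0
  have K1 := X.K1
  have n1 := F.n1
  have n3 : (3 : ℝ) ≤ S.n := by exact_mod_cast F.n3
  have Cn : S.C ≤ S.n := X.Cl.trans ((le_self_pow₀ X.l1 (by norm_num)).trans X.ln)
  refine ⟨?_, (X.two_le B D).trans X.nr, le_trans ?_ X.nr⟩
  · have e3 := F.v1
    rw [div_le_iff₀ C0] at e3
    calc 1 ≤ S.v * (S.n : ℝ) ^ S.A * S.C := e3
      _ ≤ S.v * (S.n : ℝ) ^ S.A * (S.n : ℝ) ^ 3 := by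
          gcongr; exact Cn.trans (le_self_pow₀ n1 (by norm_num))
      _ = S.v * (S.n : ℝ) ^ (S.A + 3) := by ring
      _ ≤ 16 * K * S.v * lam ^ r := by
          gcongr
          exacts [by nlinarith, X.nr]
  · have e1 : ((k1 + 1 : ℕ) : ℝ) ≤ M.N := by
      have := B.k1p
      have := F.i4
      exact_mod_cast (by omega : k1 + 1 ≤ M.N)
    have e2 := F.card
    have e3 : (1 : ℝ) ≤ (S.n : ℝ) ^ (S.A + 1) := one_le_pow₀ n1
    calc _ ≤ (S.n : ℝ) ^ (S.A + 1) * 2 := by linarith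
      _ ≤ (S.n : ℝ) ^ (S.A + 1) * (S.n : ℝ) ^ 2 := by gcongr; nlinarith
      _ = _ := by ring

theorem rho_pos (H : BH K Λ₀ S M m a t k0 k1 c ρ) {k : ℕ} (h0 : k0 ≤ k) (h1 : k ≤ k1) : 0 < ρ k :=
  pos_of_cube' (X.fn.w3_pos H.blk.t0) (Nat.cast_nonneg _) (H.fine k h0 h1)

theorem min_ge (D : Dp K r S t LL) {x : ℝ} (hx : 0 < x) (h0 : 0 < t) :
    min x t / lam ≤ min (x / 2) (2 ^ LL * (16 * K * S.v)) := by
  have l0 := X.l0
  refine le_min ?_ ?_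
  · rw [div_le_iff₀ (by positivity)]
    nlinarith [min_le_left x t]
  · rw [div_le_iff₀ (by positivity)]
    linarith [min_le_right x t, X.u_ge D]

theorem den' (H : BH K Λ₀ S M m a t k0 k1 c ρ) {k y : ℕ} (h0 : k0 ≤ k) (h1 : k ≤ k1) (hy : k0 < y)
    (hy' : y < k1) (hd : |(y : ℝ) - k| * S.v ≤ ρ k) (hρ : Λ₀ * ρ k < 1) :
    S.w3 t * S.v ≤ lam * M.dz m a y * (Λ₀ * (ρ k * min (ρ k) t ^ 2)) := by
  have L1 := H.L1
  have F := X.fn
  have r0 := X.rho_pos H h0 h1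
  have t0 := H.blk.t0
  have d0 := F.lg.dz_nonneg y
  have m0 : 0 < min (ρ k) t := lt_min r0 t0
  rcases le_or_gt S.J y with hJ | hJ
  · exact ((H.den k y h0 h1 hJ hy' hd).resolve_left hρ.not_ge).trans (by gcongr; exact X.Kl)
  · have j := F.i1.trans H.blk.k0l
    have e := (F.zs (y - 1) (by omega) (by omega)).1
    rw [show y - 1 + 1 = y by omega, ← dz_up (m := m) (a := a) F.leg (by omega),
      div_le_iff₀ F.C0] at e
    have v0 := F.v0
    calc S.w3 t * S.v ≤ Λ₀ * (ρ k * min (ρ k) t ^ 2) * (M.dz m a y * S.C) := by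
          gcongr
          exact H.wρ k h0 h1
      _ = S.C * M.dz m a y * (Λ₀ * (ρ k * min (ρ k) t ^ 2)) := by ring
      _ ≤ _ := by gcongr; exact X.Cl

theorem lb (H : BH K Λ₀ S M m a t k0 k1 c ρ) (D : Dp K r S t LL) (hw : 4 * (16 * K * S.v) ≤
    K' * S.w3 t) : LB' (fun _ => 1) (M.L m a) 0 (Q33.sl m) LL (k0 + 1) (k1 + 1) (t / K')
      (16 * K * S.v) (K' * S.w3 t) (3 * K' ^ 2) lam (lam ^ 17 * Λ₀) (sh c) (sh ρ) := by
  have F := X.fn
  have v0 := F.v0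
  have t0 := H.blk.t0
  have K1 := X.K1
  have K1' := X.K1'
  have l0 := X.l0
  have l1 := X.l1
  have L1 := H.L1
  have w0 := F.w3_pos t0
  have hLL := X.LL_le H.blk D
  have rb : ∀ k, Cas.Sy41.rho (fun _ => 1) (M.L m a) (Q33.sl m) 0 (k + 1) = M.rb m a k := fun k =>
    (rb_eq (Q33.sl_cov F.lg.m0) k).symm
  have c1 : ∀ {j : ℕ}, k0 + 1 ≤ j → ∃ k, j = k + 1 := fun {j} h => ⟨j - 1, by omega⟩
  have l17 : (1 : ℝ) ≤ lam ^ 17 := one_le_pow₀ l1
  refine ⟨by omega, by have := H.blk.k01; omega, by nlinarith, one_le_mul_of_one_le_of_one_le l17 L1,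
    H.c0, fun j ha b => ?_, fun j ha b => ?_, fun j ha b => ?_, fun j ha b => ?_, fun j ha b => ?_,
    fun j ha b => ?_, fun j ha b => ?_⟩ <;> obtain ⟨k, rfl⟩ := c1 ha <;> simp only [sh_succ]
  · obtain ⟨e1, e2⟩ := H.clk k (by omega) (by omega)
    exact ⟨e1, by nlinarith⟩
  · exact (H.lip k (by omega) (by omega)).trans (by linarith)
  · have e := H.fine k (by omega) (by omega)
    have n1 := F.n1
    refine le_of_pow_le_pow_left₀ (n := 3) (by norm_num) (X.rho_pos H (by omega) (by omega)).le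
      (le_of_mul_le_mul_left (le_trans ?_ e) (by positivity))
    refine le_of_mul_le_mul_left (le_trans ?_ hw) (by positivity : 0 < K')
    have e2 : S.v * S.n * lam ^ 4 ≤ 1 := le_trans (by gcongr; norm_num) X.vsm
    have e3 : K' * (S.n * (16 * (16 * K * S.v)) ^ 2) ≤ 1 / 4 := by
      calc _ ≤ lam * ((S.n : ℝ) ^ 2 * (lam * lam * S.v) ^ 2) := by
            gcongr ?_ * (?_ * ?_ ^ 2)
            · exact X.Kl'
            · exact le_self_pow₀ n1 (by norm_num)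
            · nlinarith [mul_le_mul_of_nonneg_right X.Kl v0.le,
                mul_le_mul_of_nonneg_right l0 (show 0 ≤ lam * S.v by positivity)]
        _ = (S.v * S.n * lam ^ 4) ^ 2 / lam ^ 3 := by field_simp
        _ ≤ 1 / 4 := by
            gcongr
            · exact pow_le_one₀ (by positivity) e2
            · exact le_trans (by linarith) (le_self_pow₀ l1 (by norm_num))
    nlinarith [mul_le_mul_of_nonneg_right e3 (show 0 ≤ 16 * (16 * K * S.v) by positivity)]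
  · rw [rb, mul_assoc]
    have r0 := X.rho_pos H (k := k) (by omega) (by omega)
    exact (H.loc k (by omega) (by omega)).trans (le_mul_of_one_le_left (by positivity) l17)
  · rw [rb]
    have r0 := X.rho_pos H (k := k) (by omega) (by omega)
    refine (H.old k (by omega) (by omega)).trans ?_
    rw [mul_comm (lam ^ 17), mul_assoc]
    gcongr
    have e1 : K * t ≤ lam ^ 17 * (2 ^ LL * (16 * K * S.v)) :=
      calc K * t ≤ lam * (lam * (2 ^ LL * (16 * K * S.v))) := by gcongr; exacts [X.Kl, X.u_ge D]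
        _ = lam ^ 2 * (2 ^ LL * (16 * K * S.v)) := by ring
        _ ≤ _ := by gcongr; norm_num
    nlinarith
  · have r0 := X.rho_pos H (k := k) (by omega) (by omega)
    have m0 : 0 < min (ρ k) t := lt_min r0 t0
    have e1 : S.w3 t / t ≤ Λ₀ * (ρ k * min (ρ k) t) := by
      rw [div_le_iff₀ t0]
      refine (H.wρ k (by omega) (by omega)).trans ?_
      rw [sq, ← mul_assoc (ρ k), ← mul_assoc Λ₀]
      gcongr
      exact min_le_right _ _
    calc _ = ((LL : ℝ) + 2) ^ 2 * lam * K' ^ 2 * (S.w3 t / t) := by field_simp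
      _ ≤ (lam ^ 3) ^ 2 * lam * lam ^ 2 * (Λ₀ * (ρ k * min (ρ k) t)) := by gcongr; exact X.Kl'
      _ = lam ^ 10 * Λ₀ * ρ k * (min (ρ k) t / lam) := by field_simp
      _ ≤ _ := by
          gcongr
          exacts [by norm_num, X.min_ge D r0 t0]
  · have r0 := X.rho_pos H (k := k) (by omega) (by omega)
    have m0 : 0 < min (ρ k) t := lt_min r0 t0
    rcases le_or_gt 1 (Λ₀ * ρ k) with h1 | h1
    · left
      rw [mul_assoc]
      calc (2 : ℝ) = 2 * 1 := by ring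
        _ ≤ _ := by
          gcongr
          exact le_trans (by linarith) (le_self_pow₀ l1 (by norm_num))
    · refine Or.inr fun y a' b' hy => ?_
      obtain ⟨y, rfl⟩ := c1 a'.le
      push_cast at hy
      rw [add_sub_add_right_eq_sub] at hy
      have e := X.den' H (k := k) (y := y) (by omega) (by omega) (by omega) (by omega)
        (le_trans (by gcongr; nlinarith) hy) h1
      have d0 := F.lg.dz_nonneg y
      rw [dm_succ]
      calc _ = ((LL : ℝ) + 2) ^ 2 * lam * 48 * K' ^ 3 * K * (S.w3 t * S.v) := by ring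
        _ ≤ (lam ^ 3) ^ 2 * lam * lam * lam ^ 3 * lam *
            (lam * M.dz m a y * (Λ₀ * (ρ k * min (ρ k) t ^ 2))) := by
            gcongr
            exacts [by linarith, X.Kl', X.Kl]
        _ = M.dz m a y * (lam ^ 15 * Λ₀ * ρ k * (min (ρ k) t / lam) ^ 2) := by field_simp
        _ ≤ _ := by
            gcongr
            exacts [by norm_num, X.min_ge D r0 t0]

theorem inn (D : Dp K r S t LL) {k : ℕ} (h : Inn K S t k0 k1 k) :
    k0 + (r + 3) * (8 * 2 ^ LL) + 8 * 2 ^ LL ≤ k ∧ k + (r + 3) * (8 * 2 ^ LL) + 8 * 2 ^ LL ≤ k1 := by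
  have v0 := X.fn.v0
  have e1 := D.lo.trans h.1
  have e2 := D.lo.trans h.2
  rw [← mul_assoc] at e1 e2
  have e3 := le_of_mul_le_mul_right e1 v0
  have e4 := le_of_mul_le_mul_right e2 v0
  constructor <;> (rw [← Nat.cast_le (α := ℝ)]; push_cast; linarith)

theorem bo (H : BH K Λ₀ S M m a t k0 k1 c ρ) (D : Dp K r S t LL) {k : ℕ} (h : Inn K S t k0 k1 k) :
    BO K K' lam Λ₀ r i S M m a t k0 k1 LL c ρ := by
  obtain ⟨t', j2, R⟩ := X.ric t k0 k1 H.blk LL (X.u_le H.blk.t0 D)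
  have B := X.lb H D R.vw
  have P := X.pol H.blk D
  obtain ⟨e1, e2⟩ := X.inn D h
  exact ⟨⟨t', j2, R⟩, B, P, X.syn _ _ _ _ _ _ _ _ _ _ _ _ _ R P B le_rfl (by omega) (by omega)⟩

theorem pp : p ≤ 2 ^ i := by have := X.ip; omega

theorem hw : Wt (fun _ : Cube m => (1 : ℝ)) := (dat X.fn.lg).hw

theorem A_le (H : BH K Λ₀ S M m a t k0 k1 c ρ) {x : ℝ} (hx : 0 ≤ x) :
    2 * lam ^ 3 * (lam ^ 17 * Λ₀ * x) ≤ lam ^ 21 * Λ₀ * x := by
  have := H.L1
  have := X.l0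
  calc _ = 2 * (lam ^ 20 * Λ₀ * x) := by ring
    _ ≤ lam * (lam ^ 20 * Λ₀ * x) := by gcongr; linarith
    _ = _ := by ring

theorem node (H : BH K Λ₀ S M m a t k0 k1 c ρ) {k : ℕ} (h : Inn K S t k0 k1 k) :
    M.Mo m a (2 ^ i) (fun q => M.rP m a k q - c k) (lam ^ 21 * Λ₀ * ρ k) := by
  obtain ⟨LL, D⟩ := X.ex_dp H.blk.t0 H.blk.wt
  obtain ⟨e1, e2⟩ := X.inn D h
  have key := (X.bo H D h).syn.loc (k + 1) (by omega) (by omega)
  rw [cl_sh ρ (by omega) (by omega)] at key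
  exact key.mono (X.A_le H (X.rho_pos H (by omega) (by omega)).le)

theorem N_ge (H : BH K Λ₀ S M m a t k0 k1 c ρ) (D : Dp K r S t LL)
    (O : BO K K' lam Λ₀ r i S M m a t k0 k1 LL c ρ) {k : ℕ} (h0 : k0 ≤ k) (h1 : k ≤ k1) :
    min (ρ k) t / lam ≤ Nw LL (16 * K * S.v) (cl (k0 + 1) (k1 + 1) (sh ρ)) (k + 1) *
      (16 * K * S.v) := by
  have v0 := X.fn.v0
  have K1 := X.K1
  have r0 := X.rho_pos H h0 h1
  have e := X.min_ge D r0 H.blk.t0
  refine Nw_ge (by positivity) (O.lb.g16 _) ?_ (e.trans (min_le_right _ _))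
  rw [cl_sh ρ h0 h1]
  linarith [min_le_left (ρ k / 2) (2 ^ LL * (16 * K * S.v))]

theorem inc (H : BH K Λ₀ S M m a t k0 k1 c ρ) {k k' : ℕ} (h : Inn K S t k0 k1 k) (hk : k ≤ k')
    (hl : lam ^ 3 * (((k' : ℝ) - k) * S.v) ≤ min (ρ k) t) :
    M.Mo m a (2 ^ i) (M.iP m a k k') (lam ^ 21 * Λ₀ * ρ k) := by
  obtain ⟨LL, D⟩ := X.ex_dp H.blk.t0 H.blk.wt
  obtain ⟨e1, e2⟩ := X.inn D h
  have O := X.bo H D h
  have v0 := X.fn.v0
  have l0 := X.l0
  have e3 := X.N_ge H D O (k := k) (by omega) (by omega)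
  set N := Nw LL (16 * K * S.v) (cl (k0 + 1) (k1 + 1) (sh ρ)) (k + 1) with hN
  have e4 : (k' : ℝ) - k ≤ N := by
    rw [div_le_iff₀ (by positivity)] at e3
    refine le_of_mul_le_mul_left (a := lam ^ 3 * S.v) ?_ (by positivity)
    calc _ ≤ N * (16 * K * S.v) * lam := by linarith
      _ ≤ N * (lam * lam * S.v) * lam := by
          have := X.K1
          gcongr
          · linarith
          · exact X.Kl
      _ = _ := by ring
  have e5 : k' ≤ k + N := by rw [← Nat.cast_le (α := ℝ)]; push_cast; linarith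
  have key := O.syn.inc (k + 1) (k' + 1) (by omega) (by omega) (by omega) (by omega)
  rw [cl_sh ρ (by omega) (by omega)] at key
  exact key.mono (X.A_le H (X.rho_pos H (by omega) (by omega)).le)

theorem G_le (H : BH K Λ₀ S M m a t k0 k1 c ρ) (D : Dp K r S t LL) :
    lam ^ 4 * (((LL : ℝ) + 2) ^ 2 * (lam * (3 * K' ^ 2) * (K' * S.w3 t))) ≤ lam ^ 15 * S.w3 t := by
  have w0 := X.fn.w3_pos H.blk.t0
  have l0 := X.l0
  have := X.K1'
  calc _ ≤ lam ^ 4 * ((lam ^ 3) ^ 2 * (lam * (lam * lam ^ 2) * (lam * S.w3 t))) := by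
        gcongr
        exacts [X.LL_le H.blk D, by linarith, X.Kl', X.Kl']
    _ = _ := by ring

theorem fac_le (h0 : 0 < t) (D : Dp K r S t LL) {x : ℝ} (hx : 0 ≤ x) :
    1 + x / (2 ^ LL * (16 * K * S.v)) ≤ lam * (1 + x / t) := by
  have v0 := X.fn.v0
  have K1 := X.K1
  have l1 := X.l1
  have : x / (2 ^ LL * (16 * K * S.v)) ≤ lam * (x / t) := by
    rw [div_le_iff₀ (by positivity)]
    calc x = x / t * t := by field_simp
      _ ≤ x / t * (lam * (2 ^ LL * (16 * K * S.v))) := by gcongr; exact X.u_ge D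
      _ = _ := by ring
  linarith

section wts
variable {b0 b1 U : ℕ} {u G : ℕ → ℝ}

theorem hU (H : BH K Λ₀ S M m a t k0 k1 c ρ) (D : Dp K r S t LL)
    (W : Wts K S t k0 k1 ρ b0 b1 U u G) (j : ℕ) (h0 : b0 + 1 ≤ j) (h1 : j < b1 + 1) :
    Nw LL (16 * K * S.v) (cl (k0 + 1) (k1 + 1) (sh ρ)) j ≤ U := by
  obtain ⟨k, rfl⟩ : ∃ k, j = k + 1 := ⟨j - 1, by omega⟩
  obtain ⟨hi, hu⟩ := W.inn k (by omega) (by omega)
  obtain ⟨e1, e2⟩ := X.inn D hi
  have v0 := X.fn.v0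
  have K1 := X.K1
  have r0 := X.rho_pos H (k := k) (by omega) (by omega)
  have c := cl_sh (k0 := k0) (k1 := k1) (k := k) ρ (by omega) (by omega)
  have e3 := Nw_v (L := LL) (v := 16 * K * S.v) (τ := cl (k0 + 1) (k1 + 1) (sh ρ)) (j := k + 1)
    (by positivity) (by rw [c]; exact r0.le)
  have e4 : (Nw LL (16 * K * S.v) (cl (k0 + 1) (k1 + 1) (sh ρ)) (k + 1) : ℝ) ≤ 2 ^ LL := by
    exact_mod_cast min_le_right _ _
  rw [c] at e3
  set N := Nw LL (16 * K * S.v) (cl (k0 + 1) (k1 + 1) (sh ρ)) (k + 1) with hN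
  have N0 : 0 ≤ N * S.v := by positivity
  have e5 : N * S.v ≤ U * S.v := le_trans (le_min (by nlinarith) (le_trans (by
    nlinarith [mul_le_mul_of_nonneg_right e4 v0.le, mul_le_mul_of_nonneg_right X.R32
      (show 0 ≤ 2 ^ LL * S.v by positivity), show 0 ≤ 2 ^ LL * S.v by positivity]) D.lo)) hu
  exact_mod_cast le_of_mul_le_mul_right e5 v0

theorem maj (H : BH K Λ₀ S M m a t k0 k1 c ρ) (D : Dp K r S t LL)
    (O : BO K K' lam Λ₀ r i S M m a t k0 k1 LL c ρ) (W : Wts K S t k0 k1 ρ b0 b1 U u G) (j : ℕ)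
    (h0 : b0 + 1 ≤ j) (h1 : j < b1 + 1) :
    ∀ y ∈ Ico j (j + Nw LL (16 * K * S.v) (cl (k0 + 1) (k1 + 1) (sh ρ)) j),
    ∀ y' ∈ Ico j (j + Nw LL (16 * K * S.v) (cl (k0 + 1) (k1 + 1) (sh ρ)) j), sh u y ≤ sh G y' := by
  intro y hy y' hy'
  have v0 := X.fn.v0
  have K1 := X.K1
  have e := X.hU H D W j h0 h1
  have e1 := (win_near (by positivity) O.lb.g16 (O.lb.glip (by positivity)) hy').2.2
  obtain ⟨a1, a2⟩ := mem_Ico.1 hy
  obtain ⟨a3, a4⟩ := mem_Ico.1 hy'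
  obtain ⟨y, rfl⟩ : ∃ k, y = k + 1 := ⟨y - 1, by omega⟩
  obtain ⟨y', rfl⟩ : ∃ k, y' = k + 1 := ⟨y' - 1, by omega⟩
  have := W.top
  have := W.bot
  rw [cl_sh ρ (by omega) (by omega)] at e1
  refine W.maj y y' (by omega) (by omega) (by omega) (by omega) ?_
  set N := Nw LL (16 * K * S.v) (cl (k0 + 1) (k1 + 1) (sh ρ)) j with hN
  have e2 : |(y : ℝ) - y'| ≤ N := by
    have b1 : (y : ℝ) ≤ y' + N := by exact_mod_cast (by omega : y ≤ y' + N)
    have b2 : (y' : ℝ) ≤ y + N := by exact_mod_cast (by omega : y' ≤ y + N)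
    exact abs_le.2 ⟨by linarith, by linarith⟩
  nlinarith [mul_le_mul_of_nonneg_right e2 v0.le, show 0 ≤ N * S.v by positivity]

theorem G_pos (h0 : 0 < t) :
    0 < lam ^ 4 * (((LL : ℝ) + 2) ^ 2 * (lam * (3 * K' ^ 2) * (K' * S.w3 t))) := by
  have w0 := X.fn.w3_pos h0
  have l0 := X.l0
  have := X.K1'
  positivity

theorem asum (H : BH K Λ₀ S M m a t k0 k1 c ρ) (W : Wts K S t k0 k1 ρ b0 b1 U u G) :
    M.Mo m a (2 ^ i) (fun q => ∑ y ∈ Ico b0 b1, u y * M.aP m a y q)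
      (lam ^ 34 * Λ₀ * S.w3 t * ∑ y ∈ Ico b0 (b1 + U), G y * (1 + ρ y / t)) := by
  have t0 := H.blk.t0
  have w0 := X.fn.w3_pos t0
  have l0 := X.l0
  have L1 := H.L1
  have r0 : ∀ y ∈ Ico b0 (b1 + U), k0 ≤ y ∧ y ≤ k1 := fun y hy => by
    have := mem_Ico.1 hy
    have := W.top
    have := W.bot
    omega
  have s0 : 0 ≤ ∑ y ∈ Ico b0 (b1 + U), G y * (1 + ρ y / t) := sum_nonneg fun y hy => by
    have := X.rho_pos H (r0 y hy).1 (r0 y hy).2
    have := W.G0 y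
    positivity
  rcases le_or_gt b1 b0 with hb | hb
  · rw [Ico_eq_empty_of_le hb]
    exact ((Mo.const X.hw 0).congr fun _ => by simp).mono (by rw [abs_zero]; positivity)
  obtain ⟨LL, D⟩ := X.ex_dp t0 H.blk.wt
  have O := X.bo H D (W.inn b0 le_rfl hb).1
  obtain ⟨e1, -⟩ := X.inn D (W.inn b0 le_rfl hb).1
  obtain ⟨-, e2⟩ := X.inn D (W.inn (b1 - 1) (by omega) (by omega)).1
  have v0 := X.fn.v0
  have K1 := X.K1
  have key := O.syn.asum (dat X.fn.lg) (by positivity) O.lb.g16 (O.lb.glip (by positivity))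
    Nat.one_le_two_pow O.lb.L1 (X.G_pos t0) (b0 := b0 + 1) (b1 := b1 + 1) (by omega) (X.hU H D W)
    (u := sh u) (Gm := sh G) (fun _ => W.u0 _) (fun _ => W.G0 _) (X.maj H D O W) (by omega)
  simp only [show b1 + 1 + U = b1 + U + 1 by ring, ← sum_Ico_add' _ _ _ 1, sh_succ] at key
  refine key.mono ?_
  calc _ ≤ 2 * (lam ^ 17 * Λ₀) * (lam ^ 15 * S.w3 t) *
        ∑ y ∈ Ico b0 (b1 + U), lam * (G y * (1 + ρ y / t)) := by
        refine mul_le_mul (by gcongr _ * ?_; exact X.G_le H D) (sum_le_sum fun y hy => ?_)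
          (sum_nonneg fun y hy => ?_) (by positivity) <;> rw [cl_sh ρ (r0 y hy).1 (r0 y hy).2] <;>
          have := X.rho_pos H (r0 y hy).1 (r0 y hy).2 <;> have := W.G0 y
        · nlinarith [mul_le_mul_of_nonneg_left (X.fac_le t0 D (x := ρ y) (by positivity)) (W.G0 y)]
        · positivity
    _ = 2 * (lam ^ 33 * Λ₀ * S.w3 t * ∑ y ∈ Ico b0 (b1 + U), G y * (1 + ρ y / t)) := by
        rw [← mul_sum]; ring
    _ ≤ lam * (lam ^ 33 * Λ₀ * S.w3 t * ∑ y ∈ Ico b0 (b1 + U), G y * (1 + ρ y / t)) := by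
        gcongr; linarith
    _ = _ := by ring

theorem jsum (H : BH K Λ₀ S M m a t k0 k1 c ρ) (W : Wts K S t k0 k1 ρ b0 b1 U u G) {j : ℕ}
    (hj : j ≤ 2 ^ i) :
    ∑ y ∈ Ico b0 b1, u y * M.EP' m a (fun q => |M.rP m a y q - c y| ^ j * M.aP m a y q) ≤
      (lam ^ 34 * Λ₀) ^ (j + 1) * S.w3 t *
        ∑ y ∈ Ico b0 (b1 + U), G y * (ρ y ^ j * (1 + ρ y / t)) := by
  have t0 := H.blk.t0
  have w0 := X.fn.w3_pos t0
  have l0 := X.l0
  have L1 := H.L1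
  have r0 : ∀ y ∈ Ico b0 (b1 + U), k0 ≤ y ∧ y ≤ k1 := fun y hy => by
    have := mem_Ico.1 hy
    have := W.top
    have := W.bot
    omega
  have s0 : 0 ≤ ∑ y ∈ Ico b0 (b1 + U), G y * (ρ y ^ j * (1 + ρ y / t)) :=
    sum_nonneg fun y hy => by
      have := X.rho_pos H (r0 y hy).1 (r0 y hy).2
      have := W.G0 y
      positivity
  rcases le_or_gt b1 b0 with hb | hb
  · rw [Ico_eq_empty_of_le hb, sum_empty]
    positivity
  obtain ⟨LL, D⟩ := X.ex_dp t0 H.blk.wt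
  have O := X.bo H D (W.inn b0 le_rfl hb).1
  obtain ⟨e1, -⟩ := X.inn D (W.inn b0 le_rfl hb).1
  obtain ⟨-, e2⟩ := X.inn D (W.inn (b1 - 1) (by omega) (by omega)).1
  have v0 := X.fn.v0
  have K1 := X.K1
  have K1' := X.K1'
  have l1 := X.l1
  obtain ⟨t', j2, R⟩ := O.ric
  have key := O.syn.jsum (dat X.fn.lg) (by positivity) O.lb.g16 (O.lb.glip (by positivity))
    Nat.one_le_two_pow O.lb.L1 (X.G_pos t0) (b0 := b0 + 1) (b1 := b1 + 1) (by omega) (X.hU H D W)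
    (u := sh u) (Gm := sh G) (fun _ => W.u0 _) (fun _ => W.G0 _) (X.maj H D O W)
    (fun j a b => by
      have : Nw LL (16 * K * S.v) (cl (k0 + 1) (k1 + 1) (sh ρ)) j ≤ 2 ^ LL := min_le_right _ _
      omega) (by positivity) l1
    (O.pol.v1.trans (by
      calc _ ≤ 1 * (1 ^ 2 * (1 * (1 * 1 ^ 2) * (K' * S.w3 t))) * lam ^ r := by
            gcongr ?_ * _; nlinarith [R.vw, mul_pos (show 0 < K by linarith) v0]
        _ ≤ _ := by
            gcongr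
            exacts [one_le_pow₀ l1, by linarith [Nat.cast_nonneg (α := ℝ) LL], by norm_num, X.ir]))
    hj
  simp only [show b1 + 1 + U = b1 + U + 1 by ring, ← sum_Ico_add' _ _ _ 1, sh_succ] at key
  refine key.trans ?_
  calc _ ≤ 4 * (lam ^ 17 * Λ₀) * (lam ^ 15 * S.w3 t) * (lam ^ 34 * Λ₀) ^ j *
        ∑ y ∈ Ico b0 (b1 + U), lam * (G y * (ρ y ^ j * (1 + ρ y / t))) := by
        refine mul_le_mul ?_ (sum_le_sum fun y hy => ?_)
          (sum_nonneg fun y hy => ?_) (by positivity)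
        · gcongr _ * ?_ * ?_ ^ j
          · exact X.G_le H D
          · calc _ = 8 * lam ^ 21 * Λ₀ := by ring
              _ ≤ lam * lam ^ 33 * Λ₀ := by gcongr; exacts [by linarith, by norm_num]
              _ = _ := by ring
        all_goals
          rw [cl_sh ρ (r0 y hy).1 (r0 y hy).2]
          have := X.rho_pos H (r0 y hy).1 (r0 y hy).2
          have := W.G0 y
        · nlinarith [mul_le_mul_of_nonneg_left (X.fac_le t0 D (x := ρ y) (by positivity))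
            (show 0 ≤ G y * ρ y ^ j by positivity)]
        · positivity
    _ = 4 * (lam ^ 33 * Λ₀ * (lam ^ 34 * Λ₀) ^ j * S.w3 t *
        ∑ y ∈ Ico b0 (b1 + U), G y * (ρ y ^ j * (1 + ρ y / t))) := by
        rw [← mul_sum]; ring
    _ ≤ lam * (lam ^ 33 * Λ₀ * (lam ^ 34 * Λ₀) ^ j * S.w3 t *
        ∑ y ∈ Ico b0 (b1 + U), G y * (ρ y ^ j * (1 + ρ y / t))) := by
        gcongr; linarith
    _ = _ := by ring

end wts

theorem rP_one (k q : ℕ) : M.Mo m a q (M.rP m a k) 1 := by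
  refine Mo.bdd X.hw (ep_rP X.hw _) fun z => ?_
  have e := rh_eq (M := M) (a := a) (Q33.sl_cov X.fn.lg.m0) k
  rw [Md.rP, QCas98.rP, ← e, abs_of_nonneg (rh_nonneg X.fn.lg.m0 _ _)]
  exact rh_le_one X.fn.lg.m0 _ _

theorem z_big {k : ℕ} (h0 : S.j0 ≤ k) (hk : S.J ≤ 3 * k) : 1 ≤ lam ^ 6 * M.z k := by
  have F := X.fn
  have C1 := F.C1
  have l0 := X.l0
  have z0 := F.z_pos k
  have v0 := F.v0
  have e : 1 ≤ 18 * S.C ^ 5 * M.z k := by
    rcases le_or_gt S.J (k + 1) with h | h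
    · refine (F.z_top h).trans ?_
      gcongr
      nlinarith [le_self_pow₀ C1 (n := 5) (by norm_num)]
    · have : (S.J : ℝ) ≤ 3 * k := by exact_mod_cast hk
      calc 1 ≤ 3 * S.C ^ 3 * (3 * k * S.v) := F.J_lo.trans (by gcongr)
        _ = 9 * S.C ^ 3 * (k * S.v) := by ring
        _ ≤ 9 * S.C ^ 3 * (2 * S.C ^ 2 * M.z k) := by gcongr _ * ?_; exact F.z_lo h0 (by omega)
        _ = _ := by ring
  refine e.trans ?_
  rw [pow_succ' lam 5]
  gcongr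
  exacts [by linarith, X.Cl]

theorem w3_anti {t t' : ℝ} (h0 : 0 < t) (h : t ≤ t') : S.w3 t' ≤ S.w3 t := by
  have := X.fn.ms_pos h0.le
  have := X.fn.n1
  have : 0 < t' := h0.trans_le h
  have := X.fn.F0
  unfold Sc.w3
  gcongr
  exact X.fn.msm h

section crude
variable {K₀ : ℝ} (hK0 : 1 ≤ K₀) (hK : 9 * K₀ * S.C ^ 3 ≤ K) (h0 : 0 < t) (hw : S.w3 t ≤ t ^ 3)
  {k : ℕ} (hk : S.jl ≤ k) (ht : t ≤ K₀ * M.s k)
include hK0 hK h0 hw hk ht

theorem K0_le : K₀ ≤ K ∧ K₀ * S.C ≤ K ∧ 9 * S.C ^ 3 ≤ K := by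
  have C1 := X.fn.C1
  have e1 : S.C ≤ S.C ^ 3 := le_self_pow₀ C1 (by norm_num)
  refine ⟨?_, ?_, ?_⟩ <;> nlinarith [mul_le_mul_of_nonneg_left e1 (zero_le_one.trans hK0),
    mul_le_mul_of_nonneg_right hK0 (show 0 ≤ S.C ^ 3 by positivity)]

/-- the block `[k, 3k]` -/
theorem qb3 (hJ : 3 * k < S.J) : QB K S M (max t (M.s k)) k (3 * k) ∧
    max t (M.s k) ≤ K * (k * S.v) ∧ max t (M.s k) ≤ 2 * S.C * max (M.z k) t := by
  have F := X.fn
  have C1 := F.C1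
  have v0 := F.v0
  have s0 := F.s_nonneg k
  obtain ⟨a1, a2, a3⟩ := X.K0_le hK0 hK h0 hw hk ht
  obtain ⟨b1, b2⟩ := F.s_mem (k := k) (by omega)
  have e : max t (M.s k) ≤ K₀ * M.s k := max_le ht (le_mul_of_one_le_left s0 hK0)
  have j := F.i1.trans hk
  refine ⟨⟨h0.trans_le (le_max_left _ _), hk, by omega, by have := F.i3; omega,
    e.trans (by gcongr), ?_, ((X.w3_anti h0 (le_max_left _ _)).trans hw).trans
      (by gcongr; exact le_max_left _ _)⟩, ?_, max_le ?_ ?_⟩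
  · refine (F.z_hi (by omega) hJ).trans ?_
    push_cast
    calc _ = 9 * S.C ^ 2 * (k * S.v) := by ring
      _ ≤ 9 * S.C ^ 2 * (S.C * max t (M.s k)) := by
          gcongr _ * ?_; exact b1.trans (by gcongr; exact le_max_right _ _)
      _ = 9 * S.C ^ 3 * max t (M.s k) := by ring
      _ ≤ _ := by gcongr
  · calc _ ≤ K₀ * (S.C * (k * S.v)) := e.trans (by gcongr)
      _ = K₀ * S.C * (k * S.v) := by ring
      _ ≤ _ := by gcongr
  · nlinarith [le_max_right (M.z k) t]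
  · exact (F.s_le_z j (by omega)).trans (by gcongr; exact le_max_left _ _)

/-- **crude `L^p` bound** -/
theorem crude {k0 : ℕ} (Cr : Crude Λ₀ S M m a t k0) (hk0 : k0 ≤ k) :
    M.Mo m a (2 ^ i) (M.rP m a k) (lam ^ 24 * Λ₀ * max (M.z k) t) := by
  have F := X.fn
  have L1 := Cr.1
  have l0 := X.l0
  have l1 := X.l1
  have K1 := X.K1
  have v0 := F.v0
  have C1 := F.C1
  have z0 := F.z_pos k
  rcases le_or_gt S.J (3 * k) with hJ | hJ
  · refine (X.rP_one k _).mono ((X.z_big (F.i1.trans hk) hJ).trans ?_)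
    rw [← mul_one (lam ^ 6)]
    gcongr
    exacts [by norm_num, le_max_left _ _]
  obtain ⟨B, e1, e2⟩ := X.qb3 hK0 hK h0 hw hk ht hJ
  set t' := max t (M.s k) with ht'
  have t0 := B.t0
  have r1 : t' ≤ Λ₀ * (K * t') := le_trans (le_mul_of_one_le_left t0.le K1)
    (le_mul_of_one_le_left (by positivity) L1)
  have rb : ∀ y, k ≤ y → y ≤ 3 * k → M.rb m a y ≤ Λ₀ * (K * t') := fun y a b =>
    (Cr.2 y (by omega) (b.trans B.k1p)).trans (by
      gcongr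
      exact max_le ((F.leg.zm b).trans B.hi)
        ((le_max_left _ _).trans (le_mul_of_one_le_left t0.le K1)))
  have H : BH K 1 S M m a t' k (3 * k) (fun _ => 0) fun _ => Λ₀ * (K * t') :=
    ⟨B, le_rfl, fun y a b => by nlinarith [rb y a b], le_rfl,
      fun _ _ _ => ⟨le_rfl, by positivity⟩, fun _ _ _ => by rw [sub_self, abs_zero]; positivity,
      fun _ _ _ => B.wt.trans (by rw [min_eq_right r1, one_mul, pow_succ' t' 2]; gcongr),
      fun _ _ _ => (B.wt.trans (by gcongr)).trans (le_mul_of_one_le_left (by positivity) F.n1),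
      fun y a b => by
        rw [sub_zero, abs_of_nonneg (rb_nonneg F.lg.m0 y), one_mul]; exact rb y a b,
      fun _ y _ _ a b => by omega⟩
  have hi : Inn K S t' k (3 * k) (2 * k) := by
    constructor <;> (rw [div_le_iff₀ (by positivity)]; push_cast; linarith)
  have key : M.Mo m a (2 ^ i) (M.rP m a (2 * k)) _ := (X.node H hi).congr fun _ => (sub_zero _).symm
  refine (mo_rP_mono X.hw (by omega) key).mono ?_
  calc _ ≤ lam ^ 21 * 1 * (Λ₀ * (lam * (lam * lam * max (M.z k) t))) := by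
        gcongr
        · exact X.Kl
        · refine e2.trans ?_
          gcongr
          exacts [by linarith, X.Cl]
    _ = _ := by ring

end crude

theorem E2_eq (q : ℝ) (n k : ℕ) : M.E2 m a (fun R => (R - q) ^ n) k =
    pi2 (fun _ => 1) (M.L m a) (k + 1) (fun x y => ((Q33.sl m).cov x y - q) ^ n) 0 := by
  simp only [Q33.sl_cov X.fn.lg.m0]
  rfl

theorem ck (hp : 1 ≤ p) : LpR43.cK p ≤ lam ^ (2 * p) :=
  X.ckl.trans (le_self_pow₀ X.l1 (by omega))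

theorem sq_le {x y Λ : ℝ} (hΛ : 1 ≤ Λ) (hy : 0 ≤ y) {j : ℕ} (h : x ≤ lam ^ (2 * j) * Λ * y ^ 2) :
    √x ≤ lam ^ j * Λ * y := by
  have := X.l1
  refine sqrt_le_iff.2 ⟨by positivity, h.trans ?_⟩
  rw [mul_pow, mul_pow, ← pow_mul, mul_comm j 2]
  gcongr
  exact le_self_pow₀ hΛ (by norm_num)

theorem sq_le' {x y Λ : ℝ} (hΛ : 1 ≤ Λ) (hy : 0 ≤ y) {j : ℕ}
    (h : x ≤ lam ^ (2 * j) * Λ * (Λ * y ^ 2)) : √x ≤ lam ^ j * Λ * y := by
  have := X.l1
  refine sqrt_le_iff.2 ⟨by positivity, h.trans_eq ?_⟩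
  ring

theorem pair (H : BH K Λ₀ S M m a t k0 k1 c ρ)
    (hc : ∀ k, k1 ≤ k → k ≤ S.Jp → M.Mo m a p (M.rP m a k) (lam ^ 24 * Λ₀ * max (M.z k) t))
    {k : ℕ} (h : Inn K S t k0 k1 k) :
    M.E2 m a (fun R => (R - c k) ^ (2 * p)) k ≤ (lam ^ 23 * Λ₀ * ρ k) ^ (2 * p) := by
  rcases Nat.eq_zero_or_pos p with rfl | hp
  · simp [E2_const]
  have F := X.fn
  have B := H.blk
  have t0 := B.t0
  have w0 := F.w3_pos t0
  have l0 := X.l0
  have l1 := X.l1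
  have L1 := H.L1
  have v0 := F.v0
  have K1 := X.K1
  have K1' := X.K1'
  obtain ⟨LL, D⟩ := X.ex_dp t0 B.wt
  obtain ⟨e1, e2⟩ := X.inn D h
  have O := X.bo H D h
  obtain ⟨t', j2, R⟩ := O.ric
  obtain ⟨k', u, θ, σ, U, u1, u2⟩ := X.up t (lam ^ 24 * Λ₀) k1
    ⟨t0, B.k0l.trans B.k01, le_rfl, B.k1p, F.t_le_s B K1 B.k01, B.hi, B.wt⟩
    (one_le_mul_of_one_le_of_one_le (one_le_pow₀ l1) L1) hc
  have r0 := X.rho_pos H (k := k) (by omega) (by omega)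
  have m0 : 0 < min (ρ k) t := lt_min r0 t0
  have v' : 0 < 16 * K * S.v := by positivity
  have n1 := Nw_one (L := LL) v' (O.lb.g16 (k + 1))
  have n2 : Nw LL (16 * K * S.v) (cl (k0 + 1) (k1 + 1) (sh ρ)) (k + 1) ≤ 2 ^ LL := min_le_right _ _
  have n3 := X.N_ge H D O (k := k) (by omega) (by omega)
  have cr := cl_sh (k0 := k0) (k1 := k1) (k := k) ρ (by omega) (by omega)
  have n4 := Nw_v (L := LL) (τ := cl (k0 + 1) (k1 + 1) (sh ρ)) (j := k + 1) v'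
    (by rw [cr]; exact r0.le)
  have key := O.syn.pair (dat F.lg) R U X.ip (j := k + 1) (by omega) (by omega) n1 (by omega)
    (by omega) le_rfl (by positivity) (X.ck hp) (c k)
  have n5 := O.lb.glip v' (k + 1 + Nw LL (16 * K * S.v) (cl (k0 + 1) (k1 + 1) (sh ρ)) (k + 1)) (k + 1)
  set N := Nw LL (16 * K * S.v) (cl (k0 + 1) (k1 + 1) (sh ρ)) (k + 1) with hN
  have n6 := steps (j0 := k0) (j1 := k1) (f := c) (α := 0) (β := K * S.v)
    (fun y a b => by have := H.clk y a b; constructor <;> linarith) (i := k) (by omega) N (by omega)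
  rw [X.E2_eq]
  rw [cr] at key n4 n5
  rw [show k + 1 + N = k + N + 1 by ring, sh_succ] at key
  rw [show k + 1 + N = k + N + 1 by ring] at n5
  push_cast at n5
  rw [show (k : ℝ) + N + 1 - (k + 1) = N by ring, Nat.abs_cast] at n5
  have g0 := O.lb.g16 (k + N + 1)
  refine key.trans (pow_le_pow_left₀ (by
    have : 0 ≤ cl (k0 + 1) (k1 + 1) (sh ρ) (k + N + 1) := by linarith
    positivity) ?_ _)
  have N0 : 0 ≤ N * (K * S.v) := by positivity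
  have f1 := X.A_le H (x := 2 * ρ k) (by positivity)
  have f1' : 2 * lam ^ 3 * (lam ^ 17 * Λ₀ * cl (k0 + 1) (k1 + 1) (sh ρ) (k + N + 1)) ≤
      2 * lam ^ 3 * (lam ^ 17 * Λ₀ * (2 * ρ k)) := by
    gcongr
    linarith [(abs_le.1 n5).2]
  have f2 : |c (k + N) - c k| ≤ ρ k := abs_le.2 ⟨by nlinarith [n6.1], by nlinarith [n6.2]⟩
  have f3 := X.A_le H r0.le
  have w1 : S.w3 t ≤ Λ₀ * ρ k ^ 2 * min (ρ k) t := (H.wρ k (by omega) (by omega)).trans (by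
    rw [sq, sq, mul_assoc Λ₀, mul_assoc (ρ k)]
    gcongr
    exact min_le_left _ _)
  have f4 : √(K' * S.w3 t / (t / K' * (N * (16 * K * S.v))) * σ 0) ≤ lam ^ 14 * Λ₀ * ρ k := by
    refine X.sq_le' L1 r0.le ?_
    calc _ ≤ K' * S.w3 t / (t / K' * (N * (16 * K * S.v))) * (lam * (lam ^ 24 * Λ₀) * t) := by
          gcongr
      _ ≤ K' * S.w3 t / (t / K' * (min (ρ k) t / lam)) * (lam * (lam ^ 24 * Λ₀) * t) := by
          gcongr ?_ * _
          gcongr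
      _ = K' ^ 2 * lam ^ 26 * Λ₀ * (S.w3 t / min (ρ k) t) := by field_simp
      _ ≤ lam ^ 2 * lam ^ 26 * Λ₀ * (Λ₀ * ρ k ^ 2) := by
          gcongr
          · exact X.Kl'
          · rw [div_le_iff₀ m0]
            exact w1
      _ = _ := by ring
  have f5 : √(lam ^ 24 * Λ₀ * S.w3 t / t) ≤ lam ^ 12 * Λ₀ * ρ k := by
    refine X.sq_le' L1 r0.le ?_
    rw [mul_div_assoc]
    gcongr
    rw [div_le_iff₀ t0]
    exact w1.trans (by gcongr; exact min_le_right _ _)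
  have f6 := u2.trans (mul_le_mul_of_nonneg_left f5 (by positivity))
  have y0 : 0 < Λ₀ * ρ k := by positivity
  have g1 : ρ k ≤ lam ^ 21 * (Λ₀ * ρ k) := (le_mul_of_one_le_left r0.le L1).trans
    (le_mul_of_one_le_left y0.le (one_le_pow₀ l1))
  have g2 : lam ^ 15 * (Λ₀ * ρ k) ≤ lam ^ 21 * (Λ₀ * ρ k) := by gcongr; norm_num
  have g3 : lam ^ 14 * (Λ₀ * ρ k) ≤ lam ^ 21 * (Λ₀ * ρ k) := by gcongr; norm_num
  have g4 : 11 * (lam ^ 21 * (Λ₀ * ρ k)) ≤ lam ^ 2 * (lam ^ 21 * (Λ₀ * ρ k)) := by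
    gcongr; nlinarith
  have g5 : 2 * lam * (2 * √(K' * S.w3 t / (t / K' * (N * (16 * K * S.v))) * σ 0) +
      ∑ l ∈ range k', √(θ (l + 1) * σ (l + 1))) ≤
      2 * lam * (2 * (lam ^ 14 * Λ₀ * ρ k) + lam * (lam ^ 12 * Λ₀ * ρ k)) := by gcongr
  linarith

variable {K₀ : ℝ}


theorem bh (hK0 : K₀ ≤ K) (h1 : 1 ≤ K₀) (H : QH' K₀ Λ₀ S M m a t k0 k1 c ρ) :
    BH K Λ₀ S M m a t k0 k1 c ρ := by
  have F := X.fn
  have B := H.blk
  have t0 := B.t0
  have v0 := F.v0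
  have L1 := H.crude.1
  have K1 := X.K1
  have s0 := F.s_nonneg k0
  have r0 : ∀ k, k0 ≤ k → k ≤ k1 → 0 < ρ k := fun k a b =>
    pos_of_cube' (F.w3_pos t0) (Nat.cast_nonneg _) (H.fine k a b)
  have B' : QB K S M t k0 k1 :=
    ⟨t0, B.k0l, B.k01, B.k1p, B.lo.trans (by gcongr), B.hi.trans (by gcongr), B.wt⟩
  refine ⟨B', L1, fun k a b => ?_, H.c0, fun k a b => ⟨(H.clk k a b).1, (H.clk k a b).2.trans
    (by gcongr)⟩, fun k a b => (H.lip k a b).trans (by gcongr), H.wρ, H.fine, H.loc,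
    fun k y a b c d e => (H.den k y a b c d e).imp id fun f => f.trans ?_⟩
  · have := r0 k a b
    refine (H.crude.2 k a (b.trans B.k1p)).trans ?_
    gcongr
    exact (max_le ((F.leg.zm b).trans B'.hi) (le_mul_of_one_le_left t0.le K1)).trans (by linarith)
  · have := r0 k a b
    have := F.lg.dz_nonneg y
    gcongr

/-- **(Q2), (Q3)** at a fixed size -/
theorem qo {Λ : ℝ} (h1 : 1 ≤ K₀) (hK : 9 * K₀ * S.C ^ 3 ≤ K) (hΛ : lam ^ 40 ≤ Λ)
    (H : QH' K₀ Λ₀ S M m a t k0 k1 c ρ) : QO K₀ (Λ * Λ₀) p S M m a t k0 k1 c ρ := by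
  have F := X.fn
  have B := H.blk
  have t0 := B.t0
  have v0 := F.v0
  have w0 := F.w3_pos t0
  have L1 := H.crude.1
  have l1 := X.l1
  have hK0 := (X.K0_le h1 hK t0 B.wt B.k0l B.lo).1
  have H' := X.bh hK0 h1 H
  have tK : t / K ≤ t / K₀ := by gcongr
  have inn : ∀ {k}, Inn K₀ S t k0 k1 k → Inn K S t k0 k1 k := fun h => ⟨tK.trans h.1, tK.trans h.2⟩
  have wts : ∀ {b0 b1 U u G}, Wts K₀ S t k0 k1 ρ b0 b1 U u G → Wts K S t k0 k1 ρ b0 b1 U u G :=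
    fun W => ⟨fun k a b => ⟨inn (W.inn k a b).1, (min_le_min_left _ tK).trans (W.inn k a b).2⟩,
      W.top, W.u0, W.G0, W.maj, W.bot⟩
  have pw : ∀ j ≤ 40, lam ^ j * Λ₀ ≤ Λ * Λ₀ := fun j hj => by
    gcongr; exact (X.pw hj).trans hΛ
  have r0 : ∀ {k}, Inn K₀ S t k0 k1 k → 0 < ρ k := fun {k} h => by
    obtain ⟨LL, D⟩ := X.ex_dp t0 B.wt
    obtain ⟨e1, e2⟩ := X.inn D (inn h)
    exact X.rho_pos H' (by omega) (by omega)
  have r1 : ∀ {b0 b1 U u G}, Wts K₀ S t k0 k1 ρ b0 b1 U u G → ∀ y ∈ Ico b0 (b1 + U), 0 < ρ y :=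
    fun W y hy => by
      have := mem_Ico.1 hy
      have := W.top
      have := W.bot
      exact X.rho_pos H' (by omega) (by omega)
  refine ⟨fun k h => ?_, fun k h => ?_, fun k k' h hk hl => ?_, fun b0 b1 U u G W => ?_,
    fun b0 b1 U u G W j hj => ?_⟩
  · have := r0 h
    exact ((X.node H' (inn h)).lyap X.hw X.pp).mono (by gcongr ?_ * _; exact pw _ (by norm_num))
  · have := r0 h
    refine (X.pair H' (fun y a b => (X.crude h1 hK t0 B.wt (B.k0l.trans (B.k01.trans a))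
      (F.t_le_s B h1 (B.k01.trans a)) H.crude (B.k01.trans a)).lyap X.hw X.pp) (inn h)).trans ?_
    gcongr (?_ * _) ^ _
    exact pw _ (by norm_num)
  · have := r0 h
    have : (0 : ℝ) ≤ k' - k := by rw [sub_nonneg]; exact_mod_cast hk
    refine ((X.inc H' (inn h) hk (le_trans ?_ hl)).lyap X.hw X.pp).mono
      (by gcongr ?_ * _; exact pw _ (by norm_num))
    gcongr
    exact (le_mul_of_one_le_right (by positivity) L1).trans (pw _ (by norm_num))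
  · refine ((X.asum H' (wts W)).lyap X.hw X.pp).mono ?_
    have : 0 ≤ ∑ y ∈ Ico b0 (b1 + U), G y * (1 + ρ y / t) := sum_nonneg fun y hy => by
      have := r1 W y hy
      have := W.G0 y
      positivity
    gcongr ?_ * _ * _
    exact pw _ (by norm_num)
  · refine (X.jsum H' (wts W) (hj.trans X.pp)).trans ?_
    have : 0 ≤ ∑ y ∈ Ico b0 (b1 + U), G y * (ρ y ^ j * (1 + ρ y / t)) := sum_nonneg fun y hy => by
      have := r1 W y hy
      have := W.G0 y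
      positivity
    gcongr ?_ ^ _ * _ * _
    exact pw _ (by norm_num)

theorem cases (h0 : 0 < t) (hs : M.s S.jl ≤ t) (hw : S.w3 t ≤ t ^ 3) (k : ℕ) :
    1 ≤ lam ^ 8 * max (M.z k) t ∨ ∃ kk, k ≤ kk ∧ S.jl ≤ kk ∧ t ≤ 2 * S.C ^ 2 * M.s kk ∧
      3 * kk < S.J ∧ max (M.z kk) t ≤ lam ^ 2 * max (M.z k) t := by
  have F := X.fn
  have C1 := F.C1
  have v0 := F.v0
  have l0 := X.l0
  have l1 := X.l1
  have m0 : 0 < max (M.z k) t := h0.trans_le (le_max_right _ _)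
  rcases le_or_gt (M.s S.J) t with hJ | hJ
  · left
    calc 1 ≤ 3 * S.C ^ 3 * (S.C * t) :=
          F.J_lo.trans (by gcongr _ * ?_; exact (F.s_mem le_rfl).1.trans (by gcongr))
      _ ≤ lam ^ 4 * lam ^ 3 * (lam * max (M.z k) t) := by
          gcongr
          exacts [le_trans (by linarith) (le_self_pow₀ l1 (by norm_num)), X.Cl, X.Cl,
            le_max_right _ _]
      _ = _ := by ring
  obtain ⟨j, a1, a2, a3, a4⟩ := F.toCl.exists_node h0.le hJ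
  have b1 : S.jl ≤ j := by
    by_contra hc
    linarith [F.sm (show j + 1 ≤ S.jl by omega)]
  have b2 : (1 : ℝ) ≤ j := by exact_mod_cast F.i0.trans (F.i1.trans b1)
  have b3 : S.v ≤ S.C * M.s j := le_trans (by nlinarith) (F.s_mem a1.le).1
  have s0 := F.s_nonneg j
  have b4 : t ≤ 2 * S.C ^ 2 * M.s j := by
    nlinarith [mul_le_mul_of_nonneg_left b3 F.C0.le, mul_le_mul_of_nonneg_right
      (one_le_pow₀ C1 : 1 ≤ S.C ^ 2) s0]
  have b5 : S.v ≤ t := le_trans (le_mul_of_one_le_right v0.le (one_le_pow₀ l1)) (X.vt h0 hw)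
  have l2 : 1 ≤ lam ^ 2 := one_le_pow₀ l1
  have b6 : max (M.z (max k j)) t ≤ lam ^ 2 * max (M.z k) t := by
    rcases max_choice k j with e | e <;> rw [e]
    · exact le_mul_of_one_le_left m0.le l2
    · refine max_le ((F.z_le_s (F.i1.trans b1) a1).trans ?_)
        ((le_max_right _ _).trans (le_mul_of_one_le_left m0.le l2))
      calc _ ≤ lam * (lam * max (M.z k) t) := by
            gcongr
            · exact X.Cl
            · nlinarith [le_max_right (M.z k) t]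
        _ = _ := by ring
  rcases le_or_gt S.J (3 * max k j) with h | h
  · left
    calc 1 ≤ lam ^ 6 * (lam ^ 2 * max (M.z k) t) := (X.z_big (by have := F.i1; omega) h).trans
          (by gcongr; exact (le_max_left _ _).trans b6)
      _ = _ := by ring
  · exact Or.inr ⟨max k j, le_max_left _ _, by omega,
      b4.trans (by gcongr; exact F.sm (le_max_right _ _)), h, b6⟩

theorem mo_iP {k k' q : ℕ} {B : ℝ} (hk : k ≤ k') (H : M.Mo m a q (M.rP m a k') B) :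
    M.Mo m a q (M.iP m a k k') (4 * B) := by
  have H' : M.Mo m a q (M.rP m a k) B := mo_rP_mono X.hw (by omega) H
  refine (((H.add X.hw H').const_mul' (c := 2) (by norm_num)).of_le' X.hw (ep_iP X.hw _ _)
    fun z => ?_).mono (by linarith)
  have e : ∀ x y : ℝ, (x - y) ^ 2 ≤ 2 * (x ^ 2 + y ^ 2) := fun x y => by nlinarith [sq_nonneg (x + y)]
  rw [QCas98.iP, abs_of_nonneg (sum_nonneg fun _ _ => sq_nonneg _)]
  simp only [Md.rP, QCas98.rP, Cas.Sy41.rr, ← sum_add_distrib, mul_sum]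
  exact sum_le_sum fun _ _ => e _ _

/-- **(S)** at a fixed size -/
theorem low {Λ : ℝ} (hK : 9 * (2 * S.C ^ 2) * S.C ^ 3 ≤ K) (hΛ : lam ^ 40 ≤ Λ) (h0 : 0 < t)
    (hs : M.s S.jl ≤ t) (hw : S.w3 t ≤ t ^ 3) (Cr : Crude Λ₀ S M m a t S.jl) (k : ℕ) :
    M.Mo m a p (M.rP m a k) (Λ * Λ₀ * max (M.z k) t) ∧
    M.E2 m a (fun R => R ^ (2 * p)) k ≤ (Λ * Λ₀ * max (M.z k) t) ^ (2 * p) := by
  have F := X.fn
  have C1 := F.C1
  have v0 := F.v0
  have l0 := X.l0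
  have l1 := X.l1
  have L1 := Cr.1
  have K1 := X.K1
  have K1' := X.K1'
  have m0 : 0 < max (M.z k) t := h0.trans_le (le_max_right _ _)
  have pw : ∀ j ≤ 40, lam ^ j * Λ₀ * max (M.z k) t ≤ Λ * Λ₀ * max (M.z k) t := fun j hj => by
    gcongr; exact (X.pw hj).trans hΛ
  rcases X.cases h0 hs hw k with h | ⟨kk, a1, a2, a3, a4, a5⟩
  · have e : 1 ≤ Λ * Λ₀ * max (M.z k) t := h.trans (le_trans (by
      gcongr; exact le_mul_of_one_le_right (by positivity) L1) (pw 8 (by norm_num)))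
    refine ⟨(X.rP_one k p).mono e, E2_le (fun R hR => ?_) k⟩
    exact ((le_abs_self _).trans (by rw [abs_pow]; exact pow_le_one₀ (abs_nonneg _) hR)).trans
      (one_le_pow₀ e)
  have h1 : 1 ≤ 2 * S.C ^ 2 := by nlinarith
  have cr : ∀ y, kk ≤ y → M.Mo m a (2 ^ i) (M.rP m a y) (lam ^ 24 * Λ₀ * max (M.z y) t) :=
    fun y hy => X.crude h1 hK h0 hw (a2.trans hy) (a3.trans (by gcongr; exact F.sm hy)) Cr
      (a2.trans hy)
  refine ⟨((mo_rP_mono X.hw (by omega) (cr kk le_rfl)).lyap X.hw X.pp).mono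
    (le_trans ?_ (pw 26 (by norm_num))), ?_⟩
  · calc _ ≤ lam ^ 24 * Λ₀ * (lam ^ 2 * max (M.z k) t) := by gcongr
      _ = _ := by ring
  rcases Nat.eq_zero_or_pos p with rfl | hp
  · simp [E2_const]
  obtain ⟨B, e1, e2⟩ := X.qb3 h1 hK h0 hw a2 a3 a4
  set t' := max t (M.s kk) with ht'
  have t0 := B.t0
  have tt : t ≤ t' := le_max_left _ _
  have w0 := F.w3_pos t0
  obtain ⟨τ', j2, R⟩ := X.ric t' kk (3 * kk) B 0 (by
    calc _ ≤ 1 * (lam * lam * S.v) := by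
          gcongr
          exacts [by norm_num, by linarith, X.Kl]
      _ = S.v * lam ^ 2 := by ring
      _ ≤ S.v * lam ^ 19 := by gcongr; norm_num
      _ ≤ _ := (X.vt h0 hw).trans tt)
  obtain ⟨k', u, θ, σ, U, u1, u2⟩ := X.up t' (lam ^ 24 * Λ₀) (3 * kk)
    ⟨t0, B.k0l.trans B.k01, le_rfl, B.k1p, F.t_le_s B K1 B.k01, B.hi, B.wt⟩
    (one_le_mul_of_one_le_of_one_le (one_le_pow₀ l1) L1) fun y a b =>
      ((cr y (by omega)).lyap X.hw X.pp).mono (by gcongr)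
  have k1 : 1 ≤ kk := F.i0.trans (F.i1.trans a2)
  have W := (R.win (a := kk + 1) (N := kk) (b := 3 * kk + 1) le_rfl k1 (by omega) le_rfl).anti
    (a' := k + 1) (by omega)
  have c3 : M.Mo m a (2 * p) (M.rP m a (3 * kk)) (lam ^ 25 * (Λ₀ * t')) :=
    ((cr (3 * kk) (by omega)).lyap X.hw X.ip).mono (by
      calc _ ≤ lam ^ 24 * Λ₀ * (lam * t') := by
            gcongr
            exact (max_le B.hi (tt.trans (le_mul_of_one_le_left t0.le K1))).trans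
              (by gcongr; exact X.Kl)
        _ = _ := by ring)
  have key := pair_up (dat F.lg) U le_rfl W W (by positivity) (X.ck hp) (q := 0)
    (c3.congr fun _ => sub_zero _) (X.mo_iP (k := k) (by omega) c3)
  rw [← X.E2_eq] at key
  simp only [sub_zero] at key
  refine key.trans (pow_le_pow_left₀ (by positivity) (le_trans ?_ (pw 30 (by norm_num))) _)
  have kk0 : (0 : ℝ) < kk := by exact_mod_cast k1
  have w1 : S.w3 t' / t' ≤ t' ^ 2 := by rw [div_le_iff₀ t0, ← pow_succ]; exact B.wt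
  have f4 : √(K' * S.w3 t' / (t' / K' * (kk * (16 * K * S.v))) * σ 0) ≤ lam ^ 14 * Λ₀ * t' := by
    refine X.sq_le L1 t0.le ?_
    calc _ ≤ K' * S.w3 t' / (t' / K' * (kk * (16 * K * S.v))) * (lam * (lam ^ 24 * Λ₀) * t') := by
          gcongr
      _ ≤ K' * S.w3 t' / (t' / K' * t') * (lam * (lam ^ 24 * Λ₀) * t') := by
          gcongr ?_ * _
          gcongr _ / (_ * ?_)
          nlinarith [show 0 ≤ K * (kk * S.v) by positivity]
      _ = K' ^ 2 * lam ^ 25 * Λ₀ * (S.w3 t' / t') := by field_simp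
      _ ≤ lam ^ 2 * lam ^ 26 * Λ₀ * t' ^ 2 := by
          gcongr
          exacts [X.Kl', by norm_num]
      _ = _ := by ring
  have f5 : √(lam ^ 24 * Λ₀ * S.w3 t' / t') ≤ lam ^ 12 * Λ₀ * t' := by
    refine X.sq_le L1 t0.le ?_
    rw [mul_div_assoc]
    gcongr
  have f6 := u2.trans (mul_le_mul_of_nonneg_left f5 (by positivity))
  have y0 : 0 < Λ₀ * t' := by positivity
  have g2 : lam ^ 15 * (Λ₀ * t') ≤ lam ^ 25 * (Λ₀ * t') := by gcongr; norm_num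
  have g3 : lam ^ 14 * (Λ₀ * t') ≤ lam ^ 25 * (Λ₀ * t') := by gcongr; norm_num
  have g4 : 15 * (lam ^ 25 * (Λ₀ * t')) ≤ lam * (lam ^ 25 * (Λ₀ * t')) := by gcongr; linarith
  have g5 : 2 * lam * (2 * √(K' * S.w3 t' / (t' / K' * (kk * (16 * K * S.v))) * σ 0) +
      ∑ l ∈ range k', √(θ (l + 1) * σ (l + 1))) ≤
      2 * lam * (2 * (lam ^ 14 * Λ₀ * t') + lam * (lam ^ 12 * Λ₀ * t')) := by gcongr
  have g6 : lam ^ 26 * (Λ₀ * t') ≤ lam ^ 26 * (Λ₀ * (lam * lam * (lam ^ 2 * max (M.z k) t))) := by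
    gcongr
    refine e2.trans ?_
    gcongr
    exacts [by linarith, X.Cl]
  linarith

end Cx

/-- **`QSyncS'`** -/
theorem qSyncS' : QSyncS' := fun K p hK =>
  (cx_ev (fun C => 9 * K * max C 1 ^ 3) (fun C => by
    have : 1 ≤ max C 1 ^ 3 := one_le_pow₀ (le_max_right C 1)
    nlinarith) p).mono fun _ Λ S M m a _ _ h _ ⟨K', lam, r, i, X, hΛ⟩ Λ₀ t k0 k1 c ρ H =>
    X.qo hK (by rw [max_eq_left h.C1]) hΛ H


/-- **`QLowS`** -/
theorem qLowS : QLowS := fun p =>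
  (cx_ev (fun C => 9 * (2 * max C 1 ^ 2) * max C 1 ^ 3) (fun C => by
    have h1 : 1 ≤ max C 1 ^ 3 := one_le_pow₀ (le_max_right C 1)
    have h2 : 1 ≤ max C 1 ^ 2 := one_le_pow₀ (le_max_right C 1)
    nlinarith) p).mono fun _ Λ S M m a _ _ h _ ⟨K', lam, r, i, X, hΛ⟩ Λ₀ t h0 hs hw Cr k _ =>
    X.low (by rw [max_eq_left h.C1]) hΛ h0 hs hw Cr k



end Crest.Agent.T156.Alt.QS98

end
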