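import Crest.Agent.T156.CLfB_24
import Crest.Agent.T156.QClS_98

/-!
# Row 156, block C: block data on the class `Cl` (helper24)

Dyadic blocks `[2^i J, 2^(i+1) J)` below `b`, one block from `b` on.
-/

set_option autoImplicit false
set_option linter.unusedSectionVars false

noncomputable section

namespace Crest.Agent.T156.Alt.Lb24

open MeasureTheory Real Finset Filter
open Crest.Agent.T157.E Crest.Agent.T157.Casc Crest.Agent.T157.SL
open Crest.Agent.T156.Cas Crest.Agent.T156.Cas.Sy41 Crest.Agent.T156.Cas.Q33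
open Crest.Agent.T156.Cas.Lp12 Crest.Agent.T156.Cas.C40
open Crest.Agent.T156.Alt.Md67 Crest.Agent.T156.Alt.Cost41 Crest.Agent.T156.Alt.CIn12
open Crest.Agent.T156.Alt.C33

variable {S : Sc} {M : Md} {m : ℕ} {a : ℝ}

theorem Phi_ge {σ : ℝ} {j k : ℕ} (h : j ≤ k)
    (H : ∀ i, j ≤ i → i < k → σ ≤ M.z i * (M.H (i + 1) - M.H i)) :
    ((k : ℝ) - j) * σ ≤ Phi M k - Phi M j :=
  tel_ge h fun i h1 h2 => by rw [Phi_succ]; exact H i h1 h2

theorem Phi_le (G : Lg M m a) {j k : ℕ} (h : j ≤ k) (hk : k ≤ M.N) : Phi M k - Phi M j ≤ M.H M.N := by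
  rw [Phi_sub M h]
  refine (sum_le_sum fun i _ => mul_le_of_le_one_left (dH_nonneg G.toLeg i) (G.z1 i)).trans ?_
  rw [sum_Ico_sub M.H h]
  linarith [H_nonneg G.toLeg j, G.Hm hk]

/-- **a constant majorant** -/
theorem Mj.unif {c : ℕ → ℝ} {σ σ' cm x ρ : ℝ} {j0 N D : ℕ} (σ0 : 0 < σ) (σ1 : 0 < σ')
    (le : j0 ≤ N) (hN : N < M.N) (hΦ : ∀ i, j0 ≤ i → i ≤ N → σ ≤ M.z i * (M.H (i + 1) - M.H i))
    (hΦ' : ∀ i, j0 ≤ i → i ≤ N → σ' ≤ M.z i * (M.H (i + 1) - M.H i))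
    (hD : Phi M N - Phi M j0 ≤ 2 ^ D * σ) (c0 : ∀ k, j0 < k → k ≤ N → 0 ≤ c k) (cm0 : 0 ≤ cm)
    (c1 : ∀ k, j0 < k → k ≤ N → c k ≤ cm) (x0 : 0 < x) (hx : x ≤ M.z j0)
    (hρ : M.rb m a (N + 1) ≤ ρ) : Mj M m a c (fun _ => cm / σ') σ cm x (cm / σ' * ρ) j0 N D := by
  refine ⟨σ0, le, hN, hΦ, hD, c0, cm0, c1, fun _ _ _ => by positivity, fun j k h1 h2 h3 => ?_,
    fun k h1 h2 => ?_, x0, hx, ?_⟩
  · have e := sum_le_card_nsmul (Ioc j k) c cm fun i hi =>
      c1 i (h1.trans_lt (mem_Ioc.1 hi).1) ((mem_Ioc.1 hi).2.trans h3)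
    rw [Nat.card_Ioc, nsmul_eq_mul, Nat.cast_sub h2.le] at e
    refine e.trans (le_trans (le_of_eq ?_) (mul_le_mul_of_nonneg_left (Phi_ge h2.le fun i a b =>
      hΦ' i (h1.trans a) (by omega)) (by positivity)))
    field_simp
  · refine (c1 k h1 h2).trans (le_trans (le_of_eq ?_)
      (mul_le_mul_of_nonneg_left (hΦ' k h1.le h2) (by positivity)))
    field_simp
  · rw [RW, ← sum_mul, tele _ (by omega), ← add_mul, add_sub_cancel, mul_comm]
    exact mul_le_mul_of_nonneg_left hρ (by positivity)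

theorem vP_anti {y j k : ℕ} (hj : y ≤ j) (hk : j ≤ k) : vP M m a y k ≤ vP M m a y j :=
  node_mono Link33.wt1 (Eg33.eg_vz Link33.wt1 _ _ _ _) (Eg33.eg_vz Link33.wt1 _ _ _ _)
    (Eg33.vz_anti Link33.wt1 _ _ (by omega) (by omega)) _ _ _

theorem sum_range_dz (G : Lg M m a) (k : ℕ) : ∑ y ∈ range k, M.dz m a y ≤ M.z k := by
  have := sum_dz_range (m := m) (a := a) G.toLeg k
  rw [sum_range_succ] at this
  linarith [G.a0, G.dz_nonneg k]

theorem sum_Ico_dz (G : Lg M m a) {u k : ℕ} (h : u + 1 ≤ k) :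
    ∑ y ∈ Ico (u + 1) k, M.dz m a y = M.z (k - 1) - M.z u := by
  rw [← sum_dz (m := m) (a := a) G.toLeg (by omega : u ≤ k - 1), ← Ico_add_one_add_one_eq_Ioc,
    show k - 1 + 1 = k by omega]

/-- **the top block**: nodes `[b, N]` with bound `τ`, weight `ε` above `N` -/
structure Top (M : Md) (m : ℕ) (a : ℝ) (b N : ℕ) (τ ε : ℝ) : Prop where
  le : b ≤ N + 1
  aa : ∑ k ∈ Icc b N, M.dz m a k * aM M m a k ≤ τ
  dia : ∑ k ∈ Icc b N, M.dz m a k * vP M m a k k ≤ τ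
  lad : ∀ k, b ≤ k → k ≤ N + 1 → ∑ y ∈ range k, M.dz m a y * vP M m a y k ≤ τ
  rest : 1 - M.z N ≤ ε

/-- the top block from a majorant for the label weights -/
theorem Mj.top (G : Lg M m a) {W : ℕ → ℝ} {σ cm x R μ s : ℝ} {j0 N D b : ℕ}
    (H : Mj M m a (M.dz m a) W σ cm x R j0 N D) (h0 : j0 < b) (h1 : b ≤ N + 1) (μ0 : 0 < μ)
    (hμ : μ ≤ M.z (b - 1) - M.z j0) (s0 : 0 < s) (hs : s ≤ Phi M b - Phi M (j0 + 1)) :
    Top M m a b N (1 / (x * (s * m)) + (2 + 1 / μ) * (bb D m R cm x / x)) (1 - M.z N) := by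
  have x0 := H.x0
  have b0 := H.bb_nn G
  have m0 : (0 : ℝ) < m := Nat.cast_pos.2 G.m0
  have sub : Icc b N ⊆ Ioc j0 N := fun k hk => by
    rw [mem_Icc] at hk; rw [mem_Ioc]; omega
  have e : 2 * (bb D m R cm x / x) ≤ 1 / (x * (s * m)) + (2 + 1 / μ) * (bb D m R cm x / x) := by
    have : 0 ≤ 1 / (x * (s * m)) + 1 / μ * (bb D m R cm x / x) := by positivity
    linarith
  refine ⟨h1, le_trans ?_ e, le_trans ?_ e, fun k k0 k1 => ?_, le_rfl⟩
  · refine ((sum_le_sum_of_subset_of_nonneg sub fun k _ _ =>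
      mul_nonneg (G.dz_nonneg k) (aM_nonneg G k)).trans (H.aa G)).trans ?_
    linarith [le_div_self b0 x0 (H.x1 G), div_nonneg b0 x0.le]
  · refine (sum_le_sum_of_subset_of_nonneg sub fun k _ _ =>
      mul_nonneg (G.dz_nonneg k) (vP_nn k k)).trans ?_
    rw [← mul_div_assoc, le_div_iff₀' x0]
    exact H.dia G
  have sb : Ico (j0 + 1) k ⊆ Ioc j0 N := fun y hy => by
    rw [mem_Ico] at hy; rw [mem_Ioc]; omega
  have hN := H.hN
  refine (lad_of G (u := j0 + 1) (by omega) (by omega) x0 (H.hx.trans (G.zm (by omega))) s0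
    (hs.trans ?_) μ0 (hμ.trans ?_) (X := 1) ((G.sum_dz_le _).trans (by linarith [G.a0]))
    (T := bb D m R cm x / x) ?_ ?_).trans ?_
  · have := Phi_ge (M := M) (σ := 0) k0 fun i _ _ =>
      mul_nonneg (G.z_nonneg i) (dH_nonneg G.toLeg i)
    linarith
  · rw [sum_Ico_dz G (by omega)]
    linarith [G.zm (show b - 1 ≤ k - 1 by omega)]
  · rw [le_div_iff₀' x0]
    exact (mul_le_mul_of_nonneg_left (sum_le_sum_of_subset_of_nonneg sb fun y _ _ =>
      mul_nonneg (G.dz_nonneg y) (tcM_nn y)) x0.le).trans (H.tc G)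
  · rw [le_div_iff₀' x0]
    exact (mul_le_mul_of_nonneg_left (sum_le_sum_of_subset_of_nonneg sb fun y _ _ =>
      mul_nonneg (G.dz_nonneg y) (vvM_nn y)) x0.le).trans (H.vv G)
  · rw [one_mul]
    gcongr
    exact rb_le_one G.m0 k

theorem Top.mono {b N : ℕ} {τ ε τ' ε' : ℝ} (H : Top M m a b N τ ε) (h : τ ≤ τ') (h' : ε ≤ ε') :
    Top M m a b N τ' ε' :=
  ⟨H.le, H.aa.trans h, H.dia.trans h, fun k a b => (H.lad k a b).trans h, H.rest.trans h'⟩

/-- constants; `lo` is the output of `QLowS` -/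
structure Kc (lam l Λ : ℝ) (D : ℕ) (S : Sc) (M : Md) (m : ℕ) (a : ℝ) : Prop where
  fn : Fn S M m a
  vn : S.v * S.n ≤ M.z 0
  l0 : 1000 ≤ lam
  Cl : S.C ≤ lam
  Dl : (D : ℝ) + 2 ≤ lam ^ 2
  hD : M.H M.N ≤ 2 ^ D * (S.v ^ 2 / (S.n * S.F))
  al : -log a ≤ lam
  L1 : 1 ≤ Λ
  lo : ∀ k ≤ M.N, M.E2 m a (fun R => R ^ 2) k ≤ (Λ * max (M.z k) l) ^ 2
  ln : lam ^ 10 ≤ S.n
  lgn : log S.n ≤ lam

/-- the constants from the regime -/
theorem kc_of {C η K l Λ : ℝ} {A : ℕ} (G : RgC C A η K S) (hK : 4 * (A : ℝ) + 9 ≤ K)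
    (h10 : 10 * η ≤ 1) (h : Cl S M) (I : S.In m a) (hF : S.F ≤ S.n) (L1 : 1 ≤ Λ)
    (lo : ∀ k ≤ M.N, M.E2 m a (fun R => R ^ 2) k ≤ (Λ * max (M.z k) l) ^ 2) :
    ∃ D, Kc ((S.n : ℝ) ^ η) l Λ D S M m a := by
  have n1 := h.n1
  have N0 := h.N0
  have C1 := h.C1
  have v0 := h.v0
  have F1 := h.F1
  have A2 := G.A2
  have l0 := G.num_le
  have lg := G.log_le
  have Al := G.A_le
  have Kl := G.K_le
  have N1 : (1 : ℝ) ≤ S.n := by exact_mod_cast n1
  have N3 : (3 : ℝ) ≤ S.n := by exact_mod_cast G.n3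
  have g1 : 1 ≤ log (S.n : ℝ) := by
    rw [le_log_iff_exp_le N0]; linarith [exp_one_lt_d9]
  have Cl : S.C ≤ (S.n : ℝ) ^ η := by linarith [G.C_log, G.hC]
  have ln : ((S.n : ℝ) ^ η) ^ 10 ≤ S.n := by
    rw [Pre29.rp_pow]
    exact (Pre29.rp_le n1 (by push_cast; linarith)).trans (rpow_one _).le
  have key : (S.n : ℝ) ^ η / S.n ≤ (S.n : ℝ) ^ (-(1 : ℝ) / 6) := by
    rw [← rpow_sub_one N0.ne']
    exact Pre29.rp_le n1 (by linarith)
  rw [← G.hA] at A2 Al hK
  generalize (S.n : ℝ) ^ η = lam at *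
  have vn : S.v * S.n ≤ M.z 0 := by
    refine le_trans ?_ (key.trans (by linarith [I.a1, I.a2, h.leg.z0]))
    rw [le_div_iff₀ N0, mul_assoc, ← sq]
    exact ((mul_le_mul_of_nonneg_left (pow_le_pow_right₀ N1 A2) v0.le).trans h.v2).trans Cl
  have l5 : lam ^ 5 ≤ S.n := (pow_le_pow_right₀ (by linarith) (by norm_num)).trans ln
  have l1 : lam ≤ S.n := (le_self_pow₀ (by linarith) (by norm_num)).trans ln
  set D := ⌈2 * (2 * (S.A : ℝ) + 3) * log S.n⌉₊ with hD
  have D1 : 2 * (2 * (S.A : ℝ) + 3) * log S.n ≤ D := Nat.le_ceil _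
  have D2 : (D : ℝ) ≤ 2 * (2 * (S.A : ℝ) + 3) * log S.n + 1 :=
    (Nat.ceil_lt_add_one (by positivity)).le
  refine ⟨D, ⟨h, I, G.n3, by omega, le_trans ?_ vn⟩, vn, l0, Cl, ?_, h.HN.trans ?_, ?_, L1, lo, ln,
    lg⟩
  · rw [mul_comm]; gcongr; linarith
  · nlinarith [mul_le_mul (show 4 * (S.A : ℝ) + 9 ≤ lam by linarith) lg (by linarith) (by linarith)]
  · have e1 : (S.n : ℝ) ^ (2 * S.A + 3) ≤ 2 ^ D := by
      have h3 : (1 : ℝ) / 2 ≤ log 2 := by linarith [log_two_gt_d9]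
      rw [← log_le_log_iff (by positivity) (by positivity), log_pow, log_pow]
      push_cast
      nlinarith [mul_le_mul_of_nonneg_left h3 (Nat.cast_nonneg (α := ℝ) D)]
    have e2 : 1 ≤ S.C * (S.v * (S.n : ℝ) ^ S.A) := by
      have := h.v1
      rwa [div_le_iff₀' (by linarith)] at this
    rw [← mul_div_assoc, le_div_iff₀ (by positivity)]
    calc _ ≤ S.C * S.A * log S.n * (S.n * S.n) * (S.C * (S.v * (S.n : ℝ) ^ S.A)) ^ 2 :=
          le_trans (by gcongr) (le_mul_of_one_le_right (by positivity) (one_le_pow₀ e2))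
      _ = S.C ^ 3 * S.A * log S.n * (S.n : ℝ) ^ (2 * S.A + 2) * S.v ^ 2 := by ring
      _ ≤ lam ^ 3 * lam * lam * (S.n : ℝ) ^ (2 * S.A + 2) * S.v ^ 2 := by gcongr
      _ = lam ^ 5 * (S.n : ℝ) ^ (2 * S.A + 2) * S.v ^ 2 := by ring
      _ ≤ S.n * (S.n : ℝ) ^ (2 * S.A + 2) * S.v ^ 2 := by gcongr
      _ ≤ _ := by rw [← pow_succ']; gcongr
  · have : (S.n : ℝ)⁻¹ ≤ a := by
      refine le_trans ?_ ((div_le_div_of_nonneg_right key two_pos.le).trans I.a1)
      rw [div_div, le_div_iff₀ (by positivity)]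
      field_simp
      linarith
    have := log_le_log (by positivity) this
    rw [log_inv] at this
    linarith

/-- **the constants on the class** -/
theorem kc_ev : CL fun _ Λ S M m a => S.F ≤ S.n → ∀ Λ₀ l, 0 < l → M.s S.jl ≤ l → S.w3 l ≤ l ^ 3 →
    Crude Λ₀ S M m a l S.jl → ∃ (lam : ℝ) (D : ℕ), Kc lam l (lam * Λ₀) D S M m a ∧ lam ^ 60 ≤ Λ :=
  (QS98.qLowS 1).glue' (fun _ _ _ _ _ _ _ _ h H a b c d e f g =>
    let ⟨l, D, k1, k2⟩ := H a b c d e f g; ⟨l, D, k1, k2.trans h⟩) 2 le_rfl 10 60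
    fun _ A _ _ _ _ => ⟨4 * A + 9, fun S M m a G _ _ h10 h I H hF Λ₀ l l0 l1 l2 Cr =>
      let ⟨D, K⟩ := kc_of G le_rfl (by exact_mod_cast h10) h I hF
        (one_le_mul_of_one_le_of_one_le (by linarith [G.num_le]) Cr.1)
        fun k hk => (H Λ₀ l l0 l1 l2 Cr k hk).2
      ⟨_, D, K, le_rfl⟩⟩

namespace Kc

variable {lam l Λ : ℝ} {D : ℕ} (K : Kc lam l Λ D S M m a)
include K

theorem lg : Lg M m a := K.fn.lg

theorem rb_le {k : ℕ} (hk : k ≤ M.N) : M.rb m a k ≤ Λ * max (M.z k) l := by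
  have h := sq_le_E2 (M := M) (m := m) (a := a) 0 k
  simp only [sub_zero] at h
  exact (abs_le_of_sq_le_sq' (h.trans (K.lo k hk)) (mul_nonneg (zero_le_one.trans K.L1)
    (le_max_of_le_left (K.lg.z_nonneg k)))).2

theorem Om_le (J : ℕ) : Om M m a (Ico J M.N) ≤ lam :=
  (Om_le_a K.lg (K.fn.toIn.amax0 K.fn.toCl.n1).1).trans K.al

/-- the smallest increment of the field -/
theorem floor {i : ℕ} (h0 : S.jl ≤ i) (h1 : i < S.Jp) :
    S.v ^ 2 / (S.n * S.F) ≤ M.z i * (M.H (i + 1) - M.H i) := by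
  have F := K.fn
  have n1 := F.n1
  have C0 := F.C0
  have F0 := F.F0
  have v0 := F.v0
  have e := F.toCl.ms_ge (F.s_nonneg i)
  rw [rpow_neg_one] at e
  refine le_trans ?_ (mul_le_mul (F.fine.trans (F.leg.zm (Nat.zero_le i))) (F.flr i h0 h1)
    (by have := F.ms_pos (F.s_nonneg i); positivity) (F.z_pos i).le)
  calc _ = S.C * S.v * ((S.n : ℝ)⁻¹ * S.v / (S.C * S.F)) := by field_simp
    _ ≤ _ := by gcongr

theorem Phi_D {j k : ℕ} (h : j ≤ k) (hk : k ≤ M.N) :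
    Phi M k - Phi M j ≤ 2 ^ D * (S.v ^ 2 / (S.n * S.F)) := (Phi_le K.lg h hk).trans K.hD

section dy
variable {β β' : ℕ} {t : ℝ} (ht : t = S.C * (β * S.v)) (h0 : 4 * S.jl ≤ β) (h1 : β < β')
  (h2 : β' ≤ 2 * β) (h3 : β' < S.J)
include ht h0 h1 h2 h3

theorem t0 : 0 < t := by
  have := K.fn.i0
  have := K.fn.i1
  have : (0 : ℝ) < β := by exact_mod_cast (by omega : 0 < β)
  have := K.fn.C0
  have := K.fn.v0
  rw [ht]; positivity

theorem z_le {k : ℕ} (hk : k ≤ β') : M.z k ≤ 6 * S.C * t := by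
  have F := K.fn
  have i1 := F.i1
  have e : (β' : ℝ) ≤ 2 * β := by exact_mod_cast h2
  have := mul_le_mul_of_nonneg_left (mul_le_mul_of_nonneg_right e F.v0.le)
    (show 0 ≤ 3 * S.C ^ 2 by positivity)
  have := (F.leg.zm hk).trans (F.z_hi (by omega) h3)
  rw [ht]; linarith

theorem mx_le {k : ℕ} (hk : k ≤ β') : Λ * max (M.z k) l ≤ 6 * S.C * Λ * max t l := by
  have C1 := K.fn.C1
  have t0 := K.t0 ht h0 h1 h2 h3
  have m0 : 0 ≤ max t l := le_max_of_le_left t0.le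
  rw [mul_comm _ Λ, mul_assoc]
  refine mul_le_mul_of_nonneg_left (max_le ((K.z_le ht h0 h1 h2 h3 hk).trans ?_) ?_)
    (zero_le_one.trans K.L1)
  · exact mul_le_mul_of_nonneg_left (le_max_left _ _) (by positivity)
  · exact (le_max_right _ _).trans (le_mul_of_one_le_left m0 (by linarith))

theorem dz_le {k : ℕ} (hk : β / 2 < k) (hk' : k ≤ β') : M.dz m a k ≤ S.C * S.v := by
  have i1 := K.fn.i1
  obtain ⟨k, rfl⟩ : ∃ j, k = j + 1 := ⟨k - 1, by omega⟩
  rw [dz_succ K.lg.toLeg]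
  exact (K.fn.zs k (by omega) (by omega)).2

theorem mass : ∑ k ∈ Ico β β', M.dz m a k ≤ t := by
  refine (sum_le_card_nsmul _ _ (S.C * S.v) fun k hk => K.dz_le ht h0 h1 h2 h3
    (by have := (mem_Ico.1 hk).1; omega) (mem_Ico.1 hk).2.le).trans ?_
  rw [Nat.card_Ico, nsmul_eq_mul, ht, mul_left_comm]
  have : ((β' - β : ℕ) : ℝ) ≤ β := by exact_mod_cast (by omega : β' - β ≤ β)
  have := K.fn.C0
  have := K.fn.v0
  gcongr

/-- crude bounds -/
theorem cru : t * ∑ k ∈ Ico β β', M.dz m a k * vP M m a k k ≤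
      lam ^ 24 * Λ ^ 2 * (t ^ 2 * max t l ^ 2) ∧
    (∀ k < β', t * ∑ y ∈ range k, M.dz m a y * vP M m a y k ≤
      lam ^ 24 * Λ ^ 2 * (t ^ 2 * max t l ^ 2)) ∧
    ∑ k ∈ Ico β β', M.dz m a k * (4 * lam * M.z k * (Λ * max (M.z k) l) ^ 2) ≤
      lam ^ 24 * Λ ^ 2 * (t ^ 2 * max t l ^ 2) := by
  have G := K.lg
  have C1 := K.fn.C1
  have Cl := K.Cl
  have l0 := K.l0
  have L1 := K.L1
  have t0 := K.t0 ht h0 h1 h2 h3
  have i3 := K.fn.i3
  have i4 := K.fn.i4
  have u : ∀ k ≤ β', (Λ * max (M.z k) l) ^ 2 ≤ (6 * S.C * Λ * max t l) ^ 2 := fun k hk =>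
    pow_le_pow_left₀ (mul_nonneg (by linarith) (le_max_of_le_left (G.z_nonneg k)))
      (K.mx_le ht h0 h1 h2 h3 hk) 2
  have v : ∀ y k, y ≤ k → k ≤ β' → vP M m a y k ≤ (6 * S.C * Λ * max t l) ^ 2 := fun y k a b =>
    vP_crude G.m0 (c := 0) a (by
      simpa only [sub_zero] using (K.lo y (by omega)).trans (u y (by omega)))
  have fin : 4 * lam * (6 * S.C * t) * (t * (6 * S.C * Λ * max t l) ^ 2) ≤
      lam ^ 24 * Λ ^ 2 * (t ^ 2 * max t l ^ 2) := by
    calc _ = 864 * lam * S.C ^ 3 * (Λ ^ 2 * (t ^ 2 * max t l ^ 2)) := by ring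
      _ ≤ lam * lam * lam ^ 3 * (Λ ^ 2 * (t ^ 2 * max t l ^ 2)) := by gcongr; linarith
      _ = lam ^ 5 * Λ ^ 2 * (t ^ 2 * max t l ^ 2) := by ring
      _ ≤ _ := by gcongr <;> [linarith; norm_num]
  have w : ∀ (T : Finset ℕ) (f : ℕ → ℝ) (X U : ℝ), 0 ≤ U → ∑ k ∈ T, M.dz m a k ≤ X →
      (∀ k ∈ T, f k ≤ U) → ∑ k ∈ T, M.dz m a k * f k ≤ X * U := fun T f X U U0 hX hf =>
    (sum_le_sum fun k hk => mul_le_mul_of_nonneg_left (hf k hk) (G.dz_nonneg k)).trans
      (by rw [← sum_mul]; exact mul_le_mul_of_nonneg_right hX U0)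
  have p : 0 ≤ t * (t * (6 * S.C * Λ * max t l) ^ 2) := by positivity
  refine ⟨le_trans ?_ fin, fun k hk => le_trans ?_ fin, le_trans ?_ fin⟩
  · have := mul_le_mul_of_nonneg_left (w _ _ _ _ (sq_nonneg _) (K.mass ht h0 h1 h2 h3)
      fun k hk => v k k le_rfl (mem_Ico.1 hk).2.le) t0.le
    nlinarith [mul_le_mul_of_nonneg_right (show 1 ≤ 4 * lam * (6 * S.C) by nlinarith) p]
  · have := mul_le_mul_of_nonneg_left (w _ _ _ _ (sq_nonneg _)
      ((sum_range_dz G k).trans (K.z_le ht h0 h1 h2 h3 hk.le))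
      fun y hy => v y k (mem_range.1 hy).le hk.le) t0.le
    nlinarith [mul_le_mul_of_nonneg_right (show 6 * S.C ≤ 4 * lam * (6 * S.C) by nlinarith) p]
  · refine (w _ _ _ (4 * lam * (6 * S.C * t) * (6 * S.C * Λ * max t l) ^ 2) (by positivity)
      (K.mass ht h0 h1 h2 h3) fun k hk => ?_).trans_eq (by ring)
    have := K.z_le ht h0 h1 h2 h3 (mem_Ico.1 hk).2.le
    have := u k (mem_Ico.1 hk).2.le
    have := G.z_nonneg k
    gcongr

theorem x_le {k : ℕ} (hk : β / 2 ≤ k) : t / (6 * S.C ^ 3) ≤ M.z k := by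
  have F := K.fn
  have C0 := F.C0
  have i0 := F.i0
  have i1 := F.i1
  have e : (β : ℝ) ≤ 3 * (β / 2 : ℕ) := by exact_mod_cast (by omega : β ≤ 3 * (β / 2))
  refine le_trans ?_ (F.leg.zm hk)
  rw [div_le_iff₀' (by positivity), ht]
  nlinarith [mul_le_mul_of_nonneg_left (F.z_lo (k := β / 2) (by omega) (by omega)) C0.le,
    mul_le_mul_of_nonneg_left (mul_le_mul_of_nonneg_right e F.v0.le) C0.le]

theorem fl {i : ℕ} (hi : β / 2 ≤ i) (hi' : i < S.Jp) :
    S.ms t * S.v / (36 * S.C ^ 5 * S.F) ≤ M.H (i + 1) - M.H i := by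
  have F := K.fn
  have C0 := F.C0
  have C1 := F.C1
  have F0 := F.F0
  have v0 := F.v0
  have i0 := F.i0
  have i1 := F.i1
  have e : (β : ℝ) ≤ 3 * (β / 2 : ℕ) := by exact_mod_cast (by omega : β ≤ 3 * (β / 2))
  have e1 : t ≤ 3 * S.C ^ 2 * M.s i := by
    rw [ht]
    nlinarith [mul_le_mul_of_nonneg_left ((F.s_mem (k := β / 2) (by omega)).1.trans
      (mul_le_mul_of_nonneg_left (F.sm hi) C0.le)) C0.le,
      mul_le_mul_of_nonneg_left (mul_le_mul_of_nonneg_right e v0.le) C0.le]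
  have e2 := (F.msm e1).trans (F.toCl.ms_mul (F.s_nonneg i) (by nlinarith))
  refine le_trans ?_ (F.flr i (by omega) hi')
  calc _ ≤ 4 * (3 * S.C ^ 2) ^ 2 * S.ms (M.s i) * S.v / (36 * S.C ^ 5 * S.F) := by gcongr
    _ = _ := by field_simp; ring

theorem fl' {i : ℕ} (hi : β / 2 ≤ i) (hi' : i < β') :
    t / (6 * S.C ^ 3) * (S.ms t * S.v / (36 * S.C ^ 5 * S.F)) ≤ M.z i * (M.H (i + 1) - M.H i) := by
  have C0 := K.fn.C0
  have F0 := K.fn.F0
  have v0 := K.fn.v0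
  have i3 := K.fn.i3
  have s0 := K.fn.ms_pos (K.t0 ht h0 h1 h2 h3).le
  exact mul_le_mul (K.x_le ht h0 h1 h2 h3 hi) (K.fl ht h0 h1 h2 h3 hi (by omega)) (by positivity)
    (K.lg.z_nonneg i)

/-- the majorant of a dyadic block -/
theorem mjd : ∃ (W : ℕ → ℝ) (σ cm R : ℝ),
    Mj M m a (M.dz m a) W σ cm (t / (6 * S.C ^ 3)) R (β / 2) (β' - 1) D ∧
    bb D m R cm (t / (6 * S.C ^ 3)) ≤ lam ^ 16 * Λ * (S.w3 t * max t l) := by
  have F := K.fn
  have G := K.lg
  have C0 := F.C0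
  have C1 := F.C1
  have F0 := F.F0
  have v0 := F.v0
  have n1 := F.n1
  have Cl := K.Cl
  have l0 := K.l0
  have L1 := K.L1
  have t0 := K.t0 ht h0 h1 h2 h3
  have i0 := F.i0
  have i1 := F.i1
  have i3 := F.i3
  have i4 := F.i4
  have s0 := F.ms_pos t0.le
  have w0 := F.w3_pos t0
  have m0 : 0 < max t l := lt_max_of_lt_left t0
  have H := Mj.unif (M := M) (m := m) (a := a) (c := M.dz m a) (j0 := β / 2) (N := β' - 1) (D := D)
    (x := t / (6 * S.C ^ 3)) (cm := S.C * S.v) (ρ := 6 * S.C * Λ * max t l) (by positivity)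
    (by positivity) (by omega) (by omega) (fun i a b => K.floor (by omega) (by omega))
    (fun i a b => K.fl' ht h0 h1 h2 h3 a (by omega)) (K.Phi_D (by omega) (by omega))
    (fun k _ _ => G.dz_nonneg k) (by positivity)
    (fun k a b => K.dz_le ht h0 h1 h2 h3 a (by omega)) (by positivity)
    (K.x_le ht h0 h1 h2 h3 le_rfl)
    ((K.rb_le (by omega)).trans (K.mx_le ht h0 h1 h2 h3 (by omega)))
  refine ⟨_, _, _, _, H, ?_⟩
  have R0 := H.R0 G
  have e1 : S.C * S.v / (t / (6 * S.C ^ 3) * (S.ms t * S.v / (36 * S.C ^ 5 * S.F))) *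
      (6 * S.C * Λ * max t l) / S.n = 1296 * (S.C ^ 10 * Λ * (S.w3 t * max t l)) := by
    rw [Sc.w3]; field_simp; ring
  have e2 := (div_le_div_of_nonneg_left R0 (by positivity) F.nm).trans_eq e1
  have a2 : 1 / (S.n : ℝ) ≤ S.w3 t * max t l := by
    calc 1 / (S.n : ℝ) = 1 / (S.n * t * 1) * t := by field_simp
      _ ≤ S.F / (S.n * t * S.ms t) * max t l := by
          gcongr
          exacts [F.F1, F.ms_le_one t, le_max_left _ _]
  have Q0 : 0 < S.w3 t * max t l := by positivity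
  generalize S.w3 t * max t l = Q at *
  generalize S.C * S.v / (t / (6 * S.C ^ 3) * (S.ms t * S.v / (36 * S.C ^ 5 * S.F))) *
      (6 * S.C * Λ * max t l) = R at *
  have e3 : S.C * S.v / (t / (6 * S.C ^ 3)) ≤ 36 * (S.C ^ 10 * Λ * Q) := by
    have a1 : S.v ≤ 6 * S.C * t / S.n := by
      rw [le_div_iff₀ (by positivity)]
      exact K.vn.trans (K.z_le ht h0 h1 h2 h3 (Nat.zero_le _))
    calc _ ≤ S.C * (6 * S.C * t / S.n) / (t / (6 * S.C ^ 3)) := by gcongr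
      _ = 36 * (S.C ^ 5 * 1 * (1 / S.n)) := by field_simp; ring
      _ ≤ _ := by gcongr; norm_num
  have e4 : S.C ^ 10 * Λ * Q ≤ lam ^ 10 * Λ * Q := by gcongr
  have Z0 : 0 ≤ lam ^ 10 * Λ * Q := by positivity
  have Dl := K.Dl
  have p0 : 0 ≤ R / m := by positivity
  have l2 : 10 ^ 6 ≤ lam ^ 2 := by nlinarith
  calc _ = (D + 2) * (2 * ((1 + D) * (R / m)) + S.C * S.v / (t / (6 * S.C ^ 3))) := by
        rw [bb]; ring
    _ ≤ lam ^ 2 * (2 * (lam ^ 2 * (1296 * (lam ^ 10 * Λ * Q))) +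
          lam ^ 2 * (lam ^ 10 * Λ * Q)) := by
        refine mul_le_mul Dl (add_le_add (mul_le_mul_of_nonneg_left (mul_le_mul (by linarith)
          (by linarith) p0 (by positivity)) zero_le_two) ?_) (by positivity) (by positivity)
        nlinarith
    _ = 2593 * (lam ^ 14 * Λ * Q) := by ring
    _ ≤ lam ^ 2 * (lam ^ 14 * Λ * Q) := by gcongr; linarith
    _ = _ := by ring

/-- Riccati bounds -/
theorem ric : t * ∑ k ∈ Ico β β', M.dz m a k * vP M m a k k ≤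
      lam ^ 24 * Λ ^ 2 * (S.w3 t * max t l) ∧
    (∀ k ∈ Ico β β', t * ∑ y ∈ range k, M.dz m a y * vP M m a y k ≤
      lam ^ 24 * Λ ^ 2 * (S.w3 t * max t l)) ∧
    (16 + 4 * lam) * ∑ k ∈ Ico β β', M.dz m a k * aM M m a k ≤
      lam ^ 24 * Λ ^ 2 * (S.w3 t * max t l) := by
  have F := K.fn
  have G := K.lg
  have C0 := F.C0
  have C1 := F.C1
  have F0 := F.F0
  have v0 := F.v0
  have n1 := F.n1
  have Cl := K.Cl
  have l0 := K.l0
  have L1 := K.L1
  have t0 := K.t0 ht h0 h1 h2 h3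
  have i0 := F.i0
  have i1 := F.i1
  have i3 := F.i3
  have i4 := F.i4
  have s0 := F.ms_pos t0.le
  have w0 := F.w3_pos t0
  have m0 : 0 < max t l := lt_max_of_lt_left t0
  obtain ⟨W, σ, cm, R, H, hY⟩ := K.mjd ht h0 h1 h2 h3
  have Y0 := H.bb_nn G
  have a1 := H.aa G
  have a2 := H.dia G
  have a3 := H.tc G
  have a4 := H.vv G
  have x0 := H.x0
  clear H
  generalize bb D m R cm (t / (6 * S.C ^ 3)) = Y at *
  have Z0 : 0 ≤ lam ^ 16 * Λ * (S.w3 t * max t l) := by positivity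
  have fin : ∀ {c : ℝ}, c ≤ 2 * lam ^ 7 → c * (lam ^ 16 * Λ * (S.w3 t * max t l)) ≤
      lam ^ 24 * Λ ^ 2 * (S.w3 t * max t l) := fun {c} hc => by
    calc _ ≤ lam * lam ^ 7 * (lam ^ 16 * Λ ^ 2 * (S.w3 t * max t l)) := by
          gcongr
          · exact hc.trans (by gcongr; linarith)
          · exact le_self_pow₀ L1 two_ne_zero
      _ = _ := by ring
  have c6 : 156 * S.C ^ 6 ≤ lam ^ 7 := by
    rw [pow_succ' lam 6]; gcongr; linarith
  have l7 : 1 ≤ lam ^ 7 := one_le_pow₀ (by linarith)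
  have c3 : S.C ^ 3 ≤ S.C ^ 6 := pow_le_pow_right₀ C1 (by norm_num)
  have sub : Ico β β' ⊆ Ioc (β / 2) (β' - 1) := fun k hk => by
    rw [mem_Ico] at hk; rw [mem_Ioc]; omega
  refine ⟨?_, fun k hk => ?_, ?_⟩
  · have := (mul_le_mul_of_nonneg_left (sum_le_sum_of_subset_of_nonneg sub fun k _ _ =>
      mul_nonneg (G.dz_nonneg k) (vP_nn k k)) x0.le).trans a2
    rw [div_mul_eq_mul_div, div_le_iff₀ (by positivity)] at this
    refine (this.trans ?_).trans (fin (c := 12 * S.C ^ 3) (by linarith [pow_pos C0 3]))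
    linarith [mul_le_mul_of_nonneg_left hY (show 0 ≤ 12 * S.C ^ 3 by positivity)]
  · obtain ⟨k0, k1⟩ := mem_Ico.1 hk
    have sb : Ico (β / 2 + 1) k ⊆ Ioc (β / 2) (β' - 1) := fun y hy => by
      rw [mem_Ico] at hy; rw [mem_Ioc]; omega
    have b4 : (β : ℝ) / 4 ≤ (k : ℝ) - (β / 2 + 1 : ℕ) := by
      have : β + 4 * (β / 2 + 1) ≤ 4 * k := by omega
      have : (β : ℝ) + 4 * (β / 2 + 1 : ℕ) ≤ 4 * k := by exact_mod_cast this
      linarith
    have β0 : (0 : ℝ) < β := by exact_mod_cast (by omega : 0 < β)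
    have lad := lad_of G (u := β / 2 + 1) (k := k) (by omega) (by omega) x0
      (K.x_le ht h0 h1 h2 h3 (by omega))
      (S := β / 4 * (t / (6 * S.C ^ 3) * (S.ms t * S.v / (36 * S.C ^ 5 * S.F)))) (by positivity)
      ((mul_le_mul_of_nonneg_right b4 (by positivity)).trans
        (Phi_ge (by omega) fun i a b => K.fl' ht h0 h1 h2 h3 (by omega) (by omega)))
      (μ := β / 4 * (S.v / S.C)) (by positivity) (by
        rw [sum_Ico_dz G (by omega)]
        refine le_trans (mul_le_mul_of_nonneg_right (b4.trans_eq ?_) (by positivity))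
          (F.toCl.z_tel (i := β / 2) (j := k - 1) (by omega) (by omega) (by omega)).1
        rw [Nat.cast_sub (by omega)]; push_cast; ring)
      (X := 6 * S.C * t) ((sum_range_dz G _).trans (K.z_le ht h0 h1 h2 h3 (by omega)))
      (T := lam ^ 16 * Λ * (S.w3 t * max t l) / (t / (6 * S.C ^ 3)))
      (by
        rw [le_div_iff₀' x0]
        exact (mul_le_mul_of_nonneg_left (sum_le_sum_of_subset_of_nonneg sb fun y _ _ =>
          mul_nonneg (G.dz_nonneg y) (tcM_nn y)) x0.le).trans (a3.trans hY))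
      (by
        rw [le_div_iff₀' x0]
        exact (mul_le_mul_of_nonneg_left (sum_le_sum_of_subset_of_nonneg sb fun y _ _ =>
          mul_nonneg (G.dz_nonneg y) (vvM_nn y)) x0.le).trans (a4.trans hY))
    have nm := F.nm
    have rk := (K.rb_le (k := k) (by omega)).trans (K.mx_le ht h0 h1 h2 h3 k1.le)
    refine (mul_le_mul_of_nonneg_left lad t0.le).trans (le_trans ?_ (fin (c := 1 + 156 * S.C ^ 6)
      (by linarith)))
    have c14 : 186624 * S.C ^ 14 ≤ lam ^ 16 := by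
      rw [show lam ^ 16 = lam ^ 2 * lam ^ 14 by ring]; gcongr; nlinarith
    calc _ ≤ t * (6 * S.C * t * (6 * S.C * Λ * max t l / (t / (6 * S.C ^ 3) * (β / 4 *
          (t / (6 * S.C ^ 3) * (S.ms t * S.v / (36 * S.C ^ 5 * S.F))) * S.n))) +
          (2 + 6 * S.C * t / (β / 4 * (S.v / S.C))) *
            (lam ^ 16 * Λ * (S.w3 t * max t l) / (t / (6 * S.C ^ 3)))) := by gcongr
      _ = 186624 * S.C ^ 14 * Λ * (S.w3 t * max t l) +
          (12 * S.C ^ 3 + 144 * S.C ^ 6) * (lam ^ 16 * Λ * (S.w3 t * max t l)) := by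
          have e : S.v = t / (S.C * β) := by rw [ht]; field_simp
          rw [e, Sc.w3]
          field_simp
          ring
      _ ≤ lam ^ 16 * Λ * (S.w3 t * max t l) +
          (12 * S.C ^ 6 + 144 * S.C ^ 6) * (lam ^ 16 * Λ * (S.w3 t * max t l)) := by gcongr
      _ = _ := by ring
  · refine (mul_le_mul_of_nonneg_left ((sum_le_sum_of_subset_of_nonneg sub fun k _ _ =>
      mul_nonneg (G.dz_nonneg k) (aM_nonneg G k)).trans (a1.trans hY)) (by positivity)).trans (fin ?_)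
    have := pow_le_pow_right₀ (by linarith : 1 ≤ lam) (by norm_num : 2 ≤ 7)
    nlinarith

end dy

end Kc

/-! ### the blocks -/

/-- number of dyadic blocks; index of the top block -/
def nI (J b : ℕ) : ℕ := Nat.log 2 (b / J) + 1
/-- the block of the node `k` -/
def lv (J b k : ℕ) : ℕ := if k < b then Nat.log 2 (k / J) else nI J b
/-- the level of the block `i` -/
def tt (S : Sc) (J b i : ℕ) : ℝ := if i < nI J b then S.C * ((2 ^ i * J : ℕ) * S.v) else S.C ^ 3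

variable {J b : ℕ}

theorem lv_lt {k : ℕ} (h : k < b) : lv J b k < nI J b := by
  rw [lv, if_pos h]
  exact Nat.lt_succ_of_le (Nat.log_mono_right (Nat.div_le_div_right h.le))

theorem lv_ge {k : ℕ} (h : b ≤ k) : lv J b k = nI J b := if_neg (by omega)

theorem lv_le (k : ℕ) : lv J b k ≤ nI J b :=
  (lt_or_ge k b).elim (fun h => (lv_lt h).le) fun h => (lv_ge h).le

theorem lv_mono : Monotone (lv J b) := fun i j h => by
  rcases lt_or_ge j b with c | c
  · rw [lv, lv, if_pos c, if_pos (h.trans_lt c)]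
    exact Nat.log_mono_right (Nat.div_le_div_right h)
  · rw [lv_ge c]; exact lv_le i

theorem lv_mem (hJ : 0 < J) {k : ℕ} (h : J ≤ k) (hk : k < b) :
    2 ^ lv J b k * J ≤ k ∧ k < 2 * (2 ^ lv J b k * J) := by
  rw [lv, if_pos hk]
  have p : k / J ≠ 0 := (Nat.div_pos h hJ).ne'
  refine ⟨(Nat.le_div_iff_mul_le hJ).1 (Nat.pow_log_le_self 2 p), ?_⟩
  rw [← mul_assoc, ← pow_succ']
  exact (Nat.div_lt_iff_lt_mul hJ).1 (Nat.lt_pow_succ_log_self one_lt_two _)

theorem bk_sub (hJ : 0 < J) {i : ℕ} (hi : i < nI J b) :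
    bk M J (lv J b) i ⊆ Ico (2 ^ i * J) (min (2 * (2 ^ i * J)) b) := fun k hk => by
  obtain ⟨h1, rfl⟩ := mem_filter.1 hk
  have c : k < b := by
    by_contra c
    rw [lv_ge (not_lt.1 c)] at hi
    exact lt_irrefl _ hi
  have := lv_mem hJ (mem_Ico.1 h1).1 c
  exact mem_Ico.2 ⟨this.1, lt_min this.2 c⟩

theorem bk_top : bk M J (lv J b) (nI J b) ⊆ Ico b M.N := fun k hk => by
  obtain ⟨h1, h2⟩ := mem_filter.1 hk
  exact mem_Ico.2 ⟨not_lt.1 fun c => (lv_lt c).ne h2, (mem_Ico.1 h1).2⟩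

theorem bk_emp {i : ℕ} (hi : nI J b < i) : bk M J (lv J b) i = ∅ :=
  filter_eq_empty_iff.2 fun k _ e => (lv_le (J := J) (b := b) k).not_gt (e ▸ hi)

theorem tt_lt {i : ℕ} (hi : i < nI J b) : tt S J b i = S.C * ((2 ^ i * J : ℕ) * S.v) := if_pos hi

theorem tt_ge {i : ℕ} (hi : nI J b ≤ i) : tt S J b i = S.C ^ 3 := if_neg (by omega)

theorem sum_above (G : Lg M m a) {T : Finset ℕ} {N : ℕ} (h : ∀ k ∈ T, N < k) :
    ∑ k ∈ T, M.dz m a k ≤ 1 - M.z N := by
  obtain ⟨j, hj⟩ := T.bddAbove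
  refine (sum_le_sum_of_subset_of_nonneg (t := Ioc N (max N j)) (fun k hk => mem_Ioc.2
    ⟨h k hk, le_max_of_le_right (hj hk)⟩) fun k _ _ => G.dz_nonneg k).trans ?_
  rw [sum_dz G.toLeg (le_max_left _ _)]
  linarith [G.z1 (max N j)]

/-- good nodes `S₀`, weight `1 - z N` above `N` -/
theorem split_top (G : Lg M m a) {T S₀ : Finset ℕ} {N : ℕ} {f g : ℕ → ℝ} {c : ℝ} (c0 : 0 ≤ c)
    (g0 : ∀ k, 0 ≤ g k) (h1 : ∀ k ∈ T, k ≤ N → k ∈ S₀ ∧ f k ≤ g k) (h2 : ∀ k ∈ T, N < k → f k ≤ c) :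
    ∑ k ∈ T, M.dz m a k * f k ≤ ∑ k ∈ S₀, M.dz m a k * g k + c * (1 - M.z N) := by
  rw [← sum_filter_add_sum_filter_not T (· ≤ N)]
  refine add_le_add ((sum_le_sum fun k hk => mul_le_mul_of_nonneg_left
    (h1 k (mem_filter.1 hk).1 (mem_filter.1 hk).2).2 (G.dz_nonneg k)).trans
    (sum_le_sum_of_subset_of_nonneg (fun k hk => (h1 k (mem_filter.1 hk).1 (mem_filter.1 hk).2).1)
      fun k _ _ => mul_nonneg (G.dz_nonneg k) (g0 k))) ((sum_le_sum fun k hk =>
    mul_le_mul_of_nonneg_left (h2 k (mem_filter.1 hk).1 (not_le.1 (mem_filter.1 hk).2))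
      (G.dz_nonneg k)).trans ?_)
  rw [← sum_mul, mul_comm]
  exact mul_le_mul_of_nonneg_left (sum_above G fun k hk => not_le.1 (mem_filter.1 hk).2) c0

theorem Top.lad' (G : Lg M m a) {N : ℕ} {τ ε : ℝ} (T : Top M m a b N τ ε) {k : ℕ} (hk : b ≤ k) :
    ∑ y ∈ range k, M.dz m a y * vP M m a y k ≤ τ + ε := by
  have e0 : 0 ≤ ε := le_trans (by linarith [G.z1 N]) T.rest
  rcases le_total k (N + 1) with c | c
  · linarith [T.lad k hk c]
  have := split_top G (T := range k) (S₀ := range (N + 1)) (N := N) (f := fun y => vP M m a y k)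
    (g := fun y => vP M m a y (N + 1)) zero_le_one (fun _ => vP_nn _ _)
    (fun y _ h => ⟨mem_range.2 (by omega), vP_anti (by omega) c⟩)
    fun y hy _ => vP_le_one G.m0 (mem_range.1 hy).le
  linarith [T.lad (N + 1) T.le le_rfl, T.rest]

namespace Kc

variable {lam l Λ : ℝ} {D : ℕ} (K : Kc lam l Λ D S M m a) (hJ : 4 * S.jl ≤ J) (hb : b < S.J)
include K hJ hb

theorem J0 : 0 < J := by have := K.fn.i0; have := K.fn.i1; omega

theorem tt_pos (i : ℕ) : 0 < tt S J b i := by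
  have := K.J0 hJ hb
  have := K.fn.C0
  have := K.fn.v0
  unfold tt
  split_ifs <;> positivity

/-- a dyadic block is empty or an interval of `section dy` -/
theorem cases {i : ℕ} (hi : i < nI J b) : bk M J (lv J b) i = ∅ ∨ (4 * S.jl ≤ 2 ^ i * J ∧
    2 ^ i * J < min (2 * (2 ^ i * J)) b ∧ min (2 * (2 ^ i * J)) b ≤ 2 * (2 ^ i * J) ∧
    min (2 * (2 ^ i * J)) b < S.J) := by
  rcases (bk M J (lv J b) i).eq_empty_or_nonempty with e | ⟨k, hk⟩
  · exact .inl e
  have := mem_Ico.1 (bk_sub (K.J0 hJ hb) hi hk)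
  have : J ≤ 2 ^ i * J := Nat.le_mul_of_pos_left J (by positivity)
  exact .inr ⟨by omega, by omega, min_le_left _ _, by omega⟩

/-- tilts against levels -/
theorem z_tt {k : ℕ} (h : J ≤ k) (hk : k < b) : tt S J b (lv J b k) / (6 * S.C ^ 3) ≤ M.z k ∧
    M.z (k + 1) ≤ 6 * S.C * tt S J b (lv J b k) := by
  have e := lv_mem (K.J0 hJ hb) h hk
  have : J ≤ 2 ^ lv J b k * J := Nat.le_mul_of_pos_left J (by positivity)
  exact ⟨K.x_le (tt_lt (lv_lt hk)) (β' := k + 1) (by omega) (by omega) (by omega) (by omega)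
    (by omega), K.z_le (tt_lt (lv_lt hk)) (β' := min (k + 1) b) (by omega) (by omega) (by omega)
      (by omega) (by omega)⟩

/-- **block data on the class** -/
theorem bp {N : ℕ} {τ ε : ℝ} (T : Top M m a b N τ ε) {al : ℕ → ℝ} (al0 : ∀ i, 0 ≤ al i)
    (hal : ∀ i < nI J b, lam ^ 24 * Λ ^ 2 * (S.w3 (tt S J b i) * max (tt S J b i) l) ≤ al i ^ 2 ∨
      lam ^ 24 * Λ ^ 2 * (tt S J b i ^ 2 * max (tt S J b i) l ^ 2) ≤ al i ^ 2)
    (hT : lam ^ 3 * (τ + ε) ≤ al (nI J b) ^ 2) :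
    ∃ A, BP M m a J (nI J b + 1) (lv J b) (tt S J b) al A := by
  classical
  have G := K.lg
  have J0 := K.J0 hJ hb
  have l0 := K.l0
  have O0 := Om_nonneg G (Ico J M.N)
  have O1 := K.Om_le J
  have e0 : 0 ≤ ε := le_trans (by linarith [G.z1 N]) T.rest
  have τ0 : 0 ≤ τ := (sum_nonneg fun k _ => mul_nonneg (G.dz_nonneg k) (vP_nn k k)).trans T.dia
  have hT' : (16 + 4 * lam) * (τ + ε) ≤ al (nI J b) ^ 2 :=
    (mul_le_mul_of_nonneg_right (by nlinarith [mul_le_mul l0 l0 (by norm_num) (by linarith)])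
      (by positivity)).trans hT
  have C1 := K.fn.C1
  have hT'' : S.C ^ 3 * (τ + ε) ≤ al (nI J b) ^ 2 :=
    (mul_le_mul_of_nonneg_right (pow_le_pow_left₀ (by linarith) K.Cl 3) (by positivity)).trans hT
  have Tl := T.le
  set gd := fun i => lam ^ 24 * Λ ^ 2 * (S.w3 (tt S J b i) * max (tt S J b i) l) ≤ al i ^ 2
  set cr := fun k => decide ((k < b ∧ ¬gd (lv J b k)) ∨ N < k) with hcr
  set u := fun k => if k < b then (Λ * max (M.z k) l) ^ 2 else 1 with hu
  have sb : ∀ {i}, i < nI J b → ∀ {f : ℕ → ℝ}, (∀ k, 0 ≤ f k) → ∑ k ∈ bk M J (lv J b) i,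
      M.dz m a k * f k ≤ ∑ k ∈ Ico (2 ^ i * J) (min (2 * (2 ^ i * J)) b), M.dz m a k * f k :=
    fun hi f hf => sum_le_sum_of_subset_of_nonneg (bk_sub J0 hi) fun k _ _ =>
      mul_nonneg (G.dz_nonneg k) (hf k)
  refine ⟨AX M m a J cr u, lv_mono, fun k _ _ => Nat.lt_succ_of_le (lv_le k), K.tt_pos hJ hb, al0,
    fun i => ?_, fun i => ?_, fun k k0 k1 _ => ?_, addP G cr (fun k => ?_) fun k _ hk _ => ⟨0, ?_⟩,
    fun i => ?_⟩
  · rcases lt_or_ge i (nI J b) with hi | hi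
    · rcases K.cases hJ hb hi with e | ⟨c0, c1, c2, c3⟩
      · rw [e, sum_empty]; exact (K.tt_pos hJ hb i).le
      · exact (sum_le_sum_of_subset_of_nonneg (bk_sub J0 hi) fun k _ _ => G.dz_nonneg k).trans
          (K.mass (tt_lt hi) c0 c1 c2 c3)
    · rw [tt_ge hi]
      linarith [G.sum_dz_le (bk M J (lv J b) i), G.a0, one_le_pow₀ (n := 3) C1]
  · rcases lt_trichotomy i (nI J b) with hi | rfl | hi
    · rcases K.cases hJ hb hi with e | ⟨c0, c1, c2, c3⟩
      · rw [e, sum_empty, mul_zero]; positivity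
      refine (mul_le_mul_of_nonneg_left (sb hi fun k => vP_nn k k) (K.tt_pos hJ hb i).le).trans ?_
      exact (hal i hi).elim (K.ric (tt_lt hi) c0 c1 c2 c3).1.trans
        (K.cru (tt_lt hi) c0 c1 c2 c3).1.trans
    · have := split_top G (T := bk M J (lv J b) (nI J b)) (S₀ := Icc b N) (N := N)
        (f := fun k => vP M m a k k) zero_le_one (fun k => vP_nn k k)
        (fun k hk h => ⟨mem_Icc.2 ⟨(mem_Ico.1 (bk_top hk)).1, h⟩, le_rfl⟩)
        fun k _ _ => vP_le_one G.m0 le_rfl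
      rw [tt_ge le_rfl]
      exact (mul_le_mul_of_nonneg_left (by linarith [T.dia, T.rest]) (by positivity)).trans hT''
    · rw [bk_emp hi, sum_empty, mul_zero]; positivity
  · rcases lt_or_ge k b with c | c
    · have hi := lv_lt (J := J) c
      have hk : k ∈ bk M J (lv J b) (lv J b k) := mem_filter.2 ⟨mem_Ico.2 ⟨k0, k1⟩, rfl⟩
      rcases K.cases hJ hb hi with e | ⟨c0, c1, c2, c3⟩
      · rw [e] at hk; exact absurd hk (notMem_empty k)
      exact (hal _ hi).elim ((K.ric (tt_lt hi) c0 c1 c2 c3).2.1 k (bk_sub J0 hi hk)).trans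
        ((K.cru (tt_lt hi) c0 c1 c2 c3).2.1 k (mem_Ico.1 (bk_sub J0 hi hk)).2).trans
    · rw [lv_ge c, tt_ge le_rfl]
      exact (mul_le_mul_of_nonneg_left (T.lad' G c) (by positivity)).trans hT''
  · simp only [hu]
    split_ifs <;> positivity
  · simp only [hu, sub_zero]
    split_ifs
    · exact K.lo k hk.le
    · exact E2_le (fun r hr => by rw [← sq_abs]; exact pow_le_one₀ (abs_nonneg r) hr) k
  · rcases lt_trichotomy i (nI J b) with hi | rfl | hi
    · rcases K.cases hJ hb hi with e | ⟨c0, c1, c2, c3⟩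
      · rw [e, sum_empty]; positivity
      have mem : ∀ k ∈ bk M J (lv J b) i, lv J b k = i ∧ k < b := fun k hk =>
        ⟨(mem_filter.1 hk).2, (mem_Ico.1 (bk_sub J0 hi hk)).2.trans_le (min_le_right _ _)⟩
      by_cases g : gd i
      · refine le_trans ?_ ((K.ric (tt_lt hi) c0 c1 c2 c3).2.2.trans g)
        refine le_trans ?_ (mul_le_mul_of_nonneg_left (sb hi (aM_nonneg G)) (by linarith))
        rw [mul_sum]
        refine sum_le_sum fun k hk => ?_
        obtain ⟨e, c⟩ := mem k hk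
        rw [AX, if_neg (by
          simp only [hcr, decide_eq_true_eq, not_or]
          exact ⟨fun r => r.2 (e ▸ g), by omega⟩), mul_left_comm]
        exact mul_le_mul_of_nonneg_right (by linarith) (mul_nonneg (G.dz_nonneg k) (aM_nonneg G k))
      · refine le_trans ?_ ((K.cru (tt_lt hi) c0 c1 c2 c3).2.2.trans ((hal i hi).resolve_left g))
        refine le_trans (sum_le_sum fun k hk => ?_) (sb hi fun k => by
          have := G.z_nonneg k; positivity)
        obtain ⟨e, c⟩ := mem k hk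
        have := G.z_nonneg k
        have := G.dz_nonneg k
        rw [AX, if_pos (by simp only [hcr, e, decide_eq_true_eq]; exact .inl ⟨c, g⟩), hu]
        simp only [if_pos c]
        gcongr
    · have := split_top G (T := bk M J (lv J b) (nI J b)) (S₀ := Icc b N) (N := N)
        (f := AX M m a J cr u) (g := fun k => (16 + 4 * lam) * aM M m a k) (c := 16 + 4 * lam)
        (by linarith) (fun k => mul_nonneg (by linarith) (aM_nonneg G k))
        (fun k hk h => ⟨mem_Icc.2 ⟨(mem_Ico.1 (bk_top hk)).1, h⟩, by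
          have := (mem_Ico.1 (bk_top hk)).1
          rw [AX, if_neg (by simp only [hcr, decide_eq_true_eq]; omega)]
          exact mul_le_mul_of_nonneg_right (by linarith) (aM_nonneg G k)⟩)
        fun k _ h => by
          rw [AX, if_pos (by simp only [hcr, decide_eq_true_eq]; exact .inr h), hu]
          simp only [if_neg (show ¬k < b by omega), mul_one]
          nlinarith [G.z1 k, G.z_nonneg k]
      simp only [mul_left_comm _ (16 + 4 * lam), ← mul_sum] at this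
      nlinarith [T.aa, T.rest]
    · rw [bk_emp hi, sum_empty]; positivity

/-- **the clock of the blocks** -/
theorem clk {ρ e : ℕ → ℝ} {K₁ : ℝ} (hρ : Rf M ρ) (e0 : ∀ k, 0 ≤ e k) (K0 : 0 ≤ K₁)
    (h : ∀ k, J ≤ k → k < b → S.C * ρ k + M.H k ≤ K₁ * max (M.z k) l) (i : ℕ) :
    ∑ k ∈ bk M J (lv J b) i, dvP M m a ρ e J k ≤ (if i = lv J b J then e J else 0) +
      if i < nI J b then 6 * S.C * (K₁ + 2) * max (tt S J b i) l else S.C + M.H M.N + 2 := by
  have G := K.lg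
  have F := K.fn
  have C1 := F.C1
  have i3 := F.i3
  have i4 := F.i4
  have i0 := F.i0
  have i1 := F.i1
  have HN := H_nonneg G.toLeg M.N
  have key : ∀ b' c, b' < M.N → (∀ k ∈ bk M J (lv J b) i, k ≤ b') → 0 ≤ c →
      (J ≤ b' → S.C * ρ b' + M.H b' + 2 * M.z b' ≤ c) →
      ∑ k ∈ bk M J (lv J b) i, dvP M m a ρ e J k ≤ (if i = lv J b J then e J else 0) + c := by
    intro b' c h1 h2 c0 h3
    rw [← sum_filter_add_sum_filter_not _ (· = J)]
    refine add_le_add ?_ ?_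
    · split_ifs with r
      · refine (sum_le_sum_of_subset_of_nonneg (t := {J}) (fun k hk => mem_singleton.2
          (mem_filter.1 hk).2) fun k hk _ => ?_).trans_eq ?_
        · rw [mem_singleton.1 hk, dvP, if_pos le_rfl]; exact e0 J
        · rw [sum_singleton, dvP, if_pos le_rfl]
      · rw [filter_eq_empty_iff.2, sum_empty]
        rintro k hk rfl
        exact r (mem_filter.1 hk).2.symm
    have sb : (bk M J (lv J b) i).filter (¬· = J) ⊆ Ioc J b' := fun k hk => by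
      have a1 := mem_filter.1 hk
      have a2 := (mem_Ico.1 (mem_filter.1 a1.1).1).1
      exact mem_Ioc.2 ⟨by omega, h2 k a1.1⟩
    refine (sum_le_sum_of_subset_of_nonneg sb fun k hk _ =>
      dvP_nn G hρ (e0 k) ((mem_Ioc.1 hk).2.trans_lt h1)).trans ?_
    rcases lt_or_ge b' J with r | r
    · rw [Ioc_eq_empty (by omega), sum_empty]; exact c0
    refine (sum_dvP G le_rfl r).trans (le_trans ?_ (h3 r))
    have e1 : tp M m b' = tp M m J := by
      rw [tp, tp, F.toCl.d_eq (by omega) h1.le, F.toCl.d_eq (by omega) (by omega)]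
    have e2 := mul_le_mul_of_nonneg_right (((tp_mem (m := m) G.toLeg b').2.1.trans
      (d_le_b G.toLeg h1.le)).trans F.b1) (Rf_nn hρ b' h1)
    have e3 := mul_nonneg (tp_mem (m := m) G.toLeg J).1 (Rf_nn hρ J (by omega))
    linarith [H_nonneg G.toLeg J]
  rcases lt_or_ge i (nI J b) with hi | hi
  · rw [if_pos hi]
    have t0 := K.tt_pos hJ hb i
    have m0 : 0 < max (tt S J b i) l := lt_max_of_lt_left t0
    rcases K.cases hJ hb hi with e | ⟨c0, c1, c2, c3⟩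
    · exact key 0 _ (by omega) (by simp [e]) (by positivity) fun r => by omega
    refine key (min (2 * (2 ^ i * J)) b - 1) _ (by omega) (fun k hk => by
      have := (mem_Ico.1 (bk_sub (K.J0 hJ hb) hi hk)).2; omega) (by positivity) fun r => ?_
    have a2 := (K.z_le (tt_lt hi) c0 c1 c2 c3 (Nat.sub_le _ 1)).trans (mul_le_mul_of_nonneg_left
      (le_max_left (tt S J b i) l) (show 0 ≤ 6 * S.C by linarith))
    have a3 := mul_le_mul_of_nonneg_left (max_le a2 ((le_max_right _ l).trans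
      (le_mul_of_one_le_left m0.le (by linarith)))) K0
    linarith [h _ r (by omega)]
  · rw [if_neg hi.not_gt]
    refine key (M.N - 1) _ (by omega) (fun k hk => by
      have := (mem_Ico.1 (mem_filter.1 hk).1).2; omega) (by linarith) fun _ => ?_
    linarith [G.z1 (M.N - 1), G.Hm (Nat.sub_le M.N 1), mul_le_of_le_one_right F.C0.le
      (hρ.le (M.N - 1) (by omega))]

/-- the number of blocks -/
theorem nI_le : ((nI J b + 1 : ℕ) : ℝ) ≤ lam ^ 2 := by
  refine le_trans ?_ K.Dl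
  have F := K.fn
  have J0 := K.J0 hJ hb
  have i3 := F.i3
  have i4 := F.i4
  suffices h : b / J ≤ 2 ^ D by
    have := (Nat.log_mono_right (b := 2) h).trans_eq (Nat.log_pow one_lt_two D)
    exact_mod_cast (by unfold nI; omega : nI J b + 1 ≤ D + 2)
  rcases lt_or_ge b J with c | c
  · rw [Nat.div_eq_of_lt c]; exact Nat.zero_le _
  have e := (Phi_ge (by omega : S.jl ≤ b) fun i a b => K.floor a (by omega)).trans
    (K.Phi_D (by omega) (by omega))
  have := F.v0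
  have := F.n1
  have := F.F0
  have e' : ((b - S.jl : ℕ) : ℝ) ≤ ((2 ^ D : ℕ) : ℝ) := by
    rw [Nat.cast_sub (by omega)]; push_cast
    exact le_of_mul_le_mul_right e (by positivity)
  have := Nat.div_le_div_left (a := b) (show 4 ≤ J by have := F.i0; have := F.i1; omega) four_pos
  have := Nat.cast_le.1 e'
  omega

theorem tt_le (hJb : J ≤ b) (i : ℕ) : tt S J b i ≤ S.C ^ 3 := by
  have F := K.fn
  rcases lt_or_ge i (nI J b) with hi | hi
  swap
  · rw [tt_ge hi]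
  have e : 2 ^ i * J ≤ b := (Nat.le_div_iff_mul_le (K.J0 hJ hb)).1
    ((Nat.pow_le_pow_right two_pos (Nat.lt_succ_iff.1 hi)).trans
      (Nat.pow_log_le_self 2 (Nat.div_pos hJb (K.J0 hJ hb)).ne'))
  have e1 := (F.s_mem (k := 2 ^ i * J) (by omega)).1.trans (mul_le_mul_of_nonneg_left
    ((F.sm (show 2 ^ i * J ≤ S.Jp by have := F.i3; omega)).trans F.sT) F.C0.le)
  rw [tt_lt hi]
  nlinarith [mul_le_mul_of_nonneg_left e1 F.C0.le]

theorem tt_mono (hJb : J ≤ b) : Monotone (tt S J b) := fun i j h => by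
  rcases lt_or_ge j (nI J b) with hj | hj
  · rw [tt_lt hj, tt_lt (h.trans_lt hj)]
    have := K.fn.C0
    have := K.fn.v0
    gcongr
    norm_num
  · rw [tt_ge hj]; exact K.tt_le hJ hb hJb i


end Kc

/-- **the canonical sizes of the blocks**; `T` is the size of the top block -/
def alC (S : Sc) (J b : ℕ) (L l T : ℝ) (i : ℕ) : ℝ := if i < nI J b then
  √(L * min (S.w3 (tt S J b i) * max (tt S J b i) l) (tt S J b i ^ 2 * max (tt S J b i) l ^ 2))
  else √T

theorem alC_nn (L l T : ℝ) (i : ℕ) : 0 ≤ alC S J b L l T i := by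
  unfold alC; split_ifs <;> positivity

theorem alC_top {L l T : ℝ} (T0 : 0 ≤ T) {i : ℕ} (hi : nI J b ≤ i) : alC S J b L l T i ^ 2 = T := by
  rw [alC, if_neg (by omega), sq_sqrt T0]

namespace Kc

variable {lam l Λ : ℝ} {D : ℕ} (K : Kc lam l Λ D S M m a) (hJ : 4 * S.jl ≤ J) (hb : b < S.J)
include K hJ hb

theorem alC_lt {L T : ℝ} (L0 : 0 ≤ L) {i : ℕ} (hi : i < nI J b) : alC S J b L l T i ^ 2 = L *
    min (S.w3 (tt S J b i) * max (tt S J b i) l) (tt S J b i ^ 2 * max (tt S J b i) l ^ 2) := by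
  have t0 := K.tt_pos hJ hb i
  have := K.fn.w3_pos t0
  have : 0 < max (tt S J b i) l := lt_max_of_lt_left t0
  rw [alC, if_pos hi, sq_sqrt (by positivity)]

/-- both bounds (the first branch of `Pm.AlG`) -/
theorem alC_le {L T : ℝ} (L0 : 0 ≤ L) {i : ℕ} (hi : i < nI J b) :
    alC S J b L l T i ^ 2 ≤ L * S.F * (max (tt S J b i) l /
      (S.n * tt S J b i * S.ms (tt S J b i))) ∧
    alC S J b L l T i ^ 2 ≤ L * (tt S J b i ^ 2 * max (tt S J b i) l ^ 2) := by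
  rw [K.alC_lt hJ hb L0 hi]
  refine ⟨(mul_le_mul_of_nonneg_left (min_le_left _ _) L0).trans_eq ?_,
    mul_le_mul_of_nonneg_left (min_le_right _ _) L0⟩
  rw [Sc.w3]; ring

/-- **block data on the class, canonical sizes** -/
theorem bpC {N : ℕ} {τ ε L T : ℝ} (H : Top M m a b N τ ε) (hL : lam ^ 24 * Λ ^ 2 ≤ L)
    (hT : lam ^ 3 * (τ + ε) ≤ T) (T0 : 0 ≤ T) :
    ∃ A, BP M m a J (nI J b + 1) (lv J b) (tt S J b) (alC S J b L l T) A := by
  have L0 : 0 ≤ L := le_trans (by have := K.l0; positivity) hL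
  refine K.bp hJ hb H (alC_nn L l T) (fun i hi => ?_) (by rwa [alC_top T0 le_rfl])
  have t0 := K.tt_pos hJ hb i
  have := K.fn.w3_pos t0
  have : 0 < max (tt S J b i) l := lt_max_of_lt_left t0
  rw [K.alC_lt hJ hb L0 hi]
  exact (min_choice _ _).imp (fun e => by rw [e]; gcongr) fun e => by rw [e]; gcongr

end Kc

end Crest.Agent.T156.Alt.Lb24

end
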