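import Crest.Agent.T156.CDef_40
import Crest.Agent.T156.Gr_90
import Crest.Agent.T156.SiteC_94

/-!
# Row 156, block C: kit for the crude words (helper32)

The terms `tw f`, `tU f` are bounded graph by graph (`tw_le`, `tU_le`); bulk factor from the
envelopes (`bulk_le`), site factor (`site_le`, `site_odd`), weights (`w_const`, `w_lo`, `w_up`,
`w_lo_up`), in the value and in the test direction at once.
-/

set_option autoImplicit false
set_option linter.all false

noncomputable section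

namespace Crest.Agent.T156.Cas.Ck32

open MeasureTheory Real Set Filter Topology
open Crest.Agent.T157.E Crest.Agent.T157.Casc Crest.Agent.T157.SL
open Crest.Agent.T157.G1 (ov)
open Crest.ProbabilityR.SpinGlassDynamics (spin)
open Mul55 C40 G90 Nu87
open Wp52 (Br Br_one Br_nonneg Br_mul Br_add Br_le)

/-- letters with their edges -/
abbrev ZL (r : ℕ) : Type := List (Lt × (Fin r × Fin r))

section defs
variable (D : CD) {r : ℕ}

/-- the measure of the first pair -/
def mu (j : ℕ) : ℝ := D.dd (D.dx j) (if j ∈ D.up then |D.om j| else 0)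

/-- the (positive) law of the split matrix -/
def av (k : ℕ) (φ : SM (1 + k + 1) → ℝ) : ℝ := avt D.B (mu D) k φ

/-- the first pair -/
def mk (k : ℕ) : Fin (1 + k + 1) × Fin (1 + k + 1) := (old k 1, old k 0)

/-- the bulk integrand -/
def bk (Z : ZL r) (σ : SM r) (x : Fin r → Cube D.n) : ℝ :=
  (Z.map fun z => (lt D.n D.β D.M D.q D.cl z.1).1 (σ z.2.1 z.2.2) (x z.2.1) (x z.2.2)).prod

/-- the site integrand: `η` on every edge of `A` -/
def se (A : EL r) (σ : SM r) (x : Fin r → Bool) : ℝ :=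
  (A.map fun e => oE D.q (σ e.1 e.2) (x e.1) (x e.2)).prod

/-- the edges of the letters `a` -/
def ae (Z : ZL r) : EL r := (Z.filter fun z => z.1.2).map Prod.snd

/-- the site edges of `tw`: the marked pair counts in the test direction -/
def sa (k : ℕ) (Z : ZL (1 + k + 1)) : EL (1 + k + 1) :=
  match D.W with | none => ae Z | some _ => mk k :: ae Z

/-- bulk expectation -/
def TB (σ : SM r) (F : (Fin r → Cube D.n) → ℝ) : ℝ := TM (fun _ => 1) D.B 0 σ F

/-- site expectation -/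
def TS (σ : SM r) (F : (Fin r → Bool) → ℝ) : ℝ := TM (fun _ => 1) D.S 0 σ F

/-- the support of `av` -/
def Sup (k : ℕ) (σ : SM (1 + k + 1)) : Prop :=
  Rz D.B.length σ ∧ (D.W.isSome = true → σ (mk k).1 (mk k).2 ∈ D.up)

/-- every letter sits in its cell -/
def Cel (Z : ZL r) (σ : SM r) : Prop :=
  ∀ z ∈ Z, if z.1.1 = true then σ z.2.1 z.2.2 ∈ D.lo else D.J < σ z.2.1 z.2.2

/-- no loops -/
def Lf (Z : ZL r) : Prop := ∀ z ∈ Z, z.2.1 ≠ z.2.2

end defs

variable {D : CD} {τ0 : ℝ} {r k : ℕ}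

theorem lenB : D.B.length = D.K := List.length_map _

theorem lenS : D.S.length = D.B.length := opS_length.trans lenB.symm

theorem mk_ne (k : ℕ) : (mk k).1 ≠ (mk k).2 := fun h => by
  simpa [mk, old] using congrArg Fin.val h

/-! ### the frame -/

theorem eF_zip {A Ω : Type} (φ : A → ℕ → Ω → Ω → ℝ) (σ : SM r) (x : Fin r → Ω) :
    ∀ (U : List A) (E : EL r), eF (U.map φ) σ E x =
      ((U.zip E).map fun z => φ z.1 (σ z.2.1 z.2.2) (x z.2.1) (x z.2.2)).prod
  | [], _ => by simp [eF]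
  | _ :: _, [] => by simp [eF]
  | a :: U, e :: E => by
      rw [List.map_cons, eF, eF_zip φ σ x U E, List.zip_cons_cons, List.map_cons, List.prod_cons,
        mul_comm]

theorem eF_snoc {Ω : Type} (K : ℕ → Ω → Ω → ℝ) (σ : SM r) (x : Fin r → Ω) (e : Fin r × Fin r) :
    ∀ (U : List (ℕ → Ω → Ω → ℝ)) (E : EL r), U.length = E.length →
      eF (U ++ [K]) σ (E ++ [e]) x = K (σ e.1 e.2) (x e.1) (x e.2) * eF U σ E x
  | [], [], _ => by simp [eF]
  | [], _ :: _, h => by simp at h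
  | _ :: _, [], h => by simp at h
  | a :: U, b :: E, h => by
      rw [List.cons_append, List.cons_append, eF, eF, eF_snoc K σ x e U E (by simpa using h),
        mul_assoc]

theorem se_ae (σ : SM r) (x : Fin r → Bool) : ∀ Z : ZL r,
    (Z.map fun z => (lt D.n D.β D.M D.q D.cl z.1).2 (σ z.2.1 z.2.2) (x z.2.1) (x z.2.2)).prod =
      se D (ae Z) σ x
  | [] => rfl
  | ((c, true), e) :: Z => by
      rw [List.map_cons, List.prod_cons, se_ae σ x Z]; rfl
  | ((c, false), e) :: Z => by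
      rw [List.map_cons, List.prod_cons, se_ae σ x Z]
      exact one_mul _

theorem frame (μ : ℕ → ℝ) (p : (ℕ → Cube D.n → Cube D.n → ℝ) × (ℕ → Bool → Bool → ℝ))
    (V : List ((ℕ → Cube D.n → Cube D.n → ℝ) × (ℕ → Bool → Bool → ℝ))) :
    ∑ j ∈ Finset.range (D.B.length + 1), μ j * wB (-1) D.B (oB D.n D.β D.M D.q []) V (Sh.two j)
      (pr2 j (p.1 j)) (pr2 j (p.2 j)) = LamG D.B μ V.length fun r σ E =>
        TB D σ (eF ((V.reverse ++ [p]).map Prod.fst) σ E) *
          TS D σ (eF ((V.reverse ++ [p]).map Prod.snd) σ E) :=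
  sum_wB_eq _ μ p V (repB_mul (rep_TE wt_one90 D.B 0 _)
    ((lenS (D := D)) ▸ rep_TE wt_one90 D.S 0 _))

theorem mu_nonneg (H : D.Ok τ0) (j : ℕ) : 0 ≤ mu D j := by
  unfold mu CD.dd
  cases D.W with
  | none => exact dm_nonneg H.mono j
  | some ω => dsimp only; split_ifs <;> simp

theorem tw_old (K j : ℕ) (hj : j ≤ K) : tw K j 1 0 = j := min_eq_left hj

/-- a signed measure dominated by `mu` -/
theorem abs_avt_le (H : D.Ok τ0) {μ : ℕ → ℝ} (hμ : ∀ j, |μ j| ≤ mu D j)
    {φ ψ : SM (1 + k + 1) → ℝ} (e : ∀ σ, Sup D k σ → |φ σ| ≤ ψ σ) :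
    |avt D.B μ k φ| ≤ av D k ψ := by
  refine (Finset.abs_sum_le_sum_abs _ _).trans (Finset.sum_le_sum fun j hj => ?_)
  have hj' := Nat.lt_succ_iff.1 (Finset.mem_range.1 hj)
  rw [abs_mul]
  by_cases h0 : mu D j = 0
  · rw [h0, zero_mul, abs_nonpos_iff.1 ((hμ j).trans_eq h0), abs_zero, zero_mul]
  have h1 := Site94.abs_avc_le H.mono (rz_tw D.B.length j) k (f := φ) (g := ψ) fun σ hσ h =>
    e σ ⟨hσ, fun hW => by
      rw [show σ (mk k).1 (mk k).2 = j from (h 1 0).trans (tw_old _ j hj')]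
      by_contra hj2
      apply h0
      unfold mu CD.dd
      cases hD : D.W with
      | none => simp [hD] at hW
      | some ω => exact if_neg hj2⟩
  exact mul_le_mul (hμ j) h1 (abs_nonneg _) (mu_nonneg H j)


theorem av_add (φ ψ : SM (1 + k + 1) → ℝ) :
    av D k (fun σ => φ σ + ψ σ) = av D k φ + av D k ψ := (fam_avt _).add k φ ψ

theorem av_mul (c : ℝ) (φ : SM (1 + k + 1) → ℝ) : av D k (fun σ => c * φ σ) = c * av D k φ :=
  (fam_avt _).mul k c φ

theorem cG_mono {a b : ℕ} (h : a ≤ b) : cG a ≤ cG b := by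
  have h1 : (a : ℝ) ≤ b := by exact_mod_cast h
  have h2 : (0 : ℝ) ≤ a := Nat.cast_nonneg _
  exact (pow_le_pow_left₀ (by positivity) (by gcongr) a).trans
    (pow_le_pow_right₀ (by nlinarith) h)

theorem bk_zero {Z : ZL r} {σ : SM r} (h : ¬Cel D Z σ) (x : Fin r → Cube D.n) :
    bk D Z σ x = 0 := by
  obtain ⟨z, hz⟩ := not_forall.1 h
  obtain ⟨hz, h1⟩ := Classical.not_imp.1 hz
  refine List.prod_eq_zero (List.mem_map.2 ⟨z, hz, ?_⟩)
  obtain ⟨⟨c, b⟩, e⟩ := z
  simp only [lt, cut, CD.cl]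
  split_ifs with h2
  · cases c
    · exact absurd (by simpa using h2) (by simpa using h1)
    · have h3 : σ e.1 e.2 = 0 := by
        simp only [if_true, Finset.mem_Icc, decide_eq_true_eq] at h1 h2
        omega
      rw [h3, oUb_zero]; rfl
  · rfl

/-- the general reduction: first pair `p` with a signed measure `μ` -/
theorem mark_le (H : D.Ok τ0) {μ : ℕ → ℝ} (hμ : ∀ j, |μ j| ≤ mu D j)
    (p : (ℕ → Cube D.n → Cube D.n → ℝ) × (ℕ → Bool → Bool → ℝ)) (f : List Lt) {B : ℝ}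
    (h : ∀ k ≤ 2 * f.length, ∀ Z : ZL (1 + k + 1), (Z.map Prod.fst).Perm f → Lf Z →
      ∃ ψ : SM (1 + k + 1) → ℝ, av D k ψ ≤ B ∧ ∀ σ, Sup D k σ → 0 ≤ ψ σ ∧ (Cel D Z σ →
        |TB D σ fun x => ed p.1 (mk k).1 (mk k).2 x σ * bk D Z σ x| *
          |TS D σ fun x => ed p.2 (mk k).1 (mk k).2 x σ * se D (ae Z) σ x| ≤ ψ σ)) :
    |∑ j ∈ Finset.range (D.B.length + 1), μ j * wB (-1) D.B (oB D.n D.β D.M D.q [])
      (f.map (lt D.n D.β D.M D.q D.cl)) (Sh.two j) (pr2 j (p.1 j)) (pr2 j (p.2 j))| ≤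
      cG f.length * B := by
  rw [frame, List.length_map]
  refine abs_LamG_le _ _ _ fun k hk N hN hO => ?_
  have hl : f.reverse.length = N.length := by rw [List.length_reverse, hN]
  obtain ⟨ψ, h1, h2⟩ := h k hk (f.reverse.zip N)
    (by rw [List.map_fst_zip hl.le]; exact List.reverse_perm f)
    fun z hz => hO _ (List.of_mem_zip hz).2
  refine (abs_avt_le H hμ fun σ hσ => ?_).trans h1
  have e1 : eF (((f.map (lt D.n D.β D.M D.q D.cl)).reverse ++ [p]).map Prod.fst) σ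
      (N ++ [(old k 1, old k 0)]) =
      fun x => ed p.1 (mk k).1 (mk k).2 x σ * bk D (f.reverse.zip N) σ x := funext fun x => by
    rw [List.map_append, List.map_singleton, eF_snoc _ _ _ _ _ _ (by simp [hN]),
      ← List.map_reverse, List.map_map, eF_zip]
    rfl
  have e2 : eF (((f.map (lt D.n D.β D.M D.q D.cl)).reverse ++ [p]).map Prod.snd) σ
      (N ++ [(old k 1, old k 0)]) =
      fun x => ed p.2 (mk k).1 (mk k).2 x σ * se D (ae (f.reverse.zip N)) σ x := funext fun x => by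
    rw [List.map_append, List.map_singleton, eF_snoc _ _ _ _ _ _ (by simp [hN]),
      ← List.map_reverse, List.map_map, eF_zip, ← se_ae]
    rfl
  rw [e1, e2, abs_mul]
  by_cases hc : Cel D (f.reverse.zip N) σ
  · exact (h2 σ hσ).2 hc
  · simp only [bk_zero hc, mul_zero, TB, TM_const wt_one90 hσ.1, abs_zero, zero_mul]
    exact (h2 σ hσ).1

theorem sum_up (H : D.Ok τ0) (a : ℕ → ℝ) : ∑ j ∈ D.up, a j =
    ∑ j ∈ Finset.range (D.B.length + 1), if j ∈ D.up then a j else 0 := by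
  rw [← Finset.sum_filter]
  refine Finset.sum_congr (Finset.ext fun j => ?_) fun _ _ => rfl
  simp only [Finset.mem_filter, Finset.mem_range, lenB, Finset.mem_Ioo]
  omega

theorem abs_om_le (hW : D.W.isSome = true) (j : ℕ) :
    |if j ∈ D.up then D.om j else 0| ≤ mu D j := by
  unfold mu CD.dd
  cases hD : D.W with
  | none => simp [hD] at hW
  | some ω => dsimp only; split_ifs <;> simp

/-- **the term of a word, graph by graph** -/
theorem tw_le (H : D.Ok τ0) {f : List Lt} (hf : f ≠ []) {B : ℝ} (hB : 0 ≤ B)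
    (h : ∀ k ≤ 2 * f.length, ∀ Z : ZL (1 + k + 1), (Z.map Prod.fst).Perm f → Lf Z →
      ∃ ψ : SM (1 + k + 1) → ℝ, av D k ψ ≤ B ∧ ∀ σ, Sup D k σ → 0 ≤ ψ σ ∧ (Cel D Z σ →
        |TB D σ (bk D Z σ)| * |TS D σ (se D (sa D k Z) σ)| ≤ ψ σ)) :
    |D.tw f| ≤ cG f.length * B := by
  cases hD : D.W with
  | none =>
    obtain ⟨a, V, rfl⟩ := List.exists_cons_of_ne_nil hf
    have e : D.tw (a :: V) = tm D.n D.β D.M D.q D.cl (a :: V) := by simp only [CD.tw, CD.dd, hD]
    rw [e, tm_eq H.pos H.ook, List.map_cons, lamB]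
    refine (mark_le H (fun j => (abs_of_nonneg (dm_nonneg H.mono j)).trans_le (by
      simp only [mu, CD.dd, hD]; exact le_rfl)) (lt D.n D.β D.M D.q D.cl a) V (B := B)
      fun k hk Z hZ hL => ?_).trans (mul_le_mul_of_nonneg_right (cG_mono (by simp)) hB)
    obtain ⟨ψ, h1, h2⟩ := h k (hk.trans (by simp)) ((a, mk k) :: Z) (hZ.cons a)
      (List.forall_mem_cons.2 ⟨mk_ne k, hL⟩)
    refine ⟨ψ, h1, fun σ hσ => ⟨(h2 σ hσ).1, fun _ => ?_⟩⟩
    have e1 : (fun x => ed (lt D.n D.β D.M D.q D.cl a).1 (mk k).1 (mk k).2 x σ * bk D Z σ x) =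
        bk D ((a, mk k) :: Z) σ := rfl
    have e2 : (fun x => ed (lt D.n D.β D.M D.q D.cl a).2 (mk k).1 (mk k).2 x σ * se D (ae Z) σ x) =
        se D (sa D k ((a, mk k) :: Z)) σ := funext fun x => by
      simp only [sa, hD, ← se_ae]
      rfl
    rw [e1, e2]
    by_cases hc : Cel D ((a, mk k) :: Z) σ
    · exact (h2 σ hσ).2 hc
    · rw [show bk D ((a, mk k) :: Z) σ = fun _ => 0 from funext (bk_zero hc), TB,
        TM_const wt_one90 hσ.1, abs_zero, zero_mul]
      exact (h2 σ hσ).1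
  | some ω =>
    have hW : D.W.isSome = true := by simp [hD]
    have e : D.tw f = ∑ j ∈ D.up, D.om j * wB (-1) D.B (oB D.n D.β D.M D.q [])
        (f.map (lt D.n D.β D.M D.q D.cl)) (Sh.two j) (fun _ => 1) (pr2 j (oE D.q j)) := by
      simp only [CD.tw, CD.dd, hD]
    rw [e, sum_up H]
    simp only [← ite_zero_mul]
    refine mark_le H (abs_om_le hW) (fun _ _ _ => 1, oE D.q) f fun k hk Z hZ hL => ?_
    obtain ⟨ψ, h1, h2⟩ := h k hk Z hZ hL
    refine ⟨ψ, h1, fun σ hσ => ⟨(h2 σ hσ).1, fun hc => ?_⟩⟩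
    have := (h2 σ hσ).2 hc
    simp only [sa, hD] at this
    simp only [ed, one_mul]
    exact this


/-! ### weights -/

theorem X_nonneg (H : D.Ok τ0) : 0 ≤ D.X :=
  ((Br_nonneg H.mono fun _ _ => by split_ifs <;> norm_num).trans (Br_le H.mono D.J)).trans H.x1

theorem I_nonneg (H : D.Ok τ0) {a : ℕ → ℝ} (h : ∀ j, 0 ≤ a j) : 0 ≤ D.I a :=
  Finset.sum_nonneg fun j _ => mul_nonneg (dm_nonneg H.mono j) (h j)

theorem Iw_nonneg {a : ℕ → ℝ} (h : ∀ j, 0 ≤ a j) : 0 ≤ D.Iw a :=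
  Finset.sum_nonneg fun j _ => mul_nonneg (abs_nonneg _) (h j)

theorem wt_nonneg : 0 ≤ D.wt := by
  unfold CD.wt CD.dd
  cases D.W with
  | none => exact zero_le_one
  | some ω => exact Iw_nonneg fun _ => zero_le_one

/-- the marked part `Iw a` (zero for the value) -/
def Jw (D : CD) (a : ℕ → ℝ) : ℝ := D.dd 0 (D.Iw a)

theorem Jw_nonneg {a : ℕ → ℝ} (h : ∀ j, 0 ≤ a j) : 0 ≤ Jw D a := by
  unfold Jw CD.dd
  cases D.W with
  | none => exact le_rfl
  | some ω => exact Iw_nonneg h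

/-- indicator of a low split -/
def lo1 (D : CD) (j : ℕ) : ℝ := if j ≤ D.J then 1 else 0

/-- a function on the upper splits -/
def upF (D : CD) (G : ℕ → ℝ) (j : ℕ) : ℝ := if D.J < j then G j else 0

theorem lo1_nonneg (j : ℕ) : 0 ≤ lo1 D j := by unfold lo1; split_ifs <;> norm_num

theorem upF_nonneg {G : ℕ → ℝ} (h : ∀ j, 0 ≤ G j) (j : ℕ) : 0 ≤ upF D G j := by
  unfold upF; split_ifs; exacts [h j, le_rfl]

theorem lo1_upF (G : ℕ → ℝ) (j : ℕ) : lo1 D j * upF D G j = 0 := by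
  unfold lo1 upF
  split_ifs <;> first | omega | simp

theorem Br_lo1 (H : D.Ok τ0) : Br D.B (lo1 D) ≤ D.X := (Br_le H.mono D.J).trans H.x1

theorem Br_upF (H : D.Ok τ0) (G : ℕ → ℝ) : Br D.B (upF D G) = D.I G := by
  rw [CD.I, sum_up H, Br]
  refine Finset.sum_congr rfl fun j hj => ?_
  have hj' : j ≤ D.K := lenB (D := D) ▸ Nat.lt_succ_iff.1 (Finset.mem_range.1 hj)
  simp only [upF, Finset.mem_Ioo]
  rcases hj'.lt_or_eq with h | rfl
  · by_cases h1 : D.J < j <;> simp [h, h1]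
  · rw [show dm D.B 0 D.K = 0 from H.top]; simp

/-- integration against `mu` -/
theorem sum_mu (H : D.Ok τ0) (a : ℕ → ℝ) :
    ∑ j ∈ Finset.range (D.B.length + 1), mu D j * a j = D.dd (Br D.B a) (D.Iw a) := by
  unfold mu CD.dd
  cases D.W with
  | none => rfl
  | some ω =>
    dsimp only
    rw [CD.Iw, sum_up H]
    simp only [ite_mul, zero_mul]

theorem w_const (H : D.Ok τ0) (c : ℝ) : av D k (fun _ => c) = D.wt * c := by
  simp only [av, avt, avc_const]
  rw [← Finset.sum_mul]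
  simpa only [mul_one, Br_one, CD.wt] using congrArg (· * c) (sum_mu H fun _ => 1)

/-- the constant of the weights -/
def cw (k : ℕ) : ℝ := 3 * (3 * (1 + k)) ^ k

theorem cw_pos (k : ℕ) : 0 < cw k := by unfold cw; positivity

theorem cw_mono {a b : ℕ} (h : a ≤ b) : cw a ≤ cw b := by
  have h1 : (a : ℝ) ≤ b := by exact_mod_cast h
  have h2 : (0 : ℝ) ≤ a := Nat.cast_nonneg _
  exact mul_le_mul_of_nonneg_left ((pow_le_pow_left₀ (by positivity) (by gcongr) a).trans
    (pow_le_pow_right₀ (by nlinarith) h)) (by norm_num)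

theorem av_le (H : D.Ok τ0) {φ : SM (1 + k + 1) → ℝ} {c : ℝ} {a : ℕ → ℝ}
    (h : ∀ j ≤ D.B.length, avc D.B (tw D.B.length j) k φ ≤ c * a j) :
    av D k φ ≤ c * D.dd (Br D.B a) (D.Iw a) := by
  rw [← sum_mu H, Finset.mul_sum, av, avt]
  refine Finset.sum_le_sum fun j hj => ?_
  rw [mul_left_comm]
  exact mul_le_mul_of_nonneg_left (h j (Nat.lt_succ_iff.1 (Finset.mem_range.1 hj)))
    (mu_nonneg H j)

theorem Iw_add (a b : ℕ → ℝ) : D.Iw (fun j => a j + b j) = D.Iw a + D.Iw b := by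
  simp only [CD.Iw, mul_add, Finset.sum_add_distrib]

theorem Iw_mul (c : ℝ) (a : ℕ → ℝ) : D.Iw (fun j => c * a j) = c * D.Iw a := by
  simp only [CD.Iw, Finset.mul_sum, mul_left_comm c]

theorem Iw_const (c : ℝ) : D.Iw (fun _ => c) = c * D.Iw fun _ => 1 := by
  simpa only [mul_one] using Iw_mul (D := D) c fun _ => 1

theorem Iw_congr {a b : ℕ → ℝ} (h : ∀ j, D.J < j → a j = b j) : D.Iw a = D.Iw b :=
  Finset.sum_congr rfl fun j hj => by rw [h j (Finset.mem_Ioo.1 hj).1]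

/-- one edge, any function of its label -/
theorem w_one (H : D.Ok τ0) {g : ℕ → ℝ} (hg : ∀ j, 0 ≤ g j) {a b : Fin (1 + k + 1)}
    (hab : a ≠ b) : av D k (fun σ => g (σ a b)) ≤ cw k * (D.wt * Br D.B g + Jw D g) := by
  refine (av_le H fun j hj => Site94.avc_pair_le H.mono hj k hg hab).trans ?_
  have h0 := Br_nonneg H.mono fun j _ => hg j
  rw [cw, mul_comm (3 : ℝ) (_ ^ k), mul_assoc]
  refine mul_le_mul_of_nonneg_left ?_ (by positivity)
  have h1 := Iw_nonneg (D := D) hg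
  have h2 := mul_nonneg (Iw_nonneg (D := D) (a := fun _ => 1) fun _ => zero_le_one) h0
  unfold CD.wt Jw CD.dd
  cases D.W with
  | none => simp only [Br_add, Site94.Br_const]; linarith
  | some ω => simp only [Iw_add, Iw_const (2 * Br D.B g)]; linarith

/-- a low edge costs `X` -/
theorem w_lo (H : D.Ok τ0) {a b : Fin (1 + k + 1)} (hab : a ≠ b) :
    av D k (fun σ => lo1 D (σ a b)) ≤ cw k * (D.wt * D.X) := by
  refine (w_one H lo1_nonneg hab).trans (mul_le_mul_of_nonneg_left ?_ (cw_pos k).le)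
  have : Jw D (lo1 D) = 0 := by
    unfold Jw CD.dd
    cases D.W with
    | none => rfl
    | some ω =>
      exact (Iw_congr fun j hj => if_neg (not_le.2 hj)).trans ((Iw_const 0).trans (zero_mul _))
  rw [this, add_zero]
  exact mul_le_mul_of_nonneg_left (Br_lo1 H) wt_nonneg

theorem Jw_upF (G : ℕ → ℝ) : Jw D (upF D G) = Jw D G := by
  rw [Jw, Iw_congr (a := upF D G) (b := G) fun j hj => if_pos hj, Jw]

/-- an upper edge -/
theorem w_up (H : D.Ok τ0) {G : ℕ → ℝ} (hG : ∀ j, 0 ≤ G j) {a b : Fin (1 + k + 1)}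
    (hab : a ≠ b) : av D k (fun σ => upF D G (σ a b)) ≤ cw k * (D.wt * D.I G + Jw D G) := by
  simpa only [Br_upF H, Jw_upF] using w_one H (upF_nonneg (D := D) hG) hab

/-- two edges on a fixed base -/
theorem avc_w2 {Ω : Type} [Fintype Ω] {M : List (Lv Ω)} (hM : Mono 0 M) {j : ℕ} (hj : j ≤ M.length)
    (k : ℕ) {g G : ℕ → ℝ} (hg : ∀ j, 0 ≤ g j) (hG : ∀ j, 0 ≤ G j) {a b c d : Fin (1 + k + 1)}
    (hab : a ≠ b) (hcd : c ≠ d) :
    avc M (tw M.length j) k (fun σ => g (σ a b) * G (σ c d)) ≤ (3 * (1 + k)) ^ k *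
      ((g j + Br M g) * (G j + Br M G) + 2 * Br M fun v => g v * G v) := by
  have nn : ∀ u v, 0 ≤ g u * G v + g u * G u := fun u v =>
    add_nonneg (mul_nonneg (hg _) (hG _)) (mul_nonneg (hg _) (hG _))
  refine (Site94.avc_two hM hj k (F := fun u v => g u * G v + g u * G u) nn
    fun σ y _ hc => ?_).trans_eq ?_
  · obtain ⟨i, hi⟩ := hc.mem a b hab
    obtain ⟨i', hi'⟩ := hc.mem c d hcd
    rw [hi, hi']
    by_cases e : i = i'
    · subst e
      refine le_trans ?_ (Site94.le_P2' hM nn y i)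
      rw [Br_add, Site94.Br_const]
      exact le_add_of_nonneg_left (Br_nonneg hM fun v _ => mul_nonneg (hg _) (hG _))
    · exact (le_add_of_nonneg_right (mul_nonneg (hg _) (hG _))).trans (Site94.le_P2 hM nn y e)
  · simp only [Br_add, Br_mul, Site94.Br_const, mul_comm (g _) (G j), mul_comm (g _) (Br M G)]
    ring

/-- a low edge and an upper edge -/
theorem w_lo_up (H : D.Ok τ0) {G : ℕ → ℝ} (hG : ∀ j, 0 ≤ G j) {a b c d : Fin (1 + k + 1)}
    (hab : a ≠ b) (hcd : c ≠ d) : av D k (fun σ => lo1 D (σ a b) * upF D G (σ c d)) ≤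
      cw k * (D.X * (D.wt * D.I G + Jw D G)) := by
  refine (av_le H fun j hj => avc_w2 H.mono hj k (lo1_nonneg (D := D))
    (upF_nonneg (D := D) hG) hab hcd).trans ?_
  rw [cw, mul_comm (3 : ℝ) (_ ^ k), mul_assoc]
  refine mul_le_mul_of_nonneg_left ?_ (by positivity)
  have h0 := I_nonneg H hG
  have h1 := Iw_nonneg (D := D) hG
  have h2 := Iw_nonneg (D := D) (a := fun _ => 1) fun _ => zero_le_one
  have h3 := Br_lo1 H
  have h4 := Br_nonneg H.mono fun j _ => lo1_nonneg (D := D) j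
  simp only [lo1_upF, Site94.Br_const, mul_zero, add_zero, Br_upF H]
  unfold CD.wt Jw CD.dd
  cases D.W with
  | none =>
    simp only [add_mul, mul_add, lo1_upF, Br_add, Br_mul, Site94.Br_const, Br_upF H,
      mul_comm (lo1 D _) (D.I G)]
    nlinarith [mul_le_mul_of_nonneg_right h3 h0]
  | some ω =>
    dsimp only
    rw [Iw_congr (b := fun j => Br D.B (lo1 D) * (G j + D.I G)) fun j hj => by
      rw [lo1, upF, if_neg (not_le.2 hj), if_pos hj, zero_add], Iw_mul, Iw_add, Iw_const (D.I G)]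
    nlinarith [mul_le_mul_of_nonneg_right h3 (add_nonneg h1 (mul_nonneg h0 h2)),
      mul_nonneg (h4.trans h3) (add_nonneg h1 (mul_nonneg h0 h2))]

/-! ### the site factor -/

theorem abs_q_le (H : D.Ok τ0) {j : ℕ} (hj : j ≤ D.B.length) : |D.q j| ≤ 1 := by
  have := H.ook.mem (lenB (D := D) ▸ hj)
  rw [abs_of_nonneg this.1]
  exact this.2

theorem TS_eq (A : EL r) (σ : SM r) : TS D σ (se D A σ) = Site94.SF D.S (fun _ => D.q)
    (fun i : Fin A.length => A[i.1].1) (fun i => A[i.1].2) Finset.univ σ :=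
  congrArg (TM _ _ _ σ) (funext fun x => (Fin.prod_univ_fun_getElem A
    fun e => oE D.q (σ e.1 e.2) (x e.1) (x e.2)).symm)

/-- crude bound -/
theorem site_le (H : D.Ok τ0) {σ : SM r} (hσ : Rz D.B.length σ) (A : EL r) :
    |TS D σ (se D A σ)| ≤ 2 ^ A.length := by
  rw [TS_eq]
  simpa using Site94.abs_SF_le (L := D.S) (B := Finset.univ) (q := fun _ => D.q)
    (p := fun i : Fin A.length => A[i.1].1) (p' := fun i => A[i.1].2) (lenS (D := D) ▸ hσ)
    fun _ _ => abs_q_le H (hσ.le _ _)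

/-- **an odd cluster above the cut costs `X ^ 3`** -/
theorem site_odd (H : D.Ok τ0) {σ : SM r} (hσ : Rz D.B.length σ) {A : EL r} (a : Fin r)
    (h : Odd (A.map fun e => if Site94.Crs σ a D.J e.1 e.2 then 1 else 0).sum) :
    |TS D σ (se D A σ)| ≤ 2 ^ A.length * Site94.cP r 2 * D.X ^ 3 := by
  have hX := X_nonneg H
  have h3 : D.X ^ 3 ≤ 1 := pow_le_one₀ hX H.X1
  have hc := Site94.cP_nonneg r 2
  have key : ∀ ε : ℝ, 0 < ε → ε ≤ 1 →
      |TS D σ (se D A σ)| ≤ 2 ^ A.length * Site94.cP r 2 * (D.X ^ 3 + ε) := fun ε h0 h1 => by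
    have hp : 0 < D.X ^ 3 + ε := by positivity
    have := Site94.SF_odd (L := D.S) (ℓ := opV D.n D.β D.M D.q) (B := Finset.univ)
      (q := fun _ => D.q) (p := fun i : Fin A.length => A[i.1].1) (p' := fun i => A[i.1].2)
      (C.forall₂_sl spin (opV_nn H.ook)) (Cav22.mono_tilt tilt_opS.symm H.mono)
      (lenS (D := D) ▸ hσ) (fun _ _ => abs_q_le H (hσ.le _ _)) (j := D.J)
      ⟨a, by rwa [Finset.card_filter, Fin.sum_univ_fun_getElem A
        fun e => if Site94.Crs σ a D.J e.1 e.2 then 1 else 0]⟩ hp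
      ((opV_acc H.cut.le).trans_le (by rw [H.qlo _ le_rfl]; linarith [H.h1]))
      fun _ _ hj => by rw [H.qlo _ hj, abs_zero]; exact hp.le
    rw [← TS_eq, Finset.card_univ, Fintype.card_fin] at this
    rw [mul_assoc]
    exact this.trans (mul_le_mul_of_nonneg_left (mul_le_mul_of_nonneg_right
      (Site94.cP_mono r (by linarith)) hp.le) (by positivity))
  have hc : Continuous fun ε : ℝ => 2 ^ A.length * Site94.cP r 2 * (D.X ^ 3 + ε) := by fun_prop
  have := (hc.tendsto 0).mono_left (nhdsWithin_le_nhds (s := Ioi 0))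
  simp only [add_zero] at this
  exact ge_of_tendsto this (by
    filter_upwards [Ioc_mem_nhdsGT (zero_lt_one' ℝ)] with ε h using key ε h.1 h.2)

/-- exactly one low edge -/
theorem site_one (H : D.Ok τ0) {σ : SM r} (hσ : Rz D.B.length σ) {A A' : EL r}
    {e : Fin r × Fin r} (hA : A.Perm (e :: A')) (he : σ e.1 e.2 ≤ D.J)
    (h : ∀ e' ∈ A', D.J < σ e'.1 e'.2) :
    |TS D σ (se D A σ)| ≤ 2 ^ A.length * Site94.cP r 2 * D.X ^ 3 := by
  refine site_odd H hσ e.1 ?_
  rw [(hA.map _).sum_eq, List.map_cons, List.sum_cons, if_pos, List.sum_eq_zero]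
  · exact odd_one
  · intro x hx
    obtain ⟨e', he', rfl⟩ := List.mem_map.1 hx
    exact if_neg fun hc => absurd (hc.le hσ) (not_le.2 (h e' he'))
  · rw [Site94.Crs, hσ.self, lenB]
    exact fun hc => absurd (hc.1 H.cut) (not_lt.2 he)

/-! ### the bulk factor -/

/-- the degree carried by the low letters -/
def dl (f : List Lt) : ℕ := (f.map fun a => if a.1 then dg a else 0).sum

/-- the product of the sizes of the upper letters -/
def upP (D : CD) (Z : ZL r) (σ : SM r) (x : Fin r → Cube D.n) : ℝ :=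
  (Z.map fun z => if z.1.1 then 1 else
    |oU D.q (σ z.2.1 z.2.2) (x z.2.1) (x z.2.2)| ^ dg z.1).prod

/-- the tails of the low letters -/
def tlS (D : CD) (Z : ZL r) (σ : SM r) (x : Fin r → Cube D.n) : ℝ :=
  (Z.map fun z => if z.1.1 then max (|ov (x z.2.1) (x z.2.2)| - D.X) 0 else 0).sum

theorem upP_nonneg (Z : ZL r) (σ : SM r) (x : Fin r → Cube D.n) : 0 ≤ upP D Z σ x :=
  List.prod_nonneg fun y hy => by
    obtain ⟨z, -, rfl⟩ := List.mem_map.1 hy
    split_ifs <;> positivity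

theorem tlS_nonneg (Z : ZL r) (σ : SM r) (x : Fin r → Cube D.n) : 0 ≤ tlS D Z σ x :=
  List.sum_nonneg fun y hy => by
    obtain ⟨z, -, rfl⟩ := List.mem_map.1 hy
    split_ifs <;> simp

theorem tau_le (H : D.Ok τ0) (j : ℕ) : 0 ≤ D.τ j ∧ D.τ j ≤ |τ0| :=
  ⟨(H.ook.oTau_le _ _ j).1, ((H.ook.oTau_le _ _ j).2.trans H.tau).trans (le_abs_self _)⟩

theorem abs_lt_le (H : D.Ok τ0) (a : Lt) (j : ℕ) (x y : Cube D.n) :
    |(lt D.n D.β D.M D.q D.cl a).1 j x y| ≤ |τ0| * |oU D.q j x y| ^ dg a := by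
  obtain ⟨h0, h1⟩ := tau_le H j
  obtain ⟨c, b⟩ := a
  simp only [lt, cut]
  split_ifs
  · cases b
    · simp only [oUb, dg, abs_mul, abs_neg, abs_pow, Bool.false_eq_true, if_false]
      rw [abs_of_nonneg (by positivity)]
      exact mul_le_mul_of_nonneg_right (by linarith) (by positivity)
    · simp only [oUb, dg, abs_mul, if_true, pow_one]
      rw [abs_of_nonneg (by positivity)]
      exact mul_le_mul_of_nonneg_right (by linarith) (by positivity)
  · simp only [Pi.zero_apply, abs_zero]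
    positivity

theorem pow_dg_le {u X : ℝ} (h0 : 0 ≤ u) (h1 : u ≤ 1) (hX : 0 ≤ X) (hX1 : X ≤ 1) (a : Lt) :
    u ^ dg a ≤ 1 ∧ u ^ dg a ≤ X ^ dg a + 2 * max (u - X) 0 := by
  refine ⟨pow_le_one₀ h0 h1, ?_⟩
  have h2 := le_max_left (u - X) 0
  have h3 := le_max_right (u - X) 0
  unfold dg
  split_ifs
  · simp only [pow_one]; linarith
  · nlinarith [mul_le_mul_of_nonneg_right h2 (add_nonneg h0 hX),
      mul_le_mul_of_nonneg_left (show u + X ≤ 2 by linarith) h3]

/-- pointwise bound of the bulk integrand -/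
theorem abs_bk_le (H : D.Ok τ0) {σ : SM r} (x : Fin r → Cube D.n) : ∀ Z : ZL r, Cel D Z σ →
    |bk D Z σ x| ≤ |τ0| ^ Z.length *
      ((D.X ^ dl (Z.map Prod.fst) + 2 * tlS D Z σ x) * upP D Z σ x)
  | [], _ => by simp [bk, dl, tlS, upP]
  | (a, e) :: Z, h => by
      obtain ⟨h1, h2⟩ := List.forall_mem_cons.1 h
      have ih := abs_bk_le H x Z h2
      have hX := X_nonneg H
      have hP := upP_nonneg (D := D) Z σ x
      have hS := tlS_nonneg (D := D) Z σ x
      have hd : D.X ^ dl (Z.map Prod.fst) ≤ 1 := pow_le_one₀ hX H.X1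
      have hd0 : 0 ≤ D.X ^ dl (Z.map Prod.fst) := by positivity
      refine (abs_mul _ _).trans_le ((mul_le_mul (abs_lt_le H a _ _ _) ih (abs_nonneg _)
        (by positivity)).trans ?_)
      rw [List.length_cons, pow_succ', mul_mul_mul_comm]
      refine mul_le_mul_of_nonneg_left ?_ (by positivity)
      simp only [dl, tlS, upP, List.map_cons, List.sum_cons, List.prod_cons] at h1 hP hS hd hd0 ⊢
      split_ifs at h1 ⊢ with hc
      · rw [oU, H.qlo _ (Finset.mem_Icc.1 h1).2, sub_zero, one_mul, ← mul_assoc, pow_add]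
        refine mul_le_mul_of_nonneg_right ?_ hP
        obtain ⟨h3, h4⟩ := pow_dg_le (abs_nonneg _) (abs_ov_le (x e.1) (x e.2)) hX H.X1 a
        nlinarith [mul_le_mul_of_nonneg_right h4 hd0, mul_le_mul_of_nonneg_right h3 hS,
          mul_le_mul_of_nonneg_left hd (le_max_right (|ov (x e.1) (x e.2)| - D.X) 0)]
      · rw [zero_add, zero_add]
        exact le_of_eq (by ring)

theorem TB_tlS (H : D.Ok τ0) {σ : SM r} (hσ : Rz D.B.length σ) : ∀ Z : ZL r, Cel D Z σ → Lf Z →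
    TB D σ (tlS D Z σ) ≤ Z.length * D.tl
  | [], _, _ => by
      rw [List.length_nil, Nat.cast_zero, zero_mul]
      exact (TM_const (w := fun _ => 1) (h := 0) wt_one90 hσ 0).le
  | (a, e) :: Z, h, hL => by
      obtain ⟨h1, h2⟩ := List.forall_mem_cons.1 h
      obtain ⟨h3, h4⟩ := List.forall_mem_cons.1 hL
      have ih := TB_tlS H hσ Z h2 h4
      have e1 : tlS D ((a, e) :: Z) σ = fun x => (if a.1 then
          max (|ov (x e.1) (x e.2)| - D.X) 0 else 0) + tlS D Z σ x := rfl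
      rw [e1, TB, TM_add, List.length_cons, Nat.cast_succ, add_mul, one_mul, add_comm]
      refine add_le_add ih ?_
      dsimp only at h1
      split_ifs at h1 ⊢
      · exact (TM_pair wt_one90 hσ h3 fun x y => max (|ov x y| - D.X) 0).trans_le (H.envL _ h1)
      · exact (TM_const wt_one90 hσ 0).trans_le H.tl0

theorem abs_TB_le {σ : SM r} (hσ : Rz D.B.length σ) {F G : (Fin r → Cube D.n) → ℝ}
    (e : ∀ x, |F x| ≤ G x) : |TB D σ F| ≤ TB D σ G := by
  have h1 := TM_mono (h := 0) wt_one90 hσ fun x => (abs_le.1 (e x)).2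
  have h2 := TM_mono (h := 0) wt_one90 hσ (F := fun x => -1 * G x) (G := F) fun x => by
    linarith [(abs_le.1 (e x)).1]
  rw [TM_mul] at h2
  unfold TB
  rw [abs_le]
  constructor <;> linarith

/-- **the bulk factor**, with an extra factor `F`: `|F| * upP ≤ Y` and `≤ y₀` -/
theorem bulk_le (H : D.Ok τ0) {σ : SM r} (hσ : Rz D.B.length σ) {Z : ZL r} (hc : Cel D Z σ)
    (hL : Lf Z) {F Y : (Fin r → Cube D.n) → ℝ} {y₀ : ℝ} (h0 : 0 ≤ y₀)
    (h1 : ∀ x, |F x| * upP D Z σ x ≤ Y x) (h2 : ∀ x, |F x| * upP D Z σ x ≤ y₀) :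
    |TB D σ fun x => F x * bk D Z σ x| ≤ |τ0| ^ Z.length *
      (D.X ^ dl (Z.map Prod.fst) * TB D σ Y + 2 * y₀ * (Z.length * D.tl)) := by
  have hX := X_nonneg H
  refine (abs_TB_le hσ (G := fun x => |τ0| ^ Z.length * (D.X ^ dl (Z.map Prod.fst) * Y x +
    2 * y₀ * tlS D Z σ x)) fun x => ?_).trans ?_
  · rw [abs_mul]
    refine (mul_le_mul_of_nonneg_left (abs_bk_le H x Z hc) (abs_nonneg _)).trans ?_
    rw [mul_left_comm]
    refine mul_le_mul_of_nonneg_left ?_ (by positivity)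
    nlinarith [mul_le_mul_of_nonneg_left (h1 x) (pow_nonneg hX (dl (Z.map Prod.fst))),
      mul_le_mul_of_nonneg_left (h2 x) (tlS_nonneg (D := D) Z σ x)]
  · rw [TB, TM_mul, TM_add, TM_mul, TM_mul]
    exact mul_le_mul_of_nonneg_left (add_le_add le_rfl (mul_le_mul_of_nonneg_left
      (TB_tlS H hσ Z hc hL) (by positivity))) (by positivity)

theorem upP_perm {Z Z' : ZL r} (h : Z.Perm Z') (σ : SM r) (x : Fin r → Cube D.n) :
    upP D Z σ x = upP D Z' σ x := (h.map _).prod_eq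

theorem upP_le (H : D.Ok τ0) {σ : SM r} (hσ : Rz D.B.length σ) (x : Fin r → Cube D.n) :
    ∀ Z : ZL r, upP D Z σ x ≤ 4 ^ Z.length
  | [] => le_rfl
  | (a, e) :: Z => by
      have h := abs_oU_le H.ook (lenB (D := D) ▸ hσ.le e.1 e.2) (x e.1) (x e.2)
      rw [List.length_cons, pow_succ']
      refine mul_le_mul ?_ (upP_le H hσ x Z) (upP_nonneg Z σ x) (by norm_num)
      dsimp only
      unfold dg
      split_ifs
      · norm_num
      · linarith [pow_one |oU D.q (σ e.1 e.2) (x e.1) (x e.2)|]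
      · nlinarith [abs_nonneg (oU D.q (σ e.1 e.2) (x e.1) (x e.2))]

/-- one upper letter is kept -/
theorem upP_one (H : D.Ok τ0) {σ : SM r} (hσ : Rz D.B.length σ) {Z : ZL r} {b : Bool}
    {e : Fin r × Fin r} (hz : ((false, b), e) ∈ Z) (x : Fin r → Cube D.n) :
    upP D Z σ x ≤ 4 ^ Z.length * |oU D.q (σ e.1 e.2) (x e.1) (x e.2)| := by
  have p := List.perm_cons_erase hz
  have h := abs_oU_le H.ook (lenB (D := D) ▸ hσ.le e.1 e.2) (x e.1) (x e.2)
  have h0 := abs_nonneg (oU D.q (σ e.1 e.2) (x e.1) (x e.2))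
  rw [upP_perm p, p.length_eq, List.length_cons, pow_succ, mul_assoc, mul_comm]
  refine mul_le_mul ?_ (upP_le H hσ x _) (upP_nonneg _ σ x) (by positivity)
  cases b
  · simp only [dg, Bool.false_eq_true, if_false]; nlinarith
  · simp only [dg, Bool.false_eq_true, if_false, if_true, pow_one]; linarith

/-- moments of one edge -/
theorem TB_pow {σ : SM r} (hσ : Rz D.B.length σ) {a b : Fin r} (hab : a ≠ b) (p : ℕ) :
    TB D σ (fun x => |oU D.q (σ a b) (x a) (x b)| ^ p) = D.u p (σ a b) :=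
  TM_pair wt_one90 hσ hab fun x y => |oU D.q (σ a b) x y| ^ p

theorem g_nonneg (j : ℕ) : 0 ≤ D.g j := rpow_nonneg (uM_nonneg _ _) _

theorem g_cube (j : ℕ) : D.g j ^ 3 = D.u 3 j := by
  rw [CD.g, ← rpow_natCast, ← rpow_mul (uM_nonneg _ _)]
  norm_num

/-- `E |U| ^ p ≤ g ^ p` for `p ≤ 3`, up to the factor `2` -/
theorem u_le_g {p : ℕ} (hp : p ≤ 3) (j : ℕ) : D.u p j ≤ 2 * D.g j ^ p := by
  have key : ∀ c : ℝ, D.g j < c → D.u p j ≤ 2 * c ^ p := fun c hc => by
    have h0 : 0 < c := (g_nonneg j).trans_lt hc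
    have h1 : D.u p j ≤ c ^ p + c ^ p / c ^ 3 * D.u 3 j := by
      have e := pi2_const (w := fun _ : Cube D.n => 1) wt_one90 D.B j (c ^ p) 0
      rw [CD.u, CD.u, uM, uM, ← pi2_const_mul, ← e, ← pi2_add wt_one90, e]
      refine Crest.Agent.T157.Casc.pi2_mono (Ω := Cube D.n) wt_one90 _ j (fun x y => ?_) 0
      have h2 := abs_nonneg (oU D.q j x y)
      rcases le_total |oU D.q j x y| c with h | h
      · exact le_add_of_le_of_nonneg (pow_le_pow_left₀ h2 h p) (by positivity)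
      · refine le_add_of_nonneg_of_le (by positivity) ?_
        obtain ⟨m, hm⟩ := Nat.exists_eq_add_of_le hp
        rw [div_mul_eq_mul_div, le_div_iff₀ (by positivity), hm, pow_add, pow_add, mul_left_comm]
        gcongr
    have h3 : D.u 3 j ≤ c ^ 3 := g_cube (D := D) j ▸ pow_le_pow_left₀ (g_nonneg j) hc.le 3
    have h4 := mul_le_mul_of_nonneg_left h3 (show 0 ≤ c ^ p / c ^ 3 by positivity)
    rw [div_mul_cancel₀ _ (by positivity)] at h4
    linarith
  have hc : Continuous fun c : ℝ => 2 * c ^ p := by fun_prop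
  exact ge_of_tendsto ((hc.tendsto (D.g j)).mono_left (nhdsWithin_le_nhds (s := Ioi (D.g j))))
    (eventually_nhdsWithin_of_forall key)

end Crest.Agent.T156.Cas.Ck32

end
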