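import Crest.Agent.T156.CEx_23
import Crest.Agent.T156.CWk_55
import Crest.Agent.T156.CGl_31

/-!
# Row 156, block C: the mixed word `[aU, aL, aL]` = mean part + centred part (helper23)
-/

set_option autoImplicit false

noncomputable section

namespace Crest.Agent.T156.Cas.C40.Mx23

open MeasureTheory Real Set Filter Topology
open Crest.Agent.T157.E Crest.Agent.T157.Casc Crest.Agent.T157.SL
open Crest.ProbabilityR.SpinGlassDynamics (spin)
open Mul55 OneP Cw55
open Wrd23 (E0)

/-- tensor letters -/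
abbrev Lr (D : CD) : Type := (ℕ → Cube D.n → Cube D.n → ℝ) × SK

/-- the term of a word of tensor letters -/
def hw (D : CD) (V : List (Lr D)) : ℝ := D.dd (lamB D.B (oB D.n D.β D.M D.q []) V)
  (∑ j ∈ D.up, D.om j * wB (-1) D.B (oB D.n D.β D.M D.q []) V (Sh.two j) (fun _ => 1)
    (pr2 j (oE D.q j)))

/-- the low letter -/
abbrev pL (D : CD) : Lr D := lt D.n D.β D.M D.q D.cl aL
/-- the mean part of `aU` -/
def pM (D : CD) : Lr D := (fun _ _ _ => 1, D.Sd)
/-- the weighted centred letter -/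
def phC (D : CD) (φ : ℕ → ℝ) : Lr D := (fun t x y => φ t * (D.τ t / 2 * Uc D t x y), oE D.q)
/-- the centred part of `aU` -/
abbrev pC (D : CD) : Lr D := phC D (off D.J ∅)

/-- admissible letters -/
def OkL (D : CD) (p : Lr D) : Prop := ten p ∈ Mul55.Ok (Cube D.n × Bool) D.K

variable {D : CD} {τ0 : ℝ}


theorem ok_lt (H : D.Ok τ0) (a : Lt) : OkL D (lt D.n D.β D.M D.q D.cl a) :=
  lt_mem H.pos H.ook _ a



/-- the form on product kernels -/
def hF (D : CD) (U : List (ℕ → Cube D.n × Bool → Cube D.n × Bool → ℝ)) : ℝ :=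
  D.dd (oL D.n D.β D.M D.q U) (∑ j ∈ D.up, D.om j * WdO (op D.n D.β D.M D.q 0) U
    (E0 D.n D.β D.M D.q) (Sh.two j) (tens (fun _ => 1) (pr2 j (oE D.q j))))

theorem sm_hF (D : CD) : Mul55.SM (Mul55.Ok (Cube D.n × Bool) D.K) (hF D) := by
  have h := fun j => Wrd23.sm_E0 (n := D.n) (β := D.β) (M := D.M) (q := D.q)
    (Wrd23.fl_ev (Sh.two j) (tens (fun _ => 1) (pr2 j (oE D.q j))))
  refine ⟨fun p hU => ?_, fun a b A B U => ?_⟩
  · simp only [hF, oL, (sm_oL 0).perm p hU, (h _).perm p hU]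
  · simp only [hF, oL, (sm_oL 0).lin, (h _).lin, CD.dd]
    split
    · rfl
    · simp only [mul_add, Finset.sum_add_distrib, Finset.mul_sum, mul_left_comm _ a,
        mul_left_comm _ b]

theorem lamB_eq (H : D.Ok τ0) (V : List (Lr D)) :
    lamB D.B (oB D.n D.β D.M D.q []) V = oL D.n D.β D.M D.q (V.map ten) := by
  cases V with
  | nil => rfl
  | cons p V => simpa only [List.map_nil, List.append_nil] using
      (oL_ten (β := D.β) H.pos H.ook p V []).symm

theorem hw_eq (H : D.Ok τ0) (V : List (Lr D)) : hw D V = hF D (V.map ten) := by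
  simp only [hw, hF, lamB_eq H, Ex23.wB_eq H.pos H.ook]

theorem tw_eq (H : D.Ok τ0) (f : List Lt) :
    D.tw f = hw D (f.map (lt D.n D.β D.M D.q D.cl)) := by
  rw [CD.tw, hw, tm_eq H.pos H.ook]

/-- any letter order -/
theorem hw_perm (H : D.Ok τ0) {V V' : List (Lr D)} (p : V.Perm V') (hV : ∀ a ∈ V, OkL D a) :
    hw D V = hw D V' := by
  rw [hw_eq H, hw_eq H]
  refine (sm_hF D).perm (p.map _) fun T hT => ?_
  obtain ⟨a, ha, rfl⟩ := List.mem_map.1 hT
  exact hV a ha


theorem hw_add (H : D.Ok τ0) {p a c : Lr D} (e : ten p = ten a + ten c) (V : List (Lr D)) :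
    hw D (p :: V) = hw D (a :: V) + hw D (c :: V) := by
  simp only [hw_eq H, List.map_cons, e, (sm_hF D).add]

theorem ten_aU (D : CD) : ten (lt D.n D.β D.M D.q D.cl aU) = ten (pM D) + ten (pC D) := by
  funext t x y
  rw [lt_aU, Pi.add_apply, Pi.add_apply, Pi.add_apply]
  simp only [ten, pM, phC, phU, Cw55.Sd_eq, phS, Uc, oUb, oZs]
  ring

/-- `aU` = mean + centred, in any word -/
theorem tw_aU (H : D.Ok τ0) (f : List Lt) :
    D.tw (aU :: f) = hw D (pM D :: f.map (lt D.n D.β D.M D.q D.cl)) +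
      hw D (pC D :: f.map (lt D.n D.β D.M D.q D.cl)) := by
  rw [tw_eq H, List.map_cons, hw_add H (ten_aU D)]

theorem perm3 (H : D.Ok τ0) {p : Lr D} (hp : OkL D p) :
    hw D [p, pL D, pL D] = hw D [pL D, pL D, p] :=
  hw_perm H (List.perm_append_singleton p [pL D, pL D]).symm fun a ha => by
    simp only [List.mem_cons, List.not_mem_nil, or_false] at ha
    rcases ha with rfl | rfl | rfl
    exacts [hp, ok_lt H _, ok_lt H _]

/-- the mean part -/
def MxM (b : Bool) : Prop := Bd b fun D => hw D [pM D, pL D, pL D] - D.S2 * D.dmx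
/-- the centred part -/
def MxC (b : Bool) : Prop := Bd b fun D => hw D [pC D, pL D, pL D]

theorem mxS_of {b : Bool} (h : MxM b) (h' : MxC b) : MxS b :=
  (h.add h').congr fun _ D H _ => by
    rw [tw_aU H]
    simp only [List.map_cons, List.map_nil]
    ring

end Crest.Agent.T156.Cas.C40.Mx23

end
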