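import Crest.Agent.T156.OnePB_23
import Crest.Agent.T156.AltDef_88
import Crest.Agent.T156.One_15

/-!
# Row 156: dictionary between the class of `AltDef_88` and the ONE path (helper23)
-/

set_option autoImplicit false
set_option linter.unusedSectionVars false

noncomputable section

namespace Crest.Agent.T156.Cas

open MeasureTheory Real Set Filter Topology
open Crest.Agent.T157.E Crest.Agent.T157.Casc Crest.Agent.T157.SL
open Crest.Agent.T157.G1 (ov fl)

section gen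
variable {Ω : Type} [Fintype Ω] {w : Ω → ℝ}

/-- a last level of tilt one and without variance is not seen by any tree -/
theorem TE_null_top (hw : Wt w) {l : Lv Ω} (hm : l.m = 1) (hv : ∀ x, l.cov x x = 0) :
    ∀ (s : Sh) (M : List (Lv Ω)) (F : (s.Lf → Ω) → ℝ) (h : Ω → ℝ),
      TE w s (M ++ [l]) h F = TE w s M h F
  | .one, M, F, h => Law.TE_annealed hw hm hv .one M (Nat.zero_le _) F h
  | .step s, [], F, h => by
      have hA : ∀ x, l.A x = 0 := fun x => funext fun i => mul_self_eq_zero.1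
        ((Finset.sum_eq_zero_iff_of_nonneg fun i _ => mul_self_nonneg (l.A x i)).1 (hv x) i
          (Finset.mem_univ i))
      rw [List.nil_append, Law.TE_step hw, Law.TE_step_nil]
      exact Law.tE_of_const hA (C.lp_X hw []) (fun z c => Law.TE_shift hw c s [] _ z) h
  | .step s, l' :: M, F, h => by
      have hX := (Law.P_tail hw (N := [l]) (N' := []) (C.X_annealed_const hw hm hv) (by
        funext z x
        rw [C.P_annealed hw hm]
        simp only [hv]
        exact Law.P_shift hw _ x [] z) M).1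
      rw [List.cons_append, Law.TE_step hw, Law.TE_step hw, funext hX, List.append_nil,
        Law.tE_add_const]
      simp only [TE_null_top hw hm hv s M]
  | .split s t, M, F, h => by
      rw [Law.TE_split hw, Law.TE_split hw]
      simp only [TE_null_top hw hm hv s M, TE_null_top hw hm hv t M]

omit [Fintype Ω] in
theorem ex_top {l : Lv Ω} (hm : l.m = 1) : ∀ (M : List (Lv Ω)) (j : ℕ), ex (M ++ [l]) j = ex M j
  | [], 0 => hm
  | [], _ + 1 => rfl
  | _ :: _, 0 => rfl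
  | _ :: M, j + 1 => ex_top hm M j

omit [Fintype Ω] in
theorem dm_top {l : Lv Ω} (hm : l.m = 1) (M : List (Lv Ω)) (m0 : ℝ) (j : ℕ) :
    dm (M ++ [l]) m0 j = dm M m0 j := by cases j <;> simp only [dm, exP, ex_top hm]

omit [Fintype Ω] in
theorem mono_top {l : Lv Ω} (hm : l.m = 1) : ∀ (M : List (Lv Ω)) (m0 : ℝ),
    Mono m0 M → Mono m0 (M ++ [l])
  | [], _, h => ⟨h.trans_eq hm.symm, hm.le⟩
  | l' :: M, _, h => ⟨h.1, mono_top hm M l'.m h.2⟩

end gen

variable {n : ℕ} {L : List (Lv (Cube n))}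

theorem Pf_sv_sv (hL : ∀ l ∈ L, OvLv l) {i j : Fin n} (hij : i ≠ j) :
    Pf (fun _ => 1) L 0 (fun x => sv x i * sv x j) = 0 := by
  have := Site55.tX_odd (s := .one) (G := fun _ _ => 1) hL (fun _ => measurable_const) i
    (fun _ _ => rfl) (fun x => sv (x ()) i * sv (x ()) j) fun x => by
      simp only [sv, Function.update_self, Function.update_of_ne hij.symm]
      cases x () i <;> cases x () j <;> simp [Crest.ProbabilityR.SpinGlassDynamics.spin]
  simp only [one_mul] at this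
  exact (Law.TE_one Site55.wt_one L 0 fun x => sv (x ()) i * sv (x ()) j).symm.trans this

/-- two independent replicas: `E R² = 1 / n` -/
theorem pi2_root (hn : 0 < n) (hL : ∀ l ∈ L, OvLv l) :
    pi2 (fun _ => 1) L 0 (fun x y => ov x y ^ 2) 0 = 1 / n := by
  have hn' : (n : ℝ) ≠ 0 := Nat.cast_ne_zero.2 hn.ne'
  have e : ∀ x y : Cube n, P (fun _ => 1) L 0 x * P (fun _ => 1) L 0 y * ov x y ^ 2 =
      (∑ i, ∑ j, P (fun _ => 1) L 0 x * (sv x i * sv x j) *
        (P (fun _ => 1) L 0 y * (sv y i * sv y j))) / n ^ 2 := fun x y => by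
    rw [ov, div_pow, dotProduct, sq (∑ i, _), Finset.sum_mul_sum, ← mul_div_assoc, Finset.mul_sum]
    congr 1
    refine Finset.sum_congr rfl fun i _ => ?_
    rw [Finset.mul_sum]
    exact Finset.sum_congr rfl fun j _ => by ring
  have e2 : ∀ i j : Fin n, Pf (fun _ => 1) L 0 (fun x => sv x i * sv x j) *
      Pf (fun _ => 1) L 0 (fun x => sv x i * sv x j) = if i = j then 1 else 0 := fun i j => by
    split_ifs with h
    · simp only [h, Link33.sv_sq, Pf, mul_one, sum_P Site55.wt_one]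
    · rw [Pf_sv_sv hL h, mul_zero]
  rw [Tay38.pi2_zero38, qf]
  simp only [e, ← Finset.sum_div]
  rw [show ∑ x, ∑ y, ∑ i, ∑ j, P (fun _ => 1) L 0 x * (sv x i * sv x j) *
      (P (fun _ => 1) L 0 y * (sv y i * sv y j)) = ∑ i : Fin n, ∑ j : Fin n,
      if i = j then (1 : ℝ) else 0 by
    simp only [← e2, Pf, Finset.sum_mul_sum]
    rw [Finset.sum_congr rfl fun x _ => Finset.sum_comm, Finset.sum_comm]
    refine Finset.sum_congr rfl fun i _ => ?_
    rw [Finset.sum_congr rfl fun x _ => Finset.sum_comm, Finset.sum_comm]]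
  simp only [Finset.sum_ite_eq, Finset.mem_univ, if_true, Finset.sum_const, Finset.card_univ,
    Fintype.card_fin, nsmul_eq_mul]
  field_simp

theorem uM_root {β : ℝ} {M : List (ℝ × ℝ × ℝ)} {q : ℕ → ℝ} (hn : 0 < n) (H : OOk M q)
    (h0 : q 0 = 0) (k : ℕ) : uM n β M q (k + 2) 0 ≤ 1 / n := by
  rw [← pi2_root hn (ovLv_mxL (β := β) hn H.nn)]
  refine T157.Casc.pi2_mono wt_one90 _ _ (fun x y => ?_) 0
  rw [oU, h0, sub_zero, pow_add, sq_abs]
  exact mul_le_of_le_one_left (sq_nonneg _) (pow_le_one₀ (abs_nonneg _) (abs_ov_le x y))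

/-! ### the site cascade as a one-site list -/

section site
open Crest.Agent.R339.B Crest.Agent.R339.Var
open Crest.ProbabilityR.SpinGlassDynamics (spin)

variable {β : ℝ} {M : List (ℝ × ℝ × ℝ)} {q : ℕ → ℝ}

theorem rk_opS (H : OOk M q) : List.Forall₂ (C.Rk1 spin) (opS n β M q) (opV n β M q) :=
  C.forall₂_sl spin (opV_nn H)


theorem opV_length : (opV n β M q).length = M.length := by
  rw [opV, List.length_map, OneP.oInc_length]

theorem TT_opV {j : ℕ} (hj : j ≤ M.length) :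
    R339.Var.TT ((opV n β M q).take j) = oTau n β M j * q j + fAcc M j := opV_acc hj

theorem adm_of_mono : ∀ (l : List (ℝ × ℝ)) (m0 : ℝ), Mono m0 (l.map (C.sl spin)) →
    (∀ t ∈ l, 0 < t.1 ∧ 0 ≤ t.2) → Adm 1 l
  | [], _, _, _ => trivial
  | [t], _, h, h' => ⟨(h' t (by simp)).1, h.2, (h' t (by simp)).2, trivial⟩
  | t :: t' :: l, _, h, h' => ⟨(h' t (by simp)).1, h.2.1, (h' t (by simp)).2,
      adm_of_mono (t' :: l) _ h.2 fun u hu => h' u (List.mem_cons_of_mem _ hu)⟩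

theorem mono_opS (hM : Mono 0 (M.map (mxL n β))) : Mono 0 (opS n β M q) :=
  Cav22.mono_tilt tilt_opS.symm hM

theorem adm_opV (H : OOk M q) (hM : Mono 0 (M.map (mxL n β))) (h0 : ∀ t ∈ M, 0 < t.1) :
    Adm 1 (opV n β M q) := adm_of_mono _ 0 (mono_opS hM) fun t ht => ⟨by
  obtain ⟨c, hc, rfl⟩ := List.mem_map.1 ht
  exact h0 c.p (OneP.oInc_p (bb n β ^ 2) M 0 q ▸ List.mem_map_of_mem hc), opV_nn H t ht⟩

/-- the site overlap at the split `j` is `Γ (σ_j)` -/
theorem pi2_opS (H : OOk M q) {j : ℕ} (hj : j ≤ M.length) :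
    pi2 (fun _ => 1) (opS n β M q) j (fun a b => spin a * spin b) 0 =
      Pr.Gam (opV n β M q) (oTau n β M j * q j + fAcc M j) := by
  have := One15.pi2_spin (rk_opS (n := n) (β := β) H) (opV_length.symm ▸ hj) 0
  rw [zero_smul, TT_opV hj] at this
  exact this

end site

end Crest.Agent.T156.Cas

namespace Crest.Agent.T156.Alt

open MeasureTheory Real Set Filter Topology
open Crest.Agent.T157.E Crest.Agent.T157.Casc Crest.Agent.T157.SL
open Crest.Agent.T157.G1 (ov fl)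
open Crest.Agent.T156.Cas

namespace Pm

variable (p : Pm) (τ y : ℝ) (m : ℕ) (a : ℝ)

/-- the levels of size `m` of the data `Mx` -/
abbrev LM : List (Lv (Cube m)) := (p.Mx τ y a).map (mxL m p.β)

/-- a reference on the profile nodes, read on the cascade nodes -/
def qx (ρ : ℕ → ℝ) : ℕ → ℝ
  | 0 => 0
  | k + 1 => if k ≤ p.N then ρ k else 1

/-- `τ = b m / (m + 1)` -/
def bp : ℝ := p.b τ y * m / (m + 1)

/-- the model is legal -/
structure Leg : Prop where
  b0 : 0 < p.b τ y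
  b1 : p.b τ y ≤ p.β ^ 2
  H0 : ∀ k < p.N, p.H τ y k ≤ p.H τ y (k + 1)
  zm : Monotone p.zz
  z1 : ∀ k, p.zz k ≤ 1
  a0 : 0 ≤ a
  a1 : a ≤ p.zz p.j0

/-- an admissible reference -/
structure Rf (ρ : ℕ → ℝ) : Prop where
  nn : 0 ≤ ρ 0
  mono : ∀ k < p.N, ρ k ≤ ρ (k + 1)
  le : ρ p.N ≤ 1

end Pm

namespace D23

variable {p : Pm} {τ y : ℝ} {m : ℕ} {a Λ : ℝ} {ρ : ℕ → ℝ}


theorem H_zero : p.H τ y 0 = 0 := if_pos (Nat.zero_le _)

theorem mk_length : (p.mk' τ y).length = p.N := List.length_ofFn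

theorem Mx_length : (p.Mx τ y a).length = p.N + 2 := by simp [Pm.Mx, mk_length]

theorem L_length : (p.L τ y m a).length = p.N + 1 := by simp [Pm.L, Pm.up, T157.G1.FL, mk_length]

theorem _root_.Crest.Agent.T156.Alt.Pm.Leg.β0 (h : p.Leg τ y a) : p.β ≠ 0 := fun e =>
  (h.b0.trans_le h.b1).ne' (by rw [e, sq, mul_zero])

theorem mk_nn (h : p.Leg τ y a) : ∀ t ∈ p.mk' τ y, 0 ≤ t.2 := fun t ht => by
  obtain ⟨k, rfl⟩ := List.mem_ofFn.1 ht
  exact sub_nonneg.2 (h.H0 k k.2)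

theorem Mx_nn (h : p.Leg τ y a) : ∀ t ∈ p.Mx τ y a, 0 ≤ t.2.1 ∧ 0 ≤ t.2.2 := fun t ht => by
  simp only [Pm.Mx, List.cons_append, List.mem_cons, List.mem_append, List.mem_map,
    List.not_mem_nil, or_false] at ht
  rcases ht with rfl | ⟨t, ht, rfl⟩ | rfl
  · exact ⟨div_nonneg h.b0.le (sq_nonneg _), le_rfl⟩
  · exact ⟨le_rfl, mk_nn h t ht⟩
  · exact ⟨le_rfl, le_rfl⟩

theorem qx_succ {k : ℕ} (hk : k ≤ p.N) : p.qx ρ (k + 1) = ρ k := if_pos hk

theorem qx_top : p.qx ρ (p.N + 2) = 1 := if_neg (Nat.not_succ_le_self _)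

theorem ook (h : p.Leg τ y a) (hρ : p.Rf ρ) : OOk (p.Mx τ y a) (p.qx ρ) := by
  refine ⟨Mx_nn h, le_rfl, fun j hj => ?_, by rw [Mx_length, qx_top]⟩
  rw [Mx_length] at hj
  rcases j with _ | k
  · exact hρ.nn.trans_eq (qx_succ (Nat.zero_le _)).symm
  · rw [qx_succ (by omega)]
    rcases Nat.lt_or_ge k p.N with hk | hk
    · rw [qx_succ hk]; exact hρ.mono k hk
    · obtain rfl : k = p.N := by omega
      rw [qx_top]; exact hρ.le

/-- the data without the last level -/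
theorem LM_eq : p.LM τ y m a = ((a, p.b τ y / p.β ^ 2, 0) ::
    (p.mk' τ y).map fun t => (t.1, 0, t.2)).map (mxL m p.β) ++ [mxL m p.β (1, 0, 0)] :=
  List.map_append

theorem same_L (h : p.Leg τ y a) (hm : 0 < m) : List.Forall₂ C.Same (((a, p.b τ y / p.β ^ 2, 0) ::
    (p.mk' τ y).map fun t => (t.1, 0, t.2)).map (mxL m p.β)) (p.L τ y m a) := by
  have hb := div_nonneg h.b0.le (sq_nonneg p.β)
  refine .cons ⟨rfl, funext fun x => funext fun x' => ?_⟩ ?_
  · rw [mxL_cov hm _ hb le_rfl, Link33.cov_wl m _ _ _ _ _ hm hb]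
    simp
  · rw [List.map_map]
    refine Lin22.forall₂_map _ _ _ fun t ht => ⟨rfl, funext fun x => funext fun x' => ?_⟩
    rw [Function.comp, mxL_cov hm _ le_rfl (mk_nn h t ht), Link33.cov_fl m _ _ _ _ hm (mk_nn h t ht)]
    simp

theorem top_cov (hm : 0 < m) (x : Cube m) : (mxL m p.β (1, 0, 0)).cov x x = 0 := by
  rw [mxL_cov hm _ le_rfl le_rfl]; simp

/-- **all tree laws agree** -/
theorem TE_LM (h : p.Leg τ y a) (hm : 0 < m) (s : Sh) (F : (s.Lf → Cube m) → ℝ) (z : Cube m → ℝ) :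
    TE (fun _ => 1) s (p.LM τ y m a) z F = TE (fun _ => 1) s (p.L τ y m a) z F := by
  rw [LM_eq, TE_null_top wt_one90 rfl (top_cov hm), Law.TE_same wt_one90 s (same_L h hm)]


theorem pi2_LM (h : p.Leg τ y a) (hm : 0 < m) (j : ℕ) (K : Cube m → Cube m → ℝ) (z : Cube m → ℝ) :
    pi2 (fun _ => 1) (p.LM τ y m a) j K z = pi2 (fun _ => 1) (p.L τ y m a) j K z := by
  rw [← Wt87.tX_two wt_one90, ← Wt87.tX_two wt_one90]
  exact TE_LM h hm _ (pr2 j K) z


theorem tilt_L : (((a, p.b τ y / p.β ^ 2, 0) :: (p.mk' τ y).map fun t => (t.1, 0, t.2)).map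
    (mxL m p.β)).map Lv.m = (p.L τ y m a).map Lv.m := by
  simp only [Pm.L, Pm.up, T157.G1.FL, List.map_cons, List.map_map]
  rfl


theorem dm_LM (m0 : ℝ) (j : ℕ) : dm (p.LM τ y m a) m0 j = dm (p.L τ y m a) m0 j := by
  rw [LM_eq, dm_top rfl, Cav22.dm_tilt tilt_L]

theorem dm_LM_zero : dm (p.LM τ y m a) 0 0 = a := sub_zero a

theorem dm_LM_succ (k : ℕ) : dm (p.LM τ y m a) 0 (k + 1) = p.dz τ y m a k := dm_LM 0 _

theorem dz_top : p.dz τ y m a (p.N + 1) = 0 := by
  simp [Pm.dz, dm, exP, T157.Casc.ex, L_length]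


/-- sums against the label weights -/
theorem sum_LM (g : ℕ → ℝ) :
    ∑ j ∈ Finset.range ((p.Mx τ y a).length + 1), dm (p.LM τ y m a) 0 j * g j =
      a * g 0 + ∑ k ∈ Finset.range (p.N + 1), p.dz τ y m a k * g (k + 1) := by
  rw [Mx_length, Finset.sum_range_succ', Finset.sum_range_succ, dm_LM_zero]
  simp only [dm_LM_succ, dz_top]
  ring

theorem mono_ofFn {Ω : Type} (f : ℝ × ℝ → Lv Ω) (hf : ∀ t, (f t).m = t.1) :
    ∀ (N : ℕ) (z d : ℕ → ℝ) (m0 : ℝ), Monotone z → (∀ k, z k ≤ 1) → m0 ≤ z 0 →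
      Mono m0 ((List.ofFn fun k : Fin N => (z k, d k)).map f)
  | 0, _, _, _, _, h1, h => h.trans (h1 0)
  | N + 1, z, d, _, hz, h1, h => by
      rw [List.ofFn_succ, List.map_cons]
      exact ⟨h.trans_eq (hf (z 0, d 0)).symm, mono_ofFn f hf N (fun k => z (k + 1)) (fun k => d (k + 1)) _
        (fun _ _ e => hz (Nat.succ_le_succ e)) (fun k => h1 _) ((hf _).trans_le (hz (Nat.zero_le 1)))⟩

theorem mono_L (h : p.Leg τ y a) : Mono 0 (p.L τ y m a) :=
  ⟨h.a0, mono_ofFn (fl m 1) (fun _ => rfl) p.N (fun k => p.zz (max k p.j0))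
    (fun k => p.H τ y (k + 1) - p.H τ y k) a (fun _ _ e => h.zm (max_le_max e le_rfl))
    (fun _ => h.z1 _) (h.a1.trans (h.zm (le_max_right _ _)))⟩

theorem mono_LM (h : p.Leg τ y a) : Mono 0 (p.LM τ y m a) := by
  rw [LM_eq]
  exact mono_top rfl _ _ (Cav22.mono_tilt tilt_L.symm (mono_L h))

theorem dz_nonneg (h : p.Leg τ y a) (k : ℕ) : 0 ≤ p.dz τ y m a k := dm_nonneg (mono_L h) _

theorem sum_dz : ∑ k ∈ Finset.range (p.N + 1), p.dz τ y m a k = 1 - a := by
  have h1 := sum_dm (p.LM τ y m a) 0 (p.LM τ y m a).length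
  have h2 := sum_LM (p := p) (τ := τ) (y := y) (m := m) (a := a) fun _ => 1
  rw [ex_length, List.length_map] at h1
  simp only [mul_one] at h2
  linarith

theorem dAcc_Mx (k : ℕ) : dAcc (p.Mx τ y a) (k + 1) = p.b τ y / p.β ^ 2 := by
  rw [Pm.Mx, List.cons_append, OneP.dAcc_cons, dAcc, List.sum_eq_zero, add_zero]
  intro x hx
  obtain ⟨t, ht, rfl⟩ := List.mem_map.1 hx
  rcases List.mem_append.1 (List.mem_of_mem_take ht) with ht | ht
  · obtain ⟨t, -, rfl⟩ := List.mem_map.1 ht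
    rfl
  · rw [List.mem_singleton.1 ht]

theorem oTau_zero : oTau m p.β (p.Mx τ y a) 0 = 0 := by rw [oTau, OneP.dAcc_zero, mul_zero]

theorem oTau_succ (h : p.Leg τ y a) (k : ℕ) : oTau m p.β (p.Mx τ y a) (k + 1) = p.bp τ y m := by
  have := h.β0
  have h1 : (m : ℝ) + 1 ≠ 0 := by positivity
  rw [oTau, dAcc_Mx, bb_sq, Pm.bp]
  field_simp

theorem oTau_top (h : p.Leg τ y a) : oTau m p.β (p.Mx τ y a) (p.Mx τ y a).length = p.bp τ y m := by
  rw [Mx_length, oTau_succ h]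


theorem sum_take_ofFn (g : ℕ → ℝ) : ∀ (N k : ℕ), k ≤ N →
    ((List.ofFn fun i : Fin N => g i).take k).sum = ∑ i ∈ Finset.range k, g i := fun N k hk => by
  rw [List.ofFn_eq_map, ← List.map_take, show (fun i : Fin N => g i) = g ∘ Fin.val from rfl,
    ← List.map_map, List.map_take, List.map_coe_finRange_eq_range, List.take_range, min_eq_left hk]
  rfl

theorem fAcc_Mx {k : ℕ} (hk : k ≤ p.N) : fAcc (p.Mx τ y a) (k + 1) = p.H τ y k := by
  rw [fAcc, Pm.Mx, List.cons_append, List.take_succ_cons, List.map_cons, List.sum_cons,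
    List.take_append_of_le_length (by simpa [mk_length] using hk), ← List.map_take, List.map_map,
    List.map_take, Pm.mk', List.map_ofFn]
  refine (zero_add _).trans ((sum_take_ofFn (fun k => p.H τ y (k + 1) - p.H τ y k) _ k hk).trans ?_)
  rw [Finset.sum_range_sub, H_zero, sub_zero]

theorem oU_succ {k : ℕ} (hk : k ≤ p.N) (x x' : Cube m) :
    oU (p.qx ρ) (k + 1) x x' = ov x x' - ρ k := by rw [oU, qx_succ hk]

theorem E2_eq (h : p.Leg τ y a) (hm : 0 < m) (f : ℝ → ℝ) (k : ℕ) :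
    pi2 (fun _ => 1) (p.LM τ y m a) (k + 1) (fun x x' => f (ov x x')) 0 = p.E2 τ y m a f k :=
  pi2_LM h hm _ _ 0

theorem uM_succ (h : p.Leg τ y a) (hm : 0 < m) (i : ℕ) {k : ℕ} (hk : k ≤ p.N) :
    uM m p.β (p.Mx τ y a) (p.qx ρ) i (k + 1) = p.E2 τ y m a (fun r => |r - ρ k| ^ i) k := by
  simp only [uM, oU_succ hk]
  exact E2_eq h hm (fun r => |r - ρ k| ^ i) k

/-- the moments in the names of the class -/
theorem momU_le (h : p.Leg τ y a) (hm : 0 < m) (hρ : p.Rf ρ) (i : ℕ) :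
    momU m p.β (p.Mx τ y a) (p.qx ρ) (i + 2) ≤ a / m + ∑ k ∈ Finset.range (p.N + 1),
      p.dz τ y m a k * p.E2 τ y m a (fun r => |r - ρ k| ^ (i + 2)) k := by
  rw [momU, sum_LM]
  refine add_le_add ((mul_le_mul_of_nonneg_left (uM_root hm (ook h hρ) rfl i) h.a0).trans_eq
    (mul_one_div _ _)) (Finset.sum_congr rfl fun k hk => ?_).le
  rw [uM_succ h hm _ (Nat.lt_succ_iff.1 (Finset.mem_range.1 hk))]




theorem Mx_pos (h : p.Leg τ y a) (ha : 0 < a) : ∀ t ∈ p.Mx τ y a, 0 < t.1 := fun t ht => by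
  simp only [Pm.Mx, List.cons_append, List.mem_cons, List.mem_append, List.mem_map,
    List.not_mem_nil, or_false] at ht
  rcases ht with rfl | ⟨t, ht, rfl⟩ | rfl
  · exact ha
  · obtain ⟨k, rfl⟩ := List.mem_ofFn.1 ht
    exact (ha.trans_le h.a1).trans_le (h.zm (le_max_right _ _))
  · exact one_pos

theorem adm_Mx (h : p.Leg τ y a) (ha : 0 < a) (hρ : p.Rf ρ) :
    R339.B.Adm 1 (opV m p.β (p.Mx τ y a) (p.qx ρ)) := adm_opV (ook h hρ) (mono_LM h) (Mx_pos h ha)

/-- the site overlap at the profile node `k` -/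
theorem Gam_Mx (h : p.Leg τ y a) (hρ : p.Rf ρ) {k : ℕ} (hk : k ≤ p.N) :
    pi2 (fun _ => 1) (opS m p.β (p.Mx τ y a) (p.qx ρ)) (k + 1) (fun e e' =>
      ProbabilityR.SpinGlassDynamics.spin e * ProbabilityR.SpinGlassDynamics.spin e') 0 =
      Pr.Gam (opV m p.β (p.Mx τ y a) (p.qx ρ)) (p.bp τ y m * ρ k + p.H τ y k) := by
  rw [pi2_opS (ook h hρ) (by rw [Mx_length]; omega), oTau_succ h, qx_succ hk, fAcc_Mx hk]


end D23

end Crest.Agent.T156.Alt

end
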