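import Crest.Agent.T156.CaWt_87

/-!
# Row 156: the law of the leaves only depends on the split matrix (helper87)

`TE_iso`: consistency of the tree laws (permutations, marginals, commuting grafts).
`dT_seq`: the derivative `dT` of helper38 with sequential grafts.
-/

set_option autoImplicit false
set_option linter.unusedSectionVars false

noncomputable section

namespace Crest.Agent.T156.Cas

open MeasureTheory Real Set Filter Topology
open Crest.Agent.T157.E Crest.Agent.T157.Casc Crest.Agent.T157.SL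

variable {Ω : Type} [Fintype Ω] {w : Ω → ℝ}

namespace Iso87

open Wt87 Law

variable {κ : Type} [DecidableEq κ]

/-- expectation of a product of one-leaf functions, computed from the split matrix -/
def Q (w : Ω → ℝ) (f : κ → Ω → ℝ) : List (Lv Ω) → (κ → κ → ℕ) → Finset κ → (Ω → ℝ) → ℝ
  | [], _, A, h => ∏ a ∈ A, Pf w [] h (f a)
  | l :: L, σ, A, h => ∏ c ∈ A.image fun a => A.filter fun b => σ a b ≠ 0,
      tE l (X w L) (Q w f L (fun a b => σ a b - 1) c) h

theorem Q_congr (w : Ω → ℝ) (f : κ → Ω → ℝ) : ∀ (L : List (Lv Ω)) {σ σ' : κ → κ → ℕ}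
    {A : Finset κ}, (∀ a ∈ A, ∀ b ∈ A, σ a b = σ' a b) → Q w f L σ A = Q w f L σ' A
  | [], _, _, _, _ => rfl
  | l :: L, σ, σ', A, e => by
    funext h
    have e1 : (A.image fun a => A.filter fun b => σ a b ≠ 0) =
        A.image fun a => A.filter fun b => σ' a b ≠ 0 :=
      Finset.image_congr fun a ha => Finset.filter_congr fun b hb => by rw [e a ha b hb]
    simp only [Q, e1]
    refine Finset.prod_congr rfl fun c hc => ?_
    obtain ⟨a, -, rfl⟩ := Finset.mem_image.1 hc
    rw [Q_congr w f L fun a ha b hb => congrArg (· - 1)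
      (e a (Finset.mem_filter.1 ha).1 b (Finset.mem_filter.1 hb).1)]

theorem Q_empty (w : Ω → ℝ) (f : κ → Ω → ℝ) : ∀ (L : List (Lv Ω)) (σ : κ → κ → ℕ),
    Q w f L σ ∅ = fun _ => 1
  | [], _ => rfl
  | _ :: _, _ => rfl

theorem Q_step (hw : Wt w) (f : κ → Ω → ℝ) (l : Lv Ω) (L : List (Lv Ω)) {σ : κ → κ → ℕ}
    {A : Finset κ} (e : ∀ a b, σ a b ≠ 0) (h : Ω → ℝ) :
    Q w f (l :: L) σ A h = tE l (X w L) (Q w f L (fun a b => σ a b - 1) A) h := by
  rcases A.eq_empty_or_nonempty with rfl | hA
  · rw [Q_empty, Q_empty, tE_const (lg_X hw L)]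
  · have e1 : (fun a => A.filter fun b => σ a b ≠ 0) = fun _ => A :=
      funext fun a => Finset.filter_true_of_mem fun b _ => e a b
    simp only [Q, e1, Finset.image_const hA, Finset.prod_singleton]

theorem Q_split (w : Ω → ℝ) (f : κ → Ω → ℝ) (L : List (Lv Ω)) {σ : κ → κ → ℕ} (A : Finset κ)
    (p : κ → Prop) [DecidablePred p] (e : ∀ a b, p a → ¬p b → σ a b = 0 ∧ σ b a = 0)
    (e' : ∀ a, σ a a = L.length) (h : Ω → ℝ) :
    Q w f L σ A h = Q w f L σ (A.filter p) h * Q w f L σ (A.filter fun a => ¬p a) h := by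
  cases L with
  | nil => exact (Finset.prod_filter_mul_prod_filter_not A p _).symm
  | cons l L =>
    simp only [Q]
    rw [← Finset.prod_union]
    · congr 1
      conv_lhs => rw [← Finset.filter_union_filter_not_eq p A, Finset.image_union,
        Finset.filter_union_filter_not_eq p A]
      congr 1
      · refine Finset.image_congr fun a ha => ?_
        have ha' : p a := (Finset.mem_filter.1 ha).2
        rw [Finset.filter_filter]
        exact Finset.filter_congr fun b _ =>
          ⟨fun hb => ⟨by_contra fun hp => hb (e a b ha' hp).1, hb⟩, fun hb => hb.2⟩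
      · refine Finset.image_congr fun a ha => ?_
        have ha' : ¬p a := (Finset.mem_filter.1 ha).2
        rw [Finset.filter_filter]
        exact Finset.filter_congr fun b _ =>
          ⟨fun hb => ⟨fun hp => hb (e b a hp ha').2, hb⟩, fun hb => hb.2⟩
    · refine Finset.disjoint_left.2 fun c hc hc' => ?_
      obtain ⟨a, ha, rfl⟩ := Finset.mem_image.1 hc
      obtain ⟨b, -, hb⟩ := Finset.mem_image.1 hc'
      have h1 : a ∈ (A.filter p).filter fun b => σ a b ≠ 0 :=
        Finset.mem_filter.2 ⟨ha, by rw [e']; exact Nat.succ_ne_zero _⟩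
      rw [← hb] at h1
      exact (Finset.mem_filter.1 (Finset.mem_filter.1 h1).1).2 (Finset.mem_filter.1 ha).2

/-- the statement proved by induction -/
def TQ (w : Ω → ℝ) (f : κ → Ω → ℝ) (L : List (Lv Ω)) (s : Sh) : Prop :=
  ∀ (e : κ → s.Lf) (A : Finset κ), (∀ a ∈ A, ∀ b ∈ A, e a = e b → a = b) → ∀ h,
    TE w s L h (fun x => ∏ a ∈ A, f a (x (e a))) =
      Q w f L (fun a b => s.shr (e a) (e b) L.length) A h

theorem tq_split (hw : Wt w) {f : κ → Ω → ℝ} {L : List (Lv Ω)} {s t : Sh} (Hs : TQ w f L s)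
    (Ht : TQ w f L t) : TQ w f L (.split s t) := fun e A hA h => by
  let e' : κ → s.Lf ⊕ t.Lf := e
  let e1 : κ → s.Lf := fun a => (e' a).elim id fun _ => s.fst
  let e2 : κ → t.Lf := fun a => (e' a).elim (fun _ => t.fst) id
  have h1 : ∀ a, (e' a).isLeft → e a = .inl (e1 a) := fun a ha => by
    show e' a = .inl ((e' a).elim id fun _ => s.fst)
    cases hh : e' a with
    | inl _ => rfl
    | inr _ => rw [hh] at ha; exact absurd ha (by simp)
  have h2 : ∀ a, ¬(e' a).isLeft → e a = .inr (e2 a) := fun a ha => by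
    show e' a = .inr ((e' a).elim (fun _ => t.fst) id)
    cases hh : e' a with
    | inl _ => rw [hh] at ha; exact absurd rfl ha
    | inr _ => rfl
  have i1 := Hs e1 (A.filter fun a => (e' a).isLeft) (fun a ha b hb hab =>
    hA a (Finset.mem_filter.1 ha).1 b (Finset.mem_filter.1 hb).1 ((h1 a (Finset.mem_filter.1 ha).2).trans
      ((congrArg Sum.inl hab).trans (h1 b (Finset.mem_filter.1 hb).2).symm))) h
  have i2 := Ht e2 (A.filter fun a => ¬(e' a).isLeft) (fun a ha b hb hab =>
    hA a (Finset.mem_filter.1 ha).1 b (Finset.mem_filter.1 hb).1 ((h2 a (Finset.mem_filter.1 ha).2).trans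
      ((congrArg Sum.inr hab).trans (h2 b (Finset.mem_filter.1 hb).2).symm))) h
  have c : ∀ {a b : κ} {u v : (Sh.split s t).Lf}, e a = u → e b = v →
      (Sh.split s t).shr (e a) (e b) L.length = (Sh.split s t).shr u v L.length :=
    fun hu hv => by rw [hu, hv]
  rw [Q_split w f L A (fun a => (e' a).isLeft)
      (fun a b ha hb => ⟨c (h1 a ha) (h2 b hb), c (h2 b hb) (h1 a ha)⟩)
      (fun a => shr_self _ _ _),
    Q_congr w f L (σ' := fun a b => s.shr (e1 a) (e1 b) L.length) fun a ha b hb =>
      c (h1 a (Finset.mem_filter.1 ha).2) (h1 b (Finset.mem_filter.1 hb).2),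
    Q_congr w f L (σ' := fun a b => t.shr (e2 a) (e2 b) L.length)
      (A := A.filter fun a => ¬(e' a).isLeft) fun a ha b hb =>
      c (h2 a (Finset.mem_filter.1 ha).2) (h2 b (Finset.mem_filter.1 hb).2),
    ← i1, ← i2, TE_split hw, ← TE_mul_const hw]
  congr 1
  funext x
  rw [← TE_const_mul hw]
  congr 1
  funext x'
  rw [← Finset.prod_filter_mul_prod_filter_not A fun a => (e' a).isLeft]
  congr 1
  · exact Finset.prod_congr rfl fun a ha =>
      congrArg (fun u : s.Lf ⊕ t.Lf => f a (Sum.elim x x' u)) (h1 a (Finset.mem_filter.1 ha).2)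
  · exact Finset.prod_congr rfl fun a ha =>
      congrArg (fun u : s.Lf ⊕ t.Lf => f a (Sum.elim x x' u)) (h2 a (Finset.mem_filter.1 ha).2)

theorem tq (hw : Wt w) (f : κ → Ω → ℝ) : ∀ (L : List (Lv Ω)) (s : Sh), TQ w f L s
  | [], .one => fun e A hA h => by
      rw [TE_one hw]
      rcases A.eq_empty_or_nonempty with rfl | ⟨a, ha⟩
      · simp [Q, Pf, sum_P hw]
      · obtain rfl : A = {a} := Finset.eq_singleton_iff_unique_mem.2 ⟨ha, fun b hb => hA b hb a ha rfl⟩
        simp [Q]
  | [], .step s => fun e A hA h => (TE_step_nil w s h _).trans (tq hw f [] s e A hA h)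
  | l :: L, .one => fun e A hA h => by
      refine (TE_one_cons hw l L h _).trans (Eq.trans ?_
        (Q_step hw f l L (fun _ _ => Nat.succ_ne_zero _) h).symm)
      exact congrArg (fun Φ => tE l (X w L) Φ h) (funext (tq hw f L .one e A hA))
  | l :: L, .step s => fun e A hA h => by
      refine (TE_step hw s l L h _).trans (Eq.trans ?_
        (Q_step hw f l L (fun _ _ => Nat.succ_ne_zero _) h).symm)
      exact congrArg (fun Φ => tE l (X w L) Φ h) (funext (tq hw f L s e A hA))
  | L, .split s t => tq_split hw (tq hw f L s) (tq hw f L t)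

theorem swap4 {α : Type} [Fintype α] (R : Finset ℕ) (c : α → ℕ → ℝ) (T : α → ℕ → α → ℕ → ℝ) :
    ∑ a, ∑ j ∈ R, c a j * ∑ b, ∑ k ∈ R, c b k * T b k a j =
      ∑ a, ∑ j ∈ R, c a j * ∑ b, ∑ k ∈ R, c b k * T a j b k := by
  have e : ∀ G : α → ℕ → ℝ, ∑ a, ∑ j ∈ R, G a j = ∑ p ∈ Finset.univ ×ˢ R, G p.1 p.2 :=
    fun G => (Finset.sum_product' _ _ G).symm
  simp only [e, Finset.mul_sum]
  exact Finset.sum_comm.trans (Finset.sum_congr rfl fun _ _ => Finset.sum_congr rfl fun _ _ =>
    mul_left_comm _ _ _)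

end Iso87

open Wt87 Law

/-- expectation of a function of labelled leaves in terms of the split matrix -/
theorem TE_eq_Q (hw : Wt w) {κ : Type} [Fintype κ] [DecidableEq κ] [DecidableEq Ω] (s : Sh)
    (L : List (Lv Ω)) (h : Ω → ℝ) {e : κ → s.Lf} (he : Function.Injective e) (F : (κ → Ω) → ℝ) :
    TE w s L h (fun x => F fun a => x (e a)) = ∑ y : κ → Ω, F y *
      Iso87.Q w (fun a z => if z = y a then 1 else 0) L
        (fun a b => s.shr (e a) (e b) L.length) Finset.univ h := by
  simp only [← fun y : κ → Ω => Iso87.tq hw (fun a z => if z = y a then (1 : ℝ) else 0) L s e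
    Finset.univ (fun a _ b _ hab => he hab) h, ← TE_const_mul hw]
  rw [← TE_sum hw]
  congr 1
  funext x
  rw [Finset.sum_eq_single (fun a => x (e a))]
  · simp
  · intro y _ hy
    obtain ⟨a, ha⟩ := Function.ne_iff.1 hy
    rw [Finset.prod_eq_zero (Finset.mem_univ a) (if_neg (Ne.symm ha)), mul_zero]
  · simp

/-- **the law of labelled leaves only depends on the split matrix** -/
theorem TE_lab (hw : Wt w) {κ : Type} [Finite κ] (s s' : Sh) (L : List (Lv Ω)) (h : Ω → ℝ)
    {e : κ → s.Lf} {e' : κ → s'.Lf} (he : Function.Injective e) (he' : Function.Injective e')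
    (H : ∀ a b, a ≠ b → s.shr (e a) (e b) L.length = s'.shr (e' a) (e' b) L.length)
    (F : (κ → Ω) → ℝ) :
    TE w s L h (fun x => F fun a => x (e a)) = TE w s' L h fun x => F fun a => x (e' a) := by
  classical
  have := Fintype.ofFinite κ
  rw [TE_eq_Q hw s L h he, TE_eq_Q hw s' L h he']
  refine Finset.sum_congr rfl fun y _ => ?_
  rw [Iso87.Q_congr w _ L fun a _ b _ => ?_]
  by_cases hab : a = b
  · rw [hab, shr_self, shr_self]
  · exact H a b hab

/-- **consistency of the tree laws** -/
theorem TE_iso (hw : Wt w) (s s' : Sh) (L : List (Lv Ω)) (h : Ω → ℝ) {e : s.Lf → s'.Lf}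
    (he : Function.Injective e)
    (H : ∀ a b, a ≠ b → s'.shr (e a) (e b) L.length = s.shr a b L.length) (F : (s.Lf → Ω) → ℝ) :
    TE w s' L h (fun x => F fun a => x (e a)) = TE w s L h F :=
  TE_lab hw s' s L h he Function.injective_id H F

/-- two leaves of any tree -/
theorem TE_pair (hw : Wt w) (s : Sh) (L : List (Lv Ω)) (h : Ω → ℝ) {a b : s.Lf} (hab : a ≠ b)
    (K : Ω → Ω → ℝ) :
    TE w s L h (fun x => K (x a) (x b)) = pi2 w L (s.shr a b L.length) K h := by
  set j := s.shr a b L.length with hj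
  have hne : Sh.twoL j ≠ Sh.twoR j := fun e => by
    have h1 := shr_two j (j + 1)
    rw [e, shr_self] at h1
    omega
  have hm : min j L.length = j := min_eq_left (shr_le s a b _)
  refine (TE_lab hw s (Sh.two j) L h (κ := Bool) (e := fun i => cond i a b)
    (e' := fun i => cond i (Sh.twoL j) (Sh.twoR j)) ?_ ?_ ?_ fun y => K (y true) (y false)).trans
    (tX_two hw K j L h)
  · rintro (_ | _) (_ | _) e
    exacts [rfl, absurd e.symm hab, absurd e hab, rfl]
  · rintro (_ | _) (_ | _) e
    exacts [rfl, absurd e.symm hne, absurd e hne, rfl]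
  · rintro (_ | _) (_ | _) e
    · exact absurd rfl e
    · exact (shr_comm s b a _).trans (((shr_comm _ _ _ _).trans ((shr_two j _).trans hm)).symm)
    · exact ((shr_two j _).trans hm).symm
    · exact absurd rfl e

/-- one leaf of any tree -/
theorem TE_single (hw : Wt w) (s : Sh) (L : List (Lv Ω)) (h : Ω → ℝ) (a : s.Lf) (f : Ω → ℝ) :
    TE w s L h (fun x => f (x a)) = Pf w L h f :=
  (TE_iso hw .one s L h (e := fun _ => a) (fun _ _ _ => rfl) (fun _ _ e => absurd rfl e)
    fun x => f (x ())).trans (TE_one hw L h _)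

/-- the kernel `S` between two leaves -/
def k2 (s : Sh) (K : ℕ) (S : ℕ → Ω → Ω → ℝ) (a b : s.Lf) (x : s.Lf → Ω) : ℝ :=
  S (s.shr a b K) (x a) (x b)

/-- one more replica: `Gn s G = ∑ cw · E (G on the graft)` -/
def Gn (w : Ω → ℝ) (s : Sh) (M : List (Lv Ω)) (h : Ω → ℝ)
    (G : ∀ (a : s.Lf) (j : ℕ), ((s.graft a j).Lf → Ω) → ℝ) : ℝ :=
  Wn s M fun a j => TE w (s.graft a j) M h (G a j)

/-- **`dT` with sequential grafts** -/
theorem dT_seq (hw : Wt w) (s : Sh) (M : List (Lv Ω)) (h : Ω → ℝ) (S : ℕ → Ω → Ω → ℝ)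
    (F : (s.Lf → Ω) → ℝ) :
    dT w s M h S F = TE w s M h (fun x => F x * ∑ a, ∑ b, k2 s M.length S a b x) -
      Gn w s M h (fun a j x => F (fun c => x (s.emb a j c)) *
        (∑ b, (k2 _ M.length S (s.emb a j b) (s.nw a j) x +
          k2 _ M.length S (s.nw a j) (s.emb a j b) x) + k2 _ M.length S (s.nw a j) (s.nw a j) x)) +
      Wn s M fun a j => Gn w (s.graft a j) M h fun c k x =>
        F (fun b => x ((s.graft a j).emb c k (s.emb a j b))) *
          k2 _ M.length S ((s.graft a j).nw c k) ((s.graft a j).emb c k (s.nw a j)) x := by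
  have hle : ∀ {j}, j ∈ Finset.range (M.length + 1) → j ≤ M.length := fun hj =>
    Nat.lt_succ_iff.1 (Finset.mem_range.1 hj)
  rw [dT]
  congr 1
  · congr 1
    · simp only [Finset.mul_sum, TE_sum hw]
      rfl
    · rw [Gn, ← sum_cw_eq]
      refine Finset.sum_congr rfl fun a _ => Finset.sum_congr rfl fun j hj => ?_
      simp only [mul_add, Finset.mul_sum, Finset.sum_add_distrib, TE_add hw, TE_sum hw, k2, shr_nw,
        shr_nw', shr_self, min_eq_left (hle hj), shr_comm s _ a]
      rfl
  · have e1 : ∀ (a : s.Lf) (j : ℕ), j ≤ M.length → (Gn w (s.graft a j) M h fun c k x =>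
        F (fun b => x ((s.graft a j).emb c k (s.emb a j b))) *
          k2 _ M.length S ((s.graft a j).nw c k) ((s.graft a j).emb c k (s.nw a j)) x) =
        ∑ b, ∑ k ∈ Finset.range (M.length + 1), cw s M b k *
          tX w ((s.graft a j).graft (s.emb a j b) k) M h (fun _ x =>
            F (fun c => x ((s.graft a j).emb (s.emb a j b) k (s.emb a j c))) *
              S (s.shr b a (min k j)) (x ((s.graft a j).nw (s.emb a j b) k))
                (x ((s.graft a j).emb (s.emb a j b) k (s.nw a j)))) +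
        ∑ i ∈ Finset.range (M.length - j + 1), dm (M.drop j) 0 i *
          tX w ((s.graft a j).graft (s.nw a j) (i + j)) M h fun _ x =>
            F (fun b => x ((s.graft a j).emb (s.nw a j) (i + j) (s.emb a j b))) *
              S (i + j) (x ((s.graft a j).emb (s.nw a j) (i + j) (s.nw a j)))
                (x ((s.graft a j).nw (s.nw a j) (i + j))) := fun a j hj => by
      have nc := nc_graft hw (s.graft a j) M h (G := fun c k x y => F (fun b => x (s.emb a j b)) *
        S ((s.graft a j).shr (s.nw a j) c (min k M.length)) y (x (s.nw a j))) fun c c' k e => by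
          rw [shr_congr _ (j := min k M.length) (a := c) (b := c')
            (by rw [min_comm, shr_min, e])]
      simp only [Gn, k2, shr_nw']
      refine (Wn_graft' M s a hj nc).trans ?_
      congr 1
      · rw [← sum_cw_eq]
        refine Finset.sum_congr rfl fun b _ => Finset.sum_congr rfl fun k hk => ?_
        simp only [shr_nw', min_eq_left (hle hk), min_comm j k]
      · refine Finset.sum_congr rfl fun i hi => ?_
        have hi' : i + j ≤ M.length := by have := Finset.mem_range.1 hi; omega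
        simp only [shr_self, min_eq_left hi']
        rw [graft_pi2 hw s a j i M h F (S (i + j)),
          graft_pi2 hw s a j i M h F fun x y => S (i + j) y x]
        simp only [pi2_symm w _ i (K := fun x y => S (i + j) y x) (K' := S (i + j))
          fun x y => add_comm _ _]
    rw [Wn_congr s M e1, ← sum_cw_eq]
    simp only [mul_add, Finset.sum_add_distrib]
    congr 1
    exact Iso87.swap4 _ _ fun a j b k => tX w ((s.graft a j).graft (s.emb a j b) k) M h fun _ x =>
      F (fun c => x ((s.graft a j).emb (s.emb a j b) k (s.emb a j c))) *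
        S (s.shr b a (min k j)) (x ((s.graft a j).nw (s.emb a j b) k))
          (x ((s.graft a j).emb (s.emb a j b) k (s.nw a j)))

end Crest.Agent.T156.Cas

end
private theorem rz_f968ecb2fb : type_of% @_root_.Crest.Agent.T156.Cas.Iso87.Q.eq_def := @_root_.Crest.Agent.T156.Cas.Iso87.Q.eq_def -- L29
private theorem rz_fcc699c5e4 : type_of% @_root_.Crest.Agent.T156.Cas.Iso87.Q.eq_1 := @_root_.Crest.Agent.T156.Cas.Iso87.Q.eq_1 -- L29
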