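import Crest.Agent.T156.CaGf_90

/-!
# Row 156 (helper16): the interpolation formula on replica trees
-/

set_option autoImplicit false
set_option linter.unusedSectionVars false

noncomputable section

namespace Crest.Agent.T156.Cas

open MeasureTheory ProbabilityTheory Real Set Filter Topology
open Crest.Agent.T157.E Crest.Agent.T157.Casc Crest.Agent.T157.SL

variable {Ω : Type}

namespace Itp16

/-- a choice of features for every level -/
abbrev Sel (Ω : Type) : Type 1 := (l : TL Ω) → Ω → l.ι → ℝ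

def fg1 (u : ℝ) (σ : Sel Ω) : (L : List (TL Ω)) → ℕ → Ω → NI (atL L u) → ℝ
  | [], _, _ => 0
  | _ :: _, 0, _ => 0
  | l :: L, j + 1, y => Sum.elim (σ l y) (fg1 u σ L j y)

def fg (u : ℝ) (σ : Sel Ω) : (s : Sh) → (L : List (TL Ω)) → s.Lf → ℕ → Ω → NT s (atL L u) → ℝ
  | .one, L, _, j, y => fg1 u σ L j y
  | .step s, [], a, j, y => fg u σ s [] a j y
  | .step _, _ :: _, _, 0, _ => 0
  | .step s, l :: L, a, j + 1, y => Sum.elim (σ l y) (fg u σ s L a j y)
  | .split s _, L, .inl a, j, y => Sum.elim (fg u σ s L a j y) 0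
  | .split _ t, L, .inr a, j, y => Sum.elim 0 (fg u σ t L a j y)

def e1 (t u : ℝ) : (L : List (TL Ω)) → NI (atL L t) ≃ NI (atL L u)
  | [] => Equiv.refl Empty
  | l :: L => Equiv.sumCongr (Equiv.refl l.ι) (e1 t u L)

def eT (t u : ℝ) : (s : Sh) → (L : List (TL Ω)) → NT s (atL L t) ≃ NT s (atL L u)
  | .one, L => e1 t u L
  | .step s, [] => eT t u s []
  | .step s, l :: L => Equiv.sumCongr (Equiv.refl l.ι) (eT t u s L)
  | .split s s', L => Equiv.sumCongr (eT t u s L) (eT t u s' L)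

theorem fe1_e (t u : ℝ) : ∀ (L : List (TL Ω)) (j : ℕ) (y : Ω) (i : NI (atL L t)),
    fe1 (atL L t) j y i = fg1 u (fun l => l.A t) L j y (e1 t u L i)
  | [], _, _, i => Empty.elim i
  | _ :: _, 0, _, _ => rfl
  | _ :: _, _ + 1, _, .inl _ => rfl
  | _ :: L, j + 1, y, .inr i => fe1_e t u L j y i

theorem fe_e (t u : ℝ) : ∀ (s : Sh) (L : List (TL Ω)) (a : s.Lf) (j : ℕ) (y : Ω)
    (i : NT s (atL L t)), fe s (atL L t) a j y i = fg u (fun l => l.A t) s L a j y (eT t u s L i)
  | .one, L, _, j, y, i => fe1_e t u L j y i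
  | .step s, [], a, j, y, i => fe_e t u s [] a j y i
  | .step _, _ :: _, _, 0, _, _ => rfl
  | .step _, _ :: _, _, _ + 1, _, .inl _ => rfl
  | .step s, _ :: L, a, j + 1, y, .inr i => fe_e t u s L a j y i
  | .split s _, L, .inl a, j, y, .inl i => fe_e t u s L a j y i
  | .split _ _, _, .inl _, _, _, .inr _ => rfl
  | .split _ _, _, .inr _, _, _, .inl _ => rfl
  | .split _ s, L, .inr a, j, y, .inr i => fe_e t u s L a j y i

theorem fe1_eq (t : ℝ) : ∀ (L : List (TL Ω)) (j : ℕ) (y : Ω) (i : NI (atL L t)),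
    fe1 (atL L t) j y i = fg1 t (fun l => l.A t) L j y i
  | [], _, _, i => Empty.elim i
  | _ :: _, 0, _, _ => rfl
  | _ :: _, _ + 1, _, .inl _ => rfl
  | _ :: L, j + 1, y, .inr i => fe1_eq t L j y i

theorem fe_eq (t : ℝ) : ∀ (s : Sh) (L : List (TL Ω)) (a : s.Lf) (j : ℕ) (y : Ω)
    (i : NT s (atL L t)), fe s (atL L t) a j y i = fg t (fun l => l.A t) s L a j y i
  | .one, L, _, j, y, i => fe1_eq t L j y i
  | .step s, [], a, j, y, i => fe_eq t s [] a j y i
  | .step _, _ :: _, _, 0, _, _ => rfl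
  | .step _, _ :: _, _, _ + 1, _, .inl _ => rfl
  | .step s, _ :: L, a, j + 1, y, .inr i => fe_eq t s L a j y i
  | .split s _, L, .inl a, j, y, .inl i => fe_eq t s L a j y i
  | .split _ _, _, .inl _, _, _, .inr _ => rfl
  | .split _ _, _, .inr _, _, _, .inl _ => rfl
  | .split _ s, L, .inr a, j, y, .inr i => fe_eq t s L a j y i

section ind
variable (u : ℝ) (Q : (ℝ → ℝ) → (ℝ → ℝ) → Prop) (h0 : Q (fun _ => 0) fun _ => 0) (σ σ' : ℝ → Sel Ω)
include h0

theorem fg1_ind : ∀ (L : List (TL Ω)),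
    (∀ l ∈ L, ∀ y i, Q (fun t => σ t l y i) fun t => σ' t l y i) → ∀ j y i,
    Q (fun t => fg1 u (σ t) L j y i) fun t => fg1 u (σ' t) L j y i
  | [], _, _, _, i => Empty.elim i
  | _ :: _, _, 0, _, _ => h0
  | l :: _, h, _ + 1, y, .inl i => h l (by simp) y i
  | _ :: L, h, j + 1, y, .inr i => fg1_ind L (fun l hl => h l (by simp [hl])) j y i

theorem fg_ind : ∀ (s : Sh) (L : List (TL Ω)),
    (∀ l ∈ L, ∀ y i, Q (fun t => σ t l y i) fun t => σ' t l y i) → ∀ a j y i,
    Q (fun t => fg u (σ t) s L a j y i) fun t => fg u (σ' t) s L a j y i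
  | .one, L, h, _, j, y, i => fg1_ind u Q h0 σ σ' L h j y i
  | .step s, [], h, a, j, y, i => fg_ind s [] h a j y i
  | .step _, _ :: _, _, _, 0, _, _ => h0
  | .step _, l :: _, h, _, _ + 1, y, .inl i => h l (by simp) y i
  | .step s, _ :: L, h, a, j + 1, y, .inr i => fg_ind s L (fun l hl => h l (by simp [hl])) a j y i
  | .split s _, L, h, .inl a, j, y, .inl i => fg_ind s L h a j y i
  | .split _ _, _, _, .inl _, _, _, .inr _ => h0
  | .split _ _, _, _, .inr _, _, _, .inl _ => h0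
  | .split _ s, L, h, .inr a, j, y, .inr i => fg_ind s L h a j y i

end ind

/-- accumulated Gram kernel -/
def gacc (σ σ' : Sel Ω) (L : List (TL Ω)) (j : ℕ) (y y' : Ω) : ℝ :=
  ((L.take j).map fun l => ∑ i, σ l y i * σ' l y' i).sum

theorem fg1_cov (u : ℝ) (σ σ' : Sel Ω) : ∀ (L : List (TL Ω)) (j k : ℕ) (y y' : Ω),
    ∑ i, fg1 u σ L j y i * fg1 u σ' L k y' i = gacc σ σ' L (min j k) y y'
  | [], j, k, y, y' => by simp [fg1, gacc]
  | _ :: _, 0, k, y, y' => by simp [fg1, gacc]
  | _ :: _, j + 1, 0, y, y' => by simp [fg1, gacc]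
  | l :: L, j + 1, k + 1, y, y' => by
      have := fg1_cov u σ σ' L j k y y'
      rw [Nat.succ_min_succ, gacc, List.take_succ_cons, List.map_cons, List.sum_cons, ← gacc,
        ← this]
      exact Fintype.sum_sum_type fun i : l.ι ⊕ NI (atL L u) =>
        Sum.elim (σ l y) (fg1 u σ L j y) i * Sum.elim (σ' l y') (fg1 u σ' L k y') i

theorem fg_cov (u : ℝ) (σ σ' : Sel Ω) : ∀ (s : Sh) (L : List (TL Ω)) (a b : s.Lf) (j k : ℕ)
    (y y' : Ω), ∑ i, fg u σ s L a j y i * fg u σ' s L b k y' i =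
      gacc σ σ' L (s.shr a b (min j k)) y y'
  | .one, L, _, _, j, k, y, y' => fg1_cov u σ σ' L j k y y'
  | .step s, [], a, b, j, k, y, y' => (fg_cov u σ σ' s [] a b j k y y').trans (by simp [gacc])
  | .step _, _ :: _, a, b, 0, k, y, y' => by simp [fg, Sh.shr, gacc]
  | .step _, _ :: _, a, b, j + 1, 0, y, y' => by simp [fg, Sh.shr, gacc]
  | .step s, l :: L, a, b, j + 1, k + 1, y, y' => by
      have := fg_cov u σ σ' s L a b j k y y'
      rw [Nat.succ_min_succ]
      show _ = gacc σ σ' (l :: L) (s.shr a b (min j k) + 1) y y'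
      rw [gacc, List.take_succ_cons, List.map_cons, List.sum_cons, ← gacc, ← this]
      exact Fintype.sum_sum_type fun i : l.ι ⊕ NT s (atL L u) =>
        Sum.elim (σ l y) (fg u σ s L a j y) i * Sum.elim (σ' l y') (fg u σ' s L b k y') i
  | .split s t, L, .inl a, .inl b, j, k, y, y' => by
      show ∑ i : NT s (atL L u) ⊕ NT t (atL L u),
        Sum.elim (fg u σ s L a j y) (0 : NT t (atL L u) → ℝ) i *
        Sum.elim (fg u σ' s L b k y') (0 : NT t (atL L u) → ℝ) i =
        gacc σ σ' L (s.shr a b (min j k)) y y'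
      rw [← fg_cov u σ σ' s L a b j k y y', Fintype.sum_sum_type]
      simp
  | .split s t, L, .inr a, .inr b, j, k, y, y' => by
      show ∑ i : NT s (atL L u) ⊕ NT t (atL L u),
        Sum.elim (0 : NT s (atL L u) → ℝ) (fg u σ t L a j y) i *
        Sum.elim (0 : NT s (atL L u) → ℝ) (fg u σ' t L b k y') i =
        gacc σ σ' L (t.shr a b (min j k)) y y'
      rw [← fg_cov u σ σ' t L a b j k y y', Fintype.sum_sum_type]
      simp
  | .split s t, L, .inl a, .inr b, j, k, y, y' => by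
      show ∑ i : NT s (atL L u) ⊕ NT t (atL L u),
        Sum.elim (fg u σ s L a j y) (0 : NT t (atL L u) → ℝ) i *
        Sum.elim (0 : NT s (atL L u) → ℝ) (fg u σ' t L b k y') i = gacc σ σ' L 0 y y'
      rw [Fintype.sum_sum_type]
      simp [gacc]
  | .split s t, L, .inr a, .inl b, j, k, y, y' => by
      show ∑ i : NT s (atL L u) ⊕ NT t (atL L u),
        Sum.elim (0 : NT s (atL L u) → ℝ) (fg u σ t L a j y) i *
        Sum.elim (fg u σ' s L b k y') (0 : NT t (atL L u) → ℝ) i = gacc σ σ' L 0 y y'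
      rw [Fintype.sum_sum_type]
      simp [gacc]

theorem shr_self : ∀ (s : Sh) (a : s.Lf) (j : ℕ), s.shr a a j = j
  | .one, _, _ => rfl
  | .step _, _, 0 => rfl
  | .step s, a, j + 1 => congrArg (· + 1) (shr_self s a j)
  | .split s _, .inl a, j => shr_self s a j
  | .split _ t, .inr a, j => shr_self t a j

theorem ex_atL (L : List (TL Ω)) (t u : ℝ) (j : ℕ) : ex (atL L t) j = ex (atL L u) j := by
  simp only [ex, atL, List.getElem?_map]
  cases L[j]? <;> rfl

theorem cf_atL (t u : ℝ) : ∀ (s : Sh) (L : List (TL Ω)) (a : s.Lf) (j : ℕ),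
    cf s (atL L t) a j = cf s (atL L u) a j
  | .one, _, _, 0 => rfl
  | .one, L, _, j + 1 => by
      show ex (atL L t) (j + 1) - ex (atL L t) j = ex (atL L u) (j + 1) - ex (atL L u) j
      rw [ex_atL L t u, ex_atL L t u]
  | .step s, [], _, _ => rfl
  | .step _, _ :: _, _, 0 => rfl
  | .step s, l :: L, a, j + 1 => by
      change cf (.step s) (l.at t :: atL L t) a (j + 1) = cf (.step s) (l.at u :: atL L u) a (j + 1)
      simp only [cf]
      rw [cf_atL t u s L a j, ex_atL L t u]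
  | .split s _, L, .inl a, j => cf_atL t u s L a j
  | .split _ s, L, .inr a, j => cf_atL t u s L a j

theorem drop_atL (L : List (TL Ω)) (t : ℝ) (j : ℕ) : (atL L t).drop j = atL (L.drop j) t :=
  (List.map_drop ..).symm

theorem len_atL (L : List (TL Ω)) (t : ℝ) : (atL L t).length = L.length := List.length_map ..

theorem Sacc_add (L : List (TL Ω)) (t : ℝ) (j k : ℕ) (y y' : Ω) :
    Sacc L t (j + k) y y' = Sacc L t j y y' + Sacc (L.drop j) t k y y' := by
  simp [Sacc, List.take_add]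


/-- paths with the features `σ` -/
def pth (u : ℝ) (σ : Sel Ω) (s : Sh) (L : List (TL Ω)) (h : Ω → ℝ) (g : NT s (atL L u) → ℝ) :
    Pa s.Lf Ω := fun a j y => h y + ∑ i, fg u σ s L a j y i * g i

theorem stT_pth (t : ℝ) (s : Sh) (L : List (TL Ω)) (h : Ω → ℝ) (g : NT s (atL L t) → ℝ) :
    stT s (atL L t) h g = pth t (fun l => l.A t) s L h g := by
  funext a j y
  simp only [stT_fe, fe_eq, pth]

variable [Fintype Ω] {w : Ω → ℝ} {I : Set ℝ}

/-- the integrand on the fixed noise index -/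
def dn (w : Ω → ℝ) (u : ℝ) (s : Sh) (L : List (TL Ω)) (h : Ω → ℝ) (x : s.Lf → Ω)
    (p : Pt (NT s (atL L u))) : ℝ :=
  (∏ a, w (x a)) * exp (-(∑ a, ∑ j ∈ Finset.range (L.length + 1), cf s (atL L u) a j *
    XP w (L.drop j) (p.1, pth u (fun l => l.A p.1) s L h p.2 a j) -
    ∑ a, pth u (fun l => l.A p.1) s L h p.2 a L.length (x a)) -
    s.br * ex (atL L u) 0 * XP w L (p.1, h))

theorem tX_eq (w : Ω → ℝ) (t u : ℝ) (s : Sh) (L : List (TL Ω)) (h : Ω → ℝ)
    (F : Pa s.Lf Ω → (s.Lf → Ω) → ℝ) :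
    tX w s (atL L t) h (fun g x => F (stT s (atL L t) h g) x) =
      ∫ g, ∑ x, dn w u s L h x (t, g) * F (pth u (fun l => l.A t) s L h g) x
        ∂gv (NT s (atL L u)) := by
  rw [← (measurePreserving_piCongrLeft (fun _ : NT s (atL L u) => gaussianReal 0 1)
    (eT t u s L)).integral_comp', tX]
  refine integral_congr_ae (.of_forall fun g => ?_)
  have e : pth u (fun l => l.A t) s L h
      (MeasurableEquiv.piCongrLeft (fun _ : NT s (atL L u) => ℝ) (eT t u s L) g) =
      stT s (atL L t) h g := by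
    funext a j y
    rw [stT_fe, pth, ← (eT t u s L).sum_comp]
    simp only [MeasurableEquiv.piCongrLeft_apply_apply, fe_e t u]
  simp only [dn, e, denT, UT_eq, UP, XP, len_atL, drop_atL, cf_atL t u, ex_atL L t u]

/-- the paths at a node as a level on the whole noise -/
abbrev big (u : ℝ) (s : Sh) (L : List (TL Ω)) (a : s.Lf) (j : ℕ) : TL Ω :=
  ⟨NT s (atL L u), fun t => fg u (fun l => l.A t) s L a j, fun t => fg u (fun l => l.A' t) s L a j, 0⟩

theorem bd_fin {α β : Type} [Fintype α] [Fintype β] {f : ℝ → α → β → ℝ}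
    (h : ∀ y i, ∃ B, ∀ t ∈ I, |f t y i| ≤ B) : ∃ B, ∀ t ∈ I, ∀ y i, |f t y i| ≤ B := by
  choose B hB using h
  refine ⟨∑ y, ∑ i, |B y i|, fun t ht y i => (hB y i t ht).trans ((le_abs_self _).trans ?_)⟩
  exact (Finset.single_le_sum (f := fun i => |B y i|) (fun _ _ => abs_nonneg _)
    (Finset.mem_univ i)).trans (Finset.single_le_sum (f := fun y => ∑ i, |B y i|)
      (fun _ _ => Finset.sum_nonneg fun _ _ => abs_nonneg _) (Finset.mem_univ y))

theorem big_okC (u : ℝ) (s : Sh) {L : List (TL Ω)} (hL : ∀ l ∈ L, l.OkC I) (a : s.Lf) (j : ℕ) :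
    (big u s L a j).OkC I := by
  have := fg_ind u (fun f _ => ContinuousOn f I ∧ ∃ B, ∀ t ∈ I, |f t| ≤ B)
    ⟨continuousOn_const, 0, fun _ _ => abs_zero.le⟩ (fun t l => l.A t) (fun t l => l.A t) s L
    (fun l hl y i => ⟨(hL l hl).cont y i, (hL l hl).bd.imp fun B hB t ht => hB t ht y i⟩) a j
  exact ⟨fun y i => (this y i).1, bd_fin fun y i => (this y i).2⟩

theorem big_okD (u : ℝ) (s : Sh) {L : List (TL Ω)} (hL : ∀ l ∈ L, l.OkD I) (a : s.Lf) (j : ℕ) :
    (big u s L a j).OkD I := by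
  have := fg_ind u (fun f f' => (∀ t ∈ I, HasDerivAt f (f' t) t) ∧ ContinuousOn f' I ∧
      ∃ B, ∀ t ∈ I, |f' t| ≤ B)
    ⟨fun t _ => hasDerivAt_const t 0, continuousOn_const, 0, fun _ _ => abs_zero.le⟩
    (fun t l => l.A t) (fun t l => l.A' t) s L
    (fun l hl y i => ⟨fun t ht => (hL l hl).der t ht y i, (hL l hl).cont' y i,
      (hL l hl).bd'.imp fun B hB t ht => hB t ht y i⟩) a j
  exact ⟨big_okC u s (fun l hl => (hL l hl).toOkC) a j, fun t ht y i => (this y i).1 t ht,
    fun y i => (this y i).2.1, bd_fin fun y i => (this y i).2.2⟩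

open Classical in
theorem eg_fix {ι : Type} [Fintype ι] {H : Pt (Ω ⊕ ι) → ℝ} (hH : EG I H) (h : Ω → ℝ) :
    EG I fun p : Pt ι => H (jn (p.1, h) p.2) :=
  hH.comp (φ := fun p : Pt ι => jn (p.1, h) p.2)
    (cont_jn.comp (f := fun p : Pt ι => ((p.1, h), p.2)) (by fun_prop)).continuousOn
    (fun _ hp => hp) ‖h‖ 1 fun p _ => by simpa using norm_jn (p.1, h) p.2

open Classical in
theorem eg_pth (u : ℝ) (s : Sh) {L : List (TL Ω)} (hL : ∀ l ∈ L, l.OkC I) (h : Ω → ℝ) (a : s.Lf)
    (j : ℕ) {G : Pt Ω → ℝ} (hG : EG I G) :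
    EG I fun p : Pt (NT s (atL L u)) => G (p.1, pth u (fun l => l.A p.1) s L h p.2 a j) :=
  eg_fix ((big_okC u s hL a j).eg_sh hG) h

open Classical in
theorem eg_dn (hw : Wt w) (u : ℝ) (s : Sh) {L : List (TL Ω)} (hL : ∀ l ∈ L, l.OkC I) (h : Ω → ℝ)
    (x : s.Lf → Ω) : EG I (dn w u s L h x) := by
  have h1 : ∀ a j, EG I fun p : Pt (NT s (atL L u)) => exp (-cf s (atL L u) a j *
      XP w (L.drop j) (p.1, pth u (fun l => l.A p.1) s L h p.2 a j)) := fun a j =>
    eg_pth u s hL h a j ((lg_XP hw fun l hl => hL l (List.mem_of_mem_drop hl)).exp _)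
  have h2 : ∀ a, EG I fun p : Pt (NT s (atL L u)) =>
      exp (pth u (fun l => l.A p.1) s L h p.2 a L.length (x a)) := fun a =>
    eg_pth u s hL h a _ (G := fun p => exp (p.2 (x a))) (EG.exp (by fun_prop) 0 1 fun p _ => by
      simpa using (le_abs_self _).trans (norm_le_pi_norm p.2 (x a)))
  have h3 : EG I fun p : Pt (NT s (atL L u)) => exp (-(s.br * ex (atL L u) 0) * XP w L (p.1, h)) :=
    ((lg_XP hw hL).exp _).comp (φ := fun p => (p.1, h)) (by fun_prop) (fun _ hp => hp) ‖h‖ 0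
      fun p _ => by simp
  refine ((EG.const (∏ a, w (x a))).mul (((EG.prod Finset.univ fun a _ => EG.prod
    (Finset.range (L.length + 1)) fun j _ => h1 a j).mul (EG.prod Finset.univ fun a _ => h2 a)).mul
      h3)).congr fun p _ => ?_
  simp only [dn, ← exp_sum, ← exp_add, neg_mul, Finset.sum_neg_distrib]
  congr 2
  ring

/-- logarithmic derivative of the density, before integration by parts -/
def ld (w : Ω → ℝ) (u : ℝ) (s : Sh) (L : List (TL Ω)) (h : Ω → ℝ) (x : s.Lf → Ω)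
    (p : Pt (NT s (atL L u))) : ℝ :=
  -(∑ a, ∑ j ∈ Finset.range (L.length + 1), cf s (atL L u) a j *
    (D0 w (L.drop j) (p.1, pth u (fun l => l.A p.1) s L h p.2 a j) +
      ∑ y, PP w (L.drop j) y (p.1, pth u (fun l => l.A p.1) s L h p.2 a j) *
        ∑ i, fg u (fun l => l.A' p.1) s L a j y i * p.2 i) -
    ∑ a, ∑ i, fg u (fun l => l.A' p.1) s L a L.length (x a) i * p.2 i) -
    s.br * ex (atL L u) 0 * D0 w L (p.1, h)

open Classical in
theorem eg_ld (hw : Wt w) (hI : IsOpen I) (u : ℝ) (s : Sh) {L : List (TL Ω)}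
    (hL : ∀ l ∈ L, l.OkD I) (h : Ω → ℝ) (x : s.Lf → Ω) : EG I (ld w u s L h x) := by
  have hC := fun l hl => (hL l hl).toOkC
  have h1 : ∀ a j y, EG I fun p : Pt (NT s (atL L u)) =>
      ∑ i, fg u (fun l => l.A' p.1) s L a j y i * p.2 i := fun a j y =>
    eg_fix ((big_okD u s hL a j).eg_dfl y) h
  have h2 := fun j => sm_XP hI hw fun l (hl : l ∈ L.drop j) => hL l (List.mem_of_mem_drop hl)
  have h3 : EG I fun p : Pt (NT s (atL L u)) => D0 w L (p.1, h) :=
    (sm_XP hI hw hL).ega.comp (φ := fun p => (p.1, h)) (by fun_prop) (fun _ hp => hp) ‖h‖ 0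
      fun p _ => by simp
  exact ((EG.sum _ fun a _ => EG.sum _ fun j _ => (EG.const _).mul
    ((eg_pth u s hC h a j (h2 j).ega).add (EG.sum _ fun y _ =>
      (eg_pth u s hC h a j ((h2 j).egb y)).mul (h1 a j y)))).sub
    (EG.sum _ fun a _ => h1 a _ _)).neg.sub ((EG.const _).mul h3)

open Classical in
theorem der_dn (hw : Wt w) (hI : IsOpen I) (u : ℝ) (s : Sh) {L : List (TL Ω)}
    (hL : ∀ l ∈ L, l.OkD I) (h : Ω → ℝ) (x : s.Lf → Ω) {t : ℝ} (ht : t ∈ I)
    (g : NT s (atL L u) → ℝ) : HasDerivAt (fun t => dn w u s L h x (t, g))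
      (dn w u s L h x (t, g) * ld w u s L h x (t, g)) t := by
  have h1 : ∀ a j y, HasDerivAt (fun t => pth u (fun l => l.A t) s L h g a j y)
      (∑ i, fg u (fun l => l.A' t) s L a j y i * g i) t := fun a j y =>
    (HasDerivAt.fun_sum fun i _ => ((big_okD u s hL a j).der t ht y i).mul_const (g i)).const_add _
  have h2 : ∀ a j, HasDerivAt (fun t => XP w (L.drop j) (t, pth u (fun l => l.A t) s L h g a j))
      (D0 w (L.drop j) (t, pth u (fun l => l.A t) s L h g a j) +
        ∑ y, PP w (L.drop j) y (t, pth u (fun l => l.A t) s L h g a j) *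
          ∑ i, fg u (fun l => l.A' t) s L a j y i * g i) t := fun a j => by
    have := ((sm_XP hI hw fun l (hl : l ∈ L.drop j) => hL l (List.mem_of_mem_drop hl)).fd
      (t, pth u (fun l => l.A t) s L h g a j) ht).comp_hasDerivAt t
      ((hasDerivAt_id t).prodMk (hasDerivAt_pi.2 (h1 a j)))
    refine this.congr_deriv ?_
    rw [D2_apply, mul_one]
  have h3 : HasDerivAt (fun t => XP w L (t, h)) (D0 w L (t, h)) t := by
    have := ((sm_XP hI hw hL).fd (t, h) ht).comp_hasDerivAt t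
      ((hasDerivAt_id t).prodMk (hasDerivAt_const t h))
    refine this.congr_deriv ?_
    simp [D2_apply]
  have h4 := ((((HasDerivAt.fun_sum (u := Finset.univ) fun a _ => HasDerivAt.fun_sum
    (u := Finset.range (L.length + 1)) fun j _ => (h2 a j).const_mul (cf s (atL L u) a j)).sub
      (HasDerivAt.fun_sum (u := Finset.univ) fun a _ => h1 a L.length (x a))).neg.sub
        (h3.const_mul (s.br * ex (atL L u) 0))).exp).const_mul (∏ a, w (x a))
  refine h4.congr_deriv ?_
  simp only [dn, ld, Pi.neg_apply, Pi.sub_apply, mul_assoc]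


theorem lin_fin {κ ι : Type} [Fintype ι] {D : Pa κ Ω → ℝ} (hD : IsLinearMap ℝ D) (c : ι → ℝ)
    (q : ι → Pa κ Ω) : D (fun a j y => ∑ i, q i a j y * c i) = ∑ i, c i * D (q i) := by
  have e : (fun a j y => ∑ i, q i a j y * c i) = ∑ i, c i • q i := by
    funext a j y
    simp [Finset.sum_apply, mul_comm]
  rw [e, show D = IsLinearMap.mk' D hD from rfl, map_sum]
  exact Finset.sum_congr rfl fun i _ => by rw [map_smul, smul_eq_mul]

theorem grP_DP (hw : Wt w) (s : Sh) (L : List (Lv Ω)) (x : s.Lf → Ω) (q : Pa s.Lf Ω) :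
    GrP (fun p => DP w s L x p q) fun p r => ∑ a, ∑ j ∈ Finset.range (L.length + 1),
      cf s L a j * Hb w (L.drop j) (p a j) (q a j) (r a j) :=
  ((GrP.sum _ fun a _ => GrP.sum _ fun j _ =>
    (GrP.pf hw (L.drop j) (q a j) a j).const_mul (cf s L a j)).sub (GrP.const _)).congr
      fun _ _ => by simp

end Itp16

variable [Fintype Ω] {w : Ω → ℝ} {I : Set ℝ}

/-- the potential differentiated in both arguments of a kernel: `∬ K dμ dμ` for the signed measure
`μ = ∑ cf · (node law) - ∑ δ_leaf` -/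
def DD (w : Ω → ℝ) (s : Sh) (L : List (Lv Ω)) (x : s.Lf → Ω) (p : Pa s.Lf Ω)
    (K : s.Lf → ℕ → Ω → s.Lf → ℕ → Ω → ℝ) : ℝ :=
  DP w s L x p fun a j y => DP w s L x p fun b k y' => K a j y b k y'

/-- the terms created by one node at depth `j`: one new replica with itself, minus two new replicas
that split at depth `≥ j` -/
def ND (w : Ω → ℝ) (L : List (Lv Ω)) (S : ℕ → Ω → Ω → ℝ) (j : ℕ) (z : Ω → ℝ) : ℝ :=
  Pf w (L.drop j) z (fun y => S L.length y y) - pair w (L.drop j) 0 (fun k => S (j + k)) z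

/-- the score of the tree law for the accumulated kernels `S` -/
def Th (w : Ω → ℝ) (s : Sh) (L : List (Lv Ω)) (S : ℕ → Ω → Ω → ℝ) (h : Ω → ℝ) (x : s.Lf → Ω)
    (p : Pa s.Lf Ω) : ℝ :=
  DD w s L x p (fun a j y b k y' => S (s.shr a b (min j k)) y y') -
    ∑ a, ∑ j ∈ Finset.range (L.length + 1), cf s L a j * ND w L S j (p a j) -
    s.br * ex L 0 * ND w L S 0 h

namespace Itp16

open Classical in
theorem nd_eq (hw : Wt w) (hI : IsOpen I) {L : List (TL Ω)} (hL : ∀ l ∈ L, l.OkD I) {t : ℝ}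
    (ht : t ∈ I) {j : ℕ} (hj : j ≤ L.length) (z : Ω → ℝ) :
    ND w (atL L t) (Sacc L t) j z = D0 w (L.drop j) (t, z) +
      ∑ y, ∑ y', Sacc L t j y y' * Hs w (atL (L.drop j) t) z y y' := by
  have h1 := sum_Hs hw (Sacc L t j) (atL (L.drop j) t) 0 z
  simp only [zero_mul, add_zero] at h1
  rw [h1, D0_eq hw ht hI _ (fun l hl => hL l (List.mem_of_mem_drop hl)) 0, ND, drop_atL, len_atL,
    show (fun k => Sacc L t (j + k)) = fun k y y' => Sacc L t j y y' + Sacc (L.drop j) t k y y'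
      from funext fun k => funext fun y => funext fun y' => Sacc_add L t j k y y', pair_add hw,
    Pf, List.length_drop]
  have e : ∀ y, Sacc L t L.length y y = Sacc L t j y y + Sacc (L.drop j) t (L.length - j) y y :=
    fun y => by rw [← Sacc_add, Nat.add_sub_cancel' hj]
  simp only [e, mul_add, Finset.sum_add_distrib]
  ring


open Classical in
/-- integration by parts -/
theorem ibp (hw : Wt w) (hI : IsOpen I) (s : Sh) {L : List (TL Ω)} (hL : ∀ l ∈ L, l.OkD I)
    (h : Ω → ℝ) (F : (s.Lf → Ω) → ℝ) {t : ℝ} (ht : t ∈ I) :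
    tX w s (atL L t) h (fun g x => F x * ld w t s L h x (t, g)) =
      tX w s (atL L t) h fun g x =>
        F x * Th w s (atL L t) (Sacc L t) h x (stT s (atL L t) h g) := by
  set M := atL L t with hM
  set q : NT s M → Pa s.Lf Ω := fun i a j y => fg t (fun l => l.A' t) s L a j y i with hq
  have hcov : ∀ a j y b k y', ∑ i, q i a j y * ft s M i b k y' =
      Sacc L t (s.shr a b (min j k)) y y' := fun a j y b k y' => by
    refine Eq.trans (Finset.sum_congr rfl fun i _ => ?_)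
      (fg_cov t (fun l => l.A' t) (fun l => l.A t) s L a b j k y y')
    rw [ft_eq_fe, ← fe_eq]
  have hG := fun i x => (grP_DP hw s M x (q i)).const_mul (F x)
  have st : ∀ i, tX w s M h (fun g x => g i * (F x * DP w s M x (stT s M h g) (q i))) =
      tX w s M h (fun g x => F x * ∑ a, ∑ j ∈ Finset.range (M.length + 1),
        cf s M a j * Hb w (M.drop j) (stT s M h g a j) (q i a j) (ft s M i a j)) -
      tX w s M h fun g x => F x * DP w s M x (stT s M h g) (q i) *
        DP w s M x (stT s M h g) (ft s M i) := fun i => by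
    have := stein_dir hw s M h (fun _ => Pi.single i 1) (hG i)
    simp only [Pi.single_apply, ite_mul, one_mul, zero_mul, Finset.sum_ite_eq',
      Finset.mem_univ, if_true] at this
    exact this
  have e1 := fun i x => ((hG i x).eg' (ft s M i)).stT M h
  have e2 := fun i x => ((hG i x).eg.stT M h).mul (Sd.eg_DP hw s M h x (ft s M i))
  have e3 := fun i x => (Eg.coord i).mul ((hG i x).eg.stT M h)
  have hs := Finset.sum_congr rfl fun i (_ : i ∈ Finset.univ) => st i
  rw [Finset.sum_sub_distrib, ← Sd.tX_sum hw s M h _ fun i _ => e1 i,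
    ← Sd.tX_sum hw s M h _ fun i _ => e2 i, ← Sd.tX_sum hw s M h _ fun i _ => e3 i] at hs
  have eD : ∀ x, Eg fun g => F x * (∑ a, ∑ j ∈ Finset.range (L.length + 1), cf s M a j *
      D0 w (L.drop j) (t, stT s M h g a j) + s.br * ex M 0 * D0 w L (t, h)) := fun x =>
    ((Eg.sum _ fun a _ => Eg.sum _ fun j _ => ((EgP.state (eg_of_EG (sm_XP hI hw
      fun l (hl : l ∈ L.drop j) => hL l (List.mem_of_mem_drop hl)).ega ht) a j).stT M h).const_mul
        _).add (Eg.const _)).const_mul _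
  have l1 : tX w s M h (fun g x => F x * ld w t s L h x (t, g)) =
      tX w s M h (fun g x => -1 * (F x * (∑ a, ∑ j ∈ Finset.range (L.length + 1), cf s M a j *
        D0 w (L.drop j) (t, stT s M h g a j) + s.br * ex M 0 * D0 w L (t, h)) +
        ∑ i, g i * (F x * DP w s M x (stT s M h g) (q i)))) := by
    congr 1
    funext g x
    have := lin_fin ((grP_UP hw s M x).lin (stT s M h g)) g q
    simp only [mul_left_comm (g _), ← Finset.mul_sum, ← this]
    simp only [ld, ← stT_pth, DP, Pf, PP, hq, hM, len_atL, drop_atL, mul_add,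
      Finset.sum_add_distrib]
    ring
  rw [l1, Sd.tX_const_mul, Sd.tX_add hw s M h eD fun x => Eg.sum _ fun i _ => e3 i x, hs,
    ← Sd.tX_sub hw s M h (fun x => Eg.sum _ fun i _ => e1 i x) fun x => Eg.sum _ fun i _ => e2 i x,
    ← Sd.tX_add hw s M h eD fun x => (Eg.sum _ fun i _ => e1 i x).sub (Eg.sum _ fun i _ => e2 i x),
    ← Sd.tX_const_mul]
  congr 1
  funext g x
  set p := stT s M h g
  have a1 : ∑ i, DP w s M x p (q i) * DP w s M x p (ft s M i) =
      DD w s M x p fun a j y b k y' => Sacc L t (s.shr a b (min j k)) y y' := by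
    have hl := (grP_UP hw s M x).lin p
    have b1 : ∀ a j y, DP w s M x p (fun b k y' => Sacc L t (s.shr a b (min j k)) y y') =
        ∑ i, q i a j y * DP w s M x p (ft s M i) := fun a j y => by
      rw [← lin_fin hl (fun i => q i a j y) (ft s M)]
      simp only [← hcov, mul_comm]
    simp only [DD, b1]
    rw [lin_fin hl]
    simp only [mul_comm]
  have a2 : ∀ a j, ∑ i, Hb w (M.drop j) (p a j) (q i a j) (ft s M i a j) =
      ∑ y, ∑ y', Sacc L t j y y' * Hs w (atL (L.drop j) t) (p a j) y y' := fun a j => by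
    simp only [Hb, hM, drop_atL]
    rw [Finset.sum_comm]
    refine Finset.sum_congr rfl fun y _ => ?_
    rw [Finset.sum_comm]
    refine Finset.sum_congr rfl fun y' _ => ?_
    rw [← Finset.sum_mul, hcov, min_self, shr_self]
  have a3 : ∑ i, ∑ a, ∑ j ∈ Finset.range (M.length + 1),
      cf s M a j * Hb w (M.drop j) (p a j) (q i a j) (ft s M i a j) =
      ∑ a, ∑ j ∈ Finset.range (L.length + 1), cf s M a j *
        (ND w M (Sacc L t) j (p a j) - D0 w (L.drop j) (t, p a j)) := by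
    rw [Finset.sum_comm, show M.length = L.length from len_atL L t]
    refine Finset.sum_congr rfl fun a _ => ?_
    rw [Finset.sum_comm]
    refine Finset.sum_congr rfl fun j hj => ?_
    rw [← Finset.mul_sum, a2, nd_eq hw hI hL ht (Nat.lt_succ_iff.1 (Finset.mem_range.1 hj))]
    ring
  have a4 : ND w M (Sacc L t) 0 h = D0 w L (t, h) := by
    rw [nd_eq hw hI hL ht (Nat.zero_le _)]
    simp [Sacc_zero]
  simp only [mul_assoc (F x), ← Finset.mul_sum]
  rw [a1, a3, Th, a4, show M.length = L.length from len_atL L t]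
  simp only [mul_sub, Finset.sum_sub_distrib]
  ring

end Itp16

open Classical in
/-- **the interpolation formula on a replica tree** (`Sacc + Saccᵀ` is the derivative of the
accumulated covariance) -/
theorem hasDerivAt_tX_atL (hw : Wt w) (hI : IsOpen I) (s : Sh) {L : List (TL Ω)}
    (hL : ∀ l ∈ L, l.C1 I) (h : Ω → ℝ) (F : (s.Lf → Ω) → ℝ) {t : ℝ} (ht : t ∈ I) :
    HasDerivAt (fun t => tX w s (atL L t) h fun _ x => F x)
      (tX w s (atL L t) h fun g x =>
        F x * Th w s (atL L t) (Sacc L t) h x (stT s (atL L t) h g)) t := by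
  obtain ⟨a, c, hac, hs⟩ := exists_Icc_mem_subset_of_mem_nhds (hI.mem_nhds ht)
  have ht' : t ∈ Ioo a c := by
    have := mem_interior_iff_mem_nhds.2 hs.1
    rwa [interior_Icc] at this
  have hD := fun l hl => (hL l hl).okD hs.2
  have hC := fun l hl => (hD l hl).toOkC
  have key := (EG.sum Finset.univ fun x _ => (Itp16.eg_dn hw t s hC h x).mul
    (EG.const (F x))).hasDerivAt_int (EG.sum Finset.univ fun x _ => ((Itp16.eg_dn hw t s hC h x).mul
      (Itp16.eg_ld hw isOpen_Ioo t s hD h x)).mul (EG.const (F x))) (isOpen_Ioo.mem_nhds ht')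
      fun r hr g => HasDerivAt.fun_sum fun x _ =>
        (Itp16.der_dn hw isOpen_Ioo t s hD h x hr g).mul_const (F x)
  rw [← Itp16.ibp hw isOpen_Ioo s hD h F ht',
    show (fun r => tX w s (atL L r) h fun _ x => F x) = _ from
      funext fun r => Itp16.tX_eq w r t s L h fun _ x => F x]
  refine key.congr_deriv ?_
  rw [tX]
  refine integral_congr_ae (.of_forall fun g => Finset.sum_congr rfl fun x _ => ?_)
  simp only [Itp16.dn, denT, UT_eq, UP, XP, Itp16.len_atL, Itp16.drop_atL, ← Itp16.stT_pth]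
  ring

open Classical in
theorem continuousOn_tX_atL (hw : Wt w) (s : Sh) {L : List (TL Ω)} (hL : ∀ l ∈ L, l.OkC I)
    (h : Ω → ℝ) (F : (s.Lf → Ω) → ℝ) :
    ContinuousOn (fun t => tX w s (atL L t) h fun _ x => F x) I := by
  rw [show (fun r => tX w s (atL L r) h fun _ x => F x) = _ from
      funext fun r => Itp16.tX_eq w r 0 s L h fun _ x => F x]
  exact (EG.sum Finset.univ fun x _ => (Itp16.eg_dn hw 0 s hL h x).mul
    (EG.const (F x))).continuousOn_int


end Crest.Agent.T156.Cas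

end
private theorem rz_3d0fedc98f : type_of% @_root_.Crest.Agent.T156.Cas.Itp16.e1.eq_def := @_root_.Crest.Agent.T156.Cas.Itp16.e1.eq_def -- L37
private theorem rz_64d35ce297 : type_of% @_root_.Crest.Agent.T156.Cas.Itp16.e1.eq_1 := @_root_.Crest.Agent.T156.Cas.Itp16.e1.eq_1 -- L37
private theorem rz_9febf40a50 : type_of% @_root_.Crest.Agent.T156.Cas.Itp16.fg.eq_def := @_root_.Crest.Agent.T156.Cas.Itp16.fg.eq_def -- L29
private theorem rz_4bcd34d30b : type_of% @_root_.Crest.Agent.T156.Cas.Itp16.fg.eq_1 := @_root_.Crest.Agent.T156.Cas.Itp16.fg.eq_1 -- L29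
private theorem rz_5b79527963 : type_of% @_root_.Crest.Agent.T156.Cas.Itp16.fg1.eq_def := @_root_.Crest.Agent.T156.Cas.Itp16.fg1.eq_def -- L24
private theorem rz_54dd657082 : type_of% @_root_.Crest.Agent.T156.Cas.Itp16.fg1.eq_1 := @_root_.Crest.Agent.T156.Cas.Itp16.fg1.eq_1 -- L24
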