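import Crest.Agent.T156.CaSpB_38
import Crest.Agent.T156.CaLaw_45

/-!
# Row 156 (helper38): Taylor expansion on replica trees

`Dop M S` is the formal derivative of a tree functional in the direction of the kernels `S`
(off-diagonal form).  `hasDerivAt_Dop_iter`, `taylor_TE`: all derivatives of
`t ↦ TE w s (atL L t) h F` along a path with constant velocity of the covariances.
-/

set_option autoImplicit false
set_option linter.unusedSectionVars false

noncomputable section

namespace Crest.Agent.T156.Cas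

open MeasureTheory Real Set Filter Topology
open Crest.Agent.T157.E Crest.Agent.T157.Casc Crest.Agent.T157.SL

variable {Ω : Type}

/-- functionals of a shape and a function of its leaves -/
abbrev Fn (Ω : Type) : Type := ∀ s : Sh, ((s.Lf → Ω) → ℝ) → ℝ

/-- pairs of old leaves -/
def Dop1 (M : List (Lv Ω)) (S : ℕ → Ω → Ω → ℝ) (Λ : Fn Ω) : Fn Ω := fun s F =>
  ∑ a, ∑ b, if a = b then 0 else Λ s fun x => F x * S (s.shr a b M.length) (x a) (x b)

/-- one old and one new leaf -/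
def Dop2 (M : List (Lv Ω)) (S : ℕ → Ω → Ω → ℝ) (Λ : Fn Ω) : Fn Ω := fun s F =>
  ∑ a, ∑ j ∈ Finset.range (M.length + 1), cw s M a j *
    (∑ b, Λ (s.graft a j) (fun x => F (fun c => x (s.emb a j c)) *
        S (s.shr b a j) (x (s.emb a j b)) (x (s.nw a j))) +
      ∑ b, Λ (s.graft a j) fun x => F (fun c => x (s.emb a j c)) *
        S (s.shr a b j) (x (s.nw a j)) (x (s.emb a j b)))

/-- two new leaves -/
def Dop3 (M : List (Lv Ω)) (S : ℕ → Ω → Ω → ℝ) (Λ : Fn Ω) : Fn Ω := fun s F =>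
  ∑ a, ∑ j ∈ Finset.range (M.length + 1), cw s M a j *
    (∑ b, ∑ k ∈ Finset.range (M.length + 1), cw s M b k *
      Λ ((s.graft b k).graft (s.emb b k a) j) (fun x =>
        F (fun c => x ((s.graft b k).emb (s.emb b k a) j (s.emb b k c))) *
          S (s.shr a b (min j k)) (x ((s.graft b k).nw (s.emb b k a) j))
            (x ((s.graft b k).emb (s.emb b k a) j (s.nw b k)))) +
    ∑ i ∈ Finset.range (M.length - j + 1), dm (M.drop j) 0 i *
      Λ ((s.graft a j).graft (s.nw a j) (i + j)) fun x =>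
        F (fun b => x ((s.graft a j).emb (s.nw a j) (i + j) (s.emb a j b))) *
          S (i + j) (x ((s.graft a j).emb (s.nw a j) (i + j) (s.nw a j)))
            (x ((s.graft a j).nw (s.nw a j) (i + j))))

/-- the formal derivative in the direction of the kernels `S` (constant on the top diagonal);
only the tilts of `M` matter -/
def Dop (M : List (Lv Ω)) (S : ℕ → Ω → Ω → ℝ) (Λ : Fn Ω) : Fn Ω := fun s F =>
  Dop1 M S Λ s F - Dop2 M S Λ s F + Dop3 M S Λ s F

namespace Tay38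

/-- relations between a curve and a number that are closed under linear combinations -/
structure Lin (R : (ℝ → ℝ) → ℝ → Prop) : Prop where
  zero : R (fun _ => 0) 0
  add : ∀ {f g : ℝ → ℝ} {a b : ℝ}, R f a → R g b → R (fun t => f t + g t) (a + b)
  smul : ∀ (c : ℝ) {f : ℝ → ℝ} {a : ℝ}, R f a → R (fun t => c * f t) (c * a)

variable {R : (ℝ → ℝ) → ℝ → Prop}

theorem Lin.sum (H : Lin R) {α : Type*} (T : Finset α) {f : α → ℝ → ℝ} {a : α → ℝ}
    (h : ∀ i ∈ T, R (f i) (a i)) : R (fun t => ∑ i ∈ T, f i t) (∑ i ∈ T, a i) := by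
  classical
  induction T using Finset.induction_on with
  | empty => simpa using H.zero
  | insert i T hi ih =>
    simp only [Finset.sum_insert hi]
    exact H.add (h i (Finset.mem_insert_self _ _)) (ih fun j hj => h j (Finset.mem_insert_of_mem hj))

theorem Lin.sub (H : Lin R) {f g : ℝ → ℝ} {a b : ℝ} (h : R f a) (h' : R g b) :
    R (fun t => f t - g t) (a - b) := by
  simpa [sub_eq_add_neg] using H.add h (H.smul (-1) h')

theorem Lin.dop (H : Lin R) (M : List (Lv Ω)) (S : ℕ → Ω → Ω → ℝ) {Λ : ℝ → Fn Ω} {Λ' : Fn Ω}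
    (h : ∀ s F, R (fun t => Λ t s F) (Λ' s F)) (s : Sh) (F : (s.Lf → Ω) → ℝ) :
    R (fun t => Dop M S (Λ t) s F) (Dop M S Λ' s F) := by
  refine H.add (H.sub (H.sum _ fun a _ => H.sum _ fun b _ => ?_) (H.sum _ fun a _ => H.sum _
    fun j _ => H.smul _ (H.add (H.sum _ fun b _ => h _ _) (H.sum _ fun b _ => h _ _))))
    (H.sum _ fun a _ => H.sum _ fun j _ => H.smul _ (H.add (H.sum _ fun b _ => H.sum _
      fun k _ => H.smul _ (h _ _)) (H.sum _ fun i _ => H.smul _ (h _ _))))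
  split_ifs
  · exact H.zero
  · exact h _ _

theorem Lin.iter (H : Lin R) (M : List (Lv Ω)) (S : ℕ → Ω → Ω → ℝ) {Λ : ℝ → Fn Ω} {Λ' : Fn Ω}
    (h : ∀ s F, R (fun t => Λ t s F) (Λ' s F)) : ∀ (k : ℕ) (s : Sh) (F : (s.Lf → Ω) → ℝ),
    R (fun t => (Dop M S)^[k] (Λ t) s F) ((Dop M S)^[k] Λ' s F)
  | 0 => h
  | k + 1 => by
      simp only [Function.iterate_succ_apply']
      exact H.dop M S (H.iter M S h k)

theorem lin_der (u : ℝ) : Lin fun f a => HasDerivAt f a u :=
  ⟨hasDerivAt_const _ _, fun h h' => h.add h', fun c _ _ h => h.const_mul c⟩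

theorem lin_cont (I : Set ℝ) : Lin fun f _ => ContinuousOn f I :=
  ⟨continuousOn_const, fun h h' => h.add h', fun _ _ _ h => continuousOn_const.mul h⟩

theorem cw_at (t u : ℝ) (s : Sh) (L : List (TL Ω)) (a : s.Lf) (j : ℕ) :
    cw s (atL L t) a j = cw s (atL L u) a j := by
  rw [cw, cw, Sp38.cf_at t u, Sp38.ex_at t u]

/-- Taylor's formula for a sequence of derivatives -/
theorem taylor_seq {a b : ℝ} (hab : a < b) (f : ℕ → ℝ → ℝ) (k : ℕ)
    (hc : ∀ i ≤ k, ContinuousOn (f i) (Icc a b))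
    (hd : ∀ i ≤ k, ∀ t ∈ Ioo a b, HasDerivAt (f i) (f (i + 1) t) t) :
    ∃ θ ∈ Ioo a b, f 0 b = ∑ i ∈ Finset.range (k + 1), f i a * (b - a) ^ i / i.factorial +
      f (k + 1) θ * (b - a) ^ (k + 1) / (k + 1).factorial := by
  have hp : ∀ (n : ℕ) (t : ℝ), HasDerivAt (fun t => (b - t) ^ (n + 1))
      (-((n + 1 : ℕ) * (b - t) ^ n)) t := fun n t => by
    simpa using ((hasDerivAt_id t).const_sub b).fun_pow (n + 1)
  have hg : ∀ n ≤ k, ∀ t ∈ Ioo a b, HasDerivAt
      (fun t => ∑ i ∈ Finset.range (n + 1), f i t * (b - t) ^ i / i.factorial)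
      (f (n + 1) t * (b - t) ^ n / n.factorial) t := by
    intro n hn t ht
    induction n with
    | zero => simpa using hd 0 hn t ht
    | succ n ih =>
      simp only [Finset.sum_range_succ _ (n + 1)]
      refine ((ih (by omega)).fun_add
        (((hd (n + 1) hn t ht).fun_mul (hp n t)).div_const _)).congr_deriv ?_
      rw [Nat.factorial_succ]
      push_cast
      field_simp
      ring
  obtain ⟨θ, hθ, e⟩ := exists_ratio_hasDerivAt_eq_ratio_slope
    (fun t => ∑ i ∈ Finset.range (k + 1), f i t * (b - t) ^ i / i.factorial)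
    (fun t => f (k + 1) t * (b - t) ^ k / k.factorial) hab
    (continuousOn_finsetSum _ fun i hi => ((hc i (Nat.lt_succ_iff.1 (Finset.mem_range.1 hi))).mul
      (by fun_prop)).div_const _) (hg k le_rfl)
    (fun t => (b - t) ^ (k + 1)) (fun t => -((k + 1 : ℕ) * (b - t) ^ k)) (by fun_prop)
    fun t _ => hp k t
  refine ⟨θ, hθ, ?_⟩
  have h0 : ∑ i ∈ Finset.range (k + 1), f i b * (b - b) ^ i / i.factorial = f 0 b := by
    rw [Finset.sum_range_succ']
    simp
  have h1 : (b - θ) ^ k ≠ 0 := pow_ne_zero _ (sub_pos.2 hθ.2).ne'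
  rw [h0, sub_self, zero_pow (Nat.succ_ne_zero k)] at e
  rw [Nat.factorial_succ]
  push_cast at e ⊢
  field_simp at e ⊢
  linarith

end Tay38

theorem Dop_at (L : List (TL Ω)) (t u : ℝ) (S : ℕ → Ω → Ω → ℝ) :
    Dop (atL L t) S = Dop (atL L u) S := by
  funext Λ s F
  simp only [Dop, Dop1, Dop2, Dop3, Sp38.len_at, Tay38.cw_at t u, Sp38.drop_at, Sp38.dm_at t u]

variable [Fintype Ω] {w : Ω → ℝ}

/-- the tree expectation as a functional -/
def TEf (w : Ω → ℝ) (M : List (Lv Ω)) (h : Ω → ℝ) : Fn Ω := fun s F => TE w s M h F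

theorem TE_graft (hw : Wt w) (s : Sh) (a : s.Lf) (j : ℕ) (M : List (Lv Ω)) (h : Ω → ℝ)
    (F : (s.Lf → Ω) → ℝ) :
    TE w (s.graft a j) M h (fun x => F fun c => x (s.emb a j c)) = TE w s M h F := by
  have := graft_leaf hw s a j M h fun x _ => F x
  simpa only [← Finset.sum_mul, sum_P hw, one_mul, TE] using this

/-- the diagonal terms cancel -/
theorem dT_eq_Dop (hw : Wt w) (s : Sh) (M : List (Lv Ω)) (h : Ω → ℝ) {S : ℕ → Ω → Ω → ℝ} {c : ℝ}
    (hc : ∀ y, S M.length y y = c) (F : (s.Lf → Ω) → ℝ) :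
    dT w s M h S F = Dop M S (TEf w M h) s F := by
  have e1 : ∀ a b : s.Lf, tX w s M h (fun _ x => F x * S (s.shr a b M.length) (x a) (x b)) =
      (if a = b then 0 else TE w s M h fun x => F x * S (s.shr a b M.length) (x a) (x b)) +
        if a = b then TE w s M h F * c else 0 := fun a b => by
    split_ifs with hab
    · subst hab
      rw [zero_add, ← Law.TE_mul_const hw]
      simp only [Sp38.shr_self, hc, TE]
    · rw [add_zero, TE]
  have e2 : ∀ a j, tX w (s.graft a j) M h (fun _ x => F (fun c => x (s.emb a j c)) *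
      S M.length (x (s.nw a j)) (x (s.nw a j))) = TE w s M h F * c := fun a j => by
    rw [← TE_graft hw s a j, ← Law.TE_mul_const hw]
    simp only [hc, TE]
  have e3 : ∑ a, ∑ j ∈ Finset.range (M.length + 1), cw s M a j * (TE w s M h F * c) =
      ∑ _a : s.Lf, TE w s M h F * c := by
    simp only [← Finset.sum_mul, sum_cw]
    simp [mul_assoc]
  rw [dT]
  simp only [e1, e2, Finset.sum_add_distrib, Finset.sum_ite_eq, Finset.mem_univ, if_true,
    mul_add _ _ (TE w s M h F * c), e3]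
  simp only [Dop, Dop1, Dop2, Dop3, TEf, TE]
  ring

variable {L : List (TL Ω)} {S : ℕ → Ω → Ω → ℝ} {c : ℝ}

/-- **all derivatives of a tree expectation** -/
theorem hasDerivAt_Dop_iter (hw : Wt w) {I : Set ℝ} (hI : IsOpen I) (hL : ∀ l ∈ L, l.C1 I)
    {u : ℝ} (hu : u ∈ I) (hS : Sacc L u = S) (hc : ∀ y, S L.length y y = c) (h : Ω → ℝ) (t₀ : ℝ)
    (k : ℕ) (s : Sh) (F : (s.Lf → Ω) → ℝ) :
    HasDerivAt (fun t => (Dop (atL L t₀) S)^[k] (TEf w (atL L t) h) s F)
      ((Dop (atL L t₀) S)^[k + 1] (TEf w (atL L u) h) s F) u := by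
  refine (Tay38.lin_der u).iter _ S (Λ := fun t => TEf w (atL L t) h) (fun s F => ?_) k s F
  rw [Dop_at L t₀ u, ← dT_eq_Dop hw s _ h (c := c) (by rwa [Sp38.len_at]), ← hS]
  exact hasDerivAt_tX_t hw hI hL hu s h F

theorem continuousOn_Dop_iter (hw : Wt w) {I : Set ℝ} (hL : ∀ l ∈ L, l.OkC I) (M : List (Lv Ω))
    (S : ℕ → Ω → Ω → ℝ) (h : Ω → ℝ) (k : ℕ) (s : Sh) (F : (s.Lf → Ω) → ℝ) :
    ContinuousOn (fun t => (Dop M S)^[k] (TEf w (atL L t) h) s F) I :=
  (Tay38.lin_cont I).iter M S (Λ := fun t => TEf w (atL L t) h) (Λ' := fun _ _ => 0)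
    (fun s F => Sp38.continuousOn_tX hw hL s h F) k s F


end Crest.Agent.T156.Cas

end
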