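import Crest.Agent.T156.Mov_21
import Crest.Agent.T156.CaItp_16
import Crest.Agent.T156.CaLaw_45
import Crest.Agent.T156.CaLin_22
import Crest.Agent.T156.Cav_22
import Crest.Agent.T156.CaIso_87

-- ▼ part T156/Lin_23
section

/-!
# Row 156: linear covariance paths and the `B` term (helper23)

`LP`: a bulk level `l` glued with `√t k₁` and `√(1-t) k₀`, covariance `l + t k₁ + (1-t) k₀`.
`lin_der`, `lin_ftc`: the value along the path; `lin_TE_der`, `lin_cmp`: the law of the leaves.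
`bT`: the `B` term (constant kernels switched off).
-/

set_option autoImplicit false
set_option linter.unusedSectionVars false

noncomputable section

namespace Crest.Agent.T156.Cas

open MeasureTheory Real Set Filter Topology
open Crest.Agent.T157.E Crest.Agent.T157.Casc Crest.Agent.T157.SL

/-- bulk level (it carries the tilt), kernel switched on, kernel switched off -/
structure LP (Ω : Type) where
  l : Lv Ω
  k₁ : Lv Ω
  k₀ : Lv Ω

variable {Ω : Type}

/-- the glued level with its derivative -/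
def LP.tl (p : LP Ω) : TL Ω :=
  ⟨p.l.ι ⊕ p.k₁.ι ⊕ p.k₀.ι,
    fun t x => Sum.elim (p.l.A x)
      (Sum.elim (fun i => √t * p.k₁.A x i) fun i => √(1 - t) * p.k₀.A x i),
    fun t x => Sum.elim (fun _ => 0) (Sum.elim (fun i => 1 / (2 * √t) * p.k₁.A x i)
      fun i => -1 / (2 * √(1 - t)) * p.k₀.A x i), p.l.m⟩

/-- the cascade at time `t` -/
def lpt (L : List (LP Ω)) (t : ℝ) : List (Lv Ω) := atL (L.map LP.tl) t

/-- derivative of the accumulated covariance -/
def Dk (L : List (LP Ω)) (j : ℕ) (x y : Ω) : ℝ :=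
  ((L.take j).map fun p => p.k₁.cov x y - p.k₀.cov x y).sum

/-- the bulk -/
def lpB (L : List (LP Ω)) : List (Lv Ω) := L.map LP.l

/-- the `B` term: kernels `k` switched on, constant kernels `v` switched off -/
def bT (T : List (Lv Ω × Lv Ω × ℝ)) : List (LP Ω) :=
  T.map fun p => ⟨p.1, p.2.1, cLv Ω p.2.2 0⟩

namespace Lin23

theorem c1 (p : LP Ω) : p.tl.C1 (Ioo 0 1) := by
  refine ⟨fun t ht x i => ?_, fun x i => ?_⟩
  · rcases i with i | i | i
    · exact hasDerivAt_const _ _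
    · exact (hasDerivAt_sqrt ht.1.ne').mul_const _
    · exact (((hasDerivAt_id t).const_sub 1).sqrt (sub_pos.2 ht.2).ne').mul_const _
  · rcases i with i | i | i
    · exact continuousOn_const
    · exact (continuousOn_const.div (by fun_prop) fun t ht => by
        have := sqrt_pos.2 ht.1; positivity).mul continuousOn_const
    · exact (continuousOn_const.div (by fun_prop) fun t ht => by
        have := sqrt_pos.2 (sub_pos.2 ht.2); positivity).mul continuousOn_const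

theorem cont (p : LP Ω) (x : Ω) (i : p.tl.ι) : Continuous fun t => p.tl.A t x i := by
  rcases i with i | i | i
  · exact continuous_const
  · exact continuous_sqrt.mul continuous_const
  · exact (continuous_const.sub continuous_id).sqrt.mul continuous_const

theorem c1L (L : List (LP Ω)) : ∀ k ∈ L.map LP.tl, k.C1 (Ioo 0 1) := fun k hk => by
  obtain ⟨p, -, rfl⟩ := List.mem_map.1 hk
  exact c1 p

theorem cov_at (p : LP Ω) {t : ℝ} (ht : t ∈ Icc (0 : ℝ) 1) (x y : Ω) :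
    (p.tl.at t).cov x y = p.l.cov x y + t * p.k₁.cov x y + (1 - t) * p.k₀.cov x y := by
  show ∑ i : p.l.ι ⊕ p.k₁.ι ⊕ p.k₀.ι, p.tl.A t x i * p.tl.A t y i = _
  simp only [Fintype.sum_sum_type, LP.tl, Sum.elim_inl, Sum.elim_inr, Lv.cov, Finset.mul_sum,
    mul_mul_mul_comm (√_), mul_self_sqrt ht.1, mul_self_sqrt (sub_nonneg.2 ht.2), add_assoc]

theorem S_at (p : LP Ω) {t : ℝ} (ht : t ∈ Ioo (0 : ℝ) 1) (x y : Ω) :
    p.tl.S t x y = 1 / 2 * (p.k₁.cov x y - p.k₀.cov x y) := by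
  show ∑ i : p.l.ι ⊕ p.k₁.ι ⊕ p.k₀.ι, p.tl.A' t x i * p.tl.A t y i = _
  have h1 := (sqrt_pos.2 ht.1).ne'
  have h2 := (sqrt_pos.2 (sub_pos.2 ht.2)).ne'
  simp only [Fintype.sum_sum_type, LP.tl, Sum.elim_inl, Sum.elim_inr, Lv.cov, zero_mul,
    Finset.sum_const_zero, zero_add]
  rw [mul_sub, Finset.mul_sum, Finset.mul_sum, sub_eq_add_neg (Finset.sum _ _),
    ← Finset.sum_neg_distrib]
  congr 1 <;> refine Finset.sum_congr rfl fun i _ => ?_ <;> field_simp



theorem Dk_cons (p : LP Ω) (L : List (LP Ω)) (j : ℕ) (x y : Ω) :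
    Dk (p :: L) (j + 1) x y = p.k₁.cov x y - p.k₀.cov x y + Dk L j x y := by simp [Dk]




theorem Sacc_eq {t : ℝ} (ht : t ∈ Ioo (0 : ℝ) 1) (x y : Ω) : ∀ (L : List (LP Ω)) (j : ℕ),
    Sacc (L.map LP.tl) t j x y = 1 / 2 * Dk L j x y
  | [], j => by simp [Sacc, Dk]
  | _ :: _, 0 => by simp [Sacc, Dk]
  | p :: L, j + 1 => by
    have e1 : Sacc ((p :: L).map LP.tl) t (j + 1) x y =
        p.tl.S t x y + Sacc (L.map LP.tl) t j x y := by simp [Sacc]
    rw [e1, Sacc_eq ht x y L j, Dk_cons, S_at p ht]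
    ring


theorem lpt_length (L : List (LP Ω)) (t : ℝ) : (lpt L t).length = L.length := by simp [lpt, atL]

theorem ex_lpt (L : List (LP Ω)) (t : ℝ) (j : ℕ) : ex (lpt L t) j = ex (lpB L) j := by
  simp only [ex, lpt, atL, lpB, List.getElem?_map]
  cases L[j]? <;> rfl

theorem dm_lpt (L : List (LP Ω)) (t m0 : ℝ) (j : ℕ) : dm (lpt L t) m0 j = dm (lpB L) m0 j := by
  cases j <;> simp only [dm, exP, ex_lpt]




variable [Fintype Ω] {w : Ω → ℝ}

theorem okCL (L : List (LP Ω)) {K : Set ℝ} (hK : IsCompact K) : ∀ k ∈ L.map LP.tl, k.OkC K :=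
  fun k hk => by
    obtain ⟨p, -, rfl⟩ := List.mem_map.1 hk
    exact TL.okC_of_compact hK fun x i => (cont p x i).continuousOn

/-! ### a bound for the score -/

theorem abs_tX_le (hw : Wt w) (s : Sh) (L : List (Lv Ω)) (h : Ω → ℝ)
    {G G' : (NT s L → ℝ) → (s.Lf → Ω) → ℝ} (hG : ∀ x, Eg fun g => G' g x)
    (e : ∀ g x, |G g x| ≤ G' g x) : |tX w s L h G| ≤ tX w s L h G' := by
  rw [tX, ← Real.norm_eq_abs]
  refine norm_integral_le_of_norm_le (Tr.eg_int (Tr.eg_sumT hw s L h hG)) (.of_forall fun g => ?_)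
  refine (Finset.abs_sum_le_sum_abs _ _).trans (Finset.sum_le_sum fun x _ => ?_)
  rw [abs_mul, abs_of_nonneg (Tr.denT_nonneg hw s L h g x)]
  exact mul_le_mul_of_nonneg_left (e g x) (Tr.denT_nonneg hw s L h g x)

theorem abs_Pf_le (hw : Wt w) (L : List (Lv Ω)) (z : Ω → ℝ) {f : Ω → ℝ} {κ : ℝ}
    (hf : ∀ y, |f y| ≤ κ) : |Pf w L z f| ≤ κ := by
  refine (Finset.abs_sum_le_sum_abs _ _).trans ((Finset.sum_le_sum (g := fun y => P w L z y * κ)
    fun y _ => ?_).trans_eq (by rw [← Finset.sum_mul, sum_P hw, one_mul]))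
  rw [abs_mul, abs_of_nonneg (P_nonneg hw L z y)]
  exact mul_le_mul_of_nonneg_left (hf y) (P_nonneg hw L z y)

theorem mono_weak : ∀ {L : List (Lv Ω)} {m m' : ℝ}, m' ≤ m → Mono m L → Mono m' L
  | [], _, _, h, h' => h.trans h'
  | _ :: _, _, _, h, h' => ⟨h.trans h'.1, h'.2⟩

theorem mono_drop : ∀ (j : ℕ) {L : List (Lv Ω)}, Mono 0 L → Mono 0 (L.drop j)
  | 0, _, h => h
  | _ + 1, [], h => h
  | j + 1, _ :: _, h => mono_drop j (mono_weak h.1 h.2)

theorem ex_nonneg {L : List (Lv Ω)} (h : Mono 0 L) : 0 ≤ ex L 0 := by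
  simpa [dm, exP] using dm_nonneg h 0

theorem abs_pair_le (hw : Wt w) {L : List (Lv Ω)} (hL : Mono 0 L) (z : Ω → ℝ)
    {K : ℕ → Ω → Ω → ℝ} {κ : ℝ} (hK : ∀ j y y', |K j y y'| ≤ κ) : |pair w L 0 K z| ≤ κ := by
  have h1 := pair_mono hw hL (K := K) (K' := fun _ _ _ => κ) (fun j _ y y' => (abs_le.1 (hK j y y')).2) z
  have h2 := pair_mono hw hL (K := fun _ _ _ => -κ) (K' := K)
    (fun j _ y y' => (abs_le.1 (hK j y y')).1) z
  rw [pair_const hw, ← Finset.sum_mul, sum_dm, ex_length] at h1 h2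
  exact abs_le.2 ⟨by linarith, by linarith⟩

theorem abs_cf_le (s : Sh) {L : List (Lv Ω)} (hL : Mono 0 L) {G : s.Lf → ℕ → ℝ} {κ : ℝ}
    (hG : ∀ a j, |G a j| ≤ κ) :
    |∑ a, ∑ j ∈ Finset.range (L.length + 1), cf s L a j * G a j| ≤
      (Fintype.card s.Lf - s.br * ex L 0) * κ := by
  rw [← sum_cf, Finset.sum_mul]
  refine (Finset.abs_sum_le_sum_abs _ _).trans (Finset.sum_le_sum fun a _ => ?_)
  rw [Finset.sum_mul]
  refine (Finset.abs_sum_le_sum_abs _ _).trans (Finset.sum_le_sum fun j _ => ?_)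
  rw [abs_mul, abs_of_nonneg (cf_nonneg s L 0 le_rfl hL a j)]
  exact mul_le_mul_of_nonneg_left (hG a j) (cf_nonneg s L 0 le_rfl hL a j)

theorem abs_DP_le (hw : Wt w) (s : Sh) {L : List (Lv Ω)} (hL : Mono 0 L) (x : s.Lf → Ω)
    (p : Pa s.Lf Ω) {q : Pa s.Lf Ω} {κ : ℝ} (hq : ∀ a j y, |q a j y| ≤ κ) :
    |DP w s L x p q| ≤ 2 * Fintype.card s.Lf * κ := by
  have h1 := abs_cf_le s hL fun a j => abs_Pf_le hw (L.drop j) (p a j) (hq a j)
  have h2 : |∑ a, q a L.length (x a)| ≤ Fintype.card s.Lf * κ :=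
    (Finset.abs_sum_le_sum_abs _ _).trans ((Finset.sum_le_sum fun a _ => hq a _ _).trans_eq (by simp))
  have h3 := (abs_nonneg _).trans (hq s.fst 0 (x s.fst))
  have h4 := mul_nonneg (mul_nonneg (Nat.cast_nonneg s.br) (ex_nonneg hL)) h3
  exact (abs_sub _ _).trans (by linarith)

theorem abs_ND_le (hw : Wt w) {L : List (Lv Ω)} (hL : Mono 0 L) {S : ℕ → Ω → Ω → ℝ} {κ : ℝ}
    (hS : ∀ j y y', |S j y y'| ≤ κ) (j : ℕ) (z : Ω → ℝ) : |ND w L S j z| ≤ 2 * κ := by
  have h1 := abs_Pf_le hw (L.drop j) z fun y => hS L.length y y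
  have h2 := abs_pair_le hw (mono_drop j hL) z fun k => hS (j + k)
  exact (abs_sub _ _).trans (by linarith)

theorem abs_Th_le (hw : Wt w) (s : Sh) {L : List (Lv Ω)} (hL : Mono 0 L) {S : ℕ → Ω → Ω → ℝ}
    {κ : ℝ} (hS : ∀ j y y', |S j y y'| ≤ κ) (h : Ω → ℝ) (x : s.Lf → Ω) (p : Pa s.Lf Ω) :
    |Th w s L S h x p| ≤ (4 * Fintype.card s.Lf ^ 2 + 2 * Fintype.card s.Lf) * κ := by
  have h1 : |DD w s L x p fun a j y b k y' => S (s.shr a b (min j k)) y y'| ≤ _ :=
    abs_DP_le hw s hL x p fun a j y => abs_DP_le hw s hL x p fun b k y' => hS _ y y'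
  have h2 := abs_cf_le s hL fun a j => abs_ND_le hw hL hS j (p a j)
  have h3 := mul_le_mul_of_nonneg_left (abs_ND_le hw hL hS 0 h)
    (mul_nonneg (Nat.cast_nonneg s.br) (ex_nonneg hL))
  rw [← abs_of_nonneg (mul_nonneg (Nat.cast_nonneg s.br) (ex_nonneg hL)), ← abs_mul,
    abs_of_nonneg (mul_nonneg (Nat.cast_nonneg s.br) (ex_nonneg hL))] at h3
  refine (abs_sub _ _).trans ((add_le_add (abs_sub _ _) le_rfl).trans ?_)
  linarith

/-- two-sided Gronwall inequality on `[0, 1]` -/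
theorem gron {f f' : ℝ → ℝ} {c : ℝ} (hc : ContinuousOn f (Icc 0 1))
    (hd : ∀ t ∈ Ioo (0 : ℝ) 1, HasDerivAt f (f' t) t) (hb : ∀ t ∈ Ioo (0 : ℝ) 1, |f' t| ≤ c * f t)
    {t u : ℝ} (ht : t ∈ Icc (0 : ℝ) 1) (hu : u ∈ Icc (0 : ℝ) 1) : f t ≤ exp (c * |t - u|) * f u := by
  have key : ∀ ε : ℝ, (∀ t ∈ Ioo (0 : ℝ) 1, 0 ≤ ε * f' t + c * f t) → ε = 1 ∨ ε = -1 →
      MonotoneOn (fun t => ε * (f t * exp (ε * c * t))) (Icc 0 1) := fun ε h he => by
    have d : ∀ t ∈ Ioo (0 : ℝ) 1, HasDerivAt (fun t => ε * (f t * exp (ε * c * t)))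
        (ε * (f' t * exp (ε * c * t) + f t * (exp (ε * c * t) * (ε * c * 1)))) t := fun t ht =>
      ((hd t ht).mul ((hasDerivAt_id t).const_mul _).exp).const_mul _
    refine monotoneOn_of_deriv_nonneg (convex_Icc 0 1)
      (continuousOn_const.mul (hc.mul (by fun_prop)))
      (fun t ht => (d t (by simpa using ht)).differentiableAt.differentiableWithinAt) fun t ht => ?_
    rw [interior_Icc] at ht
    rw [(d t ht).deriv]
    have := mul_nonneg (h t ht) (exp_pos (ε * c * t)).le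
    rcases he with rfl | rfl <;> linarith
  rcases le_total t u with h | h
  · have := key 1 (fun t ht => by linarith [(abs_le.1 (hb t ht)).1]) (.inl rfl) ht hu h
    rw [abs_of_nonpos (sub_nonpos.2 h), neg_sub, mul_sub, exp_sub, div_mul_eq_mul_div,
      le_div_iff₀ (exp_pos _)]
    simp only [one_mul] at this
    linarith
  · have := key (-1) (fun t ht => by linarith [(abs_le.1 (hb t ht)).2]) (.inr rfl) hu ht h
    rw [abs_of_nonneg (sub_nonneg.2 h), mul_sub, sub_eq_neg_add, ← sub_neg_eq_add, exp_sub,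
      div_mul_eq_mul_div, le_div_iff₀ (exp_pos _)]
    simp only [neg_mul, one_mul] at this
    linarith

/-! ### the `B` term -/




end Lin23

open Lin23

variable [Fintype Ω] {w : Ω → ℝ}

/-- derivative of the value along the path -/
def lD (w : Ω → ℝ) (L : List (LP Ω)) (h : Ω → ℝ) (t : ℝ) : ℝ :=
  (Pf w (lpt L t) h (fun x => Dk L L.length x x) -
    ∑ j ∈ Finset.range (L.length + 1), dm (lpB L) 0 j * pi2 w (lpt L t) j (Dk L j) h) / 2

theorem lin_der (hw : Wt w) (L : List (LP Ω)) {t : ℝ} (ht : t ∈ Ioo (0 : ℝ) 1) (h : Ω → ℝ) :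
    HasDerivAt (fun t => X w (lpt L t) h) (lD w L h t) t := by
  have hd := hasDerivAt_X hw isOpen_Ioo (c1L L) ht (b := fun _ => h) (b' := 0)
    fun x => hasDerivAt_const t (h x)
  refine hd.congr_deriv ?_
  have hS : ∀ j, Sacc (L.map LP.tl) t j = fun x y => 1 / 2 * Dk L j x y := fun j => by
    ext x y; exact Sacc_eq ht x y L j
  rw [DX, pair_eq_sum hw, ← lpt, lpt_length, List.length_map, lD, sub_div, Pf, Finset.sum_div,
    Finset.sum_div]
  congr 1
  · refine Finset.sum_congr rfl fun x _ => ?_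
    rw [hS]
    simp only [Pi.zero_apply, zero_add]
    ring
  · refine Finset.sum_congr rfl fun j _ => ?_
    rw [hS, pi2_const_mul, dm_lpt]
    ring

theorem lin_cont (hw : Wt w) (L : List (LP Ω)) (h : Ω → ℝ) :
    ContinuousOn (fun t => X w (lpt L t) h) (Icc 0 1) :=
  continuousOn_X hw (okCL L isCompact_Icc) (b := fun _ => h) fun _ => continuousOn_const













end Crest.Agent.T156.Cas

end
end

-- ▼ part T156/CavB_23
section

/-!
# Row 156: comparison along `ipl`, and the `B` term (helper23)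

`ipl_cmp`: the laws of the leaves at two times of a linear path are comparable.
`bI`: kernels `k` switched on, constant kernels `v` switched off.
-/

set_option autoImplicit false
set_option linter.unusedSectionVars false

noncomputable section

namespace Crest.Agent.T156.Cas

open MeasureTheory Real Set Filter Topology
open Crest.Agent.T157.E Crest.Agent.T157.Casc Crest.Agent.T157.SL
open Lin23

variable {Ω : Type}

/-- data of one level of the `B` path: bulk level, kernel, and the constant that replaces it -/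
structure BL (Ω : Type) where
  b : Lv Ω
  k : Lv Ω
  v : ℝ

/-- covariance `b + t k + (1 - t) v` -/
def BL.il (c : BL Ω) : IL Ω := ⟨c.b, c.k, cLv Ω c.v 0⟩


/-- centred accumulated kernel `∑_{i<j} (k_i - v_i)` -/
def bU (L : List (BL Ω)) (j : ℕ) (x y : Ω) : ℝ := ((L.take j).map fun c => c.k.cov x y - c.v).sum

theorem cLv_cov23 {c : ℝ} (hc : 0 ≤ c) (m : ℝ) (x y : Ω) : (cLv Ω c m).cov x y = c := by
  simp [Lv.cov, mul_self_sqrt hc]

theorem BL.cov_at {c : BL Ω} (hv : 0 ≤ c.v) {t : ℝ} (ht : t ∈ Icc (0 : ℝ) 1) (x y : Ω) :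
    (c.il.tl.at t).cov x y = c.b.cov x y + t * c.k.cov x y + (1 - t) * c.v := by
  rw [IL.cov_at _ ht]
  simp only [BL.il, cLv_cov23 hv]









variable [Fintype Ω] {w : Ω → ℝ}

/-- **comparison** of the laws of the leaves at two times (bounded density) -/
theorem ipl_cmp (hw : Wt w) (s : Sh) {L : List (IL Ω)} (hL : Mono 0 (L.map IL.b)) {κ : ℝ}
    (hκ : ∀ j y y', |iD L j y y'| ≤ κ) (h : Ω → ℝ) {F : (s.Lf → Ω) → ℝ} (hF : ∀ x, 0 ≤ F x)
    {t u : ℝ} (ht : t ∈ Icc (0 : ℝ) 1) (hu : u ∈ Icc (0 : ℝ) 1) :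
    tX w s (ipl L t) h (fun _ x => F x) ≤
      exp ((2 * Fintype.card s.Lf ^ 2 + Fintype.card s.Lf) * κ * |t - u|) *
        tX w s (ipl L u) h fun _ x => F x := by
  refine gron (continuousOn_tX_ipl hw s L h F) (fun t ht => hasDerivAt_tX_ipl hw s L h F ht)
    (fun t _ => ?_) ht hu
  rw [← Sd.tX_const_mul]
  refine abs_tX_le hw s _ h (fun x => Eg.const _) fun g x => ?_
  have := abs_Th_le hw s ((mono_ipl t L 0).2 hL) (S := fun j y y' => 1 / 2 * iD L j y y')
    (κ := 1 / 2 * κ) (fun j y y' => by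
      rw [abs_mul, abs_of_pos one_half_pos]
      exact mul_le_mul_of_nonneg_left (hκ j y y') one_half_pos.le) h x (stT s (ipl L t) h g)
  rw [abs_mul, abs_of_nonneg (hF x), mul_comm]
  exact mul_le_mul_of_nonneg_right (this.trans_eq (by ring)) (hF x)

/-- the same with a constant that does not depend on the times -/
theorem ipl_cmp' (hw : Wt w) (s : Sh) {L : List (IL Ω)} (hL : Mono 0 (L.map IL.b)) {κ : ℝ}
    (hκ : ∀ j y y', |iD L j y y'| ≤ κ) (h : Ω → ℝ) {F : (s.Lf → Ω) → ℝ} (hF : ∀ x, 0 ≤ F x)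
    {t u : ℝ} (ht : t ∈ Icc (0 : ℝ) 1) (hu : u ∈ Icc (0 : ℝ) 1) :
    tX w s (ipl L t) h (fun _ x => F x) ≤
      exp ((2 * Fintype.card s.Lf ^ 2 + Fintype.card s.Lf) * κ) *
        tX w s (ipl L u) h fun _ x => F x := by
  refine (ipl_cmp hw s hL hκ h hF ht hu).trans (mul_le_mul_of_nonneg_right (exp_le_exp.2 ?_)
    (Sd.tX_nonneg hw s _ h fun _ x => hF x))
  obtain ⟨y⟩ : Nonempty Ω := by
    by_contra hn
    have := hw.pos
    simp [not_nonempty_iff.1 hn] at this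
  have h0 := (abs_nonneg _).trans (hκ 0 y y)
  exact mul_le_of_le_one_right (by positivity) (abs_le.2 ⟨by linarith [ht.1, hu.2], by
    linarith [ht.2, hu.1]⟩)














end Crest.Agent.T156.Cas

end
end

-- ▼ part T156/CavR_22

/-!
# Row 156 (helper22): remainders of the cavity expansion and the expansion of the value
-/

set_option autoImplicit false
set_option linter.unusedSectionVars false

noncomputable section

namespace Crest.Agent.T156.Cas

open MeasureTheory Real Set Filter Topology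
open Crest.Agent.T157.E Crest.Agent.T157.Casc Crest.Agent.T157.SL

variable {Ω S Θ : Type}

theorem itE_const_mul (ε : ℝ) (M : List (Lv Θ)) (K : ℕ → Ω → Ω → ℝ) (E : Fn Ω) (c : ℝ) :
    ∀ (n : ℕ) (s : Sh) (F : (s.Lf → Ω) → ℝ),
      itE ε M K (fun s F => c * E s F) n s F = c * itE ε M K E n s F
  | 0, _, _ => rfl
  | n + 1, s, F => by simp only [itE, itE_const_mul ε M K E c n, sg_const_mul]

/-- the signed sum is dominated by the total variation -/
theorem abs_itE_le {M : List (Lv Θ)} (hM : Mono 0 M) {K K' : ℕ → Ω → Ω → ℝ}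
    (hK : ∀ j ≤ M.length, ∀ x y, |K j x y| ≤ K' j x y) {E E' : Fn Ω} {N : ℕ}
    (hE : ∀ s : Sh, Fintype.card s.Lf ≤ N → ∀ F F', (∀ x, |F x| ≤ F' x) → |E s F| ≤ E' s F') :
    ∀ (n : ℕ) (s : Sh) (F F' : (s.Lf → Ω) → ℝ), Fintype.card s.Lf + 2 * n ≤ N →
      (∀ x, |F x| ≤ F' x) → |itE (-1) M K E n s F| ≤ itE 1 M K' E' n s F'
  | 0, s, F, F', hs, hF => hE s (by omega) F F' hF
  | n + 1, s, F, F', hs, hF => abs_sg_le hM s fun τ hτ =>
      abs_itE_le hM hK hE n τ.sh _ _ (by have := hτ.card; omega) fun x => by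
        rw [GT.ev, GT.ev, abs_mul]
        exact mul_le_mul (hF _) (hK _ hτ.le _ _) (abs_nonneg _) ((abs_nonneg _).trans (hF _))



variable [Fintype Ω] [Fintype S] {w : Ω → ℝ}

theorem abs_TE_le' (hw : Wt w) (s : Sh) (M : List (Lv Ω)) (h : Ω → ℝ) {F F' : (s.Lf → Ω) → ℝ}
    (H : ∀ x, |F x| ≤ F' x) : |TE w s M h F| ≤ TE w s M h F' :=
  (Law.abs_TE_le hw s M h F).trans (Law.TE_mono hw s M h H)

theorem GT.Mem.TE_pair (hw : Wt w) {s : Sh} {M : List (Lv Ω)} {τ : GT s} (H : τ.Mem s M.length)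
    (h : Ω → ℝ) (K : Ω → Ω → ℝ) :
    TE w τ.sh M h (fun x => K (x τ.p) (x τ.q)) = pi2 w M τ.j K h := by
  rw [Cas.TE_pair hw _ _ _ H.ne, H.shr]


/-- derivatives at time `t` against the total variation at time `u` -/
theorem abs_iDn_le (hw : Wt w) {L : List (IL Ω)} (hL : Mono 0 (L.map IL.b)) {κ : ℝ}
    (hκ : ∀ j y y', |iD L j y y'| ≤ κ) (h : Ω → ℝ) {K : ℕ → Ω → Ω → ℝ}
    (hK : ∀ j ≤ L.length, ∀ x y, |1 / 2 * iD L j x y| ≤ K j x y) {t u : ℝ}
    (ht : t ∈ Icc (0 : ℝ) 1) (hu : u ∈ Icc (0 : ℝ) 1) {N n : ℕ} {s : Sh}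
    (hs : Fintype.card s.Lf + 2 * n ≤ N) {F F' : (s.Lf → Ω) → ℝ} (hF : ∀ x, |F x| ≤ F' x) :
    |iDn w L h n s F t| ≤
      exp ((2 * N ^ 2 + N) * κ) * itE 1 (L.map IL.b) K (TEf w (ipl L u) h) n s F' := by
  rw [← itE_const_mul]
  refine abs_itE_le hL (by simpa only [List.length_map] using hK) (fun s hs F F' hF => ?_) n s F F'
    hs hF
  have h0 : ∀ x, 0 ≤ F' x := fun x => (abs_nonneg _).trans (hF x)
  refine (abs_TE_le' hw s _ h hF).trans ((ipl_cmp' hw s hL hκ h h0 ht hu).trans ?_)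
  obtain ⟨y, -⟩ := Finset.exists_ne_zero_of_sum_ne_zero hw.pos.ne'
  have h1 : 0 ≤ κ := (abs_nonneg _).trans (hκ 0 y y)
  have h2 : (Fintype.card s.Lf : ℝ) ≤ N := by exact_mod_cast hs
  have h3 : 0 ≤ TE w s (ipl L u) h F' :=
    (Law.TE_const hw s _ h 0).symm.trans_le (Law.TE_mono hw s _ h h0)
  show _ * TE w s (ipl L u) h F' ≤ _ * TE w s (ipl L u) h F'
  gcongr

variable {w₁ : Ω → ℝ} {w₂ : S → ℝ}



/-! ### pair sums and the value -/

/-- the pair function of a kernel -/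
def pr2 (j : ℕ) (K : Ω → Ω → ℝ) : ((Sh.two j).Lf → Ω) → ℝ := fun x => K (x (Sh.twoL j)) (x (Sh.twoR j))

/-- `n`-th derivative of `∑ dm_j pi2_j (K_j)` along the linear path -/
def iW (w : Ω → ℝ) (L : List (IL Ω)) (h : Ω → ℝ) (K : ℕ → Ω → Ω → ℝ) (n : ℕ) (t : ℝ) : ℝ :=
  ∑ j ∈ Finset.range (L.length + 1), dm (L.map IL.b) 0 j * iDn w L h n (Sh.two j) (pr2 j (K j)) t

theorem iDn_pr2 (hw : Wt w) (L : List (IL Ω)) (h : Ω → ℝ) (j : ℕ) (K : Ω → Ω → ℝ) (t : ℝ) :
    iDn w L h 0 (Sh.two j) (pr2 j K) t = pi2 w (ipl L t) j K h := Wt87.tX_two hw K j _ h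

theorem iW_zero (hw : Wt w) (L : List (IL Ω)) (h : Ω → ℝ) (K : ℕ → Ω → Ω → ℝ) (t : ℝ) :
    iW w L h K 0 t = ∑ j ∈ Finset.range (L.length + 1),
      dm (L.map IL.b) 0 j * pi2 w (ipl L t) j (K j) h := by
  simp only [iW, iDn_pr2 hw]

theorem hasDerivAt_iW (hw : Wt w) (L : List (IL Ω)) (h : Ω → ℝ) {c : ℝ}
    (hc : ∀ y, iD L L.length y y = c) (K : ℕ → Ω → Ω → ℝ) (n : ℕ) {t : ℝ} (ht : t ∈ Ioo (0 : ℝ) 1) :
    HasDerivAt (iW w L h K n) (iW w L h K (n + 1) t) t :=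
  HasDerivAt.fun_sum fun _ _ => (hasDerivAt_iDn hw L h hc ht n _ _).const_mul _

theorem continuousOn_iW (hw : Wt w) (L : List (IL Ω)) (h : Ω → ℝ) (K : ℕ → Ω → Ω → ℝ) (n : ℕ) :
    ContinuousOn (iW w L h K n) (Icc 0 1) :=
  continuousOn_finsetSum _ fun _ _ => continuousOn_const.mul (continuousOn_iDn hw L h n _ _)

theorem taylor_iW (hw : Wt w) (L : List (IL Ω)) (h : Ω → ℝ) {c : ℝ}
    (hc : ∀ y, iD L L.length y y = c) (K : ℕ → Ω → Ω → ℝ) {T : ℝ} (hT : T ∈ Icc (0 : ℝ) 1) (J : ℕ) :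
    iW w L h K 0 T = ∑ n ∈ Finset.range (J + 1), iW w L h K n 0 * T ^ n / n.factorial +
      ∫ t in (0 : ℝ)..T, iW w L h K (J + 1) t * (T - t) ^ J / J.factorial :=
  Cav22.taylor (continuousOn_iW hw L h K) (fun n _ ht => hasDerivAt_iW hw L h hc K n ht) hT J

theorem iX_eq (hw : Wt w) (L : List (IL Ω)) (h : Ω → ℝ) {c : ℝ}
    (hc : ∀ y, iD L L.length y y = c) (t : ℝ) : iX w L h t = (c - iW w L h (iD L) 0 t) / 2 := by
  simp only [iX, iW_zero hw, hc, Pf, ← Finset.sum_mul, sum_P hw, one_mul]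

/-- **Taylor expansion of the value** -/
theorem taylor_X_ipl (hw : Wt w) (L : List (IL Ω)) (h : Ω → ℝ) {c : ℝ}
    (hc : ∀ y, iD L L.length y y = c) {T : ℝ} (hT : T ∈ Icc (0 : ℝ) 1) (J : ℕ) :
    X w (ipl L T) h = X w (ipl L 0) h + c * T / 2 -
      (∑ n ∈ Finset.range J, iW w L h (iD L) n 0 * T ^ (n + 1) / (n + 1).factorial +
        ∫ t in (0 : ℝ)..T, iW w L h (iD L) J t * (T - t) ^ J / J.factorial) / 2 := by
  have := Cav22.taylor (f := fun n => Nat.casesOn n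
      (fun t => c * t - 2 * X w (ipl L t) h) fun n => iW w L h (iD L) n)
    (fun n => by
      cases n with
      | zero => exact (continuousOn_const.mul continuousOn_id).sub
                  (continuousOn_const.mul (continuousOn_X_ipl hw L h))
      | succ n => exact continuousOn_iW hw L h _ n)
    (fun n t ht => by
      cases n with
      | zero =>
        refine (((hasDerivAt_id' t).const_mul c).fun_sub
          ((hasDerivAt_X_ipl hw L h ht).const_mul 2)).congr_deriv ?_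
        rw [iX_eq hw L h hc]
        show _ = iW w L h (iD L) 0 t
        ring
      | succ n => exact hasDerivAt_iW hw L h hc _ n ht) hT J
  rw [Finset.sum_range_succ'] at this
  simp only [Nat.rec_zero, mul_zero, pow_zero, Nat.factorial_zero, Nat.cast_one] at this
  linarith

/-- total weight one: a bound for every level is a bound for the pair sum -/
theorem abs_iW_le {L : List (IL Ω)} (hL : Mono 0 (L.map IL.b)) {h : Ω → ℝ} {K : ℕ → Ω → Ω → ℝ}
    {n : ℕ} {t : ℝ} {B : ℕ → ℝ}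
    (hB : ∀ j ≤ L.length, |iDn w L h n (Sh.two j) (pr2 j (K j)) t| ≤ B j) :
    |iW w L h K n t| ≤ ∑ j ∈ Finset.range (L.length + 1), dm (L.map IL.b) 0 j * B j := by
  refine (Finset.abs_sum_le_sum_abs _ _).trans (Finset.sum_le_sum fun j hj => ?_)
  rw [abs_mul, abs_of_nonneg (dm_nonneg hL j)]
  exact mul_le_mul_of_nonneg_left (hB j (Nat.lt_succ_iff.1 (Finset.mem_range.1 hj)))
    (dm_nonneg hL j)





end Crest.Agent.T156.Cas

end
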