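import Crest.Agent.T156.Leg_51
import Crest.Agent.T156.One_15
import Crest.Agent.T156.CaTayC_38

/-!
# Row 156 (helper51): evaluation of words of legs

`LW_SK`: on a skeleton the legs act cluster by cluster; `hasDerivAt_LW`: a leg on a cluster is a
derivative of `exp (x₁ X) * TE`; the values for one site.
-/

set_option autoImplicit false
set_option linter.unusedSectionVars false

noncomputable section

namespace Crest.Agent.T156.Cas

open MeasureTheory Real Set Filter Topology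
open Crest.Agent.T157.E Crest.Agent.T157.Casc Crest.Agent.T157.SL
open Wt87 (shr_self shr_le sum_split br_graft card_graft)

namespace Leg51

variable {Ω Θ Θ' ι ι' : Type} {ε : ℝ} {i : ℕ}

/-! ### the recursion of `lg` along the shape -/

theorem LW_lg (M : List (Lv Θ)) (p : ι × (Ω → ℝ)) (W : List (ι × (Ω → ℝ))) (Ψ : MF ι Ω) (s : Sh)
    (e : ι → s.Lf) (F : (s.Lf → Ω) → ℝ) : LW ε i M (p :: W) Ψ s e F =
      lg ε i M s (e p.1) fun s' e' c => LW ε i M W Ψ s' (fun x => e' (e x))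
        fun x => F (fun b => x (e' b)) * p.2 (x c) := rfl

theorem lg_tilt {M : List (Lv Θ)} {M' : List (Lv Θ')} (H : M.map Lv.m = M'.map Lv.m) (s : Sh)
    (a : s.Lf) (Ψ : ∀ s' : Sh, (s.Lf → s'.Lf) → s'.Lf → ℝ) : lg ε i M s a Ψ = lg ε i M' s a Ψ := by
  simp only [lg, Cav22.cw_tilt s H, Cav22.len_tilt H]

theorem LW_tilt {M : List (Lv Θ)} {M' : List (Lv Θ')} (H : M.map Lv.m = M'.map Lv.m)
    (Ψ : MF ι Ω) : ∀ W : List (ι × (Ω → ℝ)), LW ε i M W Ψ = LW ε i M' W Ψ
  | [] => rfl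
  | p :: W => by
      funext s e F
      rw [LW_cons, LW_cons, LW_tilt H Ψ W]
      exact lg_tilt H s _ _

theorem cw_pos (s : Sh) (M : List (Lv Θ)) (a : s.Lf) {k : ℕ} (hk : k ≠ 0) :
    cw s M a k = cf s M a k := by rw [cw, if_neg fun e => hk e.2, add_zero]

theorem lg_eq (M : List (Lv Θ)) (s : Sh) (a : s.Lf) (Ψ : ∀ s' : Sh, (s.Lf → s'.Lf) → s'.Lf → ℝ) :
    lg ε i M s a Ψ = ∑ b, if s.shr a b (i + 1) = i + 1 then Ψ s id b + ε *
      ∑ k ∈ Finset.Ioc i M.length, cf s M b k * Ψ (s.graft b k) (s.emb b k) (s.nw b k) else 0 := by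
  rw [lg, pos, Finset.sum_product, Finset.mul_sum, ← Finset.sum_add_distrib, cls, Finset.sum_filter]
  refine Finset.sum_congr rfl fun b _ => if_congr Iff.rfl (ac rfl (mc ?_)) rfl
  exact Finset.sum_congr rfl fun k hk => by
    rw [cw_pos s M b (by have := (Finset.mem_Ioc.1 hk).1; omega)]

theorem lg_inl (M : List (Lv Θ)) (s t : Sh) (a : s.Lf)
    (Ψ : ∀ s' : Sh, ((Sh.split s t).Lf → s'.Lf) → s'.Lf → ℝ) :
    lg ε i M (.split s t) (.inl a) Ψ =
      lg ε i M s a fun s' e c => Ψ (.split s' t) (Sum.map e id) (.inl c) := by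
  refine (lg_eq M (.split s t) (.inl a) Ψ).trans ((sum_split s t _).trans
    ((ac ?_ (Finset.sum_eq_zero fun b _ => if_neg (Nat.succ_ne_zero i).symm)).trans
      ((add_zero _).trans (lg_eq M s a _).symm)))
  exact Finset.sum_congr rfl fun b _ => if_congr Iff.rfl
    (ac (congrArg (fun e => Ψ (.split s t) e (.inl b)) Sum.map_id_id.symm) rfl) rfl

theorem lg_inr (M : List (Lv Θ)) (s t : Sh) (a : t.Lf)
    (Ψ : ∀ s' : Sh, ((Sh.split s t).Lf → s'.Lf) → s'.Lf → ℝ) :
    lg ε i M (.split s t) (.inr a) Ψ =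
      lg ε i M t a fun t' e c => Ψ (.split s t') (Sum.map id e) (.inr c) := by
  refine (lg_eq M (.split s t) (.inr a) Ψ).trans ((sum_split s t _).trans
    ((ac (Finset.sum_eq_zero fun b _ => if_neg (Nat.succ_ne_zero i).symm) ?_).trans
      ((zero_add _).trans (lg_eq M t a _).symm)))
  exact Finset.sum_congr rfl fun b _ => if_congr Iff.rfl
    (ac (congrArg (fun e => Ψ (.split s t) e (.inr b)) Sum.map_id_id.symm) rfl) rfl

theorem sum_Ioc_succ (i n : ℕ) (G : ℕ → ℝ) :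
    ∑ k ∈ Finset.Ioc (i + 1) (n + 1), G k = ∑ k ∈ Finset.Ioc i n, G (k + 1) := by
  rw [← Finset.map_add_right_Ioc, Finset.sum_map]
  rfl

theorem lg_step (l : Lv Θ) (M : List (Lv Θ)) (s : Sh) (a : s.Lf)
    (Ψ : ∀ s' : Sh, ((Sh.step s).Lf → s'.Lf) → s'.Lf → ℝ) :
    lg ε (i + 1) (l :: M) (.step s) a Ψ = lg ε i M s a fun s' e c => Ψ (.step s') e c := by
  refine (lg_eq (l :: M) (.step s) a Ψ).trans (Eq.trans ?_ (lg_eq M s a _).symm)
  refine Finset.sum_congr rfl fun b _ => if_congr Nat.succ_inj (ac rfl (mc ?_)) rfl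
  refine (sum_Ioc_succ i M.length _).trans (Finset.sum_congr rfl fun k hk => ?_)
  have h : k ≠ 0 := by have := (Finset.mem_Ioc.1 hk).1; omega
  exact congrArg₂ (· * ·) ((cf_step s l M b k).trans
    (by rw [if_neg fun e => h e.2, add_zero])) rfl

theorem LW_one_step (l : Lv Θ) (M : List (Lv Θ)) {Λ : Fn Ω}
    (h : ∀ F, Λ .one F = Λ (.step .one) F) : ∀ (W : List (ι × (Ω → ℝ))) (e : ι → Sh.one.Lf)
    (F : (Sh.one.Lf → Ω) → ℝ), LW ε i (l :: M) W (cst Λ) .one e F =
      LW ε i (l :: M) W (cst Λ) (.step .one) e F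
  | [], _, F => h F
  | p :: W, e, F => by
      refine ((LW_lg _ p W _ .one e F).trans (lg_eq (l :: M) .one (e p.1) _)).trans (Eq.trans ?_
        ((LW_lg _ p W _ (.step .one) e F).trans (lg_eq (l :: M) (.step .one) (e p.1) _)).symm)
      refine Finset.sum_congr rfl fun b _ => if_congr (iff_of_true rfl (shr_self (.step .one) b _))
        (ac (LW_one_step l M h W e _) (mc (Finset.sum_congr rfl fun k hk => ?_))) rfl
      obtain ⟨k, rfl⟩ := Nat.exists_eq_succ_of_ne_zero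
        (show k ≠ 0 by have := (Finset.mem_Ioc.1 hk).1; omega)
      exact congrArg₂ (· * ·) (cf_one_step l M b _) rfl

/-- the legs of the left part -/
def lft {β : Type} (W : List ((ι ⊕ ι') × β)) : List (ι × β) :=
  W.filterMap fun p => p.1.getLeft?.map (·, p.2)

/-- the legs of the right part -/
def rgt {β : Type} (W : List ((ι ⊕ ι') × β)) : List (ι' × β) :=
  W.filterMap fun p => p.1.getRight?.map (·, p.2)

/-- the legs of one cluster -/
def legs {β : Type} [DecidableEq ι] (W : List (ι × β)) (a : ι) : List β :=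
  (W.filter fun p => p.1 = a).map Prod.snd

theorem legs_lft {β : Type} [DecidableEq ι] [DecidableEq ι'] (a : ι) :
    ∀ W : List ((ι ⊕ ι') × β), legs (lft W) a = legs W (.inl a)
  | [] => rfl
  | (.inl b, f) :: W => by
      have := legs_lft a W
      by_cases h : b = a <;> simp_all [legs, lft]
  | (.inr b, f) :: W => by
      have := legs_lft a W
      simp_all [legs, lft, List.filterMap_cons]

theorem legs_rgt {β : Type} [DecidableEq ι] [DecidableEq ι'] (a : ι') :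
    ∀ W : List ((ι ⊕ ι') × β), legs (rgt W) a = legs W (.inr a)
  | [] => rfl
  | (.inr b, f) :: W => by
      have := legs_rgt a W
      by_cases h : b = a <;> simp_all [legs, rgt]
  | (.inl b, f) :: W => by
      have := legs_rgt a W
      simp_all [legs, rgt, List.filterMap_cons]

theorem lg_mul_const (M : List (Lv Θ)) (s : Sh) (a : s.Lf) (c : ℝ)
    (Ψ : ∀ s' : Sh, (s.Lf → s'.Lf) → s'.Lf → ℝ) :
    lg ε i M s a (fun s' e b => Ψ s' e b * c) = lg ε i M s a Ψ * c := by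
  simp only [lg, add_mul, Finset.sum_mul, mul_assoc]

theorem lg_const_mul (M : List (Lv Θ)) (s : Sh) (a : s.Lf) (c : ℝ)
    (Ψ : ∀ s' : Sh, (s.Lf → s'.Lf) → s'.Lf → ℝ) :
    lg ε i M s a (fun s' e b => c * Ψ s' e b) = c * lg ε i M s a Ψ := by
  simp only [mul_comm c, lg_mul_const]

/-- multiplicative functionals: the legs of the two parts of a split act separately -/
theorem LW_split (M : List (Lv Θ)) {Λ : Fn Ω} (h : ∀ s t F G, Λ (.split s t)
      (fun x => F (fun a => x (.inl a)) * G fun a => x (.inr a)) = Λ s F * Λ t G) :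
    ∀ (W : List ((ι ⊕ ι') × (Ω → ℝ))) (s t : Sh) (e : ι → s.Lf) (e' : ι' → t.Lf)
      (F : (s.Lf → Ω) → ℝ) (G : (t.Lf → Ω) → ℝ),
      LW ε i M W (cst Λ) (.split s t) (Sum.map e e')
          (fun x => F (fun a => x (.inl a)) * G fun a => x (.inr a)) =
        LW ε i M (lft W) (cst Λ) s e F * LW ε i M (rgt W) (cst Λ) t e' G
  | [], s, t, _, _, F, G => h s t F G
  | (.inl a, f) :: W, s, t, e, e', F, G => by
      refine ((LW_lg M (.inl a, f) W _ (.split s t) (Sum.map e e') _).trans (lg_inl M s t (e a) _)).trans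
        (Eq.trans ?_ ((lg_mul_const M s (e a) (LW ε i M (rgt W) (cst Λ) t e' G) _).trans
          (congrArg (· * _) (LW_lg M (a, f) (lft W) (cst Λ) s e F).symm)))
      congr 1
      funext s' e1 c
      refine Eq.trans ?_ (LW_split M h W s' t (fun x => e1 (e x)) e'
        (fun x => F (fun b => x (e1 b)) * f (x c)) G)
      exact congrArg₂ (LW ε i M W (cst Λ) (.split s' t)) (funext fun x => by cases x <;> rfl)
        (funext fun x => mul_right_comm _ _ _)
  | (.inr a, f) :: W, s, t, e, e', F, G => by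
      refine ((LW_lg M (.inr a, f) W _ (.split s t) (Sum.map e e') _).trans (lg_inr M s t (e' a) _)).trans
        (Eq.trans ?_ ((lg_const_mul M t (e' a) (LW ε i M (lft W) (cst Λ) s e F) _).trans
          (mc (LW_lg M (a, f) (rgt W) (cst Λ) t e' G).symm)))
      congr 1
      funext t' e1 c
      refine Eq.trans ?_ (LW_split M h W s t' e (fun x => e1 (e' x)) F
        fun x => G (fun b => x (e1 b)) * f (x c))
      exact congrArg₂ (LW ε i M W (cst Λ) (.split s t')) (funext fun x => by cases x <;> rfl)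
        (funext fun x => mul_assoc _ _ _)

/-! ### size of a word -/

theorem abs_lg_le (hε : |ε| ≤ 1) {M : List (Lv Θ)} (hM : Mono 0 M) (s : Sh) (a : s.Lf)
    {Ψ : ∀ s' : Sh, (s.Lf → s'.Lf) → s'.Lf → ℝ} {β : ℝ} (hβ : 0 ≤ β)
    (h : ∀ s' e c, Fintype.card s'.Lf ≤ Fintype.card s.Lf + 1 → |Ψ s' e c| ≤ β) :
    |lg ε i M s a Ψ| ≤ 2 * Fintype.card s.Lf * β := by
  have h1 : |∑ b ∈ cls i s a, Ψ s id b| ≤ Fintype.card s.Lf * β :=
    (Finset.abs_sum_le_sum_abs _ _).trans ((Finset.sum_le_card_nsmul _ _ β fun b _ =>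
      h s id b (Nat.le_succ _)).trans (by
        rw [nsmul_eq_mul]
        exact mul_le_mul_of_nonneg_right (Nat.cast_le.2 (Finset.card_le_univ _)) hβ))
  have h2 : |∑ p ∈ pos i M.length s a, cw s M p.1 p.2 *
      Ψ (s.graft p.1 p.2) (s.emb p.1 p.2) (s.nw p.1 p.2)| ≤ Fintype.card s.Lf * β := by
    rw [← sum_cw s M, ← Finset.sum_product', Finset.sum_mul]
    refine (Finset.abs_sum_le_sum_abs _ _).trans ((Finset.sum_le_sum fun p _ => ?_).trans
      (Finset.sum_le_sum_of_subset_of_nonneg (fun p hp => ?_) fun p _ _ =>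
        mul_nonneg (cw_nonneg s hM _ _) hβ))
    · rw [abs_mul, abs_of_nonneg (cw_nonneg s hM _ _)]
      exact mul_le_mul_of_nonneg_left (h _ _ _ (card_graft s _ _).le) (cw_nonneg s hM _ _)
    · simpa [Nat.lt_succ_iff] using (mem_pos.1 hp).2.2
  refine (abs_add_le _ _).trans ?_
  rw [abs_mul]
  nlinarith [mul_le_mul hε h2 (abs_nonneg _) zero_le_one]

/-- total variation bound -/
theorem abs_LW_le (hε : |ε| ≤ 1) {M : List (Lv Θ)} (hM : Mono 0 M) {Λ : Fn Ω}
    (hΛ : ∀ s F B, (∀ x, |F x| ≤ B) → |Λ s F| ≤ B) {c : ℝ} (hc : 0 ≤ c) {N : ℕ} :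
    ∀ (W : List (ι × (Ω → ℝ))), (∀ p ∈ W, ∀ y, |p.2 y| ≤ c) → ∀ (s : Sh) (e : ι → s.Lf)
      (F : (s.Lf → Ω) → ℝ) (B : ℝ), 0 ≤ B → (∀ x, |F x| ≤ B) → Fintype.card s.Lf + W.length ≤ N →
      |LW ε i M W (cst Λ) s e F| ≤ (2 * N * c) ^ W.length * B
  | [], _, s, _, F, B, _, hF, _ => (hΛ s F B hF).trans_eq (by simp)
  | p :: W, hW, s, e, F, B, hB, hF, hN => by
      rw [List.length_cons] at hN ⊢
      rw [LW_lg]
      refine (abs_lg_le hε hM s (e p.1) (β := (2 * N * c) ^ W.length * (B * c)) (by positivity)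
        fun s' e' b hs => abs_LW_le hε hM hΛ hc W (fun q hq => hW q (List.mem_cons_of_mem _ hq))
          s' _ _ _ (by positivity) (fun x => ?_) (by omega)).trans ?_
      · rw [abs_mul]
        exact mul_le_mul (hF _) (hW p List.mem_cons_self _) (abs_nonneg _) hB
      · have : (Fintype.card s.Lf : ℝ) ≤ N := Nat.cast_le.2 (by omega)
        calc _ ≤ 2 * N * ((2 * N * c) ^ W.length * (B * c)) := by gcongr
          _ = _ := by ring

/-! ### tree expectations -/

variable [Fintype Ω] {w : Ω → ℝ}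

theorem eg_LW (hw : Wt w) (M' : List (Lv Θ)) (M : List (Lv Ω)) : ∀ (W : List (ι × (Ω → ℝ)))
    (s : Sh) (e : ι → s.Lf) (F : (s.Lf → Ω) → ℝ),
    Eg fun z => LW ε i M' W (cst (TEf w M z)) s e F
  | [], s, _, F => Law.eg_TE hw s M F
  | _ :: W, s, e, _ => (Eg.sum _ fun _ _ => eg_LW hw M' M W s e _).add
      ((Eg.sum _ fun _ _ => (eg_LW hw M' M W _ _ _).const_mul _).const_mul ε)

theorem LW_step_TE (hw : Wt w) (l : Lv Ω) (M : List (Lv Ω)) (h : Ω → ℝ) :
    ∀ (W : List (ι × (Ω → ℝ))) (s : Sh) (e : ι → s.Lf) (F : (s.Lf → Ω) → ℝ),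
    LW ε (i + 1) (l :: M) W (cst (TEf w (l :: M) h)) (.step s) e F =
      tE l (X w M) (fun z => LW ε i M W (cst (TEf w M z)) s e F) h
  | [], s, _, F => Law.TE_step hw s l M h F
  | p :: W, s, e, F => by
      refine ((LW_lg _ p W _ (.step s) e F).trans (lg_step l M s (e p.1) _)).trans ?_
      simp only [LW_cons, Lg, lg]
      rw [tE_add (lg_X hw M) (Eg.sum _ fun _ _ => eg_LW hw M M W s _ _)
        ((Eg.sum _ fun _ _ => (eg_LW hw M M W _ _ _).const_mul _).const_mul ε), tE_const_mul,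
        tE_sum (lg_X hw M) _ fun _ _ => eg_LW hw M M W s _ _,
        tE_sum (lg_X hw M) _ fun _ _ => (eg_LW hw M M W _ _ _).const_mul _]
      exact ac (Finset.sum_congr rfl fun b _ => LW_step_TE hw l M h W s _ _)
        (mc (Finset.sum_congr rfl fun q _ => (mc (LW_step_TE hw l M h W _ _ _)).trans
          (tE_const_mul _ _ _ _ _).symm))

theorem LW_one_TE (hw : Wt w) (W : List (ι × (Ω → ℝ))) (e : ι → Sh.one.Lf)
    (F : (Sh.one.Lf → Ω) → ℝ) : ∀ (i : ℕ) (M : List (Lv Ω)) (h : Ω → ℝ), i ≤ M.length →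
    LW ε i M W (cst (TEf w M h)) .one e F =
      node w M i (fun z => LW ε 0 (M.drop i) W (cst (TEf w (M.drop i) z)) .one e F) h
  | 0, M, h, _ => by rw [node_zero]; rfl
  | i + 1, l :: M, h, hi => by
      rw [LW_one_step l M fun F => Gf.tX_one_cons w l M h _]
      refine (LW_step_TE hw l M h W .one e F).trans ?_
      rw [node_cons, funext fun z => LW_one_TE hw W e F i M z (Nat.le_of_succ_le_succ hi)]
      rfl

/-- expectation on a skeleton of a product of functions of the states at depth `i` -/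
def SK (w : Ω → ℝ) : (t : Sh) → List (Lv Ω) → ℕ → (t.Lf → (Ω → ℝ) → ℝ) → (Ω → ℝ) → ℝ
  | .one, M, i, Ψ => node w M i (Ψ ())
  | .step _, [], _, _ => fun _ => 1
  | .step _, _ :: _, 0, _ => fun _ => 1
  | .step t, l :: M, i + 1, Ψ => tE l (X w M) (SK w t M i Ψ)
  | .split s t, M, i, Ψ => fun h =>
      SK w s M i (fun a => Ψ (.inl a)) h * SK w t M i (fun a => Ψ (.inr a)) h

/-- **value of a cluster**: one leaf with the function `f`, then the legs `fs` -/
def GC (ε : ℝ) (w : Ω → ℝ) (B : List (Lv Ω)) (f : Ω → ℝ) (fs : List (Ω → ℝ)) (z : Ω → ℝ) : ℝ :=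
  LW ε 0 B (fs.map fun g => ((), g)) (cst (TEf w B z)) .one id fun x => f (x ())

theorem TEf_split (hw : Wt w) (M : List (Lv Ω)) (h : Ω → ℝ) (s t : Sh) (F : (s.Lf → Ω) → ℝ)
    (G : (t.Lf → Ω) → ℝ) : TEf w M h (.split s t)
      (fun x => F (fun a => x (.inl a)) * G fun a => x (.inr a)) = TEf w M h s F * TEf w M h t G := by
  refine (Law.TE_split hw s t M h _).trans (Eq.trans ?_ (Law.TE_mul_const hw s M h _ F))
  exact congrArg (TE w s M h) (funext fun x => Law.TE_const_mul hw t M h (F x) G)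

theorem legs_unit {β : Type} (W : List (Sh.one.Lf × β)) :
    (legs W ()).map (fun g => (((), g) : Sh.one.Lf × β)) = W := by
  have h : W.filter (fun p => @decide (p.1 = ()) (Sh.one.decLf _ _)) = W :=
    List.filter_eq_self.2 fun p _ => @decide_eq_true _ (Sh.one.decLf _ _) rfl
  refine (congrArg (fun V : List (Sh.one.Lf × β) =>
    (V.map Prod.snd).map fun g => (((), g) : Sh.one.Lf × β)) h).trans ?_
  rw [List.map_map]
  exact List.map_id W

/-- **evaluation on a skeleton**: the legs act cluster by cluster -/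
theorem LW_SK (hw : Wt w) : ∀ (t : Sh) (M : List (Lv Ω)) (i : ℕ), t.dep ≤ i → i ≤ M.length →
    ∀ (W : List (t.Lf × (Ω → ℝ))) (f : t.Lf → Ω → ℝ) (h : Ω → ℝ),
    LW ε i M W (cst (TEf w M h)) t id (fun x => ∏ a, f a (x a)) =
      SK w t M i (fun a => GC ε w (M.drop i) (f a) (legs W a)) h
  | .one, M, i, _, hi, W, f, h => by
      refine (LW_one_TE hw W id _ i M h hi).trans (congrArg (fun Ψ => node w M i Ψ h) ?_)
      funext z
      exact congrArg₂ (fun V G => LW ε 0 (M.drop i) V (cst (TEf w (M.drop i) z)) .one id G)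
        (legs_unit W).symm (funext fun x => Fintype.prod_unique (ι := Unit) _)
  | .step _, _, 0, hd, _, _, _, _ => absurd hd (Nat.not_succ_le_zero _)
  | .step _, [], _ + 1, _, hi, _, _, _ => absurd hi (Nat.not_succ_le_zero _)
  | .step t, l :: M, i + 1, hd, hi, W, f, h => by
      refine (LW_step_TE hw l M h W t id _).trans (congrArg (fun Ψ => tE l (X w M) Ψ h) ?_)
      exact funext fun z => LW_SK hw t M i (Nat.le_of_succ_le_succ hd)
        (Nat.le_of_succ_le_succ hi) W f z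
  | .split s t, M, i, hd, hi, W, f, h => by
      have h1 := LW_split (ε := ε) (i := i) M (TEf_split hw M h) W s t id id
        (fun x => ∏ a, f (.inl a) (x a)) fun x => ∏ a, f (.inr a) (x a)
      rw [LW_SK hw s M i ((le_max_left _ _).trans hd) hi,
        LW_SK hw t M i ((le_max_right _ _).trans hd) hi] at h1
      refine Eq.trans ?_ (h1.trans (congrArg₂ (fun Ψ Ψ' => SK w s M i Ψ h * SK w t M i Ψ' h)
        (funext fun a => congrArg (GC ε w _ _) (legs_lft a W))
        (funext fun a => congrArg (GC ε w _ _) (legs_rgt a W))))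
      exact congrArg₂ (LW ε i M W _ (.split s t)) Sum.map_id_id.symm
        (funext fun x => Fintype.prod_sum_type (α₁ := s.Lf) (α₂ := t.Lf) _)

theorem dep_graft : ∀ (t : Sh) (a : t.Lf) (j : ℕ), (t.graft a j).dep ≤ max t.dep j
  | .one, _, 0 => le_rfl
  | .one, a, j + 1 => by
      have := dep_graft .one a j
      show (Sh.one.graft a j).dep + 1 ≤ max 0 (j + 1)
      simp only [Sh.dep] at this
      omega
  | .step t, _, 0 => le_rfl
  | .step t, a, j + 1 => by
      have := dep_graft t a j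
      show (t.graft a j).dep + 1 ≤ max (t.dep + 1) (j + 1)
      omega
  | .split s t, .inl a, j => by
      have := dep_graft s a j
      show max (s.graft a j).dep t.dep ≤ max (max s.dep t.dep) j
      omega
  | .split s t, .inr a, j => by
      have := dep_graft t a j
      show max s.dep (t.graft a j).dep ≤ max (max s.dep t.dep) j
      omega

theorem dep_graft_le {t : Sh} (h : t.dep ≤ i) (a : t.Lf) {j : ℕ} (hj : j ≤ i) :
    (t.graft a j).dep ≤ i := (dep_graft t a j).trans (max_le h hj)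

theorem dep_two {j : ℕ} (hj : j ≤ i) : (Sh.two j).dep ≤ i :=
  dep_graft_le (t := .one) (Nat.zero_le i) () hj

theorem LM.dep {n : ℕ} {t : Sh} {τ : GT t} {op oq : Bool} (H : LM i n t τ op oq) (h : t.dep ≤ i) :
    τ.sh.dep ≤ i := by
  cases H with
  | g0 => exact h
  | g1 a b hj => exact dep_graft_le h a hj
  | g1' a b hj => exact dep_graft_le h a hj
  | g2 a b hj hk => exact dep_graft_le (dep_graft_le h b hk) _ hj
  | g3 a hj => exact dep_graft_le (dep_graft_le h a (by omega)) _ hj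

/-! ### a leg on a cluster is a derivative -/

theorem shr_br : ∀ {s : Sh}, s.br = 1 → ∀ a b : s.Lf, s.shr a b 1 = 1
  | .one, _, _, _ => rfl
  | .step s, _, a, b => congrArg (· + 1) (Wt87.shr_zero s a b)
  | .split s t, h, _, _ => by
      have := s.one_le_br90
      have := t.one_le_br90
      simp only [Sh.br] at h
      omega

theorem dS_eq (hw : Wt w) (l : Lv Ω) (B : List (Lv Ω)) {s : Sh} (hs : s.br = 1) (e : ι → s.Lf)
    (a : ι) (h f : Ω → ℝ) (F : (s.Lf → Ω) → ℝ) :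
    One15.dS w s (l :: B) h f F = Lg (-1) 0 (l :: B) a f (cst (TEf w (l :: B) h)) s e F -
      l.m * Pf w (l :: B) h f * TE w s (l :: B) h F := by
  rw [One15.dS, sum_cw_mul, One15.graft_zero hw, hs, Lg, lg_eq]
  simp only [zero_add, shr_br hs, if_true, sum_rng (Nat.zero_le (l :: B).length),
    Finset.sum_range_one, cf_zero, zero_mul, Finset.sum_add_distrib, ← Finset.mul_sum]
  show _ - (_ + ((1 : ℕ) : ℝ) * l.m * _) = (∑ b, TE w s (l :: B) h fun x => F x * f (x b)) +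
    -1 * (∑ b, ∑ k ∈ Finset.Ioc 0 (l :: B).length, cf s (l :: B) b k *
      TE w (s.graft b k) (l :: B) h fun x => F (fun c => x (s.emb b k c)) * f (x (s.nw b k))) - _
  push_cast
  ring

/-- **one more leg** `= (d/dz + x₁ m)` -/
theorem hasDerivAt_LW (hw : Wt w) (l : Lv Ω) (B : List (Lv Ω)) (a : ι) (h f : Ω → ℝ) (r : ℝ) :
    ∀ (W : List (ι × (Ω → ℝ))) (s : Sh), s.br = 1 → ∀ (e : ι → s.Lf) (F : (s.Lf → Ω) → ℝ),
    HasDerivAt (fun r : ℝ => LW (-1) 0 (l :: B) W (cst (TEf w (l :: B) (h + r • f))) s e F)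
      (LW (-1) 0 (l :: B) (W ++ [(a, f)]) (cst (TEf w (l :: B) (h + r • f))) s e F -
        l.m * Pf w (l :: B) (h + r • f) f *
          LW (-1) 0 (l :: B) W (cst (TEf w (l :: B) (h + r • f))) s e F) r
  | [], s, hs, e, F => (One15.hasDerivAt_TE hw s (l :: B) h f F r).congr_deriv
      (dS_eq hw l B hs e a _ f F)
  | p :: W, s, hs, e, F => by
      have h1 := (HasDerivAt.fun_sum fun b (_ : b ∈ cls 0 s (e p.1)) =>
        hasDerivAt_LW hw l B a h f r W s hs e fun x => F x * p.2 (x b)).fun_add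
        ((HasDerivAt.fun_sum fun q (hq : q ∈ pos 0 (l :: B).length s (e p.1)) =>
          (hasDerivAt_LW hw l B a h f r W (s.graft q.1 q.2)
            (by rw [br_graft, if_neg (mem_pos.1 hq).2.1.ne', hs]) (fun x => s.emb q.1 q.2 (e x))
            fun x => F (fun c => x (s.emb q.1 q.2 c)) * p.2 (x (s.nw q.1 q.2))).const_mul
              (cw s (l :: B) q.1 q.2)).const_mul (-1))
      refine h1.congr_deriv ?_
      simp only [List.cons_append, LW_cons, Lg, lg, mul_sub, Finset.sum_sub_distrib,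
        mul_left_comm (cw _ _ _ _) (l.m * _), ← Finset.mul_sum, id]
      ring

theorem hasDerivAt_GC (hw : Wt w) (l : Lv Ω) (B : List (Lv Ω)) (f : Ω → ℝ) (fs : List (Ω → ℝ))
    (h g : Ω → ℝ) (r : ℝ) : HasDerivAt (fun r : ℝ => GC (-1) w (l :: B) f fs (h + r • g))
      (GC (-1) w (l :: B) f (fs ++ [g]) (h + r • g) -
        l.m * Pf w (l :: B) (h + r • g) g * GC (-1) w (l :: B) f fs (h + r • g)) r := by
  simp only [GC, List.map_append]
  exact hasDerivAt_LW hw l B () h g r _ .one rfl id _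


theorem GC_nil (hw : Wt w) (B : List (Lv Ω)) (f z : Ω → ℝ) : GC ε w B f [] z = Pf w B z f :=
  Law.TE_one hw B z _


theorem eg_GC (hw : Wt w) (B : List (Lv Ω)) (f : Ω → ℝ) (fs : List (Ω → ℝ)) :
    Eg (GC ε w B f fs) := eg_LW hw B B _ _ _ _

theorem abs_GC_le (hw : Wt w) (hε : |ε| ≤ 1) {B : List (Lv Ω)} (hB : Mono 0 B) {c : ℝ} (hc : 0 ≤ c)
    {f : Ω → ℝ} {fs : List (Ω → ℝ)} (hf : ∀ y, |f y| ≤ c) (hfs : ∀ g ∈ fs, ∀ y, |g y| ≤ c)
    (z : Ω → ℝ) : |GC ε w B f fs z| ≤ (2 * (fs.length + 1 : ℕ) * c) ^ fs.length * c := by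
  have := abs_LW_le (i := 0) hε hB (Λ := TEf w B z)
    (fun s F b hF => One15.abs_TE_le hw s B z hF) hc (N := fs.length + 1)
    (fs.map fun g => ((), g)) (fun p hp => by
      obtain ⟨g, hg, rfl⟩ := List.mem_map.1 hp
      exact hfs g hg) .one id (fun x => f (x ())) c hc (fun x => hf _)
    (by rw [List.length_map, add_comm]; rfl)
  rwa [List.length_map] at this


theorem LW_shift (hw : Wt w) (M' : List (Lv Θ)) (M : List (Lv Ω)) (z : Ω → ℝ) (c : ℝ)
    (W : List (ι × (Ω → ℝ))) : LW ε i M' W (cst (TEf w M (z + fun _ => c))) =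
      LW ε i M' W (cst (TEf w M z)) := by
  congr 1
  funext s _ F
  exact Law.TE_shift hw c s M F z



/-! ### skeleton expectations -/

theorem eg_SK (hw : Wt w) : ∀ (t : Sh) (M : List (Lv Ω)) (i : ℕ) (Ψ : t.Lf → (Ω → ℝ) → ℝ),
    (∀ a, Eg (Ψ a)) → Eg (SK w t M i Ψ)
  | .one, M, i, _, h => (h ()).node hw M i
  | .step _, [], _, _, _ => Eg.const 1
  | .step _, _ :: _, 0, _, _ => Eg.const 1
  | .step t, l :: M, i + 1, Ψ, h => (eg_SK hw t M i Ψ h).tE (lg_X hw M) l
  | .split s t, M, i, _, h => (eg_SK hw s M i _ fun a => h (.inl a)).mul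
      (eg_SK hw t M i _ fun a => h (.inr a))

theorem abs_tE_le (hw : Wt w) (l : Lv Ω) (M : List (Lv Ω)) {Φ Ψ : (Ω → ℝ) → ℝ} (h : Eg Φ)
    (h' : Eg Ψ) (e : ∀ z, |Φ z| ≤ Ψ z) (z : Ω → ℝ) : |tE l (X w M) Φ z| ≤ tE l (X w M) Ψ z := by
  simpa only [node_cons, node_zero] using One15.abs_node_le hw h h' e (l :: M) 1 z

theorem abs_SK_le (hw : Wt w) {β : ℝ} (hβ : 1 ≤ β) : ∀ (t : Sh) (M : List (Lv Ω)) (i : ℕ)
    (Ψ : t.Lf → (Ω → ℝ) → ℝ), (∀ a, Eg (Ψ a)) → (∀ a z, |Ψ a z| ≤ β) → ∀ z,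
    |SK w t M i Ψ z| ≤ β ^ Fintype.card t.Lf
  | .one, M, i, _, h, hb, z => (One15.abs_node_le hw (h ()) (Eg.const β) (hb ()) M i z).trans_eq
      (by rw [node_const hw]; exact (pow_one β).symm)
  | .step _, [], _, _, _, _, _ => abs_one.trans_le (one_le_pow₀ hβ)
  | .step _, _ :: _, 0, _, _, _, _ => abs_one.trans_le (one_le_pow₀ hβ)
  | .step t, l :: M, i + 1, Ψ, h, hb, z => (abs_tE_le hw l M (eg_SK hw t M i Ψ h) (Eg.const _)
      (abs_SK_le hw hβ t M i Ψ h hb) z).trans_eq (tE_const (lg_X hw M) l _ z)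
  | .split s t, M, i, _, h, hb, z => ((abs_mul _ _).trans_le (mul_le_mul
      (abs_SK_le hw hβ s M i _ (fun a => h (.inl a)) (fun a => hb (.inl a)) z)
      (abs_SK_le hw hβ t M i _ (fun a => h (.inr a)) (fun a => hb (.inr a)) z) (abs_nonneg _)
      (by positivity))).trans_eq ((pow_add _ _ _).symm.trans
        (congrArg (β ^ ·) (Fintype.card_sum (α := s.Lf) (β := t.Lf)).symm))

/-- freezing the cluster values -/
theorem abs_SK_sub (hw : Wt w) {β : ℝ} (hβ : 1 ≤ β) {D : (Ω → ℝ) → ℝ} (hD : Eg D) :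
    ∀ (t : Sh) (M : List (Lv Ω)) (i : ℕ), t.dep ≤ i → i ≤ M.length →
    ∀ (Ψ : t.Lf → (Ω → ℝ) → ℝ) (c : t.Lf → ℝ), (∀ a, Eg (Ψ a)) → (∀ a z, |Ψ a z| ≤ β) →
    (∀ a, |c a| ≤ β) → (∀ a z, |Ψ a z - c a| ≤ D z) → ∀ z,
    |SK w t M i Ψ z - ∏ a, c a| ≤
      Fintype.card t.Lf * β ^ Fintype.card t.Lf * node w M i D z
  | .one, M, i, _, _, Ψ, c, h, _, _, hd, z => by
      have h1 := One15.abs_node_le hw ((h ()).sub (Eg.const (c ()))) hD (hd ()) M i z
      rw [node_sub hw (h ()) (Eg.const _), node_const hw] at h1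
      have h2 := (abs_nonneg _).trans h1
      refine ((congrArg (fun y => |node w M i (Ψ ()) z - y|)
        (Fintype.prod_unique (ι := Unit) c)).trans_le h1).trans ?_
      show _ ≤ ((1 : ℕ) : ℝ) * β ^ 1 * _
      rw [Nat.cast_one, one_mul, pow_one]
      exact le_mul_of_one_le_left h2 hβ
  | .step _, _, 0, hd, _, _, _, _, _, _, _, _ => absurd hd (Nat.not_succ_le_zero _)
  | .step _, [], _ + 1, _, hi, _, _, _, _, _, _, _ => absurd hi (Nat.not_succ_le_zero _)
  | .step t, l :: M, i + 1, ht, hi, Ψ, c, h, hb, hc, hd, z => by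
      have h1 := abs_tE_le hw l M ((eg_SK hw t M i Ψ h).sub (Eg.const (∏ a : t.Lf, c a)))
        ((hD.node hw M i).const_mul _) (abs_SK_sub hw hβ hD t M i (Nat.le_of_succ_le_succ ht)
          (Nat.le_of_succ_le_succ hi) Ψ c h hb hc hd) z
      rwa [tE_sub (lg_X hw M) (eg_SK hw t M i Ψ h) (Eg.const _), tE_const (lg_X hw M),
        tE_const_mul] at h1
  | .split s t, M, i, ht, hi, Ψ, c, h, hb, hc, hd, z => by
      have h1 := abs_SK_sub hw hβ hD s M i ((le_max_left _ _).trans ht) hi _ _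
        (fun a => h (.inl a)) (fun a => hb (.inl a)) (fun a => hc (.inl a)) (fun a => hd (.inl a)) z
      have h2 := abs_SK_sub hw hβ hD t M i ((le_max_right _ _).trans ht) hi _ _
        (fun a => h (.inr a)) (fun a => hb (.inr a)) (fun a => hc (.inr a)) (fun a => hd (.inr a)) z
      have h3 := abs_SK_le hw hβ t M i _ (fun a => h (.inr a)) (fun a => hb (.inr a)) z
      have h4 : |∏ a : s.Lf, c (.inl a)| ≤ β ^ Fintype.card s.Lf := by
        rw [Finset.abs_prod]
        exact (Finset.prod_le_prod (fun _ _ => abs_nonneg _) fun a _ => hc (.inl a)).trans_eq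
          (Finset.prod_const β)
      have e1 : ∏ a, c a = (∏ a : s.Lf, c (.inl a)) * ∏ a : t.Lf, c (.inr a) :=
        Fintype.prod_sum_type (α₁ := s.Lf) (α₂ := t.Lf) c
      have e2 : Fintype.card (Sh.split s t).Lf = Fintype.card s.Lf + Fintype.card t.Lf :=
        Fintype.card_sum (α := s.Lf) (β := t.Lf)
      rw [e1, e2, SK]
      set A := SK w s M i (fun a => Ψ (.inl a)) z
      set A' := SK w t M i (fun a => Ψ (.inr a)) z
      set a := ∏ a : s.Lf, c (.inl a)
      set a' := ∏ a : t.Lf, c (.inr a)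
      rw [show A * A' - a * a' = (A - a) * A' + a * (A' - a') by ring]
      refine (abs_add_le _ _).trans ?_
      rw [abs_mul, abs_mul]
      refine (add_le_add (mul_le_mul h1 h3 (abs_nonneg _) ((abs_nonneg _).trans h1))
        (mul_le_mul h4 h2 (abs_nonneg _) (by positivity))).trans_eq ?_
      push_cast
      ring

theorem SK_two (hw : Wt w) : ∀ (j : ℕ) (M : List (Lv Ω)) (i : ℕ), j ≤ i → i ≤ M.length →
    ∀ (Ψ : (Sh.two j).Lf → (Ω → ℝ) → ℝ), SK w (.two j) M i Ψ = node w M j fun z =>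
      node w (M.drop j) (i - j) (Ψ (Sh.twoL j)) z * node w (M.drop j) (i - j) (Ψ (Sh.twoR j)) z
  | 0, M, i, _, _, Ψ => by rw [node_zero]; rfl
  | _ + 1, _, 0, h, _, _ => absurd h (Nat.not_succ_le_zero _)
  | _ + 1, [], _ + 1, _, h, _ => absurd h (Nat.not_succ_le_zero _)
  | j + 1, l :: M, i + 1, h, h', Ψ => by
      rw [node_cons, Nat.add_sub_add_right]
      exact congrArg (tE l (X w M))
        (SK_two hw j M i (Nat.le_of_succ_le_succ h) (Nat.le_of_succ_le_succ h') Ψ)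

/-! ### one site -/

section site
open Crest.ProbabilityR.SpinGlassDynamics (spin)
open Crest.Agent.R339.B Crest.Agent.R339.Var Crest.Agent.T157 Crest.Agent.T157.Casc.C One15

variable {l : Lv Bool} {L : List (Lv Bool)} {ℓ : List (ℝ × ℝ)}

/-- a site cluster with `k + 1` spin legs, as a function of the incoming field -/
def gs (B : List (Lv Bool)) (k : ℕ) (y : ℝ) : ℝ :=
  GC (-1) (fun _ => 1) B spin (List.replicate k spin) (y • spin)

theorem GC_xs (B : List (Lv Bool)) (f : Bool → ℝ) (fs : List (Bool → ℝ)) (z : Bool → ℝ) :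
    GC ε (fun _ => 1) B f fs z = GC ε (fun _ => 1) B f fs (xs z • spin) := by
  conv_lhs => rw [eq_xs z]
  exact congrFun (congrFun (congrFun (LW_shift w1 _ _ _ _ _) _) _) _

theorem GC_spin (B : List (Lv Bool)) (k : ℕ) (z : Bool → ℝ) :
    GC (-1) (fun _ => 1) B spin (List.replicate k spin) z = gs B k (xs z) := GC_xs B _ _ z

theorem gs_zero' (B : List (Lv Bool)) (y : ℝ) : gs B 0 y = Pf (fun _ => 1) B (y • spin) spin :=
  GC_nil w1 B _ _

theorem hasDerivAt_gs (l : Lv Bool) (L : List (Lv Bool)) (k : ℕ) (y : ℝ) :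
    HasDerivAt (gs (l :: L) k)
      (gs (l :: L) (k + 1) y - l.m * gs (l :: L) 0 y * gs (l :: L) k y) y := by
  have := hasDerivAt_GC w1 l L spin (List.replicate k spin) 0 spin y
  simp only [zero_add, ← List.replicate_succ', ← gs_zero'] at this
  exact this

theorem abs_gs_le {B : List (Lv Bool)} (hB : Mono 0 B) (k : ℕ) (y : ℝ) :
    |gs B k y| ≤ (2 * (k + 1)) ^ k := by
  have := abs_GC_le (ε := -1) w1 (by simp) hB zero_le_one (f := spin)
    (fs := List.replicate k spin) (fun b => (One15.abs_spin b).le)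
    (fun g hg b => by rw [List.eq_of_mem_replicate hg]; exact (One15.abs_spin b).le) (y • spin)
  simpa [gs] using this

theorem gs_zero (H : List.Forall₂ (Rk1 spin) L ℓ) : gs L 0 = deriv (PhiL 1 ℓ) :=
  funext fun y => (gs_zero' L y).trans (Pf_spin H y)

/-- the derivatives of the magnetisation -/
abbrev mD (ℓ : List (ℝ × ℝ)) (k : ℕ) : ℝ → ℝ := iteratedDeriv k (deriv (PhiL 1 ℓ))

theorem gs_vals (H : List.Forall₂ (Rk1 spin) (l :: L) ℓ) : gs (l :: L) 0 = mD ℓ 0 ∧
    (∀ y, gs (l :: L) 1 y = mD ℓ 1 y + l.m * mD ℓ 0 y ^ 2) ∧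
    (∀ y, gs (l :: L) 2 y = mD ℓ 2 y + 3 * l.m * mD ℓ 0 y * mD ℓ 1 y + l.m ^ 2 * mD ℓ 0 y ^ 3) ∧
    ∀ y, gs (l :: L) 3 y = mD ℓ 3 y + 4 * l.m * mD ℓ 0 y * mD ℓ 2 y + 3 * l.m * mD ℓ 1 y ^ 2 +
      6 * l.m ^ 2 * mD ℓ 0 y ^ 2 * mD ℓ 1 y + l.m ^ 3 * mD ℓ 0 y ^ 4 := by
  have h0 : gs (l :: L) 0 = mD ℓ 0 := (gs_zero H).trans iteratedDeriv_zero.symm
  have st : ∀ k y v, HasDerivAt (mD ℓ k) v y → mD ℓ (k + 1) y = v := fun k y v h => by
    rw [mD, iteratedDeriv_succ]; exact h.deriv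
  have d := hasDerivAt_gs l L
  have d0 : ∀ y, HasDerivAt (mD ℓ 0) (mD ℓ 1 y) y := fun y => by
    have := d 0 y
    rw [h0] at this
    rwa [st 0 y _ this]
  have h1 : ∀ y, gs (l :: L) 1 y = mD ℓ 1 y + l.m * mD ℓ 0 y ^ 2 := fun y => by
    have := d 0 y
    rw [h0] at this
    rw [st 0 y _ this]; ring
  have e1 : mD ℓ 1 = fun y => gs (l :: L) 1 y - l.m * mD ℓ 0 y ^ 2 :=
    funext fun y => by rw [h1]; ring
  have c1 := fun y => (d 1 y).fun_sub (((d0 y).fun_pow 2).const_mul l.m)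
  rw [← e1] at c1
  have d1 : ∀ y, HasDerivAt (mD ℓ 1) (mD ℓ 2 y) y := fun y => by
    rw [st 1 y _ (c1 y)]; exact c1 y
  have h2 : ∀ y, gs (l :: L) 2 y =
      mD ℓ 2 y + 3 * l.m * mD ℓ 0 y * mD ℓ 1 y + l.m ^ 2 * mD ℓ 0 y ^ 3 := fun y => by
    rw [st 1 y _ (c1 y), h0, h1]; push_cast; ring
  have e2 : mD ℓ 2 = fun y => gs (l :: L) 2 y - 3 * l.m * (mD ℓ 0 y * mD ℓ 1 y) -
      l.m ^ 2 * mD ℓ 0 y ^ 3 := funext fun y => by rw [h2]; ring
  have c2 := fun y => ((d 2 y).fun_sub (((d0 y).fun_mul (d1 y)).const_mul (3 * l.m))).fun_sub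
    (((d0 y).fun_pow 3).const_mul (l.m ^ 2))
  rw [← e2] at c2
  refine ⟨h0, h1, h2, fun y => ?_⟩
  rw [st 2 y _ (c2 y), h0, h2]; push_cast; ring

/-- parity in the incoming field -/
theorem gs_neg (hL : Fl (l :: L)) : ∀ (k : ℕ) (y : ℝ),
    gs (l :: L) k (-y) = (-1) ^ (k + 1) * gs (l :: L) k y
  | 0, y => by
      have := TE_mo_neg hL .one (fun _ => 1) y
      simp only [TE_mo_one, Nat.not_even_one, if_false, Wt87.sum_one] at this
      simpa only [gs_zero'] using this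
  | k + 1, y => by
      have h1 := (hasDerivAt_gs l L k (-y)).comp y (hasDerivAt_neg y)
      have h2 := (hasDerivAt_gs l L k y).const_mul ((-1) ^ (k + 1))
      have e : gs (l :: L) k ∘ Neg.neg = fun y => (-1) ^ (k + 1) * gs (l :: L) k y :=
        funext (gs_neg hL k)
      rw [e] at h1
      have h3 := h1.unique h2
      rw [gs_neg hL k, gs_neg hL 0] at h3
      linear_combination -h3

theorem gs_even_zero (hL : Fl (l :: L)) {k : ℕ} (hk : Even k) : gs (l :: L) k 0 = 0 := by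
  have := gs_neg hL k 0
  rw [neg_zero, hk.add_one.neg_one_pow] at this
  linarith

/-- two legs: `λ`; four legs: `Φ'''' + 3 x₁ λ²` -/
theorem gs_at_zero (H : List.Forall₂ (Rk1 spin) (l :: L) ℓ) : gs (l :: L) 1 0 = mD ℓ 1 0 ∧
    gs (l :: L) 3 0 = mD ℓ 3 0 + 3 * l.m * mD ℓ 1 0 ^ 2 := by
  obtain ⟨h0, h1, -, h3⟩ := gs_vals H
  have := gs_even_zero (fl_of H) Even.zero
  rw [h0] at this
  rw [h1, h3, this]
  constructor <;> ring

/-- the constant of the bounds -/
def cg (k : ℕ) : ℝ := (2 * (k + 1)) ^ k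

theorem one_le_cg (k : ℕ) : 1 ≤ cg k :=
  one_le_pow₀ (by have := (Nat.cast_nonneg k : (0 : ℝ) ≤ k); linarith)

theorem cg_mono {j k : ℕ} (h : j ≤ k) : cg j ≤ cg k := by
  have : (j : ℝ) ≤ k := Nat.cast_le.2 h
  have h0 := (Nat.cast_nonneg k : (0 : ℝ) ≤ k)
  exact (pow_le_pow_left₀ (by positivity) (by linarith) j).trans
    (pow_le_pow_right₀ (by linarith) h)

theorem abs_le_of_deriv {f f' : ℝ → ℝ} (h : ∀ y, HasDerivAt f (f' y) y) {C : ℝ} (y : ℝ)
    (hC : ∀ u, |u| ≤ |y| → |f' u| ≤ C) : |f y - f 0| ≤ C * |y| := by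
  have := (convex_Icc (-|y|) |y|).norm_image_sub_le_of_norm_hasDerivWithin_le
    (fun u _ => (h u).hasDerivWithinAt) (fun u hu => hC u (abs_le.2 hu))
    (⟨by simp, abs_nonneg y⟩ : (0 : ℝ) ∈ Icc (-|y|) |y|) (abs_le.1 le_rfl)
  simpa using this

theorem abs_m_le (hB : Mono 0 (l :: L)) : |l.m| ≤ 1 :=
  (abs_of_nonneg hB.1).trans_le (mono_le_one hB.2)

theorem gs_lip (hB : Mono 0 (l :: L)) (k : ℕ) (y : ℝ) :
    |gs (l :: L) k y - gs (l :: L) k 0| ≤ 2 * cg (k + 1) * |y| :=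
  abs_le_of_deriv (hasDerivAt_gs l L k) y fun u _ => by
    have h1 : |gs (l :: L) (k + 1) u| ≤ cg (k + 1) := abs_gs_le hB (k + 1) u
    have h2 : |gs (l :: L) k u| ≤ cg (k + 1) := (abs_gs_le hB k u).trans (cg_mono k.le_succ)
    have h3 : |gs (l :: L) 0 u| ≤ 1 := by simpa using abs_gs_le hB 0 u
    refine (abs_sub _ _).trans ?_
    rw [abs_mul, abs_mul]
    have := mul_le_mul (mul_le_mul (abs_m_le hB) h3 (abs_nonneg _) zero_le_one) h2 (abs_nonneg _)
      (by norm_num)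
    linarith

/-- an odd number of spin legs -/
theorem abs_gs_odd (hL : Fl (l :: L)) (hB : Mono 0 (l :: L)) {k : ℕ} (hk : Even k) (y : ℝ) :
    |gs (l :: L) k y| ≤ 2 * cg (k + 1) * |y| := by
  simpa only [gs_even_zero hL hk, sub_zero] using gs_lip hB k y

/-- an even number of spin legs -/
theorem abs_gs_even (hL : Fl (l :: L)) (hB : Mono 0 (l :: L)) {k : ℕ} (hk : Odd k) (y : ℝ) :
    |gs (l :: L) k y - gs (l :: L) k 0| ≤ 10 * cg (k + 2) * y ^ 2 := by
  refine (abs_le_of_deriv (hasDerivAt_gs l L k) y (C := 10 * cg (k + 2) * |y|)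
    fun u hu => ?_).trans_eq (by rw [mul_assoc, abs_mul_abs_self, sq])
  have h1 := abs_gs_odd hL hB hk.add_one u
  have h2 : |gs (l :: L) k u| ≤ cg (k + 2) := (abs_gs_le hB k u).trans (cg_mono (by omega))
  have h3 := abs_gs_odd hL hB Even.zero u
  have h4 : cg (0 + 1) = 4 := by norm_num [cg]
  have h5 := one_le_cg (k + 2)
  rw [h4] at h3
  refine (abs_sub _ _).trans ?_
  rw [abs_mul, abs_mul]
  have := mul_le_mul (mul_le_mul (abs_m_le hB) h3 (abs_nonneg _) zero_le_one) h2 (abs_nonneg _)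
    (by positivity)
  have h6 : cg (k + 2) * |u| ≤ cg (k + 2) * |y| := by gcongr
  change |gs (l :: L) (k + 1) u| ≤ 2 * cg (k + 2) * |u| at h1
  nlinarith

end site

end Leg51

end Crest.Agent.T156.Cas
end
private theorem rz_d6f96e495a : type_of% @_root_.Crest.Agent.T156.Cas.Leg51.SK.eq_def := @_root_.Crest.Agent.T156.Cas.Leg51.SK.eq_def -- L260
private theorem rz_e203158bc5 : type_of% @_root_.Crest.Agent.T156.Cas.Leg51.SK.eq_1 := @_root_.Crest.Agent.T156.Cas.Leg51.SK.eq_1 -- L260
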