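import Crest.Agent.T156.LegB_51

/-!
# Row 156 (helper89): enumeration of skeleton sums, marked clusters

`lsg` splits into the terms without, with one and with two new clusters; every new cluster costs
`x = ex M i`.  Values of a marked cluster are derivatives up to `O (x₁)`.
-/

set_option autoImplicit false
set_option linter.all false

noncomputable section

namespace Crest.Agent.T156.Cas.Lsg89

open MeasureTheory Real Set Filter Topology
open Crest.Agent.T157.E Crest.Agent.T157.Casc Crest.Agent.T157.SL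
open Leg51

variable {Ω Θ ι : Type}

theorem ex_nn {L : List (Lv Θ)} (hL : Mono 0 L) (j : ℕ) : 0 ≤ ex L j := by
  have := sum_dm L 0 j
  rw [sub_zero] at this
  exact this ▸ Finset.sum_nonneg fun k _ => dm_nonneg hL k

theorem sum_cf_lo : ∀ (s : Sh) (L : List (Lv Θ)) (i : ℕ), (∀ j, 0 ≤ ex L j) →
    ∑ a, ∑ j ∈ Finset.range (i + 1), cf s L a j + s.br * ex L 0 ≤ Fintype.card s.Lf * ex L i
  | .one, L, i, _ => by
      show ∑ a : Unit, ∑ j ∈ Finset.range (i + 1), cf .one L a j + ((1 : ℕ) : ℝ) * Crest.Agent.T157.Casc.ex L 0 ≤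
        ((Fintype.card Unit : ℕ) : ℝ) * _
      have h := sum_dm L 0 i
      rw [Finset.sum_range_succ'] at h
      rw [Fintype.sum_unique, Finset.sum_range_succ']
      show ∑ j ∈ Finset.range i, dm L 0 (j + 1) + 0 + _ ≤ _
      have h0 : dm L 0 0 = ex L 0 := sub_zero _
      simp only [Fintype.card_unique, Nat.cast_one]
      linarith
  | .step s, [], i, h => by
      show ∑ a : s.Lf, ∑ j ∈ Finset.range (i + 1),
        (cf s [] a j + if a = s.fst ∧ j = 0 then (s.br : ℝ) - 1 else 0) + ((1 : ℕ) : ℝ) * 1 ≤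
        ((Fintype.card s.Lf : ℕ) : ℝ) * _
      have h1 := Sd.sum_ite s i ((s.br : ℝ) - 1) fun _ _ => 1
      have h2 : ∑ a : s.Lf, ∑ j ∈ Finset.range (i + 1), cf s ([] : List (Lv Θ)) a j + s.br * 1 ≤
        _ := sum_cf_lo s [] i h
      simp only [mul_one] at h1 h2
      simp only [Finset.sum_add_distrib, h1]
      push_cast
      linarith
  | .step s, l :: L, 0, h => by
      show ∑ a : s.Lf, ∑ j ∈ Finset.range (0 + 1), cf (.step s) (l :: L) a j +
        ((1 : ℕ) : ℝ) * _ ≤ ((Fintype.card s.Lf : ℕ) : ℝ) * _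
      have e : ∑ a : s.Lf, ∑ j ∈ Finset.range (0 + 1), cf (.step s) (l :: L) a j = 0 :=
        Finset.sum_eq_zero fun a _ => (Finset.sum_range_one _).trans (cf_zero (.step s) l L a)
      rw [e, zero_add]
      exact mul_le_mul_of_nonneg_right (Nat.cast_one.trans_le (Tay38.one_le_card s)) (h 0)
  | .step s, l :: L, i + 1, h => by
      show ∑ a : s.Lf, ∑ j ∈ Finset.range (i + 1 + 1), cf (.step s) (l :: L) a j +
        ((1 : ℕ) : ℝ) * l.m ≤ ((Fintype.card s.Lf : ℕ) : ℝ) * ex L i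
      simp only [Finset.sum_range_succ' _ (i + 1)]
      show ∑ a : s.Lf, (∑ j ∈ Finset.range (i + 1),
        (cf s L a j + if a = s.fst ∧ j = 0 then s.br * ex L 0 - l.m else 0) + 0) + _ ≤ _
      have h1 := Sd.sum_ite s i (s.br * ex L 0 - l.m) fun _ _ => 1
      have h2 := sum_cf_lo s L i fun j => h (j + 1)
      simp only [mul_one] at h1
      simp only [Finset.sum_add_distrib, add_zero, h1]
      push_cast
      linarith
  | .split s t, L, i, h => by
      have h1 := sum_cf_lo s L i h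
      have h2 := sum_cf_lo t L i h
      have e2 : Fintype.card (Sh.split s t).Lf = Fintype.card s.Lf + Fintype.card t.Lf :=
        Fintype.card_sum (α := s.Lf) (β := t.Lf)
      rw [Wt87.sum_split s t, e2]
      show ∑ a : s.Lf, ∑ j ∈ Finset.range (i + 1), cf s L a j +
        ∑ a : t.Lf, ∑ j ∈ Finset.range (i + 1), cf t L a j + ((s.br + t.br : ℕ) : ℝ) * _ ≤ _
      push_cast
      linarith

/-- **the low weights of a shape** -/
theorem sum_cw_lo {M : List (Lv Θ)} (hM : Mono 0 M) (s : Sh) (i : ℕ) :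
    ∑ a, ∑ j ∈ Finset.range (i + 1), cw s M a j ≤ Fintype.card s.Lf * ex M i := by
  have := sum_cw_mul s M i fun _ _ => 1
  simp only [mul_one] at this
  rw [this]
  exact sum_cf_lo s M i (ex_nn hM)

theorem abs_cw_lo {M : List (Lv Θ)} (hM : Mono 0 M) (s : Sh) (i : ℕ) {G : s.Lf → ℕ → ℝ} {β : ℝ}
    (hβ : 0 ≤ β) (h : ∀ a j, j ≤ i → |G a j| ≤ β) :
    |∑ a, ∑ j ∈ Finset.range (i + 1), cw s M a j * G a j| ≤ Fintype.card s.Lf * ex M i * β := by
  refine le_trans ?_ (mul_le_mul_of_nonneg_right (sum_cw_lo hM s i) hβ)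
  rw [Finset.sum_mul]
  refine (Finset.abs_sum_le_sum_abs _ _).trans (Finset.sum_le_sum fun a _ => ?_)
  rw [Finset.sum_mul]
  refine (Finset.abs_sum_le_sum_abs _ _).trans (Finset.sum_le_sum fun j hj => ?_)
  rw [abs_mul, abs_of_nonneg (cw_nonneg s hM a j)]
  exact mul_le_mul_of_nonneg_left (h a j (Nat.lt_succ_iff.1 (Finset.mem_range.1 hj)))
    (cw_nonneg s hM a j)

theorem cw_one (M : List (Lv Θ)) (a : Sh.one.Lf) : ∀ j, cw .one M a j = dm M 0 j
  | 0 => by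
      rw [cw, if_pos ⟨rfl, rfl⟩]
      show (0 : ℝ) + ((1 : ℕ) : ℝ) * ex M 0 = ex M 0 - 0
      simp
  | j + 1 => by
      rw [cw, if_neg (by simp), add_zero]
      rfl

variable {i : ℕ} {M : List (Lv Θ)} {t : Sh} {ε : ℝ}

/-- no new cluster -/
def old (n : ℕ) (t : Sh) (Φ : GT t → Bool → Bool → ℝ) : ℝ :=
  ∑ a, ∑ b ∈ Finset.univ.erase a, Φ (.g0 t n a b) true true

/-- one new cluster -/
def one (i : ℕ) (M : List (Lv Θ)) (t : Sh) (Φ : GT t → Bool → Bool → ℝ) : ℝ :=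
  ∑ a, ∑ j ∈ Finset.range (i + 1), cw t M a j *
    (∑ b, Φ (.g1 t a j b) true false + ∑ b, Φ (.g1' t a j b) false true)

/-- two new clusters -/
def two (i : ℕ) (M : List (Lv Θ)) (t : Sh) (Φ : GT t → Bool → Bool → ℝ) : ℝ :=
  ∑ a, ∑ j ∈ Finset.range (i + 1), cw t M a j *
    (∑ b, ∑ k ∈ Finset.range (i + 1), cw t M b k * Φ (.g2 t a j b k) false false +
      ∑ r ∈ Finset.range (i - j + 1), dm (M.drop j) 0 r * Φ (.g3 t a j r) false false)

theorem lsg_eq (Φ : GT t → Bool → Bool → ℝ) :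
    lsg ε i M t Φ = old M.length t Φ + ε * one i M t Φ + two i M t Φ := rfl

theorem abs_sum_card {α : Type} [Fintype α] (A : Finset α) {X : α → ℝ} {c : ℝ} (hc : 0 ≤ c)
    (h : ∀ a ∈ A, |X a| ≤ c) : |∑ a ∈ A, X a| ≤ Fintype.card α * c :=
  (Finset.abs_sum_le_sum_abs _ _).trans ((Finset.sum_le_card_nsmul _ _ c h).trans (by
    rw [nsmul_eq_mul]
    exact mul_le_mul_of_nonneg_right (Nat.cast_le.2 (Finset.card_le_univ _)) hc))

variable {Φ : GT t → Bool → Bool → ℝ} {β : ℝ}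

theorem abs_old_le {n : ℕ} (hβ : 0 ≤ β) (h : ∀ a b, b ≠ a → |Φ (.g0 t n a b) true true| ≤ β) :
    |old n t Φ| ≤ (Fintype.card t.Lf : ℝ) ^ 2 * β :=
  (abs_sum_card _ (by positivity) fun a _ => abs_sum_card _ hβ fun b hb =>
    h a b (Finset.ne_of_mem_erase hb)).trans_eq (by ring)

theorem abs_one_le (hM : Mono 0 M) (hβ : 0 ≤ β)
    (h : ∀ τ op oq, LM i M.length t τ op oq → op ≠ oq → |Φ τ op oq| ≤ β) :
    |one i M t Φ| ≤ 2 * (Fintype.card t.Lf : ℝ) ^ 2 * ex M i * β :=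
  (abs_cw_lo hM t i (β := 2 * Fintype.card t.Lf * β) (by positivity) fun a j hj =>
    (abs_add_le _ _).trans ((add_le_add
      (abs_sum_card _ hβ fun b _ => h _ _ _ (.g1 a b hj) (by simp))
      (abs_sum_card _ hβ fun b _ => h _ _ _ (.g1' a b hj) (by simp))).trans_eq (by ring))).trans_eq
    (by ring)

theorem abs_two_le (hM : Mono 0 M) (hβ : 0 ≤ β)
    (h : ∀ τ, LM i M.length t τ false false → |Φ τ false false| ≤ β) :
    |two i M t Φ| ≤ 2 * (Fintype.card t.Lf : ℝ) ^ 2 * ex M i ^ 2 * β := by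
  have hx := ex_nn hM i
  have hc := Tay38.one_le_card t
  refine (abs_cw_lo hM t i (β := 2 * Fintype.card t.Lf * ex M i * β) (by positivity)
    fun a j hj => ?_).trans_eq (by ring)
  have h1 := abs_cw_lo hM t i hβ fun b k hk => h _ (.g2 a b hj hk)
  have h2 : |∑ r ∈ Finset.range (i - j + 1), dm (M.drop j) 0 r * Φ (.g3 t a j r) false false| ≤
      ex M i * β := by
    have e : ∑ r ∈ Finset.range (i - j + 1), dm (M.drop j) 0 r = ex M i := by
      rw [sum_dm, sub_zero]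
      simp only [Crest.Agent.T157.Casc.ex, List.getElem?_drop, Nat.add_sub_cancel' hj]
    rw [← e, Finset.sum_mul]
    refine (Finset.abs_sum_le_sum_abs _ _).trans (Finset.sum_le_sum fun r hr => ?_)
    have := dm_nonneg (Cav22.mono_drop j hM) r
    rw [abs_mul, abs_of_nonneg this]
    exact mul_le_mul_of_nonneg_left (h _ (.g3 a (by have := Finset.mem_range.1 hr; omega))) this
  refine (abs_add_le _ _).trans ?_
  nlinarith [mul_nonneg hx hβ]

/-- **new clusters cost `x`** -/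
theorem abs_lsg_sub_old (hε : |ε| ≤ 1) (hM : Mono 0 M) (hβ : 0 ≤ β)
    (h : ∀ τ op oq, LM i M.length t τ op oq → |Φ τ op oq| ≤ β) :
    |lsg ε i M t Φ - old M.length t Φ| ≤ 4 * (Fintype.card t.Lf : ℝ) ^ 2 * ex M i * β := by
  have h1 := abs_one_le hM hβ fun τ op oq H _ => h τ op oq H
  have h2 := abs_two_le hM hβ fun τ H => h τ _ _ H
  have hx := ex_nn hM i
  have hx1 := Tay38.ex_le_one hM i
  rw [lsg_eq, add_assoc, add_sub_cancel_left]
  refine (abs_add_le _ _).trans ?_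
  rw [abs_mul]
  have h3 := mul_le_mul hε h1 (abs_nonneg _) zero_le_one
  have h4 : 2 * (Fintype.card t.Lf : ℝ) ^ 2 * ex M i ^ 2 * β ≤
      2 * (Fintype.card t.Lf : ℝ) ^ 2 * ex M i * β := by
    gcongr
    nlinarith
  linarith

theorem abs_lsg_le (hε : |ε| ≤ 1) (hM : Mono 0 M) (hβ : 0 ≤ β)
    (h : ∀ τ op oq, LM i M.length t τ op oq → |Φ τ op oq| ≤ β) :
    |lsg ε i M t Φ| ≤ 5 * (Fintype.card t.Lf : ℝ) ^ 2 * β := by
  have h1 := abs_lsg_sub_old hε hM hβ h
  have h2 := abs_old_le (Φ := Φ) (n := M.length) hβ fun a b hb => h _ _ _ (.g0 hb)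
  have hx1 := Tay38.ex_le_one hM i
  have h3 := abs_add_le (lsg ε i M t Φ - old M.length t Φ) (old M.length t Φ)
  rw [sub_add_cancel] at h3
  have h4 : 4 * (Fintype.card t.Lf : ℝ) ^ 2 * ex M i * β ≤
      4 * (Fintype.card t.Lf : ℝ) ^ 2 * 1 * β := by gcongr
  linarith

/-- two leaves, any names -/
theorem old_pair {n : ℕ} {p q : t.Lf} (hpq : p ≠ q) (hc : ∀ a, a = p ∨ a = q) :
    old n t Φ = Φ (.g0 t n p q) true true + Φ (.g0 t n q p) true true := by
  have e : (Finset.univ : Finset t.Lf) = {p, q} := by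
    ext a
    simpa using hc a
  rw [old, e, Finset.sum_pair hpq, Finset.erase_insert (by simpa using hpq),
    Finset.pair_comm, Finset.erase_insert (by simpa using hpq.symm), Finset.sum_singleton,
    Finset.sum_singleton]


theorem old_one {n : ℕ} {Φ : GT .one → Bool → Bool → ℝ} : old n .one Φ = 0 :=
  Finset.sum_eq_zero fun a _ => Finset.sum_eq_zero fun b hb =>
    absurd rfl (Finset.ne_of_mem_erase hb)

theorem one_one {Φ : GT .one → Bool → Bool → ℝ} : one i M .one Φ =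
    ∑ j ∈ Finset.range (i + 1), dm M 0 j *
      (Φ (.g1 .one () j ()) true false + Φ (.g1' .one () j ()) false true) := by
  simp only [one, Wt87.sum_one, cw_one]

theorem LM.card {n : ℕ} {τ : GT t} {op oq : Bool} (H : LM i n t τ op oq) (hi : i ≤ n) :
    Fintype.card τ.sh.Lf ≤ Fintype.card t.Lf + 2 := (H.mem hi).card

theorem LM.j_le {n : ℕ} {τ : GT t} {op oq : Bool} (H : LM i n t τ op oq) (hs : Sep i t)
    (hi : i < n) : τ.j ≤ i := by
  cases H with
  | g0 h =>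
    rename_i a b
    have h1 := Wt87.shr_min t a b (i + 1) n
    have h2 : t.shr a b (i + 1) ≠ i + 1 := fun e => h (hs a b e).symm
    rw [min_eq_left hi] at h1
    show t.shr a b n ≤ i
    omega
  | g1 a b h => exact (Wt87.shr_le _ _ _ _).trans h
  | g1' a b h => exact (Wt87.shr_le _ _ _ _).trans h
  | g2 a b h h' => exact (Wt87.shr_le _ _ _ _).trans ((min_le_left _ _).trans h)
  | g3 a h => exact h

/-! ### functions with bounded derivatives -/

/-- `n` derivatives bounded by `C` -/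
def Sm : ℕ → ℝ → (ℝ → ℝ) → Prop
  | 0, C, F => ∀ y, |F y| ≤ C
  | n + 1, C, F => (∀ y, |F y| ≤ C) ∧ ∃ F', (∀ y, HasDerivAt F (F' y) y) ∧ Sm n C F'

theorem Sm.bd : ∀ {n : ℕ} {C : ℝ} {F : ℝ → ℝ}, Sm n C F → ∀ y, |F y| ≤ C
  | 0, _, _, h => h
  | _ + 1, _, _, h => h.1

theorem Sm.mono : ∀ {n : ℕ} {C C' : ℝ} {F : ℝ → ℝ}, Sm n C F → C ≤ C' → Sm n C' F
  | 0, _, _, _, h, e => fun y => (h y).trans e
  | _ + 1, _, _, _, ⟨h, F', d, h'⟩, e => ⟨fun y => (h y).trans e, F', d, h'.mono e⟩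

theorem Sm.pred : ∀ {n : ℕ} {C : ℝ} {F : ℝ → ℝ}, Sm (n + 1) C F → Sm n C F
  | 0, _, _, h => h.1
  | _ + 1, _, _, ⟨h, F', d, h'⟩ => ⟨h, F', d, h'.pred⟩

theorem Sm.add : ∀ {n : ℕ} {C C' : ℝ} {F G : ℝ → ℝ}, Sm n C F → Sm n C' G →
    Sm n (C + C') fun y => F y + G y
  | 0, _, _, _, _, h, g => fun y => (abs_add_le _ _).trans (add_le_add (h y) (g y))
  | _ + 1, _, _, _, _, ⟨h, F', d, h'⟩, ⟨g, G', e, g'⟩ =>
      ⟨fun y => (abs_add_le _ _).trans (add_le_add (h y) (g y)), _,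
        fun y => (d y).fun_add (e y), h'.add g'⟩

theorem Sm.smul : ∀ {n : ℕ} {C c : ℝ} {F : ℝ → ℝ}, Sm n C F → |c| ≤ 1 → Sm n C fun y => c * F y
  | 0, _, _, _, h, hc => fun y => by
      rw [abs_mul]
      exact (mul_le_of_le_one_left (abs_nonneg _) hc).trans (h y)
  | _ + 1, _, _, _, ⟨h, F', d, h'⟩, hc => ⟨fun y => by
      rw [abs_mul]
      exact (mul_le_of_le_one_left (abs_nonneg _) hc).trans (h y), _,
      fun y => (d y).const_mul _, h'.smul hc⟩

theorem Sm.mul : ∀ {n : ℕ} {C C' : ℝ} {F G : ℝ → ℝ}, Sm n C F → Sm n C' G →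
    Sm n (2 ^ n * (C * C')) fun y => F y * G y
  | 0, _, _, _, _, h, g => fun y => by
      rw [abs_mul, pow_zero, one_mul]
      exact mul_le_mul (h y) (g y) (abs_nonneg _) ((abs_nonneg _).trans (h y))
  | n + 1, C, C', F, G, H, H' => by
      obtain ⟨h, F', d, h'⟩ := id H
      obtain ⟨g, G', e, g'⟩ := id H'
      have h0 := (abs_nonneg _).trans (h 0)
      have g0 := (abs_nonneg _).trans (g 0)
      refine ⟨fun y => ?_, _, fun y => (d y).fun_mul (e y),
        ((h'.mul H'.pred).add (H.pred.mul g')).mono (le_of_eq (by ring))⟩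
      rw [abs_mul]
      exact (mul_le_mul (h y) (g y) (abs_nonneg _) h0).trans
        (le_mul_of_one_le_left (by positivity) (one_le_pow₀ one_le_two))

/-- a ladder `f k' = f (k + 1) - x m f k` -/
def Lad (x : ℝ) (m : ℝ → ℝ) (f : ℕ → ℝ → ℝ) : Prop :=
  ∀ k y, HasDerivAt (f k) (f (k + 1) y - x * m y * f k y) y

/-- the constants -/
def cS (b : ℕ → ℝ) : ℕ → ℕ → ℝ
  | 0, k => b k
  | n + 1, k => b k + cS b n (k + 1) + 2 ^ n * (cS b n 0 * cS b n k)

theorem cS_nn {b : ℕ → ℝ} (hb : ∀ k, 0 ≤ b k) : ∀ n k, 0 ≤ cS b n k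
  | 0, k => hb k
  | n + 1, k => add_nonneg (add_nonneg (hb k) (cS_nn hb n _))
      (mul_nonneg (by positivity) (mul_nonneg (cS_nn hb n _) (cS_nn hb n _)))

theorem Lad.sm {x : ℝ} (hx : |x| ≤ 1) {b : ℕ → ℝ} (hb : ∀ k, 0 ≤ b k) {g f : ℕ → ℝ → ℝ}
    (hg : Lad x (g 0) g) (hf : Lad x (g 0) f) (bg : ∀ k y, |g k y| ≤ b k)
    (bf : ∀ k y, |f k y| ≤ b k) : ∀ n k, Sm n (cS b n k) (g k) ∧ Sm n (cS b n k) (f k)
  | 0, k => ⟨bg k, bf k⟩
  | n + 1, k => by
      have ih := Lad.sm hx hb hg hf bg bf n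
      have hx' : |-x| ≤ 1 := by rwa [abs_neg]
      have n1 := cS_nn hb n (k + 1)
      have n2 : 0 ≤ 2 ^ n * (cS b n 0 * cS b n k) :=
        mul_nonneg (by positivity) (mul_nonneg (cS_nn hb n _) (cS_nn hb n _))
      have key : ∀ u : ℕ → ℝ → ℝ, Lad x (g 0) u → (∀ k y, |u k y| ≤ b k) →
          (∀ k, Sm n (cS b n k) (u k)) → Sm (n + 1) (cS b (n + 1) k) (u k) := fun u hu bu su =>
        ⟨fun y => (bu k y).trans (by rw [cS]; linarith), _, fun y => (hu k y).congr_deriv (by ring),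
          ((su (k + 1)).add (((ih 0).1.mul (su k)).smul hx')).mono (by
            rw [cS]; linarith [hb k])⟩
      exact ⟨key g hg bg fun k => (ih k).1, key f hf bf fun k => (ih k).2⟩

/-- the constants of the defect -/
def cD (b : ℕ → ℝ) : ℕ → ℕ → ℝ
  | 0, _ => 0
  | k + 1, n => cD b k (n + 1) + 2 ^ n * (cS b n 0 * cS b n k)

theorem cD_nn {b : ℕ → ℝ} (hb : ∀ k, 0 ≤ b k) : ∀ k n, 0 ≤ cD b k n
  | 0, _ => le_rfl
  | k + 1, n => add_nonneg (cD_nn hb k _)
      (mul_nonneg (by positivity) (mul_nonneg (cS_nn hb n _) (cS_nn hb n _)))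

theorem sm_zero : ∀ n, Sm n 0 fun _ => 0
  | 0 => fun _ => abs_zero.le
  | n + 1 => ⟨fun _ => abs_zero.le, _, fun y => hasDerivAt_const y 0, sm_zero n⟩

theorem Sm.der {n : ℕ} {C : ℝ} {F : ℝ → ℝ} (h : Sm (n + 1) C F) :
    (∀ y, HasDerivAt F (deriv F y) y) ∧ Sm n C (deriv F) := by
  obtain ⟨-, F', d, h'⟩ := h
  obtain rfl : F' = deriv F := funext fun y => (d y).deriv.symm
  exact ⟨d, h'⟩

theorem Lad.iter {x : ℝ} (hx : |x| ≤ 1) {b : ℕ → ℝ} (hb : ∀ k, 0 ≤ b k) {g f : ℕ → ℝ → ℝ}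
    (hg : Lad x (g 0) g) (hf : Lad x (g 0) f) (bg : ∀ k y, |g k y| ≤ b k)
    (bf : ∀ k y, |f k y| ≤ b k) : ∀ k, ∃ H : ℝ → ℝ,
      (iteratedDeriv k (f 0) = fun y => f k y + x * H y) ∧ ∀ n, Sm n (cD b k n) H
  | 0 => ⟨fun _ => 0, by simp, sm_zero⟩
  | k + 1 => by
      obtain ⟨H, e, hH⟩ := Lad.iter hx hb hg hf bg bf k
      have s := Lad.sm hx hb hg hf bg bf
      refine ⟨fun y => deriv H y + -1 * (g 0 y * f k y), ?_, fun n =>
        (hH (n + 1)).der.2.add (((s n 0).1.mul (s n k).2).smul (by simp))⟩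
      rw [iteratedDeriv_succ, e]
      funext y
      rw [((hf k y).fun_add (((hH 1).der.1 y).const_mul x)).deriv]
      ring

/-- **the rungs are the derivatives up to `O (x)`** -/
theorem Lad.abs_iter_sub {x : ℝ} (hx : |x| ≤ 1) {b : ℕ → ℝ} (hb : ∀ k, 0 ≤ b k)
    {g f : ℕ → ℝ → ℝ} (hg : Lad x (g 0) g) (hf : Lad x (g 0) f) (bg : ∀ k y, |g k y| ≤ b k)
    (bf : ∀ k y, |f k y| ≤ b k) (k : ℕ) (y : ℝ) :
    |iteratedDeriv k (f 0) y - f k y| ≤ cD b k 0 * |x| := by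
  obtain ⟨H, e, hH⟩ := Lad.iter hx hb hg hf bg bf k
  rw [e, add_sub_cancel_left, abs_mul, mul_comm]
  exact mul_le_mul_of_nonneg_right ((hH 0).bd y) (abs_nonneg _)

theorem Lad.lip {x : ℝ} (hx : |x| ≤ 1) {b : ℕ → ℝ} (hb : ∀ k, 0 ≤ b k)
    {g f : ℕ → ℝ → ℝ} (hg : Lad x (g 0) g) (hf : Lad x (g 0) f) (bg : ∀ k y, |g k y| ≤ b k)
    (bf : ∀ k y, |f k y| ≤ b k) (k : ℕ) (y : ℝ) : |f k y - f k 0| ≤ cS b 1 k * |y| := by
  have := (Lad.sm hx hb hg hf bg bf 1 k).2.der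
  exact abs_le_of_deriv this.1 y fun u _ => this.2.bd u

/-! ### a marked site cluster -/

section site
open Crest.ProbabilityR.SpinGlassDynamics (spin)

/-- the cluster `s` with the function `F` and `k` spin legs, incoming field `z` -/
def MG (B : List (Lv Bool)) (s : Sh) (F : (s.Lf → Bool) → ℝ) (k : ℕ) (z : Bool → ℝ) : ℝ :=
  LW (-1) 0 B (List.replicate k ((), spin)) (cst (TEf (fun _ => 1) B z)) s (fun _ => s.fst) F

theorem MG_xs (B : List (Lv Bool)) (s : Sh) (F : (s.Lf → Bool) → ℝ) (k : ℕ) (z : Bool → ℝ) :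
    MG B s F k z = MG B s F k (One15.xs z • spin) := by
  conv_lhs => rw [One15.eq_xs z]
  exact congrFun (congrFun (congrFun (LW_shift One15.w1 _ _ _ _ _) _) _) _

theorem lad_gs (l : Lv Bool) (L : List (Lv Bool)) : Lad l.m (gs (l :: L) 0) (gs (l :: L)) :=
  hasDerivAt_gs l L

theorem lad_MG (l : Lv Bool) (L : List (Lv Bool)) {s : Sh} (hs : s.br = 1)
    (F : (s.Lf → Bool) → ℝ) :
    Lad l.m (gs (l :: L) 0) fun k y => MG (l :: L) s F k (y • spin) := fun k y => by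
  have := hasDerivAt_LW One15.w1 l L () 0 spin y (List.replicate k ((), spin)) s hs
    (fun _ => s.fst) F
  simp only [zero_add, ← List.replicate_succ', ← gs_zero'] at this
  exact this

theorem abs_MG_le {B : List (Lv Bool)} (hB : Mono 0 B) {s : Sh} {F : (s.Lf → Bool) → ℝ} {c : ℝ}
    (hc : 0 ≤ c) (hF : ∀ x, |F x| ≤ c) (k : ℕ) (z : Bool → ℝ) :
    |MG B s F k z| ≤ (2 * (Fintype.card s.Lf + k : ℕ)) ^ k * c := by
  have := abs_LW_le (ε := -1) (i := 0) (by simp) hB (Λ := TEf (fun _ => 1) B z)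
    (fun s F C h => One15.abs_TE_le One15.w1 s B z h) zero_le_one (N := Fintype.card s.Lf + k)
    (List.replicate k ((), spin)) (fun p hp y => by
      rw [List.eq_of_mem_replicate hp]; exact (One15.abs_spin y).le) s (fun _ => s.fst) F c hc hF
    (by simp)
  simpa [MG] using this

/-- the common bound of a marked pair (`|F| ≤ 2`) and of the plain clusters -/
def bM (k : ℕ) : ℝ := (2 * (2 + k : ℕ)) ^ k * 2

theorem bM_nn (k : ℕ) : 0 ≤ bM k := by unfold bM; positivity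

theorem one_le_bM (k : ℕ) : 1 ≤ bM k := by
  have : (1 : ℝ) ≤ (2 * (2 + k : ℕ)) ^ k := one_le_pow₀ (by
    push_cast; linarith [(Nat.cast_nonneg k : (0 : ℝ) ≤ k)])
  unfold bM
  linarith

theorem abs_gs_bM {B : List (Lv Bool)} (hB : Mono 0 B) (k : ℕ) (y : ℝ) : |gs B k y| ≤ bM k := by
  refine (abs_gs_le hB k y).trans ?_
  have h0 := (Nat.cast_nonneg k : (0 : ℝ) ≤ k)
  have : (2 * ((k : ℝ) + 1)) ^ k ≤ (2 * (2 + k : ℕ)) ^ k :=
    pow_le_pow_left₀ (by positivity) (by push_cast; linarith) k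
  have h2 : (0 : ℝ) ≤ (2 * (2 + k : ℕ)) ^ k := by positivity
  unfold bM
  linarith

theorem abs_MG_two {B : List (Lv Bool)} (hB : Mono 0 B) {j : ℕ} {F : ((Sh.two j).Lf → Bool) → ℝ}
    (hF : ∀ x, |F x| ≤ 2) (k : ℕ) (z : Bool → ℝ) : |MG B (.two j) F k z| ≤ bM k := by
  have := abs_MG_le hB zero_le_two hF k z
  rwa [Wt87.card_two] at this

variable {l : Lv Bool} {L : List (Lv Bool)} {j : ℕ} {F : ((Sh.two (j + 1)).Lf → Bool) → ℝ}

/-- **a marked pair with `k` legs is the `k`-th derivative up to `O (x₁)`** -/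
theorem MG_iter (hB : Mono 0 (l :: L)) (hF : ∀ x, |F x| ≤ 2) (k : ℕ) (y : ℝ) :
    |iteratedDeriv k (fun y : ℝ => TE (fun _ => 1) (.two (j + 1)) (l :: L) (y • spin) F) y -
      MG (l :: L) (.two (j + 1)) F k (y • spin)| ≤ cD bM k 0 * l.m := by
  have := Lad.abs_iter_sub (abs_m_le hB) bM_nn (lad_gs l L) (lad_MG l L (s := .two (j + 1)) rfl F)
    (abs_gs_bM hB) (fun k y => abs_MG_two hB hF k _) k y
  rwa [abs_of_nonneg hB.1] at this

theorem MG_lip (hB : Mono 0 (l :: L)) (hF : ∀ x, |F x| ≤ 2) (k : ℕ) (z : Bool → ℝ) :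
    |MG (l :: L) (.two (j + 1)) F k z - MG (l :: L) (.two (j + 1)) F k 0| ≤
      cS bM 1 k * |One15.xs z| := by
  have := Lad.lip (abs_m_le hB) bM_nn (lad_gs l L) (lad_MG l L (s := .two (j + 1)) rfl F)
    (abs_gs_bM hB) (fun k y => abs_MG_two hB hF k _) k (One15.xs z)
  rwa [zero_smul, ← MG_xs] at this

end site

end Crest.Agent.T156.Cas.Lsg89

end
private theorem rz_1a54b1f1bb : type_of% @_root_.Crest.Agent.T156.Cas.Lsg89.cS.eq_def := @_root_.Crest.Agent.T156.Cas.Lsg89.cS.eq_def -- L301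
private theorem rz_8f976c7438 : type_of% @_root_.Crest.Agent.T156.Cas.Lsg89.cS.eq_1 := @_root_.Crest.Agent.T156.Cas.Lsg89.cS.eq_1 -- L301
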