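import Crest.Agent.T156.Q2Gs_14
import Crest.Agent.T156.LegB_51
import Crest.Agent.T156.CaPe_45
import Crest.Agent.T156.Lsg_89
import Crest.Agent.T156.CavR_22
import Crest.Agent.T156.CEx_23
import Crest.Agent.T156.CErr_54
import Crest.Agent.T156.AltOne_23

-- ▼ part T156/CYhA_14
section

/-!
# Row 156 (helper14): one site at small times: drift, second moment, covariance of odd functionals
-/

set_option autoImplicit false

noncomputable section

namespace Crest.Agent.T156.Cas.Yh14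

open Finset Real Filter Topology MeasureTheory
open Crest.Agent.T157.E Crest.Agent.T157.Casc Crest.Agent.T157.SL
open Crest.ProbabilityR.SpinGlassDynamics (spin)
open One15 Ker15

variable {L : List (Lv Bool)}

theorem xs_add (z z' : Bool → ℝ) : xs (z + z') = xs z + xs z' := by
  simp only [xs, Pi.add_apply]; ring

/-- integration by parts against the field of the site -/
theorem stein1 {l : Lv Bool} {v : ℝ} (hv : ∀ a b, l.cov a b = v * (spin a * spin b))
    (L : List (Lv Bool)) {Φ : (Bool → ℝ) → ℝ} {Ψ : Bool → (Bool → ℝ) → ℝ} (hΦ : Gr Φ Ψ)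
    (h : Bool → ℝ) : tE l (X (fun _ => 1) L) (fun z => xs z * Φ z) h =
      xs h * tE l (X (fun _ => 1) L) Φ h + v * ∑ y, spin y * tE l (X (fun _ => 1) L)
        (fun z => Ψ y z + l.m * (Φ z * P (fun _ => 1) L z y)) h := by
  have hX := lg_X w1 L
  obtain ⟨B, hB0, hB⟩ := Pe.fld_bd l
  have i2 : ∀ i, Integrable (fun g : l.ι → ℝ => g i *
      (exp (l.m * X (fun _ => 1) L (h + l.fld g)) * Φ (h + l.fld g))) (gv l.ι) := fun i =>
    Pe.eg_int ((Eg.coord i).mul (Pe.eg_comp ((hX.exp l.m).mul hΦ.eg)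
      (φ := fun g => h + l.fld g) (continuous_const.add (Pe.cont_fld l)) hB0
      fun g => (norm_add_le _ _).trans (add_le_add le_rfl (hB g))))
  have e1 : tE l (X (fun _ => 1) L) (fun z => xs z * Φ z) h =
      xs h * tE l (X (fun _ => 1) L) Φ h + ∑ i, (l.A true i - l.A false i) / 2 *
      ((∫ g, g i * (exp (l.m * X (fun _ => 1) L (h + l.fld g)) * Φ (h + l.fld g)) ∂gv l.ι) /
        ∫ g, exp (l.m * X (fun _ => 1) L (h + l.fld g)) ∂gv l.ι) := by
    rw [tE, tE]
    simp only [← mul_div_assoc, ← Finset.sum_div, ← integral_const_mul]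
    rw [← add_div]
    congr 1
    rw [← integral_finsetSum _ fun i _ => (i2 i).const_mul _,
      ← integral_add ((hX.int hΦ.eg l h).const_mul _)
        (integrable_finsetSum _ fun i _ => (i2 i).const_mul _)]
    refine integral_congr_ae (.of_forall fun g => ?_)
    have e : xs (l.fld g) = ∑ i, (l.A true i - l.A false i) / 2 * g i := by
      simp only [xs, Lv.fld, ← Finset.sum_sub_distrib, Finset.sum_div]
      exact Finset.sum_congr rfl fun i _ => by ring
    simp only [xs_add, e, add_mul, mul_add, Finset.sum_mul, Finset.mul_sum]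
    exact congrArg₂ (· + ·) (by ring) (Finset.sum_congr rfl fun i _ => by ring)
  rw [e1]
  simp only [stein_tE hΦ (gr_X w1 L) hX, Finset.mul_sum]
  rw [Finset.sum_comm]
  refine congrArg _ (Finset.sum_congr rfl fun y _ => ?_)
  have e2 : ∑ i, (l.A true i - l.A false i) / 2 * l.A y i = v * spin y := by
    have h1 := hv true y
    have h2 := hv false y
    simp only [Lv.cov] at h1 h2
    simp only [sub_div, sub_mul, Finset.sum_sub_distrib, div_mul_eq_mul_div, ← Finset.sum_div, h1, h2]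
    cases y <;> simp [spin] <;> ring
  simp only [← mul_assoc]
  rw [← Finset.sum_mul, e2]

theorem gr_xs : Gr xs fun y _ => spin y / 2 :=
  ⟨lg_xs.eg, fun _ => Eg.const _, fun h => by
    have e : xs = ⇑(Crest.Agent.R339.Guerra.dual fun y : Bool => spin y / 2) :=
      funext fun z => by rw [xs_eq, R339.Guerra.dual_apply]
    rw [e]
    exact ContinuousLinearMap.hasFDerivAt _⟩

theorem abs_Pf (L : List (Lv Bool)) (z : Bool → ℝ) : |Pf (fun _ => 1) L z spin| ≤ 1 := by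
  have := abs_TE_le w1 .one L z (F := fun x => spin (x ())) fun _ => (One15.abs_spin _).le
  rwa [Law.TE_one w1] at this

/-- the form of `stein1` with a constant derivative `c` along the field -/
theorem stein2 {l : Lv Bool} {v : ℝ} (hv : ∀ a b, l.cov a b = v * (spin a * spin b))
    (L : List (Lv Bool)) {Φ : (Bool → ℝ) → ℝ} {c : ℝ} (hΦ : Gr Φ fun y _ => c * (spin y / 2))
    (h : Bool → ℝ) : tE l (X (fun _ => 1) L) (fun z => xs z * Φ z) h =
      xs h * tE l (X (fun _ => 1) L) Φ h + v * (c + l.m * tE l (X (fun _ => 1) L)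
        (fun z => Φ z * Pf (fun _ => 1) L z spin) h) := by
  have hX := lg_X w1 L
  have e : ∀ y, Eg fun z => Φ z * P (fun _ => 1) L z y := fun y => hΦ.eg.mul (eg_P w1 L y)
  rw [stein1 hv L hΦ]
  simp only [tE_add hX (Eg.const _) ((e _).const_mul _), tE_const hX, tE_const_mul]
  simp only [Pf, Finset.mul_sum, ← mul_assoc]
  rw [tE_sum hX _ fun y _ => (e y).mul_const _]
  simp only [tE_mul_const, Fintype.sum_bool]
  simp [spin]
  ring

theorem R1.tail {l : Lv Bool} (H : R1 (l :: L)) : R1 L := fun k hk => H k (List.mem_cons_of_mem _ hk)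

theorem R1.drop (H : R1 L) (j : ℕ) : R1 (L.drop j) := fun k hk => H k (List.mem_of_mem_drop hk)

theorem tm_add (L : List (Lv Bool)) (y k : ℕ) : tm L (y + k) = tm L y + tm (L.drop y) k := by
  simp only [tm, cacc, List.take_add, List.map_append, List.sum_append]

theorem tm_nonneg (H : R1 L) (k : ℕ) : 0 ≤ tm L k := by
  simpa [tm, cacc] using H.tm_mono (Nat.zero_le k)

theorem eg_M (L : List (Lv Bool)) : Eg fun z => Pf (fun _ => 1) L z spin :=
  Eg.sum _ fun x _ => (eg_P w1 L x).mul_const _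

theorem abs_tE_M (l : Lv Bool) (L : List (Lv Bool)) (h : Bool → ℝ) :
    |tE l (X (fun _ => 1) L) (fun z => Pf (fun _ => 1) L z spin) h| ≤ 1 :=
  (Leg51.abs_tE_le w1 l L (eg_M L) (Eg.const 1) (abs_Pf L) h).trans_eq (tE_const (lg_X w1 L) l _ h)

/-- the mean of the field after one level -/
theorem tE_xs {l : Lv Bool} {v : ℝ} (hv : ∀ a b, l.cov a b = v * (spin a * spin b))
    (L : List (Lv Bool)) (h : Bool → ℝ) : tE l (X (fun _ => 1) L) xs h =
      xs h + v * (l.m * tE l (X (fun _ => 1) L) (fun z => Pf (fun _ => 1) L z spin) h) := by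
  have := stein2 hv L (c := 0) ((Gr.const 1).congr fun _ _ => zero_mul _) h
  simpa only [mul_one, one_mul, zero_add, tE_const (lg_X w1 L)] using this

/-- **drift** -/
theorem drift : ∀ {L : List (Lv Bool)}, R1 L → Mono 0 L → ∀ (k : ℕ) (z : Bool → ℝ),
    |node (fun _ => 1) L k xs z - xs z| ≤ tm L k
  | _, _, _, 0, z => by simp [tm, cacc]
  | [], _, _, _ + 1, z => by simp [tm, cacc]
  | l :: L, H, hM, k + 1, z => by
      obtain ⟨v, h0, hv⟩ := H l List.mem_cons_self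
      have hX := lg_X w1 L
      have h1 := (Leg51.abs_tE_le w1 l L ((lg_xs.eg.node w1 L k).sub lg_xs.eg) (Eg.const _)
        (drift (R1.tail H) (mono_tail hM) k) z).trans_eq (tE_const hX l _ z)
      rw [tE_sub hX (lg_xs.eg.node w1 L k) lg_xs.eg, tE_xs hv] at h1
      have h2 : |v * (l.m * tE l (X (fun _ => 1) L) (fun z => Pf (fun _ => 1) L z spin) z)| ≤ v := by
        rw [abs_mul, abs_mul, abs_of_nonneg h0]
        exact mul_le_of_le_one_right h0
          (mul_le_one₀ (Leg51.abs_m_le hM) (abs_nonneg _) (abs_tE_M l L z))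
      have h3 : tm (l :: L) (k + 1) = v + tm L k := by
        rw [tm, Sd.cacc_cons, hv]; simp [spin, tm]
      rw [node_cons, h3]
      rw [abs_le] at h1 h2 ⊢
      constructor <;> linarith [h1.1, h1.2, h2.1, h2.2]

theorem tE_sq {l : Lv Bool} (H : R1 (l :: L)) (hM : Mono 0 (l :: L)) (h : Bool → ℝ) :
    |tE l (X (fun _ => 1) L) (fun z => xs z * xs z) h - xs h * xs h - tm (l :: L) 1| ≤
      tm (l :: L) 1 * (|xs h| + tE l (X (fun _ => 1) L) (fun z => |xs z|) h) := by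
  obtain ⟨v, h0, hv⟩ := H l List.mem_cons_self
  have h3 : tm (l :: L) 1 = v := by simp [tm, cacc, hv, spin]
  have h4 := Leg51.abs_tE_le w1 l L (lg_xs.eg.mul (eg_M L)) lg_xs.eg.abs (fun z => by
    rw [abs_mul]; exact mul_le_of_le_one_right (abs_nonneg _) (abs_Pf L z)) h
  rw [stein2 hv L (c := 1) (gr_xs.congr fun _ _ => one_mul _), tE_xs hv, h3]
  set A := tE l (X (fun _ => 1) L) (fun z => Pf (fun _ => 1) L z spin) h with hA
  set B := tE l (X (fun _ => 1) L) (fun z => xs z * Pf (fun _ => 1) L z spin) h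
  rw [show xs h * (xs h + v * (l.m * A)) + v * (1 + l.m * B) - xs h * xs h - v =
    v * (l.m * (xs h * A + B)) by ring, abs_mul, abs_mul, abs_of_nonneg h0]
  refine mul_le_mul_of_nonneg_left ((mul_le_of_le_one_left (abs_nonneg _)
    (Leg51.abs_m_le hM)).trans ((abs_add_le _ _).trans (add_le_add ?_ h4))) h0
  rw [abs_mul]
  exact mul_le_of_le_one_right (abs_nonneg _) (abs_tE_M l L h)

/-- **second moment** -/
theorem second (H : R1 L) (hM : Mono 0 L) {J : ℕ} (hJ : J ≤ L.length) {A : ℝ}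
    (hA : ∀ j ≤ J, node (fun _ => 1) L j (fun z => |xs z|) 0 ≤ A) : ∀ k ≤ J,
    |node (fun _ => 1) L k (fun z => xs z * xs z) 0 - tm L k| ≤ 2 * A * tm L k
  | 0, _ => by simp [tm, cacc, xs_zero]
  | k + 1, hk => by
      have ih := second H hM hJ hA k (by omega)
      have e := List.drop_eq_getElem_cons (show k < L.length by omega)
      have H' := R1.drop H k
      have hM' : Mono 0 (L.drop k) := mono_drop k hM
      have n1 : ∀ Φ, node (fun _ => 1) L (k + 1) Φ =
          node (fun _ => 1) L k (tE L[k] (X (fun _ => 1) (L.drop (k + 1))) Φ) := fun Φ => by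
        rw [add_comm, ← node_node, e, node_cons, node_zero, add_comm]
      have e2 := lg_xs.eg.mul lg_xs.eg
      have hX := lg_X w1 (L.drop (k + 1))
      rw [e] at H' hM'
      have h1 := abs_node_le w1 (((e2.tE hX _).sub e2).sub (Eg.const _))
        ((lg_xs.eg.abs.add (lg_xs.eg.abs.tE hX _)).const_mul _) (tE_sq H' hM') L k 0
      rw [node_sub w1 ((e2.tE hX _).sub e2) (Eg.const _), node_sub w1 (e2.tE hX _) e2,
        node_const w1, node_const_mul, node_add w1 lg_xs.eg.abs (lg_xs.eg.abs.tE hX _), ← n1, ← n1,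
        ← e] at h1
      have h2 := mul_le_mul_of_nonneg_left (add_le_add (hA k (by omega)) (hA _ hk))
        (tm_nonneg (R1.drop H k) 1)
      beta_reduce at h1
      rw [tm_add]
      rw [abs_le] at h1 ih ⊢
      constructor <;> linarith [h1.1, h1.2, ih.1, ih.2]

theorem exp_le {σ : ℝ} (h : σ ≤ 1) : exp (1 / 2 + √σ) ≤ 8 := by
  have h1 : √σ ≤ 1 := sqrt_le_one.2 h
  have h2 : exp (1 / 2 + √σ) ≤ exp 1 * exp 1 := by rw [← exp_add]; exact exp_le_exp.2 (by linarith)
  nlinarith [exp_one_lt_d9, exp_pos 1]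

variable {x : ℝ} {J y : ℕ}

theorem mom' (H : R1 L) (hM : Mono 0 L) (h0 : 0 ≤ x) (h1 : x ≤ 1) (hσ : tm L y ≤ x ^ 3) :
    node (fun _ => 1) L y (fun z => |xs z|) 0 ≤ 16 * x ∧
    node (fun _ => 1) L y (fun z => |xs z| * |xs z|) 0 ≤ 32 * x ^ 3 ∧
    node (fun _ => 1) L y (fun z => xs z * xs z * (xs z * xs z)) 0 ≤ 384 * x ^ 6 := by
  have h3 : 0 ≤ x ^ 3 := by positivity
  have he := exp_le (pow_le_one₀ h0 h1 : x ^ 3 ≤ 1)
  have hs : √(x ^ 3) ≤ x := sqrt_le_iff.2 ⟨h0, pow_le_pow_of_le_one h0 h1 (by norm_num)⟩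
  have m1 := Q75.Gs14.mom H hM 1 hσ
  have m2 := Q75.Gs14.mom H hM 2 hσ
  have m4 := Q75.Gs14.mom H hM 4 hσ
  rw [show (4 : ℕ) = 2 * 2 from rfl] at m4
  simp only [pow_mul, sq_sqrt h3, sq_abs, pow_one] at m1 m4
  rw [sq_sqrt h3] at m2
  simp only [sq] at m2 m4
  norm_num [Nat.factorial] at m1 m2 m4
  refine ⟨m1.trans ?_, ?_, m4.trans ?_⟩
  · nlinarith [sqrt_nonneg (x ^ 3), exp_pos (1 / 2 + √(x ^ 3))]
  · simp only [abs_mul_abs_self]
    nlinarith
  · nlinarith [mul_nonneg h3 h3]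

theorem amgm {u W : (Bool → ℝ) → ℝ} (hu : Eg u) (hW : Eg W) {A B : ℝ} (h0 : 0 ≤ x) (h1 : x ≤ 1)
    (hB : 0 ≤ B) (k1 : node (fun _ => 1) L y (fun z => u z * u z) 0 ≤ A * x ^ 3)
    (k2 : node (fun _ => 1) L y (fun z => W z * W z) 0 ≤ B * x ^ 6) :
    2 * node (fun _ => 1) L y (fun z => u z * W z) 0 ≤ (A + B) * x ^ 4 := by
  have k : ∀ t : ℝ, t * (2 * node (fun _ => 1) L y (fun z => u z * W z) 0) ≤
      t ^ 2 * (A * x ^ 3) + B * x ^ 6 := fun t => by
    have := node_mono w1 ((hu.mul hW).const_mul (t * 2)) (((hu.mul hu).const_mul (t ^ 2)).add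
      (hW.mul hW)) (fun z => by nlinarith [sq_nonneg (t * u z - W z)]) L y 0
    rw [node_add w1 ((hu.mul hu).const_mul _) (hW.mul hW), node_const_mul, node_const_mul] at this
    beta_reduce at this
    nlinarith [mul_le_mul_of_nonneg_left k1 (sq_nonneg t)]
  rcases h0.eq_or_lt with rfl | h
  · simpa using k 1
  · refine le_of_mul_le_mul_left ((k x).trans ?_) h
    have : x ^ 6 ≤ x ^ 5 := pow_le_pow_of_le_one h0 h1 (by norm_num)
    nlinarith

/-- linear in the field up to a quadratic error -/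
structure Ln (c a : ℝ) (φ : (Bool → ℝ) → ℝ) : Prop where
  eg : Eg φ
  bd : |a| ≤ c
  ap : ∀ z, |φ z - a * xs z| ≤ c * (xs z * xs z)

theorem Ln.node {c a : ℝ} {φ : (Bool → ℝ) → ℝ} (h : Ln c a φ) (H : R1 L) (hM : Mono 0 L) (k : ℕ)
    {σ : ℝ} (hσ : tm L k ≤ σ) (z : Bool → ℝ) : |node (fun _ => 1) L k φ z - a * xs z| ≤
      c * (node (fun _ => 1) L k (fun z => xs z * xs z) z + σ) := by
  have h1 := abs_node_le w1 (h.eg.sub (lg_xs.eg.const_mul a))
    ((lg_xs.eg.mul lg_xs.eg).const_mul c) h.ap L k z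
  rw [node_sub w1 h.eg (lg_xs.eg.const_mul a), node_const_mul, node_const_mul] at h1
  have h2 := mul_le_mul h.bd ((drift H hM k z).trans hσ) (abs_nonneg _)
    ((abs_nonneg _).trans h.bd)
  rw [← abs_mul, abs_le] at h2
  beta_reduce at h1
  rw [abs_le] at h1 ⊢
  constructor <;> linarith [h1.1, h1.2, h2.1, h2.2]

/-- **covariance of two odd functionals of the state at depth `J`, split at `y ≤ J`** -/
theorem cov (H : R1 L) (hM : Mono 0 L) (hy : y ≤ J) (hJ : J ≤ L.length) (h0 : 0 ≤ x) (h1 : x ≤ 1)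
    (hσ : tm L J ≤ x ^ 3) {c a b : ℝ} {φ ψ : (Bool → ℝ) → ℝ} (hφ : Ln c a φ) (hψ : Ln c b ψ) :
    |node (fun _ => 1) L y (fun z => node (fun _ => 1) (L.drop y) (J - y) φ z *
      node (fun _ => 1) (L.drop y) (J - y) ψ z) 0 - a * b * tm L y| ≤ 2000 * c ^ 2 * x ^ 4 := by
  have hc : 0 ≤ c := (abs_nonneg _).trans hφ.bd
  have h3 : 0 ≤ x ^ 3 := by positivity
  have ht : ∀ j ≤ J, tm L j ≤ x ^ 3 := fun j hj => (H.tm_mono hj).trans hσ
  have H' := R1.drop H y
  have hM' : Mono 0 (L.drop y) := mono_drop y hM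
  have hσ' : tm (L.drop y) (J - y) ≤ x ^ 3 := by
    have := tm_add L y (J - y)
    rw [Nat.add_sub_cancel' hy] at this
    linarith [tm_nonneg H y]
  have e2 := lg_xs.eg.mul lg_xs.eg
  set Q := node (fun _ => 1) (L.drop y) (J - y) (fun z => xs z * xs z) with hQ
  have eQ : Eg Q := e2.node w1 _ _
  have eW : Eg fun z => Q z + x ^ 3 := eQ.add (Eg.const _)
  have q1 := node_mono w1 (eQ.mul eQ) ((e2.mul e2).node w1 _ _)
    (Lad79.node_sq w1 _ e2 (J - y)) L y 0
  rw [node_node, Nat.sub_add_cancel hy] at q1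
  have q2 := node_mono w1 (eW.mul eW) (((eQ.mul eQ).const_mul 2).add (Eg.const (2 * x ^ 6)))
    (fun z => by nlinarith [sq_nonneg (Q z - x ^ 3)]) L y 0
  rw [node_add w1 ((eQ.mul eQ).const_mul 2) (Eg.const _), node_const_mul, node_const w1] at q2
  beta_reduce at q2
  have q3 : node (fun _ => 1) L y (fun z => (Q z + x ^ 3) * (Q z + x ^ 3)) 0 ≤ 770 * x ^ 6 := by
    linarith [(mom' H hM h0 h1 hσ).2.2]
  have q4 := amgm lg_xs.eg.abs eW h0 h1 (by norm_num) (mom' H hM h0 h1 (ht y hy)).2.1 q3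
  have q5 := second H hM hJ (fun j hj => (mom' H hM h0 h1 (ht j hj)).1) y hy
  have eφ := hφ.eg.node w1 (L.drop y) (J - y)
  have eψ := hψ.eg.node w1 (L.drop y) (J - y)
  have q6 := abs_node_le w1 ((eφ.mul eψ).sub (e2.const_mul (a * b)))
    ((((lg_xs.eg.abs.mul eW).const_mul 2).add (eW.mul eW)).const_mul (c ^ 2)) (fun z => by
      have k1 := hφ.node H' hM' (J - y) hσ' z
      have k2 := hψ.node H' hM' (J - y) hσ' z
      rw [← hQ] at k1 k2
      set F := node (fun _ => 1) (L.drop y) (J - y) φ z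
      set G := node (fun _ => 1) (L.drop y) (J - y) ψ z
      set W := Q z + x ^ 3
      rw [show F * G - a * b * (xs z * xs z) = a * xs z * (G - b * xs z) +
        b * xs z * (F - a * xs z) + (F - a * xs z) * (G - b * xs z) by ring]
      refine (abs_add_three _ _ _).trans ?_
      simp only [abs_mul]
      have k3 := mul_le_mul (mul_le_mul_of_nonneg_right hφ.bd (abs_nonneg (xs z))) k2
        (abs_nonneg _) (by positivity)
      have k4 := mul_le_mul (mul_le_mul_of_nonneg_right hψ.bd (abs_nonneg (xs z))) k1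
        (abs_nonneg _) (by positivity)
      have k5 := mul_le_mul k1 k2 (abs_nonneg _) ((abs_nonneg _).trans k1)
      nlinarith) L y 0
  rw [node_sub w1 (eφ.mul eψ) (e2.const_mul _), node_const_mul, node_const_mul,
    node_add w1 ((lg_xs.eg.abs.mul eW).const_mul 2) (eW.mul eW), node_const_mul] at q6
  beta_reduce at q6
  have q7 : |a * b| ≤ c ^ 2 := by
    rw [abs_mul, sq]; exact mul_le_mul hφ.bd hψ.bd (abs_nonneg _) hc
  have q8 := mul_le_mul q7 (q5.trans (mul_le_mul_of_nonneg_left (ht y hy) (by positivity)))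
    (abs_nonneg _) (by positivity)
  have q9 : x ^ 6 ≤ x ^ 4 := pow_le_pow_of_le_one h0 h1 (by norm_num)
  have q10 := mul_le_mul_of_nonneg_left (add_le_add q4 (q3.trans
    (mul_le_mul_of_nonneg_left q9 (by norm_num)))) (sq_nonneg c)
  rw [← abs_mul, abs_le] at q8
  rw [abs_le] at q6 ⊢
  have q11 : 0 ≤ c ^ 2 * x ^ 4 := by positivity
  constructor <;> nlinarith [q6.1, q6.2, q8.1, q8.2]

end Crest.Agent.T156.Cas.Yh14

end
end

-- ▼ part T156/CYhB_14
section

/-!
# Row 156 (helper14): one low edge on a marked pair of the site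
-/

set_option autoImplicit false

noncomputable section

namespace Crest.Agent.T156.Cas.Yh14

open Finset Real Filter Topology MeasureTheory
open Crest.Agent.T157.E Crest.Agent.T157.Casc Crest.Agent.T157.SL
open Crest.ProbabilityR.SpinGlassDynamics (spin)
open One15 Ker15 Leg51 Lsg89

/-! ### exact forms -/

section exact
variable {Ω : Type} [Fintype Ω] {w : Ω → ℝ} {ε : ℝ}

theorem lw_two (hw : Wt w) (W : List (Unit × (Ω → ℝ))) (K : Ω → Ω → ℝ) (m : ℕ) :
    ∀ (i : ℕ) (L : List (Lv Ω)) (h : Ω → ℝ), i ≤ L.length →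
    LW ε i L W (cst (TEf w L h)) (.two (m + i + 1)) (fun _ => (Sh.two (m + i + 1)).fst)
      (pr2 (m + i + 1) K) = node w L i (fun z => LW ε 0 (L.drop i) W (cst (TEf w (L.drop i) z))
        (.two (m + 1)) (fun _ => (Sh.two (m + 1)).fst) (pr2 (m + 1) K)) h
  | 0, L, h, _ => by rw [node_zero]; rfl
  | i + 1, l :: L, h, hi => by
      refine (LW_step_TE hw l L h W (.two (m + i + 1)) _ _).trans ?_
      rw [node_cons]
      exact congrArg (fun Ψ => tE l (X w L) Ψ h)
        (funext fun z => lw_two hw W K m i L z (Nat.le_of_succ_le_succ hi))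

/-- a new leaf at depth `y ≤ i` and one leg in the cluster of the marked pair -/
theorem lw_graft (hw : Wt w) (f u : Ω → ℝ) (K : Ω → Ω → ℝ) (m : ℕ) :
    ∀ (y i : ℕ) (L : List (Lv Ω)) (h : Ω → ℝ), y ≤ i → i ≤ L.length →
    LW ε i L [((), f)] (cst (TEf w L h))
      ((Sh.two (m + i + 1)).graft (Sh.two (m + i + 1)).fst y)
      (fun _ => (Sh.two (m + i + 1)).emb (Sh.two (m + i + 1)).fst y (Sh.two (m + i + 1)).fst)
      (fun x => pr2 (m + i + 1) K
        (fun b => x ((Sh.two (m + i + 1)).emb (Sh.two (m + i + 1)).fst y b)) *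
        u (x ((Sh.two (m + i + 1)).nw (Sh.two (m + i + 1)).fst y))) =
    node w L y (fun z => node w (L.drop y) (i - y) (fun z => LW ε 0 (L.drop i) [((), f)]
      (cst (TEf w (L.drop i) z)) (.two (m + 1)) (fun _ => (Sh.two (m + 1)).fst) (pr2 (m + 1) K)) z *
      Pf w (L.drop y) z u) h
  | 0, i, L, h, _, hi => by
      rw [node_zero, List.drop_zero, Nat.sub_zero, ← lw_two hw _ K m i L h hi]
      refine ((LW_lg L ((), f) [] _ _ _ _).trans
        (lg_inl L (.two (m + i + 1)) .one _ _)).trans (Eq.trans ?_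
        ((lg_mul_const L (.two (m + i + 1)) _ (Pf w L h u) _).trans
          (congrArg (· * _) (LW_lg L ((), f) [] _ _ _ _).symm)))
      congr 1
      funext s' e c
      refine Eq.trans ?_ ((TEf_split hw L h s' .one
        (fun x => pr2 (m + i + 1) K (fun b => x (e b)) * f (x c)) fun x => u (x ())).trans
        (congrArg _ (Law.TE_one hw L h _)))
      exact congrArg (TEf w L h (.split s' .one)) (funext fun x => mul_right_comm _ _ _)
  | _ + 1, 0, _, _, hy, _ => absurd hy (Nat.not_succ_le_zero _)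
  | y + 1, i + 1, l :: L, h, hy, hi => by
      refine (LW_step_TE hw l L h _
        ((Sh.two (m + i + 1)).graft (Sh.two (m + i + 1)).fst y) _ _).trans ?_
      rw [node_cons, Nat.add_sub_add_right]
      exact congrArg (fun Ψ => tE l (X w L) Ψ h) (funext fun z =>
        lw_graft hw f u K m y i L z (Nat.le_of_succ_le_succ hy) (Nat.le_of_succ_le_succ hi))

end exact

variable {L : List (Lv Bool)} {x : ℝ} {J : ℕ}

/-! ### a new leaf that is alone -/

theorem alone (H : R1 L) (hM : Mono 0 L) (s : Sh) (a : s.Lf) (j : ℕ) (k : s.Lf → ℕ)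
    (hN : Fintype.card s.Lf ≤ 3) {σ : ℝ} (hσ : tm L j ≤ σ) (h1 : σ ≤ 1) :
    |TE (fun _ => 1) (s.graft a j) L 0 fun x =>
      mo k (fun b => x (s.emb a j b)) * spin (x (s.nw a j))| ≤ 2048 * σ := by
  have h0 := (tm_nonneg H j).trans hσ
  have hb : Odd (bd (s.graft a j) (pk (s.emb a j) k + Pi.single (s.nw a j) 1) (s.nw a j) j) := by
    rw [bd, Wt87.sum_graft, if_pos (Wt87.shr_self _ _ _), Finset.sum_eq_zero fun b _ => if_neg (by
      rw [Wt87.shr_nw']
      have := Wt87.shr_le s b a (min j (j + 1))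
      omega)]
    simp [pk, Tay38.emb_ne]
  have hc : Continuous fun u : ℝ => PB 4 u := by unfold PB; fun_prop
  have h2 := ge_of_tendsto (x := 𝓝[>] σ) (hc.continuousAt.tendsto.mono_left nhdsWithin_le_nhds)
    (eventually_nhdsWithin_of_forall fun u hu => par1 H hM _ _ (N := 4)
      (by rw [Wt87.card_graft]; omega) hb (h0.trans_lt hu) (hσ.trans (le_of_lt hu)))
  simp only [mo_pk, ← mo_single, ← mo_add]
  refine h2.trans ?_
  rw [PB]
  nlinarith [mul_le_mul_of_nonneg_right (exp_le h1) h0]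

theorem alone' (H : R1 L) (hM : Mono 0 L) (s : Sh) (a : s.Lf) (j : ℕ) (u v r : s.Lf)
    (hN : Fintype.card s.Lf ≤ 3) {σ q : ℝ} (hσ : tm L j ≤ σ) (h1 : σ ≤ 1) (hq : |q| ≤ 1) :
    |TE (fun _ => 1) (s.graft a j) L 0 fun x =>
      (spin (x (s.emb a j u)) * spin (x (s.emb a j v)) - q) *
        (spin (x (s.emb a j r)) * spin (x (s.nw a j)))| ≤ 4096 * σ := by
  have h2 := alone H hM s a j (Pi.single u 1 + Pi.single v 1 + Pi.single r 1) hN hσ h1
  have h3 := alone H hM s a j (Pi.single r 1) hN hσ h1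
  simp only [mo_add, mo_single] at h2 h3
  simp only [sub_mul, ← mul_assoc]
  simp only [mul_assoc q]
  rw [Law.TE_sub w1, Law.TE_const_mul w1]
  refine (abs_sub _ _).trans ?_
  rw [abs_mul q]
  linarith [mul_le_mul hq h3 (abs_nonneg _) zero_le_one]

/-! ### ladders -/

theorem ln_of_lad {c : ℝ} (hc : |c| ≤ 1) {g f : ℕ → ℝ → ℝ} (hg : Lad c (g 0) g)
    (hf : Lad c (g 0) f) (bg : ∀ k y, |g k y| ≤ bM k) (bf : ∀ k y, |f k y| ≤ bM k) (g0 : g 0 0 = 0)
    (k : ℕ) (f0 : f k 0 = 0) (y : ℝ) :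
    |f k y - f (k + 1) 0 * y| ≤ (cS bM 1 (k + 1) + cS bM 1 0 * bM k) * (y * y) := by
  have n1 := cS_nn bM_nn 1 (k + 1)
  have n2 := cS_nn bM_nn 1 0
  have := abs_le_of_deriv (f := fun y => f k y - f (k + 1) 0 * y)
    (fun y => (hf k y).fun_sub ((hasDerivAt_id y).const_mul _)) y
    (C := (cS bM 1 (k + 1) + cS bM 1 0 * bM k) * |y|) fun u hu => by
      have h1 := Lad.lip hc bM_nn hg hf bg bf (k + 1) u
      have h2 := Lad.lip hc bM_nn hg hg bg bg 0 u
      rw [g0, sub_zero] at h2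
      have h3 := mul_le_mul (mul_le_mul hc h2 (abs_nonneg _) zero_le_one) (bf k u) (abs_nonneg _)
        (by positivity)
      rw [← abs_mul, ← abs_mul] at h3
      have h4 := mul_le_mul_of_nonneg_left hu (add_nonneg n1 (mul_nonneg n2 (bM_nn k)))
      rw [mul_one, sub_right_comm]
      exact (abs_sub _ _).trans (by linarith)
  simpa only [f0, mul_zero, sub_zero, mul_assoc, abs_mul_abs_self] using this

/-- the common constant -/
def cL : ℝ := bM 1 + bM 2 + cS bM 1 1 + cS bM 1 2 + cS bM 1 0 * bM 0 + cS bM 1 0 * bM 1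

theorem cL_parts : 0 ≤ bM 1 ∧ 0 ≤ bM 2 ∧ 0 ≤ cS bM 1 1 ∧ 0 ≤ cS bM 1 2 ∧ 0 ≤ cS bM 1 0 * bM 0 ∧
    0 ≤ cS bM 1 0 * bM 1 := ⟨bM_nn _, bM_nn _, cS_nn bM_nn _ _, cS_nn bM_nn _ _,
  mul_nonneg (cS_nn bM_nn _ _) (bM_nn _), mul_nonneg (cS_nn bM_nn _ _) (bM_nn _)⟩

variable {l : Lv Bool} {m : ℕ} {F : ((Sh.two (m + 1)).Lf → Bool) → ℝ}

theorem ln_M (H : R1 (l :: L)) (hM : Mono 0 (l :: L)) :
    Ln cL (gs (l :: L) 1 0) fun z => Pf (fun _ => 1) (l :: L) z spin := by
  obtain ⟨p1, p2, p3, p4, p5, p6⟩ := cL_parts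
  have g0 := gs_even_zero (fl_of H.rk) Even.zero
  refine ⟨eg_M _, (abs_gs_bM hM 1 0).trans (by unfold cL; linarith), fun z => ?_⟩
  rw [← GC_nil (ε := -1) w1]
  refine ((congrArg (fun t => |t - _|) (GC_spin (l :: L) 0 z)).trans_le (ln_of_lad (abs_m_le hM)
    (lad_gs l L) (lad_gs l L) (abs_gs_bM hM) (abs_gs_bM hM) g0 0 g0 _)).trans ?_
  exact mul_le_mul_of_nonneg_right (by unfold cL; linarith) (mul_self_nonneg _)

theorem MG_one (H : R1 (l :: L)) (he : ∀ x, F (fun a => !x a) = F x) :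
    MG (l :: L) (.two (m + 1)) F 1 ((0 : ℝ) • spin) = 0 := by
  have h1 := lad_MG l L (s := .two (m + 1)) rfl F 0 0
  rw [gs_even_zero (fl_of H.rk) Even.zero, mul_zero, zero_mul, sub_zero] at h1
  have ev : ∀ e : ℝ, MG (l :: L) (.two (m + 1)) F 0 ((-e) • spin) =
      MG (l :: L) (.two (m + 1)) F 0 (e • spin) := fun e => by
    have := TE_flip (fl_of H.rk) _ F e
    simp only [he] at this
    exact this
  have h2 := HasDerivAt.comp (0 : ℝ) (h₂ := fun y : ℝ => MG (l :: L) (.two (m + 1)) F 0 (y • spin))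
    (h := fun e : ℝ => -e) (by rw [neg_zero]; exact h1) (hasDerivAt_neg' 0)
  simp only [Function.comp_def, ev] at h2
  linarith [h1.unique h2]

theorem ln_MG (H : R1 (l :: L)) (hM : Mono 0 (l :: L)) (hF : ∀ x, |F x| ≤ 2)
    (he : ∀ x, F (fun a => !x a) = F x) :
    Ln cL (MG (l :: L) (.two (m + 1)) F 2 0) (MG (l :: L) (.two (m + 1)) F 1) := by
  obtain ⟨p1, p2, p3, p4, p5, p6⟩ := cL_parts
  refine ⟨eg_LW w1 _ _ _ _ _ _, (abs_MG_two hM hF 2 0).trans (by unfold cL; linarith), fun z => ?_⟩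
  have := ln_of_lad (abs_m_le hM) (lad_gs l L) (lad_MG l L (s := .two (m + 1)) rfl F)
    (abs_gs_bM hM) (fun k y => abs_MG_two hM hF k _) (gs_even_zero (fl_of H.rk) Even.zero) 1
    (MG_one H he) (xs z)
  rw [zero_smul, ← MG_xs] at this
  exact this.trans (mul_le_mul_of_nonneg_right (by unfold cL; linarith) (mul_self_nonneg _))

/-! ### derivatives at the origin -/

theorem iter_X (H : R1 (l :: L)) : iteratedDeriv 2
    (fun y : ℝ => X (fun _ => 1) (l :: L) fun b => y * spin b) 0 = gs (l :: L) 1 0 := by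
  have e : deriv (fun y : ℝ => X (fun _ => 1) (l :: L) fun b => y * spin b) = gs (l :: L) 0 := by
    funext y
    have h1 := (gr_X w1 (l :: L)).line 0 spin y
    simp only [zero_add] at h1
    exact h1.deriv.trans (gs_zero' _ y).symm
  rw [iteratedDeriv_succ, iteratedDeriv_one, e, (hasDerivAt_gs l L 0 0).deriv,
    gs_even_zero (fl_of H.rk) Even.zero, mul_zero, sub_zero]

theorem iter_sum {α : Type} (A : Finset α) (ω : α → ℝ) {c : ℝ} {g : ℕ → ℝ → ℝ}
    (hg : Lad c (g 0) g) (g0 : g 0 0 = 0) {f : α → ℕ → ℝ → ℝ} (hf : ∀ a ∈ A, Lad c (g 0) (f a)) :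
    iteratedDeriv 2 (fun y => ∑ a ∈ A, ω a * f a 0 y) 0 =
      ∑ a ∈ A, ω a * (f a 2 0 - c * g 1 0 * f a 0 0) := by
  have e : deriv (fun y => ∑ a ∈ A, ω a * f a 0 y) =
      fun y => ∑ a ∈ A, ω a * (f a 1 y - c * g 0 y * f a 0 y) :=
    funext fun y => (HasDerivAt.fun_sum fun a ha => (hf a ha 0 y).const_mul (ω a)).deriv
  rw [iteratedDeriv_succ, iteratedDeriv_one, e, (HasDerivAt.fun_sum fun a ha =>
    ((hf a ha 1 0).fun_sub (((hg 0 0).const_mul c).fun_mul (hf a ha 0 0))).const_mul (ω a)).deriv]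
  exact Finset.sum_congr rfl fun a _ => by rw [g0]; ring

/-! ### the two site estimates -/

theorem drop_cons (hJ : J < L.length) : L.drop J = L[J] :: L.drop (J + 1) :=
  List.drop_eq_getElem_cons hJ

theorem ln_M' (H : R1 L) (hM : Mono 0 L) (hJ : J < L.length) :
    Ln cL (gs (L.drop J) 1 0) fun z => Pf (fun _ => 1) (L.drop J) z spin := by
  have H' := R1.drop H J
  have hM' : Mono 0 (L.drop J) := mono_drop J hM
  rw [drop_cons hJ] at H' hM' ⊢
  exact ln_M H' hM'

/-- **value**: `Γ_y = λ² h_y + O (x⁴)` -/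
theorem gam_low (H : R1 L) (hM : Mono 0 L) (hJ : J < L.length) (h0 : 0 ≤ x) (h1 : x ≤ 1)
    (hσ : tm L J ≤ x ^ 3) {y : ℕ} (hy : y ≤ J) :
    |pi2 (fun _ => 1) L y (fun a b => spin a * spin b) 0 - gs (L.drop J) 1 0 ^ 2 * tm L y| ≤
      2000 * cL ^ 2 * x ^ 4 := by
  have := cov H hM hy hJ.le h0 h1 hσ (ln_M' H hM hJ) (ln_M' H hM hJ)
  simp only [Lad79.node_Pf w1 L hy] at this
  rw [sq (gs _ _ _)]
  simp only [pi2, qf_mul]
  exact this

/-- **test**: one low edge on a marked pair -/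
theorem dop_low (H : R1 L) (hM : Mono 0 L) (hj : m + J + 1 ≤ L.length) (h0 : 0 ≤ x) (h1 : x ≤ 1)
    (hσ : tm L J ≤ x ^ 3) (hx : ex L J ≤ x) {c : ℕ → ℝ} (hc0 : ∀ y, J < y → c y = 0) {γ : ℝ}
    (hγ : 0 ≤ γ) (hc : ∀ y ≤ J, |c y| ≤ γ) {q : ℝ} (hq : |q| ≤ 1) :
    |Dop L (fun y a b => c y * (spin a * spin b)) (TEf (fun _ => 1) L 0) (.two (m + J + 1))
        (pr2 (m + J + 1) fun a b => spin a * spin b - q) +
      2 * (MG (L.drop J) (.two (m + 1)) (pr2 (m + 1) fun a b => spin a * spin b - q) 2 0 *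
        gs (L.drop J) 1 0) * ∑ y ∈ range (J + 1), dm L 0 y * (c y * tm L y)| ≤
      (4000 * cL ^ 2 + 8192) * γ * x ^ 5 := by
  have hJ : J < L.length := by omega
  have hx0 := ex_nn hM J
  have ht : ∀ y ≤ J, tm L y ≤ x ^ 3 := fun y hy => (H.tm_mono hy).trans hσ
  have h3 : x ^ 3 ≤ 1 := pow_le_one₀ h0 h1
  set K : Bool → Bool → ℝ := fun a b => spin a * spin b - q with hK
  have sk : Sk J L .one (.two (m + J + 1)) fun _ => (Sh.two (m + J + 1)).fst := by
    rw [Wt87.fst_two]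
    exact (Sk.refl J L .one).graft () (by omega) hj
  have hψ : Ln cL (MG (L.drop J) (.two (m + 1)) (pr2 (m + 1) K) 2 0)
      (MG (L.drop J) (.two (m + 1)) (pr2 (m + 1) K) 1) := by
    have H' := R1.drop H J
    have hM' : Mono 0 (L.drop J) := mono_drop J hM
    rw [drop_cons hJ] at H' hM' ⊢
    refine ln_MG H' hM' (fun x => (abs_sub _ _).trans ?_) fun x => ?_
    · linarith [Q75.Gs14.abs_ss (x (Sh.twoL (m + 1))) (x (Sh.twoR (m + 1)))]
    · simp only [pr2, hK, One15.spin_not, neg_mul_neg]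
  set b := MG (L.drop J) (.two (m + 1)) (pr2 (m + 1) K) 2 0 * gs (L.drop J) 1 0 with hb
  set N : ℕ → ℝ := fun y => node (fun _ => 1) L y (fun z => node (fun _ => 1) (L.drop y) (J - y)
    (MG (L.drop J) (.two (m + 1)) (pr2 (m + 1) K) 1) z * Pf (fun _ => 1) (L.drop y) z spin) 0
    with hN
  have k1 : ∀ y ≤ J, |N y - b * tm L y| ≤ 2000 * cL ^ 2 * x ^ 4 := fun y hy => by
    have := cov H hM hy hJ.le h0 h1 hσ hψ (ln_M' H hM hJ)
    simp only [Lad79.node_Pf w1 L hy] at this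
    exact this
  set Φ : Q (.two (m + J + 1)) → ℝ := fun τ => TE (fun _ => 1) τ.sh L 0 fun x =>
    pr2 (m + J + 1) K (fun b => x (τ.e b)) * (spin (x τ.p) * spin (x τ.q)) with hΦ
  have e0 := sg_low (ε := -1) sk (sep_one J) hJ (by norm_num) hc0 Φ
  have e1 : Dop L (fun y a b => c y * (spin a * spin b)) (TEf (fun _ => 1) L 0) (.two (m + J + 1))
      (pr2 (m + J + 1) K) = sg (-1) L (.two (m + J + 1))
        fun τ => c τ.j * Φ ⟨τ.sh, τ.e, τ.p, τ.q⟩ := by
    rw [Dop_eq_sg]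
    congr 1
    funext τ
    rw [hΦ, ← Law.TE_const_mul w1]
    exact congrArg (TE _ τ.sh L 0) (funext fun x => mul_left_comm _ _ _)
  set a := (Sh.two (m + J + 1)).fst with ha
  have e2 : ∀ y ∈ range (J + 1), ∀ a' : Sh.one.Lf, ∑ b, c (Sh.one.shr b a' y) * lg (-1) J L
      ((Sh.two (m + J + 1)).graft a y) ((Sh.two (m + J + 1)).emb a y a) (fun s2 e2 p =>
        Φ ⟨s2, fun x => e2 ((Sh.two (m + J + 1)).emb a y x), p,
          e2 ((Sh.two (m + J + 1)).nw a y)⟩) + ∑ b, c (Sh.one.shr a' b y) * lg (-1) J L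
      ((Sh.two (m + J + 1)).graft a y) ((Sh.two (m + J + 1)).emb a y a) (fun s2 e2 p =>
        Φ ⟨s2, fun x => e2 ((Sh.two (m + J + 1)).emb a y x),
          e2 ((Sh.two (m + J + 1)).nw a y), p⟩) = c y * (2 * N y) := fun y hy a' => by
    have k := lw_graft (ε := -1) w1 spin spin K m y J L 0 (Nat.lt_succ_iff.1 (mem_range.1 hy)) hJ.le
    rw [LW_lg] at k
    rw [two_mul, mul_add]
    refine ac ((Wt87.sum_one _).trans (mc (Eq.trans ?_ k)))
      ((Wt87.sum_one _).trans (mc (Eq.trans ?_ k)))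
    · congr 1
      funext s e p
      exact congrArg (TE _ s L 0) (funext fun x => by ring)
    · congr 1
      funext s e p
      exact congrArg (TE _ s L 0) (funext fun x => (mul_assoc _ _ _).symm)
  have cd : ∀ (a' : (Sh.two (m + J + 1)).Lf) (k : ℕ),
      Fintype.card ((Sh.two (m + J + 1)).graft a' k).Lf ≤ 3 := fun a' k => by
    rw [Wt87.card_graft, Wt87.card_two]
  have k2 := abs_cw_lo hM .one J (β := 2 * (ex L J * (γ * (4096 * x ^ 3)))) (by positivity)
    (G := fun a' y => ∑ b : Sh.one.Lf, ∑ k ∈ range (J + 1), cw .one L b k *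
        (c (Sh.one.shr a' b (min y k)) * Φ (QA _ a y a k)) +
      ∑ r ∈ range (J - y + 1), dm (L.drop y) 0 r * (c (r + y) * Φ (QC _ a y r))) fun _ y hy => by
    have k3 := abs_cw_lo hM .one J (β := γ * (4096 * x ^ 3)) (by positivity)
      (G := fun _ k => c (min y k) * Φ (QA _ a y a k)) fun _ k hk => by
      rw [abs_mul]
      refine mul_le_mul (hc _ ((min_le_left _ _).trans hy)) ?_ (abs_nonneg _) hγ
      have := alone' H hM ((Sh.two (m + J + 1)).graft a k) ((Sh.two (m + J + 1)).emb a k a) y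
        ((Sh.two (m + J + 1)).emb a k (Sh.twoL _)) ((Sh.two (m + J + 1)).emb a k (Sh.twoR _))
        ((Sh.two (m + J + 1)).nw a k) (cd a k) (ht y hy) h3 hq
      exact (congrArg (fun F => |TE _ _ L 0 F|) (funext fun x => mc (mul_comm _ _))).trans_le this
    have k4 : |∑ r ∈ range (J - y + 1), dm (L.drop y) 0 r * (c (r + y) * Φ (QC _ a y r))| ≤
        ex L J * (γ * (4096 * x ^ 3)) := by
      have e : ∑ r ∈ range (J - y + 1), dm (L.drop y) 0 r = ex L J := by
        rw [sum_dm, sub_zero]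
        simp only [Crest.Agent.T157.Casc.ex, List.getElem?_drop, Nat.add_sub_cancel' hy]
      rw [← e, sum_mul]
      refine (abs_sum_le_sum_abs _ _).trans (sum_le_sum fun r hr => ?_)
      have h4 := dm_nonneg (mono_drop y hM) r
      have h5 : r + y ≤ J := by have := mem_range.1 hr; omega
      rw [abs_mul, abs_of_nonneg h4, abs_mul]
      refine mul_le_mul_of_nonneg_left (mul_le_mul (hc _ h5) ?_ (abs_nonneg _) hγ) h4
      exact alone' H hM ((Sh.two (m + J + 1)).graft a y) ((Sh.two (m + J + 1)).nw a y) (r + y)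
        ((Sh.two (m + J + 1)).emb a y (Sh.twoL _)) ((Sh.two (m + J + 1)).emb a y (Sh.twoR _))
        ((Sh.two (m + J + 1)).nw a y) (cd a y) (ht _ h5) h3 hq
    refine (abs_add_le _ _).trans ?_
    have : (Fintype.card Sh.one.Lf : ℝ) = 1 := Nat.cast_one
    rw [this, one_mul] at k3
    exact (add_le_add k3 k4).trans_eq (two_mul _).symm
  have k5 := abs_cw_lo hM .one J (β := γ * (2 * (2000 * cL ^ 2 * x ^ 4))) (by positivity)
    (G := fun _ y => c y * (2 * (N y - b * tm L y))) fun _ y hy => by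
      rw [abs_mul, abs_mul, abs_two]
      exact mul_le_mul (hc y hy) (mul_le_mul_of_nonneg_left (k1 y hy) zero_le_two)
        (by positivity) hγ
  have c1 : (Fintype.card Sh.one.Lf : ℝ) = 1 := Nat.cast_one
  have so : ∀ G : ℕ → ℝ, ∑ a' : Sh.one.Lf, ∑ y ∈ range (J + 1), cw .one L a' y * G y =
      ∑ y ∈ range (J + 1), dm L 0 y * G y := fun G =>
    (Wt87.sum_one _).trans (sum_congr rfl fun y _ => congrArg (· * _) (cw_one L () y))
  rw [c1, one_mul] at k2 k5
  rw [so] at k5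
  rw [e1, e0, Finset.sum_eq_zero fun a _ => Finset.sum_eq_zero fun b hb =>
    absurd rfl (Finset.ne_of_mem_erase hb), zero_add,
    (sum_congr rfl fun a' _ => sum_congr rfl fun y hy => mc (e2 y hy a')).trans (so _)]
  have e3 : ∑ y ∈ range (J + 1), dm L 0 y * (c y * (2 * (N y - b * tm L y))) =
      ∑ y ∈ range (J + 1), dm L 0 y * (c y * (2 * N y)) -
        2 * b * ∑ y ∈ range (J + 1), dm L 0 y * (c y * tm L y) := by
    rw [mul_sum, ← sum_sub_distrib]
    exact sum_congr rfl fun y _ => by ring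
  rw [e3] at k5
  have k6 : ex L J * (2 * (ex L J * (γ * (4096 * x ^ 3)))) ≤ x * (2 * (x * (γ * (4096 * x ^ 3)))) := by
    gcongr
  have k7 : ex L J * (γ * (2 * (2000 * cL ^ 2 * x ^ 4))) ≤ x * (γ * (2 * (2000 * cL ^ 2 * x ^ 4))) := by
    gcongr
  rw [abs_le] at k2 k5 ⊢
  constructor <;> linarith [k2.1, k2.2, k5.1, k5.2]

end Crest.Agent.T156.Cas.Yh14

end
end

-- ▼ part T156/CYh_14

/-!
# Row 156, block C (helper14): the leaf `YhS`
-/

set_option autoImplicit false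

noncomputable section

namespace Crest.Agent.T156.Cas.C40

open MeasureTheory Real Set Filter Topology
open Crest.Agent.T157.E Crest.Agent.T157.Casc Crest.Agent.T157.SL
open Crest.Agent.T157.G1 (ov)
open Crest.ProbabilityR.SpinGlassDynamics (spin)
open Mul55 OneP Yh14 Leg51 Lsg89 CD

namespace Y14

variable {D : CD} {τ0 : ℝ}

/-- the bulk factor of the letter -/
def cc (D : CD) (y : ℕ) : ℝ := if y ≤ D.J then D.τ y / 2 * D.rb y else 0

theorem r1 (H : D.Ok τ0) : Ker15.R1 D.S := Ker15.r1_of (rk_opS H.ook)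

theorem mS (H : D.Ok τ0) : Mono 0 D.S := mono_opS H.mono

theorem tm_lo (H : D.Ok τ0) {y : ℕ} (hy : y ≤ D.J) : Ker15.tm D.S y = fAcc D.M y := by
  rw [Ker15.tm_eq (rk_opS H.ook), TT_opV (hy.trans H.cut.le), H.qlo y hy, mul_zero,
    zero_add]

theorem JS (H : D.Ok τ0) : D.J < D.S.length := H.cut.trans_eq opS_length.symm

theorem exS (H : D.Ok τ0) : ex D.S D.J ≤ D.X := (Cav22.ex_tilt tilt_opS _).trans_le H.x1

theorem cc0 (D : CD) : cc D 0 = 0 := by simp [cc, oTau, dAcc_zero]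

theorem abs_rb (H : D.Ok τ0) {y : ℕ} (hy : y ∈ D.lo) : |D.rb y| ≤ D.X + D.tl := by
  have h1 := H.u_lo hy 0
  simp only [CD.u, uM, oU, H.qlo y (mem_lo.1 hy).2, sub_zero, zero_add, pow_one, Nat.cast_zero,
    one_mul] at h1
  refine le_trans (abs_le.2 ⟨?_, pi2_mono wt_one90 _ _ (fun _ _ => le_abs_self _) _⟩) h1
  have := pi2_mono wt_one90 D.B y (K := fun x y => -1 * |ov x y|) (K' := ov)
    (fun a b => by linarith [neg_abs_le (ov a b)]) 0
  rw [pi2_const_mul] at this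
  exact (neg_eq_neg_one_mul _).trans_le this

theorem abs_cc (H : D.Ok τ0) {y : ℕ} (hy : y ≤ D.J) : |cc D y| ≤ τ0 / 2 * (D.X + D.tl) := by
  have h0 := H.tau0
  rcases y.eq_zero_or_pos with rfl | h
  · rw [cc0, abs_zero]
    exact mul_nonneg (by positivity) (add_nonneg H.X0 H.tl0)
  · rw [cc, if_pos hy, abs_mul, abs_div, abs_two, abs_of_nonneg (H.tau_mem y).1]
    exact mul_le_mul (by linarith [(H.tau_mem y).2]) (abs_rb H (mem_lo.2 ⟨h, hy⟩)) (abs_nonneg _)
      (by positivity)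

theorem ker_eq (H : D.Ok τ0) (j : ℕ) (k : ℝ) :
    pi2 (fun _ => 1) D.B j ((lt D.n D.β D.M D.q D.cl aL).1 j) 0 * (k - D.q j) = cc D j * k := by
  rw [Ex23.pi2_lt, cc]
  by_cases h : j ≤ D.J
  · simp [CD.cl, h, CD.del, H.qlo j h]
  · simp [CD.cl, h]

theorem Sh_eq (H : D.Ok τ0) : D.Sh' = 2 * ∑ y ∈ Finset.range (D.J + 1),
    dm D.S 0 y * (cc D y * Ker15.tm D.S y) := by
  rw [Finset.range_eq_Ico, Finset.sum_eq_sum_Ico_succ_bot (Nat.succ_pos _), cc0, zero_mul, mul_zero,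
    zero_add, Finset.mul_sum]
  refine Finset.sum_congr rfl fun y hy => ?_
  rw [cc, if_pos (mem_lo.1 hy).2, tm_lo H (mem_lo.1 hy).2, Cav22.dm_tilt tilt_opS]
  ring

theorem abs_low (H : D.Ok τ0) {G : ℕ → ℝ} {c : ℝ} (hc : 0 ≤ c) (h : ∀ y ≤ D.J, |G y| ≤ c) :
    |∑ y ∈ Finset.range (D.J + 1), dm D.S 0 y * (cc D y * G y)| ≤
      D.X * (τ0 / 2 * (D.X + D.tl) * c) := by
  have h1 := (abs_nonneg _).trans (abs_cc H D.J.zero_le)
  refine (Finset.abs_sum_le_sum_abs _ _).trans ((Finset.sum_le_sum (g := fun y => D.dx y *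
    (τ0 / 2 * (D.X + D.tl) * c)) fun y hy => ?_).trans ?_)
  · have hy := Nat.lt_succ_iff.1 (Finset.mem_range.1 hy)
    rw [Cav22.dm_tilt tilt_opS, abs_mul, abs_mul, abs_of_nonneg (H.dx0 y)]
    exact mul_le_mul_of_nonneg_left (mul_le_mul (abs_cc H hy) (h y hy) (abs_nonneg _) h1) (H.dx0 y)
  · rw [← Finset.sum_mul, H.sum_dx]
    exact mul_le_mul_of_nonneg_right H.x1 (mul_nonneg h1 hc)

theorem lam_eq (H : D.Ok τ0) : D.lam = gs (D.S.drop D.J) 1 0 := by
  have H' := R1.drop (r1 H) D.J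
  unfold CD.lam CD.Ph
  rw [drop_cons (JS H)] at H' ⊢
  exact iter_X H'

theorem X5 (H : D.Ok τ0) : (D.X + D.tl) * D.X ^ 5 ≤ 2 * D.E0 := by
  nlinarith [H.X6_le, H.tl_le, mul_le_of_le_one_right H.tl0 (pow_le_one₀ H.X0 H.X1 : D.X ^ 5 ≤ 1)]

theorem val (H : D.Ok τ0) (hW : D.W.isSome = false) :
    |D.tw [aL] - D.lam2 * D.Sh' / 2| ≤ 2000 * cL ^ 2 * τ0 * D.E0 := by
  have e : D.tw [aL] = ∑ y ∈ Finset.range (D.J + 1), dm D.S 0 y * (cc D y * D.Gam y) := by
    rw [CD.tw, dd_val hW, Ex23.tm_one H.pos H.ook]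
    refine (Finset.sum_congr rfl fun j _ => ?_).trans (Finset.sum_subset
      (Finset.range_mono (Nat.succ_le_succ H.cut.le)) fun j _ hj => ?_).symm
    · rw [Cav22.dm_tilt tilt_opS, ← ker_eq H, ← Ex23.pi2_oE]
      rfl
    · rw [cc, if_neg fun h => hj (Finset.mem_range.2 (Nat.lt_succ_of_le h)), zero_mul, mul_zero]
  have h1 := abs_low H (G := fun y => D.Gam y - D.lam ^ 2 * Ker15.tm D.S y)
    (c := 2000 * cL ^ 2 * D.X ^ 4) (by positivity) fun y hy => lam_eq H ▸
      gam_low (r1 H) (mS H) (JS H) H.X0 H.X1 ((tm_lo H le_rfl).trans_le H.h1) hy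
  rw [e, CD.lam2, dd_val hW, Sh_eq H, mul_div_assoc, mul_div_cancel_left₀ _ two_ne_zero,
    Finset.mul_sum, ← Finset.sum_sub_distrib]
  refine ((congrArg abs (Finset.sum_congr rfl fun y _ => by ring)).trans_le h1).trans ?_
  nlinarith [mul_le_mul_of_nonneg_left (X5 H) (mul_nonneg (sq_nonneg cL) H.tau0)]

/-- the marked cluster -/
def mg (D : CD) (j k : ℕ) (y : ℝ) : ℝ :=
  MG (D.S.drop D.J) (.two (j - D.J)) (pr2 (j - D.J) (oE D.q j)) k (y • spin)

theorem dP_eq (H : D.Ok τ0) (hW : D.W.isSome = true) : D.dP 2 [] =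
    -∑ j ∈ D.up, D.om j * (mg D j 2 0 - ex D.S D.J * D.lam * mg D j 0 0) := by
  have H' := R1.drop (r1 H) D.J
  have e : ex D.S D.J = (D.S[D.J]'(JS H)).m := by
    simp only [Crest.Agent.T157.Casc.ex, List.getElem?_eq_getElem (JS H)]
  rw [CD.dP, lam_eq H, e]
  simp only [CD.sH, dd_test hW]
  have k := iter_sum D.up D.om (lad_gs (D.S[D.J]'(JS H)) (D.S.drop (D.J + 1)))
    (gs_even_zero (One15.fl_of (drop_cons (JS H) ▸ H').rk) Even.zero) (f := mg D) fun j hj => by
      obtain ⟨m, hm⟩ : ∃ m, j - D.J = m + 1 := ⟨j - D.J - 1, by have := (mem_up.1 hj).1; omega⟩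
      unfold mg
      rw [hm, drop_cons (JS H)]
      exact lad_MG _ _ rfl _
  rw [← drop_cons (JS H)] at k
  exact congrArg _ k

theorem test (H : D.Ok τ0) (hW : D.W.isSome = true) : |D.tw [aL] - D.lam2 * D.Sh' / 2| ≤
    (4000 * cL ^ 2 + 8192 + 2 * (cL ^ 2 * bM 0)) * τ0 * (D.wt * D.E0) := by
  have hx := H.X0
  have h0 := H.tau0
  have ht := H.tl0
  have hσ : Ker15.tm D.S D.J ≤ D.X ^ 3 := (tm_lo H le_rfl).trans_le H.h1
  have h1 := abs_low H (G := Ker15.tm D.S) (c := D.X ^ 3) (by positivity) fun y hy => by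
    rw [abs_of_nonneg (tm_nonneg (r1 H) y)]
    exact ((r1 H).tm_mono hy).trans hσ
  have hl : |D.lam| ≤ cL := lam_eq H ▸ (ln_M' (r1 H) (mS H) (JS H)).bd
  have e : (fun j a b => pi2 (fun _ => 1) D.B j ((lt D.n D.β D.M D.q D.cl aL).1 j) 0 *
      (lt D.n D.β D.M D.q D.cl aL).2 j a b) = fun j a b => cc D j * (spin a * spin b) := by
    funext j a b
    exact ker_eq H j _
  rw [CD.tw, CD.lam2, dd_test hW, dd_test hW, dP_eq H hW, Sh_eq H, wt_test hW]
  simp only [List.map_singleton, Ex23.wB_one, e]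
  set T := ∑ y ∈ Finset.range (D.J + 1), dm D.S 0 y * (cc D y * Ker15.tm D.S y) with hT
  rw [show ∀ A B : ℝ, A - 2 * D.lam * -B * (2 * T) / 2 = A + 2 * D.lam * T * B from
    fun A B => by ring, Finset.mul_sum, ← Finset.sum_add_distrib]
  simp only [mul_left_comm (2 * D.lam * T), ← mul_add]
  refine (D.abs_sum_om (b := fun _ => (4000 * cL ^ 2 + 8192 + 2 * (cL ^ 2 * bM 0)) * τ0 * D.E0)
    fun j hj => ?_).trans_eq (by rw [D.Iw_const]; ring)
  obtain ⟨m, rfl⟩ : ∃ m, j = m + D.J + 1 := ⟨j - D.J - 1, by have := (mem_up.1 hj).1; omega⟩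
  have hj' := (mem_up.1 hj).2.le
  have hq := H.ook.mem hj'
  have k1 := dop_low (r1 H) (mS H) (hj'.trans_eq opS_length.symm) hx H.X1 hσ (exS H)
    (c := cc D) (fun y hy => if_neg hy.not_ge) (by positivity) (fun y hy => abs_cc H hy)
    (q := D.q (m + D.J + 1)) ((abs_of_nonneg hq.1).trans_le hq.2)
  have k2 : |mg D (m + D.J + 1) 0 0| ≤ bM 0 := abs_MG_two (Cav22.mono_drop _ (mS H))
    (fun x => abs_oE_le H.ook hj' _ _) 0 _
  have e2 : mg D (m + D.J + 1) 2 0 = MG (D.S.drop D.J) (.two (m + 1))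
      (pr2 (m + 1) fun a b => spin a * spin b - D.q (m + D.J + 1)) 2 0 := by
    rw [mg, show m + D.J + 1 - D.J = m + 1 by omega, zero_smul]
    rfl
  rw [← lam_eq H, ← hT, ← e2] at k1
  have k3 : |ex D.S D.J * (D.lam * D.lam * mg D (m + D.J + 1) 0 0) * T| ≤
      D.X * (cL * cL * bM 0) * (D.X * (τ0 / 2 * (D.X + D.tl) * D.X ^ 3)) := by
    have := (abs_nonneg _).trans hl
    have := bM_nn 0
    simp only [abs_mul, abs_of_nonneg (ex_nn (mS H) D.J)]
    gcongr
    exact exS H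
  have k4 := mul_le_mul_of_nonneg_left (X5 H) (show 0 ≤ (4000 * cL ^ 2 + 8192 +
    2 * (cL ^ 2 * bM 0)) * τ0 / 2 by have := bM_nn 0; positivity)
  rw [abs_le] at k1 k3 ⊢
  constructor <;> [have k5 := k1.1; have k5 := k1.2] <;> erw [show ∀ j, oE D.q j = fun a b =>
    spin a * spin b - D.q j from fun _ => rfl] <;> nlinarith [k3.1, k3.2]

end Y14

/-- **the leaf `Yh`**, both directions -/
theorem yhS : ∀ b, YhS b
  | false => fun τ0 => ⟨2000 * cL ^ 2 * |τ0|, by positivity, fun D H hW => by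
      rw [abs_of_nonneg H.tau0]
      exact (Y14.val H hW).trans (mul_le_mul_of_nonneg_left (H.E0_le hW)
        (by have := H.tau0; positivity))⟩
  | true => fun τ0 => ⟨(4000 * cL ^ 2 + 8192 + 2 * (cL ^ 2 * bM 0)) * |τ0|,
      by have := bM_nn 0; positivity, fun D H hW => by
      rw [abs_of_nonneg H.tau0]
      exact (Y14.test H hW).trans (mul_le_mul_of_nonneg_left H.wtE0_le
        (by have := H.tau0; have := bM_nn 0; positivity))⟩

end Crest.Agent.T156.Cas.C40

end
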