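import Crest.Agent.T156.Nu_87
import Crest.Agent.T156.CaTay_38

/-!
# Row 156: the exchangeable replica law (helper87)

`nu w L h r F` is the expectation of a function of `r + 1` replicas and of their split matrix.
It is positive, consistent, exchangeable, and its derivative along a path of covariances is
`nu (F · D)` in Ghirlanda–Guerra form (`hasDerivAt_nu`, `taylor_nu`).
-/

set_option autoImplicit false
set_option linter.unusedSectionVars false

noncomputable section

namespace Crest.Agent.T156.Cas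

open MeasureTheory Real Set Filter Topology
open Crest.Agent.T157.E Crest.Agent.T157.Casc Crest.Agent.T157.SL
open Wt87 Law Nu87

variable {Ω : Type} [Fintype Ω] {w : Ω → ℝ} {r : ℕ}

open Classical in
/-- the law of the leaves given the split matrix -/
def TM (w : Ω → ℝ) (L : List (Lv Ω)) (h : Ω → ℝ) (σ : SM r) (F : (Fin r → Ω) → ℝ) : ℝ :=
  ∑ y : Fin r → Ω, F y * Iso87.Q w (fun a z => if z = y a then 1 else 0) L σ Finset.univ h

/-- functions of `r` replicas and of their split matrix -/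
abbrev RF (Ω : Type) (r : ℕ) : Type := (Fin r → Ω) → SM r → ℝ

/-- **the replica law** of `r + 1` replicas -/
def nu (w : Ω → ℝ) (L : List (Lv Ω)) (h : Ω → ℝ) (r : ℕ) (F : RF Ω (r + 1)) : ℝ :=
  avm L r fun σ => TM w L h σ fun x => F x σ

/-- a function of the replicas `ι a` -/
def RF.re {r' : ℕ} (F : RF Ω r) (ι : Fin r → Fin r') : RF Ω r' :=
  fun x σ => F (fun a => x (ι a)) fun a b => σ (ι a) (ι b)

/-- the kernel `S` on the pair `(a, b)` -/
def ed (S : ℕ → Ω → Ω → ℝ) (a b : Fin r) : RF Ω r := fun x σ => S (σ a b) (x a) (x b)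

namespace Nu87

theorem TM_sm (hw : Wt w) (s : Sh) (L : List (Lv Ω)) (h : Ω → ℝ) {e : Fin r → s.Lf}
    (he : Function.Injective e) (F : (Fin r → Ω) → ℝ) :
    TM w L h (sm s e L.length) F = TE w s L h fun x => F fun a => x (e a) := by
  classical
  exact (TE_eq_Q hw s L h he F).symm

theorem TM_add (L : List (Lv Ω)) (h : Ω → ℝ) (σ : SM r) (F G : (Fin r → Ω) → ℝ) :
    TM w L h σ (fun x => F x + G x) = TM w L h σ F + TM w L h σ G := by
  simp only [TM, add_mul, Finset.sum_add_distrib]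

theorem TM_sub (L : List (Lv Ω)) (h : Ω → ℝ) (σ : SM r) (F G : (Fin r → Ω) → ℝ) :
    TM w L h σ (fun x => F x - G x) = TM w L h σ F - TM w L h σ G := by
  simp only [TM, sub_mul, Finset.sum_sub_distrib]

theorem TM_mul (L : List (Lv Ω)) (h : Ω → ℝ) (σ : SM r) (c : ℝ) (F : (Fin r → Ω) → ℝ) :
    TM w L h σ (fun x => c * F x) = c * TM w L h σ F := by
  simp only [TM, mul_assoc, Finset.mul_sum]

theorem TM_sum (L : List (Lv Ω)) (h : Ω → ℝ) (σ : SM r) {α : Type*} (A : Finset α)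
    (F : α → (Fin r → Ω) → ℝ) : TM w L h σ (fun x => ∑ i ∈ A, F i x) = ∑ i ∈ A, TM w L h σ (F i) := by
  simp only [TM, Finset.sum_mul]
  exact Finset.sum_comm

variable {L : List (Lv Ω)} {h : Ω → ℝ} {σ : SM r}

theorem TM_mono (hw : Wt w) (hσ : Rz L.length σ) {F G : (Fin r → Ω) → ℝ} (e : ∀ x, F x ≤ G x) :
    TM w L h σ F ≤ TM w L h σ G := by
  obtain ⟨s, e', rfl⟩ := hσ
  rw [TM_sm hw s L h e'.injective, TM_sm hw s L h e'.injective]
  exact TE_mono hw s L h fun _ => e _

theorem TM_const (hw : Wt w) (hσ : Rz L.length σ) (c : ℝ) : TM w L h σ (fun _ => c) = c := by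
  obtain ⟨s, e', rfl⟩ := hσ
  rw [TM_sm hw s L h e'.injective, TE_const hw]

theorem TM_inj (hw : Wt w) (hσ : Rz L.length σ) {r' : ℕ} {ι : Fin r' → Fin r}
    (hι : Function.Injective ι) (F : (Fin r' → Ω) → ℝ) :
    TM w L h σ (fun x => F fun a => x (ι a)) = TM w L h (fun a b => σ (ι a) (ι b)) F := by
  obtain ⟨s, e', rfl⟩ := hσ
  rw [TM_sm hw s L h e'.injective]
  exact (TM_sm hw s L h (e'.injective.comp hι) F).symm

theorem TM_pair (hw : Wt w) (hσ : Rz L.length σ) {a b : Fin r} (hab : a ≠ b) (K : Ω → Ω → ℝ) :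
    TM w L h σ (fun x => K (x a) (x b)) = pi2 w L (σ a b) K h := by
  obtain ⟨s, e', rfl⟩ := hσ
  rw [TM_sm hw s L h e'.injective]
  exact TE_pair hw s L h (fun e => hab (e'.injective e)) K

theorem TM_single (hw : Wt w) (hσ : Rz L.length σ) (a : Fin r) (f : Ω → ℝ) :
    TM w L h σ (fun x => f (x a)) = Pf w L h f := by
  obtain ⟨s, e', rfl⟩ := hσ
  rw [TM_sm hw s L h e'.injective]
  exact TE_single hw s L h _ f


theorem TM_prd {Ω₁ Ω₂ : Type} [Fintype Ω₁] [Fintype Ω₂] {w₁ : Ω₁ → ℝ} {w₂ : Ω₂ → ℝ} (h₁ : Wt w₁)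
    (h₂ : Wt w₂) {L : List (Lv (Ω₁ × Ω₂))} {T : List (Lv Ω₁ × Lv Ω₂)} (H : List.Forall₂ Prd L T)
    (hσ : Rz L.length σ) (G₁ : (Fin r → Ω₁) → ℝ) (G₂ : (Fin r → Ω₂) → ℝ) (z₁ : Ω₁ → ℝ)
    (z₂ : Ω₂ → ℝ) :
    TM (pw2 w₁ w₂) L (ad z₁ z₂) σ (fun x => G₁ (fun a => (x a).1) * G₂ fun a => (x a).2) =
      TM w₁ (T.map Prod.fst) z₁ σ G₁ * TM w₂ (T.map Prod.snd) z₂ σ G₂ := by
  obtain ⟨s, e', rfl⟩ := hσ
  have e1 := TM_sm h₁ s (T.map Prod.fst) z₁ e'.injective G₁
  have e2 := TM_sm h₂ s (T.map Prod.snd) z₂ e'.injective G₂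
  rw [List.length_map, ← H.length_eq] at e1 e2
  rw [TM_sm (wt_pw2 h₁ h₂) s L _ e'.injective, e1, e2]
  exact TE_prd h₁ h₂ s H (fun x => G₁ fun a => x (e' a)) (fun x => G₂ fun a => x (e' a)) z₁ z₂


/-- the derivative given the split matrix -/
def dM (w : Ω → ℝ) (L : List (Lv Ω)) (h : Ω → ℝ) (S : ℕ → Ω → Ω → ℝ) (σ : SM r)
    (F : (Fin r → Ω) → ℝ) : ℝ :=
  TM w L h σ (fun x => F x * ∑ a, ∑ b, ed S a b x σ) -
    Ws L σ (fun a j => TM w L h (gr L.length σ a j) fun x => F (fun c => x c.succ) *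
      (∑ b : Fin r, (ed S b.succ 0 x (gr L.length σ a j) + ed S 0 b.succ x (gr L.length σ a j)) +
        ed S 0 0 x (gr L.length σ a j))) +
    Ws L σ fun a j => Ws L (gr L.length σ a j) fun c k =>
      TM w L h (gr L.length (gr L.length σ a j) c k) fun x => F (fun b => x b.succ.succ) *
        ed S 0 1 x (gr L.length (gr L.length σ a j) c k)

theorem Gn_eq (hw : Wt w) {s : Sh} (e : Fin r ≃ s.Lf) (G : RF Ω (r + 1)) :
    Ws L (sm s e L.length) (fun a j => TM w L h (gr L.length (sm s e L.length) a j) fun x =>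
        G x (gr L.length (sm s e L.length) a j)) =
      Gn w s L h fun a j x => G (fun c => x (grE e a j c)) (sm (s.graft a j) (grE e a j) L.length) := by
  have nc : NC s fun a j => TM w L h (gr L.length (sm s e L.length) (e.symm a) j) fun x =>
      G x (gr L.length (sm s e L.length) (e.symm a) j) := fun a b j hj => by
    have h2 := shr_min s a b j L.length
    have h3 := shr_min s a b L.length j
    have h1 : Rz L.length (sm s e L.length) := ⟨s, e, rfl⟩
    beta_reduce
    rcases le_total j L.length with hK | hK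
    · rw [h1.gr_eq (a := e.symm a) (b := e.symm b) (j := j) (by
        simp only [sm, Equiv.apply_symm_apply]; rw [min_eq_left hK, hj] at h2; omega)]
    · have : ∀ c, min j (sm s e L.length c (e.symm a)) = min j (sm s e L.length c (e.symm b)) :=
        fun c => by
          simp only [sm, Equiv.apply_symm_apply]
          rw [shr_congr s (a := a) (b := b) (j := L.length) (by
            rw [min_eq_left hK, hj] at h3; omega)]
      simp only [gr, this]
  have := Ws_sm L e nc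
  simp only [Equiv.symm_apply_apply] at this
  rw [this, Gn]
  congr 1
  funext a j
  obtain ⟨a, rfl⟩ := e.surjective a
  rw [Equiv.symm_apply_apply, ← sm_gr, TM_sm hw _ L h (grE e (e a) j).injective]

theorem dT_eq_dM (hw : Wt w) {s : Sh} (e : Fin r ≃ s.Lf) (S : ℕ → Ω → Ω → ℝ)
    (F : (Fin r → Ω) → ℝ) :
    dT w s L h S (fun x => F fun a => x (e a)) = dM w L h S (sm s e L.length) F := by
  rw [dT_seq hw, dM, TM_sm hw s L h e.injective,
    Gn_eq hw e fun x σ => F (fun c => x c.succ) *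
      (∑ b : Fin r, (ed S b.succ 0 x σ + ed S 0 b.succ x σ) + ed S 0 0 x σ)]
  congr 1
  · congr 1
    · congr 1
      funext x
      rw [← e.sum_comp]
      simp only [← e.sum_comp]
      rfl
    · congr 1
      funext a j x
      rw [← e.sum_comp]
      rfl
  · have h1 : Rz L.length (sm s e L.length) := ⟨s, e, rfl⟩
    rw [Ws_eq_Wn L e (h1.ncm fun σ' => Ws L σ' fun c k => TM w L h (gr L.length σ' c k) fun x =>
      F (fun b => x b.succ.succ) * ed S 0 1 x (gr L.length σ' c k))]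
    refine Wn_congr s L fun a j hj => ?_
    obtain ⟨a, rfl⟩ := e.surjective a
    rw [Equiv.symm_apply_apply, min_eq_left hj, ← sm_gr,
      Gn_eq hw (grE e (e a) j) fun x σ => F (fun b => x b.succ.succ) * ed S 0 1 x σ]
    rfl



end Nu87

variable {L : List (Lv Ω)} {h : Ω → ℝ}




theorem nu_mul (c : ℝ) (F : RF Ω (r + 1)) :
    nu w L h r (fun x σ => c * F x σ) = c * nu w L h r F := by
  simp only [nu, TM_mul, avm_mul]

theorem nu_sum {α : Type*} (A : Finset α) (F : α → RF Ω (r + 1)) :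
    nu w L h r (fun x σ => ∑ i ∈ A, F i x σ) = ∑ i ∈ A, nu w L h r (F i) := by
  simp only [nu, TM_sum, avm_sum]


theorem nu_mono (hw : Wt w) (hL : Mono 0 L) {F G : RF Ω (r + 1)}
    (e : ∀ x σ, Rz L.length σ → F x σ ≤ G x σ) : nu w L h r F ≤ nu w L h r G :=
  avm_mono hL r fun σ hσ => TM_mono hw hσ fun x => e x σ hσ














/-- `F · D` as one function of `r + 3` replicas (the old ones are `2, 3, …`), off-diagonal form -/
def Dr (S : ℕ → Ω → Ω → ℝ) (F : RF Ω (r + 1)) : RF Ω (r + 3) := fun x σ =>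
  F.re (fun b => b.succ.succ) x σ *
    (∑ a : Fin (r + 1), ∑ b ∈ Finset.univ.erase a, ed S a.succ.succ b.succ.succ x σ -
      (r + 1) * ∑ b : Fin (r + 1), (ed S b.succ.succ 1 x σ + ed S 1 b.succ.succ x σ) +
      (r + 1) * (r + 2) * ed S 0 1 x σ)


/-- iterated derivative -/
def Dn (S : ℕ → Ω → Ω → ℝ) (F : RF Ω (r + 1)) : (k : ℕ) → RF Ω (r + 2 * k + 1)
  | 0 => F
  | k + 1 => Dr (r := r + 2 * k) S (Dn S F k)

section path
variable {L : List (TL Ω)} {S : ℕ → Ω → Ω → ℝ} {c : ℝ}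



end path



end Crest.Agent.T156.Cas

end
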