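import Crest.Agent.T156.Clu_22
import Crest.Agent.T156.NuB_87
import Crest.Agent.T156.One_15

/-!
# Row 156 (helper22): clusters plugged on a skeleton

`t.plug j u` carries the tree `u α` on the leaf `α` of `t` at depth `j`.  With `TE_lab` this gives
the cluster factorisation for every labelled tree and every split matrix (`TE_clu`, `TM_clu`).
-/

set_option autoImplicit false
set_option linter.unusedSectionVars false

noncomputable section

namespace Crest.Agent.T156.Cas

open MeasureTheory Real Set Filter Topology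
open Crest.Agent.T157.E Crest.Agent.T157.Casc Crest.Agent.T157.SL

/-- `j` shared levels below `u` -/
def Sh.stp (u : Sh) : ℕ → Sh
  | 0 => u
  | j + 1 => .step (u.stp j)

/-- its leaves -/
def Sh.stI (u : Sh) : (j : ℕ) → u.Lf → (u.stp j).Lf
  | 0, b => b
  | j + 1, b => u.stI j b



namespace Clu22

theorem shr_stI (u : Sh) (a b : u.Lf) (k : ℕ) : ∀ j : ℕ,
    (u.stp j).shr (u.stI j a) (u.stI j b) (k + j) = u.shr a b k + j
  | 0 => rfl
  | j + 1 => congrArg (· + 1) (shr_stI u a b k j)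






variable {Ω : Type} [Fintype Ω] {w : Ω → ℝ}









end Clu22

variable {Ω : Type} [Fintype Ω] {w : Ω → ℝ}




/-! ### the weights at a cut -/

omit [Fintype Ω] in
theorem ex_drop22 (L : List (Lv Ω)) (j i : ℕ) : ex (L.drop j) i = ex L (i + j) := by
  simp only [T157.Casc.ex, List.getElem?_drop, add_comm]



/-! ### one leg -/

/-- signed sum over the positions of a leg `f` -/
def dL (w : Ω → ℝ) (L : List (Lv Ω)) (h : Ω → ℝ) {r : ℕ} (σ : SM r) (f : Ω → ℝ)
    (F : (Fin r → Ω) → ℝ) : ℝ :=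
  ∑ a, TM w L h σ (fun x => F x * f (x a)) -
    Ws L σ fun a k => TM w L h (gr L.length σ a k) fun x => F (fun c => x c.succ) * f (x 0)

open Nu87 in
theorem dL_eq (hw : Wt w) (L : List (Lv Ω)) (h : Ω → ℝ) {r : ℕ} {s : Sh} (e : Fin r ≃ s.Lf)
    (f : Ω → ℝ) (F : (Fin r → Ω) → ℝ) :
    dL w L h (sm s e L.length) f F = One15.dS w s L h f fun x => F fun a => x (e a) := by
  rw [dL, One15.dS, Gn_eq hw e fun x _ => F (fun c => x c.succ) * f (x 0), Wt87.sum_cw_eq,
    ← e.sum_comp]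
  simp only [TM_sm hw s L h e.injective]
  rfl

open Nu87 in
/-- **leg sum = derivative in the state** -/
theorem hasDerivAt_dL (hw : Wt w) (L : List (Lv Ω)) (h : Ω → ℝ) {r : ℕ} {σ : SM r}
    (hσ : Rz L.length σ) (f : Ω → ℝ) (F : (Fin r → Ω) → ℝ) (e : ℝ) :
    HasDerivAt (fun e : ℝ => TM w L (h + e • f) σ F) (dL w L (h + e • f) σ f F) e := by
  obtain ⟨s, e', rfl⟩ := hσ
  simp only [TM_sm hw s L _ e'.injective, dL_eq hw]
  exact One15.hasDerivAt_TE hw s L h f _ e

/-! ### two legs -/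

/-- the Hessian as a replica sum -/
theorem Hb_eq_pair (hw : Wt w) (f f' : Ω → ℝ) : ∀ (L : List (Lv Ω)) (m : ℝ) (h : Ω → ℝ),
    Hb w L h f f' + m * (Pf w L h f * Pf w L h f') =
      Pf w L h (fun x => f x * f' x) - pair w L m (fun _ x y => f x * f' y) h
  | [], m, h => by
    have : qf (P w [] h) (fun x y => f x * f' y) = Pf w [] h f * Pf w [] h f' := by
      simp only [Hess87.Pf_mul_Pf, qf, mul_comm]
    rw [Hess87.Hb_nil, Cb, pair, this]
    ring
  | l :: L, m, h => by
    have hX := lg_X hw L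
    have : qf (P w (l :: L) h) (fun x y => f x * f' y) = Pf w (l :: L) h f * Pf w (l :: L) h f' := by
      simp only [Hess87.Pf_mul_Pf, qf, mul_comm]
    have e := congrArg (fun Φ => tE l (X w L) Φ h) (funext (Hb_eq_pair hw f f' L l.m))
    beta_reduce at e
    rw [tE_add hX (Hess87.eg_Hb hw L f f')
      (((Hess87.eg_Pf hw L f).mul (Hess87.eg_Pf hw L f')).const_mul _), tE_const_mul,
      tE_sub hX (Hess87.eg_Pf hw L _) (eg_pair hw L _ _), ← Hess87.Pf_cons hw] at e
    rw [Hess87.Hb_cons hw, pair, this]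
    linarith

theorem Hb_eq_sum (hw : Wt w) (L : List (Lv Ω)) (m : ℝ) (h f f' : Ω → ℝ) :
    Hb w L h f f' + m * (Pf w L h f * Pf w L h f') = Pf w L h (fun x => f x * f' x) -
      ∑ j ∈ Finset.range (L.length + 1), dm L m j * pi2 w L j (fun x y => f x * f' y) h := by
  rw [Hb_eq_pair hw, pair_eq_sum hw]


section Prd

variable {Ω₁ Ω₂ : Type} [Fintype Ω₁] [Fintype Ω₂] {w₁ : Ω₁ → ℝ} {w₂ : Ω₂ → ℝ}
  {L : List (Lv (Ω₁ × Ω₂))} {T : List (Lv Ω₁ × Lv Ω₂)}





end Prd

end Crest.Agent.T156.Cas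

end
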