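import Crest.Agent.T156.Low_51
import Crest.Agent.T156.Lsg_89
import Crest.Agent.T156.CY3A_20

/-!
# Row 156 (helper51): evaluation of the cluster form of a low word

`abs_LE_le` (tree-wise bounds), `LE_fac` (a bulk factor that only sees the skeleton comes out),
`LE_site`, `LE_siteM` (the site factor is a skeleton expectation of cluster values), `CW_stp`.
-/

set_option autoImplicit false
set_option linter.unusedSectionVars false
set_option linter.unusedVariables false

noncomputable section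

namespace Crest.Agent.T156.Cas

open MeasureTheory Real Set Filter Topology
open Crest.Agent.T157.E Crest.Agent.T157.Casc Crest.Agent.T157.SL
open Wt87 (shr_emb shr_nw shr_nw' shr_self shr_comm shr_le shr_congr card_graft graft_cases)
open Tay38 (emb_ne emb_inj)
open Leg51

namespace Low51

variable {Ω S Θ ι ι' : Type} {ε : ℝ} {i n : ℕ} {M : List (Lv Θ)} {t s : Sh}

section reach
variable {a : s.Lf} {o : Md} {s' : Sh} {e' : s.Lf → s'.Lf} {c : s'.Lf}

theorem Rc.shr (h : Rc i n s a o s' e' c) (x y : s.Lf) (k : ℕ) :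
    s'.shr (e' x) (e' y) k = s.shr x y k := by
  cases h with
  | fix => rfl
  | old => rfl
  | new => exact shr_emb _ _ _ _ _ _
  | gr => exact shr_emb _ _ _ _ _ _

theorem Rc.inj (h : Rc i n s a o s' e' c) : Function.Injective e' := by
  cases h with
  | fix => exact Function.injective_id
  | old => exact Function.injective_id
  | new => exact emb_inj _ _ _
  | gr => exact emb_inj _ _ _

theorem Rc.mem (h : Rc i n s a o s' e' c) : s'.shr (e' a) c (i + 1) = i + 1 := by
  cases h with
  | fix => exact shr_self _ _ _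
  | old h => exact mem_cls.1 h
  | new h h1 => rw [shr_nw, min_eq_right h1]; exact mem_cls.1 h
  | gr h1 => rw [shr_nw, min_eq_right h1]; exact shr_self _ _ _

theorem Rc.card (h : Rc i n s a o s' e' c) : Fintype.card s'.Lf ≤ Fintype.card s.Lf + 1 := by
  cases h with
  | fix => exact Nat.le_succ _
  | old => exact Nat.le_succ _
  | new => exact (card_graft _ _ _).le
  | gr => exact (card_graft _ _ _).le

end reach

/-- the ends of `c` lie in the clusters of the marks of `d`; a marked pair splits at its depth -/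
def At (i n : ℕ) (s : Sh) (e : ι → s.Lf) (d : Ed ι) (c : s.Lf × s.Lf) : Prop :=
  s.shr (e d.p) c.1 (i + 1) = i + 1 ∧ s.shr (e d.q) c.2 (i + 1) = i + 1 ∧
    ∀ k, d.op = .fix → d.oq = .gr k → d.p = d.q → s.shr c.1 c.2 n = k ∧ c.1 ≠ c.2

/-- the trees reached after the edges `E` -/
structure Rch (i : ℕ) (M : List (Lv Θ)) (t : Sh) (E : List (Ed t.Lf)) (s : Sh) (e : t.Lf → s.Lf)
    (cs : EL s) : Prop where
  sk : Sk i M t s e
  ends : List.Forall₂ (At i M.length s e) E cs
  card : Fintype.card s.Lf ≤ Fintype.card t.Lf + 2 * E.length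

theorem Rch.nil : Rch i M t [] t id [] := ⟨Sk.refl i M t, .nil, le_rfl⟩

theorem Rch.step {E : List (Ed t.Lf)} {e : t.Lf → s.Lf} {cs : EL s} (H : Rch i M t E s e cs)
    {d : Ed t.Lf} {s1 s2 : Sh} {e1 : s.Lf → s1.Lf} {e2 : s1.Lf → s2.Lf} {q : s1.Lf} {p : s2.Lf}
    (h1 : Rc i M.length s (e d.q) d.oq s1 e1 q) (h2 : Rc i M.length s1 (e1 (e d.p)) d.op s2 e2 p) :
    Rch i M t (E ++ [d]) s2 (fun x => e2 (e1 (e x))) (mv (fun x => e2 (e1 x)) cs ++ [(p, e2 q)]) := by
  have k1 : ∀ x y k, s2.shr (e2 (e1 x)) (e2 (e1 y)) k = s.shr x y k :=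
    fun x y k => (h2.shr _ _ _).trans (h1.shr _ _ _)
  have k2 : ∀ k, d.op = .fix → d.oq = .gr k → d.p = d.q →
      s2.shr p (e2 q) M.length = k ∧ p ≠ e2 q := fun k a b r => by
    rw [a] at h2
    rw [b] at h1
    cases h2
    cases h1 with
    | gr u v =>
      rw [r]
      exact ⟨(shr_nw _ _ _ _ _).trans ((shr_self _ _ _).trans (min_eq_left v)), emb_ne _ _ _ _⟩
  refine ⟨h2.sk (h1.sk H.sk), List.rel_append (List.forall₂_map_right_iff.2 (H.ends.imp
    fun d c h => ⟨(k1 _ _ _).trans h.1, (k1 _ _ _).trans h.2.1, fun k a b r =>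
      ⟨(k1 _ _ _).trans (h.2.2 k a b r).1, fun u => (h.2.2 k a b r).2 (h1.inj (h2.inj u))⟩⟩))
    (.cons ⟨h2.mem, (h2.shr _ _ _).trans h1.mem, k2⟩ .nil), ?_⟩
  have := H.card
  have := h1.card
  have := h2.card
  rw [List.length_append, List.length_singleton]
  omega

/-- only the trees that are reached count -/
theorem LE_congr' {Ψ Ψ' : PF t.Lf} : ∀ (E E0 : List (Ed t.Lf)), (∀ d ∈ E, d.Hi i M.length) →
    ∀ (s : Sh) (e : t.Lf → s.Lf) (cs : EL s), Rch i M t E0 s e cs →
    (∀ s e cs, Rch i M t (E0 ++ E) s e cs → Ψ s e cs = Ψ' s e cs) →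
    LE ε i M E Ψ s e cs = LE ε i M E Ψ' s e cs
  | [], E0, _, s, e, cs, H, h => h s e cs (by rwa [List.append_nil])
  | d :: E, E0, hE, s, e, _, H, h => lgm_congr (hE d List.mem_cons_self).2 s _ fun _ _ _ h1 =>
      lgm_congr (hE d List.mem_cons_self).1 _ _ fun _ _ _ h2 =>
        LE_congr' E (E0 ++ [d]) (fun d hd => hE d (List.mem_cons_of_mem _ hd)) _ _ _ (H.step h1 h2)
          (by rwa [List.append_assoc])

theorem abs_lgm_le (hε : |ε| ≤ 1) (hM : Mono 0 M) {o : Md} (ho : o.Hi i M.length) (s : Sh) (a : s.Lf)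
    {Ψ : ∀ s' : Sh, (s.Lf → s'.Lf) → s'.Lf → ℝ} {β : ℝ} (hβ : 0 ≤ β)
    (h : ∀ s' e c, Rc i M.length s a o s' e c → |Ψ s' e c| ≤ β) :
    |lgm ε i M o s a Ψ| ≤ 2 * Fintype.card s.Lf * β := by
  classical
  have h1 : (1 : ℝ) ≤ Fintype.card s.Lf := Nat.one_le_cast.2 (Fintype.card_pos_iff.2 ⟨a⟩)
  rw [lgm_congr ho s a (Ψ' := fun s' e c => if Rc i M.length s a o s' e c then Ψ s' e c else 0)
    fun s' e c H => (if_pos H).symm]
  have h2 : ∀ s' e c, |if Rc i M.length s a o s' e c then Ψ s' e c else 0| ≤ β := fun s' e c => by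
    split_ifs with H
    · exact h s' e c H
    · rwa [abs_zero]
  cases o
  · exact (h2 _ _ _).trans (by nlinarith)
  · exact abs_lg_le hε hM s a hβ fun s' e c _ => h2 s' e c
  · exact (h2 _ _ _).trans (by nlinarith)



/-! ### the bulk factor -/

/-- the edges on the skeleton -/
def sk (E : List (Ed t.Lf)) : EL t := E.map fun d => (d.p, d.q)

theorem At.lev {e : t.Lf → s.Lf} (H : Sk i M t s e) (hs : Sep i t) (hi : i < M.length)
    {d : Ed t.Lf} {c : s.Lf × s.Lf} (h : At i M.length s e d c) (hd : d.p ≠ d.q) :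
    s.shr c.1 c.2 M.length = t.shr d.p d.q M.length ∧ t.shr d.p d.q M.length ≤ i := by
  have h1 := H.shr_hi hs hd (mem_cls.2 h.1) (mem_cls.2 h.2.1) hi
  have h2 := (Sk.refl i M t).shr_hi hs hd (mem_cls.2 (shr_self t _ _)) (mem_cls.2 (shr_self t _ _)) hi
  exact ⟨h1.1.trans h2.1.symm, h2.1.trans_le h1.2⟩

/-- kernels on marked pairs are trivial -/
def Tv (R : List (ℕ → Ω → Ω → ℝ)) (E : List (Ed ι)) : Prop :=
  ∀ p ∈ R.zip E, p.2.p = p.2.q → p.1 = fun _ _ _ => 1

theorem prE_sk {e : t.Lf → s.Lf} (H : Sk i M t s e) (hs : Sep i t) (hi : i < M.length)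
    {r : s.Lf → t.Lf} (hr : ∀ c, s.shr (e (r c)) c (i + 1) = i + 1) (y : t.Lf → Ω) :
    ∀ {E : List (Ed t.Lf)} {cs : EL s}, List.Forall₂ (At i M.length s e) E cs →
    ∀ R : List (ℕ → Ω → Ω → ℝ), Tv R E →
    prE M.length R cs (fun c => y (r c)) = prE M.length R (sk E) y
  | _, _, .nil, R, _ => (congrFun (prE_nil _ R) _).trans (congrFun (prE_nil _ R) _).symm
  | _, _, .cons _ _, [], _ => by simp [prE]
  | d :: E, c :: cs, .cons h h', K :: R, hT => by
      have e1 := H.uniq hs (mem_cls.2 (hr c.1)) (mem_cls.2 h.1)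
      have e2 := H.uniq hs (mem_cls.2 (hr c.2)) (mem_cls.2 h.2.1)
      rw [prE_cons, prE_sk H hs hi hr y h' R fun p hp => hT p (List.mem_cons_of_mem _ hp), e1, e2]
      refine Eq.trans (congrArg (· * _) ?_) (prE_cons _ K R (d.p, d.q) (sk E) y).symm
      by_cases hd : d.p = d.q
      · rw [show K = fun _ _ _ => 1 from hT (K, d) List.mem_cons_self hd]
      · rw [(h.lev H hs hi hd).1]

/-- functionals that only see the clusters and the skeleton -/
def Cl (i : ℕ) (Λ : Fn Ω) : Prop := ∀ (s t : Sh) (r : s.Lf → t.Lf),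
  (∀ a b, s.shr a b (i + 1) = t.shr (r a) (r b) (i + 1)) → ∀ F : (s.Lf → Ω) → ℝ,
    Λ s F = Λ t fun y => F fun c => y (r c)

theorem cl_Lc [Fintype Ω] {w : Ω → ℝ} (hw : Wt w) {L : List (Lv Ω)} (h : Ω → ℝ) (hi : i < L.length)
    (κ : Type) [Fintype κ] : Cl i (R90.Lc w L h i κ) :=
  fun _ _ r H F => R90.Lc_map hw hi id r H F

theorem Cl.sk {Λ : Fn Ω} (hΛ : Cl i Λ) (hs : Sep i t) (hi : i < M.length) {E : List (Ed t.Lf)}
    {e : t.Lf → s.Lf} {cs : EL s} (H : Rch i M t E s e cs) {R : List (ℕ → Ω → Ω → ℝ)}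
    (hT : Tv R E) : Λ s (prE M.length R cs) = Λ t (prE M.length R (Low51.sk E)) := by
  choose r hr using H.sk.sur
  rw [hΛ s t r fun a b => ?_]
  · exact congrArg (Λ t) (funext fun y => prE_sk H.sk hs hi hr y H.ends R hT)
  · rw [← H.sk.shr, shr_congr s (hr b), shr_comm s (e (r a)), shr_congr s (hr a), shr_comm s b]

/-- **a factor that is constant on the reached trees comes out** -/
theorem LE_fac {E : List (Ed t.Lf)} (hE : ∀ d ∈ E, d.Hi i M.length) {Φ Φ' : EF} {b : ℝ}
    (h : ∀ s e cs, Rch i M t E s e cs → Φ s cs = b * Φ' s cs) :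
    LE ε i M E (cs' Φ) t id [] = b * LE ε i M E (cs' Φ') t id [] :=
  (LE_congr' E [] hE t id [] Rch.nil h).trans
    (congrFun (congrFun (congrFun (LE_mul b (cs' Φ') E) t) id) [])

/-- the value of the site factor on a tree -/
def PhiS (n : ℕ) (Λ : Fn S) (Z : List (ℕ → S → S → ℝ)) : EF := fun s cs => Λ s (prE n Z cs)

theorem LE_PhiB {Λ : Fn Ω} (hΛ : Cl i Λ) (Λ' : Fn S) (hs : Sep i t) (hi : i < M.length)
    {E : List (Ed t.Lf)} (hE : ∀ d ∈ E, d.Hi i M.length) {R : List (ℕ → Ω → Ω → ℝ)} (hT : Tv R E)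
    (Z : List (ℕ → S → S → ℝ)) :
    LE ε i M E (cs' (PhiB M.length (fun s G ξ => Λ s G * Λ' s ξ) R Z)) t id [] =
      Λ t (prE M.length R (sk E)) * LE ε i M E (cs' (PhiS M.length Λ' Z)) t id [] :=
  LE_fac hE fun s e cs H => congrArg (· * _) (hΛ.sk hs hi H hT)

/-! ### the site factor -/

/-- the end is a leg -/
def Md.lg : Md → Bool
  | .leg => true
  | _ => false

/-- no graft -/
def Md.Lo : Md → Prop
  | .gr _ => False
  | _ => True

theorem Md.Lo.hi {o : Md} (h : o.Lo) (i n : ℕ) : o.Hi i n := by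
  cases o
  · trivial
  · trivial
  · exact h.elim

/-- the ends that are legs (`b = true`) or fixed (`b = false`), with the functions `f` -/
def ends (b : Bool) : List (Ed ι) → List (S → ℝ) → List (ι × (S → ℝ))
  | d :: E, f :: fs => (if d.oq.lg = b then [(d.q, f)] else []) ++
      ((if d.op.lg = b then [(d.p, f)] else []) ++ ends b E fs)
  | _, _ => []

/-- the product of the functions at the marks -/
def pm (W : List (ι × (S → ℝ))) (x : ι → S) : ℝ := (W.map fun p => p.2 (x p.1)).prod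

theorem pm_append (W W' : List (ι × (S → ℝ))) (x : ι → S) : pm (W ++ W') x = pm W x * pm W' x := by
  simp [pm]

/-- the kernel `f ⊗ f` -/
def ff (f : S → ℝ) : ℕ → S → S → ℝ := fun _ a b => f a * f b

theorem prE_ext (Z' : List (ℕ → S → S → ℝ)) (x : s.Lf → S) : ∀ (Z : List (ℕ → S → S → ℝ))
    (cs : EL s), Z.length = cs.length → prE n (Z ++ Z') cs x = prE n Z cs x
  | [], [], _ => by simp [prE]
  | _ :: Z, _ :: cs, h => by
      rw [List.cons_append, prE_cons, prE_cons, prE_ext Z' x Z cs (Nat.succ.inj h)]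

theorem lgm_LW {o : Md} (ho : o.Lo) (a : ι) (f : S → ℝ) (W : List (ι × (S → ℝ)))
    (Λ : Fn S) (s : Sh) (e : ι → s.Lf) (F : (s.Lf → S) → ℝ) :
    lgm ε i M o s (e a) (fun s' e' c => LW ε i M W (cst Λ) s' (fun x => e' (e x))
        fun x => F (fun b => x (e' b)) * f (x c)) =
      LW ε i M ((if o.lg = true then [(a, f)] else []) ++ W) (cst Λ) s e
        fun x => F x * pm (if o.lg = false then [(a, f)] else []) fun b => x (e b) := by
  cases o
  · exact congrArg (LW ε i M W (cst Λ) s e) (funext fun x => by simp [pm, Md.lg])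
  · refine (LW_lg M (a, f) W (cst Λ) s e F).symm.trans ?_
    exact congrArg (LW ε i M ((a, f) :: W) (cst Λ) s e) (funext fun x => by simp [pm, Md.lg])
  · exact ho.elim

theorem LE_LW (Λ : Fn S) : ∀ (E : List (Ed ι)) (fs : List (S → ℝ)),
    (∀ d ∈ E, d.op.Lo ∧ d.oq.Lo) → E.length = fs.length → ∀ (Z : List (ℕ → S → S → ℝ)) (s : Sh)
    (e : ι → s.Lf) (cs : EL s), Z.length = cs.length →
    LE ε i M E (cs' (PhiS n Λ (Z ++ fs.map ff))) s e cs =
      LW ε i M (ends true E fs) (cst Λ) s e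
        fun x => prE n Z cs x * pm (ends false E fs) fun b => x (e b)
  | [], [], _, _, Z, s, e, cs, _ => by
      rw [List.map_nil, List.append_nil]
      exact congrArg (Λ s) (funext fun x => by simp [pm, ends])
  | d :: E, f :: fs, hE, hl, Z, s, e, cs, hZ => by
      have hd := hE d List.mem_cons_self
      have h1 := lgm_LW (ε := ε) (i := i) (M := M) hd.2 d.q f
        ((if d.op.lg = true then [(d.p, f)] else []) ++ ends true E fs) Λ s e fun x => prE n Z cs x *
          (pm (if d.op.lg = false then [(d.p, f)] else []) (fun b => x (e b)) *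
            pm (ends false E fs) fun b => x (e b))
      refine Eq.trans (lgm_congr (hd.2.hi _ _) s _ fun s1 e1 q r1 => ?_) (h1.trans
        (congrArg (LW ε i M _ (cst Λ) s e) (funext fun x => by
          simp only [ends, pm_append]; ring)))
      have h2 := lgm_LW (ε := ε) (i := i) (M := M) hd.1 d.p f (ends true E fs) Λ s1
        (fun x => e1 (e x)) fun x => prE n Z cs (fun b => x (e1 b)) * f (x q) *
          pm (ends false E fs) fun b => x (e1 (e b))
      refine Eq.trans (lgm_congr (hd.1.hi _ _) s1 _ fun s2 e2 p r2 => ?_) (h2.trans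
        (congrArg (LW ε i M _ (cst Λ) s1 _) (funext fun x => by ring)))
      have h3 := LE_LW Λ E fs (fun d hd => hE d (List.mem_cons_of_mem _ hd)) (Nat.succ.inj hl)
        (Z ++ [ff f]) s2 (fun x => e2 (e1 (e x))) (mv (fun x => e2 (e1 x)) cs ++ [(p, e2 q)])
        (by simp [mv, hZ])
      rw [List.append_assoc] at h3
      refine h3.trans (congrArg (LW ε i M _ (cst Λ) s2 _) (funext fun x => ?_))
      have h4 := prE_mv (n := n) (fun a b => (r2.shr _ _ n).trans (r1.shr a b n)) x
      rw [prE_snoc n _ [] _ x Z (mv _ cs) (hZ.trans (List.length_map _).symm), h4,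
        prE_ext _ _ Z cs hZ]
      simp only [ff]
      ring

/-- the product of a list of functions -/
def pf (fs : List (S → ℝ)) : S → ℝ := fun y => (fs.map fun g => g y).prod

theorem legs_cons [DecidableEq ι] {β : Type} (p : ι × β) (W : List (ι × β)) (a : ι) :
    legs (p :: W) a = if p.1 = a then p.2 :: legs W a else legs W a := by
  unfold legs
  split_ifs with h <;> simp [h]

theorem legs_append [DecidableEq ι] {β : Type} (W W' : List (ι × β)) (a : ι) :
    legs (W ++ W') a = legs W a ++ legs W' a := by simp [legs]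

theorem pm_eq [Fintype ι] [DecidableEq ι] (x : ι → S) : ∀ W : List (ι × (S → ℝ)),
    pm W x = ∏ a, pf (legs W a) (x a)
  | [] => by simp [pm, pf, legs]
  | p :: W => by
      have h : ∀ a, pf (legs (p :: W) a) (x a) =
          (if p.1 = a then p.2 (x a) else 1) * pf (legs W a) (x a) := fun a => by
        rw [legs_cons]; split_ifs <;> simp [pf]
      simp only [h, Finset.prod_mul_distrib, Finset.prod_ite_eq, Finset.mem_univ, if_true,
        ← pm_eq x W]
      simp [pm]

/-- the site kernels are `f ⊗ f` on the low levels -/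
def Sq (i : ℕ) (Z : List (ℕ → S → S → ℝ)) (fs : List (S → ℝ)) : Prop :=
  List.Forall₂ (fun K f => ∀ j ≤ i, ∀ a b, K j a b = f a * f b) Z fs

theorem prE_sq {e : t.Lf → s.Lf} (H : Sk i M t s e) (hs : Sep i t) (hi : i < M.length)
    (x : s.Lf → S) : ∀ {E : List (Ed t.Lf)} {cs : EL s}, List.Forall₂ (At i M.length s e) E cs →
    (∀ d ∈ E, d.p ≠ d.q) → ∀ {Z : List (ℕ → S → S → ℝ)} {fs : List (S → ℝ)}, Sq i Z fs →
    prE M.length Z cs x = prE M.length (fs.map ff) cs x
  | _, _, .nil, _, _, _, _ => by simp [prE]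
  | _, _, .cons _ _, _, _, _, .nil => rfl
  | d :: E, c :: cs, .cons h h', hE, _, _, .cons k k' => by
      have := h.lev H hs hi (hE d List.mem_cons_self)
      rw [List.map_cons, prE_cons, prE_cons, k _ (this.1.trans_le this.2),
        prE_sq H hs hi x h' (fun d hd => hE d (List.mem_cons_of_mem _ hd)) k']
      rfl

/-- plain low edges -/
def Pl (E : List (Ed ι)) : Prop := ∀ d ∈ E, (d.op.Lo ∧ d.oq.Lo) ∧ d.p ≠ d.q

theorem Pl.hi {E : List (Ed ι)} (h : Pl E) (i n : ℕ) : ∀ d ∈ E, d.Hi i n :=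
  fun d hd => ⟨(h d hd).1.1.hi _ _, (h d hd).1.2.hi _ _⟩

variable [Fintype S] {w : S → ℝ} {L : List (Lv S)}

/-- **site factor, no marked pair** -/
theorem LE_site (hw : Wt w) (hL : M.map Lv.m = L.map Lv.m) (h : S → ℝ) (hs : Sep i t)
    (ht : t.dep ≤ i) (hi : i < M.length) {E : List (Ed t.Lf)} (hE : Pl E)
    {Z : List (ℕ → S → S → ℝ)} {fs : List (S → ℝ)} (hZ : Sq i Z fs) (hl : E.length = fs.length) :
    LE ε i M E (cs' (PhiS M.length (TEf w L h) Z)) t id [] = SK w t L i (fun a =>
      GC ε w (L.drop i) (pf (legs (ends false E fs) a)) (legs (ends true E fs) a)) h := by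
  rw [LE_congr' (Ψ := cs' (PhiS M.length (TEf w L h) Z))
    (Ψ' := cs' (PhiS M.length (TEf w L h) ([] ++ fs.map ff))) E [] (hE.hi _ _) t id []
    Rch.nil fun s e cs H => congrArg (TEf w L h s) (funext fun x =>
      prE_sq H.sk hs hi x H.ends (fun d hd => (hE d hd).2) hZ),
    LE_LW _ E fs (fun d hd => (hE d hd).1) hl [] t id [] rfl, LW_tilt hL,
    ← LW_SK hw t L i ht (Cav22.len_tilt hL ▸ hi.le)]
  exact congrArg (LW ε i L _ _ t id) (funext fun x => by rw [prE_nil, one_mul, pm_eq]; rfl)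

/-- **value of the marked cluster**: a pair split at depth `r` with the kernel `Q`, legs `fs` -/
def GM (ε : ℝ) (w : S → ℝ) (B : List (Lv S)) (r : ℕ) (Q : S → S → ℝ) (fs : List (S → ℝ))
    (z : S → ℝ) : ℝ :=
  LW ε 0 B (fs.map fun g => ((), g)) (cst (TEf w B z)) (.two r) (fun _ => Sh.twoL r) (pr2 r Q)

theorem LW_two_TE (hw : Wt w) (W : List (ι × (S → ℝ))) (r : ℕ) (Q : S → S → ℝ) :
    ∀ (i : ℕ) (L : List (Lv S)) (h : S → ℝ), i ≤ L.length →
    LW ε i L W (cst (TEf w L h)) (.two (r + i)) (fun _ => Sh.twoL (r + i)) (pr2 (r + i) Q) =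
      node w L i (fun z => LW ε 0 (L.drop i) W (cst (TEf w (L.drop i) z)) (.two r)
        (fun _ => Sh.twoL r) (pr2 r Q)) h
  | 0, L, h, _ => by rw [node_zero]; rfl
  | i + 1, l :: L, h, hi => by
      refine (LW_step_TE hw l L h W (.two (r + i)) _ _).trans ?_
      rw [node_cons]
      exact congrArg (fun Ψ => tE l (X w L) Ψ h)
        (funext fun z => LW_two_TE hw W r Q i L z (Nat.le_of_succ_le_succ hi))

theorem LW_SKm (hw : Wt w) (r : ℕ) (Q : S → S → ℝ) : ∀ (t : Sh) (L : List (Lv S)) (i : ℕ),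
    t.dep ≤ i → i ≤ L.length → ∀ (m : t.Lf) (W : List (t.Lf × (S → ℝ))) (f : t.Lf → S → ℝ)
    (h : S → ℝ), LW ε i L W (cst (TEf w L h)) (t.graft m (r + i)) (t.emb m (r + i))
      (fun x => Q (x (t.emb m (r + i) m)) (x (t.nw m (r + i))) * ∏ a, f a (x (t.emb m (r + i) a))) =
      SK w t L i (fun a => if a = m then GM ε w (L.drop i) r (fun x y => Q x y * f m x) (legs W a)
        else GC ε w (L.drop i) (f a) (legs W a)) h
  | .one, L, i, _, hi, m, W, f, h => by
      refine Eq.trans (congrArg (LW ε i L W _ (.two (r + i)) _) (funext fun x =>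
        congrArg (_ * ·) (Fintype.prod_unique (ι := Unit) _)))
        ((LW_two_TE hw W r (fun x y => Q x y * f m x) i L h hi).trans
          (congrArg (fun Ψ => node w L i Ψ h) ?_))
      refine Eq.trans (funext fun z => ?_) (if_pos (c := (() : Sh.one.Lf) = m) rfl).symm
      exact congrArg (fun V => LW ε 0 (L.drop i) V (cst (TEf w (L.drop i) z)) (.two r) _ _)
        (legs_unit W).symm
  | .step _, _, 0, hd, _, _, _, _, _ => absurd hd (Nat.not_succ_le_zero _)
  | .step _, [], _ + 1, _, hi, _, _, _, _ => absurd hi (Nat.not_succ_le_zero _)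
  | .step t, l :: L, i + 1, hd, hi, m, W, f, h => by
      refine (LW_step_TE hw l L h W (t.graft m (r + i)) _ _).trans
        (congrArg (fun Ψ => tE l (X w L) Ψ h) ?_)
      exact funext fun z => LW_SKm hw r Q t L i (Nat.le_of_succ_le_succ hd)
        (Nat.le_of_succ_le_succ hi) m W f z
  | .split s t, L, i, hd, hi, .inl m, W, f, h => by
      have h1 := LW_split (ε := ε) (i := i) L (TEf_split hw L h) W (s.graft m (r + i)) t
        (s.emb m (r + i)) id (fun x => Q (x (s.emb m (r + i) m)) (x (s.nw m (r + i))) *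
          ∏ a, f (.inl a) (x (s.emb m (r + i) a))) fun x => ∏ a, f (.inr a) (x a)
      rw [LW_SKm hw r Q s L i ((le_max_left _ _).trans hd) hi,
        LW_SK hw t L i ((le_max_right _ _).trans hd) hi] at h1
      refine Eq.trans (congrArg (LW ε i L W _ _ _) (funext fun x => ?_)) (h1.trans
        (congrArg₂ (fun Ψ Ψ' => SK w s L i Ψ h * SK w t L i Ψ' h) (funext fun a => ?_)
          (funext fun a => ?_)))
      · exact (congrArg (_ * ·) (Fintype.prod_sum_type (α₁ := s.Lf) (α₂ := t.Lf) _)).trans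
          (mul_assoc _ _ _).symm
      · by_cases e : a = m
        · exact (if_pos e).trans ((congrArg _ (legs_lft a W)).trans (if_pos (congrArg _ e)).symm)
        · exact (if_neg e).trans ((congrArg _ (legs_lft a W)).trans
            (if_neg fun u => e (Sum.inl_injective u)).symm)
      · exact (congrArg _ (legs_rgt a W)).trans (if_neg Sum.inr_ne_inl).symm
  | .split s t, L, i, hd, hi, .inr m, W, f, h => by
      have h1 := LW_split (ε := ε) (i := i) L (TEf_split hw L h) W s (t.graft m (r + i))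
        id (t.emb m (r + i)) (fun x => ∏ a, f (.inl a) (x a)) fun x =>
          Q (x (t.emb m (r + i) m)) (x (t.nw m (r + i))) * ∏ a, f (.inr a) (x (t.emb m (r + i) a))
      rw [LW_SKm hw r Q t L i ((le_max_right _ _).trans hd) hi,
        LW_SK hw s L i ((le_max_left _ _).trans hd) hi] at h1
      refine Eq.trans (congrArg (LW ε i L W _ _ _) (funext fun x => ?_)) (h1.trans
        (congrArg₂ (fun Ψ Ψ' => SK w s L i Ψ h * SK w t L i Ψ' h) (funext fun a => ?_)
          (funext fun a => ?_)))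
      · exact (congrArg (_ * ·) (Fintype.prod_sum_type (α₁ := s.Lf) (α₂ := t.Lf) _)).trans
          (mul_left_comm _ _ _)
      · exact (congrArg _ (legs_lft a W)).trans (if_neg Sum.inl_ne_inr).symm
      · by_cases e : a = m
        · exact (if_pos e).trans ((congrArg _ (legs_rgt a W)).trans (if_pos (congrArg _ e)).symm)
        · exact (if_neg e).trans ((congrArg _ (legs_rgt a W)).trans
            (if_neg fun u => e (Sum.inr_injective u)).symm)

/-- the marked pair in the cluster `m` -/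
def em (m : ι) (k : ℕ) : Ed ι := ⟨m, m, .fix, .gr k⟩

/-- **site factor with a marked pair** in the cluster `m`, split at the depth `r + i` -/
theorem LE_siteM (hw : Wt w) (hL : M.map Lv.m = L.map Lv.m) (h : S → ℝ) (hs : Sep i t)
    (ht : t.dep ≤ i) {r : ℕ} (hr : 0 < r) (hi : r + i ≤ M.length) (m : t.Lf) {E : List (Ed t.Lf)}
    (hE : Pl E) (K : ℕ → S → S → ℝ) {Z : List (ℕ → S → S → ℝ)} {fs : List (S → ℝ)} (hZ : Sq i Z fs)
    (hl : E.length = fs.length) :
    LE ε i M (em m (r + i) :: E) (cs' (PhiS M.length (TEf w L h) (K :: Z))) t id [] =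
      SK w t L i (fun a => if a = m then GM ε w (L.drop i) r
          (fun x y => K (r + i) x y * pf (legs (ends false E fs) m) x) (legs (ends true E fs) a)
        else GC ε w (L.drop i) (pf (legs (ends false E fs) a)) (legs (ends true E fs) a)) h := by
  have hi' : i < M.length := by omega
  rw [LE_congr' (Ψ := cs' (PhiS M.length (TEf w L h) (K :: Z)))
      (Ψ' := cs' (PhiS M.length (TEf w L h) ([K] ++ fs.map ff))) _ [] (fun d hd =>
      (List.mem_cons.1 hd).elim (fun e => by rw [e]; exact ⟨trivial, by omega, hi⟩) (hE.hi _ _ d))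
      t id [] Rch.nil fun s e cs H => congrArg (TEf w L h s) (funext fun x => ?_)]
  · refine (LE_LW _ E fs (fun d hd => (hE d hd).1) hl [K] (t.graft m (r + i)) (t.emb m (r + i))
      [(t.emb m (r + i) m, t.nw m (r + i))] rfl).trans ?_
    rw [LW_tilt hL]
    refine Eq.trans (congrArg (LW ε i L _ _ _ _) (funext fun x => ?_)) (LW_SKm hw r (K (r + i)) t L i
      ht (Cav22.len_tilt hL ▸ hi'.le) m _ (fun a => pf (legs (ends false E fs) a)) h)
    rw [prE_cons, prE_nil, mul_one, pm_eq, shr_nw, shr_self, min_eq_left hi]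
  · obtain ⟨H1, H2, -⟩ := H
    cases H2 with
    | cons h1 h2 =>
      rw [List.singleton_append, prE_cons, prE_cons,
        prE_sq H1 hs hi' x h2 (fun d hd => (hE d hd).2) hZ]

/-! ### skeleton form -/

/-- number of ends at `a` that are legs (`b = true`) or fixed (`b = false`) -/
def cnt [DecidableEq ι] (b : Bool) (E : List (Ed ι)) (a : ι) : ℕ := (E.map fun d =>
  (if d.oq.lg = b ∧ d.q = a then 1 else 0) + if d.op.lg = b ∧ d.p = a then 1 else 0).sum

theorem legs_ends [DecidableEq ι] (b : Bool) (f : Ω → ℝ) (a : ι) : ∀ E : List (Ed ι),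
    legs (ends b E (List.replicate E.length f)) a = List.replicate (cnt b E a) f
  | [] => rfl
  | d :: E => by
      have h : ∀ (o : Md) (x : ι), legs (if o.lg = b then [(x, f)] else []) a =
          List.replicate (if o.lg = b ∧ x = a then 1 else 0) f := fun o x => by
        by_cases h1 : o.lg = b <;> by_cases h2 : x = a <;> simp [h1, h2, legs]
      rw [List.length_cons, List.replicate_succ, ends, legs_append, legs_append, legs_ends b f a E,
        h, h, List.replicate_append_replicate, List.replicate_append_replicate, ← add_assoc]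
      rfl

theorem cnt_add (E : List (Ed t.Lf)) (a : t.Lf) :
    cnt true E a + cnt false E a = Y20.dgE (sk E) a := by
  induction E with
  | nil => rfl
  | cons d E ih =>
    have h : ∀ (o : Md) (x : t.Lf), ((if o.lg = true ∧ x = a then 1 else 0) +
        if o.lg = false ∧ x = a then 1 else 0) = if x = a then 1 else 0 := fun o x => by
      cases o.lg <;> simp
    have h1 := h d.op d.p
    have h2 := h d.oq d.q
    have h3 := Y20.dgE_cons d.p d.q (sk E) a
    simp only [cnt, List.map_cons, List.sum_cons] at ih ⊢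
    change Y20.dgE (sk (d :: E)) a = _ at h3
    omega

theorem LM.cov {τ : GT t} {op oq : Bool} (H : LM i n t τ op oq) (y : τ.sh.Lf) :
    (∃ x, y = τ.e x) ∨ (op = false ∧ y = τ.p) ∨ (oq = false ∧ y = τ.q) := by
  cases H with
  | g0 => exact .inl ⟨y, rfl⟩
  | g1 a b => exact (graft_cases _ _ _ y).imp_right fun h => .inr ⟨rfl, h⟩
  | g1' a b => exact (graft_cases _ _ _ y).imp_right fun h => .inl ⟨rfl, h⟩
  | g2 a b =>
    rcases graft_cases _ _ _ y with ⟨z, rfl⟩ | h
    · rcases graft_cases _ _ _ z with ⟨z, rfl⟩ | rfl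
      · exact .inl ⟨z, rfl⟩
      · exact .inr (.inr ⟨rfl, rfl⟩)
    · exact .inr (.inl ⟨rfl, h⟩)
  | g3 a =>
    rcases graft_cases _ _ _ y with ⟨z, rfl⟩ | h
    · rcases graft_cases _ _ _ z with ⟨z, rfl⟩ | rfl
      · exact .inl ⟨z, rfl⟩
      · exact .inr (.inl ⟨rfl, rfl⟩)
    · exact .inr (.inr ⟨rfl, h⟩)

/-- the invariant of the skeleton: plain edges, one fixed end on every cluster but the marked one -/
structure Inv (i : ℕ) (t : Sh) (o : Option t.Lf) (E : List (Ed t.Lf)) : Prop where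
  sep : Sep i t
  dep : t.dep ≤ i
  pl : Pl E
  fx : ∀ a, cnt false E a = if o = some a then 0 else 1

theorem md_lo : ∀ b, (md b).Lo
  | true => trivial
  | false => trivial

theorem md_lg : ∀ b, (md b).lg = b
  | true => rfl
  | false => rfl

theorem Inv.nx {o : Option t.Lf} {E : List (Ed t.Lf)} (h : Inv i t o E) {τ : GT t} {op oq : Bool}
    (H : LM i n t τ op oq) : Inv i τ.sh (o.map τ.e) (nx τ op oq E) := by
  refine ⟨H.sep h.sep, H.dep h.dep, fun d hd => ?_, fun y => ?_⟩
  · rcases List.mem_append.1 hd with hd | hd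
    · obtain ⟨d, hd', rfl⟩ := List.mem_map.1 hd
      exact ⟨(h.pl d hd').1, fun e => (h.pl d hd').2 (Y20.LM.inj H e)⟩
    · rw [List.mem_singleton.1 hd]
      exact ⟨⟨md_lo _, md_lo _⟩, Y20.LM.ne H⟩
  · have h1 : cnt false (Low51.nx τ op oq E) y = cnt false (E.map (Ed.map τ.e)) y +
        ((if oq = false ∧ τ.q = y then 1 else 0) + if op = false ∧ τ.p = y then 1 else 0) := by
      simp [cnt, Low51.nx, md_lg]
    have h2 : (∀ x, τ.e x ≠ y) → cnt false (E.map (Ed.map τ.e)) y = 0 ∧ o.map τ.e ≠ some y :=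
      fun hy => ⟨by simp [cnt, Ed.map, hy, Function.comp_def], by cases o <;> simp [hy]⟩
    have hne := Y20.LM.ne H
    rw [h1]
    rcases LM.cov H y with ⟨x, rfl⟩ | ⟨rfl, rfl⟩ | ⟨rfl, rfl⟩
    · have h3 : cnt false (E.map (Ed.map τ.e)) (τ.e x) = cnt false E x := by
        simp [cnt, Ed.map, (Y20.LM.inj H).eq_iff, Function.comp_def]
      rw [h3, h.fx, if_neg (c := oq = false ∧ _) fun e => Y20.LM.newq (e.1 ▸ H) x e.2.symm,
        if_neg (c := op = false ∧ _) fun e => Y20.LM.newp (e.1 ▸ H) x e.2.symm]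
      cases o <;> simp [(Y20.LM.inj H).eq_iff]
    · have := h2 (Y20.LM.newp H)
      simp [this.1, this.2, hne.symm]
    · have := h2 (Y20.LM.newq H)
      simp [this.1, this.2, hne]

theorem inv_two {j : ℕ} (hj : j ≤ i) : Inv i (.two j) none [e2 j] := by
  have h : Sh.twoL j ≠ Sh.twoR j := emb_ne .one () j ()
  refine ⟨sep_two hj, dep_two hj, fun d hd => ?_, fun a => ?_⟩
  · rw [List.mem_singleton.1 hd]
    exact ⟨⟨trivial, trivial⟩, h⟩
  · rcases graft_cases .one () j a with ⟨_, rfl⟩ | rfl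
    · change cnt false [e2 j] (Sh.twoL j) = _
      simp [cnt, e2, Md.lg, h.symm]
    · change cnt false [e2 j] (Sh.twoR j) = _
      simp [cnt, e2, Md.lg, h]

theorem inv_one (i : ℕ) : Inv i .one (some ()) [] :=
  ⟨sep_one i, Nat.zero_le _, fun _ h => absurd h List.not_mem_nil, fun _ => rfl⟩

theorem sk_nx (τ : GT t) (op oq : Bool) (E : List (Ed t.Lf)) :
    sk (nx τ op oq E) = Y20.nx τ (sk E) := by
  simp only [sk, nx, Y20.nx, List.map_append, List.map_map]
  rfl

theorem len_nx (τ : GT t) (op oq : Bool) (E : List (Ed t.Lf)) :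
    (nx τ op oq E).length = E.length + 1 := by simp [nx]

/-- **skeleton form, value** -/
theorem CW_stp (hi : i < M.length) {Φ : EF} {V : Y20.VF} {N : ℕ}
    (h : ∀ t m E, Inv i t none E → E.length = N → LE ε i M E (cs' Φ) t id [] = V t m (sk E)) :
    ∀ (k : ℕ) (t : Sh) (m : t.Lf) (E : List (Ed t.Lf)), Inv i t none E → E.length + k = N →
    CW ε i M Φ (List.replicate k (lo i)) t E = (Y20.stp ε i M)^[k] V t m (sk E)
  | 0, t, m, E, H, hN => h t m E H hN
  | k + 1, t, m, E, H, hN => by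
      rw [Function.iterate_succ_apply', List.replicate_succ, CW]
      refine lsg_congr fun τ op oq hτ => ?_
      rw [lo, if_pos (Lsg89.LM.j_le hτ H.sep hi), one_mul, ← sk_nx τ op oq]
      exact CW_stp hi h k _ _ _ (H.nx hτ) (by rw [len_nx]; omega)

/-- **skeleton form, marked pair** at the depth `r` in the cluster `m` -/
theorem CW_stpM (hi : i < M.length) {Φ : EF} {V : Y20.VF} {N r : ℕ}
    (h : ∀ t m E, Inv i t (some m) E → E.length = N →
      LE ε i M (em m r :: E) (cs' Φ) t id [] = V t m (sk E)) :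
    ∀ (k : ℕ) (t : Sh) (m : t.Lf) (E : List (Ed t.Lf)), Inv i t (some m) E → E.length + k = N →
    CW ε i M Φ (List.replicate k (lo i)) t (em m r :: E) = (Y20.stp ε i M)^[k] V t m (sk E)
  | 0, t, m, E, H, hN => h t m E H hN
  | k + 1, t, m, E, H, hN => by
      rw [Function.iterate_succ_apply', List.replicate_succ, CW]
      refine lsg_congr fun τ op oq hτ => ?_
      rw [lo, if_pos (Lsg89.LM.j_le hτ H.sep hi), one_mul, ← sk_nx τ op oq]
      exact CW_stpM hi h k _ _ (nx τ op oq E) (H.nx hτ) (by rw [len_nx]; omega)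

section spin
open Crest.ProbabilityR.SpinGlassDynamics (spin)
open One15 (xs w1)

variable {T : List (Lv Bool)}

theorem pf_one (f : Ω → ℝ) : pf (List.replicate 1 f) = f := funext fun y => by simp [pf]

/-- **spin edges, value**: a cluster of degree `d` has the value `gs (d - 1)` -/
theorem site_val (hL : M.map Lv.m = T.map Lv.m) (hi : i < M.length) {E : List (Ed t.Lf)}
    (H : Inv i t none E) {Z : List (ℕ → Bool → Bool → ℝ)}
    (hZ : Sq i Z (List.replicate E.length spin)) (h : Bool → ℝ) :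
    LE (-1) i M E (cs' (PhiS M.length (TEf (fun _ => 1) T h) Z)) t id [] =
      SK (fun _ => 1) t T i (fun a z => gs (T.drop i) (Y20.dgE (sk E) a - 1) (xs z)) h := by
  rw [LE_site w1 hL h H.sep H.dep hi H.pl hZ (List.length_replicate).symm]
  refine congrArg (fun Ψ => SK _ t T i Ψ h) (funext fun a => funext fun z => ?_)
  rw [legs_ends, legs_ends, ← cnt_add, H.fx, if_neg (by simp), pf_one, GC_spin, Nat.add_sub_cancel]

/-- **spin edges, marked pair**: the marked cluster has the value `MG` -/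
theorem site_mark (hL : M.map Lv.m = T.map Lv.m) {r : ℕ} (hr : 0 < r) (hi : r + i ≤ M.length)
    {m : t.Lf} {E : List (Ed t.Lf)} (H : Inv i t (some m) E) (K : ℕ → Bool → Bool → ℝ)
    {Z : List (ℕ → Bool → Bool → ℝ)} (hZ : Sq i Z (List.replicate E.length spin)) (h : Bool → ℝ) :
    LE (-1) i M (em m (r + i) :: E) (cs' (PhiS M.length (TEf (fun _ => 1) T h) (K :: Z))) t id [] =
      SK (fun _ => 1) t T i (fun a z => if a = m then
        Lsg89.MG (T.drop i) (.two r) (pr2 r (K (r + i))) (Y20.dgE (sk E) a) (xs z • spin)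
        else gs (T.drop i) (Y20.dgE (sk E) a - 1) (xs z)) h := by
  rw [LE_siteM w1 hL h H.sep H.dep hr hi m H.pl K hZ (List.length_replicate).symm]
  refine congrArg (fun Ψ => SK _ t T i Ψ h) (funext fun a => funext fun z => ?_)
  split_ifs with e
  · rw [legs_ends, legs_ends, ← cnt_add, e, H.fx, if_pos rfl, add_zero, ← Lsg89.MG_xs, GM,
      Lsg89.MG, List.map_replicate, Wt87.fst_two]
    exact congrArg (LW _ _ _ _ _ _ _) (congrArg (pr2 r) (funext fun x => funext fun y => by
      simp [pf]))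
  · rw [legs_ends, legs_ends, ← cnt_add, H.fx, if_neg (fun u => e (Option.some.inj u).symm),
      pf_one, GC_spin, Nat.add_sub_cancel]

end spin

end Low51

end Crest.Agent.T156.Cas
end
private theorem rz_f7ffac4718 : type_of% @_root_.Crest.Agent.T156.Cas.Low51.Md.lg.eq_1 := @_root_.Crest.Agent.T156.Cas.Low51.Md.lg.eq_1 -- L231
private theorem rz_876ee069e1 : type_of% @_root_.Crest.Agent.T156.Cas.Low51.ends.eq_def := @_root_.Crest.Agent.T156.Cas.Low51.ends.eq_def -- L247
private theorem rz_3bc76356c9 : type_of% @_root_.Crest.Agent.T156.Cas.Low51.ends.eq_1 := @_root_.Crest.Agent.T156.Cas.Low51.ends.eq_1 -- L247
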