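import Crest.Agent.T156.CY4A_89
import Crest.Agent.T156.LowB_51
import Crest.Agent.T156.CluB_22
import Crest.Agent.T156.CLad_90
import Crest.Agent.T156.CY4B_89
import Crest.Agent.T156.CYh_14
import Crest.Agent.T156.CKit_32
import Crest.Agent.T156.Ker_15

-- ▼ part T156/CMxU_14
section

/-!
# Row 156 (helper14): an upper letter on a cluster, low letters on any tree

`usg` is the part of `sg` with all grafts above the cut; `St_old`, `St_one` expand one low letter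
on a tree with two clusters or one cluster; `LW_gr`, `LW_gr2` evaluate legs on two clusters.
-/

set_option autoImplicit false
set_option linter.all false

noncomputable section

namespace Crest.Agent.T156.Cas.Mx14

open MeasureTheory Real Set Filter Topology
open Crest.Agent.T157.E Crest.Agent.T157.Casc Crest.Agent.T157.SL
open Wt87 (shr_emb shr_nw shr_nw' shr_self shr_comm shr_le shr_congr shr_min card_graft shr_zero)
open Leg51 Low51 Lsg89

variable {Ω S Θ Θ' ι : Type} {ε : ℝ} {i n : ℕ} {M : List (Lv Θ)} {t s u : Sh}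

/-! ### the upper part of a graft sum -/

/-- all grafts above the cut -/
def usg (ε : ℝ) (i : ℕ) (M : List (Lv Θ)) (s : Sh) (Φ : GT s → ℝ) : ℝ :=
  ∑ a, ∑ b ∈ Finset.univ.erase a, Φ (.g0 s M.length a b) +
  ε * ∑ a, ∑ j ∈ Finset.Ioc i M.length, cw s M a j *
    (∑ b, Φ (.g1 s a j b) + ∑ b, Φ (.g1' s a j b)) +
  ∑ a, ∑ j ∈ Finset.Ioc i M.length, cw s M a j *
    (∑ b, ∑ k ∈ Finset.Ioc i M.length, cw s M b k * Φ (.g2 s a j b k) +
      ∑ r ∈ Finset.range (M.length - j + 1), dm (M.drop j) 0 r * Φ (.g3 s a j r))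

/-- a new cluster carries both ends -/
def low3 (i : ℕ) (M : List (Lv Θ)) (s : Sh) (Φ : GT s → ℝ) : ℝ :=
  ∑ a, ∑ y ∈ Finset.range (i + 1), cw s M a y *
    ∑ r ∈ Finset.range (M.length - y + 1), dm (M.drop y) 0 r * Φ (.g3 s a y r)

theorem sg_up (hi : i ≤ M.length) {Φ : GT s → ℝ} (h : ∀ τ : GT s, τ.j ≤ i → Φ τ = 0) :
    sg ε M s Φ = usg ε i M s Φ + low3 i M s Φ := by
  have rg : ∀ {j}, j ∈ Finset.range (i + 1) → j ≤ i := fun h =>
    Nat.lt_succ_iff.1 (Finset.mem_range.1 h)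
  rw [sg, usg, low3, add_assoc, add_assoc, add_assoc, ← Finset.sum_add_distrib]
  refine ac rfl (ac (mc (Finset.sum_congr rfl fun a _ => ?_)) (Finset.sum_congr rfl fun a _ => ?_))
  · rw [sum_rng hi, Finset.sum_eq_zero fun j hj => ?_, zero_add]
    rw [Finset.sum_eq_zero fun b _ => h _ ((shr_le _ _ _ _).trans (rg hj)),
      Finset.sum_eq_zero fun b _ => h _ ((shr_le _ _ _ _).trans (rg hj)), add_zero, mul_zero]
  · rw [sum_rng hi, add_comm]
    refine ac (Finset.sum_congr rfl fun j _ => mc (ac (Finset.sum_congr rfl fun b _ => ?_) rfl))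
      (Finset.sum_congr rfl fun j hj => mc ?_)
    · rw [sum_rng hi, Finset.sum_eq_zero fun k hk => ?_, zero_add]
      rw [h _ ((shr_le _ _ _ _).trans ((min_le_right _ _).trans (rg hk))), mul_zero]
    · rw [Finset.sum_eq_zero fun b _ => Finset.sum_eq_zero fun k _ => ?_, zero_add]
      rw [h _ ((shr_le _ _ _ _).trans ((min_le_left _ _).trans (rg hj))), mul_zero]

/-- the terms of `usg` -/
def UM (n : ℕ) (s : Sh) (τ : GT s) : Prop := τ.Mem s n ∧ τ.sh.br = s.br ∧ τ.e s.fst = τ.sh.fst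

theorem um1 (a b : s.Lf) {j : ℕ} (hj : j ∈ Finset.Ioc i n) :
    UM n s (.g1 s a j b) ∧ UM n s (.g1' s a j b) := by
  obtain ⟨h1, h2⟩ := Finset.mem_Ioc.1 hj
  have e : (s.graft a j).br = s.br := by rw [Wt87.br_graft, if_neg (by omega), add_zero]
  exact ⟨⟨.g1 a b h2, e, (Wt87.fst_graft _ _ _).symm⟩, ⟨.g1' a b h2, e, (Wt87.fst_graft _ _ _).symm⟩⟩

theorem um2 (a b : s.Lf) {j k : ℕ} (hj : j ∈ Finset.Ioc i n) (hk : k ∈ Finset.Ioc i n) :
    UM n s (.g2 s a j b k) := by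
  obtain ⟨h1, h2⟩ := Finset.mem_Ioc.1 hj
  obtain ⟨h3, h4⟩ := Finset.mem_Ioc.1 hk
  refine ⟨.g2 a b h2 h4, ?_, ?_⟩
  · show ((s.graft b k).graft _ j).br = _
    rw [Wt87.br_graft, Wt87.br_graft, if_neg (by omega), if_neg (by omega)]
    rfl
  · show _ = ((s.graft b k).graft _ j).fst
    rw [Wt87.fst_graft, Wt87.fst_graft]
    rfl

theorem um3 (a : s.Lf) {j r : ℕ} (hj : j ∈ Finset.Ioc i n) (hr : r ∈ Finset.range (n - j + 1)) :
    UM n s (.g3 s a j r) := by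
  obtain ⟨h1, h2⟩ := Finset.mem_Ioc.1 hj
  have h3 := Finset.mem_range.1 hr
  refine ⟨.g3 a (by omega), ?_, ?_⟩
  · show ((s.graft a j).graft _ (r + j)).br = _
    rw [Wt87.br_graft, Wt87.br_graft, if_neg (by omega), if_neg (by omega)]
    rfl
  · show _ = ((s.graft a j).graft _ (r + j)).fst
    rw [Wt87.fst_graft, Wt87.fst_graft]
    rfl

theorem usg_add (Φ Ψ : GT s → ℝ) :
    usg ε i M s (fun τ => Φ τ + Ψ τ) = usg ε i M s Φ + usg ε i M s Ψ := by
  simp only [usg, mul_add, Finset.sum_add_distrib]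
  ring

theorem usg_mul (c : ℝ) (Φ : GT s → ℝ) : usg ε i M s (fun τ => c * Φ τ) = c * usg ε i M s Φ := by
  simp only [usg, mul_add, Finset.mul_sum, mul_left_comm c]

theorem usg_tilt {M' : List (Lv Θ')} (H : M.map Lv.m = M'.map Lv.m) (Φ : GT s → ℝ) :
    usg ε i M s Φ = usg ε i M' s Φ := by
  simp only [usg, Cav22.cw_tilt s H, Cav22.len_tilt H,
    fun j => Cav22.dm_tilt (Cav22.drop_tilt H j)]

theorem abs_wsum {α : Type} (A : Finset α) {c X Y : α → ℝ} (hc : ∀ a, 0 ≤ c a)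
    (h : ∀ a ∈ A, |X a| ≤ Y a) : |∑ a ∈ A, c a * X a| ≤ ∑ a ∈ A, c a * Y a :=
  (Finset.abs_sum_le_sum_abs _ _).trans (Finset.sum_le_sum fun a ha => by
    rw [abs_mul, abs_of_nonneg (hc a)]
    exact mul_le_mul_of_nonneg_left (h a ha) (hc a))

theorem abs_usum {α : Type} (A : Finset α) {X Y : α → ℝ} (h : ∀ a ∈ A, |X a| ≤ Y a) :
    |∑ a ∈ A, X a| ≤ ∑ a ∈ A, Y a :=
  (Finset.abs_sum_le_sum_abs _ _).trans (Finset.sum_le_sum h)

theorem abs_usg_le (hM : Mono 0 M) {Φ Ψ : GT s → ℝ} (h : ∀ τ, UM M.length s τ → |Φ τ| ≤ Ψ τ) :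
    |usg (-1) i M s Φ| ≤ usg 1 i M s Ψ := by
  refine (abs_add_three _ _ _).trans (add_le_add (add_le_add ?_ ?_) ?_)
  · exact abs_usum _ fun a _ => abs_usum _ fun b hb =>
      h _ ⟨.g0 (Finset.ne_of_mem_erase hb), rfl, rfl⟩
  · rw [neg_one_mul, abs_neg, one_mul]
    exact abs_usum _ fun a _ => abs_wsum _ (cw_nonneg s hM a) fun j hj => (abs_add_le _ _).trans
      (add_le_add (abs_usum _ fun b _ => h _ (um1 a b hj).1) (abs_usum _ fun b _ => h _ (um1 a b hj).2))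
  · exact abs_usum _ fun a _ => abs_wsum _ (cw_nonneg s hM a) fun j hj => (abs_add_le _ _).trans
      (add_le_add (abs_usum _ fun b _ => abs_wsum _ (cw_nonneg s hM b) fun k hk => h _ (um2 a b hj hk))
        (abs_wsum _ (dm_nonneg (Cav22.mono_drop j hM)) fun r hr => h _ (um3 a hj hr)))

theorem usg_le_sg (hM : Mono 0 M) (hi : i ≤ M.length) {G : ℕ → ℝ} (h0 : ∀ j, 0 ≤ G j)
    (h : ∀ j ≤ i, G j = 0) : usg 1 i M s (fun τ => G τ.j) ≤ sg 1 M s fun τ => G τ.j := by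
  rw [sg_up hi fun τ hτ => h _ hτ]
  exact le_add_of_nonneg_right (Finset.sum_nonneg fun a _ => Finset.sum_nonneg fun y _ =>
    mul_nonneg (cw_nonneg s hM a y) (Finset.sum_nonneg fun r _ =>
      mul_nonneg (dm_nonneg (Cav22.mono_drop y hM) r) (h0 _)))

theorem hasDerivAt_usg {F F' : GT s → ℝ → ℝ} {y : ℝ}
    (h : ∀ τ, UM M.length s τ → HasDerivAt (F τ) (F' τ y) y) :
    HasDerivAt (fun y => usg ε i M s fun τ => F τ y) (usg ε i M s fun τ => F' τ y) y := by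
  unfold usg
  refine HasDerivAt.fun_add (HasDerivAt.fun_add ?_ (HasDerivAt.const_mul ε ?_)) ?_
  · exact HasDerivAt.fun_sum fun a _ => HasDerivAt.fun_sum fun b hb =>
      h _ ⟨.g0 (Finset.ne_of_mem_erase hb), rfl, rfl⟩
  · refine HasDerivAt.fun_sum fun a _ => HasDerivAt.fun_sum fun j hj =>
      HasDerivAt.const_mul _ (HasDerivAt.fun_add ?_ ?_)
    · exact HasDerivAt.fun_sum fun b _ => h _ (um1 a b hj).1
    · exact HasDerivAt.fun_sum fun b _ => h _ (um1 a b hj).2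
  · refine HasDerivAt.fun_sum fun a _ => HasDerivAt.fun_sum fun j hj =>
      HasDerivAt.const_mul _ (HasDerivAt.fun_add ?_ ?_)
    · exact HasDerivAt.fun_sum fun b _ => HasDerivAt.fun_sum fun k hk =>
        HasDerivAt.const_mul _ (h _ (um2 a b hj hk))
    · exact HasDerivAt.fun_sum fun r hr => HasDerivAt.const_mul _ (h _ (um3 a hj hr))

/-- one more common level -/
def stG (τ : GT s) : GT (.step s) := ⟨.step τ.sh, τ.e, τ.j + 1, τ.p, τ.q⟩

theorem cw_step (s : Sh) (l : Lv Θ) (a : s.Lf) {k : ℕ} (hk : k ≠ 0) :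
    cw (.step s) (l :: M) a (k + 1) = cw s M a k :=
  (cw_pos (.step s) (l :: M) a (Nat.succ_ne_zero k)).trans ((cf_step s l M a k).trans
    (by rw [cw_pos _ _ _ hk, if_neg fun e => hk e.2, add_zero]))

theorem usg_step (l : Lv Θ) (Φ : GT (.step s) → ℝ) :
    usg ε (i + 1) (l :: M) (.step s) Φ = usg ε i M s fun τ => Φ (stG τ) := by
  have p : ∀ {k}, k ∈ Finset.Ioc i M.length → k ≠ 0 := fun hk => by
    have := (Finset.mem_Ioc.1 hk).1; omega
  refine ac (ac rfl (mc (Finset.sum_congr rfl fun a _ => (sum_Ioc_succ i M.length _).trans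
    (Finset.sum_congr rfl fun k hk => congrArg₂ (· * ·) (cw_step s l a (p hk)) rfl))))
    (Finset.sum_congr rfl fun a _ => (sum_Ioc_succ i M.length _).trans
      (Finset.sum_congr rfl fun j hj => congrArg₂ (· * ·) (cw_step s l a (p hj)) (ac
        (Finset.sum_congr rfl fun b _ => (sum_Ioc_succ i M.length _).trans
          (Finset.sum_congr rfl fun k hk => congrArg₂ (· * ·) (cw_step s l b (p hk)) ?_)) ?_)))
  · exact congrArg (fun m => Φ ⟨_, _, (Sh.step s).shr a b m, _, _⟩) (Nat.succ_min_succ j k)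
  · rw [List.length_cons, Nat.add_sub_add_right]
    rfl

/-- back to the leaves of `u` -/
def stJ (u : Sh) : (j : ℕ) → (u.stp j).Lf → u.Lf
  | 0, b => b
  | j + 1, b => stJ u j b

theorem stJ_stI (u : Sh) (b : u.Lf) : ∀ j, stJ u j (u.stI j b) = b
  | 0 => rfl
  | j + 1 => stJ_stI u b j

/-- `i` more common levels -/
def upG (τ : GT u) (i : ℕ) : GT (u.stp i) :=
  ⟨τ.sh.stp i, fun b => τ.sh.stI i (τ.e (stJ u i b)), τ.j + i, τ.sh.stI i τ.p, τ.sh.stI i τ.q⟩

theorem usg_stp : ∀ (i : ℕ) (M : List (Lv Θ)), i ≤ M.length → ∀ Φ : GT (u.stp i) → ℝ,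
    usg ε i M (u.stp i) Φ = usg ε 0 (M.drop i) u fun τ => Φ (upG τ i)
  | 0, _, _, _ => rfl
  | i + 1, l :: M, hi, Φ => (usg_step l Φ).trans
      (usg_stp i M (Nat.le_of_succ_le_succ hi) fun τ => Φ (stG τ))

/-- a tree with a pair -/
structure P2 where
  s : Sh
  a : s.Lf
  b : s.Lf

theorem two_stp (r : ℕ) : ∀ i, (⟨.two (r + i), Sh.twoL _, Sh.twoR _⟩ : P2) =
    ⟨(Sh.two r).stp i, Sh.stI _ i (Sh.twoL r), Sh.stI _ i (Sh.twoR r)⟩
  | 0 => rfl
  | i + 1 => congrArg (fun P : P2 => (⟨.step P.s, P.a, P.b⟩ : P2)) (two_stp r i)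

/-! ### skeletons -/

theorem shr_rep : ∀ (s : Sh) (j : ℕ) (a b : (s.cut j).Lf) (k : ℕ),
    s.shr (s.rep j a) (s.rep j b) k = (s.cut j).shr a b k
  | .one, _, _, _, _ => rfl
  | .step s, 0, _, _, k => shr_self (.step s) s.fst k
  | .step _, _ + 1, _, _, 0 => rfl
  | .step s, j + 1, a, b, k + 1 => congrArg (· + 1) (shr_rep s j a b k)
  | .split s t, 0, _, _, k => shr_self (.split s t) (.inl s.fst) k
  | .split s _, j + 1, .inl a, .inl b, k => shr_rep s (j + 1) a b k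
  | .split _ t, j + 1, .inr a, .inr b, k => shr_rep t (j + 1) a b k
  | .split _ _, _ + 1, .inl _, .inr _, _ => rfl
  | .split _ _, _ + 1, .inr _, .inl _, _ => rfl

theorem br_cut : ∀ (s : Sh) (j : ℕ), (s.cut (j + 1)).br = s.br
  | .one, _ => rfl
  | .step _, _ => rfl
  | .split s t, j => congrArg₂ (· + ·) (br_cut s j) (br_cut t j)

theorem rep_fst : ∀ (s : Sh) (j : ℕ), s.rep j (s.cut j).fst = s.fst
  | .one, _ => rfl
  | .step _, 0 => rfl
  | .step s, j + 1 => rep_fst s j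
  | .split _ _, 0 => rfl
  | .split s _, j + 1 => congrArg Sum.inl (rep_fst s (j + 1))

theorem sum_ite1 (s : Sh) (p : Prop) [Decidable p] (c : ℝ) (G : s.Lf → ℝ) :
    ∑ a, (if a = s.fst ∧ p then c else 0) * G a = (if p then c else 0) * G s.fst := by
  rw [Finset.sum_eq_single s.fst (fun a _ ha => by simp [ha]) (by simp)]
  simp

theorem cf_cut : ∀ (s : Sh) (L : List (Lv Θ)) (j y : ℕ), y ≤ j → j < L.length → ∀ G : s.Lf → ℝ,
    ∑ c, cf s L c y * G c = ∑ a, cf (s.cut (j + 1)) L a y * G (s.rep (j + 1) a)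
  | .one, _, _, _, _, _, _ => rfl
  | .step _, [], _, _, _, h, _ => absurd h (Nat.not_lt_zero _)
  | .step s, l :: L, j, 0, _, _, G => (Finset.sum_eq_zero fun _ _ => zero_mul _).trans
      (Finset.sum_eq_zero fun _ _ => zero_mul _).symm
  | .step _, _ :: _, 0, _ + 1, h, _, _ => absurd h (Nat.not_succ_le_zero _)
  | .step s, l :: L, j + 1, y + 1, h, h', G => by
      show ∑ c : s.Lf, (cf s L c y + if c = s.fst ∧ y = 0 then s.br * ex L 0 - l.m else 0) * G c =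
        ∑ a : (s.cut (j + 1)).Lf, (cf (s.cut (j + 1)) L a y + if a = (s.cut (j + 1)).fst ∧ y = 0
          then (s.cut (j + 1)).br * ex L 0 - l.m else 0) * G (s.rep (j + 1) a)
      simp only [add_mul, Finset.sum_add_distrib]
      refine ac (cf_cut s L j y (Nat.le_of_succ_le_succ h) (Nat.lt_of_succ_lt_succ h') G)
        ((sum_ite1 s _ _ G).trans (Eq.trans ?_
          (sum_ite1 (s.cut (j + 1)) _ _ fun a => G (s.rep (j + 1) a)).symm))
      rw [br_cut, rep_fst]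
  | .split s t, L, j, y, h, h', G => (Wt87.sum_split s t _).trans
      ((ac (cf_cut s L j y h h' fun a => G (.inl a)) (cf_cut t L j y h h' fun a => G (.inr a))).trans
        (Wt87.sum_split (s.cut (j + 1)) (t.cut (j + 1)) fun a =>
          cf (.split (s.cut (j + 1)) (t.cut (j + 1))) L a y *
            G ((Sh.split s t).rep (j + 1) a)).symm)

/-- **every tree has a skeleton** -/
theorem sk_cut (hi : i < M.length) (s : Sh) : Sk i M (s.cut (i + 1)) s (s.rep (i + 1)) := by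
  refine ⟨shr_rep s _, fun c => ⟨s.cl _ c, (Clu22.cl_eq_iff s _ _ _).1 (Clu22.cl_rep s _ _)⟩,
    fun j hj G => ?_⟩
  simp only [cw, add_mul, Finset.sum_add_distrib]
  rw [sum_ite1, sum_ite1 _ _ _ fun a => G (s.rep (i + 1) a), br_cut, rep_fst, cf_cut s M i j hj hi]

theorem sep_cut (i : ℕ) (s : Sh) : Sep i (s.cut (i + 1)) := fun a b h =>
  (Clu22.cl_rep s _ a).symm.trans (((Clu22.cl_eq_iff s _ _ _).2 ((shr_rep s _ a b _).trans h)).trans
    (Clu22.cl_rep s _ b))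

theorem card_cut (j : ℕ) (s : Sh) : Fintype.card (s.cut j).Lf ≤ Fintype.card s.Lf :=
  Fintype.card_le_of_injective (s.rep j) fun a b h =>
    (Clu22.cl_rep s j a).symm.trans ((congrArg (s.cl j) h).trans (Clu22.cl_rep s j b))

theorem br_stp (hu : u.br = 1) : ∀ i, (u.stp i).br = 1
  | 0 => hu
  | _ + 1 => rfl

theorem fst_stp (u : Sh) : ∀ i, (u.stp i).fst = u.stI i u.fst
  | 0 => rfl
  | i + 1 => fst_stp u i

theorem card_stp (u : Sh) : ∀ i, Fintype.card (u.stp i).Lf = Fintype.card u.Lf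
  | 0 => rfl
  | i + 1 => card_stp u i

theorem not_split {s t : Sh} : (Sh.split s t).br ≠ 1 := fun h => by
  have h1 := s.one_le_br90
  have h2 := t.one_le_br90
  change s.br + t.br = 1 at h
  omega

theorem shr_stp (hu : u.br = 1) : ∀ (i : ℕ) (a c : (u.stp i).Lf), (u.stp i).shr a c (i + 1) = i + 1
  | 0, a, c => by
      cases u with
      | one => rfl
      | step s => exact congrArg (· + 1) (shr_zero s a c)
      | split s t => exact absurd hu not_split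
  | i + 1, a, c => congrArg (· + 1) (shr_stp hu i a c)

theorem cw_stp (hu : u.br = 1) : ∀ (i : ℕ) (M : List (Lv Θ)) (j : ℕ), j ≤ i → i < M.length →
    ∀ c, cw (u.stp i) M c j = if c = (u.stp i).fst then dm M 0 j else 0
  | _, [], _, _, h, _ => absurd h (Nat.not_lt_zero _)
  | i, l :: L, 0, _, _, c => by
      rw [cw, cf_zero, br_stp hu]
      simp [dm, exP]
  | 0, _ :: _, _ + 1, h, _, _ => absurd h (Nat.not_succ_le_zero _)
  | i + 1, l :: L, j + 1, h, h', c => by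
      refine (fun c : (u.stp i).Lf => (?_ : cw (.step (u.stp i)) (l :: L) c (j + 1) =
        if c = (u.stp i).fst then dm (l :: L) 0 (j + 1) else 0)) c
      have ih := cw_stp hu i L j (Nat.le_of_succ_le_succ h) (Nat.lt_of_succ_lt_succ h') c
      refine (cw_pos (.step (u.stp i)) (l :: L) c (Nat.succ_ne_zero j)).trans
        ((cf_step (u.stp i) l L c j).trans ?_)
      rw [cw] at ih
      rw [eq_sub_of_add_eq ih, br_stp hu]
      cases j <;> split_ifs <;> simp_all [dm, exP, Crest.Agent.T157.Casc.ex]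

theorem sk_stp (hu : u.br = 1) (hi : i < M.length) :
    Sk i M .one (u.stp i) fun _ => u.stI i u.fst := by
  refine ⟨fun _ _ k => shr_self _ _ k, fun c => ⟨(), shr_stp hu i _ c⟩, fun j hj G => ?_⟩
  rw [Wt87.sum_one, Finset.sum_eq_single (u.stp i).fst (fun c _ hc => by
    rw [cw_stp hu i M j hj hi, if_neg hc, zero_mul]) (by simp), cw_stp hu i M j hj hi, if_pos rfl,
    fst_stp]
  exact congrArg (· * _) (cw_one M () j).symm

/-! ### one low letter on any tree -/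

/-- bound on trees with `n` edges and at most `N` leaves -/
def Bn (n N : ℕ) (β : ℝ) (Ψ : EF) : Prop :=
  ∀ s cs, cs.length = n → Fintype.card s.Lf ≤ N → |Ψ s cs| ≤ β

/-- exactly two clusters -/
def Two (i : ℕ) (s : Sh) (p q : s.Lf) : Prop := s.shr p q (i + 1) ≠ i + 1 ∧
  ∀ c, s.shr p c (i + 1) = i + 1 ∨ s.shr q c (i + 1) = i + 1

theorem Two.graft {p q : s.Lf} (H : Two i s p q) (b : s.Lf) {k : ℕ} (hk : i < k) :
    Two i (s.graft b k) (s.emb b k p) (s.emb b k q) := by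
  refine ⟨by rw [shr_emb]; exact H.1, fun c => ?_⟩
  rcases Wt87.graft_cases s b k c with ⟨d, rfl⟩ | rfl
  · simpa only [shr_emb] using H.2 d
  · simpa only [shr_nw, min_eq_right (Nat.succ_le_of_lt hk)] using H.2 b

theorem Two.rc {p q a : s.Lf} (H : Two i s p q) {o : Md} {s' : Sh} {e' : s.Lf → s'.Lf} {c : s'.Lf}
    (h : Rc i n s a o s' e' c) : Two i s' (e' p) (e' q) := by
  cases h with
  | fix => exact H
  | old => exact H
  | new _ h1 => exact H.graft _ h1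
  | gr h1 => exact H.graft _ h1

theorem two_gr {m : s.Lf} (h : ∀ c, s.shr m c (i + 1) = i + 1) {y : ℕ} (hy : y ≤ i) :
    Two i (s.graft m y) (s.emb m y m) (s.nw m y) := by
  refine ⟨by rw [shr_nw, shr_self]; omega, fun c => ?_⟩
  rcases Wt87.graft_cases s m y c with ⟨d, rfl⟩ | rfl
  · exact .inl ((shr_emb _ _ _ _ _ _).trans (h d))
  · exact .inr (shr_self _ _ _)

theorem abs_low2 (hM : Mono 0 M) {A : t.Lf → ℕ → t.Lf → ℕ → ℝ} {B : t.Lf → ℕ → ℕ → ℝ} {β : ℝ}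
    (hβ : 0 ≤ β) (hA : ∀ a j b k, |A a j b k| ≤ β) (hB : ∀ a j r, |B a j r| ≤ β) :
    |∑ a, ∑ j ∈ Finset.range (i + 1), cw t M a j *
      (∑ b, ∑ k ∈ Finset.range (i + 1), cw t M b k * A a j b k +
        ∑ r ∈ Finset.range (i - j + 1), dm (M.drop j) 0 r * B a j r)| ≤
      2 * (Fintype.card t.Lf : ℝ) ^ 2 * ex M i ^ 2 * β := by
  have hx := ex_nn hM i
  have hc := Tay38.one_le_card t
  refine (abs_cw_lo hM t i (β := 2 * Fintype.card t.Lf * ex M i * β) (by positivity)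
    fun a j hj => ?_).trans_eq (by ring)
  have h1 := abs_cw_lo hM t i hβ fun b k _ => hA a j b k
  have h2 := abs_wsum (Finset.range (i - j + 1)) (dm_nonneg (Cav22.mono_drop j hM))
    fun r _ => hB a j r
  rw [← Finset.sum_mul, sum_dm, sub_zero, ex_drop22, Nat.sub_add_cancel hj] at h2
  refine (abs_add_le _ _).trans ?_
  nlinarith [mul_nonneg hx hβ]

theorem abs_lo_mul (j : ℕ) {x β : ℝ} (h : |x| ≤ β) : |lo i j * x| ≤ β := by
  rw [abs_mul]
  exact (mul_le_of_le_one_left (abs_nonneg _) (Y89.abs_lo_le _)).trans h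

theorem len_mv {s' : Sh} (e : s.Lf → s'.Lf) (cs : Low51.EL s) (c : s'.Lf × s'.Lf) :
    (mv e cs ++ [c]).length = cs.length + 1 := by simp [mv]

theorem card_QA (s : Sh) (a : s.Lf) (j : ℕ) (b : s.Lf) (k : ℕ) :
    Fintype.card (QA s a j b k).sh.Lf = Fintype.card s.Lf + 2 :=
  (card_graft _ _ _).trans (congrArg (· + 1) (card_graft _ _ _))

theorem card_QC (s : Sh) (a : s.Lf) (j r : ℕ) :
    Fintype.card (QC s a j r).sh.Lf = Fintype.card s.Lf + 2 :=
  (card_graft _ _ _).trans (congrArg (· + 1) (card_graft _ _ _))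

theorem lg_cls {a a' : s.Lf} (h : s.shr a a' (i + 1) = i + 1)
    (Ψ : ∀ s' : Sh, (s.Lf → s'.Lf) → s'.Lf → ℝ) : lg ε i M s a Ψ = lg ε i M s a' Ψ := by
  have : Leg51.cls i s a = Leg51.cls i s a' := by
    ext c
    rw [mem_cls, mem_cls, shr_comm s a, shr_comm s a', shr_congr s h c]
  rw [lg, lg, pos, pos, this]

theorem sum_pair2 {p q : t.Lf} (hpq : p ≠ q) (hc : ∀ a, a = p ∨ a = q) (X : t.Lf → t.Lf → ℝ) :
    ∑ a, ∑ b ∈ Finset.univ.erase a, X a b = X p q + X q p := by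
  have e : (Finset.univ : Finset t.Lf) = {p, q} := by
    ext a
    simpa using hc a
  rw [e, Finset.sum_pair hpq, Finset.erase_insert (by simpa using hpq),
    Finset.pair_comm, Finset.erase_insert (by simpa using hpq.symm), Finset.sum_singleton,
    Finset.sum_singleton]

variable {Ψ : EF} {N : ℕ} {β : ℝ}

/-- **two clusters**: up to `O (x)` a low edge joins them -/
theorem St_old (hM : Mono 0 M) (hi : i < M.length) (hβ : 0 ≤ β) {cs : Low51.EL s}
    (h : Bn (cs.length + 1) (N + 2) β Ψ) (hN : Fintype.card s.Lf ≤ N) {e : ι → s.Lf} {p q : ι}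
    (H : Two i s (e p) (e q)) :
    |St (-1) M (lo i) Ψ s cs - (Low51.Eg (-1) i M ⟨p, q, .leg, .leg⟩ (cs' Ψ) s e cs +
      Low51.Eg (-1) i M ⟨q, p, .leg, .leg⟩ (cs' Ψ) s e cs)| ≤ 10 * N ^ 3 * ex M i * β := by
  have hx := ex_nn hM i
  have hx1 := Tay38.ex_le_one hM i
  have hT : (Fintype.card (s.cut (i + 1)).Lf : ℝ) ≤ N := Nat.cast_le.2 ((card_cut _ s).trans hN)
  have hN1 : (1 : ℝ) ≤ N := (Tay38.one_le_card _).trans hT
  have cl := Clu22.cl_eq_iff s (i + 1)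
  have ne : s.cl (i + 1) (e p) ≠ s.cl (i + 1) (e q) := fun u => H.1 ((cl _ _).1 u)
  have rp : ∀ c, s.shr (s.rep (i + 1) (s.cl (i + 1) c)) c (i + 1) = i + 1 := fun c =>
    (cl _ _).1 (Clu22.cl_rep s _ _)
  have key : ∀ p q : ι, s.cl (i + 1) (e p) ≠ s.cl (i + 1) (e q) →
      lo i ((s.cut (i + 1)).shr (s.cl (i + 1) (e p)) (s.cl (i + 1) (e q)) M.length) *
        lg (-1) i M s (s.rep (i + 1) (s.cl (i + 1) (e q))) (fun s1 e1 q' => lg (-1) i M s1
          (e1 (s.rep (i + 1) (s.cl (i + 1) (e p)))) fun s2 e2 p' =>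
            Ψ s2 (mv (fun x => e2 (e1 x)) cs ++ [(p', e2 q')])) =
      Low51.Eg (-1) i M ⟨p, q, .leg, .leg⟩ (cs' Ψ) s e cs := fun p q ne => by
    have e0 : (s.cut (i + 1)).shr (s.cl (i + 1) (e p)) (s.cl (i + 1) (e q)) M.length ≤ i :=
      LM.j_le (.g0 ne.symm) (sep_cut i s) hi
    rw [lo, if_pos e0, one_mul, lg_cls (rp _)]
    exact lgm_congr (ε := -1) (i := i) (M := M) (o := .leg) trivial s (e q)
      (Ψ := fun s1 e1 q' => lg (-1) i M s1 (e1 (s.rep (i + 1) (s.cl (i + 1) (e p)))) fun s2 e2 p' =>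
        Ψ s2 (mv (fun x => e2 (e1 x)) cs ++ [(p', e2 q')]))
      (Ψ' := fun s1 e1 q' => lg (-1) i M s1 (e1 (e p)) fun s2 e2 p' =>
        Ψ s2 (mv (fun x => e2 (e1 x)) cs ++ [(p', e2 q')]))
      fun s1 e1 c r => lg_cls ((r.shr _ _ _).trans (rp (e p))) _
  have b1 : ∀ (a : s.Lf) (j : ℕ) (b : (s.graft a j).Lf)
      (c : ∀ s2 : Sh, ((s.graft a j).Lf → s2.Lf) → s2.Lf → s2.Lf × s2.Lf),
      |lg (-1) i M (s.graft a j) b fun s2 e2 p =>
        Ψ s2 (mv (fun x => e2 (s.emb a j x)) cs ++ [c s2 e2 p])| ≤ 2 * (N + 1) * β :=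
    fun a j b c => by
      have := card_graft s a j
      refine (abs_lg_le (by simp) hM _ b hβ fun s2 e2 p k =>
        h _ _ (len_mv _ _ _) (by omega)).trans ?_
      have : (Fintype.card (s.graft a j).Lf : ℝ) ≤ N + 1 := by exact_mod_cast (by omega)
      gcongr
  have e1 : St (-1) M (lo i) Ψ s cs = _ := sg_low (c := lo i) (sk_cut hi s) (sep_cut i s) hi
    (by norm_num) (fun j hj => if_neg (not_le.2 hj)) fun τ => Ψ τ.sh (mv τ.e cs ++ [(τ.p, τ.q)])
  rw [e1, sum_pair2 ne fun a => by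
      rw [← Clu22.cl_rep s _ a]
      exact (H.2 _).imp (fun u => ((cl _ _).2 u).symm) fun u => ((cl _ _).2 u).symm,
    key p q ne, key q p ne.symm, add_assoc, add_sub_cancel_left, neg_one_mul]
  refine (abs_add_le _ _).trans ?_
  rw [abs_neg]
  refine (add_le_add (abs_cw_lo hM _ i (β := 2 * (N * (2 * (N + 1) * β))) (by positivity)
    fun a j _ => (abs_add_le _ _).trans ((add_le_add
      (abs_sum_card _ (by positivity) fun b _ => abs_lo_mul _ (b1 _ _ _ _))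
      (abs_sum_card _ (by positivity) fun b _ => abs_lo_mul _ (b1 _ _ _ _))).trans (by
        rw [← two_mul]; gcongr)))
    (abs_low2 hM hβ (fun a j b k => abs_lo_mul _ (h _ _ (len_mv _ _ _) (by rw [card_QA]; omega)))
      fun a j r => abs_lo_mul _ (h _ _ (len_mv _ _ _) (by rw [card_QC]; omega)))).trans ?_
  calc _ ≤ N * ex M i * (2 * (N * (2 * (N + N) * β))) + 2 * (N : ℝ) ^ 3 * (ex M i * 1) * β := by
        rw [sq (ex M i)]
        gcongr
        exact (pow_le_pow_left₀ (by positivity) hT 2).trans (pow_le_pow_right₀ hN1 (by norm_num))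
    _ = _ := by ring

/-- the marks of a tree with a new cluster -/
def mk2 (s : Sh) (m : s.Lf) (y : ℕ) : Unit ⊕ Unit → (s.graft m y).Lf :=
  Sum.elim (fun _ => s.emb m y m) fun _ => s.nw m y

/-- the edge to a new cluster -/
def dA : Ed (Unit ⊕ Unit) := ⟨.inl (), .inr (), .leg, .fix⟩
/-- the same, reversed -/
def dB : Ed (Unit ⊕ Unit) := ⟨.inr (), .inl (), .fix, .leg⟩

/-- **one cluster**: up to `O (x²)` a low edge joins it to a new cluster -/
theorem St_one (hM : Mono 0 M) (hi : i < M.length) (hβ : 0 ≤ β) {cs : Low51.EL s}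
    (h : Bn (cs.length + 1) (N + 2) β Ψ) (hN : Fintype.card s.Lf ≤ N) {m : s.Lf}
    (H : Sk i M .one s fun _ => m) :
    |St (-1) M (lo i) Ψ s cs + ∑ y ∈ Finset.range (i + 1), dm M 0 y *
      (Low51.Eg (-1) i M dA (cs' Ψ) _ (mk2 s m y) (mv (s.emb m y) cs) +
        Low51.Eg (-1) i M dB (cs' Ψ) _ (mk2 s m y) (mv (s.emb m y) cs))| ≤ 2 * ex M i ^ 2 * β := by
  have h2 := abs_low2 (t := .one) (i := i) hM hβ
    (A := fun a j b k => lo i (Sh.one.shr a b (min j k)) *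
      Ψ (QA s m j m k).sh (mv (QA s m j m k).e cs ++ [((QA s m j m k).p, (QA s m j m k).q)]))
    (B := fun a j r => lo i (r + j) *
      Ψ (QC s m j r).sh (mv (QC s m j r).e cs ++ [((QC s m j r).p, (QC s m j r).q)]))
    (fun a j b k => abs_lo_mul _ (h _ _ (len_mv _ _ _) (by rw [card_QA]; omega)))
    fun a j r => abs_lo_mul _ (h _ _ (len_mv _ _ _) (by rw [card_QC]; omega))
  refine Eq.trans_le (congrArg abs ?_) (h2.trans_eq (by
    rw [show Fintype.card Sh.one.Lf = 1 from rfl]; push_cast; ring))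
  have e1 : St (-1) M (lo i) Ψ s cs = _ := sg_low (c := lo i) H (sep_one i) hi
    (by norm_num) (fun j hj => if_neg (not_le.2 hj)) fun τ => Ψ τ.sh (mv τ.e cs ++ [(τ.p, τ.q)])
  rw [e1, Finset.sum_eq_zero (s := Finset.univ) fun a _ =>
      Finset.sum_eq_zero fun b hb => absurd rfl (Finset.ne_of_mem_erase hb), zero_add,
    add_right_comm, neg_one_mul, neg_add_eq_sub, sub_eq_zero.2 ?_, zero_add]
  rw [Wt87.sum_one]
  refine Finset.sum_congr rfl fun y hy => congrArg₂ (· * ·) (cw_one M _ y).symm ?_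
  have e : lo i y = 1 := if_pos (Nat.lt_succ_iff.1 (Finset.mem_range.1 hy))
  rw [Wt87.sum_one, Wt87.sum_one]
  refine ac ?_ ?_ <;> refine Eq.trans ?_ ((congrArg (· * _) e).trans (one_mul _)).symm <;>
    simp only [Low51.Eg, lgm, cs', mv_mv, dA, dB, mk2, Sum.elim_inl, Sum.elim_inr, id]

/-- the size of one placed edge -/
theorem abs_Eg_le (hM : Mono 0 M) (hβ : 0 ≤ β) {d : Ed ι} (hd : d.Hi i M.length) {Ξ : PF ι}
    {e : ι → s.Lf} {cs : Low51.EL s} (hN : Fintype.card s.Lf ≤ N)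
    (h : ∀ s1 e1 q s2 e2 p, Rc i M.length s (e d.q) d.oq s1 e1 q →
      Rc i M.length s1 (e1 (e d.p)) d.op s2 e2 p →
      |Ξ s2 (fun x => e2 (e1 (e x))) (mv (fun x => e2 (e1 x)) cs ++ [(p, e2 q)])| ≤ β) :
    |Low51.Eg (-1) i M d Ξ s e cs| ≤ 4 * (N + 1) ^ 2 * β := by
  refine (Low51.abs_lgm_le (by simp) hM hd.2 s _ (β := 2 * (N + 1) * β) (by positivity)
    fun s1 e1 q r1 => (Low51.abs_lgm_le (by simp) hM hd.1 s1 _ hβ fun s2 e2 p r2 =>
      h _ _ _ _ _ _ r1 r2).trans ?_).trans ?_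
  · have := r1.card
    have : (Fintype.card s1.Lf : ℝ) ≤ N + 1 := by exact_mod_cast (by omega)
    gcongr
  · have : (Fintype.card s.Lf : ℝ) ≤ N + 1 := by exact_mod_cast (by omega)
    calc _ ≤ 2 * (N + 1) * (2 * (N + 1) * β) := by gcongr
      _ = _ := by ring

theorem Bn.st (hM : Mono 0 M) (hβ : 0 ≤ β) (h : Bn (n + 1) (N + 2) β Ψ) :
    Bn n N (4 * N ^ 2 * β) (St (-1) M (lo i) Ψ) := fun s cs h1 h2 =>
  (abs_sg_le hM s fun τ hτ => abs_lo_mul _ (h _ _ (by rw [len_mv, h1])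
    (hτ.card.trans (by omega)))).trans (Ker15.sg_le M s h2 hβ)

/-- the two parallel edges -/
def dP : Ed (Unit ⊕ Unit) := ⟨.inl (), .inr (), .leg, .leg⟩
/-- reversed -/
def dQ : Ed (Unit ⊕ Unit) := ⟨.inr (), .inl (), .leg, .leg⟩

/-- a second low edge after a first one -/
theorem Eg_St (hM : Mono 0 M) (hi : i < M.length) (hβ : 0 ≤ β) {cs : Low51.EL s}
    (h : Bn (cs.length + 2) (N + 4) β Ψ) (hN : Fintype.card s.Lf ≤ N) {e : Unit ⊕ Unit → s.Lf}
    (H : Two i s (e (.inl ())) (e (.inr ()))) {d : Ed (Unit ⊕ Unit)} (hd : d.Hi i M.length) {v : ℝ}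
    (h1 : LE (-1) i M [d, dP] (cs' Ψ) s e cs = v) (h2 : LE (-1) i M [d, dQ] (cs' Ψ) s e cs = v) :
    |Low51.Eg (-1) i M d (cs' (St (-1) M (lo i) Ψ)) s e cs - 2 * v| ≤
      40 * (N + 2) ^ 5 * ex M i * β := by
  have hx := ex_nn hM i
  have e1 : Low51.Eg (-1) i M d (cs' (St (-1) M (lo i) Ψ)) s e cs - 2 * v =
      Low51.Eg (-1) i M d (fun s e cs => cs' (St (-1) M (lo i) Ψ) s e cs + -1 *
        (Low51.Eg (-1) i M dP (cs' Ψ) s e cs + Low51.Eg (-1) i M dQ (cs' Ψ) s e cs)) s e cs := by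
    have k1 := LE_add (ε := -1) (i := i) (M := M) (cs' (St (-1) M (lo i) Ψ)) (fun s e cs => -1 *
      (Low51.Eg (-1) i M dP (cs' Ψ) s e cs + Low51.Eg (-1) i M dQ (cs' Ψ) s e cs)) [d]
    have k2 := LE_mul (ε := -1) (i := i) (M := M) (-1) (fun s e cs =>
      Low51.Eg (-1) i M dP (cs' Ψ) s e cs + Low51.Eg (-1) i M dQ (cs' Ψ) s e cs) [d]
    have k3 := LE_add (ε := -1) (i := i) (M := M) (Low51.Eg (-1) i M dP (cs' Ψ))
      (Low51.Eg (-1) i M dQ (cs' Ψ)) [d]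
    refine Eq.trans ?_ ((congrFun (congrFun (congrFun k1 s) e) cs).trans (ac rfl
      ((congrFun (congrFun (congrFun k2 s) e) cs).trans
        (mc (congrFun (congrFun (congrFun k3 s) e) cs))))).symm
    rw [two_mul, sub_eq_add_neg, neg_one_mul]
    exact ac rfl (congrArg Neg.neg (ac h1.symm h2.symm))
  rw [e1]
  refine (abs_Eg_le hM (β := 10 * ((N + 2 : ℕ) : ℝ) ^ 3 * ex M i * β) (by positivity) hd hN
    fun s1 e1 q s2 e2 p r1 r2 => ?_).trans ?_
  · have := r1.card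
    have := r2.card
    rw [neg_one_mul, ← sub_eq_add_neg]
    exact St_old hM hi hβ (by rw [len_mv]; exact h) (by omega) (e := fun x => e2 (e1 (e x)))
      ((H.rc r1).rc r2)
  · push_cast
    calc _ ≤ 4 * (N + 2) ^ 2 * (10 * (N + 2 : ℝ) ^ 3 * ex M i * β) := by gcongr; norm_num
      _ = _ := by ring

/-- **two low letters on two clusters** -/
theorem W_two (hM : Mono 0 M) (hi : i < M.length) (hβ : 0 ≤ β) {cs : Low51.EL s}
    (h : Bn (cs.length + 2) 8 β Ψ) (hN : Fintype.card s.Lf ≤ 4) {e : Unit ⊕ Unit → s.Lf}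
    (H : Two i s (e (.inl ())) (e (.inr ()))) {v : ℝ}
    (hv : ∀ d d', d = dP ∨ d = dQ → d' = dP ∨ d' = dQ → LE (-1) i M [d, d'] (cs' Ψ) s e cs = v) :
    |St (-1) M (lo i) (St (-1) M (lo i) Ψ) s cs - 4 * v| ≤ 800000 * (ex M i * β) := by
  have hx := mul_nonneg (ex_nn hM i) hβ
  have k0 := St_old hM hi (by positivity) (Bn.st (i := i) (N := 6) hM hβ h) hN H
  have k1 := Eg_St hM hi hβ h hN H (d := dP) ⟨trivial, trivial⟩ (hv _ _ (.inl rfl) (.inl rfl))
    (hv _ _ (.inl rfl) (.inr rfl))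
  have k2 := Eg_St hM hi hβ h hN H (d := dQ) ⟨trivial, trivial⟩ (hv _ _ (.inr rfl) (.inl rfl))
    (hv _ _ (.inr rfl) (.inr rfl))
  change |_ - (Low51.Eg (-1) i M dP _ s e cs + Low51.Eg (-1) i M dQ _ s e cs)| ≤ _ at k0
  push_cast at k0 k1 k2
  rw [abs_le] at k0 k1 k2 ⊢
  constructor <;> linarith [k0.1, k0.2, k1.1, k1.2, k2.1, k2.2]

/-- **two low letters on one cluster** -/
theorem W_one (hM : Mono 0 M) (hi : i < M.length) (hβ : 0 ≤ β) {cs : Low51.EL s}
    (h : Bn (cs.length + 2) 9 β Ψ) (hN : Fintype.card s.Lf ≤ 4) {m : s.Lf}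
    (H : Sk i M .one s fun _ => m) {v : ℕ → ℝ}
    (hv : ∀ y ≤ i, ∀ d d', d = dA ∨ d = dB → d' = dP ∨ d' = dQ →
      LE (-1) i M [d, d'] (cs' Ψ) _ (mk2 s m y) (mv (s.emb m y) cs) = v y) :
    |St (-1) M (lo i) (St (-1) M (lo i) Ψ) s cs + 4 * ∑ y ∈ Finset.range (i + 1), dm M 0 y * v y| ≤
      1400000 * (ex M i ^ 2 * β) := by
  have hx := ex_nn hM i
  have k0 := St_one hM hi (by positivity) (Bn.st (i := i) (N := 7) hM hβ h) (N := 5)
    (hN.trans (by norm_num)) H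
  have k1 := abs_wsum (Finset.range (i + 1)) (dm_nonneg hM) (X := fun y =>
    Low51.Eg (-1) i M dA (cs' (St (-1) M (lo i) Ψ)) _ (mk2 s m y) (mv (s.emb m y) cs) +
      Low51.Eg (-1) i M dB (cs' (St (-1) M (lo i) Ψ)) _ (mk2 s m y) (mv (s.emb m y) cs) - 4 * v y)
    (Y := fun _ => 2 * (40 * 7 ^ 5 * ex M i * β)) fun y hy => by
      have hy' := Nat.lt_succ_iff.1 (Finset.mem_range.1 hy)
      have c := card_graft s m y
      have hT : Two i _ (mk2 s m y (.inl ())) (mk2 s m y (.inr ())) :=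
        two_gr (fun c => (H.sur c).choose_spec) hy'
      have hl : Bn ((mv (s.emb m y) cs).length + 2) (5 + 4) β Ψ := by
        rw [mv, List.length_map]; exact h
      have t1 := Eg_St hM hi hβ hl (by omega) hT (d := dA) ⟨trivial, trivial⟩
        (hv y hy' _ _ (.inl rfl) (.inl rfl)) (hv y hy' _ _ (.inl rfl) (.inr rfl))
      have t2 := Eg_St hM hi hβ hl (by omega) hT (d := dB) ⟨trivial, trivial⟩
        (hv y hy' _ _ (.inr rfl) (.inl rfl)) (hv y hy' _ _ (.inr rfl) (.inr rfl))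
      push_cast at t1 t2
      rw [abs_le] at t1 t2 ⊢
      constructor <;> linarith [t1.1, t1.2, t2.1, t2.2]
  rw [← Finset.sum_mul, sum_dm, sub_zero] at k1
  simp only [mul_sub, Finset.sum_sub_distrib, mul_left_comm _ (4 : ℝ), ← Finset.mul_sum] at k1
  have := mul_nonneg (sq_nonneg (ex M i)) hβ
  push_cast at k0
  rw [abs_le] at k0 k1 ⊢
  constructor <;> linarith [k0.1, k0.2, k1.1, k1.2]

/-! ### legs on two clusters -/

variable [Fintype Ω] {w : Ω → ℝ}

theorem LW_stp (hw : Wt w) (W : List (ι × (Ω → ℝ))) (m : u.Lf) (F : (u.Lf → Ω) → ℝ) :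
    ∀ (i : ℕ) (M : List (Lv Ω)) (h : Ω → ℝ), i ≤ M.length →
    LW ε i M W (cst (TEf w M h)) (u.stp i) (fun _ => u.stI i m) (fun x => F fun b => x (u.stI i b)) =
      node w M i (fun z => LW ε 0 (M.drop i) W (cst (TEf w (M.drop i) z)) u (fun _ => m) F) h
  | 0, M, h, _ => by rw [node_zero]; rfl
  | i + 1, l :: M, h, hi => by
      refine (LW_step_TE hw l M h W (u.stp i) _ _).trans ?_
      rw [node_cons]
      exact congrArg (fun Ψ => tE l (X w M) Ψ h)
        (funext fun z => LW_stp hw W m F i M z (Nat.le_of_succ_le_succ hi))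

/-- a graft at the root of a cluster -/
theorem graft_zero (hu : u.br = 1) : ∀ (i : ℕ) (a : (u.stp i).Lf),
    (⟨(u.stp i).graft a 0, (u.stp i).emb a 0, 0, (u.stp i).nw a 0, (u.stp i).nw a 0⟩ : GT (u.stp i)) =
      ⟨.split (u.stp i) .one, Sum.inl, 0, .inr (), .inr ()⟩
  | 0, a => by
      cases u with
      | one => rfl
      | step s => rfl
      | split s t => exact absurd hu not_split
  | _ + 1, _ => rfl

/-- a cluster and a new leaf -/
theorem LW_gr (hw : Wt w) (hu : u.br = 1) (m : u.Lf) (F : (u.Lf → Ω) → ℝ) (f : Ω → ℝ)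
    (W : List ((Unit ⊕ Unit) × (Ω → ℝ))) : ∀ (y : ℕ) (M : List (Lv Ω)) (i : ℕ), y ≤ i →
    i ≤ M.length → ∀ h : Ω → ℝ,
    LW ε i M W (cst (TEf w M h)) _ (mk2 (u.stp i) (u.stI i m) y)
        (fun x => F (fun b => x ((u.stp i).emb (u.stI i m) y (u.stI i b))) *
          f (x ((u.stp i).nw (u.stI i m) y))) =
      node w M y (fun z => node w (M.drop y) (i - y) (fun z =>
          LW ε 0 (M.drop i) (lft W) (cst (TEf w (M.drop i) z)) u (fun _ => m) F) z *
        node w (M.drop y) (i - y) (fun z =>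
          LW ε 0 (M.drop i) (rgt W) (cst (TEf w (M.drop i) z)) .one id fun x => f (x ())) z) h
  | 0, M, i, _, hi, h => by
      have h1 := LW_split (ε := ε) (i := i) M (TEf_split hw M h) W (u.stp i) .one
        (fun _ => u.stI i m) id (fun x => F fun b => x (u.stI i b)) fun x => f (x ())
      rw [LW_stp hw _ m F i M h hi] at h1
      rw [node_zero]
      refine Eq.trans ?_ (h1.trans (mc (LW_one_TE hw _ _ _ i M h hi)))
      refine (congrArg (fun τ : GT (u.stp i) => LW ε i M W (cst (TEf w M h)) τ.sh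
        (Sum.elim (fun _ => τ.e (u.stI i m)) fun _ => τ.p)
        fun x => F (fun b => x (τ.e (u.stI i b))) * f (x τ.p)) (graft_zero hu i (u.stI i m))).trans ?_
      exact congrArg (fun e => LW ε i M W (cst (TEf w M h)) _ e _)
        (funext fun x => by cases x <;> rfl)
  | _ + 1, _, 0, hy, _, _ => absurd hy (Nat.not_succ_le_zero _)
  | _ + 1, [], _ + 1, _, hi, _ => absurd hi (Nat.not_succ_le_zero _)
  | y + 1, l :: M, i + 1, hy, hi, h => by
      refine (LW_step_TE hw l M h W ((u.stp i).graft (u.stI i m) y) _ _).trans ?_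
      rw [node_cons, Nat.add_sub_add_right]
      exact congrArg (fun Ψ => tE l (X w M) Ψ h) (funext fun z => LW_gr hw hu m F f W y M i
        (Nat.le_of_succ_le_succ hy) (Nat.le_of_succ_le_succ hi) z)

/-- the marks of a tree with a new cluster that carries a pair -/
def mk3 (s : Sh) (m : s.Lf) (y k : ℕ) : Unit ⊕ Unit → ((s.graft m y).graft (s.nw m y) k).Lf :=
  fun x => (s.graft m y).emb (s.nw m y) k (mk2 s m y x)

/-- a cluster and a new pair -/
theorem LW_gr2 (hw : Wt w) (hu : u.br = 1) (m : u.Lf) (F : (u.Lf → Ω) → ℝ) (r : ℕ) (Q : Ω → Ω → ℝ)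
    (W : List ((Unit ⊕ Unit) × (Ω → ℝ))) : ∀ (y : ℕ) (M : List (Lv Ω)) (i : ℕ), y ≤ i →
    i ≤ M.length → ∀ h : Ω → ℝ,
    LW ε i M W (cst (TEf w M h)) _ (mk3 (u.stp i) (u.stI i m) y (r + i))
        (fun x => F (fun b => x (((u.stp i).graft (u.stI i m) y).emb _ (r + i)
            ((u.stp i).emb (u.stI i m) y (u.stI i b)))) *
          Q (x (mk3 (u.stp i) (u.stI i m) y (r + i) (.inr ())))
            (x (((u.stp i).graft (u.stI i m) y).nw _ (r + i)))) =
      node w M y (fun z => node w (M.drop y) (i - y) (fun z =>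
          LW ε 0 (M.drop i) (lft W) (cst (TEf w (M.drop i) z)) u (fun _ => m) F) z *
        node w (M.drop y) (i - y) (fun z => LW ε 0 (M.drop i) (rgt W) (cst (TEf w (M.drop i) z))
          (.two r) (fun _ => Sh.twoL r) (pr2 r Q)) z) h
  | 0, M, i, _, hi, h => by
      have h1 := LW_split (ε := ε) (i := i) M (TEf_split hw M h) W (u.stp i) (.two (r + i))
        (fun _ => u.stI i m) (fun _ => Sh.twoL (r + i)) (fun x => F fun b => x (u.stI i b))
        (pr2 (r + i) Q)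
      rw [LW_stp hw _ m F i M h hi, Y89.LW_two_TE hw _ r Q i M h hi] at h1
      rw [node_zero]
      refine Eq.trans ?_ h1
      refine (congrArg (fun τ : GT (u.stp i) => LW ε i M W (cst (TEf w M h))
        (τ.sh.graft τ.p (r + i)) (fun x => τ.sh.emb τ.p (r + i)
          (Sum.elim (fun _ => τ.e (u.stI i m)) (fun _ => τ.p) x))
        fun x => F (fun b => x (τ.sh.emb τ.p (r + i) (τ.e (u.stI i b)))) *
          Q (x (τ.sh.emb τ.p (r + i) τ.p)) (x (τ.sh.nw τ.p (r + i))))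
        (graft_zero hu i (u.stI i m))).trans ?_
      exact congrArg (fun e => LW ε i M W (cst (TEf w M h)) _ e _)
        (funext fun x => by cases x <;> rfl)
  | _ + 1, _, 0, hy, _, _ => absurd hy (Nat.not_succ_le_zero _)
  | _ + 1, [], _ + 1, _, hi, _ => absurd hi (Nat.not_succ_le_zero _)
  | y + 1, l :: M, i + 1, hy, hi, h => by
      refine (LW_step_TE hw l M h W
        (((u.stp i).graft (u.stI i m) y).graft ((u.stp i).nw (u.stI i m) y) (r + i)) _ _).trans ?_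
      rw [node_cons, Nat.add_sub_add_right]
      exact congrArg (fun Ψ => tE l (X w M) Ψ h) (funext fun z => LW_gr2 hw hu m F r Q W y M i
        (Nat.le_of_succ_le_succ hy) (Nat.le_of_succ_le_succ hi) z)

end Crest.Agent.T156.Cas.Mx14

end
end

-- ▼ part T156/CMxT_14
section

/-!
# Row 156, block C (helper14): the mean part of the mixed word, test direction
-/

set_option autoImplicit false
set_option linter.all false

noncomputable section

namespace Crest.Agent.T156.Cas.C40.Mt14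

open MeasureTheory Real Set Filter Topology
open Crest.Agent.T157.E Crest.Agent.T157.Casc Crest.Agent.T157.SL
open Crest.Agent.T157.G1 (ov)
open Crest.ProbabilityR.SpinGlassDynamics (spin)
open Wt87 (shr_emb shr_nw shr_self shr_comm shr_le shr_two fst_two card_graft)
open Leg51 Low51 Lsg89 L90 One15 Mul55 Mx14
open Y89 (LE_pq LWm LWm_leg Lc_pair two_sub)
open Y4 (RR ZZ RR_lo RR_hi ZZ_lo cutS tiltB monoS abs_ZZ LWm_swap abs_prE_le exists_drop
  node_xs cB_zero ov_symm)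
open Mx23 (pL pM MxM)

/-! ### second derivatives -/

/-- second derivative at `0` -/
def D2 (F : ℝ → ℝ) (v : ℝ) : Prop := (∀ y, HasDerivAt F (deriv F y) y) ∧ HasDerivAt (deriv F) v 0

theorem D2.mk' {F : ℝ → ℝ} {v : ℝ} (G : ℝ → ℝ) (h1 : ∀ y, HasDerivAt F (G y) y)
    (h2 : HasDerivAt G v 0) : D2 F v := by
  obtain rfl : G = deriv F := funext fun y => (h1 y).deriv.symm
  exact ⟨h1, h2⟩

theorem D2.eq {F : ℝ → ℝ} {v : ℝ} (h : D2 F v) : iteratedDeriv 2 F 0 = v := by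
  rw [iteratedDeriv_succ, iteratedDeriv_one, h.2.deriv]

theorem D2.add {F G : ℝ → ℝ} {v v' : ℝ} (h : D2 F v) (h' : D2 G v') :
    D2 (fun y => F y + G y) (v + v') :=
  .mk' _ (fun y => (h.1 y).fun_add (h'.1 y)) (h.2.fun_add h'.2)

theorem D2.mul {F : ℝ → ℝ} {v : ℝ} (h : D2 F v) (c : ℝ) : D2 (fun y => c * F y) (c * v) :=
  .mk' _ (fun y => (h.1 y).const_mul c) (h.2.const_mul c)

theorem D2.sum {α : Type} (A : Finset α) {F : α → ℝ → ℝ} {v : α → ℝ} (h : ∀ a ∈ A, D2 (F a) (v a)) :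
    D2 (fun y => ∑ a ∈ A, F a y) (∑ a ∈ A, v a) :=
  .mk' _ (fun y => HasDerivAt.fun_sum fun a ha => (h a ha).1 y)
    (HasDerivAt.fun_sum fun a ha => (h a ha).2)

theorem D2.usg {Θ : Type} {ε : ℝ} {i : ℕ} {M : List (Lv Θ)} {s : Sh} {F : GT s → ℝ → ℝ}
    {v : GT s → ℝ} (h : ∀ τ, UM M.length s τ → D2 (F τ) (v τ)) :
    D2 (fun y => usg ε i M s fun τ => F τ y) (usg ε i M s v) :=
  .mk' _ (fun y => hasDerivAt_usg (F' := fun τ => deriv (F τ)) fun τ hτ => (h τ hτ).1 y)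
    (hasDerivAt_usg (F' := fun τ _ => v τ) fun τ hτ => (h τ hτ).2)

theorem d2_of {C : ℝ} {F : ℝ → ℝ} (h : Sm 2 C F) :
    D2 F (iteratedDeriv 2 F 0) ∧ |iteratedDeriv 2 F 0| ≤ C := by
  rw [iteratedDeriv_succ, iteratedDeriv_one]
  exact ⟨⟨h.der.1, h.der.2.der.1 0⟩, h.der.2.der.2.bd 0⟩

theorem wB_mul {Ω S Θ : Type} {ε : ℝ} {M : List (Lv Θ)}
    {B : (s : Sh) → ((s.Lf → Ω) → ℝ) → ((s.Lf → S) → ℝ) → ℝ}
    (hB : ∀ s G c ξ, B s G (fun x => c * ξ x) = c * B s G ξ) :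
    ∀ (V : List ((ℕ → Ω → Ω → ℝ) × (ℕ → S → S → ℝ))) (s : Sh) (G : (s.Lf → Ω) → ℝ) (c : ℝ)
      (ξ : (s.Lf → S) → ℝ), wB ε M B V s G (fun x => c * ξ x) = c * wB ε M B V s G ξ
  | [], s, G, c, ξ => hB s G c ξ
  | p :: V, s, G, c, ξ => by
      rw [wB, wB, ← sg_const_mul]
      refine congrArg _ (funext fun τ => Eq.trans (congrArg _ (funext fun x => ?_))
        (wB_mul hB V _ _ c _))
      exact mul_assoc _ _ _

/-! ### cluster values -/

/-- bound of a cluster with at most four leaves -/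
def bN (k : ℕ) : ℝ := (2 * (4 + k : ℕ)) ^ k * 4

theorem bN_nn (k : ℕ) : 0 ≤ bN k := by unfold bN; positivity

theorem abs_gs_bN {B : List (Lv Bool)} (hB : Mono 0 B) (k : ℕ) (y : ℝ) : |gs B k y| ≤ bN k := by
  refine (abs_gs_bM hB k y).trans ?_
  unfold bM bN
  gcongr <;> norm_num

theorem abs_MG_bN {B : List (Lv Bool)} (hB : Mono 0 B) {u : Sh} (hN : Fintype.card u.Lf ≤ 4)
    {F : (u.Lf → Bool) → ℝ} (hF : ∀ x, |F x| ≤ 4) (k : ℕ) (z : Bool → ℝ) : |MG B u F k z| ≤ bN k := by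
  refine (abs_MG_le hB (by norm_num) hF k z).trans ?_
  unfold bN
  gcongr

/-- the site constant -/
def c3 : ℝ := 1 + bN 1 + bN 2 + cD bN 2 0 + cS bN 1 1 + cS bN 1 2 + cS bN 2 0

theorem c3_parts : 0 ≤ bN 1 ∧ 0 ≤ bN 2 ∧ 0 ≤ cD bN 2 0 ∧ 0 ≤ Lsg89.cS bN 1 1 ∧
    0 ≤ Lsg89.cS bN 1 2 ∧ 0 ≤ Lsg89.cS bN 2 0 :=
  ⟨bN_nn _, bN_nn _, cD_nn bN_nn _ _, cS_nn bN_nn _ _, cS_nn bN_nn _ _, cS_nn bN_nn _ _⟩

theorem one_le_c3 : 1 ≤ c3 := by
  obtain ⟨a, b, c, d, e, f⟩ := c3_parts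
  unfold c3
  linarith

variable {D : CD} {τ0 : ℝ} {u : Sh}

/-- a cluster in the field `y` -/
def A0 (D : CD) (u : Sh) (F : (u.Lf → Bool) → ℝ) (y : ℝ) : ℝ :=
  TE (fun _ => 1) u (D.S.drop D.J) (y • spin) F
/-- its second derivative -/
def d2 (D : CD) (u : Sh) (F : (u.Lf → Bool) → ℝ) : ℝ := iteratedDeriv 2 (A0 D u F) 0
/-- a cluster value and its frozen value -/
def Fz (D : CD) (A : (Bool → ℝ) → ℝ) (a : ℝ) : Prop := Crest.Agent.T157.Casc.Eg A ∧
  (∀ z, |A z| ≤ c3) ∧ |a| ≤ c3 ∧ ∀ z, |A z - a| ≤ c3 * (|xs z| + D.X)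

theorem mg_facts (H : D.Ok τ0) (hu : u.br = 1) (hN : Fintype.card u.Lf ≤ 4)
    {F : (u.Lf → Bool) → ℝ} (hF : ∀ x, |F x| ≤ 4) :
    Sm 2 c3 (A0 D u F) ∧ Fz D (MG (D.S.drop D.J) u F 2) (d2 D u F) := by
  obtain ⟨l, L, e, hM, hx⟩ := exists_drop H
  obtain ⟨a, b, c, d, f, g⟩ := c3_parts
  have hb := fun k (y : ℝ) => abs_MG_bN hM hN hF k (y • spin)
  have h0 := (Lad.sm (abs_m_le hM) bN_nn (lad_gs l L) (lad_MG l L hu F) (abs_gs_bN hM) hb 2 0).2
  have h1 := Lad.abs_iter_sub (abs_m_le hM) bN_nn (lad_gs l L) (lad_MG l L hu F) (abs_gs_bN hM) hb 2 0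
  have h2 := Lad.lip (abs_m_le hM) bN_nn (lad_gs l L) (lad_MG l L hu F) (abs_gs_bN hM) hb 2
  rw [abs_of_nonneg hM.1] at h1
  have h4 := h1.trans (mul_le_mul_of_nonneg_left hx c)
  have hX := H.X0
  have k0 : Sm 2 c3 (A0 D u F) := by
    unfold A0 c3
    rw [e]
    exact h0.mono (by linarith)
  refine ⟨k0, eg_LW w1 _ _ _ _ _ _, fun z => ?_, (d2_of k0).2, fun z => ?_⟩
  · rw [e]
    exact (abs_MG_bN hM hN hF 2 z).trans (by unfold c3; linarith)
  · have h5 := h2 (xs z)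
    rw [← MG_xs] at h5
    have h6 := abs_sub_le (MG (l :: L) u F 2 z) (MG (l :: L) u F 2 ((0 : ℝ) • spin)) (d2 D u F)
    have h7 := abs_nonneg (xs z)
    have h8 := mul_nonneg (show 0 ≤ c3 - Lsg89.cS bN 1 2 by unfold c3; linarith) h7
    have h9 := mul_nonneg (show 0 ≤ c3 - cD bN 2 0 by unfold c3; linarith) hX
    have h10 : |MG (l :: L) u F 2 ((0 : ℝ) • spin) - d2 D u F| ≤ cD bN 2 0 * D.X := by
      rw [abs_sub_comm]
      unfold d2 A0
      rw [e]
      exact h4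
    rw [e]
    linarith

theorem g1_facts (H : D.Ok τ0) :
    Fz D (GC (-1) (fun _ => 1) (D.S.drop D.J) spin (List.replicate 1 spin)) D.lam := by
  obtain ⟨l, L, e, hM, hx⟩ := exists_drop H
  obtain ⟨a, b, c, d, f, g⟩ := c3_parts
  have h2 := Lad.lip (abs_m_le hM) bN_nn (lad_gs l L) (lad_gs l L) (abs_gs_bN hM) (abs_gs_bN hM) 1
  have h3 : ∀ y, |gs (l :: L) 1 y| ≤ c3 := fun y =>
    (abs_gs_bN hM 1 y).trans (by unfold c3; linarith)
  refine ⟨eg_LW w1 _ _ _ _ _ _, fun z => ?_, ?_, fun z => ?_⟩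
  · rw [GC_spin, e]; exact h3 _
  · rw [Y14.lam_eq H, e]; exact h3 _
  · rw [GC_spin, Y14.lam_eq H, e]
    have h8 := mul_nonneg (show 0 ≤ c3 - Lsg89.cS bN 1 1 by unfold c3; linarith) (abs_nonneg (xs z))
    have h9 := mul_nonneg (zero_le_one.trans one_le_c3) H.X0
    linarith [h2 (xs z)]

/-- the site factor of two clusters split at `y` -/
def SV (D : CD) (y : ℕ) (A A' : (Bool → ℝ) → ℝ) : ℝ := node (fun _ => 1) D.S y (fun z =>
  node (fun _ => 1) (D.S.drop y) (D.J - y) A z * node (fun _ => 1) (D.S.drop y) (D.J - y) A' z) 0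

theorem SV_sub (H : D.Ok τ0) {y : ℕ} (hy : y ≤ D.J) {A A' : (Bool → ℝ) → ℝ} {a a' : ℝ}
    (h : Fz D A a) (h' : Fz D A' a') : |SV D y A A' - a * a'| ≤ 42 * c3 ^ 3 * D.X := by
  have h0 := one_le_c3
  have h1 := two_sub w1 h0 ((lg_xs.eg.abs.add (Eg.const D.X)).const_mul c3) h.1 h'.1 h.2.1 h'.2.1
    h.2.2.1 h'.2.2.1 h.2.2.2 h'.2.2.2 hy (cutS H).le 0
  rw [node_const_mul, node_add w1 lg_xs.eg.abs (Eg.const _), node_const w1] at h1
  refine h1.trans ?_
  have := node_xs H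
  calc _ ≤ 2 * c3 ^ 2 * (c3 * (20 * D.X + D.X)) := by beta_reduce; gcongr
    _ = _ := by ring

/-! ### the bulk factor -/

/-- two parallel edges -/
def bb (D : CD) (j : ℕ) : ℝ := (D.τ j / 2) ^ 2 * D.E2 j fun x y => ov x y ^ 2
/-- their size -/
def b1 (D : CD) (τ0 : ℝ) : ℝ := τ0 ^ 2 * (D.X ^ 2 + 2 * D.tl)

theorem b1_nn (H : D.Ok τ0) : 0 ≤ b1 D τ0 := by
  have := H.tl0
  unfold b1
  positivity

theorem bb_zero (D : CD) : bb D 0 = 0 := by simp [bb, CD.τ, oTau, OneP.dAcc_zero]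

theorem abs_bb_le (H : D.Ok τ0) {j : ℕ} (hj : j ≤ D.J) : |bb D j| ≤ b1 D τ0 := by
  rcases Nat.eq_zero_or_pos j with rfl | h0
  · rw [bb_zero, abs_zero]; exact b1_nn H
  have h1 := H.u_lo (CD.mem_lo.2 ⟨h0, hj⟩) 1
  have h2 := D.u0 2 j
  have e : (D.E2 j fun x y => ov x y ^ 2) = D.u 2 j := by
    simp only [CD.E2, CD.u, uM, oU, H.qlo j hj, sub_zero, sq_abs]
  obtain ⟨t0, t1⟩ := H.tau_mem j
  rw [bb, e, abs_of_nonneg (by positivity), b1]
  refine mul_le_mul (pow_le_pow_left₀ (by positivity) (by linarith) 2) (h1.trans_eq (by norm_num)) h2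
    (by positivity)

theorem Lc_bb (H : D.Ok τ0) (s : Sh) {a b : s.Lf} {j : ℕ} (hj : j ≤ D.J)
    (h : s.shr a b D.B.length = j) : R90.Lc (fun _ => 1) D.B 0 D.J Unit s
      (fun y => (D.τ j / 2 * ov (y a ()) (y b ())) ^ 2) = bb D j := by
  rw [Lc_pair wt_one90 (cutB H) s (h.trans_le hj) fun x y => (D.τ j / 2 * ov x y) ^ 2, h]
  simp only [mul_pow]
  rw [pi2_const_mul]
  rfl

theorem Lc_R2 (H : D.Ok τ0) (s : Sh) (c : s.Lf × s.Lf) : R90.Lc (fun _ => 1) D.B 0 D.J Unit s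
    (fun y => RR D (s.shr c.1 c.2 D.B.length) (y c.1) (y c.2) ^ 2) ≤ b1 D τ0 := by
  rcases le_or_gt (s.shr c.1 c.2 D.B.length) D.J with h | h
  · rw [RR_lo H h]
    exact (Lc_bb H s h rfl).trans_le ((le_abs_self _).trans (abs_bb_le H h))
  · simp only [RR_hi h, Pi.zero_apply, ne_eq, OfNat.ofNat_ne_zero, not_false_eq_true, zero_pow]
    exact (R90.Lc_const wt_one90 _ s 0).trans_le (b1_nn H)

theorem sum_bb (D : CD) : ∑ j ∈ Finset.range (D.J + 1), D.dx j * bb D j = D.S2 / 4 := by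
  rw [CD.S2, Finset.sum_div]
  refine (Finset.sum_subset (fun j hj => ?_) fun j h1 h2 => ?_).symm.trans
    (Finset.sum_congr rfl fun j _ => by rw [bb]; ring)
  · exact Finset.mem_range.2 (Nat.lt_succ_of_le (CD.mem_lo.1 hj).2)
  · obtain rfl : j = 0 := by
      have := Finset.mem_range.1 h1
      rw [CD.mem_lo] at h2
      omega
    rw [bb_zero, mul_zero]

theorem abs_low (H : D.Ok τ0) {T : ℕ → ℝ} {c : ℝ} (hc : 0 ≤ c) (h : ∀ y ≤ D.J, |T y| ≤ c) :
    |∑ y ∈ Finset.range (D.J + 1), D.dx y * T y| ≤ D.X * c := by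
  refine (abs_wsum _ H.dx0 fun y hy => h y (Nat.lt_succ_iff.1 (Finset.mem_range.1 hy))).trans ?_
  rw [← Finset.sum_mul, H.sum_dx]
  exact mul_le_mul_of_nonneg_right H.x1 hc

/-- the trivial kernel -/
abbrev OO (D : CD) : ℕ → (Unit → Cube D.n) → (Unit → Cube D.n) → ℝ := fun _ _ _ => 1
/-- the value of a tree -/
abbrev PT (D : CD) : EF := PhiB D.B.length (cB D) [OO D, OO D, RR D, RR D]
  [oE D.q, oE D.q, ZZ D, ZZ D]
/-- two low letters -/
def WW (D : CD) : EF := St (-1) D.B (lo D.J) (St (-1) D.B (lo D.J) (PT D))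

theorem bn_PT (H : D.Ok τ0) (N : ℕ) : Bn 4 N (32 * b1 D τ0) (PT D)
  | s, [a, b, c, d], _, _ => by
      have h1 := One15.abs_TE_le w1 s D.S 0 fun x => abs_prE_le (n := D.B.length) x
        [oE D.q, oE D.q, ZZ D, ZZ D] [a, b, c, d] fun K hK => by
          simp only [List.mem_cons, List.not_mem_nil, or_false] at hK
          rcases hK with rfl | rfl | rfl | rfl <;> exact abs_ZZ H
      have h2 : |R90.Lc (fun _ => 1) D.B 0 D.J Unit s
          (prE D.B.length [OO D, OO D, RR D, RR D] [a, b, c, d])| ≤ 2 * b1 D τ0 := by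
        refine (R90.abs_Lc_le wt_one90 _ s (G := fun y =>
          1 * RR D (s.shr c.1 c.2 D.B.length) (y c.1) (y c.2) ^ 2 +
            1 * RR D (s.shr d.1 d.2 D.B.length) (y d.1) (y d.2) ^ 2) fun y => ?_).trans ?_
        · simp only [prE_cons, prE_nil, one_mul, mul_one]
          set p := RR D (s.shr c.1 c.2 D.B.length) (y c.1) (y c.2)
          set q := RR D (s.shr d.1 d.2 D.B.length) (y d.1) (y d.2)
          exact abs_le.2 ⟨by nlinarith [sq_nonneg (p + q)], by nlinarith [sq_nonneg (p - q)]⟩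
        · rw [R90.Lc_lin]
          linarith [Lc_R2 H s c, Lc_R2 H s d]
      refine (abs_mul _ _).trans_le ((mul_le_mul h2 h1 (abs_nonneg _)
        (by linarith [b1_nn H])).trans ?_)
      norm_num
      linarith [b1_nn H]

/-- the exact value of two parallel low edges -/
theorem LE_two (H : D.Ok τ0) {y : ℕ} (hy : y ≤ D.J) {s : Sh} {e : Unit ⊕ Unit → s.Lf}
    (he : s.shr (e (.inl ())) (e (.inr ())) D.B.length = y) {cs : Low51.EL s} (hc : cs.length = 2)
    {d d' : Ed (Unit ⊕ Unit)} (hd : d = dA ∨ d = dB ∨ d = dP ∨ d = dQ) (hd' : d' = dP ∨ d' = dQ) :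
    LE (-1) D.J D.B [d, d'] (cs' (PT D)) s e cs = bb D y * LWm (-1) D.J D.B spin
      (TEf (fun _ => 1) D.S 0) (Y89.ends [d, d']) s e (prE D.B.length [oE D.q, oE D.q] cs) := by
  have h1 := LE_pq (ε := -1) (h := 0) wt_one90 (cutB H) rfl hy (RR_lo H hy)
    (fun x y => by rw [ov_symm]) (ZZ_lo H hy) (TEf (fun _ => 1) D.S 0) (p := .inl ()) (q := .inr ())
    [d, d'] (fun c hc => by
      simp only [List.mem_cons, List.not_mem_nil, or_false] at hc
      rcases hc with rfl | rfl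
      · rcases hd with rfl | rfl | rfl | rfl
        exacts [⟨⟨trivial, trivial⟩, .inl ⟨rfl, rfl⟩⟩, ⟨⟨trivial, trivial⟩, .inr ⟨rfl, rfl⟩⟩,
          ⟨⟨trivial, trivial⟩, .inl ⟨rfl, rfl⟩⟩, ⟨⟨trivial, trivial⟩, .inr ⟨rfl, rfl⟩⟩]
      · rcases hd' with rfl | rfl
        exacts [⟨⟨trivial, trivial⟩, .inl ⟨rfl, rfl⟩⟩, ⟨⟨trivial, trivial⟩, .inr ⟨rfl, rfl⟩⟩])
    [OO D, OO D] [oE D.q, oE D.q] s e cs hc.symm hc.symm he
  refine Eq.trans h1 (congrArg (· * _) (Eq.trans (congrArg _ (funext fun x => ?_))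
    (Lc_bb H s hy he)))
  match cs, hc with
  | [a, b], _ => simp only [prE_cons, prE_nil, one_mul, List.length_cons, List.length_nil]

/-! ### the two kinds of base trees -/

/-- the constant of the estimates -/
def c6 : ℝ := 50000000 + 168 * c3 ^ 3

theorem one_est (H : D.Ok τ0) (hu : u.br = 1) (hN : Fintype.card u.Lf ≤ 4)
    {F : (u.Lf → Bool) → ℝ} (hF : ∀ x, |F x| ≤ 4) {cs : Low51.EL (u.stp D.J)} (hc : cs.length = 2)
    (hξ : prE D.B.length [oE D.q, oE D.q] cs = fun x => F fun b => x (u.stI D.J b)) :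
    |WW D _ cs + D.S2 * (d2 D u F * D.lam)| ≤ c6 * (D.X ^ 2 * b1 D τ0) := by
  have b0 := b1_nn H
  have hX := H.X0
  have c0 := one_le_c3
  have k1 := W_one (β := 32 * b1 D τ0) (Ψ := PT D) H.mono (cutB H) (by positivity) (cs := cs) (by rw [hc]; exact bn_PT H 9)
    ((card_stp u _).trans_le hN) (sk_stp hu (cutB H)) (v := fun y => bb D y * SV D y
      (MG (D.S.drop D.J) u F 2) (GC (-1) (fun _ => 1) (D.S.drop D.J) spin (List.replicate 1 spin)))
    fun y hy d d' hd hd' => by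
      refine (LE_two (e := mk2 (u.stp D.J) (u.stI D.J u.fst) y) H hy ((shr_nw _ _ _ _ _).trans
        ((shr_self _ _ _).trans (min_eq_left (hy.trans (cutB H).le)))) ((List.length_map _).trans hc)
        (hd.imp_right .inl) hd').trans (mc ?_)
      have e : prE D.B.length [oE D.q, oE D.q] (mv ((u.stp D.J).emb (u.stI D.J u.fst) y) cs) =
          fun x => F fun b => x ((u.stp D.J).emb (u.stI D.J u.fst) y (u.stI D.J b)) :=
        funext fun x => (prE_mv (fun a b => shr_emb _ _ _ a b _) x _ _).trans (congrFun hξ _)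
      have g := fun W : List (Unit ⊕ Unit) => LW_gr (ε := -1) w1 hu u.fst F spin
        (W.map fun a => (a, spin)) y D.S D.J hy (cutS H).le 0
      simp only [← LW_tilt (tiltB D), ← LWm_leg] at g
      refine Eq.trans (congrArg (LWm (-1) D.J D.B spin _ _ _ _) e) ?_
      rcases hd with rfl | rfl <;> rcases hd' with rfl | rfl
      · exact g [.inl (), .inr (), .inl ()]
      · exact g [.inl (), .inl (), .inr ()]
      · exact (LWm_swap spin _ _ _ _ _ _ _).trans (g [.inl (), .inr (), .inl ()])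
      · exact (LWm_swap spin _ _ _ _ _ _ _).trans (g [.inl (), .inl (), .inr ()])
  have k2 := abs_low H (T := fun y => bb D y * (SV D y (MG (D.S.drop D.J) u F 2)
    (GC (-1) (fun _ => 1) (D.S.drop D.J) spin (List.replicate 1 spin)) - d2 D u F * D.lam))
    (c := b1 D τ0 * (42 * c3 ^ 3 * D.X)) (by positivity) fun y hy => by
      rw [abs_mul]
      exact mul_le_mul (abs_bb_le H hy) (SV_sub H hy (mg_facts H hu hN hF).2 (g1_facts H))
        (abs_nonneg _) b0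
  simp only [mul_sub, Finset.sum_sub_distrib, ← mul_assoc _ (bb D _) (d2 D u F * D.lam),
    ← Finset.sum_mul, sum_bb] at k2
  have k3 : ex D.B D.J ^ 2 * (32 * b1 D τ0) ≤ D.X ^ 2 * (32 * b1 D τ0) :=
    mul_le_mul_of_nonneg_right (pow_le_pow_left₀ (H.ex0 _) H.x1 2) (by positivity)
  have k4 := mul_nonneg (sq_nonneg D.X) b0
  unfold WW c6
  rw [abs_le] at k1 k2 ⊢
  constructor <;> linarith [k1.1, k1.2, k2.1, k2.2]

/-- the marked pair -/
def pj (D : CD) (r k : ℕ) : ((Sh.two r).Lf → Bool) → ℝ := pr2 r (oE D.q k)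

theorem pj_facts (H : D.Ok τ0) {k : ℕ} (hk : k ∈ D.up) :
    Sm 2 c3 (A0 D _ (pj D (k - D.J) k)) ∧
      Fz D (MG (D.S.drop D.J) _ (pj D (k - D.J) k) 2) (d2 D _ (pj D (k - D.J) k)) := by
  obtain ⟨k1, k2⟩ := CD.mem_up.1 hk
  obtain ⟨r, hr⟩ : ∃ r, k - D.J = r + 1 := ⟨k - D.J - 1, by omega⟩
  rw [hr]
  exact mg_facts H rfl ((Wt87.card_two _).trans_le (by norm_num)) fun x =>
    (abs_ZZ H k (D.B_len ▸ k2.le) _ _).trans (by norm_num)

theorem MG_two (B : List (Lv Bool)) (r : ℕ) (F : ((Sh.two r).Lf → Bool) → ℝ) (k : ℕ) :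
    MG B (.two r) F k = fun z => LW (-1) 0 B (List.replicate k ((), spin))
      (cst (TEf (fun _ => 1) B z)) (.two r) (fun _ => Sh.twoL r) F :=
  funext fun z => by rw [Lsg89.MG, fst_two]

/-- the tree with a second marked cluster -/
def W3 (D : CD) (s : Sh) (a b : s.Lf) (y k : ℕ) : ℝ := WW D ((s.graft a y).graft (s.nw a y) k)
  [((s.graft a y).emb _ k (s.emb a y a), (s.graft a y).emb _ k (s.emb a y b)),
    ((s.graft a y).emb _ k (s.nw a y), (s.graft a y).nw _ k)]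

theorem two_est (H : D.Ok τ0) {j k y : ℕ} (hj : j ∈ D.up) (hk : k ∈ D.up) (hy : y ≤ D.J) :
    |W3 D ((Sh.two (j - D.J)).stp D.J) (Sh.stI _ D.J (Sh.twoL _)) (Sh.stI _ D.J (Sh.twoR _)) y k -
      4 * (bb D y * (d2 D _ (pj D (j - D.J) j) * d2 D _ (pj D (k - D.J) k)))| ≤
      c6 * (D.X * b1 D τ0) := by
  have b0 := b1_nn H
  have hX := H.X0
  have c0 := one_le_c3
  have f1 := (pj_facts H hj).2
  have f2 := (pj_facts H hk).2
  obtain ⟨j1, j2⟩ := CD.mem_up.1 hj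
  obtain ⟨k1, k2⟩ := CD.mem_up.1 hk
  obtain ⟨r, rfl⟩ : ∃ r, j = r + 1 + D.J := ⟨j - D.J - 1, by omega⟩
  obtain ⟨r', rfl⟩ : ∃ r', k = r' + 1 + D.J := ⟨k - D.J - 1, by omega⟩
  obtain ⟨n, hn⟩ : ∃ n, D.B.length = n + D.J := ⟨D.B.length - D.J, by have := cutB H; omega⟩
  have hK := D.B_len
  have hr : r + 1 + D.J - D.J = r + 1 := Nat.add_sub_cancel ..
  have hr' : r' + 1 + D.J - D.J = r' + 1 := Nat.add_sub_cancel ..
  rw [hr] at f1
  rw [hr'] at f2
  rw [hr, hr']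
  set s := (Sh.two (r + 1)).stp D.J with hs
  set m := (Sh.two (r + 1)).stI D.J (Sh.twoL (r + 1)) with hm
  have k1 := W_two (β := 32 * b1 D τ0) (Ψ := PT D)
    (s := (s.graft m y).graft (s.nw m y) (r' + 1 + D.J)) H.mono (cutB H) (by positivity)
    (cs := [((s.graft m y).emb _ _ (s.emb m y m),
      (s.graft m y).emb _ _ (s.emb m y ((Sh.two (r + 1)).stI D.J (Sh.twoR (r + 1))))),
      ((s.graft m y).emb _ _ (s.nw m y), (s.graft m y).nw _ _)]) (bn_PT H 8)
    (by rw [card_graft, card_graft, hs, card_stp, Wt87.card_two]) (e := mk3 s m y (r' + 1 + D.J))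
    ((two_gr (shr_stp rfl D.J m) hy).graft _ k1) (v := bb D y * SV D y
      (MG (D.S.drop D.J) _ (pj D (r + 1) (r + 1 + D.J)) 2)
      (MG (D.S.drop D.J) _ (pj D (r' + 1) (r' + 1 + D.J)) 2)) fun d d' hd hd' => by
      refine (LE_two (e := mk3 s m y (r' + 1 + D.J)) H hy ((shr_emb _ _ _ _ _ _).trans ((shr_nw _ _ _ _ _).trans
        ((shr_self _ _ _).trans (min_eq_left (hy.trans (cutB H).le))))) rfl
        (.inr (.inr hd)) hd').trans (mc ?_)
      have g := fun W : List (Unit ⊕ Unit) => LW_gr2 (ε := -1) (u := .two (r + 1)) w1 rfl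
        (Sh.twoL _) (pj D (r + 1) (r + 1 + D.J)) (r' + 1) (oE D.q (r' + 1 + D.J))
        (W.map fun a => (a, spin)) y D.S D.J hy (cutS H).le 0
      simp only [← LW_tilt (tiltB D), ← LWm_leg] at g
      rw [SV, MG_two, MG_two]
      refine Eq.trans (congrArg (LWm (-1) D.J D.B spin _ _ _ _) (funext fun x => ?_)) (?_ :
        LWm (-1) D.J D.B spin _ (Y89.ends [d, d']) _ (mk3 s m y (r' + 1 + D.J)) (fun x =>
          pj D (r + 1) (r + 1 + D.J) (fun b => x ((s.graft m y).emb _ (r' + 1 + D.J)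
            (s.emb m y ((Sh.two (r + 1)).stI D.J b)))) * oE D.q (r' + 1 + D.J)
              (x (mk3 s m y (r' + 1 + D.J) (.inr ()))) (x ((s.graft m y).nw _ (r' + 1 + D.J)))) = _)
      · rw [prE_cons, prE_cons, prE_nil, mul_one, shr_emb, shr_emb, shr_nw, shr_self,
          min_eq_left (by omega), hn, Clu22.shr_stI, shr_two, min_eq_left (by omega)]
        rfl
      · rcases hd with rfl | rfl <;> rcases hd' with rfl | rfl
        · exact g [.inr (), .inl (), .inr (), .inl ()]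
        · exact g [.inr (), .inl (), .inl (), .inr ()]
        · exact g [.inl (), .inr (), .inr (), .inl ()]
        · exact g [.inl (), .inr (), .inl (), .inr ()]
  have k2 := mul_le_mul (abs_bb_le H hy) (SV_sub H hy f1 f2) (abs_nonneg _) b0
  rw [← abs_mul, mul_sub] at k2
  have k3 : ex D.B D.J * (32 * b1 D τ0) ≤ D.X * (32 * b1 D τ0) :=
    mul_le_mul_of_nonneg_right H.x1 (by positivity)
  have k4 := mul_nonneg hX b0
  unfold W3 WW c6
  rw [abs_le] at k1 k2 ⊢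
  constructor <;> linarith [k1.1, k1.2, k2.1, k2.2]

end Crest.Agent.T156.Cas.C40.Mt14

end
end

-- ▼ part T156/CMxV_14

/-!
# Row 156, block C (helper14): `MxM true`
-/

set_option autoImplicit false
set_option linter.all false

noncomputable section

namespace Crest.Agent.T156.Cas.C40.Mt14

open MeasureTheory Real Set Filter Topology
open Crest.Agent.T157.E Crest.Agent.T157.Casc Crest.Agent.T157.SL
open Crest.ProbabilityR.SpinGlassDynamics (spin)
open Wt87 (shr_two fst_two)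
open Leg51 Low51 Lsg89 L90 One15 Mul55 Mx14
open Y4 (RR ZZ RR_hi cutS tiltB monoS abs_ZZ exists_drop cB_zero)
open Mx23 (pL pM MxM)

variable {D : CD} {τ0 : ℝ}

theorem cS_lo {j : ℕ} (h : j ≤ D.J) : L90.cS D j = 0 := if_neg (not_lt.2 h)

theorem Sd_cS (D : CD) (j : ℕ) (a b : Bool) : D.Sd j a b = L90.cS D j * oE D.q j a b := by
  unfold CD.Sd L90.cS
  split_ifs
  · rfl
  · rw [zero_mul]

theorem sum_up (H : D.Ok τ0) {Θ : Type} {L : List (Lv Θ)} (hL : D.B.map Lv.m = L.map Lv.m) {i : ℕ}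
    (hi : i ≤ D.J) {g : ℕ → ℝ} (h : ∀ j ≤ D.J, g j = 0) :
    ∑ j ∈ Finset.range (L.length - i + 1), dm (L.drop i) 0 j * g (j + i) = D.I g := by
  have lS : L.length = D.K := (Cav22.len_tilt hL).symm.trans D.B_len
  have hc := H.cut
  rw [Wt87.sum_dm_drop L (by omega) g, h i hi, mul_zero, zero_add, lS]
  simp only [← Cav22.dm_tilt hL 0]
  refine (Finset.sum_subset (fun j hj => ?_) fun j hj hj' => ?_).symm
  · simp only [Finset.mem_Ioo, Finset.mem_Ioc] at hj ⊢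
    omega
  · simp only [Finset.mem_Ioo, Finset.mem_Ioc] at hj hj'
    rcases le_or_gt j D.J with h1 | h1
    · rw [h j h1, mul_zero]
    · rw [show j = D.K by omega]
      exact (congrArg (· * _) H.top).trans (zero_mul _)

theorem sum_T (H : D.Ok τ0) {g : ℕ → ℝ} (h : ∀ j ≤ D.J, g j = 0) :
    ∑ j ∈ Finset.range ((D.S.drop D.J).length + 1), dm (D.S.drop D.J) 0 j * g (j + D.J) = D.I g := by
  rw [List.length_drop]
  exact sum_up H (tiltB D) le_rfl h

theorem abs_I (H : D.Ok τ0) {a b : ℕ → ℝ} (h : ∀ j ∈ D.up, |a j| ≤ b j) : |D.I a| ≤ D.I b :=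
  abs_wsum _ H.dx0 h

/-! ### the word -/

/-- the term of one marked pair -/
def Xi (D : CD) (P : P2) : ℝ := sg (-1) D.B P.s fun τ =>
  L90.cS D τ.j * WW D τ.sh [(τ.e P.a, τ.e P.b), (τ.p, τ.q)]

theorem term_eq (H : D.Ok τ0) {j : ℕ} (hj : j ≤ D.B.length) :
    wB (-1) D.B (cB D) ([pM D, pL D, pL D].map cc) (Sh.two j) (fun _ => 1) (pr2 j (oE D.q j)) =
      Xi D ⟨.two j, Sh.twoL j, Sh.twoR j⟩ := by
  refine sg_congr _ _ _ fun τ hτ => ?_
  have h1 := wB_St (ε := -1) (i := D.J) (M := D.B) (cB_zero D) [c1 D aL, c1 D aL] (fun p hp k hk => by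
    simp only [List.mem_cons, List.not_mem_nil, or_false, or_self] at hp
    rw [hp]
    exact RR_hi hk) [OO D, OO D] [oE D.q, oE D.q] τ.sh
    [(τ.e (Sh.twoL j), τ.e (Sh.twoR j)), (τ.p, τ.q)] rfl rfl
  refine Eq.trans ?_ ((wB_mul (fun s G c ξ => ?_) _ _ _ (L90.cS D τ.j) _).trans (mc h1))
  · refine congrArg₂ (wB (-1) D.B (cB D) [c1 D aL, c1 D aL] τ.sh) (funext fun x => ?_)
      (funext fun x => ?_)
    · simp only [List.cons_append, prE_cons, prE_nil]
      exact (mul_one _).trans (by norm_num)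
    · simp only [List.cons_append, prE_cons, prE_nil, hτ.shr, hτ.shr_e, shr_two, min_eq_left hj]
      refine Eq.trans (mc (Sd_cS D _ _ _)) ?_
      rw [mul_one, mul_left_comm]
      rfl
  · simp only [cB, TEf, Law.TE_const_mul w1, mul_left_comm c]

/-- the shifted site kernel -/
def oJ (D : CD) : ℕ → Bool → Bool → ℝ := fun k => oE D.q (k + D.J)

/-- the term of a tree with all grafts above the cut -/
def Wu (D : CD) {r : ℕ} (τ : GT (Sh.two r)) : ℝ := WW D (τ.sh.stp D.J)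
  [(τ.sh.stI D.J (τ.e (Sh.twoL r)), τ.sh.stI D.J (τ.e (Sh.twoR r))),
    (τ.sh.stI D.J τ.p, τ.sh.stI D.J τ.q)]

theorem Xi_eq (H : D.Ok τ0) (r : ℕ) :
    Xi D ⟨.two (r + 1 + D.J), Sh.twoL _, Sh.twoR _⟩ =
      (usg (-1) 0 (D.S.drop D.J) (.two (r + 1)) fun τ => L90.cS D (τ.j + D.J) * Wu D τ) +
      ∑ y ∈ Finset.range (D.J + 1), D.dx y * D.I fun k => L90.cS D k *
        W3 D ((Sh.two (r + 1)).stp D.J) (Sh.stI _ D.J (Sh.twoL _)) (Sh.stI _ D.J (Sh.twoR _)) y k := by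
  rw [two_stp, Xi, sg_up (cutB H).le fun τ hτ => by rw [cS_lo hτ, zero_mul]]
  refine ac ?_ ?_
  · rw [usg_stp _ _ (cutB H).le, usg_tilt (Cav22.drop_tilt (tiltB D) D.J)]
    simp only [upG, stJ_stI]
    rfl
  · rw [low3, Finset.sum_comm]
    refine Finset.sum_congr rfl fun y hy => ?_
    have hy' := Nat.lt_succ_iff.1 (Finset.mem_range.1 hy)
    refine ((sk_stp (u := .two (r + 1)) rfl (cutB H)).wt y hy' _).trans ?_
    rw [Wt87.sum_one, fst_two]
    exact congrArg₂ (· * ·) (cw_one _ _ _) (sum_up H rfl hy' (g := fun k => L90.cS D k * W3 D ((Sh.two (r + 1)).stp D.J)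
      (Sh.stI _ D.J (Sh.twoL _)) (Sh.stI _ D.J (Sh.twoR _)) y k) fun k hk => by
        rw [cS_lo hk, zero_mul])

/-! ### the site head -/

/-- the marked pair in the field `y` -/
def Aj (D : CD) (k : ℕ) : ℝ → ℝ := A0 D _ (pj D (k - D.J) k)
/-- its second derivative -/
def m2 (D : CD) (k : ℕ) : ℝ := d2 D _ (pj D (k - D.J) k)

theorem Aj_add (D : CD) (r : ℕ) : Aj D (r + D.J) = A0 D _ (pj D r (r + D.J)) := by
  unfold Aj
  rw [Nat.add_sub_cancel]

theorem um_facts (H : D.Ok τ0) {r j : ℕ} (hj : j ≤ D.B.length) {τ : GT (Sh.two (r + 1))}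
    (h : UM (D.S.drop D.J).length _ τ) : τ.sh.br = 1 ∧ Fintype.card τ.sh.Lf ≤ 4 ∧
      ∀ x, |τ.ev (oJ D) (pj D (r + 1) j) x| ≤ 4 := by
  refine ⟨h.2.1, h.1.card.trans_eq (by rw [Wt87.card_two]), fun x => ?_⟩
  have h1 := h.1.le
  have h2 := cutS H
  rw [List.length_drop] at h1
  have h3 := Cav22.len_tilt (tiltB D)
  refine (abs_mul _ _).trans_le ((mul_le_mul (abs_ZZ H j hj _ _) (abs_ZZ H (τ.j + D.J) (by omega) _ _)
    (abs_nonneg _) zero_le_two).trans (by norm_num))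

theorem dop_eq (H : D.Ok τ0) (r j : ℕ) (y : ℝ) :
    twoF (r + 1) (oE D.q j) (Dop (D.S.drop D.J) (fun k => D.Sd (k + D.J))
      (TEf (fun _ => 1) (D.S.drop D.J) (y • spin))) =
      (usg (-1) 0 (D.S.drop D.J) (.two (r + 1)) fun τ => L90.cS D (τ.j + D.J) *
        A0 D τ.sh (τ.ev (oJ D) (pj D (r + 1) j)) y) +
      dm (D.S.drop D.J) 0 0 * D.I fun k => L90.cS D k * (A0 D _ (pj D (r + 1) j) y * Aj D k y) := by
  have hT : 0 < (D.S.drop D.J).length := by
    rw [List.length_drop]; have := cutS H; omega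
  have e1 : ∀ τ : GT (Sh.two (r + 1)), TEf (fun _ => 1) (D.S.drop D.J) (y • spin) τ.sh
      (τ.ev (fun k => D.Sd (k + D.J)) (pj D (r + 1) j)) =
      L90.cS D (τ.j + D.J) * A0 D τ.sh (τ.ev (oJ D) (pj D (r + 1) j)) y := fun τ =>
    Eq.trans (congrArg _ (funext fun x => (mc (Sd_cS D _ _ _)).trans (mul_left_comm _ _ _)))
      (Law.TE_const_mul w1 _ _ _ _ _)
  refine (Dop_eq_sg _ _ _ _ _).trans ((congrArg _ (funext e1)).trans ?_)
  rw [sg_up (Nat.zero_le _) fun τ hτ => by rw [cS_lo (by omega), zero_mul]]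
  refine ac rfl ?_
  rw [low3, Finset.sum_comm, Finset.sum_range_one]
  refine ((sk_stp (u := .two (r + 1)) (i := 0) rfl hT).wt 0 le_rfl _).trans ?_
  rw [Wt87.sum_one, fst_two, ← sum_T H fun k hk => by rw [cS_lo hk, zero_mul]]
  refine congrArg₂ (· * ·) (cw_one _ _ _) (Finset.sum_congr rfl fun k _ => mc (mc ?_))
  have g := LW_gr2 (ε := -1) (u := .two (r + 1)) w1 rfl (Sh.twoL _) (pj D (r + 1) j) k
    (oE D.q (k + D.J)) [] 0 (D.S.drop D.J) 0 le_rfl (Nat.zero_le _) (y • spin)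
  simp only [node_zero, Nat.sub_self] at g
  rw [Aj_add]
  exact g

/-- the upper part of the site head -/
def Uj (D : CD) (j : ℕ) : ℝ := usg (-1) 0 (D.S.drop D.J) (.two (j - D.J)) fun τ =>
  L90.cS D (τ.j + D.J) * d2 D τ.sh (τ.ev (oJ D) (pj D (j - D.J) j))
/-- two independent pairs -/
def p2 (D : CD) (j k : ℕ) : ℝ := iteratedDeriv 2 (fun y => Aj D j y * Aj D k y) 0
/-- the lower part -/
def Lq (D : CD) (j : ℕ) : ℝ := dm (D.S.drop D.J) 0 0 * D.I fun k => L90.cS D k * p2 D j k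

theorem D2.I {F : ℕ → ℝ → ℝ} {v : ℕ → ℝ} (h : ∀ k ∈ D.up, D2 (F k) (v k)) :
    D2 (fun y => D.I fun k => L90.cS D k * F k y) (D.I fun k => L90.cS D k * v k) :=
  D2.sum _ fun k hk => ((h k hk).mul _).mul _

theorem p2_facts (H : D.Ok τ0) {j k : ℕ} (hj : j ∈ D.up) (hk : k ∈ D.up) :
    D2 (fun y => Aj D j y * Aj D k y) (p2 D j k) ∧ |p2 D j k| ≤ 2 ^ 2 * (c3 * c3) :=
  d2_of ((pj_facts H hj).1.mul (pj_facts H hk).1)

theorem dP_nil (H : D.Ok τ0) (hW : D.W.isSome = true) :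
    D.dP 2 [] = -∑ j ∈ D.up, D.om j * m2 D j := by
  simp only [CD.dP, CD.sH, CD.dd_test hW]
  exact congrArg Neg.neg (D2.sum D.up fun j hj => (d2_of (pj_facts H hj).1).1.mul (D.om j)).eq

theorem dP_val (H : D.Ok τ0) : D.val.dP 2 [D.Sd] = -D.I fun k => L90.cS D k * m2 D k := by
  refine congrArg Neg.neg (Eq.trans (congrArg (iteratedDeriv 2 · 0) (funext fun y => ?_))
    (D2.I (F := Aj D) fun k hk => (d2_of (pj_facts H hk).1).1).eq)
  rw [← sum_T H fun k hk => by rw [cS_lo hk, zero_mul]]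
  show pairF (D.S.drop D.J) (fun k => D.Sd (k + D.J)) (TEf (fun _ => 1) (D.S.drop D.J) (y • spin)) = _
  refine Finset.sum_congr rfl fun k _ => mc ?_
  rw [Aj_add]
  exact Eq.trans (congrArg (TE _ _ _ _) (funext fun x => Sd_cS D _ _ _)) (Law.TE_const_mul w1 _ _ _ _ _)

theorem dP_test (H : D.Ok τ0) (hW : D.W.isSome = true) :
    D.dP 2 [D.Sd] = -∑ j ∈ D.up, D.om j * (Uj D j + Lq D j) := by
  simp only [CD.dP, CD.sH, CD.dd_test hW]
  refine congrArg Neg.neg (D2.sum D.up fun j hj => D2.mul ?_ (D.om j)).eq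
  have h1 := (D2.I (F := fun k y => Aj D j y * Aj D k y) fun k hk => (p2_facts H hj hk).1).mul
    (dm (D.S.drop D.J) 0 0)
  obtain ⟨k1, k2⟩ := CD.mem_up.1 hj
  obtain ⟨r, hr⟩ : ∃ r, j - D.J = r + 1 := ⟨j - D.J - 1, by omega⟩
  unfold Uj Lq
  rw [show Aj D j = A0 D _ (pj D (r + 1) j) by unfold Aj; rw [hr]] at h1
  rw [hr]
  refine (congrArg (D2 · _) (funext fun y => dop_eq H r j y)).mpr (D2.add (D2.usg fun τ hτ => ?_) h1)
  obtain ⟨a, b, c⟩ := um_facts H (D.B_len ▸ k2.le) hτ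
  exact (d2_of (mg_facts H a b c).1).1.mul _

/-! ### the estimate -/

theorem abs_S2 (H : D.Ok τ0) : |D.S2| ≤ 4 * (D.X * b1 D τ0) := by
  have h := abs_low H (b1_nn H) fun y hy => abs_bb_le H hy
  rw [sum_bb, abs_div, abs_of_pos (by norm_num : (0 : ℝ) < 4)] at h
  linarith

theorem abs_Lq (H : D.Ok τ0) {j : ℕ} (hj : j ∈ D.up) :
    |Lq D j| ≤ D.X * (2 ^ 2 * (c3 * c3) * D.I fun k => |L90.cS D k|) := by
  obtain ⟨l, L, e, hM, hx⟩ := exists_drop H
  rw [Lq, abs_mul, ← D.I_mul]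
  refine mul_le_mul ?_ (abs_I H fun k hk => ?_) (abs_nonneg _) H.X0
  · rw [e]
    show |l.m - 0| ≤ _
    rwa [sub_zero, abs_of_nonneg hM.1]
  · rw [abs_mul, mul_comm]
    exact mul_le_mul_of_nonneg_right (p2_facts H hj hk).2 (abs_nonneg _)

theorem c6_nn : 0 ≤ c6 := by
  have := one_le_c3
  unfold c6
  positivity

theorem up_est (H : D.Ok τ0) {j : ℕ} (hj : j ∈ D.up) :
    |(usg (-1) 0 (D.S.drop D.J) (.two (j - D.J)) fun τ => L90.cS D (τ.j + D.J) * Wu D τ) +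
      D.S2 * (D.lam * Uj D j)| ≤
      c6 * (D.X ^ 2 * b1 D τ0) * (40 * (2 * |L90.cS D j| + D.I fun k => |L90.cS D k|)) := by
  obtain ⟨j1, j2⟩ := CD.mem_up.1 hj
  obtain ⟨r, rfl⟩ : ∃ r, j = r + 1 + D.J := ⟨j - D.J - 1, by omega⟩
  have hM := Cav22.mono_drop D.J (monoS H)
  have hK := D.B_len
  have hS := Cav22.len_tilt (tiltB D)
  have hn : D.B.length = (D.S.drop D.J).length + D.J := by rw [List.length_drop]; omega
  have c0 := mul_nonneg c6_nn (mul_nonneg (sq_nonneg D.X) (b1_nn H))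
  unfold Uj
  rw [Nat.add_sub_cancel, ← mul_assoc, ← usg_mul, ← usg_add]
  refine (abs_usg_le hM (Ψ := fun τ => c6 * (D.X ^ 2 * b1 D τ0) * |L90.cS D (τ.j + D.J)|)
    fun τ hτ => ?_).trans ?_
  · obtain ⟨a, b, c⟩ := um_facts H (j := r + 1 + D.J) (by omega) hτ
    have h1 := one_est H a b c (cs := [(τ.sh.stI D.J (τ.e (Sh.twoL _)), τ.sh.stI D.J (τ.e (Sh.twoR _))),
      (τ.sh.stI D.J τ.p, τ.sh.stI D.J τ.q)]) rfl (funext fun x => by
        rw [prE_cons, prE_cons, prE_nil, mul_one, hn, Clu22.shr_stI, Clu22.shr_stI, hτ.1.shr,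
          hτ.1.shr_e, shr_two, min_eq_left (by omega)]
        rfl)
    refine (congrArg abs (?_ : _ = (Wu D τ + D.S2 * (d2 D τ.sh (τ.ev (oJ D)
      (pj D (r + 1) (r + 1 + D.J))) * D.lam)) * L90.cS D (τ.j + D.J))).trans_le ?_
    · ring
    · rw [abs_mul]
      exact mul_le_mul_of_nonneg_right h1 (abs_nonneg _)
  · rw [usg_mul]
    refine mul_le_mul_of_nonneg_left ((usg_le_sg hM (Nat.zero_le _) (G := fun k => |L90.cS D (k + D.J)|)
      (fun _ => abs_nonneg _) fun k hk => by rw [cS_lo (by omega), abs_zero]).trans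
      ((Ker15.sg_lvl hM _ (g := fun k => |L90.cS D (k + D.J)|) fun _ => abs_nonneg _).trans_eq ?_)) c0
    rw [Nv, Tay38.prs_two, shr_comm _ (Sh.twoR _), shr_two, min_eq_left (by omega), Wt87.card_two,
      sum_T H (g := fun k => |L90.cS D k|) fun k hk => by rw [cS_lo hk, abs_zero]]
    push_cast
    ring

theorem low_est (H : D.Ok τ0) {j : ℕ} (hj : j ∈ D.up) :
    |(∑ y ∈ Finset.range (D.J + 1), D.dx y * D.I fun k => L90.cS D k *
      W3 D ((Sh.two (j - D.J)).stp D.J) (Sh.stI _ D.J (Sh.twoL _)) (Sh.stI _ D.J (Sh.twoR _)) y k) -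
      D.S2 * (m2 D j * D.I fun k => L90.cS D k * m2 D k)| ≤
      D.X * (c6 * (D.X * b1 D τ0) * D.I fun k => |L90.cS D k|) := by
  have c0 := mul_nonneg c6_nn (mul_nonneg H.X0 (b1_nn H))
  refine le_of_eq_of_le (congrArg abs ?_) (abs_low H (T := fun y => D.I (fun k => L90.cS D k *
    W3 D ((Sh.two (j - D.J)).stp D.J) (Sh.stI _ D.J (Sh.twoL _)) (Sh.stI _ D.J (Sh.twoR _)) y k) +
      -(4 * m2 D j * bb D y) * D.I fun k => L90.cS D k * m2 D k)
    (mul_nonneg c0 (H.I0 fun _ _ => abs_nonneg _)) fun y hy => ?_)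
  · have e := sum_bb D
    simp only [mul_add, Finset.sum_add_distrib]
    rw [sub_eq_add_neg]
    refine ac rfl (Eq.symm ((Finset.sum_congr rfl fun y _ => (?_ : _ = -(4 * m2 D j * D.I fun k =>
      L90.cS D k * m2 D k) * (D.dx y * bb D y))).trans ?_))
    · ring
    · rw [← Finset.mul_sum, e]
      ring
  · rw [← D.I_mul, ← D.I_add, ← D.I_mul]
    refine abs_I H fun k hk => (congrArg abs (?_ : _ = (W3 D ((Sh.two (j - D.J)).stp D.J)
      (Sh.stI _ D.J (Sh.twoL _)) (Sh.stI _ D.J (Sh.twoR _)) y k -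
        4 * (bb D y * (m2 D j * m2 D k))) * L90.cS D k)).trans_le ?_
    · ring
    · rw [abs_mul]
      exact mul_le_mul_of_nonneg_right (two_est H hj hk hy) (abs_nonneg _)

/-- the constant -/
def c7 : ℝ := 80 * c6 + 16 * c3 ^ 3

theorem term_est (H : D.Ok τ0) {j : ℕ} (hj : j ∈ D.up) :
    |wB (-1) D.B (cB D) ([pM D, pL D, pL D].map cc) (Sh.two j) (fun _ => 1) (pr2 j (oE D.q j)) -
      D.S2 * ((m2 D j * D.I fun k => L90.cS D k * m2 D k) - D.lam * (Uj D j + Lq D j))| ≤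
      c7 * (D.X ^ 2 * b1 D τ0 * (|L90.cS D j| + D.I fun k => |L90.cS D k|)) := by
  have h1 := up_est H hj
  have h2 := low_est H hj
  have c0 := one_le_c3
  have b0 := b1_nn H
  have hX := H.X0
  have I0 : 0 ≤ D.I fun k => |L90.cS D k| := H.I0 fun _ _ => abs_nonneg _
  have h3 : |D.S2 * (D.lam * Lq D j)| ≤ 4 * (D.X * b1 D τ0) *
      (c3 * (D.X * (2 ^ 2 * (c3 * c3) * D.I fun k => |L90.cS D k|))) := by
    rw [abs_mul, abs_mul]
    exact mul_le_mul (abs_S2 H) (mul_le_mul (g1_facts H).2.2.1 (abs_Lq H hj) (abs_nonneg _)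
      (by positivity)) (by positivity) (by positivity)
  obtain ⟨j1, j2⟩ := CD.mem_up.1 hj
  rw [term_eq H (D.B_len ▸ j2.le)]
  obtain ⟨r, rfl⟩ : ∃ r, j = r + 1 + D.J := ⟨j - D.J - 1, by omega⟩
  rw [Nat.add_sub_cancel] at h1 h2
  rw [Xi_eq H]
  have k0 := mul_nonneg (sq_nonneg D.X) b0
  have k1 := mul_nonneg c6_nn (mul_nonneg k0 I0)
  have k2 := mul_nonneg (pow_nonneg (zero_le_one.trans c0) 3)
    (mul_nonneg k0 (abs_nonneg (L90.cS D (r + 1 + D.J))))
  unfold c7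
  rw [abs_le] at h1 h2 h3 ⊢
  constructor <;> linarith [h1.1, h1.2, h2.1, h2.2, h3.1, h3.2]

theorem cS_le_g (H : D.Ok τ0) (j : ℕ) : |L90.cS D j| ≤ τ0 * D.g j := by
  have h1 : |D.del j| ≤ D.u 1 j := abs_del D fun x y => (pow_one _).ge
  have h2 := Ck32.u_le_g (D := D) (p := 1) (by norm_num) j
  have h3 := H.tau_mem j
  have h4 := D.g0 j
  rw [pow_one] at h2
  unfold L90.cS
  split_ifs
  · rw [abs_mul, abs_of_nonneg (by linarith [h3.1])]
    nlinarith [abs_nonneg (D.del j), h3.1, h3.2]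
  · rw [abs_zero]
    exact mul_nonneg H.tau0 h4

theorem size_le (H : D.Ok τ0) {a g : ℝ} (a0 : 0 ≤ a) (h1 : a ≤ τ0) (h2 : a ≤ τ0 * g) :
    D.X ^ 2 * b1 D τ0 * a ≤ τ0 ^ 3 * (D.X ^ 4 * g + 2 * D.tl) := by
  have t0 := H.tau0
  have k1 := mul_le_mul_of_nonneg_left h2 (pow_nonneg H.X0 4)
  have k2 := mul_le_mul (mul_le_of_le_one_left H.tl0 (pow_le_one₀ (n := 2) H.X0 H.X1)) h1 a0 H.tl0
  have k3 := mul_le_mul_of_nonneg_left (add_le_add k1 (add_le_add k2 k2)) (sq_nonneg τ0)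
  unfold b1
  linarith

theorem hc_true : Bd true fun D => hc D [pM D, pL D, pL D] - D.S2 * D.dmx := Bd.mk' fun τ0 => by
  refine ⟨c7 * τ0 ^ 3 * (5 + 1), fun D H hW => ?_⟩
  have c0 : 0 ≤ c7 := by
    have := one_le_c3
    have := c6_nn
    unfold c7
    positivity
  have t0 := H.tau0
  have e : hc D [pM D, pL D, pL D] - D.S2 * D.dmx = ∑ j ∈ D.up, D.om j *
      (wB (-1) D.B (cB D) ([pM D, pL D, pL D].map cc) (Sh.two j) (fun _ => 1) (pr2 j (oE D.q j)) -
      D.S2 * ((m2 D j * D.I fun k => L90.cS D k * m2 D k) - D.lam * (Uj D j + Lq D j))) := by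
    rw [hc, CD.dmx, CD.dd_test hW, CD.dd_test hW, dP_nil H hW, dP_val H, dP_test H hW,
      neg_mul_neg, mul_neg, ← sub_eq_add_neg, Finset.sum_mul, Finset.mul_sum,
      ← Finset.sum_sub_distrib, Finset.mul_sum, ← Finset.sum_sub_distrib]
    exact Finset.sum_congr rfl fun j _ => by ring
  have h1 := size_le H (H.I0 fun _ _ => abs_nonneg _)
    (H.I_le t0 fun k hk => abs_cS H (CD.mem_up.1 hk).2.le)
    ((H.I_mono fun k _ => cS_le_g H k).trans_eq (D.I_mul _ _))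
  rw [e]
  refine (D.abs_sum_om (b := fun j => c7 * τ0 ^ 3 * (D.X ^ 4 * D.g j + (D.X ^ 4 * D.N1 + 4 * D.tl)))
    fun j hj => (term_est H hj).trans ?_).trans ?_
  · have h2 := size_le H (abs_nonneg _) (abs_cS H (CD.mem_up.1 hj).2.le) (cS_le_g H j)
    rw [mul_assoc c7]
    refine mul_le_mul_of_nonneg_left ?_ c0
    unfold CD.N1
    linarith
  · rw [D.Iw_mul, mul_assoc (c7 * τ0 ^ 3)]
    exact mul_le_mul_of_nonneg_left (H.Iw_split hW (by norm_num) zero_le_one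
      (by linarith [H.XN1_le, H.tl_le]) (H.IwXg_le.trans_eq (one_mul _).symm)) (by positivity)

end Crest.Agent.T156.Cas.C40.Mt14

namespace Crest.Agent.T156.Cas.C40.Mx23

/-- **the mean part of `MX`, test direction** -/
theorem mxM_true : MxM true := ((L90.lad_MLL true).add Mt14.hc_true).congr fun _ D _ _ => by ring

end Crest.Agent.T156.Cas.C40.Mx23

end
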