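import Crest.Agent.T156.OnePB_23
import Crest.Agent.T156.Mul_55
import Crest.Agent.T156.NuC_87
import Crest.Agent.T156.EDef_91

-- ▼ part T156/EDef_38
section

/-!
# Row 156 (helper38): the normal form of the word `η ⊗ α α` of (E1)
-/

set_option autoImplicit false
set_option linter.unusedSectionVars false

noncomputable section

namespace Crest.Agent.T156.Cas.E38

open MeasureTheory Real Set Filter Topology
open Crest.Agent.T157.E Crest.Agent.T157.Casc Crest.Agent.T157.SL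

/-- `r_j = Γ_j - q_j` -/
def rj (n : ℕ) (β : ℝ) (M : List (ℝ × ℝ × ℝ)) (q : ℕ → ℝ) (j : ℕ) : ℝ :=
  pi2 (fun _ => 1) (opS n β M q) j (oE q j) 0

/-- the word `η ⊗ α α` on the pair split at `j`, weighted by a function of its two levels -/
def T2 (n : ℕ) (β : ℝ) (M : List (ℝ × ℝ × ℝ)) (q : ℕ → ℝ) (χ : ℕ → ℕ → ℝ) (j : ℕ) : ℝ :=
  sg (-1) (M.map (mxL n β)) (Sh.two j) fun τ => sg (-1) (M.map (mxL n β)) τ.sh fun τ' =>
    χ τ.j τ'.j * (TE (fun _ => 1) τ'.sh (M.map (mxL n β)) 0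
        (τ'.ev (oUb n β M q true) (τ.ev (oUb n β M q true) fun _ => 1)) *
      TE (fun _ => 1) τ'.sh (opS n β M q) 0 (τ'.ev (oE q) (τ.ev (oE q) (pr2 j (oE q j)))))


/-- different levels -/
def cB (y y' : ℕ) : ℝ := if y = y' then 0 else 1

/-- the same level, not `j` -/
def cC (j y y' : ℕ) : ℝ := if y = y' ∧ y ≠ j then 1 else 0

/-- indicator of a level -/
def lv1 (y i : ℕ) : ℝ := if i = y then 1 else 0

variable {n : ℕ} {β : ℝ} {M : List (ℝ × ℝ × ℝ)} {q : ℕ → ℝ}

theorem T2_one (j : ℕ) : T2 n β M q (fun _ _ => 1) j =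
    opW n β M q [true, true] (Sh.two j) (pr2 j fun _ _ => 1) (pr2 j (oE q j)) := by
  simp only [T2, one_mul]
  rfl


theorem T2_mul (c : ℝ) (χ : ℕ → ℕ → ℝ) (j : ℕ) :
    T2 n β M q (fun y y' => c * χ y y') j = c * T2 n β M q χ j := by
  simp only [T2, mul_assoc c, sg_const_mul]

theorem T2_sum {α : Type*} (A : Finset α) (χ : α → ℕ → ℕ → ℝ) (j : ℕ) :
    T2 n β M q (fun y y' => ∑ i ∈ A, χ i y y') j = ∑ i ∈ A, T2 n β M q (χ i) j := by
  simp only [T2, Finset.sum_mul, sg_sum]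

theorem T2_congr {χ χ' : ℕ → ℕ → ℝ} (h : ∀ y ≤ M.length, ∀ y' ≤ M.length, χ y y' = χ' y y')
    (j : ℕ) : T2 n β M q χ j = T2 n β M q χ' j :=
  sg_congr _ _ _ fun τ hτ => sg_congr _ _ _ fun τ' hτ' => by
    rw [h _ (by simpa using hτ.le) _ (by simpa using hτ'.le)]




/-- the same word, written with the derivative operators at `θ = 0` -/
theorem T2_Dop (hn : 0 < n) (H : OOk M q) (φ ψ : ℕ → ℝ) (j : ℕ) :
    T2 n β M q (fun y y' => φ y * ψ y') j = twoF j (fun x y => oE q j x.2 y.2)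
      (Dop (op n β M q 0) (fun i x y => φ i * oLt n β M q true i x y)
        (Dop (op n β M q 0) (fun i x y => ψ i * oLt n β M q true i x y)
          (TEf (fun _ => 1) (op n β M q 0) 0))) := by
  simp only [twoF, Dop_eq_sg, T2, sg_tilt (-1) (tilt_op (n := n) (β := β) (M := M) (q := q) 0)]
  congr 1
  funext τ
  congr 1
  funext τ'
  rw [← TE_op_zero hn H, Law.ad_zero, ← Law.TE_const_mul wt_one90]
  refine congrArg (TE _ _ _ _) (funext fun x => ?_)
  simp only [tens, GT.ev, pr2, oLt, oZs]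
  ring

end Crest.Agent.T156.Cas.E38

end
end

-- ▼ part T156/Br_55
section

/-!
# Row 156: words of `Dop` are words of `Dr` under the conditional replica law (helper55)
-/

set_option autoImplicit false
set_option linter.all false

noncomputable section

namespace Crest.Agent.T156.Cas.Br55

open MeasureTheory Real Set Filter Topology
open Crest.Agent.T157.E Crest.Agent.T157.Casc Crest.Agent.T157.SL
open Tay38 Nu87 Mul55

variable {Ω : Type} {r : ℕ}

/-- a word of derivatives for the replica law -/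
def DrW (F : RF Ω (r + 1)) : (U : List (ℕ → Ω → Ω → ℝ)) → RF Ω (r + 2 * U.length + 1)
  | [] => F
  | S :: U => Dr (r := r + 2 * U.length) S (DrW F U)

theorem DrW_nil (F : RF Ω (r + 1)) : DrW F [] = F := rfl





open Classical in
/-- a functional on trees read on split matrices -/
def mat (Λ : Fn Ω) (K : ℕ) {k : ℕ} (σ : SM k) (F : (Fin k → Ω) → ℝ) : ℝ :=
  if h : Rz K σ then Λ h.choose fun x => F fun a => x (h.choose_spec.choose a) else 0

theorem fl_mat (K : ℕ) {k : ℕ} (σ : SM k) (F : (Fin k → Ω) → ℝ) : FL fun Λ => mat Λ K σ F := by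
  intro R H Λ Λ' e
  unfold mat
  split_ifs
  exacts [e _ _, H.zero]

theorem mat_eq {Λ : Fn Ω} {K k : ℕ} {σ : SM k} (hσ : Rz K σ) {F : (Fin k → Ω) → ℝ} {v : ℝ}
    (H : ∀ (s : Sh) (e : Fin k ≃ s.Lf), σ = sm s e K → Λ s (fun x => F fun a => x (e a)) = v) :
    mat Λ K σ F = v := by
  rw [mat, dif_pos hσ]
  exact H _ _ hσ.choose_spec.choose_spec

theorem lin_div {R : (ℝ → ℝ) → ℝ → Prop} (H : Lin R) {f : ℝ → ℝ} {a : ℝ} (h : R f a) (c : ℝ) :
    R (fun t => f t / c) (a / c) := by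
  simpa only [div_eq_inv_mul] using H.smul c⁻¹ h

variable [Fintype Ω] {w : Ω → ℝ}

theorem lin_avc {R : (ℝ → ℝ) → ℝ → Prop} (H : Lin R) (M : List (Lv Ω)) (σ : SM (r + 1)) :
    ∀ (k : ℕ) {φ : ℝ → SM (r + k + 1) → ℝ} {φ' : SM (r + k + 1) → ℝ},
      (∀ τ, R (fun t => φ t τ) (φ' τ)) → R (fun t => avc M σ k (φ t)) (avc M σ k φ')
  | 0, _, _, h => h σ
  | k + 1, _, _, h => lin_avc H M σ k fun τ => lin_div H (H.add (H.sum _ fun a _ => h _)
      (H.sum _ fun j _ => H.smul _ (H.sum _ fun a _ => lin_div H (H.sub (h _) (h _)) _))) _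

theorem bridge (hw : Wt w) (h : Ω → ℝ) (M : List (Lv Ω)) {s : Sh} (e : Fin (r + 1) ≃ s.Lf)
    (F : RF Ω (r + 1)) : ∀ (U : List (ℕ → Ω → Ω → ℝ)), (∀ S ∈ U, S ∈ Ok Ω M.length) →
    ∀ M' : List (Lv Ω), M'.map Lv.m = M.map Lv.m →
      WdO M U.reverse (TEf w M' h) s (fun x => F (fun a => x (e a)) (sm s e M.length)) =
        nuc w M' h (sm s e M.length) (2 * U.length) (DrW F U)
  | [], _, M', H => by
      have hl := Sch6.len_congr H
      refine Eq.trans ?_ (nuc_zero (w := w) (L := M') (h := h) F).symm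
      rw [← hl, TM_sm hw s M' h e.injective]
      rfl
  | S :: U, hU, M', H => by
      have hl := Sch6.len_congr H
      have hσ : Rz M.length (sm s e M.length) := ⟨s, e, rfl⟩
      obtain ⟨h0, c, hc⟩ := hU S List.mem_cons_self
      have hΦ : FL fun Λ => WdO M U.reverse Λ s (fun x => F (fun a => x (e a)) (sm s e M.length)) -
          avc M (sm s e M.length) (2 * U.length) fun τ => mat Λ M.length τ fun x => DrW F U x τ :=
        (FL.wdO M _ (FL.ev s _)).sub fun R HR Λ Λ' eΛ =>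
          lin_avc HR M _ _ fun τ => fl_mat M.length τ _ R HR Λ Λ' eΛ
      have key := pd_wordO hw h M' (l := [S]) hΦ (fun N hN => by
        have hN' := hN.trans H
        have hlN := Sch6.len_congr hN'
        rw [bridge hw h M e F U (fun T hT => hU T (List.mem_cons_of_mem _ hT)) N hN', sub_eq_zero,
          nuc, avc_tilt hlN (Sch6.ex_congr hN')]
        refine avc_congr hσ _ fun τ hτ => (mat_eq hτ fun s' e' he => ?_).symm
        rw [← hlN] at he
        conv_rhs => rw [he]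
        rw [TM_sm hw s' N h e'.injective, he]
        rfl) (by simpa [hl] using ⟨h0, c, hc⟩)
      rw [List.reverse_cons, WdO_append,
        show WdO M [S] (TEf w M' h) = WdO M' [S] (TEf w M' h) by rw [WdO_tilt H]]
      refine (sub_eq_zero.1 key).trans ?_
      rw [← avc_tilt hl (Sch6.ex_congr H)]
      rw [← hl] at hσ hc ⊢
      refine avc_congr hσ (2 * U.length) fun τ hτ => mat_eq hτ fun s' e' he => ?_
      rw [WdO_cons, WdO_nil, ← dT_eq_Dop hw s' M' h hc, 
        dT_eq_dM hw e' S fun x => DrW F U x τ, ← he, dM_eq hw hτ hc (DrW F U)]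
      rfl

/-- **the bridge**: any shape, any labelling, mixed letters -/
theorem WdO_nuc (hw : Wt w) (M : List (Lv Ω)) (h : Ω → ℝ) {s : Sh} (e : Fin (r + 1) ≃ s.Lf)
    (F : RF Ω (r + 1)) {U : List (ℕ → Ω → Ω → ℝ)} (hU : ∀ S ∈ U, S ∈ Ok Ω M.length) :
    WdO M U (TEf w M h) s (fun x => F (fun a => x (e a)) (sm s e M.length)) =
      nuc w M h (sm s e M.length) (2 * U.length) (DrW F U) := by
  rw [← bridge hw h M e F U hU M rfl, WdO_perm hw M h (List.reverse_perm U).symm hU]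

/-- the order of the letters does not matter -/
theorem nuc_rev (hw : Wt w) (M : List (Lv Ω)) (h : Ω → ℝ) {σ : SM (r + 1)} (hσ : Rz M.length σ)
    (F : RF Ω (r + 1)) {S T : ℕ → Ω → Ω → ℝ} (hS : S ∈ Ok Ω M.length) (hT : T ∈ Ok Ω M.length) :
    nuc w M h σ 4 (Dr (r := r + 2) S (Dr T F)) = nuc w M h σ 4 (Dr (r := r + 2) T (Dr S F)) := by
  obtain ⟨s, e, rfl⟩ := hσ
  have h1 := WdO_nuc hw M h e F (U := [S, T]) (by simp [hS, hT])
  have h2 := WdO_nuc hw M h e F (U := [T, S]) (by simp [hS, hT])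
  rw [WdO_perm hw M h (List.Perm.swap S T []) (by simpa using ⟨hT, hS⟩)] at h2
  exact h1.symm.trans h2

/-- labels of the two leaves -/
def e2 (j : ℕ) : Fin 2 ≃ (Sh.two j).Lf :=
  Equiv.ofBijective ![Sh.twoL j, Sh.twoR j] (by
    refine (Fintype.bijective_iff_surjective_and_card _).2 ⟨fun c => ?_, ?_⟩
    · rcases Wt87.two_cases j c with rfl | rfl
      exacts [⟨0, rfl⟩, ⟨1, rfl⟩]
    · rw [Wt87.card_two]; simp)

theorem sm_e2 (K j : ℕ) : sm (Sh.two j) (e2 j) K = tw K j := by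
  funext a b
  fin_cases a <;> fin_cases b
  · exact Wt87.shr_self _ _ _
  · exact Wt87.shr_two j K
  · exact (Wt87.shr_comm _ _ _ _).trans (Wt87.shr_two j K)
  · exact Wt87.shr_self _ _ _

/-- any function of two replicas split at `j` -/
theorem two_nuc (hw : Wt w) (M : List (Lv Ω)) (h : Ω → ℝ) (j : ℕ) (F : RF Ω 2)
    {U : List (ℕ → Ω → Ω → ℝ)} (hU : ∀ S ∈ U, S ∈ Ok Ω M.length) :
    WdO M U (TEf w M h) (Sh.two j) (fun x => F (fun a => x (e2 j a)) (tw M.length j)) =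
      nuc (r := 1) w M h (tw M.length j) (2 * U.length) (DrW F U) := by
  have := WdO_nuc hw M h (e2 j) F hU
  rwa [sm_e2] at this

/-- **node-wise tests** -/
theorem twoF_nuc (hw : Wt w) (M : List (Lv Ω)) (h : Ω → ℝ) {j : ℕ} (hj : j ≤ M.length)
    (Q : ℕ → Ω → Ω → ℝ) {U : List (ℕ → Ω → Ω → ℝ)} (hU : ∀ S ∈ U, S ∈ Ok Ω M.length) :
    twoF j (Q j) (WdO M U (TEf w M h)) =
      nuc (r := 1) w M h (tw M.length j) (2 * U.length) (DrW (ed Q 0 1) U) := by
  rw [← two_nuc hw M h j _ hU, twoF]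
  simp only [ed, tw_01 hj]
  rfl









/-! ### edge form -/

/-- the coefficient of the edge `(a, b)` in `Dr` -/
def cf (r : ℕ) (a b : Fin (r + 3)) : ℝ :=
  if a.val = 0 then (if b.val = 1 then ((r : ℝ) + 1) * (r + 2) else 0)
  else if b.val = 0 then 0
  else if a = b then 0
  else if a.val = 1 ∨ b.val = 1 then -((r : ℝ) + 1) else 1

theorem cf_self (r : ℕ) (a : Fin (r + 3)) : cf r a a = 0 := by
  unfold cf
  split_ifs with h1 h2 <;> first | rfl | omega | simp_all



theorem sum_cf (G : Fin (r + 3) → Fin (r + 3) → ℝ) : ∑ a, ∑ b, cf r a b * G a b =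
    ∑ a : Fin (r + 1), ∑ b ∈ Finset.univ.erase a, G a.succ.succ b.succ.succ -
      (r + 1) * ∑ b : Fin (r + 1), (G b.succ.succ 1 + G 1 b.succ.succ) +
      (r + 1) * (r + 2) * G 0 1 := by
  have e : ∀ a : Fin (r + 1), ∑ b : Fin (r + 1), (if a = b then 0 else 1) * G a.succ.succ b.succ.succ =
      ∑ b ∈ Finset.univ.erase a, G a.succ.succ b.succ.succ := fun a => by
    rw [← Finset.add_sum_erase _ _ (Finset.mem_univ a), if_pos rfl, zero_mul, zero_add]
    exact Finset.sum_congr rfl fun b hb => by rw [if_neg (Finset.ne_of_mem_erase hb).symm, one_mul]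
  have e1 : ∀ b : Fin (r + 1), b.succ.succ ≠ (1 : Fin (r + 3)) := fun b h => by
    have := congrArg Fin.val h
    simp at this
  simp only [Fin.sum_univ_succ (n := r + 2), Fin.sum_univ_succ (n := r + 1), cf, Fin.val_zero,
    Fin.val_succ, if_true, Fin.succ_inj, ← e, Fin.succ_zero_eq_one, Fin.val_one, e1, fun b => (e1 b).symm]
  simp [Finset.sum_add_distrib, Finset.mul_sum, fun x : Fin (r + 1) => (Fin.succ_ne_zero x).symm,
    add_mul, ← Finset.mul_sum]
  ring

theorem Dr_eq (S : ℕ → Ω → Ω → ℝ) (F : RF Ω (r + 1)) (x : Fin (r + 3) → Ω) (σ : SM (r + 3)) :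
    Dr S F x σ = ∑ a, ∑ b, cf r a b * (F.re (fun b => b.succ.succ) x σ * ed S a b x σ) := by
  simp only [mul_left_comm (cf r _ _), ← Finset.mul_sum, sum_cf fun a b => ed S a b x σ]
  rfl

/-- two steps: all pairs of edges -/
theorem nuc_two (M : List (Lv Ω)) (h : Ω → ℝ) (σ : SM (r + 1)) (S T : ℕ → Ω → Ω → ℝ)
    (F : RF Ω (r + 1)) : nuc w M h σ 4 (Dr (r := r + 2) S (Dr T F)) =
      ∑ e, ∑ f, ∑ c, ∑ d, cf (r + 2) e f * cf r c d * nuc w M h σ 4 fun x τ =>
        F.re (old 4) x τ * ed T c.succ.succ d.succ.succ x τ * ed S e f x τ := by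
  simp only [← nuc_mul, ← nuc_sum]
  congr 1
  funext x τ
  rw [Dr_eq]
  refine Finset.sum_congr rfl fun e _ => Finset.sum_congr rfl fun f _ => ?_
  rw [RF.re, Dr_eq]
  simp only [Finset.sum_mul, Finset.mul_sum, mul_assoc]
  rfl

section op
variable {n : ℕ} {β : ℝ} {M : List (ℝ × ℝ × ℝ)} {q : ℕ → ℝ}

/-- the product form at `θ = 0` -/
theorem nuc_op_zero (hn : 0 < n) (H : OOk M q) {σ : SM (r + 1)} (hσ : Rz M.length σ) (k : ℕ)
    (G : RF (Cube n) (r + k + 1)) (ξ : RF Bool (r + k + 1)) :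
    nuc (fun _ => 1) (op n β M q 0) 0 σ k
        (fun x τ => G (fun a => (x a).1) τ * ξ (fun a => (x a).2) τ) =
      avc (M.map (mxL n β)) σ k fun τ => TM (fun _ => 1) (M.map (mxL n β)) 0 τ (G · τ) *
        TM (fun _ => 1) (opS n β M q) 0 τ (ξ · τ) := by
  have := nuc_prd wt_one90 wt_one90 (prd_op (β := β) hn H) (by rwa [op_length]) G ξ 0 0
  rw [Law.pw2_one, Law.ad_zero, List.map_map, List.map_map] at this
  have e1 := OneP.oInc_map (bb n β ^ 2) 0 q M (mxL n β)
  have e2 : ((oInc (bb n β ^ 2) 0 q M).map fun c => C.sl Crest.ProbabilityR.SpinGlassDynamics.spin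
      (c.p.1, c.p.2.2 + c.u)) = opS n β M q := by rw [opS, opV, List.map_map]; rfl
  simp only [Function.comp_def, e1, e2] at this
  rw [this]
  exact avc_tilt (by rw [op_length, List.length_map]) (Cav22.ex_tilt (tilt_op 0)) k _

theorem oLt_mem (hn : 0 < n) (H : OOk M q) (φ : ℕ → ℝ) (b : Bool) :
    (fun i x y => φ i * oLt n β M q b i x y) ∈ Ok (Cube n × Bool) (op n β M q 0).length := by
  rw [op_length]
  exact ⟨by funext x y; simp [oLt, oUb_zero], 0, fun y => by simp [oLt, oUb_diag hn H]⟩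

/-- **38's word in the conditional replica law**, product weights -/
theorem T2_nuc (hn : 0 < n) (H : OOk M q) (φ ψ : ℕ → ℝ) {j : ℕ} (hj : j ≤ M.length) :
    E38.T2 n β M q (fun y y' => φ y * ψ y') j =
      nuc (r := 1) (fun _ => 1) (op n β M q 0) 0 (tw M.length j) 4
        (Dr (r := 3) (fun i x y => ψ i * oLt n β M q true i x y)
          (Dr (fun i x y => φ i * oLt n β M q true i x y)
            (ed (fun i x y => oE q i x.2 y.2) 0 1))) := by
  have h1 := twoF_nuc wt_one90 (op n β M q 0) 0 (j := j) (by rwa [op_length])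
    (fun i x y => oE q i x.2 y.2) (U := [fun i x y => φ i * oLt n β M q true i x y,
      fun i x y => ψ i * oLt n β M q true i x y]) (by simp [oLt_mem hn H])
  rw [E38.T2_Dop hn H, ← op_length (n := n) (β := β) (q := q) 0, nuc_rev wt_one90 _ _ (rz_tw _ _) _
    (oLt_mem hn H ψ true) (oLt_mem hn H φ true)]
  exact h1

/-- one pair of edges of the word `η ⊗ α α`; the base pair is `(4, 5)` -/
def tE2 (n : ℕ) (β : ℝ) (M : List (ℝ × ℝ × ℝ)) (q : ℕ → ℝ) (χ : ℕ → ℕ → ℝ) (j : ℕ)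
    (c d e f : Fin 6) : ℝ :=
  avc (r := 1) (M.map (mxL n β)) (tw M.length j) 4 fun τ => χ (τ c d) (τ e f) *
    (TM (fun _ => 1) (M.map (mxL n β)) 0 τ
        (fun x => ed (oUb n β M q true) c d x τ * ed (oUb n β M q true) e f x τ) *
      TM (fun _ => 1) (opS n β M q) 0 τ
        fun x => ed (oE q) 4 5 x τ * ed (oE q) c d x τ * ed (oE q) e f x τ)

/-- **38's word in edge form**, any weight `χ` -/
theorem T2_edge (hn : 0 < n) (H : OOk M q) (χ : ℕ → ℕ → ℝ) {j : ℕ} (hj : j ≤ M.length) :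
    E38.T2 n β M q χ j = ∑ e, ∑ f, ∑ c, ∑ d,
      cf 3 e f * cf 1 c d * tE2 n β M q χ j c.succ.succ d.succ.succ e f := by
  have hσ : Rz (M.map (mxL n β)).length (tw M.length j) := by
    rw [List.length_map]; exact rz_tw _ _
  have prd : ∀ φ ψ : ℕ → ℝ, E38.T2 n β M q (fun y y' => φ y * ψ y') j = ∑ e, ∑ f, ∑ c, ∑ d,
      cf 3 e f * cf 1 c d * tE2 n β M q (fun y y' => φ y * ψ y') j c.succ.succ d.succ.succ e f :=
    fun φ ψ => by
      rw [T2_nuc hn H φ ψ hj, nuc_two]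
      refine Finset.sum_congr rfl fun e _ => Finset.sum_congr rfl fun f _ =>
        Finset.sum_congr rfl fun c _ => Finset.sum_congr rfl fun d _ => congrArg _ ?_
      have := nuc_op_zero (β := β) hn H (rz_tw M.length j) 4
        (fun x τ => φ (τ c.succ.succ d.succ.succ) * ψ (τ e f) *
          (ed (oUb n β M q true) c.succ.succ d.succ.succ x τ * ed (oUb n β M q true) e f x τ))
        fun x τ => ed (oE q) 4 5 x τ * ed (oE q) c.succ.succ d.succ.succ x τ * ed (oE q) e f x τ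
      simp only [TM_mul, mul_assoc (φ _ * ψ _)] at this
      refine Eq.trans (congrArg _ (funext fun x => funext fun τ => ?_)) this
      simp only [RF.re, ed, oLt, oZs]
      rw [show old 4 (0 : Fin 2) = 4 from rfl, show old 4 (1 : Fin 2) = 5 from rfl]
      ring
  have dec : ∀ y ≤ M.length, ∀ y' ≤ M.length, χ y y' =
      ∑ p ∈ Finset.range (M.length + 1) ×ˢ Finset.range (M.length + 1),
        χ p.1 p.2 * (E38.lv1 p.1 y * E38.lv1 p.2 y') := fun y hy y' hy' => by
    rw [Finset.sum_eq_single (y, y') (fun p _ hp => by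
      unfold E38.lv1
      split_ifs with h1 h2
      · exact absurd (Prod.ext h1.symm h2.symm) hp
      all_goals simp) (fun h => absurd (Finset.mem_product.2 ⟨Finset.mem_range.2 (by omega),
        Finset.mem_range.2 (by omega)⟩) h)]
    simp [E38.lv1]
  have lin : ∀ c d e f, tE2 n β M q χ j c d e f =
      ∑ p ∈ Finset.range (M.length + 1) ×ˢ Finset.range (M.length + 1), χ p.1 p.2 *
        tE2 n β M q (fun y y' => E38.lv1 p.1 y * E38.lv1 p.2 y') j c d e f := fun c d e f => by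
    simp only [tE2, ← avc_mul, ← avc_sum]
    refine avc_congr hσ 4 fun τ hτ => ?_
    rw [List.length_map] at hτ
    rw [dec _ (hτ.le c d) _ (hτ.le e f), Finset.sum_mul]
    simp only [mul_assoc]
  rw [E38.T2_congr dec, E38.T2_sum]
  simp only [E38.T2_mul, prd, lin, Finset.mul_sum]
  simp only [Finset.sum_comm (s := Finset.range (M.length + 1) ×ˢ Finset.range (M.length + 1)),
    mul_left_comm (χ _ _)]

end op

end Crest.Agent.T156.Cas.Br55
end
end

-- ▼ part T156/BrB_55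

/-!
# Row 156: 38's word `T2` in 91's normal form (helper55)
-/

set_option autoImplicit false
set_option linter.all false

noncomputable section

namespace Crest.Agent.T156.Cas.Br55

open MeasureTheory Real Set Filter Topology
open Crest.Agent.T157.E Crest.Agent.T157.Casc Crest.Agent.T157.SL
open Crest.Agent.T157.G1 (ov)
open Nu87 E91

theorem cf_eq (r : ℕ) (a b : Fin (r + 3)) : Br55.cf r a b = E91.cf r a b := by
  unfold Br55.cf E91.cf
  by_cases hab : a = b
  · subst hab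
    split_ifs <;> first | rfl | omega
  · have : a.val ≠ b.val := fun h => hab (Fin.ext h)
    split_ifs <;> first | rfl | omega

variable {n : ℕ} {β : ℝ} {M : List (ℝ × ℝ × ℝ)} {q : ℕ → ℝ} {l0 : Lv (Cube n)}

theorem opD_K (un sg : ℕ → ℝ) (ms : ℝ) : (opD n β M q l0 un sg ms).K = M.length :=
  List.length_map _

theorem opD_U0 (hl : ∀ x y, l0.cov x y = ov x y) (un sg : ℕ → ℝ) (ms : ℝ) :
    (opD n β M q l0 un sg ms).U0 = oU q := by
  funext y x x'
  simp only [Dat.U0, opD, hl, oU]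

theorem opD_U (hl : ∀ x y, l0.cov x y = ov x y) (un sg : ℕ → ℝ) (ms : ℝ) :
    (opD n β M q l0 un sg ms).U = oUb n β M q true := by
  funext y x x'
  rw [Dat.U, opD_U0 hl]
  rfl

theorem opD_eta (un sg : ℕ → ℝ) (ms : ℝ) : (opD n β M q l0 un sg ms).eta = oE q := rfl


theorem tE2_eq (hl : ∀ x y, l0.cov x y = ov x y) (un sg : ℕ → ℝ) (ms : ℝ) (χ : ℕ → ℕ → ℝ) (j : ℕ)
    (c d e f : Fin 6) : tE2 n β M q χ j c d e f = (opD n β M q l0 un sg ms).A j fun τ =>
      χ (τ c d) (τ e f) * ((opD n β M q l0 un sg ms).Bf c d e f τ *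
        (opD n β M q l0 un sg ms).Sf c d e f τ) := by
  simp only [Dat.A, Dat.Bf, Dat.Sf, opD_K, opD_U hl, opD_eta]
  rfl

/-- **the bridge** -/
theorem T2_D2 (hn : 0 < n) (H : OOk M q) (hl : ∀ x y, l0.cov x y = ov x y) (un sg : ℕ → ℝ) (ms : ℝ)
    (χ : ℕ → ℕ → ℝ) {j : ℕ} (hj : j ≤ M.length) :
    E38.T2 n β M q χ j = E91.D2 fun c d e f => (opD n β M q l0 un sg ms).A j fun τ =>
      χ (τ c d) (τ e f) * ((opD n β M q l0 un sg ms).Bf c d e f τ *
        (opD n β M q l0 un sg ms).Sf c d e f τ) := by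
  rw [T2_edge hn H χ hj, E91.D2]
  simp only [← tE2_eq hl, cf_eq]
  simp only [← Finset.sum_product', Finset.univ_product_univ]
  refine Fintype.sum_equiv ⟨fun p => (p.2.2.1, p.2.2.2, p.1, p.2.1),
    fun p => (p.2.2.1, p.2.2.2, p.1, p.2.1), fun _ => rfl, fun _ => rfl⟩ _ _ fun p => ?_
  simp only [Equiv.coe_fn_mk, mul_comm (E91.cf 3 _ _)]

theorem T2_W2 (hn : 0 < n) (H : OOk M q) (hl : ∀ x y, l0.cov x y = ov x y) (un sg : ℕ → ℝ) (ms : ℝ)
    {j : ℕ} (hj : j ≤ M.length) :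
    E38.T2 n β M q (fun _ _ => 1) j = (opD n β M q l0 un sg ms).W2 j := by
  rw [T2_D2 hn H hl un sg ms _ hj]
  simp only [one_mul]
  rfl

theorem opW_W2 (hn : 0 < n) (H : OOk M q) (hl : ∀ x y, l0.cov x y = ov x y) (un sg : ℕ → ℝ) (ms : ℝ)
    {j : ℕ} (hj : j ≤ M.length) :
    opW n β M q [true, true] (Sh.two j) (pr2 j fun _ _ => 1) (pr2 j (oE q j)) =
      (opD n β M q l0 un sg ms).W2 j := (E38.T2_one j).symm.trans (T2_W2 hn H hl un sg ms hj)




/-- the site number in the `Dop` frame -/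
theorem kap_Dop {Ω : Type} [Fintype Ω] (D : Dat Ω) (ht : D.L.map Lv.m = D.T.map Lv.m) {j : ℕ}
    (h0 : 0 < j) (hj : j < D.K) :
    D.kap j = twoF j (D.eta j) (Dop D.T (Mul55.cut (· = j) D.eta)
      (Dop D.T (Mul55.cut (· = j) D.eta) (TEf (fun _ => 1) D.T 0))) := by
  have hl : D.L.length = D.T.length := by simpa using congrArg List.length ht
  have hm : Mul55.cut (· = j) D.eta ∈ Mul55.Ok Bool D.T.length :=
    ⟨by simp [Mul55.cut, h0.ne], 0, fun y => by
      have : D.T.length ≠ j := by rw [← hl]; exact hj.ne'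
      simp [Mul55.cut, this]⟩
  have h1 := twoF_nuc wt_one90 D.T 0 (j := j) (hl ▸ hj.le) D.eta
    (U := [Mul55.cut (· = j) D.eta, Mul55.cut (· = j) D.eta]) (by simp [hm])
  refine Eq.trans ?_ h1.symm
  refine Eq.trans ?_ (nuc_two D.T 0 _ _ _ _).symm
  rw [Dat.kap, E91.D2]
  simp only [cf_eq]
  simp only [← Finset.sum_product', Finset.univ_product_univ]
  refine Fintype.sum_equiv ⟨fun p => (p.2.2.1, p.2.2.2, p.1, p.2.1),
    fun p => (p.2.2.1, p.2.2.2, p.1, p.2.1), fun _ => rfl, fun _ => rfl⟩ _ _ fun p => ?_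
  simp only [Equiv.coe_fn_mk, mul_comm (E91.cf 3 _ _)]
  congr 1
  rw [Dat.A, nuc, avc_tilt hl (Cav22.ex_tilt ht), Dat.K, hl]
  congr 1
  funext τ
  simp only [Dat.Sf, RF.re, DrW_nil, ed, Mul55.cut]
  rw [show old 4 (0 : Fin 2) = 4 from rfl, show old 4 (1 : Fin 2) = 5 from rfl]
  by_cases h2 : τ p.1.succ.succ p.2.1.succ.succ = j <;> by_cases h3 : τ p.2.2.1 p.2.2.2 = j <;>
    simp [h2, h3, TM]

end Crest.Agent.T156.Cas.Br55
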