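import Crest.Agent.T156.CQ21D_52
import Crest.Agent.T156.Wp_52
import Crest.Agent.T156.Q2Site_97
import Crest.Agent.T156.CQ21I_23

-- ▼ part T156/CQ21M_53
section

/-!
# Row 156 (helper53): the moves of the two-edge trees
-/

set_option autoImplicit false
set_option linter.all false

noncomputable section

namespace Crest.Agent.T156.Cas.Q75.M53

open Finset
open Crest.Agent.T157.E Crest.Agent.T157.Casc Crest.Agent.T157.SL
open Nu87 Ker15 S97 Q21

/-- additivity of two moves -/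
def Ad {r : ℕ} (σ₀ σ₁ σ₂ σ₃ : SM r) : Prop := ∀ a c, σ₃ a c + σ₀ a c = σ₁ a c + σ₂ a c

variable {K y x t z k : ℕ}

theorem sl_x (h1 : y ≤ x) (h3 : y ≤ t) : Mv x (sl K y x t) (sl K y (x + 1) t) := fun a b => by
  fin_cases a <;> fin_cases b <;> simp [sl, m4] <;> omega

theorem sl_t : Mv x (sl K y x x) (sl K y x (x + 1)) := fun a b => by
  fin_cases a <;> fin_cases b <;> simp [sl, m4]

theorem sl_y : Mv y (sl K y x t) (sl K (y + 1) x t) := fun a b => by
  fin_cases a <;> fin_cases b <;> simp [sl, m4]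

theorem sl_yy (h1 : y < x) : Mv y (sl K y x y) (sl K (y + 1) x (y + 1)) := fun a b => by
  fin_cases a <;> fin_cases b <;> simp [sl, m4] <;> omega

theorem ad_xy : Ad (sl K y x t) (sl K (y + 1) x t) (sl K y (x + 1) t) (sl K (y + 1) (x + 1) t) :=
  fun a b => by fin_cases a <;> fin_cases b <;> simp [sl, m4] <;> omega

theorem ad_ty : Ad (sl K y x x) (sl K (y + 1) x x) (sl K y x (x + 1)) (sl K (y + 1) x (x + 1)) :=
  fun a b => by fin_cases a <;> fin_cases b <;> simp [sl, m4] <;> omega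

theorem ad_xyy (h1 : y < x) : Ad (sl K y x y) (sl K (y + 1) x (y + 1)) (sl K y (x + 1) y)
    (sl K (y + 1) (x + 1) (y + 1)) :=
  fun a b => by fin_cases a <;> fin_cases b <;> simp [sl, m4] <;> omega

theorem m3_x : Mv x (m3 K y y x) (m3 K y y (x + 1)) := fun a b => by
  fin_cases a <;> fin_cases b <;> simp [m3]

theorem m3_y : Mv y (m3 K y y x) (m3 K (y + 1) (y + 1) x) := fun a b => by
  fin_cases a <;> fin_cases b <;> simp [m3]

theorem ad_m3 : Ad (m3 K y y x) (m3 K (y + 1) (y + 1) x) (m3 K y y (x + 1))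
    (m3 K (y + 1) (y + 1) (x + 1)) :=
  fun a b => by fin_cases a <;> fin_cases b <;> simp [m3] <;> omega

theorem so_x : Mv x (so K z x k) (so K z (x + 1) k) := fun a b => by
  fin_cases a <;> fin_cases b <;> simp [so, m4]

theorem so_k : Mv k (so K z x k) (so K z x (k + 1)) := fun a b => by
  fin_cases a <;> fin_cases b <;> simp [so, m4]

theorem ad_so : Ad (so K z x k) (so K z (x + 1) k) (so K z x (k + 1)) (so K z (x + 1) (k + 1)) :=
  fun a b => by fin_cases a <;> fin_cases b <;> simp [so, m4] <;> omega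

theorem ad_so' : Ad (so K z x k) (so K z x (k + 1)) (so K z (x + 1) k) (so K z (x + 1) (k + 1)) :=
  fun a b => by fin_cases a <;> fin_cases b <;> simp [so, m4] <;> omega

/-! ### parity -/

/-- a replica of degree one, alone above the node `y ≠ j` where all the others pass -/
theorem oddE_alone {r j : ℕ} {ρ : SM (r + 1)} {u c d e f : Fin (r + 1)} (hy : y < K) (hj : y ≠ j)
    (hu : ∀ v, v ≠ u → ρ u v = y) (hc : c ≠ u) (hd : d ≠ u)
    (he : (e = u ∧ f ≠ u) ∨ (f = u ∧ e ≠ u)) : OddE K j y ρ c d e f := by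
  intro τ a b hτ hr hab hj'
  have hv : ∀ v, v ≠ u → τ u.succ.succ v.succ.succ = y := fun v h => (hr u v).trans (hu v h)
  have hs := hτ.self u.succ.succ
  have key : ∀ a b : Fin (r + 3), τ a b = j → y < τ u.succ.succ a → ¬ y < τ u.succ.succ b →
      ¬ y < τ b a ∧ y < τ b b ∧ ∀ v : Fin (r + 1), ¬ y < τ b v.succ.succ := by
    intro a b h1 h2 h3
    have u1 := hτ.ultra u.succ.succ a b
    have u2 := hτ.ultra b u.succ.succ a
    have c1 := hτ.comm a b
    have c2 := hτ.comm b u.succ.succ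
    refine ⟨by omega, by rw [hτ.self]; exact hy, fun v => ?_⟩
    have u3 := hτ.ultra b v.succ.succ u.succ.succ
    have c3 := hτ.comm v.succ.succ u.succ.succ
    by_cases h : v = u
    · subst h; omega
    · have := hv v h; omega
  have fin : ∀ z : Fin (r + 3), ¬ Site94.Crs τ z y c.succ.succ d.succ.succ →
      ¬ (Site94.Crs τ z y a b ↔ Site94.Crs τ z y e.succ.succ f.succ.succ) →
      Site94.OddAt τ ![a, c.succ.succ, e.succ.succ] ![b, d.succ.succ, f.succ.succ] univ y := by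
    intro z h1 h2
    refine ⟨z, ?_⟩
    rw [Finset.card_filter, Fin.sum_univ_three]
    show Odd ((if Site94.Crs τ z y a b then 1 else 0) +
      (if Site94.Crs τ z y c.succ.succ d.succ.succ then 1 else 0) +
      (if Site94.Crs τ z y e.succ.succ f.succ.succ then 1 else 0))
    rw [if_neg h1]
    by_cases h3 : Site94.Crs τ z y a b
    · rw [if_pos h3, if_neg fun h => h2 (iff_of_true h3 h)]; exact odd_one
    · rw [if_neg h3, if_pos (not_not.1 fun h => h2 (iff_of_false h3 h))]; exact odd_one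
  have hc' := hv c hc
  have hd' := hv d hd
  have hef : Site94.Crs τ u.succ.succ y e.succ.succ f.succ.succ := by
    rcases he with ⟨rfl, h⟩ | ⟨rfl, h⟩ <;> have := hv _ h <;> unfold Site94.Crs <;> omega
  have hcd : ¬ Site94.Crs τ u.succ.succ y c.succ.succ d.succ.succ := by
    unfold Site94.Crs; omega
  by_cases h1 : y < τ u.succ.succ a <;> by_cases h2 : y < τ u.succ.succ b
  · exact fin _ hcd fun h => h.2 hef (iff_of_true h1 h2)
  · obtain ⟨k1, k2, k3⟩ := key a b hj' h1 h2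
    exact fin b (fun h => h (iff_of_false (k3 c) (k3 d))) fun h =>
      h.1 (fun h' => k1 (h'.2 k2)) (iff_of_false (k3 e) (k3 f))
  · obtain ⟨k1, k2, k3⟩ := key b a ((hτ.comm b a).trans hj') h2 h1
    exact fin a (fun h => h (iff_of_false (k3 c) (k3 d))) fun h =>
      h.1 (fun h' => k1 (h'.1 k2)) (iff_of_false (k3 e) (k3 f))
  · exact fin _ hcd fun h => h.2 hef (iff_of_false h1 h2)

theorem odd_sl4 {j : ℕ} (hy : y < K) (hj : y ≠ j) : OddE K j y (sl K y x t) 2 3 0 1 :=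
  oddE_alone (u := 1) hy hj (fun v h => by fin_cases v <;> simp_all [sl, m4]) (by decide)
    (by decide) (.inr ⟨rfl, by decide⟩)

theorem odd_m3 {j : ℕ} (hy : y < K) (hj : y ≠ j) : OddE K j y (m3 K y y x) 1 2 0 1 :=
  oddE_alone (u := 0) hy hj (fun v h => by fin_cases v <;> simp_all [m3]) (by decide)
    (by decide) (.inl ⟨rfl, by decide⟩)

/-! ### the weight of the marked edge -/

section
variable {Θ : Type} {L : List (Lv Θ)} {j : ℕ}

theorem wg_no {r : ℕ} {ρ : SM r} (h : ∀ a b, a ≠ b → ρ a b ≠ j) : wg L j ρ = dm L 0 j := by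
  rw [wg, if_neg, add_zero]
  rintro ⟨a, b, h1, h2⟩
  exact h a b h1 h2

theorem wg_yes {r : ℕ} {ρ : SM r} {a b : Fin r} (h : a ≠ b) (h' : ρ a b = j) :
    wg L j ρ = dm L 0 j + 1 := by
  rw [wg, if_pos ⟨a, b, h, h'⟩]


theorem wg_sl (hd : 0 < dm L 0 j) (hx : x ≠ j) (hy : y ≠ j) :
    wg L j (sl K y x t) = dm L 0 j * omg L j t := by
  rw [omg]
  split_ifs with h
  · rw [wg_yes (a := 0) (b := 2) (by decide) h]; field_simp
  · rw [mul_one]
    exact wg_no fun a b hab => by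
      fin_cases a <;> fin_cases b <;> simp_all [sl, m4] <;> omega

theorem wg_m3 (hx : x ≠ j) (hy : y ≠ j) : wg L j (m3 K y y x) = dm L 0 j :=
  wg_no fun a b hab => by fin_cases a <;> fin_cases b <;> simp_all [m3]

theorem wg_so (hd : 0 < dm L 0 j) (hx : x ≠ j) (hk : k ≠ j) :
    wg L j (so K z x k) = dm L 0 j * omg L j z := by
  rw [omg]
  split_ifs with h
  · rw [wg_yes (a := 0) (b := 2) (by decide) h]; field_simp
  · rw [mul_one]
    exact wg_no fun a b hab => by fin_cases a <;> fin_cases b <;> simp_all [so, m4]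

end

end Crest.Agent.T156.Cas.Q75.M53

end
end

-- ▼ part T156/CQ21R_53
section

/-!
# Row 156 (helper53): `RegWS`, regularity of the marked site coefficient off the marked level
-/

set_option autoImplicit false
set_option linter.all false

noncomputable section

namespace Crest.Agent.T156.Cas.Q21.R53

open Finset
open Crest.Agent.T157.E Crest.Agent.T157.Casc Crest.Agent.T157.SL
open Crest.Agent.T156.Rect52 (mx)
open Crest.Agent.T156.Cas.Q75 Crest.Agent.T156.Cas.Q75.S97 Crest.Agent.T156.Cas.Q75.M53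
open Nu87 Ker15

section legs
variable {Θ : Type} {L : List (Lv Θ)} {ω : ℕ → ℝ}

/-- a weight on the positions -/
structure Om (L : List (Lv Θ)) (ω : ℕ → ℝ) : Prop where
  mono : Mono 0 L
  nn : ∀ t, 0 ≤ ω t
  top : ω (L.length + 1) = 1
  sum : ∑ t ∈ range (L.length + 1), dm L 0 t * ω t ≤ 2

theorem Om.lg (H : Om L ω) {u : ℕ} (hu : u ≤ L.length) {g : ℕ → ℝ} {c : ℝ}
    (h : ∀ t, u < t → t ≤ L.length + 1 → |g t| ≤ c * ω t) : |Lg L u g| ≤ 3 * c := by
  have h1 := h (L.length + 1) (by omega) le_rfl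
  rw [H.top, mul_one] at h1
  have c0 : 0 ≤ c := (abs_nonneg _).trans h1
  have h2 : |∑ t ∈ Ioc u L.length, dm L 0 t * g t| ≤
      ∑ t ∈ Ioc u L.length, c * (dm L 0 t * ω t) :=
    (Finset.abs_sum_le_sum_abs _ _).trans (Finset.sum_le_sum fun t ht => by
      have := Finset.mem_Ioc.1 ht
      rw [abs_mul, abs_of_nonneg (dm_nonneg H.mono t)]
      exact (mul_le_mul_of_nonneg_left (h t this.1 (by omega)) (dm_nonneg H.mono t)).trans_eq
        (by ring))
  rw [← Finset.mul_sum] at h2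
  have h3 : ∑ t ∈ Ioc u L.length, dm L 0 t * ω t ≤ 2 :=
    (Finset.sum_le_sum_of_subset_of_nonneg (fun t ht => by
      have := Finset.mem_Ioc.1 ht
      exact Finset.mem_range.2 (by omega))
      fun t _ _ => mul_nonneg (dm_nonneg H.mono t) (H.nn t)).trans H.sum
  have h4 := mul_le_mul_of_nonneg_left h3 c0
  exact (abs_sub _ _).trans (by linarith)

theorem Om.lx (H : Om L ω) {u : ℕ} (hu : u ≤ L.length) (h1 : ω u = 1) {g : ℕ → ℝ} {c : ℝ}
    (h : ∀ t, u ≤ t → t ≤ L.length + 1 → |g t| ≤ c * ω t) : |Lx L u g| ≤ 4 * c := by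
  have e1 := H.lg hu fun t ht => h t ht.le
  have e2 := h u le_rfl (by omega)
  rw [h1, mul_one] at e2
  have h2 := abs_ex_mul H.mono u e2
  exact (abs_sub _ _).trans (by linarith)

/-- pointwise regularity of `ℓ = T.lo`, weighted, at the good steps -/
structure PtW (K j : ℕ) (ℓ : ℕ → ℕ → ℕ → ℝ) (c : ℝ) (P a ω : ℕ → ℝ) : Prop where
  one : ∀ t, t ≠ j → ω t = 1
  zx : ∀ y t, ℓ y j t = 0
  zy : ∀ x t, ℓ j x t = 0
  h0 : ∀ y x t, y ≤ x → x ≤ K → y ≤ t → t ≤ K + 1 → |ℓ y x t| ≤ c * P y * ω t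
  hx : ∀ y x t, ¬ Bad j K x → y ≤ x → x < K → y ≤ t → t ≤ K + 1 →
    |ℓ y (x + 1) t - ℓ y x t| ≤ c * (P y * a x) * ω t
  ht : ∀ y x, ¬ Bad j K x → y ≤ x → x < K → |ℓ y x (x + 1) - ℓ y x x| ≤ c * (P y * a x)
  hy : ∀ y x t, ¬ Bad j K y → y < x → x ≤ K → y < t → t ≤ K + 1 →
    |ℓ (y + 1) x t - ℓ y x t| ≤ c * a y * ω t
  hyy : ∀ y x, ¬ Bad j K y → y < x → x ≤ K → |ℓ (y + 1) x (y + 1) - ℓ y x y| ≤ c * a y
  hxy : ∀ y x t, ¬ Bad j K y → ¬ Bad j K x → y < x → x < K → y < t → t ≤ K + 1 →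
    |ℓ (y + 1) (x + 1) t - ℓ (y + 1) x t - (ℓ y (x + 1) t - ℓ y x t)| ≤ c * (a y * a x) * ω t
  hty : ∀ y x, ¬ Bad j K y → ¬ Bad j K x → y < x → x < K →
    |ℓ (y + 1) x (x + 1) - ℓ (y + 1) x x - (ℓ y x (x + 1) - ℓ y x x)| ≤ c * (a y * a x)
  hxyy : ∀ y x, ¬ Bad j K y → ¬ Bad j K x → y < x → x < K →
    |ℓ (y + 1) (x + 1) (y + 1) - ℓ (y + 1) x (y + 1) - (ℓ y (x + 1) y - ℓ y x y)| ≤ c * (a y * a x)

variable {T : Tw} {c : ℝ} {P a : ℕ → ℝ} {j : ℕ}

theorem cP_zero {y u x : ℕ} (h : ∀ t, T.lo L.length y x t = 0) : cP L T y u x = 0 := by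
  simp [cP, Lx, Q75.Lg, h]

theorem LO_zero {y x : ℕ} (h : ∀ t, T.lo L.length y x t = 0) : LO L T y x = 0 := by
  simp [LO, cP_zero h, h]

theorem nb1 {K i : ℕ} (h : ¬ Bad j K i) : i ≠ j := fun e => h (.inl e)
theorem nb2 {K i : ℕ} (h : ¬ Bad j K i) : i + 1 ≠ j := fun e => h (.inr (.inl e))

variable (H : PtW L.length j (T.lo L.length) c P a ω) (W : Om L ω)
include H W

theorem PtW.cp (c0 : 0 ≤ c) (P0 : ∀ y, 0 ≤ P y) {y u x : ℕ} (h1 : y ≤ u) (h2 : u ≤ x)
    (hx : x ≤ L.length) : |cP L T y u x| ≤ 7 * (c * P y) := by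
  by_cases e : x = j
  · subst e
    rw [cP_zero (H.zx y), abs_zero]
    exact mul_nonneg (by norm_num) (mul_nonneg c0 (P0 y))
  have e1 := W.lg (u := u) (by omega) fun t ht ht' => H.h0 y x t (by omega) hx (by omega) ht'
  have e2 := W.lx hx (H.one x e) fun t ht ht' => H.h0 y x t (by omega) hx (by omega) ht'
  exact (abs_add_le _ _).trans (by linarith)

theorem PtW.lo (c0 : 0 ≤ c) (P0 : ∀ y, 0 ≤ P y) {y x : ℕ} (h1 : y ≤ x) (hx : x ≤ L.length) :
    |LO L T y x| ≤ 16 * (c * P y) := by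
  by_cases e : y = j
  · subst e
    rw [LO_zero (H.zy x), abs_zero]
    exact mul_nonneg (by norm_num) (mul_nonneg c0 (P0 y))
  have e1 := abs_le.1 (H.cp W c0 P0 le_rfl h1 hx)
  have e2 := H.h0 y x y h1 hx le_rfl (by omega)
  rw [H.one y e, mul_one] at e2
  have e3 := abs_le.1 (abs_mul_le' (kap_abs W.mono y) e2)
  rw [LO, abs_le]
  constructor <;> linarith [e1.1, e1.2, e3.1, e3.2]

theorem PtW.p1 {y u x : ℕ} (g : ¬ Bad j L.length x) (h1 : y ≤ u) (h2 : u ≤ x)
    (hx : x < L.length) : |cP L T y u (x + 1) - cP L T y u x| ≤ 8 * (c * (P y * a x)) := by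
  rw [cP_step L T y u hx]
  have e1 := W.lg (u := u) (by omega) fun t ht ht' => H.hx y x t g (by omega) hx (by omega) ht'
  have e2 := W.lx (u := x + 1) hx (H.one _ (nb2 g))
    fun t ht ht' => H.hx y x t g (by omega) hx (by omega) ht'
  have e3 := abs_ex_mul W.mono x (H.ht y x g (by omega) hx)
  exact (abs_sub _ _).trans ((add_le_add (abs_add_le _ _) e3).trans (by linarith))

theorem PtW.m1 {y x : ℕ} (g : ¬ Bad j L.length x) (h1 : y ≤ x) (hx : x < L.length) :
    |LO L T y (x + 1) - LO L T y x| ≤ 18 * (c * (P y * a x)) := by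
  have e0 := H.p1 W g le_rfl h1 hx
  by_cases e : y = j
  · subst e
    rw [LO_zero (H.zy _), LO_zero (H.zy _), sub_self, abs_zero]
    linarith [abs_nonneg (cP L T y y (x + 1) - cP L T y y x)]
  have e1 := abs_le.1 e0
  have e2 := H.hx y x y g h1 hx le_rfl (by omega)
  rw [H.one y e, mul_one] at e2
  have e3 := abs_le.1 (abs_mul_le' (kap_abs W.mono y) e2)
  rw [LO, LO, abs_le]
  constructor <;> linarith [e1.1, e1.2, e3.1, e3.2]

theorem PtW.my {C : ℝ} (c0 : 0 ≤ c) (hP : ∀ y, P y ≤ C) (C1 : 1 ≤ C) {y x : ℕ}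
    (g : ¬ Bad j L.length y) (h1 : y < x) (hx : x ≤ L.length) (d1 : dm L 0 y ≤ a y)
    (d2 : dm L 0 (y + 1) ≤ a y) : |LO L T (y + 1) x - LO L T y x| ≤ 20 * (c * C * a y) := by
  have a0 : 0 ≤ a y := (dm_nonneg W.mono y).trans d1
  have k0 : 0 ≤ c * a y := mul_nonneg c0 a0
  have k1 : c * a y ≤ c * C * a y := by nlinarith
  by_cases e : x = j
  · subst e
    rw [LO_zero (H.zx _), LO_zero (H.zx _), sub_self, abs_zero]
    linarith
  have hb : c * P y ≤ c * C := mul_le_mul_of_nonneg_left (hP y) c0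
  have e1 := abs_le.1 (W.lg (u := y + 1) (by omega)
    fun t ht ht' => H.hy y x t g h1 hx (by omega) ht')
  have e2 := abs_le.1 (W.lx hx (H.one x e) fun t ht ht' => H.hy y x t g h1 hx (by omega) ht')
  have f3 := H.h0 y x (y + 1) h1.le hx (by omega) (by omega)
  rw [H.one _ (nb2 g), mul_one] at f3
  have e3 := abs_le.1 (abs_mul_le' ((abs_of_nonneg (dm_nonneg W.mono (y + 1))).trans_le d2)
    (f3.trans hb))
  have e4 := abs_le.1 (abs_mul_le' (kap_abs W.mono (y + 1)) (H.hyy y x g h1 hx))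
  have f5 := H.h0 y x y h1.le hx le_rfl (by omega)
  rw [H.one _ (nb1 g), mul_one] at f5
  have e5 := abs_le.1 (abs_mul_le' (kap_step W.mono d1 d2) (f5.trans hb))
  rw [Lg_sub] at e1
  rw [Lx_sub] at e2
  rw [LO, LO, cP, cP, Lg_succ L (by omega : y < L.length) (T.lo L.length y x), abs_le]
  constructor <;> linarith [e1.1, e1.2, e2.1, e2.2, e3.1, e3.2, e4.1, e4.2, e5.1, e5.2]

theorem PtW.m2 {C : ℝ} (c0 : 0 ≤ c) (hP : ∀ y, P y ≤ C) (C1 : 1 ≤ C) {y x : ℕ}
    (g : ¬ Bad j L.length y) (g' : ¬ Bad j L.length x) (h1 : y < x) (hx : x < L.length)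
    (d1 : dm L 0 y ≤ a y) (d2 : dm L 0 (y + 1) ≤ a y) (a0 : 0 ≤ a x) :
    |mx (LO L T) y x| ≤ 22 * (c * C * (a y * a x)) := by
  have ay : 0 ≤ a y := (dm_nonneg W.mono y).trans d1
  have k0 : 0 ≤ c * (a y * a x) := mul_nonneg c0 (mul_nonneg ay a0)
  have k1 : c * (a y * a x) ≤ c * C * (a y * a x) := by nlinarith
  have hb : c * (P y * a x) ≤ c * (C * a x) := by have := hP y; gcongr
  have e1 := abs_le.1 (W.lg (u := y + 1) (by omega)
    fun t ht ht' => H.hxy y x t g g' h1 hx (by omega) ht')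
  have e2 := abs_le.1 (W.lx (u := x + 1) hx (H.one _ (nb2 g'))
    fun t ht ht' => H.hxy y x t g g' h1 hx (by omega) ht')
  have f3 := H.hx y x (y + 1) g' h1.le hx (by omega) (by omega)
  rw [H.one _ (nb2 g), mul_one] at f3
  have e3 := abs_le.1 (abs_mul_le' ((abs_of_nonneg (dm_nonneg W.mono (y + 1))).trans_le d2)
    (f3.trans hb))
  have e4 := abs_le.1 (abs_mul_le' (kap_abs W.mono (y + 1)) (H.hxyy y x g g' h1 hx))
  have f5 := H.hx y x y g' h1.le hx le_rfl (by omega)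
  rw [H.one _ (nb1 g), mul_one] at f5
  have e5 := abs_le.1 (abs_mul_le' (kap_step W.mono d1 d2) (f5.trans hb))
  have e6 := abs_le.1 (abs_ex_mul W.mono x (H.hty y x g g' h1 hx))
  have s1 := cP_step L T (y + 1) (y + 1) hx
  have s2 := cP_step L T y y hx
  rw [Lg_succ L (by omega : y < L.length)] at s2
  rw [Lg_sub] at e1
  rw [Lx_sub] at e2
  rw [mx, LO, LO, LO, LO, abs_le]
  constructor <;> linarith [e1.1, e1.2, e2.1, e2.2, e3.1, e3.2, e4.1, e4.2, e5.1, e5.2, e6.1, e6.2]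

end legs

/-! ### the marked coefficient -/

section inst
variable {Θ : Type} {L : List (Lv Θ)} {T : List (Lv Bool)} {q : Rf} {P a : ℕ → ℝ} {j : ℕ} {C : ℝ}

theorem om_omg (hM : Mono 0 L) (hj : j < L.length) (hd : 0 < dm L 0 j) : Om L (omg L j) := by
  refine ⟨hM, fun t => ?_, if_neg (by omega), ?_⟩
  · unfold omg; split_ifs <;> positivity
  · have e : ∀ t, dm L 0 t * omg L j t = dm L 0 t + if t = j then 1 else 0 := fun t => by
      unfold omg
      split_ifs with h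
      · rw [h]; field_simp
      · ring
    simp only [e, Finset.sum_add_distrib, Finset.sum_ite_eq', Finset.mem_range]
    rw [if_pos (by omega)]
    linarith [sum_dm_le_one hM (A := range (L.length + 1)) subset_rfl]

theorem lo_cN (y x t : ℕ) : (cN L T q j).lo L.length y x t =
    nj j x / dm L 0 j * nj j y * (cM L T q j).lo L.length y x t := by
  rw [cN, lo_mul, wt_lo]

theorem off_cN (z x k : ℕ) : (cN L T q j).off L.length z x k =
    nj j x / dm L 0 j * nj j k * Mk L T q j (so L.length z x k) 2 3 0 1 := rfl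

theorem nj_ne {x : ℕ} (h : x ≠ j) : nj j x = 1 := if_neg h

theorem nj_self : nj j j = 0 := if_pos rfl

theorem lo_top (y x : ℕ) : (cM L T q j).lo L.length y x (L.length + 1) =
    Mk L T q j (m3 L.length y y x) 1 2 0 1 := if_pos rfl

theorem lo_nd {y x t : ℕ} (h : t ≤ L.length) : (cM L T q j).lo L.length y x t =
    Mk L T q j (sl L.length y x t) 2 3 0 1 := if_neg (by omega)

theorem dv1 {d M B : ℝ} (hd : 0 < d) (h : |M| ≤ d * B) : |1 / d * 1 * M| ≤ B := by
  rw [mul_one, abs_mul, abs_of_pos (by positivity : 0 < 1 / d), one_div, inv_mul_le_iff₀ hd]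
  exact h

theorem dv2 {d M M' B : ℝ} (hd : 0 < d) (h : |M' - M| ≤ d * B) :
    |1 / d * 1 * M' - 1 / d * 1 * M| ≤ B := by
  rw [← mul_sub]; exact dv1 hd h

theorem dv4 {d M₀ M₁ M₂ M₃ B : ℝ} (hd : 0 < d) (h : |M₃ - M₁ - (M₂ - M₀)| ≤ d * B) :
    |1 / d * 1 * M₃ - 1 / d * 1 * M₁ - (1 / d * 1 * M₂ - 1 / d * 1 * M₀)| ≤ B := by
  rw [← mul_sub, ← mul_sub, ← mul_sub]; exact dv1 hd h

theorem rz_sl {K y x t : ℕ} (h1 : y ≤ x) (h2 : x ≤ K) (h3 : y ≤ t) (h4 : t ≤ K) :
    Rz K (sl K y x t) := rz_lo4 h2 h1 h3 h4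

theorem rz_so {K z x k : ℕ} (h1 : z ≤ x) (h2 : x ≤ K) (h3 : z ≤ k) (h4 : k ≤ K) :
    Rz K (so K z x k) := rz_off h2 h1 h3 h4

variable (hj : j < L.length) (hd : 0 < dm L 0 j) (H : MkH L T q j C P a) (C0 : 0 ≤ C)
  (P0 : ∀ i, 0 ≤ P i) (PK : 1 ≤ P L.length) (a0 : ∀ i, 0 ≤ a i)
include hj hd H C0 P0 PK a0

theorem ptW : PtW L.length j ((cN L T q j).lo L.length) C P a (omg L j) := by
  have w0 : ∀ t, 0 ≤ omg L j t := fun t => by unfold omg; split_ifs <;> positivity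
  have w1 : omg L j (L.length + 1) = 1 := if_neg (by omega)
  have w2 : ∀ t, t ≠ j → omg L j t = 1 := fun t h => if_neg h
  have zx : ∀ y t, (cN L T q j).lo L.length y j t = 0 := fun y t => by simp [lo_cN, nj_self]
  have zy : ∀ x t, (cN L T q j).lo L.length j x t = 0 := fun y t => by simp [lo_cN, nj_self]
  refine ⟨w2, zx, zy, fun y x t h1 h2 h3 h4 => ?_, fun y x t g h1 h2 h3 h4 => ?_,
    fun y x g h1 h2 => ?_, fun y x t g h1 h2 h3 h4 => ?_, fun y x g h1 h2 => ?_,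
    fun y x t g g' h1 h2 h3 h4 => ?_, fun y x g g' h1 h2 => ?_, fun y x g g' h1 h2 => ?_⟩
  · have := P0 y
    have := w0 t
    by_cases ex : x = j
    · rw [ex, zx, abs_zero]; positivity
    by_cases ey : y = j
    · rw [ey, zy, abs_zero]; have := P0 j; positivity
    rw [lo_cN, nj_ne ex, nj_ne ey]
    refine dv1 hd ?_
    rcases h4.eq_or_lt with rfl | h4
    · rw [lo_top, w1]
      rcases (h1.trans h2).eq_or_lt with e | e
      · have := H.m0 2 (by norm_num) _ (rz_lo3 h2 h1) 1 2 0 1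
        rw [wg_m3 ex ey] at this
        refine this.trans ?_
        rw [e]
        nlinarith [mul_nonneg C0 hd.le]
      · have := H.mp 2 (by norm_num) _ (rz_lo3 h2 h1) 1 2 0 1 y (odd_m3 e ey)
        rw [wg_m3 ex ey] at this
        exact this.trans_eq (by ring)
    · rw [lo_nd (by omega)]
      rcases (h1.trans h2).eq_or_lt with e | e
      · have := H.m0 3 le_rfl _ (rz_sl h1 h2 h3 (by omega)) 2 3 0 1
        rw [wg_sl hd ex ey] at this
        refine this.trans ?_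
        rw [e]
        nlinarith [mul_nonneg (mul_nonneg C0 hd.le) (w0 t)]
      · have := H.mp 3 le_rfl _ (rz_sl h1 h2 h3 (by omega)) 2 3 0 1 y (odd_sl4 e ey)
        rw [wg_sl hd ex ey] at this
        exact this.trans_eq (by ring)
  · by_cases ey : y = j
    · rw [ey, zy, zy, sub_self, abs_zero]
      have := P0 j
      have := w0 t
      have := a0 x
      positivity
    rw [lo_cN, lo_cN, nj_ne (nb1 g), nj_ne (nb2 g), nj_ne ey]
    refine dv2 hd ?_
    rcases h4.eq_or_lt with rfl | h4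
    · rw [lo_top, lo_top, w1]
      have := H.m1p 2 (by norm_num) _ _ (rz_lo3 h2.le h1) (rz_lo3 h2 (by omega)) 1 2 0 1 x h2 g
        m3_x y h1 (odd_m3 (by omega) ey) (odd_m3 (by omega) ey)
      rw [wg_m3 (nb1 g) ey] at this
      exact this.trans_eq (by ring)
    · rw [lo_nd (by omega), lo_nd (by omega)]
      have := H.m1p 3 le_rfl _ _ (rz_sl h1 h2.le h3 (by omega))
        (rz_sl (by omega) h2 h3 (by omega)) 2 3 0 1 x h2 g (sl_x h1 h3) y h1
        (odd_sl4 (by omega) ey) (odd_sl4 (by omega) ey)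
      rw [wg_sl hd (nb1 g) ey] at this
      exact this.trans_eq (by ring)
  · by_cases ey : y = j
    · rw [ey, zy, zy, sub_self, abs_zero]
      have := P0 j
      have := a0 x
      positivity
    rw [lo_cN, lo_cN, nj_ne (nb1 g), nj_ne ey]
    refine dv2 hd ?_
    rw [lo_nd h2, lo_nd h2.le]
    have := H.m1p 3 le_rfl _ _ (rz_sl h1 h2.le h1 h2.le) (rz_sl h1 h2.le (by omega) h2)
      2 3 0 1 x h2 g sl_t y h1 (odd_sl4 (by omega) ey) (odd_sl4 (by omega) ey)
    rw [wg_sl hd (nb1 g) ey, w2 _ (nb1 g)] at this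
    exact this.trans_eq (by ring)
  · by_cases ex : x = j
    · rw [ex, zx, zx, sub_self, abs_zero]
      have := w0 t
      have := a0 y
      positivity
    rw [lo_cN, lo_cN, nj_ne (nb1 g), nj_ne (nb2 g), nj_ne ex]
    refine dv2 hd ?_
    rcases h4.eq_or_lt with rfl | h4
    · rw [lo_top, lo_top, w1]
      have := H.m1 2 (by norm_num) _ _ (rz_lo3 h2 h1.le) (rz_lo3 h2 h1) 1 2 0 1 y (by omega) g m3_y
      rw [wg_m3 ex (nb1 g)] at this
      exact this.trans_eq (by ring)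
    · rw [lo_nd (by omega), lo_nd (by omega)]
      have := H.m1 3 le_rfl _ _ (rz_sl h1.le h2 h3.le (by omega)) (rz_sl h1 h2 h3 (by omega))
        2 3 0 1 y (by omega) g sl_y
      rw [wg_sl hd ex (nb1 g)] at this
      exact this.trans_eq (by ring)
  · by_cases ex : x = j
    · rw [ex, zx, zx, sub_self, abs_zero]
      have := a0 y
      positivity
    rw [lo_cN, lo_cN, nj_ne (nb1 g), nj_ne (nb2 g), nj_ne ex]
    refine dv2 hd ?_
    rw [lo_nd (by omega), lo_nd (by omega)]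
    have := H.m1 3 le_rfl _ _ (rz_sl h1.le h2 le_rfl (by omega)) (rz_sl h1 h2 le_rfl (by omega))
      2 3 0 1 y (by omega) g (sl_yy h1)
    rw [wg_sl hd ex (nb1 g), w2 _ (nb1 g)] at this
    exact this.trans_eq (by ring)
  · rw [lo_cN, lo_cN, lo_cN, lo_cN, nj_ne (nb1 g), nj_ne (nb2 g), nj_ne (nb1 g'), nj_ne (nb2 g')]
    refine dv4 hd ?_
    rcases h4.eq_or_lt with rfl | h4
    · rw [lo_top, lo_top, lo_top, lo_top, w1]
      have := H.m2 2 (by norm_num) _ _ _ _ (rz_lo3 h2.le h1.le) (rz_lo3 h2.le h1)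
        (rz_lo3 h2 (by omega)) (rz_lo3 h2 (by omega)) 1 2 0 1 y x h1 h2 g g' m3_y m3_x ad_m3
      rw [wg_m3 (nb1 g') (nb1 g)] at this
      exact this.trans_eq (by ring)
    · rw [lo_nd (by omega), lo_nd (by omega), lo_nd (by omega), lo_nd (by omega)]
      have := H.m2 3 le_rfl _ _ _ _ (rz_sl h1.le h2.le h3.le (by omega))
        (rz_sl h1 h2.le h3 (by omega)) (rz_sl (by omega) h2 h3.le (by omega))
        (rz_sl (by omega) h2 h3 (by omega)) 2 3 0 1 y x h1 h2 g g' sl_y (sl_x h1.le h3.le) ad_xy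
      rw [wg_sl hd (nb1 g') (nb1 g)] at this
      exact this.trans_eq (by ring)
  · rw [lo_cN, lo_cN, lo_cN, lo_cN, nj_ne (nb1 g), nj_ne (nb2 g), nj_ne (nb1 g')]
    refine dv4 hd ?_
    rw [lo_nd h2, lo_nd h2, lo_nd h2.le, lo_nd h2.le]
    have := H.m2 3 le_rfl _ _ _ _ (rz_sl h1.le h2.le h1.le h2.le) (rz_sl h1 h2.le h1 h2.le)
      (rz_sl h1.le h2.le (by omega) h2) (rz_sl h1 h2.le (by omega) h2) 2 3 0 1 y x h1 h2 g g'
      sl_y sl_t ad_ty
    rw [wg_sl hd (nb1 g') (nb1 g), w2 _ (nb1 g')] at this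
    exact this.trans_eq (by ring)
  · rw [lo_cN, lo_cN, lo_cN, lo_cN, nj_ne (nb1 g), nj_ne (nb2 g), nj_ne (nb1 g'), nj_ne (nb2 g')]
    refine dv4 hd ?_
    rw [lo_nd (by omega), lo_nd (by omega), lo_nd (by omega), lo_nd (by omega)]
    have := H.m2 3 le_rfl _ _ _ _ (rz_sl h1.le h2.le le_rfl (by omega))
      (rz_sl h1 h2.le le_rfl (by omega)) (rz_sl (by omega) h2 le_rfl (by omega))
      (rz_sl (by omega) h2 le_rfl (by omega)) 2 3 0 1 y x h1 h2 g g' (sl_yy h1)
      (sl_x h1.le le_rfl) (ad_xyy h1)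
    rw [wg_sl hd (nb1 g') (nb1 g), w2 _ (nb1 g)] at this
    exact this.trans_eq (by ring)

theorem off0 {z x k : ℕ} (h1 : z ≤ x) (h2 : x ≤ L.length) (h3 : z ≤ k) (h4 : k ≤ L.length) :
    |(cN L T q j).off L.length z x k| ≤ omg L j z * C := by
  have w0 : 0 ≤ omg L j z := by unfold omg; split_ifs <;> positivity
  rw [off_cN]
  by_cases ex : x = j
  · rw [ex, nj_self, zero_div, zero_mul, zero_mul, abs_zero]; positivity
  by_cases ek : k = j
  · rw [ek, nj_self, mul_zero, zero_mul, abs_zero]; positivity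
  rw [nj_ne ex, nj_ne ek]
  refine dv1 hd ?_
  have := H.m0 3 le_rfl _ (rz_so h1 h2 h3 h4) 2 3 0 1
  rw [wg_so hd ex ek] at this
  exact this.trans_eq (by ring)

theorem off1 {z x k : ℕ} (g : ¬ Bad j L.length x) (h1 : z ≤ x) (h2 : x < L.length) (h3 : z ≤ k)
    (h4 : k ≤ L.length) :
    |(cN L T q j).off L.length z (x + 1) k - (cN L T q j).off L.length z x k| ≤
      omg L j z * (C * a x) ∧
    |(cN L T q j).off L.length z k (x + 1) - (cN L T q j).off L.length z k x| ≤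
      omg L j z * (C * a x) := by
  have w0 : 0 ≤ omg L j z := by unfold omg; split_ifs <;> positivity
  have := a0 x
  rw [off_cN, off_cN, off_cN, off_cN]
  by_cases ek : k = j
  · simp only [ek, nj_self, mul_zero, zero_mul, zero_div, sub_self, abs_zero, and_self]
    positivity
  rw [nj_ne (nb1 g), nj_ne (nb2 g), nj_ne ek]
  refine ⟨dv2 hd ?_, dv2 hd ?_⟩
  · have := H.m1 3 le_rfl _ _ (rz_so h1 h2.le h3 h4) (rz_so (by omega) h2 h3 h4) 2 3 0 1 x h2 g so_x
    rw [wg_so hd (nb1 g) ek] at this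
    exact this.trans_eq (by ring)
  · have := H.m1 3 le_rfl _ _ (rz_so h3 h4 h1 h2.le) (rz_so h3 h4 (by omega) h2) 2 3 0 1 x h2 g so_k
    rw [wg_so hd ek (nb1 g)] at this
    exact this.trans_eq (by ring)

theorem off2 {z x k : ℕ} (g : ¬ Bad j L.length x) (g' : ¬ Bad j L.length k) (h1 : z ≤ x)
    (h2 : x < L.length) (h3 : z ≤ k) (h4 : k < L.length) (hne : x ≠ k) :
    |mx ((cN L T q j).off L.length z) x k| ≤ omg L j z * (C * (a x * a k)) := by
  have h1' := h1.trans x.le_succ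
  have h3' := h3.trans k.le_succ
  rw [mx, off_cN, off_cN, off_cN, off_cN, nj_ne (nb1 g), nj_ne (nb2 g), nj_ne (nb1 g'),
    nj_ne (nb2 g')]
  rcases hne.lt_or_gt with h | h
  · have := H.m2 3 le_rfl _ _ _ _ (rz_so h1 h2.le h3 h4.le) (rz_so h1' h2 h3 h4.le)
      (rz_so h1 h2.le h3' h4) (rz_so h1' h2 h3' h4) 2 3 0 1 x k h h4 g g' so_x so_k ad_so
    rw [wg_so hd (nb1 g) (nb1 g')] at this
    exact (le_of_eq (by congr 1; ring)).trans (dv4 hd (this.trans_eq (by ring)))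
  · have := H.m2 3 le_rfl _ _ _ _ (rz_so h1 h2.le h3 h4.le) (rz_so h1 h2.le h3' h4)
      (rz_so h1' h2 h3 h4.le) (rz_so h1' h2 h3' h4) 2 3 0 1 k x h h2 g' g so_k so_x ad_so'
    rw [wg_so hd (nb1 g) (nb1 g')] at this
    exact (le_of_eq (by congr 1; ring)).trans (dv4 hd (this.trans_eq (by ring)))

end inst

theorem two_le {u v b : ℝ} (h : |u| ≤ b) (h' : |v| ≤ b) : |u - v| ≤ 2 * b :=
  (abs_sub _ _).trans (by linarith)

/-- **`RegWS`** -/
theorem regWS : RegWS := by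
  intro C C1
  refine ⟨100 * C ^ 2, by nlinarith, fun Θ L T q P a j j₁ hM hj hd H hP PK a0 hda => ?_⟩
  have C0 : 0 ≤ C := by linarith
  have P0 : ∀ i, 0 ≤ P i := fun i => (hP i).1
  have PC : ∀ i, P i ≤ C := fun i => (hP i).2
  have W := om_omg hM hj hd
  have G := ptW hj hd H C0 P0 PK a0
  set κ := 100 * C ^ 2 with hκ
  have k1 : 100 * C ≤ κ := by nlinarith
  have k2 : 100 * (C * C) ≤ κ := by nlinarith
  have k0 : 1 ≤ κ := by linarith
  set s : ℕ → ℝ := fun i => κ * (a i + if Bad j L.length i then 1 else 0) with hs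
  have sa : ∀ i, κ * a i ≤ s i := fun i => by
    simp only [hs]; split_ifs <;> nlinarith
  have sb : ∀ i, Bad j L.length i → κ ≤ s i := fun i h => by
    simp only [hs, if_pos h]; nlinarith [a0 i]
  have d1 : ∀ i, ¬ Bad j L.length i → dm L 0 i ≤ a i ∧ dm L 0 (i + 1) ≤ a i := fun i h => by
    constructor <;> linarith [hda i h, dm_nonneg hM i, dm_nonneg hM (i + 1)]
  have ca : ∀ i, 100 * (C * C * a i) ≤ s i ∧ 0 ≤ C * C * a i ∧ C * a i ≤ C * C * a i := fun i => by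
    have := a0 i
    have := sa i
    refine ⟨by nlinarith, by positivity, by nlinarith [mul_nonneg C0 (a0 i)]⟩
  have pa : ∀ y i, C * (P y * a i) ≤ C * C * a i := fun y i => by
    have := mul_le_mul_of_nonneg_right (PC y) (mul_nonneg C0 (a0 i))
    linarith
  have pc : ∀ y, C * P y ≤ C * C := fun y => mul_le_mul_of_nonneg_left (PC y) C0
  have s0 : ∀ i, 0 ≤ s i := fun i => by linarith [(ca i).1, (ca i).2.1]
  have ps : ∀ y i, 100 * (C * (P y * a i)) ≤ κ * P y * s i := fun y i => by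
    have h1 : 100 * C * a i ≤ s i := by nlinarith [sa i, a0 i]
    have h2 := mul_le_mul_of_nonneg_left h1 (P0 y)
    have h3 := mul_le_mul_of_nonneg_right k0 (mul_nonneg (P0 y) (s0 i))
    linarith
  have pb : ∀ y i, Bad j L.length i → 100 * (C * P y) ≤ κ * P y * s i := fun y i h => by
    have h2 := mul_le_mul_of_nonneg_left (k1.trans (sb i h)) (P0 y)
    have h3 := mul_le_mul_of_nonneg_right k0 (mul_nonneg (P0 y) (s0 i))
    linarith
  have sl1 : ∀ i i', Bad j L.length i → s i' ≤ s i * s i' := fun i i' h => by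
    nlinarith [sb i h, s0 i']
  have sl2 : ∀ i i', 100 * (C * C * (a i * a i')) ≤ s i * s i' ∧ 0 ≤ C * C * (a i * a i') ∧
      C * (a i * a i') ≤ C * C * (a i * a i') := fun i i' => by
    have h0 := mul_nonneg (a0 i) (a0 i')
    have h1 := mul_le_mul (sa i) (sa i') (mul_nonneg (by linarith) (a0 i')) (s0 i)
    have h2 : 100 * (C * C) ≤ κ * κ := by nlinarith
    refine ⟨by nlinarith, by positivity, by nlinarith [mul_nonneg C0 h0]⟩
  have w0 := W.nn
  have CP : ∀ y, C * P y ≤ κ * P y := fun y => by nlinarith [P0 y]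
  have o1 : ∀ z x k, z < x → z < k → x < L.length → k ≤ L.length →
      |(cN L T q j).off L.length z (x + 1) k - (cN L T q j).off L.length z x k| ≤
        omg L j z * s x ∧
      |(cN L T q j).off L.length z k (x + 1) - (cN L T q j).off L.length z k x| ≤
        omg L j z * s x := fun z x k h1 h2 h3 h4 => by
    by_cases g : Bad j L.length x
    · have e : 2 * (omg L j z * C) ≤ omg L j z * s x := by nlinarith [sb x g, w0 z]
      exact ⟨(two_le (off0 hj hd H C0 P0 PK a0 (by omega) h3 h2.le h4)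
        (off0 hj hd H C0 P0 PK a0 h1.le h3.le h2.le h4)).trans e,
        (two_le (off0 hj hd H C0 P0 PK a0 h2.le h4 (by omega) h3)
        (off0 hj hd H C0 P0 PK a0 h2.le h4 h1.le h3.le)).trans e⟩
    · have e : omg L j z * (C * a x) ≤ omg L j z * s x :=
        mul_le_mul_of_nonneg_left (by linarith [(ca x).1, (ca x).2.1, (ca x).2.2]) (w0 z)
      have := off1 hj hd H C0 P0 PK a0 g h1.le h3 h2.le h4
      exact ⟨this.1.trans e, this.2.trans e⟩
  have o1' : ∀ z x k, z < x → z < k → x < L.length → k ≤ L.length →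
      |(cN L T q j).off L.length z (x + 1) k - (cN L T q j).off L.length z x k| ≤
        omg L j z * (s x / 50) ∧
      |(cN L T q j).off L.length z k (x + 1) - (cN L T q j).off L.length z k x| ≤
        omg L j z * (s x / 50) := fun z x k h1 h2 h3 h4 => by
    by_cases g : Bad j L.length x
    · have e : 2 * (omg L j z * C) ≤ omg L j z * (s x / 50) := by nlinarith [sb x g, w0 z]
      exact ⟨(two_le (off0 hj hd H C0 P0 PK a0 (by omega) h3 h2.le h4)
        (off0 hj hd H C0 P0 PK a0 h1.le h3.le h2.le h4)).trans e,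
        (two_le (off0 hj hd H C0 P0 PK a0 h2.le h4 (by omega) h3)
        (off0 hj hd H C0 P0 PK a0 h2.le h4 h1.le h3.le)).trans e⟩
    · have e : omg L j z * (C * a x) ≤ omg L j z * (s x / 50) :=
        mul_le_mul_of_nonneg_left (by linarith [(ca x).1, (ca x).2.1, (ca x).2.2]) (w0 z)
      have := off1 hj hd H C0 P0 PK a0 g h1.le h3 h2.le h4
      exact ⟨this.1.trans e, this.2.trans e⟩
  have mX : ∀ y x, y ≤ x → x < L.length →
      |LO L (cN L T q j) y (x + 1) - LO L (cN L T q j) y x| ≤ s x / 2 := fun y x h1 h2 => by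
    by_cases g : Bad j L.length x
    · linarith [two_le (G.lo W C0 P0 (h1.trans x.le_succ) h2) (G.lo W C0 P0 h1 h2.le), sb x g, pc y]
    · linarith [G.m1 W g h1 h2, (ca x).1, (ca x).2.1, pa y x]
  have mY : ∀ y x, y < x → x ≤ L.length →
      |LO L (cN L T q j) (y + 1) x - LO L (cN L T q j) y x| ≤ s y / 2 := fun y x h1 h2 => by
    by_cases g : Bad j L.length y
    · linarith [abs_sub (LO L (cN L T q j) (y + 1) x) (LO L (cN L T q j) y x),
        G.lo W C0 P0 (show y + 1 ≤ x from h1) h2, G.lo W C0 P0 h1.le h2, sb y g, pc y, pc (y + 1)]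
    · linarith [G.my W C0 PC C1 g h1 h2 (d1 y g).1 (d1 y g).2, (ca y).1, (ca y).2.1]
  refine ⟨fun y x t _ h1 h2 h3 h4 => ?_, fun y x _ h1 h2 => ⟨?_, ?_⟩, fun x h1 h2 => ?_,
    fun i _ h => ⟨?_, ?_⟩, fun i i' _ h1 h2 => ?_, fun y u x _ h1 h2 h3 => ?_,
    fun z x k h1 h2 _ _ h3 h4 => ?_, fun z x k h1 h2 _ _ h3 h4 => o1 z x k h1 h2 h3 h4,
    fun z x k h1 h2 _ _ h3 h4 hne => ?_⟩
  · exact (G.h0 y x t h1 h2 h3 h4).trans (mul_le_mul_of_nonneg_right (CP y) (w0 t))
  · by_cases e : x = j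
    · rw [e, G.zx, abs_zero]; exact mul_nonneg (by linarith) (P0 y)
    · have := G.h0 y x x h1 h2 h1 (by omega)
      rw [G.one x e, mul_one] at this
      exact this.trans (CP y)
  · by_cases e : y = j
    · rw [e, G.zy, abs_zero]; exact mul_nonneg (by linarith) (P0 j)
    · have := G.h0 y x y h1 h2 le_rfl (by omega)
      rw [G.one y e, mul_one] at this
      exact this.trans (CP y)
  · have := mul_nonneg C0 (P0 j₁)
    have := mul_nonneg C0 (mul_nonneg (P0 j₁) (a0 x))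
    by_cases g : Bad j L.length x
    · linarith [two_le (G.lo W C0 P0 (h1.trans x.le_succ) h2) (G.lo W C0 P0 h1 h2.le), pb j₁ x g]
    · linarith [G.m1 W g h1 h2, ps j₁ x]
  · linarith [mY i (i + 1) i.lt_succ_self h, s0 i]
  · linarith [mX i i le_rfl h, s0 i]
  · by_cases g : Bad j L.length i
    · have e1 := abs_le.1 (mX (i + 1) i' h1 h2)
      have e2 := abs_le.1 (mX i i' h1.le h2)
      have := sl1 i i' g
      rw [mx, abs_le]
      constructor <;> linarith [e1.1, e1.2, e2.1, e2.2]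
    by_cases g' : Bad j L.length i'
    · have e1 := abs_le.1 (mY i (i' + 1) (by omega) h2)
      have e2 := abs_le.1 (mY i i' h1 h2.le)
      have := sl1 i' i g'
      rw [mx, abs_le]
      constructor <;> linarith [e1.1, e1.2, e2.1, e2.2]
    · linarith [G.m2 W C0 PC C1 g g' h1 h2 (d1 i g).1 (d1 i g).2 (a0 i'), (sl2 i i').1,
        (sl2 i i').2.1]
  · have := mul_nonneg C0 (P0 y)
    have := mul_nonneg C0 (mul_nonneg (P0 y) (a0 x))
    by_cases g : Bad j L.length x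
    · linarith [two_le (G.cp W C0 P0 h1 (show u ≤ x + 1 by omega) h3)
        (G.cp W C0 P0 h1 h2.le h3.le), pb y x g]
    · linarith [G.p1 W g h1 h2.le h3, ps y x]
  · exact (off0 hj hd H C0 P0 PK a0 h1.le h3 h2.le h4).trans
      (mul_le_mul_of_nonneg_left (by linarith) (w0 z))
  · by_cases g : Bad j L.length x
    · have e1 := abs_le.1 (o1' z k (x + 1) h2 (by omega) h4 h3).2
      have e2 := abs_le.1 (o1' z k x h2 h1 h4 h3.le).2
      have := mul_le_mul_of_nonneg_left (sl1 x k g) (w0 z)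
      have := mul_nonneg (w0 z) (s0 k)
      rw [mx, abs_le]
      constructor <;> linarith [e1.1, e1.2, e2.1, e2.2]
    by_cases g' : Bad j L.length k
    · have e1 := abs_le.1 (o1' z x (k + 1) h1 (by omega) h3 h4).1
      have e2 := abs_le.1 (o1' z x k h1 h2 h3 h4.le).1
      have := mul_le_mul_of_nonneg_left (sl1 k x g') (w0 z)
      have := mul_nonneg (w0 z) (s0 x)
      rw [mx, abs_le]
      constructor <;> linarith [e1.1, e1.2, e2.1, e2.2]
    · exact (off2 hj hd H C0 P0 PK a0 g g' h1.le h3 h2.le h4 hne).trans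
        (mul_le_mul_of_nonneg_left (by linarith [(sl2 x k).1, (sl2 x k).2.1, (sl2 x k).2.2]) (w0 z))

end Crest.Agent.T156.Cas.Q21.R53

end
end

-- ▼ part T156/CQ21M_94
section

/-!
# Row 156 (helper94): bounds of the marked site coefficient (`MkS`)
-/

set_option autoImplicit false
set_option linter.all false

noncomputable section

namespace Crest.Agent.T156.Cas.Q21

open Finset
open Crest.Agent.T157.E Crest.Agent.T157.Casc Crest.Agent.T157.SL
open Nu87 Wp52
open Ker15 (Mv Um)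

namespace M94

variable {Θ : Type} {L : List (Lv Θ)} {r K i i' j : ℕ}

/-! ### grafts, for weights on any type -/

theorem up1_le (hL : Mono 0 L) {τ : SM (r + 1)} (hτ : Rz L.length τ) {φ ψ : SM (r + 2) → ℝ}
    (e : ∀ a t, φ (gr L.length τ a t) ≤ ψ (gr L.length τ a t)) : up1 L φ τ ≤ up1 L ψ τ :=
  div_le_div_of_nonneg_right (Ws_mono hL hτ (hτ.ncm φ) (hτ.ncm ψ) fun a t _ => e a t)
    (by positivity)

theorem up1_sub' (φ ψ : SM (r + 2) → ℝ) :
    up1 L (fun σ => φ σ - ψ σ) = fun τ => up1 L φ τ - up1 L ψ τ := by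
  funext τ; simp only [up1, Ws_sub, sub_div]

theorem up1_lin (c b : ℝ) (φ : SM (r + 2) → ℝ) :
    up1 L (fun σ => c * φ σ + b) = fun τ => c * up1 L φ τ + b := by
  have : ((r : ℝ) + 1) ≠ 0 := by positivity
  funext τ
  simp only [up1, Ws_add, Ws_mul, Ws_const, add_div, mul_div_assoc, Fintype.card_fin, Nat.cast_add,
    Nat.cast_one]
  rw [← mul_div_assoc _ b, mul_div_cancel_left₀ b this]

/-- two grafts -/
def A2 (L : List (Lv Θ)) (ρ : SM (r + 1)) (φ : SM (r + 3) → ℝ) : ℝ := up1 L (up1 L φ) ρ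

theorem A2_sub (ρ : SM (r + 1)) (φ ψ : SM (r + 3) → ℝ) :
    A2 L ρ (fun σ => φ σ - ψ σ) = A2 L ρ φ - A2 L ρ ψ := by
  simp only [A2, up1_sub']

theorem A2_mul (ρ : SM (r + 1)) (c : ℝ) (φ : SM (r + 3) → ℝ) :
    A2 L ρ (fun σ => c * φ σ) = c * A2 L ρ φ := by
  have := congrFun (up1_lin (L := L) c 0 (up1 L φ)) ρ
  have h := up1_lin (L := L) c 0 φ
  simp only [add_zero] at this h
  rw [A2, h, this, A2]

theorem A2_le (hL : Mono 0 L) {ρ : SM (r + 1)} (h : Rz L.length ρ) {φ ψ : SM (r + 3) → ℝ}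
    (e : ∀ τ, Rz L.length τ → (∀ u v, τ u.succ.succ v.succ.succ = ρ u v) → φ τ ≤ ψ τ) :
    A2 L ρ φ ≤ A2 L ρ ψ :=
  up1_le hL h fun a t => up1_le hL (h.gr a t) fun b s => e _ ((h.gr a t).gr b s) fun _ _ => rfl

open Classical in
/-- the level `j` is a label -/
def chi (j : ℕ) (ρ : SM r) : ℝ := if ∃ a b, a ≠ b ∧ ρ a b = j then 1 else 0

theorem chi_mem (ρ : SM r) : 0 ≤ chi j ρ ∧ chi j ρ ≤ 1 := by
  unfold chi
  split_ifs <;> norm_num

theorem up1_chi (hL : Mono 0 L) (hj : j < L.length) {ρ : SM (r + 1)} (h : Rz L.length ρ) :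
    up1 L (chi j) ρ ≤ chi j ρ + dm L 0 j := by
  by_cases e : ∃ a b, a ≠ b ∧ ρ a b = j
  · have h1 := up1_le hL h (φ := chi j) (ψ := fun σ => 0 * chi j σ + 1) fun a t => by
      simpa using (chi_mem _).2
    rw [up1_lin] at h1
    have := dm_nonneg hL j
    rw [show chi j ρ = 1 from if_pos e]
    linarith
  have n : ∀ a b, ρ a b ≠ j := fun a b k => by
    by_cases e' : a = b
    · rw [e', h.self] at k; omega
    · exact e ⟨a, b, e', k⟩
  have z : ∀ a t, t ≠ j → chi j (gr L.length ρ a t) = 0 := fun a t ht => if_neg fun ⟨u, v, h1, h2⟩ => by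
    revert h1 h2
    refine Fin.cases ?_ (fun u => ?_) u <;> refine Fin.cases ?_ (fun v => ?_) v <;> intro h1 h2
    · exact h1 rfl
    · have := n v a
      change min t (ρ v a) = j at h2
      omega
    · have := n u a
      change min t (ρ u a) = j at h2
      omega
    · exact n u v h2
  rw [show chi j ρ = 0 from if_neg e, zero_add, up1, div_le_iff₀ (by positivity)]
  refine (Ws_le hL h fun _ _ _ => (chi_mem _).1).trans ((sum_le_card_nsmul _ _ (dm L 0 j)
    fun a _ => ?_).trans_eq (by simp [mul_comm]))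
  rw [sum_eq_zero fun b _ => by rw [z a _ (n a b), mul_zero], add_zero]
  refine (Br_mono hL (g' := fun t => if t = j then 1 else 0) fun t _ => ?_).trans_eq ?_
  · split_ifs with k
    exacts [(chi_mem _).2, (z a t k).le]
  · simp [Br, hj.le, Nat.lt_succ_iff]

theorem wg_eq (ρ : SM r) : wg L j ρ = dm L 0 j + chi j ρ := rfl

theorem wg_nonneg (hL : Mono 0 L) (ρ : SM r) : 0 ≤ wg L j ρ :=
  add_nonneg (dm_nonneg hL j) (chi_mem ρ).1

theorem A2_chi (hL : Mono 0 L) (hj : j < L.length) {ρ : SM (r + 1)} (h : Rz L.length ρ) :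
    A2 L ρ (chi j) ≤ 2 * wg L j ρ := by
  have h1 := up1_le hL h (φ := up1 L (chi j)) (ψ := fun σ => 1 * chi j σ + dm L 0 j) fun a t => by
    rw [one_mul]; exact up1_chi hL hj (h.gr a t)
  rw [up1_lin] at h1
  have h2 := up1_chi hL hj h
  have := (chi_mem (j := j) ρ).1
  rw [wg_eq]
  unfold A2
  linarith

/-- the signed sum over the positions of the marked edge -/
def G (L : List (Lv Θ)) (j : ℕ) (ρ : SM (r + 1)) (F : Fin (r + 3) → Fin (r + 3) → SM (r + 3) → ℝ) :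
    ℝ := ∑ a, ∑ b, E91.cf r a b * A2 L ρ fun τ => if τ a b = j then F a b τ else 0

theorem G_sub (ρ : SM (r + 1)) (F F' : Fin (r + 3) → Fin (r + 3) → SM (r + 3) → ℝ) :
    G L j ρ (fun a b τ => F a b τ - F' a b τ) = G L j ρ F - G L j ρ F' := by
  simp only [G, ← sum_sub_distrib, ← mul_sub, ← A2_sub]
  refine sum_congr rfl fun a _ => sum_congr rfl fun b _ => congrArg (fun φ => _ * A2 L ρ φ)
    (funext fun τ => ?_)
  split_ifs <;> simp

theorem abs_G (hL : Mono 0 L) (hj : j < L.length) (hr : r ≤ 3) {ρ : SM (r + 1)}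
    (h : Rz L.length ρ) {F : Fin (r + 3) → Fin (r + 3) → SM (r + 3) → ℝ} {B : ℝ} (hB : 0 ≤ B)
    (hF : ∀ τ a b, Rz L.length τ → (∀ u v, τ u.succ.succ v.succ.succ = ρ u v) → a ≠ b →
      τ a b = j → |F a b τ| ≤ B) : |G L j ρ F| ≤ 1440 * wg L j ρ * B := by
  have w0 := wg_nonneg (j := j) hL ρ
  have r3 : (r : ℝ) ≤ 3 := by exact_mod_cast hr
  have r0 : (0 : ℝ) ≤ r := Nat.cast_nonneg r
  have key : ∀ a b, |E91.cf r a b * A2 L ρ fun τ => if τ a b = j then F a b τ else 0| ≤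
      20 * (B * (2 * wg L j ρ)) := fun a b => by
    by_cases e : a = b
    · rw [e, E91.cf_self, zero_mul, abs_zero]; positivity
    have k : ∀ τ, Rz L.length τ → (∀ u v, τ u.succ.succ v.succ.succ = ρ u v) →
        |if τ a b = j then F a b τ else 0| ≤ B * chi j τ := fun τ h1 h2 => by
      split_ifs with h3
      · rw [show chi j τ = 1 from if_pos ⟨a, b, e, h3⟩, mul_one]
        exact hF τ a b h1 h2 e h3
      · rw [abs_zero]; exact mul_nonneg hB (chi_mem _).1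
    have h1 := A2_le hL h fun τ h1 h2 => (abs_le.1 (k τ h1 h2)).2
    have h2 := A2_le hL h (φ := fun τ => -B * chi j τ)
      (ψ := fun τ => if τ a b = j then F a b τ else 0) fun τ h1 h2 => by
        rw [neg_mul]; exact (abs_le.1 (k τ h1 h2)).1
    rw [A2_mul] at h1 h2
    have h3 := mul_le_mul_of_nonneg_left (A2_chi hL hj h) hB
    exact SF97.amul ((E91.abs_cf_le r a b).trans (by nlinarith)) (abs_le.2 ⟨by linarith, by linarith⟩)
  refine (abs_sum_le_sum_abs _ _).trans ((sum_le_card_nsmul _ _ _ fun a _ =>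
    (abs_sum_le_sum_abs _ _).trans (sum_le_card_nsmul _ _ _ fun b _ => key a b)).trans ?_)
  simp only [card_univ, Fintype.card_fin, nsmul_eq_mul]
  push_cast
  have := mul_nonneg hB w0
  nlinarith [mul_nonneg this (sub_nonneg.2 r3), mul_nonneg (mul_nonneg this (sub_nonneg.2 r3)) r0]

/-! ### merging two depths -/

/-- the depth `i + 1` goes to `i` -/
def mg (i t : ℕ) : ℕ := if t = i + 1 then i else t

/-- the merged split matrix -/
def mrg (i : ℕ) (τ : SM r) : SM r := fun a b => mg i (τ a b)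

theorem mg_min (i a b : ℕ) : mg i (min a b) = min (mg i a) (mg i b) := by
  unfold mg
  split_ifs <;> omega

theorem um_mrg {τ : SM r} (h : Um K τ) (hi : i + 1 < K) : Um K (mrg i τ) := by
  refine ⟨fun a => ?_, fun a b => ?_, fun a b c => ?_⟩
  · rw [mrg, h.self]
    exact if_neg hi.ne'
  · rw [mrg, mrg, h.comm]
  · have := h.ultra a b c
    simp only [mrg, mg]
    split_ifs <;> omega

theorem mrg_gr (τ : SM r) (hi : i + 1 < K) (a : Fin r) (t : ℕ) :
    mrg i (gr K τ a t) = gr K (mrg i τ) a (mg i t) := by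
  funext b c
  refine Fin.cases ?_ (fun b => ?_) b <;> refine Fin.cases ?_ (fun c => ?_) c
  · exact if_neg hi.ne'
  · exact mg_min _ _ _
  · exact mg_min _ _ _
  · rfl

theorem up1_mrg (hi : i + 1 < L.length) {τ τ' : SM (r + 1)} (e : mrg i τ' = mrg i τ)
    {ψ : SM (r + 2) → ℝ} (hψ : ∀ σ σ', mrg i σ' = mrg i σ → ψ σ' = ψ σ) :
    up1 L ψ τ' = up1 L ψ τ := by
  have k : ∀ a t, ψ (gr L.length τ' a t) = ψ (gr L.length τ a t) := fun a t =>
    hψ _ _ (by rw [mrg_gr _ hi, mrg_gr _ hi, e])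
  simp only [up1, Ws, k]
  congr 2
  refine sum_congr rfl fun m _ => congrArg _ (sum_congr rfl fun a _ => ?_)
  by_cases h : m = i
  · rw [h, hψ (gr L.length τ a i) (gr L.length τ a (i + 1)) (by
      rw [mrg_gr _ hi, mrg_gr _ hi, show mg i (i + 1) = mg i i by simp [mg]]), sub_self, zero_div,
      zero_div]
  · rw [show cls τ' a (m + 1) = cls τ a (m + 1) from congrArg Finset.card
      (Finset.filter_congr fun b _ => by
        have h1 := congrFun (congrFun e a) b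
        have h2 := congrFun (congrFun e b) a
        simp only [mrg, mg] at h1 h2
        split_ifs at h1 h2 <;> omega)]

theorem mrg_mv {τ τ' : SM r} (H : Mv i τ τ') : mrg i τ' = mrg i τ := by
  funext a b
  have := H a b
  simp only [mrg, mg]
  split_ifs <;> omega

theorem mv_mrg (i : ℕ) (τ : SM r) : Mv i (mrg i τ) τ := fun a b => by
  simp only [mrg, mg]
  split_ifs <;> omega

/-- **merge invariance** -/
theorem G_mrg (hi : i < L.length) (hb : ¬Bad j L.length i) {ρ ρ' : SM (r + 1)} (H : Mv i ρ ρ')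
    (F : Fin (r + 3) → Fin (r + 3) → SM (r + 3) → ℝ) :
    G L j ρ' (fun a b τ => F a b (mrg i τ)) = G L j ρ fun a b τ => F a b (mrg i τ) := by
  unfold Bad at hb
  have h1 : i + 1 < L.length := by omega
  refine sum_congr rfl fun a _ => sum_congr rfl fun b _ => congrArg _
    (up1_mrg h1 (mrg_mv H) fun σ σ' e => up1_mrg h1 e fun τ τ' e' => ?_)
  have := congrFun (congrFun e' a) b
  refine if_congr ?_ (congrArg (F a b) e') rfl
  simp only [mrg, mg] at this
  split_ifs at this <;> omega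

theorem wg_mv (hb : ¬Bad j K i) {ρ ρ' : SM r} (H : Mv i ρ ρ') : wg L j ρ' = wg L j ρ := by
  unfold Bad at hb
  have : (∃ a b, a ≠ b ∧ ρ' a b = j) ↔ ∃ a b, a ≠ b ∧ ρ a b = j :=
    exists₂_congr fun a b => and_congr_right fun _ => by have := H a b; omega
  simp only [wg, this]

/-- the references, the edges of `S` without reference -/
def rf (q : Rf) (j : ℕ) (S : Finset (Fin 3)) (e : Fin 3) (i : ℕ) : ℝ :=
  if e ∈ S then 0 else if e = 0 then (if j ≤ i then q.1 j else 0) else q.2.2 i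

/-- the site factor -/
def Fs (T : List (Lv Bool)) (q : Rf) (j : ℕ) (p p' : Fin 3 → Fin r) (τ : SM r) : ℝ :=
  ∑ S ∈ ({1, 2} : Finset (Fin 3)).powerset, SF97.Qp (fun _ i => 1 - q.2.1 i) p p' τ S *
    Site94.SF T (rf q j S) p p' univ τ

theorem S3_eq (T : List (Lv Bool)) (q : Rf) {τ : SM r} {a b : Fin r} (h : τ a b = j)
    (c d e f : Fin r) : S3 T q τ a b c d e f = Fs T q j ![a, c, e] ![b, d, f] τ := by
  have hp : ({1, 2} : Finset (Fin 3)).powerset = {∅, {1}, {2}, {1, 2}} := by decide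
  simp only [S3, Fs, Site94.SF, ← TM_mul, ← TM_sum]
  refine congrArg _ (funext fun x => ?_)
  rw [hp, sum_insert (by decide), sum_insert (by decide), sum_pair (by decide)]
  simp [SF97.Qp, rf, ed, Site94.et, Q75.eK, aK, Fin.prod_univ_three, h]
  ring

/-- the site factor with the marked edge at `a b` -/
def Fm (T : List (Lv Bool)) (q : Rf) (j : ℕ) (c d e f : Fin (r + 1)) (a b : Fin (r + 3))
    (τ : SM (r + 3)) : ℝ :=
  Fs T q j ![a, c.succ.succ, e.succ.succ] ![b, d.succ.succ, f.succ.succ] τ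

theorem Mk_eq (T : List (Lv Bool)) (q : Rf) (ρ : SM (r + 1)) (c d e f : Fin (r + 1)) :
    Mk L T q j ρ c d e f = G L j ρ (Fm T q j c d e f) :=
  sum_congr rfl fun a _ => sum_congr rfl fun b _ => congrArg (fun φ => _ * A2 L ρ φ)
    (funext fun τ => if_ctx_congr Iff.rfl (fun h => S3_eq T q h _ _ _ _) fun _ => rfl)

/-- the hypotheses on the site side -/
structure Hy (T : List (Lv Bool)) (q : Rf) (P a : ℕ → ℝ) (j : ℕ) : Prop where
  rT : Ker15.R1 T
  hT : Mono 0 T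
  q0 : |q.1 j| ≤ 1
  hq : ∀ i, 0 ≤ q.2.1 i ∧ q.2.1 i ≤ 1 ∧ |q.2.2 i| ≤ 1
  hP : ∀ i, (∀ ε > 0, ∃ s, 0 < s ∧ Ker15.tm T i ≤ s ∧ min 1 (Ker15.PB 10 s) ≤ P i + ε) ∧
    (∀ i' ≤ i, |q.2.2 i'| ≤ P i) ∧ (j ≤ i → |q.1 j| ≤ P i)
  ha : ∀ i < T.length, SF97.vv T i ≤ a i ∧ |q.2.1 (i + 1) - q.2.1 i| ≤ a i ∧
    |q.2.2 (i + 1) - q.2.2 i| ≤ a i

namespace Hy

variable {T : List (Lv Bool)} {q : Rf} {P a : ℕ → ℝ} (H : Hy T q P a j) {p p' : Fin 3 → Fin r}
  {τ : SM r}
include H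

theorem a0 (hi : i < T.length) : 0 ≤ a i := (abs_nonneg _).trans (H.ha i hi).2.1

theorem P0 (i : ℕ) : 0 ≤ P i := (abs_nonneg _).trans ((H.hP i).2.1 i le_rfl)

theorem r1 (S : Finset (Fin 3)) : ∀ e ∈ (univ : Finset (Fin 3)), ∀ i, |rf q j S e i| ≤ 1 :=
  fun e _ i => by
    unfold rf
    split_ifs
    exacts [by simp, H.q0, by simp, (H.hq i).2.2]

theorem g1 : ∀ e ∈ (univ : Finset (Fin 3)), ∀ i, |(fun _ i => 1 - q.2.1 i) e i| ≤ 1 :=
  fun _ _ i => abs_le.2 ⟨by linarith [(H.hq i).2.1], by linarith [(H.hq i).1]⟩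

theorem rd (hi : i < T.length) (hb : ¬Bad j T.length i) (S : Finset (Fin 3)) :
    ∀ e ∈ (univ : Finset (Fin 3)), |rf q j S e (i + 1) - rf q j S e i| ≤ a i := fun e _ => by
  have := H.a0 hi
  unfold Bad at hb
  unfold rf
  split_ifs
  exacts [by simpa, by simpa, by omega, by omega, by simpa, (H.ha i hi).2.2]

theorem gd (hi : i < T.length) : ∀ e ∈ (univ : Finset (Fin 3)),
    |(fun _ i => 1 - q.2.1 i) e (i + 1) - (fun _ i => 1 - q.2.1 i) e i| ≤ a i := fun _ _ => by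
  rw [sub_sub_sub_cancel_left, abs_sub_comm]
  exact (H.ha i hi).2.1

theorem pz (S : Finset (Fin 3)) (i : ℕ) {ε : ℝ} (hε : 0 < ε) :
    SF97.Pz T 6 (rf q j S) univ i (P i + ε) :=
  ⟨(H.hP i).1 ε hε, fun e _ i' hi => le_trans (by
    have := H.P0 i
    unfold rf
    split_ifs with h1 h2 h3
    exacts [by simpa, (H.hP i).2.2 (h3.trans hi), by simpa, (H.hP i).2.1 i' hi])
      (le_add_of_nonneg_right hε.le)⟩

theorem Q1 (S : Finset (Fin 3)) : |SF97.Qp (fun _ i => 1 - q.2.1 i) p p' τ S| ≤ 1 :=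
  SF97.abs_prod_le fun e _ => (abs_neg _).trans_le (H.g1 e (mem_univ _) _)

variable (hr : r ≤ 6) (h : Um T.length τ)
include hr h

theorem s0 (S : Finset (Fin 3)) : |Site94.SF T (rf q j S) p p' univ τ| ≤ 8 :=
  (SF97.sf_abs (N := 6) H.rT H.hT (by norm_num) hr (H.r1 S) h).trans_eq (by norm_num)

theorem sp (S : Finset (Fin 3)) (ho : Site94.OddAt τ p p' univ i) {ε : ℝ} (hε : 0 < ε) :
    |Site94.SF T (rf q j S) p p' univ τ| ≤ 8 * (P i + ε) :=
  (SF97.sf_par (N := 6) H.rT H.hT (by norm_num) hr (H.r1 S) h ho (H.pz S i hε)).trans_eq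
    (by norm_num)

theorem s1 (S : Finset (Fin 3)) (hi : i < T.length) (hb : ¬Bad j T.length i) {σ : SM r}
    (h' : Um T.length σ) (m : Mv i σ τ) :
    |Site94.SF T (rf q j S) p p' univ τ - Site94.SF T (rf q j S) p p' univ σ| ≤ 600 * a i :=
  (SF97.sf_mv1 (N := 6) H.rT H.hT (by norm_num) hr (H.r1 S) hi h' h m (H.ha i hi).1
    (H.rd hi hb S)).trans_eq (by simp; ring)

theorem f0 : |Fs T q j p p' τ| ≤ 32 :=
  (SF97.sum_le fun S _ => SF97.amul (H.Q1 S) (H.s0 hr h S)).trans_eq (by simp; ring)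

theorem fp (ho : Site94.OddAt τ p p' univ i) {ε : ℝ} (hε : 0 < ε) :
    |Fs T q j p p' τ| ≤ 32 * (P i + ε) :=
  (SF97.sum_le fun S _ => SF97.amul (H.Q1 S) (H.sp hr h S ho hε)).trans_eq (by simp; ring)

variable (hi : i < T.length) (hb : ¬Bad j T.length i)
include hi hb

theorem um : Um T.length (mrg i τ) := um_mrg h (by unfold Bad at hb; omega)

theorem f1 : |Fs T q j p p' τ - Fs T q j p p' (mrg i τ)| ≤ 2496 * a i := by
  rw [Fs, Fs, ← sum_sub_distrib]
  exact (SF97.sum_le fun S _ => SF97.t1 H.g1 (mv_mrg i τ) (H.a0 hi) (H.gd hi) (subset_univ S)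
    (H.s0 hr h S) (H.s1 hr h S hi hb (H.um hr h hi hb) (mv_mrg i τ))).trans_eq (by simp; ring)

theorem f1p (hi' : i' ≤ i) (ho : Site94.OddAt τ p p' univ i') {ε : ℝ} (hε : 0 < ε) :
    |Fs T q j p p' τ - Fs T q j p p' (mrg i τ)| ≤ 2496 * ((P i' + ε) * a i) := by
  rw [Fs, Fs, ← sum_sub_distrib]
  exact (SF97.sum_le fun S _ => SF97.t1 H.g1 (mv_mrg i τ) (H.a0 hi) (H.gd hi) (subset_univ S)
    (H.sp hr h S ho hε) (SF97.sf_mv1p (N := 6) H.rT H.hT (by norm_num) hr (H.r1 S) hi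
      (H.um hr h hi hb) h (mv_mrg i τ) (H.ha i hi).1 (H.rd hi hb S) hi' ho
      (H.pz S i' hε))).trans_eq (by simp; ring)

theorem f2 (hii : i < i') (hi' : i' < T.length) (hb' : ¬Bad j T.length i') :
    |Fs T q j p p' τ - Fs T q j p p' (mrg i' τ) - (Fs T q j p p' (mrg i τ) -
      Fs T q j p p' (mrg i' (mrg i τ)))| ≤ 328320 * (a i * a i') := by
  have u1 := H.um hr h hi' hb'
  have u2 := H.um hr h hi hb
  have m1 : Mv i (mrg i' (mrg i τ)) (mrg i' τ) := fun x y => by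
    simp only [mrg, mg]; split_ifs <;> omega
  have m2 : ∀ x y, τ x y + mrg i' (mrg i τ) x y = mrg i' τ x y + mrg i τ x y := fun x y => by
    simp only [mrg, mg]; split_ifs <;> omega
  rw [Fs, Fs, Fs, Fs, ← sum_sub_distrib, ← sum_sub_distrib, ← sum_sub_distrib]
  exact (SF97.sum_le fun S _ => SF97.t2 H.g1 hii m1 (mv_mrg i' _) m2 (H.a0 hi) (H.a0 hi')
    (H.gd hi) (H.gd hi') (subset_univ S) (H.s0 hr h S) (H.s1 hr h S hi hb u2 (mv_mrg i τ))
    (H.s1 hr h S hi' hb' u1 (mv_mrg i' τ)) (SF97.sf_mv2 (N := 6) H.rT H.hT (by norm_num) hr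
      (H.r1 S) hii hi' (H.um hr u2 hi' hb') u1 u2 h m1 (mv_mrg i' _) m2 (H.ha i hi).1
      (H.ha i' hi').1 (H.rd hi hb S) (H.rd hi' hb' S))).trans_eq (by simp; ring)

end Hy

theorem one (hL : Mono 0 L) (hj : j < L.length) (hr : r ≤ 3) {ρ ρ' : SM (r + 1)}
    (h : Rz L.length ρ) (h' : Rz L.length ρ') (hi : i < L.length) (hb : ¬Bad j L.length i)
    (H : Mv i ρ ρ') {F : Fin (r + 3) → Fin (r + 3) → SM (r + 3) → ℝ} {B : ℝ} (hB : 0 ≤ B)
    (hF : ∀ τ a b, Rz L.length τ → ((∀ u v, τ u.succ.succ v.succ.succ = ρ u v) ∨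
      ∀ u v, τ u.succ.succ v.succ.succ = ρ' u v) → a ≠ b → τ a b = j →
      |F a b τ - F a b (mrg i τ)| ≤ B) : |G L j ρ' F - G L j ρ F| ≤ 2880 * wg L j ρ * B := by
  have h1 := abs_G hL hj hr h hB fun τ a b k1 k2 => hF τ a b k1 (.inl k2)
  have h2 := abs_G hL hj hr h' hB fun τ a b k1 k2 => hF τ a b k1 (.inr k2)
  rw [G_sub] at h1 h2
  rw [G_mrg hi hb H, wg_mv hb H] at h2
  rw [abs_le] at h1 h2 ⊢
  constructor <;> linarith [h1.1, h1.2, h2.1, h2.2]

theorem le_eps {x A P : ℝ} (hA : 0 ≤ A) (h : ∀ ε > 0, x ≤ A * (P + ε)) : x ≤ A * P :=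
  le_of_forall_pos_le_add fun ε hε => (h (ε / (A + 1)) (by positivity)).trans (by
    rw [mul_add]
    refine add_le_add le_rfl ?_
    rw [← mul_div_assoc, div_le_iff₀ (by positivity)]
    nlinarith)

end M94

open M94

/-- **leaf `MkS`** -/
theorem mkS : MkS := by
  refine ⟨10 ^ 10, by norm_num, fun Θ _ L T q P a j hl hL rT hT q0 hq hj hP ha => ?_⟩
  have Y : Hy T q P a j := ⟨rT, hT, q0, hq, hP, hl ▸ ha⟩
  have um : ∀ {r : ℕ} {τ : SM r}, Rz L.length τ → Um T.length τ := fun h =>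
    SF97.um_of_rz (hl ▸ h)
  have a0 : ∀ i < L.length, 0 ≤ a i := fun i hi => Y.a0 (hl ▸ hi)
  refine ⟨fun r hr ρ h c d e f => ?_, fun r hr ρ h c d e f i ho => ?_,
    fun r hr ρ ρ' h h' c d e f i hi hb H => ?_,
    fun r hr ρ ρ' h h' c d e f i hi hb H i' hi' ho ho' => ?_,
    fun r hr ρ₀ ρ₁ ρ₂ ρ₃ h₀ h₁ h₂ h₃ c d e f i i' hii hi' hb hb' H H' H2 => ?_⟩ <;>
    simp only [Mk_eq]
  · have := wg_nonneg (j := j) hL ρ
    exact (abs_G hL hj hr h (F := Fm T q j c d e f) (B := 32) (by norm_num) fun τ a b k _ _ _ =>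
      Y.f0 (by omega) (um k)).trans (by linarith)
  · have w0 := wg_nonneg (j := j) hL ρ
    refine le_eps (by positivity) fun ε hε => ?_
    have := mul_nonneg w0 (add_nonneg (Y.P0 i) hε.le)
    exact (abs_G hL hj hr h (F := Fm T q j c d e f) (B := 32 * (P i + ε)) (by linarith [Y.P0 i])
      fun τ a b k1 k2 k3 k4 => Y.fp (by omega) (um k1) (ho τ a b k1 k2 k3 k4) hε).trans
        (by linarith)
  · have := mul_nonneg (wg_nonneg (j := j) hL ρ) (a0 i hi)
    exact (one hL hj hr h h' hi hb H (F := Fm T q j c d e f) (B := 2496 * a i)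
      (by linarith [a0 i hi]) fun τ u v k _ _ _ =>
        Y.f1 (by omega) (um k) (hl ▸ hi) (hl ▸ hb)).trans (by linarith)
  · have w0 := mul_nonneg (wg_nonneg (j := j) hL ρ) (a0 i hi)
    rw [show ∀ x y z w : ℝ, x * y * (z * w) = x * (y * w) * z from fun _ _ _ _ => by ring]
    refine le_eps (by positivity) fun ε hε => ?_
    have p0 := add_nonneg (Y.P0 i') hε.le
    have := mul_nonneg w0 p0
    exact (one hL hj hr h h' hi hb H (F := Fm T q j c d e f) (B := 2496 * ((P i' + ε) * a i))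
      (by linarith [mul_nonneg p0 (a0 i hi)]) fun τ u v k1 k2 k3 k4 =>
        Y.f1p (by omega) (um k1) (hl ▸ hi) (hl ▸ hb) hi'
          (k2.elim (fun k => ho τ u v k1 k k3 k4) fun k => ho' τ u v k1 k k3 k4) hε).trans
            (by linarith)
  · have hi : i < L.length := hii.trans hi'
    obtain ⟨H1, H3⟩ := SF97.mv_13 hii H H' H2
    have b0 := mul_nonneg (a0 i hi) (a0 i' hi')
    have key : ∀ {ρ : SM (r + 1)}, Rz L.length ρ → |G L j ρ fun u v τ =>
        Fm T q j c d e f u v τ - Fm T q j c d e f u v (mrg i' τ) - (Fm T q j c d e f u v (mrg i τ) -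
          Fm T q j c d e f u v (mrg i' (mrg i τ)))| ≤ 1440 * wg L j ρ * (328320 * (a i * a i')) :=
      fun h => abs_G hL hj hr h (by linarith) fun τ u v k _ _ _ =>
        Y.f2 (by omega) (um k) (hl ▸ hi) (hl ▸ hb) hii (hl ▸ hi') (hl ▸ hb')
    have k0 := key h₀
    have k1 := key h₁
    have k2 := key h₂
    have k3 := key h₃
    rw [G_sub, G_sub] at k0 k1 k2 k3
    have e1 := G_mrg hi hb H fun u v τ => Fm T q j c d e f u v τ - Fm T q j c d e f u v (mrg i' τ)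
    have e3 := G_mrg hi hb H3 fun u v τ => Fm T q j c d e f u v τ - Fm T q j c d e f u v (mrg i' τ)
    rw [G_mrg hi' hb' H1, e3, wg_mv hb' H1, wg_mv hb H] at k3
    rw [G_mrg hi' hb' H', wg_mv hb' H'] at k2
    rw [e1, wg_mv hb H] at k1
    have := mul_nonneg (wg_nonneg (j := j) hL ρ₀) b0
    rw [abs_le] at k0 k1 k2 k3 ⊢
    constructor <;> linarith [k0.1, k0.2, k1.1, k1.2, k2.1, k2.2, k3.1, k3.2]

end Crest.Agent.T156.Cas.Q21

end
end

-- ▼ part T156/Q2SiteB_97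
section

/-!
# Row 156 (helper97): size of the same-node site coefficient
-/

set_option autoImplicit false
set_option linter.unusedSectionVars false

noncomputable section

namespace Crest.Agent.T156.Cas.Q75.S97

open Finset
open Crest.Agent.T157.E Crest.Agent.T157.Casc Crest.Agent.T157.SL
open Nu87 Ker15 One15
open Crest.ProbabilityR.SpinGlassDynamics (spin)

variable {L : List (Lv Bool)}

theorem um_n3 {K x t : ℕ} (h1 : x ≤ t) (h2 : t ≤ K) : Um K (m3 K x t x) := by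
  refine ⟨fun a => ?_, fun a b => ?_, fun a b c => ?_⟩
  · fin_cases a <;> rfl
  · fin_cases a <;> fin_cases b <;> rfl
  · fin_cases a <;> fin_cases b <;> fin_cases c <;> simp [m3] <;> omega

theorem um_n4 {K x t t' : ℕ} (h1 : x ≤ t) (h2 : t ≤ K) (h3 : x ≤ t') (h4 : t' ≤ K) :
    Um K (m4 K x x t x x t') := by
  refine ⟨fun a => ?_, fun a b => ?_, fun a b c => ?_⟩
  · fin_cases a <;> rfl
  · fin_cases a <;> fin_cases b <;> rfl
  · fin_cases a <;> fin_cases b <;> fin_cases c <;> simp [m4] <;> omega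

theorem f3_eq (q : ℕ → ℝ) {σ : SM 3} (h : Um L.length σ) :
    (ee (fun _ => 1) L 0 (eK q) (eK q)).f3 σ = Ga L (σ 0 2) + Bq L q (σ 0 1) (σ 1 2) := by
  have e : (fun z : Fin 3 → Bool => ed (eK q) 1 2 z σ * ed (eK q) 0 1 z σ) = fun z =>
      spin (z 0) * spin (z 2) + (-q (σ 0 1) * (spin (z 1) * spin (z 2)) +
        (-q (σ 1 2) * (spin (z 0) * spin (z 1)) + q (σ 1 2) * q (σ 0 1))) := by
    funext z
    have := One15.spin_sq (z 1)
    simp only [ed, eK]
    linear_combination (spin (z 0) * spin (z 2)) * this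
  show TM (fun _ : Bool => (1 : ℝ)) L 0 σ (fun z => ed (eK q) 1 2 z σ * ed (eK q) 0 1 z σ) = _
  rw [e, TM_add, TM_add, TM_add, TM_mul, TM_mul, TM_const w1 (rz h),
    TM_pair w1 (rz h) (by decide : (0 : Fin 3) ≠ 2) fun a b => spin a * spin b,
    TM_pair w1 (rz h) (by decide : (1 : Fin 3) ≠ 2) fun a b => spin a * spin b,
    TM_pair w1 (rz h) (by decide : (0 : Fin 3) ≠ 1) fun a b => spin a * spin b]
  simp only [Bq, Ga]
  ring

theorem f2_eq (q : ℕ → ℝ) {x : ℕ} (hx : x ≤ L.length) :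
    (ee (fun _ => 1) L 0 (eK q) (eK q)).f2 (tw L.length x) = 1 + Bq L q x x := by
  have e : (fun z : Fin 2 → Bool => ed (eK q) 0 1 z (tw L.length x) *
      ed (eK q) 0 1 z (tw L.length x)) = fun z => 1 + (-(2 * q x) * (spin (z 0) * spin (z 1)) +
        q x * q x) := by
    funext z
    have h0 := One15.spin_sq (z 0)
    have h1 := One15.spin_sq (z 1)
    simp only [ed, eK, tw_01 hx]
    linear_combination (spin (z 1) ^ 2) * h0 + h1
  show TM (fun _ : Bool => (1 : ℝ)) L 0 (tw L.length x) (fun z => ed (eK q) 0 1 z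
    (tw L.length x) * ed (eK q) 0 1 z (tw L.length x)) = _
  rw [e, TM_add, TM_add, TM_mul, TM_const w1 (rz_tw _ _), TM_const w1 (rz_tw _ _),
    TM_pair w1 (rz_tw _ _) (by decide : (0 : Fin 2) ≠ 1) fun a b => spin a * spin b, tw_01 hx]
  simp only [Bq, Ga]
  ring

theorem Bq_self (q : ℕ → ℝ) (hq : ∀ j, |q j| ≤ 1) {x : ℕ} (hx : x ≤ L.length) :
    |Bq L q x x| ≤ 3 * |q x| := by
  have e1 := abs_le.1 (abs_mul_le' (le_refl |q x|) (Ga_one hx))
  have e3 := abs_le.1 (abs_mul_le' (hq x) (le_refl |q x|))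
  rw [Bq, abs_le]
  constructor <;> linarith [e1.1, e1.2, e3.1, e3.2]

/-- crude bound -/
theorem sN_abs (q : ℕ → ℝ) (hq : ∀ j, |q j| ≤ 1) {x t t' : ℕ} (hx : x ≤ L.length) (h1 : x ≤ t)
    (h2 : t ≤ L.length + 1) (h3 : x ≤ t') (h4 : t' ≤ L.length + 1) :
    |(ee (fun _ => 1) L 0 (eK q) (eK q)).sN L.length x t t'| ≤ 4 := by
  have b := Bq_self q hq hx
  have := hq x
  rw [Tw.sN]
  split_ifs with a a' a'
  · rw [f2_eq q hx]
    exact (abs_add_le _ _).trans (by rw [abs_one]; linarith)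
  · rw [f3_eq q (um_n3 h3 (by omega))]
    exact (abs_add_le _ _).trans (add_le_add (Ga_one (show t' ≤ _ by omega)) b |>.trans
      (by linarith))
  · rw [f3_eq q (um_n3 h1 (by omega))]
    exact (abs_add_le _ _).trans (add_le_add (Ga_one (show t ≤ _ by omega)) b |>.trans
      (by linarith))
  · rw [f4_eq q (um_n4 h1 (by omega) h3 (by omega))]
    exact (abs_add_le _ _).trans (add_le_add (abs_E4 (um_n4 h1 (by omega) h3 (by omega)) _) b
      |>.trans (by linarith))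

variable (rL : R1 L) (hM : Mono 0 L) (q : ℕ → ℝ) (hq : ∀ j, |q j| ≤ 1)
include rL hM hq



end Crest.Agent.T156.Cas.Q75.S97

end
end

-- ▼ part T156/CQ21R_21
section

/-!
# Row 156 (helper21): regularity of the marked coefficient, one edge at the marked level (`RowRS`)
-/

set_option autoImplicit false
set_option linter.unusedSectionVars false

noncomputable section

namespace Crest.Agent.T156.Cas.Q21

open Finset
open Crest.Agent.T157.E Crest.Agent.T157.Casc Crest.Agent.T157.SL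
open Crest.Agent.T156.Cas.Q75 Crest.Agent.T156.Cas.Q75.S97
open Crest.Agent.T156.Cas.Q75.A10 (ind)
open Nu87
open Site94 (Crs OddAt)

namespace R21

section odd
variable {R : ℕ} {τ : SM R} {w a b c d e f : Fin R} {i : ℕ}

theorem odd3 (h0 : ¬Crs τ w i a b) (h : ¬(Crs τ w i c d ↔ Crs τ w i e f)) :
    OddAt τ ![a, c, e] ![b, d, f] univ i := by
  refine ⟨w, ?_⟩
  rw [Finset.card_filter, Fin.sum_univ_three]
  by_cases h1 : Crs τ w i c d <;> by_cases h2 : Crs τ w i e f <;> simp_all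

theorem odd3' (h0 : Crs τ w i a b) (h : Crs τ w i c d ↔ Crs τ w i e f) :
    OddAt τ ![a, c, e] ![b, d, f] univ i := by
  refine ⟨w, ?_⟩
  rw [Finset.card_filter, Fin.sum_univ_three]
  by_cases h1 : Crs τ w i c d <;> by_cases h2 : Crs τ w i e f <;> simp_all
  decide

end odd

section oddE
variable {K j i r : ℕ} {ρ : SM (r + 1)} {c d e f u v : Fin (r + 1)}

/-- two odd clusters that do not split at `j` -/
theorem oddE_two (huv : ρ u v ≤ i) (hj : ρ u v ≠ j) (hu : ¬(Crs ρ u i c d ↔ Crs ρ u i e f))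
    (hv : ¬(Crs ρ v i c d ↔ Crs ρ v i e f)) : OddE K j i ρ c d e f := by
  intro τ a b hτ hρ _ hj'
  by_cases h : Crs τ u.succ.succ i a b
  · refine odd3 (w := v.succ.succ) (fun h' => ?_) (by simpa only [Crs, hρ] using hv)
    rw [← hρ] at huv hj
    generalize u.succ.succ = U at *
    generalize v.succ.succ = V at *
    have := hτ.ultra U a V; have := hτ.ultra U b V; have := hτ.ultra a U V
    have := hτ.ultra b U V; have := hτ.ultra a V b; have := hτ.ultra b V a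
    have := hτ.ultra U a b; have := hτ.ultra U b a; have := hτ.comm a U
    have := hτ.comm b U; have := hτ.comm a V; have := hτ.comm b V; have := hτ.comm a b
    unfold Crs at h h'
    omega
  · exact odd3 h (by simpa only [Crs, hρ] using hu)

/-- all clusters are even -/
theorem oddE_even (hj : j ≤ i) (hi : i < K) (h : ∀ u, Crs ρ u i c d ↔ Crs ρ u i e f) :
    OddE K j i ρ c d e f := by
  intro τ a b hτ hρ _ hj'
  refine odd3' (w := a) (by rw [Crs, hτ.self]; omega) ?_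
  by_cases h1 : ∃ u : Fin (r + 1), i < τ a u.succ.succ
  · obtain ⟨u, hu⟩ := h1
    have k : ∀ x : Fin (r + 1), i < τ a x.succ.succ ↔ i < ρ u x := fun x => by
      rw [← hρ]
      have := hτ.ultra a u.succ.succ x.succ.succ
      have := hτ.ultra u.succ.succ a x.succ.succ
      have := hτ.comm a u.succ.succ
      omega
    simpa only [Crs, k] using h u
  · simp only [not_exists] at h1
    simp [Crs, h1]

end oddE

variable {Θ : Type} {L : List (Lv Θ)} {T : List (Lv Bool)} {q : Q21.Rf} {P a : ℕ → ℝ} {j : ℕ} {C : ℝ}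

theorem wg_le (hM : Mono 0 L) {r : ℕ} (ρ : SM r) : wg L j ρ ≤ 2 := by
  have := (dm_le_ex hM j).trans (Tay38.ex_le_one hM j)
  rw [wg]
  split_ifs <;> linarith

theorem ind0 (j t : ℕ) : 0 ≤ ind j t := by
  unfold ind
  split_ifs <;> norm_num

theorem wg_ind {r : ℕ} {ρ : SM r} {t t' : ℕ} (h : ∀ a b, a ≠ b → ρ a b = j → t = j ∨ t' = j) :
    wg L j ρ ≤ dm L 0 j + ind j t + ind j t' := by
  have := ind0 j t
  have := ind0 j t'
  rw [wg]
  split_ifs with h1
  · obtain ⟨a, b, h1, h2⟩ := h1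
    rcases h a b h1 h2 with rfl | rfl
    · rw [show ind t t = 1 from if_pos rfl]; linarith
    · rw [show ind t' t' = 1 from if_pos rfl]; linarith
  · linarith

section
variable (hM : Mono 0 L) (H : MkH L T q j C P a) (c0 : 0 ≤ C)
include hM H c0

theorem k0 {r : ℕ} (hr : r ≤ 3) {ρ : SM (r + 1)} (h : Ker15.Um L.length ρ) (c d e f : Fin (r + 1)) :
    |Mk L T q j ρ c d e f| ≤ 2 * C :=
  (H.m0 r hr ρ (rz h) c d e f).trans (by nlinarith [wg_le (j := j) hM ρ])

theorem kp {r : ℕ} (hr : r ≤ 3) {ρ : SM (r + 1)} (h : Ker15.Um L.length ρ) {c d e f : Fin (r + 1)}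
    {i : ℕ} (hP : 0 ≤ P i) (ho : OddE L.length j i ρ c d e f) :
    |Mk L T q j ρ c d e f| ≤ 2 * C * P i :=
  (H.mp r hr ρ (rz h) c d e f i ho).trans
    (mul_le_mul_of_nonneg_right (by nlinarith [wg_le (j := j) hM ρ]) hP)

theorem k1 {r : ℕ} (hr : r ≤ 3) {ρ ρ' : SM (r + 1)} (h : Ker15.Um L.length ρ)
    (h' : Ker15.Um L.length ρ') (c d e f : Fin (r + 1)) {i : ℕ} (hi : i < L.length)
    (hb : ¬Bad j L.length i) (ha : 0 ≤ a i) (hv : Ker15.Mv i ρ ρ') :
    |Mk L T q j ρ' c d e f - Mk L T q j ρ c d e f| ≤ 2 * C * a i :=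
  (H.m1 r hr ρ ρ' (rz h) (rz h') c d e f i hi hb hv).trans
    (mul_le_mul_of_nonneg_right (by nlinarith [wg_le (j := j) hM ρ]) ha)

theorem lo_abs {y x t : ℕ} (h1 : y ≤ x) (h2 : x ≤ L.length) (h3 : y ≤ t) (h4 : t ≤ L.length + 1) :
    |(cM L T q j).lo L.length y x t| ≤ 2 * C := by
  rw [Tw.lo]
  split_ifs with ht
  · exact k0 hM H c0 (r := 2) (by norm_num) (um_m3 h1 h2) 1 2 0 1
  · exact k0 hM H c0 (r := 3) le_rfl (um_sl h1 h2 h3 (by omega)) 2 3 0 1

theorem lo_par {y t : ℕ} (h1 : y < j) (h2 : j ≤ L.length) (h3 : y ≤ t) (h4 : t ≤ L.length + 1)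
    (hP : 0 ≤ P y) : |(cM L T q j).lo L.length y j t| ≤ 2 * C * P y := by
  have hy : y < L.length := by omega
  rw [Tw.lo]
  split_ifs with ht
  · refine kp hM H c0 (r := 2) (by norm_num) (um_m3 h1.le h2) hP (c := 1) (d := 2) (e := 0) (f := 1)
      (oddE_two (u := 0) (v := 1) ?_ ?_ ?_ ?_) <;> simp [Crs, m3, hy, h1, h1.ne]
  · refine kp hM H c0 (r := 3) le_rfl (um_sl h1.le h2 h3 (by omega)) hP (c := 2) (d := 3) (e := 0)
      (f := 1) (oddE_two (u := 1) (v := 0) ?_ ?_ ?_ ?_) <;> simp [Crs, sl, m4, hy, h1, h1.ne]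

variable {i : ℕ} (hb : ¬Bad j L.length i) (ha : 0 ≤ a i)
include hb ha

theorem lo_x {y t : ℕ} (h1 : y ≤ i) (h2 : i < L.length) (h3 : y ≤ t) (h4 : t ≤ L.length + 1) :
    |(cM L T q j).lo L.length y (i + 1) t - (cM L T q j).lo L.length y i t| ≤ 2 * C * a i := by
  rw [Tw.lo, Tw.lo]
  split_ifs with ht
  · refine k1 hM H c0 (r := 2) (by norm_num) (um_m3 h1 h2.le) (um_m3 (by omega) h2) 1 2 0 1 h2 hb ha
      fun a b => ?_
    fin_cases a <;> fin_cases b <;> simp [m3]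
  · refine k1 hM H c0 (r := 3) le_rfl (um_sl h1 h2.le h3 (by omega))
      (um_sl (by omega) h2 h3 (by omega)) 2 3 0 1 h2 hb ha fun a b => ?_
    fin_cases a <;> fin_cases b <;> simp [sl, m4] <;> omega

theorem lo_t {y : ℕ} (h1 : y ≤ i) (h2 : i < L.length) :
    |(cM L T q j).lo L.length y i (i + 1) - (cM L T q j).lo L.length y i i| ≤ 2 * C * a i := by
  rw [Tw.lo, Tw.lo, if_neg (by omega), if_neg (by omega)]
  refine k1 hM H c0 (r := 3) le_rfl (um_sl h1 h2.le h1 h2.le) (um_sl h1 h2.le (by omega) h2)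
    2 3 0 1 h2 hb ha fun a b => ?_
  fin_cases a <;> fin_cases b <;> simp [sl, m4]

theorem lo_y {x t : ℕ} (h1 : i < x) (h2 : x ≤ L.length) (h3 : i < t) (h4 : t ≤ L.length + 1) :
    |(cM L T q j).lo L.length (i + 1) x t - (cM L T q j).lo L.length i x t| ≤ 2 * C * a i := by
  rw [Tw.lo, Tw.lo]
  split_ifs with ht
  · refine k1 hM H c0 (r := 2) (by norm_num) (um_m3 h1.le h2) (um_m3 h1 h2) 1 2 0 1 (by omega) hb ha
      fun a b => ?_
    fin_cases a <;> fin_cases b <;> simp [m3]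
  · refine k1 hM H c0 (r := 3) le_rfl (um_sl h1.le h2 h3.le (by omega))
      (um_sl h1 h2 h3 (by omega)) 2 3 0 1 (by omega) hb ha fun a b => ?_
    fin_cases a <;> fin_cases b <;> simp [sl, m4]

theorem lo_yy {x : ℕ} (h1 : i < x) (h2 : x ≤ L.length) :
    |(cM L T q j).lo L.length (i + 1) x (i + 1) - (cM L T q j).lo L.length i x i| ≤
      2 * C * a i := by
  rw [Tw.lo, Tw.lo, if_neg (by omega), if_neg (by omega)]
  refine k1 hM H c0 (r := 3) le_rfl (um_sl h1.le h2 le_rfl (by omega))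
    (um_sl h1 h2 le_rfl (by omega)) 2 3 0 1 (by omega) hb ha fun a b => ?_
  fin_cases a <;> fin_cases b <;> simp [sl, m4] <;> omega

theorem cP_x {y u : ℕ} (h1 : y ≤ u) (h2 : u ≤ i) (hx : i < L.length) :
    |cP L (cM L T q j) y u (i + 1) - cP L (cM L T q j) y u i| ≤ 6 * (2 * C * a i) := by
  rw [cP_step L _ y u hx]
  have e1 := Lg_abs hM (u := u) (by omega) fun t ht ht' =>
    lo_x hM H c0 hb ha (y := y) (by omega) hx (by omega) ht'
  have e2 := Lx_abs hM (u := i + 1) hx fun t ht ht' =>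
    lo_x hM H c0 hb ha (y := y) (by omega) hx (by omega) ht'
  have e3 := abs_ex_mul hM i (lo_t hM H c0 hb ha (y := y) (by omega) hx)
  exact (abs_sub _ _).trans ((add_le_add (abs_add_le _ _) e3).trans (by linarith))

theorem LO_x {y : ℕ} (h1 : y ≤ i) (hx : i < L.length) :
    |LO L (cM L T q j) y (i + 1) - LO L (cM L T q j) y i| ≤ 14 * (2 * C * a i) := by
  have e1 := abs_le.1 (cP_x hM H c0 hb ha le_rfl h1 hx)
  have e2 := abs_le.1 (abs_mul_le' (kap_abs hM y) (lo_x hM H c0 hb ha h1 hx le_rfl (by omega)))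
  rw [LO, LO, abs_le]
  constructor <;> linarith [e1.1, e1.2, e2.1, e2.2]

theorem LO_y {x : ℕ} (h1 : i < x) (hx : x ≤ L.length) (d1 : dm L 0 i ≤ a i)
    (d2 : dm L 0 (i + 1) ≤ a i) :
    |LO L (cM L T q j) (i + 1) x - LO L (cM L T q j) i x| ≤ 16 * (2 * C * a i) := by
  have e1 := abs_le.1 (Lg_abs hM (u := i + 1) (by omega)
    fun t ht ht' => lo_y hM H c0 hb ha h1 hx (t := t) (by omega) ht')
  have e2 := abs_le.1 (Lx_abs hM hx fun t ht ht' => lo_y hM H c0 hb ha h1 hx (t := t) (by omega) ht')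
  have e3 := abs_le.1 (abs_mul_le' ((abs_of_nonneg (dm_nonneg hM (i + 1))).trans_le d2)
    (lo_abs hM H c0 h1.le hx (t := i + 1) (by omega) (by omega)))
  have e4 := abs_le.1 (abs_mul_le' (kap_abs hM (i + 1)) (lo_yy hM H c0 hb ha h1 hx))
  have e5 := abs_le.1 (abs_mul_le' (kap_step hM d1 d2) (lo_abs hM H c0 h1.le hx le_rfl (by omega)))
  rw [Lg_sub] at e1
  rw [Lx_sub] at e2
  rw [LO, LO, cP, cP, Lg_succ L (by omega : i < L.length) ((cM L T q j).lo L.length i x), abs_le]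
  constructor <;> linarith [e1.1, e1.2, e2.1, e2.2, e3.1, e3.2, e4.1, e4.2, e5.1, e5.2]

theorem off_k {z x : ℕ} (h1 : z ≤ x) (h2 : x ≤ L.length) (h3 : z ≤ i) (h4 : i < L.length) :
    |(cM L T q j).off L.length z x (i + 1) - (cM L T q j).off L.length z x i| ≤ 2 * C * a i := by
  refine k1 hM H c0 (r := 3) le_rfl (um_so h1 h2 h3 h4.le) (um_so h1 h2 (by omega) h4) 2 3 0 1 h4
    hb ha fun a b => ?_
  fin_cases a <;> fin_cases b <;> simp [so, m4]

omit hb ha

theorem off_abs {z x k : ℕ} (h1 : z ≤ x) (h2 : x ≤ L.length) (h3 : z ≤ k) (h4 : k ≤ L.length) :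
    |(cM L T q j).off L.length z x k| ≤ 2 * C :=
  k0 hM H c0 (r := 3) le_rfl (um_so h1 h2 h3 h4) 2 3 0 1

theorem cP_abs {y u x : ℕ} (h1 : y ≤ u) (h2 : u ≤ x) (hx : x ≤ L.length) :
    |cP L (cM L T q j) y u x| ≤ 5 * (2 * C) := by
  have e1 := Lg_abs hM (u := u) (by omega) fun t ht ht' =>
    lo_abs hM H c0 (y := y) (x := x) (by omega) hx (by omega) ht'
  have e2 := Lx_abs hM hx fun t ht ht' =>
    lo_abs hM H c0 (y := y) (x := x) (by omega) hx (by omega) ht'
  exact (abs_add_le _ _).trans (by linarith)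

theorem LO_abs {y x : ℕ} (h1 : y ≤ x) (hx : x ≤ L.length) :
    |LO L (cM L T q j) y x| ≤ 12 * (2 * C) := by
  have e1 := abs_le.1 (cP_abs hM H c0 le_rfl h1 hx)
  have e2 := abs_le.1 (abs_mul_le' (kap_abs hM y) (lo_abs hM H c0 h1 hx le_rfl (by omega)))
  rw [LO, abs_le]
  constructor <;> linarith [e1.1, e1.2, e2.1, e2.2]

theorem um_tw {K x : ℕ} : Ker15.Um K (tw K x) := SF97.um_of_rz (rz_tw K x)

theorem sN_abs {x t t' : ℕ} (h1 : x ≤ t) (h2 : x ≤ t') (h3 : x ≤ L.length) (h4 : t ≤ L.length + 1)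
    (h5 : t' ≤ L.length + 1) : |(cM L T q j).sN L.length x t t'| ≤ 2 * C := by
  rw [Tw.sN]
  split_ifs with b b' b'
  · exact k0 hM H c0 (r := 1) (by norm_num) (um_tw hM H c0) 0 1 0 1
  · exact k0 hM H c0 (r := 2) (by norm_num) (um_n3 h2 (by omega)) 1 2 0 1
  · exact k0 hM H c0 (r := 2) (by norm_num) (um_n3 h1 (by omega)) 1 2 0 1
  · exact k0 hM H c0 (r := 3) le_rfl (um_n4 h1 (by omega) h2 (by omega)) 2 3 0 1

theorem sN_even {t t' : ℕ} (h1 : j < t) (h2 : j < t') (h3 : j < L.length) (h4 : t ≤ L.length + 1)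
    (h5 : t' ≤ L.length + 1) (hP : 0 ≤ P j) :
    |(cM L T q j).sN L.length j t t'| ≤ 2 * C * P j := by
  rw [Tw.sN]
  split_ifs with b b' b'
  · exact kp hM H c0 (r := 1) (by norm_num) (um_tw hM H c0) hP (c := 0) (d := 1) (e := 0) (f := 1)
      (oddE_even le_rfl h3 fun _ => Iff.rfl)
  · refine kp hM H c0 (r := 2) (by norm_num) (um_n3 h2.le (by omega)) hP (c := 1) (d := 2) (e := 0)
      (f := 1) (oddE_even le_rfl h3 fun u => ?_)
    fin_cases u <;> simp [Crs, m3, h2, h3]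
  · refine kp hM H c0 (r := 2) (by norm_num) (um_n3 h1.le (by omega)) hP (c := 1) (d := 2) (e := 0)
      (f := 1) (oddE_even le_rfl h3 fun u => ?_)
    fin_cases u <;> simp [Crs, m3, h1, h3]
  · refine kp hM H c0 (r := 3) le_rfl (um_n4 h1.le (by omega) h2.le (by omega)) hP (c := 2) (d := 3)
      (e := 0) (f := 1) (oddE_even le_rfl h3 fun u => ?_)
    fin_cases u <;> simp [Crs, m4, h1, h2, h3]

omit hM c0 in
theorem sN_wg {x t t' : ℕ} (hj : j < L.length) (hx : x ≠ j) (h1 : x ≤ t) (h2 : x ≤ t')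
    (h3 : x ≤ L.length) (h4 : t ≤ L.length + 1) (h5 : t' ≤ L.length + 1) : ∃ g,
    g ≤ dm L 0 j + ind j t + ind j t' ∧ |(cM L T q j).sN L.length x t t'| ≤ C * g ∧
    (t ≠ j → t < L.length → |(cM L T q j).sN L.length x t t'| ≤ C * g * P t) ∧
    (t' ≠ j → t' < L.length → |(cM L T q j).sN L.length x t t'| ≤ C * g * P t') := by
  rw [Tw.sN]
  split_ifs with b b' b'
  · refine ⟨_, wg_ind fun u v h e => (hx ?_).elim, H.m0 1 (by norm_num) _ (rz_tw _ _) 0 1 0 1,
      by omega, by omega⟩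
    have e1 := tw_01 h3
    have e2 := ((rz_tw L.length x).comm 1 0).trans e1
    fin_cases u <;> fin_cases v
    exacts [absurd rfl h, e1.symm.trans e, e2.symm.trans e, absurd rfl h]
  · have U := rz (um_n3 h2 (show t' ≤ L.length by omega))
    refine ⟨_, wg_ind fun u v h e => ?_, H.m0 2 (by norm_num) _ U 1 2 0 1, by omega,
      fun e e' => H.mp 2 (by norm_num) _ U 1 2 0 1 _ (oddE_two (u := 0) (v := 2) ?_ ?_ ?_ ?_)⟩
    · fin_cases u <;> fin_cases v <;> simp_all [m3]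
    all_goals simp [Crs, m3, e, e', h2]
  · have U := rz (um_n3 h1 (show t ≤ L.length by omega))
    refine ⟨_, wg_ind fun u v h e => ?_, H.m0 2 (by norm_num) _ U 1 2 0 1,
      fun e e' => H.mp 2 (by norm_num) _ U 1 2 0 1 _ (oddE_two (u := 0) (v := 2) ?_ ?_ ?_ ?_),
      by omega⟩
    · fin_cases u <;> fin_cases v <;> simp_all [m3]
    all_goals simp [Crs, m3, e, e', h1]
  · have U := rz (um_n4 h1 (show t ≤ L.length by omega) h2 (show t' ≤ L.length by omega))
    refine ⟨_, wg_ind fun u v h e => ?_, H.m0 3 le_rfl _ U 2 3 0 1,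
      fun e e' => H.mp 3 le_rfl _ U 2 3 0 1 _ (oddE_two (u := 0) (v := 2) ?_ ?_ ?_ ?_),
      fun e e' => H.mp 3 le_rfl _ U 2 3 0 1 _ (oddE_two (u := 1) (v := 3) ?_ ?_ ?_ ?_)⟩
    · fin_cases u <;> fin_cases v <;> simp_all [m4]
    all_goals simp [Crs, m4, e, e', h1, h2]

end

end R21

open R21

/-- **(regularity, an edge at `j`, and same node)** -/
theorem rowRS : RowRS := by
  intro C hC
  refine ⟨100 * C, by linarith, fun Θ L T q P a j j₁ hM hj H hP hK ha hd => ?_⟩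
  have c0 : 0 ≤ C := by linarith
  have d0 := dm_nonneg hM
  have cr : ∀ {u v B : ℝ} {i : ℕ}, |u| ≤ B → |v| ≤ B → B ≤ 50 * C → i + 1 = L.length →
      |u - v| ≤ 100 * C * (a i + if i + 1 = L.length then 1 else 0) := fun {u v B i} hu hv hB hi => by
    rw [if_pos hi]
    exact (abs_sub _ _).trans (by nlinarith [mul_nonneg c0 (ha i)])
  have fi : ∀ {u B : ℝ} {i : ℕ}, |u| ≤ B * (2 * C * a i) → B ≤ 50 →
      |u| ≤ 100 * C * (a i + if i + 1 = L.length then 1 else 0) := fun {u B i} hu hB => by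
    have := mul_nonneg c0 (ha i)
    split_ifs <;> nlinarith
  refine ⟨⟨fun y t _ b c d => ?_, fun y _ b => ?_, fun x t b c d e => ?_, fun x b c => ?_,
    fun u x b c d => ?_, fun z k b c d => ?_, fun z k b c _ d e f => ?_⟩,
    fun x t t' b c d e f g => ?_, fun t t' b c d e => ⟨?_, fun f g => ?_⟩, fun σ h => ?_,
    fun σ h => ?_⟩
  · exact (lo_par hM H c0 b hj.le c d (hP y).1).trans
      (mul_le_mul_of_nonneg_right (by linarith) (hP y).1)
  · have hb : ¬Bad j L.length y := by unfold Bad; omega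
    exact fi (LO_y hM H c0 hb (ha y) (by omega) hj.le (by linarith [hd y hb, d0 (y + 1)])
      (by linarith [hd y hb, d0 y])) (by norm_num)
  · exact (lo_abs hM H c0 b.le c d e).trans (by linarith)
  · by_cases h : x + 1 = L.length
    · exact cr (LO_abs hM H c0 (by omega) c) (LO_abs hM H c0 b.le c.le) (by linarith) h
    · exact fi (LO_x hM H c0 (by unfold Bad; omega) (ha x) b.le c) (by norm_num)
  · by_cases h : x + 1 = L.length
    · exact cr (cP_abs hM H c0 b (by omega) d) (cP_abs hM H c0 b c.le d.le) (by linarith) h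
    · exact fi (cP_x hM H c0 (by unfold Bad; omega) (ha x) b c.le d) (by norm_num)
  · exact (off_abs hM H c0 b.le hj.le c.le d).trans (by linarith)
  · by_cases h : k + 1 = L.length
    · exact cr (off_abs hM H c0 b.le hj.le (by omega) d) (off_abs hM H c0 b.le hj.le c.le d.le)
        (by linarith) h
    · exact fi (B := 1) ((off_k hM H c0 (by unfold Bad; omega) (ha k) b.le hj.le c.le d).trans_eq
        (one_mul _).symm) (by norm_num)
  · obtain ⟨w, w1, w2, w3, w4⟩ := sN_wg H hj b c d e f g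
    have i1 := ind0 j t
    have i2 := ind0 j t'
    have := d0 j
    have key : ∀ {s : ℕ} {W : ℝ}, w ≤ W → 0 ≤ W → s ≤ L.length →
        (s < L.length → |(cM L T q j).sN L.length x t t'| ≤ C * w * P s) →
        |(cM L T q j).sN L.length x t t'| ≤ 100 * C * W * P s := fun {s W} h1 h2 h3 h4 => by
      have e1 : C * w ≤ 100 * C * W := by nlinarith [mul_nonneg c0 h2]
      rcases h3.eq_or_lt with rfl | h3
      · exact (w2.trans e1).trans (le_mul_of_one_le_right (by positivity) hK)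
      · exact (h4 h3).trans (mul_le_mul_of_nonneg_right e1 (hP s).1)
    refine ⟨w2.trans (by nlinarith [mul_nonneg c0 (show 0 ≤ dm L 0 j + ind j t + ind j t' by
      positivity)]), fun h h' => key ?_ (by positivity) h' (w3 h),
      fun h h' => key ?_ (by positivity) h' (w4 h)⟩
    · rw [show ind j t = 0 from if_neg h] at w1; linarith
    · rw [show ind j t' = 0 from if_neg h] at w1; linarith
  · exact (sN_abs hM H c0 b c hj.le d e).trans (by linarith)
  · exact (sN_even hM H c0 f g hj d e (hP j).1).trans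
      (mul_le_mul_of_nonneg_right (by linarith) (hP j).1)
  · exact (k0 hM H c0 (r := 2) (by norm_num) (SF97.um_of_rz h) 1 2 0 1).trans (by linarith)
  · exact (k0 hM H c0 (r := 3) le_rfl (SF97.um_of_rz h) 2 3 0 1).trans (by linarith)

end Crest.Agent.T156.Cas.Q21

end
end

-- ▼ part T156/CQ21W_75
section

/-!
# Row 156 (helper75): the weighted non-local bound (`NHWS`)
-/

set_option autoImplicit false

noncomputable section

namespace Crest.Agent.T156.Cas.Q21

open Finset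
open Crest.Agent.T157.E Crest.Agent.T157.Casc Crest.Agent.T157.SL
open Crest.Agent.T156.Rect52
open Crest.Agent.T156.Cas.Q75
open Crest.Agent.T156.Cas.Q75.A10 (ind)
open Nu87 Wt87

/-- the hypotheses of the weighted non-local bound -/
structure NW {Θ : Type} (L : List (Lv Θ)) (c B : Tw) (j₁ : ℕ) (c₀ : ℝ) (p s a ω : ℕ → ℝ)
    (b : ℕ → ℕ → ℝ) {V : Type} [AddCommGroup V] [Module ℝ V] (ip : LinearMap.BilinForm ℝ V)
    (δ : ℕ → V) (π : ℕ → ℕ → V) (P : ℕ → V →ₗ[ℝ] V) : Prop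
    extends BH L B j₁ c₀ p s a b ip δ π P where
  ctr : c.tr.Eqv c L.length
  reg : RegW L c j₁ c₀ p s ω
  w1 : ∀ t, 1 ≤ ω t
  wt : ω (L.length + 1) = 1
  wl : ∀ z < j₁, ω z = 1
  dw : ∀ i, dm L 0 i * ω i ≤ s i
  ws : ∑ t ∈ range (L.length + 1), dm L 0 t * ω t ≤ 2

section main
variable {Θ : Type} {L : List (Lv Θ)} {c B : Tw} {j₁ : ℕ} {c₀ : ℝ} {p s a ω φ ψ f f' : ℕ → ℝ}
  {b : ℕ → ℕ → ℝ} {V : Type} [AddCommGroup V] [Module ℝ V] {ip : LinearMap.BilinForm ℝ V}
  {δ : ℕ → V} {π : ℕ → ℕ → V} {P : ℕ → V →ₗ[ℝ] V}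

theorem NW.s0 (H : NW L c B j₁ c₀ p s a ω b ip δ π P) (i : ℕ) : 0 ≤ s i :=
  (dm_nonneg H.mono i).trans (H.ds i)

theorem NW.w0 (H : NW L c B j₁ c₀ p s a ω b ip δ π P) (i : ℕ) : 0 ≤ ω i := zero_le_one.trans (H.w1 i)

theorem NW.Sm_le (H : NW L c B j₁ c₀ p s a ω b ip δ π P) {A : Finset ℕ}
    (hA : A ⊆ range (L.length + 1)) {g : ℕ → ℝ} {r : ℝ} (hr : 0 ≤ r)
    (h : ∀ t ∈ A, |g t| ≤ r * ω t) : |∑ t ∈ A, dm L 0 t * g t| ≤ 2 * r := by
  have d0 := dm_nonneg H.mono
  refine (abs_sum_le_sum_abs _ _).trans ((sum_le_sum (g := fun t => dm L 0 t * ω t * r)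
    fun t ht => ?_).trans ?_)
  · rw [abs_mul, abs_of_nonneg (d0 t), mul_assoc, mul_comm (ω t)]
    exact mul_le_mul_of_nonneg_left (h t ht) (d0 t)
  · rw [← sum_mul]
    exact mul_le_mul_of_nonneg_right ((sum_le_sum_of_subset_of_nonneg hA
      fun i _ _ => mul_nonneg (d0 i) (H.w0 i)).trans H.ws) hr

theorem NW.Lg_le (H : NW L c B j₁ c₀ p s a ω b ip δ π P) {u : ℕ} (hu : u ≤ L.length) {g : ℕ → ℝ}
    {r : ℝ} (hr : 0 ≤ r) (h : ∀ t, u < t → t ≤ L.length + 1 → |g t| ≤ r * ω t) :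
    |Lg L u g| ≤ 3 * r := by
  have h1 := H.Sm_le (A := Ioc u L.length) (fun i hi => mem_range.2 (Nat.lt_succ_of_le
    (mem_Ioc.1 hi).2)) hr fun t ht => h t (mem_Ioc.1 ht).1 ((mem_Ioc.1 ht).2.trans (Nat.le_succ _))
  have h2 := h _ (Nat.lt_succ_of_le hu) le_rfl
  rw [H.wt, mul_one] at h2
  exact (abs_sub _ _).trans (by linarith)

theorem NW.LL (H : NW L c B j₁ c₀ p s a ω b ip δ π P) {u x : ℕ} (hu : u ≤ x) (hx : x ≤ L.length)
    {g : ℕ → ℝ} {r : ℝ} (h : ∀ t, u < t → t ≤ L.length + 1 → |g t| ≤ r * ω t) (h0 : |g x| ≤ r) :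
    |Lg L u g + Lx L x g| ≤ 7 * r := by
  have hr := (abs_nonneg _).trans h0
  have h1 := H.Lg_le (hu.trans hx) hr h
  have h2 := H.Lg_le hx hr fun t h1 h2 => h t (hu.trans_lt h1) h2
  have h3 := S97.abs_ex_mul H.mono x h0
  rw [Lx]
  exact (abs_add_le _ _).trans (by linarith [abs_sub (Lg L x g) (ex L x * g x)])

theorem NW.LO_le (H : NW L c B j₁ c₀ p s a ω b ip δ π P) {y : ℕ} (h1 : j₁ ≤ y) (hy : y ≤ L.length) :
    |LO L c y y| ≤ 16 * p y := by
  have k0 := (H.reg.lx y y h1 le_rfl hy).1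
  have k1 := H.LL le_rfl hy (fun t h4 h5 => H.reg.l0 y y t h1 le_rfl hy h4.le h5) k0
  have k3 := S97.abs_mul_le' (S97.kap_abs H.mono y) k0
  rw [LO, cP]
  refine (abs_add_le _ _).trans ?_
  rw [abs_mul, abs_neg, abs_two]
  linarith

theorem NW.lo_dec (H : NW L c B j₁ c₀ p s a ω b ip δ π P) {y x : ℕ} (h1 : j₁ ≤ y) (hy : y ≤ x)
    (hx : x ≤ L.length) : |LO L (c.mul B) y x - (LO L c y x * ip (δ x) (δ y) -
      2 * Q75.Pt L c ip δ π y x)| ≤ 14 * (p y * (b y x * a x)) := by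
  set Y : ℕ → ℝ := fun t => B.lo L.length y x t - (ip (δ x) (δ y) + ip (δ x) (π y (min t x)))
  have hY : ∀ t, y ≤ t → t ≤ L.length + 1 →
      |c.lo L.length y x t * Y t| ≤ p y * (b y x * a x) * ω t :=
    fun t h2 h3 => by
      rw [abs_mul, mul_right_comm]
      refine mul_le_mul (H.reg.l0 y x t h1 hy hx h2 h3) ?_ (abs_nonneg _)
        (mul_nonneg (H.p0 y) (H.w0 t))
      rcases le_or_gt t x with h | h
      · simp only [Y, min_eq_left h, H.bs.lo1 y x t h2 h hx, sub_self, abs_zero]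
        exact mul_nonneg (H.b0 y x) (H.bs.a0 x)
      · simp only [Y, min_eq_right h.le]
        exact H.lo3 y x t hy h h3 hx
  have e : ∀ t, y ≤ t → (c.mul B).lo L.length y x t =
      ip (δ x) (δ y) * c.lo L.length y x t + ∑ u ∈ Ico y x, ip (δ x) (π y (u + 1) - π y u) *
        (if u < t then c.lo L.length y x t else 0) + c.lo L.length y x t * Y t := fun t ht => by
    have : ∑ u ∈ Ico y x, ip (δ x) (π y (u + 1) - π y u) *
        (if u < t then c.lo L.length y x t else 0) =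
        ip (δ x) (π y (min t x)) * c.lo L.length y x t := by
      simp only [mul_ite, mul_zero]
      rw [← sum_filter, ← sum_mul, ← map_sum, show filter (· < t) (Ico y x) = Ico y (min t x) by
        ext u; simp only [mem_filter, mem_Ico]; omega,
        sum_Ico_sub (π y) (le_min ht hy), H.bs.pi0, sub_zero]
    rw [lo_mul, this]
    simp only [Y]
    ring
  have e1 : cP L (c.mul B) y y x = ip (δ x) (δ y) * cP L c y y x + Q75.Pt L c ip δ π y x +
      (Lg L y (fun t => c.lo L.length y x t * Y t) + Lx L x fun t => c.lo L.length y x t * Y t) := by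
    rw [cP, Lg_congr (hy.trans hx) fun t h _ => e t h.le, Lx_congr hx fun t h _ => e t (hy.trans h),
      Lg_add, Lg_add, Lx_add, Lx_add, Lg_mul, Lx_mul, Lg_sum, Lx_sum, Q75.Pt, cP,
      sum_congr rfl (g := fun u => ip (δ x) (π y (u + 1) - π y u) * Lg L u (c.lo L.length y x))
        fun u hu => by
          rw [Lg_mul, Lg_cut (mem_Ico.1 hu).1 ((mem_Ico.1 hu).2.le.trans hx)],
      sum_congr rfl (f := fun u => Lx L x _)
        (g := fun u => ip (δ x) (π y (u + 1) - π y u) * Lx L x (c.lo L.length y x)) fun u hu => by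
          rw [Lx_mul, Lx_congr hx fun t h _ => if_pos ((mem_Ico.1 hu).2.trans_le h)]]
    simp only [cP, add_mul, sum_add_distrib, mul_comm (ip (δ x) (π y _ - π y _))]
    ring
  have e2 : (c.mul B).lo L.length y x y = c.lo L.length y x y * ip (δ x) (δ y) := by
    rw [lo_mul, H.bs.lo1 y x y le_rfl hy hx, H.bs.pi0, map_zero, add_zero]
  have h := H.LL hy hx (fun t h2 h3 => hY t h2.le h3) (by
    simp only [Y, min_self, H.bs.lo1 y x x hy le_rfl hx, sub_self, mul_zero, abs_zero]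
    exact mul_nonneg (H.p0 y) (mul_nonneg (H.b0 y x) (H.bs.a0 x)))
  rw [LO, LO, e1, e2]
  rw [abs_le] at h ⊢
  constructor <;> nlinarith [h.1, h.2]

theorem NW.pi_bd (H : NW L c B j₁ c₀ p s a ω b ip δ π P) (W : Wf L j₁ ip δ φ f) {y : ℕ}
    (h1 : j₁ ≤ y) (hy : y ≤ L.length) :
    |∑ x ∈ Ico y (L.length + 1), dm L 0 x * φ x * Q75.Pt L c ip δ π y x| ≤
      p y * a y * (7 * f (y + 1) + ∑ i ∈ Ico j₁ L.length, s i * f (i + 1)) := by
  set F : ℕ → V := fun y => ∑ x ∈ Ico y (L.length + 1), (dm L 0 x * φ x) • δ x with hF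
  set d : ℕ → V := fun u => π y (u + 1) - π y u with hd
  have e0 : ∀ u v, ∑ x ∈ Ico v (L.length + 1), dm L 0 x * φ x * ip (δ x) (d u) = ip (F v) (d u) :=
    fun u v => by simp only [hF, map_sum, LinearMap.sum_apply, map_smul, LinearMap.smul_apply,
      smul_eq_mul]
  have e1 : ∑ x ∈ Ico y (L.length + 1), dm L 0 x * φ x * Q75.Pt L c ip δ π y x =
      ∑ u ∈ Ico y L.length, (cP L c y u (u + 1) * ip (F (u + 1)) (d u) +
        ∑ j ∈ Ico (u + 1) L.length, (cP L c y u (j + 1) - cP L c y u j) * ip (F (j + 1)) (d u)) := by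
    simp only [Q75.Pt, mul_sum]
    rw [← sum_Ico_Ico_comm', sum_Ico_succ_top hy, Ico_self, sum_empty, add_zero]
    refine sum_congr rfl fun u _ => ?_
    have := abel_id' (cP L c y u) (fun x => dm L 0 x * φ x * ip (δ x) (d u)) (u + 1) (L.length + 1)
    simp only [e0, Nat.add_sub_cancel] at this
    rw [← this]
    exact sum_congr rfl fun x _ => by ring
  have e2 : ∀ u ∈ Ico y L.length, ip (F (u + 1)) (d u) = ip (F (y + 1)) (d u) := fun u hu => by
    have hu' := mem_Ico.1 hu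
    rw [← e0, ← e0, ← sum_Ico_consecutive _ (show y + 1 ≤ u + 1 by omega)
      (show u + 1 ≤ L.length + 1 by omega), sum_eq_zero (s := Ico (y + 1) (u + 1)) fun v hv => by
        rw [H.bs.or1 y u v hu'.1 hu'.2 (by have := mem_Ico.1 hv; omega), mul_zero], zero_add]
  have pa := mul_nonneg (H.p0 y) (H.bs.a0 y)
  have b1 : |∑ u ∈ Ico y L.length, cP L c y u (u + 1) * ip (F (u + 1)) (d u)| ≤
      f (y + 1) * (7 * p y * a y) := by
    rw [sum_congr rfl fun u hu => by rw [e2 u hu, ← smul_eq_mul, ← map_smul], ← map_sum]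
    refine H.bs.cs (W.nn _) (by linarith) (W.tl _ (by omega)) (H.bs.mart hy le_rfl fun u h2 h3 => ?_)
    have g := fun t h4 h5 => H.reg.l0 y (u + 1) t h1 (by omega) h3 h4 h5
    exact H.LL (Nat.le_succ u) h3 (fun t h4 h5 => g t (h2.trans h4.le) h5)
      (H.reg.lx y (u + 1) h1 (by omega) h3).1
  have b2 : |∑ u ∈ Ico y L.length, ∑ j ∈ Ico (u + 1) L.length,
      (cP L c y u (j + 1) - cP L c y u j) * ip (F (j + 1)) (d u)| ≤
      p y * a y * ∑ i ∈ Ico j₁ L.length, s i * f (i + 1) := by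
    rw [sum_Ico_Ico_comm', mul_sum]
    refine (abs_sum_le_sum_abs _ _).trans ((sum_le_sum fun j hj => ?_).trans
      (sum_le_sum_of_subset_of_nonneg (Ico_subset_Ico_left h1) fun i _ _ =>
        mul_nonneg pa (mul_nonneg (H.s0 i) (W.nn _))))
    have hj' := mem_Ico.1 hj
    rw [sum_congr rfl fun u _ => by rw [← smul_eq_mul, ← map_smul], ← map_sum]
    refine (H.bs.cs (W.nn _) (mul_nonneg (mul_nonneg (H.p0 y) (H.s0 j)) (H.bs.a0 y))
      (W.tl _ (by omega)) (H.bs.mart hj'.1 hj'.2.le fun u h2 h3 =>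
        H.reg.p1 y u j h1 h2 h3 hj'.2)).trans_eq (by ring)
  rw [e1, sum_add_distrib]
  exact (abs_add_le _ _).trans (by linarith)

theorem NW.pi_sum (H : NW L c B j₁ c₀ p s a ω b ip δ π P) (W : Wf L j₁ ip δ φ f)
    (W' : Wf L j₁ ip δ ψ f') :
    2 * |∑ y ∈ Ico j₁ (L.length + 1), dm L 0 y * ψ y *
      ∑ x ∈ Ico y (L.length + 1), dm L 0 x * φ x * Q75.Pt L c ip δ π y x| ≤
      8 * ∑ y ∈ Ico j₁ (L.length + 1), dm L 0 y * (p y * a y) ^ 2 +
      7 * ∑ i ∈ Ico j₁ L.length, s i * f (i + 1) ^ 2 +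
      (∑ i ∈ Ico j₁ L.length, s i * f (i + 1)) ^ 2 := by
  set A := ∑ i ∈ Ico j₁ L.length, s i * f (i + 1)
  have d0 := dm_nonneg H.mono
  rw [← sum_subset (Ico_subset_Ico_right (Nat.le_succ L.length)) fun y h1 h2 => by
    rw [mem_Ico] at h1 h2
    rw [show y = L.length by omega, sum_Ico_succ_top le_rfl, Q75.Pt, Ico_self, sum_empty, sum_empty]
    ring]
  have h1 : ∑ y ∈ Ico j₁ L.length, dm L 0 y * (p y * a y) ^ 2 ≤
      ∑ y ∈ Ico j₁ (L.length + 1), dm L 0 y * (p y * a y) ^ 2 :=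
    sum_le_sum_of_subset_of_nonneg (Ico_subset_Ico_right (Nat.le_succ _))
      fun i _ _ => mul_nonneg (d0 i) (sq_nonneg _)
  have h2 := mul_le_mul_of_nonneg_right (sum_dm_le_one H.mono (A := Ico j₁ L.length)
    fun i hi => mem_range.2 ((mem_Ico.1 hi).2.trans (Nat.lt_succ_self _))) (sq_nonneg A)
  have h3 : 2 * |∑ y ∈ Ico j₁ L.length, dm L 0 y * ψ y *
      ∑ x ∈ Ico y (L.length + 1), dm L 0 x * φ x * Q75.Pt L c ip δ π y x| ≤
      ∑ y ∈ Ico j₁ L.length, (8 * (dm L 0 y * (p y * a y) ^ 2) + 7 * (s y * f (y + 1) ^ 2) +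
        dm L 0 y * A ^ 2) := by
    refine (mul_le_mul_of_nonneg_left (abs_sum_le_sum_abs _ _) zero_le_two).trans ?_
    rw [mul_sum]
    refine sum_le_sum fun y hy => ?_
    have k1 := mul_le_mul (W'.abs_le H.mono y) (H.pi_bd W (mem_Ico.1 hy).1 (mem_Ico.1 hy).2.le)
      (abs_nonneg _) (d0 y)
    have k2 := mul_le_mul_of_nonneg_right (H.ds y) (sq_nonneg (f (y + 1)))
    have k3 := mul_nonneg (d0 y) (sq_nonneg (p y * a y - f (y + 1)))
    have k4 := mul_nonneg (d0 y) (sq_nonneg (p y * a y - A))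
    rw [abs_mul]
    nlinarith
  simp only [sum_add_distrib, ← mul_sum, ← sum_mul] at h3
  linarith

theorem NW.off_bd (H : NW L c B j₁ c₀ p s a ω b ip δ π P) (W : Wf L j₁ ip δ φ f)
    (W' : Wf L j₁ ip δ ψ f') (z : ℕ) :
    |∑ x ∈ Ico (z + 1) (L.length + 1), ∑ k ∈ Ico (z + 1) (L.length + 1),
      dm L 0 x * φ x * (dm L 0 k * ψ k) * (c.off L.length z x k * B.off L.length z x k)| ≤
      ω z * (c₀ * (f (max (z + 1) j₁) ^ 2 + f' (max (z + 1) j₁) ^ 2) +
      ((∑ i ∈ Ico j₁ L.length, s i * f (i + 1)) ^ 2 + (∑ i ∈ Ico j₁ L.length, s i * f' (i + 1)) ^ 2) +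
      ∑ i ∈ Ico j₁ L.length, s i * (f (i + 1) ^ 2 + f' (i + 1) ^ 2)) := by
  have w0 : 0 < ω z := zero_lt_one.trans_le (H.w1 z)
  have dv : ∀ {u v : ℝ}, |u| ≤ ω z * v → |u / ω z| ≤ v := fun h => by
    rwa [abs_div, abs_of_pos w0, div_le_iff₀' w0]
  have m1 := le_max_left (z + 1) j₁
  have m2 := le_max_right (z + 1) j₁
  rw [sum_cut (j := j₁) fun x hx => by simp [W.lw x hx],
    sum_congr rfl fun x _ => sum_cut (j := j₁) (fun k hk => by simp [W'.lw k hk]) _ _]
  have A3 : 2 * ∑ i ∈ Ico j₁ L.length, s i * (f (i + 1) * f' (i + 1)) ≤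
      ∑ i ∈ Ico j₁ L.length, s i * (f (i + 1) ^ 2 + f' (i + 1) ^ 2) := by
    rw [mul_sum]
    exact sum_le_sum fun i _ => by
      nlinarith [mul_nonneg (H.s0 i) (sq_nonneg (f (i + 1) - f' (i + 1)))]
  generalize max (z + 1) j₁ = m at *
  rcases le_or_gt m L.length with hm | hm
  swap
  · rw [Ico_eq_empty (by omega), sum_empty, abs_zero]
    have := H.c1
    have : 0 ≤ ∑ i ∈ Ico j₁ L.length, s i * (f (i + 1) ^ 2 + f' (i + 1) ^ 2) :=
      sum_nonneg fun i _ => mul_nonneg (H.s0 i) (by positivity)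
    positivity
  have h := sq_bd (fun x k => c.off L.length z x k / ω z) (fun i j => dm L 0 i * φ i * (dm L 0 j * ψ j) *
      ip (P z (δ i)) (P z (δ j))) m2 W.nn W'.nn H.s0 zero_le_one (K := L.length) (k0 := c₀)
    (fun x hx y hy => by
      rw [G2_ip]
      simp only [← map_smul (P z), ← map_sum (P z)]
      exact H.bs.cs (W.nn _) (W'.nn _) ((H.bs.con _ _).trans (W.tl x (m2.trans hx)))
        ((H.bs.con _ _).trans (W'.tl y (m2.trans hy))))
    (dv (H.reg.o0 z m m m1 m1 m2 m2 hm hm))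
    (fun i h1 h2 => by
      rw [one_mul, ← sub_div, ← sub_div]
      exact (H.reg.o1 z i m (by omega) m1 (by omega) m2 h2 hm).imp dv dv)
    (fun i h1 h2 => by
      have k1 := (H.reg.o1 z i (i + 1) (by omega) (by omega) (by omega) (by omega) h2 h2).1
      have k2 := (H.reg.o1 z i i (by omega) (by omega) (by omega) (by omega) h2 h2.le).1
      rw [mx, ← sub_div, ← sub_div, ← add_div]
      refine dv ?_
      rw [abs_le] at k1 k2 ⊢
      constructor <;> linarith [k1.1, k1.2, k2.1, k2.2])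
    fun i j h1 h2 h3 h4 h5 => by
      rw [mx, ← sub_div, ← sub_div, ← add_div]
      exact dv (H.reg.o2 z i j (by omega) (by omega) (by omega) (by omega) h2 h4 h5)
  rw [sum_congr rfl fun x hx => sum_congr rfl fun k hk => by
    rw [H.bs.off z x k (by have := mem_Ico.1 hx; omega) (by have := mem_Ico.1 hk; omega)
      (by have := mem_Ico.1 hx; omega) (by have := mem_Ico.1 hk; omega), mul_left_comm,
      ← mul_div_cancel₀ (c.off L.length z x k) w0.ne', mul_assoc]]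
  simp only [← mul_sum]
  rw [abs_mul, abs_of_pos w0]
  refine mul_le_mul_of_nonneg_left (h.trans ?_) w0.le
  have c1 := H.c1
  have k1 := mul_nonneg (sub_nonneg.2 c1) (sq_nonneg (f m))
  have k2 := mul_nonneg (sub_nonneg.2 c1) (sq_nonneg (f' m))
  have k3 := mul_nonneg (zero_le_one.trans c1) (sq_nonneg (f m - f' m))
  generalize ∑ i ∈ Ico j₁ L.length, s i * f (i + 1) = A1 at *
  generalize ∑ i ∈ Ico j₁ L.length, s i * f' (i + 1) = A2 at *
  nlinarith [sq_nonneg (A1 - f' m), sq_nonneg (A2 - f m), sq_nonneg (A1 - A2)]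

theorem NW.off_sum (H : NW L c B j₁ c₀ p s a ω b ip δ π P) (W : Wf L j₁ ip δ φ f)
    (W' : Wf L j₁ ip δ ψ f') :
    |∑ z ∈ range L.length, dm L 0 z * ∑ x ∈ Ico (z + 1) (L.length + 1),
      ∑ k ∈ Ico (z + 1) (L.length + 1),
      dm L 0 x * φ x * (dm L 0 k * ψ k) * (c.off L.length z x k * B.off L.length z x k)| ≤
      c₀ * (p j₁ * (f j₁ ^ 2 + f' j₁ ^ 2)) +
      2 * ((∑ i ∈ Ico j₁ L.length, s i * f (i + 1)) ^ 2 +
        (∑ i ∈ Ico j₁ L.length, s i * f' (i + 1)) ^ 2) +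
      3 * c₀ * ∑ i ∈ Ico j₁ L.length, s i * (f (i + 1) ^ 2 + f' (i + 1) ^ 2) := by
  have d0 := dm_nonneg H.mono
  have c1 := H.c1
  set g : ℕ → ℝ := fun y => f y ^ 2 + f' y ^ 2 with hg
  have g0 : ∀ y, 0 ≤ g y := fun y => by positivity
  have E0 : 0 ≤ ∑ i ∈ Ico j₁ L.length, s i * g (i + 1) :=
    sum_nonneg fun i _ => mul_nonneg (H.s0 i) (g0 _)
  have h1 : ∑ z ∈ range L.length, dm L 0 z * ω z * g (max (z + 1) j₁) ≤
      p j₁ * g j₁ + ∑ i ∈ Ico j₁ L.length, s i * g (i + 1) := by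
    have : range L.length ⊆ range j₁ ∪ Ico j₁ L.length := fun i hi => by
      simp only [mem_union, mem_range, mem_Ico] at hi ⊢; omega
    refine (sum_le_sum_of_subset_of_nonneg this fun i _ _ =>
      mul_nonneg (mul_nonneg (d0 i) (H.w0 i)) (g0 _)).trans ?_
    rw [sum_union (disjoint_left.2 fun i h1 h2 => by
      rw [mem_range] at h1; rw [mem_Ico] at h2; omega)]
    refine add_le_add ?_ (sum_le_sum fun i hi => ?_)
    · rw [sum_congr rfl fun z hz => by
        rw [max_eq_right (mem_range.1 hz), H.wl z (mem_range.1 hz), mul_one], ← sum_mul]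
      exact mul_le_mul_of_nonneg_right H.low (g0 _)
    · rw [max_eq_left ((mem_Ico.1 hi).1.trans (Nat.le_succ i))]
      exact mul_le_mul_of_nonneg_right (H.dw i) (g0 _)
  refine (abs_sum_le_sum_abs _ _).trans ((sum_le_sum fun z _ => (abs_mul _ _).trans_le
    (mul_le_mul (abs_of_nonneg (d0 z)).le (H.off_bd W W' z) (abs_nonneg _)
      (d0 z))).trans ?_)
  have h2 : ∑ z ∈ range L.length, dm L 0 z * ω z ≤ 2 :=
    (sum_le_sum_of_subset_of_nonneg (range_subset_range.2 (Nat.le_succ _))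
      fun i _ _ => mul_nonneg (d0 i) (H.w0 i)).trans H.ws
  simp only [← mul_assoc (dm L 0 _), mul_add (dm L 0 _ * ω _), sum_add_distrib, ← sum_mul,
    mul_left_comm (dm L 0 _ * ω _) c₀, ← mul_sum]
  simp only [hg, mul_add (dm L 0 _ * ω _), sum_add_distrib] at h1 E0
  have h3 := mul_le_mul_of_nonneg_left h1 (zero_le_one.trans c1)
  have h4 := mul_le_mul_of_nonneg_right (h2.trans (show 2 ≤ 2 * c₀ by linarith)) E0
  have h5 := mul_le_mul_of_nonneg_right h2 (sq_nonneg (∑ i ∈ Ico j₁ L.length, s i * f (i + 1)))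
  have h6 := mul_le_mul_of_nonneg_right h2 (sq_nonneg (∑ i ∈ Ico j₁ L.length, s i * f' (i + 1)))
  linarith

theorem NW.main_bd (H : NW L c B j₁ c₀ p s a ω b ip δ π P) (W : Wf L j₁ ip δ φ f)
    (W' : Wf L j₁ ip δ ψ f') (hj : j₁ ≤ L.length) :
    |∑ x ∈ Ico j₁ (L.length + 1), ∑ y ∈ Ico j₁ (L.length + 1), sy (LO L c) x y *
      (dm L 0 x * φ x * (dm L 0 y * ψ y) * ip (δ x) (δ y))| ≤
      9 * (p j₁ * (f j₁ ^ 2 + f' j₁ ^ 2)) + c₀ *
      ((∑ i ∈ Ico j₁ L.length, s i * f (i + 1)) ^ 2 + (∑ i ∈ Ico j₁ L.length, s i * f' (i + 1)) ^ 2) +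
      ∑ i ∈ Ico j₁ L.length, s i * (f (i + 1) ^ 2 + f' (i + 1) ^ 2) := by
  have A3 : 2 * ∑ i ∈ Ico j₁ L.length, s i * (f (i + 1) * f' (i + 1)) ≤
      ∑ i ∈ Ico j₁ L.length, s i * (f (i + 1) ^ 2 + f' (i + 1) ^ 2) := by
    rw [mul_sum]
    exact sum_le_sum fun i _ => by
      nlinarith [mul_nonneg (H.s0 i) (sq_nonneg (f (i + 1) - f' (i + 1)))]
  have p0 := H.p0 j₁
  have h := sq_bd (sy (LO L c)) (fun i j => dm L 0 i * φ i * (dm L 0 j * ψ j) * ip (δ i) (δ j))
    (le_refl j₁) W.nn W'.nn H.s0 p0 (K := L.length) (k0 := 16 * p j₁)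
    (fun x hx y hy => by
      rw [G2_ip]; exact H.bs.cs (W.nn _) (W'.nn _) (W.tl x hx) (W'.tl y hy))
    (by rw [sy_le _ le_rfl]; exact H.LO_le le_rfl hj)
    (fun i h1 h2 => by
      rw [sy_ge _ (h1.trans (Nat.le_succ i)), sy_ge _ h1, sy_le _ (h1.trans (Nat.le_succ i)),
        sy_le _ h1]
      exact ⟨H.reg.m1 i h1 h2, H.reg.m1 i h1 h2⟩)
    (fun i h1 h2 => by
      have k := H.reg.md i h1 h2
      rw [mx, sy_le _ le_rfl, sy_ge _ (Nat.le_succ i), sy_le _ (Nat.le_succ i), sy_le _ le_rfl]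
      rw [abs_le, abs_le] at k
      rw [abs_le]
      constructor <;> linarith [k.1.1, k.1.2, k.2.1, k.2.2])
    fun i j h1 h2 h3 h4 h5 => by
      rcases lt_or_gt_of_ne h5 with h | h
      · rw [mx, sy_le _ (by omega), sy_le _ (by omega), sy_le _ (by omega), sy_le _ h.le]
        exact H.reg.m2 i j h1 h h4
      · have := H.reg.m2 j i h3 h h2
        rw [mx] at this
        rw [mx, sy_ge _ (by omega), sy_ge _ (by omega), sy_ge _ (by omega), sy_ge _ h.le, mul_comm]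
        refine le_of_eq_of_le (congrArg _ (by ring)) this
  refine h.trans ?_
  have c1 := H.c1
  generalize ∑ i ∈ Ico j₁ L.length, s i * f (i + 1) = A1 at *
  generalize ∑ i ∈ Ico j₁ L.length, s i * f' (i + 1) = A2 at *
  have k1 := mul_le_mul_of_nonneg_right (H.pc j₁) (add_nonneg (sq_nonneg A1) (sq_nonneg A2))
  have k2 := mul_le_mul_of_nonneg_right c1 (add_nonneg (sq_nonneg A1) (sq_nonneg A2))
  nlinarith [mul_nonneg p0 (sq_nonneg (A1 - f' j₁)), mul_nonneg p0 (sq_nonneg (A2 - f j₁)),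
    sq_nonneg (A1 - A2), mul_nonneg p0 (sq_nonneg (f j₁ - f' j₁))]

/-- **(B) the non-local part is small** -/
theorem NW.bd (H : NW L c B j₁ c₀ p s a ω b ip δ π P) (W : Wf L j₁ ip δ φ f)
    (W' : Wf L j₁ ip δ ψ f') (hj : j₁ ≤ L.length) :
    |NL L (((Q75.wt φ ψ).mul c).mul B)| ≤ 100 * c₀ * Er2 L j₁ p s a b f f' := by
  have d0 := dm_nonneg H.mono
  set ρ : ℕ → ℕ → ℝ := fun y x => LO L (c.mul B) y x - (LO L c y x * ip (δ x) (δ y) -
    2 * Q75.Pt L c ip δ π y x) with hρ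
  have r0 : ∀ y x, 0 ≤ dm L 0 x * dm L 0 y * (p y * (b y x * a x)) := fun y x =>
    mul_nonneg (mul_nonneg (d0 x) (d0 y)) (mul_nonneg (H.p0 y) (mul_nonneg (H.b0 y x) (H.bs.a0 x)))
  have r1 : ∀ {φ ψ f f' : ℕ → ℝ}, Wf L j₁ ip δ φ f → Wf L j₁ ip δ ψ f' → ∀ n : ℕ → ℕ,
      (∀ x, n x ≤ x + 1) → |∑ x ∈ Ico j₁ (L.length + 1), ∑ y ∈ Ico j₁ (n x),
        dm L 0 x * φ x * (dm L 0 y * ψ y) * ρ y x| ≤ 14 * ∑ x ∈ Ico j₁ (L.length + 1),
          ∑ y ∈ Ico j₁ (x + 1), dm L 0 x * dm L 0 y * (p y * (b y x * a x)) :=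
    fun W W' n hn => by
      rw [mul_sum]
      refine (abs_sum_le_sum_abs _ _).trans (sum_le_sum fun x hx => ?_)
      rw [mul_sum]
      refine (abs_sum_le_sum_abs _ _).trans ((sum_le_sum fun y hy => ?_).trans
        (sum_le_sum_of_subset_of_nonneg (Ico_subset_Ico_right (hn x))
          fun y _ _ => mul_nonneg (by norm_num) (r0 y x)))
      rw [abs_mul, abs_mul]
      have := hn x
      refine (mul_le_mul (mul_le_mul (W.abs_le H.mono x) (W'.abs_le H.mono y) (abs_nonneg _) (d0 x))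
        (H.lo_dec (mem_Ico.1 hy).1 (by have := mem_Ico.1 hy; omega)
          (by have := mem_Ico.1 hx; omega)) (abs_nonneg _) (mul_nonneg (d0 x) (d0 y))).trans_eq
        (by ring)
  have k1 := r1 W W' (· + 1) fun _ => le_rfl
  have k2 := r1 W' W id Nat.le_succ
  have k3 := H.pi_sum W W'
  have k4 := H.pi_sum W' W
  have k5 := H.main_bd W W' hj
  have k6 := H.off_sum W W'
  have e1 : ∑ x ∈ Ico j₁ (L.length + 1), ∑ y ∈ Ico j₁ (L.length + 1), sy (LO L c) x y *
      (dm L 0 x * φ x * (dm L 0 y * ψ y) * ip (δ x) (δ y)) =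
      ∑ x ∈ Ico j₁ (L.length + 1), ∑ y ∈ Ico j₁ (x + 1),
        dm L 0 x * φ x * (dm L 0 y * ψ y) * (LO L c y x * ip (δ x) (δ y)) +
      ∑ y ∈ Ico j₁ (L.length + 1), ∑ x ∈ Ico j₁ y,
        dm L 0 x * φ x * (dm L 0 y * ψ y) * (LO L c x y * ip (δ y) (δ x)) := by
    rw [← sum_Ico_Ico_comm', ← sum_add_distrib]
    refine sum_congr rfl fun x hx => ?_
    have := mem_Ico.1 hx
    rw [← sum_Ico_consecutive _ (show j₁ ≤ x + 1 by omega) (show x + 1 ≤ L.length + 1 by omega)]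
    congr 1
    · exact sum_congr rfl fun y hy => by
        rw [sy_ge _ (by have := mem_Ico.1 hy; omega)]; ring
    · exact sum_congr rfl fun y hy => by
        rw [sy_le _ (by have := mem_Ico.1 hy; omega), H.bs.sym (δ y)]; ring
  have e2 : ∑ y ∈ Ico j₁ (L.length + 1), dm L 0 y * ψ y *
      ∑ x ∈ Ico y (L.length + 1), dm L 0 x * φ x * Q75.Pt L c ip δ π y x =
      ∑ x ∈ Ico j₁ (L.length + 1), ∑ y ∈ Ico j₁ (x + 1),
        dm L 0 x * φ x * (dm L 0 y * ψ y) * Q75.Pt L c ip δ π y x := by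
    rw [← sum_Ico_Ico_comm]
    exact sum_congr rfl fun y _ => by rw [mul_sum]; exact sum_congr rfl fun x _ => by ring
  have e3 : ∑ x ∈ Ico j₁ (L.length + 1), dm L 0 x * φ x *
      ∑ y ∈ Ico x (L.length + 1), dm L 0 y * ψ y * Q75.Pt L c ip δ π x y =
      ∑ y ∈ Ico j₁ (L.length + 1), ∑ x ∈ Ico j₁ y,
        dm L 0 x * φ x * (dm L 0 y * ψ y) * Q75.Pt L c ip δ π x y := by
    rw [← sum_Ico_Ico_comm']
    refine sum_congr rfl fun x hx => ?_
    rw [sum_eq_sum_Ico_succ_bot (mem_Ico.1 hx).2, Q75.Pt, Ico_self, sum_empty, mul_zero, zero_add,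
      mul_sum]
    exact sum_congr rfl fun y _ => by ring
  have e4 : ∀ y x, LO L (c.mul B) y x = LO L c y x * ip (δ x) (δ y) - 2 * Q75.Pt L c ip δ π y x +
    ρ y x := fun y x => by simp only [hρ]; ring
  rw [e1] at k5
  rw [e2] at k3
  rw [e3] at k4
  simp only [id, mul_comm (dm L 0 _ * ψ _) (dm L 0 _ * φ _)] at k2
  rw [NL_eq H.ctr H.btr W.lw W'.lw, Er2]
  simp only [e4, mul_add (dm L 0 _ * φ _ * _), mul_sub (dm L 0 _ * φ _ * _), sum_add_distrib,
    sum_sub_distrib, mul_left_comm _ (2 : ℝ), ← mul_sum _ _ (2 : ℝ)]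
  have c1 := H.c1
  have n1 : 0 ≤ p j₁ * (f j₁ ^ 2 + f' j₁ ^ 2) := mul_nonneg (H.p0 _) (by positivity)
  have n2 : 0 ≤ ∑ i ∈ Ico j₁ L.length, s i * (f (i + 1) ^ 2 + f' (i + 1) ^ 2) :=
    sum_nonneg fun i _ => mul_nonneg (H.s0 i) (by positivity)
  have n3 : 0 ≤ ∑ y ∈ Ico j₁ (L.length + 1), dm L 0 y * (p y * a y) ^ 2 :=
    sum_nonneg fun i _ => mul_nonneg (d0 i) (sq_nonneg _)
  have n4 : 0 ≤ ∑ x ∈ Ico j₁ (L.length + 1), ∑ y ∈ Ico j₁ (x + 1),
      dm L 0 x * dm L 0 y * (p y * (b y x * a x)) :=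
    sum_nonneg fun x _ => sum_nonneg fun y _ => r0 y x
  have n5 : ∑ i ∈ Ico j₁ L.length, s i * (f (i + 1) ^ 2 + f' (i + 1) ^ 2) =
      ∑ i ∈ Ico j₁ L.length, s i * f (i + 1) ^ 2 + ∑ i ∈ Ico j₁ L.length, s i * f' (i + 1) ^ 2 := by
    simp only [mul_add, sum_add_distrib]
  have m1 := mul_le_mul_of_nonneg_right c1 n1
  have m2 := mul_le_mul_of_nonneg_right c1 n2
  have m3 := mul_le_mul_of_nonneg_right c1 n3
  have m4 := mul_le_mul_of_nonneg_right c1 n4
  have n6 := add_nonneg (sq_nonneg (∑ i ∈ Ico j₁ L.length, s i * f (i + 1)))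
    (sq_nonneg (∑ i ∈ Ico j₁ L.length, s i * f' (i + 1)))
  have m5 := mul_le_mul_of_nonneg_right c1 n6
  rw [abs_le] at k1 k2 k5 k6 ⊢
  have k3' := abs_le.1 ((le_div_iff₀' two_pos).2 k3)
  have k4' := abs_le.1 ((le_div_iff₀' two_pos).2 k4)
  constructor <;> linarith [k1.1, k1.2, k2.1, k2.2, k5.1, k5.2, k6.1, k6.2, k3'.1, k3'.2, k4'.1,
    k4'.2]


theorem NW.ind_bd (H : NW L c B j₁ c₀ p s a ω b ip δ π P) {t : ℕ} (h1 : j₁ ≤ t) (ht : t ≤ L.length) :
    |NL L ((Q75.wt (ind t) (ind t)).mul c)| ≤ 100 * c₀ * dm L 0 t ^ 2 := by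
  have e : (Q75.wt (ind t) (ind t)).mul c = ((Q75.wt (ind t) (ind t)).mul c).mul ⟨1, 1, 1⟩ := by
    simp only [Tw.mul, Pi.one_apply, mul_one]
  have e' : c.mul ⟨1, 1, 1⟩ = c := by simp only [Tw.mul, Pi.one_apply, mul_one]
  have z : ∀ x < t, ind t x = 0 := fun x hx => if_neg hx.ne
  have s1 : ∀ (g : ℕ → ℝ) (A : Finset ℕ), ∑ x ∈ A, dm L 0 x * ind t x * g x =
      if t ∈ A then dm L 0 t * g t else 0 := fun g A => by
    simp only [ind, mul_ite, ite_mul, mul_one, mul_zero, zero_mul, sum_ite_eq']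
  rw [e, NL_eq (j₁ := t) H.ctr ⟨fun _ _ => rfl, fun _ _ => rfl, fun _ _ => rfl⟩ z z, e']
  have k1 : ∑ x ∈ Ico t (L.length + 1), ∑ y ∈ Ico t (x + 1),
      dm L 0 x * ind t x * (dm L 0 y * ind t y) * LO L c y x = dm L 0 t ^ 2 * LO L c t t := by
    simp only [mul_assoc (dm L 0 _ * ind t _), ← mul_sum, s1]
    rw [if_pos (mem_Ico.2 (by omega)), if_pos (mem_Ico.2 (by omega))]
    ring
  have k2 : ∑ y ∈ Ico t (L.length + 1), ∑ x ∈ Ico t y,
      dm L 0 x * ind t x * (dm L 0 y * ind t y) * LO L c x y = 0 := sum_eq_zero fun y _ =>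
    sum_eq_zero fun x hx => by
      have := mem_Ico.1 hx
      rw [ind, ind, if_neg (show y ≠ t by omega)]
      ring
  have c0 : 0 ≤ c₀ := zero_le_one.trans H.c1
  have k3 := H.Sm_le (A := range L.length) (range_subset_range.2 (Nat.le_succ _))
    (r := dm L 0 t ^ 2 * c₀) (by positivity) (g := fun z => ∑ x ∈ Ico (z + 1) (L.length + 1),
      ∑ k ∈ Ico (z + 1) (L.length + 1), dm L 0 x * ind t x * (dm L 0 k * ind t k) *
        (c.off L.length z x k * (⟨1, 1, 1⟩ : Tw).off L.length z x k)) fun z _ => by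
      simp only [mul_assoc (dm L 0 _ * ind t _), ← mul_sum, s1]
      split_ifs with h
      · have := mem_Ico.1 h
        rw [← mul_assoc, ← sq, abs_mul, abs_of_nonneg (sq_nonneg _), mul_assoc, mul_comm c₀]
        refine mul_le_mul_of_nonneg_left ?_ (sq_nonneg _)
        simpa [Tw.off] using H.reg.o0 z t t (by omega) (by omega) h1 h1 ht ht
      · rw [abs_zero]; exact mul_nonneg (by positivity) (H.w0 z)
  have k4 := mul_le_mul_of_nonneg_left ((H.LO_le h1 ht).trans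
    (mul_le_mul_of_nonneg_left (H.pc t) (by norm_num))) (sq_nonneg (dm L 0 t))
  rw [k1, k2, add_zero]
  refine (abs_add_le _ _).trans ?_
  rw [abs_mul, abs_of_nonneg (sq_nonneg _)]
  nlinarith [mul_nonneg (sq_nonneg (dm L 0 t)) c0]

end main


end Crest.Agent.T156.Cas.Q21

end
end

-- ▼ part T156/CQ21N_75

/-!
# Row 156 (helper75): both unmarked edges off the marked level (`NNS`)
-/

set_option autoImplicit false
set_option linter.unusedSectionVars false

noncomputable section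

namespace Crest.Agent.T156.Cas.Q21

open Finset
open Crest.Agent.T157.E Crest.Agent.T157.Casc Crest.Agent.T157.SL
open Crest.Agent.T156.Cas.Q75
open Crest.Agent.T156.Cas.Q75.A10 (ind abs_wL sum_wL)
open Nu87 Wt87

namespace N75

section gen
variable {Θ : Type} {L : List (Lv Θ)} {c B T T' : Tw} {x j : ℕ}

theorem NL_smul {κ : ℝ} (h3 : ∀ σ, T.f3 σ = κ * T'.f3 σ) (h4 : ∀ σ, T.f4 σ = κ * T'.f4 σ) :
    NL L T = κ * NL L T' := by
  have l1 : ∀ y x, T.lo L.length y x = fun t => κ * T'.lo L.length y x t := fun y x => by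
    funext t; unfold Tw.lo; split_ifs; exacts [h3 _, h4 _]
  have l2 : ∀ y x, T.tr.lo L.length y x = fun t => κ * T'.tr.lo L.length y x t := fun y x => by
    funext t; unfold Tw.lo; split_ifs; exacts [h3 _, h4 _]
  have l3 : ∀ z x k, T.off L.length z x k = κ * T'.off L.length z x k := fun _ _ _ => h4 _
  have e1 : ∀ y x, LO L T y x = κ * LO L T' y x := fun y x => by
    simp only [LO, cP, l1, Lg_mul, Lx_mul]; ring
  have e2 : ∀ y x, LO L T.tr y x = κ * LO L T'.tr y x := fun y x => by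
    simp only [LO, cP, l2, Lg_mul, Lx_mul]; ring
  simp only [NL, NLx, e1, e2, l3, mul_left_comm _ κ, ← mul_sum, ← mul_add]

theorem SN_diffW (hx : x ≤ L.length) {a v μ : ℕ → ℝ} {m : ℝ} (a0 : ∀ t, 0 ≤ a t)
    (hm : ∑ t ∈ Ico x (L.length + 2), |wL L x t| * μ t ≤ m)
    (hc : ∀ t t', x ≤ t → t ≤ L.length + 1 → x ≤ t' → t' ≤ L.length + 1 →
      |c.sN L.length x t t'| * v t ≤ a t * μ t' ∧ |c.sN L.length x t t'| * v t' ≤ a t' * μ t)
    (hB : ∀ t t', x ≤ t → t ≤ L.length + 1 → x ≤ t' → t' ≤ L.length + 1 →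
      |B.sN L.length x t t' - B.sN L.length x (L.length + 1) (L.length + 1)| ≤ v t + v t') :
    |SN L (c.mul B) x - SN L c x * B.sN L.length x (L.length + 1) (L.length + 1)| ≤
      2 * m * ∑ t ∈ Ico x (L.length + 2), |wL L x t| * a t := by
  have e : SN L (c.mul B) x - SN L c x * B.sN L.length x (L.length + 1) (L.length + 1) =
      ∑ t ∈ Ico x (L.length + 2), ∑ t' ∈ Ico x (L.length + 2), wL L x t * wL L x t' *
        (c.sN L.length x t t' *
          (B.sN L.length x t t' - B.sN L.length x (L.length + 1) (L.length + 1))) := by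
    simp only [SN, Lx_eq L hx, sN_mul, mul_sum, sum_mul, ← sum_sub_distrib]
    exact sum_congr rfl fun _ _ => sum_congr rfl fun _ _ => by ring
  rw [e]
  refine (abs_sum_le_sum_abs _ _).trans ((sum_le_sum (g := fun t => ∑ t' ∈ Ico x (L.length + 2),
    (|wL L x t| * a t * (|wL L x t'| * μ t') + |wL L x t| * μ t * (|wL L x t'| * a t'))) fun t ht =>
      (abs_sum_le_sum_abs _ _).trans (sum_le_sum fun t' ht' => ?_)).trans ?_)
  · have m := mem_Ico.1 ht
    have m' := mem_Ico.1 ht'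
    have h1 := hc t t' m.1 (by omega) m'.1 (by omega)
    have h2 := mul_le_mul_of_nonneg_left (hB t t' m.1 (by omega) m'.1 (by omega))
      (abs_nonneg (c.sN L.length x t t'))
    rw [abs_mul, abs_mul, abs_mul]
    have h3 := mul_le_mul_of_nonneg_left (h2.trans (show _ ≤ a t * μ t' + a t' * μ t by
      linarith [h1.1, h1.2])) (mul_nonneg (abs_nonneg (wL L x t)) (abs_nonneg (wL L x t')))
    linarith
  · simp only [sum_add_distrib, ← mul_sum, ← sum_mul]
    have := mul_le_mul_of_nonneg_right hm (sum_nonneg fun t (_ : t ∈ Ico x (L.length + 2)) =>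
      mul_nonneg (abs_nonneg (wL L x t)) (a0 t))
    linarith

theorem sum_ind (A : Finset ℕ) (g : ℕ → ℝ) :
    ∑ t ∈ A, g t * ind j t = if j ∈ A then g j else 0 := by
  simp only [ind, mul_ite, mul_one, mul_zero, sum_ite_eq']

/-- same node, off the marked level -/
theorem SN_off (hM : Mono 0 L) {C : ℝ} {P v : ℕ → ℝ} (S : SnR L c j C P) (hx : x ≤ L.length)
    (hxj : x ≠ j) (hj : j ≤ L.length) (d0 : 0 < dm L 0 j) (hC : 0 ≤ C) (P0 : ∀ t, 0 ≤ P t)
    (v0 : ∀ t, 0 ≤ v t) (v1 : v (L.length + 1) = 0)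
    (hB : ∀ t t', x ≤ t → t ≤ L.length + 1 → x ≤ t' → t' ≤ L.length + 1 →
      |B.sN L.length x t t' - B.sN L.length x (L.length + 1) (L.length + 1)| ≤ v t + v t') :
    |SN L (c.mul B) x - SN L c x * B.sN L.length x (L.length + 1) (L.length + 1)| ≤
      6 * C * dm L 0 j * (ex L x * (P x * v x) + ∑ t ∈ Ioc x L.length, dm L 0 t * (P t * v t) +
        2 * if x < j then v j else 0) := by
  have d1 : dm L 0 j ≤ 1 := by
    simpa using sum_dm_le_one hM (A := {j}) (by simpa using Nat.lt_succ_of_le hj)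
  have i0 : ∀ t, 0 ≤ ind j t := fun t => by unfold ind; split_ifs <;> norm_num
  have ix : ind j x = 0 := if_neg hxj
  have iK : ind j (L.length + 1) = 0 := if_neg (by omega)
  have k : ∀ {u : ℝ} {t t' : ℕ}, t ≤ L.length + 1 → u ≤ C * (dm L 0 j + ind j t + ind j t') →
      (t ≠ j → t ≤ L.length → u ≤ C * (dm L 0 j + ind j t') * P t) →
      u * v t ≤ C * (P t * v t + (1 + 1 / dm L 0 j) * v j * ind j t) * (dm L 0 j + ind j t') :=
    fun {u t t'} ht h1 h2 => by
      have := i0 t'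
      by_cases e : t = j
      · subst e
        rw [show ind t t = 1 from if_pos rfl] at h1 ⊢
        have h3 : dm L 0 t + 1 + ind t t' ≤ (1 + 1 / dm L 0 t) * (dm L 0 t + ind t t') := by
          have : 1 / dm L 0 t * dm L 0 t = 1 := by field_simp
          nlinarith [mul_nonneg (one_div_pos.2 d0).le (i0 t')]
        have h4 := mul_le_mul_of_nonneg_right (h1.trans (mul_le_mul_of_nonneg_left h3 hC)) (v0 t)
        have h5 : 0 ≤ C * (P t * v t) * (dm L 0 t + ind t t') := by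
          have := P0 t; have := v0 t; positivity
        linarith
      · rw [show ind j t = 0 from if_neg e, mul_zero, add_zero]
        rcases ht.lt_or_eq with c | c
        · exact (mul_le_mul_of_nonneg_right (h2 e (by omega)) (v0 t)).trans_eq (by ring)
        · rw [c, v1]; simp
  have H := SN_diffW (c := c) hx (v := v) (μ := fun t => dm L 0 j + ind j t) (m := 3 * dm L 0 j)
    (a := fun t => C * (P t * v t + (1 + 1 / dm L 0 j) * v j * ind j t))
    (fun t => by have := P0 t; have := v0 t; have := v0 j; have := i0 t; positivity)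
    (by
      rw [abs_wL hM hx]
      simp only [ix, iK, mul_add, sum_add_distrib, ← sum_mul, sum_Ioc_dm hx, sum_ind]
      split_ifs <;> linarith)
    (fun t t' h1 h2 h3 h4 => by
      have g := S.nn x t t' hxj h1 h3 hx h2 h4
      exact ⟨k h2 g.1 g.2.1, k h4 (g.1.trans_eq (by ring)) g.2.2⟩) hB
  refine H.trans ?_
  rw [abs_wL hM hx]
  simp only [ix, iK, v1, mul_zero, add_zero, zero_add, mul_left_comm _ C, ← mul_sum, mul_add,
    sum_add_distrib, ← mul_assoc (dm L 0 _) _ (ind j _), sum_ind, mem_Ioc, hj, and_true]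
  have h6 : 0 ≤ C * dm L 0 j * v j := by have := v0 j; positivity
  split_ifs
  · have : dm L 0 j * ((1 + 1 / dm L 0 j) * v j) = (dm L 0 j + 1) * v j := by field_simp
    rw [this]
    nlinarith [mul_le_mul_of_nonneg_left d1 h6]
  · linarith

end gen

section cd
open C40 C40.Q10 C40.N75 C40.CD
open Q33 (sl)

variable {D : CD} {τ0 : ℝ} {j : ℕ}

/-- the part of the error that reads the weights -/
def GE (D : CD) (j : ℕ) (d m : ℕ → ℝ) : ℝ :=
  ∑ y ∈ D.up, d y * (D.e y ^ 2 * D.v y y) +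
  ∑ x ∈ D.up, ∑ y ∈ Ico (D.J + 1) (x + 1), d x * d y * (D.e y * (√(D.v y x) * √(D.v x x))) +
  ∑ x ∈ D.up, d x * (m x * (D.e x * D.v x x) + ∑ t ∈ Ioo x D.K, d t * (D.e t * D.v x t) +
    if x < j then D.v x j else 0) + ∑ x ∈ D.up, d x ^ 2

theorem GE_le (h : D.Ok τ0) : GE D j D.dx (ex D.B) ≤
    4 * D.E0 + ∑ y ∈ Finset.Ico 1 j, D.dx y * D.v y j := by
  have t5 : ∑ x ∈ D.up, ∑ y ∈ Ico (D.J + 1) (x + 1),
      D.dx x * D.dx y * (D.e y * (√(D.v y x) * √(D.v x x))) ≤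
      D.I (fun t => D.e t ^ 2 * D.v t t) +
        D.I fun t => D.e t * ∑ y ∈ Ico 1 t, D.dx y * D.v y t := by
    simp only [mul_assoc (D.dx _), ← mul_sum]
    rw [← D.I_add]
    refine h.I_mono fun x hx => ?_
    have hx' := mem_up.1 hx
    have e0 := h.e0 x
    have v0 := D.v0 x x
    have k1 : ∑ y ∈ Ico (D.J + 1) (x + 1), D.dx y ≤ D.e x :=
      (h.sum_dx_le fun i hi => Nat.lt_succ_iff.1 (mem_Ico.1 hi).2).trans (Q10.ex_le h hx)
    have k2 : D.dx x ≤ D.e x := by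
      simpa using (h.sum_dx_le (A := {x}) (by simp)).trans (Q10.ex_le h hx)
    have k3 : ∑ y ∈ Ico (D.J + 1) x, D.dx y * D.v y x ≤ ∑ y ∈ Ico 1 x, D.dx y * D.v y x :=
      sum_le_sum_of_subset_of_nonneg (Ico_subset_Ico_left (by omega))
        fun y _ _ => mul_nonneg (h.dx0 y) (D.v0 y x)
    have k4 := h.sv_low0 (Ico 1 x) x
    refine (sum_le_sum (g := fun y => D.e x / 2 * (D.dx y * D.v y x + D.dx y * D.v x x))
      fun y hy => ?_).trans ?_
    · have hy' := mem_Ico.1 hy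
      have k6 : √(D.v y x) * √(D.v x x) ≤ (D.v y x + D.v x x) / 2 := by
        nlinarith [sq_nonneg (√(D.v y x) - √(D.v x x)), Real.sq_sqrt (D.v0 y x), Real.sq_sqrt v0]
      exact (mul_le_mul_of_nonneg_left (mul_le_mul (h.e_mono (show y ≤ x by omega)) k6
        (by positivity) e0) (h.dx0 y)).trans_eq (by ring)
    · rw [← mul_sum, sum_add_distrib, ← sum_mul, sum_Ico_succ_top hx'.1]
      have k7 := mul_le_mul_of_nonneg_right k1 v0
      have k8 := mul_le_mul_of_nonneg_right k2 v0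
      have k9 := mul_le_mul_of_nonneg_left (add_le_add (add_le_add k3 k8) k7)
        (show 0 ≤ D.e x / 2 by positivity)
      nlinarith [mul_nonneg e0 k4]
  have t6 : ∑ x ∈ D.up, D.dx x * (ex D.B x * (D.e x * D.v x x) +
      ∑ t ∈ Ioo x D.K, D.dx t * (D.e t * D.v x t)) ≤ D.E0 :=
    le_trans (h.I_mono fun x hx => by
      nlinarith [mul_le_mul_of_nonneg_right (Q10.ex_le h hx) (mul_nonneg (h.e0 x) (D.v0 x x))])
      (sum_lad h)
  have t7 : ∑ x ∈ D.up, D.dx x * (if x < j then D.v x j else 0) ≤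
      ∑ y ∈ Finset.Ico 1 j, D.dx y * D.v y j := by
    simp only [mul_ite, mul_zero]
    rw [← sum_filter]
    refine sum_le_sum_of_subset_of_nonneg (fun x hx => ?_)
      fun y _ _ => mul_nonneg (h.dx0 y) (D.v0 y j)
    simp only [mem_filter, mem_Ico, mem_Ioo] at hx ⊢
    omega
  obtain ⟨l1, l2, l3⟩ := h.Lad0_parts
  have l4 := h.Lad0_le
  have l5 := h.dx_le
  rw [CD.Lad0] at l4
  simp only [CD.I, ← sq] at l2 l3 l4 l5 t5
  simp only [GE, mul_add (D.dx _) (_ + _), sum_add_distrib]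
  linarith

theorem sum_bad (h : D.Ok τ0) (hj : j ∈ D.up) {a g : ℕ → ℝ} {c : ℝ} (hc : 0 ≤ c)
    (hg : ∀ y, 0 ≤ g y) (hg' : g (j + 1) ≤ g j)
    (ha : ∀ i, D.J < i → i + 1 < D.K → a i ≤ c * D.dv (i + 1)) :
    ∑ i ∈ Ico (D.J + 1) D.K, (a i + if Bad j D.K i then 1 else 0) * fz D g (i + 1) ≤
      c * D.sv g D.J + 2 * g j := by
  have m := mem_up.1 hj
  have h1 : ∑ i ∈ Ico (D.J + 1) D.K, D.dv (i + 1) * fz D g (i + 1) ≤ D.sv g D.J := by
    rw [sum_Ico_add' (fun j => D.dv j * fz D g j)]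
    simp only [fz, mul_ite, mul_zero]
    rw [← sum_filter]
    refine sum_le_sum_of_subset_of_nonneg (fun j hj => ?_)
      fun j hj _ => mul_nonneg (h.dv0 (mem_Ioo.1 hj).2.le) (hg j)
    simp only [mem_filter, mem_Ico, mem_Ioo] at hj ⊢
    omega
  have h2 : ∑ i ∈ Ico (D.J + 1) D.K, g j * (ind j i + ind (j - 1) i) ≤ 2 * g j := by
    simp only [mul_add, sum_add_distrib, sum_ind (g := fun _ => g j)]
    have := hg j
    split_ifs <;> linarith
  refine le_trans ?_ (add_le_add (mul_le_mul_of_nonneg_left h1 hc) h2)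
  rw [mul_sum, ← sum_add_distrib]
  refine sum_le_sum fun i hi => ?_
  have hi' := mem_Ico.1 hi
  have g0 := hg j
  unfold fz
  split_ifs with b e e
  · have := mul_le_mul_of_nonneg_right (ha i hi'.1 e) (hg (i + 1))
    rcases b with rfl | rfl | b
    · rw [ind, ind, if_pos rfl, if_neg (by omega)]; linarith
    · rw [ind, ind, if_neg (by omega), if_pos (by omega)]; linarith
    · omega
  · unfold ind; split_ifs <;> linarith
  · have := mul_le_mul_of_nonneg_right (ha i hi'.1 e) (hg (i + 1))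
    unfold ind; split_ifs <;> linarith
  · unfold ind; split_ifs <;> linarith

theorem nu_nj (D : CD) (j x : ℕ) : nu D j x * nj j x = nu D j x := by
  unfold nu nj; split_ifs <;> simp

theorem abs_nu (D : CD) (j x : ℕ) : |nu D j x| ≤ 1 := by
  unfold nu nj; split_ifs <;> simp

variable {L : List (Lv (Cube D.n))} {ε : ℝ} {q : Rf} {C C' c : ℝ} {P a : ℕ → ℝ}

theorem cM_cN (d0 : 0 < dm L 0 j) {φ : ℕ → ℝ} (hφ : ∀ x, φ x * nj j x = φ x) (B : Tw) :
    NL L (((wt φ φ).mul (cM L D.S q j)).mul B) =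
      dm L 0 j * NL L (((wt φ φ).mul (cN L D.S q j)).mul B) := by
  have k : ∀ x y (u v : ℝ), φ x * φ y * u * v =
      dm L 0 j * (φ x * φ y * (nj j x / dm L 0 j * nj j y * u) * v) := fun x y u v => by
    conv_lhs => rw [← hφ x, ← hφ y]
    field_simp
  exact NL_smul (fun _ => k _ _ _ _) fun _ => k _ _ _ _

theorem cN_tr (H : (cM L D.S q j).tr.Eqv (cM L D.S q j) L.length) :
    (cN L D.S q j).tr.Eqv (cN L D.S q j) L.length := by
  refine ⟨fun _ _ => rfl, fun σ hσ => ?_, fun σ hσ => ?_⟩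
  · show nj j (σ 1 0) / _ * nj j (σ 2 1) * (cM L D.S q j).tr.f3 σ =
      nj j (σ 1 2) / _ * nj j (σ 0 1) * (cM L D.S q j).f3 σ
    rw [H.2.1 σ hσ, hσ.comm 1 0, hσ.comm 2 1]; ring
  · show nj j (σ 0 1) / _ * nj j (σ 2 3) * (cM L D.S q j).tr.f4 σ =
      nj j (σ 2 3) / _ * nj j (σ 0 1) * (cM L D.S q j).f4 σ
    rw [H.2.2 σ hσ]; ring

section eps
variable (h : D.Ok τ0) (hj : j ∈ D.up) (hP : Pert D.B L j ε) (e0 : 0 < ε) (e1 : ε ≤ 1)
include h hj hP e0 e1

theorem len : L.length = D.K := hP.len.trans D.B_len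

theorem dm_pos : 0 < dm L 0 j := by
  rw [hP.dm, ind, if_pos rfl]
  nlinarith [h.dx0 j]

theorem dm_off {i : ℕ} (hi : i ≠ j) : dm L 0 i = (1 - ε) * D.dx i := by
  rw [hP.dm, ind, if_neg hi, mul_zero, add_zero]

theorem dm_top : dm L 0 D.K = 0 := by
  rw [dm_off h hj hP e0 e1 (mem_up.1 hj).2.ne', h.top, mul_zero]

theorem sum_up {g : ℕ → ℝ} :
    ∑ y ∈ Ico (D.J + 1) (D.K + 1), dm L 0 y * g y = ∑ y ∈ D.up, dm L 0 y * g y := by
  rw [sum_Ico_succ_top (show D.J + 1 ≤ D.K from h.cut), dm_top h hj hP e0 e1, zero_mul, add_zero]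
  rfl

theorem wf : Wf L (D.J + 1) (Base53.ipE wt_one90 D.B 0) (Base53.dV D.B (sl D.n) wt_one90 D.rb)
    (nu D j) (fz D D.f0) := by
  refine ⟨abs_nu D j, fun x hx => by rw [nu, if_neg (by omega), mul_zero], fun y => ?_,
    fun y hy => ?_⟩
  · unfold fz
    split_ifs
    exacts [h.f00 y, le_rfl]
  rw [len h hj hP e0 e1]
  rcases le_or_gt D.K y with hK | hK
  · rw [sum_eq_zero fun x hx => by
      rw [show x = D.K by have := mem_Ico.1 hx; omega, dm_top h hj hP e0 e1, zero_mul, zero_smul]]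
    simpa using sq_nonneg _
  have H := (h.wkp.1 (fun x => (1 - ε) * nu D j x) (fun x => by
    rw [abs_mul, abs_of_nonneg (sub_nonneg.2 e1)]
    nlinarith [abs_nu D j x, abs_nonneg (nu D j x)]) y).1
  rw [CD.tail, max_eq_left hy] at H
  rw [sum_Ico_succ_top hK.le, dm_top h hj hP e0 e1, zero_mul, zero_smul, add_zero, fz, if_pos hK,
    Base53.ip_sum_pE]
  refine le_of_eq_of_le ?_ H
  simp only [CD.nd, CD.del, ← uK_eq h, Base53.qf_uK D.B (sl D.n) wt_one90, sub_sub_sub_cancel_right]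
  congr 1
  funext g _
  congr 1
  refine sum_congr rfl fun x _ => ?_
  by_cases e : x = j
  · simp [nu, nj, e]
  · rw [dm_off h hj hP e0 e1 e]; ring

theorem nw (hC : 2 ≤ C) (hc : 1 ≤ c)
    (R : RegW L (cN L D.S q j) (D.J + 1) C (fun y => C * P y)
      (fun i => C * (a i + if Bad j L.length i then 1 else 0)) (omg L j))
    (H : (cM L D.S q j).tr.Eqv (cM L D.S q j) L.length) (P0 : ∀ i, 0 ≤ P i ∧ P i ≤ c)
    (PX : D.X ≤ P (D.J + 1)) (a0 : ∀ i, 0 ≤ a i)
    (ad : ∀ i, ¬ Bad j L.length i → dm L 0 i + dm L 0 (i + 1) ≤ a i) :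
    NW L (cN L D.S q j) (Bt D) (D.J + 1) (C * c) (fun y => C * P y)
      (fun i => C * (a i + if Bad j L.length i then 1 else 0)) (fun y => √(D.v y y)) (omg L j)
      (fun y x => √(D.v y x)) (Base53.ipE wt_one90 D.B 0) (Base53.dV D.B (sl D.n) wt_one90 D.rb)
      (Base53.pV D.B (sl D.n) wt_one90) (Base53.PE wt_one90 D.B) := by
  have b1 := Base53.bs D.B (sl D.n) wt_one90 0 D.rb
  have b2 := fun y x t => Base53.lo3 D.B (sl D.n) wt_one90 0 D.rb (y := y) (x := x) (t := t)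
  have b3 := Bt_tr D
  simp only [uK_eq h, vt_eq h] at b1 b2
  rw [← hP.len] at b1 b2 b3
  have m := mem_up.1 hj
  have hK := len h hj hP e0 e1
  have d0 := dm_pos h hj hP e0 e1
  have dn := dm_nonneg hP.mono
  have w1 : ∀ t, 1 ≤ omg L j t := fun t => by
    unfold omg
    split_ifs
    exacts [le_add_of_nonneg_right (by positivity), le_rfl]
  have w2 : ∀ t, dm L 0 t * omg L j t = dm L 0 t + 1 * ind j t := fun t => by
    unfold omg ind
    split_ifs with e
    · rw [e]; field_simp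
    · ring
  have d1 : ∀ i ≤ L.length, dm L 0 i ≤ 1 := fun i hi => by
    simpa using sum_dm_le_one hP.mono (A := {i}) (by simpa using Nat.lt_succ_of_le hi)
  have dw : ∀ i, dm L 0 i * omg L j i ≤ C * (a i + if Bad j L.length i then 1 else 0) := fun i => by
    have := a0 i
    rw [w2]
    split_ifs with b
    · have := d1 i (by unfold Bad at b; omega)
      have : ind j i ≤ 1 := by unfold ind; split_ifs <;> norm_num
      nlinarith
    · rw [ind, if_neg fun e => b (Or.inl e)]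
      nlinarith [ad i b, dn (i + 1)]
  refine ⟨⟨hP.mono, b3, b1, b2, fun _ _ => Real.sqrt_nonneg _, by nlinarith,
    fun y => mul_le_mul_of_nonneg_left (P0 y).2 (by linarith),
    fun y => mul_nonneg (by linarith) (P0 y).1,
    fun i => (le_mul_of_one_le_right (dn i) (w1 i)).trans (dw i), ?_⟩, cN_tr H,
    { R with o0 := fun z x k h1 h2 h3 h4 h5 h6 => (R.o0 z x k h1 h2 h3 h4 h5 h6).trans
              (mul_le_mul_of_nonneg_left (by nlinarith) (zero_le_one.trans (w1 z))) },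
    w1, if_neg (by omega), fun z hz => if_neg (by omega), dw, ?_⟩
  · rw [sum_congr rfl fun z hz => dm_off h hj hP e0 e1 (by have := mem_range.1 hz; omega), ← mul_sum,
      h.sum_dx]
    nlinarith [h.x1, h.ex0 D.J, h.X0]
  · simp only [w2, sum_add_distrib, sum_ind (g := fun _ => (1 : ℝ))]
    have := sum_dm_le_one hP.mono (subset_refl _)
    split_ifs <;> linarith

theorem er2 (hC : 0 ≤ C) (hc : 0 ≤ c) (P0 : ∀ i, 0 ≤ P i) (Pe : ∀ i ∈ D.up, P i ≤ c * D.e i)
    (a0 : ∀ i, 0 ≤ a i) (av : ∀ i, D.J < i → i + 1 < D.K → a i ≤ c * D.dv (i + 1)) :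
    Er2 L (D.J + 1) (fun y => C * P y) (fun i => C * (a i + if Bad j L.length i then 1 else 0))
      (fun y => √(D.v y y)) (fun y x => √(D.v y x)) (fz D D.f0) (fz D D.f0) ≤
      (4 * (C * c) + 4 * (C * c) ^ 2 + 16 * C ^ 2 + 4 * C) *
        (D.VF + D.f0 j * (D.f0 j + D.sv D.f0 D.J)) + ((C * c) ^ 2 + C * c) *
        (∑ y ∈ D.up, dm L 0 y * (D.e y ^ 2 * D.v y y) + ∑ x ∈ D.up, ∑ y ∈ Ico (D.J + 1) (x + 1),
          dm L 0 x * dm L 0 y * (D.e y * (√(D.v y x) * √(D.v x x)))) := by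
  have dn := dm_nonneg hP.mono
  have sq : ∀ y, fz D D.f0 y ^ 2 = fz D (fun j => D.f0 j ^ 2) y := fun y => by
    unfold fz; split_ifs <;> simp
  have s0 := h.sv0 (F := fun j => D.f0 j ^ 2) (fun _ => sq_nonneg _) D.J
  have s1 := h.sv0 h.f00 D.J
  have f0 := h.f00 j
  have hm : D.J + 1 ∈ D.up := by have := mem_up.1 hj; exact mem_up.2 (by omega)
  have t1 : P (D.J + 1) * fz D (fun j => D.f0 j ^ 2) (D.J + 1) ≤
      c * D.sv (fun j => D.f0 j ^ 2) D.J := by
    rw [fz, if_pos (mem_up.1 hm).2]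
    refine le_trans ?_ (mul_le_mul_of_nonneg_left (single_le_sum (f := fun t => D.dv t * D.f0 t ^ 2)
      (fun t ht => mul_nonneg (h.dv0 (mem_up.1 ht).2.le) (sq_nonneg _)) hm) hc)
    rw [CD.dv, if_pos le_rfl, ← mul_assoc]
    exact mul_le_mul_of_nonneg_right (Pe _ hm) (sq_nonneg _)
  have t2 := pow_le_pow_left₀ (sum_nonneg fun i _ => mul_nonneg
    (add_nonneg (a0 i) (by split_ifs <;> norm_num))
    (show 0 ≤ fz D D.f0 (i + 1) by unfold fz; split_ifs; exacts [h.f00 _, le_rfl]))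
    (sum_bad h hj hc h.f00 (h.wk0.anti j).2 av) 2
  have t3 := sum_bad h hj hc (g := fun j => D.f0 j ^ 2) (fun _ => sq_nonneg _)
    (pow_le_pow_left₀ (h.f00 _) (h.wk0.anti j).2 2) av
  have pe : ∀ y ∈ D.up, C * P y ≤ C * c * D.e y := fun y hy => by
    rw [mul_assoc]; exact mul_le_mul_of_nonneg_left (Pe y hy) hC
  have t4 : ∑ y ∈ Ico (D.J + 1) (D.K + 1), dm L 0 y * (C * P y * √(D.v y y)) ^ 2 ≤
      (C * c) ^ 2 * ∑ y ∈ D.up, dm L 0 y * (D.e y ^ 2 * D.v y y) := by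
    rw [sum_up h hj hP e0 e1, mul_sum]
    refine sum_le_sum fun t ht => ?_
    rw [mul_pow, Real.sq_sqrt (D.v0 t t)]
    exact (mul_le_mul_of_nonneg_left (mul_le_mul_of_nonneg_right
      (pow_le_pow_left₀ (mul_nonneg hC (P0 t)) (pe t ht) 2) (D.v0 t t)) (dn t)).trans_eq (by ring)
  have t5 : ∑ x ∈ Ico (D.J + 1) (D.K + 1), ∑ y ∈ Ico (D.J + 1) (x + 1),
      dm L 0 x * dm L 0 y * (C * P y * (√(D.v y x) * √(D.v x x))) ≤
      C * c * ∑ x ∈ D.up, ∑ y ∈ Ico (D.J + 1) (x + 1),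
        dm L 0 x * dm L 0 y * (D.e y * (√(D.v y x) * √(D.v x x))) := by
    simp only [mul_assoc (dm L 0 _), ← mul_sum]
    rw [sum_up h hj hP e0 e1, mul_sum]
    refine sum_le_sum fun x hx => ?_
    rw [mul_left_comm (C * c), mul_sum _ _ (C * c)]
    refine mul_le_mul_of_nonneg_left (sum_le_sum fun y hy => ?_) (dn x)
    have := mem_up.1 hx
    have := mem_Ico.1 hy
    exact (mul_le_mul_of_nonneg_left (mul_le_mul_of_nonneg_right (pe y (mem_up.2 (by omega)))
      (show 0 ≤ √(D.v y x) * √(D.v x x) by positivity)) (dn y)).trans_eq (by ring)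
  have n4 : 0 ≤ ∑ y ∈ D.up, dm L 0 y * (D.e y ^ 2 * D.v y y) :=
    sum_nonneg fun y _ => mul_nonneg (dn y) (mul_nonneg (sq_nonneg _) (D.v0 y y))
  have n5 : 0 ≤ ∑ x ∈ D.up, ∑ y ∈ Ico (D.J + 1) (x + 1),
      dm L 0 x * dm L 0 y * (D.e y * (√(D.v y x) * √(D.v x x))) :=
    sum_nonneg fun x _ => sum_nonneg fun y _ => mul_nonneg (mul_nonneg (dn x) (dn y))
      (mul_nonneg (h.e0 y) (by positivity))
  rw [Er2, len h hj hP e0 e1, CD.VF]
  simp only [← two_mul, mul_left_comm _ (2 : ℝ), mul_assoc C (_ + _), ← mul_sum, sq]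
  have u1 := mul_le_mul_of_nonneg_left t1 hC
  have u2 := mul_le_mul_of_nonneg_left (t2.trans (show _ ≤ 2 * (c * D.sv D.f0 D.J) ^ 2 +
    8 * D.f0 j ^ 2 by nlinarith [sq_nonneg (c * D.sv D.f0 D.J - 2 * D.f0 j)])) (sq_nonneg C)
  have u3 := mul_le_mul_of_nonneg_left t3 hC
  have cc := mul_nonneg hC hc
  have fs := mul_nonneg f0 s1
  nlinarith [mul_nonneg cc (sq_nonneg (D.sv D.f0 D.J)), mul_nonneg cc (sq_nonneg (D.f0 j)),
    mul_nonneg cc fs, mul_nonneg (sq_nonneg (C * c)) s0, mul_nonneg (sq_nonneg (C * c)) fs,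
    mul_nonneg (sq_nonneg (C * c)) (sq_nonneg (D.f0 j)), mul_nonneg (sq_nonneg C) s0,
    mul_nonneg (sq_nonneg C) fs, mul_nonneg (sq_nonneg C) (sq_nonneg (D.sv D.f0 D.J)),
    mul_nonneg hC s0, mul_nonneg hC fs, mul_nonneg hC (sq_nonneg (D.sv D.f0 D.J)),
    mul_nonneg cc n4, mul_nonneg (sq_nonneg (C * c)) n5]

theorem sn_le (hC : 0 ≤ C') (hc : 2 ≤ c) (S : SnR L (cM L D.S q j) j C' P) (P0 : ∀ i, 0 ≤ P i)
    (Pe : ∀ i ∈ D.up, P i ≤ c * D.e i) {x : ℕ} (hx : x ∈ D.up) (hxj : x ≠ j) :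
    |SN L ((cM L D.S q j).mul (Bt D)) x - SN L (cM L D.S q j) x * (D.u 2 x - D.del x ^ 2)| ≤
      6 * C' * dm L 0 j * (c * (ex L x * (D.e x * D.v x x) +
        ∑ t ∈ Ioo x D.K, dm L 0 t * (D.e t * D.v x t) + if x < j then D.v x j else 0)) := by
  have m := mem_up.1 hx
  have m' := mem_up.1 hj
  have hK := len h hj hP e0 e1
  have hB := D.B_len
  have dn := dm_nonneg hP.mono
  set V := A10.vv (fun _ => 1) D.B (sl D.n) 0 x with hV
  have eV : ∀ t ≤ D.K, V t = D.v x t := fun t ht => by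
    rw [hV, A10.vv, if_pos (by omega), vt_eq h]
  have H := SN_off (B := Bt D) hP.mono S (x := x) (by omega) hxj (by omega) (dm_pos h hj hP e0 e1) hC
    P0 (v := V) (fun t => by
      rw [hV, A10.vv]
      split_ifs
      exacts [(vt_eq h x t).ge.trans' (D.v0 x t), le_rfl]) (if_neg (by omega))
    fun t t' a1 a2 a3 a4 => by
      have := A10.sN_leg wt_one90 0 (sl D.n) D.rb (L := D.B) (x := x) (by omega) a1 (by omega) a3
        (by omega)
      rwa [uK_eq h, ← hP.len] at this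
  rw [hP.len, var_eq D (by omega), ← hP.len] at H
  refine H.trans (mul_le_mul_of_nonneg_left ?_ (mul_nonneg (by linarith) (dn j)))
  rw [hK, ← Finset.Ioo_insert_right m.2, sum_insert (by simp), dm_top h hj hP e0 e1, zero_mul,
    zero_add, eV x m.2.le, eV j m'.2.le, mul_add, mul_add, mul_sum]
  refine add_le_add (add_le_add ?_ (sum_le_sum fun t ht => ?_)) ?_
  · exact (mul_le_mul_of_nonneg_left (mul_le_mul_of_nonneg_right (Pe x hx) (D.v0 x x))
      (ex_nonneg hP.mono x)).trans_eq (by ring)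
  · have := mem_Ioo.1 ht
    rw [eV t this.2.le]
    exact (mul_le_mul_of_nonneg_left (mul_le_mul_of_nonneg_right (Pe t (mem_up.2 (by omega)))
      (D.v0 x t)) (dn t)).trans_eq (by ring)
  · exact mul_le_mul_of_nonneg_right hc (by split_ifs; exacts [D.v0 x j, le_rfl])

/-- the bound at the perturbed weights -/
theorem nn_eps (hC : 2 ≤ C) (hC' : 0 ≤ C') (hc : 2 ≤ c)
    (R : RegW L (cN L D.S q j) (D.J + 1) C (fun y => C * P y)
      (fun i => C * (a i + if Bad j L.length i then 1 else 0)) (omg L j))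
    (S : SnR L (cM L D.S q j) j C' P) (H : (cM L D.S q j).tr.Eqv (cM L D.S q j) L.length)
    (P0 : ∀ i, 0 ≤ P i ∧ P i ≤ c) (PX : D.X ≤ P (D.J + 1)) (Pe : ∀ i ∈ D.up, P i ≤ c * D.e i)
    (a0 : ∀ i, 0 ≤ a i) (ad : ∀ i, ¬ Bad j L.length i → dm L 0 i + dm L 0 (i + 1) ≤ a i)
    (av : ∀ i, D.J < i → i + 1 < D.K → a i ≤ c * D.dv (i + 1)) :
    |NL L (((wt (nu D j) (nu D j)).mul (cM L D.S q j)).mul (Bt D)) +
      ∑ x ∈ D.up, nu D j x * nu D j x * (2 * (dm L 0 x * (SN L ((cM L D.S q j).mul (Bt D)) x -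
        SN L (cM L D.S q j) x * (D.u 2 x - D.del x ^ 2))) -
        (D.u 2 x - D.del x ^ 2) * NL L ((wt (ind x) (ind x)).mul (cM L D.S q j)))| ≤
      dm L 0 j * ((100 * (C * c) * (4 * (C * c) + 4 * (C * c) ^ 2 + 16 * C ^ 2 + 4 * C + 4) +
        12 * (C' * c)) *
        (D.VF + D.f0 j * (D.f0 j + D.sv D.f0 D.J) + GE D j (dm L 0) (ex L))) := by
  have G := nw h hj hP e0 e1 hC (by linarith) R H P0 PX a0 ad
  have W := wf h hj hP e0 e1
  have hK := len h hj hP e0 e1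
  have d0 := dm_pos h hj hP e0 e1
  have dn := dm_nonneg hP.mono
  have cc : 0 ≤ C * c := by positivity
  have k1 := (G.bd W W (by have := h.cut; omega)).trans (mul_le_mul_of_nonneg_left
    (er2 h hj hP e0 e1 (by linarith) (by linarith) (fun i => (P0 i).1) Pe a0 av) (by positivity))
  have n3 : ∀ x, 0 ≤ ex L x * (D.e x * D.v x x) +
      ∑ t ∈ Ioo x D.K, dm L 0 t * (D.e t * D.v x t) + if x < j then D.v x j else 0 := fun x =>
    add_nonneg (add_nonneg (mul_nonneg (ex_nonneg hP.mono x) (mul_nonneg (h.e0 x) (D.v0 x x)))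
      (sum_nonneg fun t _ => mul_nonneg (dn t) (mul_nonneg (h.e0 t) (D.v0 x t))))
      (by split_ifs; exacts [D.v0 x j, le_rfl])
  have k2 : |∑ x ∈ D.up, nu D j x * nu D j x * (2 * (dm L 0 x * (SN L ((cM L D.S q j).mul (Bt D)) x -
      SN L (cM L D.S q j) x * (D.u 2 x - D.del x ^ 2))) -
      (D.u 2 x - D.del x ^ 2) * NL L ((wt (ind x) (ind x)).mul (cM L D.S q j)))| ≤
      dm L 0 j * (12 * (C' * c) * ∑ x ∈ D.up, dm L 0 x * (ex L x * (D.e x * D.v x x) +
        ∑ t ∈ Ioo x D.K, dm L 0 t * (D.e t * D.v x t) + if x < j then D.v x j else 0) +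
        400 * (C * c) * ∑ x ∈ D.up, dm L 0 x ^ 2) := by
    rw [mul_sum, mul_sum, ← sum_add_distrib, mul_sum]
    refine (abs_sum_le_sum_abs _ _).trans (sum_le_sum fun x hx => ?_)
    have m := mem_up.1 hx
    by_cases e : x = j
    · rw [nu, nj, if_pos e, zero_mul, zero_mul, zero_mul, abs_zero]
      have := mul_nonneg (dn x) (n3 x)
      positivity
    have a1 := mul_le_mul_of_nonneg_left
      (sn_le h hj hP e0 e1 hC' hc S (fun i => (P0 i).1) Pe hx e) (dn x)
    have a2 : |D.u 2 x - D.del x ^ 2| ≤ 4 := by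
      rw [← var_eq D (by rw [D.B_len]; exact m.2.le)]; exact abs_var D x
    have a3 := cM_cN (D := D) (q := q) d0 (φ := ind x) (fun y => by
      unfold ind nj; split_ifs <;> simp_all) ⟨1, 1, 1⟩
    simp only [show ∀ T : Tw, T.mul ⟨1, 1, 1⟩ = T from fun T => by
      simp only [Tw.mul, Pi.one_apply, mul_one]] at a3
    have a4 := mul_le_mul a2 (mul_le_mul_of_nonneg_left (G.ind_bd (t := x) m.1 (by omega)) d0.le)
      (mul_nonneg d0.le (abs_nonneg _)) (by norm_num)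
    rw [nu, nj, if_neg e, if_pos m.1, one_mul, one_mul, one_mul, a3]
    refine (abs_sub _ _).trans ?_
    rw [abs_mul, abs_mul, abs_mul, abs_mul, abs_two, abs_of_nonneg (dn x), abs_of_pos d0]
    linarith
  rw [cM_cN d0 (nu_nj D j)]
  refine (abs_add_le _ _).trans ?_
  rw [abs_mul, abs_of_pos d0]
  refine (add_le_add (mul_le_mul_of_nonneg_left k1 d0.le) k2).trans ?_
  rw [← mul_add, GE]
  refine mul_le_mul_of_nonneg_left ?_ d0.le
  have n1 : 0 ≤ D.VF + D.f0 j * (D.f0 j + D.sv D.f0 D.J) :=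
    add_nonneg h.VF0 (mul_nonneg (h.f00 j) (add_nonneg (h.f00 j) (h.sv0 h.f00 _)))
  have n2 : 0 ≤ ∑ y ∈ D.up, dm L 0 y * (D.e y ^ 2 * D.v y y) + ∑ x ∈ D.up,
      ∑ y ∈ Ico (D.J + 1) (x + 1), dm L 0 x * dm L 0 y * (D.e y * (√(D.v y x) * √(D.v x x))) :=
    add_nonneg (sum_nonneg fun y _ => mul_nonneg (dn y) (mul_nonneg (sq_nonneg _) (D.v0 y y)))
      (sum_nonneg fun x _ => sum_nonneg fun y _ => mul_nonneg (mul_nonneg (dn x) (dn y))
        (mul_nonneg (h.e0 y) (by positivity)))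
  have n4 := sum_nonneg fun x (_ : x ∈ D.up) => mul_nonneg (dn x) (n3 x)
  have n5 := sum_nonneg fun x (_ : x ∈ D.up) => sq_nonneg (dm L 0 x)
  generalize D.VF + D.f0 j * (D.f0 j + D.sv D.f0 D.J) = X1 at *
  generalize ∑ y ∈ D.up, dm L 0 y * (D.e y ^ 2 * D.v y y) + ∑ x ∈ D.up,
      ∑ y ∈ Ico (D.J + 1) (x + 1), dm L 0 x * dm L 0 y * (D.e y * (√(D.v y x) * √(D.v x x))) = X2 at *
  generalize ∑ x ∈ D.up, dm L 0 x * (ex L x * (D.e x * D.v x x) +
    ∑ t ∈ Ioo x D.K, dm L 0 t * (D.e t * D.v x t) + if x < j then D.v x j else 0) = X3 at *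
  generalize ∑ x ∈ D.up, dm L 0 x ^ 2 = X4 at *
  have c1 : 0 ≤ C' * c := by positivity
  have c2 : 0 ≤ 4 * (C * c) + 4 * (C * c) ^ 2 + 16 * C ^ 2 + 4 * C := by positivity
  have c3 : (C * c) ^ 2 + C * c ≤ 4 * (C * c) + 4 * (C * c) ^ 2 + 16 * C ^ 2 + 4 * C := by
    nlinarith [sq_nonneg (C * c)]
  generalize 4 * (C * c) + 4 * (C * c) ^ 2 + 16 * C ^ 2 + 4 * C = Y at *
  generalize (C * c) ^ 2 + C * c = Y' at *
  generalize C * c = Z at *
  generalize C' * c = Z' at *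
  nlinarith [mul_nonneg cc n1, mul_nonneg cc n2, mul_nonneg cc n4, mul_nonneg c1 n1,
    mul_nonneg c1 n2, mul_nonneg c1 n5, mul_nonneg (mul_nonneg cc c2) n4,
    mul_nonneg (mul_nonneg cc c2) n5, mul_nonneg (mul_nonneg cc (sub_nonneg.2 c3)) n2]

end eps

theorem mk_mono {Θ : Type} {L : List (Lv Θ)} {T : List (Lv Bool)} (hM : Mono 0 L) (hC : C ≤ C')
    (P0 : ∀ i, 0 ≤ P i) (a0 : ∀ i, 0 ≤ a i) (H : MkH L T q j C P a) : MkH L T q j C' P a := by
  have k : ∀ {r : ℕ} (ρ : SM r), C * wg L j ρ ≤ C' * wg L j ρ := fun ρ =>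
    mul_le_mul_of_nonneg_right hC (add_nonneg (dm_nonneg hM j) (by split_ifs <;> norm_num))
  exact ⟨fun r hr ρ h c d e f => (H.m0 r hr ρ h c d e f).trans (k ρ),
    fun r hr ρ h c d e f i h' => (H.mp r hr ρ h c d e f i h').trans
      (mul_le_mul_of_nonneg_right (k ρ) (P0 i)),
    fun r hr ρ ρ' h h' c d e f i a1 a2 a3 => (H.m1 r hr ρ ρ' h h' c d e f i a1 a2 a3).trans
      (mul_le_mul_of_nonneg_right (k ρ) (a0 i)),
    fun r hr ρ ρ' h h' c d e f i a1 a2 a3 i' a4 a5 a6 =>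
      (H.m1p r hr ρ ρ' h h' c d e f i a1 a2 a3 i' a4 a5 a6).trans
        (mul_le_mul_of_nonneg_right (k ρ) (mul_nonneg (P0 i') (a0 i))),
    fun r hr ρ₀ ρ₁ ρ₂ ρ₃ h₀ h₁ h₂ h₃ c d e f i i' a1 a2 a3 a4 a5 a6 a7 =>
      (H.m2 r hr ρ₀ ρ₁ ρ₂ ρ₃ h₀ h₁ h₂ h₃ c d e f i i' a1 a2 a3 a4 a5 a6 a7).trans
        (mul_le_mul_of_nonneg_right (k ρ₀) (mul_nonneg (a0 i) (a0 i')))⟩

end cd

end N75

open C40 C40.Q10 C40.N75 C40.CD N75 I23 in
/-- **both unmarked edges off the marked level** -/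
theorem nnS_of (HS : SwapS) (HM : MkS) (HR : RegWS) (HW : RowRS) : NNS := fun τ0 => by
  obtain ⟨C₀, c0, HM⟩ := HM
  have p1 := cP0_one
  obtain ⟨C, hC, HR⟩ := HR (C₀ + (2 * cP0 + 2)) (by linarith)
  obtain ⟨C', hC', HW⟩ := HW (C₀ + (2 * cP0 + 2)) (by linarith)
  set c := 2 * cP0 + 2 with hc
  set A := 100 * (C * c) * (4 * (C * c) + 4 * (C * c) ^ 2 + 16 * C ^ 2 + 4 * C + 4) + 12 * (C' * c)
  have A0 : 0 ≤ A := by positivity
  refine ⟨A * 5, by positivity, fun D h j hj => ?_⟩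
  have m := mem_up.1 hj
  have H := lim1 h m.2.le (Rq D) (nu D j) (nu D j) (G := fun ε => A *
    (D.VF + D.f0 j * (D.f0 j + D.sv D.f0 D.J) + GE D j (fun i => (1 - ε) * D.dx i + ε * ind j i)
      fun i => (1 - ε) * ex D.B i + ε * if j ≤ i then 1 else 0))
    (Continuous.continuousAt (by unfold GE; fun_prop)) fun L ε e0 e1 hP => by
      have e1' : ε ≤ 1 := by linarith
      have hK := len h hj hP e0 e1'
      have P0 : ∀ i, 0 ≤ cP0 * Pm D i + mm D i ∧ cP0 * Pm D i + mm D i ≤ c := fun i => by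
        have := Pm_mem h i
        have := mm_mem h i
        have := h.X0
        constructor <;> nlinarith
      have M := mk_mono hP.mono (show C₀ ≤ C₀ + c by linarith) (fun i => (P0 i).1) (aa0 h)
        (mk_cd h HM hK hP.mono m.2 (P := fun i => cP0 * Pm D i + mm D i) (fun i =>
          ⟨le_add_of_nonneg_right (h.X0.trans (mm_mem h i).1), fun e => (q_mm h hj e).trans
            (le_add_of_nonneg_left (mul_nonneg (by linarith) (Pm0 h i)))⟩) fun _ _ => le_rfl)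
      have P1 : ∀ i, 0 ≤ cP0 * Pm D i + mm D i ∧ cP0 * Pm D i + mm D i ≤ C₀ + c := fun i =>
        ⟨(P0 i).1, (P0 i).2.trans (by linarith)⟩
      have P2 : 1 ≤ cP0 * Pm D L.length + mm D L.length := by
        rw [hK, Pm, mm, if_neg (by simp), if_neg (by simp)]; linarith
      have S := (HW _ L D.S _ _ _ j (D.J + 1) hP.mono (m.2.trans_eq hK.symm) M P1 P2 (aa0 h)
        (aa_bad h hP e0.le)).2
      have B := nn_eps h hj hP e0 e1' hC (by linarith) (show 2 ≤ c by linarith)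
        (HR _ L D.S _ _ _ j (D.J + 1) hP.mono (m.2.trans_eq hK.symm) (N75.dm_pos h hj hP e0 e1') M P1
          P2 (aa0 h) (aa_bad h hP e0.le)) S (cM_sy HS hK _ m.2.le).2 P0
        (by nlinarith [Pm_mem h (D.J + 1), mm_mem h (D.J + 1), h.X0])
        (fun i hi => by nlinarith [Pm_le h hi, mm_le h hi, h.e0 i]) (aa0 h) (aa_bad h hP e0.le)
        fun i h1 h2 => by
          rw [aa_eq h h1 (by omega)]
          exact le_mul_of_one_le_left (h.dv0 h2.le) (by linarith)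
      have z := A10.NL_ind hP.mono (t := D.K) hK.ge S.ab.1 S.ab.2
      rw [N75.dm_top h hj hP e0 e1', zero_pow two_ne_zero, mul_zero, abs_nonpos_iff] at z
      rw [Tj_eq HS hK _ m.2.le, ← sum_subset (s₁ := D.up)
        (fun x hx => mem_range.2 (by have := mem_up.1 hx; omega)) fun x hx hx' => by
          rcases le_or_gt x D.J with e | e
          · rw [nu_low D j x e, zero_mul, zero_mul]
          · rw [show x = D.K by rw [mem_up] at hx'; have := mem_range.1 hx; omega, Rx, z,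
              N75.dm_top h hj hP e0 e1']
            ring,
        show (fun i => (1 - ε) * D.dx i + ε * ind j i) = dm L 0 from (funext hP.dm).symm,
        show (fun i => (1 - ε) * ex D.B i + ε * if j ≤ i then 1 else 0) = ex L from
          funext fun i => by rw [hP.ex, mul_ite, mul_one, mul_zero]]
      exact B
  simp only [sub_zero, one_mul, zero_mul, add_zero] at H
  refine H.trans ?_
  rw [mul_assoc]
  refine mul_le_mul_of_nonneg_left ?_ A0
  have k1 := GE_le (j := j) h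
  have k2 := mul_nonneg (h.f00 j) (add_nonneg (h.f00 j) (h.sv0 h.f00 D.J))
  linarith [h.VF_le, h.sv_low0 (Ico 1 j) j]

end Crest.Agent.T156.Cas.Q21

end
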