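import Crest.Agent.T156.CDef_40
import Crest.Agent.T156.Gr_90
import Crest.Agent.T156.SiteC_94
import Crest.Agent.T156.CErr_54
import Crest.Agent.T156.CKit_32

-- ▼ part T156/CCr_22
section

/-!
# Row 156, block C: the crude bound of a word tested at an upper node (helper22)

A word of total low degree `dl` and total upper degree `du` (marked kernel included), whose site
factor is at most `c` on the trees that fit its cells, is bounded at the node `j` by
`c X ^ (dl + [dl ≥ 1]) (u_du j + I u_du) + tl`.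
-/

set_option autoImplicit false
set_option linter.all false

noncomputable section

namespace Crest.Agent.T156.Cas.Cr22

open MeasureTheory Real Set Filter Topology
open Crest.Agent.T157.E Crest.Agent.T157.Casc Crest.Agent.T157.SL
open Crest.Agent.T157.G1 (ov)
open Crest.ProbabilityR.SpinGlassDynamics (spin)
open Nu87 G90 Wp52 Site94

section gen
variable {Θ Ω : Type} [Fintype Θ] [Fintype Ω] {M : List (Lv Θ)} {r : ℕ}

/-- sup bound at one node -/
theorem abs_node_le (j k : ℕ) (Φ : GF) {B : ℝ}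
    (H : ∀ k' ≤ 2 * k, ∀ N : EL (1 + k' + 1), N.length = k → N.Ok →
      |avc M (tw M.length j) k' fun σ => Φ _ σ (N ++ [(old k' 1, old k' 0)])| ≤ B) :
    |(DG (-1) M)^[k] Φ 2 (tw M.length j) [(1, 0)]| ≤ cG k * B := by
  refine ((fam_avc (r₀ := 1) (tw M.length j)).sup (ε := -1) (by simp) Φ k 0 [(1, 0)]
    fun k' hk ι hι N hN hO => ?_).trans_eq (by rw [cG]; congr 4; push_cast; ring)
  have e : ι = old k' := funext fun a => Fin.ext (hι a)
  subst e
  exact H k' (by omega) N hN hO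

/-- pairs of different replicas -/
abbrev Od (r : ℕ) : Finset (Fin r × Fin r) := Finset.univ.filter fun p => p.1 ≠ p.2

theorem mem_Od {a b : Fin r} (h : a ≠ b) : (a, b) ∈ Od r := by simpa using h

theorem ne_Od {p : Fin r × Fin r} (h : p ∈ Od r) : p.1 ≠ p.2 := by simpa using h

theorem card_Od (r : ℕ) : ((Od r).card : ℝ) ≤ r ^ 2 := by
  have := Finset.card_filter_le (Finset.univ : Finset (Fin r × Fin r)) fun p => p.1 ≠ p.2
  rw [Finset.card_univ, Fintype.card_prod, Fintype.card_fin, ← sq] at this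
  exact_mod_cast this

theorem sum_Od_le {f : Fin r × Fin r → ℝ} {c : ℝ} (hc : 0 ≤ c) (h : ∀ p ∈ Od r, f p ≤ c) :
    ∑ p ∈ Od r, f p ≤ r ^ 2 * c :=
  (Finset.sum_le_card_nsmul _ _ c h).trans (by
    rw [nsmul_eq_mul]; exact mul_le_mul_of_nonneg_right (card_Od r) hc)

/-- trees with a split at the top have no weight -/
theorem abs_avc_top (hM : Mono 0 M) (ht : dm M 0 M.length = 0) {j : ℕ} (hj : j < M.length) (k : ℕ)
    {f g : SM (1 + k + 1) → ℝ} (e : ∀ σ, Rz M.length σ → σ (old k 1) (old k 0) = j →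
      (∀ a b, a ≠ b → σ a b < M.length) → |f σ| ≤ g σ) :
    |avc M (tw M.length j) k f| ≤ avc M (tw M.length j) k g := by
  classical
  set T : Finset (SM (1 + k + 1)) :=
    Fintype.piFinset fun _ => Fintype.piFinset fun _ => Finset.range (M.length + 1) with hT
  set B := ∑ σ ∈ T, (|f σ| + |g σ|) with hB
  have B0 : 0 ≤ B := Finset.sum_nonneg fun _ _ => by positivity
  have i0 : ∀ v, (0 : ℝ) ≤ if v = M.length then 1 else 0 := fun v => by positivity
  refine (abs_avc_le hM (rz_tw _ j) k (g := fun σ => g σ + B * ∑ p ∈ Od (1 + k + 1),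
    if σ p.1 p.2 = M.length then 1 else 0) fun σ hσ ho => ?_).trans ?_
  · have s0 : (0 : ℝ) ≤ ∑ p ∈ Od (1 + k + 1), if σ p.1 p.2 = M.length then 1 else 0 :=
      Finset.sum_nonneg fun _ _ => i0 _
    by_cases h : ∀ a b, a ≠ b → σ a b < M.length
    · refine (e σ hσ ((ho 1 0).trans ?_) h).trans (le_add_of_nonneg_right (mul_nonneg B0 s0))
      rw [(rz_tw _ j).comm, tw_01 hj.le]
    · push Not at h
      obtain ⟨a, b, hab, h⟩ := h
      have h1 := Finset.single_le_sum (f := fun p : Fin (1 + k + 1) × Fin (1 + k + 1) =>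
        if σ p.1 p.2 = M.length then (1 : ℝ) else 0) (fun _ _ => i0 _) (mem_Od hab)
      rw [if_pos (le_antisymm (hσ.le a b) h)] at h1
      have h2 : |f σ| + |g σ| ≤ B := Finset.single_le_sum (f := fun σ => |f σ| + |g σ|)
        (fun _ _ => by positivity) (Fintype.mem_piFinset.2 fun a => Fintype.mem_piFinset.2 fun b =>
          Finset.mem_range.2 (Nat.lt_succ_of_le (hσ.le a b)))
      nlinarith [neg_abs_le (g σ)]
  · rw [avc_add, avc_mul, avc_sum]
    refine add_le_of_nonpos_right (mul_nonpos_of_nonneg_of_nonpos B0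
      (Finset.sum_nonpos fun p hp => ?_))
    refine (avc_pair_le hM hj.le k (D := fun v => if v = M.length then 1 else 0) i0
      (ne_Od hp)).trans_eq ?_
    simp [Br, hj.ne, ht]

/-- any upper pair -/
theorem avc_up (hM : Mono 0 M) {j : ℕ} (hj : j ≤ M.length) (k : ℕ) {D : ℕ → ℝ} (hD : ∀ v, 0 ≤ D v) :
    avc M (tw M.length j) k (fun σ => ∑ p ∈ Od (1 + k + 1), D (σ p.1 p.2)) ≤
      ((1 + k + 1 : ℕ) : ℝ) ^ 2 * ((3 * (1 + k)) ^ k * (2 * (D j + Br M D))) := by
  rw [avc_sum]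
  have := Br_nonneg hM fun v _ => hD v
  have := hD j
  refine sum_Od_le (by positivity) fun p hp => (avc_pair_le hM hj k hD (ne_Od hp)).trans ?_
  gcongr
  linarith

/-- some pair splits at a low level -/
def Low (J : ℕ) (σ : SM r) : Prop := ∃ a b, a ≠ b ∧ σ a b ≤ J

open Classical in
/-- an upper pair and a low pair -/
theorem avc_low (hM : Mono 0 M) {J j : ℕ} (hj : j ≤ M.length) (hJ : J < j) (k : ℕ) {D : ℕ → ℝ}
    (hD : ∀ v, 0 ≤ D v) (h0 : ∀ v ≤ J, D v = 0) :
    avc M (tw M.length j) k (fun σ => ∑ p ∈ Od (1 + k + 1), if Low J σ then D (σ p.1 p.2) else 0) ≤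
      ((1 + k + 1 : ℕ) : ℝ) ^ 2 * ((3 * (1 + k)) ^ k * (ex M J * (D j + Br M D))) := by
  rw [avc_sum]
  have b0 := Br_nonneg hM fun v _ => hD v
  have := hD j
  have := ex_nonneg hM J
  have hF : ∀ u v, 0 ≤ (if u ≤ J then (1 : ℝ) else 0) * D v := fun u v =>
    mul_nonneg (by positivity) (hD v)
  refine sum_Od_le (by positivity) fun p hp => (avc_two hM hj k hF fun σ y _ hc => ?_).trans ?_
  · obtain ⟨h1, h2, h3⟩ := P2_nonneg hM hF y
    have p0 := add_nonneg (add_nonneg h1 h2) h3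
    split_ifs with h
    · obtain ⟨a, b, hab, h⟩ := h
      obtain ⟨i, hi⟩ := hc.mem a b hab
      obtain ⟨i', hi'⟩ := hc.mem _ _ (ne_Od hp)
      by_cases h4 : σ p.1 p.2 ≤ J
      · rw [h0 _ h4]
        exact p0
      · refine le_trans ?_ (le_P2 hM hF y (i := i) (i' := i') fun e => h4 (by rw [hi', ← e, ← hi]; exact h))
        rw [← hi, ← hi', if_pos h, one_mul]
    · exact p0
  · refine mul_le_mul_of_nonneg_left ?_ (by positivity)
    have h1 := Br_le hM J
    simp only [if_neg hJ.not_ge, zero_mul, Br_const, Br_mul, zero_add]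
    simp only [mul_comm (ite _ _ _), Br_mul]
    nlinarith [mul_le_mul_of_nonneg_left h1 (hD j), mul_le_mul_of_nonneg_left h1 b0]

/-- the cell of a level: `1 … J` or above `J` -/
def okc (J : ℕ) : Bool → ℕ → Prop
  | true, j => 1 ≤ j ∧ j ≤ J
  | false, j => J < j

/-- the edges lie in the cells of the letters -/
def Cel (J : ℕ) (σ : SM r) (A : List (Bool × ℕ)) (E : EL r) : Prop :=
  List.Forall₂ (fun a e => okc J a.1 (σ e.1 e.2)) A E

/-- the kernel `U` lives on the cell `a.1` and has degree `a.2` in the size `Z` -/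
def Kb (J K : ℕ) (T : ℝ) (Z U : ℕ → Ω → Ω → ℝ) (a : Bool × ℕ) : Prop :=
  ∀ j ≤ K, ∀ x y, (okc J a.1 j → |U j x y| ≤ T * Z j x y ^ a.2) ∧ (¬okc J a.1 j → U j x y = 0)

/-- degree on a cell -/
def dC (c : Bool) (A : List (Bool × ℕ)) : ℕ := (A.map fun a => if a.1 = c then a.2 else 0).sum

variable {J K : ℕ} {T : ℝ} {Z : ℕ → Ω → Ω → ℝ} {σ : SM r}

omit [Fintype Ω] in
theorem eF_zero (hσ : ∀ a b, σ a b ≤ K) (x : Fin r → Ω) {U : List (ℕ → Ω → Ω → ℝ)}
    {A : List (Bool × ℕ)} (H : List.Forall₂ (Kb J K T Z) U A) :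
    ∀ E : EL r, A.length = E.length → ¬Cel J σ A E → eF U σ E x = 0 := by
  induction H with
  | nil => intro E hE h; cases E with
    | nil => exact absurd .nil h
    | cons => simp at hE
  | @cons S a U A h1 _ ih => intro E hE h; cases E with
    | nil => simp at hE
    | cons e E =>
      rw [eF]
      by_cases h2 : Cel J σ A E
      · rw [(h1 _ (hσ _ _) _ _).2 fun h3 => h (.cons h3 h2), mul_zero]
      · rw [ih E (by simpa using hE) h2, zero_mul]

omit [Fintype Ω] in
theorem eF_le (hσ : ∀ a b, σ a b ≤ K) (hT : 0 ≤ T) (hZ : ∀ j x y, 0 ≤ Z j x y) (x : Fin r → Ω)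
    {y : Bool → ℝ} (hy : ∀ c a b, a ≠ b → okc J c (σ a b) → Z (σ a b) (x a) (x b) ≤ y c)
    (y0 : ∀ c, 0 ≤ y c) {U : List (ℕ → Ω → Ω → ℝ)} {A : List (Bool × ℕ)}
    (H : List.Forall₂ (Kb J K T Z) U A) : ∀ E : EL r, E.Ok → Cel J σ A E →
      |eF U σ E x| ≤ T ^ A.length * (y true ^ dC true A * y false ^ dC false A) := by
  induction H with
  | nil => intro E _ _; simp [eF, dC]
  | @cons S a U A h1 _ ih => intro E hE h; cases h with
    | @cons _ e _ E h2 h3 =>
      have h4 := ((h1 _ (hσ _ _) (x e.1) (x e.2)).1 h2).trans (mul_le_mul_of_nonneg_left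
        (pow_le_pow_left₀ (hZ _ _ _) (hy _ _ _ (hE e List.mem_cons_self) h2) _) hT)
      have := y0 true
      have := y0 false
      rw [eF, abs_mul]
      refine (mul_le_mul (ih E (fun e he => hE e (List.mem_cons_of_mem _ he)) h3) h4 (abs_nonneg _)
        (by positivity)).trans_eq ?_
      obtain ⟨c, d⟩ := a
      cases c <;> simp [dC, pow_add, pow_succ] <;> ring

omit [Fintype Ω] in
theorem abs_eF_le (hσ : ∀ a b, σ a b ≤ K) {b : ℝ} (hb : 1 ≤ b) (x : Fin r → Ω) :
    ∀ (U : List (ℕ → Ω → Ω → ℝ)) (E : EL r), (∀ S ∈ U, ∀ j ≤ K, ∀ x y, |S j x y| ≤ b) →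
      |eF U σ E x| ≤ b ^ U.length
  | [], _, _ => by simp [eF]
  | _ :: _, [], _ => by simpa [eF] using one_le_pow₀ (n := _ + 1) hb
  | S :: U, e :: E, h => by
      rw [eF, abs_mul, List.length_cons, pow_succ]
      exact mul_le_mul (abs_eF_le hσ hb x U E fun S hS => h S (List.mem_cons_of_mem _ hS))
        (h S List.mem_cons_self _ (hσ _ _) _ _) (abs_nonneg _) (by positivity)

theorem abs_TM_eF {w : Ω → ℝ} (hw : Wt w) {L : List (Lv Ω)} (h : Ω → ℝ) (hσ : Rz L.length σ)
    {b : ℝ} (hb : 1 ≤ b) {U : List (ℕ → Ω → Ω → ℝ)} (E : EL r)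
    (H : ∀ S ∈ U, ∀ j ≤ L.length, ∀ x y, |S j x y| ≤ b) :
    |TM w L h σ (eF U σ E)| ≤ b ^ U.length := by
  have key := fun x => abs_le.1 (abs_eF_le hσ.le hb x U E H)
  have h1 := TM_mono (h := h) hw hσ fun x => (key x).2
  have h2 := TM_mono (h := h) hw hσ fun x => (key x).1
  rw [TM_const hw hσ] at h1 h2
  exact abs_le.2 ⟨h2, h1⟩

theorem dC_le (c : Bool) {A : List (Bool × ℕ)} (h : ∀ a ∈ A, a.2 ≤ 2) : dC c A ≤ 2 * A.length := by
  have := List.sum_le_card_nsmul (A.map fun a => if a.1 = c then a.2 else 0) 2 fun x hx => by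
    obtain ⟨a, ha, rfl⟩ := List.mem_map.1 hx
    split_ifs
    exacts [h a ha, zero_le_two]
  rwa [List.length_map, smul_eq_mul, mul_comm] at this

theorem add_pow_le {X t : ℝ} (h0 : 0 ≤ X) (h1 : X ≤ 1) (t0 : 0 ≤ t) (t1 : t ≤ 1) :
    ∀ n : ℕ, (X + t) ^ n ≤ X ^ n + n * 2 ^ n * t
  | 0 => by simp
  | n + 1 => by
      have h2 := mul_le_mul_of_nonneg_left (add_pow_le h0 h1 t0 t1 n) (add_nonneg h0 t0)
      have h3 := mul_le_mul_of_nonneg_left (pow_le_one₀ (n := n) h0 h1) t0
      have h4 : (1 : ℝ) ≤ 2 ^ n := one_le_pow₀ one_le_two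
      have h5 : 0 ≤ (n : ℝ) * 2 ^ n * t := by positivity
      rw [pow_succ', pow_succ', pow_succ']
      push_cast
      nlinarith [mul_le_mul_of_nonneg_left h4 t0, mul_le_mul_of_nonneg_left
        (show X + t ≤ 2 by linarith) h5]

theorem Cel.low {A : List (Bool × ℕ)} {E : EL r} (h : Cel J σ A E) (hE : E.Ok)
    (hd : dC true A ≠ 0) : Low J σ := by
  induction h with
  | nil => simp [dC] at hd
  | @cons a e A E h1 _ ih =>
    obtain ⟨c, d⟩ := a
    cases c
    · exact ih (fun e he => hE e (List.mem_cons_of_mem _ he)) (by simpa [dC] using hd)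
    · exact ⟨_, _, hE e List.mem_cons_self, h1.2⟩

/-- **the bulk factor on one tree** -/
theorem bulk_le {w : Ω → ℝ} (hw : Wt w) {L : List (Lv Ω)} (h : Ω → ℝ) (hσ : Rz L.length σ)
    (hT : 0 ≤ T) (hZ : ∀ j x y, 0 ≤ Z j x y) (Z1 : ∀ j x y, okc J true j → Z j x y ≤ 1)
    (Z2 : ∀ j ≤ L.length, ∀ x y, Z j x y ≤ 2) {X tl : ℝ} (X0 : 0 ≤ X) (X1 : X ≤ 1) (t0 : 0 ≤ tl)
    (env : ∀ j, okc J true j → pi2 w L j (fun x y => max (Z j x y - X) 0) h ≤ tl)
    {U : List (ℕ → Ω → Ω → ℝ)} {A : List (Bool × ℕ)} (H : List.Forall₂ (Kb J L.length T Z) U A)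
    {E : EL r} (hE : E.Ok) (hc : Cel J σ A E) {a b : Fin r} (hab : a ≠ b) (hJ : J < σ a b) :
    |TM w L h σ (eF U σ E)| ≤ T ^ A.length * (X ^ dC true A * ∑ p ∈ Od r,
      (if J < σ p.1 p.2 then pi2 w L (σ p.1 p.2) (fun x y => Z (σ p.1 p.2) x y ^ dC false A) h
        else 0) + dC true A * 2 ^ dC true A * 2 ^ dC false A * (r ^ 2 * tl)) := by
  classical
  set G : (Fin r → Ω) → ℝ := fun x => T ^ A.length * (X ^ dC true A * ∑ p ∈ Od r,
    (if J < σ p.1 p.2 then Z (σ p.1 p.2) (x p.1) (x p.2) ^ dC false A else 0) +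
      dC true A * 2 ^ dC true A * 2 ^ dC false A * ∑ p ∈ Od r, if okc J true (σ p.1 p.2) then
        max (Z (σ p.1 p.2) (x p.1) (x p.2) - X) 0 else 0) with hG
  have key : ∀ x, |eF U σ E x| ≤ G x := fun x => by
    obtain ⟨p, hp, hm⟩ := ((Od r).filter fun p => J < σ p.1 p.2).exists_max_image
      (fun p => Z (σ p.1 p.2) (x p.1) (x p.2)) ⟨(a, b), Finset.mem_filter.2 ⟨mem_Od hab, hJ⟩⟩
    obtain ⟨hp, hp'⟩ := Finset.mem_filter.1 hp
    set m := Z (σ p.1 p.2) (x p.1) (x p.2) with hm'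
    set s := ∑ p ∈ Od r, if okc J true (σ p.1 p.2) then
      max (Z (σ p.1 p.2) (x p.1) (x p.2) - X) 0 else 0 with hs
    have n0 : ∀ p : Fin r × Fin r, (0 : ℝ) ≤ if okc J true (σ p.1 p.2) then
        max (Z (σ p.1 p.2) (x p.1) (x p.2) - X) 0 else 0 := fun p => by positivity
    have s0 : 0 ≤ s := Finset.sum_nonneg fun p _ => n0 p
    have m0 : 0 ≤ m := hZ _ _ _
    have u0 : 0 ≤ min 1 s := le_min zero_le_one s0
    have h1 := eF_le hσ.le hT hZ x (y := fun c => if c then X + min 1 s else m)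
      (fun c a b hab hc => by
        cases c
        · exact hm (a, b) (Finset.mem_filter.2 ⟨mem_Od hab, hc⟩)
        · have h2 := Finset.single_le_sum (fun p _ => n0 p) (mem_Od hab)
          rw [if_pos hc] at h2
          have h3 := Z1 _ (x a) (x b) hc
          have h4 := le_max_left (Z (σ a b) (x a) (x b) - X) 0
          rw [if_pos rfl, ← sub_le_iff_le_add']
          exact le_min (by linarith) (h4.trans h2))
      (fun c => by cases c; exacts [m0, add_nonneg X0 u0]) H E hE hc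
    refine h1.trans (mul_le_mul_of_nonneg_left ?_ (by positivity))
    have h2 := Finset.single_le_sum (f := fun p : Fin r × Fin r => if J < σ p.1 p.2 then
      Z (σ p.1 p.2) (x p.1) (x p.2) ^ dC false A else 0) (fun p _ => by
        have := hZ (σ p.1 p.2) (x p.1) (x p.2)
        positivity) hp
    rw [if_pos hp'] at h2
    have h3 := pow_le_pow_left₀ m0 (Z2 _ (hσ.le _ _) _ _) (dC false A)
    refine (mul_le_mul_of_nonneg_right (add_pow_le X0 X1 u0 (min_le_left _ _) _)
      (pow_nonneg m0 _)).trans ?_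
    rw [add_mul, mul_right_comm]
    exact add_le_add (mul_le_mul_of_nonneg_left h2 (pow_nonneg X0 _)) (mul_le_mul
      (mul_le_mul_of_nonneg_left h3 (by positivity)) (min_le_right _ _) u0 (by positivity))
  have h1 := TM_mono (h := h) hw hσ fun x => (abs_le.1 (key x)).2
  have h2 := TM_mono (h := h) hw hσ (F := fun x => -1 * G x) (G := eF U σ E) fun x => by
    linarith [(abs_le.1 (key x)).1]
  rw [TM_mul] at h2
  refine (abs_le.2 ⟨by linarith, h1⟩).trans ?_
  simp only [hG, TM_mul, TM_add, TM_sum]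
  refine mul_le_mul_of_nonneg_left (add_le_add (mul_le_mul_of_nonneg_left (Finset.sum_le_sum
    fun p hp => ?_) (pow_nonneg X0 _)) (mul_le_mul_of_nonneg_left (sum_Od_le t0 fun p hp => ?_)
      (by positivity))) (by positivity)
  · split_ifs
    · exact (TM_pair hw hσ (ne_Od hp) fun x y => Z (σ p.1 p.2) x y ^ dC false A).le
    · exact (TM_const hw hσ 0).le
  · split_ifs with h3
    · exact (TM_pair hw hσ (ne_Od hp) fun x y => max (Z (σ p.1 p.2) x y - X) 0).trans_le (env _ h3)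
    · exact (TM_const hw hσ 0).trans_le t0

end gen

section cd
open C40 Mul55 OneP

/-- cell and degree of a letter -/
def gl (a : Lt) : Bool × ℕ := (a.1, Mul55.dg a)

/-- degree of a word on a cell -/
def dW (c : Bool) (f : List Lt) : ℕ := dC c (f.map gl)

/-- the power of `X` of a word: low degree, and one more for the weight of a low split -/
def lw (f : List Lt) : ℕ := if dW true f = 0 then 0 else dW true f + 1

/-- site kernels of a word, last letter first -/
def zs (D : CD) (f : List Lt) : List SK := f.reverse.map fun a => oZs D.q a.2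

/-- the site factor of the word `f` on a marked pair with kernel `ξ` at `j` is at most `c` -/
def Site (D : CD) (f : List Lt) (j : ℕ) (ξ : Bool → Bool → ℝ) (c : ℝ) : Prop :=
  ∀ r ≤ 2 * f.length + 2, ∀ (σ : SM r) (N : EL r) (a b : Fin r), Rz D.K σ → N.Ok → a ≠ b →
    σ a b = j → Cel D.J σ (f.reverse.map gl) N → (∀ a b, a ≠ b → σ a b < D.K) →
    |TM (fun _ => 1) D.S 0 σ (eF (zs D f ++ [fun _ => ξ]) σ (N ++ [(a, b)]))| ≤ c

variable {D : CD} {τ0 : ℝ}

theorem X0 (h : D.Ok τ0) : 0 ≤ D.X := (ex_nonneg h.mono _).trans h.x1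

theorem lenB (D : CD) : D.B.length = D.K := List.length_map _

theorem lenS (D : CD) : D.S.length = D.K := opS_length

theorem dC_rev (c : Bool) (f : List Lt) : dC c (f.reverse.map gl) = dW c f := by
  simp only [dW, dC, List.map_reverse, List.sum_reverse]

theorem abs_site_le (h : D.Ok τ0) (f : List Lt) {ξ : Bool → Bool → ℝ} (hξ : ∀ a b, |ξ a b| ≤ 2)
    {r : ℕ} {σ : SM r} (hσ : Rz D.K σ) (E : EL r) :
    |TM (fun _ => 1) D.S 0 σ (eF (zs D f ++ [fun _ => ξ]) σ E)| ≤ 2 ^ (f.length + 1) := by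
  have := abs_TM_eF wt_one90 (L := D.S) 0 ((lenS D).symm ▸ hσ) one_le_two
    (U := zs D f ++ [fun _ => ξ]) E fun S hS j hj x y => by
      rcases List.mem_append.1 hS with hS | hS
      · obtain ⟨⟨c, b⟩, -, rfl⟩ := List.mem_map.1 hS
        cases b
        · simp [oZs]
        · exact abs_oE_le h.ook (by rwa [opS_length] at hj) x y
      · rw [List.mem_singleton.1 hS]
        exact hξ x y
  simpa [zs] using this

theorem site_crude (h : D.Ok τ0) (f : List Lt) (j : ℕ) {ξ : Bool → Bool → ℝ}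
    (hξ : ∀ a b, |ξ a b| ≤ 2) : Site D f j ξ (2 ^ (f.length + 1)) :=
  fun _ _ _ _ _ _ hσ _ _ _ _ _ => abs_site_le h f hξ hσ _

theorem kb_lt (h : D.Ok τ0) (a : Lt) : Kb D.J D.K (max τ0 1) (fun j x y => |oU D.q j x y|)
    (lt D.n D.β D.M D.q D.cl a).1 (gl a) := fun j hj x y => by
  obtain ⟨t0, t1⟩ := h.ook.oTau_le D.n D.β j
  have t2 : oTau D.n D.β D.M j ≤ max τ0 1 := (t1.trans h.tau).trans (le_max_left _ _)
  obtain ⟨c, b⟩ := a
  have h1 : |oUb D.n D.β D.M D.q b j x y| ≤ max τ0 1 * |oU D.q j x y| ^ Mul55.dg (c, b) := by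
    have h3 := abs_nonneg (oU D.q j x y)
    cases b
    · simp only [oUb, Mul55.dg, abs_mul, abs_neg, abs_pow, abs_div, abs_of_nonneg t0]
      norm_num
      rw [← sq_abs]
      nlinarith [sq_nonneg |oU D.q j x y|]
    · simp only [oUb, Mul55.dg, abs_mul, abs_div, abs_of_nonneg t0]
      norm_num
      nlinarith
  refine ⟨fun _ => ?_, fun h2 => ?_⟩
  · simp only [lt, cut]
    split_ifs
    · exact h1
    · simpa using (abs_nonneg _).trans h1
  · simp only [lt, cut]
    split_ifs with h3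
    · cases c
      · exact absurd (show D.J < j by simpa [CD.cl] using h3) h2
      · obtain rfl : j = 0 := by
          have : j ≤ D.J := by simpa [CD.cl] using h3
          have : ¬(1 ≤ j ∧ j ≤ D.J) := h2
          omega
        rw [oUb_zero]
        rfl
    · rfl

theorem Br_up (h : D.Ok τ0) (a : ℕ → ℝ) :
    Br D.B (fun v => if D.J < v then a v else 0) = D.I a := by
  rw [Br, lenB, Finset.sum_range_succ, show dm D.B 0 D.K = 0 from h.top, zero_mul, add_zero, CD.I]
  simp only [mul_ite, mul_zero]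
  rw [← Finset.sum_filter]
  refine Finset.sum_congr ?_ fun _ _ => rfl
  ext j
  simp [and_comm]

/-- the constant of a word of `k` letters -/
def cN (τ0 : ℝ) (k : ℕ) : ℝ := cG k * (max τ0 1 ^ (k + 1) * (2 * k + 2) ^ 2 *
  ((3 * (1 + 2 * k)) ^ (2 * k) * 2 + (2 * k + 2) * 2 ^ (2 * k + 2) * 2 ^ (2 * k + 2) * 2 ^ (k + 1)))

theorem cN_nonneg (τ0 : ℝ) (k : ℕ) : 0 ≤ cN τ0 k := by
  have := cG_pos k
  have : 0 ≤ max τ0 1 := zero_le_one.trans (le_max_right _ _)
  unfold cN
  positivity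

open Classical in
/-- **the crude bound at an upper node** -/
theorem crude_node (h : D.Ok τ0) (f : List Lt) {j : ℕ} (hj : j ∈ D.up)
    {G : Cube D.n → Cube D.n → ℝ} {ξ : Bool → Bool → ℝ} {m : ℕ} (hm : m ≤ 2)
    (hG : ∀ x y, |G x y| ≤ max τ0 1 * |oU D.q j x y| ^ m) (hξ : ∀ a b, |ξ a b| ≤ 2) {c : ℝ}
    (hc : 0 ≤ c) (hs : Site D f j ξ c) :
    |wB (-1) D.B (oB D.n D.β D.M D.q []) (f.map (lt D.n D.β D.M D.q D.cl)) (Sh.two j)
      (pr2 j G) (pr2 j ξ)| ≤ cN τ0 f.length *
        (c * D.X ^ lw f * (D.u (dW false f + m) j + D.I (D.u (dW false f + m))) + D.tl) := by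
  obtain ⟨hJ, hK⟩ := Finset.mem_Ioo.1 hj
  have hK' : j < D.B.length := by rwa [lenB]
  have T1 : 1 ≤ max τ0 1 := le_max_right _ _
  have x0 := X0 h
  set T := max τ0 1 with hT
  set k := f.length with hk
  set p := dW false f + m with hp
  set V := f.map (lt D.n D.β D.M D.q D.cl) with hV
  set P : (ℕ → Cube D.n → Cube D.n → ℝ) × SK := (fun i => if i = j then G else 0, fun _ => ξ) with hP
  set A : List (Bool × ℕ) := f.reverse.map gl ++ [(false, m)] with hA
  set Du : ℕ → ℝ := fun v => if D.J < v then D.u p v else 0 with hDu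
  have Du0 : ∀ v, 0 ≤ Du v := fun v => by
    simp only [hDu]
    split_ifs
    exacts [uM_nonneg _ _, le_rfl]
  have I0 : 0 ≤ D.I (D.u p) := Br_up h _ ▸ Br_nonneg h.mono fun v _ => Du0 v
  have u0 : 0 ≤ D.u p j := uM_nonneg _ _
  have t0 := h.tl0
  have lA : A.length = k + 1 := by simp [hA, hk]
  have d1 : dC true A = dW true f := by simp [hA, ← dC_rev, dC]
  have d2 : dC false A = p := by simp [hA, hp, ← dC_rev, dC]
  have dA : ∀ c, dC c A ≤ 2 * k + 2 := fun c => by
    have := dC_le c (A := A) fun a ha => by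
      rcases List.mem_append.1 ha with ha | ha
      · obtain ⟨a, -, rfl⟩ := List.mem_map.1 ha
        simp only [gl, Mul55.dg]
        split_ifs <;> norm_num
      · rw [List.mem_singleton.1 ha]
        exact hm
    omega
  have hU : List.Forall₂ (Kb D.J D.B.length T fun j x y => |oU D.q j x y|)
      ((V.reverse ++ [P]).map Prod.fst) A := by
    rw [lenB, List.map_append, hV, ← List.map_reverse, List.map_map]
    refine List.rel_append ?_ (.cons (fun i _ x y => ⟨fun _ => ?_, fun h1 => ?_⟩) .nil)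
    · rw [List.forall₂_map_left_iff, List.forall₂_map_right_iff, List.forall₂_same]
      exact fun a _ => kb_lt h a
    · simp only [hP]
      split_ifs with h1
      · exact h1 ▸ hG x y
      · simp only [Pi.zero_apply, abs_zero]
        positivity
    · simp only [hP]
      rw [if_neg fun e : i = j => h1 (show D.J < i from e ▸ hJ)]
      rfl
  have eZ : (V.reverse ++ [P]).map Prod.snd = zs D f ++ [fun _ => ξ] := by
    rw [List.map_append, hV, ← List.map_reverse, List.map_map]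
    rfl
  have hS := rep_TE wt_one90 D.S 0 ((V.reverse ++ [P]).map Prod.snd)
  rw [lenS, ← lenB] at hS
  have e := (rep_wB (-1) D.B _ _ V [P] (repB_mul (rep_TE wt_one90 D.B 0 _) hS)).two hK'.le
  have e1 : P.1 j = G := if_pos rfl
  rw [e1] at e
  refine (congrArg abs e).trans_le ?_
  rw [hV, List.length_map, ← hV, ← hk, cN, mul_assoc]
  refine abs_node_le j k _ fun k' hk' N hN hO => ?_
  set ct : ℝ := (2 * k + 2) * 2 ^ (2 * k + 2) * 2 ^ (2 * k + 2) * 2 ^ (k + 1) with hct
  have r1 : ((1 + k' + 1 : ℕ) : ℝ) ^ 2 ≤ (2 * k + 2) ^ 2 := by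
    have : ((1 + k' + 1 : ℕ) : ℝ) ≤ ((2 * k + 2 : ℕ) : ℝ) := by exact_mod_cast (by omega)
    push_cast at this ⊢
    gcongr
  have r2 : (3 * (1 + k' : ℝ)) ^ k' ≤ (3 * (1 + 2 * k)) ^ (2 * k) := by
    have h1 : (k' : ℝ) ≤ 2 * k := by exact_mod_cast hk'
    have h2 : (0 : ℝ) ≤ k := Nat.cast_nonneg _
    exact (pow_le_pow_left₀ (by positivity) (by linarith) _).trans
      (pow_le_pow_right₀ (by linarith) hk')
  refine (abs_avc_top h.mono (by rw [lenB]; exact h.top) hK' k' (g := fun σ => T ^ (k + 1) *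
    (c * D.X ^ dW true f * (∑ q ∈ Od (1 + k' + 1), if dW true f = 0 ∨ Low D.J σ then
      Du (σ q.1 q.2) else 0) + ct * ((2 * k + 2) ^ 2 * D.tl))) fun σ hσ ho ht => ?_).trans ?_
  · have ne : old (r := 1) k' 1 ≠ old k' 0 := fun e => absurd (old_inj k' e) (by decide)
    have hO' : EL.Ok (N ++ [(old k' 1, old k' 0)]) := fun e he => by
      rcases List.mem_append.1 he with he | he
      · exact hO e he
      · rw [List.mem_singleton.1 he]
        exact ne
    have s0 : 0 ≤ ∑ q ∈ Od (1 + k' + 1), if dW true f = 0 ∨ Low D.J σ then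
        Du (σ q.1 q.2) else 0 := Finset.sum_nonneg fun q _ => by
      split_ifs
      exacts [Du0 _, le_rfl]
    simp only [tmG]
    by_cases hC : Cel D.J σ A (N ++ [(old k' 1, old k' 0)])
    · have b1 := bulk_le wt_one90 (L := D.B) 0 hσ (zero_le_one.trans T1) (fun _ _ _ => abs_nonneg _)
        (fun i x y hi => by rw [oU, h.qlo i hi.2, sub_zero]; exact abs_ov_le x y)
        (fun i hi x y => abs_oU_le h.ook (by rwa [lenB] at hi) x y) x0 h.X1 t0
        (fun i hi => by
          simp only [oU, h.qlo i hi.2, sub_zero]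
          exact h.envL i (Finset.mem_Icc.2 hi)) hU hO' hC ne (ho ▸ hJ)
      have hL : dW true f = 0 ∨ Low D.J σ := by
        rw [← d1]
        exact or_iff_not_imp_left.2 (hC.low hO')
      rw [lenB] at hσ ht
      have hC' := List.forall₂_take_append _ _ _ hC
      rw [hA, List.take_left' (by simp [hN, hk])] at hC'
      have b2 := hs _ (by omega) σ N _ _ hσ hO ne ho hC' ht
      have b3 := abs_site_le h f hξ hσ (N ++ [(old k' 1, old k' 0)])
      have b4 : (dC true A : ℝ) * 2 ^ dC true A * 2 ^ dC false A * 2 ^ (k + 1) ≤ ct := by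
        have h1 : (dC true A : ℝ) ≤ ((2 * k + 2 : ℕ) : ℝ) := by exact_mod_cast dA true
        have h2 := pow_le_pow_right₀ (one_le_two (α := ℝ)) (dA true)
        have h3 := pow_le_pow_right₀ (one_le_two (α := ℝ)) (dA false)
        push_cast at h1
        rw [hct]
        gcongr
      rw [lA, d2, d1] at b1
      rw [d2, d1] at b4
      simp only [hL, if_true] at s0 ⊢
      rw [abs_mul, eZ]
      refine (mul_le_mul_of_nonneg_right b1 (abs_nonneg _)).trans ?_
      rw [mul_assoc, add_mul]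
      refine mul_le_mul_of_nonneg_left (add_le_add ?_ ?_) (by positivity)
      · rw [mul_comm, mul_assoc c]
        exact mul_le_mul_of_nonneg_right b2 (mul_nonneg (pow_nonneg x0 _) s0)
      · rw [mul_right_comm]
        exact mul_le_mul ((mul_le_mul_of_nonneg_left b3 (by positivity)).trans b4)
          (mul_le_mul_of_nonneg_right r1 t0) (by positivity) (by positivity)
    · rw [show eF ((V.reverse ++ [P]).map Prod.fst) σ (N ++ [(old k' 1, old k' 0)]) = fun _ => 0 from
        funext fun x => eF_zero hσ.le x hU _ (by simp [lA, hN]) hC, TM_const wt_one90 hσ, zero_mul,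
        abs_zero]
      positivity
  · rw [avc_mul, avc_add, avc_mul, avc_const, mul_assoc (T ^ _), mul_assoc (T ^ _)]
    refine mul_le_mul_of_nonneg_left ?_ (by positivity)
    have key : D.X ^ dW true f * avc D.B (tw D.B.length j) k' (fun σ => ∑ q ∈ Od (1 + k' + 1),
        if dW true f = 0 ∨ Low D.J σ then Du (σ q.1 q.2) else 0) ≤ (2 * k + 2) ^ 2 *
          ((3 * (1 + 2 * k)) ^ (2 * k) * 2 * (D.X ^ lw f * (D.u p j + D.I (D.u p)))) := by
      have e2 : Du j + Br D.B Du = D.u p j + D.I (D.u p) := by rw [Br_up h, hDu]; simp [hJ]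
      have n0 := add_nonneg u0 I0
      by_cases h0 : dW true f = 0
      · simp only [h0, lw, true_or, if_true, pow_zero, one_mul]
        refine (avc_up h.mono hK'.le k' Du0).trans ?_
        rw [e2, mul_assoc]
        gcongr
      · simp only [h0, lw, false_or, if_false]
        refine (mul_le_mul_of_nonneg_left (avc_low h.mono hK'.le hJ k' Du0 fun v hv => if_neg
          hv.not_gt) (pow_nonneg x0 _)).trans ?_
        rw [e2, mul_left_comm, mul_left_comm (D.X ^ _), ← mul_assoc (D.X ^ _),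
          pow_succ D.X (dW true f)]
        have := h.x1
        have := ex_nonneg h.mono D.J
        have : (3 * (1 + k' : ℝ)) ^ k' ≤ (3 * (1 + 2 * k)) ^ (2 * k) * 2 :=
          r2.trans (le_mul_of_one_le_right (by positivity) one_le_two)
        gcongr
    have k2 := mul_le_mul_of_nonneg_left key hc
    have p1 : 0 ≤ (2 * k + 2 : ℝ) ^ 2 * (ct * (c * (D.X ^ lw f * (D.u p j + D.I (D.u p))))) := by
      positivity
    have p2 : 0 ≤ (2 * k + 2 : ℝ) ^ 2 * ((3 * (1 + 2 * k)) ^ (2 * k) * 2 * D.tl) := by positivity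
    nlinarith

/-- `∑ |ω|` -/
theorem Iw_le (h : D.Ok τ0) (f : List Lt) {G : ℕ → Cube D.n → Cube D.n → ℝ} {ξ : SK} {m : ℕ}
    (hm : m ≤ 2) (hG : ∀ j ∈ D.up, ∀ x y, |G j x y| ≤ max τ0 1 * |oU D.q j x y| ^ m)
    (hξ : ∀ j ∈ D.up, ∀ a b, |ξ j a b| ≤ 2) {c : ℝ} (hc : 0 ≤ c)
    (hs : ∀ j ∈ D.up, Site D f j (ξ j) c) (μ : ℕ → ℝ) :
    |∑ j ∈ D.up, μ j * wB (-1) D.B (oB D.n D.β D.M D.q []) (f.map (lt D.n D.β D.M D.q D.cl))
      (Sh.two j) (pr2 j (G j)) (pr2 j (ξ j))| ≤ cN τ0 f.length * ∑ j ∈ D.up, |μ j| *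
        (c * D.X ^ lw f * (D.u (dW false f + m) j + D.I (D.u (dW false f + m))) + D.tl) := by
  rw [Finset.mul_sum]
  refine (Finset.abs_sum_le_sum_abs _ _).trans (Finset.sum_le_sum fun j hj => ?_)
  rw [abs_mul, mul_left_comm]
  exact mul_le_mul_of_nonneg_left (crude_node h f hj hm (hG j hj) (hξ j hj) hc (hs j hj))
    (abs_nonneg _)

/-- **the `U` part of the test** -/
theorem abs_tU_le (h : D.Ok τ0) (f : List Lt) {c : ℝ} (hc : 0 ≤ c)
    (hs : ∀ j ∈ D.up, Site D f j (fun _ _ => 1) c) :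
    |D.tU f| ≤ cN τ0 f.length * D.Iw fun j =>
      c * D.X ^ lw f * (D.u (dW false f + 1) j + D.I (D.u (dW false f + 1))) + D.tl :=
  Iw_le h f (G := oU D.q) (ξ := fun _ _ _ => 1) one_le_two (fun j _ x y => by
    rw [pow_one]; exact le_mul_of_one_le_left (abs_nonneg _) (le_max_right _ _))
    (fun _ _ _ _ => by simp) hc hs D.om


theorem wB_zero (D : CD) (W : List SK) :
    ∀ (V : List ((ℕ → Cube D.n → Cube D.n → ℝ) × SK)) (s : Sh) (ξ : (s.Lf → Bool) → ℝ),
      wB (-1) D.B (oB D.n D.β D.M D.q W) V s (fun _ => 0) ξ = 0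
  | [], s, ξ => by rw [wB, oB, Law.TE_const wt_one90, zero_mul]
  | p :: V, s, ξ => by
      have e : ∀ τ : GT s, τ.ev p.1 (fun _ => 0) = fun _ => 0 := fun τ => by
        funext x
        simp [GT.ev]
      simp only [wB, e, wB_zero D W V, sg_zero]

/-- **the value of a word whose first letter is an upper one** -/
theorem abs_tm_up (h : D.Ok τ0) (b : Bool) (f : List Lt) {c : ℝ} (hc : 0 ≤ c)
    (hs : ∀ j ∈ D.up, Site D f j (oZs D.q b j) c) :
    |tm D.n D.β D.M D.q D.cl ((false, b) :: f)| ≤ cN τ0 f.length *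
      (2 * (c * D.X ^ lw f * D.I (D.u (dW false ((false, b) :: f)))) + D.tl) := by
  have hd : ∀ j, 0 ≤ D.dx j := dm_nonneg h.mono
  have e : dW false ((false, b) :: f) = dW false f + Mul55.dg ((false, b) : Lt) := by
    simp [dW, dC, gl, add_comm]
  have h1 := Iw_le h f (G := (lt D.n D.β D.M D.q D.cl (false, b)).1) (ξ := oZs D.q b)
    (m := Mul55.dg ((false, b) : Lt)) (by unfold Mul55.dg; split_ifs <;> norm_num)
    (fun j hj x y => (kb_lt h (false, b) j (Finset.mem_Ioo.1 hj).2.le x y).1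
      (Finset.mem_Ioo.1 hj).1)
    (fun j hj x y => by
      cases b
      · simp [oZs]
      · exact abs_oE_le h.ook (Finset.mem_Ioo.1 hj).2.le x y) hc hs D.dx
  have h2 := Br_up h fun j => wB (-1) D.B (oB D.n D.β D.M D.q []) (f.map (lt D.n D.β D.M D.q D.cl))
    (Sh.two j) (pr2 j ((lt D.n D.β D.M D.q D.cl (false, b)).1 j)) (pr2 j (oZs D.q b j))
  have h3 : tm D.n D.β D.M D.q D.cl ((false, b) :: f) = _ := (tm_eq h.pos h.ook _ _).trans
    ((Finset.sum_congr rfl fun j _ => congrArg _ ?_).trans h2)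
  · have h4 : D.I (fun _ => 1) ≤ 1 := Br_up h _ ▸ (Br_mono h.mono fun j _ => by
      split_ifs <;> norm_num).trans (Br_one _).le
    have h5 : 0 ≤ D.I (D.u (dW false f + Mul55.dg ((false, b) : Lt))) :=
      Finset.sum_nonneg fun j _ => mul_nonneg (hd j) (uM_nonneg _ _)
    have h6 : 0 ≤ c * D.X ^ lw f := mul_nonneg hc (pow_nonneg (X0 h) _)
    rw [h3, e]
    refine h1.trans (mul_le_mul_of_nonneg_left ?_ (cN_nonneg _ _))
    simp only [abs_of_nonneg (hd _), mul_add, Finset.sum_add_distrib, mul_left_comm (D.dx _),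
      ← Finset.mul_sum, ← Finset.sum_mul]
    simp only [CD.I, mul_one] at h4 h5 ⊢
    nlinarith [mul_le_mul_of_nonneg_left h4 (mul_nonneg h6 h5), mul_le_mul_of_nonneg_left h4 h.tl0]
  · split_ifs with h4
    · rfl
    · have e0 : (lt D.n D.β D.M D.q D.cl (false, b)).1 j = 0 := by simp [lt, cut, CD.cl, h4]
      rw [e0]
      exact wB_zero _ _ _ _ _

end cd

end Crest.Agent.T156.Cas.Cr22

end
end

-- ▼ part T156/CStC_22

/-!
# Row 156, block C: the `U` part of the test, crude words (helper22)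
-/

set_option autoImplicit false
set_option linter.all false

noncomputable section

namespace Crest.Agent.T156.Cas.Cr22

open MeasureTheory Real Set Filter Topology
open Crest.Agent.T157.E Crest.Agent.T157.Casc Crest.Agent.T157.SL
open Crest.ProbabilityR.SpinGlassDynamics (spin)
open Nu87 G90 C40 Mul55 OneP

variable {D : CD} {τ0 : ℝ}

theorem u_add_le (h : D.Ok τ0) {j : ℕ} (hj : j ≤ D.K) (p e : ℕ) :
    D.u (p + e) j ≤ 2 ^ e * D.u p j := by
  rw [CD.u, CD.u, uM, uM, ← pi2_const_mul]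
  refine Crest.Agent.T157.Casc.pi2_mono (Ω := Cube D.n) wt_one90 _ j (fun x y => ?_) 0
  rw [pow_add, mul_comm]
  exact mul_le_mul_of_nonneg_right (pow_le_pow_left₀ (abs_nonneg _) (abs_oU_le h.ook hj x y) e)
    (by positivity)

theorem u3_le (h : D.Ok τ0) (j : ℕ) : D.X ^ 2 * D.u 3 j ≤ D.X ^ 3 * D.u 2 j + D.u 4 j := by
  rw [CD.u, CD.u, CD.u, uM, uM, uM, ← pi2_const_mul, ← pi2_const_mul, ← pi2_add wt_one90]
  refine Crest.Agent.T157.Casc.pi2_mono (Ω := Cube D.n) wt_one90 _ j (fun x y => ?_) 0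
  have h1 := abs_nonneg (oU D.q j x y)
  have h2 := h.X0
  have h3 := h.X1
  set u := |oU D.q j x y|
  have h4 : D.X * u ^ 4 ≤ u ^ 4 := mul_le_of_le_one_left (by positivity) h3
  nlinarith [mul_nonneg (mul_nonneg h2 (sq_nonneg u)) (sq_nonneg (D.X - u)),
    mul_nonneg (mul_nonneg (sq_nonneg D.X) (sq_nonneg u)) h1]

/-- the pairs (power of `X`, order of the moment) that are errors -/
def Sm (a p : ℕ) : Prop :=
  p ≤ 10 ∧ (p = 0 → 6 ≤ a) ∧ (p = 1 → 4 ≤ a) ∧ (p = 2 → 3 ≤ a) ∧ (p = 3 → 2 ≤ a)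

instance (a p : ℕ) : Decidable (Sm a p) := by unfold Sm; infer_instance

theorem sm_le (h : D.Ok τ0) {a p : ℕ} (H : Sm a p) {j : ℕ} (hj : j ≤ D.K) :
    D.X ^ a * D.u p j ≤ 64 * (D.X ^ 6 + D.X ^ 4 * D.g j + D.X ^ 3 * D.g j ^ 2 + D.u 4 j) := by
  obtain ⟨h10, h0, h1, h2, h3⟩ := H
  have x0 := h.X0
  have g0 := D.g0 j
  have u4 := D.u0 4 j
  have hx : ∀ {b}, b ≤ a → D.X ^ a * D.u p j ≤ D.X ^ b * D.u p j := fun hb =>
    mul_le_mul_of_nonneg_right (pow_le_pow_of_le_one x0 h.X1 hb) (D.u0 p j)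
  have p1 : 0 ≤ D.X ^ 6 := by positivity
  have p2 : 0 ≤ D.X ^ 4 * D.g j := by positivity
  have p3 : 0 ≤ D.X ^ 3 * D.g j ^ 2 := by positivity
  have k : ∀ b p, p ≤ 3 → D.X ^ b * D.u p j ≤ D.X ^ b * (2 * D.g j ^ p) := fun b p hp =>
    mul_le_mul_of_nonneg_left (Ck32.u_le_g hp j) (by positivity)
  obtain rfl | rfl | rfl | rfl | h4 : p = 0 ∨ p = 1 ∨ p = 2 ∨ p = 3 ∨ 4 ≤ p := by omega
  · linarith [hx (h0 rfl), k 6 0 (by norm_num)]
  · linarith [hx (h1 rfl), k 4 1 (by norm_num)]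
  · linarith [hx (h2 rfl), k 3 2 (by norm_num)]
  · linarith [hx (h3 rfl), k 3 2 (by norm_num), u3_le h j]
  · obtain ⟨e, rfl⟩ := Nat.exists_eq_add_of_le h4
    have h5 : (2 : ℝ) ^ e ≤ 2 ^ 6 := pow_le_pow_right₀ one_le_two (by omega)
    linarith [hx (Nat.zero_le a), u_add_le h hj 4 e, mul_le_mul_of_nonneg_right h5 u4]

theorem I_sm (h : D.Ok τ0) {a p : ℕ} (H : Sm a p) : D.X ^ a * D.I (D.u p) ≤ 256 * D.E0 := by
  rw [← D.I_mul]
  refine (h.I_mono fun j hj => sm_le h H (CD.mem_up.1 hj).2.le).trans ?_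
  rw [D.I_mul, D.I_add, D.I_add, D.I_add, D.I_mul, D.I_mul]
  have h1 := h.I_le (a := fun _ => D.X ^ 6) (pow_nonneg h.X0 6) fun _ _ => le_rfl
  have h2 := mul_nonneg (pow_nonneg h.X0 3) (sq_nonneg D.N1)
  have h3 := h.XN2_le
  have h4 := h.XN1_le
  rw [mul_add] at h3
  simp only [CD.N1, CD.N2] at h2 h3 h4
  linarith [h.X6_le, h.Iu4_le]

/-- **the crude bound is an error** -/
theorem Iw_sm (h : D.Ok τ0) (hW : D.W.isSome = true) {a p : ℕ} (H : Sm a p) {c : ℝ} (hc : 0 ≤ c) :
    D.Iw (fun j => c * D.X ^ a * (D.u p j + D.I (D.u p)) + D.tl) ≤ (512 * c + 1) * D.Err := by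
  have h1 : D.Iw (fun j => c * (64 * (D.X ^ 4 * D.g j + D.X ^ 3 * (D.g j ^ 2 + D.g j * D.N1) +
      D.u 4 j))) ≤ 192 * c * D.E1 := by
    rw [D.Iw_mul, D.Iw_mul, D.Iw_add, D.Iw_add]
    nlinarith [mul_le_mul_of_nonneg_left (add_le_add_three h.IwXg_le h.IwXg2_le h.Iwu4_le) hc]
  have h2 := h.Iw_split hW (A := c * (320 * D.E0) + D.E0) (c := 320 * c + 1) (by positivity)
    (by positivity) (le_of_eq (by ring)) h1
  refine (D.Iw_mono fun j hj => ?_).trans (h2.trans_eq (by ring))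
  have h3 := sm_le h H (CD.mem_up.1 hj).2.le
  have h4 := mul_nonneg (pow_nonneg h.X0 3) (mul_nonneg (D.g0 j) h.N10)
  rw [mul_assoc, add_assoc, ← add_assoc, ← mul_add]
  refine add_le_add (mul_le_mul_of_nonneg_left ?_ hc) h.tl_le
  linarith [I_sm h H, h.X6_le]

theorem bd_tU {f : List Lt} {c : ℝ} {e : ℕ} (hc : 0 ≤ c) (H : Sm (e + lw f) (dW false f + 1))
    (hs : ∀ τ0 D, CD.Ok D τ0 → ∀ j ∈ D.up, Site D f j (fun _ _ => 1) (c * D.X ^ e)) :
    Bd true fun D => D.tU f := Bd.mk' fun τ0 => ⟨cN τ0 f.length * (512 * c + 1), fun D h hW => by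
  refine (abs_tU_le h f (mul_nonneg hc (pow_nonneg h.X0 _)) (hs τ0 D h)).trans ?_
  simp only [mul_assoc c (D.X ^ e), ← pow_add]
  rw [mul_assoc]
  exact mul_le_mul_of_nonneg_left (Iw_sm h hW H hc) (cN_nonneg _ _)⟩



theorem dW_add (f : List Lt) : dW true f + dW false f = deg f := by
  induction f with
  | nil => rfl
  | cons a f ih =>
    obtain ⟨c, b⟩ := a
    cases c <;> simp only [dW, dC, deg, gl, List.map_cons, List.sum_cons, if_true,
      Bool.false_eq_true, Bool.true_eq_false, if_false] at ih ⊢ <;> omega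

theorem deg_le (f : List Lt) : deg f ≤ 2 * f.length := by
  induction f with
  | nil => rfl
  | cons a f ih =>
    simp only [deg, List.map_cons, List.sum_cons, List.length_cons, Mul55.dg] at ih ⊢
    split_ifs <;> omega

theorem cP_le {r : ℕ} (hr : r ≤ 6) : Site94.cP r 2 ≤ Site94.cP 6 2 := by
  unfold Site94.cP
  gcongr

/-- Cauchy–Schwarz on a tree -/
theorem TM_cs {Ω : Type} [Fintype Ω] {w : Ω → ℝ} (hw : Wt w) {L : List (Lv Ω)} (h : Ω → ℝ) {r : ℕ}
    {σ : SM r} (hσ : Rz L.length σ) (F G : (Fin r → Ω) → ℝ) :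
    TM w L h σ (fun x => F x * G x) ^ 2 ≤
      TM w L h σ (fun x => F x ^ 2) * TM w L h σ fun x => G x ^ 2 := by
  have := discrim_le_zero (a := TM w L h σ fun x => F x ^ 2)
    (b := 2 * TM w L h σ fun x => F x * G x) (c := TM w L h σ fun x => G x ^ 2) fun t => by
      have h1 := TM_mono (h := h) hw hσ (F := fun _ => 0)
        (G := fun x => t ^ 2 * F x ^ 2 + (2 * t * (F x * G x) + G x ^ 2)) fun x => by
          nlinarith [sq_nonneg (t * F x + G x)]
      rw [TM_const hw hσ, TM_add, TM_add, TM_mul, TM_mul] at h1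
      linarith
  rw [discrim] at this
  linarith

theorem TM_UU {r : ℕ} {σ : SM r} (hσ : Rz D.B.length σ) {a b c d : Fin r} (hab : a ≠ b)
    (hcd : c ≠ d) : |TM (fun _ => 1) D.B 0 σ fun x =>
      oU D.q (σ a b) (x a) (x b) * oU D.q (σ c d) (x c) (x d)| ≤
        2 * (D.g (σ a b) * D.g (σ c d)) := by
  have k : ∀ {a b : Fin r}, a ≠ b → TM (fun _ => 1) D.B 0 σ
      (fun x => oU D.q (σ a b) (x a) (x b) ^ 2) = D.u 2 (σ a b) := fun {a b} hab => by
    simp only [← sq_abs (oU _ _ _ _)]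
    exact TM_pair (h := 0) wt_one90 hσ hab fun x y => |oU D.q (σ a b) x y| ^ 2
  refine abs_le_of_sq_le_sq ((TM_cs wt_one90 0 hσ _ _).trans ?_)
    (mul_nonneg zero_le_two (mul_nonneg (D.g0 _) (D.g0 _)))
  rw [k hab, k hcd]
  exact (mul_le_mul (Ck32.u_le_g (by norm_num) _) (Ck32.u_le_g (by norm_num) _) (D.u0 _ _)
    (by positivity)).trans_eq (by ring)

theorem TM_oE {r : ℕ} {σ : SM r} (hσ : Rz D.K σ) {a b : Fin r} (hab : a ≠ b) :
    TM (fun _ => 1) D.S 0 σ (fun x => oE D.q (σ a b) (x a) (x b)) = D.Gam (σ a b) - D.q (σ a b) := by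
  have := pi2_add (L := D.S) (j := σ a b) wt_one90 (fun a b => spin a * spin b)
    (fun _ _ => -D.q (σ a b)) 0
  rw [pi2_const wt_one90] at this
  exact (TM_pair (h := 0) wt_one90 ((lenS D).symm ▸ hσ) hab (oE D.q (σ a b))).trans this

/-- the word `[aU]`, level by level -/
theorem abs_tU_aU (h : D.Ok τ0) : |D.tU [C40.aU]| ≤ cG 1 * (max τ0 1 * (4 * 81)) * D.Iw fun j =>
    D.g j * (|D.Gam j - D.q j| * D.g j + D.I fun t => |D.Gam t - D.q t| * D.g t) := by
  rw [← D.Iw_mul]
  refine D.abs_sum_om fun j hj => ?_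
  obtain ⟨hJ, hK⟩ := Finset.mem_Ioo.1 hj
  have hK' : j < D.B.length := by rwa [lenB]
  have T0 : 0 ≤ max τ0 1 := zero_le_one.trans (le_max_right _ _)
  have hS := rep_TE wt_one90 D.S 0 [oE D.q, fun _ _ _ => 1]
  rw [lenS, ← lenB] at hS
  have e := (rep_wB (-1) D.B _ _ [lt D.n D.β D.M D.q D.cl C40.aU] [(oU D.q, fun _ _ _ => 1)]
    (repB_mul (rep_TE wt_one90 D.B 0 _) hS)).two hK'.le
  refine (congrArg abs e).trans_le ?_
  rw [mul_assoc]
  refine abs_node_le j 1 _ fun k' hk' N hN hO => ?_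
  obtain ⟨e, rfl⟩ := List.length_eq_one_iff.1 hN
  have ne := hO e List.mem_cons_self
  set Dv : ℕ → ℝ := fun v => if D.J < v then |D.Gam v - D.q v| * D.g v else 0 with hDv
  have D0 : ∀ v, 0 ≤ Dv v := fun v => by
    have := D.g0 v
    simp only [hDv]
    positivity
  have g0 := D.g0 j
  refine (abs_avc_top h.mono (by rw [lenB]; exact h.top) hK' k'
    (g := fun σ => max τ0 1 * (2 * D.g j) * Dv (σ e.1 e.2)) fun σ hσ ho _ => ?_).trans ?_
  · have ne' : old (r := 1) k' 1 ≠ old k' 0 := fun e => absurd (old_inj k' e) (by decide)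
    have e1 : tmG (fun _ => 1) D.S 0 [oE D.q, fun _ _ _ => 1] _ σ ([e] ++ [(old k' 1, old k' 0)]) =
        _ := (congrArg _ (funext fun x => by simp [eF])).trans (TM_oE (lenB D ▸ hσ) ne)
    have e2 : tmG (fun _ => 1) D.B 0 [(lt D.n D.β D.M D.q D.cl C40.aU).1, oU D.q] _ σ
        ([e] ++ [(old k' 1, old k' 0)]) = (if D.J < σ e.1 e.2 then D.τ (σ e.1 e.2) / 2 else 0) *
          TM (fun _ => 1) D.B 0 σ fun x => oU D.q (σ (old k' 1) (old k' 0)) (x (old k' 1))
            (x (old k' 0)) * oU D.q (σ e.1 e.2) (x e.1) (x e.2) := by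
      rw [← TM_mul]
      refine congrArg _ (funext fun x => ?_)
      by_cases h1 : D.J < σ e.1 e.2 <;> simp [eF, lt, cut, CD.cl, oUb, h1]
      ring
    have b1 := TM_UU hσ ne' ne
    refine (congrArg abs (congrArg₂ (· * ·) e2 e1)).trans_le ?_
    simp only [hDv]
    split_ifs
    · obtain ⟨t0, t1⟩ := h.tau_mem (σ e.1 e.2)
      have t2 : |D.τ (σ e.1 e.2) / 2| ≤ max τ0 1 := by
        rw [abs_of_nonneg (by linarith)]
        linarith [le_max_left τ0 1]
      rw [abs_mul, abs_mul]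
      refine (mul_le_mul_of_nonneg_right (mul_le_mul t2 b1 (abs_nonneg _) T0)
        (abs_nonneg _)).trans_eq ?_
      rw [ho]
      ring
    · simp
  · rw [avc_mul]
    have h1 := Site94.avc_pair_le h.mono hK'.le k' D0 ne
    have h2 : (3 * (1 + k' : ℝ)) ^ k' ≤ 81 := by
      have : k' ≤ 2 := hk'
      interval_cases k' <;> norm_num
    have h3 := Wp52.Br_nonneg h.mono fun v _ => D0 v
    have h4 := D0 j
    have h5 := h1.trans (mul_le_mul_of_nonneg_right h2 (by positivity))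
    rw [Br_up h] at h3 h5
    simp only [hDv, if_pos hJ] at h4 h5
    refine (mul_le_mul_of_nonneg_left h5 (by positivity)).trans ?_
    nlinarith [mul_nonneg (mul_nonneg T0 g0) h4]

theorem bd_aU : Bd true fun D => D.tU [C40.aU] :=
  Bd.mk' fun τ0 => ⟨cG 1 * (max τ0 1 * (4 * 81)), fun D h hW => by
    have := cG_pos 1
    have T0 : 0 ≤ max τ0 1 := zero_le_one.trans (le_max_right _ _)
    have h1 := h.stw
    have h2 : 0 ≤ ((D.K : ℝ) + 1) ^ 2 * D.tl := mul_nonneg (sq_nonneg _) h.tl0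
    exact (abs_tU_aU h).trans (mul_le_mul_of_nonneg_left
      ((le_trans (le_add_of_nonneg_right h2) h1).trans (h.Z_le.trans (h.E1_le hW)))
      (by positivity))⟩

theorem site_aL (h : D.Ok τ0) (j : ℕ) :
    Site D [aL] j (fun _ _ => 1) (4 * Site94.cP 6 2 * D.X ^ 3) :=
  fun r hr σ N a b hσ hO _ _ hc ht => by
    obtain ⟨e, _, h1, h2, rfl⟩ := List.forall₂_cons_left_iff.1 hc
    obtain rfl := List.forall₂_nil_left_iff.1 h2
    have := Ck32.site_one h ((lenB D).symm ▸ hσ) (A := [e]) (.refl _) h1.2 (by simp)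
    refine (congrArg abs (congrArg _ (funext fun x => ?_))).trans_le (this.trans ?_)
    · simp [zs, eF, oZs, Ck32.se]
    · have := cP_le (r := r) (by simp at hr; omega)
      have := Site94.cP_nonneg r 2
      have := h.X0
      gcongr
      norm_num

theorem site_two (h : D.Ok τ0) (j : ℕ) (c : Bool) :
    Site D [(c, true), (!c, true)] j (fun _ _ => 1) (4 * Site94.cP 6 2 * D.X ^ 3) :=
  fun r hr σ N a b hσ hO _ _ hc ht => by
    obtain ⟨e, _, h1, h2, rfl⟩ := List.forall₂_cons_left_iff.1 hc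
    obtain ⟨e', _, h3, h4, rfl⟩ := List.forall₂_cons_left_iff.1 h2
    obtain rfl := List.forall₂_nil_left_iff.1 h4
    have : |Ck32.TS D σ (Ck32.se D [e, e'] σ)| ≤ 2 ^ 2 * Site94.cP r 2 * D.X ^ 3 := by
      cases c
      · exact Ck32.site_one h ((lenB D).symm ▸ hσ) (.refl _) h1.2 (by simpa using show D.J < _ from h3)
      · exact Ck32.site_one h ((lenB D).symm ▸ hσ) (.swap _ _ _) h3.2 (by simpa using show D.J < _ from h1)
    refine (congrArg abs (congrArg _ (funext fun x => ?_))).trans_le (this.trans ?_)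
    · simp [zs, eF, oZs, Ck32.se, mul_comm]
    · have := cP_le (r := r) (by simpa using hr)
      have := Site94.cP_nonneg r 2
      have := h.X0
      gcongr
      norm_num

end Crest.Agent.T156.Cas.Cr22

namespace Crest.Agent.T156.Cas.C40

open Cr22

/-- **the `U` part of the test, crude words** -/
theorem stC : StC := fun f h1 h4 hd => by
  have c0 : 0 ≤ 4 * Site94.cP 6 2 := mul_nonneg (by norm_num) (Site94.cP_nonneg _ _)
  by_cases h3 : 3 ≤ deg f
  · refine bd_tU (c := 2 ^ (f.length + 1)) (e := 0) (by positivity) ?_ fun τ0 D h j hj => by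
      simpa using site_crude h f j (ξ := fun _ _ => 1) fun a b => by simp
    have := dW_add f
    have := deg_le f
    unfold lw
    split_ifs <;> refine ⟨?_, fun _ => ?_, fun _ => ?_, fun _ => ?_, fun _ => ?_⟩ <;> omega
  · match f, h1, h4, hd, h3 with
    | [(true, true)], _, _, _, _ => exact bd_tU (e := 3) c0 (by decide) fun _ _ h j _ => site_aL h j
    | [(false, true)], _, _, _, _ => exact bd_aU
    | [(true, true), (false, true)], _, _, _, _ =>
      exact bd_tU (e := 3) c0 (by decide) fun _ _ h j _ => site_two h j true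
    | [(false, true), (true, true)], _, _, _, _ =>
      exact bd_tU (e := 3) c0 (by decide) fun _ _ h j _ => site_two h j false
    | [(c, false)], _, _, hd, _ => exact absurd hd (by cases c <;> decide)
    | [(true, true), (true, true)], _, _, hd, _ => exact absurd hd (by decide)
    | [(false, true), (false, true)], _, _, hd, _ => exact absurd hd (by decide)
    | [(c, false), (c', b)], _, _, _, h3 => exact absurd h3 (by cases c <;> cases c' <;> cases b <;> decide)
    | [(c, true), (c', false)], _, _, _, h3 => exact absurd h3 (by cases c <;> cases c' <;> decide)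
    | a :: b :: c :: f, _, _, _, h3 =>
      have := Mul55.dg_pos a
      have := Mul55.dg_pos b
      have := Mul55.dg_pos c
      simp only [deg, List.map_cons, List.sum_cons] at h3
      omega

end Crest.Agent.T156.Cas.C40

end
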