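import Crest.Agent.T156.SprDef_59
import Crest.Agent.T156.CeiG_88

/-!
# Row 156, stage C (helper11): the inputs of `SprL1`, `SprL2`, statements
-/

set_option autoImplicit false

noncomputable section

namespace Crest.Agent.T156.Alt

open Real Set

/-- `Φ` of a model on the grid of `P` -/
def Pm.ph2 (p : Pm) (P : Pl) (M : Md) (m : ℕ) (a : ℝ) : ℝ :=
  ∑ k ∈ Finset.Ioc p.jf (p.Jp P), (M.z k - M.z (k - 1)) * M.del m a k ^ 2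

/-- output of SR along `C1` (loss form) -/
def SrP1 (Λ : ℝ) (p : Pm) : Prop :=
  ∀ P, p.PlOk p.μe P → ∀ t ∈ Icc (0 : ℝ) 1, ∀ m a, p.InW m a →
    p.ph2 P (p.c1M (7 / 20) P t) m a ≤ Λ * p.s ^ 3 * (p.n : ℝ) ^ (p.c - 1 / 2)

/-- output of SR along `C2` (loss form) -/
def SrP2 (Λ : ℝ) (p : Pm) : Prop :=
  ∀ α α' P, 0 < α → α ≤ 1 → α / 2 ≤ α' → α' ≤ α → p.AlOk (7 / 20) α P → ∀ m a, p.InW m a →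
    p.ph2 P (p.alM (7 / 20) P α') m a ≤ Λ * p.s ^ 3 * (p.n : ℝ) ^ (p.c - 1 / 2)

/-- facts on a member of stage C with static amplitude `α` -/
structure Fa (K α : ℝ) (p : Pm) (P : Pl) (S : Sc) (M : Md) : Prop where
  cl : Cl S M
  cei : Cei S M
  eC : S.C = 8 * K ^ 2
  eA : S.A = p.A
  en : S.n = p.n
  ev : S.v = p.v
  ea : S.amax = p.am
  em : S.ms = p.ms 1 p.ye
  eF : S.F = 1
  e0 : S.j0 = p.jf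
  el : S.jl = p.jf
  eP : S.Jp = p.Jp P
  ex : M.z (S.J - 1) = p.xs
  HJ : M.H S.Jp ≤ S.C
  sj : M.s S.jl ≤ 2 * (p.s * (p.n : ℝ) ^ (p.c / 13 - 1 / 6))
  gr : ∀ t, M.s S.jl < t → S.gr t ≤ K ^ 3 * (p.n : ℝ) ^ (-(7 / 20 : ℝ)) * t
  g2 : S.g2 ≤ K ^ 5 * ((p.μe * p.la p.μe) ^ 2 * log p.n + (p.n : ℝ) ^ (-(7 / 10 : ℝ)))
  mesh : ∀ k, S.J ≤ k → k < S.Jp → M.z k - M.z (k - 1) ≤ (p.n : ℝ) ^ (-(2 : ℝ))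
  ue : 0 < S.ue ∧ S.ue ≤ (p.n : ℝ) ^ (-(2 : ℝ))
  u0 : (p.n : ℝ) ^ (-(71 / 200 : ℝ)) ≤ S.u0 ∧ S.u0 ^ 3 ≤ p.la p.μe ^ 2
  ck : M.ck S.Jp - M.ck S.J ≤ K * log p.n
  d1 : ∀ x, p.xs ≤ x → x < 1 →
    (p.n : ℝ) ^ (-(71 / 200 : ℝ)) ≤ S.den x * min (x - p.xs + S.u0) (1 - x)
  d2 : ∀ x, p.xs ≤ x → p.u2 p.μe ≤ 1 - x → α ^ 2 * p.u2 p.μe / 16 ≤ S.den x ^ 2 * (1 - x) ^ 3
  d3 : ∀ x, p.xs ≤ x → x < 1 → S.den x ≤ 1 + 2 / (1 - x)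
  rev : ∃ k1, S.Jp ≤ k1 ∧ k1 ≤ M.N ∧ 1 / S.C ≤ ((k1 : ℝ) - S.Jp) * S.v ∧
    ∀ k, S.Jp ≤ k → k < k1 → S.θ * S.v / (S.C * S.F) ≤ M.H (k + 1) - M.H k
  spr : M.s S.Jp - M.s S.J ≤ (p.n : ℝ) ^ (-(7 / 20 : ℝ))
  dj : 1 ≤ S.C * S.den p.xs ∧ S.den p.xs ≤ S.C

/-- the facts along `C1` -/
def Fa1 (K : ℝ) (p : Pm) : Prop := 5 ≤ p.A → ∀ P, p.PlOk p.μe P → ∀ t ∈ Icc (0 : ℝ) 1,
  ∃ S, Fa K 1 p P S (p.c1M (7 / 20) P t)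


end Crest.Agent.T156.Alt

end
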