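import Mathlib

-- ▼ part T156/SrLip_25
section

/-!
# Row 156 (helper25): the Lipschitz minorant of a monotone profile

`lm f c` is the largest sequence below `f` with increments `≤ c k`.  It is used as the deposit of
the soft recursion, so that the marks keep a ceiling.
-/

set_option autoImplicit false

noncomputable section

namespace Crest.Agent.T156.Sr25

open Finset

/-- the minorant of `f` with increments at most `c k` -/
def lm (f c : ℕ → ℝ) : ℕ → ℝ
  | 0 => f 0
  | k + 1 => min (f (k + 1)) (lm f c k + c k)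

/-- the defect -/
def df (f c : ℕ → ℝ) (k : ℕ) : ℝ := f k - lm f c k

variable {f g c q : ℕ → ℝ}

theorem lm_zero : lm f c 0 = f 0 := rfl

theorem lm_succ (k : ℕ) : lm f c (k + 1) = min (f (k + 1)) (lm f c k + c k) := rfl

theorem lm_le (k : ℕ) : lm f c k ≤ f k := by
  cases k with
  | zero => exact le_rfl
  | succ k => exact min_le_left _ _

theorem df_nonneg (k : ℕ) : 0 ≤ df f c k := sub_nonneg.2 (lm_le k)

theorem df_zero : df f c 0 = 0 := sub_self _

/-- **ceiling** -/
theorem lm_step (k : ℕ) : lm f c (k + 1) - lm f c k ≤ c k := by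
  have := min_le_right (f (k + 1)) (lm f c k + c k)
  rw [lm_succ]; linarith

theorem lm_le_succ {k : ℕ} (hf : f k ≤ f (k + 1)) (hc : 0 ≤ c k) : lm f c k ≤ lm f c (k + 1) :=
  le_min ((lm_le k).trans hf) (by linarith)



theorem lm_sub_le {i j : ℕ} (hij : i ≤ j) : lm f c j - lm f c i ≤ ∑ k ∈ Ico i j, c k := by
  induction j, hij using Nat.le_induction with
  | base => simp
  | succ j h ih => rw [sum_Ico_succ_top h]; linarith [lm_step (f := f) (c := c) j]




/-- the anchor of `k` -/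
theorem exists_anchor (k : ℕ) : ∃ j ≤ k, lm f c k = f j + ∑ i ∈ Ico j k, c i := by
  induction k with
  | zero => exact ⟨0, le_rfl, by simp [lm_zero]⟩
  | succ k ih =>
    obtain ⟨j, hj, e⟩ := ih
    rcases le_total (f (k + 1)) (lm f c k + c k) with h | h
    · exact ⟨k + 1, le_rfl, by simp [lm_succ, min_eq_left h]⟩
    · exact ⟨j, by omega, by rw [lm_succ, min_eq_right h, e, sum_Ico_succ_top hj]; ring⟩

theorem df_le {k : ℕ} {B : ℝ} (h : ∀ j ≤ k, f k - f j - ∑ i ∈ Ico j k, c i ≤ B) :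
    df f c k ≤ B := by
  obtain ⟨j, hj, e⟩ := exists_anchor (f := f) (c := c) k
  have := h j hj
  rw [df, e]; linarith


theorem df_succ_le {k : ℕ} (hf : f k ≤ f (k + 1)) (hc : 0 ≤ c k) :
    df f c (k + 1) ≤ df f c k + (f (k + 1) - f k) := by
  have := lm_le_succ hf hc
  simp only [df]; linarith

/-- **local cubic bound** on any window of indices -/
theorem win_le {a b : ℕ} (hab : a ≤ b) (hf : ∀ k, a ≤ k → k < b → f k ≤ f (k + 1))
    (hc : ∀ k, a ≤ k → k < b → 0 ≤ c k) :
    ∑ i ∈ Ico a b, c i * df f c (i + 1) ^ 2 ≤ (df f c a + (f b - f a)) ^ 3 := by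
  have key : f a ≤ f b ∧ df f c b ≤ df f c a + (f b - f a) ∧
      ∑ i ∈ Ico a b, c i * df f c (i + 1) ^ 2 ≤
        (df f c a + (f b - f a) - df f c b) * (df f c a + (f b - f a)) ^ 2 := by
    induction b, hab using Nat.le_induction with
    | base => simp
    | succ b h ih =>
      obtain ⟨h0, h1, h2⟩ := ih (fun k x y => hf k x (by omega)) fun k x y => hc k x (by omega)
      have f1 := hf b h b.lt_succ_self
      have c1 := hc b h b.lt_succ_self
      have d1 := df_succ_le f1 c1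
      have d0 := df_nonneg (f := f) (c := c) (b + 1)
      have da := df_nonneg (f := f) (c := c) a
      have db := df_nonneg (f := f) (c := c) b
      refine ⟨h0.trans f1, by linarith, ?_⟩
      rw [sum_Ico_succ_top h]
      set R := df f c a + (f b - f a) with hR
      set R' := df f c a + (f (b + 1) - f a) with hR'
      have hRR : R ≤ R' := by linarith
      have R0 : 0 ≤ R := by linarith
      have s1 : (R - df f c b) * R ^ 2 ≤ (R - df f c b) * R' ^ 2 :=
        mul_le_mul_of_nonneg_left (pow_le_pow_left₀ R0 hRR 2) (by linarith)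
      have s2 : c b * df f c (b + 1) ^ 2 ≤
          (df f c b + (f (b + 1) - f b) - df f c (b + 1)) * R' ^ 2 := by
        rcases le_total (f (b + 1)) (lm f c b + c b) with h' | h'
        · have z : df f c (b + 1) = 0 := by rw [df, lm_succ, min_eq_left h', sub_self]
          rw [z]
          have : 0 ≤ (df f c b + (f (b + 1) - f b) - 0) * R' ^ 2 :=
            mul_nonneg (by linarith) (sq_nonneg _)
          simpa using this
        · have z : df f c b + (f (b + 1) - f b) - df f c (b + 1) = c b := by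
            simp only [df, lm_succ, min_eq_right h']; ring
          rw [z]
          exact mul_le_mul_of_nonneg_left (pow_le_pow_left₀ d0 (by linarith) 2) c1
      have e : (R' - df f c (b + 1)) * R' ^ 2 = (R - df f c b) * R' ^ 2 +
          (df f c b + (f (b + 1) - f b) - df f c (b + 1)) * R' ^ 2 := by
        rw [hR, hR']; ring
      linarith
  obtain ⟨h0, -, h2⟩ := key
  have da := df_nonneg (f := f) (c := c) a
  have db := df_nonneg (f := f) (c := c) b
  refine h2.trans ?_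
  have : 0 ≤ df f c b * (df f c a + (f b - f a)) ^ 2 := by positivity
  nlinarith

theorem cube_sub {x y : ℝ} (h : y ≤ x) : (x - y) ^ 3 ≤ 4 * (x ^ 3 - y ^ 3) := by
  nlinarith [mul_nonneg (sub_nonneg.2 h) (sq_nonneg (x + y))]

theorem cube_dec {x y e : ℝ} (he : 0 ≤ e) (h : x - e ≤ y) :
    x ^ 3 - y ^ 3 ≤ 2 * e * (x ^ 2 + y ^ 2) := by
  rcases le_total x y with h' | h'
  · have h3 := cube_sub h'
    have h4 : 0 ≤ (y - x) ^ 3 := pow_nonneg (sub_nonneg.2 h') 3
    have : 0 ≤ 2 * e * (x ^ 2 + y ^ 2) := by positivity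
    linarith
  · have e1 : x ^ 3 - y ^ 3 = (x - y) * (x ^ 2 + x * y + y ^ 2) := by ring
    have e2 : x ^ 2 + x * y + y ^ 2 ≤ 2 * (x ^ 2 + y ^ 2) := by nlinarith [sq_nonneg (x - y)]
    have e3 : 0 ≤ x ^ 2 + x * y + y ^ 2 := by nlinarith [sq_nonneg (x + y)]
    rw [e1]
    calc (x - y) * (x ^ 2 + x * y + y ^ 2) ≤ e * (x ^ 2 + x * y + y ^ 2) :=
          mul_le_mul_of_nonneg_right (by linarith) e3
      _ ≤ e * (2 * (x ^ 2 + y ^ 2)) := mul_le_mul_of_nonneg_left e2 he
      _ = _ := by ring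

/-- the potential: cube of `f - q` plus a majorant of its decrements -/
def pot (f q : ℕ → ℝ) (k : ℕ) : ℝ := (f k - q k) ^ 3 +
  ∑ i ∈ range k, 2 * (q (i + 1) - q i) * ((f i - q i) ^ 2 + (f (i + 1) - q (i + 1)) ^ 2)

theorem pot_sub {j k : ℕ} (hjk : j ≤ k) (hq : ∀ i < k, q i ≤ q (i + 1)) :
    (f k - q k) ^ 3 - (f j - q j) ^ 3 ≤ pot f q k - pot f q j := by
  have : ∑ i ∈ range j, 2 * (q (i + 1) - q i) * ((f i - q i) ^ 2 + (f (i + 1) - q (i + 1)) ^ 2) ≤
      ∑ i ∈ range k, 2 * (q (i + 1) - q i) * ((f i - q i) ^ 2 + (f (i + 1) - q (i + 1)) ^ 2) :=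
    sum_le_sum_of_subset_of_nonneg (range_mono hjk) fun i hi _ =>
      mul_nonneg (by linarith [hq i (mem_range.1 hi)]) (by positivity)
  simp only [pot]; linarith

theorem pot_succ {k : ℕ} (hf : f k ≤ f (k + 1)) (hq : q k ≤ q (k + 1)) :
    pot f q k ≤ pot f q (k + 1) := by
  have := cube_dec (x := f k - q k) (y := f (k + 1) - q (k + 1)) (sub_nonneg.2 hq) (by linarith)
  simp only [pot, sum_range_succ]; linarith

/-- **the defect is paid by `∑ dq (f - q)²`** -/
theorem base_le {N : ℕ} (hf : ∀ k < N, f k ≤ f (k + 1)) (hq : ∀ k < N, q k ≤ q (k + 1))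
    (hc : ∀ k < N, 3 * (q (k + 1) - q k) ≤ c k) :
    ∑ i ∈ range N, c i * df f c (i + 1) ^ 2 ≤ 14 * (pot f q N - pot f q 0) := by
  have key : ∀ k ≤ N, ∑ i ∈ range k, c i * df f c (i + 1) ^ 2 ≤ 14 * (pot f q k - pot f q 0) := by
    intro k
    induction k using Nat.strong_induction_on with
    | _ k ih =>
      intro hk
      obtain ⟨j, hj, e⟩ := exists_anchor (f := f) (c := c) k
      have c0 : ∀ i < N, 0 ≤ c i := fun i hi => by linarith [hc i hi, hq i hi]
      rcases hj.eq_or_lt with rfl | hlt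
      · cases j with
        | zero => simp
        | succ j =>
          have z : df f c (j + 1) = 0 := by rw [df, e]; simp
          rw [sum_range_succ, z]
          have := ih j j.lt_succ_self (by omega)
          have := pot_succ (hf j (by omega)) (hq j (by omega))
          linarith
      · have dj : df f c j = 0 := by
          have h1 := lm_sub_le (f := f) (c := c) hj
          have h2 := df_nonneg (f := f) (c := c) j
          simp only [df] at h2 ⊢
          linarith
        have w := win_le (f := f) (c := c) hj (fun i _ y => hf i (by omega))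
          fun i _ y => c0 i (by omega)
        rw [dj, zero_add] at w
        have s1 : ∑ i ∈ Ico j k, c i ≤ f k - f j := by linarith [lm_le (f := f) (c := c) k]
        have s2 : 3 * (q k - q j) ≤ ∑ i ∈ Ico j k, c i := by
          rw [← sum_Ico_sub q hj, mul_sum]
          exact sum_le_sum fun i hi => hc i (by have := mem_Ico.1 hi; omega)
        have s0 : 0 ≤ ∑ i ∈ Ico j k, c i :=
          sum_nonneg fun i hi => c0 i (by have := mem_Ico.1 hi; omega)
        have s3 := cube_sub (x := f k - q k) (y := f j - q j) (by linarith)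
        have s4 := pot_sub (f := f) hj (fun i hi => hq i (by omega) : ∀ i < k, q i ≤ q (i + 1))
        have s5 : (f k - f j) ^ 3 ≤ (3 / 2 * (f k - q k - (f j - q j))) ^ 3 :=
          pow_le_pow_left₀ (by linarith) (by linarith) 3
        have s6 : 0 ≤ (f k - q k - (f j - q j)) ^ 3 := pow_nonneg (by linarith) 3
        rw [← sum_range_add_sum_Ico _ hj]
        have := ih j hlt (by omega)
        rw [mul_pow] at s5
        linarith
  exact key N le_rfl

/-- weighted form: weights `ω`, `ω (k + 1) ≤ ρ c k`, `dq k ≤ A ω k, A ω (k + 1)` -/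
theorem base_w {N : ℕ} {ω : ℕ → ℝ} {ρ A : ℝ} (hρ : 0 ≤ ρ) (hf : ∀ k < N, f k ≤ f (k + 1))
    (hq : ∀ k < N, q k ≤ q (k + 1)) (hc : ∀ k < N, 3 * (q (k + 1) - q k) ≤ c k)
    (hω : ∀ k < N, ω (k + 1) ≤ ρ * c k) (hω0 : ∀ k ≤ N, 0 ≤ ω k) (hA : 0 ≤ A)
    (h1 : ∀ k < N, q (k + 1) - q k ≤ A * ω k) (h2 : ∀ k < N, q (k + 1) - q k ≤ A * ω (k + 1)) :
    ∑ i ∈ range (N + 1), ω i * df f c i ^ 2 ≤ 14 * ρ * ((f N - q N) ^ 3 - (f 0 - q 0) ^ 3 +
      4 * A * ∑ i ∈ range (N + 1), ω i * (f i - q i) ^ 2) := by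
  have b := base_le hf hq hc
  have l1 : ∑ i ∈ range (N + 1), ω i * df f c i ^ 2 ≤
      ρ * ∑ i ∈ range N, c i * df f c (i + 1) ^ 2 := by
    rw [sum_range_succ', df_zero, mul_sum]
    simp only [ne_eq, OfNat.ofNat_ne_zero, not_false_eq_true, zero_pow, mul_zero, add_zero]
    exact sum_le_sum fun i hi => by
      have := mul_le_mul_of_nonneg_right (hω i (mem_range.1 hi)) (sq_nonneg (df f c (i + 1)))
      linarith
  have l2 : ∑ i ∈ range N, 2 * (q (i + 1) - q i) *
      ((f i - q i) ^ 2 + (f (i + 1) - q (i + 1)) ^ 2) ≤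
      2 * A * ∑ i ∈ range N, ω i * (f i - q i) ^ 2 +
      2 * A * ∑ i ∈ range N, ω (i + 1) * (f (i + 1) - q (i + 1)) ^ 2 := by
    rw [mul_sum, mul_sum, ← sum_add_distrib]
    refine sum_le_sum fun i hi => ?_
    have a1 := mul_le_mul_of_nonneg_right (h1 i (mem_range.1 hi)) (sq_nonneg (f i - q i))
    have a2 := mul_le_mul_of_nonneg_right (h2 i (mem_range.1 hi))
      (sq_nonneg (f (i + 1) - q (i + 1)))
    linarith
  have l3 : ∑ i ∈ range N, ω i * (f i - q i) ^ 2 ≤ ∑ i ∈ range (N + 1), ω i * (f i - q i) ^ 2 := by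
    rw [sum_range_succ]
    have := mul_nonneg (hω0 N le_rfl) (sq_nonneg (f N - q N))
    linarith
  have l4 : ∑ i ∈ range N, ω (i + 1) * (f (i + 1) - q (i + 1)) ^ 2 ≤
      ∑ i ∈ range (N + 1), ω i * (f i - q i) ^ 2 := by
    rw [sum_range_succ' (fun i => ω i * (f i - q i) ^ 2)]
    have := mul_nonneg (hω0 0 (Nat.zero_le N)) (sq_nonneg (f 0 - q 0))
    linarith
  have l5 := mul_le_mul_of_nonneg_left l3 (by positivity : 0 ≤ 2 * A)
  have l6 := mul_le_mul_of_nonneg_left l4 (by positivity : 0 ≤ 2 * A)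
  have l7 : pot f q N - pot f q 0 ≤ (f N - q N) ^ 3 - (f 0 - q 0) ^ 3 +
      4 * A * ∑ i ∈ range (N + 1), ω i * (f i - q i) ^ 2 := by
    simp only [pot, range_zero, sum_empty]
    linarith
  calc _ ≤ ρ * ∑ i ∈ range N, c i * df f c (i + 1) ^ 2 := l1
    _ ≤ ρ * (14 * ((f N - q N) ^ 3 - (f 0 - q 0) ^ 3 +
      4 * A * ∑ i ∈ range (N + 1), ω i * (f i - q i) ^ 2)) :=
        mul_le_mul_of_nonneg_left (by linarith) hρ
    _ = _ := by ring


end Crest.Agent.T156.Sr25

end
end

-- ▼ part T156/Env_96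

/-!
# Row 156 (helper96): the cone envelope of a monotone profile

`ev f c a b k` is the smallest `e ≥ 0` with `|f i - f k| ≤ e + c |i - k|` on `[a, b]`.
-/

set_option autoImplicit false

noncomputable section

namespace Crest.Agent.T156.Env96

open Finset Crest.Agent.T156.Sr25

/-- the cone envelope -/
def ev (f : ℕ → ℝ) (c : ℝ) (a b k : ℕ) : ℝ :=
  (Icc a b).fold max 0 fun i => |f i - f k| - c * |(i : ℝ) - k|

variable {f q : ℕ → ℝ} {c g D : ℝ} {a b k : ℕ}

theorem ev_nonneg : 0 ≤ ev f c a b k := (le_fold_max _).2 (Or.inl le_rfl)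

/-- **the cone property** -/
theorem cone {i : ℕ} (h1 : a ≤ i) (h2 : i ≤ b) : |f i - f k| ≤ ev f c a b k + c * |(i : ℝ) - k| := by
  have : |f i - f k| - c * |(i : ℝ) - k| ≤ ev f c a b k :=
    (le_fold_max _).2 (Or.inr ⟨i, mem_Icc.2 ⟨h1, h2⟩, le_rfl⟩)
  linarith

theorem ev_le {B : ℝ} (B0 : 0 ≤ B)
    (h : ∀ i, a ≤ i → i ≤ b → |f i - f k| ≤ B + c * |(i : ℝ) - k|) : ev f c a b k ≤ B :=
  (fold_max_le _).2 ⟨B0, fun i hi => by linarith [h i (mem_Icc.1 hi).1 (mem_Icc.1 hi).2]⟩

theorem ev_anti {c' : ℝ} (h : c ≤ c') : ev f c' a b k ≤ ev f c a b k :=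
  ev_le ev_nonneg fun i h1 h2 => (cone h1 h2).trans
    (by linarith [mul_le_mul_of_nonneg_right h (abs_nonneg ((i : ℝ) - k))])


theorem tele (h : ∀ k, a ≤ k → k < b → 0 ≤ q (k + 1) - q k ∧ q (k + 1) - q k ≤ g) {i j : ℕ}
    (h1 : a ≤ i) (hij : i ≤ j) (h2 : j ≤ b) : 0 ≤ q j - q i ∧ q j - q i ≤ g * ((j : ℝ) - i) := by
  induction j, hij using Nat.le_induction with
  | base => simp
  | succ j h' ih =>
    have := ih (by omega)
    have := h j (by omega) (by omega)
    push_cast
    constructor <;> nlinarith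

theorem abs_tele (h : ∀ k, a ≤ k → k < b → 0 ≤ q (k + 1) - q k ∧ q (k + 1) - q k ≤ g) {i j : ℕ}
    (h1 : a ≤ i) (h2 : i ≤ b) (h3 : a ≤ j) (h4 : j ≤ b) : |q i - q j| ≤ g * |(i : ℝ) - j| := by
  rcases le_total i j with l | l
  · have := tele h h1 l h4
    have l' : (i : ℝ) ≤ j := by exact_mod_cast l
    rw [abs_sub_comm, abs_of_nonneg this.1, abs_sub_comm, abs_of_nonneg (by linarith)]
    exact this.2
  · have := tele h h3 l h2
    have l' : (j : ℝ) ≤ i := by exact_mod_cast l
    rw [abs_of_nonneg this.1, abs_of_nonneg (by linarith)]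
    exact this.2

/-- from a sup location -/
theorem ev_le_sup (hq : ∀ k, a ≤ k → k < b → 0 ≤ q (k + 1) - q k ∧ q (k + 1) - q k ≤ g)
    (hc : g ≤ c) (hD : ∀ i, a ≤ i → i ≤ b → |f i - q i| ≤ D) (h1 : a ≤ k) (h2 : k ≤ b) :
    ev f c a b k ≤ 2 * D := by
  have D0 : 0 ≤ D := (abs_nonneg _).trans (hD k h1 h2)
  refine ev_le (by linarith) fun i i1 i2 => ?_
  have t1 := abs_le.1 (hD i i1 i2)
  have t2 := abs_le.1 (hD k h1 h2)
  have t3 := abs_le.1 (abs_tele hq i1 i2 h1 h2)
  have t4 := mul_le_mul_of_nonneg_right hc (abs_nonneg ((i : ℝ) - k))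
  exact abs_le.2 ⟨by linarith, by linarith⟩

theorem mono_le (hf : ∀ k, a ≤ k → k < b → f k ≤ f (k + 1)) {i j : ℕ} (h1 : a ≤ i) (hij : i ≤ j)
    (h2 : j ≤ b) : f i ≤ f j := by
  induction j, hij using Nat.le_induction with
  | base => exact le_rfl
  | succ j h' ih => exact (ih (by omega)).trans (hf j (by omega) (by omega))


/-- shifted and mirrored sequences -/
def sh (f : ℕ → ℝ) (a : ℕ) (i : ℕ) : ℝ := f (a + i)
def mi (f : ℕ → ℝ) (b : ℕ) (i : ℕ) : ℝ := -f (b - i)

theorem le_df {F : ℕ → ℝ} {i j : ℕ} (h : i ≤ j) :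
    F j - F i - c * ((j : ℝ) - i) ≤ df F (fun _ => c) j := by
  have t1 := lm_sub_le (f := F) (c := fun _ => c) h
  have t2 := lm_le (f := F) (c := fun _ => c) i
  rw [sum_const, Nat.card_Ico, nsmul_eq_mul, Nat.cast_sub h] at t1
  simp only [df]
  linarith

theorem ev_le_df (hf : ∀ k, a ≤ k → k < b → f k ≤ f (k + 1)) (h1 : a ≤ k) (h2 : k ≤ b) :
    ev f c a b k ≤ df (sh f a) (fun _ => c) (k - a) + df (mi f b) (fun _ => c) (b - k) := by
  have d1 := df_nonneg (f := sh f a) (c := fun _ => c) (k - a)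
  have d2 := df_nonneg (f := mi f b) (c := fun _ => c) (b - k)
  refine ev_le (by linarith) fun i i1 i2 => ?_
  rcases le_total i k with l | l
  · have t := le_df (c := c) (F := sh f a) (show i - a ≤ k - a by omega)
    have l' : (i : ℝ) ≤ k := by exact_mod_cast l
    simp only [sh, Nat.add_sub_cancel' h1, Nat.add_sub_cancel' i1, Nat.cast_sub h1,
      Nat.cast_sub i1] at t
    rw [abs_sub_comm, abs_of_nonneg (by linarith [mono_le hf i1 l h2]), abs_sub_comm,
      abs_of_nonneg (by linarith)]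
    have e : ((k : ℝ) - a - (i - a)) = k - i := by ring
    rw [e] at t
    linarith
  · have t := le_df (c := c) (F := mi f b) (show b - i ≤ b - k by omega)
    have l' : (k : ℝ) ≤ i := by exact_mod_cast l
    simp only [mi, Nat.sub_sub_self h2, Nat.sub_sub_self i2, Nat.cast_sub h2, Nat.cast_sub i2] at t
    rw [abs_of_nonneg (by linarith [mono_le hf h1 l i2]), abs_of_nonneg (by linarith)]
    have e : ((b : ℝ) - k - (b - i)) = i - k := by ring
    rw [e] at t
    linarith

theorem one_side {F Q : ℕ → ℝ} {N : ℕ} (c0 : 0 < c) (g0 : 0 ≤ g) (hc : 3 * g ≤ c)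
    (hF : ∀ k < N, F k ≤ F (k + 1))
    (hQ : ∀ k < N, 0 ≤ Q (k + 1) - Q k ∧ Q (k + 1) - Q k ≤ g) (h0 : |F 0 - Q 0| ≤ D)
    (hN : |F N - Q N| ≤ D) : ∑ i ∈ range (N + 1), df F (fun _ => c) i ^ 2 ≤
      14 / c * (2 * D ^ 3 + 4 * g * ∑ i ∈ range (N + 1), (F i - Q i) ^ 2) := by
  have t := base_w (f := F) (q := Q) (c := fun _ => c) (N := N) (ω := fun _ => 1) (ρ := 1 / c)
    (A := g) (by positivity) hF (fun k hk => by linarith [(hQ k hk).1])
    (fun k hk => by linarith [(hQ k hk).2]) (fun k _ => by rw [one_div, inv_mul_cancel₀ c0.ne'])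
    (fun _ _ => zero_le_one) g0 (fun k hk => by linarith [(hQ k hk).2])
    (fun k hk => by linarith [(hQ k hk).2])
  simp only [one_mul] at t
  have D0 : 0 ≤ D := (abs_nonneg _).trans h0
  have t1 : (F N - Q N) ^ 3 ≤ D ^ 3 :=
    (le_abs_self _).trans (by rw [abs_pow]; exact pow_le_pow_left₀ (abs_nonneg _) hN 3)
  have t2 : -(F 0 - Q 0) ^ 3 ≤ D ^ 3 :=
    (neg_le_abs _).trans (by rw [abs_pow]; exact pow_le_pow_left₀ (abs_nonneg _) h0 3)
  refine t.trans ?_
  rw [mul_one_div]
  exact mul_le_mul_of_nonneg_left (by linarith) (by positivity)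

theorem sum_sh (hab : a ≤ b) (F : ℕ → ℝ) :
    ∑ k ∈ Icc a b, F k = ∑ i ∈ range (b - a + 1), F (a + i) := by
  rw [← Ico_add_one_right_eq_Icc, sum_Ico_eq_sum_range, show b + 1 - a = b - a + 1 by omega]

theorem sum_mi (hab : a ≤ b) (F : ℕ → ℝ) :
    ∑ k ∈ Icc a b, F k = ∑ i ∈ range (b - a + 1), F (b - i) := by
  rw [sum_sh hab, ← sum_range_reflect]
  exact sum_congr rfl fun i hi => by
    have := mem_range.1 hi
    congr 1; omega

/-- **the envelope is paid by the energy, with the gain `g / c`** -/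
theorem sum_sq (hab : a ≤ b) (c0 : 0 < c) (g0 : 0 ≤ g) (hc : 3 * g ≤ c)
    (hf : ∀ k, a ≤ k → k < b → f k ≤ f (k + 1))
    (hq : ∀ k, a ≤ k → k < b → 0 ≤ q (k + 1) - q k ∧ q (k + 1) - q k ≤ g)
    (ha : |f a - q a| ≤ D) (hb : |f b - q b| ≤ D) :
    ∑ k ∈ Icc a b, ev f c a b k ^ 2 ≤
      56 / c * (2 * D ^ 3 + 4 * g * ∑ k ∈ Icc a b, (f k - q k) ^ 2) := by
  have e : a + (b - a) = b := by omega
  have s1 := one_side (F := sh f a) (Q := sh q a) (N := b - a) (D := D) c0 g0 hc
    (fun k hk => hf (a + k) (by omega) (by omega)) (fun k hk => hq (a + k) (by omega) (by omega))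
    (by simpa [sh] using ha) (by simpa [sh, e] using hb)
  have s2 := one_side (F := mi f b) (Q := mi q b) (N := b - a) (D := D) c0 g0 hc
    (fun k hk => by
      have := hf (b - (k + 1)) (by omega) (by omega)
      rw [show b - (k + 1) + 1 = b - k by omega] at this
      simp only [mi]; linarith)
    (fun k hk => by
      have := hq (b - (k + 1)) (by omega) (by omega)
      rw [show b - (k + 1) + 1 = b - k by omega] at this
      simp only [mi]; constructor <;> linarith [this.1, this.2])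
    (by simp only [mi, Nat.sub_zero]; rw [← abs_neg]; convert hb using 2; ring)
    (by simp only [mi, Nat.sub_sub_self hab]; rw [← abs_neg]; convert ha using 2; ring)
  have e1 : ∑ i ∈ range (b - a + 1), (sh f a i - sh q a i) ^ 2 = ∑ k ∈ Icc a b, (f k - q k) ^ 2 :=
    (sum_sh hab fun k => (f k - q k) ^ 2).symm
  have e2 : ∑ i ∈ range (b - a + 1), (mi f b i - mi q b i) ^ 2 = ∑ k ∈ Icc a b, (f k - q k) ^ 2 := by
    rw [sum_mi hab fun k => (f k - q k) ^ 2]
    exact sum_congr rfl fun i _ => by simp only [mi]; ring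
  have e3 : ∑ k ∈ Icc a b, df (sh f a) (fun _ => c) (k - a) ^ 2 =
      ∑ i ∈ range (b - a + 1), df (sh f a) (fun _ => c) i ^ 2 := by
    rw [sum_sh hab]; exact sum_congr rfl fun i _ => by rw [Nat.add_sub_cancel_left]
  have e4 : ∑ k ∈ Icc a b, df (mi f b) (fun _ => c) (b - k) ^ 2 =
      ∑ i ∈ range (b - a + 1), df (mi f b) (fun _ => c) i ^ 2 := by
    rw [sum_mi hab]
    exact sum_congr rfl fun i hi => by
      have := mem_range.1 hi
      rw [Nat.sub_sub_self (by omega)]
  rw [e1] at s1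
  rw [e2] at s2
  calc _ ≤ ∑ k ∈ Icc a b, (2 * df (sh f a) (fun _ => c) (k - a) ^ 2 +
          2 * df (mi f b) (fun _ => c) (b - k) ^ 2) := sum_le_sum fun k hk => by
        have t := ev_le_df (c := c) hf (mem_Icc.1 hk).1 (mem_Icc.1 hk).2
        have t' := pow_le_pow_left₀ ev_nonneg t 2
        nlinarith [sq_nonneg (df (sh f a) (fun _ => c) (k - a) - df (mi f b) (fun _ => c) (b - k))]
    _ ≤ _ := by
        rw [sum_add_distrib, ← mul_sum, ← mul_sum, e3, e4, show 56 / c = 4 * (14 / c) by ring]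
        linarith




/-- the one-sided defects are below the envelope -/
theorem df_sh_le (h1 : a ≤ k) (h2 : k ≤ b) : df (sh f a) (fun _ => c) (k - a) ≤ ev f c a b k := by
  refine df_le fun j hj => ?_
  have t := cone (f := f) (c := c) (k := k) (a := a) (b := b) (i := a + j) (by omega) (by omega)
  have l : ((a + j : ℕ) : ℝ) ≤ k := by exact_mod_cast (show a + j ≤ k by omega)
  rw [abs_sub_comm ((a + j : ℕ) : ℝ), abs_of_nonneg (sub_nonneg.2 l)] at t
  rw [sum_const, Nat.card_Ico, nsmul_eq_mul, Nat.cast_sub hj, Nat.cast_sub h1]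
  simp only [sh, Nat.add_sub_cancel' h1]
  push_cast at t
  nlinarith [neg_abs_le (f (a + j) - f k)]

theorem df_mi_le (h1 : a ≤ k) (h2 : k ≤ b) : df (mi f b) (fun _ => c) (b - k) ≤ ev f c a b k := by
  refine df_le fun j hj => ?_
  have t := cone (f := f) (c := c) (k := k) (a := a) (b := b) (i := b - j) (by omega) (by omega)
  have jb : j ≤ b := by omega
  have l : (k : ℝ) ≤ ((b - j : ℕ) : ℝ) := by exact_mod_cast (show k ≤ b - j by omega)
  rw [abs_of_nonneg (sub_nonneg.2 l), Nat.cast_sub jb] at t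
  rw [sum_const, Nat.card_Ico, nsmul_eq_mul, Nat.cast_sub hj, Nat.cast_sub h2]
  simp only [mi, Nat.sub_sub_self h2]
  nlinarith [le_abs_self (f (b - j) - f k)]

theorem inj {s t : Finset ℕ} {F : ℕ → ℝ} (φ : ℕ → ℕ) (G : ℕ → ℝ) (h1 : ∀ k ∈ s, φ k ∈ t)
    (h2 : ∀ k ∈ s, ∀ k' ∈ s, φ k = φ k' → k = k') (h3 : ∀ k ∈ s, G k = F (φ k + 1)) (c0 : 0 ≤ c) :
    ∑ k ∈ s, c * G k ^ 2 ≤ ∑ i ∈ t, c * F (i + 1) ^ 2 := by
  rw [sum_congr rfl fun k hk => by rw [h3 k hk],
    ← sum_image (g := φ) (f := fun i => c * F (i + 1) ^ 2) fun k hk k' hk' => h2 k hk k' hk']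
  exact sum_le_sum_of_subset_of_nonneg (image_subset_iff.2 h1) fun _ _ _ => by positivity

/-- **local cubic bound** on a window `[u, v]` (shells of the plateau) -/
theorem win (c0 : 0 ≤ c) (hf : ∀ k, a ≤ k → k < b → f k ≤ f (k + 1)) {u v : ℕ} (h0 : a ≤ u)
    (huv : u ≤ v) (h3 : v ≤ b) : c * ∑ k ∈ Ioo u v, ev f c a b k ^ 2 ≤
      2 * ((ev f c a b u + (f v - f u)) ^ 3 + (ev f c a b v + (f v - f u)) ^ 3) := by
  have m := mono_le hf h0 huv h3
  have w1 := win_le (f := sh f a) (c := fun _ => c) (a := u - a) (b := v - a) (by omega)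
    (fun k x y => hf (a + k) (by omega) (by omega)) fun _ _ _ => c0
  have w2 := win_le (f := mi f b) (c := fun _ => c) (a := b - v) (b := b - u) (by omega)
    (fun k x y => by
      have := hf (b - (k + 1)) (by omega) (by omega)
      rw [show b - (k + 1) + 1 = b - k by omega] at this
      simp only [mi]; linarith) fun _ _ _ => c0
  have z1 : sh f a (v - a) - sh f a (u - a) = f v - f u := by
    simp only [sh, Nat.add_sub_cancel' h0, Nat.add_sub_cancel' (h0.trans huv)]
  have z2 : mi f b (b - u) - mi f b (b - v) = f v - f u := by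
    simp only [mi, Nat.sub_sub_self h3, Nat.sub_sub_self (huv.trans h3)]; ring
  rw [z1] at w1
  rw [z2] at w2
  have d1 := df_nonneg (f := sh f a) (c := fun _ => c) (u - a)
  have d2 := df_nonneg (f := mi f b) (c := fun _ => c) (b - v)
  have b1 := w1.trans (pow_le_pow_left₀ (by linarith) (add_le_add_left
    (df_sh_le (f := f) (c := c) h0 (huv.trans h3)) _) 3)
  have b2 := w2.trans (pow_le_pow_left₀ (by linarith) (add_le_add_left
    (df_mi_le (f := f) (c := c) (h0.trans huv) h3) _) 3)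
  have s1 : ∑ k ∈ Ioo u v, c * df (sh f a) (fun _ => c) (k - a) ^ 2 ≤
      ∑ i ∈ Ico (u - a) (v - a), c * df (sh f a) (fun _ => c) (i + 1) ^ 2 := by
    exact inj (fun k => k - a - 1) (fun k => df (sh f a) (fun _ => c) (k - a))
      (fun k hk => by have := mem_Ioo.1 hk; exact mem_Ico.2 ⟨by omega, by omega⟩)
      (fun k hk k' hk' e => by
        have := mem_Ioo.1 hk; have := mem_Ioo.1 hk'; omega)
      (fun k hk => by have := mem_Ioo.1 hk; congr 1; omega) c0
  have s2 : ∑ k ∈ Ioo u v, c * df (mi f b) (fun _ => c) (b - k) ^ 2 ≤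
      ∑ i ∈ Ico (b - v) (b - u), c * df (mi f b) (fun _ => c) (i + 1) ^ 2 := by
    exact inj (fun k => b - k - 1) (fun k => df (mi f b) (fun _ => c) (b - k))
      (fun k hk => by have := mem_Ioo.1 hk; exact mem_Ico.2 ⟨by omega, by omega⟩)
      (fun k hk k' hk' e => by
        have := mem_Ioo.1 hk; have := mem_Ioo.1 hk'; omega)
      (fun k hk => by have := mem_Ioo.1 hk; congr 1; omega) c0
  calc _ = ∑ k ∈ Ioo u v, c * ev f c a b k ^ 2 := mul_sum _ _ _
    _ ≤ ∑ k ∈ Ioo u v, (2 * (c * df (sh f a) (fun _ => c) (k - a) ^ 2) +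
          2 * (c * df (mi f b) (fun _ => c) (b - k) ^ 2)) := sum_le_sum fun k hk => by
        have hk' := mem_Ioo.1 hk
        have t := ev_le_df (c := c) hf (show a ≤ k by omega) (show k ≤ b by omega)
        have t' := pow_le_pow_left₀ ev_nonneg t 2
        have t2 : ev f c a b k ^ 2 ≤ 2 * df (sh f a) (fun _ => c) (k - a) ^ 2 +
            2 * df (mi f b) (fun _ => c) (b - k) ^ 2 := by
          nlinarith [sq_nonneg (df (sh f a) (fun _ => c) (k - a) - df (mi f b) (fun _ => c) (b - k))]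
        nlinarith [mul_le_mul_of_nonneg_left t2 c0]
    _ ≤ _ := by
        rw [sum_add_distrib, ← mul_sum _ _ 2, ← mul_sum _ _ 2]
        linarith

end Crest.Agent.T156.Env96

end
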