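import Crest.Agent.T156.QCube_33
import Crest.Agent.T156.DnB_41
import Crest.Agent.T156.AltDef_88

/-!
# Row 156: dictionary from the class `Alt.Pm` to the cascade and to block (Q) (helper33)
-/

set_option autoImplicit false
set_option linter.unusedSectionVars false

noncomputable section

namespace Crest.Agent.T156.Alt.D33

open MeasureTheory Real Set Filter Topology
open Crest.Agent.T157.E Crest.Agent.T157.Casc Crest.Agent.T157.SL
open Crest.Agent.T157.G1 (ov fl FL)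
open Crest.Agent.T156.Cas Crest.Agent.T156.Cas.Sy41 Crest.Agent.T156.Cas.Q33

variable {p : Pm} {τ y : ℝ} {m : ℕ} {a : ℝ}

/-! ### unconditional facts -/


theorem zz_top {k : ℕ} (hk : p.J + p.I ≤ k) : p.zz k = 1 := by
  rw [Pm.zz, if_neg (by omega), if_neg (by omega)]


theorem zz_N {k : ℕ} (hk : p.N ≤ k) : p.zz k = 1 := zz_top (by unfold Pm.N at hk; omega)


theorem H_low {k : ℕ} (hk : k ≤ p.j0) : p.H τ y k = 0 := if_pos hk


theorem len_up : (p.up τ y m).length = p.N := by simp [Pm.up, FL, Pm.mk']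

theorem len_L : (p.L τ y m a).length = p.N + 1 := by simp [Pm.L, len_up]

theorem up_get {k : ℕ} (hk : k < (p.up τ y m).length) :
    (p.up τ y m)[k] = fl m 1 (p.zz (max k p.j0), p.H τ y (k + 1) - p.H τ y k) := by
  simp [Pm.up, FL, Pm.mk']


theorem L_succ {k : ℕ} (hk : k + 1 < (p.L τ y m a).length) :
    (p.L τ y m a)[k + 1] = fl m 1 (p.zz (max k p.j0), p.H τ y (k + 1) - p.H τ y k) :=
  up_get (by simpa [Pm.L] using hk)


theorem ex_up (k : ℕ) : ex (p.up τ y m) k = p.zz (max k p.j0) := by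
  rcases lt_or_ge k p.N with hk | hk
  · have h : k < (p.up τ y m).length := by rwa [len_up]
    rw [T157.Casc.ex, List.getElem?_eq_getElem h, up_get h]
  · rw [T157.Casc.ex, List.getElem?_eq_none (by rwa [len_up]), zz_N (hk.trans (le_max_left _ _))]

theorem ex_zero : ex (p.L τ y m a) 0 = a := rfl

/-- **the tilt of the cascade level `k + 1`** (all `k`) -/
theorem ex_succ (k : ℕ) : ex (p.L τ y m a) (k + 1) = p.zz (max k p.j0) := ex_up k

theorem ex_succ' {k : ℕ} (hk : p.j0 ≤ k) : ex (p.L τ y m a) (k + 1) = p.zz k := by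
  rw [ex_succ, max_eq_left hk]

theorem dm_zero : dm (p.L τ y m a) 0 0 = a := sub_zero a

theorem dz_zero : p.dz τ y m a 0 = p.zz p.j0 - a := by
  rw [Pm.dz, dm, ex_succ, max_eq_right (Nat.zero_le _)]; rfl

theorem dz_succ (k : ℕ) :
    p.dz τ y m a (k + 1) = p.zz (max (k + 1) p.j0) - p.zz (max k p.j0) := by
  rw [Pm.dz, dm, exP, ex_succ, ex_succ]

theorem dz_low {k : ℕ} (h1 : 1 ≤ k) (h2 : k ≤ p.j0) : p.dz τ y m a k = 0 := by
  obtain ⟨k, rfl⟩ : ∃ j, k = j + 1 := ⟨k - 1, by omega⟩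
  rw [dz_succ, max_eq_right h2, max_eq_right (by omega), sub_self]

theorem dz_up {k : ℕ} (h : p.j0 < k) : p.dz τ y m a k = p.zz k - p.zz (k - 1) := by
  obtain ⟨k, rfl⟩ : ∃ j, k = j + 1 := ⟨k - 1, by omega⟩
  rw [dz_succ, max_eq_left h.le, max_eq_left (by omega), Nat.add_sub_cancel]




/-- telescoping of the label weights -/
theorem sum_dz {i j : ℕ} (h : p.j0 ≤ i) (hij : i ≤ j) :
    ∑ k ∈ Finset.Ioc i j, p.dz τ y m a k = p.zz j - p.zz i := by
  induction j, hij using Nat.le_induction with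
  | base => simp
  | succ j hj ih =>
    rw [Finset.sum_Ioc_succ_top hj, ih, dz_up (by omega), Nat.add_sub_cancel]; ring

theorem sum_dz_all : ∑ k ∈ Finset.range (p.N + 1), p.dz τ y m a k = 1 - a := by
  have := sum_dm (p.L τ y m a) 0 (p.N + 1)
  rw [Finset.sum_range_succ', dm_zero, ex_succ, zz_N (le_max_left _ _)] at this
  simp only [Pm.dz]
  linarith

/-- field variance per site of the cascade level -/
def dh (p : Pm) (τ y : ℝ) : ℕ → ℝ
  | 0 => 0
  | k + 1 => if k < p.N then p.H τ y (k + 1) - p.H τ y k else 0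

theorem dh_succ {k : ℕ} (hk : k < p.N) : dh p τ y (k + 1) = p.H τ y (k + 1) - p.H τ y k :=
  if_pos hk

theorem sum_dh {i j : ℕ} (hij : i ≤ j) (hj : j ≤ p.N) :
    ∑ k ∈ Finset.Ico i j, dh p τ y (k + 1) = p.H τ y j - p.H τ y i := by
  rw [← Finset.sum_Ico_sub (p.H τ y) hij]
  exact Finset.sum_congr rfl fun k hk => dh_succ (by have := (Finset.mem_Ico.1 hk).2; omega)

/-! ### overlaps -/

section ov
variable {l₀ : Lv (Cube m)} (h₀ : ∀ x x', l₀.cov x x' = ov x x')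
include h₀

theorem rh_eq (k : ℕ) :
    p.rh τ y m a k = rr (fun _ => 1) ((p.L τ y m a).drop (k + 1)) l₀ := by
  funext h
  rw [rr_eq, show l₀.cov = ov from funext fun x => funext (h₀ x)]; rfl

theorem rb_eq (k : ℕ) : p.rb τ y m a k = rho (fun _ => 1) (p.L τ y m a) l₀ 0 (k + 1) := by
  rw [rho_eq, show l₀.cov = ov from funext fun x => funext (h₀ x)]; rfl

end ov

theorem rb_node (hm : 0 < m) (k : ℕ) :
    p.rb τ y m a k = node (fun _ => 1) (p.L τ y m a) (k + 1) (p.rh τ y m a k) 0 := by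
  rw [rb_eq (sl_cov hm), rh_eq (sl_cov hm)]; rfl

theorem rb_mono (hm : 0 < m) : Monotone (p.rb τ y m a) := fun i j hij => by
  rw [rb_eq (sl_cov hm), rb_eq (sl_cov hm)]
  exact rho_mono Link33.wt1 _ _ _ (Nat.succ_le_succ hij)

theorem rb_nonneg (hm : 0 < m) (k : ℕ) : 0 ≤ p.rb τ y m a k := by
  rw [rb_eq (sl_cov hm)]; exact rho_nonneg _ _ _ _

theorem rb_le_one (hm : 0 < m) (k : ℕ) : p.rb τ y m a k ≤ 1 := by
  rw [rb_eq (sl_cov hm)]
  exact rho_le Link33.wt1 _ (fun x => by rw [sl_cov hm, Q33.ov_self hm]) _ _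

theorem rh_nonneg (hm : 0 < m) (k : ℕ) (h : Cube m → ℝ) : 0 ≤ p.rh τ y m a k h := by
  rw [rh_eq (sl_cov hm)]; exact rr_nonneg _ _ _

theorem rh_le_one (hm : 0 < m) (k : ℕ) (h : Cube m → ℝ) : p.rh τ y m a k h ≤ 1 := by
  rw [rh_eq (sl_cov hm)]
  exact rr_le Link33.wt1 _ (fun x => by rw [sl_cov hm, Q33.ov_self hm]) _

/-- second moments of the pair overlap against the path overlap -/
theorem E2_sq (hm : 0 < m) (S : Finset ℕ) (c q : ℕ → ℝ) :
    |∑ k ∈ S, c k * p.E2 τ y m a (fun r => (r - q k) ^ 2) k - ∑ k ∈ S, c k *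
      node (fun _ => 1) (p.L τ y m a) (k + 1) (fun z => (p.rh τ y m a k z - q k) ^ 2) 0| ≤
      ∑ k ∈ S, |c k| * tc (fun _ => 1) (p.L τ y m a) (sl m) 0 (k + 1) +
        2 * ∑ k ∈ S, |c k| * vv (fun _ => 1) (p.L τ y m a) (sl m) 0 (k + 1) := by
  have := pair_node Link33.wt1 (p.L τ y m a) (sl m) 0 (S.map ⟨Nat.succ, Nat.succ_injective⟩)
    (fun j => c (j - 1)) fun j => q (j - 1)
  simpa only [Finset.sum_map, Function.Embedding.coeFn_mk, Nat.succ_eq_add_one, Nat.add_sub_cancel,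
    sl_cov hm, ← rh_eq (sl_cov hm), Pm.E2] using this


/-! ### legal models -/

/-- what makes `p.L τ y m a` a legal cascade -/
structure Leg (p : Pm) (τ y : ℝ) (m : ℕ) (a : ℝ) : Prop where
  m0 : 0 < m
  a0 : 0 ≤ a
  az : a ≤ p.zz p.j0
  mono : Monotone p.zz
  b0 : 0 ≤ p.b τ y / p.β ^ 2
  H : ∀ k, p.j0 ≤ k → k < p.N → p.H τ y k ≤ p.H τ y (k + 1)
  j0 : p.j0 < p.J


namespace Leg

variable (G : Leg p τ y m a)
include G


theorem ex_mono : Monotone (ex (p.L τ y m a)) := monotone_nat_of_le_succ fun k => by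
  cases k with
  | zero => rw [ex_zero, ex_succ, max_eq_right (Nat.zero_le _)]; exact G.az
  | succ k => rw [ex_succ, ex_succ]; exact G.mono (max_le_max_right _ (Nat.le_succ k))

theorem monoL : Mono 0 (p.L τ y m a) := mono_of_ex G.a0 G.ex_mono


theorem dz_nonneg (k : ℕ) : 0 ≤ p.dz τ y m a k := dm_nonneg G.monoL _

theorem dH_nonneg {k : ℕ} (hk : k < p.N) : 0 ≤ p.H τ y (k + 1) - p.H τ y k := by
  rcases lt_or_ge k p.j0 with h | h
  · rw [H_low h.le, H_low h, sub_self]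
  · exact sub_nonneg.2 (G.H k h hk)

theorem dh_nonneg : ∀ k, 0 ≤ dh p τ y k
  | 0 => le_rfl
  | k + 1 => by
    rw [dh]
    split_ifs with h
    exacts [G.dH_nonneg h, le_rfl]

theorem H_mono {i j : ℕ} (hij : i ≤ j) (hj : j ≤ p.N) : p.H τ y i ≤ p.H τ y j := by
  rw [← sub_nonneg, ← sum_dh hij hj]
  exact Finset.sum_nonneg fun _ _ => G.dh_nonneg _

theorem H_nonneg {j : ℕ} (hj : j ≤ p.N) : 0 ≤ p.H τ y j :=
  (H_low (Nat.zero_le _)).ge.trans (G.H_mono (Nat.zero_le j) hj)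


theorem cov_succ {k : ℕ} (hk : k + 1 < (p.L τ y m a).length) (x x' : Cube m) :
    (p.L τ y m a)[k + 1].cov x x' = (p.H τ y (k + 1) - p.H τ y k) * m * ov x x' := by
  rw [L_succ, Link33.cov_fl m 1 _ x x' G.m0 (G.dH_nonneg (by rw [len_L] at hk; omega))]; ring

/-- **the model is a cube model** -/
theorem cm : Cm (p.L τ y m a) (dh p τ y) := by
  refine ⟨G.m0, G.monoL, fun k hk => ?_, G.dh_nonneg⟩
  cases k with
  | zero => rw [dh, zero_mul]; exact qc_wl G.m0 p.β G.b0 a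
  | succ k =>
    have h : k < p.N := by rw [len_L] at hk; omega
    exact ⟨0, 0, le_rfl, fun x x' => by rw [G.cov_succ hk, dh_succ h]; ring⟩


theorem sym : ∀ σ ∈ TS m, Sym (fun _ => 1) (p.L τ y m a) 0 σ := G.cm.sym

theorem dt : Dt (fun _ => 1) (p.L τ y m a) (sl m) (fun k => dh p τ y k * m) 1 :=
  G.cm.dt (sl_cov G.m0)


end Leg

/-! ### Q1 on a block of base nodes -/

/-- data of a block: window of nodes `[lo, hi)`, look-back `2 ^ D`, levels `[A, B)` with tilt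
`≥ x` and field increments `≥ μ v`; `top`, `rise` bound the mean overlap -/
structure Bk (p : Pm) (τ y : ℝ) (m : ℕ) (a x μ v : ℝ) (A B D lo hi : ℕ) (top rise : ℝ) : Prop
    extends Leg p τ y m a where
  BN : B ≤ p.N
  jA : p.j0 ≤ A
  x0 : 0 < x
  μ0 : 0 < μ
  v0 : 0 < v
  tilt : x ≤ p.zz A
  fld : ∀ k, A ≤ k → k < B → μ * v ≤ p.H τ y (k + 1) - p.H τ y k
  back : A + 2 ^ D ≤ lo
  le : lo < hi
  up : hi ≤ B
  top : p.rb τ y m a (hi - 1) ≤ top
  rise : p.rb τ y m a (hi - 1) - p.rb τ y m a (lo - 2 ^ D) ≤ rise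

namespace Bk

variable {x μ v top rise C : ℝ} {A B D lo hi : ℕ} (G : Bk p τ y m a x μ v A B D lo hi top rise)
include G

theorem h1 (k : ℕ) (h2 : A + 1 ≤ k) (_ : k < B + 1) : x ≤ ex (p.L τ y m a) k := by
  obtain ⟨k, rfl⟩ : ∃ j, k = j + 1 := ⟨k - 1, by omega⟩
  have := G.jA
  rw [ex_succ' (by omega)]
  exact G.tilt.trans (G.mono (by omega))

theorem h2 (k : ℕ) (h2 : A + 1 ≤ k) (h3 : k < B + 1) : μ * v ≤ dh p τ y k := by
  obtain ⟨k, rfl⟩ : ∃ j, k = j + 1 := ⟨k - 1, by omega⟩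
  have := G.BN
  rw [dh_succ (by omega)]
  exact G.fld k (by omega) (by omega)

theorem ht : rho (fun _ => 1) (p.L τ y m a) (sl m) 0 (hi + 1 - 1) ≤ top := by
  have := G.top
  have h := G.le
  rwa [rb_eq (sl_cov G.m0), show hi - 1 + 1 = hi + 1 - 1 by omega] at this

theorem hr : rho (fun _ => 1) (p.L τ y m a) (sl m) 0 (hi + 1 - 1) -
    rho (fun _ => 1) (p.L τ y m a) (sl m) 0 (lo + 1 - 2 ^ D) ≤ rise := by
  have := G.rise
  have h := G.le
  have h' := G.back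
  rwa [rb_eq (sl_cov G.m0), rb_eq (sl_cov G.m0), show hi - 1 + 1 = hi + 1 - 1 by omega,
    show lo - 2 ^ D + 1 = lo + 1 - 2 ^ D by omega] at this

theorem blk : Blk (fun _ => 1) (p.L τ y m a) (sl m) (fun k => dh p τ y k * m) 1 (x * (μ * v * m))
    (A + 1) (B + 1) :=
  G.toLeg.cm.blk (sl_cov G.m0) (by rw [len_L]; exact Nat.succ_le_succ G.BN) G.x0 G.μ0 G.v0 G.h1 G.h2

omit G in
theorem shift (F : ℕ → ℝ) (c : ℕ → ℝ) (lo hi : ℕ) : ∑ k ∈ Finset.Ico lo hi, c k * F (k + 1) =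
    ∑ j ∈ Finset.Ico (lo + 1) (hi + 1), c (j - 1) * F j :=
  Finset.sum_Ico_add' (fun j => c (j - 1) * F j) lo hi 1

omit G in
theorem shift_le {c : ℕ → ℝ} {lo hi : ℕ} {t : ℝ} (hc : ∀ k ∈ Finset.Ico lo hi, c k ≤ t) :
    ∀ j ∈ Finset.Ico (lo + 1) (hi + 1), c (j - 1) ≤ t := fun j hj =>
  hc _ (by rw [Finset.mem_Ico] at hj ⊢; omega)

/-- **(Q1)** -/
theorem q1 (hC : 0 ≤ C) {c : ℕ → ℝ} (hc : ∀ k ∈ Finset.Ico lo hi, c k ≤ C * v) :
    ∑ k ∈ Finset.Ico lo hi, c k * aa (fun _ => 1) (p.L τ y m a) (sl m) 0 (k + 1) ≤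
      C * qu m x μ v D (hi - lo) top rise := by
  have h3 := G.back
  have h4 := G.up
  rw [shift, show hi - lo = hi + 1 - (lo + 1) by omega]
  exact G.toLeg.cm.q1 (sl_cov G.m0) (by rw [len_L]; exact Nat.succ_le_succ G.BN) G.x0 G.μ0 G.v0
    G.h1 G.h2 (by omega) (Nat.succ_le_succ G.le.le) hC 0 (by omega) G.ht G.hr (shift_le hc)




end Bk

end Crest.Agent.T156.Alt.D33

end
private theorem rz_0b87dfdadb : type_of% @_root_.Crest.Agent.T156.Alt.D33.dh.eq_1 := @_root_.Crest.Agent.T156.Alt.D33.dh.eq_1 -- L118
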