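import Crest.Agent.T156.AltCl_88
import Crest.Agent.T156.QAlt_33
import Crest.Agent.T156.AltOne_23

/-!
# Row 156: static dictionary of the abstract models `Alt.Md` (helper67, after helper33, helper23)
-/

set_option autoImplicit false
set_option linter.unusedSectionVars false

noncomputable section

namespace Crest.Agent.T156.Alt.Md67

open MeasureTheory Real Set Filter Topology
open Crest.Agent.T157.E Crest.Agent.T157.Casc Crest.Agent.T157.SL
open Crest.Agent.T157.G1 (ov fl FL)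
open Crest.Agent.T156.Cas Crest.Agent.T156.Cas.Sy41 Crest.Agent.T156.Cas.Q33

variable {M : Md} {m : ℕ} {a x : ℝ}

/-! ### unconditional facts -/

theorem len_Mu : M.Mu.length = M.N := by simp [Md.Mu]

theorem len_Mx : (M.Mx a).length = M.N + 1 := by simp [Md.Mx, len_Mu]

theorem len_up : (M.up m).length = M.N := by simp [Md.up, len_Mu]

theorem len_L : (M.L m a).length = M.N + 1 := by simp [Md.L, len_Mx]


theorem up_get {k : ℕ} (hk : k < (M.up m).length) :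
    (M.up m)[k] = mxL m 1 (M.z k, M.d (k + 1) - M.d k, M.H (k + 1) - M.H k) := by
  simp [Md.up, Md.Mu]


theorem L_succ {k : ℕ} (hk : k + 1 < (M.L m a).length) :
    (M.L m a)[k + 1] = mxL m 1 (M.z k, M.d (k + 1) - M.d k, M.H (k + 1) - M.H k) :=
  up_get (by rw [len_up]; rw [len_L] at hk; omega)


theorem ex_zero : ex (M.L m a) 0 = a := rfl

theorem ex_lt {k : ℕ} (hk : k < M.N) : ex (M.L m a) (k + 1) = M.z k := by
  have h : k < (M.up m).length := by rwa [len_up]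
  change ex (M.up m) k = _
  rw [T157.Casc.ex, List.getElem?_eq_getElem h, up_get h]; rfl

theorem ex_ge {k : ℕ} (hk : M.N ≤ k) : ex (M.L m a) (k + 1) = 1 := by
  change ex (M.up m) k = _
  rw [T157.Casc.ex, List.getElem?_eq_none (by rwa [len_up])]

theorem dm_zero : dm (M.L m a) 0 0 = a := sub_zero a

theorem dm_succ (k : ℕ) : dm (M.L m a) 0 (k + 1) = M.dz m a k := rfl


theorem sum_dz_all : ∑ k ∈ Finset.range (M.N + 1), M.dz m a k = 1 - a := by
  have := sum_dm (M.L m a) 0 (M.N + 1)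
  rw [Finset.sum_range_succ', dm_zero, ex_ge le_rfl] at this
  simp only [Md.dz]
  linarith

/-- sums against the label weights -/
theorem sum_L (g : ℕ → ℝ) :
    ∑ j ∈ Finset.range ((M.Mx a).length + 1), dm (M.L m a) 0 j * g j =
      a * g 0 + ∑ k ∈ Finset.range (M.N + 1), M.dz m a k * g (k + 1) := by
  rw [len_Mx, Finset.sum_range_succ', dm_zero, add_comm]; rfl


/-- field variance per site of the cascade level -/
def dh (M : Md) : ℕ → ℝ
  | 0 => 0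
  | k + 1 => if k < M.N then M.H (k + 1) - M.H k else 0

theorem dh_succ {k : ℕ} (hk : k < M.N) : dh M (k + 1) = M.H (k + 1) - M.H k := if_pos hk


theorem dAcc_Mx {k : ℕ} (hk : k ≤ M.N) : dAcc (M.Mx a) (k + 1) = M.d k := by
  rw [dAcc, Md.Mx, List.take_succ_cons, List.map_cons, List.sum_cons, List.map_take, Md.Mu,
    List.map_ofFn]
  have := D23.sum_take_ofFn (fun k => M.d (k + 1) - M.d k) _ k hk
  rw [Finset.sum_range_sub] at this
  exact (congrArg (M.d 0 + ·) this).trans (by ring)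

theorem fAcc_Mx' {k : ℕ} (hk : k ≤ M.N) : fAcc (M.Mx a) (k + 1) = M.H k - M.H 0 := by
  rw [fAcc, Md.Mx, List.take_succ_cons, List.map_cons, List.sum_cons, List.map_take, Md.Mu,
    List.map_ofFn]
  have := D23.sum_take_ofFn (fun k => M.H (k + 1) - M.H k) _ k hk
  rw [Finset.sum_range_sub] at this
  exact (zero_add _).trans this

theorem oTau_zero : oTau m 1 (M.Mx a) 0 = 0 := by rw [oTau, OneP.dAcc_zero, mul_zero]

theorem oTau_succ {k : ℕ} (hk : k ≤ M.N) : oTau m 1 (M.Mx a) (k + 1) = M.d k * m / (m + 1) := by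
  rw [oTau, dAcc_Mx hk, bb_sq]; ring

/-- a reference on the profile nodes, read on the cascade nodes (`1` at the last node) -/
def qx (M : Md) (ρ : ℕ → ℝ) : ℕ → ℝ
  | 0 => 0
  | k + 1 => if k < M.N then ρ k else 1

theorem qx_succ {ρ : ℕ → ℝ} {k : ℕ} (hk : k < M.N) : qx M ρ (k + 1) = ρ k := if_pos hk

theorem qx_top {ρ : ℕ → ℝ} {k : ℕ} (hk : M.N ≤ k) : qx M ρ (k + 1) = 1 := if_neg (by omega)

/-! ### overlaps -/

section ov
variable {l₀ : Lv (Cube m)} (h₀ : ∀ x x', l₀.cov x x' = ov x x')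
include h₀

theorem rh_eq (k : ℕ) : M.rh m a k = rr (fun _ => 1) ((M.L m a).drop (k + 1)) l₀ := by
  funext h
  rw [rr_eq, show l₀.cov = ov from funext fun x => funext (h₀ x)]; rfl

theorem rb_eq (k : ℕ) : M.rb m a k = rho (fun _ => 1) (M.L m a) l₀ 0 (k + 1) := by
  rw [rho_eq, show l₀.cov = ov from funext fun x => funext (h₀ x)]; rfl

end ov

theorem rb_node (hm : 0 < m) (k : ℕ) :
    M.rb m a k = node (fun _ => 1) (M.L m a) (k + 1) (M.rh m a k) 0 := by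
  rw [rb_eq (sl_cov hm), rh_eq (sl_cov hm)]; rfl

theorem rb_mono (hm : 0 < m) : Monotone (M.rb m a) := fun i j hij => by
  rw [rb_eq (sl_cov hm), rb_eq (sl_cov hm)]
  exact rho_mono Link33.wt1 _ _ _ (Nat.succ_le_succ hij)

theorem rb_nonneg (hm : 0 < m) (k : ℕ) : 0 ≤ M.rb m a k := by
  rw [rb_eq (sl_cov hm)]; exact rho_nonneg _ _ _ _

theorem rb_le_one (hm : 0 < m) (k : ℕ) : M.rb m a k ≤ 1 := by
  rw [rb_eq (sl_cov hm)]
  exact rho_le Link33.wt1 _ (fun x => by rw [sl_cov hm, Q33.ov_self hm]) _ _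

theorem rh_nonneg (hm : 0 < m) (k : ℕ) (h : Cube m → ℝ) : 0 ≤ M.rh m a k h := by
  rw [rh_eq (sl_cov hm)]; exact rr_nonneg _ _ _

theorem rh_le_one (hm : 0 < m) (k : ℕ) (h : Cube m → ℝ) : M.rh m a k h ≤ 1 := by
  rw [rh_eq (sl_cov hm)]
  exact rr_le Link33.wt1 _ (fun x => by rw [sl_cov hm, Q33.ov_self hm]) _

/-- second moments of the pair overlap against the path overlap -/
theorem E2_sq (hm : 0 < m) (S : Finset ℕ) (c q : ℕ → ℝ) :
    |∑ k ∈ S, c k * M.E2 m a (fun r => (r - q k) ^ 2) k - ∑ k ∈ S, c k *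
      node (fun _ => 1) (M.L m a) (k + 1) (fun z => (M.rh m a k z - q k) ^ 2) 0| ≤
      ∑ k ∈ S, |c k| * tc (fun _ => 1) (M.L m a) (sl m) 0 (k + 1) +
        2 * ∑ k ∈ S, |c k| * vv (fun _ => 1) (M.L m a) (sl m) 0 (k + 1) := by
  have := pair_node Link33.wt1 (M.L m a) (sl m) 0 (S.map ⟨Nat.succ, Nat.succ_injective⟩)
    (fun j => c (j - 1)) fun j => q (j - 1)
  simpa only [Finset.sum_map, Function.Embedding.coeFn_mk, Nat.succ_eq_add_one, Nat.add_sub_cancel,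
    sl_cov hm, ← rh_eq (sl_cov hm), Md.E2] using this

theorem E2_mono {f g : ℝ → ℝ} (h : ∀ r, |r| ≤ 1 → f r ≤ g r) (k : ℕ) :
    M.E2 m a f k ≤ M.E2 m a g k :=
  T157.Casc.pi2_mono Link33.wt1 _ _ (fun x x' => h _ (abs_ov_le x x')) _

theorem E2_const (c : ℝ) (k : ℕ) : M.E2 m a (fun _ => c) k = c :=
  pi2_const Link33.wt1 _ _ _ _

theorem E2_add (f g : ℝ → ℝ) (k : ℕ) :
    M.E2 m a (fun r => f r + g r) k = M.E2 m a f k + M.E2 m a g k := pi2_add Link33.wt1 _ _ _ _ _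

theorem E2_sub (f g : ℝ → ℝ) (k : ℕ) :
    M.E2 m a (fun r => f r - g r) k = M.E2 m a f k - M.E2 m a g k := pi2_sub Link33.wt1 _ _ _ _ _

theorem E2_mul (c : ℝ) (f : ℝ → ℝ) (k : ℕ) :
    M.E2 m a (fun r => c * f r) k = c * M.E2 m a f k := pi2_const_mul _ _ _ _ _ _

theorem E2_nonneg {f : ℝ → ℝ} (h : ∀ r, |r| ≤ 1 → 0 ≤ f r) (k : ℕ) : 0 ≤ M.E2 m a f k :=
  (E2_const 0 k).ge.trans (E2_mono h k)

theorem E2_le {f : ℝ → ℝ} {c : ℝ} (h : ∀ r, |r| ≤ 1 → f r ≤ c) (k : ℕ) : M.E2 m a f k ≤ c :=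
  (E2_mono h k).trans (E2_const c k).le

theorem abs_E2_le (f : ℝ → ℝ) (k : ℕ) : |M.E2 m a f k| ≤ M.E2 m a (fun r => |f r|) k := by
  refine abs_le.2 ⟨?_, E2_mono (fun r _ => le_abs_self _) k⟩
  have h := E2_mono (M := M) (m := m) (a := a) (f := fun r => -1 * |f r|) (g := f)
    (fun r _ => by linarith [neg_abs_le (f r)]) k
  rw [E2_mul] at h
  linarith

/-- `E (R - c)² = E R² - 2 c rb + c²` -/
theorem E2_sq_expand (c : ℝ) (k : ℕ) : M.E2 m a (fun r => (r - c) ^ 2) k =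
    M.E2 m a (fun r => r ^ 2) k - 2 * c * M.rb m a k + c ^ 2 := by
  rw [show (fun r : ℝ => (r - c) ^ 2) = fun r => (r ^ 2 - 2 * c * id r) + c ^ 2 from
    funext fun r => by rw [id]; ring, E2_add, E2_sub, E2_mul, E2_const, Md.rb]

/-- Jensen: `(rb - c)² ≤ E (R - c)²` -/
theorem sq_le_E2 (c : ℝ) (k : ℕ) : (M.rb m a k - c) ^ 2 ≤ M.E2 m a (fun r => (r - c) ^ 2) k := by
  have h := E2_nonneg (M := M) (m := m) (a := a) (f := fun r => (r - M.rb m a k) ^ 2)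
    (fun r _ => sq_nonneg _) k
  rw [E2_sq_expand] at h ⊢
  nlinarith

/-! ### legal models -/

/-- the model is a legal cascade of size `m` with root tilt `a` -/
structure Lg (M : Md) (m : ℕ) (a : ℝ) : Prop extends M.Leg a where
  m0 : 0 < m
  a0 : 0 ≤ a

theorem Leg_mono (h : M.Leg x) {y : ℝ} (hy : y ≤ x) : M.Leg y :=
  ⟨h.zm, hy.trans h.z0, h.z1, h.zN, h.d0, h.dm, h.H0, h.Hm⟩

theorem lg_of (h : M.Leg x) (hm : 0 < m) (h0 : 0 ≤ a) (ha : a ≤ x) : Lg M m a :=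
  ⟨Leg_mono h ha, hm, h0⟩


theorem lg_cl {S : Sc} (h : Cl S M) (hn : 0 < S.n) (hi : S.In m a) : Lg M m a := by
  have a0 : 0 ≤ a := le_trans (by positivity) hi.a1
  exact lg_of h.leg (hn.trans_le hi.m1) a0 (by linarith [hi.a2])

theorem z_top (h : M.Leg x) {k : ℕ} (hk : M.N ≤ k) : M.z k = 1 :=
  le_antisymm (h.z1 k) (h.zN.ge.trans (h.zm hk))

/-- **the tilt of the cascade level `k + 1`** (all `k`) -/
theorem ex_succ (h : M.Leg x) (k : ℕ) : ex (M.L m a) (k + 1) = M.z k := by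
  rcases lt_or_ge k M.N with hk | hk
  exacts [ex_lt hk, by rw [ex_ge hk, z_top h hk]]

theorem dz_zero (h : M.Leg x) : M.dz m a 0 = M.z 0 - a := by
  rw [Md.dz, dm, ex_succ h]; rfl

theorem dz_succ (h : M.Leg x) (k : ℕ) : M.dz m a (k + 1) = M.z (k + 1) - M.z k := by
  rw [Md.dz, dm, exP, ex_succ h, ex_succ h]

theorem dz_up (h : M.Leg x) {k : ℕ} (hk : 0 < k) : M.dz m a k = M.z k - M.z (k - 1) := by
  obtain ⟨k, rfl⟩ : ∃ j, k = j + 1 := ⟨k - 1, by omega⟩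
  rw [dz_succ h, Nat.add_sub_cancel]


/-- above the root node the weights do not depend on the root tilt -/
theorem dz_free (h : M.Leg x) (m' : ℕ) (a' : ℝ) {k : ℕ} (hk : 0 < k) :
    M.dz m a k = M.dz m' a' k := by rw [dz_up h hk, dz_up h hk]

/-- telescoping of the label weights -/
theorem sum_dz (h : M.Leg x) {i j : ℕ} (hij : i ≤ j) :
    ∑ k ∈ Finset.Ioc i j, M.dz m a k = M.z j - M.z i := by
  induction j, hij using Nat.le_induction with
  | base => simp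
  | succ j hj ih => rw [Finset.sum_Ioc_succ_top hj, ih, dz_succ h]; ring

theorem sum_dz_range (h : M.Leg x) (j : ℕ) :
    ∑ k ∈ Finset.range (j + 1), M.dz m a k = M.z j - a := by
  induction j with
  | zero => simp [dz_zero h]
  | succ j ih => rw [Finset.sum_range_succ, ih, dz_succ h]; ring

theorem fAcc_Mx (h : M.Leg x) {k : ℕ} (hk : k ≤ M.N) : fAcc (M.Mx a) (k + 1) = M.H k := by
  rw [fAcc_Mx' hk, h.H0, sub_zero]

theorem d_nonneg (h : M.Leg x) (k : ℕ) : 0 ≤ M.d k := h.d0.trans (h.dm (Nat.zero_le k))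

theorem H_nonneg (h : M.Leg x) (k : ℕ) : 0 ≤ M.H k := h.H0.ge.trans (h.Hm (Nat.zero_le k))

theorem d_le_b (h : M.Leg x) {k : ℕ} (hk : k ≤ M.N) : M.d k ≤ M.b := h.dm hk

theorem dd_nonneg (h : M.Leg x) (k : ℕ) : 0 ≤ M.d (k + 1) - M.d k :=
  sub_nonneg.2 (h.dm (Nat.le_succ k))

theorem dH_nonneg (h : M.Leg x) (k : ℕ) : 0 ≤ M.H (k + 1) - M.H k :=
  sub_nonneg.2 (h.Hm (Nat.le_succ k))

theorem dh_nonneg (h : M.Leg x) : ∀ k, 0 ≤ dh M k
  | 0 => le_rfl
  | k + 1 => by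
    rw [dh]
    split_ifs
    exacts [dH_nonneg h k, le_rfl]

theorem Mu_nn (h : M.Leg x) : ∀ t ∈ M.Mu, 0 ≤ t.2.1 ∧ 0 ≤ t.2.2 := fun t ht => by
  obtain ⟨k, rfl⟩ := List.mem_ofFn.1 ht
  exact ⟨dd_nonneg h k, dH_nonneg h k⟩

theorem Mx_nn (h : M.Leg x) : ∀ t ∈ M.Mx a, 0 ≤ t.2.1 ∧ 0 ≤ t.2.2 := fun t ht => by
  rcases List.mem_cons.1 ht with rfl | ht
  exacts [⟨h.d0, le_rfl⟩, Mu_nn h t ht]

theorem Mx_pos (h : M.Leg a) (ha : 0 < a) : ∀ t ∈ M.Mx a, 0 < t.1 := fun t ht => by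
  rcases List.mem_cons.1 ht with rfl | ht
  · exact ha
  · obtain ⟨k, rfl⟩ := List.mem_ofFn.1 ht
    exact (ha.trans_le h.z0).trans_le (h.zm (Nat.zero_le _))

/-- **admissible data of the ONE path** -/
theorem ook (h : M.Leg x) {ρ : ℕ → ℝ} (h0 : 0 ≤ ρ 0) (h1 : ∀ k, k + 1 < M.N → ρ k ≤ ρ (k + 1))
    (h2 : ∀ k < M.N, ρ k ≤ 1) : OOk (M.Mx a) (qx M ρ) := by
  refine ⟨Mx_nn h, le_rfl, fun j hj => ?_, by rw [len_Mx, qx_top le_rfl]⟩
  rw [len_Mx] at hj
  rcases j with _ | k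
  · rcases Nat.eq_zero_or_pos M.N with hN | hN
    · rw [qx_top hN.le]; exact zero_le_one
    · rw [qx_succ hN]; exact h0
  · rw [qx_succ (by omega)]
    rcases Nat.lt_or_ge (k + 1) M.N with hk | hk
    · rw [qx_succ hk]; exact h1 k hk
    · rw [qx_top hk]; exact h2 k (by omega)






theorem qc_mxL (hm : 0 < m) {p : ℝ × ℝ × ℝ} (hd : 0 ≤ p.2.1) (hf : 0 ≤ p.2.2) :
    QC (mxL m 1 p) (p.2.2 * m) :=
  ⟨p.2.1 * (m / 2), 0, by positivity, fun y y' => by rw [mxL_cov hm 1 hd hf]; ring⟩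




namespace Lg

variable (G : Lg M m a)
include G

theorem ex_mono : Monotone (ex (M.L m a)) := monotone_nat_of_le_succ fun k => by
  cases k with
  | zero => rw [ex_zero, ex_succ G.toLeg]; exact G.z0
  | succ k => rw [ex_succ G.toLeg, ex_succ G.toLeg]; exact G.zm (Nat.le_succ k)

theorem monoL : Mono 0 (M.L m a) := mono_of_ex G.a0 G.ex_mono


theorem dz_nonneg (k : ℕ) : 0 ≤ M.dz m a k := dm_nonneg G.monoL _

theorem z_nonneg (k : ℕ) : 0 ≤ M.z k := (G.a0.trans G.z0).trans (G.zm (Nat.zero_le k))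


/-- **the model is a cube model** -/
theorem cm : Cm (M.L m a) (dh M) := by
  refine ⟨G.m0, G.monoL, fun k hk => ?_, dh_nonneg G.toLeg⟩
  cases k with
  | zero => exact qc_mxL (p := (a, M.d 0, 0)) G.m0 G.d0 le_rfl
  | succ k =>
    rw [L_succ, dh_succ (by rw [len_L] at hk; omega)]
    exact qc_mxL G.m0 (dd_nonneg G.toLeg k) (dH_nonneg G.toLeg k)

theorem sym : ∀ σ ∈ TS m, Sym (fun _ => 1) (M.L m a) 0 σ := G.cm.sym

theorem dt : Dt (fun _ => 1) (M.L m a) (sl m) (fun k => dh M k * m) 1 := G.cm.dt (sl_cov G.m0)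

/-- any sum of label weights is at most `1` -/
theorem sum_dz_le (S : Finset ℕ) : ∑ k ∈ S, M.dz m a k ≤ 1 - a := by
  obtain ⟨j, hj⟩ := S.bddAbove
  refine (Finset.sum_le_sum_of_subset_of_nonneg (t := Finset.range (j + 1)) (fun k hk => ?_)
    fun k _ _ => G.dz_nonneg k).trans ?_
  · exact Finset.mem_range.2 (Nat.lt_succ_of_le (hj hk))
  · rw [sum_dz_range G.toLeg]; linarith [G.z1 j]

end Lg

/-! ### the SK model -/




end Crest.Agent.T156.Alt.Md67

end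
private theorem rz_e792692109 : type_of% @_root_.Crest.Agent.T156.Alt.Md67.dh.eq_1 := @_root_.Crest.Agent.T156.Alt.Md67.dh.eq_1 -- L83
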