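import Crest.Agent.T156.QClDef_98
import Crest.Agent.T156.ClReg_29
import Crest.Agent.T156.MdDic_67

/-!
# Row 156, block Q on the class: builders of `QH` (helper57)

`ls` is the clock length of the shell of a plateau node.
-/

set_option autoImplicit false
set_option linter.unusedVariables false

noncomputable section

namespace Crest.Agent.T156.Alt.Pl57

open Real Finset

/-- distance of a label to the ends of the plateau -/
def uu (S : Sc) (M : Md) (x : ℝ) : ℝ := min (x - M.z (S.J - 1) + S.u0) (1 - x)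
/-- clock length of the shell of the node `k` -/
def ls (S : Sc) (M : Md) (k : ℕ) : ℝ := S.den (M.z (k - 1)) * uu S M (M.z (k - 1))
/-- the profile of the tolerance on the top window -/
def bt (S : Sc) (M : Md) (k : ℕ) : ℝ := ls S M (max k S.J) + ((S.J - k : ℕ) : ℝ) * S.v

/-- upper Lipschitz envelope -/
theorem env {β : ℕ → ℝ} {k0 k1 : ℕ} (h01 : k0 ≤ k1) {D L : ℝ} (hL : 0 ≤ L)
    (h : ∀ i k : ℕ, k0 ≤ i → i ≤ k1 → k0 ≤ k → k ≤ k1 → β i ≤ D * β k + |(i : ℝ) - k| * L) :
    ∃ ρ : ℕ → ℝ, (∀ k, k0 ≤ k → k ≤ k1 → β k ≤ ρ k ∧ ρ k ≤ D * β k) ∧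
      ∀ k k' : ℕ, |ρ k - ρ k'| ≤ |(k : ℝ) - k'| * L := by
  have ne : (Icc k0 k1).Nonempty := nonempty_Icc.2 h01
  have key : ∀ k k' : ℕ, (Icc k0 k1).sup' ne (fun i => β i - |(i : ℝ) - k| * L) ≤
      (Icc k0 k1).sup' ne (fun i => β i - |(i : ℝ) - k'| * L) + |(k : ℝ) - k'| * L := fun k k' => by
    refine sup'_le _ _ fun i hi => ?_
    have h1 := le_sup' (fun i : ℕ => β i - |(i : ℝ) - k'| * L) hi
    have h2 := mul_le_mul_of_nonneg_right (abs_sub_le (i : ℝ) k k') hL
    linarith
  refine ⟨fun k => (Icc k0 k1).sup' ne fun i => β i - |(i : ℝ) - k| * L, fun k a b => ⟨?_, ?_⟩,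
    fun k k' => abs_le.2 ⟨?_, ?_⟩⟩
  · exact le_trans (by simp) (le_sup' (fun i : ℕ => β i - |(i : ℝ) - k| * L) (mem_Icc.2 ⟨a, b⟩))
  · exact sup'_le _ _ fun i hi => by linarith [h i k (mem_Icc.1 hi).1 (mem_Icc.1 hi).2 a b]
  · have := key k' k
    rw [abs_sub_comm] at this
    linarith
  · linarith [key k k']

variable {S : Sc} {M : Md}

theorem uu_lip (x x' : ℝ) : uu S M x ≤ uu S M x' + |x - x'| := by
  have h1 := le_abs_self (x - x')
  have h2 := neg_abs_le (x - x')
  unfold uu
  rcases min_choice (x' - M.z (S.J - 1) + S.u0) (1 - x') with e | e <;> rw [e]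
  · linarith [min_le_left (x - M.z (S.J - 1) + S.u0) (1 - x)]
  · linarith [min_le_right (x - M.z (S.J - 1) + S.u0) (1 - x)]

section cl
variable (h : Cl S M)
include h

theorem x_ge {k : ℕ} (hk : S.J ≤ k) : M.z (S.J - 1) ≤ M.z (k - 1) := h.leg.zm (by omega)

theorem dz_pos {k : ℕ} (h1 : S.J ≤ k) (h2 : k < S.Jp) : M.z (k - 1) < M.z k := by
  have := (h.plat k h1 h2).1
  have h3 : 0 < (M.z k - M.z (k - 1)) * S.den (M.z (k - 1)) :=
    lt_of_lt_of_le (div_pos h.v0 h.C0) this
  linarith [(mul_pos_iff_of_pos_right (h.den0 _)).1 h3]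

theorem x_lt {k : ℕ} (h1 : S.J ≤ k) (h2 : k < S.Jp) : M.z (k - 1) < 1 :=
  (dz_pos h h1 h2).trans_le (h.leg.z1 k)

theorem uu_pos (u0 : 0 < S.u0) {k : ℕ} (h1 : S.J ≤ k) (h2 : k < S.Jp) :
    0 < uu S M (M.z (k - 1)) :=
  lt_min (by linarith [x_ge h h1]) (by linarith [x_lt h h1 h2])

theorem ls_pos (u0 : 0 < S.u0) {k : ℕ} (h1 : S.J ≤ k) (h2 : k < S.Jp) : 0 < ls S M k :=
  mul_pos (h.den0 _) (uu_pos h u0 h1 h2)

/-- the density is comparable on a shell -/
theorem cmp {x x' : ℝ} (hx : M.z (S.J - 1) ≤ x) (hx1 : x < 1) (hx' : M.z (S.J - 1) ≤ x')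
    (hu : |x' - x| ≤ uu S M x / 2) : S.den x ≤ S.C * S.den x' ∧ S.den x' ≤ S.C * S.den x := by
  have a1 : uu S M x ≤ x - M.z (S.J - 1) + S.u0 := min_le_left _ _
  have a2 : uu S M x ≤ 1 - x := min_le_right _ _
  obtain ⟨b1, b2⟩ := abs_le.1 hu
  have b3 := abs_nonneg (x' - x)
  rcases le_total x x' with e | e
  · exact h.dens x x' hx e (by linarith) (le_min (by linarith) (by linarith))
  · exact (h.dens x' x hx' e hx1 (le_min (by linarith) (by linarith))).symm

/-- steps of the labels in the shell of `x` -/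
theorem step {x : ℝ} (hx : M.z (S.J - 1) ≤ x) (hx1 : x < 1) {y : ℕ} (h1 : S.J ≤ y) (h2 : y < S.Jp)
    (hu : |M.z (y - 1) - x| ≤ uu S M x / 2) :
    S.v ≤ S.C ^ 2 * S.den x * (M.z y - M.z (y - 1)) ∧
      S.den x * (M.z y - M.z (y - 1)) ≤ S.C ^ 2 * S.v := by
  obtain ⟨a1, a2⟩ := cmp h hx hx1 (x_ge h h1) hu
  obtain ⟨b1, b2⟩ := h.plat y h1 h2
  have d0 : 0 ≤ M.z y - M.z (y - 1) := by linarith [dz_pos h h1 h2]
  have C0 := h.C0
  rw [div_le_iff₀ C0] at b1
  constructor
  · nlinarith [mul_le_mul_of_nonneg_left a2 (mul_nonneg d0 C0.le)]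
  · nlinarith [mul_le_mul_of_nonneg_left a1 d0, mul_le_mul_of_nonneg_left b2 C0.le]

/-- **the shell length is quasi-Lipschitz in the clock** -/
theorem ls_quasi (u0 : 0 < S.u0) (fine : ∀ y, S.J ≤ y → y < S.Jp → 8 * S.C * S.v ≤ ls S M y)
    {i k : ℕ} (i1 : S.J ≤ i) (i2 : i < S.Jp) (k1 : S.J ≤ k) (k2 : k < S.Jp) :
    ls S M i ≤ 4 * S.C ^ 2 * (ls S M k + |(i : ℝ) - k| * S.v) := by
  have C1 := h.C1
  have v0 := h.v0
  have j1 : 1 ≤ S.J := by have := h.i2; omega
  set x := M.z (i - 1) with hx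
  have x0 := x_ge h i1
  have x1 := x_lt h i1 i2
  have up := uu_pos h u0 i1 i2
  have lk := ls_pos h u0 k1 k2
  have d0 := h.den0 x
  rw [← hx] at x0 x1 up
  have e0 : ls S M i = S.den x * uu S M x := rfl
  have p0 : 0 ≤ |(i : ℝ) - k| * S.v := by positivity
  have CC : S.C ≤ S.C ^ 2 := by nlinarith
  by_cases hA : |M.z (k - 1) - x| ≤ uu S M x / 2
  · have a1 := (cmp h x0 x1 (x_ge h k1) hA).1
    have a2 := uu_lip (S := S) (M := M) x (M.z (k - 1))
    rw [abs_sub_comm] at a2
    have a3 : ls S M i ≤ S.C * S.den (M.z (k - 1)) * (2 * uu S M (M.z (k - 1))) :=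
      mul_le_mul a1 (by linarith) up.le (by have := h.den0 (M.z (k - 1)); positivity)
    have a4 : ls S M i ≤ 2 * S.C * ls S M k := a3.trans (le_of_eq (by unfold ls; ring))
    nlinarith [mul_nonneg (sq_nonneg S.C) p0]
  have fin : S.den x * uu S M x ≤ 4 * S.C ^ 2 * (|(i : ℝ) - k| * S.v) := by
    rcases le_total i k with e | e
    · have ind : ∀ n : ℕ, i + n ≤ k → S.den x * (M.z (i + n - 1) - x) ≤ n * (S.C ^ 2 * S.v) ∨
          S.den x * uu S M x / 2 ≤ n * (S.C ^ 2 * S.v) := by
        intro n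
        induction n with
        | zero => intro _; left; simp [hx]
        | succ n ih =>
          intro hn
          have cv : 0 < S.C ^ 2 * S.v := by positivity
          push_cast
          rcases le_or_gt (S.den x * uu S M x / 2) (n * (S.C ^ 2 * S.v)) with a | a
          · right; linarith
          left
          have b := (ih (by omega)).resolve_right a.not_ge
          have b0 : x ≤ M.z (i + n - 1) := h.leg.zm (by omega)
          have b1 : M.z (i + n - 1) - x ≤ uu S M x / 2 := by
            refine le_of_mul_le_mul_left ?_ d0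
            linarith
          have := (step h x0 x1 (y := i + n) (by omega) (by omega)
            (by rwa [abs_of_nonneg (by linarith)])).2
          rw [show i + (n + 1) - 1 = i + n by omega]
          linarith
      obtain ⟨n, rfl⟩ := Nat.exists_eq_add_of_le e
      have b0 : x ≤ M.z (i + n - 1) := h.leg.zm (by omega)
      rw [abs_of_nonneg (by linarith), not_le] at hA
      have a5 := mul_lt_mul_of_pos_left hA d0
      have : |(i : ℝ) - ((i + n : ℕ) : ℝ)| = n := by push_cast; simp
      rw [this]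
      have cv : 0 ≤ n * (S.C ^ 2 * S.v) := by positivity
      rcases ind n le_rfl with a | a <;> linarith
    · have ind : ∀ n : ℕ, k + n ≤ i → S.den x * (x - M.z (i - n - 1)) ≤ n * (S.C ^ 2 * S.v) ∨
          S.den x * uu S M x / 4 ≤ n * (S.C ^ 2 * S.v) := by
        intro n
        induction n with
        | zero => intro _; left; simp [hx]
        | succ n ih =>
          intro hn
          have cv : 0 < S.C ^ 2 * S.v := by positivity
          push_cast
          rcases le_or_gt (S.den x * uu S M x / 4) (n * (S.C ^ 2 * S.v)) with a | a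
          · right; linarith
          left
          have b := (ih (by omega)).resolve_right a.not_ge
          set y := i - n - 1 with hy
          have y1 : S.J ≤ y := by omega
          have y2 : y < S.Jp := by omega
          have b0 : M.z y ≤ x := h.leg.zm (by omega)
          have b1 : x - M.z y ≤ uu S M x / 4 := by
            refine le_of_mul_le_mul_left ?_ d0
            linarith
          have c0 := dz_pos h y1 y2
          have c1 := uu_lip (S := S) (M := M) (M.z (y - 1)) x
          rw [abs_of_nonpos (by linarith)] at c1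
          have c2 : 8 * (M.z y - M.z (y - 1)) ≤ uu S M (M.z (y - 1)) := by
            refine le_of_mul_le_mul_left ?_ (h.den0 (M.z (y - 1)))
            have := fine y y1 y2
            unfold ls at this
            linarith [(h.plat y y1 y2).2]
          have := (step h x0 x1 y1 y2 (by rw [abs_of_nonpos (by linarith)]; linarith)).2
          rw [show i - (n + 1) - 1 = y - 1 by omega]
          linarith
      obtain ⟨n, rfl⟩ := Nat.exists_eq_add_of_le e
      have b0 : M.z (k - 1) ≤ x := h.leg.zm (by omega)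
      rw [abs_of_nonpos (by linarith), not_le] at hA
      have a5 := mul_lt_mul_of_pos_left hA d0
      have : |((k + n : ℕ) : ℝ) - k| = n := by push_cast; simp
      rw [this]
      have cv : 0 ≤ n * (S.C ^ 2 * S.v) := by positivity
      have a6 := ind n le_rfl
      rw [show k + n - n - 1 = k - 1 by omega] at a6
      have := mul_pos d0 up
      rcases a6 with a | a <;> linarith
  rw [e0]
  nlinarith [mul_nonneg (sq_nonneg S.C) lk.le]





omit h in
/-- persistence: a lower bound `F` of `|f|` on `(a, b]` against an energy -/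
theorem persist (hz : Monotone M.z) {f : ℕ → ℝ} {T : Finset ℕ} {a b i : ℕ} (hab : a ≤ b)
    (hT : Ioc a b ⊆ T) {V W l F : ℝ} (hi : i ≠ 0) (hE : ∑ y ∈ T, (M.z y - M.z (y - 1)) * |f y| ^ i ≤ V)
    (W0 : 0 < W) (hW : W / 2 ≤ M.z b - M.z a) (l0 : 0 ≤ l) (hV : V ≤ l ^ i * W)
    (hF : ∀ y, a < y → y ≤ b → F ≤ |f y|) : F ≤ 2 * l := by
  by_contra hh
  rw [not_le] at hh
  have e1 : ∑ y ∈ Ioc a b, (M.z y - M.z (y - 1)) = M.z b - M.z a := by
    induction b, hab using Nat.le_induction with
    | base => simp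
    | succ b hb ih => rw [sum_Ioc_succ_top hb, Nat.add_sub_cancel]
                      have : ∑ y ∈ Ioc a b, (M.z y - M.z (y - 1)) = M.z b - M.z a := by
                        clear ih hT hW hF
                        induction b, hb using Nat.le_induction with
                        | base => simp
                        | succ b hb ih => rw [sum_Ioc_succ_top hb, Nat.add_sub_cancel, ih]; ring
                      rw [this]; ring
  have d0 : ∀ y, 0 ≤ M.z y - M.z (y - 1) := fun y => sub_nonneg.2 (hz (Nat.sub_le _ _))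
  have e2 : (M.z b - M.z a) * F ^ i ≤ V := by
    rw [← e1, sum_mul]
    refine le_trans (sum_le_sum fun y hy => mul_le_mul_of_nonneg_left (pow_le_pow_left₀
      (by linarith) (hF y (mem_Ioc.1 hy).1 (mem_Ioc.1 hy).2) i) (d0 y)) (le_trans ?_ hE)
    exact sum_le_sum_of_subset_of_nonneg hT fun y _ _ => mul_nonneg (d0 y) (by positivity)
  have e3 : (2 * l) ^ i < F ^ i := pow_lt_pow_left₀ hh (by linarith) hi
  have e4 : 2 * l ^ i ≤ (2 * l) ^ i := by
    rw [mul_pow]
    exact mul_le_mul_of_nonneg_right (le_self_pow₀ one_le_two hi) (by positivity)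
  have e5 : 0 ≤ F ^ i := by have : 0 ≤ l ^ i := by positivity
                            linarith
  nlinarith [mul_le_mul_of_nonneg_right hW e5]



/-- lower location at a sloped node from an energy, window of `n` nodes -/
theorem lo_slope {f : ℕ → ℝ} {K V l : ℝ} {T : Finset ℕ} {kb k i n : ℕ} (K0 : 0 ≤ K) (hb : S.j0 ≤ kb)
    (n0 : 0 < n) (hn : kb + n ≤ k) (k1 : k < S.J)
    (sl : ∀ y, kb ≤ y → y < k → f y - K * S.v ≤ f (y + 1)) (hT : Ioc kb k ⊆ T) (hi : i ≠ 0)
    (hE : ∑ y ∈ T, (M.z y - M.z (y - 1)) * |f y| ^ i ≤ V) (l0 : 0 ≤ l)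
    (hV : V ≤ l ^ i * (2 * (n * (S.v / S.C)))) : -f k ≤ K * (n * S.v) + 2 * l := by
  have v0 := h.v0
  have C0 := h.C0
  have z := (h.z_tel (i := k - n) (j := k) (by omega) (by omega) k1).1
  rw [show (k : ℝ) - ((k - n : ℕ) : ℝ) = n by rw [Nat.cast_sub (by omega)]; ring] at z
  have := persist h.leg.zm (f := f) (a := k - n) (b := k) (by omega)
    (fun y hy => hT (by simp only [mem_Ioc] at *; omega)) hi hE (by positivity) (by linarith) l0 hV
    (F := -f k - K * (n * S.v)) fun y a b => by
      have s : Qf24.Sl f (K * S.v) kb k := sl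
      have := s.le' (by positivity) (i := y) (j := k) (U := n) (by omega) (by omega) le_rfl (by omega)
      nlinarith [neg_abs_le (f y)]
  linarith



end cl

end Crest.Agent.T156.Alt.Pl57
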