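import Crest.Agent.T156.LPe_12
import Crest.Agent.T156.QTop_57
import Crest.Agent.T156.QPl_57
import Crest.Agent.T156.Env_96

/-!
# Row 156: location on the top zone from the kit `LK` (helper57)
-/

set_option autoImplicit false
set_option linter.unusedSectionVars false
set_option linter.unusedVariables false
set_option maxHeartbeats 400000

noncomputable section

namespace Crest.Agent.T156.Alt.Pl57

open Real Finset

variable {S : Sc} {M : Md}

/-- a short clock distance keeps the label in the shell -/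
theorem shell (h : Cl S M) (u0 : 0 < S.u0)
    (fine : ∀ y, S.J ≤ y → y < S.Jp → 8 * S.C * S.v ≤ ls S M y)
    {i k : ℕ} (i1 : S.J ≤ i) (i2 : i < S.Jp) (k1 : S.J ≤ k) (k2 : k < S.Jp)
    (hs : 4 * S.C ^ 2 * (|(i : ℝ) - k| * S.v) < ls S M i) :
    |M.z (k - 1) - M.z (i - 1)| ≤ uu S M (M.z (i - 1)) / 2 := by
  have C1 := h.C1
  have v0 := h.v0
  have j1 : 1 ≤ S.J := by have := h.i2; omega
  set x := M.z (i - 1) with hx
  have x0 := x_ge h i1
  have x1 := x_lt h i1 i2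
  have up := uu_pos h u0 i1 i2
  have d0 := h.den0 x
  rw [← hx] at x0 x1 up
  have e0 : ls S M i = S.den x * uu S M x := rfl
  by_contra hA
  have fin : S.den x * uu S M x ≤ 4 * S.C ^ 2 * (|(i : ℝ) - k| * S.v) := by
    rcases le_total i k with e | e
    · have ind : ∀ n : ℕ, i + n ≤ k → S.den x * (M.z (i + n - 1) - x) ≤ n * (S.C ^ 2 * S.v) ∨
          S.den x * uu S M x / 2 ≤ n * (S.C ^ 2 * S.v) := by
        intro n
        induction n with
        | zero => intro _; left; simp [hx]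
        | succ n ih =>
          intro hn
          have cv : 0 < S.C ^ 2 * S.v := by positivity
          push_cast
          rcases le_or_gt (S.den x * uu S M x / 2) (n * (S.C ^ 2 * S.v)) with a | a
          · right; linarith
          left
          have b := (ih (by omega)).resolve_right a.not_ge
          have b0 : x ≤ M.z (i + n - 1) := h.leg.zm (by omega)
          have b1 : M.z (i + n - 1) - x ≤ uu S M x / 2 := by
            refine le_of_mul_le_mul_left ?_ d0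
            linarith
          have := (step h x0 x1 (y := i + n) (by omega) (by omega)
            (by rwa [abs_of_nonneg (by linarith)])).2
          rw [show i + (n + 1) - 1 = i + n by omega]
          linarith
      obtain ⟨n, rfl⟩ := Nat.exists_eq_add_of_le e
      have b0 : x ≤ M.z (i + n - 1) := h.leg.zm (by omega)
      rw [abs_of_nonneg (by linarith), not_le] at hA
      have a5 := mul_lt_mul_of_pos_left hA d0
      have : |(i : ℝ) - ((i + n : ℕ) : ℝ)| = n := by push_cast; simp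
      rw [this]
      have cv : 0 ≤ n * (S.C ^ 2 * S.v) := by positivity
      rcases ind n le_rfl with a | a <;> linarith
    · have ind : ∀ n : ℕ, k + n ≤ i → S.den x * (x - M.z (i - n - 1)) ≤ n * (S.C ^ 2 * S.v) ∨
          S.den x * uu S M x / 4 ≤ n * (S.C ^ 2 * S.v) := by
        intro n
        induction n with
        | zero => intro _; left; simp [hx]
        | succ n ih =>
          intro hn
          have cv : 0 < S.C ^ 2 * S.v := by positivity
          push_cast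
          rcases le_or_gt (S.den x * uu S M x / 4) (n * (S.C ^ 2 * S.v)) with a | a
          · right; linarith
          left
          have b := (ih (by omega)).resolve_right a.not_ge
          set y := i - n - 1 with hy
          have y1 : S.J ≤ y := by omega
          have y2 : y < S.Jp := by omega
          have b0 : M.z y ≤ x := h.leg.zm (by omega)
          have b1 : x - M.z y ≤ uu S M x / 4 := by
            refine le_of_mul_le_mul_left ?_ d0
            linarith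
          have c0 := dz_pos h y1 y2
          have c1 := uu_lip (S := S) (M := M) (M.z (y - 1)) x
          rw [abs_of_nonpos (by linarith)] at c1
          have c2 : 8 * (M.z y - M.z (y - 1)) ≤ uu S M (M.z (y - 1)) := by
            refine le_of_mul_le_mul_left ?_ (h.den0 (M.z (y - 1)))
            have := fine y y1 y2
            unfold ls at this
            linarith [(h.plat y y1 y2).2]
          have := (step h x0 x1 y1 y2 (by rw [abs_of_nonpos (by linarith)]; linarith)).2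
          rw [show i - (n + 1) - 1 = y - 1 by omega]
          linarith
      obtain ⟨n, rfl⟩ := Nat.exists_eq_add_of_le e
      have b0 : M.z (k - 1) ≤ x := h.leg.zm (by omega)
      rw [abs_of_nonpos (by linarith), not_le] at hA
      have a5 := mul_lt_mul_of_pos_left hA d0
      have : |((k + n : ℕ) : ℝ) - k| = n := by push_cast; simp
      rw [this]
      have cv : 0 ≤ n * (S.C ^ 2 * S.v) := by positivity
      have a6 := ind n le_rfl
      rw [show k + n - n - 1 = k - 1 by omega] at a6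
      have := mul_pos d0 up
      rcases a6 with a | a <;> linarith
  linarith

/-- upper Lipschitz envelope -/
theorem env' (β : ℕ → ℝ) {k0 k1 : ℕ} (h01 : k0 ≤ k1) {L : ℝ} (hL : 0 ≤ L) :
    ∃ T : ℕ → ℝ, (∀ k, k0 ≤ k → k ≤ k1 → β k ≤ T k) ∧ (∀ k k' : ℕ, T k ≤ T k' + |(k : ℝ) - k'| * L) ∧
      ∀ (k : ℕ) (X : ℝ), (∀ i : ℕ, k0 ≤ i → i ≤ k1 → β i ≤ X + |(i : ℝ) - k| * L) → T k ≤ X := by
  have ne : (Icc k0 k1).Nonempty := nonempty_Icc.2 h01
  refine ⟨fun k => (Icc k0 k1).sup' ne fun i => β i - |(i : ℝ) - k| * L, fun k a b => ?_,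
    fun k k' => sup'_le _ _ fun i hi => ?_, fun k X hX => sup'_le _ _ fun i hi => ?_⟩
  · exact le_trans (by simp) (le_sup' (fun i : ℕ => β i - |(i : ℝ) - k| * L) (mem_Icc.2 ⟨a, b⟩))
  · have h1 := le_sup' (fun i : ℕ => β i - |(i : ℝ) - k'| * L) hi
    have h2 := mul_le_mul_of_nonneg_right (abs_sub_le (i : ℝ) k k') hL
    linarith
  · linarith [hX i (mem_Icc.1 hi).1 (mem_Icc.1 hi).2]

theorem tel (f : ℕ → ℝ) {a b : ℕ} (h : a ≤ b) : ∑ k ∈ Ico a b, (f (k + 1) - f k) = f b - f a := by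
  rw [sum_Ico_sub _ h]

end Crest.Agent.T156.Alt.Pl57

namespace Crest.Agent.T156.Alt.R62

open Real Finset Filter
open Crest.Agent.T156.Alt.C33 Crest.Agent.T156.Alt.Md67 Crest.Agent.T156.Alt.Pl57

/-- the context at a fixed size -/
structure Tx (lam : ℝ) (S : Sc) (M : Md) (m : ℕ) (a E l Φ : ℝ) (P : ℝ → ℝ)
    (l0 Λ₀ Λ₁ Pt Vt u1 V4 : ℝ) : Prop where
  F : Fn S M m a
  kn : KN S M E l Φ P l0 Λ₀ Λ₁ Pt Vt u1 V4
  lk : LK S M m a Φ P l0 Λ₁ Pt Vt u1
  big : 1000 ≤ lam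
  Cl : S.C ≤ lam
  hE : lam ^ 30 ≤ E
  lg : log S.n ≤ lam
  Al : (S.A : ℝ) ≤ lam
  θ : S.C * S.θ ≤ 1 / 2
  ln : lam ^ 20 ≤ S.n

def pp (Pt : ℝ) : ℝ := Pt ^ ((1 : ℝ) / 3)
def tA (S : Sc) (M : Md) (Pt : ℝ) (k : ℕ) : ℝ := √(Pt / (dl S M k + pp Pt))
def tB (M : Md) (Pt : ℝ) (k : ℕ) : ℝ := √(Pt / (du M k + Pt))
/-- the tolerance on the plateau -/
def tp (S : Sc) (M : Md) (Λ₁ Pt Vt : ℝ) (k : ℕ) : ℝ :=
  ls S M k + tA S M Pt k + min (tB M Pt k) (Vt + Λ₁ * ls S M k)

/-- the indices of the top block -/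
structure Ix (S : Sc) (M : Md) (Pt u1 : ℝ) (kb n k0 b1 k1 : ℕ) : Prop where
  e0 : k0 = kb + n
  n1 : pp Pt ≤ n * S.v
  n2 : n * S.v ≤ 2 * pp Pt
  jl : S.jl < kb
  sb : T0 S M / 4 ≤ M.s kb
  k0J : k0 < S.J
  s0 : M.s k0 ≤ T0 S M / 2
  Jb : S.J < b1
  bk : b1 ≤ k1
  kp : k1 + 1 < S.Jp
  p1 : ∀ k, u1 ≤ du M k ↔ k < b1
  p4 : ∀ k ≤ k1, u1 / 4 ≤ du M k
  gap : 1 ≤ 4 * S.C ^ 3 * (((k1 : ℝ) + 1 - b1) * S.v)

namespace Tx

variable {lam : ℝ} {S : Sc} {M : Md} {m : ℕ} {a E l Φ : ℝ} {P : ℝ → ℝ} {l0 Λ₀ Λ₁ Pt Vt u1 V4 : ℝ}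
  (X : Tx lam S M m a E l Φ P l0 Λ₀ Λ₁ Pt Vt u1 V4)
include X

theorem h : Alt.Cl S M := X.F.toCl
theorem l1 : 1 ≤ lam := by linarith [X.big]
theorem pw {i j : ℕ} (h : i ≤ j) : lam ^ i ≤ lam ^ j := pow_le_pow_right₀ X.l1 h
theorem P0 : 0 < Pt := X.F.v0.trans_le X.kn.Ptw.2
theorem p0 : 0 < pp Pt := rpow_pos_of_pos X.P0 _
theorem p3 : pp Pt ^ 3 = Pt := by
  rw [pp, ← rpow_natCast, ← rpow_mul X.P0.le]; norm_num

theorem pl : pp Pt ≤ l := by
  have e : pp Pt ^ 3 ≤ l ^ 3 := by rw [X.p3, X.kn.l3]; exact X.kn.PtΦ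
  exact (Odd.pow_le_pow (by decide : Odd 3)).1 e

theorem lsm : lam ^ 30 * l ≤ 1 :=
  le_trans (mul_le_mul_of_nonneg_right X.hE (X.p0.le.trans X.pl)) X.kn.l1

theorem sm {j : ℕ} (hj : j ≤ 30) : lam ^ j * l ≤ 1 :=
  le_trans (mul_le_mul_of_nonneg_right (X.pw hj) (X.p0.le.trans X.pl)) X.lsm

theorem psm {j : ℕ} (hj : j ≤ 30) : lam ^ j * pp Pt ≤ 1 :=
  le_trans (mul_le_mul_of_nonneg_left X.pl (by have := X.big; positivity)) (X.sm hj)

theorem p1 : pp Pt ≤ 1 := by simpa using X.psm (j := 0) (by norm_num)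

theorem Pp : Pt ≤ pp Pt ^ 2 ∧ Pt ≤ pp Pt := by
  have := X.p0
  have := X.p1
  have e := X.p3
  constructor <;> nlinarith [mul_pos X.p0 X.p0]

theorem vp : S.v ≤ pp Pt := X.kn.Ptw.2.trans X.Pp.2

theorem up : S.u0 ≤ pp Pt :=
  (Odd.pow_le_pow (by decide : Odd 3)).1 (by rw [X.p3]; exact X.kn.u0.2)

theorem sp : √Pt ≤ pp Pt := sqrt_le_iff.2 ⟨X.p0.le, X.Pp.1⟩

theorem fine (y : ℕ) (h1 : S.J ≤ y) (h2 : y < S.Jp) : 8 * S.C * S.v ≤ Pl57.ls S M y := by
  refine le_trans ?_ (X.kn.fine y h1 h2)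
  have := X.F.v0
  have := X.big
  gcongr
  calc _ ≤ lam * lam := by gcongr; exacts [X.F.C0.le, by linarith, X.Cl]
    _ = lam ^ 2 := by ring
    _ ≤ _ := (X.pw (by norm_num)).trans X.hE

theorem lw_le {y : ℕ} (h1 : S.J ≤ y) (h2 : y < S.Jp) : 8 * lw M y ≤ min (dl S M y) (du M y) := by
  refine le_of_mul_le_mul_left ?_ (X.h.den0 (M.z (y - 1)))
  have e1 := X.fine y h1 h2
  have e2 := (X.h.plat y h1 h2).2
  change _ ≤ S.den _ * min (dl S M y) (du M y) at e1
  unfold lw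
  linarith

theorem ls0 {y : ℕ} (h1 : S.J ≤ y) (h2 : y < S.Jp) : 0 < ls S M y := ls_pos X.h X.kn.u0.1 h1 h2
theorem dl0 {y : ℕ} (h1 : S.J ≤ y) : 0 < dl S M y := by
  have := x_ge X.h h1; have := X.kn.u0.1; unfold dl; linarith
theorem du0 (y : ℕ) : 0 ≤ du M y := sub_nonneg.2 (X.h.leg.z1 _)
theorem du1 (y : ℕ) : du M y ≤ 1 := by have := X.h.z_pos (y - 1); unfold du; linarith
theorem dl2 (y : ℕ) : dl S M y ≤ 2 := by
  have := X.h.z_pos (S.J - 1); have := X.h.leg.z1 (y - 1); have := X.up; have := X.p1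
  unfold dl; linarith
theorem du_anti {i k : ℕ} (h : i ≤ k) : du M k ≤ du M i :=
  sub_le_sub_left (X.h.leg.zm (by omega)) 1
theorem duJ : 1 ≤ S.C * du M S.J := by
  have := X.h.atom.2
  rw [← div_le_iff₀' X.F.C0]; unfold du; linarith

theorem T0_ge : 1 ≤ 48 * S.C ^ 4 * T0 S M := by
  have e := X.F.J_lo
  have e1 := (X.F.s_mem le_rfl).1
  have := X.F.C0
  unfold T0
  nlinarith [mul_le_mul_of_nonneg_left e1 (show 0 ≤ 3 * S.C ^ 3 by positivity)]

theorem T0_big : lam ^ 20 * l ≤ T0 S M := by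
  have e := X.T0_ge
  have := X.big
  have C0 := X.F.C0
  have T : 0 < T0 S M := by
    by_contra hh
    nlinarith [mul_le_mul_of_nonneg_left (not_lt.1 hh) (show 0 ≤ 48 * S.C ^ 4 by positivity)]
  have e2 : 48 * S.C ^ 4 ≤ lam ^ 10 := by
    calc _ ≤ lam * lam ^ 4 := by gcongr; exacts [by linarith, X.Cl]
      _ = lam ^ 5 := by ring
      _ ≤ _ := X.pw (by norm_num)
  refine le_of_mul_le_mul_left (a := lam ^ 10) ?_ (by positivity)
  calc _ = lam ^ 30 * l := by ring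
    _ ≤ _ := X.lsm.trans (e.trans (by gcongr))

theorem qs (y : ℕ) (h : y < S.Jp) : 0 ≤ M.q (y + 1) - M.q y ∧ M.q (y + 1) - M.q y ≤ S.C * S.v := by
  refine ⟨sub_nonneg.2 (X.h.q_mono y.le_succ (by have := X.h.i4; omega)),
    (X.h.q_tel X.θ y.le_succ h).2.trans ?_⟩
  rcases lt_or_ge y S.J with e | e
  · exact (X.h.ss y e).2
  · rw [X.kn.flat y e h.le, X.kn.flat (y + 1) (by omega) h, sub_self]
    exact (mul_pos X.F.C0 X.F.v0).le

theorem sl (y : ℕ) (h : y < S.Jp) : M.del m a y - S.C * S.v ≤ M.del m a (y + 1) := by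
  have := rb_mono (M := M) (a := a) X.F.lg.m0 y.le_succ
  have := (X.qs y h).2
  unfold Md.del
  linarith

theorem dmono {i k : ℕ} (h0 : S.J ≤ i) (h : i ≤ k) (h1 : k ≤ S.Jp) : M.del m a i ≤ M.del m a k := by
  have := rb_mono (M := M) (a := a) X.F.lg.m0 h
  unfold Md.del Md.q
  rw [X.kn.flat i h0 (h.trans h1), X.kn.flat k (h0.trans h) h1]
  linarith

theorem del1 {k : ℕ} (h : k ≤ S.Jp) : |M.del m a k| ≤ 1 := by
  have := rb_nonneg (M := M) (a := a) X.F.lg.m0 k
  have := rb_le_one (M := M) (a := a) X.F.lg.m0 k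
  have := X.h.q_nn (h.trans X.h.i4.le)
  have := Cl.q_le_one (M := M) k
  unfold Md.del
  exact abs_le.2 ⟨by linarith, by linarith⟩

theorem en : ∑ y ∈ sb S M (T0 S M / 4) S.C ∪ Icc S.J S.Jp,
    (M.z y - M.z (y - 1)) * |M.del m a y| ^ 2 ≤ Pt := by
  simpa only [sq_abs, lw] using X.lk.top

theorem ex_ix : ∃ kb n k0 b1 k1, Ix S M Pt u1 kb n k0 b1 k1 := by
  have h := X.h
  have v0 := h.v0
  have C1 := h.C1
  have p0 := X.p0
  have big := X.big
  have pl := X.pl
  have T := X.T0_big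
  have l20 : lam * lam ≤ lam ^ 20 := by rw [← sq]; exact X.pw (by norm_num)
  have T1 : 1000 * (S.C * pp Pt) ≤ T0 S M :=
    le_trans (by rw [← mul_assoc]; gcongr; exact le_trans (by gcongr; exact X.Cl) l20) T
  have T2 : l < T0 S M := by
    have : 2 * l ≤ lam ^ 20 * l := mul_le_mul_of_nonneg_right (by nlinarith) (by linarith)
    linarith
  have Cp : 0 < S.C * pp Pt := by positivity
  obtain ⟨k0, a1, a2, -, a4⟩ := h.exists_node (t := T0 S M / 2) (by linarith)
    (by unfold T0 at *; linarith)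
  set n := ⌈pp Pt / S.v⌉₊ with hn
  have n1 : pp Pt ≤ n * S.v := by rw [← div_le_iff₀ v0]; exact Nat.le_ceil _
  have n2 : n * S.v ≤ 2 * pp Pt := by
    have := Nat.ceil_lt_add_one (show 0 ≤ pp Pt / S.v by positivity)
    have e := mul_le_mul_of_nonneg_right this.le v0.le
    rw [add_mul, div_mul_cancel₀ _ v0.ne'] at e
    linarith [X.vp]
  have c1 : n * (S.C * S.v) ≤ 2 * (S.C * pp Pt) := by nlinarith
  have c2 : S.C * S.v ≤ S.C * pp Pt := by gcongr; exact X.vp
  have nk : n ≤ k0 := by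
    by_contra hh
    have : (k0 : ℝ) ≤ n := by exact_mod_cast (by omega : k0 ≤ n)
    nlinarith [(h.s_bds a1.le).2, mul_le_mul_of_nonneg_right this (show 0 ≤ S.C * S.v by positivity)]
  have sk : T0 S M / 4 ≤ M.s (k0 - n) := by
    have := (h.s_tel (i := k0 - n) (j := k0) (by omega) a1.le).2
    rw [Nat.cast_sub nk, sub_sub_cancel] at this
    linarith
  have jl : S.jl < k0 - n := by
    by_contra hh
    linarith [h.sm (not_lt.1 hh), X.kn.jl, X.kn.l0l]
  have ue : 8 * du M S.Jp ≤ u1 := by have := h.last; have := X.kn.ue; unfold du; linarith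
  have uJ : u1 < du M S.J := by
    have e := X.duJ
    have := X.kn.u1P.2.trans X.Pp.2
    have e2 := X.psm (j := 2) (by norm_num)
    by_contra hh
    have e3 : S.C * du M S.J ≤ lam * pp Pt := by
      gcongr; exacts [X.du0 _, X.Cl, (not_lt.1 hh).trans this]
    nlinarith
  have JJ : S.J < S.Jp := by
    by_contra hh
    have : S.Jp = S.J := by have := h.i3; omega
    rw [this] at ue
    linarith [X.du0 S.J]
  have dp : 0 < du M S.Jp := by
    have := x_lt h (k := S.Jp - 1) (by omega) (by omega)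
    have e := X.lw_le (y := S.Jp - 1) (by omega) (by omega)
    have e2 := min_le_right (dl S M (S.Jp - 1)) (du M (S.Jp - 1))
    unfold lw du at *
    linarith
  have u0 : 0 < u1 := by linarith
  have x1 : ∃ k, du M k < u1 := ⟨S.Jp, by linarith⟩
  have x4 : ∃ k, du M k < u1 / 4 := ⟨S.Jp, by linarith⟩
  have p1 : ∀ k, u1 ≤ du M k ↔ k < Nat.find x1 := fun k =>
    ⟨fun e => by
      by_contra hh
      linarith [X.du_anti (not_lt.1 hh), Nat.find_spec x1],
    fun e => not_lt.1 (Nat.find_min x1 e)⟩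
  have st : ∀ k, S.J ≤ k → k < S.Jp → 7 / 8 * du M k ≤ du M (k + 1) := fun k a b => by
    have e := (X.lw_le a b).trans (min_le_right _ _)
    unfold lw du at *
    rw [Nat.add_sub_cancel]
    linarith
  have Jb := (p1 _).1 uJ.le
  have b1p : Nat.find x1 ≤ S.Jp := Nat.find_min' x1 (by linarith)
  have b7 : 7 / 8 * u1 ≤ du M (Nat.find x1) := by
    have e := st (Nat.find x1 - 1) (by omega) (by omega)
    rw [show Nat.find x1 - 1 + 1 = Nat.find x1 by omega] at e
    linarith [(p1 (Nat.find x1 - 1)).2 (by omega)]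
  have b4 : Nat.find x1 < Nat.find x4 := by
    by_contra hh
    linarith [X.du_anti (not_lt.1 hh), Nat.find_spec x4]
  have b4p : Nat.find x4 ≤ S.Jp := Nat.find_min' x4 (by linarith)
  have p4 : ∀ k ≤ Nat.find x4 - 1, u1 / 4 ≤ du M k := fun k e =>
    not_lt.1 (Nat.find_min x4 (by omega))
  have b5 : Nat.find x4 < S.Jp := by
    have e := st (Nat.find x4 - 1) (by omega) (by omega)
    rw [show Nat.find x4 - 1 + 1 = Nat.find x4 by omega] at e
    by_contra hh
    linarith [X.du_anti (not_lt.1 hh), p4 _ le_rfl]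
  refine ⟨k0 - n, n, k0, Nat.find x1, Nat.find x4 - 1, by omega, n1, n2, jl, sk, a1, a2, Jb,
    by omega, by omega, p1, p4, ?_⟩
  have f1 := X.kn.fin (Nat.find x1) (mem_filter.2 ⟨mem_Ico.2 ⟨Jb.le, by omega⟩, by linarith⟩)
    (Nat.find_spec x1).le
  rw [div_le_iff₀' h.C0] at f1
  by_contra hh
  have f2 := shell h X.kn.u0.1 X.fine (i := Nat.find x1) (k := Nat.find x4) Jb.le (by omega)
    (by omega) b5 (by
      rw [Nat.cast_sub (by omega), Nat.cast_one, sub_add_cancel] at hh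
      rw [abs_sub_comm, abs_of_nonneg (by rw [sub_nonneg]; exact_mod_cast b4.le)]
      refine lt_of_mul_lt_mul_left (a := S.C) ?_ h.C0.le
      change _ ≤ S.C * Pl57.ls S M _ at f1
      linarith)
  have f3 : uu S M (M.z (Nat.find x1 - 1)) ≤ du M (Nat.find x1) := min_le_right _ _
  have f4 := Nat.find_spec x4
  have f5 := le_abs_self (M.z (Nat.find x4 - 1) - M.z (Nat.find x1 - 1))
  unfold du at *
  linarith

/-! ### location -/

section loc
variable {kb n k0 b1 k1 : ℕ} (I : Ix S M Pt u1 kb n k0 b1 k1)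
include I

theorem memT {y : ℕ} (h0 : kb ≤ y) (h1 : y ≤ S.Jp) :
    y ∈ sb S M (T0 S M / 4) S.C ∪ Icc S.J S.Jp := by
  rcases lt_or_ge y S.J with e | e
  · exact mem_union_left _ (mem_filter.2 ⟨mem_Ioo.2 ⟨I.jl.trans_le h0, e⟩,
      I.sb.trans (X.h.sm h0), X.h.s_le_C h1⟩)
  · exact mem_union_right _ (mem_Icc.2 ⟨e, h1⟩)

theorem mem4 {k : ℕ} (h0 : S.J ≤ k) (h1 : k ≤ k1) : k ∈ R62.pl S M (u1 / 4) :=
  mem_filter.2 ⟨mem_Ico.2 ⟨h0, by have := I.kp; omega⟩, I.p4 k h1⟩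

theorem upB {k : ℕ} (h0 : S.J ≤ k) (h1 : k ≤ S.Jp) : M.del m a k ≤ 3 * tB M Pt k := by
  have P0 := X.P0
  have d0 := X.du0 k
  have j1 : 1 ≤ S.J := by have := X.h.i2; omega
  have e : tB M Pt k ^ 2 * (du M k + Pt) = Pt := by
    rw [tB, sq_sqrt (by positivity), div_mul_cancel₀ _ (by positivity)]
  have b0 : 0 ≤ tB M Pt k := sqrt_nonneg _
  rcases le_total Pt (du M k) with c | c
  · have := persist X.h.leg.zm (f := M.del m a) (a := k - 1) (b := S.Jp) (by omega)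
      (fun y hy => mem_union_right _ (by simp only [mem_Ioc, mem_Icc] at *; omega)) two_ne_zero X.en
      (W := du M k + Pt) (by positivity) (by rw [X.h.top _ le_rfl]; unfold du at *; linarith) b0
      e.ge (F := M.del m a k) fun y a b => (X.dmono h0 (by omega) b).trans (le_abs_self _)
    linarith
  · have e1 : 1 ≤ 2 * tB M Pt k ^ 2 := by
      refine le_of_mul_le_mul_right ?_ P0
      nlinarith [mul_le_mul_of_nonneg_left c (sq_nonneg (tB M Pt k))]
    nlinarith [(abs_le.1 (X.del1 h1)).2]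

theorem tBJ : tB M Pt S.J ≤ S.C * pp Pt := by
  have C1 := X.h.C1
  have p0 := X.p0
  have d0 := X.du0 S.J
  have P0 := X.P0
  refine sqrt_le_iff.2 ⟨by positivity, ?_⟩
  rw [div_le_iff₀ (by positivity)]
  have e := X.duJ
  calc Pt ≤ pp Pt ^ 2 * 1 * 1 := by linarith [X.Pp.1]
    _ ≤ pp Pt ^ 2 * S.C * (S.C * (du M S.J + Pt)) := by gcongr; nlinarith
    _ = _ := by ring

theorem sup {k : ℕ} (h0 : k0 ≤ k) (h1 : k ≤ S.J) : |M.del m a k| ≤ lam ^ 2 * pp Pt := by
  have h := X.h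
  have v0 := h.v0
  have C1 := h.C1
  have p0 := X.p0
  have e0 := I.e0
  have kJ := I.k0J
  have Jp : S.J < S.Jp := by have := I.Jb; have := I.bk; have := I.kp; omega
  have n1 := I.n1
  have n0 : 0 < n := by
    by_contra hh
    rw [show n = 0 by omega] at n1
    simp at n1; linarith
  have c1 : S.C * (n * S.v) ≤ 2 * (S.C * pp Pt) := by nlinarith [I.n2]
  have c2 : S.C * S.v ≤ S.C * pp Pt := by gcongr; exact X.vp
  have hV : Pt ≤ (S.C * pp Pt) ^ 2 * (2 * (n * (S.v / S.C))) := by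
    calc Pt = pp Pt ^ 2 * pp Pt := by rw [← pow_succ, X.p3]
      _ ≤ S.C * pp Pt ^ 2 * (2 * (n * S.v)) := by
          gcongr
          exacts [le_mul_of_one_le_left (by positivity) C1, by linarith]
      _ = _ := by field_simp
  have lo : ∀ k, k0 ≤ k → k < S.J → -M.del m a k ≤ 4 * (S.C * pp Pt) := fun k a' b => by
    have := lo_slope h (f := M.del m a) (K := S.C) (kb := kb) (k := k) (n := n) h.C0.le
      (by have := h.i1; have := I.jl; omega) n0 (by omega) b (fun y _ _ => X.sl y (by omega))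
      (fun y hy => X.memT I (mem_Ioc.1 hy).1.le (by have := (mem_Ioc.1 hy).2; omega)) two_ne_zero
      X.en (by positivity) hV
    linarith
  have uJ := X.upB I le_rfl Jp.le
  have tJ := X.tBJ I
  have s : Qf24.Sl (M.del m a) (S.C * S.v) kb S.Jp := fun y _ b => X.sl y b
  have fin : |M.del m a k| ≤ 5 * (S.C * pp Pt) := by
    refine abs_le.2 ⟨?_, ?_⟩
    · rcases lt_or_eq_of_le h1 with e | e
      · linarith [lo k h0 e, mul_pos h.C0 p0]
      · have e1 := X.sl (S.J - 1) (by omega)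
        rw [show S.J - 1 + 1 = S.J by omega] at e1
        rw [e]
        linarith [lo (S.J - 1) (by omega) (by omega)]
    · rcases le_or_gt S.J (k + n) with e | e
      · have := s.le' (by positivity) (i := k) (j := S.J) (U := n) (by omega) h1 Jp.le e
        linarith
      · have z := (h.z_tel (i := k) (j := k + n) (by have := h.i1; have := I.jl; omega)
          (by omega) e).1
        push_cast at z
        rw [add_sub_cancel_left] at z
        have := persist h.leg.zm (f := M.del m a) (a := k) (b := k + n) (by omega)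
          (fun y hy => X.memT I (by have := (mem_Ioc.1 hy).1; omega)
            (by have := (mem_Ioc.1 hy).2; omega)) two_ne_zero X.en
          (by positivity) (by linarith) (by positivity) hV
          (F := M.del m a k - S.C * S.v * n) fun y a b =>
            (s.le' (by positivity) (i := k) (j := y) (U := n) (by omega) a.le (by omega) b).trans
              (le_abs_self _)
        linarith [mul_pos h.C0 p0]
  refine fin.trans ?_
  rw [← mul_assoc, sq]
  gcongr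
  exacts [by linarith [X.big], by linarith [X.big], X.Cl]

omit I in
theorem tA_ge {k : ℕ} (h0 : S.J ≤ k) {x y : ℝ} (hy : 0 ≤ y) (h : dl S M k + pp Pt ≤ x)
    (hx : y ^ 2 * x ≤ Pt) : y ≤ tA S M Pt k := by
  have := X.dl0 h0
  have := X.p0
  refine le_sqrt_of_sq_le ?_
  rw [le_div_iff₀ (by positivity)]
  exact le_trans (by gcongr) hx

omit I in
theorem tA_sq {k : ℕ} (h0 : S.J ≤ k) : tA S M Pt k ^ 2 = Pt / (dl S M k + pp Pt) := by
  have := X.dl0 h0
  have := X.p0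
  have := X.P0
  exact sq_sqrt (by positivity)

theorem loA {k : ℕ} (h0 : S.J ≤ k) (h1 : k ≤ S.Jp) : -M.del m a k ≤ lam ^ 3 * tA S M Pt k := by
  have d0 := X.dl0 h0
  have p0 := X.p0
  have big := X.big
  have up := X.up
  have j1 : 1 ≤ S.J := by have := X.h.i2; omega
  have A0 : 0 ≤ tA S M Pt k := sqrt_nonneg _
  have l3 : 2 * lam ^ 2 ≤ lam ^ 3 := by rw [pow_succ' lam 2]; gcongr; linarith
  rcases le_total (pp Pt) (M.z (k - 1) - M.z (S.J - 1)) with c | c
  · have := persist X.h.leg.zm (f := M.del m a) (a := S.J - 1) (b := k - 1) (by omega)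
      (fun y hy => mem_union_right _ (by simp only [mem_Ioc, mem_Icc] at *; omega)) two_ne_zero X.en
      (W := (dl S M k + pp Pt) / 2) (l := 2 * tA S M Pt k) (by positivity)
      (by unfold dl; linarith) (by positivity)
      (by rw [mul_pow, X.tA_sq h0]; field_simp; linarith [X.P0]) (F := -M.del m a k) fun y a b =>
        (neg_le_neg (X.dmono (by omega) (by omega) h1)).trans (neg_le_abs _)
    have : 4 * tA S M Pt k ≤ lam ^ 3 * tA S M Pt k := by gcongr; nlinarith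
    linarith
  · have e := X.tA_ge h0 (y := pp Pt / 2) (x := 3 * pp Pt) (by positivity) (by unfold dl; linarith)
      (by nlinarith [X.p3, X.P0])
    have e1 := (abs_le.1 (X.sup I I.k0J.le le_rfl)).1
    have e2 := X.dmono le_rfl h0 h1
    nlinarith [mul_le_mul_of_nonneg_left e (show 0 ≤ 2 * lam ^ 2 by positivity)]

/-! ### the tolerance on the plateau -/

theorem tp_nn {k : ℕ} (h0 : S.J ≤ k) (h1 : k ≤ k1) : 0 < ls S M k ∧ 0 ≤ tA S M Pt k ∧
    0 ≤ min (tB M Pt k) (Vt + Λ₁ * ls S M k) := by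
  have := X.ls0 h0 (by have := I.kp; omega)
  have := X.kn.Vt0
  have := X.kn.L1.1
  exact ⟨by positivity, sqrt_nonneg _, le_min (sqrt_nonneg _) (by positivity)⟩

theorem tp0 {k : ℕ} (h0 : S.J ≤ k) (h1 : k ≤ k1) : 0 < tp S M Λ₁ Pt Vt k := by
  obtain ⟨a1, a2, a3⟩ := X.tp_nn I h0 h1
  unfold tp; linarith

theorem mB_le {k : ℕ} (h0 : S.J ≤ k) (h1 : k ≤ k1) : min (tB M Pt k) (Vt + Λ₁ * ls S M k) ≤
    min (√(Pt / du M k)) (Vt + Λ₁ * ls S M k) := by
  have P0 := X.P0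
  have d0 : 0 < du M k := sub_pos.2 (x_lt X.h h0 (by have := I.kp; omega))
  refine min_le_min_right _ ?_
  unfold tB; gcongr; linarith

theorem tp_cap {k : ℕ} (h0 : S.J ≤ k) (h1 : k ≤ k1) : tp S M Λ₁ Pt Vt k ≤ 2 * (Λ₀ * ls S M k) := by
  have e := X.kn.cap k (X.mem4 I h0 h1)
  have e1 := X.mB_le I h0 h1
  have e2 := X.tp0 I h0 h1
  change _ + tA S M Pt k + _ ≤ _ at e
  unfold tp at *
  linarith

theorem loc {k : ℕ} (h0 : S.J ≤ k) (h1 : k ≤ k1) : |M.del m a k| ≤ lam ^ 3 * tp S M Λ₁ Pt Vt k := by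
  obtain ⟨a1, a2, a3⟩ := X.tp_nn I h0 h1
  have kp := I.kp
  have e1 := X.loA I h0 (by omega)
  have e2 := X.upB I h0 (by omega)
  have e3 := X.lk.up k (X.mem4 I h0 h1)
  have l3 : 3 ≤ lam ^ 3 := le_trans (by linarith [X.big]) (le_self_pow₀ X.l1 (by norm_num))
  have V := X.kn.Vt0
  have L := X.kn.L1.1
  have e4 : M.del m a k ≤ 3 * min (tB M Pt k) (Vt + Λ₁ * ls S M k) := by
    rw [mul_min_of_nonneg _ _ (by norm_num)]
    exact le_min e2 (by nlinarith)
  unfold tp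
  refine abs_le.2 ⟨?_, ?_⟩ <;> nlinarith

theorem tp_sp {k : ℕ} (h0 : S.J ≤ k) (h1 : k ≤ k1) : √Pt ≤ 2 * tp S M Λ₁ Pt Vt k := by
  obtain ⟨a1, a2, a3⟩ := X.tp_nn I h0 h1
  have := X.tA_ge h0 (y := √Pt / 2) (x := 4) (by positivity) (by linarith [X.dl2 k, X.p1])
    (by rw [div_pow, sq_sqrt X.P0.le]; linarith)
  unfold tp; linarith

theorem Jk : S.J ≤ k1 := I.Jb.le.trans I.bk

theorem tp_J : pp Pt ≤ 2 * tp S M Λ₁ Pt Vt S.J ∧ tp S M Λ₁ Pt Vt S.J ≤ lam ^ 2 * pp Pt := by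
  obtain ⟨a1, a2, a3⟩ := X.tp_nn I le_rfl (X.Jk I)
  have p0 := X.p0
  have up := X.up
  have u0 := X.kn.u0.1
  have C1 := X.h.C1
  have d : dl S M S.J = S.u0 := by simp [dl]
  have e1 := X.tA_ge le_rfl (y := pp Pt / 2) (x := 2 * pp Pt) (by positivity) (by linarith)
    (by nlinarith [X.p3, X.P0])
  have e2 : tA S M Pt S.J ≤ pp Pt := by
    refine sqrt_le_iff.2 ⟨p0.le, ?_⟩
    rw [div_le_iff₀ (by linarith), d]
    nlinarith [X.p3]
  have e3 : ls S M S.J ≤ S.C * pp Pt :=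
    mul_le_mul X.kn.dj.2 ((min_le_left _ _).trans (by linarith))
      (le_min (by linarith) (X.du0 _)) X.h.C0.le
  have e4 := (min_le_left _ (Vt + Λ₁ * ls S M S.J)).trans (X.tBJ I)
  have e5 : 3 * (S.C * pp Pt) ≤ lam ^ 2 * pp Pt := by
    rw [← mul_assoc, sq]; gcongr
    exacts [by linarith [X.big], by linarith [X.big], X.Cl]
  unfold tp
  constructor <;> nlinarith

theorem tp_shell {i k : ℕ} (i0 : S.J ≤ i) (i1 : i ≤ k1) (h0 : S.J ≤ k) (h1 : k ≤ k1)
    (hs : |M.z (i - 1) - M.z (k - 1)| ≤ uu S M (M.z (k - 1)) / 2) :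
    tp S M Λ₁ Pt Vt i ≤ 2 * S.C * tp S M Λ₁ Pt Vt k := by
  have kp := I.kp
  obtain ⟨a1, a2, a3⟩ := X.tp_nn I h0 h1
  have C1 := X.h.C1
  have P0 := X.P0
  have p0 := X.p0
  have c := (cmp X.h (x_ge X.h h0) (x_lt X.h h0 (by omega)) (x_ge X.h i0) hs).2
  have u0 := uu_pos X.h X.kn.u0.1 h0 (by omega)
  have u1 := uu_lip (S := S) (M := M) (M.z (i - 1)) (M.z (k - 1))
  have e1 : ls S M i ≤ 2 * S.C * ls S M k :=
    calc _ ≤ S.C * S.den (M.z (k - 1)) * (2 * uu S M (M.z (k - 1))) :=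
          mul_le_mul c (show uu S M _ ≤ _ by linarith) (uu_pos X.h X.kn.u0.1 i0 (by omega)).le
            (by have := X.h.den0 (M.z (k - 1)); positivity)
      _ = _ := by change _ = 2 * S.C * (_ * uu S M _); ring
  obtain ⟨b1, b2⟩ := abs_le.1 hs
  have b3 : uu S M (M.z (k - 1)) ≤ dl S M k := min_le_left _ _
  have b4 : uu S M (M.z (k - 1)) ≤ du M k := min_le_right _ _
  have sq : ∀ x y : ℝ, 0 < x → y ≤ 2 * x → 0 < y → √(Pt / x) ≤ 2 * S.C * √(Pt / y) :=
    fun x y hx hxy hy => by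
      refine sqrt_le_iff.2 ⟨by positivity, ?_⟩
      rw [mul_pow, sq_sqrt (by positivity), ← mul_div_assoc, div_le_div_iff₀ hx hy]
      have : 2 * x ≤ (2 * S.C) ^ 2 * x := by gcongr; nlinarith
      nlinarith
  have e2 : tA S M Pt i ≤ 2 * S.C * tA S M Pt k := sq _ _ (by linarith [X.dl0 i0])
    (by unfold dl at *; linarith) (by linarith [X.dl0 h0])
  have e3 : tB M Pt i ≤ 2 * S.C * tB M Pt k := sq _ _ (by linarith [X.du0 i])
    (by unfold du at *; linarith) (by linarith [X.du0 k])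
  have e4 : min (tB M Pt i) (Vt + Λ₁ * ls S M i) ≤
      2 * S.C * min (tB M Pt k) (Vt + Λ₁ * ls S M k) := by
    rw [mul_min_of_nonneg _ _ (by positivity)]
    refine min_le_min e3 ?_
    nlinarith [X.kn.Vt0, mul_le_mul_of_nonneg_left e1 (zero_le_one.trans X.kn.L1.1)]
  unfold tp
  linarith

theorem tp_quasi {i k : ℕ} (i0 : S.J ≤ i) (i1 : i ≤ k1) (h0 : S.J ≤ k) (h1 : k ≤ k1) :
    tp S M Λ₁ Pt Vt i ≤ lam ^ 2 * tp S M Λ₁ Pt Vt k + |(i : ℝ) - k| * (lam ^ 5 * Λ₀ * S.v) := by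
  have kp := I.kp
  have t0 := X.tp0 I h0 h1
  have v0 := X.h.v0
  have big := X.big
  have C1 := X.h.C1
  have L0 : 1 ≤ Λ₀ := X.kn.L1.1.trans X.kn.L1.2.1
  have p0 : 0 ≤ |(i : ℝ) - k| * S.v := by positivity
  rcases lt_or_ge (4 * S.C ^ 2 * (|(k : ℝ) - i| * S.v)) (Pl57.ls S M k) with c | c
  · have e := X.tp_shell I i0 i1 h0 h1 (shell X.h X.kn.u0.1 X.fine h0 (by omega) i0 (by omega) c)
    have : 2 * S.C * tp S M Λ₁ Pt Vt k ≤ lam ^ 2 * tp S M Λ₁ Pt Vt k := by
      rw [sq]; gcongr; exacts [by linarith, X.Cl]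
    have : 0 ≤ |(i : ℝ) - k| * (lam ^ 5 * Λ₀ * S.v) := by positivity
    linarith
  · rw [abs_sub_comm] at c
    have e := ls_quasi X.h X.kn.u0.1 X.fine i0 (by omega) h0 (show k < S.Jp by omega)
    have e1 := X.tp_cap I i0 i1
    have e2 : ls S M i ≤ 4 * S.C ^ 2 * (5 * S.C ^ 2 * (|(i : ℝ) - k| * S.v)) := by
      refine le_trans e ?_
      gcongr
      nlinarith [mul_le_mul_of_nonneg_right (one_le_pow₀ C1 : 1 ≤ S.C ^ 2) p0]
    have e3 : tp S M Λ₁ Pt Vt i ≤ |(i : ℝ) - k| * (lam ^ 5 * Λ₀ * S.v) :=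
      calc _ ≤ 2 * (Λ₀ * (4 * S.C ^ 2 * (5 * S.C ^ 2 * (|(i : ℝ) - k| * S.v)))) :=
            e1.trans (by gcongr)
        _ = 40 * S.C ^ 4 * Λ₀ * (|(i : ℝ) - k| * S.v) := by ring
        _ ≤ lam * lam ^ 4 * Λ₀ * (|(i : ℝ) - k| * S.v) := by gcongr; exacts [by linarith, X.Cl]
        _ = _ := by ring
    have : 0 ≤ lam ^ 2 * tp S M Λ₁ Pt Vt k := by positivity
    linarith

end loc

end Tx

/-- the tolerance on the block -/
structure TT (lam : ℝ) (S : Sc) (M : Md) (m : ℕ) (a Λ₀ Λ₁ Pt Vt : ℝ) (k0 k1 : ℕ) (T : ℕ → ℝ) :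
    Prop where
  lip : ∀ k k' : ℕ, T k ≤ T k' + |(k : ℝ) - k'| * (lam ^ 12 * Λ₀ * S.v)
  fl : ∀ k, k0 ≤ k → k ≤ k1 → lam ^ 8 * √Pt ≤ T k
  loc : ∀ k, k0 ≤ k → k ≤ k1 → |M.del m a k| ≤ T k
  ls : ∀ k, S.J ≤ k → k ≤ k1 → min (ls S M k) 2 ≤ T k
  le3 : ∀ k, T k ≤ 3
  pl : ∀ k, S.J ≤ k → k ≤ k1 → T k ≤ lam ^ 9 * tp S M Λ₁ Pt Vt k
  sl : ∀ k, k0 ≤ k → k < S.J → T k ≤ Env96.ev (M.rb m a) (3 * (S.C * S.v)) k0 (S.J - 1) k +
    |M.del m a k| + max (lam ^ 7 * pp Pt - ((S.J : ℝ) - k) * S.v) 0 + lam ^ 8 * √Pt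

namespace Tx

variable {lam : ℝ} {S : Sc} {M : Md} {m : ℕ} {a E l Φ : ℝ} {P : ℝ → ℝ} {l0 Λ₀ Λ₁ Pt Vt u1 V4 : ℝ}
  (X : Tx lam S M m a E l Φ P l0 Λ₀ Λ₁ Pt Vt u1 V4) {kb n k0 b1 k1 : ℕ}
  (I : Ix S M Pt u1 kb n k0 b1 k1)
include X I

theorem ex_tt : ∃ T, TT lam S M m a Λ₀ Λ₁ Pt Vt k0 k1 T := by
  have v0 := X.h.v0
  have big := X.big
  have l1 := X.l1
  have L0 : 1 ≤ Λ₀ := X.kn.L1.1.trans X.kn.L1.2.1
  have kJ := I.k0J
  have Jk := X.Jk I
  have kp := I.kp
  have p0 := X.p0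
  set β : ℕ → ℝ := fun k => max |M.del m a k| (if S.J ≤ k then min (ls S M k) 2 else 0) with hβ
  obtain ⟨T, t1, t2, t3⟩ := env' β (show k0 ≤ k1 by omega)
    (show 0 ≤ lam ^ 12 * Λ₀ * S.v by positivity)
  have s0 : 0 ≤ lam ^ 8 * √Pt := by positivity
  have b0 : ∀ k, 0 ≤ β k := fun k => (abs_nonneg _).trans (le_max_left _ _)
  have bp : ∀ k, S.J ≤ k → k ≤ k1 → β k ≤ lam ^ 3 * tp S M Λ₁ Pt Vt k := fun k a' b => by
    obtain ⟨a1, a2, a3⟩ := X.tp_nn I a' b
    refine max_le (X.loc I a' b) ?_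
    rw [if_pos a']
    refine ((min_le_left _ _).trans ?_).trans
      (le_mul_of_one_le_left (X.tp0 I a' b).le (one_le_pow₀ l1))
    unfold tp; linarith
  have bs : ∀ k, k < S.J → β k = |M.del m a k| := fun k b => by
    simp only [hβ, if_neg b.not_ge]; exact max_eq_left (abs_nonneg _)
  have bq : ∀ i k : ℕ, S.J ≤ i → i ≤ k1 → S.J ≤ k → k ≤ k1 → lam ^ 3 * tp S M Λ₁ Pt Vt i ≤
      lam ^ 5 * tp S M Λ₁ Pt Vt k + |(i : ℝ) - k| * (lam ^ 12 * Λ₀ * S.v) := fun i k a' b c d => by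
    have e := mul_le_mul_of_nonneg_left (X.tp_quasi I a' b c d) (show 0 ≤ lam ^ 3 by positivity)
    have : |(i : ℝ) - k| * (lam ^ 8 * Λ₀ * S.v) ≤ |(i : ℝ) - k| * (lam ^ 12 * Λ₀ * S.v) := by
      gcongr; norm_num
    linarith
  obtain ⟨j1, j2⟩ := X.tp_J I
  refine ⟨fun k => T k + lam ^ 8 * √Pt, fun k k' => by linarith [t2 k k'],
    fun k a' b => by linarith [t1 k a' b, b0 k],
    fun k a' b => by linarith [t1 k a' b, le_max_left |M.del m a k| (if S.J ≤ k then
      min (ls S M k) 2 else 0)], fun k a' b => ?_, fun k => ?_, fun k a' b => ?_, fun k a' b => ?_⟩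
  · have := (le_max_right _ _).trans (t1 k (by omega) b)
    rw [if_pos a'] at this
    linarith
  · have e : T k ≤ 2 := t3 k 2 fun i a' b => by
      have : β i ≤ 2 := max_le ((X.del1 (by omega)).trans one_le_two)
        (by split_ifs; exacts [min_le_right _ _, zero_le_two])
      have : 0 ≤ |(i : ℝ) - k| * (lam ^ 12 * Λ₀ * S.v) := by positivity
      linarith
    have e1 := X.psm (j := 8) (by norm_num)
    have e2 : lam ^ 8 * √Pt ≤ lam ^ 8 * pp Pt := by gcongr; exact X.sp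
    linarith
  · have e : T k ≤ lam ^ 5 * tp S M Λ₁ Pt Vt k := t3 k _ fun i c d => by
      rcases le_or_gt S.J i with e | e
      · exact (bp i e d).trans (bq i k e d a' b)
      · have e1 := X.sup I c e.le
        have e2 := bq S.J k le_rfl Jk a' b
        have e3 : |(S.J : ℝ) - k| ≤ |(i : ℝ) - k| := by
          have f1 : (i : ℝ) ≤ S.J := by exact_mod_cast e.le
          have f2 : (S.J : ℝ) ≤ k := by exact_mod_cast a'
          rw [abs_of_nonpos (by linarith), abs_of_nonpos (by linarith)]; linarith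
        have e4 := mul_le_mul_of_nonneg_right e3 (show 0 ≤ lam ^ 12 * Λ₀ * S.v by positivity)
        have e5 : lam ^ 2 * pp Pt ≤ lam ^ 3 * tp S M Λ₁ Pt Vt S.J := by
          rw [pow_succ lam 2, mul_assoc]; gcongr; nlinarith
        rw [bs i e]
        linarith
    have e1 := X.tp_sp I a' b
    have t0 := X.tp0 I a' b
    have e2 : lam ^ 5 * tp S M Λ₁ Pt Vt k ≤ lam ^ 8 * tp S M Λ₁ Pt Vt k := by gcongr; norm_num
    have e3 : lam ^ 8 * √Pt ≤ lam ^ 8 * (2 * tp S M Λ₁ Pt Vt k) := by gcongr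
    have e4 : 3 * (lam ^ 8 * tp S M Λ₁ Pt Vt k) ≤ lam * (lam ^ 8 * tp S M Λ₁ Pt Vt k) := by
      gcongr; linarith
    linarith
  · have e0 := @Env96.ev_nonneg (M.rb m a) (3 * (S.C * S.v)) k0 (S.J - 1) k
    have e1 := abs_nonneg (M.del m a k)
    refine add_le_add_left (t3 k _ fun i c d => ?_) _
    rcases le_or_gt S.J i with e | e
    · have e2 := (bp i e d).trans (bq i S.J e d le_rfl Jk)
      have f1 : (S.J : ℝ) ≤ i := by exact_mod_cast e
      have f2 : (k : ℝ) ≤ S.J := by exact_mod_cast b.le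
      rw [abs_of_nonneg (by linarith)] at e2
      rw [abs_of_nonneg (show (0 : ℝ) ≤ i - k by linarith)]
      have e3 : lam ^ 5 * tp S M Λ₁ Pt Vt S.J ≤ lam ^ 5 * (lam ^ 2 * pp Pt) := by gcongr
      have e4 : ((S.J : ℝ) - k) * S.v ≤ ((S.J : ℝ) - k) * (lam ^ 12 * Λ₀ * S.v) :=
        mul_le_mul_of_nonneg_left (le_mul_of_one_le_left v0.le
          (one_le_mul_of_one_le_of_one_le (one_le_pow₀ l1) L0)) (by linarith)
      linarith [le_max_left (lam ^ 7 * pp Pt - ((S.J : ℝ) - k) * S.v) 0]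
    · have e2 := Env96.cone (f := M.rb m a) (c := 3 * (S.C * S.v)) (a := k0) (b := S.J - 1) (k := k)
        c (show i ≤ S.J - 1 by omega)
      have e3 := Env96.abs_tele (q := M.q) (g := S.C * S.v) (a := k0) (b := S.J)
        (fun y _ b => X.qs y (by omega)) c e.le a' b.le
      have e4 : 4 * (S.C * S.v) ≤ lam ^ 12 * Λ₀ * S.v := by
        rw [← mul_assoc]; gcongr ?_ * _
        calc _ ≤ lam * lam := by gcongr; exacts [X.h.C0.le, by linarith, X.Cl]
          _ = lam ^ 2 * 1 := by ring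
          _ ≤ _ := by gcongr; norm_num
      have e5 := mul_le_mul_of_nonneg_left e4 (abs_nonneg ((i : ℝ) - k))
      have e6 := le_max_right (lam ^ 7 * pp Pt - ((S.J : ℝ) - k) * S.v) 0
      rw [bs i e]
      obtain ⟨f1, f2⟩ := abs_le.1 e2
      obtain ⟨f3, f4⟩ := abs_le.1 e3
      have f5 := le_abs_self (M.del m a k)
      have f6 := neg_abs_le (M.del m a k)
      unfold Md.del at *
      exact abs_le.2 ⟨by linarith, by linarith⟩

/-! ### sums -/

omit X I in
theorem cube_step (x y : ℝ) (hy : 0 ≤ y) : y * max x 0 ^ 2 ≤ max (x + y) 0 ^ 3 - max x 0 ^ 3 := by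
  rcases le_total x 0 with h | h
  · rw [max_eq_right h]
    have := le_max_right (x + y) 0
    simp only [ne_eq, OfNat.ofNat_ne_zero, not_false_eq_true, zero_pow, mul_zero, sub_zero]
    positivity
  · rw [max_eq_left h, max_eq_left (by linarith)]
    nlinarith [mul_nonneg (mul_nonneg h hy) hy, mul_nonneg (mul_nonneg h h) hy,
      mul_nonneg (mul_nonneg hy hy) hy]

omit I in
theorem lw0 (k : ℕ) : 0 ≤ lw M k := sub_nonneg.2 (X.h.leg.zm (Nat.sub_le _ _))

omit X I in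
theorem lw_sum {i j : ℕ} (h : i ≤ j) : ∑ k ∈ Ico i j, lw M k = du M i - du M j ∨ i = 0 := by
  rcases Nat.eq_zero_or_pos i with e | e
  · exact Or.inr e
  left
  have := tel (fun k => -du M k) h
  rw [← neg_sub_neg, ← this]
  exact sum_congr rfl fun k hk => by simp [lw, du]

omit I in
theorem logP : log (3 / Pt) ≤ lam ^ 3 / 4 := by
  have P0 := X.P0
  have C0 := X.h.C0
  have n1 := X.F.n1
  have big := X.big
  have e : 3 / Pt ≤ 3 * S.C * (S.n : ℝ) ^ S.A := by
    have e1 := X.h.v1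
    rw [div_le_iff₀ C0] at e1
    rw [div_le_iff₀ P0]
    have := mul_le_mul_of_nonneg_right X.kn.Ptw.2 (show 0 ≤ (S.n : ℝ) ^ S.A * S.C by positivity)
    nlinarith
  refine (log_le_log (by positivity) e).trans ?_
  rw [log_mul (by positivity) (by positivity), log_pow]
  have e1 := log_le_sub_one_of_pos (show 0 < 3 * S.C by positivity)
  have e2 : (S.A : ℝ) * log S.n ≤ lam * lam :=
    mul_le_mul X.Al X.lg (log_nonneg n1) (by linarith)
  nlinarith [X.Cl, mul_le_mul_of_nonneg_right big (show 0 ≤ lam * lam by positivity)]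

theorem sumA : ∑ k ∈ Ico S.J b1, lw M k * tA S M Pt k ^ 2 ≤ lam ^ 3 * Pt := by
  have P0 := X.P0
  have p0 := X.p0
  have bk := I.bk
  have kp := I.kp
  have j1 : 1 ≤ S.J := by have := X.h.i2; omega
  have e := tel (fun k => log (dl S M k + pp Pt)) I.Jb.le
  have e1 : ∑ k ∈ Ico S.J b1, lw M k * tA S M Pt k ^ 2 ≤ ∑ k ∈ Ico S.J b1,
      2 * Pt * (log (dl S M (k + 1) + pp Pt) - log (dl S M k + pp Pt)) := sum_le_sum fun k hk => by
    obtain ⟨a1, a2⟩ := mem_Ico.1 hk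
    have d0 := X.dl0 a1
    have w0 := X.lw0 k
    have w1 := (X.lw_le a1 (by omega)).trans (min_le_left _ _)
    have d : dl S M (k + 1) = dl S M k + lw M k := by simp [dl, lw]; ring
    have f := one_sub_inv_le_log_of_pos
      (show 0 < (dl S M k + lw M k + pp Pt) / (dl S M k + pp Pt) by positivity)
    rw [X.tA_sq a1, d, ← log_div (by positivity) (by positivity)]
    refine le_trans ?_ (mul_le_mul_of_nonneg_left f (by positivity))
    rw [inv_div, one_sub_div (by positivity), ← mul_div_assoc, ← mul_div_assoc,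
      div_le_div_iff₀ (by positivity) (by positivity)]
    nlinarith [mul_nonneg (mul_nonneg w0 P0.le) (show 0 ≤ dl S M k + pp Pt - lw M k by linarith)]
  rw [← mul_sum, e] at e1
  refine e1.trans ?_
  have d0 := X.dl0 le_rfl
  have d1 := X.dl0 I.Jb.le
  rw [← log_div (by positivity) (by positivity)]
  have e2 : log ((dl S M b1 + pp Pt) / (dl S M S.J + pp Pt)) ≤ log (3 / Pt) := by
    gcongr
    exacts [by linarith [X.dl2 b1, X.p1], by linarith [X.Pp.2]]
  nlinarith [mul_le_mul_of_nonneg_left (e2.trans X.logP) P0.le,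
    mul_pos (pow_pos (show 0 < lam by linarith [X.big]) 3) P0]

theorem sumB : ∑ k ∈ Ico S.J b1, lw M k * tB M Pt k ^ 2 ≤ lam ^ 3 * Pt := by
  have P0 := X.P0
  have e := tel (fun k => -log (du M k + Pt)) I.Jb.le
  have e1 : ∑ k ∈ Ico S.J b1, lw M k * tB M Pt k ^ 2 ≤ ∑ k ∈ Ico S.J b1,
      Pt * (-log (du M (k + 1) + Pt) - -log (du M k + Pt)) := sum_le_sum fun k hk => by
    have d0 := X.du0 k
    have d1 := X.du0 (k + 1)
    have d : lw M k = du M k - du M (k + 1) := by simp [du, lw]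
    have f := log_le_sub_one_of_pos (show 0 < (du M (k + 1) + Pt) / (du M k + Pt) by positivity)
    rw [log_div (by positivity) (by positivity), div_sub_one (by positivity)] at f
    rw [tB, sq_sqrt (by positivity), d, mul_comm, div_mul_eq_mul_div, mul_div_assoc]
    gcongr
    rw [show du M (k + 1) + Pt - (du M k + Pt) = -(du M k - du M (k + 1)) by ring, neg_div] at f
    linarith
  rw [← mul_sum, e] at e1
  refine e1.trans ?_
  have d0 := X.du0 S.J
  have d1 := X.du0 b1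
  rw [neg_sub_neg, ← log_div (by positivity) (by positivity)]
  have e2 : log ((du M S.J + Pt) / (du M b1 + Pt)) ≤ log (3 / Pt) := by
    gcongr
    exacts [by linarith [X.du1 S.J, X.p1, X.Pp.2], by linarith]
  nlinarith [X.logP, pow_pos (show 0 < lam by linarith [X.big]) 3]

theorem pl_eq : R62.pl S M u1 = Ico S.J b1 := by
  have := I.bk
  have := I.kp
  ext k
  simp only [R62.pl, mem_filter, mem_Ico, I.p1]
  omega

omit I in
theorem V4_ge : Pt * l ^ 2 ≤ V4 ∧ u1 ≤ V4 ∧ ∑ k ∈ R62.pl S M u1, lw M k *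
    (ls S M k ^ 4 + min (√(Pt / du M k)) (Vt + Λ₁ * ls S M k) ^ 4) ≤ V4 := by
  have e := X.kn.s4
  have P0 := X.P0
  have e1 : 0 ≤ ∑ k ∈ R62.pl S M u1, lw M k *
      (ls S M k ^ 4 + min (√(Pt / du M k)) (Vt + Λ₁ * ls S M k) ^ 4) :=
    sum_nonneg fun k _ => mul_nonneg (X.lw0 k) (by positivity)
  have e2 : 0 ≤ u1 := X.h.v0.le.trans X.kn.u1P.1
  have e3 : 0 ≤ Pt * l ^ 2 := by positivity
  refine ⟨?_, ?_, ?_⟩ <;> linarith

theorem sum_tp : ∑ k ∈ Ico S.J b1, lw M k * tp S M Λ₁ Pt Vt k ^ 2 ≤ lam ^ 4 * Pt ∧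
    ∑ k ∈ Ico S.J b1, lw M k * tp S M Λ₁ Pt Vt k ^ 4 ≤ lam ^ 4 * V4 := by
  have bk := I.bk
  have sA := X.sumA I
  have sB := X.sumB I
  have s2 := X.kn.s2
  obtain ⟨v1, -, v4⟩ := X.V4_ge
  rw [X.pl_eq I] at s2 v4
  have P0 := X.P0
  have big := X.big
  have l3 : 1000 ≤ lam ^ 3 := big.trans (le_self_pow₀ X.l1 (by norm_num))
  have l4 : 1000 * lam ^ 3 ≤ lam ^ 4 := by rw [pow_succ' lam 3]; gcongr
  have key : ∀ k, tp S M Λ₁ Pt Vt k ^ 2 ≤ 3 * (ls S M k ^ 2 +
      tA S M Pt k ^ 2 + min (tB M Pt k) (Vt + Λ₁ * ls S M k) ^ 2) := fun k => by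
    unfold tp
    nlinarith [sq_nonneg (ls S M k - tA S M Pt k),
      sq_nonneg (ls S M k - min (tB M Pt k) (Vt + Λ₁ * ls S M k)),
      sq_nonneg (tA S M Pt k - min (tB M Pt k) (Vt + Λ₁ * ls S M k))]
  have m0 : ∀ k ∈ Ico S.J b1, 0 ≤ min (tB M Pt k) (Vt + Λ₁ * ls S M k) := fun k hk =>
    (X.tp_nn I (mem_Ico.1 hk).1 (by have := (mem_Ico.1 hk).2; omega)).2.2
  constructor
  · calc _ ≤ ∑ k ∈ Ico S.J b1, (3 * (lw M k * ls S M k ^ 2) +
          3 * (lw M k * tA S M Pt k ^ 2) + 3 * (lw M k * tB M Pt k ^ 2)) :=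
          sum_le_sum fun k hk => by
            nlinarith [mul_le_mul_of_nonneg_left (key k) (X.lw0 k), mul_le_mul_of_nonneg_left
              (pow_le_pow_left₀ (m0 k hk) (min_le_left _ _) 2) (X.lw0 k)]
      _ ≤ _ := by
          simp only [sum_add_distrib, ← mul_sum]
          nlinarith [mul_le_mul_of_nonneg_right l3 P0.le, mul_le_mul_of_nonneg_right l4 P0.le]
  · calc _ ≤ ∑ k ∈ Ico S.J b1, (27 * (lw M k *
          (ls S M k ^ 4 + min (√(Pt / du M k)) (Vt + Λ₁ * ls S M k) ^ 4)) +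
          27 * l ^ 2 * (lw M k * tA S M Pt k ^ 2)) :=
          sum_le_sum fun k hk => by
            have d0 := X.dl0 (mem_Ico.1 hk).1
            have p0 := X.p0
            have a1 : tA S M Pt k ^ 2 ≤ l ^ 2 := by
              refine le_trans ?_ (pow_le_pow_left₀ p0.le X.pl 2)
              rw [X.tA_sq (mem_Ico.1 hk).1, div_le_iff₀ (by positivity)]
              nlinarith [X.p3, mul_pos (mul_pos p0 p0) d0]
            have a2 := pow_le_pow_left₀ (sq_nonneg _) (key k) 2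
            have a3 := mul_le_mul a1 (le_refl (tA S M Pt k ^ 2)) (sq_nonneg _) (sq_nonneg _)
            have a4 := pow_le_pow_left₀ (m0 k hk) (X.mB_le I (mem_Ico.1 hk).1
              (by have := (mem_Ico.1 hk).2; omega)) 4
            have a5 : tp S M Λ₁ Pt Vt k ^ 4 ≤ 27 * (ls S M k ^ 4 +
                min (√(Pt / du M k)) (Vt + Λ₁ * ls S M k) ^ 4) + 27 * l ^ 2 * tA S M Pt k ^ 2 := by
              generalize min (tB M Pt k) (Vt + Λ₁ * ls S M k) = z at *
              nlinarith [sq_nonneg (ls S M k ^ 2 - tA S M Pt k ^ 2),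
                sq_nonneg (ls S M k ^ 2 - z ^ 2), sq_nonneg (tA S M Pt k ^ 2 - z ^ 2)]
            nlinarith [mul_le_mul_of_nonneg_left a5 (X.lw0 k)]
      _ ≤ _ := by
          simp only [sum_add_distrib, ← mul_sum]
          have V0 : 0 ≤ V4 := le_trans (by positivity) v1
          nlinarith [mul_le_mul_of_nonneg_left sA (sq_nonneg l), mul_le_mul_of_nonneg_right l3 V0,
            mul_le_mul_of_nonneg_right l4 V0,
            mul_le_mul_of_nonneg_left v1 (show 0 ≤ lam ^ 3 by positivity)]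

variable {T : ℕ → ℝ} (Y : TT lam S M m a Λ₀ Λ₁ Pt Vt k0 k1 T)
include Y

theorem T0' {k : ℕ} (h0 : k0 ≤ k) (h1 : k ≤ k1) : 0 < T k := by
  have := X.P0
  have := X.big
  exact lt_of_lt_of_le (by positivity) (Y.fl k h0 h1)

theorem T_sl {k : ℕ} (h0 : k0 ≤ k) (h1 : k < S.J) : T k ≤ lam ^ 9 * l := by
  have e := Y.sl k h0 h1
  have kp := I.kp
  have Jk := X.Jk I
  have p0 := X.p0
  have big := X.big
  have l1 := X.l1
  have v0 := X.h.v0
  have e1 := Env96.ev_le_sup (f := M.rb m a) (q := M.q) (g := S.C * S.v) (c := 3 * (S.C * S.v))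
    (a := k0) (b := S.J - 1) (k := k) (D := lam ^ 2 * pp Pt) (fun y _ b => X.qs y (by omega))
    (by linarith [mul_pos X.h.C0 v0]) (fun i a' b => X.sup I a' (by omega)) h0 (by omega)
  have e2 := X.sup I h0 h1.le
  have e3 : max (lam ^ 7 * pp Pt - ((S.J : ℝ) - k) * S.v) 0 ≤ lam ^ 8 * pp Pt := by
    have f : (k : ℝ) ≤ S.J := by exact_mod_cast h1.le
    have : lam ^ 7 * pp Pt ≤ lam ^ 8 * pp Pt := by gcongr; norm_num
    exact max_le (by nlinarith) (by positivity)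
  have e4 : lam ^ 8 * √Pt ≤ lam ^ 8 * pp Pt := by gcongr; exact X.sp
  have e5 : lam ^ 2 * pp Pt ≤ lam ^ 8 * pp Pt := by gcongr; norm_num
  have e6 : 5 * (lam ^ 8 * pp Pt) ≤ lam * (lam ^ 8 * l) := by
    gcongr; exacts [by linarith, X.pl]
  linarith

theorem sum_sl : ∑ k ∈ Ico k0 S.J, lw M k * T k ^ 2 ≤ lam ^ 23 * Pt := by
  have h := X.h
  have kp := I.kp
  have Jk := X.Jk I
  have kJ := I.k0J
  have p0 := X.p0
  have P0 := X.P0
  have big := X.big
  have l1 := X.l1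
  have v0 := h.v0
  have C1 := h.C1
  have jl : S.j0 < k0 := by have := h.i1; have := I.jl; have := I.e0; omega
  have zs : ∀ k ∈ Ico k0 S.J, S.v / S.C ≤ lw M k ∧ lw M k ≤ S.C * S.v := fun k hk => by
    obtain ⟨a1, a2⟩ := mem_Ico.1 hk
    have := h.zs (k - 1) (by omega) (by omega)
    rwa [show k - 1 + 1 = k by omega] at this
  have sd : ∑ k ∈ Ico k0 S.J, lw M k * M.del m a k ^ 2 ≤ Pt :=
    le_trans (sum_le_sum_of_subset_of_nonneg (fun k hk => X.memT I
      (by have := (mem_Ico.1 hk).1; have := I.e0; omega) (by have := (mem_Ico.1 hk).2; omega))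
      fun k _ _ => mul_nonneg (X.lw0 k) (sq_nonneg _)) X.lk.top
  have sd' : S.v * ∑ k ∈ Ico k0 S.J, M.del m a k ^ 2 ≤ S.C * Pt := by
    refine le_trans ?_ (mul_le_mul_of_nonneg_left sd h.C0.le)
    rw [mul_sum, mul_sum]
    refine sum_le_sum fun k hk => ?_
    have := (zs k hk).1
    rw [div_le_iff₀ h.C0] at this
    nlinarith [mul_le_mul_of_nonneg_right this (sq_nonneg (M.del m a k))]
  have se := Env96.sum_sq (f := M.rb m a) (q := M.q) (g := S.C * S.v) (c := 3 * (S.C * S.v))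
    (a := k0) (b := S.J - 1) (D := lam ^ 2 * pp Pt) (by omega) (by positivity) (by positivity) le_rfl
    (fun y _ _ => rb_mono X.F.lg.m0 y.le_succ) (fun y _ b => X.qs y (by omega))
    (X.sup I le_rfl kJ.le) (X.sup I (by omega) (by omega))
  rw [show Icc k0 (S.J - 1) = Ico k0 S.J by ext; simp only [mem_Icc, mem_Ico]; omega] at se
  have se' : S.C * S.v * ∑ k ∈ Ico k0 S.J, Env96.ev (M.rb m a) (3 * (S.C * S.v)) k0 (S.J - 1) k ^ 2 ≤
      lam ^ 22 * Pt := by
    refine (mul_le_mul_of_nonneg_left se (by positivity)).trans ?_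
    calc _ = 56 / 3 * (2 * lam ^ 6 * pp Pt ^ 3 +
          4 * S.C * (S.v * ∑ k ∈ Ico k0 S.J, M.del m a k ^ 2)) := by
          unfold Md.del; field_simp
      _ ≤ 56 / 3 * (2 * lam ^ 6 * Pt + 4 * lam * (lam ^ 5 * Pt)) := by
          rw [X.p3]
          gcongr _ * (_ + _ * ?_ * ?_)
          exacts [X.Cl, sd'.trans (by gcongr; exact X.Cl.trans (le_self_pow₀ l1 (by norm_num)))]
      _ = 112 * lam ^ 6 * Pt := by ring
      _ ≤ lam ^ 16 * lam ^ 6 * Pt := by
          gcongr; exact le_trans (by linarith) (le_self_pow₀ l1 (by norm_num))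
      _ = _ := by ring
  have sc : S.v * ∑ k ∈ Ico k0 S.J, max (lam ^ 7 * pp Pt - ((S.J : ℝ) - k) * S.v) 0 ^ 2 ≤
      lam ^ 21 * Pt := by
    have e := tel (fun k : ℕ => max (lam ^ 7 * pp Pt - ((S.J : ℝ) - k) * S.v) 0 ^ 3) kJ.le
    rw [mul_sum]
    refine (sum_le_sum fun k _ => ?_).trans (e.le.trans ?_)
    · refine (cube_step _ _ v0.le).trans (le_of_eq ?_)
      push_cast
      congr 3
      ring
    · rw [sub_self, zero_mul, sub_zero, max_eq_left (by positivity), mul_pow, X.p3,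
        show (lam ^ 7) ^ 3 = lam ^ 21 by ring]
      have := le_max_right (lam ^ 7 * pp Pt - ((S.J : ℝ) - k0) * S.v) 0
      have : 0 ≤ max (lam ^ 7 * pp Pt - ((S.J : ℝ) - k0) * S.v) 0 ^ 3 := by positivity
      linarith
  have s1 : ∑ k ∈ Ico k0 S.J, lw M k ≤ 1 := by
    rw [(lw_sum kJ.le).resolve_right (by omega)]
    linarith [X.du1 k0, X.du0 S.J]
  calc _ ≤ ∑ k ∈ Ico k0 S.J, (4 * (S.C * S.v * Env96.ev (M.rb m a) (3 * (S.C * S.v)) k0 (S.J - 1) k ^ 2)
        + 4 * (lw M k * M.del m a k ^ 2) +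
        4 * S.C * (S.v * max (lam ^ 7 * pp Pt - ((S.J : ℝ) - k) * S.v) 0 ^ 2) +
        4 * (lam ^ 16 * Pt) * lw M k) := sum_le_sum fun k hk => by
        obtain ⟨a1, a2⟩ := mem_Ico.1 hk
        have e := pow_le_pow_left₀ (X.T0' I Y a1 (by omega)).le (Y.sl k a1 a2) 2
        have w0 := X.lw0 k
        have w1 := (zs k hk).2
        have q1 : (lam ^ 8 * √Pt) ^ 2 = lam ^ 16 * Pt := by rw [mul_pow, sq_sqrt P0.le]; ring
        rw [← sq_abs (M.del m a k), ← q1]
        generalize Env96.ev (M.rb m a) (3 * (S.C * S.v)) k0 (S.J - 1) k = x at *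
        generalize |M.del m a k| = y at *
        generalize max (lam ^ 7 * pp Pt - ((S.J : ℝ) - k) * S.v) 0 = z at *
        generalize lam ^ 8 * √Pt = w at *
        have e1 : T k ^ 2 ≤ 4 * (x ^ 2 + y ^ 2 + z ^ 2 + w ^ 2) := by
          nlinarith [sq_nonneg (x - y), sq_nonneg (x - z), sq_nonneg (x - w), sq_nonneg (y - z),
            sq_nonneg (y - w), sq_nonneg (z - w)]
        nlinarith [mul_le_mul_of_nonneg_left e1 w0, mul_le_mul_of_nonneg_right w1 (sq_nonneg x),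
          mul_le_mul_of_nonneg_right w1 (sq_nonneg z)]
    _ ≤ 4 * (lam ^ 22 * Pt) + 4 * (lam ^ 22 * Pt) + 4 * lam * (lam ^ 21 * Pt) +
        4 * (lam ^ 22 * Pt) * 1 := by
        simp only [sum_add_distrib, ← mul_sum]
        have f1 := sd.trans (le_mul_of_one_le_left P0.le (one_le_pow₀ (n := 22) l1))
        have f2 := X.Cl
        have f3 := X.pw (i := 16) (j := 22) (by norm_num)
        have f4 : 0 ≤ ∑ i ∈ Ico k0 S.J, lw M i := sum_nonneg fun k _ => X.lw0 k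
        gcongr 4 * ?_ + 4 * ?_ + 4 * ?_ * ?_ + 4 * (?_ * _) * ?_
    _ = 16 * (lam ^ 22 * Pt) := by ring
    _ ≤ lam * (lam ^ 22 * Pt) := by gcongr; linarith
    _ = _ := by ring

theorem sums : ∑ k ∈ Ico k0 (k1 + 1), lw M k * T k ^ 0 ≤ 1 ∧
    ∑ k ∈ Ico k0 (k1 + 1), lw M k * T k ^ 2 ≤ lam ^ 24 * Pt ∧
    ∑ k ∈ Ico k0 (k1 + 1), lw M k * T k ^ 4 ≤ lam ^ 42 * V4 := by
  have kJ := I.k0J
  have Jb := I.Jb
  have bk := I.bk
  have P0 := X.P0
  have big := X.big
  have l1 := X.l1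
  have jl : 0 < k0 := by have := I.jl; have := I.e0; omega
  obtain ⟨v1, v2, -⟩ := X.V4_ge
  have V0 : 0 ≤ V4 := le_trans (by positivity) v1
  obtain ⟨p2, p4⟩ := X.sum_tp I
  have s2 := X.sum_sl I Y
  have sp : ∀ j, ∑ k ∈ Ico S.J b1, lw M k * T k ^ j ≤
      (lam ^ 9) ^ j * ∑ k ∈ Ico S.J b1, lw M k * tp S M Λ₁ Pt Vt k ^ j := fun j => by
    rw [mul_sum]
    refine sum_le_sum fun k hk => ?_
    obtain ⟨a1, a2⟩ := mem_Ico.1 hk
    rw [mul_left_comm, ← mul_pow]
    exact mul_le_mul_of_nonneg_left (pow_le_pow_left₀ (X.T0' I Y (by omega) (by omega)).le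
      (Y.pl k a1 (by omega)) j) (X.lw0 k)
  have se : ∀ j, ∑ k ∈ Ico b1 (k1 + 1), lw M k * T k ^ j ≤ 3 ^ j * u1 := fun j => by
    calc _ ≤ ∑ k ∈ Ico b1 (k1 + 1), 3 ^ j * lw M k := sum_le_sum fun k hk => by
          obtain ⟨a1, a2⟩ := mem_Ico.1 hk
          rw [mul_comm (3 ^ j)]
          exact mul_le_mul_of_nonneg_left (pow_le_pow_left₀ (X.T0' I Y (by omega) (by omega)).le
            (Y.le3 k) j) (X.lw0 k)
      _ ≤ _ := by
          rw [← mul_sum, (lw_sum (by omega)).resolve_right (by omega)]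
          gcongr
          linarith [X.du0 (k1 + 1), not_le.1 ((I.p1 b1).not.2 (lt_irrefl _))]
  have s4 : ∑ k ∈ Ico k0 S.J, lw M k * T k ^ 4 ≤ (lam ^ 9 * l) ^ 2 * (lam ^ 23 * Pt) := by
    refine le_trans ?_ (mul_le_mul_of_nonneg_left s2 (by positivity))
    rw [mul_sum]
    refine sum_le_sum fun k hk => ?_
    obtain ⟨a1, a2⟩ := mem_Ico.1 hk
    have e := pow_le_pow_left₀ (X.T0' I Y a1 (by omega)).le (X.T_sl I Y a1 a2) 2
    nlinarith [mul_le_mul_of_nonneg_right e (mul_nonneg (X.lw0 k) (sq_nonneg (T k)))]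
  refine ⟨?_, ?_, ?_⟩
  · simp only [pow_zero, mul_one]
    rw [(lw_sum (by omega)).resolve_right (by omega)]
    linarith [X.du1 k0, X.du0 (k1 + 1)]
  · rw [← sum_Ico_consecutive _ kJ.le (by omega), ← sum_Ico_consecutive _ Jb.le (by omega)]
    have e1 := (sp 2).trans (mul_le_mul_of_nonneg_left p2 (by positivity))
    have e2 : lam ^ 22 * Pt ≤ lam ^ 23 * Pt := by gcongr; norm_num
    have e3 : Pt ≤ lam ^ 23 * Pt := le_mul_of_one_le_left P0.le (one_le_pow₀ l1)
    have e4 : 11 * (lam ^ 23 * Pt) ≤ lam * (lam ^ 23 * Pt) := by gcongr; linarith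
    linarith [se 2, X.kn.u1P.2]
  · rw [← sum_Ico_consecutive _ kJ.le (by omega), ← sum_Ico_consecutive _ Jb.le (by omega)]
    have e1 := (sp 4).trans (mul_le_mul_of_nonneg_left p4 (by positivity))
    have e2 : lam ^ 40 * V4 ≤ lam ^ 41 * V4 := by gcongr; norm_num
    have e3 : V4 ≤ lam ^ 41 * V4 := le_mul_of_one_le_left V0 (one_le_pow₀ l1)
    have e4 : 83 * (lam ^ 41 * V4) ≤ lam * (lam ^ 41 * V4) := by gcongr; linarith
    have e5 : lam ^ 41 * (Pt * l ^ 2) ≤ lam ^ 41 * V4 := by gcongr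
    linarith [se 4]

/-! ### the block -/

omit Y in
theorem L1 : 1 ≤ lam ^ 12 * Λ₀ ∧ 3 ≤ lam ^ 12 * Λ₀ := by
  have L0 : 1 ≤ Λ₀ := X.kn.L1.1.trans X.kn.L1.2.1
  have : lam ≤ lam ^ 12 := le_self_pow₀ X.l1 (by norm_num)
  constructor <;> nlinarith [X.big]

theorem r1 (k : ℕ) : T k / (lam ^ 12 * Λ₀) ≤ 1 := by
  rw [div_le_one (by linarith [(X.L1 I).1])]
  exact (Y.le3 k).trans (X.L1 I).2

theorem w3le {k : ℕ} (h0 : k0 ≤ k) (h1 : k ≤ k1) :
    S.w3 1 ≤ T k * (T k / (lam ^ 12 * Λ₀)) ^ 2 := by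
  have L := (X.L1 I).1
  have P0 := X.P0
  have big := X.big
  have e : Λ₀ ^ 2 * S.w3 1 ≤ √Pt ^ 3 := by
    refine le_of_sq_le_sq ?_ (by positivity) |> id
    rw [← pow_mul, show 3 * 2 = 2 * 3 by norm_num, pow_mul, sq_sqrt P0.le]
    exact X.kn.Ptw.1
  rw [div_pow, ← mul_div_assoc, le_div_iff₀ (by positivity), ← pow_succ']
  calc _ = lam ^ 24 * (Λ₀ ^ 2 * S.w3 1) := by ring
    _ ≤ lam ^ 24 * √Pt ^ 3 := by gcongr
    _ = (lam ^ 8 * √Pt) ^ 3 := by ring
    _ ≤ _ := by gcongr; exact Y.fl k h0 h1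

theorem near {k y : ℕ} (h : |(y : ℝ) - k| * S.v ≤ T k / (lam ^ 12 * Λ₀)) : T y ≤ 2 * T k := by
  have L := (X.L1 I).1
  rw [le_div_iff₀ (by positivity)] at h
  linarith [Y.lip y k]

theorem qg : QG (200 * S.C ^ 5) (200 * S.C ^ 5) S M m a 1 k0 k1 M.q
    (fun k => T k / (lam ^ 12 * Λ₀)) T := by
  have h := X.h
  have C1 := h.C1
  have v0 := h.v0
  have kJ := I.k0J
  have Jk := X.Jk I
  have kp := I.kp
  have i4 := h.i4
  have big := X.big
  have l1 := X.l1
  obtain ⟨L, L3⟩ := X.L1 I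
  have C5 : S.C ≤ S.C ^ 5 := le_self_pow₀ C1 (by norm_num)
  have K1 : 1 ≤ 200 * S.C ^ 5 := by linarith
  have w0 := X.F.w3_pos one_pos
  have mn : ∀ k, min (T k / (lam ^ 12 * Λ₀)) 1 = T k / (lam ^ 12 * Λ₀) := fun k =>
    min_eq_left (X.r1 I Y k)
  have ge : ∀ k, k0 ≤ k → k ≤ k1 → T k / (lam ^ 12 * Λ₀) ≤ T k := fun k a' b =>
    div_le_self (X.T0' I Y a' b).le L
  refine ⟨⟨one_pos, by have := I.jl; have := I.e0; omega, by omega, by omega, by omega, ?_,
      (h.leg.z1 _).trans (by linarith), X.kn.w0 1 ?_ C1, fun k a' b => by omega⟩,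
    T57.crude_top X.F.lg.m0 K1 (by linarith), h.q_nn (by omega), fun k a' b => ?_, fun k a' b => ?_,
    fun k a' b => ?_, ge, Y.loc, fun k i a' b c d => ?_, fun i k a' b c => ?_, fun k a' b => ?_,
    fun k y a' b c d e => ?_⟩
  · have e := X.T0_ge
    have e1 := I.sb.trans (h.sm (show kb ≤ k0 by have := I.e0; omega))
    have e2 : S.C ^ 4 ≤ S.C ^ 5 := pow_le_pow_right₀ C1 (by norm_num)
    have s0 := h.s_nn k0
    nlinarith [mul_le_mul_of_nonneg_left e1 (show 0 ≤ S.C ^ 4 by positivity),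
      mul_le_mul_of_nonneg_right e2 s0]
  · have := X.sm (j := 0) (by norm_num)
    linarith [X.kn.l0l]
  · obtain ⟨e1, e2⟩ := X.qs k (by omega)
    exact ⟨by linarith, by nlinarith⟩
  · have e1 := Y.lip (k + 1) k
    have e2 := Y.lip k (k + 1)
    simp only [Nat.cast_add, Nat.cast_one, add_sub_cancel_left, sub_add_cancel_left, abs_neg,
      abs_one, one_mul] at e1 e2
    rw [← sub_div, abs_div, abs_of_pos (show 0 < lam ^ 12 * Λ₀ by positivity),
      div_le_iff₀ (by positivity)]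
    have : lam ^ 12 * Λ₀ * S.v ≤ 200 * S.C ^ 5 * S.v * (lam ^ 12 * Λ₀) := by
      nlinarith [mul_le_mul_of_nonneg_right K1 (show 0 ≤ lam ^ 12 * Λ₀ * S.v by positivity)]
    exact abs_le.2 ⟨by linarith, by linarith⟩
  · have e := X.w3le I Y a' b
    have t0 := X.T0' I Y a' b
    have n1 := X.F.n1
    have e1 : 1 ≤ S.n * S.w3 1 := by
      have m0 := h.ms_pos zero_le_one
      rw [Sc.w3, mul_one, ← mul_div_assoc, le_div_iff₀ (by positivity)]
      nlinarith [X.F.ms_le_one 1, h.F1]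
    refine le_of_pow_le_pow_left₀ (n := 3) (by norm_num) (by positivity) ?_
    refine le_of_mul_le_mul_left (a := lam ^ 12 * Λ₀) ?_ (by positivity)
    have L0 : 1 ≤ Λ₀ := X.kn.L1.1.trans X.kn.L1.2.1
    calc _ ≤ S.n * S.n * (S.n * S.w3 1) := by
          rw [one_pow]; gcongr
          exacts [(X.pw (i := 12) (by norm_num)).trans X.ln, X.kn.L1.2.2]
      _ ≤ S.n * S.n * (S.n * (T k * (T k / (lam ^ 12 * Λ₀)) ^ 2)) := by gcongr
      _ = _ := by field_simp
  · have e := X.near I Y (k := k) (y := i)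
      (by rwa [abs_of_nonneg (by rw [sub_nonneg]; exact_mod_cast b)])
    nlinarith [X.T0' I Y a' (b.trans c)]
  · have e := Y.lip i k
    have t0 := X.T0' I Y (a'.trans b) c
    have f : (0 : ℝ) ≤ k - i := by rw [sub_nonneg]; exact_mod_cast b
    rw [abs_sub_comm, abs_of_nonneg f] at e
    have L0 : 1 ≤ Λ₀ := X.kn.L1.1.trans X.kn.L1.2.1
    calc _ ≤ (T k + ((k : ℝ) - i) * (lam ^ 12 * Λ₀ * S.v)) * (T k / (lam ^ 12 * Λ₀)) := by gcongr
      _ = 1 * T k * (T k / (lam ^ 12 * Λ₀) + ((k : ℝ) - i) * S.v) := by field_simp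
      _ ≤ _ := by gcongr
  · have t0 := X.T0' I Y a' b
    rw [mn]
    refine (X.w3le I Y a' b).trans ?_
    rw [sq, ← mul_assoc]
    gcongr
    exact le_min (ge k a' b) (X.r1 I Y k)
  · have t0 := X.T0' I Y a' b
    have d0 := X.F.lg.dz_nonneg (m := m) (a := a) y
    rw [mn]
    rcases lt_or_ge y S.J with c' | c'
    · right
      refine (T57.den_lo (m := m) (a := a) h (by have := I.jl; have := I.e0; omega) c'
        (by positivity) v0.le (X.w3le I Y a' b)).trans ?_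
      gcongr
      linarith
    · have e1 := (Y.ls y c' d.le).trans (X.near I Y e)
      rcases le_total 2 (ls S M y) with c2 | c2
      · left
        rw [min_eq_right c2] at e1
        linarith
      right
      rw [min_eq_left c2] at e1
      have l0 := X.ls0 c' (by omega)
      have e2 := X.kn.wpl y (X.mem4 I c' d.le)
      have e3 := (h.plat y c' (by omega)).1
      rw [div_le_iff₀ h.C0, ← dz_up (m := m) (a := a) h.leg (by omega)] at e3
      have dn := h.den0 (M.z (y - 1))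
      have L0 : 1 ≤ Λ₀ := X.kn.L1.1.trans X.kn.L1.2.1
      have e4 : S.w3 1 * S.den (M.z (y - 1)) ≤ T k * (T k / (lam ^ 12 * Λ₀)) ^ 2 := by
        rw [div_pow, ← mul_div_assoc, le_div_iff₀ (by positivity), ← pow_succ']
        refine le_of_mul_le_mul_left (a := 8) ?_ (by norm_num)
        calc _ = 8 * lam ^ 24 * Λ₀ ^ 2 * S.w3 1 * S.den (M.z (y - 1)) := by ring
          _ ≤ E * Λ₀ ^ 2 * S.w3 1 * S.den (M.z (y - 1)) := by
              gcongr ?_ * _ * _ * _
              refine le_trans ?_ X.hE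
              rw [show lam ^ 30 = lam ^ 6 * lam ^ 24 by ring]
              gcongr
              exact le_trans (by linarith) (le_self_pow₀ l1 (by norm_num))
          _ ≤ ls S M y ^ 2 * min (dl S M y) (du M y) * S.den (M.z (y - 1)) := by gcongr
          _ = ls S M y ^ 3 := by rw [pow_succ _ 2]; unfold ls; ring
          _ ≤ (2 * T k) ^ 3 := by gcongr
          _ = _ := by ring
      calc _ ≤ S.w3 1 * (M.dz m a y * S.den (M.z (y - 1)) * S.C) := by gcongr
        _ = S.C * M.dz m a y * (S.w3 1 * S.den (M.z (y - 1))) := by ring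
        _ ≤ _ := by gcongr; linarith

theorem sh' {k y : ℕ} (h0 : S.J ≤ k) (h1 : k ≤ k1) (y0 : S.J ≤ y) (y1 : y ≤ k1)
    (h : |(y : ℝ) - k| * S.v ≤ T k / (lam ^ 12 * Λ₀)) :
    |M.z (y - 1) - M.z (k - 1)| ≤ uu S M (M.z (k - 1)) / 2 := by
  have kp := I.kp
  have big := X.big
  have L0 : 1 ≤ Λ₀ := X.kn.L1.1.trans X.kn.L1.2.1
  have l0 := X.ls0 h0 (by omega)
  have C0 := X.h.C0
  refine shell X.h X.kn.u0.1 X.fine h0 (by omega) y0 (by omega) ?_
  rw [abs_sub_comm]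
  have e : T k / (lam ^ 12 * Λ₀) ≤ 2 * ls S M k / lam ^ 3 := by
    rw [div_le_iff₀ (by positivity)]
    refine (Y.pl k h0 h1).trans ((mul_le_mul_of_nonneg_left (X.tp_cap I h0 h1)
      (by positivity)).trans (le_of_eq ?_))
    field_simp
  have v0 := X.h.v0
  calc _ ≤ 4 * lam ^ 2 * (2 * ls S M k / lam ^ 3) := by
        gcongr 4 * ?_ ^ 2 * ?_; exacts [X.Cl, h.trans e]
    _ = 8 / lam * ls S M k := by field_simp; ring
    _ < 1 * ls S M k := by gcongr; rw [div_lt_one (by linarith)]; linarith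
    _ = _ := one_mul _

theorem maj {y y' : ℕ} (a0 : k0 ≤ y) (a1 : y ≤ k1) (b0 : k0 ≤ y') (b1' : y' ≤ k1)
    (hy : |(y : ℝ) - y'| * S.v ≤ T y' / (lam ^ 12 * Λ₀)) : lw M y ≤ lam ^ 4 * lw M y' := by
  have h := X.h
  have C1 := h.C1
  have C0 := h.C0
  have v0 := h.v0
  have kp := I.kp
  have Jk := X.Jk I
  have jl : S.j0 < k0 := by have := h.i1; have := I.jl; have := I.e0; omega
  have w0 := X.lw0 y'
  have zs : ∀ k, k0 ≤ k → k < S.J → S.v ≤ S.C * lw M k ∧ lw M k ≤ S.C * S.v := fun k a1 a2 => by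
    have := h.zs (k - 1) (by omega) (by omega)
    rwa [show k - 1 + 1 = k by omega, div_le_iff₀' C0] at this
  refine le_trans ?_ (show S.C ^ 4 * lw M y' ≤ _ by gcongr; exact X.Cl)
  have c2 : S.C ^ 2 ≤ S.C ^ 4 := pow_le_pow_right₀ C1 (by norm_num)
  have c3 : S.C ^ 3 ≤ S.C ^ 4 := pow_le_pow_right₀ C1 (by norm_num)
  obtain ⟨d1, d2⟩ := X.kn.dj
  rw [div_le_iff₀ C0] at d1
  rcases lt_or_ge y' S.J with c' | c' <;> rcases lt_or_ge y S.J with c | c
  · nlinarith [(zs y a0 c).2, mul_le_mul_of_nonneg_left (zs y' b0 c').1 C0.le,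
      mul_le_mul_of_nonneg_right c2 w0]
  · have f1 : (S.J : ℝ) ≤ y := by exact_mod_cast c
    have f2 : (y' : ℝ) ≤ S.J := by exact_mod_cast c'.le
    have L := (X.L1 I).1
    have e := X.sh' I Y le_rfl Jk c a1 (by
      have e := Y.lip y' S.J
      rw [abs_of_nonneg (by linarith), le_div_iff₀ (by positivity)] at hy ⊢
      rw [abs_of_nonpos (by linarith)] at e
      linarith)
    have e1 := (step h le_rfl (x_lt h le_rfl (by omega)) c (by omega) e).2
    have e2 := mul_le_mul_of_nonneg_right d1 (X.lw0 y)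
    change _ * lw M y ≤ _ at e1
    nlinarith [mul_le_mul_of_nonneg_left e1 C0.le,
      mul_le_mul_of_nonneg_left (zs y' b0 c').1 (show 0 ≤ S.C ^ 3 by positivity)]
  · have f1 : (S.J : ℝ) ≤ y' := by exact_mod_cast c'
    have f2 : (y : ℝ) ≤ S.J := by exact_mod_cast c.le
    have e := X.sh' I Y c' b1' le_rfl Jk (le_trans (by
      gcongr ?_ * _
      rw [abs_of_nonpos (by linarith), abs_of_nonpos (by linarith)]; linarith) hy)
    have e1 := (cmp h (x_ge h c') (x_lt h c' (by omega)) le_rfl e).1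
    have e2 := (h.plat y' c' (by omega)).1
    rw [div_le_iff₀ C0] at e2
    change _ ≤ lw M y' * _ * _ at e2
    have e3 : S.den (M.z (y' - 1)) ≤ S.C ^ 2 := by nlinarith
    have e4 : S.v ≤ S.C ^ 3 * lw M y' := by
      nlinarith [mul_le_mul_of_nonneg_left e3 (mul_nonneg w0 C0.le)]
    nlinarith [(zs y a0 c).2, mul_le_mul_of_nonneg_left e4 C0.le]
  · have e := X.sh' I Y c' b1' c a1 hy
    have e1 := (step h (x_ge h c') (x_lt h c' (by omega)) c (by omega) e).2
    have e2 := (h.plat y' c' (by omega)).1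
    rw [div_le_iff₀ C0] at e2
    change _ ≤ lw M y' * _ * _ at e2
    change _ * lw M y ≤ _ at e1
    have dn := h.den0 (M.z (y' - 1))
    refine le_trans ?_ (mul_le_mul_of_nonneg_right c3 w0)
    refine le_of_mul_le_mul_left ?_ dn
    nlinarith [mul_le_mul_of_nonneg_left e2 (sq_nonneg S.C)]

omit Y in
theorem tz_mem {k : ℕ} (hk : k ∈ tz S M u1) :
    k < b1 ∧ 1 / (200 * S.C ^ 5) ≤ ((k : ℝ) - k0) * S.v := by
  have h := X.h
  have C1 := h.C1
  have C0 := h.C0
  have v0 := h.v0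
  have Jb := I.Jb
  have T := X.T0_ge
  have T1 : 0 < T0 S M := by
    by_contra hh
    nlinarith [mul_le_mul_of_nonneg_left (not_lt.1 hh) (show 0 ≤ 48 * S.C ^ 4 by positivity)]
  have key : ∀ j, j ≤ S.J → T0 S M ≤ M.s j → 1 / (200 * S.C ^ 5) ≤ ((j : ℝ) - k0) * S.v :=
    fun j a1 a2 => by
      have e0 : k0 ≤ j := by
        by_contra hh
        linarith [h.sm (not_le.1 hh).le, I.s0]
      have e := (h.s_tel e0 a1).2
      have e1 : T0 S M / 2 ≤ S.C * (((j : ℝ) - k0) * S.v) := by linarith [I.s0]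
      rw [div_le_iff₀ (by positivity)]
      nlinarith [mul_le_mul_of_nonneg_left e1 (show 0 ≤ S.C ^ 4 by positivity),
        mul_pos (pow_pos C0 4) T1]
  rw [tz, X.pl_eq I] at hk
  rcases mem_union.1 hk with e | e
  · obtain ⟨e1, e2, -⟩ := mem_filter.1 e
    have := (mem_Ioo.1 e1).2
    exact ⟨by omega, key k this.le e2⟩
  · obtain ⟨e1, e2⟩ := mem_Ico.1 e
    refine ⟨e2, (key S.J le_rfl (by unfold T0 at *; linarith)).trans ?_⟩
    gcongr

theorem main {p j : ℕ} (hp : 4 ≤ p) (Q : QOG (200 * S.C ^ 5) (lam * (200 * S.C ^ 5)) p S M m a 1 k0 k1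
      M.q (fun k => T k / (lam ^ 12 * Λ₀)) T)
    (Q' : QOG (200 * S.C ^ 5) (lam * (200 * S.C ^ 5)) (j + 1) S M m a 1 k0 k1
      M.q (fun k => T k / (lam ^ 12 * Λ₀)) T) (hj : (S.n : ℝ) ^ (3 * (S.A + 1)) ≤ lam ^ j) :
    ∃ G : ℕ → ℝ, (∀ k, 0 < G k) ∧ (∀ k < S.J, G k ≤ lam ^ 100 * l) ∧
    (∀ k ∈ tz S M u1, (M.E2 m a (fun R => (R - M.q k) ^ (2 * p)) k ≤ G k ^ (2 * p) ∧
      M.Mo m a p (fun x => M.rP m a k x - M.q k) (G k)) ∧ Env S M m a k (G k)) ∧
    ∑ k ∈ tz S M u1, M.dz m a k * G k ^ 2 ≤ lam ^ 100 * Pt ∧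
    ∑ k ∈ tz S M u1, M.dz m a k * G k ^ 4 ≤ lam ^ 100 * V4 ∧
    ∑ k ∈ tz S M u1, M.dz m a k * ja M m a 0 k ≤ lam ^ 100 * Λ₀ * S.w3 1 ∧
    ∑ k ∈ tz S M u1, M.dz m a k * ja M m a 2 k ≤ lam ^ 100 * Λ₀ * S.w3 1 * Pt ∧
    ∑ k ∈ tz S M u1, M.dz m a k * ja M m a 4 k ≤ lam ^ 100 * Λ₀ * S.w3 1 * V4 := by
  classical
  have h := X.h
  have C1 := h.C1
  have v0 := h.v0
  have big := X.big
  have l1 := X.l1
  have kJ := I.k0J
  have Jb := I.Jb
  have bk := I.bk
  have P0 := X.P0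
  have l0' : 0 < l := X.p0.trans_le X.pl
  have L0 : 1 ≤ Λ₀ := X.kn.L1.1.trans X.kn.L1.2.1
  have w0 := X.F.w3_pos one_pos
  have V0 : 0 ≤ V4 := le_trans (by positivity) X.V4_ge.1
  have jl : 0 < k0 := by have := I.jl; have := I.e0; omega
  set K := 200 * S.C ^ 5 with hK
  have K0 : 0 < K := by positivity
  have Kl : lam * K ≤ lam ^ 7 := by
    rw [show lam ^ 7 = lam * (lam * lam ^ 5) by ring, hK]
    gcongr
    exacts [by linarith, X.Cl]
  have gap : 1 / K ≤ ((k1 : ℝ) + 1 - b1) * S.v := by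
    have e := I.gap
    have f : (b1 : ℝ) ≤ k1 := by exact_mod_cast bk
    rw [div_le_iff₀ K0]
    have : S.C ^ 3 ≤ S.C ^ 5 := pow_le_pow_right₀ C1 (by norm_num)
    nlinarith [mul_le_mul_of_nonneg_right this (show 0 ≤ ((k1 : ℝ) + 1 - b1) * S.v by
      have : 0 ≤ (k1 : ℝ) + 1 - b1 := by linarith
      positivity)]
  set n0 := ⌈1 / K / S.v⌉₊ with hn0
  have inn : ∀ k, k0 + n0 ≤ k → k < b1 → Inn K S 1 k0 k1 k := fun k a1 a2 => by
    have f1 : (k0 : ℝ) + n0 ≤ k := by exact_mod_cast a1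
    have f2 : (k : ℝ) + 1 ≤ b1 := by exact_mod_cast a2
    have e := Nat.le_ceil (1 / K / S.v)
    rw [div_le_iff₀ v0] at e
    exact ⟨e.trans (by gcongr ?_ * _; linarith), gap.trans (by gcongr ?_ * _; linarith)⟩
  have sub : ∀ k ∈ tz S M u1, k0 + n0 ≤ k ∧ k < b1 := fun k hk => by
    obtain ⟨e1, e2⟩ := X.tz_mem I hk
    have f : (0 : ℝ) < k - k0 := pos_of_mul_pos_left (lt_of_lt_of_le (by positivity) e2) v0.le
    have f1 : k0 ≤ k := by exact_mod_cast (by linarith : (k0 : ℝ) ≤ k)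
    have : n0 ≤ k - k0 := Nat.ceil_le.2 (by rw [div_le_iff₀ v0, Nat.cast_sub f1]; exact e2)
    omega
  have dz : ∀ k, k0 ≤ k → M.dz m a k = lw M k := fun k hk => dz_up h.leg (by omega)
  obtain ⟨s0, s2, s4⟩ := X.sums I Y
  have W : Wts K S 1 k0 k1 (fun k => T k / (lam ^ 12 * Λ₀)) (k0 + n0) b1 (k1 + 1 - b1)
      (fun y => if y ∈ tz S M u1 then lw M y else 0) fun y => lam ^ 4 * lw M y :=
    ⟨fun k a1 a2 => ⟨inn k a1 a2, (min_le_right _ _).trans (by
        rw [Nat.cast_sub (by omega)]; push_cast; exact gap)⟩, by omega,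
      fun y => by split_ifs; exacts [X.lw0 y, le_rfl], fun y => mul_nonneg (by positivity) (X.lw0 y),
      fun y y' a1 a2 a3 a4 hy => le_trans (by split_ifs; exacts [le_rfl, X.lw0 y])
        (X.maj I Y (by omega) (by omega) (by omega) (by omega) hy), by omega⟩
  have jn : ∀ i ≤ 4, ∀ B, ∑ k ∈ Ico k0 (k1 + 1), lw M k * T k ^ i ≤ lam ^ 42 * B →
      ∑ k ∈ tz S M u1, M.dz m a k * ja M m a i k ≤ lam ^ 100 * Λ₀ * S.w3 1 * B := fun i hi B hB => by
    have e := Q.jnt _ _ _ _ _ W i (hi.trans hp)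
    rw [show b1 + (k1 + 1 - b1) = k1 + 1 by omega] at e
    have e1 : ∑ k ∈ tz S M u1, M.dz m a k * ja M m a i k = ∑ y ∈ Ico (k0 + n0) b1,
        (if y ∈ tz S M u1 then lw M y else 0) * ja M m a i y := by
      simp only [ite_mul, zero_mul]
      rw [← sum_filter, filter_mem_eq_inter, inter_eq_right.2 fun k hk => mem_Ico.2 (sub k hk)]
      exact sum_congr rfl fun k hk => by rw [dz k (by have := sub k hk; omega)]
    have e2 : ∑ y ∈ Ico (k0 + n0) (k1 + 1), lam ^ 4 * lw M y *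
        (T y ^ i * (T y / min (T y / (lam ^ 12 * Λ₀)) 1)) ≤ lam ^ 16 * Λ₀ * (lam ^ 42 * B) := by
      refine le_trans ?_ (mul_le_mul_of_nonneg_left hB (by positivity))
      rw [mul_sum]
      refine le_trans (sum_le_sum fun y hy => le_of_eq ?_) (sum_le_sum_of_subset_of_nonneg
        (Ico_subset_Ico_left (Nat.le_add_right k0 n0)) fun y hy _ => ?_)
      · have := X.T0' I Y (k := y) (by have := mem_Ico.1 hy; omega) (by have := mem_Ico.1 hy; omega)
        rw [min_eq_left (X.r1 I Y y)]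
        field_simp
      · have := X.T0' I Y (k := y) (by have := mem_Ico.1 hy; omega) (by have := mem_Ico.1 hy; omega)
        have := X.lw0 y
        positivity
    have B0 : 0 ≤ lam ^ 42 * B := le_trans (sum_nonneg fun y hy => by
      have := X.T0' I Y (k := y) (by have := mem_Ico.1 hy; omega) (by have := mem_Ico.1 hy; omega)
      have := X.lw0 y
      positivity) hB
    have B1 : 0 ≤ B := nonneg_of_mul_nonneg_right (by rwa [mul_comm] at B0) (by positivity) |> id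
    rw [e1]
    refine e.trans ?_
    calc _ ≤ (lam ^ 7) ^ 5 * S.w3 1 * (lam ^ 16 * Λ₀ * (lam ^ 42 * B)) :=
          mul_le_mul_of_nonneg_left e2 (by positivity) |>.trans (by
            gcongr ?_ * _ * _
            exact (pow_le_pow_left₀ (by positivity) Kl _).trans
              (pow_le_pow_right₀ (one_le_pow₀ l1) (by omega)))
      _ = lam ^ 93 * Λ₀ * S.w3 1 * B := by ring
      _ ≤ _ := by gcongr; norm_num
  have gs : ∀ i ≤ 4, ∀ B, 0 ≤ B → ∑ k ∈ Ico k0 (k1 + 1), lw M k * T k ^ i ≤ lam ^ 42 * B →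
      ∑ k ∈ tz S M u1, M.dz m a k * (lam ^ 8 * T (max k0 (min k k1))) ^ i ≤ lam ^ 100 * B :=
    fun i hi B B0 hB => by
      calc _ = (lam ^ 8) ^ i * ∑ k ∈ tz S M u1, lw M k * T k ^ i := by
            rw [mul_sum]
            refine sum_congr rfl fun k hk => ?_
            have := sub k hk
            rw [dz k (by omega), min_eq_left (by omega), max_eq_right (by omega)]
            ring
        _ ≤ (lam ^ 8) ^ 4 * (lam ^ 42 * B) := by
            refine mul_le_mul (pow_le_pow_right₀ (one_le_pow₀ l1) hi)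
              (le_trans (sum_le_sum_of_subset_of_nonneg
              (fun k hk => mem_Ico.2 (by have := sub k hk; omega)) fun y hy _ => ?_) hB)
              (sum_nonneg fun y hy => ?_) (by positivity)
            · have := X.T0' I Y (k := y) (by have := mem_Ico.1 hy; omega)
                (by have := mem_Ico.1 hy; omega)
              have := X.lw0 y
              positivity
            · have := X.T0' I Y (k := y) (by have := sub y hy; omega) (by have := sub y hy; omega)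
              have := X.lw0 y
              positivity
        _ = lam ^ 74 * B := by ring
        _ ≤ _ := by gcongr; norm_num
  have s2' : ∑ k ∈ Ico k0 (k1 + 1), lw M k * T k ^ 2 ≤ lam ^ 42 * Pt :=
    s2.trans (by gcongr; norm_num)
  refine ⟨fun k => lam ^ 8 * T (max k0 (min k k1)), fun k => ?_, fun k hk => ?_, fun k hk => ?_,
    gs 2 (by norm_num) _ P0.le s2', gs 4 le_rfl _ V0 s4, ?_, jn 2 (by norm_num) _ s2',
    jn 4 le_rfl _ s4⟩
  · have := X.T0' I Y (k := max k0 (min k k1)) (by omega) (by omega)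
    positivity
  · calc _ ≤ lam ^ 8 * (lam ^ 9 * l) :=
          mul_le_mul_of_nonneg_left (X.T_sl I Y (by omega) (by omega)) (by positivity)
      _ = lam ^ 17 * l := by ring
      _ ≤ _ := by gcongr; norm_num
  · obtain ⟨e1, e2⟩ := sub k hk
    simp only [min_eq_left (show k ≤ k1 by omega), max_eq_right (show k0 ≤ k by omega)]
    have t0 := X.T0' I Y (k := k) (by omega) (by omega)
    have e3 : lam * (lam * K * T k) ≤ lam ^ 8 * T k := by
      rw [← mul_assoc, pow_succ' lam 7]; gcongr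
    have B0 : 0 < lam * K * T k := by positivity
    have e4 := (le_mul_of_one_le_left B0.le l1).trans e3
    refine ⟨⟨(Q.pair k (inn k e1 e2)).trans (by gcongr), (Q.node k (inn k e1 e2)).mono e4⟩, ?_⟩
    rcases le_total (lam * K * T k) 1 with c | c
    · refine (CIn12.env_pair' (l := lam) B0 (by positivity) (by simpa using e3)
        (Q'.pair k (inn k e1 e2))).trans ?_
      have n1 := X.F.n1
      calc _ ≤ 1 / lam ^ j := by gcongr; omega
        _ ≤ _ := by rw [one_div]; exact inv_anti₀ (by positivity) hj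
    · refine (CIn12.env_triv ?_).trans (CIn12.tlD_nn S 3)
      rw [abs_of_nonneg (h.q_nn (by have := I.kp; have := h.i4; omega))]
      nlinarith [Cl.q_le_one (M := M) k]
  · simpa using jn 0 (by norm_num) 1 (s0.trans (by rw [mul_one]; exact one_le_pow₀ l1))

end Tx

/-- **the top zone** -/
theorem topBE : TopBE := by
  intro p hp C
  filter_upwards [eventually_ge_atTop 2] with A hA ε hε η hη
  set η' := min (min ε η) 1 / 100 with hη'
  have e0 : 0 < η' := by positivity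
  set j : ℕ := ⌈((3 * (A + 1) : ℕ) : ℝ) / η'⌉₊ with hj
  filter_upwards [T57.qGenU (le_max_left 1 (200 * C ^ 5)) C hA e0 p,
    T57.qGenU (le_max_left 1 (200 * C ^ 5)) C hA e0 (j + 1), ev_rgc C hA e0 0, ev_fn C hA]
    with n a1 a1' a2 a3 S M e1 e2 e3 h m a I l Φ P l0 Λ₀ Λ₁ Pt Vt u1 V4 kn lk
  have Q' := a1' S M e1 e2 e3 h m a I
  have G := a2 S e1 e2 e3
  have F := a3 S M e1 e2 e3 h m a I
  have Q := a1 S M e1 e2 e3 h m a I
  subst e1 e2 e3
  have n1 := G.N1.le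
  have pw : ∀ (j : ℕ) (x : ℝ), η' * j ≤ x → ((S.n : ℝ) ^ η') ^ j ≤ (S.n : ℝ) ^ x := fun j x hx => by
    rw [← rpow_mul_natCast G.N0.le]; exact rpow_le_rpow_of_exponent_le n1 hx
  have m1 := min_le_left (min ε η) 1
  have m2 := min_le_right (min ε η) 1
  have m3 := min_le_left ε η
  have m4 := min_le_right ε η
  have X : Tx ((S.n : ℝ) ^ η') S M m a _ l Φ P l0 Λ₀ Λ₁ Pt Vt u1 V4 :=
    ⟨F, kn, lk, G.num_le, G.C_le h, pw 30 ε (by push_cast; linarith), G.log_le, G.A_le, G.Cθ h,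
      (pw 20 1 (by push_cast; linarith)).trans (rpow_one _).le⟩
  obtain ⟨kb, n, k0, b1, k1, J⟩ := X.ex_ix
  obtain ⟨T, Y⟩ := X.ex_tt J
  rw [max_eq_right (by nlinarith [one_le_pow₀ (n := 5) h.C1])] at Q Q'
  obtain ⟨G', g1, g2, g3, g4, g5, g6, g7, g8⟩ := X.main J Y hp (Q _ _ _ _ _ _ _ (X.qg J Y))
    (Q' _ _ _ _ _ _ _ (X.qg J Y)) (by
      rw [← rpow_mul_natCast G.N0.le, ← rpow_natCast]
      refine rpow_le_rpow_of_exponent_le n1 ?_
      have := Nat.le_ceil (((3 * (S.A + 1) : ℕ) : ℝ) / η')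
      rw [div_le_iff₀ e0] at this
      linarith)
  have L := pw 100 η (by push_cast; linarith)
  have l0' : 0 < l := X.p0.trans_le X.pl
  have P0 := X.P0
  have L0 : 1 ≤ Λ₀ := kn.L1.1.trans kn.L1.2.1
  have w0 := F.w3_pos one_pos
  have V0 : 0 ≤ V4 := le_trans (by positivity) X.V4_ge.1
  exact ⟨G', g1, fun k hk => (g2 k hk).trans (by gcongr), g3, g4.trans (by gcongr),
    g5.trans (by gcongr), g6.trans (by gcongr), g7.trans (by gcongr), g8.trans (by gcongr)⟩


end Crest.Agent.T156.Alt.R62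

end
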