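import Crest.Agent.T156.QCas_98
import Crest.Agent.T156.QGen_57

-- ▼ part T156/QPr_57
section

/-!
# Row 156, block Q: the overlap of a pair, centred at the split node (helper57)
-/

set_option autoImplicit false
set_option linter.unusedSectionVars false
set_option linter.unusedVariables false

noncomputable section

namespace Crest.Agent.T156.Cas.Pr57

open MeasureTheory Real Finset
open Crest.Agent.T157.E Crest.Agent.T157.Casc Crest.Agent.T157.SL
open Crest.Agent.T156.Cas.Sy41 Crest.Agent.T156.Cas.Lp12 Crest.Agent.T156.Cas.QCas98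
open Crest.Agent.T156.Cas.LpR43

variable {Ω : Type} [Fintype Ω] {w : Ω → ℝ} {L : List (Lv Ω)} {h : Ω → ℝ} {l₀ : Lv Ω} {τ : ℕ → ℝ}

/-- shifted features -/
abbrev shf (l₀ : Lv Ω) (m : l₀.ι → ℝ) : Lv Ω := ⟨l₀.ι, fun x i => l₀.A x i - m i, l₀.m⟩

theorem dom_shf {l : Lv Ω} {t : ℝ} (H : Dom l l₀ t) (m : l₀.ι → ℝ) : Dom l (shf l₀ m) t :=
  ⟨H.1, fun v => by
    obtain ⟨η, κ, a, b⟩ := H.2 v
    refine ⟨η, κ + √t * ∑ i, m i * v i, fun x => ?_, b⟩
    rw [a x]
    simp only [Lv.fld, sub_mul, sum_sub_distrib]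
    ring⟩

theorem mv_shf (hw : Wt w) (N : List (Lv Ω)) (m : l₀.ι → ℝ) (z : Ω → ℝ) (i : l₀.ι) :
    mv w N (shf l₀ m) z i = mv w N l₀ z i - m i := by
  simp only [mv, Pf, mul_sub, sum_sub_distrib, ← sum_mul, sum_P hw, one_mul]

omit [Fintype Ω] in
theorem win_drop {j c : ℕ} {θ : ℝ} (H : Win L τ j c θ) :
    Win (L.drop j) (fun k => τ (j + k)) 0 (c - j) θ := by
  obtain ⟨a, b, h1, h2, h3⟩ := H
  have e : ∀ k, ex (L.drop j) k = ex L (j + k) := fun k => by
    simp only [T157.Casc.ex, List.getElem?_drop]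
  refine ⟨by rw [List.length_drop]; omega, b - j, Nat.zero_le _, by omega, h3.trans_eq ?_⟩
  rw [e, Nat.add_sub_cancel' h1, Sw, Sw]
  simp only [e, add_comm j]
  rw [sum_Ico_add' (fun k => ex L k * τ k), Nat.sub_add_cancel h1, Nat.sub_add_cancel (h1.trans h2)]

theorem pw_sum {κ : Type*} (s : Finset κ) (f : κ → ℝ) {n : ℕ} (hn : 1 ≤ n) :
    (∑ i ∈ s, f i) ^ (2 * n) ≤ (s.card + 1 : ℝ) ^ (2 * n) * ∑ i ∈ s, f i ^ (2 * n) := by
  obtain ⟨k, hk⟩ : ∃ k, 2 * n = k + 1 := ⟨2 * n - 1, by omega⟩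
  have e : ∀ x : ℝ, x ^ (2 * n) = |x| ^ (k + 1) := fun x => by rw [← hk, (even_two_mul n).pow_abs]
  simp only [e]
  rw [abs_of_nonneg (show (0 : ℝ) ≤ s.card + 1 by positivity)]
  refine (pow_le_pow_left₀ (abs_nonneg _) (abs_sum_le_sum_abs _ _) _).trans
    ((pow_sum_le_card_mul_sum_pow (fun i _ => abs_nonneg (f i)) k).trans ?_)
  refine mul_le_mul_of_nonneg_right ?_ (sum_nonneg fun i _ => by positivity)
  exact (pow_le_pow_left₀ (Nat.cast_nonneg _) (by linarith) k).trans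
    (pow_le_pow_right₀ (by linarith [Nat.cast_nonneg (α := ℝ) s.card]) k.le_succ)

theorem pw_add (f : ℕ → ℝ) (K : ℕ) (X : ℝ) {n : ℕ} (hn : 1 ≤ n) : (∑ i ∈ range K, f i + X) ^ (2 * n) ≤
    (K + 2 : ℝ) ^ (2 * n) * (∑ i ∈ range K, f i ^ (2 * n) + X ^ (2 * n)) := by
  have a := pw_sum (range (K + 1)) (fun l => if l < K then f l else X) hn
  have e : ∀ φ : ℝ → ℝ, ∑ l ∈ range (K + 1), φ (if l < K then f l else X) =
      ∑ l ∈ range K, φ (f l) + φ X := fun φ => by
    rw [sum_range_succ, if_neg (lt_irrefl _)]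
    congr 1
    exact sum_congr rfl fun l hl => by rw [if_pos (mem_range.1 hl)]
  rw [e fun x => x, e fun x => x ^ (2 * n), card_range] at a
  exact a.trans_eq (by push_cast; ring)

theorem ep_qs (hw : Wt w) (j n : ℕ) : EP fun p : Pth Ω => qf (P w (L.drop j) (p j)) fun x y =>
    (shf l₀ (mv w (L.drop j) l₀ (p j))).cov x y ^ (2 * n) := by
  have eP := fun x => EP.state (eg_P hw (L.drop j) x) j
  have e := fun x i => (EP.const (l₀.A x i)).sub (ep_mv hw (L.drop j) l₀ j i)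
  exact EP.sum _ fun x _ => EP.sum _ fun y _ => ((eP x).mul (eP y)).mul
    ((EP.sum univ fun i _ => (e x i).mul (e y i)).pow (2 * n))

theorem iP0 (j j' : ℕ) (p : Pth Ω) : 0 ≤ iP w L l₀ j j' p := sum_nonneg fun _ _ => sq_nonneg _

/-- the centred pair -/
theorem partA (D : Dat w L h l₀ τ) {n j K : ℕ} (hn : 1 ≤ n) {c : ℕ → ℕ} {θ σ : ℕ → ℝ} {B : ℝ}
    (hB : 0 < B) (hc : Monotone c) (W : ∀ l ≤ K, Win L τ j (c l) (θ l))
    (I : ∀ l < K, Mo w L h n (iP w L l₀ j (c (l + 1))) (σ l)) (h4 : 4 ≤ σ K)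
    (hθ : ∀ l ≤ K, cK n * (θ l * σ l) ^ n ≤ B ^ (2 * n))
    (I0 : Mo w L h (2 * n) (iP w L l₀ j (c 0)) B) :
    EE w L h (fun p => qf (P w (L.drop j) (p j)) fun x y =>
      (shf l₀ (mv w (L.drop j) l₀ (p j))).cov x y ^ (2 * n)) ≤
      (2 * K + 3) ^ (2 * n) * ((K + 3) * (3 * B) ^ (2 * n)) := by
  have hw := D.hw
  have hK := cK_pos n
  have θ0 : ∀ l ≤ K, 0 < θ l := fun l hl => (W l hl).pos D.mono l₀ D.dom
  have jc : ∀ l, j ≤ c l := fun l => (W 0 (Nat.zero_le K)).le.trans (hc (Nat.zero_le l))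
  set F0 : Pth Ω → ℝ := fun p => (3 * iP w L l₀ j (c 0) p) ^ (2 * n) with hF0
  set F : ℕ → Pth Ω → ℝ := fun l p => cK n * θ l ^ n * iP w L l₀ j (c (l + 1)) p ^ n with hF
  have e0 : EP F0 := ((ep_iP hw _ _).const_mul 3).pow _
  have e1 : ∀ l, EP (F l) := fun l => ((ep_iP hw _ _).pow _).const_mul _
  have B3 : B ^ (2 * n) ≤ (3 * B) ^ (2 * n) := pow_le_pow_left₀ hB.le (by linarith) _
  have key : ∀ p : Pth Ω, qf (P w (L.drop j) (p j)) (fun x y =>
      (shf l₀ (mv w (L.drop j) l₀ (p j))).cov x y ^ (2 * n)) ≤ (2 * K + 3) ^ (2 * n) *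
      (CE w L j F0 p + ∑ l ∈ range K, CE w L j (F l) p + B ^ (2 * n)) := fun p => by
    have a0 : 0 ≤ CE w L j F0 p := EE_nonneg _ _ fun q => (even_two_mul n).pow_nonneg _
    have a1 : ∀ l ∈ range K, 0 ≤ CE w L j (F l) p := fun l hl => EE_nonneg _ _ fun q => by
      have := θ0 l (mem_range.1 hl).le
      have := iP0 (w := w) (L := L) (l₀ := l₀) j (c (l + 1)) (cat j p q)
      simp only [hF]
      positivity
    have a2 := sum_nonneg a1
    have a3 : 0 < B ^ (2 * n) := by positivity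
    set G := CE w L j F0 p + ∑ l ∈ range K, CE w L j (F l) p + B ^ (2 * n) with hG
    have G0 : 0 < G := by linarith
    set b := G ^ (((2 * n : ℕ) : ℝ)⁻¹) with hb
    have b0 : 0 < b := rpow_pos_of_pos G0 _
    have bG : b ^ (2 * n) = G := rpow_inv_natCast_pow G0.le (by omega)
    have dd : ∀ l, (L.drop j).drop (c l - j) = L.drop (c l) := fun l => by
      rw [List.drop_drop, Nat.add_sub_cancel' (jc l)]
    have cn := fun l (φ : ℝ → ℝ) => CE_node hw L (jc l) (Lp12.Ad.state le_rfl fun z => z)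
      (fun z u => φ (∑ i, (mv w (L.drop (c l)) l₀ u i - mv w (L.drop j) l₀ z i) ^ 2)) p
    have k := pair_Lp hw (mono_drop j D.mono) (shf l₀ (mv w (L.drop j) l₀ (p j)))
      (τ := fun k => τ (j + k)) (fun k hk => dom_shf (by
        rw [List.getElem_drop]; exact D.dom _ _) _) (j := 0) (c := fun l => c l - j)
      (fun _ _ e => Nat.sub_le_sub_right (hc e) j) K (θ := θ) (B := fun _ => b) (Λ := 4)
      (fun x => ?_) (fun l hl => win_drop (W l hl)) (p j) 0 n b0 (fun _ => b0) ?_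
      (fun l hl => ?_) ?_
    · simp only [pi2, node_zero, List.drop_zero, sub_zero, sum_const, card_range, nsmul_eq_mul] at k
      refine k.trans_eq ?_
      rw [← bG, ← mul_pow]
      push_cast
      ring
    · have r1 := Q33.rr_le hw (L.drop j) D.one (p j)
      have r2 := D.one x
      simp only [Lv.cov, rr] at r1 r2 ⊢
      have : ∑ i, (l₀.A x i - mv w (L.drop j) l₀ (p j) i) * (l₀.A x i - mv w (L.drop j) l₀ (p j) i) ≤
          ∑ i, (2 * (l₀.A x i * l₀.A x i) + 2 * mv w (L.drop j) l₀ (p j) i ^ 2) :=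
        sum_le_sum fun i _ => by nlinarith [sq_nonneg (l₀.A x i + mv w (L.drop j) l₀ (p j) i)]
      rw [sum_add_distrib, ← mul_sum, ← mul_sum] at this
      linarith
    · rw [bG]
      refine le_trans (le_of_eq ?_) (show CE w L j F0 p ≤ G by linarith)
      refine Eq.trans ?_ (cn 0 fun t => (3 * t) ^ (2 * n)).symm
      rw [← EE_node hw]
      refine EE_congr _ _ fun q e => ?_
      simp only [rr, mv_shf hw, dd, List.drop_zero, e, sub_self, sub_zero]
      rw [abs_of_nonneg (sum_nonneg fun _ _ => sq_nonneg _)]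
      congr 1
      ring
    · rw [bG]
      refine le_trans (le_of_eq ?_) (show CE w L j (F l) p ≤ G by
        linarith [single_le_sum a1 (mem_range.2 hl)])
      refine Eq.trans ?_ (cn (l + 1) fun t => cK n * θ l ^ n * t ^ n).symm
      rw [node_const_mul]
      simp only [rr, mv_shf hw, dd]
    · rw [bG]
      refine le_trans (le_trans ?_ (hθ K le_rfl)) (by linarith)
      have := θ0 K le_rfl
      gcongr
  have ec := ep_CE hw L j e0
  have es : EP fun p => ∑ l ∈ range K, CE w L j (F l) p := EP.sum _ fun l _ => ep_CE hw L j (e1 l)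
  refine (EE_mono hw L h (ep_qs hw j n) (((ec.add es).add (EP.const _)).const_mul _) key).trans ?_
  rw [EE_const_mul, EE_add hw L h (ec.add es) (EP.const _), EE_add hw L h ec es,
    EE_sum hw L h _ fun l _ => ep_CE hw L j (e1 l), EE_const hw, ← EE_tower hw]
  simp only [← EE_tower hw]
  have m0 : EE w L h F0 ≤ (3 * B) ^ (2 * n) := by
    simpa only [(even_two_mul n).pow_abs] using (I0.const_mul' (show (0 : ℝ) ≤ 3 by norm_num)).le
  have m1 : ∑ l ∈ range K, EE w L h (F l) ≤ K * (3 * B) ^ (2 * n) := by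
    refine (sum_le_card_nsmul _ _ _ fun l hl => ?_).trans_eq (by rw [card_range, nsmul_eq_mul])
    have hl' := mem_range.1 hl
    have m := (I l hl').le
    simp only [abs_of_nonneg (iP0 _ _ _)] at m
    have := θ0 l hl'.le
    rw [hF, EE_const_mul]
    refine le_trans ?_ ((hθ l hl'.le).trans B3)
    rw [mul_pow, ← mul_assoc]
    gcongr
  have : (0 : ℝ) ≤ (3 * B) ^ (2 * n) := by positivity
  gcongr
  linarith

/-- one branch against the state of the split node -/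
theorem partB (D : Dat w L h l₀ τ) {n j c K : ℕ} (hn : 1 ≤ n) {y : ℕ → ℕ} {θ σ : ℕ → ℝ} {B q : ℝ}
    (hB : 0 < B) (jc : j ≤ c) (y0 : y 0 = j) (W : ∀ l ≤ K, Win L τ (y l) c (θ l))
    (ya : ∀ l, y (l + 1) ≤ y l)
    (I : ∀ l < K, Mo w L h n (iP w L l₀ (y (l + 1)) (y l)) (σ l)) (h1 : 1 ≤ σ K)
    (hθ : ∀ l ≤ K, cK n * (θ l * σ l) ^ n ≤ B ^ (2 * n))
    (I0 : Mo w L h (2 * n) (iP w L l₀ j c) B)
    (N0 : Mo w L h (2 * n) (fun p => rP w L l₀ j p - q) B)
    (N1 : Mo w L h (2 * n) (fun p => rP w L l₀ c p - q) B) :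
    EE w L h (fun p => Pf w (L.drop j) (p j) fun s =>
      (l₀.fld (mv w (L.drop j) l₀ (p j)) s - q) ^ (2 * n)) ≤
      (K + 3) ^ (2 * n) * ((K + 2) * (3 * B) ^ (2 * n)) := by
  have hw := D.hw
  have hK := cK_pos n
  have θ0 : ∀ l ≤ K, 0 < θ l := fun l hl => (W l hl).pos D.mono l₀ D.dom
  have B3 : B ^ (2 * n) ≤ (3 * B) ^ (2 * n) := pow_le_pow_left₀ hB.le (by linarith) _
  set m : ℕ → Pth Ω → l₀.ι → ℝ := fun k p => mv w (L.drop k) l₀ (p k) with hm
  set u : ℕ → Pth Ω → l₀.ι → ℝ := fun l p i =>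
    m (y l) p i - if l < K then m (y (l + 1)) p i else 0 with hu
  have em : ∀ k i, EP fun p => m k p i := fun k i => ep_mv hw _ l₀ k i
  have eu : ∀ l i, EP fun p => u l p i := fun l i => (em _ i).sub (by
    split_ifs; exacts [em _ i, EP.const 0])
  have au : ∀ l, Lp12.Ad (y l) (u l) := fun l p p' e => by
    simp only [hu, hm, e _ le_rfl, e _ (ya l)]
  have su : ∀ p i, ∑ l ∈ range (K + 1), u l p i = m j p i := fun p i => by
    rw [sum_range_succ, sum_congr (g := fun l => m (y l) p i - m (y (l + 1)) p i) rfl fun l hl => by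
      simp only [hu, if_pos (mem_range.1 hl)], sum_range_sub' (fun l => m (y l) p i), y0]
    simp [hu]
  set X : Pth Ω → ℝ := fun p => ∑ i, m c p i * m j p i - q with hX
  have mX : Mo w L h (2 * n) X (3 * B) := by
    refine ((((N0.add hw N1).sub hw I0).const_mul' (show (0 : ℝ) ≤ 1 / 2 by norm_num)).congr
      fun p => ?_).mono (by linarith)
    have : ∑ i, m c p i * m j p i = 1 / 2 * (∑ i, m j p i ^ 2 + ∑ i, m c p i ^ 2 -
        ∑ i, (m c p i - m j p i) ^ 2) := by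
      rw [← sum_add_distrib, ← sum_sub_distrib, mul_sum]
      exact sum_congr rfl fun i _ => by ring
    change ∑ i, m c p i * m j p i - q = 1 / 2 * (∑ i, m j p i ^ 2 - q + (∑ i, m c p i ^ 2 - q) -
      ∑ i, (m c p i - m j p i) ^ 2)
    rw [this]
    ring
  have eM : ∀ l, EP fun p => Mk w (L.drop c) (l₀.fld (u l p)) n (p c) := fun l =>
    ep_Mk hw _ c (ep_fld l₀ (eu l)) n
  have t1 : EE w L h (fun p => Pf w (L.drop j) (p j) fun s => (l₀.fld (m j p) s - q) ^ (2 * n)) =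
      EE w L h fun p => Pf w (L.drop c) (p c) fun s => (l₀.fld (m j p) s - q) ^ (2 * n) := by
    rw [EE_tower hw j L h fun p => Pf w (L.drop c) (p c) _]
    congr 1
    funext p
    rw [CE_node hw L jc (v := m j) (Lp12.Ad.state le_rfl _) fun v z =>
      Pf w (L.drop c) z fun s => (l₀.fld v s - q) ^ (2 * n)]
    have := node_sum_P hw (fun s => (l₀.fld (m j p) s - q) ^ (2 * n)) (L.drop j) (c - j) (p j)
    rw [List.drop_drop, Nat.add_sub_cancel' jc] at this
    exact this.symm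
  refine t1.le.trans ?_
  have es : EP fun p => ∑ l ∈ range (K + 1), Mk w (L.drop c) (l₀.fld (u l p)) n (p c) :=
    EP.sum _ fun l _ => eM l
  refine (EE_mono hw L h (ep_Pf hw _ c fun s => ((ep_fld l₀ (em j) s).sub (EP.const q)).pow _)
    ((es.add (mX.ep.pow (2 * n))).const_mul ((K + 3 : ℝ) ^ (2 * n))) fun p => ?_).trans ?_
  · have k : ∀ s, (l₀.fld (m j p) s - q) ^ (2 * n) ≤ (K + 3 : ℝ) ^ (2 * n) *
        (∑ l ∈ range (K + 1), (l₀.fld (u l p) s - Pf w (L.drop c) (p c) (l₀.fld (u l p))) ^ (2 * n) +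
          X p ^ (2 * n)) := fun s => by
      have a := pw_add (fun l => l₀.fld (u l p) s - Pf w (L.drop c) (p c) (l₀.fld (u l p))) (K + 1)
        (X p) hn
      refine le_trans (le_of_eq ?_) (a.trans_eq (by push_cast; ring))
      congr 1
      have b1 : ∑ l ∈ range (K + 1), l₀.fld (u l p) s = l₀.fld (m j p) s := by
        simp only [Lv.fld]
        rw [sum_comm]
        simp only [← mul_sum, su]
      have b2 : ∑ l ∈ range (K + 1), Pf w (L.drop c) (p c) (l₀.fld (u l p)) =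
          ∑ i, m c p i * m j p i := by
        simp only [Pf_fld]
        rw [sum_comm]
        simp only [← mul_sum, su]
        rfl
      rw [sum_sub_distrib, b1, b2, hX]
      ring
    refine (sum_le_sum fun s _ => mul_le_mul_of_nonneg_left (k s) (P_nonneg hw _ _ s)).trans_eq ?_
    simp only [mul_left_comm (P w _ _ _) (_ ^ _), ← mul_sum, mul_add, sum_add_distrib, ← sum_mul,
      sum_P hw, one_mul, Mk, Pf]
    congr 2
    simp only [mul_sum]
    exact sum_comm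
  rw [EE_const_mul, EE_add hw L h es (mX.ep.pow _), EE_sum hw L h _ fun l _ => eM l]
  have m0 : EE w L h (fun p => X p ^ (2 * n)) ≤ (3 * B) ^ (2 * n) := by
    simpa only [(even_two_mul n).pow_abs] using mX.le
  have m1 : ∑ l ∈ range (K + 1), EE w L h (fun p => Mk w (L.drop c) (l₀.fld (u l p)) n (p c)) ≤
      (K + 1) * (3 * B) ^ (2 * n) := by
    refine (sum_le_card_nsmul _ _ _ fun l hl => ?_).trans_eq
      (by rw [card_range, nsmul_eq_mul]; push_cast; rfl)
    have hl' := Nat.lt_succ_iff.1 (mem_range.1 hl)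
    have t0 := θ0 l hl'
    have mu : Mo w L h n (fun p => ∑ i, u l p i ^ 2) (σ l) := by
      rcases hl'.lt_or_eq with e | e
      · exact (I l e).congr fun p => by simp only [hu, if_pos e, iP, hm]
      · subst e
        refine (Mo.bdd hw (ep_sq (eu l)) fun p => ?_).mono h1
        simp only [hu, if_neg (lt_irrefl _), sub_zero]
        rw [abs_of_nonneg (sum_nonneg fun _ _ => sq_nonneg _)]
        exact Q33.rr_le hw _ D.one _
    have m := mu.le
    simp only [fun p => abs_of_nonneg (show 0 ≤ ∑ i, u l p i ^ 2 from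
      sum_nonneg fun _ _ => sq_nonneg _)] at m
    refine (EE_le_CE hw L h (y l) (eM l) ((((ep_sq (eu l)).const_mul _).pow _).const_mul _)
      (CE_Mk hw D.mono l₀ D.dom (W l hl') (au l) n)).trans ?_
    simp only [mul_pow, ← mul_assoc, EE_const_mul]
    refine le_trans ?_ ((hθ l hl').trans (B3.trans_eq (mul_pow _ _ _)))
    rw [mul_pow, ← mul_assoc]
    gcongr
  gcongr
  linarith

/-- **the overlap of a pair split at `j`**: forward chain `c`, backward chain `y` -/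
theorem pairC (D : Dat w L h l₀ τ) {n j K : ℕ} (hn : 1 ≤ n) {c y : ℕ → ℕ} {θ σ θ' σ' : ℕ → ℝ}
    {B q : ℝ} (hB : 0 < B) (hc : Monotone c) (W : ∀ l ≤ K, Win L τ j (c l) (θ l))
    (I : ∀ l < K, Mo w L h n (iP w L l₀ j (c (l + 1))) (σ l)) (h4 : 4 ≤ σ K)
    (hθ : ∀ l ≤ K, cK n * (θ l * σ l) ^ n ≤ B ^ (2 * n))
    (y0 : y 0 = j) (W' : ∀ l ≤ K, Win L τ (y l) (c 0) (θ' l)) (ya : ∀ l, y (l + 1) ≤ y l)
    (I' : ∀ l < K, Mo w L h n (iP w L l₀ (y (l + 1)) (y l)) (σ' l)) (h1 : 1 ≤ σ' K)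
    (hθ' : ∀ l ≤ K, cK n * (θ' l * σ' l) ^ n ≤ B ^ (2 * n))
    (I0 : Mo w L h (2 * n) (iP w L l₀ j (c 0)) B)
    (N0 : Mo w L h (2 * n) (fun p => rP w L l₀ j p - q) B)
    (N1 : Mo w L h (2 * n) (fun p => rP w L l₀ (c 0) p - q) B) :
    pi2 w L j (fun x y => (l₀.cov x y - q) ^ (2 * n)) h ≤ (120 * (K + 3) ^ 2 * B) ^ (2 * n) := by
  have hw := D.hw
  have a := partA D hn hB hc W I h4 hθ I0
  have b := partB D hn hB (W 0 (Nat.zero_le K)).le y0 W' ya I' h1 hθ' I0 N0 N1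
  have d : EE w L h (fun p => (rP w L l₀ j p - q) ^ (2 * n)) ≤ B ^ (2 * n) := by
    simpa only [(even_two_mul n).pow_abs] using N0.le
  have eP := fun x => EP.state (eg_P hw (L.drop j) x) j
  have e1 := ep_qs (L := L) (l₀ := l₀) hw j n
  have e2 : EP fun p : Pth Ω => Pf w (L.drop j) (p j) fun s =>
      (l₀.fld (mv w (L.drop j) l₀ (p j)) s - q) ^ (2 * n) :=
    ep_Pf hw _ j fun s => ((ep_fld l₀ (ep_mv hw _ l₀ j) s).sub (EP.const q)).pow _
  have e3 := N0.ep.pow (2 * n)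
  rw [pi2, ← EE_node hw]
  refine (EE_mono hw L h (EP.sum _ fun x _ => EP.sum _ fun y _ => ((eP x).mul (eP y)).mul (EP.const _))
    (((e1.add (e2.const_mul 2)).add e3).const_mul ((5 : ℝ) ^ (2 * n))) fun p => ?_).trans ?_
  · unfold rP rr
    generalize mv w (L.drop j) l₀ (p j) = m
    have k : ∀ x y, (l₀.cov x y - q) ^ (2 * n) ≤ 5 ^ (2 * n) * ((shf l₀ m).cov x y ^ (2 * n) +
        (l₀.fld m x - q) ^ (2 * n) + (l₀.fld m y - q) ^ (2 * n) + (∑ i, m i ^ 2 - q) ^ (2 * n)) :=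
      fun x y => by
        have a := pw_sum univ ![(shf l₀ m).cov x y, l₀.fld m x - q, l₀.fld m y - q,
          -(∑ i, m i ^ 2 - q)] hn
        simp only [Fin.sum_univ_four, Matrix.cons_val, card_univ, Fintype.card_fin,
          (even_two_mul n).neg_pow] at a
        refine le_trans (le_of_eq ?_) (a.trans_eq (by norm_num))
        congr 1
        have : (shf l₀ m).cov x y = l₀.cov x y - l₀.fld m x - l₀.fld m y + ∑ i, m i ^ 2 := by
          simp only [Lv.cov, Lv.fld, ← sum_sub_distrib, ← sum_add_distrib]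
          exact sum_congr rfl fun i _ => by ring
        rw [this]
        ring
    have P0 := P_nonneg hw (L.drop j) (p j)
    have P1 := sum_P hw (L.drop j) (p j)
    refine (sum_le_sum fun x _ => sum_le_sum fun y _ =>
      mul_le_mul_of_nonneg_left (k x y) (mul_nonneg (P0 x) (P0 y))).trans_eq ?_
    simp only [qf, Pf]
    generalize P w (L.drop j) (p j) = Q at P1
    simp only [mul_left_comm (Q _ * Q _) (5 ^ _), ← mul_sum, mul_add (Q _ * Q _), sum_add_distrib]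
    have c1 : ∀ f : Ω → ℝ, ∑ x, ∑ y, Q x * Q y * f x = ∑ x, Q x * f x := fun f => by
      simp only [mul_right_comm _ (Q _) (f _), ← mul_sum, P1, mul_one]
    have c2 : ∀ f : Ω → ℝ, ∑ x, ∑ y, Q x * Q y * f y = ∑ x, Q x * f x := fun f => by
      simp only [mul_assoc, ← mul_sum, ← sum_mul, P1, one_mul]
    rw [c1, c2, c1 fun _ => _, ← sum_mul, P1]
    ring
  rw [EE_const_mul, EE_add hw L h (e1.add (e2.const_mul 2)) e3, EE_add hw L h e1 (e2.const_mul 2),
    EE_const_mul]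
  have K0 : (0 : ℝ) ≤ K := K.cast_nonneg
  have f1 : (2 * K + 3 : ℝ) ^ (2 * n) ≤ (2 * (K + 3)) ^ (2 * n) := by gcongr; linarith
  have f2 : (K + 3 : ℝ) ^ (2 * n) ≤ (2 * (K + 3)) ^ (2 * n) := by gcongr; linarith
  have f3 : B ^ (2 * n) ≤ (2 * (K + 3)) ^ (2 * n) * ((K + 3) * (3 * B) ^ (2 * n)) :=
    (pow_le_pow_left₀ hB.le (by linarith) _).trans ((le_mul_of_one_le_left (by positivity)
      (by linarith)).trans (le_mul_of_one_le_left (by positivity) (one_le_pow₀ (by linarith))))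
  have f4 : (4 * (K + 3) : ℝ) ≤ (4 * (K + 3)) ^ (2 * n) := le_self_pow₀ (by linarith) (by omega)
  have g1 := a.trans (mul_le_mul_of_nonneg_right f1 (by positivity))
  have g2 := b.trans (mul_le_mul f2 (show _ ≤ (K + 3) * (3 * B) ^ (2 * n) by gcongr; norm_num)
    (by positivity) (by positivity))
  calc _ ≤ 5 ^ (2 * n) * ((2 * (K + 3)) ^ (2 * n) * (4 * (K + 3) * (3 * B) ^ (2 * n))) := by
        gcongr; linarith
    _ ≤ 5 ^ (2 * n) * ((2 * (K + 3)) ^ (2 * n) * ((4 * (K + 3)) ^ (2 * n) * (3 * B) ^ (2 * n))) := by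
        gcongr
    _ = _ := by rw [← mul_pow, ← mul_pow, ← mul_pow]; congr 1; ring

end Crest.Agent.T156.Cas.Pr57

end
end

-- ▼ part T156/QPrL_57
section

/-!
# Row 156, block Q: the centred pair bound on dyadic chains (helper57)
-/

set_option autoImplicit false
set_option linter.unusedSectionVars false
set_option linter.unusedVariables false

noncomputable section

namespace Crest.Agent.T156.Cas.Pr57

open MeasureTheory Real Finset
open Crest.Agent.T157.E Crest.Agent.T157.Casc Crest.Agent.T157.SL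
open Crest.Agent.T156.Cas.Sy41 Crest.Agent.T156.Cas.Lp12 Crest.Agent.T156.Cas.QCas98
open Crest.Agent.T156.Cas.LpR43

variable {Ω : Type} [Fintype Ω] {w : Ω → ℝ} {L : List (Lv Ω)} {h : Ω → ℝ} {l₀ : Lv Ω} {τ : ℕ → ℝ}

/-- **pairs**: tolerance in the cone `β (N + |i - j|)` on `[j - 2 ^ LL, j + Dn]` -/
theorem pairL (D : Dat w L h l₀ τ) {t' : ℕ → ℕ} {LL j0 j1 j2 : ℕ} {x v w3 K : ℝ}
    (R : Ric L τ t' LL j0 j1 j2 x v w3 K) {n j N Dn : ℕ} (hn : 1 ≤ n) {c T : ℕ → ℝ} {A β B C : ℝ}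
    (N1 : 1 ≤ N) (ND : N ≤ Dn) (DU : Dn ≤ 2 ^ LL) (h0 : j0 + 2 ^ LL ≤ j) (h1 : j + 2 ^ LL ≤ j1)
    (loc : ∀ i, j ≤ i → i ≤ j + N → Mo w L h (2 * n) (fun q => rP w L l₀ i q - c i) (A * T i))
    (inc : ∀ i i', j ≤ i + 2 ^ LL → i ≤ i' → i' ≤ j + 2 ^ LL →
      Mo w L h (2 * n) (iP w L l₀ i i') (A * (T i + T i' + ((i' : ℝ) - i) * v)))
    (cone : ∀ i, j ≤ i + 2 ^ LL → i ≤ j + Dn → T i ≤ β * (N + |(i : ℝ) - j|)) (vβ : v ≤ β)
    (A1 : 1 ≤ A) (clk : |c (j + N) - c j| ≤ N * v) (hC : cK n ≤ C ^ (2 * n))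
    (b1 : C ^ 2 * (8 * A * β * (w3 / (x * v))) ≤ B ^ 2) (b2 : C ^ 2 * (4 * (w3 / (x * (Dn * v)))) ≤ B ^ 2)
    (b3 : 4 * A * β * N ≤ B) :
    pi2 w L j (fun x y => (l₀.cov x y - c j) ^ (2 * n)) h ≤
      (120 * (LL + 4) ^ 2 * B) ^ (2 * n) := by
  have hw := D.hw
  have v0 := R.v0
  have x0 := R.x0
  have w0 : 0 < w3 := by linarith [R.vw]
  have β0 : 0 < β := v0.trans_le vβ
  have N0 : (1 : ℝ) ≤ N := by exact_mod_cast N1
  have D0 : (N : ℝ) ≤ Dn := by exact_mod_cast ND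
  have B0 : 0 < B := lt_of_lt_of_le (by positivity) b3
  have pU : 2 ^ LL ≤ (2 ^ (LL + 1) - 1) * N := by
    have := Nat.two_pow_pos LL
    exact le_trans (by rw [pow_succ]; omega) (Nat.le_mul_of_pos_right _ N1)
  have fin : ∀ y : ℝ, 0 ≤ y → C ^ 2 * y ≤ B ^ 2 → cK n * y ^ n ≤ B ^ (2 * n) := fun y y0 e => by
    refine (mul_le_mul_of_nonneg_right hC (by positivity)).trans ?_
    rw [pow_mul, pow_mul, ← mul_pow]
    exact pow_le_pow_left₀ (by positivity) e n
  have stp : ∀ a : ℕ, 1 ≤ a → cK n * (w3 / (x * (a * v)) * (8 * A * β * a)) ^ n ≤ B ^ (2 * n) :=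
    fun a ha => by
      have : (0 : ℝ) < a := by exact_mod_cast ha
      exact fin _ (by positivity) (le_trans (le_of_eq (by field_simp)) b1)
  have sg : ∀ (i i' a b : ℕ), j ≤ i + 2 ^ LL → i ≤ i' → i' ≤ j + Dn → N ≤ a → b ≤ 2 * a →
      j ≤ i + b → i' ≤ j + b → i' ≤ i + b → Mo w L h (2 * n) (iP w L l₀ i i') (8 * A * β * a) :=
    fun i i' a b e1 e2 e3 e4 e5 e6 e7 e8 => by
      refine (inc i i' e1 e2 (by omega)).mono ?_
      have ab : ∀ y : ℕ, j ≤ y + b → y ≤ j + b → |(y : ℝ) - j| ≤ b := fun y f1 f2 => by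
        have g1 : (j : ℝ) ≤ y + b := by exact_mod_cast f1
        have g2 : (y : ℝ) ≤ j + b := by exact_mod_cast f2
        exact abs_le.2 ⟨by linarith, by linarith⟩
      have f4 : (N : ℝ) ≤ a := by exact_mod_cast e4
      have f5 : (b : ℝ) ≤ 2 * a := by exact_mod_cast e5
      have f8 : (i' : ℝ) ≤ i + b := by exact_mod_cast e8
      have c1 := (cone i e1 (by omega)).trans (show _ ≤ β * (a + 2 * a) by
        gcongr; exact (ab i e6 (by omega)).trans f5)
      have c2 := (cone i' (by omega) e3).trans (show _ ≤ β * (a + 2 * a) by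
        gcongr; exact (ab i' (by omega) e7).trans f5)
      have c3 : ((i' : ℝ) - i) * v ≤ 2 * a * β :=
        mul_le_mul (by linarith) vβ v0.le (by positivity)
      calc _ ≤ A * (8 * β * a) := by gcongr; linarith
        _ = _ := by ring
  set f : ℕ → ℕ := fun l => min (2 ^ l * N) Dn with hf
  set b : ℕ → ℕ := fun l => min ((2 ^ l - 1) * N) (2 ^ LL) with hb
  have fN : ∀ l, N ≤ f l := fun l => le_min (Nat.le_mul_of_pos_left _ (Nat.two_pow_pos l)) ND
  have fD : ∀ l, f l ≤ Dn := fun l => min_le_right _ _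
  have f0 : f 0 = N := by simp [hf, ND]
  have f2 : ∀ l, f (l + 1) ≤ 2 * f l := fun l => by
    simp only [hf, pow_succ, mul_right_comm _ 2 N]
    omega
  have fK : f (LL + 1) = Dn := min_eq_right (DU.trans (pU.trans (by gcongr; omega)))
  have bU : ∀ l, b l ≤ 2 ^ LL := fun l => min_le_right _ _
  have bm : ∀ l, b l ≤ b (l + 1) := fun l => min_le_min_right _ (by gcongr <;> omega)
  have b2' : ∀ l, b (l + 1) ≤ 2 * (b l + N) := fun l => by
    have := Nat.two_pow_pos l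
    obtain ⟨k, hk⟩ : ∃ k, 2 ^ l = k + 1 := ⟨2 ^ l - 1, by omega⟩
    have e : ((k + 1) * 2 - 1) * N = 2 * (k * N) + N := by
      rw [show (k + 1) * 2 - 1 = 2 * k + 1 by omega]; ring
    simp only [hb, pow_succ, hk, Nat.add_sub_cancel, e]
    omega
  have bK : b (LL + 1) = 2 ^ LL := min_eq_right pU
  have T0 : A * T j ≤ B := by
    have := cone j (by omega) (by omega)
    rw [sub_self, abs_zero, add_zero] at this
    nlinarith [mul_le_mul_of_nonneg_left this (show 0 ≤ A by linarith),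
      show 0 ≤ A * β * N by positivity]
  have T1 : A * T (j + N) + |c (j + N) - c j| ≤ B := by
    have := cone (j + N) (by omega) (by omega)
    push_cast at this
    rw [add_sub_cancel_left, Nat.abs_cast] at this
    have e : N * v ≤ A * β * N := by
      rw [mul_comm]; gcongr; exact vβ.trans (le_mul_of_one_le_left β0.le A1)
    nlinarith [mul_le_mul_of_nonneg_left this (show 0 ≤ A by linarith),
      show 0 ≤ A * β * N by positivity]
  have key := pairC D hn (j := j) (K := LL + 1) (c := fun l => j + f l) (y := fun l => j - b l)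
    (θ := fun l => w3 / (x * (f l * v))) (σ := fun l => if l ≤ LL then 8 * A * β * f l else 4)
    (θ' := fun l => w3 / (x * ((b l + N : ℕ) * v)))
    (σ' := fun l => if l ≤ LL then 8 * A * β * (b l + N : ℕ) else 4) (q := c j) B0
    (monotone_nat_of_le_succ fun l => Nat.add_le_add_left (min_le_min_right _ (by gcongr <;> omega)) j)
    (fun l _ => R.win (by omega) (N1.trans (fN l)) le_rfl (by have := fD l; omega))
    (fun l hl => by
      have := fD (l + 1)
      rw [if_pos (by omega)]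
      exact (sg _ _ _ (f (l + 1)) (by omega) (by omega) (by omega) (fN l) (f2 l) (by omega)
        le_rfl le_rfl).lyap hw (by omega))
    (by simp) (fun l hl => by
      split_ifs with e
      · exact stp _ (N1.trans (fN l))
      · rw [show l = LL + 1 by omega, fK]
        exact fin _ (by positivity) (le_trans (le_of_eq (by ring)) b2))
    (by simp [hb]) (fun l _ => by
      have := bU l
      rw [f0]
      exact R.win (by omega) (by omega) (by omega) (by omega))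
    (fun l => by have := bm l; omega)
    (fun l hl => by
      have := bU (l + 1)
      have := bm l
      rw [if_pos (by omega)]
      exact (sg _ _ _ (b (l + 1)) (by omega) (by omega) (by omega) (by omega) (b2' l) (by omega)
        (by omega) (by omega)).lyap hw (by omega))
    (by simp) (fun l hl => by
      split_ifs with e
      · exact stp _ (by omega)
      · rw [show l = LL + 1 by omega, bK]
        have : (Dn : ℝ) ≤ ((2 ^ LL + N : ℕ) : ℝ) := by exact_mod_cast (by omega)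
        have : (0 : ℝ) < Dn := by linarith
        refine fin _ (by positivity) (le_trans ?_ b2)
        rw [mul_comm _ (4 : ℝ)]
        gcongr)
    (by
      rw [f0]
      refine (inc j (j + N) (by omega) (by omega) (by omega)).mono ?_
      have a1 := cone j (by omega) (by omega)
      have a2 := cone (j + N) (by omega) (by omega)
      push_cast at a2 ⊢
      rw [sub_self, abs_zero, add_zero] at a1
      rw [add_sub_cancel_left, Nat.abs_cast] at a2
      rw [add_sub_cancel_left]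
      have : N * v ≤ β * N := by rw [mul_comm]; gcongr
      calc _ ≤ A * (4 * β * N) := by gcongr; linarith
        _ ≤ _ := by linarith)
    ((loc j le_rfl (by omega)).mono T0)
    (by
      rw [f0]
      exact ((((loc (j + N) (by omega) le_rfl).add hw (Mo.const hw (c (j + N) - c j))).congr
        fun _ => by ring).mono T1))
  exact key.trans_eq (by push_cast; ring)

end Crest.Agent.T156.Cas.Pr57

end
end

-- ▼ part T156/QLg_58

/-!
# Row 156, block Q: increments over long windows (helper58)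
-/

set_option autoImplicit false
set_option maxHeartbeats 400000
set_option linter.unusedVariables false

noncomputable section

namespace Crest.Agent.T156.Q57

open MeasureTheory Finset Real Crest.Agent.T156.Q21

/-- increments between any two inner nodes -/
theorem syncD (i : ℕ) (K : ℝ) (hi : 1 ≤ i) : ∃ C : ℝ, 1 ≤ C ∧
  ∀ (α ι : Type) [MeasurableSpace α] [Fintype ι] (S : Sys α ι) (L J j0 j1 : ℕ) (v l2 l3 e P Z : ℝ)
    (N : ℕ → ℕ) (τ c g : ℕ → ℝ), S.Ok → S.Good L v l2 l3 (e ^ 2 ^ i) j0 j1 →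
    S.Win L v l2 l3 K j0 j1 N τ c g → 0 ≤ e → e ≤ v → e ≤ l3 → 1 ≤ P → (2 : ℝ) ^ (L + 3) ≤ P ^ 2 ^ i →
    1 ≤ Z → 4 / v ≤ Z ^ 2 ^ J → ∀ j j', j0 + (J + 1) * (8 * 2 ^ L) ≤ j → j ≤ j' →
      j' + (J + 1) * (8 * 2 ^ L) ≤ j1 →
        Nb S.μ (2 ^ i) (fun a => sq2 (S.m j' a - S.m j a))
          (C * P * Z * (τ j + τ j' + ((j' : ℝ) - j) * v)) := by
  have hN := N89.nbS
  have hQ := N89.qvS
  obtain ⟨CB, CB1, hB⟩ := blpS i
  set B0 : ℝ := 16 * (2 ^ i : ℕ) * (16 * K * (2 * CB + K + 7) + K + 9) with hB0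
  refine ⟨|(2 * CB + K + 7) * B0 * 6| + 4, by linarith [abs_nonneg ((2 * CB + K + 7) * B0 * 6)],
    fun α ι _ _ S L J j0 j1 v l2 l3 e P Z N τ c g H hG W e0 ev e3 P1 hP Z1 hZ j j' h0 h2 h1 => ?_⟩
  have := H.prob
  obtain ⟨Bad, mB, μB, hG⟩ := hG.ex
  have hp : 1 ≤ 2 ^ i := Nat.one_le_two_pow
  have hp2 : 2 ≤ 2 ^ i := by
    calc 2 = 2 ^ 1 := rfl
      _ ≤ 2 ^ i := Nat.pow_le_pow_right two_pos hi
  have pr : (1 : ℝ) ≤ (2 ^ i : ℕ) := by exact_mod_cast hp
  have dok := dat_ok (Bad := Bad) (L := L) (j1 := j1) (l2 := l2) (N := N) (c := c) hN H hp mB μB e0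
    W.v0 W.l30.le
  have X : Ctx S (ns hN S.μ hp) Bad L j0 j1 v l2 l3 e K CB (16 * (2 ^ i : ℕ) * P) N τ c g := by
    refine ⟨H, W, dok, fun t a b => dat_gd H W.v0 W.l20.le W.l30.le hG (W.N1 _) a b, ev, e3, CB1,
      by nlinarith, fun j => ?_, fun J φ γ h => ?_, fun b h n X hn hX => ?_⟩
    · refine nr_le hp ((hQ α ι S H).2.1 _ j (N j) (c j) _ hp2 (W.N1 j) ?_)
      have : (fun a => max ((dat S Bad L j1 v l2 l3 e N c).rb (j, true) a -
          (dat S Bad L j1 v l2 l3 e N c).γ (j, true)) 0) =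
          fun a => max (av j (N j) (fun y => S.rho y a) - c j) 0 := funext fun a => by
        rw [dat_rb]; rfl
      show Nb _ _ _ (nr S.μ _ _)
      rw [this]; exact nb_nr hp _
    · refine nr_le hp ((hN α S.μ _ hp).2.2.1 _ _ ?_ (hB α ι S H J φ γ (nb_of_le hp h)))
      exact (ns hN S.μ hp).c_sum _ fun y _ => (ns hN S.μ hp).c_cmul _ ((ns hN S.μ hp).c_cmul _
        ((ns hN S.μ hp).c_sub (dok.cρ y) (bm_const _)))
    · refine nr_le hp ((hQ α ι S H).1 _ b h n X P hp2 P1 (le_trans ?_ hP)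
        fun i hi => nb_of_le hp (hX i hi))
      exact_mod_cast hn
  have K1 := W.K1
  have t0 := X.τ0 j
  have t0' := X.τ0 j'
  have v0 := W.v0
  have d0 : 0 ≤ ((j' : ℝ) - j) * v :=
    mul_nonneg (by rw [sub_nonneg]; exact_mod_cast h2) v0.le
  have a0 := abs_nonneg ((2 * CB + K + 7) * B0 * 6)
  have PZ : 1 ≤ P * Z := by nlinarith
  refine nb_of_le hp ?_
  cases J with
  | zero =>
    have c4 := (ns hN S.μ hp).mono' (dok.cinc j j') (bm_const 4) fun a => by
      rw [abs_of_nonneg (Dat.inc0 _ _ _)]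
      have : (dat S Bad L j1 v l2 l3 e N c).inc j j' a ≤ 2 * (S.rho j' a + S.rho j a) := by
        simp only [Dat.inc, Sys.rho, sq2, mul_sum, ← sum_add_distrib]
        exact sum_le_sum fun k _ => by
          show (S.m j' a k - S.m j a k) ^ 2 ≤ _
          nlinarith [sq_nonneg (S.m j' a k + S.m j a k)]
      linarith [H.bd j a, H.bd j' a]
    refine (c4.trans ((ns hN S.μ hp).const 4 (by norm_num))).trans ?_
    rw [pow_zero, pow_one, div_le_iff₀ W.v0] at hZ
    have b1 := mul_le_mul_of_nonneg_left (X.v_le j) (zero_le_one.trans Z1)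
    have b3 : 1 ≤ (|(2 * CB + K + 7) * B0 * 6| + 4) * P := by nlinarith
    have b2 : Z * τ j ≤ Z * (τ j + τ j' + ((j' : ℝ) - j) * v) := by gcongr; linarith
    calc (4 : ℝ) ≤ 1 * (Z * (τ j + τ j' + ((j' : ℝ) - j) * v)) := by linarith
      _ ≤ (|(2 * CB + K + 7) * B0 * 6| + 4) * P * (Z * (τ j + τ j' + ((j' : ℝ) - j) * v)) := by
          gcongr
      _ = _ := by ring
  | succ J =>
    have I := X.iter (B := B0 * P) (by rw [hB0]; ring) Z1 hZ J (Nat.le_succ J)
    rw [show J + 1 - J = 1 by omega, pow_one, ← mul_pow] at I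
    have B1 : 1 ≤ B0 := by
      have a : 0 ≤ 16 * K * (2 * CB + K + 7) := by positivity
      nlinarith
    have BP : 1 ≤ B0 * P * Z := by nlinarith
    have hj : Rg L j0 j1 (J + 1) j := ⟨h0, by omega⟩
    have hj' : Rg L j0 j1 (J + 1) j' := ⟨by omega, h1⟩
    have k := X.inc_le (one_le_pow₀ BP) I (i := j) (j := j') (hj.near (by omega) (by omega))
      (hj'.near (by omega) (by omega)) (d := j' - j) h2 (by omega)
    rw [sqrt_sq (by positivity), Nat.cast_sub h2] at k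
    refine le_trans k ?_
    set y := τ j + τ j' + ((j' : ℝ) - j) * v with hy
    have y0 : 0 ≤ y := by positivity
    have b1 := mul_le_mul_of_nonneg_left (show 6 * τ j + 2 * τ j' ≤ 6 * y by linarith)
      (show 0 ≤ (2 * CB + K + 7) * (B0 * P * Z) by positivity)
    have b3 : 0 ≤ P * Z * y := by positivity
    have b4 := mul_le_mul_of_nonneg_right (le_abs_self ((2 * CB + K + 7) * B0 * 6)) b3
    have b5 := mul_le_mul_of_nonneg_right PZ y0
    have b6 : ((j' : ℝ) - j) * v ≤ y := by linarith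
    nlinarith

end Crest.Agent.T156.Q57

namespace Crest.Agent.T156.Cas.G58

open MeasureTheory Real Finset
open Crest.Agent.T157.E Crest.Agent.T157.Casc Crest.Agent.T157.SL
open Crest.Agent.T156.Cas.Sy41 Crest.Agent.T156.Q57 Crest.Agent.T156.Cas.Lp12
open QCas98 G57

/-- long increments on a cascade, any window system -/
theorem inc_cas (r i : ℕ) (K : ℝ) (hi : 1 ≤ i) (hr : r ≤ i) : ∃ C : ℝ, 1 ≤ C ∧
    ∀ (Ω : Type) [Fintype Ω] (w : Ω → ℝ) (L : List (Lv Ω)) (h : Ω → ℝ) (l₀ : Lv Ω) (τ : ℕ → ℝ)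
      (t' : ℕ → ℕ) (LL j0 j1 j2 : ℕ) (x v w3 lam : ℝ) (N : ℕ → ℕ) (tol c g : ℕ → ℝ),
      Dat w L h l₀ τ → Ric L τ t' LL j0 j1 j2 x v w3 K → C ≤ lam → Pol r LL j1 v lam →
      (sysC w L h l₀).Win LL v (lam * w3 / x) (lam * K * w3) K j0 j1 N tol c g →
      ∀ j j', j0 + (r + 2) * (8 * 2 ^ LL) ≤ j → j ≤ j' → j' + (r + 2) * (8 * 2 ^ LL) ≤ j1 →
        Mo w L h (2 ^ i) (iP w L l₀ j j') (lam ^ 3 * (tol j + tol j' + ((j' : ℝ) - j) * v)) := by
  obtain ⟨C3, C31, h3⟩ := syncD i K hi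
  obtain ⟨C2, C21, h2⟩ := goodS (1 + r * 3 + r * 2 ^ i)
  refine ⟨max C2 C3, le_max_of_le_right C31, ?_⟩
  intro Ω _ w L h l₀ τ t' LL j0 j1 j2 x v w3 lam N tol c g D R hC P W j j' hj hjj hj'
  have := D.ok.prob
  have c2 : C2 ≤ lam := (le_max_left _ _).trans hC
  have c3 : C3 ≤ lam := (le_max_right _ _).trans hC
  have l1 : 1 ≤ lam := C31.trans c3
  have v0 := R.v0
  have K1 := R.K1
  have w0 : 0 < w3 := by linarith [R.vw]
  have G := h2 Ω w D.hw L h l₀ τ t' LL j0 j1 j2 x v w3 K lam D.mono D.one D.dom R.x0 R.v0 R.vw R.K1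
    l1 R.j12 R.j2L R.blk R.top R.up R.sum
  set M := lam ^ r with hM
  have M8 : 8 ≤ M := by
    refine le_trans ?_ P.L1
    rw [pow_add]
    have : (1 : ℝ) ≤ 2 ^ LL := one_le_pow₀ one_le_two
    linarith
  have LM : (LL : ℝ) + 2 ≤ M := by
    refine le_trans ?_ P.L1
    have : LL + 3 < 2 ^ (LL + 3) := Nat.lt_two_pow_self
    have : ((LL + 3 : ℕ) : ℝ) < ((2 ^ (LL + 3) : ℕ) : ℝ) := by exact_mod_cast this
    push_cast at this
    linarith
  have hη : C2 * ((LL + 2) * (j1 + 1) ^ 2) / lam ^ (1 + r * 3 + r * 2 ^ i) ≤ v ^ 2 ^ i := by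
    rw [div_le_iff₀ (by positivity), pow_add, pow_add, pow_one, pow_mul, pow_mul, ← hM]
    have a1 : C2 * ((LL + 2) * (j1 + 1) ^ 2) ≤ lam * M ^ 3 := by
      have : ((LL : ℝ) + 2) * (j1 + 1) ^ 2 ≤ M * M ^ 2 :=
        mul_le_mul LM (pow_le_pow_left₀ (by positivity) P.j1 2) (by positivity) (by positivity)
      calc _ ≤ lam * (M * M ^ 2) := mul_le_mul c2 this (by positivity) (by positivity)
        _ = _ := by ring
    have a2 : 1 ≤ v ^ 2 ^ i * M ^ 2 ^ i := by rw [← mul_pow]; exact one_le_pow₀ P.v1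
    calc _ ≤ lam * M ^ 3 * 1 := by rwa [mul_one]
      _ ≤ lam * M ^ 3 * (v ^ 2 ^ i * M ^ 2 ^ i) := mul_le_mul_of_nonneg_left a2 (by positivity)
      _ = _ := by ring
  have G' := G.mono v0.le le_rfl le_rfl hη
  have q1 : v ≤ lam * K * w3 := by
    have : 1 ≤ lam * K := one_le_mul_of_one_le_of_one_le l1 K1
    nlinarith [R.vw]
  have q2 : (2 : ℝ) ^ (LL + 3) ≤ lam ^ 2 ^ i :=
    P.L1.trans (pow_le_pow_right₀ l1 (hr.trans Nat.lt_two_pow_self.le))
  have q3 : 4 / v ≤ lam ^ 2 ^ (r + 1) := by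
    have a1 : 4 / v ≤ M * M := by
      rw [div_le_iff₀ v0]
      nlinarith [P.v1]
    refine a1.trans ?_
    rw [hM, ← pow_add]
    refine pow_le_pow_right₀ l1 ?_
    have : r < 2 ^ r := Nat.lt_two_pow_self
    rw [pow_succ]; omega
  have key := h3 _ _ (sysC w L h l₀) LL (r + 1) j0 j1 v _ _ v lam lam N tol c g D.ok G' W v0.le
    le_rfl q1 l1 q2 l1 q3 j j' hj hjj hj'
  have t0 : ∀ j, 0 ≤ tol j := fun j => le_trans (by positivity) (W.Nv j)
  have d0 : 0 ≤ ((j' : ℝ) - j) * v :=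
    mul_nonneg (by rw [sub_nonneg]; exact_mod_cast hjj) v0.le
  have b0 : C3 * lam * lam ≤ lam ^ 3 := by
    nlinarith [mul_pos (zero_lt_one.trans_le l1) (zero_lt_one.trans_le l1)]
  exact mo_of_nb D.hw (ep_iP D.hw j j') (Blk24.nb_le key
    (mul_le_mul_of_nonneg_right b0 (by linarith [t0 j, t0 j'])))

/-- **long increments for windows `ρ` and a tolerance `tl`** (prefix of `G57.gen_syn`) -/
theorem gen_inc (r i : ℕ) (K : ℝ) (hi : 1 ≤ i) (hr : r ≤ i) : ∃ C : ℝ, 1 ≤ C ∧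
    ∀ (Ω : Type) [Fintype Ω] (w : Ω → ℝ) (L : List (Lv Ω)) (h : Ω → ℝ) (l₀ : Lv Ω) (τ : ℕ → ℝ)
      (t' : ℕ → ℕ) (LL j0 j1 j2 a0 a1 : ℕ) (x v w3 lam : ℝ) (c ρ tl : ℕ → ℝ),
      Dat w L h l₀ τ → Ric L τ t' LL j0 j1 j2 x v w3 K → C ≤ lam → Pol r LL j1 v lam →
      GB w L h l₀ LL j0 j1 x v w3 K lam c ρ tl →
      j0 + (r + 3) * (8 * 2 ^ LL) ≤ a0 → a1 + (r + 3) * (8 * 2 ^ LL) ≤ j1 →
      ∀ j j', a0 ≤ j → j ≤ j' → j' ≤ a1 →
        Mo w L h (2 ^ i) (iP w L l₀ j j') (lam ^ 3 * (tl j + tl j' + ((j' : ℝ) - j) * v)) := by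
  obtain ⟨C, C1, H⟩ := inc_cas r i K hi hr
  refine ⟨C, C1, ?_⟩
  intro Ω _ w L h l₀ τ t' LL j0 j1 j2 a0 a1 x v w3 lam c ρ tl D R hC P B h0 h1 j j' b0 b1 b2
  have hP : 0 < 2 ^ LL := Nat.two_pow_pos LL
  have l1 : 1 ≤ lam := C1.trans hC
  have e : (r + 3) * (8 * 2 ^ LL) = (r + 2) * (8 * 2 ^ LL) + 8 * 2 ^ LL := by ring
  have S := H Ω w L h l₀ τ t' LL (j0 + 2 ^ LL + 1) (j1 - 2 ^ LL) j2 x v w3 lam _ _ _ _ D
    (R.sub (by omega) (by omega)) hC ⟨P.v1, P.L1, le_trans (by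
      have : ((j1 - 2 ^ LL : ℕ) : ℝ) ≤ j1 := by exact_mod_cast Nat.sub_le _ _
      linarith) P.j1⟩ (B.win D R (by linarith) (Nat.lt_succ_self _) (by omega)) j j' (by omega) b1
      (by omega)
  rwa [cl_eq tl (by omega) (by omega), cl_eq tl (by omega) (by omega)] at S

end Crest.Agent.T156.Cas.G58

end
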