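import Crest.Agent.T156.QTop_57
import Crest.Agent.T156.QLg_58_Mg

/-!
# Row 156, block Q on the class `Cl`: the centred pair bound (helper57)
-/

set_option autoImplicit false
set_option linter.unusedSectionVars false
set_option linter.unusedVariables false
set_option maxHeartbeats 400000

noncomputable section

namespace Crest.Agent.T156.Alt

open MeasureTheory Real Finset Filter
open Crest.Agent.T157.E Crest.Agent.T157.Casc Crest.Agent.T157.SL
open Crest.Agent.T156.Cas Crest.Agent.T156.Cas.Lp12 Crest.Agent.T156.Alt.Md67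
open Crest.Agent.T156.Cas.QCas98 Crest.Agent.T156.Alt.C33 Crest.Agent.T156.Alt.QS98
open Crest.Agent.T156.Q57.Blk24 (Nw Nw_v Nw_ge Nw_one)
open Crest.Agent.T156.Cas.G57 (GB gen_syn)
/-- **input**: clock `c`, windows `ρ`, tolerance `τ` -/
structure QW (K Λ₀ : ℝ) (S : Sc) (M : Md) (m : ℕ) (a t : ℝ) (k0 k1 : ℕ) (c ρ τ : ℕ → ℝ) :
    Prop where
  blk : TB K S M t k0 k1
  crude : Crude Λ₀ S M m a t k0
  c0 : 0 ≤ c k0
  clk : ∀ k, k0 ≤ k → k < k1 → c k ≤ c (k + 1) ∧ c (k + 1) ≤ c k + K * S.v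
  lip : ∀ k, k0 ≤ k → k < k1 → |ρ (k + 1) - ρ k| ≤ K * S.v
  rn : ∀ k, k0 ≤ k → k ≤ k1 → 1 ≤ S.n * ρ k
  ge : ∀ k, k0 ≤ k → k ≤ k1 → ρ k ≤ τ k
  loc : ∀ k, k0 ≤ k → k ≤ k1 → |M.rb m a k - c k| ≤ τ k
  up : ∀ k i : ℕ, k0 ≤ k → k ≤ i → i ≤ k1 → ((i : ℝ) - k) * S.v ≤ ρ k → τ i ≤ K * τ k
  dn : ∀ i k : ℕ, k0 ≤ i → i ≤ k → k ≤ k1 → τ i * ρ k ≤ K * τ k * (ρ k + ((k : ℝ) - i) * S.v)
  w4 : ∀ k, k0 ≤ k → k ≤ k1 → S.w3 t ≤ τ k * min (ρ k) t * t
  den : ∀ k y : ℕ, k0 ≤ k → k ≤ k1 → k0 < y → y < k1 → |(y : ℝ) - k| * S.v ≤ ρ k →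
    1 ≤ τ k ∨ S.w3 t * S.v ≤ K * M.dz m a y * (τ k * min (ρ k) t ^ 2)

/-- **output** with the loss `Λ` at the exponent `p` -/
structure QOW (K Λ : ℝ) (p : ℕ) (S : Sc) (M : Md) (m : ℕ) (a t : ℝ) (k0 k1 : ℕ) (c ρ τ : ℕ → ℝ) :
    Prop where
  node : ∀ k, Inn K S t k0 k1 k → M.Mo m a p (fun q => M.rP m a k q - c k) (Λ * τ k)
  pair : ∀ (k : ℕ) (D : ℝ), Inn K S t k0 k1 k → 1 ≤ K * t → 0 < D →
    (∀ i : ℕ, k ≤ i → i ≤ k1 → ((i : ℝ) - k) * S.v ≤ D →
      τ i * ρ k ≤ K * τ k * (ρ k + ((i : ℝ) - k) * S.v)) →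
    M.E2 m a (fun R => (R - c k) ^ (2 * p)) k ≤ (Λ * (τ k + √(S.w3 t / min D t))) ^ (2 * p)
  inc : ∀ k k', Inn K S t k0 k1 k → k ≤ k' → Λ * (((k' : ℝ) - k) * S.v) ≤ min (ρ k) t →
    M.Mo m a p (M.iP m a k k') (Λ * τ k)
  ric : ∀ b0 b1 U u G, Wts K S t k0 k1 ρ b0 b1 U u G →
    M.Mo m a p (fun q => ∑ y ∈ Ico b0 b1, u y * M.aP m a y q)
      (Λ * S.w3 t * ∑ y ∈ Ico b0 (b1 + U), G y * (τ y / min (ρ y) t))
  jnt : ∀ b0 b1 U u G, Wts K S t k0 k1 ρ b0 b1 U u G → ∀ i ≤ p,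
    ∑ y ∈ Ico b0 b1, u y * M.EP' m a (fun q => |M.rP m a y q - c y| ^ i * M.aP m a y q) ≤
      Λ ^ (i + 1) * S.w3 t * ∑ y ∈ Ico b0 (b1 + U), G y * (τ y ^ i * (τ y / min (ρ y) t))

/-- **Q with the weak mass clause** -/
def QGenW : Prop := ∀ (K : ℝ) (p : ℕ), 1 ≤ K → CL fun _ Λ S M m a =>
  ∀ Λ₀ t k0 k1 c ρ τ, QW K Λ₀ S M m a t k0 k1 c ρ τ → QOW K (Λ * Λ₀) p S M m a t k0 k1 c ρ τ

namespace T57

/-- the context with long increments -/
structure Cw (K K' lam : ℝ) (r i p : ℕ) (S : Sc) (M : Md) (m : ℕ) (a : ℝ) : Prop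
    extends Cy K K' lam r i p S M m a where
  gi : ∀ (t' : ℕ → ℕ) (LL j0 j1 j2 a0 a1 : ℕ) (x v w3 : ℝ) (c ρ tl : ℕ → ℝ),
    Ric (M.L m a) (M.τ m) t' LL j0 j1 j2 x v w3 (3 * K' ^ 2) → Pol r LL j1 v lam →
    GB (fun _ => 1) (M.L m a) 0 (Q33.sl m) LL j0 j1 x v w3 (3 * K' ^ 2) lam c ρ tl →
    j0 + (r + 3) * (8 * 2 ^ LL) ≤ a0 → a1 + (r + 3) * (8 * 2 ^ LL) ≤ j1 →
    ∀ j j', a0 ≤ j → j ≤ j' → j' ≤ a1 →
      Lp12.Mo (fun _ => 1) (M.L m a) 0 (2 ^ i) (QCas98.iP (fun _ => 1) (M.L m a) (Q33.sl m) j j')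
        (lam ^ 3 * (tl j + tl j' + ((j' : ℝ) - j) * v))

/-- the context, exponent chosen after `A` and `η` -/
theorem cw_at (Kf : ℝ → ℝ) (hK : ∀ C, 1 ≤ Kf C) (C : ℝ) {A : ℕ} (hA : 2 ≤ A) {η : ℝ} (hη : 0 < η)
    (p : ℕ) : ∀ᶠ n : ℕ in atTop, ∀ (S : Sc) (M : Md), S.C = C → S.A = A → S.n = n → Cl S M →
      ∀ m a, S.In m a →
    ∃ (K' lam : ℝ) (r i : ℕ), Cw (Kf S.C) K' lam r i p S M m a ∧ lam ^ 40 ≤ (n : ℝ) ^ η := by
  obtain ⟨r0, hr0⟩ := pow_unbounded_of_one_lt (Kf C) (one_lt_two (α := ℝ))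
  set K' := max (Kf C) (2016 * Kf C ^ 3 * C ^ 14 * 4 ^ r0) with hK'
  have hKC := hK C
  have h0 : Kf C ≤ K' := le_max_left _ _
  have h1 : 1 ≤ K' := hKC.trans h0
  obtain ⟨K'', h2, hU⟩ := qUpS (Kf C) C (hK C)
  set η' : ℝ := min η 1 / 40 with hη'
  have e0 : 0 < η' := by have := lt_min hη one_pos; positivity
  set r : ℕ := ⌈((A : ℝ) + 3) / η'⌉₊ with hr
  obtain ⟨Cl, hCl, hS⟩ := lip_syn' r (r + p + 1) (3 * K' ^ 2) (by omega) (by omega)
  obtain ⟨Cg, hCg, hG⟩ := gen_syn r (r + p + 1) (3 * K' ^ 2) (by omega) (by omega)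
  obtain ⟨Ci, hCi, hI⟩ := G58.gen_inc r (r + p + 1) (3 * K' ^ 2) (by omega) (by omega)
  have ck := LpR43.cK_pos p
  filter_upwards [hU A hA, ev_fn C hA,
    ev_rgc C hA e0 (Kf C + K' + K'' + Cl + Cg + Ci + LpR43.cK p + ((r : ℝ) + 4) * 8)]
    with n a2 a3 a4 S M e1 e2 e3 h m a I
  have G := a4 S e1 e2 e3
  have F := a3 S M e1 e2 e3 h m a I
  have k := G.K_le
  have r0 : (0 : ℝ) ≤ ((r : ℝ) + 4) * 8 := by positivity
  have n1 := G.N1.le
  have pw : ∀ j : ℕ, ((S.n : ℝ) ^ η') ^ j = (S.n : ℝ) ^ (η' * j) := fun j =>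
    (rpow_mul_natCast G.N0.le _ _).symm
  subst e1 e2 e3
  have rt : ∀ t k0 k1, TB (Kf S.C) S M t k0 k1 → ∀ LL : ℕ, 2 ^ LL * (16 * Kf S.C * S.v) ≤ t →
      ∃ (t' : ℕ → ℕ) (j2 : ℕ), Ric (M.L m a) (M.τ m) t' LL (k0 + 1) (k1 + 1) j2 (t / K')
        (16 * Kf S.C * S.v) (K' * S.w3 t) (3 * K' ^ 2) := fun t k0 k1 B LL hL => by
    obtain ⟨t', j2, R⟩ := ricT F B hKC hr0.le (le_max_right _ _) hL
    exact ⟨t', j2, Ric.monoK R (by nlinarith)⟩
  refine ⟨K', (S.n : ℝ) ^ η', r, r + p + 1, ⟨⟨⟨F, hKC, h1,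
    fun t k0 k1 B LL hL => rt t k0 k1 (QB.tb B h) LL hL,
    fun t Λ b B hΛ H => ?_, fun t' LL j0 j1 j2 a0 a1 x v w3 Λ c ρ R P B => ?_, G.num_le,
    by linarith, by linarith, G.C_le h, by linarith, G.A_le, G.log_le, by linarith, hA, ?_, ?_,
    ?_, ?_⟩, h0, rt, fun t' LL j0 j1 j2 a0 a1 x v w3 c ρ tl R P B => ?_⟩,
    fun t' LL j0 j1 j2 a0 a1 x v w3 c ρ tl R P B => ?_⟩, ?_⟩
  · obtain ⟨k, u, θ, ρ, U, b1, b2⟩ := a2 S M rfl rfl rfl h m a I t Λ p b B hΛ H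
    have := B.t0
    exact ⟨k, u, θ, ρ, U, b1.trans (by gcongr; linarith), b2.trans (by gcongr; linarith)⟩
  · exact hS _ _ _ _ _ _ t' LL j0 j1 j2 a0 a1 x v w3 _ Λ c ρ (dat F.lg) R (by linarith) P B
  · rw [pw]
    refine (rpow_le_rpow_of_exponent_le n1 ?_).trans (rpow_one _).le
    have := min_le_right η 1
    push_cast
    linarith
  · rw [pw, ← rpow_natCast]
    refine rpow_le_rpow_of_exponent_le n1 ?_
    have := Nat.le_ceil (((S.A : ℝ) + 3) / η')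
    rw [div_le_iff₀ e0] at this
    push_cast
    linarith
  · calc 2 * p ≤ 2 * 2 ^ p := Nat.mul_le_mul_left 2 Nat.lt_two_pow_self.le
      _ = 2 ^ (p + 1) := by ring
      _ ≤ _ := Nat.pow_le_pow_right (by norm_num) (by omega)
  · exact Nat.lt_two_pow_self.le.trans (Nat.pow_le_pow_right (by norm_num) (by omega))
  · exact hG _ _ _ _ _ _ t' LL j0 j1 j2 a0 a1 x v w3 _ c ρ tl (dat F.lg) R (by linarith) P B
  · exact hI _ _ _ _ _ _ t' LL j0 j1 j2 a0 a1 x v w3 _ c ρ tl (dat F.lg) R (by linarith) P B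
  · rw [pw]
    refine rpow_le_rpow_of_exponent_le n1 ?_
    have := min_le_left η 1
    push_cast
    linarith

theorem cw_ev (Kf : ℝ → ℝ) (hK : ∀ C, 1 ≤ Kf C) (p : ℕ) : CL fun _ Λ S M m a =>
    ∃ (K' lam : ℝ) (r i : ℕ), Cw (Kf S.C) K' lam r i p S M m a ∧ lam ^ 40 ≤ Λ := fun C => by
  filter_upwards [eventually_ge_atTop 2] with A hA ε hε η hη using cw_at Kf hK C hA hη p

theorem QW.mono {K K₁ Λ₀ : ℝ} {S : Sc} {M : Md} {m : ℕ} {a t : ℝ} {k0 k1 : ℕ} {c ρ τ : ℕ → ℝ}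
    (F : Fn S M m a) (H : QW K Λ₀ S M m a t k0 k1 c ρ τ) (h1 : 1 ≤ K) (h : K ≤ K₁) :
    QW K₁ Λ₀ S M m a t k0 k1 c ρ τ := by
  have B := H.blk
  have t0 := B.t0
  have v0 := F.v0
  have n1 := F.n1
  have s0 := F.s_nonneg k0
  have r0 : ∀ k, k0 ≤ k → k ≤ k1 → 0 < ρ k := fun k a b =>
    pos_of_mul_pos_right (zero_lt_one.trans_le (H.rn k a b)) (Nat.cast_nonneg _)
  have τ0 : ∀ k, k0 ≤ k → k ≤ k1 → 0 < τ k := fun k a b => (r0 k a b).trans_le (H.ge k a b)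
  refine ⟨⟨t0, B.k0l, B.k0p, B.k01, B.k1N, B.lo.trans (by gcongr), B.hi.trans (by gcongr), B.wt,
    fun k a b => le_trans ?_ (B.rev k a b)⟩, H.crude, H.c0,
    fun k a b => ⟨(H.clk k a b).1, (H.clk k a b).2.trans (by gcongr)⟩,
    fun k a b => (H.lip k a b).trans (by gcongr), H.rn, H.ge, H.loc,
    fun k i a b c d => (H.up k i a b c d).trans ?_, fun i k a b c => (H.dn i k a b c).trans ?_,
    H.w4, fun k y a b c d e => (H.den k y a b c d e).imp id fun f => f.trans ?_⟩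
  · have := F.ms_pos (F.s_nonneg k)
    have := F.C0
    have := F.F0
    gcongr
  · have := τ0 k a (by omega)
    gcongr
  · have := τ0 k (by omega) c
    have := r0 k (by omega) c
    have : (0 : ℝ) ≤ k - i := by rw [sub_nonneg]; exact_mod_cast b
    gcongr
  · have := τ0 k a b
    have := F.lg.dz_nonneg y
    gcongr

namespace Cw

variable {K K' lam : ℝ} {r i p : ℕ} {S : Sc} {M : Md} {m : ℕ} {a : ℝ}
  (X : Cw K K' lam r i p S M m a) {Λ₀ t : ℝ} {k0 k1 LL : ℕ} {c ρ τ : ℕ → ℝ}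
  (H : QW K Λ₀ S M m a t k0 k1 c ρ τ)
include X H

theorem qb0 : QB K S M t k0 k0 := TB.qb H.blk X.fn.leg le_rfl H.blk.k01 H.blk.k0p

theorem r0 {k : ℕ} (h0 : k0 ≤ k) (h1 : k ≤ k1) : 0 < ρ k :=
  pos_of_mul_pos_right (zero_lt_one.trans_le (H.rn k h0 h1)) (Nat.cast_nonneg _)

theorem τ0 {k : ℕ} (h0 : k0 ≤ k) (h1 : k ≤ k1) : 0 < τ k := (X.r0 H h0 h1).trans_le (H.ge k h0 h1)

theorem K3 : 2 * K ≤ 3 * K' ^ 2 ∧ 3 * K' ^ 2 ≤ lam ^ 3 := by
  have := X.K1
  have := X.KK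
  have := X.l0
  have := X.K1'
  refine ⟨by nlinarith, ?_⟩
  rw [pow_succ' lam 2]
  gcongr
  exacts [by linarith, X.Kl']

theorem pol (D : Dp K r S t LL) : Pol r LL (k1 + 1) (16 * K * S.v) lam := by
  have F := X.fn
  have P := X.toCx.pol (X.qb0 H) D
  refine ⟨P.v1, P.L1, le_trans ?_ X.nr⟩
  have n3 : (3 : ℝ) ≤ S.n := by exact_mod_cast F.n3
  have e1 : (k1 : ℝ) ≤ M.N := by exact_mod_cast H.blk.k1N
  have e2 := F.card
  have e3 : (1 : ℝ) ≤ (S.n : ℝ) ^ (S.A + 1) := one_le_pow₀ F.n1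
  push_cast
  calc _ ≤ (S.n : ℝ) ^ (S.A + 1) * 3 := by linarith
    _ ≤ (S.n : ℝ) ^ (S.A + 1) * (S.n : ℝ) ^ 2 := by gcongr; nlinarith
    _ = _ := by ring

theorem rb_le {k : ℕ} (h0 : k0 ≤ k) (h1 : k ≤ k1) : M.rb m a k ≤ Λ₀ * (K * t) := by
  have F := X.fn
  have t0 := H.blk.t0
  have L1 := H.crude.1
  have e := (F.leg.zm h1).trans H.blk.hi
  rcases le_or_gt k S.Jp with h | h
  · refine (H.crude.2 k h0 h).trans ?_
    gcongr
    exact max_le e (le_mul_of_one_le_left t0.le X.K1)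
  · rw [F.top k h.le] at e
    exact (rb_le_one F.lg.m0 k).trans (one_le_mul_of_one_le_of_one_le L1 e)

theorem near {j k : ℕ} (a0 : k0 ≤ j) (a1 : j ≤ k1) (h0 : k0 ≤ k) (h1 : k ≤ k1)
    (h : |(j : ℝ) - k| * S.v ≤ ρ k) : τ j ≤ 2 * K * τ k := by
  have v0 := X.fn.v0
  have K1 := X.K1
  have s0 := X.τ0 H h0 h1
  have r0 := X.r0 H h0 h1
  rcases le_total k j with e | e
  · exact (H.up k j h0 e a1 (le_trans (by gcongr; exact le_abs_self _) h)).trans (by nlinarith)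
  · refine le_of_mul_le_mul_right ((H.dn j k a0 e h1).trans ?_) r0
    have : ((k : ℝ) - j) * S.v ≤ ρ k :=
      le_trans (by rw [abs_sub_comm]; gcongr; exact le_abs_self _) h
    calc _ ≤ K * τ k * (ρ k + ρ k) := by gcongr
      _ = _ := by ring

theorem gb (D : Dp K r S t LL) : GB (fun _ => 1) (M.L m a) 0 (Q33.sl m) LL (k0 + 1) (k1 + 1)
    (t / K') (16 * K * S.v) (K' * S.w3 t) (3 * K' ^ 2) lam (sh c) (sh ρ) (sh (tl lam Λ₀ τ)) := by
  have F := X.fn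
  have v0 := F.v0
  have t0 := H.blk.t0
  have K1 := X.K1
  have K1' := X.K1'
  have l0 := X.l0
  have l1 := X.l1
  have L1 := H.crude.1
  have w0 := F.w3_pos t0
  have hLL := X.LL_le (X.qb0 H) D
  obtain ⟨K2, K3⟩ := X.K3 H
  have rb : ∀ k, Cas.Sy41.rho (fun _ => 1) (M.L m a) (Q33.sl m) 0 (k + 1) = M.rb m a k := fun k =>
    (rb_eq (Q33.sl_cov F.lg.m0) k).symm
  have c1 : ∀ {j : ℕ}, k0 + 1 ≤ j → ∃ k, j = k + 1 := fun {j} h => ⟨j - 1, by omega⟩
  have l17 : (1 : ℝ) ≤ lam ^ 17 * Λ₀ := one_le_mul_of_one_le_of_one_le (one_le_pow₀ l1) L1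
  have tt : ∀ k, k0 ≤ k → k ≤ k1 → τ k ≤ tl lam Λ₀ τ k := fun k a b =>
    le_mul_of_one_le_left (X.τ0 H a b).le l17
  refine ⟨by omega, by have := H.blk.k01; omega, H.c0, fun j ha b => ?_, fun j ha b => ?_,
    fun j ha b => ?_, fun j ha b => ?_, fun j ha b => ?_, fun j k ha b ha' b' hd => ?_,
    fun j k n ha b hn hv => ?_, fun j n ha b hn hv => ?_, fun j ha b => ?_, fun j ha b => ?_⟩ <;>
    obtain ⟨k, rfl⟩ := c1 ha <;> simp only [sh_succ]
  · obtain ⟨e1, e2⟩ := H.clk k (by omega) (by omega)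
    exact ⟨e1, by nlinarith⟩
  · exact (H.lip k (by omega) (by omega)).trans (by linarith)
  · have e := H.rn k (by omega) (by omega)
    have r0 := X.r0 H (k := k) (by omega) (by omega)
    calc _ = 256 * K * S.v * 1 := by ring
      _ ≤ lam * lam ^ 18 * S.v * (S.n * ρ k) := by
          gcongr
          exacts [by linarith, X.Kl.trans (le_self_pow₀ l1 (by norm_num))]
      _ = S.v * S.n * lam ^ 19 * ρ k := by ring
      _ ≤ 1 * ρ k := by gcongr; exact X.vsm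
      _ = _ := one_mul _
  · exact (H.ge k (by omega) (by omega)).trans (tt k (by omega) (by omega))
  · rw [rb]; exact (H.loc k (by omega) (by omega)).trans (tt k (by omega) (by omega))
  · obtain ⟨y, rfl⟩ := c1 ha'
    simp only [sh_succ] at hd ⊢
    push_cast at hd
    rw [add_sub_add_right_eq_sub] at hd
    have e := X.near H (j := k) (k := y) (by omega) (by omega) (by omega) (by omega)
      (by nlinarith [mul_nonneg (abs_nonneg ((k : ℝ) - y)) v0.le])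
    have s0 := X.τ0 H (k := y) (by omega) (by omega)
    unfold tl
    rw [mul_left_comm]
    gcongr _ * ?_
    exact e.trans (by gcongr)
  · rename_i y
    obtain ⟨y, rfl⟩ := c1 (j := y) (by omega)
    simp only [sh_succ] at hv ⊢
    have e := H.dn k y (by omega) (by omega) (by omega)
    have s0 := X.τ0 H (k := y) (by omega) (by omega)
    have r0 := X.r0 H (k := y) (by omega) (by omega)
    have e1 : (n : ℝ) ≤ y - k := by
      rw [le_sub_iff_add_le]; exact_mod_cast (by omega : n + k ≤ y)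
    have n0 : (0 : ℝ) ≤ n := Nat.cast_nonneg n
    have e2 : n * S.v ≤ ρ y := le_trans (by gcongr; nlinarith) hv
    have e3 : τ k * n ≤ 2 * K * τ y * ((y : ℝ) - k) := by
      refine le_of_mul_le_mul_right ?_ r0
      calc _ = τ k * ρ y * n := by ring
        _ ≤ K * τ y * (ρ y + ((y : ℝ) - k) * S.v) * n := by gcongr
        _ = K * τ y * (ρ y * n + ((y : ℝ) - k) * (n * S.v)) := by ring
        _ ≤ K * τ y * (ρ y * ((y : ℝ) - k) + ((y : ℝ) - k) * ρ y) := by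
            have : (0 : ℝ) ≤ y - k := n0.trans e1
            gcongr
        _ = _ := by ring
    unfold tl
    push_cast
    rw [add_sub_add_right_eq_sub]
    have : (0 : ℝ) ≤ y - k := n0.trans e1
    calc _ = lam ^ 17 * Λ₀ * (τ k * n) := by ring
      _ ≤ lam ^ 17 * Λ₀ * (3 * K' ^ 2 * τ y * ((y : ℝ) - k)) := by
          gcongr _ * ?_
          exact e3.trans (by gcongr)
      _ = _ := by ring
  · have s0 := X.τ0 H (k := k) (by omega) (by omega)
    have r0 := X.r0 H (k := k) (by omega) (by omega)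
    have e1 := X.rb_le H (k := k) (by omega) (by omega)
    have e2 := (abs_le.1 (H.loc k (by omega) (by omega))).1
    have e3 := H.ge k (by omega) (by omega)
    have n0 : (0 : ℝ) ≤ n := Nat.cast_nonneg n
    have n2 : (n : ℝ) ≤ 2 ^ LL := by exact_mod_cast hn
    have e4 : K * t * n ≤ lam ^ 2 * τ k * 2 ^ LL :=
      calc K * t * n ≤ lam * (lam * (2 ^ LL * (16 * K * S.v))) * n := by
            gcongr; exacts [X.Kl, X.u_ge D]
        _ = lam ^ 2 * (n * (16 * K * S.v)) * 2 ^ LL := by ring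
        _ ≤ _ := by gcongr; exact hv.trans e3
    unfold tl
    calc min (c k) 2 * n ≤ (Λ₀ * (K * t) + τ k) * n := by
          gcongr; linarith [min_le_left (c k) 2]
      _ = Λ₀ * (K * t * n) + 1 * (1 * τ k * n) := by ring
      _ ≤ Λ₀ * (lam ^ 17 * τ k * 2 ^ LL) + Λ₀ * (lam ^ 17 * τ k * 2 ^ LL) := by
          gcongr Λ₀ * ?_ + ?_ * (?_ * _ * ?_)
          exacts [e4.trans (by gcongr; norm_num), one_le_pow₀ l1]
      _ = 2 * (lam ^ 17 * Λ₀ * τ k) * 2 ^ LL := by ring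
      _ ≤ _ := by gcongr; linarith
  · have r0 := X.r0 H (k := k) (by omega) (by omega)
    have s0 := X.τ0 H (k := k) (by omega) (by omega)
    have m0 : 0 < min (ρ k) t := lt_min r0 t0
    have e1 : S.w3 t / t ≤ τ k * min (ρ k) t := by
      rw [div_le_iff₀ t0]
      exact H.w4 k (by omega) (by omega)
    calc _ = ((LL : ℝ) + 2) ^ 2 * lam * K' ^ 2 * (S.w3 t / t) := by field_simp
      _ ≤ (lam ^ 3) ^ 2 * lam * lam ^ 2 * (τ k * min (ρ k) t) := by gcongr; exact X.Kl'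
      _ = lam ^ 10 * 1 * τ k * (min (ρ k) t / lam) := by field_simp
      _ ≤ _ := by
          unfold tl
          gcongr
          exacts [by norm_num, X.min_ge D r0 t0]
  · have r0 := X.r0 H (k := k) (by omega) (by omega)
    have s0 := X.τ0 H (k := k) (by omega) (by omega)
    have m0 : 0 < min (ρ k) t := lt_min r0 t0
    rcases le_or_gt 1 (τ k) with h1 | h1
    · left
      calc (2 : ℝ) = 2 * 1 * 1 := by ring
        _ ≤ _ := by
          unfold tl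
          gcongr
          exact le_trans (by linarith) (le_self_pow₀ l1 (by norm_num))
    · refine Or.inr fun y a' b' hy => ?_
      obtain ⟨y, rfl⟩ := c1 a'.le
      push_cast at hy
      rw [add_sub_add_right_eq_sub] at hy
      have e := (H.den k y (by omega) (by omega) (by omega) (by omega)
        (le_trans (by gcongr; nlinarith) hy)).resolve_left h1.not_ge
      have d0 := F.lg.dz_nonneg y
      rw [dm_succ]
      calc _ = ((LL : ℝ) + 2) ^ 2 * lam * 48 * K' ^ 3 * K * (S.w3 t * S.v) := by ring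
        _ ≤ (lam ^ 3) ^ 2 * lam * lam * lam ^ 3 * lam *
            (lam * M.dz m a y * (τ k * min (ρ k) t ^ 2)) := by
            gcongr ?_ ^ 2 * _ * ?_ * ?_ ^ 3 * ?_ * ?_
            exacts [by linarith, X.Kl', X.Kl, e.trans (by gcongr; exact X.Kl)]
        _ = M.dz m a y * (lam ^ 15 * 1 * τ k * (min (ρ k) t / lam) ^ 2) := by field_simp
        _ ≤ _ := by
            unfold tl
            gcongr
            exacts [by norm_num, X.min_ge D r0 t0]

theorem bo (D : Dp K r S t LL) {k : ℕ} (h : Inn K S t k0 k1 k) :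
    BO K K' lam Λ₀ r i S M m a t k0 k1 LL c ρ τ := by
  obtain ⟨t', j2, R⟩ := X.rt t k0 k1 H.blk LL (X.u_le H.blk.t0 D)
  have B := X.gb H D
  have P := X.pol H D
  obtain ⟨e1, e2⟩ := X.inn D h
  exact ⟨⟨t', j2, R⟩, B, P, X.gs _ _ _ _ _ _ _ _ _ _ _ _ _ R P B le_rfl (by omega) (by omega)⟩

theorem A_le {x : ℝ} (hx : 0 ≤ x) :
    2 * lam ^ 3 * (lam ^ 17 * Λ₀ * x) ≤ lam ^ 21 * Λ₀ * x := by
  have := H.crude.1
  have := X.l0
  calc _ = 2 * (lam ^ 20 * Λ₀ * x) := by ring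
    _ ≤ lam * (lam ^ 20 * Λ₀ * x) := by gcongr; linarith
    _ = _ := by ring

theorem node {k : ℕ} (h : Inn K S t k0 k1 k) :
    M.Mo m a (2 ^ i) (fun q => M.rP m a k q - c k) (lam ^ 21 * Λ₀ * τ k) := by
  obtain ⟨LL, D⟩ := X.ex_dp H.blk.t0 H.blk.wt
  obtain ⟨e1, e2⟩ := X.inn D h
  have key := (X.bo H D h).syn.loc (k + 1) (by omega) (by omega)
  rw [cl_sh _ (by omega) (by omega)] at key
  exact key.mono (X.A_le H (X.τ0 H (by omega) (by omega)).le)

theorem N_ge (D : Dp K r S t LL) {k : ℕ} (h0 : k0 ≤ k) (h1 : k ≤ k1) :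
    min (ρ k) t / lam ≤ Nw LL (16 * K * S.v) (cl (k0 + 1) (k1 + 1) (sh ρ)) (k + 1) *
      (16 * K * S.v) := by
  have v0 := X.fn.v0
  have K1 := X.K1
  have r0 := X.r0 H h0 h1
  have e := X.min_ge D r0 H.blk.t0
  refine Nw_ge (by positivity) ((X.gb H D).g16 _) ?_ (e.trans (min_le_right _ _))
  rw [cl_sh ρ h0 h1]
  linarith [min_le_left (ρ k / 2) (2 ^ LL * (16 * K * S.v))]

theorem inc {k k' : ℕ} (h : Inn K S t k0 k1 k) (hk : k ≤ k')
    (hl : lam ^ 3 * (((k' : ℝ) - k) * S.v) ≤ min (ρ k) t) :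
    M.Mo m a (2 ^ i) (M.iP m a k k') (lam ^ 21 * Λ₀ * τ k) := by
  obtain ⟨LL, D⟩ := X.ex_dp H.blk.t0 H.blk.wt
  obtain ⟨e1, e2⟩ := X.inn D h
  have O := X.bo H D h
  have v0 := X.fn.v0
  have l0 := X.l0
  have e3 := X.N_ge H D (k := k) (by omega) (by omega)
  set N := Nw LL (16 * K * S.v) (cl (k0 + 1) (k1 + 1) (sh ρ)) (k + 1) with hN
  have e4 : (k' : ℝ) - k ≤ N := by
    rw [div_le_iff₀ (by positivity)] at e3
    refine le_of_mul_le_mul_left (a := lam ^ 3 * S.v) ?_ (by positivity)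
    calc _ ≤ N * (16 * K * S.v) * lam := by linarith
      _ ≤ N * (lam * lam * S.v) * lam := by
          have := X.K1
          gcongr
          · linarith
          · exact X.Kl
      _ = _ := by ring
  have e5 : k' ≤ k + N := by rw [← Nat.cast_le (α := ℝ)]; push_cast; linarith
  have key := O.syn.inc (k + 1) (k' + 1) (by omega) (by omega) (by omega) (by omega)
  rw [cl_sh _ (by omega) (by omega)] at key
  exact key.mono (X.A_le H (X.τ0 H (by omega) (by omega)).le)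

theorem G_le (D : Dp K r S t LL) :
    lam ^ 4 * (((LL : ℝ) + 2) ^ 2 * (lam * (3 * K' ^ 2) * (K' * S.w3 t))) ≤ lam ^ 15 * S.w3 t := by
  have w0 := X.fn.w3_pos H.blk.t0
  have l0 := X.l0
  have := X.K1'
  calc _ ≤ lam ^ 4 * ((lam ^ 3) ^ 2 * (lam * (lam * lam ^ 2) * (lam * S.w3 t))) := by
        gcongr
        exacts [X.LL_le (X.qb0 H) D, by linarith, X.Kl', X.Kl']
    _ = _ := by ring

theorem fac_le (D : Dp K r S t LL) {y : ℕ} (h0 : k0 ≤ y) (h1 : y ≤ k1) :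
    tl lam Λ₀ τ y / min (ρ y) (2 ^ LL * (16 * K * S.v)) ≤ lam ^ 18 * Λ₀ * (τ y / min (ρ y) t) := by
  have r0 := X.r0 H h0 h1
  have s0 := X.τ0 H h0 h1
  have t0 := H.blk.t0
  have l0 := X.l0
  have L1 := H.crude.1
  have m0 : 0 < min (ρ y) t := lt_min r0 t0
  have e := (X.min_ge D r0 t0).trans (min_le_min_right _ (half_le_self r0.le))
  calc _ ≤ lam ^ 17 * Λ₀ * τ y / (min (ρ y) t / lam) := by unfold tl; gcongr
    _ = _ := by field_simp

section wts
variable {b0 b1 U : ℕ} {u G : ℕ → ℝ}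

theorem hU (D : Dp K r S t LL) (W : Wts K S t k0 k1 ρ b0 b1 U u G) (j : ℕ) (h0 : b0 + 1 ≤ j)
    (h1 : j < b1 + 1) : Nw LL (16 * K * S.v) (cl (k0 + 1) (k1 + 1) (sh ρ)) j ≤ U := by
  obtain ⟨k, rfl⟩ : ∃ k, j = k + 1 := ⟨j - 1, by omega⟩
  obtain ⟨hi, hu⟩ := W.inn k (by omega) (by omega)
  obtain ⟨e1, e2⟩ := X.inn D hi
  have v0 := X.fn.v0
  have K1 := X.K1
  have r0 := X.r0 H (k := k) (by omega) (by omega)
  have c := cl_sh (k0 := k0) (k1 := k1) (k := k) ρ (by omega) (by omega)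
  have e3 := Nw_v (L := LL) (v := 16 * K * S.v) (τ := cl (k0 + 1) (k1 + 1) (sh ρ)) (j := k + 1)
    (by positivity) (by rw [c]; exact r0.le)
  have e4 : (Nw LL (16 * K * S.v) (cl (k0 + 1) (k1 + 1) (sh ρ)) (k + 1) : ℝ) ≤ 2 ^ LL := by
    exact_mod_cast min_le_right _ _
  rw [c] at e3
  set N := Nw LL (16 * K * S.v) (cl (k0 + 1) (k1 + 1) (sh ρ)) (k + 1) with hN
  have N0 : 0 ≤ N * S.v := by positivity
  have e5 : N * S.v ≤ U * S.v := le_trans (le_min (by nlinarith) (le_trans (by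
    nlinarith [mul_le_mul_of_nonneg_right e4 v0.le, mul_le_mul_of_nonneg_right X.R32
      (show 0 ≤ 2 ^ LL * S.v by positivity), show 0 ≤ 2 ^ LL * S.v by positivity]) D.lo)) hu
  exact_mod_cast le_of_mul_le_mul_right e5 v0

theorem maj (D : Dp K r S t LL) (W : Wts K S t k0 k1 ρ b0 b1 U u G) (j : ℕ)
    (h0 : b0 + 1 ≤ j) (h1 : j < b1 + 1) :
    ∀ y ∈ Ico j (j + Nw LL (16 * K * S.v) (cl (k0 + 1) (k1 + 1) (sh ρ)) j),
    ∀ y' ∈ Ico j (j + Nw LL (16 * K * S.v) (cl (k0 + 1) (k1 + 1) (sh ρ)) j), sh u y ≤ sh G y' := by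
  intro y hy y' hy'
  have v0 := X.fn.v0
  have K1 := X.K1
  have e := X.hU H D W j h0 h1
  have e1 := (win_near (by positivity) (X.gb H D).g16 ((X.gb H D).glip (by positivity)) hy').2.2
  obtain ⟨a1, a2⟩ := mem_Ico.1 hy
  obtain ⟨a3, a4⟩ := mem_Ico.1 hy'
  obtain ⟨y, rfl⟩ : ∃ k, y = k + 1 := ⟨y - 1, by omega⟩
  obtain ⟨y', rfl⟩ : ∃ k, y' = k + 1 := ⟨y' - 1, by omega⟩
  have := W.top
  have := W.bot
  rw [cl_sh ρ (by omega) (by omega)] at e1
  refine W.maj y y' (by omega) (by omega) (by omega) (by omega) ?_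
  set N := Nw LL (16 * K * S.v) (cl (k0 + 1) (k1 + 1) (sh ρ)) j with hN
  have e2 : |(y : ℝ) - y'| ≤ N := by
    have b1 : (y : ℝ) ≤ y' + N := by exact_mod_cast (by omega : y ≤ y' + N)
    have b2 : (y' : ℝ) ≤ y + N := by exact_mod_cast (by omega : y' ≤ y + N)
    exact abs_le.2 ⟨by linarith, by linarith⟩
  nlinarith [mul_le_mul_of_nonneg_right e2 v0.le, show 0 ≤ N * S.v by positivity]

omit X in
theorem rg (W : Wts K S t k0 k1 ρ b0 b1 U u G) {y : ℕ} (hy : y ∈ Ico b0 (b1 + U)) :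
    k0 ≤ y ∧ y ≤ k1 := by
  have := mem_Ico.1 hy
  have := W.top
  have := W.bot
  omega

theorem s0 (W : Wts K S t k0 k1 ρ b0 b1 U u G) (j : ℕ) :
    0 ≤ ∑ y ∈ Ico b0 (b1 + U), G y * (τ y / min (ρ y) t) ∧
    0 ≤ ∑ y ∈ Ico b0 (b1 + U), G y * (τ y ^ j * (τ y / min (ρ y) t)) := by
  have t0 := H.blk.t0
  constructor <;> refine sum_nonneg fun y hy => ?_ <;> obtain ⟨a, b⟩ := rg H W hy <;>
    have := X.r0 H a b <;> have := X.τ0 H a b <;> have := W.G0 y <;> positivity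

theorem asum (W : Wts K S t k0 k1 ρ b0 b1 U u G) :
    M.Mo m a (2 ^ i) (fun q => ∑ y ∈ Ico b0 b1, u y * M.aP m a y q)
      (lam ^ 37 * Λ₀ * S.w3 t * ∑ y ∈ Ico b0 (b1 + U), G y * (τ y / min (ρ y) t)) := by
  have t0 := H.blk.t0
  have w0 := X.fn.w3_pos t0
  have l0 := X.l0
  have L1 := H.crude.1
  have s0 := (X.s0 H W 0).1
  rcases le_or_gt b1 b0 with hb | hb
  · rw [Ico_eq_empty_of_le hb]
    exact ((Mo.const X.hw 0).congr fun _ => by simp).mono (by rw [abs_zero]; positivity)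
  obtain ⟨LL, D⟩ := X.ex_dp t0 H.blk.wt
  have O := X.bo H D (W.inn b0 le_rfl hb).1
  obtain ⟨e1, -⟩ := X.inn D (W.inn b0 le_rfl hb).1
  obtain ⟨-, e2⟩ := X.inn D (W.inn (b1 - 1) (by omega) (by omega)).1
  have v0 := X.fn.v0
  have K1 := X.K1
  have K1' := X.K1'
  have v' : 0 < 16 * K * S.v := by positivity
  have key := G57.asum O.syn (dat X.fn.lg) v' O.gb.g16 (O.gb.glip v') O.gb.gge (O.gb.gnear v')
    Nat.one_le_two_pow (by nlinarith) (X.G_pos t0) (b0 := b0 + 1) (b1 := b1 + 1) (by omega)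
    (X.hU H D W) (u := sh u) (Gm := sh G) (fun _ => W.u0 _) (fun _ => W.G0 _) (X.maj H D W)
    (by omega)
  simp only [show b1 + 1 + U = b1 + U + 1 by ring, ← sum_Ico_add' _ _ _ 1, sh_succ] at key
  refine key.mono ?_
  calc _ ≤ 4 * lam ^ 3 * (lam ^ 15 * S.w3 t) *
        ∑ y ∈ Ico b0 (b1 + U), lam ^ 18 * Λ₀ * (G y * (τ y / min (ρ y) t)) := by
        refine mul_le_mul (by gcongr _ * ?_ * ?_; exacts [(X.K3 H).2, X.G_le H D])
          (sum_le_sum fun y hy => ?_) (sum_nonneg fun y hy => ?_) (by positivity) <;>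
          obtain ⟨a, b⟩ := rg H W hy <;> rw [cl_sh _ a b, cl_sh _ a b] <;> have := W.G0 y
        · exact (mul_le_mul_of_nonneg_left (X.fac_le H D a b) this).trans_eq (by ring)
        · have := X.r0 H a b
          have := X.τ0 H a b
          unfold tl
          positivity
    _ = 4 * (lam ^ 36 * Λ₀ * S.w3 t * ∑ y ∈ Ico b0 (b1 + U), G y * (τ y / min (ρ y) t)) := by
        rw [← mul_sum]; ring
    _ ≤ lam * (lam ^ 36 * Λ₀ * S.w3 t * ∑ y ∈ Ico b0 (b1 + U), G y * (τ y / min (ρ y) t)) := by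
        gcongr; linarith
    _ = _ := by ring

theorem jsum (W : Wts K S t k0 k1 ρ b0 b1 U u G) {j : ℕ} (hj : j ≤ 2 ^ i) :
    ∑ y ∈ Ico b0 b1, u y * M.EP' m a (fun q => |M.rP m a y q - c y| ^ j * M.aP m a y q) ≤
      (lam ^ 37 * Λ₀) ^ (j + 1) * S.w3 t *
        ∑ y ∈ Ico b0 (b1 + U), G y * (τ y ^ j * (τ y / min (ρ y) t)) := by
  have t0 := H.blk.t0
  have w0 := X.fn.w3_pos t0
  have l0 := X.l0
  have L1 := H.crude.1
  have s0 := (X.s0 H W j).2
  rcases le_or_gt b1 b0 with hb | hb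
  · rw [Ico_eq_empty_of_le hb, sum_empty]
    positivity
  obtain ⟨LL, D⟩ := X.ex_dp t0 H.blk.wt
  have O := X.bo H D (W.inn b0 le_rfl hb).1
  obtain ⟨e1, -⟩ := X.inn D (W.inn b0 le_rfl hb).1
  obtain ⟨-, e2⟩ := X.inn D (W.inn (b1 - 1) (by omega) (by omega)).1
  have v0 := X.fn.v0
  have K1 := X.K1
  have K1' := X.K1'
  have l1 := X.l1
  have v' : 0 < 16 * K * S.v := by positivity
  obtain ⟨t', j2, R⟩ := O.ric
  have key := G57.jsum O.syn (dat X.fn.lg) v' O.gb.g16 (O.gb.glip v') O.gb.gge (O.gb.gnear v')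
    Nat.one_le_two_pow (by nlinarith) (X.G_pos t0) (b0 := b0 + 1) (b1 := b1 + 1) (by omega)
    (X.hU H D W) (u := sh u) (Gm := sh G) (fun _ => W.u0 _) (fun _ => W.G0 _) (X.maj H D W)
    (fun j a b => by
      have : Nw LL (16 * K * S.v) (cl (k0 + 1) (k1 + 1) (sh ρ)) j ≤ 2 ^ LL := min_le_right _ _
      omega) (by positivity) l1
    (O.pol.v1.trans (by
      calc _ ≤ 1 * (1 ^ 2 * (1 * (1 * 1 ^ 2) * (K' * S.w3 t))) * lam ^ r := by
            gcongr ?_ * _; nlinarith [R.vw, mul_pos (show 0 < K by linarith) v0]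
        _ ≤ _ := by
            gcongr
            exacts [one_le_pow₀ l1, by linarith [Nat.cast_nonneg (α := ℝ) LL], by norm_num, X.ir]))
    hj
  simp only [show b1 + 1 + U = b1 + U + 1 by ring, ← sum_Ico_add' _ _ _ 1, sh_succ] at key
  refine key.trans ?_
  calc _ ≤ 8 * lam ^ 3 * (lam ^ 15 * S.w3 t) * (lam ^ 20) ^ j *
        ∑ y ∈ Ico b0 (b1 + U), (lam ^ 17 * Λ₀) ^ j * (lam ^ 18 * Λ₀) *
          (G y * (τ y ^ j * (τ y / min (ρ y) t))) := by
        refine mul_le_mul ?_ (sum_le_sum fun y hy => ?_)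
          (sum_nonneg fun y hy => ?_) (by positivity)
        · gcongr _ * ?_ * ?_ * ?_ ^ j
          · exact (X.K3 H).2
          · exact X.G_le H D
          · calc _ ≤ lam * (lam * lam ^ 3) * (lam ^ 3) ^ 2 := by
                  gcongr _ * (?_ * _) * ?_ ^ 2; exacts [by linarith, (X.K3 H).2]
              _ = lam ^ 11 := by ring
              _ ≤ _ := X.pw (by norm_num)
        all_goals
          obtain ⟨a, b⟩ := rg H W hy
          rw [cl_sh _ a b, cl_sh _ a b]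
          have := X.r0 H a b
          have := X.τ0 H a b
          have := W.G0 y
        · calc _ ≤ G y * (tl lam Λ₀ τ y ^ j * (lam ^ 18 * Λ₀ * (τ y / min (ρ y) t))) := by
                have : 0 ≤ tl lam Λ₀ τ y := by unfold tl; positivity
                gcongr
                exact X.fac_le H D a b
            _ = _ := by unfold tl; rw [mul_pow _ (τ y)]; ring
        · unfold tl
          positivity
    _ = 8 * (lam ^ 36 * Λ₀ * (lam ^ 37 * Λ₀) ^ j * S.w3 t *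
        ∑ y ∈ Ico b0 (b1 + U), G y * (τ y ^ j * (τ y / min (ρ y) t))) := by
        rw [← mul_sum, show (lam ^ 37 * Λ₀) ^ j = (lam ^ 20) ^ j * (lam ^ 17 * Λ₀) ^ j by
          rw [← mul_pow]; ring]
        ring
    _ ≤ lam * (lam ^ 36 * Λ₀ * (lam ^ 37 * Λ₀) ^ j * S.w3 t *
        ∑ y ∈ Ico b0 (b1 + U), G y * (τ y ^ j * (τ y / min (ρ y) t))) := by
        gcongr; linarith
    _ = _ := by ring

end wts

theorem pair {k : ℕ} {D : ℝ} (h : Inn K S t k0 k1 k) (ht : 1 ≤ K * t) (hD : 0 < D)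
    (fw : ∀ i : ℕ, k ≤ i → i ≤ k1 → ((i : ℝ) - k) * S.v ≤ D →
      τ i * ρ k ≤ K * τ k * (ρ k + ((i : ℝ) - k) * S.v)) :
    M.E2 m a (fun R => (R - c k) ^ (2 * p)) k ≤
      (lam ^ 36 * Λ₀ * (τ k + √(S.w3 t / min D t))) ^ (2 * p) := by
  rcases Nat.eq_zero_or_pos p with rfl | hp
  · simp [E2_const]
  have F := X.fn
  have B := H.blk
  have t0 := B.t0
  have w0 := F.w3_pos t0
  have l0 := X.l0
  have l1 := X.l1
  have L1 := H.crude.1
  have v0 := F.v0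
  have K1 := X.K1
  have K1' := X.K1'
  obtain ⟨LL, P⟩ := X.ex_dp t0 B.wt
  obtain ⟨e1, e2⟩ := X.inn P h
  have O := X.bo H P h
  obtain ⟨t', j2, R⟩ := O.ric
  have U0 : 0 < 2 ^ LL := Nat.two_pow_pos LL
  have I := X.gi _ _ _ _ _ _ _ _ _ _ _ _ _ R O.pol O.gb le_rfl
    (show k1 + 1 - (r + 3) * (8 * 2 ^ LL) + _ ≤ _ by omega)
  have r0 := X.r0 H (k := k) (by omega) (by omega)
  have s0 := X.τ0 H (k := k) (by omega) (by omega)
  have rs := H.ge k (by omega) (by omega)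
  have m0 : 0 < min (ρ k) t := lt_min r0 t0
  have d0 : 0 < min D t := lt_min hD t0
  have v' : 0 < 16 * K * S.v := by positivity
  have vv : S.v ≤ 16 * K * S.v := le_mul_of_one_le_left v0.le (by linarith)
  have n1 := Nw_one (L := LL) v' (O.gb.g16 (k + 1))
  have n2 : Nw LL (16 * K * S.v) (cl (k0 + 1) (k1 + 1) (sh ρ)) (k + 1) ≤ 2 ^ LL := min_le_right _ _
  have n3 := X.N_ge H P (k := k) (by omega) (by omega)
  have cr := cl_sh (k0 := k0) (k1 := k1) (k := k) ρ (by omega) (by omega)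
  have n4 := Nw_v (L := LL) (τ := cl (k0 + 1) (k1 + 1) (sh ρ)) (j := k + 1) v'
    (by rw [cr]; exact r0.le)
  rw [cr] at n4
  set N := Nw LL (16 * K * S.v) (cl (k0 + 1) (k1 + 1) (sh ρ)) (k + 1) with hN
  have n5 : N * (16 * K * S.v) ≤ min (ρ k) t := le_min n4 (le_trans (by
    gcongr; exact_mod_cast n2) (X.u_le t0 P))
  have n6 := steps (j0 := k0) (j1 := k1) (f := c) (α := 0) (β := K * S.v)
    (fun y a b => by have := H.clk y a b; constructor <;> linarith) (i := k) (by omega) N (by omega)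
  set Dn := min (max N ⌊D / S.v⌋₊) (2 ^ LL) with hDn
  have ND : N ≤ Dn := le_min (le_max_left _ _) n2
  have DU : Dn ≤ 2 ^ LL := min_le_right _ _
  have N0 : (1 : ℝ) ≤ N := by exact_mod_cast n1
  have d1 : min D t ≤ lam * (Dn * (16 * K * S.v)) := by
    rcases min_choice (max N ⌊D / S.v⌋₊) (2 ^ LL) with e | e <;> rw [hDn, e]
    · have a1 := Nat.lt_floor_add_one (D / S.v)
      rw [div_lt_iff₀ v0] at a1
      have a2 : (⌊D / S.v⌋₊ : ℝ) ≤ (max N ⌊D / S.v⌋₊ : ℕ) := by exact_mod_cast le_max_right _ _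
      have a3 : (N : ℝ) ≤ (max N ⌊D / S.v⌋₊ : ℕ) := by exact_mod_cast le_max_left _ _
      calc min D t ≤ 2 * ((max N ⌊D / S.v⌋₊ : ℕ) * S.v) := by nlinarith [min_le_left D t]
        _ ≤ _ := by gcongr; linarith
    · push_cast
      exact (min_le_right _ _).trans (X.u_ge P)
  have cn : ∀ i : ℕ, k ≤ i + 2 ^ LL → i ≤ k + Dn →
      τ i * ρ k ≤ K * τ k * (ρ k + |(i : ℝ) - k| * S.v) := fun i a b => by
    rcases le_total i k with e | e
    · have : (i : ℝ) ≤ k := by exact_mod_cast e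
      rw [abs_of_nonpos (by linarith), neg_sub]
      exact H.dn i k (by omega) e (by omega)
    have f : (k : ℝ) ≤ i := by exact_mod_cast e
    rw [abs_of_nonneg (by linarith)]
    rcases le_total i (k + N) with g | g
    · have g' : (i : ℝ) - k ≤ N := by rw [sub_le_iff_le_add']; exact_mod_cast g
      have := H.up k i (by omega) e (by omega) (le_trans (by gcongr) n4)
      have : 0 ≤ ((i : ℝ) - k) * S.v := mul_nonneg (by linarith) v0.le
      gcongr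
      linarith
    rcases le_total ⌊D / S.v⌋₊ N with g' | g'
    · obtain rfl : i = k + N := by rw [max_eq_left g'] at hDn; omega
      have := H.up k (k + N) (by omega) e (by omega) (le_trans (by
        push_cast; rw [add_sub_cancel_left]; gcongr) n4)
      have : 0 ≤ (((k + N : ℕ) : ℝ) - k) * S.v := mul_nonneg (by linarith) v0.le
      gcongr
      linarith
    refine fw i e (by omega) ?_
    have a1 : (i : ℝ) - k ≤ ⌊D / S.v⌋₊ := by
      rw [sub_le_iff_le_add']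
      rw [max_eq_right g'] at hDn
      exact_mod_cast (by omega : i ≤ k + ⌊D / S.v⌋₊)
    rw [← le_div_iff₀ v0]
    exact a1.trans (Nat.floor_le (by positivity))
  set β := lam ^ 17 * Λ₀ * (K * τ k * lam * (16 * K * S.v) / min (ρ k) t) with hβ
  have sq0 := sqrt_nonneg (S.w3 t / min D t)
  have y0 : 0 < τ k + √(S.w3 t / min D t) := by positivity
  have key := Pr57.pairL (dat F.lg) R (n := p) (j := k + 1) (N := N) (Dn := Dn) hp (c := sh c)
    (T := sh (tl lam Λ₀ τ)) (A := 2 * lam ^ 3) (β := β)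
    (B := lam ^ 24 * Λ₀ * (τ k + √(S.w3 t / min D t))) (C := lam) n1 ND DU (by omega) (by omega)
    (fun y a b => by
      have := (O.syn.loc y (by omega) (by omega)).lyap X.hw X.ip
      rwa [cl_eq _ (by omega) (by omega)] at this)
    (fun y y' a b d => ((I y y' (by omega) b (by omega)).lyap X.hw X.ip).mono (by
      have := (I y y' (by omega) b (by omega)).nn
      linarith))
    (fun y a b => ?_) ?_ (by linarith [one_le_pow₀ (n := 3) l1]) ?_ (X.ck hp) ?_ ?_ ?_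
  · rw [X.E2_eq]
    refine key.trans (pow_le_pow_left₀ (by positivity) ?_ _)
    have := X.LL_le (X.qb0 H) P
    calc _ ≤ lam * (lam * lam ^ 3) ^ 2 * (lam ^ 24 * Λ₀ * (τ k + √(S.w3 t / min D t))) := by
          gcongr <;> nlinarith [Nat.cast_nonneg (α := ℝ) LL]
      _ = lam ^ 33 * Λ₀ * (τ k + √(S.w3 t / min D t)) := by ring
      _ ≤ _ := by gcongr; norm_num
  · obtain ⟨y, rfl⟩ : ∃ i, y = i + 1 := ⟨y - 1, by omega⟩
    rw [sh_succ, hβ, tl, mul_assoc (lam ^ 17 * Λ₀)]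
    push_cast
    rw [add_sub_add_right_eq_sub]
    gcongr
    refine le_of_mul_le_mul_right ((cn y (by omega) (by omega)).trans ?_) r0
    have a0 := abs_nonneg ((y : ℝ) - k)
    rw [div_le_iff₀ (by positivity)] at n3
    have a1 : 1 ≤ lam * (16 * K * S.v) / min (ρ k) t * N := by
      rw [div_mul_eq_mul_div, le_div_iff₀ m0]; linarith
    have a2 : S.v ≤ lam * (16 * K * S.v) / min (ρ k) t * ρ k := by
      rw [div_mul_eq_mul_div, le_div_iff₀ m0]
      exact mul_le_mul (vv.trans (le_mul_of_one_le_left v'.le l1)) (min_le_left _ _) m0.le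
        (by positivity)
    calc _ = K * τ k * (1 * ρ k + |(y : ℝ) - k| * S.v) := by ring
      _ ≤ K * τ k * (lam * (16 * K * S.v) / min (ρ k) t * N * ρ k +
          |(y : ℝ) - k| * (lam * (16 * K * S.v) / min (ρ k) t * ρ k)) := by gcongr
      _ = _ := by ring
  · rw [hβ, mul_div_assoc', le_div_iff₀ m0]
    calc _ = 1 * 1 * (1 * min (ρ k) t * 1 * (16 * K * S.v)) := by ring
      _ ≤ _ := by
          gcongr
          exacts [one_le_pow₀ l1, (min_le_left _ _).trans rs]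
  · rw [show k + 1 + N = k + N + 1 by ring, sh_succ, sh_succ]
    have : 0 ≤ N * (K * S.v) := by positivity
    exact abs_le.2 ⟨by nlinarith [n6.1], by nlinarith [n6.2]⟩
  · have w4 := H.w4 k (by omega) (by omega)
    calc _ = 16 * lam ^ 23 * Λ₀ * K * K' ^ 2 * τ k * (S.w3 t / (min (ρ k) t * t)) := by
          rw [hβ]; field_simp; norm_num
      _ ≤ lam * lam ^ 23 * Λ₀ ^ 2 * lam * lam ^ 2 * τ k * τ k := by
          gcongr
          · linarith
          · exact le_self_pow₀ L1 two_ne_zero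
          · exact X.Kl
          · exact X.Kl'
          · rw [div_le_iff₀ (by positivity)]; linarith
      _ = lam ^ 27 * Λ₀ ^ 2 * τ k ^ 2 := by ring
      _ ≤ lam ^ 48 * Λ₀ ^ 2 * (τ k + √(S.w3 t / min D t)) ^ 2 := by
          gcongr
          · norm_num
          · linarith
      _ = _ := by ring
  · have D0 : 0 < Dn * (16 * K * S.v) := pos_of_mul_pos_left (d0.trans_le (d1.trans_eq
      (mul_comm _ _))) (by positivity)
    calc _ = 4 * lam ^ 2 * K' ^ 2 * (1 / t) * (S.w3 t / (Dn * (16 * K * S.v))) := by field_simp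
      _ ≤ lam * lam ^ 2 * lam ^ 2 * lam * (lam * (S.w3 t / min D t)) := by
          gcongr
          · linarith
          · exact X.Kl'
          · rw [div_le_iff₀ t0]; exact ht.trans (by gcongr; exact X.Kl)
          · rw [mul_div_assoc', div_le_div_iff₀ D0 d0]
            nlinarith [mul_le_mul_of_nonneg_left d1 w0.le]
      _ = lam ^ 7 * 1 * √(S.w3 t / min D t) ^ 2 := by rw [sq_sqrt (by positivity)]; ring
      _ ≤ lam ^ 48 * Λ₀ ^ 2 * (τ k + √(S.w3 t / min D t)) ^ 2 := by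
          gcongr
          · norm_num
          · exact one_le_pow₀ L1
          · linarith
      _ = _ := by ring
  · calc _ = 8 * lam ^ 21 * K * Λ₀ * τ k * (N * (16 * K * S.v) / min (ρ k) t) := by rw [hβ]; ring
      _ ≤ lam * lam ^ 21 * lam * Λ₀ * (τ k + √(S.w3 t / min D t)) * 1 := by
          gcongr
          · linarith
          · exact X.Kl
          · linarith
          · exact (div_le_one m0).2 n5
      _ = lam ^ 23 * Λ₀ * (τ k + √(S.w3 t / min D t)) := by ring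
      _ ≤ _ := by gcongr; norm_num

omit H in
/-- **Q** at a fixed size -/
theorem qo {K₀ Λ : ℝ} (h1 : 1 ≤ K₀) (hK : 9 * K₀ * S.C ^ 3 ≤ K) (hΛ : lam ^ 40 ≤ Λ)
    (H : QW K₀ Λ₀ S M m a t k0 k1 c ρ τ) : QOW K₀ (Λ * Λ₀) p S M m a t k0 k1 c ρ τ := by
  have F := X.fn
  have B := H.blk
  have t0 := B.t0
  have v0 := F.v0
  have w0 := F.w3_pos t0
  have L1 := H.crude.1
  have l1 := X.l1
  have hK0 := (X.K0_le h1 hK t0 B.wt B.k0l B.lo).1
  have H' := QW.mono F H h1 hK0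
  have tK : t / K ≤ t / K₀ := by gcongr
  have inn : ∀ {k}, Inn K₀ S t k0 k1 k → Inn K S t k0 k1 k := fun h => ⟨tK.trans h.1, tK.trans h.2⟩
  have wts : ∀ {b0 b1 U u G}, Wts K₀ S t k0 k1 ρ b0 b1 U u G → Wts K S t k0 k1 ρ b0 b1 U u G :=
    fun W => ⟨fun k a b => ⟨inn (W.inn k a b).1, (min_le_min_left _ tK).trans (W.inn k a b).2⟩,
      W.top, W.u0, W.G0, W.maj, W.bot⟩
  have pw : ∀ j ≤ 40, lam ^ j * Λ₀ ≤ Λ * Λ₀ := fun j hj => by
    gcongr; exact (X.pw hj).trans hΛ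
  have r0 : ∀ {k}, Inn K₀ S t k0 k1 k → 0 < τ k := fun {k} h => by
    obtain ⟨LL, D⟩ := X.ex_dp t0 B.wt
    obtain ⟨e1, e2⟩ := X.inn D (inn h)
    exact X.τ0 H' (by omega) (by omega)
  refine ⟨fun k h => ?_, fun k D h h2 hD fw => ?_, fun k k' h hk hl => ?_, fun b0 b1 U u G W => ?_,
    fun b0 b1 U u G W j hj => ?_⟩
  · have := r0 h
    exact ((X.node H' (inn h)).lyap X.hw X.pp).mono (by gcongr ?_ * _; exact pw _ (by norm_num))
  · have := r0 h
    refine (X.pair H' (inn h) (h2.trans (by gcongr)) hD fun y a b d =>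
      (fw y a b d).trans ?_).trans ?_
    · obtain ⟨LL, D⟩ := X.ex_dp t0 B.wt
      obtain ⟨e1, e2⟩ := X.inn D (inn h)
      have := X.r0 H' (k := k) (by omega) (by omega)
      have : (0 : ℝ) ≤ y - k := by rw [sub_nonneg]; exact_mod_cast a
      gcongr
    gcongr (?_ * _) ^ _
    exact pw _ (by norm_num)
  · have := r0 h
    have : (0 : ℝ) ≤ k' - k := by rw [sub_nonneg]; exact_mod_cast hk
    refine ((X.inc H' (inn h) hk (le_trans ?_ hl)).lyap X.hw X.pp).mono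
      (by gcongr ?_ * _; exact pw _ (by norm_num))
    gcongr
    exact (le_mul_of_one_le_right (by positivity) L1).trans (pw _ (by norm_num))
  · refine ((X.asum H' (wts W)).lyap X.hw X.pp).mono ?_
    have := (X.s0 H' (wts W) 0).1
    gcongr ?_ * _ * _
    exact pw _ (by norm_num)
  · refine (X.jsum H' (wts W) (hj.trans X.pp)).trans ?_
    have := (X.s0 H' (wts W) j).2
    gcongr ?_ ^ _ * _ * _
    exact pw _ (by norm_num)

end Cw

/-- **Q with windows and tolerance, blocks up to the reveal** -/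
theorem qGenW : QGenW := by
  intro K p hK C
  filter_upwards [cw_ev (fun C => max 1 (9 * K * C ^ 3)) (fun _ => le_max_left _ _) p C]
    with A hA ε hε η hη
  filter_upwards [hA ε hε η hη] with n hn S M e1 e2 e3 h m a I Λ₀ t k0 k1 c ρ τ H
  obtain ⟨K', lam, r, i, X, hl⟩ := hn S M e1 e2 e3 h m a I
  exact X.qo hK (le_max_right _ _) hl H

/-- the same with the exponent chosen after `A` and `η` -/
theorem qGenWU {K : ℝ} (hK : 1 ≤ K) (C : ℝ) {A : ℕ} (hA : 2 ≤ A) {η : ℝ} (hη : 0 < η) (p : ℕ) :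
    ∀ᶠ n : ℕ in atTop, ∀ (S : Sc) (M : Md), S.C = C → S.A = A → S.n = n → Cl S M →
      ∀ m a, S.In m a → ∀ Λ₀ t k0 k1 c ρ τ, QW K Λ₀ S M m a t k0 k1 c ρ τ →
        QOW K ((n : ℝ) ^ η * Λ₀) p S M m a t k0 k1 c ρ τ := by
  filter_upwards [cw_at (fun C => max 1 (9 * K * C ^ 3)) (fun _ => le_max_left _ _) C hA hη p]
    with n hn S M e1 e2 e3 h m a I Λ₀ t k0 k1 c ρ τ H
  obtain ⟨K', lam, r, i, X, hl⟩ := hn S M e1 e2 e3 h m a I
  exact X.qo hK (le_max_right _ _) hl H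

end T57

end Crest.Agent.T156.Alt

end
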