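import Crest.Agent.T156.Rect_52

/-!
Two-dimensional Abel summation (docs/T156_40C.md sec. 5): a kernel with bounded mixed second
differences against the double upper primitive of a bilinear array.
-/

namespace Crest.Agent.T156.Rect52
open Finset

theorem abel_id' (φ g : ℕ → ℝ) (a b : ℕ) :
    ∑ j ∈ Ico a b, φ j * g j
      = φ a * ∑ j ∈ Ico a b, g j
        + ∑ j ∈ Ico a (b - 1), (φ (j + 1) - φ j) * ∑ i ∈ Ico (j + 1) b, g i := by
  by_cases hab : a ≤ b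
  · exact abel_id φ g b (b - a) a (by omega)
  · rw [Finset.Ico_eq_empty (show ¬ a < b by omega),
      Finset.Ico_eq_empty (show ¬ a < b - 1 by omega)]
    simp

/-- Double upper primitive. -/
def G2 (B : ℕ → ℕ → ℝ) (b b' x y : ℕ) : ℝ := ∑ i ∈ Ico x b, ∑ j ∈ Ico y b', B i j

/-- Mixed second difference. -/
def mx (c : ℕ → ℕ → ℝ) (i j : ℕ) : ℝ := c (i + 1) (j + 1) - c (i + 1) j - c i (j + 1) + c i j

/-- Two-dimensional Abel summation on a rectangle. -/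
theorem abel2 (c B : ℕ → ℕ → ℝ) (a b a' b' : ℕ) :
    ∑ i ∈ Ico a b, ∑ j ∈ Ico a' b', c i j * B i j
      = c a a' * G2 B b b' a a'
        + ∑ i ∈ Ico a (b - 1), (c (i + 1) a' - c i a') * G2 B b b' (i + 1) a'
        + ∑ j ∈ Ico a' (b' - 1), (c a (j + 1) - c a j) * G2 B b b' a (j + 1)
        + ∑ i ∈ Ico a (b - 1), ∑ j ∈ Ico a' (b' - 1), mx c i j * G2 B b b' (i + 1) (j + 1) := by
  have h1 : ∑ i ∈ Ico a b, ∑ j ∈ Ico a' b', c i j * B i j
      = ∑ i ∈ Ico a b, c i a' * ∑ j ∈ Ico a' b', B i j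
        + ∑ j ∈ Ico a' (b' - 1), ∑ i ∈ Ico a b,
            (c i (j + 1) - c i j) * ∑ l ∈ Ico (j + 1) b', B i l := by
    rw [Finset.sum_comm (s := Ico a' (b' - 1)), ← Finset.sum_add_distrib]
    exact Finset.sum_congr rfl fun i _ => abel_id' (c i) (B i) a' b'
  have h2 := abel_id' (fun i => c i a') (fun i => ∑ j ∈ Ico a' b', B i j) a b
  have h3 : ∀ j, ∑ i ∈ Ico a b, (c i (j + 1) - c i j) * ∑ l ∈ Ico (j + 1) b', B i l
      = (c a (j + 1) - c a j) * G2 B b b' a (j + 1)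
        + ∑ i ∈ Ico a (b - 1), mx c i j * G2 B b b' (i + 1) (j + 1) := by
    intro j
    rw [abel_id' (fun i => c i (j + 1) - c i j) (fun i => ∑ l ∈ Ico (j + 1) b', B i l) a b]
    unfold G2 mx
    congr 1
    exact Finset.sum_congr rfl fun i _ => by ring
  rw [h1, h2, Finset.sum_congr rfl fun j _ => h3 j, Finset.sum_add_distrib,
    Finset.sum_comm (s := Ico a' (b' - 1)) (t := Ico a (b - 1))]
  unfold G2
  ring

/-- Bound form of `abel2`. -/
theorem abel2_le (c B : ℕ → ℕ → ℝ) (a b a' b' : ℕ) (f f' p p' : ℕ → ℝ) (m : ℕ → ℕ → ℝ)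
    {k0 : ℝ} (hG : ∀ x, a ≤ x → ∀ y, a' ≤ y → |G2 B b b' x y| ≤ f x * f' y)
    (h0 : |c a a'| ≤ k0)
    (h1 : ∀ i ∈ Ico a (b - 1), |c (i + 1) a' - c i a'| ≤ p i)
    (h2 : ∀ j ∈ Ico a' (b' - 1), |c a (j + 1) - c a j| ≤ p' j)
    (h12 : ∀ i ∈ Ico a (b - 1), ∀ j ∈ Ico a' (b' - 1), |mx c i j| ≤ m i j) :
    |∑ i ∈ Ico a b, ∑ j ∈ Ico a' b', c i j * B i j|
      ≤ k0 * (f a * f' a') + (∑ i ∈ Ico a (b - 1), p i * f (i + 1)) * f' a'
        + f a * (∑ j ∈ Ico a' (b' - 1), p' j * f' (j + 1))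
        + ∑ i ∈ Ico a (b - 1), ∑ j ∈ Ico a' (b' - 1), m i j * (f (i + 1) * f' (j + 1)) := by
  have mm : ∀ {u v k w : ℝ}, |u| ≤ k → |v| ≤ w → |u * v| ≤ k * w := fun hu hv => by
    rw [abs_mul]
    exact mul_le_mul hu hv (abs_nonneg _) ((abs_nonneg _).trans hu)
  rw [abel2]
  refine (abs_add_le _ _).trans (add_le_add ((abs_add_le _ _).trans (add_le_add
    ((abs_add_le _ _).trans (add_le_add ?_ ?_)) ?_)) ?_)
  · exact mm h0 (hG a le_rfl a' le_rfl)
  · rw [Finset.sum_mul]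
    refine (Finset.abs_sum_le_sum_abs _ _).trans (Finset.sum_le_sum fun i hi => ?_)
    rw [mul_assoc]
    exact mm (h1 i hi) (hG _ (by have := (mem_Ico.1 hi).1; omega) _ le_rfl)
  · rw [Finset.mul_sum]
    refine (Finset.abs_sum_le_sum_abs _ _).trans (Finset.sum_le_sum fun j hj => ?_)
    rw [show f a * (p' j * f' (j + 1)) = p' j * (f a * f' (j + 1)) by ring]
    exact mm (h2 j hj) (hG _ le_rfl _ (by have := (mem_Ico.1 hj).1; omega))
  · refine (Finset.abs_sum_le_sum_abs _ _).trans (Finset.sum_le_sum fun i hi => ?_)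
    refine (Finset.abs_sum_le_sum_abs _ _).trans (Finset.sum_le_sum fun j hj => ?_)
    exact mm (h12 i hi j hj) (hG _ (by have := (mem_Ico.1 hi).1; omega) _
      (by have := (mem_Ico.1 hj).1; omega))

/-- Symmetric extension of a kernel given on `i ≤ j`. -/
def sy (c : ℕ → ℕ → ℝ) (i j : ℕ) : ℝ := c (min i j) (max i j)

theorem sy_le (c : ℕ → ℕ → ℝ) {i j : ℕ} (h : i ≤ j) : sy c i j = c i j := by
  unfold sy; rw [min_eq_left h, max_eq_right h]

theorem sy_ge (c : ℕ → ℕ → ℝ) {i j : ℕ} (h : j ≤ i) : sy c i j = c j i := by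
  unfold sy; rw [min_eq_right h, max_eq_left h]




end Crest.Agent.T156.Rect52
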