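import Crest.Agent.T156.CQ21D_52
import Crest.Agent.T156.C3nB_47
import Crest.Agent.T156.CQ21I_23
import Crest.Agent.T156.Ab2_52

-- ▼ part T156/CQ21Pi_67
section

/-!
# Row 156 (helper67): the leaf `PiS` (martingale parts in weak form)
-/

set_option autoImplicit false
set_option linter.all false

noncomputable section

namespace Crest.Agent.T156.Cas.Q21.P67

open Finset
open Crest.Agent.T157.E Crest.Agent.T157.Casc Crest.Agent.T157.SL
open Lp12 Base53

section gen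
variable {Ω : Type} [Fintype Ω] {w : Ω → ℝ}

/-- the leaf of the path law, given the path -/
theorem EE_leaf (hw : Wt w) : ∀ (L : List (Lv Ω)) (h : Ω → ℝ) {F : Pth Ω → Ω → ℝ},
    (∀ x, EP fun p => F p x) → EE w L h (fun p => ∑ x, P w [] (p L.length) x * F p x) =
      tF w .one L h fun p x => F (p ()) (x ())
  | [], h, F, _ => by
    refine Eq.symm ((Tr.tX_one w [] h _).trans ((Pe.pE_nil hw h _).trans ?_))
    have : ∀ g, stT .one ([] : List (Lv Ω)) h g () = fun _ => h := fun g =>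
      funext fun j => Pe.st_nil j h g
    exact sum_congr rfl fun x _ => congrArg (fun p => P w [] h x * F p x) (this _)
  | l :: L, h, F, hF => by
    refine Eq.symm ((Tp.tF_one_cons ..).trans
      ((Tp.tF_step_cons hw .one l L h fun x => (hF (x ())).egP).trans (Eq.symm ?_)))
    rw [EE]
    congr 1
    funext z
    exact EE_leaf hw L z fun x => (hF x).cons h

theorem jensen {a G : Ω → ℝ} (h0 : ∀ x, 0 ≤ a x) (h1 : ∑ x, a x = 1) :
    (∑ x, a x * G x) * (∑ x, a x * G x) ≤ ∑ x, a x * G x ^ 2 := by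
  set m := ∑ x, a x * G x with hm
  have h2 : 0 ≤ ∑ x, a x * (G x - m) ^ 2 := sum_nonneg fun x _ => mul_nonneg (h0 x) (sq_nonneg _)
  have h3 : ∑ x, a x * (G x - m) ^ 2 =
      ∑ x, a x * G x ^ 2 - 2 * m * ∑ x, a x * G x + m ^ 2 * ∑ x, a x := by
    simp only [mul_sum, ← sum_sub_distrib, ← sum_add_distrib]
    exact sum_congr rfl fun x _ => by ring
  rw [h3, h1, ← hm] at h2
  nlinarith

variable (L : List (Lv Ω)) (l₀ : Lv Ω) (hw : Wt w) (h : Ω → ℝ)
include hw

theorem ep_fP (y : ℕ) (c : ℝ) (x : Ω) : EP fun p => fP w L l₀ y c p x :=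
  (EP.sum _ fun i _ => (ep_mP L l₀ hw y i).const_mul _).sub (EP.const c)

/-- conditional Jensen: the node `t` against the leaf -/
theorem node_le_leaf (c q : ℕ → ℝ) (S : Finset ℕ) {t : ℕ} (hS : ∀ y ∈ S, y ≤ t)
    (ht : t ≤ L.length) :
    EE w L h (fun p => (∑ y ∈ S, c y * (MM w L l₀ y t p - q y)) ^ 2) ≤
      pE w L h fun g x => (∑ y ∈ S, c y * fP w L l₀ y (q y) (fun j => st L j h g) x) ^ 2 := by
  have eA : ∀ y, EP fun p => c y * (MM w L l₀ y L.length p - q y) := fun y =>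
    ((ep_MM L l₀ hw y _).sub (EP.const _)).const_mul _
  have hA := EP.sum S fun y _ => eA y
  have h1 := CE_sq_le L hw h hA t
  have e1 : ∀ p, CE w L t (fun p => ∑ y ∈ S, c y * (MM w L l₀ y L.length p - q y)) p =
      ∑ y ∈ S, c y * (MM w L l₀ y t p - q y) := fun p => by
    rw [CE_sum hw L t S fun y _ => eA y]
    refine sum_congr rfl fun y hy => ?_
    rw [CE_const_mul, CE_sub hw L t (ep_MM L l₀ hw y _) (EP.const _), CE_MM L l₀ hw (hS y hy) ht,
      CE_ad hw L (Ad.const t _)]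
  simp only [e1, ← sq] at h1
  refine h1.trans ?_
  have eF : ∀ x, EP fun p => (∑ y ∈ S, c y * fP w L l₀ y (q y) p x) ^ 2 := fun x =>
    (EP.sum S fun y _ => (ep_fP L l₀ hw y _ x).const_mul _).pow 2
  refine le_trans ?_ ((EE_leaf hw L h eF).trans (Tr.tX_one w L h _)).le
  refine EE_mono hw L h (hA.pow 2)
    (EP.sum _ fun x _ => (EP.state (eg_P hw _ x) _).mul (eF x)) fun p => ?_
  have e2 : ∑ y ∈ S, c y * (MM w L l₀ y L.length p - q y) =
      ∑ x, P w [] (p L.length) x * ∑ y ∈ S, c y * fP w L l₀ y (q y) p x := by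
    simp only [← Pf_fP L l₀ hw, List.drop_length, Pf, mul_sum]
    rw [sum_comm]
    simp only [mul_left_comm]
  rw [e2, sq]
  exact jensen (fun x => P_nonneg hw _ _ x) (sum_P hw _ _)

/-- norms of combinations of the martingale parts -/
theorem ip_pi (c q : ℕ → ℝ) (S : Finset ℕ) {t : ℕ} (hS : ∀ y ∈ S, y ≤ t) (ht : t ≤ L.length) :
    ipE hw L h (∑ y ∈ S, c y • pV L l₀ hw y t) (∑ y ∈ S, c y • pV L l₀ hw y t) ≤
      2 * pE w L h (fun g x => (∑ y ∈ S, c y * fP w L l₀ y (q y) (fun j => st L j h g) x) ^ 2) +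
      2 * ipE hw L h (∑ y ∈ S, c y • dV L l₀ hw q y) (∑ y ∈ S, c y • dV L l₀ hw q y) := by
  have h1 := node_le_leaf L l₀ hw h c q S hS ht
  have e : ∀ t : ℕ → ℕ, EP fun p => ∑ y ∈ S, c y * (MM w L l₀ y (t y) p - q y) := fun t =>
    EP.sum S fun y _ => ((ep_MM L l₀ hw y _).sub (EP.const _)).const_mul _
  rw [ipE_eq, ipE_eq]
  refine (EE_le2 hw L h (EP.mul (Subtype.prop _) (Subtype.prop _)) ((e fun _ => t).pow 2)
    (EP.mul (Subtype.prop _) (Subtype.prop _)) (a := 2) (b := 2) fun p => ?_).trans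
      (add_le_add (by linarith) le_rfl)
  simp only [Submodule.coe_sum, Finset.sum_apply, Submodule.coe_smul, Pi.smul_apply, smul_eq_mul,
    dV, pV]
  have e3 : ∑ y ∈ S, c y * (MM w L l₀ y t p - MM w L l₀ y y p) =
      ∑ y ∈ S, c y * (MM w L l₀ y t p - q y) - ∑ y ∈ S, c y * (MM w L l₀ y y p - q y) := by
    rw [← sum_sub_distrib]
    exact sum_congr rfl fun y _ => by ring
  rw [e3]
  nlinarith [sq_nonneg (∑ y ∈ S, c y * (MM w L l₀ y t p - q y) +
    ∑ y ∈ S, c y * (MM w L l₀ y y p - q y))]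

end gen

open C40 C40.Q10 C40.N75 CD
open Q33 (sl sl_cov)

theorem sum_cut {D : CD} {τ0 : ℝ} (H : D.Ok τ0) {m t : ℕ} (hm : D.J < m) (ht : t ≤ D.K)
    (θ a : ℕ → ℝ) : ∑ y ∈ D.tail m, D.dx y * (if y ≤ t then θ y else 0) * a y =
      ∑ y ∈ Icc m t, D.dx y * θ y * a y := by
  simp only [mul_ite, ite_mul, mul_zero, zero_mul]
  rw [← sum_filter]
  refine sum_subset (fun y hy => ?_) fun y hy hy' => ?_
  · simp only [mem_filter, mem_Ico, mem_Icc] at hy ⊢
    omega
  · simp only [mem_filter, mem_Ico, mem_Icc] at hy hy'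
    rw [show y = D.K by omega, H.top, zero_mul, zero_mul]

end Crest.Agent.T156.Cas.Q21.P67

namespace Crest.Agent.T156.Cas.Q21

open Finset
open Crest.Agent.T157.E Crest.Agent.T157.Casc Crest.Agent.T157.SL
open Lp12 Base53 P67 C40 C40.Q10 C40.N75 CD
open Q33 (sl sl_cov)

theorem piS : PiS := fun τ0 D H m t θ hm ht hθ => by
  rcases le_or_gt D.K m with hK | hK
  · rw [sum_eq_zero fun x hx => by
      rw [show x = D.K by have := mem_Icc.1 hx; omega, H.top, zero_mul, zero_smul]]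
    simpa using sq_nonneg _
  obtain ⟨h1, h2⟩ := H.wkp.1 (fun y => if y ≤ t then θ y else 0) (fun y => by
    split_ifs
    exacts [hθ y, by simp]) m
  simp only [sum_cut H hm ht] at h1 h2
  have h3 := ip_pi D.B (sl D.n) wt_one90 0 (fun y => D.dx y * θ y) D.rb (Icc m t)
    (fun y hy => (mem_Icc.1 hy).2) (ht.trans_eq D.B_len.symm)
  rw [ip_sum_pE] at h3
  have e1 : ∀ (y : ℕ) g, qf (P (fun _ => 1) (D.B.drop y) (st D.B y 0 g)) (Q75.uK (sl D.n) D.rb y) =
      D.nd y g - D.del y := fun y g => by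
    simp only [CD.nd, CD.del, ← uK_eq H, qf_uK D.B (sl D.n) wt_one90, sub_sub_sub_cancel_right]
  have e2 : ∀ (y : ℕ) g x, fP (fun _ => 1) D.B (sl D.n) y (D.rb y) (fun j => st D.B j 0 g) x =
      D.lf y g x - D.del y := fun y g x => by
    rw [← sum_cov' D.B (sl D.n) wt_one90, CD.lf, ← Pf_subc wt_one90, Pf]
    refine sum_congr rfl fun v _ => ?_
    rw [sl_cov H.pos, oU, CD.del]
    ring
  simp only [e1, e2] at h3
  rw [fz, if_pos hK]
  nlinarith

end Crest.Agent.T156.Cas.Q21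

end
end

-- ▼ part T156/CQ21B_91
section

/-!
# Row 156 (helper91): the marked word `[aU, aU]`, both edges at the marked level (`BBS`)
-/

set_option autoImplicit false
set_option linter.all false

noncomputable section

namespace Crest.Agent.T156.Cas.Q21.B91

open Finset
open Crest.Agent.T157.E Crest.Agent.T157.Casc Crest.Agent.T157.SL
open Crest.Agent.T157.G1 (ov)
open Crest.Agent.T156.Cas.Q75 Crest.Agent.T156.Cas.Q75.A10
open Nu87

/-- the term minus a constant -/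
def sb (B : Tw) (V : ℝ) : Tw := ⟨fun σ => B.f2 σ - V, fun σ => B.f3 σ - V, fun σ => B.f4 σ - V⟩

theorem sN_sb (B : Tw) (V : ℝ) (K x t t' : ℕ) : (sb B V).sN K x t t' = B.sN K x t t' - V := by
  simp only [Tw.sN, sb]; split_ifs <;> rfl

theorem Sy_sb {B : Tw} {K : ℕ} (H : B.Sy K) (V : ℝ) : (sb B V).Sy K := fun σ hσ => by
  simp only [sb, (H σ hσ).1, (H σ hσ).2, and_self]

section gen
variable {Θ : Type} {L : List (Lv Θ)} {j : ℕ}

theorem abs_SN (hM : Mono 0 L) (hj : j ≤ L.length) {T : Tw} {α β : ℝ}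
    (h : ∀ t t', j ≤ t → t ≤ L.length + 1 → j ≤ t' → t' ≤ L.length + 1 →
      |T.sN L.length j t t'| ≤ α + β * (ind j t + ind j t')) :
    |SN L T j| ≤ 4 * α + 4 * (β * ex L j) := by
  have e1 : ∑ t ∈ Ico j (L.length + 2), |wL L j t| * ind j t = ex L j := by
    rw [abs_wL hM hj, ind, ind, if_neg (by omega), if_pos rfl,
      sum_eq_zero fun t ht => by rw [ind, if_neg (mem_Ioc.1 ht).1.ne', mul_zero]]
    ring
  simp only [SN, Lx_eq L hj, mul_sum]
  refine (abs_sum_le_sum_abs _ _).trans ((sum_le_sum (g := fun t => ∑ t' ∈ Ico j (L.length + 2),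
    (α * (|wL L j t| * |wL L j t'|) + β * (|wL L j t| * ind j t * |wL L j t'|) +
      β * (|wL L j t| * (|wL L j t'| * ind j t')))) fun t ht =>
      (abs_sum_le_sum_abs _ _).trans (sum_le_sum fun t' ht' => ?_)).trans_eq ?_)
  · have m := mem_Ico.1 ht
    have m' := mem_Ico.1 ht'
    rw [abs_mul, abs_mul]
    exact (mul_le_mul_of_nonneg_left (mul_le_mul_of_nonneg_left
      (h t t' m.1 (by omega) m'.1 (by omega)) (abs_nonneg _)) (abs_nonneg _)).trans_eq (by ring)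
  · simp only [sum_add_distrib, ← mul_sum, ← sum_mul, sum_wL hM hj, e1]
    ring

/-- both edges at `j`, the base factor read against the constant `V` -/
theorem core [Fintype Θ] (hM : Mono 0 L) (hj : j ≤ L.length) {c B : Tw} {C V v : ℝ} {P : ℕ → ℝ}
    (sc : c.Sy L.length) (sB : B.Sy L.length) (H : SnR L c j C P) (C0 : 0 ≤ C) (P0 : 0 ≤ P j)
    (v0 : 0 ≤ v) (hV : |V| ≤ 4) (b3 : ∀ σ, Rz L.length σ → |B.f3 σ| ≤ 4)
    (b4 : ∀ σ, Rz L.length σ → |B.f4 σ| ≤ 4)
    (hB : ∀ t t', j ≤ t → t ≤ L.length + 1 → j ≤ t' → t' ≤ L.length + 1 →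
      |B.sN L.length j t t' - V| ≤ v) :
    |2 * Ful L ((wt (ind j) (ind j)).mul (c.mul (sb B V)))| ≤
      dm L 0 j * (8 * C * v * (P j + ex L j) + 88 * C * dm L 0 j) := by
  have d0 := dm_nonneg hM j
  have k1 := abs_SN hM hj (T := c.mul (sb B V)) (α := C * P j * v) (β := C * v)
    fun t t' a1 a2 a3 a4 => by
      have h1 := H.bb t t' a1 a3 a2 a4
      have i0 : ∀ s, 0 ≤ ind j s := fun s => by unfold ind; split_ifs <;> norm_num
      have h2 : |c.sN L.length j t t'| ≤ C * P j + C * (ind j t + ind j t') := by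
        have := mul_nonneg C0 P0
        rcases a1.eq_or_lt with e | e
        · have e1 : ind j t = 1 := if_pos e.symm
          rw [e1]; nlinarith [h1.1, mul_nonneg C0 (i0 t')]
        rcases a3.eq_or_lt with e' | e'
        · have e1 : ind j t' = 1 := if_pos e'.symm
          rw [e1]; nlinarith [h1.1, mul_nonneg C0 (i0 t)]
        · nlinarith [h1.2 e e', mul_nonneg C0 (add_nonneg (i0 t) (i0 t'))]
      rw [sN_mul, sN_sb]
      exact (S97.abs_mul_le' h2 (hB t t' a1 a2 a3 a4)).trans_eq (by ring)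
  have k2 := NL_ind hM hj (c := c.mul (sb B V)) (b := C * 8)
    (fun σ hσ => S97.abs_mul_le' (H.ab.1 σ hσ)
      ((abs_sub (B.f3 σ) V).trans (by linarith [b3 σ hσ])))
    (fun σ hσ => S97.abs_mul_le' (H.ab.2 σ hσ)
      ((abs_sub (B.f4 σ) V).trans (by linarith [b4 σ hσ])))
  have k3 := S97.abs_mul_le' (abs_of_nonneg d0).le k1
  rw [Ful_exp _ (Sy_mul (Sy_wt _ _) (Sy_mul sc (Sy_sb sB V))), Q75.Sm, sum_eq_single j
    (fun x hx h => by rw [SN_wt _ _ (Nat.lt_succ_iff.1 (mem_range.1 hx)), ind, if_neg h]; ring)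
    (fun h => absurd (mem_range.2 (Nat.lt_succ_of_le hj)) h), SN_wt _ _ hj, ind, if_pos rfl,
    one_mul, one_mul]
  rw [abs_le] at k2 k3 ⊢
  constructor <;> nlinarith [k2.1, k2.2, k3.1, k3.2]

end gen

open C40 C40.Q10 C40.N75

theorem ind_pt (j a b : ℕ) (V : ℕ → ℝ) :
    (if a = b then ind j a * ind j a * V a else 0) = ind j a * ind j b * V j := by
  unfold ind
  by_cases h1 : a = j <;> by_cases h2 : b = j <;> simp_all [eq_comm]

theorem one_pt (D : CD) {r : ℕ} {σ : SM r} (hσ : Rz D.B.length σ) (a b c d : Fin r) :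
    TM (fun _ => 1) D.B 0 σ (fun x => ed (fun _ _ _ => (1 : ℝ)) a b x σ *
      ed (fun _ _ _ => (1 : ℝ)) c d x σ) = 1 := by
  simp only [ed, mul_one]
  exact TM_const wt_one90 hσ 1

/-- the swap: the marked word is a two-edge term -/
theorem swap (HS : SwapS) (D : CD) {L : List (Lv (Cube D.n))} (hL : L.length = D.B.length)
    (q : Rf) {j : ℕ} (hj : j ≤ L.length) :
    dm L 0 j * Tj D L q j (ind j) (ind j) = 2 * Ful L ((wt (ind j) (ind j)).mul
      ((cM L D.S q j).mul (sb (Bt D) (D.u 2 j - D.del j ^ 2)))) ∧ (cM L D.S q j).Sy L.length := by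
  have hS : D.S.length = L.length := (Q10.S_len D).trans hL.symm
  have h1 := HS _ L D.S q j _ (fun _ => 1) D.B 0 (oU D.rb) (fun x y => ind j x * ind j y) wt_one90 hS
    hL.symm hj fun i x y => by rw [oU, oU, Q10.ov_comm]
  have h2 := HS _ L D.S q j _ (fun _ => 1) D.B 0 (fun _ _ _ => 1)
    (fun x y => if x = y then ind j x * ind j x * (D.u 2 x - D.del x ^ 2) else 0) wt_one90 hS
    hL.symm hj fun i x y => rfl
  refine ⟨?_, h1.2.1⟩
  rw [Tj, mul_sub, h1.1, h2.1, ← mul_sub]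
  refine congrArg _ (Ful_sub (fun σ hσ => ?_) (fun σ hσ => ?_) fun σ hσ => ?_) <;>
    rw [hL] at hσ
  · have e := ind_pt j (σ 0 1) (σ 0 1) fun x => D.u 2 x - D.del x ^ 2
    rw [if_pos rfl] at e
    simp only [Tw.mul, wA, wt, sb, Bt, ee, one_pt D hσ, if_true, e]
    ring
  · simp only [Tw.mul, wA, wt, sb, Bt, ee, one_pt D hσ,
      ind_pt j _ _ fun x => D.u 2 x - D.del x ^ 2]
    ring
  · simp only [Tw.mul, wA, wt, sb, Bt, ee, one_pt D hσ,
      ind_pt j _ _ fun x => D.u 2 x - D.del x ^ 2]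
    ring

/-- the legs of the base factor -/
theorem leg {D : CD} {τ0 : ℝ} (h : D.Ok τ0) {j t t' : ℕ} (hj : j ≤ D.B.length) (a1 : j ≤ t)
    (a2 : t ≤ D.B.length + 1) (a3 : j ≤ t') (a4 : t' ≤ D.B.length + 1) :
    |(Bt D).sN D.B.length j t t' - (D.u 2 j - D.del j ^ 2)| ≤ 2 * D.v j j := by
  have hc : (Sy41.ovL D.n).cov = ov := funext fun a => funext (Sy41.cov_ovL h.pos a)
  have eB : Bt D = ee (fun _ => 1) D.B 0 (uK (Sy41.ovL D.n) D.rb) (uK (Sy41.ovL D.n) D.rb) := by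
    unfold uK; rw [hc]; rfl
  have eV : ∀ s, j ≤ s → A10.vv (fun _ => 1) D.B (Sy41.ovL D.n) 0 j s ≤ D.v j j := fun s hs => by
    rw [A10.vv]
    split_ifs
    · refine le_of_eq_of_le ?_ (C3n47.v_anti D le_rfl hs)
      unfold Eg33.vt Eg33.vz
      rw [hc]; rfl
    · exact D.v0 j j
  rw [← var_eq D hj, eB]
  linarith [sN_leg wt_one90 0 (Sy41.ovL D.n) D.rb hj a1 a2 a3 a4, eV t a1, eV t' a3]

/-- the time envelope at one upper level -/
theorem par {D : CD} {τ0 : ℝ} (h : D.Ok τ0) {y : ℕ} (hy : y ∈ D.up) {ε : ℝ} (hε : 0 < ε) :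
    ∃ σ, 0 < σ ∧ Ker15.tm D.S y ≤ σ ∧
      min 1 (Ker15.PB 10 σ) ≤ min 1 (2048 * Real.exp (3 / 2) * D.e y) + ε := by
  have e1 : 1 ≤ Real.exp (3 / 2) := Real.one_le_exp (by norm_num)
  obtain ⟨σ, h0, h1, h2⟩ := N75.par h y (ε := ε / (2048 * Real.exp (3 / 2))) (by positivity)
  refine ⟨σ, h0, h1, ?_⟩
  have h3 : min 1 (Ker15.PB 10 σ) ≤ 2 * min 1 (Ker15.PB 8 σ) := by
    have h4 := Ker15.PB_nonneg 8 h0
    have h5 : Ker15.PB 10 σ ≤ 2 * Ker15.PB 8 σ := by
      rw [Ker15.PB, Ker15.PB] at *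
      push_cast at *
      nlinarith
    rcases le_total 1 (Ker15.PB 8 σ) with c | c
    · rw [min_eq_left c]; exact (min_le_left _ _).trans (by norm_num)
    · rw [min_eq_right c]; exact (min_le_right _ _).trans h5
  have h6 : 2 * (1024 * Real.exp (3 / 2) * (mm D y + ε / (2048 * Real.exp (3 / 2)))) =
      2048 * Real.exp (3 / 2) * mm D y + ε := by field_simp; ring
  have h7 := mul_le_mul_of_nonneg_left (mm_le h hy)
    (show 0 ≤ 2048 * Real.exp (3 / 2) by positivity)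
  rw [← min_add_add_right]
  exact le_min ((min_le_left _ _).trans (by linarith)) (by linarith)

theorem cont_Tj (D : CD) {L' : ℝ → List (Lv (Cube D.n))}
    (hc : ∀ (r k : ℕ) (σ : SM (r + 1)) (φ : SM (r + k + 1) → ℝ),
      Continuous fun ε => avc (L' ε) σ k φ) {s : Set ℝ}
    (hL : ∀ ε ∈ s, (L' ε).length = D.B.length) (q : Rf) (j : ℕ) (φ ψ : ℕ → ℝ) :
    ContinuousOn (fun ε => Tj D (L' ε) q j φ ψ) s := by
  have k : ∀ (U : ℕ → Cube D.n → Cube D.n → ℝ) (A : ℕ → ℕ → ℝ),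
      ContinuousOn (fun ε => Tm (L' ε) D.S q j (fun _ => 1) D.B 0 U A) s := fun U A => by
    refine ContinuousOn.congr (f := fun ε => E91.D2 fun c d e f =>
      avc (r := 1) (L' ε) (tw D.B.length j) 4 fun τ => A (τ c d) (τ e f) *
        TM (fun _ => 1) D.B 0 τ (fun x => ed U c d x τ * ed U e f x τ) *
          S3 D.S q τ 4 5 c d e f) (Continuous.continuousOn ?_) fun ε hε => ?_
    · exact continuous_finsetSum _ fun c _ => continuous_finsetSum _ fun d _ =>
        continuous_finsetSum _ fun e _ => continuous_finsetSum _ fun f _ =>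
          continuous_const.mul (hc 1 4 _ _)
    · show Tm _ _ _ _ _ _ _ _ _ = _
      rw [Tm, hL ε hε]
  exact (k _ _).sub (k _ _)

/-- **both edges at `j`**, any centring `q` of size `c e_j` up to `j` -/
theorem bb_gen (HS : SwapS) (HP : PertS) (HM : MkS) (HR : RowRS) (c : ℝ) :
    ∃ C : ℝ, 0 ≤ C ∧ ∀ (τ0 : ℝ) (D : CD), D.Ok τ0 → ∀ q : Rf, ∀ j ∈ D.up, |q.1 j| ≤ 1 →
      (∀ i, 0 ≤ q.2.1 i ∧ q.2.1 i ≤ 1 ∧ |q.2.2 i| ≤ 1) → |q.1 j| ≤ c * D.e j →
      (∀ i ≤ j, |q.2.2 i| ≤ c * D.e j) →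
      |Tj D D.B q j (ind j) (ind j)| ≤ C * (D.dx j + D.e j * D.v j j) := by
  obtain ⟨C₁, c1, HM⟩ := HM
  obtain ⟨C, c2, HR⟩ := HR C₁ c1
  set A := max c (2048 * Real.exp (3 / 2)) with hA
  have A0 : 0 ≤ A := le_max_of_le_right (by positivity)
  refine ⟨16 * C * (A + 1) + 88 * C, by positivity, fun τ0 D h q j hj q0 q1 qm qj => ?_⟩
  have m := CD.mem_up.1 hj
  have hK := D.B_len
  have jl : j ≤ D.B.length := by omega
  obtain ⟨L', l0, hP, hc⟩ := HP _ D.B j h.mono jl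
  have e0 := h.e0 j
  have v0 := D.v0 j j
  have d0 := h.dx0 j
  set P : ℕ → ℝ := fun i => if i = j then min 1 (A * D.e j) else 1 with hPd
  have Pj : P j = min 1 (A * D.e j) := if_pos rfl
  have P01 : ∀ i, 0 ≤ P i ∧ P i ≤ 1 := fun i => by
    simp only [hPd]
    split_ifs
    exacts [⟨le_min zero_le_one (mul_nonneg A0 e0), min_le_left _ _⟩, ⟨zero_le_one, le_rfl⟩]
  have key : ∀ ε ∈ Set.Ioc (0 : ℝ) 1, |Tj D (L' ε) q j (ind j) (ind j)| ≤
      16 * C * D.v j j * (A * D.e j + (D.e j + ε)) + 88 * C * (D.dx j + ε) := fun ε hε => by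
    have p := hP ε hε.1.le hε.2
    have jl' : j < (L' ε).length := by rw [p.len]; omega
    have d1 : ∀ i, dm (L' ε) 0 i ≤ 1 := fun i =>
      (S97.dm_le_ex p.mono i).trans (Tay38.ex_le_one p.mono i)
    have vv0 := SF97.vv0 (r1 h)
    have n1 := fun i => abs_nonneg (q.2.1 (i + 1) - q.2.1 i)
    have n2 := fun i => abs_nonneg (q.2.2 (i + 1) - q.2.2 i)
    have mk := HM _ (L' ε) D.S q P (fun i => SF97.vv D.S i + |q.2.1 (i + 1) - q.2.1 i| +
      |q.2.2 (i + 1) - q.2.2 i| + 2) j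
      ((Q10.S_len D).trans p.len.symm) p.mono (r1 h) (mS h) q0 q1 jl' (fun i => by
        by_cases e : i = j
        · subst e
          rw [Pj]
          refine ⟨fun η hη => ?_, fun i' hi => le_min (q1 i').2.2
            ((qj i' hi).trans (mul_le_mul_of_nonneg_right (le_max_left _ _) e0)), fun _ =>
            le_min q0 (qm.trans (mul_le_mul_of_nonneg_right (le_max_left _ _) e0))⟩
          obtain ⟨σ, s0, s1, s2⟩ := par h hj hη
          exact ⟨σ, s0, s1, s2.trans (add_le_add (min_le_min le_rfl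
            (mul_le_mul_of_nonneg_right (le_max_right _ _) e0)) le_rfl)⟩
        · have e1 : P i = 1 := if_neg e
          rw [e1]
          exact ⟨fun η hη => ⟨|Ker15.tm D.S i| + 1, by positivity,
            (le_abs_self _).trans (by linarith), (min_le_left _ _).trans (by linarith)⟩,
            fun i' _ => (q1 i').2.2, fun _ => q0⟩)
      fun i _ => ⟨by linarith [n1 i, n2 i], by linarith [vv0 i, n2 i], by linarith [vv0 i, n1 i]⟩
    have sn := (HR _ (L' ε) D.S q P _ j 0 p.mono jl' mk (fun i => ⟨(P01 i).1, (P01 i).2.trans c1⟩)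
      (le_of_eq (if_neg jl'.ne').symm)
      (fun i => by linarith [n1 i, n2 i, vv0 i])
      fun i _ => by linarith [n1 i, n2 i, vv0 i, d1 i, d1 (i + 1)]).2
    obtain ⟨s1, s2⟩ := swap HS D p.len q jl'.le
    have b : ∀ {r : ℕ} (σ : SM r), Rz (L' ε).length σ → ∀ a b c d : Fin r,
        |TM (fun _ => 1) D.B 0 σ fun x => ed (oU D.rb) a b x σ * ed (oU D.rb) c d x σ| ≤ 4 :=
      fun σ hσ a b c d => abs_TM wt_one90 0 (p.len ▸ hσ) fun u =>
        (S97.abs_mul_le' (abs_oU_rb D _ _ _) (abs_oU_rb D _ _ _)).trans_eq (by norm_num)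
    have k := core p.mono jl'.le (B := Bt D) (V := D.u 2 j - D.del j ^ 2) (v := 2 * D.v j j) s2
      (p.len ▸ Sy_Bt D) sn (by linarith) (P01 j).1 (by linarith)
      (var_eq D jl ▸ abs_var D j) (fun σ hσ => b σ hσ 1 2 0 1) (fun σ hσ => b σ hσ 2 3 0 1)
      fun t t' a1 a2 a3 a4 => by
        rw [p.len] at a2 a4 ⊢
        exact leg h jl a1 a2 a3 a4
    have dj : dm (L' ε) 0 j = (1 - ε) * D.dx j + ε := by rw [p.dm, ind, if_pos rfl, mul_one]
    have xj : ex (L' ε) j = (1 - ε) * ex D.B j + ε := by rw [p.ex, if_pos le_rfl]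
    have dp : 0 < dm (L' ε) 0 j := by
      rw [dj]; linarith [mul_nonneg (sub_nonneg.2 hε.2) d0, hε.1]
    rw [← s1, abs_mul, abs_of_pos dp] at k
    refine (le_of_mul_le_mul_left k dp).trans ?_
    have u1 : dm (L' ε) 0 j ≤ D.dx j + ε := by rw [dj]; nlinarith [mul_nonneg hε.1.le d0]
    have u2 : ex (L' ε) j ≤ D.e j + ε := by
      rw [xj]; nlinarith [mul_nonneg hε.1.le (h.ex0 j), N75.ex_le h hj]
    have u3 : P j ≤ A * D.e j := Pj.trans_le (min_le_right _ _)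
    have u4 := mul_le_mul_of_nonneg_left (add_le_add u3 u2)
      (show 0 ≤ 16 * C * D.v j j by positivity)
    have u5 := mul_le_mul_of_nonneg_left u1 (show 0 ≤ 88 * C by positivity)
    linarith
  have ct := cont_Tj D hc (s := Set.Icc 0 1) (fun ε hε => (hP ε hε.1 hε.2).len) q j (ind j) (ind j)
  have lim := ContinuousWithinAt.closure_le (s := Set.Ioc (0 : ℝ) 1) (x := 0)
    (by rw [closure_Ioc zero_ne_one]; exact ⟨le_rfl, zero_le_one⟩)
    (((ct 0 ⟨le_rfl, zero_le_one⟩).mono Set.Ioc_subset_Icc_self).abs)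
    (Continuous.continuousWithinAt (by fun_prop)) key
  simp only [l0, add_zero] at lim
  refine lim.trans ?_
  have w1 : 0 ≤ C * (A + 1) * D.dx j := by positivity
  have w2 : 0 ≤ C * (D.e j * D.v j j) := by positivity
  nlinarith

end B91

open C40 C40.Q10 C40.N75 Crest.Agent.T156.Cas.Q75

/-- **`BBS`** -/
theorem bBS_of (HS : SwapS) (HP : PertS) (HM : MkS) (HR : RowRS) : BBS := fun τ0 => by
  obtain ⟨C, C0, H⟩ := B91.bb_gen HS HP HM HR 1
  refine ⟨C, C0, fun D h j hj => ?_⟩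
  have m := CD.mem_up.1 hj
  have q01 : ∀ i, 0 ≤ D.q (min i D.K) ∧ D.q (min i D.K) ≤ 1 := fun i => h.ook.mem (min_le_right _ _)
  have t0 : 0 < 1 + D.τ D.K := by linarith [(h.tau_mem D.K).1]
  have t1 : ∀ i, 0 ≤ D.τ (min i D.K) / (1 + D.τ D.K) ∧ D.τ (min i D.K) / (1 + D.τ D.K) ≤ 1 :=
    fun i => ⟨div_nonneg (h.tau_mem _).1 t0.le,
      (div_le_one t0).2 (by linarith [h.tau_mono (min_le_right i D.K)])⟩
  have t2 : ∀ i, |(Rq D).2.2 i| ≤ D.q (min i D.K) := fun i => by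
    show |D.τ (min i D.K) * D.q (min i D.K) / (1 + D.τ D.K)| ≤ _
    rw [mul_div_right_comm, abs_of_nonneg (mul_nonneg (t1 i).1 (q01 i).1)]
    exact mul_le_of_le_one_left (q01 i).1 (t1 i).2
  have qj := h.ook.mem m.2.le
  refine H τ0 D h _ j hj ((abs_of_nonneg qj.1).trans_le qj.2)
    (fun i => ⟨(t1 i).1, (t1 i).2, (t2 i).trans (q01 i).2⟩)
    ((abs_of_nonneg qj.1).trans_le ((h.qe j hj).trans_eq (one_mul _).symm)) fun i hi => ?_
  refine (t2 i).trans ?_
  rw [one_mul, min_eq_left (by omega)]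
  rcases le_or_gt i D.J with e | e
  · rw [h.qlo i e]; exact h.e0 j
  · exact (h.qe i (CD.mem_up.2 ⟨e, by omega⟩)).trans (h.e_mono hi)

end Crest.Agent.T156.Cas.Q21

end
end

-- ▼ part T156/CQ21R_38
section

/-!
# Row 156 (helper38): one edge at the marked level, crude bound (`RowBS`)
-/

set_option autoImplicit false
set_option linter.all false

noncomputable section

namespace Crest.Agent.T156.Cas.Q21

open Finset
open Crest.Agent.T157.E Crest.Agent.T157.Casc Crest.Agent.T157.SL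
open Crest.Agent.T156.Rect52
open Crest.Agent.T156.Cas.Q75
open Crest.Agent.T156.Cas.Q75.A10 (ind)
open Nu87

namespace R38

variable {Θ : Type} {L : List (Lv Θ)} {c B : Tw} {j₁ j : ℕ} {c₀ g : ℝ} {p s a ψ f : ℕ → ℝ}
  {b : ℕ → ℕ → ℝ} {V : Type} [AddCommGroup V] [Module ℝ V] {ip : LinearMap.BilinForm ℝ V}
  {δ : ℕ → V} {π : ℕ → ℕ → V} {P : ℕ → V →ₗ[ℝ] V}

theorem off_symm {T : Tw} {K z x k : ℕ} (H : T.tr.Eqv T K) (hx : x ≤ K) (hz : z ≤ x) (hk : z ≤ k)
    (hk' : k ≤ K) : T.off K z k x = T.off K z x k := by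
  simpa only [Tw.tr, m4_tr, Tw.off] using H.2.2 _ (rz_off hx hz hk hk')

theorem s0 (H : BH L B j₁ c₀ p s a b ip δ π P) (i : ℕ) : 0 ≤ s i :=
  (dm_nonneg H.mono i).trans (H.ds i)

theorem abs_cP (hL : Mono 0 L) {y u x : ℕ} {κ : ℝ} (hy : y ≤ u) (hu : u ≤ x) (hx : x ≤ L.length)
    (h : ∀ t, y ≤ t → t ≤ L.length + 1 → |c.lo L.length y x t| ≤ κ) : |cP L c y u x| ≤ 4 * κ :=
  abs_LL_le hL hu hx fun t h4 h5 => h t (hy.trans h4) h5

theorem abs_LO (hL : Mono 0 L) {y x : ℕ} {κ : ℝ} (hy : y ≤ x) (hx : x ≤ L.length)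
    (h : ∀ t, y ≤ t → t ≤ L.length + 1 → |c.lo L.length y x t| ≤ κ) : |LO L c y x| ≤ 10 * κ := by
  have h1 := abs_le.1 (abs_cP hL le_rfl hy hx h)
  have h2 := abs_le.1 (S97.abs_mul_le' (S97.kap_abs hL y) (h y le_rfl (by omega)))
  rw [LO, abs_le]
  constructor <;> linarith [h1.1, h1.2, h2.1, h2.2]

/-- `NH.lo_dec` with a free bound of the coefficient -/
theorem lo_dec' (H : BH L B j₁ c₀ p s a b ip δ π P) {y x : ℕ} {κ : ℝ} (hy : y ≤ x)
    (hx : x ≤ L.length) (hκ : ∀ t, y ≤ t → t ≤ L.length + 1 → |c.lo L.length y x t| ≤ κ) :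
    |LO L (c.mul B) y x - (LO L c y x * ip (δ x) (δ y) - 2 * Pt L c ip δ π y x)| ≤
      8 * (κ * (b y x * a x)) := by
  have κ0 : 0 ≤ κ := (abs_nonneg _).trans (hκ y le_rfl (by omega))
  set Y : ℕ → ℝ := fun t => B.lo L.length y x t - (ip (δ x) (δ y) + ip (δ x) (π y (min t x)))
  have hY : ∀ t, y ≤ t → t ≤ L.length + 1 → |c.lo L.length y x t * Y t| ≤ κ * (b y x * a x) :=
    fun t h2 h3 => by
      rw [abs_mul]
      refine mul_le_mul (hκ t h2 h3) ?_ (abs_nonneg _) κ0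
      rcases le_or_gt t x with h | h
      · simp only [Y, min_eq_left h, H.bs.lo1 y x t h2 h hx, sub_self, abs_zero]
        exact mul_nonneg (H.b0 y x) (H.bs.a0 x)
      · simp only [Y, min_eq_right h.le]
        exact H.lo3 y x t hy h h3 hx
  have e : ∀ t, y ≤ t → (c.mul B).lo L.length y x t =
      ip (δ x) (δ y) * c.lo L.length y x t + ∑ u ∈ Ico y x, ip (δ x) (π y (u + 1) - π y u) *
        (if u < t then c.lo L.length y x t else 0) + c.lo L.length y x t * Y t := fun t ht => by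
    have : ∑ u ∈ Ico y x, ip (δ x) (π y (u + 1) - π y u) *
        (if u < t then c.lo L.length y x t else 0) =
        ip (δ x) (π y (min t x)) * c.lo L.length y x t := by
      simp only [mul_ite, mul_zero]
      rw [← sum_filter, ← sum_mul, ← map_sum, show filter (· < t) (Ico y x) = Ico y (min t x) by
        ext u; simp only [mem_filter, mem_Ico]; omega,
        sum_Ico_sub (π y) (le_min ht hy), H.bs.pi0, sub_zero]
    rw [lo_mul, this]
    simp only [Y]
    ring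
  have e1 : cP L (c.mul B) y y x = ip (δ x) (δ y) * cP L c y y x + Pt L c ip δ π y x +
      (Lg L y (fun t => c.lo L.length y x t * Y t) + Lx L x fun t => c.lo L.length y x t * Y t) := by
    rw [cP, Lg_congr (hy.trans hx) fun t h _ => e t h.le, Lx_congr hx fun t h _ => e t (hy.trans h),
      Lg_add, Lg_add, Lx_add, Lx_add, Lg_mul, Lx_mul, Lg_sum, Lx_sum, Q75.Pt, cP,
      sum_congr rfl (g := fun u => ip (δ x) (π y (u + 1) - π y u) * Lg L u (c.lo L.length y x))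
        fun u hu => by
          rw [Lg_mul, Lg_cut (mem_Ico.1 hu).1 ((mem_Ico.1 hu).2.le.trans hx)],
      sum_congr rfl (f := fun u => Lx L x _)
        (g := fun u => ip (δ x) (π y (u + 1) - π y u) * Lx L x (c.lo L.length y x)) fun u hu => by
          rw [Lx_mul, Lx_congr hx fun t h _ => if_pos ((mem_Ico.1 hu).2.trans_le h)]]
    simp only [cP, add_mul, sum_add_distrib, mul_comm (ip (δ x) (π y _ - π y _))]
    ring
  have e2 : (c.mul B).lo L.length y x y = c.lo L.length y x y * ip (δ x) (δ y) := by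
    rw [lo_mul, H.bs.lo1 y x y le_rfl hy hx, H.bs.pi0, map_zero, add_zero]
  have h := abs_LL_le H.mono hy hx hY
  rw [LO, LO, e1, e2]
  rw [abs_le] at h ⊢
  constructor <;> nlinarith [h.1, h.2]

/-- Abel summation against one vector -/
theorem abel1 (H : BH L B j₁ c₀ p s a b ip δ π P) (W : Wf L j₁ ip δ ψ f) (T : V →ₗ[ℝ] V)
    (hT : ∀ u, ip (T u) (T u) ≤ ip u u) {v : V} (hg : 0 ≤ g) (hv : ip v v ≤ g ^ 2) {m : ℕ}
    (hm : j₁ ≤ m) {κ d : ℕ → ℝ} {k0 : ℝ} (h0 : |κ m| ≤ k0)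
    (h1 : ∀ i, m ≤ i → i < L.length → |κ (i + 1) - κ i| ≤ d i) :
    |∑ x ∈ Ico m (L.length + 1), κ x * (dm L 0 x * ψ x * ip v (T (δ x)))| ≤
      g * (k0 * f m + ∑ i ∈ Ico m L.length, d i * f (i + 1)) := by
  have e : ∀ y, j₁ ≤ y → |∑ x ∈ Ico y (L.length + 1), dm L 0 x * ψ x * ip v (T (δ x))| ≤ g * f y :=
    fun y hy => by
      have := H.bs.cs hg (W.nn y) hv ((hT _).trans (W.tl y hy))
      simpa only [map_sum, map_smul, smul_eq_mul] using this
  rw [abel_id', Nat.add_sub_cancel, mul_add g, mul_sum _ (fun i => d i * f (i + 1))]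
  refine (abs_add_le _ _).trans (add_le_add ((S97.abs_mul_le' h0 (e m hm)).trans_eq (by ring))
    ((abs_sum_le_sum_abs _ _).trans (sum_le_sum fun i hi => ?_)))
  have := mem_Ico.1 hi
  exact (S97.abs_mul_le' (h1 i this.1 this.2) (e _ (by omega))).trans_eq (by ring)

theorem sum_step (H : BH L B j₁ c₀ p s a b ip δ π P) (hf : ∀ y, 0 ≤ f y) {m : ℕ} (hm : j₁ ≤ m)
    {A : ℝ} (hA : 0 ≤ A) :
    ∑ i ∈ Ico m L.length, (s i + (if i + 1 = j then A else 0) + if i = j then A else 0) * f (i + 1) ≤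
      ∑ i ∈ Ico j₁ L.length, s i * f (i + 1) + A * f j + A * f (j + 1) := by
  simp only [add_mul, sum_add_distrib, ite_mul, zero_mul]
  refine add_le_add (add_le_add (sum_le_sum_of_subset_of_nonneg (Ico_subset_Ico_left hm)
    fun i _ _ => mul_nonneg (s0 H i) (hf _)) ?_) ?_
  · rcases j with _ | j
    · simpa using mul_nonneg hA (hf 0)
    · simp only [Nat.add_right_cancel_iff, sum_ite_eq']
      split_ifs
      exacts [le_rfl, mul_nonneg hA (hf _)]
  · simp only [sum_ite_eq']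
    split_ifs
    exacts [le_rfl, mul_nonneg hA (hf _)]

/-- `NH.pi_bd` with free bounds of the coefficient -/
theorem pi_up (H : BH L B j₁ c₀ p s a b ip δ π P) (W : Wf L j₁ ip δ ψ f) {y : ℕ} {κ : ℝ}
    (h1 : j₁ ≤ y) (hy : y ≤ L.length) (κ0 : 0 ≤ κ)
    (l0 : ∀ x t, y < x → x ≤ L.length → y ≤ t → t ≤ L.length + 1 → |c.lo L.length y x t| ≤ κ)
    (p1 : ∀ u x, y ≤ u → u < x → x < L.length → |cP L c y u (x + 1) - cP L c y u x| ≤ s x) :
    |∑ x ∈ Ico y (L.length + 1), dm L 0 x * ψ x * Pt L c ip δ π y x| ≤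
      a y * (4 * κ * f (y + 1) + ∑ i ∈ Ico j₁ L.length, s i * f (i + 1)) := by
  set F : ℕ → V := fun y => ∑ x ∈ Ico y (L.length + 1), (dm L 0 x * ψ x) • δ x with hF
  set d : ℕ → V := fun u => π y (u + 1) - π y u with hd
  have e0 : ∀ u v, ∑ x ∈ Ico v (L.length + 1), dm L 0 x * ψ x * ip (δ x) (d u) = ip (F v) (d u) :=
    fun u v => by simp only [hF, map_sum, LinearMap.sum_apply, map_smul, LinearMap.smul_apply,
      smul_eq_mul]
  have e1 : ∑ x ∈ Ico y (L.length + 1), dm L 0 x * ψ x * Pt L c ip δ π y x =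
      ∑ u ∈ Ico y L.length, (cP L c y u (u + 1) * ip (F (u + 1)) (d u) +
        ∑ j ∈ Ico (u + 1) L.length, (cP L c y u (j + 1) - cP L c y u j) * ip (F (j + 1)) (d u)) := by
    simp only [Q75.Pt, mul_sum]
    rw [← sum_Ico_Ico_comm', sum_Ico_succ_top hy, Ico_self, sum_empty, add_zero]
    refine sum_congr rfl fun u _ => ?_
    have := abel_id' (cP L c y u) (fun x => dm L 0 x * ψ x * ip (δ x) (d u)) (u + 1) (L.length + 1)
    simp only [e0, Nat.add_sub_cancel] at this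
    rw [← this]
    exact sum_congr rfl fun x _ => by ring
  have e2 : ∀ u ∈ Ico y L.length, ip (F (u + 1)) (d u) = ip (F (y + 1)) (d u) := fun u hu => by
    have hu' := mem_Ico.1 hu
    rw [← e0, ← e0, ← sum_Ico_consecutive _ (show y + 1 ≤ u + 1 by omega)
      (show u + 1 ≤ L.length + 1 by omega), sum_eq_zero (s := Ico (y + 1) (u + 1)) fun v hv => by
        rw [H.bs.or1 y u v hu'.1 hu'.2 (by have := mem_Ico.1 hv; omega), mul_zero], zero_add]
  have pa := H.bs.a0 y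
  have b1 : |∑ u ∈ Ico y L.length, cP L c y u (u + 1) * ip (F (u + 1)) (d u)| ≤
      f (y + 1) * (4 * κ * a y) := by
    rw [sum_congr rfl fun u hu => by rw [e2 u hu, ← smul_eq_mul, ← map_smul], ← map_sum]
    exact H.bs.cs (W.nn _) (by positivity) (W.tl _ (by omega)) (H.bs.mart hy le_rfl fun u h2 h3 =>
      abs_cP H.mono h2 (Nat.le_succ u) h3 fun t => l0 (u + 1) t (by omega) h3)
  have b2 : |∑ u ∈ Ico y L.length, ∑ j ∈ Ico (u + 1) L.length,
      (cP L c y u (j + 1) - cP L c y u j) * ip (F (j + 1)) (d u)| ≤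
      a y * ∑ i ∈ Ico j₁ L.length, s i * f (i + 1) := by
    rw [sum_Ico_Ico_comm', mul_sum]
    refine (abs_sum_le_sum_abs _ _).trans ((sum_le_sum fun j hj => ?_).trans
      (sum_le_sum_of_subset_of_nonneg (Ico_subset_Ico_left h1) fun i _ _ =>
        mul_nonneg pa (mul_nonneg (s0 H i) (W.nn _))))
    have hj' := mem_Ico.1 hj
    rw [sum_congr rfl fun u _ => by rw [← smul_eq_mul, ← map_smul], ← map_sum]
    refine (H.bs.cs (W.nn _) (mul_nonneg (s0 H j) pa)
      (W.tl _ (by omega)) (H.bs.mart hj'.1 hj'.2.le fun u h2 h3 => p1 u j h2 h3 hj'.2)).trans_eq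
        (by ring)
  rw [e1, sum_add_distrib]
  exact (abs_add_le _ _).trans (by linarith)


/-- the martingale part of the rows below `j`, in weak form -/
theorem pi_dn (H : BH L B j₁ c₀ p s a b ip δ π P) (R : RowR L c j₁ j c₀ p s) (h1 : j₁ ≤ j)
    (hj : j < L.length) (W : Wf L j₁ ip δ ψ f) (hg : 0 ≤ g) (hv : ip (δ j) (δ j) ≤ g ^ 2)
    (hp : ∀ y, j₁ ≤ y → y + 1 < j → p y ≤ p (y + 1) ∧ p (y + 1) - p y ≤ s y)
    (hπ : ∀ (m t : ℕ) (θ : ℕ → ℝ), j₁ ≤ m → t ≤ L.length → (∀ y, |θ y| ≤ 1) → θ j = 0 →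
      ip (∑ y ∈ Icc m t, (dm L 0 y * θ y) • π y t) (∑ y ∈ Icc m t, (dm L 0 y * θ y) • π y t) ≤
        (2 * f m) ^ 2) :
    |∑ y ∈ Ico j₁ j, dm L 0 y * ψ y * Pt L c ip δ π y j| ≤
      8 * (g * (p j₁ * f j₁ + ∑ i ∈ Ico j₁ L.length, s i * f (i + 1))) := by
  set Φ : ℕ → ℝ := fun t => ∑ y ∈ Ico j₁ j, dm L 0 y * ψ y * ∑ u ∈ Ico y j,
    ip (δ j) (π y (u + 1) - π y u) * (if u < t then c.lo L.length y j t else 0) with hΦ
  have e : ∑ y ∈ Ico j₁ j, dm L 0 y * ψ y * Pt L c ip δ π y j = Lg L j₁ Φ + Lx L j Φ := by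
    rw [Lg_sum, Lx_sum, ← sum_add_distrib]
    refine sum_congr rfl fun y hy => ?_
    rw [Lg_mul, Lx_mul, Lg_sum, Lx_sum, ← mul_add, ← sum_add_distrib, Q75.Pt]
    congr 1
    refine sum_congr rfl fun u hu => ?_
    have := mem_Ico.1 hy
    have := mem_Ico.1 hu
    rw [Lg_mul, Lx_mul, Lg_cut (by omega) (by omega),
      Lx_congr hj.le fun t h _ => if_pos (show u < t by omega), cP]
    ring
  rw [e]
  refine (abs_LL_le H.mono h1 hj.le (b := 2 * (g * (p j₁ * f j₁ +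
    ∑ i ∈ Ico j₁ L.length, s i * f (i + 1)))) fun t ht ht' => ?_).trans_eq (by ring)
  set θ : ℕ → ℝ := fun y => if j₁ ≤ y ∧ y < j ∧ y ≤ t then ψ y * (c.lo L.length y j t / p y)
    else 0 with hθ
  have θ1 : ∀ y, |θ y| ≤ 1 := fun y => by
    simp only [θ]
    split_ifs with h
    · rw [abs_mul, abs_div, abs_of_nonneg (H.p0 y)]
      exact mul_le_one₀ (W.le y) (div_nonneg (abs_nonneg _) (H.p0 y))
        (div_le_one_of_le₀ (R.dn0 y t h.1 h.2.1 h.2.2 ht') (H.p0 y))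
    · simp
  have e1 : Φ t = ∑ y ∈ Ico j₁ j, p y * (dm L 0 y * θ y * ip (δ j) (π y (min t j))) := by
    refine sum_congr rfl fun y hy => ?_
    have hy' := mem_Ico.1 hy
    rcases le_or_gt y t with h | h
    · have hl := R.dn0 y t hy'.1 hy'.2 h ht'
      have e2 : p y * (c.lo L.length y j t / p y) = c.lo L.length y j t := by
        rcases eq_or_ne (p y) 0 with h0 | h0
        · rw [h0] at hl ⊢
          rw [zero_mul, abs_nonpos_iff.1 hl]
        · exact mul_div_cancel₀ _ h0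
      simp only [θ, mul_ite, mul_zero]
      rw [if_pos ⟨hy'.1, hy'.2, h⟩, ← sum_filter, ← sum_mul, ← map_sum,
        show filter (· < t) (Ico y j) = Ico y (min t j) by
          ext u; simp only [mem_filter, mem_Ico]; omega,
        sum_Ico_sub (π y) (le_min h hy'.2.le), H.bs.pi0, sub_zero]
      linear_combination (-(dm L 0 y * ψ y * ip (δ j) (π y (min t j)))) * e2
    · rw [sum_eq_zero fun u hu => by
        rw [if_neg (by have := mem_Ico.1 hu; omega), mul_zero]]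
      simp only [θ]
      rw [if_neg (by omega)]
      ring
  have e3 : ∀ m, j₁ ≤ m → |∑ y ∈ Ico m j, dm L 0 y * θ y * ip (δ j) (π y (min t j))| ≤
      g * (2 * f m) := fun m hm => by
    have := H.bs.cs hg (mul_nonneg zero_le_two (W.nn m)) hv
      (hπ m (min t j) θ hm ((min_le_right _ _).trans hj.le) θ1 (if_neg (by omega)))
    simp only [map_sum, map_smul, smul_eq_mul] at this
    rwa [sum_subset (s₂ := Icc m j) Ico_subset_Icc_self fun x hx hx' => by
        simp only [mem_Icc, mem_Ico] at hx hx'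
        simp only [θ]
        rw [if_neg (by omega), mul_zero, zero_mul],
      ← sum_subset (s₁ := Icc m (min t j)) (Icc_subset_Icc_right (min_le_right _ _))
        fun x hx hx' => by
          simp only [mem_Icc] at hx hx'
          simp only [θ]
          rw [if_neg (by omega), mul_zero, zero_mul]]
  rw [e1, abel_id']
  have k1 := S97.abs_mul_le' (abs_of_nonneg (H.p0 j₁)).le (e3 j₁ le_rfl)
  have k2 : |∑ i ∈ Ico j₁ (j - 1), (p (i + 1) - p i) *
      ∑ y ∈ Ico (i + 1) j, dm L 0 y * θ y * ip (δ j) (π y (min t j))| ≤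
      2 * g * ∑ i ∈ Ico j₁ L.length, s i * f (i + 1) := by
    rw [mul_sum]
    refine (abs_sum_le_sum_abs _ _).trans ((sum_le_sum fun i hi => ?_).trans
      (sum_le_sum_of_subset_of_nonneg (Ico_subset_Ico_right (by omega)) fun i _ _ =>
        mul_nonneg (by positivity) (mul_nonneg (s0 H i) (W.nn _))))
    have hi' := mem_Ico.1 hi
    have := hp i hi'.1 (by omega)
    exact (S97.abs_mul_le' ((abs_of_nonneg (sub_nonneg.2 this.1)).trans_le this.2)
      (e3 (i + 1) (by omega))).trans_eq (by ring)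
  exact (abs_add_le _ _).trans (by linarith)

variable (L c B ψ j₁ j) in
/-- the row -/
def Row : ℝ := ∑ y ∈ Ico j₁ j, dm L 0 y * ψ y * LO L (c.mul B) y j +
  ∑ x ∈ Ico (j + 1) (L.length + 1), dm L 0 x * ψ x * LO L (c.mul B) j x +
  ∑ z ∈ range j, dm L 0 z * ∑ k ∈ Ico (z + 1) (L.length + 1),
    dm L 0 k * ψ k * (c.off L.length z j k * B.off L.length z j k)

theorem sum_ind (A : Finset ℕ) (G : ℕ → ℝ) :
    ∑ x ∈ A, ind j x * G x = if j ∈ A then G j else 0 := by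
  simp only [ind, ite_mul, one_mul, zero_mul, sum_ite_eq']

theorem sum_if_lt {K : ℕ} (hj : j ≤ K) (G : ℕ → ℝ) :
    ∑ z ∈ range K, (if j ∈ Ico (z + 1) (K + 1) then G z else 0) = ∑ z ∈ range j, G z := by
  rw [← sum_filter]
  refine sum_congr (ext fun z => ?_) fun _ _ => rfl
  simp only [mem_filter, mem_range, mem_Ico]
  omega

theorem sum_if_gt {K m : ℕ} (hm : m ≤ 1) (h1 : j₁ ≤ j) (G : ℕ → ℝ) (h0 : G j = 0) :
    ∑ y ∈ Ico j₁ (K + 1), (if j ∈ Ico j₁ (y + m) then G y else 0) =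
      ∑ y ∈ Ico (j + 1) (K + 1), G y := by
  rw [← sum_filter]
  refine (sum_subset (fun z hz => ?_) fun z hz hz' => ?_).symm
  · simp only [mem_filter, mem_Ico] at hz ⊢
    omega
  · simp only [mem_filter, mem_Ico] at hz hz'
    rwa [show z = j by omega]

theorem nl1 (hc : c.tr.Eqv c L.length) (hB : B.tr.Eqv B L.length) (h1 : j₁ ≤ j)
    (hj : j ≤ L.length) (hψ : ∀ x < j₁, ψ x = 0) (h0 : ψ j = 0) :
    NL L (((wt (ind j) ψ).mul c).mul B) = dm L 0 j * Row L c B j₁ j ψ := by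
  have hm : j ∈ Ico j₁ (L.length + 1) := mem_Ico.2 ⟨h1, by omega⟩
  rw [NL_eq (j₁ := j₁) (φ := ind j) hc hB (fun x hx => if_neg (by omega)) hψ, Row, mul_add, mul_add]
  simp only [mul_comm (dm L 0 _) (ind j _), mul_assoc (ind j _)]
  congr 1
  · congr 1
    · simp only [← mul_sum, sum_ind, if_pos hm]
      rw [sum_Ico_succ_top h1, h0, mul_sum]
      simp only [mul_zero, zero_mul, add_zero, mul_assoc]
    · simp only [sum_ind]
      rw [mul_sum]
      exact (sum_if_gt (m := 0) zero_le_one h1 _ (by simp [h0])).trans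
        (sum_congr rfl fun _ _ => by ring)
  · have e : ∀ (x : ℕ) (A : Finset ℕ) (G : ℕ → ℝ), ∑ k ∈ A, ind j x * G k =
        ind j x * ∑ k ∈ A, G k := fun _ _ _ => (mul_sum _ _ _).symm
    simp only [e, sum_ind, mul_ite, mul_zero]
    rw [sum_if_lt hj, mul_sum]
    exact sum_congr rfl fun z _ => by
      simp only [mul_sum]
      exact sum_congr rfl fun _ _ => by ring

theorem nl2 (hc : c.tr.Eqv c L.length) (hB : B.tr.Eqv B L.length) (h1 : j₁ ≤ j)
    (hj : j ≤ L.length) (hψ : ∀ x < j₁, ψ x = 0) (h0 : ψ j = 0) :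
    NL L (((wt ψ (ind j)).mul c).mul B) = dm L 0 j * Row L c B j₁ j ψ := by
  have hm : j ∈ Ico j₁ (L.length + 1) := mem_Ico.2 ⟨h1, by omega⟩
  have e : ∀ (x y : ℕ) (u : ℝ), dm L 0 x * ψ x * (dm L 0 y * ind j y) * u =
      ind j y * (dm L 0 y * (dm L 0 x * ψ x * u)) := fun _ _ _ => by ring
  rw [NL_eq (j₁ := j₁) (ψ := ind j) hc hB hψ fun x hx => if_neg (by omega), Row, mul_add, mul_add,
    add_comm (dm L 0 j * _)]
  simp only [e]
  congr 1
  · congr 1
    · simp only [sum_ind]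
      rw [mul_sum]
      exact sum_if_gt (m := 1) le_rfl h1 _ (by simp [h0])
    · simp only [← mul_sum, sum_ind, if_pos hm]
  · simp only [sum_ind, sum_ite_irrel, sum_const_zero, mul_ite, mul_zero]
    rw [sum_if_lt hj, mul_sum]
    refine sum_congr rfl fun z hz => ?_
    have := mem_range.1 hz
    rw [← mul_sum, mul_left_comm]
    congr 2
    refine sum_congr rfl fun k hk => ?_
    have := mem_Ico.1 hk
    rw [off_symm hc hj (by omega) (by omega) (by omega),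
      off_symm hB hj (by omega) (by omega) (by omega)]

theorem off_row (H : BH L B j₁ c₀ p s a b ip δ π P) (R : RowR L c j₁ j c₀ p s)
    (hj : j < L.length) (W : Wf L j₁ ip δ ψ f) (hg : 0 ≤ g) (hv : ip (δ j) (δ j) ≤ g ^ 2) {z : ℕ}
    (hz : z < j) : |∑ k ∈ Ico (z + 1) (L.length + 1),
      dm L 0 k * ψ k * (c.off L.length z j k * B.off L.length z j k)| ≤
      g * (c₀ * f (max (z + 1) j₁) + (∑ i ∈ Ico j₁ L.length, s i * f (i + 1) + 2 * c₀ * f j +
        2 * c₀ * f (j + 1))) := by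
  have c0 : 0 ≤ c₀ := zero_le_one.trans H.c1
  have m1 := le_max_left (z + 1) j₁
  have m2 := le_max_right (z + 1) j₁
  rw [sum_cut (j := j₁) fun x hx => by simp [W.lw x hx]]
  generalize max (z + 1) j₁ = m at *
  have k2 := sum_step (j := j) H W.nn m2 (show 0 ≤ 2 * c₀ by positivity)
  rcases le_or_gt m L.length with hm | hm
  swap
  · rw [Ico_eq_empty (by omega), sum_empty, abs_zero]
    rw [Ico_eq_empty (by omega), sum_empty] at k2
    exact mul_nonneg hg (add_nonneg (mul_nonneg c0 (W.nn _)) k2)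
  have k1 := abel1 H W (P z) (H.bs.con z) hg ((H.bs.con z _).trans hv) m2
    (κ := c.off L.length z j) (R.of0 z m hz m1 hm)
    (d := fun i => s i + (if i + 1 = j then 2 * c₀ else 0) + if i = j then 2 * c₀ else 0)
    fun i h1 h2 => by
      have cr := (abs_sub _ _).trans (add_le_add (R.of0 z (i + 1) hz (by omega) h2)
        (R.of0 z i hz (by omega) h2.le))
      have := s0 H i
      by_cases e1 : i + 1 = j
      · rw [if_pos e1, if_neg (by omega)]; linarith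
      by_cases e2 : i = j
      · rw [if_neg e1, if_pos e2]; linarith
      · rw [if_neg e1, if_neg e2, add_zero, add_zero]
        exact R.of1 z i hz (by omega) (by omega) h2 e2 e1
  rw [sum_congr rfl fun k hk => by
    rw [H.bs.off z j k hz (by have := mem_Ico.1 hk; omega) hj.le (by have := mem_Ico.1 hk; omega),
      mul_left_comm]]
  exact k1.trans (mul_le_mul_of_nonneg_left (add_le_add le_rfl k2) hg)

theorem sum_max (H : BH L B j₁ c₀ p s a b ip δ π P) (hf : ∀ y, 0 ≤ f y) (hj : j ≤ L.length) :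
    ∑ z ∈ range j, dm L 0 z * f (max (z + 1) j₁) ≤
      p j₁ * f j₁ + ∑ i ∈ Ico j₁ L.length, s i * f (i + 1) := by
  have d0 := dm_nonneg H.mono
  have : range j ⊆ range j₁ ∪ Ico j₁ L.length := fun i hi => by
    simp only [mem_union, mem_range, mem_Ico] at hi ⊢; omega
  refine (sum_le_sum_of_subset_of_nonneg this fun i _ _ => mul_nonneg (d0 i) (hf _)).trans ?_
  rw [sum_union (disjoint_left.2 fun i h1 h2 => by
    rw [mem_range] at h1; rw [mem_Ico] at h2; omega)]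
  refine add_le_add ?_ (sum_le_sum fun i hi => ?_)
  · rw [sum_congr rfl fun z hz => by rw [max_eq_right (mem_range.1 hz)], ← sum_mul]
    exact mul_le_mul_of_nonneg_right H.low (hf _)
  · rw [max_eq_left ((mem_Ico.1 hi).1.trans (Nat.le_succ i))]
    exact mul_le_mul_of_nonneg_right (H.ds i) (hf _)

theorem main_row (H : BH L B j₁ c₀ p s a b ip δ π P) (R : RowR L c j₁ j c₀ p s) (h1 : j₁ ≤ j)
    (hj : j < L.length) (W : Wf L j₁ ip δ ψ f) (h0 : ψ j = 0) (hg : 0 ≤ g)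
    (hv : ip (δ j) (δ j) ≤ g ^ 2) :
    |∑ y ∈ Ico j₁ j, dm L 0 y * ψ y * (LO L c y j * ip (δ j) (δ y)) +
      ∑ x ∈ Ico (j + 1) (L.length + 1), dm L 0 x * ψ x * (LO L c j x * ip (δ x) (δ j))| ≤
      g * (10 * p j₁ * f j₁ + (∑ i ∈ Ico j₁ L.length, s i * f (i + 1) + 10 * c₀ * f j +
        10 * c₀ * f (j + 1))) := by
  have c0 : 0 ≤ c₀ := zero_le_one.trans H.c1
  have dn : ∀ y, j₁ ≤ y → y < j → |LO L c y j| ≤ 10 * p y := fun y h2 h3 =>
    abs_LO H.mono h3.le hj.le fun t => R.dn0 y t h2 h3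
  have k1 := abel1 H W LinearMap.id (fun _ => le_rfl) hg hv le_rfl (k0 := 10 * p j₁)
    (κ := fun x => if x < j then LO L c x j else if j < x then LO L c j x else 0)
    (by
      split_ifs with e1 e2
      · exact dn _ le_rfl e1
      · omega
      · simpa using H.p0 j₁)
    (d := fun i => s i + (if i + 1 = j then 10 * c₀ else 0) + if i = j then 10 * c₀ else 0)
    fun i h2 h3 => by
      have := s0 H i
      rcases lt_trichotomy (i + 1) j with e | e | e
      · rw [if_pos e, if_pos (by omega), if_neg e.ne, if_neg (by omega), add_zero, add_zero]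
        exact R.dn1 i h2 e
      · rw [if_neg (by omega), if_neg (by omega), if_pos (by omega), if_pos e, if_neg (by omega),
          zero_sub, abs_neg]
        linarith [dn i h2 (by omega), H.pc i]
      rcases (show i = j ∨ j < i by omega) with e' | e'
      · rw [if_neg (by omega), if_pos e, if_neg (by omega), if_neg (by omega), if_neg (by omega),
          if_pos e', sub_zero]
        linarith [abs_LO H.mono e.le h3 fun t => R.up0 (i + 1) t e h3]
      · rw [if_neg (by omega), if_pos e, if_neg (by omega), if_pos e', if_neg (by omega),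
          if_neg (by omega), add_zero, add_zero]
        exact R.up1 i e' h3
  rw [← sum_Ico_consecutive _ h1 (show j ≤ L.length + 1 by omega),
    sum_eq_sum_Ico_succ_bot (show j < L.length + 1 by omega), h0, mul_zero, zero_mul, mul_zero,
    zero_add] at k1
  refine (congrArg abs (congrArg₂ (· + ·) (sum_congr rfl fun y hy => ?_)
    (sum_congr rfl fun x hx => ?_))).trans_le (k1.trans (mul_le_mul_of_nonneg_left
      (add_le_add le_rfl (sum_step H W.nn le_rfl (by positivity))) hg))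
  · rw [if_pos (mem_Ico.1 hy).2, LinearMap.id_apply]; ring
  · have := mem_Ico.1 hx
    rw [if_neg (by omega), if_pos (by omega), LinearMap.id_apply, H.bs.sym (δ x)]; ring

theorem abs_wsum (hL : Mono 0 L) (W : Wf L j₁ ip δ ψ f) {A : Finset ℕ} {G G' : ℕ → ℝ}
    (h : ∀ x ∈ A, |G x| ≤ G' x) : |∑ x ∈ A, dm L 0 x * ψ x * G x| ≤ ∑ x ∈ A, dm L 0 x * G' x :=
  (abs_sum_le_sum_abs _ _).trans (sum_le_sum fun x hx => S97.abs_mul_le' (W.abs_le hL x) (h x hx))

theorem row_bd (H : BH L B j₁ c₀ p s a b ip δ π P) (R : RowR L c j₁ j c₀ p s) (h1 : j₁ ≤ j)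
    (hj : j < L.length) (W : Wf L j₁ ip δ ψ f) (h0 : ψ j = 0) (hg : 0 ≤ g)
    (hv : ip (δ j) (δ j) ≤ g ^ 2) {u2 : ℝ} (n2 : 0 ≤ u2)
    (k2 : |∑ y ∈ Ico j₁ j, dm L 0 y * ψ y * Pt L c ip δ π y j| ≤
      8 * (g * (p j₁ * f j₁ + ∑ i ∈ Ico j₁ L.length, s i * f (i + 1))) + 4 * g * u2) :
    |Row L c B j₁ j ψ| ≤ 100 * c₀ *
      (g * (p j₁ * f j₁ + ∑ i ∈ Ico j₁ L.length, s i * f (i + 1) + f j + f (j + 1) + u2) +
        RwE L j₁ j p s a b f) := by
  have c1 := H.c1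
  have c0 : 0 ≤ c₀ := zero_le_one.trans c1
  have d0 := dm_nonneg H.mono
  set ρ : ℕ → ℕ → ℝ := fun y x => LO L (c.mul B) y x - (LO L c y x * ip (δ x) (δ y) -
    2 * Pt L c ip δ π y x) with hρ
  have e4 : ∀ y x, LO L (c.mul B) y x = LO L c y x * ip (δ x) (δ y) - 2 * Pt L c ip δ π y x +
    ρ y x := fun y x => by simp only [hρ]; ring
  have k1 := main_row H R h1 hj W h0 hg hv
  have k3 := pi_up H W h1 hj.le c0 R.up0 R.upp
  rw [sum_eq_sum_Ico_succ_bot (show j < L.length + 1 by omega), h0, mul_zero, zero_mul,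
    zero_add] at k3
  have k4 := abs_wsum H.mono W (A := Ico j₁ j) (G := fun y => ρ y j)
    (G' := fun y => 8 * (p y * (b y j * a j))) fun y hy => lo_dec' H (mem_Ico.1 hy).2.le hj.le
      fun t => R.dn0 y t (mem_Ico.1 hy).1 (mem_Ico.1 hy).2
  have k5 := abs_wsum H.mono W (A := Ico (j + 1) (L.length + 1)) (G := fun x => ρ j x)
    (G' := fun x => 8 * c₀ * (b j x * a x)) fun x hx => by
      have := mem_Ico.1 hx
      exact (lo_dec' H (by omega) (by omega) fun t => R.up0 x t this.1 (by omega)).trans_eq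
        (by ring)
  rw [Finset.Ico_add_one_add_one_eq_Ioc] at k5
  set S := ∑ i ∈ Ico j₁ L.length, s i * f (i + 1) with hS
  have S0 : 0 ≤ S := sum_nonneg fun i _ => mul_nonneg (s0 H i) (W.nn _)
  have f1 := W.nn j
  have f2 := W.nn (j + 1)
  have k6 : |∑ z ∈ range j, dm L 0 z * ∑ k ∈ Ico (z + 1) (L.length + 1),
      dm L 0 k * ψ k * (c.off L.length z j k * B.off L.length z j k)| ≤
      g * (c₀ * (p j₁ * f j₁ + S) + (S + 2 * c₀ * f j + 2 * c₀ * f (j + 1))) := by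
    refine (abs_sum_le_sum_abs _ _).trans ((sum_le_sum fun z hz => S97.abs_mul_le'
      (abs_of_nonneg (d0 z)).le (off_row H R hj W hg hv (mem_range.1 hz))).trans ?_)
    simp only [mul_left_comm (dm L 0 _) g, ← mul_sum, mul_add (dm L 0 _) (c₀ * _), sum_add_distrib,
      mul_left_comm (dm L 0 _) c₀, ← sum_mul]
    refine mul_le_mul_of_nonneg_left (add_le_add (mul_le_mul_of_nonneg_left
      (sum_max H W.nn hj.le) c0) (mul_le_of_le_one_left (by positivity) ?_)) hg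
    exact sum_dm_le_one H.mono (range_subset_range.2 (by omega))
  simp only [mul_left_comm (dm L 0 _) (8 : ℝ),
    mul_left_comm (dm L 0 _) (8 * c₀), ← mul_sum] at k4 k5
  have n1 : 0 ≤ p j₁ * f j₁ := mul_nonneg (H.p0 _) (W.nn _)
  have n3 : 0 ≤ ∑ y ∈ Ico j₁ j, dm L 0 y * (p y * (b y j * a j)) := sum_nonneg fun y _ =>
    mul_nonneg (d0 y) (mul_nonneg (H.p0 y) (mul_nonneg (H.b0 _ _) (H.bs.a0 _)))
  have n4 : 0 ≤ ∑ x ∈ Ioc j L.length, dm L 0 x * (b j x * a x) := sum_nonneg fun y _ =>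
    mul_nonneg (d0 y) (mul_nonneg (H.b0 _ _) (H.bs.a0 _))
  have n5 := H.bs.a0 j
  rw [Row, RwE, ← hS]
  simp only [e4, mul_add (dm L 0 _ * ψ _), mul_sub (dm L 0 _ * ψ _), sum_add_distrib,
    sum_sub_distrib, mul_left_comm _ (2 : ℝ), ← mul_sum _ _ (2 : ℝ)]
  rw [← Finset.Ico_add_one_add_one_eq_Ioc] at k5 n4 ⊢
  rw [mul_assoc 10 (p j₁)] at k1
  generalize p j₁ * f j₁ = u1 at *
  generalize ∑ y ∈ Ico j₁ j, dm L 0 y * (p y * (b y j * a j)) = u3 at *
  generalize ∑ x ∈ Ico (j + 1) (L.length + 1), dm L 0 x * (b j x * a x) = u4 at *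
  have m1 := mul_le_mul_of_nonneg_right c1 (mul_nonneg hg n1)
  have m2 := mul_le_mul_of_nonneg_right c1 (mul_nonneg hg n2)
  have m3 := mul_le_mul_of_nonneg_right c1 (mul_nonneg hg S0)
  have m4 := mul_le_mul_of_nonneg_right c1 n3
  have m5 := mul_le_mul_of_nonneg_right c1 (mul_nonneg n5 S0)
  have m6 := mul_nonneg c0 (mul_nonneg hg f1)
  have m7 := mul_nonneg c0 (mul_nonneg hg f2)
  have m8 := mul_nonneg c0 (mul_nonneg n5 f2)
  have m9 := mul_nonneg c0 n4
  rw [abs_le] at k1 k2 k3 k4 k5 k6 ⊢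
  constructor <;> nlinarith [k1.1, k1.2, k2.1, k2.2, k3.1, k3.2, k4.1, k4.2, k5.1, k5.2, k6.1, k6.2]

end R38

open R38

/-- **one edge at `j`, crude in `δ_j`** -/
theorem rowBS : RowBS := fun _ L c B j₁ j c₀ g p s a ψ f b _ _ _ ip δ π P H hc R h1 hj W h0 hg hv
    hp hπ => by
  rw [nl1 hc H.btr h1 hj.le W.lw h0, nl2 hc H.btr h1 hj.le W.lw h0, abs_mul,
    abs_of_nonneg (dm_nonneg H.mono j)]
  exact ⟨rfl, (mul_le_mul_of_nonneg_left (row_bd H R h1 hj W h0 hg hv le_rfl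
    ((pi_dn H R h1 hj W hg hv hp hπ).trans_eq (by ring))) (dm_nonneg H.mono j)).trans_eq (by ring)⟩

end Crest.Agent.T156.Cas.Q21

end
end

-- ▼ part T156/CQ21O_38
section

/-!
# Row 156 (helper38): the marked word `[aU, aU]`, one edge at the marked level, crude (`OBS`)
-/

set_option autoImplicit false
set_option linter.all false

noncomputable section

namespace Crest.Agent.T156.Cas.Q21

open Finset
open Crest.Agent.T157.E Crest.Agent.T157.Casc Crest.Agent.T157.SL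
open Crest.Agent.T156.Cas.Q75
open Crest.Agent.T156.Cas.Q75.A10 (ind)
open Nu87 C40 C40.Q10 C40.N75 C40.CD I23

namespace O38

section gen
variable {Θ : Type} {L : List (Lv Θ)} {T : List (Lv Bool)} {q : Rf} {j j₁ : ℕ} {C C' : ℝ}
  {P a : ℕ → ℝ} {c : Tw}

theorem wg0 (hL : Mono 0 L) {r : ℕ} (ρ : SM r) : 0 ≤ wg L j ρ := by
  unfold wg
  split_ifs <;> linarith [dm_nonneg hL j]

theorem mk_mono (H : MkH L T q j C P a) (hL : Mono 0 L) (hC : C ≤ C') (P0 : ∀ i, 0 ≤ P i)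
    (a0 : ∀ i, 0 ≤ a i) : MkH L T q j C' P a :=
  have k : ∀ {r : ℕ} (ρ : SM r), C * wg L j ρ ≤ C' * wg L j ρ := fun ρ =>
    mul_le_mul_of_nonneg_right hC (wg0 hL ρ)
  ⟨fun r hr ρ h c d e f => (H.m0 r hr ρ h c d e f).trans (k ρ),
    fun r hr ρ h c d e f i o => (H.mp r hr ρ h c d e f i o).trans
      (mul_le_mul_of_nonneg_right (k ρ) (P0 i)),
    fun r hr ρ ρ' h h' c d e f i h1 h2 h3 => (H.m1 r hr ρ ρ' h h' c d e f i h1 h2 h3).trans
      (mul_le_mul_of_nonneg_right (k ρ) (a0 i)),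
    fun r hr ρ ρ' h h' c d e f i h1 h2 h3 i' h4 h5 h6 =>
      (H.m1p r hr ρ ρ' h h' c d e f i h1 h2 h3 i' h4 h5 h6).trans
        (mul_le_mul_of_nonneg_right (k ρ) (mul_nonneg (P0 _) (a0 i))),
    fun r hr ρ₀ ρ₁ ρ₂ ρ₃ h0 h1 h2 h3 c d e f i i' b1 b2 b3 b4 b5 b6 b7 =>
      (H.m2 r hr ρ₀ ρ₁ ρ₂ ρ₃ h0 h1 h2 h3 c d e f i i' b1 b2 b3 b4 b5 b6 b7).trans
        (mul_le_mul_of_nonneg_right (k ρ₀) (mul_nonneg (a0 _) (a0 _)))⟩

theorem row_mono (H : RowR L c j₁ j C P a) (hC : C ≤ C') : RowR L c j₁ j C' P a :=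
  ⟨H.dn0, H.dn1, fun x t h1 h2 h3 h4 => (H.up0 x t h1 h2 h3 h4).trans hC, H.up1, H.upp,
    fun z k h1 h2 h3 => (H.of0 z k h1 h2 h3).trans hC, H.of1⟩

end gen

variable {D : CD} {τ0 : ℝ} (h : D.Ok τ0)
include h

theorem ip_del {j : ℕ} (hj : j ≤ D.K) :
    Base53.ipE wt_one90 D.B 0 (Base53.dV D.B (Q33.sl D.n) wt_one90 D.rb j)
      (Base53.dV D.B (Q33.sl D.n) wt_one90 D.rb j) ≤ √(D.u 2 j) ^ 2 := by
  have b1 := Base53.bs D.B (Q33.sl D.n) wt_one90 0 D.rb
  have hj' := hj.trans_eq D.B_len.symm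
  have b2 := (Base53.sn_bds D.B (Q33.sl D.n) wt_one90 0 D.rb (x := j) (t := j) (t' := j) le_rfl
    (by omega) le_rfl (by omega) hj').1
  have b3 := b1.lo1 j j j le_rfl le_rfl hj'
  rw [b1.pi0, map_zero, add_zero, Tw.lo, if_neg (by omega), min_self] at b3
  rw [Tw.sN, Tw.sN, if_neg (show j ≠ D.B.length + 1 by omega),
    if_neg (show j ≠ D.B.length + 1 by omega), b3, uK_eq h] at b2
  have b4 := var_eq D hj'
  rw [Tw.sN, Bt] at b4
  rw [Real.sq_sqrt (D.u0 2 j)]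
  linarith [sq_nonneg (D.del j)]

theorem v_anti {y t : ℕ} (hy : y ≤ t) : D.v y t ≤ D.v y y := by
  simpa only [vt_eq h] using Base53.vt_anti D.B (Q33.sl D.n) wt_one90 0 le_rfl hy

/-- the weak martingale bound for perturbed weights -/
theorem pi_pert (HP : PiS) {L : List (Lv (Cube D.n))} {j : ℕ} {ε : ℝ} (H : Pert D.B L j ε)
    (h0 : 0 ≤ ε) (h1 : ε ≤ 1) (m t : ℕ) (θ : ℕ → ℝ) (hm : D.J + 1 ≤ m) (ht : t ≤ L.length)
    (hθ : ∀ y, |θ y| ≤ 1) (hj : θ j = 0) :
    Base53.ipE wt_one90 D.B 0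
      (∑ y ∈ Icc m t, (dm L 0 y * θ y) • Base53.pV D.B (Q33.sl D.n) wt_one90 y t)
      (∑ y ∈ Icc m t, (dm L 0 y * θ y) • Base53.pV D.B (Q33.sl D.n) wt_one90 y t) ≤
      (2 * fz D D.f0 m) ^ 2 := by
  have e : ∀ x, dm L 0 x * θ x = D.dx x * ((1 - ε) * θ x) := fun x => by
    by_cases c : x = j
    · rw [c, hj]; ring
    · rw [dm_off H c]; ring
  simp only [e]
  exact HP τ0 D h m t _ hm (ht.trans_eq (H.len.trans D.B_len)) fun x => by
    rw [abs_mul, abs_of_nonneg (by linarith)]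
    exact mul_le_one₀ (by linarith) (abs_nonneg _) (hθ x)

theorem lad_dn {L : List (Lv (Cube D.n))} {j : ℕ} {ε : ℝ} (H : Pert D.B L j ε) (h0 : 0 ≤ ε)
    (hj : j ∈ D.up) : ∑ y ∈ Ico (D.J + 1) j, dm L 0 y * (Pm D y * (√(D.v y j) * av D j)) ≤
      D.e j * D.v j j + ∑ y ∈ Finset.Ico 1 j, D.dx y * D.v y j := by
  have m := mem_up.1 hj
  have ev := mul_nonneg (h.e0 j) (D.v0 j j)
  refine (sum_le_sum (g := fun y => D.dx y * (D.e j * D.v j j) + D.dx y * D.v y j)
    fun y hy => ?_).trans ?_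
  · have hy' := mem_Ico.1 hy
    have p0 := Pm0 h y
    have p1 := (Pm_mem h y).2
    have p2 := (Pm_le h (mem_up.2 ⟨hy'.1, by omega⟩)).trans
      (mul_le_mul_of_nonneg_left (h.e_mono hy'.2.le) zero_le_two)
    have s1 := Real.sq_sqrt (D.v0 y j)
    have s2 : av D j ^ 2 = D.v j j := Real.sq_sqrt (D.v0 j j)
    have s3 : Pm D y ^ 2 * D.v j j ≤ 2 * D.e j * D.v j j :=
      mul_le_mul_of_nonneg_right (by nlinarith) (D.v0 j j)
    rw [← mul_add]
    refine mul_le_mul (dm_le H h.mono h0 hy'.2.ne) ?_ (mul_nonneg p0 (mul_nonneg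
      (Real.sqrt_nonneg _) (Real.sqrt_nonneg _))) (h.dx0 y)
    rw [← s2] at s3 ⊢
    nlinarith [sq_nonneg (Pm D y * av D j - √(D.v y j)), D.v0 y j]
  · rw [sum_add_distrib, ← sum_mul]
    exact add_le_add (mul_le_of_le_one_left ev (h.sum_dx_one fun i hi => by
      have := mem_Ico.1 hi; omega)) (sum_le_sum_of_subset_of_nonneg
        (Ico_subset_Ico_left (by omega)) fun i _ _ => mul_nonneg (h.dx0 i) (D.v0 _ _))

theorem lad_up {L : List (Lv (Cube D.n))} {j : ℕ} {ε : ℝ} (H : Pert D.B L j ε) (h0 : 0 ≤ ε)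
    (hj : j < D.K) : ∑ x ∈ Ioc j D.K, dm L 0 x * (√(D.v j x) * av D x) ≤
      av D j * D.hi (av D) j := by
  refine (sum_le_sum (g := fun x => av D j * (D.dx x * av D x)) fun x hx => ?_).trans_eq ?_
  · have hx' := mem_Ioc.1 hx
    rw [mul_left_comm (av D j)]
    exact mul_le_mul (dm_le H h.mono h0 hx'.1.ne') (mul_le_mul_of_nonneg_right
      (Real.sqrt_le_sqrt (v_anti h hx'.1.le)) (Real.sqrt_nonneg _))
      (mul_nonneg (Real.sqrt_nonneg _) (Real.sqrt_nonneg _)) (h.dx0 x)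
  · rw [← mul_sum, ← Ioo_insert_right hj, sum_insert (by simp), h.top, zero_mul, zero_add, CD.hi]

end O38

open O38

/-- **one edge at `j`, crude** -/
theorem obS_of (HS : SwapS) (HM : MkS) (HR : RowRS) (HP : PiS) : OBS := fun τ0 => by
  obtain ⟨C, C1, HM⟩ := HM
  have κ1 := cP0_one
  obtain ⟨C', C1', HR⟩ := HR (C + cP0 + 1) (by linarith)
  have A1 : 1 ≤ C' * cP0 := one_le_mul_of_one_le_of_one_le C1' κ1
  have c1 : C' ≤ C' * (C + cP0 + 1) := le_mul_of_one_le_right (by linarith) (by linarith)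
  refine ⟨200 * (C' * (C + cP0 + 1)) * (4 * (C' * cP0)), by positivity, fun D h j hj => ?_⟩
  have m := mem_up.1 hj
  set F := ∑ i ∈ Ico (D.J + 1) D.K, fz D D.f0 (i + 1) with hF
  have key := lim2 h m.2.le (Rq D) (ind j) (nu D j) (nu D j) (ind j) 1
    (G := fun ε => 200 * (C' * (C + cP0 + 1)) * (4 * (C' * cP0) *
      (√(D.u 2 j) * (D.f0 j + D.sv D.f0 D.J) + Rw D j) + ε * (C' * F * (√(D.u 2 j) + av D j))))
    (by fun_prop) fun L ε e0 e1 H => ?_
  · simpa only [one_mul, zero_mul, add_zero, mul_assoc] using key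
  have hL : L.length = D.K := H.len.trans D.B_len
  have q1 := h.ook.mem m.2.le
  have P0 : ∀ i, cP0 * Pm D i ≤ cP0 * Pm D i + if j ≤ i then D.q j else 0 := fun i => by
    split_ifs <;> linarith [q1.1]
  have P1 : ∀ i, Pm D i ≤ cP0 * Pm D i := fun i => le_mul_of_one_le_left (Pm0 h i) κ1
  have P2 : ∀ i, 0 ≤ cP0 * Pm D i + (if j ≤ i then D.q j else 0) ∧
      cP0 * Pm D i + (if j ≤ i then D.q j else 0) ≤ C + cP0 + 1 := fun i =>
    ⟨(Pm0 h i).trans ((P1 i).trans (P0 i)), by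
      have := mul_le_of_le_one_right (zero_le_one.trans κ1) (Pm_mem h i).2
      split_ifs <;> linarith [q1.2]⟩
  have a1 : ∀ i, aa D i + ε ≤ cP0 * aa D i + ε := fun i => by
    linarith [le_mul_of_one_le_left (aa0 h i) κ1]
  have a0 : ∀ i, 0 ≤ cP0 * aa D i + ε := fun i => by linarith [a1 i, aa0 h i]
  have R := row_mono (HR _ L D.S (Rq D) (fun i => cP0 * Pm D i + if j ≤ i then D.q j else 0)
    (fun i => cP0 * aa D i + ε) j (D.J + 1) H.mono (m.2.trans_eq hL.symm)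
    (mk_mono (mk_cd h HM hL H.mono m.2
      (fun i => ⟨P0 i, fun e => by rw [if_pos e]; linarith [Pm0 h i, P1 i]⟩)
      fun i _ => by linarith [a1 i]) H.mono (by linarith) (fun i => (P2 i).1) a0) P2
    (by
      have := P0 L.length
      rw [Pm, if_neg (fun e => by have := mem_up.1 e; omega)] at this ⊢
      linarith) a0 fun i hi => by linarith [aa_bad h H e0.le i hi, a1 i]).1 c1
  have s1 : ∀ i, cP0 * aa D i + ε ≤
      C' * (cP0 * aa D i + ε + if i + 1 = L.length then 1 else 0) := fun i => by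
    have : cP0 * aa D i + ε ≤ cP0 * aa D i + ε + if i + 1 = L.length then 1 else 0 := by
      split_ifs <;> linarith
    exact this.trans (le_mul_of_one_le_left ((a0 i).trans this) C1')
  have BH := bh_cd h hL H.mono (C1'.trans c1)
    (p := fun i => C' * (cP0 * Pm D i + if j ≤ i then D.q j else 0))
    (s := fun i => C' * (cP0 * aa D i + ε + if i + 1 = L.length then 1 else 0))
    (fun y => mul_le_mul_of_nonneg_left (P2 y).2 (by linarith))
    (fun y => mul_nonneg (by linarith) (P2 y).1)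
    (fun i => by linarith [dm_le' H h.mono e0.le i, aa_dx h i, h.dx0 (i + 1), a1 i, s1 i])
    ((low_le h H e0.le m.1).trans ((Pm_mem h _).1.trans ((P1 _).trans ((P0 _).trans
      (le_mul_of_one_le_left (P2 _).1 C1')))))
  obtain ⟨k1, k2⟩ := rowBS _ L _ _ _ j _ _ _ _ _ _ _ _ _ _ _ _ _ BH (cM_sy HS hL (Rq D) m.2.le).2 R
    m.1 (m.2.trans_eq hL.symm) (wf_cd h H e0.le (by linarith) (nu_abs D j) (nu_low D j)
      (nu_self D j)) (nu_self D j) (Real.sqrt_nonneg _) (ip_del h m.2.le)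
    (fun y b1 b2 => by
      obtain ⟨d1, d2⟩ := Pm_step h b1 (show y + 1 < D.K by omega)
      have d3 := mul_le_mul_of_nonneg_left d1 (zero_le_one.trans A1)
      have d4 := mul_le_mul_of_nonneg_left d2 (zero_le_one.trans A1)
      have d5 := mul_nonneg (zero_le_one.trans C1') e0.le
      simp only [if_neg (show ¬ j ≤ y by omega), if_neg (show ¬ j ≤ y + 1 by omega),
        if_neg (show ¬ y + 1 = L.length by omega)]
      constructor <;> linarith)
    (pi_pert h HP H e0.le (by linarith))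
  have z : ∀ x, ind j x * nu D j x = 0 := fun x => by
    unfold ind nu nj; split_ifs <;> simp
  rw [Tj_eq HS hL _ m.2.le, Tj_eq HS hL _ m.2.le, k1, sum_eq_zero fun x _ => by rw [z, zero_mul],
    sum_eq_zero fun x _ => by rw [mul_comm (nu D j x), z, zero_mul], add_zero, one_mul, ← two_mul,
    abs_mul, abs_two]
  have sv0 := h.sv0 h.f00 D.J
  have b1 : C' * (cP0 * Pm D (D.J + 1) + if j ≤ D.J + 1 then D.q j else 0) * fz D D.f0 (D.J + 1) ≤
      3 * (C' * cP0) * D.sv D.f0 D.J := by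
    have u : D.J + 1 ∈ D.up := mem_up.2 (by omega)
    have d1 : D.e (D.J + 1) * D.f0 (D.J + 1) ≤ D.sv D.f0 D.J := by
      have := single_le_sum (f := fun t => D.dv t * D.f0 t)
        (fun t ht => mul_nonneg (h.dv0 (mem_Ioo.1 ht).2.le) (h.f00 t)) u
      rwa [CD.dv, if_pos le_rfl] at this
    have d2 : (if j ≤ D.J + 1 then D.q j else 0) ≤ cP0 * D.e (D.J + 1) := by
      refine le_trans ?_ (le_mul_of_one_le_left (h.e0 _) κ1)
      split_ifs with e
      exacts [(h.qe j hj).trans (h.e_mono e), h.e0 _]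
    have d3 := mul_le_mul_of_nonneg_left (Pm_le h u) (zero_le_one.trans κ1)
    have d4 := mul_le_mul_of_nonneg_left (show cP0 * Pm D (D.J + 1) +
      (if j ≤ D.J + 1 then D.q j else 0) ≤ 3 * cP0 * D.e (D.J + 1) by linarith)
      (zero_le_one.trans C1')
    refine (mul_le_mul d4 (fz_le h _) (fz0 h _) (mul_nonneg (by linarith)
      (mul_nonneg (by linarith) (h.e0 _)))).trans ?_
    linarith [mul_le_mul_of_nonneg_left d1 (zero_le_one.trans A1)]
  have b2 : ∑ i ∈ Ico (D.J + 1) L.length, C' * (cP0 * aa D i + ε +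
      if i + 1 = L.length then 1 else 0) * fz D D.f0 (i + 1) ≤
      C' * cP0 * D.sv D.f0 D.J + ε * (C' * F) := by
    rw [hL, sum_congr rfl (g := fun i => C' * cP0 * (aa D i * fz D D.f0 (i + 1)) +
      ε * (C' * fz D D.f0 (i + 1))) fun i _ => by
        split_ifs with e
        · rw [e, fz, if_neg (lt_irrefl _)]; ring
        · ring, sum_add_distrib, ← mul_sum, ← mul_sum, ← mul_sum]
    linarith [mul_le_mul_of_nonneg_left (sum_aa h h.f00) (zero_le_one.trans A1)]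
  have b3 := fz_le h j
  have b4 := (fz_le h (j + 1)).trans (h.wk0.anti j).2
  have b5 : ∑ y ∈ Ico (D.J + 1) j, dm L 0 y * (C' * (cP0 * Pm D y + if j ≤ y then D.q j else 0) *
      (√(D.v y j) * av D j)) ≤
      C' * cP0 * (D.e j * D.v j j + ∑ y ∈ Finset.Ico 1 j, D.dx y * D.v y j) := by
    refine le_of_eq_of_le ?_ (mul_le_mul_of_nonneg_left (lad_dn h H e0.le hj)
      (zero_le_one.trans A1))
    rw [mul_sum]
    exact sum_congr rfl fun y hy => by rw [if_neg (mem_Ico.1 hy).2.not_ge]; ring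
  have b6 := lad_up h H e0.le m.2
  have n1 : 0 ≤ D.e j * D.v j j + ∑ y ∈ Finset.Ico 1 j, D.dx y * D.v y j :=
    add_nonneg (mul_nonneg (h.e0 j) (D.v0 j j))
      (sum_nonneg fun y _ => mul_nonneg (h.dx0 y) (D.v0 _ _))
  have n2 := h.hi0 (a := av D) (fun _ => Real.sqrt_nonneg _) j
  have n3 := h.f00 j
  have g0 := Real.sqrt_nonneg (D.u 2 j)
  have v0 : 0 ≤ av D j := Real.sqrt_nonneg _
  refine (mul_le_mul_of_nonneg_left k2 zero_le_two).trans ?_
  rw [← mul_assoc, ← mul_assoc (dm L 0 j), show 2 * (100 * (C' * (C + cP0 + 1)) * dm L 0 j) =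
    dm L 0 j * (200 * (C' * (C + cP0 + 1))) by ring]
  refine mul_le_mul_of_nonneg_left ?_ (mul_nonneg (dm_nonneg H.mono j) (by positivity))
  · rw [RwE, Rw, hL]
    rw [hL] at b2
    generalize D.e j * D.v j j + ∑ y ∈ Finset.Ico 1 j, D.dx y * D.v y j = w at *
    generalize C' * cP0 = A at *
    have t1 := mul_le_mul_of_nonneg_left (add_le_add (add_le_add (add_le_add b1 b2) b3) b4) g0
    have t2 := mul_le_mul_of_nonneg_left (add_le_add b4 b2) v0
    have t3 := mul_le_mul_of_nonneg_right A1 (mul_nonneg g0 n3)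
    have t4 := mul_le_mul_of_nonneg_right A1 (mul_nonneg v0 n3)
    have t5 := mul_le_mul_of_nonneg_right A1 (mul_nonneg v0 n2)
    have t6 := mul_nonneg (zero_le_one.trans A1) (mul_nonneg v0 sv0)
    have t7 := mul_nonneg (zero_le_one.trans A1) n1
    have t8 := mul_nonneg g0 n3
    have t9 := mul_nonneg v0 n3
    have t10 := mul_nonneg v0 n2
    linarith

end Crest.Agent.T156.Cas.Q21

end
end

-- ▼ part T156/CQ21A_4
section

/-!
# Row 156 (helper4): the word `[aU, aU]`, test direction, one edge at the marked level, density form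
-/

set_option autoImplicit false
set_option linter.all false

noncomputable section

namespace Crest.Agent.T156.Cas.Q21.A4

open Finset
open Crest.Agent.T157.E Crest.Agent.T157.Casc Crest.Agent.T157.SL
open Crest.Agent.T157.G1 (ov)
open Crest.Agent.T156.Cas.Q75
open Crest.Agent.T156.Cas.Q75.A10
open Nu87 Wt87

section gen
variable {Θ : Type} {L : List (Lv Θ)}

theorem wg0 (hL : Mono 0 L) (j : ℕ) {r : ℕ} (ρ : SM r) : 0 ≤ wg L j ρ := by
  unfold wg
  have := dm_nonneg hL j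
  split_ifs <;> linarith

theorem mkH_mono {T : List (Lv Bool)} {q : Rf} {j : ℕ} {C C' : ℝ} {P a a' : ℕ → ℝ} (hL : Mono 0 L)
    (H : MkH L T q j C P a) (hC : C ≤ C') (hP : ∀ i, 0 ≤ P i) (ha : ∀ i, 0 ≤ a' i)
    (e : ∀ i, ¬ Bad j L.length i → a i = a' i) : MkH L T q j C' P a' := by
  have k : ∀ {r : ℕ} (ρ : SM r) {x : ℝ}, 0 ≤ x → C * wg L j ρ * x ≤ C' * wg L j ρ * x :=
    fun ρ x hx => mul_le_mul_of_nonneg_right (mul_le_mul_of_nonneg_right hC (wg0 hL j ρ)) hx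
  refine ⟨fun r hr ρ h c d e f => (H.m0 r hr ρ h c d e f).trans
      (mul_le_mul_of_nonneg_right hC (wg0 hL j ρ)),
    fun r hr ρ h c d e f i hi => (H.mp r hr ρ h c d e f i hi).trans (k ρ (hP i)),
    fun r hr ρ ρ' h h' c d e' f i hi hb hm => ?_,
    fun r hr ρ ρ' h h' c d e' f i hi hb hm i' hi' o o' => ?_,
    fun r hr ρ₀ ρ₁ ρ₂ ρ₃ h0 h1 h2 h3 c d e' f i i' hi hi' hb hb' m m' hs => ?_⟩
  · have := H.m1 r hr ρ ρ' h h' c d e' f i hi hb hm
    rw [e i hb] at this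
    exact this.trans (k ρ (ha i))
  · have := H.m1p r hr ρ ρ' h h' c d e' f i hi hb hm i' hi' o o'
    rw [e i hb] at this
    exact this.trans (k ρ (mul_nonneg (hP i') (ha i)))
  · have := H.m2 r hr ρ₀ ρ₁ ρ₂ ρ₃ h0 h1 h2 h3 c d e' f i i' hi hi' hb hb' m m' hs
    rw [e i hb, e i' hb'] at this
    exact this.trans (k ρ₀ (mul_nonneg (ha i) (ha i')))

theorem rowR_mono {T : Tw} {j₁ j : ℕ} {c₀ c₁ : ℝ} {p s : ℕ → ℝ} (H : RowR L T j₁ j c₀ p s)
    (h : c₀ ≤ c₁) : RowR L T j₁ j c₁ p s :=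
  ⟨H.dn0, H.dn1, fun x t a b c d => (H.up0 x t a b c d).trans h, H.up1, H.upp,
    fun z k a b c => (H.of0 z k a b c).trans h, H.of1⟩

theorem off_comm {T : Tw} {K z x k : ℕ} (H : T.tr.Eqv T K) (h1 : z ≤ x) (h2 : x ≤ K) (h3 : z ≤ k)
    (h4 : k ≤ K) : T.off K z k x = T.off K z x k := by
  rw [Tw.off, Tw.off, ← H.2.2 _ (rz_off h2 h1 h3 h4)]
  simp only [Tw.tr, m4_tr]

/-- the two weights may be exchanged -/
theorem NL_swap {c B : Tw} (hc : c.tr.Eqv c L.length) (hB : B.tr.Eqv B L.length) (φ ψ : ℕ → ℝ) :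
    NL L (((wt ψ φ).mul c).mul B) = NL L (((wt φ ψ).mul c).mul B) := by
  rw [NL_eq (j₁ := 0) hc hB (by simp) (by simp), NL_eq (j₁ := 0) hc hB (by simp) (by simp)]
  congr 1
  · simp only [sum_Ico_succ_top (Nat.zero_le _) (f := fun y => dm L 0 _ * _ * (dm L 0 y * _) * _),
      ← sum_add_distrib]
    refine sum_congr rfl fun x _ => ?_
    rw [add_right_comm, add_right_comm _ (_ * _), ← sum_add_distrib, ← sum_add_distrib]
    congr 1
    · exact sum_congr rfl fun y _ => by ring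
    · ring
  · refine sum_congr rfl fun z _ => ?_
    rw [sum_comm]
    refine congrArg _ (sum_congr rfl fun x hx => sum_congr rfl fun k hk => ?_)
    have := mem_Ico.1 hx
    have := mem_Ico.1 hk
    rw [off_comm hc (x := x) (k := k) (by omega) (by omega) (by omega) (by omega),
      off_comm hB (x := x) (k := k) (by omega) (by omega) (by omega) (by omega)]
    ring

theorem Tm_zero (T : List (Lv Bool)) (q : Rf) (j : ℕ) {Ω : Type} [Fintype Ω] [Fintype Θ]
    (w : Ω → ℝ) (B : List (Lv Ω)) (h : Ω → ℝ) (U : ℕ → Ω → Ω → ℝ) :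
    Tm L T q j w B h U (fun _ _ => 0) = 0 := by
  simp only [Tm, E91.D2, zero_mul, avc_const, mul_zero, sum_const_zero]

end gen

open C40 C40.Q10 C40.N75 C40.CD
open Q33 (sl)

variable {D : CD} {τ0 : ℝ}

/-- no local part: the word is the non-local part -/
theorem Tj_NL (HS : SwapS) (q : Rf) {j : ℕ} (hj : j ≤ D.K) {φ ψ : ℕ → ℝ} (e : ∀ x, φ x * ψ x = 0) :
    D.dx j * Tj D D.B q j φ ψ = NL D.B (((wt φ ψ).mul (cM D.B D.S q j)).mul (Bt D)) := by
  obtain ⟨h1, h2, _⟩ := HS _ D.B D.S q j _ (fun _ => 1) D.B 0 (oU D.rb) (fun x y => φ x * ψ y)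
    wt_one90 (Q10.S_len D) rfl (hj.trans_eq D.B_len.symm) fun i x y => by rw [oU, oU, ov_comm]
  have e0 : (fun x y => if x = y then φ x * ψ x * (D.u 2 x - D.del x ^ 2) else 0) =
      fun _ _ : ℕ => (0 : ℝ) := by
    funext x y; rw [e x, zero_mul, ite_self]
  rw [Tj, e0, Tm_zero, sub_zero]
  refine h1.trans ?_
  show 2 * Ful D.B (((wt φ ψ).mul (cM D.B D.S q j)).mul (Bt D)) = _
  rw [Ful_exp _ (Sy_mul (Sy_mul (Sy_wt _ _) h2) (Sy_Bt D)), Q75.Sm, sum_eq_zero fun x hx => by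
    rw [mul_assoc', SN_wt _ _ (Nat.lt_succ_iff.1 (mem_range.1 hx)), e x, zero_mul, mul_zero]]
  ring

/-- the raw step -/
def a0 (D : CD) (i : ℕ) : ℝ := |SF97.vv D.S i| + |(Rq D).2.1 (i + 1) - (Rq D).2.1 i| +
  |(Rq D).2.2 (i + 1) - (Rq D).2.2 i| + (D.dx i + D.dx (i + 1))

/-- the step, cut at the top -/
def a1 (D : CD) (i : ℕ) : ℝ := if i + 1 = D.K then 0 else a0 D i

/-- the parity constant -/
def A : ℝ := 1600 * Real.exp (3 / 2)

theorem one_le_A : 1 ≤ A := by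
  unfold A; nlinarith [Real.one_le_exp (show (0 : ℝ) ≤ 3 / 2 by norm_num)]

section ok
variable (h : D.Ok τ0)
include h

theorem a00 (i : ℕ) : 0 ≤ a0 D i := by
  have := h.dx0 i; have := h.dx0 (i + 1); unfold a0; positivity

theorem a10 (i : ℕ) : 0 ≤ a1 D i := by
  unfold a1; split_ifs; exacts [le_rfl, a00 h i]

theorem par10 (y : ℕ) {ε : ℝ} (hε : 0 < ε) : ∃ σ, 0 < σ ∧ Ker15.tm D.S y ≤ σ ∧
    min 1 (Ker15.PB 10 σ) ≤ A * mm D y + ε := by
  have e1 := one_le_A
  rcases le_or_gt 1 (mm D y) with h1 | h1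
  · exact ⟨|Ker15.tm D.S y| + 1, by positivity, (le_abs_self _).trans (by linarith),
      (min_le_left _ _).trans (by nlinarith)⟩
  have hy : y ∈ D.up := by by_contra hy; rw [mm, if_neg hy] at h1; exact h1.false
  have h2 : D.e y < 1 := by
    rw [mm, if_pos hy] at h1
    exact (min_lt_iff.1 h1).resolve_left (lt_irrefl _)
  have h3 : D.sig y ≤ D.e y := by
    have := (min_le_iff.1 (h.esc y hy)).resolve_left h2.not_ge
    linarith [h.ex0 y]
  have hε' : 0 < ε / A := div_pos hε (by linarith)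
  have h0 : 0 < min 1 (D.e y + ε / A) := lt_min one_pos (by linarith [h.e0 y])
  refine ⟨_, h0, ?_, (min_le_right _ _).trans ?_⟩
  · rw [tm_eq h (mem_up.1 hy).2.le]
    exact le_min (by linarith) (by linarith)
  · have h4 : Real.exp (1 / 2 + √(min 1 (D.e y + ε / A))) ≤ Real.exp (3 / 2) :=
      Real.exp_le_exp.2 (by linarith [Real.sqrt_le_one.2 (min_le_left 1 (D.e y + ε / A))])
    have h5 := mul_le_mul h4 (min_le_right 1 (D.e y + ε / A)) h0.le (Real.exp_pos _).le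
    have h6 : A * D.e y + ε = A * (D.e y + ε / A) := by field_simp
    rw [mm, if_pos hy, min_eq_right h2.le, Ker15.PB, h6]
    generalize D.e y + ε / A = u at *
    unfold A
    push_cast
    nlinarith

theorem q_mm {i j : ℕ} (hj : j ≤ D.K) (hi : j ≤ i) : 0 ≤ D.q j ∧ D.q j ≤ mm D i := by
  have m := h.ook.mem hj
  refine ⟨m.1, ?_⟩
  unfold mm
  split_ifs with c
  · refine le_min m.2 ?_
    rcases le_or_gt j D.J with e | e
    · rw [h.qlo j e]; exact h.e0 i
    · exact (h.qe j (mem_up.2 ⟨e, hi.trans_lt (mem_up.1 c).2⟩)).trans (h.e_mono hi)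
  · exact m.2

theorem al_mem (i : ℕ) : 0 ≤ (Rq D).2.1 i ∧ (Rq D).2.1 i ≤ 1 := by
  have t0 := (h.tau_mem D.K).1
  exact ⟨div_nonneg (h.tau_mem _).1 (by linarith),
    (div_le_one (by linarith)).2 ((h.tau_mono (min_le_right i D.K)).trans (by linarith))⟩

theorem be_le {i' i : ℕ} (hi : i' ≤ i) : |(Rq D).2.2 i'| ≤ mm D i := by
  have m := q_mm h (min_le_right i' D.K) ((min_le_left i' D.K).trans hi)
  have a := al_mem h i'
  have e : (Rq D).2.2 i' = (Rq D).2.1 i' * D.q (min i' D.K) := by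
    show _ * _ / _ = _ / _ * _
    ring
  rw [e, abs_of_nonneg (mul_nonneg a.1 m.1)]
  exact (mul_le_of_le_one_left m.1 a.2).trans m.2

theorem mkH {C : ℝ} (H : ∀ (Θ : Type) [Fintype Θ] (L : List (Lv Θ)) (T : List (Lv Bool))
    (q : Rf) (P a : ℕ → ℝ) (j : ℕ), T.length = L.length → Mono 0 L → Ker15.R1 T → Mono 0 T →
    |q.1 j| ≤ 1 → (∀ i, 0 ≤ q.2.1 i ∧ q.2.1 i ≤ 1 ∧ |q.2.2 i| ≤ 1) → j < L.length →
    (∀ i, (∀ ε > 0, ∃ s, 0 < s ∧ Ker15.tm T i ≤ s ∧ min 1 (Ker15.PB 10 s) ≤ P i + ε) ∧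
      (∀ i' ≤ i, |q.2.2 i'| ≤ P i) ∧ (j ≤ i → |q.1 j| ≤ P i)) →
    (∀ i < L.length, SF97.vv T i ≤ a i ∧ |q.2.1 (i + 1) - q.2.1 i| ≤ a i ∧
      |q.2.2 (i + 1) - q.2.2 i| ≤ a i) → MkH L T q j C P a) {j : ℕ} (hj : j < D.K) :
    MkH D.B D.S (Rq D) j (max C A) (fun i => A * mm D i) (a1 D) := by
  have m := mm_mem h
  have m0 : ∀ i, 0 ≤ mm D i := fun i => h.X0.trans (m i).1
  have mA : ∀ i, mm D i ≤ A * mm D i := fun i => le_mul_of_one_le_left (m0 i) one_le_A
  refine mkH_mono h.mono (H _ D.B D.S (Rq D) _ (a0 D) j (Q10.S_len D) h.mono (r1 h) (mS h) ?_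
    (fun i => ⟨(al_mem h i).1, (al_mem h i).2, (be_le h le_rfl).trans (m i).2⟩)
    (hj.trans_eq D.B_len.symm) (fun i => ⟨fun ε hε => par10 h i hε,
      fun i' hi => (be_le h hi).trans (mA i), fun hi => ?_⟩) fun i _ => ?_) (le_max_left _ _)
    (fun i => (m0 i).trans (mA i)) (a10 h) fun i hb => ?_
  · have := q_mm h hj.le le_rfl
    exact (abs_of_nonneg this.1).trans_le (this.2.trans (m j).2)
  · have := q_mm h hj.le hi
    exact (abs_of_nonneg this.1).trans_le (this.2.trans (mA i))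
  · have := h.dx0 i; have := h.dx0 (i + 1)
    have := le_abs_self (SF97.vv D.S i)
    have := abs_nonneg (SF97.vv D.S i)
    have := abs_nonneg ((Rq D).2.1 (i + 1) - (Rq D).2.1 i)
    have := abs_nonneg ((Rq D).2.2 (i + 1) - (Rq D).2.2 i)
    unfold a0
    exact ⟨by linarith, by linarith, by linarith⟩
  · rw [a1, if_neg fun e => hb (Or.inr (Or.inr (e.trans D.B_len.symm)))]

theorem a0_le {i : ℕ} (h1 : D.J < i) (h2 : i < D.K) : a0 D i ≤ 2 * D.dv (i + 1) := by
  have t0 := (h.tau_mem D.K).1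
  have h4 := h.tau_mono i.le_succ
  have h5 := h.sig_le i.le_succ h2
  have h6 := h.fAcc_mono i.le_succ
  have h7 : D.τ i * D.q i ≤ D.τ (i + 1) * D.q (i + 1) :=
    mul_le_mul h4 (h.ook.le i.le_succ h2) (h.ook.mem h2.le).1 (h.tau_mem _).1
  have k : ∀ {x y : ℝ}, x ≤ y → |y / (1 + D.τ D.K) - x / (1 + D.τ D.K)| ≤ y - x := fun {x y} e => by
    rw [← sub_div, abs_of_nonneg (div_nonneg (sub_nonneg.2 e) (by linarith))]
    exact div_le_self (sub_nonneg.2 e) (by linarith)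
  have e1 : |(Rq D).2.1 (i + 1) - (Rq D).2.1 i| ≤ D.τ (i + 1) - D.τ i := by
    simp only [Rq, min_eq_left h2.le, min_eq_left (Nat.succ_le_of_lt h2)]
    exact k h4
  have e2 : |(Rq D).2.2 (i + 1) - (Rq D).2.2 i| ≤ D.τ (i + 1) * D.q (i + 1) - D.τ i * D.q i := by
    simp only [Rq, min_eq_left h2.le, min_eq_left (Nat.succ_le_of_lt h2)]
    exact k h7
  rw [a0, SF97.vv, tm_eq h h2, tm_eq h h2.le, abs_of_nonneg (sub_nonneg.2 h5), CD.dv,
    if_neg (by omega), Nat.add_sub_cancel]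
  have := h.dx0 i; have := h.dx0 (i + 1)
  simp only [CD.sig] at *
  linarith

theorem sum_a1 {g : ℕ → ℝ} (hg : ∀ y, 0 ≤ g y) :
    ∑ i ∈ Ico (D.J + 1) D.K, a1 D i * g (i + 1) ≤ 2 * D.sv g D.J := by
  have h1 : ∑ i ∈ Ico (D.J + 1) D.K, D.dv (i + 1) * fz D g (i + 1) ≤ D.sv g D.J := by
    rw [sum_Ico_add' (fun j => D.dv j * fz D g j)]
    simp only [fz, mul_ite, mul_zero]
    rw [← sum_filter]
    refine sum_le_sum_of_subset_of_nonneg (fun j hj => ?_)
      fun j hj _ => mul_nonneg (h.dv0 (mem_Ioo.1 hj).2.le) (hg j)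
    simp only [mem_filter, mem_Ico, mem_Ioo] at hj ⊢
    omega
  refine le_trans ?_ (mul_le_mul_of_nonneg_left h1 zero_le_two)
  rw [mul_sum]
  refine sum_le_sum fun i hi => ?_
  have m := mem_Ico.1 hi
  unfold a1 fz
  by_cases e : i + 1 = D.K
  · rw [if_pos e, if_neg (by omega), zero_mul, mul_zero, mul_zero]
  · rw [if_neg e, if_pos (by omega), ← mul_assoc]
    exact mul_le_mul_of_nonneg_right (a0_le h m.1 m.2) (hg _)

theorem fz0 (y : ℕ) : 0 ≤ fz D D.f0 y := by unfold fz; split_ifs; exacts [h.f00 _, le_rfl]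

theorem fz_le (y : ℕ) : fz D D.f0 y ≤ D.f0 y := by unfold fz; split_ifs; exacts [le_rfl, h.f00 _]

theorem fz_anti (y : ℕ) : fz D D.f0 (y + 1) ≤ fz D D.f0 y := by
  unfold fz
  split_ifs with a b
  exacts [(h.wk0.anti y).2, by omega, h.f00 _, le_rfl]

theorem ip_nd (c : ℕ → ℝ) (S : Finset ℕ) : Base53.ipE wt_one90 D.B 0
    (∑ x ∈ S, c x • Base53.dV D.B (sl D.n) wt_one90 D.rb x)
    (∑ x ∈ S, c x • Base53.dV D.B (sl D.n) wt_one90 D.rb x) =
    pE (fun _ => 1) D.B 0 fun p _ => (∑ t ∈ S, c t * (D.nd t p - D.del t)) ^ 2 := by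
  rw [Base53.ip_sum_pE]
  simp only [CD.nd, CD.del, ← uK_eq h, Base53.qf_uK D.B (sl D.n) wt_one90, sub_sub_sub_cancel_right]

theorem wf1 : Wf D.B (D.J + 1) (Base53.ipE wt_one90 D.B 0) (Base53.dV D.B (sl D.n) wt_one90 D.rb)
    (fun x => if D.J < x then 1 else 0) (fz D D.f0) := by
  refine ⟨fun x => by split_ifs <;> simp, fun x hx => if_neg (by omega), fz0 h, fun y hy => ?_⟩
  rw [D.B_len]
  rcases le_or_gt D.K y with hK | hK
  · rw [sum_eq_zero fun x hx => by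
      rw [show x = D.K by have := mem_Ico.1 hx; omega, show dm D.B 0 D.K = 0 from h.top, zero_mul,
        zero_smul]]
    simpa using sq_nonneg _
  have := h.wk0.varN y
  rw [CD.tail, max_eq_left hy] at this
  rw [sum_Ico_succ_top hK.le, show dm D.B 0 D.K = 0 from h.top, zero_mul, zero_smul, add_zero, fz,
    if_pos hK, sum_congr rfl fun x hx => by
      rw [if_pos (by have := mem_Ico.1 hx; omega), mul_one], ip_nd h]
  exact this

theorem ip_del (j : ℕ) : Base53.ipE wt_one90 D.B 0 (Base53.dV D.B (sl D.n) wt_one90 D.rb j)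
    (Base53.dV D.B (sl D.n) wt_one90 D.rb j) ≤ 2 ^ 2 := by
  rw [Base53.ipE_eq]
  refine Lp12.EE_le wt_one90 _ _ (Lp12.EP.mul (Subtype.prop _) (Subtype.prop _)) fun p => ?_
  have e : (Base53.dV D.B (sl D.n) wt_one90 D.rb j).1 p =
      qf (P (fun _ => 1) (D.B.drop j) (p j)) (oU D.rb j) := by
    rw [← uK_eq h, Base53.qf_uK D.B (sl D.n) wt_one90, ← Base53.MM_self]
    rfl
  have h1 := qf_mono (P_nonneg wt_one90 (D.B.drop j) (p j)) (K := oU D.rb j) (K' := fun _ _ => 2)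
    fun x y => (abs_le.1 (abs_oU_rb D j x y)).2
  have h2 := qf_mono (P_nonneg wt_one90 (D.B.drop j) (p j)) (K' := oU D.rb j) (K := fun _ _ => -2)
    fun x y => (abs_le.1 (abs_oU_rb D j x y)).1
  rw [qf_const (sum_P wt_one90 _ _)] at h1 h2
  rw [e]
  nlinarith

theorem bh {C : ℝ} (hC : 1 ≤ C) :
    BH D.B (Bt D) (D.J + 1) (C * A) (fun y => C * (A * mm D y))
      (fun i => C * (a1 D i + if i + 1 = D.B.length then 1 else 0))
      (fun y => √(D.v y y)) (fun y x => √(D.v y x)) (Base53.ipE wt_one90 D.B 0)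
      (Base53.dV D.B (sl D.n) wt_one90 D.rb) (Base53.pV D.B (sl D.n) wt_one90)
      (Base53.PE wt_one90 D.B) := by
  have b1 := Base53.bs D.B (sl D.n) wt_one90 0 D.rb
  have b2 := fun y x t => Base53.lo3 D.B (sl D.n) wt_one90 0 D.rb (y := y) (x := x) (t := t)
  simp only [uK_eq h, vt_eq h] at b1 b2
  have m := mm_mem h
  have m0 : ∀ i, 0 ≤ mm D i := fun i => h.X0.trans (m i).1
  have hA := one_le_A
  have CA : 1 ≤ C * A := one_le_mul_of_one_le_of_one_le hC hA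
  refine ⟨h.mono, Bt_tr D, b1, b2, fun _ _ => Real.sqrt_nonneg _, CA,
    fun y => mul_le_mul_of_nonneg_left (mul_le_of_le_one_right (by linarith) (m y).2) (by linarith),
    fun y => mul_nonneg (by linarith) (mul_nonneg (by linarith) (m0 y)), fun i => ?_, ?_⟩
  · have k : D.dx i ≤ a1 D i + if i + 1 = D.B.length then 1 else 0 := by
      rw [D.B_len, a1]
      split_ifs with e
      · rw [zero_add]; exact h.dx1 (by omega)
      · have := h.dx0 (i + 1)
        have := abs_nonneg (SF97.vv D.S i)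
        have := abs_nonneg ((Rq D).2.1 (i + 1) - (Rq D).2.1 i)
        have := abs_nonneg ((Rq D).2.2 (i + 1) - (Rq D).2.2 i)
        unfold a0
        linarith
    exact k.trans (le_mul_of_one_le_left ((h.dx0 i).trans k) hC)
  · rw [← mul_assoc]
    exact (h.sum_dx D.J).trans_le (h.x1.trans ((m _).1.trans (le_mul_of_one_le_left (m0 _) CA)))

theorem v_le {j x : ℕ} (hx : j ≤ x) : D.v j x ≤ D.v j j := by
  rw [← vt_eq h, ← vt_eq h]
  exact Base53.vt_anti D.B (sl D.n) wt_one90 0 le_rfl hx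

theorem sum_s1 {C : ℝ} (hC : 0 ≤ C) :
    ∑ i ∈ Ico (D.J + 1) D.K, C * (a1 D i + if i + 1 = D.K then 1 else 0) ≤
      C * (2 * D.sv (fun _ => 1) D.J + 1) := by
  have h1 := sum_a1 h (g := fun _ => 1) fun _ => zero_le_one
  have h2 : ∑ i ∈ Ico (D.J + 1) D.K, (if i + 1 = D.K then (1 : ℝ) else 0) ≤ 1 := by
    rw [sum_congr rfl (g := fun i => if i = D.K - 1 then (1 : ℝ) else 0) fun i hi => by
      have := mem_Ico.1 hi
      exact if_congr (by omega) rfl rfl, sum_ite_eq']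
    split_ifs <;> norm_num
  simp only [mul_one] at h1
  rw [← mul_sum, sum_add_distrib]
  exact mul_le_mul_of_nonneg_left (add_le_add h1 h2) hC

theorem sum_sf {C : ℝ} (hC : 0 ≤ C) :
    ∑ i ∈ Ico (D.J + 1) D.K, C * (a1 D i + if i + 1 = D.K then 1 else 0) * fz D D.f0 (i + 1) ≤
      C * (2 * D.sv D.f0 D.J) := by
  refine le_trans ?_ (mul_le_mul_of_nonneg_left (sum_a1 h h.f00) hC)
  rw [mul_sum]
  refine sum_le_sum fun i _ => ?_
  rw [mul_assoc]
  refine mul_le_mul_of_nonneg_left ?_ hC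
  split_ifs with e
  · rw [fz, if_neg (by omega), mul_zero]
    exact mul_nonneg (a10 h i) (h.f00 _)
  · rw [add_zero]
    exact mul_le_mul_of_nonneg_left (fz_le h _) (a10 h i)

theorem mf_le : mm D (D.J + 1) * fz D D.f0 (D.J + 1) ≤ D.sv D.f0 D.J := by
  rw [fz]
  split_ifs with e
  · have hm : D.J + 1 ∈ D.up := mem_up.2 ⟨Nat.lt_succ_self _, e⟩
    refine le_trans ?_ (single_le_sum (f := fun t => D.dv t * D.f0 t)
      (fun t ht => mul_nonneg (h.dv0 (mem_up.1 ht).2.le) (h.f00 _)) hm)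
    rw [CD.dv, if_pos le_rfl]
    exact mul_le_mul_of_nonneg_right (mm_le h hm) (h.f00 _)
  · rw [mul_zero]; exact h.sv0 h.f00 _

theorem rwE_le {C : ℝ} (hC : 1 ≤ C) {j : ℕ} (hj : j ∈ D.up) :
    RwE D.B (D.J + 1) j (fun y => C * (A * mm D y))
      (fun i => C * (a1 D i + if i + 1 = D.B.length then 1 else 0))
      (fun y => √(D.v y y)) (fun y x => √(D.v y x)) (fz D D.f0) ≤ 2 * (C * A) * Rw D j := by
  have hA := one_le_A
  have CA : 1 ≤ C * A := one_le_mul_of_one_le_of_one_le hC hA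
  have CC : C ≤ C * A := le_mul_of_one_le_right (by linarith) hA
  have m := mem_up.1 hj
  have v0 := D.v0 j j
  have s0 := h.sv0 h.f00 D.J
  have r0 := Real.sqrt_nonneg (D.v j j)
  have t1 : fz D D.f0 (j + 1) ≤ D.f0 j := (fz_le h _).trans (h.wk0.anti j).2
  have t2 := sum_sf h (C := C) (by linarith)
  have t3 : ∑ y ∈ Ico (D.J + 1) j, D.dx y * (C * (A * mm D y) * (√(D.v y j) * √(D.v j j))) ≤
      C * A * (D.e j * D.v j j + ∑ y ∈ Ico 1 j, D.dx y * D.v y j) := by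
    have k1 : ∑ y ∈ Ico (D.J + 1) j, D.dx y ≤ D.e j :=
      (h.sum_dx_le fun i hi => (mem_Ico.1 hi).2.le).trans (N75.ex_le h hj)
    have k3 : ∑ y ∈ Ico (D.J + 1) j, D.dx y * D.v y j ≤ ∑ y ∈ Ico 1 j, D.dx y * D.v y j :=
      sum_le_sum_of_subset_of_nonneg (Ico_subset_Ico_left (by omega))
        fun y _ _ => mul_nonneg (h.dx0 y) (D.v0 y j)
    refine (sum_le_sum (g := fun y => C * A * (D.dx y * D.v j j + D.dx y * D.v y j))
      fun y _ => ?_).trans ?_
    · have k5 : C * (A * mm D y) ≤ C * A :=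
        mul_le_mul_of_nonneg_left (mul_le_of_le_one_right (by linarith) (mm_mem h y).2) (by linarith)
      have k6 : √(D.v y j) * √(D.v j j) ≤ D.v j j + D.v y j := by
        nlinarith [sq_nonneg (√(D.v y j) - √(D.v j j)), Real.sq_sqrt (D.v0 y j), Real.sq_sqrt v0,
          D.v0 y j]
      exact (mul_le_mul_of_nonneg_left (mul_le_mul k5 k6 (by positivity) (by linarith))
        (h.dx0 y)).trans_eq (by ring)
    · rw [← mul_sum, sum_add_distrib, ← sum_mul]
      exact mul_le_mul_of_nonneg_left (add_le_add (mul_le_mul_of_nonneg_right k1 v0) k3)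
        (by linarith)
  have t4 : ∑ x ∈ Ioc j D.K, D.dx x * (√(D.v j x) * √(D.v x x)) ≤ √(D.v j j) * D.hi (av D) j := by
    rw [← Finset.Ioo_insert_right m.2, sum_insert (by simp), h.top, zero_mul, zero_add, CD.hi,
      mul_sum]
    refine sum_le_sum fun x hx => ?_
    exact (mul_le_mul_of_nonneg_left (mul_le_mul_of_nonneg_right
      (Real.sqrt_le_sqrt (v_le h (mem_Ioo.1 hx).1.le)) (Real.sqrt_nonneg _)) (h.dx0 x)).trans_eq
      (by rw [av]; ring)
  have n1 : 0 ≤ D.hi (av D) j := h.hi0 (fun _ => Real.sqrt_nonneg _) j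
  have n2 : 0 ≤ D.e j * D.v j j + ∑ y ∈ Ico 1 j, D.dx y * D.v y j :=
    add_nonneg (mul_nonneg (h.e0 j) v0) (h.sv_low0 _ _)
  have f0 := h.f00 j
  have u1 : fz D D.f0 (j + 1) + ∑ i ∈ Ico (D.J + 1) D.K,
      C * (a1 D i + if i + 1 = D.K then 1 else 0) * fz D D.f0 (i + 1) + D.hi (av D) j ≤
      2 * (C * A) * (D.f0 j + D.sv D.f0 D.J + D.hi (av D) j) := by
    nlinarith [mul_le_mul_of_nonneg_right CC s0, mul_le_mul_of_nonneg_right CA f0,
      mul_le_mul_of_nonneg_right CA n1]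
  have u2 := mul_le_mul_of_nonneg_left u1 r0
  have u3 := mul_nonneg (zero_le_one.trans CA) n2
  rw [RwE, Rw, D.B_len, av]
  simp only [CD.dx] at *
  nlinarith

end ok

end A4

open C40 C40.Q10 C40.N75 C40.CD A4 Finset
open Crest.Agent.T157.E Crest.Agent.T157.Casc Crest.Agent.T157.SL
open Crest.Agent.T156.Cas.Q75
open Crest.Agent.T156.Cas.Q75.A10

/-- **one edge at the marked level, density form** -/
theorem oaS_of (HS : SwapS) (HM : MkS) (HR : RowRS) (HA : RowAS) : OAS := by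
  obtain ⟨C₀, _, HM⟩ := HM
  obtain ⟨C, hC, HR⟩ := HR (max C₀ A) (le_max_of_le_right one_le_A)
  obtain ⟨C₂, hC₂, HA⟩ := HA
  have hA := one_le_A
  have CA : 1 ≤ C * A := one_le_mul_of_one_le_of_one_le hC hA
  have CC : C ≤ C * A := le_mul_of_one_le_right (by linarith) hA
  refine fun τ0 => ⟨2 * (C₂ * (C * A)) * (4 * (C * A)), by positivity,
    fun D h a l A' hom hl hl' hAdd => ?_⟩
  have hK := D.B_len
  have eU : Ico (D.J + 1) D.K = D.up := Finset.Ico_add_one_left_eq_Ioo _ _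
  have m := mm_mem h
  have m0 : ∀ i, 0 ≤ mm D i := fun i => h.X0.trans (m i).1
  have sw : ∀ j, j < D.K → (cM D.B D.S (Rq D) j).tr.Eqv (cM D.B D.S (Rq D) j) D.B.length :=
    fun j hj => (HS _ D.B D.S (Rq D) j _ (fun _ => 1) D.B 0 (fun _ _ _ => 0) (fun _ _ => 0)
      wt_one90 (Q10.S_len D) rfl (by omega) fun _ _ _ => rfl).2.2
  have B := bh h hC
  have key := HA _ D.B (fun j => cM D.B D.S (Rq D) j) (Bt D) (D.J + 1) (C * A) 2 _ _ _
    (fun x => if D.J < x then 1 else 0) (fz D D.f0) a l A' _ _ _ _ _ _ B (by rw [hK]; exact h.top)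
    (fun j _ hj => ⟨sw j (hK ▸ hj), rowR_mono (HR _ D.B D.S (Rq D) _ (a1 D) j (D.J + 1) h.mono hj
      (mkH h HM (hK ▸ hj)) (fun i => ⟨mul_nonneg (by linarith) (m0 i),
        (mul_le_of_le_one_right (by linarith) (m i).2).trans (le_max_right _ _)⟩)
      (by rw [hK, mm, if_neg (by simp), mul_one]; exact hA) (a10 h) fun i hb => by
        rw [a1, if_neg fun e => hb (Or.inr (Or.inr (e.trans hK.symm))), a0]
        exact le_add_of_nonneg_left (by positivity)).1 CC⟩)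
    (wf1 h) (fz_anti h) (fun y h1 _ => by
      rw [if_pos (by omega), if_pos (by omega), sub_self, abs_zero]
      exact (h.dx0 y).trans (B.ds y)) (ip_del h) hAdd.1 hl hl' fun θ => by
      rw [hK, eU, ip_nd h]
      exact (hAdd.2 θ).1
  have eL : ∑ j ∈ D.up, D.om j *
      (Tj D D.B (Rq D) j (ind j) (nu D j) + Tj D D.B (Rq D) j (nu D j) (ind j)) =
      2 * ∑ j ∈ D.up, a j * NL D.B (((wt (ind j) fun x => nj j x * if D.J < x then 1 else 0).mul
        (cM D.B D.S (Rq D) j)).mul (Bt D)) := by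
    rw [mul_sum]
    refine sum_congr rfl fun j hj => ?_
    have mj := (mem_up.1 hj).2
    have z : ∀ x, ind j x * nu D j x = 0 := fun x => by
      rw [ind, nu, nj]
      split_ifs <;> simp
    have e1 := Tj_NL (D := D) HS (Rq D) mj.le z
    have e2 := Tj_NL (D := D) HS (Rq D) mj.le (φ := nu D j) (ψ := ind j)
      fun x => (mul_comm _ _).trans (z x)
    rw [NL_swap (sw j mj) (Bt_tr D)] at e2
    have e3 : D.om j * (Tj D D.B (Rq D) j (ind j) (nu D j) + Tj D D.B (Rq D) j (nu D j) (ind j)) =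
        a j * (D.dx j * Tj D D.B (Rq D) j (ind j) (nu D j) +
          D.dx j * Tj D D.B (Rq D) j (nu D j) (ind j)) := by rw [hom j hj]; ring
    rw [e3, e1, e2, ← two_mul, mul_left_comm]
    rfl
  have t5 : ∑ j ∈ D.up, |a j| * D.dx j * (2 ^ 2 * D.dx j + RwE D.B (D.J + 1) j
      (fun y => C * (A * mm D y)) (fun i => C * (a1 D i + if i + 1 = D.B.length then 1 else 0))
      (fun y => √(D.v y y)) (fun y x => √(D.v y x)) (fz D D.f0)) ≤
      4 * (C * A) * D.Iw fun j => D.dx j + Rw D j := by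
    rw [CD.Iw, mul_sum]
    refine sum_le_sum fun j hj => ?_
    have k1 := rwE_le h hC hj
    have k2 : 0 ≤ Rw D j := add_nonneg (mul_nonneg (Real.sqrt_nonneg _) (add_nonneg
      (add_nonneg (h.f00 j) (h.sv0 h.f00 _)) (h.hi0 (fun _ => Real.sqrt_nonneg _) j)))
      (add_nonneg (mul_nonneg (h.e0 j) (D.v0 j j)) (h.sv_low0 _ _))
    rw [hom j hj, abs_mul, abs_of_nonneg (h.dx0 j), mul_comm (D.dx j) |a j|, mul_left_comm]
    refine mul_le_mul_of_nonneg_left ?_ (mul_nonneg (abs_nonneg _) (h.dx0 j))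
    nlinarith [mul_le_mul_of_nonneg_right CA (h.dx0 j), mul_nonneg (zero_le_one.trans CA) k2]
  have t4 : ∑ y ∈ D.up, D.dx y * (C * (A * mm D y) * √(D.v y y)) ≤
      C * A * D.I fun t => D.e t * av D t := by
    rw [← D.I_mul]
    refine h.I_mono fun t ht => ?_
    rw [← mul_assoc, ← mul_assoc, av]
    exact mul_le_mul_of_nonneg_right (mul_le_mul_of_nonneg_left (mm_le h ht) (by linarith))
      (Real.sqrt_nonneg _)
  have t1 := sum_s1 h (C := C) (by linarith)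
  have t2 := mul_le_mul_of_nonneg_left (mf_le h) (zero_le_one.trans CA)
  have t3 := sum_sf h (C := C) (by linarith)
  have s0 := h.sv0 h.f00 D.J
  have s1 := h.sv0 (F := fun _ => 1) (fun _ => zero_le_one) D.J
  have i0 : 0 ≤ D.I fun t => a t ^ 2 * A' t / l t + l t * A' t := h.I0 fun t _ =>
    add_nonneg (div_nonneg (mul_nonneg (sq_nonneg _) (hAdd.1 t)) (hl t).le)
      (mul_nonneg (hl t).le (hAdd.1 t))
  have i1 : 0 ≤ D.I fun t => D.e t * av D t := h.I0 fun t _ =>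
    mul_nonneg (h.e0 t) (Real.sqrt_nonneg _)
  have lg : 0 ≤ Real.log (D.K + 2) := Real.log_nonneg (by have := (Nat.cast_nonneg D.K : (0 : ℝ) ≤ _); linarith)
  simp only [hK, eU] at key t1 t3 t5
  have u1 : 1 + ∑ i ∈ D.up, C * (a1 D i + if i + 1 = D.K then 1 else 0) ≤
      4 * (C * A) * (1 + D.sv (fun _ => 1) D.J) := by
    nlinarith [mul_le_mul_of_nonneg_right CC s1]
  have u2 : C * (A * mm D (D.J + 1)) * fz D D.f0 (D.J + 1) +
      ∑ i ∈ D.up, C * (a1 D i + if i + 1 = D.K then 1 else 0) * fz D D.f0 (i + 1) +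
      ∑ y ∈ D.up, D.dx y * (C * (A * mm D y) * √(D.v y y)) ≤
      4 * (C * A) * (D.sv D.f0 D.J + D.I fun t => D.e t * av D t) := by
    nlinarith [mul_le_mul_of_nonneg_right CC s0, mul_nonneg (zero_le_one.trans CA) i1,
      mul_nonneg (zero_le_one.trans CA) s0]
  have u3 := mul_le_mul_of_nonneg_right (mul_le_mul_of_nonneg_left u1 lg) i0
  have u4 := mul_le_mul_of_nonneg_left u2 (Real.sqrt_nonneg (D.I fun t => a t ^ 2 * A' t))
  have u5 := mul_le_mul_of_nonneg_left (add_le_add (add_le_add u3 u4) t5)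
    (show 0 ≤ C₂ * (C * A) by positivity)
  rw [eL, abs_mul, abs_two]
  refine (mul_le_mul_of_nonneg_left (key.trans u5) zero_le_two).trans_eq ?_
  ring

end Crest.Agent.T156.Cas.Q21

end
end

-- ▼ part T156/Tri_18
section

/-!
# Row 156 (helper18): triangular truncation for kernels that are Lipschitz in one variable

Frame-free.  `Cr C A A' S` says that the cross kernel `C i j` (a covariance) is dominated by the
additive variances `A`, `A'`.  The coefficient `κ i j` only has to be Lipschitz in the upper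
variable; the triangle costs one factor `k` with `b - a ≤ 2 ^ k`.
-/

set_option autoImplicit false
set_option linter.all false

namespace Crest.Agent.T156.Cas.Tri18
open Finset
open Crest.Agent.T156.Rect52

/-- cross kernel dominated by additive variances -/
structure Cr (C : ℕ → ℕ → ℝ) (A A' : ℕ → ℝ) (S : Finset ℕ) : Prop where
  nn : ∀ i ∈ S, 0 ≤ A i
  nn' : ∀ i ∈ S, 0 ≤ A' i
  le : ∀ φ ψ : ℕ → ℝ, |∑ i ∈ S, ∑ j ∈ S, φ i * ψ j * C i j| ≤
    √(∑ i ∈ S, φ i ^ 2 * A i) * √(∑ j ∈ S, ψ j ^ 2 * A' j)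

theorem Cr.tr {C A A' S} (h : Cr C A A' S) : Cr (fun i j => C j i) A' A S := by
  refine ⟨h.nn', h.nn, fun φ ψ => ?_⟩
  have := h.le ψ φ
  rw [Finset.sum_comm, mul_comm]
  convert this using 4 with i _ j _
  ring

theorem Cr.rect {C A A' S} (h : Cr C A A' S) {I I' : Finset ℕ} (hI : I ⊆ S) (hI' : I' ⊆ S)
    (φ ψ : ℕ → ℝ) : |∑ i ∈ I, ∑ j ∈ I', φ i * ψ j * C i j| ≤
      √(∑ i ∈ I, φ i ^ 2 * A i) * √(∑ j ∈ I', ψ j ^ 2 * A' j) := by
  have h1 := h.le (fun i => if i ∈ I then φ i else 0) (fun j => if j ∈ I' then ψ j else 0)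
  have e1 : ∑ i ∈ S, ∑ j ∈ S, (if i ∈ I then φ i else 0) * (if j ∈ I' then ψ j else 0) * C i j
      = ∑ i ∈ I, ∑ j ∈ I', φ i * ψ j * C i j := by
    rw [← sum_ind hI]
    refine Finset.sum_congr rfl fun i _ => ?_
    split_ifs
    · rw [← sum_ind hI']
      refine Finset.sum_congr rfl fun j _ => ?_
      split_ifs <;> simp
    · simp
  have e2 : ∀ (I : Finset ℕ) (u A : ℕ → ℝ), I ⊆ S →
      ∑ i ∈ S, (if i ∈ I then u i else 0) ^ 2 * A i = ∑ i ∈ I, u i ^ 2 * A i := by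
    intro I u A hA
    rw [← sum_ind hA]
    refine Finset.sum_congr rfl fun i _ => ?_
    split_ifs <;> simp
  rwa [e1, e2 I φ A hI, e2 I' ψ A' hI'] at h1

theorem Cr.mono {C A A' S} (h : Cr C A A' S) {T : Finset ℕ} (hT : T ⊆ S) : Cr C A A' T :=
  ⟨fun i hi => h.nn i (hT hi), fun i hi => h.nn' i (hT hi), fun φ ψ => h.rect hT hT φ ψ⟩

/-- Cauchy-Schwarz for a symmetric positive bilinear form -/
theorem ip_cs {V : Type*} [AddCommGroup V] [Module ℝ V] (ip : LinearMap.BilinForm ℝ V)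
    (sym : ∀ u v, ip u v = ip v u) (pos : ∀ u, 0 ≤ ip u u) (u v : V) {a b : ℝ}
    (ha : ip u u ≤ a) (hb : ip v v ≤ b) : |ip u v| ≤ √a * √b := by
  refine le_sqrt_of_forall ((pos u).trans ha) ((pos v).trans hb) fun t ht => ?_
  have h1 := pos (t • u + v)
  have h2 := pos (t • u - v)
  simp only [map_add, map_sub, map_smul, LinearMap.add_apply, LinearMap.sub_apply,
    LinearMap.smul_apply, smul_eq_mul, sym v u] at h1 h2
  have e1 : (t * a + b / t) / 2 = (t ^ 2 * a + b) / (2 * t) := by field_simp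
  have h3 := mul_le_mul_of_nonneg_left ha (sq_nonneg t)
  rw [e1, abs_le]
  constructor
  · rw [← neg_div, div_le_iff₀ (by positivity)]; nlinarith
  · rw [le_div_iff₀ (by positivity)]; nlinarith

theorem ip_sum {V : Type*} [AddCommGroup V] [Module ℝ V] (ip : LinearMap.BilinForm ℝ V)
    (I I' : Finset ℕ) (φ ψ : ℕ → ℝ) (u u' : ℕ → V) :
    ip (∑ i ∈ I, φ i • u i) (∑ j ∈ I', ψ j • u' j) =
      ∑ i ∈ I, ∑ j ∈ I', φ i * ψ j * ip (u i) (u' j) := by
  simp only [map_sum, map_smul, LinearMap.sum_apply, LinearMap.smul_apply, smul_eq_mul,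
    Finset.mul_sum]
  rw [Finset.sum_comm]
  refine Finset.sum_congr rfl fun i _ => Finset.sum_congr rfl fun j _ => by ring


theorem sqrt_coef {I : Finset ℕ} {A φ r : ℕ → ℝ} {s : ℝ} (hs : 0 ≤ s) (hA : ∀ i ∈ I, 0 ≤ A i)
    (h : ∀ i ∈ I, |φ i| ≤ r i * s) :
    √(∑ i ∈ I, φ i ^ 2 * A i) ≤ s * √(∑ i ∈ I, r i ^ 2 * A i) := by
  rw [← Real.sqrt_sq hs, ← Real.sqrt_mul (sq_nonneg s), Finset.mul_sum]
  refine Real.sqrt_le_sqrt (Finset.sum_le_sum fun i hi => ?_)
  have h1 : φ i ^ 2 ≤ (r i * s) ^ 2 := by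
    rw [← sq_abs (φ i)]; exact pow_le_pow_left₀ (abs_nonneg _) (h i hi) 2
  have := mul_le_mul_of_nonneg_right h1 (hA i hi)
  linarith [show (r i * s) ^ 2 * A i = s ^ 2 * (r i ^ 2 * A i) by ring]

/-- **Abel summation in the second variable against tails** -/
theorem abel_tail {C κ : ℕ → ℕ → ℝ} {I : Finset ℕ} {A r s f : ℕ → ℝ} {m b : ℕ}
    (hA : ∀ i ∈ I, 0 ≤ A i) (hs : ∀ y ∈ Ico m (b - 1), 0 ≤ s y)
    (hf : ∀ y, m ≤ y → 0 ≤ f y)
    (hC : ∀ (φ : ℕ → ℝ) (y : ℕ), m ≤ y → |∑ i ∈ I, φ i * ∑ j ∈ Ico y b, C i j| ≤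
      √(∑ i ∈ I, φ i ^ 2 * A i) * f y)
    (h0 : ∀ i ∈ I, |κ i m| ≤ r i)
    (h1 : ∀ i ∈ I, ∀ y ∈ Ico m (b - 1), |κ i (y + 1) - κ i y| ≤ r i * s y) :
    |∑ i ∈ I, ∑ j ∈ Ico m b, κ i j * C i j| ≤
      √(∑ i ∈ I, r i ^ 2 * A i) * (f m + ∑ y ∈ Ico m (b - 1), s y * f (y + 1)) := by
  have e : ∑ i ∈ I, ∑ j ∈ Ico m b, κ i j * C i j = ∑ i ∈ I, κ i m * ∑ j ∈ Ico m b, C i j +
      ∑ y ∈ Ico m (b - 1), ∑ i ∈ I, (κ i (y + 1) - κ i y) * ∑ j ∈ Ico (y + 1) b, C i j := by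
    rw [Finset.sum_comm (s := Ico m (b - 1)), ← Finset.sum_add_distrib]
    exact Finset.sum_congr rfl fun i _ => abel_id' (κ i) (C i) m b
  rw [e, mul_add, Finset.mul_sum]
  refine (abs_add_le _ _).trans (add_le_add ?_ ((Finset.abs_sum_le_sum_abs _ _).trans
    (Finset.sum_le_sum fun y hy => ?_)))
  · refine (hC _ m le_rfl).trans (mul_le_mul_of_nonneg_right ?_ (hf m le_rfl))
    have := sqrt_coef (s := 1) (r := r) zero_le_one hA (fun i hi => by simpa using h0 i hi)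
    simpa using this
  · have hy' : m ≤ y + 1 := by have := (mem_Ico.1 hy).1; omega
    refine (hC _ (y + 1) hy').trans ?_
    have := mul_le_mul_of_nonneg_right
      (sqrt_coef (hs y hy) hA (fun i hi => h1 i hi y hy)) (hf _ hy')
    linarith [show s y * √(∑ i ∈ I, r i ^ 2 * A i) * f (y + 1) =
      √(∑ i ∈ I, r i ^ 2 * A i) * (s y * f (y + 1)) by ring]

/-- one rectangle, coefficient Lipschitz in the second variable, any factor `ρ` -/
theorem Cr.rect_lip {C A A' S} (h : Cr C A A' S) {κ : ℕ → ℕ → ℝ} {I : Finset ℕ} {r s : ℕ → ℝ}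
    (ρ : ℕ → ℝ) {m b : ℕ} (hI : I ⊆ S) (hI' : Ico m b ⊆ S) (hs : ∀ y ∈ Ico m (b - 1), 0 ≤ s y)
    (h0 : ∀ i ∈ I, |κ i m| ≤ r i)
    (h1 : ∀ i ∈ I, ∀ y ∈ Ico m (b - 1), |κ i (y + 1) - κ i y| ≤ r i * s y) :
    |∑ i ∈ I, ∑ j ∈ Ico m b, κ i j * (ρ j * C i j)| ≤
      (1 + ∑ y ∈ Ico m (b - 1), s y) *
        (√(∑ i ∈ I, r i ^ 2 * A i) * √(∑ j ∈ Ico m b, ρ j ^ 2 * A' j)) := by
  have := abel_tail (C := fun i j => ρ j * C i j) (κ := κ) (I := I) (A := A) (r := r) (s := s)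
    (f := fun _ => √(∑ j ∈ Ico m b, ρ j ^ 2 * A' j)) (m := m) (b := b)
    (fun i hi => h.nn i (hI hi)) hs (fun _ _ => Real.sqrt_nonneg _) (fun φ y hy => by
      have s1 : Ico y b ⊆ Ico m b := Finset.Ico_subset_Ico hy le_rfl
      have h2 := h.rect hI (s1.trans hI') φ ρ
      have e : ∑ i ∈ I, φ i * ∑ j ∈ Ico y b, ρ j * C i j =
          ∑ i ∈ I, ∑ j ∈ Ico y b, φ i * ρ j * C i j := by
        simp only [Finset.mul_sum, mul_assoc]
      rw [e]
      refine h2.trans (mul_le_mul_of_nonneg_left (Real.sqrt_le_sqrt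
        (Finset.sum_le_sum_of_subset_of_nonneg s1 fun j hj _ =>
          mul_nonneg (sq_nonneg _) (h.nn' j (hI' hj)))) (Real.sqrt_nonneg _))) h0 h1
  refine this.trans (le_of_eq ?_)
  rw [← Finset.sum_mul]
  ring

/-- **dyadic decomposition of the triangle** -/
theorem dyad {f : ℕ → ℕ → ℝ} {α γ : ℕ → ℝ} {a₀ b₀ : ℕ} (hα : ∀ i ∈ Ico a₀ b₀, 0 ≤ α i)
    (hγ : ∀ i ∈ Ico a₀ b₀, 0 ≤ γ i)
    (H : ∀ a m b, a₀ ≤ a → a < m → m < b → b ≤ b₀ →
      |∑ i ∈ Ico a m, ∑ j ∈ Ico m b, f i j| ≤ ∑ i ∈ Ico a m, α i + ∑ j ∈ Ico m b, γ j) (k : ℕ) :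
    ∀ a b : ℕ, b - a ≤ 2 ^ k → a₀ ≤ a → b ≤ b₀ →
      |∑ j ∈ Ico a b, ∑ i ∈ Ico a j, f i j| ≤ k * (∑ i ∈ Ico a b, α i + ∑ j ∈ Ico a b, γ j) := by
  induction k with
  | zero =>
    intro a b hab _ _
    have : ∑ j ∈ Ico a b, ∑ i ∈ Ico a j, f i j = 0 := by
      refine Finset.sum_eq_zero fun j hj => ?_
      have := mem_Ico.1 hj
      rw [Finset.Ico_eq_empty (by simp at hab ⊢; omega)]; simp
    rw [this]; simp
  | succ k ih =>
    intro a b hab ha hb
    have nn : ∀ (w : ℕ → ℝ) (c d : ℕ), (∀ i ∈ Ico a₀ b₀, 0 ≤ w i) → a₀ ≤ c → d ≤ b₀ →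
        0 ≤ ∑ i ∈ Ico c d, w i := fun w c d hw hc hd =>
      Finset.sum_nonneg fun i hi => hw i (Finset.Ico_subset_Ico hc hd hi)
    by_cases hb' : b - a ≤ 2 ^ k
    · refine (ih a b hb' ha hb).trans (mul_le_mul_of_nonneg_right (by push_cast; linarith) ?_)
      have := nn α a b hα ha hb
      have := nn γ a b hγ ha hb
      positivity
    · have hp : 0 < 2 ^ k := by positivity
      have hm1 : a ≤ a + 2 ^ k := Nat.le_add_right _ _
      have hm2 : a + 2 ^ k ≤ b := by omega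
      have i1 := ih a (a + 2 ^ k) (by omega) ha (by omega)
      have i2 := ih (a + 2 ^ k) b (by rw [pow_succ] at hab; omega) (by omega) hb
      have i3 := H a (a + 2 ^ k) b ha (by omega) (by omega) hb
      rw [tri_split _ hm1 hm2, ← Finset.sum_Ico_consecutive α hm1 hm2,
        ← Finset.sum_Ico_consecutive γ hm1 hm2]
      have p1 := nn α (a + 2 ^ k) b hα (by omega) hb
      have p2 := nn γ a (a + 2 ^ k) hγ ha (by omega)
      refine (abs_add_le _ _).trans ?_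
      refine (add_le_add (abs_add_le _ _) le_rfl).trans ?_
      push_cast
      linarith

/-- **triangular truncation**: `κ i j` (`i < j`) of size `r i`, Lipschitz in `j`; any factor `ρ j`;
any nondecreasing weight `l > 0` -/
theorem Cr.tri {C A A' S} (h : Cr C A A' S) {κ : ℕ → ℕ → ℝ} {r s l : ℕ → ℝ} (ρ : ℕ → ℝ)
    {a b k : ℕ} {V : ℝ} (hk : b - a ≤ 2 ^ k) (hS : Ico a b ⊆ S) (hs : ∀ y ∈ Ico a (b - 1), 0 ≤ s y)
    (hV : ∑ y ∈ Ico a (b - 1), s y ≤ V) (hl : ∀ i, 0 < l i) (hm : Monotone l)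
    (h0 : ∀ i j, a ≤ i → i < j → j < b → |κ i j| ≤ r i)
    (h1 : ∀ i y, a ≤ i → i < y → y + 1 < b → |κ i (y + 1) - κ i y| ≤ r i * s y) :
    |∑ j ∈ Ico a b, ∑ i ∈ Ico a j, κ i j * (ρ j * C i j)| ≤
      k * ((1 + V) / 2 * ∑ i ∈ Ico a b, (r i ^ 2 * A i / l i + l i * (ρ i ^ 2 * A' i))) := by
  have hV0 : 0 ≤ V := (Finset.sum_nonneg hs).trans hV
  have key := dyad (f := fun i j => κ i j * (ρ j * C i j))
    (α := fun i => (1 + V) / 2 * (r i ^ 2 * A i / l i))
    (γ := fun i => (1 + V) / 2 * (l i * (ρ i ^ 2 * A' i))) (a₀ := a) (b₀ := b)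
    (fun i hi => by have := h.nn i (hS hi); have := hl i; positivity)
    (fun i hi => by have := h.nn' i (hS hi); have := hl i; positivity)
    (fun c m d hc hcm hmd hd => by
      have s1 : Ico c m ⊆ S := (Finset.Ico_subset_Ico hc (by omega)).trans hS
      have s2 : Ico m d ⊆ S := (Finset.Ico_subset_Ico (by omega) hd).trans hS
      have s3 : Ico m (d - 1) ⊆ Ico a (b - 1) := Finset.Ico_subset_Ico (by omega) (by omega)
      have h2 := h.rect_lip (κ := κ) (r := r) (s := s) ρ s1 s2 (fun y hy => hs y (s3 hy))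
        (fun i hi => h0 i m (by have := mem_Ico.1 hi; omega) (mem_Ico.1 hi).2 (by omega))
        (fun i hi y hy => h1 i y (by have := mem_Ico.1 hi; omega)
          (by have := mem_Ico.1 hi; have := mem_Ico.1 hy; omega)
          (by have := mem_Ico.1 hy; omega))
      refine h2.trans ?_
      have hsV : ∑ y ∈ Ico m (d - 1), s y ≤ V :=
        (Finset.sum_le_sum_of_subset_of_nonneg s3 fun y hy _ => hs y hy).trans hV
      have hP : 0 ≤ ∑ i ∈ Ico c m, r i ^ 2 * A i :=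
        Finset.sum_nonneg fun i hi => mul_nonneg (sq_nonneg _) (h.nn i (s1 hi))
      have hQ : 0 ≤ ∑ j ∈ Ico m d, ρ j ^ 2 * A' j :=
        Finset.sum_nonneg fun i hi => mul_nonneg (sq_nonneg _) (h.nn' i (s2 hi))
      have hP' : (∑ i ∈ Ico c m, r i ^ 2 * A i) / l m ≤ ∑ i ∈ Ico c m, r i ^ 2 * A i / l i := by
        rw [Finset.sum_div]
        exact Finset.sum_le_sum fun i hi => div_le_div_of_nonneg_left
          (mul_nonneg (sq_nonneg _) (h.nn i (s1 hi))) (hl i) (hm (mem_Ico.1 hi).2.le)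
      have hQ' : l m * ∑ j ∈ Ico m d, ρ j ^ 2 * A' j ≤ ∑ j ∈ Ico m d, l j * (ρ j ^ 2 * A' j) := by
        rw [Finset.mul_sum]
        exact Finset.sum_le_sum fun i hi => mul_le_mul_of_nonneg_right (hm (mem_Ico.1 hi).1)
          (mul_nonneg (sq_nonneg _) (h.nn' i (s2 hi)))
      rw [← Finset.mul_sum, ← Finset.mul_sum, ← mul_add]
      generalize ∑ i ∈ Ico c m, r i ^ 2 * A i = P at *
      generalize ∑ j ∈ Ico m d, ρ j ^ 2 * A' j = Q at *
      have hL := hl m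
      have am : √P * √Q ≤ (P / l m + l m * Q) / 2 := by
        have e1 : (P / l m + l m * Q) / 2 = (P + l m ^ 2 * Q) / (2 * l m) := by field_simp
        rw [e1, le_div_iff₀ (by positivity)]
        nlinarith [sq_nonneg (√P - l m * √Q), Real.sq_sqrt hP, Real.sq_sqrt hQ]
      have h3 : 0 ≤ √P * √Q := by positivity
      nlinarith [mul_le_mul_of_nonneg_right (show 1 + ∑ y ∈ Ico m (d - 1), s y ≤ 1 + V by linarith) h3,
        mul_le_mul_of_nonneg_left am (show 0 ≤ 1 + V by linarith),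
        mul_le_mul_of_nonneg_left (add_le_add hP' hQ') (show 0 ≤ 1 + V by linarith)])
    k a b hk le_rfl le_rfl
  refine key.trans (le_of_eq ?_)
  rw [← Finset.mul_sum, ← Finset.mul_sum, ← mul_add, Finset.sum_add_distrib]


/-- the number of scales -/
theorem exists_k (N : ℕ) : ∃ k : ℕ, N ≤ 2 ^ k ∧ (k : ℝ) ≤ 3 * Real.log (N + 2) := by
  refine ⟨Nat.log 2 N + 1, (Nat.lt_pow_succ_log_self (by norm_num) N).le, ?_⟩
  have h2 : (1 / 2 : ℝ) < Real.log 2 := by
    have := Real.log_two_gt_d9; linarith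
  have hN : Real.log 2 ≤ Real.log (N + 2) :=
    Real.log_le_log (by norm_num) (by have : (0 : ℝ) ≤ N := Nat.cast_nonneg _; linarith)
  rcases Nat.eq_zero_or_pos N with rfl | hN0
  · simp; linarith
  have h1 : (2 : ℝ) ^ Nat.log 2 N ≤ N := by exact_mod_cast Nat.pow_log_le_self 2 hN0.ne'
  have h3 : (Nat.log 2 N : ℝ) * Real.log 2 ≤ Real.log (N + 2) := by
    rw [← Real.log_pow]
    exact Real.log_le_log (by positivity) (by linarith)
  have h4 := Real.log_two_gt_d9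
  have h5 : (0 : ℝ) ≤ Nat.log 2 N := Nat.cast_nonneg _
  push_cast
  nlinarith

end Crest.Agent.T156.Cas.Tri18
end

-- ▼ part T156/Row_18
section

/-!
# Row 156 (helper18): a row sum with a jump on the diagonal

`∑_j α_j ∑_{y ≠ j} κ j y φ y C j y`, the coefficient Lipschitz in `y` on both sides of `j`:
Abel summation against the tails, plus a triangle, plus the diagonal.
-/

set_option autoImplicit false
set_option linter.all false

namespace Crest.Agent.T156.Cas.Tri18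
open Finset
open Crest.Agent.T156.Rect52

/-- `abel_tail` with a separate size of the first coefficient -/
theorem abel_tail' {C κ : ℕ → ℕ → ℝ} {I : Finset ℕ} {A r s f : ℕ → ℝ} {m b : ℕ} {k0 : ℝ}
    (hA : ∀ i ∈ I, 0 ≤ A i) (hs : ∀ y ∈ Ico m (b - 1), 0 ≤ s y)
    (hf : ∀ y, m ≤ y → 0 ≤ f y) (hk : 0 ≤ k0)
    (hC : ∀ (φ : ℕ → ℝ) (y : ℕ), m ≤ y → |∑ i ∈ I, φ i * ∑ j ∈ Ico y b, C i j| ≤
      √(∑ i ∈ I, φ i ^ 2 * A i) * f y)
    (h0 : ∀ i ∈ I, |κ i m| ≤ r i * k0)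
    (h1 : ∀ i ∈ I, ∀ y ∈ Ico m (b - 1), |κ i (y + 1) - κ i y| ≤ r i * s y) :
    |∑ i ∈ I, ∑ j ∈ Ico m b, κ i j * C i j| ≤
      √(∑ i ∈ I, r i ^ 2 * A i) * (k0 * f m + ∑ y ∈ Ico m (b - 1), s y * f (y + 1)) := by
  have e : ∑ i ∈ I, ∑ j ∈ Ico m b, κ i j * C i j = ∑ i ∈ I, κ i m * ∑ j ∈ Ico m b, C i j +
      ∑ y ∈ Ico m (b - 1), ∑ i ∈ I, (κ i (y + 1) - κ i y) * ∑ j ∈ Ico (y + 1) b, C i j := by
    rw [Finset.sum_comm (s := Ico m (b - 1)), ← Finset.sum_add_distrib]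
    exact Finset.sum_congr rfl fun i _ => abel_id' (κ i) (C i) m b
  rw [e, mul_add, Finset.mul_sum]
  refine (abs_add_le _ _).trans (add_le_add ?_ ((Finset.abs_sum_le_sum_abs _ _).trans
    (Finset.sum_le_sum fun y hy => ?_)))
  · refine (hC _ m le_rfl).trans ?_
    have := mul_le_mul_of_nonneg_right (sqrt_coef (s := k0) (r := r) hk hA h0) (hf m le_rfl)
    linarith [show k0 * √(∑ i ∈ I, r i ^ 2 * A i) * f m =
      √(∑ i ∈ I, r i ^ 2 * A i) * (k0 * f m) by ring]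
  · have hy' : m ≤ y + 1 := by have := (mem_Ico.1 hy).1; omega
    refine (hC _ (y + 1) hy').trans ?_
    have := mul_le_mul_of_nonneg_right
      (sqrt_coef (hs y hy) hA (fun i hi => h1 i hi y hy)) (hf _ hy')
    linarith [show s y * √(∑ i ∈ I, r i ^ 2 * A i) * f (y + 1) =
      √(∑ i ∈ I, r i ^ 2 * A i) * (s y * f (y + 1)) by ring]

/-- the lower coefficient, frozen at `j - 1` -/
def kl (κ : ℕ → ℕ → ℝ) (m j y : ℕ) : ℝ := if m < j then κ j (min y (j - 1)) else 0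

theorem row_split (κ : ℕ → ℕ → ℝ) (w : ℕ → ℝ) {m j K : ℕ} (h1 : m ≤ j) (h2 : j < K) :
    ∑ y ∈ Ico m j, κ j y * w y + ∑ y ∈ Ico (j + 1) K, κ j y * w y =
      ∑ y ∈ Ico m K, kl κ m j y * w y - kl κ m j j * w j +
        ∑ y ∈ Ico (j + 1) K, (κ j y - kl κ m j j) * w y := by
  rw [← sum_Ico_consecutive _ h1 h2.le, sum_eq_sum_Ico_succ_bot h2]
  have e1 : ∑ y ∈ Ico m j, kl κ m j y * w y = ∑ y ∈ Ico m j, κ j y * w y :=
    sum_congr rfl fun y hy => by
      have := mem_Ico.1 hy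
      rw [kl, if_pos (by omega), min_eq_left (by omega)]
  have e2 : ∑ y ∈ Ico (j + 1) K, kl κ m j y * w y = ∑ y ∈ Ico (j + 1) K, kl κ m j j * w y :=
    sum_congr rfl fun y hy => by
      have := mem_Ico.1 hy
      simp only [kl]
      rw [min_eq_right (show j - 1 ≤ y by omega), min_eq_right (show j - 1 ≤ j by omega)]
  rw [e1, e2]
  simp only [sub_mul, sum_sub_distrib]
  ring

/-- **the row bound** -/
theorem Cr.row {C : ℕ → ℕ → ℝ} {A : ℕ → ℝ} {S : Finset ℕ} (h : Cr C A A S) {κ : ℕ → ℕ → ℝ}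
    {α φ s f l G : ℕ → ℝ} {m K k : ℕ} {c k0 V : ℝ} (hk : K - m ≤ 2 ^ k) (hS : Ico m K ⊆ S)
    (hs : ∀ y, 0 ≤ s y) (hV : ∑ y ∈ Ico m (K - 1), s y ≤ V) (hl : ∀ i, 0 < l i) (hm : Monotone l)
    (hf : ∀ y, 0 ≤ f y) (hφ : ∀ y, |φ y| ≤ 1) (hc : 1 ≤ c) (hk0 : 0 ≤ k0)
    (hF : ∀ (θ : ℕ → ℝ) (y : ℕ), m ≤ y → |∑ i ∈ Ico m K, θ i * ∑ x ∈ Ico y K, φ x * C i x| ≤
      √(∑ i ∈ Ico m K, θ i ^ 2 * A i) * f y)
    (hG : ∀ j, m ≤ j → j < K → |C j j| ≤ G j)
    (h0 : ∀ j y, m ≤ j → j < K → m ≤ y → y < K → y ≠ j → |κ j y| ≤ c)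
    (h00 : ∀ j, m < j → j < K → |κ j m| ≤ k0)
    (hd : ∀ j y, m ≤ y → y + 1 < j → j < K → |κ j (y + 1) - κ j y| ≤ s y)
    (hu : ∀ j y, m ≤ j → j < y → y + 1 < K → |κ j (y + 1) - κ j y| ≤ s y) :
    |∑ j ∈ Ico m K, α j * (∑ y ∈ Ico m j, κ j y * (φ y * C j y) +
        ∑ y ∈ Ico (j + 1) K, κ j y * (φ y * C j y))| ≤
      √(∑ i ∈ Ico m K, α i ^ 2 * A i) * (k0 * f m + ∑ y ∈ Ico m (K - 1), s y * f (y + 1)) +
      c * ∑ j ∈ Ico m K, |α j| * G j +
      c * (k * ((1 + V) * ∑ i ∈ Ico m K, (α i ^ 2 * A i / l i + l i * A i))) := by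
  have c0 : 0 < c := by linarith
  have hA : ∀ i ∈ Ico m K, 0 ≤ A i := fun i hi => h.nn i (hS hi)
  have kb : ∀ j, m ≤ j → j < K → |kl κ m j j| ≤ c := fun j h1 h2 => by
    simp only [kl]
    split_ifs with h3
    · rw [min_eq_right (Nat.sub_le j 1)]
      exact h0 j (j - 1) h1 h2 (by omega) (by omega) (by omega)
    · simpa using c0.le
  have e : ∑ j ∈ Ico m K, α j * (∑ y ∈ Ico m j, κ j y * (φ y * C j y) +
        ∑ y ∈ Ico (j + 1) K, κ j y * (φ y * C j y)) =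
      ∑ j ∈ Ico m K, ∑ y ∈ Ico m K, (α j * kl κ m j y) * (φ y * C j y) -
        ∑ j ∈ Ico m K, α j * (kl κ m j j * (φ j * C j j)) +
        2 * c * ∑ y ∈ Ico m K, ∑ j ∈ Ico m y,
          (α j * (κ j y - kl κ m j j) / (2 * c)) * (φ y * C j y) := by
    rw [← sum_Ico_Ico_comm', mul_sum, ← sum_sub_distrib, ← sum_add_distrib]
    refine sum_congr rfl fun j hj => ?_
    rw [row_split κ (fun y => φ y * C j y) (mem_Ico.1 hj).1 (mem_Ico.1 hj).2, mul_add, mul_sub,
      mul_sum, mul_sum, mul_sum]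
    congr 1
    · congr 1
      exact sum_congr rfl fun y _ => by ring
    · exact sum_congr rfl fun y _ => by field_simp
  have b1 := abel_tail' (C := fun i x => φ x * C i x) (κ := fun j y => α j * kl κ m j y)
    (I := Ico m K) (A := A) (r := fun i => |α i|) (s := s) (f := f) (m := m) (b := K) (k0 := k0)
    hA (fun y _ => hs y) (fun y _ => hf y) hk0 hF
    (fun j hj => by
      have hj' := mem_Ico.1 hj
      rw [abs_mul]
      refine mul_le_mul_of_nonneg_left ?_ (abs_nonneg _)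
      simp only [kl]
      split_ifs with h3
      · rw [min_eq_left (by omega)]
        exact h00 j h3 hj'.2
      · simpa using hk0)
    (fun j hj y hy => by
      have hj' := mem_Ico.1 hj
      have hy' := mem_Ico.1 hy
      rw [← mul_sub, abs_mul]
      refine mul_le_mul_of_nonneg_left ?_ (abs_nonneg _)
      simp only [kl]
      split_ifs with h3
      · rcases lt_or_ge (y + 1) j with h4 | h4
        · rw [min_eq_left (by omega), min_eq_left (by omega)]
          exact hd j y hy'.1 h4 hj'.2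
        · rw [min_eq_right (by omega), min_eq_right (by omega)]
          simpa using hs y
      · simpa using hs y)
  simp only [sq_abs] at b1
  have b2 : |∑ j ∈ Ico m K, α j * (kl κ m j j * (φ j * C j j))| ≤
      c * ∑ j ∈ Ico m K, |α j| * G j := by
    rw [mul_sum]
    refine (abs_sum_le_sum_abs _ _).trans (sum_le_sum fun j hj => ?_)
    have hj' := mem_Ico.1 hj
    rw [abs_mul, abs_mul, abs_mul, mul_left_comm c]
    refine mul_le_mul_of_nonneg_left (mul_le_mul (kb j hj'.1 hj'.2) ?_ (by positivity) c0.le)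
      (abs_nonneg _)
    exact (mul_le_of_le_one_left (abs_nonneg _) (hφ j)).trans (hG j hj'.1 hj'.2)
  have b3 := h.tri (κ := fun j y => α j * (κ j y - kl κ m j j) / (2 * c)) (r := fun i => |α i|)
    (s := s) (l := l) φ (a := m) (b := K) (k := k) (V := V) hk hS (fun y _ => hs y) hV hl hm
    (fun j y h1 h2 h3 => by
      have k1 := h0 j y h1 (by omega) (by omega) h3 (by omega)
      have k2 := kb j h1 (by omega)
      rw [mul_div_assoc, abs_mul]
      refine mul_le_of_le_one_right (abs_nonneg _) ?_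
      rw [abs_div, abs_of_pos (by positivity : 0 < 2 * c), div_le_one (by positivity)]
      exact (abs_sub _ _).trans (by linarith))
    (fun j y h1 h2 h3 => by
      have k1 := hu j y h1 h2 h3
      rw [← sub_div, ← mul_sub, mul_div_assoc, abs_mul]
      refine mul_le_mul_of_nonneg_left ?_ (abs_nonneg _)
      rw [abs_div, abs_of_pos (by positivity : 0 < 2 * c), div_le_iff₀ (by positivity),
        sub_sub_sub_cancel_right]
      nlinarith [hs y])
  simp only [sq_abs] at b3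
  have V0 : 0 ≤ V := (sum_nonneg fun y _ => hs y).trans hV
  have b4 : ∑ i ∈ Ico m K, (α i ^ 2 * A i / l i + l i * (φ i ^ 2 * A i)) ≤
      ∑ i ∈ Ico m K, (α i ^ 2 * A i / l i + l i * A i) := sum_le_sum fun i hi => by
    have : φ i ^ 2 ≤ 1 := by rw [← sq_abs]; nlinarith [hφ i, abs_nonneg (φ i)]
    have := mul_le_of_le_one_left (hA i hi) this
    have := mul_le_mul_of_nonneg_left this (hl i).le
    linarith
  have b5 := mul_le_mul_of_nonneg_left (mul_le_mul_of_nonneg_left b4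
    (show 0 ≤ (1 + V) / 2 by positivity)) (Nat.cast_nonneg (α := ℝ) k)
  have b6 := mul_le_mul_of_nonneg_left (b3.trans b5) (show 0 ≤ 2 * c by positivity)
  rw [e]
  refine (abs_add_le _ _).trans (add_le_add ((abs_sub _ _).trans (add_le_add b1 b2)) ?_)
  rw [abs_mul, abs_of_pos (by positivity : 0 < 2 * c)]
  refine b6.trans_eq (by ring)

end Crest.Agent.T156.Cas.Tri18
end

-- ▼ part T156/RowT_18
section

/-!
# Row 156 (helper18): tools for the rows (one edge at the level `j`)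
-/

set_option autoImplicit false
set_option linter.all false

noncomputable section

namespace Crest.Agent.T156.Cas.Q21

open Finset
open Crest.Agent.T157.E Crest.Agent.T157.Casc Crest.Agent.T157.SL
open Crest.Agent.T156.Cas.Q75
open Crest.Agent.T156.Cas.Q75.A10 (ind)
open Nu87 Wt87 Tri18

namespace R18

theorem split2 {g : ℕ → ℝ} {m j K : ℕ} (h1 : m ≤ j) (h2 : j < K) (hj : g j = 0) (hK : g K = 0) :
    ∑ y ∈ Ico m (K + 1), g y = ∑ y ∈ Ico m j, g y + ∑ y ∈ Ico (j + 1) K, g y := by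
  rw [sum_Ico_succ_top (h1.trans h2.le), hK, add_zero, ← sum_Ico_consecutive _ h1 h2.le,
    sum_eq_sum_Ico_succ_bot h2, hj, zero_add]

variable {Θ : Type} {L : List (Lv Θ)} {c B : Tw} {j₁ : ℕ} {c₀ : ℝ} {p s a φ f : ℕ → ℝ}
  {b : ℕ → ℕ → ℝ} {V : Type} [AddCommGroup V] [Module ℝ V] {ip : LinearMap.BilinForm ℝ V}
  {δ : ℕ → V} {π : ℕ → ℕ → V} {P : ℕ → V →ₗ[ℝ] V}

/-- the non-local part with the old edge at `j` -/
theorem NL_row (hc : c.tr.Eqv c L.length) (hB : B.tr.Eqv B L.length) (hφ : ∀ x < j₁, φ x = 0)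
    (hK : dm L 0 L.length = 0) {j : ℕ} (h1 : j₁ ≤ j) (h2 : j < L.length) :
    NL L (((wt (ind j) fun x => nj j x * φ x).mul c).mul B) =
      dm L 0 j * ∑ y ∈ Ico j₁ j, dm L 0 y * φ y * LO L (c.mul B) y j +
      dm L 0 j * ∑ x ∈ Ico (j + 1) L.length, dm L 0 x * φ x * LO L (c.mul B) j x +
      ∑ z ∈ range L.length, dm L 0 z * if z < j then
        (∑ k ∈ Ico (max (z + 1) j₁) j, c.off L.length z j k *
            (φ k * (dm L 0 j * dm L 0 k * B.off L.length z j k)) +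
          ∑ k ∈ Ico (j + 1) L.length, c.off L.length z j k *
            (φ k * (dm L 0 j * dm L 0 k * B.off L.length z j k))) else 0 := by
  have i0 : ∀ x, x ≠ j → ind j x = 0 := fun x h => if_neg h
  have i1 : ind j j = 1 := if_pos rfl
  have n0 : nj j j = 0 := if_pos rfl
  have n1 : ∀ x, x ≠ j → nj j x = 1 := fun x h => if_neg h
  rw [NL_eq (j₁ := j₁) hc hB (fun x hx => i0 x (by omega)) fun x hx => by rw [hφ x hx, mul_zero]]
  congr 1
  · congr 1
    · rw [sum_eq_single_of_mem j (mem_Ico.2 ⟨h1, by omega⟩) fun x _ hx => by simp [i0 x hx],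
        sum_Ico_succ_top h1, n0, mul_sum]
      simp only [zero_mul, mul_zero, add_zero]
      exact sum_congr rfl fun y hy => by
        rw [i1, n1 y (by have := mem_Ico.1 hy; omega)]; ring
    · rw [← sum_Ico_Ico_comm',
        sum_eq_single_of_mem j (mem_Ico.2 ⟨h1, by omega⟩) fun x _ hx => by simp [i0 x hx],
        sum_Ico_succ_top (show j + 1 ≤ L.length from h2), hK, mul_sum]
      simp only [zero_mul, mul_zero, add_zero]
      exact sum_congr rfl fun y hy => by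
        rw [i1, n1 y (by have := mem_Ico.1 hy; omega)]; ring
  · refine sum_congr rfl fun z _ => ?_
    congr 1
    split_ifs with hz
    · rw [sum_eq_single_of_mem j (mem_Ico.2 ⟨hz, by omega⟩) fun x _ hx => by simp [i0 x hx],
        sum_cut (j := j₁) fun k hk => by simp [hφ k hk],
        split2 (j := j) (max_le hz h1) h2 (by simp [n0]) (by simp [hK])]
      congr 1 <;> exact sum_congr rfl fun y hy => by
        rw [i1, n1 y (by have := mem_Ico.1 hy; omega)]; ring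
    · exact sum_eq_zero fun x hx => by simp [i0 x (by have := mem_Ico.1 hx; omega)]

theorem lo_dec (H : BH L B j₁ c₀ p s a b ip δ π P) {y x : ℕ} {κ : ℝ} (hy : y ≤ x)
    (hx : x ≤ L.length) (h0 : ∀ t, y ≤ t → t ≤ L.length + 1 → |c.lo L.length y x t| ≤ κ) :
    |LO L (c.mul B) y x - (LO L c y x * ip (δ x) (δ y) -
      2 * Pt L c ip δ π y x)| ≤ 8 * (κ * (b y x * a x)) := by
  have κ0 : 0 ≤ κ := (abs_nonneg _).trans (h0 y le_rfl (by omega))
  set Y : ℕ → ℝ := fun t => B.lo L.length y x t - (ip (δ x) (δ y) + ip (δ x) (π y (min t x)))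
  have hY : ∀ t, y ≤ t → t ≤ L.length + 1 → |c.lo L.length y x t * Y t| ≤ κ * (b y x * a x) :=
    fun t h2 h3 => by
      rw [abs_mul]
      refine mul_le_mul (h0 t h2 h3) ?_ (abs_nonneg _) κ0
      rcases le_or_gt t x with h | h
      · simp only [Y, min_eq_left h, H.bs.lo1 y x t h2 h hx, sub_self, abs_zero]
        exact mul_nonneg (H.b0 y x) (H.bs.a0 x)
      · simp only [Y, min_eq_right h.le]
        exact H.lo3 y x t hy h h3 hx
  have e : ∀ t, y ≤ t → (c.mul B).lo L.length y x t =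
      ip (δ x) (δ y) * c.lo L.length y x t + ∑ u ∈ Ico y x, ip (δ x) (π y (u + 1) - π y u) *
        (if u < t then c.lo L.length y x t else 0) + c.lo L.length y x t * Y t := fun t ht => by
    have : ∑ u ∈ Ico y x, ip (δ x) (π y (u + 1) - π y u) *
        (if u < t then c.lo L.length y x t else 0) =
        ip (δ x) (π y (min t x)) * c.lo L.length y x t := by
      simp only [mul_ite, mul_zero]
      rw [← sum_filter, ← sum_mul, ← map_sum, show filter (· < t) (Ico y x) = Ico y (min t x) by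
        ext u; simp only [mem_filter, mem_Ico]; omega,
        sum_Ico_sub (π y) (le_min ht hy), H.bs.pi0, sub_zero]
    rw [lo_mul, this]
    simp only [Y]
    ring
  have e1 : cP L (c.mul B) y y x = ip (δ x) (δ y) * cP L c y y x + Pt L c ip δ π y x +
      (Lg L y (fun t => c.lo L.length y x t * Y t) + Lx L x fun t => c.lo L.length y x t * Y t) := by
    rw [cP, Lg_congr (hy.trans hx) fun t h _ => e t h.le, Lx_congr hx fun t h _ => e t (hy.trans h),
      Lg_add, Lg_add, Lx_add, Lx_add, Lg_mul, Lx_mul, Lg_sum, Lx_sum, Q75.Pt, cP,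
      sum_congr rfl (g := fun u => ip (δ x) (π y (u + 1) - π y u) * Lg L u (c.lo L.length y x))
        fun u hu => by
          rw [Lg_mul, Lg_cut (mem_Ico.1 hu).1 ((mem_Ico.1 hu).2.le.trans hx)],
      sum_congr rfl (f := fun u => Lx L x _)
        (g := fun u => ip (δ x) (π y (u + 1) - π y u) * Lx L x (c.lo L.length y x)) fun u hu => by
          rw [Lx_mul, Lx_congr hx fun t h _ => if_pos ((mem_Ico.1 hu).2.trans_le h)]]
    simp only [cP, add_mul, sum_add_distrib, mul_comm (ip (δ x) (π y _ - π y _))]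
    ring
  have e2 : (c.mul B).lo L.length y x y = c.lo L.length y x y * ip (δ x) (δ y) := by
    rw [lo_mul, H.bs.lo1 y x y le_rfl hy hx, H.bs.pi0, map_zero, add_zero]
  have h := abs_LL_le H.mono hy hx hY
  rw [LO, LO, e1, e2]
  rw [abs_le] at h ⊢
  constructor <;> nlinarith [h.1, h.2]

theorem abs_LO (hL : Mono 0 L) {y x : ℕ} {κ : ℝ} (hy : y ≤ x)
    (hx : x ≤ L.length) (h0 : ∀ t, y ≤ t → t ≤ L.length + 1 → |c.lo L.length y x t| ≤ κ) :
    |LO L c y x| ≤ 10 * κ := by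
  have h1 : |cP L c y y x| ≤ 4 * κ := abs_LL_le hL hy hx h0
  have h2 := h0 y le_rfl (by omega)
  have h3 : dm L 0 y ≤ 1 := by
    simpa using sum_dm_le_one hL (A := {y}) (by simp; omega)
  have h4 := Tay38.ex_le_one hL y
  have h5 : |(dm L 0 y + ex L y) * c.lo L.length y x y| ≤ 2 * κ := by
    rw [abs_mul, abs_of_nonneg (add_nonneg (dm_nonneg hL y) (ex_nonneg hL y))]
    exact mul_le_mul (by linarith) h2 (abs_nonneg _) zero_le_two
  rw [LO]
  rw [abs_le] at h1 h5 ⊢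
  constructor <;> linarith [h1.1, h1.2, h5.1, h5.2]

theorem BH.s0 (H : BH L B j₁ c₀ p s a b ip δ π P) (i : ℕ) : 0 ≤ s i :=
  (dm_nonneg H.mono i).trans (H.ds i)

/-- the martingale part above `j` -/
theorem pi_up (H : BH L B j₁ c₀ p s a b ip δ π P) (W : Wf L j₁ ip δ φ f) {y : ℕ}
    (R : RowR L c j₁ y c₀ p s) (h1 : j₁ ≤ y) (hy : y ≤ L.length) :
    |∑ x ∈ Ico y (L.length + 1), dm L 0 x * φ x * Pt L c ip δ π y x| ≤
      a y * (4 * c₀ * f (y + 1) + ∑ i ∈ Ico j₁ L.length, s i * f (i + 1)) := by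
  set F : ℕ → V := fun y => ∑ x ∈ Ico y (L.length + 1), (dm L 0 x * φ x) • δ x with hF
  set d : ℕ → V := fun u => π y (u + 1) - π y u with hd
  have e0 : ∀ u v, ∑ x ∈ Ico v (L.length + 1), dm L 0 x * φ x * ip (δ x) (d u) = ip (F v) (d u) :=
    fun u v => by simp only [hF, map_sum, LinearMap.sum_apply, map_smul, LinearMap.smul_apply,
      smul_eq_mul]
  have e1 : ∑ x ∈ Ico y (L.length + 1), dm L 0 x * φ x * Pt L c ip δ π y x =
      ∑ u ∈ Ico y L.length, (cP L c y u (u + 1) * ip (F (u + 1)) (d u) +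
        ∑ j ∈ Ico (u + 1) L.length, (cP L c y u (j + 1) - cP L c y u j) * ip (F (j + 1)) (d u)) := by
    simp only [Q75.Pt, mul_sum]
    rw [← sum_Ico_Ico_comm', sum_Ico_succ_top hy, Ico_self, sum_empty, add_zero]
    refine sum_congr rfl fun u _ => ?_
    have := Rect52.abel_id' (cP L c y u) (fun x => dm L 0 x * φ x * ip (δ x) (d u)) (u + 1)
      (L.length + 1)
    simp only [e0, Nat.add_sub_cancel] at this
    rw [← this]
    exact sum_congr rfl fun x _ => by ring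
  have e2 : ∀ u ∈ Ico y L.length, ip (F (u + 1)) (d u) = ip (F (y + 1)) (d u) := fun u hu => by
    have hu' := mem_Ico.1 hu
    rw [← e0, ← e0, ← sum_Ico_consecutive _ (show y + 1 ≤ u + 1 by omega)
      (show u + 1 ≤ L.length + 1 by omega), sum_eq_zero (s := Ico (y + 1) (u + 1)) fun v hv => by
        rw [H.bs.or1 y u v hu'.1 hu'.2 (by have := mem_Ico.1 hv; omega), mul_zero], zero_add]
  have c0 : 0 ≤ c₀ := zero_le_one.trans H.c1
  have pa := H.bs.a0 y
  have b1 : |∑ u ∈ Ico y L.length, cP L c y u (u + 1) * ip (F (u + 1)) (d u)| ≤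
      f (y + 1) * (4 * c₀ * a y) := by
    rw [sum_congr rfl fun u hu => by rw [e2 u hu, ← smul_eq_mul, ← map_smul], ← map_sum]
    refine H.bs.cs (W.nn _) (by positivity) (W.tl _ (by omega))
      (H.bs.mart hy le_rfl fun u h2 h3 => ?_)
    have g := fun t h4 h5 => R.up0 (u + 1) t (by omega) h3 h4 h5
    exact abs_LL_le H.mono (Nat.le_succ u) h3 fun t h4 h5 => g t (h2.trans h4) h5
  have b2 : |∑ u ∈ Ico y L.length, ∑ j ∈ Ico (u + 1) L.length,
      (cP L c y u (j + 1) - cP L c y u j) * ip (F (j + 1)) (d u)| ≤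
      a y * ∑ i ∈ Ico j₁ L.length, s i * f (i + 1) := by
    rw [sum_Ico_Ico_comm', mul_sum]
    refine (abs_sum_le_sum_abs _ _).trans ((sum_le_sum fun j hj => ?_).trans
      (sum_le_sum_of_subset_of_nonneg (Ico_subset_Ico_left h1) fun i _ _ =>
        mul_nonneg pa (mul_nonneg (BH.s0 H i) (W.nn _))))
    have hj' := mem_Ico.1 hj
    rw [sum_congr rfl fun u _ => by rw [← smul_eq_mul, ← map_smul], ← map_sum]
    refine (H.bs.cs (W.nn _) (mul_nonneg (BH.s0 H j) (H.bs.a0 y))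
      (W.tl _ (by omega)) (H.bs.mart hj'.1 hj'.2.le fun u h2 h3 =>
        R.upp u j h2 h3 hj'.2)).trans_eq (by ring)
  rw [e1, sum_add_distrib]
  exact (abs_add_le _ _).trans (by linarith)

theorem or_top (H : Bs L.length B ip δ π P a) {y j n : ℕ} (hy : y ≤ j) (hj : j ≤ n)
    (hn : n ≤ L.length) : ip (δ j) (π y n) = ip (δ j) (π y j) := by
  induction n, hj using Nat.le_induction with
  | base => rfl
  | succ n hj ih =>
    have := H.or1 y n j (hy.trans hj) hn hj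
    rw [map_sub, sub_eq_zero] at this
    rw [this, ih (by omega)]

theorem Pt_eq (H : Bs L.length B ip δ π P a) {y x : ℕ} (hy : y ≤ x) (hx : x ≤ L.length) :
    Pt L c ip δ π y x =
      Lg L y (fun t => c.lo L.length y x t * ip (δ x) (π y (min t L.length))) +
        Lx L x (c.lo L.length y x) * ip (δ x) (π y L.length) := by
  have e : ∀ t, y ≤ t → c.lo L.length y x t * ip (δ x) (π y (min t L.length)) =
      ∑ u ∈ Ico y x, ip (δ x) (π y (u + 1) - π y u) *
        (if u < t then c.lo L.length y x t else 0) := fun t ht => by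
    simp only [mul_ite, mul_zero]
    rw [← sum_filter, ← sum_mul, ← map_sum, show filter (· < t) (Ico y x) = Ico y (min t x) by
      ext u; simp only [mem_filter, mem_Ico]; omega,
      sum_Ico_sub (π y) (le_min ht hy), H.pi0, sub_zero, mul_comm]
    congr 1
    rcases le_total t x with h | h
    · rw [min_eq_left h, min_eq_left (h.trans hx)]
    · rw [min_eq_right h, or_top H hy (le_min h hx) (min_le_right _ _)]
  rw [Lg_congr (hy.trans hx) fun t h _ => e t h.le, Lg_sum, Q75.Pt,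
    sum_congr rfl (f := fun u => Lg L y _)
      (g := fun u => ip (δ x) (π y (u + 1) - π y u) * Lg L u (c.lo L.length y x)) fun u hu => by
        rw [Lg_mul, Lg_cut (mem_Ico.1 hu).1 ((mem_Ico.1 hu).2.le.trans hx)],
    or_top H hy hx le_rfl]
  simp only [cP, add_mul, sum_add_distrib]
  rw [← mul_sum, ← map_sum, sum_Ico_sub (π y) hy, H.pi0, sub_zero]
  congr 1
  exact sum_congr rfl fun u _ => mul_comm _ _

end R18

end Crest.Agent.T156.Cas.Q21

end
end

-- ▼ part T156/RowA_18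

/-!
# Row 156 (helper18): `RowAS`, one edge at the level `j`, summed over `j` with a density
-/

set_option autoImplicit false
set_option linter.all false

noncomputable section

namespace Crest.Agent.T156.Cas.Q21

open Finset
open Crest.Agent.T157.E Crest.Agent.T157.Casc Crest.Agent.T157.SL
open Crest.Agent.T156.Cas.Q75
open Crest.Agent.T156.Cas.Q75.A10 (ind)
open Nu87 Wt87 Tri18

namespace R18

/-- the hypotheses on the vectors -/
structure AH {Θ : Type} (L : List (Lv Θ)) (j₁ : ℕ) {V : Type} [AddCommGroup V] [Module ℝ V]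
    (ip : LinearMap.BilinForm ℝ V) (δ : ℕ → V) (g : ℝ) (φ f A : ℕ → ℝ) : Prop where
  mono : Mono 0 L
  sym : ∀ u v, ip u v = ip v u
  pos : ∀ u, 0 ≤ ip u u
  top : dm L 0 L.length = 0
  wf : Wf L j₁ ip δ φ f
  g : ∀ j, ip (δ j) (δ j) ≤ g ^ 2
  A0 : ∀ j, 0 ≤ A j
  add : ∀ θ : ℕ → ℝ, ip (∑ x ∈ Ico j₁ L.length, (dm L 0 x * θ x) • δ x)
    (∑ x ∈ Ico j₁ L.length, (dm L 0 x * θ x) • δ x) ≤
      ∑ x ∈ Ico j₁ L.length, dm L 0 x * (θ x ^ 2 * A x)

variable {Θ : Type} {L : List (Lv Θ)} {B : Tw} {j₁ : ℕ} {c₀ g : ℝ} {p s a φ f α l A : ℕ → ℝ}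
  {b : ℕ → ℕ → ℝ} {V : Type} [AddCommGroup V] [Module ℝ V] {ip : LinearMap.BilinForm ℝ V}
  {δ : ℕ → V} {π : ℕ → ℕ → V} {P : ℕ → V →ₗ[ℝ] V}

theorem AH.sub (H : AH L j₁ ip δ g φ f A) {T : Finset ℕ} (hT : T ⊆ Ico j₁ L.length) (θ : ℕ → ℝ) :
    ip (∑ x ∈ T, (dm L 0 x * θ x) • δ x) (∑ x ∈ T, (dm L 0 x * θ x) • δ x) ≤
      ∑ x ∈ T, θ x ^ 2 * (dm L 0 x * A x) := by
  have := H.add fun x => if x ∈ T then θ x else 0
  rw [← sum_subset hT fun x _ hx => by simp [hx], ← sum_subset hT fun x _ hx => by simp [hx],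
    sum_congr rfl (g := fun x => (dm L 0 x * θ x) • δ x) fun x hx => by rw [if_pos hx],
    sum_congr rfl (s₁ := T) (g := fun x => θ x ^ 2 * (dm L 0 x * A x)) fun x hx => by
      rw [if_pos hx]; ring] at this
  exact this

theorem AH.tail (H : AH L j₁ ip δ g φ f A) {y : ℕ} (hy : j₁ ≤ y) :
    ip (∑ x ∈ Ico y L.length, (dm L 0 x * φ x) • δ x)
      (∑ x ∈ Ico y L.length, (dm L 0 x * φ x) • δ x) ≤ f y ^ 2 := by
  have := H.wf.tl y hy
  rwa [← sum_subset (Ico_subset_Ico_right (Nat.le_succ L.length)) fun x h1 h2 => by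
    rw [mem_Ico] at h1 h2
    rw [show x = L.length by omega, H.top, zero_mul, zero_smul]] at this

theorem AH.sq_le (H : AH L j₁ ip δ g φ f A) {T : Finset ℕ} (hT : T ⊆ Ico j₁ L.length) :
    √(∑ x ∈ T, α x ^ 2 * (dm L 0 x * A x)) ≤
      √(∑ x ∈ Ico j₁ L.length, dm L 0 x * (α x ^ 2 * A x)) :=
  Real.sqrt_le_sqrt ((sum_le_sum_of_subset_of_nonneg hT fun x _ _ =>
    mul_nonneg (sq_nonneg _) (mul_nonneg (dm_nonneg H.mono x) (H.A0 x))).trans_eq
      (sum_congr rfl fun x _ => by ring))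

/-- a density against one vector -/
theorem AH.pv (H : AH L j₁ ip δ g φ f A) {T : Finset ℕ} (hT : T ⊆ Ico j₁ L.length) {θ : ℕ → ℝ}
    {κ e : ℝ} (hκ : 0 ≤ κ) (he : 0 ≤ e) (hθ : ∀ j ∈ T, |θ j| ≤ |α j| * κ) {w : V}
    (hw : ip w w ≤ e ^ 2) : |∑ j ∈ T, dm L 0 j * θ j * ip (δ j) w| ≤
      κ * e * √(∑ x ∈ Ico j₁ L.length, dm L 0 x * (α x ^ 2 * A x)) := by
  have h1 := ip_cs ip H.sym H.pos _ _ (H.sub hT θ) hw
  simp only [map_sum, LinearMap.sum_apply, map_smul, LinearMap.smul_apply, smul_eq_mul] at h1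
  rw [Real.sqrt_sq he] at h1
  have h2 := sqrt_coef (A := fun x => dm L 0 x * A x) (r := fun j => |α j|) hκ
    (fun x _ => mul_nonneg (dm_nonneg H.mono x) (H.A0 x)) hθ
  simp only [sq_abs] at h2
  have h3 := mul_le_mul_of_nonneg_left (H.sq_le (α := α) hT) hκ
  exact h1.trans ((mul_le_mul_of_nonneg_right (h2.trans h3) he).trans_eq (by ring))

/-- the row bound for the vectors `Q δ` -/
theorem AH.row (H : AH L j₁ ip δ g φ f A) (Q : V →ₗ[ℝ] V) (hQ : ∀ u, ip (Q u) (Q u) ≤ ip u u)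
    {κ : ℕ → ℕ → ℝ} {m : ℕ} {c k0 : ℝ} (hm : j₁ ≤ m) (hs : ∀ y, 0 ≤ s y) (hl : ∀ i, 0 < l i)
    (hl' : Monotone l) (hc : 1 ≤ c) (hk0 : 0 ≤ k0)
    (h0 : ∀ j y, m ≤ j → j < L.length → m ≤ y → y < L.length → y ≠ j → |κ j y| ≤ c)
    (h00 : ∀ j, m < j → j < L.length → |κ j m| ≤ k0)
    (hd : ∀ j y, m ≤ y → y + 1 < j → j < L.length → |κ j (y + 1) - κ j y| ≤ s y)
    (hu : ∀ j y, m ≤ j → j < y → y + 1 < L.length → |κ j (y + 1) - κ j y| ≤ s y) :
    |∑ j ∈ Ico m L.length, α j *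
      (∑ y ∈ Ico m j, κ j y * (φ y * (dm L 0 j * dm L 0 y * ip (Q (δ j)) (Q (δ y)))) +
        ∑ y ∈ Ico (j + 1) L.length, κ j y * (φ y * (dm L 0 j * dm L 0 y * ip (Q (δ j)) (Q (δ y)))))| ≤
      √(∑ x ∈ Ico j₁ L.length, dm L 0 x * (α x ^ 2 * A x)) *
        (k0 * f m + ∑ i ∈ Ico j₁ L.length, s i * f (i + 1)) +
      c * ∑ j ∈ Ico j₁ L.length, |α j| * dm L 0 j * (g ^ 2 * dm L 0 j) +
      3 * c * (Real.log (L.length + 2) * (1 + ∑ i ∈ Ico j₁ L.length, s i) *
        ∑ x ∈ Ico j₁ L.length, dm L 0 x * (α x ^ 2 * A x / l x + l x * A x)) := by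
  have d0 := dm_nonneg H.mono
  have key : ∀ (T T' : Finset ℕ) (θ ψ : ℕ → ℝ) (u v : ℝ),
      ip (∑ x ∈ T, (dm L 0 x * θ x) • δ x) (∑ x ∈ T, (dm L 0 x * θ x) • δ x) ≤ u →
      ip (∑ x ∈ T', (dm L 0 x * ψ x) • δ x) (∑ x ∈ T', (dm L 0 x * ψ x) • δ x) ≤ v →
      |∑ i ∈ T, ∑ x ∈ T', θ i * ψ x * (dm L 0 i * dm L 0 x * ip (Q (δ i)) (Q (δ x)))| ≤
        √u * √v := fun T T' θ ψ u v h1 h2 => by
    have := ip_cs ip H.sym H.pos _ _ ((hQ _).trans h1) ((hQ _).trans h2)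
    simp only [map_sum Q, map_smul Q] at this
    rw [ip_sum] at this
    refine le_of_eq_of_le ?_ this
    congr 1
    exact sum_congr rfl fun i _ => sum_congr rfl fun x _ => by ring
  have hA : ∀ i, 0 ≤ dm L 0 i * A i := fun i => mul_nonneg (d0 i) (H.A0 i)
  have cr : Cr (fun i x => dm L 0 i * dm L 0 x * ip (Q (δ i)) (Q (δ x)))
      (fun i => dm L 0 i * A i) (fun i => dm L 0 i * A i) (Ico j₁ L.length) :=
    ⟨fun i _ => hA i, fun i _ => hA i, fun θ ψ =>
      key _ _ θ ψ _ _ (H.sub subset_rfl θ) (H.sub subset_rfl ψ)⟩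
  obtain ⟨k, k1, k2⟩ := exists_k L.length
  have sS : Ico m L.length ⊆ Ico j₁ L.length := Ico_subset_Ico_left hm
  have sS' : Ico m (L.length - 1) ⊆ Ico j₁ L.length := Ico_subset_Ico hm (Nat.sub_le _ _)
  have h := cr.row (κ := κ) (α := α) (φ := φ) (s := s) (f := f) (l := l)
    (G := fun j => dm L 0 j * (g ^ 2 * dm L 0 j)) (m := m) (K := L.length) (k := k) (c := c)
    (k0 := k0) (V := ∑ i ∈ Ico j₁ L.length, s i) ((Nat.sub_le _ _).trans k1) sS hs
    (sum_le_sum_of_subset_of_nonneg sS' fun i _ _ => hs i) hl hl' H.wf.nn H.wf.le hc hk0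
    (fun θ y hy => by
      have := key _ _ θ φ _ _ (H.sub sS θ) (H.tail (hm.trans hy))
      rw [Real.sqrt_sq (H.wf.nn y)] at this
      simpa only [mul_sum, mul_assoc] using this)
    (fun j _ _ => by
      rw [abs_of_nonneg (mul_nonneg (mul_nonneg (d0 j) (d0 j)) (H.pos _))]
      exact (mul_le_mul_of_nonneg_left ((hQ _).trans (H.g j))
        (mul_nonneg (d0 j) (d0 j))).trans_eq (by ring)) h0 h00 hd hu
  refine h.trans (add_le_add (add_le_add ?_ ?_) ?_)
  · refine mul_le_mul (H.sq_le sS) (add_le_add le_rfl (sum_le_sum_of_subset_of_nonneg sS'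
      fun i _ _ => mul_nonneg (hs i) (H.wf.nn _))) (add_nonneg (mul_nonneg hk0 (H.wf.nn _))
        (sum_nonneg fun i _ => mul_nonneg (hs i) (H.wf.nn _))) (Real.sqrt_nonneg _)
  · refine mul_le_mul_of_nonneg_left ((sum_le_sum_of_subset_of_nonneg sS fun i _ _ =>
      mul_nonneg (abs_nonneg _) (mul_nonneg (d0 i) (mul_nonneg (sq_nonneg _) (d0 i)))).trans_eq
        (sum_congr rfl fun i _ => by ring)) (by linarith)
  · have n1 : ∀ i, 0 ≤ α i ^ 2 * (dm L 0 i * A i) / l i + l i * (dm L 0 i * A i) := fun i =>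
      add_nonneg (div_nonneg (mul_nonneg (sq_nonneg _) (hA i)) (hl i).le)
        (mul_nonneg (hl i).le (hA i))
    have e1 : ∑ x ∈ Ico j₁ L.length, dm L 0 x * (α x ^ 2 * A x / l x + l x * A x) =
        ∑ i ∈ Ico j₁ L.length, (α i ^ 2 * (dm L 0 i * A i) / l i + l i * (dm L 0 i * A i)) :=
      sum_congr rfl fun i _ => by ring
    have V0 : 0 ≤ 1 + ∑ i ∈ Ico j₁ L.length, s i :=
      add_nonneg zero_le_one (sum_nonneg fun i _ => hs i)
    have h1 := mul_le_mul k2 (mul_le_mul_of_nonneg_left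
      (sum_le_sum_of_subset_of_nonneg sS fun i _ _ => n1 i) V0)
      (mul_nonneg V0 (sum_nonneg fun i _ => n1 i)) ((Nat.cast_nonneg k).trans k2)
    rw [e1]
    exact (mul_le_mul_of_nonneg_left h1 (by linarith)).trans_eq (by ring)

/-- the martingale part below `j` -/
theorem pi_dn (H : BH L B j₁ c₀ p s a b ip δ π P) (H' : AH L j₁ ip δ g φ f A) {c : ℕ → Tw}
    (R : ∀ j, j₁ ≤ j → j < L.length → RowR L (c j) j₁ j c₀ p s) {y : ℕ} (h1 : j₁ ≤ y)
    (hy : y < L.length) :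
    |∑ j ∈ Ico (y + 1) L.length, dm L 0 j * α j * Q75.Pt L (c j) ip δ π y j| ≤
      4 * (p y * a y) * √(∑ x ∈ Ico j₁ L.length, dm L 0 x * (α x ^ 2 * A x)) := by
  have sS : Ico (y + 1) L.length ⊆ Ico j₁ L.length := Ico_subset_Ico_left (by omega)
  have hl : ∀ j ∈ Ico (y + 1) L.length, ∀ t, y ≤ t → t ≤ L.length + 1 →
      |(c j).lo L.length y j t| ≤ p y := fun j hj t h2 h3 =>
    (R j (mem_Ico.1 (sS hj)).1 (mem_Ico.1 hj).2).dn0 y t h1 (mem_Ico.1 hj).1 h2 h3
  have e : ∑ j ∈ Ico (y + 1) L.length, dm L 0 j * α j * Q75.Pt L (c j) ip δ π y j =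
      Lg L y (fun t => ∑ j ∈ Ico (y + 1) L.length,
        dm L 0 j * (α j * (c j).lo L.length y j t) * ip (δ j) (π y (min t L.length))) +
      ∑ j ∈ Ico (y + 1) L.length,
        dm L 0 j * (α j * Lx L j ((c j).lo L.length y j)) * ip (δ j) (π y L.length) := by
    rw [Lg_sum, ← sum_add_distrib]
    refine sum_congr rfl fun j hj => ?_
    have hj' := mem_Ico.1 hj
    rw [Pt_eq H.bs (by omega) hj'.2.le, mul_add, ← Lg_mul]
    congr 1
    · congr 1
      funext t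
      ring
    · ring
  have b1 := abs_Lg_le H.mono hy.le (g := fun t => ∑ j ∈ Ico (y + 1) L.length,
      dm L 0 j * (α j * (c j).lo L.length y j t) * ip (δ j) (π y (min t L.length)))
    fun t h2 h3 => H'.pv (α := α) sS (H.p0 y) (H.bs.a0 y) (fun j hj => by
      rw [abs_mul]
      exact mul_le_mul_of_nonneg_left (hl j hj t h2.le h3) (abs_nonneg _))
      (H.bs.pi_le (le_min h2.le hy.le) (min_le_right _ _))
  have b2 := H'.pv (α := α) (θ := fun j => α j * Lx L j ((c j).lo L.length y j)) sS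
    (mul_nonneg zero_le_two (H.p0 y)) (H.bs.a0 y) (fun j hj => by
      rw [abs_mul]
      have hj' := mem_Ico.1 hj
      exact mul_le_mul_of_nonneg_left (abs_Lx_le H.mono hj'.2.le fun t h2 h3 =>
        hl j hj t (by omega) h3) (abs_nonneg _)) (H.bs.pia y hy.le)
  have n0 := mul_nonneg (mul_nonneg (H.p0 y) (H.bs.a0 y))
    (Real.sqrt_nonneg (∑ x ∈ Ico j₁ L.length, dm L 0 x * (α x ^ 2 * A x)))
  have n1 := mul_nonneg (ex_nonneg H.mono y) n0
  rw [e]
  exact (abs_add_le _ _).trans (by nlinarith)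

/-- the remainder of `LO (c * B)` -/
def rho (L : List (Lv Θ)) (c B : Tw) (ip : LinearMap.BilinForm ℝ V) (δ : ℕ → V) (π : ℕ → ℕ → V)
    (y x : ℕ) : ℝ :=
  LO L (c.mul B) y x - (LO L c y x * ip (δ x) (δ y) - 2 * Q75.Pt L c ip δ π y x)

/-- the part of a row that is bounded row by row -/
theorem err_bd (H : BH L B j₁ c₀ p s a b ip δ π P) (W : Wf L j₁ ip δ φ f)
    (hK : dm L 0 L.length = 0) {c : Tw} {j : ℕ} (R : RowR L c j₁ j c₀ p s) (h1 : j₁ ≤ j)
    (h2 : j < L.length) :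
    |∑ y ∈ Ico j₁ j, dm L 0 y * φ y * rho L c B ip δ π y j +
      ∑ x ∈ Ico (j + 1) L.length, dm L 0 x * φ x * rho L c B ip δ π j x -
      2 * ∑ x ∈ Ico (j + 1) L.length, dm L 0 x * φ x * Q75.Pt L c ip δ π j x| ≤
      8 * c₀ * RwE L j₁ j p s a b f := by
  have d0 := dm_nonneg H.mono
  have c1 := H.c1
  have b1 : |∑ y ∈ Ico j₁ j, dm L 0 y * φ y * rho L c B ip δ π y j| ≤
      8 * ∑ y ∈ Ico j₁ j, dm L 0 y * (p y * (b y j * a j)) := by
    rw [mul_sum]
    refine (abs_sum_le_sum_abs _ _).trans (sum_le_sum fun y hy => ?_)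
    have hy' := mem_Ico.1 hy
    rw [abs_mul]
    exact (mul_le_mul (W.abs_le H.mono y) (lo_dec H hy'.2.le h2.le fun t h3 h4 =>
      R.dn0 y t hy'.1 hy'.2 h3 h4) (abs_nonneg _) (d0 y)).trans_eq (by ring)
  have b2 : |∑ x ∈ Ico (j + 1) L.length, dm L 0 x * φ x * rho L c B ip δ π j x| ≤
      8 * c₀ * ∑ x ∈ Ioc j L.length, dm L 0 x * (b j x * a x) := by
    rw [mul_sum]
    refine (abs_sum_le_sum_abs _ _).trans ((sum_le_sum fun x hx => ?_).trans
      (sum_le_sum_of_subset_of_nonneg (fun x hx => by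
        rw [mem_Ico] at hx; rw [mem_Ioc]; omega) fun x _ _ => mul_nonneg (by linarith)
          (mul_nonneg (d0 x) (mul_nonneg (H.b0 j x) (H.bs.a0 x)))))
    have hx' := mem_Ico.1 hx
    rw [abs_mul]
    exact (mul_le_mul (W.abs_le H.mono x) (lo_dec H (by omega) hx'.2.le fun t h3 h4 =>
      R.up0 x t hx'.1 hx'.2.le h3 h4) (abs_nonneg _) (d0 x)).trans_eq (by ring)
  have b3 := pi_up H W R h1 h2.le
  rw [split2 (j := j) le_rfl h2 (by simp [Q75.Pt]) (by simp [hK]), Ico_self, sum_empty,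
    zero_add] at b3
  have n1 : 0 ≤ ∑ y ∈ Ico j₁ j, dm L 0 y * (p y * (b y j * a j)) := sum_nonneg fun y _ =>
    mul_nonneg (d0 y) (mul_nonneg (H.p0 y) (mul_nonneg (H.b0 y j) (H.bs.a0 j)))
  have n2 : 0 ≤ a j * ∑ i ∈ Ico j₁ L.length, s i * f (i + 1) := mul_nonneg (H.bs.a0 j)
    (sum_nonneg fun i _ => mul_nonneg (BH.s0 H i) (W.nn _))
  have m1 := mul_le_mul_of_nonneg_right c1 n1
  have m2 := mul_le_mul_of_nonneg_right c1 n2
  rw [RwE]
  rw [abs_le] at b1 b2 b3 ⊢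
  constructor <;> nlinarith [b1.1, b1.2, b2.1, b2.2, b3.1, b3.2]

theorem low_tail (H : BH L B j₁ c₀ p s a b ip δ π P) (hf : ∀ y, 0 ≤ f y) :
    ∑ z ∈ range L.length, dm L 0 z * f (max (z + 1) j₁) ≤
      p j₁ * f j₁ + ∑ i ∈ Ico j₁ L.length, s i * f (i + 1) := by
  have d0 := dm_nonneg H.mono
  have : range L.length ⊆ range j₁ ∪ Ico j₁ L.length := fun i hi => by
    simp only [mem_union, mem_range, mem_Ico] at hi ⊢; omega
  refine (sum_le_sum_of_subset_of_nonneg this fun i _ _ => mul_nonneg (d0 i) (hf _)).trans ?_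
  rw [sum_union (disjoint_left.2 fun i h1 h2 => by
    rw [mem_range] at h1; rw [mem_Ico] at h2; omega)]
  refine add_le_add ?_ (sum_le_sum fun i hi => ?_)
  · rw [sum_congr rfl fun z hz => by rw [max_eq_right (mem_range.1 hz)], ← sum_mul]
    exact mul_le_mul_of_nonneg_right H.low (hf _)
  · rw [max_eq_left ((mem_Ico.1 hi).1.trans (Nat.le_succ i))]
    exact mul_le_mul_of_nonneg_right (H.ds i) (hf _)

/-- the branches that leave the trunk below `j` -/
theorem off_bd (H : BH L B j₁ c₀ p s a b ip δ π P) (H' : AH L j₁ ip δ g φ f A) {c : ℕ → Tw}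
    (R : ∀ j, j₁ ≤ j → j < L.length → RowR L (c j) j₁ j c₀ p s) (hl : ∀ i, 0 < l i)
    (hl' : Monotone l) :
    |∑ j ∈ Ico j₁ L.length, α j * ∑ z ∈ range L.length, dm L 0 z * if z < j then
        (∑ k ∈ Ico (max (z + 1) j₁) j, (c j).off L.length z j k *
            (φ k * (dm L 0 j * dm L 0 k * B.off L.length z j k)) +
          ∑ k ∈ Ico (j + 1) L.length, (c j).off L.length z j k *
            (φ k * (dm L 0 j * dm L 0 k * B.off L.length z j k))) else 0| ≤
      √(∑ x ∈ Ico j₁ L.length, dm L 0 x * (α x ^ 2 * A x)) *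
        (c₀ * (p j₁ * f j₁ + ∑ i ∈ Ico j₁ L.length, s i * f (i + 1)) +
          ∑ i ∈ Ico j₁ L.length, s i * f (i + 1)) +
      c₀ * ∑ j ∈ Ico j₁ L.length, |α j| * dm L 0 j * (g ^ 2 * dm L 0 j) +
      3 * c₀ * (Real.log (L.length + 2) * (1 + ∑ i ∈ Ico j₁ L.length, s i) *
        ∑ x ∈ Ico j₁ L.length, dm L 0 x * (α x ^ 2 * A x / l x + l x * A x)) := by
  have d0 := dm_nonneg H.mono
  have c0 : 0 ≤ c₀ := zero_le_one.trans H.c1
  have e : ∑ j ∈ Ico j₁ L.length, α j * ∑ z ∈ range L.length, dm L 0 z * (if z < j then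
        (∑ k ∈ Ico (max (z + 1) j₁) j, (c j).off L.length z j k *
            (φ k * (dm L 0 j * dm L 0 k * B.off L.length z j k)) +
          ∑ k ∈ Ico (j + 1) L.length, (c j).off L.length z j k *
            (φ k * (dm L 0 j * dm L 0 k * B.off L.length z j k))) else 0) =
      ∑ z ∈ range L.length, dm L 0 z * ∑ j ∈ Ico (max (z + 1) j₁) L.length, α j *
        (∑ k ∈ Ico (max (z + 1) j₁) j, (c j).off L.length z j k *
            (φ k * (dm L 0 j * dm L 0 k * ip (P z (δ j)) (P z (δ k)))) +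
          ∑ k ∈ Ico (j + 1) L.length, (c j).off L.length z j k *
            (φ k * (dm L 0 j * dm L 0 k * ip (P z (δ j)) (P z (δ k))))) := by
    simp only [mul_sum (range L.length), mul_left_comm (α _) (dm L 0 _)]
    rw [sum_comm]
    refine sum_congr rfl fun z _ => ?_
    rw [← mul_sum]
    congr 1
    simp only [mul_ite, mul_zero]
    rw [← sum_filter, show filter (fun j => z < j) (Ico j₁ L.length) =
      Ico (max (z + 1) j₁) L.length by ext u; simp only [mem_filter, mem_Ico]; omega]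
    refine sum_congr rfl fun j hj => ?_
    have hj' := mem_Ico.1 hj
    congr 2 <;> exact sum_congr rfl fun k hk => by
      have hk' := mem_Ico.1 hk
      rw [H.bs.off z j k (by omega) (by omega) (by omega) (by omega)]
  have h := fun z => H'.row (α := α) (l := l) (s := s) (P z) (H.bs.con z)
    (κ := fun j k => (c j).off L.length z j k) (m := max (z + 1) j₁) (c := c₀) (k0 := c₀)
    (le_max_right _ _) (BH.s0 H) hl hl' H.c1 c0
    (fun j y h1 h2 h3 h4 _ => (R j (by omega) h2).of0 z y (by omega) (by omega) h4.le)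
    (fun j h1 h2 => (R j (by omega) h2).of0 z _ (by omega) (by omega) (by omega))
    (fun j y h1 h2 h3 => (R j (by omega) h3).of1 z y (by omega) (by omega) (by omega) (by omega)
      (by omega) (by omega))
    (fun j y h1 h2 h3 => (R j (by omega) (by omega)).of1 z y (by omega) (by omega) (by omega)
      (by omega) (by omega) (by omega))
  have n1 : 0 ≤ ∑ i ∈ Ico j₁ L.length, s i * f (i + 1) :=
    sum_nonneg fun i _ => mul_nonneg (BH.s0 H i) (H'.wf.nn _)
  have n2 : 0 ≤ ∑ j ∈ Ico j₁ L.length, |α j| * dm L 0 j * (g ^ 2 * dm L 0 j) :=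
    sum_nonneg fun i _ => mul_nonneg (mul_nonneg (abs_nonneg _) (d0 i))
      (mul_nonneg (sq_nonneg _) (d0 i))
  have n3 : 0 ≤ Real.log (L.length + 2) * (1 + ∑ i ∈ Ico j₁ L.length, s i) *
      ∑ x ∈ Ico j₁ L.length, dm L 0 x * (α x ^ 2 * A x / l x + l x * A x) :=
    mul_nonneg (mul_nonneg (Real.log_nonneg (by linarith [Nat.cast_nonneg (α := ℝ) L.length]))
      (add_nonneg zero_le_one (sum_nonneg fun i _ => BH.s0 H i)))
      (sum_nonneg fun i _ => mul_nonneg (d0 i) (add_nonneg (div_nonneg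
        (mul_nonneg (sq_nonneg _) (H'.A0 i)) (hl i).le) (mul_nonneg (hl i).le (H'.A0 i))))
  have h1 := low_tail H H'.wf.nn
  have h2 := sum_dm_le_one H.mono (A := range L.length) (range_subset_range.2 (Nat.le_succ _))
  rw [e]
  refine (abs_sum_le_sum_abs _ _).trans ((sum_le_sum fun z _ => (abs_mul _ _).trans_le
    (mul_le_mul (abs_of_nonneg (d0 z)).le (h z) (abs_nonneg _) (d0 z))).trans ?_)
  have n0 := Real.sqrt_nonneg (∑ x ∈ Ico j₁ L.length, dm L 0 x * (α x ^ 2 * A x))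
  generalize √(∑ x ∈ Ico j₁ L.length, dm L 0 x * (α x ^ 2 * A x)) = SA at *
  generalize ∑ i ∈ Ico j₁ L.length, s i * f (i + 1) = SF at *
  generalize ∑ j ∈ Ico j₁ L.length, |α j| * dm L 0 j * (g ^ 2 * dm L 0 j) = DG at *
  generalize Real.log (L.length + 2) * (1 + ∑ i ∈ Ico j₁ L.length, s i) *
      ∑ x ∈ Ico j₁ L.length, dm L 0 x * (α x ^ 2 * A x / l x + l x * A x) = TR at *
  have e2 : ∑ z ∈ range L.length, dm L 0 z * (SA * (c₀ * f (max (z + 1) j₁) + SF) + c₀ * DG +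
      3 * c₀ * TR) = SA * c₀ * ∑ z ∈ range L.length, dm L 0 z * f (max (z + 1) j₁) +
      (∑ z ∈ range L.length, dm L 0 z) * (SA * SF + c₀ * DG + 3 * c₀ * TR) := by
    rw [mul_sum, sum_mul, ← sum_add_distrib]
    exact sum_congr rfl fun z _ => by ring
  have m1 := mul_le_mul_of_nonneg_left h1 (mul_nonneg n0 c0)
  have m2 := mul_le_mul_of_nonneg_right h2 (show 0 ≤ SA * SF + c₀ * DG + 3 * c₀ * TR by positivity)
  rw [e2]
  linarith

end R18

open R18 in
/-- **one edge at `j`, summed with a density** -/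
theorem rowAS : RowAS := by
  refine ⟨40, by norm_num, ?_⟩
  intro Θ L c B j₁ c₀ g p s a φ f α l A b V _ _ ip δ π P H hK hc W _ _ hg hA hl hl' hadd
  have H' : AH L j₁ ip δ g φ f A := ⟨H.mono, H.bs.sym, H.bs.pos, hK, W, hg, hA, hadd⟩
  have R := fun j h1 h2 => (hc j h1 h2).2
  have lm : Monotone l := monotone_nat_of_le_succ hl'
  have d0 := dm_nonneg H.mono
  have c1 := H.c1
  set κ : ℕ → ℕ → ℝ := fun j y => if y < j then LO L (c j) y j else LO L (c j) j y with hκ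
  have k1 := H'.row (α := α) (l := l) (s := s) LinearMap.id (fun _ => le_rfl) (κ := κ) (m := j₁)
    (c := 10 * c₀) (k0 := 10 * p j₁) le_rfl (BH.s0 H) hl lm (by linarith)
    (by linarith [H.p0 j₁])
    (fun j y h1 h2 h3 h4 h5 => by
      simp only [hκ]
      split_ifs with h6
      · exact (abs_LO H.mono h6.le h2.le fun t h7 h8 => (R j h1 h2).dn0 y t h3 h6 h7 h8).trans
          (by linarith [H.pc y])
      · exact abs_LO H.mono (by omega) h4.le fun t h7 h8 =>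
          (R j h1 h2).up0 y t (by omega) h4.le h7 h8)
    (fun j h1 h2 => by
      simp only [hκ, if_pos h1]
      exact abs_LO H.mono h1.le h2.le fun t h7 h8 => (R j h1.le h2).dn0 j₁ t le_rfl h1 h7 h8)
    (fun j y h1 h2 h3 => by
      simp only [hκ, if_pos h2, if_pos (show y < j by omega)]
      exact (R j (by omega) h3).dn1 y h1 h2)
    (fun j y h1 h2 h3 => by
      simp only [hκ, if_neg (show ¬ y + 1 < j by omega), if_neg (show ¬ y < j by omega)]
      exact (R j h1 (by omega)).up1 y h2 (by omega))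
  have k2 := off_bd (α := α) H H' R hl lm
  have k3 : |∑ y ∈ Ico j₁ L.length, dm L 0 y * φ y *
      ∑ j ∈ Ico (y + 1) L.length, dm L 0 j * α j * Q75.Pt L (c j) ip δ π y j| ≤
      4 * (√(∑ x ∈ Ico j₁ L.length, dm L 0 x * (α x ^ 2 * A x)) *
        ∑ y ∈ Ico j₁ L.length, dm L 0 y * (p y * a y)) := by
    rw [mul_sum, mul_sum]
    refine (abs_sum_le_sum_abs _ _).trans (sum_le_sum fun y hy => ?_)
    rw [abs_mul]
    exact (mul_le_mul (W.abs_le H.mono y) (pi_dn H H' R (mem_Ico.1 hy).1 (mem_Ico.1 hy).2)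
      (abs_nonneg _) (d0 y)).trans_eq (by ring)
  have k4 : |∑ j ∈ Ico j₁ L.length, α j * dm L 0 j *
      (∑ y ∈ Ico j₁ j, dm L 0 y * φ y * rho L (c j) B ip δ π y j +
      ∑ x ∈ Ico (j + 1) L.length, dm L 0 x * φ x * rho L (c j) B ip δ π j x -
      2 * ∑ x ∈ Ico (j + 1) L.length, dm L 0 x * φ x * Q75.Pt L (c j) ip δ π j x)| ≤
      8 * c₀ * ∑ j ∈ Ico j₁ L.length, |α j| * dm L 0 j * RwE L j₁ j p s a b f := by
    rw [mul_sum]
    refine (abs_sum_le_sum_abs _ _).trans (sum_le_sum fun j hj => ?_)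
    have hj' := mem_Ico.1 hj
    rw [abs_mul, abs_mul, abs_of_nonneg (d0 j)]
    exact (mul_le_mul_of_nonneg_left (err_bd H W hK (R j hj'.1 hj'.2) hj'.1 hj'.2)
      (mul_nonneg (abs_nonneg _) (d0 j))).trans_eq (by ring)
  have e3 : ∑ y ∈ Ico j₁ L.length, dm L 0 y * φ y *
      ∑ j ∈ Ico (y + 1) L.length, dm L 0 j * α j * Q75.Pt L (c j) ip δ π y j =
      ∑ j ∈ Ico j₁ L.length, α j * dm L 0 j *
        ∑ y ∈ Ico j₁ j, dm L 0 y * φ y * Q75.Pt L (c j) ip δ π y j := by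
    simp only [mul_sum]
    rw [sum_Ico_Ico_comm']
    exact sum_congr rfl fun j _ => sum_congr rfl fun y _ => by ring
  have e4 : ∀ j ∈ Ico j₁ L.length,
      dm L 0 j * ∑ y ∈ Ico j₁ j, dm L 0 y * φ y * LO L ((c j).mul B) y j +
      dm L 0 j * ∑ x ∈ Ico (j + 1) L.length, dm L 0 x * φ x * LO L ((c j).mul B) j x =
      (∑ y ∈ Ico j₁ j, κ j y * (φ y * (dm L 0 j * dm L 0 y * ip (δ j) (δ y))) +
        ∑ y ∈ Ico (j + 1) L.length, κ j y * (φ y * (dm L 0 j * dm L 0 y * ip (δ j) (δ y)))) -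
      2 * (dm L 0 j * ∑ y ∈ Ico j₁ j, dm L 0 y * φ y * Q75.Pt L (c j) ip δ π y j) +
      dm L 0 j * (∑ y ∈ Ico j₁ j, dm L 0 y * φ y * rho L (c j) B ip δ π y j +
      ∑ x ∈ Ico (j + 1) L.length, dm L 0 x * φ x * rho L (c j) B ip δ π j x -
      2 * ∑ x ∈ Ico (j + 1) L.length, dm L 0 x * φ x * Q75.Pt L (c j) ip δ π j x) := fun j _ => by
    have a1 : dm L 0 j * ∑ y ∈ Ico j₁ j, dm L 0 y * φ y * LO L ((c j).mul B) y j =
        ∑ y ∈ Ico j₁ j, κ j y * (φ y * (dm L 0 j * dm L 0 y * ip (δ j) (δ y))) -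
        2 * (dm L 0 j * ∑ y ∈ Ico j₁ j, dm L 0 y * φ y * Q75.Pt L (c j) ip δ π y j) +
        dm L 0 j * ∑ y ∈ Ico j₁ j, dm L 0 y * φ y * rho L (c j) B ip δ π y j := by
      simp only [mul_sum, ← sum_sub_distrib, ← sum_add_distrib]
      refine sum_congr rfl fun y hy => ?_
      simp only [hκ, if_pos (mem_Ico.1 hy).2, rho]
      ring
    have a2 : dm L 0 j * ∑ x ∈ Ico (j + 1) L.length, dm L 0 x * φ x * LO L ((c j).mul B) j x =
        ∑ y ∈ Ico (j + 1) L.length, κ j y * (φ y * (dm L 0 j * dm L 0 y * ip (δ j) (δ y))) +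
        dm L 0 j * ∑ x ∈ Ico (j + 1) L.length, dm L 0 x * φ x * rho L (c j) B ip δ π j x -
        2 * (dm L 0 j *
          ∑ x ∈ Ico (j + 1) L.length, dm L 0 x * φ x * Q75.Pt L (c j) ip δ π j x) := by
      simp only [mul_sum, ← sum_sub_distrib, ← sum_add_distrib]
      refine sum_congr rfl fun y hy => ?_
      simp only [hκ, if_neg (show ¬ y < j by have := mem_Ico.1 hy; omega), rho, H.bs.sym (δ j)]
      ring
    rw [a1, a2]
    ring
  rw [e3] at k3
  simp only [LinearMap.id_coe, id] at k1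
  rw [sum_congr rfl fun j hj => by
    rw [NL_row (hc j (mem_Ico.1 hj).1 (mem_Ico.1 hj).2).1 H.btr W.lw hK (mem_Ico.1 hj).1
      (mem_Ico.1 hj).2, e4 j hj, mul_add, mul_add, mul_sub, mul_left_comm (α j) 2,
      ← mul_assoc (α j) (dm L 0 j), ← mul_assoc (α j) (dm L 0 j)],
    sum_add_distrib, sum_add_distrib, sum_sub_distrib, ← mul_sum]
  have e5 : ∑ j ∈ Ico j₁ L.length, |α j| * dm L 0 j * (g ^ 2 * dm L 0 j + RwE L j₁ j p s a b f) =
      ∑ j ∈ Ico j₁ L.length, |α j| * dm L 0 j * (g ^ 2 * dm L 0 j) +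
      ∑ j ∈ Ico j₁ L.length, |α j| * dm L 0 j * RwE L j₁ j p s a b f := by
    simp only [mul_add, sum_add_distrib]
  have n1 : 0 ≤ ∑ i ∈ Ico j₁ L.length, s i * f (i + 1) :=
    sum_nonneg fun i _ => mul_nonneg (BH.s0 H i) (W.nn _)
  have n2 : 0 ≤ ∑ j ∈ Ico j₁ L.length, |α j| * dm L 0 j * (g ^ 2 * dm L 0 j) :=
    sum_nonneg fun i _ => mul_nonneg (mul_nonneg (abs_nonneg _) (d0 i))
      (mul_nonneg (sq_nonneg _) (d0 i))
  have n3 : 0 ≤ Real.log (L.length + 2) * (1 + ∑ i ∈ Ico j₁ L.length, s i) *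
      ∑ x ∈ Ico j₁ L.length, dm L 0 x * (α x ^ 2 * A x / l x + l x * A x) :=
    mul_nonneg (mul_nonneg (Real.log_nonneg (by linarith [Nat.cast_nonneg (α := ℝ) L.length]))
      (add_nonneg zero_le_one (sum_nonneg fun i _ => BH.s0 H i)))
      (sum_nonneg fun i _ => mul_nonneg (d0 i) (add_nonneg (div_nonneg
        (mul_nonneg (sq_nonneg _) (hA i)) (hl i).le) (mul_nonneg (hl i).le (hA i))))
  have n4 : 0 ≤ ∑ j ∈ Ico j₁ L.length, |α j| * dm L 0 j * RwE L j₁ j p s a b f :=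
    sum_nonneg fun j _ => mul_nonneg (mul_nonneg (abs_nonneg _) (d0 j)) (add_nonneg (add_nonneg
      (mul_nonneg (H.bs.a0 j) (add_nonneg (W.nn _) n1)) (sum_nonneg fun y _ => mul_nonneg (d0 y)
        (mul_nonneg (H.p0 y) (mul_nonneg (H.b0 y j) (H.bs.a0 j)))))
      (sum_nonneg fun x _ => mul_nonneg (d0 x) (mul_nonneg (H.b0 j x) (H.bs.a0 x))))
  have n5 : 0 ≤ ∑ y ∈ Ico j₁ L.length, dm L 0 y * (p y * a y) :=
    sum_nonneg fun y _ => mul_nonneg (d0 y) (mul_nonneg (H.p0 y) (H.bs.a0 y))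
  have n6 := mul_nonneg (H.p0 j₁) (W.nn j₁)
  have n0 := Real.sqrt_nonneg (∑ x ∈ Ico j₁ L.length, dm L 0 x * (α x ^ 2 * A x))
  rw [e5]
  generalize √(∑ x ∈ Ico j₁ L.length, dm L 0 x * (α x ^ 2 * A x)) = SA at *
  generalize ∑ i ∈ Ico j₁ L.length, s i * f (i + 1) = SF at *
  generalize ∑ j ∈ Ico j₁ L.length, |α j| * dm L 0 j * (g ^ 2 * dm L 0 j) = DG at *
  generalize Real.log (L.length + 2) * (1 + ∑ i ∈ Ico j₁ L.length, s i) *
      ∑ x ∈ Ico j₁ L.length, dm L 0 x * (α x ^ 2 * A x / l x + l x * A x) = TR at *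
  generalize ∑ j ∈ Ico j₁ L.length, |α j| * dm L 0 j * RwE L j₁ j p s a b f = RW at *
  generalize ∑ y ∈ Ico j₁ L.length, dm L 0 y * (p y * a y) = PA at *
  have m1 := mul_le_mul_of_nonneg_right c1 (mul_nonneg n0 n1)
  have m2 := mul_le_mul_of_nonneg_right c1 (mul_nonneg n0 n5)
  have m3 := mul_le_mul_of_nonneg_right c1 (mul_nonneg n0 n6)
  have c0 : 0 ≤ c₀ := by linarith
  have q1 := mul_nonneg c0 (mul_nonneg n0 n1)
  have q2 := mul_nonneg c0 n2
  have q3 := mul_nonneg c0 n3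
  have q4 := mul_nonneg c0 n4
  have q5 := mul_nonneg c0 (mul_nonneg n0 n5)
  have q6 := mul_nonneg c0 (mul_nonneg n0 n6)
  rw [abs_le] at k1 k2 k3 k4 ⊢
  constructor <;> nlinarith [k1.1, k1.2, k2.1, k2.2, k3.1, k3.2, k4.1, k4.2]

end Crest.Agent.T156.Cas.Q21

end
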