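import Crest.Agent.T156.CaHess_87
import Crest.Agent.T156.CaPe_45
import Crest.Agent.T156.CaLc_44
import Crest.Agent.T157.SLC_23

/-!
# Row 156, cascade frame: the exponential Riccati bound (helper43)

Cameron–Martin shifts `± a` of the noise of a window and Cauchy–Schwarz give the value inequality
`val`; boosting turns it into exponential moments at the end of the window.
-/

set_option autoImplicit false
set_option linter.unusedSectionVars false

noncomputable section

namespace Crest.Agent.T156.Cas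

open MeasureTheory Real Set Filter Topology Matrix
open Crest.Agent.T157.E Crest.Agent.T157.Casc Crest.Agent.T157.SL

namespace ERic43

open Pe (lg_add lg_const_mul lg_const lg_sub eg_exp)
open Hess87 (lg_XT boost boost_step X_append node_append Pf_cons eg_Pf)

variable {Ω : Type} [Fintype Ω] {w : Ω → ℝ} {F F₀ F₁ : (Ω → ℝ) → ℝ}

omit [Fintype Ω] in
theorem fld_add (l : Lv Ω) (a g : l.ι → ℝ) : l.fld (a + g) = l.fld a + l.fld g := by
  funext x
  simp [Lv.fld, mul_add, Finset.sum_add_distrib]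

omit [Fintype Ω] in
theorem fld_smul (l : Lv Ω) (c : ℝ) (a : l.ι → ℝ) : l.fld (c • a) = c • l.fld a := by
  funext x
  simp [Lv.fld, Finset.mul_sum, mul_left_comm]

/-- Cameron–Martin at one level -/
theorem cm_lv (hF : Lg F) (l : Lv Ω) (h : Ω → ℝ) (a : l.ι → ℝ) :
    Integrable (fun g => exp (l.m * F (h + l.fld a + l.fld g) - g ⬝ᵥ a - a ⬝ᵥ a / 2)) (gv l.ι) ∧
    ∫ g, exp (l.m * F (h + l.fld a + l.fld g) - g ⬝ᵥ a - a ⬝ᵥ a / 2) ∂gv l.ι =
      ∫ g, exp (l.m * F (h + l.fld g)) ∂gv l.ι := by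
  classical
  set Φ : (l.ι → ℝ) → ℝ := fun z => exp (l.m * F (h + l.fld z) - z ⬝ᵥ a + a ⬝ᵥ a / 2) with hΦ
  have e1 : (fun g => exp (l.m * F (h + l.fld a + l.fld g) - g ⬝ᵥ a - a ⬝ᵥ a / 2)) =
      fun g => Φ (a + g) := by
    funext g
    simp only [hΦ, fld_add, add_assoc, add_dotProduct]
    congr 1
    ring
  have e2 : (fun z => exp (z ⬝ᵥ a - a ⬝ᵥ a / 2) * Φ z) = fun z => exp (l.m * F (h + l.fld z)) := by
    funext z
    simp only [hΦ, ← exp_add]
    congr 1
    ring
  rw [e1, cm_int, cm, e2]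
  exact ⟨(hF.exp l.m).int l h, rfl⟩

theorem lg_mid (h0 : Lg F₀) (h1 : Lg F₁) (u : Ω → ℝ) :
    Lg fun z => 1 / 2 * (F₀ (z + u) + F₁ (z + -u)) :=
  lg_const_mul _ (lg_add (h0.shift u) (h1.shift (-u)))

/-- one level -/
theorem val_step (h0 : Lg F₀) (h1 : Lg F₁) (l : Lv Ω) (hm : 0 < l.m) (h u : Ω → ℝ) (a : l.ι → ℝ)
    (c : ℝ) :
    step l (fun z => 1 / 2 * (F₀ (z + (u + l.fld a)) + F₁ (z + -(u + l.fld a))) + c) h ≤
      1 / 2 * (step l F₀ (h + u) + step l F₁ (h + -u)) + (a ⬝ᵥ a / l.m / 2 + c) := by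
  obtain ⟨i0, e0⟩ := cm_lv h0 l (h + u) a
  obtain ⟨i1, e1⟩ := cm_lv h1 l (h + -u) (-a)
  have hG := lg_add (lg_mid h0 h1 (u + l.fld a)) (lg_const (β := Ω) c)
  have i := (hG.exp l.m).int l h
  have hp := integral_exp_pos i
  have i' := i.mul_const (exp (-(a ⬝ᵥ a / 2 + l.m * c)))
  simp only [← exp_add] at i'
  have key := lc_hold (a := 1 / 2) (b := 1 / 2) (by norm_num) (by norm_num) (by norm_num) i' i0 i1
    fun g => by
      have s0 : h + l.fld g + (u + l.fld a) = h + u + l.fld a + l.fld g := by abel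
      have s1 : h + l.fld g + -(u + l.fld a) = h + -u + l.fld (-a) + l.fld g := by
        rw [← neg_one_smul ℝ a, fld_smul, neg_one_smul]; abel
      rw [s0, s1, dotProduct_neg, neg_dotProduct_neg]
      exact le_of_eq (by ring)
  rw [e0, e1] at key
  simp only [exp_add] at key
  rw [integral_mul_const, log_mul hp.ne' (exp_pos _).ne', log_exp] at key
  simp only [step, if_neg hm.ne']
  have := mul_le_mul_of_nonneg_left key (inv_nonneg.2 hm.le)
  have e : l.m⁻¹ * (a ⬝ᵥ a / 2 + l.m * c) = a ⬝ᵥ a / l.m / 2 + c := by field_simp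
  rw [mul_add, mul_neg, e] at this
  linarith

/-- levels with a shift of their noise -/
abbrev SL (Ω : Type) := (l : Lv Ω) × (l.ι → ℝ)

/-- total shift of the state -/
def sh : List (SL Ω) → Ω → ℝ
  | [] => 0
  | p :: A => p.1.fld p.2 + sh A

/-- total cost `∑ |a_j|² / m_j` -/
def cost : List (SL Ω) → ℝ
  | [] => 0
  | p :: A => p.2 ⬝ᵥ p.2 / p.1.m + cost A

/-- **value inequality** -/
theorem val (h0 : Lg F₀) (h1 : Lg F₁) : ∀ (A : List (SL Ω)), (∀ p ∈ A, 0 < p.1.m) → ∀ u h : Ω → ℝ,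
    XT (fun z => 1 / 2 * (F₀ (z + (u + sh A)) + F₁ (z + -(u + sh A)))) (A.map (·.1)) h ≤
      1 / 2 * (XT F₀ (A.map (·.1)) (h + u) + XT F₁ (A.map (·.1)) (h + -u)) + cost A / 2
  | [], _, u, h => by simp [XT, sh, cost]
  | p :: A, hA, u, h => by
    have ih := val h0 h1 A (fun q hq => hA q (List.mem_cons_of_mem _ hq)) (u + p.1.fld p.2)
    have hm := hA p List.mem_cons_self
    have g0 := lg_XT h0 (A.map (·.1))
    have g1 := lg_XT h1 (A.map (·.1))
    have s1 := step_mono (l := p.1) (lg_XT (lg_mid h0 h1 _) _)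
      (lg_add (lg_mid g0 g1 (u + p.1.fld p.2)) (lg_const (cost A / 2))) hm.le ih h
    have s2 := val_step g0 g1 p.1 hm h u p.2 (cost A / 2)
    simp only [List.map_cons, XT, sh, cost, ← add_assoc u]
    linarith

/-- **exponential Riccati, general form** -/
theorem eric (hF : Lg F) (h0 : Lg F₀) (h1 : Lg F₁) {x : ℝ} (hx : 0 < x) (A : List (SL Ω))
    (hA : ∀ p ∈ A, x ≤ p.1.m) (u h : Ω → ℝ) :
    nodeT F (A.map (·.1))
        (fun z => exp (x * (1 / 2 * (F₀ (z + (u + sh A)) + F₁ (z + -(u + sh A))) - F z))) h ≤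
      exp (x * (1 / 2 * (XT F₀ (A.map (·.1)) (h + u) + XT F₁ (A.map (·.1)) (h + -u)) -
        XT F (A.map (·.1)) h + cost A / 2)) := by
  refine (boost hF (lg_mid h0 h1 _) hx _ h fun l hl => ?_).trans (exp_le_exp.2 ?_)
  · obtain ⟨p, hp, rfl⟩ := List.mem_map.1 hl
    exact hA p hp
  · have := val h0 h1 A (fun p hp => hx.trans_le (hA p hp)) u h
    exact mul_le_mul_of_nonneg_left (by linarith) hx.le

/-- `∑ m_j c_j²` -/
def SS (M : List (Lv Ω)) (c : ℕ → ℝ) : ℝ := ∑ j ∈ Finset.range M.length, ex M j * c j ^ 2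

/-- the window sees the direction `f` -/
def Sees (M : List (Lv Ω)) (f : Ω → ℝ) (c : ℕ → ℝ) : Prop :=
  ∀ j (hj : j < M.length), ∃ (η : M[j].ι → ℝ) (κ : ℝ),
    (∀ x, M[j].fld η x = c j * f x + κ) ∧ ∑ i, η i ^ 2 ≤ 1

omit [Fintype Ω] in
theorem ex_sh (f : Ω → ℝ) (t : ℝ) : ∀ (M : List (Lv Ω)) (c : ℕ → ℝ), (∀ l ∈ M, 0 < l.m) →
    Sees M f c → ∃ (A : List (SL Ω)) (κ : ℝ), A.map (·.1) = M ∧
      (∀ x, sh A x = t * SS M c * f x + κ) ∧ cost A ≤ t ^ 2 * SS M c
  | [], _, _, _ => ⟨[], 0, rfl, by simp [sh, SS], by simp [cost, SS]⟩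
  | l :: M, c, hM, hs => by
    obtain ⟨A, κ, e, h1, h2⟩ := ex_sh f t M (fun j => c (j + 1))
      (fun k hk => hM k (List.mem_cons_of_mem _ hk)) fun j hj => hs (j + 1) (by simpa using hj)
    obtain ⟨η, κ', h3, h4⟩ : ∃ (η : l.ι → ℝ) (κ : ℝ),
      (∀ x, l.fld η x = c 0 * f x + κ) ∧ ∑ i, η i ^ 2 ≤ 1 := hs 0 (by simp)
    have hm := hM l List.mem_cons_self
    have eS : SS (l :: M) c = SS M (fun j => c (j + 1)) + l.m * c 0 ^ 2 := by
      simp only [SS, List.length_cons, Finset.sum_range_succ']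
      rfl
    refine ⟨⟨l, (t * l.m * c 0) • η⟩ :: A, κ + t * l.m * c 0 * κ', by simp [e], fun x => ?_, ?_⟩
    · simp only [sh, Pi.add_apply, fld_smul, Pi.smul_apply, smul_eq_mul, h1, h3, eS]
      ring
    · simp only [cost, eS, smul_dotProduct, dotProduct_smul, smul_eq_mul]
      have h5 : η ⬝ᵥ η ≤ 1 := by simpa [dotProduct, sq] using h4
      have h6 : t * l.m * c 0 * (t * l.m * c 0 * η ⬝ᵥ η) / l.m =
          t ^ 2 * (l.m * c 0 ^ 2) * η ⬝ᵥ η := by field_simp
      have h7 := mul_le_mul_of_nonneg_left h5 (by positivity : 0 ≤ t ^ 2 * (l.m * c 0 ^ 2))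
      rw [h6]
      linarith

/-- **second difference of `Φ` at the end of a window** -/
theorem eric_two (hw : Wt w) {M : List (Lv Ω)} (N : List (Lv Ω)) {x : ℝ} (hx : 0 < x)
    (hM : ∀ l ∈ M, x ≤ l.m) {f : Ω → ℝ} {c : ℕ → ℝ} (hs : Sees M f c) (hS : 0 < SS M c) (e : ℝ)
    (h : Ω → ℝ) :
    node w (M ++ N) M.length (fun z => exp (x / 2 *
      (X w N (z + e • f) + X w N (z + -(e • f)) - 2 * X w N z))) h ≤
      exp (x * e ^ 2 / (2 * SS M c)) := by
  obtain ⟨A, κ, rfl, h1, h2⟩ := ex_sh f (e / SS M c) M c (fun l hl => hx.trans_le (hM l hl)) hs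
  have hX := lg_X hw N
  have h3 := eric hX hX hX hx A (fun p hp => hM _ (List.mem_map.2 ⟨p, hp, rfl⟩)) 0 h
  have e1 : sh A = e • f + fun _ => κ := by
    funext y
    rw [h1, div_mul_cancel₀ _ hS.ne']
    rfl
  have e2 : ∀ z, X w N (z + (0 + sh A)) + X w N (z + -(0 + sh A)) =
      X w N (z + e • f) + X w N (z + -(e • f)) := fun z => by
    have a1 : z + (0 + sh A) = z + e • f + fun _ => κ := by rw [e1]; abel
    have a2 : z + -(0 + sh A) = z + -(e • f) + fun _ => -κ := by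
      rw [e1]; funext y; simp; ring
    rw [a1, a2, C.X_add_const hw, C.X_add_const hw]
    ring
  simp only [e2, add_zero, neg_zero] at h3
  rw [node_append]
  refine le_of_eq_of_le ?_ (h3.trans (exp_le_exp.2 ?_))
  · congr 1
    funext z
    congr 1
    ring
  · have e3 : (e / SS (A.map (·.1)) c) ^ 2 * SS (A.map (·.1)) c = e ^ 2 / SS (A.map (·.1)) c := by
      field_simp
    rw [e3] at h2
    have := mul_le_mul_of_nonneg_left h2 hx.le
    have e4 : x * e ^ 2 / (2 * SS (A.map (·.1)) c) = x * (e ^ 2 / SS (A.map (·.1)) c) / 2 := by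
      field_simp
    rw [e4]
    linarith

/-- boosting down to the leaf -/
theorem boost_leaf (hw : Wt w) {y : ℝ} (hy : 0 < y) (hy1 : y ≤ 1) (f : Ω → ℝ) :
    ∀ (N : List (Lv Ω)), (∀ l ∈ N, y ≤ l.m) → ∀ z : Ω → ℝ,
    Pf w N z (fun s => exp (y * f s)) ≤ exp (y * (X w N (z + f) - X w N z))
  | [], _, z => by
    have p0 := C.sum_exp_pos hw z
    have p1 := C.sum_exp_pos hw (z + f)
    set c := X w [] (z + f) - X w [] z with hc
    have e1 : ∑ s, P w [] z s * exp (f s) = exp c := by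
      rw [hc, X, X, exp_sub, exp_log p0, exp_log p1, Finset.sum_div]
      simp only [P, prob, Pi.add_apply, exp_add]
      exact Finset.sum_congr rfl fun s _ => by ring
    have h1 : Pf w [] z (fun s => exp (y * f s)) ≤
        ∑ s, P w [] z s * (exp (y * c) * (y * (exp (-c) * exp (f s)) + (1 - y))) := by
      refine Finset.sum_le_sum fun s _ => mul_le_mul_of_nonneg_left ?_ (P_nonneg hw _ _ _)
      have := convexOn_exp.2 (mem_univ (-c + f s)) (mem_univ 0) hy.le (sub_nonneg.2 hy1) (by ring)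
      simp only [smul_eq_mul, mul_zero, add_zero, exp_zero, mul_one] at this
      have e2 : exp (y * f s) = exp (y * c) * exp (y * (-c + f s)) := by
        rw [← exp_add]; congr 1; ring
      beta_reduce
      rw [e2, ← exp_add (-c)]
      exact mul_le_mul_of_nonneg_left this (exp_pos _).le
    have e3 : ∑ s, P w [] z s * (exp (y * c) * (y * (exp (-c) * exp (f s)) + (1 - y))) =
        exp (y * c) * (y * (exp (-c) * ∑ s, P w [] z s * exp (f s)) + (1 - y) * ∑ s, P w [] z s) := by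
      simp only [Finset.mul_sum, ← Finset.sum_add_distrib]
      exact Finset.sum_congr rfl fun s _ => by ring
    rw [e3, e1, sum_P hw, ← exp_add] at h1
    simpa using h1
  | l :: N, hN, z => by
    have hX := lg_X hw N
    rw [Pf_cons hw]
    exact (tE_mono hX (eg_Pf hw N _) (Hess87.eg_exp_sub hX (hX.shift f) y)
      (boost_leaf hw hy hy1 f N fun k hk => hN k (List.mem_cons_of_mem _ hk)) l z).trans
      ((boost_step hX (hX.shift f) l z hy (hN l List.mem_cons_self)).trans (le_of_eq (by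
        simp only [X, step, add_right_comm z f])))

theorem lg_Pf (hw : Wt w) (N : List (Lv Ω)) (f : Ω → ℝ) : Lg fun z => Pf w N z f := by
  refine Lg.of (eg_Pf hw N f).cont (∑ s, |f s|) 0 fun z => ?_
  rw [zero_mul, add_zero]
  refine (Finset.abs_sum_le_sum_abs _ _).trans (Finset.sum_le_sum fun s _ => ?_)
  rw [abs_mul, abs_of_nonneg (P_nonneg hw N z s)]
  refine mul_le_of_le_one_left (abs_nonneg _) ?_
  rw [← sum_P hw N z]
  exact Finset.single_le_sum (fun y _ => P_nonneg hw N z y) (Finset.mem_univ s)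

theorem Pf_exp_sub (N : List (Lv Ω)) (z f : Ω → ℝ) (t c : ℝ) :
    Pf w N z (fun s => exp (t * (f s - c))) = exp (-t * c) * Pf w N z fun s => exp (t * f s) := by
  simp only [Pf, Finset.mul_sum]
  refine Finset.sum_congr rfl fun s _ => ?_
  rw [mul_left_comm, ← exp_add]
  congr 2
  ring

theorem eg_leaf (hw : Wt w) (N : List (Lv Ω)) (f : Ω → ℝ) (t : ℝ) :
    Eg fun z => Pf w N z fun s => exp (t * (f s - Pf w N z f)) := by
  simp only [Pf_exp_sub]
  exact ((lg_Pf hw N f).exp (-t)).mul (eg_Pf hw N _)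

/-- pointwise: the centred exponential moment is bounded by the second difference -/
theorem leaf_le (hw : Wt w) {y : ℝ} (hy : 0 < y) (hy1 : y ≤ 1) {N : List (Lv Ω)}
    (hN : ∀ l ∈ N, y ≤ l.m) (f : Ω → ℝ) (e : ℝ) (z : Ω → ℝ) :
    Pf w N z (fun s => exp (y * e * (f s - Pf w N z f))) ≤
      exp (y * (X w N (z + e • f) + X w N (z + -(e • f)) - 2 * X w N z)) := by
  have h1 := boost_leaf hw hy hy1 (e • f) N hN z
  have h2 := X_add_ge hw N (fun l hl => hy.le.trans (hN l hl)) z (-(e • f))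
  have e1 : ∑ x, P w N z x * (-(e • f)) x = -(e * Pf w N z f) := by
    simp only [Pf, Finset.mul_sum, ← Finset.sum_neg_distrib, Pi.neg_apply, Pi.smul_apply,
      smul_eq_mul]
    exact Finset.sum_congr rfl fun s _ => by ring
  rw [e1] at h2
  simp only [Pi.smul_apply, smul_eq_mul, ← mul_assoc] at h1
  rw [Pf_exp_sub]
  refine (mul_le_mul_of_nonneg_left h1 (exp_pos _).le).trans ?_
  rw [← exp_add]
  refine exp_le_exp.2 ?_
  have := mul_le_mul_of_nonneg_left h2 hy.le
  linarith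

end ERic43

open ERic43

/-- **exponential Riccati** (75, S1): after a window `M` of tilts `≥ x` that sees the direction `f`,
`f (leaf) - E[f | end of the window]` and the later increments of the martingale `Pf · f` are
sub-Gaussian with variance proxy `4 / (x ∑ m_j c_j²)`. -/
def ERicStmt : Prop := ∀ (Ω : Type) [Fintype Ω] (w : Ω → ℝ), Wt w → ∀ (M N : List (Lv Ω))
  (x : ℝ) (f : Ω → ℝ) (c : ℕ → ℝ), 0 < x → x ≤ 2 → (∀ l ∈ M, x ≤ l.m) → (∀ l ∈ N, x / 2 ≤ l.m) →
  Sees M f c → 0 < SS M c → ∀ (t : ℝ) (h : Ω → ℝ),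
  node w (M ++ N) M.length (fun z => Pf w N z fun s => exp (t * (f s - Pf w N z f))) h ≤
      exp (2 * t ^ 2 / (x * SS M c)) ∧
    ∀ k, node w (M ++ N) M.length (fun z => node w N k
      (fun z' => exp (t * (Pf w (N.drop k) z' f - Pf w N z f))) z) h ≤
      exp (2 * t ^ 2 / (x * SS M c))

theorem eRicStmt : ERicStmt := by
  intro Ω _ w hw M N x f c hx hx2 hM hN hs hS t h
  have hX := lg_X hw N
  have h1 : node w (M ++ N) M.length (fun z => Pf w N z fun s => exp (t * (f s - Pf w N z f))) h ≤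
      exp (2 * t ^ 2 / (x * SS M c)) := by
    have h2 := eric_two hw N hx hM hs hS (2 * t / x) h
    have e1 : x * (2 * t / x) ^ 2 / (2 * SS M c) = 2 * t ^ 2 / (x * SS M c) := by field_simp
    rw [e1] at h2
    refine (node_mono hw (eg_leaf hw N f t) ((Pe.lg_sub (Pe.lg_add (hX.shift _) (hX.shift _))
      (Pe.lg_const_mul 2 hX)).exp _) (fun z => ?_) _ _ h).trans h2
    have h3 := leaf_le hw (half_pos hx) (by linarith) hN f (2 * t / x) z
    rwa [show x / 2 * (2 * t / x) = t by field_simp] at h3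
  refine ⟨h1, fun k => le_trans (node_mono hw ?_ (eg_leaf hw N f t) (fun z => ?_) _ _ h) h1⟩
  · have e : ∀ z, node w N k (fun z' => exp (t * (Pf w (N.drop k) z' f - Pf w N z f))) z =
        exp (-t * Pf w N z f) * node w N k (fun z' => exp (t * Pf w (N.drop k) z' f)) z := by
      intro z
      rw [← congrFun (node_const_mul w _ _ N k) z]
      congr 1
      funext z'
      rw [← exp_add]
      congr 1
      ring
    simp only [e]
    exact ((lg_Pf hw N f).exp _).mul (((lg_Pf hw _ f).exp t).node hw N k)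
  · set a := Pf w N z f
    refine le_of_le_of_eq (node_mono hw ((Pe.lg_sub (lg_Pf hw _ f) (Pe.lg_const a)).exp t)
      (Hess87.eg_Pf hw (N.drop k) fun s => exp (t * (f s - a))) (fun z' => ?_) N k z)
      (node_sum_P hw _ N k z)
    have hp := P_nonneg hw (N.drop k) z'
    have h4 := convexOn_exp.map_sum_le (t := Finset.univ) (w := P w (N.drop k) z')
      (p := fun s => t * (f s - a)) (fun s _ => hp s) (sum_P hw _ z') fun _ _ => mem_univ _
    refine le_of_eq_of_le ?_ h4
    congr 1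
    have e : ∑ s, P w (N.drop k) z' s • (t * (f s - a)) =
        t * (∑ s, P w (N.drop k) z' s * f s - a * ∑ s, P w (N.drop k) z' s) := by
      simp only [Finset.mul_sum, ← Finset.sum_sub_distrib, smul_eq_mul]
      exact Finset.sum_congr rfl fun s _ => by ring
    rw [e, sum_P hw, mul_one]
    rfl

end Crest.Agent.T156.Cas

end
private theorem rz_27c79ce3ff : type_of% @_root_.Crest.Agent.T156.Cas.ERic43.cost.eq_def := @_root_.Crest.Agent.T156.Cas.ERic43.cost.eq_def -- L102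
private theorem rz_6b66d1481c : type_of% @_root_.Crest.Agent.T156.Cas.ERic43.cost.eq_1 := @_root_.Crest.Agent.T156.Cas.ERic43.cost.eq_1 -- L102
private theorem rz_e068b0b72b : type_of% @_root_.Crest.Agent.T156.Cas.ERic43.sh.eq_def := @_root_.Crest.Agent.T156.Cas.ERic43.sh.eq_def -- L97
private theorem rz_dd13fe6fef : type_of% @_root_.Crest.Agent.T156.Cas.ERic43.sh.eq_1 := @_root_.Crest.Agent.T156.Cas.ERic43.sh.eq_1 -- L97
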