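import Crest.Agent.T156.Zb_9
import Crest.Agent.T156.AltCl_88
import Crest.Agent.T156.QCube_33
import Crest.Agent.T156.OneP_23
import Crest.Agent.T156.PlatS_10

/-!
Row 156, ALT, text (L) (helper9): the mean profile and the reference of a member of the class
`Alt.Cl` as lists of the same total time; dictionary between nodes and times.
-/

set_option autoImplicit false

noncomputable section

namespace Crest.Agent.T156.Zb9

open MeasureTheory Set
open Crest.Agent.R164.GC Crest.Agent.R339.B Crest.Agent.R339.Var Crest.Agent.T157.Pf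
open Crest.Agent.T156.Pp.Area50 Crest.Agent.T156.Spl27

/-- a list with the tilt function of `l` and total time `T` -/
def cutT (l : List (ℝ × ℝ)) (T : ℝ) : List (ℝ × ℝ) :=
  Classical.epsilon fun u => okT T u ∧ ∀ t, 0 ≤ t → lvr 1 u t = lvr 1 l t

theorem cutT_spec {l : List (ℝ × ℝ)} {T1 T : ℝ} (h : Adm 1 l) (h0 : 0 ≤ T1) (h1 : T1 ≤ TT l)
    (h2 : T1 ≤ T) (top : ∀ t, T1 ≤ t → lvr 1 l t = 1) :
    okT T (cutT l T) ∧ (∀ t, 0 ≤ t → lvr 1 (cutT l T) t = lvr 1 l t) ∧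
      Ker.Same l (cutT l T) (min (TT l) T) := by
  have ex : ∃ u, okT T u ∧ ∀ t, 0 ≤ t → lvr 1 u t = lvr 1 l t := by
    have hr : Adm 1 [((1 : ℝ), T - T1)] := ⟨one_pos, le_rfl, sub_nonneg.2 h2, trivial⟩
    obtain ⟨u, a, b, c, d, -⟩ := take_app hr h T1 h0 h1 fun t _ _ => (Sc48.lvr_mem h t).2
    obtain ⟨w, w1, w2, -⟩ := exists_ok a
    refine ⟨w, ⟨w1, by rw [← w2.tt, b, TT_cons, TT_nil]; ring⟩, fun t ht => ?_⟩
    rw [← w2.lv t ht]
    rcases lt_or_ge t T1 with e | e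
    · exact c t ht e
    · rw [d t e, top t e]
      exact lvr_top (by simp) _
  obtain ⟨a, b⟩ := Classical.epsilon_spec ex
  refine ⟨a, b, ?_⟩
  have := Ker.same h a.1.1 fun t ht => b t ht.le
  rwa [a.2] at this

/-- increments of `t - b Γ t` from bounds on `1 - b G` -/
theorem Mf_slope {l : List (ℝ × ℝ)} (h : Pr.Ok l) {b s t d D : ℝ} (hs : 0 ≤ s) (hst : s ≤ t)
    (ht : t ≤ TT l) (he : ∀ r ∈ Icc s t, d ≤ 1 - b * Pr.GG l r ∧ 1 - b * Pr.GG l r ≤ D) :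
    d * (t - s) ≤ Rig.Mf b l t - Rig.Mf b l s ∧ Rig.Mf b l t - Rig.Mf b l s ≤ D * (t - s) := by
  have a := Pp.Ode3.Gam_int (ap_of_ok h) hs hst ht
  have i : IntervalIntegrable (Pp.Ode3.Gp l) volume s t :=
    ((Pp.Ode3.Gp_cont (ap_of_ok h)).mono (by
      rw [uIcc_of_le hst]; exact Icc_subset_Icc hs ht)).intervalIntegrable
  have i2 : IntervalIntegrable (fun r => 1 - b * Pp.Ode3.Gp l r) volume s t :=
    intervalIntegrable_const.sub (i.const_mul b)
  have e : Rig.Mf b l t - Rig.Mf b l s = ∫ r in s..t, (1 - b * Pp.Ode3.Gp l r) := by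
    rw [intervalIntegral.integral_sub intervalIntegrable_const (i.const_mul b),
      intervalIntegral.integral_const_mul, ← a]
    simp [Rig.Mf]; ring
  rw [e]
  constructor
  · have := intervalIntegral.integral_mono_on hst intervalIntegrable_const i2 fun r hr => (he r hr).1
    simpa [mul_comm] using this
  · have := intervalIntegral.integral_mono_on hst i2 intervalIntegrable_const fun r hr => (he r hr).2
    simpa [mul_comm] using this

/-- quotient of the increments of `F` and of the labels -/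
theorem quot_of_sl {F zh : ℝ → ℝ} {a b c C η d D s t : ℝ} (H : Sl zh a b c C η) (mh : Monotone zh)
    (hc : 0 < c) (hcC : c ≤ C) (hη : 0 ≤ η) (hd : 0 ≤ d) (hD : d ≤ D)
    (hF : ∀ s t, a ≤ s → s ≤ t → t ≤ b → d * (t - s) ≤ F t - F s ∧ F t - F s ≤ D * (t - s))
    (hs : s ∈ Icc a b) (ht : t ∈ Icc a b) :
    ∃ m ∈ Icc (d / C) (D / c), |F s - F t - m * (zh s - zh t)| ≤ D * η / c := by
  have hC := hc.trans_le hcC
  have hD0 := hd.trans hD
  have k1 : d / C ≤ D / c := div_le_div₀ hD0 hD hc hcC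
  have key : ∀ s t, a ≤ s → s ≤ t → t ≤ b →
      ∃ m ∈ Icc (d / C) (D / c), |F t - F s - m * (zh t - zh s)| ≤ D * η / c := by
    intro s t h1 h2 h3
    obtain ⟨p1, p2⟩ := H s t h1 h2 h3
    obtain ⟨q1, q2⟩ := hF s t h1 h2 h3
    refine exists_quot (sub_nonneg.2 (mh h2)) k1 (by positivity) ?_ ?_
    · have r1 : d / C * (zh t - zh s) ≤ d / C * (C * (t - s) + η) :=
        mul_le_mul_of_nonneg_left p2 (by positivity)
      have r2 : d / C * (C * (t - s) + η) = d * (t - s) + d / C * η := by field_simp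
      have r3 : d / C * η ≤ D / c * η := mul_le_mul_of_nonneg_right k1 hη
      have r4 : D * η / c = D / c * η := by ring
      linarith
    · have r1 : D / c * (c * (t - s) - η) ≤ D / c * (zh t - zh s) :=
        mul_le_mul_of_nonneg_left p1 (by positivity)
      have r2 : D / c * (c * (t - s) - η) = D * (t - s) - D * η / c := by field_simp
      linarith
  rcases le_total s t with h | h
  · obtain ⟨m, h1, h2⟩ := key s t hs.1 h ht.2
    refine ⟨m, h1, ?_⟩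
    rwa [← abs_neg, show -(F t - F s - m * (zh t - zh s)) = F s - F t - m * (zh s - zh t) by ring]
      at h2
  · exact key t s ht.1 h hs.2

/-- the site list of the one path is a step list -/
theorem opV_eq (n : ℕ) (β : ℝ) (M : List (ℝ × ℝ × ℝ)) (q : ℕ → ℝ) {x : ℕ → ℝ}
    (hx : ∀ k (h : k < M.length), M[k].1 = x k) :
    Cas.opV n β M q = lsg x (fun j => Cas.oTau n β M j * q j + Cas.fAcc M j) M.length := by
  have len : (Cas.opV n β M q).length = M.length := by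
    rw [Cas.opV, List.length_map, Cas.OneP.oInc_length]
  refine eq_lsg len (fun k h => ?_) fun k h => ?_
  · have e : (Cas.opV n β M q).map Prod.fst = M.map fun p => p.1 := by
      rw [Cas.opV, List.map_map]
      exact Cas.OneP.oInc_map _ _ _ _ fun p => p.1
    have := List.getElem_of_eq e (i := k) (by simpa using h)
    rw [List.getElem_map, List.getElem_map] at this
    rw [this, hx]
  · have a := Cas.opV_acc (n := n) (β := β) (M := M) (q := q) (j := k + 1) (len ▸ h)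
    have b := Cas.opV_acc (n := n) (β := β) (M := M) (q := q) (j := k) (len ▸ h.le)
    rw [List.take_succ_eq_append_getElem h, List.map_append, List.sum_append, b] at a
    simp only [List.map_cons, List.map_nil, List.sum_cons, List.sum_nil, add_zero] at a
    linarith

end Crest.Agent.T156.Zb9

namespace Crest.Agent.T156.Alt.Mp9

open MeasureTheory Set
open Crest.Agent.T157.E Crest.Agent.T157.Casc
open Crest.Agent.T157.G1 (ov)
open Crest.Agent.R164.GC Crest.Agent.R339.B Crest.Agent.R339.Var Crest.Agent.T157.Pf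
open Crest.Agent.T156.Pp.Area50 Crest.Agent.T156.Spl27 Crest.Agent.T156.Zb9
open Crest.Agent.T156.Cas.Sy41 Crest.Agent.T156.Cas.Q33

/-- `m / (m + 1)` -/
def kp (m : ℕ) : ℝ := m / (m + 1)

/-- labels in cascade indices -/
def xb (M : Md) (a : ℝ) : ℕ → ℝ
  | 0 => a
  | k + 1 => M.z k

/-- node times of the mean profile -/
def sb (M : Md) (m : ℕ) (a : ℝ) : ℕ → ℝ
  | 0 => 0
  | k + 1 => kp m * M.d k * M.rb m a k + M.H k

/-- node times of the merged reference -/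
def sh (M : Md) (S : Sc) : ℕ → ℝ
  | 0 => 0
  | k + 1 => M.s (max k S.j0)

/-- marks in cascade indices -/
def hb (M : Md) : ℕ → ℝ
  | 0 => 0
  | k + 1 => M.H k

/-- **the mean profile** -/
def lb (M : Md) (S : Sc) (m : ℕ) (a T : ℝ) : List (ℝ × ℝ) := zl (xb M a) (sb M m a) (S.Jp + 1) T
/-- **the reference** with total time `T` -/
def lh (M : Md) (T : ℝ) : List (ℝ × ℝ) := cutT M.lr T
/-- `u = zb - zh` -/
def uu (M : Md) (S : Sc) (m : ℕ) (a T t : ℝ) : ℝ := lvr 1 (lb M S m a T) t - lvr 1 (lh M T) t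
/-- the marks along the mean profile -/
def hm (M : Md) (S : Sc) (m : ℕ) (a t : ℝ) : ℝ := stp (hb M) (sb M m a) (S.Jp + 1) t
/-- the residual of the first cavity equation at the node `k` -/
def res (M : Md) (S : Sc) (m : ℕ) (a T : ℝ) (k : ℕ) : ℝ :=
  Pr.Gam (lb M S m a T) (sb M m a (k + 1)) - M.rb m a k

/-- a member, a size, a root tilt and an admissible total time -/
structure At (S : Sc) (M : Md) (m : ℕ) (a T : ℝ) : Prop where
  cl : Cl S M
  mem : S.In m a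
  t1 : M.b + M.H S.Jp ≤ T
  t2 : M.s S.Jp ≤ T

variable {S : Sc} {M : Md} {m : ℕ} {a T : ℝ}

theorem kp_mem (m : ℕ) : 0 ≤ kp m ∧ kp m ≤ 1 :=
  ⟨by unfold kp; positivity, by unfold kp; rw [div_le_one (by positivity)]; linarith⟩

theorem kp_eq (m : ℕ) : kp m = 1 - 1 / (m + 1) := by unfold kp; field_simp; ring

theorem bb_sq (m : ℕ) : Cas.bb m 1 ^ 2 = kp m := by
  rw [Cas.bb, one_mul, Real.sq_sqrt (by positivity)]; rfl

theorem rb_eq (hm : 0 < m) (k : ℕ) :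
    M.rb m a k = rho (fun _ => 1) (M.L m a) (sl m) 0 (k + 1) := by
  rw [rho_eq, show (sl m).cov = ov from funext fun x => funext (sl_cov hm x)]; rfl

theorem rb_mono (hm : 0 < m) : Monotone (M.rb m a) := fun i j hij => by
  rw [rb_eq hm, rb_eq hm]
  exact rho_mono Cas.Link33.wt1 _ _ _ (Nat.succ_le_succ hij)

theorem rb_mem (hm : 0 < m) (k : ℕ) : 0 ≤ M.rb m a k ∧ M.rb m a k ≤ 1 := by
  rw [rb_eq hm]
  exact ⟨rho_nonneg _ _ _ _,
    rho_le Cas.Link33.wt1 _ (fun x => by rw [sl_cov hm, Cas.Q33.ov_self hm]) _ _⟩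

theorem n_pos (h : Cl S M) : 0 < S.n := by
  rcases Nat.eq_zero_or_pos S.n with e | e
  · have a := h.card
    have b := h.i4
    rw [e] at a
    norm_num at a
    omega
  · exact e

theorem v_pos (h : Cl S M) : 0 < S.v := by
  have a : 0 < S.v * (S.n : ℝ) ^ S.A := lt_of_lt_of_le (by have := h.C1; positivity) h.v1
  exact (pos_iff_pos_of_mul_pos a).2 (by have := n_pos h; positivity)

theorem d_mem (h : Cl S M) {k : ℕ} (hk : k ≤ M.N) : 1 ≤ M.d k ∧ M.d k ≤ M.b :=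
  ⟨h.b0.trans (h.leg.dm (Nat.zero_le _)), h.leg.dm hk⟩

theorem d_top (h : Cl S M) {k : ℕ} (h1 : S.jl < k) (hk : k ≤ M.N) : M.d k = M.b :=
  le_antisymm (d_mem h hk).2 (h.wmk.1 ▸ h.leg.dm h1)

theorem s_nn (h : Cl S M) (k : ℕ) : 0 ≤ M.s k := h.s0 ▸ h.sm (Nat.zero_le k)

theorem s_tt (h : Cl S M) : M.s S.Jp ≤ TT M.lr := (h.sm h.i4.le).trans h.sN

theorem s_lt (h : Cl S M) {k : ℕ} (hk : k < S.J) : M.s k < M.s (k + 1) := by
  have := (h.ss k hk).1
  have : 0 < S.v / S.C := div_pos (v_pos h) (by linarith [h.C1])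
  linarith

theorem Mx_len (M : Md) (a : ℝ) : (M.Mx a).length = M.N + 1 := by simp [Md.Mx, Md.Mu]

theorem Mx_succ (M : Md) (a : ℝ) {k : ℕ} (h : k + 1 < (M.Mx a).length) :
    (M.Mx a)[k + 1] = (M.z k, M.d (k + 1) - M.d k, M.H (k + 1) - M.H k) := by simp [Md.Mx, Md.Mu]

theorem Mx_tilt (M : Md) (a : ℝ) : ∀ (k : ℕ) (h : k < (M.Mx a).length), (M.Mx a)[k].1 = xb M a k
  | 0, _ => rfl
  | k + 1, h => by rw [Mx_succ M a h]; rfl

theorem acc (a : ℝ) (h0 : M.H 0 = 0) (m : ℕ) {k : ℕ} (hk : k ≤ M.N) :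
    Cas.oTau m 1 (M.Mx a) (k + 1) = kp m * M.d k ∧ Cas.fAcc (M.Mx a) (k + 1) = M.H k := by
  have key : Cas.dAcc (M.Mx a) (k + 1) = M.d k ∧ Cas.fAcc (M.Mx a) (k + 1) = M.H k := by
    induction k with
    | zero => simp [Cas.dAcc, Cas.fAcc, Md.Mx, h0]
    | succ k ih =>
      obtain ⟨p, q⟩ := ih (by omega)
      have hl : k + 1 < (M.Mx a).length := by rw [Mx_len]; omega
      unfold Cas.dAcc Cas.fAcc at *
      rw [List.take_succ_eq_append_getElem hl, List.map_append, List.map_append, List.sum_append,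
        List.sum_append, p, q, Mx_succ M a hl]
      simp
  exact ⟨by rw [Cas.oTau, bb_sq, key.1], key.2⟩

namespace At

theorem m_pos (A : At S M m a T) : 0 < m := (n_pos A.cl).trans_le A.mem.m1

theorem a_pos (A : At S M m a T) : 0 < a :=
  lt_of_lt_of_le (by have := n_pos A.cl; positivity) A.mem.a1

theorem xb_mono (A : At S M m a T) : Monotone (xb M a) := monotone_nat_of_le_succ fun
  | 0 => by
    have := A.cl.leg.z0
    have := A.mem.a2
    have := A.a_pos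
    show a ≤ M.z 0
    linarith
  | k + 1 => A.cl.leg.zm (Nat.le_succ k)

theorem sb_step (A : At S M m a T) {i k : ℕ} (h : i ≤ k) :
    M.H k - M.H i ≤ sb M m a (k + 1) - sb M m a (i + 1) := by
  have p := A.cl.leg.d0.trans (A.cl.leg.dm (Nat.zero_le i))
  have q : kp m * M.d i * M.rb m a i ≤ kp m * M.d k * M.rb m a k :=
    mul_le_mul (mul_le_mul_of_nonneg_left (A.cl.leg.dm h) (kp_mem m).1) (rb_mono A.m_pos h)
      (rb_mem A.m_pos i).1 (mul_nonneg (kp_mem m).1 (p.trans (A.cl.leg.dm h)))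
  simp only [sb]
  linarith

theorem sb_mono (A : At S M m a T) : Monotone (sb M m a) := monotone_nat_of_le_succ fun
  | 0 => by
    show (0 : ℝ) ≤ kp m * M.d 0 * M.rb m a 0 + M.H 0
    rw [A.cl.leg.H0, add_zero]
    exact mul_nonneg (mul_nonneg (kp_mem m).1 A.cl.leg.d0) (rb_mem A.m_pos 0).1
  | k + 1 => by linarith [A.sb_step (Nat.le_succ k), A.cl.leg.Hm (Nat.le_succ k)]

theorem sh_mono (A : At S M m a T) : Monotone (sh M S) := monotone_nat_of_le_succ fun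
  | 0 => s_nn A.cl _
  | k + 1 => A.cl.sm (max_le_max_right _ (Nat.le_succ k))

theorem hb_mono (A : At S M m a T) : Monotone (hb M) := monotone_nat_of_le_succ fun
  | 0 => A.cl.leg.H0.ge
  | k + 1 => A.cl.leg.Hm (Nat.le_succ k)

theorem ux (A : At S M m a T) : Up (xb M a) (S.Jp + 1) := up_of_mono A.xb_mono _
theorem ub (A : At S M m a T) : Up (sb M m a) (S.Jp + 1) := up_of_mono A.sb_mono _
theorem uh (A : At S M m a T) : Up (sh M S) (S.Jp + 1) := up_of_mono A.sh_mono _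

theorem sb_le (A : At S M m a T) {k : ℕ} (hk : k ≤ M.N) : sb M m a (k + 1) ≤ M.b + M.H k := by
  obtain ⟨p, q⟩ := d_mem A.cl hk
  obtain ⟨r, s⟩ := rb_mem (M := M) (a := a) A.m_pos k
  obtain ⟨u, v⟩ := kp_mem m
  have : kp m * M.d k * M.rb m a k ≤ 1 * M.b * 1 :=
    mul_le_mul (mul_le_mul v q (by linarith) zero_le_one) s r (by linarith)
  simp only [sb]
  linarith

theorem datB (A : At S M m a T) : Dat (xb M a) (sb M m a) (S.Jp + 1) T :=
  ⟨A.ux, A.a_pos, A.cl.top _ le_rfl, A.ub, rfl, (A.sb_le A.cl.i4.le).trans A.t1⟩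

theorem sh_succ (_ : At S M m a T) {k : ℕ} (hk : S.j0 ≤ k) : sh M S (k + 1) = M.s k := by
  simp only [sh, max_eq_left hk]

theorem j0_le (A : At S M m a T) : S.j0 ≤ S.Jp := by
  have := A.cl.i1; have := A.cl.i2; have := A.cl.i3; omega

theorem okb (A : At S M m a T) : okT T (lb M S m a T) := A.datB.okT

theorem spec (A : At S M m a T) : okT T (lh M T) ∧
    (∀ t, 0 ≤ t → lvr 1 (lh M T) t = lvr 1 M.lr t) ∧ Ker.Same M.lr (lh M T) (min (TT M.lr) T) :=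
  cutT_spec A.cl.ok.1 (s_nn A.cl _) (s_tt A.cl) A.t2 A.cl.lv1

theorem okh (A : At S M m a T) : okT T (lh M T) := A.spec.1

theorem lvb (A : At S M m a T) {t : ℝ} (ht : 0 ≤ t) :
    lvr 1 (lb M S m a T) t = stp (xb M a) (sb M m a) (S.Jp + 1) t := A.datB.lv ht

theorem lvh' (A : At S M m a T) {t : ℝ} (ht : 0 ≤ t) : lvr 1 (lh M T) t = lvr 1 M.lr t :=
  A.spec.2.1 t ht

theorem mem_min (A : At S M m a T) {t : ℝ} (ht : t ∈ Icc 0 (M.s S.Jp)) :
    t ∈ Icc 0 (min (TT M.lr) T) := ⟨ht.1, le_min (ht.2.trans (s_tt A.cl)) (ht.2.trans A.t2)⟩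

theorem gam_h (A : At S M m a T) {k : ℕ} (hk : k ≤ S.Jp) : Pr.Gam (lh M T) (M.s k) = M.q k :=
  A.spec.2.2.gam _ (A.mem_min ⟨s_nn A.cl k, A.cl.sm hk⟩)

theorem e_h (A : At S M m a T) {t : ℝ} (ht : t ∈ Icc 0 (M.s S.Jp)) :
    1 - M.b * Pr.GG (lh M T) t = M.e t := by rw [A.spec.2.2.gg t (A.mem_min ht)]; rfl

/-- above `s j0` the reference is the step function with the labels of the model -/
theorem lvh (A : At S M m a T) {t : ℝ} (ht : M.s S.j0 ≤ t) :
    lvr 1 (lh M T) t = stp (xb M a) (sh M S) (S.Jp + 1) t := by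
  obtain ⟨k, ck⟩ := exists_Cell A.uh t
  have h1 : S.j0 + 1 ≤ k := ck.ge A.uh (Nat.succ_le_succ A.j0_le) (by rwa [A.sh_succ le_rfl])
  obtain ⟨k, rfl⟩ : ∃ j, k = j + 1 := ⟨k - 1, by omega⟩
  have h2 := ck.2.1 (Nat.succ_pos k)
  rw [A.sh_succ (by omega)] at h2
  rw [ck.stp A.uh, A.lvh' ((s_nn A.cl _).trans ht)]
  rcases (Nat.le_of_succ_le_succ ck.1).eq_or_lt with rfl | h
  · rw [A.cl.lv1 t h2]; exact (A.cl.top _ le_rfl).symm
  · have h3 := ck.2.2 (by omega)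
    rw [A.sh_succ (by omega)] at h3
    exact A.cl.lv k (by omega) t h2 h3

theorem lvh_node (A : At S M m a T) {k : ℕ} (h0 : S.j0 ≤ k) (hk : k < S.J) :
    lvr 1 (lh M T) (M.s k) = M.z k := by
  rw [A.lvh' (s_nn A.cl k)]
  exact A.cl.lv k h0 _ le_rfl (s_lt A.cl hk)

theorem uu_eq (A : At S M m a T) {t : ℝ} (ht : M.s S.j0 ≤ t) : uu M S m a T t =
    stp (xb M a) (sb M m a) (S.Jp + 1) t - stp (xb M a) (sh M S) (S.Jp + 1) t := by
  rw [uu, A.lvh ht, A.lvb ((s_nn A.cl _).trans ht)]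

/-- **slope of the reference** below the atom -/
theorem sl (A : At S M m a T) {b' : ℝ} (hb : b' < M.s S.J) :
    Sl (lvr 1 (lh M T)) 0 b' (1 / S.C) S.C (S.C * S.v) := fun s t h1 h2 h3 => by
  obtain ⟨p, q⟩ := A.cl.lip s t h1 h2 (h3.trans_lt hb)
  rw [A.lvh' h1, A.lvh' (h1.trans h2)]
  exact ⟨by rw [one_div_mul_eq_div]; exact p, by linarith⟩

theorem sl' (A : At S M m a T) {a' b' : ℝ} (ha : M.s S.j0 ≤ a') (hb : b' < M.s S.J) :
    Sl (stp (xb M a) (sh M S) (S.Jp + 1)) a' b' (1 / S.C) S.C (S.C * S.v) :=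
  ((A.sl hb).mono ((s_nn A.cl _).trans ha) le_rfl).congr fun _ ht => (A.lvh (ha.trans ht.1)).symm

theorem aosl (A : At S M m a T) {a' b' : ℝ} (ha : 0 ≤ a') (hab : a' ≤ b') (hb : b' < M.s S.J) :
    Sun9.AOSL a' b' S.C (S.C * S.v) (uu M S m a T)
      (Cut8.Jf T (lvr 1 (lh M T)) (lvr 1 (lb M S m a T))) :=
  ((A.sl hb).mono ha le_rfl).aosl T (by linarith [A.cl.C1]) hab (Sc48.lvr_mono A.okb.1.1)
    (Sc48.lvr_mono A.okh.1.1)

/-- **the mean profile is the site list of the one path** -/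
theorem same_op (A : At S M m a T) {q : ℕ → ℝ} (H : Cas.OOk (M.Mx a) q)
    (hq : ∀ k ≤ S.Jp, q (k + 1) = M.rb m a k) :
    Adm 1 (Cas.opV m 1 (M.Mx a) q) ∧ TT (Cas.opV m 1 (M.Mx a) q) = kp m * M.b + M.H M.N ∧
      (∀ k ≤ S.Jp, TT ((Cas.opV m 1 (M.Mx a) q).take (k + 1)) = sb M m a (k + 1)) ∧
      Ker.Same (lb M S m a T) (Cas.opV m 1 (M.Mx a) q) (min T (kp m * M.b + M.H M.N)) := by
  set σ : ℕ → ℝ := fun j => Cas.oTau m 1 (M.Mx a) j * q j + Cas.fAcc (M.Mx a) j with hσ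
  have i4 := A.cl.i4
  have e0 : σ 0 = 0 := by simp [hσ, Cas.oTau, Cas.dAcc, Cas.fAcc]
  have e1 : ∀ k ≤ M.N, σ (k + 1) = kp m * M.d k * q (k + 1) + M.H k := fun k hk => by
    simp only [hσ, (acc a A.cl.leg.H0 m hk).1, (acc a A.cl.leg.H0 m hk).2]
  have e2 : ∀ k ≤ S.Jp + 1, σ k = sb M m a k := fun k hk => by
    cases k with
    | zero => exact e0
    | succ k => rw [e1 k (by omega), hq k (by omega)]; rfl
  have e3 : σ (M.N + 1) = kp m * M.b + M.H M.N := by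
    rw [e1 _ le_rfl, ← Mx_len M a, H.top, mul_one]; rfl
  have e := opV_eq m 1 (M.Mx a) q (x := xb M a) (Mx_tilt M a)
  rw [Mx_len] at e
  have us : Up σ (M.N + 1) := fun j hj => by
    have := Cas.opV_nn (n := m) (β := 1) H (xb M a j, σ (j + 1) - σ j) (by
      rw [e, lsg, List.mem_ofFn]; exact ⟨⟨j, hj⟩, rfl⟩)
    exact sub_nonneg.1 this
  have D : Dat (xb M a) σ (S.Jp + 1) T := ⟨A.ux, A.a_pos, A.datB.top, fun j hj => us j (by omega), e0,
    by rw [e2 _ le_rfl]; exact A.datB.le⟩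
  have top : ∀ k, S.Jp + 1 ≤ k → k ≤ M.N + 1 → xb M a k = 1 := fun k h1 _ => by
    obtain ⟨k, rfl⟩ : ∃ j, k = j + 1 := ⟨k - 1, by omega⟩
    exact A.cl.top k (by omega)
  have ad := (D.same_lsg (N := M.N + 1) (by omega) top us).1
  have tt : TT (lsg (xb M a) σ (M.N + 1)) = kp m * M.b + M.H M.N := by rw [TT_lsg, e0, e3, sub_zero]
  refine ⟨e ▸ ad, e ▸ tt, fun k hk => ?_, ?_⟩
  · rw [← e2 _ (by omega)]
    exact Cas.opV_acc (by rw [Mx_len]; omega)
  · rw [e, ← tt]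
    refine A.datB.same ad fun t _ => ?_
    rw [lvr_lsg (top _ (by omega) le_rfl) us e0,
      stp_ext (J := S.Jp + 1) (by omega) fun k h1 h2 => by rw [top k h1 h2, A.datB.top],
      stp_congr (fun _ _ => rfl) fun k _ hk => e2 k hk]

/-! ### nodes and times -/

theorem c_pos (A : At S M m a T) : 0 < S.C := by linarith [A.cl.C1]

theorem jp_le (A : At S M m a T) {k : ℕ} (hk : k ≤ S.Jp) : k ≤ M.N := hk.trans A.cl.i4.le

/-- `sb - s = d · del + G - d · rb / (m + 1)` -/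
theorem sb_sub (M : Md) (m : ℕ) (a : ℝ) (k : ℕ) : sb M m a (k + 1) - M.s k =
    M.d k * M.del m a k + M.G k - M.d k * M.rb m a k / (m + 1) := by
  simp only [sb, kp_eq, Md.del, Md.G]; ring

theorem tail_mem (A : At S M m a T) {k : ℕ} (hk : k ≤ M.N) :
    0 ≤ M.d k * M.rb m a k / (m + 1) ∧ M.d k * M.rb m a k / (m + 1) ≤ S.C / (m + 1) := by
  obtain ⟨p, q⟩ := d_mem A.cl hk
  obtain ⟨r, s⟩ := rb_mem (M := M) (a := a) A.m_pos k
  have := A.cl.b1
  exact ⟨div_nonneg (mul_nonneg (by linarith) r) (by positivity),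
    div_le_div_of_nonneg_right (by nlinarith) (by positivity)⟩

theorem del_le (A : At S M m a T) {k : ℕ} (hk : k ≤ M.N) :
    |M.del m a k| ≤ |sb M m a (k + 1) - M.s k| + |M.G k| + S.C / (m + 1) := by
  obtain ⟨p, -⟩ := d_mem A.cl hk
  obtain ⟨r, s⟩ := A.tail_mem hk
  have e := sb_sub M m a k
  have h1 : |M.del m a k| ≤ |M.d k * M.del m a k| := by
    rw [abs_mul, abs_of_nonneg (by linarith : 0 ≤ M.d k)]
    exact le_mul_of_one_le_left (abs_nonneg _) p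
  refine h1.trans (abs_le.2 ⟨?_, ?_⟩) <;>
    linarith [le_abs_self (M.G k), neg_abs_le (M.G k), le_abs_self (sb M m a (k + 1) - M.s k),
      neg_abs_le (sb M m a (k + 1) - M.s k), r.trans s]

theorem sub_le (A : At S M m a T) {k : ℕ} (hk : k ≤ M.N) :
    |sb M m a (k + 1) - M.s k| ≤ S.C * |M.del m a k| + |M.G k| + S.C / (m + 1) := by
  obtain ⟨p, q⟩ := d_mem A.cl hk
  obtain ⟨r, s⟩ := A.tail_mem hk
  have h1 : |M.d k * M.del m a k| ≤ S.C * |M.del m a k| := by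
    rw [abs_mul, abs_of_nonneg (by linarith : 0 ≤ M.d k)]
    exact mul_le_mul_of_nonneg_right (q.trans A.cl.b1) (abs_nonneg _)
  rw [sb_sub]
  refine abs_le.2 ⟨?_, ?_⟩ <;>
    linarith [le_abs_self (M.G k), neg_abs_le (M.G k), (abs_le.1 h1).1, (abs_le.1 h1).2, r.trans s]

theorem idx (A : At S M m a T) {k : ℕ} (h1 : M.s S.j0 < M.s k) (h2 : M.s k < M.s S.J) :
    S.j0 < k ∧ k < S.J :=
  ⟨lt_of_not_ge fun h => absurd (A.cl.sm h) (not_le.2 h1),
    lt_of_not_ge fun h => absurd (A.cl.sm h) (not_le.2 h2)⟩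

/-- **(D1)** `sup |u|` locates the nodes -/
theorem node_of_u (A : At S M m a T) {a' b' U ℓ : ℝ} (ha : M.s S.j0 ≤ a') (hb : b' < M.s S.J)
    (hℓ : 0 < ℓ) (hU : S.C * (U + S.C * S.v) < ℓ) (hu : ∀ t ∈ Icc a' b', |uu M S m a T t| ≤ U)
    {k : ℕ} (h1 : a' + ℓ ≤ M.s k) (h2 : M.s k + ℓ ≤ b') :
    |sb M m a (k + 1) - M.s k| ≤ ℓ ∧ |M.del m a k| ≤ ℓ + |M.G k| + S.C / (m + 1) := by
  obtain ⟨k1, k2⟩ := A.idx (k := k) (by linarith) (by linarith)
  have k3 : k ≤ S.Jp := k2.le.trans A.cl.i3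
  have e := A.sh_succ k1.le
  have := node_abs A.ux A.ub A.uh (A.sl' ha hb) (U := U) hℓ
    (by rw [one_div_mul_eq_div, lt_div_iff₀ A.c_pos]; linarith)
    (fun t ht => by rw [← A.uu_eq (ha.trans ht.1)]; exact hu t ht) (Nat.succ_pos k)
    (Nat.succ_le_succ k3) (by rwa [e]) (by rwa [e])
  rw [e] at this
  exact ⟨this, by linarith [A.del_le (A.jp_le k3)]⟩

/-- **(D2)** located nodes give `|u|` -/
theorem u_of_node (A : At S M m a T) {i i' : ℕ} {V t : ℝ} (h0 : S.j0 ≤ i) (hi : i ≤ i')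
    (hi' : i' ≤ S.J) (hV : ∀ k, i ≤ k → k ≤ i' → |sb M m a (k + 1) - M.s k| ≤ V)
    (h1 : M.s i + V ≤ t) (h2 : t + V < M.s i') : |uu M S m a T t| ≤ S.C * V + S.C * S.v := by
  have V0 : 0 ≤ V := (abs_nonneg _).trans (hV i le_rfl hi)
  have s0 := A.cl.sm h0
  rw [A.uu_eq (by linarith)]
  refine time_abs A.ux A.ub A.uh (A.sl' (a' := t - V) (b' := t + V) (by linarith)
    (h2.trans_le (A.cl.sm hi'))) (Nat.succ_le_succ hi) (Nat.succ_le_succ (hi'.trans A.cl.i3))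
    (fun k k1 k2 => ?_) (by rwa [A.sh_succ h0]) (by rwa [A.sh_succ (h0.trans hi)]) le_rfl le_rfl
  obtain ⟨k, rfl⟩ : ∃ j, k = j + 1 := ⟨k - 1, by omega⟩
  rw [A.sh_succ (by omega)]
  exact hV k (by omega) (by omega)

theorem u_of_del (A : At S M m a T) {i i' : ℕ} {V t : ℝ} (h0 : S.j0 ≤ i) (hi : i ≤ i')
    (hi' : i' ≤ S.J)
    (hV : ∀ k, i ≤ k → k ≤ i' → S.C * |M.del m a k| + |M.G k| + S.C / (m + 1) ≤ V)
    (h1 : M.s i + V ≤ t) (h2 : t + V < M.s i') : |uu M S m a T t| ≤ S.C * V + S.C * S.v :=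
  A.u_of_node h0 hi hi' (fun k k1 k2 =>
    (A.sub_le (A.jp_le ((k2.trans hi').trans A.cl.i3))).trans (hV k k1 k2)) h1 h2

/-- above `jl` the cells of the mean profile have positive length -/
theorem sb_lt (A : At S M m a T) {k : ℕ} (h1 : S.jl ≤ k) (h2 : k < S.Jp) :
    sb M m a (k + 1) < sb M m a (k + 2) := by
  have p := A.sb_step (Nat.le_succ k)
  have n0 := n_pos A.cl
  have r : 0 < S.ms (M.s k) :=
    lt_of_lt_of_le (lt_of_lt_of_le (by positivity) A.cl.ms0) (A.cl.msm (s_nn A.cl k))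
  have c0 := A.c_pos
  have v0 := v_pos A.cl
  have q : 0 < M.H (k + 1) - M.H k := lt_of_lt_of_le (by
    first
      | (have f0 : 0 < S.F := by linarith [A.cl.F1]
         positivity)
      | positivity) (A.cl.flr k h1 h2)
  linarith

theorem cell (A : At S M m a T) {k : ℕ} (h1 : S.jl ≤ k) (h2 : k ≤ S.Jp) :
    Cell (sb M m a) (S.Jp + 1) (k + 1) (sb M m a (k + 1)) :=
  cell_node (Nat.succ_le_succ h2) fun h => A.sb_lt h1 (by omega)

theorem sb_mem (A : At S M m a T) {k : ℕ} (h : k ≤ S.Jp) : sb M m a (k + 1) ∈ Icc 0 T :=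
  A.datB.mem (Nat.succ_le_succ h)

theorem lvb_cell (A : At S M m a T) {k : ℕ} {t : ℝ} (c : Cell (sb M m a) (S.Jp + 1) (k + 1) t) :
    lvr 1 (lb M S m a T) t = M.z k :=
  A.datB.lv_cell ((A.datB.nn c.1).trans (c.2.1 (Nat.succ_pos k))) c

theorem lvb_node (A : At S M m a T) {k : ℕ} (h1 : S.jl ≤ k) (h2 : k ≤ S.Jp) :
    lvr 1 (lb M S m a T) (sb M m a (k + 1)) = M.z k := A.lvb_cell (A.cell h1 h2)

theorem hm_cell (A : At S M m a T) {k : ℕ} {t : ℝ} (c : Cell (sb M m a) (S.Jp + 1) (k + 1) t) :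
    hm M S m a t = M.H k := c.stp A.ub _

theorem hm_mono (A : At S M m a T) : Monotone (hm M S m a) :=
  stp_mono _ (up_of_mono A.hb_mono _)

/-! ### marks -/

/-- `M0 (s k) = H k - G k` above the W-mark -/
theorem Mf_node (A : At S M m a T) {k : ℕ} (h1 : S.jl < k) (h2 : k ≤ S.Jp) :
    Rig.Mf M.b (lh M T) (M.s k) = M.H k - M.G k := by
  have := A.gam_h h2
  show M.s k - M.b * Pr.Gam (lh M T) (M.s k) = _
  rw [this, Md.G, d_top A.cl h1 (A.jp_le h2)]; ring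

/-- `M (sb k) = H k - b rb / (m + 1) - b res` above the W-mark -/
theorem Mf_b (A : At S M m a T) {k : ℕ} (h1 : S.jl < k) (h2 : k ≤ S.Jp) :
    Rig.Mf M.b (lb M S m a T) (sb M m a (k + 1)) =
      M.H k - M.b * M.rb m a k / (m + 1) - M.b * res M S m a T k := by
  show sb M m a (k + 1) - M.b * Pr.Gam (lb M S m a T) (sb M m a (k + 1)) = _
  rw [res, mul_sub]
  generalize Pr.Gam (lb M S m a T) (sb M m a (k + 1)) = g
  simp only [sb, kp_eq, d_top A.cl h1 (A.jp_le h2)]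
  ring

/-- slopes of `M0` -/
theorem Mf_sl (A : At S M m a T) {a' b' : ℝ} (ha : 0 ≤ a') (hb : b' ≤ M.s S.Jp) (s t : ℝ)
    (h1 : a' ≤ s) (h2 : s ≤ t) (h3 : t ≤ b') :
    S.ms a' / S.C * (t - s) ≤ Rig.Mf M.b (lh M T) t - Rig.Mf M.b (lh M T) s ∧
      Rig.Mf M.b (lh M T) t - Rig.Mf M.b (lh M T) s ≤ S.C * S.ms b' * (t - s) := by
  refine Mf_slope A.okh.1 (ha.trans h1) h2 (by rw [A.okh.2]; exact (h3.trans hb).trans A.t2)
    fun r hr => ?_
  have hr' : r ∈ Icc 0 (M.s S.Jp) := ⟨(ha.trans h1).trans hr.1, (hr.2.trans h3).trans hb⟩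
  obtain ⟨p, q⟩ := A.cl.crit r hr'
  rw [A.e_h hr']
  exact ⟨(div_le_div_of_nonneg_right (A.cl.msm (h1.trans hr.1)) A.c_pos.le).trans p,
    q.trans (mul_le_mul_of_nonneg_left (A.cl.msm (hr.2.trans h3)) A.c_pos.le)⟩

theorem ms_pos (A : At S M m a T) {t : ℝ} (ht : 0 ≤ t) : 0 < S.ms t :=
  lt_of_lt_of_le (lt_of_lt_of_le (by have := n_pos A.cl; positivity) A.cl.ms0) (A.cl.msm ht)

/-- **the mark term**: `hm - M0 = μ u ± ζ` in the sloped part -/
theorem y_rep (A : At S M m a T) {a' b' t : ℝ} (ha : 0 ≤ a') (hb : b' < M.s S.J) {k : ℕ}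
    (h1 : S.jl < k) (c : Cell (sb M m a) (S.Jp + 1) (k + 1) t) (hk : M.s k ∈ Icc a' b')
    (ht : t ∈ Icc a' b') : ∃ μ ∈ Icc (S.ms a' / S.C ^ 2) (S.C ^ 2 * S.ms b'),
      |hm M S m a t - Rig.Mf M.b (lh M T) t - μ * uu M S m a T t| ≤
        |M.G k| + S.C ^ 3 * S.ms b' * S.v := by
  have C0 := A.c_pos
  have C1 := A.cl.C1
  have k2 : k < S.J := lt_of_not_ge fun h => absurd (A.cl.sm h) (not_le.2 (hk.2.trans_lt hb))
  have p := A.ms_pos ha
  have q := A.cl.msm (ht.1.trans ht.2)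
  obtain ⟨μ, m1, m2⟩ := quot_of_sl ((A.sl hb).mono ha le_rfl) (Sc48.lvr_mono A.okh.1.1)
    (by positivity) ((div_le_one C0).2 C1 |>.trans C1) (mul_pos C0 (v_pos A.cl)).le
    (by positivity) (((div_le_self p.le C1).trans q).trans (le_mul_of_one_le_left (by linarith) C1))
    (A.Mf_sl ha (hb.le.trans (A.cl.sm A.cl.i3))) hk ht
  refine ⟨μ, ⟨le_of_eq_of_le (by field_simp) m1.1, m1.2.trans_eq (by field_simp)⟩, ?_⟩
  rw [A.Mf_node h1 (k2.le.trans A.cl.i3), A.lvh_node (A.cl.i1.trans h1.le) k2,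
    show S.C * S.ms b' * (S.C * S.v) / (1 / S.C) = S.C ^ 3 * S.ms b' * S.v by field_simp] at m2
  rw [A.hm_cell c, uu, A.lvb_cell c]
  refine abs_le.2 ⟨?_, ?_⟩ <;>
    linarith [le_abs_self (M.G k), neg_abs_le (M.G k), (abs_le.1 m2).1, (abs_le.1 m2).2]

/-- **(W)** at a node: `W + b res = μ u ± ζ` -/
theorem W_rep (A : At S M m a T) {a' b' : ℝ} (ha : 0 ≤ a') (hb : b' < M.s S.J) {k : ℕ}
    (h1 : S.jl < k) (hk : M.s k ∈ Icc a' b') (ht : sb M m a (k + 1) ∈ Icc a' b') :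
    ∃ μ ∈ Icc (S.ms a' / S.C ^ 2) (S.C ^ 2 * S.ms b'),
      |Rig.Mf M.b (lb M S m a T) (sb M m a (k + 1)) - Rig.Mf M.b (lh M T) (sb M m a (k + 1)) +
        M.b * res M S m a T k - μ * uu M S m a T (sb M m a (k + 1))| ≤
        |M.G k| + S.C / (m + 1) + S.C ^ 3 * S.ms b' * S.v := by
  have k2 : k ≤ S.Jp := (lt_of_not_ge fun h =>
    absurd (A.cl.sm h) (not_le.2 (hk.2.trans_lt hb)) : k < S.J).le.trans A.cl.i3
  have c := A.cell h1.le k2
  obtain ⟨μ, m1, m2⟩ := A.y_rep ha hb h1 c hk ht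
  obtain ⟨r, s⟩ := A.tail_mem (A.jp_le k2)
  rw [d_top A.cl h1 (A.jp_le k2)] at r s
  refine ⟨μ, m1, ?_⟩
  rw [A.hm_cell c] at m2
  rw [A.Mf_b h1 k2]
  refine abs_le.2 ⟨?_, ?_⟩ <;> linarith [(abs_le.1 m2).1, (abs_le.1 m2).2, r.trans s]

/-! ### sums over nodes -/

theorem sum_eq {U : Finset ℕ} (hU : ∀ k ∈ U, S.j0 < k) (f : ℝ → ℝ) :
    ∑ k ∈ U, (M.z k - M.z (k - 1)) * f (sb M m a (k + 1) - M.s k) =
      ∑ k ∈ U, (xb M a (k + 1) - xb M a k) * f (sb M m a (k + 1) - sh M S (k + 1)) :=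
  Finset.sum_congr rfl fun k hk => by
    have := hU k hk
    obtain ⟨k, rfl⟩ : ∃ j, k = j + 1 := ⟨k - 1, by omega⟩
    simp only [xb, sh, max_eq_left this.le, Nat.add_sub_cancel]

theorem int_uu (A : At S M m a T) {a' b' : ℝ} (ha : M.s S.j0 ≤ a') (hab : a' ≤ b') (f : ℝ → ℝ) :
    ∫ t in a'..b', f (stp (xb M a) (sb M m a) (S.Jp + 1) t - stp (xb M a) (sh M S) (S.Jp + 1) t) =
      ∫ t in a'..b', f (uu M S m a T t) :=
  intervalIntegral.integral_congr fun t ht => by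
    rw [uIcc_of_le hab] at ht
    simp only [A.uu_eq (ha.trans ht.1)]

/-- **node sums from time integrals** in the sloped part -/
theorem en_pow (A : At S M m a T) {a' b' : ℝ} (ha : M.s S.j0 ≤ a') (hab : a' ≤ b')
    (hb : b' < M.s S.J) {U : Finset ℕ}
    (hU : ∀ k ∈ U, S.j0 < k ∧ M.s k ∈ Icc a' b' ∧ sb M m a (k + 1) ∈ Icc a' b') (p : ℕ) :
    ∑ k ∈ U, (M.z k - M.z (k - 1)) * |sb M m a (k + 1) - M.s k| ^ (p + 1) ≤
      (p + 1) * (2 * S.C) ^ p *
        ((∫ t in a'..b', |uu M S m a T t| ^ (p + 1)) + (S.C * S.v) ^ (p + 1) * (b' - a')) := by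
  have C0 := A.c_pos
  have := Zb9.en_pow A.ux A.ub A.uh (A.sl' ha hb) hab (by positivity) (mul_pos C0 (v_pos A.cl)).le
    (S := U) (fun k hk => by
      obtain ⟨p1, p2, p3⟩ := hU k hk
      have : k < S.J := lt_of_not_ge fun h => absurd (A.cl.sm h) (not_le.2 (p2.2.trans_lt hb))
      exact ⟨by have := A.cl.i3; omega, by rwa [A.sh_succ p1.le], p3⟩) p
  rw [sum_eq (fun k hk => (hU k hk).1) fun u => |u| ^ (p + 1),
    ← A.int_uu ha hab fun u => |u| ^ (p + 1)]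
  refine this.trans_eq ?_
  congr 1
  rw [mul_pow, one_div, inv_pow, div_inv_eq_mul, mul_assoc]

/-- from `sb - s` to `del` -/
theorem sum_del (A : At S M m a T) {U : Finset ℕ} (hU : ∀ k ∈ U, k ≤ S.Jp) (p : ℕ) :
    ∑ k ∈ U, (M.z k - M.z (k - 1)) * |M.rb m a k - M.q k| ^ (p + 1) ≤
      2 ^ p * (∑ k ∈ U, (M.z k - M.z (k - 1)) * |sb M m a (k + 1) - M.s k| ^ (p + 1) +
        ∑ k ∈ U, (M.z k - M.z (k - 1)) * (|M.G k| + S.C / (m + 1)) ^ (p + 1)) := by
  rw [← Finset.sum_add_distrib, Finset.mul_sum]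
  refine Finset.sum_le_sum fun k hk => ?_
  have z0 : 0 ≤ M.z k - M.z (k - 1) := sub_nonneg.2 (A.cl.leg.zm (Nat.sub_le _ _))
  have h1 := A.del_le (A.jp_le (hU k hk))
  have h2 := add_pow_le (abs_nonneg (sb M m a (k + 1) - M.s k))
    (show 0 ≤ |M.G k| + S.C / (m + 1) by have := A.c_pos; positivity) (p + 1)
  rw [Nat.add_sub_cancel] at h2
  have h3 : |M.rb m a k - M.q k| ^ (p + 1) ≤ _ :=
    (pow_le_pow_left₀ (abs_nonneg _) (by rw [← add_assoc]; exact h1) _).trans h2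
  rw [← mul_add, mul_left_comm]
  exact mul_le_mul_of_nonneg_left h3 z0


/-- above the plateau -/
theorem e_top (A : At S M m a T) {t : ℝ} (h1 : M.s S.Jp ≤ t) (h2 : t ≤ T) :
    1 - Real.exp (-((t - M.s S.Jp) / 2)) * (1 - M.e (M.s S.Jp)) ≤ 1 - M.b * Pr.GG (lh M T) t := by
  have s0 := s_nn A.cl S.Jp
  have p := (Pr.platS _ A.okh.1 _ t s0 h1 (by rwa [A.okh.2]) fun s hs => by
    rw [A.lvh' (s0.trans hs), A.cl.lv1 s hs]).1
  have b0 : 0 ≤ M.b := by linarith [(d_mem A.cl (le_refl M.N)).1, (d_mem A.cl (le_refl M.N)).2]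
  rw [← A.e_h ⟨s0, le_rfl⟩]
  nlinarith [mul_le_mul_of_nonneg_left p b0]

theorem e_nonneg (A : At S M m a T) {t : ℝ} (ht : t ∈ Icc 0 T) :
    0 ≤ 1 - M.b * Pr.GG (lh M T) t := by
  have key : ∀ r ∈ Icc 0 (M.s S.Jp), 0 ≤ M.e r := fun r hr =>
    (div_pos (A.ms_pos hr.1) A.c_pos).le.trans (A.cl.crit r hr).1
  rcases le_total t (M.s S.Jp) with h | h
  · rw [A.e_h ⟨ht.1, h⟩]; exact key t ⟨ht.1, h⟩
  · have p := A.e_top h ht.2
    have q := key _ ⟨s_nn A.cl _, le_rfl⟩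
    have r : Real.exp (-((t - M.s S.Jp) / 2)) ≤ 1 := Real.exp_le_one_iff.2 (by linarith)
    nlinarith [Real.exp_pos (-((t - M.s S.Jp) / 2))]

/-- `M0` is nondecreasing on `[0, T]` -/
theorem Mf_mono (A : At S M m a T) : MonotoneOn (Rig.Mf M.b (lh M T)) (Icc 0 T) :=
  fun s hs t ht hst => by
    obtain ⟨K, hK⟩ := isCompact_Icc.exists_bound_of_continuousOn (continuousOn_const.sub
      (continuousOn_const.mul (Pp.Ode3.Gp_cont (ap_of_ok A.okh.1))) :
      ContinuousOn (fun r => 1 - M.b * Pp.Ode3.Gp (lh M T) r) _)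
    rw [A.okh.2] at hK
    have := (Mf_slope (b := M.b) (d := 0) (D := K) A.okh.1 hs.1 hst (by rw [A.okh.2]; exact ht.2)
      fun r hr => ⟨A.e_nonneg ⟨hs.1.trans hr.1, hr.2.trans ht.2⟩,
        (le_abs_self _).trans (hK r ⟨hs.1.trans hr.1, hr.2.trans ht.2⟩)⟩).1
    linarith


end At

end Crest.Agent.T156.Alt.Mp9

end
private theorem rz_31202eff72 : type_of% @_root_.Crest.Agent.T156.Alt.Mp9.hb.eq_1 := @_root_.Crest.Agent.T156.Alt.Mp9.hb.eq_1 -- L147
private theorem rz_cb31fa8841 : type_of% @_root_.Crest.Agent.T156.Alt.Mp9.sb.eq_1 := @_root_.Crest.Agent.T156.Alt.Mp9.sb.eq_1 -- L137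
private theorem rz_aeb23f8a1b : type_of% @_root_.Crest.Agent.T156.Alt.Mp9.sh.eq_1 := @_root_.Crest.Agent.T156.Alt.Mp9.sh.eq_1 -- L142
private theorem rz_104f03d22f : type_of% @_root_.Crest.Agent.T156.Alt.Mp9.xb.eq_1 := @_root_.Crest.Agent.T156.Alt.Mp9.xb.eq_1 -- L132
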