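import Crest.Agent.T156.CIn_12
import Crest.Agent.T156.ClZb_9
import Crest.Agent.T156.Top_31
import Crest.Agent.T156.Hess_65

/-!
# Row 156: the site cascade of the ONE path against the reference of the class (helper7)
-/

set_option autoImplicit false

noncomputable section

namespace Crest.Agent.T156.Alt.St7

open MeasureTheory Set
open Crest.Agent.T157.E Crest.Agent.T157.Casc
open Crest.Agent.R164.GC Crest.Agent.R339.B Crest.Agent.R339.Var Crest.Agent.T157.Pf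
open Crest.Agent.T156.Pp.Area50 Crest.Agent.T156.Zb9 Crest.Agent.T156.Ker
open Crest.Agent.T156.Cas hiding TT
open Crest.Agent.T156.Alt.Md67

/-- comparison without any condition on the total times -/
theorem lip2 (T : ℝ) : ∃ C : ℝ, 1 ≤ C ∧ ∀ (T1 : ℝ) (l l' : List (ℝ × ℝ)), Adm 1 l → Adm 1 l' →
    0 ≤ T1 → T1 ≤ T → (∀ s, T1 ≤ s → lvr 1 l s = 1) → (∀ s, T1 ≤ s → lvr 1 l' s = 1) →
    ∀ t, 0 ≤ t → t ≤ TT l → t ≤ TT l' → ∀ W N, Wf l l' (min t T1) ≤ W →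
    Nf l l' (min t T1) T1 ≤ N →
    |Pr.Gam l' t - Pr.Gam l t| ≤ C * (W + min t T1 * N) ∧ |Pr.GG l' t - Pr.GG l t| ≤ C * (W + N) ∧
    |Pr.AA l' t - Pr.AA l t| ≤ C * (W + N) ∧
    |Pr.NN l' t - Pr.NN l t| ≤ C * (W + min t T1 * N) := by
  obtain ⟨C, h1, hC⟩ := fun_lip' T
  refine ⟨C, h1, fun T1 l l' h h' t0 t1 e e' t ht h2 h2' W N hW hN => ?_⟩
  have ext : ∀ {u : List (ℝ × ℝ)}, Adm 1 u → (∀ s, T1 ≤ s → lvr 1 u s = 1) →
      Tp T1 (u ++ [(1, T1)]) ∧ Same u (u ++ [(1, T1)]) (TT u) ∧ TT u ≤ TT (u ++ [(1, T1)]) :=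
    fun {u} a b => by
      have tt : TT (u ++ [(1, T1)]) = TT u + T1 := by rw [TT_append]; simp [TT]
      have n := Min62.TT_nn a
      exact ⟨⟨adm_app t0 a, ⟨t0, by linarith⟩, fun s hs => by rw [lvr_app, b s hs]⟩,
        same_le a (adm_app t0 a) (by linarith) fun s _ _ => lvr_app _ _ _, by linarith⟩
  obtain ⟨p, s, q⟩ := ext h e
  obtain ⟨p', s', q'⟩ := ext h' e'
  obtain ⟨a1, a2, a3, a4, -⟩ := hC T1 _ _ p p' t1 t ht (h2.trans q) (h2'.trans q') _ _ rfl rfl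
  simp only [Wf, Nf, lvr_app] at a1 a2 a3 a4
  rw [s.gam t ⟨ht, h2⟩, s'.gam t ⟨ht, h2'⟩] at a1
  rw [s.gg t ⟨ht, h2⟩, s'.gg t ⟨ht, h2'⟩] at a2
  rw [s.aa t ⟨ht, h2⟩, s'.aa t ⟨ht, h2'⟩] at a3
  rw [s.nn t ⟨ht, h2⟩, s'.nn t ⟨ht, h2'⟩] at a4
  have k : t * Nf l l' (min t T1) T1 ≤ min t T1 * N := by
    rcases le_total t T1 with c | c
    · rw [min_eq_left c] at hN ⊢
      exact mul_le_mul_of_nonneg_left hN ht
    · rw [min_eq_right c] at hN ⊢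
      simp only [Nf, intervalIntegral.integral_same, mul_zero] at hN ⊢
      exact mul_nonneg t0 hN
  have C0 : 0 ≤ C := by linarith
  have b1 := mul_le_mul_of_nonneg_left (add_le_add hW k) C0
  have b2 := mul_le_mul_of_nonneg_left (add_le_add hW hN) C0
  exact ⟨a1.trans b1, a2.trans b2, a3.trans b2, a4.trans b1⟩

/-- a tilt function that is the step function of `(z, τ)` above `τ c` -/
structure Ab (ζ : ℝ → ℝ) (z τ : ℕ → ℝ) (c p : ℕ) : Prop where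
  up : ∀ k, c ≤ k → k < p → τ k ≤ τ (k + 1)
  lo : ∀ u, u < τ c → 0 ≤ ζ u ∧ ζ u ≤ z c
  mid : ∀ k, c ≤ k → k < p → ∀ u, τ k ≤ u → u < τ (k + 1) → ζ u = z k
  top : ∀ u, τ p ≤ u → ζ u = z p

/-- labels from `c` on -/
def yy (z : ℕ → ℝ) (c : ℕ) : ℕ → ℝ
  | 0 => 0
  | j + 1 => z (c + j)

/-- times from `c` on -/
def tt (τ : ℕ → ℝ) (c : ℕ) : ℕ → ℝ
  | 0 => τ c
  | j + 1 => τ (c + j)

/-- the label-weighted distance of the times -/
def D1 (z dl : ℕ → ℝ) (c p : ℕ) : ℝ :=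
  z c * dl c + ∑ i ∈ Finset.Ioc c p, (z i - z (i - 1)) * dl i

section ab
variable {ζ ζ' : ℝ → ℝ} {z τ τ' : ℕ → ℝ} {c p : ℕ}

theorem Ab.ut (h : Ab ζ z τ c p) : Up (tt τ c) (p - c + 1) := fun
  | 0, _ => le_rfl
  | j + 1, hj => h.up (c + j) (by omega) (by omega)

theorem uy (hz : Monotone z) (h0 : 0 ≤ z c) (n : ℕ) : Up (yy z c) n := fun
  | 0, _ => h0
  | j + 1, _ => hz (Nat.le_succ (c + j))

theorem Ab.low (h : Ab ζ z τ c p) {u : ℝ} (hu : u < τ c) :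
    stp (yy z c) (tt τ c) (p - c + 1) u = 0 :=
  stp_eq h.ut (Nat.zero_le _) (fun e => (lt_irrefl _ e).elim) fun _ => hu

theorem Ab.hi (h : Ab ζ z τ c p) (hc : c ≤ p) (hz : Monotone z) {u : ℝ} (hu : τ c ≤ u) :
    stp (yy z c) (tt τ c) (p - c + 1) u = ζ u ∧ z c ≤ ζ u := by
  obtain ⟨k, ck⟩ := exists_Cell h.ut u
  have h1 : 1 ≤ k := ck.ge h.ut (by omega) hu
  obtain ⟨k, rfl⟩ : ∃ j, k = j + 1 := ⟨k - 1, by omega⟩
  have h2 : τ (c + k) ≤ u := ck.2.1 (Nat.succ_pos k)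
  have e : ζ u = z (c + k) := by
    rcases (Nat.le_of_succ_le_succ ck.1).eq_or_lt with e | e
    · rw [show c + k = p by omega] at h2 ⊢
      exact h.top u h2
    · exact h.mid _ (by omega) (by omega) u h2 (ck.2.2 (by omega))
  exact ⟨by rw [ck.stp h.ut, e]; rfl, e ▸ hz (Nat.le_add_right _ _)⟩

theorem Ab.pt (h : Ab ζ z τ c p) (h' : Ab ζ' z τ' c p) (hc : c ≤ p) (hz : Monotone z) (u : ℝ) :
    |ζ' u - ζ u| ≤ |stp (yy z c) (tt τ' c) (p - c + 1) u - stp (yy z c) (tt τ c) (p - c + 1) u| +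
      z c * (1 - ind (min (τ c) (τ' c)) u) := by
  rcases lt_or_ge u (τ c) with a | a <;> rcases lt_or_ge u (τ' c) with b | b
  · rw [h.low a, h'.low b, ind_neg (lt_min a b), sub_self, abs_zero, abs_le]
    constructor <;> linarith [h.lo u a, h'.lo u b, (h.lo u a).1, (h.lo u a).2, (h'.lo u b).1,
      (h'.lo u b).2]
  · obtain ⟨e, f⟩ := h'.hi hc hz b
    obtain ⟨g, g'⟩ := h.lo u a
    rw [h.low a, e, ind_pos ((min_le_right _ _).trans b), abs_of_nonneg (by linarith),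
      abs_of_nonneg (by linarith)]
    linarith
  · obtain ⟨e, f⟩ := h.hi hc hz a
    obtain ⟨g, g'⟩ := h'.lo u b
    rw [h'.low b, e, ind_pos ((min_le_left _ _).trans a), abs_of_nonpos (by linarith),
      abs_of_nonpos (by linarith)]
    linarith
  · rw [(h.hi hc hz a).1, (h'.hi hc hz b).1, ind_pos ((min_le_left _ _).trans a)]
    linarith

theorem sum_D1 (_ : c ≤ p) (dl : ℕ → ℝ) : ∑ j ∈ Finset.range (p - c + 1),
    (yy z c (j + 1) - yy z c j) * dl (c + j) = D1 z dl c p := by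
  rw [Finset.sum_range_succ', D1, add_comm, show Finset.Ioc c p = Finset.Ico (c + 1) (p + 1) from by
    ext k; simp only [Finset.mem_Ico, Finset.mem_Ioc]; omega, Finset.sum_Ico_eq_sum_range,
    Nat.add_sub_add_right]
  simp only [yy, add_zero, sub_zero]
  congr 1
  exact Finset.sum_congr rfl fun j _ => by
    rw [show c + 1 + j = c + (j + 1) by omega, show c + (j + 1) - 1 = c + j by omega]

variable {l l' : List (ℝ × ℝ)}

theorem Ab.WN (h : Ab (lvr 1 l) z τ c p) (h' : Ab (lvr 1 l') z τ' c p) (hc : c ≤ p)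
    (hz : Monotone z) (h0 : 0 ≤ z c) {t T1 : ℝ} (r0 : 0 ≤ min (τ c) (τ' c))
    (ht : min (τ c) (τ' c) ≤ t) (ht' : t ≤ T1) :
    Wf l l' t ≤ z c * min (τ c) (τ' c) ^ 2 + t * D1 z (fun i => |τ' i - τ i|) c p ∧
      Nf l l' t T1 ≤ D1 z (fun i => |τ' i - τ i|) c p := by
  set r := min (τ c) (τ' c)
  have A := fun a b (hab : a ≤ b) => (area_L1' (tt τ c) (tt τ' c) (uy hz h0 (p - c + 1)) hab).trans_eq
    (sum_D1 hc fun i => |τ' i - τ i|)
  have i1 := fun a b => ((ii_stp_one (yy z c) (tt τ' c) (p - c + 1) a b).sub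
    (ii_stp_one (yy z c) (tt τ c) (p - c + 1) a b)).abs
  have i2 := fun a b => ((Ker.lvr_ii l' a b).sub (Ker.lvr_ii l a b)).abs
  have t0 := r0.trans ht
  constructor
  · have i3 : IntervalIntegrable (fun s => ind r s * 1) volume 0 t := ii_ind intervalIntegrable_const r
    have i4 := (intervalIntegrable_const (c := (1 : ℝ)).sub i3).const_mul (z c * r)
    have := intervalIntegral.integral_mono_on t0 ((i2 0 t).continuousOn_mul continuousOn_id)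
      (((i1 0 t).const_mul t).add i4) fun u hu => by
        have a := h.pt h' hc hz u
        have b : u * (1 - ind r u) ≤ r * (1 - ind r u) := by
          rcases lt_or_ge u r with e | e
          · rw [ind_neg e]; linarith
          · rw [ind_pos e]; simp
        have d := mul_le_mul_of_nonneg_left b h0
        have f := mul_le_mul_of_nonneg_right hu.2 (abs_nonneg
          (stp (yy z c) (tt τ' c) (p - c + 1) u - stp (yy z c) (tt τ c) (p - c + 1) u))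
        have g := mul_le_mul_of_nonneg_left a hu.1
        simp only [id, mul_one]
        linarith
    rw [intervalIntegral.integral_add ((i1 0 t).const_mul t) i4, intervalIntegral.integral_const_mul,
      intervalIntegral.integral_const_mul, intervalIntegral.integral_sub intervalIntegrable_const i3,
      int_ind t0 intervalIntegrable_const, cl_of_mem r0 ht] at this
    simp only [intervalIntegral.integral_const, smul_eq_mul, mul_one, id] at this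
    have b := mul_le_mul_of_nonneg_left (A 0 t t0) t0
    unfold Wf
    linarith
  · refine le_trans (intervalIntegral.integral_mono_on ht' (i2 t T1) (i1 t T1) fun u hu => ?_)
      (A t T1 ht')
    have a := h.pt h' hc hz u
    rwa [ind_pos (ht.trans hu.1), sub_self, mul_zero, add_zero] at a

end ab

variable {S : Sc} {M : Md} {m : ℕ} {a : ℝ} {ρ : ℕ → ℝ} {c : ℕ}

/-- site times of the ONE path -/
def sg (M : Md) (m : ℕ) (ρ : ℕ → ℝ) (k : ℕ) : ℝ := tp M m k * ρ k + M.H k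
/-- distance of the site times to the reference times -/
def dl (M : Md) (m : ℕ) (ρ : ℕ → ℝ) (k : ℕ) : ℝ := |sg M m ρ k - M.s k|
/-- the site list -/
def Vl (M : Md) (m : ℕ) (a : ℝ) (ρ : ℕ → ℝ) : List (ℝ × ℝ) := opV m 1 (M.Mx a) (qx M ρ)

theorem dl_le (h : Cl S M) (hρ : Rf M ρ) {k : ℕ} (hk : k < M.N) :
    dl M m ρ k ≤ |M.G k| + S.C * |ρ k - M.q k| + S.C / (m + 1) := by
  have d0 := d_nonneg h.leg k
  have d1 := (d_le_b h.leg hk.le).trans h.b1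
  have r := (hρ.ook (a := 0) h.leg).mem (j := k + 1) (by rw [len_Mx]; omega)
  rw [qx_succ hk] at r
  have p : (0 : ℝ) < m + 1 := by positivity
  have e1 : |M.d k * (ρ k - M.q k)| ≤ S.C * |ρ k - M.q k| := by
    rw [abs_mul, abs_of_nonneg d0]; exact mul_le_mul_of_nonneg_right d1 (abs_nonneg _)
  have e2 : |M.d k / (m + 1) * ρ k| ≤ S.C / (m + 1) := by
    rw [abs_of_nonneg (mul_nonneg (div_nonneg d0 p.le) r.1)]
    exact (mul_le_of_le_one_right (div_nonneg d0 p.le) r.2).trans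
      (div_le_div_of_nonneg_right d1 p.le)
  rw [dl, sg, sig_sub h]
  linarith [abs_sub (M.G k + M.d k * (ρ k - M.q k)) (M.d k / (m + 1) * ρ k),
    abs_add_le (M.G k) (M.d k * (ρ k - M.q k))]

theorem ab_lr (h : Cl S M) (c0 : S.j0 ≤ c) (c1 : c < S.J) : Ab (lvr 1 M.lr) M.z M.s c S.Jp :=
  ⟨fun k _ _ => h.sm (Nat.le_succ k), fun u hu => ⟨(Pp.Ode3.lvr_pos h.ok.1 u).le,
    (Pp.Ode3.lvr_mono h.ok.1 hu.le).trans_eq (h.lv c c0 _ le_rfl (Mp9.s_lt h c1))⟩,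
    fun k hk _ => h.lv k (c0.trans hk), fun u hu => (h.lv1 u hu).trans (h.top _ le_rfl).symm⟩

/-- the site list as a step list -/
theorem Vl_spec (G : Lg M m a) (hρ : Rf M ρ) : ∃ σ : ℕ → ℝ, Up σ (M.N + 1) ∧ σ 0 = 0 ∧
    (∀ k < M.N, σ (k + 1) = sg M m ρ k) ∧ TT (Vl M m a ρ) = σ (M.N + 1) ∧
    ∀ u, lvr 1 (Vl M m a ρ) u = stp (Mp9.xb M a) σ (M.N + 1) u := by
  set σ : ℕ → ℝ := fun j => oTau m 1 (M.Mx a) j * qx M ρ j + fAcc (M.Mx a) j with hσ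
  have e0 : σ 0 = 0 := by simp [hσ, oTau, dAcc, fAcc]
  have e := opV_eq m 1 (M.Mx a) (qx M ρ) (x := Mp9.xb M a) (Mp9.Mx_tilt M a)
  rw [len_Mx] at e
  have us : Up σ (M.N + 1) := fun j hj => by
    have := opV_nn (n := m) (β := 1) (hρ.ook (a := a) G.toLeg) (Mp9.xb M a j, σ (j + 1) - σ j) (by
      rw [e, lsg, List.mem_ofFn]; exact ⟨⟨j, hj⟩, rfl⟩)
    exact sub_nonneg.1 this
  refine ⟨σ, us, e0, fun k hk => ?_, ?_, fun u => ?_⟩
  · simp only [hσ, sg, oTau_tp hk.le, qx_succ hk, fAcc_Mx G.toLeg hk.le]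
  · rw [Vl, e, TT_lsg]
    exact (congrArg (σ (M.N + 1) - ·) e0).trans (sub_zero _)
  · rw [Vl, e]
    exact lvr_lsg (z := Mp9.xb M a) (J := M.N + 1) G.zN us e0 u

theorem sg_mem (G : Lg M m a) (hρ : Rf M ρ) {k : ℕ} (hk : k < M.N) :
    sg M m ρ k ∈ Icc 0 (TT (Vl M m a ρ)) := by
  obtain ⟨σ, us, e0, e1, e2, -⟩ := Vl_spec G hρ
  rw [← e1 k hk, e2, ← e0]
  exact ⟨us.le (Nat.zero_le _) (by omega), us.le (by omega) le_rfl⟩

theorem sg_mono (G : Lg M m a) (hρ : Rf M ρ) {i k : ℕ} (hi : i ≤ k) (hk : k < M.N) :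
    sg M m ρ i ≤ sg M m ρ k := by
  obtain ⟨σ, us, -, e1, -⟩ := Vl_spec G hρ
  rw [← e1 k hk, ← e1 i (by omega)]
  exact us.le (by omega) (by omega)

theorem ab_V (G : Lg M m a) (hρ : Rf M ρ) {p : ℕ} (hc : c ≤ p) (hp : p < M.N)
    (top : ∀ k, p ≤ k → M.z k = 1) : Ab (lvr 1 (Vl M m a ρ)) M.z (sg M m ρ) c p := by
  obtain ⟨σ, us, -, e1, -, e⟩ := Vl_spec G hρ
  have xm : Monotone (Mp9.xb M a) := monotone_nat_of_le_succ fun
    | 0 => G.z0
    | k + 1 => G.zm (Nat.le_succ k)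
  refine ⟨fun k _ hk => sg_mono G hρ (Nat.le_succ k) (by omega), fun u hu => ?_,
    fun k _ hk u h1 h2 => ?_, fun u hu => ?_⟩
  · obtain ⟨k, ck⟩ := exists_Cell us u
    have := ck.lt us (Nat.succ_pos c) (by rwa [e1 c (by omega)])
    rw [e, ck.stp us]
    exact ⟨G.a0.trans (xm (Nat.zero_le k)), xm this.le⟩
  · rw [e]
    exact stp_eq (k := k + 1) us (by omega) (fun _ => by rwa [e1 k (by omega)])
      fun _ => by rwa [e1 _ (by omega)]
  · obtain ⟨k, ck⟩ := exists_Cell us u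
    have := ck.ge us (i := p + 1) (by omega) (by rwa [e1 p hp])
    obtain ⟨k, rfl⟩ : ∃ j, k = j + 1 := ⟨k - 1, by omega⟩
    rw [e, ck.stp us, top p le_rfl]
    exact top k (by omega)

/-- the two errors: below the cut, and the mismatch of the times -/
def E3 (M : Md) (m : ℕ) (ρ : ℕ → ℝ) (c : ℕ) : ℝ := M.z c * min (M.s c) (sg M m ρ c) ^ 2
def Ed (S : Sc) (M : Md) (m : ℕ) (ρ : ℕ → ℝ) (c : ℕ) : ℝ := D1 M.z (dl M m ρ) c S.Jp

/-- the hypotheses of the link -/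
structure Lk (T : ℝ) (S : Sc) (M : Md) (m : ℕ) (a : ℝ) (ρ : ℕ → ℝ) (c : ℕ) : Prop where
  cl : Cl S M
  lg : Lg M m a
  a0 : 0 < a
  rf : Rf M ρ
  c0 : S.j0 ≤ c
  c1 : c < S.J
  t1 : M.s S.Jp ≤ T
  t2 : sg M m ρ S.Jp ≤ T

theorem E3_nonneg {T : ℝ} (L : Lk T S M m a ρ c) : 0 ≤ E3 M m ρ c :=
  mul_nonneg (L.lg.a0.trans (L.lg.z0.trans (L.lg.zm (Nat.zero_le c)))) (sq_nonneg _)

theorem Ed_nonneg {T : ℝ} (L : Lk T S M m a ρ c) : 0 ≤ Ed S M m ρ c :=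
  add_nonneg (mul_nonneg (L.lg.a0.trans (L.lg.z0.trans (L.lg.zm (Nat.zero_le c)))) (abs_nonneg _))
    (Finset.sum_nonneg fun i _ => mul_nonneg (sub_nonneg.2 (L.lg.zm (Nat.sub_le i 1)))
      (abs_nonneg _))

/-- the mismatch from a sup bound -/
theorem Ed_le {T : ℝ} (L : Lk T S M m a ρ c) {d : ℝ}
    (hd : ∀ k, c ≤ k → k ≤ S.Jp → dl M m ρ k ≤ d) : Ed S M m ρ c ≤ d := by
  have hc : c ≤ S.Jp := L.c1.le.trans L.cl.i3
  have z0 : 0 ≤ M.z c := L.lg.a0.trans (L.lg.z0.trans (L.lg.zm (Nat.zero_le c)))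
  rw [Ed, ← sum_D1 hc]
  refine (Finset.sum_le_sum fun j hj => mul_le_mul_of_nonneg_left (hd (c + j) (by omega) (by
    have := Finset.mem_range.1 hj; omega)) (sub_nonneg.2 (uy L.lg.zm z0 _ j (Finset.mem_range.1 hj)))
    ).trans_eq ?_
  rw [← Finset.sum_mul, Finset.sum_range_sub]
  simp only [yy, sub_zero]
  rw [show c + (S.Jp - c) = S.Jp by omega, L.cl.top _ le_rfl, one_mul]

/-- **the link at equal times** -/
theorem link_t (T : ℝ) : ∃ C : ℝ, 1 ≤ C ∧ ∀ (S : Sc) (M : Md) (m : ℕ) (a : ℝ) (ρ : ℕ → ℝ) (c : ℕ),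
    Lk T S M m a ρ c → ∀ t, min (M.s c) (sg M m ρ c) ≤ t → t ≤ TT M.lr → t ≤ TT (Vl M m a ρ) →
    |Pr.Gam (Vl M m a ρ) t - Pr.Gam M.lr t| ≤ C * (E3 M m ρ c + min t 1 * Ed S M m ρ c) ∧
    |Pr.GG (Vl M m a ρ) t - Pr.GG M.lr t| ≤ C * (E3 M m ρ c + Ed S M m ρ c) ∧
    |Pr.AA (Vl M m a ρ) t - Pr.AA M.lr t| ≤ C * (E3 M m ρ c + Ed S M m ρ c) ∧
    |Pr.NN (Vl M m a ρ) t - Pr.NN M.lr t| ≤ C * (E3 M m ρ c + min t 1 * Ed S M m ρ c) := by
  obtain ⟨C, h1, hC⟩ := lip2 T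
  have K : 1 ≤ 2 * (|T| + 1) := by linarith [abs_nonneg T]
  refine ⟨C * (2 * (|T| + 1)), one_le_mul_of_one_le_of_one_le h1 K,
    fun S M m a ρ c L t r1 t1 t2 => ?_⟩
  have hc : c ≤ S.Jp := L.c1.le.trans L.cl.i3
  have A := ab_lr L.cl L.c0 L.c1
  have B := ab_V L.lg L.rf hc L.cl.i4 L.cl.top
  have r0 : 0 ≤ min (M.s c) (sg M m ρ c) :=
    le_min (s_nonneg L.cl c) (sg_mem L.lg L.rf (hc.trans_lt L.cl.i4)).1
  have t0 := r0.trans r1
  have z1 := L.cl.top _ le_rfl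
  set T1 := max (M.s S.Jp) (sg M m ρ S.Jp)
  have r2 : min (M.s c) (sg M m ρ c) ≤ T1 :=
    (min_le_left _ _).trans ((L.cl.sm hc).trans (le_max_left _ _))
  have T2 : T1 ≤ T := max_le L.t1 L.t2
  obtain ⟨w, n⟩ := A.WN B hc L.lg.zm (L.lg.a0.trans (L.lg.z0.trans (L.lg.zm (Nat.zero_le c)))) r0
    (le_min r1 r2) (min_le_right t T1)
  obtain ⟨a1, a2, a3, a4⟩ := hC T1 _ _ L.cl.ok.1 (adm_Mx L.lg L.a0 L.rf) (r0.trans r2) T2
    (fun s hs => (A.top s ((le_max_left _ _).trans hs)).trans z1)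
    (fun s hs => (B.top s ((le_max_right _ _).trans hs)).trans z1) t t0 t1 t2 _ _ w n
  have e3 := E3_nonneg L
  have ed := Ed_nonneg L
  have m1 : min t T1 ≤ |T| := (min_le_right _ _).trans (T2.trans (le_abs_self T))
  have m2 : min t T1 ≤ (|T| + 1) * min t 1 := by
    rcases le_total t 1 with e | e
    · rw [min_eq_left e]
      exact (min_le_left _ _).trans (le_mul_of_one_le_left t0 (by linarith [abs_nonneg T]))
    · rw [min_eq_right e]; linarith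
  have C0 : 0 ≤ C := by linarith
  have k0 := mul_le_mul_of_nonneg_right K e3
  have b1 : C * (E3 M m ρ c + min t T1 * Ed S M m ρ c + min t T1 * Ed S M m ρ c) ≤
      C * (2 * (|T| + 1)) * (E3 M m ρ c + min t 1 * Ed S M m ρ c) := by
    rw [mul_assoc]
    exact mul_le_mul_of_nonneg_left (by nlinarith [mul_le_mul_of_nonneg_right m2 ed]) C0
  have b2 : C * (E3 M m ρ c + min t T1 * Ed S M m ρ c + Ed S M m ρ c) ≤
      C * (2 * (|T| + 1)) * (E3 M m ρ c + Ed S M m ρ c) := by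
    rw [mul_assoc]
    exact mul_le_mul_of_nonneg_left (by
      nlinarith [mul_le_mul_of_nonneg_right m1 ed, mul_nonneg (abs_nonneg T) ed]) C0
  exact ⟨a1.trans b1, a2.trans b2, a3.trans b2, a4.trans b1⟩

theorem Gam_lipA {l : List (ℝ × ℝ)} (h : Adm 1 l) {s t : ℝ} (hs : s ∈ Icc 0 (TT l))
    (ht : t ∈ Icc 0 (TT l)) : |Pr.Gam l t - Pr.Gam l s| ≤ |t - s| := by
  obtain ⟨l', h1, h2, -⟩ := Spl27.exists_ok h
  have S := Ker.same h h1.1 fun t ht => (h2.lv t ht.le).symm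
  rw [← h2.tt, min_self] at S
  rw [← S.gam t ht, ← S.gam s hs]
  rw [h2.tt] at hs ht
  exact Pp.Ode3.Gam_lip (.of_ok h1) hs ht

theorem Gn_Vl (G : Lg M m a) (hρ : Rf M ρ) {k : ℕ} (hk : k < M.N) :
    Hess65.Gn (opS m 1 (M.Mx a) (qx M ρ)) (k + 1) = Pr.GG (Vl M m a ρ) (sg M m ρ k) := by
  rw [Hess65.Gn_eq (rk_opS (hρ.ook G.toLeg)) (by rw [opS_length, len_Mx]; omega), Hess65.tm,
    TT_Mx G.toLeg hk]
  rfl

/-- **the link at the nodes** -/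
theorem link (T : ℝ) : ∃ C : ℝ, 1 ≤ C ∧ ∀ (S : Sc) (M : Md) (m : ℕ) (a : ℝ) (ρ : ℕ → ℝ) (c : ℕ),
    Lk T S M m a ρ c → ∀ k, c ≤ k → k < M.N →
    |Pr.Gam (Vl M m a ρ) (sg M m ρ k) - M.q k| ≤
      dl M m ρ k + C * (E3 M m ρ c + min (M.s k) 1 * Ed S M m ρ c) ∧
    |Pr.GG (Vl M m a ρ) (sg M m ρ k) - Pr.GG M.lr (M.s k)| ≤
      4 * dl M m ρ k + C * (E3 M m ρ c + Ed S M m ρ c) := by
  obtain ⟨C, h1, hC⟩ := link_t T
  refine ⟨C, h1, fun S M m a ρ c L k k0 k1 => ?_⟩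
  have ms := s_mem L.cl k1.le
  have mg := sg_mem L.lg L.rf k1
  have aV : Adm 1 (Vl M m a ρ) := adm_Mx L.lg L.a0 L.rf
  set t := min (M.s k) (sg M m ρ k) with ht
  have t0 : 0 ≤ t := le_min ms.1 mg.1
  have t1 : t ∈ Icc 0 (TT M.lr) := ⟨t0, (min_le_left _ _).trans ms.2⟩
  have t2 : t ∈ Icc 0 (TT (Vl M m a ρ)) := ⟨t0, (min_le_right _ _).trans mg.2⟩
  obtain ⟨a1, a2, -⟩ := hC S M m a ρ c L t (min_le_min (L.cl.sm k0) (sg_mono L.lg L.rf k0 k1))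
    t1.2 t2.2
  have d : |sg M m ρ k - t| + |t - M.s k| = dl M m ρ k := by
    rw [dl, ht]
    rcases le_total (M.s k) (sg M m ρ k) with e | e
    · rw [min_eq_left e, sub_self, abs_zero, add_zero]
    · rw [min_eq_right e, sub_self, abs_zero, zero_add]
  have b1 := Gam_lipA aV t2 mg
  have b2 := Gam_lipA L.cl.ok.1 ms t1
  have b3 := Hess65.Gp_lipA aV t2 mg
  have b4 := Hess65.Gp_lipA L.cl.ok.1 ms t1
  have b5 := mul_le_mul_of_nonneg_left (add_le_add_right (mul_le_mul_of_nonneg_right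
    (min_le_min_right 1 (min_le_left (M.s k) (sg M m ρ k))) (Ed_nonneg L)) (E3 M m ρ c))
    (zero_le_one.trans h1)
  rw [← Pp.Ode3.GG_eq] at b3 b4
  rw [← ht] at b5
  constructor
  · refine (abs_sub_le _ (Pr.Gam (Vl M m a ρ) t) _).trans ?_
    linarith [abs_sub_le (Pr.Gam (Vl M m a ρ) t) (Pr.Gam M.lr t) (M.q k), (show
      |Pr.Gam M.lr t - M.q k| ≤ _ from b2)]
  · refine (abs_sub_le _ (Pr.GG (Vl M m a ρ) t) _).trans ?_
    linarith [abs_sub_le (Pr.GG (Vl M m a ρ) t) (Pr.GG M.lr t) (Pr.GG M.lr (M.s k))]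

theorem sg_cq {k : ℕ} (hk : c ≤ k) : sg M m (CIn12.cq c ρ) k = sg M m ρ k := by
  rw [sg, CIn12.cq_ge hk]; rfl

theorem dl_cq {k : ℕ} (hk : c ≤ k) : dl M m (CIn12.cq c ρ) k = dl M m ρ k := by
  rw [dl, sg_cq hk]; rfl

theorem E3_cq : E3 M m (CIn12.cq c ρ) c = E3 M m ρ c := by rw [E3, sg_cq le_rfl]; rfl

theorem Ed_cq : Ed S M m (CIn12.cq c ρ) c = Ed S M m ρ c := by
  rw [Ed, Ed, D1, D1, dl_cq le_rfl, Finset.sum_congr rfl fun i hi => by
    rw [dl_cq (Finset.mem_Ioc.1 hi).1.le]]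

theorem Lk.cq {T : ℝ} (L : Lk T S M m a ρ c) : Lk T S M m a (CIn12.cq c ρ) c :=
  ⟨L.cl, L.lg, L.a0, CIn12.rf_cq L.rf c, L.c0, L.c1, L.t1,
    (sg_cq (L.c1.le.trans L.cl.i3)).trans_le L.t2⟩

theorem E3_le {T : ℝ} (L : Lk T S M m a ρ c) : E3 M m ρ c ≤ M.z c * M.s c ^ 2 :=
  mul_le_mul_of_nonneg_left (pow_le_pow_left₀ (le_min (s_nonneg L.cl c) (sg_mem L.lg L.rf
    ((L.c1.le.trans L.cl.i3).trans_lt L.cl.i4)).1) (min_le_left _ _) 2)
    (L.lg.a0.trans (L.lg.z0.trans (L.lg.zm (Nat.zero_le c))))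

/-- **the link for the datum `cd`** (reference `0` below the cut) -/
theorem link_cd (T : ℝ) : ∃ C : ℝ, 1 ≤ C ∧ ∀ (S : Sc) (M : Md) (m : ℕ) (a : ℝ) (ρ : ℕ → ℝ) (c : ℕ),
    Lk T S M m a ρ c → ∀ k, c ≤ k → k < M.N →
    |CIn12.GamC M m a ρ c k - M.q k| ≤
      dl M m ρ k + C * (M.z c * M.s c ^ 2 + min (M.s k) 1 * Ed S M m ρ c) ∧
    |Hess65.Gn (opS m 1 (M.Mx a) (qx M (CIn12.cq c ρ))) (k + 1) - Pr.GG M.lr (M.s k)| ≤
      4 * dl M m ρ k + C * (M.z c * M.s c ^ 2 + Ed S M m ρ c) := by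
  obtain ⟨C, h1, hC⟩ := link T
  refine ⟨C, h1, fun S M m a ρ c L k k0 k1 => ?_⟩
  obtain ⟨a1, a2⟩ := hC S M m a _ c L.cq k k0 k1
  have e := mul_le_mul_of_nonneg_left (E3_le L) (zero_le_one.trans h1)
  rw [Gn_Vl L.lg L.cq.rf k1]
  rw [dl_cq k0, E3_cq, Ed_cq] at a1 a2
  rw [sg_cq k0] at a1
  exact ⟨a1.trans (by linarith), a2.trans (by linarith)⟩


end Crest.Agent.T156.Alt.St7

end
private theorem rz_b1e5d43d47 : type_of% @_root_.Crest.Agent.T156.Alt.St7.yy.eq_1 := @_root_.Crest.Agent.T156.Alt.St7.yy.eq_1 -- L68
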