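import Crest.Agent.T156.StU_67_Mg
import Crest.Agent.T156.C3T_43
import Crest.Agent.T156.CAbL_45_Mg
import Crest.Agent.T156.CCr4T_4
import Crest.Agent.T156.CStC_22
import Crest.Agent.T156.CQ21G_53
import Crest.Agent.T156.CQ21N_75_Mg
import Crest.Agent.T156.CQ21S_52
import Crest.Agent.T156.CQ21I_23
import Crest.Agent.T156.RowA_18_Mg
import Crest.Agent.T156.CAb_83
import Crest.Agent.T156.CMxV_14
import Crest.Agent.T156.R2VG_23
import Crest.Agent.T156.R2Hm_42
import Crest.Agent.T156.R2VF_40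
import Crest.Agent.T156.R2K_30
import Crest.Agent.T156.CInR_12
import Crest.Agent.T156.CLfC_24
import Crest.Agent.T156.R2VA_23
import Crest.Agent.T156.StC_7
import Crest.Agent.T156.LPt_57
import Crest.Agent.T156.R2GD_78
import Crest.Agent.T156.EnFe_13
import Crest.Agent.T156.EnD_91
import Crest.Agent.T156.QTw_57

-- ▼ part T156/CQ21F_53
section

/-!
# Row 156 (helper53): `Q2S true`
-/

set_option autoImplicit false

namespace Crest.Agent.T156.Cas.C40

open Crest.Agent.T156.Cas.Q21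

/-- **the word `[aU, aU]` in the test direction** -/
theorem q2S_true : Q2S true :=
  G53.q2T_of linkT (nnS_of swapS mkS R53.regWS rowRS) (bBS_of swapS pertS mkS rowRS)
    (obS_of swapS mkS rowRS piS) (oaS_of swapS mkS rowRS rowAS)

end Crest.Agent.T156.Cas.C40
end

-- ▼ part T156/CHTa_54
section

/-!
# Row 156, block C: the test head up to the mean part of the mixed word (helper54)
-/

set_option autoImplicit false

namespace Crest.Agent.T156.Cas.C40

/-- the test head -/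
theorem hT_mx (m : Mx23.MxM true) : HT :=
  glueT exS remS ⟨yhS _, y2S _, y3S _, y4S _, lbS _, mxS_true_of m, q2S_true, c3T, abS _,
    Ck32.crO _, cr4T, cr5 _⟩ stC stL stU

end Crest.Agent.T156.Cas.C40
end

-- ▼ part T156/CHT_54
section

/-!
# Row 156, block C: the test head (helper54)
-/

set_option autoImplicit false

namespace Crest.Agent.T156.Cas.C40

/-- (test ω) -/
theorem hT : HT := hT_mx Mx23.mxM_true

end Crest.Agent.T156.Cas.C40
end

-- ▼ part T156/R2VG_40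
section

/-!
# Row 156, R2 (helper40): the label sums of the value table on the END model
-/

set_option autoImplicit false
set_option linter.unusedSectionVars false

noncomputable section

namespace Crest.Agent.T156.Alt.R2

open Real Finset
open Crest.Agent.T157.E Crest.Agent.T157.Casc Crest.Agent.T157.SL
open Crest.Agent.T156.Cas Crest.Agent.T156.Cas.C40 Md67 CIn12 F40

namespace G40

variable {p : Pm} {P : Pl} {m : ℕ} {a : ℝ} {E : CIn12.Ev}

theorem mem_lo {k : ℕ} (h : k ∈ Tlo p P) : jc p ≤ k ∧ k < (Me p P).N :=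
  mem_Ico.1 (mem_filter.1 h).1

theorem mem_hi {k : ℕ} (h : k ∈ Thi p P) : jc p ≤ k ∧ k < (Me p P).N :=
  mem_Ico.1 (mem_filter.1 h).1

theorem split (d0 : ∀ k, 0 ≤ (Me p P).dz m a k) {f u v : ℕ → ℝ} {c1 c2 x y : ℝ} (p1 : 0 ≤ c1)
    (p2 : 0 ≤ c2) (h1 : ∀ k ∈ Tlo p P, f (k + 1) ≤ c1 * u k) (h2 : ∀ k ∈ Thi p P, f (k + 1) ≤ c2 * v k)
    (s1 : ∑ k ∈ Tlo p P, (Me p P).dz m a k * u k ≤ x)
    (s2 : ∑ k ∈ Thi p P, (Me p P).dz m a k * v k ≤ y) : (D p P m a E).I f ≤ c1 * x + c2 * y := by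
  rw [cd_I, ← sum_filter_add_sum_filter_not _ (fun k => (Me p P).s k < (Me p P).s p.J / 16)]
  refine add_le_add (le_trans ?_ (mul_le_mul_of_nonneg_left s1 p1))
    (le_trans ?_ (mul_le_mul_of_nonneg_left s2 p2))
  · rw [mul_sum]
    exact sum_le_sum fun k hk => (mul_le_mul_of_nonneg_left (h1 k hk) (d0 k)).trans_eq
      (mul_left_comm _ _ _)
  · rw [mul_sum]
    exact sum_le_sum fun k hk => (mul_le_mul_of_nonneg_left (h2 k hk) (d0 k)).trans_eq
      (mul_left_comm _ _ _)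

/-- absolute moments -/
def U (M : Md) (m : ℕ) (a : ℝ) (i k : ℕ) : ℝ := M.E2 m a (fun R => |R - M.q k| ^ i) k

theorem U0 (M : Md) (i k : ℕ) : 0 ≤ U M m a i k := E2_nonneg (fun _ _ => by positivity) k

theorem U_succ (M : Md) (i k : ℕ) : U M m a (i + 1) k ≤ 2 * U M m a i k := by
  rw [U, U, ← E2_mul]
  refine E2_mono (fun r hr => ?_) k
  rw [pow_succ']
  refine mul_le_mul_of_nonneg_right ?_ (by positivity)
  have := abs_le.1 hr
  have := q_nonneg (M := M) k
  have := q_le_one (M := M) k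
  rw [abs_le]
  constructor <;> linarith

theorem U_two (M : Md) (k : ℕ) : U M m a 2 k = M.E2 m a (fun R => (R - M.q k) ^ 2) k := by
  simp only [U, sq_abs]

theorem U_mom {M : Md} {k i : ℕ} {G : ℝ} (G0 : 0 < G) (hi : i ≤ 8)
    (h : M.E2 m a (fun R => (R - M.q k) ^ (2 * 4)) k ≤ G ^ (2 * 4)) :
    U M m a i k ≤ 2 ^ (i + 1) * G ^ i := by
  have := mom_pair (q := M.q k) G0 (show i ≤ 2 * 4 from hi) h
  rwa [sub_self, abs_zero, add_zero] at this

theorem u_eq (i : ℕ) {k : ℕ} (h : jc p ≤ k ∧ k < (Me p P).N) :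
    (D p P m a E).u i (k + 1) = U (Me p P) m a i k := cd_u m a _ _ E i h.1 h.2

theorem g_cube {k : ℕ} (h : jc p ≤ k ∧ k < (Me p P).N) :
    (D p P m a E).g (k + 1) ^ 3 = U (Me p P) m a 3 k := by
  rw [CD.g, u_eq 3 h, one_div]
  exact rpow_inv_natCast_pow (U0 _ _ _) three_ne_zero

theorem g_le {k : ℕ} (h : jc p ≤ k ∧ k < (Me p P).N) {x : ℝ} (x0 : 0 ≤ x)
    (hx : U (Me p P) m a 3 k ≤ x ^ 3) : (D p P m a E).g (k + 1) ≤ x :=
  le_of_pow_le_pow_left₀ three_ne_zero x0 ((g_cube h).trans_le hx)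

variable {β c0 C0 c η K C : ℝ} {A : ℕ}

theorem κ_kk (H : Reg β c0 C0 A c η K p) {i : ℕ} (hi : i ≤ 20) : (p.κ ^ i)⁻¹ ≤ kk p :=
  inv_anti₀ (pow_pos H.κ0 _) (pow_le_pow_of_le_one H.κ0.le H.κ1 hi)

theorem kk_mul (i j : ℕ) (e : ℝ) : kk p * mo p i j e = mo p (i + 1) j e := by
  simp only [mo, pow_succ]
  ring

theorem cb_mo (i : ℕ) (x : ℝ) : kk p ^ i * cb p (x / 200) = mo p i 5 (-x / 200) := by
  rw [cb, mo, neg_div]

section
variable (H : Reg β c0 C0 A c η K p) (hc : c ≤ 1 / 10 ^ 7) (e : En C p P) (ad : Ad p P m a E)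
include H hc e ad

theorem X1 : (D p P m a E).X ≤ mo p 1 1 (-(3 : ℝ) / 20) := by rw [cd_X, ad.env.X]; exact X_le H

theorem z1 (k : ℕ) : max (t1 p) ((Me p P).z k) ≤ 1 := by
  have c0' := H.c_pos
  have e1 := H.η_le
  refine max_le ?_
    ((e.cl.leg.zm (le_max_left k (p.Jp P))).trans (e.cl.top _ (le_max_right _ _)).le)
  refine (le_div_self (F40.t10 H).le H.κ0 H.κ1).trans ((X_le H).trans ?_)
  exact (mo_le' H (i' := 0) (j' := 0) (e' := 0) (by push_cast; linarith)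
    (by push_cast; linarith)).trans_eq (by simp [mo])

theorem tl : (((D p P m a E).K : ℝ) + 1) ^ 2 * (D p P m a E).tl ≤ mo p 10 0 (-(9 : ℝ) / 10) := by
  rw [cd_tl, ad.env.tl]
  refine tl_line H (by positivity) ?_
  have b1 : ((Me p P).N : ℝ) ≤ (p.n : ℝ) ^ (p.A + 1) := e.cl.card
  have b2 : (1 : ℝ) ≤ (p.n : ℝ) ^ (p.A + 1) := one_le_pow₀ H.N1.le
  rw [cd_K, pow_succ _ (p.A + 1)]
  push_cast
  nlinarith [H.N3]

set_option maxHeartbeats 800000 in
/-- the moments at a point -/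
theorem mn {G' g G : ℕ → ℝ} (gz : GZ p P m a (Tlo p P) G' g)
    (e2 : ∑ k ∈ Tlo p P, (Me p P).dz m a k * (max (t1 p) ((Me p P).z k) ^ 2 *
      (Me p P).E2 m a (fun R => (R - (Me p P).q k) ^ 2) k) ≤ mo p 5 4 (-(13 : ℝ) / 20))
    (ga : GA p P m a G)
    (gb : Mv30.IU (D p P m a E) ≤ mo p 8 4 (-(13 : ℝ) / 20) →
      Ex23.R0 (D p P m a E) ≤ mo p 8 4 (-(13 : ℝ) / 20) →
      ∑ k ∈ Thi p P, (Me p P).dz m a k * U3 p P m a k ≤ cb p (169 / 200)) :
    MnV p (D p P m a E) := by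
  have g0 := gz.g0
  have u3 := gz.u3
  have n1 : _ ≤ mo p 5 2 (-(13 : ℝ) / 40) := gz.n1
  have n2 : _ ≤ mo p 5 3 (-(31 : ℝ) / 60) := gz.n2
  have n3 : _ ≤ mo p 5 5 (-(17 : ℝ) / 20) := gz.n3.trans (mo_e H (by norm_num))
  have n4 : ∑ k ∈ Tlo p P, (Me p P).dz m a k * U (Me p P) m a 4 k ≤ mo p 5 5 (-(169 : ℝ) / 200) :=
    gz.n4.trans (mo_e H (by norm_num))
  have c0' := H.c_pos
  have e1 := H.η_le
  have ok := ad.ok
  have m0 := mo0 H
  have κ0 := H.κ0
  have k0 := F40.kk0 H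
  have t0 := F40.t10 H
  have d0 : ∀ k, 0 ≤ (Me p P).dz m a k := fun k => ok.dx0 (k + 1)
  have s1 : _ ≤ mo p 5 2 (-(13 : ℝ) / 40) := ga.s1
  have s2 : _ ≤ mo p 5 4 (-(13 : ℝ) / 20) := ga.s2
  have X1 := X1 H hc e ad
  have z1 := z1 H hc e ad
  have z0 : ∀ k, 0 ≤ max (t1 p) ((Me p P).z k) := fun k => le_max_of_le_left t0.le
  have ee : ∀ k i, i ≤ 20 → (D p P m a E).e (k + 1) ^ i ≤ kk p * max (t1 p) ((Me p P).z k) ^ i :=
    fun k i hi => by
      rw [cd_e, ad.env.e, div_pow, div_eq_inv_mul]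
      exact mul_le_mul_of_nonneg_right (κ_kk H hi) (pow_nonneg (z0 k) _)
  have e1' : ∀ k i, i ≤ 20 → (D p P m a E).e (k + 1) ^ i ≤ kk p := fun k i hi =>
    (ee k i hi).trans (mul_le_of_le_one_right k0.le (pow_le_one₀ (z0 k) (z1 k)))
  have gl : ∀ k ∈ Tlo p P, (D p P m a E).g (k + 1) ≤ g k := fun k hk =>
    g_le (mem_lo hk) (g0 k hk) (u3 k hk)
  have gh : ∀ k ∈ Thi p P, (D p P m a E).g (k + 1) ≤ 3 * G k := fun k hk => by
    have p0 := ga.pos k hk
    refine g_le (mem_hi hk) (by positivity) ((U_mom p0 (by norm_num) (ga.mom k hk)).trans ?_)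
    rw [show (2 : ℝ) ^ (3 + 1) = 16 by norm_num]
    nlinarith [pow_pos p0 3]
  have h2 : ∀ k ∈ Thi p P, U (Me p P) m a 2 k ≤ 8 * G k ^ 2 := fun k hk =>
    (U_mom (ga.pos k hk) (by norm_num) (ga.mom k hk)).trans_eq (by norm_num)
  have a1 := split (E := E) d0 zero_le_one (by norm_num : (0 : ℝ) ≤ 3)
    (f := (D p P m a E).g) (fun k hk => (gl k hk).trans_eq (one_mul _).symm) gh n1 s1
  have a2 := split (E := E) d0 zero_le_one (by norm_num : (0 : ℝ) ≤ 9)
    (f := fun j => (D p P m a E).g j ^ 2) (fun k hk => (pow_le_pow_left₀ ((D p P m a E).g0 _)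
      (gl k hk) 2).trans_eq (one_mul _).symm) (fun k hk => (pow_le_pow_left₀ ((D p P m a E).g0 _)
      (gh k hk) 2).trans_eq (by ring)) n2 s2
  have a3 := split (E := E) d0 k0.le (by positivity : 0 ≤ 8 * kk p)
    (f := fun j => (D p P m a E).e j ^ 2 * (D p P m a E).u 2 j) (fun k hk => by
      rw [u_eq 2 (mem_lo hk), ← U_two, ← mul_assoc]
      exact mul_le_mul_of_nonneg_right (ee k 2 (by norm_num)) (U0 _ _ _)) (fun k hk => by
      rw [u_eq 2 (mem_hi hk)]
      exact (mul_le_mul (e1' k 2 (by norm_num)) (h2 k hk) (U0 _ _ _) k0.le).trans_eq (by ring))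
    e2 s2
  have a4 := split (E := E) d0 zero_le_one (by norm_num : (0 : ℝ) ≤ 32)
    (f := (D p P m a E).u 4) (fun k hk => (u_eq 4 (mem_lo hk)).trans_le (one_mul _).ge)
    (fun k hk => by
      rw [u_eq 4 (mem_hi hk)]
      linarith [U_succ (m := m) (a := a) (Me p P) 3 k, U_succ (m := m) (a := a) (Me p P) 2 k,
        h2 k hk]) n4 s2
  have a5 : (D p P m a E).I (fun j => (D p P m a E).u 5 j) ≤
      2 * mo p 5 5 (-(169 : ℝ) / 200) + 64 * mo p 5 4 (-(13 : ℝ) / 20) :=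
    split d0 (by norm_num) (by norm_num) (fun k hk => (u_eq 5 (mem_lo hk)).trans_le
      (U_succ (Me p P) 4 k)) (fun k hk => by
      rw [u_eq 5 (mem_hi hk)]
      linarith [U_succ (m := m) (a := a) (Me p P) 4 k, U_succ (m := m) (a := a) (Me p P) 3 k,
        U_succ (m := m) (a := a) (Me p P) 2 k, h2 k hk]) n4 s2
  have tl := tl H hc e ad
  have iv : 1 / ((D p P m a E).n : ℝ) ≤ mo p 10 0 (-(9 : ℝ) / 10) := inv_line H ad.inn.m1
  have b1 : mo p 5 5 (-(169 : ℝ) / 200) ≤ mo p 5 4 (-(13 : ℝ) / 20) :=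
    mo_le' H (by push_cast; linarith) (by push_cast; linarith)
  have b2 : mo p 5 4 (-(13 : ℝ) / 20) ≤ mo p 6 4 (-(13 : ℝ) / 20) := mo_i H (by norm_num)
  have b3 : 1000 * mo p 6 4 (-(13 : ℝ) / 20) ≤ mo p 8 4 (-(13 : ℝ) / 20) :=
    (mo_c H le_rfl).trans (mo_i H (by norm_num))
  have b4 : mo p 10 0 (-(9 : ℝ) / 10) ≤ mo p 6 4 (-(13 : ℝ) / 20) :=
    mo_le' H (by push_cast; linarith) (by push_cast; linarith)
  have b5 : (D p P m a E).X ^ 6 ≤ mo p 6 4 (-(13 : ℝ) / 20) :=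
    ((pow_le_pow_left₀ ok.X0 X1 6).trans_eq (mo_pow H _ _ _ _)).trans
      (mo_le' H (by push_cast; linarith) (by push_cast; linarith))
  have q6 := m0 6 4 (-(13 : ℝ) / 20)
  rw [mul_assoc 8, kk_mul] at a3
  have top := gb (by rw [Mv30.IU]; norm_num at a3 a4 b1 b2 b3 q6 ⊢; linarith)
    (by rw [Ex23.R0]; linarith)
  have top' : ∑ k ∈ Thi p P, (Me p P).dz m a k * U (Me p P) m a 3 k ≤
      mo p 0 5 (-(169 : ℝ) / 200) := by
    refine le_trans top (le_of_eq ?_)
    rw [cb, mo, pow_zero, one_mul, neg_div]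
  have a6 := split (E := E) d0 k0.le k0.le
    (f := fun j => (D p P m a E).e j * (D p P m a E).g j ^ 3) (fun k hk => by
      have := ee k 1 (by norm_num)
      rw [pow_one, pow_one] at this
      rw [← mul_assoc]
      exact mul_le_mul this (pow_le_pow_left₀ ((D p P m a E).g0 _) (gl k hk) 3)
        (pow_nonneg ((D p P m a E).g0 _) 3) (mul_nonneg k0.le (z0 k))) (fun k hk => by
      have := e1' k 1 (by norm_num)
      rw [pow_one] at this
      rw [g_cube (mem_hi hk)]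
      exact mul_le_mul_of_nonneg_right this (U0 _ _ _)) n3 top'
  have a7 := split (E := E) d0 zero_le_one zero_le_two
    (f := (D p P m a E).u 4) (fun k hk => (u_eq 4 (mem_lo hk)).trans_le (one_mul _).ge)
    (fun k hk => (u_eq 4 (mem_hi hk)).trans_le (U_succ (Me p P) 3 k)) n4 top'
  rw [kk_mul, kk_mul] at a6
  have c1 := mo_c H (i := 5) (j := 2) (e := -(13 : ℝ) / 40) (x := 4) (by norm_num)
  have c2 := mo_c H (i := 5) (j := 3) (e := -(31 : ℝ) / 60) (x := 10) (by norm_num)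
  have c3 : mo p 5 4 (-(13 : ℝ) / 20) ≤ mo p 5 3 (-(31 : ℝ) / 60) :=
    mo_le' H (by push_cast; linarith) (by push_cast; linarith)
  have c4 : 1000 * mo p (5 + 1) 5 (-(17 : ℝ) / 20) ≤ mo p 6 5 (-(169 : ℝ) / 200) :=
    mo_le H (by push_cast; linarith) (by push_cast; linarith)
  have c5 := mo_c H (i := 5) (j := 5) (e := -(169 : ℝ) / 200) (x := 3) (by norm_num)
  have c6 : 1000 * mo p (0 + 1) 5 (-(169 : ℝ) / 200) ≤ mo p 6 5 (-(169 : ℝ) / 200) :=
    (mo_c H le_rfl).trans (mo_i H (by norm_num))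
  have c7 : mo p 0 5 (-(169 : ℝ) / 200) ≤ mo p 5 5 (-(169 : ℝ) / 200) := mo_i H (by norm_num)
  have c8 := m0 6 5 (-(169 : ℝ) / 200)
  refine ⟨le_trans (by rw [CD.N1]; linarith) c1, le_trans (by rw [CD.N2]; linarith) c2,
    (le_trans (by linarith) c5).trans_eq (cb_mo 6 169).symm, ?_⟩
  rw [cb_mo]
  linarith

/-- the exponents at a point -/
theorem vf (hm : E42.Hm (D p P m a E) (ηH p)) (M : MnV p (D p P m a E)) (B : BkV p (D p P m a E))
    (hV : (D p P m a E).vL ≤ mo p 5 6 (-(59 : ℝ) / 60)) :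
    (D p P m a E).Err ≤ gn p 200 * un p ∧
    (D p P m a E).N1 ≤ p.s ^ 2 * (p.n : ℝ) ^ (-(3 : ℝ) / 10) ∧
    (D p P m a E).N1 * (D p P m a E).N2 ≤ gn p 300 * un p ∧
    (∃ A, (D p P m a E).Add A ∧
      (D p P m a E).I (fun t => (D p P m a E).e t * A t) ≤ gn p 300 * un p) ∧
    E.F0 (jc p) ≤ kk p := by
  obtain ⟨⟨B, lev, t, A', V⟩, F0⟩ := B
  have ok := ad.ok
  have m0 := mo0 H
  have κ0 := H.κ0
  have nv : nV p ≤ mo p 10 2 (-(13 : ℝ) / 40) := mo_i H (i := 6) (by norm_num)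
  have n2 : (D p P m a E).N2 ≤ mo p 10 3 (-(31 : ℝ) / 60) := M.n2.trans (mo_i H (by norm_num))
  have hL : (p.κ ^ 2)⁻¹ ≤ kk p ^ 10 :=
    (κ_kk H (by norm_num)).trans (le_self_pow₀ (kk1 H) (by norm_num))
  have hw : √(t1 p * yV p ^ 2) ^ 2 ≤ mo p 20 5 (-(169 : ℝ) / 200) := by
    rw [V.w2, show yV p = mo p 3 2 (-(7 : ℝ) / 20) from rfl, mo_pow H]
    refine ((mul_le_mul_of_nonneg_right ((le_div_self (F40.t10 H).le κ0 H.κ1).trans (X_le H))
      (m0 _ _ _).le).trans_eq (mo_mul H _ _ _ _ _ _)).trans ?_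
    exact (mo_e H (by norm_num)).trans (mo_i H (by norm_num))
  have dx : (D p P m a E).I (D p P m a E).dx ≤ mo p 10 0 (-(9 : ℝ) / 10) := by
    refine ok.I_le (m0 _ _ _).le fun j hj => ?_
    have la1 : 1 ≤ E42.La (D p P m a E) := le_add_of_nonneg_right (ok.sig0 le_rfl)
    have f1 := (le_mul_of_one_le_right (ok.dx0 j) (one_le_pow₀ la1)).trans (hm.mshx j hj)
    have f2 : ηH p ^ 2 ≤ ηH p := by nlinarith [hm.η0, hm.η1]
    refine f1.trans (f2.trans (le_trans (le_of_eq ?_) (mo_i H (i := 0) (by norm_num))))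
    rw [ηH, mo, pow_zero, pow_zero, one_mul, one_mul]
  have eB : ∀ j ∈ (D p P m a E).up, (D p P m a E).e j ≤ (p.κ ^ 2)⁻¹ := fun j hj => by
    obtain ⟨k, rfl⟩ : ∃ k, j = k + 1 := ⟨j - 1, by have := (CD.mem_up.1 hj).1; omega⟩
    rw [cd_e, ad.env.e, ← one_div]
    exact div_le_div₀ zero_le_one (z1 H hc e ad k) (by positivity) (by nlinarith [H.κ1])
  refine ⟨(V.err ok rfl eB M.n1 n2 F0 dx (M.u3.trans_eq (cb_mo 6 169))
    (M.u4.trans_eq (cb_mo 6 169)) le_rfl (Vl21.Lv2_le ok le_rfl)).trans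
      (line2 H hc ok.X0 (ok.N10.trans M.n1) (m0 _ _ _).le V.L0 ok.Lv10 V.y0 (X1 H hc e ad)
        (inv_line H ad.inn.m1) (tl H hc e ad) le_rfl nv le_rfl hL (mo_i H (by norm_num))
        (mo_i H (by norm_num)) le_rfl V.w2 hw V.Lv1_le (hV.trans (mo_i H (by norm_num)))),
    n1_line H hc (M.n1.trans nv), n12_line H hc ok.N20 (M.n1.trans nv) n2,
    ⟨A', V.bd.add, V.IeA.trans (eA_line H hc V.L0 hL hw)⟩, n1_kk H hc (le_trans F0 nv)⟩

end

end G40

/-- **`MnS`** -/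
theorem mnS_40 {β : ℝ} (hβ : 1 < β) (a : GlS β) (b : GlE β) (c : GhA β) (d : GhB β) : MnS β := by
  unfold GlS at a
  unfold GlE at b
  unfold GhA at c
  unfold GhB EvA at d
  unfold MnS EvA
  refine Sml.glueC hβ (enS hβ) (a.and (b.and (c.and d))) fun C hC c0 C0 h0 h1 =>
    ⟨2, fun A hA => ⟨1 / 10 ^ 7, by norm_num, fun c hc c0' => ⟨c, c0', fun η _ η0 =>
      ⟨0, fun p R Q W => ?_⟩⟩⟩⟩
  obtain ⟨a, b, c, d⟩ := W
  intro P m x E ad
  obtain ⟨G', g, gz⟩ := a P m x ad.sp ad.inn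
  obtain ⟨G, ga⟩ := c P m x ad.sp ad.inn
  exact G40.mn R hc (Q R.r_le_ye P ad.sp) ad gz (b P m x ad.sp ad.inn) ga (d P m x E ad)

/-- **`VfS`** -/
theorem vfS_of {β : ℝ} (hβ : 1 < β) : VfS β := by
  have Y := hmS hβ
  unfold HmS EvA at Y
  unfold VfS EvA
  refine Sml.glueC hβ (enS hβ) Y fun C hC c0 C0 h0 h1 =>
    ⟨2, fun A hA => ⟨1 / 10 ^ 7, by norm_num, fun c hc c0' => ⟨c, c0', fun η _ η0 =>
      ⟨0, fun p R Q W => ?_⟩⟩⟩⟩
  intro P m x E ad
  exact G40.vf R hc (Q R.r_le_ye P ad.sp) ad (W P m x E ad)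

/-- **`ValX` from the record** -/
theorem valX_rc {β : ℝ} (hβ : 1 < β) (r : RcS β) (a : GlS β) (b : GlE β) (c : GhA β) (d : GhB β)
    (l : LvS β) : ValX β := valX_glue r (mnS_40 hβ a b c d) (vfS_of hβ) l

end Crest.Agent.T156.Alt.R2

end
end

-- ▼ part T156/R2VB_23
section

/-!
# Row 156, R2 (helper23): a value record with homogeneous envelopes on the class
-/

set_option autoImplicit false
set_option linter.unusedSectionVars false

noncomputable section

namespace Crest.Agent.T156.Alt.Rc23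

open Real Finset
open Crest.Agent.T156.Cas Crest.Agent.T156.Cas.C40 Md67 CIn12 Lb24

variable {S : Sc} {M : Md} {m : ℕ} {a : ℝ} {J : ℕ}

/-- the envelopes -/
def evV (M : Md) (m : ℕ) (a : ℝ) (J : ℕ) (l κ tl : ℝ) (G f0 : ℕ → ℝ) : CIn12.Ev :=
  ⟨l / κ, fun k => max l (M.z k) / κ, tl, fun k => ∑ t ∈ tlP M J k, M.dz m a t * G t, fun _ => 0,
    f0, fun _ => 0, 0, fun k => ∑ t ∈ tlP M J k, M.dz m a t * G t⟩

theorem ci_cl {Λ lam l τ0 c κ tl : ℝ} (K : KD' S M m a J Λ lam l τ0 c) {G f0 : ℕ → ℝ}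
    (a0 : An f0) (v0 : VarI M m a J (M.dz m a) f0)
    (st : ∀ k, J ≤ k → k < M.N → |GamC M m a M.q J k - M.q k| ≤ (lam * l) ^ 3)
    (κ0 : 0 < κ) (hX : lam * max (M.z (J - 1)) l ≤ l / κ) (X1 : l / κ ≤ 1) (hu : lam * κ ≤ 1)
    (ht : tlD S 3 ≤ tl)
    (hG : ∀ k, J ≤ k → k < M.N → 0 < G k ∧ M.E2 m a (fun R => (R - M.q k) ^ 2) k ≤ G k ^ 2 ∧
      M.E2 m a (fun R => max (|R - M.q k| - G k) 0) k ≤ tl) :
    CI τ0 M m a M.q J none (evV M m a J l κ tl G f0) := by
  have L := K.fn.lg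
  have l0 := K.l0
  have l4 := K.lam4
  have ge : GE S M m a J 1 fun _ => 2 := ⟨fun _ _ _ => two_pos, fun k _ _ => E2_le (fun r hr => by
      have := abs_le.1 hr
      have := q_nonneg (M := M) k
      have := q_le_one (M := M) k
      rw [mul_one]
      nlinarith) k, fun k _ _ => (env_triv (by
      rw [abs_of_nonneg (q_nonneg k)]; linarith [q_le_one (M := M) k])).trans (tlD_nn S 3)⟩
  have H := (K.ci (W := none) (f1 := fun _ => 0) ge le_rfl a0 An.zero v0 (varI_zero _)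
    (fun _ k k1 k2 => (st k k1 k2).trans (pow_le_pow_left₀ (by positivity)
      (mul_le_mul_of_nonneg_left (le_max_right _ _) (by linarith)) 3))).relax
    (X := l / κ) (e := fun k => max l (M.z k) / κ) (tl := tl) hX X1 ht
    (fun k k1 _ => by
      rw [K.e_eq k1, max_comm, le_div_iff₀ κ0, mul_right_comm]
      exact mul_le_of_le_one_left (le_max_of_le_left l0.le) hu)
    (fun k => div_le_div_of_nonneg_right (le_max_left _ _) κ0.le)
    fun k => div_le_div_of_nonneg_right (max_le_max le_rfl (L.zm (Nat.le_succ k))) κ0.le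
  have aF : An fun k => ∑ t ∈ tlP M J k, M.dz m a t * G t :=
    An.tail fun k k1 k2 => mul_nonneg (L.dz_nonneg k) (hG k k1 k2).1.le
  exact { H with
    aF0 := aF, aG0 := aF, aF1 := An.zero, gF := fun _ => le_rfl
    ev0 := ⟨G, fun k k1 k2 => (hG k k1 k2).2.2, fun _ => le_rfl⟩
    sq0 := .inl ⟨G, fun k k1 k2 => ⟨(hG k k1 k2).1, (hG k k1 k2).2.1⟩, fun k =>
      (sum_congr rfl fun t _ => by rw [abs_of_nonneg (L.dz_nonneg t)]).le⟩
    sq1 := sqI_none _ _ fun _ => by simp [evV] }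

/-- the field just above the merged zone -/
theorem H_le (F : C33.Fn S M m a) (h : Cei S M) {μ : ℝ} {k : ℕ} (h1 : S.jl < k) (h2 : k ≤ S.Jp)
    (hμ : S.ms (M.s k) ≤ μ) : M.H k ≤ S.C * S.F * μ * (M.s S.jl + k * S.v) := by
  have C0 := F.C0
  have F0 := F.F0
  have v0 := F.v0
  have μ0 : 0 ≤ μ := (F.ms_pos (F.s_nonneg k)).le.trans hμ
  have key : ∀ j, S.jl + 1 ≤ j → j ≤ k → M.H j ≤ S.C * S.F * μ * (M.s S.jl + j * S.v) := by
    intro j j1 j2
    induction j, j1 using Nat.le_induction with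
    | base =>
      refine h.bot.trans (mul_le_mul (mul_le_mul_of_nonneg_left
        ((F.msm (F.sm h1.le)).trans hμ) (by positivity)) ?_ (F.s_nonneg _) (by positivity))
      have : (0 : ℝ) ≤ ((S.jl + 1 : ℕ) : ℝ) * S.v := by positivity
      linarith
    | succ j hj ih =>
      have a1 := h.up j hj (by omega)
      have a2 := mul_le_mul_of_nonneg_left ((F.msm (F.sm (show j ≤ k by omega))).trans hμ)
        (show 0 ≤ S.C * S.F * S.v by positivity)
      have a3 := ih (by omega)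
      push_cast
      linarith
  exact key k h1 le_rfl

/-- the blocks -/
theorem vb_cl {lam l Λ κ y w : ℝ} {D b : ℕ} (K : Kc lam l Λ D S M m a) (h : Cei S M)
    (hJ : 4 * S.jl ≤ J) (hb : b < S.J) (hJb : J < b) {A : ℕ → ℝ} {E : CIn12.Ev}
    (P : BP M m a J (nI J b + 1) (lv J b) (tt S J b) (fun i => l * y / tt S J b i + w) A)
    (he : ∀ k, E.e k = max l (M.z k) / κ)
    (hf : ∀ k, E.f0 k = ErrL.ph (nI J b + 1) (fun i => l * y / tt S J b i + w) (lv J b k))
    (F1 : S.F = 1) (l0 : 0 < l) (l1 : l ≤ 1) (lJ : l ≤ J * S.v) (κ0 : 0 < κ)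
    (y0 : 0 ≤ y) (w0 : 0 ≤ w) (w2 : w ^ 2 = l * y ^ 2) (k1 : 100 * S.C ^ 4 * κ ≤ 1)
    (k2 : lam ^ 2 * κ ≤ 1) (k3 : 4 * M.H M.N * κ ≤ 1) :
    V23.Vb (cd M m a M.q J none E) (nI J b + 1) (fun j => lv J b (j - 1)) (tt S J b) (sh A)
      (κ ^ 2)⁻¹ l y w := by
  have F := K.fn
  have G := K.lg
  have C1 := F.C1
  have i0 := F.i0
  have i1 := F.i1
  have i3 := F.i3
  have i4 := F.i4
  have v0 := F.v0
  have c3 := one_le_pow₀ (n := 3) C1
  have c4 : S.C ^ 3 ≤ S.C ^ 4 := pow_le_pow_right₀ C1 (by norm_num)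
  have c1 : S.C ≤ S.C ^ 4 := le_self_pow₀ C1 (by norm_num)
  have HN := H_nonneg G.toLeg M.N
  obtain ⟨u, hu⟩ : ∃ u, u = κ⁻¹ := ⟨_, rfl⟩
  have e : ∀ x, x * κ ≤ 1 → x ≤ u := fun x hx => by
    rw [hu, ← one_div, le_div_iff₀ κ0]; exact hx
  have u1 := e _ k1
  have u2 := e _ k2
  have u3 := e _ k3
  have uu : 100 * u ≤ u ^ 2 := by nlinarith
  have lo : ∀ i, l ≤ tt S J b i := fun i => le_trans (by
    rw [tt_lt (Nat.succ_pos _), pow_zero, one_mul]
    exact lJ.trans (le_mul_of_one_le_left (by positivity) C1)) (K.tt_mono hJ hb hJb.le (Nat.zero_le i))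
  have tp : ∀ i, 0 < tt S J b i := fun i => l0.trans_le (lo i)
  have ez : ∀ k, J ≤ k → E.e k ≤ 6 * S.C * u * tt S J b (lv J b k) := fun k hk => by
    rw [he, div_eq_mul_inv, ← hu, mul_right_comm]
    refine mul_le_mul_of_nonneg_right (max_le ((lo _).trans (le_mul_of_one_le_left (tp _).le
      (by linarith))) ?_) (by linarith)
    rcases lt_or_ge k b with c | c
    · exact (G.zm (Nat.le_succ k)).trans (K.z_tt hJ hb hk c).2
    · rw [lv_ge c, tt_ge le_rfl]; nlinarith [G.z1 k]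
  have e6 : 6 * S.C * u ≤ u ^ 2 / 2 := by nlinarith
  rw [← inv_pow, ← hu]
  have e0 : ∀ k, 0 ≤ E.e k := fun k => by
    rw [he]; exact div_nonneg (le_max_of_le_left l0.le) κ0.le
  refine ⟨P.bd G (rf_q F.toCl) e0 (fun i => mul_nonneg (sq_nonneg _) (tp i).le)
    (fun k k0 _ _ => (ez k k0).trans (mul_le_mul_of_nonneg_right (by nlinarith) (tp _).le))
    (fun i => (K.clk hJ hb (K₁ := 6 * S.C ^ 3) (rf_q F.toCl) e0 (by positivity)
      (fun k k0 k1 => ?_) i).trans ?_)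
    (fun k => by rw [hf]; exact ErrL.ph0 P.al0 _) fun k _ _ => (hf k).le,
    K.tt_mono hJ hb hJb.le, l0, l1, lo, fun i => (K.tt_le hJ hb hJb.le i).trans (by linarith),
    (K.nI_le hJ hb).trans (by linarith), by linarith, y0, w0, w2, ?_, ?_⟩
  · have a1 := H_cei F (h.toG F.toCl) (k := k) (by omega) (by omega)
    have a2 := mul_le_mul_of_nonneg_left ((q_le_s F.toCl (k := k) (by omega)).trans
      (F.s_le_z' (by omega) (by omega))) F.C0.le
    rw [F1] at a1
    linarith [mul_le_mul_of_nonneg_left (le_max_left (M.z k) l) (show 0 ≤ 6 * S.C ^ 3 by positivity)]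
  · have t0 := tp i
    have a1 : (if i = lv J b J then E.e J else 0) ≤ u ^ 2 / 2 * tt S J b i := by
      split_ifs with c
      · rw [c]; exact (ez J le_rfl).trans (mul_le_mul_of_nonneg_right e6 (tp _).le)
      · positivity
    have a2 : (if i < nI J b then 6 * S.C * (6 * S.C ^ 3 + 2) * max (tt S J b i) l
        else S.C + M.H M.N + 2) ≤ u ^ 2 / 2 * tt S J b i := by
      split_ifs with c
      · rw [max_eq_left (lo i)]
        exact mul_le_mul_of_nonneg_right (by nlinarith) t0.le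
      · rw [tt_ge (not_lt.1 c)]
        exact le_trans (by linarith) (le_mul_of_one_le_right (by positivity) c3)
    linarith
  · obtain ⟨j, rfl⟩ : ∃ j, J = j + 1 := ⟨J - 1, by omega⟩
    rw [cd_J, cd_dx, dz_succ G.toLeg]
    exact ((div_pos v0 F.C0).trans_le (F.zs j (by omega) (by omega)).1).ne'
  · rw [cd_J, cd_K]; omega

end Crest.Agent.T156.Alt.Rc23

end
end

-- ▼ part T156/R2V_23
section

/-!
# Row 156, R2 (helper23): the value record of the END model
-/

set_option autoImplicit false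

noncomputable section

namespace Crest.Agent.T156.Alt.R2

open Real Finset
open Crest.Agent.T156.Cas Crest.Agent.T156.Cas.C40 Md67 CIn12 Lb24 Rc23

variable {β c0 C0 c η K C C' : ℝ} {A : ℕ} {p : Pm} {P : Pl} {m : ℕ} {a : ℝ}

theorem w3_le23 (H : Reg β c0 C0 A c η K p) (C1 : 1 ≤ C) {t : ℝ} (t0 : 0 < t) (ht : t ≤ C ^ 3) :
    (Se p C P).w3 t * t ≤ C ^ 6 / (p.n * p.κ ^ 7) / t ^ 2 := by
  have k0 := H.κ0
  have N0 := H.N0
  have y0 := H.ye0
  have a1 : t * p.ye / C ^ 3 ≤ max p.r (min t p.ye) := by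
    refine le_max_of_le_right (le_min ?_ ?_) <;> rw [div_le_iff₀ (by positivity)]
    · exact mul_le_mul_of_nonneg_left (H.ye1.trans (one_le_pow₀ C1)) t0.le
    · rw [mul_comm]; exact mul_le_mul_of_nonneg_left ht y0.le
  change 1 / (p.n * t * (1 * p.κ * max p.r (min t p.ye) ^ 2)) * t ≤ _
  calc _ ≤ 1 / (p.n * t * (1 * p.κ * (t * p.ye / C ^ 3) ^ 2)) * t := by gcongr
    _ = _ := by rw [Pm.ye]; field_simp

/-- the envelope on UP -/
theorem env_up23 (H : Reg β c0 C0 A c η K p) {G g G' : ℕ → ℝ}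
    (u : GZ p P m a (Tlo p P) G g) (v : GA p P m a G') : ∃ F : ℕ → ℝ,
    (∀ k, jc p ≤ k → k < (Me p P).N → 0 < F k ∧
      (Me p P).E2 m a (fun R => (R - (Me p P).q k) ^ 2) k ≤ F k ^ 2 ∧
      (Me p P).E2 m a (fun R => max (|R - (Me p P).q k| - F k) 0) k ≤
        (p.n : ℝ) ^ (-(2 * (p.A : ℝ) + 5))) ∧
    ∑ t ∈ tlP (Me p P) (jc p) (jc p), (Me p P).dz m a t * F t ≤ nV p := by
  refine ⟨fun k => if (Me p P).s k < (Me p P).s p.J / 16 then G k else 3 * G' k,
    fun k k1 k2 => ?_, ?_⟩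
  · beta_reduce
    split_ifs with h
    · have hk : k ∈ Tlo p P := mem_filter.2 ⟨mem_Ico.2 ⟨k1, k2⟩, h⟩
      exact ⟨u.pos k hk, u.sq k hk, u.env k hk⟩
    · have hk : k ∈ Thi p P := mem_filter.2 ⟨mem_Ico.2 ⟨k1, k2⟩, h⟩
      have g0 := v.pos k hk
      have := mom_pair (q := (Me p P).q k) (i := 2) g0 (by norm_num) (v.mom k hk)
      simp only [sq_abs, sub_self, abs_zero, add_zero] at this
      rw [show (2 : ℝ) ^ (2 + 1) = 8 by norm_num] at this
      exact ⟨by linarith, this.trans (by nlinarith [sq_nonneg (G' k)]), (E2_mono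
        (fun _ _ => max_le_max (by linarith) le_rfl) k).trans (v.env k hk)⟩
  · have k4 : 4 ≤ kk p := H.le_of_lg (by norm_num) (kk0 H) (by
      linarith [lg_kk H, (H.lg_num (x := 4) (by norm_num) (by norm_num)).2, H.c_pos, H.η_le])
    have x0 : 0 ≤ kk p ^ 5 * (p.s ^ 2 * (p.n : ℝ) ^ (-(13 : ℝ) / 40)) := by positivity
    have a1 := u.s1
    have a2 := mul_le_mul_of_nonneg_left v.s1 zero_le_three
    rw [mul_sum] at a2
    simp only [mul_ite]
    rw [tlP, max_self, sum_ite, nV, pow_succ' _ 5, mul_assoc]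
    simp only [mul_left_comm _ (3 : ℝ)]
    exact (add_le_add a1 a2).trans (by linarith [mul_le_mul_of_nonneg_right k4 x0])

set_option maxHeartbeats 800000 in
theorem rc_end (H : Reg β c0 C0 A c η K p) (hC : C ≤ K) (hC' : C' ≤ K)
    (hη : 10 * η ≤ c) (e : En C p P) (sp : p.SpOk (7 / 20) P) (x : In p m a)
    (hb : (Me p P).b ≤ p.β ^ 2)
    (cr : ∀ k, p.jf ≤ k → k ≤ p.Jp P →
      (Me p P).rb m a k ≤ (p.n : ℝ) ^ η * max ((Me p P).z k) (p.r / p.κ))
    {G g G' : ℕ → ℝ} (u : GZ p P m a (Tlo p P) G g) (v : GA p P m a G') {N : ℕ}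
    (T : Lb24.Top (Me p P) m a (p.J - 1) N (kk p ^ 5 * (p.s ^ 5 * (p.n : ℝ) ^ (-(17 : ℝ) / 20)))
      (kk p ^ 5 * (p.s ^ 5 * (p.n : ℝ) ^ (-(17 : ℝ) / 20))))
    (L1 : ∀ Λ₀ t, 0 < t → (Me p P).s p.jf ≤ t → (Se p C P).w3 t ≤ t ^ 3 →
      Crude Λ₀ (Se p C P) (Me p P) m a t p.jf →
      LowE (Se p C P) (Me p P) m a ((p.n : ℝ) ^ η * Λ₀) t)
    (L2 : ∀ Λ₀ l, 0 < l → (Me p P).s p.jf ≤ l → (Se p C P).w3 l ≤ l ^ 3 →
      Crude Λ₀ (Se p C P) (Me p P) m a l p.jf → ∃ (lam : ℝ) (D : ℕ),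
        Kc lam l (lam * Λ₀) D (Se p C P) (Me p P) m a ∧ lam ^ 60 ≤ (p.n : ℝ) ^ η)
    (L3 : St7.Lk (2 * C) (Se p C P) (Me p P) m a (Me p P).q (jc p) → ∀ k, jc p ≤ k →
      k < (Me p P).N → |GamC (Me p P) m a (Me p P).q (jc p) k - (Me p P).q k| ≤
        St7.dl (Me p P) m (Me p P).q k + C' * ((Me p P).z (jc p) * (Me p P).s (jc p) ^ 2 +
          min ((Me p P).s k) 1 * St7.Ed (Se p C P) (Me p P) m (Me p P).q (jc p))) :
    ∃ E, Ad p P m a E ∧ BkV p (D p P m a E) := by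
  have C1 : 1 ≤ C := e.cl.C1
  have r0 := H.r0
  have k0 := H.κ0
  have k1 := H.κ1
  have N0 := H.N0
  have v0 := H.v0
  have s0 := H.s0
  have j0 := H.jfv0
  have t0 := t10 H
  have q0 := kk0 H
  have cp := H.c_pos
  have cl := H.c_le
  have ηp := H.η_pos
  have ls := H.lg_s
  have lj := H.lg_jf
  have lr := H.lg_r
  have lk := H.lg_κ
  have ln := H.lg_n
  have lt := lg_t1 H
  have lq := lg_kk H
  have lL := H.lg_rp η
  have l4 := H.lg_num (x := 4) (by norm_num) (by norm_num)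
  have lC := H.lg_cst C1 (hC.trans H.K_le)
  have j1 := jc_lt H
  have j2 := jf_lt H
  have i3 : p.J ≤ p.Jp P := e.cl.i3
  have i4 : p.Jp P < (Me p P).N := e.cl.i4
  have jb := jc_bds H
  have G0 := e.lg H x
  have jb2 : jc p * p.v ≤ 2 * t1 p := by linarith [H.v_le_r, r_le_t1 H]
  have a1 : 4 * (p.jf * p.v) ≤ t1 p := H.le_of_lg (by positivity) t0 (by
    rw [logb_mul (by norm_num) j0.ne']; linarith)
  have j4 : 4 * p.jf ≤ jc p := by
    exact_mod_cast le_of_mul_le_mul_right (show (4 * (p.jf : ℝ)) * p.v ≤ jc p * p.v by linarith) v0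
  have sf : (Me p P).s p.jf ≤ t1 p := by linarith [(e.s_lo H (k := p.jf) (by omega)).2]
  have sc : (Me p P).s (jc p) ≤ 3 * t1 p := by linarith [(e.s_lo H (k := jc p) (by omega)).2]
  have tκ : t1 p / p.κ ≤ 1 := H.le_of_lg (by positivity) one_pos (by lg_norm; linarith)
  have t1' : t1 p ≤ 1 := (le_div_self t0.le k0 k1).trans tκ
  have rt : p.r / p.κ ≤ t1 p := H.le_of_lg (by positivity) t0 (by lg_norm; linarith)
  have c3 := one_le_pow₀ (n := 3) C1
  have wt : (Se p C P).w3 (t1 p) ≤ t1 p ^ 3 := le_of_mul_le_mul_right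
    ((w3_le23 H C1 t0 (t1'.trans c3)).trans (H.le_of_lg (by positivity) (by positivity)
      (by lg_norm; linarith))) t0
  have tl : tlD (Se p C P) 3 ≤ (p.n : ℝ) ^ (-(2 * (p.A : ℝ) + 5)) := by
    have : (2 : ℝ) ≤ p.A := by rw [H.hA]; exact_mod_cast H.A2
    change ((p.n : ℝ) ^ (3 * (p.A + 1)))⁻¹ ≤ _
    refine H.le_of_lg (by positivity) (H.rp0 _) ?_
    rw [H.lg_rp]
    lg_norm
    push_cast
    rw [ln]
    linarith
  have dn : C / (m + 1) ≤ t1 p ^ 3 := by
    have : (p.n : ℝ) ≤ m := by exact_mod_cast x.m1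
    refine le_trans (div_le_div_of_nonneg_left (by linarith) N0 (by linarith)) ?_
    exact H.le_of_lg (by positivity) (by positivity) (by lg_norm; linarith)
  have HN : (Me p P).H (Me p P).N ≤ C * A * log p.n := H.hA ▸ e.cl.HN
  have L7 : ((p.n : ℝ) ^ η) ^ 7 * p.κ ≤ 1 := by
    have := H.Λ0
    generalize (p.n : ℝ) ^ η = Λ at *
    exact H.le_of_lg (by positivity) one_pos (by lg_norm; linarith)
  obtain ⟨y, hy⟩ : ∃ y, y = yV p := ⟨_, rfl⟩
  have n1 := H.rp0 (-(7 : ℝ) / 20)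
  have y0 : 0 < y := by rw [hy, yV]; positivity
  have ly : logb p.n y = 60 * c + 2 * logb p.n p.s - 7 / 20 := by
    rw [hy, yV, logb_mul (by positivity) (by positivity), logb_mul (by positivity) n1.ne', logb_pow,
      logb_pow, lq, H.lg_rp]
    push_cast
    ring
  obtain ⟨τ, hτ⟩ : ∃ τ, τ = kk p ^ 5 * (p.s ^ 5 * (p.n : ℝ) ^ (-(17 : ℝ) / 20)) := ⟨_, rfl⟩
  have n2 := H.rp0 (-(17 : ℝ) / 20)
  have τ0 : 0 < τ := by rw [hτ]; positivity
  have lτ : logb p.n τ = 100 * c + 5 * logb p.n p.s - 17 / 20 := by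
    rw [hτ, logb_mul (by positivity) (by positivity), logb_mul (by positivity) n2.ne', logb_pow,
      logb_pow, lq, H.lg_rp]
    push_cast
    ring
  rw [← hτ] at T
  have CL := hC.trans H.K_le
  have CL' := hC'.trans H.K_le
  have AL := H.A_le
  have gL := H.log_le
  have g1 := H.log1
  have nL := H.num_le
  generalize (p.n : ℝ) ^ η = Λ at *
  have Λ1 : 1 ≤ Λ := by linarith
  have pw : ∀ {i j : ℕ}, i ≤ j → Λ ^ i ≤ Λ ^ j := fun h => pow_le_pow_right₀ Λ1 h
  have pn : ∀ i j : ℕ, i < j → 1000 * Λ ^ i ≤ Λ ^ j := fun i j h => le_trans (by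
    rw [pow_succ']; exact mul_le_mul_of_nonneg_right nL (by positivity)) (pw (i := i + 1) h)
  have pC : ∀ i : ℕ, C ^ i ≤ Λ ^ i := fun i => pow_le_pow_left₀ (by linarith) CL i
  have kx : ∀ {z : ℝ}, z ≤ Λ ^ 7 → z * p.κ ≤ 1 := fun h =>
    (mul_le_mul_of_nonneg_right h k0.le).trans L7
  have Cr : Crude Λ (Se p C P) (Me p P) m a (t1 p) p.jf := ⟨Λ1, fun k h1 h2 => (cr k h1 h2).trans
    (mul_le_mul_of_nonneg_left (max_le_max le_rfl rt) (by linarith))⟩
  obtain ⟨lam, Dn, Kk, hl⟩ := L2 Λ _ t0 sf wt Cr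
  have F := Kk.fn
  have l0 := Kk.l0
  have pl : ∀ {i : ℕ}, i ≤ 60 → lam ^ i ≤ Λ := fun h =>
    (pow_le_pow_right₀ (by linarith) h).trans hl
  have zc : (Me p P).z (jc p) ≤ 6 * C ^ 2 * t1 p :=
    (F.z_hi (k := jc p) (show p.jf ≤ _ by omega) (show _ < p.J by omega)).trans (by
      change 3 * C ^ 2 * (jc p * p.v) ≤ _
      linarith [mul_le_mul_of_nonneg_left jb2 (show 0 ≤ 3 * C ^ 2 by positivity)])
  have c2 := one_le_pow₀ (n := 2) C1
  have hX : Λ ^ 4 * max ((Me p P).z (jc p - 1)) (t1 p) ≤ t1 p / p.κ := by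
    have : max ((Me p P).z (jc p - 1)) (t1 p) ≤ Λ ^ 3 * t1 p := (max_le
      ((G0.zm (Nat.sub_le _ 1)).trans zc) (le_mul_of_one_le_left t0.le (by linarith))).trans
      (mul_le_mul_of_nonneg_right (by linarith [pC 2, pn 2 3 (by norm_num)]) t0.le)
    rw [le_div_iff₀ k0]
    calc _ ≤ Λ ^ 4 * (Λ ^ 3 * t1 p) * p.κ := by gcongr
      _ = Λ ^ 7 * p.κ * t1 p := by ring
      _ ≤ _ := mul_le_of_le_one_left t0.le L7
  have t3 := pow_pos t0 3
  have big : ∀ {z : ℝ}, z ≤ Λ ^ 12 * t1 p ^ 3 → z ≤ (Λ ^ 4 * t1 p) ^ 3 := fun h =>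
    h.trans_eq (by ring)
  have KD := kd_cei (J := jc p) (lam := Λ ^ 4) F (e.cei.toG e.cl) (show p.jf < _ by omega)
    (by omega) t0 (L1 Λ _ t0 sf wt Cr) (by positivity)
    (show Λ * Λ + 4 * C ^ 3 + 4 * C ^ 3 * 1 ≤ _ by
      linarith [pC 3, pn 3 4 (by norm_num), pw (show 2 ≤ 3 by norm_num)])
    hb (hX.trans tκ) (by
      have b1 := e.cl.sm (Nat.sub_le (jc p) 1)
      have b2 : ((jc p - 1 : ℕ) : ℝ) * p.v ≤ jc p * p.v := by gcongr; exact Nat.sub_le _ _
      refine (H_le F e.cei (μ := (3 * t1 p) ^ 2) (k := jc p - 1) (show p.jf < _ by omega)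
        (show _ ≤ p.Jp P by omega) ?_).trans (le_trans (big ?_) (pow_le_pow_left₀ (by positivity)
          (mul_le_mul_of_nonneg_left (le_max_right _ _) (by positivity)) 3))
      · change 1 * p.κ * max p.r (min _ p.ye) ^ 2 ≤ _
        rw [one_mul]
        exact (mul_le_of_le_one_left (sq_nonneg _) k1).trans (pow_le_pow_left₀
          (le_max_of_le_left r0.le) (max_le (by linarith [r_le_t1 H])
            ((min_le_left _ _).trans (b1.trans sc))) 2)
      · change C * 1 * (3 * t1 p) ^ 2 * ((Me p P).s p.jf + ((jc p - 1 : ℕ) : ℝ) * p.v) ≤ _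
        calc _ ≤ C * 1 * (3 * t1 p) ^ 2 * (3 * t1 p) := by gcongr; linarith
          _ = 27 * C * t1 p ^ 3 := by ring
          _ ≤ _ := mul_le_mul_of_nonneg_right
              (by linarith [pn 1 12 (by norm_num)]) t3.le)
  have dl : ∀ k, jc p ≤ k → k < (Me p P).N → St7.dl (Me p P) m (Me p P).q k ≤ C / (m + 1) :=
    fun k h1 h2 => by
      have := St7.dl_le (m := m) e.cl (rf_q e.cl) h2
      rwa [G_zero sp (by omega), sub_self, abs_zero, mul_zero, add_zero, zero_add] at this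
  have Lk : St7.Lk (2 * C) (Se p C P) (Me p P) m a (Me p P).q (jc p) :=
    ⟨e.cl, G0, x.a0 H, rf_q e.cl, show p.jf ≤ _ by omega, show _ < p.J by omega,
      e.cl.sT.trans (show C ≤ _ by linarith), by
        have b1 := (le_abs_self _).trans (dl (p.Jp P) (by omega) i4)
        have b2 : (Me p P).s (p.Jp P) ≤ C := e.cl.sT
        change St7.sg (Me p P) m (Me p P).q (p.Jp P) ≤ _
        linarith [pow_le_one₀ (n := 3) t0.le t1']⟩
  have st : ∀ k, jc p ≤ k → k < (Me p P).N →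
      |GamC (Me p P) m a (Me p P).q (jc p) k - (Me p P).q k| ≤ (Λ ^ 4 * t1 p) ^ 3 := fun k h1 h2 => by
    have b1 := (St7.Ed_le Lk fun k h1 h2 => dl k h1 (h2.trans_lt i4)).trans dn
    have b2 := (mul_le_of_le_one_left (St7.Ed_nonneg Lk) (min_le_right ((Me p P).s k) 1)).trans b1
    have b3 := mul_le_mul zc (pow_le_pow_left₀ (s_nonneg e.cl _) sc 2) (sq_nonneg _) (by positivity)
    have b4 := mul_le_mul CL' (add_le_add b3 b2) (add_nonneg (mul_nonneg (G0.z_nonneg _)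
      (sq_nonneg _)) (mul_nonneg (le_min (s_nonneg e.cl _) zero_le_one) (St7.Ed_nonneg Lk)))
      (by linarith)
    refine big ((L3 Lk k h1 h2).trans ((add_le_add ((dl k h1 h2).trans dn) b4).trans ?_))
    have b5 := mul_le_mul_of_nonneg_left (pC 2) (show 0 ≤ Λ by linarith)
    refine le_trans (le_of_eq (by ring)) (mul_le_mul_of_nonneg_right
      (show 1 + Λ * (54 * C ^ 2 + 1) ≤ _ from ?_) t3.le)
    linarith [pn 3 12 (by norm_num), pw (show 1 ≤ 3 by norm_num)]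
  have hb' : p.J - 1 < (Se p C P).J := show _ < p.J by omega
  have w2 : √(t1 p * y ^ 2) ^ 2 = t1 p * y ^ 2 := sq_sqrt (by positivity)
  have w0 := sqrt_nonneg (t1 p * y ^ 2)
  have tp := Kk.tt_pos j4 hb'
  have lo : ∀ i, t1 p ≤ tt (Se p C P) (jc p) (p.J - 1) i := fun i => le_trans (by
    rw [tt_lt (Nat.succ_pos _), pow_zero, one_mul]
    exact jb.1.trans (le_mul_of_one_le_left (by positivity) C1))
    (Kk.tt_mono j4 hb' (by omega) (Nat.zero_le i))
  have al0 : ∀ i, 0 ≤ t1 p * y / tt (Se p C P) (jc p) (p.J - 1) i := fun i => by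
    have := tp i; positivity
  obtain ⟨B, PB⟩ := Kk.bp j4 hb' T
    (al := fun i => t1 p * y / tt (Se p C P) (jc p) (p.J - 1) i + √(t1 p * y ^ 2))
    (fun i => add_nonneg (al0 i) w0) (fun i _ => .inl (by
      have b0 := tp i
      have b1 : Λ ^ 3 * (C ^ 6 / (p.n * p.κ ^ 7)) ≤ (t1 p * y) ^ 2 :=
        H.le_of_lg (by positivity) (by positivity) (by lg_norm; linarith)
      have b2 : lam ^ 24 * (lam * Λ) ^ 2 ≤ Λ ^ 3 := by
        linarith [mul_le_mul_of_nonneg_right (pl (show 26 ≤ 60 by norm_num)) (sq_nonneg Λ)]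
      rw [max_eq_left (lo i)]
      refine (mul_le_mul b2 (w3_le23 H C1 b0 (Kk.tt_le j4 hb' (by omega) i))
        (mul_nonneg (F.w3_pos b0).le b0.le) (by positivity)).trans (le_trans ?_
          (pow_le_pow_left₀ (al0 i) (le_add_of_nonneg_right w0) 2))
      rw [div_pow, ← mul_div_assoc]
      exact div_le_div_of_nonneg_right b1 (sq_nonneg _)))
    (by
      have b1 : Λ * τ ≤ t1 p * y ^ 2 :=
        H.le_of_lg (by positivity) (by positivity) (by lg_norm; linarith)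
      have b2 : lam ^ 3 * 2 ≤ Λ := le_trans (by
        rw [pow_succ lam 3]; exact mul_le_mul_of_nonneg_left (by linarith) (by positivity))
        (pl (show 4 ≤ 60 by norm_num))
      refine le_trans ?_ (pow_le_pow_left₀ w0 (le_add_of_nonneg_left (al0 _)) 2)
      linarith [mul_le_mul_of_nonneg_right b2 τ0.le])
  obtain ⟨Fe, F1, F2⟩ := env_up23 H u v
  obtain ⟨z, ok⟩ := (ci_cl KD (G := Fe) (f0 := fun k => ErrL.ph (nI (jc p) (p.J - 1) + 1) _
      (Lb24.lv (jc p) (p.J - 1) k))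
    ⟨fun k => ErrL.ph0 PB.al0 _, fun k => ph_anti PB.al0 (PB.mono (Nat.le_succ k))⟩
    (fun φ hφ => PB.var G0 (φ := φ) (ab := fun _ => 1) (fun _ => zero_le_one) (fun _ _ _ => rfl)
      (fun k _ _ => hφ k) fun k => by simp only [one_mul, le_refl])
    st k0 hX tκ (kx (pw (by norm_num))) tl F1).ok_val
  refine ⟨_, ⟨sp, x, ⟨rfl, fun _ => rfl, rfl⟩, ok⟩, ⟨_, _, _, _, hy ▸ vb_cl Kk e.cei j4 hb'
    (by omega) PB (fun _ => rfl) (fun _ => rfl) rfl t0 t1' jb.1 k0 y0.le w0 w2 (kx ?_)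
    (kx ((pl (by norm_num)).trans (le_self_pow₀ Λ1 (by norm_num)))) (kx ?_)⟩, F2⟩
  · change 100 * C ^ 4 ≤ _
    linarith [pC 4, pn 4 7 (by norm_num), pow_pos (zero_lt_one.trans_le C1) 4]
  · have : C * A * log p.n ≤ Λ * Λ * Λ := by gcongr
    linarith [pn 3 7 (by norm_num), pC 3]

/-- **the record** -/
theorem rcS_of {β : ℝ} (hβ : 1 < β) (h1 : CrE β) (h2 : GlS β) (h3 : GhA β) (h4 : TpS β) :
    RcS β := by
  unfold CrE at h1
  unfold GlS at h2
  unfold GhA at h3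
  unfold TpS at h4
  refine Sml.glueCL hβ (enS hβ) (h1.and (h2.and (h3.and (h4.and (memSp β hβ).sml))))
    ((env_cl 3).and kc_ev) (fun C => C) (fun _ => 1) (fun _ _ => one_pos) fun C C1 => ?_
  obtain ⟨C', C'1, hC'⟩ := St7.link_cd (2 * C)
  refine fun c0 C0 _ _ => ⟨0, fun A _ => ⟨1, one_pos, fun c _ hc => ⟨c / 10, by positivity,
    fun η hη _ => ⟨C + C', fun p H G ⟨r1, r2, r3, r4, _, _, _, r5⟩ L P m a sp x => ?_⟩⟩⟩⟩
  have e := G H.r_le_ye P sp
  obtain ⟨G1, g, u⟩ := r2 P m a sp x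
  obtain ⟨G2, v⟩ := r3 P m a sp x
  obtain ⟨N, T⟩ := r4 P m a sp x
  obtain ⟨l1, l2⟩ := L (Se p C P) (Me p P) rfl rfl rfl e.cl m a x.sc
  exact rc_end H (by linarith) (by linarith) (by linarith) e sp x
    (le_trans (by simp [Md.b, Pm.tst, Pm.fam]) (r5 _ P H.r_le_ye le_rfl sp).2.2.2.1.b2)
    (r1 P m a sp x) u v T l1 (l2 H.N1.le) fun k a b c => (hC' _ _ _ _ _ _ k a b c).1


end Crest.Agent.T156.Alt.R2

end
end

-- ▼ part T156/EnQ_78
section

/-!
# Row 156 (helper78): the top zone of a model with a short (spread) plateau; location and sizes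
-/

set_option autoImplicit false
set_option linter.unusedSectionVars false
set_option linter.unusedVariables false
set_option maxHeartbeats 400000

noncomputable section

namespace Crest.Agent.T156.Alt.R62.Eq78

open Real Finset Filter
open Crest.Agent.T156.Alt.C33 Crest.Agent.T156.Alt.Md67 Crest.Agent.T156.Alt.Pl57

/-- the inputs: energy `x ^ 3`, shells of clock length in `[lm, γ]` -/
structure EI (E : ℝ) (S : Sc) (M : Md) (m : ℕ) (a x lm γ : ℝ) : Prop where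
  x0 : 0 < x
  xs : E * x ≤ 1
  vx : S.v ≤ x ^ 3
  ue : 4 * S.ue ≤ x ^ 3
  jl : 64 * M.s S.jl < M.s S.J
  u0 : 0 < S.u0
  uγ : S.u0 ≤ γ
  γx : γ ^ 2 ≤ x ^ 3
  spr : M.s S.Jp - M.s S.J ≤ γ
  qs : ∀ k, S.J ≤ k → k < S.Jp → M.q (k + 1) - M.q k ≤ S.C * S.v
  lsb : ∀ k, S.J ≤ k → k < S.Jp → lm ≤ ls S M k ∧ ls S M k ≤ γ
  fine : E * S.v ≤ lm
  dj : S.den (M.z (S.J - 1)) ≤ S.C
  rev : ∃ k1, S.Jp ≤ k1 ∧ k1 ≤ M.N ∧ 1 / S.C ≤ ((k1 : ℝ) - S.Jp) * S.v ∧
    ∀ k, S.Jp ≤ k → k < k1 → S.θ * S.v / (S.C * S.F) ≤ M.H (k + 1) - M.H k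
  h3 : E * (S.w3 1 * γ) ≤ lm ^ 2 * (x * S.u0)
  h4 : E * (S.w3 1 * γ) ≤ lm ^ 2 * x ^ 3
  en : ∑ y ∈ sb S M (T0 S M / 4) S.C ∪ Icc S.J S.Jp, lw M y * M.del m a y ^ 2 ≤ x ^ 3

/-- the context at a fixed size -/
structure Ex (lam : ℝ) (S : Sc) (M : Md) (m : ℕ) (a x lm γ : ℝ) : Prop
    extends EI (lam ^ 30) S M m a x lm γ where
  F : Fn S M m a
  big : 1000 ≤ lam
  Cl : S.C ≤ lam
  lg : log S.n ≤ lam
  Al : (S.A : ℝ) ≤ lam
  θ : S.C * S.θ ≤ 1 / 2

def uA (S : Sc) (M : Md) (x : ℝ) (k : ℕ) : ℝ := √(x ^ 3 / (dl S M k + x))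
def uB (M : Md) (x : ℝ) (k : ℕ) : ℝ := √(x ^ 3 / (du M k + x ^ 3))
/-- the tolerance on the plateau -/
def tq (S : Sc) (M : Md) (x : ℝ) (k : ℕ) : ℝ := 16 * S.C * (uA S M x k + uB M x k)
/-- the unit of the windows -/
def r0 (S : Sc) (lm : ℝ) : ℝ := lm / (16 * S.C ^ 2)
/-- the windows on the plateau -/
def rq (S : Sc) (M : Md) (x lm : ℝ) (k : ℕ) : ℝ := r0 S lm / x * (uA S M x k + min (uB M x k) x)

/-- the indices of the block -/
structure Ix (S : Sc) (M : Md) (x : ℝ) (kb n k0 : ℕ) : Prop where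
  e0 : k0 = kb + n
  n1 : x ≤ n * S.v
  n2 : n * S.v ≤ 2 * x
  jl : S.jl < kb
  sb : T0 S M / 4 ≤ M.s kb
  k0J : k0 < S.J
  s0 : M.s k0 ≤ T0 S M / 2

/-- the envelope of the location on the slope -/
structure TT (S : Sc) (M : Md) (m : ℕ) (a x : ℝ) (k0 : ℕ) (T : ℕ → ℝ) : Prop where
  lip : ∀ k k' : ℕ, T k ≤ T k' + |(k : ℝ) - k'| * (4 * (S.C * S.v))
  loc : ∀ k, k0 ≤ k → k < S.J → |M.del m a k| ≤ T k
  top : tq S M x S.J ≤ T S.J
  le : ∀ k, T k ≤ tq S M x S.J
  sl : ∀ k, k0 ≤ k → k < S.J → T k ≤ Env96.ev (M.rb m a) (3 * (S.C * S.v)) k0 (S.J - 1) k +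
    |M.del m a k| + max (tq S M x S.J - ((S.J : ℝ) - k) * S.v) 0

/-- the tolerance on the block -/
def ta (S : Sc) (M : Md) (x : ℝ) (T : ℕ → ℝ) (k : ℕ) : ℝ :=
  if k < S.J then T k + √(x ^ 3) else tq S M x (min k S.Jp)

/-- the zone -/
def zn (S : Sc) (M : Md) : Finset ℕ := (range S.Jp).filter fun k => T0 S M ≤ M.s k

/-- the output: an envelope of the pair overlap on the zone -/
structure EO (Λ : ℝ) (S : Sc) (M : Md) (m : ℕ) (a x : ℝ) (G : ℕ → ℝ) : Prop where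
  pos : ∀ k ∈ zn S M, 0 < G k
  mom : ∀ k ∈ zn S M, M.E2 m a (fun R => (R - M.q k) ^ (2 * 4)) k ≤ G k ^ (2 * 4)
  env : ∀ k ∈ zn S M, Env S M m a k (G k)
  s2 : ∑ k ∈ zn S M, M.dz m a k * G k ^ 2 ≤ Λ * x ^ 3
  pt : ∀ k ∈ zn S M, ∀ u, 0 < u → u ≤ du M k → G k ≤ Λ * (x + √(x ^ 3 / u))

/-- **the top zone of a model with a short plateau** -/
def EqS : Prop := CL fun E Λ S M m a => ∀ x lm γ, EI E S M m a x lm γ → ∃ G, EO Λ S M m a x G

theorem sq_ratio {c p q : ℝ} (hc : 0 ≤ c) (hp : 0 < p) (h : p ≤ q) :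
    √(c / q) ≤ √(c / p) ∧ √(c / p) - √(c / q) ≤ √(c / q) * ((q - p) / p) := by
  have hq := hp.trans_le h
  refine ⟨by gcongr, ?_⟩
  have e : √(c / p) ≤ √(c / q) * (q / p) := by
    refine sqrt_le_iff.2 ⟨by positivity, ?_⟩
    rw [mul_pow, sq_sqrt (by positivity)]
    have : 1 ≤ q / p := by rwa [one_le_div hp]
    calc c / p = c / q * (q / p) * 1 := by field_simp
      _ ≤ c / q * (q / p) * (q / p) := by gcongr
      _ = _ := by ring
  have : (q - p) / p = q / p - 1 := by field_simp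
  rw [this]; linarith

theorem sq_two {c p q : ℝ} (hc : 0 ≤ c) (hp : 0 < p) (hq : 0 < q) (h : q ≤ 2 * p) :
    √(c / p) ≤ 2 * √(c / q) := by
  refine sqrt_le_iff.2 ⟨by positivity, ?_⟩
  rw [mul_pow, sq_sqrt (by positivity), ← mul_div_assoc, div_le_div_iff₀ hp hq]
  nlinarith

namespace Ex

variable {lam : ℝ} {S : Sc} {M : Md} {m : ℕ} {a x lm γ : ℝ} (X : Ex lam S M m a x lm γ)
include X

theorem h : Alt.Cl S M := X.F.toCl
theorem l1 : 1 ≤ lam := by linarith [X.big]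
theorem pw {i j : ℕ} (h : i ≤ j) : lam ^ i ≤ lam ^ j := pow_le_pow_right₀ X.l1 h
theorem P0 : 0 < x ^ 3 := pow_pos X.x0 3
theorem xm {j : ℕ} (hj : j ≤ 30) : lam ^ j * x ≤ 1 :=
  le_trans (mul_le_mul_of_nonneg_right (X.pw hj) X.x0.le) X.xs
theorem x1 : x ≤ 1 := by simpa using X.xm (j := 0) (by norm_num)
theorem Cx : 1000 * (S.C ^ 4 * x) ≤ 1 := by
  refine le_trans ?_ (X.xm (j := 5) (by norm_num))
  have := X.x0
  have := X.big
  rw [← mul_assoc, pow_succ' lam 4]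
  gcongr
  exacts [X.h.C0.le, X.Cl]
theorem Px : x ^ 3 ≤ x ^ 2 ∧ x ^ 3 ≤ x := by
  have := X.x0
  have := X.x1
  constructor <;> nlinarith [mul_pos X.x0 X.x0]
theorem vp : S.v ≤ x := X.vx.trans X.Px.2
theorem γ0 : 0 < γ := X.u0.trans_le X.uγ
theorem γb : γ ≤ √(x ^ 3) := le_sqrt_of_sq_le X.γx
theorem bx : √(x ^ 3) ≤ x := sqrt_le_iff.2 ⟨X.x0.le, X.Px.1⟩
theorem b0 : 0 < √(x ^ 3) := sqrt_pos.2 X.P0
theorem γp : γ ≤ x := X.γb.trans X.bx
theorem up : S.u0 ≤ x := X.uγ.trans X.γp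
theorem lm0 : 0 < lm := by
  have := X.big
  exact lt_of_lt_of_le (mul_pos (by positivity) X.h.v0) X.fine

theorem du0 (y : ℕ) : 0 ≤ du M y := sub_nonneg.2 (X.h.leg.z1 _)
theorem du1 (y : ℕ) : du M y ≤ 1 := by have := X.h.z_pos (y - 1); unfold du; linarith
theorem dl0 {y : ℕ} (h1 : S.J ≤ y) : S.u0 ≤ dl S M y := by
  have := x_ge X.h h1; unfold dl; linarith
theorem dl2 (y : ℕ) : dl S M y ≤ 2 := by
  have := X.h.z_pos (S.J - 1); have := X.h.leg.z1 (y - 1); have := X.up; have := X.x1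
  unfold dl; linarith
theorem du_anti {i k : ℕ} (h : i ≤ k) : du M k ≤ du M i :=
  sub_le_sub_left (X.h.leg.zm (by omega)) 1
theorem duJ : 1 ≤ S.C * du M S.J := by
  have := X.h.atom.2
  rw [← div_le_iff₀' X.F.C0]; unfold du; linarith
theorem duP : 4 * du M S.Jp ≤ x ^ 3 := by have := X.h.last; have := X.ue; unfold du; linarith
theorem lw0 (k : ℕ) : 0 ≤ lw M k := sub_nonneg.2 (X.h.leg.zm (Nat.sub_le _ _))

theorem JJ : S.J < S.Jp := by
  by_contra hh
  have e : S.Jp = S.J := by have := X.h.i3; omega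
  have e1 := X.duP
  rw [e] at e1
  have C1 := X.h.C1
  have e2 : S.C * x ≤ S.C ^ 4 * x :=
    mul_le_mul_of_nonneg_right (le_self_pow₀ C1 (by norm_num)) X.x0.le
  nlinarith [X.duJ, X.Cx, X.Px.2, X.x0]

theorem lmγ : lm ≤ γ := (X.lsb _ le_rfl X.JJ).1.trans (X.lsb _ le_rfl X.JJ).2

theorem fin (y : ℕ) (h1 : S.J ≤ y) (h2 : y < S.Jp) : 8 * S.C * S.v ≤ Pl57.ls S M y := by
  refine le_trans ?_ (X.fine.trans (X.lsb y h1 h2).1)
  have := X.F.v0
  have := X.big
  gcongr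
  calc _ ≤ lam * lam := by gcongr; exacts [X.F.C0.le, by linarith, X.Cl]
    _ = lam ^ 2 := by ring
    _ ≤ _ := X.pw (by norm_num)

theorem lw_le {y : ℕ} (h1 : S.J ≤ y) (h2 : y < S.Jp) : 8 * lw M y ≤ min (dl S M y) (du M y) := by
  refine le_of_mul_le_mul_left ?_ (X.h.den0 (M.z (y - 1)))
  have e1 := X.fin y h1 h2
  have e2 := (X.h.plat y h1 h2).2
  change _ ≤ S.den _ * min (dl S M y) (du M y) at e1
  unfold lw
  linarith

theorem lw_lm {y : ℕ} (h1 : S.J ≤ y) (h2 : y < S.Jp) :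
    lm * lw M y ≤ S.C * S.v * min (dl S M y) (du M y) := by
  have e1 := mul_le_mul_of_nonneg_right (X.lsb y h1 h2).1 (X.lw0 y)
  have e2 := (X.h.plat y h1 h2).2
  have e3 : 0 ≤ min (dl S M y) (du M y) := le_min (X.u0.le.trans (X.dl0 h1)) (X.du0 y)
  have e4 := mul_le_mul_of_nonneg_right e2 e3
  unfold ls lw at *
  linarith

theorem du_succ (k : ℕ) : du M (k + 1) = du M k - lw M k := by simp [du, lw]
theorem dl_succ (k : ℕ) : dl S M (k + 1) = dl S M k + lw M k := by simp [dl, lw]; ring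

theorem T0_ge : 1 ≤ 48 * S.C ^ 4 * T0 S M := by
  have e := X.F.J_lo
  have e1 := (X.F.s_mem le_rfl).1
  have := X.F.C0
  unfold T0
  nlinarith [mul_le_mul_of_nonneg_left e1 (show 0 ≤ 3 * S.C ^ 3 by positivity)]

theorem T0_pos : 0 < T0 S M := by
  have C0 := X.F.C0
  by_contra hh
  nlinarith [X.T0_ge, mul_le_mul_of_nonneg_left (not_lt.1 hh) (show 0 ≤ 48 * S.C ^ 4 by positivity)]

theorem T0_big : 1000 * (S.C * x) ≤ T0 S M := by
  have e := X.T0_ge
  have := X.big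
  have C0 := X.F.C0
  have T := X.T0_pos
  have x0 := X.x0
  have e2 : 48 * S.C ^ 4 ≤ lam ^ 5 := by
    rw [pow_succ' lam 4]; gcongr; exacts [by linarith, X.Cl]
  refine le_of_mul_le_mul_left (a := lam ^ 5) ?_ (by positivity)
  calc _ ≤ lam ^ 5 * (lam * (lam * x)) := by gcongr; exact X.Cl
    _ = lam ^ 7 * x := by ring
    _ ≤ _ := (X.xm (by norm_num)).trans (e.trans (by gcongr))

theorem qs' (y : ℕ) (h : y < S.Jp) :
    0 ≤ M.q (y + 1) - M.q y ∧ M.q (y + 1) - M.q y ≤ S.C * S.v := by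
  refine ⟨sub_nonneg.2 (X.h.q_mono y.le_succ (by have := X.h.i4; omega)), ?_⟩
  rcases lt_or_ge y S.J with e | e
  · exact (X.h.q_tel X.θ y.le_succ h).2.trans (X.h.ss y e).2
  · exact X.qs y e h

theorem sl (y : ℕ) (h : y < S.Jp) : M.del m a y - S.C * S.v ≤ M.del m a (y + 1) := by
  have := rb_mono (M := M) (a := a) X.F.lg.m0 y.le_succ
  have := (X.qs' y h).2
  unfold Md.del
  linarith

theorem dmono {i k : ℕ} (h0 : S.J ≤ i) (h : i ≤ k) (h1 : k ≤ S.Jp) :
    M.del m a i - γ ≤ M.del m a k := by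
  have := rb_mono (M := M) (a := a) X.F.lg.m0 h
  have := (X.h.q_tel X.θ h h1).2
  have := X.h.sm h0
  have := X.h.sm h1
  have := X.spr
  unfold Md.del
  linarith

theorem del1 {k : ℕ} (h : k ≤ S.Jp) : |M.del m a k| ≤ 1 := by
  have := rb_nonneg (M := M) (a := a) X.F.lg.m0 k
  have := rb_le_one (M := M) (a := a) X.F.lg.m0 k
  have := X.h.q_nn (h.trans X.h.i4.le)
  have := Cl.q_le_one (M := M) k
  unfold Md.del
  exact abs_le.2 ⟨by linarith, by linarith⟩

theorem en' : ∑ y ∈ sb S M (T0 S M / 4) S.C ∪ Icc S.J S.Jp,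
    (M.z y - M.z (y - 1)) * |M.del m a y| ^ 2 ≤ x ^ 3 := by
  simpa only [sq_abs, lw] using X.en

theorem ex_ix : ∃ kb n k0, Ix S M x kb n k0 := by
  have h := X.h
  have v0 := h.v0
  have C1 := h.C1
  have p0 := X.x0
  have T1 := X.T0_big
  have Cp : 0 < S.C * x := by positivity
  obtain ⟨k0, a1, a2, -, a4⟩ := h.exists_node (t := T0 S M / 2) (by linarith)
    (by unfold T0 at *; linarith)
  set n := ⌈x / S.v⌉₊ with hn
  have n1 : x ≤ n * S.v := by rw [← div_le_iff₀ v0]; exact Nat.le_ceil _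
  have n2 : n * S.v ≤ 2 * x := by
    have := Nat.ceil_lt_add_one (show 0 ≤ x / S.v by positivity)
    have e := mul_le_mul_of_nonneg_right this.le v0.le
    rw [add_mul, div_mul_cancel₀ _ v0.ne'] at e
    linarith [X.vp]
  have c1 : n * (S.C * S.v) ≤ 2 * (S.C * x) := by nlinarith
  have c2 : S.C * S.v ≤ S.C * x := by gcongr; exact X.vp
  have nk : n ≤ k0 := by
    by_contra hh
    have : (k0 : ℝ) ≤ n := by exact_mod_cast (by omega : k0 ≤ n)
    nlinarith [(h.s_bds a1.le).2, mul_le_mul_of_nonneg_right this (show 0 ≤ S.C * S.v by positivity)]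
  have sk : T0 S M / 4 ≤ M.s (k0 - n) := by
    have := (h.s_tel (i := k0 - n) (j := k0) (by omega) a1.le).2
    rw [Nat.cast_sub nk, sub_sub_cancel] at this
    linarith
  have jl : S.jl < k0 - n := by
    by_contra hh
    have := X.jl
    unfold T0 at sk
    linarith [h.sm (not_lt.1 hh)]
  exact ⟨k0 - n, n, k0, by omega, n1, n2, jl, sk, a1, a2⟩

/-! ### the two profiles -/

theorem uA_sq {k : ℕ} (h0 : S.J ≤ k) : uA S M x k ^ 2 * (dl S M k + x) = x ^ 3 := by
  have := X.u0.trans_le (X.dl0 h0)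
  have := X.x0
  rw [uA, sq_sqrt (by positivity), div_mul_cancel₀ _ (by positivity)]

theorem uB_sq (k : ℕ) : uB M x k ^ 2 * (du M k + x ^ 3) = x ^ 3 := by
  have := X.du0 k
  have := X.x0
  rw [uB, sq_sqrt (by positivity), div_mul_cancel₀ _ (by positivity)]

theorem uA_ge {k : ℕ} (h0 : S.J ≤ k) {z y : ℝ} (h : dl S M k + x ≤ z)
    (hx : y ^ 2 * z ≤ x ^ 3) : y ≤ uA S M x k := by
  have := X.u0.trans_le (X.dl0 h0)
  have := X.x0
  refine le_sqrt_of_sq_le ?_
  rw [le_div_iff₀ (by positivity)]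
  exact le_trans (by gcongr) hx

theorem uB_ge {k : ℕ} {z y : ℝ} (h : du M k + x ^ 3 ≤ z) (hx : y ^ 2 * z ≤ x ^ 3) :
    y ≤ uB M x k := by
  have := X.du0 k
  have := X.x0
  refine le_sqrt_of_sq_le ?_
  rw [le_div_iff₀ (by positivity)]
  exact le_trans (by gcongr) hx

theorem uA_b {k : ℕ} (h0 : S.J ≤ k) : √(x ^ 3) / 2 ≤ uA S M x k :=
  X.uA_ge h0 (z := 4) (by linarith [X.dl2 k, X.x1]) (by rw [div_pow, sq_sqrt X.P0.le]; linarith)

theorem uB_b (k : ℕ) : √(x ^ 3) / 2 ≤ uB M x k :=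
  X.uB_ge (z := 4) (by linarith [X.du1 k, X.x1, X.Px.2])
    (by rw [div_pow, sq_sqrt X.P0.le]; linarith)

theorem uA_le {k : ℕ} (h0 : S.J ≤ k) : uA S M x k ≤ x := by
  have := X.u0.trans_le (X.dl0 h0)
  have x0 := X.x0
  refine sqrt_le_iff.2 ⟨x0.le, ?_⟩
  rw [div_le_iff₀ (by positivity)]
  nlinarith [mul_pos x0 x0]

theorem uB_le (k : ℕ) : uB M x k ≤ 1 := by
  have := X.du0 k
  have := X.P0
  refine sqrt_le_iff.2 ⟨zero_le_one, ?_⟩
  rw [div_le_iff₀ (by positivity)]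
  linarith

theorem uB_mono {i k : ℕ} (h : i ≤ k) : uB M x i ≤ uB M x k :=
  (sq_ratio X.P0.le (by linarith [X.du0 k, X.P0]) (by linarith [X.du_anti h])).1


theorem uB_u {k : ℕ} {u : ℝ} (hu : 0 < u) (h : u ≤ du M k) : uB M x k ≤ √(x ^ 3 / u) :=
  (sq_ratio X.P0.le hu (by linarith [X.P0])).1

theorem uBJ : uB M x S.J ≤ S.C * x := by
  have C1 := X.h.C1
  have p0 := X.x0
  have d0 := X.du0 S.J
  have P0 := X.P0
  refine sqrt_le_iff.2 ⟨by positivity, ?_⟩
  rw [div_le_iff₀ (by positivity)]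
  have e := X.duJ
  calc x ^ 3 ≤ x ^ 2 * 1 * 1 := by linarith [X.Px.1]
    _ ≤ x ^ 2 * S.C * (S.C * (du M S.J + x ^ 3)) := by gcongr; nlinarith
    _ = _ := by ring

theorem uAJ : x / 2 ≤ uA S M x S.J :=
  X.uA_ge le_rfl (z := 2 * x) (by simp only [dl, sub_self]; linarith [X.up])
    (by nlinarith [X.P0])

theorem tq_ge {k : ℕ} (h0 : S.J ≤ k) : 16 * (uA S M x k + uB M x k) ≤ tq S M x k := by
  have a1 : 0 ≤ uA S M x k := sqrt_nonneg _
  have a2 : 0 ≤ uB M x k := sqrt_nonneg _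
  unfold tq
  nlinarith [X.h.C1]

theorem tq_b {k : ℕ} (h0 : S.J ≤ k) : √(x ^ 3) ≤ tq S M x k := by
  linarith [X.tq_ge h0, X.uA_b h0, X.uB_b k, X.b0]

theorem tq_le {k : ℕ} (h0 : S.J ≤ k) : tq S M x k ≤ 32 * S.C := by
  have := X.h.C0
  unfold tq
  nlinarith [X.uA_le h0, X.uB_le k, X.x1]

theorem tqJ : 8 * (S.C * x) ≤ tq S M x S.J ∧ tq S M x S.J ≤ 32 * (S.C ^ 2 * x) := by
  have C1 := X.h.C1
  have a2 : 0 ≤ uB M x S.J := sqrt_nonneg _
  have a3 : x ≤ S.C * x := le_mul_of_one_le_left X.x0.le C1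
  have a4 := X.uA_le le_rfl
  unfold tq
  constructor <;> nlinarith [X.uAJ, X.uBJ]

/-- a small tolerance: far from the top -/
theorem far {k : ℕ} (h0 : S.J ≤ k) (h : tq S M x k < 1) : 3 * x ^ 3 ≤ du M k ∧ k < S.Jp := by
  have a1 : 0 ≤ uA S M x k := sqrt_nonneg _
  have e : 3 * x ^ 3 ≤ du M k := by
    by_contra hh
    have := X.uB_ge (k := k) (z := 4 * x ^ 3) (y := 1 / 2) (by linarith) (by linarith)
    linarith [X.tq_ge h0]
  refine ⟨e, ?_⟩
  by_contra hh
  linarith [X.du_anti (not_lt.1 hh), X.duP, X.P0]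

/-- the shell -/
theorem shp {k i : ℕ} (h0 : S.J ≤ k) (hu : 3 * x ^ 3 ≤ du M k) (i0 : S.J ≤ i)
    (hd : |(i : ℝ) - k| * S.v ≤ 2 * r0 S lm) :
    i < S.Jp ∧ |M.z (i - 1) - M.z (k - 1)| ≤ uu S M (M.z (k - 1)) / 2 := by
  have C0 := X.h.C0
  have v0 := X.h.v0
  have P0 := X.P0
  have kp : k < S.Jp := by
    by_contra hh
    linarith [X.du_anti (not_lt.1 hh), X.duP]
  have key : ∀ j, S.J ≤ j → j < S.Jp → |(j : ℝ) - k| * S.v ≤ 2 * r0 S lm →
      |M.z (j - 1) - M.z (k - 1)| ≤ uu S M (M.z (k - 1)) / 2 := fun j a1 a2 a3 => by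
    refine shell X.h X.u0 X.fin h0 kp a1 a2 ?_
    rw [abs_sub_comm]
    have e : 4 * S.C ^ 2 * (2 * r0 S lm) = lm / 2 := by unfold r0; field_simp; ring
    have e1 := mul_le_mul_of_nonneg_left a3 (show 0 ≤ 4 * S.C ^ 2 by positivity)
    have e2 : lm ≤ Pl57.ls S M k := (X.lsb k h0 kp).1
    linarith [X.lm0]
  have ip : i < S.Jp := by
    by_contra hh
    have f1 : ((S.Jp - 1 : ℕ) : ℝ) ≤ i := by exact_mod_cast (by omega : S.Jp - 1 ≤ i)
    have f2 : (k : ℝ) ≤ (S.Jp - 1 : ℕ) := by exact_mod_cast (by omega : k ≤ S.Jp - 1)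
    have e := key (S.Jp - 1) (by omega) (by omega) (le_trans (by
      gcongr ?_ * _
      rw [abs_of_nonneg (by linarith), abs_of_nonneg (by linarith)]; linarith) hd)
    have e1 := (X.lw_le (y := S.Jp - 1) (by omega) (by omega)).trans (min_le_right _ _)
    have e2 := X.du_succ (S.Jp - 1)
    rw [show S.Jp - 1 + 1 = S.Jp by omega] at e2
    have e3 : uu S M (M.z (k - 1)) ≤ du M k := min_le_right _ _
    have e4 := (abs_le.1 e).2
    have e5 := X.duP
    unfold du at *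
    linarith
  exact ⟨ip, key i i0 ip hd⟩

theorem tq_shell {i k : ℕ} (i0 : S.J ≤ i) (h0 : S.J ≤ k)
    (hs : |M.z (i - 1) - M.z (k - 1)| ≤ uu S M (M.z (k - 1)) / 2) :
    tq S M x i ≤ 2 * tq S M x k := by
  have P0 := X.P0
  have p0 := X.x0
  have u0 := X.u0
  have C0 := X.h.C0
  obtain ⟨b1, b2⟩ := abs_le.1 hs
  have b3 : uu S M (M.z (k - 1)) ≤ dl S M k := min_le_left _ _
  have b4 : uu S M (M.z (k - 1)) ≤ du M k := min_le_right _ _
  have e2 : uA S M x i ≤ 2 * uA S M x k := sq_two P0.le (by linarith [X.dl0 i0])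
    (by linarith [X.dl0 h0]) (by unfold dl at *; linarith)
  have e3 : uB M x i ≤ 2 * uB M x k := sq_two P0.le (by linarith [X.du0 i])
    (by linarith [X.du0 k]) (by unfold du at *; linarith)
  unfold tq
  nlinarith

/-! ### location -/

theorem upB {k : ℕ} (h0 : S.J ≤ k) (h1 : k ≤ S.Jp) : M.del m a k ≤ 3 * uB M x k + γ := by
  have P0 := X.P0
  have d0 := X.du0 k
  have j1 : 1 ≤ S.J := by have := X.h.i2; omega
  have e := X.uB_sq k
  have b0 : 0 ≤ uB M x k := sqrt_nonneg _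
  rcases le_total (x ^ 3) (du M k) with c | c
  · have := persist X.h.leg.zm (f := M.del m a) (a := k - 1) (b := S.Jp) (by omega)
      (fun y hy => mem_union_right _ (by simp only [mem_Ioc, mem_Icc] at *; omega)) two_ne_zero X.en'
      (W := du M k + x ^ 3) (by positivity) (by rw [X.h.top _ le_rfl]; unfold du at *; linarith) b0
      e.ge (F := M.del m a k - γ) fun y a b => (X.dmono h0 (by omega) b).trans (le_abs_self _)
    linarith
  · have e1 := X.uB_ge (k := k) (z := 2 * x ^ 3) (y := 1 / 2) (by linarith) (by linarith)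
    linarith [(abs_le.1 (X.del1 h1)).2, X.γ0]

section loc
variable {kb n k0 : ℕ} (I : Ix S M x kb n k0)
include I

theorem memT {y : ℕ} (h0 : kb ≤ y) (h1 : y ≤ S.Jp) :
    y ∈ sb S M (T0 S M / 4) S.C ∪ Icc S.J S.Jp := by
  rcases lt_or_ge y S.J with e | e
  · exact mem_union_left _ (mem_filter.2 ⟨mem_Ioo.2 ⟨I.jl.trans_le h0, e⟩,
      I.sb.trans (X.h.sm h0), X.h.s_le_C h1⟩)
  · exact mem_union_right _ (mem_Icc.2 ⟨e, h1⟩)

theorem sup {k : ℕ} (h0 : k0 ≤ k) (h1 : k ≤ S.J) : |M.del m a k| ≤ 6 * (S.C * x) := by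
  have h := X.h
  have v0 := h.v0
  have C1 := h.C1
  have p0 := X.x0
  have e0 := I.e0
  have kJ := I.k0J
  have Jp := X.JJ
  have n1 := I.n1
  have n0 : 0 < n := by
    by_contra hh
    rw [show n = 0 by omega] at n1
    simp at n1; linarith
  have c1 : S.C * (n * S.v) ≤ 2 * (S.C * x) := by nlinarith [I.n2]
  have c2 : S.C * S.v ≤ S.C * x := by gcongr; exact X.vp
  have c3 : γ ≤ S.C * x := X.γp.trans (le_mul_of_one_le_left p0.le C1)
  have hV : x ^ 3 ≤ (S.C * x) ^ 2 * (2 * (n * (S.v / S.C))) := by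
    calc x ^ 3 = x ^ 2 * x := by ring
      _ ≤ S.C * x ^ 2 * (2 * (n * S.v)) := by
          gcongr
          exacts [le_mul_of_one_le_left (by positivity) C1, by linarith]
      _ = _ := by field_simp
  have lo : ∀ k, k0 ≤ k → k < S.J → -M.del m a k ≤ 4 * (S.C * x) := fun k a' b => by
    have := lo_slope h (f := M.del m a) (K := S.C) (kb := kb) (k := k) (n := n) h.C0.le
      (by have := h.i1; have := I.jl; omega) n0 (by omega) b (fun y _ _ => X.sl y (by omega))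
      (fun y hy => X.memT I (mem_Ioc.1 hy).1.le (by have := (mem_Ioc.1 hy).2; omega)) two_ne_zero
      X.en' (by positivity) hV
    linarith
  have uJ := X.upB le_rfl Jp.le
  have tJ := X.uBJ
  have s : Qf24.Sl (M.del m a) (S.C * S.v) kb S.Jp := fun y _ b => X.sl y b
  refine abs_le.2 ⟨?_, ?_⟩
  · rcases lt_or_eq_of_le h1 with e | e
    · linarith [lo k h0 e, mul_pos h.C0 p0]
    · have e1 := X.sl (S.J - 1) (by omega)
      rw [show S.J - 1 + 1 = S.J by omega] at e1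
      rw [e]
      linarith [lo (S.J - 1) (by omega) (by omega), mul_pos h.C0 p0]
  · rcases le_or_gt S.J (k + n) with e | e
    · have := s.le' (by positivity) (i := k) (j := S.J) (U := n) (by omega) h1 Jp.le e
      linarith
    · have z := (h.z_tel (i := k) (j := k + n) (by have := h.i1; have := I.jl; omega)
        (by omega) e).1
      push_cast at z
      rw [add_sub_cancel_left] at z
      have := persist h.leg.zm (f := M.del m a) (a := k) (b := k + n) (by omega)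
        (fun y hy => X.memT I (by have := (mem_Ioc.1 hy).1; omega)
          (by have := (mem_Ioc.1 hy).2; omega)) two_ne_zero X.en'
        (by positivity) (by linarith) (by positivity) hV
        (F := M.del m a k - S.C * S.v * n) fun y a b =>
          (s.le' (by positivity) (i := k) (j := y) (U := n) (by omega) a.le (by omega) b).trans
            (le_abs_self _)
      linarith [mul_pos h.C0 p0]

theorem loc {k : ℕ} (h0 : S.J ≤ k) (h1 : k ≤ S.Jp) : |M.del m a k| ≤ tq S M x k := by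
  have d0 := X.u0.trans_le (X.dl0 h0)
  have u0 := X.u0
  have p0 := X.x0
  have up := X.up
  have C1 := X.h.C1
  have j1 : 1 ≤ S.J := by have := X.h.i2; omega
  have A0 : 0 ≤ uA S M x k := sqrt_nonneg _
  have B0 : 0 ≤ uB M x k := sqrt_nonneg _
  have g : γ ≤ 2 * uA S M x k := by linarith [X.γb, X.uA_b h0]
  have t := X.tq_ge h0
  refine abs_le.2 ⟨?_, by linarith [X.upB h0 h1]⟩
  rcases le_total x (M.z (k - 1) - M.z (S.J - 1)) with c | c
  · have := persist X.h.leg.zm (f := M.del m a) (a := S.J - 1) (b := k - 1) (by omega)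
      (fun y hy => mem_union_right _ (by simp only [mem_Ioc, mem_Icc] at *; omega)) two_ne_zero X.en'
      (W := (dl S M k + x) / 2) (l := 2 * uA S M x k) (by positivity)
      (by unfold dl; linarith) (by positivity)
      (by nlinarith [X.uA_sq h0, X.P0]) (F := -M.del m a k - γ) fun y a' b => by
        linarith [X.dmono (i := y) (k := k) (by omega) (by omega) h1, neg_le_abs (M.del m a y)]
    linarith
  · have e := X.uA_ge h0 (y := x / 2) (z := 3 * x) (by unfold dl; linarith) (by nlinarith [X.P0])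
    have e1 := (abs_le.1 (X.sup I I.k0J.le le_rfl)).1
    have e2 := X.dmono le_rfl h0 h1
    unfold tq
    nlinarith [mul_le_mul_of_nonneg_left e (show 0 ≤ S.C by linarith)]

end loc

/-! ### the windows on the plateau -/

theorem r00 : 0 < r0 S lm := by
  have := X.lm0
  have := X.h.C0
  unfold r0; positivity

theorem r0b : 16 * (S.C ^ 2 * r0 S lm) ≤ √(x ^ 3) := by
  have := X.h.C0
  have e : 16 * (S.C ^ 2 * r0 S lm) = lm := by unfold r0; field_simp
  linarith [X.lmγ, X.γb]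

theorem r0c : 16 * (S.C * r0 S lm) ≤ √(x ^ 3) ∧ 16 * r0 S lm ≤ √(x ^ 3) := by
  have C1 := X.h.C1
  have r := X.r00
  have a1 : S.C * r0 S lm ≤ S.C ^ 2 * r0 S lm := by gcongr; nlinarith
  have a2 : r0 S lm ≤ S.C * r0 S lm := le_mul_of_one_le_left r.le C1
  constructor <;> linarith [X.r0b]

theorem rq_le {k : ℕ} (h0 : S.J ≤ k) : rq S M x lm k ≤ 2 * r0 S lm := by
  have r := X.r00
  have x0 := X.x0
  calc _ ≤ r0 S lm / x * (x + x) := by
        unfold rq; gcongr; exacts [X.uA_le h0, min_le_right _ _]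
    _ = _ := by field_simp; ring

theorem rq_A {k : ℕ} : r0 S lm / x * uA S M x k ≤ rq S M x lm k := by
  have r := X.r00
  have x0 := X.x0
  have : 0 ≤ min (uB M x k) x := le_min (sqrt_nonneg _) x0.le
  unfold rq; gcongr; linarith

theorem rq_B {k : ℕ} : r0 S lm / x * min (uB M x k) x ≤ rq S M x lm k := by
  have r := X.r00
  have x0 := X.x0
  have : 0 ≤ uA S M x k := sqrt_nonneg _
  unfold rq; gcongr; linarith

theorem rq_b {k : ℕ} (h0 : S.J ≤ k) : r0 S lm / x * (√(x ^ 3) / 2) ≤ rq S M x lm k := by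
  have r := X.r00
  have x0 := X.x0
  exact le_trans (by gcongr; exact X.uA_b h0) X.rq_A

theorem rqJ : r0 S lm / 2 ≤ rq S M x lm S.J := by
  have r := X.r00
  have x0 := X.x0
  calc _ = r0 S lm / x * (x / 2) := by field_simp
    _ ≤ r0 S lm / x * uA S M x S.J := by gcongr; exact X.uAJ
    _ ≤ _ := X.rq_A

theorem rq_tq {k : ℕ} (h0 : S.J ≤ k) : x * rq S M x lm k ≤ r0 S lm * tq S M x k := by
  have r := X.r00
  have x0 := X.x0
  have a1 : 0 ≤ uA S M x k := sqrt_nonneg _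
  have a2 : 0 ≤ uB M x k := sqrt_nonneg _
  calc _ = r0 S lm * (uA S M x k + min (uB M x k) x) := by unfold rq; field_simp
    _ ≤ _ := by gcongr; linarith [X.tq_ge h0, min_le_left (uB M x k) x]

theorem rq_lip {k : ℕ} (h0 : S.J ≤ k) (h1 : k < S.Jp) :
    |rq S M x lm (k + 1) - rq S M x lm k| ≤ S.v := by
  have r := X.r00
  have x0 := X.x0
  have P0 := X.P0
  have u0 := X.u0
  have v0 := X.h.v0
  have C1 := X.h.C1
  have l0 := X.lm0
  have w0 := X.lw0 k
  have d0 := X.dl0 h0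
  have w1 := (X.lw_le h0 h1).trans (min_le_right _ _)
  have w2 := X.lw_lm h0 h1
  have m1 := mul_le_mul_of_nonneg_left (min_le_left (dl S M k) (du M k))
    (show 0 ≤ S.C * S.v by positivity)
  have m2 := mul_le_mul_of_nonneg_left (min_le_right (dl S M k) (du M k))
    (show 0 ≤ S.C * S.v by positivity)
  have d1 := X.du0 (k + 1)
  obtain ⟨a1, a2⟩ := sq_ratio P0.le (show 0 < dl S M k + x by linarith)
    (show dl S M k + x ≤ dl S M (k + 1) + x by linarith [X.dl_succ k])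
  obtain ⟨b1, b2⟩ := sq_ratio P0.le (show 0 < du M (k + 1) + x ^ 3 by linarith)
    (show du M (k + 1) + x ^ 3 ≤ du M k + x ^ 3 by linarith [X.du_succ k])
  change uA S M x (k + 1) ≤ uA S M x k at a1
  change uA S M x k - uA S M x (k + 1) ≤ uA S M x (k + 1) * _ at a2
  change uB M x k ≤ uB M x (k + 1) at b1
  change uB M x (k + 1) - uB M x k ≤ uB M x k * _ at b2
  have z0 : 0 ≤ 2 * (S.C * S.v) / lm := by positivity
  have a3 : (dl S M (k + 1) + x - (dl S M k + x)) / (dl S M k + x) ≤ 2 * (S.C * S.v) / lm := by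
    rw [div_le_div_iff₀ (by linarith) l0, X.dl_succ]
    nlinarith [mul_pos (mul_pos X.h.C0 v0) x0, mul_pos (mul_pos X.h.C0 v0) (u0.trans_le d0)]
  have b3 : (du M k + x ^ 3 - (du M (k + 1) + x ^ 3)) / (du M (k + 1) + x ^ 3) ≤
      2 * (S.C * S.v) / lm := by
    rw [div_le_div_iff₀ (by linarith) l0, X.du_succ]
    nlinarith [mul_pos (mul_pos X.h.C0 v0) P0, mul_le_mul_of_nonneg_left w1
      (show 0 ≤ S.C * S.v by positivity), mul_nonneg (mul_pos X.h.C0 v0).le w0]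
  have a4 : uA S M x k - uA S M x (k + 1) ≤ x * (2 * (S.C * S.v) / lm) :=
    a2.trans (mul_le_mul (X.uA_le (by omega)) a3 (div_nonneg (by linarith [X.dl_succ k])
      (by linarith)) x0.le)
  have b4 : min (uB M x (k + 1)) x - min (uB M x k) x ≤ x * (2 * (S.C * S.v) / lm) := by
    rcases le_total (uB M x k) x with c | c
    · rw [min_eq_left c]
      refine le_trans (by linarith [min_le_left (uB M x (k + 1)) x]) (b2.trans ?_)
      exact mul_le_mul c b3 (div_nonneg (by linarith [X.du_succ k]) (by linarith)) x0.le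
    · rw [min_eq_right c]
      linarith [min_le_right (uB M x (k + 1)) x, mul_nonneg x0.le z0]
  have b5 := min_le_min_right x b1
  have e : r0 S lm / x * (x * (2 * (S.C * S.v) / lm)) ≤ S.v := by
    have : r0 S lm / x * (x * (2 * (S.C * S.v) / lm)) = S.v / (8 * S.C) := by
      unfold r0; field_simp; ring
    rw [this]
    exact div_le_self v0.le (by linarith)
  unfold rq
  rw [← mul_sub, abs_mul, abs_of_pos (show 0 < r0 S lm / x by positivity)]
  refine le_trans (mul_le_mul_of_nonneg_left (abs_le.2 ⟨?_, ?_⟩) (by positivity)) e <;> linarith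

end Ex

end Crest.Agent.T156.Alt.R62.Eq78

end
end

-- ▼ part T156/R2GO_90
section

/-!
# Row 156, R2 (helper90): the body of `GhX` from the envelope of the top zone
-/

set_option autoImplicit false
set_option linter.unusedSectionVars false

noncomputable section

namespace Crest.Agent.T156.Alt.R2.J90

open Real Finset
open Crest.Agent.T156.Alt.Md67 Crest.Agent.T156.Alt.R62

variable {β c0 C0 c η K0 x : ℝ} {A : ℕ} {p : Pm} {P : Pl} {m : ℕ} {a : ℝ} {S : Sc} {G : ℕ → ℝ}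

/-- a plateau node at distance `≍ u` from the top -/
theorem ex_i {M : Md} (cl : Cl S M) {u d : ℝ}
    (mesh : ∀ k, S.J ≤ k → k < S.Jp → M.z k - M.z (k - 1) ≤ d) (ue : S.ue ≤ d) (du' : d ≤ u)
    (hu : 2 * u < 1 / S.C) :
    ∃ i, S.J ≤ i ∧ i < S.Jp ∧ u ≤ 1 - M.z (i - 1) ∧ 1 - M.z (i - 1) ≤ 2 * u := by
  classical
  have i2 := cl.i2
  have i3 := cl.i3
  have at' := cl.atom.2
  have la := cl.last
  have d0 : 0 ≤ d := le_trans (by linarith [cl.leg.z1 (S.Jp - 1)]) ue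
  have j1 : S.J < S.Jp := lt_of_le_of_ne i3 fun e => by rw [← e] at la; linarith
  have hex : ∃ i, 1 - M.z (i - 1) ≤ 2 * u :=
    ⟨S.Jp - 1, by linarith [mesh (S.Jp - 1) (by omega) (by omega)]⟩
  have h1 := Nat.find_spec hex
  have h2 : Nat.find hex ≤ S.Jp - 1 :=
    Nat.find_min' hex (by linarith [mesh (S.Jp - 1) (by omega) (by omega)])
  have h3 : S.J < Nat.find hex := by
    by_contra hc
    linarith [cl.leg.zm (show Nat.find hex - 1 ≤ S.J - 1 by omega)]
  have h4 := Nat.find_min hex (show Nat.find hex - 1 < Nat.find hex by omega)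
  exact ⟨_, h3.le, by omega, by linarith [mesh (Nat.find hex - 1) (by omega) (by omega)], h1⟩

theorem gx_out (H : Reg β c0 C0 A c η K0 p) (hc : c ≤ 1 / 10 ^ 5) (hη : 100 * η ≤ c)
    (cl : Cl S (Me p P)) (hC : S.C ≤ (p.n : ℝ) ^ η) (eJ : S.J = p.J) (eP : S.Jp = p.Jp P)
    (en : S.n = p.n) (eA : S.A = p.A) (Gl : Lg (Me p P) m a)
    (mesh : ∀ k, S.J ≤ k → k < S.Jp → (Me p P).z k - (Me p P).z (k - 1) ≤ (p.n : ℝ) ^ (-(2 : ℝ)))
    (ue : S.ue ≤ (p.n : ℝ) ^ (-(2 : ℝ))) (x0 : 0 < x)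
    (hx : x ^ 3 = p.s ^ 4 * (p.n : ℝ) ^ (22 * p.c - 13 / 20))
    (O : Eq78.EO ((p.n : ℝ) ^ η) S (Me p P) m a x G) :
    (∃ G, GA p P m a G) ∧ ∃ i, p.J ≤ i ∧ i < p.Jp P ∧ duE p P i ≤ 2 * uc p ∧
      duE p P i * U3 p P m a i ≤ cb p (848 / 1000) ∧
      ∑ k ∈ (Thi p P).filter (· < i), (Me p P).dz m a k * U3 p P m a k ≤ cb p (848 / 1000) := by
  have s0 := H.s0
  have N0 := H.N0
  have c0' := H.c_pos
  have η0 := H.η_pos
  have K0' := kk0 H
  have C0' := cl.C0
  have ls := H.lg_s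
  have n2 := H.lg_two
  have ln := H.lg_n
  have lk := lg_kk H
  have lC := H.lg_cst cl.C1 hC
  have A2 : (2 : ℝ) ≤ A := by exact_mod_cast H.A2
  have i2 := cl.i2
  have i3 := cl.i3
  have lx : 3 * logb p.n x = 4 * logb p.n p.s + 22 * c - 13 / 20 := by
    have := congrArg (logb p.n) hx
    rw [logb_pow, logb_mul (by positivity) (by positivity), logb_pow, H.lg_rp, H.hc] at this
    push_cast at this
    linarith
  set Λ := (p.n : ℝ) ^ η with hΛ
  have Λ0 : 0 < Λ := H.Λ0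
  have lΛ : logb p.n Λ = η := H.lg_rp η
  have zn : ∀ k ∈ Thi p P, k < S.Jp → k ∈ Eq78.zn S (Me p P) := fun k hk h1 =>
    mem_filter.2 ⟨mem_range.2 h1, by
      have := not_lt.1 (mem_filter.1 hk).2
      rwa [← eJ] at this⟩
  have d0 := Gl.dz_nonneg
  have u0 : 0 < uc p := mul_pos s0 (H.rp0 _)
  have lu : logb p.n (uc p) = logb p.n p.s - 1 / 5 := by
    rw [uc, logb_mul s0.ne' (H.rp0 _).ne', H.lg_rp]; ring
  have b0 : 0 < cb p (848 / 1000) := mul_pos (pow_pos s0 5) (H.rp0 _)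
  have lb : logb p.n (cb p (848 / 1000)) = 5 * logb p.n p.s - 848 / 1000 := by
    rw [cb, logb_mul (pow_pos s0 5).ne' (H.rp0 _).ne', H.lg_rp, logb_pow]; push_cast; ring
  have half : ∀ {y Z : ℝ}, 0 < y → 0 < Z → logb p.n y + η ≤ logb p.n Z → y ≤ Z / 2 :=
    fun y0 Z0 h => H.le_of_lg y0 (half_pos Z0) (by rw [logb_div Z0.ne' two_ne_zero]; linarith)
  refine ⟨⟨fun k => if k < S.Jp then G k else 2, ?_⟩, ?_⟩
  · have s2 : ∑ k ∈ Thi p P, (Me p P).dz m a k * (if k < S.Jp then G k else 2) ^ 2 ≤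
        2 * (Λ * x ^ 3) := by
      rw [← sum_filter_add_sum_filter_not (Thi p P) (· < S.Jp)]
      have a1 : ∑ k ∈ (Thi p P).filter (· < S.Jp), (Me p P).dz m a k *
          (if k < S.Jp then G k else 2) ^ 2 ≤ Λ * x ^ 3 := by
        rw [sum_congr rfl fun k hk => by rw [if_pos (mem_filter.1 hk).2]]
        exact (sum_le_sum_of_subset_of_nonneg
          (fun k hk => zn k (mem_filter.1 hk).1 (mem_filter.1 hk).2)
          fun k _ _ => mul_nonneg (d0 k) (sq_nonneg _)).trans O.s2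
      have a2 : ∑ k ∈ (Thi p P).filter (¬ · < S.Jp), (Me p P).dz m a k *
          (if k < S.Jp then G k else 2) ^ 2 ≤ (p.n : ℝ) ^ (-(2 : ℝ)) * 2 ^ 2 := by
        rw [sum_congr rfl fun k hk => by rw [if_neg (mem_filter.1 hk).2], ← sum_mul]
        refine mul_le_mul_of_nonneg_right ((sum_le_sum_of_subset_of_nonneg
          (t := Ioc (S.Jp - 1) (Me p P).N) (fun k hk => ?_) fun k _ _ => d0 k).trans ?_)
          (sq_nonneg _)
        · have b1 := (mem_filter.1 hk).2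
          have b2 := (mem_Ico.1 (mem_filter.1 (mem_filter.1 hk).1).1).2
          exact mem_Ioc.2 ⟨by omega, b2.le⟩
        · rw [sum_dz cl.leg (by have := cl.i4; omega), cl.leg.zN]
          exact cl.last.trans ue
      have a3 : (p.n : ℝ) ^ (-(2 : ℝ)) * 2 ^ 2 ≤ Λ * x ^ 3 :=
        H.le_of_lg (by positivity) (by positivity) (by lg_norm; linarith)
      linarith
    have qq : ∀ k, |(Me p P).q k| ≤ 1 := fun k =>
      (abs_of_nonneg (q_nonneg k)).trans_le (q_le_one k)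
    refine ⟨fun k hk => ?_, fun k hk => ?_, fun k hk => ?_, ?_, s2.trans
      (H.le_of_lg (by positivity) (by positivity) (by lg_norm; linarith))⟩
    · split_ifs with h1
      exacts [O.pos k (zn k hk h1), two_pos]
    · split_ifs with h1
      · exact O.mom k (zn k hk h1)
      · refine E2_le (fun r hr => ?_) k
        rw [← (even_two_mul 4).pow_abs]
        exact pow_le_pow_left₀ (abs_nonneg _) (by linarith [abs_sub r ((Me p P).q k), qq k]) _
    · split_ifs with h1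
      · refine (O.env k (zn k hk h1)).trans ?_
        rw [CIn12.tlD, en, eA, ← rpow_natCast, ← rpow_neg N0.le, H.hA]
        exact rpow_le_rpow_of_exponent_le H.N1.le (by push_cast; linarith)
      · exact (CIn12.env_triv (by linarith [qq k])).trans (by positivity)
    · have a1 := sum_sq_le_sum_mul_sum_of_sq_le_mul (Thi p P)
        (r := fun k => (Me p P).dz m a k * (if k < S.Jp then G k else 2))
        (f := (Me p P).dz m a) (g := fun k => (Me p P).dz m a k * (if k < S.Jp then G k else 2) ^ 2)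
        (fun k _ => d0 k) (fun k _ => mul_nonneg (d0 k) (sq_nonneg _)) fun k _ => le_of_eq (by ring)
      have a2 : ∑ k ∈ Thi p P, (Me p P).dz m a k ≤ 1 := by
        refine (sum_le_sum_of_subset_of_nonneg (fun k hk => mem_range.2
          (Nat.lt_succ_of_lt (mem_Ico.1 (mem_filter.1 hk).1).2)) fun k _ _ => d0 k).trans ?_
        rw [sum_dz_all]; linarith [Gl.a0]
      have a3 := mul_le_mul a2 s2 (sum_nonneg fun k _ => mul_nonneg (d0 k) (sq_nonneg _)) zero_le_one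
      refine abs_le_of_sq_le_sq' (a1.trans (a3.trans (H.le_of_lg (by positivity) (by positivity)
        ?_))) (by positivity) |>.2
      lg_norm; linarith
  · obtain ⟨i, b1, b2, b3, b4⟩ := ex_i cl (u := uc p) mesh ue
      (H.le_of_lg (H.rp0 _) u0 (by linarith [H.lg_rp (-2)]))
      (((H.le_of_lg (x := 2 * 2 * uc p) (y := 1 / S.C) (by positivity) (by positivity)
        (by lg_norm; linarith)).trans_lt' (by linarith)))
    set y := √(x ^ 3 / uc p) with hy
    have y0 : 0 < y := by positivity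
    have ly : logb p.n y = (3 * logb p.n x - logb p.n (uc p)) / 2 := by rw [hy]; lg_norm
    have iT : i ∈ Thi p P := mem_filter.2 ⟨mem_Ico.2 ⟨by have := jc_lt H; omega,
      b2.trans cl.i4⟩, not_lt.2 (by linarith [cl.sm (eJ ▸ b1), cl.s_nn p.J])⟩
    have pt : ∀ k ∈ Thi p P, k ≤ i → 0 < G k ∧ G k ≤ Λ * (x + y) ∧
        U3 p P m a k ≤ 16 * G k ^ 3 := fun k hk h1 => by
      have z := zn k hk (h1.trans_lt b2)
      refine ⟨O.pos k z, O.pt k z _ u0 (b3.trans (sub_le_sub_left (cl.leg.zm (by omega)) 1)), ?_⟩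
      have := CIn12.mom_pair (q := (Me p P).q k) (i := 3) (O.pos k z) (by norm_num) (O.mom k z)
      rw [sub_self, abs_zero, add_zero] at this
      exact this.trans_eq (by norm_num)
    refine ⟨i, eJ ▸ b1, eP ▸ b2, b4, ?_, ?_⟩
    · obtain ⟨g0, g1, g2⟩ := pt i iT le_rfl
      have a1 : G i ^ 3 ≤ Λ ^ 3 * (4 * (x ^ 3 + y ^ 3)) := by
        refine (pow_le_pow_left₀ g0.le g1 3).trans ?_
        rw [mul_pow]
        exact mul_le_mul_of_nonneg_left ((add_pow_le x0.le y0.le 3).trans_eq (by norm_num))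
          (by positivity)
      have a2 := mul_le_mul b4 (g2.trans (mul_le_mul_of_nonneg_left a1 (by norm_num)))
        (E2_nonneg (fun _ _ => by positivity) i) (by positivity)
      have a3 := half (y := 2 ^ 7 * uc p * Λ ^ 3 * x ^ 3) (by positivity) b0 (by lg_norm; linarith)
      have a4 := half (y := 2 ^ 7 * uc p * Λ ^ 3 * y ^ 3) (by positivity) b0 (by lg_norm; linarith)
      refine a2.trans ?_
      norm_num at a3 a4 ⊢
      linarith
    · have a1 : ∑ k ∈ (Thi p P).filter (· < i), (Me p P).dz m a k * U3 p P m a k ≤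
          16 * (Λ * (x + y)) * ∑ k ∈ (Thi p P).filter (· < i), (Me p P).dz m a k * G k ^ 2 := by
        rw [mul_sum]
        refine sum_le_sum fun k hk => ?_
        obtain ⟨g0, g1, g2⟩ := pt k (mem_filter.1 hk).1 (mem_filter.1 hk).2.le
        have := mul_le_mul_of_nonneg_right g1 (sq_nonneg (G k))
        exact (mul_le_mul_of_nonneg_left (g2.trans (show _ ≤ 16 * (Λ * (x + y) * G k ^ 2) by
          linarith)) (d0 k)).trans_eq (by ring)
      have a2 := (sum_le_sum_of_subset_of_nonneg (s := (Thi p P).filter (· < i))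
        (fun k hk => zn k (mem_filter.1 hk).1 ((mem_filter.1 hk).2.trans b2))
        fun k _ _ => mul_nonneg (d0 k) (sq_nonneg _)).trans O.s2
      have a3 := half (y := 2 ^ 4 * Λ ^ 2 * x ^ 4) (by positivity) b0 (by lg_norm; linarith)
      have a4 := half (y := 2 ^ 4 * Λ ^ 2 * (y * x ^ 3)) (by positivity) b0 (by lg_norm; linarith)
      refine a1.trans ((mul_le_mul_of_nonneg_left a2 (by positivity)).trans ?_)
      norm_num at a3 a4 ⊢
      linarith

end Crest.Agent.T156.Alt.R2.J90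

end
end

-- ▼ part T156/R2GE_90
section

/-!
# Row 156, R2 (helper90): the inputs `Eq78.EI` on the END model
-/

set_option autoImplicit false
set_option linter.unusedSectionVars false

noncomputable section

namespace Crest.Agent.T156.Alt.R2.J90

open Real Finset
open Crest.Agent.T156.Alt.Md67 Crest.Agent.T156.Alt.R62

variable {β c0 C0 c η K0 K x ε : ℝ} {A : ℕ} {p : Pm} {P : Pl} {m : ℕ} {a : ℝ} {S : Sc}

theorem sJ90 {M : Md} (c : Cl S M) : 1 ≤ 3 * S.C ^ 3 * M.s S.J := by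
  have C0 := c.C0
  have a := c.atom.1
  have i0 := c.i0
  have i1 := c.i1
  have i2 := c.i2
  have b1 := (c.z_s (k := S.J - 1) (by omega) (by omega)).2
  have b2 := (c.s_bds (k := S.J - 1) (by omega)).1
  have b3 : (1 : ℝ) ≤ ((S.J - 1 : ℕ) : ℝ) := by exact_mod_cast (by omega : 1 ≤ S.J - 1)
  have b4 := mul_le_mul_of_nonneg_right b3 (div_pos c.v0 C0).le
  have b5 : S.v ≤ S.C * M.s (S.J - 1) := by rw [← div_le_iff₀' C0]; linarith
  have b6 := mul_le_mul_of_nonneg_left b5 C0.le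
  have b7 := mul_le_mul_of_nonneg_right c.C1 (mul_nonneg C0.le (c.s_nn (S.J - 1)))
  have b := (show M.z (S.J - 1) ≤ 3 * S.C ^ 2 * M.s (S.J - 1) by linarith).trans
    (mul_le_mul_of_nonneg_left (c.sm (Nat.sub_le S.J 1)) (by positivity))
  rw [div_le_iff₀ C0] at a
  linarith [mul_le_mul_of_nonneg_right b C0.le]

theorem ei_end (H : Reg β c0 C0 A c η K0 p) (hc : c ≤ 1 / 10 ^ 5) (hη : 100 * η ≤ c) (hε : ε ≤ c)
    (F : Fe0 K p P S (Me p P)) (hC : S.C ≤ (p.n : ℝ) ^ η) (sp : p.SpOk (7 / 20) P)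
    (L : En91.LocE p P (Me p P) m a) (x0 : 0 < x)
    (hx : x ^ 3 = p.s ^ 4 * (p.n : ℝ) ^ (22 * p.c - 13 / 20)) :
    Eq78.EI ((p.n : ℝ) ^ ε) S (Me p P) m a x ((p.n : ℝ) ^ (-(7 / 20) - c))
      ((p.n : ℝ) ^ (c - 7 / 20)) := by
  have cl := F.cl
  have s0 := H.s0
  have N0 := H.N0
  have c0' := H.c_pos
  have η0 := H.η_pos
  have C0' := cl.C0
  have κ0 := H.κ0
  have y0 := H.ye0
  have v0 := H.v0
  have ls := H.lg_s
  have ln := H.lg_n
  have lκ := H.lg_κ
  have ly := H.lg_ye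
  have lv := H.lg_v_le
  have lC := H.lg_cst cl.C1 hC
  have l4 := H.lg_num (x := 4) (by norm_num) (by norm_num)
  have l7 := H.lg_num (x := 768) (by norm_num) (by norm_num)
  have A2 : (2 : ℝ) ≤ A := by exact_mod_cast H.A2
  have i0 := cl.i0
  have i1 := cl.i1
  have i2 := cl.i2
  have i3 := cl.i3
  have hcc := H.hc
  have lx : 3 * logb p.n x = 4 * logb p.n p.s + 22 * c - 13 / 20 := by
    have := congrArg (logb p.n) hx
    rw [logb_pow, logb_mul (by positivity) (by positivity), logb_pow, H.lg_rp, H.hc] at this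
    push_cast at this
    linarith
  have sJ := sJ90 cl
  have sJ' : ∀ {y : ℝ}, 0 < y → logb p.n y + 4 * η ≤ 0 → 256 * y ≤ (Me p P).s S.J := by
    intro y h0 h1
    have b : 768 * S.C ^ 3 * y ≤ 1 := H.le_of_lg (by positivity) one_pos (by lg_norm; linarith)
    refine le_of_mul_le_mul_left ?_ (show 0 < 3 * S.C ^ 3 by positivity)
    linarith
  have u0 : 0 < S.u0 := (H.rp0 _).trans_le F.u0'.1
  have lu : -(71 / 200) ≤ logb p.n S.u0 := (H.lg_rp _).ge.trans (H.lg_mono (H.rp0 _) F.u0'.1)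
  have w3 : S.w3 1 = 1 / (p.n * (p.κ * p.ye ^ 2)) := by
    have e : S.ms 1 = p.κ * p.ye ^ 2 := F.θ.trans (by rw [Pm.μe, Pm.μ, one_mul])
    rw [Sc.w3, e, F.eF, F.en, mul_one]
  have γγ : (p.n : ℝ) ^ (-(7 / 20 : ℝ)) ≤ (p.n : ℝ) ^ (c - 7 / 20) :=
    Pre29.rp_le H.n1 (by linarith)
  have L6 := F.lL.1
  have Lc := F.lL.2.2
  have yJ : 256 * p.ye ≤ (Me p P).s S.J := sJ' y0 (by linarith)
  refine ⟨x0, ?_, ?_, ?_, ?_, u0, ?_, ?_, F.spr.trans γγ, fun k k1 k2 => ?_, fun k k1 k2 => ?_, ?_,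
    F.dj.2, F.rev, ?_, ?_, ?_⟩
  · exact H.le_of_lg (by positivity) one_pos (by lg_norm; rw [ln]; linarith)
  · rw [F.ev]
    exact H.le_of_lg v0 (by positivity) (by lg_norm; linarith)
  · rw [F.ue]
    exact H.le_of_lg (by positivity) (by positivity) (by lg_norm; rw [ln]; linarith)
  · have b0 : 0 < p.s * (p.n : ℝ) ^ (p.c / 13 - 1 / 6) := by positivity
    have b1 := sJ' b0 (by lg_norm; rw [ln]; linarith)
    linarith [F.sj]
  · rw [F.u0, div_le_iff₀ (by linarith), show c - 7 / 20 = -(7 / 20) + p.c by linarith,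
      rpow_add N0]
    have b0 := H.rp0 (-(7 / 20 : ℝ))
    have b1 : 64 ≤ (p.n : ℝ) ^ p.c * p.lL := by nlinarith
    nlinarith
  · exact H.le_of_lg (by positivity) (by positivity) (by lg_norm; rw [ln]; linarith)
  · have e : ∀ k, (Me p P).ck k = (Me p P).q k := fun k => by
      change _ + P.rs _ = _
      rw [sp.rs]
      exact add_zero _
    rw [← e, ← e]
    exact (cl.ckm k (by omega) k2).2
  · have b1 : p.xs ≤ (Me p P).z (k - 1) := F.ex ▸ cl.leg.zm (by omega)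
    have b2 : (p.n : ℝ) ^ (-(3 : ℝ)) ≤ 1 - (Me p P).z (k - 1) := by
      have j1 := F.eJ
      have j2 := F.eP
      have j3 := F.el
      have e : (Me p P).z (S.Jp - 1) = P.x P.I := by
        change p.zP P (max (S.Jp - 1) p.jf) = _
        rw [max_eq_left (by omega), Pm.zP, if_neg (by omega), if_pos (by omega)]
        congr 1
        unfold Pm.Jp at j2
        omega
      linarith [sp.e1, cl.leg.zm (show k - 1 ≤ S.Jp - 1 by omega)]
    have b3 := F.d1 _ b1 b2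
    have e : R62.ls S (Me p P) k = S.den ((Me p P).z (k - 1)) *
        min ((Me p P).z (k - 1) - p.xs + S.u0) (1 - (Me p P).z (k - 1)) := by
      rw [← F.ex]; rfl
    rw [e]
    refine ⟨le_trans ?_ b3.1, b3.2.trans γγ⟩
    rw [rpow_sub N0, ← hcc]
    exact div_le_div_of_nonneg_left (H.rp0 _).le (by linarith) Lc
  · rw [F.ev]
    exact H.le_of_lg (by positivity) (by positivity) (by lg_norm; rw [ln]; linarith)
  · rw [w3]
    exact H.le_of_lg (by positivity) (by positivity) (by lg_norm; rw [ln]; linarith)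
  · rw [w3]
    exact H.le_of_lg (by positivity) (by positivity) (by lg_norm; rw [ln]; linarith)
  · rw [hx]
    refine (sum_le_sum_of_subset_of_nonneg (fun k hk => ?_) fun k _ _ =>
      mul_nonneg (sub_nonneg.2 (cl.leg.zm (Nat.sub_le k 1))) (sq_nonneg _)).trans L.top
    rw [← F.el, ← F.eP]
    rcases mem_union.1 hk with h | h
    · obtain ⟨h1, h2, -⟩ := mem_filter.1 h
      have h3 := mem_Ioo.1 h1
      refine mem_filter.2 ⟨mem_Ioc.2 ⟨h3.1, by omega⟩, le_trans ?_ h2⟩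
      unfold T0
      linarith
    · have h3 := mem_Icc.1 h
      exact mem_filter.2 ⟨mem_Ioc.2 ⟨by omega, h3.2⟩, le_trans (by linarith) (cl.sm h3.1)⟩

/-- **`GhX`** -/
theorem ghX90 (hβ : 1 < β) (hL : En91.LocS β) (hE : Eq78.EqS) : GhX β := by
  refine Sml.glueCL hβ (feE hβ) hL hE (fun K => 8 * K ^ 2) (fun c => c) (fun c hc => hc)
    fun K hK c0 C0 _ _ => ⟨5, fun A hA => ⟨1 / 10 ^ 5, by norm_num, fun c hc c0' =>
      ⟨c / 100, by positivity, fun η hη _ => ⟨8 * K ^ 2, fun p H hf hs L P m a sp hi => ?_⟩⟩⟩⟩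
  have f := hf (H.hA ▸ hA) P sp
  have hη' : 100 * η ≤ c := by linarith
  have hC := f.eC.trans_le H.K_le
  have s0 := H.s0
  have N0 := H.N0
  have Y0 : 0 < p.s ^ 4 * (p.n : ℝ) ^ (22 * p.c - 13 / 20) := by positivity
  obtain ⟨x, x0, hx⟩ : ∃ x : ℝ, 0 < x ∧ x ^ 3 = p.s ^ 4 * (p.n : ℝ) ^ (22 * p.c - 13 / 20) :=
    ⟨_, rpow_pos_of_pos Y0 _, rpow_inv_natCast_pow Y0.le (by norm_num)⟩
  have sc : (p.alS K 0 P).In m a := ⟨hi.m1, hi.m2, hi.a1, hi.a2⟩
  obtain ⟨G, O⟩ := L _ _ f.eC f.eA f.en f.cl m a sc x _ _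
    (ei_end H hc hη' H.hc.le f hC sp (hs P sp m a ⟨hi.m1, hi.m2, hi.a1, hi.a2⟩) x0 hx)
  exact gx_out H hc hη' f.cl hC f.eJ f.eP f.en f.eA (lg_cl f.cl H.n0 sc) f.mesh f.ue.le x0 hx O

end Crest.Agent.T156.Alt.R2.J90

end
end

-- ▼ part T156/EnS_57
section

/-!
# Row 156 (helper57): the envelope on the slope and the square sum of the tolerance
-/

set_option autoImplicit false
set_option linter.unusedSectionVars false
set_option linter.unusedVariables false
set_option maxHeartbeats 400000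

noncomputable section

namespace Crest.Agent.T156.Alt.R62.Eq78

open Real Finset Filter
open Crest.Agent.T156.Alt.C33 Crest.Agent.T156.Alt.Md67 Crest.Agent.T156.Alt.Pl57

namespace Ex

variable {lam : ℝ} {S : Sc} {M : Md} {m : ℕ} {a x lm γ : ℝ} (X : Ex lam S M m a x lm γ)
include X

theorem logP : log (3 / x ^ 3) ≤ lam ^ 3 / 4 := by
  have P0 := X.P0
  have C0 := X.h.C0
  have n1 := X.F.n1
  have big := X.big
  have e : 3 / x ^ 3 ≤ 3 * S.C * (S.n : ℝ) ^ S.A := by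
    have e1 := X.h.v1
    rw [div_le_iff₀ C0] at e1
    rw [div_le_iff₀ P0]
    have := mul_le_mul_of_nonneg_right X.vx (show 0 ≤ (S.n : ℝ) ^ S.A * S.C by positivity)
    nlinarith
  refine (log_le_log (by positivity) e).trans ?_
  rw [log_mul (by positivity) (by positivity), log_pow]
  have e1 := log_le_sub_one_of_pos (show 0 < 3 * S.C by positivity)
  have e2 : (S.A : ℝ) * log S.n ≤ lam * lam :=
    mul_le_mul X.Al X.lg (log_nonneg n1) (by linarith)
  nlinarith [X.Cl, mul_le_mul_of_nonneg_right big (show 0 ≤ lam * lam by positivity)]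

theorem sumA : ∑ k ∈ Ico S.J S.Jp, lw M k * uA S M x k ^ 2 ≤ lam ^ 3 * x ^ 3 := by
  have P0 := X.P0
  have p0 := X.x0
  have u0 := X.u0
  have e := tel (fun k => log (dl S M k + x)) X.JJ.le
  have e1 : ∑ k ∈ Ico S.J S.Jp, lw M k * uA S M x k ^ 2 ≤ ∑ k ∈ Ico S.J S.Jp,
      2 * x ^ 3 * (log (dl S M (k + 1) + x) - log (dl S M k + x)) := sum_le_sum fun k hk => by
    obtain ⟨a1, a2⟩ := mem_Ico.1 hk
    have d0 := u0.trans_le (X.dl0 a1)
    have w0 := X.lw0 k
    have w1 := (X.lw_le a1 a2).trans (min_le_left _ _)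
    have f := one_sub_inv_le_log_of_pos
      (show 0 < (dl S M k + lw M k + x) / (dl S M k + x) by positivity)
    rw [uA, sq_sqrt (by positivity), X.dl_succ k, ← log_div (by positivity) (by positivity)]
    refine le_trans ?_ (mul_le_mul_of_nonneg_left f (by positivity))
    rw [inv_div, one_sub_div (by positivity), ← mul_div_assoc, ← mul_div_assoc,
      div_le_div_iff₀ (by positivity) (by positivity)]
    nlinarith [mul_nonneg (mul_nonneg w0 P0.le) (show 0 ≤ dl S M k + x - lw M k by linarith)]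
  rw [← mul_sum, e] at e1
  refine e1.trans ?_
  have d0 := u0.trans_le (X.dl0 le_rfl)
  have d1 := u0.trans_le (X.dl0 X.JJ.le)
  rw [← log_div (by positivity) (by positivity)]
  have e2 : log ((dl S M S.Jp + x) / (dl S M S.J + x)) ≤ log (3 / x ^ 3) := by
    gcongr
    exacts [by linarith [X.dl2 S.Jp, X.x1], by linarith [X.Px.2]]
  nlinarith [mul_le_mul_of_nonneg_left (e2.trans X.logP) P0.le,
    mul_pos (pow_pos (show 0 < lam by linarith [X.big]) 3) P0]

theorem sumB : ∑ k ∈ Ico S.J S.Jp, lw M k * uB M x k ^ 2 ≤ lam ^ 3 * x ^ 3 := by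
  have P0 := X.P0
  have e := tel (fun k => -log (du M k + x ^ 3)) X.JJ.le
  have e1 : ∑ k ∈ Ico S.J S.Jp, lw M k * uB M x k ^ 2 ≤ ∑ k ∈ Ico S.J S.Jp,
      x ^ 3 * (-log (du M (k + 1) + x ^ 3) - -log (du M k + x ^ 3)) := sum_le_sum fun k hk => by
    have d0 := X.du0 k
    have d1 := X.du0 (k + 1)
    have d : lw M k = du M k - du M (k + 1) := by simp [du, lw]
    have f := log_le_sub_one_of_pos
      (show 0 < (du M (k + 1) + x ^ 3) / (du M k + x ^ 3) by positivity)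
    rw [log_div (by positivity) (by positivity), div_sub_one (by positivity)] at f
    rw [uB, sq_sqrt (by positivity), d, mul_comm, div_mul_eq_mul_div, mul_div_assoc]
    gcongr
    rw [show du M (k + 1) + x ^ 3 - (du M k + x ^ 3) = -(du M k - du M (k + 1)) by ring,
      neg_div] at f
    linarith
  rw [← mul_sum, e] at e1
  refine e1.trans ?_
  have d0 := X.du0 S.J
  have d1 := X.du0 S.Jp
  rw [neg_sub_neg, ← log_div (by positivity) (by positivity)]
  have e2 : log ((du M S.J + x ^ 3) / (du M S.Jp + x ^ 3)) ≤ log (3 / x ^ 3) := by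
    gcongr
    exacts [by linarith [X.du1 S.J, X.x1, X.Px.2], by linarith]
  nlinarith [mul_le_mul_of_nonneg_left (e2.trans X.logP) P0.le,
    mul_pos (pow_pos (show 0 < lam by linarith [X.big]) 3) P0]

/-- the square sum on the plateau -/
theorem sum_tq : ∑ k ∈ Ico S.J S.Jp, lw M k * tq S M x k ^ 2 ≤ lam ^ 7 * x ^ 3 := by
  have P0 := X.P0
  have big := X.big
  have C0 := X.h.C0
  calc _ ≤ ∑ k ∈ Ico S.J S.Jp, 512 * S.C ^ 2 * (lw M k * uA S M x k ^ 2 + lw M k * uB M x k ^ 2) :=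
        sum_le_sum fun k _ => by
          have w0 := X.lw0 k
          have : tq S M x k ^ 2 ≤ 512 * S.C ^ 2 * (uA S M x k ^ 2 + uB M x k ^ 2) := by
            unfold tq
            nlinarith [mul_nonneg (sq_nonneg S.C) (sq_nonneg (uA S M x k - uB M x k))]
          nlinarith [mul_le_mul_of_nonneg_left this w0]
    _ ≤ 512 * lam ^ 2 * (lam ^ 3 * x ^ 3 + lam ^ 3 * x ^ 3) := by
        rw [← mul_sum, sum_add_distrib]
        have := add_le_add X.sumA X.sumB
        have f : 0 ≤ ∑ k ∈ Ico S.J S.Jp, lw M k * uA S M x k ^ 2 +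
            ∑ k ∈ Ico S.J S.Jp, lw M k * uB M x k ^ 2 :=
          add_nonneg (sum_nonneg fun k _ => mul_nonneg (X.lw0 k) (sq_nonneg _))
            (sum_nonneg fun k _ => mul_nonneg (X.lw0 k) (sq_nonneg _))
        have := X.Cl
        gcongr 512 * ?_ ^ 2 * ?_
    _ = 1024 * (lam ^ 5 * x ^ 3) := by ring
    _ ≤ lam ^ 2 * (lam ^ 5 * x ^ 3) := by gcongr; nlinarith
    _ = _ := by ring

variable {kb n k0 : ℕ} (I : Ix S M x kb n k0)
include I

/-- the envelope on the slope exists -/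
theorem ex_tt : ∃ T, TT S M m a x k0 T := by
  have v0 := X.h.v0
  have C1 := X.h.C1
  have kJ := I.k0J
  have Jp := X.JJ
  have p0 := X.x0
  have cv : 0 < S.C * S.v := by positivity
  set β : ℕ → ℝ := fun k => if k < S.J then |M.del m a k| else tq S M x S.J with hβ
  obtain ⟨T, t1, t2, t3⟩ := env' β kJ.le (show 0 ≤ 4 * (S.C * S.v) by positivity)
  obtain ⟨j1, j2⟩ := X.tqJ
  have bs : ∀ k, k < S.J → β k = |M.del m a k| := fun k b => if_pos b
  have bt : ∀ k, S.J ≤ k → β k = tq S M x S.J := fun k b => if_neg b.not_gt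
  have Cx : 0 < S.C * x := by positivity
  refine ⟨T, t2, fun k a' b => bs k b ▸ t1 k a' b.le, bt _ le_rfl ▸ t1 _ kJ.le le_rfl,
    fun k => t3 k _ fun i c d => ?_, fun k a' b => t3 k _ fun i c d => ?_⟩
  · have : 0 ≤ |(i : ℝ) - k| * (4 * (S.C * S.v)) := by positivity
    rcases lt_or_ge i S.J with e | e
    · rw [bs i e]; linarith [X.sup I c d]
    · rw [bt i e]; linarith
  · have e0 := @Env96.ev_nonneg (M.rb m a) (3 * (S.C * S.v)) k0 (S.J - 1) k
    have e1 := abs_nonneg (M.del m a k)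
    rcases le_or_gt S.J i with e | e
    · have f1 : (S.J : ℝ) ≤ i := by exact_mod_cast e
      have f2 : (k : ℝ) ≤ S.J := by exact_mod_cast b.le
      rw [abs_of_nonneg (show (0 : ℝ) ≤ i - k by linarith), bt i e]
      have e4 : ((S.J : ℝ) - k) * S.v ≤ ((i : ℝ) - k) * (4 * (S.C * S.v)) :=
        mul_le_mul (by linarith) (by nlinarith) v0.le (by linarith)
      linarith [le_max_left (tq S M x S.J - ((S.J : ℝ) - k) * S.v) 0]
    · have e2 := Env96.cone (f := M.rb m a) (c := 3 * (S.C * S.v)) (a := k0) (b := S.J - 1) (k := k)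
        c (show i ≤ S.J - 1 by omega)
      have e3 := Env96.abs_tele (q := M.q) (g := S.C * S.v) (a := k0) (b := S.J)
        (fun y _ b => X.qs' y (by omega)) c e.le a' b.le
      have e6 := le_max_right (tq S M x S.J - ((S.J : ℝ) - k) * S.v) 0
      rw [bs i e]
      obtain ⟨f1, f2⟩ := abs_le.1 e2
      obtain ⟨f3, f4⟩ := abs_le.1 e3
      have f5 := le_abs_self (M.del m a k)
      have f6 := neg_abs_le (M.del m a k)
      unfold Md.del at *
      exact abs_le.2 ⟨by linarith, by linarith⟩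

variable {T : ℕ → ℝ} (Y : TT S M m a x k0 T)
include Y

/-- the square sum on the slope -/
theorem sum_sl : ∑ k ∈ Ico k0 S.J, lw M k * (T k + √(x ^ 3)) ^ 2 ≤ lam ^ 23 * x ^ 3 := by
  have h := X.h
  have Jp := X.JJ
  have kJ := I.k0J
  have p0 := X.x0
  have P0 := X.P0
  have big := X.big
  have l1 := X.l1
  have v0 := h.v0
  have C1 := h.C1
  have jl : S.j0 < k0 := by have := h.i1; have := I.jl; have := I.e0; omega
  have zs : ∀ k ∈ Ico k0 S.J, S.v / S.C ≤ lw M k ∧ lw M k ≤ S.C * S.v := fun k hk => by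
    obtain ⟨a1, a2⟩ := mem_Ico.1 hk
    have := h.zs (k - 1) (by omega) (by omega)
    rwa [show k - 1 + 1 = k by omega] at this
  have sd : ∑ k ∈ Ico k0 S.J, lw M k * M.del m a k ^ 2 ≤ x ^ 3 :=
    le_trans (sum_le_sum_of_subset_of_nonneg (fun k hk => X.memT I
      (by have := (mem_Ico.1 hk).1; have := I.e0; omega) (by have := (mem_Ico.1 hk).2; omega))
      fun k _ _ => mul_nonneg (X.lw0 k) (sq_nonneg _)) X.en
  have sd' : S.v * ∑ k ∈ Ico k0 S.J, M.del m a k ^ 2 ≤ S.C * x ^ 3 := by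
    refine le_trans ?_ (mul_le_mul_of_nonneg_left sd h.C0.le)
    rw [mul_sum, mul_sum]
    refine sum_le_sum fun k hk => ?_
    have := (zs k hk).1
    rw [div_le_iff₀ h.C0] at this
    nlinarith [mul_le_mul_of_nonneg_right this (sq_nonneg (M.del m a k))]
  have cx : 6 * (S.C * x) ≤ lam ^ 2 * x := by
    rw [← mul_assoc, sq]; gcongr; exacts [by linarith, X.Cl]
  have se := Env96.sum_sq (f := M.rb m a) (q := M.q) (g := S.C * S.v) (c := 3 * (S.C * S.v))
    (a := k0) (b := S.J - 1) (D := lam ^ 2 * x) (by omega) (by positivity) (by positivity) le_rfl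
    (fun y _ _ => rb_mono X.F.lg.m0 y.le_succ) (fun y _ b => X.qs' y (by omega))
    ((X.sup I le_rfl kJ.le).trans cx) ((X.sup I (by omega) (by omega)).trans cx)
  rw [show Icc k0 (S.J - 1) = Ico k0 S.J by ext; simp only [mem_Icc, mem_Ico]; omega] at se
  have se' : S.C * S.v * ∑ k ∈ Ico k0 S.J, Env96.ev (M.rb m a) (3 * (S.C * S.v)) k0 (S.J - 1) k ^ 2 ≤
      lam ^ 22 * x ^ 3 := by
    refine (mul_le_mul_of_nonneg_left se (by positivity)).trans ?_
    calc _ = 56 / 3 * (2 * lam ^ 6 * x ^ 3 +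
          4 * S.C * (S.v * ∑ k ∈ Ico k0 S.J, M.del m a k ^ 2)) := by
          unfold Md.del; field_simp
      _ ≤ 56 / 3 * (2 * lam ^ 6 * x ^ 3 + 4 * lam * (lam ^ 5 * x ^ 3)) := by
          gcongr _ * (_ + _ * ?_ * ?_)
          exacts [X.Cl, sd'.trans (by gcongr; exact X.Cl.trans (le_self_pow₀ l1 (by norm_num)))]
      _ = 112 * lam ^ 6 * x ^ 3 := by ring
      _ ≤ lam ^ 16 * lam ^ 6 * x ^ 3 := by
          gcongr; exact le_trans (by linarith) (le_self_pow₀ l1 (by norm_num))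
      _ = _ := by ring
  have tJ : 0 ≤ tq S M x S.J ∧ tq S M x S.J ≤ lam ^ 7 * x := by
    refine ⟨X.b0.le.trans (X.tq_b le_rfl), X.tqJ.2.trans ?_⟩
    calc _ ≤ lam * (lam ^ 2 * x) := by gcongr; exacts [by linarith, X.Cl]
      _ = lam ^ 3 * x := by ring
      _ ≤ _ := by gcongr; norm_num
  have sc : S.v * ∑ k ∈ Ico k0 S.J, max (tq S M x S.J - ((S.J : ℝ) - k) * S.v) 0 ^ 2 ≤
      lam ^ 21 * x ^ 3 := by
    have e := tel (fun k : ℕ => max (tq S M x S.J - ((S.J : ℝ) - k) * S.v) 0 ^ 3) kJ.le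
    rw [mul_sum]
    refine (sum_le_sum fun k _ => ?_).trans (e.le.trans ?_)
    · refine (Tx.cube_step _ _ v0.le).trans (le_of_eq ?_)
      push_cast
      congr 3
      ring
    · rw [sub_self, zero_mul, sub_zero, max_eq_left tJ.1]
      have f := pow_le_pow_left₀ tJ.1 tJ.2 3
      rw [mul_pow, show (lam ^ 7) ^ 3 = lam ^ 21 by ring] at f
      have := le_max_right (tq S M x S.J - ((S.J : ℝ) - k0) * S.v) 0
      have : 0 ≤ max (tq S M x S.J - ((S.J : ℝ) - k0) * S.v) 0 ^ 3 := by positivity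
      linarith
  have s1 : ∑ k ∈ Ico k0 S.J, lw M k ≤ 1 := by
    rw [(Tx.lw_sum kJ.le).resolve_right (by omega)]
    linarith [X.du1 k0, X.du0 S.J]
  calc _ ≤ ∑ k ∈ Ico k0 S.J, (4 * (S.C * S.v * Env96.ev (M.rb m a) (3 * (S.C * S.v)) k0 (S.J - 1) k ^ 2)
        + 4 * (lw M k * M.del m a k ^ 2) +
        4 * S.C * (S.v * max (tq S M x S.J - ((S.J : ℝ) - k) * S.v) 0 ^ 2) +
        4 * x ^ 3 * lw M k) := sum_le_sum fun k hk => by
        obtain ⟨a1, a2⟩ := mem_Ico.1 hk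
        have t0 : 0 ≤ T k := (abs_nonneg _).trans (Y.loc k a1 a2)
        have b0 := X.b0
        have e := pow_le_pow_left₀ (show 0 ≤ T k + √(x ^ 3) by positivity)
          (add_le_add_left (Y.sl k a1 a2) (√(x ^ 3))) 2
        have w0 := X.lw0 k
        have w1 := (zs k hk).2
        have q1 : √(x ^ 3) ^ 2 = x ^ 3 := sq_sqrt P0.le
        rw [← sq_abs (M.del m a k)]
        generalize Env96.ev (M.rb m a) (3 * (S.C * S.v)) k0 (S.J - 1) k = u at *
        generalize |M.del m a k| = y at *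
        generalize max (tq S M x S.J - ((S.J : ℝ) - k) * S.v) 0 = z at *
        generalize √(x ^ 3) = w at *
        rw [← q1]
        have e1 : (T k + w) ^ 2 ≤ 4 * (u ^ 2 + y ^ 2 + z ^ 2 + w ^ 2) := by
          nlinarith [sq_nonneg (u - y), sq_nonneg (u - z), sq_nonneg (u - w), sq_nonneg (y - z),
            sq_nonneg (y - w), sq_nonneg (z - w)]
        nlinarith [mul_le_mul_of_nonneg_left e1 w0, mul_le_mul_of_nonneg_right w1 (sq_nonneg u),
          mul_le_mul_of_nonneg_right w1 (sq_nonneg z)]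
    _ ≤ 4 * (lam ^ 22 * x ^ 3) + 4 * (lam ^ 22 * x ^ 3) + 4 * lam * (lam ^ 21 * x ^ 3) +
        4 * (lam ^ 22 * x ^ 3) * 1 := by
        simp only [sum_add_distrib, ← mul_sum]
        have f0 : x ^ 3 ≤ lam ^ 22 * x ^ 3 := le_mul_of_one_le_left P0.le (one_le_pow₀ l1)
        have f1 := sd.trans f0
        have f2 := X.Cl
        have f4 : 0 ≤ ∑ i ∈ Ico k0 S.J, lw M i := sum_nonneg fun k _ => X.lw0 k
        gcongr 4 * ?_ + 4 * ?_ + 4 * ?_ * ?_ + 4 * ?_ * ?_
    _ = 16 * (lam ^ 22 * x ^ 3) := by ring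
    _ ≤ lam * (lam ^ 22 * x ^ 3) := by gcongr; linarith
    _ = _ := by ring

/-- **the square sum of the tolerance** -/
theorem sum_ta : ∑ k ∈ Ico k0 S.Jp, lw M k * ta S M x T k ^ 2 ≤ lam ^ 30 * x ^ 3 := by
  have P0 := X.P0
  have big := X.big
  rw [← sum_Ico_consecutive _ I.k0J.le X.JJ.le]
  have e1 : ∑ k ∈ Ico k0 S.J, lw M k * ta S M x T k ^ 2 =
      ∑ k ∈ Ico k0 S.J, lw M k * (T k + √(x ^ 3)) ^ 2 :=
    sum_congr rfl fun k hk => by rw [ta, if_pos (mem_Ico.1 hk).2]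
  have e2 : ∑ k ∈ Ico S.J S.Jp, lw M k * ta S M x T k ^ 2 =
      ∑ k ∈ Ico S.J S.Jp, lw M k * tq S M x k ^ 2 :=
    sum_congr rfl fun k hk => by
      rw [ta, if_neg (mem_Ico.1 hk).1.not_gt, min_eq_left (mem_Ico.1 hk).2.le]
  rw [e1, e2]
  have f1 : lam ^ 23 * x ^ 3 ≤ lam ^ 29 * x ^ 3 := by gcongr; exacts [X.l1, by norm_num]
  have f2 : lam ^ 7 * x ^ 3 ≤ lam ^ 29 * x ^ 3 := by gcongr; exacts [X.l1, by norm_num]
  have f3 : 2 * (lam ^ 29 * x ^ 3) ≤ lam * (lam ^ 29 * x ^ 3) := by gcongr; linarith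
  have := X.sum_sl I Y
  have := X.sum_tq
  linarith

end Ex

end Crest.Agent.T156.Alt.R62.Eq78

end
end

-- ▼ part T156/EnR_78

/-!
# Row 156 (helper78): the top zone of a model with a short plateau; the frame of block Q
-/

set_option autoImplicit false
set_option linter.unusedSectionVars false
set_option linter.unusedVariables false
set_option maxHeartbeats 400000

noncomputable section

namespace Crest.Agent.T156.Alt.R62.Eq78

open Real Finset Filter
open Crest.Agent.T156.Alt.C33 Crest.Agent.T156.Alt.Md67 Crest.Agent.T156.Alt.Pl57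

/-- the windows on the block -/
def ro (S : Sc) (M : Md) (x lm : ℝ) (T : ℕ → ℝ) (k : ℕ) : ℝ :=
  if k < S.J then min (ta S M x T k / (8 * S.C)) (rq S M x lm S.J + ((S.J : ℝ) - k) * S.v / 2)
  else rq S M x lm (min k S.Jp)

namespace Ex

variable {lam : ℝ} {S : Sc} {M : Md} {m : ℕ} {a x lm γ : ℝ} (X : Ex lam S M m a x lm γ)
include X

theorem w0 : 0 < S.w3 1 := X.F.w3_pos one_pos

theorem l30 : 4096 * S.C ^ 4 ≤ lam ^ 30 := by
  have := X.big
  have := X.h.C0
  calc _ ≤ lam ^ 2 * lam ^ 4 := by gcongr; exacts [by nlinarith, X.Cl]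
    _ = lam ^ 6 := by ring
    _ ≤ _ := X.pw (by norm_num)

theorem rr : lm = 16 * S.C ^ 2 * r0 S lm := by
  have := X.h.C0
  unfold r0; field_simp

theorem g3 : 16 * (S.w3 1 * γ) ≤ r0 S lm ^ 2 * (x * S.u0) := by
  have e := X.h3
  have C0 := X.h.C0
  have e1 := mul_le_mul_of_nonneg_right X.l30 (mul_pos X.w0 X.γ0).le
  rw [show lm ^ 2 = (16 * S.C ^ 2 * r0 S lm) ^ 2 by rw [← X.rr]] at e
  refine le_of_mul_le_mul_left (a := 256 * S.C ^ 4) ?_ (by positivity)
  linarith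

theorem g4 : 16 * (S.w3 1 * γ) ≤ r0 S lm ^ 2 * x ^ 3 := by
  have e := X.h4
  have C0 := X.h.C0
  have e1 := mul_le_mul_of_nonneg_right X.l30 (mul_pos X.w0 X.γ0).le
  rw [show lm ^ 2 = (16 * S.C ^ 2 * r0 S lm) ^ 2 by rw [← X.rr]] at e
  refine le_of_mul_le_mul_left (a := 256 * S.C ^ 4) ?_ (by positivity)
  linarith

theorem g5 : 16 * S.w3 1 ≤ r0 S lm ^ 2 * x := by
  refine le_of_mul_le_mul_right ?_ X.γ0
  have := X.x0
  have e : r0 S lm ^ 2 * (x * S.u0) ≤ r0 S lm ^ 2 * (x * γ) := by gcongr; exact X.uγ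
  linarith [X.g3]

theorem g6 : 256 * (S.C ^ 2 * S.w3 1) ≤ r0 S lm * x ^ 3 := by
  have r := X.r00
  have P := X.P0
  have C0 := X.h.C0
  have w := X.w0
  refine le_of_mul_le_mul_right ?_ r
  have e : S.w3 1 * (16 * S.C ^ 2 * r0 S lm) ≤ S.w3 1 * γ := by gcongr; rw [← X.rr]; exact X.lmγ
  linarith [X.g4]

theorem g7 : 256 * S.w3 1 ≤ r0 S lm * x ^ 3 := by
  have := mul_le_mul_of_nonneg_right (one_le_pow₀ (n := 2) X.h.C1) X.w0.le
  linarith [X.g6]

theorem rx : 16 * r0 S lm ≤ x := X.r0c.2.trans X.bx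

theorem tq1 {k : ℕ} (h : S.Jp ≤ k) : 1 ≤ tq S M x k := by
  by_contra hh
  have := X.far (X.JJ.le.trans h) (not_le.1 hh)
  omega

theorem duJ3 : 3 * x ^ 3 ≤ du M S.J := by
  have C1 := X.h.C1
  have e2 : S.C * x ≤ S.C ^ 4 * x :=
    mul_le_mul_of_nonneg_right (le_self_pow₀ C1 (by norm_num)) X.x0.le
  refine le_of_mul_le_mul_left ?_ X.h.C0
  nlinarith [X.duJ, X.Cx, mul_le_mul_of_nonneg_left X.Px.2 X.h.C0.le, mul_pos X.h.C0 X.x0]

/-- the mass clause on the plateau -/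
theorem plm {k : ℕ} (h0 : S.J ≤ k) (h1 : k < S.Jp) (hu : 3 * x ^ 3 ≤ du M k) :
    S.w3 1 * S.den (M.z (k - 1)) ≤ tq S M x k * rq S M x lm k ^ 2 := by
  have x0 := X.x0
  have P0 := X.P0
  have r := X.r00
  have u0 := X.u0
  have w := X.w0
  have d0 := X.dl0 h0
  have A0 : 0 ≤ uA S M x k := sqrt_nonneg _
  have B0 : 0 ≤ uB M x k := sqrt_nonneg _
  have t := X.tq_ge h0
  have l2 := (X.lsb k h0 h1).2
  have ub : S.u0 ≤ √(x ^ 3) := X.uγ.trans X.γb
  have q0 : 0 ≤ r0 S lm / x := by positivity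
  have ds : 0 < min (dl S M k) (du M k) := lt_min (by linarith) (by linarith)
  refine le_of_mul_le_mul_right ?_ ds
  have e0 : S.w3 1 * S.den (M.z (k - 1)) * min (dl S M k) (du M k) ≤ S.w3 1 * γ := by
    rw [mul_assoc]; gcongr; exact l2
  refine e0.trans ?_
  have g3 : 16 * (S.w3 1 * γ) ≤ (r0 S lm / x) ^ 2 * (x ^ 3 * S.u0) :=
    X.g3.trans_eq (by field_simp)
  rcases le_total (dl S M k) (du M k) with c | c
  · rw [min_eq_left c]
    have e1 : x ^ 3 * S.u0 ≤ 8 * (uA S M x k ^ 3 * dl S M k) := by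
      rcases le_total (dl S M k) x with c' | c'
      · have := X.uA_ge h0 (y := x / 2) (z := 2 * x) (by linarith) (by nlinarith)
        calc _ = 8 * ((x / 2) ^ 3 * S.u0) := by ring
          _ ≤ _ := by gcongr
      · have e := X.uA_sq h0
        have e2 : x ^ 3 ≤ 2 * (uA S M x k ^ 2 * dl S M k) := by nlinarith [sq_nonneg (uA S M x k)]
        have e3 : S.u0 ≤ 2 * uA S M x k := by linarith [X.uA_b h0]
        calc _ ≤ 2 * (uA S M x k ^ 2 * dl S M k) * (2 * uA S M x k) :=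
              mul_le_mul e2 e3 u0.le (P0.le.trans e2)
          _ ≤ _ := by nlinarith [mul_nonneg (pow_nonneg A0 3) (u0.le.trans d0)]
    calc _ ≤ (r0 S lm / x) ^ 2 * (8 * (uA S M x k ^ 3 * dl S M k)) := by
          nlinarith [mul_le_mul_of_nonneg_left e1 (sq_nonneg (r0 S lm / x)), mul_pos w X.γ0]
      _ = 8 * uA S M x k * (r0 S lm / x * uA S M x k) ^ 2 * dl S M k := by ring
      _ ≤ _ := by gcongr; exacts [by linarith, by linarith, by linarith, X.rq_A]
  · rw [min_eq_right c]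
    have e := X.uB_sq k
    have e2 : x ^ 3 ≤ 2 * (uB M x k ^ 2 * du M k) := by nlinarith [sq_nonneg (uB M x k)]
    have m0 : 0 ≤ min (uB M x k) x := le_min B0 x0.le
    refine le_trans ?_ (show 8 * uB M x k * (r0 S lm / x * min (uB M x k) x) ^ 2 * du M k ≤ _ by
      gcongr; exacts [by linarith, by linarith, by linarith, X.rq_B])
    rcases le_total (uB M x k) x with c' | c'
    · rw [min_eq_left c']
      have e3 : S.u0 ≤ 2 * uB M x k := by linarith [X.uB_b k]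
      have e1 : x ^ 3 * S.u0 ≤ 2 * (uB M x k ^ 2 * du M k) * (2 * uB M x k) :=
        mul_le_mul e2 e3 u0.le (P0.le.trans e2)
      nlinarith [mul_le_mul_of_nonneg_left e1 (sq_nonneg (r0 S lm / x)), mul_pos w X.γ0]
    · rw [min_eq_right c', div_mul_cancel₀ _ x0.ne']
      have e3 : uB M x k ^ 2 * du M k ≤ uB M x k * du M k :=
        mul_le_mul_of_nonneg_right (by nlinarith [X.uB_le k]) (X.du0 k)
      nlinarith [X.g4, mul_le_mul_of_nonneg_left e2 (sq_nonneg (r0 S lm)),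
        mul_le_mul_of_nonneg_left e3 (sq_nonneg (r0 S lm)), mul_pos w X.γ0]

section frame
variable {kb n k0 : ℕ} (I : Ix S M x kb n k0) {T : ℕ → ℝ} (Y : TT S M m a x k0 T)
include I Y

omit X I Y in
theorem ta_lo {k : ℕ} (h : k < S.J) : ta S M x T k = T k + √(x ^ 3) := if_pos h
omit X I Y in
theorem ta_hi {k : ℕ} (h : S.J ≤ k) : ta S M x T k = tq S M x (min k S.Jp) := if_neg h.not_gt
omit X I Y in
theorem ro_lo {k : ℕ} (h : k < S.J) : ro S M x lm T k =
    min (ta S M x T k / (8 * S.C)) (rq S M x lm S.J + ((S.J : ℝ) - k) * S.v / 2) := if_pos h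
omit X I Y in
theorem ro_hi {k : ℕ} (h : S.J ≤ k) : ro S M x lm T k = rq S M x lm (min k S.Jp) := if_neg h.not_gt

omit I Y in
theorem mJ {k : ℕ} (h : S.J ≤ k) : S.J ≤ min k S.Jp := le_min h X.JJ.le

theorem ta_b {k : ℕ} (h0 : k0 ≤ k) : √(x ^ 3) ≤ ta S M x T k := by
  rcases lt_or_ge k S.J with c | c
  · rw [ta_lo c]; linarith [Y.loc k h0 c, abs_nonneg (M.del m a k)]
  · rw [ta_hi c]; exact X.tq_b (X.mJ c)

theorem ta0 {k : ℕ} (h0 : k0 ≤ k) : 0 < ta S M x T k := X.b0.trans_le (X.ta_b I Y h0)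

theorem ta_le (k : ℕ) : ta S M x T k ≤ 33 * S.C := by
  have C1 := X.h.C1
  rcases lt_or_ge k S.J with c | c
  · rw [ta_lo c]; linarith [Y.le k, X.tq_le le_rfl, X.bx, X.x1]
  · rw [ta_hi c]; linarith [X.tq_le (X.mJ c)]

theorem ta_sl {k : ℕ} (c : k < S.J) : ta S M x T k ≤ 33 * (S.C ^ 2 * x) := by
  have := mul_le_mul_of_nonneg_right (one_le_pow₀ (n := 2) X.h.C1) X.x0.le
  rw [ta_lo c]; linarith [Y.le k, X.tqJ.2, X.bx]

theorem ta_J {k : ℕ} (c : k < S.J) :
    tq S M x S.J ≤ ta S M x T k + 4 * S.C * (((S.J : ℝ) - k) * S.v) := by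
  have e := Y.lip S.J k
  have f : (k : ℝ) ≤ S.J := by exact_mod_cast c.le
  rw [abs_of_nonneg (by linarith)] at e
  rw [ta_lo c]; linarith [Y.top, X.b0]

theorem ta_lip {i k : ℕ} (c : k < S.J) (c' : i < S.J) :
    ta S M x T i ≤ ta S M x T k + 4 * S.C * (|(i : ℝ) - k| * S.v) := by
  rw [ta_lo c, ta_lo c']; linarith [Y.lip i k]

theorem ro_sl {k : ℕ} (h0 : k0 ≤ k) (c : k < S.J) :
    r0 S lm / 2 ≤ ro S M x lm T k ∧ 8 * S.C * ro S M x lm T k ≤ ta S M x T k ∧
      ro S M x lm T k ≤ 2 * r0 S lm + ((S.J : ℝ) - k) * S.v / 2 := by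
  have C0 := X.h.C0
  have v0 := X.h.v0
  have f : (0 : ℝ) ≤ S.J - k := by rw [sub_nonneg]; exact_mod_cast c.le
  rw [ro_lo c]
  refine ⟨le_min ?_ ?_, ?_, (min_le_right _ _).trans (by linarith [X.rq_le le_rfl])⟩
  · rw [le_div_iff₀ (by positivity)]
    linarith [X.r0c.1, X.ta_b I Y h0, X.b0]
  · linarith [X.rqJ, mul_nonneg f v0.le]
  · rw [← le_div_iff₀' (by positivity)]; exact min_le_left _ _

theorem ro_b {k : ℕ} (h0 : k0 ≤ k) : r0 S lm * √(x ^ 3) / 2 ≤ ro S M x lm T k := by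
  have r := X.r00
  have x0 := X.x0
  have b := X.b0
  rcases lt_or_ge k S.J with c | c
  · nlinarith [(X.ro_sl I Y h0 c).1, X.bx, X.x1]
  · rw [ro_hi c]
    refine le_trans ?_ (X.rq_b (X.mJ c))
    rw [mul_div_assoc]
    gcongr
    exact le_div_self r.le x0 X.x1

theorem ro0 {k : ℕ} (h0 : k0 ≤ k) : 0 < ro S M x lm T k := by
  have r := X.r00
  have b := X.b0
  exact lt_of_lt_of_le (by positivity) (X.ro_b I Y h0)

theorem ro_ta {k : ℕ} (h0 : k0 ≤ k) : ro S M x lm T k ≤ ta S M x T k := by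
  rcases lt_or_ge k S.J with c | c
  · nlinarith [(X.ro_sl I Y h0 c).2.1, X.ro0 I Y h0, X.h.C1]
  · rw [ro_hi c]
    linarith [X.rq_le (X.mJ c), X.ta_b I Y h0, X.r0c.2, X.r00]

theorem ro1 {k : ℕ} (h0 : k0 ≤ k) : ro S M x lm T k ≤ 1 := by
  have C1 := X.h.C1
  rcases lt_or_ge k S.J with c | c
  · have e2 : S.C ^ 2 * x ≤ S.C ^ 4 * x :=
      mul_le_mul_of_nonneg_right (pow_le_pow_right₀ C1 (by norm_num)) X.x0.le
    linarith [X.ro_ta I Y h0, X.ta_sl I Y c, X.Cx, mul_pos (pow_pos X.h.C0 4) X.x0]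
  · rw [ro_hi c]
    linarith [X.rq_le (X.mJ c), X.rx, X.x1, X.r00]

theorem w4 {k : ℕ} (h0 : k0 ≤ k) : S.w3 1 ≤ √(x ^ 3) * ro S M x lm T k := by
  have e := mul_le_mul_of_nonneg_left (X.ro_b I Y h0) X.b0.le
  have e1 := mul_self_sqrt X.P0.le
  nlinarith [X.g7, X.w0, X.r00]

theorem ro_lip {k : ℕ} (h0 : k0 ≤ k) : |ro S M x lm T (k + 1) - ro S M x lm T k| ≤ S.v := by
  have C0 := X.h.C0
  have v0 := X.h.v0
  have JJ := X.JJ
  rcases lt_or_ge (k + 1) S.J with c | c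
  · rw [ro_lo c, ro_lo (show k < S.J by omega)]
    refine (abs_min_sub_min_le_max _ _ _ _).trans (max_le ?_ ?_)
    · have e1 := X.ta_lip I Y c (show k < S.J by omega)
      have e2 := X.ta_lip I Y (show k < S.J by omega) c
      simp only [Nat.cast_add, Nat.cast_one, add_sub_cancel_left, sub_add_cancel_left, abs_neg,
        abs_one, one_mul] at e1 e2
      rw [← sub_div, abs_div, abs_of_pos (show 0 < 8 * S.C by positivity),
        div_le_iff₀ (by positivity)]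
      exact abs_le.2 ⟨by nlinarith [mul_pos C0 v0], by nlinarith [mul_pos C0 v0]⟩
    · push_cast
      exact abs_le.2 ⟨by linarith, by linarith⟩
  rcases lt_or_ge k S.J with c' | c'
  · have e : S.J = k + 1 := by omega
    have e1 := X.ta_J I Y c'
    have f : (S.J : ℝ) - k = 1 := by rw [e]; push_cast; ring
    rw [ro_hi c, ro_lo c', ← e, min_eq_left JJ.le, f]
    rw [f] at e1
    have e2 : rq S M x lm S.J - S.v / 2 ≤ ta S M x T k / (8 * S.C) := by
      rw [le_div_iff₀ (by positivity)]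
      have : rq S M x lm S.J ≤ x := by linarith [X.rq_le le_rfl, X.rx, X.r00]
      nlinarith [X.tqJ.1, mul_le_mul_of_nonneg_left this C0.le]
    have e3 := min_le_right (ta S M x T k / (8 * S.C)) (rq S M x lm S.J + 1 * S.v / 2)
    have e4 : rq S M x lm S.J - S.v / 2 ≤
        min (ta S M x T k / (8 * S.C)) (rq S M x lm S.J + 1 * S.v / 2) := le_min e2 (by linarith)
    exact abs_le.2 ⟨by linarith, by linarith⟩
  rw [ro_hi c, ro_hi c']
  rcases lt_or_ge k S.Jp with d | d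
  · rw [min_eq_left d.le, min_eq_left (show k + 1 ≤ S.Jp by omega)]
    exact X.rq_lip c' d
  · rw [min_eq_right d, min_eq_right (show S.Jp ≤ k + 1 by omega), sub_self, abs_zero]
    exact v0.le

/-- a small tolerance on the plateau -/
theorem sm {k : ℕ} (c : S.J ≤ k) (h : ta S M x T k < 1) : 3 * x ^ 3 ≤ du M k ∧ k < S.Jp ∧
    ta S M x T k = tq S M x k ∧ ro S M x lm T k = rq S M x lm k := by
  rw [ta_hi c] at h ⊢
  rw [ro_hi c]
  have e := X.far (X.mJ c) h
  have e1 : min k S.Jp = k := by omega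
  rw [e1] at e ⊢
  exact ⟨e.1, e.2, rfl, rfl⟩

theorem nr {k i : ℕ} (c : S.J ≤ k) (hd : |(i : ℝ) - k| * S.v ≤ 2 * r0 S lm) :
    ta S M x T i ≤ 33 * S.C * ta S M x T k := by
  have C1 := X.h.C1
  have v0 := X.h.v0
  have t0 := X.ta0 I Y (I.k0J.le.trans c)
  rcases le_or_gt 1 (ta S M x T k) with d | d
  · nlinarith [X.ta_le I Y i]
  obtain ⟨e1, e2, e3, -⟩ := X.sm I Y c d
  rcases lt_or_ge i S.J with c' | c'
  · have f1 : (i : ℝ) ≤ S.J := by exact_mod_cast c'.le
    have f2 : (S.J : ℝ) ≤ k := by exact_mod_cast c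
    have e := X.tq_shell le_rfl c (X.shp c e1 le_rfl (le_trans (by
      gcongr ?_ * _
      rw [abs_of_nonpos (by linarith), abs_of_nonpos (by linarith)]; linarith) hd)).2
    rw [ta_lo c']
    nlinarith [Y.le i, X.tq_b c]
  · obtain ⟨e4, e5⟩ := X.shp c e1 c' hd
    rw [ta_hi c', min_eq_left e4.le]
    nlinarith [X.tq_shell c' c e5]

theorem fw {k i : ℕ} (h0 : k0 ≤ k) (h : k ≤ i)
    (hd : ((i : ℝ) - k) * S.v ≤ max (ro S M x lm T k) (r0 S lm / 2)) :
    ta S M x T i ≤ 33 * S.C * ta S M x T k := by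
  have C1 := X.h.C1
  have v0 := X.h.v0
  have r := X.r00
  have t0 := X.ta0 I Y h0
  have f : (0 : ℝ) ≤ i - k := by rw [sub_nonneg]; exact_mod_cast h
  rcases lt_or_ge k S.J with c | c
  · obtain ⟨e1, e2, e3⟩ := X.ro_sl I Y h0 c
    rw [max_eq_left e1] at hd
    have e4 := mul_le_mul_of_nonneg_left hd (show 0 ≤ 4 * S.C by linarith)
    rcases lt_or_ge i S.J with c' | c'
    · have e := X.ta_lip I Y c c'
      rw [abs_of_nonneg f] at e
      nlinarith
    · have f1 : (k : ℝ) ≤ S.J := by exact_mod_cast c.le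
      have f2 : (S.J : ℝ) ≤ i := by exact_mod_cast c'
      obtain ⟨e5, e6⟩ := X.shp le_rfl X.duJ3 c' (by
        rw [abs_of_nonneg (by linarith)]
        nlinarith [mul_nonneg (sub_nonneg.2 f1) v0.le])
      have e7 := X.tq_shell c' le_rfl e6
      have e8 := X.ta_J I Y c
      have e9 : 4 * S.C * (((S.J : ℝ) - k) * S.v) ≤ 4 * S.C * (((i : ℝ) - k) * S.v) := by gcongr
      rw [ta_hi c', min_eq_left e5.le]
      nlinarith
  · refine X.nr I Y c ?_
    rw [abs_of_nonneg f]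
    refine hd.trans (max_le ?_ (by linarith))
    rw [ro_hi c]; exact X.rq_le (X.mJ c)

theorem dn {i k : ℕ} (h0 : k0 ≤ i) (h : i ≤ k) : ta S M x T i * ro S M x lm T k ≤
    34 * S.C ^ 2 * ta S M x T k * (ro S M x lm T k + ((k : ℝ) - i) * S.v) := by
  have C1 := X.h.C1
  have C2 : S.C ≤ S.C ^ 2 := le_self_pow₀ C1 (by norm_num)
  have v0 := X.h.v0
  have r := X.r00
  have t0 := X.ta0 I Y (h0.trans h)
  have r1 := X.ro0 I Y (h0.trans h)
  have f : (0 : ℝ) ≤ k - i := by rw [sub_nonneg]; exact_mod_cast h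
  have fv := mul_nonneg f v0.le
  have p1 := mul_pos t0 r1
  have p2 := mul_nonneg t0.le fv
  have p3 := mul_le_mul_of_nonneg_right (C1.trans C2) p1.le
  have p4 := mul_le_mul_of_nonneg_right (C1.trans C2) p2
  rcases lt_or_ge k S.J with c | c
  · have e := X.ta_lip I Y c (show i < S.J by omega)
    rw [abs_sub_comm, abs_of_nonneg f] at e
    have e1 := mul_le_mul_of_nonneg_right e r1.le
    have e2 := mul_le_mul_of_nonneg_right (X.ro_sl I Y (h0.trans h) c).2.1 fv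
    nlinarith
  rcases le_total (((k : ℝ) - i) * S.v) (r0 S lm) with d | d
  · have e := X.nr I Y (i := i) c (by rw [abs_sub_comm, abs_of_nonneg f]; linarith)
    have e1 := mul_le_mul_of_nonneg_right e r1.le
    have e2 := mul_le_mul_of_nonneg_right C2 p1.le
    nlinarith
  · have e : ta S M x T i ≤ 33 * (S.C ^ 2 * x) + ta S M x T k := by
      rcases lt_or_ge i S.J with c' | c'
      · linarith [X.ta_sl I Y c']
      · rw [ta_hi c', ta_hi c]
        have a1 := X.uA_le (X.mJ c')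
        have a2 := X.uB_mono (i := min i S.Jp) (k := min k S.Jp) (by omega)
        have a3 : 0 ≤ uA S M x (min k S.Jp) := sqrt_nonneg _
        have a4 := mul_le_mul_of_nonneg_right C2 X.x0.le
        unfold tq
        nlinarith [mul_pos X.h.C0 X.x0]
    have e1 : x * ro S M x lm T k ≤ r0 S lm * ta S M x T k := by
      rw [ro_hi c, ta_hi c]; exact X.rq_tq (X.mJ c)
    have e2 := mul_le_mul_of_nonneg_right e r1.le
    have e3 := mul_le_mul_of_nonneg_left (e1.trans (mul_le_mul_of_nonneg_right d t0.le))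
      (sq_nonneg S.C)
    nlinarith

/-- the mass clause on the slope -/
theorem slm {k : ℕ} (h0 : k0 ≤ k) (c : k < S.J) :
    S.w3 1 ≤ ta S M x T k * ro S M x lm T k ^ 2 := by
  have C1 := X.h.C1
  have C0 := X.h.C0
  have v0 := X.h.v0
  have r := X.r00
  have x0 := X.x0
  have b0 := X.b0
  have t0 := X.ta0 I Y h0
  rcases le_total (((S.J : ℝ) - k) * S.v) x with d | d
  · have e1 := X.ta_J I Y c
    have e2 : x ≤ ta S M x T k := by
      nlinarith [X.tqJ.1, mul_le_mul_of_nonneg_left d C0.le]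
    calc _ ≤ x * (r0 S lm / 2) ^ 2 := by nlinarith [X.g5, X.w0]
      _ ≤ _ := by gcongr; exact (X.ro_sl I Y h0 c).1
  · have e : √(x ^ 3) / (8 * S.C) ≤ ro S M x lm T k := by
      rw [ro_lo c]
      refine le_min (by gcongr; exact X.ta_b I Y h0) ?_
      have : √(x ^ 3) / (8 * S.C) ≤ √(x ^ 3) / 2 := by gcongr; linarith
      linarith [X.rqJ, X.bx]
    calc _ ≤ √(x ^ 3) * (√(x ^ 3) / (8 * S.C)) ^ 2 := by
          rw [div_pow, sq_sqrt X.P0.le, ← mul_div_assoc, le_div_iff₀ (by positivity)]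
          nlinarith [X.g6, mul_le_mul_of_nonneg_right X.r0c.2 X.P0.le, mul_pos r X.P0]
      _ ≤ _ := by gcongr; exact X.ta_b I Y h0

theorem den {k y : ℕ} (h0 : k0 ≤ k) (y0 : k0 < y) (hd : |(y : ℝ) - k| * S.v ≤ ro S M x lm T k) :
    1 ≤ ta S M x T k ∨
      S.w3 1 * S.v ≤ S.C ^ 3 * M.dz m a y * (ta S M x T k * ro S M x lm T k ^ 2) := by
  have h := X.h
  have C1 := h.C1
  have C0 := h.C0
  have v0 := h.v0
  have r := X.r00
  have x0 := X.x0
  have w := X.w0
  have t0 := X.ta0 I Y h0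
  have jl : S.jl < y := by have := I.jl; have := I.e0; omega
  have z0 := X.F.lg.dz_nonneg (m := m) (a := a) y
  have lo : y < S.J → S.w3 1 ≤ ta S M x T k * ro S M x lm T k ^ 2 →
      S.w3 1 * S.v ≤ S.C ^ 3 * M.dz m a y * (ta S M x T k * ro S M x lm T k ^ 2) := fun c e =>
    (T57.den_lo (m := m) (a := a) h jl c (by positivity) v0.le e).trans (by
      gcongr; exact le_self_pow₀ C1 (by norm_num))
  have dz : M.dz m a y = M.z y - M.z (y - 1) := dz_up h.leg (by omega)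
  rcases lt_or_ge k S.J with c | c
  · right
    have e := X.slm I Y h0 c
    rcases lt_or_ge y S.J with c' | c'
    · exact lo c' e
    have f1 : (k : ℝ) ≤ S.J := by exact_mod_cast c.le
    have f2 : (S.J : ℝ) ≤ y := by exact_mod_cast c'
    rw [abs_of_nonneg (by linarith)] at hd
    obtain ⟨e5, e6⟩ := X.shp le_rfl X.duJ3 c' (by
      rw [abs_of_nonneg (by linarith)]
      nlinarith [mul_nonneg (sub_nonneg.2 f1) v0.le, (X.ro_sl I Y h0 c).2.2])
    have e1 := (step h le_rfl (x_lt h le_rfl X.JJ) c' e5 e6).1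
    rw [← dz] at e1
    calc _ ≤ ta S M x T k * ro S M x lm T k ^ 2 * (S.C ^ 2 * S.C * M.dz m a y) := by
          gcongr
          exact e1.trans (by gcongr; exact X.dj)
      _ = _ := by ring
  rcases le_or_gt 1 (ta S M x T k) with d | d
  · exact Or.inl d
  right
  obtain ⟨e1, e2, e3, e4⟩ := X.sm I Y c d
  have hd' : |(y : ℝ) - k| * S.v ≤ 2 * r0 S lm := hd.trans (by rw [e4]; exact X.rq_le c)
  rcases lt_or_ge y S.J with c' | c'
  · refine lo c' ?_
    have f1 : (y : ℝ) ≤ S.J := by exact_mod_cast c'.le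
    have f2 : (S.J : ℝ) ≤ k := by exact_mod_cast c
    have e := (X.shp c e1 le_rfl (le_trans (by
      gcongr ?_ * _
      rw [abs_of_nonpos (by linarith), abs_of_nonpos (by linarith)]; linarith) hd')).2
    have b3 : uu S M (M.z (k - 1)) ≤ dl S M k := min_le_left _ _
    have e5 := X.uA_ge c (y := x / 2) (z := 3 * x)
      (by have := (abs_le.1 e).1; have := X.up; unfold dl at *; linarith) (by nlinarith [X.P0])
    have e6 : r0 S lm / 2 ≤ rq S M x lm k :=
      calc _ = r0 S lm / x * (x / 2) := by field_simp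
        _ ≤ r0 S lm / x * uA S M x k := by gcongr
        _ ≤ _ := X.rq_A
    have B0 : 0 ≤ uB M x k := sqrt_nonneg _
    rw [e3, e4]
    calc _ ≤ x * (r0 S lm / 2) ^ 2 := by nlinarith [X.g5]
      _ ≤ _ := by
          have : x ≤ tq S M x k := by linarith [X.tq_ge c]
          exact mul_le_mul this (pow_le_pow_left₀ (by positivity) e6 2) (by positivity) (by linarith)
  · obtain ⟨e5, e6⟩ := X.shp c e1 c' hd'
    have e7 := (step h (x_ge h c) (x_lt h c e2) c' e5 e6).1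
    rw [← dz] at e7
    rw [e3, e4]
    calc _ ≤ S.w3 1 * (S.C ^ 2 * S.den (M.z (k - 1)) * M.dz m a y) := by gcongr
      _ = S.C ^ 2 * M.dz m a y * (S.w3 1 * S.den (M.z (k - 1))) := by ring
      _ ≤ _ := by
          have := h.den0 (M.z (k - 1))
          exact mul_le_mul (mul_le_mul_of_nonneg_right (pow_le_pow_right₀ C1 (by norm_num)) z0)
            (X.plm c e2 e1) (by positivity) (by positivity)

theorem qw {k1 : ℕ} (a1 : S.Jp ≤ k1) (a2 : k1 ≤ M.N)
    (a3 : ∀ k, S.Jp ≤ k → k < k1 → S.θ * S.v / (S.C * S.F) ≤ M.H (k + 1) - M.H k) :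
    QW (200 * S.C ^ 5) (200 * S.C ^ 5) S M m a 1 k0 k1 (fun k => M.q (min k S.Jp))
      (ro S M x lm T) (ta S M x T) := by
  have h := X.h
  have C1 := h.C1
  have C0 := h.C0
  have v0 := h.v0
  have kJ := I.k0J
  have JJ := X.JJ
  have i4 := h.i4
  have c5 : ∀ j ≤ 5, S.C ^ j ≤ S.C ^ 5 := fun j hj => pow_le_pow_right₀ C1 hj
  have C5 : S.C ≤ S.C ^ 5 := le_self_pow₀ C1 (by norm_num)
  have K1 : 1 ≤ 200 * S.C ^ 5 := by linarith
  have w0 := X.w0
  have b1 : √(x ^ 3) ≤ 1 := X.bx.trans X.x1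
  have wr : ∀ k, k0 ≤ k → S.w3 1 ≤ ro S M x lm T k := fun k hk =>
    (X.w4 I Y hk).trans (mul_le_of_le_one_left (X.ro0 I Y hk).le b1)
  refine ⟨⟨one_pos, by have := I.jl; have := I.e0; omega, by omega, by omega, a2, ?_,
      (h.leg.z1 _).trans (by linarith), ?_, fun k a' b => le_trans ?_ (a3 k a' b)⟩,
    T57.crude_top X.F.lg.m0 K1 (by linarith), h.q_nn (by omega), fun k a' b => ?_,
    fun k a' b => (X.ro_lip I Y a').trans (le_mul_of_one_le_left v0.le K1),
    fun k a' b => ?_, fun k a' _ => X.ro_ta I Y a', fun k a' b => ?_, fun k i a' b c d => ?_,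
    fun i k a' b c => (X.dn I Y a' b).trans ?_, fun k a' b => ?_, fun k y a' b c d e => ?_⟩
  · have e := X.T0_ge
    have e1 := I.sb.trans (h.sm (show kb ≤ k0 by have := I.e0; omega))
    have s0 := h.s_nn k0
    nlinarith [mul_le_mul_of_nonneg_left e1 (show 0 ≤ S.C ^ 4 by positivity),
      mul_le_mul_of_nonneg_right (c5 4 (by norm_num)) s0]
  · rw [one_pow]; exact (wr k0 le_rfl).trans (X.ro1 I Y le_rfl)
  · have := h.F1
    have := h.θ0
    gcongr
    exacts [h.ms1 _, le_mul_of_one_le_left C0.le K1]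
  · rcases lt_or_ge k S.Jp with c | c
    · obtain ⟨e1, e2⟩ := X.qs' k c
      simp only [min_eq_left c.le, min_eq_left (show k + 1 ≤ S.Jp by omega)]
      exact ⟨by linarith, by nlinarith⟩
    · simp only [min_eq_right c, min_eq_right (show S.Jp ≤ k + 1 by omega)]
      exact ⟨le_rfl, by nlinarith⟩
  · have n1 := X.F.n1
    have e1 : 1 ≤ S.n * S.w3 1 := by
      have m0 := h.ms_pos zero_le_one
      rw [Sc.w3, mul_one, ← mul_div_assoc, le_div_iff₀ (by positivity)]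
      nlinarith [X.F.ms_le_one 1, h.F1]
    exact e1.trans (by gcongr; exact wr k a')
  · rcases lt_or_ge k S.J with c | c
    · simp only [min_eq_left (show k ≤ S.Jp by omega), ta_lo c]
      exact (Y.loc k a' c).trans (by linarith [X.b0])
    rw [ta_hi c]
    rcases le_total k S.Jp with d | d
    · simp only [min_eq_left d]
      exact X.loc I c d
    · simp only [min_eq_right d]
      refine le_trans ?_ (X.tq1 le_rfl)
      have := rb_nonneg (M := M) (a := a) X.F.lg.m0 k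
      have := rb_le_one (M := M) (a := a) X.F.lg.m0 k
      have := h.q_nn i4.le
      have := Cl.q_le_one (M := M) S.Jp
      exact abs_le.2 ⟨by linarith, by linarith⟩
  · refine (X.fw I Y a' b (d.trans (le_max_left _ _))).trans ?_
    have := X.ta0 I Y a'
    gcongr ?_ * _
    linarith
  · have := X.ta0 I Y (a'.trans b)
    have := X.ro0 I Y (a'.trans b)
    have f : (0 : ℝ) ≤ k - i := by rw [sub_nonneg]; exact_mod_cast b
    gcongr ?_ * _ * _
    linarith [c5 2 (by norm_num)]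
  · rw [min_eq_left (X.ro1 I Y a'), mul_one]
    refine (X.w4 I Y a').trans ?_
    gcongr
    exacts [(X.ro0 I Y a').le, X.ta_b I Y a']
  · rw [min_eq_left (X.ro1 I Y a')]
    refine (X.den I Y a' c e).imp id fun f => f.trans ?_
    have := X.ta0 I Y a'
    have := X.F.lg.dz_nonneg (m := m) (a := a) y
    gcongr ?_ * _ * _
    linarith [c5 3 (by norm_num)]

omit Y in
theorem zn_mem {k : ℕ} (hk : k ∈ zn S M) :
    k0 ≤ k ∧ k < S.Jp ∧ 1 / (200 * S.C ^ 5) ≤ ((k : ℝ) - k0) * S.v := by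
  have h := X.h
  have C1 := h.C1
  have C0 := h.C0
  have v0 := h.v0
  have T := X.T0_ge
  have T1 := X.T0_pos
  obtain ⟨e1, e2⟩ := mem_filter.1 hk
  have e0 : ∀ j, T0 S M ≤ M.s j → k0 ≤ j := fun j a2 => by
    by_contra hh
    linarith [h.sm (not_le.1 hh).le, I.s0]
  have key : ∀ j, j ≤ S.J → T0 S M ≤ M.s j → 1 / (200 * S.C ^ 5) ≤ ((j : ℝ) - k0) * S.v :=
    fun j a1 a2 => by
      have e := (h.s_tel (e0 j a2) a1).2
      have e1 : T0 S M / 2 ≤ S.C * (((j : ℝ) - k0) * S.v) := by linarith [I.s0]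
      rw [div_le_iff₀ (by positivity)]
      nlinarith [mul_le_mul_of_nonneg_left e1 (show 0 ≤ S.C ^ 4 by positivity),
        mul_pos (pow_pos C0 4) T1]
  refine ⟨e0 k e2, mem_range.1 e1, ?_⟩
  rcases le_total k S.J with e | e
  · exact key k e e2
  · refine (key S.J le_rfl (by unfold T0 at *; linarith)).trans ?_
    gcongr

theorem pt {k : ℕ} (h0 : k0 ≤ k) (h1 : k < S.Jp) {u : ℝ} (hu : 0 < u) (h : u ≤ du M k) :
    ta S M x T k ≤ lam ^ 3 * (x + √(x ^ 3 / u)) := by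
  have C1 := X.h.C1
  have x0 := X.x0
  have s0 := sqrt_nonneg (x ^ 3 / u)
  have big := X.big
  refine le_trans ?_ (show 33 * S.C ^ 2 * (x + √(x ^ 3 / u)) ≤ _ by
    rw [pow_succ' lam 2]; gcongr; exacts [by linarith, X.Cl])
  rcases lt_or_ge k S.J with c | c
  · nlinarith [X.ta_sl I Y c, mul_nonneg (sq_nonneg S.C) s0]
  · rw [ta_hi c, min_eq_left h1.le, tq]
    have := X.uA_le c
    have := X.uB_u hu h
    have A0 : 0 ≤ uA S M x k := sqrt_nonneg _
    have B0 : 0 ≤ uB M x k := sqrt_nonneg _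
    exact mul_le_mul (by nlinarith) (by linarith) (by positivity) (by positivity)

theorem main {k1 j : ℕ} (a1 : S.Jp ≤ k1) (a2 : 1 / S.C ≤ ((k1 : ℝ) - S.Jp) * S.v)
    (Q : ∀ p, p = 4 ∨ p = j + 1 → QOW (200 * S.C ^ 5) (lam * (200 * S.C ^ 5)) p S M m a 1 k0 k1
      (fun k => M.q (min k S.Jp)) (ro S M x lm T) (ta S M x T))
    (hj : (S.n : ℝ) ^ (3 * (S.A + 1)) ≤ lam ^ j)
    (hs : ∑ k ∈ Ico k0 S.Jp, lw M k * ta S M x T k ^ 2 ≤ lam ^ 30 * x ^ 3) :
    EO (lam ^ 50) S M m a x fun k => lam ^ 9 * ta S M x T k := by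
  have h := X.h
  have C1 := h.C1
  have C0 := h.C0
  have v0 := h.v0
  have big := X.big
  have l1 := X.l1
  have P0 := X.P0
  have r := X.r00
  have jl : 0 < k0 := by have := I.jl; have := I.e0; omega
  have C5 : S.C ≤ S.C ^ 5 := le_self_pow₀ C1 (by norm_num)
  set K := 200 * S.C ^ 5 with hK
  have K1 : 1 ≤ K := by linarith
  have Kl : lam * K ≤ lam ^ 7 := by
    rw [show lam ^ 7 = lam * (lam * lam ^ 5) by ring, hK]
    gcongr
    exacts [by linarith, X.Cl]
  have pr : ∀ p, p = 4 ∨ p = j + 1 → ∀ k ∈ zn S M, M.E2 m a (fun R => (R - M.q k) ^ (2 * p)) k ≤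
      (lam * K * (2 * ta S M x T k)) ^ (2 * p) := fun p hp k hk => by
    obtain ⟨e1, e2, e3⟩ := X.zn_mem I hk
    have t0 := X.ta0 I Y e1
    have r1 := X.ro0 I Y e1
    have f : (k : ℝ) ≤ S.Jp := by exact_mod_cast e2.le
    have e := (Q p hp).pair k (r0 S lm / 2) ⟨e3, le_trans (by gcongr; linarith) (a2.trans (by
      gcongr))⟩ (by linarith) (by linarith) fun i b c d => by
        have f : (0 : ℝ) ≤ i - k := by rw [sub_nonneg]; exact_mod_cast b
        calc _ ≤ 33 * S.C * ta S M x T k * ro S M x lm T k := by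
              gcongr; exact X.fw I Y e1 b (d.trans (le_max_right _ _))
          _ ≤ _ := by gcongr; exacts [by linarith, le_add_of_nonneg_right (by positivity)]
    simp only [min_eq_left e2.le] at e
    refine e.trans ?_
    have e4 : √(S.w3 1 / min (r0 S lm / 2) 1) ≤ √(x ^ 3) := by
      rw [min_eq_left (by linarith [X.rx, X.x1])]
      gcongr
      rw [div_le_iff₀ (by positivity)]
      linarith [X.g7, X.w0]
    gcongr
    linarith [X.ta_b I Y e1]
  have g : ∀ k ∈ zn S M, lam * (lam * K * (2 * ta S M x T k)) ≤ lam ^ 9 * ta S M x T k :=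
    fun k hk => by
      have t0 := X.ta0 I Y (X.zn_mem I hk).1
      calc _ = 2 * lam * (lam * K) * ta S M x T k := by ring
        _ ≤ lam * lam * lam ^ 7 * ta S M x T k := by gcongr; linarith
        _ = _ := by ring
  refine ⟨fun k hk => ?_, fun k hk => (pr 4 (Or.inl rfl) k hk).trans ?_, fun k hk => ?_, ?_,
    fun k hk u hu hd => ?_⟩
  · have t0 := X.ta0 I Y (X.zn_mem I hk).1
    positivity
  · have t0 := X.ta0 I Y (X.zn_mem I hk).1
    exact pow_le_pow_left₀ (by positivity)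
      ((le_mul_of_one_le_left (by positivity) l1).trans (g k hk)) _
  · have t0 := X.ta0 I Y (X.zn_mem I hk).1
    have B0 : 0 < lam * K * (2 * ta S M x T k) := by positivity
    rcases le_total (lam * K * (2 * ta S M x T k)) 1 with c | c
    · refine (CIn12.env_pair' (l := lam) B0 (by positivity) (by simpa using g k hk)
        (pr _ (Or.inr rfl) k hk)).trans ?_
      have n1 := X.F.n1
      calc _ ≤ 1 / lam ^ j := by gcongr; omega
        _ ≤ _ := by rw [one_div]; exact inv_anti₀ (by positivity) hj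
    · refine (CIn12.env_triv ?_).trans (CIn12.tlD_nn S 3)
      rw [abs_of_nonneg (h.q_nn (by have := (X.zn_mem I hk).2.1; have := h.i4; omega))]
      nlinarith [Cl.q_le_one (M := M) k, g k hk]
  · calc _ = lam ^ 18 * ∑ k ∈ zn S M, lw M k * ta S M x T k ^ 2 := by
          rw [mul_sum]
          refine sum_congr rfl fun k hk => ?_
          rw [dz_up h.leg (by have := (X.zn_mem I hk).1; omega), lw]
          ring
      _ ≤ lam ^ 20 * (lam ^ 30 * x ^ 3) := by
          refine mul_le_mul (X.pw (by norm_num)) (le_trans (sum_le_sum_of_subset_of_nonneg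
            (fun k hk => mem_Ico.2 ⟨(X.zn_mem I hk).1, (X.zn_mem I hk).2.1⟩) fun y hy _ => ?_) hs)
            (sum_nonneg fun y hy => ?_) (by positivity) <;>
            exact mul_nonneg (X.lw0 y) (sq_nonneg _)
      _ = _ := by ring
  · obtain ⟨e1, e2, -⟩ := X.zn_mem I hk
    have x0 := X.x0
    calc _ ≤ lam ^ 9 * (lam ^ 3 * (x + √(x ^ 3 / u))) := by gcongr; exact X.pt I Y e1 e2 hu hd
      _ = lam ^ 12 * (x + √(x ^ 3 / u)) := by ring
      _ ≤ _ := by gcongr; norm_num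

end frame

end Ex

/-- the envelope on the slope and its sum -/
def SumS : Prop := ∀ {lam : ℝ} {S : Sc} {M : Md} {m : ℕ} {a x lm γ : ℝ} {kb n k0 : ℕ},
  Ex lam S M m a x lm γ → Ix S M x kb n k0 → ∃ T, TT S M m a x k0 T ∧
    ∑ k ∈ Ico k0 S.Jp, lw M k * ta S M x T k ^ 2 ≤ lam ^ 30 * x ^ 3

theorem eqS_of (hS : SumS) : EqS := by
  intro C
  filter_upwards [eventually_ge_atTop 2] with A hA ε hε η hη
  set η' := min (min ε η) 1 / 100 with hη'
  have e0 : 0 < η' := by positivity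
  set j : ℕ := ⌈((3 * (A + 1) : ℕ) : ℝ) / η'⌉₊ with hj
  filter_upwards [T57.qGenWU (le_max_left 1 (200 * C ^ 5)) C hA e0 4,
    T57.qGenWU (le_max_left 1 (200 * C ^ 5)) C hA e0 (j + 1), ev_rgc C hA e0 0, ev_fn C hA]
    with n a1 a1' a2 a3 S M e1 e2 e3 h m a I x lm γ H
  have Q' := a1' S M e1 e2 e3 h m a I
  have G := a2 S e1 e2 e3
  have F := a3 S M e1 e2 e3 h m a I
  have Q := a1 S M e1 e2 e3 h m a I
  subst e1 e2 e3
  have n1 := G.N1.le
  have pw : ∀ (j : ℕ) (x : ℝ), η' * j ≤ x → ((S.n : ℝ) ^ η') ^ j ≤ (S.n : ℝ) ^ x := fun j x hx => by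
    rw [← rpow_mul_natCast G.N0.le]; exact rpow_le_rpow_of_exponent_le n1 hx
  have m1 := min_le_left (min ε η) 1
  have m2 := min_le_right (min ε η) 1
  have m3 := min_le_left ε η
  have m4 := min_le_right ε η
  have E := pw 30 ε (by push_cast; linarith)
  have w0 := F.w3_pos one_pos
  have g0 := H.u0.trans_le H.uγ
  have x0 := H.x0
  have v0 := F.v0
  have X : Ex ((S.n : ℝ) ^ η') S M m a x lm γ :=
    ⟨{ H with
        xs := le_trans (by gcongr) H.xs
        fine := le_trans (by gcongr) H.fine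
        h3 := le_trans (by gcongr) H.h3
        h4 := le_trans (by gcongr) H.h4 }, F, G.num_le, G.C_le h, G.log_le, G.A_le, G.Cθ h⟩
  obtain ⟨kb, n, k0, J⟩ := X.ex_ix
  obtain ⟨T, Y, hs⟩ := hS X J
  obtain ⟨k1, b1, b2, b3, b4⟩ := H.rev
  rw [max_eq_right (by nlinarith [one_le_pow₀ (n := 5) h.C1])] at Q Q'
  have W := X.qw J Y b1 b2 b4
  have O := X.main J Y (j := j) b1 b3 (fun p hp => by
    rcases hp with rfl | rfl
    exacts [Q _ _ _ _ _ _ _ W, Q' _ _ _ _ _ _ _ W]) (by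
      rw [← rpow_mul_natCast G.N0.le, ← rpow_natCast]
      refine rpow_le_rpow_of_exponent_le n1 ?_
      have := Nat.le_ceil (((3 * (S.A + 1) : ℕ) : ℝ) / η')
      rw [div_le_iff₀ e0] at this
      linarith) hs
  have L := pw 50 η (by push_cast; linarith)
  exact ⟨_, O.pos, O.mom, O.env, O.s2.trans (by gcongr),
    fun k hk u hu hd => (O.pt k hk u hu hd).trans (by gcongr)⟩

theorem eqS : EqS := eqS_of fun X I => (X.ex_tt I).imp fun _ Y => ⟨Y, X.sum_ta I Y⟩

end Crest.Agent.T156.Alt.R62.Eq78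

end
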