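import Crest.Agent.T156.NetC_27

/-!
Row 156 (helper27): node data with free coefficients; the root anchored at `0`.
-/

set_option autoImplicit false

noncomputable section

namespace Crest.Agent.T156.Gap27

open MeasureTheory Set
open Crest.Agent.R164.GC Crest.Agent.R339.B Crest.Agent.R339.Var Crest.Agent.T157.Pf
open Crest.Agent.T156.L0 Crest.Agent.T156.Cut8 Crest.Agent.T156.Pp.Area50

variable {lb lh : List (ℝ × ℝ)} {T C b θ : ℝ}


end Crest.Agent.T156.Gap27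

namespace Crest.Agent.T156.Cut8

open MeasureTheory Set intervalIntegral

/-- extension downwards with the slow part anchored at `0` -/
theorem Res.low0 {T A B ρ0 : ℝ} {dz ρ H r1 r2 ω β ξ ξ' : ℝ → ℝ} (R : Res T dz ρ H r1 r2 ω β ξ A B)
    (hB : B ≤ T) (h0 : 0 ≤ ρ0) (ab : ∀ t, A ≤ t → t ≤ B → |r2 t| ≤ (∫ r in A..t, ω r) + ρ0 + β t)
    (lξ : LB T ξ') (hξ : ∀ t, 0 < t → t ≤ A → 0 ≤ ξ' t)
    (hp : ∀ t, 0 < t → t ≤ A → ρ t * dz t + ρ0 * |dz t| ≤ ξ' t) :
    Res T dz ρ (fun t => if t ≤ A then 0 else H t)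
      (fun t => if t ≤ A then ρ t else r1 t) (fun t => if t ≤ A then 0 else r2 t)
      (fun t => if t ≤ A then 0 else ω t) (fun t => if t ≤ A then ρ0 else β t)
      (fun t => if t ≤ A then ξ' t else ξ t) 0 B where
  lH := (LB.const 0).ite_le R.lH
  lω := (LB.const 0).ite_le R.lω
  lξ := lξ.ite_le R.lξ
  eq := fun t _ b => by
    split_ifs with e
    · ring
    · exact R.eq t (not_le.1 e) b
  ω_nn := fun t _ b => by
    split_ifs with e
    · exact le_rfl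
    · exact R.ω_nn t (not_le.1 e) b
  slow := fun s t a st tb => by
    by_cases es : s ≤ A
    · by_cases et : t ≤ A
      · rw [if_pos et, if_pos es, if_pos es, if_pos et,
          int_zero st fun r _ hr => if_pos (hr.le.trans et)]
        simp only [sub_self, abs_zero]
        linarith
      · rw [if_neg et, if_pos es, if_pos es, if_neg et, int_ite_le (LB.const 0) R.lω a es
          (not_le.1 et).le (tb.trans hB)]
        simpa using ab t (not_le.1 et).le tb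
    · have et : ¬t ≤ A := fun h => es (st.trans h)
      rw [if_neg et, if_neg es, if_neg es, if_neg et,
        integral_congr_Ioo_of_le st (g := ω) fun r hr =>
          if_neg (not_le.2 ((not_le.1 es).trans hr.1))]
      exact R.slow s t (not_le.1 es).le st tb
  H_nn := fun t _ b => by
    split_ifs with e
    · simp
    · exact R.H_nn t (not_le.1 e) b
  ξ_nn := fun t a b => by
    split_ifs with e
    · exact hξ t a e
    · exact R.ξ_nn t (not_le.1 e) b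
  pair := fun t a b => by
    split_ifs with e
    · exact hp t a e
    · exact R.pair t (not_le.1 e) b

variable {T : ℝ} {P : Type} {c C : ℝ} {ok : P → Prop} {z Γ G : P → ℝ → ℝ} {pb ph : P}

/-- the root term: the energy on `[0, l]` and the area below `l` -/
theorem Fr.root_area (F : Fr T c C ok z Γ G) (hb : ok pb) (hh : ok ph) {l ρ τ : ℝ} (hl : 0 < l)
    (hT : l ≤ T) (hρ : 0 ≤ ρ) (hτ : 0 < τ) :
    ρ * |Jf T (z ph) (z pb) 0| ≤ τ * (∫ t in (0 : ℝ)..T, Jf T (z ph) (z pb) t ^ 2) +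
      (ρ ^ 2 / (τ * l) + ρ * ∫ t in (0 : ℝ)..l, |z pb t - z ph t|) := by
  have hT0 : 0 ≤ T := by linarith
  have lz : LB T fun t => z pb t - z ph t := (F.lbz hb).sub (F.lbz hh)
  have lJ := F.lbJ hh hb (right_mem_Icc.mpr hT0)
  obtain ⟨t, t0, t1, ht⟩ := exists_le_mean lJ.sq le_rfl hl hT
  have m := int_sub_le lJ.sq le_rfl le_rfl hl.le hT le_rfl fun _ _ _ => sq_nonneg _
  have e := Lab36.jf_sub lz (s := 0) (t := t) ⟨le_rfl, hT0⟩ ⟨t0.le, by linarith⟩
  have a := abs_int_le lz le_rfl le_rfl t0.le t1.le hT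
  rw [← e] at a
  have a2 := abs_sub_abs_le_abs_sub (Jf T (z ph) (z pb) 0) (Jf T (z ph) (z pb) t)
  have a3 := mul_le_mul_of_nonneg_left (a2.trans a) hρ
  rw [sub_zero] at ht
  have y : ρ * |Jf T (z ph) (z pb) t| ≤ τ * l * Jf T (z ph) (z pb) t ^ 2 + ρ ^ 2 / (τ * l) := by
    have p : 0 < τ * l := mul_pos hτ hl
    rw [← sq_abs, ← sub_le_iff_le_add', le_div_iff₀ p]
    nlinarith [sq_nonneg (τ * l * |Jf T (z ph) (z pb) t| - ρ),
      mul_nonneg (mul_nonneg p.le hρ) (abs_nonneg (Jf T (z ph) (z pb) t))]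
  nlinarith [mul_le_mul_of_nonneg_left (ht.trans m) hτ.le]

/-- **global energy**, root anchored at `0`, gap term absorbed; `Ar` bounds the area below `l` up
to the mass and quartic terms -/
theorem Fr.top0 (F : Fr T c C ok z Γ G) (hb : ok pb) (hh : ok ph) {H r1 r2 ω β m f : ℝ → ℝ}
    {A s b l D ρ f0 C1 δ θ P0 Ω Ff K3 Ar : ℝ} {Q : ℝ → Prop} (hA : 0 ≤ A) (hAs : A < s) (hs : s ≤ b)
    (hT : b ≤ T) (hC : 0 < C1) (hθ : 0 < θ) (lm : LB T m) (lf : LB T f)
    (R : Res T (fun t => z pb t - z ph t) (fun t => Γ pb t - Γ ph t) H r1 r2 ω β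
      (fun t => Gap27.xi θ (m t) (f t) (∫ s in (0 : ℝ)..T, |Jf T (z ph) (z pb) s|)
        (z pb t - z ph t) (Jf T (z ph) (z pb) t)) A s)
    (mass : ∀ t, A < t → t < s → m t * (z pb t - z ph t) ^ 2 ≤ H t * (z pb t - z ph t))
    (hF : ∫ t in A..s, f t ≤ Ff + K3 * ∫ t in A..s, H t * (z pb t - z ph t)) (k3 : θ * K3 ≤ 1 / 16)
    (up : ∀ s t, 0 ≤ s → s ≤ t → t ≤ b → z ph t - z ph s ≤ C1 * (t - s) + δ)
    (h0 : z ph 0 ≤ δ) (h1 : ∀ t, t < s → z pb t ≤ z ph b + δ)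
    (D1 : z pb A ≤ D) (D2 : z ph A ≤ D) (ρ0 : 0 ≤ ρ)
    (ab : ∀ t, A ≤ t → t ≤ s → |r2 t| ≤ (∫ r in A..t, ω r) + ρ + β t) (hf0 : 0 ≤ f0)
    (num : Gap27.Num θ 0 f0 (ρ + C * A ^ 2 * D) 0 (C * A)) (l0 : 0 < l) (lT : l ≤ T)
    (ar : ρ * ∫ t in (0 : ℝ)..l, |z pb t - z ph t| ≤ Ar + (∫ t in A..s, H t * (z pb t - z ph t)) / 16
      + c / 32 * ∫ t in (0 : ℝ)..T, Jf T (z ph) (z pb) t ^ 2) (Ar0 : 0 ≤ Ar)
    (ext : ∀ H' r1' r2' ω' β' ξ' : ℝ → ℝ,
      Res T (fun t => z pb t - z ph t) (fun t => Γ pb t - Γ ph t) H' r1' r2' ω' β' ξ' 0 s →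
      r2' s = r2 s → β' s = β s → ∃ X Z, Q Z ∧
        Ext T (fun t => z pb t - z ph t) (fun t => Γ pb t - Γ ph t) H' r2' ω' β' ξ' s T X Z ∧
        X ≤ c / 8 * (∫ t in (0 : ℝ)..T, Jf T (z ph) (z pb) t ^ 2) + Z / 4 + P0)
    (hΩ : (∫ t in A..s, ω t ^ 2) / c ≤ Ω + θ * ∫ t in (0 : ℝ)..s, (z pb t - z ph t) ^ 4)
    (s4 : θ * (3 * (4096 * C1 ^ 2) + (1 + T ^ 2)) ≤ c / 8) (s2 : θ ≤ 1 / 8) :
    ∃ Z, Q Z ∧ c / 8 * (∫ t in (0 : ℝ)..T, Jf T (z ph) (z pb) t ^ 2) +
        (∫ t in A..s, H t * (z pb t - z ph t)) / 8 + Z / 4 ≤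
      θ * (A * f0 + Ff +
        3 * (4096 * C1 ^ 2 * δ ^ 2 * T ^ 3 + 8 * δ ^ 4 * T + 6 * δ / C1)) + P0 +
        (16 * ρ ^ 2 / (c * l) + Ar) + Ω := by
  have sT : s ≤ T := hs.trans hT
  have AT : A ≤ T := hAs.le.trans sT
  have hc := F.c_pos
  have lz : LB T fun t => z pb t - z ph t := (F.lbz hb).sub (F.lbz hh)
  have lJ := F.lbJ hh hb (right_mem_Icc.mpr (hA.trans AT))
  have D0 : 0 ≤ D := (F.pos pb hb A).le.trans D1
  have hD : ∀ t, 0 < t → t < A → |z pb t - z ph t| ≤ D := fun t _ h => abs_le.2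
    ⟨by linarith [F.pos pb hb t, F.mono ph hh h.le], by linarith [F.pos ph hh t, F.mono pb hb h.le]⟩
  set ι := ∫ s in (0 : ℝ)..T, |Jf T (z ph) (z pb) s| with hι
  have l4 : LB T fun t => (z pb t - z ph t) ^ 4 := by simpa [← pow_mul] using lz.sq.sq
  have lx : LB T fun t => Gap27.xi θ 0 f0 ι (z pb t - z ph t) (Jf T (z ph) (z pb) t) :=
    (LB.const θ).mul ((((((LB.const 2).mul l4).add (((LB.const 2).mul (LB.const 0)).mul lz.sq)).add
      lJ.sq).add (LB.const _)).add (LB.const _))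
  have R' := R.low0 sT ρ0 ab lx (fun _ _ _ => Gap27.xi_nn hθ.le le_rfl hf0) fun t t0 t1 =>
    Gap27.xi_pt hθ le_rfl ρ0 (by linarith [F.rho_root hb hh t0.le t1 AT hD D0]) num
  have es : ¬s ≤ A := not_le.2 hAs
  obtain ⟨X, Z, hQ, E, hX⟩ := ext _ _ _ _ _ _ R' (if_neg es) (if_neg es)
  have ex : (fun t => if t ≤ A then Gap27.xi θ 0 f0 ι (z pb t - z ph t) (Jf T (z ph) (z pb) t)
      else Gap27.xi θ (m t) (f t) ι (z pb t - z ph t) (Jf T (z ph) (z pb) t)) =
      fun t => Gap27.xi θ (if t ≤ A then 0 else m t) (if t ≤ A then f0 else f t) ι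
        (z pb t - z ph t) (Jf T (z ph) (z pb) t) := funext fun t => by split_ifs <;> rfl
  rw [ex] at E
  have lH := (LB.const 0).ite_le (A := A) R.lH
  have lm' := (LB.const 0).ite_le (A := A) lm
  have rt := F.root_area hb hh l0 lT ρ0 (τ := c / 16) (by positivity)
  have pH : 0 ≤ ∫ t in A..s, H t * (z pb t - z ph t) := by
    simpa using int_mono (LB.const 0) (R.lH.mul lz) hA hAs.le sT R.H_nn
  have pE : 0 ≤ ∫ t in (0 : ℝ)..T, Jf T (z ph) (z pb) t ^ 2 :=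
    integral_nonneg (hA.trans AT) fun _ _ => sq_nonneg _
  have k := F.topE hb hh (K2 := 1) (e2 := 0) (Ω := Ω) (B1 := 16 * ρ ^ 2 / (c * l) + Ar +
    (∫ t in A..s, H t * (z pb t - z ph t)) / 16)
    (hA.trans hAs.le) hs hT hC hθ.le lH lm' ((LB.const f0).ite_le lf) up h0 h1 R'.H_nn
    (by
      rw [one_mul, add_zero]
      refine int_mono (lm'.mul lz.sq) (lH.mul lz) le_rfl (hA.trans hAs.le) sT fun t _ t1 => ?_
      split_ifs with e
      · simp
      · exact mass t (not_le.1 e) t1) E hX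
    (by
      simp only [if_pos hA, abs_zero, zero_add]
      have e : ρ ^ 2 / (c / 16 * l) = 16 * ρ ^ 2 / (c * l) := by field_simp
      nlinarith [mul_nonneg hc.le pE])
    (by positivity)
    (by
      have e := int_ite_le (M := A) (LB.const 0) R.lω.sq le_rfl hA hAs.le sT
      rw [intervalIntegral.integral_zero, zero_add] at e
      rw [← e] at hΩ
      refine le_of_eq_of_le (congrArg (· / c) (integral_congr fun t _ => ?_)) hΩ
      split_ifs <;> simp) s4 (by linarith)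
  have e1 := int_ite_le (M := A) (LB.const 0) (R.lH.mul lz) le_rfl hA hAs.le sT
  rw [intervalIntegral.integral_zero, zero_add] at e1
  have e2 : ∫ t in (0 : ℝ)..s, (if t ≤ A then 0 else H t) * (z pb t - z ph t) =
      ∫ t in A..s, H t * (z pb t - z ph t) := by
    rw [← e1]
    refine integral_congr fun t _ => ?_
    split_ifs <;> simp
  rw [e2, int_ite_le (LB.const f0) lf le_rfl hA hAs.le sT] at k
  simp only [intervalIntegral.integral_const, sub_zero, smul_eq_mul] at k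
  refine ⟨Z, hQ, ?_⟩
  nlinarith [mul_le_mul_of_nonneg_left hF hθ.le, mul_le_mul_of_nonneg_right k3 pH]

end Crest.Agent.T156.Cut8

end
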