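import Crest.Agent.T156.CutA_93
import Crest.Agent.T156.NetD_27

/-!
# Row 156, text (L) (helper93): one upper cut per dyadic level, mass form
-/

set_option autoImplicit false

noncomputable section

namespace Crest.Agent.T156.Cut8

open MeasureTheory Set intervalIntegral Filter Topology

/-- induction down the dyadic levels -/
theorem dyad {e a : ℝ → ℝ} {t0 t1 : ℝ} (h0 : 0 < t0)
    (step : ∀ t, t0 ≤ t → t ≤ t1 → e (2 * t) ≤ 16 * a t → e t ≤ a t)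
    (dbl : ∀ t, t0 ≤ t → 2 * t ≤ t1 → a (2 * t) ≤ 16 * a t)
    (top : ∀ t, t0 ≤ t → t ≤ t1 → t1 < 2 * t → e (2 * t) ≤ 16 * a t) :
    ∀ t, t0 ≤ t → t ≤ t1 → e t ≤ a t := by
  have k : ∀ n : ℕ, ∀ t, t0 ≤ t → t ≤ t1 → t1 < 2 ^ n * t → e t ≤ a t := fun n => by
    induction n with
    | zero => intro t _ b d; rw [pow_zero, one_mul] at d; linarith
    | succ n ih =>
      intro t u v w
      rcases lt_or_ge t1 (2 * t) with h | h
      · exact step t u v (top t u v h)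
      · exact step t u v ((ih (2 * t) (by linarith) h (by rw [pow_succ] at w; linarith)).trans
          (dbl t u h))
  intro t u v
  obtain ⟨n, hn⟩ := pow_unbounded_of_one_lt (t1 / t) (one_lt_two (α := ℝ))
  exact k n t u v ((div_lt_iff₀ (by linarith)).1 hn)

/-- the mixed Young inequality against a free variable -/
theorem ab_of_numM {θ m f A0 A1 A2 e d J ι M : ℝ} (hθ : 0 < θ) (θ1 : θ ≤ 1) (c : 0 ≤ A1)
    (h : e ≤ A0 + A1 * |d| + A2 * (|J| + ι)) (hN : Gap27.NumM θ m f A0 A1 A2) (hM : θ * m ≤ M) :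
    Ab e 0 (Gap27.xi θ m f ι d J) M := by
  obtain ⟨a0, g, f1, lam, p1, p2, p3, p4, p5, p6, p7, p8⟩ := hN
  intro v hv
  have y : ∀ x w k : ℝ, 0 < k → x * w ≤ k * x ^ 2 + w ^ 2 / (4 * k) := fun x w k hk => by
    rw [← sub_le_iff_le_add', le_div_iff₀ (by positivity)]
    nlinarith [sq_nonneg (2 * k * x - w)]
  have tm := mul_pos hθ p2
  have q0 : 0 ≤ A2 ^ 2 / θ := by positivity
  have y0 : v * a0 ≤ θ * m / 4 * v ^ 2 + θ * f1 := by
    refine (y v a0 (θ * m / 4) (by positivity)).trans (add_le_add le_rfl ?_)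
    rw [div_le_iff₀ (by positivity)]; nlinarith
  have y1 : A1 * |d| * v ≤ θ * m * d ^ 2 + θ * m / 4 * v ^ 2 := by
    have a := mul_le_mul_of_nonneg_right (show A1 ≤ θ * m by linarith)
      (mul_nonneg (abs_nonneg d) hv)
    nlinarith [mul_nonneg tm.le (sq_nonneg (|d| - v / 2)), sq_abs d]
  have y2 : ∀ x : ℝ, x * (A2 * v) ≤ θ * x ^ 2 + A2 ^ 2 / θ / 4 * v ^ 2 := fun x =>
    (y x (A2 * v) θ hθ).trans_eq (by field_simp)
  have y3 : g * v ≤ θ * lam ^ 4 + v ^ 4 := by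
    have a := mul_le_mul_of_nonneg_right p7 hv
    have b : lam ^ 3 * v ≤ lam ^ 4 + v ^ 4 := by
      rcases le_total v lam with c | c
      · nlinarith [mul_le_mul_of_nonneg_left c (pow_nonneg p6 3), pow_nonneg hv 4]
      · nlinarith [mul_le_mul_of_nonneg_right (pow_le_pow_left₀ p6 c 3) hv, pow_nonneg p6 4]
    nlinarith [mul_le_mul_of_nonneg_left b hθ.le,
      mul_le_mul_of_nonneg_right θ1 (pow_nonneg hv 4)]
  have z := mul_le_mul_of_nonneg_right (show A2 ^ 2 / θ ≤ θ * m by linarith) (sq_nonneg v)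
  have a := y2 |J|
  have b := y2 ι
  rw [sq_abs] at a
  unfold Gap27.xi
  linarith [mul_le_mul_of_nonneg_right h hv, mul_le_mul_of_nonneg_right p1 hv,
    mul_le_mul_of_nonneg_left p8 hθ.le, mul_le_mul_of_nonneg_right hM (sq_nonneg v),
    mul_nonneg hθ.le (show 0 ≤ d ^ 4 by positivity), mul_nonneg tm.le (sq_nonneg d),
    mul_nonneg hθ.le (pow_nonneg p6 4)]

variable {T : ℝ}

/-- the constant of an absorbed cut -/
def Kd (T c C c1 : ℝ) : ℝ := 3 * Kc T c C + 228 * c1 ^ 2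

theorem cutErr_le' {c C L M η α D ε len c1 : ℝ} (hc : 0 < c) (hc1 : 0 < c1) (hL : 0 < L)
    (hM : M ≤ L ^ 2) (hα : 0 ≤ α) (hD0 : 0 ≤ D) (hD : D ^ 2 ≤ c1 * α)
    (ha : 80 * α ≤ c1 * L ^ 2) (h0 : 0 ≤ len) (hlen : len * L ≤ T ^ 2) :
    cutErr' c C L M η α D ε len ≤ Kd T c C c1 * (L * α ^ 2) + 361 * η ^ 2 / L +
      15 * (M ^ 2 * D ^ 2 / L) + 4 * C ^ 2 / c * (len * ε ^ 2) := by
  have e1 : 38 * η * α ≤ L * α ^ 2 + 361 * η ^ 2 / L := by
    have : L * α ^ 2 + 361 * η ^ 2 / L - 38 * η * α = (L * α - 19 * η) ^ 2 / L := by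
      field_simp; ring
    linarith [show 0 ≤ (L * α - 19 * η) ^ 2 / L by positivity]
  have e2 : M * α * (α / L) ≤ L * α ^ 2 := by
    rw [← mul_div_assoc, div_le_iff₀ hL]
    nlinarith [mul_le_mul_of_nonneg_right hM (sq_nonneg α)]
  have e3 : M * α * D ≤ L * α ^ 2 + M ^ 2 * D ^ 2 / L / 4 := by
    have : L * α ^ 2 + M ^ 2 * D ^ 2 / L / 4 - M * α * D = (L * α - M * D / 2) ^ 2 / L := by
      field_simp; ring
    linarith [show 0 ≤ (L * α - M * D / 2) ^ 2 / L by positivity]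
  have e4 : len * (ε + 40 * L * α) ^ 2 ≤ 2 * (len * ε ^ 2) + 3200 * T ^ 2 * (L * α ^ 2) := by
    have a1 : (ε + 40 * L * α) ^ 2 ≤ 2 * ε ^ 2 + 3200 * (L * α) ^ 2 := by
      nlinarith [sq_nonneg (ε - 40 * L * α)]
    nlinarith [mul_le_mul_of_nonneg_left a1 h0,
      mul_le_mul_of_nonneg_right hlen (show 0 ≤ L * α ^ 2 by positivity)]
  have e5 := mul_le_mul_of_nonneg_left e4 (show 0 ≤ 2 * C ^ 2 / c by positivity)
  have x0 : 0 ≤ α / L := by positivity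
  have x1 : α / L ≤ c1 * L / 80 := by rw [div_le_iff₀ hL]; linarith
  have x2 : (α / L) ^ 2 ≤ c1 * α / 80 := by
    rw [div_pow, div_le_iff₀ (by positivity)]; nlinarith
  have x3 : D ≤ c1 * L / 8 := by
    refine (pow_le_pow_iff_left₀ hD0 (by positivity) two_ne_zero).mp ?_
    nlinarith [mul_le_mul_of_nonneg_left ha hc1.le, sq_nonneg (c1 * L)]
  have x4 : (20 * (α / L) + D) ^ 2 ≤ 12 * (c1 * α) := by nlinarith [sq_nonneg (20 * (α / L) - D)]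
  have x5 := mul_le_mul x4 (show 20 * (α / L) + D ≤ c1 * L / 2 by nlinarith) (by positivity)
    (by positivity)
  have x6 := mul_le_mul_of_nonneg_left x5 hα
  have p1 : 0 ≤ M ^ 2 * D ^ 2 / L := by positivity
  have p2 : 0 ≤ 2 * C ^ 2 / c * ((800 + 3200 * T ^ 2) * (L * α ^ 2)) := by positivity
  have p3 : 0 ≤ L * α ^ 2 := by positivity
  unfold cutErr' Kd Kc
  rw [show 20 * α / L = 20 * (α / L) by ring, show 4 * C ^ 2 / c = 2 * (2 * C ^ 2 / c) by ring]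
  linarith

/-- the margin with an `L²` bound of the difference -/
theorem Mg.mar' {zh zb H e : ℝ → ℝ} {x y x' y' L g M η B c1 C5 δ0 X : ℝ}
    (lz : LB T fun t => zb t - zh t) (hx : 0 ≤ x') (hy : y' ≤ T) (n : Nm L g M η B c1 C5 δ0)
    (h : Mg T zh zb H e x y x' y' g M η B c1 C5 δ0) (X0 : 0 < X)
    (hX : ∫ s in x'..y', (zb s - zh s) ^ 2 ≤ X) : ∃ D,
    Mar T zh zb x y x' y' L c1 δ0 D (kap c1 C5 * √(B / g)) ∧ D ^ 2 ≤ 2 * δ0 ^ 2 + 4 * X / g := by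
  have m := h.mar lz hx hy n
  have hg := n.g_pos
  have hδ := n.δ_nn
  have v0 : 0 < √(2 * X / g) := Real.sqrt_pos.mpr (by positivity)
  have v2 : √(2 * X / g) ^ 2 = 2 * X / g := Real.sq_sqrt (by positivity)
  have k : ∀ w, 0 ≤ w → w ≤ √(2 * X / g) → (δ0 + w) ^ 2 ≤ 2 * δ0 ^ 2 + 4 * X / g := fun w a b => by
    have := pow_le_pow_left₀ a b 2
    rw [show 4 * X / g = 2 * (2 * X / g) by ring]
    nlinarith [sq_nonneg (δ0 - w)]
  rcases le_total (√(2 * C5 * √(B / g))) (√(2 * X / g)) with c | c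
  · exact ⟨_, m, k _ (Real.sqrt_nonneg _) c⟩
  · refine ⟨δ0 + √(2 * X / g), ⟨m.c_pos, hδ, by linarith, m.α_pos, m.lt, m.slope, m.hJ, ?_,
      (pow_le_pow_left₀ (by positivity) (by linarith) 2).trans m.hD, m.hα⟩, k _ v0.le le_rfl⟩
    rw [add_sub_cancel_left, v2]
    have := mul_le_mul_of_nonneg_right h.len (show 0 ≤ 2 * X / g by positivity)
    rw [mul_div_cancel₀ _ hg.ne'] at this
    linarith

variable {P : Type} {c C : ℝ} {ok : P → Prop} {z Γ G : P → ℝ → ℝ} {pb ph : P}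

/-- the root term, local form -/
theorem Fr.root_loc (F : Fr T c C ok z Γ G) (hb : ok pb) (hh : ok ph) {l ρ τ : ℝ} (hl : 0 < l)
    (hT : l ≤ T) (hρ : 0 ≤ ρ) (hτ : 0 < τ) :
    ρ * |Jf T (z ph) (z pb) 0| ≤ τ * (∫ t in (0 : ℝ)..l, Jf T (z ph) (z pb) t ^ 2) +
      (ρ ^ 2 / (τ * l) + ρ * ∫ t in (0 : ℝ)..l, |z pb t - z ph t|) := by
  have hT0 : 0 ≤ T := by linarith
  have lz : LB T fun t => z pb t - z ph t := (F.lbz hb).sub (F.lbz hh)
  have lJ := F.lbJ hh hb (right_mem_Icc.mpr hT0)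
  obtain ⟨t, t0, t1, ht⟩ := exists_le_mean lJ.sq le_rfl hl hT
  have e := Lab36.jf_sub lz (s := 0) (t := t) ⟨le_rfl, hT0⟩ ⟨t0.le, by linarith⟩
  have a := abs_int_le lz le_rfl le_rfl t0.le t1.le hT
  rw [← e] at a
  have a2 := abs_sub_abs_le_abs_sub (Jf T (z ph) (z pb) 0) (Jf T (z ph) (z pb) t)
  have a3 := mul_le_mul_of_nonneg_left (a2.trans a) hρ
  rw [sub_zero] at ht
  have y : ρ * |Jf T (z ph) (z pb) t| ≤ τ * l * Jf T (z ph) (z pb) t ^ 2 + ρ ^ 2 / (τ * l) := by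
    have p : 0 < τ * l := mul_pos hτ hl
    rw [← sq_abs, ← sub_le_iff_le_add', le_div_iff₀ p]
    nlinarith [sq_nonneg (τ * l * |Jf T (z ph) (z pb) t| - ρ),
      mul_nonneg (mul_nonneg p.le hρ) (abs_nonneg (Jf T (z ph) (z pb) t))]
  nlinarith [mul_le_mul_of_nonneg_left ht hτ.le]

/-- crude location and the quartic bound below `y` from a small energy on `[0, b]` -/
theorem Fr.four_up (F : Fr T c C ok z Γ G) (hb : ok pb) (hh : ok ph) {y b C1 δ d B : ℝ}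
    (hy : 0 ≤ y) (hyb : y ≤ b) (hT : b ≤ T) (hC : 0 < C1)
    (up : ∀ s t, 0 ≤ s → s ≤ t → t ≤ b → z ph t - z ph s ≤ C1 * (t - s) + δ) (h0 : z ph 0 ≤ δ)
    (d2 : 2 * δ ≤ d) (d1 : d + 2 * δ ≤ 2 * C1 * (b - y)) (dB : 4096 * C1 ^ 3 * B < d ^ 5)
    (hB : (∫ t in (0 : ℝ)..b, Jf T (z ph) (z pb) t ^ 2) + (δ ^ 2 * T ^ 3 + δ ^ 4 * T + δ / C1) ≤ B) :
    (∀ s, 0 ≤ s → s ≤ y → |z pb s - z ph s| ≤ d + δ) ∧
      ∫ t in (0 : ℝ)..y, (z pb t - z ph t) ^ 4 ≤ (64 * C1 + 3) ^ 2 * B := by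
  have hδ : 0 < δ := (F.pos ph hh 0).trans_le h0
  have hb0 : 0 ≤ b := hy.trans hyb
  have hT0 : 0 ≤ T := hb0.trans hT
  have lz : LB T fun t => z pb t - z ph t := (F.lbz hb).sub (F.lbz hh)
  have l4 : LB T fun t => (z pb t - z ph t) ^ 4 := by simpa only [← pow_mul] using lz.sq.sq
  have A := F.aosl hb hh le_rfl hb0 hT hC up
  obtain ⟨u, u0, eu⟩ : ∃ u, 0 < u ∧ δ = C1 * u := ⟨δ / C1, by positivity, by field_simp⟩
  rw [show δ / C1 = u by rw [eu]; field_simp] at hB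
  have p0 : 0 ≤ ∫ t in (0 : ℝ)..b, Jf T (z ph) (z pb) t ^ 2 :=
    integral_nonneg hb0 fun _ _ => sq_nonneg _
  have p1 : 0 ≤ δ ^ 2 * T ^ 3 := by positivity
  have p2 : 0 ≤ δ ^ 4 * T := by positivity
  have q2 := mul_le_mul_of_nonneg_left (pow_le_pow_left₀ hb0 hT 3) (sq_nonneg δ)
  have en : Sun9.AOSL.En 0 b δ (Jf T (z ph) (z pb)) ≤ 2 * B := by
    unfold Sun9.AOSL.En; rw [sub_zero]; linarith
  have loc : ∀ s, 0 ≤ s → s ≤ y → |z pb s - z ph s| ≤ d + δ := fun s s0 s1 =>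
    A.abs_le_of (by linarith) (by
      linarith [mul_le_mul_of_nonneg_left en (show 0 ≤ 2048 * C1 ^ 3 by positivity)])
      (by linarith [F.pos pb hb 0]) s0 (by
        have : d / (2 * C1) ≤ b - y := by rw [div_le_iff₀ (by positivity)]; linarith
        linarith)
  refine ⟨loc, ?_⟩
  have cr : ∀ x, 0 ≤ x → x ≤ T → ∫ t in (0 : ℝ)..x, (z pb t - z ph t) ^ 4 ≤ x := fun x a1 a2 => by
    simpa using int_le_const l4 (K := 1) le_rfl a1 a2 fun t _ _ => by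
      have := pow_le_one₀ (abs_nonneg _) (F.dz_le hb hh t) (n := 4)
      rwa [← abs_pow, abs_of_nonneg (by positivity)] at this
  have k := mul_le_mul_of_nonneg_right (show 4096 * C1 ^ 2 + 8 ≤ (64 * C1 + 3) ^ 2 by nlinarith)
    (show 0 ≤ B by linarith)
  have k0 : 0 ≤ C1 ^ 2 * B := mul_nonneg (sq_nonneg _) (by linarith)
  rcases le_total y (2 * u) with hc | hc
  · linarith [cr y hy (by linarith)]
  have f := A.four (c := 2 * u) (d := y) (by linarith) hc hyb fun t ht => by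
    have a1 := up 0 t le_rfl (by linarith [ht.1]) (by linarith [ht.2])
    have a3 := mul_le_mul_of_nonneg_left ht.1 hC.le
    have a4 := mul_le_mul_of_nonneg_left ht.2 hC.le
    constructor <;> linarith [F.pos pb hb t, le_abs_self (z pb t - z ph t),
      loc t (by linarith [ht.1]) ht.2]
  have q1 := mul_le_mul_of_nonneg_left en (show 0 ≤ 2048 * C1 ^ 2 by positivity)
  have q3 := mul_le_mul_of_nonneg_left (show y - 2 * u ≤ T by linarith)
    (show 0 ≤ 8 * δ ^ 4 by positivity)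
  rw [int_split l4 (b := 2 * u) ⟨le_rfl, hT0⟩ ⟨by linarith, by linarith⟩ ⟨hy, by linarith⟩]
  linarith [cr (2 * u) (by linarith) (by linarith)]

/-- the energy below `t`; the mass term lives above `A` -/
def EU (T c : ℝ) (zh zb H : ℝ → ℝ) (A t : ℝ) : ℝ :=
  c / 2 * (∫ s in (0 : ℝ)..t, Jf T zh zb s ^ 2) + (∫ s in A..t, H s * (zb s - zh s)) / 2

/-- root and bulk data (those of `Fr.top0`) -/
structure Rt (T C θ : ℝ) (zh zb ρ' H r1 r2 ω β m f : ℝ → ℝ) (A s l D ρ f0 C1 δ : ℝ) : Prop where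
  hA : 0 ≤ A
  sT : s ≤ T
  θ0 : 0 < θ
  lm : LB T m
  lf : LB T f
  R : Res T (fun t => zb t - zh t) ρ' H r1 r2 ω β (fun t => Gap27.xi θ (m t) (f t)
    (∫ u in (0 : ℝ)..T, |Jf T zh zb u|) (zb t - zh t) (Jf T zh zb t)) A s
  mass : ∀ t, A < t → t < s → m t * (zb t - zh t) ^ 2 ≤ H t * (zb t - zh t)
  up : ∀ t t', 0 ≤ t → t ≤ t' → t' ≤ s → zh t' - zh t ≤ C1 * (t' - t) + δ
  h0 : zh 0 ≤ δ
  D1 : zb A ≤ D
  D2 : zh A ≤ D
  ρ0 : 0 ≤ ρ
  ab : ∀ t, A ≤ t → t ≤ s → |r2 t| ≤ (∫ r in A..t, ω r) + ρ + β t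
  hf0 : 0 ≤ f0
  num : Gap27.Num θ 0 f0 (ρ + C * A ^ 2 * D) 0 (C * A)
  l0 : 0 < l

/-- the contraction factor of the cut at the level `t` -/
def rU (T c C θ K3 c1 C1 L t : ℝ) : ℝ :=
  θ * (5 * (64 * C1 + 3) ^ 2 + 2 + 4 * c + 2 * c * K3) +
    (Kd T c C c1 * kap c1 (64 * C1 + 3) ^ 2 + 60) * (4 * L / t)

/-- the sources of the cut at the level `t` -/
def sU (c C θ A l ρ f0 Ff Ω Ar I2 η μ L t : ℝ) : ℝ :=
  2 * θ * (A * f0 + Ff) + Ω + 16 * ρ ^ 2 / (c * l) + Ar + 361 * η ^ 2 / L + 30 * μ +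
    (4 * θ + 8 * C ^ 2 / c) * (t * I2)

/-- data of the level `t`; `a` is the bound to be proved, `16 a` the bound of the level `2 t` -/
structure Lv (T c C θ : ℝ) (zh zb H r1 ω β m f : ℝ → ℝ) (A s l ρ f0 c1 C1 δ : ℝ)
    (Ff K3 Ω Ar I2 L M m0 η d μ t a : ℝ) : Prop where
  At : A < t
  lt : l ≤ t
  ts : 2 * t ≤ s
  K0 : 0 ≤ K3
  hF : ∫ u in A..3 * t / 2, f u ≤ Ff + K3 * ∫ u in A..2 * t, H u * (zb u - zh u)
  hΩ : (∫ u in A..3 * t / 2, ω u ^ 2) / c ≤ Ω + θ * ∫ u in (0 : ℝ)..7 * t / 4, (zb u - zh u) ^ 4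
  ar : ρ * ∫ u in (0 : ℝ)..l, |zb u - zh u| ≤ Ar + (∫ u in A..t, H u * (zb u - zh u)) / 16 +
    c / 32 * ∫ u in (0 : ℝ)..t, Jf T zh zb u ^ 2
  hι : (∫ u in (0 : ℝ)..T, |Jf T zh zb u|) ^ 2 ≤ I2
  lo : ∀ u u', t ≤ u → u ≤ u' → u' ≤ 3 * t / 2 → c1 * (u' - u) - δ ≤ zh u' - zh u
  hm : ∀ u, t ≤ u → u ≤ 3 * t / 2 → m0 ≤ m u
  mg : ∀ u, t ≤ u → u < 3 * t / 2 → |zb u - zh u| ≤ d + δ →
    H u ^ 2 ≤ M * (H u * (zb u - zh u)) ∧ Ab (|r1 u| + β u) η (Gap27.xi θ (m u) (f u)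
      (∫ w in (0 : ℝ)..T, |Jf T zh zb w|) (zb u - zh u) (Jf T zh zb u)) M
  L0 : 0 < L
  L4 : 4 * L ≤ t
  M0 : 0 < M
  ML : M ≤ L ^ 2
  m0' : 0 < m0
  mM : c * M ^ 2 ≤ m0 * L ^ 2
  η0 : 0 ≤ η
  c0 : 0 < c1
  C0 : 0 < C1
  a0 : 0 ≤ a
  hμ : δ ^ 2 * T ^ 3 + δ ^ 4 * T + δ / C1 ≤ μ
  d2 : 2 * δ ≤ d
  d1 : d + 2 * δ ≤ C1 * t / 2
  dB : 4096 * C1 ^ 3 * (32 / c * a + μ) < d ^ 5
  small : 25600 * kap c1 (64 * C1 + 3) ^ 2 * (32 / c * a + μ) ≤ c1 ^ 2 * L ^ 4 * t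
  hr : rU T c C θ K3 c1 C1 L t * (32 / c) ≤ 1 / 4
  hs : sU c C θ A l ρ f0 Ff Ω Ar I2 η μ L t + rU T c C θ K3 c1 C1 L t * μ ≤ a / 4

variable {H r1 r2 ω β m f : ℝ → ℝ} {θ A s l D ρ f0 c1 C1 δ : ℝ}

/-- **one upper cut** -/
theorem Fr.up0 (F : Fr T c C ok z Γ G) (hb : ok pb) (hh : ok ph)
    (Z : Rt T C θ (z ph) (z pb) (fun t => Γ pb t - Γ ph t) H r1 r2 ω β m f A s l D ρ f0 C1 δ)
    {Ff K3 Ω Ar I2 L M m0 η d μ t a : ℝ}
    (V : Lv T c C θ (z ph) (z pb) H r1 ω β m f A s l ρ f0 c1 C1 δ Ff K3 Ω Ar I2 L M m0 η d μ t a)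
    (hE : EU T c (z ph) (z pb) H A (2 * t) ≤ 16 * a) : EU T c (z ph) (z pb) H A t ≤ a := by
  obtain ⟨hA, sT, hθ, lm, lf, R, mass, up, h0, D1, D2, ρ0, ab, hf0, num, l0⟩ := Z
  have At := V.At
  have lt := V.lt
  have ts := V.ts
  have L0 := V.L0
  have L4 := V.L4
  have C0 := V.C0
  have m0' := V.m0'
  have hc := F.c_pos
  have t0 : 0 < t := hA.trans_lt At
  have o1 : t ≤ 3 * t / 2 := by linarith only [t0]
  have o2 : 3 * t / 2 ≤ 7 * t / 4 := by linarith only [t0]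
  have o3 : 7 * t / 4 ≤ 2 * t := by linarith only [t0]
  have o4 : t + L ≤ 3 * t / 2 := by linarith only [t0, L4]
  have o5 : t ≤ t + L := by linarith only [L0]
  have o6 := o2.trans o3
  have o7 := ts.trans sT
  have o8 := o6.trans o7
  have o9 := At.le.trans o1
  have oa := hA.trans o9
  have tT := o1.trans o8
  have T0 := t0.le.trans tT
  have AT := At.le.trans tT
  have hδ : 0 < δ := (F.pos ph hh 0).trans_le h0
  have lz : LB T fun t => z pb t - z ph t := (F.lbz hb).sub (F.lbz hh)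
  have lJ := F.lbJ hh hb (right_mem_Icc.mpr T0)
  have lHz := R.lH.mul lz
  have l4 : LB T fun t => (z pb t - z ph t) ^ 4 := by simpa [← pow_mul] using lz.sq.sq
  have m1 : 0 ≤ δ ^ 2 * T ^ 3 := by positivity
  have m2 : 0 ≤ δ ^ 4 * T := by positivity
  have m3 : 0 < δ / C1 := by positivity
  have m4 : 0 ≤ 32 / c * a := mul_nonneg (by positivity) V.a0
  have sH : ∀ x y y', A ≤ x → x ≤ y → y ≤ y' → y' ≤ s → ∫ u in x..y, H u * (z pb u - z ph u) ≤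
      ∫ u in A..y', H u * (z pb u - z ph u) := fun x y y' u1 u2 u3 u4 =>
    int_sub_le lHz hA u1 u2 u3 (u4.trans sT) fun u v w => R.H_nn u v (w.trans_le u4)
  have sJ : ∀ x y y', 0 ≤ x → x ≤ y → y ≤ y' → y' ≤ T → ∫ u in x..y, Jf T (z ph) (z pb) u ^ 2 ≤
      ∫ u in (0 : ℝ)..y', Jf T (z ph) (z pb) u ^ 2 := fun x y y' u1 u2 u3 u4 =>
    int_sub_le lJ.sq le_rfl u1 u2 u3 u4 fun _ _ _ => sq_nonneg _
  have pH : 0 ≤ ∫ u in A..2 * t, H u * (z pb u - z ph u) := by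
    simpa using sH A A _ le_rfl le_rfl (o9.trans o6) ts
  have pH' : 0 ≤ ∫ u in A..t, H u * (z pb u - z ph u) := by
    simpa using sH A A t le_rfl le_rfl At.le (o1.trans (o6.trans ts))
  have pJ : 0 ≤ ∫ u in (0 : ℝ)..2 * t, Jf T (z ph) (z pb) u ^ 2 :=
    integral_nonneg (oa.trans o6) fun _ _ => sq_nonneg _
  have pJ' : 0 ≤ ∫ u in (0 : ℝ)..t, Jf T (z ph) (z pb) u ^ 2 :=
    integral_nonneg t0.le fun _ _ => sq_nonneg _
  have hμ := V.hμ
  unfold EU at hE ⊢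
  have eJ : ∫ u in (0 : ℝ)..2 * t, Jf T (z ph) (z pb) u ^ 2 ≤ 32 / c * a := by
    rw [div_mul_eq_mul_div, le_div_iff₀ hc]; linarith only [hE, pH]
  have eH : ∫ u in A..2 * t, H u * (z pb u - z ph u) ≤ c * (32 / c * a + μ) := by
    rw [mul_add, ← mul_assoc, mul_div_cancel₀ _ hc.ne']
    linarith only [hE, mul_nonneg hc.le pJ,
      mul_nonneg hc.le (show 0 ≤ μ by linarith only [m1, m2, m3, hμ])]
  obtain ⟨Bn, hBn⟩ : ∃ Bn, Bn = 32 / c * a + μ := ⟨_, rfl⟩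
  rw [← hBn] at eH
  have B0 : 0 < Bn := by linarith only [hBn, m1, m2, m3, m4, hμ]
  have eJ' : ∫ u in (0 : ℝ)..2 * t, Jf T (z ph) (z pb) u ^ 2 ≤ Bn := by
    linarith only [hBn, m1, m2, m3, eJ, hμ]
  obtain ⟨loc, h4⟩ := F.four_up hb hh (y := 7 * t / 4) (b := 2 * t) (B := Bn) (oa.trans o2) o3 o7 C0
    (fun u v u1 u2 u3 => up u v u1 u2 (u3.trans ts)) h0 V.d2 (by linarith only [V.d1])
    (hBn ▸ V.dB) (by linarith only [hBn, eJ, hμ])
  have s4' : ∀ x, 0 ≤ x → x ≤ 3 * t / 2 → ∫ u in x..3 * t / 2, (z pb u - z ph u) ^ 4 ≤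
      (64 * C1 + 3) ^ 2 * Bn := fun x u1 u2 =>
    (int_sub_le l4 le_rfl u1 u2 o2 (o3.trans o7) fun _ _ _ => by positivity).trans h4
  have D0 : 0 ≤ D := (F.pos pb hb A).le.trans D1
  have hD : ∀ t, 0 < t → t < A → |z pb t - z ph t| ≤ D := fun t _ h => abs_le.2
    ⟨by linarith only [F.pos pb hb t, F.mono ph hh h.le, D2],
      by linarith only [F.pos ph hh t, F.mono pb hb h.le, D1]⟩
  have hι := V.hι
  have mg := V.mg
  set ι := ∫ s in (0 : ℝ)..T, |Jf T (z ph) (z pb) s| with hι'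
  have lx : LB T fun t => Gap27.xi θ 0 f0 ι (z pb t - z ph t) (Jf T (z ph) (z pb) t) :=
    (LB.const θ).mul ((((((LB.const 2).mul l4).add (((LB.const 2).mul (LB.const 0)).mul lz.sq)).add
      lJ.sq).add (LB.const _)).add (LB.const _))
  have R' := (R.low0 sT ρ0 ab lx (fun _ _ _ => Gap27.xi_nn hθ.le le_rfl hf0) fun t t0 t1 =>
    Gap27.xi_pt hθ le_rfl ρ0 (by linarith only [F.rho_root hb hh t0.le t1 AT hD D0]) num).sub
    (A' := 0) (B' := 3 * t / 2) le_rfl (o6.trans ts)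
  have n : Nm L (t / 4) M η Bn c1 (64 * C1 + 3) δ :=
    ⟨L0, by positivity, V.M0, V.ML, V.η0, B0, V.c0, by positivity, hδ.le, by
      linarith only [mul_le_mul_of_nonneg_left (show t / 4 ≤ T by linarith only [t0, tT])
        (show 0 ≤ δ ^ 4 by positivity), m1, m3, m4, hBn, hμ], by
      rw [hBn]; linarith only [V.small]⟩
  have hX : ∫ u in t + L..3 * t / 2, (z pb u - z ph u) ^ 2 ≤ c * Bn / m0 := by
    have q := int_mono ((LB.const m0).mul lz.sq) lHz (t0.le.trans o5) o4 o8 fun u v w =>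
        (mul_le_mul_of_nonneg_right (V.hm u (o5.trans v.le) w.le) (sq_nonneg _)).trans
          (mass u (At.trans (o5.trans_lt v)) (w.trans_le (o6.trans ts)))
    rw [intervalIntegral.integral_const_mul] at q
    rw [le_div_iff₀' m0']
    exact q.trans ((sH _ _ _ (At.le.trans o5) o4 o6 ts).trans eH)
  obtain ⟨D', mar, hD'⟩ := Mg.mar' (T := T) (H := fun _ => 0) (e := fun _ => η) (x := t)
    (y := 3 * t / 2) (x' := t + L) (y' := 3 * t / 2) lz (t0.le.trans o5) o8 n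
    ⟨by linarith only [L4], V.lo, (sJ _ _ _ (t0.le.trans o5) o4 o6 o7).trans eJ',
      s4' _ (t0.le.trans o5) o4, fun _ _ _ => by simp, fun _ _ _ => le_rfl⟩ (by positivity) hX
  have ne : ∀ u, t ≤ u → ¬u ≤ A := fun u h => not_le.2 (At.trans_le h)
  have rt := F.root_loc hb hh l0 (lt.trans tT) ρ0 (τ := c / 16) (by positivity)
  have cut := F.block_up' hb hh (ε := ι) (B0 := ρ * |Jf T (z ph) (z pb) 0|) t0.le o8 L0 V.M0
    V.η0 mar R' (fun u v w => by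
      rw [if_neg (ne u v)]; exact (mg u v w (loc u (t0.le.trans v) (w.le.trans o2))).1)
    (fun u v w => by
      simp only [if_neg (ne u v)]; exact (mg u v w (loc u (t0.le.trans v) (w.le.trans o2))).2)
    (int_sub_le lJ.abs le_rfl t0.le tT le_rfl le_rfl fun _ _ _ => abs_nonneg _)
    (by simp only [if_pos hA, abs_zero, zero_add, le_refl]) (mul_nonneg ρ0 (abs_nonneg _))
  have LT : L ≤ T := by linarith only [L4, t0, tT]
  have ce := cutErr_le' (T := T) (C := C) (η := η) (ε := ι) (len := 3 * t / 2) hc V.c0 L0 V.ML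
    mar.α_pos.le (mar.δ_nn.trans mar.δ_lt.le) mar.hD mar.hα oa
    ((mul_le_mul o8 LT L0.le T0).trans_eq (sq T).symm)
  have e0 : Kd T c C c1 * (L * (kap c1 (64 * C1 + 3) * √(Bn / (t / 4))) ^ 2) =
      Kd T c C c1 * kap c1 (64 * C1 + 3) ^ 2 * (4 * L / t) * Bn := by
    rw [mul_pow, Real.sq_sqrt (by positivity)]; field_simp
  have e1 : M ^ 2 * D' ^ 2 / L ≤ 2 * μ + 4 * (4 * L / t) * Bn := by
    have a1 := mul_le_mul_of_nonneg_left hD' (show 0 ≤ M ^ 2 / L by positivity)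
    have a2 : M ^ 2 / L * δ ^ 2 ≤ δ ^ 2 * T ^ 3 := by
      rw [mul_comm]
      refine mul_le_mul_of_nonneg_left ?_ (sq_nonneg _)
      rw [div_le_iff₀ L0]
      linarith only [pow_le_pow_left₀ V.M0.le V.ML 2,
        mul_le_mul_of_nonneg_right (pow_le_pow_left₀ L0.le LT 3) L0.le]
    have a3 : M ^ 2 / L * (4 * (c * Bn / m0) / (t / 4)) ≤ 4 * (4 * L / t) * Bn := by
      rw [show M ^ 2 / L * (4 * (c * Bn / m0) / (t / 4)) = c * M ^ 2 * (16 * Bn / (L * m0 * t)) by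
        field_simp; ring, show 4 * (4 * L / t) * Bn = m0 * L ^ 2 * (16 * Bn / (L * m0 * t)) by
        field_simp; ring]
      exact mul_le_mul_of_nonneg_right V.mM (by positivity)
    rw [show M ^ 2 * D' ^ 2 / L = M ^ 2 / L * D' ^ 2 by ring]
    linarith only [a1, a2, a3, hμ, m2, m3]
  have sp : ∀ {g : ℝ → ℝ} {y : ℝ}, LB T g → A ≤ y → y ≤ T →
      ∫ u in (0 : ℝ)..y, (if u ≤ A then 0 else g u) = ∫ u in A..y, g u := fun lg u1 u2 => by
    rw [int_ite_le (LB.const 0) lg le_rfl hA u1 u2, intervalIntegral.integral_zero, zero_add]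
  have ex : (fun t => if t ≤ A then Gap27.xi θ 0 f0 ι (z pb t - z ph t) (Jf T (z ph) (z pb) t)
      else Gap27.xi θ (m t) (f t) ι (z pb t - z ph t) (Jf T (z ph) (z pb) t)) =
      fun t => Gap27.xi θ (if t ≤ A then 0 else m t) (if t ≤ A then f0 else f t) ι
        (z pb t - z ph t) (Jf T (z ph) (z pb) t) := funext fun t => by split_ifs <;> rfl
  have e2 : ∀ {g k : ℝ → ℝ}, (fun u => (if u ≤ A then 0 else g u) * k u) =
      fun u => if u ≤ A then 0 else g u * k u := funext fun u => by split_ifs <;> simp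
  have e3 : (fun u => (if u ≤ A then 0 else ω u) ^ 2) = fun u => if u ≤ A then 0 else ω u ^ 2 :=
    funext fun u => by split_ifs <;> simp
  rw [ex, int_xi_loc lz lJ ((LB.const 0).ite_le lm) ((LB.const f0).ite_le lf) le_rfl oa o8,
    e2, e2, e3, sp lHz At.le tT, sp (lm.mul lz.sq) o9 o8, sp R.lω.sq o9 o8,
    int_ite_le (LB.const f0) lf le_rfl hA o9 o8] at cut
  simp only [intervalIntegral.integral_const, sub_zero, smul_eq_mul] at cut
  have s1 := (int_mono (lm.mul lz.sq) lHz hA o9 o8 fun u v w =>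
    mass u v (w.trans_le (o6.trans ts))).trans ((sH A _ (2 * t) le_rfl o9 o6 ts).trans eH)
  have s2 := (sJ 0 (3 * t / 2) (2 * t) le_rfl oa o6 o7).trans eJ'
  have s3 : 3 * t / 2 * ι ^ 2 ≤ 2 * (t * I2) := by
    linarith only [mul_le_mul_of_nonneg_left hι t0.le, mul_nonneg t0.le (sq_nonneg ι)]
  have s4 := mul_le_mul_of_nonneg_left eH V.K0
  have s5 := mul_le_mul_of_nonneg_left (show 4 * (∫ u in (0 : ℝ)..3 * t / 2, (z pb u - z ph u) ^ 4) +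
    (∫ u in (0 : ℝ)..7 * t / 4, (z pb u - z ph u) ^ 4) +
    4 * (∫ u in A..3 * t / 2, m u * (z pb u - z ph u) ^ 2) +
    2 * (∫ u in (0 : ℝ)..3 * t / 2, Jf T (z ph) (z pb) u ^ 2) + 2 * (3 * t / 2 * ι ^ 2) +
    2 * (∫ u in A..3 * t / 2, f u) ≤ 5 * ((64 * C1 + 3) ^ 2 * Bn) + 4 * (c * Bn) + 2 * Bn +
      4 * (t * I2) + 2 * (Ff + K3 * (c * Bn)) by
        linarith only [s4' 0 le_rfl oa, h4, s1, s2, s3, s4, V.hF]) hθ.le
  have s6 := mul_le_mul_of_nonneg_left s3 (show 0 ≤ 4 * C ^ 2 / c by positivity)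
  have s7 := mul_le_mul_of_nonneg_left (sJ 0 l t le_rfl l0.le lt tT) hc.le
  have s8 : ρ ^ 2 / (c / 16 * l) = 16 * ρ ^ 2 / (c * l) := by field_simp
  have s9 : rU T c C θ K3 c1 C1 L t * Bn =
      rU T c C θ K3 c1 C1 L t * (32 / c) * a + rU T c C θ K3 c1 C1 L t * μ := by rw [hBn]; ring
  have fin : c / 2 * (∫ u in (0 : ℝ)..t, Jf T (z ph) (z pb) u ^ 2) +
      (∫ u in A..t, H u * (z pb u - z ph u)) / 2 ≤
      2 * (sU c C θ A l ρ f0 Ff Ω Ar I2 η μ L t + rU T c C θ K3 c1 C1 L t * Bn) := by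
    unfold sU rU
    rw [show 8 * C ^ 2 / c = 2 * (4 * C ^ 2 / c) by ring]
    linarith only [cut, ce, e0, e1, rt, V.ar, V.hΩ, s5, s6, s7, s8, mul_nonneg hc.le pJ', pH']
  linarith only [fin, s9, V.hs, mul_le_mul_of_nonneg_right V.hr V.a0]


end Crest.Agent.T156.Cut8
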