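import Crest.Agent.T156.Pder_69

-- ▼ part T156/StrA_62
section

/-!
Row 156 (helper62): **strict no-gap**.  For every admissible profile of total length `≤ T` and at
every time, `E[Φ₄² - 12 m Φ₂ Φ₃² + 6 m² Φ₂⁴] ≥ κ(T) E Φ₂⁴` (`m` = current tilt), with
`κ(T) = e^{-6T}/260`: the slack of the certificate of row 339 is `≥ (Φ₃/(xΦ₂))²/1040`.
Consequence: two-sided slope bounds for the tilt profile from second differences of `E Φ₂²`.
-/

set_option autoImplicit false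

namespace Crest.Agent.T156.Str

open MeasureTheory ProbabilityTheory Filter Topology Set
open Crest.Agent.R164.GC Crest.Agent.R339.B Crest.Agent.R339.Var Crest.Agent.T157.Pf
open Crest.Agent.T156.Pp
open Crest.ProbabilityR.InvariantGlass (gaussOp)

noncomputable section

theorem aux1 (a u t : ℝ) :
    (a + 2 * (u + t)) ^ 2 / 1040 ≤ a ^ 2 / 400 + (1 / 10 * t ^ 2 + 1 / 150 * u ^ 2) := by
  have e : a ^ 2 / 400 + (1 / 10 * t ^ 2 + 1 / 150 * u ^ 2) - (a + 2 * (u + t)) ^ 2 / 1040 =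
      (4 * a - 5 * (u + t)) ^ 2 / 10400 + (15 * t - u) ^ 2 / 2400 := by ring
  have : 0 ≤ (4 * a - 5 * (u + t)) ^ 2 / 10400 + (15 * t - u) ^ 2 / 2400 := by positivity
  linarith

theorem aux2 (A u r : ℝ) (hu : 0 ≤ u) (hr : 0 ≤ r) : A ^ 2 / 4 + 1 / 150 * u ^ 2 ≤
    (A + (1 / 5 * u + 7 / 10 * r)) ^ 2 + (1 / 50 * u ^ 2 + 19 / 10 * (r * u) + 87 / 100 * r ^ 2) := by
  have e : (A + (1 / 5 * u + 7 / 10 * r)) ^ 2 +
      (1 / 50 * u ^ 2 + 19 / 10 * (r * u) + 87 / 100 * r ^ 2) - (A ^ 2 / 4 + 1 / 150 * u ^ 2) =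
      (3 / 2 * A + 2 * (1 / 5 * u + 7 / 10 * r)) ^ 2 / 3 + 271 / 150 * (r * u) +
        53 / 75 * r ^ 2 := by ring
  have : 0 ≤ (3 / 2 * A + 2 * (1 / 5 * u + 7 / 10 * r)) ^ 2 / 3 + 271 / 150 * (r * u) +
        53 / 75 * r ^ 2 := by positivity
  linarith

theorem aux3 (k l y : ℝ) (hk : 0 ≤ k) (hl : 0 ≤ l) (hy : 0 ≤ y) : (k * y) ^ 2 / 400 ≤
    (-(1 / 5) * k ^ 2 - 3 / 10 * (k * y) + 2 / 5 * (k * l)) ^ 2 / 4 + 1 / 10 * (k ^ 2 * l * y) := by
  rcases le_total (2 * l) y with hc | hc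
  · have b1 := mul_le_mul_of_nonneg_left hc hk
    have b2 : k * y / 10 ≤ -(-(1 / 5) * k ^ 2 - 3 / 10 * (k * y) + 2 / 5 * (k * l)) := by
      have := sq_nonneg k
      linarith
    have b3 := pow_le_pow_left₀ (by positivity) b2 2
    rw [neg_sq, div_pow] at b3
    have b4 : 0 ≤ k ^ 2 * l * y := by positivity
    linarith
  · have b1 := mul_le_mul_of_nonneg_left hc (by positivity : 0 ≤ k ^ 2 * y)
    have b2 := sq_nonneg (-(1 / 5) * k ^ 2 - 3 / 10 * (k * y) + 2 / 5 * (k * l))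
    have b3 := sq_nonneg (k * y)
    have e1 : (k * y) ^ 2 = k ^ 2 * y * y := by ring
    have e2 : k ^ 2 * y * (2 * l) = 2 * (k ^ 2 * l * y) := by ring
    linarith

theorem cert_cone' (p k l e z o w : ℝ) (hp : 0 ≤ p) (hk : 0 ≤ k) (hl : 0 ≤ l) (he : 0 ≤ e)
    (hz : 0 ≤ z) (ho : 0 ≤ o) :
    ((k + 2 * p) * (e + z)) ^ 2 / 1040 ≤ Qc p k l (p * e) (e + z) w (l * (e + z) - o) := by
  have key : Qc p k l (p * e) (e + z) w (l * (e + z) - o) =
      ((-(1 / 5) * k ^ 2 - 3 / 10 * (k * (e + z)) + 2 / 5 * (k * l))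
        + (1 / 5 * (p * e) + 7 / 10 * (p * l))) ^ 2
      + (1 / 50 * (p * e) ^ 2 + 19 / 10 * ((p * l) * (p * e)) + 87 / 100 * (p * l) ^ 2)
      + 1 / 10 * (k ^ 2 * l * (e + z)) + 1 / 10 * (p * z) ^ 2
      + ((w - (2 / 5 * k ^ 2 + 11 / 10 * p * k + 3 / 5 * p ^ 2 + 1 / 5 * (p * e)
        + 1 / 10 * k * (e + z) + 1 / 5 * k * l + 4 / 5 * p * l)) ^ 2
        + (1 / 5 * k ^ 2 * o + 7 / 10 * p * z * o + 8 / 5 * p * k * o + 2 * p ^ 2 * o
        + 7 / 10 * p * l ^ 2 * z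
        + 2 / 25 * p * k * e * z + 2 / 25 * p * k * e ^ 2 + 3 / 50 * p * k * l * z
        + 13 / 25 * p * k * l * e + 18 / 25 * p * k * l ^ 2 + 2 / 25 * p * k ^ 2 * z
        + 1 / 10 * p * k ^ 2 * e + 1 / 10 * p * k ^ 2 * l + 3 / 25 * p * k ^ 3
        + 1 / 5 * p ^ 2 * l * z + 2 / 25 * p ^ 2 * k * z
        + 16 / 25 * p ^ 2 * k * e + 1 / 100 * p ^ 2 * k ^ 2 + 3 / 10 * p ^ 3 * z
        + 3 / 50 * p ^ 3 * e + 1 / 25 * p ^ 3 * l + 7 / 25 * p ^ 3 * k
        + 16 / 25 * p ^ 4)) := by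
    unfold Qc chi chi'
    ring
  have e1 : (k + 2 * p) * (e + z) = k * (e + z) + 2 * (p * e + p * z) := by ring
  have h1 := aux1 (k * (e + z)) (p * e) (p * z)
  have h2 := aux2 (-(1 / 5) * k ^ 2 - 3 / 10 * (k * (e + z)) + 2 / 5 * (k * l)) (p * e) (p * l)
    (by positivity) (by positivity)
  have h3 := aux3 k l (e + z) hk hl (by positivity)
  rw [key, e1]
  refine le_add_of_le_of_nonneg ?_ (by positivity)
  generalize (-(1 / 5) * k ^ 2 - 3 / 10 * (k * (e + z)) + 2 / 5 * (k * l)) = A at h2 h3 ⊢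
  generalize k ^ 2 * l * (e + z) = B at h3 ⊢
  generalize k * (e + z) = a at h1 h3 ⊢
  generalize p * e = u at h1 h2 ⊢
  generalize p * z = t at h1 ⊢
  generalize p * l = r at h2 ⊢
  linarith

theorem cert' {p k l v y w o : ℝ} (hp : 0 < p) (hk : 0 ≤ k) (hl : 0 ≤ l) (hv : 0 ≤ v)
    (hvy : v ≤ p * y) (ho : o ≤ l * y) : ((k + 2 * p) * y) ^ 2 / 1040 ≤ Qc p k l v y w o := by
  have h := cert_cone' p k l (v / p) (y - v / p) (l * y - o) w hp.le hk hl (by positivity)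
    (by rw [sub_nonneg, div_le_iff₀ hp]; linarith) (by linarith)
  have e1 : p * (v / p) = v := by field_simp
  have e2 : v / p + (y - v / p) = y := by ring
  have e3 : l * y - (l * y - o) = o := by ring
  rw [e1, e2, e3] at h
  exact h

/-- the integrand with a margin -/
def phiJ (m κ : ℝ) (R f : ℝ → ℝ) (x : ℝ) : ℝ :=
  R x * (Real.exp (m * f x) * (deriv (deriv (deriv (deriv f))) x ^ 2
    - 12 * m * deriv (deriv f) x * deriv (deriv (deriv f)) x ^ 2
    + (6 * m ^ 2 - κ) * deriv (deriv f) x ^ 4))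

/-- **the strict no-gap inequality** -/
theorem core' {m c : ℝ} {f R : ℝ → ℝ} (h : Inv 1 m f) (hm : 0 < m) (hR : GW R) (hc : 0 ≤ c)
    (hH : Hop c f) : 0 ≤ ∫ x, phiJ m (c ^ 2 / 1040) R f x := by
  -- basic functions
  have hE : EG fun x => Real.exp (m * f x) := (h.prof.exp_egs m).eg
  have h2 := h.prof.bd.deriv.eg
  have h3 := h.prof.bd.deriv.deriv.eg
  have h4 := h.prof.bd.deriv.deriv.deriv.eg
  have hI : EG fun x => Real.exp (m * f x) * (deriv (deriv (deriv (deriv f))) x ^ 2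
      - 12 * m * deriv (deriv f) x * deriv (deriv (deriv f)) x ^ 2
      + (6 * m ^ 2 - c ^ 2 / 1040) * deriv (deriv f) x ^ 4) := by
    refine hE.mul (((h4.pow 2).sub (((h2.const_mul (12 * m)).mul (h3.pow 2)))).add
      ((h2.pow 4).const_mul (6 * m ^ 2 - c ^ 2 / 1040)))
  have hφ : SD (phiJ m (c ^ 2 / 1040) R f) := hR.sds.sd.mul hI
  set p := fM m f with hp
  set k : ℝ → ℝ := fun x => fb f x - 2 * fM m f x with hk
  set l := fr R with hl
  set v := fa m f with hv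
  set W : ℝ → ℝ := fun x => R x * (Real.exp (m * f x) * deriv (deriv f) x ^ 2) with hW
  have dp : ∀ x, HasDerivAt p (v x) x := fM_d h
  have dk : ∀ x, HasDerivAt k (fE m f x) x := fun x =>
    ((fb_d h x).fun_sub ((fM_d h x).const_mul 2)).congr_deriv (by ring)
  have dl : ∀ x, HasDerivAt l (fo R x) x := fr_d hR
  have dv : ∀ x, HasDerivAt v (-((k x + 2 * p x) * v x)) x := fun x =>
    (fa_d h x).congr_deriv (by simp only [hk, hp, hv]; ring)
  have dy : ∀ x : ℝ, x ≠ 0 → HasDerivAt (fun x : ℝ => 1 / x) (-(1 / x) ^ 2) x := fun x hx => by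
    have := hasDerivAt_inv hx
    refine (this.congr_deriv ?_).congr_of_eventuallyEq ?_
    · field_simp
    · exact Eventually.of_forall fun y => one_div y
  have dW : ∀ x, HasDerivAt W (-(W x * (l x + 3 * p x + 2 * k x))) x := fun x => by
    have e1 := ((h.prof.d1 x).const_mul m).exp
    have e2 := (h.prof.bd.deriv.hasDerivAt x).fun_pow 2
    refine ((Rd hR x).fun_mul (e1.fun_mul e2)).congr_deriv ?_
    simp only [hW, hl, hp, hk]
    rw [u3_eq h]
    unfold fM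
    norm_num
    ring
  have hWpos : ∀ x, 0 < W x := fun x =>
    mul_pos (hR.pos x) (mul_pos (Real.exp_pos _) (pow_pos (u2_pos h x) 2))
  set G : ℝ → ℝ := fun x => W x * chi (p x) (k x) (l x) (v x) (1 / x) with hG
  refine integral_nonneg_of_cert (G := G)
    (G' := fun x => -(W x * (l x + 3 * p x + 2 * k x)) * chi (p x) (k x) (l x) (v x) (1 / x) +
      W x * chi' (p x) (k x) (l x) (v x) (1 / x) (fE m f x) (fo R x))
    hφ.cont hφ.integrable ?_ ?_ ?_ ?_ ?_
  · -- evenness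
    intro x
    unfold phiJ
    rw [hR.even, h.even, u4_even h, u3_odd h, u2_even h]
    ring
  · intro x hx
    exact (dW x).fun_mul (chi_hasDerivAt (y := fun x => 1 / x) (dp x) (dk x) (dl x) (dv x)
      (dy x hx.ne'))
  · intro x hx
    have hq := cert' (p := p x) (k := k x) (l := l x) (v := v x) (y := 1 / x) (w := fE m f x)
      (o := fo R x) ?_ ?_ (fr_nonneg hR hx) (fa_pos h hm x).le ?_ (fo_le hR hx)
    · have e : phiJ m (c ^ 2 / 1040) R f x + (-(W x * (l x + 3 * p x + 2 * k x)) *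
          chi (p x) (k x) (l x) (v x) (1 / x) +
          W x * chi' (p x) (k x) (l x) (v x) (1 / x) (fE m f x) (fo R x)) =
          W x * (Qc (p x) (k x) (l x) (v x) (1 / x) (fE m f x) (fo R x) -
            c ^ 2 / 1040 * deriv (deriv f) x ^ 2) := by
        have e1 : phiJ m (c ^ 2 / 1040) R f x =
            W x * (((k x + 2 * p x) ^ 2 - 2 * v x - fE m f x) ^ 2 -
            12 * (k x + 2 * p x) ^ 2 * v x + 6 * v x ^ 2 -
            c ^ 2 / 1040 * deriv (deriv f) x ^ 2) := by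
          unfold phiJ
          rw [u4_eq h, u3_eq h]
          simp only [hW, hk, hp, hv]
          unfold fa
          ring
        rw [e1]
        unfold Qc
        ring
      rw [e]
      refine mul_nonneg (hWpos x).le ?_
      have a0 := u2_pos h x
      have a1 : c * deriv f x ≤ fb f x := by
        unfold fb
        rw [le_div_iff₀ a0]
        have := hH x hx.le
        linarith
      have a2 : x * deriv (deriv f) x ≤ deriv f x := by
        have := fa_le h hm hx.le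
        unfold fa fM at this
        refine le_of_mul_le_mul_left ?_ hm
        linarith
      have a3 : c * deriv (deriv f) x ≤ (k x + 2 * p x) * (1 / x) := by
        have e2 : k x + 2 * p x = fb f x := by simp only [hk, hp]; ring
        rw [e2, mul_one_div, le_div_iff₀ hx]
        nlinarith [mul_le_mul_of_nonneg_left a2 hc]
      have a4 := pow_le_pow_left₀ (mul_nonneg hc a0.le) a3 2
      rw [mul_pow] at a4
      linarith
    · -- `p x > 0`
      have := h.strictMono hx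
      rw [h.d0] at this
      exact mul_pos hm this
    · have := fb_ge h hx.le (m := m)
      simp only [hk]
      linarith
    · have := fa_le h hm hx.le
      rw [mul_one_div, le_div_iff₀ hx]
      simp only [hp, hv]
      linarith
  · -- limit at zero
    have tp : Tendsto p (𝓝[>] 0) (𝓝 0) := by
      have := (dp 0).continuousAt.tendsto
      rw [hp, fM0 h] at this
      exact this.mono_left nhdsWithin_le_nhds
    have tk : Tendsto k (𝓝[>] 0) (𝓝 0) := by
      have := (dk 0).continuousAt.tendsto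
      have e : k 0 = 0 := by simp only [hk]; rw [fb0 h, fM0 h]; ring
      rw [e] at this
      exact this.mono_left nhdsWithin_le_nhds
    have tl : Tendsto l (𝓝[>] 0) (𝓝 0) := by
      have := (dl 0).continuousAt.tendsto
      rw [hl, fr0 hR] at this
      exact this.mono_left nhdsWithin_le_nhds
    have tv : Tendsto v (𝓝[>] 0) (𝓝 (v 0)) :=
      (dv 0).continuousAt.tendsto.mono_left nhdsWithin_le_nhds
    have tW : Tendsto W (𝓝[>] 0) (𝓝 (W 0)) :=
      (dW 0).continuousAt.tendsto.mono_left nhdsWithin_le_nhds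
    have tpy : Tendsto (fun x => p x * (1 / x)) (𝓝[>] 0) (𝓝 (v 0)) :=
      slope_tendsto (fM0 h) (dp 0)
    have tky : Tendsto (fun x => k x * (1 / x)) (𝓝[>] 0) (𝓝 (fE m f 0)) := by
      refine slope_tendsto ?_ (dk 0)
      simp only [hk]; rw [fb0 h, fM0 h]; ring
    have e : G = fun x => W x * (5 * (p x) ^ 3 + 34 / 5 * ((p x) ^ 2 * k x)
      + 29 / 10 * (p x * (k x) ^ 2)
      + 2 / 5 * (k x) ^ 3 + (-(49 / 5)) * (p x * v x) + (-(22 / 5)) * (k x * v x)
      + 7 / 10 * (l x * v x) + (-(7 / 10)) * (l x * (p x * (1 / x))) + (-2) * ((p x) ^ 2 * l x)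
      + (-(8 / 5)) * (p x * k x * l x) + (-(1 / 5)) * ((k x) ^ 2 * l x)
      + (-(1 / 10)) * (p x * (p x * (1 / x))) + (-(1 / 10)) * (k x * (k x * (1 / x)))) := by
      funext x
      simp only [hG]
      unfold chi
      ring
    rw [e]
    have t := tW.mul (((((((((((((((tp.pow 3).const_mul 5).add
      (((tp.pow 2).mul tk).const_mul (34 / 5))).add
      ((tp.mul (tk.pow 2)).const_mul (29 / 10))).add
      ((tk.pow 3).const_mul (2 / 5))).add
      ((tp.mul tv).const_mul (-(49 / 5)))).add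
      ((tk.mul tv).const_mul (-(22 / 5)))).add
      ((tl.mul tv).const_mul (7 / 10))).add
      ((tl.mul tpy).const_mul (-(7 / 10)))).add
      (((tp.pow 2).mul tl).const_mul (-2))).add
      (((tp.mul tk).mul tl).const_mul (-(8 / 5)))).add
      (((tk.pow 2).mul tl).const_mul (-(1 / 5)))).add
      ((tp.mul tpy).const_mul (-(1 / 10)))).add
      ((tk.mul tky).const_mul (-(1 / 10)))))
    refine t.congr' ?_ |>.trans ?_
    · exact Eventually.of_forall fun x => rfl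
    · norm_num
  · -- limit at infinity
    have hEp : EG p := (h.prof.bd.const_mul m).eg
    have hEv : EG v := (h.prof.bd.deriv.const_mul m).eg
    have hEk : EG k := (fb_eg h).sub (hEp.const_mul 2)
    have hS0 : SD W := hR.sds.sd.mul (hE.mul (h2.pow 2))
    have hS1 : SD (fun x => W x * l x) := by
      have : SD fun x => deriv R x * (-1 * (Real.exp (m * f x) * deriv (deriv f) x ^ 2)) :=
        hR.sds.deriv.sd.mul ((hE.mul (h2.pow 2)).const_mul (-1))
      refine this.congr fun x => ?_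
      simp only [hW, hl]
      unfold fr
      have := (hR.pos x).ne'
      field_simp
    have hA : SD fun x => W x * (5 * (p x) ^ 3 + 34 / 5 * ((p x) ^ 2 * k x)
        + 29 / 10 * (p x * (k x) ^ 2) + 2 / 5 * (k x) ^ 3 + (-(49 / 5)) * (p x * v x)
        + (-(22 / 5)) * (k x * v x)) :=
      hS0.mul (((((((hEp.pow 3).const_mul 5).add (((hEp.pow 2).mul hEk).const_mul (34 / 5))).add
        ((hEp.mul (hEk.pow 2)).const_mul (29 / 10))).add ((hEk.pow 3).const_mul (2 / 5))).add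
        ((hEp.mul hEv).const_mul (-(49 / 5)))).add ((hEk.mul hEv).const_mul (-(22 / 5))))
    have hB : SD fun x => (W x * l x) * (7 / 10 * v x + (-2) * (p x) ^ 2 +
        (-(8 / 5)) * (p x * k x) + (-(1 / 5)) * (k x) ^ 2) :=
      hS1.mul ((((hEv.const_mul (7 / 10)).add ((hEp.pow 2).const_mul (-2))).add
        ((hEp.mul hEk).const_mul (-(8 / 5)))).add ((hEk.pow 2).const_mul (-(1 / 5))))
    have hC : SD fun x => W x * ((-(1 / 10)) * (p x) ^ 2 + (-(1 / 10)) * (k x) ^ 2) :=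
      hS0.mul (((hEp.pow 2).const_mul (-(1 / 10))).add ((hEk.pow 2).const_mul (-(1 / 10))))
    have hD : SD fun x => (W x * l x) * ((-(7 / 10)) * p x) :=
      hS1.mul (hEp.const_mul (-(7 / 10)))
    have ty : Tendsto (fun x : ℝ => 1 / x) atTop (𝓝 0) := by
      simpa using tendsto_inv_atTop_zero (𝕜 := ℝ)
    have t := ((hA.tendsto.add hB.tendsto).add ((hC.tendsto.add hD.tendsto).mul ty))
    have e0 : (0 : ℝ) + 0 + (0 + 0) * 0 = 0 := by norm_num
    rw [e0] at t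
    refine t.congr fun x => ?_
    simp only [hG]
    unfold chi
    ring


end

end Crest.Agent.T156.Str
end

-- ▼ part T156/StrB_62

/-!
Row 156 (helper62): **strict no-gap** along a list of blocks, and the slopes of the tilt profile.
-/

set_option autoImplicit false

namespace Crest.Agent.T156.Str

open MeasureTheory ProbabilityTheory Filter Topology Set
open Crest.Agent.R164.GC Crest.Agent.R339.B Crest.Agent.R339.Var Crest.Agent.T157.Pf
open Crest.Agent.T156.Pp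
open Crest.ProbabilityR.InvariantGlass (gaussOp)

noncomputable section

/-- `Φ₄² - 12 m Φ₂ Φ₃² + (6 m² - κ) Φ₂⁴` -/
def NJ (m κ : ℝ) (Φ : ℝ → ℝ) (y : ℝ) : ℝ :=
  Dn 3 Φ y ^ 2 - 12 * m * (Dn 1 Φ y * Dn 2 Φ y ^ 2) + (6 * m ^ 2 - κ) * Dn 1 Φ y ^ 4

theorem bfn_NJ (m κ : ℝ) : BFn (NJ m κ) :=
  ⟨fun _ h => toBC ((((Dn_bd h 3).pow 2).sub
      (((Dn_bd h 1).mul ((Dn_bd h 2).pow 2)).const_mul (12 * m))).add
      (((Dn_bd h 1).pow 4).const_mul (6 * m ^ 2 - κ))),
    fun _ h m' _ => (((Dn_ug h m' 3).pow 2).sub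
      (((Dn_ug h m' 1).mul ((Dn_ug h m' 2).pow 2)).const_mul (12 * m))).add
      (((Dn_ug h m' 1).pow 4).const_mul (6 * m ^ 2 - κ))⟩

theorem block_phiJ {m κ : ℝ} {Φ : ℝ → ℝ} (h : Inv 1 m Φ) (hm : 0 < m) (S : ℝ → ℝ) (v y : ℝ) :
    S y * (Wk Φ m 0 v y * NJ m κ (gaussOp m v Φ) y) = phiJ m κ S (gaussOp m v Φ) y := by
  unfold phiJ NJ
  rw [W0_eq h.prof hm.ne', U_zero, Dn_three, Dn_two, Dn_one]
  ring

theorem conv_pt' {m c : ℝ} {Φ : ℝ → ℝ} (h : Inv 1 m Φ) (hm : 0 < m) (hm1 : m ≤ 1) (hc : 0 ≤ c)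
    {ν : Measure ℝ} (hν : GC ν) {d τ : ℝ} (h1 : 0 < τ) (hH : Hop c (gaussOp m (d - τ) Φ)) :
    0 ≤ EE Φ m d ν (fun v => NJ m (c ^ 2 / 1040) (gaussOp m v Φ)) τ := by
  rcases hν with ⟨a, ha, rfl⟩ | ⟨R, hR, rfl⟩
  · rw [Crest.Agent.R339.B.EE_dirac m _ _ d h1]
    have := core' (h.step hm hm1 (d - τ)) hm (gd_gw h1) hc hH
    have e : ∫ y, (ENNReal.ofReal a).toReal * gd τ y * (Wk Φ m 0 (d - τ) y *
        NJ m (c ^ 2 / 1040) (gaussOp m (d - τ) Φ) y) =
        (ENNReal.ofReal a).toReal * ∫ x, phiJ m (c ^ 2 / 1040) (gd τ) (gaussOp m (d - τ) Φ) x := by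
      rw [← integral_const_mul]
      refine integral_congr_ae (Eventually.of_forall fun y => ?_)
      show (ENNReal.ofReal a).toReal * gd τ y * (Wk Φ m 0 (d - τ) y *
        NJ m (c ^ 2 / 1040) (gaussOp m (d - τ) Φ) y) =
        (ENNReal.ofReal a).toReal * phiJ m (c ^ 2 / 1040) (gd τ) (gaussOp m (d - τ) Φ) y
      rw [← block_phiJ h hm, mul_assoc]
    rw [e]
    exact mul_nonneg ENNReal.toReal_nonneg this
  · rw [EE_dens h.prof m hR.sds.sd (fun x => (hR.pos x).le)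
      ((bfn_NJ m (c ^ 2 / 1040)).ug _ h.prof m hm) d h1]
    have := core' (h.step hm hm1 (d - τ)) hm (heatGW R hR τ h1) hc hH
    refine this.trans (le_of_eq ?_)
    refine integral_congr_ae (Eventually.of_forall fun y => ?_)
    exact (block_phiJ h hm _ _ _).symm

/-- the margin -/
def kp (T : ℝ) : ℝ := (2 * Real.exp (-(3 * T))) ^ 2 / 1040

theorem kp_pos (T : ℝ) : 0 < kp T := by unfold kp; positivity

theorem kp_le {T : ℝ} (hT : 0 ≤ T) : kp T ≤ 1 := by
  unfold kp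
  have h1 : Real.exp (-(3 * T)) ≤ 1 := Real.exp_le_one_iff.2 (by linarith)
  have h2 := Real.exp_pos (-(3 * T))
  nlinarith

theorem PsiF_NJ (T : ℝ) : ∀ (l : List (ℝ × ℝ)), Adm 1 l → (∀ p ∈ l, 0 < p.2) → TT l ≤ T →
    ∀ ν, GC ν → ∀ t, 0 ≤ t → t < TT l → 0 ≤ PsiF (NJ (lvr 1 l t) (kp T)) 1 l ν t
  | [], _, _, _, _, _, t, h0, h1 => by
    unfold TT at h1
    simp at h1
    linarith
  | p :: l, hA, hl, hT, ν, hν, t, h0, h1 => by
    have hC := gclass 1
    have hp2 := hl p (by simp)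
    have hprof := PhiL_prof one_pos l
    by_cases ht : t < p.2
    · have e : lvr 1 (p :: l) t = p.1 := by unfold lvr; rw [if_pos ht]
      rw [e, PsiF_block one_pos hA.1 ν h0 ht.le]
      have hI := (PhiL_inv one_pos hA.2.2.2).mono hA.2.1
      have hm1 : p.1 ≤ 1 := hA.2.1.trans hA.2.2.2.head_le
      have key : ∀ τ, 0 < τ → τ < p.2 → 0 ≤ EE (PhiL 1 l) p.1 p.2 ν
          (fun v => NJ p.1 (kp T) (gaussOp p.1 v (PhiL 1 l))) τ := fun τ a b => by
        refine conv_pt' hI hA.1 hm1 (by positivity) hν a ?_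
        have h3 := hop_PhiT hA τ (by
          rw [TT_cons]
          linarith [TT_nonneg (l := l) fun q hq => (hl q (by simp [hq])).le])
        have e1 : PhiT 1 (p :: l) τ = gaussOp p.1 (p.2 - τ) (PhiL 1 l) := by
          unfold PhiT; rw [if_pos b.le]
        rw [e1] at h3
        refine Hop.mono (hI.step hA.1 hm1 _) h3 ?_
        have := Real.exp_le_exp.2 (show -(3 * T) ≤ -(3 * (TT (p :: l) - τ)) by linarith)
        linarith
      rcases h0.eq_or_lt with rfl | h0'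
      · have hc := EE_cont hprof p.1 ((bfn_NJ p.1 (kp T)).ug _ hprof p.1 hA.1) (hC.em ν hν) p.2
        refine ge_of_tendsto ((hc.tendsto 0).mono_left (nhdsWithin_le_nhds (s := Ioi 0))) ?_
        filter_upwards [Ioo_mem_nhdsGT hp2] with τ hτ
        exact key τ hτ.1 hτ.2
      · exact key t h0' ht
    · obtain ⟨ν', hν', hN⟩ := hC.nx one_pos hA hp2 hν
      have ht' := not_lt.1 ht
      rw [TT_cons] at h1 hT
      have ih := PsiF_NJ T l hA.2.2.2 (fun q hq => hl q (by simp [hq])) (by linarith) ν' hν'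
        (t - p.2) (by linarith) (by linarith)
      have e : lvr 1 (p :: l) t = lvr 1 l (t - p.2) := by
        conv_lhs => unfold lvr
        rw [if_neg ht]
      rw [e, PsiF_next' (bfn_NJ _ _) one_pos hA.1 hp2.le (Adm.pos hA.2.2.2) hN ht']
      exact ih

/-- **strict no-gap, list form**: `κ(T) E Φ₂⁴ ≤ E[Φ₄² - 12 ζ Φ₂ Φ₃² + 6 ζ² Φ₂⁴]` -/
theorem EX_NJ {T : ℝ} {l : List (ℝ × ℝ)} (hA : Adm 1 l) (hl : ∀ p ∈ l, 0 < p.2) (hT : TT l ≤ T)
    {t : ℝ} (h0 : 0 ≤ t) (h1 : t < TT l) :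
    0 ≤ EX 1 l t (NJ (lvr 1 l t) (kp T) (PhiT 1 l t)) 0 := by
  rw [← PsiF_nu0]
  exact PsiF_NJ T l hA hl hT _ (Par.gc_nu0 l) t h0 h1

variable {P : Par} {β : ℝ}

theorem E_NJ (h : P.OK) (hβ : 0 < β) {s : ℝ} (h0 : 0 ≤ s) (h1 : s ≤ 1) :
    0 ≤ P.E β s (NJ (P.zeta s) (kp (2 * β ^ 2)) (P.Ph β s)) := by
  have hK := h.Kp
  have hK1 : (1 : ℝ) ≤ P.K := by exact_mod_cast h.Kpos
  have hb : 0 < β ^ 2 := by positivity
  have a1 : s * P.K < ((P.K + 1 : ℕ) : ℝ) := by
    push_cast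
    nlinarith
  rw [h.E_psi β (G := NJ (P.zeta s) (kp (2 * β ^ 2)))
    (fun Φ c => by unfold NJ; simp only [Dn_shift]) (Nat.le_add_right P.K 1) a1.le,
    ← h.lvr_eq hβ h0 a1]
  refine PsiF_NJ _ _ (h.adm β _) (h.lst_pos hβ _) ?_ _ (Par.gc_nu0 _) _ (by positivity) ?_
  · rw [Par.TT_lst]
    push_cast
    rw [add_mul, one_mul, mul_div_cancel₀ _ hK.ne']
    have : β ^ 2 / P.K ≤ β ^ 2 := div_le_self hb.le hK1
    linarith
  · rw [Par.TT_lst, show β ^ 2 * s = (s * P.K) * (β ^ 2 / P.K) by field_simp]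
    exact mul_lt_mul_of_pos_right a1 (by positivity)

/-- `A = E Φ₃²` -/
def Aa (P : Par) (β s : ℝ) : ℝ := P.E β s (W2 (P.Ph β s))

/-- `B = E Φ₂³` -/
def Bb (P : Par) (β s : ℝ) : ℝ := P.E β s (A3 (P.Ph β s))

theorem W2_eq (r : ℝ) : W2 (P.Ph β r) = fun x => P.Pxxx β r x ^ 2 := by
  funext x; unfold W2; rw [Dn_two]; rfl

theorem A3_eq (r : ℝ) : A3 (P.Ph β r) = fun x => P.Pxx β r x ^ 3 := by
  funext x; unfold A3; rw [Dn_one]; rfl

theorem Gam'_rder' (h : P.OK) (hβ : 0 < β) {s : ℝ} (hs : 0 ≤ s) :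
    HasDerivWithinAt (P.Gam' β) (β ^ 4 * (Aa P β s - 2 * P.zeta s * Bb P β s)) (Ici s) s := by
  refine (h.Gam'_rder hβ hs).congr_deriv ?_
  rw [Gam''_eq h]
  unfold Aa Bb
  rw [W2_eq, A3_eq]
  ring

theorem Aa_cont (h : P.OK) (hβ : 0 < β) (T : ℝ) : ContinuousOn (Aa P β) (Icc 0 T) :=
  h.E_cont hβ bfn_W2 (fun Φ c => by unfold W2; simp only [Dn_shift]) T

theorem Bb_cont (h : P.OK) (hβ : 0 < β) (T : ℝ) : ContinuousOn (Bb P β) (Icc 0 T) :=
  h.E_cont hβ bfn_A3 (fun Φ c => by unfold A3; simp only [Dn_shift]) T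

theorem Bb_nonneg (h : P.OK) (β s : ℝ) : 0 ≤ Bb P β s := by
  unfold Bb
  rw [A3_eq]
  exact P.E_nonneg β s ((h.Pxx_bc β s).pow 3) fun y => (pow_pos (h.Pxx_pos β s y) 3).le

theorem Bb_le (h : P.OK) (β s : ℝ) : Bb P β s ≤ 1 := by
  unfold Bb
  rw [A3_eq]
  have := P.E_abs_le β s ((h.Pxx_bc β s).pow 3)
  rw [one_pow] at this
  exact (le_abs_self _).trans this

/-- `(E Φ₂²)² ≤ E Φ₂⁴ ≤ E Φ₂³` -/
theorem sq_le_E4 (h : P.OK) (β s : ℝ) :
    (P.E β s fun x => P.Pxx β s x ^ 2) ^ 2 ≤ P.E β s fun x => P.Pxx β s x ^ 4 := by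
  have := P.E_sq β s ((h.Pxx_bc β s).pow 2)
  simpa only [← pow_mul] using this

theorem sq_le_Bb (h : P.OK) (β s : ℝ) : (P.E β s fun x => P.Pxx β s x ^ 2) ^ 2 ≤ Bb P β s := by
  refine (sq_le_E4 h β s).trans ?_
  unfold Bb
  rw [A3_eq]
  exact P.E_mono β s ((h.Pxx_bc β s).pow 4) ((h.Pxx_bc β s).pow 3) fun y =>
    pow_le_pow_of_le_one (h.Pxx_pos β s y).le (h.Pxx_le_one β s y) (by norm_num)

theorem A3'_abs (h : P.OK) (β r : ℝ) : |P.E β r (A3' (P.zeta r) (P.Ph β r))| ≤ 15 := by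
  obtain ⟨K, hK⟩ := (bfn_A3' (P.zeta r)).bc _ (P.prof β r)
  exact E_abs_le' P β r hK (K' := 15) fun y => by
    unfold A3'
    rw [Dn_one, Dn_two]
    have a1 : 0 < deriv (deriv (P.Ph β r)) y := h.Pxx_pos β r y
    have a2 : deriv (deriv (P.Ph β r)) y ≤ 1 := h.Pxx_le_one β r y
    have a3 : |deriv (deriv (deriv (P.Ph β r))) y| ≤ 2 := h.Pxxx_le_two β r y
    have a4 : deriv (deriv (deriv (P.Ph β r))) y ^ 2 ≤ 2 ^ 2 := sq_le_sq' (by
      linarith [(abs_le.1 a3).1]) (abs_le.1 a3).2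
    have a5 : deriv (deriv (P.Ph β r)) y ^ 4 ≤ 1 := pow_le_one₀ a1.le a2
    have a6 := mul_le_mul (h.zeta_le r) a5 (by positivity) zero_le_one
    have a7 := mul_le_mul a2 a4 (by positivity) zero_le_one
    have a8 := mul_nonneg (h.zeta_pos r).le (by positivity :
      0 ≤ deriv (deriv (P.Ph β r)) y ^ 4)
    have a9 := mul_nonneg a1.le (sq_nonneg (deriv (deriv (deriv (P.Ph β r))) y))
    rw [abs_le]
    constructor <;> nlinarith

/-- `A' - 2 ζ B' ≥ β² κ (E Φ₂²)²` -/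
theorem strict (h : P.OK) (hβ : 0 < β) {s : ℝ} (h0 : 0 ≤ s) (h1 : s ≤ 1) :
    kp (2 * β ^ 2) * (P.E β s fun x => P.Pxx β s x ^ 2) ^ 2 ≤
      P.E β s (W2' (P.zeta s) (P.Ph β s)) - 2 * P.zeta s * P.E β s (A3' (P.zeta s) (P.Ph β s)) := by
  obtain ⟨K1, b1⟩ := (bfn_W2' (P.zeta s)).bc _ (P.prof β s)
  obtain ⟨K2, b2⟩ := (bfn_A3' (P.zeta s)).bc _ (P.prof β s)
  have b3 := (h.Pxx_bc β s).pow 4
  have e : NJ (P.zeta s) (kp (2 * β ^ 2)) (P.Ph β s) = fun y =>
      (W2' (P.zeta s) (P.Ph β s) y - 2 * P.zeta s * A3' (P.zeta s) (P.Ph β s) y) -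
        kp (2 * β ^ 2) * P.Pxx β s y ^ 4 := by
    funext y
    unfold NJ W2' A3'
    rw [show P.Pxx β s = Dn 1 (P.Ph β s) by rw [Dn_one]; rfl]
    ring
  have := E_NJ h hβ h0 h1
  rw [e, P.E_sub β s (b1.sub (b2.const_mul _)) (b3.const_mul _), P.E_sub β s b1 (b2.const_mul _),
    Par.E_const_mul, Par.E_const_mul] at this
  have a := mul_le_mul_of_nonneg_left (sq_le_E4 h β s) (kp_pos (2 * β ^ 2)).le
  linarith

/-- increments of `J_c = A - 2 c B` from below -/
theorem J_low (h : P.OK) (hβ : 0 < β) {c g D u u' : ℝ} (hg : 0 ≤ g) (h0 : 0 ≤ u) (huu : u ≤ u')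
    (h1 : u' ≤ 1) (hG : ∀ r ∈ Icc u u', g ≤ P.E β r fun x => P.Pxx β r x ^ 2)
    (hD : ∀ r ∈ Icc u u', |P.zeta r - c| ≤ D) :
    β ^ 2 * (kp (2 * β ^ 2) * g ^ 2 - 30 * D) * (u' - u) ≤
      (Aa P β u' - 2 * c * Bb P β u') - (Aa P β u - 2 * c * Bb P β u) := by
  set w := β ^ 2 * (kp (2 * β ^ 2) * g ^ 2 - 30 * D) with hw
  have := le_of_rder (f := fun r => w * r - (Aa P β r - 2 * c * Bb P β r)) huu
    ((by fun_prop : ContinuousOn (fun r => w * r) _).sub
      (((Aa_cont h hβ u').sub (continuousOn_const.mul (Bb_cont h hβ u'))).mono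
        (Icc_subset_Icc h0 le_rfl)))
    (fun r hr => ((hasDerivWithinAt_id r _).const_mul w).sub
      ((W2_rder h hβ (h0.trans hr.1)).sub ((A3_rder h hβ (h0.trans hr.1)).const_mul (2 * c))))
    (fun r hr => by
      have hr' : r ∈ Icc u u' := ⟨hr.1, hr.2.le⟩
      have a1 := strict h hβ (h0.trans hr.1) (hr.2.le.trans h1)
      have a2 := mul_le_mul_of_nonneg_left (pow_le_pow_left₀ hg (hG r hr') 2)
        (kp_pos (2 * β ^ 2)).le
      have a3 : |(P.zeta r - c) * P.E β r (A3' (P.zeta r) (P.Ph β r))| ≤ D * 15 := by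
        rw [abs_mul]
        exact mul_le_mul (hD r hr') (A3'_abs h β r) (abs_nonneg _)
          ((abs_nonneg _).trans (hD r hr'))
      have a4 := (abs_le.1 a3).1
      have a5 := mul_le_mul_of_nonneg_left (show kp (2 * β ^ 2) * g ^ 2 - 30 * D ≤
        P.E β r (W2' (P.zeta r) (P.Ph β r)) - 2 * c * P.E β r (A3' (P.zeta r) (P.Ph β r)) by
          linarith) (sq_nonneg β)
      rw [hw]
      linarith)
  linarith

/-- **second differences from below**, every admissible `ζ` -/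
theorem diff2_low (h : P.OK) (hβ : 0 < β) {g s t k : ℝ} (hg : 0 ≤ g) (h0 : 0 ≤ s) (hk : 0 ≤ k)
    (hst : s + k ≤ t) (h1 : t ≤ 1) (hG : ∀ r ∈ Icc s t, g ≤ P.E β r fun x => P.Pxx β r x ^ 2) :
    k * (β ^ 4 * (β ^ 2 * (kp (2 * β ^ 2) * g ^ 2 - 30 * (P.zeta t - P.zeta s)) * (t - s - k) -
      2 * (P.zeta t - P.zeta s))) ≤
      (P.Gam' β t - P.Gam' β (t - k)) - (P.Gam' β (s + k) - P.Gam' β s) := by
  set D := P.zeta t - P.zeta s with hD
  set L := t - s - k with hL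
  set w := β ^ 4 * (β ^ 2 * (kp (2 * β ^ 2) * g ^ 2 - 30 * D) * L - 2 * D) with hw
  have L0 : 0 ≤ L := by rw [hL]; linarith
  have c1 : ContinuousOn (fun r => P.Gam' β (r + L)) (Icc s (s + k)) :=
    (h.Gam'_cont hβ t).comp (f := fun r => r + L) (by fun_prop)
      fun r hr => ⟨by linarith [hr.1], by rw [hL]; linarith [hr.2]⟩
  have d1 : ∀ r ∈ Ico s (s + k), HasDerivWithinAt (fun r => P.Gam' β (r + L))
      (β ^ 4 * (Aa P β (r + L) - 2 * P.zeta (r + L) * Bb P β (r + L))) (Ici r) r := fun r hr => by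
    have := HasDerivWithinAt.comp r (h := fun r => r + L)
      (Gam'_rder' h hβ (show 0 ≤ r + L by linarith [hr.1]))
      ((hasDerivAt_id' r).add_const L).hasDerivWithinAt (s := Ici r)
      (fun x hx => by simp only [mem_Ici] at hx ⊢; linarith)
    rwa [mul_one] at this
  have := le_of_rder (f := fun r => w * r - (P.Gam' β (r + L) - P.Gam' β r))
    (show s ≤ s + k by linarith)
    ((by fun_prop : ContinuousOn (fun r => w * r) _).sub
      (c1.sub ((h.Gam'_cont hβ (s + k)).mono (Icc_subset_Icc h0 le_rfl))))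
    (fun r hr => ((hasDerivWithinAt_id r _).const_mul w).sub
      ((d1 r hr).sub (Gam'_rder' h hβ (h0.trans hr.1))))
    (fun r hr => by
      have r1 : r + L ≤ t := by rw [hL]; linarith [hr.2]
      have a1 := J_low h hβ (c := P.zeta s) (D := D) hg (h0.trans hr.1)
        (show r ≤ r + L by linarith) (r1.trans h1)
        (fun x hx => hG x ⟨hr.1.trans hx.1, hx.2.trans r1⟩)
        (fun x hx => by
          have m1 := h.zeta_mono (hr.1.trans hx.1)
          have m2 := h.zeta_mono (hx.2.trans r1)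
          rw [abs_of_nonneg (by linarith), hD]
          linarith)
      rw [add_sub_cancel_left] at a1
      have m1 := h.zeta_mono hr.1
      have m2 := h.zeta_mono r1
      have m3 := h.zeta_mono (show s ≤ r + L by linarith [hr.1])
      have a2 := mul_nonneg (sub_nonneg.2 m1) (Bb_nonneg h β r)
      have a3 : (P.zeta (r + L) - P.zeta s) * Bb P β (r + L) ≤ D * 1 :=
        mul_le_mul (by rw [hD]; linarith) (Bb_le h β _) (Bb_nonneg h β _) (by rw [hD]; linarith)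
      have a4 := mul_le_mul_of_nonneg_left (show β ^ 2 * (kp (2 * β ^ 2) * g ^ 2 - 30 * D) * L -
        2 * D ≤ (Aa P β (r + L) - 2 * P.zeta (r + L) * Bb P β (r + L)) -
          (Aa P β r - 2 * P.zeta r * Bb P β r) by linarith) (by positivity : 0 ≤ β ^ 4)
      rw [hw]
      linarith)
  have e1 : s + k + L = t := by rw [hL]; ring
  have e2 : s + L = t - k := by rw [hL]; ring
  simp only [e1, e2] at this
  linarith

/-- increments of `J_c = A - 2 c B` from above -/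
theorem J_up (h : P.OK) (hβ : 0 < β) {c M u u' : ℝ} (hc0 : 0 ≤ c) (hc1 : c ≤ 1) (h0 : 0 ≤ u)
    (huu : u ≤ u') (hM : ∀ r, 0 ≤ r → ∀ x, |Dn 3 (P.Ph β r) x| ≤ M) :
    (Aa P β u' - 2 * c * Bb P β u') - (Aa P β u - 2 * c * Bb P β u) ≤
      β ^ 2 * (M ^ 2 + 30) * (u' - u) := by
  set w := β ^ 2 * (M ^ 2 + 30) with hw
  have := le_of_rder (f := fun r => (Aa P β r - 2 * c * Bb P β r) - w * r) huu
    ((((Aa_cont h hβ u').sub (continuousOn_const.mul (Bb_cont h hβ u'))).mono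
        (Icc_subset_Icc h0 le_rfl)).sub (by fun_prop : ContinuousOn (fun r => w * r) _))
    (fun r hr => ((W2_rder h hβ (h0.trans hr.1)).sub
      ((A3_rder h hβ (h0.trans hr.1)).const_mul (2 * c))).sub
      ((hasDerivWithinAt_id r _).const_mul w))
    (fun r hr => by
      obtain ⟨K1, b1⟩ := (bfn_W2' (P.zeta r)).bc _ (P.prof β r)
      have a1 := P.E_mono β r b1 (BC.const (M ^ 2)) fun y => by
        unfold W2'
        have q1 : Dn 3 (P.Ph β r) y ^ 2 ≤ M ^ 2 := by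
          rw [← sq_abs]
          exact pow_le_pow_left₀ (abs_nonneg _) (hM r (h0.trans hr.1) y) 2
        have q2 : 0 < Dn 1 (P.Ph β r) y := by rw [Dn_one]; exact h.Pxx_pos β r y
        have q3 := h.zeta_pos r
        have q4 : 0 ≤ 6 * P.zeta r * (Dn 1 (P.Ph β r) y * Dn 2 (P.Ph β r) y ^ 2) := by positivity
        linarith
      rw [Par.E_const] at a1
      have a3 : |c * P.E β r (A3' (P.zeta r) (P.Ph β r))| ≤ 1 * 15 := by
        rw [abs_mul, abs_of_nonneg hc0]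
        exact mul_le_mul hc1 (A3'_abs h β r) (abs_nonneg _) zero_le_one
      have a4 := (abs_le.1 a3).1
      have a5 := mul_le_mul_of_nonneg_left (show P.E β r (W2' (P.zeta r) (P.Ph β r)) -
        2 * c * P.E β r (A3' (P.zeta r) (P.Ph β r)) ≤ M ^ 2 + 30 by linarith) (sq_nonneg β)
      rw [hw]
      linarith)
  linarith

/-- **second differences from above**, every admissible `ζ` -/
theorem diff2_up (h : P.OK) (hβ : 0 < β) {g M s t k : ℝ} (hg : 0 ≤ g) (h0 : 0 ≤ s) (hk : 0 ≤ k)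
    (hst : s + k ≤ t - k) (hM : ∀ r, 0 ≤ r → ∀ x, |Dn 3 (P.Ph β r) x| ≤ M)
    (hG : ∀ r ∈ Icc s t, g ≤ P.E β r fun x => P.Pxx β r x ^ 2) :
    (P.Gam' β t - P.Gam' β (t - k)) - (P.Gam' β (s + k) - P.Gam' β s) ≤
      k * (β ^ 4 * (β ^ 2 * (M ^ 2 + 30) * (t - s - k) -
        2 * g ^ 2 * (P.zeta (t - k) - P.zeta (s + k)))) := by
  set D := P.zeta (t - k) - P.zeta (s + k) with hD
  set L := t - s - k with hL
  set w := β ^ 4 * (β ^ 2 * (M ^ 2 + 30) * L - 2 * g ^ 2 * D) with hw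
  have L0 : 0 ≤ L := by rw [hL]; linarith
  have D0 : 0 ≤ D := sub_nonneg.2 (h.zeta_mono hst)
  have c1 : ContinuousOn (fun r => P.Gam' β (r + L)) (Icc s (s + k)) :=
    (h.Gam'_cont hβ t).comp (f := fun r => r + L) (by fun_prop)
      fun r hr => ⟨by linarith [hr.1], by rw [hL]; linarith [hr.2]⟩
  have d1 : ∀ r ∈ Ico s (s + k), HasDerivWithinAt (fun r => P.Gam' β (r + L))
      (β ^ 4 * (Aa P β (r + L) - 2 * P.zeta (r + L) * Bb P β (r + L))) (Ici r) r := fun r hr => by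
    have := HasDerivWithinAt.comp r (h := fun r => r + L)
      (Gam'_rder' h hβ (show 0 ≤ r + L by linarith [hr.1]))
      ((hasDerivAt_id' r).add_const L).hasDerivWithinAt (s := Ici r)
      (fun x hx => by simp only [mem_Ici] at hx ⊢; linarith)
    rwa [mul_one] at this
  have := le_of_rder (f := fun r => (P.Gam' β (r + L) - P.Gam' β r) - w * r)
    (show s ≤ s + k by linarith)
    ((c1.sub ((h.Gam'_cont hβ (s + k)).mono (Icc_subset_Icc h0 le_rfl))).sub
      (by fun_prop : ContinuousOn (fun r => w * r) _))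
    (fun r hr => ((d1 r hr).sub (Gam'_rder' h hβ (h0.trans hr.1))).sub
      ((hasDerivWithinAt_id r _).const_mul w))
    (fun r hr => by
      have r1 : r + L ≤ t := by rw [hL]; linarith [hr.2]
      have a1 := J_up h hβ (c := P.zeta r) (h.zeta_pos r).le (h.zeta_le r) (h0.trans hr.1)
        (show r ≤ r + L by linarith) hM
      rw [add_sub_cancel_left] at a1
      have m1 := h.zeta_mono hr.2.le
      have m2 := h.zeta_mono (show t - k ≤ r + L by rw [hL]; linarith [hr.1])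
      have a2 : g ^ 2 ≤ Bb P β (r + L) :=
        (pow_le_pow_left₀ hg (hG _ ⟨by linarith [hr.1], r1⟩) 2).trans (sq_le_Bb h β _)
      have a3 : D * g ^ 2 ≤ (P.zeta (r + L) - P.zeta r) * Bb P β (r + L) :=
        mul_le_mul (by rw [hD]; linarith) a2 (sq_nonneg g) (by linarith)
      have a4 := mul_le_mul_of_nonneg_left (show
        (Aa P β (r + L) - 2 * P.zeta (r + L) * Bb P β (r + L)) -
          (Aa P β r - 2 * P.zeta r * Bb P β r) ≤ β ^ 2 * (M ^ 2 + 30) * L - 2 * g ^ 2 * D by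
          linarith) (by positivity : 0 ≤ β ^ 4)
      rw [hw]
      linarith)
  have e1 : s + k + L = t := by rw [hL]; ring
  have e2 : s + L = t - k := by rw [hL]; ring
  simp only [e1, e2] at this
  linarith

theorem g_low (hβ : 0 < β) {r η : ℝ} (hη : η ≤ 1 / 2) (hr : |P.Gam' β r - 1| ≤ η) :
    1 / (2 * β ^ 2) ≤ P.E β r fun x => P.Pxx β r x ^ 2 := by
  have := (abs_le.1 hr).1
  unfold Par.Gam' at this
  rw [div_le_iff₀ (by positivity)]
  linarith

/-- the lower slope constant -/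
def cs (β : ℝ) : ℝ := kp (2 * β ^ 2) / (4 * β ^ 2 * (30 * β ^ 2 + 2))

theorem cs_pos (hβ : 0 < β) : 0 < cs β := by
  have := kp_pos (2 * β ^ 2)
  unfold cs
  positivity

theorem cs_le (hβ : 1 ≤ β) : cs β ≤ 1 := by
  have h1 := kp_le (show 0 ≤ 2 * β ^ 2 by positivity)
  have h2 : 1 ≤ β ^ 2 := one_le_pow₀ hβ
  unfold cs
  rw [div_le_one (by positivity)]
  nlinarith

/-- **lower slope** wherever `|Γ' - 1| ≤ η` -/
theorem slope_ge (h : P.OK) (hβ : 1 ≤ β) {η s t : ℝ} (hη0 : 0 < η) (hη : η ≤ 1 / 2) (h0 : 0 ≤ s)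
    (hst : s ≤ t) (h1 : t ≤ 1) (hG : ∀ r ∈ Icc s t, |P.Gam' β r - 1| ≤ η) :
    cs β * (t - s) - 3 * √η ≤ P.zeta t - P.zeta s := by
  have hβ0 : 0 < β := by linarith
  set k := √η with hk
  have k0 : 0 < k := Real.sqrt_pos.2 hη0
  have kk : k * k = η := Real.mul_self_sqrt hη0.le
  have c0 := cs_pos hβ0
  have c1 := cs_le hβ
  have D0 : 0 ≤ P.zeta t - P.zeta s := sub_nonneg.2 (h.zeta_mono hst)
  rcases le_total (s + k) t with hc | hc
  · have a1 := diff2_low h hβ0 (g := 1 / (2 * β ^ 2)) (by positivity) h0 k0.le hc h1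
      fun r hr => g_low hβ0 hη (hG r hr)
    have g1 := abs_le.1 (hG t ⟨hst, le_rfl⟩)
    have g2 := abs_le.1 (hG (t - k) ⟨by linarith, by linarith⟩)
    have g3 := abs_le.1 (hG (s + k) ⟨by linarith, hc⟩)
    have g4 := abs_le.1 (hG s ⟨le_rfl, hst⟩)
    set D := P.zeta t - P.zeta s with hD
    set L := t - s - k with hL
    have L0 : 0 ≤ L := by rw [hL]; linarith
    have L1 : L ≤ 1 := by rw [hL]; linarith
    have b2 : 1 ≤ β ^ 2 := one_le_pow₀ hβ
    have b4 : 1 ≤ β ^ 4 := one_le_pow₀ hβ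
    have e : β ^ 2 * (kp (2 * β ^ 2) * (1 / (2 * β ^ 2)) ^ 2 - 30 * D) * L - 2 * D =
        (30 * β ^ 2 + 2) * (cs β * L) - (30 * β ^ 2 * (D * L) + 2 * D) := by
      unfold cs
      field_simp
      ring
    rw [e] at a1
    set X := (30 * β ^ 2 + 2) * (cs β * L) - (30 * β ^ 2 * (D * L) + 2 * D) with hX
    have a2 : β ^ 4 * X ≤ 4 * k := le_of_mul_le_mul_left (by nlinarith) k0
    have a3 : X ≤ 4 * k := by
      by_contra hn
      have hn' := not_le.1 hn
      nlinarith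
    have a4 : 30 * β ^ 2 * (D * L) ≤ 30 * β ^ 2 * D :=
      mul_le_mul_of_nonneg_left (mul_le_of_le_one_right D0 L1) (by positivity)
    have a5 : (30 * β ^ 2 + 2) * (cs β * L - D) ≤ (30 * β ^ 2 + 2) * (2 * k) := by
      have : 0 ≤ β ^ 2 * k := by positivity
      rw [hX] at a3
      nlinarith
    have a6 := le_of_mul_le_mul_left a5 (by positivity)
    have a7 := mul_le_mul_of_nonneg_right c1 k0.le
    have e2 : cs β * (t - s) = cs β * L + cs β * k := by rw [hL]; ring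
    linarith
  · have a1 := mul_le_mul c1 (show t - s ≤ k by linarith) (by linarith) zero_le_one
    linarith

/-- **upper slope**, any window `k` -/
theorem slope_le (hβ : 1 ≤ β) : ∃ C : ℝ, 1 ≤ C ∧ ∀ P : Par, P.OK → ∀ η s t k : ℝ, η ≤ 1 / 2 →
    0 < k → k ≤ s → s ≤ t → (∀ r ∈ Icc (s - k) (t + k), |P.Gam' β r - 1| ≤ η) →
    P.zeta t - P.zeta s ≤ C * (t - s + k + η / k) := by
  have hβ0 : 0 < β := by linarith
  obtain ⟨M, M1, hM⟩ := Dn_Ph β 3
  have b2 : 1 ≤ β ^ 2 := one_le_pow₀ hβ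
  have b6 : 1 ≤ β ^ 6 := one_le_pow₀ hβ
  refine ⟨2 * β ^ 6 * (M ^ 2 + 30), by nlinarith [sq_nonneg M], fun P h η s t k hη k0 hks hst hG => ?_⟩
  have a1 := diff2_up h hβ0 (g := 1 / (2 * β ^ 2)) (M := M) (s := s - k) (t := t + k) (k := k)
    (by positivity) (by linarith) k0.le (by linarith) (fun r hr => hM P h r hr 3 le_rfl)
    fun r hr => g_low hβ0 hη (hG r hr)
  have g1 := abs_le.1 (hG (t + k) ⟨by linarith, le_rfl⟩)
  have g2 := abs_le.1 (hG t ⟨by linarith, by linarith⟩)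
  have g3 := abs_le.1 (hG s ⟨by linarith, by linarith⟩)
  have g4 := abs_le.1 (hG (s - k) ⟨le_rfl, by linarith⟩)
  rw [add_sub_cancel_right, sub_add_cancel] at a1
  have η0 : 0 ≤ η := (abs_nonneg _).trans (hG s ⟨by linarith, by linarith⟩)
  have e : k * (β ^ 4 * (β ^ 2 * (M ^ 2 + 30) * (t + k - (s - k) - k) -
      2 * (1 / (2 * β ^ 2)) ^ 2 * (P.zeta t - P.zeta s))) =
      k * (β ^ 6 * (M ^ 2 + 30) * (t - s + k) - (P.zeta t - P.zeta s) / 2) := by
    field_simp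
    ring
  rw [e] at a1
  have e2 : η = k * (η / k) := by field_simp
  have a2 : -(4 * (η / k)) ≤ β ^ 6 * (M ^ 2 + 30) * (t - s + k) - (P.zeta t - P.zeta s) / 2 :=
    le_of_mul_le_mul_left (by linarith) k0
  have a3 : 8 * (η / k) ≤ 2 * β ^ 6 * (M ^ 2 + 30) * (η / k) :=
    mul_le_mul_of_nonneg_right (by nlinarith [sq_nonneg M]) (by positivity)
  linarith

theorem zeta_grid (h : P.OK) (j : ℕ) : P.zeta ((j : ℝ) / P.K) = P.z j := by
  unfold Par.zeta
  rw [div_mul_cancel₀ _ h.Kp.ne', Nat.floor_natCast]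

/-- **the minimiser is bi-Lipschitz below the top atom** -/
theorem slopes (hβ : 1 ≤ β) (C : ℝ) (hC : 0 ≤ C) : ∃ C' : ℝ, 1 ≤ C' ∧ ∀ (P : Par) (c η : ℝ),
    P.OK → P.Good β c C η → 0 < η → η ≤ 1 / 2 → ∀ s t, 0 ≤ s → s ≤ t →
    (t ≤ P.b → cs β * (t - s) - 3 * √η ≤ P.zeta t - P.zeta s) ∧
    (t + √η ≤ P.b → P.zeta t - P.zeta s ≤ C' * (t - s + √η)) := by
  obtain ⟨C1, h1, hC1⟩ := slope_le hβ
  refine ⟨2 * C1 + C + 1, by linarith, fun P c η h hG η0 η1 s t h0 hst => ⟨fun hb => ?_, fun hb => ?_⟩⟩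
  · exact slope_ge h hβ η0 η1 h0 hst (hb.trans h.b_le_one)
      fun r hr => hG.gam' r ⟨h0.trans hr.1, hr.2.trans hb⟩
  · set k := √η with hk
    have k0 : 0 < k := Real.sqrt_pos.2 η0
    have kk : k * k = η := Real.mul_self_sqrt η0.le
    have ts : 0 ≤ t - s := by linarith
    rcases le_total k s with hc | hc
    · have a1 := hC1 P h η s t k η1 k0 hc hst
        fun r hr => hG.gam' r ⟨by linarith [hr.1], hr.2.trans hb⟩
      have e : η / k = k := by rw [← kk]; field_simp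
      rw [e] at a1
      nlinarith
    · have a1 := hG.zlin t ⟨by linarith, by linarith [h.b_le_one]⟩
      have a2 := h.zeta_pos s
      have a3 : η ≤ k := by nlinarith
      have a4 := mul_le_mul_of_nonneg_left hc hC
      nlinarith


end

end Crest.Agent.T156.Str
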