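import Crest.Agent.T156.Rig_63
import Crest.Agent.T156.POde_3
import Crest.Agent.T156.StrB_62

-- ▼ part T156/RigB_63
section

/-!
# Row 156: rigidity of an overlap profile, part 2 (helper63)

Nodes `r 0 ≤ … ≤ r N`, labels `X 0 ≤ … ≤ X (N+1)`; the label on the gap `(r k, r (k+1))` is
`X (k+1)`.  `M' = μ`, `μ' = ν` off the nodes, `|M (r k) - H (label)| ≤ err` on both sides.
-/

set_option autoImplicit false

namespace Crest.Agent.T156.Rig

open Set Real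

/-- the nodes -/
noncomputable def nodes (N : ℕ) (r : ℕ → ℝ) : Finset ℝ := by
  classical exact (Finset.range (N + 1)).image r

theorem mem_nodes {N : ℕ} {r : ℕ → ℝ} {t : ℝ} : t ∈ nodes N r ↔ ∃ k ≤ N, r k = t := by
  simp [nodes]

/-- a profile solving the cavity equation up to `err` -/
structure Prof (N : ℕ) (r X : ℕ → ℝ) (M μ ν H : ℝ → ℝ) (err : ℝ) : Prop where
  rm : ∀ i j, i ≤ j → j ≤ N → r i ≤ r j
  Xm : ∀ i j, i ≤ j → j ≤ N + 1 → X i ≤ X j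
  pc : PC2 (nodes N r) (r 0) (r N) M μ ν
  eL : ∀ k ≤ N, |M (r k) - H (X k)| ≤ err
  eR : ∀ k ≤ N, |M (r k) - H (X (k + 1))| ≤ err

/-- upper increments of `ν`: `dν ≤ 2 b dx - 2 K dr` -/
def Up (N : ℕ) (r X : ℕ → ℝ) (ν : ℝ → ℝ) (b K : ℝ) : Prop :=
  ∀ i j, i ≤ j → j < N → ∀ s ∈ Ioo (r i) (r (i + 1)), ∀ t ∈ Ioo (r j) (r (j + 1)), s ≤ t →
    ν t - ν s ≤ 2 * b * (X (j + 1) - X (i + 1)) - 2 * K * (t - s)

namespace Prof
variable {N : ℕ} {r X : ℕ → ℝ} {M μ ν H : ℝ → ℝ} {err : ℝ}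

theorem err_nonneg (h : Prof N r X M μ ν H err) : 0 ≤ err :=
  (abs_nonneg _).trans (h.eL 0 (Nat.zero_le _))

theorem not_mem (h : Prof N r X M μ ν H err) {k : ℕ} (hk : k < N) {t : ℝ}
    (ht : t ∈ Ioo (r k) (r (k + 1))) : t ∉ nodes N r := by
  rw [mem_nodes]
  rintro ⟨j, hj, rfl⟩
  rcases le_or_gt j k with h1 | h1
  · exact absurd (h.rm j k h1 hk.le) (not_le.2 ht.1)
  · exact absurd (h.rm (k + 1) j h1 hj) (not_le.2 ht.2)

/-- a point strictly between the nodes `i` and `j` that is not a node lies in a gap -/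
theorem exists_gap (r : ℕ → ℝ) {N i : ℕ} {t : ℝ} (hS : t ∉ nodes N r) : ∀ {j : ℕ}, i ≤ j →
    j ≤ N → t ∈ Ioo (r i) (r j) → ∃ k, i ≤ k ∧ k < j ∧ t ∈ Ioo (r k) (r (k + 1)) := by
  intro j hij
  induction j, hij using Nat.le_induction with
  | base => intro _ ht; exact absurd (ht.1.trans ht.2) (lt_irrefl _)
  | succ j hij ih =>
    intro hj ht
    rcases lt_trichotomy t (r j) with h1 | h1 | h1
    · obtain ⟨k, k1, k2, k3⟩ := ih (by omega) ⟨ht.1, h1⟩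
      exact ⟨k, k1, by omega, k3⟩
    · exact absurd (mem_nodes.2 ⟨j, by omega, h1.symm⟩) hS
    · exact ⟨j, hij, by omega, h1, ht.2⟩

theorem gap_pc (h : Prof N r X M μ ν H err) {k : ℕ} (hk : k < N) :
    PC2 ∅ (r k) (r (k + 1)) M μ ν := by
  have h1 := h.pc.mono (h.rm 0 k (Nat.zero_le _) hk.le) (h.rm (k + 1) N hk le_rfl)
    (Finset.Subset.refl _)
  exact ⟨h1.cW, h1.cω, fun t ht _ => h1.dW t ht (h.not_mem hk ht),
    fun t ht _ => h1.dω t ht (h.not_mem hk ht)⟩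




/-- the cavity equation inside a gap -/
theorem inside (h : Prof N r X M μ ν H err) {k : ℕ} (hk : k < N) {Γ O : ℝ}
    (hΓ : r (k + 1) - r k ≤ Γ) {t : ℝ} (ht : t ∈ Ioo (r k) (r (k + 1)))
    (hO : ∀ s ∈ Ioo (r k) (r (k + 1)), |ν s - ν t| ≤ O) :
    M t - H (X (k + 1)) ≤ err + Γ ^ 2 / 8 * (max (-ν t) 0 + O) ∧
      -(M t - H (X (k + 1))) ≤ err + Γ ^ 2 / 8 * (max (ν t) 0 + O) := by
  have hg := h.gap_pc hk
  have hO0 : 0 ≤ O := (abs_nonneg _).trans (hO t ht)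
  have e1 := abs_le.1 (h.eR k hk.le)
  have e2 := abs_le.1 (h.eL (k + 1) hk)
  have hsq : (r (k + 1) - r k) ^ 2 / 8 ≤ Γ ^ 2 / 8 := by
    have := pow_le_pow_left₀ (sub_nonneg.2 (ht.1.trans ht.2).le) hΓ 2
    linarith
  constructor
  · have hA : 0 ≤ max (-ν t) 0 + O := add_nonneg (le_max_right _ _) hO0
    have := hg.chord (C := H (X (k + 1)) + err) hA (by linarith [e1.2]) (by linarith [e2.2])
      (fun s hs _ => by
        have := (abs_le.1 (hO s hs)).1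
        have := le_max_left (-ν t) 0
        linarith) t (Ioo_subset_Icc_self ht)
    have := mul_le_mul_of_nonneg_right hsq hA
    linarith
  · have hA : 0 ≤ max (ν t) 0 + O := add_nonneg (le_max_right _ _) hO0
    have := hg.neg.chord (C := -H (X (k + 1)) + err) hA (by linarith [e1.1]) (by linarith [e2.1])
      (fun s hs _ => by
        have := (abs_le.1 (hO s hs)).2
        have := le_max_left (ν t) 0
        show -(max (ν t) 0 + O) ≤ -ν s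
        linarith) t (Ioo_subset_Icc_self ht)
    have := mul_le_mul_of_nonneg_right hsq hA
    linarith

end Prof

/-- scalar core of the comparison (one side) -/
theorem core {W Y u ν ν₀ β b₀ b₁ d D c₀ R G e N₀ p₀ O : ℝ} (hG : 0 ≤ G) (hb₀ : 0 ≤ b₀)
    (h0 : b₀ ≤ β) (h1 : β ≤ b₁) (hc₀ : 0 ≤ c₀) (hGd : 2 * b₁ * G ≤ d + c₀)
    (hW : W ≤ Y + e + G * (max (-ν) 0 + O)) (hν : |ν - ν₀ - 2 * β * u| ≤ p₀) (hN : |ν₀| ≤ N₀)
    (hu : |u| ≤ R) (hup : 0 ≤ u → Y ≤ D * u) (hdn : u ≤ 0 → Y ≤ d * u) :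
    (0 ≤ u → W - (e + G * (N₀ + p₀ + O)) ≤ D * u) ∧
    (u ≤ 0 → W - (e + G * (N₀ + p₀ + O)) ≤ (d - 2 * b₁ * G) * u) ∧
    (e + G * (N₀ + p₀ + O) + c₀ * R < W → 0 ≤ u) := by
  obtain ⟨n1, n2⟩ := abs_le.1 hν
  obtain ⟨m1, m2⟩ := abs_le.1 hN
  obtain ⟨u1, u2⟩ := abs_le.1 hu
  have hβ : 0 ≤ β := hb₀.trans h0
  have A : 0 ≤ u → W - (e + G * (N₀ + p₀ + O)) ≤ D * u := fun hu0 => by
    have : max (-ν) 0 ≤ N₀ + p₀ := max_le (by nlinarith [mul_nonneg hβ hu0]) (by linarith)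
    nlinarith [hup hu0, mul_le_mul_of_nonneg_left this hG]
  have B : u ≤ 0 → W - (e + G * (N₀ + p₀ + O)) ≤ (d - 2 * b₁ * G) * u := fun hu0 => by
    have h2 : β * (-u) ≤ b₁ * (-u) := mul_le_mul_of_nonneg_right h1 (neg_nonneg.2 hu0)
    have h3 : 0 ≤ β * (-u) := mul_nonneg hβ (neg_nonneg.2 hu0)
    have : max (-ν) 0 ≤ N₀ + p₀ + 2 * b₁ * (-u) := max_le (by nlinarith) (by nlinarith)
    nlinarith [hdn hu0, mul_le_mul_of_nonneg_left this hG]
  refine ⟨A, B, fun hlt => ?_⟩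
  by_contra hc
  push Not at hc
  have := B hc.le
  nlinarith [mul_le_mul_of_nonneg_left (show -u ≤ R by linarith) hc₀,
    mul_nonneg (show 0 ≤ d + c₀ - 2 * b₁ * G by linarith) (neg_nonneg.2 hc.le)]

/-- an approximate reference solution `(M₀, μ₀, ν₀, x₀)` on the window `[a, b]` -/
structure Ref (N : ℕ) (r X : ℕ → ℝ) (ν H : ℝ → ℝ) (S₀ : Finset ℝ) (a b : ℝ)
    (M₀ μ₀ ν₀ x₀ : ℝ → ℝ) (b₀ b₁ d D Γ O e₀ N₀ p₀ R : ℝ) : Prop where
  lo : r 0 ≤ a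
  lt : a < b
  hi : b ≤ r N
  pc : PC2 S₀ a b M₀ μ₀ ν₀
  b0 : 0 ≤ b₀
  loc : ∀ k < N, ∀ t ∈ Ioo (r k) (r (k + 1)), t ∈ Ioo a b → t ∉ S₀ →
    r (k + 1) - r k ≤ Γ ∧ (∀ s ∈ Ioo (r k) (r (k + 1)), |ν s - ν t| ≤ O) ∧
    (∃ β, b₀ ≤ β ∧ β ≤ b₁ ∧ |ν t - ν₀ t - 2 * β * (X (k + 1) - x₀ t)| ≤ p₀) ∧
    |ν₀ t| ≤ N₀ ∧ |M₀ t - H (x₀ t)| ≤ e₀ ∧ |X (k + 1) - x₀ t| ≤ R ∧
    (x₀ t ≤ X (k + 1) → d * (X (k + 1) - x₀ t) ≤ H (X (k + 1)) - H (x₀ t) ∧
      H (X (k + 1)) - H (x₀ t) ≤ D * (X (k + 1) - x₀ t)) ∧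
    (X (k + 1) ≤ x₀ t → d * (x₀ t - X (k + 1)) ≤ H (x₀ t) - H (X (k + 1)) ∧
      H (x₀ t) - H (X (k + 1)) ≤ D * (x₀ t - X (k + 1)))

namespace Prof
variable {N : ℕ} {r X : ℕ → ℝ} {M μ ν H : ℝ → ℝ} {err : ℝ} {S₀ : Finset ℝ} {a b : ℝ}
  {M₀ μ₀ ν₀ x₀ : ℝ → ℝ} {b₀ b₁ d D Γ O e₀ N₀ p₀ R c₀ : ℝ}

theorem both (h : Prof N r X M μ ν H err)
    (g : Ref N r X ν H S₀ a b M₀ μ₀ ν₀ x₀ b₀ b₁ d D Γ O e₀ N₀ p₀ R) (hc₀ : 0 ≤ c₀)
    (hGd : b₁ * Γ ^ 2 / 4 ≤ d + c₀) {k : ℕ} (hk : k < N) {t : ℝ}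
    (ht : t ∈ Ioo (r k) (r (k + 1))) (ht' : t ∈ Ioo a b) (hS : t ∉ S₀) (ε : ℝ)
    (hε : ε = 1 ∨ ε = -1) :
    (0 ≤ ε * (X (k + 1) - x₀ t) → ε * (M t - M₀ t) - (err + e₀ + Γ ^ 2 / 8 * (N₀ + p₀ + O)) ≤
      D * (ε * (X (k + 1) - x₀ t))) ∧
    (ε * (X (k + 1) - x₀ t) ≤ 0 → ε * (M t - M₀ t) - (err + e₀ + Γ ^ 2 / 8 * (N₀ + p₀ + O)) ≤
      (d - 2 * b₁ * (Γ ^ 2 / 8)) * (ε * (X (k + 1) - x₀ t))) ∧
    (err + e₀ + Γ ^ 2 / 8 * (N₀ + p₀ + O) + c₀ * R < ε * (M t - M₀ t) →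
      0 ≤ ε * (X (k + 1) - x₀ t)) := by
  obtain ⟨l1, l2, ⟨β, β0, β1, l3⟩, l4, l5, l6, l7, l8⟩ := g.loc k hk t ht ht' hS
  obtain ⟨i1, i2⟩ := h.inside hk l1 ht l2
  obtain ⟨m1, m2⟩ := abs_le.1 l5
  rcases hε with rfl | rfl
  · simp only [one_mul]
    exact core (Y := H (X (k + 1)) - H (x₀ t)) (by positivity) g.b0 β0 β1 hc₀ (by linarith)
      (by linarith) l3 l4 l6 (fun hu => (l7 (by linarith)).2)
      fun hu => by linarith [(l8 (by linarith)).1]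
  · simp only [neg_one_mul]
    refine core (Y := -(H (X (k + 1)) - H (x₀ t))) (ν := -ν t) (ν₀ := -ν₀ t) (by positivity)
      g.b0 β0 β1 hc₀ (by linarith) (by rw [neg_neg]; linarith) ?_ (by rwa [abs_neg])
      (by rwa [abs_neg]) (fun hu => by linarith [(l8 (by linarith)).2])
      fun hu => by linarith [(l7 (by linarith)).1]
    rw [← abs_neg]
    convert l3 using 2
    ring


/-- the labels follow `M` -/
theorem label (h : Prof N r X M μ ν H err)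
    (g : Ref N r X ν H S₀ a b M₀ μ₀ ν₀ x₀ b₀ b₁ d D Γ O e₀ N₀ p₀ R)
    (hGd : b₁ * Γ ^ 2 / 4 ≤ d) {k : ℕ} (hk : k < N) {t : ℝ}
    (ht : t ∈ Ioo (r k) (r (k + 1))) (ht' : t ∈ Ioo a b) (hS : t ∉ S₀) :
    (d - b₁ * Γ ^ 2 / 4) * |X (k + 1) - x₀ t| ≤
      |M t - M₀ t| + (err + e₀ + Γ ^ 2 / 8 * (N₀ + p₀ + O)) := by
  rcases le_total (X (k + 1) - x₀ t) 0 with hu | hu
  · have := (h.both g le_rfl (by linarith) hk ht ht' hS 1 (Or.inl rfl)).2.1 (by linarith)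
    rw [abs_of_nonpos hu]
    have := neg_abs_le (M t - M₀ t)
    nlinarith
  · have := (h.both g le_rfl (by linarith) hk ht ht' hS (-1) (Or.inr rfl)).2.1 (by linarith)
    rw [abs_of_nonneg hu]
    have := le_abs_self (M t - M₀ t)
    nlinarith

/-- the masses agree (Landau): `|M - M₀| ≤ C` and labels within `U` on `[s, t]` -/
theorem mass (h : Prof N r X M μ ν H err)
    (g : Ref N r X ν H S₀ a b M₀ μ₀ ν₀ x₀ b₀ b₁ d D Γ O e₀ N₀ p₀ R) {s t C U : ℝ} (hs : a ≤ s)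
    (hst : s < t) (ht : t ≤ b) (h1 : |M s - M₀ s| ≤ C) (h2 : |M t - M₀ t| ≤ C)
    (hU : ∀ k < N, ∀ u ∈ Ioo (r k) (r (k + 1)), u ∈ Ioo s t → u ∉ S₀ → |X (k + 1) - x₀ u| ≤ U) :
    |μ s - μ₀ s| ≤ 2 * C / (t - s) + (2 * b₁ * U + p₀) * (t - s) / 2 ∧
      |μ t - μ₀ t| ≤ 2 * C / (t - s) + (2 * b₁ * U + p₀) * (t - s) / 2 := by
  classical
  have hp : PC2 (nodes N r ∪ S₀) s t (fun t => M t - M₀ t) (fun t => μ t - μ₀ t)
      fun t => ν t - ν₀ t :=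
    (h.pc.mono (g.lo.trans hs) (ht.trans g.hi) Finset.subset_union_left).sub
      (g.pc.mono hs ht Finset.subset_union_right)
  refine hp.landau hst h1 h2 fun u hu hS => ?_
  rw [Finset.mem_union, not_or] at hS
  have hu' : u ∈ Ioo a b := Ioo_subset_Ioo hs ht hu
  obtain ⟨k, _, k2, k3⟩ := exists_gap r hS.1 (Nat.zero_le N) le_rfl
    ⟨g.lo.trans_lt hu'.1, hu'.2.trans_le g.hi⟩
  obtain ⟨β, β0, β1, l3⟩ := (g.loc k k2 u k3 hu' hS.2).2.2.1
  have h3 := hU k k2 u k3 hu hS.2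
  have hβ : 0 ≤ β := g.b0.trans β0
  have h4 : |2 * β * (X (k + 1) - x₀ u)| ≤ 2 * b₁ * U := by
    rw [abs_mul, abs_of_nonneg (by linarith : 0 ≤ 2 * β)]
    exact mul_le_mul (by linarith) h3 (abs_nonneg _) (by linarith)
  have := abs_add_le (ν u - ν₀ u - 2 * β * (X (k + 1) - x₀ u)) (2 * β * (X (k + 1) - x₀ u))
  rw [sub_add_cancel] at this
  linarith

end Prof

end Crest.Agent.T156.Rig
end

-- ▼ part T156/RigC_63
section

/-!
# Row 156: rigidity of an overlap profile, part 3 (helper63)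

Almost nonnegative mass at the nodes, short gaps and semiconvexity bound `ν = μ'` (this is the
location of the profile: `ν = 2 (b x - K r)`), and bound `μ` from above.
-/

set_option autoImplicit false

namespace Crest.Agent.T156.Rig

open Set Real

/-- lower increments of `ν`: `dν ≥ -2 K dr` -/
def Lo (N : ℕ) (r : ℕ → ℝ) (ν : ℝ → ℝ) (K : ℝ) : Prop :=
  ∀ i j, i ≤ j → j < N → ∀ s ∈ Ioo (r i) (r (i + 1)), ∀ t ∈ Ioo (r j) (r (j + 1)), s ≤ t →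
    -(2 * K * (t - s)) ≤ ν t - ν s

namespace Prof
variable {N : ℕ} {r X : ℕ → ℝ} {M μ ν H : ℝ → ℝ} {err : ℝ}

/-- a node at distance between `ℓ` and `ℓ + Γ` above a node -/
theorem node_above {Γ ℓ : ℝ} (hΓ : ∀ k < N, r (k + 1) - r k ≤ Γ) (hℓ : 0 < ℓ) {p : ℕ} (hp : p ≤ N)
    (h : r p + ℓ ≤ r N) : ∃ j, p < j ∧ j ≤ N ∧ ℓ ≤ r j - r p ∧ r j - r p ≤ ℓ + Γ := by
  classical
  have hex : ∃ j, p ≤ j ∧ j ≤ N ∧ r p + ℓ ≤ r j := ⟨N, hp, le_rfl, h⟩
  obtain ⟨j1, j2, j3⟩ := Nat.find_spec hex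
  have hne : p ≠ Nat.find hex := fun e => by rw [← e] at j3; linarith
  obtain ⟨i, hi⟩ : ∃ i, Nat.find hex = i + 1 := ⟨Nat.find hex - 1, by omega⟩
  have h1 := Nat.find_min hex (show i < Nat.find hex by omega)
  have h2 : r i < r p + ℓ := by
    by_contra hc
    exact h1 ⟨by omega, by omega, not_lt.1 hc⟩
  have h3 := hΓ i (by omega)
  rw [hi] at j1 j2 j3 hne
  exact ⟨i + 1, by omega, j2, by linarith, by linarith⟩






/-- upper bound for the mass at a node, from a lower bound for `ν` above it -/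
theorem mu_le (h : Prof N r X M μ ν H err) {A Γ Hr ℓ : ℝ} (hA : 0 ≤ A)
    (hΓ : ∀ k < N, r (k + 1) - r k ≤ Γ) (hℓ : 0 < ℓ) {p : ℕ} (hp : p ≤ N) (hw : r p + ℓ ≤ r N)
    (hH : ∀ j, p < j → j ≤ N → r j - r p ≤ ℓ + Γ → H (X j) - H (X (p + 1)) ≤ Hr) (hHr : 0 ≤ Hr)
    (hν : ∀ k < N, ∀ t ∈ Ioo (r k) (r (k + 1)), t ∈ Ioo (r p) (r p + ℓ + Γ) → -A ≤ ν t) :
    μ (r p) ≤ (Hr + 2 * err) / ℓ + A * (ℓ + Γ) / 2 := by
  obtain ⟨j, j1, j2, j3, j4⟩ := node_above hΓ hℓ hp hw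
  have hpc := h.pc.mono (h.rm 0 p (Nat.zero_le _) hp) (h.rm j N j2 le_rfl) (Finset.Subset.refl _)
  have hT := hpc.taylorL (A := A) (h.rm _ _ j1.le j2) fun u hu hS => by
    obtain ⟨i, _, i2, i3⟩ := exists_gap r hS j1.le j2 hu
    exact hν i (by omega) u i3 ⟨hu.1, by linarith [hu.2]⟩
  have e1 := abs_le.1 (h.eL j j2)
  have e2 := abs_le.1 (h.eR p hp)
  have e3 := hH j j1 j2 j4
  have e5 := h.err_nonneg
  have hs : 0 < r j - r p := hℓ.trans_le j3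
  have a1 : μ (r p) ≤ (Hr + 2 * err) / (r j - r p) + A * (r j - r p) / 2 := by
    have : (Hr + 2 * err) / (r j - r p) + A * (r j - r p) / 2 =
        (Hr + 2 * err + A * (r j - r p) ^ 2 / 2) / (r j - r p) := by field_simp
    rw [this, le_div_iff₀ hs]
    linarith [e1.2, e2.1]
  have a2 : (Hr + 2 * err) / (r j - r p) ≤ (Hr + 2 * err) / ℓ := by gcongr
  nlinarith [mul_le_mul_of_nonneg_left j4 hA]

/-- a sub-window of a profile is a profile -/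
theorem window (h : Prof N r X M μ ν H err) {p n : ℕ} (hp : p + n ≤ N) :
    Prof n (fun k => r (p + k)) (fun k => X (p + k)) M μ ν H err := by
  have h1 := h.pc.mono (h.rm 0 p (Nat.zero_le _) (by omega)) (h.rm (p + n) N hp le_rfl)
    (Finset.Subset.refl _)
  have key : ∀ t ∈ Ioo (r p) (r (p + n)), t ∉ nodes n (fun k => r (p + k)) → t ∉ nodes N r :=
    fun t ht hS hm => by
      obtain ⟨j, hj, rfl⟩ := mem_nodes.1 hm
      rcases le_or_gt j p with a | a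
      · exact absurd (h.rm j p a (by omega)) (not_le.2 ht.1)
      rcases le_or_gt (p + n) j with b | b
      · exact absurd (h.rm (p + n) j b hj) (not_le.2 ht.2)
      exact hS (mem_nodes.2 ⟨j - p, by omega, by rw [show p + (j - p) = j by omega]⟩)
  exact ⟨fun i j a b => h.rm _ _ (by omega) (by omega), fun i j a b => h.Xm _ _ (by omega) (by omega),
    ⟨h1.cW, h1.cω, fun t ht hS => h1.dW t ht (key t ht hS), fun t ht hS => h1.dω t ht (key t ht hS)⟩,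
    fun k hk => h.eL _ (by omega), fun k hk => h.eR (p + k) (by omega)⟩

end Prof

theorem Up.window {N : ℕ} {r X : ℕ → ℝ} {ν : ℝ → ℝ} {b K : ℝ} (h : Up N r X ν b K) {p n : ℕ}
    (hp : p + n ≤ N) : Up n (fun k => r (p + k)) (fun k => X (p + k)) ν b K :=
  fun i j a c s hs t ht hst => h (p + i) (p + j) (by omega) (by omega) s hs t ht hst

theorem Lo.window {N : ℕ} {r : ℕ → ℝ} {ν : ℝ → ℝ} {K : ℝ} (h : Lo N r ν K) {p n : ℕ}
    (hp : p + n ≤ N) : Lo n (fun k => r (p + k)) ν K :=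
  fun i j a c s hs t ht hst => h (p + i) (p + j) (by omega) (by omega) s hs t ht hst

end Crest.Agent.T156.Rig
end

-- ▼ part T156/RigI_63

/-!
# Row 156: the rigidity kit for one-site profiles in the list frame (helper63)

`M s = s - b Γ s`, `μ = 1 - b E Φ₂²`, `ν = b (2 z E Φ₂³ - E Φ₃²)`.
-/

set_option autoImplicit false

namespace Crest.Agent.T156.Rig

open Set Real MeasureTheory Filter Topology
open Crest.Agent.R164.GC Crest.Agent.R339.B Crest.Agent.R339.Var Crest.Agent.T157.Pf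
open Crest.Agent.T156.Pp Crest.Agent.T156.Pp.Ode3 Crest.Agent.T156.Str

noncomputable section

/-- a continuous right derivative is a derivative -/
theorem der_of_right {f f' : ℝ → ℝ} {p q : ℝ} (hc : ContinuousOn f (Icc p q))
    (hc' : ContinuousOn f' (Icc p q))
    (hd : ∀ u ∈ Ioo p q, HasDerivWithinAt f (f' u) (Ici u) u) {t : ℝ} (ht : t ∈ Ioo p q) :
    HasDerivAt f (f' t) t := by
  have h1 : ∀ u ∈ Icc p q, f u = f p + ∫ r in p..u, f' r := fun u hu => by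
    rw [intervalIntegral.integral_eq_sub_of_hasDeriv_right_of_le hu.1
      (hc.mono (Icc_subset_Icc_right hu.2))
      (fun r hr => (hd r ⟨hr.1, hr.2.trans_le hu.2⟩).mono Ioi_subset_Ici_self)
      ((hc'.mono (by rw [uIcc_of_le hu.1]; exact Icc_subset_Icc_right hu.2)).intervalIntegrable)]
    ring
  have hn : Icc p q ∈ 𝓝 t := Icc_mem_nhds ht.1 ht.2
  have h2 : HasDerivAt (fun u => f p + ∫ r in p..u, f' r) (f' t) t :=
    (intervalIntegral.integral_hasDerivAt_right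
      ((hc'.mono (by
        rw [uIcc_of_le ht.1.le]; exact Icc_subset_Icc_right ht.2.le)).intervalIntegrable)
      ((hc'.mono Ioo_subset_Icc_self).stronglyMeasurableAtFilter isOpen_Ioo t ht)
      (hc'.continuousAt hn)).const_add _
  exact h2.congr_of_eventuallyEq (mem_of_superset hn h1)

/-- increments of `ν` from its pieces -/
theorem up_of_pieces {N : ℕ} {r X : ℕ → ℝ} {ν : ℝ → ℝ} {φ : ℕ → ℝ → ℝ} {b K : ℝ}
    (rm : ∀ i j, i ≤ j → j ≤ N → r i ≤ r j)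
    (h1 : ∀ m < N, ∀ s t, r m ≤ s → s ≤ t → t ≤ r (m + 1) → φ m t - φ m s ≤ -(2 * K * (t - s)))
    (h2 : ∀ m, m + 1 < N → φ (m + 1) (r (m + 1)) - φ m (r (m + 1)) ≤ 2 * b * (X (m + 2) - X (m + 1)))
    (h3 : ∀ m < N, ∀ t ∈ Ioo (r m) (r (m + 1)), ν t = φ m t) : Up N r X ν b K := by
  intro i j hij hj s hs t ht hst
  rw [h3 i (by omega) s hs, h3 j hj t ht]
  have key : ∀ j, i ≤ j → j < N → ∀ t, s ≤ t → r j ≤ t → t ≤ r (j + 1) →
      φ j t - φ i s ≤ 2 * b * (X (j + 1) - X (i + 1)) - 2 * K * (t - s) := by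
    intro j hij
    induction j, hij using Nat.le_induction with
    | base =>
      intro hj t hst _ ht
      have := h1 i hj s t hs.1.le hst ht
      simp only [sub_self, mul_zero]
      linarith
    | succ j hij ih =>
      intro hj t _ t1 t2
      have a := ih (by omega) (r (j + 1)) (hs.2.le.trans (rm _ _ (by omega) hj.le))
        (rm _ _ (by omega) hj.le) le_rfl
      have b' := h2 j hj
      have c := h1 (j + 1) hj (r (j + 1)) t le_rfl t1 t2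
      linarith
  exact key j hij hj t hst ht.1.le ht.2.le

variable {l : List (ℝ × ℝ)} {N : ℕ} {r X : ℕ → ℝ}

def Mf (b : ℝ) (l : List (ℝ × ℝ)) (s : ℝ) : ℝ := s - b * Gam l s
def muf (b : ℝ) (l : List (ℝ × ℝ)) (s : ℝ) : ℝ := 1 - b * Gp l s
def nuf (b : ℝ) (l : List (ℝ × ℝ)) (s : ℝ) : ℝ := b * (2 * lvr 1 l s * Am l s - Nm l s)

/-- nodes and labels of a list (any window of it) -/
structure Blk (l : List (ℝ × ℝ)) (N : ℕ) (r X : ℕ → ℝ) : Prop where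
  ap : AP l
  rm : ∀ i j, i ≤ j → j ≤ N → r i ≤ r j
  Xm : ∀ i j, i ≤ j → j ≤ N + 1 → X i ≤ X j
  lo : 0 ≤ r 0
  hi : r N ≤ TT l
  lab : ∀ k < N, ∀ t ∈ Ioo (r k) (r (k + 1)), lvr 1 l t = X (k + 1)

namespace Blk

theorem sub (h : Blk l N r X) {k : ℕ} (hk : k < N) : Icc (r k) (r (k + 1)) ⊆ Icc 0 (TT l) :=
  Icc_subset_Icc (h.lo.trans (h.rm 0 k (Nat.zero_le _) hk.le)) ((h.rm _ N hk le_rfl).trans h.hi)

theorem mem (h : Blk l N r X) {k : ℕ} (hk : k < N) {t : ℝ} (ht : t ∈ Ioo (r k) (r (k + 1))) :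
    0 ≤ t ∧ t < TT l :=
  ⟨(h.sub hk (Ioo_subset_Icc_self ht)).1, ht.2.trans_le ((h.rm _ N hk le_rfl).trans h.hi)⟩



/-- derivative of `ν / b` inside a block -/
theorem der_blk (h : Blk l N r X) {k : ℕ} (hk : k < N) {t : ℝ}
    (ht : t ∈ Ioo (r k) (r (k + 1))) :
    HasDerivAt (fun u => 2 * X (k + 1) * Am l u - Nm l u)
      (-(N4 l t - 12 * X (k + 1) * Bm l t + 6 * X (k + 1) ^ 2 * A4 l t)) t := by
  have s := h.sub hk
  refine der_of_right (f' := fun t => -(N4 l t - 12 * X (k + 1) * Bm l t +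
      6 * X (k + 1) ^ 2 * A4 l t))
    ((continuousOn_const.mul ((Am_cont h.ap).mono s)).sub ((Nm_cont h.ap).mono s))
    ((((N4_cont h.ap).mono s).sub (continuousOn_const.mul ((Bm_cont h.ap).mono s))).add
      (continuousOn_const.mul ((A4_cont h.ap).mono s))).neg (fun u hu => ?_) ht
  have a := ((Am_rder h.ap (h.mem hk hu).1 (h.mem hk hu).2).const_mul (2 * X (k + 1))).fun_sub
    (Nm_rder h.ap (h.mem hk hu).1 (h.mem hk hu).2)
  rw [h.lab k hk u hu] at a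
  exact a.congr_deriv (by ring)

end Blk

theorem sq_le_A4 (l : List (ℝ × ℝ)) (t : ℝ) : Gp l t ^ 2 ≤ A4 l t := by
  obtain ⟨K, hK⟩ := Et_bc bfn_W1 l t
  have := EX_sq one_pos l t hK 0
  have e : (fun y => W1 (PhiT 1 l t) y ^ 2) = Q4 (PhiT 1 l t) := by
    funext y; unfold W1 Q4; ring
  rw [e] at this
  exact this

/-- strict no-gap inequality in the list frame -/
theorem strict_list {T : ℝ} (h : AP l) (hT : TT l ≤ T) {t : ℝ} (h0 : 0 ≤ t) (h1 : t < TT l) :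
    kp T * A4 l t ≤ N4 l t - 12 * lvr 1 l t * Bm l t + 6 * lvr 1 l t ^ 2 * A4 l t := by
  have a := EX_NJ h.adm h.pos hT h0 h1
  have b : BFn fun Φ y => 1 * Pp.W3 Φ y + -(12 * lvr 1 l t) * B3 Φ y :=
    ⟨fun _ h => toBC ((((Dn_bd h 3).pow 2).const_mul 1).add
      (((Dn_bd h 1).mul ((Dn_bd h 2).pow 2)).const_mul (-(12 * lvr 1 l t)))),
      fun _ h m' _ => (((Dn_ug h m' 3).pow 2).const_mul 1).add
      (((Dn_ug h m' 1).mul ((Dn_ug h m' 2).pow 2)).const_mul (-(12 * lvr 1 l t)))⟩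
  have c := Et_lin (H := NJ (lvr 1 l t) (kp T)) b bfn_Q4 1 (6 * lvr 1 l t ^ 2 - kp T)
    (fun Φ y => by unfold NJ Pp.W3 B3 Q4; ring) l t
  rw [Et_lin bfn_W3 bfn_B3 1 (-(12 * lvr 1 l t)) (fun _ _ => rfl)] at c
  change 0 ≤ Et (NJ (lvr 1 l t) (kp T)) l t at a
  rw [c] at a
  unfold N4 Bm A4
  linarith

namespace Blk

/-- **`Up`** with `K = b kp g² / 2` -/
theorem up (h : Blk l N r X) {b g T : ℝ} (hb : 0 ≤ b) (hg : 0 ≤ g) (hT : TT l ≤ T)
    (hG : ∀ t ∈ Icc (r 0) (r N), g ≤ Gp l t) :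
    Up N r X (nuf b l) b (b * kp T * g ^ 2 / 2) := by
  refine up_of_pieces (φ := fun m u => b * (2 * X (m + 1) * Am l u - Nm l u)) h.rm
    (fun m hm s t a1 a2 a3 => ?_) (fun m hm => ?_) fun m hm t ht => ?_
  · have sb : Icc s t ⊆ Icc 0 (TT l) := (Icc_subset_Icc a1 a3).trans (h.sub hm)
    have := le_off ∅ (f := fun u => -(2 * X (m + 1) * Am l u - Nm l u) - kp T * g ^ 2 * u) a2
      ((((continuousOn_const.mul ((Am_cont h.ap).mono sb)).sub ((Nm_cont h.ap).mono sb)).neg).sub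
        (by fun_prop)) fun u hu _ => by
        have hu' : u ∈ Ioo (r m) (r (m + 1)) := Ioo_subset_Ioo a1 a3 hu
        refine ⟨_, (h.der_blk hm hu').fun_neg.fun_sub ((hasDerivAt_id' u).const_mul _), ?_⟩
        have b1 := strict_list h.ap hT (h.mem hm hu').1 (h.mem hm hu').2
        rw [h.lab m hm u hu'] at b1
        have b2 := sq_le_A4 l u
        have b3 := pow_le_pow_left₀ hg (hG u ⟨(h.rm 0 m (Nat.zero_le _) hm.le).trans hu'.1.le,
          hu'.2.le.trans (h.rm _ N hm le_rfl)⟩) 2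
        nlinarith [mul_le_mul_of_nonneg_left (b3.trans b2) (kp_pos T).le]
    nlinarith [mul_le_mul_of_nonneg_left this hb]
  · have a := h.Xm (m + 1) (m + 2) (by omega) (by omega)
    have c := Am_le_one h.ap.adm (r (m + 1))
    nlinarith [mul_nonneg (mul_nonneg hb (sub_nonneg.2 a)) (sub_nonneg.2 c)]
  · unfold nuf; rw [h.lab m hm t ht]

/-- two-sided slope of `ν` inside a block -/
theorem slope (h : Blk l N r X) {b C : ℝ} (hb : 0 ≤ b) (hC : ∀ t ∈ Icc 0 (TT l), N4 l t ≤ C)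
    {m : ℕ} (hm : m < N) {s t : ℝ} (a1 : r m ≤ s) (a2 : s ≤ t) (a3 : t ≤ r (m + 1)) :
    -(b * (2 * X (m + 1) * Am l t - Nm l t)) - -(b * (2 * X (m + 1) * Am l s - Nm l s)) ≤
      b * (C + 6) * (t - s) := by
  have sb : Icc s t ⊆ Icc 0 (TT l) := (Icc_subset_Icc a1 a3).trans (h.sub hm)
  have := le_off ∅ (f := fun u => (2 * X (m + 1) * Am l u - Nm l u) + (C + 6) * u) a2
    ((((continuousOn_const.mul ((Am_cont h.ap).mono sb)).sub ((Nm_cont h.ap).mono sb))).add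
      (by fun_prop)) fun u hu _ => by
      have hu' : u ∈ Ioo (r m) (r (m + 1)) := Ioo_subset_Ioo a1 a3 hu
      refine ⟨_, (h.der_blk hm hu').fun_add ((hasDerivAt_id' u).const_mul _), ?_⟩
      have b1 := hC u (sb (Ioo_subset_Icc_self hu))
      have b2 := lvr_pos h.ap.adm u
      have b3 := lvr_le_one h.ap.adm u
      rw [h.lab m hm u hu'] at b2 b3
      have b4 := Bm_nonneg h.ap.adm u
      have b5 := A4_le_one h.ap.adm u
      have b6 := A4_nonneg h.ap.adm u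
      have b7 : X (m + 1) ^ 2 * A4 l u ≤ 1 := by
        have : X (m + 1) ^ 2 ≤ 1 := by nlinarith
        nlinarith
      nlinarith [mul_nonneg b2.le b4]
  nlinarith [mul_le_mul_of_nonneg_left this hb]

/-- **`Lo`** with `K = b (C + 6) / 2`, `C ≥ E Φ₄²` -/
theorem lo' (h : Blk l N r X) {b C : ℝ} (hb : 0 ≤ b) (hC : ∀ t ∈ Icc 0 (TT l), N4 l t ≤ C) :
    Lo N r (nuf b l) (b * (C + 6) / 2) := by
  have := up_of_pieces (ν := fun t => -nuf b l t) (X := X) (b := 0) (K := -(b * (C + 6) / 2))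
    (φ := fun m u => -(b * (2 * X (m + 1) * Am l u - Nm l u))) h.rm
    (fun m hm s t a1 a2 a3 => by linarith [h.slope hb hC hm a1 a2 a3]) (fun m hm => by
      have a := h.Xm (m + 1) (m + 2) (by omega) (by omega)
      have c := Am_nonneg h.ap.adm (r (m + 1))
      nlinarith [mul_nonneg (mul_nonneg hb (sub_nonneg.2 a)) c])
    fun m hm t ht => by unfold nuf; rw [h.lab m hm t ht]
  intro i j hij hj s hs t ht hst
  have := this i j hij hj s hs t ht hst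
  linarith

/-- oscillation of `ν` on a block -/
theorem osc (h : Blk l N r X) {b C T Γ : ℝ} (hb : 0 ≤ b) (hT : TT l ≤ T)
    (hC : ∀ t ∈ Icc 0 (TT l), N4 l t ≤ C) {k : ℕ} (hk : k < N) (hΓ : r (k + 1) - r k ≤ Γ)
    {s t : ℝ} (hs : s ∈ Ioo (r k) (r (k + 1))) (ht : t ∈ Ioo (r k) (r (k + 1))) :
    |nuf b l s - nuf b l t| ≤ b * (C + 6) * Γ := by
  have hU := h.up hb le_rfl hT fun t _ => Gp_nonneg l t
  have hL := h.lo' hb hC
  have hC0 : 0 ≤ C := (N4_nonneg l 0).trans (hC 0 ⟨le_rfl, h.ap.TT_nn⟩)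
  have hp : 0 ≤ b * (C + 6) := by positivity
  rcases le_total s t with a | a
  · have h1 := hU k k le_rfl hk s hs t ht a
    have h2 := hL k k le_rfl hk s hs t ht a
    have h3 := mul_le_mul_of_nonneg_left (show t - s ≤ Γ by linarith [hs.1, ht.2]) hp
    have h4 := mul_nonneg hp (sub_nonneg.2 a)
    exact abs_le.2 ⟨by nlinarith, by nlinarith⟩
  · have h1 := hU k k le_rfl hk t ht s hs a
    have h2 := hL k k le_rfl hk t ht s hs a
    have h3 := mul_le_mul_of_nonneg_left (show s - t ≤ Γ by linarith [ht.1, hs.2]) hp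
    have h4 := mul_nonneg hp (sub_nonneg.2 a)
    exact abs_le.2 ⟨by nlinarith, by nlinarith⟩

end Blk


end

end Crest.Agent.T156.Rig
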