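import Crest.Agent.T156.SunB_9
import Crest.Agent.T156.FrL_27
import Crest.Agent.T156.CutB_8
import Crest.Agent.T156.Top_31
import Crest.Agent.T156.RigI_63

/-!
Row 156, ALT, text (L) (helper9): the mean profile as a list, and the dictionary between times and
nodes for two step profiles with the same labels.
-/

set_option autoImplicit false

namespace Crest.Agent.T156.Zb9

open MeasureTheory Set
open Crest.Agent.R164.GC Crest.Agent.R339.B Crest.Agent.R339.Var Crest.Agent.T157.Pf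
open Crest.Agent.T156.Pp.Area50 Crest.Agent.T156.Sun9 Crest.Agent.T156.Spl27
open Crest.Agent.T156.Cut8 (LB Res)

noncomputable section

/-! ### cells -/

/-- `t` lies in the cell `k` of the node times `s` -/
def Cell (s : ℕ → ℝ) (J k : ℕ) (t : ℝ) : Prop :=
  k ≤ J ∧ (0 < k → s k ≤ t) ∧ (k < J → t < s (k + 1))

section cell
variable {x s sb sh h : ℕ → ℝ} {J k j : ℕ} {t : ℝ}

theorem Cell.stp (c : Cell s J k t) (hs : Up s J) (x : ℕ → ℝ) : stp x s J t = x k :=
  stp_eq hs c.1 c.2.1 c.2.2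

theorem exists_Cell (hs : Up s J) (t : ℝ) : ∃ k, Cell s J k t := by
  obtain ⟨k, hk, h1, -⟩ := exists_cell hs t
  refine ⟨k, hk, fun h0 => ?_, fun h => not_le.1 fun h' => lt_irrefl _ ((h1 k h).1 h')⟩
  have := (h1 (k - 1) (by omega)).2 (by omega)
  rwa [Nat.sub_add_cancel h0] at this

theorem Cell.ge (c : Cell s J k t) (hs : Up s J) {i : ℕ} (hi : i ≤ J) (h : s i ≤ t) : i ≤ k := by
  by_contra hc
  have := c.2.2 (by omega)
  linarith [hs.le (show k + 1 ≤ i by omega) hi]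

theorem Cell.lt (c : Cell s J k t) (hs : Up s J) {i : ℕ} (hi : 0 < i) (h : t < s i) : k < i := by
  by_contra hc
  have := c.2.1 (by omega)
  linarith [hs.le (show i ≤ k by omega) c.1]

/-- a node followed by a cell of positive length -/
theorem cell_node (hk : k ≤ J) (h : k < J → s k < s (k + 1)) : Cell s J k (s k) :=
  ⟨hk, fun _ => le_rfl, h⟩

/-- labels equal to the top one do not matter -/
theorem stp_ext {N : ℕ} (hN : J ≤ N) (hx : ∀ k, J ≤ k → k ≤ N → x k = x J) (s : ℕ → ℝ) (t : ℝ) :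
    stp x s N t = stp x s J t := by
  unfold stp
  rw [← Finset.sum_range_add_sum_Ico _ hN, Finset.sum_eq_zero (s := Finset.Ico J N) fun j hj => ?_,
    add_zero]
  rw [Finset.mem_Ico] at hj
  rw [hx j hj.1 hj.2.le, hx (j + 1) (by omega) hj.2, sub_self, zero_mul]

theorem stp_congr {x' s' : ℕ → ℝ} (hx : ∀ k ≤ J, x k = x' k)
    (hs : ∀ k, 0 < k → k ≤ J → s k = s' k) (t : ℝ) : stp x s J t = stp x' s' J t := by
  unfold stp
  rw [hx 0 (Nat.zero_le _)]
  congr 1
  refine Finset.sum_congr rfl fun j hj => ?_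
  rw [Finset.mem_range] at hj
  rw [hx j hj.le, hx (j + 1) hj, hs (j + 1) (by omega) hj]

end cell

/-! ### the list -/

/-- labels and (weakly increasing) times of a step profile on `[0, T]` -/
structure Dat (x s : ℕ → ℝ) (J : ℕ) (T : ℝ) : Prop where
  ux : Up x J
  pos : 0 < x 0
  top : x J = 1
  us : Up s J
  s0 : s 0 = 0
  le : s J ≤ T

/-- **the step profile as a list** of total time `T` -/
def zl (x s : ℕ → ℝ) (J : ℕ) (T : ℝ) : List (ℝ × ℝ) :=
  Classical.epsilon fun u => okT T u ∧ ∀ t, 0 ≤ t → lvr 1 u t = stp x s J t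

namespace Dat
variable {x s : ℕ → ℝ} {J : ℕ} {T : ℝ}

theorem exists_list (D : Dat x s J T) :
    ∃ u, okT T u ∧ ∀ t, 0 ≤ t → lvr 1 u t = stp x s J t := by
  set x' : ℕ → ℝ := fun k => if k ≤ J then x k else 1 with hx'
  set s' : ℕ → ℝ := fun k => if k ≤ J then s k else T with hs'
  have e1 : x' (J + 1) = 1 := if_neg (by omega)
  have e2 : ∀ k ≤ J, x' k = x k := fun k hk => if_pos hk
  have e3 : ∀ k ≤ J, s' k = s k := fun k hk => if_pos hk
  have e4 : s' (J + 1) = T := if_neg (by omega)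
  have u1 : Up x' (J + 1) := fun j hj => by
    rcases (Nat.lt_succ_iff.1 hj).eq_or_lt with rfl | h
    · rw [e1, e2 _ le_rfl, D.top]
    · rw [e2 _ h.le, e2 _ h]; exact D.ux j h
  have u2 : Up s' (J + 1) := fun j hj => by
    rcases (Nat.lt_succ_iff.1 hj).eq_or_lt with rfl | h
    · rw [e4, e3 _ le_rfl]; exact D.le
    · rw [e3 _ h.le, e3 _ h]; exact D.us j h
  have s0 : s' 0 = 0 := by rw [e3 _ (Nat.zero_le _), D.s0]
  have a := adm_lsg (J + 1) x' s' e1 (by rw [e2 _ (Nat.zero_le _)]; exact D.pos) u1 u2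
  obtain ⟨u, b1, b2, -⟩ := exists_ok a
  refine ⟨u, ⟨b1, by rw [← b2.tt, TT_lsg, e4, s0, sub_zero]⟩, fun t ht => ?_⟩
  rw [← b2.lv t ht, lvr_lsg e1 u2 s0, stp_ext (Nat.le_succ J) fun k h1 h2 => ?_,
    stp_congr e2 fun k _ hk => e3 k hk]
  rcases h1.eq_or_lt with rfl | h
  · rfl
  · obtain rfl : k = J + 1 := by omega
    rw [e1, e2 _ le_rfl, D.top]

theorem okT (D : Dat x s J T) : okT T (zl x s J T) := (Classical.epsilon_spec D.exists_list).1
theorem ok (D : Dat x s J T) : Pr.Ok (zl x s J T) := D.okT.1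
theorem adm (D : Dat x s J T) : Adm 1 (zl x s J T) := D.okT.1.1
theorem ap (D : Dat x s J T) : Pp.Ode3.AP (zl x s J T) := ap_of_ok D.ok
theorem tt (D : Dat x s J T) : TT (zl x s J T) = T := D.okT.2

theorem lv (D : Dat x s J T) {t : ℝ} (ht : 0 ≤ t) : lvr 1 (zl x s J T) t = stp x s J t :=
  (Classical.epsilon_spec D.exists_list).2 t ht

theorem nn (D : Dat x s J T) {k : ℕ} (hk : k ≤ J) : 0 ≤ s k := D.s0 ▸ D.us.le (Nat.zero_le k) hk

theorem mem (D : Dat x s J T) {k : ℕ} (hk : k ≤ J) : s k ∈ Icc 0 T :=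
  ⟨D.nn hk, (D.us.le hk le_rfl).trans D.le⟩

theorem lv_cell (D : Dat x s J T) {k : ℕ} {t : ℝ} (ht : 0 ≤ t) (c : Cell s J k t) :
    lvr 1 (zl x s J T) t = x k := by rw [D.lv ht, c.stp D.us]

/-- the label on `[s k, s (k+1))` -/
theorem lv_of (D : Dat x s J T) {k : ℕ} {t : ℝ} (hk : k < J) (h1 : s k ≤ t) (h2 : t < s (k + 1)) :
    lvr 1 (zl x s J T) t = x k :=
  D.lv_cell ((D.nn hk.le).trans h1) ⟨hk.le, fun _ => h1, fun _ => h2⟩


theorem lv_top (D : Dat x s J T) {t : ℝ} (h : s J ≤ t) : lvr 1 (zl x s J T) t = 1 := by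
  rw [D.lv_cell ((D.nn le_rfl).trans h) ⟨le_rfl, fun _ => h, fun h => absurd h (lt_irrefl _)⟩, D.top]

/-- **transfer** to any list with the same tilt function -/
theorem same (D : Dat x s J T) {l : List (ℝ × ℝ)} (h : Adm 1 l)
    (hz : ∀ t, 0 < t → lvr 1 l t = stp x s J t) : Ker.Same (zl x s J T) l (min T (TT l)) := by
  have := Ker.same D.adm h fun t ht => by rw [hz t ht, D.lv ht.le]
  rwa [D.tt] at this

/-- transfer to the full list: `N ≥ J` slices, tilt `1` from `J` on -/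
theorem same_lsg (D : Dat x s J T) {N : ℕ} (hN : J ≤ N) (hx : ∀ k, J ≤ k → k ≤ N → x k = 1)
    (hs : Up s N) : Adm 1 (lsg x s N) ∧ Ker.Same (zl x s J T) (lsg x s N) (min T (s N)) := by
  have ux : Up x N := fun j hj => by
    rcases lt_or_ge j J with h | h
    · exact D.ux j h
    · rw [hx j h hj.le, hx (j + 1) (by omega) hj]
  have a := adm_lsg N x s (hx N hN le_rfl) D.pos ux hs
  refine ⟨a, ?_⟩
  have := D.same a fun t _ => by
    rw [lvr_lsg (hx N hN le_rfl) hs D.s0, stp_ext hN fun k h1 h2 => by rw [hx k h1 h2, D.top]]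
  rwa [TT_lsg, D.s0, sub_zero] at this

/-- the window `[i, i + N]` of nodes as a block of `RigI_63` -/
theorem blk (D : Dat x s J T) {i N : ℕ} (h : i + N ≤ J) :
    Rig.Blk (zl x s J T) N (fun k => s (i + k)) fun k => x (i + k - 1) where
  ap := D.ap
  rm := fun _ _ h1 h2 => D.us.le (by omega) (by omega)
  Xm := fun _ _ h1 h2 => D.ux.le (by omega) (by omega)
  lo := D.nn (by omega)
  hi := by rw [D.tt]; exact (D.mem h).2
  lab := fun k hk t ht => by
    rw [show i + (k + 1) - 1 = i + k by omega]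
    exact D.lv_of (by omega) ht.1.le ht.2

end Dat

/-- any list is a step list -/
theorem eq_lsg {l : List (ℝ × ℝ)} {x s : ℕ → ℝ} {N : ℕ} (hN : l.length = N)
    (hx : ∀ k (h : k < l.length), l[k].1 = x k)
    (hs : ∀ k (h : k < l.length), l[k].2 = s (k + 1) - s k) : l = lsg x s N := by
  subst hN
  refine List.ext_getElem (by simp [lsg]) fun k h1 _ => ?_
  simp only [lsg, List.getElem_ofFn]
  exact Prod.ext (hx k h1) (hs k h1)


/-! ### slopes of the reference -/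

/-- two-sided slope up to `η` on `[a, b]` -/
def Sl (zh : ℝ → ℝ) (a b c C η : ℝ) : Prop := ∀ s t, a ≤ s → s ≤ t → t ≤ b →
  c * (t - s) - η ≤ zh t - zh s ∧ zh t - zh s ≤ C * (t - s) + η

section slope
variable {x sb sh h : ℕ → ℝ} {J : ℕ} {a b c C η : ℝ} {zb zh : ℝ → ℝ}

theorem Sl.mono (H : Sl zh a b c C η) {a' b' : ℝ} (ha : a ≤ a') (hb : b' ≤ b) :
    Sl zh a' b' c C η := fun s t h1 h2 h3 => H s t (ha.trans h1) h2 (h3.trans hb)

theorem Sl.congr (H : Sl zh a b c C η) {zh' : ℝ → ℝ} (e : ∀ t ∈ Icc a b, zh' t = zh t) :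
    Sl zh' a b c C η := fun s t h1 h2 h3 => by
  rw [e s ⟨h1, h2.trans h3⟩, e t ⟨h1.trans h2, h3⟩]; exact H s t h1 h2 h3

/-- telescoping of step bounds -/
theorem tele {f g : ℕ → ℝ} {lo hi : ℕ}
    (H : ∀ i, lo ≤ i → i < hi → f (i + 1) - f i ≤ g (i + 1) - g i) {i k : ℕ} (h1 : lo ≤ i)
    (h2 : i ≤ k) (h3 : k ≤ hi) : f k - f i ≤ g k - g i := by
  induction k, h2 using Nat.le_induction with
  | base => simp
  | succ k hk ih => linarith [ih (by omega), H k (by omega) (by omega)]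

theorem tele2 {f g : ℕ → ℝ} {lo hi : ℕ} {d D : ℝ}
    (H : ∀ i, lo ≤ i → i < hi → d * (g (i + 1) - g i) ≤ f (i + 1) - f i ∧
      f (i + 1) - f i ≤ D * (g (i + 1) - g i)) {i k : ℕ} (h1 : lo ≤ i) (h2 : i ≤ k) (h3 : k ≤ hi) :
    d * (g k - g i) ≤ f k - f i ∧ f k - f i ≤ D * (g k - g i) := by
  have a := tele (f := fun i => d * g i) (g := f) (fun i p q => by linarith [(H i p q).1]) h1 h2 h3
  have b := tele (f := f) (g := fun i => D * g i) (fun i p q => by linarith [(H i p q).2]) h1 h2 h3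
  constructor <;> linarith


/-- the lower slope seen from a node -/
theorem Sl.loSl (hx : Up x J) (hh : Up sh J) (H : Sl (stp x sh J) a b c C η) {j : ℕ} (hj : j < J)
    (hm : sh (j + 1) ∈ Icc a b) : LoSl x sh J a b c η j := by
  intro t ht
  refine ⟨fun h => ?_, fun h => ?_⟩
  · obtain ⟨k, ck⟩ := exists_Cell hh (sh (j + 1))
    have h1 := (H _ _ hm.1 h ht.2).1
    rw [ck.stp hh] at h1
    linarith [hx.le ((Nat.le_succ j).trans (ck.ge hh hj le_rfl)) ck.1]
  · have key : ∀ t', t ≤ t' → t' < sh (j + 1) → c * (t' - t) - η ≤ x (j + 1) - stp x sh J t :=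
      fun t' h1 h2 => by
        obtain ⟨k, ck⟩ := exists_Cell hh t'
        have h3 := (H _ _ ht.1 h1 (h2.le.trans hm.2)).1
        rw [ck.stp hh] at h3
        linarith [hx.le (ck.lt hh (Nat.succ_pos j) h2).le hj]
    have cl : IsClosed {t' : ℝ | c * (t' - t) - η ≤ x (j + 1) - stp x sh J t} :=
      isClosed_le (by fun_prop) continuous_const
    have := cl.closure_subset_iff.2 (show Ico t (sh (j + 1)) ⊆ _ from fun t' h' => key t' h'.1 h'.2)
    rw [closure_Ico h.ne] at this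
    exact this ⟨h.le, le_rfl⟩

/-- `zb - zh` is one-sided Lipschitz -/
theorem Sl.aosl (H : Sl zh a b c C η) (T : ℝ) (hC : 0 < C) (hab : a ≤ b)
    (mb : Monotone zb) (mh : Monotone zh) :
    AOSL a b C η (fun t => zb t - zh t) (Cut8.Jf T zh zb) := by
  refine aosl_sub hC hab (mb.monotoneOn _) mh.intervalIntegrable (fun s t h1 h2 h3 => (H s t h1 h2 h3).2)
    fun s _ => ?_
  have i : ∀ p q, IntervalIntegrable (fun u => zb u - zh u) volume p q := fun p q =>
    mb.intervalIntegrable.sub mh.intervalIntegrable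
  unfold Cut8.Jf
  rw [add_comm, intervalIntegral.integral_add_adjacent_intervals (i _ _) (i _ _)]

/-! ### times and nodes -/

/-- **(D1) times to nodes**, upper side -/
theorem node_le (hx : Up x J) (hb : Up sb J) {j : ℕ} (hj : j < J) (H : LoSl x sh J a b c η j)
    {ℓ U : ℝ} (hℓ : 0 ≤ ℓ) (hU : U + η < c * ℓ) (hm : sh (j + 1) + ℓ ∈ Icc a b)
    (hu : -U ≤ stp x sb J (sh (j + 1) + ℓ) - stp x sh J (sh (j + 1) + ℓ)) :
    sb (j + 1) ≤ sh (j + 1) + ℓ := by
  by_contra hc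
  obtain ⟨k, ck⟩ := exists_Cell hb (sh (j + 1) + ℓ)
  have h1 := (H _ hm).1 (by linarith)
  rw [ck.stp hb] at hu
  have h2 : x k ≤ x j := hx.le (Nat.lt_succ_iff.1 (ck.lt hb (Nat.succ_pos j) (not_le.1 hc))) hj.le
  rw [add_sub_cancel_left] at h1
  linarith

/-- **(D1)**, lower side -/
theorem node_ge (hx : Up x J) (hb : Up sb J) {j : ℕ} (hj : j < J) (H : LoSl x sh J a b c η j)
    {ℓ U : ℝ} (hℓ : 0 < ℓ) (hU : U + η < c * ℓ) (hm : sh (j + 1) - ℓ ∈ Icc a b)
    (hu : stp x sb J (sh (j + 1) - ℓ) - stp x sh J (sh (j + 1) - ℓ) ≤ U) :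
    sh (j + 1) - ℓ < sb (j + 1) := by
  by_contra hc
  obtain ⟨k, ck⟩ := exists_Cell hb (sh (j + 1) - ℓ)
  have h1 := (H _ hm).2 (by linarith)
  rw [ck.stp hb] at hu
  have h2 : x (j + 1) ≤ x k := hx.le (ck.ge hb hj (not_lt.1 hc)) ck.1
  rw [sub_sub_cancel] at h1
  linarith

/-- **(D1)**: `sup |u| ≤ U` on `[a, b]` locates the nodes inside -/
theorem node_abs (hx : Up x J) (hb : Up sb J) (hh : Up sh J) (H : Sl (stp x sh J) a b c C η)
    {U ℓ : ℝ} (hℓ : 0 < ℓ) (hU : U + η < c * ℓ)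
    (hu : ∀ t ∈ Icc a b, |stp x sb J t - stp x sh J t| ≤ U) {k : ℕ} (k0 : 0 < k) (k1 : k ≤ J)
    (h1 : a + ℓ ≤ sh k) (h2 : sh k + ℓ ≤ b) : |sb k - sh k| ≤ ℓ := by
  obtain ⟨j, rfl⟩ : ∃ j, k = j + 1 := ⟨k - 1, by omega⟩
  have L := H.loSl hx hh k1 ⟨by linarith, by linarith⟩
  have m1 : sh (j + 1) + ℓ ∈ Icc a b := ⟨by linarith, h2⟩
  have m2 : sh (j + 1) - ℓ ∈ Icc a b := ⟨by linarith, by linarith⟩
  have p := node_le hx hb k1 L hℓ.le hU m1 (abs_le.1 (hu _ m1)).1
  have q := node_ge hx hb k1 L hℓ hU m2 (abs_le.1 (hu _ m2)).2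
  exact abs_le.2 ⟨by linarith, by linarith⟩

/-- **(D2) nodes to times**: sandwich -/
theorem time_sand (hx : Up x J) (hb : Up sb J) (hh : Up sh J) {i i' : ℕ} {V t : ℝ} (hi : i ≤ i')
    (hi' : i' ≤ J) (hV : ∀ k, i ≤ k → k ≤ i' → |sb k - sh k| ≤ V) (h1 : sh i + V ≤ t)
    (h2 : t + V < sh i') :
    stp x sh J (t - V) ≤ stp x sb J t ∧ stp x sb J t ≤ stp x sh J (t + V) := by
  have a1 := abs_le.1 (hV i le_rfl hi)
  have a2 := abs_le.1 (hV i' hi le_rfl)
  have V0 : 0 ≤ V := by linarith [a1.1, a1.2]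
  constructor
  · refine stp_le hx fun j hj h => ?_
    rcases le_or_gt (j + 1) i with c1 | c1
    · linarith [hb.le c1 (hi.trans hi'), a1.2]
    · rcases le_or_gt (j + 1) i' with c2 | c2
      · linarith [(abs_le.1 (hV _ c1.le c2)).2]
      · linarith [hh.le c2.le hj]
  · refine stp_le hx fun j hj h => ?_
    rcases le_or_gt (j + 1) i with c1 | c1
    · linarith [hh.le c1 (hi.trans hi')]
    · rcases le_or_gt (j + 1) i' with c2 | c2
      · linarith [(abs_le.1 (hV _ c1.le c2)).1]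
      · linarith [hb.le c2.le hj, a2.1]

/-- **(D2)**: located nodes give `|u| ≤ C V + η` -/
theorem time_abs (hx : Up x J) (hb : Up sb J) (hh : Up sh J) (H : Sl (stp x sh J) a b c C η)
    {i i' : ℕ} {V t : ℝ} (hi : i ≤ i') (hi' : i' ≤ J)
    (hV : ∀ k, i ≤ k → k ≤ i' → |sb k - sh k| ≤ V) (h1 : sh i + V ≤ t) (h2 : t + V < sh i')
    (h3 : a ≤ t - V) (h4 : t + V ≤ b) : |stp x sb J t - stp x sh J t| ≤ C * V + η := by
  obtain ⟨p, q⟩ := time_sand hx hb hh hi hi' hV h1 h2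
  have V0 : 0 ≤ V := (abs_nonneg _).trans (hV i le_rfl hi)
  have r1 := (H (t - V) t h3 (by linarith) (by linarith)).2
  have r2 := (H t (t + V) (by linarith) (by linarith) h4).2
  rw [sub_sub_cancel] at r1
  rw [add_sub_cancel_left] at r2
  exact abs_le.2 ⟨by linarith, by linarith⟩

/-- **(osc)** on a gap -/
theorem osc {p q A B s t : ℝ} (mb : MonotoneOn zb (Icc p q)) (mh : MonotoneOn zh (Icc p q))
    (hA : zb q - zb p ≤ A) (hB : zh q - zh p ≤ B) (hs : s ∈ Icc p q) (ht : t ∈ Icc p q) :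
    |zb s - zh s - (zb t - zh t)| ≤ max A B := by
  have hp : p ∈ Icc p q := ⟨le_rfl, hs.1.trans hs.2⟩
  have hq : q ∈ Icc p q := ⟨hs.1.trans hs.2, le_rfl⟩
  have a := le_max_left A B
  have b := le_max_right A B
  have b1 := mb hp hs hs.1; have b2 := mb hs hq hs.2
  have b3 := mb hp ht ht.1; have b4 := mb ht hq ht.2
  have c1 := mh hp hs hs.1; have c2 := mh hs hq hs.2
  have c3 := mh hp ht ht.1; have c4 := mh ht hq ht.2
  rcases le_total s t with h | h
  · have := mb hs ht h; have := mh hs ht h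
    exact abs_le.2 ⟨by linarith, by linarith⟩
  · have := mb ht hs h; have := mh ht hs h
    exact abs_le.2 ⟨by linarith, by linarith⟩

/-- **(osc)** with the gap bound of `L0.Nd.gap` and the slope of the reference -/
theorem osc_gap {p q δ θ Gm s t : ℝ} (mb : Monotone zb) (mh : Monotone zh)
    (H : Sl zh a b c C η) (ha : a ≤ p) (hb : q ≤ b) (hG : q - p ≤ Gm) (hδ : 0 ≤ δ) (hθ : 0 ≤ θ)
    (hC : 0 ≤ C) (hη : 0 ≤ η) (hg : zb q ≤ zb p + (δ + θ * (q - p))) (hs : s ∈ Icc p q)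
    (ht : t ∈ Icc p q) : |zb s - zh s - (zb t - zh t)| ≤ (θ + C) * Gm + (δ + η) := by
  have pq := hs.1.trans hs.2
  have g1 := mul_le_mul_of_nonneg_left hG hθ
  have g2 := mul_le_mul_of_nonneg_left hG hC
  have G0 : 0 ≤ Gm := by linarith
  have g3 := mul_nonneg hθ G0
  have g4 := mul_nonneg hC G0
  refine (osc (mb.monotoneOn _) (mh.monotoneOn _) (A := δ + θ * Gm) (B := C * Gm + η) (by linarith)
    (by linarith [(H p q ha pq hb).2]) hs ht).trans (max_le (by linarith) (by linarith))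

end slope

/-! ### marks -/

section marks
variable {x sb sh h : ℕ → ℝ} {J j k : ℕ} {t : ℝ}

/-- a quotient in `[d, D]` -/
theorem exists_quot {X y d D ε : ℝ} (hX : 0 ≤ X) (hd : d ≤ D) (hε : 0 ≤ ε) (h1 : d * X - ε ≤ y)
    (h2 : y ≤ D * X + ε) : ∃ m ∈ Icc d D, |y - m * X| ≤ ε := by
  rcases le_total y (d * X) with a | a
  · exact ⟨d, ⟨le_rfl, hd⟩, abs_le.2 ⟨by linarith, by linarith⟩⟩
  rcases le_total (D * X) y with b | b
  · exact ⟨D, ⟨hd, le_rfl⟩, abs_le.2 ⟨by linarith, by linarith⟩⟩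
  rcases hX.eq_or_lt with rfl | hX'
  · exact ⟨d, ⟨le_rfl, hd⟩, abs_le.2 ⟨by linarith, by linarith⟩⟩
  · exact ⟨y / X, ⟨(le_div_iff₀ hX').2 a, (div_le_iff₀ hX').2 b⟩, by
      rw [div_mul_cancel₀ _ hX'.ne', sub_self, abs_zero]; exact hε⟩

/-- floor and ceiling of the marks on the index window `[lo, hi]` -/
def FC (x h : ℕ → ℝ) (lo hi : ℕ) (d D ε : ℝ) : Prop := ∀ i k, lo ≤ i → i ≤ k → k ≤ hi →
  d * (x k - x i) - ε ≤ h k - h i ∧ h k - h i ≤ D * (x k - x i) + ε


theorem FC.quot {lo hi : ℕ} {d D ε : ℝ} (F : FC x h lo hi d D ε) (hx : Up x J) (hJ : hi ≤ J)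
    (hd : d ≤ D) (hj : j ∈ Icc lo hi) (hk : k ∈ Icc lo hi) :
    ∃ m ∈ Icc d D, |h k - h j - m * (x k - x j)| ≤ ε := by
  have hε : 0 ≤ ε := by have := (F j j hj.1 le_rfl hj.2).2; simpa using this
  rcases le_total j k with c | c
  · obtain ⟨a, b⟩ := F j k hj.1 c hk.2
    exact exists_quot (sub_nonneg.2 (hx.le c (hk.2.trans hJ))) hd hε a b
  · obtain ⟨a, b⟩ := F k j hk.1 c hj.2
    obtain ⟨m, h1, h2⟩ := exists_quot (sub_nonneg.2 (hx.le c (hj.2.trans hJ))) hd hε a b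
    refine ⟨m, h1, ?_⟩
    rwa [← abs_neg, show -(h j - h k - m * (x j - x k)) = h k - h j - m * (x k - x j) by ring] at h2

/-- the reference `M0` inside a cell lies between the marks of its ends -/
theorem ref_mem {M0 : ℝ → ℝ} {a b G : ℝ} (c : Cell sh J j t) (hj : j < J)
    (mo : MonotoneOn M0 (Icc a b)) (h0 : a ≤ sh j) (h1 : sh j ≤ t) (h2 : sh (j + 1) ≤ b)
    (g1 : h j - G ≤ M0 (sh j)) (g2 : M0 (sh (j + 1)) ≤ h (j + 1) + G) :
    h j - G ≤ M0 t ∧ M0 t ≤ h (j + 1) + G := by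
  have h3 := (c.2.2 hj).le
  have mt : t ∈ Icc a b := ⟨h0.trans h1, h3.trans h2⟩
  exact ⟨g1.trans (mo ⟨h0, h1.trans mt.2⟩ mt h1), (mo mt ⟨mt.1.trans h3, h2⟩ h3).trans g2⟩

/-- **(W)** `W = m u` up to errors, `m ∈ [d, D]` -/
theorem W_rep {lo hi : ℕ} {d D ε ε' G err M M0 : ℝ} (F : FC x h lo hi d D ε) (hx : Up x J)
    (hb : Up sb J) (hh : Up sh J) (hJ : hi ≤ J) (hd : d ≤ D) (cb : Cell sb J k t)
    (ch : Cell sh J j t) (hj : j ∈ Icc lo hi) (hk : k ∈ Icc lo hi) (hs : h (j + 1) - h j ≤ ε')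
    (hε' : 0 ≤ ε') (g1 : h j - G ≤ M0) (g2 : M0 ≤ h (j + 1) + G) (hM : |M - h k| ≤ err) :
    ∃ m ∈ Icc d D, |M - M0 - m * (stp x sb J t - stp x sh J t)| ≤ err + G + ε + ε' := by
  obtain ⟨m, h1, h2⟩ := F.quot hx hJ hd hj hk
  refine ⟨m, h1, ?_⟩
  rw [cb.stp hb, ch.stp hh]
  rw [abs_le] at h2 hM ⊢
  constructor <;> linarith [h2.1, h2.2, hM.1, hM.2]


/-- floor and ceiling for the mark term, from a representation `y = m u ± ζ` -/
theorem of_quot {y u m d D ζ : ℝ} (hm : m ∈ Icc d D) (h : |y - m * u| ≤ ζ) (hd : 0 ≤ d) :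
    d * u ^ 2 - ζ * |u| ≤ y * u ∧ |y| ≤ D * |u| + ζ ∧ (0 ≤ u → d * u - ζ ≤ y) ∧
      (u ≤ 0 → y ≤ d * u + ζ) := by
  obtain ⟨h1, h2⟩ := abs_le.1 h
  refine ⟨?_, ?_, fun hu => by nlinarith [hm.1], fun hu => by nlinarith [hm.1]⟩
  · have a : |(y - m * u) * u| ≤ ζ * |u| := by
      rw [abs_mul]; exact mul_le_mul_of_nonneg_right h (abs_nonneg _)
    nlinarith [(abs_le.1 a).1, mul_le_mul_of_nonneg_right hm.1 (sq_nonneg u)]
  · have a : |m * u| ≤ D * |u| := by
      rw [abs_mul, abs_of_nonneg (hd.trans hm.1)]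
      exact mul_le_mul_of_nonneg_right hm.2 (abs_nonneg _)
    calc |y| = |(y - m * u) + m * u| := by ring_nf
      _ ≤ _ := abs_add_le _ _
      _ ≤ _ := by linarith

end marks

/-! ### the clamped mark term -/

section clamp
variable {T : ℝ} {f g : ℝ → ℝ}

theorem LB_max (hf : LB T f) (hg : LB T g) : LB T fun t => max (f t) (g t) := by
  have := ((hf.add hg).add (hf.sub hg).abs).div 2
  convert this using 2 with t
  rcases le_total (f t) (g t) with h | h
  · rw [max_eq_right h, abs_of_nonpos (sub_nonpos.2 h)]; ring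
  · rw [max_eq_left h, abs_of_nonneg (sub_nonneg.2 h)]; ring

theorem LB_min (hf : LB T f) (hg : LB T g) : LB T fun t => min (f t) (g t) := by
  have := ((hf.add hg).sub (hf.sub hg).abs).div 2
  convert this using 2 with t
  rcases le_total (f t) (g t) with h | h
  · rw [min_eq_left h, abs_of_nonpos (sub_nonpos.2 h)]; ring
  · rw [min_eq_right h, abs_of_nonneg (sub_nonneg.2 h)]; ring

open Classical in
theorem LB_ite {p : ℝ → Prop} (hp : MeasurableSet {t | p t}) (hf : LB T f) (hg : LB T g) :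
    LB T fun t => if p t then f t else g t := by
  obtain ⟨h1, K, hK⟩ := hf
  obtain ⟨h2, K', hK'⟩ := hg
  refine ⟨?_, max K K', fun t ht => ?_⟩
  · exact AEStronglyMeasurable.piecewise hp h1.restrict h2.restrict
  · show |if p t then f t else g t| ≤ _
    split_ifs
    · exact (hK t ht).trans (le_max_left _ _)
    · exact (hK' t ht).trans (le_max_right _ _)

/-- lower clamp: `Hlo · u = max (m u², y u)` -/
def lo (m u y : ℝ) : ℝ := if 0 ≤ u then max (m * u) y else min (m * u) y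
/-- upper clamp -/
def up (M u y : ℝ) : ℝ := if 0 ≤ u then min (M * u) y else max (M * u) y

theorem lo_mul (m u y : ℝ) : lo m u y * u = max (m * u ^ 2) (y * u) := by
  unfold lo
  split_ifs with h
  · rw [max_mul_of_nonneg _ _ h]; ring_nf
  · have h' := (not_le.1 h).le
    rcases le_total (m * u) y with c | c
    · rw [min_eq_left c, max_eq_left (by nlinarith)]; ring
    · rw [min_eq_right c, max_eq_right (by nlinarith)]

theorem up_mul (M u y : ℝ) : up M u y * u = min (M * u ^ 2) (y * u) := by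
  unfold up
  split_ifs with h
  · rw [min_mul_of_nonneg _ _ h]; ring_nf
  · have h' := (not_le.1 h).le
    rcases le_total (M * u) y with c | c
    · rw [max_eq_right c, min_eq_right (by nlinarith)]
    · rw [max_eq_left c, min_eq_left (by nlinarith)]; ring

theorem lo_pair {m u y ζ : ℝ} (hζ : 0 ≤ ζ) (h : m * u ^ 2 - ζ * |u| ≤ y * u) :
    (lo m u y - y) * u ≤ ζ * |u| := by
  rw [sub_mul, lo_mul]
  have := mul_nonneg hζ (abs_nonneg u)
  rcases le_total (m * u ^ 2) (y * u) with c | c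
  · rw [max_eq_right c]; linarith
  · rw [max_eq_left c]; linarith


/-- the two-sided clamp -/
def two (m M u y : ℝ) : ℝ := up M u (lo m u y)

theorem two_floor {m M : ℝ} (h : m ≤ M) (u y : ℝ) : m * u ^ 2 ≤ two m M u y * u := by
  rw [two, up_mul, lo_mul]
  exact le_min (mul_le_mul_of_nonneg_right h (sq_nonneg u)) (le_max_left _ _)

theorem two_sq {m M : ℝ} (h0 : 0 ≤ m) (h : m ≤ M) (u y : ℝ) :
    two m M u y ^ 2 ≤ M * (two m M u y * u) := by
  unfold two up lo
  split_ifs with c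
  · have a : 0 ≤ min (M * u) (max (m * u) y) :=
      le_min (mul_nonneg (h0.trans h) c) ((mul_nonneg h0 c).trans (le_max_left _ _))
    nlinarith [min_le_left (M * u) (max (m * u) y)]
  · have c' := (not_le.1 c).le
    have a : max (M * u) (min (m * u) y) ≤ 0 :=
      max_le (mul_nonpos_of_nonneg_of_nonpos (h0.trans h) c')
        ((min_le_left _ _).trans (mul_nonpos_of_nonneg_of_nonpos h0 c'))
    nlinarith [le_max_left (M * u) (min (m * u) y)]

theorem two_pair {m M u y ζ : ℝ} (hζ : 0 ≤ ζ) (h : m * u ^ 2 - ζ * |u| ≤ y * u) :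
    (two m M u y - y) * u ≤ ζ * |u| := by
  have := lo_pair hζ h
  rw [sub_mul] at this ⊢
  rw [two, up_mul]
  linarith [min_le_right (M * u ^ 2) (lo m u y * u)]

theorem two_near {m M u y ζ : ℝ} (hζ : 0 ≤ ζ) (h : m ≤ M) (h1 : 0 ≤ u → m * u - ζ ≤ y)
    (h2 : u ≤ 0 → y ≤ m * u + ζ) (h3 : |y| ≤ M * |u| + ζ) : |two m M u y - y| ≤ ζ := by
  obtain ⟨a, b⟩ := abs_le.1 h3
  unfold two up lo
  split_ifs with c
  · have := h1 c
    rw [abs_of_nonneg c] at b
    have := mul_le_mul_of_nonneg_right h c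
    refine abs_le.2 ⟨?_, ?_⟩
    · have : y - ζ ≤ min (M * u) (max (m * u) y) :=
        le_min (by linarith) ((sub_le_self _ hζ).trans (le_max_right _ _))
      linarith
    · have : max (m * u) y ≤ y + ζ := max_le (by linarith) (by linarith)
      linarith [min_le_right (M * u) (max (m * u) y)]
  · have c' := (not_le.1 c).le
    have := h2 c'
    rw [abs_of_nonpos c'] at a
    have := mul_le_mul_of_nonpos_right h c'
    refine abs_le.2 ⟨?_, ?_⟩
    · have : y - ζ ≤ min (m * u) y := le_min (by linarith) (by linarith)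
      linarith [le_max_right (M * u) (min (m * u) y)]
    · have : max (M * u) (min (m * u) y) ≤ y + ζ :=
        max_le (by linarith) ((min_le_right _ _).trans (by linarith))
      linarith

variable {m u y : ℝ → ℝ}

theorem LB_lo (hu : Measurable u) (lm : LB T m) (lu : LB T u) (ly : LB T y) :
    LB T fun t => lo (m t) (u t) (y t) := by
  have := LB_ite (p := fun t => 0 ≤ u t) (measurableSet_le measurable_const hu)
    (LB_max (lm.mul lu) ly) (LB_min (lm.mul lu) ly)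
  unfold lo
  convert this

theorem LB_up (hu : Measurable u) (lm : LB T m) (lu : LB T u) (ly : LB T y) :
    LB T fun t => up (m t) (u t) (y t) := by
  have := LB_ite (p := fun t => 0 ≤ u t) (measurableSet_le measurable_const hu)
    (LB_min (lm.mul lu) ly) (LB_max (lm.mul lu) ly)
  unfold up
  convert this

theorem LB_two {M : ℝ → ℝ} (hu : Measurable u) (lm : LB T m) (lM : LB T M) (lu : LB T u)
    (ly : LB T y) : LB T fun t => two (m t) (M t) (u t) (y t) :=
  LB_up hu lM lu (LB_lo hu lm lu ly)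


/-- **`Res` from raw data**, two-sided clamp (`two_sq`, `two_near` give `hH`, `hη`) -/
theorem res_two {ρ r1 r2 ω β ξ ζ M : ℝ → ℝ} {A B : ℝ} (hu : Measurable u) (lm : LB T m)
    (lM : LB T M) (lu : LB T u) (ly : LB T y) (lω : LB T ω) (lξ : LB T ξ)
    (eq : ∀ t, A < t → t < B → ρ t + y t = r1 t + r2 t) (ω0 : ∀ t, A < t → t < B → 0 ≤ ω t)
    (slow : ∀ s t, A ≤ s → s ≤ t → t ≤ B → |r2 t - r2 s| ≤ (∫ v in s..t, ω v) + β s + β t)
    (m0 : ∀ t, A < t → t < B → 0 ≤ m t ∧ m t ≤ M t) (ζ0 : ∀ t, A < t → t < B → 0 ≤ ζ t)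
    (fl : ∀ t, A < t → t < B → m t * u t ^ 2 - ζ t * |u t| ≤ y t * u t)
    (ξ0 : ∀ t, A < t → t < B → 0 ≤ ξ t)
    (pair : ∀ t, A < t → t < B → r1 t * u t + (β t + ζ t) * |u t| ≤ ξ t) :
    Res T u ρ (fun t => two (m t) (M t) (u t) (y t))
      (fun t => r1 t + (two (m t) (M t) (u t) (y t) - y t)) r2 ω β ξ A B where
  lH := LB_two hu lm lM lu ly
  lω := lω
  lξ := lξ
  eq := fun t a b => by linarith [eq t a b]
  ω_nn := ω0
  slow := slow
  H_nn := fun t a b => (mul_nonneg (m0 t a b).1 (sq_nonneg _)).trans (two_floor (m0 t a b).2 _ _)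
  ξ_nn := ξ0
  pair := fun t a b => by linarith [pair t a b, two_pair (M := M t) (ζ0 t a b) (fl t a b)]

end clamp

/-! ### output: sums over nodes from integrals over times -/

section out
variable {x sb sh : ℕ → ℝ} {J : ℕ} {a b c C η : ℝ}

/-- general exponent -/
theorem en_pow (hx : Up x J) (hb : Up sb J) (hh : Up sh J) (H : Sl (stp x sh J) a b c C η)
    (hab : a ≤ b) (hc : 0 < c) (hη : 0 ≤ η) {S : Finset ℕ}
    (hS : ∀ j ∈ S, j < J ∧ sh (j + 1) ∈ Icc a b ∧ sb (j + 1) ∈ Icc a b) (p : ℕ) :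
    ∑ j ∈ S, (x (j + 1) - x j) * |sb (j + 1) - sh (j + 1)| ^ (p + 1) ≤
      (p + 1) * 2 ^ p / c ^ p *
        ((∫ t in a..b, |stp x sb J t - stp x sh J t| ^ (p + 1)) + η ^ (p + 1) * (b - a)) := by
  have A := area_ge hx hb hh hab hc hη (S := S)
    (fun j hj => ⟨(hS j hj).1, (hS j hj).2.1, H.loSl hx hh (hS j hj).1 (hS j hj).2.1⟩) p
  rw [Finset.sum_congr rfl (g := fun j => (x (j + 1) - x j) * |sb (j + 1) - sh (j + 1)| ^ (p + 1))
    fun j hj => by
      rw [cl, min_eq_left (hS j hj).2.2.2, max_eq_right (hS j hj).2.2.1]] at A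
  refine A.trans ?_
  rw [mul_div_assoc, mul_assoc]
  refine mul_le_mul_of_nonneg_left ?_ (by positivity)
  have i1 := ii_comp hx sb sh (φ := fun u => |u| ^ (p + 1)) (by fun_prop) a b
  have e : η ^ (p + 1) * (b - a) = ∫ _ in a..b, η ^ (p + 1) := by simp [mul_comm]
  rw [e, ← intervalIntegral.integral_add i1 intervalIntegrable_const,
    ← intervalIntegral.integral_const_mul]
  refine intervalIntegral.integral_mono_on hab
    (ii_comp hx sb sh (φ := fun u => |u| * ((|u| + η) / c) ^ p) (by fun_prop) a b)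
    ((i1.add intervalIntegrable_const).const_mul _) fun t _ => ?_
  set w := |stp x sb J t - stp x sh J t|
  have w0 : 0 ≤ w := abs_nonneg _
  have h1 := add_pow_le w0 hη (p + 1)
  rw [Nat.add_sub_cancel] at h1
  calc w * ((w + η) / c) ^ p ≤ (w + η) * ((w + η) / c) ^ p :=
        mul_le_mul_of_nonneg_right (by linarith) (by positivity)
    _ = (w + η) ^ (p + 1) / c ^ p := by rw [div_pow]; ring
    _ ≤ 2 ^ p * (w ^ (p + 1) + η ^ (p + 1)) / c ^ p := by gcongr
    _ = _ := by ring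



/-- the tail integral through the nodes -/
theorem Jf_eq (x sb sh : ℕ → ℝ) (J : ℕ) {t T : ℝ} (h : t ≤ T) :
    Cut8.Jf T (stp x sh J) (stp x sb J) t =
      ∑ j ∈ Finset.range J, (x (j + 1) - x j) * (cl t T (sh (j + 1)) - cl t T (sb (j + 1))) := by
  have := area x sh sb J h (g := fun _ => 1) intervalIntegrable_const
  simpa [Cut8.Jf] using this


theorem Jf_congr {z0 z1 z0' z1' : ℝ → ℝ} {T t : ℝ} (h : t ≤ T)
    (e0 : ∀ s ∈ Icc t T, z0 s = z0' s) (e1 : ∀ s ∈ Icc t T, z1 s = z1' s) :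
    Cut8.Jf T z0 z1 t = Cut8.Jf T z0' z1' t := by
  unfold Cut8.Jf
  refine intervalIntegral.integral_congr fun s hs => ?_
  rw [uIcc_of_le h] at hs
  simp only [e0 s hs, e1 s hs]


end out

end

end Crest.Agent.T156.Zb9
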