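import Crest.Agent.T156.TopC_27
import Crest.Agent.T156.Zb_9

/-!
Row 156 (helper27): the net of good nodes; `Cut8.Res` from node data.
-/

set_option autoImplicit false

namespace Crest.Agent.T156.Gap27

open MeasureTheory Set
open Crest.Agent.R164.GC Crest.Agent.R339.B Crest.Agent.R339.Var Crest.Agent.T157.Pf
open Crest.Agent.T156.L0 Crest.Agent.T156.Cut8 Crest.Agent.T156.Pp.Area50

noncomputable section

/-- `i ≤ j` are consecutive good nodes of `[u, v]` (or equal) -/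
structure Cons (Gn : ℕ → Prop) (u v i j : ℕ) : Prop where
  ui : u ≤ i
  ij : i ≤ j
  jv : j ≤ v
  gi : Gn i
  gj : Gn j
  no : ∀ k, i < k → k < j → ¬ Gn k

/-- a monotone choice of the gap around each time -/
theorem exists_net {σ : ℕ → ℝ} {Gn : ℕ → Prop} {u v : ℕ} (huv : u ≤ v) (hu : Gn u) (hv : Gn v) :
    ∃ I N : ℝ → ℕ, (∀ s t, σ u ≤ s → s ≤ t → I s ≤ I t) ∧
      (∀ t k, u ≤ k → k ≤ v → Gn k → σ k ≤ t → k ≤ I t) ∧
      ∀ t, σ u ≤ t → t ≤ σ v → Cons Gn u v (I t) (N t) ∧ σ (I t) ≤ t ∧ t ≤ σ (N t) := by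
  classical
  let P : ℝ → ℕ → Prop := fun t i => u ≤ i ∧ Gn i ∧ σ i ≤ t
  let I : ℝ → ℕ := fun t => Nat.findGreatest (P t) v
  have sp : ∀ t, σ u ≤ t → P t (I t) := fun t ht =>
    Nat.findGreatest_spec (P := P t) huv ⟨le_rfl, hu, ht⟩
  have ex' : ∀ i, i < v → ∃ j, i < j ∧ Gn j := fun i h => ⟨v, h, hv⟩
  let nx : ℕ → ℕ := fun i => if h : i < v then Nat.find (ex' i h) else v
  refine ⟨I, fun t => nx (I t), fun s t hs hst => ?_,
    fun t k a c g e => Nat.le_findGreatest c ⟨a, g, e⟩, fun t h0 h1 => ?_⟩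
  · have a := sp s hs
    exact Nat.le_findGreatest (Nat.findGreatest_le v) ⟨a.1, a.2.1, a.2.2.trans hst⟩
  · have a := sp t h0
    have b : I t ≤ v := Nat.findGreatest_le v
    by_cases h : I t < v
    · have e : nx (I t) = Nat.find (ex' _ h) := dif_pos h
      have c := Nat.find_spec (ex' _ h)
      have d : Nat.find (ex' _ h) ≤ v := Nat.find_min' _ ⟨h, hv⟩
      simp only [e]
      refine ⟨⟨a.1, c.1.le, d, a.2.1, c.2, fun k x y g => Nat.find_min (ex' _ h) y ⟨x, g⟩⟩,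
        a.2.2, ?_⟩
      by_contra hc
      exact Nat.findGreatest_is_greatest (P := P t) c.1 d ⟨a.1.trans c.1.le, c.2, (not_le.1 hc).le⟩
    · have e : nx (I t) = v := dif_neg h
      simp only [e]
      exact ⟨⟨a.1, b, le_rfl, a.2.1, hv, fun k x y => by omega⟩, a.2.2, h1⟩

variable {lb lh : List (ℝ × ℝ)} {T C b θ : ℝ}


/-- the residual at the node `k` -/
def resN (lb : List (ℝ × ℝ)) (b : ℝ) (σ h : ℕ → ℝ) (k : ℕ) : ℝ :=
  Pr.Gam lb (σ k) - σ k / b + h k / b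

/-- node data on `[u, v]`: labels `x`, times `σ`, marks `h`, good nodes `Gn`, node errors
`en + on |Γ''|`, source clock `l0 σ + Ω (x)`; level functions of the time -/
structure Nodes (lb lh : List (ℝ × ℝ)) (b : ℝ) (x σ h en on : ℕ → ℝ) (Gn : ℕ → Prop) (J u v : ℕ)
    (l0 δ : ℝ) (Ω ϖ Gm Dz jh D η ω lam : ℝ → ℝ) : Prop where
  uv : u ≤ v
  vJ : v ≤ J
  gu : Gn u
  gv : Gn v
  hm : Up h J
  l00 : 0 ≤ l0
  δ0 : 0 ≤ δ
  Ωm : Monotone Ω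
  str : ∀ k, u ≤ k → k ≤ v → Gn k → k < J → σ k < σ (k + 1)
  e1 : ∀ i j, u ≤ i → i ≤ j → j ≤ v → Gn i → Gn j → |resN lb b σ h j - resN lb b σ h i| ≤
    en i + on i * |Gd lb (σ i)| + (en j + on j * |Gd lb (σ j)|) +
      (l0 * (σ j - σ i) + (Ω (x j) - Ω (x i)))
  gap : ∀ i j, Cons Gn u v i j → ∀ t, σ i ≤ t → t ≤ σ j → σ j - σ i ≤ Gm t ∧
    x j - x i + (lvr 1 lh (σ j) - lvr 1 lh (σ i)) ≤ Dz t ∧ (∀ s ∈ Icc (σ i) (σ j), |Gd lh s| ≤ jh t) ∧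
    (h j - h i) / b ≤ D t ∧ 0 ≤ en i ∧ 0 ≤ en j ∧ 0 ≤ on i ∧ on i ≤ ω t ∧ on j ≤ ω t ∧
    en i + en j + (l0 * (σ j - σ i) + (Ω (x j) - Ω (x i))) + δ ≤ η t
  o1 : ∀ t, σ u ≤ t → t ≤ σ v → 0 ≤ lam t ∧
    |Ω (lvr 1 lb t) - Ω (lvr 1 lh t)| ≤ lam t * |lvr 1 lb t - lvr 1 lh t|
  o2 : ∀ s t, σ u ≤ s → s ≤ t → t ≤ σ v →
    l0 * (t - s) + (Ω (lvr 1 lh t) - Ω (lvr 1 lh s)) ≤ (∫ r in s..t, ϖ r) + δ


end

end Crest.Agent.T156.Gap27
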