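import Crest.Agent.T156.ClNd_9
import Crest.Agent.T156.Net_27

/-!
Row 156, ALT, text (L) (helper9): the node data `Gap27.Nodes` and the floor of the mark term for a
member of the class.
-/

set_option autoImplicit false

noncomputable section

namespace Crest.Agent.T156.Alt.Mp9

open MeasureTheory Set Real
open Crest.Agent.R164.GC Crest.Agent.R339.B Crest.Agent.R339.Var Crest.Agent.T157.Pf
open Crest.Agent.T156.Pp.Area50 Crest.Agent.T156.Spl27 Crest.Agent.T156.Zb9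
open Crest.Agent.T156.Gap27 (Nodes Cons resN)

namespace At
variable {S : Sc} {M : Md} {m : ℕ} {a T : ℝ}

theorem b_mem (A : At S M m a T) : 1 ≤ M.b ∧ M.b ≤ S.C := ⟨(d_mem A.cl le_rfl).1, A.cl.b1⟩

theorem resN_eq (A : At S M m a T) {k : ℕ} (h1 : S.jl < k) (h2 : k ≤ S.Jp) :
    resN (lb M S m a T) M.b (sb M m a) (hb M) (k + 1) =
      res M S m a T k + M.rb m a k / (m + 1) := by
  have b0 : M.b ≠ 0 := by linarith [A.b_mem.1]
  unfold resN res
  generalize Pr.Gam (lb M S m a T) (sb M m a (k + 1)) = g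
  simp only [sb, hb, kp_eq, d_top A.cl h1 (A.jp_le h2)]
  field_simp
  ring

theorem s_j0_pos (A : At S M m a T) : 0 < M.s S.j0 := by
  have h := s_lt A.cl (k := 0) (by have := A.cl.i2; omega)
  rw [A.cl.s0] at h
  exact h.trans_le (A.cl.sm A.cl.i0)

theorem gd_h (A : At S M m a T) {t : ℝ} (h0 : 0 ≤ t) (h1 : t < M.s S.J) :
    |L0.Gd (lh M T) t| ≤ S.C * (S.ms t / max t (M.s S.j0)) := by
  have ht := A.mem_min ⟨h0, h1.le.trans (A.cl.sm A.cl.i3)⟩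
  have := A.cl.gpp t h0 h1
  rwa [← A.spec.2.2.nn t ht, ← A.spec.2.2.aa t ht, ← A.lvh' h0] at this

theorem gd_h' (A : At S M m a T) {p q t : ℝ} (h0 : 0 ≤ p) (h1 : q < M.s S.J) (ht : t ∈ Icc p q) :
    |L0.Gd (lh M T) t| ≤ S.C * (S.ms q / max p (M.s S.j0)) :=
  (A.gd_h (h0.trans ht.1) (ht.2.trans_lt h1)).trans (mul_le_mul_of_nonneg_left
    (div_le_div₀ (A.ms_pos (h0.trans (ht.1.trans ht.2))).le (A.cl.msm ht.2)
      (A.s_j0_pos.trans_le (le_max_right _ _)) (max_le_max_right _ ht.1)) A.c_pos.le)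

/-- **floor of the mark term** -/
theorem fl (A : At S M m a T) {a' t : ℝ} {k : ℕ} (h1 : S.jl < k) (h2 : k < S.J)
    (c : Cell (sb M m a) (S.Jp + 1) (k + 1) t) (ht : t < M.s S.J) (ha : 0 ≤ a') (a1 : a' ≤ t)
    (a2 : a' ≤ M.s k) {ζ : ℝ} (hζ : |M.G k| + S.C ^ 3 * S.θ * S.v ≤ ζ) :
    S.ms a' / S.C ^ 3 * uu M S m a T t ^ 2 - ζ * |uu M S m a T t| ≤
      (hm M S m a t - (t - M.b * Pr.Gam (lh M T) t)) / M.b * uu M S m a T t := by
  have C0 := A.c_pos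
  have sk : M.s k < M.s S.J := (s_lt A.cl h2).trans_le (A.cl.sm h2)
  obtain ⟨μ, m1, m2⟩ := A.y_rep ha (max_lt ht sk) h1 c ⟨a2, le_max_right _ _⟩ ⟨a1, le_max_left _ _⟩
  have p := A.ms_pos ha
  have z1 : |M.G k| + S.C ^ 3 * S.ms (max t (M.s k)) * S.v ≤ ζ := by
    have := mul_le_mul_of_nonneg_right (mul_le_mul_of_nonneg_left (A.cl.ms1 (max t (M.s k)))
      (pow_pos C0 3).le) (v_pos A.cl).le
    linarith
  have q := (of_quot m1 (m2.trans z1) (by positivity)).1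
  have z0 : 0 ≤ ζ * |uu M S m a T t| := mul_nonneg ((abs_nonneg _).trans (m2.trans z1)) (abs_nonneg _)
  obtain ⟨b1, b2⟩ := A.b_mem
  change _ ≤ (hm M S m a t - Rig.Mf M.b (lh M T) t) / M.b * uu M S m a T t
  rw [div_mul_eq_mul_div _ M.b, le_div_iff₀ (by linarith)]
  refine le_trans ?_ q
  have r1 : S.ms a' / S.C ^ 3 * uu M S m a T t ^ 2 * M.b ≤
      S.ms a' / S.C ^ 3 * uu M S m a T t ^ 2 * S.C := mul_le_mul_of_nonneg_left b2 (by positivity)
  have r2 : S.ms a' / S.C ^ 3 * uu M S m a T t ^ 2 * S.C = S.ms a' / S.C ^ 2 * uu M S m a T t ^ 2 := by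
    field_simp
  nlinarith

/-- the cell of a time between two nodes -/
theorem exists_cell (A : At S M m a T) {u v : ℕ} {t : ℝ} (hv : v ≤ S.Jp)
    (h1 : sb M m a (u + 1) ≤ t) (h2 : t < sb M m a (v + 1)) :
    ∃ k, u ≤ k ∧ k < v ∧ Cell (sb M m a) (S.Jp + 1) (k + 1) t := by
  obtain ⟨k, c⟩ := exists_Cell A.ub t
  have uv : u < v := lt_of_not_ge fun h => absurd (A.sb_mono (Nat.succ_le_succ h)) (by linarith)
  have p := c.ge A.ub (show u + 1 ≤ S.Jp + 1 by omega) h1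
  have q := c.lt A.ub (Nat.succ_pos v) h2
  obtain ⟨k, rfl⟩ : ∃ j, k = j + 1 := ⟨k - 1, by omega⟩
  exact ⟨k, by omega, by omega, c⟩

/-- **the node data of `Net_27`** -/
theorem nodes (A : At S M m a T) {Gn : ℕ → Prop} {u v : ℕ} {en on : ℕ → ℝ} {l0 δ : ℝ}
    {Ω ϖ Gm Dz jh D η ω lam : ℝ → ℝ} (hu : S.jl < u) (huv : u ≤ v) (hv : v ≤ S.Jp) (gu : Gn u)
    (gv : Gn v) (l00 : 0 ≤ l0) (δ0 : 0 ≤ δ) (Ωm : Monotone Ω) (hJ : sb M m a (v + 1) < M.s S.J)
    (e1 : ∀ i k, u ≤ i → i ≤ k → k ≤ v → Gn i → Gn k → |res M S m a T k - res M S m a T i| ≤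
      en i + on i * |L0.Gd (lb M S m a T) (sb M m a (i + 1))| +
        (en k + on k * |L0.Gd (lb M S m a T) (sb M m a (k + 1))|) +
        (l0 * (sb M m a (k + 1) - sb M m a (i + 1)) + (Ω (M.z k) - Ω (M.z i))))
    (gap : ∀ i k, Nx Gn u v i k → ∀ t, sb M m a (i + 1) ≤ t → t ≤ sb M m a (k + 1) →
      sb M m a (k + 1) - sb M m a (i + 1) ≤ Gm t ∧
      M.z k - M.z i + (S.C * Gm t + S.C * S.v) ≤ Dz t ∧
      S.C * (S.ms (sb M m a (k + 1)) / max (sb M m a (i + 1)) (M.s S.j0)) ≤ jh t ∧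
      M.H k - M.H i ≤ D t ∧ 0 ≤ en i ∧ 0 ≤ en k ∧ 0 ≤ on i ∧ on i ≤ ω t ∧ on k ≤ ω t ∧
      en i + en k + 2 / (m + 1) + (l0 * (sb M m a (k + 1) - sb M m a (i + 1)) +
        (Ω (M.z k) - Ω (M.z i))) + δ ≤ η t)
    (o1 : ∀ t, sb M m a (u + 1) ≤ t → t ≤ sb M m a (v + 1) → 0 ≤ lam t ∧
      |Ω (lvr 1 (lb M S m a T) t) - Ω (lvr 1 (lh M T) t)| ≤ lam t * |uu M S m a T t|)
    (o2 : ∀ s t, sb M m a (u + 1) ≤ s → s ≤ t → t ≤ sb M m a (v + 1) →
      l0 * (t - s) + (Ω (lvr 1 (lh M T) t) - Ω (lvr 1 (lh M T) s)) ≤ (∫ r in s..t, ϖ r) + δ) :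
    Nodes (lb M S m a T) (lh M T) M.b (xb M a) (sb M m a) (hb M)
      (fun j => en (j - 1) + 1 / (m + 1)) (fun j => on (j - 1)) (fun j => Gn (j - 1)) (S.Jp + 1)
      (u + 1) (v + 1) l0 δ Ω ϖ Gm Dz jh D η ω lam where
  uv := Nat.succ_le_succ huv
  vJ := Nat.succ_le_succ hv
  gu := gu
  gv := gv
  hm := up_of_mono A.hb_mono _
  l00 := l00
  δ0 := δ0
  Ωm := Ωm
  str := fun k h1 _ _ h3 => by
    obtain ⟨k, rfl⟩ : ∃ j, k = j + 1 := ⟨k - 1, by omega⟩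
    exact A.sb_lt (by omega) (by omega)
  e1 := fun i k h1 h2 h3 g1 g2 => by
    obtain ⟨i, rfl⟩ : ∃ j, i = j + 1 := ⟨i - 1, by omega⟩
    obtain ⟨k, rfl⟩ : ∃ j, k = j + 1 := ⟨k - 1, by omega⟩
    have p := abs_le.1 (e1 i k (by omega) (by omega) (by omega) g1 g2)
    obtain ⟨r1, r2⟩ := rb_mem (M := M) (a := a) A.m_pos i
    obtain ⟨r3, r4⟩ := rb_mem (M := M) (a := a) A.m_pos k
    have m0 : (0 : ℝ) < m + 1 := by positivity
    have s1 := div_nonneg r1 m0.le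
    have s2 := div_le_div_of_nonneg_right r2 m0.le
    have s3 := div_nonneg r3 m0.le
    have s4 := div_le_div_of_nonneg_right r4 m0.le
    rw [A.resN_eq (by omega) (by omega), A.resN_eq (by omega) (by omega)]
    simp only [Nat.add_sub_cancel, xb]
    exact abs_le.2 ⟨by linarith [p.1], by linarith [p.2]⟩
  gap := fun i k n t h1 h2 => by
    obtain ⟨n1, n2, n3, n4, n5, n6⟩ := n
    obtain ⟨i, rfl⟩ : ∃ j, i = j + 1 := ⟨i - 1, by omega⟩
    obtain ⟨k, rfl⟩ : ∃ j, k = j + 1 := ⟨k - 1, by omega⟩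
    obtain ⟨g1, g2, g3, g4, g5, g6, g7, g8, g9, g10⟩ := gap i k ⟨by omega, by omega, by omega, n4, n5,
      fun j a b => by simpa using n6 (j + 1) (by omega) (by omega)⟩ t h1 h2
    have kJ := (A.sb_mono n3).trans_lt hJ
    have i0 := (A.sb_mem (k := i) (by omega)).1
    have p := (A.sl kJ _ _ i0 (h1.trans h2) le_rfl).2
    have q := mul_le_mul_of_nonneg_left g1 A.c_pos.le
    have m0 : (0 : ℝ) ≤ 1 / (m + 1) := by positivity
    have e : (2 : ℝ) / (m + 1) = 1 / (m + 1) + 1 / (m + 1) := by ring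
    simp only [Nat.add_sub_cancel, xb, hb]
    exact ⟨g1, by linarith, fun s hs => (A.gd_h' i0 kJ hs).trans g3,
      (div_le_self (sub_nonneg.2 (A.cl.leg.Hm (by omega))) A.b_mem.1).trans g4, by linarith,
      by linarith, g7, g8, g9, by linarith⟩
  o1 := o1
  o2 := o2



/-- the floor alone -/
theorem h_fl (A : At S M m a T) {u i k : ℕ} (hu : S.jl ≤ u) (h1 : u ≤ i) (h2 : i ≤ k)
    (hk : k < S.J) : S.ms (M.s u) / (S.C ^ 2 * S.F) * (M.z k - M.z i) ≤ M.H k - M.H i := by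
  have C0 := A.c_pos
  have F0 : 0 < S.F := by linarith [A.cl.F1]
  have v0 := v_pos A.cl
  have := tele (f := fun j => S.ms (M.s u) / (S.C ^ 2 * S.F) * M.z j) (g := M.H) (lo := i) (hi := k)
    (fun j a b => by
      obtain ⟨p1, p2⟩ := A.cl.zs j (A.cl.i1.trans (hu.trans (h1.trans a))) (by omega)
      have m1 := A.ms_pos (s_nn A.cl u)
      have m2 := A.cl.msm (A.cl.sm (h1.trans a))
      calc _ = S.ms (M.s u) / (S.C ^ 2 * S.F) * (M.z (j + 1) - M.z j) := by ring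
        _ ≤ S.ms (M.s j) / (S.C ^ 2 * S.F) * (S.C * S.v) :=
          mul_le_mul (div_le_div_of_nonneg_right m2 (by positivity)) p2
            ((div_pos v0 C0).le.trans p1) (div_nonneg (by linarith) (by positivity))
        _ = S.ms (M.s j) * S.v / (S.C * S.F) := by field_simp
        _ ≤ _ := A.cl.flr j (hu.trans (h1.trans a)) (by have := A.cl.i3; omega)) le_rfl h2 le_rfl
  linarith

end At

end Crest.Agent.T156.Alt.Mp9

end
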