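import Crest.Agent.T156.POde_3
import Crest.Agent.T156.Mon_48
import Crest.Agent.T156.PrDef_28
import Crest.Agent.T156.PCmp_3

-- ▼ part T156/HmA_32
section

/-!
Row 156 (helper32): `H⁻¹` Lipschitz bounds of the one-site recursion in the tilts, part A
(one block, and lists on a common grid).
-/

set_option autoImplicit false

namespace Crest.Agent.T156.Hm

open MeasureTheory ProbabilityTheory Filter Topology Set
open Crest.Agent.R164.GC Crest.Agent.R339.B Crest.Agent.R339.Var Crest.Agent.T157.Pf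
open Crest.Agent.T156.Pp
open Crest.ProbabilityR.InvariantGlass (gaussOp)

noncomputable section

/-- Gronwall in the sup norm with an a-priori bound on `[0,d]` only -/
theorem gronwall' {Φ : ℝ → ℝ} (h : Prof Φ) {m : ℝ} (hm : m ≠ 0) {ι : Type}
    {F LF Fx : ι → ℝ → ℝ → ℝ} (hF : ∀ i, TB Φ m (F i) (LF i) (Fx i))
    {B c f M d : ℝ} (hc : 0 ≤ c) (hf : 0 ≤ f) (hM : 0 ≤ M) (hd : 0 ≤ d)
    (hB : ∀ i, ∀ v ∈ Icc 0 d, ∀ x, |F i v x| ≤ B)
    (hL : ∀ v ∈ Icc 0 d, ∀ N, 0 ≤ N → (∀ j y, |F j v y| ≤ N) → ∀ i x, |LF i v x| ≤ c * N + f)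
    (h0 : ∀ i x, |F i 0 x| ≤ M) (i : ι) (x : ℝ) :
    |F i d x| ≤ (M + f * d) * Real.exp (2 * c * d) := by
  set S : Set ℝ := {r | r = 0 ∨ ∃ j v y, v ∈ Icc 0 d ∧ r = Real.exp (-(2 * c * v)) * |F j v y|}
    with hS
  have hne : S.Nonempty := ⟨0, Or.inl rfl⟩
  have hB0 : 0 ≤ B := (abs_nonneg _).trans (hB i 0 ⟨le_rfl, hd⟩ 0)
  have hbd : BddAbove S := by
    refine ⟨B, ?_⟩
    rintro r (rfl | ⟨j, v, y, hv, rfl⟩)
    · exact hB0
    · have h1 : Real.exp (-(2 * c * v)) ≤ 1 := by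
        rw [Real.exp_le_one_iff]
        have := mul_nonneg hc hv.1
        linarith
      calc _ ≤ 1 * B := mul_le_mul h1 (hB j v hv y) (abs_nonneg _) zero_le_one
        _ = B := one_mul B
  set N := sSup S with hN
  have hN0 : 0 ≤ N := le_csSup hbd (Or.inl rfl)
  have hle : ∀ j v y, v ∈ Icc 0 d → |F j v y| ≤ N * Real.exp (2 * c * v) := by
    intro j v y hv
    have h1 : Real.exp (-(2 * c * v)) * |F j v y| ≤ N := le_csSup hbd (Or.inr ⟨j, v, y, hv, rfl⟩)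
    have h2 := mul_le_mul_of_nonneg_right h1 (Real.exp_pos (2 * c * v)).le
    rwa [mul_comm (Real.exp _), mul_assoc, ← Real.exp_add, neg_add_cancel, Real.exp_zero,
      mul_one] at h2
  have hstep : ∀ j v y, v ∈ Icc 0 d →
      |F j v y| ≤ M + f * v + N * (Real.exp (2 * c * v) - 1) / 2 := by
    intro j v y hv
    have hc1 := VV_cont h (hF j).ug v y (m := m)
    have hg : ∀ τ, HasDerivAt (fun τ => f * τ - N * Real.exp (2 * c * (v - τ)) / 2)
        (f + c * (N * Real.exp (2 * c * (v - τ)))) τ := by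
      intro τ
      have a1 : HasDerivAt (fun τ => 2 * c * (v - τ)) (2 * c * (-1)) τ :=
        ((hasDerivAt_id' τ).const_sub v).const_mul _
      have a2 := ((hasDerivAt_id' τ).const_mul f).fun_sub ((a1.exp.const_mul N).div_const 2)
      refine a2.congr_deriv ?_
      ring
    have hb : ∀ τ ∈ Ioo 0 v, |VV Φ m v (LF j) y τ| ≤ f + c * (N * Real.exp (2 * c * (v - τ))) := by
      intro τ hτ
      refine VV_abs_le h hm ((hF j).ugL h) hτ.1.le hτ.2.le (fun z => ?_) y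
      have hvτ : v - τ ∈ Icc 0 d := ⟨by linarith [hτ.2], by linarith [hτ.1, hv.2]⟩
      have := hL (v - τ) hvτ _ (by positivity) (fun j' y' => hle j' _ y' hvτ) j z
      linarith
    have hgc : Continuous (fun τ => f * τ - N * Real.exp (2 * c * (v - τ)) / 2) := by fun_prop
    have m1 := monotoneOn_of_block (a := 0) (b := v)
      (f := fun τ => (f * τ - N * Real.exp (2 * c * (v - τ)) / 2) + VV Φ m v (F j) y τ)
      (hgc.add hc1).continuousOn
      (fun τ hτ => (hg τ).fun_add (VV_deriv h (hF j) hτ.1 hτ.2 y))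
      (fun τ hτ => by have := (abs_le.1 (hb τ hτ)).1; linarith)
    have m2 := monotoneOn_of_block (a := 0) (b := v)
      (f := fun τ => (f * τ - N * Real.exp (2 * c * (v - τ)) / 2) - VV Φ m v (F j) y τ)
      (hgc.sub hc1).continuousOn
      (fun τ hτ => (hg τ).fun_sub (VV_deriv h (hF j) hτ.1 hτ.2 y))
      (fun τ hτ => by have := (abs_le.1 (hb τ hτ)).2; linarith)
    have i1 := m1 ⟨le_rfl, hv.1⟩ ⟨hv.1, le_rfl⟩ hv.1
    have i2 := m2 ⟨le_rfl, hv.1⟩ ⟨hv.1, le_rfl⟩ hv.1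
    simp only at i1 i2
    rw [VV_zero h hm _ hv.1] at i1 i2
    have e1 := abs_le.1 (VV_abs_le h hm (hF j).ug hv.1 le_rfl (K := M)
      (fun z => by rw [sub_self]; exact h0 j z) y)
    simp only [sub_self, mul_zero, Real.exp_zero, sub_zero] at i1 i2
    rw [abs_le]
    constructor <;> linarith [e1.1, e1.2]
  have hA : 0 ≤ M + f * d := by positivity
  have hNle : N ≤ max (M + f * d) (N / 2) := by
    refine csSup_le hne ?_
    rintro r (rfl | ⟨j, v, y, hv, rfl⟩)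
    · exact le_max_of_le_left hA
    · set E := Real.exp (-(2 * c * v)) with hE
      have hE0 : 0 < E := Real.exp_pos _
      have hE1 : E ≤ 1 := by
        rw [hE, Real.exp_le_one_iff]
        have := mul_nonneg hc hv.1
        linarith
      have hEE : E * Real.exp (2 * c * v) = 1 := by
        rw [hE, ← Real.exp_add, neg_add_cancel, Real.exp_zero]
      have h1 := mul_le_mul_of_nonneg_left (hstep j v y hv) hE0.le
      have h2 : f * v ≤ f * d := mul_le_mul_of_nonneg_left hv.2 hf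
      have h3 := le_max_left (M + f * d) (N / 2)
      have h4 := le_max_right (M + f * d) (N / 2)
      have e : E * (M + f * v + N * (Real.exp (2 * c * v) - 1) / 2) =
          E * (M + f * v) + (1 - E) * (N / 2) := by
        have : E * (N * (Real.exp (2 * c * v) - 1) / 2) =
          N * (E * Real.exp (2 * c * v)) / 2 - E * N / 2 := by ring
        rw [mul_add, this, hEE]
        ring
      rw [e] at h1
      have h5 : E * (M + f * v) ≤ E * max (M + f * d) (N / 2) :=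
        mul_le_mul_of_nonneg_left (by linarith) hE0.le
      have h6 : (1 - E) * (N / 2) ≤ (1 - E) * max (M + f * d) (N / 2) :=
        mul_le_mul_of_nonneg_left h4 (by linarith)
      nlinarith
  have hNA : N ≤ M + f * d := by
    rcases le_max_iff.1 hNle with h1 | h1
    · exact h1
    · linarith
  exact (hle i d x ⟨hd, le_rfl⟩).trans
    (mul_le_mul_of_nonneg_right hNA (Real.exp_pos _).le)

/-! ### test functions with bounds -/

theorem amul {a b A B : ℝ} (ha : |a| ≤ A) (hb : |b| ≤ B) : |a * b| ≤ A * B := by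
  rw [abs_mul]; exact mul_le_mul ha hb (abs_nonneg _) ((abs_nonneg _).trans ha)

/-- test functions with bounds on `[0,d]` -/
def Gd (Φ : ℝ → ℝ) (m d : ℝ) (F : ℝ → ℝ → ℝ) (A : ℝ) : Prop :=
  ∃ LF Fx, TB Φ m F LF Fx ∧ ∀ v ∈ Icc 0 d, ∀ x, |F v x| ≤ A ∧ |LF v x| ≤ A ∧ |Fx v x| ≤ A

section gd

variable {Φ : ℝ → ℝ} {m d A B : ℝ} {F G : ℝ → ℝ → ℝ}

theorem Gd.mono (h : Gd Φ m d F A) (hA : A ≤ B) : Gd Φ m d F B := by
  obtain ⟨LF, Fx, t, b⟩ := h
  exact ⟨LF, Fx, t, fun v hv x => ⟨(b v hv x).1.trans hA, (b v hv x).2.1.trans hA,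
    (b v hv x).2.2.trans hA⟩⟩

theorem Gd.congr (h : Gd Φ m d F A) (e : ∀ v x, G v x = F v x) : Gd Φ m d G A := by
  have : G = F := by funext v x; exact e v x
  rw [this]; exact h

theorem Gd.add (h : Gd Φ m d F A) (h' : Gd Φ m d G B) :
    Gd Φ m d (fun v x => F v x + G v x) (A + B) := by
  obtain ⟨LF, Fx, t, b⟩ := h
  obtain ⟨LG, Gx, t', b'⟩ := h'
  refine ⟨_, _, t.add t', fun v hv x => ?_⟩
  obtain ⟨a1, a2, a3⟩ := b v hv x
  obtain ⟨c1, c2, c3⟩ := b' v hv x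
  exact ⟨(abs_add_le _ _).trans (add_le_add a1 c1), (abs_add_le _ _).trans (add_le_add a2 c2),
    (abs_add_le _ _).trans (add_le_add a3 c3)⟩

theorem Gd.mul (h : Gd Φ m d F A) (h' : Gd Φ m d G B) :
    Gd Φ m d (fun v x => F v x * G v x) (3 * (A * B)) := by
  obtain ⟨LF, Fx, t, b⟩ := h
  obtain ⟨LG, Gx, t', b'⟩ := h'
  refine ⟨_, _, t.mul t', fun v hv x => ?_⟩
  obtain ⟨a1, a2, a3⟩ := b v hv x
  obtain ⟨c1, c2, c3⟩ := b' v hv x
  have p1 := amul a1 c1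
  have p2 := amul a1 c2
  have p3 := amul c1 a2
  have p4 := amul a3 c3
  have p5 := amul a3 c1
  have p6 := amul a1 c3
  have p0 : 0 ≤ A * B := (abs_nonneg _).trans p1
  refine ⟨by linarith, ?_, ?_⟩
  · refine (abs_add_three _ _ _).trans ?_
    linarith
  · refine (abs_add_le _ _).trans ?_
    linarith

theorem Gd.const_mul {c : ℝ} (hc : 0 ≤ c) (h : Gd Φ m d F A) :
    Gd Φ m d (fun v x => c * F v x) (c * A) := by
  obtain ⟨LF, Fx, t, b⟩ := h
  refine ⟨_, _, t.const_mul c, fun v hv x => ?_⟩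
  obtain ⟨a1, a2, a3⟩ := b v hv x
  have e : |c| ≤ c := (abs_of_nonneg hc).le
  exact ⟨amul e a1, amul e a2, amul e a3⟩

theorem Gd.sum {f : ℕ → ℝ → ℝ → ℝ} {a : ℕ → ℝ} : ∀ k : ℕ, (∀ i < k, Gd Φ m d (f i) (a i)) →
    Gd Φ m d (fun v x => ∑ i ∈ Finset.range k, f i v x) (∑ i ∈ Finset.range k, a i)
  | 0, _ => ⟨_, _, (TB.const 0).congr (fun _ _ => by simp) (fun _ _ => rfl) (fun _ _ => rfl),
      fun v _ x => by simp⟩
  | k + 1, h => by
    rw [Finset.sum_range_succ]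
    exact ((Gd.sum k fun i hi => h i (by omega)).add (h k (by omega))).congr
      fun v x => Finset.sum_range_succ _ _

end gd

/-- an affine function of the time as a test function -/
theorem tb_aff (Φ : ℝ → ℝ) (m D δ : ℝ) :
    TB Φ m (fun v _ => D + δ * max v 0) (fun _ _ => -δ) (fun _ _ => 0) := by
  refine ⟨fun _ _ => δ, fun _ _ => 0, fun v x hv => ?_, fun v x => hasDerivAt_const x _,
    fun v x => hasDerivAt_const x _, ⟨by fun_prop, fun d => ⟨|D| + |δ| * max d 0, 0,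
      by positivity, le_rfl, fun v x hv => ?_⟩⟩, UG.const δ, UG.const 0, UG.const 0,
    fun v x => by ring⟩
  · have h1 := ((hasDerivAt_id' v).const_mul δ).const_add D
    rw [mul_one] at h1
    refine h1.congr_of_eventuallyEq ?_
    filter_upwards [lt_mem_nhds hv] with s hs
    rw [max_eq_left hs.le]
  · rw [zero_mul, Real.exp_zero, mul_one]
    refine (abs_add_le _ _).trans (add_le_add le_rfl ?_)
    rw [abs_mul, abs_of_nonneg (le_max_right v 0)]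
    exact mul_le_mul_of_nonneg_left (max_le_max hv le_rfl) (abs_nonneg _)

theorem aff_le {D δ d v : ℝ} (hv : v ∈ Icc 0 d) : |D + δ * max v 0| ≤ |D| + |D + δ * d| := by
  rw [max_eq_left hv.1]
  have h1 := le_abs_self D
  have h2 := neg_abs_le D
  have h3 := le_abs_self (D + δ * d)
  have h4 := neg_abs_le (D + δ * d)
  have h5 := abs_nonneg D
  have h6 := abs_nonneg (D + δ * d)
  rw [abs_le]
  rcases le_total 0 δ with h | h
  · have a := mul_nonneg h hv.1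
    have b := mul_le_mul_of_nonneg_left hv.2 h
    constructor <;> linarith
  · have a := mul_nonpos_of_nonpos_of_nonneg h hv.1
    have b := mul_le_mul_of_nonpos_left hv.2 h
    constructor <;> linarith

/-! ### the corrector -/

/-- the lower order terms -/
def SS (k : ℕ) (Φ : ℝ → ℝ) (x : ℝ) : ℝ :=
  ∑ i ∈ Finset.range k, (k.choose (i + 1) : ℝ) * Dn (i + 1) Φ x * Dn (k - i) Φ x

/-- `∂_x^{k+1} (Φ_x² / 2)` -/
def WW (k : ℕ) (Φ : ℝ → ℝ) (x : ℝ) : ℝ := Dn 0 Φ x * Dn (k + 1) Φ x + SS k Φ x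

theorem ch_le {k K : ℕ} (hk : k ≤ K) :
    ∑ i ∈ Finset.range k, (k.choose (i + 1) : ℝ) ≤ 2 ^ K := by
  have h1 : ∑ i ∈ Finset.range (k + 1), (k.choose i : ℝ) = 2 ^ k := by
    exact_mod_cast Nat.sum_range_choose k
  rw [Finset.sum_range_succ'] at h1
  have h2 : (2 : ℝ) ^ k ≤ 2 ^ K := pow_le_pow_right₀ one_le_two hk
  have h3 : (0 : ℝ) ≤ (k.choose 0 : ℝ) := Nat.cast_nonneg _
  linarith

theorem sum_ch_le {k K : ℕ} (hk : k ≤ K) {f : ℕ → ℝ} {B : ℝ} (hB : 0 ≤ B)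
    (hf : ∀ i < k, |f i| ≤ B) : |∑ i ∈ Finset.range k, (k.choose (i + 1) : ℝ) * f i| ≤ 2 ^ K * B := by
  refine (Finset.abs_sum_le_sum_abs _ _).trans ?_
  refine le_trans ?_ (mul_le_mul_of_nonneg_right (ch_le hk) hB)
  rw [Finset.sum_mul]
  refine Finset.sum_le_sum fun i hi => ?_
  rw [abs_mul, Nat.abs_cast]
  exact mul_le_mul_of_nonneg_left (hf i (Finset.mem_range.1 hi)) (Nat.cast_nonneg _)

theorem SS_le {k K : ℕ} (hk : k ≤ K) {Φ : ℝ → ℝ} {C x : ℝ} (hC : 0 ≤ C)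
    (hb : ∀ j ≤ k, |Dn j Φ x| ≤ C) : |SS k Φ x| ≤ 2 ^ K * (C * C) := by
  unfold SS
  simp_rw [mul_assoc]
  exact sum_ch_le hk (by positivity) fun i hi => amul (hb _ (by omega)) (hb _ (by omega))

theorem SS_sub_le {k K : ℕ} (hk : k ≤ K) {Φ Φ' : ℝ → ℝ} {C E x : ℝ} (hC : 0 ≤ C) (hE : 0 ≤ E)
    (hb : ∀ j ≤ k, |Dn j Φ x| ≤ C) (hb' : ∀ j ≤ k, |Dn j Φ' x| ≤ C)
    (he : ∀ j ≤ k, |Dn j Φ' x - Dn j Φ x| ≤ E) : |SS k Φ' x - SS k Φ x| ≤ 2 ^ K * (2 * C * E) := by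
  unfold SS
  rw [← Finset.sum_sub_distrib]
  simp_rw [mul_assoc, ← mul_sub]
  refine sum_ch_le hk (by positivity) fun i hi => ?_
  have a1 := amul (he (i + 1) (by omega)) (hb' (k - i) (by omega))
  have a2 := amul (hb (i + 1) (by omega)) (he (k - i) (by omega))
  have e : Dn (i + 1) Φ' x * Dn (k - i) Φ' x - Dn (i + 1) Φ x * Dn (k - i) Φ x =
      (Dn (i + 1) Φ' x - Dn (i + 1) Φ x) * Dn (k - i) Φ' x +
        Dn (i + 1) Φ x * (Dn (k - i) Φ' x - Dn (k - i) Φ x) := by ring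
  rw [e]
  refine (abs_add_le _ _).trans ?_
  linarith

theorem Dk1_eq {Φ : ℝ → ℝ} (h : Prof Φ) (m v x : ℝ) :
    Dk Φ m 1 v x = m * Dn 0 (gaussOp m v Φ) x := by
  rw [D1_eq h, Lip62.At_deriv h, Dn_zero]

theorem D0_le {Φ : ℝ → ℝ} (h : Prof Φ) (x : ℝ) : |Dn 0 Φ x| ≤ 1 := by
  rw [Dn_zero]; exact h.b1 x

/-- the derivatives of the second profile in the block of the first -/
theorem tb_Dn' {Φ Φ' : ℝ → ℝ} (h : Prof Φ) (h' : Prof Φ') (m m' : ℝ) (k : ℕ) :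
    TB Φ m (fun v => Dn k (gaussOp m' v Φ'))
      (fun v x => -m' * SS k (gaussOp m' v Φ') x + (m * Dn 0 (gaussOp m v Φ) x -
        m' * Dn 0 (gaussOp m' v Φ') x) * Dn (k + 1) (gaussOp m' v Φ') x)
      (fun v => Dn (k + 1) (gaussOp m' v Φ')) :=
  (Lip62.TB_change (tb_Dn h' m' k)).congr (fun _ _ => rfl)
    (fun v x => by rw [Dk1_eq h, Dk1_eq h']; rfl) (fun _ _ => rfl)

theorem drift2 {Φ Φ' : ℝ → ℝ} (h : Prof Φ) (h' : Prof Φ') {m m' : ℝ} (hm : 0 < m) (hm1 : m ≤ 1)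
    (hm' : 0 < m') (hm1' : m' ≤ 1) (x : ℝ) : |m * Dn 0 Φ x - m' * Dn 0 Φ' x| ≤ 2 := by
  have a := amul ((abs_of_pos hm).le.trans hm1) (D0_le h x)
  have b := amul ((abs_of_pos hm').le.trans hm1') (D0_le h' x)
  refine (abs_sub _ _).trans ?_
  linarith

/-- constants -/
def c0 (K : ℕ) (C : ℝ) : ℝ := (2 ^ (K + 1) + 2) * (C * C)
def cA (K : ℕ) (C : ℝ) : ℝ := (2 ^ K + 1) * (3 * (c0 K C * c0 K C))
def c1 (K : ℕ) (C : ℝ) : ℝ := 2 ^ K * (2 * C) + C
def c2 (K : ℕ) (C : ℝ) : ℝ := (c1 K C + 1) * cA K C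

theorem c0_nn (K : ℕ) (C : ℝ) : 0 ≤ c0 K C := by
  unfold c0; have := mul_self_nonneg C; positivity
theorem cA_nn (K : ℕ) (C : ℝ) : 0 ≤ cA K C := by
  unfold cA; have := c0_nn K C; positivity
theorem c1_nn (K : ℕ) {C : ℝ} (hC : 1 ≤ C) : 0 ≤ c1 K C := by
  unfold c1; have : 0 ≤ C := by linarith
  positivity
theorem c2_nn (K : ℕ) {C : ℝ} (hC : 1 ≤ C) : 0 ≤ c2 K C := by
  unfold c2; have := c1_nn K hC; have := cA_nn K C; positivity

section block

variable {Φ Φ' : ℝ → ℝ} (h : Prof Φ) (h' : Prof Φ') {m m' d C : ℝ} {K : ℕ} (hm : 0 < m)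
  (hm1 : m ≤ 1) (hm' : 0 < m') (hm1' : m' ≤ 1) (hC : 1 ≤ C)
  (hb' : ∀ v ∈ Icc 0 d, ∀ j ≤ K + 2, ∀ x, |Dn j (gaussOp m' v Φ') x| ≤ C)
include h h' hm hm1 hm' hm1' hC hb'

theorem gd_Dn {j : ℕ} (hj : j ≤ K + 1) :
    Gd Φ m d (fun v => Dn j (gaussOp m' v Φ')) (c0 K C) := by
  refine ⟨_, _, tb_Dn' h h' m m' j, fun v hv x => ?_⟩
  have hC0 : 0 ≤ C := by linarith
  have hCC : C ≤ C * C := le_mul_of_one_le_left hC0 hC
  have h2 : (0 : ℝ) ≤ 2 ^ (K + 1) * (C * C) := by positivity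
  have e : c0 K C = 2 ^ (K + 1) * (C * C) + 2 * (C * C) := by unfold c0; ring
  rw [e]
  refine ⟨(hb' v hv j (by omega) x).trans (by linarith), ?_,
    (hb' v hv (j + 1) (by omega) x).trans (by linarith)⟩
  have a1 := amul (show |-m'| ≤ 1 by rw [abs_neg, abs_of_pos hm']; exact hm1')
    (SS_le hj hC0 (fun i hi => hb' v hv i (by omega) x))
  have a2 := amul (drift2 (h.step m v) (h'.step m' v) hm hm1 hm' hm1' x)
    (hb' v hv (j + 1) (by omega) x)
  refine (abs_add_le _ _).trans ?_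
  linarith

theorem gd_W {k : ℕ} (hk : k ≤ K) : Gd Φ m d (fun v => WW k (gaussOp m' v Φ')) (cA K C) := by
  have g := fun j hj => gd_Dn h h' hm hm1 hm' hm1' hC hb' (j := j) hj
  have g1 := (g 0 (by omega)).mul (g (k + 1) (by omega))
  have g2 := Gd.sum (Φ := Φ) (m := m) (d := d) k (f := fun i v x => (k.choose (i + 1) : ℝ) *
    (Dn (i + 1) (gaussOp m' v Φ') x * Dn (k - i) (gaussOp m' v Φ') x))
    (a := fun i => (k.choose (i + 1) : ℝ) * (3 * (c0 K C * c0 K C)))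
    (fun i hi => ((g (i + 1) (by omega)).mul (g (k - i) (by omega))).const_mul (Nat.cast_nonneg _))
  refine ((g1.add g2).congr fun v x => ?_).mono ?_
  · unfold WW SS
    simp_rw [mul_assoc]
  · rw [← Finset.sum_mul]
    have := mul_le_mul_of_nonneg_right (ch_le hk)
      (show 0 ≤ 3 * (c0 K C * c0 K C) by have := c0_nn K C; positivity)
    unfold cA
    linarith

/-- **one block** -/
theorem block (hd : 0 ≤ d) (hb : ∀ v ∈ Icc 0 d, ∀ j ≤ K + 2, ∀ x, |Dn j (gaussOp m v Φ) x| ≤ C)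
    {D M : ℝ} (h0 : ∀ k ≤ K, ∀ x, |Dn k Φ' x - Dn k Φ x - D * WW k Φ' x| ≤ M) {k : ℕ} (hk : k ≤ K)
    (x : ℝ) : |Dn k (gaussOp m' d Φ') x - Dn k (gaussOp m d Φ) x -
      (D + (m' - m) * d) * WW k (gaussOp m' d Φ') x| ≤
      (M + c2 K C * (|D| + |D + (m' - m) * d|) * d) * Real.exp (2 * c1 K C * d) := by
  have hC0 : 0 ≤ C := by linarith
  have hA := cA_nn K C
  choose LW Wx tW bW using fun i : {k : ℕ // k ≤ K} => gd_W h h' hm hm1 hm' hm1' hC hb' i.2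
  set Jm := |D| + |D + (m' - m) * d| with hJm
  have hJ0 : 0 ≤ Jm := by positivity
  have g := gronwall' h hm.ne' (ι := {k : ℕ // k ≤ K})
    (F := fun i v x => Dn i (gaussOp m' v Φ') x - Dn i (gaussOp m v Φ) x -
      (D + (m' - m) * max v 0) * WW i (gaussOp m' v Φ') x)
    (fun i => ((tb_Dn' h h' m m' i).sub (tb_Dn h m i)).sub ((tb_aff Φ m D (m' - m)).mul (tW i)))
    (B := C + C + Jm * cA K C) (c := c1 K C) (f := c2 K C * Jm) (M := M) (c1_nn K hC)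
    (mul_nonneg (c2_nn K hC) hJ0) ((abs_nonneg _).trans (h0 0 (Nat.zero_le _) 0)) hd
    (fun i v hv y => ?_) (fun v hv N hN hF i y => ?_) (fun i y => ?_) ⟨k, hk⟩ x
  · rw [max_eq_left hd] at g
    exact g
  · have a1 := hb' v hv i (by have := i.2; omega) y
    have a2 := hb v hv i (by have := i.2; omega) y
    have a3 := amul (aff_le (D := D) (δ := m' - m) hv) (bW i v hv y).1
    exact (abs_sub _ _).trans (add_le_add ((abs_sub _ _).trans (add_le_add a1 a2)) a3)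
  · have hJ := aff_le (D := D) (δ := m' - m) hv
    rw [← hJm] at hJ
    set J := D + (m' - m) * max v 0
    have he : ∀ j ≤ K, |Dn j (gaussOp m' v Φ') y - Dn j (gaussOp m v Φ) y| ≤ N + Jm * cA K C := by
      intro j hj
      have a1 := hF ⟨j, hj⟩ y
      have a2 := amul hJ (bW ⟨j, hj⟩ v hv y).1
      have e : Dn j (gaussOp m' v Φ') y - Dn j (gaussOp m v Φ) y =
          (Dn j (gaussOp m' v Φ') y - Dn j (gaussOp m v Φ) y - J * WW j (gaussOp m' v Φ') y) +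
            J * WW j (gaussOp m' v Φ') y := by ring
      rw [e]
      exact (abs_add_le _ _).trans (add_le_add a1 a2)
    have hi := i.2
    have b1 := amul (show |-m| ≤ 1 by rw [abs_neg, abs_of_pos hm]; exact hm1)
      (SS_sub_le hi hC0 (by positivity) (fun j hj => hb v hv j (by omega) y)
        (fun j hj => hb' v hv j (by omega) y) (fun j hj => he j (by omega)))
    have b2 := amul (amul (show |-m| ≤ 1 by rw [abs_neg, abs_of_pos hm]; exact hm1)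
      (he 0 (Nat.zero_le _))) (hb' v hv (i + 1) (by omega) y)
    have b3 := amul hJ (bW i v hv y).2.1
    have e : -m' * SS i (gaussOp m' v Φ') y + (m * Dn 0 (gaussOp m v Φ) y -
        m' * Dn 0 (gaussOp m' v Φ') y) * Dn (i + 1) (gaussOp m' v Φ') y -
        -m * ∑ j ∈ Finset.range i, ((i : ℕ).choose (j + 1) : ℝ) *
          Dn (j + 1) (gaussOp m v Φ) y * Dn (i - j) (gaussOp m v Φ) y -
        (J * LW i v y + WW i (gaussOp m' v Φ') y * -(m' - m) + 0 * Wx i v y) =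
        -m * (SS i (gaussOp m' v Φ') y - SS i (gaussOp m v Φ) y) +
          -m * (Dn 0 (gaussOp m' v Φ') y - Dn 0 (gaussOp m v Φ) y) *
            Dn (i + 1) (gaussOp m' v Φ') y - J * LW i v y := by
      show _ - -m * SS i (gaussOp m v Φ) y - _ = _
      unfold WW
      ring
    rw [e]
    refine (abs_sub _ _).trans ((add_le_add (abs_add_le _ _) le_rfl).trans ?_)
    have e2 : c1 K C * N + c2 K C * Jm = 1 * (2 ^ K * (2 * C * (N + Jm * cA K C))) +
        1 * (N + Jm * cA K C) * C + Jm * cA K C := by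
      unfold c2 c1; ring
    rw [e2]
    linarith
  · simp only [gaussOp_v0 hm.ne', gaussOp_v0 hm'.ne', max_self, mul_zero, add_zero]
    exact h0 i i.2 y

end block

end

end Crest.Agent.T156.Hm
end

-- ▼ part T156/HmB_32
section

/-!
Row 156 (helper32): `H⁻¹` Lipschitz bounds, part B (backward functions; lists on a common grid).
-/

set_option autoImplicit false

namespace Crest.Agent.T156.Hm

open MeasureTheory ProbabilityTheory Filter Topology Set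
open Crest.Agent.R164.GC Crest.Agent.R339.B Crest.Agent.R339.Var Crest.Agent.T157.Pf
open Crest.Agent.T156.Pp Crest.Agent.T156.Sc48
open Crest.ProbabilityR.InvariantGlass (gaussOp)

noncomputable section

/-! ### more block lemmas -/

theorem bd_ug {F : ℝ → ℝ} (hF : BD F) : UG (fun _ x => F x) := by
  obtain ⟨C, hC⟩ := hF.bdd
  exact ⟨hF.cont.comp continuous_snd, fun _ => ⟨C, 0, (abs_nonneg _).trans (hC 0), le_rfl,
    fun _ x _ => by simpa using hC x⟩⟩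

theorem tb_fun (Φ : ℝ → ℝ) (m : ℝ) {F : ℝ → ℝ} (hF : BD F) : TB Φ m (fun _ x => F x)
    (fun v x => 1 / 2 * deriv (deriv F) x + Dk Φ m 1 v x * deriv F x) (fun _ x => deriv F x) :=
  ⟨fun _ _ => 0, fun _ x => deriv (deriv F) x, fun v x _ => hasDerivAt_const v _,
    fun _ x => hF.hasDerivAt x, fun _ x => hF.deriv.hasDerivAt x, bd_ug hF, UG.const 0,
    bd_ug hF.deriv, bd_ug hF.deriv.deriv, fun v x => by ring⟩

theorem At_zero (Φ : ℝ → ℝ) (m : ℝ) (P : ℝ → ℝ) : At Φ m P 0 = P := tE_v0 m Φ P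

theorem block_self {Φ : ℝ → ℝ} (h : Prof Φ) {m d M La : ℝ} (hm : 0 < m) (hm1 : m ≤ 1) (hd : 0 ≤ d)
    {P F : ℝ → ℝ} (hP : BD P) (hF : BD F) (h1 : ∀ x, |deriv F x| ≤ La)
    (h2 : ∀ x, |deriv (deriv F) x| ≤ La) (hM : ∀ x, |P x - F x| ≤ M) (x : ℝ) :
    |tE m d Φ P x - F x| ≤ M + 2 * La * d := by
  obtain ⟨B, hB⟩ := At_bdd h m hP
  obtain ⟨B', hB'⟩ := hF.bdd
  have hL : 0 ≤ La := (abs_nonneg _).trans (h1 0)
  have g := gronwall h hm.ne' (ι := Unit) (F := fun _ v x => At Φ m P v x - F x)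
    (fun _ => (Lip62.tb_At' h m hP).sub (tb_fun Φ m hF)) (B := B + B') (c := 0) (f := 2 * La)
    (M := M) le_rfl (by positivity) ((abs_nonneg _).trans (hM 0)) hd
    (fun _ v y => (abs_sub _ _).trans (add_le_add (hB v y) (hB' y)))
    (fun v _ N _ _ _ y => ?_) (fun _ y => by rw [At_zero]; exact hM y) () x
  · simpa [At] using g
  · rw [zero_sub, abs_neg, Dk1_eq h]
    have a1 := amul (show |(1 / 2 : ℝ)| ≤ 1 by norm_num [abs_of_pos]) (h2 y)
    have a2 := amul (amul ((abs_of_pos hm).le.trans hm1) (D0_le (h.step m v) y)) (h1 y)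
    refine (abs_add_le _ _).trans ?_
    linarith

/-- `|E F(X_t) - F(x)| ≤ 2 L t` -/
theorem EX_self {F : ℝ → ℝ} (hF : BD F) {La : ℝ} (h1 : ∀ x, |deriv F x| ≤ La)
    (h2 : ∀ x, |deriv (deriv F) x| ≤ La) : ∀ {l : List (ℝ × ℝ)}, Adm 1 l → ∀ t, 0 ≤ t → ∀ x,
    |EX 1 l t F x - F x| ≤ 2 * La * t
  | [], _, t, ht, x => by
    have hL : 0 ≤ La := (abs_nonneg _).trans (h1 0)
    simp only [EX, sub_self, abs_zero]; positivity
  | p :: l, h, t, ht, x => by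
    have hP := PhiL_prof one_pos l
    unfold EX
    split_ifs with h3
    · have := block_self (hP.step p.1 (p.2 - t)) h.1 (Lip62.head_le_one h) ht hF hF h1 h2 (M := 0)
        (fun y => by simp) x
      linarith
    · have := block_self hP h.1 (Lip62.head_le_one h) h.2.2.1 (Lip62.EX_bd one_pos l (t - p.2) hF)
        hF h1 h2 (EX_self hF h1 h2 h.2.2.2 (t - p.2) (by linarith)) x
      linarith

theorem block_der {Φ : ℝ → ℝ} (h : Prof Φ) {m d C La : ℝ} {K : ℕ} (hm : 0 < m) (hm1 : m ≤ 1)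
    (hd : 0 ≤ d) (hC : 0 ≤ C) (hLa : 0 ≤ La)
    (hb : ∀ v ∈ Icc 0 d, ∀ j ≤ K, ∀ x, |Dn j (gaussOp m v Φ) x| ≤ C) {P : ℝ → ℝ} (hP : BD P)
    (hL : ∀ j, 1 ≤ j → j ≤ K → ∀ x, |iteratedDeriv j P x| ≤ La) {j : ℕ} (hj : 1 ≤ j) (hjK : j ≤ K)
    (x : ℝ) : |Ak Φ m P j d x| ≤ La * Real.exp (2 * (2 ^ K * C) * d) := by
  choose B hB using fun j => Ak_bdd h m hP j
  have g := gronwall h hm.ne' (ι := {j : ℕ // 1 ≤ j ∧ j ≤ K}) (F := fun i => Ak Φ m P i)
    (fun i => tb_Ak h m hP i) (B := ∑ j ∈ Finset.range (K + 1), |B j|) (c := 2 ^ K * C) (f := 0)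
    (M := La) (by positivity) le_rfl hLa hd
    (fun i v y => (hB i v y).trans ((le_abs_self _).trans (Finset.single_le_sum
      (f := fun j => |B j|) (fun _ _ => abs_nonneg _)
      (Finset.mem_range.2 (Nat.lt_succ_of_le i.2.2)))))
    (fun v hv N hN hF i y => ?_) (fun i y => ?_) ⟨j, hj, hjK⟩ x
  · simpa using g
  · unfold LA
    simp only [Ak_eq h, mul_assoc]
    have := amul (show |-m| ≤ 1 by rw [abs_neg, abs_of_pos hm]; exact hm1)
      (sum_ch_le i.2.2 (B := C * N) (by positivity)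
        (f := fun k => Dn (k + 1) (gaussOp m v Φ) y * Ak Φ m P (i - k) v y) fun k hk =>
        amul (hb v hv (k + 1) (by have := i.2.2; omega) y)
          (hF ⟨i - k, by omega, by have := i.2.2; omega⟩ y))
    linarith
  · unfold Ak
    rw [At_zero]
    exact hL i i.2.1 i.2.2 y

theorem adm_hd {p : ℝ × ℝ} {l : List (ℝ × ℝ)} (h : Adm 1 (p :: l)) {v : ℝ} (hv : 0 ≤ v) :
    Adm 1 ((p.1, v) :: l) := ⟨h.1, h.2.1, hv, h.2.2.2⟩

/-- the bounds used everywhere -/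
def Bd (T : ℝ) (K : ℕ) (C : ℝ) : Prop :=
  ∀ l : List (ℝ × ℝ), Adm 1 l → TT l ≤ T → ∀ j ≤ K, ∀ x, |Dn j (PhiL 1 l) x| ≤ C

theorem exists_Bd (T : ℝ) (K : ℕ) : ∃ C, 1 ≤ C ∧ Bd T K C := by
  obtain ⟨C, h1, hC⟩ := Dn_bound T (K + 1)
  exact ⟨C, h1, fun l hl hT j hj x => hC j (Nat.lt_succ_of_le hj) l hl hT x⟩

theorem Bd.blk {T C : ℝ} {K : ℕ} (hB : Bd T K C) {p : ℝ × ℝ} {l : List (ℝ × ℝ)}
    (h : Adm 1 (p :: l)) (hT : TT (p :: l) ≤ T) {d : ℝ} (hd : d ≤ p.2) :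
    ∀ v ∈ Icc 0 d, ∀ j ≤ K, ∀ x, |Dn j (gaussOp p.1 v (PhiL 1 l)) x| ≤ C := fun v hv j hj x =>
  hB ((p.1, v) :: l) (adm_hd h hv.1) (by rw [TT_cons] at hT ⊢; linarith [hv.2]) j hj x

theorem Bd.blk2 {T C : ℝ} {K : ℕ} (hB : Bd T K C) {p : ℝ × ℝ} {l : List (ℝ × ℝ)}
    (h : Adm 1 (p :: l)) (hT : TT (p :: l) ≤ T) {t : ℝ} (ht : t ≤ p.2) :
    ∀ v ∈ Icc 0 t, ∀ j ≤ K, ∀ x,
      |Dn j (gaussOp p.1 v (gaussOp p.1 (p.2 - t) (PhiL 1 l))) x| ≤ C := fun v hv j hj x =>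
  hB ((p.1, v) :: (p.1, p.2 - t) :: l) (Lip62.adm_split h ht hv.1)
    (by simp only [TT_cons] at hT ⊢; linarith [hv.2]) j hj x

/-- derivative bounds of the backward test functions -/
theorem EX_der {T C La : ℝ} {K : ℕ} (hC : 0 ≤ C) (hB : Bd T K C) {F : ℝ → ℝ} (hF : BD F)
    (hLa : 0 ≤ La) (hL : ∀ j, 1 ≤ j → j ≤ K → ∀ x, |iteratedDeriv j F x| ≤ La) :
    ∀ {l : List (ℝ × ℝ)}, Adm 1 l → TT l ≤ T → ∀ t, 0 ≤ t → ∀ j, 1 ≤ j → j ≤ K → ∀ x,
      |iteratedDeriv j (EX 1 l t F) x| ≤ La * Real.exp (2 * (2 ^ K * C) * t)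
  | [], _, _, t, ht, j, hj, hjK, x => (hL j hj hjK x).trans
      (le_mul_of_one_le_right hLa (Real.one_le_exp (by positivity)))
  | p :: l, h, hT, t, ht, j, hj, hjK, x => by
    have hP := PhiL_prof one_pos l
    unfold EX
    split_ifs with h1
    · exact block_der (hP.step _ _) h.1 (Lip62.head_le_one h) ht hC hLa (hB.blk2 h hT h1) hF hL
        hj hjK x
    · have := block_der hP h.1 (Lip62.head_le_one h) h.2.2.1 hC (by positivity)
        (hB.blk h hT le_rfl) (Lip62.EX_bd one_pos l (t - p.2) hF)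
        (EX_der hC hB hF hLa hL h.2.2.2 (by rw [TT_cons] at hT; linarith [h.2.2.1]) (t - p.2)
          (by linarith)) hj hjK x
      rwa [mul_assoc, ← Real.exp_add, show 2 * (2 ^ K * C) * (t - p.2) + 2 * (2 ^ K * C) * p.2 =
        2 * (2 ^ K * C) * t by ring] at this

/-- constant of the law comparison -/
def c3 (C : ℝ) : ℝ := 3 * (c0 0 C * (C + 2))

theorem c3_nn {C : ℝ} (hC : 1 ≤ C) : 0 ≤ c3 C := by
  unfold c3; have := c0_nn 0 C; have : 0 ≤ C := by linarith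
  positivity

/-- **one block, law** -/
theorem block_law {Φ Φ' : ℝ → ℝ} (h : Prof Φ) (h' : Prof Φ') {m m' d C : ℝ} (hm : 0 < m)
    (hm1 : m ≤ 1) (hm' : 0 < m') (hm1' : m' ≤ 1) (hC : 1 ≤ C) (hd : 0 ≤ d)
    (hb' : ∀ v ∈ Icc 0 d, ∀ j ≤ 2, ∀ x, |Dn j (gaussOp m' v Φ') x| ≤ C)
    {P P' : ℝ → ℝ} (hP : BD P) (hP' : BD P') {La E D M : ℝ}
    (hL : ∀ v ∈ Icc 0 d, ∀ j, 1 ≤ j → j ≤ 2 → ∀ x, |Ak Φ' m' P' j v x| ≤ La)
    (hE : ∀ v ∈ Icc 0 d, ∀ x, |Dn 0 (gaussOp m' v Φ') x - Dn 0 (gaussOp m v Φ) x| ≤ E)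
    (h0 : ∀ x, |P' x - P x - D * (Dn 0 Φ' x * deriv P' x)| ≤ M) (x : ℝ) :
    |tE m' d Φ' P' x - tE m d Φ P x - (D + (m' - m) * d) *
      (Dn 0 (gaussOp m' d Φ') x * deriv (tE m' d Φ' P') x)| ≤
      M + (E + c3 C * (|D| + |D + (m' - m) * d|)) * La * d := by
  have hC0 : 0 ≤ C := by linarith
  have hLa : 0 ≤ La := (abs_nonneg _).trans (hL 0 ⟨le_rfl, hd⟩ 1 le_rfl one_le_two 0)
  have hE0 : 0 ≤ E := (abs_nonneg _).trans (hE 0 ⟨le_rfl, hd⟩ 0)
  have g0 := gd_Dn (K := 0) h h' hm hm1 hm' hm1' hC hb' (j := 0) (Nat.zero_le _)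
  have g1 : Gd Φ m d (Ak Φ' m' P' 1) ((C + 2) * La) := by
    refine ⟨_, _, Lip62.TB_change (tb_Ak h' m' hP' 1), fun v hv y => ?_⟩
    have a1 := hL v hv 1 le_rfl one_le_two y
    have a2 := hL v hv 2 one_le_two le_rfl y
    have a0 : 0 ≤ C * La := by positivity
    refine ⟨by nlinarith, ?_, by show |Ak Φ' m' P' 2 v y| ≤ _; nlinarith⟩
    have b1 := amul (show |-m'| ≤ 1 by rw [abs_neg, abs_of_pos hm']; exact hm1')
      (amul (hb' v hv 1 one_le_two y) a1)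
    have b2 := amul (drift2 (h.step m v) (h'.step m' v) hm hm1 hm' hm1' y) a2
    rw [Dk1_eq h, Dk1_eq h']
    simp only [LA, Finset.range_one, Finset.sum_singleton, zero_add, Nat.choose_self, Nat.cast_one,
      one_mul, Nat.sub_zero, Ak_eq h'] at b1 ⊢
    refine (abs_add_le _ _).trans ?_
    show _ + |_ * Ak Φ' m' P' 2 v y| ≤ _
    linarith
  obtain ⟨LW, Wx, tW, bW⟩ := g0.mul g1
  obtain ⟨B, hB⟩ := At_bdd h m hP
  obtain ⟨B', hB'⟩ := At_bdd h' m' hP'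
  set Jm := |D| + |D + (m' - m) * d| with hJm
  have hJ0 : 0 ≤ Jm := by positivity
  have e3 : 3 * (c0 0 C * ((C + 2) * La)) = c3 C * La := by unfold c3; ring
  rw [e3] at bW
  have g := gronwall' h hm.ne' (ι := Unit)
    (F := fun _ v x => At Φ' m' P' v x - At Φ m P v x -
      (D + (m' - m) * max v 0) * (Dn 0 (gaussOp m' v Φ') x * Ak Φ' m' P' 1 v x))
    (fun _ => ((Lip62.TB_change (Lip62.tb_At' h' m' hP')).sub (Lip62.tb_At' h m hP)).sub
      ((tb_aff Φ m D (m' - m)).mul tW))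
    (B := B' + B + Jm * (c3 C * La)) (c := 0) (f := (E + c3 C * Jm) * La) (M := M) le_rfl
    (by have := c3_nn hC; positivity) ((abs_nonneg _).trans (h0 0)) hd
    (fun _ v hv y => ?_) (fun v hv N _ _ _ y => ?_) (fun _ y => ?_) () x
  · rw [max_eq_left hd, Lip62.Ak_one, mul_zero, zero_mul, Real.exp_zero, mul_one] at g
    exact g
  · have a3 := amul (aff_le (D := D) (δ := m' - m) hv) (bW v hv y).1
    exact (abs_sub _ _).trans (add_le_add ((abs_sub _ _).trans (add_le_add (hB' v y) (hB v y))) a3)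
  · have hJ := aff_le (D := D) (δ := m' - m) hv
    rw [← hJm] at hJ
    set J := D + (m' - m) * max v 0
    have b2 := amul (amul (show |-m| ≤ 1 by rw [abs_neg, abs_of_pos hm]; exact hm1)
      (hE v hv y)) (hL v hv 1 le_rfl one_le_two y)
    have b3 := amul hJ (bW v hv y).2.1
    rw [Dk1_eq h, Dk1_eq h', ← Lip62.Ak_one]
    have e : 0 + (m * Dn 0 (gaussOp m v Φ) y - m' * Dn 0 (gaussOp m' v Φ') y) * Ak Φ' m' P' 1 v y -
        0 - (J * LW v y + Dn 0 (gaussOp m' v Φ') y * Ak Φ' m' P' 1 v y * -(m' - m) + 0 * Wx v y) =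
        -m * (Dn 0 (gaussOp m' v Φ') y - Dn 0 (gaussOp m v Φ) y) * Ak Φ' m' P' 1 v y -
          J * LW v y := by ring
    rw [e]
    refine (abs_sub _ _).trans ?_
    linarith
  · simp only [gaussOp_v0 hm'.ne', max_self, mul_zero, add_zero, Lip62.Ak_one, At_zero]
    exact h0 y

/-! ### the primitive along a refined list -/

/-- `J(s)` -/
def JL (L : List (ℝ × ℝ × ℝ)) (s : ℝ) : ℝ := ∫ r in s..TT (lev 0 L), st L r
/-- `∫ |J|` -/
def IL (L : List (ℝ × ℝ × ℝ)) (a b : ℝ) : ℝ := ∫ s in a..b, |JL L s|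

theorem JL_cont (L : List (ℝ × ℝ × ℝ)) : Continuous (JL L) := tail_cont L _

theorem IL_add (L : List (ℝ × ℝ × ℝ)) (a b c : ℝ) : IL L a b + IL L b c = IL L a c :=
  intervalIntegral.integral_add_adjacent_intervals ((JL_cont L).abs.intervalIntegrable _ _)
    ((JL_cont L).abs.intervalIntegrable _ _)

theorem IL_nn (L : List (ℝ × ℝ × ℝ)) {a b : ℝ} (h : a ≤ b) : 0 ≤ IL L a b :=
  intervalIntegral.integral_nonneg h fun _ _ => abs_nonneg _

theorem TT_lc (p : ℝ × ℝ × ℝ) (L : List (ℝ × ℝ × ℝ)) :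
    TT (lev 0 (p :: L)) = p.2.2 + TT (lev 0 L) := by rw [lev_cons, TT_cons]

theorem JL_first (p : ℝ × ℝ × ℝ) {L : List (ℝ × ℝ × ℝ)} (hL : ∀ r ∈ L, 0 ≤ r.2.2) {s : ℝ}
    (hs : s ≤ p.2.2) : JL (p :: L) s = JL L 0 + p.2.1 * (p.2.2 - s) := by
  unfold JL
  rw [TT_lc, tail_first p hL hs, add_comm]

theorem JL_next (p : ℝ × ℝ × ℝ) {L : List (ℝ × ℝ × ℝ)} (hL : ∀ r ∈ L, 0 ≤ r.2.2) {s : ℝ}
    (hs : p.2.2 ≤ s) : JL (p :: L) s = JL L (s - p.2.2) := by
  unfold JL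
  have hT := TT_lev_nonneg hL
  have e := intervalIntegral.integral_comp_add_right (a := s - p.2.2) (b := TT (lev 0 L))
    (st (p :: L)) p.2.2
  rw [sub_add_cancel, add_comm (TT (lev 0 L))] at e
  rw [TT_lc, ← e]
  refine intervalIntegral.integral_congr fun r hr => st_shift p L ?_
  rcases mem_uIcc.1 hr with h | h <;> linarith [h.1]

theorem IL_next (p : ℝ × ℝ × ℝ) {L : List (ℝ × ℝ × ℝ)} (hL : ∀ r ∈ L, 0 ≤ r.2.2) {a b : ℝ}
    (ha : p.2.2 ≤ a) (hb : p.2.2 ≤ b) : IL (p :: L) a b = IL L (a - p.2.2) (b - p.2.2) := by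
  unfold IL
  rw [← intervalIntegral.integral_comp_sub_right (fun s => |JL L s|)]
  refine intervalIntegral.integral_congr fun r hr => ?_
  show |JL (p :: L) r| = |JL L (r - p.2.2)|
  rw [JL_next p hL]
  rcases mem_uIcc.1 hr with h | h <;> linarith [h.1]

theorem aff_int (D δ d u w : ℝ) :
    ∫ s in u..w, (D + δ * (d - s)) = (w - u) * (D + δ * (d - (u + w) / 2)) := by
  rw [intervalIntegral.integral_eq_sub_of_hasDerivAt (f := fun s => D * s + δ * (d * s - s ^ 2 / 2))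
    (fun s _ => ?_) (Continuous.intervalIntegrable (by fun_prop) _ _)]
  · ring
  · have a := hasDerivAt_id' s
    refine ((a.const_mul D).fun_add (((a.const_mul d).fun_sub
      ((a.fun_pow 2).div_const 2)).const_mul δ)).congr_deriv ?_
    simp only [Nat.cast_ofNat, Nat.reduceSub, pow_one]
    ring

theorem IL_blk (p : ℝ × ℝ × ℝ) {L : List (ℝ × ℝ × ℝ)} (hL : ∀ r ∈ L, 0 ≤ r.2.2) {a b : ℝ}
    (hab : a ≤ b) (hb : b ≤ p.2.2) :
    (|JL (p :: L) a| + |JL (p :: L) b|) * (b - a) ≤ 4 * IL (p :: L) a b := by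
  have key : ∀ u w, u ≤ w → w ≤ p.2.2 →
      (w - u) * |JL L 0 + p.2.1 * (p.2.2 - (u + w) / 2)| ≤ IL (p :: L) u w := by
    intro u w huw hw
    have h1 := intervalIntegral.abs_integral_le_integral_abs (μ := volume) (f := JL (p :: L)) huw
    rw [intervalIntegral.integral_congr (g := fun s => JL L 0 + p.2.1 * (p.2.2 - s))
      (fun s hs => JL_first p hL (by rw [uIcc_of_le huw] at hs; linarith [hs.2])), aff_int,
      abs_mul, abs_of_nonneg (sub_nonneg.2 huw)] at h1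
    exact h1
  have k1 := key a ((a + b) / 2) (by linarith) (by linarith)
  have k2 := key ((a + b) / 2) b (by linarith) hb
  rw [← IL_add (p :: L) a ((a + b) / 2) b, JL_first p hL (hab.trans hb), JL_first p hL hb]
  set x := JL L 0 + p.2.1 * (p.2.2 - (a + (a + b) / 2) / 2) with hx
  set y := JL L 0 + p.2.1 * (p.2.2 - ((a + b) / 2 + b) / 2) with hy
  have e1 : JL L 0 + p.2.1 * (p.2.2 - a) = 3 / 2 * x - 1 / 2 * y := by rw [hx, hy]; ring
  have e2 : JL L 0 + p.2.1 * (p.2.2 - b) = 3 / 2 * y - 1 / 2 * x := by rw [hx, hy]; ring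
  have b1 : |3 / 2 * x - 1 / 2 * y| ≤ 3 / 2 * |x| + 1 / 2 * |y| := by
    refine (abs_sub _ _).trans (le_of_eq ?_)
    rw [abs_mul, abs_mul]; norm_num [abs_of_pos]
  have b2 : |3 / 2 * y - 1 / 2 * x| ≤ 3 / 2 * |y| + 1 / 2 * |x| := by
    refine (abs_sub _ _).trans (le_of_eq ?_)
    rw [abs_mul, abs_mul]; norm_num [abs_of_pos]
  rw [e1, e2]
  have := mul_le_mul_of_nonneg_right (add_le_add b1 b2) (sub_nonneg.2 hab)
  nlinarith

theorem len_of_adm {L : List (ℝ × ℝ × ℝ)} (h : Adm 1 (lev 0 L)) : ∀ p ∈ L, 0 ≤ p.2.2 := fun p hp =>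
  adm_len h (p.1 + 0 * p.2.1, p.2.2) (List.mem_map.2 ⟨p, hp, rfl⟩)

theorem TT_lev1 : ∀ L : List (ℝ × ℝ × ℝ), TT (lev 1 L) = TT (lev 0 L)
  | [] => rfl
  | p :: L => by rw [lev_cons, lev_cons, TT_cons, TT_cons, TT_lev1 L]

/-- **(1) on a common grid** -/
theorem psi_L {T C : ℝ} {K : ℕ} (hC : 1 ≤ C) (hB : Bd T (K + 2) C) :
    ∀ L : List (ℝ × ℝ × ℝ), Adm 1 (lev 0 L) → Adm 1 (lev 1 L) → TT (lev 0 L) ≤ T →
    ∀ t ∈ Icc 0 (TT (lev 0 L)), ∀ k ≤ K, ∀ x,
      |Dn k (PhiT 1 (lev 1 L) t) x - Dn k (PhiT 1 (lev 0 L) t) x -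
        JL L t * WW k (PhiT 1 (lev 1 L) t) x| ≤
      4 * c2 K C * IL L t (TT (lev 0 L)) * Real.exp (2 * c1 K C * (TT (lev 0 L) - t))
  | [], _, _, _, t, ht, k, _, x => by
    have : t = 0 := le_antisymm ht.2 ht.1
    subst this
    simp [lev, PhiT, JL, IL, st, TT]
  | p :: L, h0', h1', hT, t, ht, k, hk, x => by
    have h0 : Adm 1 ((p.1 + 0 * p.2.1, p.2.2) :: lev 0 L) := h0'
    have h1 : Adm 1 ((p.1 + 1 * p.2.1, p.2.2) :: lev 1 L) := h1'
    have hL := len_of_adm h0.2.2.2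
    have hT0 := TT_lev_nonneg hL
    have hd : 0 ≤ p.2.2 := h0.2.2.1
    have hT1 : TT (lev 1 (p :: L)) ≤ T := by rw [TT_lev1]; exact hT
    have ih := psi_L hC hB L h0.2.2.2 h1.2.2.2 (by rw [TT_lc] at hT; linarith)
    have n1 := c1_nn K hC
    have n2 := c2_nn K hC
    rw [TT_lc] at ht ⊢
    rcases le_total t p.2.2 with h2 | h2
    · have b := block (PhiL_prof one_pos (lev 0 L)) (PhiL_prof one_pos (lev 1 L)) h0.1
        (Lip62.head_le_one h0) h1.1 (Lip62.head_le_one h1) hC (d := p.2.2 - t)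
        (hB.blk h1 hT1 (by simp only; linarith [ht.1])) (by linarith)
        (hB.blk h0 hT (by simp only; linarith [ht.1])) (D := JL L 0)
        (fun k hk x => by
          have := ih 0 ⟨le_rfl, hT0⟩ k hk x
          rwa [PhiT_zero (adm_len h1.2.2.2), PhiT_zero (adm_len h0.2.2.2)] at this) hk x
      have e : p.1 + 1 * p.2.1 - (p.1 + 0 * p.2.1) = p.2.1 := by ring
      simp only [e] at b
      rw [← JL_first p hL h2] at b
      rw [lev_cons, lev_cons, PhiT_first (by exact h2), PhiT_first (by exact h2)]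
      refine b.trans ?_
      have i1 := IL_blk p hL h2 le_rfl
      rw [JL_first p hL le_rfl, sub_self, mul_zero, add_zero] at i1
      have i2 := IL_next p hL (a := p.2.2) (b := p.2.2 + TT (lev 0 L)) le_rfl (by linarith)
      rw [sub_self, add_sub_cancel_left] at i2
      rw [← IL_add (p :: L) t p.2.2, i2, sub_zero,
        show 2 * c1 K C * (p.2.2 + TT (lev 0 L) - t) =
          2 * c1 K C * TT (lev 0 L) + 2 * c1 K C * (p.2.2 - t) by ring, Real.exp_add, ← mul_assoc]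
      refine mul_le_mul_of_nonneg_right ?_ (Real.exp_pos _).le
      have x1 : 1 ≤ Real.exp (2 * c1 K C * TT (lev 0 L)) := Real.one_le_exp (by positivity)
      have x2 := mul_le_mul_of_nonneg_left i1 n2
      have x3 := mul_le_mul_of_nonneg_left x1
        (mul_nonneg n2 (IL_nn (p :: L) h2))
      nlinarith
    · have := ih (t - p.2.2) ⟨by linarith, by linarith [ht.2]⟩ k hk x
      rw [lev_cons, lev_cons, PhiT_next h1.1.ne' (adm_len h1.2.2.2) (by exact h2),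
        PhiT_next h0.1.ne' (adm_len h0.2.2.2) (by exact h2), JL_next p hL h2,
        IL_next p hL h2 (by linarith), add_sub_cancel_left,
        show p.2.2 + TT (lev 0 L) - t = TT (lev 0 L) - (t - p.2.2) by ring]
      exact this

end

end Crest.Agent.T156.Hm
end

-- ▼ part T156/Hm_32
section

/-!
Row 156 (helper32): `H⁻¹` Lipschitz bounds of the one-site recursion in the tilts (leaf L-e).
`J(s) = ∫_s^T (ζ' - ζ)`.
-/

set_option autoImplicit false

namespace Crest.Agent.T156.Hm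

open MeasureTheory ProbabilityTheory Filter Topology Set
open Crest.Agent.R164.GC Crest.Agent.R339.B Crest.Agent.R339.Var Crest.Agent.T157.Pf
open Crest.Agent.T156.Pp Crest.Agent.T156.Sc48
open Crest.ProbabilityR.InvariantGlass (gaussOp)

noncomputable section

theorem Bd.phiT {T C : ℝ} {K : ℕ} (hB : Bd T K C) {l : List (ℝ × ℝ)} (h : Adm 1 l) (hT : TT l ≤ T)
    {t : ℝ} (ht : 0 ≤ t) : ∀ j ≤ K, ∀ x, |Dn j (PhiT 1 l t) x| ≤ C := by
  rw [Lip62.PhiT_eq_rest]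
  obtain ⟨a, b⟩ := Lip62.adm_rest h t ht
  exact hB _ a (b.trans hT)

theorem Bd.mono {T C : ℝ} {K K' : ℕ} (hB : Bd T K C) (h : K' ≤ K) : Bd T K' C :=
  fun l hl hT j hj => hB l hl hT j (hj.trans h)

theorem WW_le {k K : ℕ} (hk : k ≤ K) {Φ : ℝ → ℝ} {C x : ℝ} (hC : 0 ≤ C)
    (hb : ∀ j ≤ k + 1, |Dn j Φ x| ≤ C) : |WW k Φ x| ≤ (2 ^ K + 1) * (C * C) := by
  have a1 := amul (hb 0 (by omega)) (hb (k + 1) le_rfl)
  have a2 := SS_le hk hC fun j hj => hb j (by omega)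
  unfold WW
  refine (abs_add_le _ _).trans ?_
  linarith

/-- constants -/
def cS (T : ℝ) (K : ℕ) (C : ℝ) : ℝ := 4 * c2 K C * Real.exp (2 * c1 K C * T)
def cD (T : ℝ) (K : ℕ) (C : ℝ) : ℝ := cS T K C + (2 ^ K + 1) * (C * C)

theorem cS_nn (T : ℝ) (K : ℕ) {C : ℝ} (hC : 1 ≤ C) : 0 ≤ cS T K C := by
  unfold cS; have := c2_nn K hC; positivity

theorem cD_nn (T : ℝ) (K : ℕ) {C : ℝ} (hC : 1 ≤ C) : 0 ≤ cD T K C := by
  unfold cD; have := cS_nn T K hC; have := mul_self_nonneg C; positivity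

section grid

variable {T C : ℝ} {K : ℕ} (hC : 1 ≤ C) (hB : Bd T (K + 2) C) {L : List (ℝ × ℝ × ℝ)}
  (h0 : Adm 1 (lev 0 L)) (h1 : Adm 1 (lev 1 L)) (hT : TT (lev 0 L) ≤ T) {t : ℝ}
  (ht : t ∈ Icc 0 (TT (lev 0 L))) {k : ℕ} (hk : k ≤ K) (x : ℝ)
include hC hB h0 h1 hT ht hk

theorem psi_L' : |Dn k (PhiT 1 (lev 1 L) t) x - Dn k (PhiT 1 (lev 0 L) t) x -
    JL L t * WW k (PhiT 1 (lev 1 L) t) x| ≤ cS T K C * IL L t (TT (lev 0 L)) := by
  refine (psi_L hC hB L h0 h1 hT t ht k hk x).trans ?_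
  have n1 := c1_nn K hC
  have n2 := c2_nn K hC
  have n3 := IL_nn L ht.2
  have : Real.exp (2 * c1 K C * (TT (lev 0 L) - t)) ≤ Real.exp (2 * c1 K C * T) :=
    Real.exp_le_exp.2 (mul_le_mul_of_nonneg_left (by linarith [ht.1]) (by positivity))
  have := mul_le_mul_of_nonneg_left this (show 0 ≤ 4 * c2 K C * IL L t (TT (lev 0 L)) by positivity)
  unfold cS
  linarith

theorem dn_L : |Dn k (PhiT 1 (lev 1 L) t) x - Dn k (PhiT 1 (lev 0 L) t) x| ≤
    cD T K C * (|JL L t| + IL L t (TT (lev 0 L))) := by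
  have a1 := psi_L' hC hB h0 h1 hT ht hk x
  have a2 := amul (le_refl |JL L t|) (WW_le hk (by linarith : (0 : ℝ) ≤ C) (x := x) fun j hj =>
    hB.phiT h1 (by rw [TT_lev1]; exact hT) ht.1 j (by omega) x)
  have n0 := cS_nn T K hC
  have n1 : 0 ≤ (2 ^ K + 1) * (C * C) := by have := mul_self_nonneg C; positivity
  have n3 := IL_nn L ht.2
  have n4 := abs_nonneg (JL L t)
  have := abs_add_le (Dn k (PhiT 1 (lev 1 L) t) x - Dn k (PhiT 1 (lev 0 L) t) x -
    JL L t * WW k (PhiT 1 (lev 1 L) t) x) (JL L t * WW k (PhiT 1 (lev 1 L) t) x)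
  rw [sub_add_cancel] at this
  unfold cD
  nlinarith [mul_nonneg n0 n4, mul_nonneg n1 n3]

end grid

theorem JL_mid (p : ℝ × ℝ × ℝ) {L : List (ℝ × ℝ × ℝ)} (hL : ∀ r ∈ L, 0 ≤ r.2.2) {s b : ℝ}
    (hs : 0 ≤ s) (hsb : s ≤ b) (hb : b ≤ p.2.2) :
    |JL (p :: L) s| ≤ |JL (p :: L) 0| + |JL (p :: L) b| := by
  have := aff_le (D := JL (p :: L) b) (δ := p.2.1) (d := b) (v := b - s)
    ⟨by linarith, by linarith⟩
  rw [max_eq_left (by linarith)] at this
  rw [JL_first p hL (hsb.trans hb), JL_first p hL (hs.trans (hsb.trans hb))]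
  rw [JL_first p hL hb] at this ⊢
  rw [show JL L 0 + p.2.1 * (p.2.2 - s) = JL L 0 + p.2.1 * (p.2.2 - b) + p.2.1 * (b - s) by ring,
    show JL L 0 + p.2.1 * (p.2.2 - 0) = JL L 0 + p.2.1 * (p.2.2 - b) + p.2.1 * b by ring]
  linarith

theorem IL_le (L : List (ℝ × ℝ × ℝ)) {a b c : ℝ} (h : a ≤ b) : IL L b c ≤ IL L a c := by
  rw [← IL_add L a b c]; linarith [IL_nn L h]

/-- **(2) on a common grid** -/
theorem law_L {T C La M : ℝ} (hC : 1 ≤ C) (hB : Bd T 2 C) {F F' : ℝ → ℝ} (hF : BD F) (hF' : BD F')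
    (hM : ∀ x, |F' x - F x| ≤ M) (hLa : 0 ≤ La)
    (hL' : ∀ j, 1 ≤ j → j ≤ 2 → ∀ x, |iteratedDeriv j F' x| ≤ La) :
    ∀ L : List (ℝ × ℝ × ℝ), Adm 1 (lev 0 L) → Adm 1 (lev 1 L) → TT (lev 0 L) ≤ T →
    ∀ t ∈ Icc 0 (TT (lev 0 L)), ∀ x,
      |EX 1 (lev 1 L) t F' x - EX 1 (lev 0 L) t F x - (JL L 0 - JL L t) *
        (Dn 0 (PhiL 1 (lev 1 L)) x * deriv (EX 1 (lev 1 L) t F') x)| ≤
      M + 4 * (cD T 0 C + c3 C) * (La * Real.exp (2 * (2 ^ 2 * C) * T)) *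
        (IL L 0 t + t * (|JL L t| + IL L 0 (TT (lev 0 L))))
  | [], _, _, _, t, ht, x => by
    have : t = 0 := le_antisymm ht.2 ht.1
    subst this
    simpa [lev, EX, IL] using hM x
  | p :: L, h0', h1', hT, t, ht, x => by
    have h0 : Adm 1 ((p.1 + 0 * p.2.1, p.2.2) :: lev 0 L) := h0'
    have h1 : Adm 1 ((p.1 + 1 * p.2.1, p.2.2) :: lev 1 L) := h1'
    have hL := len_of_adm h0.2.2.2
    have hT0 := TT_lev_nonneg hL
    have hd : 0 ≤ p.2.2 := h0.2.2.1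
    have hT1 : TT (lev 1 (p :: L)) ≤ T := by rw [TT_lev1]; exact hT
    have hTc := hT
    rw [TT_lc] at hTc
    have ih := law_L hC hB hF hF' hM hLa hL' L h0.2.2.2 h1.2.2.2 (by linarith)
    have hC0 : 0 ≤ C := by linarith
    have n1 := cD_nn T 0 hC
    have n2 := c3_nn hC
    have hP := PhiL_prof one_pos (lev 0 L)
    have hP' := PhiL_prof one_pos (lev 1 L)
    have e : p.1 + 1 * p.2.1 - (p.1 + 0 * p.2.1) = p.2.1 := by ring
    set La' := La * Real.exp (2 * (2 ^ 2 * C) * T) with hLa'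
    have n3 : 0 ≤ La' := by positivity
    have hE : ∀ b, 0 ≤ b → b ≤ p.2.2 → ∀ s ∈ Icc 0 b, ∀ y,
        |Dn 0 (PhiT 1 (lev 1 (p :: L)) s) y - Dn 0 (PhiT 1 (lev 0 (p :: L)) s) y| ≤
          cD T 0 C * (|JL (p :: L) 0| + |JL (p :: L) b| + IL (p :: L) 0 (TT (lev 0 (p :: L)))) := by
      intro b hb0 hb s hs y
      refine (dn_L (K := 0) hC hB h0' h1' hT (t := s) ⟨hs.1, by rw [TT_lc]; linarith [hs.2]⟩
        le_rfl y).trans (mul_le_mul_of_nonneg_left (add_le_add (JL_mid p hL hs.1 hs.2 hb)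
          (IL_le _ hs.1)) n1)
    have nI := IL_nn (p :: L) (show 0 ≤ TT (lev 0 (p :: L)) from ht.1.trans ht.2)
    by_cases h2 : t ≤ p.2.2
    · have b := block_law (hP.step (p.1 + 0 * p.2.1) (p.2.2 - t))
        (hP'.step (p.1 + 1 * p.2.1) (p.2.2 - t)) h0.1 (Lip62.head_le_one h0) h1.1
        (Lip62.head_le_one h1) hC ht.1 (hB.blk2 h1 hT1 h2) hF hF' (La := La') (D := 0) (M := M)
        (E := cD T 0 C * (|JL (p :: L) 0| + |JL (p :: L) t| + IL (p :: L) 0 (TT (lev 0 (p :: L)))))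
        (fun v hv j hj hj2 y => (block_der (hP'.step _ _) h1.1 (Lip62.head_le_one h1) hv.1 hC0 hLa
          (fun w hw => hB.blk2 h1 hT1 h2 w ⟨hw.1, hw.2.trans hv.2⟩) hF' hL' hj hj2 y).trans
          (mul_le_mul_of_nonneg_left (Real.exp_le_exp.2 (mul_le_mul_of_nonneg_left
            (by linarith [hv.2]) (by positivity))) hLa))
        (fun v hv y => by
          have := hE t ht.1 h2 (t - v) ⟨by linarith [hv.2], by linarith [hv.1]⟩ y
          rw [lev_cons 1, lev_cons 0, PhiT_first (by simp only; linarith [hv.1]),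
            PhiT_first (by simp only; linarith [hv.1])] at this
          rw [← gaussOp_semi hP' h1.1.ne' hv.1 (by linarith),
            ← gaussOp_semi hP h0.1.ne' hv.1 (by linarith),
            show v + (p.2.2 - t) = p.2.2 - (t - v) by ring]
          exact this)
        (fun y => by simpa using hM y) x
      have e2 : JL (p :: L) 0 - JL (p :: L) t = p.2.1 * t := by
        rw [JL_first p hL hd, JL_first p hL h2]; ring
      simp only [e, zero_add, abs_zero] at b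
      rw [← gaussOp_semi hP' h1.1.ne' ht.1 (by linarith), add_sub_cancel, ← e2] at b
      rw [lev_cons 1, lev_cons 0]
      simp only [EX, PhiL]
      rw [if_pos h2, if_pos h2, ← lev_cons 0 p L]
      refine b.trans (add_le_add le_rfl ?_)
      have i1 := IL_blk p hL ht.1 h2
      rw [sub_zero] at i1
      have i2 := abs_sub (JL (p :: L) 0) (JL (p :: L) t)
      have i3 := abs_nonneg (JL (p :: L) t)
      set a := |JL (p :: L) 0| + |JL (p :: L) t|
      set I := IL (p :: L) 0 (TT (lev 0 (p :: L)))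
      have j1 : (cD T 0 C * (a + I) + c3 C * |JL (p :: L) 0 - JL (p :: L) t|) * t ≤
          4 * (cD T 0 C + c3 C) * (IL (p :: L) 0 t + t * (|JL (p :: L) t| + I)) := by
        have k1 := mul_le_mul_of_nonneg_left i1 (add_nonneg n1 n2)
        have k2 := mul_le_mul_of_nonneg_right (mul_le_mul_of_nonneg_left i2 n2) ht.1
        have k3 := mul_nonneg (add_nonneg n1 n2) (mul_nonneg ht.1 i3)
        have k4 := mul_nonneg n1 (mul_nonneg ht.1 nI)
        have k5 := mul_nonneg n2 (mul_nonneg ht.1 nI)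
        nlinarith
      have := mul_le_mul_of_nonneg_left j1 n3
      linarith
    · have h3 : p.2.2 ≤ t := (not_le.1 h2).le
      have ht2 := ht.2
      rw [TT_lc] at ht2
      have b := block_law hP hP' h0.1 (Lip62.head_le_one h0) h1.1
        (Lip62.head_le_one h1) hC hd (hB.blk h1 hT1 le_rfl) (Lip62.EX_bd one_pos (lev 0 L)
          (t - p.2.2) hF) (Lip62.EX_bd one_pos (lev 1 L) (t - p.2.2) hF') (La := La')
        (E := cD T 0 C * (|JL (p :: L) 0| + |JL (p :: L) p.2.2| +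
          IL (p :: L) 0 (TT (lev 0 (p :: L)))))
        (fun v hv j hj hj2 y => by
          refine (block_der hP' h1.1 (Lip62.head_le_one h1) hv.1 hC0 (by positivity)
            (fun w hw => hB.blk h1 hT1 le_rfl w ⟨hw.1, hw.2.trans hv.2⟩)
            (Lip62.EX_bd one_pos (lev 1 L) (t - p.2.2) hF')
            (EX_der hC0 hB hF' hLa hL' h1.2.2.2 (by rw [TT_lev1]; linarith) (t - p.2.2)
              (by linarith)) hj hj2 y).trans ?_
          rw [mul_assoc, ← Real.exp_add, ← mul_add]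
          exact mul_le_mul_of_nonneg_left (Real.exp_le_exp.2 (mul_le_mul_of_nonneg_left
            (by linarith [hv.2]) (by positivity))) hLa)
        (fun v hv y => by
          have := hE p.2.2 hd le_rfl (p.2.2 - v) ⟨by linarith [hv.2], by linarith [hv.1]⟩ y
          rw [lev_cons 1, lev_cons 0, PhiT_first (by simp only; linarith [hv.1]),
            PhiT_first (by simp only; linarith [hv.1])] at this
          simp only [sub_sub_cancel] at this
          exact this)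
        (ih (t - p.2.2) ⟨by linarith, by linarith⟩) x
      have e2 : JL L 0 - JL L (t - p.2.2) + p.2.1 * p.2.2 = JL (p :: L) 0 - JL (p :: L) t := by
        rw [JL_first p hL hd, JL_next p hL h3]; ring
      have e3 : JL L 0 = JL (p :: L) p.2.2 := by rw [JL_first p hL le_rfl]; ring
      have e4 := IL_next p hL (a := p.2.2) (b := t) le_rfl h3
      have e5 := IL_next p hL (a := p.2.2) (b := p.2.2 + TT (lev 0 L)) le_rfl (by linarith)
      rw [sub_self] at e4 e5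
      rw [add_sub_cancel_left, ← TT_lc] at e5
      simp only [e] at b
      rw [e2, ← JL_next p hL h3, e3, ← e4, ← e5] at b
      rw [lev_cons 1, lev_cons 0]
      simp only [EX, PhiL]
      rw [if_neg h2, if_neg h2, ← lev_cons 0 p L]
      refine b.trans ?_
      rw [add_assoc]
      refine add_le_add le_rfl ?_
      have i1 := IL_blk p hL hd le_rfl
      rw [sub_zero] at i1
      have i2 := abs_sub (JL (p :: L) 0) (JL (p :: L) t)
      have i2' := abs_sub (JL (p :: L) p.2.2) (JL (p :: L) t)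
      have i3 := abs_nonneg (JL (p :: L) t)
      have i4 := IL_le (p :: L) hd (c := TT (lev 0 (p :: L)))
      rw [← IL_add (p :: L) 0 p.2.2 t]
      set a := |JL (p :: L) 0| + |JL (p :: L) p.2.2| with ha
      set I := IL (p :: L) 0 (TT (lev 0 (p :: L)))
      set Jt := |JL (p :: L) t|
      have j1 : (cD T 0 C * (a + I) + c3 C * (|JL (p :: L) p.2.2 - JL (p :: L) t| +
          |JL (p :: L) 0 - JL (p :: L) t|)) * p.2.2 ≤
          4 * (cD T 0 C + c3 C) * (IL (p :: L) 0 p.2.2 + p.2.2 * (Jt + I)) := by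
        have k1 := mul_le_mul_of_nonneg_left i1 (add_nonneg n1 n2)
        have k2 := mul_le_mul_of_nonneg_right (mul_le_mul_of_nonneg_left (add_le_add i2' i2) n2) hd
        have k3 := mul_nonneg n1 (mul_nonneg hd i3)
        have k3' := mul_nonneg n2 (mul_nonneg hd i3)
        have k4 := mul_nonneg n1 (mul_nonneg hd nI)
        have k5 := mul_nonneg n2 (mul_nonneg hd nI)
        nlinarith
      have j2 := mul_le_mul_of_nonneg_left j1 n3
      have j3 := mul_le_mul_of_nonneg_left (mul_le_mul_of_nonneg_left i4 (sub_nonneg.2 h3))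
        (show 0 ≤ 4 * (cD T 0 C + c3 C) * La' by positivity)
      nlinarith

/-! ### general lists -/

/-- `∫_a^b |J|` -/
def IJ (l l' : List (ℝ × ℝ)) (a b : ℝ) : ℝ := ∫ s in a..b, |Jf l l' (TT l) s|

theorem ref_JL {l l' : List (ℝ × ℝ)} {L : List (ℝ × ℝ × ℝ)} (h : Ref l l' L) {s : ℝ} (hs : 0 ≤ s) :
    JL L s = Jf l l' (TT l) s := by
  have hT := TT_lev_nonneg h.len
  unfold JL Jf
  rw [h.e0.tt]
  refine intervalIntegral.integral_congr fun r hr => h.st ?_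
  rcases mem_uIcc.1 hr with h | h <;> linarith [h.1]

theorem ref_IL {l l' : List (ℝ × ℝ)} {L : List (ℝ × ℝ × ℝ)} (h : Ref l l' L) {a b : ℝ} (ha : 0 ≤ a)
    (hb : 0 ≤ b) : IL L a b = IJ l l' a b := by
  unfold IL IJ
  refine intervalIntegral.integral_congr fun r hr => ?_
  show |JL L r| = |Jf l l' (TT l) r|
  rw [ref_JL h]
  rcases mem_uIcc.1 hr with h | h <;> linarith [h.1]

theorem IJ_nn (l l' : List (ℝ × ℝ)) {a b : ℝ} (h : a ≤ b) : 0 ≤ IJ l l' a b :=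
  intervalIntegral.integral_nonneg h fun _ _ => abs_nonneg _

theorem IJ_add {l l' : List (ℝ × ℝ)} (h : Adm 1 l) (h' : Adm 1 l') (e : TT l' = TT l) {a b c : ℝ}
    (ha : 0 ≤ a) (hb : 0 ≤ b) (hc : 0 ≤ c) : IJ l l' a b + IJ l l' b c = IJ l l' a c := by
  obtain ⟨L, r⟩ := exists_ref h h' e.symm
  rw [← ref_IL r ha hb, ← ref_IL r hb hc, ← ref_IL r ha hc, IL_add]

/-- **(1), sharp and plain** -/
theorem dn_H (T : ℝ) (K : ℕ) : ∃ C : ℝ, 1 ≤ C ∧ ∀ l l', Adm 1 l → Adm 1 l' → TT l' = TT l →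
    TT l ≤ T → ∀ t ∈ Icc 0 (TT l), ∀ k ≤ K, ∀ x,
      |Dn k (PhiT 1 l' t) x - Dn k (PhiT 1 l t) x - Jf l l' (TT l) t * WW k (PhiT 1 l' t) x| ≤
        C * IJ l l' t (TT l) ∧
      |Dn k (PhiT 1 l' t) x - Dn k (PhiT 1 l t) x| ≤ C * (|Jf l l' (TT l) t| + IJ l l' t (TT l)) := by
  obtain ⟨C, hC, hB⟩ := exists_Bd T (K + 2)
  have n0 := cS_nn T K hC
  have n1 := cD_nn T K hC
  refine ⟨1 + cS T K C + cD T K C, by linarith, fun l l' h h' e hT t ht k hk x => ?_⟩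
  obtain ⟨L, r⟩ := exists_ref h h' e.symm
  have a := psi_L' hC hB r.a0 r.a1 (r.e0.tt ▸ hT) (r.e0.tt ▸ ht) hk x
  have b := dn_L hC hB r.a0 r.a1 (r.e0.tt ▸ hT) (r.e0.tt ▸ ht) hk x
  rw [← r.e0.tt, ref_JL r ht.1, ref_IL r ht.1 (ht.1.trans ht.2), ← r.e0.phiT t ht.1,
    ← r.e1.phiT t ht.1] at a b
  have n2 := IJ_nn l l' ht.2
  have n3 := abs_nonneg (Jf l l' (TT l) t)
  exact ⟨a.trans (mul_le_mul_of_nonneg_right (by linarith) n2),
    b.trans (mul_le_mul_of_nonneg_right (by linarith) (by linarith))⟩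

/-- the size of the change of the law of `X_t` -/
def HL (l l' : List (ℝ × ℝ)) (t : ℝ) : ℝ :=
  IJ l l' 0 t + t * (|Jf l l' (TT l) t| + IJ l l' 0 (TT l))

theorem HL_nn (l l' : List (ℝ × ℝ)) {t : ℝ} (ht : t ∈ Icc 0 (TT l)) : 0 ≤ HL l l' t := by
  have a := IJ_nn l l' ht.1
  have b := IJ_nn l l' (ht.1.trans ht.2)
  have c := ht.1
  unfold HL; positivity

/-- **(2)**: any start `x` with the corrector; start `0` without -/
theorem law_H (T : ℝ) : ∃ C : ℝ, 1 ≤ C ∧ ∀ l l', Adm 1 l → Adm 1 l' → TT l' = TT l → TT l ≤ T →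
    ∀ t ∈ Icc 0 (TT l), ∀ (F F' : ℝ → ℝ) (M La : ℝ), BD F → BD F' → (∀ x, |F' x - F x| ≤ M) →
      (∀ x, |deriv F' x| ≤ La) → (∀ x, |deriv (deriv F') x| ≤ La) →
      (∀ x, |EX 1 l' t F' x - EX 1 l t F x - (Jf l l' (TT l) 0 - Jf l l' (TT l) t) *
        (Dn 0 (PhiL 1 l') x * deriv (EX 1 l' t F') x)| ≤ M + C * La * HL l l' t) ∧
      |EX 1 l' t F' 0 - EX 1 l t F 0| ≤ M + C * La * HL l l' t := by
  obtain ⟨C, hC, hB⟩ := exists_Bd T 2
  have n1 := cD_nn T 0 hC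
  have n2 := c3_nn hC
  have n3 : 0 ≤ 4 * (cD T 0 C + c3 C) * Real.exp (2 * (2 ^ 2 * C) * T) := by positivity
  refine ⟨1 + 4 * (cD T 0 C + c3 C) * Real.exp (2 * (2 ^ 2 * C) * T), by linarith,
    fun l l' h h' e hT t ht F F' M La hF hF' hM d1 d2 => ?_⟩
  obtain ⟨L, r⟩ := exists_ref h h' e.symm
  have hLa : 0 ≤ La := (abs_nonneg _).trans (d1 0)
  obtain ⟨K, hK⟩ := hF.bc
  obtain ⟨K', hK'⟩ := hF'.bc
  have key : ∀ x, |EX 1 l' t F' x - EX 1 l t F x - (Jf l l' (TT l) 0 - Jf l l' (TT l) t) *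
      (Dn 0 (PhiL 1 l') x * deriv (EX 1 l' t F') x)| ≤
      M + (1 + 4 * (cD T 0 C + c3 C) * Real.exp (2 * (2 ^ 2 * C) * T)) * La * HL l l' t := by
    intro x
    have a := law_L hC hB hF hF' hM hLa (fun j hj hj2 y => by
      interval_cases j
      · rw [iteratedDeriv_one]; exact d1 y
      · rw [iteratedDeriv_succ, iteratedDeriv_one]; exact d2 y)
      L r.a0 r.a1 (r.e0.tt ▸ hT) t (r.e0.tt ▸ ht) x
    rw [← r.e0.tt, ref_JL r ht.1, ref_JL r le_rfl, ref_IL r le_rfl ht.1,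
      ref_IL r le_rfl (ht.1.trans ht.2), ← r.e0.ex t ht.1 F K hK, ← r.e1.ex t ht.1 F' K' hK',
      ← r.e1.phi] at a
    refine a.trans ?_
    have := mul_nonneg hLa (HL_nn l l' ht)
    unfold HL at this ⊢
    nlinarith
  refine ⟨key, ?_⟩
  have := key 0
  rwa [Ode3.D0_zero h', zero_mul, mul_zero, sub_zero] at this

end

end Crest.Agent.T156.Hm
end

-- ▼ part T156/HmC_32

/-!
Row 156 (helper32): `H⁻¹` Lipschitz bounds of the moments `Γ, G, A, N, …` (leaf L-e, (3), (4)).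
-/

set_option autoImplicit false

namespace Crest.Agent.T156.Hm

open MeasureTheory ProbabilityTheory Filter Topology Set
open Crest.Agent.R164.GC Crest.Agent.R339.B Crest.Agent.R339.Var Crest.Agent.T157.Pf
open Crest.Agent.T156.Pp Crest.Agent.T156.Sc48
open Crest.ProbabilityR.InvariantGlass (gaussOp)

noncomputable section

/-- a value with two derivatives -/
structure Cl (A D : ℝ) (f g : ℝ → ℝ) : Prop where
  bf : BD f
  bg : BD g
  f0 : ∀ x, |f x| ≤ A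
  f1 : ∀ x, |deriv f x| ≤ A
  f2 : ∀ x, |deriv (deriv f) x| ≤ A
  g0 : ∀ x, |g x| ≤ A
  g1 : ∀ x, |deriv g x| ≤ A
  g2 : ∀ x, |deriv (deriv g) x| ≤ A
  d0 : ∀ x, |g x - f x| ≤ A * D
  d1 : ∀ x, |deriv g x - deriv f x| ≤ A * D
  d2 : ∀ x, |deriv (deriv g) x - deriv (deriv f) x| ≤ A * D

theorem der_mul {f g : ℝ → ℝ} (hf : BD f) (hg : BD g) :
    deriv (fun x => f x * g x) = fun x => deriv f x * g x + f x * deriv g x :=
  funext fun x => ((hf.hasDerivAt x).fun_mul (hg.hasDerivAt x)).deriv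

theorem der2_mul {f g : ℝ → ℝ} (hf : BD f) (hg : BD g) (x : ℝ) :
    deriv (deriv (fun x => f x * g x)) x = deriv (deriv f) x * g x + deriv f x * deriv g x +
      (deriv f x * deriv g x + f x * deriv (deriv g) x) := by
  rw [der_mul hf hg]
  exact (((hf.deriv.hasDerivAt x).fun_mul (hg.hasDerivAt x)).fun_add
    ((hf.hasDerivAt x).fun_mul (hg.deriv.hasDerivAt x))).deriv

theorem dmul {a a' b b' A B D : ℝ} (ha : |a| ≤ A) (hb' : |b'| ≤ B) (h1 : |a' - a| ≤ A * D)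
    (h2 : |b' - b| ≤ B * D) : |a' * b' - a * b| ≤ 2 * (A * B * D) := by
  have p := amul h1 hb'
  have q := amul ha h2
  rw [show a' * b' - a * b = (a' - a) * b' + a * (b' - b) by ring]
  refine (abs_add_le _ _).trans ?_
  linarith

theorem abs4 {a b c d K : ℝ} (ha : |a| ≤ K) (hb : |b| ≤ K) (hc : |c| ≤ K) (hd : |d| ≤ K) :
    |a + b + (c + d)| ≤ 4 * K := by
  have := abs_add_le (a + b) (c + d)
  have := abs_add_le a b
  have := abs_add_le c d
  linarith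

theorem Cl.mul {A B D : ℝ} {f g f' g' : ℝ → ℝ} (h : Cl A D f g) (h' : Cl B D f' g') :
    Cl (8 * (A * B)) D (fun x => f x * f' x) (fun x => g x * g' x) := by
  have n : 0 ≤ A * B := (abs_nonneg _).trans (amul (h.f0 0) (h'.f0 0))
  have n' : 0 ≤ 2 * (A * B * D) := (abs_nonneg _).trans (dmul (h.f0 0) (h'.g0 0) (h.d0 0) (h'.d0 0))
  refine ⟨h.bf.mul h'.bf, h.bg.mul h'.bg, fun x => ?_, fun x => ?_, fun x => ?_, fun x => ?_,
    fun x => ?_, fun x => ?_, fun x => ?_, fun x => ?_, fun x => ?_⟩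
  · linarith [amul (h.f0 x) (h'.f0 x)]
  · rw [der_mul h.bf h'.bf]
    refine (abs_add_le _ _).trans ?_
    linarith [amul (h.f1 x) (h'.f0 x), amul (h.f0 x) (h'.f1 x)]
  · rw [der2_mul h.bf h'.bf]
    linarith [abs4 (amul (h.f2 x) (h'.f0 x)) (amul (h.f1 x) (h'.f1 x)) (amul (h.f1 x) (h'.f1 x))
      (amul (h.f0 x) (h'.f2 x))]
  · linarith [amul (h.g0 x) (h'.g0 x)]
  · rw [der_mul h.bg h'.bg]
    refine (abs_add_le _ _).trans ?_
    linarith [amul (h.g1 x) (h'.g0 x), amul (h.g0 x) (h'.g1 x)]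
  · rw [der2_mul h.bg h'.bg]
    linarith [abs4 (amul (h.g2 x) (h'.g0 x)) (amul (h.g1 x) (h'.g1 x)) (amul (h.g1 x) (h'.g1 x))
      (amul (h.g0 x) (h'.g2 x))]
  · linarith [dmul (h.f0 x) (h'.g0 x) (h.d0 x) (h'.d0 x)]
  · rw [der_mul h.bf h'.bf, der_mul h.bg h'.bg]
    have a := dmul (h.f1 x) (h'.g0 x) (h.d1 x) (h'.d0 x)
    have b := dmul (h.f0 x) (h'.g1 x) (h.d0 x) (h'.d1 x)
    rw [add_sub_add_comm]
    refine (abs_add_le _ _).trans ?_
    linarith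
  · rw [der2_mul h.bf h'.bf, der2_mul h.bg h'.bg]
    have a := abs4 (dmul (h.f2 x) (h'.g0 x) (h.d2 x) (h'.d0 x))
      (dmul (h.f1 x) (h'.g1 x) (h.d1 x) (h'.d1 x)) (dmul (h.f1 x) (h'.g1 x) (h.d1 x) (h'.d1 x))
      (dmul (h.f0 x) (h'.g2 x) (h.d0 x) (h'.d2 x))
    rw [add_sub_add_comm, add_sub_add_comm, add_sub_add_comm (deriv g x * deriv g' x)]
    linarith

theorem Cl.congr {A D : ℝ} {f g f' g' : ℝ → ℝ} (h : Cl A D f g) (e : ∀ x, f' x = f x)
    (e' : ∀ x, g' x = g x) : Cl A D f' g' := by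
  rw [show f' = f from funext e, show g' = g from funext e']; exact h

/-- `|J t| + ∫_t^T |J|` -/
def HN (l l' : List (ℝ × ℝ)) (t : ℝ) : ℝ := |Jf l l' (TT l) t| + IJ l l' t (TT l)

theorem HN_nn (l l' : List (ℝ × ℝ)) {t : ℝ} (ht : t ∈ Icc 0 (TT l)) : 0 ≤ HN l l' t :=
  add_nonneg (abs_nonneg _) (IJ_nn l l' ht.2)

theorem HN_le {l l' : List (ℝ × ℝ)} (h : Adm 1 l) (h' : Adm 1 l') (e : TT l' = TT l) {t : ℝ}
    (ht : t ∈ Icc 0 (TT l)) : HN l l' t ≤ |Jf l l' (TT l) t| + IJ l l' 0 (TT l) := by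
  have a := IJ_add h h' e le_rfl ht.1 (ht.1.trans ht.2)
  have b := IJ_nn l l' ht.1
  unfold HN; linarith

theorem HL_le {l l' : List (ℝ × ℝ)} (h : Adm 1 l) (h' : Adm 1 l') (e : TT l' = TT l) {t T : ℝ}
    (hT : TT l ≤ T) (ht : t ∈ Icc 0 (TT l)) :
    HL l l' t ≤ (1 + T) * (|Jf l l' (TT l) t| + IJ l l' 0 (TT l)) := by
  have a := IJ_add h h' e le_rfl ht.1 (ht.1.trans ht.2)
  have b := IJ_nn l l' ht.2
  have c := IJ_nn l l' ht.1
  have d := abs_nonneg (Jf l l' (TT l) t)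
  have := mul_le_mul_of_nonneg_right (ht.2.trans hT) (show 0 ≤ |Jf l l' (TT l) t| +
    IJ l l' 0 (TT l) by linarith)
  unfold HL; linarith

/-- the derivatives of the two profiles are close -/
theorem cl_Dn (T : ℝ) (K : ℕ) : ∃ A : ℝ, 1 ≤ A ∧ ∀ l l', Adm 1 l → Adm 1 l' → TT l' = TT l →
    TT l ≤ T → ∀ t ∈ Icc 0 (TT l), ∀ k ≤ K,
      Cl A (HN l l' t) (Dn k (PhiT 1 l t)) (Dn k (PhiT 1 l' t)) := by
  obtain ⟨C, hC, hB⟩ := exists_Bd T (K + 2)
  obtain ⟨C', hC', hD⟩ := dn_H T (K + 2)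
  refine ⟨C + C', by linarith, fun l l' h h' e hT t ht k hk => ?_⟩
  have b : ∀ j ≤ K + 2, ∀ x, |Dn j (PhiT 1 l t) x| ≤ C + C' := fun j hj x =>
    (hB.phiT h hT ht.1 j hj x).trans (by linarith)
  have b' : ∀ j ≤ K + 2, ∀ x, |Dn j (PhiT 1 l' t) x| ≤ C + C' := fun j hj x =>
    (hB.phiT h' (e ▸ hT) ht.1 j hj x).trans (by linarith)
  have d : ∀ j ≤ K + 2, ∀ x, |Dn j (PhiT 1 l' t) x - Dn j (PhiT 1 l t) x| ≤ (C + C') * HN l l' t :=
    fun j hj x => (hD l l' h h' e hT t ht j hj x).2.trans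
      (mul_le_mul_of_nonneg_right (by linarith) (HN_nn l l' ht))
  refine ⟨Dn_bd (PhiT_prof one_pos l t) k, Dn_bd (PhiT_prof one_pos l' t) k, b k (by omega), ?_, ?_,
    b' k (by omega), ?_, ?_, d k (by omega), ?_, ?_⟩ <;> simp only [← Dn_succ]
  · exact b _ (by omega)
  · exact b _ (by omega)
  · exact b' _ (by omega)
  · exact b' _ (by omega)
  · exact d _ (by omega)
  · exact d _ (by omega)

/-- **expectations of close functions** -/
theorem cl_E (T : ℝ) : ∃ C : ℝ, 1 ≤ C ∧ ∀ l l', Adm 1 l → Adm 1 l' → TT l' = TT l → TT l ≤ T →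
    ∀ t ∈ Icc 0 (TT l), ∀ (A D : ℝ) (f g : ℝ → ℝ), Cl A D f g →
      |EX 1 l' t g 0 - EX 1 l t f 0| ≤ |g 0 - f 0| + 2 * (A * D) * t + C * A * HL l l' t := by
  obtain ⟨C, hC, H⟩ := law_H T
  refine ⟨C, hC, fun l l' h h' e hT t ht A D f g c => ?_⟩
  have a := (H l l' h h' e hT t ht g g 0 A c.bg c.bg (fun x => by simp) c.g1 c.g2).2
  have e1 : deriv (fun x => g x - f x) = fun x => deriv g x - deriv f x :=
    funext fun x => ((c.bg.hasDerivAt x).fun_sub (c.bf.hasDerivAt x)).deriv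
  have b := EX_self (c.bg.sub c.bf) (La := A * D) (fun x => by rw [e1]; exact c.d1 x)
    (fun x => by
      rw [e1, ((c.bg.deriv.hasDerivAt x).fun_sub (c.bf.deriv.hasDerivAt x)).deriv]
      exact c.d2 x) h t ht.1 0
  obtain ⟨K, hK⟩ := c.bf.bc
  obtain ⟨K', hK'⟩ := (c.bg.sub c.bf).bc
  have e2 := EX_add one_pos l t hK hK' 0
  simp only [add_sub_cancel] at e2
  have e3 : EX 1 l' t g 0 - EX 1 l t f 0 = (EX 1 l' t g 0 - EX 1 l t g 0) +
      (EX 1 l t (fun x => g x - f x) 0 - (g 0 - f 0)) + (g 0 - f 0) := by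
    have e4 : EX 1 l t g 0 = EX 1 l t (fun y => g y) 0 := rfl
    rw [e4, e2]; ring
  rw [e3]
  refine (abs_add_three _ _ _).trans ?_
  linarith

/-- **(3)**: monomials of degree two and three in the derivatives -/
theorem mono_H (T : ℝ) (K : ℕ) : ∃ C : ℝ, 1 ≤ C ∧ ∀ l l', Adm 1 l → Adm 1 l' → TT l' = TT l →
    TT l ≤ T → ∀ t ∈ Icc 0 (TT l), ∀ (f g : ℝ → ℝ),
      ((∃ a ≤ K, f = Dn a (PhiT 1 l t) ∧ g = Dn a (PhiT 1 l' t)) ∨
       (∃ a ≤ K, ∃ b ≤ K, (∀ x, f x = Dn a (PhiT 1 l t) x * Dn b (PhiT 1 l t) x) ∧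
          ∀ x, g x = Dn a (PhiT 1 l' t) x * Dn b (PhiT 1 l' t) x) ∨
       (∃ a ≤ K, ∃ b ≤ K, ∃ c ≤ K,
          (∀ x, f x = Dn a (PhiT 1 l t) x * (Dn b (PhiT 1 l t) x * Dn c (PhiT 1 l t) x)) ∧
          ∀ x, g x = Dn a (PhiT 1 l' t) x * (Dn b (PhiT 1 l' t) x * Dn c (PhiT 1 l' t) x))) →
      |EX 1 l' t g 0 - EX 1 l t f 0| ≤ |g 0 - f 0| + C * HL l l' t ∧
      |g 0 - f 0| ≤ C * HN l l' t ∧
      |EX 1 l' t g 0 - EX 1 l t f 0| ≤ C * (|Jf l l' (TT l) t| + IJ l l' 0 (TT l)) := by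
  obtain ⟨A, hA, hc⟩ := cl_Dn T K
  obtain ⟨C, hC, hE⟩ := cl_E T
  set B := A + 8 * (A * A) + 8 * (A * (8 * (A * A))) with hB
  have hA0 : 0 ≤ A := by linarith
  have n1 : 0 ≤ 8 * (A * A) := by positivity
  have n2 : 0 ≤ 8 * (A * (8 * (A * A))) := by positivity
  have hB1 : 1 ≤ B := by linarith
  have nB : 0 ≤ (2 + C) * B := by positivity
  have nT : 0 ≤ (2 + C) * B * |T| := by positivity
  refine ⟨B + (2 + C) * B + (2 + C) * B * |T|, by linarith, fun l l' h h' e hT t ht f g hfg => ?_⟩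
  have key : ∃ A', A' ≤ B ∧ Cl A' (HN l l' t) f g := by
    have c := hc l l' h h' e hT t ht
    rcases hfg with ⟨a, ha, rfl, rfl⟩ | ⟨a, ha, b, hb, e1, e2⟩ | ⟨a, ha, b, hb, d, hd, e1, e2⟩
    · exact ⟨A, by linarith, c a ha⟩
    · exact ⟨_, by linarith, ((c a ha).mul (c b hb)).congr e1 e2⟩
    · exact ⟨_, by linarith, ((c a ha).mul ((c b hb).mul (c d hd))).congr e1 e2⟩
  obtain ⟨A', hA', c⟩ := key
  have a := hE l l' h h' e hT t ht A' _ f g c
  have m0 := HN_nn l l' ht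
  have m1 := HL_nn l l' ht
  have m2 := HN_le h h' e ht
  have m3 := HL_le h h' e (hT.trans (le_abs_self T)) ht
  have m4 : HN l l' t * t ≤ HL l l' t := by
    have := mul_le_mul_of_nonneg_right m2 ht.1
    have := IJ_nn l l' ht.1
    unfold HL; linarith
  have p1 : A' * (HN l l' t * t) ≤ B * HL l l' t :=
    mul_le_mul hA' m4 (mul_nonneg m0 ht.1) (by linarith)
  have p2 : C * A' * HL l l' t ≤ C * B * HL l l' t :=
    mul_le_mul_of_nonneg_right (mul_le_mul_of_nonneg_left hA' (by linarith)) m1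
  have q1 : |EX 1 l' t g 0 - EX 1 l t f 0| ≤ |g 0 - f 0| + (2 + C) * B * HL l l' t := by linarith
  have q2 : |g 0 - f 0| ≤ B * HN l l' t := (c.d0 0).trans (mul_le_mul_of_nonneg_right hA' m0)
  refine ⟨q1.trans (add_le_add le_rfl (mul_le_mul_of_nonneg_right (by linarith) m1)),
    q2.trans (mul_le_mul_of_nonneg_right (by linarith) m0), ?_⟩
  have r1 := mul_le_mul_of_nonneg_left m2 (show 0 ≤ B by linarith)
  have r2 := mul_le_mul_of_nonneg_left m3 nB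
  linarith

/-- **(3)** in the names of `PrDef_28`; `H = |J t| + ∫_0^T |J|`,
`HL = ∫_0^t |J| + t (|J t| + ∫_0^T |J|)` -/
theorem fun_H (T : ℝ) : ∃ C : ℝ, 1 ≤ C ∧ ∀ l l', Adm 1 l → Adm 1 l' → TT l' = TT l → TT l ≤ T →
    ∀ t ∈ Icc 0 (TT l), ∀ H, H = |Jf l l' (TT l) t| + IJ l l' 0 (TT l) →
      (|Pr.Gam l' t - Pr.Gam l t| ≤ C * H ∧ |Pr.GG l' t - Pr.GG l t| ≤ C * H ∧
        |Pr.AA l' t - Pr.AA l t| ≤ C * H ∧ |Pr.NN l' t - Pr.NN l t| ≤ C * H ∧
        |Pr.N4 l' t - Pr.N4 l t| ≤ C * H ∧ |Pr.BB l' t - Pr.BB l t| ≤ C * H) ∧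
      (|Pr.Gam l' t - Pr.Gam l t| ≤ C * HL l l' t ∧ |Pr.NN l' t - Pr.NN l t| ≤ C * HL l l' t ∧
        |Pr.BB l' t - Pr.BB l t| ≤ C * HL l l' t) ∧
      |Pr.chi l' - Pr.chi l| ≤ C * HN l l' 0 ∧ |Pr.k4 l' - Pr.k4 l| ≤ C * HN l l' 0 := by
  obtain ⟨C, hC, H⟩ := mono_H T 3
  refine ⟨C, hC, fun l l' h h' e hT t ht H' eH => ?_⟩
  subst eH
  have G := H l l' h h' e hT t ht
  have z0 : ∀ {l : List (ℝ × ℝ)}, Adm 1 l → Dn 0 (PhiT 1 l t) 0 = 0 := fun {l} h => by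
    rw [Lip62.PhiT_eq_rest]; exact Ode3.D0_zero (Lip62.adm_rest h t ht.1).1
  have z2 : ∀ {l : List (ℝ × ℝ)}, Adm 1 l → Dn 2 (PhiT 1 l t) 0 = 0 := fun {l} h => by
    rw [Lip62.PhiT_eq_rest]; exact Ode3.D2_zero (Lip62.adm_rest h t ht.1).1
  have sq : ∀ a ≤ 3, _ := fun a ha => G (fun x => Dn a (PhiT 1 l t) x ^ 2)
    (fun x => Dn a (PhiT 1 l' t) x ^ 2)
    (Or.inr (Or.inl ⟨a, ha, a, ha, fun x => sq _, fun x => sq _⟩))
  have g0 := sq 0 (by omega)
  have g1 := sq 1 (by omega)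
  have g2 := sq 2 (by omega)
  have g3 := sq 3 le_rfl
  have ga := G (fun x => Dn 1 (PhiT 1 l t) x ^ 3) (fun x => Dn 1 (PhiT 1 l' t) x ^ 3)
    (Or.inr (Or.inr ⟨1, by omega, 1, by omega, 1, by omega, fun x => by ring, fun x => by ring⟩))
  have gb := G (fun x => Dn 1 (PhiT 1 l t) x * Dn 2 (PhiT 1 l t) x ^ 2)
    (fun x => Dn 1 (PhiT 1 l' t) x * Dn 2 (PhiT 1 l' t) x ^ 2)
    (Or.inr (Or.inr ⟨1, by omega, 2, by omega, 2, by omega, fun x => by ring, fun x => by ring⟩))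
  have t0 : (0 : ℝ) ∈ Icc 0 (TT l) := ⟨le_rfl, ht.1.trans ht.2⟩
  have c1 := (H l l' h h' e hT 0 t0 _ _ (Or.inl ⟨1, by omega, rfl, rfl⟩)).2.1
  have c3 := (H l l' h h' e hT 0 t0 _ _ (Or.inl ⟨3, le_rfl, rfl, rfl⟩)).2.1
  refine ⟨⟨g0.2.2, g1.2.2, ga.2.2, g2.2.2, g3.2.2, gb.2.2⟩, ⟨?_, ?_, ?_⟩, c1, c3⟩
  · have := g0.1
    simp only [z0 h, z0 h', sub_self, abs_zero, zero_add] at this
    exact this
  · have := g2.1
    simp only [z2 h, z2 h', sub_self, abs_zero, zero_add] at this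
    exact this
  · have := gb.1
    simp only [z2 h, z2 h', ne_eq, OfNat.ofNat_ne_zero, not_false_eq_true, zero_pow, mul_zero,
      sub_self, abs_zero, zero_add] at this
    exact this



end

end Crest.Agent.T156.Hm
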