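import Crest.Agent.T156.L0_49

/-!
Row 156 (helper49): leaf L-d of docs/T156_69.md in the LIST frame: strict convexity of
`G = E Φ_xx²` across a label-poor interval, equal-area rule, Plefka gaps and floor gaps.
-/

set_option autoImplicit false

namespace Crest.Agent.T156.L0

open MeasureTheory Set Filter Topology
open Crest.Agent.R164.GC Crest.Agent.R339.B Crest.Agent.R339.Var Crest.Agent.T157.Pf
open Crest.Agent.T156.Pp Crest.Agent.T156.Pp.Ode3 Crest.Agent.T156.Str

noncomputable section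

variable {l : List (ℝ × ℝ)} {T : ℝ}

/-- the convexity margin -/
def kc (T : ℝ) : ℝ := kp T * Real.exp (-(4 * T))

theorem kc_pos (T : ℝ) : 0 < kc T := mul_pos (kp_pos T) (Real.exp_pos _)

/-- `N' - 2 ζ A' ≥ κ` -/
theorem strictL (h : AP l) (hT : TT l ≤ T) {t : ℝ} (h0 : 0 ≤ t) (h1 : t < TT l) :
    kc T ≤ (N4 l t - 6 * lvr 1 l t * Bm l t) -
      2 * lvr 1 l t * (3 * Bm l t - 3 * lvr 1 l t * A4 l t) := by
  have a : 0 ≤ Et (NJ (lvr 1 l t) (kp T)) l t := EX_NJ h.adm h.pos hT h0 h1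
  rw [Et_lin (bfn_W2' (2 * lvr 1 l t)) bfn_Q4 1 (6 * lvr 1 l t ^ 2 - kp T)
      (fun Φ y => by unfold NJ W2' Q4; ring),
    Et_lin bfn_W3 bfn_B3 1 (-(12 * lvr 1 l t)) (fun Φ y => by unfold W2' Pp.W3 B3; ring)] at a
  have b := mul_le_mul_of_nonneg_left (A4_ge h hT ⟨h0, h1.le⟩) (kp_pos T).le
  unfold kc
  unfold N4 Bm A4 at *
  nlinarith

/-- crude increments of `G'` -/
theorem Gd_crude (h : AP l) (hT : TT l ≤ T) {s t : ℝ} (h0 : 0 ≤ s) (hst : s ≤ t) (ht : t ≤ TT l) :
    (kc T - 6 * (lvr 1 l t - lvr 1 l s)) * (t - s) - 2 * (lvr 1 l t - lvr 1 l s) ≤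
      Gd l t - Gd l s := by
  set c := lvr 1 l s with hc
  set D := lvr 1 l t - c with hD
  have := le_of_rder (f := fun r => (kc T - 6 * D) * r - (Nm l r - 2 * c * Am l r)) hst
    ((by fun_prop : ContinuousOn (fun r => (kc T - 6 * D) * r) _).sub
      (((Nm_cont h).sub (continuousOn_const.mul (Am_cont h))).mono (Icc_subset_Icc h0 ht)))
    (fun r hr => ((hasDerivWithinAt_id r _).const_mul (kc T - 6 * D)).sub
      ((Nm_rder h (h0.trans hr.1) (hr.2.trans_le ht)).sub
        ((Am_rder h (h0.trans hr.1) (hr.2.trans_le ht)).const_mul (2 * c))))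
    (fun r hr => by
      have a1 := strictL h hT (h0.trans hr.1) (hr.2.trans_le ht)
      have m1 : c ≤ lvr 1 l r := lvr_mono h.adm hr.1
      have m2 : lvr 1 l r ≤ lvr 1 l t := lvr_mono h.adm hr.2.le
      have a2 := Bm_nonneg h.adm r
      have a3 := mul_le_one₀ (lvr_le_one h.adm r) (A4_nonneg h.adm r) (A4_le_one h.adm r)
      have a4 : 0 ≤ (lvr 1 l r - c) * (3 * Bm l r - 3 * lvr 1 l r * A4 l r + 3) :=
        mul_nonneg (by linarith) (by linarith)
      nlinarith)
  have a5 : D * Am l t ≤ D := mul_le_of_le_one_right (by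
    rw [hD]; linarith [lvr_mono h.adm hst]) (Am_le_one h.adm t)
  unfold Gd
  rw [← hc, show lvr 1 l t = c + D by rw [hD]; ring]
  nlinarith

/-- **sharp increments of `G'`**: `dG' ≥ κ dt - 2 dζ` -/
theorem Gd_mono (h : AP l) (hT : TT l ≤ T) {s t : ℝ} (h0 : 0 ≤ s) (hst : s ≤ t) (ht : t ≤ TT l) :
    kc T * (t - s) - 2 * (lvr 1 l t - lvr 1 l s) ≤ Gd l t - Gd l s := by
  have key : ∀ n : ℕ, ∀ δ : ℝ, 0 ≤ δ → s + n * δ ≤ TT l →
      kc T * (n * δ) - (6 * δ + 2) * (lvr 1 l (s + n * δ) - lvr 1 l s) ≤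
        Gd l (s + n * δ) - Gd l s := by
    intro n δ hδ
    induction n with
    | zero => intro _; simp
    | succ n ih =>
      intro hn
      push_cast at hn ⊢
      have n0 : 0 ≤ (n : ℝ) * δ := by positivity
      have a1 := ih (by nlinarith)
      have a2 := Gd_crude h hT (s := s + n * δ) (t := s + (n + 1) * δ) (by linarith)
        (by nlinarith) hn
      nlinarith
  have lim : Tendsto (fun n : ℕ => kc T * (t - s) -
      (6 * ((t - s) / ((n : ℝ) + 1)) + 2) * (lvr 1 l t - lvr 1 l s)) atTop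
      (𝓝 (kc T * (t - s) - (6 * 0 + 2) * (lvr 1 l t - lvr 1 l s))) := by
    refine tendsto_const_nhds.sub ((((Tendsto.const_mul 6 ?_).add_const 2)).mul_const _)
    exact tendsto_const_nhds.div_atTop (tendsto_natCast_atTop_atTop.atTop_add tendsto_const_nhds)
  rw [mul_zero, zero_add] at lim
  refine le_of_tendsto' lim fun n => ?_
  have e : ((n + 1 : ℕ) : ℝ) * ((t - s) / ((n : ℝ) + 1)) = t - s := by
    push_cast
    field_simp
  have := key (n + 1) ((t - s) / ((n : ℝ) + 1)) (div_nonneg (by linarith) (by positivity))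
    (by rw [e]; linarith)
  rwa [e, add_sub_cancel] at this

theorem dquad (p q u r : ℝ) :
    HasDerivAt (fun r => p * (r - u) + q / 2 * (r - u) ^ 2) (p + q * (r - u)) r := by
  have := (((hasDerivAt_id' r).sub_const u).const_mul p).add
    ((((hasDerivAt_id' r).sub_const u).pow 2).const_mul (q / 2))
  exact this.congr_deriv (by norm_num; ring)

/-- growth of `G` to the right of `u` -/
theorem Gp_right (h : AP l) (hT : TT l ≤ T) {u t Z : ℝ} (h0 : 0 ≤ u) (hut : u ≤ t) (ht : t ≤ TT l)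
    (hZ : ∀ r ∈ Ico u t, lvr 1 l r ≤ Z) :
    (Gd l u - 2 * (Z - lvr 1 l u)) * (t - u) + kc T / 2 * (t - u) ^ 2 ≤ Gp l t - Gp l u := by
  have := le_of_rder (f := fun r => ((Gd l u - 2 * (Z - lvr 1 l u)) * (r - u) +
      kc T / 2 * (r - u) ^ 2) - Gp l r) hut
    ((by fun_prop : ContinuousOn (fun r => (Gd l u - 2 * (Z - lvr 1 l u)) * (r - u) +
      kc T / 2 * (r - u) ^ 2) _).sub ((Gp_cont h).mono (Icc_subset_Icc h0 ht)))
    (fun r hr => (dquad _ _ u r).hasDerivWithinAt.sub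
      (Gp_rder h (h0.trans hr.1) (hr.2.trans_le ht)))
    (fun r hr => by
      have a := Gd_mono h hT h0 hr.1 (hr.2.le.trans ht)
      have b := hZ r hr
      unfold Gd at a ⊢
      linarith)
  simp only [sub_self] at this
  linarith

/-- growth of `G` to the left of `u` -/
theorem Gp_left (h : AP l) (hT : TT l ≤ T) {s u : ℝ} (h0 : 0 ≤ s) (hsu : s ≤ u) (hu : u ≤ TT l) :
    Gp l u - Gp l s ≤
      (Gd l u + 2 * (lvr 1 l u - lvr 1 l s)) * (u - s) - kc T / 2 * (u - s) ^ 2 := by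
  have := le_of_rder (f := fun r => Gp l r - ((Gd l u + 2 * (lvr 1 l u - lvr 1 l s)) * (r - u) +
      kc T / 2 * (r - u) ^ 2)) hsu
    (((Gp_cont h).mono (Icc_subset_Icc h0 hu)).sub (by fun_prop))
    (fun r hr => (Gp_rder h (h0.trans hr.1) (hr.2.trans_le hu)).sub
      (dquad _ _ u r).hasDerivWithinAt)
    (fun r hr => by
      have a := Gd_mono h hT (h0.trans hr.1) hr.2.le hu
      have b : lvr 1 l s ≤ lvr 1 l r := lvr_mono h.adm hr.1
      unfold Gd at a ⊢
      linarith)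
  simp only [sub_self] at this
  nlinarith

/-- **strict convexity of `G`** on `[s,t]` up to the label move `D` -/
theorem conv (h : AP l) (hT : TT l ≤ T) {s t u D : ℝ} (h0 : 0 ≤ s) (ht : t ≤ TT l)
    (hD : ∀ r ∈ Ico s t, lvr 1 l r ≤ lvr 1 l s + D) (hu : u ∈ Icc s t) :
    (t - s) * Gp l u ≤ (t - u) * Gp l s + (u - s) * Gp l t -
      (kc T / 2 * (t - s) - 2 * D) * ((u - s) * (t - u)) := by
  have a := Gp_right h hT (h0.trans hu.1) hu.2 ht (Z := lvr 1 l s + D)
    fun r hr => hD r ⟨hu.1.trans hr.1, hr.2⟩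
  have b := Gp_left h hT h0 hu.1 (hu.2.trans ht)
  have a1 := mul_le_mul_of_nonneg_left a (sub_nonneg.2 hu.1)
  have b1 := mul_le_mul_of_nonneg_left b (sub_nonneg.2 hu.2)
  nlinarith

/-- **equal-area rule** -/
theorem area (h : AP l) (hT : TT l ≤ T) {s t D : ℝ} (h0 : 0 ≤ s) (hst : s ≤ t) (ht : t ≤ TT l)
    (hD : ∀ r ∈ Ico s t, lvr 1 l r ≤ lvr 1 l s + D) :
    Gam l t - Gam l s ≤ (t - s) * (Gp l s + Gp l t) / 2 - kc T / 12 * (t - s) ^ 3 +
      D / 3 * (t - s) ^ 2 := by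
  rcases hst.eq_or_lt with rfl | hlt
  · simp
  set L := t - s with hL
  set w := kc T / 2 * L - 2 * D with hw
  have L0 : 0 < L := by rw [hL]; linarith
  have dp : ∀ r, HasDerivAt (fun r => (L * (r - s) - (r - s) ^ 2 / 2) * Gp l s +
      (r - s) ^ 2 / 2 * Gp l t - w * (L * (r - s) ^ 2 / 2 - (r - s) ^ 3 / 3))
      ((t - r) * Gp l s + (r - s) * Gp l t - w * ((r - s) * (t - r))) r := fun r => by
    have d := (hasDerivAt_id' r).sub_const s
    have := ((((d.const_mul L).sub ((d.pow 2).div_const 2)).mul_const (Gp l s)).add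
      (((d.pow 2).div_const 2).mul_const (Gp l t))).sub
      (((((d.pow 2).const_mul L).div_const 2).sub ((d.pow 3).div_const 3)).const_mul w)
    refine this.congr_deriv ?_
    have e : t = s + L := by rw [hL]; ring
    rw [e]
    push_cast
    ring
  have := le_of_rder (f := fun r => L * Gam l r - ((L * (r - s) - (r - s) ^ 2 / 2) * Gp l s +
      (r - s) ^ 2 / 2 * Gp l t - w * (L * (r - s) ^ 2 / 2 - (r - s) ^ 3 / 3))) hst
    ((continuousOn_const.mul ((Gam_cont h).mono (Icc_subset_Icc h0 ht))).sub (by fun_prop))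
    (fun r hr => ((Gam_rder h (h0.trans hr.1) (hr.2.trans_le ht)).const_mul L).sub
      (dp r).hasDerivWithinAt)
    (fun r hr => by
      have := conv h hT h0 ht hD ⟨hr.1, hr.2.le⟩
      rw [← hL, ← hw] at this
      linarith)
  simp only [sub_self, ← hL] at this
  refine le_of_mul_le_mul_left ?_ L0
  rw [hw] at this
  nlinarith



/-- increments of `ρ = b Γ - σ` from an upper bound on `b G` -/
theorem rho_le (h : AP l) {b s t g : ℝ} (h0 : 0 ≤ s) (hst : s ≤ t) (ht : t ≤ TT l)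
    (hg : ∀ r ∈ Ico s t, b * Gp l r ≤ 1 + g) :
    (b * Gam l t - t) - (b * Gam l s - s) ≤ g * (t - s) := by
  have := le_of_rder (f := fun r => b * Gam l r - (1 + g) * r) hst
    ((continuousOn_const.mul ((Gam_cont h).mono (Icc_subset_Icc h0 ht))).sub (by fun_prop))
    (fun r hr => ((Gam_rder h (h0.trans hr.1) (hr.2.trans_le ht)).const_mul b).sub
      ((hasDerivWithinAt_id r _).const_mul (1 + g)))
    (fun r hr => by linarith [hg r hr])
  linarith

/-- increments of `ρ = b Γ - σ` from a lower bound on `b G` -/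
theorem le_rho (h : AP l) {b s t g : ℝ} (h0 : 0 ≤ s) (hst : s ≤ t) (ht : t ≤ TT l)
    (hg : ∀ r ∈ Ico s t, 1 + g ≤ b * Gp l r) :
    g * (t - s) ≤ (b * Gam l t - t) - (b * Gam l s - s) := by
  have := le_of_rder (f := fun r => (1 + g) * r - b * Gam l r) hst
    ((by fun_prop : ContinuousOn (fun r => (1 + g) * r) _).sub
      (continuousOn_const.mul ((Gam_cont h).mono (Icc_subset_Icc h0 ht))))
    (fun r hr => ((hasDerivWithinAt_id r _).const_mul (1 + g)).sub
      ((Gam_rder h (h0.trans hr.1) (hr.2.trans_le ht)).const_mul b))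
    (fun r hr => by linarith [hg r hr])
  linarith



/-! ### oscillation of `G'` and the residual inside a floor gap -/

/-- `G'` increases at most linearly -/
theorem Gd_up (T : ℝ) : ∃ C : ℝ, 1 ≤ C ∧ ∀ l : List (ℝ × ℝ), AP l → TT l ≤ T → ∀ s t : ℝ, 0 ≤ s →
    s ≤ t → t ≤ TT l → |Gd l t - Gd l s| ≤ C * (t - s) + 2 * (lvr 1 l t - lvr 1 l s) := by
  obtain ⟨C, c1, hC⟩ := Dn_PhiT T 3
  refine ⟨C ^ 2 + 24, by nlinarith, fun l h hT s t h0 hst ht => ?_⟩
  set c := lvr 1 l s with hc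
  have c0 : 0 < c := lvr_pos h.adm s
  have c1' : c ≤ 1 := lvr_le_one h.adm s
  have m : c ≤ lvr 1 l t := lvr_mono h.adm hst
  have := le_of_rder (f := fun r => (Nm l r - 2 * c * Am l r) - (C ^ 2 + 24) * r) hst
    ((((Nm_cont h).sub (continuousOn_const.mul (Am_cont h))).mono (Icc_subset_Icc h0 ht)).sub
      (by fun_prop))
    (fun r hr => ((Nm_rder h (h0.trans hr.1) (hr.2.trans_le ht)).sub
      ((Am_rder h (h0.trans hr.1) (hr.2.trans_le ht)).const_mul (2 * c))).sub
      ((hasDerivWithinAt_id r _).const_mul (C ^ 2 + 24)))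
    (fun r hr => by
      have a1 : N4 l r ≤ C ^ 2 := Et_le bfn_W3 fun y => by
        have := pow_le_pow_left₀ (abs_nonneg _) (hC l h.adm hT r (h0.trans hr.1) 3 le_rfl y) 2
        rwa [sq_abs] at this
      have a2 := mul_nonneg (lvr_pos h.adm r).le (Bm_nonneg h.adm r)
      have a3 := (abs_le.1 (Am_der_le h.adm r)).1
      nlinarith)
  have a1 := Gd_mono h hT h0 hst ht
  have a2 := mul_nonneg (kc_pos T).le (sub_nonneg.2 hst)
  have a3 := mul_nonneg (sub_nonneg.2 m) (Am_nonneg h.adm t)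
  have a4 := mul_nonneg (by positivity : 0 ≤ C ^ 2 + 24) (sub_nonneg.2 hst)
  rw [abs_le]
  constructor
  · linarith
  · unfold Gd
    rw [← hc]
    nlinarith


end

end Crest.Agent.T156.L0
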