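import Crest.Agent.T156.RigI_63
import Crest.Agent.T156.HmC_32
import Crest.Agent.T156.L0B_49

/-!
# Row 156: rigidity from good times (helper63)

`|ν|` is bounded from the difference form of the cavity equation and almost nonnegative mass at a
`Γ`-dense set of good times; list instance, and the relation `ν - ν₀ = 2 b A u + O(H⁻¹)`.
-/

set_option autoImplicit false

namespace Crest.Agent.T156.Rig

open Set Real MeasureTheory Filter Topology
open Crest.Agent.R164.GC Crest.Agent.R339.B Crest.Agent.R339.Var Crest.Agent.T157.Pf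
open Crest.Agent.T156.Pp Crest.Agent.T156.Pp.Ode3

noncomputable section

/-- good times are `Γ`-dense in `[a, c]` -/
structure Net {ι : Type} (g : ι → ℝ) (Gn : ι → Prop) (a c Γ : ℝ) : Prop where
  up : ∀ t ∈ Icc a c, ∃ i, Gn i ∧ t ≤ g i ∧ g i ≤ t + Γ ∧ g i ≤ c
  dn : ∀ t ∈ Icc a c, ∃ i, Gn i ∧ t - Γ ≤ g i ∧ g i ≤ t ∧ a ≤ g i

theorem Net.mono {ι : Type} {g : ι → ℝ} {Gn Gn' : ι → Prop} {a c Γ Γ' : ℝ} (h : Net g Gn a c Γ)
    (hG : ∀ i, Gn i → Gn' i) (hΓ : Γ ≤ Γ') : Net g Gn' a c Γ' :=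
  ⟨fun t ht => let ⟨i, a1, a2, a3, a4⟩ := h.up t ht; ⟨i, hG i a1, a2, by linarith, a4⟩,
    fun t ht => let ⟨i, a1, a2, a3, a4⟩ := h.dn t ht; ⟨i, hG i a1, by linarith, a3, a4⟩⟩



namespace PC2
variable {S : Finset ℝ} {a c : ℝ} {M μ ν : ℝ → ℝ}

theorem sub_const (h : PC2 S a c M μ ν) (k : ℝ) : PC2 S a c (fun t => M t - k) μ ν :=
  ⟨h.cW.sub continuousOn_const, h.cω, fun t ht hs => (h.dW t ht hs).sub_const k, h.dω⟩






end PC2

/-! ### lists -/

variable {l : List (ℝ × ℝ)}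

/-- break points of a list -/
def brk : List (ℝ × ℝ) → Finset ℝ
  | [] => ∅
  | p :: l => insert p.2 ((brk l).image fun s => s + p.2)

theorem lvr_loc : ∀ (l : List (ℝ × ℝ)) {t : ℝ}, t ∉ brk l → ∀ᶠ u in 𝓝 t, lvr 1 l u = lvr 1 l t
  | [], _, _ => Eventually.of_forall fun _ => rfl
  | p :: l, t, h => by
    simp only [brk, Finset.mem_insert, Finset.mem_image, not_or, not_exists, not_and] at h
    rcases lt_or_gt_of_ne h.1 with a | a
    · filter_upwards [Iio_mem_nhds a] with u hu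
      simp only [lvr]
      rw [if_pos (show u < p.2 from hu), if_pos a]
    · have b := lvr_loc l (t := t - p.2) fun hm => h.2 _ hm (by ring)
      have c : Tendsto (fun u => u - p.2) (𝓝 t) (𝓝 (t - p.2)) :=
        (continuous_id.sub continuous_const).tendsto t
      filter_upwards [Ioi_mem_nhds a, c.eventually b] with u hu hv
      simp only [lvr]
      rw [if_neg (not_lt.2 (le_of_lt hu)), if_neg (not_lt.2 a.le), hv]

/-- `M = t - b Γ` is piecewise `C²` on any part of `[0, T]` -/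
theorem pc2_list (h : AP l) (b : ℝ) {S : Finset ℝ} (hS : brk l ⊆ S) {a c : ℝ} (ha : 0 ≤ a)
    (hc : c ≤ TT l) : PC2 S a c (Mf b l) (muf b l) (nuf b l) := by
  have hs : Icc a c ⊆ Icc 0 (TT l) := Icc_subset_Icc ha hc
  refine ⟨continuousOn_id.sub (continuousOn_const.mul ((Gam_cont h).mono hs)),
    continuousOn_const.sub (continuousOn_const.mul ((Gp_cont h).mono hs)),
    fun t ht _ => ?_, fun t ht hS' => ?_⟩
  · have := der_of_right ((Gam_cont h).mono hs) ((Gp_cont h).mono hs)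
      (fun u hu => Gam_rder h (ha.trans hu.1.le) (hu.2.trans_le hc)) ht
    exact (hasDerivAt_id' t).fun_sub (this.const_mul b)
  · obtain ⟨p, q, h1, h2⟩ := mem_nhds_iff_exists_Ioo_subset.1 (lvr_loc l fun hm => hS' (hS hm))
    have s2 : Icc (max p a) (min q c) ⊆ Icc 0 (TT l) :=
      (Icc_subset_Icc (le_max_right _ _) (min_le_right _ _)).trans hs
    have := der_of_right (f' := fun u => Nm l u - 2 * lvr 1 l t * Am l u)
      ((Gp_cont h).mono s2) (((Nm_cont h).mono s2).sub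
        (continuousOn_const.mul ((Am_cont h).mono s2)))
      (fun u hu => by
        have e : lvr 1 l u = lvr 1 l t :=
          h2 ⟨(le_max_left _ _).trans_lt hu.1, hu.2.trans_le (min_le_left _ _)⟩
        rw [← e]
        exact Gp_rder h (s2 (Ioo_subset_Icc_self hu)).1
          (hu.2.trans_le ((min_le_right _ _).trans hc)))
      (show t ∈ Ioo (max p a) (min q c) from ⟨max_lt h1.1 ht.1, lt_min h1.2 ht.2⟩)
    refine ((this.const_mul b).const_sub 1).congr_deriv ?_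
    unfold nuf
    ring

/-- the difference of two profiles -/
theorem pc2_pair {lb lh : List (ℝ × ℝ)} (hb : AP lb) (hh : AP lh) (b k : ℝ) {a c : ℝ} (ha : 0 ≤ a)
    (h1 : c ≤ TT lb) (h2 : c ≤ TT lh) :
    PC2 (brk lb ∪ brk lh) a c (fun t => Mf b lb t - Mf b lh t - k)
      (fun t => muf b lb t - muf b lh t) fun t => nuf b lb t - nuf b lh t :=
  ((pc2_list hb b Finset.subset_union_left ha h1).sub
    (pc2_list hh b Finset.subset_union_right ha h2)).sub_const k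

theorem nuf_eq (b : ℝ) (l : List (ℝ × ℝ)) (t : ℝ) : nuf b l t = -(b * L0.Gd l t) := by
  unfold nuf L0.Gd; ring



theorem A4_le_Am (h : Adm 1 l) (t : ℝ) : A4 l t ≤ Am l t :=
  Et_mono bfn_Q4 bfn_A3 fun y => by
    have a := D1_pos h t y
    have b := D1_le h t y
    unfold Q4 A3
    nlinarith [pow_pos a 3]

theorem Am_ge {T : ℝ} (h : AP l) (hT : TT l ≤ T) {t : ℝ} (ht : t ∈ Icc 0 (TT l)) :
    exp (-(4 * T)) ≤ Am l t := (L0.A4_ge h hT ht).trans (A4_le_Am h.adm t)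

/-- the `H⁻¹` size `|J t| + ∫ |J|` -/
def Hp (lh lb : List (ℝ × ℝ)) (t : ℝ) : ℝ :=
  |Sc48.Jf lh lb (TT lh) t| + ∫ s in (0 : ℝ)..TT lh, |Sc48.Jf lh lb (TT lh) s|

/-- **(rel)**: `ν - ν₀ = 2 b A₀ u + O(b p₀)`, `μ - μ₀`, `M - M₀ = O(b p₀)`, at every time -/
theorem rel (T : ℝ) : ∃ C : ℝ, 1 ≤ C ∧ ∀ lb lh : List (ℝ × ℝ), AP lb → AP lh → TT lb = TT lh →
    TT lh ≤ T → ∀ b, 0 ≤ b → ∀ t ∈ Icc 0 (TT lh),
      (b * exp (-(4 * T)) ≤ b * Am lh t ∧ b * Am lh t ≤ b) ∧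
      |nuf b lb t - nuf b lh t - 2 * (b * Am lh t) * (lvr 1 lb t - lvr 1 lh t)| ≤
        C * b * Hp lh lb t ∧
      |muf b lb t - muf b lh t| ≤ C * b * Hp lh lb t ∧
      |Mf b lb t - Mf b lh t| ≤ C * b * Hp lh lb t := by
  obtain ⟨C, c1, H⟩ := Hm.fun_H T
  refine ⟨3 * C, by linarith, fun lb lh hb hh e hT b b0 t ht => ?_⟩
  obtain ⟨⟨a0, a1, a2, a3, -⟩, -⟩ := H lh lb hh.adm hb.adm e hT t ht (Hp lh lb t) rfl
  rw [L0.Gam_eq, L0.Gam_eq] at a0
  rw [L0.GG_eq, L0.GG_eq] at a1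
  rw [L0.AA_eq, L0.AA_eq] at a2
  rw [L0.NN_eq, L0.NN_eq] at a3
  have n : 0 ≤ b * (C * Hp lh lb t) := mul_nonneg b0 ((abs_nonneg _).trans a0)
  have z0 := lvr_pos hb.adm t
  have z1 := lvr_le_one hb.adm t
  have k : ∀ x y : ℝ, |x - y| ≤ C * Hp lh lb t → ∀ k : ℝ, |k - b * x - (k - b * y)| ≤
      3 * C * b * Hp lh lb t := fun x y hxy k => by
    rw [show k - b * x - (k - b * y) = -(b * (x - y)) by ring, abs_neg, abs_mul, abs_of_nonneg b0]
    nlinarith [mul_le_mul_of_nonneg_left hxy b0]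
  refine ⟨⟨mul_le_mul_of_nonneg_left (Am_ge hh hT ht) b0,
    mul_le_of_le_one_right b0 (Am_le_one hh.adm t)⟩, ?_, k _ _ a1 1, k _ _ a0 t⟩
  have a4 : |lvr 1 lb t * (Am lb t - Am lh t)| ≤ C * Hp lh lb t := by
    rw [abs_mul, abs_of_pos z0]
    nlinarith [abs_nonneg (Am lb t - Am lh t)]
  have a5 : |2 * (lvr 1 lb t * (Am lb t - Am lh t)) - (Nm lb t - Nm lh t)| ≤
      3 * (C * Hp lh lb t) :=
    abs_le.2 ⟨by linarith [(abs_le.1 a4).1, (abs_le.1 a3).2],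
      by linarith [(abs_le.1 a4).2, (abs_le.1 a3).1]⟩
  unfold nuf
  rw [show b * (2 * lvr 1 lb t * Am lb t - Nm lb t) - b * (2 * lvr 1 lh t * Am lh t - Nm lh t) -
      2 * (b * Am lh t) * (lvr 1 lb t - lvr 1 lh t) =
      b * (2 * (lvr 1 lb t * (Am lb t - Am lh t)) - (Nm lb t - Nm lh t)) by ring, abs_mul,
    abs_of_nonneg b0]
  nlinarith [mul_le_mul_of_nonneg_left a5 b0]

/-- existential form of (rel) -/
theorem rel' (T : ℝ) : ∃ C : ℝ, 1 ≤ C ∧ ∀ lb lh : List (ℝ × ℝ), AP lb → AP lh → TT lb = TT lh →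
    TT lh ≤ T → ∀ b, 0 ≤ b → ∀ t ∈ Icc 0 (TT lh), ∃ be ∈ Icc (b * exp (-(4 * T))) b,
      |nuf b lb t - nuf b lh t - 2 * be * (lvr 1 lb t - lvr 1 lh t)| ≤ C * b * Hp lh lb t := by
  obtain ⟨C, c1, H⟩ := rel T
  exact ⟨C, c1, fun lb lh hb hh e hT b b0 t ht =>
    ⟨_, (H lb lh hb hh e hT b b0 t ht).1, (H lb lh hb hh e hT b b0 t ht).2.1⟩⟩


end

end Crest.Agent.T156.Rig
private theorem rz_610b7d5e2e : type_of% @_root_.Crest.Agent.T156.Rig.brk.eq_def := @_root_.Crest.Agent.T156.Rig.brk.eq_def -- L175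
private theorem rz_6dfa9daea6 : type_of% @_root_.Crest.Agent.T156.Rig.brk.eq_1 := @_root_.Crest.Agent.T156.Rig.brk.eq_1 -- L175
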