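import Crest.Agent.T156.Reg_48
import Crest.Agent.T156.RigD_63
import Crest.Agent.T156.ClZb_9
import Crest.Agent.T156.ClReg_29

/-!
Row 156 (helper25): the plateau without a Plefka bound.  Above the corner `Γ` is concave, so one
use of the floor bounds `b Γ'` at all later times.
-/

set_option autoImplicit false

namespace Crest.Agent.T156.Pr.Cv25

open MeasureTheory Set
open Crest.Agent.R164.GC Crest.Agent.R339.B Crest.Agent.R339.Var Crest.Agent.T157.Pf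
open Crest.Agent.T156.Pr.Reg48

noncomputable section

variable {l : List (ℝ × ℝ)} {p p' s t : ℝ}

/-- `G'` of `lb` at the time `t` against `G'` of `lh` at the time `t0` -/
theorem Gd_two (T0 : ℝ) : ∃ C : ℝ, 1 ≤ C ∧ ∀ lb lh, Ok lb → Ok lh → TT lb = TT lh → TT lh ≤ T0 →
    ∀ t ∈ Icc 0 (TT lh), ∀ t0 ∈ Icc 0 (TT lh), ∀ j, Rig.Hp lh lb t ≤ j →
      |Gd lb t - Gd lh t0 + 2 * AA lh t0 * (lvr 1 lb t - lvr 1 lh t0)| ≤ C * (j + |t - t0|) ∧
      (lvr 1 lh t0 ≤ lvr 1 lb t → Gd lb t ≤ Gd lh t0 -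
        2 * Real.exp (-(4 * T0)) * (lvr 1 lb t - lvr 1 lh t0) + C * (j + |t - t0|)) := by
  obtain ⟨C, c1, hC⟩ := Hm.fun_H T0
  obtain ⟨K, k1, hK⟩ := Atom48.NN_lip T0
  refine ⟨3 * C + K + 24, by linarith, fun lb lh hb hh e hT t ht t0 ht0 j hj => ?_⟩
  obtain ⟨⟨-, -, a, n, -⟩, -⟩ := hC lh lb hh.1 hb.1 e hT t ht (Rig.Hp lh lb t) rfl
  have m := mul_le_mul_of_nonneg_left hj (by linarith : 0 ≤ C)
  have a' := a.trans m
  have n' := n.trans m
  have z : 0 ≤ C * j := (abs_nonneg _).trans a'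
  have j0 : 0 ≤ j := by
    by_contra h
    nlinarith [not_le.1 h]
  have n2 : |NN lh t - NN lh t0| ≤ K * |t - t0| := by
    rcases le_total t0 t with a | a
    · rw [abs_of_nonneg (sub_nonneg.2 a)]
      exact hK lh hh hT t0 t ht0.1 a ht.2
    · rw [abs_sub_comm, abs_sub_comm t, abs_of_nonneg (sub_nonneg.2 a)]
      exact hK lh hh hT t t0 ht.1 a ht0.2
  have a2 : |AA lh t - AA lh t0| ≤ 12 * |t - t0| := Pp.Ode3.Am_lip (Spl27.ap_of_ok hh) ht0 ht
  have z1 := Pp.Ode3.lvr_pos hb.1 t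
  have z2 := Pp.Ode3.lvr_le_one hb.1 t
  have d0 := abs_nonneg (t - t0)
  have a3 : |AA lb t - AA lh t0| ≤ C * j + 12 * |t - t0| :=
    abs_le.2 ⟨by linarith [(abs_le.1 a').1, (abs_le.1 a2).1],
      by linarith [(abs_le.1 a').2, (abs_le.1 a2).2]⟩
  have a4 : |lvr 1 lb t * (AA lb t - AA lh t0)| ≤ C * j + 12 * |t - t0| := by
    rw [abs_mul, abs_of_pos z1]
    exact (mul_le_of_le_one_left (abs_nonneg _) z2).trans a3
  have key : |Gd lb t - Gd lh t0 + 2 * AA lh t0 * (lvr 1 lb t - lvr 1 lh t0)| ≤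
      (3 * C + K + 24) * (j + |t - t0|) := by
    have e1 : Gd lb t - Gd lh t0 + 2 * AA lh t0 * (lvr 1 lb t - lvr 1 lh t0) =
        (NN lb t - NN lh t) + (NN lh t - NN lh t0) - 2 * (lvr 1 lb t * (AA lb t - AA lh t0)) := by
      unfold Gd; ring
    have e2 : 3 * (C * j) + (K + 24) * |t - t0| ≤ (3 * C + K + 24) * (j + |t - t0|) := by
      nlinarith [mul_nonneg (by linarith : 0 ≤ K + 24) j0, mul_nonneg (by linarith : 0 ≤ C) d0]
    rw [e1]
    refine le_trans (abs_le.2 ⟨?_, ?_⟩) e2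
    · linarith [(abs_le.1 n').1, (abs_le.1 n2).1, (abs_le.1 a4).2]
    · linarith [(abs_le.1 n').2, (abs_le.1 n2).2, (abs_le.1 a4).1]
  refine ⟨key, fun hz => ?_⟩
  have g : Real.exp (-(4 * T0)) ≤ AA lh t0 := Rig.Am_ge (Spl27.ap_of_ok hh) hT ht0
  have := mul_le_mul_of_nonneg_right g (sub_nonneg.2 hz)
  linarith [(abs_le.1 key).2]







/-- **the floor point**: no concavity is needed for one time between the two good times -/
theorem pt_of_inc (h : Ok l) {k : ℝ} (hp : 0 ≤ p') (hpp : p' < p) (hT : p ≤ TT l)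
    (hi : Gam l p - Gam l p' ≤ k * (p - p')) : ∃ t0 ∈ Icc p' p, GG l t0 ≤ k := by
  obtain ⟨t0, h0, hm⟩ := isCompact_Icc.exists_isMinOn (nonempty_Icc.2 hpp.le)
    ((ode h).2.1.mono (Icc_subset_Icc hp hT))
  have a := Gam_inc_lo h hp hpp.le hT (K := GG l t0) fun r hr => hm (Ico_subset_Icc_self hr)
  exact ⟨t0, h0, le_of_mul_le_mul_right (by linarith) (sub_pos.2 hpp)⟩

theorem floor_pt (h : Ok l) {b lam : ℝ} (hb : 0 < b) (h0 : 0 ≤ p') (hpp : p' < p) (hT : p ≤ TT l)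
    (hE : -(lam * (p - p')) ≤ p - b * Gam l p - (p' - b * Gam l p')) :
    ∃ t0 ∈ Icc p' p, b * GG l t0 ≤ 1 + lam := by
  obtain ⟨t0, m, a⟩ := pt_of_inc h (k := (1 + lam) / b) h0 hpp hT (by
    rw [div_mul_eq_mul_div, le_div_iff₀ hb]; linarith)
  exact ⟨t0, m, by rw [le_div_iff₀ hb] at a; linarith⟩

end

end Crest.Agent.T156.Pr.Cv25

namespace Crest.Agent.T156.Alt.Mp9.At

open Set
open Crest.Agent.R164.GC Crest.Agent.R339.B Crest.Agent.R339.Var Crest.Agent.T157.Pf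

variable {S : Sc} {M : Md} {m : ℕ} {a T : ℝ}

theorem b_pos (A : At S M m a T) : 0 < M.b :=
  lt_of_lt_of_le one_pos (d_mem A.cl (le_refl M.N)).1

theorem sb_lt' (A : At S M m a T) {i k : ℕ} (h1 : S.jl ≤ i) (h : i < k) (h2 : k ≤ S.Jp) :
    sb M m a (i + 1) < sb M m a (k + 1) :=
  (A.sb_lt h1 (h.trans_le h2)).trans_le (A.sb_mono (by omega))

/-- rise of `M` along the mean profile between two nodes -/
theorem Mf_rise (A : At S M m a T) {i k : ℕ} {er la : ℝ} (h1 : S.jl < i) (h : i ≤ k)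
    (h2 : k ≤ S.Jp) (hE : res M S m a T k - res M S m a T i ≤
      er + la * (sb M m a (k + 1) - sb M m a (i + 1))) (hf : M.b * er ≤ M.H k - M.H i) :
    -((M.b * la + 1 / m) * (sb M m a (k + 1) - sb M m a (i + 1))) ≤
      Rig.Mf M.b (lb M S m a T) (sb M m a (k + 1)) -
        Rig.Mf M.b (lb M S m a T) (sb M m a (i + 1)) := by
  rw [A.Mf_b (h1.trans_le h) h2, A.Mf_b h1 (h.trans h2)]
  have b0 := A.b_pos
  have c := mul_le_mul_of_nonneg_left hE b0.le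
  have m0 : (0 : ℝ) < m := by exact_mod_cast A.m_pos
  have H0 := A.cl.leg.Hm h
  have e : sb M m a (k + 1) - sb M m a (i + 1) =
      kp m * M.b * (M.rb m a k - M.rb m a i) + (M.H k - M.H i) := by
    simp only [sb, d_top A.cl h1 (A.jp_le (h.trans h2)), d_top A.cl (h1.trans_le h) (A.jp_le h2)]
    ring
  have e2 : M.b * M.rb m a k / (m + 1) - M.b * M.rb m a i / (m + 1) =
      1 / m * (kp m * M.b * (M.rb m a k - M.rb m a i)) := by
    rw [kp]; field_simp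
  have e3 : 1 / (m : ℝ) * (kp m * M.b * (M.rb m a k - M.rb m a i)) ≤
      1 / m * (sb M m a (k + 1) - sb M m a (i + 1)) :=
    mul_le_mul_of_nonneg_left (by linarith) (by positivity)
  linarith

/-- **the floor point on the class** -/
theorem floor_pt (A : At S M m a T) {i k : ℕ} {er la : ℝ} (h1 : S.jl < i) (h : i < k)
    (h2 : k ≤ S.Jp) (hE : res M S m a T k - res M S m a T i ≤
      er + la * (sb M m a (k + 1) - sb M m a (i + 1)))
    (hf : M.b * er ≤ ((k : ℝ) - i) * (S.ms (M.s i) * S.v / (S.C * S.F))) :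
    ∃ t0 ∈ Icc (sb M m a (i + 1)) (sb M m a (k + 1)),
      M.b * Pr.GG (lb M S m a T) t0 ≤ 1 + (M.b * la + 1 / m) ∧
        M.z i ≤ lvr 1 (lb M S m a T) t0 ∧ lvr 1 (lb M S m a T) t0 ≤ M.z k := by
  have r := A.Mf_rise h1 h.le h2 hE (hf.trans (A.cl.H_tel h1.le h.le h2))
  obtain ⟨t0, m0, a0⟩ := Pr.Cv25.floor_pt A.okb.1 A.b_pos (A.sb_mem (h.le.trans h2)).1
    (A.sb_lt' h1.le h h2) (by rw [A.okb.2]; exact (A.sb_mem h2).2) r
  refine ⟨t0, m0, a0, ?_, ?_⟩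
  · rw [← A.lvb_node h1.le (h.le.trans h2)]
    exact Pp.Ode3.lvr_mono A.okb.1.1 m0.1
  · rw [← A.lvb_node (h1.le.trans h.le) h2]
    exact Pp.Ode3.lvr_mono A.okb.1.1 m0.2

end Crest.Agent.T156.Alt.Mp9.At
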