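import Crest.Agent.T156.Mid_8
import Crest.Agent.T156.ClNo_9
import Crest.Agent.T156.Cvx_25

/-!
# Row 156, text (L) (helper8): the middle zone for a member of the class
-/

set_option autoImplicit false

noncomputable section

namespace Crest.Agent.T156.Alt.Mp9.At

open MeasureTheory Set Real
open Crest.Agent.R164.GC Crest.Agent.R339.B Crest.Agent.R339.Var Crest.Agent.T157.Pf
open Crest.Agent.T156.Spl27 Crest.Agent.T156.Zb9 Crest.Agent.T156.Pr.Mid8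
open Crest.Agent.T156.Gap27 (resN)

variable {S : Sc} {M : Md} {m : ℕ} {a T : ℝ}

theorem J_pred (A : At S M m a T) : S.j0 ≤ S.J - 1 ∧ S.J - 1 < S.J ∧ S.J - 1 + 1 = S.J := by
  have := A.cl.i1; have := A.cl.i2; omega

theorem s_pred (A : At S M m a T) :
    M.s (S.J - 1) < M.s S.J ∧ M.s S.J - M.s (S.J - 1) ≤ S.C * S.v := by
  obtain ⟨-, h1, h2⟩ := A.J_pred
  have a1 := s_lt A.cl h1
  have a2 := (A.cl.ss _ h1).2
  rw [h2] at a1 a2
  exact ⟨a1, a2⟩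

theorem zh_pred (A : At S M m a T) : lvr 1 (lh M T) (M.s (S.J - 1)) = M.z (S.J - 1) :=
  A.lvh_node A.J_pred.1 A.J_pred.2.1

/-- below the atom the reference stays below `x*` -/
theorem zh_le_8 (A : At S M m a T) {t : ℝ} (h : t < M.s S.J) : lvr 1 (lh M T) t ≤ M.z (S.J - 1) := by
  rcases le_total t (M.s (S.J - 1)) with c | c
  · rw [← A.zh_pred]; exact Sc48.lvr_mono A.okh.1.1 c
  · rw [A.lvh' ((s_nn A.cl _).trans c)]
    exact (A.cl.lv _ A.J_pred.1 t c (by rwa [A.J_pred.2.2])).le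

theorem below (A : At S M m a T) {t : ℝ} (h0 : 0 ≤ t) (h : t < M.s S.Jp) :
    M.z (S.J - 1) - lvr 1 (lh M T) t ≤ S.C * (M.s S.Jp - t) + S.C * S.v := by
  have c0 := A.c_pos
  have v0 := v_pos A.cl
  rw [← A.zh_pred]
  rcases le_total t (M.s (S.J - 1)) with c | c
  · have := ((A.sl A.s_pred.1) t _ h0 c le_rfl).2
    have := mul_le_mul_of_nonneg_left (show M.s (S.J - 1) - t ≤ M.s S.Jp - t by
      linarith [A.s_pred.1, A.cl.sm A.cl.i3]) c0.le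
    linarith
  · have := Sc48.lvr_mono A.okh.1.1 c
    have : 0 ≤ S.C * (M.s S.Jp - t) + S.C * S.v := by
      have : 0 ≤ M.s S.Jp - t := by linarith
      positivity
    linarith


theorem e_lo (A : At S M m a T) {t0 e r : ℝ} (h0 : 0 ≤ t0) (h1 : t0 ≤ M.s S.Jp)
    (he : e ≤ S.ms t0 / S.C) (he1 : e ≤ 1) (hr : t0 ≤ r) (hT : r ≤ T) :
    e ≤ 1 - M.b * Pr.GG (lh M T) r := by
  have key : ∀ r, t0 ≤ r → r ≤ M.s S.Jp → e ≤ M.e r := fun r a1 a2 =>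
    he.trans ((div_le_div_of_nonneg_right (A.cl.msm a1) A.c_pos.le).trans
      (A.cl.crit r ⟨h0.trans a1, a2⟩).1)
  rcases le_total r (M.s S.Jp) with c | c
  · rw [A.e_h ⟨h0.trans hr, c⟩]; exact key r hr c
  · have a1 := A.e_top c hT
    have a2 := key _ h1 le_rfl
    have a3 : exp (-((r - M.s S.Jp) / 2)) ≤ 1 := exp_le_one_iff.2 (by linarith)
    nlinarith [exp_pos (-((r - M.s S.Jp) / 2))]

theorem e_up (A : At S M m a T) {r : ℝ} (h0 : 0 ≤ r) (h1 : r ≤ M.s S.Jp) :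
    1 - M.b * Pr.GG (lh M T) r ≤ S.C * S.θ := by
  rw [A.e_h ⟨h0, h1⟩]
  exact (A.cl.crit r ⟨h0, h1⟩).2.trans (mul_le_mul_of_nonneg_left (A.cl.ms1 r) A.c_pos.le)

/-- the deficit of the mark at the node `k` -/
theorem deficit (A : At S M m a T) {k : ℕ} (h1 : S.jl < k) (h2 : k ≤ S.Jp) :
    -M.G k ≤ M.s S.Jp - M.b * Pr.Gam (lh M T) (M.s S.Jp) - M.H k ∧
      M.s S.Jp - M.b * Pr.Gam (lh M T) (M.s S.Jp) - M.H k ≤
        S.C * S.θ * (M.s S.Jp - M.s k) - M.G k := by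
  have e := A.Mf_node h1 h2
  obtain ⟨a1, a2⟩ := A.Mf_sl (s_nn A.cl k) le_rfl _ _ le_rfl (A.cl.sm h2) le_rfl
  have d0 : 0 ≤ M.s S.Jp - M.s k := sub_nonneg.mpr (A.cl.sm h2)
  have p1 : 0 ≤ S.ms (M.s k) / S.C * (M.s S.Jp - M.s k) :=
    mul_nonneg (div_pos (A.ms_pos (s_nn A.cl k)) A.c_pos).le d0
  have p2 := mul_le_mul_of_nonneg_right
    (mul_le_mul_of_nonneg_left (A.cl.ms1 (M.s S.Jp)) A.c_pos.le) d0
  have e' : Rig.Mf M.b (lh M T) (M.s S.Jp) = M.s S.Jp - M.b * Pr.Gam (lh M T) (M.s S.Jp) := rfl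
  constructor <;> linarith

theorem R_node (A : At S M m a T) {k : ℕ} (h1 : S.jl < k) (h2 : k ≤ S.Jp) :
    Pr.Gam (lb M S m a T) (sb M m a (k + 1)) - (sb M m a (k + 1) - M.H k) / M.b =
      res M S m a T k + M.rb m a k / (m + 1) := by
  rw [← A.resN_eq h1 h2]
  unfold resN
  rw [sub_div]
  show _ = _ - _ + M.H k / M.b
  ring


/-- **the middle zone between the nodes `v ≤ w`** -/
theorem mid (A : At S M m a T) {v w : ℕ} {γ er g jj D d1 e t0 G0 Gm Gp : ℝ} (hv : S.jl < v)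
    (hvw : v ≤ w) (hw : w ≤ S.Jp) (hJ : sb M m a (v + 1) ≤ M.s S.J)
    (hγ : M.s S.Jp - M.s S.J ≤ γ) (D1 : sb M m a (w + 1) - sb M m a (v + 1) ≤ D)
    (D2 : M.s S.Jp - sb M m a (v + 1) ≤ D) (er0 : 0 ≤ er) (g0 : 0 ≤ g) (d0 : 0 ≤ d1) (e0 : 0 < e)
    (G00 : 0 < G0) (Gm0 : 0 < Gm) (Gp0 : 0 ≤ Gp) (t00 : 0 ≤ t0) (t1 : t0 ≤ sb M m a (v + 1))
    (he : e ≤ S.ms t0 / S.C) (he1 : e ≤ 1)
    (dlo : ∀ t ∈ Ico (sb M m a (v + 1)) (M.s S.J),
      -d1 ≤ lvr 1 (lb M S m a T) t - lvr 1 (lh M T) t)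
    (hj : ∀ t ∈ Icc 0 T, |Sc48.Jf (lh M T) (lb M S m a T) T t| +
      ∫ s in (0 : ℝ)..T, |Sc48.Jf (lh M T) (lb M S m a T) T s| ≤ jj)
    (mu : ∀ t ∈ Icc (sb M m a (v + 1)) (sb M m a (w + 1)), M.b * Pr.GG (lb M S m a T) t ≤ 1 + g)
    (Gv : M.G v ≤ Gp)
    (atM : M.s S.Jp < sb M m a (w + 1) → res M S m a T v - res M S m a T w ≤ er ∧ M.G w ≤ Gp)
    (net : ∀ k, v ≤ k → k < w → sb M m a (k + 1) < M.s S.Jp → ∃ i, v ≤ i ∧ i ≤ k ∧
      res M S m a T i - res M S m a T v ≤ er ∧ S.C * S.θ * (M.s S.Jp - M.s i) - M.G i ≤ Gm ∧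
      (S.C * S.θ * (M.s S.Jp - M.s i) - M.G i) * √(max (M.z k - M.z (S.J - 1)) 0) ≤ G0) :
    Mid (lb M S m a T) (lh M T) T M.b (M.s S.J) (M.s S.Jp) γ (sb M m a (v + 1)) (sb M m a (w + 1))
      (resN (lb M S m a T) M.b (sb M m a) (hb M) (v + 1)) (er + 1 / (m + 1)) g jj D d1 e
      (S.C * S.θ) S.C (S.C * S.v) (M.z (S.J - 1)) G0 Gm Gp (M.H v) (M.H w) := by
  have c0 := A.c_pos
  have v0 := v_pos A.cl
  have θ0 : 0 ≤ S.θ := (A.ms_pos le_rfl).le.trans (A.cl.ms1 0)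
  have hv' := hvw.trans hw
  have s0 : 0 < sb M m a (v + 1) := by
    have a1 := A.sb_lt (k := S.jl) le_rfl (by omega)
    have a2 := A.sb_mono (show S.jl + 2 ≤ v + 1 by omega)
    linarith [(A.sb_mem (k := S.jl) (by omega)).1]
  have sJ : M.s S.J ≤ M.s S.Jp := A.cl.sm A.cl.i3
  have m1 : (0 : ℝ) < m + 1 := by positivity
  have rb1 : ∀ i, v ≤ i → M.rb m a v / (m + 1) ≤ M.rb m a i / (m + 1) ∧
      M.rb m a i / (m + 1) ≤ M.rb m a v / (m + 1) + 1 / (m + 1) := fun i hi =>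
    ⟨div_le_div_of_nonneg_right (rb_mono A.m_pos hi) m1.le, by
      rw [← add_div]
      exact div_le_div_of_nonneg_right
        (by linarith [(rb_mem (M := M) (a := a) A.m_pos v).1, (rb_mem (M := M) (a := a) A.m_pos i).2])
        m1.le⟩
  have p1 : (0 : ℝ) ≤ 1 / (m + 1) := by positivity
  refine ⟨A.okb.1, A.okh.1, A.okb.2, A.okh.2, A.b_pos, s0, hJ, sJ, hγ,
    A.sb_mono (Nat.succ_le_succ hvw), A.t2, (A.sb_mem hw).2, D1, D2,
    ⟨by positivity, g0, d0, e0, by positivity, c0.le, by positivity, G00, Gm0, Gp0⟩,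
    fun t ht => by rw [A.lvh' ((s_nn A.cl _).trans ht), A.cl.lv1 t ht],
    fun t ht => A.below (s0.le.trans ht.1) ht.2,
    le_trans (by positivity) A.cl.atom.1, dlo, hj, mu,
    fun r a1 a2 => A.e_lo t00 (by linarith) he he1 (t1.trans a1) a2.le,
    fun r hr => A.e_up (s0.le.trans hr.1) hr.2.le, ⟨?_, ?_⟩, fun h => ⟨?_, ?_⟩,
    fun t a1 a2 a3 => ?_⟩
  · rw [A.R_node hv hv', A.resN_eq hv hv']; linarith
  · linarith [(A.deficit hv hv').1]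
  · rw [A.R_node (by omega) hw, A.resN_eq hv hv']
    linarith [(atM h).1, (rb1 w hvw).1]
  · linarith [(A.deficit (k := w) (by omega) hw).1, (atM h).2]
  · obtain ⟨k, k1, k2, c⟩ := A.exists_cell hw a1 a3
    have tk := c.2.1 (Nat.succ_pos k)
    obtain ⟨i, i1, i2, i3, i4, i5⟩ := net k k1 k2 (tk.trans_lt a2)
    have df := (A.deficit (k := i) (by omega) (by omega)).2
    refine ⟨sb M m a (i + 1), M.H i, A.sb_mono (Nat.succ_le_succ i1),
      (A.sb_mono (Nat.succ_le_succ i2)).trans tk, ?_, df.trans i4, ?_⟩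
    · rw [A.R_node (by omega) (by omega), A.resN_eq hv hv']
      linarith [(rb1 i i1).2]
    · rw [A.lvb_cell c]
      exact (mul_le_mul_of_nonneg_right df (sqrt_nonneg _)).trans i5

end Crest.Agent.T156.Alt.Mp9.At
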