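import Crest.Agent.T156.TopE_8
import Crest.Agent.T156.Net_27
import Crest.Agent.T156.GapB_27

/-!
Row 156 (helper27): the root zone, and the global energy bound from node data.
-/

set_option autoImplicit false

noncomputable section

namespace Crest.Agent.T156.Cut8

open MeasureTheory Set intervalIntegral
open Crest.Agent.T156.Pr.Reg48 (LB_ite int_ite)

theorem LB.ite_le {T A : ℝ} {f g : ℝ → ℝ} (hf : LB T f) (hg : LB T g) :
    LB T fun t => if t ≤ A then f t else g t :=
  Zb9.LB_ite (p := fun t => t ≤ A) measurableSet_Iic hf hg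

theorem int_ite_le {T A M B : ℝ} {f g : ℝ → ℝ} (hf : LB T f) (hg : LB T g) (hA : 0 ≤ A)
    (h1 : A ≤ M) (h2 : M ≤ B) (hB : B ≤ T) : ∫ t in A..B, (if t ≤ M then f t else g t) =
      (∫ t in A..M, f t) + ∫ t in M..B, g t := by
  rw [int_split (hf.ite_le hg) (b := M) ⟨hA, by linarith⟩ ⟨by linarith, by linarith⟩
    ⟨by linarith, hB⟩]
  congr 1
  · exact integral_congr_Ioo_of_le h1 fun t ht => if_pos ht.2.le
  · exact integral_congr_Ioo_of_le h2 fun t ht => if_neg (not_le.2 ht.1)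

/-- **extension of residual data downwards**: below `A` the slow part is frozen at `r2 A` -/
theorem Res.low {T A B : ℝ} {dz ρ H r1 r2 ω β ξ ξ' : ℝ → ℝ} (R : Res T dz ρ H r1 r2 ω β ξ A B)
    (hB : B ≤ T) (β0 : 0 ≤ β A) (lξ : LB T ξ') (hξ : ∀ t, 0 < t → t ≤ A → 0 ≤ ξ' t)
    (hp : ∀ t, 0 < t → t ≤ A → (ρ t - r2 A) * dz t + β A * |dz t| ≤ ξ' t) :
    Res T dz ρ (fun t => if t ≤ A then 0 else H t)
      (fun t => if t ≤ A then ρ t - r2 A else r1 t) (fun t => if t ≤ A then r2 A else r2 t)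
      (fun t => if t ≤ A then 0 else ω t) (fun t => if t ≤ A then β A else β t)
      (fun t => if t ≤ A then ξ' t else ξ t) 0 B where
  lH := (LB.const 0).ite_le R.lH
  lω := (LB.const 0).ite_le R.lω
  lξ := lξ.ite_le R.lξ
  eq := fun t _ b => by
    split_ifs with e
    · ring
    · exact R.eq t (not_le.1 e) b
  ω_nn := fun t _ b => by
    split_ifs with e
    · exact le_rfl
    · exact R.ω_nn t (not_le.1 e) b
  slow := fun s t a st tb => by
    by_cases es : s ≤ A
    · by_cases et : t ≤ A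
      · rw [if_pos et, if_pos es, if_pos es, if_pos et,
          int_zero st fun r _ hr => if_pos (hr.le.trans et)]
        simp only [sub_self, abs_zero]
        linarith
      · rw [if_neg et, if_pos es, if_pos es, if_neg et, int_ite_le (LB.const 0) R.lω a es
          (not_le.1 et).le (tb.trans hB)]
        simpa using R.slow A t le_rfl (not_le.1 et).le tb
    · have et : ¬t ≤ A := fun h => es (st.trans h)
      rw [if_neg et, if_neg es, if_neg es, if_neg et,
        integral_congr_Ioo_of_le st (g := ω) fun r hr =>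
          if_neg (not_le.2 ((not_le.1 es).trans hr.1))]
      exact R.slow s t (not_le.1 es).le st tb
  H_nn := fun t _ b => by
    split_ifs with e
    · simp
    · exact R.H_nn t (not_le.1 e) b
  ξ_nn := fun t a b => by
    split_ifs with e
    · exact hξ t a e
    · exact R.ξ_nn t (not_le.1 e) b
  pair := fun t a b => by
    split_ifs with e
    · exact hp t a e
    · exact R.pair t (not_le.1 e) b

variable {T : ℝ} {P : Type} {c C : ℝ} {ok : P → Prop} {z Γ G : P → ℝ → ℝ} {pb ph : P}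

/-- **the root zone**: `Γ` starts at `0` and `G` is `H⁻¹`-Lipschitz -/
theorem Fr.rho_root (F : Fr T c C ok z Γ G) (hb : ok pb) (hh : ok ph) {l D t : ℝ} (t0 : 0 ≤ t)
    (tl : t ≤ l) (lT : l ≤ T) (hD : ∀ s, 0 < s → s < l → |z pb s - z ph s| ≤ D) (D0 : 0 ≤ D) :
    |Γ pb t - Γ ph t| ≤ C * l ^ 2 * D + C * l * (|Jf T (z ph) (z pb) t| +
      ∫ s in (0 : ℝ)..T, |Jf T (z ph) (z pb) s|) := by
  have hT : 0 ≤ T := by linarith
  have tT : t ≤ T := tl.trans lT
  have lz : LB T fun t => z pb t - z ph t := (F.lbz hb).sub (F.lbz hh)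
  have gb : LB T (G pb) := .of_cont (F.cont pb hb)
  have gh : LB T (G ph) := .of_cont (F.cont ph hh)
  have m0 : (0 : ℝ) ∈ Icc 0 T := left_mem_Icc.mpr hT
  set ι := ∫ s in (0 : ℝ)..T, |Jf T (z ph) (z pb) s| with hι
  have ι0 : 0 ≤ ι := integral_nonneg hT fun _ _ => abs_nonneg _
  have C0 := F.C_nn
  rw [F.gam pb hb t ⟨t0, tT⟩, F.gam ph hh t ⟨t0, tT⟩,
    ← integral_sub (gb.ii m0 ⟨t0, tT⟩) (gh.ii m0 ⟨t0, tT⟩)]
  have k := (abs_int_le (gb.sub gh) le_rfl le_rfl t0 le_rfl tT).trans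
    (int_le_const (K := C * (|Jf T (z ph) (z pb) t| + l * D + ι)) (gb.sub gh).abs le_rfl t0 tT
      fun s s0 s1 => (F.lip ph pb hh hb s ⟨s0.le, s1.le.trans tT⟩).trans
        (mul_le_mul_of_nonneg_left (by
          have e := Lab36.jf_sub lz (s := s) (t := t) ⟨s0.le, s1.le.trans tT⟩ ⟨t0, tT⟩
          have a := (abs_int_le lz le_rfl s0.le s1.le tl lT).trans
            (int_le_const lz.abs le_rfl (t0.trans tl) lT hD)
          rw [← e, sub_zero] at a
          have := abs_sub_abs_le_abs_sub (Jf T (z ph) (z pb) s) (Jf T (z ph) (z pb) t)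
          linarith) C0))
  have p : 0 ≤ C * (|Jf T (z ph) (z pb) t| + l * D + ι) :=
    mul_nonneg C0 (by have := mul_nonneg (t0.trans tl) D0; positivity)
  nlinarith [mul_le_mul_of_nonneg_right tl p]


end Crest.Agent.T156.Cut8

namespace Crest.Agent.T156.Gap27

open MeasureTheory Set
open Crest.Agent.R164.GC Crest.Agent.R339.B Crest.Agent.R339.Var Crest.Agent.T157.Pf
open Crest.Agent.T156.L0 Crest.Agent.T156.Cut8 Crest.Agent.T156.Pp.Area50

variable {lb lh : List (ℝ × ℝ)} {T C b θ c : ℝ} {x σ h en on : ℕ → ℝ} {J u v : ℕ} {Gn : ℕ → Prop}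
  {l0 δ : ℝ} {Ω ϖ Gm Dz jh D η ω lam m f ζ : ℝ → ℝ}

/-- the size of the node error at a good node -/
def betN (lb lh : List (ℝ × ℝ)) (η ω lam : ℝ → ℝ) (t : ℝ) : ℝ :=
  η t + ω t * |Gd lb t| + lam t * |lvr 1 lb t - lvr 1 lh t|



end Crest.Agent.T156.Gap27

end
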