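import Crest.Agent.T156.ClNo_9
import Crest.Agent.T156.TopL_27

/-!
Row 156, ALT, text (L) (helper27): the residual `G` read in the reference time, the floor of the
mark term, a-priori size of `J`, node sums from the energy.
-/

set_option autoImplicit false

noncomputable section

namespace Crest.Agent.T156.Gap27



end Crest.Agent.T156.Gap27

namespace Crest.Agent.T156.Alt.Mp9

open MeasureTheory Set Real
open Crest.Agent.R164.GC Crest.Agent.R339.B Crest.Agent.R339.Var Crest.Agent.T157.Pf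
open Crest.Agent.T156.Pp.Area50 Crest.Agent.T156.Spl27 Crest.Agent.T156.Zb9
open Crest.Agent.T156.Cut8 (LB int_split int_mono int_le_const int_sub_le abs_int_le)

theorem LB_stp (T : ℝ) (x s : ℕ → ℝ) (J : ℕ) : LB T (stp x s J) := by
  induction J with
  | zero => exact (congrArg (LB T) (funext fun t => by simp [stp])).mp (LB.const (x 0))
  | succ J ih =>
    have := ih.add ((LB.const (x (J + 1) - x J)).mul (LB.of_mono (ind_mono (s (J + 1)))))
    refine (congrArg (LB T) (funext fun t => ?_)).mp this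
    simp only [stp, Finset.sum_range_succ, add_assoc]

/-- the residual of the reference cell of the time `t` -/
def gt (M : Md) (S : Sc) (t : ℝ) : ℝ := stp (fun j => M.G (j - 1)) (sh M S) (S.Jp + 1) t

theorem LB_gt (T : ℝ) (M : Md) (S : Sc) : LB T (gt M S) := LB_stp _ _ _ _

namespace At
variable {S : Sc} {M : Md} {m : ℕ} {a T : ℝ}

theorem ref_cell (A : At S M m a T) {k : ℕ} {t : ℝ} (h0 : S.j0 ≤ k) (hk : k < S.Jp)
    (h1 : M.s k ≤ t) (h2 : t < M.s (k + 1)) : Cell (sh M S) (S.Jp + 1) (k + 1) t :=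
  ⟨by omega, fun _ => by rwa [A.sh_succ h0], fun _ => by rwa [A.sh_succ (by omega)]⟩

theorem gt_cell (A : At S M m a T) {k : ℕ} {t : ℝ} (h0 : S.j0 ≤ k) (hk : k < S.Jp)
    (h1 : M.s k ≤ t) (h2 : t < M.s (k + 1)) : gt M S t = M.G k :=
  (A.ref_cell h0 hk h1 h2).stp A.uh _

theorem exists_ref (A : At S M m a T) {i j : ℕ} {t : ℝ} (h1 : M.s i ≤ t) (h2 : t < M.s j) :
    ∃ k, i ≤ k ∧ k < j ∧ M.s k ≤ t ∧ t < M.s (k + 1) := by
  induction j with
  | zero => exact absurd (h1.trans_lt h2) (not_lt.2 (A.cl.sm (Nat.zero_le i)))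
  | succ j ih =>
    rcases lt_or_ge t (M.s j) with h | h
    · obtain ⟨k, p, q, r⟩ := ih h
      exact ⟨k, p, by omega, r⟩
    · exact ⟨j, Nat.le_of_lt_succ (lt_of_not_ge fun c =>
        absurd (h1.trans_lt h2) (not_lt.2 (A.cl.sm c))), Nat.lt_succ_self j, h, h2⟩

/-- time integrals of the residual are node sums -/
theorem int_gt (A : At S M m a T) {i j : ℕ} (h0 : S.j0 < i) (hij : i ≤ j) (hj : j ≤ S.J) :
    ∫ t in M.s i..M.s j, gt M S t ^ 2 ≤
      S.C ^ 2 * ∑ k ∈ Finset.Ico i j, (M.z k - M.z (k - 1)) * M.G k ^ 2 := by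
  have mem : ∀ k ≤ S.J, M.s k ∈ Icc 0 T := fun k hk =>
    ⟨s_nn A.cl k, (A.cl.sm (hk.trans A.cl.i3)).trans A.t2⟩
  induction j, hij using Nat.le_induction with
  | base => simp
  | succ j ij ih =>
    have c := A.cl.i3
    rw [int_split (LB_gt T M S).sq (mem i (by omega)) (mem j (by omega)) (mem _ hj),
      Finset.sum_Ico_succ_top ij, mul_add]
    refine add_le_add (ih (by omega)) ((int_le_const (K := M.G j ^ 2) (LB_gt T M S).sq
      (s_nn A.cl j) (A.cl.sm (Nat.le_succ j)) (mem _ hj).2 fun t t0 t1 => by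
        rw [A.gt_cell (by omega) (by omega) t0.le t1]).trans ?_)
    obtain ⟨k, rfl⟩ : ∃ k, j = k + 1 := ⟨j - 1, by omega⟩
    have p := (A.cl.zs k (by omega) (by omega)).1
    have q := (A.cl.ss (k + 1) (by omega)).2
    rw [div_le_iff₀ A.c_pos] at p
    rw [← mul_assoc, Nat.add_sub_cancel]
    exact mul_le_mul_of_nonneg_right (by nlinarith [A.c_pos]) (sq_nonneg _)


/-- the area between the two profiles -/
def ar (M : Md) (S : Sc) (m : ℕ) (a : ℝ) : ℝ :=
  ∑ k ∈ Finset.Ioc S.j0 S.Jp, (M.z k - M.z (k - 1)) * |sb M m a (k + 1) - M.s k| +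
    M.z S.j0 * (2 * M.s S.j0 + sb M m a 1)

/-- **a-priori size of `J`** -/
theorem J_le (A : At S M m a T) {t : ℝ} (ht : t ∈ Icc 0 T) :
    |Cut8.Jf T (lvr 1 (lh M T)) (lvr 1 (lb M S m a T)) t| ≤ ar M S m a := by
  have j0 := A.j0_le
  have s0 := s_nn A.cl S.j0
  have sT : M.s S.j0 ≤ T := (A.cl.sm j0).trans A.t2
  have a0 := A.a_pos
  have az : a ≤ M.z S.j0 := A.xb_mono (Nat.zero_le (S.j0 + 1))
  set zm := stp (xb M a) (sh M S) (S.Jp + 1) with hzm
  have lm : LB T zm := LB_stp _ _ _ _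
  have lh' : LB T (lvr 1 (lh M T)) := .of_mono (Sc48.lvr_mono A.okh.1.1)
  have lb' : LB T (lvr 1 (lb M S m a T)) := .of_mono (Sc48.lvr_mono A.okb.1.1)
  have mT : T ∈ Icc 0 T := ⟨ht.1.trans ht.2, le_rfl⟩
  have e : Cut8.Jf T (lvr 1 (lh M T)) (lvr 1 (lb M S m a T)) t =
      Cut8.Jf T zm (stp (xb M a) (sb M m a) (S.Jp + 1)) t + ∫ s in t..T, (zm s - lvr 1 (lh M T) s) := by
    rw [← Jf_congr (z0 := zm) ht.2 (fun _ _ => rfl) fun s hs => A.lvb (ht.1.trans hs.1)]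
    unfold Cut8.Jf
    rw [← intervalIntegral.integral_add ((lb'.sub lm).ii ht mT) ((lm.sub lh').ii ht mT)]
    simp
  have b1 : |∫ s in t..T, (zm s - lvr 1 (lh M T) s)| ≤ M.z S.j0 * M.s S.j0 := by
    refine (abs_int_le (lm.sub lh') le_rfl ht.1 ht.2 le_rfl le_rfl).trans ?_
    rw [int_split (lm.sub lh').abs ⟨le_rfl, mT.1⟩ ⟨s0, sT⟩ mT,
      Cut8.int_zero sT fun s h _ => by rw [A.lvh h.le, sub_self, abs_zero], add_zero, mul_comm]
    refine (int_le_const (lm.sub lh').abs le_rfl s0 sT fun s _ h => ?_).trans_eq (by rw [sub_zero])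
    have p1 : zm s = a := stp_eq A.uh (Nat.zero_le _) (fun h => absurd h (lt_irrefl 0)) fun _ => by
      simpa [sh] using h
    have p2 := Sc48.lvr_mono A.okh.1.1 h.le
    rw [A.lvh_node le_rfl (by have := A.cl.i1; have := A.cl.i2; omega)] at p2
    have p3 := Sc48.lvr_pos A.okh.1.1 s
    exact abs_le.2 ⟨by linarith, by linarith⟩
  have lip : ∀ x y, |Pp.Area50.cl t T x - Pp.Area50.cl t T y| ≤ |x - y| := fun x y =>
    (abs_max_sub_max_le_max _ _ _ _).trans (max_le (by simp)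
      ((abs_min_sub_min_le_max _ _ _ _).trans (max_le le_rfl (by simp))))
  have b2 : |Cut8.Jf T zm (stp (xb M a) (sb M m a) (S.Jp + 1)) t| ≤
      ∑ j ∈ Finset.range (S.Jp + 1), (xb M a (j + 1) - xb M a j) *
        |sb M m a (j + 1) - sh M S (j + 1)| := by
    rw [hzm, Jf_eq _ _ _ _ ht.2]
    refine (Finset.abs_sum_le_sum_abs _ _).trans (Finset.sum_le_sum fun j _ => ?_)
    have x0 := sub_nonneg.2 (A.xb_mono (Nat.le_succ j))
    rw [abs_mul, abs_of_nonneg x0, abs_sub_comm (sb M m a _)]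
    exact mul_le_mul_of_nonneg_left (lip _ _) x0
  rw [Finset.sum_range_succ', Finset.range_eq_Ico, Finset.sum_Ico_add' (fun j =>
    (xb M a (j + 1) - xb M a j) * |sb M m a (j + 1) - sh M S (j + 1)|) 0 S.Jp 1,
    ← Finset.sum_Ico_consecutive _ (show 0 + 1 ≤ S.j0 + 1 by omega) (Nat.succ_le_succ j0),
    Finset.sum_eq_zero (s := Finset.Ico (0 + 1) (S.j0 + 1)) fun k hk => by
      rw [Finset.mem_Ico] at hk
      obtain ⟨k, rfl⟩ : ∃ j, k = j + 1 := ⟨k - 1, by omega⟩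
      simp only [xb]
      rw [A.cl.low _ (by omega), A.cl.low k (by omega), sub_self, zero_mul],
    show Finset.Ico (S.j0 + 1) (S.Jp + 1) = Finset.Ioc S.j0 S.Jp by ext; simp,
    ← sum_eq (fun k hk => (Finset.mem_Ioc.1 hk).1) fun u => |u|] at b2
  have b3 : (xb M a (0 + 1) - xb M a 0) * |sb M m a (0 + 1) - sh M S (0 + 1)| ≤
      M.z S.j0 * (M.s S.j0 + sb M m a 1) := by
    have q : 0 ≤ sb M m a 1 := A.sb_mono (Nat.zero_le 1)
    simp only [xb, sh, zero_add, Nat.zero_le, max_eq_right, A.cl.low 0 (Nat.zero_le _)]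
    exact mul_le_mul (by linarith) (abs_le.2 ⟨by linarith, by linarith⟩) (abs_nonneg _) (by linarith)
  rw [e, ar]
  linarith [abs_add_le (Cut8.Jf T zm (stp (xb M a) (sb M m a) (S.Jp + 1)) t)
    (∫ s in t..T, (zm s - lvr 1 (lh M T) s))]



theorem sum_dz_le (A : At S M m a T) {i : ℕ} (hi : i ≤ S.Jp) :
    ∑ k ∈ Finset.Ioc i S.Jp, (M.z k - M.z (k - 1)) = 1 - M.z i := by
  have : ∀ j, i ≤ j → ∑ k ∈ Finset.Ioc i j, (M.z k - M.z (k - 1)) = M.z j - M.z i := fun j hj => by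
    induction j, hj using Nat.le_induction with
    | base => simp
    | succ j ij ih => rw [Finset.sum_Ioc_succ_top ij, ih, Nat.add_sub_cancel]; ring
  rw [this _ hi, A.cl.top _ le_rfl]

/-- the area from the `L²` norms of `del` and `G` -/
theorem ar_le (A : At S M m a T) {p g : ℝ} (hp0 : 0 ≤ p) (hg0 : 0 ≤ g)
    (hp : ∑ k ∈ Finset.Ioc S.j0 S.Jp, (M.z k - M.z (k - 1)) * M.del m a k ^ 2 ≤ p ^ 2)
    (hg : ∑ k ∈ Finset.Ioc S.j0 S.Jp, (M.z k - M.z (k - 1)) * M.G k ^ 2 ≤ g ^ 2) :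
    ar M S m a ≤ S.C * p + g + S.C / (m + 1) + M.z S.j0 * (2 * M.s S.j0 + sb M m a 1) := by
  have z0 : ∀ k, 0 ≤ M.z k - M.z (k - 1) := fun k => sub_nonneg.2 (A.cl.leg.zm (Nat.sub_le _ _))
  have zp : 0 < M.z S.j0 := A.a_pos.trans_le (A.xb_mono (Nat.zero_le (S.j0 + 1)))
  have one := A.sum_dz_le A.j0_le
  have cs : ∀ (f : ℕ → ℝ) (r : ℝ), 0 ≤ r →
      ∑ k ∈ Finset.Ioc S.j0 S.Jp, (M.z k - M.z (k - 1)) * f k ^ 2 ≤ r ^ 2 →
      ∑ k ∈ Finset.Ioc S.j0 S.Jp, (M.z k - M.z (k - 1)) * |f k| ≤ r := fun f r r0 h => by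
    have := Finset.sum_mul_sq_le_sq_mul_sq (Finset.Ioc S.j0 S.Jp)
      (fun k => √(M.z k - M.z (k - 1))) fun k => √(M.z k - M.z (k - 1)) * |f k|
    simp only [← mul_assoc, Real.mul_self_sqrt (z0 _), mul_pow, Real.sq_sqrt (z0 _), sq_abs] at this
    refine (abs_le_of_sq_le_sq' (this.trans ?_) r0).2
    rw [one]
    exact (mul_le_of_le_one_left (Finset.sum_nonneg fun k _ => mul_nonneg (z0 k) (sq_nonneg _))
      (by linarith)).trans h
  have p1 := mul_le_mul_of_nonneg_left (cs _ _ hp0 hp) A.c_pos.le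
  have p2 := cs _ _ hg0 hg
  have c0 : 0 ≤ S.C / (m + 1) := by have := A.c_pos; positivity
  have p3 : ∑ k ∈ Finset.Ioc S.j0 S.Jp, (M.z k - M.z (k - 1)) * |sb M m a (k + 1) - M.s k| ≤
      ∑ k ∈ Finset.Ioc S.j0 S.Jp, (S.C * ((M.z k - M.z (k - 1)) * |M.del m a k|) +
        (M.z k - M.z (k - 1)) * |M.G k| + (M.z k - M.z (k - 1)) * (S.C / (m + 1))) :=
    Finset.sum_le_sum fun k hk => (mul_le_mul_of_nonneg_left
      (A.sub_le (A.jp_le (Finset.mem_Ioc.1 hk).2)) (z0 k)).trans_eq (by ring)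
  rw [Finset.sum_add_distrib, Finset.sum_add_distrib, ← Finset.mul_sum, ← Finset.sum_mul, one] at p3
  rw [ar]
  nlinarith [mul_nonneg zp.le c0]




end At

end Crest.Agent.T156.Alt.Mp9

end
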