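import Crest.Agent.T156.TopE_8

/-!
# Row 156, text (L) (helper93): nested cuts, the local energy without the root
-/

set_option autoImplicit false

noncomputable section

namespace Crest.Agent.T156.Cut8

open MeasureTheory Set intervalIntegral Filter Topology

theorem geo_rec {E : ℕ → ℝ} {X r E0 : ℝ} (hr0 : 0 ≤ r) (hr : r ≤ 1 / 2) (hX : 0 ≤ X)
    (h0 : E 0 ≤ E0) : ∀ K : ℕ, (∀ k < K, E (k + 1) ≤ X + r * E k) → E K ≤ 2 * X + r ^ K * E0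
  | 0, _ => by simp only [pow_zero, one_mul]; linarith
  | K + 1, h => by
    have a := geo_rec hr0 hr hX h0 K fun k hk => h k (by omega)
    have b := h K (by omega)
    have c := mul_le_mul_of_nonneg_left a hr0
    rw [pow_succ]
    nlinarith

variable {T : ℝ}

theorem Res.sub {dz ρ H r1 r2 ω β ξ : ℝ → ℝ} {A A' B' B : ℝ} (R : Res T dz ρ H r1 r2 ω β ξ A B)
    (h1 : A ≤ A') (h2 : B' ≤ B) : Res T dz ρ H r1 r2 ω β ξ A' B' :=
  ⟨R.lH, R.lω, R.lξ, fun t a b => R.eq t (by linarith) (by linarith),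
    fun t a b => R.ω_nn t (by linarith) (by linarith),
    fun s t a b d => R.slow s t (by linarith) b (by linarith),
    fun t a b => R.H_nn t (by linarith) (by linarith),
    fun t a b => R.ξ_nn t (by linarith) (by linarith),
    fun t a b => R.pair t (by linarith) (by linarith)⟩

/-- the integral of `xi`, local form -/
theorem int_xi_loc {d J m f : ℝ → ℝ} {A B θ ι : ℝ} (ld : LB T d) (lJ : LB T J) (lm : LB T m)
    (lf : LB T f) (hA : 0 ≤ A) (hAB : A ≤ B) (hB : B ≤ T) :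
    ∫ t in A..B, Gap27.xi θ (m t) (f t) ι (d t) (J t) =
      θ * (2 * (∫ t in A..B, d t ^ 4) + 2 * (∫ t in A..B, m t * d t ^ 2) +
        (∫ t in A..B, J t ^ 2) + (B - A) * ι ^ 2 + ∫ t in A..B, f t) := by
  have ma : A ∈ Icc 0 T := ⟨hA, hAB.trans hB⟩
  have mb : B ∈ Icc 0 T := ⟨hA.trans hAB, hB⟩
  have l4 : LB T fun t => d t ^ 4 := by simpa [← pow_mul] using ld.sq.sq
  have i1 := ((LB.const 2).mul l4).ii ma mb
  have i2 := ((LB.const 2).mul (lm.mul ld.sq)).ii ma mb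
  have i3 := lJ.sq.ii ma mb
  have i4 := (LB.const (T := T) (ι ^ 2)).ii ma mb
  have i5 := lf.ii ma mb
  have e : (fun t => Gap27.xi θ (m t) (f t) ι (d t) (J t)) =
      fun t => θ * (2 * d t ^ 4 + 2 * (m t * d t ^ 2) + J t ^ 2 + ι ^ 2 + f t) := by
    funext t; unfold Gap27.xi; ring
  rw [e, intervalIntegral.integral_const_mul,
    intervalIntegral.integral_add (((i1.add i2).add i3).add i4) i5,
    intervalIntegral.integral_add ((i1.add i2).add i3) i4,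
    intervalIntegral.integral_add (i1.add i2) i3, intervalIntegral.integral_add i1 i2,
    intervalIntegral.integral_const_mul, intervalIntegral.integral_const_mul,
    intervalIntegral.integral_const, smul_eq_mul]

/-- `∫ |J|` from a local energy and the outer part -/
theorem io_sq {J : ℝ → ℝ} (lJ : LB T J) {x y ε B len : ℝ} (hx : 0 ≤ x) (hxy : x ≤ y) (hy : y ≤ T)
    (hl : y - x ≤ len) (hε : (∫ t in (0 : ℝ)..x, |J t|) + (∫ t in y..T, |J t|) ≤ ε)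
    (hB : ∫ t in x..y, J t ^ 2 ≤ B) :
    (∫ t in (0 : ℝ)..T, |J t|) ^ 2 ≤ 2 * ε ^ 2 + 2 * len * B := by
  have hT : 0 ≤ T := by linarith
  have B0 : 0 ≤ B := (integral_nonneg hxy fun _ _ => sq_nonneg _).trans hB
  have a := int_abs_le lJ hx hxy hy hB
  have p : 0 ≤ ∫ t in (0 : ℝ)..T, |J t| := integral_nonneg hT fun _ _ => abs_nonneg _
  have e : √((y - x) * B) ^ 2 = (y - x) * B := Real.sq_sqrt (mul_nonneg (by linarith) B0)
  have q : ∫ t in (0 : ℝ)..T, |J t| ≤ ε + √((y - x) * B) := by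
    rw [int_split lJ.abs (b := x) ⟨le_rfl, hT⟩ ⟨hx, by linarith⟩ ⟨hT, le_rfl⟩,
      int_split lJ.abs (a := x) (b := y) ⟨hx, by linarith⟩ ⟨by linarith, hy⟩ ⟨hT, le_rfl⟩]
    linarith
  have := pow_le_pow_left₀ p q 2
  nlinarith [sq_nonneg (ε - √((y - x) * B)), mul_le_mul_of_nonneg_right hl B0]


/-- bulk data on `[a, s]`: 27's residual data, sources `Ff`, `e2`, `Ω` -/
structure Zn (T c θ : ℝ) (zh zb ρ H r1 r2 ω β m f : ℝ → ℝ) (a s K2 e2 Ff Ω : ℝ) : Prop where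
  R : Res T (fun t => zb t - zh t) ρ H r1 r2 ω β (fun t => Gap27.xi θ (m t) (f t)
    (∫ u in (0 : ℝ)..T, |Jf T zh zb u|) (zb t - zh t) (Jf T zh zb t)) a s
  a0 : 0 ≤ a
  sT : s ≤ T
  θ0 : 0 ≤ θ
  K0 : 0 ≤ K2
  lm : LB T m
  lf : LB T f
  f0 : ∀ t, a < t → t < s → 0 ≤ f t
  hF : ∫ t in a..s, f t ≤ Ff
  mass : ∀ x y, a ≤ x → x ≤ y → y ≤ s → ∫ t in x..y, m t * (zb t - zh t) ^ 2 ≤
    K2 * (∫ t in x..y, H t * (zb t - zh t)) + e2
  om : ∀ x y, a ≤ x → x ≤ y → y ≤ s → (∫ t in x..y, ω t ^ 2) / c ≤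
    Ω + θ * ∫ t in x..y, (zb t - zh t) ^ 4

/-- the zone `[x, y]` of the margins -/
structure Mz (zh zb H e : ℝ → ℝ) (x y γ M η c1 C1 δ : ℝ) : Prop where
  lo : ∀ t t', x ≤ t → t ≤ t' → t' ≤ y → c1 * (t' - t) - δ ≤ zh t' - zh t
  crude : ∀ t, x ≤ t → t ≤ y → |zb t - zh t| + δ ≤ 2 * C1 * γ
  hH : ∀ t, x ≤ t → t < y → H t ^ 2 ≤ M * (H t * (zb t - zh t))
  hη : ∀ t, x ≤ t → t < y → e t ≤ η

/-- numbers of the nest; `E0` is the a priori energy, `μ` the mesh error -/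
structure Nn (T c γ g L M η c1 C1 δ μ E0 : ℝ) : Prop where
  γ0 : 0 ≤ γ
  g0 : 0 < g
  L0 : 0 < L
  M0 : 0 < M
  ML : M ≤ L ^ 2
  η0 : 0 ≤ η
  c0 : 0 < c1
  C0 : 0 < C1
  δ0 : 0 < δ
  μ0 : 0 < μ
  hμ : δ ^ 2 * T ^ 3 + δ ^ 4 * T + δ / C1 ≤ μ
  small : 6400 * kap c1 (64 * C1 + 3) ^ 2 * (2 / c * E0 + μ) ≤ c1 ^ 2 * L ^ 4 * g



theorem Zn.src {c θ : ℝ} {zh zb ρ H r1 r2 ω β m f : ℝ → ℝ} {a s K2 e2 Ff Ω : ℝ}
    (Z : Zn T c θ zh zb ρ H r1 r2 ω β m f a s K2 e2 Ff Ω) (lz : LB T fun t => zb t - zh t)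
    {A B len ε Bn C5 : ℝ} (h1 : a ≤ A) (h2 : A ≤ B) (h3 : B ≤ s) (hl : B - A ≤ len)
    (h4 : ∫ t in A..B, (zb t - zh t) ^ 4 ≤ C5 ^ 2 * Bn) (hJ : ∫ t in A..B, Jf T zh zb t ^ 2 ≤ Bn)
    (hι : (∫ u in (0 : ℝ)..T, |Jf T zh zb u|) ^ 2 ≤ 2 * ε ^ 2 + 2 * len * Bn)
    (hH : ∫ t in A..B, H t * (zb t - zh t) ≤ c * Bn) :
    (∫ t in A..B, Gap27.xi θ (m t) (f t) (∫ u in (0 : ℝ)..T, |Jf T zh zb u|) (zb t - zh t)
      (Jf T zh zb t)) + (∫ t in A..B, ω t ^ 2) / c ≤ θ * (Ff + 2 * e2) + Ω +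
      2 * θ * (len * ε ^ 2) + θ * (3 * C5 ^ 2 + 1 + 2 * len ^ 2 + 2 * c * K2) * Bn := by
  have hA : 0 ≤ A := Z.a0.trans h1
  have hB : B ≤ T := h3.trans Z.sT
  have lJ : LB T (Jf T zh zb) := .of_cont (lz.tail ⟨by linarith, le_rfl⟩)
  have θ0 := Z.θ0
  rw [int_xi_loc lz lJ Z.lm Z.lf hA h2 hB]
  have f1 := (int_sub_le Z.lf Z.a0 h1 h2 h3 Z.sT Z.f0).trans Z.hF
  have m1 := (Z.mass A B h1 h2 h3).trans
    (add_le_add_left (mul_le_mul_of_nonneg_left hH Z.K0) e2)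
  have o1 := Z.om A B h1 h2 h3
  have i1 := mul_le_mul hl hι (sq_nonneg _) (by linarith)
  have t := mul_le_mul_of_nonneg_left (show 3 * (∫ t in A..B, (zb t - zh t) ^ 4) +
    2 * (∫ t in A..B, m t * (zb t - zh t) ^ 2) + (∫ t in A..B, Jf T zh zb t ^ 2) +
    (B - A) * (∫ u in (0 : ℝ)..T, |Jf T zh zb u|) ^ 2 + (∫ t in A..B, f t) ≤
    3 * (C5 ^ 2 * Bn) + 2 * (K2 * (c * Bn) + e2) + Bn + len * (2 * ε ^ 2 + 2 * len * Bn) + Ff by
      linarith) θ0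
  linarith

variable {P : Type} {c C : ℝ} {ok : P → Prop} {z Γ G : P → ℝ → ℝ} {pb ph : P}

theorem Nn.nm {γ g L M η c1 C1 δ μ E0 E : ℝ} (n : Nn T c γ g L M η c1 C1 δ μ E0) (hc : 0 < c)
    (hg : g ≤ T) (h0 : 0 ≤ E) (hE : E ≤ E0) :
    Nm L g M η (2 / c * E + μ) c1 (64 * C1 + 3) δ := by
  have := n.C0
  have := n.μ0
  have := n.δ0
  have := n.g0
  have T0 : 0 ≤ T := by linarith
  refine ⟨n.L0, n.g0, n.M0, n.ML, n.η0, by positivity, n.c0, by positivity, n.δ0.le, ?_,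
    le_trans ?_ n.small⟩
  · have a : δ ^ 4 * g ≤ δ ^ 4 * T := by gcongr
    have b : 0 ≤ δ ^ 2 * T ^ 3 := by positivity
    have d : 0 ≤ δ / C1 := by positivity
    have e : 0 ≤ 2 / c * E := by positivity
    linarith [n.hμ]
  · gcongr

theorem Nn.mesh {γ g L M η c1 C1 δ μ E0 x : ℝ} (n : Nn T c γ g L M η c1 C1 δ μ E0) (h0 : 0 ≤ x)
    (hx : x ≤ T) : δ ^ 2 * x ^ 3 + δ ^ 4 * x ≤ μ := by
  have := n.C0
  have := n.δ0
  have a : δ ^ 4 * x ≤ δ ^ 4 * T := by gcongr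
  have b : δ ^ 2 * x ^ 3 ≤ δ ^ 2 * T ^ 3 := by gcongr
  have d : 0 ≤ δ / C1 := by positivity
  linarith [n.hμ]

/-- the quartic bound above a lower margin, up to the time at which `zb` leaves the slope -/
theorem Fr.four_loc (F : Fr T c C ok z Γ G) (hb : ok pb) (hh : ok ph) {a x s b γ C1 δ : ℝ}
    (ha : 0 ≤ a) (hγ : 0 ≤ γ) (hx : a + γ ≤ x) (hxs : x ≤ s) (hs : s ≤ b) (hT : b ≤ T)
    (hC : 0 < C1) (hδ : 0 < δ)
    (up : ∀ s t, a ≤ s → s ≤ t → t ≤ b → z ph t - z ph s ≤ C1 * (t - s) + δ)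
    (h0 : |z pb x - z ph x| + δ ≤ 2 * C1 * γ) (h1 : ∀ t, t < s → z pb t ≤ z ph b + δ) :
    ∫ t in x..s, (z pb t - z ph t) ^ 4 ≤ (64 * C1 + 3) ^ 2 *
      ((∫ t in a..T, Jf T (z ph) (z pb) t ^ 2) + (δ ^ 2 * T ^ 3 + δ ^ 4 * T + δ / C1)) := by
  have hab : a ≤ b := by linarith
  have hT0 : 0 ≤ T := by linarith
  have A := F.aosl hb hh ha hab hT hC up
  have lz : LB T fun t => z pb t - z ph t := (F.lbz hb).sub (F.lbz hh)
  have l4 : LB T fun t => (z pb t - z ph t) ^ 4 := by simpa only [← pow_mul] using lz.sq.sq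
  have cr : ∀ x y, 0 ≤ x → x ≤ y → y ≤ T → ∫ t in x..y, (z pb t - z ph t) ^ 4 ≤ y - x :=
    fun x y a1 a2 a3 => by
      simpa using int_le_const l4 (K := 1) a1 a2 a3 fun t _ _ => by
        have := pow_le_one₀ (abs_nonneg _) (F.dz_le hb hh t) (n := 4)
        rwa [← abs_pow, abs_of_nonneg (by positivity)] at this
  obtain ⟨u, u0, eu⟩ : ∃ u, 0 < u ∧ δ = C1 * u := ⟨δ / C1, by positivity, by field_simp⟩
  have e6 : δ / C1 = u := by rw [eu]; field_simp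
  have p0 : 0 ≤ ∫ t in a..T, Jf T (z ph) (z pb) t ^ 2 :=
    integral_nonneg (by linarith) fun _ _ => sq_nonneg _
  have p1 : 0 ≤ δ ^ 2 * T ^ 3 := by positivity
  have p2 : 0 ≤ δ ^ 4 * T := by positivity
  have k : ∀ y : ℝ, 0 ≤ y → (4096 * C1 ^ 2 + 9) * y ≤ (64 * C1 + 3) ^ 2 * y := fun y hy =>
    mul_le_mul_of_nonneg_right (by nlinarith) hy
  rw [e6]
  refine le_trans ?_ (k _ (by positivity))
  have p3 : 0 ≤ C1 ^ 2 * (δ ^ 4 * T) := by positivity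
  have p4 : 0 ≤ C1 ^ 2 * u := by positivity
  have p5 : 0 ≤ C1 ^ 2 * (δ ^ 2 * T ^ 3) := by positivity
  have p6 : 0 ≤ C1 ^ 2 * ∫ t in a..T, Jf T (z ph) (z pb) t ^ 2 := by positivity
  rcases le_total s (x + 3 * u) with hc | hc
  · linarith [cr x s (by linarith) hxs (by linarith)]
  obtain ⟨y, y0, y1, y2, y3⟩ : ∃ y, x ≤ y ∧ y < s ∧ y ≤ b - 3 * u ∧ s - y ≤ 3 * u :=
    ⟨s - 3 * u, by linarith, by linarith, by linarith, by linarith⟩
  have f := A.four (c := x) (d := y) (by linarith) y0 (by linarith) fun t ht => by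
    have a1 := A.lower x t (by linarith) ht.1 (by linarith [ht.2])
    have a2 := up t b (by linarith [ht.1]) (by linarith [ht.2]) le_rfl
    have a3 := mul_le_mul_of_nonneg_left (show γ + (t - x) ≤ t - a by linarith) hC.le
    have a4 := mul_le_mul_of_nonneg_left (show 3 * u ≤ b - t by linarith [ht.2]) hC.le
    have a5 := mul_nonneg hC.le (show 0 ≤ t - x by linarith [ht.1])
    constructor <;> linarith [neg_abs_le (z pb x - z ph x), h1 t (by linarith [ht.2])]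
  unfold Sun9.AOSL.En at f
  have m := int_sub_le (F.lbJ hh hb (right_mem_Icc.mpr hT0)).sq ha le_rfl hab hT le_rfl
    fun _ _ _ => sq_nonneg _
  have q1 := mul_le_mul_of_nonneg_left m (show 0 ≤ 4096 * C1 ^ 2 by positivity)
  have q2 := mul_le_mul_of_nonneg_left
    (pow_le_pow_left₀ (show 0 ≤ b - a by linarith) (show b - a ≤ T by linarith) 3)
    (show 0 ≤ 4096 * C1 ^ 2 * δ ^ 2 by positivity)
  have q3 := mul_le_mul_of_nonneg_left (show y - x ≤ T by linarith)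
    (show 0 ≤ 8 * δ ^ 4 by positivity)
  rw [int_split l4 (a := x) (b := y) ⟨by linarith, by linarith⟩ ⟨by linarith, by linarith⟩
      ⟨by linarith, by linarith⟩]
  linarith [cr y s (by linarith) y1.le (by linarith)]

section two

variable {H r1 r2 ω β m f : ℝ → ℝ} {θ a b K2 e2 Ff Ω γ g L M η c1 C1 δ μ E0 a' b' len ε : ℝ}



end two

/-- residual data on `[A, s]` extended to `[A, B]`, unchanged below `s` -/
def ExtA (T : ℝ) (dz ρ H r1 ω β ξ : ℝ → ℝ) (A s B X Z : ℝ) : Prop :=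
  ∃ H' r1' r2' ω' β' ξ' : ℝ → ℝ, Res T dz ρ H' r1' r2' ω' β' ξ' A B ∧
    (∀ t, t < s → H' t = H t ∧ r1' t = r1 t ∧ β' t = β t) ∧
    ∫ t in A..B, ω' t ^ 2 ≤ ∫ t in A..s, ω t ^ 2 ∧
    ∫ t in A..B, ξ' t ≤ (∫ t in A..s, ξ t) + X ∧
    ∫ t in A..B, H' t * dz t = (∫ t in A..s, H t * dz t) + Z


theorem ExtA.trans {dz ρ H r1 ω β ξ H' r1' ω' β' ξ' : ℝ → ℝ} {A M B D X Z X' Z' : ℝ} (hM : M ≤ B)
    (e1 : ∀ t, t < M → H' t = H t ∧ r1' t = r1 t ∧ β' t = β t)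
    (e3 : ∫ t in A..B, ω' t ^ 2 ≤ ∫ t in A..M, ω t ^ 2)
    (e4 : ∫ t in A..B, ξ' t ≤ (∫ t in A..M, ξ t) + X)
    (e5 : ∫ t in A..B, H' t * dz t = (∫ t in A..M, H t * dz t) + Z)
    (h : ExtA T dz ρ H' r1' ω' β' ξ' A B D X' Z') :
    ExtA T dz ρ H r1 ω β ξ A M D (X + X') (Z + Z') := by
  obtain ⟨_, _, _, _, _, _, R, a1, a3, a4, a5⟩ := h
  exact ⟨_, _, _, _, _, _, R, fun t ht => ⟨(a1 t (by linarith)).1.trans (e1 t ht).1,
    (a1 t (by linarith)).2.1.trans (e1 t ht).2.1, (a1 t (by linarith)).2.2.trans (e1 t ht).2.2⟩,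
    a3.trans e3, by linarith, by linarith⟩

theorem ExtA.mono {dz ρ H r1 ω β ξ : ℝ → ℝ} {A M B X X' Z : ℝ}
    (h : ExtA T dz ρ H r1 ω β ξ A M B X Z) (hX : X ≤ X') : ExtA T dz ρ H r1 ω β ξ A M B X' Z := by
  obtain ⟨_, _, _, _, _, _, R, a1, a3, a4, a5⟩ := h
  exact ⟨_, _, _, _, _, _, R, a1, a3, by linarith, a5⟩

/-- the area on an interval with a sign, from the energy above `A` -/
theorem Fr.area_loc (F : Fr T c C ok z Γ G) (hb : ok pb) (hh : ok ph) {A x y δ j : ℝ} (hA : 0 ≤ A)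
    (hx : A ≤ x) (hxy : x ≤ y) (hy : y ≤ T) (hj0 : 0 ≤ j)
    (hj : 8 * ∫ t in A..T, Jf T (z ph) (z pb) t ^ 2 ≤ j ^ 3) (hδ : 0 ≤ δ)
    (h : (∀ t, x < t → t < y → -δ ≤ z pb t - z ph t) ∨ ∀ t, x < t → t < y → z pb t - z ph t ≤ δ) :
    (∀ s ∈ Icc A T, |Jf T (z ph) (z pb) s| ≤ j) ∧
      ∫ t in x..y, |z pb t - z ph t| ≤ 2 * j + 2 * δ * (y - x) := by
  have lz : LB T fun t => z pb t - z ph t := (F.lbz hb).sub (F.lbz hh)
  have mx : x ∈ Icc 0 T := ⟨by linarith, by linarith⟩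
  have my : y ∈ Icc 0 T := ⟨by linarith, hy⟩
  have b : ∀ s ∈ Icc A T, |Jf T (z ph) (z pb) s| ≤ j := fun s hs => by
    refine (pow_le_pow_iff_left₀ (abs_nonneg _) hj0 three_ne_zero).mp (le_trans ?_ hj)
    have s0 : 0 ≤ s := hA.trans hs.1
    refine Lab36.sup_cube lz (fun t _ _ => F.dz_le hb hh t) hA le_rfl hs.1 hs.2 (.inr ?_)
    have h1 := (abs_int_le lz s0 le_rfl hs.2 le_rfl le_rfl).trans
      (int_le_const lz.abs (K := 1) s0 hs.2 le_rfl fun t _ _ => F.dz_le hb hh t)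
    have h2 := abs_nonneg (Jf T (z ph) (z pb) s)
    unfold Jf at *
    linarith [hs.2]
  refine ⟨b, ?_⟩
  have e := Lab36.jf_sub lz mx my
  have b1 := abs_le.mp (b x ⟨hx, by linarith⟩)
  have b2 := abs_le.mp (b y ⟨by linarith, hy⟩)
  have key : ∀ σ : ℝ, (∀ t, x < t → t < y → |z pb t - z ph t| ≤ σ * (z pb t - z ph t) + 2 * δ) →
      ∫ t in x..y, |z pb t - z ph t| ≤
        σ * (Jf T (z ph) (z pb) x - Jf T (z ph) (z pb) y) + 2 * δ * (y - x) := fun σ hσ => by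
    have m := int_mono lz.abs (((LB.const σ).mul lz).add (LB.const (2 * δ))) mx.1 hxy hy hσ
    rw [integral_add (((LB.const σ).mul lz).ii mx my) ((LB.const _).ii mx my),
      intervalIntegral.integral_const_mul, intervalIntegral.integral_const, smul_eq_mul, ← e] at m
    linarith
  rcases h with h | h
  · linarith [key 1 fun t t0 t1 => abs_le.mpr ⟨by linarith [h t t0 t1], by linarith⟩]
  · linarith [key (-1) fun t t0 t1 => abs_le.mpr ⟨by linarith, by linarith [h t t0 t1]⟩]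

/-- the energy above `x` -/
def EL (T c : ℝ) (zh zb H : ℝ → ℝ) (x s : ℝ) : ℝ :=
  c / 2 * (∫ t in x..T, Jf T zh zb t ^ 2) + (∫ t in x..s, H t * (zb t - zh t)) / 2

section low

variable {H r1 r2 ω β m f : ℝ → ℝ} {θ a s b K2 e2 Ff Ω γ g L M η c1 C1 δ μ E0 a' ε θ1 P0 : ℝ}
  {Q : ℝ → Prop}



end low

end Crest.Agent.T156.Cut8
end
namespace Crest.Agent.T156.Cut8.Wt
end Crest.Agent.T156.Cut8.Wt
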