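import Mathlib

/-!
Row 156, ALT, text (L) of helper69, leaves L-b and L-c (helper9), frame free.

* rising sun on a sequence of nodes: the bad nodes carry label mass at most `Δr / Λ`;
* one-sided Lipschitz functions `dz` with primitive `J`: `|dz|⁵, ∫ dz⁴, sup |J|^{5/2} ≲ ∫ J²`.
-/

set_option autoImplicit false

namespace Crest.Agent.T156.Sun9

open MeasureTheory Set Finset

/-! ### L-c: rising sun -/

section sun
variable (x r : ℕ → ℝ) (Λ : ℝ)

/-- some later node `k ≤ v` rises faster than `Λ` -/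
def BadU (v i : ℕ) : Prop := ∃ k, i < k ∧ k ≤ v ∧ Λ * (x k - x i) < r k - r i

/-- some earlier node `k ≥ u` lies deeper than slope `Λ` -/
def BadD (u i : ℕ) : Prop := ∃ k, u ≤ k ∧ k < i ∧ Λ * (x i - x k) < r i - r k

/-- good on the index window `[u, v]` -/
def Good (u v i : ℕ) : Prop :=
  (∀ k, i ≤ k → k ≤ v → r k - r i ≤ Λ * (x k - x i)) ∧
    ∀ k, u ≤ k → k ≤ i → r i - r k ≤ Λ * (x i - x k)

variable {x r Λ}

theorem good_iff {u v i : ℕ} : Good x r Λ u v i ↔ ¬ BadU x r Λ v i ∧ ¬ BadD x r Λ u i := by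
  constructor
  · rintro ⟨h1, h2⟩
    exact ⟨fun ⟨k, a, b, c⟩ => absurd (h1 k a.le b) (not_le.2 c),
      fun ⟨k, a, b, c⟩ => absurd (h2 k a b.le) (not_le.2 c)⟩
  · rintro ⟨h1, h2⟩
    refine ⟨fun k a b => ?_, fun k a b => ?_⟩
    · rcases a.eq_or_lt with rfl | a
      · simp
      · by_contra h; exact h1 ⟨k, a, b, not_le.1 h⟩
    · rcases b.eq_or_lt with rfl | b
      · simp
      · by_contra h; exact h2 ⟨k, a, b, not_le.1 h⟩

theorem Good.two {u v i : ℕ} (h : Good x r Λ u v i) {j k : ℕ} (hu : u ≤ j) (hj : j ≤ i)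
    (hk : i ≤ k) (hv : k ≤ v) : r k - r j ≤ Λ * (x k - x j) := by
  have := h.1 k hk hv; have := h.2 j hu hj; nlinarith

theorem Good.mono {u v u' v' i : ℕ} (h : Good x r Λ u v i) (hu : u ≤ u') (hv : v' ≤ v) :
    Good x r Λ u' v' i :=
  ⟨fun k a b => h.1 k a (b.trans hv), fun k a b => h.2 k (hu.trans a) b⟩

open Classical in
private theorem sunU_aux (hr : Monotone r) (v : ℕ) : ∀ d j, j + d = v → ∀ k, j ≤ k → k ≤ v →
    Λ * ∑ i ∈ (Finset.Ico j v).filter (BadU x r Λ v), (x (i + 1) - x i) ≤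
      r v - r j - ((r k - r j) - Λ * (x k - x j)) := by
  intro d
  induction d with
  | zero =>
    intro j hj k h1 h2
    obtain rfl : j = v := by omega
    obtain rfl : k = j := by omega
    simp
  | succ d ih =>
    intro j hj k h1 h2
    have hjv : j < v := by omega
    have e : Finset.Ico j v = insert j (Finset.Ico (j + 1) v) := by
      ext i; simp only [Finset.mem_Ico, Finset.mem_insert]; omega
    have hn : j ∉ (Finset.Ico (j + 1) v).filter (BadU x r Λ v) := by simp
    rw [e, Finset.filter_insert]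
    split_ifs with hb
    · rw [Finset.sum_insert hn, mul_add]
      rcases h1.eq_or_lt with rfl | h1
      · obtain ⟨k', a, b, c⟩ := hb
        have := ih (j + 1) (by omega) k' a b
        nlinarith
      · have := ih (j + 1) (by omega) k h1 h2
        nlinarith
    · have h0 := ih (j + 1) (by omega) (j + 1) le_rfl hjv
      have h3 : r j ≤ r (j + 1) := hr (Nat.le_succ j)
      rcases h1.eq_or_lt with rfl | h1
      · nlinarith
      · have h4 := ih (j + 1) (by omega) k h1 h2
        have h5 : r k - r j ≤ Λ * (x k - x j) := by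
          by_contra h; exact hb ⟨k, h1, h2, not_le.1 h⟩
        nlinarith

open Classical in
/-- **rising sun**, upward -/
theorem sunU (hr : Monotone r) {u v : ℕ} (h : u ≤ v) :
    Λ * ∑ i ∈ (Finset.Ico u v).filter (BadU x r Λ v), (x (i + 1) - x i) ≤ r v - r u := by
  have := sunU_aux (x := x) (Λ := Λ) hr v (v - u) u (by omega) u le_rfl h
  simpa using this

open Classical in
private theorem sunD_aux (hr : Monotone r) (u : ℕ) : ∀ d k, u ≤ k → k ≤ u + d →
    Λ * ∑ i ∈ (Finset.Ico u (u + d)).filter (fun i => BadD x r Λ u (i + 1)), (x (i + 1) - x i) ≤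
      r (u + d) - r u - ((r (u + d) - r k) - Λ * (x (u + d) - x k)) := by
  intro d
  induction d with
  | zero =>
    intro k h1 h2
    obtain rfl : k = u := by omega
    simp
  | succ d ih =>
    intro k h1 h2
    have e : Finset.Ico u (u + (d + 1)) = insert (u + d) (Finset.Ico u (u + d)) := by
      ext i; simp only [Finset.mem_Ico, Finset.mem_insert]; omega
    have hn : u + d ∉ (Finset.Ico u (u + d)).filter (fun i => BadD x r Λ u (i + 1)) := by simp
    have e2 : u + (d + 1) = u + d + 1 := rfl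
    rw [e, Finset.filter_insert, e2]
    split_ifs with hb
    · rw [Finset.sum_insert hn, mul_add]
      rcases h2.eq_or_lt with rfl | h2
      · obtain ⟨k', a, b, c⟩ := hb
        have := ih k' a (by omega)
        rw [e2]
        nlinarith
      · have := ih k h1 (by omega)
        nlinarith
    · have h0 := ih (u + d) (by omega) le_rfl
      have h3 : r (u + d) ≤ r (u + d + 1) := hr (Nat.le_succ _)
      rcases h2.eq_or_lt with rfl | h2
      · rw [e2]; nlinarith
      · have h5 : r (u + d + 1) - r k ≤ Λ * (x (u + d + 1) - x k) := by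
          by_contra h; exact hb ⟨k, h1, by omega, not_le.1 h⟩
        nlinarith

open Classical in
/-- **rising sun**, downward (the node `i + 1` is charged with the label step below it) -/
theorem sunD (hr : Monotone r) {u v : ℕ} (h : u ≤ v) :
    Λ * ∑ i ∈ (Finset.Ico u v).filter (fun i => BadD x r Λ u (i + 1)), (x (i + 1) - x i) ≤
      r v - r u := by
  obtain ⟨d, rfl⟩ := Nat.exists_eq_add_of_le h
  have := sunD_aux (x := x) (Λ := Λ) hr u d (u + d) (by omega) le_rfl
  simpa using this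

open Classical in
/-- number of bad nodes when the label steps are at least `μ` -/
theorem card_bad (hr : Monotone r) (hΛ : 0 ≤ Λ) {u v : ℕ} (h : u ≤ v) {μ : ℝ}
    (hμ : ∀ i, u ≤ i → i < v → μ ≤ x (i + 1) - x i) :
    Λ * μ * ((Finset.Icc u v).filter fun i => ¬ Good x r Λ u v i).card ≤ 2 * (r v - r u) := by
  set A := (Finset.Ico u v).filter (BadU x r Λ v)
  set B := (Finset.Ico u v).filter (fun i => BadD x r Λ u (i + 1))
  have hA : Λ * (μ * A.card) ≤ r v - r u := by
    refine le_trans (mul_le_mul_of_nonneg_left ?_ hΛ) (sunU (x := x) hr h)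
    rw [mul_comm, ← nsmul_eq_mul]
    exact Finset.card_nsmul_le_sum _ _ _ fun i hi => by
      have := Finset.mem_Ico.1 (Finset.mem_filter.1 hi).1; exact hμ i this.1 this.2
  have hB : Λ * (μ * B.card) ≤ r v - r u := by
    refine le_trans (mul_le_mul_of_nonneg_left ?_ hΛ) (sunD (x := x) hr h)
    rw [mul_comm, ← nsmul_eq_mul]
    exact Finset.card_nsmul_le_sum _ _ _ fun i hi => by
      have := Finset.mem_Ico.1 (Finset.mem_filter.1 hi).1; exact hμ i this.1 this.2
  have hsub : ((Finset.Icc u v).filter fun i => ¬ Good x r Λ u v i) ⊆ A ∪ B.image (· + 1) := by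
    intro i hi
    obtain ⟨h1, h2⟩ := Finset.mem_filter.1 hi
    rw [Finset.mem_Icc] at h1
    rw [good_iff, not_and_or, not_not, not_not] at h2
    rcases h2 with h2 | h2
    · obtain ⟨k, a, b, c⟩ := h2
      exact Finset.mem_union_left _ (Finset.mem_filter.2
        ⟨Finset.mem_Ico.2 ⟨h1.1, by omega⟩, k, a, b, c⟩)
    · obtain ⟨k, a, b, c⟩ := h2
      refine Finset.mem_union_right _ (Finset.mem_image.2 ⟨i - 1, Finset.mem_filter.2
        ⟨Finset.mem_Ico.2 ⟨by omega, by omega⟩, ?_⟩, by omega⟩)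
      have : i - 1 + 1 = i := by omega
      rw [this]; exact ⟨k, a, b, c⟩
  have hc : (((Finset.Icc u v).filter fun i => ¬ Good x r Λ u v i).card : ℝ) ≤ A.card + B.card := by
    have := (Finset.card_le_card hsub).trans ((Finset.card_union_le _ _).trans
      (Nat.add_le_add_left Finset.card_image_le _))
    exact_mod_cast this
  rcases le_total 0 μ with h0 | h0
  · have := mul_le_mul_of_nonneg_left hc (mul_nonneg hΛ h0)
    nlinarith
  · have h1 : r u ≤ r v := hr h
    have : Λ * μ * (((Finset.Icc u v).filter fun i => ¬ Good x r Λ u v i).card : ℝ) ≤ 0 :=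
      mul_nonpos_of_nonpos_of_nonneg (mul_nonpos_of_nonneg_of_nonpos hΛ h0) (Nat.cast_nonneg _)
    linarith

/-- a window `[p, q]` inside `[u, v]` with more than `2 Δr / (Λ μ)` nodes holds a node that is good
on all of `[u, v]` -/
theorem exists_good (hr : Monotone r) (hΛ : 0 ≤ Λ) {u v p q : ℕ} (hu : u ≤ p) (hpq : p ≤ q)
    (hv : q ≤ v) {μ : ℝ} (hμ0 : 0 ≤ μ) (hμ : ∀ i, u ≤ i → i < v → μ ≤ x (i + 1) - x i)
    (hbig : 2 * (r v - r u) < Λ * μ * ((q : ℝ) - p + 1)) :
    ∃ i, p ≤ i ∧ i ≤ q ∧ Good x r Λ u v i := by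
  classical
  by_contra hne
  push Not at hne
  have hsub : Finset.Icc p q ⊆ (Finset.Icc u v).filter fun i => ¬ Good x r Λ u v i := by
    intro i hi
    rw [Finset.mem_Icc] at hi
    exact Finset.mem_filter.2 ⟨Finset.mem_Icc.2 ⟨by omega, by omega⟩, hne i hi.1 hi.2⟩
  have hc := Finset.card_le_card hsub
  rw [Nat.card_Icc] at hc
  have hc' : (q : ℝ) - p + 1 ≤ ((Finset.Icc u v).filter fun i => ¬ Good x r Λ u v i).card := by
    have : ((q + 1 - p : ℕ) : ℝ) = (q : ℝ) - p + 1 := by
      rw [Nat.cast_sub (by omega)]; push_cast; ring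
    rw [← this]; exact_mod_cast hc
  have := card_bad hr hΛ (by omega : u ≤ v) hμ
  have := mul_le_mul_of_nonneg_left hc' (mul_nonneg hΛ hμ0)
  linarith

/-- between two good nodes goodness only has to be tested inside -/
theorem good_of_inside {u v p q i : ℕ} (hp : Good x r Λ u v p) (hq : Good x r Λ u v q)
    (hpi : p ≤ i) (hiq : i ≤ q) (h : Good x r Λ p q i) :
    Good x r Λ u v i := by
  refine ⟨fun k a b => ?_, fun k a b => ?_⟩
  · rcases le_total k q with c | c
    · exact h.1 k a c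
    · have := h.1 q hiq le_rfl; have := hq.1 k c b; nlinarith
  · rcases le_total p k with c | c
    · exact h.2 k c b
    · have := h.2 p le_rfl hpi; have := hp.2 k a c; nlinarith

/-- **a gap between two good nodes is short**: all nodes strictly between `p` and `q` bad -/
theorem gap_card (hr : Monotone r) (hΛ : 0 ≤ Λ) {u v p q : ℕ} (hp : Good x r Λ u v p)
    (hq : Good x r Λ u v q) (hpq : p < q)
    (hbad : ∀ i, p < i → i < q → ¬ Good x r Λ u v i) {μ : ℝ} (hμ0 : 0 ≤ μ)
    (hμ : ∀ i, p ≤ i → i < q → μ ≤ x (i + 1) - x i) :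
    Λ * μ * ((q : ℝ) - p - 1) ≤ 2 * (r q - r p) := by
  classical
  have hsub : Finset.Ioo p q ⊆ (Finset.Icc p q).filter fun i => ¬ Good x r Λ p q i := by
    intro i hi
    rw [Finset.mem_Ioo] at hi
    exact Finset.mem_filter.2 ⟨Finset.mem_Icc.2 ⟨by omega, by omega⟩, fun h =>
      hbad i hi.1 hi.2 (good_of_inside hp hq hi.1.le hi.2.le h)⟩
  have hc := Finset.card_le_card hsub
  rw [Nat.card_Ioo] at hc
  have hc' : (q : ℝ) - p - 1 ≤ ((Finset.Icc p q).filter fun i => ¬ Good x r Λ p q i).card := by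
    have : ((q - p - 1 : ℕ) : ℝ) = (q : ℝ) - p - 1 := by
      rw [Nat.cast_sub (by omega), Nat.cast_sub (by omega)]; simp
    rw [← this]; exact_mod_cast hc
  have := card_bad hr hΛ hpq.le hμ
  have := mul_le_mul_of_nonneg_left hc' (mul_nonneg hΛ hμ0)
  linarith



end sun

/-! ### L-b: one-sided Lipschitz functions -/

/-- comparison of distribution functions -/
theorem layer {α : Type*} [MeasurableSpace α] (μ : Measure α) {f g : α → ℝ} (f0 : 0 ≤ᵐ[μ] f)
    (g0 : 0 ≤ᵐ[μ] g) (hf : AEMeasurable f μ) (hg : AEMeasurable g μ) {K : ENNReal} (hK : K ≠ ⊤)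
    (h : ∀ t, 0 < t → μ {a | t < f a} ≤ K * μ {a | t ≤ g a}) {p : ℝ} (hp : 0 < p) :
    ∫⁻ a, ENNReal.ofReal (f a ^ p) ∂μ ≤ K * ∫⁻ a, ENNReal.ofReal (g a ^ p) ∂μ := by
  rw [lintegral_rpow_eq_lintegral_meas_lt_mul μ f0 hf hp,
    lintegral_rpow_eq_lintegral_meas_le_mul μ g0 hg hp, mul_left_comm,
    ← lintegral_const_mul' K _ hK]
  refine mul_le_mul_right ?_ _
  refine setLIntegral_mono' measurableSet_Ioi fun t ht => ?_
  rw [← mul_assoc]
  exact mul_le_mul_left (h t ht) _

/-- a function that falls with slope `κ` on an interval of length `ℓ` -/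
theorem slope_sq {f : ℝ → ℝ} {u ℓ κ : ℝ} (hℓ : 0 ≤ ℓ) (hκ : 0 ≤ κ)
    (hc : ContinuousOn f (Icc u (u + ℓ)))
    (h : ∀ s t, u ≤ s → s ≤ t → t ≤ u + ℓ → κ * (t - s) ≤ f s - f t) :
    κ ^ 2 * ℓ ^ 3 / 64 ≤ ∫ s in u..u + ℓ, f s ^ 2 := by
  have key : ∀ c d, u ≤ c → d = c + ℓ / 4 → d ≤ u + ℓ → (∀ s ∈ Icc c d, κ * (ℓ / 4) ≤ |f s|) →
      κ ^ 2 * ℓ ^ 3 / 64 ≤ ∫ s in u..u + ℓ, f s ^ 2 := by
    intro c d h1 h2 h3 h4
    have hcd : c ≤ d := by linarith
    have hi : IntervalIntegrable (fun s => f s ^ 2) volume u (u + ℓ) :=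
      (hc.pow 2).intervalIntegrable_of_Icc (by linarith)
    have h5 : ∫ s in c..d, f s ^ 2 ≤ ∫ s in u..u + ℓ, f s ^ 2 :=
      intervalIntegral.integral_mono_interval h1 hcd h3
        (Filter.Eventually.of_forall fun s => sq_nonneg _) hi
    have h6 : ∫ _ in c..d, (κ * (ℓ / 4)) ^ 2 ≤ ∫ s in c..d, f s ^ 2 :=
      intervalIntegral.integral_mono_on hcd intervalIntegrable_const
        (((hc.pow 2).mono (Icc_subset_Icc h1 h3)).intervalIntegrable_of_Icc hcd) fun s hs => by
          rw [← sq_abs (f s)]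
          exact pow_le_pow_left₀ (by positivity) (h4 s hs) 2
    rw [intervalIntegral.integral_const, smul_eq_mul, h2] at h6
    rw [h2] at h5
    nlinarith
  rcases le_total 0 (f (u + ℓ / 2)) with h0 | h0
  · refine key u (u + ℓ / 4) le_rfl rfl (by linarith) fun s hs => ?_
    have := h s (u + ℓ / 2) hs.1 (by linarith [hs.2]) (by linarith)
    have h2 : κ * (ℓ / 4) ≤ κ * (u + ℓ / 2 - s) := mul_le_mul_of_nonneg_left (by linarith [hs.2]) hκ
    exact le_trans (by linarith) (le_abs_self _)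
  · refine key (u + 3 * ℓ / 4) (u + ℓ) (by linarith) (by ring) le_rfl fun s hs => ?_
    have := h (u + ℓ / 2) s (by linarith) (by linarith [hs.1]) hs.2
    have h2 : κ * (ℓ / 4) ≤ κ * (s - (u + ℓ / 2)) :=
      mul_le_mul_of_nonneg_left (by linarith [hs.1]) hκ
    exact le_trans (by linarith) (neg_le_abs _)

/-- `dz' ≥ -C` on `[a, b]` and `J s = J b + ∫_s^b dz` -/
structure OSL (a b C : ℝ) (dz J : ℝ → ℝ) : Prop where
  pos : 0 < C
  mono : MonotoneOn (fun s => dz s + C * s) (Icc a b)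
  prim : ∀ s ∈ Icc a b, J s = J b + ∫ u in s..b, dz u

namespace OSL
variable {a b C : ℝ} {dz J : ℝ → ℝ}


theorem lower (h : OSL a b C dz J) {s t : ℝ} (hs : a ≤ s) (hst : s ≤ t) (ht : t ≤ b) :
    dz s - C * (t - s) ≤ dz t := by
  have := h.mono ⟨hs, hst.trans ht⟩ ⟨hs.trans hst, ht⟩ hst
  simp only at this; linarith

theorem int (h : OSL a b C dz J) {s t : ℝ} (hs : s ∈ Icc a b) (ht : t ∈ Icc a b) :
    IntervalIntegrable dz volume s t := by
  have h1 : IntervalIntegrable (fun s => dz s + C * s) volume s t :=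
    (h.mono.mono (uIcc_subset_Icc hs ht)).intervalIntegrable
  have h2 : IntervalIntegrable (fun s => C * s) volume s t :=
    (continuous_const.mul continuous_id).intervalIntegrable _ _
  simpa using h1.sub h2

theorem sub (h : OSL a b C dz J) {s t : ℝ} (hs : s ∈ Icc a b) (ht : t ∈ Icc a b) :
    J s - J t = ∫ u in s..t, dz u := by
  have hb : b ∈ Icc a b := ⟨hs.1.trans hs.2, le_rfl⟩
  rw [h.prim s hs, h.prim t ht, ← intervalIntegral.integral_add_adjacent_intervals (h.int hs ht)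
    (h.int ht hb)]
  ring

/-- restriction to a smaller window -/
theorem restrict (h : OSL a b C dz J) {a' b' : ℝ} (ha : a ≤ a') (hb : b' ≤ b) :
    OSL a' b' C dz J :=
  ⟨h.pos, h.mono.mono (Icc_subset_Icc ha hb), fun s hs => by
    have := h.sub ⟨ha.trans hs.1, hs.2.trans hb⟩ ⟨ha.trans (hs.1.trans hs.2), hb⟩; linarith⟩

theorem cont (h : OSL a b C dz J) : ContinuousOn J (Icc a b) := by
  rcases lt_or_ge b a with hab | hab
  · rw [Set.Icc_eq_empty (not_le.2 hab)]; exact continuousOn_empty _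
  have ha : a ∈ Icc a b := ⟨le_rfl, hab⟩
  have hb : b ∈ Icc a b := ⟨hab, le_rfl⟩
  have h1 := intervalIntegral.continuousOn_primitive_interval' (h.int ha hb) left_mem_uIcc
  rw [uIcc_of_le hab] at h1
  refine (continuousOn_const.sub h1 : ContinuousOn (fun s => J a - ∫ u in a..s, dz u) _).congr
    fun s hs => ?_
  have := h.sub ha hs
  show J s = J a - ∫ u in a..s, dz u
  linarith

theorem aem (h : OSL a b C dz J) : AEMeasurable dz (volume.restrict (Icc a b)) := by
  have h1 := aemeasurable_restrict_of_monotoneOn (μ := volume) measurableSet_Icc h.mono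
  have h2 : AEMeasurable (fun s : ℝ => C * s) (volume.restrict (Icc a b)) := by fun_prop
  exact (h1.sub h2).congr (Filter.Eventually.of_forall fun s => by simp)

theorem sub_ge (h : OSL a b C dz J) {s t κ : ℝ} (hs : a ≤ s) (hst : s ≤ t) (ht : t ≤ b)
    (hκ : ∀ u ∈ Icc s t, κ ≤ dz u) : κ * (t - s) ≤ J s - J t := by
  have hs' : s ∈ Icc a b := ⟨hs, hst.trans ht⟩
  have ht' : t ∈ Icc a b := ⟨hs.trans hst, ht⟩
  rw [h.sub hs' ht']
  have := intervalIntegral.integral_mono_on hst intervalIntegrable_const (h.int hs' ht') hκ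
  rw [intervalIntegral.integral_const, smul_eq_mul] at this
  linarith

theorem sub_le (h : OSL a b C dz J) {s t κ : ℝ} (hs : a ≤ s) (hst : s ≤ t) (ht : t ≤ b)
    (hκ : ∀ u ∈ Icc s t, dz u ≤ κ) : J s - J t ≤ κ * (t - s) := by
  have hs' : s ∈ Icc a b := ⟨hs, hst.trans ht⟩
  have ht' : t ∈ Icc a b := ⟨hs.trans hst, ht⟩
  rw [h.sub hs' ht']
  have := intervalIntegral.integral_mono_on hst (h.int hs' ht') intervalIntegrable_const hκ
  rw [intervalIntegral.integral_const, smul_eq_mul] at this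
  linarith

theorem sq_int (h : OSL a b C dz J) (hab : a ≤ b) :
    IntervalIntegrable (fun s => J s ^ 2) volume a b :=
  (h.cont.pow 2).intervalIntegrable_of_Icc hab

theorem sq_mono (h : OSL a b C dz J) {c d : ℝ} (hc : a ≤ c) (hcd : c ≤ d) (hd : d ≤ b) :
    ∫ s in c..d, J s ^ 2 ≤ ∫ s in a..b, J s ^ 2 :=
  intervalIntegral.integral_mono_interval hc hcd hd
    (Filter.Eventually.of_forall fun _ => sq_nonneg _) (h.sq_int (hc.trans (hcd.trans hd)))

/-- a positive value persists to the right, on any length `ℓ ≤ d / (2 C)` -/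
theorem pos_len (h : OSL a b C dz J) {s d ℓ : ℝ} (hs : a ≤ s) (hℓ : 0 ≤ ℓ) (hb : s + ℓ ≤ b)
    (hd : 2 * C * ℓ ≤ d) (hz : d ≤ dz s) : d ^ 2 * ℓ ^ 3 ≤ 256 * ∫ s in a..b, J s ^ 2 := by
  have hC := h.pos
  have hd0 : 0 ≤ d := le_trans (by positivity) hd
  have h1 := slope_sq (f := J) (u := s) hℓ (by positivity : 0 ≤ d / 2)
    (h.cont.mono (Icc_subset_Icc hs hb)) fun u t h1 h2 h3 =>
      h.sub_ge (hs.trans h1) h2 (h3.trans hb) fun y hy => by
        have := h.lower hs (h1.trans hy.1) (hy.2.trans (h3.trans hb))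
        have : C * (y - s) ≤ C * ℓ := mul_le_mul_of_nonneg_left (by linarith [hy.2]) hC.le
        linarith
  have h2 := h.sq_mono hs (by linarith : s ≤ s + ℓ) hb
  nlinarith

/-- a negative value persists to the left -/
theorem neg_len (h : OSL a b C dz J) {s d ℓ : ℝ} (hs : s ≤ b) (hℓ : 0 ≤ ℓ) (ha : a ≤ s - ℓ)
    (hd : 2 * C * ℓ ≤ d) (hz : dz s ≤ -d) : d ^ 2 * ℓ ^ 3 ≤ 256 * ∫ s in a..b, J s ^ 2 := by
  have hC := h.pos
  have hd0 : 0 ≤ d := le_trans (by positivity) hd
  have e : s - ℓ + ℓ = s := by ring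
  have h1 := slope_sq (f := fun t => -J t) (u := s - ℓ) hℓ (by positivity : 0 ≤ d / 2)
    (h.cont.mono (Icc_subset_Icc ha (by linarith))).neg fun u t h1 h2 h3 => by
      have := h.sub_le (κ := -(d / 2)) (ha.trans h1) h2 (by linarith) fun y hy => by
        have := h.lower (ha.trans (h1.trans hy.1)) (by linarith [hy.2] : y ≤ s) hs
        have : C * (s - y) ≤ C * ℓ := mul_le_mul_of_nonneg_left (by linarith [hy.1]) hC.le
        linarith
      linarith
  have h2 := h.sq_mono ha (by linarith : s - ℓ ≤ s) hs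
  simp only [e, neg_sq] at h1
  nlinarith

theorem pos_five (h : OSL a b C dz J) {s d : ℝ} (hs : a ≤ s) (hd : 0 ≤ d)
    (hb : s + d / (2 * C) ≤ b) (hz : d ≤ dz s) : d ^ 5 ≤ 2048 * C ^ 3 * ∫ s in a..b, J s ^ 2 := by
  have hC := h.pos
  have := h.pos_len hs (by positivity) hb (by field_simp; rfl) hz
  have e : d ^ 5 = 8 * C ^ 3 * (d ^ 2 * (d / (2 * C)) ^ 3) := by field_simp; ring
  rw [e]; nlinarith [pow_pos hC 3]

theorem neg_five (h : OSL a b C dz J) {s d : ℝ} (hs : s ≤ b) (hd : 0 ≤ d)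
    (ha : a ≤ s - d / (2 * C)) (hz : dz s ≤ -d) : d ^ 5 ≤ 2048 * C ^ 3 * ∫ s in a..b, J s ^ 2 := by
  have hC := h.pos
  have := h.neg_len hs (by positivity) ha (by field_simp; rfl) hz
  have e : d ^ 5 = 8 * C ^ 3 * (d ^ 2 * (d / (2 * C)) ^ 3) := by field_simp; ring
  rw [e]; nlinarith [pow_pos hC 3]

/-- **pointwise bounds** -/
theorem lt_of (h : OSL a b C dz J) {s d : ℝ} (hd : 0 ≤ d)
    (hE : 2048 * C ^ 3 * ∫ s in a..b, J s ^ 2 < d ^ 5) (hs : a ≤ s) (hb : s + d / (2 * C) ≤ b) :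
    dz s < d := by
  by_contra hz; exact absurd (h.pos_five hs hd hb (not_lt.1 hz)) (not_le.2 hE)

theorem gt_of (h : OSL a b C dz J) {s d : ℝ} (hd : 0 ≤ d)
    (hE : 2048 * C ^ 3 * ∫ s in a..b, J s ^ 2 < d ^ 5) (hs : s ≤ b) (ha : a ≤ s - d / (2 * C)) :
    -d < dz s := by
  by_contra hz; exact absurd (h.neg_five hs hd ha (not_lt.1 hz)) (not_le.2 hE)

/-- with a lower bound at the left end the lower bound holds up to the left end -/
theorem abs_le_of (h : OSL a b C dz J) {s d : ℝ} (hd : 0 ≤ d)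
    (hE : 2048 * C ^ 3 * ∫ s in a..b, J s ^ 2 < d ^ 5) (h0 : -(d / 2) ≤ dz a) (hs : a ≤ s)
    (hb : s + d / (2 * C) ≤ b) : |dz s| ≤ d := by
  have hC := h.pos
  have hsb : s ≤ b := le_trans (le_add_of_nonneg_right (by positivity)) hb
  refine abs_le.2 ⟨?_, (h.lt_of hd hE hs hb).le⟩
  rcases le_total a (s - d / (2 * C)) with c | c
  · exact (h.gt_of hd hE hsb c).le
  · have h1 := h.lower le_rfl hs hsb
    have h2 : C * (s - a) ≤ C * (d / (2 * C)) := mul_le_mul_of_nonneg_left (by linarith) hC.le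
    have h3 : C * (d / (2 * C)) = d / 2 := by field_simp
    linarith

/-- a bound for `J` from a bound for `dz` on a window of length `w` -/
theorem J_le (h : OSL a b C dz J) {u w D s : ℝ} (hu : a ≤ u) (hw : 0 < w) (hb : u + w ≤ b)
    (hD : ∀ t ∈ Icc u (u + w), |dz t| ≤ D) (hs : s ∈ Icc u (u + w)) :
    |J s| ≤ D * w + √((∫ s in a..b, J s ^ 2) / w) := by
  have hD0 : 0 ≤ D := (abs_nonneg _).trans (hD s hs)
  have key : ∀ t ∈ Icc u (u + w), |J s - J t| ≤ D * w := by
    have k2 : ∀ s ∈ Icc u (u + w), ∀ t ∈ Icc u (u + w), s ≤ t → |J s - J t| ≤ D * w := by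
      intro s hs t ht hst
      have h1 := h.sub_le (κ := D) (hu.trans hs.1) hst (ht.2.trans hb) fun y hy =>
        (_root_.abs_le.1 (hD y ⟨hs.1.trans hy.1, hy.2.trans ht.2⟩)).2
      have h2 := h.sub_ge (κ := -D) (hu.trans hs.1) hst (ht.2.trans hb) fun y hy =>
        (_root_.abs_le.1 (hD y ⟨hs.1.trans hy.1, hy.2.trans ht.2⟩)).1
      have h3 : D * (t - s) ≤ D * w := mul_le_mul_of_nonneg_left (by linarith [hs.1, ht.2]) hD0
      exact _root_.abs_le.2 ⟨by linarith, by linarith⟩
    intro t ht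
    rcases le_total s t with c | c
    · exact k2 s hs t ht c
    · rw [abs_sub_comm]; exact k2 t ht s hs c
  rcases le_total |J s| (D * w) with c | c
  · exact c.trans (le_add_of_nonneg_right (Real.sqrt_nonneg _))
  have h1 : ∫ _ in u..u + w, (|J s| - D * w) ^ 2 ≤ ∫ t in u..u + w, J t ^ 2 :=
    intervalIntegral.integral_mono_on (by linarith) intervalIntegrable_const
      ((h.restrict hu hb).sq_int (by linarith)) fun t ht => by
        rw [← sq_abs (J t)]
        refine pow_le_pow_left₀ (by linarith) ?_ 2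
        have := key t ht
        have := abs_sub_abs_le_abs_sub (J s) (J t)
        linarith
  rw [intervalIntegral.integral_const, smul_eq_mul] at h1
  have h2 := h.sq_mono hu (by linarith : u ≤ u + w) hb
  have h3 : |J s| - D * w ≤ √((∫ s in a..b, J s ^ 2) / w) :=
    Real.le_sqrt_of_sq_le (by rw [le_div_iff₀ hw]; nlinarith)
  linarith


private theorem four_aux (h : OSL a b C dz J) (hab : a ≤ b) {p : ℝ → ℝ}
    (hp : AEMeasurable p (volume.restrict (Icc a b))) (M : ℝ)
    (hp0 : ∀ s ∈ Icc a b, 0 ≤ p s ∧ p s ≤ M)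
    (H : ∀ t, 0 < t → ∃ ℓ : ℝ, ∀ s ∈ Icc a b, t < p s →
      s + ℓ ∈ Icc a b ∧ t ^ 2 ≤ 4 * C * |J s - J (s + ℓ)|) :
    ∫ s in a..b, p s ^ 4 ≤ 128 * C ^ 2 * ∫ s in a..b, J s ^ 2 := by
  have hC := h.pos
  set μ := volume.restrict (Icc a b) with hμ
  have hJ : AEMeasurable J μ := h.cont.aemeasurable measurableSet_Icc
  have hae : ∀ {P : ℝ → Prop}, (∀ s ∈ Icc a b, P s) → ∀ᵐ s ∂μ, P s := fun hP =>
    (ae_restrict_iff' measurableSet_Icc).2 (Filter.Eventually.of_forall hP)
  have h1 := layer μ (f := p) (g := fun s => √(8 * C * |J s|)) (hae fun s hs => (hp0 s hs).1)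
    (Filter.Eventually.of_forall fun s => Real.sqrt_nonneg _) hp
    ((hJ.abs.const_mul _).sqrt) (K := 2) (by simp) (fun t ht => by
      obtain ⟨ℓ, hℓ⟩ := H t ht
      rw [hμ, Measure.restrict_apply' measurableSet_Icc, Measure.restrict_apply' measurableSet_Icc]
      set B := {s | t ≤ √(8 * C * |J s|)} ∩ Icc a b
      have hsub : {s | t < p s} ∩ Icc a b ⊆ B ∪ (fun s => s + ℓ) ⁻¹' B := by
        rintro s ⟨h1, h2⟩
        obtain ⟨h3, h4⟩ := hℓ s h2 h1
        have h5 := abs_sub (J s) (J (s + ℓ))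
        rcases le_total |J s| |J (s + ℓ)| with c | c
        · exact Or.inr ⟨Real.le_sqrt_of_sq_le (by nlinarith), h3⟩
        · exact Or.inl ⟨Real.le_sqrt_of_sq_le (by nlinarith), h2⟩
      refine (measure_mono hsub).trans ((measure_union_le _ _).trans ?_)
      rw [measure_preimage_add_right, two_mul]) (p := 4) (by norm_num)
  have i1 : Integrable (fun s => p s ^ 4) μ := by
    refine Integrable.of_bound (hp.pow_const 4).aestronglyMeasurable (M ^ 4) (hae fun s hs => ?_)
    rw [Real.norm_eq_abs, abs_of_nonneg (by positivity)]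
    exact pow_le_pow_left₀ (hp0 s hs).1 (hp0 s hs).2 4
  have i2 : Integrable (fun s => 64 * C ^ 2 * J s ^ 2) μ :=
    ((h.cont.pow 2).integrableOn_Icc).const_mul _
  have e1 : ∀ s, p s ^ (4 : ℝ) = p s ^ 4 := fun s => by exact_mod_cast Real.rpow_natCast (p s) 4
  have e2 : ∀ s, √(8 * C * |J s|) ^ (4 : ℝ) = 64 * C ^ 2 * J s ^ 2 := fun s => by
    have : √(8 * C * |J s|) ^ (4 : ℝ) = √(8 * C * |J s|) ^ 4 := by
      exact_mod_cast Real.rpow_natCast _ 4
    rw [this, show (4 : ℕ) = 2 * 2 from rfl, pow_mul, Real.sq_sqrt (by positivity), mul_pow,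
      sq_abs]
    ring
  simp only [e1, e2] at h1
  rw [← ofReal_integral_eq_lintegral_ofReal i1 (Filter.Eventually.of_forall fun s => by positivity),
    ← ofReal_integral_eq_lintegral_ofReal i2 (Filter.Eventually.of_forall fun s => by positivity),
    ← ENNReal.ofReal_ofNat 2, ← ENNReal.ofReal_mul (by norm_num),
    ENNReal.ofReal_le_ofReal_iff (mul_nonneg (by norm_num) (integral_nonneg fun s => by positivity)),
    integral_const_mul] at h1
  rw [intervalIntegral.integral_of_le hab, intervalIntegral.integral_of_le hab,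
    ← integral_Icc_eq_integral_Ioc, ← integral_Icc_eq_integral_Ioc]
  linarith

/-- **`∫ dz₊⁴ ≲ ∫ J²`**, truncated at the right end -/
theorem four_pos (h : OSL a b C dz J) (hab : a ≤ b) :
    ∫ s in a..b, min (max (dz s) 0) (2 * C * (b - s)) ^ 4 ≤ 128 * C ^ 2 * ∫ s in a..b, J s ^ 2 := by
  have hC := h.pos
  refine h.four_aux hab ((h.aem.max aemeasurable_const).min (by fun_prop)) (2 * C * (b - a))
    (fun s hs => ⟨le_min (le_max_right _ _) (by nlinarith [hs.2]),
      (min_le_right _ _).trans (by nlinarith [hs.1])⟩) fun t ht => ⟨t / (2 * C), fun s hs hp => ?_⟩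
  obtain ⟨h1, h2⟩ := lt_min_iff.1 hp
  have h3 : t < dz s := by
    rcases lt_max_iff.1 h1 with c | c
    · exact c
    · linarith
  have hw : 0 < t / (2 * C) := by positivity
  have h4 : s + t / (2 * C) ≤ b := by
    have : t / (2 * C) ≤ b - s := by rw [div_le_iff₀ (by positivity)]; linarith
    linarith
  have e : C * (t / (2 * C)) = t / 2 := by field_simp
  refine ⟨⟨by linarith [hs.1], h4⟩, ?_⟩
  have h5 := h.sub_ge (κ := t / 2) hs.1 (by linarith : s ≤ s + t / (2 * C)) h4 fun y hy => by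
    have := h.lower hs.1 hy.1 (hy.2.trans h4)
    have : C * (y - s) ≤ C * (t / (2 * C)) := mul_le_mul_of_nonneg_left (by linarith [hy.2]) hC.le
    linarith
  have h6 := le_abs_self (J s - J (s + t / (2 * C)))
  have e2 : 4 * C * (t / 2 * (s + t / (2 * C) - s)) = t ^ 2 := by field_simp; ring
  nlinarith

/-- **`∫ dz₋⁴ ≲ ∫ J²`**, truncated at the left end -/
theorem four_neg (h : OSL a b C dz J) (hab : a ≤ b) :
    ∫ s in a..b, min (max (-dz s) 0) (2 * C * (s - a)) ^ 4 ≤
      128 * C ^ 2 * ∫ s in a..b, J s ^ 2 := by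
  have hC := h.pos
  refine h.four_aux hab ((h.aem.neg.max aemeasurable_const).min (by fun_prop)) (2 * C * (b - a))
    (fun s hs => ⟨le_min (le_max_right _ _) (by nlinarith [hs.1]),
      (min_le_right _ _).trans (by nlinarith [hs.2])⟩) fun t ht =>
        ⟨-(t / (2 * C)), fun s hs hp => ?_⟩
  obtain ⟨h1, h2⟩ := lt_min_iff.1 hp
  have h3 : t < -dz s := by
    rcases lt_max_iff.1 h1 with c | c
    · exact c
    · linarith
  have hw : 0 < t / (2 * C) := by positivity
  have h4 : a ≤ s + -(t / (2 * C)) := by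
    have : t / (2 * C) ≤ s - a := by rw [div_le_iff₀ (by positivity)]; linarith
    linarith
  have e : C * (t / (2 * C)) = t / 2 := by field_simp
  refine ⟨⟨h4, by linarith [hs.2]⟩, ?_⟩
  have h5 := h.sub_le (κ := -(t / 2)) h4 (by linarith : s + -(t / (2 * C)) ≤ s) hs.2 fun y hy => by
    have := h.lower (h4.trans hy.1) hy.2 hs.2
    have : C * (s - y) ≤ C * (t / (2 * C)) := mul_le_mul_of_nonneg_left (by linarith [hy.1]) hC.le
    linarith
  have h6 := le_abs_self (J s - J (s + -(t / (2 * C))))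
  have e2 : 4 * C * (-(t / 2) * (s - (s + -(t / (2 * C))))) = -t ^ 2 := by field_simp; ring
  nlinarith

/-- **`∫ dz⁴ ≲ ∫ J²`** on a window `[c, d]` where the truncations are not felt -/
theorem four (h : OSL a b C dz J) {c d : ℝ} (hc : a ≤ c) (hcd : c ≤ d) (hd : d ≤ b)
    (hz : ∀ s ∈ Icc c d, -(2 * C * (s - a)) ≤ dz s ∧ dz s ≤ 2 * C * (b - s)) :
    ∫ s in c..d, dz s ^ 4 ≤ 256 * C ^ 2 * ∫ s in a..b, J s ^ 2 := by
  have hC := h.pos
  have hab : a ≤ b := hc.trans (hcd.trans hd)
  have ii : ∀ {p : ℝ → ℝ}, AEMeasurable p (volume.restrict (Icc a b)) →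
      (∀ s ∈ Icc a b, 0 ≤ p s ∧ p s ≤ 2 * C * (b - a)) →
      IntervalIntegrable (fun s => p s ^ 4) volume a b := fun {p} hp hp0 => by
    rw [intervalIntegrable_iff_integrableOn_Icc_of_le hab]
    refine Integrable.of_bound (hp.pow_const 4).aestronglyMeasurable ((2 * C * (b - a)) ^ 4)
      ((ae_restrict_iff' measurableSet_Icc).2 (Filter.Eventually.of_forall fun s hs => ?_))
    rw [Real.norm_eq_abs, abs_of_nonneg (by positivity)]
    exact pow_le_pow_left₀ (hp0 s hs).1 (hp0 s hs).2 4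
  have i1 := ii (p := fun s => min (max (dz s) 0) (2 * C * (b - s)))
    ((h.aem.max aemeasurable_const).min (by fun_prop)) fun s hs =>
      ⟨le_min (le_max_right _ _) (by nlinarith [hs.2]),
        (min_le_right _ _).trans (by nlinarith [hs.1])⟩
  have i2 := ii (p := fun s => min (max (-dz s) 0) (2 * C * (s - a)))
    ((h.aem.neg.max aemeasurable_const).min (by fun_prop)) fun s hs =>
      ⟨le_min (le_max_right _ _) (by nlinarith [hs.1]),
        (min_le_right _ _).trans (by nlinarith [hs.2])⟩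
  have h1 := intervalIntegral.integral_mono_interval hc hcd hd
    (Filter.Eventually.of_forall fun s => by positivity) (i1.add i2)
  rw [intervalIntegral.integral_add i1 i2] at h1
  have h2 : ∫ s in c..d, dz s ^ 4 = ∫ s in c..d, (min (max (dz s) 0) (2 * C * (b - s)) ^ 4 +
      min (max (-dz s) 0) (2 * C * (s - a)) ^ 4) := by
    refine intervalIntegral.integral_congr fun s hs => ?_
    rw [uIcc_of_le hcd] at hs
    obtain ⟨h3, h4⟩ := hz s hs
    have h5 : 0 ≤ 2 * C * (b - s) := by nlinarith [hs.2]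
    have h6 : 0 ≤ 2 * C * (s - a) := by nlinarith [hs.1]
    rcases le_total 0 (dz s) with c0 | c0
    · rw [max_eq_left c0, max_eq_right (by linarith), min_eq_left h4, min_eq_left h6]; ring
    · rw [max_eq_right c0, max_eq_left (by linarith), min_eq_left h5, min_eq_left (by linarith)]
      ring
  have := h.four_pos hab
  have := h.four_neg hab
  linarith

end OSL

end Crest.Agent.T156.Sun9
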