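import Crest.Agent.T156.Cut_8
import Crest.Agent.T156.Sun_9

/-!
# Row 156, (L): the mass term of (MON) in label form, and (LIP) on the top plateau (helper36)

`docs/T156_36T.md`, sections 1 and 2.  Frame free.
-/

set_option autoImplicit false

noncomputable section

namespace Crest.Agent.T156.Lab36

open MeasureTheory Set intervalIntegral Finset
open Crest.Agent.T156.Cut8

/-- the step at `s` -/
def ix (s t : ℝ) : ℝ := if s ≤ t then 1 else 0

theorem ix_mono (s : ℝ) : Monotone (ix s) := fun t t' h => by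
  unfold ix; split_ifs with a b
  · exact le_rfl
  · exact absurd (a.trans h) b
  · exact zero_le_one
  · exact le_rfl

theorem ix_lb (T s : ℝ) : LB T (ix s) := .of_mono (ix_mono s)

theorem lb_sum {T : ℝ} {ι : Type*} (K : Finset ι) {f : ι → ℝ → ℝ} (h : ∀ k ∈ K, LB T (f k)) :
    LB T fun t => ∑ k ∈ K, f k t := by
  classical
  induction K using Finset.induction_on with
  | empty => simpa using LB.const (T := T) 0
  | insert a K ha ih =>
    simp only [Finset.sum_insert ha]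
    exact (h a (Finset.mem_insert_self _ _)).add (ih fun k hk => h k (Finset.mem_insert_of_mem hk))

/-- the projection on `[A, B]` -/
def cl (A B s : ℝ) : ℝ := max A (min B s)

theorem cl_mem {A B : ℝ} (h : A ≤ B) (s : ℝ) : A ≤ cl A B s ∧ cl A B s ≤ B :=
  ⟨le_max_left _ _, max_le h (min_le_left _ _)⟩


theorem cl_lip (A B s s' : ℝ) : |cl A B s - cl A B s'| ≤ |s - s'| := clamp_lip A B s s'

theorem cl_mono (A B : ℝ) : Monotone (cl A B) := clamp_mono A B

/-- integral against one step -/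
theorem int_ix {T A B : ℝ} {f : ℝ → ℝ} (lf : LB T f) (hA : 0 ≤ A) (hAB : A ≤ B) (hB : B ≤ T)
    (s : ℝ) : ∫ t in A..B, f t * ix s t = ∫ t in cl A B s..B, f t := by
  obtain ⟨c1, c2⟩ := cl_mem hAB s
  have mA : A ∈ Icc 0 T := ⟨hA, hAB.trans hB⟩
  have mB : B ∈ Icc 0 T := ⟨hA.trans hAB, hB⟩
  have mc : cl A B s ∈ Icc 0 T := ⟨hA.trans c1, c2.trans hB⟩
  rw [int_split (lf.mul (ix_lb T s)) mA mc mB, int_zero c1, zero_add]
  · refine integral_congr_Ioo_of_le c2 fun t ht => ?_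
    have : s ≤ t := by
      have h1 : min B s ≤ cl A B s := le_max_right _ _
      rcases le_total B s with h | h
      · rw [min_eq_left h] at h1; linarith [ht.1, ht.2]
      · rw [min_eq_right h] at h1; linarith [ht.1]
    simp [ix, this]
  · intro t t0 t1
    have : ¬ s ≤ t := by
      intro h
      have : cl A B s ≤ t := max_le t0.le ((min_le_right _ _).trans h)
      linarith
    simp [ix, this]

/-- integral against the difference of two steps -/
theorem int_ix_sub {T A B : ℝ} {f : ℝ → ℝ} (lf : LB T f) (hA : 0 ≤ A) (hAB : A ≤ B) (hB : B ≤ T)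
    (s s' : ℝ) : ∫ t in A..B, f t * (ix s t - ix s' t) = ∫ t in cl A B s..cl A B s', f t := by
  have mA : A ∈ Icc 0 T := ⟨hA, hAB.trans hB⟩
  have mB : B ∈ Icc 0 T := ⟨hA.trans hAB, hB⟩
  have mc : ∀ s, cl A B s ∈ Icc 0 T := fun s =>
    ⟨hA.trans (cl_mem hAB s).1, (cl_mem hAB s).2.trans hB⟩
  simp only [mul_sub]
  rw [integral_sub ((lf.mul (ix_lb T s)).ii mA mB) ((lf.mul (ix_lb T s')).ii mA mB),
    int_ix lf hA hAB hB, int_ix lf hA hAB hB, int_split lf (mc s) (mc s') mB]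
  ring

/-- the polynomial `e u² / 2 + c u³ / 3` -/
def pw (e c u : ℝ) : ℝ := e * u ^ 2 / 2 + c * u ^ 3 / 3

theorem pw_nn {e c u : ℝ} (he : 0 ≤ e) (hc : 0 ≤ c) (hu : 0 ≤ u) : 0 ≤ pw e c u := by
  unfold pw; positivity





variable {ι : Type*}

/-- the difference of two step profiles with the same labels -/
def dzS (K : Finset ι) (dm sb sh : ι → ℝ) (t : ℝ) : ℝ := ∑ k ∈ K, dm k * (ix (sb k) t - ix (sh k) t)

theorem dzS_lb (T : ℝ) (K : Finset ι) (dm sb sh : ι → ℝ) : LB T (dzS K dm sb sh) :=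
  lb_sum K fun _ _ => (LB.const _).mul ((ix_lb T _).sub (ix_lb T _))

/-- Fubini on the region between the two graphs -/
theorem int_dzS {T A B : ℝ} (hA : 0 ≤ A) (hAB : A ≤ B) (hB : B ≤ T) (K : Finset ι)
    (dm sb sh : ι → ℝ) {f : ι → ℝ → ℝ} (lf : ∀ k ∈ K, LB T (f k)) :
    ∫ t in A..B, ∑ k ∈ K, dm k * (f k t * (ix (sb k) t - ix (sh k) t)) =
      ∑ k ∈ K, dm k * ∫ t in cl A B (sb k)..cl A B (sh k), f k t := by
  have mA : A ∈ Icc 0 T := ⟨hA, hAB.trans hB⟩
  have mB : B ∈ Icc 0 T := ⟨hA.trans hAB, hB⟩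
  rw [intervalIntegral.integral_finsetSum fun k hk =>
    ((LB.const (dm k)).mul ((lf k hk).mul ((ix_lb T _).sub (ix_lb T _)))).ii mA mB]
  refine Finset.sum_congr rfl fun k hk => ?_
  rw [intervalIntegral.integral_const_mul, int_ix_sub (lf k hk) hA hAB hB]


/-- `∫ g |dz| ≤ ∑ dm g_k |D_k|` when `g ≤ g_k` between the two times of the node `k` -/
theorem int_abs_le {T A B : ℝ} (hA : 0 ≤ A) (hAB : A ≤ B) (hB : B ≤ T) (K : Finset ι)
    {dm sb sh γ : ι → ℝ} (hdm : ∀ k ∈ K, 0 ≤ dm k) (hγ : ∀ k ∈ K, 0 ≤ γ k) {g : ℝ → ℝ}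
    (lg : LB T g)
    (hg : ∀ t, A < t → t < B → ∀ k ∈ K, (sb k ≤ t ∧ t < sh k) ∨ (sh k ≤ t ∧ t < sb k) →
      |g t| ≤ γ k) :
    ∫ t in A..B, |g t| * |dzS K dm sb sh t| ≤
      ∑ k ∈ K, dm k * (γ k * |cl A B (sb k) - cl A B (sh k)|) := by
  have key := int_dzS hA hAB hB K dm (fun k => min (sb k) (sh k)) (fun k => max (sb k) (sh k))
    (f := fun k _ => γ k) fun _ _ => LB.const _
  have e : ∀ k ∈ K, dm k * ∫ _ in cl A B (min (sb k) (sh k))..cl A B (max (sb k) (sh k)), γ k =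
      dm k * (γ k * |cl A B (sb k) - cl A B (sh k)|) := fun k _ => by
    rw [intervalIntegral.integral_const, smul_eq_mul]
    rcases le_total (sb k) (sh k) with h | h
    · rw [min_eq_left h, max_eq_right h, abs_of_nonpos (sub_nonpos.2 (cl_mono A B h))]; ring
    · rw [min_eq_right h, max_eq_left h, abs_of_nonneg (sub_nonneg.2 (cl_mono A B h))]; ring
  rw [← Finset.sum_congr rfl e, ← key]
  refine int_mono (lg.abs.mul (dzS_lb T K dm sb sh).abs)
    (lb_sum K fun k _ => (LB.const _).mul ((LB.const _).mul ((ix_lb T _).sub (ix_lb T _))))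
    hA hAB hB fun t t0 t1 => ?_
  refine (mul_le_mul_of_nonneg_left (Finset.abs_sum_le_sum_abs _ _) (abs_nonneg _)).trans ?_
  rw [Finset.mul_sum]
  refine Finset.sum_le_sum fun k hk => ?_
  rw [abs_mul, abs_of_nonneg (hdm k hk), mul_left_comm]
  refine mul_le_mul_of_nonneg_left ?_ (hdm k hk)
  have h1 := hg t t0 t1 k hk
  have h2 := hγ k hk
  unfold ix
  by_cases a : sb k ≤ t <;> by_cases b : sh k ≤ t
  · simp [a, b]
  · have := h1 (.inl ⟨a, not_le.1 b⟩); simp [a, b, this]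
  · have := h1 (.inr ⟨b, not_le.1 a⟩); simp [a, b, this]
  · simp [a, b]



/-! ### (LIP) on the plateau -/


variable {T : ℝ} {zh zb : ℝ → ℝ}

theorem jf_sub (lz : LB T fun t => zb t - zh t) {s t : ℝ} (hs : s ∈ Icc 0 T) (ht : t ∈ Icc 0 T) :
    Jf T zh zb s - Jf T zh zb t = ∫ u in s..t, (zb u - zh u) := by
  have mT : T ∈ Icc 0 T := ⟨hs.1.trans hs.2, le_rfl⟩
  have := int_split lz hs ht mT
  unfold Jf; linarith

theorem jf_cont (lz : LB T fun t => zb t - zh t) (hT : 0 ≤ T) :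
    ContinuousOn (Jf T zh zb) (Icc 0 T) := by
  have m0 : (0 : ℝ) ∈ Icc 0 T := ⟨le_rfl, hT⟩
  have h1 := intervalIntegral.continuousOn_primitive_interval' (lz.ii m0 ⟨hT, le_rfl⟩) left_mem_uIcc
  rw [uIcc_of_le hT] at h1
  refine (continuousOn_const.sub h1 :
    ContinuousOn (fun s => Jf T zh zb 0 - ∫ u in (0 : ℝ)..s, (zb u - zh u)) _).congr fun s hs => ?_
  have := jf_sub lz m0 hs
  show Jf T zh zb s = Jf T zh zb 0 - ∫ u in (0 : ℝ)..s, (zb u - zh u)
  linarith

/-- a gap of at least `κ` on a length `ℓ` -/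
theorem gap_pos (lz : LB T fun t => zb t - zh t) {u ℓ κ : ℝ} (hu : 0 ≤ u) (hℓ : 0 ≤ ℓ)
    (hT : u + ℓ ≤ T) (hκ : 0 ≤ κ) (h : ∀ t, u < t → t < u + ℓ → κ ≤ zb t - zh t) :
    κ ^ 2 * ℓ ^ 3 / 64 ≤ ∫ s in u..u + ℓ, Jf T zh zb s ^ 2 := by
  refine Sun9.slope_sq hℓ hκ ((jf_cont lz (by linarith)).mono (Icc_subset_Icc hu hT))
    fun s t h1 h2 h3 => ?_
  rw [jf_sub lz ⟨by linarith, by linarith⟩ ⟨by linarith, by linarith⟩]
  have := int_mono (LB.const κ) lz (by linarith) h2 (by linarith)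
    fun y a b => h y (by linarith) (by linarith)
  rw [intervalIntegral.integral_const, smul_eq_mul] at this
  linarith

theorem gap_neg (lz : LB T fun t => zb t - zh t) {u ℓ κ : ℝ} (hu : 0 ≤ u) (hℓ : 0 ≤ ℓ)
    (hT : u + ℓ ≤ T) (hκ : 0 ≤ κ) (h : ∀ t, u < t → t < u + ℓ → zb t - zh t ≤ -κ) :
    κ ^ 2 * ℓ ^ 3 / 64 ≤ ∫ s in u..u + ℓ, Jf T zh zb s ^ 2 := by
  have := Sun9.slope_sq (f := fun s => -Jf T zh zb s) hℓ hκ
    ((jf_cont lz (by linarith)).mono (Icc_subset_Icc hu hT)).neg fun s t h1 h2 h3 => by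
      have e := jf_sub lz (s := s) (t := t) ⟨by linarith, by linarith⟩ ⟨by linarith, by linarith⟩
      have := int_mono lz (LB.const (-κ)) (by linarith) h2 (by linarith)
        fun y a b => h y (by linarith) (by linarith)
      rw [intervalIntegral.integral_const, smul_eq_mul] at this
      linarith
  simpa using this

/-- `|J'| ≤ 1` gives `sup |J|³ ≤ 24 ∫ J²` as soon as there is room `|J s| / 2` on one side -/
theorem sup_cube (lz : LB T fun t => zb t - zh t) (h1 : ∀ t, 0 < t → t < T → |zb t - zh t| ≤ 1)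
    {A B s : ℝ} (hA : 0 ≤ A) (hB : B ≤ T) (hs : A ≤ s) (hsB : s ≤ B)
    (hr : A ≤ s - |Jf T zh zb s| / 2 ∨ s + |Jf T zh zb s| / 2 ≤ B) :
    |Jf T zh zb s| ^ 3 ≤ 8 * ∫ t in A..B, Jf T zh zb t ^ 2 := by
  set j := |Jf T zh zb s| with hj
  have j0 : 0 ≤ j := abs_nonneg _
  have lJ : LB T fun t => Jf T zh zb t ^ 2 := (LB.of_cont (jf_cont lz (by linarith))).sq
  have lip : ∀ x y, 0 ≤ x → x ≤ y → y ≤ T → |Jf T zh zb x - Jf T zh zb y| ≤ y - x := by
    intro x y a b c
    rw [jf_sub lz ⟨a, by linarith⟩ ⟨by linarith, c⟩]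
    refine (abs_integral_le_integral_abs b).trans ?_
    simpa using int_le_const lz.abs (K := 1) a b c fun t t0 t1 => h1 t (by linarith) (by linarith)
  have main : ∀ x y, A ≤ x → y = x + j / 2 → y ≤ B → (∀ t, x < t → t < y → |t - s| ≤ j / 2) →
      j ^ 3 ≤ 8 * ∫ t in A..B, Jf T zh zb t ^ 2 := by
    intro x y a b c d
    have xy : x ≤ y := by linarith
    have m1 := int_mono (LB.const ((j / 2) ^ 2)) lJ (hA.trans a) xy (c.trans hB) fun t t0 t1 => by
      have e : |Jf T zh zb s - Jf T zh zb t| ≤ j / 2 := by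
        rcases le_total s t with o | o
        · exact (lip s t (by linarith) o (by linarith)).trans ((le_abs_self _).trans (d t t0 t1))
        · rw [abs_sub_comm]
          refine (lip t s (by linarith) o (by linarith)).trans ?_
          have := d t t0 t1
          rw [abs_sub_comm] at this
          exact (le_abs_self _).trans this
      have : j / 2 ≤ |Jf T zh zb t| := by
        have := abs_sub_abs_le_abs_sub (Jf T zh zb s) (Jf T zh zb t); linarith
      rw [← sq_abs (Jf T zh zb t)]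
      exact pow_le_pow_left₀ (by positivity) this 2
    have m2 := int_sub_le lJ hA a xy c hB fun _ _ _ => sq_nonneg _
    rw [intervalIntegral.integral_const, smul_eq_mul, b] at m1
    rw [b] at m2
    nlinarith
  rcases hr with h | h
  · exact main (s - j / 2) s h (by ring) hsB fun t a b => abs_le.2 ⟨by linarith, by linarith⟩
  · exact main s (s + j / 2) hs rfl h fun t a b => abs_le.2 ⟨by linarith, by linarith⟩

end Crest.Agent.T156.Lab36

end
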