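import Crest.Agent.T156.POde_3

/-!
Row 156 (helper48): leaf L-g of docs/T156_69.md.  For every admissible list:
`c s³ ≤ s G(s) - Γ(s) + z s²` (`z ≥` tilt on `[0,s)`), `G ≥ e^{-4T}`, and the root-zone bounds.
-/

set_option autoImplicit false

namespace Crest.Agent.T156.L048

open MeasureTheory Set
open Crest.Agent.R164.GC Crest.Agent.R339.B Crest.Agent.R339.Var Crest.Agent.T157.Pf
open Crest.Agent.T156.Pp Crest.Agent.T156.Pp.Ode3

noncomputable section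

variable {l : List (ℝ × ℝ)} {T s t : ℝ}

theorem chi_ge (h : AP l) (hT : TT l ≤ T) : Real.exp (-T) ≤ Ode3.chi l := by
  have := lo2_PhiL h.adm 0
  rw [(PhiL_inv one_pos h.adm).d0] at this
  unfold Ode3.chi
  rw [Dn_one]
  have h2 : Real.exp (-T) ≤ Real.exp (-TT l) := Real.exp_le_exp.2 (by linarith)
  linarith

theorem Gp_le_X2 (h : Adm 1 l) (t : ℝ) : Gp l t ≤ X2 l t :=
  Et_mono bfn_W1 (bfn_Dn 1) fun y => by
    have a := D1_pos h t y
    have b := D1_le h t y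
    unfold W1
    nlinarith

theorem X2_sq_le (l : List (ℝ × ℝ)) (t : ℝ) : X2 l t ^ 2 ≤ Gp l t := by
  obtain ⟨K, hK⟩ := Et_bc (bfn_Dn 1) l t
  exact EX_sq one_pos l t hK 0

theorem X2_ge (h : AP l) (hT : TT l ≤ T) (ht : t ∈ Icc 0 (TT l)) :
    Real.exp (-(2 * T)) ≤ X2 l t := by
  have h1 := le_of_rder (f := fun r => -(Real.exp r * X2 l r)) ht.1
    ((Real.continuous_exp.continuousOn.mul ((X2_cont h).mono (Icc_subset_Icc le_rfl ht.2))).neg)
    (fun r hr => (((Real.hasDerivAt_exp r).hasDerivWithinAt).fun_mul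
      (X2_rder h hr.1 (hr.2.trans_le ht.2))).fun_neg)
    (fun r _ => by
      have a := mul_le_mul_of_nonneg_right (lvr_le_one h.adm r) (Gp_nonneg l r)
      have b := Gp_le_X2 h.adm r
      have c := Real.exp_pos r
      nlinarith)
  simp only [Real.exp_zero, one_mul, X2_zero h] at h1
  have h2 := chi_ge h hT
  have h3 : Real.exp (-(2 * T)) * Real.exp t ≤ Real.exp (-T) := by
    rw [← Real.exp_add]; exact Real.exp_le_exp.2 (by linarith [ht.2])
  have h4 := Real.exp_pos t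
  nlinarith

/-- `G = E Φ_xx² ≥ e^{-4T}` -/
theorem Gp_ge (h : AP l) (hT : TT l ≤ T) (ht : t ∈ Icc 0 (TT l)) :
    Real.exp (-(4 * T)) ≤ Gp l t := by
  refine le_trans ?_ (X2_sq_le l t)
  have := pow_le_pow_left₀ (Real.exp_pos _).le (X2_ge h hT ht) 2
  rwa [← Real.exp_nat_mul, show ((2:ℕ):ℝ) * -(2 * T) = -(4 * T) by push_cast; ring] at this

theorem Gam_ge (h : AP l) (hT : TT l ≤ T) (ht : t ∈ Icc 0 (TT l)) :
    Real.exp (-(4 * T)) * t ≤ Gam l t := by
  have h1 := le_of_rder (f := fun r => Real.exp (-(4 * T)) * r - Gam l r) ht.1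
    ((by fun_prop : ContinuousOn (fun r : ℝ => Real.exp (-(4 * T)) * r) _).sub
      ((Gam_cont h).mono (Icc_subset_Icc le_rfl ht.2)))
    (fun r hr => ((hasDerivWithinAt_id r _).const_mul _).fun_sub
      (Gam_rder h hr.1 (hr.2.trans_le ht.2)))
    (fun r hr => by linarith [Gp_ge h hT ⟨hr.1, hr.2.le.trans ht.2⟩])
  simp only [Gam_zero h] at h1
  linarith

/-! ### the fourth moment -/

def V4 (Φ : ℝ → ℝ) (y : ℝ) : ℝ := (Dn 0 Φ y ^ 2) ^ 2
def V4' (Φ : ℝ → ℝ) (y : ℝ) : ℝ := Dn 0 Φ y ^ 2 * Dn 1 Φ y ^ 2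

theorem bfn_V4 : BFn V4 :=
  ⟨fun _ h => toBC (((Dn_bd h 0).pow 2).pow 2), fun _ h m _ => ((Dn_ug h m 0).pow 2).pow 2⟩
theorem bfn_V4' : BFn V4' :=
  ⟨fun _ h => toBC (((Dn_bd h 0).pow 2).mul ((Dn_bd h 1).pow 2)),
    fun _ h m _ => ((Dn_ug h m 0).pow 2).mul ((Dn_ug h m 1).pow 2)⟩
theorem bfn_mul {G : (ℝ → ℝ) → ℝ → ℝ} (hG : BFn G) (c : ℝ) : BFn fun Φ y => c * G Φ y :=
  ⟨fun Φ h => by obtain ⟨K, hK⟩ := hG.bc Φ h; exact ⟨_, hK.const_mul c⟩,
    fun Φ h m hm => (hG.ug Φ h m hm).const_mul c⟩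
theorem Et_mul {G : (ℝ → ℝ) → ℝ → ℝ} (hG : BFn G) (c : ℝ) (l : List (ℝ × ℝ)) (t : ℝ) :
    Et (fun Φ y => c * G Φ y) l t = c * Et G l t := by
  rw [Et_lin hG hG c 0 (fun Φ y => by ring)]; ring

theorem M4_rder (h : AP l) (h0 : 0 ≤ t) (h1 : t < TT l) :
    HasDerivWithinAt (Et V4 l) (6 * Et V4' l t) (Ici t) t := by
  refine (Et_rder (G' := fun _ Φ y => 6 * V4' Φ y) bfn_V4 (fun _ => bfn_mul bfn_V4' 6)
    (fun Φ hΦ m _ => ⟨_, (((tb_Dn hΦ m 0).mul (tb_Dn hΦ m 0)).mul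
      ((tb_Dn hΦ m 0).mul (tb_Dn hΦ m 0))).congr (fun v x => by unfold V4; ring)
      (fun v x => by
        unfold V4'
        simp only [Finset.range_zero, Finset.sum_empty]
        ring) (fun _ _ => rfl)⟩) h h0 h1).congr_deriv ?_
  rw [Et_mul bfn_V4']

theorem M4_zero (h : AP l) : Et V4 l 0 = 0 := by
  rw [Et_zero _ h.nn, V4, D0_zero h.adm]; ring

theorem V4'_nonneg (l : List (ℝ × ℝ)) (t : ℝ) : 0 ≤ Et V4' l t :=
  Et_nonneg bfn_V4' fun _ => by unfold V4'; positivity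

theorem V4'_le (h : Adm 1 l) (t : ℝ) : Et V4' l t ≤ Gam l t :=
  Et_mono bfn_V4' bfn_W0 fun y => mul_le_of_le_one_right (sq_nonneg _)
    (pow_le_one₀ (D1_pos h t y).le (D1_le h t y))

theorem Gam_sq_le (l : List (ℝ × ℝ)) (t : ℝ) : Gam l t ^ 2 ≤ Et V4 l t := by
  obtain ⟨K, hK⟩ := Et_bc bfn_W0 l t
  exact EX_sq one_pos l t hK 0

theorem M4_le (h : AP l) (ht : t ∈ Icc 0 (TT l)) : Et V4 l t ≤ 3 * t ^ 2 := by
  have h1 := le_of_rder (f := fun r => Et V4 l r - 3 * r ^ 2) ht.1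
    (((Et_cont bfn_V4 h).mono (Icc_subset_Icc le_rfl ht.2)).sub (by fun_prop))
    (fun r hr => (M4_rder h hr.1 (hr.2.trans_le ht.2)).fun_sub
      (((hasDerivWithinAt_id r _).fun_pow 2).const_mul 3))
    (fun r hr => by
      have a := V4'_le h.adm r
      have b := Gam_le h ⟨hr.1, hr.2.le.trans ht.2⟩
      simp only [id, Nat.cast_ofNat, Nat.reduceSub, pow_one]
      linarith)
  simp only [M4_zero h] at h1
  linarith

/-- `N ≥ 4 e^{-6T} E Φ_x² Φ_xx²` -/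
theorem Nm_ge (h : AP l) (hT : TT l ≤ T) (ht : t ∈ Icc 0 (TT l)) :
    4 * Real.exp (-(6 * T)) * Et V4' l t ≤ Nm l t := by
  rw [← Et_mul bfn_V4']
  refine Et_mono (bfn_mul bfn_V4' _) bfn_W2 fun x => ?_
  obtain ⟨m, _, _, hI⟩ := PhiT_inv one_pos l h.adm t
  have hH := hop_PhiT h.adm t ht.2
  unfold V4' W2
  rw [Dn_zero, Dn_one, Dn_two]
  set Φ := PhiT 1 l t
  have key : ∀ y, 0 ≤ y → 4 * Real.exp (-(6 * T)) * (deriv Φ y ^ 2 * deriv (deriv Φ) y ^ 2) ≤
      deriv (deriv (deriv Φ)) y ^ 2 := by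
    intro y hy
    have h0 : 0 ≤ deriv Φ y * deriv (deriv Φ) y := mul_nonneg (hI.nonneg hy) (u2_pos hI y).le
    have h2 : Real.exp (-(3 * T)) ≤ Real.exp (-(3 * (TT l - t))) :=
      Real.exp_le_exp.2 (by linarith [ht.1])
    have h3 : 2 * Real.exp (-(3 * T)) * (deriv Φ y * deriv (deriv Φ) y) ≤
        -deriv (deriv (deriv Φ)) y := (mul_le_mul_of_nonneg_right (by linarith) h0).trans (hH y hy)
    have h4 := pow_le_pow_left₀ (by positivity) h3 2
    have h5 : Real.exp (-(6 * T)) = Real.exp (-(3 * T)) ^ 2 := by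
      rw [sq (Real.exp _), ← Real.exp_add]
      congr 1
      ring
    rw [h5]
    nlinarith
  rcases le_total 0 x with hx | hx
  · exact key x hx
  · have := key (-x) (by linarith)
    rwa [hI.odd x, u2_even hI x, u3_odd hI x, neg_sq, neg_sq] at this

/-- `G(s) - G(t) ≥ κ (M4(s) - M4(t)) - 2 z (s - t)` -/
theorem Gp_sub_ge (h : AP l) (hT : TT l ≤ T) {z : ℝ} (ht : 0 ≤ t) (hts : t ≤ s) (hs : s ≤ TT l)
    (hz : ∀ r ∈ Ico t s, lvr 1 l r ≤ z) :
    2 / 3 * Real.exp (-(6 * T)) * (Et V4 l s - Et V4 l t) - 2 * z * (s - t) ≤ Gp l s - Gp l t := by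
  have h1 := le_of_rder
    (f := fun r => 2 / 3 * Real.exp (-(6 * T)) * Et V4 l r - Gp l r - 2 * z * r) hts
    (((continuousOn_const.mul ((Et_cont bfn_V4 h).mono (Icc_subset_Icc ht hs))).sub
      ((Gp_cont h).mono (Icc_subset_Icc ht hs))).sub (by fun_prop))
    (fun r hr => (((M4_rder h (ht.trans hr.1) (hr.2.trans_le hs)).const_mul _).fun_sub
      (Gp_rder h (ht.trans hr.1) (hr.2.trans_le hs))).fun_sub
      ((hasDerivWithinAt_id r _).const_mul (2 * z)))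
    (fun r hr => by
      have a := Nm_ge h hT ⟨ht.trans hr.1, hr.2.le.trans hs⟩
      have b := mul_le_of_le_one_right (lvr_pos h.adm r).le (Am_le_one h.adm r)
      have c := hz r hr
      linarith)
  linarith

/-- the constant -/
def c0 (T : ℝ) : ℝ := 4 / 27 * Real.exp (-(18 * T))

theorem c0_pos (T : ℝ) : 0 < c0 T := by unfold c0; positivity

/-- **averaged (H3)** -/
theorem core (h : AP l) (hT : TT l ≤ T) (hs : s ∈ Icc 0 (TT l)) {z : ℝ}
    (hz : ∀ r ∈ Ico 0 s, lvr 1 l r ≤ z) :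
    c0 T * s ^ 3 ≤ s * Gp l s - Gam l s + z * s ^ 2 := by
  set g := Real.exp (-(4 * T)) with hg
  set k := 2 / 3 * Real.exp (-(6 * T)) with hk
  have hg0 : 0 < g := Real.exp_pos _
  have hk0 : 0 < k := by positivity
  have hg1 : g ≤ 1 := Real.exp_le_one_iff.2 (by linarith [h.TT_nn])
  have hu0 : 0 ≤ g / 3 * s := mul_nonneg (by positivity) hs.1
  have hus : g / 3 * s ≤ s := mul_le_of_le_one_left hs.1 (by linarith)
  have mono : ∀ r, 0 ≤ r → r ≤ s → Et V4 l r ≤ Et V4 l s := fun r h0 h1 => by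
    have := le_of_rder (f := fun r => -Et V4 l r) h1
      ((Et_cont bfn_V4 h).mono (Icc_subset_Icc h0 hs.2)).neg
      (fun x hx => (M4_rder h (h0.trans hx.1) (hx.2.trans_le hs.2)).fun_neg)
      (fun x _ => by linarith [V4'_nonneg l x])
    linarith
  have step : ∀ a b c : ℝ, 0 ≤ a → a ≤ b → b ≤ s →
      (∀ r ∈ Ico a b, c ≤ k * (Et V4 l s - Et V4 l r)) →
      Gam l b - (Gp l s - c) * b + z * (s - b) ^ 2 ≤
        Gam l a - (Gp l s - c) * a + z * (s - a) ^ 2 := fun a b c ha hab hb hc =>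
    le_of_rder (f := fun r => Gam l r - (Gp l s - c) * r + z * (s - r) ^ 2) hab
      ((((Gam_cont h).mono (Icc_subset_Icc ha (hb.trans hs.2))).sub (by fun_prop)).add
        (by fun_prop))
      (fun r hr => ((Gam_rder h (ha.trans hr.1) (hr.2.trans_le (hb.trans hs.2))).fun_sub
        ((hasDerivWithinAt_id r _).const_mul _)).fun_add
        ((((hasDerivWithinAt_id r _).const_sub s).fun_pow 2).const_mul z))
      (fun r hr => by
        have a1 := Gp_sub_ge h hT (ha.trans hr.1) (hr.2.le.trans hb) hs.2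
          (fun x hx => hz x ⟨(ha.trans hr.1).trans hx.1, hx.2⟩)
        have a2 := hc r hr
        rw [← hk] at a1
        simp only [id, Nat.cast_ofNat, Nat.reduceSub, pow_one]
        linarith)
  have s1 := step 0 (g / 3 * s) (k * (2 / 3 * g ^ 2 * s ^ 2)) le_rfl hu0 hus (fun r hr => by
    refine mul_le_mul_of_nonneg_left ?_ hk0.le
    have a1 := M4_le h ⟨hr.1, (hr.2.le.trans hus).trans hs.2⟩
    have a2 := (pow_le_pow_left₀ (mul_nonneg hg0.le hs.1) (Gam_ge h hT hs) 2).trans (Gam_sq_le l s)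
    have a3 := pow_le_pow_left₀ hr.1 hr.2.le 2
    nlinarith)
  have s2 := step (g / 3 * s) s 0 hu0 hus le_rfl (fun r hr =>
    mul_nonneg hk0.le (sub_nonneg.2 (mono r (hu0.trans hr.1) hr.2.le)))
  have e : c0 T = k * (2 / 9 * g ^ 3) := by
    rw [c0, hk, hg, ← Real.exp_nat_mul, show -(18 * T) = -(6 * T) + ((3:ℕ):ℝ) * -(4 * T) by
      push_cast; ring, Real.exp_add]
    ring
  rw [Gam_zero h] at s1
  rw [e]
  linarith



/-- **(L0)**: label `≤ L`, Plefka up to `b L²`, E1 up to `L³` give `s ≤ 3L/c0` -/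
theorem l0 (h : AP l) (hT : TT l ≤ T) (hs : s ∈ Icc 0 (TT l)) {L b : ℝ} (hb : 0 < b) (hL : 0 ≤ L)
    (hz : ∀ r ∈ Ico 0 s, lvr 1 l r ≤ L) (hg : b * Gp l s - 1 ≤ b * L ^ 2)
    (he : s / b - Gam l s ≤ L ^ 3) : s ≤ 3 / c0 T * L := by
  have h1 := core h hT hs hz
  have c1 : c0 T ≤ 3 := by
    have : Real.exp (-(18 * T)) ≤ 1 := Real.exp_le_one_iff.2 (by linarith [h.TT_nn])
    unfold c0; linarith
  have c2 := c0_pos T
  rw [div_mul_eq_mul_div, le_div_iff₀ c2]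
  rcases le_total s L with hsL | hsL
  · nlinarith [hs.1]
  have h2 : s * Gp l s ≤ s / b + s * L ^ 2 := by
    have : Gp l s ≤ 1 / b + L ^ 2 := by
      rw [← sub_le_iff_le_add']
      have := div_le_div_of_nonneg_right hg hb.le
      rw [mul_div_cancel_left₀ _ hb.ne', sub_div, mul_div_cancel_left₀ _ hb.ne'] at this
      exact this
    have := mul_le_mul_of_nonneg_left this hs.1
    rw [mul_add, mul_one_div] at this
    exact this
  rcases hs.1.eq_or_lt with h0 | h0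
  · rw [← h0]; linarith
  have h3 : L ^ 2 * s ≤ L * s ^ 2 := by nlinarith [mul_nonneg hL hs.1]
  have h4 : L ^ 3 ≤ L ^ 2 * s := by nlinarith [sq_nonneg L]
  have h5 : s ^ 2 * (s * c0 T) ≤ s ^ 2 * (3 * L) := by linarith
  exact le_of_mul_le_mul_left h5 (by positivity)

/-! ### root zone -/





end

end Crest.Agent.T156.L048
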