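import Crest.Agent.T156.Atom_48
import Crest.Agent.T156.KerB_31
import Crest.Agent.T156.FrL_27
import Crest.Agent.T156.CutB_8
import Crest.Agent.T156.L0_48
import Crest.Agent.T156.HmC_32

/-!
Row 156 (helper48): text (L), leaf T-d of docs/T156_36T.md: the regions (ii)-(iv) near the top
plateau, in the list frame, and the gluing of residual data.
-/

set_option autoImplicit false

namespace Crest.Agent.T156.Pr.Reg48

open MeasureTheory Set
open Crest.Agent.R164.GC Crest.Agent.R339.B Crest.Agent.R339.Var Crest.Agent.T157.Pf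
open Crest.Agent.T156.Cut8 (LB Res)

noncomputable section

/-- `G'` -/
def Gd (l : List (ℝ × ℝ)) (t : ℝ) : ℝ := NN l t - 2 * lvr 1 l t * AA l t

/-- growth bound from a bound on the right derivative -/
theorem le_of_rder {f f' B B' : ℝ → ℝ} {a b : ℝ} (hab : a ≤ b) (hf : ContinuousOn f (Icc a b))
    (hd : ∀ x ∈ Ico a b, HasDerivWithinAt f (f' x) (Ici x) x) (h0 : f a ≤ B a)
    (hB : ∀ x, HasDerivAt B (B' x) x) (h : ∀ x ∈ Ico a b, f' x ≤ B' x) : f b ≤ B b :=
  image_le_of_deriv_right_le_deriv_boundary hf hd h0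
    (fun x _ => (hB x).continuousAt.continuousWithinAt) (fun x _ => (hB x).hasDerivWithinAt) h
    ⟨hab, le_rfl⟩

variable {l l' : List (ℝ × ℝ)} {p q s t K : ℝ}

theorem ode (h : Ok l) : ContinuousOn (Gam l) (Icc 0 (TT l)) ∧ ContinuousOn (GG l) (Icc 0 (TT l)) ∧
    (∀ t, 0 ≤ t → t < TT l → HasDerivWithinAt (Gam l) (GG l t) (Ici t) t ∧
      HasDerivWithinAt (GG l) (Gd l t) (Ici t) t) ∧
    ∀ t ∈ Icc 0 (TT l), 0 ≤ AA l t ∧ AA l t ≤ 1 := by
  obtain ⟨C, -, hC⟩ := Pp.Ode3.odeS (TT l)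
  obtain ⟨⟨c1, c2, -⟩, hd, -, hb⟩ := hC l h le_rfl
  exact ⟨c1, c2, fun t a b => ⟨(hd t a b).1, (hd t a b).2.1⟩,
    fun t ht => ⟨(hb t ht).2.2.2.2.2.1, (hb t ht).2.2.2.2.2.2.1⟩⟩

theorem GG_up (h : Ok l) (hp : 0 ≤ p) (hpt : p ≤ t) (ht : t ≤ TT l)
    (hK : ∀ s ∈ Ico p t, Gd l s ≤ K) : GG l t ≤ GG l p + K * (t - p) := by
  obtain ⟨-, c, d, -⟩ := ode h
  exact le_of_rder (B := fun s => GG l p + K * (s - p)) (B' := fun _ => K) hpt
    (c.mono (Icc_subset_Icc hp ht)) (fun x hx => (d x (hp.trans hx.1) (hx.2.trans_le ht)).2)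
    (by simp) (fun x => by
      simpa using (((hasDerivAt_id x).sub_const p).const_mul K).const_add (GG l p)) hK

theorem GG_lo (h : Ok l) (hp : 0 ≤ p) (hpt : p ≤ t) (ht : t ≤ TT l)
    (hK : ∀ s ∈ Ico p t, K ≤ Gd l s) : GG l p + K * (t - p) ≤ GG l t := by
  obtain ⟨-, c, d, -⟩ := ode h
  have := le_of_rder (f := fun s => -GG l s) (f' := fun s => -Gd l s)
    (B := fun s => -GG l p - K * (s - p)) (B' := fun _ => -K) hpt
    (c.mono (Icc_subset_Icc hp ht)).neg
    (fun x hx => (d x (hp.trans hx.1) (hx.2.trans_le ht)).2.neg) (by simp) (fun x => by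
      simpa using (((hasDerivAt_id x).sub_const p).const_mul K).const_sub (-GG l p))
    fun x hx => neg_le_neg (hK x hx)
  linarith

theorem sq_der (a K p x : ℝ) :
    HasDerivAt (fun s => a * (s - p) + K / 2 * (s - p) ^ 2) (a + K * (x - p)) x := by
  have h := (hasDerivAt_id x).sub_const p
  refine ((h.const_mul a).add ((h.fun_pow 2).const_mul (K / 2))).congr_deriv ?_
  simp only [id]
  push_cast
  ring

/-- one-sided Taylor bound, forwards -/
theorem Gam_up (h : Ok l) (hp : 0 ≤ p) (hpt : p ≤ t) (ht : t ≤ TT l)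
    (hK : ∀ s ∈ Ico p t, Gd l s ≤ K) :
    Gam l t ≤ Gam l p + (GG l p * (t - p) + K / 2 * (t - p) ^ 2) := by
  obtain ⟨c, -, d, -⟩ := ode h
  exact le_of_rder (B := fun s => Gam l p + (GG l p * (s - p) + K / 2 * (s - p) ^ 2))
    (B' := fun s => GG l p + K * (s - p)) hpt
    (c.mono (Icc_subset_Icc hp ht)) (fun x hx => (d x (hp.trans hx.1) (hx.2.trans_le ht)).1)
    (by simp) (fun x => (sq_der _ _ _ x).const_add _) fun x hx =>
      GG_up h hp hx.1 (hx.2.le.trans ht) fun s hs => hK s ⟨hs.1, hs.2.trans hx.2⟩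


/-- increments of `Γ - k s` from a bound on `G` -/
theorem Gam_inc_up (h : Ok l) (hp : 0 ≤ p) (hpt : p ≤ t) (ht : t ≤ TT l)
    (hK : ∀ s ∈ Ico p t, GG l s ≤ K) : Gam l t ≤ Gam l p + K * (t - p) := by
  obtain ⟨c, -, d, -⟩ := ode h
  exact le_of_rder (B := fun s => Gam l p + K * (s - p)) (B' := fun _ => K) hpt
    (c.mono (Icc_subset_Icc hp ht)) (fun x hx => (d x (hp.trans hx.1) (hx.2.trans_le ht)).1)
    (by simp) (fun x => by
      simpa using (((hasDerivAt_id x).sub_const p).const_mul K).const_add (Gam l p)) hK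

theorem Gam_inc_lo (h : Ok l) (hp : 0 ≤ p) (hpt : p ≤ t) (ht : t ≤ TT l)
    (hK : ∀ s ∈ Ico p t, K ≤ GG l s) : Gam l p + K * (t - p) ≤ Gam l t := by
  obtain ⟨c, -, d, -⟩ := ode h
  have := le_of_rder (f := fun s => -Gam l s) (f' := fun s => -GG l s)
    (B := fun s => -Gam l p - K * (s - p)) (B' := fun _ => -K) hpt
    (c.mono (Icc_subset_Icc hp ht)).neg
    (fun x hx => (d x (hp.trans hx.1) (hx.2.trans_le ht)).1.neg) (by simp) (fun x => by
      simpa using (((hasDerivAt_id x).sub_const p).const_mul K).const_sub (-Gam l p))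
    fun x hx => neg_le_neg (hK x hx)
  linarith



/-- **`G' ≤ -c` at tilts close to `1`** -/
theorem Gd_neg (T0 : ℝ) : ∃ u0 c : ℝ, 0 < u0 ∧ 0 < c ∧ ∀ l, Ok l → TT l ≤ T0 → ∀ t, 0 ≤ t →
    t < TT l → 1 - u0 ≤ lvr 1 l t → Gd l t ≤ -c := by
  obtain ⟨C, c1, hC⟩ := Ker.fun_lip T0
  set e := Real.exp (-(4 * T0)) with he
  have e0 : 0 < e := Real.exp_pos _
  set M := C * T0 ^ 2 + 2 * (C * |T0|) + 2 with hM
  have M0 : 0 < M := by positivity
  refine ⟨e / (4 * M), e / 4, by positivity, by positivity, fun l h hT t t0 t1 hz => ?_⟩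
  set u := e / (4 * M) with hu
  have u0 : 0 < u := by positivity
  have Tp : 0 < TT l := t0.trans_lt t1
  have a1 : Adm 1 [((1:ℝ), TT l)] := ⟨one_pos, le_rfl, Tp.le, trivial⟩
  have a2 : TT [((1:ℝ), TT l)] = TT l := by simp [TT]
  have a3 : ∀ s, lvr 1 [((1:ℝ), TT l)] s = 1 := fun s => by simp [lvr]
  obtain ⟨w', b1, b2, b3, b4⟩ := Spl27.splice h.1 a1 t0 t1.le (by rw [a2]; exact t1.le)
    fun s _ _ => by rw [a3]; exact Pp.Ode3.lvr_le_one h.1 s
  obtain ⟨w, ok, ev, -⟩ := Spl27.exists_ok b1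
  have tw : TT w = TT l := by rw [← ev.tt, b2, a2]
  have w1 : ∀ s, t ≤ s → lvr 1 w s = 1 := fun s hs => by
    rw [← ev.lv s (t0.trans hs), b4 s hs, a3]
  have w0 : ∀ s, 0 ≤ s → s < t → lvr 1 w s = lvr 1 l s := fun s h0 hs => by
    rw [← ev.lv s h0, b3 s h0 hs]
  have ts := Atom48.top_slope ok t0 (by rw [tw]; exact t1) w1
  have g : e ≤ GG w t := L048.Gp_ge (Spl27.ap_of_ok ok) (by rw [tw]; exact hT)
    ⟨t0, by rw [tw]; exact t1.le⟩
  obtain ⟨-, -, dA, dN, -⟩ := hC l w h.1 ok.1 tw hT t ⟨t0, t1.le⟩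
  have W0 : Ker.Wf l w t = 0 := Cut8.int_zero t0 fun s h0 hs => by rw [w0 s h0.le hs]; simp
  have N0 : 0 ≤ Ker.Nf l w t (TT l) :=
    intervalIntegral.integral_nonneg t1.le fun _ _ => abs_nonneg _
  have T1 : TT l - t ≤ |T0| := by linarith [le_abs_self T0]
  have T2 : t ≤ |T0| := by linarith [le_abs_self T0]
  have N1 : Ker.Nf l w t (TT l) ≤ |T0| * u := by
    have := intervalIntegral.norm_integral_le_of_norm_le_const (a := t) (b := TT l) (C := u)
      (f := fun s => |lvr 1 w s - lvr 1 l s|) fun s hs => by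
        rw [uIoc_of_le t1.le] at hs
        have z1 := Pp.Ode3.lvr_mono h.1 hs.1.le
        have z2 := Pp.Ode3.lvr_le_one h.1 s
        rw [w1 s hs.1.le, Real.norm_eq_abs, abs_abs, abs_of_nonneg (by linarith)]
        linarith
    rw [Real.norm_eq_abs, abs_of_nonneg (by linarith : 0 ≤ TT l - t)] at this
    exact (le_abs_self _).trans (this.trans (by nlinarith))
  rw [W0, zero_add] at dA dN
  have d1 : C * Ker.Nf l w t (TT l) ≤ C * |T0| * u := by
    rw [mul_assoc]; exact mul_le_mul_of_nonneg_left N1 (by linarith)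
  have d2 : C * (t * Ker.Nf l w t (TT l)) ≤ C * T0 ^ 2 * u := by
    have := mul_le_mul T2 N1 N0 (abs_nonneg _)
    rw [← mul_assoc, abs_mul_abs_self, ← sq] at this
    rw [mul_assoc]; exact mul_le_mul_of_nonneg_left this (by linarith)
  obtain ⟨A0, A1⟩ := (ode h).2.2.2 t ⟨t0, t1.le⟩
  have d3 : (1 - lvr 1 l t) * AA l t ≤ u := by
    have := Pp.Ode3.lvr_le_one h.1 t
    nlinarith
  have d4 : M * u = e / 4 := by rw [hu]; field_simp
  have f1 := (abs_le.1 dA).2
  have f2 := (abs_le.1 dN).1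
  unfold Gd
  nlinarith


/-! ### the regions -/

/-- **region (ii)**: frozen mark `h0`, upper bound of the residual to the right of `p` -/
theorem reg2 (h : Ok l) {b h0 η g : ℝ} (hb : 0 < b) (hp : 0 ≤ p) (hps : p ≤ s) (hs : s ≤ TT l)
    (hK : ∀ r ∈ Ico p s, Gd l r ≤ K) (hη : Gam l p - (p - h0) / b ≤ η) (hg : b * GG l p ≤ 1 + g) :
    Gam l s - (s - h0) / b ≤ η + g / b * (s - p) + K / 2 * (s - p) ^ 2 := by
  have a := Gam_up h hp hps hs hK
  have c : GG l p ≤ 1 / b + g / b := by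
    rw [← add_div, le_div_iff₀ hb]; linarith
  have d := mul_le_mul_of_nonneg_right c (sub_nonneg.2 hps)
  have e : (s - h0) / b = (p - h0) / b + 1 / b * (s - p) := by ring
  linarith

/-- the same, uniformly on `[p, q]` -/
theorem reg2' (h : Ok l) {b h0 η g : ℝ} (hb : 0 < b) (hp : 0 ≤ p) (hq : q ≤ TT l) (g0 : 0 ≤ g)
    (K0 : 0 ≤ K) (hK : ∀ r ∈ Ico p q, Gd l r ≤ K) (hη : Gam l p - (p - h0) / b ≤ η)
    (hg : b * GG l p ≤ 1 + g) (hs : s ∈ Icc p q) :
    Gam l s - (s - h0) / b ≤ η + g / b * (q - p) + K / 2 * (q - p) ^ 2 := by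
  refine (reg2 h hb hp hs.1 (hs.2.trans hq) (fun r hr => hK r ⟨hr.1, hr.2.trans_le hs.2⟩) hη
    hg).trans ?_
  have := sub_nonneg.2 hs.1
  have := hs.2
  gcongr

/-- concavity: `Γ - k s` lies above the smaller end value -/
theorem conc (h : Ok l) (k : ℝ) (hp : 0 ≤ p) (hq : q ≤ TT l) (hK : ∀ r ∈ Ico p q, Gd l r ≤ 0)
    (hs : s ∈ Icc p q) : min (Gam l p - k * p) (Gam l q - k * q) ≤ Gam l s - k * s := by
  have s0 := hp.trans hs.1
  rcases le_total k (GG l s) with a | a
  · refine (min_le_left _ _).trans ?_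
    have := Gam_inc_lo h hp hs.1 (hs.2.trans hq) (K := k) fun r hr => by
      have := GG_up h (hp.trans hr.1) hr.2.le (hs.2.trans hq) (K := 0)
        fun x hx => hK x ⟨hr.1.trans hx.1, hx.2.trans_le hs.2⟩
      linarith
    linarith
  · refine (min_le_right _ _).trans ?_
    have := Gam_inc_up h s0 hs.2 hq (K := k) fun r hr => by
      have := GG_up h s0 hr.1 (hr.2.le.trans hq) (K := 0)
        fun x hx => hK x ⟨hs.1.trans hx.1, hx.2.trans hr.2⟩
      linarith
    linarith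


/-- **region (iv)**: `Γ' - Γ` moves by at most `j` per unit of time -/
theorem reg4 (h : Ok l) (h' : Ok l') {j : ℝ} (hp : 0 ≤ p) (hps : p ≤ s) (hs : s ≤ TT l)
    (hs' : s ≤ TT l') (hj : ∀ r ∈ Ico p s, |GG l' r - GG l r| ≤ j) :
    |Gam l' s - Gam l s - (Gam l' p - Gam l p)| ≤ j * (s - p) := by
  obtain ⟨c, -, d, -⟩ := ode h
  obtain ⟨c', -, d', -⟩ := ode h'
  have := norm_image_sub_le_of_norm_deriv_right_le_segment (f := fun r => Gam l' r - Gam l r)
    (f' := fun r => GG l' r - GG l r) (C := j) (a := p) (b := s)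
    ((c'.mono (Icc_subset_Icc hp hs')).sub (c.mono (Icc_subset_Icc hp hs)))
    (fun r hr => (d' r (hp.trans hr.1) (hr.2.trans_le hs')).1.sub
      (d r (hp.trans hr.1) (hr.2.trans_le hs)).1) hj s ⟨hps, le_rfl⟩
  exact this

/-- growth of `M(s) = s - b Γ(s)` where `1 - b G ≥ e` -/
theorem Mh_ge (h : Ok l) {b e : ℝ} (hb : 0 < b) (hp : 0 ≤ p) (hps : p ≤ s) (hs : s ≤ TT l)
    (he : ∀ r ∈ Ico p s, e ≤ 1 - b * GG l r) :
    p - b * Gam l p + e * (s - p) ≤ s - b * Gam l s := by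
  have a := Gam_inc_up h hp hps hs (K := (1 - e) / b) fun r hr => by
    rw [le_div_iff₀ hb]; linarith [he r hr]
  have c := mul_le_mul_of_nonneg_left a hb.le
  have d : b * (Gam l p + (1 - e) / b * (s - p)) = b * Gam l p + (1 - e) * (s - p) := by
    field_simp
  linarith

theorem Mh_le (h : Ok l) {b e : ℝ} (hb : 0 < b) (hp : 0 ≤ p) (hps : p ≤ s) (hs : s ≤ TT l)
    (he : ∀ r ∈ Ico p s, 1 - b * GG l r ≤ e) :
    s - b * Gam l s ≤ p - b * Gam l p + e * (s - p) := by
  have a := Gam_inc_lo h hp hps hs (K := (1 - e) / b) fun r hr => by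
    rw [div_le_iff₀ hb]; linarith [he r hr]
  have c := mul_le_mul_of_nonneg_left a hb.le
  have d : b * (Gam l p + (1 - e) / b * (s - p)) = b * Gam l p + (1 - e) * (s - p) := by
    field_simp
  linarith

/-- the tail integral in the last shell -/
theorem Jf_le {T u : ℝ} (hs : s ≤ T) (hu : ∀ r ∈ Ioc s T, |lvr 1 l' r - lvr 1 l r| ≤ u) :
    |Sc48.Jf l l' T s| ≤ u * (T - s) := by
  have := intervalIntegral.norm_integral_le_of_norm_le_const (a := s) (b := T) (C := u)
    (f := fun r => lvr 1 l' r - lvr 1 l r) fun r hr => hu r (by rwa [uIoc_of_le hs] at hr)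
  rwa [abs_of_nonneg (sub_nonneg.2 hs)] at this

/-- pairing where `dz ≥ 0` -/
theorem pair_pos {r d β B : ℝ} (hd : 0 ≤ d) (hr : r ≤ B) : r * d + β * |d| ≤ (B + β) * |d| := by
  rw [abs_of_nonneg hd]; nlinarith

/-- pairing where `dz ≤ 0` -/
theorem pair_neg {r d β B : ℝ} (hd : d ≤ 0) (hr : -B ≤ r) : r * d + β * |d| ≤ (B + β) * |d| := by
  rw [abs_of_nonpos hd]; nlinarith

/-! ### gluing of residual data -/

theorem LB_ite {T M : ℝ} {f g : ℝ → ℝ} (hf : LB T f) (hg : LB T g) :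
    LB T fun t => if t < M then f t else g t := by
  have i : LB T fun t => if t < M then (1:ℝ) else 0 :=
    .of_meas (Measurable.ite measurableSet_Iio measurable_const measurable_const) (K := 1)
      fun t _ => by split_ifs <;> simp
  have := (i.mul (hf.sub hg)).add hg
  convert this using 2 with t
  split_ifs <;> ring

theorem int_ite {T A M B : ℝ} {f g : ℝ → ℝ} (hf : LB T f) (hg : LB T g) (hA : 0 ≤ A) (h1 : A ≤ M)
    (h2 : M ≤ B) (hB : B ≤ T) : ∫ t in A..B, (if t < M then f t else g t) =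
      (∫ t in A..M, f t) + ∫ t in M..B, g t := by
  rw [Cut8.int_split (LB_ite hf hg) (b := M) ⟨hA, by linarith⟩ ⟨by linarith, by linarith⟩
    ⟨by linarith, hB⟩]
  congr 1
  · exact intervalIntegral.integral_congr_Ioo_of_le h1 fun t ht => if_pos ht.2
  · exact intervalIntegral.integral_congr_Ioo_of_le h2 fun t ht => if_neg (not_lt.2 ht.1.le)

/-- **extension of residual data** from `[A, M]` to `[A, B]`: above `M` the slow part is frozen at
`r2 M`; the marks `H'` may be chosen pointwise -/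
theorem res_ext {T A M B : ℝ} {dz ρ H r1 r2 ω β ξ H' ξ' : ℝ → ℝ}
    (R : Res T dz ρ H r1 r2 ω β ξ A M) (hA : 0 ≤ A) (hB : B ≤ T)
    (β0 : 0 ≤ β M) (lH : LB T H') (lξ : LB T ξ')
    (hH : ∀ t, M ≤ t → t < B → 0 ≤ H' t * dz t) (hξ : ∀ t, M ≤ t → t < B → 0 ≤ ξ' t)
    (hp : ∀ t, M ≤ t → t < B → (ρ t + H' t - r2 M) * dz t + β M * |dz t| ≤ ξ' t) :
    Res T dz ρ (fun t => if t < M then H t else H' t)
      (fun t => if t < M then r1 t else ρ t + H' t - r2 M) (fun t => if t < M then r2 t else r2 M)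
      (fun t => if t < M then ω t else 0) (fun t => if t < M then β t else β M)
      (fun t => if t < M then ξ t else ξ' t) A B where
  lH := LB_ite R.lH lH
  lω := LB_ite R.lω (LB.const 0)
  lξ := LB_ite R.lξ lξ
  eq := fun t a _ => by
    split_ifs with e
    · exact R.eq t a e
    · ring
  ω_nn := fun t a _ => by
    split_ifs with e
    · exact R.ω_nn t a e
    · exact le_rfl
  slow := fun s t a st tb => by
    by_cases et : t < M
    · have es : s < M := st.trans_lt et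
      rw [if_pos et, if_pos es, if_pos es, if_pos et,
        intervalIntegral.integral_congr_Ioo_of_le st (g := ω) fun r hr => if_pos (hr.2.trans et)]
      exact R.slow s t a st et.le
    · by_cases es : s < M
      · rw [if_neg et, if_pos es, if_pos es, if_neg et, int_ite R.lω (LB.const 0) (hA.trans a) es.le
          (not_lt.1 et) (tb.trans hB)]
        simpa using R.slow s M a es.le le_rfl
      · rw [if_neg et, if_neg es, if_neg es, if_neg et,
          Cut8.int_zero st fun r hr _ => if_neg (not_lt.2 ((not_lt.1 es).trans hr.le))]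
        simp only [sub_self, abs_zero]
        linarith
  H_nn := fun t a b => by
    split_ifs with e
    · exact R.H_nn t a e
    · exact hH t (not_lt.1 e) b
  ξ_nn := fun t a b => by
    split_ifs with e
    · exact R.ξ_nn t a e
    · exact hξ t (not_lt.1 e) b
  pair := fun t a b => by
    split_ifs with e
    · exact R.pair t a e
    · exact hp t (not_lt.1 e) b

/-- cost of static marks `≤ G0 / √u` against the growth `e (t - S)` of `M` -/
theorem static_cost {T S P e G0 : ℝ} {dz k : ℝ → ℝ} (ld : LB T dz) (lk : LB T k) (hS : 0 ≤ S)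
    (hSP : S ≤ P) (hP : P ≤ T) (he : 0 < e) (hG : 0 < G0) (h1 : ∀ t, S < t → t < P → |dz t| ≤ 1)
    (h : ∀ t, S < t → t < P → (k t + e * (t - S)) * √|dz t| ≤ G0) :
    ∫ t in S..P, max (k t) 0 * |dz t| ≤ 2 * G0 ^ 2 / e * Real.log (1 + e * (P - S) / G0) := by
  have lm : LB T fun t => max (k t) 0 := by
    have := (lk.add lk.abs).div 2
    convert this using 2 with t
    rcases le_total 0 (k t) with a | a
    · rw [max_eq_left a, abs_of_nonneg a]; ring
    · rw [max_eq_right a, abs_of_nonpos a]; ring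
  have pos : ∀ t ∈ uIcc S P, 0 < e * (t - S) + G0 := fun t ht => by
    rw [uIcc_of_le hSP] at ht
    have := sub_nonneg.2 ht.1
    positivity
  have cont : ContinuousOn (fun t => 2 * G0 ^ 2 / (e * (t - S) + G0)) (uIcc S P) :=
    continuousOn_const.div (by fun_prop) fun t ht => (pos t ht).ne'
  have e1 : ∫ t in S..P, 2 * G0 ^ 2 / (e * (t - S) + G0) =
      2 * G0 ^ 2 / e * Real.log (e * (P - S) + G0) - 2 * G0 ^ 2 / e * Real.log (e * (S - S) + G0) :=
    intervalIntegral.integral_eq_sub_of_hasDerivAt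
      (f := fun t => 2 * G0 ^ 2 / e * Real.log (e * (t - S) + G0)) (fun t ht => by
        have a := ((((hasDerivAt_id t).sub_const S).const_mul e).add_const G0).log (pos t ht).ne'
        refine (a.const_mul _).congr_deriv ?_
        have := (pos t ht).ne'
        simp only [id]
        field_simp) cont.intervalIntegrable
  have e2 : 1 + e * (P - S) / G0 = (e * (P - S) + G0) / G0 := by field_simp; ring
  have p2 := pos P right_mem_uIcc
  rw [e2, Real.log_div p2.ne' hG.ne', mul_sub]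
  rw [sub_self, mul_zero, zero_add] at e1
  rw [← e1]
  refine intervalIntegral.integral_mono_on_of_le_Ioo hSP
    ((lm.mul ld.abs).ii ⟨hS, hSP.trans hP⟩ ⟨hS.trans hSP, hP⟩) cont.intervalIntegrable
    fun t ht => ?_
  have p1 := pos t (by rw [uIcc_of_le hSP]; exact Ioo_subset_Icc_self ht)
  rcases le_total (k t) 0 with a | a
  · rw [max_eq_right a, zero_mul]; positivity
  · rw [max_eq_left a, le_div_iff₀ p1]
    have b := h t ht.1 ht.2
    have r0 := Real.sqrt_nonneg |dz t|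
    have r1 : √|dz t| ≤ 1 := Real.sqrt_le_one.2 (h1 t ht.1 ht.2)
    have r2 : |dz t| = √|dz t| * √|dz t| := (Real.mul_self_sqrt (abs_nonneg _)).symm
    set r := √|dz t|
    have s0 : 0 ≤ e * (t - S) := by have := sub_nonneg.2 ht.1.le; positivity
    have b1 : k t * r ≤ G0 := by nlinarith [mul_nonneg s0 r0]
    have b2 : r * (e * (t - S) + G0) ≤ 2 * G0 := by nlinarith [mul_nonneg a r0]
    have b3 := mul_le_mul b1 b2 (by positivity) hG.le
    rw [r2]
    nlinarith

/-- **the three top regions**: (ii) `[M, S)`, `dz ≥ 0`, frozen mark `hm`; (iii) `[S, P)`, `dz ≤ 0`,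
lower bound of the residual; (iv) `[P, T)`, `dz ≤ 0`, lower bound of `Γb - Γh` -/
theorem res_top {T A M S P b hm B2 B3 B4 : ℝ} {dz Γb Γh hb H r1 r2 ω β ξ : ℝ → ℝ}
    (R : Res T dz (fun t => Γb t - Γh t) H r1 r2 ω β ξ A M) (ld : LB T dz) (lΓ : LB T Γh)
    (lh : LB T hb) (hb0 : 0 < b) (hA : 0 ≤ A) (h1 : A ≤ M) (h2 : M ≤ S) (h3 : S ≤ P) (h4 : P ≤ T)
    (β0 : 0 ≤ β M) (p2 : 0 ≤ B2) (p3 : 0 ≤ B3) (p4 : 0 ≤ B4)
    (ii : ∀ t, M ≤ t → t < S →
      0 ≤ dz t ∧ t - b * Γh t ≤ hm ∧ Γb t - (t - hm) / b - r2 M ≤ B2)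
    (iii : ∀ t, S ≤ t → t < P → dz t ≤ 0 ∧ -B3 ≤ Γb t - (t - hb t) / b - r2 M)
    (iv : ∀ t, P ≤ t → t < T → dz t ≤ 0 ∧ -B4 ≤ Γb t - Γh t - r2 M) :
    ∃ H' r1' r2' ω' β' ξ' : ℝ → ℝ, Res T dz (fun t => Γb t - Γh t) H' r1' r2' ω' β' ξ' A T ∧
      (∀ t, t < M → H' t = H t ∧ r1' t = r1 t ∧ r2' t = r2 t ∧ β' t = β t) ∧
      r2' M = r2 M ∧ β' M = β M ∧
      ∫ t in A..T, ω' t ^ 2 = ∫ t in A..M, ω t ^ 2 ∧
      ∫ t in A..T, ξ' t = (∫ t in A..M, ξ t) + ((B2 + β M) * (∫ t in M..S, |dz t|) +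
        ((B3 + β M) * (∫ t in S..P, |dz t|) +
          (∫ t in S..P, max (hb t - (t - b * Γh t)) 0 * |dz t|) / b +
          (B4 + β M) * ∫ t in P..T, |dz t|)) ∧
      ∫ t in A..T, H' t * dz t = (∫ t in A..M, H t * dz t) +
        ((∫ t in M..S, (hm - (t - b * Γh t)) * |dz t|) / b +
          (∫ t in S..P, max (t - b * Γh t - hb t) 0 * |dz t|) / b) := by
  have lM : LB T fun t => t - b * Γh t := (LB.of_cont continuousOn_id).sub ((LB.const b).mul lΓ)
  have lmax : ∀ {k : ℝ → ℝ}, LB T k → LB T fun t => max (k t) 0 := fun {k} lk => by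
    have := (lk.add lk.abs).div 2
    convert this using 2 with t
    rcases le_total 0 (k t) with a | a
    · rw [max_eq_left a, abs_of_nonneg a]; ring
    · rw [max_eq_right a, abs_of_nonpos a]; ring
  have l2 : LB T fun t => (hm - (t - b * Γh t)) / b := ((LB.const hm).sub lM).div b
  have l3 : LB T fun t => (-1) * max (t - b * Γh t - hb t) 0 / b :=
    ((LB.const _).mul (lmax (lM.sub lh))).div b
  have x2 : LB T fun t => (B2 + β M) * |dz t| := (LB.const _).mul ld.abs
  have x3a : LB T fun t => (B3 + β M) * |dz t| := (LB.const _).mul ld.abs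
  have x3b : LB T fun t => max (hb t - (t - b * Γh t)) 0 * |dz t| / b :=
    ((lmax (lh.sub lM)).mul ld.abs).div b
  have x4 : LB T fun t => (B4 + β M) * |dz t| := (LB.const _).mul ld.abs
  have lH' := LB_ite (M := S) l2 (LB_ite (M := P) l3 (LB.const 0))
  have lξ' := LB_ite (M := S) x2 (LB_ite (M := P) (x3a.add x3b) x4)
  have hM : 0 ≤ M := hA.trans h1
  have hS : 0 ≤ S := hM.trans h2
  have mS : S ∈ Icc 0 T := ⟨hS, h3.trans h4⟩
  have mP : P ∈ Icc 0 T := ⟨hS.trans h3, h4⟩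
  refine ⟨_, _, _, _, _, _, res_ext R hA le_rfl β0 lH' lξ' (fun t a c => ?_) (fun t a c => ?_)
    (fun t a c => ?_), fun t a => ⟨if_pos a, if_pos a, if_pos a, if_pos a⟩, if_neg (lt_irrefl M),
    if_neg (lt_irrefl M), ?_, ?_, ?_⟩
  · split_ifs with e e'
    · obtain ⟨a1, a2, -⟩ := ii t a e
      exact mul_nonneg (div_nonneg (by linarith) hb0.le) a1
    · exact mul_nonneg_of_nonpos_of_nonpos (div_nonpos_of_nonpos_of_nonneg
        (by linarith [le_max_right (t - b * Γh t - hb t) 0]) hb0.le) (iii t (not_lt.1 e) e').1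
    · simp
  · split_ifs <;> positivity
  · split_ifs with e e'
    · obtain ⟨a1, -, a3⟩ := ii t a e
      refine pair_pos a1 (le_of_eq_of_le ?_ a3)
      field_simp
      ring
    · obtain ⟨a1, a2⟩ := iii t (not_lt.1 e) e'
      have m : max (hb t - (t - b * Γh t)) 0 - max (t - b * Γh t - hb t) 0 =
          hb t - (t - b * Γh t) := by
        rcases le_total (hb t) (t - b * Γh t) with g | g
        · rw [max_eq_right (by linarith), max_eq_left (by linarith)]; ring
        · rw [max_eq_left (by linarith), max_eq_right (by linarith)]; ring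
      have g : Γb t - Γh t + -1 * max (t - b * Γh t - hb t) 0 / b - r2 M =
          Γb t - (t - hb t) / b - r2 M - max (hb t - (t - b * Γh t)) 0 / b := by
        rw [eq_sub_of_add_eq' (sub_eq_iff_eq_add.1 m).symm]
        field_simp
        ring
      refine (pair_neg a1 (B := B3 + max (hb t - (t - b * Γh t)) 0 / b)
        (by rw [g]; linarith)).trans_eq ?_
      ring
    · obtain ⟨a1, a2⟩ := iv t (not_lt.1 e') c
      exact pair_neg a1 (by linarith)
  · have := int_ite R.lω.sq (LB.const 0) hA h1 (h2.trans mS.2) le_rfl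
    simp only [intervalIntegral.integral_zero, add_zero] at this
    rw [← this]
    congr 1
    funext t
    split_ifs <;> simp
  · rw [int_ite R.lξ lξ' hA h1 (h2.trans mS.2) le_rfl,
      int_ite x2 (LB_ite (x3a.add x3b) x4) hM h2 mS.2 le_rfl,
      int_ite (x3a.add x3b) x4 hS h3 h4 le_rfl,
      intervalIntegral.integral_add (x3a.ii mS mP) (x3b.ii mS mP)]
    simp only [intervalIntegral.integral_const_mul, intervalIntegral.integral_div]
  · have y2 : LB T fun t => (hm - (t - b * Γh t)) * |dz t| / b :=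
      (((LB.const hm).sub lM).mul ld.abs).div b
    have y3 : LB T fun t => max (t - b * Γh t - hb t) 0 * |dz t| / b :=
      ((lmax (lM.sub lh)).mul ld.abs).div b
    have := int_ite (R.lH.mul ld) (LB_ite (M := S) y2 (LB_ite (M := P) y3 (LB.const 0))) hA h1
      (h2.trans mS.2) le_rfl
    rw [int_ite y2 (LB_ite y3 (LB.const 0)) hM h2 mS.2 le_rfl,
      int_ite y3 (LB.const 0) hS h3 h4 le_rfl] at this
    simp only [intervalIntegral.integral_zero, add_zero, intervalIntegral.integral_div] at this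
    rw [← this]
    refine intervalIntegral.integral_congr_Ioo_of_le (h1.trans (h2.trans mS.2)) fun t ht => ?_
    split_ifs with e e' e''
    · rfl
    · rw [abs_of_nonneg (ii t (not_lt.1 e) e').1]; ring
    · rw [abs_of_nonpos (iii t (not_lt.1 e') e'').1]; ring
    · simp

end

end Crest.Agent.T156.Pr.Reg48
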