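import Crest.Agent.T156.GapB_27
import Crest.Agent.T156.CutB_8

-- ▼ part T156/TopB_27
section

/-!
Row 156 (helper27): the bulk part of the energy input `Cut8.Res` from good times.
-/

set_option autoImplicit false

namespace Crest.Agent.T156.Gap27

open MeasureTheory Set
open Crest.Agent.R164.GC Crest.Agent.R339.B Crest.Agent.R339.Var Crest.Agent.T157.Pf
open Crest.Agent.T156.L0 Crest.Agent.T156.Cut8

noncomputable section

/-- the numeric condition at a level: quartic form or mass form -/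
def Num (θ m f A0 A1 A2 : ℝ) : Prop :=
  (∃ lam, 0 ≤ lam ∧ A0 ≤ θ * lam ^ 3 ∧ A1 + A2 ^ 2 / θ ≤ θ * lam ^ 2 ∧ 2 * lam ^ 4 ≤ f) ∨
    (0 < m ∧ 0 ≤ A0 ∧ A0 ^ 2 ≤ θ ^ 2 * m * f ∧ A1 + A2 ^ 2 / θ ≤ θ * m)

/-- the bound of the pairing -/
def xi (θ m f ι d J : ℝ) : ℝ := θ * (2 * d ^ 4 + 2 * m * d ^ 2 + J ^ 2 + ι ^ 2 + f)

theorem xi_nn {θ m f ι d J : ℝ} (hθ : 0 ≤ θ) (hm : 0 ≤ m) (hf : 0 ≤ f) : 0 ≤ xi θ m f ι d J := by
  unfold xi; positivity

theorem xi_pt {θ m f A0 A1 A2 r β d J ι : ℝ} (hθ : 0 < θ) (hm : 0 ≤ m) (hβ : 0 ≤ β)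
    (h : |r| + β ≤ A0 + A1 * |d| + A2 * (|J| + ι)) (hN : Num θ m f A0 A1 A2) :
    r * d + β * |d| ≤ xi θ m f ι d J := by
  have e : r * d + β * |d| ≤ (|r| + β) * |d| := by
    have := le_abs_self (r * d)
    rw [abs_mul] at this
    linarith
  have h' : |(|r| + β)| ≤ A0 + A1 * |(|d|)| + A2 * (|J| + ι) := by
    rw [abs_abs, abs_of_nonneg (add_nonneg (abs_nonneg _) hβ)]; exact h
  have e2 : |d| ^ 2 = d ^ 2 := sq_abs d
  have e4 : |d| ^ 4 = d ^ 4 := by rw [show |d| ^ 4 = (|d| ^ 2) ^ 2 by ring, e2]; ring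
  unfold xi
  rcases hN with ⟨lam, l0, a, b, c⟩ | ⟨m0, a0, a, b⟩
  · have := young4 hθ l0 h' a b
    rw [e4] at this
    refine e.trans (this.trans (mul_le_mul_of_nonneg_left ?_ hθ.le))
    have : 0 ≤ 2 * m * d ^ 2 := by positivity
    linarith
  · have := young2 hθ m0 a0 h' a b
    rw [e2] at this
    refine e.trans (this.trans (mul_le_mul_of_nonneg_left ?_ hθ.le))
    have : 0 ≤ 2 * d ^ 4 := by positivity
    linarith


variable {lb lh : List (ℝ × ℝ)} {T C b θ : ℝ}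



/-- the integral of `xi` -/
theorem int_xi {d J m f : ℝ → ℝ} {A B : ℝ} (ld : LB T d) (lJ : LB T J) (lm : LB T m) (lf : LB T f)
    (hA : 0 ≤ A) (hAB : A ≤ B) (hB : B ≤ T) (hθ : 0 ≤ θ) :
    ∫ t in A..B, xi θ (m t) (f t) (∫ s in (0 : ℝ)..T, |J s|) (d t) (J t) ≤
      θ * (2 * (∫ t in A..B, d t ^ 4) + 2 * (∫ t in A..B, m t * d t ^ 2) +
        (1 + T ^ 2) * (∫ t in (0 : ℝ)..T, J t ^ 2) + ∫ t in A..B, f t) := by
  have ma : A ∈ Icc 0 T := ⟨hA, hAB.trans hB⟩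
  have mb : B ∈ Icc 0 T := ⟨hA.trans hAB, hB⟩
  have hT : 0 ≤ T := ma.1.trans ma.2
  have l4 : LB T fun t => d t ^ 4 := by simpa [← pow_mul] using ld.sq.sq
  set ι := ∫ s in (0 : ℝ)..T, |J s|
  have i1 := ((LB.const 2).mul l4).ii ma mb
  have i2 := ((LB.const 2).mul (lm.mul ld.sq)).ii ma mb
  have i3 := lJ.sq.ii ma mb
  have i4 := (LB.const (T := T) (ι ^ 2)).ii ma mb
  have i5 := lf.ii ma mb
  have e : (fun t => xi θ (m t) (f t) ι (d t) (J t)) =
      fun t => θ * (2 * d t ^ 4 + 2 * (m t * d t ^ 2) + J t ^ 2 + ι ^ 2 + f t) := by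
    funext t; unfold xi; ring
  rw [e, intervalIntegral.integral_const_mul,
    intervalIntegral.integral_add (((i1.add i2).add i3).add i4) i5,
    intervalIntegral.integral_add ((i1.add i2).add i3) i4,
    intervalIntegral.integral_add (i1.add i2) i3, intervalIntegral.integral_add i1 i2,
    intervalIntegral.integral_const_mul, intervalIntegral.integral_const_mul,
    intervalIntegral.integral_const, smul_eq_mul]
  refine mul_le_mul_of_nonneg_left ?_ hθ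
  have a := int_sub_le lJ.sq le_rfl hA hAB hB le_rfl fun _ _ _ => sq_nonneg _
  have c := sq_int_le lJ le_rfl hT le_rfl
  rw [sub_zero] at c
  have c2 : (B - A) * ι ^ 2 ≤ T * (T * ∫ t in (0 : ℝ)..T, J t ^ 2) :=
    mul_le_mul (by linarith) c (sq_nonneg _) hT
  nlinarith

end

end Crest.Agent.T156.Gap27
end

-- ▼ part T156/TopC_27

/-!
Row 156 (helper27): the bulk `Cut8.Res` from (E1) in DIFFERENCE form, and the final absorption.
-/

set_option autoImplicit false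

namespace Crest.Agent.T156.Gap27

open MeasureTheory Set
open Crest.Agent.R164.GC Crest.Agent.R339.B Crest.Agent.R339.Var Crest.Agent.T157.Pf
open Crest.Agent.T156.L0 Crest.Agent.T156.Cut8

noncomputable section

/-- the gap `[p, q]` around `t`; `r` = residual at the good times -/
structure GapD (lb lh : List (ℝ × ℝ)) (T b : ℝ) (hm r : ℝ → ℝ) (t p q Gm Dz jh D η ω : ℝ) :
    Prop where
  p0 : 0 ≤ p
  pt : p ≤ t
  tq : t ≤ q
  qT : q ≤ T
  len : q - p ≤ Gm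
  ω0 : 0 ≤ ω
  η0 : 0 ≤ η
  dz : lvr 1 lb q - lvr 1 lb p + (lvr 1 lh q - lvr 1 lh p) ≤ Dz
  jh : ∀ s ∈ Icc p q, |Gd lh s| ≤ jh
  osc : ∀ s ∈ Icc p q, |hm s / b - hm p / b| ≤ D
  rp : |Pr.Gam lb p - p / b + hm p / b - r p| ≤ η
  rq : |Pr.Gam lb q - q / b + hm q / b - r q| ≤ η
  e1 : |r q - r p| ≤ η + ω * (|Gd lb p| + |Gd lb q|)

variable {lb lh : List (ℝ × ℝ)} {T C b θ : ℝ}




end

end Crest.Agent.T156.Gap27
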