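import Crest.Agent.T156.CutC_8
import Crest.Agent.T156.TopC_27
import Crest.Agent.T156.Lab_36
import Crest.Agent.T156.Reg_48

/-!
# Row 156, text (L) (helper8): the global energy bound
-/

set_option autoImplicit false

noncomputable section

namespace Crest.Agent.T156.Cut8

open MeasureTheory Set intervalIntegral Filter Topology

/-! ### a clock with a decreasing weight -/

/-- the weight -/
def lamW (M L0 : ℝ) (κ : ℝ → ℝ) (t : ℝ) : ℝ := L0 + ∫ u in t..M, κ u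


/-- data of the weight -/
structure Wt (T M L0 : ℝ) (κ : ℝ → ℝ) : Prop where
  M0 : 0 ≤ M
  MT : M ≤ T
  L0 : 0 ≤ L0
  lκ : LB T κ
  nn : ∀ t, 0 < t → t < M → 0 ≤ κ t

namespace Wt

variable {T M L0 : ℝ} {κ zb zh : ℝ → ℝ}

theorem lb (h : Wt T M L0 κ) : LB T (lamW M L0 κ) :=
  (LB.const L0).add (.of_cont (h.lκ.tail ⟨h.M0, h.MT⟩))

theorem sub (h : Wt T M L0 κ) {s t : ℝ} (hs : 0 ≤ s) (hst : s ≤ t) (ht : t ≤ M) :
    lamW M L0 κ s - lamW M L0 κ t = ∫ u in s..t, κ u := by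
  have := h.MT
  unfold lamW
  rw [int_split h.lκ (a := s) (b := t) (c := M) ⟨hs, by linarith⟩ ⟨by linarith, by linarith⟩
    ⟨h.M0, h.MT⟩]
  ring

theorem anti (h : Wt T M L0 κ) {s t : ℝ} (hs : 0 ≤ s) (hst : s ≤ t) (ht : t ≤ M) :
    lamW M L0 κ t ≤ lamW M L0 κ s := by
  have m := int_mono (LB.const 0) h.lκ hs hst (ht.trans h.MT) fun u u0 u1 =>
    h.nn u (by linarith) (by linarith)
  rw [intervalIntegral.integral_zero, ← h.sub hs hst ht] at m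
  linarith

theorem pos (h : Wt T M L0 κ) {s : ℝ} (hs : 0 ≤ s) (ht : s ≤ M) : 0 ≤ lamW M L0 κ s := by
  have := h.anti hs ht le_rfl
  have e : lamW M L0 κ M = L0 := by simp [lamW]
  linarith [h.L0]








end Wt

variable {T : ℝ} {P : Type} {c C : ℝ} {ok : P → Prop} {z Γ G : P → ℝ → ℝ} {pb ph : P}

theorem Fr.dz_le (F : Fr T c C ok z Γ G) (hb : ok pb) (hh : ok ph) (t : ℝ) :
    |z pb t - z ph t| ≤ 1 :=
  abs_le.mpr ⟨by linarith [F.pos pb hb t, F.le1 ph hh t], by linarith [F.pos ph hh t, F.le1 pb hb t]⟩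

/-- the quartic bound on all times at which `zb` carries a label of the sloped part -/
theorem Fr.four_bulk (F : Fr T c C ok z Γ G) (hb : ok pb) (hh : ok ph) {s b C1 δ : ℝ} (hs0 : 0 ≤ s)
    (hs : s ≤ b) (hT : b ≤ T) (hC : 0 < C1)
    (up : ∀ s t, 0 ≤ s → s ≤ t → t ≤ b → z ph t - z ph s ≤ C1 * (t - s) + δ)
    (h0 : z ph 0 ≤ δ) (h1 : ∀ t, t < s → z pb t ≤ z ph b + δ) :
    ∫ t in (0 : ℝ)..s, (z pb t - z ph t) ^ 4 ≤
      4096 * C1 ^ 2 * (∫ t in (0 : ℝ)..T, Jf T (z ph) (z pb) t ^ 2) +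
        (4096 * C1 ^ 2 * δ ^ 2 * T ^ 3 + 8 * δ ^ 4 * T + 6 * δ / C1) := by
  have hδ : 0 < δ := (F.pos ph hh 0).trans_le h0
  have hb0 : 0 ≤ b := hs0.trans hs
  have hT0 : 0 ≤ T := hb0.trans hT
  have lz : LB T fun t => z pb t - z ph t := (F.lbz hb).sub (F.lbz hh)
  have l4 : LB T fun t => (z pb t - z ph t) ^ 4 := by simpa only [← pow_mul] using lz.sq.sq
  have cr : ∀ x y, 0 ≤ x → x ≤ y → y ≤ T → ∫ t in x..y, (z pb t - z ph t) ^ 4 ≤ y - x :=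
    fun x y a1 a2 a3 => by
      simpa using int_le_const l4 (K := 1) a1 a2 a3 fun t _ _ => by
        have := pow_le_one₀ (abs_nonneg _) (F.dz_le hb hh t) (n := 4)
        rwa [← abs_pow, abs_of_nonneg (by positivity)] at this
  obtain ⟨u, u0, eu⟩ : ∃ u, 0 < u ∧ δ = C1 * u := ⟨δ / C1, by positivity, by field_simp⟩
  have e6 : 6 * δ / C1 = 6 * u := by rw [eu]; field_simp
  have p0 : 0 ≤ ∫ t in (0 : ℝ)..T, Jf T (z ph) (z pb) t ^ 2 :=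
    integral_nonneg hT0 fun _ _ => sq_nonneg _
  have p1 : 0 ≤ 4096 * C1 ^ 2 * δ ^ 2 * T ^ 3 := by positivity
  have p2 : 0 ≤ 8 * δ ^ 4 * T := by positivity
  have p3 : 0 ≤ 4096 * C1 ^ 2 * ∫ t in (0 : ℝ)..T, Jf T (z ph) (z pb) t ^ 2 := by positivity
  rw [e6]
  rcases le_total s (6 * u) with hc | hc
  · linarith [cr 0 s le_rfl hs0 (by linarith)]
  have A := F.aosl hb hh le_rfl hb0 hT hC up
  obtain ⟨y, y0, y1, y2, y3⟩ : ∃ y, 2 * u ≤ y ∧ y < s ∧ y ≤ b - 3 * u ∧ s - y ≤ 3 * u :=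
    ⟨s - 3 * u, by linarith, by linarith, by linarith, by linarith⟩
  have f := A.four (c := 2 * u) (d := y) (by linarith) y0 (by linarith) fun t ht => by
    have a1 := up 0 t le_rfl (by linarith [ht.1]) (by linarith [ht.2])
    have a2 := up t b (by linarith [ht.1]) (by linarith [ht.2]) le_rfl
    have a3 := mul_le_mul_of_nonneg_left ht.1 hC.le
    have a4 := mul_le_mul_of_nonneg_left (show 3 * u ≤ b - t by linarith [ht.2]) hC.le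
    constructor <;> linarith [F.pos pb hb t, h1 t (by linarith [ht.2])]
  unfold Sun9.AOSL.En at f
  have m := int_sub_le (F.lbJ hh hb (right_mem_Icc.mpr hT0)).sq le_rfl le_rfl hb0 hT le_rfl
    fun _ _ _ => sq_nonneg _
  have q1 := mul_le_mul_of_nonneg_left m (show 0 ≤ 4096 * C1 ^ 2 by positivity)
  have q2 := mul_le_mul_of_nonneg_left (pow_le_pow_left₀ hb0 hT 3)
    (show 0 ≤ 4096 * C1 ^ 2 * δ ^ 2 by positivity)
  have q3 := mul_le_mul_of_nonneg_left (show y - 2 * u ≤ T by linarith)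
    (show 0 ≤ 8 * δ ^ 4 by positivity)
  rw [int_split l4 (b := 2 * u) ⟨le_rfl, hT0⟩ ⟨by linarith, by linarith⟩ ⟨hs0, by linarith⟩,
    int_split l4 (a := 2 * u) (b := y) ⟨by linarith, by linarith⟩ ⟨by linarith, by linarith⟩
      ⟨hs0, by linarith⟩]
  rw [sub_zero] at f
  linarith [cr 0 (2 * u) le_rfl (by linarith) (by linarith),
    cr y s (by linarith) y1.le (by linarith)]




/-- residual data on `[0, M]` extended to `[0, B]` at the cost `X`, with the gain `Z` -/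
def Ext (T : ℝ) (dz ρ H r2 ω β ξ : ℝ → ℝ) (M B X Z : ℝ) : Prop :=
  ∃ H' r1' r2' ω' β' ξ' : ℝ → ℝ, Res T dz ρ H' r1' r2' ω' β' ξ' 0 B ∧ r2' 0 = r2 0 ∧ β' 0 = β 0 ∧
    ∫ t in (0 : ℝ)..B, ω' t ^ 2 ≤ ∫ t in (0 : ℝ)..M, ω t ^ 2 ∧
    ∫ t in (0 : ℝ)..B, ξ' t ≤ (∫ t in (0 : ℝ)..M, ξ t) + X ∧
    ∫ t in (0 : ℝ)..B, H' t * dz t = (∫ t in (0 : ℝ)..M, H t * dz t) + Z

/-- **middle zone**: an absolute bound `B1` of the residual on `[M, B)`, a further cost `k` -/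
theorem Res.mid {dz ρ H r1 r2 ω β ξ H' k : ℝ → ℝ} {M B B1 : ℝ}
    (R : Res T dz ρ H r1 r2 ω β ξ 0 M) (ld : LB T dz) (hM : 0 < M) (hMB : M ≤ B) (hB : B ≤ T)
    (β0 : 0 ≤ β M) (h1 : 0 ≤ B1) (lH : LB T H') (lk : LB T k)
    (hH : ∀ t, M ≤ t → t < B → 0 ≤ H' t * dz t) (hk : ∀ t, M ≤ t → t < B → 0 ≤ k t)
    (hp : ∀ t, M ≤ t → t < B → (ρ t + H' t - r2 M) * dz t ≤ B1 * |dz t| + k t) :
    ∃ H'' r1' r2' ω' β' ξ' : ℝ → ℝ, Res T dz ρ H'' r1' r2' ω' β' ξ' 0 B ∧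
      r2' 0 = r2 0 ∧ β' 0 = β 0 ∧ r2' B = r2 M ∧ β' B = β M ∧
      ∫ t in (0 : ℝ)..B, ω' t ^ 2 = ∫ t in (0 : ℝ)..M, ω t ^ 2 ∧
      ∫ t in (0 : ℝ)..B, ξ' t = (∫ t in (0 : ℝ)..M, ξ t) +
        ((B1 + β M) * (∫ t in M..B, |dz t|) + ∫ t in M..B, k t) ∧
      ∫ t in (0 : ℝ)..B, H'' t * dz t =
        (∫ t in (0 : ℝ)..M, H t * dz t) + ∫ t in M..B, H' t * dz t := by
  have mM : M ∈ Icc 0 T := ⟨hM.le, by linarith⟩
  have mB : B ∈ Icc 0 T := ⟨by linarith, hB⟩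
  have lx := ((LB.const (B1 + β M)).mul ld.abs).add lk
  refine ⟨_, _, _, _, _, _, Pr.Reg48.res_ext R le_rfl hB β0 lH lx hH
    (fun t t0 t1 => add_nonneg (by positivity) (hk t t0 t1))
    (fun t t0 t1 => by linarith [hp t t0 t1]), if_pos hM, if_pos hM, if_neg (not_lt.mpr hMB),
    if_neg (not_lt.mpr hMB), ?_, ?_, ?_⟩
  · have := Pr.Reg48.int_ite (M := M) R.lω.sq (LB.const 0) le_rfl hM.le hMB hB
    rw [intervalIntegral.integral_zero, add_zero] at this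
    rw [← this]
    refine integral_congr fun t _ => ?_
    split_ifs <;> simp
  · rw [Pr.Reg48.int_ite R.lξ lx le_rfl hM.le hMB hB,
      integral_add (((LB.const _).mul ld.abs).ii mM mB) (lk.ii mM mB),
      intervalIntegral.integral_const_mul]
  · rw [← Pr.Reg48.int_ite (R.lH.mul ld) (lH.mul ld) le_rfl hM.le hMB hB]
    refine integral_congr fun t _ => ?_
    split_ifs <;> rfl

theorem Ext.trans {dz ρ H r2 ω β ξ H' r2' ω' β' ξ' : ℝ → ℝ} {M B D X Z X' Z' : ℝ}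
    (e1 : r2' 0 = r2 0) (e2 : β' 0 = β 0)
    (e3 : ∫ t in (0 : ℝ)..B, ω' t ^ 2 ≤ ∫ t in (0 : ℝ)..M, ω t ^ 2)
    (e4 : ∫ t in (0 : ℝ)..B, ξ' t ≤ (∫ t in (0 : ℝ)..M, ξ t) + X)
    (e5 : ∫ t in (0 : ℝ)..B, H' t * dz t = (∫ t in (0 : ℝ)..M, H t * dz t) + Z)
    (h : Ext T dz ρ H' r2' ω' β' ξ' B D X' Z') : Ext T dz ρ H r2 ω β ξ M D (X + X') (Z + Z') := by
  obtain ⟨_, _, _, _, _, _, R, a1, a2, a3, a4, a5⟩ := h
  exact ⟨_, _, _, _, _, _, R, a1.trans e1, a2.trans e2, a3.trans e3, by linarith, by linarith⟩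

/-- **the global energy bound** -/
theorem Fr.topE (F : Fr T c C ok z Γ G) (hb : ok pb) (hh : ok ph) {H r2 ω β m f : ℝ → ℝ}
    {s b C1 δ θ K2 e2 X Z P0 B1 Ω : ℝ} (hs0 : 0 ≤ s) (hs : s ≤ b) (hT : b ≤ T) (hC : 0 < C1)
    (hθ : 0 ≤ θ) (lH : LB T H) (lm : LB T m) (lf : LB T f)
    (up : ∀ s t, 0 ≤ s → s ≤ t → t ≤ b → z ph t - z ph s ≤ C1 * (t - s) + δ)
    (h0 : z ph 0 ≤ δ) (h1 : ∀ t, t < s → z pb t ≤ z ph b + δ)
    (H0 : ∀ t, 0 < t → t < s → 0 ≤ H t * (z pb t - z ph t))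
    (mass : ∫ t in (0 : ℝ)..s, m t * (z pb t - z ph t) ^ 2 ≤
      K2 * (∫ t in (0 : ℝ)..s, H t * (z pb t - z ph t)) + e2)
    (ext : Ext T (fun t => z pb t - z ph t) (fun t => Γ pb t - Γ ph t) H r2 ω β
      (fun t => Gap27.xi θ (m t) (f t) (∫ s in (0 : ℝ)..T, |Jf T (z ph) (z pb) s|)
        (z pb t - z ph t) (Jf T (z ph) (z pb) t)) s T X Z)
    (hX : X ≤ c / 8 * (∫ t in (0 : ℝ)..T, Jf T (z ph) (z pb) t ^ 2) + Z / 4 + P0)
    (hB : (|r2 0| + β 0) * |Jf T (z ph) (z pb) 0| ≤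
      c / 8 * (∫ t in (0 : ℝ)..T, Jf T (z ph) (z pb) t ^ 2) + B1) (hB1 : 0 ≤ B1)
    (hΩ : (∫ t in (0 : ℝ)..s, ω t ^ 2) / c ≤
      Ω + θ * ∫ t in (0 : ℝ)..s, (z pb t - z ph t) ^ 4)
    (s4 : θ * (3 * (4096 * C1 ^ 2) + (1 + T ^ 2)) ≤ c / 8) (s2 : θ * (2 * K2) ≤ 1 / 4) :
    c / 8 * (∫ t in (0 : ℝ)..T, Jf T (z ph) (z pb) t ^ 2) +
        (∫ t in (0 : ℝ)..s, H t * (z pb t - z ph t)) / 4 + Z / 4 ≤
      θ * ((∫ t in (0 : ℝ)..s, f t) +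
        3 * (4096 * C1 ^ 2 * δ ^ 2 * T ^ 3 + 8 * δ ^ 4 * T + 6 * δ / C1) + 2 * e2) + P0 + B1 + Ω := by
  obtain ⟨H', r1', r2', ω', β', ξ', R, a1, a2, a3, a4, a5⟩ := ext
  have hc := F.c_pos
  have hT0 : 0 ≤ T := by linarith
  have lz : LB T fun t => z pb t - z ph t := (F.lbz hb).sub (F.lbz hh)
  have p0 : 0 ≤ ∫ t in (0 : ℝ)..T, Jf T (z ph) (z pb) t ^ 2 :=
    integral_nonneg hT0 fun _ _ => sq_nonneg _
  have p1 := int_mono (LB.const 0) (lH.mul lz) le_rfl hs0 (by linarith) H0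
  rw [intervalIntegral.integral_zero] at p1
  rw [← a1, ← a2] at hB
  have t1 := F.block_top hb hh hT0 R hB (by positivity)
  have t2 := Gap27.int_xi lz (F.lbJ hh hb (right_mem_Icc.mpr hT0)) lm lf le_rfl hs0
    (by linarith) hθ
  have t3 := div_le_div_of_nonneg_right a3 hc.le
  have t4 := mul_le_mul_of_nonneg_left (F.four_bulk hb hh hs0 hs hT hC up h0 h1) hθ
  have t5 := mul_le_mul_of_nonneg_left mass hθ
  have t6 := mul_le_mul_of_nonneg_right s4 p0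
  have t7 := mul_le_mul_of_nonneg_right s2 p1
  simp only at a5
  linarith

end Crest.Agent.T156.Cut8
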