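import Crest.Agent.T156.Plat_48
import Crest.Agent.T156.TopE_8
import Crest.Agent.T156.ClMid_8
import Crest.Agent.T156.ClTop_27
import Crest.Agent.T156.CutN_93

-- ▼ part T156/PlatB_48
section

/-!
Row 156 (helper48): the plateau part of the energy estimate with a bound `Lt` for the length of
the last region (`zb = 1` from `U` on).
-/

set_option autoImplicit false

namespace Crest.Agent.T156.Pr.Reg48

open MeasureTheory Set
open Crest.Agent.R164.GC Crest.Agent.R339.B Crest.Agent.R339.Var Crest.Agent.T157.Pf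
open Crest.Agent.T156.Cut8 (LB Res int_mono int_split)

noncomputable section

/-- **the three top regions**, no bound needed where `dz = 0`: (ii) `[M, S)`, `dz ≥ 0`, frozen mark `hm`; (iii) `[S, P)`, `dz ≤ 0`,
lower bound of the residual; (iv) `[P, T)`, `dz ≤ 0`, lower bound of `Γb - Γh` -/
theorem res_top' {T A M S P b hm B2 B3 B4 : ℝ} {dz Γb Γh hb H r1 r2 ω β ξ : ℝ → ℝ}
    (R : Res T dz (fun t => Γb t - Γh t) H r1 r2 ω β ξ A M) (ld : LB T dz) (lΓ : LB T Γh)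
    (lh : LB T hb) (hb0 : 0 < b) (hA : 0 ≤ A) (h1 : A ≤ M) (h2 : M ≤ S) (h3 : S ≤ P) (h4 : P ≤ T)
    (β0 : 0 ≤ β M) (p2 : 0 ≤ B2) (p3 : 0 ≤ B3) (p4 : 0 ≤ B4)
    (ii : ∀ t, M ≤ t → t < S →
      0 ≤ dz t ∧ t - b * Γh t ≤ hm ∧ Γb t - (t - hm) / b - r2 M ≤ B2)
    (iii : ∀ t, S ≤ t → t < P → dz t ≤ 0 ∧ -B3 ≤ Γb t - (t - hb t) / b - r2 M)
    (iv : ∀ t, P ≤ t → t < T → dz t ≤ 0 ∧ (dz t = 0 ∨ -B4 ≤ Γb t - Γh t - r2 M)) :
    ∃ H' r1' r2' ω' β' ξ' : ℝ → ℝ, Res T dz (fun t => Γb t - Γh t) H' r1' r2' ω' β' ξ' A T ∧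
      (∀ t, t < M → H' t = H t ∧ r1' t = r1 t ∧ r2' t = r2 t ∧ β' t = β t) ∧
      r2' M = r2 M ∧ β' M = β M ∧
      ∫ t in A..T, ω' t ^ 2 = ∫ t in A..M, ω t ^ 2 ∧
      ∫ t in A..T, ξ' t = (∫ t in A..M, ξ t) + ((B2 + β M) * (∫ t in M..S, |dz t|) +
        ((B3 + β M) * (∫ t in S..P, |dz t|) +
          (∫ t in S..P, max (hb t - (t - b * Γh t)) 0 * |dz t|) / b +
          (B4 + β M) * ∫ t in P..T, |dz t|)) ∧
      ∫ t in A..T, H' t * dz t = (∫ t in A..M, H t * dz t) +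
        ((∫ t in M..S, (hm - (t - b * Γh t)) * |dz t|) / b +
          (∫ t in S..P, max (t - b * Γh t - hb t) 0 * |dz t|) / b) := by
  have lM : LB T fun t => t - b * Γh t := (LB.of_cont continuousOn_id).sub ((LB.const b).mul lΓ)
  have lmax : ∀ {k : ℝ → ℝ}, LB T k → LB T fun t => max (k t) 0 := fun {k} lk => by
    have := (lk.add lk.abs).div 2
    convert this using 2 with t
    rcases le_total 0 (k t) with a | a
    · rw [max_eq_left a, abs_of_nonneg a]; ring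
    · rw [max_eq_right a, abs_of_nonpos a]; ring
  have l2 : LB T fun t => (hm - (t - b * Γh t)) / b := ((LB.const hm).sub lM).div b
  have l3 : LB T fun t => (-1) * max (t - b * Γh t - hb t) 0 / b :=
    ((LB.const _).mul (lmax (lM.sub lh))).div b
  have x2 : LB T fun t => (B2 + β M) * |dz t| := (LB.const _).mul ld.abs
  have x3a : LB T fun t => (B3 + β M) * |dz t| := (LB.const _).mul ld.abs
  have x3b : LB T fun t => max (hb t - (t - b * Γh t)) 0 * |dz t| / b :=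
    ((lmax (lh.sub lM)).mul ld.abs).div b
  have x4 : LB T fun t => (B4 + β M) * |dz t| := (LB.const _).mul ld.abs
  have lH' := LB_ite (M := S) l2 (LB_ite (M := P) l3 (LB.const 0))
  have lξ' := LB_ite (M := S) x2 (LB_ite (M := P) (x3a.add x3b) x4)
  have hM : 0 ≤ M := hA.trans h1
  have hS : 0 ≤ S := hM.trans h2
  have mS : S ∈ Icc 0 T := ⟨hS, h3.trans h4⟩
  have mP : P ∈ Icc 0 T := ⟨hS.trans h3, h4⟩
  refine ⟨_, _, _, _, _, _, res_ext R hA le_rfl β0 lH' lξ' (fun t a c => ?_) (fun t a c => ?_)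
    (fun t a c => ?_), fun t a => ⟨if_pos a, if_pos a, if_pos a, if_pos a⟩, if_neg (lt_irrefl M),
    if_neg (lt_irrefl M), ?_, ?_, ?_⟩
  · split_ifs with e e'
    · obtain ⟨a1, a2, -⟩ := ii t a e
      exact mul_nonneg (div_nonneg (by linarith) hb0.le) a1
    · exact mul_nonneg_of_nonpos_of_nonpos (div_nonpos_of_nonpos_of_nonneg
        (by linarith [le_max_right (t - b * Γh t - hb t) 0]) hb0.le) (iii t (not_lt.1 e) e').1
    · simp
  · split_ifs <;> positivity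
  · split_ifs with e e'
    · obtain ⟨a1, -, a3⟩ := ii t a e
      refine pair_pos a1 (le_of_eq_of_le ?_ a3)
      field_simp
      ring
    · obtain ⟨a1, a2⟩ := iii t (not_lt.1 e) e'
      have m : max (hb t - (t - b * Γh t)) 0 - max (t - b * Γh t - hb t) 0 =
          hb t - (t - b * Γh t) := by
        rcases le_total (hb t) (t - b * Γh t) with g | g
        · rw [max_eq_right (by linarith), max_eq_left (by linarith)]; ring
        · rw [max_eq_left (by linarith), max_eq_right (by linarith)]; ring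
      have g : Γb t - Γh t + -1 * max (t - b * Γh t - hb t) 0 / b - r2 M =
          Γb t - (t - hb t) / b - r2 M - max (hb t - (t - b * Γh t)) 0 / b := by
        rw [eq_sub_of_add_eq' (sub_eq_iff_eq_add.1 m).symm]
        field_simp
        ring
      refine (pair_neg a1 (B := B3 + max (hb t - (t - b * Γh t)) 0 / b)
        (by rw [g]; linarith)).trans_eq ?_
      ring
    · obtain ⟨a1, a2 | a2⟩ := iv t (not_lt.1 e') c
      · simp [a2]
      · exact pair_neg a1 (by linarith)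
  · have := int_ite R.lω.sq (LB.const 0) hA h1 (h2.trans mS.2) le_rfl
    simp only [intervalIntegral.integral_zero, add_zero] at this
    rw [← this]
    congr 1
    funext t
    split_ifs <;> simp
  · rw [int_ite R.lξ lξ' hA h1 (h2.trans mS.2) le_rfl,
      int_ite x2 (LB_ite (x3a.add x3b) x4) hM h2 mS.2 le_rfl,
      int_ite (x3a.add x3b) x4 hS h3 h4 le_rfl,
      intervalIntegral.integral_add (x3a.ii mS mP) (x3b.ii mS mP)]
    simp only [intervalIntegral.integral_const_mul, intervalIntegral.integral_div]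
  · have y2 : LB T fun t => (hm - (t - b * Γh t)) * |dz t| / b :=
      (((LB.const hm).sub lM).mul ld.abs).div b
    have y3 : LB T fun t => max (t - b * Γh t - hb t) 0 * |dz t| / b :=
      ((lmax (lM.sub lh)).mul ld.abs).div b
    have := int_ite (R.lH.mul ld) (LB_ite (M := S) y2 (LB_ite (M := P) y3 (LB.const 0))) hA h1
      (h2.trans mS.2) le_rfl
    rw [int_ite y2 (LB_ite y3 (LB.const 0)) hM h2 mS.2 le_rfl,
      int_ite y3 (LB.const 0) hS h3 h4 le_rfl] at this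
    simp only [intervalIntegral.integral_zero, add_zero, intervalIntegral.integral_div] at this
    rw [← this]
    refine intervalIntegral.integral_congr_Ioo_of_le (h1.trans (h2.trans mS.2)) fun t ht => ?_
    split_ifs with e e' e''
    · rfl
    · rw [abs_of_nonneg (ii t (not_lt.1 e) e').1]; ring
    · rw [abs_of_nonpos (iii t (not_lt.1 e') e'').1]; ring
    · simp

/-- the number `N` dominates all errors (`η' = η + β M + Dh / b`) -/
structure PNU (T Lt C b θ η' g G0 Gt e e1 κ u1 N : ℝ) : Prop where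
  θ0 : 0 < θ
  N0 : 0 ≤ N
  h1 : η' ^ 3 ≤ θ * κ ^ 2 / 64 * N ^ 2 ∨ η' ^ 2 ≤ e * κ / (64 * b) * N
  h2 : (g / b) ^ 3 ≤ (θ * κ ^ 2 / 64) ^ 2 * N ∨ g ≤ e * κ / 16
  h3 : (u1 * Lt * e1 / b) ^ 3 ≤ θ * κ ^ 2 / 64 * N ^ 2
  h4 : (C * Lt * u1) ^ 3 ≤ (θ * κ ^ 2 / 64) ^ 2 * N
  h5 : u1 * Lt * (η' + Gt / b) ≤ N
  h6 : C * Lt ^ 3 * u1 ^ 2 ≤ N
  h7 : (C * Lt ^ 2 * u1) ^ 2 ≤ θ / (T + 1) * N
  h9 : ((C * Lt * u1) ^ 2 * (T + 1) / θ) ^ 3 ≤ (θ * κ ^ 2 / 64) ^ 2 * N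
  h8 : 8 * G0 ^ 2 / e * Real.log (1 + e * T / G0) / b ≤ N

variable {lb lh : List (ℝ × ℝ)} {T b σ M P c0 η g Dh lam G0 Gt e e1 κ u1 : ℝ} {hb : ℝ → ℝ}

set_option maxHeartbeats 1600000 in
theorem finU {T Lt C b θ η β g Dh lam G0 Gt e e1 κ u1 N E D y ι V W i2 i4 z2 z3 s1 s2 x : ℝ}
    (n : PNU T Lt C b θ (η + β + Dh / b) g G0 Gt e e1 κ u1 N) (hC : 0 ≤ C) (b0 : 0 < b) (T0 : 0 ≤ T)
    (L0 : 0 ≤ Lt) (η0 : 0 ≤ η) (β0 : 0 ≤ β) (g0 : 0 ≤ g) (Dh0 : 0 ≤ Dh)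
    (l1 : lam ≤ κ / 32) (Gt0 : 0 ≤ Gt) (e0 : 0 < e) (e10 : 0 ≤ e1) (κ0 : 0 < κ) (κ1 : κ ≤ 1)
    (u0 : 0 ≤ u1) (E0 : 0 ≤ E) (D0 : 0 ≤ D) (y0 : 0 ≤ y) (y3' : y ^ 3 = 8 * E) (ι0 : 0 ≤ ι)
    (ι2 : ι ^ 2 ≤ (T + 1) * E) (D3 : κ ^ 2 * D ^ 3 / 64 ≤ E) (V0 : 0 ≤ V) (V1 : V ≤ y)
    (bt : V ^ 2 ≤ 2 * W) (I2 : i2 ≤ D * 1) (I2' : 0 ≤ i2) (I4 : i4 ≤ u1 * Lt) (I4' : 0 ≤ i4)
    (Z2 : e * κ * D ^ 2 / 2 ≤ z2) (Z3 : e / 4 * W ≤ z3 + s2) (Z30 : 0 ≤ z3) (S1 : s1 ≤ s2)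
    (S2 : s2 / b ≤ N) :
    0 ≤ z2 / b + z3 / b ∧
    x + ((η + g / b * D + β) * i2 + ((η + Dh / b + lam * e * D / b + β) * V + s1 / b +
      (η + (Gt + e1 * D) / b + C * (y + ι) * D + C * (u1 * Lt + ι) * Lt + β) * i4)) ≤
      x + 8 * θ * E + (z2 / b + z3 / b) / 4 + 11 * N ∧
    e * κ * D ^ 2 / (2 * b) + e / (4 * b) * W ≤ z2 / b + z3 / b + N := by
  obtain ⟨θ0, N0, h1, h2, h3, h4, h5, h6, h7, h9, -⟩ := n
  set η' := η + β + Dh / b with hη
  set ε := θ * κ ^ 2 / 64 with hε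
  have ε0 : 0 < ε := by positivity
  have W0 : 0 ≤ W := by linarith [sq_nonneg V]
  have a2 : e * κ * D ^ 2 / b ≤ 2 * (z2 / b) := by
    rw [← mul_div_assoc]; exact div_le_div_of_nonneg_right (by linarith) b0.le
  have a3 : e * W / b ≤ 4 * (z3 / b) + 4 * N := by
    have : e * W / b ≤ (4 * z3 + 4 * s2) / b := div_le_div_of_nonneg_right (by linarith) b0.le
    rw [add_div, mul_div_assoc 4, mul_div_assoc 4] at this
    linarith
  have a20 : 0 ≤ e * κ * D ^ 2 / b := by positivity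
  have a30 : 0 ≤ e * W / b := by positivity
  have z30 : 0 ≤ z3 / b := by positivity
  have θE : 0 ≤ θ * E := by positivity
  have eD : ε * D ^ 3 ≤ θ * E := by
    have := mul_le_mul_of_nonneg_left D3 θ0.le
    rw [hε]; linarith
  have ey : ε * y ^ 3 ≤ θ * E := by
    have := mul_le_mul_of_nonneg_left (pow_le_one₀ κ0.le κ1 : κ ^ 2 ≤ 1) θE
    rw [hε, y3']; linarith
  have eV : ε * V ^ 3 ≤ θ * E :=
    (mul_le_mul_of_nonneg_left (pow_le_pow_left₀ V0 V1 3) ε0.le).trans ey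
  have kV : e * κ / b * V ^ 2 ≤ 2 * (e * W / b) := by
    have : κ * V ^ 2 ≤ 2 * W := (mul_le_of_le_one_left (sq_nonneg V) κ1).trans bt
    calc e * κ / b * V ^ 2 = e / b * (κ * V ^ 2) := by ring
      _ ≤ e / b * (2 * W) := by gcongr
      _ = _ := by ring
  have t1 : η' * D ≤ θ * E + N + e * κ * D ^ 2 / b / 64 ∧
      η' * V ≤ θ * E + N + e * W / b / 32 := by
    rcases h1 with h1 | h1
    · exact ⟨by linarith [y3 D0 N0 ε0 h1], by linarith [y3 V0 N0 ε0 h1]⟩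
    · have p : 0 < e * κ / (64 * b) := by positivity
      have q1 := y2 D0 N0 p h1
      have q2 := y2 V0 N0 p h1
      rw [show e * κ / (64 * b) * D ^ 2 = e * κ * D ^ 2 / b / 64 by ring] at q1
      rw [show e * κ / (64 * b) * V ^ 2 = e * κ / b * V ^ 2 / 64 by ring] at q2
      exact ⟨by linarith, by linarith⟩
  have t2 : g / b * D ^ 2 ≤ θ * E + N + e * κ * D ^ 2 / b / 16 := by
    rcases h2 with h2 | h2
    · linarith [y32 D0 N0 ε0 h2]
    · have : g / b * D ^ 2 ≤ e * κ / 16 / b * D ^ 2 := by gcongr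
      rw [show e * κ / 16 / b * D ^ 2 = e * κ * D ^ 2 / b / 16 by ring] at this
      linarith
  have t3 : lam * e * D / b * V ≤ e * κ * D ^ 2 / b / 64 + e * W / b / 32 := by
    have q1 : lam * e * D / b * V ≤ κ / 32 * e * D / b * V := by gcongr
    have q2 : e * κ / b * (D * V) ≤ e * κ / b * ((D ^ 2 + V ^ 2) / 2) :=
      mul_le_mul_of_nonneg_left (by linarith [two_mul_le_add_sq D V]) (by positivity)
    rw [show κ / 32 * e * D / b * V = e * κ / b * (D * V) / 32 by ring] at q1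
    rw [show e * κ / b * ((D ^ 2 + V ^ 2) / 2) =
      e * κ * D ^ 2 / b / 2 + e * κ / b * V ^ 2 / 2 by ring] at q2
    linarith
  have t4 := y3 D0 N0 ε0 h3
  have t5 : C * Lt * u1 * (y * D) ≤ θ * E + N := by
    have q : C * Lt * u1 * (y * D) ≤ C * Lt * u1 * ((y ^ 2 + D ^ 2) / 2) :=
      mul_le_mul_of_nonneg_left (by linarith [two_mul_le_add_sq y D]) (by positivity)
    linarith [y32 D0 N0 ε0 h4, y32 y0 N0 ε0 h4]
  have q2 : θ / (T + 1) * ι ^ 2 ≤ θ * E := by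
    refine (mul_le_mul_of_nonneg_left ι2 (by positivity)).trans_eq ?_
    field_simp
  have t6 : C * Lt ^ 2 * u1 * ι ≤ θ * E + N := by linarith [y2 ι0 N0 (by positivity) h7]
  have t7 : C * Lt * u1 * D * ι ≤ 2 * (θ * E) + N := by
    have q1 := y2 (a := C * Lt * u1 * D) (N := (C * Lt * u1) ^ 2 * (T + 1) / θ * D ^ 2)
      (ε := θ / (T + 1)) ι0 (by positivity) (by positivity) (le_of_eq (by field_simp))
    linarith [y32 D0 N0 ε0 h9]
  have s1' : s1 / b ≤ N := (div_le_div_of_nonneg_right S1 b0.le).trans S2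
  have Db : 0 ≤ Dh / b := by positivity
  have x2 : (η + g / b * D + β) * i2 ≤ (η' + g / b * D) * D :=
    mul_le_mul (by linarith) (by linarith) I2' (by positivity)
  have x4 : (η + (Gt + e1 * D) / b + C * (y + ι) * D + C * (u1 * Lt + ι) * Lt + β) * i4 ≤
      (η' + (Gt + e1 * D) / b + C * (y + ι) * D + C * (u1 * Lt + ι) * Lt) * (u1 * Lt) :=
    mul_le_mul (by linarith) I4 I4' (by positivity)
  have x4' : (η' + (Gt + e1 * D) / b + C * (y + ι) * D + C * (u1 * Lt + ι) * Lt) * (u1 * Lt) =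
      u1 * Lt * (η' + Gt / b) + u1 * Lt * e1 / b * D + C * Lt * u1 * (y * D) +
        C * Lt * u1 * D * ι + C * Lt ^ 2 * u1 * ι + C * Lt ^ 3 * u1 ^ 2 := by ring
  have x3 : (η + Dh / b + lam * e * D / b + β) * V = η' * V + lam * e * D / b * V := by
    rw [hη]; ring
  have x5 : e * κ * D ^ 2 / (2 * b) + e / (4 * b) * W =
      e * κ * D ^ 2 / b / 2 + e * W / b / 4 := by ring
  refine ⟨by linarith, ?_, by linarith⟩
  linarith [t1.1, t1.2]

namespace Pl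

variable (h : Pl lb lh T b σ M P c0 η g Dh lam G0 Gt e e1 κ u1 hb)
include h

theorem tail {U Lt r : ℝ} (hU : ∀ s, U ≤ s → lvr 1 lb s = 1) (L0 : 0 ≤ Lt)
    (hL' : U - max M σ ≤ Lt) (a : max (max M σ) P ≤ r) (c : r ≤ T) :
    ∫ s in r..T, |lvr 1 lb s - lvr 1 lh s| ≤ u1 * Lt := by
  have u0 : 0 ≤ u1 := le_trans (sub_nonneg.2 (Pp.Ode3.lvr_le_one h.okb.1 P)) h.last
  have Sr : max M σ ≤ r := (le_max_left _ _).trans a
  have σr : σ ≤ r := (le_max_right _ _).trans Sr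
  have r0 : 0 ≤ r := h.σ0.trans σr
  have z : ∀ s, σ ≤ s → U ≤ s → |lvr 1 lb s - lvr 1 lh s| = 0 := fun s x y => by
    rw [hU s y, h.top s x, sub_self, abs_zero]
  have w : ∀ s, r < s → |lvr 1 lb s - lvr 1 lh s| ≤ u1 := fun s x => by
    rw [(h.dtop (σr.trans x.le)).2]
    linarith [h.last, Sc48.lvr_mono h.okb.1 (((le_max_right _ P).trans a).trans x.le)]
  rcases le_total U r with x | x
  · rw [Cut8.int_zero c fun s y _ => z s (σr.trans y.le) (x.trans y.le)]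
    positivity
  rcases le_total U T with y | y
  · rw [int_split h.ld.abs (b := U) ⟨r0, c⟩ ⟨r0.trans x, y⟩ ⟨r0.trans c, le_rfl⟩,
      Cut8.int_zero y fun s y _ => z s (σr.trans (x.trans y.le)) y.le, add_zero]
    refine (int_le h.ld.abs r0 x y fun s y _ => w s y).trans ?_
    rw [mul_comm]
    exact mul_le_mul_of_nonneg_left (by linarith) u0
  · refine (int_le h.ld.abs r0 c le_rfl fun s y _ => w s y).trans ?_
    rw [mul_comm]
    exact mul_le_mul_of_nonneg_left (by linarith) u0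



end Pl

end

end Crest.Agent.T156.Pr.Reg48
end

-- ▼ part T156/PlatL_48
section

/-!
Row 156 (helper48): the plateau part of the energy estimate with the local energy
`∫_{A0}^T J² + (∫_0^{A0} |J|)²`.
-/

set_option autoImplicit false

namespace Crest.Agent.T156.Pr.Reg48

open MeasureTheory Set
open Crest.Agent.R164.GC Crest.Agent.R339.B Crest.Agent.R339.Var Crest.Agent.T157.Pf
open Crest.Agent.T156.Cut8 (LB Res int_mono int_split Ext)

noncomputable section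

theorem iota_loc {T A E : ℝ} {J : ℝ → ℝ} (lJ : LB T J) (hA : 0 ≤ A) (hT : A ≤ T)
    (hE : (∫ t in A..T, J t ^ 2) + (∫ t in (0:ℝ)..A, |J t|) ^ 2 ≤ E) :
    (∫ s in (0:ℝ)..T, |J s|) ^ 2 ≤ (T + 1) * E := by
  have s := int_split lJ.abs (a := 0) (b := A) (c := T) ⟨le_rfl, hA.trans hT⟩ ⟨hA, hT⟩
    ⟨hA.trans hT, le_rfl⟩
  have c := Gap27.sq_int_le lJ hA hT le_rfl
  have I0 : 0 ≤ ∫ t in A..T, J t ^ 2 := int_nn hT fun _ => sq_nonneg _
  rw [s]
  generalize (∫ t in A..T, J t ^ 2) = I at *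
  generalize (∫ t in (0:ℝ)..A, |J t|) = x at *
  generalize (∫ t in A..T, |J t|) = y at *
  have T0 := hA.trans hT
  have c' : y ^ 2 ≤ T * I := c.trans (mul_le_mul_of_nonneg_right (by linarith) I0)
  refine le_trans ?_ (mul_le_mul_of_nonneg_left hE (by linarith))
  rcases T0.eq_or_lt with z | z
  · subst z
    have : y = 0 := by nlinarith [sq_nonneg y]
    subst this
    linarith
  · have : T * (2 * x * y) ≤ T * (T * x ^ 2 + I) := by nlinarith [sq_nonneg (T * x - y)]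
    have := le_of_mul_le_mul_left this z
    nlinarith

variable {lb lh : List (ℝ × ℝ)} {T b σ M P c0 η g Dh lam G0 Gt e e1 κ u1 : ℝ} {hb : ℝ → ℝ}

namespace Pl

variable (h : Pl lb lh T b σ M P c0 η g Dh lam G0 Gt e e1 κ u1 hb)
include h



theorem r4UL {C y ι U Lt : ℝ} (hU : ∀ s, U ≤ s → lvr 1 lb s = 1) (L0 : 0 ≤ Lt)
    (hL' : U - max M σ ≤ Lt) (hC : 0 ≤ C) (hL : Spl27.GLip T C)
    (hy : ∀ s ∈ Icc M T, |Sc48.Jf lh lb T s| ≤ y) (hι : ι = ∫ s in (0:ℝ)..T, |Sc48.Jf lh lb T s|)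
    {t : ℝ} (a : max (max M σ) P ≤ t) (c : t < T) (cU : t < U) :
    -(η + (Gt + e1 * (max M σ - M)) / b + C * (y + ι) * (max M σ - M) + C * (u1 * Lt + ι) * Lt) ≤
      Gam lb t - Gam lh t - c0 := by
  obtain ⟨-, -, -, -, -, -, e0, e10, -⟩ := h.nn
  obtain ⟨mP, a1, a2⟩ := h.atP
  have P0 := h.M0.trans h.MP
  have T0 := P0.trans h.PT
  have b0 := h.b0
  have D0 : 0 ≤ max M σ - M := sub_nonneg.2 (le_max_left _ _)
  have ι0 : 0 ≤ ι := hι ▸ int_nn T0 fun _ => abs_nonneg _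
  have y0 : 0 ≤ y := (abs_nonneg _).trans (hy T ⟨h.MP.trans h.PT, le_rfl⟩)
  have u0 : 0 ≤ u1 := le_trans (sub_nonneg.2 (Pp.Ode3.lvr_le_one h.okb.1 P)) h.last
  set Q := max (max M σ) P with hQ
  have PQ : P ≤ Q := le_max_right _ _
  have σQ : σ ≤ Q := (le_max_right _ _).trans (le_max_left _ _)
  have QP : Q - P ≤ max M σ - M := by
    have := max_le (le_refl (max M σ)) (le_refl _)
    rcases le_total (max M σ) P with x | x
    · rw [hQ, max_eq_right x]; linarith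
    · rw [hQ, max_eq_left x]; linarith [h.MP]
  have m1 : σ - b * Gam lh σ ≤ P - b * Gam lh P + e1 * (max M σ - M) := by
    rcases le_total σ P with x | x
    · have := h.grow (.inr le_rfl) x h.PT
      nlinarith [mul_nonneg e0.le (sub_nonneg.2 x), mul_nonneg e10 D0]
    · have := Mh_le h.okh b0 P0 x (by rw [h.th]; exact h.σT) (e := e1)
        fun r hr => h.eup r ⟨h.MP.trans hr.1, hr.2⟩
      have := mul_le_mul_of_nonneg_left
        (show σ - P ≤ max M σ - M by linarith [le_max_right M σ, h.MP]) e10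
      linarith
  have s0 : -(η + (Gt + e1 * (max M σ - M)) / b) ≤ Gam lb P - Gam lh P - c0 := by
    have : (P - mP) / b + (Gt + e1 * (max M σ - M)) / b ≥ Gam lh P := by
      rw [← add_div, ge_iff_le, le_div_iff₀ b0]; linarith
    linarith
  have QT : Q ≤ T := a.trans c.le
  have s1 := (abs_le.1 (reg4 h.okh h.okb (j := C * (y + ι)) P0 PQ (by rw [h.th]; exact QT)
    (by rw [h.tb]; exact QT) fun r hr => by
      have mr : r ∈ Icc 0 T := ⟨P0.trans hr.1, hr.2.le.trans QT⟩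
      refine (hL lh lb h.okh h.okb h.th h.tb r mr).trans ?_
      rw [← hι]
      exact mul_le_mul_of_nonneg_left (by linarith [hy r ⟨h.MP.trans hr.1, mr.2⟩]) hC)).1
  have s2 := (abs_le.1 (reg4 h.okh h.okb (j := C * (u1 * Lt + ι)) (P0.trans PQ) a
    (by rw [h.th]; exact c.le) (by rw [h.tb]; exact c.le) fun r hr => by
      have mr : r ∈ Icc 0 T := ⟨(P0.trans PQ).trans hr.1, hr.2.le.trans c.le⟩
      refine (hL lh lb h.okh h.okb h.th h.tb r mr).trans ?_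
      rw [← hι]
      have := (intervalIntegral.abs_integral_le_integral_abs mr.2).trans
        (h.tail hU L0 hL' hr.1 mr.2)
      exact mul_le_mul_of_nonneg_left (add_le_add this le_rfl) hC)).1
  have s3 := mul_le_mul_of_nonneg_left QP (show 0 ≤ C * (y + ι) by positivity)
  have s4 := mul_le_mul_of_nonneg_left (show t - Q ≤ Lt by linarith [le_max_left (max M σ) P])
    (show 0 ≤ C * (u1 * Lt + ι) by positivity)
  linarith




end Pl

end

end Crest.Agent.T156.Pr.Reg48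
end

-- ▼ part T156/PlatC_48
section

/-!
Row 156 (helper48): the plateau part of the energy estimate, cubic form of the static cost, and
marks that rise by `G1 / √ρ` over a gap.
-/

set_option autoImplicit false

namespace Crest.Agent.T156.Pr.Reg48

open MeasureTheory Set
open Crest.Agent.R164.GC Crest.Agent.R339.B Crest.Agent.R339.Var Crest.Agent.T157.Pf
open Crest.Agent.T156.Cut8 (LB Res int_mono int_split Ext)

noncomputable section

/-- cost of static marks `≤ G0 / √u` against the growth `c (t - S)²` -/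
theorem static_cub {T S P c G0 N : ℝ} {dz k : ℝ → ℝ} (ld : LB T dz) (lk : LB T k) (hS : 0 ≤ S)
    (hSP : S ≤ P) (hP : P ≤ T) (hc : 0 < c) (hG : 0 < G0) (hN : 0 ≤ N)
    (hh : 16 * G0 ^ 3 ≤ c * N ^ 2) (h1 : ∀ t, S < t → t < P → |dz t| ≤ 1)
    (h : ∀ t, S < t → t < P → (k t + c * (t - S) ^ 2) * √|dz t| ≤ G0) :
    ∫ t in S..P, max (k t) 0 * |dz t| ≤ N := by
  obtain ⟨a, a0, rfl⟩ : ∃ a, 0 < a ∧ c = a ^ 2 :=
    ⟨√c, Real.sqrt_pos.2 hc, (Real.sq_sqrt hc.le).symm⟩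
  obtain ⟨w, w0, rfl⟩ : ∃ w, 0 < w ∧ G0 = w ^ 2 :=
    ⟨√G0, Real.sqrt_pos.2 hG, (Real.sq_sqrt hG.le).symm⟩
  have hN' : 4 * w ^ 3 ≤ a * N :=
    le_of_pow_le_pow_left₀ (n := 2) (by norm_num) (by positivity)
      (by rw [mul_pow, mul_pow]; linarith)
  have pos : ∀ t ∈ uIcc S P, 0 < a * (t - S) + w := fun t ht => by
    rw [uIcc_of_le hSP] at ht
    have := sub_nonneg.2 ht.1
    positivity
  have cont : ContinuousOn (fun t => 4 * w ^ 4 / (a * (t - S) + w) ^ 2) (uIcc S P) :=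
    continuousOn_const.div (by fun_prop) fun t ht => (pow_pos (pos t ht) 2).ne'
  have e1 : ∫ t in S..P, 4 * w ^ 4 / (a * (t - S) + w) ^ 2 =
      -(4 * w ^ 4 / a) * (a * (P - S) + w)⁻¹ - -(4 * w ^ 4 / a) * (a * (S - S) + w)⁻¹ :=
    intervalIntegral.integral_eq_sub_of_hasDerivAt
      (f := fun t => -(4 * w ^ 4 / a) * (a * (t - S) + w)⁻¹) (fun t ht => by
        have x := ((((hasDerivAt_id t).sub_const S).const_mul a).add_const w).inv (pos t ht).ne'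
        refine (x.const_mul _).congr_deriv ?_
        have := (pos t ht).ne'
        simp only [id]
        field_simp) cont.intervalIntegrable
  have p2 := pos P right_mem_uIcc
  have e2 : ∫ t in S..P, 4 * w ^ 4 / (a * (t - S) + w) ^ 2 ≤ N := by
    rw [e1, sub_self, mul_zero, zero_add]
    have x1 : 0 ≤ 4 * w ^ 4 / a * (a * (P - S) + w)⁻¹ := by positivity
    have x2 : 4 * w ^ 4 / a * w⁻¹ ≤ N := by
      rw [show 4 * w ^ 4 / a * w⁻¹ = 4 * w ^ 3 / a by field_simp, div_le_iff₀ a0]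
      linarith
    linarith
  refine le_trans (intervalIntegral.integral_mono_on_of_le_Ioo hSP
    (((LB_max lk).mul ld.abs).ii ⟨hS, hSP.trans hP⟩ ⟨hS.trans hSP, hP⟩) cont.intervalIntegrable
    fun t ht => ?_) e2
  have p1 := pos t (by rw [uIcc_of_le hSP]; exact Ioo_subset_Icc_self ht)
  rcases le_total (k t) 0 with x | x
  · rw [max_eq_right x, zero_mul]; positivity
  · rw [max_eq_left x, le_div_iff₀ (pow_pos p1 2)]
    have y := h t ht.1 ht.2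
    have r0 := Real.sqrt_nonneg |dz t|
    have r1 : √|dz t| ≤ 1 := Real.sqrt_le_one.2 (h1 t ht.1 ht.2)
    have r2 : |dz t| = √|dz t| * √|dz t| := (Real.mul_self_sqrt (abs_nonneg _)).symm
    set r := √|dz t|
    have s0 : 0 ≤ a ^ 2 * (t - S) ^ 2 := by positivity
    have b1 : k t * r ≤ w ^ 2 := by nlinarith [mul_nonneg s0 r0]
    have b2 : r * (a ^ 2 * (t - S) ^ 2 + w ^ 2) ≤ 2 * w ^ 2 := by
      nlinarith [mul_nonneg x r0, mul_le_mul_of_nonneg_right r1 (sq_nonneg w)]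
    have b4 : r * (a * (t - S) + w) ^ 2 ≤ 4 * w ^ 2 := by
      have : (a * (t - S) + w) ^ 2 ≤ 2 * (a ^ 2 * (t - S) ^ 2 + w ^ 2) := by
        nlinarith [sq_nonneg (a * (t - S) - w)]
      nlinarith [mul_le_mul_of_nonneg_left this r0]
    have b3 := mul_le_mul b1 b4 (by positivity) (sq_nonneg w)
    rw [r2]
    nlinarith

/-- `PNU` with the cubic alternative for the static cost -/
structure PNC (T Lt C b c θ η' g G0 Gt e e1 κ u1 N : ℝ) : Prop where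
  θ0 : 0 < θ
  N0 : 0 ≤ N
  h1 : η' ^ 3 ≤ θ * κ ^ 2 / 64 * N ^ 2 ∨ η' ^ 2 ≤ e * κ / (64 * b) * N
  h2 : (g / b) ^ 3 ≤ (θ * κ ^ 2 / 64) ^ 2 * N ∨ g ≤ e * κ / 16
  h3 : (u1 * Lt * e1 / b) ^ 3 ≤ θ * κ ^ 2 / 64 * N ^ 2
  h4 : (C * Lt * u1) ^ 3 ≤ (θ * κ ^ 2 / 64) ^ 2 * N
  h5 : u1 * Lt * (η' + Gt / b) ≤ N
  h6 : C * Lt ^ 3 * u1 ^ 2 ≤ N
  h7 : (C * Lt ^ 2 * u1) ^ 2 ≤ θ / (T + 1) * N
  h9 : ((C * Lt * u1) ^ 2 * (T + 1) / θ) ^ 3 ≤ (θ * κ ^ 2 / 64) ^ 2 * N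
  h8 : 8 * G0 ^ 2 / e * Real.log (1 + e * T / G0) / b ≤ N ∨ 64 * G0 ^ 3 ≤ c * b ^ 3 * N ^ 2

theorem PNC.toU {T Lt C b c θ η' g G0 Gt e e1 κ u1 N : ℝ}
    (n : PNC T Lt C b c θ η' g G0 Gt e e1 κ u1 N) : PNU T Lt C b θ η' g 0 Gt e e1 κ u1 N :=
  ⟨n.θ0, n.N0, n.h1, n.h2, n.h3, n.h4, n.h5, n.h6, n.h7, n.h9, by simpa using n.N0⟩

variable {lb lh : List (ℝ × ℝ)} {T b σ M P c0 η g Dh lam G0 G1 u2 Gt e e1 κ u1 : ℝ} {hb : ℝ → ℝ}

/-- `Pl` with marks that may rise by `G1 / √ρ` over a gap -/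
structure PlG (lb lh : List (ℝ × ℝ)) (T b σ M P c0 η g Dh lam G0 G1 u2 Gt e e1 κ u1 : ℝ)
    (hb : ℝ → ℝ) : Prop where
  okb : Ok lb
  okh : Ok lh
  tb : TT lb = T
  th : TT lh = T
  b0 : 0 < b
  σ0 : 0 ≤ σ
  σT : σ ≤ T
  M0 : 0 ≤ M
  MP : M ≤ P
  PT : P ≤ T
  nn : 0 ≤ η ∧ 0 ≤ g ∧ 0 ≤ Dh ∧ 0 ≤ lam ∧ 0 < G0 ∧ 0 ≤ Gt ∧ 0 < e ∧ 0 ≤ e1 ∧ 0 < κ ∧ κ ≤ 1
  G10 : 0 ≤ G1
  u20 : 0 < u2
  lamκ : lam ≤ κ / 32
  lhb : LB T hb
  top : ∀ s, σ ≤ s → lvr 1 lh s = 1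
  conc : ∀ r ∈ Ico M T, Gd lb r ≤ 0
  gap : ∀ t ∈ Ico M σ, κ ≤ lvr 1 lb t - lvr 1 lh t
  elo : ∀ r, M ≤ r ∨ σ ≤ r → r < T → e ≤ 1 - b * GG lh r
  eup : ∀ r ∈ Ico M σ, 1 - b * GG lh r ≤ e1
  atM : M < σ → σ - b * Gam lh σ ≤ hb M ∧ Gam lb M - (M - hb M) / b - c0 ≤ η ∧
    b * GG lb M ≤ 1 + g
  net : ∀ t ∈ Ico (max M σ) P, ∃ p q mp mq : ℝ, M ≤ p ∧ p ≤ t ∧ t ≤ q ∧ q ≤ T ∧ mp ≤ hb t ∧
    mq - mp ≤ Dh + G1 / √(max (1 - lvr 1 lb t) u2) + lam * e * (q - p) ∧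
    -η ≤ Gam lb p - (p - mp) / b - c0 ∧ -η ≤ Gam lb q - (q - mq) / b - c0
  atP : ∃ mP : ℝ, -η ≤ Gam lb P - (P - mP) / b - c0 ∧ mP - (σ - b * Gam lh σ) ≤ Gt
  last : 1 - lvr 1 lb P ≤ u1
  stat : ∀ t, max M σ < t → t < P → (hb t - (σ - b * Gam lh σ)) * √(1 - lvr 1 lb t) ≤ G0

theorem PlG.pl (h : PlG lb lh T b σ M P c0 η g Dh lam G0 G1 u2 Gt e e1 κ u1 hb) :
    Pl lb lh T b σ M P c0 η g Dh lam (G0 + G1) Gt e e1 κ u1 fun t =>
      hb t + if t < max M σ then 0 else G1 / √(max (1 - lvr 1 lb t) u2) := by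
  obtain ⟨n1, n2, n3, n4, n5, n6⟩ := h.nn
  have G10 := h.G10
  have pos : ∀ t, 0 < √(max (1 - lvr 1 lb t) u2) := fun t =>
    Real.sqrt_pos.2 (h.u20.trans_le (le_max_right _ _))
  refine ⟨h.okb, h.okh, h.tb, h.th, h.b0, h.σ0, h.σT, h.M0, h.MP, h.PT,
    ⟨n1, n2, n3, n4, by linarith, n6⟩, h.lamκ, h.lhb.add (LB_ite (LB.const 0) (.of_mono
      fun x y hxy => div_le_div_of_nonneg_left G10 (pos y) (Real.sqrt_le_sqrt (max_le_max_right _
        (sub_le_sub_left (Sc48.lvr_mono h.okb.1 hxy) 1))))), h.top, h.conc, h.gap, h.elo, h.eup,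
    fun x => ?_, fun t ht => ?_, h.atP, h.last, fun t a c => ?_⟩
  · rw [if_pos (x.trans_le (le_max_right _ _)), add_zero]
    exact h.atM x
  · obtain ⟨p, q, mp, mq, a1, a2, a3, a4, a5, a6, a7, a8⟩ := h.net t ht
    refine ⟨p, q, mp + G1 / √(max (1 - lvr 1 lb t) u2), mq, a1, a2, a3, a4, ?_, by linarith,
      a7.trans ?_, a8⟩
    · rw [if_neg (not_lt.2 ht.1)]; linarith
    · have : 0 ≤ G1 / √(max (1 - lvr 1 lb t) u2) := (div_nonneg G10 (pos t).le)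
      have := div_le_div_of_nonneg_right
        (show p - (mp + G1 / √(max (1 - lvr 1 lb t) u2)) ≤ p - mp by linarith) h.b0.le
      linarith
  · rw [if_neg (not_lt.2 a.le)]
    have x : G1 / √(max (1 - lvr 1 lb t) u2) * √(1 - lvr 1 lb t) ≤ G1 := by
      rw [div_mul_eq_mul_div, div_le_iff₀ (pos t)]
      exact mul_le_mul_of_nonneg_left (Real.sqrt_le_sqrt (le_max_left _ _)) G10
    have := h.stat t a c
    rw [add_sub_right_comm, add_mul]
    linarith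

namespace Pl

variable (h : Pl lb lh T b σ M P c0 η g Dh lam G0 Gt e e1 κ u1 hb)
include h

theorem growq {c s : ℝ} (hc : 0 ≤ c) (hq : ∀ r, σ ≤ r → r < T → Gd lh r ≤ -c) (hs : max M σ ≤ s)
    (hT : s ≤ T) :
    σ - b * Gam lh σ + e * (s - max M σ) + b * c / 2 * (s - max M σ) ^ 2 ≤ s - b * Gam lh s := by
  have σS : σ ≤ max M σ := le_max_right _ _
  have b0 := h.b0
  rcases h.σT.eq_or_lt with x | x
  · have e1 : s = σ := le_antisymm (x ▸ hT) (σS.trans hs)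
    have e2 : max M σ = σ := le_antisymm (e1 ▸ hs) σS
    rw [e2, e1]; simp
  have a := Gam_up h.okh h.σ0 (σS.trans hs) (by rw [h.th]; exact hT) (K := -c)
    fun r hr => hq r hr.1 (hr.2.trans_le hT)
  have a1 := mul_le_mul_of_nonneg_left a b0.le
  have a2 := mul_le_mul_of_nonneg_right (h.elo σ (.inr le_rfl) x) (sub_nonneg.2 (σS.trans hs))
  have a3 := mul_le_mul_of_nonneg_left (sub_le_sub_left σS s) h.nn.2.2.2.2.2.2.1.le
  have a4 := mul_le_mul_of_nonneg_left (pow_le_pow_left₀ (sub_nonneg.2 hs) (sub_le_sub_left σS s) 2)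
    (show 0 ≤ b * c / 2 by positivity)
  nlinarith





end Pl

end

end Crest.Agent.T156.Pr.Reg48
end

-- ▼ part T156/PlatS_48
section

/-!
Row 156 (helper48): the plateau part of the energy estimate for a spread reference (sloped below
`σ'`, equal to `1` from `σ ≤ σ' + γ`).
-/

set_option autoImplicit false

namespace Crest.Agent.T156.Pr.Reg48

open MeasureTheory Set
open Crest.Agent.R164.GC Crest.Agent.R339.B Crest.Agent.R339.Var Crest.Agent.T157.Pf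
open Crest.Agent.T156.Cut8 (LB Res int_mono int_split Ext)

noncomputable section

/-- (ii) `[M, S')`, `dz ≥ 0`, frozen mark `hm`; `[S', S)`: crude bound -/
theorem res_two {T A M S' S b hm B2 B5 : ℝ} {dz Γb Γh H r1 r2 ω β ξ : ℝ → ℝ}
    (R : Res T dz (fun t => Γb t - Γh t) H r1 r2 ω β ξ A M) (ld : LB T dz) (lΓ : LB T Γh)
    (hb0 : 0 < b) (hA : 0 ≤ A) (h1 : A ≤ M) (h2 : M ≤ S') (h3 : S' ≤ S) (h4 : S ≤ T)
    (β0 : 0 ≤ β M) (p2 : 0 ≤ B2) (p5 : 0 ≤ B5)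
    (ii : ∀ t, M ≤ t → t < S' →
      0 ≤ dz t ∧ t - b * Γh t ≤ hm ∧ Γb t - (t - hm) / b - r2 M ≤ B2)
    (iii : ∀ t, S' ≤ t → t < S → |Γb t - Γh t - r2 M| ≤ B5) :
    ∃ H' r1' r2' ω' β' ξ' : ℝ → ℝ, Res T dz (fun t => Γb t - Γh t) H' r1' r2' ω' β' ξ' A S ∧
      (∀ t, t < M → H' t = H t ∧ r1' t = r1 t ∧ r2' t = r2 t ∧ β' t = β t) ∧
      r2' S = r2 M ∧ β' S = β M ∧
      ∫ t in A..S, ω' t ^ 2 = ∫ t in A..M, ω t ^ 2 ∧
      ∫ t in A..S, ξ' t = (∫ t in A..M, ξ t) + ((B2 + β M) * (∫ t in M..S', |dz t|) +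
        (B5 + β M) * ∫ t in S'..S, |dz t|) ∧
      ∫ t in A..S, H' t * dz t = (∫ t in A..M, H t * dz t) +
        (∫ t in M..S', (hm - (t - b * Γh t)) * |dz t|) / b := by
  have lM : LB T fun t => t - b * Γh t := (LB.of_cont continuousOn_id).sub ((LB.const b).mul lΓ)
  have l2 : LB T fun t => (hm - (t - b * Γh t)) / b := ((LB.const hm).sub lM).div b
  have x2 : LB T fun t => (B2 + β M) * |dz t| := (LB.const _).mul ld.abs
  have x5 : LB T fun t => (B5 + β M) * |dz t| := (LB.const _).mul ld.abs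
  have lH' := LB_ite (M := S') l2 (LB.const 0)
  have lξ' := LB_ite (M := S') x2 x5
  have hM : 0 ≤ M := hA.trans h1
  have MS := not_lt.2 (h2.trans h3)
  refine ⟨_, _, _, _, _, _, res_ext R hA h4 β0 lH' lξ' (fun t a c => ?_) (fun t a c => ?_)
    (fun t a c => ?_), fun t a => ⟨if_pos a, if_pos a, if_pos a, if_pos a⟩, if_neg MS,
    if_neg MS, ?_, ?_, ?_⟩
  · split_ifs with e
    · obtain ⟨a1, a2, -⟩ := ii t a e
      exact mul_nonneg (div_nonneg (by linarith) hb0.le) a1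
    · simp
  · split_ifs <;> positivity
  · split_ifs with e
    · obtain ⟨a1, -, a3⟩ := ii t a e
      refine pair_pos a1 (le_of_eq_of_le ?_ a3)
      field_simp
      ring
    · obtain ⟨a1, a2⟩ := abs_le.1 (iii t (not_lt.1 e) c)
      rcases le_total 0 (dz t) with x | x
      · exact pair_pos x (by linarith)
      · exact pair_neg x (by linarith)
  · have := int_ite R.lω.sq (LB.const 0) hA h1 (h2.trans h3) h4
    simp only [intervalIntegral.integral_zero, add_zero] at this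
    rw [← this]
    congr 1
    funext t
    split_ifs <;> simp
  · rw [int_ite R.lξ lξ' hA h1 (h2.trans h3) h4, int_ite x2 x5 hM h2 h3 h4]
    simp only [intervalIntegral.integral_const_mul]
  · have y2 : LB T fun t => (hm - (t - b * Γh t)) * |dz t| / b :=
      (((LB.const hm).sub lM).mul ld.abs).div b
    have := int_ite (R.lH.mul ld) (LB_ite (M := S') y2 (LB.const 0)) hA h1 (h2.trans h3) h4
    rw [int_ite y2 (LB.const 0) hM h2 h3 h4] at this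
    simp only [intervalIntegral.integral_zero, add_zero, intervalIntegral.integral_div] at this
    rw [← this]
    refine intervalIntegral.integral_congr_Ioo_of_le (h1.trans (h2.trans h3)) fun t ht => ?_
    split_ifs with e e'
    · rfl
    · rw [abs_of_nonneg (ii t (not_lt.1 e) e').1]; ring
    · simp

/-- the numbers: `PNC` and the terms of the spread `γ` (`η' = η + β M + (Dh + lam e γ) / b`) -/
structure PNS (T Lt C b c θ η' g G0 Gt e e1 κ u1 γ N : ℝ) : Prop where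
  pn : PNC T Lt C b c θ η' g G0 (Gt + e1 * γ) e e1 κ u1 N
  k1 : (η' + (g + e1) * γ / b) * γ ≤ N
  k2 : ((g + e1) * γ / b) ^ 3 ≤ θ * κ ^ 2 / 64 * N ^ 2
  k3 : (C * γ) ^ 3 ≤ (θ * κ ^ 2 / 64) ^ 2 * N
  k4 : ((C * γ) ^ 2 * (T + 1) / θ) ^ 3 ≤ (θ * κ ^ 2 / 64) ^ 2 * N
  k5 : (C * γ * (γ + u1 * Lt)) ^ 3 ≤ θ * κ ^ 2 / 64 * N ^ 2
  k6 : (C * γ * (γ + u1 * Lt)) ^ 2 ≤ θ / (T + 1) * N


set_option maxHeartbeats 1600000 in
theorem finS {T Lt C b c θ η β g Dh lam G0 Gt e e1 κ u1 γ N E D D' y ι V W i2 i4 i5 z2 z3 s1 s2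
      x : ℝ}
    (n : PNS T Lt C b c θ (η + β + (Dh + lam * e * γ) / b) g G0 Gt e e1 κ u1 γ N) (hC : 0 ≤ C)
    (b0 : 0 < b) (T0 : 0 ≤ T)
    (L0 : 0 ≤ Lt) (η0 : 0 ≤ η) (β0 : 0 ≤ β) (g0 : 0 ≤ g) (Dh0 : 0 ≤ Dh) (l0 : 0 ≤ lam)
    (l1 : lam ≤ κ / 32) (Gt0 : 0 ≤ Gt) (e0 : 0 < e) (e10 : 0 ≤ e1) (κ0 : 0 < κ) (κ1 : κ ≤ 1)
    (u0 : 0 ≤ u1) (E0 : 0 ≤ E) (D0 : 0 ≤ D') (y0 : 0 ≤ y) (y3' : y ^ 3 = 8 * E) (ι0 : 0 ≤ ι)
    (ι2 : ι ^ 2 ≤ (T + 1) * E) (D3 : κ ^ 2 * D' ^ 3 / 64 ≤ E) (V0 : 0 ≤ V) (V1 : V ≤ y)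
    (bt : V ^ 2 ≤ 2 * W) (I2 : i2 ≤ D' * 1) (I2' : 0 ≤ i2) (I4 : i4 ≤ u1 * Lt) (I4' : 0 ≤ i4)
    (Z2 : e * κ * D' ^ 2 / 2 ≤ z2) (Z3 : e / 4 * W ≤ z3 + s2) (Z30 : 0 ≤ z3) (S1 : s1 ≤ s2)
    (S2 : s2 / b ≤ N) (γ0 : 0 ≤ γ) (_D00 : 0 ≤ D) (DD : D ≤ D' + γ) (I5 : i5 ≤ γ) (I5' : 0 ≤ i5) :
    0 ≤ z2 / b + z3 / b ∧
    x + ((η + g / b * D' + β) * i2 + (η + (g + e1) * D / b + C * (y + ι) * D + β) * i5) +
      ((η + Dh / b + lam * e * D / b + β) * V + s1 / b +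
      (η + (Gt + e1 * D) / b + C * (y + ι) * D + C * (u1 * Lt + ι) * Lt + β) * i4) ≤
      x + 14 * θ * E + (z2 / b + z3 / b) / 4 + 17 * N := by
  obtain ⟨f1, f2, -⟩ := finU (x := x) n.pn.toU hC b0 T0 L0 η0 β0 g0 (by positivity) l1
    (by positivity) e0 e10 κ0 κ1 u0 E0 D0 y0 y3' ι0 ι2 D3 V0 V1 bt I2 I2' I4 I4' Z2 Z3 Z30 S1 S2
  obtain ⟨pn, k1, k2, k3, k4, k5, k6⟩ := n
  have θ0 := pn.θ0
  have N0 := pn.N0
  clear pn
  refine ⟨f1, ?_⟩
  set ε := θ * κ ^ 2 / 64 with hε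
  have ε0 : 0 < ε := by positivity
  have θE : 0 ≤ θ * E := by positivity
  have eD : ε * D' ^ 3 ≤ θ * E := by
    have := mul_le_mul_of_nonneg_left D3 θ0.le
    rw [hε]; linarith
  have ey : ε * y ^ 3 ≤ θ * E := by
    have := mul_le_mul_of_nonneg_left (pow_le_one₀ κ0.le κ1 : κ ^ 2 ≤ 1) θE
    rw [hε, y3']; linarith
  have q2 : θ / (T + 1) * ι ^ 2 ≤ θ * E := by
    refine (mul_le_mul_of_nonneg_left ι2 (by positivity)).trans_eq ?_
    field_simp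
  have t2 := y3 D0 N0 ε0 k2
  have t3 : C * γ * (y * D') ≤ θ * E + N := by
    have q : C * γ * (y * D') ≤ C * γ * ((y ^ 2 + D' ^ 2) / 2) :=
      mul_le_mul_of_nonneg_left (by linarith [two_mul_le_add_sq y D']) (by positivity)
    linarith [y32 D0 N0 ε0 k3, y32 y0 N0 ε0 k3]
  have t4 : C * γ * D' * ι ≤ 2 * (θ * E) + N := by
    have q1 := y2 (a := C * γ * D') (N := (C * γ) ^ 2 * (T + 1) / θ * D' ^ 2)
      (ε := θ / (T + 1)) ι0 (by positivity) (by positivity) (le_of_eq (by field_simp))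
    linarith [y32 D0 N0 ε0 k4]
  have t5 := y3 y0 N0 ε0 k5
  have t6 := y2 ι0 N0 (by positivity) k6
  have Db : 0 ≤ (Dh + lam * e * γ) / b := by positivity
  have x3 : (η + Dh / b + lam * e * D / b + β) * V ≤
      (η + (Dh + lam * e * γ) / b + lam * e * D' / b + β) * V := by
    refine mul_le_mul_of_nonneg_right ?_ V0
    have : lam * e * D / b ≤ lam * e * (D' + γ) / b := by gcongr
    rw [mul_add, add_div] at this
    rw [add_div]
    linarith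
  have x4 : (η + (Gt + e1 * D) / b + C * (y + ι) * D + C * (u1 * Lt + ι) * Lt + β) * i4 ≤
      (η + (Gt + e1 * (D' + γ)) / b + C * (y + ι) * (D' + γ) + C * (u1 * Lt + ι) * Lt + β) * i4 := by
    gcongr
  have x4' : C * (y + ι) * γ * i4 ≤ C * (y + ι) * γ * (u1 * Lt) := by gcongr
  have x5 : (η + (g + e1) * D / b + C * (y + ι) * D + β) * i5 ≤
      (η + (g + e1) * (D' + γ) / b + C * (y + ι) * (D' + γ) + β) * γ := by gcongr
  have x6 := mul_nonneg Db γ0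
  have e4 : (η + (Gt + e1 * (D' + γ)) / b + C * (y + ι) * (D' + γ) + C * (u1 * Lt + ι) * Lt + β) *
      i4 = (η + (Gt + e1 * γ + e1 * D') / b + C * (y + ι) * D' + C * (u1 * Lt + ι) * Lt + β) * i4 +
        C * (y + ι) * γ * i4 := by ring
  have e5 : (η + (g + e1) * (D' + γ) / b + C * (y + ι) * (D' + γ) + β) * γ +
      C * (y + ι) * γ * (u1 * Lt) + (Dh + lam * e * γ) / b * γ =
      (η + β + (Dh + lam * e * γ) / b + (g + e1) * γ / b) * γ + (g + e1) * γ / b * D' +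
        C * γ * (y * D') + C * γ * D' * ι + C * γ * (γ + u1 * Lt) * y +
        C * γ * (γ + u1 * Lt) * ι := by ring
  linarith

variable {lb lh : List (ℝ × ℝ)} {T b σ' σ γ M P c0 η g Dh lam G0 G1 u2 Gt e e1 κ u1 : ℝ}
  {hb : ℝ → ℝ}

/-- data of the plateau for a spread reference -/
structure PlS (lb lh : List (ℝ × ℝ)) (T b σ' σ γ M P c0 η g Dh lam G0 Gt e e1 κ u1 : ℝ)
    (hb : ℝ → ℝ) : Prop where
  okb : Ok lb
  okh : Ok lh
  tb : TT lb = T
  th : TT lh = T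
  b0 : 0 < b
  σ0 : 0 ≤ σ
  σT : σ ≤ T
  σ1 : σ' ≤ σ
  σγ : σ - σ' ≤ γ
  M0 : 0 ≤ M
  MP : M ≤ P
  PT : P ≤ T
  nn : 0 ≤ η ∧ 0 ≤ g ∧ 0 ≤ Dh ∧ 0 ≤ lam ∧ 0 < G0 ∧ 0 ≤ Gt ∧ 0 < e ∧ 0 ≤ e1 ∧ 0 < κ ∧ κ ≤ 1
  lamκ : lam ≤ κ / 32
  lhb : LB T hb
  top : ∀ s, σ ≤ s → lvr 1 lh s = 1
  conc : ∀ r ∈ Ico M T, Gd lb r ≤ 0
  gap : ∀ t ∈ Ico M σ', κ ≤ lvr 1 lb t - lvr 1 lh t
  elo : ∀ r, M ≤ r ∨ σ ≤ r → r < T → e ≤ 1 - b * GG lh r
  eup : ∀ r ∈ Ico M σ, 1 - b * GG lh r ≤ e1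
  atM : M < σ → |Gam lb M - (M - (σ - b * Gam lh σ)) / b - c0| ≤ η ∧ b * GG lb M ≤ 1 + g
  net : ∀ t ∈ Ico (max M σ) P, ∃ p q mp mq : ℝ, M ≤ p ∧ p ≤ t ∧ t ≤ q ∧ q ≤ T ∧ mp ≤ hb t ∧
    mq - mp ≤ Dh + lam * e * (q - p) ∧
    -η ≤ Gam lb p - (p - mp) / b - c0 ∧ -η ≤ Gam lb q - (q - mq) / b - c0
  atP : ∃ mP : ℝ, -η ≤ Gam lb P - (P - mP) / b - c0 ∧ mP - (σ - b * Gam lh σ) ≤ Gt
  last : 1 - lvr 1 lb P ≤ u1
  stat : ∀ t, max M σ < t → t < P → (hb t - (σ - b * Gam lh σ)) * √(1 - lvr 1 lb t) ≤ G0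

/-- `PlS` with marks that may rise by `G1 / √ρ` over a gap -/
structure PlT (lb lh : List (ℝ × ℝ)) (T b σ' σ γ M P c0 η g Dh lam G0 G1 u2 Gt e e1 κ u1 : ℝ)
    (hb : ℝ → ℝ) : Prop where
  okb : Ok lb
  okh : Ok lh
  tb : TT lb = T
  th : TT lh = T
  b0 : 0 < b
  σ0 : 0 ≤ σ
  σT : σ ≤ T
  σ1 : σ' ≤ σ
  σγ : σ - σ' ≤ γ
  M0 : 0 ≤ M
  MP : M ≤ P
  PT : P ≤ T
  nn : 0 ≤ η ∧ 0 ≤ g ∧ 0 ≤ Dh ∧ 0 ≤ lam ∧ 0 < G0 ∧ 0 ≤ Gt ∧ 0 < e ∧ 0 ≤ e1 ∧ 0 < κ ∧ κ ≤ 1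
  G10 : 0 ≤ G1
  u20 : 0 < u2
  lamκ : lam ≤ κ / 32
  lhb : LB T hb
  top : ∀ s, σ ≤ s → lvr 1 lh s = 1
  conc : ∀ r ∈ Ico M T, Gd lb r ≤ 0
  gap : ∀ t ∈ Ico M σ', κ ≤ lvr 1 lb t - lvr 1 lh t
  elo : ∀ r, M ≤ r ∨ σ ≤ r → r < T → e ≤ 1 - b * GG lh r
  eup : ∀ r ∈ Ico M σ, 1 - b * GG lh r ≤ e1
  atM : M < σ → |Gam lb M - (M - (σ - b * Gam lh σ)) / b - c0| ≤ η ∧ b * GG lb M ≤ 1 + g
  net : ∀ t ∈ Ico (max M σ) P, ∃ p q mp mq : ℝ, M ≤ p ∧ p ≤ t ∧ t ≤ q ∧ q ≤ T ∧ mp ≤ hb t ∧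
    mq - mp ≤ Dh + G1 / √(max (1 - lvr 1 lb t) u2) + lam * e * (q - p) ∧
    -η ≤ Gam lb p - (p - mp) / b - c0 ∧ -η ≤ Gam lb q - (q - mq) / b - c0
  atP : ∃ mP : ℝ, -η ≤ Gam lb P - (P - mP) / b - c0 ∧ mP - (σ - b * Gam lh σ) ≤ Gt
  last : 1 - lvr 1 lb P ≤ u1
  stat : ∀ t, max M σ < t → t < P → (hb t - (σ - b * Gam lh σ)) * √(1 - lvr 1 lb t) ≤ G0

theorem PlT.pl (h : PlT lb lh T b σ' σ γ M P c0 η g Dh lam G0 G1 u2 Gt e e1 κ u1 hb) :
    PlS lb lh T b σ' σ γ M P c0 η g Dh lam (G0 + G1) Gt e e1 κ u1 fun t =>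
      hb t + G1 / √(max (1 - lvr 1 lb t) u2) := by
  obtain ⟨n1, n2, n3, n4, n5, n6⟩ := h.nn
  have G10 := h.G10
  have pos : ∀ t, 0 < √(max (1 - lvr 1 lb t) u2) := fun t =>
    Real.sqrt_pos.2 (h.u20.trans_le (le_max_right _ _))
  refine ⟨h.okb, h.okh, h.tb, h.th, h.b0, h.σ0, h.σT, h.σ1, h.σγ, h.M0, h.MP, h.PT,
    ⟨n1, n2, n3, n4, by linarith, n6⟩, h.lamκ, h.lhb.add (.of_mono
      fun x y hxy => div_le_div_of_nonneg_left G10 (pos y) (Real.sqrt_le_sqrt (max_le_max_right _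
        (sub_le_sub_left (Sc48.lvr_mono h.okb.1 hxy) 1)))), h.top, h.conc, h.gap, h.elo, h.eup,
    h.atM, fun t ht => ?_, h.atP, h.last, fun t a c => ?_⟩
  · obtain ⟨p, q, mp, mq, a1, a2, a3, a4, a5, a6, a7, a8⟩ := h.net t ht
    refine ⟨p, q, mp + G1 / √(max (1 - lvr 1 lb t) u2), mq, a1, a2, a3, a4, by linarith,
      by linarith, a7.trans ?_, a8⟩
    have : 0 ≤ G1 / √(max (1 - lvr 1 lb t) u2) := (div_nonneg G10 (pos t).le)
    have := div_le_div_of_nonneg_right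
      (show p - (mp + G1 / √(max (1 - lvr 1 lb t) u2)) ≤ p - mp by linarith) h.b0.le
    linarith
  · have x : G1 / √(max (1 - lvr 1 lb t) u2) * √(1 - lvr 1 lb t) ≤ G1 := by
      rw [div_mul_eq_mul_div, div_le_iff₀ (pos t)]
      exact mul_le_mul_of_nonneg_left (Real.sqrt_le_sqrt (le_max_left _ _)) G10
    have := h.stat t a c
    rw [add_sub_right_comm, add_mul]
    linarith

namespace PlS

variable (h : PlS lb lh T b σ' σ γ M P c0 η g Dh lam G0 Gt e e1 κ u1 hb)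
include h

theorem ld : LB T fun t => lvr 1 lb t - lvr 1 lh t :=
  (LB.of_mono (Sc48.lvr_mono h.okb.1)).sub (LB.of_mono (Sc48.lvr_mono h.okh.1))

theorem d1 (t : ℝ) : |lvr 1 lb t - lvr 1 lh t| ≤ 1 := Sc48.lvr_sub_le h.okh.1 h.okb.1 t

theorem dtop {t : ℝ} (ht : σ ≤ t) : lvr 1 lb t - lvr 1 lh t ≤ 0 ∧
    |lvr 1 lb t - lvr 1 lh t| = 1 - lvr 1 lb t := by
  have := Pp.Ode3.lvr_le_one h.okb.1 t
  rw [h.top t ht]
  exact ⟨by linarith, by rw [abs_of_nonpos (by linarith)]; ring⟩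

theorem grow {p s : ℝ} (hp : M ≤ p ∨ σ ≤ p) (hps : p ≤ s) (hs : s ≤ T) :
    p - b * Gam lh p + e * (s - p) ≤ s - b * Gam lh s :=
  Mh_ge h.okh h.b0 (hp.elim h.M0.trans h.σ0.trans) hps (by rw [h.th]; exact hs) fun r hr =>
    h.elo r (hp.imp (·.trans hr.1) (·.trans hr.1)) (hr.2.trans_le hs)

theorem r2q {t q : ℝ} (a : M ≤ t) (c : t < σ) (tq : t ≤ q) (qT : q ≤ T) :
    t - b * Gam lh t ≤ σ - b * Gam lh σ ∧
    Gam lb t - (t - (σ - b * Gam lh σ)) / b - c0 ≤ η + g / b * (q - M) := by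
  obtain ⟨-, g0, -, -, -, -, e0, -, κ0, -⟩ := h.nn
  obtain ⟨m2, m3⟩ := h.atM (a.trans_lt c)
  have gr := h.grow (.inl a) c.le h.σT
  have := mul_nonneg e0.le (sub_nonneg.2 c.le)
  refine ⟨by linarith, ?_⟩
  have := reg2' h.okb (h0 := σ - b * Gam lh σ) (η := η + c0) (K := 0) (p := M) (q := q) h.b0 h.M0
    (by rw [h.tb]; exact qT) g0 le_rfl
    (fun r hr => h.conc r ⟨hr.1, hr.2.trans_le qT⟩) (by linarith [(abs_le.1 m2).2]) m3 ⟨a, tq⟩
  linarith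

theorem r2 {t : ℝ} (a : M ≤ t) (c : t < max M σ') : 0 ≤ lvr 1 lb t - lvr 1 lh t ∧
    t - b * Gam lh t ≤ σ - b * Gam lh σ ∧
    Gam lb t - (t - (σ - b * Gam lh σ)) / b - c0 ≤ η + g / b * (max M σ' - M) := by
  have c' : t < σ' := (lt_max_iff.1 c).resolve_left (not_lt.2 a)
  exact ⟨h.nn.2.2.2.2.2.2.2.2.1.le.trans (h.gap t ⟨a, c'⟩), h.r2q a (c'.trans_le h.σ1) c.le
    (max_le (h.MP.trans h.PT) (h.σ1.trans h.σT))⟩

theorem r5 {C y ι : ℝ} (hC : 0 ≤ C) (hL : Spl27.GLip T C)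
    (hy : ∀ s ∈ Icc M T, |Sc48.Jf lh lb T s| ≤ y) (hι : ι = ∫ s in (0:ℝ)..T, |Sc48.Jf lh lb T s|)
    {t : ℝ} (a : max M σ' ≤ t) (c : t < max M σ) :
    |Gam lb t - Gam lh t - c0| ≤
      η + (g + e1) * (max M σ - M) / b + C * (y + ι) * (max M σ - M) := by
  obtain ⟨-, g0, -, -, -, -, e0, e10, -⟩ := h.nn
  have b0 := h.b0
  have Mt : M ≤ t := (le_max_left _ _).trans a
  have c' : t < σ := (lt_max_iff.1 c).resolve_left (not_lt.2 Mt)
  have Mσ := Mt.trans_lt c'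
  have T0 := h.σ0.trans h.σT
  have ι0 : 0 ≤ ι := hι ▸ int_nn T0 fun _ => abs_nonneg _
  have y0 : 0 ≤ y := (abs_nonneg _).trans (hy T ⟨h.MP.trans h.PT, le_rfl⟩)
  rw [max_eq_right Mσ.le]
  have D0 := sub_nonneg.2 Mσ.le
  obtain ⟨u1', u2'⟩ := h.r2q Mt c' c'.le h.σT
  have l1 := (abs_le.1 (h.atM Mσ).1).1
  have l2 := Mh_le h.okh b0 h.M0 Mσ.le (by rw [h.th]; exact h.σT) (e := e1) h.eup
  have tT := c'.le.trans h.σT
  have l3 := (abs_le.1 (reg4 h.okh h.okb (j := C * (y + ι)) h.M0 Mt (by rw [h.th]; exact tT)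
    (by rw [h.tb]; exact tT) fun r hr => by
      have mr : r ∈ Icc 0 T := ⟨h.M0.trans hr.1, hr.2.le.trans tT⟩
      refine (hL lh lb h.okh h.okb h.th h.tb r mr).trans ?_
      rw [← hι]
      exact mul_le_mul_of_nonneg_left (by linarith [hy r ⟨hr.1, mr.2⟩]) hC)).1
  have l4 := mul_le_mul_of_nonneg_left (show t - M ≤ σ - M by linarith)
    (show 0 ≤ C * (y + ι) by positivity)
  have p1 : 0 ≤ g * (σ - M) / b := by positivity
  have p2 : 0 ≤ e1 * (σ - M) / b := by positivity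
  have p3 : 0 ≤ C * (y + ι) * (σ - M) := by positivity
  have e1' : (g + e1) * (σ - M) / b = g * (σ - M) / b + e1 * (σ - M) / b := by ring
  have e2 : g / b * (σ - M) = g * (σ - M) / b := by ring
  have v1 : (t - (σ - b * Gam lh σ)) / b ≤ Gam lh t := by rw [div_le_iff₀ b0]; linarith
  have v2 : Gam lh M ≤ (M - (σ - b * Gam lh σ)) / b + e1 * (σ - M) / b := by
    rw [← add_div, le_div_iff₀ b0]; linarith
  rw [abs_le]
  constructor <;> linarith

theorem r3 {t : ℝ} (a : max M σ ≤ t) (c : t < P) :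
    -(η + Dh / b + lam * e * (max M σ - M) / b) ≤
      Gam lb t - (t - (hb t + lam * e * (t - max M σ))) / b - c0 := by
  obtain ⟨-, -, D0, l0, -, -, e0, -⟩ := h.nn
  obtain ⟨p, q, mp, mq, a1, a2, a3, a4, a5, a6, a7, a8⟩ := h.net t ⟨a, c⟩
  have k := Reg48.conc h.okb ((1 - lam * e) / b) (h.M0.trans a1) (by rw [h.tb]; exact a4)
    (fun r hr => h.conc r ⟨a1.trans hr.1, hr.2.trans_le a4⟩) ⟨a2, a3⟩
  have b0 := h.b0
  have i0 : 0 < b⁻¹ := inv_pos.2 b0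
  have d5 := mul_le_mul_of_nonneg_right a5 i0.le
  have d6 := mul_le_mul_of_nonneg_right a6 i0.le
  have d7 := mul_nonneg (mul_nonneg (mul_nonneg l0 e0.le) (sub_nonneg.2 a1)) i0.le
  have d8 := mul_nonneg D0 i0.le
  simp only [div_eq_mul_inv] at *
  rcases min_le_iff.1 k with k | k <;> nlinarith

theorem tail {U Lt r : ℝ} (hU : ∀ s, U ≤ s → lvr 1 lb s = 1) (L0 : 0 ≤ Lt)
    (hL' : U - max M σ ≤ Lt) (a : max (max M σ) P ≤ r) (c : r ≤ T) :
    ∫ s in r..T, |lvr 1 lb s - lvr 1 lh s| ≤ u1 * Lt := by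
  have u0 : 0 ≤ u1 := le_trans (sub_nonneg.2 (Pp.Ode3.lvr_le_one h.okb.1 P)) h.last
  have Sr : max M σ ≤ r := (le_max_left _ _).trans a
  have σr : σ ≤ r := (le_max_right _ _).trans Sr
  have r0 : 0 ≤ r := h.σ0.trans σr
  have z : ∀ s, σ ≤ s → U ≤ s → |lvr 1 lb s - lvr 1 lh s| = 0 := fun s x y => by
    rw [hU s y, h.top s x, sub_self, abs_zero]
  have w : ∀ s, r < s → |lvr 1 lb s - lvr 1 lh s| ≤ u1 := fun s x => by
    rw [(h.dtop (σr.trans x.le)).2]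
    linarith [h.last, Sc48.lvr_mono h.okb.1 (((le_max_right _ P).trans a).trans x.le)]
  rcases le_total U r with x | x
  · rw [Cut8.int_zero c fun s y _ => z s (σr.trans y.le) (x.trans y.le)]
    positivity
  rcases le_total U T with y | y
  · rw [int_split h.ld.abs (b := U) ⟨r0, c⟩ ⟨r0.trans x, y⟩ ⟨r0.trans c, le_rfl⟩,
      Cut8.int_zero y fun s y _ => z s (σr.trans (x.trans y.le)) y.le, add_zero]
    refine (int_le h.ld.abs r0 x y fun s y _ => w s y).trans ?_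
    rw [mul_comm]
    exact mul_le_mul_of_nonneg_left (by linarith) u0
  · refine (int_le h.ld.abs r0 c le_rfl fun s y _ => w s y).trans ?_
    rw [mul_comm]
    exact mul_le_mul_of_nonneg_left (by linarith) u0

theorem r4UL {C y ι U Lt : ℝ} (hU : ∀ s, U ≤ s → lvr 1 lb s = 1) (L0 : 0 ≤ Lt)
    (hL' : U - max M σ ≤ Lt) (hC : 0 ≤ C) (hL : Spl27.GLip T C)
    (hy : ∀ s ∈ Icc M T, |Sc48.Jf lh lb T s| ≤ y) (hι : ι = ∫ s in (0:ℝ)..T, |Sc48.Jf lh lb T s|)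
    {t : ℝ} (a : max (max M σ) P ≤ t) (c : t < T) (cU : t < U) :
    -(η + (Gt + e1 * (max M σ - M)) / b + C * (y + ι) * (max M σ - M) + C * (u1 * Lt + ι) * Lt) ≤
      Gam lb t - Gam lh t - c0 := by
  obtain ⟨-, -, -, -, -, -, e0, e10, -⟩ := h.nn
  obtain ⟨mP, a1, a2⟩ := h.atP
  have P0 := h.M0.trans h.MP
  have T0 := P0.trans h.PT
  have b0 := h.b0
  have D0 : 0 ≤ max M σ - M := sub_nonneg.2 (le_max_left _ _)
  have ι0 : 0 ≤ ι := hι ▸ int_nn T0 fun _ => abs_nonneg _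
  have y0 : 0 ≤ y := (abs_nonneg _).trans (hy T ⟨h.MP.trans h.PT, le_rfl⟩)
  have u0 : 0 ≤ u1 := le_trans (sub_nonneg.2 (Pp.Ode3.lvr_le_one h.okb.1 P)) h.last
  set Q := max (max M σ) P with hQ
  have PQ : P ≤ Q := le_max_right _ _
  have σQ : σ ≤ Q := (le_max_right _ _).trans (le_max_left _ _)
  have QP : Q - P ≤ max M σ - M := by
    have := max_le (le_refl (max M σ)) (le_refl _)
    rcases le_total (max M σ) P with x | x
    · rw [hQ, max_eq_right x]; linarith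
    · rw [hQ, max_eq_left x]; linarith [h.MP]
  have m1 : σ - b * Gam lh σ ≤ P - b * Gam lh P + e1 * (max M σ - M) := by
    rcases le_total σ P with x | x
    · have := h.grow (.inr le_rfl) x h.PT
      nlinarith [mul_nonneg e0.le (sub_nonneg.2 x), mul_nonneg e10 D0]
    · have := Mh_le h.okh b0 P0 x (by rw [h.th]; exact h.σT) (e := e1)
        fun r hr => h.eup r ⟨h.MP.trans hr.1, hr.2⟩
      have := mul_le_mul_of_nonneg_left
        (show σ - P ≤ max M σ - M by linarith [le_max_right M σ, h.MP]) e10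
      linarith
  have s0 : -(η + (Gt + e1 * (max M σ - M)) / b) ≤ Gam lb P - Gam lh P - c0 := by
    have : (P - mP) / b + (Gt + e1 * (max M σ - M)) / b ≥ Gam lh P := by
      rw [← add_div, ge_iff_le, le_div_iff₀ b0]; linarith
    linarith
  have QT : Q ≤ T := a.trans c.le
  have s1 := (abs_le.1 (reg4 h.okh h.okb (j := C * (y + ι)) P0 PQ (by rw [h.th]; exact QT)
    (by rw [h.tb]; exact QT) fun r hr => by
      have mr : r ∈ Icc 0 T := ⟨P0.trans hr.1, hr.2.le.trans QT⟩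
      refine (hL lh lb h.okh h.okb h.th h.tb r mr).trans ?_
      rw [← hι]
      exact mul_le_mul_of_nonneg_left (by linarith [hy r ⟨h.MP.trans hr.1, mr.2⟩]) hC)).1
  have s2 := (abs_le.1 (reg4 h.okh h.okb (j := C * (u1 * Lt + ι)) (P0.trans PQ) a
    (by rw [h.th]; exact c.le) (by rw [h.tb]; exact c.le) fun r hr => by
      have mr : r ∈ Icc 0 T := ⟨(P0.trans PQ).trans hr.1, hr.2.le.trans c.le⟩
      refine (hL lh lb h.okh h.okb h.th h.tb r mr).trans ?_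
      rw [← hι]
      have := (intervalIntegral.abs_integral_le_integral_abs mr.2).trans
        (h.tail hU L0 hL' hr.1 mr.2)
      exact mul_le_mul_of_nonneg_left (add_le_add this le_rfl) hC)).1
  have s3 := mul_le_mul_of_nonneg_left QP (show 0 ≤ C * (y + ι) by positivity)
  have s4 := mul_le_mul_of_nonneg_left (show t - Q ≤ Lt by linarith [le_max_left (max M σ) P])
    (show 0 ≤ C * (u1 * Lt + ι) by positivity)
  linarith

theorem growq {c s : ℝ} (hc : 0 ≤ c) (hq : ∀ r, σ ≤ r → r < T → Gd lh r ≤ -c) (hs : max M σ ≤ s)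
    (hT : s ≤ T) :
    σ - b * Gam lh σ + e * (s - max M σ) + b * c / 2 * (s - max M σ) ^ 2 ≤ s - b * Gam lh s := by
  have σS : σ ≤ max M σ := le_max_right _ _
  have b0 := h.b0
  rcases h.σT.eq_or_lt with x | x
  · have e1 : s = σ := le_antisymm (x ▸ hT) (σS.trans hs)
    have e2 : max M σ = σ := le_antisymm (e1 ▸ hs) σS
    rw [e2, e1]; simp
  have a := Gam_up h.okh h.σ0 (σS.trans hs) (by rw [h.th]; exact hT) (K := -c)
    fun r hr => hq r hr.1 (hr.2.trans_le hT)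
  have a1 := mul_le_mul_of_nonneg_left a b0.le
  have a2 := mul_le_mul_of_nonneg_right (h.elo σ (.inr le_rfl) x) (sub_nonneg.2 (σS.trans hs))
  have a3 := mul_le_mul_of_nonneg_left (sub_le_sub_left σS s) h.nn.2.2.2.2.2.2.1.le
  have a4 := mul_le_mul_of_nonneg_left (pow_le_pow_left₀ (sub_nonneg.2 hs) (sub_le_sub_left σS s) 2)
    (show 0 ≤ b * c / 2 by positivity)
  nlinarith

set_option maxHeartbeats 1600000 in
/-- **the plateau part of the energy estimate**, local energy, `zb = 1` from `U` on, `U - max M σ ≤ Lt` -/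
theorem res {A A0 c C θ E N U Lt : ℝ} {H r1 r2 ω β ξ : ℝ → ℝ} (hU : ∀ s, U ≤ s → lvr 1 lb s = 1)
    (L0 : 0 ≤ Lt) (hL' : U - max M σ ≤ Lt) (hC : 0 ≤ C) (hL : Spl27.GLip T C)
    (R : Res T (fun t => lvr 1 lb t - lvr 1 lh t) (fun t => Gam lb t - Gam lh t) H r1 r2 ω β ξ A M)
    (hA : 0 ≤ A) (hAM : A ≤ M) (hc : r2 M = c0) (β0 : 0 ≤ β M)
    (hA0 : 0 ≤ A0) (hA0M : A0 ≤ M)
    (hE : (∫ t in A0..T, Sc48.Jf lh lb T t ^ 2) + (∫ t in (0:ℝ)..A0, |Sc48.Jf lh lb T t|) ^ 2 ≤ E)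
    (c0' : 0 < c) (hq : ∀ r, σ ≤ r → r < T → Gd lh r ≤ -c)
    (n : PNS T Lt C b c θ (η + β M + (Dh + lam * e * γ) / b) g G0 Gt e e1 κ u1 γ N) :
    ∃ (H' r1' r2' ω' β' ξ' : ℝ → ℝ) (Z : ℝ),
      Res T (fun t => lvr 1 lb t - lvr 1 lh t) (fun t => Gam lb t - Gam lh t)
        H' r1' r2' ω' β' ξ' A T ∧
      (∀ t, t < M → H' t = H t ∧ r1' t = r1 t ∧ r2' t = r2 t ∧ β' t = β t) ∧
      ∫ t in A..T, ω' t ^ 2 = ∫ t in A..M, ω t ^ 2 ∧
      ∫ t in A..T, H' t * (lvr 1 lb t - lvr 1 lh t) =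
        (∫ t in A..M, H t * (lvr 1 lb t - lvr 1 lh t)) + Z ∧ 0 ≤ Z ∧
      ∫ t in A..T, ξ' t ≤ (∫ t in A..M, ξ t) + 14 * θ * E + Z / 4 + 17 * N ∧
      e * κ * (max M σ' - M) ^ 2 / (2 * b) + e / (4 * b) *
        (∫ t in max M σ..max (max M σ) P, (t - max M σ) * (1 - lvr 1 lb t)) +
        c / 4 * (∫ t in max M σ..max (max M σ) P, (t - max M σ) ^ 2 * (1 - lvr 1 lb t)) ≤
        Z + N := by
  obtain ⟨η0, g0, Dh0, l0, G00, Gt0, e0, e10, κ0, κ1⟩ := h.nn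
  have b0 := h.b0
  have M0 := h.M0
  have MT := h.MP.trans h.PT
  have T0 := M0.trans MT
  have θ0 := n.pn.θ0
  have N0 := n.pn.N0
  have γ0 : 0 ≤ γ := by linarith [h.σ1, h.σγ]
  have u0 : 0 ≤ u1 := le_trans (sub_nonneg.2 (Pp.Ode3.lvr_le_one h.okb.1 P)) h.last
  have ld := h.ld
  have lΓ : LB T (Gam lh) := .of_cont (h.th ▸ (ode h.okh).1)
  have lM : LB T fun t => t - b * Gam lh t :=
    (LB.of_cont continuousOn_id).sub ((LB.const b).mul lΓ)
  have lJ : LB T (Sc48.Jf lh lb T) := .of_cont (ld.tail (right_mem_Icc.mpr T0))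
  have AT := hA0M.trans MT
  have ι2 := iota_loc lJ hA0 AT hE
  replace hE : ∫ t in A0..T, Sc48.Jf lh lb T t ^ 2 ≤ E := (le_add_of_nonneg_right (sq_nonneg _)).trans hE
  have E0 : 0 ≤ E := (int_nn AT fun _ => sq_nonneg _).trans hE
  obtain ⟨y, y0, hy3⟩ : ∃ y : ℝ, 0 ≤ y ∧ y ^ 3 = 8 * E :=
    ⟨(8 * E) ^ (((3:ℕ):ℝ)⁻¹), by positivity, Real.rpow_inv_natCast_pow (by positivity) (by norm_num)⟩
  have hy : ∀ s ∈ Icc M T, |Sc48.Jf lh lb T s| ≤ y := fun s hs => by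
    have a := Jf_le (l := lh) (l' := lb) (u := 1) hs.2 fun r _ => h.d1 r
    have c := Lab36.sup_cube (zh := lvr 1 lh) (zb := lvr 1 lb) ld (fun t _ _ => h.d1 t) hA0
      le_rfl (hA0M.trans hs.1) hs.2 (.inr (by
        show s + |Sc48.Jf lh lb T s| / 2 ≤ T
        linarith [abs_nonneg (Sc48.Jf lh lb T s)]))
    refine le_of_pow_le_pow_left₀ (n := 3) (by norm_num) y0 (c.trans ?_)
    rw [hy3]
    exact mul_le_mul_of_nonneg_left hE (by norm_num)
  set ι := ∫ s in (0:ℝ)..T, |Sc48.Jf lh lb T s| with hι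
  have ι0 : 0 ≤ ι := int_nn T0 fun _ => abs_nonneg _
  have r2' := fun t => h.r2 (t := t)
  have r5' := fun t => h.r5 hC hL hy hι (t := t)
  have r3' := fun t => h.r3 (t := t)
  have r4' := fun t => h.r4UL hU L0 hL' hC hL hy hι (t := t)
  have tl := fun r => h.tail hU L0 hL' (r := r)
  have gw := fun s => h.growq c0'.le hq (s := s)
  have st := h.stat
  have cS : max M σ' - M = 0 ∨ (M < σ' ∧ max M σ' = σ') := by
    rcases le_or_gt σ' M with x | x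
    · exact .inl (by rw [max_eq_left x, sub_self])
    · exact .inr ⟨x, max_eq_right x.le⟩
  have SS : max M σ' ≤ max M σ := max_le_max_left _ h.σ1
  have Sγ : max M σ - max M σ' ≤ γ := by
    rcases le_total M σ with x | x
    · rw [max_eq_right x]; linarith [le_max_right M σ', h.σγ]
    · rw [max_eq_left x]; linarith [le_max_left M σ']
  set S' := max M σ' with hS'
  have MS' : M ≤ S' := le_max_left _ _
  set S := max M σ with hS
  have MS : M ≤ S := le_max_left _ _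
  have σS : σ ≤ S := le_max_right _ _
  have ST : S ≤ T := max_le MT h.σT
  set Q := max S P with hQ
  have SQ : S ≤ Q := le_max_left _ _
  have QT : Q ≤ T := max_le ST h.PT
  have S0 := M0.trans MS
  have tP : ∀ t, S ≤ t → t < Q → t < P := fun t a c =>
    (lt_max_iff.1 c).resolve_left (not_lt.2 a)
  set D := S - M with hD
  have D0 : 0 ≤ D := sub_nonneg.2 MS
  set D' := S' - M with hD'
  have D0' : 0 ≤ D' := sub_nonneg.2 MS'
  have S'T := SS.trans ST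
  have lh' : LB T fun t => hb t + lam * e * (t - S) := h.lhb.add (LB_lin T _ S)
  subst hc
  obtain ⟨H0, r10, r20, ω0, β1, ξ0, R0, d1, d2, d3, d4, d5, d6⟩ := res_two (hm := σ - b * Gam lh σ)
    R ld lΓ b0 hA hAM MS' SS ST β0 (by positivity) (by positivity) r2' r5'
  obtain ⟨H', r1', r2'', ω', β', ξ', R', c1, -, -, c4, c5, c6⟩ := res_top' (hm := 0) (B2 := 0)
    R0 ld lΓ lh' b0 hA (hAM.trans MS) le_rfl SQ QT (d3 ▸ β0) le_rfl (by positivity) (by positivity)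
    (fun t a c => absurd c (not_lt.2 a))
    (fun t a c => ⟨(h.dtop (σS.trans a)).1, d2 ▸ r3' t a (tP t a c)⟩)
    (fun t a c => ⟨(h.dtop (σS.trans (SQ.trans a))).1, (le_or_gt U t).imp
      (fun x => by rw [hU t x, h.top t (σS.trans (SQ.trans a)), sub_self]) (d2 ▸ r4' t a c)⟩)
  rw [intervalIntegral.integral_same, mul_zero, zero_add, d3, d5] at c5
  rw [intervalIntegral.integral_same, zero_div, zero_add, d6, add_assoc] at c6
  rw [d4] at c4
  have eW : ∫ t in S..Q, (t - S) * (1 - lvr 1 lb t) =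
      ∫ t in S..Q, (t - S) * |lvr 1 lb t - lvr 1 lh t| :=
    intervalIntegral.integral_congr_Ioo_of_le SQ fun t ht => by
      rw [(h.dtop (σS.trans ht.1.le)).2]
  have eW2 : ∫ t in S..Q, (t - S) ^ 2 * (1 - lvr 1 lb t) =
      ∫ t in S..Q, (t - S) ^ 2 * |lvr 1 lb t - lvr 1 lh t| :=
    intervalIntegral.integral_congr_Ioo_of_le SQ fun t ht => by
      rw [(h.dtop (σS.trans ht.1.le)).2]
  rw [eW, eW2]
  have mS : S ∈ Icc 0 T := ⟨S0, ST⟩
  have mQ : Q ∈ Icc 0 T := ⟨S0.trans SQ, QT⟩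
  have mT : T ∈ Icc 0 T := ⟨T0, le_rfl⟩
  have bt := bath ld.abs S0 SQ QT (fun _ => abs_nonneg _) fun t _ _ => h.d1 t
  have I2 : ∫ t in M..S', |lvr 1 lb t - lvr 1 lh t| ≤ D' * 1 :=
    int_le ld.abs M0 MS' S'T fun t _ _ => h.d1 t
  have I2' : 0 ≤ ∫ t in M..S', |lvr 1 lb t - lvr 1 lh t| := int_nn MS' fun _ => abs_nonneg _
  have I5 : ∫ t in S'..S, |lvr 1 lb t - lvr 1 lh t| ≤ γ :=
    (int_le ld.abs (M0.trans MS') SS ST fun t _ _ => h.d1 t).trans (by linarith)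
  have I5' : 0 ≤ ∫ t in S'..S, |lvr 1 lb t - lvr 1 lh t| := int_nn SS fun _ => abs_nonneg _
  have I4 : ∫ t in Q..T, |lvr 1 lb t - lvr 1 lh t| ≤ u1 * Lt := tl Q le_rfl QT
  have I4' : 0 ≤ ∫ t in Q..T, |lvr 1 lb t - lvr 1 lh t| := int_nn QT fun _ => abs_nonneg _
  have V0 : 0 ≤ ∫ t in S..Q, |lvr 1 lb t - lvr 1 lh t| := int_nn SQ fun _ => abs_nonneg _
  have V1 : ∫ t in S..Q, |lvr 1 lb t - lvr 1 lh t| ≤ y := by
    have a := int_split ld.abs mS mQ mT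
    have c : ∫ t in S..T, |lvr 1 lb t - lvr 1 lh t| = -Sc48.Jf lh lb T S := by
      unfold Sc48.Jf
      rw [← intervalIntegral.integral_neg]
      exact intervalIntegral.integral_congr_Ioo_of_le ST fun t ht =>
        abs_of_nonpos (h.dtop (σS.trans ht.1.le)).1
    linarith [neg_le_abs (Sc48.Jf lh lb T S), hy S ⟨MS, ST⟩]
  have D3 : κ ^ 2 * D' ^ 3 / 64 ≤ E := by
    rcases cS with x | ⟨-, x⟩
    · rw [x]; simpa using E0
    · have a := Lab36.gap_pos (zh := lvr 1 lh) (zb := lvr 1 lb) ld M0 D0' (by linarith) κ0.le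
        fun t a c => h.gap t ⟨a.le, by linarith⟩
      have c := intervalIntegral.integral_mono_interval (μ := volume) (a := M) (b := M + D')
        (c := A0) (d := T) (f := fun t => Sc48.Jf lh lb T t ^ 2) hA0M (by linarith) (by linarith)
        (Filter.Eventually.of_forall fun _ => sq_nonneg _) (lJ.sq.ii ⟨hA0, AT⟩ mT)
      exact a.trans (c.trans hE)
  have Z2 : e * κ * D' ^ 2 / 2 ≤
      ∫ t in M..S', (σ - b * Gam lh σ - (t - b * Gam lh t)) * |lvr 1 lb t - lvr 1 lh t| := by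
    rcases cS with x | ⟨x0, x⟩
    · rw [x, show S' = M by linarith]; simp
    · have a := int_mono (LB_lin T (-(e * κ)) S')
        (((LB.const (σ - b * Gam lh σ)).sub lM).mul ld.abs) M0 MS' S'T fun t a c => by
          have σ1 := h.σ1
          have g1 := h.gap t ⟨a.le, by linarith⟩
          have g2 := h.grow (.inl a.le) (by linarith : t ≤ σ) h.σT
          have g3 : e * (σ' - t) ≤ e * (σ - t) := mul_le_mul_of_nonneg_left (by linarith) e0.le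
          have g4 : e * (σ' - t) ≤ σ - b * Gam lh σ - (t - b * Gam lh t) := by linarith
          have g5 : 0 ≤ e * (σ' - t) := mul_nonneg e0.le (by linarith)
          have := mul_le_mul g4 (g1.trans (le_abs_self _)) κ0.le (g5.trans g4)
          rw [x]
          linarith
      rw [int_lin] at a
      refine le_of_eq_of_le ?_ a
      rw [hD']; ring
  have lq : LB T fun t => b * c / 4 * (t - S) ^ 2 := .of_cont (by fun_prop)
  have lk : LB T fun t => hb t + lam * e * (t - S) - (t - b * Gam lh t) +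
      (e / 4 * (t - S) + b * c / 4 * (t - S) ^ 2) := (lh'.sub lM).add ((LB_lin T _ S).add lq)
  have key : ∀ t, S < t → t < Q → (hb t + lam * e * (t - S) - (t - b * Gam lh t) +
      (e / 4 * (t - S) + b * c / 4 * (t - S) ^ 2) + (e / 4 * (t - S) + b * c / 4 * (t - S) ^ 2)) *
      √|lvr 1 lb t - lvr 1 lh t| ≤ G0 := fun t a c => by
    rw [(h.dtop (σS.trans a.le)).2]
    refine le_trans (mul_le_mul_of_nonneg_right ?_ (Real.sqrt_nonneg _)) (st t a (tP t a.le c))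
    have g1 := gw t a.le (c.le.trans QT)
    have g2 : 0 ≤ e * (t - S) := mul_nonneg e0.le (by linarith)
    linarith [mul_le_mul_of_nonneg_right (h.lamκ.trans (by linarith : κ / 32 ≤ 1 / 2)) g2]
  have St' : (∫ t in S..Q, max (hb t + lam * e * (t - S) - (t - b * Gam lh t) +
      (e / 4 * (t - S) + b * c / 4 * (t - S) ^ 2)) 0 * |lvr 1 lb t - lvr 1 lh t|) / b ≤ N := by
    rcases n.pn.h8 with h8 | h8
    · have St := static_cost (e := e / 4) ld lk S0 SQ QT (by positivity) G00 (fun t _ _ => h.d1 t)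
        fun t a c => le_trans (mul_le_mul_of_nonneg_right (add_le_add le_rfl
          (le_add_of_nonneg_right (by positivity))) (Real.sqrt_nonneg _)) (key t a c)
      refine le_trans (div_le_div_of_nonneg_right (St.trans ?_) b0.le) h8
      have q0 := sub_nonneg.2 SQ
      rw [show 2 * G0 ^ 2 / (e / 4) = 8 * G0 ^ 2 / e by field_simp; ring]
      refine mul_le_mul_of_nonneg_left (Real.log_le_log (by positivity) ?_) (by positivity)
      have : e / 4 * (Q - S) ≤ e * T :=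
        mul_le_mul (by linarith) (by linarith) q0 e0.le
      gcongr
    · have St := static_cub (c := b * c / 4) (N := b * N) ld lk S0 SQ QT (by positivity) G00
        (by positivity) (by rw [mul_pow]; linarith) (fun t _ _ => h.d1 t)
        fun t a c => le_trans (mul_le_mul_of_nonneg_right (add_le_add le_rfl
          (le_add_of_nonneg_left (mul_nonneg (by positivity) (by linarith))))
            (Real.sqrt_nonneg _)) (key t a c)
      rw [div_le_iff₀ b0]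
      linarith
  have lW : LB T fun t => (t - S) * |lvr 1 lb t - lvr 1 lh t| := by
    simpa using (LB_lin T 1 S).mul ld.abs
  have lW2 : LB T fun t => (t - S) ^ 2 * |lvr 1 lb t - lvr 1 lh t| :=
    (LB.of_cont (by fun_prop)).mul ld.abs
  have l3 := (LB_max (lM.sub lh')).mul ld.abs
  have lk' := (LB_max lk).mul ld.abs
  have St1 := int_mono ((LB_max (lh'.sub lM)).mul ld.abs) lk' S0 SQ QT fun t a _ =>
    mul_le_mul_of_nonneg_right (max_le_max_right 0 (le_add_of_nonneg_right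
      (add_nonneg (mul_nonneg (by positivity) (by linarith)) (by positivity)))) (abs_nonneg _)
  have l4 := (LB.const (e / 4)).mul lW
  have l5 := (LB.const (b * c / 4)).mul lW2
  have Z4 := int_mono (l4.add l5) (l3.add lk') S0 SQ QT fun t _ _ => by
    rw [← add_mul, ← mul_assoc, ← mul_assoc (b * c / 4), ← add_mul]
    refine mul_le_mul_of_nonneg_right ?_ (abs_nonneg _)
    linarith [le_max_left (t - b * Gam lh t - (hb t + lam * e * (t - S))) 0, le_max_left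
      (hb t + lam * e * (t - S) - (t - b * Gam lh t) +
        (e / 4 * (t - S) + b * c / 4 * (t - S) ^ 2)) 0]
  rw [intervalIntegral.integral_add (l3.ii mS mQ) (lk'.ii mS mQ),
    intervalIntegral.integral_add (l4.ii mS mQ) (l5.ii mS mQ),
    intervalIntegral.integral_const_mul, intervalIntegral.integral_const_mul] at Z4
  have W20 : 0 ≤ ∫ t in S..Q, (t - S) ^ 2 * |lvr 1 lb t - lvr 1 lh t| :=
    int_nn SQ fun _ => by positivity
  have Z30 : 0 ≤ ∫ t in S..Q, max (t - b * Gam lh t - (hb t + lam * e * (t - S))) 0 *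
      |lvr 1 lb t - lvr 1 lh t| := int_nn SQ fun _ => by positivity
  refine ⟨H', r1', r2'', ω', β', ξ', _, R', fun t x => ?_, c4, c6, ?_⟩
  · obtain ⟨x1, x2, x3, x4⟩ := c1 t (x.trans_le MS)
    obtain ⟨y1, y2, y3, y4⟩ := d1 t x
    exact ⟨x1.trans y1, x2.trans y2, x3.trans y3, x4.trans y4⟩
  rw [c5]
  generalize (∫ t in M..S', (σ - b * Gam lh σ - (t - b * Gam lh t)) *
    |lvr 1 lb t - lvr 1 lh t|) = z2 at *
  generalize (∫ t in S..Q, max (t - b * Gam lh t - (hb t + lam * e * (t - S))) 0 *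
    |lvr 1 lb t - lvr 1 lh t|) = z3 at *
  generalize (∫ t in S..Q, max (hb t + lam * e * (t - S) - (t - b * Gam lh t) +
    (e / 4 * (t - S) + b * c / 4 * (t - S) ^ 2)) 0 * |lvr 1 lb t - lvr 1 lh t|) = s2 at *
  generalize (∫ t in S..Q, (t - S) ^ 2 * |lvr 1 lb t - lvr 1 lh t|) = W2 at *
  generalize (∫ t in S..Q, max (hb t + lam * e * (t - S) - (t - b * Gam lh t)) 0 *
    |lvr 1 lb t - lvr 1 lh t|) = s1 at *
  generalize (∫ t in S..Q, (t - S) * |lvr 1 lb t - lvr 1 lh t|) = W at *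
  generalize (∫ t in S..Q, |lvr 1 lb t - lvr 1 lh t|) = V at *
  generalize (∫ t in M..S', |lvr 1 lb t - lvr 1 lh t|) = i2 at *
  generalize (∫ t in S'..S, |lvr 1 lb t - lvr 1 lh t|) = i5 at *
  generalize (∫ t in Q..T, |lvr 1 lb t - lvr 1 lh t|) = i4 at *
  have Z3 : e / 4 * W ≤ z3 + s2 := by
    linarith [mul_nonneg (show 0 ≤ b * c / 4 by positivity) W20]
  obtain ⟨f1, f2⟩ := finS (x := ∫ t in A..M, ξ t) (D := D) n hC b0 T0 L0 η0 β0 g0 Dh0 l0 h.lamκ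
    Gt0 e0 e10 κ0 κ1 u0 E0 D0' y0 hy3 ι0 ι2 D3 V0 V1 bt I2 I2' I4 I4' Z2 Z3 Z30 St1 St' γ0 D0
    (by rw [hD, hD']; linarith) I5 I5'
  refine ⟨f1, f2, ?_⟩
  have f3 := div_le_div_of_nonneg_right (add_le_add Z2 Z4) b0.le
  rw [show (e * κ * D' ^ 2 / 2 + (e / 4 * W + b * c / 4 * W2)) / b =
    e * κ * D' ^ 2 / (2 * b) + e / (4 * b) * W + c / 4 * W2 by field_simp; ring,
    add_div, add_div] at f3
  linarith

/-- `res` in the form `Ext` -/
theorem ext {A0 c C θ E N U Lt : ℝ} {H r1 r2 ω β ξ : ℝ → ℝ} (hU : ∀ s, U ≤ s → lvr 1 lb s = 1)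
    (L0 : 0 ≤ Lt) (hL' : U - max M σ ≤ Lt) (hC : 0 ≤ C) (hL : Spl27.GLip T C)
    (R : Res T (fun t => lvr 1 lb t - lvr 1 lh t) (fun t => Gam lb t - Gam lh t) H r1 r2 ω β ξ 0 M)
    (hM : 0 < M) (hc : r2 M = c0) (β0 : 0 ≤ β M) (hA0 : 0 ≤ A0) (hA0M : A0 ≤ M)
    (hE : (∫ t in A0..T, Sc48.Jf lh lb T t ^ 2) + (∫ t in (0:ℝ)..A0, |Sc48.Jf lh lb T t|) ^ 2 ≤ E)
    (c0' : 0 < c) (hq : ∀ r, σ ≤ r → r < T → Gd lh r ≤ -c)
    (n : PNS T Lt C b c θ (η + β M + (Dh + lam * e * γ) / b) g G0 Gt e e1 κ u1 γ N) :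
    ∃ Z : ℝ, 0 ≤ Z ∧ Ext T (fun t => lvr 1 lb t - lvr 1 lh t) (fun t => Gam lb t - Gam lh t)
        H r2 ω β ξ M T (14 * θ * E + Z / 4 + 17 * N) Z ∧
      e * κ * (max M σ' - M) ^ 2 / (2 * b) + e / (4 * b) *
        (∫ t in max M σ..max (max M σ) P, (t - max M σ) * (1 - lvr 1 lb t)) +
        c / 4 * (∫ t in max M σ..max (max M σ) P, (t - max M σ) ^ 2 * (1 - lvr 1 lb t)) ≤
        Z + N := by
  obtain ⟨H', r1', r2', ω', β', ξ', Z, a1, a2, a5, a6, a7, a8, a9⟩ :=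
    h.res hU L0 hL' hC hL R le_rfl hM.le hc β0 hA0 hA0M hE c0' hq n
  exact ⟨Z, a7, ⟨H', r1', r2', ω', β', ξ', a1, (a2 0 hM).2.2.1, (a2 0 hM).2.2.2, a5.le,
    by linarith, a6⟩, a9⟩



end PlS

end

end Crest.Agent.T156.Pr.Reg48
end

-- ▼ part T156/PlatZ_48
section

/-!
Row 156 (helper48): the plateau part of the energy estimate, final form: all node errors above the
cut `M` are part of the marks `hb`, the static cost is pointwise, the last region is anchored at `M`.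
-/

set_option autoImplicit false

namespace Crest.Agent.T156.Pr.Reg48

open MeasureTheory Set
open Crest.Agent.R164.GC Crest.Agent.R339.B Crest.Agent.R339.Var Crest.Agent.T157.Pf
open Crest.Agent.T156.Cut8 (LB Res int_mono int_split Ext)

noncomputable section

/-- a mark excess `K` on the label mass `ρ` costs `N` -/
def Sm (e c N ρ K : ℝ) : Prop := K ≤ 0 ∨ ρ * K ^ 2 ≤ e * N ∨ ρ ^ 2 * K ^ 3 ≤ c * N ^ 2

theorem Sm.mono {e c N ρ K e' c' N' ρ' K' : ℝ} (h : Sm e c N ρ K) (e0 : 0 ≤ e) (c0 : 0 ≤ c)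
    (N0 : 0 ≤ N) (ρ0 : 0 ≤ ρ') (he : e ≤ e') (hc : c ≤ c') (hN : N ≤ N') (hρ : ρ' ≤ ρ)
    (hK : K' ≤ K) : Sm e' c' N' ρ' K' := by
  rcases le_or_gt K' 0 with x | x
  · exact .inl x
  have ρ1 := ρ0.trans hρ
  have e1 := e0.trans he
  have c1 := c0.trans hc
  rcases h with h | h | h
  · exact .inl (hK.trans h)
  · exact .inr (.inl (le_trans (by gcongr) (h.trans (by gcongr))))
  · exact .inr (.inr (le_trans (by gcongr) (h.trans (by gcongr))))

theorem Sm.mul {e c N ρ K a : ℝ} (h : Sm e c N ρ K) (c0 : 0 ≤ c) (a1 : 1 ≤ a) :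
    Sm e c (a ^ 2 * N) ρ (a * K) := by
  have a0 : 0 ≤ a := by linarith
  rcases h with h | h | h
  · exact .inl (mul_nonpos_of_nonneg_of_nonpos a0 h)
  · exact .inr (.inl (by nlinarith [mul_le_mul_of_nonneg_left h (sq_nonneg a)]))
  · refine .inr (.inr ?_)
    have x := mul_le_mul_of_nonneg_left h (pow_nonneg a0 3)
    have y : a ^ 3 * (c * N ^ 2) ≤ a ^ 4 * (c * N ^ 2) :=
      mul_le_mul_of_nonneg_right (pow_le_pow_right₀ a1 (by norm_num)) (by positivity)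
    nlinarith

theorem Sm.add {e c N ρ K K' : ℝ} (h : Sm e c N ρ K) (h' : Sm e c N ρ K') (e0 : 0 ≤ e)
    (c0 : 0 ≤ c) (N0 : 0 ≤ N) (ρ0 : 0 ≤ ρ) : Sm e c (4 * N) ρ (K + K') := by
  rcases le_total K K' with x | x
  · exact (h'.mul c0 one_le_two).mono e0 c0 (by positivity) ρ0 le_rfl le_rfl (by linarith) le_rfl
      (by linarith)
  · exact (h.mul c0 one_le_two).mono e0 c0 (by positivity) ρ0 le_rfl le_rfl (by linarith) le_rfl
      (by linarith)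

theorem Sm.pt {e c N ρ K k τ τ0 : ℝ} (h : Sm e c N ρ K) (e0 : 0 < e) (c0 : 0 < c) (N0 : 0 ≤ N)
    (ρ0 : 0 ≤ ρ) (ρ1 : ρ ≤ 1) (t0 : 0 ≤ τ) (τp : 0 < τ0) (h1 : e * τ0 ^ 2 ≤ N) (h2 : c * τ0 ^ 3 ≤ N)
    (k0 : 0 ≤ k) (hk : k + (e * τ + c * τ ^ 2) ≤ K) : k * ρ * (τ + τ0) ≤ 2 * N := by
  have p1 : 0 ≤ e * τ := by positivity
  have p2 : 0 ≤ c * τ ^ 2 := by positivity
  have kK : k ≤ K := by linarith
  have K0 := k0.trans kK
  suffices K * ρ * τ ≤ N ∧ K * ρ * τ0 ≤ N by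
    have : k * ρ * (τ + τ0) ≤ K * ρ * (τ + τ0) := by gcongr
    linarith [this, ‹_ ∧ _›.1, ‹_ ∧ _›.2]
  rcases h with h | h | h
  · rw [le_antisymm h K0]; simpa using N0
  · constructor
    · refine le_of_mul_le_mul_left (le_trans ?_ h) e0
      nlinarith [mul_le_mul_of_nonneg_left (show e * τ ≤ K by linarith) (mul_nonneg K0 ρ0)]
    · refine le_of_pow_le_pow_left₀ (n := 2) (by norm_num) N0 ?_
      calc (K * ρ * τ0) ^ 2 = ρ * K ^ 2 * τ0 ^ 2 * ρ := by ring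
        _ ≤ e * N * τ0 ^ 2 * 1 := by gcongr
        _ = e * τ0 ^ 2 * N := by ring
        _ ≤ N * N := by gcongr
        _ = _ := by ring
  · constructor
    · refine le_of_pow_le_pow_left₀ (n := 2) (by norm_num) N0
        (le_of_mul_le_mul_left (le_trans ?_ h) c0)
      nlinarith [mul_le_mul_of_nonneg_left (show c * τ ^ 2 ≤ K by linarith) (sq_nonneg (K * ρ))]
    · refine le_of_pow_le_pow_left₀ (n := 3) (by norm_num) N0 ?_
      calc (K * ρ * τ0) ^ 3 = ρ ^ 2 * K ^ 3 * τ0 ^ 3 * ρ := by ring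
        _ ≤ c * N ^ 2 * τ0 ^ 3 * 1 := by gcongr
        _ = c * τ0 ^ 3 * N ^ 2 := by ring
        _ ≤ N * N ^ 2 := by gcongr
        _ = _ := by ring

/-- **pointwise form of the static cost** -/
theorem static_pt {T S P e c N τ0 : ℝ} {dz k K : ℝ → ℝ} (ld : LB T dz) (lk : LB T k) (hS : 0 ≤ S)
    (hSP : S ≤ P) (hP : P ≤ T) (e0 : 0 < e) (c0 : 0 < c) (N0 : 0 ≤ N) (τp : 0 < τ0)
    (h2 : e * τ0 ^ 2 ≤ N) (h3 : c * τ0 ^ 3 ≤ N) (h1 : ∀ t, S < t → t < P → |dz t| ≤ 1)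
    (h : ∀ t, S < t → t < P → k t + (e * (t - S) + c * (t - S) ^ 2) ≤ K t ∧
      Sm e c N |dz t| (K t)) :
    ∫ t in S..P, max (k t) 0 * |dz t| ≤ 2 * N * Real.log (1 + (P - S) / τ0) := by
  have pos : ∀ t ∈ uIcc S P, 0 < t - S + τ0 := fun t ht => by
    rw [uIcc_of_le hSP] at ht
    have := sub_nonneg.2 ht.1
    positivity
  have cont : ContinuousOn (fun t => 2 * N / (t - S + τ0)) (uIcc S P) :=
    continuousOn_const.div (by fun_prop) fun t ht => (pos t ht).ne'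
  have e1 : ∫ t in S..P, 2 * N / (t - S + τ0) =
      2 * N * Real.log (P - S + τ0) - 2 * N * Real.log (S - S + τ0) :=
    intervalIntegral.integral_eq_sub_of_hasDerivAt
      (f := fun t => 2 * N * Real.log (t - S + τ0)) (fun t ht => by
        have a := (((hasDerivAt_id t).sub_const S).add_const τ0).log (pos t ht).ne'
        refine (a.const_mul _).congr_deriv ?_
        simp only [id]
        ring) cont.intervalIntegrable
  have e2 : 1 + (P - S) / τ0 = (P - S + τ0) / τ0 := by field_simp; ring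
  have p2 := pos P right_mem_uIcc
  rw [e2, Real.log_div p2.ne' τp.ne', mul_sub]
  rw [sub_self, zero_add] at e1
  rw [← e1]
  refine intervalIntegral.integral_mono_on_of_le_Ioo hSP
    (((LB_max lk).mul ld.abs).ii ⟨hS, hSP.trans hP⟩ ⟨hS.trans hSP, hP⟩) cont.intervalIntegrable
    fun t ht => ?_
  have p1 := pos t (by rw [uIcc_of_le hSP]; exact Ioo_subset_Icc_self ht)
  rcases le_total (k t) 0 with a | a
  · rw [max_eq_right a, zero_mul]; positivity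
  · rw [max_eq_left a, le_div_iff₀ p1]
    exact (h t ht.1 ht.2).2.pt e0 c0 N0 (abs_nonneg _) (h1 t ht.1 ht.2) (sub_nonneg.2 ht.1.le) τp
      h2 h3 a (h t ht.1 ht.2).1

/-- `Γ' - Γ` moves by at most `C (1 + T) ∫ |J|` -/
theorem reg5 {l l' : List (ℝ × ℝ)} {T C p s : ℝ} (h : Ok l) (h' : Ok l') (e : TT l = T)
    (e' : TT l' = T) (hC : 0 ≤ C) (hL : Spl27.GLip T C) (hp : 0 ≤ p) (hps : p ≤ s) (hs : s ≤ T) :
    |Gam l' s - Gam l s - (Gam l' p - Gam l p)| ≤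
      C * (1 + T) * ∫ r in (0:ℝ)..T, |Sc48.Jf l l' T r| := by
  have T0 := hp.trans (hps.trans hs)
  have ld : LB T fun t => lvr 1 l' t - lvr 1 l t :=
    (LB.of_mono (Sc48.lvr_mono h'.1)).sub (LB.of_mono (Sc48.lvr_mono h.1))
  have lJ : LB T (Sc48.Jf l l' T) := .of_cont (ld.tail (right_mem_Icc.mpr T0))
  have lG : LB T (GG l) := .of_cont (e ▸ (ode h).2.1)
  have lG' : LB T (GG l') := .of_cont (e' ▸ (ode h').2.1)
  have mp : p ∈ Icc 0 T := ⟨hp, hps.trans hs⟩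
  have ms : s ∈ Icc 0 T := ⟨hp.trans hps, hs⟩
  have a : Gam l s - Gam l p = ∫ r in p..s, GG l r :=
    Pp.Ode3.Gam_int (Spl27.ap_of_ok h) hp hps (e ▸ hs)
  have a' : Gam l' s - Gam l' p = ∫ r in p..s, GG l' r :=
    Pp.Ode3.Gam_int (Spl27.ap_of_ok h') hp hps (e' ▸ hs)
  set ι := ∫ r in (0:ℝ)..T, |Sc48.Jf l l' T r| with hι
  have ι0 : 0 ≤ ι := int_nn T0 fun _ => abs_nonneg _
  have x1 : Gam l' s - Gam l s - (Gam l' p - Gam l p) = ∫ r in p..s, (GG l' r - GG l r) := by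
    rw [intervalIntegral.integral_sub (lG'.ii mp ms) (lG.ii mp ms)]; linarith
  have x2 := int_mono (lG'.sub lG).abs ((LB.const C).mul (lJ.abs.add (LB.const ι))) hp hps hs
    fun r x y => hL l l' h h' e e' r ⟨hp.trans x.le, y.le.trans hs⟩
  rw [intervalIntegral.integral_const_mul, intervalIntegral.integral_add (lJ.abs.ii mp ms)
    ((LB.const ι).ii mp ms), intervalIntegral.integral_const, smul_eq_mul] at x2
  have x3 : ∫ r in p..s, |Sc48.Jf l l' T r| ≤ ι :=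
    intervalIntegral.integral_mono_interval hp hps hs
      (Filter.Eventually.of_forall fun _ => abs_nonneg _) (lJ.abs.ii ⟨le_rfl, T0⟩ ⟨T0, le_rfl⟩)
  rw [x1]
  refine (intervalIntegral.abs_integral_le_integral_abs hps).trans (x2.trans ?_)
  rw [mul_assoc]
  refine mul_le_mul_of_nonneg_left ?_ hC
  nlinarith [mul_le_mul_of_nonneg_right (show s - p ≤ T by linarith) ι0]

/-- the numbers: `η' = η + β M + (lam e γ + (g + e1) w) / b`, `w = γ + u1 Lt` -/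
structure PNZ (T C b c θ η' g e κ w N0 τ0 N : ℝ) : Prop where
  θ0 : 0 < θ
  Np : 0 ≤ N
  M0 : 0 ≤ N0
  τp : 0 < τ0
  τ1 : e / 4 * τ0 ^ 2 ≤ N0
  τ2 : b * c / 4 * τ0 ^ 3 ≤ N0
  h1 : η' ^ 3 ≤ θ * κ ^ 2 / 64 * N ^ 2 ∨ η' ^ 2 ≤ e * κ / (64 * b) * N
  h2 : (g / b) ^ 3 ≤ (θ * κ ^ 2 / 64) ^ 2 * N ∨ g ≤ e * κ / 16
  h5 : η' * w ≤ N
  h7 : (C * (1 + T) * w) ^ 2 ≤ θ / (T + 1) * N
  h8 : 2 * N0 * Real.log (1 + T / τ0) / b ≤ N

set_option maxHeartbeats 1600000 in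
theorem finZ {T Lt C b c θ η β g lam e e1 κ u1 γ N0 τ0 N E D D' y ι V W i2 i4 i5 z2 z3 s1 s2
      x : ℝ}
    (n : PNZ T C b c θ (η + β + (lam * e * γ + (g + e1) * (γ + u1 * Lt)) / b) g e κ
      (γ + u1 * Lt) N0 τ0 N) (hC : 0 ≤ C) (b0 : 0 < b) (T0 : 0 ≤ T)
    (L0 : 0 ≤ Lt) (η0 : 0 ≤ η) (β0 : 0 ≤ β) (g0 : 0 ≤ g) (l0 : 0 ≤ lam)
    (l1 : lam ≤ κ / 32) (e0 : 0 < e) (e10 : 0 ≤ e1) (κ0 : 0 < κ) (κ1 : κ ≤ 1)
    (u0 : 0 ≤ u1) (E0 : 0 ≤ E) (D0 : 0 ≤ D') (y0 : 0 ≤ y) (y3' : y ^ 3 = 8 * E) (ι0 : 0 ≤ ι)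
    (ι2 : ι ^ 2 ≤ (T + 1) * E) (D3 : κ ^ 2 * D' ^ 3 / 64 ≤ E) (V0 : 0 ≤ V) (V1 : V ≤ y)
    (bt : V ^ 2 ≤ 2 * W) (I2 : i2 ≤ D' * 1) (I2' : 0 ≤ i2) (I4 : i4 ≤ u1 * Lt) (I4' : 0 ≤ i4)
    (Z2 : e * κ * D' ^ 2 / 2 ≤ z2) (Z3 : e / 4 * W ≤ z3 + s2) (Z30 : 0 ≤ z3) (S1 : s1 ≤ s2)
    (S2 : s2 / b ≤ N) (γ0 : 0 ≤ γ) (D00 : 0 ≤ D) (DD : D ≤ D' + γ) (I5 : i5 ≤ γ) (I5' : 0 ≤ i5) :
    0 ≤ z2 / b + z3 / b ∧
    x + ((η + g / b * D' + β) * i2 + (η + (g + e1) * D / b + C * (1 + T) * ι + β) * i5) +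
      ((lam * e * D / b + β) * V + s1 / b +
      (η + (g + e1) * D / b + C * (1 + T) * ι + β) * i4) ≤
      x + 4 * θ * E + (z2 / b + z3 / b) / 4 + 7 * N := by
  obtain ⟨θ0, N0', -, -, -, -, h1, h2, h5, h7, -⟩ := n
  set w := γ + u1 * Lt with hw
  have w0 : γ ≤ w := by rw [hw]; linarith [mul_nonneg u0 L0]
  set η' := η + β + (lam * e * γ + (g + e1) * w) / b with hη
  set ε := θ * κ ^ 2 / 64 with hε
  have ε0 : 0 < ε := by positivity
  have W0 : 0 ≤ W := by linarith [sq_nonneg V]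
  have a2 : e * κ * D' ^ 2 / b ≤ 2 * (z2 / b) := by
    rw [← mul_div_assoc]; exact div_le_div_of_nonneg_right (by linarith) b0.le
  have a3 : e * W / b ≤ 4 * (z3 / b) + 4 * N := by
    have : e * W / b ≤ (4 * z3 + 4 * s2) / b := div_le_div_of_nonneg_right (by linarith) b0.le
    rw [add_div, mul_div_assoc 4, mul_div_assoc 4] at this
    linarith
  have a20 : 0 ≤ e * κ * D' ^ 2 / b := by positivity
  have a30 : 0 ≤ e * W / b := by positivity
  have z30 : 0 ≤ z3 / b := by positivity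
  have θE : 0 ≤ θ * E := by positivity
  have eD : ε * D' ^ 3 ≤ θ * E := by
    have := mul_le_mul_of_nonneg_left D3 θ0.le
    rw [hε]; linarith
  have ey : ε * y ^ 3 ≤ θ * E := by
    have := mul_le_mul_of_nonneg_left (pow_le_one₀ κ0.le κ1 : κ ^ 2 ≤ 1) θE
    rw [hε, y3']; linarith
  have eV : ε * V ^ 3 ≤ θ * E :=
    (mul_le_mul_of_nonneg_left (pow_le_pow_left₀ V0 V1 3) ε0.le).trans ey
  have kV : e * κ / b * V ^ 2 ≤ 2 * (e * W / b) := by
    have : κ * V ^ 2 ≤ 2 * W := (mul_le_of_le_one_left (sq_nonneg V) κ1).trans bt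
    calc e * κ / b * V ^ 2 = e / b * (κ * V ^ 2) := by ring
      _ ≤ e / b * (2 * W) := by gcongr
      _ = _ := by ring
  have t1 : η' * D' ≤ θ * E + N + e * κ * D' ^ 2 / b / 64 ∧
      η' * V ≤ θ * E + N + e * W / b / 32 := by
    rcases h1 with h1 | h1
    · exact ⟨by linarith [y3 D0 N0' ε0 h1], by linarith [y3 V0 N0' ε0 h1]⟩
    · have p : 0 < e * κ / (64 * b) := by positivity
      have q1 := y2 D0 N0' p h1
      have q2 := y2 V0 N0' p h1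
      rw [show e * κ / (64 * b) * D' ^ 2 = e * κ * D' ^ 2 / b / 64 by ring] at q1
      rw [show e * κ / (64 * b) * V ^ 2 = e * κ / b * V ^ 2 / 64 by ring] at q2
      exact ⟨by linarith, by linarith⟩
  have t2 : g / b * D' ^ 2 ≤ θ * E + N + e * κ * D' ^ 2 / b / 16 := by
    rcases h2 with h2 | h2
    · linarith [y32 D0 N0' ε0 h2]
    · have : g / b * D' ^ 2 ≤ e * κ / 16 / b * D' ^ 2 := by gcongr
      rw [show e * κ / 16 / b * D' ^ 2 = e * κ * D' ^ 2 / b / 16 by ring] at this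
      linarith
  have t3 : lam * e * D' / b * V ≤ e * κ * D' ^ 2 / b / 64 + e * W / b / 32 := by
    have q1 : lam * e * D' / b * V ≤ κ / 32 * e * D' / b * V := by gcongr
    have q2 : e * κ / b * (D' * V) ≤ e * κ / b * ((D' ^ 2 + V ^ 2) / 2) :=
      mul_le_mul_of_nonneg_left (by linarith [two_mul_le_add_sq D' V]) (by positivity)
    rw [show κ / 32 * e * D' / b * V = e * κ / b * (D' * V) / 32 by ring] at q1
    rw [show e * κ / b * ((D' ^ 2 + V ^ 2) / 2) =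
      e * κ * D' ^ 2 / b / 2 + e * κ / b * V ^ 2 / 2 by ring] at q2
    linarith
  have q2 : θ / (T + 1) * ι ^ 2 ≤ θ * E := by
    refine (mul_le_mul_of_nonneg_left ι2 (by positivity)).trans_eq ?_
    field_simp
  have t6 := y2 ι0 N0' (by positivity) h7
  have s1' : s1 / b ≤ N := (div_le_div_of_nonneg_right S1 b0.le).trans S2
  have w00 := γ0.trans w0
  have p1 : 0 ≤ lam * e * γ / b := by positivity
  have p2 : 0 ≤ (g + e1) * w / b := by positivity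
  have eη : η' = η + β + lam * e * γ / b + (g + e1) * w / b := by rw [hη]; ring
  have x2 : (η + g / b * D' + β) * i2 ≤ (η + g / b * D' + β) * D' :=
    mul_le_mul_of_nonneg_left (by linarith) (by positivity)
  have x3 : (lam * e * D / b + β) * V ≤ (lam * e * D' / b + η') * V := by
    refine mul_le_mul_of_nonneg_right ?_ V0
    have : lam * e * D / b ≤ lam * e * (D' + γ) / b := by gcongr
    rw [mul_add, add_div] at this
    linarith
  have x5 : (η + (g + e1) * D / b + C * (1 + T) * ι + β) * (i5 + i4) ≤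
      (η + (g + e1) * (D' + w) / b + C * (1 + T) * ι + β) * w := by
    refine mul_le_mul ?_ (by linarith) (by linarith) (by positivity)
    have : D ≤ D' + w := by linarith
    gcongr
  have e5 : (η + (g + e1) * (D' + w) / b + C * (1 + T) * ι + β) * w =
      (η + β + (g + e1) * w / b) * w + (g + e1) * w / b * D' + C * (1 + T) * w * ι := by ring
  have x6 : (η + β + (g + e1) * w / b) * w ≤ η' * w := by gcongr; linarith
  have x7 : (η + β + (g + e1) * w / b) * D' ≤ η' * D' := by gcongr; linarith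
  refine ⟨by linarith, ?_⟩
  linarith [t1.1, t1.2]

variable {lb lh : List (ℝ × ℝ)} {T b c σ' σ γ M P c0 η g lam N0 e e1 κ u1 : ℝ} {hb : ℝ → ℝ}

/-- **data of the plateau**, final form -/
structure PlZ (lb lh : List (ℝ × ℝ)) (T b c σ' σ γ M P c0 η g lam N0 e e1 κ u1 : ℝ)
    (hb : ℝ → ℝ) : Prop where
  okb : Ok lb
  okh : Ok lh
  tb : TT lb = T
  th : TT lh = T
  b0 : 0 < b
  cp : 0 < c
  σ0 : 0 ≤ σ
  σT : σ ≤ T
  σ1 : σ' ≤ σ
  σγ : σ - σ' ≤ γ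
  M0 : 0 ≤ M
  MP : M ≤ P
  PT : P ≤ T
  η0 : 0 ≤ η
  g0 : 0 ≤ g
  l0 : 0 ≤ lam
  e0 : 0 < e
  e10 : 0 ≤ e1
  κ0 : 0 < κ
  κ1 : κ ≤ 1
  lamκ : lam ≤ κ / 32
  lhb : LB T hb
  top : ∀ s, σ ≤ s → lvr 1 lh s = 1
  conc : ∀ r ∈ Ico M T, Gd lb r ≤ 0
  gap : ∀ t ∈ Ico M σ', κ ≤ lvr 1 lb t - lvr 1 lh t
  elo : ∀ r, M ≤ r ∨ σ ≤ r → r < T → e ≤ 1 - b * GG lh r
  eup : ∀ r ∈ Ico M σ, 1 - b * GG lh r ≤ e1
  atL : -η ≤ Gam lb M - (M - (σ - b * Gam lh σ)) / b - c0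
  atM : M < σ → Gam lb M - (M - (σ - b * Gam lh σ)) / b - c0 ≤ η ∧ b * GG lb M ≤ 1 + g
  net : ∀ t ∈ Ico (max M σ) P, ∃ p q : ℝ, M ≤ p ∧ p ≤ t ∧ t ≤ q ∧ q ≤ T ∧
    0 ≤ Gam lb p - (p - hb t) / b - c0 ∧ 0 ≤ Gam lb q - (q - (hb t + lam * e * (q - p))) / b - c0
  last : 1 - lvr 1 lb P ≤ u1
  stat : ∀ t, max M σ < t → t < P →
    Sm (e / 4) (b * c / 4) N0 (1 - lvr 1 lb t) (hb t - (σ - b * Gam lh σ))

namespace PlZ

variable (h : PlZ lb lh T b c σ' σ γ M P c0 η g lam N0 e e1 κ u1 hb)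
include h

theorem ld : LB T fun t => lvr 1 lb t - lvr 1 lh t :=
  (LB.of_mono (Sc48.lvr_mono h.okb.1)).sub (LB.of_mono (Sc48.lvr_mono h.okh.1))

theorem d1 (t : ℝ) : |lvr 1 lb t - lvr 1 lh t| ≤ 1 := Sc48.lvr_sub_le h.okh.1 h.okb.1 t

theorem dtop {t : ℝ} (ht : σ ≤ t) : lvr 1 lb t - lvr 1 lh t ≤ 0 ∧
    |lvr 1 lb t - lvr 1 lh t| = 1 - lvr 1 lb t := by
  have := Pp.Ode3.lvr_le_one h.okb.1 t
  rw [h.top t ht]
  exact ⟨by linarith, by rw [abs_of_nonpos (by linarith)]; ring⟩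

theorem grow {p s : ℝ} (hp : M ≤ p ∨ σ ≤ p) (hps : p ≤ s) (hs : s ≤ T) :
    p - b * Gam lh p + e * (s - p) ≤ s - b * Gam lh s :=
  Mh_ge h.okh h.b0 (hp.elim h.M0.trans h.σ0.trans) hps (by rw [h.th]; exact hs) fun r hr =>
    h.elo r (hp.imp (·.trans hr.1) (·.trans hr.1)) (hr.2.trans_le hs)

theorem r2q {t q : ℝ} (a : M ≤ t) (c : t < σ) (tq : t ≤ q) (qT : q ≤ T) :
    t - b * Gam lh t ≤ σ - b * Gam lh σ ∧
    Gam lb t - (t - (σ - b * Gam lh σ)) / b - c0 ≤ η + g / b * (q - M) := by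
  have g0 := h.g0
  have e0 := h.e0
  obtain ⟨m2, m3⟩ := h.atM (a.trans_lt c)
  have gr := h.grow (.inl a) c.le h.σT
  have := mul_nonneg e0.le (sub_nonneg.2 c.le)
  refine ⟨by linarith, ?_⟩
  have := reg2' h.okb (h0 := σ - b * Gam lh σ) (η := η + c0) (K := 0) (p := M) (q := q) h.b0 h.M0
    (by rw [h.tb]; exact qT) g0 le_rfl
    (fun r hr => h.conc r ⟨hr.1, hr.2.trans_le qT⟩) (by linarith [m2]) m3 ⟨a, tq⟩
  linarith

theorem r2 {t : ℝ} (a : M ≤ t) (c : t < max M σ') : 0 ≤ lvr 1 lb t - lvr 1 lh t ∧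
    t - b * Gam lh t ≤ σ - b * Gam lh σ ∧
    Gam lb t - (t - (σ - b * Gam lh σ)) / b - c0 ≤ η + g / b * (max M σ' - M) := by
  have c' : t < σ' := (lt_max_iff.1 c).resolve_left (not_lt.2 a)
  exact ⟨h.κ0.le.trans (h.gap t ⟨a, c'⟩), h.r2q a (c'.trans_le h.σ1) c.le
    (max_le (h.MP.trans h.PT) (h.σ1.trans h.σT))⟩

theorem r4 {C ι : ℝ} (hC : 0 ≤ C) (hL : Spl27.GLip T C)
    (hι : ι = ∫ s in (0:ℝ)..T, |Sc48.Jf lh lb T s|) {t : ℝ} (a : M ≤ t) (c : t ≤ T) :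
    -(η + (g + e1) * (max M σ - M) / b + C * (1 + T) * ι) ≤ Gam lb t - Gam lh t - c0 := by
  have b0 := h.b0
  have g0 := h.g0
  have e10 := h.e10
  have l3 := (abs_le.1 (reg5 h.okh h.okb h.th h.tb hC hL h.M0 a c)).1
  rw [← hι] at l3
  have D0 : 0 ≤ max M σ - M := sub_nonneg.2 (le_max_left _ _)
  have v2 : Gam lh M ≤ (M - (σ - b * Gam lh σ)) / b + (g + e1) * (max M σ - M) / b := by
    rw [← add_div, le_div_iff₀ b0]
    rcases le_total σ M with x | x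
    · have := h.grow (.inr le_rfl) x (h.MP.trans h.PT)
      nlinarith [mul_nonneg h.e0.le (sub_nonneg.2 x), mul_nonneg (add_nonneg g0 e10) D0]
    · have := Mh_le h.okh b0 h.M0 x (by rw [h.th]; exact h.σT) (e := e1) h.eup
      rw [max_eq_right x] at D0 ⊢
      nlinarith [mul_nonneg g0 D0]
  linarith [h.atL]

theorem r5 {C ι : ℝ} (hC : 0 ≤ C) (hL : Spl27.GLip T C)
    (hι : ι = ∫ s in (0:ℝ)..T, |Sc48.Jf lh lb T s|) {t : ℝ} (a : max M σ' ≤ t) (c : t < max M σ) :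
    |Gam lb t - Gam lh t - c0| ≤ η + (g + e1) * (max M σ - M) / b + C * (1 + T) * ι := by
  have b0 := h.b0
  have g0 := h.g0
  have e10 := h.e10
  have Mt : M ≤ t := (le_max_left _ _).trans a
  have c' : t < σ := (lt_max_iff.1 c).resolve_left (not_lt.2 Mt)
  have Mσ := Mt.trans_lt c'
  have T0 := h.σ0.trans h.σT
  have ι0 : 0 ≤ ι := hι ▸ int_nn T0 fun _ => abs_nonneg _
  refine abs_le.2 ⟨h.r4 hC hL hι Mt (c'.le.trans h.σT), ?_⟩
  rw [max_eq_right Mσ.le]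
  have D0 := sub_nonneg.2 Mσ.le
  obtain ⟨u1', u2'⟩ := h.r2q Mt c' c'.le h.σT
  have p2 : 0 ≤ e1 * (σ - M) / b := by positivity
  have p3 : 0 ≤ C * (1 + T) * ι := by positivity
  have e1' : (g + e1) * (σ - M) / b = g / b * (σ - M) + e1 * (σ - M) / b := by ring
  have v1 : (t - (σ - b * Gam lh σ)) / b ≤ Gam lh t := by rw [div_le_iff₀ b0]; linarith
  linarith

theorem r3 {t : ℝ} (a : max M σ ≤ t) (c : t < P) :
    -(lam * e * (max M σ - M) / b) ≤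
      Gam lb t - (t - (hb t + lam * e * (t - max M σ))) / b - c0 := by
  have l0 := h.l0
  have e0 := h.e0
  obtain ⟨p, q, a1, a2, a3, a4, a7, a8⟩ := h.net t ⟨a, c⟩
  have k := Reg48.conc h.okb ((1 - lam * e) / b) (h.M0.trans a1) (by rw [h.tb]; exact a4)
    (fun r hr => h.conc r ⟨a1.trans hr.1, hr.2.trans_le a4⟩) ⟨a2, a3⟩
  have b0 := h.b0
  have i0 : 0 < b⁻¹ := inv_pos.2 b0
  have d7 := mul_nonneg (mul_nonneg (mul_nonneg l0 e0.le) (sub_nonneg.2 a1)) i0.le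
  simp only [div_eq_mul_inv] at *
  rcases min_le_iff.1 k with k | k <;> nlinarith

theorem tail {U Lt r : ℝ} (hU : ∀ s, U ≤ s → lvr 1 lb s = 1) (L0 : 0 ≤ Lt)
    (hL' : U - max M σ ≤ Lt) (a : max (max M σ) P ≤ r) (c : r ≤ T) :
    ∫ s in r..T, |lvr 1 lb s - lvr 1 lh s| ≤ u1 * Lt := by
  have u0 : 0 ≤ u1 := le_trans (sub_nonneg.2 (Pp.Ode3.lvr_le_one h.okb.1 P)) h.last
  have Sr : max M σ ≤ r := (le_max_left _ _).trans a
  have σr : σ ≤ r := (le_max_right _ _).trans Sr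
  have r0 : 0 ≤ r := h.σ0.trans σr
  have z : ∀ s, σ ≤ s → U ≤ s → |lvr 1 lb s - lvr 1 lh s| = 0 := fun s x y => by
    rw [hU s y, h.top s x, sub_self, abs_zero]
  have w : ∀ s, r < s → |lvr 1 lb s - lvr 1 lh s| ≤ u1 := fun s x => by
    rw [(h.dtop (σr.trans x.le)).2]
    linarith [h.last, Sc48.lvr_mono h.okb.1 (((le_max_right _ P).trans a).trans x.le)]
  rcases le_total U r with x | x
  · rw [Cut8.int_zero c fun s y _ => z s (σr.trans y.le) (x.trans y.le)]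
    positivity
  rcases le_total U T with y | y
  · rw [int_split h.ld.abs (b := U) ⟨r0, c⟩ ⟨r0.trans x, y⟩ ⟨r0.trans c, le_rfl⟩,
      Cut8.int_zero y fun s y _ => z s (σr.trans (x.trans y.le)) y.le, add_zero]
    refine (int_le h.ld.abs r0 x y fun s y _ => w s y).trans ?_
    rw [mul_comm]
    exact mul_le_mul_of_nonneg_left (by linarith) u0
  · refine (int_le h.ld.abs r0 c le_rfl fun s y _ => w s y).trans ?_
    rw [mul_comm]
    exact mul_le_mul_of_nonneg_left (by linarith) u0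

theorem growq {s : ℝ} (hc : 0 ≤ c) (hq : ∀ r, σ ≤ r → r < T → Gd lh r ≤ -c) (hs : max M σ ≤ s)
    (hT : s ≤ T) :
    σ - b * Gam lh σ + e * (s - max M σ) + b * c / 2 * (s - max M σ) ^ 2 ≤ s - b * Gam lh s := by
  have σS : σ ≤ max M σ := le_max_right _ _
  have b0 := h.b0
  rcases h.σT.eq_or_lt with x | x
  · have e1 : s = σ := le_antisymm (x ▸ hT) (σS.trans hs)
    have e2 : max M σ = σ := le_antisymm (e1 ▸ hs) σS
    rw [e2, e1]; simp
  have a := Gam_up h.okh h.σ0 (σS.trans hs) (by rw [h.th]; exact hT) (K := -c)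
    fun r hr => hq r hr.1 (hr.2.trans_le hT)
  have a1 := mul_le_mul_of_nonneg_left a b0.le
  have a2 := mul_le_mul_of_nonneg_right (h.elo σ (.inr le_rfl) x) (sub_nonneg.2 (σS.trans hs))
  have a3 := mul_le_mul_of_nonneg_left (sub_le_sub_left σS s) h.e0.le
  have a4 := mul_le_mul_of_nonneg_left (pow_le_pow_left₀ (sub_nonneg.2 hs) (sub_le_sub_left σS s) 2)
    (show 0 ≤ b * c / 2 by positivity)
  nlinarith

set_option maxHeartbeats 1600000 in
/-- **the plateau part of the energy estimate**, local energy, `zb = 1` from `U` on, `U - max M σ ≤ Lt` -/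
theorem res {A A0 C θ E N U Lt τ0 : ℝ} {H r1 r2 ω β ξ : ℝ → ℝ} (hU : ∀ s, U ≤ s → lvr 1 lb s = 1)
    (L0 : 0 ≤ Lt) (hL' : U - max M σ ≤ Lt) (hC : 0 ≤ C) (hL : Spl27.GLip T C)
    (R : Res T (fun t => lvr 1 lb t - lvr 1 lh t) (fun t => Gam lb t - Gam lh t) H r1 r2 ω β ξ A M)
    (hA : 0 ≤ A) (hAM : A ≤ M) (hc : r2 M = c0) (β0 : 0 ≤ β M)
    (hA0 : 0 ≤ A0) (hA0M : A0 ≤ M)
    (hE : (∫ t in A0..T, Sc48.Jf lh lb T t ^ 2) + (∫ t in (0:ℝ)..A0, |Sc48.Jf lh lb T t|) ^ 2 ≤ E)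
    (hq : ∀ r, σ ≤ r → r < T → Gd lh r ≤ -c)
    (n : PNZ T C b c θ (η + β M + (lam * e * γ + (g + e1) * (γ + u1 * Lt)) / b) g e κ
      (γ + u1 * Lt) N0 τ0 N) :
    ∃ (H' r1' r2' ω' β' ξ' : ℝ → ℝ) (Z : ℝ),
      Res T (fun t => lvr 1 lb t - lvr 1 lh t) (fun t => Gam lb t - Gam lh t)
        H' r1' r2' ω' β' ξ' A T ∧
      (∀ t, t < M → H' t = H t ∧ r1' t = r1 t ∧ r2' t = r2 t ∧ β' t = β t) ∧
      ∫ t in A..T, ω' t ^ 2 = ∫ t in A..M, ω t ^ 2 ∧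
      ∫ t in A..T, H' t * (lvr 1 lb t - lvr 1 lh t) =
        (∫ t in A..M, H t * (lvr 1 lb t - lvr 1 lh t)) + Z ∧ 0 ≤ Z ∧
      ∫ t in A..T, ξ' t ≤ (∫ t in A..M, ξ t) + 4 * θ * E + Z / 4 + 7 * N ∧
      e * κ * (max M σ' - M) ^ 2 / (2 * b) + e / (4 * b) *
        (∫ t in max M σ..max (max M σ) P, (t - max M σ) * (1 - lvr 1 lb t)) +
        c / 4 * (∫ t in max M σ..max (max M σ) P, (t - max M σ) ^ 2 * (1 - lvr 1 lb t)) ≤
        Z + N := by
  have η0 := h.η0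
  have g0 := h.g0
  have l0 := h.l0
  have e0 := h.e0
  have e10 := h.e10
  have κ0 := h.κ0
  have κ1 := h.κ1
  have c0' := h.cp
  have b0 := h.b0
  have M0 := h.M0
  have MT := h.MP.trans h.PT
  have T0 := M0.trans MT
  have θ0 := n.θ0
  have N0' := n.Np
  have γ0 : 0 ≤ γ := by linarith [h.σ1, h.σγ]
  have u0 : 0 ≤ u1 := le_trans (sub_nonneg.2 (Pp.Ode3.lvr_le_one h.okb.1 P)) h.last
  have ld := h.ld
  have lΓ : LB T (Gam lh) := .of_cont (h.th ▸ (ode h.okh).1)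
  have lM : LB T fun t => t - b * Gam lh t :=
    (LB.of_cont continuousOn_id).sub ((LB.const b).mul lΓ)
  have lJ : LB T (Sc48.Jf lh lb T) := .of_cont (ld.tail (right_mem_Icc.mpr T0))
  have AT := hA0M.trans MT
  have ι2 := iota_loc lJ hA0 AT hE
  replace hE : ∫ t in A0..T, Sc48.Jf lh lb T t ^ 2 ≤ E := (le_add_of_nonneg_right (sq_nonneg _)).trans hE
  have E0 : 0 ≤ E := (int_nn AT fun _ => sq_nonneg _).trans hE
  obtain ⟨y, y0, hy3⟩ : ∃ y : ℝ, 0 ≤ y ∧ y ^ 3 = 8 * E :=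
    ⟨(8 * E) ^ (((3:ℕ):ℝ)⁻¹), by positivity, Real.rpow_inv_natCast_pow (by positivity) (by norm_num)⟩
  have hy : ∀ s ∈ Icc M T, |Sc48.Jf lh lb T s| ≤ y := fun s hs => by
    have a := Jf_le (l := lh) (l' := lb) (u := 1) hs.2 fun r _ => h.d1 r
    have c := Lab36.sup_cube (zh := lvr 1 lh) (zb := lvr 1 lb) ld (fun t _ _ => h.d1 t) hA0
      le_rfl (hA0M.trans hs.1) hs.2 (.inr (by
        show s + |Sc48.Jf lh lb T s| / 2 ≤ T
        linarith [abs_nonneg (Sc48.Jf lh lb T s)]))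
    refine le_of_pow_le_pow_left₀ (n := 3) (by norm_num) y0 (c.trans ?_)
    rw [hy3]
    exact mul_le_mul_of_nonneg_left hE (by norm_num)
  set ι := ∫ s in (0:ℝ)..T, |Sc48.Jf lh lb T s| with hι
  have ι0 : 0 ≤ ι := int_nn T0 fun _ => abs_nonneg _
  have r2' := fun t => h.r2 (t := t)
  have r5' := fun t => h.r5 hC hL hι (t := t)
  have r3' := fun t => h.r3 (t := t)
  have r4' := fun t => h.r4 hC hL hι (t := t)
  have tl := fun r => h.tail hU L0 hL' (r := r)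
  have gw := fun s => h.growq c0'.le hq (s := s)
  have st := h.stat
  have cS : max M σ' - M = 0 ∨ (M < σ' ∧ max M σ' = σ') := by
    rcases le_or_gt σ' M with x | x
    · exact .inl (by rw [max_eq_left x, sub_self])
    · exact .inr ⟨x, max_eq_right x.le⟩
  have SS : max M σ' ≤ max M σ := max_le_max_left _ h.σ1
  have Sγ : max M σ - max M σ' ≤ γ := by
    rcases le_total M σ with x | x
    · rw [max_eq_right x]; linarith [le_max_right M σ', h.σγ]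
    · rw [max_eq_left x]; linarith [le_max_left M σ']
  set S' := max M σ' with hS'
  have MS' : M ≤ S' := le_max_left _ _
  set S := max M σ with hS
  have MS : M ≤ S := le_max_left _ _
  have σS : σ ≤ S := le_max_right _ _
  have ST : S ≤ T := max_le MT h.σT
  set Q := max S P with hQ
  have SQ : S ≤ Q := le_max_left _ _
  have QT : Q ≤ T := max_le ST h.PT
  have S0 := M0.trans MS
  have tP : ∀ t, S ≤ t → t < Q → t < P := fun t a c =>
    (lt_max_iff.1 c).resolve_left (not_lt.2 a)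
  set D := S - M with hD
  have D0 : 0 ≤ D := sub_nonneg.2 MS
  set D' := S' - M with hD'
  have D0' : 0 ≤ D' := sub_nonneg.2 MS'
  have S'T := SS.trans ST
  have lh' : LB T fun t => hb t + lam * e * (t - S) := h.lhb.add (LB_lin T _ S)
  subst hc
  obtain ⟨H0, r10, r20, ω0, β1, ξ0, R0, d1, d2, d3, d4, d5, d6⟩ := res_two (hm := σ - b * Gam lh σ)
    R ld lΓ b0 hA hAM MS' SS ST β0 (by positivity) (by positivity) r2' r5'
  obtain ⟨H', r1', r2'', ω', β', ξ', R', c1, -, -, c4, c5, c6⟩ := res_top' (hm := 0) (B2 := 0)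
    R0 ld lΓ lh' b0 hA (hAM.trans MS) le_rfl SQ QT (d3 ▸ β0) le_rfl (by positivity) (by positivity)
    (fun t a c => absurd c (not_lt.2 a))
    (fun t a c => ⟨(h.dtop (σS.trans a)).1, d2 ▸ r3' t a (tP t a c)⟩)
    (fun t a c => ⟨(h.dtop (σS.trans (SQ.trans a))).1, .inr (d2 ▸ r4' t (MS.trans (SQ.trans a)) c.le)⟩)
  rw [intervalIntegral.integral_same, mul_zero, zero_add, d3, d5] at c5
  rw [intervalIntegral.integral_same, zero_div, zero_add, d6, add_assoc] at c6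
  rw [d4] at c4
  have eW : ∫ t in S..Q, (t - S) * (1 - lvr 1 lb t) =
      ∫ t in S..Q, (t - S) * |lvr 1 lb t - lvr 1 lh t| :=
    intervalIntegral.integral_congr_Ioo_of_le SQ fun t ht => by
      rw [(h.dtop (σS.trans ht.1.le)).2]
  have eW2 : ∫ t in S..Q, (t - S) ^ 2 * (1 - lvr 1 lb t) =
      ∫ t in S..Q, (t - S) ^ 2 * |lvr 1 lb t - lvr 1 lh t| :=
    intervalIntegral.integral_congr_Ioo_of_le SQ fun t ht => by
      rw [(h.dtop (σS.trans ht.1.le)).2]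
  rw [eW, eW2]
  have mS : S ∈ Icc 0 T := ⟨S0, ST⟩
  have mQ : Q ∈ Icc 0 T := ⟨S0.trans SQ, QT⟩
  have mT : T ∈ Icc 0 T := ⟨T0, le_rfl⟩
  have bt := bath ld.abs S0 SQ QT (fun _ => abs_nonneg _) fun t _ _ => h.d1 t
  have I2 : ∫ t in M..S', |lvr 1 lb t - lvr 1 lh t| ≤ D' * 1 :=
    int_le ld.abs M0 MS' S'T fun t _ _ => h.d1 t
  have I2' : 0 ≤ ∫ t in M..S', |lvr 1 lb t - lvr 1 lh t| := int_nn MS' fun _ => abs_nonneg _
  have I5 : ∫ t in S'..S, |lvr 1 lb t - lvr 1 lh t| ≤ γ :=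
    (int_le ld.abs (M0.trans MS') SS ST fun t _ _ => h.d1 t).trans (by linarith)
  have I5' : 0 ≤ ∫ t in S'..S, |lvr 1 lb t - lvr 1 lh t| := int_nn SS fun _ => abs_nonneg _
  have I4 : ∫ t in Q..T, |lvr 1 lb t - lvr 1 lh t| ≤ u1 * Lt := tl Q le_rfl QT
  have I4' : 0 ≤ ∫ t in Q..T, |lvr 1 lb t - lvr 1 lh t| := int_nn QT fun _ => abs_nonneg _
  have V0 : 0 ≤ ∫ t in S..Q, |lvr 1 lb t - lvr 1 lh t| := int_nn SQ fun _ => abs_nonneg _
  have V1 : ∫ t in S..Q, |lvr 1 lb t - lvr 1 lh t| ≤ y := by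
    have a := int_split ld.abs mS mQ mT
    have c : ∫ t in S..T, |lvr 1 lb t - lvr 1 lh t| = -Sc48.Jf lh lb T S := by
      unfold Sc48.Jf
      rw [← intervalIntegral.integral_neg]
      exact intervalIntegral.integral_congr_Ioo_of_le ST fun t ht =>
        abs_of_nonpos (h.dtop (σS.trans ht.1.le)).1
    linarith [neg_le_abs (Sc48.Jf lh lb T S), hy S ⟨MS, ST⟩]
  have D3 : κ ^ 2 * D' ^ 3 / 64 ≤ E := by
    rcases cS with x | ⟨-, x⟩
    · rw [x]; simpa using E0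
    · have a := Lab36.gap_pos (zh := lvr 1 lh) (zb := lvr 1 lb) ld M0 D0' (by linarith) κ0.le
        fun t a c => h.gap t ⟨a.le, by linarith⟩
      have c := intervalIntegral.integral_mono_interval (μ := volume) (a := M) (b := M + D')
        (c := A0) (d := T) (f := fun t => Sc48.Jf lh lb T t ^ 2) hA0M (by linarith) (by linarith)
        (Filter.Eventually.of_forall fun _ => sq_nonneg _) (lJ.sq.ii ⟨hA0, AT⟩ mT)
      exact a.trans (c.trans hE)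
  have Z2 : e * κ * D' ^ 2 / 2 ≤
      ∫ t in M..S', (σ - b * Gam lh σ - (t - b * Gam lh t)) * |lvr 1 lb t - lvr 1 lh t| := by
    rcases cS with x | ⟨x0, x⟩
    · rw [x, show S' = M by linarith]; simp
    · have a := int_mono (LB_lin T (-(e * κ)) S')
        (((LB.const (σ - b * Gam lh σ)).sub lM).mul ld.abs) M0 MS' S'T fun t a c => by
          have σ1 := h.σ1
          have g1 := h.gap t ⟨a.le, by linarith⟩
          have g2 := h.grow (.inl a.le) (by linarith : t ≤ σ) h.σT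
          have g3 : e * (σ' - t) ≤ e * (σ - t) := mul_le_mul_of_nonneg_left (by linarith) e0.le
          have g4 : e * (σ' - t) ≤ σ - b * Gam lh σ - (t - b * Gam lh t) := by linarith
          have g5 : 0 ≤ e * (σ' - t) := mul_nonneg e0.le (by linarith)
          have := mul_le_mul g4 (g1.trans (le_abs_self _)) κ0.le (g5.trans g4)
          rw [x]
          linarith
      rw [int_lin] at a
      refine le_of_eq_of_le ?_ a
      rw [hD']; ring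
  have lq : LB T fun t => b * c / 4 * (t - S) ^ 2 := .of_cont (by fun_prop)
  have lk : LB T fun t => hb t + lam * e * (t - S) - (t - b * Gam lh t) +
      (e / 4 * (t - S) + b * c / 4 * (t - S) ^ 2) := (lh'.sub lM).add ((LB_lin T _ S).add lq)
  have St' : (∫ t in S..Q, max (hb t + lam * e * (t - S) - (t - b * Gam lh t) +
      (e / 4 * (t - S) + b * c / 4 * (t - S) ^ 2)) 0 * |lvr 1 lb t - lvr 1 lh t|) / b ≤ N := by
    have St := static_pt (e := e / 4) (c := b * c / 4) (K := fun t => hb t - (σ - b * Gam lh σ))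
      ld lk S0 SQ QT (by positivity) (by positivity) n.M0 n.τp n.τ1 n.τ2 (fun t _ _ => h.d1 t)
      fun t a c => ⟨by
        have g1 := gw t a.le (c.le.trans QT)
        have g2 : 0 ≤ e * (t - S) := mul_nonneg e0.le (by linarith)
        linarith [mul_le_mul_of_nonneg_right (h.lamκ.trans (by linarith : κ / 32 ≤ 1 / 2)) g2],
        by rw [(h.dtop (σS.trans a.le)).2]; exact st t a (tP t a.le c)⟩
    refine le_trans (div_le_div_of_nonneg_right (St.trans ?_) b0.le) n.h8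
    have q0 := sub_nonneg.2 SQ
    have τp := n.τp
    refine mul_le_mul_of_nonneg_left (Real.log_le_log (by positivity) ?_) (by linarith [n.M0])
    gcongr
    linarith
  have lW : LB T fun t => (t - S) * |lvr 1 lb t - lvr 1 lh t| := by
    simpa using (LB_lin T 1 S).mul ld.abs
  have lW2 : LB T fun t => (t - S) ^ 2 * |lvr 1 lb t - lvr 1 lh t| :=
    (LB.of_cont (by fun_prop)).mul ld.abs
  have l3 := (LB_max (lM.sub lh')).mul ld.abs
  have lk' := (LB_max lk).mul ld.abs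
  have St1 := int_mono ((LB_max (lh'.sub lM)).mul ld.abs) lk' S0 SQ QT fun t a _ =>
    mul_le_mul_of_nonneg_right (max_le_max_right 0 (le_add_of_nonneg_right
      (add_nonneg (mul_nonneg (by positivity) (by linarith)) (by positivity)))) (abs_nonneg _)
  have l4 := (LB.const (e / 4)).mul lW
  have l5 := (LB.const (b * c / 4)).mul lW2
  have Z4 := int_mono (l4.add l5) (l3.add lk') S0 SQ QT fun t _ _ => by
    rw [← add_mul, ← mul_assoc, ← mul_assoc (b * c / 4), ← add_mul]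
    refine mul_le_mul_of_nonneg_right ?_ (abs_nonneg _)
    linarith [le_max_left (t - b * Gam lh t - (hb t + lam * e * (t - S))) 0, le_max_left
      (hb t + lam * e * (t - S) - (t - b * Gam lh t) +
        (e / 4 * (t - S) + b * c / 4 * (t - S) ^ 2)) 0]
  rw [intervalIntegral.integral_add (l3.ii mS mQ) (lk'.ii mS mQ),
    intervalIntegral.integral_add (l4.ii mS mQ) (l5.ii mS mQ),
    intervalIntegral.integral_const_mul, intervalIntegral.integral_const_mul] at Z4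
  have W20 : 0 ≤ ∫ t in S..Q, (t - S) ^ 2 * |lvr 1 lb t - lvr 1 lh t| :=
    int_nn SQ fun _ => by positivity
  have Z30 : 0 ≤ ∫ t in S..Q, max (t - b * Gam lh t - (hb t + lam * e * (t - S))) 0 *
      |lvr 1 lb t - lvr 1 lh t| := int_nn SQ fun _ => by positivity
  refine ⟨H', r1', r2'', ω', β', ξ', _, R', fun t x => ?_, c4, c6, ?_⟩
  · obtain ⟨x1, x2, x3, x4⟩ := c1 t (x.trans_le MS)
    obtain ⟨y1, y2, y3, y4⟩ := d1 t x
    exact ⟨x1.trans y1, x2.trans y2, x3.trans y3, x4.trans y4⟩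
  rw [c5]
  generalize (∫ t in M..S', (σ - b * Gam lh σ - (t - b * Gam lh t)) *
    |lvr 1 lb t - lvr 1 lh t|) = z2 at *
  generalize (∫ t in S..Q, max (t - b * Gam lh t - (hb t + lam * e * (t - S))) 0 *
    |lvr 1 lb t - lvr 1 lh t|) = z3 at *
  generalize (∫ t in S..Q, max (hb t + lam * e * (t - S) - (t - b * Gam lh t) +
    (e / 4 * (t - S) + b * c / 4 * (t - S) ^ 2)) 0 * |lvr 1 lb t - lvr 1 lh t|) = s2 at *
  generalize (∫ t in S..Q, (t - S) ^ 2 * |lvr 1 lb t - lvr 1 lh t|) = W2 at *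
  generalize (∫ t in S..Q, max (hb t + lam * e * (t - S) - (t - b * Gam lh t)) 0 *
    |lvr 1 lb t - lvr 1 lh t|) = s1 at *
  generalize (∫ t in S..Q, (t - S) * |lvr 1 lb t - lvr 1 lh t|) = W at *
  generalize (∫ t in S..Q, |lvr 1 lb t - lvr 1 lh t|) = V at *
  generalize (∫ t in M..S', |lvr 1 lb t - lvr 1 lh t|) = i2 at *
  generalize (∫ t in S'..S, |lvr 1 lb t - lvr 1 lh t|) = i5 at *
  generalize (∫ t in Q..T, |lvr 1 lb t - lvr 1 lh t|) = i4 at *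
  have Z3 : e / 4 * W ≤ z3 + s2 := by
    linarith [mul_nonneg (show 0 ≤ b * c / 4 by positivity) W20]
  obtain ⟨f1, f2⟩ := finZ (x := ∫ t in A..M, ξ t) (D := D) n hC b0 T0 L0 η0 β0 g0 l0 h.lamκ
    e0 e10 κ0 κ1 u0 E0 D0' y0 hy3 ι0 ι2 D3 V0 V1 bt I2 I2' I4 I4' Z2 Z3 Z30 St1 St' γ0 D0
    (by rw [hD, hD']; linarith) I5 I5'
  refine ⟨f1, f2, ?_⟩
  have f3 := div_le_div_of_nonneg_right (add_le_add Z2 Z4) b0.le
  rw [show (e * κ * D' ^ 2 / 2 + (e / 4 * W + b * c / 4 * W2)) / b =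
    e * κ * D' ^ 2 / (2 * b) + e / (4 * b) * W + c / 4 * W2 by field_simp; ring,
    add_div, add_div] at f3
  linarith

/-- `res` in the form `Ext` -/
theorem ext {A0 C θ E N U Lt τ0 : ℝ} {H r1 r2 ω β ξ : ℝ → ℝ} (hU : ∀ s, U ≤ s → lvr 1 lb s = 1)
    (L0 : 0 ≤ Lt) (hL' : U - max M σ ≤ Lt) (hC : 0 ≤ C) (hL : Spl27.GLip T C)
    (R : Res T (fun t => lvr 1 lb t - lvr 1 lh t) (fun t => Gam lb t - Gam lh t) H r1 r2 ω β ξ 0 M)
    (hM : 0 < M) (hc : r2 M = c0) (β0 : 0 ≤ β M) (hA0 : 0 ≤ A0) (hA0M : A0 ≤ M)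
    (hE : (∫ t in A0..T, Sc48.Jf lh lb T t ^ 2) + (∫ t in (0:ℝ)..A0, |Sc48.Jf lh lb T t|) ^ 2 ≤ E)
    (hq : ∀ r, σ ≤ r → r < T → Gd lh r ≤ -c)
    (n : PNZ T C b c θ (η + β M + (lam * e * γ + (g + e1) * (γ + u1 * Lt)) / b) g e κ
      (γ + u1 * Lt) N0 τ0 N) :
    ∃ Z : ℝ, 0 ≤ Z ∧ Ext T (fun t => lvr 1 lb t - lvr 1 lh t) (fun t => Gam lb t - Gam lh t)
        H r2 ω β ξ M T (4 * θ * E + Z / 4 + 7 * N) Z ∧
      e * κ * (max M σ' - M) ^ 2 / (2 * b) + e / (4 * b) *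
        (∫ t in max M σ..max (max M σ) P, (t - max M σ) * (1 - lvr 1 lb t)) +
        c / 4 * (∫ t in max M σ..max (max M σ) P, (t - max M σ) ^ 2 * (1 - lvr 1 lb t)) ≤
        Z + N := by
  obtain ⟨H', r1', r2', ω', β', ξ', Z, a1, a2, a5, a6, a7, a8, a9⟩ :=
    h.res hU L0 hL' hC hL R le_rfl hM.le hc β0 hA0 hA0M hE hq n
  exact ⟨Z, a7, ⟨H', r1', r2', ω', β', ξ', a1, (a2 0 hM).2.2.1, (a2 0 hM).2.2.2, a5.le,
    by linarith, a6⟩, a9⟩



end PlZ

end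

end Crest.Agent.T156.Pr.Reg48
end

-- ▼ part T156/ClPl_48

/-!
Row 156, text (L) (helper48): the top part of the plateau for a member of the class.
-/

set_option autoImplicit false

noncomputable section

namespace Crest.Agent.T156.Pr.Reg48

open MeasureTheory Set
open Crest.Agent.R164.GC Crest.Agent.R339.B Crest.Agent.R339.Var Crest.Agent.T157.Pf
open Crest.Agent.T156.Cut8 (LB Res Ext ExtA)

/-- the gains above the cut `M` -/
def QZ (lb : List (ℝ × ℝ)) (b c σ' σ M P e κ N Z : ℝ) : Prop :=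
  0 ≤ Z ∧ e * κ * (max M σ' - M) ^ 2 / (2 * b) + e / (4 * b) *
    (∫ t in max M σ..max (max M σ) P, (t - max M σ) * (1 - lvr 1 lb t)) +
    c / 4 * (∫ t in max M σ..max (max M σ) P, (t - max M σ) ^ 2 * (1 - lvr 1 lb t)) ≤ Z + N

variable {lb lh : List (ℝ × ℝ)} {T b c σ' σ γ M P c0 η g lam N0 e e1 κ u1 : ℝ} {hb : ℝ → ℝ}

/-- the continuation from `M` (hypothesis `cont` of `Mid.ext`, `Md2.ext`) -/
theorem PlZ.cont (h : PlZ lb lh T b c σ' σ γ M P c0 η g lam N0 e e1 κ u1 hb)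
    {A0 C θ E N U Lt τ0 βs : ℝ} (hU : ∀ s, U ≤ s → lvr 1 lb s = 1)
    (L0 : 0 ≤ Lt) (hL' : U - max M σ ≤ Lt) (hC : 0 ≤ C) (hL : Spl27.GLip T C) (hM : 0 < M)
    (β0 : 0 ≤ βs) (hA0 : 0 ≤ A0) (hA0M : A0 ≤ M)
    (hE : (∫ t in A0..T, Sc48.Jf lh lb T t ^ 2) + (∫ t in (0:ℝ)..A0, |Sc48.Jf lh lb T t|) ^ 2 ≤ E)
    (hq : ∀ r, σ ≤ r → r < T → Gd lh r ≤ -c)
    (n : PNZ T C b c θ (η + βs + (lam * e * γ + (g + e1) * (γ + u1 * Lt)) / b) g e κ
      (γ + u1 * Lt) N0 τ0 N) (H r1 r2 ω β ξ : ℝ → ℝ)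
    (R : Res T (fun t => lvr 1 lb t - lvr 1 lh t) (fun t => Gam lb t - Gam lh t) H r1 r2 ω β ξ 0 M)
    (hc : r2 M = c0) (hβ : β M = βs) : ∃ X Z, QZ lb b c σ' σ M P e κ N Z ∧
      Ext T (fun t => lvr 1 lb t - lvr 1 lh t) (fun t => Gam lb t - Gam lh t) H r2 ω β ξ M T X Z ∧
      X ≤ 4 * θ * E + 7 * N + Z / 4 := by
  subst hβ
  obtain ⟨Z, a1, a2, a3⟩ := h.ext hU L0 hL' hC hL R hM hc β0 hA0 hA0M hE hq n
  exact ⟨_, Z, ⟨a1, a3⟩, a2, by linarith⟩


end Crest.Agent.T156.Pr.Reg48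

namespace Crest.Agent.T156.Alt.Mp9.At

open MeasureTheory Set Real
open Crest.Agent.R164.GC Crest.Agent.R339.B Crest.Agent.R339.Var Crest.Agent.T157.Pf
open Crest.Agent.T156.Pp.Area50 Crest.Agent.T156.Spl27 Crest.Agent.T156.Zb9
open Crest.Agent.T156.Pr.Reg48 (PlZ Gd_neg)
open Crest.Agent.T156.Gap27 (resN)

variable {S : Sc} {M : Md} {m : ℕ} {a T : ℝ}

theorem lb_top (A : At S M m a T) {s : ℝ} (hs : sb M m a (S.Jp + 1) ≤ s) :
    lvr 1 (lb M S m a T) s = 1 := by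
  have i2 := A.cl.i2
  have i3 := A.cl.i3
  refine le_antisymm (Pp.Ode3.lvr_le_one A.okb.1.1 s) ?_
  have := Sc48.lvr_mono A.okb.1.1 hs
  rwa [A.lvb_node (by omega) le_rfl, A.cl.top _ le_rfl] at this

theorem lh_top (A : At S M m a T) {s : ℝ} (hs : M.s S.Jp ≤ s) : lvr 1 (lh M T) s = 1 := by
  rw [A.lvh' ((s_nn A.cl _).trans hs), A.cl.lv1 s hs]

/-- concavity above a node with label close to `1`, curvature of the reference above the atom -/
theorem conc_top (T0 : ℝ) : ∃ u0 c : ℝ, 0 < u0 ∧ 0 < c ∧ ∀ {S : Sc} {M : Md} {m : ℕ} {a T : ℝ},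
    At S M m a T → T ≤ T0 → (∀ r, M.s S.Jp ≤ r → r < T → Pr.Reg48.Gd (lh M T) r ≤ -c) ∧
      ∀ w, S.jl ≤ w → w ≤ S.Jp → 1 - u0 ≤ M.z w →
        ∀ r ∈ Ico (sb M m a (w + 1)) T, Pr.Reg48.Gd (lb M S m a T) r ≤ 0 := by
  obtain ⟨u0, c, h0, hc, h⟩ := Gd_neg T0
  refine ⟨u0, c, h0, hc, fun {S M m a T} A hT => ⟨fun r h1 h2 => ?_, fun w w1 w2 w3 r hr => ?_⟩⟩
  · exact h _ A.okh.1 (A.okh.2.trans_le hT) r ((s_nn A.cl _).trans h1) (h2.trans_eq A.okh.2.symm)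
      (by rw [A.lh_top h1]; linarith)
  · refine (h _ A.okb.1 (A.okb.2.trans_le hT) r ((A.sb_mem w2).1.trans hr.1) (hr.2.trans_eq A.okb.2.symm)
      ?_).trans (by linarith)
    have := Sc48.lvr_mono A.okb.1.1 hr.1
    rw [A.lvb_node w1 w2] at this
    linarith

/-- `G` is almost monotone on the plateau -/
theorem G_am (A : At S M m a T) {i k : ℕ} {γ : ℝ} (hγ : M.s S.Jp - M.s S.J ≤ γ) (hi : S.J ≤ i)
    (hik : i ≤ k) (hk : k ≤ S.Jp) : M.G i - S.C * S.θ * γ ≤ M.G k := by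
  have i2 := A.cl.i2
  have θ0 : 0 ≤ S.θ := (A.ms_pos le_rfl).le.trans (A.cl.ms1 0)
  have c0 := A.c_pos
  have e1 := A.Mf_node (k := i) (by omega) (by omega)
  have e2 := A.Mf_node (k := k) (by omega) hk
  have a2 := (A.Mf_sl (s_nn A.cl i) le_rfl _ _ le_rfl (A.cl.sm hik) (A.cl.sm hk)).2
  have a3 : S.C * S.ms (M.s S.Jp) * (M.s k - M.s i) ≤ S.C * S.θ * γ :=
    mul_le_mul (mul_le_mul_of_nonneg_left (A.cl.ms1 _) c0.le)
      (by linarith [A.cl.sm hk, A.cl.sm hi]) (sub_nonneg.2 (A.cl.sm hik)) (by positivity)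
  linarith [A.cl.leg.Hm hik]

theorem tel_z (M : Md) {i k : ℕ} (h1 : 1 ≤ i) (h : i ≤ k + 1) :
    ∑ j ∈ Finset.Icc i k, (M.z j - M.z (j - 1)) = M.z k - M.z (i - 1) := by
  induction k with
  | zero => obtain rfl : i = 1 := by omega
            simp
  | succ k ih =>
    rcases h.eq_or_lt with x | x
    · subst x; simp
    · rw [Finset.sum_Icc_succ_top (by omega), ih (by omega)]; simp

/-- upper bound of `G` on the plateau -/
theorem G_up (A : At S M m a T) {k : ℕ} {γ GP : ℝ} (hγ : M.s S.Jp - M.s S.J ≤ γ) (hk : S.J ≤ k)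
    (hk' : k ≤ S.Jp)
    (hG : ∑ j ∈ Finset.Icc S.J S.Jp, (M.z j - M.z (j - 1)) * M.G j ^ 2 ≤ GP) :
    (1 - M.z (k - 1)) * max (M.G k - S.C * S.θ * γ) 0 ^ 2 ≤ GP := by
  have i2 := A.cl.i2
  have dz : ∀ j, 0 ≤ M.z j - M.z (j - 1) := fun j => sub_nonneg.2 (A.cl.leg.zm (Nat.sub_le j 1))
  refine le_trans ?_ ((Finset.sum_le_sum_of_subset_of_nonneg (Finset.Icc_subset_Icc hk le_rfl)
    fun j _ _ => mul_nonneg (dz j) (sq_nonneg _)).trans hG)
  rw [← A.cl.top _ le_rfl, ← tel_z M (by omega) (by omega), Finset.sum_mul]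
  refine Finset.sum_le_sum fun j hj => mul_le_mul_of_nonneg_left ?_ (dz j)
  obtain ⟨j1, j2⟩ := Finset.mem_Icc.1 hj
  have := A.G_am hγ hk j1 j2
  rw [← sq_abs (M.G j)]
  exact pow_le_pow_left₀ (le_max_right _ _) (max_le (this.trans (le_abs_self _)) (abs_nonneg _)) 2

/-- lower bound of `G` on the plateau -/
theorem G_lo (A : At S M m a T) {k : ℕ} {γ GP : ℝ} (hγ : M.s S.Jp - M.s S.J ≤ γ) (hk : S.J ≤ k)
    (hk' : k ≤ S.Jp)
    (hG : ∑ j ∈ Finset.Icc S.J S.Jp, (M.z j - M.z (j - 1)) * M.G j ^ 2 ≤ GP) :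
    (M.z k - M.z (S.J - 1)) * max (-M.G k - S.C * S.θ * γ) 0 ^ 2 ≤ GP := by
  have i2 := A.cl.i2
  have dz : ∀ j, 0 ≤ M.z j - M.z (j - 1) := fun j => sub_nonneg.2 (A.cl.leg.zm (Nat.sub_le j 1))
  refine le_trans ?_ ((Finset.sum_le_sum_of_subset_of_nonneg (Finset.Icc_subset_Icc le_rfl hk')
    fun j _ _ => mul_nonneg (dz j) (sq_nonneg _)).trans hG)
  rw [← tel_z M (by omega) (by omega), Finset.sum_mul]
  refine Finset.sum_le_sum fun j hj => mul_le_mul_of_nonneg_left ?_ (dz j)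
  obtain ⟨j1, j2⟩ := Finset.mem_Icc.1 hj
  have := A.G_am hγ j1 j2 hk'
  rw [← sq_abs (M.G j)]
  exact pow_le_pow_left₀ (le_max_right _ _)
    (max_le (by linarith [neg_le_abs (M.G j)]) (abs_nonneg _)) 2

/-- **the top part of the plateau, above the node `w`** -/
theorem plz (A : At S M m a T) {v w P : ℕ} {c γ er g e t0 κ Gp N0 u1 : ℝ} (hv : S.jl < v)
    (hvw : v ≤ w) (hJ : S.J ≤ w) (hP : w ≤ P) (hP' : P ≤ S.Jp) (hγ : M.s S.Jp - M.s S.J ≤ γ)
    (cp : 0 < c) (er0 : 0 ≤ er) (g0 : 0 ≤ g) (e0 : 0 < e) (Gp0 : 0 ≤ Gp) (κ0 : 0 < κ)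
    (hκ : κ ≤ M.z w - M.z (S.J - 1)) (t00 : 0 ≤ t0) (t1 : t0 ≤ sb M m a (w + 1))
    (t2 : t0 ≤ M.s S.Jp) (he : e ≤ S.ms t0 / S.C) (he1 : e ≤ 1)
    (conc : ∀ r ∈ Ico (sb M m a (w + 1)) T, Pr.Reg48.Gd (lb M S m a T) r ≤ 0)
    (atL : res M S m a T v - res M S m a T w ≤ er ∧ M.G w ≤ Gp)
    (atM : sb M m a (w + 1) < M.s S.Jp → res M S m a T w - res M S m a T v ≤ er ∧ -M.G w ≤ Gp ∧
      M.b * Pr.GG (lb M S m a T) (sb M m a (w + 1)) ≤ 1 + g)
    (net : ∀ k, w ≤ k → k < P → ∃ i j K, w ≤ i ∧ i ≤ k ∧ k < j ∧ j ≤ S.Jp ∧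
      M.b * (res M S m a T v - res M S m a T i) + M.G i ≤ K ∧
      M.b * (res M S m a T v - res M S m a T j) + M.G j ≤ K ∧
      Pr.Reg48.Sm (e / 4) (M.b * c / 4) N0 (1 - M.z k) K)
    (last : 1 - M.z P ≤ u1) :
    ∃ hb', PlZ (lb M S m a T) (lh M T) T M.b c (M.s S.J) (M.s S.Jp) γ (sb M m a (w + 1))
      (sb M m a (P + 1)) (resN (lb M S m a T) M.b (sb M m a) (hb M) (v + 1))
      (er + 1 / (m + 1) + (Gp + S.C * S.θ * γ) / M.b) g 0 N0 e (S.C * S.θ) κ u1 hb' := by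
  have c0 := A.c_pos
  have b0 := A.b_pos
  have θ0 : 0 ≤ S.θ := (A.ms_pos le_rfl).le.trans (A.cl.ms1 0)
  have hw := hP.trans hP'
  have hv' := hvw.trans hw
  have sJ : M.s S.J ≤ M.s S.Jp := A.cl.sm A.cl.i3
  have γ0 : 0 ≤ γ := by linarith
  have m1 : (0 : ℝ) < m + 1 := by positivity
  have rb1 : ∀ i, v ≤ i → M.rb m a v / (m + 1) ≤ M.rb m a i / (m + 1) ∧
      M.rb m a i / (m + 1) ≤ M.rb m a v / (m + 1) + 1 / (m + 1) := fun i hi =>
    ⟨div_le_div_of_nonneg_right (rb_mono A.m_pos hi) m1.le, by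
      rw [← add_div]
      exact div_le_div_of_nonneg_right
        (by linarith [(rb_mem (M := M) (a := a) A.m_pos v).1, (rb_mem (M := M) (a := a) A.m_pos i).2])
        m1.le⟩
  have p1 : (0 : ℝ) ≤ 1 / (m + 1) := by positivity
  have M0 := (A.sb_mem hw).1
  choose! fi fj K hK using net
  set ms := M.s S.Jp - M.b * Pr.Gam (lh M T) (M.s S.Jp) with hms
  have cel : ∀ t, sb M m a (w + 1) ≤ t → t < sb M m a (P + 1) → ∃ k, w ≤ k ∧ k < P ∧
      Cell (sb M m a) (S.Jp + 1) (k + 1) t ∧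
      stp (fun j => K (j - 1)) (sb M m a) (S.Jp + 1) t = K k := fun t a1 a2 => by
    obtain ⟨k, k1, k2, x⟩ := A.exists_cell hP' a1 a2
    exact ⟨k, k1, k2, x, by rw [x.stp A.ub]; rfl⟩
  have nd : ∀ i x, w ≤ i → i ≤ S.Jp →
      Pr.Gam (lb M S m a T) (sb M m a (i + 1)) - (sb M m a (i + 1) - (ms + x)) / M.b -
        resN (lb M S m a T) M.b (sb M m a) (hb M) (v + 1) = res M S m a T i - res M S m a T v +
          (M.rb m a i / (m + 1) - M.rb m a v / (m + 1)) + (ms - M.H i + x) / M.b := fun i x i1 i2 => by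
    have := A.R_node (k := i) (by omega) i2
    rw [A.resN_eq hv hv', show (sb M m a (i + 1) - (ms + x)) / M.b =
      (sb M m a (i + 1) - M.H i) / M.b - (ms - M.H i + x) / M.b by ring]
    linarith
  have lo : ∀ i x, w ≤ i → i ≤ S.Jp → M.b * (res M S m a T v - res M S m a T i) + M.G i ≤ x →
      0 ≤ Pr.Gam (lb M S m a T) (sb M m a (i + 1)) - (sb M m a (i + 1) - (ms + x)) / M.b -
        resN (lb M S m a T) M.b (sb M m a) (hb M) (v + 1) := fun i x i1 i2 hx => by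
    rw [nd i x i1 i2]
    have d := (A.deficit (k := i) (by omega) i2).1
    have : res M S m a T v - res M S m a T i ≤ (ms - M.H i + x) / M.b := by
      rw [le_div_iff₀ b0]; linarith
    linarith [(rb1 i (hvw.trans i1)).1]
  have zw := A.lvb_node (k := w) (by omega) hw
  have q0 : 0 ≤ S.C * S.θ * γ := by positivity
  have n0 := nd w 0 le_rfl hw
  rw [add_zero, add_zero] at n0
  obtain ⟨d1, d2⟩ := A.deficit (k := w) (by omega) hw
  refine ⟨fun t => ms + stp (fun j => K (j - 1)) (sb M m a) (S.Jp + 1) t, A.okb.1, A.okh.1, A.okb.2,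
    A.okh.2, b0, cp, s_nn A.cl _, A.t2, sJ, hγ, M0, A.sb_mono (Nat.succ_le_succ hP),
    (A.sb_mem hP').2, by positivity, g0, le_rfl, e0, by positivity, κ0,
    by linarith [A.cl.leg.z1 w, A.cl.atom.1, one_div_pos.2 c0], by positivity,
    (Cut8.LB.const _).add (LB_stp _ _ _ _), fun s hs => A.lh_top hs, conc, fun t ht => ?_,
    fun r hr hT => A.e_lo t00 t2 he he1 (hr.elim t1.trans t2.trans) hT.le,
    fun r hr => A.e_up (M0.trans hr.1) hr.2.le, ?_, fun x => ⟨?_, (atM x).2.2⟩, fun t ht => ?_,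
    by rw [A.lvb_node (by omega) hP']; exact last, fun t a1 a2 => ?_⟩
  · have := Sc48.lvr_mono A.okb.1.1 ht.1
    linarith [A.zh_le_8 ht.2]
  · rw [n0]
    have : -((Gp + S.C * S.θ * γ) / M.b) ≤ (ms - M.H w) / M.b := by
      rw [← neg_div]; exact div_le_div_of_nonneg_right (by linarith [atL.2]) b0.le
    linarith [atL.1, (rb1 w hvw).1]
  · rw [n0]
    have x1 : S.C * S.θ * (M.s S.Jp - M.s w) ≤ S.C * S.θ * γ :=
      mul_le_mul_of_nonneg_left (by linarith [A.cl.sm hJ]) (by positivity)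
    have : (ms - M.H w) / M.b ≤ (Gp + S.C * S.θ * γ) / M.b :=
      div_le_div_of_nonneg_right (by linarith [(atM x).2.1]) b0.le
    linarith [(atM x).1, (rb1 w hvw).2]
  · obtain ⟨k, k1, k2, x, y⟩ := cel t ((le_max_left _ _).trans ht.1) ht.2
    obtain ⟨a1, a2, a3, a4, a5, a6, -⟩ := hK k k1 k2
    refine ⟨sb M m a (fi k + 1), sb M m a (fj k + 1), A.sb_mono (Nat.succ_le_succ a1),
      (A.sb_mono (Nat.succ_le_succ a2)).trans (x.2.1 (Nat.succ_pos k)),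
      (x.2.2 (by omega)).le.trans (A.sb_mono (by omega)), (A.sb_mem a4).2, ?_, ?_⟩
    · rw [y]; exact lo _ _ a1 (by omega) a5
    · rw [y, zero_mul, zero_mul, add_zero]; exact lo _ _ (by omega) a4 a6
  · obtain ⟨k, k1, k2, x, y⟩ := cel t ((le_max_left _ _).trans a1.le) a2
    rw [y, A.lvb_cell x, add_sub_cancel_left]
    exact (hK k k1 k2).2.2.2.2.2.2

/-- the field `net` of `plz` from node errors and the `L²` norm of `G` -/
theorem net_of (A : At S M m a T) {v w k i j : ℕ} {e c γ GP N1 Ke : ℝ} (hJ : S.J ≤ w)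
    (hγ : M.s S.Jp - M.s S.J ≤ γ) (e0 : 0 ≤ e) (c0 : 0 ≤ c) (N0 : 0 ≤ N1)
    (hG : ∑ j ∈ Finset.Icc S.J S.Jp, (M.z j - M.z (j - 1)) * M.G j ^ 2 ≤ GP)
    (s1 : Pr.Reg48.Sm e c N1 1 (S.C * S.θ * γ)) (s2 : Pr.Reg48.Sm e c N1 1 (2 * √GP)) (h1 : w ≤ i) (h2 : i ≤ k)
    (h3 : k < j) (h4 : j ≤ S.Jp) (h5 : M.b * (res M S m a T v - res M S m a T i) ≤ Ke)
    (h6 : M.b * (res M S m a T v - res M S m a T j) ≤ Ke)
    (h7 : 1 - M.z k ≤ 4 * (1 - M.z (j - 1))) (s3 : Pr.Reg48.Sm e c N1 (1 - M.z k) Ke) :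
    ∃ i j K, w ≤ i ∧ i ≤ k ∧ k < j ∧ j ≤ S.Jp ∧
      M.b * (res M S m a T v - res M S m a T i) + M.G i ≤ K ∧
      M.b * (res M S m a T v - res M S m a T j) + M.G j ≤ K ∧ Pr.Reg48.Sm e c (16 * N1) (1 - M.z k) K := by
  have ρ0 : 0 ≤ 1 - M.z k := sub_nonneg.2 (A.cl.leg.z1 k)
  have ρ1 : 1 - M.z k ≤ 1 := by
    linarith [A.cl.leg.zm (Nat.zero_le k), A.cl.leg.z0, A.mem.a2, A.a_pos]
  have u1 := A.G_up hγ (hJ.trans h1) (by omega) hG
  have u2 := A.G_up hγ (by omega) h4 hG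
  set x := max (max (M.G i - S.C * S.θ * γ) 0) (max (M.G j - S.C * S.θ * γ) 0) with hx
  have x0 : 0 ≤ x := (le_max_right _ _).trans (le_max_left _ _)
  have G0 : 0 ≤ GP := le_trans (mul_nonneg (sub_nonneg.2 (A.cl.leg.z1 _)) (sq_nonneg _)) u1
  have x2 : (1 - M.z k) * x ^ 2 ≤ 4 * GP := by
    rcases max_choice (max (M.G i - S.C * S.θ * γ) 0) (max (M.G j - S.C * S.θ * γ) 0) with y | y
    · rw [hx, y]
      have := mul_le_mul_of_nonneg_right (show 1 - M.z k ≤ 1 - M.z (i - 1) by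
        linarith [A.cl.leg.zm (show i - 1 ≤ k by omega)]) (sq_nonneg (max (M.G i - S.C * S.θ * γ) 0))
      linarith
    · rw [hx, y]
      have := mul_le_mul_of_nonneg_right h7 (sq_nonneg (max (M.G j - S.C * S.θ * γ) 0))
      linarith
  have sq : (2 * √GP) ^ 2 = 4 * GP := by rw [mul_pow, sq_sqrt G0]; norm_num
  have s4 : Pr.Reg48.Sm e c N1 (1 - M.z k) x := by
    have y : (1 - M.z k) * x ≤ 2 * √GP := by
      refine le_of_pow_le_pow_left₀ (n := 2) (by norm_num) (by positivity) ?_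
      rw [sq]
      nlinarith [mul_le_mul_of_nonneg_right ρ1 (mul_nonneg ρ0 (sq_nonneg x))]
    rcases s2 with s | s | s
    · refine .inr (.inl (x2.trans ?_))
      rw [← sq, le_antisymm s (by positivity)]
      simpa using mul_nonneg e0 N0
    · exact .inr (.inl (by linarith))
    · refine .inr (.inr (le_trans ?_ s))
      calc (1 - M.z k) ^ 2 * x ^ 3 = (1 - M.z k) * x ^ 2 * ((1 - M.z k) * x) := by ring
        _ ≤ (2 * √GP) ^ 2 * (2 * √GP) := by rw [sq]; gcongr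
        _ = _ := by ring
  have s5 := (s1.mono e0 c0 N0 ρ0 le_rfl le_rfl le_rfl ρ1 le_rfl).add s4 e0 c0 N0 ρ0
  have s6 := (s3.mono e0 c0 N0 ρ0 le_rfl le_rfl (by linarith : N1 ≤ 4 * N1) le_rfl le_rfl).add s5
    e0 c0 (by positivity) ρ0
  rw [show 4 * (4 * N1) = 16 * N1 by ring] at s6
  refine ⟨i, j, _, h1, h2, h3, h4, ?_, ?_, s6⟩
  · linarith [le_max_left (M.G i - S.C * S.θ * γ) 0,
      le_max_left (max (M.G i - S.C * S.θ * γ) 0) (max (M.G j - S.C * S.θ * γ) 0)]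
  · linarith [le_max_left (M.G j - S.C * S.θ * γ) 0,
      le_max_right (max (M.G i - S.C * S.θ * γ) 0) (max (M.G j - S.C * S.θ * γ) 0)]

/-- two sided bound of `G` at a node at the label distance `κ` from both ends -/
theorem G_abs (A : At S M m a T) {k : ℕ} {γ GP κ : ℝ} (hγ : M.s S.Jp - M.s S.J ≤ γ) (hk : S.J ≤ k)
    (hk' : k ≤ S.Jp) (κ0 : 0 < κ) (h1 : κ ≤ M.z k - M.z (S.J - 1)) (h2 : κ ≤ 1 - M.z (k - 1))
    (hG : ∑ j ∈ Finset.Icc S.J S.Jp, (M.z j - M.z (j - 1)) * M.G j ^ 2 ≤ GP) :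
    |M.G k| ≤ S.C * S.θ * γ + √(GP / κ) := by
  have u1 := (mul_le_mul_of_nonneg_right h2 (sq_nonneg _)).trans (A.G_up hγ hk hk' hG)
  have u2 := (mul_le_mul_of_nonneg_right h1 (sq_nonneg _)).trans (A.G_lo hγ hk hk' hG)
  have v1 := le_sqrt_of_sq_le ((le_div_iff₀' κ0).2 u1)
  have v2 := le_sqrt_of_sq_le ((le_div_iff₀' κ0).2 u2)
  exact abs_le.2 ⟨by linarith [le_max_left (-M.G k - S.C * S.θ * γ) 0],
    by linarith [le_max_left (M.G k - S.C * S.θ * γ) 0]⟩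

end Crest.Agent.T156.Alt.Mp9.At

end
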