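import Crest.Agent.T156.LOc_25
import Crest.Agent.T156.ClPl_48
import Crest.Agent.T156.ClLev_27

/-!
Row 156, block (L) (helper25): from the energy above a root or a lower cut and the gains of the top
zone to the location `LO`.
-/

set_option autoImplicit false

noncomputable section

namespace Crest.Agent.T156.Alt.L25

open MeasureTheory Set Real
open Crest.Agent.R164.GC Crest.Agent.R339.B Crest.Agent.R339.Var Crest.Agent.T157.Pf
open Crest.Agent.T156.Spl27 Crest.Agent.T156.Zb9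
open Crest.Agent.T156.Lo25 Crest.Agent.T156.Cut8 Crest.Agent.T156.Alt.Mp9
open Crest.Agent.T156.Alt.L69 (mf LO dx GS GP Pla)
open Crest.Agent.T156.Pr.Mid8.Mid (ff)

variable {S : Sc} {M : Md} {m : ℕ} {a T B a0 a1 b s Q t0 ℓ u u1 En K E N Z : ℝ}

/-- **gains of the top zone** above the time `s` -/
def QT (S : Sc) (M : Md) (m : ℕ) (a T s u K E N Z : ℝ) : Prop :=
  ∃ Q, M.s S.Jp ≤ Q ∧ Q ≤ T ∧ 1 - lvr 1 (lb M S m a T) Q ≤ u ∧
    S.θ * ∫ t in s..M.s S.J, min (uu M S m a T t) 0 ^ 2 ≤ K * (Z + N) ∧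
    S.θ * ∫ t in s..Q, |t - M.s S.Jp| * ff (lb M S m a T) (lh M T) (M.s S.Jp) t ≤ K * (Z + N) ∧
    ∫ t in M.s S.Jp..Q, (t - M.s S.Jp) ^ 2 * (1 - lvr 1 (lb M S m a T) t) ≤ K * (E + Z + N)

theorem QT.mono {u' K' E' N' Z' : ℝ} (h : QT S M m a T s u K E N Z) (hu : u ≤ u') (K0 : 0 ≤ K)
    (hK : K ≤ K') (E0 : 0 ≤ E) (hE : E ≤ E') (h0 : 0 ≤ Z + N) (h1 : Z + N ≤ Z' + N') :
    QT S M m a T s u' K' E' N' Z' := by
  obtain ⟨Q, q1, q2, q3, q4, q5, q6⟩ := h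
  have p := mul_le_mul hK h1 h0 (K0.trans hK)
  exact ⟨Q, q1, q2, q3.trans hu, q4.trans p, q5.trans p,
    q6.trans (mul_le_mul hK (by linarith) (by linarith) (K0.trans hK))⟩

theorem pos_of_mul_pos_of_nn {x y : ℝ} (h : 0 < x * y) (hx : 0 ≤ x) : 0 < y := by
  by_contra c
  exact absurd h (not_lt.2 (mul_nonpos_of_nonneg_of_nonpos hx (not_lt.1 c)))

theorem num_qt {θ b e c κ L I1 W W2 y g Z1 Z2 N E : ℝ} (θ0 : 0 < θ) (L1 : 1 ≤ L) (hκ : 1 ≤ L * κ)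
    (hc : 1 ≤ L * c) (hb : b ≤ L) (b0 : 0 < b) (he : θ ≤ L * e) (I0 : 0 ≤ I1) (W0 : 0 ≤ W)
    (W20 : 0 ≤ W2) (y0 : 0 ≤ y) (N0 : 0 ≤ N) (E0 : 0 ≤ E) (z2 : 0 ≤ Z2) (hI : e / b * I1 ≤ Z1)
    (hZ : e * κ * y / (2 * b) + e / (4 * b) * W + c / 4 * W2 ≤ Z2 + N) (hg : θ * g ≤ N) :
    0 < κ ∧ N ≤ 320 * L ^ 3 * (Z1 + Z2 + N) ∧
      θ * ((1 + 8 / κ) * I1 + 2 * W + 2 * y + 2 * g) ≤ 320 * L ^ 3 * (Z1 + Z2 + N) ∧
      320 / κ ^ 2 * E + 4 * W2 ≤ 320 * L ^ 3 * (E + (Z1 + Z2) + N) := by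
  have L0 : 0 < L := by linarith
  have κ0 : 0 < κ := pos_of_mul_pos_of_nn (by linarith) L0.le
  have c0 : 0 < c := pos_of_mul_pos_of_nn (by linarith) L0.le
  have e0 : 0 < e := pos_of_mul_pos_of_nn (by linarith) L0.le
  have f1 : 0 ≤ e * κ * y / (2 * b) := by positivity
  have f2 : 0 ≤ e / (4 * b) * W := by positivity
  have f3 : 0 ≤ c / 4 * W2 := by positivity
  have z0 : 0 ≤ Z1 := le_trans (by positivity) hI
  have L2 : L ≤ L ^ 2 := by nlinarith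
  have L3 : L ^ 2 ≤ L ^ 3 := by nlinarith
  have eb : θ ≤ L ^ 2 * (e / b) := by
    rw [← mul_div_assoc, le_div_iff₀ b0]
    linarith [mul_le_mul he hb b0.le (by positivity : 0 ≤ L * e)]
  have ik : 1 / κ ≤ L := by rw [div_le_iff₀ κ0]; exact hκ
  have g1 : θ * I1 ≤ L ^ 2 * Z1 := by
    linarith [mul_le_mul_of_nonneg_right eb I0, mul_le_mul_of_nonneg_left hI (sq_nonneg L)]
  have g2 : θ * W ≤ 4 * L ^ 2 * (Z2 + N) := by
    have : e / (4 * b) * W = e / b * W / 4 := by field_simp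
    have q : e / b * W ≤ 4 * (Z2 + N) := by linarith
    linarith [mul_le_mul_of_nonneg_right eb W0, mul_le_mul_of_nonneg_left q (sq_nonneg L)]
  have g3 : θ * y ≤ 2 * L ^ 3 * (Z2 + N) := by
    have : e * κ * y / (2 * b) = e / b * (κ * y) / 2 := by field_simp
    have q : e / b * (κ * y) ≤ 2 * (Z2 + N) := by linarith
    have r : y ≤ L * (κ * y) := by linarith [mul_le_mul_of_nonneg_right hκ y0]
    calc θ * y ≤ L ^ 2 * (e / b) * (L * (κ * y)) := mul_le_mul eb r y0 (by positivity)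
      _ = L ^ 3 * (e / b * (κ * y)) := by ring
      _ ≤ L ^ 3 * (2 * (Z2 + N)) := mul_le_mul_of_nonneg_left q (by positivity)
      _ = _ := by ring
  have g4 : W2 ≤ 4 * L * (Z2 + N) := by
    have q : c * W2 ≤ 4 * (Z2 + N) := by linarith
    linarith [mul_le_mul_of_nonneg_right hc W20, mul_le_mul_of_nonneg_left q L0.le]
  have m1 := mul_nonneg (show 0 ≤ L ^ 3 - 1 by linarith) N0
  have m2 := mul_nonneg (show 0 ≤ L ^ 3 by positivity) z0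
  have m3 := mul_nonneg (show 0 ≤ L ^ 3 by positivity) z2
  have m4 := mul_nonneg (show 0 ≤ L ^ 3 by positivity) N0
  have m5 := mul_nonneg (show 0 ≤ L ^ 3 - L ^ 2 by linarith) (add_nonneg z2 N0)
  have m6 := mul_nonneg (show 0 ≤ L ^ 3 - L by linarith) (add_nonneg z2 N0)
  refine ⟨κ0, by linarith, ?_, ?_⟩
  · have t2 : (1 + 8 / κ) * (θ * I1) ≤ 9 * L * (L ^ 2 * Z1) :=
      mul_le_mul (by rw [div_eq_mul_one_div]; linarith) g1 (by positivity) (by positivity)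
    linarith
  · have t2 : 320 / κ ^ 2 * E ≤ 320 * L ^ 3 * E := by
      refine mul_le_mul_of_nonneg_right ?_ E0
      have : (1 / κ) ^ 2 ≤ L ^ 2 := pow_le_pow_left₀ (by positivity) ik 2
      rw [div_pow, one_pow] at this
      rw [div_eq_mul_one_div]
      linarith
    linarith

/-- the gains from the middle zone `[s, Mt)` and the plateau zone -/
theorem qt_of (A : At S M m a T) {Mt P κ e c L w d Z1 Z2 N1 A0 : ℝ} (s0 : 0 ≤ s) (hs : s ≤ M.s S.J)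
    (h1 : s ≤ Mt) (h2 : Mt ≤ T) (hP : P ≤ T) (L1 : 1 ≤ L) (hκ' : 1 ≤ L * κ) (hc : 1 ≤ L * c)
    (hb : M.b ≤ L) (b0 : 0 < M.b) (he : S.θ ≤ L * e)
    (hκ : ∀ t < Mt, κ ≤ 1 - lvr 1 (lb M S m a T) t)
    (hI : e / M.b * ∫ t in s..Mt, |t - M.s S.Jp| * ff (lb M S m a T) (lh M T) (M.s S.Jp) t ≤ Z1)
    (hZ : Pr.Reg48.QZ (lb M S m a T) M.b c (M.s S.J) (M.s S.Jp) Mt P e κ N1 Z2) (hN : N1 ≤ N)
    (w0 : 0 ≤ w) (d0 : 0 ≤ d) (pos : ∀ t, s < t → t < M.s S.J - w → 0 ≤ uu M S m a T t)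
    (dlo : ∀ t, s < t → t < M.s S.J → -d ≤ uu M S m a T t) (hw : S.θ * (w * d ^ 2) ≤ N)
    (hγ : S.θ * (M.s S.Jp - M.s S.J) ^ 2 ≤ N) (hu : 1 - lvr 1 (lb M S m a T) P ≤ u)
    (p0 : 0 ≤ A0) (p1 : A0 ≤ M.s S.Jp)
    (hE : ∫ t in A0..T, Jf T (lvr 1 (lh M T)) (lvr 1 (lb M S m a T)) t ^ 2 ≤ E) :
    QT S M m a T s u (320 * L ^ 3) E N (Z1 + Z2) := by
  have θ0 := A.cl.θ0
  have sp : M.s S.J ≤ M.s S.Jp := A.cl.sm A.cl.i3
  have z1 := fun t => Pp.Ode3.lvr_le_one A.okb.1.1 (l := lb M S m a T) t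
  have N0 : 0 ≤ N := le_trans (by positivity) hγ
  have E0 : 0 ≤ E :=
    le_trans (intervalIntegral.integral_nonneg (p1.trans A.t2) fun _ _ => sq_nonneg _) hE
  obtain ⟨z2, hZ⟩ := hZ
  obtain ⟨κ0, n1, n2, n3⟩ := num_qt θ0 L1 hκ' hc hb b0 he
    (intervalIntegral.integral_nonneg h1 fun t _ => mul_nonneg (abs_nonneg _) (ff_nn _ _ _ t))
    (intervalIntegral.integral_nonneg (le_max_left _ _) fun t ht =>
      mul_nonneg (sub_nonneg.2 ht.1) (sub_nonneg.2 (z1 t)))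
    (intervalIntegral.integral_nonneg (le_max_left _ _) fun t _ =>
      mul_nonneg (sq_nonneg _) (sub_nonneg.2 (z1 t)))
    (sq_nonneg _) N0 E0 z2 hI (hZ.trans (add_le_add le_rfl hN)) hγ
  refine ⟨max (max Mt (M.s S.Jp)) P, (le_max_right _ _).trans (le_max_left _ _),
    max_le (max_le h2 A.t2) hP, ?_, ?_, ?_, ?_⟩
  · exact le_trans (sub_le_sub_left (Sc48.lvr_mono A.okb.1.1 (le_max_right _ P)) 1) hu
  · exact ((mul_le_mul_of_nonneg_left (neg_of A s0 hs w0 d0 pos dlo) θ0.le).trans hw).trans n1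
  · exact (mul_le_mul_of_nonneg_left
      (top_of A s0 (hs.trans sp) h1 h2 hP κ0 hκ le_rfl le_rfl) θ0.le).trans n2
  · exact (cub_of A p0 p1 h2 hP κ0 hκ hE le_rfl).trans n3

/-- below the time of a sloped node the mean profile is below the plateau -/
theorem zs_of (A : At S M m a T) {v : ℕ} (h0 : S.jl ≤ v) (hv : v < S.J) {t : ℝ}
    (ht : t < sb M m a (v + 1)) : lvr 1 (lb M S m a T) t ≤ M.z (S.J - 1) := by
  have := Sc48.lvr_mono A.okb.1.1 ht.le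
  rw [A.lvb_node h0 (hv.le.trans A.cl.i3)] at this
  exact this.trans (A.cl.leg.zm (by omega))

/-- the field `room` from one value -/
theorem room_of (A : At S M m a T) (p0 : 0 ≤ a0) (p1 : a0 ≤ a1)
    (h : S.C * S.v - uu M S m a T a0 ≤ S.C ^ 2 * (a1 - a0)) {t : ℝ} (h0 : a1 ≤ t)
    (h1 : t < M.s S.J) : -(2 * S.C ^ 2 * (t - a0)) ≤ uu M S m a T t := by
  have C1 := A.cl.C1
  have u1 := (A.sl h1 a0 t p0 (p1.trans h0) le_rfl).2
  have u2 := Sc48.lvr_mono A.okb.1.1 (p1.trans h0)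
  have u3 : S.C * (t - a0) ≤ S.C ^ 2 * (t - a0) :=
    mul_le_mul_of_nonneg_right (by nlinarith) (by linarith)
  have u4 : S.C ^ 2 * (a1 - a0) ≤ S.C ^ 2 * (t - a0) :=
    mul_le_mul_of_nonneg_left (by linarith) (by positivity)
  unfold uu at h ⊢
  linarith

/-- the field `low` from one value -/
theorem low_of (A : At S M m a T) {y : ℝ} (jl : M.s S.jl < t0) (y0 : 0 ≤ y) (h0 : a1 ≤ y)
    (h1 : y ≤ t0) (h : uu M S m a T y + S.C * S.v < (t0 - y) / S.C) {k : ℕ} (hk : k < S.J)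
    (ht : t0 ≤ M.s k) : a1 ≤ sb M m a (k + 1) := by
  by_contra c
  have kl : S.jl ≤ k := by
    by_contra q
    linarith [A.cl.sm (not_le.1 q).le]
  have u1 := Sc48.lvr_mono A.okb.1.1 ((not_le.1 c).le.trans h0)
  rw [A.lvb_node kl (hk.le.trans A.cl.i3), ← A.lvh_node (A.cl.i1.trans kl) hk] at u1
  have u2 := (A.sl ((s_lt A.cl hk).trans_le (A.cl.sm hk)) y (M.s k) y0 (h1.trans ht) le_rfl).1
  rw [one_div_mul_eq_div] at u2
  have u3 : (t0 - y) / S.C ≤ (M.s k - y) / S.C :=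
    div_le_div_of_nonneg_right (by linarith) A.c_pos.le
  unfold uu at h
  linarith



/-- the mass in the weight `mm` of the bulk -/
theorem mass_mm (A : At S M m a T) {x y X : ℝ} (hx : 0 ≤ x) (hxy : x ≤ y) (hy : y ≤ T)
    (h : ∫ t in x..y, mm M S m a t * uu M S m a T t ^ 2 ≤ X) :
    ∫ t in x..y, mf S t * uu M S m a T t ^ 2 ≤ 384 * S.C ^ 5 * X := by
  have C0 := A.c_pos
  refine mass_of A A.LB_mm (by positivity) hx hxy hy (fun t _ _ => ?_) h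
  refine le_trans (le_of_eq ?_) (mul_le_mul_of_nonneg_left (A.mm_ge t) (by positivity))
  have := A.cl.F1
  unfold mf
  field_simp

/-- **location from the energy above `a0` and the gains of the top zone** -/
theorem lo_T (A : At S M m a T) (hC : S.C ≤ B) (hT : T ≤ B) (hθ : S.θ ≤ 1) (K1 : 1 ≤ K)
    (a00 : 0 ≤ a0) (a01 : a0 ≤ a1) (a1t : a1 ≤ t0) (j0a : M.s S.j0 ≤ a1) (jl : M.s S.jl < t0)
    (a1s : a1 ≤ s) (sJ : s ≤ M.s S.J) (zs : ∀ t < s, lvr 1 (lb M S m a T) t ≤ M.z (S.J - 1))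
    (q : QT S M m a T s u K E N Z) (hu : u ≤ K * u1) (u0 : 0 ≤ u) (u10 : 0 ≤ u1)
    (en : ∫ t in a0..T, Jf T (lvr 1 (lh M T)) (lvr 1 (lb M S m a T)) t ^ 2 ≤ K * En)
    (mass : ∫ t in a1..s, mf S t * uu M S m a T t ^ 2 ≤ K * En) (hE : E ≤ K * En)
    (hZ : Z ≤ K * En) (hN : N ≤ K * En) (l0 : 0 ≤ ℓ) (l5 : ℓ ^ 5 ≤ K * En)
    (l3 : mf S ℓ * ℓ ^ 3 ≤ K * En) (γ3 : (M.s S.Jp - M.s S.J) ^ 3 ≤ K * En) (En0 : 0 < En)
    (v4 : S.v ≤ 1 / (S.n : ℝ) ^ 4)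
    (loc : En ≤ 1 → (∀ t, a1 ≤ t → t < M.s S.J → -(2 * S.C ^ 2 * (t - a0)) ≤ uu M S m a T t) ∧
      ∀ k < S.J, t0 ≤ M.s k → a1 ≤ sb M m a (k + 1) ∨ 2 * a1 ≤ M.s k ∨ M.s k ≤ ℓ) :
    LO (10 ^ 8 * B ^ 12 * (3 * K ^ 2)) S M m a t0 u1 En := by
  have K0 : 0 ≤ K := by linarith
  have k2 : K ≤ K ^ 2 := by nlinarith
  have x0 : 0 ≤ K * En := by positivity
  have x1 : K * En ≤ 3 * K ^ 2 * En := mul_le_mul_of_nonneg_right (by linarith) En0.le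
  have x2 : K * (3 * (K * En)) = 3 * K ^ 2 * En := by ring
  have x3 : En ≤ K * En := le_mul_of_one_le_left En0.le K1
  have B0 : 0 ≤ B := by linarith [A.cl.C1]
  refine lo_scale A.cl (En := 3 * K ^ 2 * En) (u1 := u) (K := 3 * K ^ 2) (lo_of A hC hT hθ jl.le u0
    fun h => ?_) ((s_nn A.cl _).trans jl.le) (by positivity) (by linarith) le_rfl (by positivity)
    le_rfl En0.le (hu.trans (mul_le_mul_of_nonneg_right (by linarith) u10)) u10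
  obtain ⟨Q, q1, q2, q3, q4, q5, q6⟩ := q
  obtain ⟨r1, r2⟩ := loc (by linarith)
  have y1 : K * (Z + N) ≤ 3 * K ^ 2 * En :=
    (mul_le_mul_of_nonneg_left (by linarith) K0).trans x2.le
  exact ⟨a0, a1, s, Q, ℓ, a00, a01, a1t, j0a, jl, a1s, sJ, q1, q2, en.trans x1, r1, mass.trans x1,
    l0, r2, l5.trans x1, l3.trans x1, q4.trans y1, q5.trans y1,
    q6.trans ((mul_le_mul_of_nonneg_left (by linarith) K0).trans x2.le), zs, q3, γ3.trans x1,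
    by positivity, h, v4⟩

end Crest.Agent.T156.Alt.L25

end
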