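import Crest.Agent.T156.TopE_8
import Crest.Agent.T156.Plat_48

/-!
# Row 156, text (L) (helper8): the middle zone of the global energy bound
-/

set_option autoImplicit false

noncomputable section

namespace Crest.Agent.T156.Pr.Mid8

open MeasureTheory Set
open Crest.Agent.R164.GC Crest.Agent.R339.B Crest.Agent.R339.Var Crest.Agent.T157.Pf
open Crest.Agent.T156.Cut8 Crest.Agent.T156.Pr.Reg48

variable {lb lh : List (ℝ × ℝ)} {T C b : ℝ}

/-- `NN` and `AA` are Lipschitz in time -/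
def TLip (l : List (ℝ × ℝ)) (K : ℝ) : Prop := ∀ s t, 0 ≤ s → s ≤ t → t ≤ TT l →
  |NN l t - NN l s| ≤ K * (t - s) ∧ |AA l t - AA l s| ≤ K * (t - s)


/-- `Γ''[zb](t)` against `Γ''[zh](r)`, `r ≤ t` -/
theorem Gd_le (hA : Gap27.HLip AA T C) (hN : Gap27.HLip NN T C) (hb : Ok lb) (hh : Ok lh)
    (eb : TT lb = T) (eh : TT lh = T) {K jj d r t : ℝ} (hK : TLip lh K) (hC : 0 ≤ C) (hd : 0 ≤ d)
    (hr : 0 ≤ r) (hrt : r ≤ t) (ht : t ≤ T)
    (hj : |Sc48.Jf lh lb T t| + ∫ s in (0 : ℝ)..T, |Sc48.Jf lh lb T s| ≤ jj)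
    (hz : lvr 1 lh r - d ≤ lvr 1 lb t) :
    Gd lb t ≤ Gd lh r + 2 * d + 3 * (C * jj + K * (t - r)) := by
  have mt : t ∈ Icc 0 T := ⟨hr.trans hrt, ht⟩
  have a := abs_le.mp ((hA lh lb hh hb eh eb t mt).trans (mul_le_mul_of_nonneg_left hj hC))
  have n := abs_le.mp ((hN lh lb hh hb eh eb t mt).trans (mul_le_mul_of_nonneg_left hj hC))
  obtain ⟨k1, k2⟩ := hK r t hr hrt (eh ▸ ht)
  have k1' := abs_le.mp k1
  have k2' := abs_le.mp k2
  obtain ⟨a0, a1⟩ := (ode hb).2.2.2 t (eb ▸ mt)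
  have z0 := Sc48.lvr_pos hh.1 r
  have z1 := (Sc48.lvr_mem hh.1 r).2
  have e1 := mul_le_mul_of_nonneg_right hz a0
  have e2 := mul_le_mul_of_nonneg_left a1 hd
  have e3 := mul_le_mul_of_nonneg_left
    (show AA lh r - AA lb t ≤ C * jj + K * (t - r) by linarith) z0.le
  have e4 := mul_le_mul_of_nonneg_right z1 (show 0 ≤ C * jj + K * (t - r) by linarith)
  unfold Gd
  nlinarith



theorem int_ker {x y σ α γ : ℝ} (hx : 0 ≤ x) (hxy : x ≤ y) (hy : y ≤ σ) (hσ : σ ≤ T) (hα : 0 < α)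
    (hγ : 0 < γ) : ∫ t in x..y, 1 / (α * (σ - t) + γ) ≤ Real.log (1 + α * T / γ) / α := by
  have pos : ∀ t ∈ uIcc x y, 0 < α * (σ - t) + γ := fun t ht => by
    rw [uIcc_of_le hxy] at ht
    have : 0 ≤ σ - t := by linarith [ht.2]
    positivity
  have cont : ContinuousOn (fun t => 1 / (α * (σ - t) + γ)) (uIcc x y) :=
    continuousOn_const.div (by fun_prop) fun t ht => (pos t ht).ne'
  rw [intervalIntegral.integral_eq_sub_of_hasDerivAt
    (f := fun t => -Real.log (α * (σ - t) + γ) / α) (fun t ht => by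
      have a := ((((hasDerivAt_id t).const_sub σ).const_mul α).add_const γ).log (pos t ht).ne'
      refine (a.neg.div_const α).congr_deriv ?_
      have := (pos t ht).ne'
      simp only [id]
      field_simp)
    cont.intervalIntegrable, ← sub_div]
  refine div_le_div_of_nonneg_right ?_ hα.le
  have hT : 0 ≤ T := by linarith
  have e : 1 + α * T / γ = (α * T + γ) / γ := by field_simp; ring
  rw [e, Real.log_div (by positivity) hγ.ne']
  have a1 := Real.log_le_log (pos x left_mem_uIcc) (show α * (σ - x) + γ ≤ α * T + γ by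
    nlinarith)
  have a2 := Real.log_le_log hγ (show γ ≤ α * (σ - y) + γ by nlinarith)
  linarith

theorem ker_le {a x γ : ℝ} (hγ : 0 < γ) (hx : 0 ≤ x) {y : ℝ} (h1 : x ≤ a) (h2 : y ≤ γ)
    (h3 : y * a ≤ γ ^ 2) : y ≤ 2 * γ ^ 2 * (1 / (x + γ)) := by
  rw [mul_one_div, le_div_iff₀ (by positivity)]
  rcases le_total y 0 with c | c
  · nlinarith [mul_nonneg (neg_nonneg.mpr c) (show 0 ≤ x + γ by positivity)]
  · nlinarith [mul_le_mul_of_nonneg_left h1 c, mul_le_mul_of_nonneg_right h2 hγ.le]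

/-- the static deficit `a` at distance `τ` below the jump -/
theorem stat_pt {a u τ d e G0 Gm C1 δ : ℝ} (he : 0 < e) (hG : 0 < G0) (hm : 0 < Gm) (hC : 0 ≤ C1)
    (hδ : 0 ≤ δ) (hτ : 0 ≤ τ) (u0 : 0 ≤ u) (u1 : u ≤ 1) (d0 : 0 ≤ d) (hd : d ≤ u + C1 * τ + δ)
    (h0 : a * √u ≤ G0) (h1 : a ≤ Gm) :
    a * d ≤ e / 8 * (τ * d) + (2 * G0 ^ 2 * (1 / (e / 8 * τ + G0)) +
      16 * C1 * Gm ^ 3 / e * (1 / (e / 8 * τ + Gm)) + Gm * δ) := by
  have x0 : 0 ≤ e / 8 * τ := by positivity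
  rcases le_total a (e / 8 * τ) with c | c
  · have : 0 ≤ 2 * G0 ^ 2 * (1 / (e / 8 * τ + G0)) +
        16 * C1 * Gm ^ 3 / e * (1 / (e / 8 * τ + Gm)) + Gm * δ := by positivity
    nlinarith [mul_le_mul_of_nonneg_right c d0]
  have a0 : 0 ≤ a := x0.trans c
  have s0 := Real.sqrt_nonneg u
  have s1 : √u ≤ 1 := Real.sqrt_le_one.mpr u1
  have s2 : √u ^ 2 = u := Real.sq_sqrt u0
  have k1 : a * u ≤ 2 * G0 ^ 2 * (1 / (e / 8 * τ + G0)) :=
    ker_le hG x0 c (by nlinarith [mul_le_mul_of_nonneg_right h0 s0])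
      (by have := pow_le_pow_left₀ (mul_nonneg a0 s0) h0 2; rw [mul_pow, s2] at this; linarith)
  have k2 : Gm ≤ 2 * Gm ^ 2 * (1 / (e / 8 * τ + Gm)) :=
    ker_le hm x0 (c.trans h1) le_rfl (by nlinarith)
  have k3 : τ ≤ 8 * Gm / e := by rw [le_div_iff₀ he]; linarith
  have k4 : a * (C1 * τ) ≤ 16 * C1 * Gm ^ 3 / e * (1 / (e / 8 * τ + Gm)) :=
    calc a * (C1 * τ) ≤ 2 * Gm ^ 2 * (1 / (e / 8 * τ + Gm)) * (C1 * (8 * Gm / e)) :=
          mul_le_mul (h1.trans k2) (mul_le_mul_of_nonneg_left k3 hC) (by positivity) (by positivity)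
      _ = _ := by ring
  nlinarith [mul_le_mul_of_nonneg_left hd a0, mul_le_mul_of_nonneg_right h1 hδ,
    mul_nonneg x0 d0]

theorem bath2 {f : ℝ → ℝ} (lf : LB T f) {s M σ r : ℝ} (hs : 0 ≤ s) (hM : s ≤ M) (hT : M ≤ T)
    (hr : 0 < r) (h0 : ∀ t, 0 ≤ f t) (h1 : ∀ t, f t ≤ 1) :
    ∫ t in s..M, f t ≤ 2 * r + (∫ t in s..M, |t - σ| * f t) / r := by
  have lw : LB T fun t => |t - σ| * f t / r :=
    ((LB.of_cont (f := fun t => |t - σ|) (by fun_prop)).mul lf).div r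
  obtain ⟨x0, x1⟩ := clamp_mem hM (σ - r)
  obtain ⟨y0, y1⟩ := clamp_mem hM (σ + r)
  have xy := clamp_mono s M (show σ - r ≤ σ + r by linarith)
  have l := clamp_lip s M (σ + r) (σ - r)
  rw [show σ + r - (σ - r) = 2 * r by ring, abs_of_pos (show 0 < 2 * r by linarith)] at l
  have far : ∀ t, r ≤ |t - σ| → f t ≤ |t - σ| * f t / r := fun t ht => by
    rw [le_div_iff₀ hr, mul_comm]; exact mul_le_mul_of_nonneg_right ht (h0 t)
  have m1 := int_mono lf lw hs x0 (by linarith) fun t t0 t1 => far t (by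
    have : t < σ - r := by
      unfold clamp at t1
      rcases lt_max_iff.mp t1 with c | c
      · linarith
      · exact c.trans_le (min_le_right _ _)
    linarith [neg_abs_le (t - σ)])
  have m2 := int_le_const lf (K := 1) (by linarith) xy (by linarith) fun t _ _ => h1 t
  have m3 := int_mono lf lw (by linarith) y1 hT fun t t0 t1 => far t (by
    have : σ + r < t := by
      unfold clamp at t0
      rcases min_lt_iff.mp ((le_max_right _ _).trans_lt t0) with c | c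
      · linarith
      · exact c
    linarith [le_abs_self (t - σ)])
  have m4 := int_mono (LB.const 0) lw (by linarith) xy (by linarith) fun t _ _ => by
    have := h0 t; positivity
  rw [intervalIntegral.integral_zero] at m4
  generalize clamp s M (σ - r) = x at *
  generalize clamp s M (σ + r) = y at *
  have ms : s ∈ Icc 0 T := ⟨hs, by linarith⟩
  have mx : x ∈ Icc 0 T := ⟨by linarith, by linarith⟩
  have my : y ∈ Icc 0 T := ⟨by linarith, by linarith⟩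
  have mM : M ∈ Icc 0 T := ⟨by linarith, hT⟩
  rw [← intervalIntegral.integral_div, int_split lf ms mx mM, int_split lf mx my mM,
    int_split lw ms mx mM, int_split lw mx my mM]
  linarith [le_abs_self (y - x)]

theorem int_cut {f : ℝ → ℝ} (lf : LB T f) {s M σ : ℝ} (hs : 0 ≤ s) (hσ : s ≤ σ) (hM : s ≤ M)
    (hT : M ≤ T) : ∫ t in s..M, (if t < σ then f t else 0) = ∫ t in s..min σ M, f t := by
  rcases le_total σ M with c | c
  · rw [int_ite lf (LB.const 0) hs hσ c hT, min_eq_left c]; simp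
  · rw [min_eq_right c]
    exact intervalIntegral.integral_congr_Ioo_of_le hM fun t ht => if_pos (ht.2.trans_le c)

/-- the kernel of the static cost -/
def ker (α γ σ t : ℝ) : ℝ := 1 / (α * max (σ - t) 0 + γ)

theorem LB_ker {α γ : ℝ} (σ : ℝ) (hα : 0 < α) (hγ : 0 < γ) : LB T (ker α γ σ) :=
  .of_cont (continuousOn_const.div (by fun_prop) fun t _ => by positivity)

theorem int_ker' {x y σ α γ : ℝ} (hx : 0 ≤ x) (hxy : x ≤ y) (hy : y ≤ σ) (hσ : σ ≤ T) (hα : 0 < α)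
    (hγ : 0 < γ) : ∫ t in x..y, ker α γ σ t ≤ Real.log (1 + α * T / γ) / α := by
  rw [intervalIntegral.integral_congr_Ioo_of_le hxy (g := fun t => 1 / (α * (σ - t) + γ))
    fun t ht => by simp only [ker]; rw [max_eq_left (by linarith [ht.2])]]
  exact int_ker hx hxy hy hσ hα hγ

/-- `|J s|³ ≤ 8 ∫_A^T J²` for `s ≥ A` -/
theorem J_cube_loc {zb zh : ℝ → ℝ} (lz : LB T fun t => zb t - zh t) (h1 : ∀ t, |zb t - zh t| ≤ 1)
    {A s : ℝ} (hA : 0 ≤ A) (hs : A ≤ s) (hT : s ≤ T) :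
    |Jf T zh zb s| ^ 3 ≤ 8 * ∫ t in A..T, Jf T zh zb t ^ 2 := by
  refine Lab36.sup_cube lz (fun t _ _ => h1 t) hA le_rfl hs hT (.inr ?_)
  have h1 := (abs_int_le lz (hA.trans hs) le_rfl hT le_rfl le_rfl).trans
    (int_le_const lz.abs (K := 1) (hA.trans hs) hT le_rfl fun t _ _ => h1 t)
  have h2 := abs_nonneg (Jf T zh zb s)
  unfold Jf at *
  linarith

theorem area_loc {zb zh δ : ℝ → ℝ} (lz : LB T fun t => zb t - zh t) (lδ : LB T δ) {x y j : ℝ}
    (hx : 0 ≤ x) (hxy : x ≤ y) (hy : y ≤ T) (hδ : ∀ t, 0 ≤ δ t) (jx : |Jf T zh zb x| ≤ j)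
    (jy : |Jf T zh zb y| ≤ j)
    (h : (∀ t, x < t → t < y → -δ t ≤ zb t - zh t) ∨ ∀ t, x < t → t < y → zb t - zh t ≤ δ t) :
    ∫ t in x..y, |zb t - zh t| ≤ 2 * j + 2 * ∫ t in x..y, δ t := by
  have mx : x ∈ Icc 0 T := ⟨hx, by linarith⟩
  have my : y ∈ Icc 0 T := ⟨by linarith, hy⟩
  have e := Lab36.jf_sub lz mx my
  have b1 := abs_le.mp jx
  have b2 := abs_le.mp jy
  have key : ∀ σ : ℝ, (∀ t, x < t → t < y → |zb t - zh t| ≤ σ * (zb t - zh t) + 2 * δ t) →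
      ∫ t in x..y, |zb t - zh t| ≤ σ * (Jf T zh zb x - Jf T zh zb y) + 2 * ∫ t in x..y, δ t :=
    fun σ hσ => by
    have m := int_mono lz.abs (((LB.const σ).mul lz).add ((LB.const 2).mul lδ)) hx hxy hy hσ
    rw [intervalIntegral.integral_add (((LB.const σ).mul lz).ii mx my)
        (((LB.const _).mul lδ).ii mx my),
      intervalIntegral.integral_const_mul, intervalIntegral.integral_const_mul, ← e] at m
    linarith
  rcases h with h | h
  · linarith [key 1 fun t t0 t1 => abs_le.mpr ⟨by linarith [h t t0 t1, hδ t], by linarith [hδ t]⟩]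
  · linarith [key (-1) fun t t0 t1 =>
      abs_le.mpr ⟨by linarith [hδ t], by linarith [h t t0 t1, hδ t]⟩]

/-- bound of the negative part of `dz` -/
def dd (σ' d1 t : ℝ) : ℝ := d1 + if t < σ' then 0 else 1

theorem LB_dd (σ' d1 : ℝ) : LB T (dd σ' d1) := (LB.const d1).add (LB_ite (LB.const 0) (LB.const 1))

theorem dd_nn {σ' d1 : ℝ} (h : 0 ≤ d1) (t : ℝ) : 0 ≤ dd σ' d1 t := by
  unfold dd; split_ifs <;> linarith

theorem int_dd {σ' d1 s m D γ : ℝ} (hs : 0 ≤ s) (h1 : s ≤ σ') (h2 : s ≤ m) (hT : m ≤ T) (h0 : 0 ≤ d1)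
    (hD : m - s ≤ D) (hγ0 : 0 ≤ γ) (hγ : m - σ' ≤ γ) : ∫ t in s..m, dd σ' d1 t ≤ d1 * D + γ := by
  have ms : s ∈ Icc 0 T := ⟨hs, by linarith⟩
  have mm : m ∈ Icc 0 T := ⟨by linarith, hT⟩
  have a := mul_le_mul_of_nonneg_right hD h0
  unfold dd
  rw [intervalIntegral.integral_add ((LB.const _).ii ms mm)
    ((LB_ite (LB.const 0) (LB.const 1)).ii ms mm), intervalIntegral.integral_const, smul_eq_mul]
  rcases le_total σ' m with c | c
  · rw [int_ite (LB.const 0) (LB.const 1) hs h1 c hT]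
    simp only [intervalIntegral.integral_zero, intervalIntegral.integral_const, smul_eq_mul]
    linarith
  · rw [int_zero h2 fun t _ t1 => if_pos (t1.trans_le c)]
    linarith

/-- data of the middle zone `[s, M)`: `lh` rises from below `xs` to `1` during `[σ', σ]`,
`ms`, `mM` = marks at the good times `s`, `M` -/
structure Mid (lb lh : List (ℝ × ℝ))
    (T b σ' σ γ s M c0 η g jj D d1 e e1 C1 δ xs G0 Gm Gp ms mM : ℝ) : Prop where
  okb : Ok lb
  okh : Ok lh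
  tb : TT lb = T
  th : TT lh = T
  b0 : 0 < b
  s0 : 0 < s
  sσ' : s ≤ σ'
  σσ : σ' ≤ σ
  spr : σ - σ' ≤ γ
  sM : s ≤ M
  σT : σ ≤ T
  MT : M ≤ T
  D1 : M - s ≤ D
  D2 : σ - s ≤ D
  nn : 0 ≤ η ∧ 0 ≤ g ∧ 0 ≤ d1 ∧ 0 < e ∧ 0 ≤ e1 ∧ 0 ≤ C1 ∧ 0 ≤ δ ∧ 0 < G0 ∧ 0 < Gm ∧ 0 ≤ Gp
  top : ∀ t, σ ≤ t → lvr 1 lh t = 1
  below : ∀ t ∈ Ico s σ, xs - lvr 1 lh t ≤ C1 * (σ - t) + δ
  xs0 : 0 ≤ xs
  dlo : ∀ t ∈ Ico s σ', -d1 ≤ lvr 1 lb t - lvr 1 lh t
  hj : ∀ t ∈ Icc 0 T, |Sc48.Jf lh lb T t| + ∫ s in (0 : ℝ)..T, |Sc48.Jf lh lb T s| ≤ jj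
  mu : ∀ t ∈ Icc s M, b * GG lb t ≤ 1 + g
  elo : ∀ r, s ≤ r → r < T → e ≤ 1 - b * GG lh r
  eup : ∀ r ∈ Ico s σ, 1 - b * GG lh r ≤ e1
  ats : -η ≤ Gam lb s - (s - ms) / b - c0 ∧ ms ≤ σ - b * Gam lh σ + Gp
  atM : σ < M → -η ≤ Gam lb M - (M - mM) / b - c0 ∧ mM ≤ σ - b * Gam lh σ + Gp
  net : ∀ t, s ≤ t → t < σ → t < M → ∃ p mp : ℝ, s ≤ p ∧ p ≤ t ∧
    Gam lb p - (p - mp) / b - c0 ≤ η ∧ σ - b * Gam lh σ - mp ≤ Gm ∧
    (σ - b * Gam lh σ - mp) * √(max (lvr 1 lb t - xs) 0) ≤ G0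


/-- the static cost -/
def St (T b e C1 δ G0 Gm : ℝ) : ℝ :=
  (16 * G0 ^ 2 / e * Real.log (1 + e / 8 * T / G0) +
    128 * C1 * Gm ^ 3 / e ^ 2 * Real.log (1 + e / 8 * T / Gm) + Gm * δ * T) / b

variable {σ' σ γ s M c0 η g jj D d1 e e1 C1 δ xs G0 Gm Gp ms mM : ℝ}

namespace Mid

theorem sσ (h : Mid lb lh T b σ' σ γ s M c0 η g jj D d1 e e1 C1 δ xs G0 Gm Gp ms mM) : s ≤ σ :=
  h.sσ'.trans h.σσ

theorem dlo' (h : Mid lb lh T b σ' σ γ s M c0 η g jj D d1 e e1 C1 δ xs G0 Gm Gp ms mM) {t : ℝ}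
    (ht : s ≤ t) : -dd σ' d1 t ≤ lvr 1 lb t - lvr 1 lh t := by
  unfold dd
  split_ifs with c
  · linarith [h.dlo t ⟨ht, c⟩]
  · linarith [Sc48.lvr_pos h.okb.1 t, (Sc48.lvr_mem h.okh.1 t).2, h.nn.2.2.1]

/-- the marks of the zone -/
def mk' (lb lh : List (ℝ × ℝ)) (b σ t : ℝ) : ℝ :=
  (σ - b * Gam lh σ - (t - b * Gam lh t)) / b *
    (if t < σ then (if lvr 1 lb t - lvr 1 lh t < 0 then 0 else 1) else 1)

/-- the part of `|dz|` with the right sign -/
def ff (lb lh : List (ℝ × ℝ)) (σ t : ℝ) : ℝ :=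
  if t < σ then max (lvr 1 lb t - lvr 1 lh t) 0 else |lvr 1 lb t - lvr 1 lh t|

theorem coer (h : Mid lb lh T b σ' σ γ s M c0 η g jj D d1 e e1 C1 δ xs G0 Gm Gp ms mM) {t : ℝ}
    (h1 : s ≤ t) (h2 : t < M) :
    e / b * (|t - σ| * ff lb lh σ t) ≤ mk' lb lh b σ t * (lvr 1 lb t - lvr 1 lh t) := by
  have b0 := h.b0
  have s0 := h.s0
  unfold mk' ff
  split_ifs with c c'
  · rw [max_eq_right c'.le]; simp
  · have a := Mh_ge h.okh b0 (p := t) (s := σ) (e := e) (by linarith) c.le (h.th ▸ h.σT)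
      fun r hr => h.elo r (h1.trans hr.1) (hr.2.trans_le h.σT)
    rw [max_eq_left (not_lt.mp c'), mul_one, ← mul_assoc, abs_of_neg (sub_neg.mpr c)]
    refine mul_le_mul_of_nonneg_right ?_ (not_lt.mp c')
    rw [div_mul_eq_mul_div]
    exact div_le_div_of_nonneg_right (by linarith) b0.le
  · have c1 := not_lt.mp c
    have a := Mh_ge h.okh b0 (p := σ) (s := t) (e := e) (by linarith [h.sσ]) c1
      (h.th ▸ (h2.le.trans h.MT)) fun r hr => h.elo r (h.sσ.trans hr.1)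
        (hr.2.trans (h2.trans_le h.MT))
    have z : lvr 1 lb t - lvr 1 lh t ≤ 0 := by
      rw [h.top t c1]; linarith [(Sc48.lvr_mem h.okb.1 t).2]
    rw [abs_of_nonpos z, abs_of_nonneg (sub_nonneg.mpr c1), mul_one, ← mul_assoc,
      div_mul_eq_mul_div, div_mul_eq_mul_div, div_mul_eq_mul_div]
    refine div_le_div_of_nonneg_right ?_ b0.le
    nlinarith

theorem pair (h : Mid lb lh T b σ' σ γ s M c0 η g jj D d1 e e1 C1 δ xs G0 Gm Gp ms mM) (hC : 0 ≤ C)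
    (hL : Spl27.GLip T C) {t : ℝ} (h1 : s ≤ t) (h2 : t < M) :
    (Gam lb t - Gam lh t + mk' lb lh b σ t - c0) * (lvr 1 lb t - lvr 1 lh t) ≤
      (η + (Gp + g * D) / b) * |lvr 1 lb t - lvr 1 lh t| +
      (if t < σ then (η + (e1 * D + Gp) / b + C * jj * D) * dd σ' d1 t +
        (e / 8 * ((σ - t) * max (lvr 1 lb t - lvr 1 lh t) 0) +
          (2 * G0 ^ 2 * (1 / (e / 8 * (σ - t) + G0)) +
            16 * C1 * Gm ^ 3 / e * (1 / (e / 8 * (σ - t) + Gm)) + Gm * δ)) / b else 0) := by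
  obtain ⟨η0, g0, d0, e0, e10, C0, δ0, G00, Gm0, Gp0⟩ := h.nn
  have b0 := h.b0
  have s0 := h.s0
  have hT := h2.le.trans h.MT
  have D0 : 0 ≤ D := by linarith [h.D1]
  have j0 : 0 ≤ jj := le_trans (add_nonneg (abs_nonneg _) (intervalIntegral.integral_nonneg
    (by linarith) fun _ _ => abs_nonneg _)) (h.hj t ⟨by linarith, hT⟩)
  have inc : ∀ p q, s ≤ p → p ≤ q → q ≤ M →
      Gam lb q - q / b ≤ Gam lb p - p / b + g * D / b := fun p q a1 a2 a3 => by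
    have a := Gam_inc_up h.okb (p := p) (t := q) (K := (1 + g) / b) (by linarith) a2
      (h.tb ▸ a3.trans h.MT) fun r hr => by
        rw [le_div_iff₀' b0]; exact h.mu r ⟨a1.trans hr.1, hr.2.le.trans a3⟩
    have c := div_le_div_of_nonneg_right (mul_le_mul_of_nonneg_left
      (show q - p ≤ D by linarith [h.D1]) g0) b0.le
    have e' : (1 + g) / b * (q - p) = q / b - p / b + g * (q - p) / b := by ring
    linarith
  have p1 : 0 ≤ (η + (e1 * D + Gp) / b + C * jj * D) := by positivity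
  have eb : b * Gam lh t / b = Gam lh t := by field_simp
  unfold mk'
  split_ifs with c c'
  · have τ0 : 0 ≤ σ - t := by linarith
    have r4 := abs_le.mp (reg4 h.okh h.okb (j := C * jj) s0.le h1 (h.th ▸ hT) (h.tb ▸ hT)
      fun r hr => (hL lh lb h.okh h.okb h.th h.tb r ⟨by linarith [hr.1], by linarith [hr.2]⟩).trans
        (mul_le_mul_of_nonneg_left (h.hj r ⟨by linarith [hr.1], by linarith [hr.2]⟩) hC))
    have r5 := mul_le_mul_of_nonneg_left (show t - s ≤ D by linarith [h.D1]) (mul_nonneg hC j0)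
    have m := Mh_le h.okh b0 s0.le h.sσ (h.th ▸ h.σT) h.eup
    have m2 := mul_le_mul_of_nonneg_left h.D2 e10
    have m3 : (ms - s + b * Gam lh s) / b ≤ (e1 * D + Gp) / b :=
      div_le_div_of_nonneg_right (by linarith [h.ats.2]) b0.le
    have e3 : (ms - s + b * Gam lh s) / b = Gam lh s - (s - ms) / b := by field_simp; ring
    have lo : -(η + (e1 * D + Gp) / b + C * jj * D) ≤ Gam lb t - Gam lh t - c0 := by
      linarith [h.ats.1]
    have q1 := mul_le_mul_of_nonneg_right lo (neg_nonneg.mpr c'.le)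
    have q2 := mul_le_mul_of_nonneg_left (h.dlo' h1) p1
    have q3 : 0 ≤ (η + (Gp + g * D) / b) * |lvr 1 lb t - lvr 1 lh t| := by positivity
    have q4 : 0 ≤ (e / 8 * ((σ - t) * max (lvr 1 lb t - lvr 1 lh t) 0) +
        (2 * G0 ^ 2 * (1 / (e / 8 * (σ - t) + G0)) +
          16 * C1 * Gm ^ 3 / e * (1 / (e / 8 * (σ - t) + Gm)) + Gm * δ)) / b := by positivity
    linarith
  · have z := not_lt.mp c'
    obtain ⟨p, mp, a1, a2, a3, a4, a5⟩ := h.net t h1 c h2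
    have st := stat_pt e0 G00 Gm0 C0 δ0 (sub_nonneg.mpr c.le) (le_max_right _ _)
      (max_le (by linarith [(Sc48.lvr_mem h.okb.1 t).2, h.xs0]) zero_le_one) z
      (by linarith [h.below t ⟨h1, c⟩, le_max_left (lvr 1 lb t - xs) 0]) a5 a4
    have st' := div_le_div_of_nonneg_right st b0.le
    have up : Gam lb t - Gam lh t + (σ - b * Gam lh σ - (t - b * Gam lh t)) / b * 1 - c0 ≤
        η + (Gp + g * D) / b + (σ - b * Gam lh σ - mp) / b := by
      have i := inc p t a1 a2 h2.le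
      have : 0 ≤ Gp / b := by positivity
      simp only [sub_div, add_div, mul_one, eb] at *
      linarith
    have q1 := mul_le_mul_of_nonneg_right up z
    have q2 := mul_nonneg p1 (dd_nn (σ' := σ') d0 t)
    rw [abs_of_nonneg z, max_eq_left z]
    rw [mul_div_right_comm] at st'
    linarith
  · have c1 := not_lt.mp c
    have z : lvr 1 lb t - lvr 1 lh t ≤ 0 := by
      rw [h.top t c1]; linarith [(Sc48.lvr_mem h.okb.1 t).2]
    obtain ⟨a1, a2⟩ := h.atM (c1.trans_lt h2)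
    have lo : -(η + (Gp + g * D) / b) ≤
        Gam lb t - Gam lh t + (σ - b * Gam lh σ - (t - b * Gam lh t)) / b * 1 - c0 := by
      have i := inc t M h1 h2.le le_rfl
      have := div_le_div_of_nonneg_right a2 b0.le
      simp only [sub_div, add_div, mul_one, eb] at *
      linarith
    have q1 := mul_le_mul_of_nonneg_right lo (neg_nonneg.mpr z)
    rw [abs_of_nonpos z]
    linarith

/-- **the middle zone**, local energy -/
theorem resL (h : Mid lb lh T b σ' σ γ s M c0 η g jj D d1 e e1 C1 δ xs G0 Gm Gp ms mM) {c C' : ℝ}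
    (F : Fr T c C' (Spl27.okT T) (lvr 1) Gam GG) (hC : 0 ≤ C) (hL : Spl27.GLip T C)
    {H r1 r2 ω β ξ : ℝ → ℝ}
    (R : Res T (fun t => lvr 1 lb t - lvr 1 lh t) (fun t => Gam lb t - Gam lh t) H r1 r2 ω β ξ 0 s)
    (hc : r2 s = c0) (β0 : 0 ≤ β s) {a1 a2 θ N : ℝ} (h1 : 0 ≤ a1) (h2 : 0 < a2) (hθ : 0 < θ)
    (hN : 0 ≤ N) (ha : η + (Gp + g * D) / b + β s ≤ a1 + a2) (h3 : (4 * a1) ^ 3 ≤ θ * N ^ 2)
    {A0 E : ℝ} (hA0 : 0 ≤ A0) (hA : A0 ≤ s)
    (hE : ∫ t in A0..T, Jf T (lvr 1 lh) (lvr 1 lb) t ^ 2 ≤ E) :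
    ∃ (H' r1' r2' ω' β' ξ' : ℝ → ℝ) (Z : ℝ),
      Res T (fun t => lvr 1 lb t - lvr 1 lh t) (fun t => Gam lb t - Gam lh t)
        H' r1' r2' ω' β' ξ' 0 M ∧ r2' 0 = r2 0 ∧ β' 0 = β 0 ∧ r2' M = c0 ∧ β' M = β s ∧
      ∫ t in (0 : ℝ)..M, ω' t ^ 2 = ∫ t in (0 : ℝ)..s, ω t ^ 2 ∧
      ∫ t in (0 : ℝ)..M, H' t * (lvr 1 lb t - lvr 1 lh t) =
        (∫ t in (0 : ℝ)..s, H t * (lvr 1 lb t - lvr 1 lh t)) + Z ∧ 0 ≤ Z ∧
      e / b * (∫ t in s..M, |t - σ| * ff lb lh σ t) ≤ Z ∧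
      ∫ t in (0 : ℝ)..M, ξ' t ≤ (∫ t in (0 : ℝ)..s, ξ t) +
        (8 * θ * E + Z / 4 +
          (N + 32 * a2 ^ 2 * b / e +
            (2 * a1 + a2 + (η + (e1 * D + Gp) / b + C * jj * D)) * (d1 * D + γ) +
            St T b e C1 δ G0 Gm)) := by
  obtain ⟨η0, g0, d0, e0, e10, C0, δ0, G00, Gm0, Gp0⟩ := h.nn
  have b0 := h.b0
  have s0 := h.s0
  have sM := h.sM
  have MT := h.MT
  have sσ := h.sσ
  have σT := h.σT
  have D0 : 0 ≤ D := by linarith [h.D1]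
  have ob : Spl27.okT T lb := ⟨h.okb, h.tb⟩
  have oh : Spl27.okT T lh := ⟨h.okh, h.th⟩
  have ms' : s ∈ Icc 0 T := ⟨s0.le, by linarith⟩
  have mM' : M ∈ Icc 0 T := ⟨by linarith, MT⟩
  have j0 : 0 ≤ jj := le_trans (add_nonneg (abs_nonneg _) (intervalIntegral.integral_nonneg
    (by linarith) fun _ _ => abs_nonneg _)) (h.hj s ms')
  have ld : LB T fun t => lvr 1 lb t - lvr 1 lh t := (F.lbz ob).sub (F.lbz oh)
  have lf : LB T (ff lb lh σ) := LB_ite (LB_max ld) ld.abs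
  have f0 : ∀ t, 0 ≤ ff lb lh σ t := fun t => by unfold ff; split_ifs <;> positivity
  have f1 : ∀ t, ff lb lh σ t ≤ 1 := fun t => by
    have := F.dz_le ob oh t
    unfold ff
    split_ifs
    · exact max_le ((le_abs_self _).trans this) zero_le_one
    · exact this
  have lw : LB T fun t => |t - σ| * ff lb lh σ t :=
    (LB.of_cont (f := fun t => |t - σ|) (by fun_prop)).mul lf
  have lH : LB T (mk' lb lh b σ) := by
    refine (((LB.const _).sub ((LB.of_cont continuousOn_id).sub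
      ((LB.const b).mul (F.lbΓ oh (by linarith))))).div b).mul (LB_ite ?_ (LB.const 1))
    exact .of_meas (Measurable.ite (measurableSet_lt ((Sc48.lvr_meas lb).sub (Sc48.lvr_meas lh))
      measurable_const) measurable_const measurable_const) (K := 1) fun t _ => by
        split_ifs <;> simp
  set B2 := η + (e1 * D + Gp) / b + C * jj * D with hB2
  have B20 : 0 ≤ B2 := by positivity
  have α0 : 0 < e / 8 := by positivity
  have k1 := (LB.const (T := T) (2 * G0 ^ 2)).mul (LB_ker σ α0 G00)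
  have k2 := (LB.const (T := T) (16 * C1 * Gm ^ 3 / e)).mul (LB_ker σ α0 Gm0)
  have lr := ((LB.const B2).mul (LB_dd σ' d1)).add (((k1.add k2).add (LB.const (Gm * δ))).div b)
  have lk := ((LB.const (e / b / 8)).mul lw).add (LB_ite (M := σ) lr (LB.const 0))
  obtain ⟨H', r1', r2', ω', β', ξ', R', q1, q2, q3, q4, q5, q6, q7⟩ :=
    R.mid (B1 := η + (Gp + g * D) / b) ld s0 sM MT β0 (by positivity) lH lk
      (fun t t0 t1 => le_trans (by have := f0 t; positivity) (h.coer t0 t1))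
      (fun t _ _ => add_nonneg (by have := f0 t; positivity)
        (by have := dd_nn (σ' := σ') d0 t; unfold ker; split_ifs <;> positivity))
      fun t t0 t1 => by
        rw [hc]
        refine (h.pair hC hL t0 t1).trans (add_le_add le_rfl ?_)
        unfold ff ker
        split_ifs with c
        · rw [max_eq_left (sub_nonneg.mpr c.le), abs_of_neg (sub_neg.mpr c)]
          exact le_of_eq (by ring)
        · positivity
  have z1 := int_mono ((LB.const (e / b)).mul lw) (lH.mul ld) s0.le sM MT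
    fun t t0 t1 => h.coer t0.le t1
  rw [intervalIntegral.integral_const_mul] at z1
  have W0 : 0 ≤ ∫ t in s..M, |t - σ| * ff lb lh σ t :=
    intervalIntegral.integral_nonneg sM fun t _ => by have := f0 t; positivity
  refine ⟨H', r1', r2', ω', β', ξ', _, R', q1, q2, q3.trans hc, q4, q5, q7,
    le_trans (by positivity) z1, z1, ?_⟩
  have m0 : s ≤ min σ M := le_min sσ sM
  have m1 : min σ M ≤ σ := min_le_left _ _
  have m2 : min σ M ≤ M := min_le_right _ _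
  have mm : min σ M ∈ Icc 0 T := ⟨by linarith, by linarith⟩
  have i1 := mul_le_mul_of_nonneg_left (int_ker' s0.le m0 m1 σT α0 G00)
    (show 0 ≤ 2 * G0 ^ 2 by positivity)
  have i2 := mul_le_mul_of_nonneg_left (int_ker' s0.le m0 m1 σT α0 Gm0)
    (show 0 ≤ 16 * C1 * Gm ^ 3 / e by positivity)
  have i3 := mul_le_mul_of_nonneg_right (show min σ M - s ≤ T by linarith)
    (show 0 ≤ Gm * δ by positivity)
  have γ0 : 0 ≤ γ := by linarith [h.σσ, h.spr]
  have i0 := int_dd (T := T) s0.le h.sσ' m0 mm.2 d0 (show min σ M - s ≤ D by linarith [h.D1]) γ0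
    (show min σ M - σ' ≤ γ by linarith [h.spr])
  have i4 := mul_le_mul_of_nonneg_left i0 B20
  have i5 : ((2 * G0 ^ 2 * ∫ t in s..min σ M, ker (e / 8) G0 σ t) +
      (16 * C1 * Gm ^ 3 / e * ∫ t in s..min σ M, ker (e / 8) Gm σ t) +
      (min σ M - s) * (Gm * δ)) / b ≤ St T b e C1 δ G0 Gm := by
    refine div_le_div_of_nonneg_right ?_ b0.le
    have r1 : 2 * G0 ^ 2 * (Real.log (1 + e / 8 * T / G0) / (e / 8)) =
        16 * G0 ^ 2 / e * Real.log (1 + e / 8 * T / G0) := by field_simp; ring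
    have r2 : 16 * C1 * Gm ^ 3 / e * (Real.log (1 + e / 8 * T / Gm) / (e / 8)) =
        128 * C1 * Gm ^ 3 / e ^ 2 * Real.log (1 + e / 8 * T / Gm) := by field_simp; ring
    linarith
  rw [q6, intervalIntegral.integral_add (((LB.const _).mul lw).ii ms' mM')
      ((LB_ite lr (LB.const 0)).ii ms' mM'), int_cut lr s0.le sσ sM MT,
    intervalIntegral.integral_add (((LB.const _).mul (LB_dd σ' d1)).ii ms' mm)
      ((((k1.add k2).add (LB.const _)).div b).ii ms' mm), intervalIntegral.integral_div,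
    intervalIntegral.integral_add ((k1.add k2).ii ms' mm) ((LB.const _).ii ms' mm),
    intervalIntegral.integral_add (k1.ii ms' mm) (k2.ii ms' mm),
    intervalIntegral.integral_const_mul, intervalIntegral.integral_const_mul,
    intervalIntegral.integral_const_mul, intervalIntegral.integral_const_mul,
    intervalIntegral.integral_const, smul_eq_mul]
  have E0 : 0 ≤ E := (intervalIntegral.integral_nonneg (by linarith) fun _ _ => sq_nonneg _).trans hE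
  obtain ⟨y, y0, y3'⟩ : ∃ y : ℝ, 0 ≤ y ∧ y ^ 3 = 8 * E :=
    ⟨_, by positivity, Real.rpow_inv_natCast_pow (by positivity) three_ne_zero⟩
  have jy : ∀ t, s ≤ t → t ≤ T → |Jf T (lvr 1 lh) (lvr 1 lb) t| ≤ y := fun t t0 t1 =>
    (pow_le_pow_iff_left₀ (abs_nonneg _) y0 three_ne_zero).mp
      ((J_cube_loc ld (F.dz_le ob oh) hA0 (hA.trans t0) t1).trans (by linarith))
  have v1 := area_loc ld (LB_dd σ' d1) s0.le m0 mm.2 (dd_nn d0) (jy _ le_rfl ms'.2) (jy _ m0 mm.2)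
    (.inl fun t t0 _ => h.dlo' t0.le)
  have v2 := area_loc ld (LB.const 0) mm.1 m2 MT (fun _ => le_rfl) (jy _ m0 mm.2) (jy _ sM MT)
    (.inr fun t t0 t1 => by
      rw [h.top t (by rcases min_lt_iff.mp t0 with c | c <;> linarith)]
      linarith [(Sc48.lvr_mem h.okb.1 t).2])
  rw [intervalIntegral.integral_zero] at v2
  have v3 := int_split ld.abs ms' mm mM'
  have l5 := LB_ite (M := σ) (LB_dd (T := T) σ' d1) (LB.const 0)
  have v5 := int_mono ld.abs (lf.add l5) s0.le sM MT fun t t0 _ => by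
    unfold ff
    split_ifs with c
    · exact abs_le.mpr ⟨by linarith [h.dlo' t0.le, le_max_right (lvr 1 lb t - lvr 1 lh t) 0],
        by linarith [le_max_left (lvr 1 lb t - lvr 1 lh t) 0, dd_nn (σ' := σ') d0 t]⟩
    · linarith
  rw [intervalIntegral.integral_add (lf.ii ms' mM') (l5.ii ms' mM'),
    int_cut (LB_dd σ' d1) s0.le sσ sM MT] at v5
  have v6 := bath2 lf (σ := σ) (r := 16 * a2 * b / e) s0.le sM MT (by positivity) f0 f1
  have V0 : 0 ≤ ∫ t in s..M, |lvr 1 lb t - lvr 1 lh t| :=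
    intervalIntegral.integral_nonneg sM fun _ _ => abs_nonneg _
  have w0 := mul_le_mul_of_nonneg_right ha V0
  have w1 := mul_le_mul_of_nonneg_left
    (show ∫ t in s..M, |lvr 1 lb t - lvr 1 lh t| ≤ 4 * y + 2 * (d1 * D + γ) by linarith) h1
  have w2 := mul_le_mul_of_nonneg_left
    (show ∫ t in s..M, |lvr 1 lb t - lvr 1 lh t| ≤ 2 * (16 * a2 * b / e) +
      (∫ t in s..M, |t - σ| * ff lb lh σ t) / (16 * a2 * b / e) + (d1 * D + γ) by linarith) h2.le
  have w3 := y3 y0 hN hθ h3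
  have r3 : ∀ W : ℝ, a2 * (2 * (16 * a2 * b / e) + W / (16 * a2 * b / e) + (d1 * D + γ)) =
      32 * a2 ^ 2 * b / e + e / b * W / 16 + a2 * (d1 * D + γ) := fun W => by field_simp; ring
  rw [r3] at w2
  rw [y3'] at w3
  have w4 : 0 ≤ e / b * ∫ t in s..M, |t - σ| * ff lb lh σ t := by positivity
  linarith

/-- the error of the zone -/
def Er (T C b γ η jj D d1 e e1 C1 δ G0 Gm Gp a1 a2 N : ℝ) : ℝ :=
  N + 32 * a2 ^ 2 * b / e + (2 * a1 + a2 + (η + (e1 * D + Gp) / b + C * jj * D)) * (d1 * D + γ) +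
    St T b e C1 δ G0 Gm

/-- **the continuation from `s`, given the continuation from `M`** -/
theorem ext (h : Mid lb lh T b σ' σ γ s M c0 η g jj D d1 e e1 C1 δ xs G0 Gm Gp ms mM) {c C' : ℝ}
    (F : Fr T c C' (Spl27.okT T) (lvr 1) Gam GG) (hC : 0 ≤ C) (hL : Spl27.GLip T C)
    {βs a1 a2 θ N : ℝ} (β0 : 0 ≤ βs) (h1 : 0 ≤ a1) (h2 : 0 < a2) (hθ : 0 < θ)
    (hN : 0 ≤ N) (ha : η + (Gp + g * D) / b + βs ≤ a1 + a2) (h3 : (4 * a1) ^ 3 ≤ θ * N ^ 2)
    {A0 E τ : ℝ} (hA0 : 0 ≤ A0) (hA : A0 ≤ s)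
    (hE : ∫ t in A0..T, Jf T (lvr 1 lh) (lvr 1 lb) t ^ 2 ≤ E) {Q : ℝ → Prop}
    (cont : ∀ H' r1' r2' ω' β' ξ' : ℝ → ℝ,
      Res T (fun t => lvr 1 lb t - lvr 1 lh t) (fun t => Gam lb t - Gam lh t)
        H' r1' r2' ω' β' ξ' 0 M → r2' M = c0 → β' M = βs → ∃ X Z, Q Z ∧
      Ext T (fun t => lvr 1 lb t - lvr 1 lh t) (fun t => Gam lb t - Gam lh t)
        H' r2' ω' β' ξ' M T X Z ∧ X ≤ τ + Z / 4)
    (H r1 r2 ω β ξ : ℝ → ℝ)
    (R : Res T (fun t => lvr 1 lb t - lvr 1 lh t) (fun t => Gam lb t - Gam lh t) H r1 r2 ω β ξ 0 s)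
    (hc : r2 s = c0) (hβ : β s = βs) :
    ∃ X Z, (∃ Z1 Z2, Z = Z1 + Z2 ∧ 0 ≤ Z1 ∧
        e / b * (∫ t in s..M, |t - σ| * ff lb lh σ t) ≤ Z1 ∧ Q Z2) ∧
      Ext T (fun t => lvr 1 lb t - lvr 1 lh t) (fun t => Gam lb t - Gam lh t)
        H r2 ω β ξ s T X Z ∧
      X ≤ 8 * θ * E + τ + Z / 4 + Er T C b γ η jj D d1 e e1 C1 δ G0 Gm Gp a1 a2 N := by
  subst hβ
  obtain ⟨H', r1', r2', ω', β', ξ', Z, R', q1, q2, q3, q4, q5, q6, q7, q8, q9⟩ :=
    h.resL F hC hL R hc β0 h1 h2 hθ hN ha h3 hA0 hA hE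
  obtain ⟨X, Z', w1, w2, w3⟩ := cont _ _ _ _ _ _ R' q3 q4
  exact ⟨_, _, ⟨Z, Z', rfl, q7, q8, w1⟩, Ext.trans q1 q2 q5.le q9 q6 w2, by unfold Er; linarith⟩

end Mid



end Crest.Agent.T156.Pr.Mid8
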