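import Crest.Agent.T156.ClPl_48
import Crest.Agent.T156.Mid2_36
import Crest.Agent.T156.CutN_93

-- ▼ part T156/PlatY_48
section

/-!
Row 156 (helper48): the plateau part of the energy estimate, sharper cost of the spread `γ`.
-/

set_option autoImplicit false

namespace Crest.Agent.T156.Pr.Reg48

open MeasureTheory Set
open Crest.Agent.R164.GC Crest.Agent.R339.B Crest.Agent.R339.Var Crest.Agent.T157.Pf
open Crest.Agent.T156.Cut8 (LB Res int_mono int_split Ext ExtA)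

noncomputable section

/-- the numbers: `η' = η + β M + (lam e γ + (g + e1) (γ + w)) / b`, `w = u1 Lt` -/
structure PNY (T C b c θ η' g e κ γ w N0 τ0 N : ℝ) : Prop where
  θ0 : 0 < θ
  Np : 0 ≤ N
  M0 : 0 ≤ N0
  τp : 0 < τ0
  τ1 : e / 4 * τ0 ^ 2 ≤ N0
  τ2 : b * c / 4 * τ0 ^ 3 ≤ N0
  h1 : η' ^ 3 ≤ θ * κ ^ 2 / 64 * N ^ 2 ∨ η' ^ 2 ≤ e * κ / (64 * b) * N
  h2 : (g / b) ^ 3 ≤ (θ * κ ^ 2 / 64) ^ 2 * N ∨ g ≤ e * κ / 16
  h5 : η' * (γ + w) ≤ N
  h7 : (C * γ ^ 2 + C * (1 + T) * w) ^ 2 ≤ θ / (T + 1) * N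
  h8 : 2 * N0 * Real.log (1 + T / τ0) / b ≤ N
  k3 : (C * γ) ^ 3 ≤ (θ * κ ^ 2 / 64) ^ 2 * N
  k4 : ((C * γ) ^ 2 * (T + 1) / θ) ^ 3 ≤ (θ * κ ^ 2 / 64) ^ 2 * N
  k5 : (C * γ ^ 2) ^ 3 ≤ θ * κ ^ 2 / 64 * N ^ 2

set_option maxHeartbeats 1600000 in
theorem finY {T Lt C b c θ η β g lam e e1 κ u1 γ N0 τ0 N E D D' y ι V W i2 i4 i5 z2 z3 s1 s2
      x : ℝ}
    (n : PNY T C b c θ (η + β + (lam * e * γ + (g + e1) * (γ + u1 * Lt)) / b) g e κ
      γ (u1 * Lt) N0 τ0 N) (hC : 0 ≤ C) (b0 : 0 < b) (T0 : 0 ≤ T)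
    (L0 : 0 ≤ Lt) (η0 : 0 ≤ η) (β0 : 0 ≤ β) (g0 : 0 ≤ g) (l0 : 0 ≤ lam)
    (l1 : lam ≤ κ / 32) (e0 : 0 < e) (e10 : 0 ≤ e1) (κ0 : 0 < κ) (κ1 : κ ≤ 1)
    (u0 : 0 ≤ u1) (E0 : 0 ≤ E) (D0 : 0 ≤ D') (y0 : 0 ≤ y) (y3' : y ^ 3 = 8 * E) (ι0 : 0 ≤ ι)
    (ι2 : ι ^ 2 ≤ (T + 1) * E) (D3 : κ ^ 2 * D' ^ 3 / 64 ≤ E) (V0 : 0 ≤ V) (V1 : V ≤ y)
    (bt : V ^ 2 ≤ 2 * W) (I2 : i2 ≤ D' * 1) (I2' : 0 ≤ i2) (I4 : i4 ≤ u1 * Lt) (I4' : 0 ≤ i4)
    (Z2 : e * κ * D' ^ 2 / 2 ≤ z2) (Z3 : e / 4 * W ≤ z3 + s2) (Z30 : 0 ≤ z3) (S1 : s1 ≤ s2)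
    (S2 : s2 / b ≤ N) (γ0 : 0 ≤ γ) (D00 : 0 ≤ D) (DD : D ≤ D' + γ) (I5 : i5 ≤ γ) (I5' : 0 ≤ i5) :
    0 ≤ z2 / b + z3 / b ∧
    x + ((η + g / b * D' + β) * i2 + (η + (g + e1) * D / b + C * (y + ι) * D + β) * i5) +
      ((lam * e * D / b + β) * V + s1 / b +
      (η + (g + e1) * D / b + C * (1 + T) * ι + β) * i4) ≤
      x + 8 * θ * E + (z2 / b + z3 / b) / 4 + 10 * N := by
  obtain ⟨θ0, N0', -, -, -, -, h1, h2, h5, h7, -, k3, k4, k5⟩ := n
  set w := γ + u1 * Lt with hw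
  have w0 : γ ≤ w := by rw [hw]; linarith [mul_nonneg u0 L0]
  set η' := η + β + (lam * e * γ + (g + e1) * w) / b with hη
  set ε := θ * κ ^ 2 / 64 with hε
  have ε0 : 0 < ε := by positivity
  have W0 : 0 ≤ W := by linarith [sq_nonneg V]
  have a2 : e * κ * D' ^ 2 / b ≤ 2 * (z2 / b) := by
    rw [← mul_div_assoc]; exact div_le_div_of_nonneg_right (by linarith) b0.le
  have a3 : e * W / b ≤ 4 * (z3 / b) + 4 * N := by
    have : e * W / b ≤ (4 * z3 + 4 * s2) / b := div_le_div_of_nonneg_right (by linarith) b0.le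
    rw [add_div, mul_div_assoc 4, mul_div_assoc 4] at this
    linarith
  have a20 : 0 ≤ e * κ * D' ^ 2 / b := by positivity
  have a30 : 0 ≤ e * W / b := by positivity
  have z30 : 0 ≤ z3 / b := by positivity
  have θE : 0 ≤ θ * E := by positivity
  have eD : ε * D' ^ 3 ≤ θ * E := by
    have := mul_le_mul_of_nonneg_left D3 θ0.le
    rw [hε]; linarith
  have ey : ε * y ^ 3 ≤ θ * E := by
    have := mul_le_mul_of_nonneg_left (pow_le_one₀ κ0.le κ1 : κ ^ 2 ≤ 1) θE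
    rw [hε, y3']; linarith
  have eV : ε * V ^ 3 ≤ θ * E :=
    (mul_le_mul_of_nonneg_left (pow_le_pow_left₀ V0 V1 3) ε0.le).trans ey
  have kV : e * κ / b * V ^ 2 ≤ 2 * (e * W / b) := by
    have : κ * V ^ 2 ≤ 2 * W := (mul_le_of_le_one_left (sq_nonneg V) κ1).trans bt
    calc e * κ / b * V ^ 2 = e / b * (κ * V ^ 2) := by ring
      _ ≤ e / b * (2 * W) := by gcongr
      _ = _ := by ring
  have t1 : η' * D' ≤ θ * E + N + e * κ * D' ^ 2 / b / 64 ∧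
      η' * V ≤ θ * E + N + e * W / b / 32 := by
    rcases h1 with h1 | h1
    · exact ⟨by linarith [y3 D0 N0' ε0 h1], by linarith [y3 V0 N0' ε0 h1]⟩
    · have p : 0 < e * κ / (64 * b) := by positivity
      have q1 := y2 D0 N0' p h1
      have q2 := y2 V0 N0' p h1
      rw [show e * κ / (64 * b) * D' ^ 2 = e * κ * D' ^ 2 / b / 64 by ring] at q1
      rw [show e * κ / (64 * b) * V ^ 2 = e * κ / b * V ^ 2 / 64 by ring] at q2
      exact ⟨by linarith, by linarith⟩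
  have t2 : g / b * D' ^ 2 ≤ θ * E + N + e * κ * D' ^ 2 / b / 16 := by
    rcases h2 with h2 | h2
    · linarith [y32 D0 N0' ε0 h2]
    · have : g / b * D' ^ 2 ≤ e * κ / 16 / b * D' ^ 2 := by gcongr
      rw [show e * κ / 16 / b * D' ^ 2 = e * κ * D' ^ 2 / b / 16 by ring] at this
      linarith
  have t3 : lam * e * D' / b * V ≤ e * κ * D' ^ 2 / b / 64 + e * W / b / 32 := by
    have q1 : lam * e * D' / b * V ≤ κ / 32 * e * D' / b * V := by gcongr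
    have q2 : e * κ / b * (D' * V) ≤ e * κ / b * ((D' ^ 2 + V ^ 2) / 2) :=
      mul_le_mul_of_nonneg_left (by linarith [two_mul_le_add_sq D' V]) (by positivity)
    rw [show κ / 32 * e * D' / b * V = e * κ / b * (D' * V) / 32 by ring] at q1
    rw [show e * κ / b * ((D' ^ 2 + V ^ 2) / 2) =
      e * κ * D' ^ 2 / b / 2 + e * κ / b * V ^ 2 / 2 by ring] at q2
    linarith
  have q2 : θ / (T + 1) * ι ^ 2 ≤ θ * E := by
    refine (mul_le_mul_of_nonneg_left ι2 (by positivity)).trans_eq ?_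
    field_simp
  have t6 := y2 ι0 N0' (by positivity) h7
  have s1' : s1 / b ≤ N := (div_le_div_of_nonneg_right S1 b0.le).trans S2
  have w00 := γ0.trans w0
  have p1 : 0 ≤ lam * e * γ / b := by positivity
  have p2 : 0 ≤ (g + e1) * w / b := by positivity
  have eη : η' = η + β + lam * e * γ / b + (g + e1) * w / b := by rw [hη]; ring
  have x2 : (η + g / b * D' + β) * i2 ≤ (η + g / b * D' + β) * D' :=
    mul_le_mul_of_nonneg_left (by linarith) (by positivity)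
  have x3 : (lam * e * D / b + β) * V ≤ (lam * e * D' / b + η') * V := by
    refine mul_le_mul_of_nonneg_right ?_ V0
    have : lam * e * D / b ≤ lam * e * (D' + γ) / b := by gcongr
    rw [mul_add, add_div] at this
    linarith
  have x5 : (η + (g + e1) * D / b + β) * (i5 + i4) ≤ (η + (g + e1) * (D' + w) / b + β) * w := by
    refine mul_le_mul ?_ (by linarith) (by linarith) (by positivity)
    have : D ≤ D' + w := by linarith
    gcongr
  have e5 : (η + (g + e1) * (D' + w) / b + β) * w =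
      (η + β + (g + e1) * w / b) * w + (g + e1) * w / b * D' := by ring
  have x8 : C * (y + ι) * D * i5 ≤ C * (y + ι) * (D' + γ) * γ := by gcongr
  have x9 : C * (1 + T) * ι * i4 ≤ C * (1 + T) * ι * (u1 * Lt) := by gcongr
  have t4 : C * γ * (y * D') ≤ θ * E + N := by
    have q : C * γ * (y * D') ≤ C * γ * ((y ^ 2 + D' ^ 2) / 2) :=
      mul_le_mul_of_nonneg_left (by linarith [two_mul_le_add_sq y D']) (by positivity)
    linarith [y32 D0 N0' ε0 k3, y32 y0 N0' ε0 k3]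
  have t5 : C * γ * D' * ι ≤ 2 * (θ * E) + N := by
    have q1 := y2 (a := C * γ * D') (N := (C * γ) ^ 2 * (T + 1) / θ * D' ^ 2)
      (ε := θ / (T + 1)) ι0 (by positivity) (by positivity) (le_of_eq (by field_simp))
    linarith [y32 D0 N0' ε0 k4]
  have t7 := y3 y0 N0' ε0 k5
  have x6 : (η + β + (g + e1) * w / b) * w ≤ η' * w := by gcongr; linarith
  have x7 : (η + β + (g + e1) * w / b) * D' ≤ η' * D' := by gcongr; linarith
  refine ⟨by linarith, ?_⟩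
  linarith [t1.1, t1.2]

variable {lb lh : List (ℝ × ℝ)} {T b c σ' σ γ M P c0 η g lam N0 e e1 κ u1 : ℝ} {hb : ℝ → ℝ}

namespace PlZ

variable (h : PlZ lb lh T b c σ' σ γ M P c0 η g lam N0 e e1 κ u1 hb)
include h

theorem r5Y {C y ι : ℝ} (hC : 0 ≤ C) (hL : Spl27.GLip T C)
    (hy : ∀ s ∈ Icc M T, |Sc48.Jf lh lb T s| ≤ y) (hι : ι = ∫ s in (0:ℝ)..T, |Sc48.Jf lh lb T s|)
    {t : ℝ} (a : max M σ' ≤ t) (c : t < max M σ) :
    |Gam lb t - Gam lh t - c0| ≤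
      η + (g + e1) * (max M σ - M) / b + C * (y + ι) * (max M σ - M) := by
  have g0 := h.g0
  have e10 := h.e10
  have b0 := h.b0
  have Mt : M ≤ t := (le_max_left _ _).trans a
  have c' : t < σ := (lt_max_iff.1 c).resolve_left (not_lt.2 Mt)
  have Mσ := Mt.trans_lt c'
  have T0 := h.σ0.trans h.σT
  have ι0 : 0 ≤ ι := hι ▸ int_nn T0 fun _ => abs_nonneg _
  have y0 : 0 ≤ y := (abs_nonneg _).trans (hy T ⟨h.MP.trans h.PT, le_rfl⟩)
  rw [max_eq_right Mσ.le]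
  have D0 := sub_nonneg.2 Mσ.le
  obtain ⟨u1', u2'⟩ := h.r2q Mt c' c'.le h.σT
  have l1 := h.atL
  have l2 := Mh_le h.okh b0 h.M0 Mσ.le (by rw [h.th]; exact h.σT) (e := e1) h.eup
  have tT := c'.le.trans h.σT
  have l3 := (abs_le.1 (reg4 h.okh h.okb (j := C * (y + ι)) h.M0 Mt (by rw [h.th]; exact tT)
    (by rw [h.tb]; exact tT) fun r hr => by
      have mr : r ∈ Icc 0 T := ⟨h.M0.trans hr.1, hr.2.le.trans tT⟩
      refine (hL lh lb h.okh h.okb h.th h.tb r mr).trans ?_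
      rw [← hι]
      exact mul_le_mul_of_nonneg_left (by linarith [hy r ⟨hr.1, mr.2⟩]) hC)).1
  have l4 := mul_le_mul_of_nonneg_left (show t - M ≤ σ - M by linarith)
    (show 0 ≤ C * (y + ι) by positivity)
  have p1 : 0 ≤ g * (σ - M) / b := by positivity
  have p2 : 0 ≤ e1 * (σ - M) / b := by positivity
  have p3 : 0 ≤ C * (y + ι) * (σ - M) := by positivity
  have e1' : (g + e1) * (σ - M) / b = g * (σ - M) / b + e1 * (σ - M) / b := by ring
  have e2 : g / b * (σ - M) = g * (σ - M) / b := by ring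
  have v1 : (t - (σ - b * Gam lh σ)) / b ≤ Gam lh t := by rw [div_le_iff₀ b0]; linarith
  have v2 : Gam lh M ≤ (M - (σ - b * Gam lh σ)) / b + e1 * (σ - M) / b := by
    rw [← add_div, le_div_iff₀ b0]; linarith
  rw [abs_le]
  constructor <;> linarith

set_option maxHeartbeats 1600000 in
/-- **the plateau part of the energy estimate**, local energy, `zb = 1` from `U` on, `U - max M σ ≤ Lt` -/
theorem resY {A A0 C θ E N U Lt τ0 : ℝ} {H r1 r2 ω β ξ : ℝ → ℝ} (hU : ∀ s, U ≤ s → lvr 1 lb s = 1)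
    (L0 : 0 ≤ Lt) (hL' : U - max M σ ≤ Lt) (hC : 0 ≤ C) (hL : Spl27.GLip T C)
    (R : Res T (fun t => lvr 1 lb t - lvr 1 lh t) (fun t => Gam lb t - Gam lh t) H r1 r2 ω β ξ A M)
    (hA : 0 ≤ A) (hAM : A ≤ M) (hc : r2 M = c0) (β0 : 0 ≤ β M)
    (hA0 : 0 ≤ A0) (hA0M : A0 ≤ M)
    (hE : (∫ t in A0..T, Sc48.Jf lh lb T t ^ 2) + (∫ t in (0:ℝ)..A0, |Sc48.Jf lh lb T t|) ^ 2 ≤ E)
    (hq : ∀ r, σ ≤ r → r < T → Gd lh r ≤ -c)
    (n : PNY T C b c θ (η + β M + (lam * e * γ + (g + e1) * (γ + u1 * Lt)) / b) g e κ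
      γ (u1 * Lt) N0 τ0 N) :
    ∃ (H' r1' r2' ω' β' ξ' : ℝ → ℝ) (Z : ℝ),
      Res T (fun t => lvr 1 lb t - lvr 1 lh t) (fun t => Gam lb t - Gam lh t)
        H' r1' r2' ω' β' ξ' A T ∧
      (∀ t, t < M → H' t = H t ∧ r1' t = r1 t ∧ r2' t = r2 t ∧ β' t = β t) ∧
      ∫ t in A..T, ω' t ^ 2 = ∫ t in A..M, ω t ^ 2 ∧
      ∫ t in A..T, H' t * (lvr 1 lb t - lvr 1 lh t) =
        (∫ t in A..M, H t * (lvr 1 lb t - lvr 1 lh t)) + Z ∧ 0 ≤ Z ∧
      ∫ t in A..T, ξ' t ≤ (∫ t in A..M, ξ t) + 8 * θ * E + Z / 4 + 10 * N ∧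
      e * κ * (max M σ' - M) ^ 2 / (2 * b) + e / (4 * b) *
        (∫ t in max M σ..max (max M σ) P, (t - max M σ) * (1 - lvr 1 lb t)) +
        c / 4 * (∫ t in max M σ..max (max M σ) P, (t - max M σ) ^ 2 * (1 - lvr 1 lb t)) ≤
        Z + N := by
  have η0 := h.η0
  have g0 := h.g0
  have l0 := h.l0
  have e0 := h.e0
  have e10 := h.e10
  have κ0 := h.κ0
  have κ1 := h.κ1
  have c0' := h.cp
  have b0 := h.b0
  have M0 := h.M0
  have MT := h.MP.trans h.PT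
  have T0 := M0.trans MT
  have θ0 := n.θ0
  have N0' := n.Np
  have γ0 : 0 ≤ γ := by linarith [h.σ1, h.σγ]
  have u0 : 0 ≤ u1 := le_trans (sub_nonneg.2 (Pp.Ode3.lvr_le_one h.okb.1 P)) h.last
  have ld := h.ld
  have lΓ : LB T (Gam lh) := .of_cont (h.th ▸ (ode h.okh).1)
  have lM : LB T fun t => t - b * Gam lh t :=
    (LB.of_cont continuousOn_id).sub ((LB.const b).mul lΓ)
  have lJ : LB T (Sc48.Jf lh lb T) := .of_cont (ld.tail (right_mem_Icc.mpr T0))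
  have AT := hA0M.trans MT
  have ι2 := iota_loc lJ hA0 AT hE
  replace hE : ∫ t in A0..T, Sc48.Jf lh lb T t ^ 2 ≤ E := (le_add_of_nonneg_right (sq_nonneg _)).trans hE
  have E0 : 0 ≤ E := (int_nn AT fun _ => sq_nonneg _).trans hE
  obtain ⟨y, y0, hy3⟩ : ∃ y : ℝ, 0 ≤ y ∧ y ^ 3 = 8 * E :=
    ⟨(8 * E) ^ (((3:ℕ):ℝ)⁻¹), by positivity, Real.rpow_inv_natCast_pow (by positivity) (by norm_num)⟩
  have hy : ∀ s ∈ Icc M T, |Sc48.Jf lh lb T s| ≤ y := fun s hs => by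
    have a := Jf_le (l := lh) (l' := lb) (u := 1) hs.2 fun r _ => h.d1 r
    have c := Lab36.sup_cube (zh := lvr 1 lh) (zb := lvr 1 lb) ld (fun t _ _ => h.d1 t) hA0
      le_rfl (hA0M.trans hs.1) hs.2 (.inr (by
        show s + |Sc48.Jf lh lb T s| / 2 ≤ T
        linarith [abs_nonneg (Sc48.Jf lh lb T s)]))
    refine le_of_pow_le_pow_left₀ (n := 3) (by norm_num) y0 (c.trans ?_)
    rw [hy3]
    exact mul_le_mul_of_nonneg_left hE (by norm_num)
  set ι := ∫ s in (0:ℝ)..T, |Sc48.Jf lh lb T s| with hι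
  have ι0 : 0 ≤ ι := int_nn T0 fun _ => abs_nonneg _
  have r2' := fun t => h.r2 (t := t)
  have r5' := fun t => h.r5Y hC hL hy hι (t := t)
  have r3' := fun t => h.r3 (t := t)
  have r4' := fun t => h.r4 hC hL hι (t := t)
  have tl := fun r => h.tail hU L0 hL' (r := r)
  have gw := fun s => h.growq c0'.le hq (s := s)
  have st := h.stat
  have cS : max M σ' - M = 0 ∨ (M < σ' ∧ max M σ' = σ') := by
    rcases le_or_gt σ' M with x | x
    · exact .inl (by rw [max_eq_left x, sub_self])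
    · exact .inr ⟨x, max_eq_right x.le⟩
  have SS : max M σ' ≤ max M σ := max_le_max_left _ h.σ1
  have Sγ : max M σ - max M σ' ≤ γ := by
    rcases le_total M σ with x | x
    · rw [max_eq_right x]; linarith [le_max_right M σ', h.σγ]
    · rw [max_eq_left x]; linarith [le_max_left M σ']
  set S' := max M σ' with hS'
  have MS' : M ≤ S' := le_max_left _ _
  set S := max M σ with hS
  have MS : M ≤ S := le_max_left _ _
  have σS : σ ≤ S := le_max_right _ _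
  have ST : S ≤ T := max_le MT h.σT
  set Q := max S P with hQ
  have SQ : S ≤ Q := le_max_left _ _
  have QT : Q ≤ T := max_le ST h.PT
  have S0 := M0.trans MS
  have tP : ∀ t, S ≤ t → t < Q → t < P := fun t a c =>
    (lt_max_iff.1 c).resolve_left (not_lt.2 a)
  set D := S - M with hD
  have D0 : 0 ≤ D := sub_nonneg.2 MS
  set D' := S' - M with hD'
  have D0' : 0 ≤ D' := sub_nonneg.2 MS'
  have S'T := SS.trans ST
  have lh' : LB T fun t => hb t + lam * e * (t - S) := h.lhb.add (LB_lin T _ S)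
  subst hc
  obtain ⟨H0, r10, r20, ω0, β1, ξ0, R0, d1, d2, d3, d4, d5, d6⟩ := res_two (hm := σ - b * Gam lh σ)
    R ld lΓ b0 hA hAM MS' SS ST β0 (by positivity) (by positivity) r2' r5'
  obtain ⟨H', r1', r2'', ω', β', ξ', R', c1, -, -, c4, c5, c6⟩ := res_top' (hm := 0) (B2 := 0)
    R0 ld lΓ lh' b0 hA (hAM.trans MS) le_rfl SQ QT (d3 ▸ β0) le_rfl (by positivity) (by positivity)
    (fun t a c => absurd c (not_lt.2 a))
    (fun t a c => ⟨(h.dtop (σS.trans a)).1, d2 ▸ r3' t a (tP t a c)⟩)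
    (fun t a c => ⟨(h.dtop (σS.trans (SQ.trans a))).1, .inr (d2 ▸ r4' t (MS.trans (SQ.trans a)) c.le)⟩)
  rw [intervalIntegral.integral_same, mul_zero, zero_add, d3, d5] at c5
  rw [intervalIntegral.integral_same, zero_div, zero_add, d6, add_assoc] at c6
  rw [d4] at c4
  have eW : ∫ t in S..Q, (t - S) * (1 - lvr 1 lb t) =
      ∫ t in S..Q, (t - S) * |lvr 1 lb t - lvr 1 lh t| :=
    intervalIntegral.integral_congr_Ioo_of_le SQ fun t ht => by
      rw [(h.dtop (σS.trans ht.1.le)).2]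
  have eW2 : ∫ t in S..Q, (t - S) ^ 2 * (1 - lvr 1 lb t) =
      ∫ t in S..Q, (t - S) ^ 2 * |lvr 1 lb t - lvr 1 lh t| :=
    intervalIntegral.integral_congr_Ioo_of_le SQ fun t ht => by
      rw [(h.dtop (σS.trans ht.1.le)).2]
  rw [eW, eW2]
  have mS : S ∈ Icc 0 T := ⟨S0, ST⟩
  have mQ : Q ∈ Icc 0 T := ⟨S0.trans SQ, QT⟩
  have mT : T ∈ Icc 0 T := ⟨T0, le_rfl⟩
  have bt := bath ld.abs S0 SQ QT (fun _ => abs_nonneg _) fun t _ _ => h.d1 t
  have I2 : ∫ t in M..S', |lvr 1 lb t - lvr 1 lh t| ≤ D' * 1 :=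
    int_le ld.abs M0 MS' S'T fun t _ _ => h.d1 t
  have I2' : 0 ≤ ∫ t in M..S', |lvr 1 lb t - lvr 1 lh t| := int_nn MS' fun _ => abs_nonneg _
  have I5 : ∫ t in S'..S, |lvr 1 lb t - lvr 1 lh t| ≤ γ :=
    (int_le ld.abs (M0.trans MS') SS ST fun t _ _ => h.d1 t).trans (by linarith)
  have I5' : 0 ≤ ∫ t in S'..S, |lvr 1 lb t - lvr 1 lh t| := int_nn SS fun _ => abs_nonneg _
  have I4 : ∫ t in Q..T, |lvr 1 lb t - lvr 1 lh t| ≤ u1 * Lt := tl Q le_rfl QT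
  have I4' : 0 ≤ ∫ t in Q..T, |lvr 1 lb t - lvr 1 lh t| := int_nn QT fun _ => abs_nonneg _
  have V0 : 0 ≤ ∫ t in S..Q, |lvr 1 lb t - lvr 1 lh t| := int_nn SQ fun _ => abs_nonneg _
  have V1 : ∫ t in S..Q, |lvr 1 lb t - lvr 1 lh t| ≤ y := by
    have a := int_split ld.abs mS mQ mT
    have c : ∫ t in S..T, |lvr 1 lb t - lvr 1 lh t| = -Sc48.Jf lh lb T S := by
      unfold Sc48.Jf
      rw [← intervalIntegral.integral_neg]
      exact intervalIntegral.integral_congr_Ioo_of_le ST fun t ht =>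
        abs_of_nonpos (h.dtop (σS.trans ht.1.le)).1
    linarith [neg_le_abs (Sc48.Jf lh lb T S), hy S ⟨MS, ST⟩]
  have D3 : κ ^ 2 * D' ^ 3 / 64 ≤ E := by
    rcases cS with x | ⟨-, x⟩
    · rw [x]; simpa using E0
    · have a := Lab36.gap_pos (zh := lvr 1 lh) (zb := lvr 1 lb) ld M0 D0' (by linarith) κ0.le
        fun t a c => h.gap t ⟨a.le, by linarith⟩
      have c := intervalIntegral.integral_mono_interval (μ := volume) (a := M) (b := M + D')
        (c := A0) (d := T) (f := fun t => Sc48.Jf lh lb T t ^ 2) hA0M (by linarith) (by linarith)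
        (Filter.Eventually.of_forall fun _ => sq_nonneg _) (lJ.sq.ii ⟨hA0, AT⟩ mT)
      exact a.trans (c.trans hE)
  have Z2 : e * κ * D' ^ 2 / 2 ≤
      ∫ t in M..S', (σ - b * Gam lh σ - (t - b * Gam lh t)) * |lvr 1 lb t - lvr 1 lh t| := by
    rcases cS with x | ⟨x0, x⟩
    · rw [x, show S' = M by linarith]; simp
    · have a := int_mono (LB_lin T (-(e * κ)) S')
        (((LB.const (σ - b * Gam lh σ)).sub lM).mul ld.abs) M0 MS' S'T fun t a c => by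
          have σ1 := h.σ1
          have g1 := h.gap t ⟨a.le, by linarith⟩
          have g2 := h.grow (.inl a.le) (by linarith : t ≤ σ) h.σT
          have g3 : e * (σ' - t) ≤ e * (σ - t) := mul_le_mul_of_nonneg_left (by linarith) e0.le
          have g4 : e * (σ' - t) ≤ σ - b * Gam lh σ - (t - b * Gam lh t) := by linarith
          have g5 : 0 ≤ e * (σ' - t) := mul_nonneg e0.le (by linarith)
          have := mul_le_mul g4 (g1.trans (le_abs_self _)) κ0.le (g5.trans g4)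
          rw [x]
          linarith
      rw [int_lin] at a
      refine le_of_eq_of_le ?_ a
      rw [hD']; ring
  have lq : LB T fun t => b * c / 4 * (t - S) ^ 2 := .of_cont (by fun_prop)
  have lk : LB T fun t => hb t + lam * e * (t - S) - (t - b * Gam lh t) +
      (e / 4 * (t - S) + b * c / 4 * (t - S) ^ 2) := (lh'.sub lM).add ((LB_lin T _ S).add lq)
  have St' : (∫ t in S..Q, max (hb t + lam * e * (t - S) - (t - b * Gam lh t) +
      (e / 4 * (t - S) + b * c / 4 * (t - S) ^ 2)) 0 * |lvr 1 lb t - lvr 1 lh t|) / b ≤ N := by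
    have St := static_pt (e := e / 4) (c := b * c / 4) (K := fun t => hb t - (σ - b * Gam lh σ))
      ld lk S0 SQ QT (by positivity) (by positivity) n.M0 n.τp n.τ1 n.τ2 (fun t _ _ => h.d1 t)
      fun t a c => ⟨by
        have g1 := gw t a.le (c.le.trans QT)
        have g2 : 0 ≤ e * (t - S) := mul_nonneg e0.le (by linarith)
        linarith [mul_le_mul_of_nonneg_right (h.lamκ.trans (by linarith : κ / 32 ≤ 1 / 2)) g2],
        by rw [(h.dtop (σS.trans a.le)).2]; exact st t a (tP t a.le c)⟩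
    refine le_trans (div_le_div_of_nonneg_right (St.trans ?_) b0.le) n.h8
    have q0 := sub_nonneg.2 SQ
    have τp := n.τp
    refine mul_le_mul_of_nonneg_left (Real.log_le_log (by positivity) ?_) (by linarith [n.M0])
    gcongr
    linarith
  have lW : LB T fun t => (t - S) * |lvr 1 lb t - lvr 1 lh t| := by
    simpa using (LB_lin T 1 S).mul ld.abs
  have lW2 : LB T fun t => (t - S) ^ 2 * |lvr 1 lb t - lvr 1 lh t| :=
    (LB.of_cont (by fun_prop)).mul ld.abs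
  have l3 := (LB_max (lM.sub lh')).mul ld.abs
  have lk' := (LB_max lk).mul ld.abs
  have St1 := int_mono ((LB_max (lh'.sub lM)).mul ld.abs) lk' S0 SQ QT fun t a _ =>
    mul_le_mul_of_nonneg_right (max_le_max_right 0 (le_add_of_nonneg_right
      (add_nonneg (mul_nonneg (by positivity) (by linarith)) (by positivity)))) (abs_nonneg _)
  have l4 := (LB.const (e / 4)).mul lW
  have l5 := (LB.const (b * c / 4)).mul lW2
  have Z4 := int_mono (l4.add l5) (l3.add lk') S0 SQ QT fun t _ _ => by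
    rw [← add_mul, ← mul_assoc, ← mul_assoc (b * c / 4), ← add_mul]
    refine mul_le_mul_of_nonneg_right ?_ (abs_nonneg _)
    linarith [le_max_left (t - b * Gam lh t - (hb t + lam * e * (t - S))) 0, le_max_left
      (hb t + lam * e * (t - S) - (t - b * Gam lh t) +
        (e / 4 * (t - S) + b * c / 4 * (t - S) ^ 2)) 0]
  rw [intervalIntegral.integral_add (l3.ii mS mQ) (lk'.ii mS mQ),
    intervalIntegral.integral_add (l4.ii mS mQ) (l5.ii mS mQ),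
    intervalIntegral.integral_const_mul, intervalIntegral.integral_const_mul] at Z4
  have W20 : 0 ≤ ∫ t in S..Q, (t - S) ^ 2 * |lvr 1 lb t - lvr 1 lh t| :=
    int_nn SQ fun _ => by positivity
  have Z30 : 0 ≤ ∫ t in S..Q, max (t - b * Gam lh t - (hb t + lam * e * (t - S))) 0 *
      |lvr 1 lb t - lvr 1 lh t| := int_nn SQ fun _ => by positivity
  refine ⟨H', r1', r2'', ω', β', ξ', _, R', fun t x => ?_, c4, c6, ?_⟩
  · obtain ⟨x1, x2, x3, x4⟩ := c1 t (x.trans_le MS)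
    obtain ⟨y1, y2, y3, y4⟩ := d1 t x
    exact ⟨x1.trans y1, x2.trans y2, x3.trans y3, x4.trans y4⟩
  rw [c5]
  generalize (∫ t in M..S', (σ - b * Gam lh σ - (t - b * Gam lh t)) *
    |lvr 1 lb t - lvr 1 lh t|) = z2 at *
  generalize (∫ t in S..Q, max (t - b * Gam lh t - (hb t + lam * e * (t - S))) 0 *
    |lvr 1 lb t - lvr 1 lh t|) = z3 at *
  generalize (∫ t in S..Q, max (hb t + lam * e * (t - S) - (t - b * Gam lh t) +
    (e / 4 * (t - S) + b * c / 4 * (t - S) ^ 2)) 0 * |lvr 1 lb t - lvr 1 lh t|) = s2 at *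
  generalize (∫ t in S..Q, (t - S) ^ 2 * |lvr 1 lb t - lvr 1 lh t|) = W2 at *
  generalize (∫ t in S..Q, max (hb t + lam * e * (t - S) - (t - b * Gam lh t)) 0 *
    |lvr 1 lb t - lvr 1 lh t|) = s1 at *
  generalize (∫ t in S..Q, (t - S) * |lvr 1 lb t - lvr 1 lh t|) = W at *
  generalize (∫ t in S..Q, |lvr 1 lb t - lvr 1 lh t|) = V at *
  generalize (∫ t in M..S', |lvr 1 lb t - lvr 1 lh t|) = i2 at *
  generalize (∫ t in S'..S, |lvr 1 lb t - lvr 1 lh t|) = i5 at *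
  generalize (∫ t in Q..T, |lvr 1 lb t - lvr 1 lh t|) = i4 at *
  have Z3 : e / 4 * W ≤ z3 + s2 := by
    linarith [mul_nonneg (show 0 ≤ b * c / 4 by positivity) W20]
  obtain ⟨f1, f2⟩ := finY (x := ∫ t in A..M, ξ t) (D := D) n hC b0 T0 L0 η0 β0 g0 l0 h.lamκ
    e0 e10 κ0 κ1 u0 E0 D0' y0 hy3 ι0 ι2 D3 V0 V1 bt I2 I2' I4 I4' Z2 Z3 Z30 St1 St' γ0 D0
    (by rw [hD, hD']; linarith) I5 I5'
  refine ⟨f1, f2, ?_⟩
  have f3 := div_le_div_of_nonneg_right (add_le_add Z2 Z4) b0.le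
  rw [show (e * κ * D' ^ 2 / 2 + (e / 4 * W + b * c / 4 * W2)) / b =
    e * κ * D' ^ 2 / (2 * b) + e / (4 * b) * W + c / 4 * W2 by field_simp; ring,
    add_div, add_div] at f3
  linarith


end PlZ

end

end Crest.Agent.T156.Pr.Reg48
end

-- ▼ part T156/Lag_8

/-!
# Row 156, text (L) (helper8): continuations, segments, the middle zone with a general lower end
-/

set_option autoImplicit false

noncomputable section

namespace Crest.Agent.T156.Cut8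

open MeasureTheory Set intervalIntegral
open Crest.Agent.T156.Pr.Reg48 (LB_ite int_ite res_ext)

variable {T : ℝ} {dz ρ : ℝ → ℝ}

/-- residual data on `[A, s]` extended to `[A, B]`, unchanged below `s` -/
def ExtB (T : ℝ) (dz ρ H r1 r2 ω β ξ : ℝ → ℝ) (A s B X Z : ℝ) : Prop :=
  ∃ H' r1' r2' ω' β' ξ' : ℝ → ℝ, Res T dz ρ H' r1' r2' ω' β' ξ' A B ∧
    (∀ t, t < s → H' t = H t ∧ r1' t = r1 t ∧ r2' t = r2 t ∧ β' t = β t) ∧
    ∫ t in A..B, ω' t ^ 2 ≤ ∫ t in A..s, ω t ^ 2 ∧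
    ∫ t in A..B, ξ' t ≤ (∫ t in A..s, ξ t) + X ∧
    ∫ t in A..B, H' t * dz t = (∫ t in A..s, H t * dz t) + Z

theorem ExtB.ext {H r1 r2 ω β ξ : ℝ → ℝ} {s B X Z : ℝ} (h : ExtB T dz ρ H r1 r2 ω β ξ 0 s B X Z)
    (hs : 0 < s) : Ext T dz ρ H r2 ω β ξ s B X Z := by
  obtain ⟨_, _, _, _, _, _, R, a1, a3, a4, a5⟩ := h
  exact ⟨_, _, _, _, _, _, R, (a1 0 hs).2.2.1, (a1 0 hs).2.2.2, a3, a4, a5⟩

theorem ExtB.extA {H r1 r2 ω β ξ : ℝ → ℝ} {A s B X Z : ℝ}
    (h : ExtB T dz ρ H r1 r2 ω β ξ A s B X Z) : ExtA T dz ρ H r1 ω β ξ A s B X Z := by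
  obtain ⟨_, _, _, _, _, _, R, a1, a3, a4, a5⟩ := h
  exact ⟨_, _, _, _, _, _, R, fun t ht => ⟨(a1 t ht).1, (a1 t ht).2.1, (a1 t ht).2.2.2⟩, a3, a4, a5⟩

/-- **continuation above `s`**: cost `τ + Z / 4`, gain `Z` -/
def Cont (T : ℝ) (dz ρ : ℝ → ℝ) (c0 βs A s τ : ℝ) (Q : ℝ → Prop) : Prop :=
  ∀ H r1 r2 ω β ξ : ℝ → ℝ, Res T dz ρ H r1 r2 ω β ξ A s → r2 s = c0 → β s = βs →
    ∃ Z, 0 ≤ Z ∧ Q Z ∧ ExtB T dz ρ H r1 r2 ω β ξ A s T (τ + Z / 4) Z

theorem Cont.mono {c0 βs A s τ τ' : ℝ} {Q Q' : ℝ → Prop} (h : Cont T dz ρ c0 βs A s τ Q)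
    (hτ : τ ≤ τ') (hQ : ∀ Z, 0 ≤ Z → Q Z → Q' Z) : Cont T dz ρ c0 βs A s τ' Q' := by
  intro H r1 r2 ω β ξ R e1 e2
  obtain ⟨Z, z0, q, _, _, _, _, _, _, R', a1, a3, a4, a5⟩ := h H r1 r2 ω β ξ R e1 e2
  exact ⟨Z, z0, hQ Z z0 q, _, _, _, _, _, _, R', a1, a3, by linarith, a5⟩

/-- the field `ext` of `Fr.topR` -/
theorem Cont.top {c0 βs s τ : ℝ} {Q : ℝ → Prop} (h : Cont T dz ρ c0 βs 0 s τ Q) (hs : 0 < s)
    (H r1 r2 ω β ξ : ℝ → ℝ) (R : Res T dz ρ H r1 r2 ω β ξ 0 s) (e1 : r2 s = c0) (e2 : β s = βs) :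
    ∃ X Z, (0 ≤ Z ∧ Q Z) ∧ Ext T dz ρ H r2 ω β ξ s T X Z ∧ X ≤ τ + Z / 4 := by
  obtain ⟨Z, z0, q, x⟩ := h H r1 r2 ω β ξ R e1 e2
  exact ⟨_, Z, ⟨z0, q⟩, x.ext hs, le_rfl⟩

/-- a segment `[s, M)` with the constant slow part `c0` -/
def Seg (T : ℝ) (dz ρ : ℝ → ℝ) (c0 βs s M X Z : ℝ) : Prop :=
  ∃ H k : ℝ → ℝ, LB T H ∧ LB T k ∧ (∀ t, s ≤ t → t < M → 0 ≤ H t * dz t ∧ 0 ≤ k t ∧
    (ρ t + H t - c0) * dz t + βs * |dz t| ≤ k t) ∧ ∫ t in s..M, k t ≤ X ∧
    ∫ t in s..M, H t * dz t = Z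


theorem Seg.mono {c0 βs s M X X' Z : ℝ} (h : Seg T dz ρ c0 βs s M X Z) (hX : X ≤ X') :
    Seg T dz ρ c0 βs s M X' Z := by
  obtain ⟨H, k, a1, a2, a3, a4, a5⟩ := h
  exact ⟨H, k, a1, a2, a3, a4.trans hX, a5⟩

theorem Seg.nn {c0 βs s M X Z : ℝ} (h : Seg T dz ρ c0 βs s M X Z) (hM : s ≤ M) : 0 ≤ Z := by
  obtain ⟨H, k, -, -, a3, -, a5⟩ := h
  rw [← a5, integral_of_le hM, integral_Ioc_eq_integral_Ioo]
  exact setIntegral_nonneg measurableSet_Ioo fun t ht => (a3 t ht.1.le ht.2).1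

theorem Seg.trans {c0 βs s y M X Z X' Z' : ℝ} (ld : LB T dz) (hs : 0 ≤ s) (h1 : s ≤ y) (h2 : y ≤ M)
    (hT : M ≤ T) (h : Seg T dz ρ c0 βs s y X Z) (h' : Seg T dz ρ c0 βs y M X' Z') :
    Seg T dz ρ c0 βs s M (X + X') (Z + Z') := by
  obtain ⟨H, k, a1, a2, a3, a4, a5⟩ := h
  obtain ⟨H', k', b1, b2, b3, b4, b5⟩ := h'
  refine ⟨_, _, LB_ite (M := y) a1 b1, LB_ite (M := y) a2 b2, fun t t0 t1 => ?_, ?_, ?_⟩
  · split_ifs with c
    · exact a3 t t0 c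
    · exact b3 t (not_lt.1 c) t1
  · rw [int_ite a2 b2 hs h1 h2 hT]; linarith
  · rw [← a5, ← b5, ← int_ite (a1.mul ld) (b1.mul ld) hs h1 h2 hT]
    refine integral_congr fun t _ => ?_
    split_ifs <;> rfl

/-- **a segment in front of a continuation** -/
theorem Cont.seg {c0 βs A s M X Z1 τ τ' : ℝ} {Q : ℝ → Prop} (ld : LB T dz) (hA : 0 ≤ A) (hs : A ≤ s)
    (hM : s ≤ M) (hT : M ≤ T) (β0 : 0 ≤ βs) (h : Seg T dz ρ c0 βs s M X Z1) (hX : X ≤ τ' + Z1 / 4)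
    (h' : Cont T dz ρ c0 βs A M τ Q) :
    Cont T dz ρ c0 βs A s (τ' + τ) fun Z => ∃ Z2, Z = Z1 + Z2 ∧ 0 ≤ Z2 ∧ Q Z2 := by
  intro H r1 r2 ω β ξ R e1 e2
  have z1 := h.nn hM
  obtain ⟨H', k, a1, a2, a3, a4, a5⟩ := h
  have R1 := res_ext R hA hT (e2 ▸ β0) a1 a2 (fun t a b => (a3 t a b).1)
    (fun t a b => (a3 t a b).2.1) fun t a b => by rw [e1, e2]; exact (a3 t a b).2.2
  obtain ⟨Z, z0, q, _, _, _, _, _, _, R', b1, b3, b4, b5⟩ := h' _ _ _ _ _ _ R1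
    ((if_neg (not_lt.2 hM)).trans e1) ((if_neg (not_lt.2 hM)).trans e2)
  refine ⟨Z1 + Z, by linarith, ⟨Z, rfl, z0, q⟩, _, _, _, _, _, _, R', fun t ht => ?_, ?_, ?_, ?_⟩
  · obtain ⟨c1, c2, c3, c4⟩ := b1 t (ht.trans_le hM)
    exact ⟨c1.trans (if_pos ht), c2.trans (if_pos ht), c3.trans (if_pos ht), c4.trans (if_pos ht)⟩
  · refine b3.trans (le_of_eq ?_)
    have := int_ite (M := s) R.lω.sq (LB.const 0) hA hs hM hT
    rw [intervalIntegral.integral_zero, add_zero] at this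
    rw [← this]
    refine integral_congr fun t _ => ?_
    simp only
    split_ifs <;> simp
  · rw [int_ite R.lξ a2 hA hs hM hT] at b4
    linarith
  · rw [b5, ← add_assoc, ← a5, ← int_ite (R.lH.mul ld) (a1.mul ld) hA hs hM hT]
    congr 1
    refine integral_congr fun t _ => ?_
    simp only
    split_ifs <;> rfl

end Crest.Agent.T156.Cut8

namespace Crest.Agent.T156.Pr.Lag8

open MeasureTheory Set
open Crest.Agent.R164.GC Crest.Agent.R339.B Crest.Agent.R339.Var Crest.Agent.T157.Pf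
open Crest.Agent.T156.Cut8 Crest.Agent.T156.Pr.Reg48 Crest.Agent.T156.Pr.Mid8
open Crest.Agent.T156.Pr.Mid36
open Crest.Agent.T156.Pr.Mid8.Mid (mk' ff)

variable {lb lh : List (ℝ × ℝ)} {T b : ℝ}

/-- the middle zone `[s, M)`; the upper bound is needed only where `dz ≥ 0`; `x` is a node error
with the price `Kc log` -/
structure Md3 (lb lh : List (ℝ × ℝ))
    (T b σ' σ γ s M c0 η Rs w d1 e e1 C1 δ G0 Gm Gp mM Kc τ0 : ℝ) : Prop where
  okb : Ok lb
  okh : Ok lh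
  tb : TT lb = T
  th : TT lh = T
  b0 : 0 < b
  s0 : 0 < s
  sσ : s ≤ σ
  σσ : σ' ≤ σ
  spr : σ - σ' ≤ γ
  sM : s ≤ M
  σT : σ ≤ T
  MT : M ≤ T
  nn : 0 ≤ η ∧ 0 ≤ Rs ∧ 0 ≤ d1 ∧ 0 < e ∧ 0 ≤ e1 ∧ 0 ≤ C1 ∧ 0 ≤ δ ∧ 0 < G0 ∧ 0 < Gm ∧ 0 ≤ Gp
  w0 : 0 ≤ w
  K0 : 0 ≤ Kc
  τp : 0 < τ0
  top : ∀ t, σ ≤ t → lvr 1 lh t = 1
  pos : ∀ t, s ≤ t → t < σ' - w → 0 ≤ lvr 1 lb t - lvr 1 lh t
  dlo : ∀ t ∈ Ico s σ', -d1 ≤ lvr 1 lb t - lvr 1 lh t
  rise : ∀ p q, s ≤ p → p ≤ q → q ≤ M → p - b * Gam lb p - Rs ≤ q - b * Gam lb q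
  elo : ∀ r, s ≤ r → r < T → e ≤ 1 - b * GG lh r
  eup : ∀ r ∈ Ico s σ, 1 - b * GG lh r ≤ e1
  atM : -η ≤ Gam lb M - (M - mM) / b - c0 ∧ mM ≤ σ - b * Gam lh σ + Gp
  net : ∀ t, s ≤ t → t < σ → t < M → 0 ≤ lvr 1 lb t - lvr 1 lh t → ∃ p mp x : ℝ, s ≤ p ∧ p ≤ t ∧
    Gam lb p - (p - mp) / b - c0 ≤ η + x ∧
    x * (lvr 1 lb t - lvr 1 lh t) * (σ - t + τ0) ≤ Kc ∧
    ((σ - b * Gam lh σ - mp) * √(lvr 1 lb t - lvr 1 lh t) ≤ G0 ∨
      (σ - b * Gam lh σ - mp ≤ Gm ∧ lvr 1 lb t - lvr 1 lh t ≤ C1 * (σ - t) + δ))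

variable {σ' σ γ s M c0 η Rs w d1 e e1 C1 δ G0 Gm Gp mM Kc τ0 : ℝ}

namespace Md3

theorem dlo' (h : Md3 lb lh T b σ' σ γ s M c0 η Rs w d1 e e1 C1 δ G0 Gm Gp mM Kc τ0) {t : ℝ}
    (ht : s ≤ t) : -d2 σ' w d1 t ≤ lvr 1 lb t - lvr 1 lh t := by
  unfold d2
  split_ifs with c c' c'
  · linarith [h.pos t ht c]
  · linarith [h.pos t ht c]
  · linarith [h.dlo t ⟨ht, c'⟩]
  · linarith [Sc48.lvr_pos h.okb.1 t, (Sc48.lvr_mem h.okh.1 t).2, h.nn.2.2.1]

theorem coer (h : Md3 lb lh T b σ' σ γ s M c0 η Rs w d1 e e1 C1 δ G0 Gm Gp mM Kc τ0) {t : ℝ}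
    (h1 : s ≤ t) (h2 : t < M) :
    e / b * (|t - σ| * ff lb lh σ t) ≤ mk' lb lh b σ t * (lvr 1 lb t - lvr 1 lh t) := by
  have b0 := h.b0
  have s0 := h.s0
  unfold mk' ff
  split_ifs with c c'
  · rw [max_eq_right c'.le]; simp
  · have a := Mh_ge h.okh b0 (p := t) (s := σ) (e := e) (by linarith) c.le (h.th ▸ h.σT)
      fun r hr => h.elo r (h1.trans hr.1) (hr.2.trans_le h.σT)
    rw [max_eq_left (not_lt.mp c'), mul_one, ← mul_assoc, abs_of_neg (sub_neg.mpr c)]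
    refine mul_le_mul_of_nonneg_right ?_ (not_lt.mp c')
    rw [div_mul_eq_mul_div]
    exact div_le_div_of_nonneg_right (by linarith) b0.le
  · have c1 := not_lt.mp c
    have a := Mh_ge h.okh b0 (p := σ) (s := t) (e := e) (by linarith [h.sσ]) c1
      (h.th ▸ (h2.le.trans h.MT)) fun r hr => h.elo r (h.sσ.trans hr.1)
        (hr.2.trans (h2.trans_le h.MT))
    have z : lvr 1 lb t - lvr 1 lh t ≤ 0 := by
      rw [h.top t c1]; linarith [(Sc48.lvr_mem h.okb.1 t).2]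
    rw [abs_of_nonpos z, abs_of_nonneg (sub_nonneg.mpr c1), mul_one, ← mul_assoc,
      div_mul_eq_mul_div, div_mul_eq_mul_div, div_mul_eq_mul_div]
    refine div_le_div_of_nonneg_right ?_ b0.le
    nlinarith

theorem pair (h : Md3 lb lh T b σ' σ γ s M c0 η Rs w d1 e e1 C1 δ G0 Gm Gp mM Kc τ0) {t : ℝ}
    (h1 : s ≤ t) (h2 : t < M) :
    (Gam lb t - Gam lh t + mk' lb lh b σ t - c0) * (lvr 1 lb t - lvr 1 lh t) ≤
      (η + (Gp + Rs) / b) * |lvr 1 lb t - lvr 1 lh t| +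
      (if t < σ then (η + (Gp + Rs + e1 * (w + γ)) / b) * d2 σ' w d1 t +
        (e / 8 * ((σ - t) * max (lvr 1 lb t - lvr 1 lh t) 0) +
          (2 * G0 ^ 2 * (1 / (e / 8 * (σ - t) + G0)) +
            16 * C1 * Gm ^ 3 / e * (1 / (e / 8 * (σ - t) + Gm)) + Gm * δ)) / b +
          Kc * (1 / (1 * (σ - t) + τ0)) else 0) := by
  obtain ⟨η0, g0, d0, e0, e10, C0, δ0, G00, Gm0, Gp0⟩ := h.nn
  have b0 := h.b0
  have s0 := h.s0
  have w0 := h.w0
  have K0 := h.K0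
  have τp := h.τp
  have γ0 : 0 ≤ γ := by linarith [h.σσ, h.spr]
  have hT := h2.le.trans h.MT
  have inc : ∀ p q, s ≤ p → p ≤ q → q ≤ M →
      Gam lb q - q / b ≤ Gam lb p - p / b + Rs / b := fun p q a1 a2 a3 => by
    have a := div_le_div_of_nonneg_right (h.rise p q a1 a2 a3) b0.le
    have e1 : ∀ x : ℝ, b * x / b = x := fun x => by field_simp
    simp only [sub_div, e1] at a
    linarith
  have p1 : 0 ≤ η + (Gp + Rs + e1 * (w + γ)) / b := by positivity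
  have eb : ∀ x : ℝ, b * x / b = x := fun x => by field_simp
  unfold mk'
  split_ifs with c c'
  · have τ0' : 0 ≤ σ - t := by linarith
    have tw : σ' - w ≤ t := not_lt.mp fun q => by linarith [h.pos t h1 q]
    have m := Mh_le h.okh b0 (p := t) (s := σ) (e := e1) (by linarith) c.le (h.th ▸ h.σT)
      fun r hr => h.eup r ⟨h1.trans hr.1, hr.2⟩
    have m2 := mul_le_mul_of_nonneg_left (show σ - t ≤ w + γ by linarith [h.spr]) e10
    obtain ⟨a1, a2⟩ := h.atM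
    have m3 := div_le_div_of_nonneg_right
      (show mM ≤ t - b * Gam lh t + e1 * (w + γ) + Gp by linarith) b0.le
    have lo : -(η + (Gp + Rs + e1 * (w + γ)) / b) ≤ Gam lb t - Gam lh t - c0 := by
      have i := inc t M h1 h2.le le_rfl
      simp only [sub_div, add_div, eb] at *
      linarith
    have q1 := mul_le_mul_of_nonneg_right lo (neg_nonneg.mpr c'.le)
    have q2 := mul_le_mul_of_nonneg_left (h.dlo' h1) p1
    have q3 : 0 ≤ (η + (Gp + Rs) / b) * |lvr 1 lb t - lvr 1 lh t| := by positivity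
    have q4 : 0 ≤ (e / 8 * ((σ - t) * max (lvr 1 lb t - lvr 1 lh t) 0) +
        (2 * G0 ^ 2 * (1 / (e / 8 * (σ - t) + G0)) +
          16 * C1 * Gm ^ 3 / e * (1 / (e / 8 * (σ - t) + Gm)) + Gm * δ)) / b := by positivity
    have q5 : 0 ≤ Kc * (1 / (1 * (σ - t) + τ0)) := by positivity
    linarith
  · have z := not_lt.mp c'
    have τ0' : 0 ≤ σ - t := by linarith
    obtain ⟨p, mp, x, a1, a2, a3, a4, a5⟩ := h.net t h1 c h2 z
    have d1' : lvr 1 lb t - lvr 1 lh t ≤ 1 := by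
      linarith [(Sc48.lvr_mem h.okb.1 t).2, Sc48.lvr_pos h.okh.1 t]
    have st : (σ - b * Gam lh σ - mp) * (lvr 1 lb t - lvr 1 lh t) ≤
        e / 8 * ((σ - t) * (lvr 1 lb t - lvr 1 lh t)) +
          (2 * G0 ^ 2 * (1 / (e / 8 * (σ - t) + G0)) +
            16 * C1 * Gm ^ 3 / e * (1 / (e / 8 * (σ - t) + Gm)) + Gm * δ) := by
      rcases a5 with a5 | ⟨a5, a6⟩
      · have := stat_pt (C1 := 0) (δ := 0) (Gm := max (σ - b * Gam lh σ - mp) 1) e0 G00
          (lt_max_of_lt_right one_pos) le_rfl le_rfl τ0' z d1' z (by linarith) a5 (le_max_left _ _)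
        have p2 : 0 ≤ 16 * C1 * Gm ^ 3 / e * (1 / (e / 8 * (σ - t) + Gm)) + Gm * δ := by positivity
        simp only [mul_zero, zero_mul, zero_div, add_zero] at this
        linarith
      · exact stat_pt (u := 0) e0 G00 Gm0 C0 δ0 τ0' le_rfl zero_le_one z (by linarith)
          (by simpa using G00.le) a5
    have st' := div_le_div_of_nonneg_right st b0.le
    have up : Gam lb t - Gam lh t + (σ - b * Gam lh σ - (t - b * Gam lh t)) / b * 1 - c0 ≤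
        η + (Gp + Rs) / b + (σ - b * Gam lh σ - mp) / b + x := by
      have i := inc p t a1 a2 h2.le
      have : 0 ≤ Gp / b := by positivity
      simp only [sub_div, add_div, mul_one, eb] at *
      linarith
    have q1 := mul_le_mul_of_nonneg_right up z
    have q2 := mul_nonneg p1 (d2_nn (σ' := σ') (w := w) d0 t)
    have q3 : x * (lvr 1 lb t - lvr 1 lh t) ≤ Kc * (1 / (1 * (σ - t) + τ0)) := by
      rw [mul_one_div, le_div_iff₀ (by positivity), one_mul]; exact a4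
    rw [abs_of_nonneg z, max_eq_left z]
    rw [mul_div_right_comm] at st'
    linarith
  · have c1 := not_lt.mp c
    have z : lvr 1 lb t - lvr 1 lh t ≤ 0 := by
      rw [h.top t c1]; linarith [(Sc48.lvr_mem h.okb.1 t).2]
    obtain ⟨a1, a2⟩ := h.atM
    have lo : -(η + (Gp + Rs) / b) ≤
        Gam lb t - Gam lh t + (σ - b * Gam lh σ - (t - b * Gam lh t)) / b * 1 - c0 := by
      have i := inc t M h1 h2.le le_rfl
      have := div_le_div_of_nonneg_right a2 b0.le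
      simp only [sub_div, add_div, mul_one, eb] at *
      linarith
    have q1 := mul_le_mul_of_nonneg_right lo (neg_nonneg.mpr z)
    rw [abs_of_nonpos z]
    linarith

/-- the error of the zone -/
def Er (T b γ η Rs w d1 e e1 C1 δ G0 Gm Gp Kc τ0 a1 a2 N : ℝ) : ℝ :=
  N + 32 * a2 ^ 2 * b / e +
    (2 * a1 + a2 + (η + (Gp + Rs + e1 * (w + γ)) / b)) * (d1 * (w + γ) + γ) +
    St T b e C1 δ G0 Gm + Kc * Real.log (1 + T / τ0)

/-- **the middle zone as a segment** -/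
theorem seg (h : Md3 lb lh T b σ' σ γ s M c0 η Rs w d1 e e1 C1 δ G0 Gm Gp mM Kc τ0) {c C' : ℝ}
    (F : Fr T c C' (Spl27.okT T) (lvr 1) Gam GG) {βs a1 a2 θ N : ℝ} (β0 : 0 ≤ βs) (h1 : 0 ≤ a1)
    (h2 : 0 < a2) (hθ : 0 < θ) (hN : 0 ≤ N) (ha : η + (Gp + Rs) / b + βs ≤ a1 + a2)
    (h3 : (4 * a1) ^ 3 ≤ θ * N ^ 2) {A0 E : ℝ} (hA0 : 0 ≤ A0) (hA : A0 ≤ s)
    (hE : ∫ t in A0..T, Jf T (lvr 1 lh) (lvr 1 lb) t ^ 2 ≤ E) :
    ∃ Z, e / b * (∫ t in s..M, |t - σ| * ff lb lh σ t) ≤ Z ∧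
      Seg T (fun t => lvr 1 lb t - lvr 1 lh t) (fun t => Gam lb t - Gam lh t) c0 βs s M
        (8 * θ * E + 3 / 16 * (e / b * ∫ t in s..M, |t - σ| * ff lb lh σ t) +
          Er T b γ η Rs w d1 e e1 C1 δ G0 Gm Gp Kc τ0 a1 a2 N) Z := by
  obtain ⟨η0, g0, d0, e0, e10, C0, δ0, G00, Gm0, Gp0⟩ := h.nn
  have b0 := h.b0
  have s0 := h.s0
  have sM := h.sM
  have MT := h.MT
  have sσ := h.sσ
  have σT := h.σT
  have w0 := h.w0
  have K0 := h.K0
  have τp := h.τp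
  have γ0 : 0 ≤ γ := by linarith [h.σσ, h.spr]
  have ob : Spl27.okT T lb := ⟨h.okb, h.tb⟩
  have oh : Spl27.okT T lh := ⟨h.okh, h.th⟩
  have ms' : s ∈ Icc 0 T := ⟨s0.le, by linarith⟩
  have mM' : M ∈ Icc 0 T := ⟨by linarith, MT⟩
  have ld : LB T fun t => lvr 1 lb t - lvr 1 lh t := (F.lbz ob).sub (F.lbz oh)
  have lf : LB T (ff lb lh σ) := LB_ite (LB_max ld) ld.abs
  have f0 : ∀ t, 0 ≤ ff lb lh σ t := fun t => by unfold ff; split_ifs <;> positivity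
  have f1 : ∀ t, ff lb lh σ t ≤ 1 := fun t => by
    have := F.dz_le ob oh t
    unfold ff
    split_ifs
    · exact max_le ((le_abs_self _).trans this) zero_le_one
    · exact this
  have lw : LB T fun t => |t - σ| * ff lb lh σ t :=
    (LB.of_cont (f := fun t => |t - σ|) (by fun_prop)).mul lf
  have lH : LB T (mk' lb lh b σ) := by
    refine (((LB.const _).sub ((LB.of_cont continuousOn_id).sub
      ((LB.const b).mul (F.lbΓ oh (by linarith))))).div b).mul (LB_ite ?_ (LB.const 1))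
    exact .of_meas (Measurable.ite (measurableSet_lt ((Sc48.lvr_meas lb).sub (Sc48.lvr_meas lh))
      measurable_const) measurable_const measurable_const) (K := 1) fun t _ => by
        split_ifs <;> simp
  set B2 := η + (Gp + Rs + e1 * (w + γ)) / b with hB2
  have B20 : 0 ≤ B2 := by positivity
  have α0 : 0 < e / 8 := by positivity
  have k1 := (LB.const (T := T) (2 * G0 ^ 2)).mul (LB_ker σ α0 G00)
  have k2 := (LB.const (T := T) (16 * C1 * Gm ^ 3 / e)).mul (LB_ker σ α0 Gm0)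
  have k3 := (LB.const (T := T) Kc).mul (LB_ker σ one_pos τp)
  have lr := (((LB.const B2).mul (LB_d2 σ' w d1)).add
    (((k1.add k2).add (LB.const (Gm * δ))).div b)).add k3
  have lk := ((LB.const (e / b / 8)).mul lw).add (LB_ite (M := σ) lr (LB.const 0))
  have la := (LB.const (η + (Gp + Rs) / b + βs)).mul ld.abs
  have z1 := int_mono ((LB.const (e / b)).mul lw) (lH.mul ld) s0.le sM MT
    fun t t0 t1 => h.coer t0.le t1
  rw [intervalIntegral.integral_const_mul] at z1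
  have W0 : 0 ≤ ∫ t in s..M, |t - σ| * ff lb lh σ t :=
    intervalIntegral.integral_nonneg sM fun t _ => by have := f0 t; positivity
  refine ⟨_, z1, _, _, lH, la.add lk, fun t t0 t1 =>
    ⟨le_trans (by have := f0 t; positivity) (h.coer t0 t1),
      add_nonneg (by positivity) (add_nonneg (by have := f0 t; positivity)
        (by have := d2_nn (σ' := σ') (w := w) d0 t; unfold ker; split_ifs <;> positivity)), ?_⟩,
    ?_, rfl⟩
  · have p := h.pair t0 t1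
    have q : (if t < σ then (η + (Gp + Rs + e1 * (w + γ)) / b) * d2 σ' w d1 t +
        (e / 8 * ((σ - t) * max (lvr 1 lb t - lvr 1 lh t) 0) +
          (2 * G0 ^ 2 * (1 / (e / 8 * (σ - t) + G0)) +
            16 * C1 * Gm ^ 3 / e * (1 / (e / 8 * (σ - t) + Gm)) + Gm * δ)) / b +
          Kc * (1 / (1 * (σ - t) + τ0)) else 0) ≤
        e / b / 8 * (|t - σ| * ff lb lh σ t) + if t < σ then B2 * d2 σ' w d1 t +
          (2 * G0 ^ 2 * ker (e / 8) G0 σ t + 16 * C1 * Gm ^ 3 / e * ker (e / 8) Gm σ t + Gm * δ) / b +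
          Kc * ker 1 τ0 σ t else 0 := by
      unfold ff ker
      split_ifs with c
      · rw [max_eq_left (sub_nonneg.mpr c.le), abs_of_neg (sub_neg.mpr c)]
        exact le_of_eq (by ring)
      · positivity
    simp only
    linarith
  have m0 : s ≤ min σ M := le_min sσ sM
  have m1 : min σ M ≤ σ := min_le_left _ _
  have m2 : min σ M ≤ M := min_le_right _ _
  have mm : min σ M ∈ Icc 0 T := ⟨by linarith, by linarith⟩
  have i1 := mul_le_mul_of_nonneg_left (int_ker' s0.le m0 m1 σT α0 G00)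
    (show 0 ≤ 2 * G0 ^ 2 by positivity)
  have i2 := mul_le_mul_of_nonneg_left (int_ker' s0.le m0 m1 σT α0 Gm0)
    (show 0 ≤ 16 * C1 * Gm ^ 3 / e by positivity)
  have i6 := mul_le_mul_of_nonneg_left (int_ker' s0.le m0 m1 σT one_pos τp) K0
  rw [one_mul, div_one] at i6
  have i3 := mul_le_mul_of_nonneg_right (show min σ M - s ≤ T by linarith)
    (show 0 ≤ Gm * δ by positivity)
  have i0 := int_d2 (T := T) (σ' := σ') s0.le m0 mm.2 d0 w0 γ0
    (show min σ M - σ' ≤ γ by linarith [h.spr])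
  have i4 := mul_le_mul_of_nonneg_left i0 B20
  have i5 : ((2 * G0 ^ 2 * ∫ t in s..min σ M, ker (e / 8) G0 σ t) +
      (16 * C1 * Gm ^ 3 / e * ∫ t in s..min σ M, ker (e / 8) Gm σ t) +
      (min σ M - s) * (Gm * δ)) / b ≤ St T b e C1 δ G0 Gm := by
    refine div_le_div_of_nonneg_right ?_ b0.le
    have r1 : 2 * G0 ^ 2 * (Real.log (1 + e / 8 * T / G0) / (e / 8)) =
        16 * G0 ^ 2 / e * Real.log (1 + e / 8 * T / G0) := by field_simp; ring
    have r2 : 16 * C1 * Gm ^ 3 / e * (Real.log (1 + e / 8 * T / Gm) / (e / 8)) =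
        128 * C1 * Gm ^ 3 / e ^ 2 * Real.log (1 + e / 8 * T / Gm) := by field_simp; ring
    linarith
  rw [intervalIntegral.integral_add (la.ii ms' mM') (lk.ii ms' mM'),
    intervalIntegral.integral_add (((LB.const _).mul lw).ii ms' mM')
      ((LB_ite lr (LB.const 0)).ii ms' mM'), int_cut lr s0.le sσ sM MT,
    intervalIntegral.integral_add ((((LB.const _).mul (LB_d2 σ' w d1)).add
      (((k1.add k2).add (LB.const _)).div b)).ii ms' mm) (k3.ii ms' mm),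
    intervalIntegral.integral_add (((LB.const _).mul (LB_d2 σ' w d1)).ii ms' mm)
      ((((k1.add k2).add (LB.const _)).div b).ii ms' mm), intervalIntegral.integral_div,
    intervalIntegral.integral_add ((k1.add k2).ii ms' mm) ((LB.const _).ii ms' mm),
    intervalIntegral.integral_add (k1.ii ms' mm) (k2.ii ms' mm), intervalIntegral.integral_const,
    smul_eq_mul]
  simp only [intervalIntegral.integral_const_mul]
  have E0 : 0 ≤ E := (intervalIntegral.integral_nonneg (by linarith) fun _ _ => sq_nonneg _).trans hE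
  obtain ⟨y, y0, y3'⟩ : ∃ y : ℝ, 0 ≤ y ∧ y ^ 3 = 8 * E :=
    ⟨_, by positivity, Real.rpow_inv_natCast_pow (by positivity) three_ne_zero⟩
  have jy : ∀ t, s ≤ t → t ≤ T → |Jf T (lvr 1 lh) (lvr 1 lb) t| ≤ y := fun t t0 t1 =>
    (pow_le_pow_iff_left₀ (abs_nonneg _) y0 three_ne_zero).mp
      ((J_cube_loc ld (F.dz_le ob oh) hA0 (hA.trans t0) t1).trans (by linarith))
  have v1 := area_loc ld (LB_d2 σ' w d1) s0.le m0 mm.2 (d2_nn d0) (jy _ le_rfl ms'.2) (jy _ m0 mm.2)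
    (.inl fun t t0 _ => h.dlo' t0.le)
  have v2 := area_loc ld (LB.const 0) mm.1 m2 MT (fun _ => le_rfl) (jy _ m0 mm.2) (jy _ sM MT)
    (.inr fun t t0 t1 => by
      rw [h.top t (by rcases min_lt_iff.mp t0 with c | c <;> linarith)]
      linarith [(Sc48.lvr_mem h.okb.1 t).2])
  rw [intervalIntegral.integral_zero] at v2
  have v3 := int_split ld.abs ms' mm mM'
  have l5 := LB_ite (M := σ) (LB_d2 (T := T) σ' w d1) (LB.const 0)
  have v5 := int_mono ld.abs (lf.add l5) s0.le sM MT fun t t0 _ => by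
    unfold ff
    split_ifs with c
    · exact abs_le.mpr ⟨by linarith [h.dlo' t0.le, le_max_right (lvr 1 lb t - lvr 1 lh t) 0],
        by linarith [le_max_left (lvr 1 lb t - lvr 1 lh t) 0, d2_nn (σ' := σ') (w := w) d0 t]⟩
    · linarith
  rw [intervalIntegral.integral_add (lf.ii ms' mM') (l5.ii ms' mM'),
    int_cut (LB_d2 σ' w d1) s0.le sσ sM MT] at v5
  have v6 := bath2 lf (σ := σ) (r := 16 * a2 * b / e) s0.le sM MT (by positivity) f0 f1
  have V0 : 0 ≤ ∫ t in s..M, |lvr 1 lb t - lvr 1 lh t| :=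
    intervalIntegral.integral_nonneg sM fun _ _ => abs_nonneg _
  have w0' := mul_le_mul_of_nonneg_right ha V0
  have w1 := mul_le_mul_of_nonneg_left
    (show ∫ t in s..M, |lvr 1 lb t - lvr 1 lh t| ≤ 4 * y + 2 * (d1 * (w + γ) + γ) by linarith) h1
  have w2 := mul_le_mul_of_nonneg_left
    (show ∫ t in s..M, |lvr 1 lb t - lvr 1 lh t| ≤ 2 * (16 * a2 * b / e) +
      (∫ t in s..M, |t - σ| * ff lb lh σ t) / (16 * a2 * b / e) + (d1 * (w + γ) + γ) by linarith) h2.le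
  have w3 := y3 y0 hN hθ h3
  have r3 : ∀ W : ℝ, a2 * (2 * (16 * a2 * b / e) + W / (16 * a2 * b / e) + (d1 * (w + γ) + γ)) =
      32 * a2 ^ 2 * b / e + e / b * W / 16 + a2 * (d1 * (w + γ) + γ) := fun W => by field_simp; ring
  rw [r3] at w2
  rw [y3'] at w3
  unfold Er
  linarith

end Md3

/-- **the plateau zone as a continuation** -/
theorem contB {c P g lam N0 κ u1 : ℝ} {hb : ℝ → ℝ}
    (h : PlZ lb lh T b c σ' σ γ M P c0 η g lam N0 e e1 κ u1 hb)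
    {A A0 C θ E N U Lt βs : ℝ} (hU : ∀ s, U ≤ s → lvr 1 lb s = 1)
    (L0 : 0 ≤ Lt) (hL' : U - max M σ ≤ Lt) (hC : 0 ≤ C) (hL : Spl27.GLip T C) (hA : 0 ≤ A)
    (hAM : A ≤ M) (β0 : 0 ≤ βs) (hA0 : 0 ≤ A0) (hA0M : A0 ≤ M)
    (hE : (∫ t in A0..T, Sc48.Jf lh lb T t ^ 2) + (∫ t in (0:ℝ)..A0, |Sc48.Jf lh lb T t|) ^ 2 ≤ E)
    (hq : ∀ r, σ ≤ r → r < T → Gd lh r ≤ -c)
    (n : PNY T C b c θ (η + βs + (lam * e * γ + (g + e1) * (γ + u1 * Lt)) / b) g e κ
      γ (u1 * Lt) N0 τ0 N) :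
    Cont T (fun t => lvr 1 lb t - lvr 1 lh t) (fun t => Gam lb t - Gam lh t) c0 βs A M
      (8 * θ * E + 10 * N) (QZ lb b c σ' σ M P e κ N) := by
  intro H r1 r2 ω β ξ R hc hβ
  subst hβ
  obtain ⟨H', r1', r2', ω', β', ξ', Z, a1, a2, a5, a6, a7, a8, a9⟩ :=
    h.resY hU L0 hL' hC hL R hA hAM hc β0 hA0 hA0M hE hq n
  exact ⟨Z, a7, ⟨a7, a9⟩, H', r1', r2', ω', β', ξ', a1, a2, a5.le, by linarith, a6⟩

end Crest.Agent.T156.Pr.Lag8

end
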