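import Crest.Agent.T156.ClNo_9
import Crest.Agent.T156.Cvx_25
import Crest.Agent.T156.CeiG_88

/-!
Row 156, ALT, text (L) (helper9): (L0) from the floor of the marks, the thin and thick passes on a
window of good nodes, and the `H⁻¹` size from node sums.
-/

set_option autoImplicit false

noncomputable section

namespace Crest.Agent.T156.Zb9

open MeasureTheory Set Real
open Crest.Agent.R164.GC Crest.Agent.R339.B Crest.Agent.R339.Var Crest.Agent.T157.Pf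
open Crest.Agent.T156.Pp.Area50

/-- a time where `M + g t` leaves its starting level upwards -/
theorem exists_up {l : List (ℝ × ℝ)} (h : Pr.Ok l) {b g p q : ℝ} (hp : 0 ≤ p) (hpq : p ≤ q)
    (hq : q ≤ TT l) (hg : 0 ≤ g) (H : -(g * (q - p)) < Rig.Mf b l q - Rig.Mf b l p) :
    ∃ t ∈ Ico p q, b * Pp.Ode3.Gp l t ≤ 1 + g ∧ Rig.Mf b l t ≤ Rig.Mf b l p := by
  by_contra hn
  have ap := L0.ap_of_ok h
  have c : ContinuousOn (fun t => t - b * Pp.Ode3.Gam l t + g * t) (Icc p q) :=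
    (continuousOn_id.sub (continuousOn_const.mul
      ((Pp.Ode3.Gam_cont ap).mono (Icc_subset_Icc hp hq)))).add
      (continuousOn_const.mul continuousOn_id)
  have := image_le_of_deriv_right_lt_deriv_boundary' (B := fun _ => p - b * Pp.Ode3.Gam l p + g * p)
    (B' := fun _ => 0) (f' := fun t => 1 - b * Pp.Ode3.Gp l t + g * 1) c
    (fun t ht => ((hasDerivWithinAt_id t _).sub
      ((Pp.Ode3.Gam_rder ap (hp.trans ht.1) (ht.2.trans_le hq)).const_mul b)).add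
      ((hasDerivWithinAt_id t _).const_mul g)) le_rfl continuousOn_const
    (fun t _ => hasDerivWithinAt_const t _ _) (fun t ht e => by
      by_contra h0
      refine hn ⟨t, ht, by linarith [not_lt.1 h0], ?_⟩
      have := mul_le_mul_of_nonneg_left ht.1 hg
      unfold Rig.Mf
      linarith) ⟨hpq, le_rfl⟩
  unfold Rig.Mf at H
  linarith

/-- **(L0) from one rise of `M`**, list form -/
theorem l0_up (T0 C : ℝ) : ∃ K : ℝ, 1 ≤ K ∧ ∀ (l : List (ℝ × ℝ)) (b p q lam : ℝ), Pr.Ok l →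
    TT l ≤ T0 → 1 ≤ b → b ≤ C → 0 ≤ p → p ≤ q → q ≤ TT l → 0 ≤ lam → lam ≤ 1 →
    (∀ r ∈ Ico 0 q, lvr 1 l r ≤ lam) → -(lam ^ 2 * (q - p)) < Rig.Mf b l q - Rig.Mf b l p →
    Rig.Mf b l p ≤ lam ^ 3 → p ≤ K * lam := by
  set C' := max C 1 with hC
  have C1 : 1 ≤ C' := le_max_right _ _
  set c := min (L0.c0 T0 C') 1 with hc
  have c1 : 0 < c := lt_min (L0.c0_pos T0 (by linarith)) one_pos
  have c2 : c ≤ 1 := min_le_right _ _
  have c3 : 3 ≤ 3 * C' / c := by rw [le_div_iff₀ c1]; linarith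
  refine ⟨3 * C' / c, by linarith, fun l b p q lam hl hT b1 b2 p0 pq qT l0 l1 hZ H hη => ?_⟩
  obtain ⟨s, hs, g1, g2⟩ := exists_up hl p0 pq qT (sq_nonneg lam) H
  have s0 : 0 ≤ s := p0.trans hs.1
  have b3 : b ≤ C' := b2.trans (le_max_left _ _)
  refine hs.1.trans ?_
  rcases le_total (2 * lam ^ 3) s with h2 | h2
  · have a := L0.l0_cubic (L0.ap_of_ok hl) hT (b := b) (η := lam ^ 3) (by linarith) s0
      (hs.2.le.trans qT) (fun r hr => hZ r ⟨hr.1, hr.2.trans hs.2⟩) g1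
      (by unfold Rig.Mf at g2 hη; linarith) h2
    refine L0.cubic c1 C1 l0 c2 ?_
    have a0 : L0.c0 T0 C' ≤ L0.c0 T0 b := by
      have := L0.k3_pos T0
      unfold L0.c0; gcongr
    have a3 : c ≤ b * L0.c0 T0 b := ((min_le_left _ _).trans a0).trans
      (le_mul_of_one_le_left (L0.c0_pos T0 (by linarith)).le b1)
    have a1 := mul_le_mul_of_nonneg_right a3 (pow_nonneg s0 3)
    have a2 : lam ^ 2 * s + lam ^ 3 ≤ C' * (lam ^ 2 * s + lam ^ 3) :=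
      le_mul_of_one_le_left (by positivity) C1
    have a4 := mul_le_mul_of_nonneg_right b3 (by positivity : 0 ≤ lam * s ^ 2)
    linarith
  · have a1 : lam ^ 3 ≤ lam := pow_le_of_le_one l0 l1 (by norm_num)
    nlinarith


/-- Cauchy-Schwarz with total weight at most `1` -/
theorem sum_le_sqrt {U : Finset ℕ} {w f : ℕ → ℝ} (hw : ∀ k ∈ U, 0 ≤ w k) (h1 : ∑ k ∈ U, w k ≤ 1) :
    ∑ k ∈ U, w k * |f k| ≤ √(∑ k ∈ U, w k * f k ^ 2) := by
  refine Real.le_sqrt_of_sq_le ?_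
  have := Finset.sum_sq_le_sum_mul_sum_of_sq_le_mul U (r := fun k => w k * |f k|) (f := w)
    (g := fun k => w k * f k ^ 2) hw (fun k hk => mul_nonneg (hw k hk) (sq_nonneg _))
    (fun k _ => le_of_eq (by rw [mul_pow, sq_abs]; ring))
  exact this.trans (mul_le_of_le_one_left
    (Finset.sum_nonneg fun k hk => mul_nonneg (hw k hk) (sq_nonneg _)) h1)

end Crest.Agent.T156.Zb9

namespace Crest.Agent.T156.Alt.Mp9

open MeasureTheory Set Real
open Crest.Agent.R164.GC Crest.Agent.R339.B Crest.Agent.R339.Var Crest.Agent.T157.Pf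
open Crest.Agent.T156.Pp.Area50 Crest.Agent.T156.Spl27 Crest.Agent.T156.Zb9

namespace At
variable {S : Sc} {M : Md} {m : ℕ} {a T : ℝ}

theorem rb_le_sb (A : At S M m a T) {k : ℕ} (hk : k ≤ M.N) :
    M.rb m a k ≤ 2 * sb M m a (k + 1) := by
  have m1 : (1 : ℝ) ≤ m := by exact_mod_cast A.m_pos
  have k1 : 1 / 2 ≤ kp m := by unfold kp; rw [le_div_iff₀ (by linarith)]; linarith
  have d1 := (d_mem A.cl hk).1
  have r0 := (rb_mem (M := M) (a := a) A.m_pos k).1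
  have H0 : 0 ≤ M.H k := A.cl.leg.H0 ▸ A.cl.leg.Hm (Nat.zero_le k)
  have : 1 / 2 ≤ kp m * M.d k := k1.trans (le_mul_of_one_le_right (by linarith) d1)
  have := mul_le_mul_of_nonneg_right this r0
  simp only [sb]
  linarith

/-- **(L0) by the floor**: two nodes `i < k`, (E1) in difference form between them, the absolute
residual at `i` -/
theorem l0_floor (T0 C : ℝ) : ∃ K : ℝ, 1 ≤ K ∧ ∀ {S : Sc} {M : Md} {m : ℕ} {a T : ℝ},
    At S M m a T → S.C ≤ C → T ≤ T0 → ∀ {i k : ℕ} {er la ρ lam : ℝ}, S.jl < i → i < k → k ≤ S.Jp →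
    res M S m a T k - res M S m a T i ≤ er + la * (sb M m a (k + 1) - sb M m a (i + 1)) →
    0 ≤ la → M.b * er ≤ M.H k - M.H i → -ρ ≤ res M S m a T i → 0 ≤ ρ → M.z k ≤ lam → lam ≤ 1 →
    S.C * la + 1 / m < lam ^ 2 → M.H i + S.C * ρ ≤ lam ^ 3 →
    sb M m a (i + 1) ≤ K * lam ∧ ∀ j ≤ i, M.rb m a j ≤ 2 * K * lam := by
  obtain ⟨K, K1, H⟩ := l0_up T0 C
  refine ⟨K, K1, fun {S M m a T} A hC hT {i k er la ρ lam} h1 h2 h3 hE l0 hf r1 r0 z1 l1 g1 e1 => ?_⟩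
  obtain ⟨b1, b2⟩ := A.b_mem
  have mi := A.sb_mem (h2.le.trans h3)
  have mk := A.sb_mem h3
  have lt : sb M m a (i + 1) < sb M m a (k + 1) :=
    (A.sb_lt h1.le (h2.trans_le h3)).trans_le (A.sb_mono (by omega))
  have zk := A.lvb_node (h1.le.trans h2.le) h3
  have z0 : 0 ≤ lam := (zk ▸ (Pp.Ode3.lvr_pos A.okb.1.1 _).le).trans z1
  have p := A.Mf_rise h1 h2.le h3 hE hf
  have q := mul_lt_mul_of_pos_right (show M.b * la + 1 / m < lam ^ 2 by
    linarith [mul_le_mul_of_nonneg_right b2 l0]) (sub_pos.2 lt)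
  have s1 : sb M m a (i + 1) ≤ K * lam := H _ M.b _ _ lam A.okb.1 (by rwa [A.okb.2]) b1 (b2.trans hC)
    mi.1 lt.le (by rw [A.okb.2]; exact mk.2) z0 l1
    (fun r hr => (zk ▸ Sc48.lvr_mono A.okb.1.1 hr.2.le).trans z1) (by linarith) (by
      rw [A.Mf_b h1 (h2.le.trans h3)]
      have t0 : 0 ≤ M.b * M.rb m a i / (m + 1) :=
        div_nonneg (mul_nonneg (by linarith) (rb_mem A.m_pos i).1) (by positivity)
      have t1 := mul_le_mul_of_nonneg_left r1 (by linarith : 0 ≤ M.b)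
      have t2 := mul_le_mul_of_nonneg_right b2 r0
      linarith)
  exact ⟨s1, fun j hj => by
    linarith [rb_mono (M := M) (a := a) A.m_pos hj, A.rb_le_sb (A.jp_le (h2.le.trans h3))]⟩

/-- ceiling of the marks against the labels, from the sloped part of the ceiling -/
theorem h_up (A : At S M m a T)
    (E : ∀ k, S.jl + 1 ≤ k → k < S.J → M.H (k + 1) - M.H k ≤ S.C * S.F * S.ms (M.s k) * S.v)
    {i k : ℕ} (hi : S.jl < i) (h : i ≤ k) (hk : k < S.J) :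
    M.H k - M.H i ≤ S.C ^ 2 * S.F * S.ms (M.s k) * (M.z k - M.z i) := by
  have C0 := A.c_pos
  have F0 : 0 < S.F := by linarith [A.cl.F1]
  have v0 := v_pos A.cl
  have := tele (f := M.H) (g := fun j => S.C ^ 2 * S.F * S.ms (M.s k) * M.z j) (lo := i) (hi := k)
    (fun j p q => by
      obtain ⟨p1, -⟩ := A.cl.zs j (A.cl.i1.trans (hi.le.trans p)) (by omega)
      have m1 := A.ms_pos (s_nn A.cl j)
      have m3 := A.cl.msm (A.cl.sm q.le)
      calc _ ≤ S.C * S.F * S.ms (M.s j) * S.v := E j (hi.trans_le p) (q.trans hk)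
        _ = S.C ^ 2 * S.F * S.ms (M.s j) * (S.v / S.C) := by field_simp
        _ ≤ S.C ^ 2 * S.F * S.ms (M.s k) * (M.z (j + 1) - M.z j) :=
          mul_le_mul (mul_le_mul_of_nonneg_left m3 (by positivity)) p1 (by positivity)
            (mul_nonneg (by positivity) (by linarith))
        _ = _ := by ring) le_rfl h le_rfl
  linarith


/-- absolute size of the marks in the sloped part -/
theorem H_abs (A : At S M m a T) {G₁ : ℝ} (E : CeiG S M G₁) {k : ℕ} (h1 : S.jl < k) (hk : k < S.J) :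
    M.H k ≤ S.C * S.F * S.ms (M.s k) * (M.s S.jl + S.C * M.z k) := by
  have C0 := A.c_pos
  have F0 : 0 < S.F := by linarith [A.cl.F1]
  have p := A.h_up E.up (Nat.lt_succ_self _) h1 hk
  have q := E.bot
  have m1 := A.ms_pos (s_nn A.cl k)
  have r := mul_le_mul_of_nonneg_right (mul_le_mul_of_nonneg_left (A.cl.msm (A.cl.sm h1.le))
    (mul_pos C0 F0).le) (s_nn A.cl S.jl)
  have z0 : 0 ≤ M.z (S.jl + 1) := by
    have := A.xb_mono (Nat.zero_le (S.jl + 2))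
    simp only [xb] at this
    linarith [A.a_pos]
  have t : 0 ≤ S.C ^ 2 * S.F * S.ms (M.s k) * M.z (S.jl + 1) := by positivity
  simp only [Nat.succ_eq_add_one] at p
  nlinarith

/-! ### the `H⁻¹` size from node sums -/

theorem j0_lt (A : At S M m a T) : S.j0 < S.J := by have := A.cl.i1; have := A.cl.i2; omega



theorem dz_nn (A : At S M m a T) (k : ℕ) : 0 ≤ M.z k - M.z (k - 1) :=
  sub_nonneg.2 (A.cl.leg.zm (Nat.sub_le _ _))

theorem sum_dz (M : Md) {i k : ℕ} (h : i ≤ k) :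
    ∑ j ∈ Finset.Ioc i k, (M.z j - M.z (j - 1)) = M.z k - M.z i := by
  induction k, h using Nat.le_induction with
  | base => simp
  | succ k h ih => rw [Finset.sum_Ioc_succ_top h, ih, Nat.add_sub_cancel]; ring

theorem blk_all (A : At S M m a T) : M.blk S 0 S.C = Finset.Ioc S.j0 S.Jp :=
  Finset.filter_true_of_mem fun k hk =>
    ⟨s_nn A.cl k, (A.cl.sm (Finset.mem_Ioc.1 hk).2).trans A.cl.sT⟩



end At

namespace Wd
variable {S : Sc} {M : Md} {m : ℕ} {a T : ℝ} {Gn : ℕ → Prop} {u v : ℕ} {a' b' δ θ c er g j : ℝ}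



/-- **the two thick passes**; `p₀ = K C j`, `b₀ = exp (-4 T0)` -/
theorem thick (T0 : ℝ) : ∃ K : ℝ, 1 ≤ K ∧ ∀ {S : Sc} {M : Md} {m : ℕ} {a T : ℝ} {Gn : ℕ → Prop}
    {u v : ℕ} {a' b' δ θ c er g j : ℝ}, Wd S M m a T Gn u v a' b' δ θ c er g j → T ≤ T0 →
    ∀ {Γ R κ q₀ ℓ η B₁ U₁ Γ₂ e t : ℝ}, 0 ≤ Γ →
    (∀ i k, Nx Gn u v i k → sb M m a (k + 1) - sb M m a (i + 1) ≤ Γ) →
    S.C ^ 2 * S.ms b' * θ ≤ S.ms a' / (2 * S.C) → S.C * Γ ^ 2 ≤ 4 * (S.ms a' / S.C ^ 2) →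
    (∀ t ∈ Icc (sb M m a (u + 1)) (sb M m a (v + 1)), |uu M S m a T t| ≤ R) →
    0 ≤ κ → κ ^ 2 * (S.C ^ 2 * S.ms b') ≤ 2 * exp (-(4 * T0)) → K * S.C * j ≤ κ ^ 2 * q₀ →
    0 ≤ q₀ → 0 ≤ ℓ → 0 < η →
    Rig.eP S.C (K * S.C * j) (S.C ^ 2 * S.ms b') (errW S m b' er g) (θ + S.C) (δ + S.C * S.v) Γ +
      q₀ + 2 * (S.C ^ 2 * S.ms b' * R) * exp (-(κ * ℓ)) ≤ B₁ →
    (θ + S.C) * Γ + (δ + S.C * S.v) + (B₁ + errW S m b' er g) / (S.ms a' / S.C ^ 2) ≤ U₁ →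
    2 * (2 * B₁ / η + (2 * S.C * U₁ + K * S.C * j) * η / 2) ≤ S.ms a' / (2 * S.C) →
    Γ₂ = min Γ (2 * errL S b' δ er g / (S.ms a' / (2 * S.C))) →
    e = Rig.eP S.C (K * S.C * j) (S.C ^ 2 * S.ms b') (errW S m b' er g) (θ + S.C)
      (δ + S.C * S.v) Γ₂ + q₀ + 2 * B₁ * exp (-(κ * ℓ)) →
    t ∈ Icc (sb M m a (u + 1) + 2 * ℓ + 3 * Γ) (sb M m a (v + 1) - 2 * ℓ - Γ - η) →
    |WW M S m a T c t| ≤ e ∧ |uu M S m a T t| ≤ (θ + S.C) * Γ₂ + (δ + S.C * S.v) +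
      (e + errW S m b' er g) / (S.ms a' / S.C ^ 2) := by
  obtain ⟨K, K1, H⟩ := tk T0
  refine ⟨K, K1, fun {S M m a T Gn u v a' b' δ θ c er g j} W hT {Γ R κ q₀ ℓ η B₁ U₁ Γ₂ e t}
    h0 hΓ hθ h1 hR k0 k1 q1 q0 l0 η0 hB hU hΩ e1 e2 ht => ?_⟩
  subst e2 e1
  exact (H W hT).thick h0 (sh hΓ) h1 hR k0 k1 q1 q0 l0 η0
    (div_pos (W.at'.ms_pos W.a0) (by linarith [W.at'.c_pos])) W.errW0 W.errL0 (W.hlen hθ) hB hU hΩ ht

end Wd

end Crest.Agent.T156.Alt.Mp9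

end
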