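import Crest.Agent.T156.L0C_49
import Crest.Agent.T156.ClTh_9

-- ▼ part T156/GapA_89
section

/-!
Row 156 (helper89): length of a gap when the node errors contain `o |Γ''|`; one-sided form.
-/

set_option autoImplicit false

namespace Crest.Agent.T156.L0.G89

open MeasureTheory Set Filter Topology
open Crest.Agent.R164.GC Crest.Agent.R339.B Crest.Agent.R339.Var Crest.Agent.T157.Pf
open Crest.Agent.T156.Pp Crest.Agent.T156.Pp.Ode3 Crest.Agent.T156.Str

noncomputable section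

variable {l : List (ℝ × ℝ)} {T : ℝ}

/-- `G'` is Lipschitz up to the labels, with the constant `K` -/
def Lp (l : List (ℝ × ℝ)) (K : ℝ) : Prop := ∀ s t : ℝ, 0 ≤ s → s ≤ t → t ≤ TT l →
  |Gd l t - Gd l s| ≤ K * (t - s) + 2 * (lvr 1 l t - lvr 1 l s)

/-- `G' ≥ D` at the lower end -/
theorem big_up (h : AP l) (hT : TT l ≤ T) {b s t D : ℝ} (hb : 0 ≤ b) (h0 : 0 ≤ s) (hst : s ≤ t)
    (ht : t ≤ TT l) (hD : lvr 1 l t ≤ lvr 1 l s + D) (h4 : 4 * D ≤ Gd l s) :
    rho b l t - rho b l s ≤ (b * Gp l t - 1) * (t - s) - b * (Gd l s - 4 * D) * (t - s) ^ 2 / 4 := by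
  have mo := lvr_mono h.adm
  have k0 := kc_pos T
  have key : ∀ r, s ≤ r → r ≤ t → (Gd l s - 4 * D) * (t - r) ≤ Gp l t - Gp l r := fun r r0 r1 => by
    have a := Gp_right h hT (h0.trans r0) r1 ht (Z := lvr 1 l t) fun x hx => mo hx.2.le
    have c := Gd_mono h hT h0 r0 (r1.trans ht)
    have m1 := mo r0
    have m2 := mo r1
    have p1 := mul_nonneg k0.le (sub_nonneg.2 r0)
    have p2 := mul_nonneg k0.le (sq_nonneg (t - r))
    have p3 := mul_le_mul_of_nonneg_right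
      (show Gd l s - 4 * D ≤ Gd l r - 2 * (lvr 1 l t - lvr 1 l r) by linarith) (sub_nonneg.2 r1)
    linarith
  have d0 : 0 ≤ Gd l s - 4 * D := by linarith
  have a := rho_le h (b := b) (s := s) (t := (s + t) / 2)
    (g := b * Gp l t - 1 - b * ((Gd l s - 4 * D) * ((t - s) / 2))) h0 (by linarith) (by linarith)
    fun r hr => by
      have := mul_le_mul_of_nonneg_left ((mul_le_mul_of_nonneg_left
        (show (t - s) / 2 ≤ t - r by linarith [hr.2]) d0).trans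
        (key r hr.1 (by linarith [hr.2]))) hb
      linarith
  have c := rho_le h (b := b) (s := (s + t) / 2) (t := t) (g := b * Gp l t - 1) (by linarith)
    (by linarith) ht fun r hr => by
      have := mul_le_mul_of_nonneg_left ((mul_nonneg d0 (sub_nonneg.2 hr.2.le)).trans
        (key r (by linarith [hr.1]) hr.2.le)) hb
      linarith
  unfold rho
  linarith

/-- `G' ≤ -D` at the upper end -/
theorem big_dn (h : AP l) (hT : TT l ≤ T) {b s t D : ℝ} (hb : 0 ≤ b) (h0 : 0 ≤ s) (hst : s ≤ t)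
    (ht : t ≤ TT l) (hD : lvr 1 l t ≤ lvr 1 l s + D) (h4 : 4 * D ≤ -Gd l t) :
    rho b l t - rho b l s ≤ (b * Gp l s - 1) * (t - s) - b * (-Gd l t - 4 * D) * (t - s) ^ 2 / 4 := by
  have mo := lvr_mono h.adm
  have k0 := kc_pos T
  have key : ∀ r, s ≤ r → r ≤ t → (-Gd l t - 4 * D) * (r - s) ≤ Gp l s - Gp l r := fun r r0 r1 => by
    have a := Gp_left h hT h0 r0 (r1.trans ht)
    have c := Gd_mono h hT (h0.trans r0) r1 ht
    have m1 := mo r0
    have m2 := mo r1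
    have p1 := mul_nonneg k0.le (sub_nonneg.2 r1)
    have p2 := mul_nonneg k0.le (sq_nonneg (r - s))
    have p3 := mul_le_mul_of_nonneg_right
      (show Gd l r + 2 * (lvr 1 l r - lvr 1 l s) ≤ -(-Gd l t - 4 * D) by linarith)
      (sub_nonneg.2 r0)
    linarith
  have d0 : 0 ≤ -Gd l t - 4 * D := by linarith
  have a := rho_le h (b := b) (s := s) (t := (s + t) / 2) (g := b * Gp l s - 1) h0 (by linarith)
    (by linarith) fun r hr => by
      have := mul_le_mul_of_nonneg_left ((mul_nonneg d0 (sub_nonneg.2 hr.1)).trans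
        (key r hr.1 (by linarith [hr.2]))) hb
      linarith
  have c := rho_le h (b := b) (s := (s + t) / 2) (t := t)
    (g := b * Gp l s - 1 - b * ((-Gd l t - 4 * D) * ((t - s) / 2))) (by linarith) (by linarith) ht
    fun r hr => by
      have := mul_le_mul_of_nonneg_left ((mul_le_mul_of_nonneg_left
        (show (t - s) / 2 ≤ r - s by linarith [hr.1]) d0).trans
        (key r (by linarith [hr.1]) hr.2.le)) hb
      linarith
  unfold rho
  linarith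

theorem aux_big {b k K L A o D P g : ℝ} (hb : 0 ≤ b) (hk : 0 < k) (hK : k ≤ K) (hL : 0 < L)
    (ho : 0 ≤ o) (hP : K * L ≤ P) (hD : 8 * D ≤ k * L) (h48 : 48 * o ≤ b * L ^ 2)
    (H : -(A + o * (3 * P)) ≤ g * L - b * (P - 4 * D) * L ^ 2 / 4) :
    b * k / 24 * L ^ 2 - (A + 4 * K * o * L) / L ≤ g := by
  have P0 : k * L ≤ P := (mul_le_mul_of_nonneg_right hK hL.le).trans hP
  have kL := mul_pos hk hL
  have bL : 0 ≤ b * L ^ 2 := by positivity
  have a1 := mul_le_mul_of_nonneg_left (show P / 2 ≤ P - 4 * D by linarith) bL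
  have a2 := mul_le_mul_of_nonneg_right h48 (show 0 ≤ P by linarith)
  have a3 := mul_le_mul_of_nonneg_left P0 bL
  have a4 : 0 ≤ 4 * K * o * L := by have : 0 ≤ K := by linarith
                                    positivity
  have a5 := mul_nonneg bL kL.le
  rw [sub_le_iff_le_add, ← sub_le_iff_le_add', le_div_iff₀ hL]
  nlinarith

/-- a long gap has an unstable end; the drop contains `o |G'|` -/
theorem unst (h : AP l) (hT : TT l ≤ T) {b s t D A o K : ℝ} (hK : Lp l K) (hb : 0 ≤ b)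
    (h0 : 0 ≤ s) (hst : s < t) (ht : t ≤ TT l) (hD : lvr 1 l t ≤ lvr 1 l s + D)
    (hκ : 8 * D ≤ kc T * (t - s)) (ho : 0 ≤ o) (K0 : 0 ≤ K) (h48 : 48 * o ≤ b * (t - s) ^ 2)
    (hδ : -(A + o * (|Gd l s| + |Gd l t|)) ≤ rho b l t - rho b l s) :
    (kc T / 4 * (t - s) ≤ Gd l t ∧ 1 + (b * kc T / 24 * (t - s) ^ 2 -
        (A + 4 * (K + kc T) * o * (t - s)) / (t - s)) ≤ b * Gp l t) ∨
      (Gd l s ≤ -(kc T / 4 * (t - s)) ∧ 1 + (b * kc T / 24 * (t - s) ^ 2 -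
        (A + 4 * (K + kc T) * o * (t - s)) / (t - s)) ≤ b * Gp l s) := by
  have k0 := kc_pos T
  have L0 := sub_pos.2 hst
  have kL := mul_pos k0 L0
  have KL := mul_nonneg K0 L0.le
  have m := Gd_mono h hT h0 hst.le ht
  have u := abs_le.1 (hK s t h0 hst.le ht)
  by_cases c1 : (K + kc T) * (t - s) ≤ Gd l s
  · refine .inl ⟨by linarith, ?_⟩
    have a := big_up h hT hb h0 hst.le ht hD (by linarith)
    rw [abs_of_nonneg (show 0 ≤ Gd l s by linarith),
      abs_of_nonneg (show 0 ≤ Gd l t by linarith)] at hδ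
    have e := mul_le_mul_of_nonneg_left
      (show Gd l s + Gd l t ≤ 3 * Gd l s by linarith [u.2]) ho
    linarith [aux_big (A := A) (g := b * Gp l t - 1) hb k0 (show kc T ≤ K + kc T by linarith) L0 ho
      c1 hκ h48 (by linarith)]
  by_cases c2 : (K + kc T) * (t - s) ≤ -Gd l t
  · refine .inr ⟨by linarith, ?_⟩
    have a := big_dn h hT hb h0 hst.le ht hD (by linarith)
    rw [abs_of_nonpos (show Gd l s ≤ 0 by linarith),
      abs_of_nonpos (show Gd l t ≤ 0 by linarith)] at hδ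
    have e := mul_le_mul_of_nonneg_left
      (show -Gd l s + -Gd l t ≤ 3 * -Gd l t by linarith [u.2]) ho
    linarith [aux_big (A := A) (g := b * Gp l s - 1) hb k0 (show kc T ≤ K + kc T by linarith) L0 ho
      c2 hκ h48 (by linarith)]
  have e1 : |Gd l s| ≤ 2 * ((K + kc T) * (t - s)) := abs_le.2 ⟨by linarith [u.2], by linarith⟩
  have e2 : |Gd l t| ≤ 2 * ((K + kc T) * (t - s)) := abs_le.2 ⟨by linarith, by linarith [u.2]⟩
  have e := mul_le_mul_of_nonneg_left (add_le_add e1 e2) ho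
  exact unstable_end h hT hb h0 hst ht hD hκ (by linarith)

theorem aux_num {o m τ0 Dm D x y : ℝ} (ho : 0 ≤ o) (hm : 0 < m) (τp : 0 < τ0) (h2 : 16 * τ0 ≤ x)
    (h32 : 32 * o ≤ m) (hτ : 2 * y < m * τ0) (d1 : x / 4 ≤ D) (d2 : D ≤ Dm) :
    0 < τ0 + 8 * o * D / m ∧ 2 * (τ0 + 8 * o * D / m) ≤ D ∧
      τ0 + 8 * o * D / m ≤ τ0 + 8 * o * Dm / m ∧
      ∀ Z, τ0 + 8 * o * D / m ≤ Z → y + 2 * o * D + 2 * o * Z < m * Z := by
  have D0 : 0 ≤ D := by linarith
  have e : m * (8 * o * D / m) = 8 * o * D := by field_simp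
  have p0 : 0 ≤ 8 * o * D / m := by positivity
  have p1 : 8 * o * D / m ≤ D / 4 := by
    rw [div_le_iff₀ hm]; nlinarith [mul_le_mul_of_nonneg_right h32 D0]
  refine ⟨by linarith, by linarith, by gcongr, fun Z hZ => ?_⟩
  have Z0 : 0 ≤ Z := by linarith
  have q1 := mul_le_mul_of_nonneg_left hZ hm.le
  have q2 := mul_le_mul_of_nonneg_right h32 Z0
  have q3 := mul_nonneg ho D0
  have q4 := mul_nonneg ho Z0
  rw [mul_add, e] at q1
  linarith

set_option maxHeartbeats 800000 in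
/-- **length of a gap `(p, q)`**: one-sided (E1) with the floor on the two runs -/
theorem len2 (h : AP l) (hT : TT l ≤ T) {b δ θ η lam o m A τ0 Dm K : ℝ} {σ : ℕ → ℝ}
    {Gn : ℕ → Prop} {u v p q : ℕ} (hK : Lp l K) (K0 : 0 ≤ K) (hb : 0 ≤ b)
    (mem : ∀ i, u ≤ i → i ≤ v → 0 ≤ σ i ∧ σ i ≤ TT l)
    (mono : ∀ i j, u ≤ i → i ≤ j → j ≤ v → σ i ≤ σ j) (δ0 : 0 ≤ δ)
    (gap : ∀ i j, u ≤ i → i < j → j ≤ v → Gn i → Gn j → (∀ k, i < k → k < j → ¬ Gn k) →
      lvr 1 l (σ j) ≤ lvr 1 l (σ i) + (δ + θ * (σ j - σ i)))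
    (hu : u ≤ p) (hpq : p < q) (hv : q ≤ v) (gp : Gn p) (gq : Gn q)
    (hbad : ∀ k, p < k → k < q → ¬ Gn k)
    (up : ∀ i j, u ≤ i → i ≤ j → j ≤ v → Gn i → Gn j → rho b l (σ j) - rho b l (σ i) ≤
      η + o * (|Gd l (σ i)| + |Gd l (σ j)|) + lam * (σ j - σ i) -
        m * (lvr 1 l (σ j) - lvr 1 l (σ i)))
    (drop : -(A + o * (|Gd l (σ p)| + |Gd l (σ q)|)) ≤ rho b l (σ q) - rho b l (σ p))
    (gu : Gn u) (gv : Gn v) (hup : lvr 1 l (σ q) + (τ0 + 8 * o * Dm / m) ≤ lvr 1 l (σ v))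
    (hdn : lvr 1 l (σ u) + (τ0 + 8 * o * Dm / m) ≤ lvr 1 l (σ p))
    (Dp : |Gd l (σ p)| ≤ Dm) (Dq : |Gd l (σ q)| ≤ Dm) (ho : 0 ≤ o) (hm : 0 < m) (τp : 0 < τ0)
    (hθ : 16 * θ ≤ kc T) (h1 : 16 * δ ≤ kc T * (σ q - σ p)) (h2 : 16 * τ0 ≤ kc T * (σ q - σ p))
    (h48 : 48 * o ≤ b * (σ q - σ p) ^ 2) (h32 : 32 * o ≤ m)
    (hτ : 2 * (η + 22 * b * δ ^ 3 / kc T ^ 2) < m * τ0) :
    b * kc T / 24 * (σ q - σ p) ^ 3 < A + (lam + 5 * (K + kc T) * o) * (σ q - σ p) := by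
  classical
  by_contra c3
  rw [not_lt] at c3
  have k0 := kc_pos T
  have L0 : 0 < σ q - σ p := by
    by_contra hc
    have := mul_nonpos_of_nonneg_of_nonpos k0.le (not_lt.1 hc)
    linarith
  have a1 := gap p q hu hpq hv gp gq hbad
  have a4 := mul_le_mul_of_nonneg_right hθ L0.le
  have mp := mem p hu (hpq.le.trans hv)
  have mq := mem q (hu.trans hpq.le) hv
  have a2 := unst h hT hK hb mp.1 (sub_pos.1 L0) mq.2 a1 (by linarith) ho K0 h48 drop
  have ko := mul_nonneg k0.le ho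
  have g1 : lam + K * o ≤ b * kc T / 24 * (σ q - σ p) ^ 2 -
      (A + 4 * (K + kc T) * o * (σ q - σ p)) / (σ q - σ p) := by
    rw [le_sub_comm, div_le_iff₀ L0]
    linarith [mul_nonneg ko L0.le]
  have θ12 : 12 * θ ≤ kc T := by linarith
  have kL := mul_pos k0 L0
  have num : ∀ D : ℝ, kc T / 4 * (σ q - σ p) ≤ D → D ≤ Dm → 0 < τ0 + 8 * o * D / m ∧
      2 * (τ0 + 8 * o * D / m) ≤ D ∧ τ0 + 8 * o * D / m ≤ τ0 + 8 * o * Dm / m ∧
      ∀ Z, τ0 + 8 * o * D / m ≤ Z →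
        η + 22 * b * δ ^ 3 / kc T ^ 2 + 2 * o * D + 2 * o * Z < m * Z := fun D d1 d2 =>
    aux_num ho hm τp h2 h32 hτ (by linarith) d2
  rcases a2 with ⟨d1, d2⟩ | ⟨d1, d2⟩
  · obtain ⟨t0, t1, t2, t3⟩ := num _ d1 ((le_abs_self _).trans Dq)
    set τ := τ0 + 8 * o * Gd l (σ q) / m
    have hup' : ∃ j, q ≤ j ∧ j ≤ v ∧ Gn j ∧ lvr 1 l (σ q) + τ ≤ lvr 1 l (σ j) :=
      ⟨v, hv, le_rfl, gv, by linarith⟩
    obtain ⟨j1, j2, j3, j4⟩ := Nat.find_spec hup'
    set j := Nat.find hup' with hj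
    have qj : q < j := lt_of_le_of_ne j1 fun e => by rw [← e] at j4; linarith
    have i1 : q ≤ Nat.findGreatest Gn (j - 1) := Nat.le_findGreatest (by omega) gq
    have i2 : Nat.findGreatest Gn (j - 1) ≤ j - 1 := Nat.findGreatest_le _
    have i3 : Gn (Nat.findGreatest Gn (j - 1)) := Nat.findGreatest_spec (by omega : q ≤ j - 1) gq
    have i4 : ∀ k, Nat.findGreatest Gn (j - 1) < k → k < j → ¬ Gn k := fun k a c =>
      Nat.findGreatest_is_greatest a (by omega)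
    set i := Nat.findGreatest Gn (j - 1)
    have i5 : lvr 1 l (σ i) ≤ lvr 1 l (σ q) + τ := by
      by_contra hc
      exact Nat.find_min hup' (m := i) (by omega) ⟨i1, by omega, i3, (not_le.1 hc).le⟩
    have uq := hu.trans hpq.le
    have mj := mem j (by omega) j2
    have f := floor_up h hT (g := lam + K * o) hb mq.1 (mono q i uq i1 (by omega))
      (mono i j (by omega) (by omega) j2) mj.2 δ0 θ12 i5
      (gap i j (by omega) (by omega) j2 i3 j3 i4) t1 (by linarith)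
    have e1 := up q j uq j1 j2 gq j3
    have e2 := hK _ _ mq.1 (mono q j uq j1 j2) mj.2
    have e3 : |Gd l (σ j)| ≤ |Gd l (σ q)| + (K * (σ j - σ q) + 2 * (lvr 1 l (σ j) - lvr 1 l (σ q))) := by
      linarith [abs_sub_abs_le_abs_sub (Gd l (σ j)) (Gd l (σ q))]
    rw [abs_of_nonneg (show 0 ≤ Gd l (σ q) by linarith)] at e1 e3
    have e4 := mul_le_mul_of_nonneg_left e3 ho
    linarith [t3 (lvr 1 l (σ j) - lvr 1 l (σ q)) (by linarith)]
  · obtain ⟨t0, t1, t2, t3⟩ := num (-Gd l (σ p)) (by linarith) ((neg_le_abs _).trans Dp)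
    set τ := τ0 + 8 * o * -Gd l (σ p) / m
    set P : ℕ → Prop := fun i => u ≤ i ∧ Gn i ∧ lvr 1 l (σ i) + τ ≤ lvr 1 l (σ p) with hP
    obtain ⟨i1, i3, i4⟩ : P (Nat.findGreatest P p) :=
      Nat.findGreatest_spec hu ⟨le_rfl, gu, by linarith⟩
    have i2 : Nat.findGreatest P p ≤ p := Nat.findGreatest_le _
    have i5 : ∀ k, Nat.findGreatest P p < k → k ≤ p → ¬ P k := fun k a c =>
      Nat.findGreatest_is_greatest a c
    set i := Nat.findGreatest P p
    have ip : i < p := lt_of_le_of_ne i2 fun e => by rw [e] at i4; linarith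
    have ex : ∃ j, i < j ∧ Gn j := ⟨p, ip, gp⟩
    obtain ⟨j1, j2⟩ := Nat.find_spec ex
    have j3 : Nat.find ex ≤ p := Nat.find_min' ex ⟨ip, gp⟩
    have j4 : ∀ k, i < k → k < Nat.find ex → ¬ Gn k := fun k a c e => Nat.find_min ex c ⟨a, e⟩
    set j := Nat.find ex
    have j5 : lvr 1 l (σ p) ≤ lvr 1 l (σ j) + τ := by
      by_contra hc
      exact i5 j j1 j3 ⟨by omega, j2, (not_le.1 hc).le⟩
    have pv := hpq.le.trans hv
    have mi := mem i i1 (by omega)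
    have f := floor_down h hT (g := lam + K * o) hb mi.1
      (mono i j i1 j1.le (by omega)) (mono j p (by omega) j3 pv) mp.2 δ0 θ12 j5
      (gap i j i1 j1 (by omega) i3 j2 j4) (by linarith) (by linarith)
    have e1 := up i p i1 i2 pv i3 gp
    have e2 := hK _ _ mi.1 (mono i p i1 i2 pv) mp.2
    have e3 : |Gd l (σ i)| ≤ |Gd l (σ p)| + (K * (σ p - σ i) + 2 * (lvr 1 l (σ p) - lvr 1 l (σ i))) := by
      rw [abs_sub_comm] at e2
      linarith [abs_sub_abs_le_abs_sub (Gd l (σ i)) (Gd l (σ p))]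
    rw [abs_of_nonpos (show Gd l (σ p) ≤ 0 by linarith)] at e1 e3
    have e4 := mul_le_mul_of_nonneg_left e3 ho
    linarith [t3 (lvr 1 l (σ p) - lvr 1 l (σ i)) (by linarith)]

end

end Crest.Agent.T156.L0.G89
end

-- ▼ part T156/GapW_89

/-!
# Row 156, block (L): all gaps are short (weighted longest gap) (helper89)
-/

set_option autoImplicit false

noncomputable section

namespace Crest.Agent.T156.Alt.G89

open Real Finset
open Crest.Agent.R164.GC Crest.Agent.R339.B Crest.Agent.R339.Var Crest.Agent.T157.Pf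
open Crest.Agent.T156.Alt.Mp9
open Crest.Agent.T156.L0 (kc kc_pos)

/-- time length between two nodes -/
def ds (M : Md) (m : ℕ) (a : ℝ) (i k : ℕ) : ℝ := sb M m a (k + 1) - sb M m a (i + 1)
/-- `|Γ''|` of the mean profile at a node -/
def gd (M : Md) (S : Sc) (m : ℕ) (a T : ℝ) (k : ℕ) : ℝ :=
  |L0.Gd (lb M S m a T) (sb M m a (k + 1))|

/-- node data on `[U, V]` -/
structure GH (S : Sc) (M : Md) (m : ℕ) (a T : ℝ) (Gn : ℕ → Prop) (U V : ℕ) (e o cu al : ℕ → ℝ)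
    (la be θ : ℝ) : Prop where
  A : At S M m a T
  hU : S.jl < U
  hV : V < S.J
  la0 : 0 ≤ la
  be0 : 0 ≤ be
  θ0 : 0 ≤ θ
  c0 : ∀ y, 0 ≤ cu y
  e1 : ∀ i k, U ≤ i → i ≤ k → k ≤ V → Gn i → Gn k → |res M S m a T k - res M S m a T i| ≤
    e i + o i * gd M S m a T i + (e k + o k * gd M S m a T k) +
      (la * ds M m a i k + ∑ y ∈ Ioo i k, (M.z y - M.z (y - 1)) * cu y)
  lab : ∀ i k, Nx Gn U V i k → i < k → M.z (k - 1) - M.z i ≤ θ * ds M m a i k
  cg : ∀ y, U ≤ y → y ≤ V → Gn y → cu y ≤ al y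
  cb : ∀ i k, Nx Gn U V i k → ∀ y, i < y → y < k → cu y ≤ al y + be * ds M m a i k ^ 2

/-- the window `[i, j]` around the gap `(p, q)` and its numbers -/
structure Wn (S : Sc) (M : Md) (m : ℕ) (a T : ℝ) (Gn : ℕ → Prop) (U V : ℕ) (e o al W : ℕ → ℝ)
    (la be θ ε Kw : ℝ) (p q i j : ℕ) (η α o' μ Mc τ0 Dm w : ℝ) : Prop where
  i0 : U ≤ i
  ip : i ≤ p
  qj : q ≤ j
  j1 : j ≤ V
  gi : Gn i
  gj : Gn j
  dn : M.z i + (τ0 + o' * Dm / (ε * μ)) ≤ M.z p
  up : M.z q + (τ0 + o' * Dm / (ε * μ)) ≤ M.z j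
  nd : ∀ y, i ≤ y → y ≤ j → W y ≤ Kw * W p ∧ al y ≤ α ∧ (Gn y → e y ≤ η ∧ o y ≤ o')
  fl : ∀ x y, i ≤ x → x ≤ y → y ≤ j → μ * (M.z y - M.z x) ≤ M.H y - M.H x
  ce : M.H q - M.H p ≤ Mc * (M.z q - M.z p)
  Dp : gd M S m a T p ≤ Dm
  Dq : gd M S m a T q ≤ Dm
  w0 : 0 < w
  w1 : w ^ 2 ≤ W p
  μ0 : 0 < μ
  τp : 0 < τ0
  nn : 0 ≤ η ∧ 0 ≤ α ∧ 0 ≤ o' ∧ 0 ≤ Mc
  n1 : θ * (1 + be * (1 + Kw)) ≤ ε
  n2 : S.v ≤ ε * w ∧ τ0 ≤ ε * w
  n3 : la + (α + Mc) * θ + o' ≤ ε * w ^ 2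
  n4 : α + o' ≤ ε * μ
  n5 : η + Mc * S.v ≤ ε * w ^ 3
  n6 : η + 1 / (m + 1) + S.v ^ 3 ≤ ε * (μ * τ0)

variable {S : Sc} {M : Md} {m : ℕ} {a T : ℝ} {Gn : ℕ → Prop} {U V : ℕ} {e o cu al W : ℕ → ℝ}
  {la be θ : ℝ}

theorem ds_nn (A : At S M m a T) {i k : ℕ} (h : i ≤ k) : 0 ≤ ds M m a i k :=
  sub_nonneg.2 (A.sb_mono (by omega))

theorem GH.one (G : GH S M m a T Gn U V e o cu al la be θ) {r k : ℕ} {α B : ℝ}
    (n : Nx Gn U V r k) (h : r < k) (α0 : 0 ≤ α) (hα : ∀ y, r < y → y < k → al y ≤ α)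
    (hB : ds M m a r k ^ 2 ≤ B) : ∑ y ∈ Ioo r k, (M.z y - M.z (y - 1)) * cu y ≤
      α * (M.z (k - 1) - M.z r) + be * B * θ * ds M m a r k := by
  have e1 : Ioo r k = Ioc r (k - 1) := by ext y; simp only [mem_Ioo, mem_Ioc]; omega
  have b1 := mul_le_mul_of_nonneg_left hB G.be0
  have b0 : 0 ≤ be * B := mul_nonneg G.be0 ((sq_nonneg _).trans hB)
  calc _ ≤ ∑ y ∈ Ioo r k, (M.z y - M.z (y - 1)) * (α + be * B) := sum_le_sum fun y hy => by
        rw [mem_Ioo] at hy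
        exact mul_le_mul_of_nonneg_left
          (by linarith [G.cb r k n y hy.1 hy.2, hα y hy.1 hy.2]) (G.A.dz_nn y)
    _ = (M.z (k - 1) - M.z r) * (α + be * B) := by
        rw [← sum_mul, e1, At.sum_dz M (by omega)]
    _ ≤ _ := by nlinarith [mul_le_mul_of_nonneg_left (G.lab r k n h) b0]

/-- the label clock between two good nodes -/
theorem GH.clock (G : GH S M m a T Gn U V e o cu al la be θ) {i j : ℕ} {α B : ℝ} (hi : U ≤ i)
    (hj : j ≤ V) (gi : Gn i) (α0 : 0 ≤ α) (hα : ∀ y, i ≤ y → y ≤ j → al y ≤ α)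
    (hB : ∀ r k, Nx Gn U V r k → i ≤ r → k ≤ j → ds M m a r k ^ 2 ≤ B) :
    ∀ k, i ≤ k → k ≤ j → Gn k → ∑ y ∈ Ioc i k, (M.z y - M.z (y - 1)) * cu y ≤
      α * (M.z k - M.z i) + be * B * θ * ds M m a i k := by
  classical
  intro k
  induction k using Nat.strong_induction_on with
  | _ k ih =>
  intro h1 h2 gk
  rcases h1.eq_or_lt with rfl | c
  · simp [ds]
  have i1 : i ≤ Nat.findGreatest Gn (k - 1) := Nat.le_findGreatest (by omega) gi
  have i2 : Nat.findGreatest Gn (k - 1) ≤ k - 1 := Nat.findGreatest_le _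
  have i3 : Gn (Nat.findGreatest Gn (k - 1)) := Nat.findGreatest_spec (by omega : i ≤ k - 1) gi
  have i4 : ∀ y, Nat.findGreatest Gn (k - 1) < y → y < k → ¬ Gn y := fun y a c =>
    Nat.findGreatest_is_greatest a (by omega)
  set r := Nat.findGreatest Gn (k - 1)
  have n : Nx Gn U V r k := ⟨by omega, by omega, by omega, i3, gk, i4⟩
  have a1 := ih r (by omega) i1 (by omega) i3
  have a2 := G.one n (by omega) α0 (fun y u1 u2 => hα y (by omega) (by omega)) (hB r k n i1 h2)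
  have a3 := mul_le_mul_of_nonneg_left ((G.cg k (by omega) (by omega) gk).trans (hα k h1 h2))
    (G.A.dz_nn k)
  rw [← sum_Ioc_consecutive _ i1 (show r ≤ k by omega), ← Ioo_insert_right (show r < k by omega),
    sum_insert (by simp)]
  unfold ds at *
  linarith

theorem rho_eq (A : At S M m a T) {k : ℕ} (h1 : S.jl < k) (h2 : k ≤ S.Jp) :
    L0.rho M.b (lb M S m a T) (sb M m a (k + 1)) =
      M.b * res M S m a T k + M.b * M.rb m a k / (m + 1) - M.H k := by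
  have a1 := A.Mf_b h1 h2
  simp only [Rig.Mf] at a1
  simp only [L0.rho]
  linarith

theorem aux_fin {k K C ε L w η Mc v la α θ o be Kw b : ℝ} (k0 : 0 < k) (K0 : 0 ≤ K) (C1 : 1 ≤ C)
    (hε : 120 * C * (1 + K + k) * ε ≤ k) (w0 : 0 < w) (hL : w ≤ L) (b1 : 1 ≤ b) (ε0 : 0 ≤ ε)
    (η0 : 0 ≤ η) (M0 : 0 ≤ Mc) (v0 : 0 ≤ v) (l0 : 0 ≤ la) (α0 : 0 ≤ α) (θ0 : 0 ≤ θ) (o0 : 0 ≤ o)
    (n1 : θ * (1 + be * (1 + Kw)) ≤ ε) (n3 : la + (α + Mc) * θ + o ≤ ε * w ^ 2)
    (n5 : η + Mc * v ≤ ε * w ^ 3) :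
    C * (2 * η + la * L + (α * (θ * L) + be * L ^ 2 * θ * L)) + Mc * (C * v + θ * L) +
      (C * (la + be * (Kw * L ^ 2) * θ) + 5 * (K + k) * (C * o)) * L ≤ b * k / 24 * L ^ 3 := by
  have L0 : 0 < L := w0.trans_le hL
  have L3 : 0 < L ^ 3 := by positivity
  have C0 : 0 ≤ C := by linarith
  have p2 : ε * w ^ 2 ≤ ε * L ^ 2 := by gcongr
  have p3 : ε * w ^ 3 ≤ ε * L ^ 3 := by gcongr
  have q1 := mul_nonneg M0 v0
  have q2 := mul_nonneg α0 θ0
  have q3 := mul_nonneg M0 θ0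
  have a1 : C * (2 * η + Mc * v) ≤ C * (2 * (ε * L ^ 3)) := by gcongr; linarith
  have a2 : C * L * (2 * la + α * θ + Mc * θ) ≤ C * L * (2 * (ε * L ^ 2)) := by gcongr; linarith
  have a3 : Mc * θ * L ≤ C * (Mc * θ * L) := le_mul_of_one_le_left (by positivity) C1
  have a4 : C * L ^ 3 * (θ * (be * (1 + Kw))) ≤ C * L ^ 3 * ε := by gcongr; linarith
  have a5 : 5 * (K + k) * C * L * o ≤ 5 * (K + k) * C * L * (ε * L ^ 2) := by gcongr; linarith
  have a6 := mul_le_mul_of_nonneg_right hε L3.le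
  have a7 : k * L ^ 3 ≤ b * (k * L ^ 3) := le_mul_of_one_le_left (by positivity) b1
  linarith

theorem aux_tau {k C ε η x v b y : ℝ} (k0 : 0 < k) (C1 : 1 ≤ C) (b1 : b ≤ C) (η0 : 0 ≤ η)
    (x0 : 0 ≤ x) (v0 : 0 ≤ v) (y0 : 0 < y) (hε : (16 * C + 100 * C ^ 4 / k ^ 2) * ε ≤ 1)
    (n6 : η + x + v ^ 3 ≤ ε * y) :
    2 * (C * (2 * η) + C * x + 22 * b * (C * v) ^ 3 / k ^ 2) < y / 2 := by
  have C0 : 0 ≤ C := by linarith
  have v3 : 0 ≤ v ^ 3 := by positivity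
  have a1 : C * (2 * η + x) ≤ C * (2 * (ε * y)) := by gcongr; linarith
  have a2 : 22 * b * (C * v) ^ 3 / k ^ 2 ≤ 22 * (C ^ 4 / k ^ 2) * (ε * y) :=
    calc _ ≤ 22 * C * (C * v) ^ 3 / k ^ 2 := by gcongr
      _ = 22 * (C ^ 4 / k ^ 2) * v ^ 3 := by ring
      _ ≤ _ := by gcongr; linarith
  have a3 := mul_le_mul_of_nonneg_right hε y0.le
  have ε0 : 0 ≤ ε * y := by linarith
  have a4 : 0 ≤ C * (ε * y) := by positivity
  have a5 : 0 ≤ C ^ 4 / k ^ 2 * (ε * y) := by positivity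
  have e : (16 * C + 100 * C ^ 4 / k ^ 2) * ε * y =
    16 * (C * (ε * y)) + 100 * (C ^ 4 / k ^ 2 * (ε * y)) := by ring
  linarith

set_option maxHeartbeats 800000 in
/-- **all gaps are short** -/
theorem gapW (T0 C0 : ℝ) : ∃ ε : ℝ, 0 < ε ∧ ε ≤ 1 ∧ ∀ {S : Sc} {M : Md} {m : ℕ} {a T : ℝ}
    {Gn : ℕ → Prop} {U V : ℕ} {e o cu al W : ℕ → ℝ} {la be θ Kw : ℝ},
    GH S M m a T Gn U V e o cu al la be θ → S.C ≤ C0 → T ≤ T0 → (∀ k, 0 < W k) → 0 ≤ Kw →
    (∀ p q, Nx Gn U V p q → W p < ds M m a p q ^ 2 → ∃ i j η α o' μ Mc τ0 Dm w,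
      Wn S M m a T Gn U V e o al W la be θ ε Kw p q i j η α o' μ Mc τ0 Dm w) →
    ∀ p q, Nx Gn U V p q → ds M m a p q ^ 2 ≤ W p := by
  classical
  obtain ⟨K, K1, hK⟩ := L0.Gd_up T0
  have k0 := kc_pos T0
  set C1 := max C0 1 with hC1
  have c1 : 1 ≤ C1 := le_max_right _ _
  have P1 : 0 < 120 * C1 * (1 + K + kc T0) := by positivity
  have P2 : 0 < 16 * C1 + 100 * C1 ^ 4 / kc T0 ^ 2 := by positivity
  obtain ⟨ε, ε0, ε1, ε2⟩ : ∃ ε : ℝ, 0 < ε ∧ 120 * C1 * (1 + K + kc T0) * ε ≤ kc T0 ∧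
      (16 * C1 + 100 * C1 ^ 4 / kc T0 ^ 2) * ε ≤ 1 :=
    ⟨min (kc T0 / (120 * C1 * (1 + K + kc T0))) (1 / (16 * C1 + 100 * C1 ^ 4 / kc T0 ^ 2)),
      by positivity, by rw [← le_div_iff₀' P1]; exact min_le_left _ _,
      by rw [← le_div_iff₀' P2]; exact min_le_right _ _⟩
  have ε3 : 120 * (C1 * ε) ≤ kc T0 := by
    nlinarith [mul_nonneg (mul_nonneg (show 0 ≤ C1 by linarith) ε0.le)
      (show 0 ≤ K + kc T0 by linarith)]
  have ε4 : 120 * (C1 * ε) ≤ 1 := by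
    refine le_of_mul_le_mul_right ?_ (show 0 < 1 + K + kc T0 by linarith)
    linarith
  have ε5 : ε ≤ C1 * ε := le_mul_of_one_le_left ε0.le c1
  refine ⟨ε, ε0, by linarith, fun {S M m a T Gn U V e o cu al W la be θ Kw} G hC hT W0 Kw0 hw => ?_⟩
  by_contra hn
  push Not at hn
  obtain ⟨p0, q0, n0, c0⟩ := hn
  have A := G.A
  have mem : ∀ r k, Nx Gn U V r k → (r, k) ∈ (range (V + 1) ×ˢ range (V + 1)).filter
      fun x : ℕ × ℕ => Nx Gn U V x.1 x.2 := fun r k n => by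
    obtain ⟨n1, n2, n3, -⟩ := id n
    simp only [mem_filter, mem_product, mem_range]
    exact ⟨⟨by omega, by omega⟩, n⟩
  obtain ⟨⟨p, q⟩, hx, mx⟩ := exists_max_image _ (fun x : ℕ × ℕ => ds M m a x.1 x.2 ^ 2 / W x.1)
    ⟨_, mem _ _ n0⟩
  have n : Nx Gn U V p q := (mem_filter.1 hx).2
  have r1 : 1 < ds M m a p q ^ 2 / W p :=
    ((one_lt_div (W0 p0)).2 c0).trans_le (mx _ (mem _ _ n0))
  have c : W p < ds M m a p q ^ 2 := (one_lt_div (W0 p)).1 r1
  obtain ⟨i, j, η, α, o', μ, Mc, τ0, Dm, w, X⟩ := hw p q n c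
  obtain ⟨n1, n2, n3, gp, gq, hbad⟩ := id n
  obtain ⟨η0, α0, o0, M0⟩ := X.nn
  have hL0 := ds_nn A n2
  have wL : w ≤ ds M m a p q := (pow_le_pow_iff_left₀ X.w0.le hL0 two_ne_zero).1 (by linarith [X.w1])
  have w0 := X.w0
  have pq : p < q := lt_of_le_of_ne n2 fun h => by
    subst h; simp only [ds, sub_self] at wL; linarith
  have hB : ∀ r k, Nx Gn U V r k → i ≤ r → k ≤ j → ds M m a r k ^ 2 ≤ Kw * ds M m a p q ^ 2 :=
    fun r k nr u1 u2 => by
    have b1 := mx _ (mem _ _ nr)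
    simp only at b1
    rw [div_le_div_iff₀ (W0 r) (W0 p)] at b1
    have b2 := mul_le_mul_of_nonneg_left (X.nd r u1 (nr.2.1.trans u2)).1 (sq_nonneg (ds M m a p q))
    refine le_of_mul_le_mul_right ?_ (W0 p)
    linarith
  have hU := G.hU
  have hV := G.hV
  have J1 := A.cl.i3
  have i0 := X.i0
  have ip := X.ip
  have qj := X.qj
  have j1 := X.j1
  obtain ⟨b1, b2⟩ := A.b_mem
  have CC : S.C ≤ C1 := hC.trans (le_max_left _ _)
  have bC : M.b ≤ C1 := b2.trans CC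
  have ok := A.okb
  have v0 := v_pos A.cl
  have lv : ∀ k, i ≤ k → k ≤ j → lvr 1 (lb M S m a T) (sb M m a (k + 1)) = M.z k :=
    fun k u1 u2 => A.lvb_node (by omega) (by omega)
  have E1 : ∀ x y, i ≤ x → x ≤ y → y ≤ j → Gn x → Gn y → ∀ Z,
      ∑ t ∈ Ioo x y, (M.z t - M.z (t - 1)) * cu t ≤ Z →
      |M.b * res M S m a T y - M.b * res M S m a T x| ≤ C1 * (2 * η + la * ds M m a x y + Z) +
        C1 * o' * (gd M S m a T x + gd M S m a T y) := fun x y u1 u2 u3 gx gy Z hZ => by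
    have d1 := G.e1 x y (by omega) u2 (by omega) gx gy
    obtain ⟨d2, d3⟩ := (X.nd x u1 (by omega)).2.2 gx
    obtain ⟨d4, d5⟩ := (X.nd y (by omega) u3).2.2 gy
    have d6 := mul_le_mul_of_nonneg_right d3 (show 0 ≤ gd M S m a T x from abs_nonneg _)
    have d7 := mul_le_mul_of_nonneg_right d5 (show 0 ≤ gd M S m a T y from abs_nonneg _)
    rw [← mul_sub, abs_mul, abs_of_nonneg (by linarith)]
    refine (mul_le_mul bC (show _ ≤ 2 * η + la * ds M m a x y + Z +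
      o' * (gd M S m a T x + gd M S m a T y) by linarith) (abs_nonneg _) (by linarith)).trans_eq ?_
    ring
  have εw := mul_le_mul_of_nonneg_left wL ε0.le
  have kL := mul_le_mul_of_nonneg_right ε3 hL0
  have μ0 := X.μ0
  have αθ := mul_nonneg α0 G.θ0
  have Mθ := mul_nonneg M0 G.θ0
  have hθ : θ ≤ ε := by
    have := X.n1
    nlinarith [mul_nonneg G.θ0 (mul_nonneg G.be0 (show 0 ≤ 1 + Kw by linarith))]
  have Dm0 : 0 ≤ Dm := (abs_nonneg _).trans X.Dp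
  have hτ1 : 8 * (C1 * o') * Dm / (μ / 2) ≤ o' * Dm / (ε * μ) := by
    rw [div_le_div_iff₀ (by positivity) (by positivity)]
    nlinarith [mul_le_mul_of_nonneg_right ε4 (show 0 ≤ o' * Dm * μ by positivity),
      show 0 ≤ o' * Dm * μ by positivity]
  have cα : C1 * (α + o') ≤ μ / 120 := by
    have := mul_le_mul_of_nonneg_left X.n4 (show 0 ≤ C1 by linarith)
    nlinarith [mul_le_mul_of_nonneg_right ε4 μ0.le]
  have cα1 := mul_nonneg (show 0 ≤ C1 by linarith) α0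
  have co1 := mul_nonneg (show 0 ≤ C1 by linarith) o0
  have lab2 : ∀ x y, Nx Gn U V x y → x < y → M.z y ≤ M.z x + (C1 * S.v + θ * ds M m a x y) :=
    fun x y nx c => by
    have d1 := G.lab x y nx c
    have d2 := (A.cl.zs (y - 1) (by have := A.cl.i1; have := nx.1; omega)
      (by have := nx.2.2.1; omega)).2
    rw [show y - 1 + 1 = y by omega] at d2
    linarith [mul_le_mul_of_nonneg_right CC v0.le]
  have R := L0.G89.len2 (T := T0) (L0.ap_of_ok ok.1) (ok.2.trans_le hT) (b := M.b)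
    (δ := C1 * S.v) (θ := θ) (η := C1 * (2 * η) + C1 * (1 / (m + 1)))
    (lam := C1 * (la + be * (Kw * ds M m a p q ^ 2) * θ)) (o := C1 * o') (m := μ / 2)
    (A := C1 * (2 * η + la * ds M m a p q + (α * (θ * ds M m a p q) +
      be * ds M m a p q ^ 2 * θ * ds M m a p q)) + Mc * (C1 * S.v + θ * ds M m a p q))
    (τ0 := τ0) (Dm := Dm) (K := K) (σ := fun k => sb M m a (k + 1)) (Gn := Gn) (u := i) (v := j)
    (p := p) (q := q) (hK _ (L0.ap_of_ok ok.1) (ok.2.trans_le hT)) (by linarith) (by linarith)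
    (fun k u1 u2 => by rw [ok.2]; exact A.sb_mem (by omega))
    (fun x y _ u2 _ => A.sb_mono (by omega)) (by positivity)
    (fun x y u1 u2 u3 gx gy nb => by
      rw [lv x u1 (by omega), lv y (by omega) u3]
      exact lab2 x y ⟨by omega, u2.le, by omega, gx, gy, nb⟩ u2)
    ip pq qj gp gq hbad
    (fun x y u1 u2 u3 gx gy => by
      rw [lv x u1 (by omega), lv y (by omega) u3, rho_eq A (by omega) (by omega),
        rho_eq A (by omega) (by omega)]
      have d1 := G.clock (i := x) (j := j) (by omega) j1 gx α0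
        (fun t v1 v2 => (X.nd t (by omega) v2).2.1) (fun r k nr v1 v2 => hB r k nr (by omega) v2)
        y u2 u3 gy
      have d2 := (abs_le.1 (E1 x y u1 u2 u3 gx gy _ ((sum_le_sum_of_subset_of_nonneg
        Ioo_subset_Ioc_self fun t _ _ => mul_nonneg (A.dz_nn t) (G.c0 t)).trans d1))).2
      obtain ⟨t1, -⟩ := A.tail_mem (k := x) (A.jp_le (by omega))
      obtain ⟨-, t4⟩ := A.tail_mem (k := y) (A.jp_le (by omega))
      rw [d_top A.cl (by omega) (A.jp_le (by omega))] at t1 t4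
      have t5 : S.C / (m + 1) ≤ C1 * (1 / (m + 1)) := by rw [mul_one_div]; gcongr
      have d3 := X.fl x y u1 u2 u3
      have d4 := mul_le_mul_of_nonneg_right (show C1 * α ≤ μ / 2 by linarith)
        (sub_nonneg.2 (A.cl.leg.zm u2))
      simp only [gd, ds] at d2 ⊢
      linarith)
    (by
      rw [rho_eq A (by omega) (by omega), rho_eq A (by omega) (by omega)]
      have d1 := G.one n pq α0 (fun y u1 u2 => (X.nd y (by omega) (by omega)).2.1) le_rfl
      have d0 := mul_le_mul_of_nonneg_left (G.lab p q n pq) α0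
      have d2 := (abs_le.1 (E1 p q ip n2 qj gp gq (α * (θ * ds M m a p q) +
        be * ds M m a p q ^ 2 * θ * ds M m a p q) (by linarith))).1
      have d3 := X.ce.trans (mul_le_mul_of_nonneg_left (show M.z q - M.z p ≤
        C1 * S.v + θ * ds M m a p q by linarith [lab2 p q n pq]) M0)
      have d4 : M.b * M.rb m a p / (m + 1) ≤ M.b * M.rb m a q / (m + 1) := by
        have := rb_mono (M := M) (a := a) A.m_pos n2
        gcongr
      simp only [gd] at d2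
      linarith)
    X.gi X.gj (by rw [lv q (by omega) qj, lv j (by omega) le_rfl]; linarith [X.up])
    (by rw [lv i le_rfl (by omega), lv p ip (by omega)]; linarith [X.dn]) X.Dp X.Dq co1
    (by positivity) X.τp (by linarith)
    (by
      have := mul_le_mul_of_nonneg_left (X.n2.1.trans εw) (show 0 ≤ C1 by linarith)
      have := mul_nonneg (show 0 ≤ C1 by linarith) v0.le
      unfold ds at *; linarith)
    (by
      have := mul_le_mul_of_nonneg_right ε5 hL0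
      have := X.τp
      have := X.n2.2
      unfold ds at *; linarith)
    (by
      have d1 : ε * w ^ 2 ≤ ε * ds M m a p q ^ 2 := by gcongr
      have d2 := mul_le_mul_of_nonneg_left (show o' ≤ ε * ds M m a p q ^ 2 by
        linarith [X.n3, G.la0]) (show 0 ≤ C1 by linarith)
      have d3 := mul_le_mul_of_nonneg_right ε4 (sq_nonneg (ds M m a p q))
      have d4 := mul_le_mul_of_nonneg_right b1 (sq_nonneg (ds M m a p q))
      unfold ds at *; linarith)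
    (by linarith)
    (by
      have := aux_tau k0 c1 bC η0 (show (0 : ℝ) ≤ 1 / (m + 1) by positivity) v0.le
        (mul_pos μ0 X.τp) ε2 X.n6
      linarith)
  have F := aux_fin k0 (by linarith) c1 ε1 w0 wL b1 ε0.le η0 M0 v0.le G.la0 α0 G.θ0 o0 X.n1 X.n3
    X.n5
  unfold ds at *
  linarith

end Crest.Agent.T156.Alt.G89

end
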