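import Crest.Agent.T156.TL1cD_74
import Crest.Agent.T156.Lag_8
import Crest.Agent.T156.NdS_89
import Crest.Agent.T156.CutD_93
import Crest.Agent.T156.EoT_25

/-!
# Row 156, block (L): the internal statements of (TL1x), (BoS), (TkE) (helper31)

Total time `T = 2 C`.  `u` is the first node of the bulk, `v` the last one, `A = sb (u + 1)`,
`s = sb (v + 1)`.
-/

set_option autoImplicit false

noncomputable section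

namespace Crest.Agent.T156.Alt.L31

open MeasureTheory Set Real
open Crest.Agent.R164.GC Crest.Agent.R339.B Crest.Agent.R339.Var Crest.Agent.T157.Pf
open Crest.Agent.T156.Cut8 (LB Res Jf Cont Rt Fr)
open Crest.Agent.T156.Gap27 (HN NumM xi resN)
open Crest.Agent.T156.Alt.Mp9 Crest.Agent.T156.Alt.L69 Crest.Agent.T156.Alt.C74

/-- the free numbers -/
structure Pa where
  (G1 u1 u2 j γ Lc ηc τ l0 l V X Xp Vt V2 Lg Lp X2 X3 G0 N' N : ℝ)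
  η : ℝ → ℝ

/-- the hypotheses; `lam` is the loss of the crude location -/
structure Hx (E lam : ℝ) (S : Sc) (M : Md) (m : ℕ) (a : ℝ) (p : Pa) : Prop where
  ce : CeiG S M p.G1
  ln : LN E S M p.l0 p.l p.V p.X p.Lg p.X2 p.X3 p.G0 p.η
  lp : LP E S M p.Xp p.Vt p.Lg p.Lp p.X2 p.X3 p.G0 p.G1 p.u1 p.u2 p.j p.γ p.Lc p.ηc p.τ p.η p.N'
  lc : LC E S M p.Xp p.Vt p.V2 p.Lg p.Lp p.X2 p.G0 p.G1 p.u1 p.u2 p.j p.γ p.ηc p.τ p.η p.N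
  F40 : S.F ^ 40 ≤ E
  ap : Ap S M m a p.l0 p.X p.Xp p.Vt p.u1 p.j
  ap2 : Ap2 S M m a p.V2 p.u1 p.u2
  l1 : 1 ≤ lam
  lE : lam ^ 1000 ≤ E
  Vl : p.V ≤ cr S p.l * p.l
  cru : ∀ k ≤ S.Jp, M.rb m a k ≤ lam * cl S p.V (max (M.z k) p.l0)

section defs

variable (S : Sc) (M : Md) (m : ℕ) (a : ℝ) (p : Pa)

/-- `Γ[zb] - Γ[zh]` -/
def rq (t : ℝ) : ℝ := Pr.Gam (lb M S m a (2 * S.C)) t - Pr.Gam (lh M (2 * S.C)) t
/-- **first node** of the bulk -/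
def Vs (Gn : ℕ → Prop) (u : ℕ) : Prop := Gn u ∧ 9 / 8 * max p.l (2 * p.l0) ≤ M.s u
/-- **last node** of the bulk -/
def Ve (Gn : ℕ → Prop) (V0 v : ℕ) : Prop := Gn v ∧ v ≤ V0 ∧ M.s S.J ≤ 4 * M.s v ∧
  M.s S.J ≤ 4 * sb M m a (v + 1) ∧ sb M m a (v + 1) < M.s S.J
/-- the slow error at the end of the bulk -/
def bE (s : ℝ) : ℝ := p.η 1 + G89.Ug S p.Lg 1 ^ 2 *
  (|L0.Gd (lb M S m a (2 * S.C)) s| + |uu M S m a (2 * S.C) s|) + p.X2 * |uu M S m a (2 * S.C) s|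
/-- the low part of the absolute form of (E1) -/
def rh (u : ℕ) : ℝ := (sb M m a (u + 1) + M.s u) * p.X2 + M.s u * cl S p.V (M.s u) ^ 2
/-- the cost of the zone above the bulk -/
def Nn (X4 t4 : ℝ) : ℝ := p.N + p.X2 ^ 2 + X4 + cB M S p.η t4 S.C + 1 / (S.n : ℝ) ^ 3
end defs

/-- **the net of good nodes** with the loss `W` -/
structure Ng (E W : ℝ) (S : Sc) (M : Md) (m : ℕ) (a : ℝ) (p : Pa) (Gn : ℕ → Prop) (V0 : ℕ) :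
    Prop where
  ng : G89.NG E W S M m a (2 * S.C) (max p.l (2 * p.l0)) p.Lg p.X2
    (S.F * (p.τ + (p.η 1 + G89.Ug S p.Lg 1 ^ 2 * p.γ) / mf S 1)) p.η Gn V0
  n2 : E61.Nu M m a (E61.u4 M m a) 2 ≤ W * p.X2
  cru : ∀ k < M.N, E61.u4 M m a k ≤ W * cl S p.V (max (M.z k) p.l0)

/-- **the bulk** on `[sb (u + 1), sb (v + 1)]`: loss `W`, pairing constant `θ0` -/
structure Bk (W θ0 : ℝ) (S : Sc) (M : Md) (m : ℕ) (a : ℝ) (p : Pa) (Gn : ℕ → Prop) (u v : ℕ)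
    (r1 r2 ω β f : ℝ → ℝ) : Prop where
  lf : LB (2 * S.C) f
  R : Res (2 * S.C) (uu M S m a (2 * S.C)) (rq S M m a) (HH M S m a (2 * S.C)) r1 r2 ω β
    (fun t => xi θ0 (mm M S m a t) (f t) (io M S m a (2 * S.C)) (uu M S m a (2 * S.C) t)
      (JJ M S m a (2 * S.C) t)) (sb M m a (u + 1)) (sb M m a (v + 1))
  r2s : r2 (sb M m a (v + 1)) = resN (lb M S m a (2 * S.C)) M.b (sb M m a) (hb M) (v + 1)
  be : 0 ≤ β (sb M m a (v + 1)) ∧ β (sb M m a (v + 1)) ≤ W * bE S M m a p (sb M m a (v + 1))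
  ab : ∃ r, 0 ≤ r ∧ (∀ t0 t' Y, p.l ≤ t0 → t0 ≤ M.s u → 12 * S.C ^ 7 * t0 < 1 →
      sb M m a (u + 1) ≤ t' → L4 S p.V p.X t0 (min (2 * t') S.C) Y → 0 ≤ Y →
      r ^ 2 ≤ W * sb M m a (u + 1) * (t' * p.X2 ^ 2 + Y + 1 / (S.n : ℝ) ^ 3 +
        if 1 ≤ 16 * S.C ^ 5 * t' then p.N + cB M S p.η t0 S.C else 0)) ∧
    ∀ t, sb M m a (u + 1) ≤ t → t ≤ sb M m a (v + 1) →
      |r2 t| ≤ (∫ r in sb M m a (u + 1)..t, ω r) + (W * rh S M m a p u + r) + β t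
  nm : ∀ t, sb M m a (u + 1) < t → t < sb M m a (v + 1) → p.l ≤ t → ∃ A0 A1 A2, 0 ≤ A1 ∧
    NumM θ0 (mm M S m a t) (f t) A0 A1 A2 ∧ |r1 t| + β t ≤ A0 + A1 * |uu M S m a (2 * S.C) t| +
      A2 * (|JJ M S m a (2 * S.C) t| + io M S m a (2 * S.C))
  f0 : ∀ t, 0 ≤ t → 0 ≤ f t
  hF : ∀ k t0 t', u ≤ k → k ≤ v → Gn k → p.l ≤ t0 → t0 ≤ M.s u →
    4 * S.C ^ 4 * t0 ≤ t' → 12 * S.C ^ 7 * t0 < 1 → M.s k ≤ t' → sb M m a (k + 1) ≤ t' →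
    ∫ r in sb M m a (u + 1)..sb M m a (k + 1), f r ≤ W * (cB M S p.η t0 t' +
      S.F ^ 3 * S.ms t0 * t0 ^ 2 * max (t0 - sb M m a (u + 1)) 0 + 1 / (S.n : ℝ) ^ 3) +
      ∫ r in sb M m a (u + 1)..sb M m a (k + 1), HH M S m a (2 * S.C) r * uu M S m a (2 * S.C) r
  hΩ : ∀ k t0 t' Y, u ≤ k → k ≤ v → Gn k → p.l ≤ t0 → t0 ≤ M.s u →
    12 * S.C ^ 7 * t0 < 1 → sb M m a (k + 1) ≤ t' → L4 S p.V p.X t0 (min (2 * t') S.C) Y →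
    0 ≤ Y → ∫ r in sb M m a (u + 1)..sb M m a (k + 1), ω r ^ 2 ≤
      W * (t' * p.X2 ^ 2 + Y + 1 / (S.n : ℝ) ^ 3 +
        if 1 ≤ 16 * S.C ^ 5 * t' then p.N + cB M S p.η t0 S.C else 0) +
      θ0 ^ 2 * ∫ r in sb M m a (u + 1)..sb M m a (k + 1), uu M S m a (2 * S.C) r ^ 4

/-- **(NgX)** the net -/
def NgX : Prop := CL fun E Λ S M m a => ∀ p lam, Hx E lam S M m a p →
  ∃ Gn V0, Ng E (Λ * lam ^ 30) S M m a p Gn V0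


/-- **(BuS)** the bulk -/
def BuS : Prop := ∀ θ : ℝ → ℝ, (∀ C, 0 < θ C ∧ θ C ≤ 1) → CL fun E Λ S M m a =>
  ∀ p lam W Gn V0, Hx E lam S M m a p → lam ≤ W → W ^ 1000 ≤ E → Ng E W S M m a p Gn V0 →
  ∀ u v, Vs M p Gn u → Ve S M m a Gn V0 v → u < v →
  ∃ r1 r2 ω β f, Bk (Λ * W ^ 30) (θ S.C) S M m a p Gn u v r1 r2 ω β f

/-- **(TxS)** the continuation above the bulk -/
def TxS : Prop := CL fun E Λ S M m a => ∀ p lam K θ1 X4 t4 Gn V0, Hx E lam S M m a p → lam ≤ K →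
  K ^ 1000 ≤ E → 1 ≤ K * θ1 → E * t4 ≤ S.C → L4 S p.V p.X t4 S.C X4 → Ng E K S M m a p Gn V0 →
  ∃ v, Ve S M m a Gn V0 v ∧ ∀ A A0 En βs, 0 ≤ A → A ≤ sb M m a (v + 1) → 0 ≤ A0 →
    8 * A0 ≤ M.s S.J → (∫ t in A0..2 * S.C, JJ M S m a (2 * S.C) t ^ 2) +
      (∫ t in (0 : ℝ)..A0, |JJ M S m a (2 * S.C) t|) ^ 2 ≤ En → 0 ≤ βs →
    βs ≤ K * bE S M m a p (sb M m a (v + 1)) →
    Cont (2 * S.C) (uu M S m a (2 * S.C)) (rq S M m a)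
      (resN (lb M S m a (2 * S.C)) M.b (sb M m a) (hb M) (v + 1)) βs A (sb M m a (v + 1))
      (θ1 * En + Λ * K ^ 990 * S.F ^ 10 * Nn S M p X4 t4)
      (L25.QT S M m a (2 * S.C) (sb M m a (v + 1)) (Λ * K ^ 990 * p.u2) (Λ * K ^ 990 * S.F) En
        (S.F ^ 10 * Nn S M p X4 t4))

/-- **(BoK)** from the node form to the form read by the root and by the upper cuts -/
def BoK : Prop := CL fun E Λ S M m a => ∀ p lam W θ0 Gn V0 u v r1 r2 ω β f Eg,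
  Hx E lam S M m a p → p.l0 = p.l → p.V = cr S p.l * p.l → lam ≤ W → W ^ 1000 ≤ E →
  Λ ^ 1000 ≤ E → Ng E W S M m a p Gn V0 → Vs M p Gn u → M.s u ≤ 4 * p.l → Ve S M m a Gn V0 v →
  u < v → Bk W θ0 S M m a p Gn u v r1 r2 ω β f →
  ∫ r in (0 : ℝ)..2 * S.C, JJ M S m a (2 * S.C) r ^ 2 ≤ W * S.F ^ 12 * Eg →
  ∫ r in sb M m a (u + 1)..sb M m a (v + 1), HH M S m a (2 * S.C) r * uu M S m a (2 * S.C) r ≤
    W * S.F ^ 12 * Eg →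
  ∃ ρ, Bo S M m a (2 * S.C) θ0 (Λ * W ^ 10) p.l p.X p.X2 Eg p.η u (sb M m a (v + 1)) ρ
    r1 r2 ω β f

/-- **(RtK)** the root data of `Fr.top0`, `Fr.up0` from the local energy -/
def RtK : Prop := ∀ C B c θ0 : ℝ, 0 < c → 0 < θ0 → θ0 ≤ 1 → ∃ K : ℝ, 1 ≤ K ∧
  ∀ (S : Sc) (M : Md) (m : ℕ) (a G1 L l X X2 Eg Y : ℝ) (η : ℝ → ℝ) (u : ℕ) (s ρ : ℝ)
    (r1 r2 ω β f : ℝ → ℝ), At S M m a (2 * C) → S.C = C → CeiG S M G1 →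
  (∀ t t', 0 ≤ t → t ≤ t' → S.ms t' ≤ S.ms t + t' ^ 2) →
  Fr (2 * C) c B (Spl27.okT (2 * C)) (lvr 1) Pr.Gam Pr.GG → K ≤ L → 0 < l → L * S.v ≤ l ^ 2 →
  0 ≤ X2 → L ^ 4 * X2 ≤ mf S l → L ^ 2 * (cr S l * l) ≤ s →
  Bo S M m a (2 * C) θ0 L l X X2 Eg η u s ρ r1 r2 ω β f → 0 ≤ Y →
  ρ ≤ L * ((sb M m a (u + 1) + l) * X2 + l * (cr S l * l) ^ 2 + √(sb M m a (u + 1) * Y)) →
  ∃ l' D f0 Ar, Rt (2 * C) B θ0 (lvr 1 (lh M (2 * C))) (lvr 1 (lb M S m a (2 * C))) (rq S M m a)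
      (HH M S m a (2 * C)) r1 r2 ω β (mm M S m a) f (sb M m a (u + 1)) s l' D ρ f0 C
      (2 * (C * S.v)) ∧
    0 ≤ Ar ∧ l' ≤ L * (cr S l * l) ∧
    (∀ b, 2 * l' ≤ b → sb M m a (u + 1) ≤ b → b ≤ s →
      ρ * ∫ t in (0 : ℝ)..l', |uu M S m a (2 * C) t| ≤ Ar +
        (∫ t in sb M m a (u + 1)..b, HH M S m a (2 * C) t * uu M S m a (2 * C) t) / 16 +
        c / 32 * ∫ t in (0 : ℝ)..b, JJ M S m a (2 * C) t ^ 2) ∧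
    sb M m a (u + 1) * f0 + ρ ^ 2 / l' + Ar + mf S (sb M m a (u + 1)) * D ^ 2 * sb M m a (u + 1) ≤
      L ^ 70 * S.F ^ 10 * (W0 S l + cr S l * l * X2 ^ 2 + Y) +
      θ0 ^ 2 * ((∫ t in (0 : ℝ)..sb M m a (u + 1), JJ M S m a (2 * C) t ^ 2) +
        sb M m a (u + 1) * io M S m a (2 * C) ^ 2)

end Crest.Agent.T156.Alt.L31

end
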