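import Crest.Agent.T156.L0B_49
import Crest.Agent.T156.Sun_9

/-!
Row 156 (helper49): length bounds for the gaps between consecutive good nodes
(docs/T156_69.md sec. 4 (a), (b)), node form.
-/

set_option autoImplicit false

namespace Crest.Agent.T156.L0

open MeasureTheory Set Filter Topology
open Crest.Agent.R164.GC Crest.Agent.R339.B Crest.Agent.R339.Var Crest.Agent.T157.Pf
open Crest.Agent.T156.Pp Crest.Agent.T156.Pp.Ode3 Crest.Agent.T156.Str

noncomputable section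

variable {l : List (ℝ × ℝ)} {T : ℝ}

/-- `ρ = b Γ - σ` -/
def rho (b : ℝ) (l : List (ℝ × ℝ)) (t : ℝ) : ℝ := b * Gam l t - t

theorem cub_low {k d y : ℝ} (hk : 0 < k) (hd : 0 ≤ d) (hy : 0 ≤ y) :
    -(22 * d ^ 3 / k ^ 2) ≤ k / 12 * y ^ 3 - d * y ^ 2 := by
  have e : 22 * d ^ 3 / k ^ 2 = 22 * k * (d / k) ^ 3 := by field_simp
  have e2 : d = k * (d / k) := by field_simp
  rw [e]
  set a := d / k
  have a0 : 0 ≤ a := by positivity
  rw [e2]
  have : 0 ≤ y ^ 3 / 12 - a * y ^ 2 + 22 * a ^ 3 := by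
    nlinarith [mul_nonneg (sq_nonneg (y - 8 * a)) (by positivity : 0 ≤ y + 4 * a), pow_nonneg a0 3]
  nlinarith [mul_nonneg hk.le this]

theorem dcub (p q w u r : ℝ) : HasDerivAt (fun r => p * (r - u) + q / 2 * (r - u) ^ 2 +
    w / 3 * (r - u) ^ 3) (p + q * (r - u) + w * (r - u) ^ 2) r := by
  have d := (hasDerivAt_id' r).sub_const u
  have := ((d.const_mul p).add ((d.pow 2).const_mul (q / 2))).add ((d.pow 3).const_mul (w / 3))
  refine this.congr_deriv ?_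
  push_cast
  ring

/-- continuation above an unstable end: first a stretch of small label move, then one gap -/
theorem floor_up (h : AP l) (hT : TT l ≤ T) {b t t2 t1 τ δ θ g : ℝ} (hb : 0 ≤ b) (h0 : 0 ≤ t)
    (h1 : t ≤ t2) (h2 : t2 ≤ t1) (ht : t1 ≤ TT l) (hδ : 0 ≤ δ) (hθ : 12 * θ ≤ kc T)
    (hτ : lvr 1 l t2 ≤ lvr 1 l t + τ) (hD : lvr 1 l t1 ≤ lvr 1 l t2 + (δ + θ * (t1 - t2)))
    (hp : 2 * τ ≤ Gd l t) (hg : 1 + g ≤ b * Gp l t) :
    g * (t1 - t) - 22 * b * δ ^ 3 / kc T ^ 2 ≤ rho b l t1 - rho b l t := by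
  have m := lvr_mono h.adm
  have k0 := kc_pos T
  have mono : ∀ r ∈ Icc t t2, Gp l t ≤ Gp l r := fun r hr => by
    have b3 := Gp_right h hT h0 hr.1 (hr.2.trans (h2.trans ht)) (Z := lvr 1 l t + τ)
      fun v hv => (m (hv.2.le.trans hr.2)).trans hτ
    have b4 : 0 ≤ (Gd l t - 2 * (lvr 1 l t + τ - lvr 1 l t)) * (r - t) :=
      mul_nonneg (by linarith) (sub_nonneg.2 hr.1)
    have b5 : 0 ≤ kc T / 2 * (r - t) ^ 2 := by positivity
    linarith
  have a1 := le_rho h (b := b) (g := g) h0 h1 (h2.trans ht) fun r hr =>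
    hg.trans (mul_le_mul_of_nonneg_left (mono r ⟨hr.1, hr.2.le⟩) hb)
  have a2 : 0 ≤ Gd l t2 := by
    have := Gd_mono h hT h0 h1 (h2.trans ht)
    have := mul_nonneg k0.le (sub_nonneg.2 h1)
    linarith
  have a3 := hg.trans (mul_le_mul_of_nonneg_left (mono t2 ⟨h1, le_rfl⟩) hb)
  set D := δ + θ * (t1 - t2) with hDd
  have s0 := h0.trans h1
  have a4 := le_of_rder (f := fun r => ((1 + g) * (r - t2) + -(2 * b * D) / 2 * (r - t2) ^ 2 +
      b * kc T / 2 / 3 * (r - t2) ^ 3) - b * Gam l r) h2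
    ((by fun_prop : ContinuousOn (fun r => (1 + g) * (r - t2) + -(2 * b * D) / 2 * (r - t2) ^ 2 +
      b * kc T / 2 / 3 * (r - t2) ^ 3) _).sub
      (continuousOn_const.mul ((Gam_cont h).mono (Icc_subset_Icc s0 ht))))
    (fun r hr => (dcub _ _ _ t2 r).hasDerivWithinAt.sub
      ((Gam_rder h (s0.trans hr.1) (hr.2.trans_le ht)).const_mul b))
    (fun r hr => by
      have b3 := Gp_right h hT s0 hr.1 (hr.2.le.trans ht) (Z := lvr 1 l t2 + D)
        fun v hv => (m (hv.2.le.trans hr.2.le)).trans hD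
      have b4 := mul_nonneg a2 (sub_nonneg.2 hr.1)
      have b5 := mul_le_mul_of_nonneg_left (show -(2 * D) * (r - t2) + kc T / 2 * (r - t2) ^ 2 ≤
        Gp l r - Gp l t2 by linarith) hb
      linarith)
  simp only [sub_self] at a4
  have y0 := sub_nonneg.2 h2
  have a5 := mul_le_mul_of_nonneg_left (cub_low k0 hδ y0) hb
  have a6 := mul_le_mul_of_nonneg_right hθ (by positivity : 0 ≤ b * (t1 - t2) ^ 3)
  have e : 22 * b * δ ^ 3 / kc T ^ 2 = b * (22 * δ ^ 3 / kc T ^ 2) := by ring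
  unfold rho
  rw [e]
  rw [hDd] at a4
  nlinarith

/-- continuation below an unstable end -/
theorem floor_down (h : AP l) (hT : TT l ≤ T) {b s s2 s1 τ δ θ g : ℝ} (hb : 0 ≤ b) (h0 : 0 ≤ s1)
    (h1 : s1 ≤ s2) (h2 : s2 ≤ s) (ht : s ≤ TT l) (hδ : 0 ≤ δ) (hθ : 12 * θ ≤ kc T)
    (hτ : lvr 1 l s ≤ lvr 1 l s2 + τ) (hD : lvr 1 l s2 ≤ lvr 1 l s1 + (δ + θ * (s2 - s1)))
    (hp : Gd l s ≤ -(2 * τ)) (hg : 1 + g ≤ b * Gp l s) :
    g * (s - s1) - 22 * b * δ ^ 3 / kc T ^ 2 ≤ rho b l s - rho b l s1 := by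
  have m := lvr_mono h.adm
  have k0 := kc_pos T
  have s0 := h0.trans h1
  have mono : ∀ r ∈ Icc s2 s, Gp l s ≤ Gp l r := fun r hr => by
    have b3 := Gp_left h hT (s0.trans hr.1) hr.2 ht
    have z : lvr 1 l s2 ≤ lvr 1 l r := m hr.1
    have b4 : (Gd l s + 2 * (lvr 1 l s - lvr 1 l r)) * (s - r) ≤ 0 :=
      mul_nonpos_of_nonpos_of_nonneg (by linarith) (sub_nonneg.2 hr.2)
    have b5 : 0 ≤ kc T / 2 * (s - r) ^ 2 := by positivity
    linarith
  have a1 := le_rho h (b := b) (g := g) s0 h2 ht fun r hr =>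
    hg.trans (mul_le_mul_of_nonneg_left (mono r ⟨hr.1, hr.2.le⟩) hb)
  have a2 : Gd l s2 ≤ 0 := by
    have := Gd_mono h hT s0 h2 ht
    have := mul_nonneg k0.le (sub_nonneg.2 h2)
    linarith
  have a3 := hg.trans (mul_le_mul_of_nonneg_left (mono s2 ⟨le_rfl, h2⟩) hb)
  set D := δ + θ * (s2 - s1) with hDd
  have a4 := le_of_rder (f := fun r => ((1 + g) * (r - s2) + 2 * b * D / 2 * (r - s2) ^ 2 +
      b * kc T / 2 / 3 * (r - s2) ^ 3) - b * Gam l r) h1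
    ((by fun_prop : ContinuousOn (fun r => (1 + g) * (r - s2) + 2 * b * D / 2 * (r - s2) ^ 2 +
      b * kc T / 2 / 3 * (r - s2) ^ 3) _).sub
      (continuousOn_const.mul ((Gam_cont h).mono (Icc_subset_Icc h0 (h2.trans ht)))))
    (fun r hr => (dcub _ _ _ s2 r).hasDerivWithinAt.sub
      ((Gam_rder h (h0.trans hr.1) (hr.2.trans_le (h2.trans ht))).const_mul b))
    (fun r hr => by
      have b3 := Gp_left h hT (h0.trans hr.1) hr.2.le (h2.trans ht)
      have z : lvr 1 l s1 ≤ lvr 1 l r := m hr.1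
      have b4 : (Gd l s2 + 2 * (lvr 1 l s2 - lvr 1 l r)) * (s2 - r) ≤ 2 * D * (s2 - r) :=
        mul_le_mul_of_nonneg_right (by linarith) (sub_nonneg.2 hr.2.le)
      have b5 := mul_le_mul_of_nonneg_left (show Gp l s2 - Gp l r ≤
        2 * D * (s2 - r) - kc T / 2 * (s2 - r) ^ 2 by linarith) hb
      nlinarith)
  simp only [sub_self] at a4
  have y0 := sub_nonneg.2 h1
  have a5 := mul_le_mul_of_nonneg_left (cub_low k0 hδ y0) hb
  have a6 := mul_le_mul_of_nonneg_right hθ (by positivity : 0 ≤ b * (s2 - s1) ^ 3)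
  have e : 22 * b * δ ^ 3 / kc T ^ 2 = b * (22 * δ ^ 3 / kc T ^ 2) := by ring
  unfold rho
  rw [e]
  rw [hDd] at a4
  nlinarith

/-- a long gap has an unstable end -/
theorem unstable_end (h : AP l) (hT : TT l ≤ T) {b s t D δ : ℝ} (hb : 0 ≤ b) (h0 : 0 ≤ s)
    (hst : s < t) (ht : t ≤ TT l) (hD : lvr 1 l t ≤ lvr 1 l s + D) (hκ : 8 * D ≤ kc T * (t - s))
    (hδ : -δ ≤ rho b l t - rho b l s) :
    (kc T / 4 * (t - s) ≤ Gd l t ∧
        1 + (b * kc T / 24 * (t - s) ^ 2 - δ / (t - s)) ≤ b * Gp l t) ∨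
      (Gd l s ≤ -(kc T / 4 * (t - s)) ∧
        1 + (b * kc T / 24 * (t - s) ^ 2 - δ / (t - s)) ≤ b * Gp l s) := by
  have m := lvr_mono h.adm
  have k0 := kc_pos T
  have L0 : 0 < t - s := sub_pos.2 hst
  have a := mul_le_mul_of_nonneg_left (area h hT (D := D) h0 hst.le ht fun r hr => by
    have : lvr 1 l r ≤ lvr 1 l t := m hr.2.le
    linarith) hb
  set g := b * kc T / 24 * (t - s) ^ 2 - δ / (t - s) with hg
  have a1 : 2 * (1 + g) ≤ b * Gp l s + b * Gp l t := by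
    refine le_of_mul_le_mul_left ?_ L0
    have e : (t - s) * (δ / (t - s)) = δ := mul_div_cancel₀ _ L0.ne'
    have a2 := mul_le_mul_of_nonneg_left hκ (by positivity : 0 ≤ b * (t - s) ^ 2)
    unfold rho at hδ
    rw [hg]
    nlinarith
  rcases le_total (Gp l s) (Gp l t) with hc | hc
  · left
    have b1 := Gp_left h hT h0 hst.le ht
    have b2 : kc T / 2 * (t - s) ≤ Gd l t + 2 * (lvr 1 l t - lvr 1 l s) := by
      refine le_of_mul_le_mul_right ?_ L0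
      nlinarith
    have b7 := mul_le_mul_of_nonneg_left hc hb
    constructor <;> linarith
  · right
    have b1 := Gp_right h hT h0 hst.le ht (Z := lvr 1 l t) fun v hv => m hv.2.le
    have b2 : Gd l s - 2 * (lvr 1 l t - lvr 1 l s) ≤ -(kc T / 2 * (t - s)) := by
      refine le_of_mul_le_mul_right ?_ L0
      nlinarith
    have b7 := mul_le_mul_of_nonneg_left hc hb
    constructor <;> linarith

/-- node data on the index window `[u,v]`: times `σ`, marks `hm`, good nodes `Gn` -/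
structure Nd (b : ℝ) (l : List (ℝ × ℝ)) (σ hm : ℕ → ℝ) (Gn : ℕ → Prop) (u v : ℕ)
    (δ θ η lam M : ℝ) : Prop where
  nn : 0 ≤ σ u
  top : σ v ≤ TT l
  mono : ∀ i j, u ≤ i → i ≤ j → j ≤ v → σ i ≤ σ j
  δ0 : 0 ≤ δ
  M0 : 0 ≤ M
  gap : ∀ i j, u ≤ i → i < j → j ≤ v → Gn i → Gn j → (∀ k, i < k → k < j → ¬ Gn k) →
    lvr 1 l (σ j) ≤ lvr 1 l (σ i) + (δ + θ * (σ j - σ i))
  e1 : ∀ i j, u ≤ i → i ≤ j → j ≤ v → Gn i → Gn j →
    |rho b l (σ j) + hm j - (rho b l (σ i) + hm i)| ≤ η + lam * (σ j - σ i)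
  ceil : ∀ i j, u ≤ i → i ≤ j → j ≤ v → hm j - hm i ≤ M * (lvr 1 l (σ j) - lvr 1 l (σ i))

namespace Nd

variable {b δ θ η lam M : ℝ} {σ hm : ℕ → ℝ} {Gn : ℕ → Prop} {u v p q : ℕ}

theorem mem (N : Nd b l σ hm Gn u v δ θ η lam M) {i : ℕ} (h1 : u ≤ i) (h2 : i ≤ v) :
    0 ≤ σ i ∧ σ i ≤ TT l :=
  ⟨N.nn.trans (N.mono u i le_rfl h1 h2), (N.mono i v h1 h2 le_rfl).trans N.top⟩

/-- drop of `ρ` across a gap -/
theorem drop (N : Nd b l σ hm Gn u v δ θ η lam M) (hu : u ≤ p) (hpq : p < q) (hv : q ≤ v)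
    (gp : Gn p) (gq : Gn q) (hbad : ∀ k, p < k → k < q → ¬ Gn k) :
    -(η + M * δ + (lam + M * θ) * (σ q - σ p)) ≤ rho b l (σ q) - rho b l (σ p) := by
  have a1 := N.gap p q hu hpq hv gp gq hbad
  have a2 := (abs_le.1 (N.e1 p q hu hpq.le hv gp gq)).1
  have a3 := N.ceil p q hu hpq.le hv
  have a4 := mul_le_mul_of_nonneg_left (show lvr 1 l (σ q) - lvr 1 l (σ p) ≤
    δ + θ * (σ q - σ p) by linarith) N.M0
  nlinarith



end Nd

/-- solving the cubic alternative: `c L³ ≤ A + B L`, `A ≤ c λ³/2`, `B ≤ c λ²/2` give `L ≤ λ` -/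
theorem le_of_cub {c A B L lam : ℝ} (hc : 0 < c) (hl : 0 ≤ lam) (H : c * L ^ 3 ≤ A + B * L)
    (hA : 2 * A ≤ c * lam ^ 3) (hB : 2 * B ≤ c * lam ^ 2) : L ≤ lam := by
  by_contra hn
  have hn := not_le.1 hn
  have L0 : 0 < L := hl.trans_lt hn
  have a1 : lam ^ 3 < L ^ 3 := pow_lt_pow_left₀ hn hl (by norm_num)
  have a2 : lam ^ 2 ≤ L ^ 2 := pow_le_pow_left₀ hl hn.le 2
  have a3 := mul_lt_mul_of_pos_left a1 hc
  have a4 := mul_le_mul_of_nonneg_right (hB.trans (mul_le_mul_of_nonneg_left a2 hc.le)) L0.le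
  nlinarith


end

end Crest.Agent.T156.L0
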