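import Crest.Agent.T156.LocG_69

/-!
# Row 156, block (L): local rigidity from good times, thin regime (helper69)

`Tk.crude`: the potential without any condition on the gaps; `Tk.thin`: labels from the potential
and a one-sided Lipschitz bound.
-/

set_option autoImplicit false

namespace Crest.Agent.T156.Rig

open Set Real


namespace Tk

variable {S : Finset ℝ} {a b : ℝ} {W ω ν u : ℝ → ℝ} {gp : ℝ → ℝ → Prop}
  {b₀ b₁ p₀ d D err C₁ δ : ℝ}

private theorem crude_up (h : Tk S a b W ω ν u gp b₀ b₁ p₀ d D err C₁ δ) {Γ R : ℝ}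
    (hs : Sh a b gp a b Γ) (hR : ∀ t ∈ Icc a b, |u t| ≤ R) {t : ℝ} (ht : t ∈ Icc a b) :
    W t ≤ err + D * R + Γ ^ 2 / 8 * (2 * b₁ * R + p₀) := by
  obtain ⟨s, s', hg, h1, h2, h3, h4⟩ := h.cov t ht
  have hss : s ≤ s' := h2.trans h3
  have hl := hs s s' hg h1 hss h4 (hss.trans h4) (h1.trans hss)
  have hR0 : 0 ≤ R := (abs_nonneg _).trans (hR t ht)
  have e : ∀ {r m : ℝ}, r ∈ Icc a b → d ≤ m → m ≤ D → |W r - m * u r| ≤ err →
      W r ≤ err + D * R := fun {r m} hr m1 m2 m3 => by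
    have := (abs_le.1 m3).2
    have h5 : m * u r ≤ D * R :=
      (mul_le_mul_of_nonneg_left (abs_le.1 (hR r hr)).2 (h.d0.le.trans m1)).trans
        (mul_le_mul_of_nonneg_right m2 hR0)
    linarith
  obtain ⟨m, m1, m2, m3⟩ := h.eL s s' hg h1 hss h4
  obtain ⟨m', n1, n2, n3⟩ := h.eR s s' hg h1 hss h4
  have hA : 0 ≤ 2 * b₁ * R + p₀ := by have := h.b1; have := h.p0; positivity
  have hc := (h.pc.mono h1 h4 (Finset.Subset.refl S)).chord hA (e ⟨h1, hss.trans h4⟩ m1 m2 m3)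
    (e ⟨h1.trans hss, h4⟩ n1 n2 n3) (fun r hr hS => by
      have hr' : r ∈ Ioo a b := ⟨h1.trans_lt hr.1, hr.2.trans_le h4⟩
      obtain ⟨β, β1, β2, β3⟩ := h.rel r hr' hS
      have hβ : 0 ≤ β := h.b0.trans β1
      have h5 := (abs_le.1 β3).1
      have h6 := (abs_le.1 (hR r (Ioo_subset_Icc_self hr'))).1
      have h8 : β * -u r ≤ b₁ * R :=
        (mul_le_mul_of_nonneg_left (by linarith) hβ).trans (mul_le_mul_of_nonneg_right β2 hR0)
      linarith) t ⟨h2, h3⟩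
  have hsq : (s' - s) ^ 2 ≤ Γ ^ 2 := pow_le_pow_left₀ (sub_nonneg.2 hss) hl 2
  have : (s' - s) ^ 2 / 8 * (2 * b₁ * R + p₀) ≤ Γ ^ 2 / 8 * (2 * b₁ * R + p₀) := by gcongr
  linarith

/-- the potential, no condition on the gaps -/
theorem crude (h : Tk S a b W ω ν u gp b₀ b₁ p₀ d D err C₁ δ) {Γ R : ℝ}
    (hs : Sh a b gp a b Γ) (hR : ∀ t ∈ Icc a b, |u t| ≤ R) {t : ℝ} (ht : t ∈ Icc a b) :
    |W t| ≤ err + D * R + Γ ^ 2 / 8 * (2 * b₁ * R + p₀) :=
  abs_le.2 ⟨by linarith [h.neg.crude_up hs (fun r hr => by simpa using hR r hr) ht],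
    h.crude_up hs hR ht⟩



end Tk

end Crest.Agent.T156.Rig
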