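import Crest.Agent.T156.ClE1s_49
import Crest.Agent.T156.ClNd_9

/-!
# Row 156 (helper49): path sizes for (E1) on the class
-/

set_option autoImplicit false
set_option linter.unusedSectionVars false

noncomputable section

namespace Crest.Agent.T156.Alt.E49

open MeasureTheory Real Set Filter Topology
open Crest.Agent.T157.E Crest.Agent.T157.Casc Crest.Agent.T157.SL
open Crest.Agent.T156.Cas Crest.Agent.T156.Cas.Sy41 Crest.Agent.T156.Cas.Q33
open Crest.Agent.T156.Alt.Md67 Crest.Agent.T156.Alt.E61 Crest.Agent.T156.Alt.C33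
open Crest.Agent.T156.Alt.Cost41 (aM Phi RW)

/-- `F / (n ms t)` -/
def gg (S : Sc) (t : ℝ) : ℝ := S.F / (S.n * S.ms t)

/-- tilt times field per node above the base `i` -/
def sg (S : Sc) (M : Md) (i : ℕ) : ℝ := M.z i * (S.ms (M.s i) / S.F * S.v / S.C)

/-- the number of dyadic scales -/
structure Kb (S : Sc) (M : Md) (K : ℕ) : Prop where
  N : M.N ≤ 2 ^ K
  H : M.H S.Jp ≤ 2 ^ K * sg S M 0

/-- plateau data: node weights `≤ v p`, rise below the corner, weighted rise on the plateau -/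
structure Pt (S : Sc) (M : Md) (m : ℕ) (a : ℝ) (p : ℕ → ℝ) (l Λ R : ℝ) : Prop where
  anti : Antitone p
  nn : ∀ j, 0 ≤ p j
  l0 : 0 < l
  p0 : p (S.J - 2) ≤ 1 / l
  dz : ∀ k, S.J ≤ k → k < S.Jp → M.dz m a k ≤ S.v * p (k - 1)
  Λ0 : 0 ≤ Λ
  up : ∀ i, S.J / 2 + i < S.J - 1 →
    M.rb m a (S.J - 1) - M.rb m a (S.J - 1 - 1 - i) ≤ Λ * (i * S.v + l)
  R : ∑ j ∈ Finset.Ioc (S.J - 1) S.Jp, (M.rb m a j - M.rb m a (j - 1)) * p (j - 2) ≤ R

/-- the size of `∑ dz aM` on the plateau -/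
def pA (S : Sc) (K : ℕ) (l Λ R : ℝ) : ℝ := (K + 2) * (2 * (1 + K) * (110592 * S.C ^ 14 * gg S 1) *
  (12 * S.C ^ 3 + Λ * (1 + log (1 + S.C ^ 2 / l)) + R) + S.v / l)


variable {S : Sc} {M : Md} {m : ℕ} {a ms : ℝ} {u : ℕ → ℝ} {K : ℕ}

theorem num_vv {C K : ℝ} (C1 : 1 ≤ C) (K0 : 0 ≤ K) :
    3 * C ^ 2 + 8 * C ^ 4 + 2 * (K + 2) ^ 2 * C ≤ 5 * C ^ 4 * (K + 2) ^ 2 ∧
      8 * C ^ 4 + (K + 2) * C ≤ 5 * C ^ 5 * (K + 2) ^ 2 := by
  have k4 : (4 : ℝ) ≤ (K + 2) ^ 2 := by nlinarith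
  have k2 : K + 2 ≤ (K + 2) ^ 2 := by nlinarith
  have c1 : C ≤ C ^ 4 := le_self_pow₀ C1 (by norm_num)
  have c2 : C ^ 2 ≤ C ^ 4 := pow_le_pow_right₀ C1 (by norm_num)
  have c3 : C ^ 4 ≤ C ^ 5 := pow_le_pow_right₀ C1 (by norm_num)
  constructor
  · linarith [mul_le_mul_of_nonneg_left k4 (by positivity : 0 ≤ C ^ 4),
      mul_le_mul_of_nonneg_left c1 (by positivity : 0 ≤ (K + 2) ^ 2), (by positivity : 0 ≤ C ^ 4)]
  · linarith [mul_le_mul_of_nonneg_left k4 (by positivity : 0 ≤ C ^ 5),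
      mul_le_mul k2 (c1.trans c3) (by positivity) (by positivity : 0 ≤ (K + 2) ^ 2),
      (by positivity : 0 ≤ C ^ 5)]

section fn
variable (F : Fn S M m a)
include F

theorem ms_quad {t t' : ℝ} (h0 : 0 < t) (h : t ≤ t') : S.ms t' * t ^ 2 ≤ 4 * t' ^ 2 * S.ms t := by
  obtain ⟨r, h1, h2⟩ := exists_nat_pow_near ((one_le_div h0).2 h) one_lt_two
  rw [le_div_iff₀ h0] at h1
  rw [div_lt_iff₀ h0] at h2
  have a1 := (F.msm h2.le).trans (F.ms_pow h0.le (r + 1))
  have a2 := pow_le_pow_left₀ (by positivity) h1 2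
  have e : (4 : ℝ) ^ (r + 1) * t ^ 2 = 4 * (2 ^ r * t) ^ 2 := by
    rw [mul_pow, ← pow_mul, mul_comm r 2, pow_mul]; norm_num; ring
  have a3 := mul_le_mul_of_nonneg_right a1 (sq_nonneg t)
  have a4 := mul_le_mul_of_nonneg_right a2 (F.ms_pos h0.le).le
  rw [mul_right_comm, e] at a3
  linarith

theorem gg_pos {t : ℝ} (h0 : 0 ≤ t) : 0 < gg S t := by
  have := F.F0; have := F.ms_pos h0; have := F.n1
  unfold gg; positivity

theorem gg_anti {t t' : ℝ} (h0 : 0 ≤ t) (h : t ≤ t') : gg S t' ≤ gg S t := by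
  have := F.F0; have := F.ms_pos h0; have := F.n1; have := F.msm h
  unfold gg; gcongr

theorem gg_quad {t t' : ℝ} (h0 : 0 < t) (h : t ≤ t') : gg S t * t ^ 2 ≤ 4 * t' ^ 2 * gg S t' := by
  have f := F.F0; have m1 := F.ms_pos h0.le; have n1 := F.n1
  have m2 := F.ms_pos (h0.le.trans h)
  have := mul_le_mul_of_nonneg_left (ms_quad F h0 h) (mul_nonneg f.le (zero_le_one.trans n1))
  rw [gg, gg, div_mul_eq_mul_div, mul_div_assoc', div_le_div_iff₀ (by positivity) (by positivity)]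
  linarith

theorem sg_pos (i : ℕ) : 0 < sg S M i := by
  have := F.F0; have := F.ms_pos (F.s_nonneg i); have := F.z_pos i; have := F.v0; have := F.C0
  unfold sg; positivity

theorem sg_mono {i k : ℕ} (h : i ≤ k) : sg S M i ≤ sg S M k := by
  have := F.F0; have := F.ms_pos (F.s_nonneg i); have := F.z_pos k; have := F.v0; have := F.C0
  have := F.msm (F.sm h); have := F.leg.zm h
  unfold sg; gcongr

theorem sg_le {i k : ℕ} (h0 : S.jl ≤ i) (h : i ≤ k) (hk : k < S.Jp) :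
    sg S M i ≤ M.z k * (M.H (k + 1) - M.H k) := by
  refine (sg_mono F h).trans (mul_le_mul_of_nonneg_left ?_ (F.z_pos k).le)
  refine le_trans (le_of_eq ?_) (F.flr k (h0.trans h) hk)
  have := F.F0; have := F.C0
  field_simp

theorem m0 : (0 : ℝ) < m := zero_lt_one.trans_le (F.n1.trans F.nm)

theorem sg_le' {i k : ℕ} (h0 : S.jl ≤ i) (h : i ≤ k) (hk : k < S.Jp) :
    m * sg S M i ≤ M.z k * ((M.H (k + 1) - M.H k) * m) := by
  linarith [mul_le_mul_of_nonneg_left (sg_le F h0 h hk) (m0 F).le]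

theorem rate (i : ℕ) : S.v / (m * sg S M i) ≤ S.C * gg S (M.s i) / M.z i := by
  have := F.F0; have := F.ms_pos (F.s_nonneg i); have := F.z_pos i; have := F.v0; have := F.C0
  have := F.n1; have := F.nm
  calc _ ≤ S.v / (S.n * sg S M i) := by have := sg_pos F i; gcongr
    _ = _ := by unfold sg gg; field_simp

theorem z_top {i : ℕ} (h0 : S.jl ≤ i) (h1 : i < S.J) (h : S.J ≤ 8 * i) :
    1 ≤ 48 * S.C ^ 5 * M.z i ∧ 1 ≤ 24 * S.C ^ 4 * M.s i := by
  have C0 := F.C0
  have a1 : (S.J : ℝ) * S.v ≤ 8 * (i * S.v) := by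
    have : (S.J : ℝ) ≤ 8 * i := by exact_mod_cast h
    linarith [mul_le_mul_of_nonneg_right this F.v0.le]
  have a2 := F.J_lo.trans (mul_le_mul_of_nonneg_left a1 (by positivity))
  constructor
  · linarith [mul_le_mul_of_nonneg_left (F.z_lo (F.i1.trans h0) h1)
      (by positivity : 0 ≤ 24 * S.C ^ 3)]
  · linarith [mul_le_mul_of_nonneg_left (F.s_mem h1.le).1 (by positivity : 0 ≤ 24 * S.C ^ 3)]

theorem gg_top {i : ℕ} (h0 : S.jl ≤ i) (h1 : i < S.J) (h : S.J ≤ 8 * i) :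
    gg S (M.s i) ≤ 2304 * S.C ^ 8 * gg S 1 := by
  have C1 := F.C1
  have c1 : 1 ≤ 24 * S.C ^ 4 := by nlinarith [one_le_pow₀ (n := 4) C1]
  have c0 : 0 < 1 / (24 * S.C ^ 4) := by positivity
  have a1 : 1 / (24 * S.C ^ 4) ≤ M.s i := by
    rw [div_le_iff₀' (by positivity)]; exact (z_top F h0 h1 h).2
  have a2 := gg_quad F c0 ((div_le_one (by positivity)).2 c1)
  refine (gg_anti F c0.le a1).trans ?_
  rw [div_pow, one_pow, mul_one_div, div_le_iff₀ (by positivity)] at a2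
  linarith

theorem rate_top {i : ℕ} (h0 : S.jl ≤ i) (h1 : i < S.J) (h : S.J ≤ 8 * i) :
    S.v / (m * sg S M i) ≤ 110592 * S.C ^ 14 * gg S 1 := by
  have C0 := F.C0
  have g1 := gg_pos F zero_le_one
  refine (rate F i).trans ?_
  rw [div_le_iff₀ (F.z_pos i)]
  have a1 := mul_le_mul_of_nonneg_left (gg_top F h0 h1 h) C0.le
  have a2 := mul_le_mul_of_nonneg_left (z_top F h0 h1 h).1
    (by positivity : 0 ≤ 2304 * S.C ^ 9 * gg S 1)
  linarith

theorem Phi_le (B : Kb S M K) {i k : ℕ} (h : i ≤ k) (hk : k ≤ S.Jp) :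
    Phi M k - Phi M i ≤ 2 ^ K * sg S M i := by
  rw [Cost41.Phi_sub M h]
  refine (Finset.sum_le_sum fun j _ => mul_le_of_le_one_left (dH_nonneg F.leg j)
    (F.leg.z1 j)).trans ?_
  rw [Finset.sum_Ico_sub _ h]
  have := mul_le_mul_of_nonneg_left (sg_mono F (Nat.zero_le i)) (by positivity : (0 : ℝ) ≤ 2 ^ K)
  linarith [B.H, F.leg.Hm hk, H_nonneg F.leg i]

theorem Phi_ge {i j k : ℕ} (h0 : S.jl ≤ i) (h : i ≤ j) (hjk : j ≤ k) (hk : k ≤ S.Jp) :
    ((k : ℝ) - j) * sg S M i ≤ Phi M k - Phi M j := by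
  have := Finset.card_nsmul_le_sum (Finset.Ico j k) (fun j => M.z j * (M.H (j + 1) - M.H j))
    (sg S M i) fun x hx => sg_le F h0 (h.trans (Finset.mem_Ico.1 hx).1)
      ((Finset.mem_Ico.1 hx).2.trans_le hk)
  rwa [Nat.card_Ico, nsmul_eq_mul, Nat.cast_sub hjk, ← Cost41.Phi_sub M hjk] at this

theorem dz_mem {k : ℕ} (h0 : S.j0 < k) (hk : k < S.J) :
    S.v / S.C ≤ M.dz m a k ∧ M.dz m a k ≤ S.C * S.v := by
  obtain ⟨k, rfl⟩ : ∃ j, k = j + 1 := ⟨k - 1, by omega⟩
  rw [dz_succ F.leg]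
  exact F.zs k (by omega) hk

/-- **the sloped part**: location `rb ≤ y`, weights `f` -/
theorem slope_sum (B : Kb S M K) {k1 b : ℕ} (h0 : S.jl ≤ k1) (h1 : k1 ≤ b) (hb : b < S.J)
    {y f : ℕ → ℝ} {A f1 : ℝ} (ym : Monotone y) (y0 : 0 < y k1)
    (hy : ∀ k, k1 ≤ k → k ≤ b → M.rb m a k ≤ y k) (f0 : ∀ k, 0 ≤ f k ∧ f k ≤ f1) (A0 : 0 ≤ A)
    (hA : ∀ i, k1 ≤ i → i < b → f (i + 1) * y i * gg S (M.s i) ≤ A * M.z i) :
    ∑ k ∈ Finset.Ioc k1 b, M.dz m a k * f k * aM M m a k ≤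
      (K + 2) * (2 * (1 + K) * (S.C ^ 2 * A * (1 + log (y b / y k1))) + f1 * (S.C * S.v)) := by
  have G := F.lg
  have C0 := F.C0; have v0 := F.v0; have n1 := F.n1; have F0 := F.F0
  have i1 := F.i1; have i3 := F.i3; have i4 := F.i4
  have yp : ∀ k, k1 ≤ k → 0 < y k := fun k hk => y0.trans_le (ym hk)
  have f10 : 0 ≤ f1 := (f0 0).1.trans (f0 0).2
  have := Cost41.cost G (c := fun k => M.dz m a k * f k) (W := fun j => S.n * S.C ^ 2 * A / y j)
    (cm := f1 * (S.C * S.v)) (j0 := k1) (N := b) (K := K) (sg_pos F k1) h1 (by omega)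
    (fun i p q => sg_le F h0 p (by omega)) (Phi_le F B h1 (by omega))
    (fun k _ _ => mul_nonneg (G.dz_nonneg k) (f0 k).1) (by positivity)
    (fun k p q => by
      rw [mul_comm]
      exact mul_le_mul (f0 k).2 (dz_mem F (by omega) (by omega)).2 (G.dz_nonneg k) f10)
    (fun j p _ => by have := yp j p; positivity) fun j k p q r => by
      rw [Cost41.Phi_sub M q.le, Finset.mul_sum, ← Finset.Ico_add_one_add_one_eq_Ioc,
        ← Finset.sum_Ico_add']
      refine Finset.sum_le_sum fun i hi => ?_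
      obtain ⟨p1, p2⟩ := Finset.mem_Ico.1 hi
      have yi := yp i (by omega)
      have yj := yp j p
      have mi := F.ms_pos (F.s_nonneg i)
      have b1 := mul_le_mul_of_nonneg_right (dz_mem F (k := i + 1) (by omega) (by omega)).2
        (f0 (i + 1)).1
      have b2 : S.C * S.v * f (i + 1) ≤ S.n * S.C ^ 2 * A / y i * sg S M i := by
        have := hA i (by omega) (by omega)
        rw [gg, mul_div_assoc', div_le_iff₀ (by positivity)] at this
        rw [sg, show S.n * S.C ^ 2 * A / y i * (M.z i * (S.ms (M.s i) / S.F * S.v / S.C)) =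
          S.C * S.v * (A * M.z i * (S.n * S.ms (M.s i)) / (y i * S.F)) by field_simp]
        refine mul_le_mul_of_nonneg_left ?_ (by positivity)
        rw [le_div_iff₀ (by positivity)]
        linarith
      refine (b1.trans b2).trans (mul_le_mul ?_ (sg_le F (by omega) le_rfl (by omega))
        (sg_pos F i).le (by positivity))
      exact div_le_div_of_nonneg_left (by positivity) yj (ym p1)
  refine this.trans (mul_le_mul_of_nonneg_left (add_le_add ?_ le_rfl) (by positivity))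
  have r := Cost41.RW_low (ρ := M.rb m a) (B := S.n * S.C ^ 2 * A) (Λ := 1) h1 (by positivity)
    zero_le_one y0 ym fun j p q => by rw [one_mul]; exact hy j p q
  have l0 : 0 ≤ 1 + log (y b / y k1) := by
    linarith [log_nonneg ((one_le_div y0).2 (ym h1))]
  have m' := m0 F
  rw [div_mul_eq_mul_div, div_le_iff₀ m']
  have r1 := mul_le_mul_of_nonneg_left r (by positivity : (0 : ℝ) ≤ 2 * (1 + K))
  have r2 := mul_le_mul_of_nonneg_left F.nm
    (by positivity : (0 : ℝ) ≤ 2 * (1 + K) * (S.C ^ 2 * A * (1 + log (y b / y k1))))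
  linarith

/-- a window of the sloped part, no location -/
theorem win_sum (B : Kb S M K) {i b : ℕ} (h0 : S.jl ≤ i) (h1 : i ≤ b) (hb : b < S.J) :
    ∑ k ∈ Finset.Ioc i b, M.dz m a k * aM M m a k ≤
      (K + 2) * (2 * (1 + K) * (S.C * (S.v / (m * sg S M i)) * M.rb m a b) + S.C * S.v) := by
  have G := F.lg
  have C0 := F.C0; have v0 := F.v0; have σ0 := sg_pos F i; have m' := m0 F
  have i1 := F.i1; have i3 := F.i3; have i4 := F.i4
  have := Cost41.cost G (c := M.dz m a) (W := fun _ => S.C * S.v / sg S M i)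
    (cm := S.C * S.v) (j0 := i) (N := b) (K := K) σ0 h1 (by omega)
    (fun i p q => sg_le F h0 p (by omega)) (Phi_le F B h1 (by omega))
    (fun k _ _ => G.dz_nonneg k) (by positivity)
    (fun k p q => (dz_mem F (by omega) (by omega)).2) (fun j p _ => by positivity)
    fun j k p q r => by
      refine (Finset.sum_le_card_nsmul _ _ (S.C * S.v) fun x hx => (dz_mem F
        (by have := (Finset.mem_Ioc.1 hx).1; omega)
        (by have := (Finset.mem_Ioc.1 hx).2; omega)).2).trans ?_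
      rw [Nat.card_Ioc, nsmul_eq_mul, Nat.cast_sub q.le]
      refine le_trans (le_of_eq ?_) (mul_le_mul_of_nonneg_left (Phi_ge F h0 p q.le (by omega))
        (by positivity))
      field_simp
  refine this.trans (mul_le_mul_of_nonneg_left (add_le_add ?_ le_rfl) (by positivity))
  have r := RW_top (W := fun _ => S.C * S.v / sg S M i) (Md67.rb_mono (M := M) (a := a) G.m0)
    (rb_nonneg G.m0 i) h1 fun _ _ _ => le_rfl
  refine (mul_le_mul_of_nonneg_left (mul_le_mul_of_nonneg_left r (by positivity))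
    (by positivity)).trans (le_of_eq ?_)
  field_simp

section plat
variable {p : ℕ → ℝ} {l Λ R : ℝ} (P : Pt S M m a p l Λ R) (hJ : 4 * S.jl ≤ S.J)
include P hJ


theorem Pt.R0 : 0 ≤ R := le_trans (Finset.sum_nonneg fun _ _ =>
  mul_nonneg (sub_nonneg.2 (Md67.rb_mono F.lg.m0 (Nat.sub_le _ _))) (P.nn _)) P.R



end plat



/-- the parity weight seen from the test node `j` -/
def gj (M : Md) (m : ℕ) (a ms : ℝ) (j k : ℕ) : ℝ := if k < j then pb M m a ms k else 1

theorem gj_mem (h0 : 0 < ms) (j k : ℕ) : 0 < gj M m a ms j k ∧ gj M m a ms j k ≤ 3 := by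
  unfold gj
  split_ifs
  · refine ⟨?_, pb_le F.lg k⟩
    have := sb_nn F.lg k
    have := rb_nonneg (M := M) (a := a) F.lg.m0 k
    have := F.z_pos k
    unfold pb; positivity
  · norm_num


set_option maxHeartbeats 600000 in
/-- `VV` from the window below `j' ≤ min j J` -/
theorem VVn_core (B : Kb S M K) {j j' : ℕ} (h0 : 4 * S.jl ≤ j') (h1 : j' ≤ S.J) (h2 : j' ≤ j)
    (h3 : j ≤ S.Jp) {TP AP : ℝ} (hT : ∑ k ∈ Finset.Ico j' j, M.dz m a k * tM M m a k ≤ TP)
    (hA : ∑ k ∈ Finset.Ico j' j, M.dz m a k * aM M m a k ≤ AP) :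
    VVn M m a j ≤ 5 * S.C ^ 5 * (K + 2) ^ 2 *
      ((gg S (M.s (j' / 4)) * M.rb m a j + S.v) / M.z (j' / 4) ^ 2) + 4 * S.C ^ 3 * TP +
        AP / M.z (j' / 4) := by
  have G := F.lg
  have C0 := F.C0; have C1 := F.C1; have v0 := F.v0; have m' := m0 F
  have i0 := F.i0; have i1 := F.i1; have i3 := F.i3; have i4 := F.i4
  have ρm := Md67.rb_mono (M := M) (a := a) G.m0
  set i := j' / 4 with hi
  set t := j' / 2 with ht
  have σ0 : 0 < m * sg S M i := mul_pos m' (sg_pos F i)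
  have x0 := F.z_pos i
  have hr := rate F i
  set σ := m * sg S M i with hσ
  set x := M.z i with hx
  set r := S.v / σ with hr'
  set ρ := M.rb m a j with hρ
  have ρ0 : 0 ≤ ρ := rb_nonneg G.m0 j
  have ρ1 : ρ ≤ 1 := rb_le_one G.m0 j
  have x1 : x ≤ 1 := G.z1 i
  have r0 : 0 < r := by positivity
  have t0 : (0 : ℝ) < t := Nat.cast_pos.2 (by omega)
  have tt : (t : ℝ) ≤ (j' : ℝ) - t := by
    have : (2 * t : ℝ) ≤ j' := by exact_mod_cast (by omega : 2 * t ≤ j')
    linarith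
  have hS : t * σ ≤ ∑ k ∈ Finset.Ico t j, M.z k * ((M.H (k + 1) - M.H k) * m) := by
    have := Finset.card_nsmul_le_sum (Finset.Ico t j) _ σ fun k hk => sg_le' F (i := i) (by omega)
      (by have := (Finset.mem_Ico.1 hk).1; omega) ((Finset.mem_Ico.1 hk).2.trans_le h3)
    rw [Nat.card_Ico, nsmul_eq_mul] at this
    exact (mul_le_mul_of_nonneg_right (Nat.cast_le.2 (by omega)) σ0.le).trans this
  have hW : t * (S.v / S.C) ≤ ∑ k ∈ Finset.Ico t j, M.dz m a k := by
    have := Finset.card_nsmul_le_sum (Finset.Ico t j') _ _ fun k hk => (dz_mem F (k := k)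
      (by have := (Finset.mem_Ico.1 hk).1; omega) ((Finset.mem_Ico.1 hk).2.trans_le h1)).1
    rw [Nat.card_Ico, nsmul_eq_mul] at this
    exact ((mul_le_mul_of_nonneg_right (Nat.cast_le.2 (by omega)) (by positivity)).trans this).trans
      (Finset.sum_le_sum_of_subset_of_nonneg (Finset.Ico_subset_Ico_right h2)
        fun k _ _ => G.dz_nonneg k)
  have key := VVn_win G (t := t) (j := j) (by omega) (by omega) x0 (G.zm (by omega))
    (by positivity) hS (by positivity) hW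
  have zt := F.z_hi (k := t) (by omega) (by omega)
  have xt : x ≤ 3 * S.C ^ 2 * (t * S.v) := (G.zm (by omega)).trans zt
  have a1 : ρ / (t * σ) ≤ 3 * S.C ^ 2 * (r * ρ / x) := by
    rw [hr', div_le_iff₀ (by positivity), show 3 * S.C ^ 2 * (S.v / σ * ρ / x) * (t * σ) =
      3 * S.C ^ 2 * (t * S.v) * ρ / x by field_simp, le_div_iff₀ x0, mul_comm]
    exact mul_le_mul_of_nonneg_right xt ρ0
  have a2 : 1 + M.z t / (t * (S.v / S.C)) ≤ 4 * S.C ^ 3 := by
    have : M.z t / (t * (S.v / S.C)) ≤ 3 * S.C ^ 3 := by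
      rw [div_le_iff₀ (by positivity)]
      exact zt.trans (le_of_eq (by field_simp))
    linarith [one_le_pow₀ (n := 3) C1]
  have a3 : ∑ k ∈ Finset.Ico t j', M.dz m a k * tM M m a k ≤
      2 * S.C * (r * ρ / x) + 2 * S.C * (S.v / x ^ 2) := by
    refine (Finset.sum_le_sum (g := fun k => S.C * S.v * (2 / (σ * x) + 2 / x ^ 2) *
      (M.rb m a (k + 1) - M.rb m a k)) fun k hk => ?_).trans ?_
    · obtain ⟨k1, k2⟩ := Finset.mem_Ico.1 hk
      rw [mul_assoc (S.C * S.v)]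
      exact mul_le_mul (dz_mem F (by omega) (by omega)).2 (tM_le G (by omega) σ0 x0
        (G.zm (by omega)) (sg_le' F (by omega) (by omega) (by omega))) (tM_nn k) (by positivity)
    · rw [← Finset.mul_sum, Finset.sum_Ico_sub _ (by omega)]
      have b1 : M.rb m a j' - M.rb m a t ≤ ρ := by
        linarith [ρm h2, rb_nonneg (M := M) (a := a) G.m0 t]
      refine (mul_le_mul_of_nonneg_left b1 (by positivity)).trans ?_
      have b2 := mul_le_of_le_one_right (by positivity : 0 ≤ 2 * S.C * (S.v / x ^ 2)) ρ1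
      refine le_trans (le_of_eq ?_) (add_le_add le_rfl b2)
      rw [hr']; field_simp
  have a4 : ∑ k ∈ Finset.Ico t j', M.dz m a k * aM M m a k ≤
      (K + 2) * (2 * (1 + K) * (S.C * r * ρ) + S.C * S.v) := by
    refine le_trans (Finset.sum_le_sum_of_subset_of_nonneg (fun k hk => ?_) fun k _ _ =>
      mul_nonneg (G.dz_nonneg k) (Cost41.aM_nonneg G k))
      ((win_sum F B (i := i) (b := j' - 1) (by omega) (by omega) (by omega)).trans ?_)
    · simp only [Finset.mem_Ico, Finset.mem_Ioc] at hk ⊢; omega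
    · have := ρm (show j' - 1 ≤ j by omega)
      gcongr
  rw [← Finset.sum_Ico_consecutive _ (show t ≤ j' by omega) h2,
    ← Finset.sum_Ico_consecutive _ (show t ≤ j' by omega) h2] at key
  have T0 : 0 ≤ ∑ k ∈ Finset.Ico t j', M.dz m a k * tM M m a k +
      ∑ k ∈ Finset.Ico j' j, M.dz m a k * tM M m a k :=
    add_nonneg (Finset.sum_nonneg fun k _ => mul_nonneg (G.dz_nonneg k) (tM_nn k))
      (Finset.sum_nonneg fun k _ => mul_nonneg (G.dz_nonneg k) (tM_nn k))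
  have a5 := mul_le_mul a2 (add_le_add a3 hT) T0 (by positivity)
  have a6 := div_le_div_of_nonneg_right (add_le_add a4 hA) x0.le
  set α := r * ρ / x with hα
  set β := S.v / x ^ 2 with hβ
  have α0 : 0 ≤ α := by positivity
  have β0 : 0 ≤ β := by positivity
  have a7 : (K + 2) * (2 * (1 + K) * (S.C * r * ρ) + S.C * S.v) / x ≤
      2 * (K + 2) ^ 2 * S.C * α + (K + 2) * S.C * β := by
    have b1 : S.v / x ≤ β := div_le_div_of_nonneg_left v0.le (by positivity)
      (by rw [sq]; exact mul_le_of_le_one_left x0.le x1)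
    have b2 := mul_le_mul_of_nonneg_left b1 (by positivity : 0 ≤ ((K : ℝ) + 2) * S.C)
    have b3 : 0 ≤ 2 * ((K : ℝ) + 2) * S.C * α := by positivity
    rw [show (K + 2) * (2 * (1 + K) * (S.C * r * ρ) + S.C * S.v) / x =
      2 * (K + 2) * (1 + K) * S.C * α + (K + 2) * S.C * (S.v / x) by rw [hα]; ring]
    linarith only [b2, b3]
  have a8 : α ≤ S.C * (gg S (M.s i) * ρ / x ^ 2) := by
    rw [hα]
    refine (div_le_div_of_nonneg_right (mul_le_mul_of_nonneg_right hr ρ0) x0.le).trans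
      (le_of_eq (by field_simp))
  obtain ⟨d1, d2⟩ := num_vv C1 (Nat.cast_nonneg K)
  have d3 := mul_le_mul d1 a8 α0 (by positivity)
  have d4 := mul_le_mul_of_nonneg_right d2 β0
  have fin := key.trans (add_le_add (add_le_add a1 a5) (a6.trans_eq (add_div _ _ _)))
  rw [add_div, mul_add, ← hβ]
  linarith only [fin, a7, d3, d4]

/-- **`VV` at a sloped node** -/
theorem VVn_slope (B : Kb S M K) {j : ℕ} (h0 : 4 * S.jl ≤ j) (h1 : j ≤ S.J) :
    VVn M m a j ≤ 5 * S.C ^ 5 * (K + 2) ^ 2 *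
      ((gg S (M.s (j / 4)) * M.rb m a j + S.v) / M.z (j / 4) ^ 2) := by
  simpa using VVn_core F B h0 h1 le_rfl (h1.trans F.i3) (TP := 0) (AP := 0) (by simp) (by simp)


theorem blk {U : ℕ} (h0 : S.jl ≤ U) :
    Blk (fun _ => 1) (M.L m a) (sl m) (M.τ m) 1 (m * sg S M U) (U + 1) (S.Jp + 1) :=
  ⟨C33.dt F.lg, by rw [len_L]; have := F.i4; omega, mul_pos (m0 F) (sg_pos F U), fun k h1 h2 => by
    obtain ⟨k, rfl⟩ : ∃ i, k = i + 1 := ⟨k - 1, by omega⟩
    rw [ex_succ F.leg, C33.tau_succ]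
    exact sg_le' F h0 (by omega) (by omega)⟩

/-- the size of `aM` at a node with slope `g` per node on the window of half width `d` -/
def aG (σ : ℝ) (K d : ℕ) (top g : ℝ) : ℝ := (K + 2) * (4 * top / (σ * d) + 3 * K * g / σ + g)

section good
variable (B : Kb S M K) {U k d : ℕ} {top g : ℝ} (h0 : S.jl ≤ U) (h1 : U + d ≤ k)
  (h2 : k + d ≤ S.Jp) (d2 : 2 ≤ d) (ht : M.rb m a (k + d) ≤ top)
  (hg : ∀ t : ℕ, 1 ≤ t → t ≤ d → M.rb m a (k + t) - M.rb m a (k - t) ≤ g * t)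
include B h0 h1 h2 d2 ht hg




theorem ht' {w : ℕ} (hw : 2 * w ≤ d) :
    rho (fun _ => 1) (M.L m a) (sl m) 0 (k + 1 + w) ≤ top := by
  rw [show k + 1 + w = k + w + 1 by omega, ← rb_eq (sl_cov F.lg.m0)]
  exact (Md67.rb_mono F.lg.m0 (by omega)).trans ht




end good

theorem z_lip {i j : ℕ} (h0 : S.j0 ≤ i) (h : i ≤ j) (hj : j < S.J) :
    M.z j - M.z i ≤ S.C * S.v * ((j : ℝ) - i) := by
  rw [← sum_dz (m := m) (a := a) F.leg h]
  refine (Finset.sum_le_card_nsmul _ _ (S.C * S.v) fun k hk => (dz_mem F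
    (by have := (Finset.mem_Ioc.1 hk).1; omega)
    (by have := (Finset.mem_Ioc.1 hk).2; omega)).2).trans ?_
  rw [Nat.card_Ioc, nsmul_eq_mul, Nat.cast_sub h, mul_comm]


end fn

end Crest.Agent.T156.Alt.E49

end
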