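import Crest.Agent.T156.SzD_9
import Crest.Agent.T156.ClSzA_61
import Crest.Agent.T156.QCone_98
import Crest.Agent.T156.ClAp_63
import Crest.Agent.T156.SzE_9

-- ▼ part T156/ClSz_61
section

/-!
# Row 156, block (L) (helper61): sizes of the centred overlap on the sloped part
-/

set_option autoImplicit false
set_option linter.unusedSectionVars false

noncomputable section

namespace Crest.Agent.T156.Alt.Sz9

open Real Finset Filter
open Crest.Agent.T156.Alt.E61 Crest.Agent.T156.Alt.Md67 Crest.Agent.T156.Alt.C33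
open Crest.Agent.T156.Alt.QS98 Crest.Agent.T156.Env96

variable {S : Sc} {M : Md} {m : ℕ} {a lam : ℝ}

/-- statements that depend on the class constant -/
theorem CL_dep {P : ℝ → CP} (H : ∀ C, CL (P C)) : CL fun E Λ S M m a => P S.C E Λ S M m a := by
  intro C
  filter_upwards [H C C] with A H ε hε η hη
  filter_upwards [H ε hε η hη] with n H S M b1 b2 b3 b4 m a b5
  rw [b1]; exact H S M b1 b2 b3 b4 m a b5

theorem CL_fn : CL fun _ _ S M m a => Fn S M m a := fun C => by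
  filter_upwards [eventually_ge_atTop 2] with A hA ε _ η _
  exact ev_fn C hA

/-- the context at a fixed size -/
structure Kx (lam : ℝ) (S : Sc) (M : Md) (m : ℕ) (a : ℝ) : Prop where
  fn : Fn S M m a
  l2 : 2 ≤ lam
  cn : 9 * S.C ^ 4 ≤ S.n
  lgN : (Nat.log 2 M.N : ℝ) + 1 ≤ lam
  cone : ∀ κ t l k0 k1 j, Cone (9 * S.C ^ 3) κ S M m a t l k0 k1 j →
    Inn (9 * S.C ^ 3) S t k0 k1 j → u4 M m a j ≤ lam * κ * l
  low : ∀ κ t, 0 < t → M.s S.jl ≤ t → S.w3 t ≤ t ^ 3 → Crude κ S M m a t S.jl → ∀ k ≤ M.N,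
    u4 M m a k ≤ lam * κ * max (M.z k) t

theorem Kx.mono (X : Kx lam S M m a) {lam' : ℝ} (h : lam ≤ lam') : Kx lam' S M m a :=
  ⟨X.fn, X.l2.trans h, X.cn, X.lgN.trans h, fun κ t l k0 k1 j H I => (X.cone κ t l k0 k1 j H I).trans
    (by have := H.l0; have := H.crude.1; gcongr), fun κ t a1 a2 a3 H k hk =>
    (X.low κ t a1 a2 a3 H k hk).trans (by have := H.1; gcongr)⟩

theorem kx_ev : CL fun _ Λ S M m a => Kx Λ S M m a := by
  refine (((CL_dep fun C => qConeS (9 * max C 1 ^ 3) 2 (by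
    nlinarith [one_le_pow₀ (n := 3) (le_max_right C 1)])).and (qLowS 2)).and CL_fn).glue'
    (fun _ _ _ _ _ _ _ _ h X => X.mono h) 0 le_rfl 0 3 fun C A ε η _ _ =>
    ⟨9 * C ^ 4, fun S M m a G _ _ _ h _ ⟨⟨H1, H2⟩, F⟩ => ?_⟩
  have l3 := G.num_le
  have a1 := G.A_le
  have a2 := G.log_le
  have a3 := G.log1
  generalize (S.n : ℝ) ^ η = l at *
  have e3 : 2 * l ≤ l ^ 3 := by nlinarith [mul_pos (show 0 < l by linarith) (show 0 < l by linarith)]
  rw [max_eq_left h.C1] at H1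
  refine ⟨F, by linarith, ?_, ?_, fun κ t ℓ k0 k1 j H I => ?_, fun κ t b1 b2 b3 H k hk => ?_⟩
  · rw [G.hC]; exact G.K_log.trans ((log_le_sub_one_of_pos G.N0).trans (by linarith))
  · have b1 : (Nat.log 2 M.N : ℝ) ≤ logb 2 M.N := by exact_mod_cast natLog_le_logb M.N 2
    have b0 : (0 : ℝ) < M.N := Nat.cast_pos.2 (Nat.zero_lt_of_lt h.i4)
    have b2 := log_le_log b0 h.card
    rw [log_pow, G.hA] at b2
    push_cast at b2
    rw [logb, le_div_iff₀ (log_pos one_lt_two)] at b1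
    have b3 : ((A : ℝ) + 1) * log S.n ≤ 2 * l * l :=
      mul_le_mul (by linarith) a2 (by linarith) (by linarith)
    have b4 : (Nat.log 2 M.N : ℝ) ≤ 4 * l * l := by
      nlinarith [log_two_gt_d9, Nat.cast_nonneg (α := ℝ) (Nat.log 2 M.N)]
    nlinarith [mul_pos (show 0 < l by linarith) (show 0 < l by linarith)]
  · have := H.l0
    have := H.crude.1
    refine (u4_le (by positivity) ((H1 κ t ℓ k0 k1 j H).2 I).2).trans ?_
    gcongr; linarith
  · have := H.1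
    have e := (H2 κ t b1 b2 b3 H k hk).2
    refine (u4_le_c (c := 0) (b := l * κ * max (M.z k) t) (by positivity)
      (by simpa only [sub_zero] using e)).2.trans ?_
    rw [← mul_assoc, ← mul_assoc]
    gcongr

theorem QB_mono {K K' t : ℝ} {k0 k1 : ℕ} (h : Cl S M) (B : QB K S M t k0 k1) (hK : K ≤ K') :
    QB K' S M t k0 k1 :=
  ⟨B.t0, B.k0l, B.k01, B.k1p, B.lo.trans (mul_le_mul_of_nonneg_right hK (h.s_nn _)),
    B.hi.trans (mul_le_mul_of_nonneg_right hK B.t0.le), B.wt⟩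

theorem Inn_mono {K K' t : ℝ} {k0 k1 j : ℕ} (I : Inn K S t k0 k1 j) (t0 : 0 ≤ t) (K0 : 0 < K)
    (hK : K ≤ K') : Inn K' S t k0 k1 j :=
  ⟨(div_le_div_of_nonneg_left t0 K0 hK).trans I.1, (div_le_div_of_nonneg_left t0 K0 hK).trans I.2⟩

theorem Crude_mono {κ κ' t : ℝ} {k0 k0' : ℕ} (H : Crude κ S M m a t k0) (t0 : 0 ≤ t) (h : κ ≤ κ')
    (hk : k0 ≤ k0') : Crude κ' S M m a t k0' :=
  ⟨H.1.trans h, fun k a1 a2 => (H.2 k (hk.trans a1) a2).trans
    (mul_le_mul_of_nonneg_right h (t0.trans (le_max_right _ _)))⟩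

/-- **the cone of the envelope** -/
theorem cone_ev {K κ t α : ℝ} {k0 k1 : ℕ} (B : QB K S M t k0 k1) (hJ : k1 ≤ S.J)
    (H : Crude κ S M m a t k0) (α0 : 0 < α) (hα : S.w3 t * κ ^ 2 ≤ α ^ 3) (hn : κ ≤ S.n) (j : ℕ) :
    Cone K κ S M m a t ((α + ev (M.rb m a) (κ * S.v) k0 k1 j) / κ) k0 k1 j := by
  have e0 : 0 ≤ ev (M.rb m a) (κ * S.v) k0 k1 j := ev_nonneg
  have c := fun i => Env96.cone (f := M.rb m a) (c := κ * S.v) (a := k0) (b := k1) (k := j) (i := i)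
  generalize ev (M.rb m a) (κ * S.v) k0 k1 j = e at *
  have k1 := H.1
  have k0 : 0 < κ := by linarith
  have t0 := B.t0
  have w : S.w3 t ≤ κ * ((α + e) / κ) ^ 3 := by
    rw [show κ * ((α + e) / κ) ^ 3 = (α + e) ^ 3 / κ ^ 2 by field_simp, le_div_iff₀ (by positivity)]
    exact hα.trans (pow_le_pow_left₀ α0.le (by linarith) 3)
  refine ⟨B, H, by positivity, ?_, w.trans (by gcongr), fun i a1 a2 => (c i a1 a2).trans ?_,
    fun _ y _ _ a1 a2 => by omega⟩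
  · rcases min_choice ((α + e) / κ) t with h | h <;> rw [h]
    exacts [w, B.wt.trans (le_mul_of_one_le_left (by positivity) k1)]
  · rw [QS98.cone, mul_add, mul_div_cancel₀ _ k0.ne']
    linarith

theorem w3_anti (F : Fn S M m a) {t t' : ℝ} (h0 : 0 < t) (h : t ≤ t') : S.w3 t' ≤ S.w3 t := by
  have := F.ms_pos h0.le
  have := F.n1
  have : 0 < t' := h0.trans_le h
  have := F.F0
  unfold Sc.w3
  gcongr
  exact F.msm h

theorem w3_ge (F : Fn S M m a) {t : ℝ} (h0 : 0 < t) : 1 ≤ S.w3 t * (S.n * t) := by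
  have := F.ms_pos h0.le
  have := F.n1
  rw [Sc.w3, div_mul_eq_mul_div, le_div_iff₀ (by positivity), one_mul, mul_comm]
  exact mul_le_mul_of_nonneg_right ((F.ms_le_one t).trans F.F1) (by positivity)

namespace Kx

variable (X : Kx lam S M m a)
include X

theorem K1 : 1 ≤ 9 * S.C ^ 3 := by nlinarith [one_le_pow₀ (n := 3) X.fn.C1]

/-- **pointwise size**, free slope -/
theorem pt {κ t α : ℝ} {k0 k1 j : ℕ} (B : QB (9 * S.C ^ 3) S M t k0 k1) (hJ : k1 ≤ S.J)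
    (I : Inn (9 * S.C ^ 3) S t k0 k1 j) (H : Crude κ S M m a t k0) (α0 : 0 < α)
    (hα : S.w3 t * κ ^ 2 ≤ α ^ 3) :
    u4 M m a j ≤ lam * (α + ev (M.rb m a) (κ * S.v) k0 k1 j) := by
  have F := X.fn
  have e0 : 0 ≤ ev (M.rb m a) (κ * S.v) k0 k1 j := ev_nonneg
  have k1 := H.1
  have l2 := X.l2
  rcases le_total 1 α with c | c
  · exact ((mj_u4 F.lg.m0).u0 j).2.trans (by nlinarith)
  have n1 := F.n1
  have hn : κ ≤ S.n := by
    have t0 := B.t0
    have a1 : t ≤ S.n := (F.t_le B X.K1).trans (by linarith [X.cn])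
    have a2 := mul_le_mul_of_nonneg_right (w3_ge F t0) (sq_nonneg κ)
    have a3 := mul_le_mul_of_nonneg_right (hα.trans (pow_le_one₀ α0.le c))
      (show 0 ≤ S.n * t by positivity)
    have a4 := mul_le_mul_of_nonneg_left a1 (show (0 : ℝ) ≤ S.n by positivity)
    exact le_of_pow_le_pow_left₀ two_ne_zero (by positivity) (by nlinarith)
  refine (X.cone _ _ _ _ _ _ (cone_ev B hJ H α0 hα hn j) I).trans_eq ?_
  rw [mul_assoc, mul_div_cancel₀ _ (by linarith)]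

/-- **block sums**, free first slope -/
theorem blk {κ t α D Y : ℝ} {k0 k1 : ℕ} (B : QB (9 * S.C ^ 3) S M t k0 k1) (h0 : S.j0 < k0)
    (hJ : k1 < S.J) (s : Finset ℕ) (I : ∀ j ∈ s, Inn (9 * S.C ^ 3) S t k0 k1 j)
    (H : Crude κ S M m a t k0) (α0 : 0 < α) (hα : S.w3 t * κ ^ 2 ≤ α ^ 3)
    (hD : ∀ i, k0 ≤ i → i ≤ k1 → |M.del m a i| ≤ D)
    (hY : D ^ 3 + ∑ i ∈ Icc k0 k1, M.dz m a i * M.del m a i ^ 2 ≤ Y) :
    ∑ k ∈ s, M.dz m a k * u4 M m a k ^ 2 ≤ 30000 * S.C ^ 5 * lam ^ 2 * (t * α ^ 2 + Y / κ) ∧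
    ∑ k ∈ s, M.dz m a k * u4 M m a k ^ 3 ≤ 700000 * S.C ^ 6 * lam ^ 3 * (t * α ^ 3 + α * (Y / κ)) ∧
    ∑ k ∈ s, M.dz m a k * u4 M m a k ^ 4 ≤
      20000000 * S.C ^ 7 * lam ^ 4 * (t * α ^ 4 + α * √(α * D) * (Y / κ)) := by
  have F := X.fn
  have h := F.toCl
  have L := F.lg
  have C1 := F.C1
  have C0 := F.C0
  have v0 := F.v0
  have t0 := B.t0
  have k1' := H.1
  have l2 := X.l2
  have k01 := B.k01
  have D0 : 0 ≤ D := (abs_nonneg _).trans (hD k0 le_rfl k01)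
  have E0 : 0 ≤ ∑ i ∈ Icc k0 k1, M.dz m a i * M.del m a i ^ 2 :=
    sum_nonneg fun i _ => mul_nonneg (L.dz_nonneg i) (sq_nonneg _)
  have Y0 : 0 ≤ Y := le_trans (by positivity) hY
  have mem : ∀ j ∈ s, k0 < j ∧ j < k1 := fun j hj => by
    have p : 0 < t / (9 * S.C ^ 3) := by positivity
    have a1 := pos_of_mul_pos_left (p.trans_le (I j hj).1) v0.le
    have a2 := pos_of_mul_pos_left (p.trans_le (I j hj).2) v0.le
    exact ⟨by exact_mod_cast sub_pos.1 a1, by exact_mod_cast sub_pos.1 a2⟩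
  have dzb : ∀ i, k0 ≤ i → i ≤ k1 → S.v / S.C ≤ M.dz m a i ∧ M.dz m a i ≤ S.C * S.v :=
    fun i a1 a2 => by
      obtain ⟨i, rfl⟩ : ∃ r, i = r + 1 := ⟨i - 1, by omega⟩
      rw [dz_succ h.leg]
      exact h.zs i (by omega) (by omega)
  have hq : ∀ k, k0 ≤ k → k < k1 → 0 ≤ M.q (k + 1) - M.q k ∧ M.q (k + 1) - M.q k ≤ S.C * S.v :=
    fun k _ a2 => by
      have i3 := h.i3
      have i4 := h.i4
      exact ⟨sub_nonneg.2 (h.q_mono k.le_succ (by omega)),
        (Ap63.q_slow h k.le_succ (by omega)).trans (h.ss k (by omega)).2⟩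
  have hf : ∀ k, k0 ≤ k → k < k1 → M.rb m a k ≤ M.rb m a (k + 1) := fun k _ _ =>
    Md67.rb_mono L.m0 k.le_succ
  have p8 : ∀ i : ℕ, (1 : ℝ) ≤ 8 ^ i := fun i => one_le_pow₀ (by norm_num)
  have sl : ∀ i : ℕ, 3 * S.C ≤ 8 ^ i * (3 * S.C * κ) ∧ κ ≤ 3 * S.C * κ := fun i => by
    have a1 : 3 * S.C ≤ 3 * S.C * κ := le_mul_of_one_le_right (by positivity) k1'
    exact ⟨a1.trans (le_mul_of_one_le_left (by positivity) (p8 i)),
      le_mul_of_one_le_left (by positivity) (by linarith)⟩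
  have pt : ∀ k ∈ s, ∀ i : ℕ, u4 M m a k ≤ lam * (4 ^ i * (3 * S.C * α) +
      ev (M.rb m a) (8 ^ i * (3 * S.C * κ) * S.v) k0 k1 k) := fun k hk i => by
    refine X.pt B hJ.le (I k hk) (Crude_mono H t0.le ((sl i).2.trans
      (le_mul_of_one_le_left (by positivity) (p8 i))) le_rfl) (by positivity) ?_
    have e : ((8 : ℝ) ^ i) ^ 2 = (4 ^ i) ^ 3 := by
      rw [← pow_mul, ← pow_mul, mul_comm i, mul_comm i, pow_mul, pow_mul]; norm_num
    calc _ = (8 ^ i) ^ 2 * ((3 * S.C) ^ 2 * (S.w3 t * κ ^ 2)) := by ring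
      _ ≤ (4 ^ i) ^ 3 * ((3 * S.C) ^ 3 * α ^ 3) := by
        have := (F.w3_pos t0).le
        rw [e]; gcongr
        · linarith
        · norm_num
      _ = _ := by ring
  obtain ⟨r2, r3, r4⟩ := cake3 s (w := M.dz m a) (u := u4 M m a) (lam := lam) (α := 3 * S.C * α)
    (D := 2 * D) (X := 9 * S.C ^ 3 * t) (Y := 224 * S.C ^ 3 * (Y / κ))
    (e := fun i k => ev (M.rb m a) (8 ^ i * (3 * S.C * κ) * S.v) k0 k1 k)
    (fun k _ => L.dz_nonneg k) (fun k _ => u4_nn k) (by linarith) (by positivity) (by positivity)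
    (by
      refine (sum_le_sum_of_subset_of_nonneg (t := Ioc k0 k1) (fun j hj => mem_Ioc.2
        ⟨(mem j hj).1, (mem j hj).2.le⟩) fun i _ _ => L.dz_nonneg i).trans ?_
      rw [sum_dz h.leg k01]
      linarith [B.hi, h.z_pos k0]) pt
    (fun k hk => (pt k hk 0).trans (by
      have := ev_le_sup (f := M.rb m a) (c := 8 ^ 0 * (3 * S.C * κ) * S.v) hq
        (by nlinarith [mul_le_mul_of_nonneg_right (sl 0).1 v0.le]) hD (mem k hk).1.le (mem k hk).2.le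
      rw [pow_zero (4 : ℝ), one_mul (3 * S.C * α)]
      gcongr))
    (fun i => by
      have p := p8 i
      have s1 := sum_sq (f := M.rb m a) (c := 8 ^ i * (3 * S.C * κ) * S.v) k01 (by positivity)
        (by positivity) (by nlinarith [mul_le_mul_of_nonneg_right (sl i).1 v0.le]) hf hq
        (hD k0 le_rfl k01) (hD k1 k01 le_rfl)
      have s2 : S.v * ∑ k ∈ Icc k0 k1, (M.rb m a k - M.q k) ^ 2 ≤
          S.C * ∑ i ∈ Icc k0 k1, M.dz m a i * M.del m a i ^ 2 := by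
        rw [mul_sum, mul_sum]
        refine sum_le_sum fun k hk => ?_
        have := (dzb k (mem_Icc.1 hk).1 (mem_Icc.1 hk).2).1
        rw [div_le_iff₀' C0] at this
        rw [← mul_assoc]
        exact mul_le_mul_of_nonneg_right this (sq_nonneg _)
      have s3 : 2 * D ^ 3 + 4 * (S.C * S.v) * ∑ k ∈ Icc k0 k1, (M.rb m a k - M.q k) ^ 2 ≤
          4 * S.C ^ 2 * Y := by
        have c2 : 1 ≤ S.C ^ 2 := one_le_pow₀ C1
        have d3 : 0 ≤ D ^ 3 := by positivity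
        nlinarith [mul_le_mul_of_nonneg_left s2 C0.le, mul_le_mul_of_nonneg_left hY (sq_nonneg S.C),
          mul_le_mul_of_nonneg_right c2 d3]
      calc _ ≤ ∑ k ∈ s, S.C * S.v * ev (M.rb m a) (8 ^ i * (3 * S.C * κ) * S.v) k0 k1 k ^ 2 :=
            sum_le_sum fun k hk => mul_le_mul_of_nonneg_right
              (dzb k (mem k hk).1.le (mem k hk).2.le).2 (sq_nonneg _)
        _ ≤ S.C * S.v * (56 / (8 ^ i * (3 * S.C * κ) * S.v) * (4 * S.C ^ 2 * Y)) := by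
            rw [← mul_sum]
            refine mul_le_mul_of_nonneg_left (le_trans (sum_le_sum_of_subset_of_nonneg
              (fun j hj => mem_Icc.2 ⟨(mem j hj).1.le, (mem j hj).2.le⟩) fun _ _ _ => sq_nonneg _)
              (s1.trans (mul_le_mul_of_nonneg_left s3 (by positivity)))) (by positivity)
        _ = 224 * S.C ^ 3 * (Y / κ) / 8 ^ i / (3 * S.C) := by field_simp; ring
        _ ≤ _ := div_le_self (by positivity) (by linarith))
  have y0 : 0 ≤ Y / κ := by positivity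
  generalize Y / κ = y at *
  have c : ∀ {i j : ℕ}, i ≤ j → S.C ^ i ≤ S.C ^ j := fun e => pow_le_pow_right₀ C1 e
  refine ⟨r2.trans ?_, r3.trans ?_, r4.trans ?_⟩
  · rw [mul_comm _ (lam ^ 2), mul_assoc (lam ^ 2)]
    refine mul_le_mul_of_nonneg_left ?_ (by positivity)
    have p1 : 0 ≤ S.C ^ 5 * (t * α ^ 2) := by positivity
    have p2 : 0 ≤ S.C ^ 5 * y := by positivity
    nlinarith [mul_le_mul_of_nonneg_right (c (show 3 ≤ 5 by norm_num)) y0]
  · rw [mul_comm _ (lam ^ 3), mul_assoc (lam ^ 3)]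
    refine mul_le_mul_of_nonneg_left ?_ (by positivity)
    have p1 : 0 ≤ S.C ^ 6 * (t * α ^ 3) := by positivity
    have p2 : 0 ≤ α * y := by positivity
    have p3 : 0 ≤ S.C ^ 6 * (α * y) := by positivity
    nlinarith [mul_le_mul_of_nonneg_right (c (show 4 ≤ 6 by norm_num)) p2]
  · rw [mul_comm _ (lam ^ 4), mul_assoc (lam ^ 4)]
    refine mul_le_mul_of_nonneg_left ?_ (by positivity)
    have p1 : 0 ≤ S.C ^ 7 * (t * α ^ 4) := by positivity
    have p3 : √(3 * S.C * α * (2 * D)) ≤ 3 * S.C * √(α * D) := by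
      refine sqrt_le_iff.2 ⟨by positivity, ?_⟩
      rw [mul_pow, sq_sqrt (by positivity)]
      have : 0 ≤ S.C * (α * D) := by positivity
      nlinarith [mul_le_mul_of_nonneg_right C1 this]
    have p2 : 0 ≤ α * √(α * D) * y := by positivity
    have p4 := mul_le_mul_of_nonneg_left p3 (show 0 ≤ S.C ^ 4 * α * y by positivity)
    have p5 : 0 ≤ S.C ^ 7 * (α * √(α * D) * y) := by positivity
    nlinarith [mul_le_mul_of_nonneg_right (c (show 5 ≤ 7 by norm_num)) p2]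

end Kx

/-! ### the crude location -/

namespace Cf

variable {E l0 : ℝ} {cf : ℝ → ℝ} (H : Cf E S M m a l0 cf) (F : Fn S M m a) (hE : 8 * S.C ^ 2 ≤ E)
include H F hE

theorem sl : M.s S.jl ≤ l0 := by
  have := F.s_nonneg S.jl
  nlinarith [H.l0s, one_le_pow₀ (n := 2) F.C1]

theorem pos : 0 < l0 := (F.toCl.s_pos (F.i0.trans F.i1)).trans_le (H.sl F hE)

theorem le {t x K : ℝ} (ht : l0 ≤ t) (hx : l0 ≤ x) (h : x ≤ K * t) (hK : 1 ≤ K) :
    cf x ≤ 2 * K * cf t := by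
  have t0 := (H.pos F hE).trans_le ht
  have c0 := t0.trans_le (H.ge t ht)
  rcases le_total x t with c | c
  · exact (H.mono x t hx c).trans (by nlinarith)
  · have := H.dbl t x ht c
    rw [div_le_iff₀ (t0.trans_le c)] at this
    calc _ ≤ 2 * (cf t / t) * (K * t) := this.trans (by gcongr)
      _ = _ := by field_simp

theorem crude {t κ : ℝ} (ht : l0 ≤ t) (h : cf t ≤ κ * t) (k0 : ℕ) : Crude (2 * κ) S M m a t k0 := by
  have t0 := (H.pos F hE).trans_le ht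
  have k1 : 1 ≤ κ := le_of_mul_le_mul_right (by linarith [H.ge t ht]) t0
  refine ⟨by linarith, fun k _ hk => (H.cru k hk).trans ?_⟩
  have := H.le F hE (x := max (M.z k) l0) (K := max (M.z k) t / t) ht (le_max_right _ _)
    (by rw [div_mul_cancel₀ _ t0.ne']; exact max_le_max le_rfl ht)
    (by rw [le_div_iff₀ t0, one_mul]; exact le_max_right _ _)
  calc _ ≤ 2 * (max (M.z k) t / t) * (κ * t) := this.trans (by gcongr)
    _ = _ := by field_simp

theorem wt {t : ℝ} (ht : l0 ≤ t) : S.w3 t ≤ t ^ 3 :=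
  (w3_anti F (H.pos F hE) ht).trans (H.l0w.trans (pow_le_pow_left₀ (H.pos F hE).le ht 3))

theorem idx {p : ℕ} (h : l0 ≤ M.s p) (hp : p ≤ S.J) : 8 * S.jl ≤ p := by
  have a1 := (F.s_mem F.toCl.jl_lt.le).1
  have a2 := (F.s_mem hp).2
  have a3 := mul_le_mul_of_nonneg_right hE (F.s_nonneg S.jl)
  have C0 := F.C0
  have a4 : S.C * S.v * (8 * S.jl) ≤ S.C * S.v * p := by
    nlinarith [H.l0s, mul_le_mul_of_nonneg_left a1 C0.le]
  exact_mod_cast le_of_mul_le_mul_left a4 (mul_pos C0 F.v0)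

theorem v_le : S.v ≤ S.C * l0 := by
  have a1 := (F.s_mem F.toCl.jl_lt.le).1
  have a2 : (1 : ℝ) ≤ S.jl := by exact_mod_cast F.i0.trans F.i1
  nlinarith [mul_le_mul_of_nonneg_right a2 F.v0.le, mul_le_mul_of_nonneg_left (H.sl F hE) F.C0.le]

/-- labels of the low zone -/
theorem z_low {k : ℕ} (hk : k < S.J) (h : M.s k ≤ l0) : M.z k ≤ 3 * S.C ^ 2 * l0 := by
  have a1 : M.s (max k S.jl) ≤ l0 := by
    rcases max_choice k S.jl with e | e <;> rw [e]
    exacts [h, H.sl F hE]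
  have a2 := F.z_le_s (k := max k S.jl) (F.i1.trans (le_max_right _ _)) (max_lt hk F.toCl.jl_lt)
  have a3 := F.leg.zm (le_max_left k S.jl)
  have a4 := H.v_le F hE
  have a5 := le_mul_of_one_le_left (H.pos F hE).le F.C1
  nlinarith [mul_le_mul_of_nonneg_left (show M.s (max k S.jl) + 2 * S.v ≤ 3 * (S.C * l0) by
    linarith) F.C0.le]

end Cf

/-- crude size -/
theorem Kx.cru (X : Kx lam S M m a) {E l0 : ℝ} {cf : ℝ → ℝ} (H : Cf E S M m a l0 cf)
    (hE : 8 * S.C ^ 2 ≤ E) {t K : ℝ} (ht : l0 ≤ t) (hK : 1 ≤ K) {k : ℕ} (hk : k ≤ M.N)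
    (h : M.z k ≤ K * t) : u4 M m a k ≤ 2 * K * lam * cf t := by
  have t0 := (H.pos X.fn hE).trans_le ht
  have c0 := t0.trans_le (H.ge t ht)
  have l2 := X.l2
  have := X.low _ t t0 ((H.sl X.fn hE).trans ht) (H.wt X.fn hE ht)
    (H.crude X.fn hE (κ := cf t / t) ht (div_mul_cancel₀ _ t0.ne').ge _) k hk
  calc _ ≤ lam * (2 * (cf t / t)) * (K * t) := this.trans (mul_le_mul_of_nonneg_left
        (max_le h (le_mul_of_one_le_left t0.le hK)) (by positivity))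
    _ = _ := by field_simp

/-- the usual passage from the context -/
theorem of_kx {R : CP} (hR : MoL R) (K : ℝ → ℝ) (k : ℕ) (h : ∀ E lam S M m a, Kx lam S M m a →
    K S.C ≤ lam → lam ≤ E → R E (lam ^ k) S M m a) : CL R :=
  kx_ev.glue' hR 0 le_rfl 1 k fun C _ _ _ _ _ => ⟨K C, fun S M m a G _ b1 _ _ _ X => by
    rw [pow_one]
    exact h _ _ S M m a X (by rw [G.hC]; exact G.K_le) (Pre29.rp_le G.n1 (by simpa using b1))⟩

theorem szL : SzL := by
  refine of_kx (fun E Λ Λ' S M m a l1 h H l0 cf c k hk => (H l0 cf c k hk).trans ?_)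
    (fun C => 8 * C ^ 2) 2 fun E lam S M m a X b1 b2 l0 cf H k hk => ?_
  · rcases le_total 0 (cf (max (M.z k) l0)) with e | e
    · exact mul_le_mul_of_nonneg_right h e
    · have := (u4_nn k).trans (H l0 cf c k hk)
      nlinarith
  · have l2 := X.l2
    have c0 := ((H.pos X.fn (b1.trans b2)).trans_le (le_max_right (M.z k) l0)).trans_le
      (H.ge _ (le_max_right _ _))
    refine (X.cru H (b1.trans b2) (le_max_right _ _) le_rfl hk.le
      (by rw [one_mul]; exact le_max_left _ _)).trans ?_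
    gcongr; nlinarith

theorem rp3 {x : ℝ} (hx : 0 ≤ x) : (x ^ ((1 : ℝ) / 3)) ^ 3 = x := by
  rw [← rpow_natCast, ← rpow_mul hx]; norm_num

theorem rp23 {x : ℝ} (hx : 0 ≤ x) : (x ^ ((2 : ℝ) / 3)) ^ 3 = x ^ 2 := by
  rw [← rpow_natCast, ← rpow_mul hx, ← rpow_natCast]; norm_num

theorem szP : SzP := by
  refine of_kx (fun E Λ Λ' S M m a l1 h H l0 cf c k κ a1 a2 a3 a4 =>
    (H l0 cf c k κ a1 a2 a3 a4).trans ?_)
    (fun C => 8 * C ^ 2) 2 fun E lam S M m a X b1 b2 l0 cf H k κ a1 a2 a3 _ => ?_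
  · have := (u4_nn k).trans (H l0 cf c k κ a1 a2 a3 a4)
    exact mul_le_mul_of_nonneg_right h (nonneg_of_mul_nonneg_right this (by linarith) |> fun e => e)
  · have hE := b1.trans b2
    have F := X.fn
    have l2 := X.l2
    have C0 := F.C0
    have v0 := F.v0
    have i1 := H.idx F hE a1 (by omega)
    have i2 := F.i0.trans F.i1
    obtain ⟨B, I⟩ := std_blk F (j := k) (by omega) (by omega) a2 (H.wt F hE a1)
    have c := H.crude F hE a1 a3 (k - k / 3)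
    have k0 : 0 < κ := by linarith [c.1]
    have w0 := F.w3_pos B.t0
    have e1 : 6 * S.C ^ 3 ≤ 9 * S.C ^ 3 := by gcongr; norm_num
    have := X.pt (α := 2 * (κ ^ ((2 : ℝ) / 3) * w1 S (M.s k))) (QB_mono F.toCl B e1) a2.le
      (Inn_mono I B.t0.le (by positivity) e1) c (by unfold w1; positivity) (by
        rw [mul_pow, mul_pow, mul_pow, w1, rp3 w0.le, rp23 k0.le]
        nlinarith [mul_pos w0 (pow_pos k0 2)])
    have e2 := ev_anti (f := M.rb m a) (a := k - k / 3) (b := k + k / 3) (k := k)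
      (show κ * S.v ≤ 2 * κ * S.v by nlinarith [mul_pos k0 v0])
    have e3 : 0 ≤ ev (M.rb m a) (κ * S.v) (k - k / 3) (k + k / 3) k := ev_nonneg
    have e4 : 0 ≤ κ ^ ((2 : ℝ) / 3) * w1 S (M.s k) := by unfold w1; positivity
    calc _ ≤ lam * (2 * (κ ^ ((2 : ℝ) / 3) * w1 S (M.s k) +
          ev (M.rb m a) (κ * S.v) (k - k / 3) (k + k / 3) k)) :=
          this.trans (mul_le_mul_of_nonneg_left (by linarith) (by linarith))
      _ ≤ _ := by rw [← mul_assoc]; gcongr; nlinarith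

/-! ### sup location from the energy, below the top window -/

theorem del_le (F : Fn S M m a) {R : ℝ} (R0 : 0 ≤ R) (R1 : R ≤ 1)
    (h : Ap63.Sx M.z (M.del m a) S.j0 S.Jp 2 ≤ R ^ 3) {k : ℕ} (h0 : 2 * S.j0 ≤ k)
    (h1 : S.J ≤ 16 * (S.J - k)) : |M.del m a k| ≤ 14 * S.C ^ 2 * R + 2 * (S.C * S.v) := by
  have C0 := F.C0
  have C1 := F.C1
  have v0 := F.v0
  have i0 := F.i0
  have i2 := F.i2
  have i3 := F.i3
  have i4 := F.i4
  have kJ : k < S.J := by omega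
  have c2 : 1 ≤ S.C ^ 2 := one_le_pow₀ C1
  have g0 : 0 < S.C * S.v := by positivity
  have p0 : 0 ≤ S.C ^ 2 * R := by positivity
  have hq : ∀ {i j : ℕ}, i ≤ j → j ≤ S.J → M.q j - M.q i ≤ ((j : ℝ) - i) * (S.C * S.v) :=
    fun a1 a2 => (Ap63.q_slow F.toCl a1 (by omega)).trans (F.toCl.s_tel a1 a2).2
  have rm := Md67.rb_mono (M := M) (a := a) F.lg.m0
  have cub : ∀ ρ e : ℝ, 0 ≤ e → ρ ^ 2 * (ρ - e) ≤ S.C ^ 2 * R ^ 3 → ρ ≤ S.C ^ 2 * R + e :=
    fun ρ e e0 hρ => not_lt.1 fun c => by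
      have a1 : R ≤ S.C ^ 2 * R := le_mul_of_one_le_left R0 c2
      have a2 : R ^ 2 ≤ ρ ^ 2 := pow_le_pow_left₀ R0 (by linarith) 2
      have a3 := mul_lt_mul_of_pos_left (show S.C ^ 2 * R < ρ - e by linarith)
        (show 0 < ρ ^ 2 by have : 0 < ρ := by linarith
                           positivity)
      nlinarith [mul_le_mul_of_nonneg_right a2 p0]
  set ρ := |M.del m a k| / 2 with hρ
  have ρ0 : 0 ≤ ρ := by positivity
  have f1 := Nat.floor_le (show 0 ≤ ρ / (S.C * S.v) by positivity)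
  have f2 := Nat.lt_floor_add_one (ρ / (S.C * S.v))
  generalize ⌊ρ / (S.C * S.v)⌋₊ = r at f1 f2
  rw [le_div_iff₀ g0] at f1
  rw [div_lt_iff₀ g0] at f2
  suffices ρ ≤ 7 * (S.C ^ 2 * R) + S.C * S.v by linarith
  rcases abs_cases (M.del m a k) with ⟨e, -⟩ | ⟨e, -⟩
  · have key : ∀ r' : ℕ, r' ≤ r → k + r' < S.J → ρ ^ 2 * ((r' + 1) * (S.v / S.C)) ≤ R ^ 3 :=
      fun r' a1 a2 => by
        have b := Ap63.blk_le (y := M.del m a) (lo := S.j0) (hi := S.Jp) (p := k - 1) (q := k + r')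
          F.leg.zm (by omega) (by omega) (by omega) ρ0 (fun j b1 b2 => le_trans (by
            have c1 := hq (show k ≤ j by omega) (by omega)
            have c2 : ((j : ℝ) - k) ≤ r := by
              have : (j : ℝ) ≤ ((k + r : ℕ) : ℝ) := by exact_mod_cast (by omega : j ≤ k + r)
              push_cast at this; linarith
            have c3 := rm (show k ≤ j by omega)
            unfold Md.del at *
            nlinarith [mul_le_mul_of_nonneg_right c2 g0.le]) (le_abs_self _)) 2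
        have c := (F.toCl.z_tel (i := k - 1) (j := k + r') (by omega) (by omega) a2).1
        rw [Nat.cast_sub (by omega)] at c
        push_cast at c
        refine le_trans (mul_le_mul_of_nonneg_left (le_trans (le_of_eq ?_) c) (sq_nonneg ρ))
          (b.trans h)
        ring
    rcases lt_or_ge (k + r) S.J with c | c
    · have a1 := mul_le_mul_of_nonneg_left (key r le_rfl c) (sq_nonneg S.C)
      have a2 : S.C ^ 2 * (ρ ^ 2 * ((r + 1) * (S.v / S.C))) = ρ ^ 2 * ((r + 1) * (S.C * S.v)) := by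
        field_simp
      have := cub ρ 0 le_rfl (by nlinarith [mul_le_mul_of_nonneg_left f2.le (sq_nonneg ρ)])
      linarith
    · have a1 := key (S.J - k - 1) (by omega) (by omega)
      have a2 : (S.J : ℝ) ≤ 16 * (((S.J - k - 1 : ℕ) : ℝ) + 1) := by
        exact_mod_cast (by omega : S.J ≤ 16 * (S.J - k - 1 + 1))
      have a3 : 1 ≤ 48 * S.C ^ 4 * ((((S.J - k - 1 : ℕ) : ℝ) + 1) * (S.v / S.C)) :=
        calc _ ≤ 3 * S.C ^ 3 * (16 * (((S.J - k - 1 : ℕ) : ℝ) + 1) * S.v) :=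
              F.J_lo.trans (by gcongr)
          _ = _ := by field_simp; ring
      have a4 := mul_le_mul_of_nonneg_left a3 (sq_nonneg ρ)
      have a5 := mul_le_mul_of_nonneg_left a1 (show 0 ≤ 48 * S.C ^ 4 by positivity)
      have a6 : R ^ 3 ≤ R ^ 2 := pow_le_pow_of_le_one R0 R1 (by norm_num)
      have a7 := mul_le_mul_of_nonneg_left a6 (show 0 ≤ 48 * S.C ^ 4 by positivity)
      have : ρ ≤ 7 * (S.C ^ 2 * R) :=
        le_of_pow_le_pow_left₀ two_ne_zero (by positivity) (by nlinarith [sq_nonneg (S.C ^ 2 * R)])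
      linarith
  · have a0 : 2 * ρ ≤ S.C * (k * S.v) := by
      have := F.toCl.q_le_s (k := k) (by omega)
      have := (F.s_mem kJ.le).2
      have := rb_nonneg (M := M) (a := a) F.lg.m0 k
      unfold Md.del at *
      linarith
    have a1 : 2 * r ≤ k := by
      have : S.C * S.v * (2 * r) ≤ S.C * S.v * k := by nlinarith
      exact_mod_cast le_of_mul_le_mul_left this g0
    have b := Ap63.blk_le (y := M.del m a) (lo := S.j0) (hi := S.Jp) (p := k - r) (q := k)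
      F.leg.zm (by omega) (by omega) (by omega) ρ0 (fun j b1 b2 => le_trans (by
        have c1 := hq b2 kJ.le
        have c2 : ((k : ℝ) - j) ≤ r := by
          have : (k : ℝ) ≤ ((j + r : ℕ) : ℝ) := by exact_mod_cast (by omega : k ≤ j + r)
          push_cast at this; linarith
        have c3 := rm b2
        unfold Md.del at *
        nlinarith [mul_le_mul_of_nonneg_right c2 g0.le]) (neg_le_abs _)) 2
    have c := (F.toCl.z_tel (i := k - r) (j := k) (by omega) (by omega) kJ).1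
    rw [Nat.cast_sub (by omega), sub_sub_cancel] at c
    have a2 := mul_le_mul_of_nonneg_left ((mul_le_mul_of_nonneg_left c (sq_nonneg ρ)).trans
      (b.trans h)) (sq_nonneg S.C)
    have a3 : S.C ^ 2 * (ρ ^ 2 * (r * (S.v / S.C))) = ρ ^ 2 * (r * (S.C * S.v)) := by field_simp
    have := cub ρ (S.C * S.v) g0.le (by nlinarith [mul_le_mul_of_nonneg_left f2.le (sq_nonneg ρ)])
    linarith

end Crest.Agent.T156.Alt.Sz9

end
end

-- ▼ part T156/ClSzB_61

/-!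
# Row 156, block (L) (helper61): the bulk sums of the powers of the centred overlap
-/

set_option autoImplicit false
set_option linter.unusedSectionVars false

noncomputable section

namespace Crest.Agent.T156.Alt.Sz9.B61

open Real Finset Filter
open Crest.Agent.T156.Alt.E61 Crest.Agent.T156.Alt.Md67 Crest.Agent.T156.Alt.C33
open Crest.Agent.T156.Alt.QS98 Crest.Agent.T156.Env96

variable {S : Sc} {M : Md} {m : ℕ} {a lam E l0 X : ℝ} {cf : ℝ → ℝ} {p : ℕ}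

/-- the dyadic block -/
def bl (S : Sc) (M : Md) (p : ℕ) : Finset ℕ := (Bk S M).filter fun k => p ≤ k ∧ k < 2 * p

theorem mem_bl {k : ℕ} (h : k ∈ bl S M p) : k < M.N ∧ k + k / 3 < S.J ∧ p ≤ k ∧ k < 2 * p := by
  simpa only [bl, Bk, mem_filter, mem_range, and_assoc] using h

/-- geometry of the dyadic block -/
theorem geo (F : Fn S M m a) (h8 : 8 * S.jl ≤ p) (hJ : p + p / 3 < S.J)
    (hw : S.w3 (M.s p) ≤ M.s p ^ 3) {k1 : ℕ} (e : k1 = min (3 * p) (S.J - S.J / 8)) :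
    QB (9 * S.C ^ 3) S M (M.s p) (p - p / 2) k1 ∧
      (∀ j ∈ bl S M p, Inn (9 * S.C ^ 3) S (M.s p) (p - p / 2) k1 j) ∧
      M.s k1 ≤ 3 * S.C ^ 2 * M.s p ∧ S.v ≤ S.C * M.s p := by
  have C1 := F.C1
  have C0 := F.C0
  have v0 := F.v0
  have i0 := F.i0
  have i1 := F.i1
  have i3 := F.i3
  have c2 : S.C ^ 2 ≤ S.C ^ 3 := pow_le_pow_right₀ C1 (by norm_num)
  have c1 : S.C ≤ S.C ^ 3 := le_self_pow₀ C1 (by norm_num)
  obtain ⟨a1, a2⟩ := F.s_mem (k := p) (by omega)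
  obtain ⟨b1, -⟩ := F.s_mem (k := p - p / 2) (by omega)
  obtain ⟨-, b2⟩ := F.s_mem (k := k1) (by omega)
  have e1 : (p : ℝ) ≤ 2 * ((p - p / 2 : ℕ) : ℝ) := by exact_mod_cast (by omega : p ≤ 2 * (p - p / 2))
  have e2 : (k1 : ℝ) ≤ 3 * p := by exact_mod_cast (by omega : k1 ≤ 3 * p)
  have e3 : (1 : ℝ) ≤ p := by exact_mod_cast (by omega : 1 ≤ p)
  have s0 := F.s_nonneg (p - p / 2)
  have s1 : 0 < M.s p := F.toCl.s_pos (by omega)
  have inn : ∀ i j : ℕ, i ≤ j → p ≤ 6 * (j - i) → M.s p / (9 * S.C ^ 3) ≤ ((j : ℝ) - i) * S.v :=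
    fun i j h1 h2 => by
      have h3 : (p : ℝ) ≤ 6 * ((j : ℝ) - i) := by rw [← Nat.cast_sub h1]; exact_mod_cast h2
      have h4 : (0 : ℝ) ≤ (j : ℝ) - i := by linarith
      rw [div_le_iff₀ (by positivity)]
      calc _ ≤ S.C ^ 3 * (9 * ((j : ℝ) - i) * S.v) := a2.trans (by gcongr; linarith)
        _ = _ := by ring
  refine ⟨⟨s1, by omega, by omega, by omega, ?_, ?_, hw⟩, fun j hj => ?_, ?_, ?_⟩
  · calc _ ≤ S.C * (2 * ((p - p / 2 : ℕ) : ℝ) * S.v) := a2.trans (by gcongr)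
      _ = 2 * S.C * (((p - p / 2 : ℕ) : ℝ) * S.v) := by ring
      _ ≤ 2 * S.C * (S.C * M.s (p - p / 2)) := by gcongr _ * ?_
      _ ≤ _ := by nlinarith [mul_le_mul_of_nonneg_right c2 s0, mul_nonneg (pow_pos C0 3).le s0]
  · calc _ ≤ 3 * S.C ^ 2 * (3 * p * S.v) := (F.z_hi (by omega) (by omega)).trans (by gcongr)
      _ = 9 * S.C ^ 2 * (p * S.v) := by ring
      _ ≤ 9 * S.C ^ 2 * (S.C * M.s p) := by gcongr _ * ?_
      _ = _ := by ring
  · have := mem_bl hj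
    exact ⟨inn _ _ (by omega) (by omega), inn _ _ (by omega) (by omega)⟩
  · calc _ ≤ S.C * (3 * p * S.v) := b2.trans (by gcongr)
      _ = 3 * S.C * (p * S.v) := by ring
      _ ≤ 3 * S.C * (S.C * M.s p) := by gcongr _ * ?_
      _ = _ := by ring
  · exact (le_mul_of_one_le_left v0.le e3).trans a1

theorem v_le_w (F : Fn S M m a) {t : ℝ} (t0 : 0 < t) (t1 : t ≤ S.C) : S.v ≤ S.C ^ 2 * w1 S t := by
  have w0 := F.w3_pos t0
  have n1 := F.n1
  have v0 := F.v0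
  have C0 := F.C0
  refine le_of_pow_le_pow_left₀ three_ne_zero (by unfold w1; positivity) ?_
  rw [mul_pow, w1, rp3 w0.le]
  have a1 : 1 ≤ S.w3 t * (S.n * S.C) := (w3_ge F t0).trans (by gcongr)
  have a2 : S.v ≤ S.C := (le_mul_of_one_le_right v0.le n1).trans F.vn
  calc _ ≤ S.v ^ 3 * (S.w3 t * (S.n * S.C)) := le_mul_of_one_le_right (by positivity) a1
    _ = S.v ^ 2 * (S.v * S.n) * S.C * S.w3 t := by ring
    _ ≤ S.C ^ 2 * S.C * S.C * S.w3 t := by have := F.vn; gcongr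
    _ = S.C ^ 4 * S.w3 t := by ring
    _ ≤ _ := by rw [← pow_mul]; gcongr; exacts [F.C1, by norm_num]

section blk

variable (K : Kx lam S M m a) (H : Cf E S M m a l0 cf) (hE : 8 * S.C ^ 2 ≤ E)
  (hp : l0 ≤ M.s p) (hJ : p + p / 3 < S.J)
include K H hE hp hJ

theorem z_bl {k : ℕ} (hk : k ∈ bl S M p) : M.z k ≤ 9 * S.C ^ 3 * M.s p := by
  have h8 := H.idx K.fn hE hp (by omega)
  obtain ⟨B, I, -⟩ := geo K.fn h8 hJ (H.wt K.fn hE hp) rfl
  have := mem_bl hk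
  exact (K.fn.leg.zm (by omega)).trans B.hi

/-- crude block sums -/
theorem blk_cru (i : ℕ) : ∑ k ∈ bl S M p, M.dz m a k * u4 M m a k ^ i ≤
    9 * S.C ^ 3 * (18 * S.C ^ 3 * lam) ^ i * (M.s p * cf (M.s p) ^ i) := by
  have F := K.fn
  have h8 := H.idx F hE hp (by omega)
  obtain ⟨B, I, -⟩ := geo F h8 hJ (H.wt F hE hp) rfl
  have C0 := F.C0
  have l2 := K.l2
  have c0 := B.t0.trans_le (H.ge _ hp)
  have i0 := F.i0.trans F.i1
  calc _ ≤ ∑ k ∈ bl S M p, M.dz m a k * (18 * S.C ^ 3 * lam * cf (M.s p)) ^ i :=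
        sum_le_sum fun k hk => mul_le_mul_of_nonneg_left (pow_le_pow_left₀ (u4_nn k)
          ((K.cru H hE hp K.K1 (mem_bl hk).1.le (z_bl K H hE hp hJ hk)).trans_eq (by ring)) i)
          (F.lg.dz_nonneg k)
    _ ≤ 9 * S.C ^ 3 * M.s p * (18 * S.C ^ 3 * lam * cf (M.s p)) ^ i := by
        rw [← sum_mul]
        refine mul_le_mul_of_nonneg_right ((sum_le_sum_of_subset_of_nonneg
          (t := Ioc (p - p / 2) (min (3 * p) (S.J - S.J / 8))) (fun j hj => by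
            have := mem_bl hj; exact mem_Ioc.2 ⟨by omega, by omega⟩)
          fun i _ _ => F.lg.dz_nonneg i).trans ?_) (by positivity)
        rw [sum_dz F.leg B.k01]
        linarith [B.hi, F.z_pos (p - p / 2)]
    _ = _ := by rw [mul_pow _ (cf _)]; ring

/-- block sums with the first slope `y ^ 3` times the crude one; `R` is the location -/
theorem blk_y (phi : M.En S m a M.q 2 0 S.C ≤ X) (X1 : X ≤ 1) {R y : ℝ} (R0 : 0 ≤ R)
    (hR : R ^ 3 = min X (cf (M.s p) ^ 3)) (y1 : 1 ≤ y) :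
    ∑ k ∈ bl S M p, M.dz m a k * u4 M m a k ^ 2 ≤ 30000 * S.C ^ 5 * lam ^ 2 *
      (M.s p * (2 * wc S cf (M.s p) * y ^ 2) ^ 2 + 11000 * S.C ^ 9 * max R S.v ^ 3 / y ^ 3) ∧
    ∑ k ∈ bl S M p, M.dz m a k * u4 M m a k ^ 3 ≤ 700000 * S.C ^ 6 * lam ^ 3 *
      (M.s p * (2 * wc S cf (M.s p) * y ^ 2) ^ 3 + 2 * wc S cf (M.s p) * y ^ 2 *
        (11000 * S.C ^ 9 * max R S.v ^ 3 / y ^ 3)) ∧
    ∑ k ∈ bl S M p, M.dz m a k * u4 M m a k ^ 4 ≤ 20000000 * S.C ^ 7 * lam ^ 4 *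
      (M.s p * (2 * wc S cf (M.s p) * y ^ 2) ^ 4 + 2 * wc S cf (M.s p) * y ^ 2 *
        √(2 * wc S cf (M.s p) * y ^ 2 * (20 * S.C ^ 3 * max R S.v)) *
        (11000 * S.C ^ 9 * max R S.v ^ 3 / y ^ 3)) := by
  have F := K.fn
  have h := F.toCl
  have h8 := H.idx F hE hp (by omega)
  obtain ⟨B, I, sk, -⟩ := geo F h8 hJ (H.wt F hE hp) rfl
  have C0 := F.C0
  have C1 := F.C1
  have v0 := F.v0
  have l2 := K.l2
  have t0 := B.t0
  have ge := H.ge _ hp
  have c0 := t0.trans_le ge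
  have i0 := F.i0
  have i1 := F.i1
  have i3 := F.i3
  have i4 := F.i4
  have w0 := F.w3_pos t0
  have r1 : 1 ≤ cf (M.s p) / M.s p := (one_le_div t0).2 ge
  have y3 : 1 ≤ y ^ 3 := one_le_pow₀ y1
  have c : ∀ {i j : ℕ}, i ≤ j → S.C ^ i ≤ S.C ^ j := fun e => pow_le_pow_right₀ C1 e
  have kk : 3 * p ≥ min (3 * p) (S.J - S.J / 8) ∧ S.J - S.J / 8 ≥ min (3 * p) (S.J - S.J / 8) :=
    ⟨min_le_left _ _, min_le_right _ _⟩
  generalize min (3 * p) (S.J - S.J / 8) = k1 at *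
  have k01 := B.k01
  have mR := le_max_left R S.v
  have mv := le_max_right R S.v
  have cr : ∀ i, i ≤ k1 → |M.del m a i| ≤ 18 * S.C ^ 3 * cf (M.s p) := fun i a2 => by
    have b1 := (H.cru i (by omega)).trans (H.le F hE hp (le_max_right _ _) (max_le
      ((F.leg.zm a2).trans B.hi) (hp.trans (le_mul_of_one_le_left t0.le K.K1))) K.K1)
    have b2 := (h.q_le_s (k := i) (by omega)).trans ((F.sm a2).trans sk)
    have b3 := h.q_nn (k := i) (by omega)
    have b4 := rb_nonneg (M := M) (a := a) F.lg.m0 i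
    have b5 : S.C ^ 2 * M.s p ≤ S.C ^ 3 * cf (M.s p) := by
      have := c (show 2 ≤ 3 by norm_num); gcongr
    have b6 : 0 ≤ S.C ^ 3 * cf (M.s p) := by positivity
    unfold Md.del
    exact abs_le.2 ⟨by linarith, by linarith⟩
  have key : (∀ i, p - p / 2 ≤ i → i ≤ k1 → |M.del m a i| ≤ 20 * S.C ^ 3 * max R S.v) ∧
      ∑ i ∈ Icc (p - p / 2) k1, M.dz m a i * M.del m a i ^ 2 ≤ 2916 * S.C ^ 9 * R ^ 3 := by
    have sub : Icc (p - p / 2) k1 ⊆ Ioc S.j0 k1 := fun j hj => by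
      have := mem_Icc.1 hj; exact mem_Ioc.2 ⟨by omega, by omega⟩
    rcases min_choice X (cf (M.s p) ^ 3) with e | e <;> rw [e] at hR
    · rw [Ap63.En_eq h, ← hR] at phi
      have R1 : R ≤ 1 := le_of_pow_le_pow_left₀ three_ne_zero zero_le_one (by rw [hR]; linarith)
      refine ⟨fun i a1 a2 => (del_le F R0 R1 phi (by omega) (by omega)).trans ?_, ?_⟩
      · have b1 : S.C ^ 2 * R ≤ S.C ^ 3 * max R S.v := by
          have := c (show 2 ≤ 3 by norm_num); gcongr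
        have b2 : S.C * S.v ≤ S.C ^ 3 * max R S.v := by
          have := le_self_pow₀ C1 three_ne_zero; gcongr
        have b3 : 0 ≤ S.C ^ 3 * max R S.v := by positivity
        linarith
      · rw [Ap63.Sx_two] at phi
        refine le_trans (le_trans ?_ phi) (le_mul_of_one_le_left (by positivity)
          (by linarith [one_le_pow₀ (n := 9) C1]))
        refine le_trans (le_of_eq (sum_congr rfl fun j hj => ?_)) (sum_le_sum_of_subset_of_nonneg
          (sub.trans (Ioc_subset_Ioc_right (by omega))) fun j _ _ =>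
            mul_nonneg (Ap63.w_nn F.leg.zm j) (sq_nonneg _))
        rw [dz_up F.leg (by have := (mem_Icc.1 hj).1; omega)]; rfl
    · have e' : R = cf (M.s p) := (pow_left_inj₀ R0 c0.le three_ne_zero).1 hR
      rw [← e'] at cr ge
      refine ⟨fun i _ a2 => (cr i a2).trans (by gcongr; norm_num), ?_⟩
      calc _ ≤ ∑ i ∈ Icc (p - p / 2) k1, M.dz m a i * (18 * S.C ^ 3 * R) ^ 2 :=
            sum_le_sum fun i hi => mul_le_mul_of_nonneg_left (by
              rw [← sq_abs]; exact pow_le_pow_left₀ (abs_nonneg _) (cr i (mem_Icc.1 hi).2) 2)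
              (F.lg.dz_nonneg i)
        _ ≤ 9 * S.C ^ 3 * R * (18 * S.C ^ 3 * R) ^ 2 := by
            rw [← sum_mul]
            refine mul_le_mul_of_nonneg_right ((sum_le_sum_of_subset_of_nonneg sub
              fun i _ _ => F.lg.dz_nonneg i).trans ?_) (by positivity)
            rw [sum_dz F.leg (by omega)]
            have : 9 * S.C ^ 3 * M.s p ≤ 9 * S.C ^ 3 * R := by gcongr
            linarith [B.hi, F.z_pos S.j0]
        _ = _ := by ring
  have wc0 : 0 < wc S cf (M.s p) := by unfold wc; positivity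
  obtain ⟨r2, r3, r4⟩ := K.blk (κ := 2 * (cf (M.s p) / M.s p * y ^ 3))
    (α := 2 * wc S cf (M.s p) * y ^ 2) (Y := 11000 * S.C ^ 9 * max R S.v ^ 3) B (by omega)
    (by omega) _ I (H.crude F hE hp (by
      rw [mul_right_comm, div_mul_cancel₀ _ t0.ne']
      exact le_mul_of_one_le_right c0.le y3) _) (by positivity) (by
      rw [wc, mul_pow, mul_pow, mul_pow, mul_pow, mul_pow, rp3 w0.le]
      have a1 : (cf (M.s p) / M.s p) ^ 2 ≤ (cf (M.s p) / M.s p) ^ 3 :=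
        pow_le_pow_right₀ r1 (by norm_num)
      have a2 : 0 ≤ S.w3 (M.s p) * y ^ 6 := by positivity
      have a3 : 0 ≤ (cf (M.s p) / M.s p) ^ 3 * (S.w3 (M.s p) * y ^ 6) := by positivity
      nlinarith [mul_le_mul_of_nonneg_right a1 a2]) key.1 (by
      have a1 : S.C ^ 9 * R ^ 3 ≤ S.C ^ 9 * max R S.v ^ 3 := by gcongr
      have a2 : 0 ≤ S.C ^ 9 * max R S.v ^ 3 := by positivity
      nlinarith [key.2])
  have q : 11000 * S.C ^ 9 * max R S.v ^ 3 / (2 * (cf (M.s p) / M.s p * y ^ 3)) ≤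
      11000 * S.C ^ 9 * max R S.v ^ 3 / y ^ 3 :=
    div_le_div_of_nonneg_left (by positivity) (by positivity) (by nlinarith)
  exact ⟨r2.trans (by gcongr), r3.trans (by gcongr), r4.trans (by gcongr)⟩

theorem v_le : S.v ≤ S.C ^ 2 * wc S cf (M.s p) ∧ S.v ^ 3 ≤ S.C ^ 5 * (M.s p * wc S cf (M.s p) ^ 2) := by
  have F := K.fn
  have h8 := H.idx F hE hp (by omega)
  obtain ⟨B, -, -, vt⟩ := geo F h8 hJ (H.wt F hE hp) rfl
  have C0 := F.C0
  have v0 := F.v0
  have t0 := B.t0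
  have w0 := F.w3_pos t0
  have a1 : S.v ≤ S.C ^ 2 * wc S cf (M.s p) :=
    (v_le_w F t0 (F.toCl.s_le_C (by have := F.i3; omega))).trans (mul_le_mul_of_nonneg_left
      (le_mul_of_one_le_left (by unfold w1; positivity) ((one_le_div t0).2 (H.ge _ hp)))
      (by positivity))
  refine ⟨a1, ?_⟩
  calc _ = S.v * S.v ^ 2 := by ring
    _ ≤ S.C * M.s p * (S.C ^ 2 * wc S cf (M.s p)) ^ 2 := by gcongr
    _ = _ := by ring

theorem wc_pos : 0 < M.s p ∧ 0 < cf (M.s p) ∧ 0 < wc S cf (M.s p) := by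
  have t0 := (H.pos K.fn hE).trans_le hp
  have c0 := t0.trans_le (H.ge _ hp)
  have w0 := K.fn.w3_pos t0
  exact ⟨t0, c0, by unfold wc; positivity⟩

/-- **block sums**, closed forms -/
theorem blk_opt (phi : M.En S m a M.q 2 0 S.C ≤ X) (X0 : 0 < X) (X1 : X ≤ 1) {t w Y : ℝ}
    (et : t = M.s p) (ew : w = wc S cf t) (eY : Y = min X (cf t ^ 3)) :
    ∑ k ∈ bl S M p, M.dz m a k * u4 M m a k ^ 2 ≤ 10 ^ 13 * S.C ^ 24 * lam ^ 2 *
      min (t * cf t ^ 2) (t * w ^ 2 + (t * w ^ 2) ^ ((3 : ℝ) / 7) * Y ^ ((4 : ℝ) / 7)) ∧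
    ∑ k ∈ bl S M p, M.dz m a k * u4 M m a k ^ 3 ≤ 10 ^ 13 * S.C ^ 24 * lam ^ 3 *
      min (t * cf t ^ 3) (t * w ^ 3 + (t * w ^ 3) ^ ((1 : ℝ) / 7) * (w * Y) ^ ((6 : ℝ) / 7)) ∧
    ∑ k ∈ bl S M p, M.dz m a k * u4 M m a k ^ 4 ≤ 10 ^ 13 * S.C ^ 24 * lam ^ 4 *
      (t * w ^ 4 + w ^ ((3 : ℝ) / 2) * Y ^ ((7 : ℝ) / 6)) := by
  obtain ⟨t0, c0, w0⟩ := wc_pos K H hE hp hJ
  obtain ⟨v1, v3⟩ := v_le K H hE hp hJ
  have cr := blk_cru K H hE hp hJ
  have Y0 : 0 ≤ Y := by rw [eY, et]; positivity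
  have by' := fun y => blk_y (y := y) K H hE hp hJ phi X1 (R := Y ^ ((1 : ℝ) / 3)) (by positivity)
    (by rw [rp3 Y0, eY, et])
  rw [← et] at *
  rw [← ew] at *
  have C1 := K.fn.C1
  have C0 := K.fn.C0
  have v0 := K.fn.v0
  have l2 := K.l2
  have c : ∀ {i j : ℕ}, i ≤ j → S.C ^ i ≤ S.C ^ j := fun e => pow_le_pow_right₀ C1 e
  have c5 : 1 ≤ S.C ^ 5 := one_le_pow₀ C1
  have mx : max (Y ^ ((1 : ℝ) / 3)) S.v ^ 3 ≤ S.C ^ 5 * (Y + t * w ^ 2) := by
    have : 0 ≤ S.C ^ 5 * (t * w ^ 2) := by positivity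
    have := le_mul_of_one_le_left Y0 c5
    rcases max_choice (Y ^ ((1 : ℝ) / 3)) S.v with e | e <;> rw [e]
    · rw [rp3 Y0]; linarith
    · linarith
  refine ⟨?_, ?_, (by' 1 le_rfl).2.2.trans ?_⟩
  · rw [mul_min_of_nonneg _ _ (by positivity)]
    refine le_min ((cr 2).trans ?_) ?_
    · rw [show 9 * S.C ^ 3 * (18 * S.C ^ 3 * lam) ^ 2 = 2916 * S.C ^ 9 * lam ^ 2 by ring]
      gcongr <;> norm_num
    obtain ⟨y, y1, hy⟩ := opt2 (A := t * w ^ 2) (r := 3 / 7) (s := 4 / 7) (by positivity) Y0 4 3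
      (by norm_num) (by norm_num) (by norm_num)
    refine (by' y y1).1.trans ?_
    have y0 : 0 < y := by linarith
    have a1 : t * w ^ 2 / y ^ 3 ≤ t * w ^ 2 * y ^ 4 :=
      (div_le_self (by positivity) (one_le_pow₀ y1)).trans
        (le_mul_of_one_le_right (by positivity) (one_le_pow₀ y1))
    have a2 : 0 ≤ t * w ^ 2 * y ^ 4 := by positivity
    have a3 : 0 ≤ Y / y ^ 3 := by positivity
    calc _ ≤ 30000 * S.C ^ 5 * lam ^ 2 * (S.C ^ 14 * (t * (2 * w * y ^ 2) ^ 2) +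
          11000 * S.C ^ 9 * (S.C ^ 5 * (Y + t * w ^ 2)) / y ^ 3) := by
          gcongr _ * (?_ + ?_)
          · exact le_mul_of_one_le_left (by positivity) (one_le_pow₀ C1)
          · gcongr
      _ = 30000 * S.C ^ 19 * lam ^ 2 *
          (4 * (t * w ^ 2 * y ^ 4) + 11000 * (Y / y ^ 3) + 11000 * (t * w ^ 2 / y ^ 3)) := by ring
      _ ≤ 30000 * S.C ^ 24 * lam ^ 2 * (11004 * (2 * (t * w ^ 2 +
          (t * w ^ 2) ^ ((3 : ℝ) / 7) * Y ^ ((4 : ℝ) / 7)))) := by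
          gcongr ?_ * ?_
          · gcongr; norm_num
          · linarith
      _ ≤ _ := by
          have : 0 ≤ S.C ^ 24 * lam ^ 2 * (t * w ^ 2 +
            (t * w ^ 2) ^ ((3 : ℝ) / 7) * Y ^ ((4 : ℝ) / 7)) := by positivity
          linarith
  · rw [mul_min_of_nonneg _ _ (by positivity)]
    refine le_min ((cr 3).trans ?_) ?_
    · rw [show 9 * S.C ^ 3 * (18 * S.C ^ 3 * lam) ^ 3 = 52488 * S.C ^ 12 * lam ^ 3 by ring]
      gcongr <;> norm_num
    obtain ⟨y, y1, hy⟩ := opt2 (A := t * w ^ 3) (B := w * Y) (r := 1 / 7) (s := 6 / 7)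
      (by positivity) (by positivity) 6 1 (by norm_num) (by norm_num) (by norm_num)
    refine (by' y y1).2.1.trans ?_
    rw [pow_one] at hy
    have y0 : 0 < y := by linarith
    have a1 : t * w ^ 3 / y ≤ t * w ^ 3 * y ^ 6 :=
      (div_le_self (by positivity) y1).trans
        (le_mul_of_one_le_right (by positivity) (one_le_pow₀ y1))
    have a2 : 0 ≤ t * w ^ 3 * y ^ 6 := by positivity
    have a3 : 0 ≤ w * Y / y := by positivity
    calc _ ≤ 700000 * S.C ^ 6 * lam ^ 3 * (S.C ^ 14 * (t * (2 * w * y ^ 2) ^ 3) +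
          2 * w * y ^ 2 * (11000 * S.C ^ 9 * (S.C ^ 5 * (Y + t * w ^ 2)) / y ^ 3)) := by
          gcongr _ * (?_ + ?_)
          · exact le_mul_of_one_le_left (by positivity) (one_le_pow₀ C1)
          · gcongr
      _ = 700000 * S.C ^ 20 * lam ^ 3 *
          (8 * (t * w ^ 3 * y ^ 6) + 22000 * (w * Y / y) + 22000 * (t * w ^ 3 / y)) := by
          field_simp; ring
      _ ≤ 700000 * S.C ^ 24 * lam ^ 3 * (22008 * (2 * (t * w ^ 3 +
          (t * w ^ 3) ^ ((1 : ℝ) / 7) * (w * Y) ^ ((6 : ℝ) / 7)))) := by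
          gcongr ?_ * ?_
          · gcongr; norm_num
          · linarith
      _ ≤ _ := by
          have : 0 ≤ S.C ^ 24 * lam ^ 3 * (t * w ^ 3 +
            (t * w ^ 3) ^ ((1 : ℝ) / 7) * (w * Y) ^ ((6 : ℝ) / 7)) := by positivity
          linarith
  · simp only [one_pow, mul_one, div_one]
    set R := max (Y ^ ((1 : ℝ) / 3)) S.v with hR
    have R0 : 0 < R := v0.trans_le (le_max_right _ _)
    have a1 : √(2 * w * (20 * S.C ^ 3 * R)) ≤ 7 * S.C ^ 2 * √(w * R) := by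
      refine sqrt_le_iff.2 ⟨by positivity, ?_⟩
      rw [mul_pow, sq_sqrt (by positivity)]
      have : 0 ≤ S.C ^ 4 * (w * R) := by positivity
      nlinarith [mul_le_mul_of_nonneg_right (c (show 3 ≤ 4 by norm_num)) (mul_pos w0 R0).le]
    have a2 : w * √(w * R) * R ^ 3 ≤
        S.C ^ 6 * (t * w ^ 4 + w ^ ((3 : ℝ) / 2) * Y ^ ((7 : ℝ) / 6)) := by
      have p1 : 0 ≤ t * w ^ 4 := by positivity
      have p2 : 0 ≤ w ^ ((3 : ℝ) / 2) * Y ^ ((7 : ℝ) / 6) := by positivity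
      rcases max_choice (Y ^ ((1 : ℝ) / 3)) S.v with e | e <;> rw [hR, e]
      · refine le_trans (le_trans (le_of_eq ?_) (le_add_of_nonneg_left p1))
          (le_mul_of_one_le_left (by positivity) (one_le_pow₀ C1))
        rw [rp3 Y0, sqrt_eq_rpow, mul_rpow w0.le (by positivity), ← rpow_mul Y0,
          show (3 : ℝ) / 2 = 1 + 1 / 2 by norm_num, rpow_add w0, rpow_one,
          show (7 : ℝ) / 6 = 1 / 3 * (1 / 2) + 1 by norm_num, rpow_add_one' Y0 (by norm_num)]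
        ring
      · have b1 : √(w * S.v) ≤ S.C * w :=
          sqrt_le_iff.2 ⟨by positivity, by nlinarith [mul_le_mul_of_nonneg_left v1 w0.le]⟩
        calc _ ≤ w * (S.C * w) * (S.C ^ 5 * (t * w ^ 2)) := by gcongr
          _ = S.C ^ 6 * (t * w ^ 4) := by ring
          _ ≤ _ := by gcongr; linarith
    have p1 : 0 ≤ t * w ^ 4 := by positivity
    have p2 : 0 ≤ w ^ ((3 : ℝ) / 2) * Y ^ ((7 : ℝ) / 6) := by positivity
    calc _ ≤ 20000000 * S.C ^ 7 * lam ^ 4 * (S.C ^ 17 * (t * (2 * w) ^ 4) +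
          2 * w * (7 * S.C ^ 2 * √(w * R)) * (11000 * S.C ^ 9 * R ^ 3)) := by
          gcongr _ * (?_ + ?_)
          · exact le_mul_of_one_le_left (by positivity) (one_le_pow₀ C1)
          · gcongr
      _ = 20000000 * S.C ^ 18 * lam ^ 4 * (16 * (S.C ^ 6 * (t * w ^ 4)) +
          154000 * (w * √(w * R) * R ^ 3)) := by ring
      _ ≤ 20000000 * S.C ^ 18 * lam ^ 4 * (154016 * (S.C ^ 6 * (t * w ^ 4 +
          w ^ ((3 : ℝ) / 2) * Y ^ ((7 : ℝ) / 6)))) := by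
          have : S.C ^ 6 * (t * w ^ 4) ≤ S.C ^ 6 * (t * w ^ 4 +
            w ^ ((3 : ℝ) / 2) * Y ^ ((7 : ℝ) / 6)) := by gcongr; linarith
          gcongr ?_ * ?_
          linarith
      _ ≤ _ := by
          have : 0 ≤ S.C ^ 24 * lam ^ 4 * (t * w ^ 4 +
            w ^ ((3 : ℝ) / 2) * Y ^ ((7 : ℝ) / 6)) := by positivity
          linarith

end blk

/-- sums above a level from the dyadic blocks -/
theorem up_sum (K : Kx lam S M m a) {f : ℕ → ℝ} {t0 B : ℝ} (h0 : 0 < t0) (B0 : 0 ≤ B)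
    (h : ∀ p, t0 ≤ M.s p → p + p / 3 < S.J → ∑ k ∈ bl S M p, f k ≤ B) :
    ∑ k ∈ (Bk S M).filter fun k => t0 ≤ M.s k, f k ≤ lam * B := by
  have l2 := K.l2
  rcases ((Bk S M).filter fun k => t0 ≤ M.s k).eq_empty_or_nonempty with e | e
  · rw [e, sum_empty]; positivity
  obtain ⟨p0, m0, m2⟩ := exists_min_image _ id e
  have m1 := (mem_filter.1 m0).2
  refine (dyad _ (p0 := p0) (N := M.N) (B := B) (Nat.pos_of_ne_zero fun e => ?_)
    (fun k hk => ⟨m2 k hk, (mem_range.1 (mem_filter.1 (mem_filter.1 hk).1).1).le⟩)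
    fun p hp => ?_).trans (mul_le_mul_of_nonneg_right K.lgN B0)
  · rw [e, K.fn.s0] at m1; linarith
  · have s1 := m1.trans (K.fn.sm hp)
    rw [filter_filter, filter_congr (q := fun k => p ≤ k ∧ k < 2 * p) fun k _ =>
      ⟨fun e => e.2, fun e => ⟨s1.trans (K.fn.sm e.1), e⟩⟩]
    rcases lt_or_ge (p + p / 3) S.J with c | c
    · exact h p s1 c
    · rw [filter_false_of_mem fun k hk => by have := (mem_filter.1 hk).2; omega, sum_empty]
      exact B0

/-- the low zone -/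
theorem low_sum (K : Kx lam S M m a) (H : Cf E S M m a l0 cf) (hE : 8 * S.C ^ 2 ≤ E) {g : ℕ → ℝ}
    {G : ℝ} (G0 : 0 ≤ G) (h : ∀ k < M.N, M.z k ≤ 3 * S.C ^ 2 * l0 → g k ≤ G) :
    ∑ k ∈ (Bk S M).filter fun k => ¬ l0 ≤ M.s k, M.dz m a k * g k ≤ 3 * S.C ^ 2 * l0 * G := by
  have F := K.fn
  have l1 := H.pos F hE
  have z : ∀ k ∈ (Bk S M).filter fun k => ¬ l0 ≤ M.s k, k < M.N ∧ M.z k ≤ 3 * S.C ^ 2 * l0 :=
    fun k hk => by
      obtain ⟨a1, a2⟩ := mem_filter.1 hk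
      obtain ⟨a3, a4⟩ := mem_filter.1 a1
      exact ⟨mem_range.1 a3, H.z_low F hE (by omega) (not_le.1 a2).le⟩
  rcases ((Bk S M).filter fun k => ¬ l0 ≤ M.s k).eq_empty_or_nonempty with e | e
  · rw [e, sum_empty]; positivity
  refine (sum_le_sum fun k hk => mul_le_mul_of_nonneg_left (h k (z k hk).1 (z k hk).2)
    (F.lg.dz_nonneg k)).trans ?_
  rw [← sum_mul]
  refine mul_le_mul_of_nonneg_right ((sum_le_sum_of_subset_of_nonneg (t := range (max' _ e + 1))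
    (fun k hk => mem_range.2 (Nat.lt_succ_of_le (le_max' _ k hk)))
    fun i _ _ => F.lg.dz_nonneg i).trans ?_) G0
  rw [sum_dz_range F.leg]
  linarith [(z _ (max'_mem _ e)).2, F.lg.a0]

theorem lam_le {c lam x : ℝ} (i : ℕ) (l2 : 2 ≤ lam) (h : c ≤ lam) (hi : i ≤ 4) (x0 : 0 ≤ x) :
    lam * (c * lam ^ i * x) ≤ lam ^ 6 * x := by
  have l0 : 0 < lam := by linarith
  calc _ ≤ lam * (lam * lam ^ 4 * x) := by gcongr; linarith
    _ = _ := by ring

theorem cst_le {C lam : ℝ} (C1 : 1 ≤ C) (h : 10 ^ 15 * C ^ 27 ≤ lam) {c : ℝ} {i : ℕ}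
    (hc : c ≤ 10 ^ 15) (hi : i ≤ 27) : c * C ^ i ≤ lam :=
  le_trans (by gcongr) h

/-- passage from the context, no monotonicity needed -/
theorem of_kx' {R : CP} (K : ℝ → ℝ) (k : ℕ) (h : ∀ E lam Λ S M m a, Kx lam S M m a →
    K S.C ≤ lam → lam ≤ E → lam ^ k ≤ Λ → R E Λ S M m a) : CL R :=
  (of_kx (R := fun E Λ S M m a => ∀ Λ', Λ ≤ Λ' → R E Λ' S M m a)
    (fun _ _ _ _ _ _ _ _ h H _ h' => H _ (h.trans h')) K k
    fun E lam S M m a X b1 b2 Λ h' => h E lam Λ S M m a X b1 b2 h').mono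
    fun _ _ _ _ _ _ _ _ _ _ H => H _ le_rfl


/-- weighted cubic block sum -/
theorem blk_w (K : Kx lam S M m a) (H : Cf E S M m a l0 cf) (hE : 8 * S.C ^ 2 ≤ E)
    (a1 : l0 ≤ M.s p) (a2 : p + p / 3 < S.J) (phi : M.En S m a M.q 2 0 S.C ≤ X) (X0 : 0 < X)
    (X1 : X ≤ 1) {X3 : ℝ} (h : ∀ t, t = M.s p → min 1 (cf t) * min (t * cf t ^ 3)
      (t * wc S cf t ^ 3 + (t * wc S cf t ^ 3) ^ ((1 : ℝ) / 7) *
        (wc S cf t * min X (cf t ^ 3)) ^ ((6 : ℝ) / 7)) ≤ X3) :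
    ∑ k ∈ bl S M p, M.dz m a k * (min 1 (cf (max (M.z k) l0)) * u4 M m a k ^ 3) ≤
      18 * 10 ^ 13 * S.C ^ 27 * lam ^ 3 * X3 := by
  have F := K.fn
  have C0 := F.C0
  have l2 := K.l2
  obtain ⟨t0, c0, -⟩ := wc_pos K H hE a1 a2
  have g0 : 0 ≤ min 1 (cf (M.s p)) := le_min zero_le_one c0.le
  calc _ ≤ ∑ k ∈ bl S M p, 18 * S.C ^ 3 * min 1 (cf (M.s p)) *
        (M.dz m a k * u4 M m a k ^ 3) := sum_le_sum fun k hk => by
        rw [mul_left_comm]
        refine mul_le_mul_of_nonneg_right ?_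
          (mul_nonneg (F.lg.dz_nonneg k) (pow_nonneg (u4_nn k) 3))
        rw [mul_min_of_nonneg _ _ (by positivity)]
        refine min_le_min (by linarith [K.K1]) ((H.le F hE a1 (le_max_right _ _) (max_le
          (z_bl K H hE a1 a2 hk) (a1.trans (le_mul_of_one_le_left t0.le K.K1))) K.K1).trans_eq
          (by ring))
    _ ≤ 18 * S.C ^ 3 * min 1 (cf (M.s p)) * (10 ^ 13 * S.C ^ 24 * lam ^ 3 * _) := by
        rw [← mul_sum]
        exact mul_le_mul_of_nonneg_left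
          (blk_opt K H hE a1 a2 phi X0 X1 rfl rfl rfl).2.1 (by positivity)
    _ ≤ _ := by
        refine le_trans (le_of_eq ?_) (mul_le_mul_of_nonneg_left (h _ rfl) (by positivity))
        ring

/-- the three sums above the level `l0` at a fixed size -/
theorem sums_up (K : Kx lam S M m a) (b1 : 10 ^ 15 * S.C ^ 27 ≤ lam) (b2 : lam ≤ E)
    (H : Cf E S M m a l0 cf) {X2 X3 : ℝ} {Y3 : ℝ → ℝ} (N : SN' E S M m a l0 X X2 X3 cf Y3) :
    0 ≤ X2 ∧ 0 ≤ X3 ∧ ∑ k ∈ Bu S M l0, M.dz m a k * u4 M m a k ^ 2 ≤ lam ^ 6 * X2 ∧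
    ∑ k ∈ Bu S M l0, M.dz m a k * (min 1 (cf (max (M.z k) l0)) * u4 M m a k ^ 3) ≤ lam ^ 6 * X3 ∧
    ∀ t, l0 ≤ t → t ≤ S.C → 0 ≤ Y3 t ∧
      ∑ k ∈ Bu S M t, M.dz m a k * u4 M m a k ^ 3 ≤ lam ^ 6 * Y3 t := by
  have F := K.fn
  have C1 := F.C1
  have C0 := F.C0
  have l2 := K.l2
  have hE : 8 * S.C ^ 2 ≤ E := (cst_le C1 b1 (by norm_num) (by norm_num)).trans b2
  have l1 := H.pos F hE
  have c1 := l1.trans_le (H.ge _ le_rfl)
  have X0 := N.X0
  have X1 : X ≤ 1 := (le_mul_of_one_le_left N.X0.le (by linarith)).trans N.X1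
  have lC : l0 ≤ S.C := ((le_mul_of_one_le_left l1.le (by linarith)).trans H.l1).trans C1
  have w1 := F.w3_pos l1
  have X20 : 0 ≤ X2 := le_trans (by unfold wc; positivity) (N.x2b l0 le_rfl lC)
  have X30 : 0 ≤ X3 := le_trans (by unfold wc; positivity) (N.x3b l0 le_rfl lC)
  have sC : ∀ p, p + p / 3 < S.J → M.s p ≤ S.C := fun p hp =>
    F.toCl.s_le_C (by have := F.i3; omega)
  refine ⟨X20, X30, (up_sum K (B := 10 ^ 13 * S.C ^ 24 * lam ^ 2 * X2) l1 (by positivity)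
      fun p a1 a2 => (blk_opt K H hE a1 a2 N.phi N.X0 X1 rfl rfl rfl).1.trans
        (mul_le_mul_of_nonneg_left (N.x2b _ a1 (sC p a2)) (by positivity))).trans
      (lam_le 2 l2 (cst_le C1 b1 (by norm_num) (by norm_num)) (by norm_num) X20),
    (up_sum K l1 (by positivity) fun p a1 a2 => blk_w K H hE a1 a2 N.phi X0 X1 fun t e =>
      N.x3b t (e ▸ a1) (e ▸ sC p a2)).trans
      (lam_le 3 l2 (cst_le C1 b1 (by norm_num) (by norm_num)) (by norm_num) X30),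
    fun t ht tC => ?_⟩
  have t0 := l1.trans_le ht
  have c0 := t0.trans_le (H.ge _ ht)
  have w0 := F.w3_pos t0
  have Y0 : 0 ≤ Y3 t := le_trans (by unfold wc; positivity) (N.y3 t t ht le_rfl tC)
  exact ⟨Y0, (up_sum K (B := 10 ^ 13 * S.C ^ 24 * lam ^ 3 * Y3 t) t0 (by positivity)
    fun p a1 a2 => (blk_opt K H hE (ht.trans a1) a2 N.phi N.X0 X1 rfl rfl rfl).2.1.trans
      (mul_le_mul_of_nonneg_left ((min_le_right _ _).trans (N.y3 _ _ ht a1 (sC p a2)))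
        (by positivity))).trans
    (lam_le 3 l2 (cst_le C1 b1 (by norm_num) (by norm_num)) (by norm_num) Y0)⟩

/-- **`SzB'`** -/
theorem _root_.Crest.Agent.T156.Alt.Sz9.szB' : SzB' := by
  refine of_kx' (fun C => 10 ^ 15 * C ^ 27) 6
    fun E lam Λ S M m a K b1 b2 b3 l0 X X2 X3 cf Y3 H N => ?_
  obtain ⟨a1, a2, a3, a4, a5⟩ := sums_up K b1 b2 H N
  exact ⟨a3.trans (mul_le_mul_of_nonneg_right b3 a1), a4.trans (mul_le_mul_of_nonneg_right b3 a2),
    fun t ht tC => (a5 t ht tC).2.trans (mul_le_mul_of_nonneg_right b3 (a5 t ht tC).1)⟩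

/-- the low zone, any power, with and without the parity weight -/
theorem sums_low (K : Kx lam S M m a) (H : Cf E S M m a l0 cf) (hE : 8 * S.C ^ 2 ≤ E) (i : ℕ) :
    ∑ k ∈ (Bk S M).filter fun k => ¬ l0 ≤ M.s k, M.dz m a k * u4 M m a k ^ i ≤
      3 * S.C ^ 2 * l0 * (6 * S.C ^ 2 * lam * cf l0) ^ i ∧
    ∑ k ∈ (Bk S M).filter fun k => ¬ l0 ≤ M.s k,
      M.dz m a k * (min 1 (cf (max (M.z k) l0)) * u4 M m a k ^ i) ≤
      3 * S.C ^ 2 * l0 * (6 * S.C ^ 2 * cf l0 * (6 * S.C ^ 2 * lam * cf l0) ^ i) := by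
  have F := K.fn
  have C0 := F.C0
  have l2 := K.l2
  have l1 := H.pos F hE
  have c1 := l1.trans_le (H.ge _ le_rfl)
  have c3 : 1 ≤ 3 * S.C ^ 2 := by linarith [one_le_pow₀ (n := 2) F.C1]
  have ul : ∀ k < M.N, M.z k ≤ 3 * S.C ^ 2 * l0 → u4 M m a k ≤ 6 * S.C ^ 2 * lam * cf l0 :=
    fun k hk hz => (K.cru H hE le_rfl c3 hk.le hz).trans_eq (by ring)
  exact ⟨low_sum K H hE (by positivity) fun k hk hz => pow_le_pow_left₀ (u4_nn k) (ul k hk hz) i,
    low_sum K H hE (by positivity) fun k hk hz => mul_le_mul ((min_le_right _ _).trans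
      ((H.le F hE le_rfl (le_max_right _ _) (max_le hz (le_mul_of_one_le_left l1.le c3)) c3).trans_eq
        (by ring))) (pow_le_pow_left₀ (u4_nn k) (ul k hk hz) i) (pow_nonneg (u4_nn k) i)
      (by positivity)⟩


/-- **sums above a level** `t0 ≥ l0` and below a level `t1`, each power with its own bound -/
def _root_.Crest.Agent.T156.Alt.Sz9.SzU : Prop := CL fun E Λ S M m a => ∀ l0 X cf, Cf E S M m a l0 cf →
  M.En S m a M.q 2 0 S.C ≤ X → 0 < X → X ≤ 1 → ∀ t0 t1 B, l0 ≤ t0 → 0 ≤ B →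
    ((∀ t, t0 ≤ t → t ≤ t1 → t ≤ S.C → min (t * cf t ^ 2) (t * wc S cf t ^ 2 +
      (t * wc S cf t ^ 2) ^ ((3 : ℝ) / 7) * min X (cf t ^ 3) ^ ((4 : ℝ) / 7)) ≤ B) →
      ∑ k ∈ (Bk S M).filter fun k => t0 ≤ M.s k ∧ M.s k ≤ t1,
        M.dz m a k * u4 M m a k ^ 2 ≤ Λ * B) ∧
    ((∀ t, t0 ≤ t → t ≤ t1 → t ≤ S.C → min (t * cf t ^ 3) (t * wc S cf t ^ 3 +
      (t * wc S cf t ^ 3) ^ ((1 : ℝ) / 7) * (wc S cf t * min X (cf t ^ 3)) ^ ((6 : ℝ) / 7)) ≤ B) →
      ∑ k ∈ (Bk S M).filter fun k => t0 ≤ M.s k ∧ M.s k ≤ t1,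
        M.dz m a k * u4 M m a k ^ 3 ≤ Λ * B) ∧
    ((∀ t, t0 ≤ t → t ≤ t1 → t ≤ S.C → t * wc S cf t ^ 4 +
      wc S cf t ^ ((3 : ℝ) / 2) * min X (cf t ^ 3) ^ ((7 : ℝ) / 6) ≤ B) →
      ∑ k ∈ (Bk S M).filter fun k => t0 ≤ M.s k ∧ M.s k ≤ t1,
        M.dz m a k * u4 M m a k ^ 4 ≤ Λ * B)

theorem up_sum' (K : Kx lam S M m a) {f : ℕ → ℝ} {t0 t1 B : ℝ} (h0 : 0 < t0) (B0 : 0 ≤ B)
    (f0 : ∀ k, 0 ≤ f k)
    (h : ∀ p, t0 ≤ M.s p → M.s p ≤ t1 → p + p / 3 < S.J → ∑ k ∈ bl S M p, f k ≤ B) :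
    ∑ k ∈ (Bk S M).filter fun k => t0 ≤ M.s k ∧ M.s k ≤ t1, f k ≤ lam * B := by
  rw [← filter_filter, sum_filter]
  refine up_sum K h0 B0 fun p a1 a2 => ?_
  rcases le_or_gt (M.s p) t1 with c | c
  · exact (sum_le_sum fun k _ => by split_ifs; exacts [le_rfl, f0 k]).trans (h p a1 c a2)
  · exact (sum_eq_zero fun k hk => if_neg (not_le.2 (c.trans_le
      (K.fn.sm (mem_bl hk).2.2.1)))).trans_le B0

theorem _root_.Crest.Agent.T156.Alt.Sz9.szU : SzU := by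
  refine of_kx' (fun C => 10 ^ 15 * C ^ 27) 6
    fun E lam Λ S M m a K b1 b2 b3 l0 X cf H phi X0 X1 t0 t1 B ht B0 => ?_
  have F := K.fn
  have C1 := F.C1
  have C0 := F.C0
  have l2 := K.l2
  have hE : 8 * S.C ^ 2 ≤ E := (cst_le C1 b1 (by norm_num) (by norm_num)).trans b2
  have l1 := (H.pos F hE).trans_le ht
  have sC : ∀ p, p + p / 3 < S.J → M.s p ≤ S.C := fun p hp =>
    F.toCl.s_le_C (by have := F.i3; omega)
  have key : ∀ i ≤ 4, (∀ p, t0 ≤ M.s p → M.s p ≤ t1 → p + p / 3 < S.J →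
      ∑ k ∈ bl S M p, M.dz m a k * u4 M m a k ^ i ≤ 10 ^ 13 * S.C ^ 24 * lam ^ i * B) →
      ∑ k ∈ (Bk S M).filter fun k => t0 ≤ M.s k ∧ M.s k ≤ t1,
        M.dz m a k * u4 M m a k ^ i ≤ Λ * B := fun i hi h =>
    ((up_sum' K l1 (by positivity) (fun k => mul_nonneg (F.lg.dz_nonneg k)
      (pow_nonneg (u4_nn k) i)) h).trans (lam_le i l2 (cst_le C1 b1 (by norm_num) (by norm_num))
      hi B0)).trans (mul_le_mul_of_nonneg_right b3 B0)
  refine ⟨fun h => key 2 (by norm_num) fun p a1 a2 a3 => ?_,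
    fun h => key 3 (by norm_num) fun p a1 a2 a3 => ?_,
    fun h => key 4 le_rfl fun p a1 a2 a3 => ?_⟩
  · exact (blk_opt K H hE (ht.trans a1) a3 phi X0 X1 rfl rfl rfl).1.trans
      (mul_le_mul_of_nonneg_left (h _ a1 a2 (sC p a3)) (by positivity))
  · exact (blk_opt K H hE (ht.trans a1) a3 phi X0 X1 rfl rfl rfl).2.1.trans
      (mul_le_mul_of_nonneg_left (h _ a1 a2 (sC p a3)) (by positivity))
  · exact (blk_opt K H hE (ht.trans a1) a3 phi X0 X1 rfl rfl rfl).2.2.trans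
      (mul_le_mul_of_nonneg_left (h _ a1 a2 (sC p a3)) (by positivity))

end Crest.Agent.T156.Alt.Sz9.B61

end
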