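import Crest.Agent.T156.NdD_22
import Crest.Agent.T156.TL0A_9
import Crest.Agent.T156.ClE1t_49
import Crest.Agent.T156.ClSzB_61
import Crest.Agent.T156.SzN_49

-- ▼ part T156/NdA_22
section

/-!
# Row 156, block (L): the errors of (E1) at good nodes (helper22)
-/

set_option autoImplicit false
set_option linter.unusedSectionVars false

noncomputable section

namespace Crest.Agent.T156.Alt.Nd22

open Real Finset Filter
open Crest.Agent.T156.Alt.E61 Crest.Agent.T156.Alt.Mp9 Crest.Agent.T156.Alt.Sz9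
open Crest.Agent.T156.Alt.L69 Crest.Agent.T156.Alt.C33 Pre29
open Crest.Agent.T156.Alt.Md67 (Lg)

/-! ### numbers -/

theorem hold {Q A B A' B' r s : ℝ} (Q0 : 0 < Q) (a0 : 0 ≤ A') (a1 : A' ≤ Q * A) (b0 : 0 ≤ B')
    (b1 : B' ≤ Q * B) (r0 : 0 ≤ r) (s0 : 0 ≤ s) (e : r + s = 1) :
    A' ^ r * B' ^ s ≤ Q * (A ^ r * B ^ s) := by
  have A0 : 0 ≤ A := le_of_mul_le_mul_left (by simpa using a0.trans a1) Q0
  have B0 : 0 ≤ B := le_of_mul_le_mul_left (by simpa using b0.trans b1) Q0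
  have p := rpow_le_rpow a0 a1 r0
  have q := rpow_le_rpow b0 b1 s0
  rw [mul_rpow Q0.le A0] at p
  rw [mul_rpow Q0.le B0] at q
  calc _ ≤ Q ^ r * A ^ r * (Q ^ s * B ^ s) := mul_le_mul p q (rpow_nonneg b0 _) (by positivity)
    _ = Q ^ (r + s) * (A ^ r * B ^ s) := by rw [rpow_add Q0]; ring
    _ = _ := by rw [e, rpow_one]

theorem min_sc {Q a b a' b' : ℝ} (Q0 : 0 ≤ Q) (h1 : a' ≤ Q * a) (h2 : b' ≤ Q * b) :
    min a' b' ≤ Q * min a b := by
  rw [mul_min_of_nonneg _ _ Q0]; exact min_le_min h1 h2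

section
variable {L t c w X : ℝ} (L1 : 1 ≤ L) (t0 : 0 ≤ t) (c0 : 0 ≤ c) (w0 : 0 ≤ w) (X0 : 0 ≤ X)
include L1

theorem pw {x : ℝ} (x0 : 0 ≤ x) {i j : ℕ} (h : i ≤ j) : L ^ i * x ≤ L ^ j * x :=
  mul_le_mul_of_nonneg_right (pow_le_pow_right₀ L1 h) x0

include X0 in
theorem mX : min X ((L * c) ^ 3) ≤ L ^ 3 * min X (c ^ 3) :=
  min_sc (by positivity) (le_mul_of_one_le_left X0 (one_le_pow₀ L1)) (mul_pow _ _ _).le

include t0 c0 w0 X0

theorem sc2 : min (t * (L * c) ^ 2) (t * (L * w) ^ 2 +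
    (t * (L * w) ^ 2) ^ ((3 : ℝ) / 7) * min X ((L * c) ^ 3) ^ ((4 : ℝ) / 7)) ≤
    L ^ 3 * min (t * c ^ 2) (t * w ^ 2 +
      (t * w ^ 2) ^ ((3 : ℝ) / 7) * min X (c ^ 3) ^ ((4 : ℝ) / 7)) := by
  have L0 : 0 < L := by linarith
  have e : ∀ x : ℝ, t * (L * x) ^ 2 ≤ L ^ 3 * (t * x ^ 2) := fun x =>
    (le_of_eq (by ring)).trans (pw L1 (x := t * x ^ 2) (by positivity) (by norm_num : 2 ≤ 3))
  refine min_sc (by positivity) (e c) ?_
  rw [mul_add]
  exact add_le_add (e w) (hold (by positivity) (by positivity) (e w)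
    (le_min X0 (by positivity)) (mX L1 X0) (by norm_num) (by norm_num) (by norm_num))

theorem sc3 : t * (L * w) ^ 3 +
    (t * (L * w) ^ 3) ^ ((1 : ℝ) / 7) * (L * w * min X ((L * c) ^ 3)) ^ ((6 : ℝ) / 7) ≤
    L ^ 4 * (t * w ^ 3 + (t * w ^ 3) ^ ((1 : ℝ) / 7) * (w * min X (c ^ 3)) ^ ((6 : ℝ) / 7)) := by
  have L0 : 0 < L := by linarith
  have e : t * (L * w) ^ 3 ≤ L ^ 4 * (t * w ^ 3) :=
    (le_of_eq (by ring)).trans (pw L1 (x := t * w ^ 3) (by positivity) (by norm_num : 3 ≤ 4))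
  have m0 : 0 ≤ min X ((L * c) ^ 3) := le_min X0 (by positivity)
  rw [mul_add]
  exact add_le_add e (hold (by positivity) (by positivity) e (by positivity)
    ((mul_le_mul_of_nonneg_left (mX L1 X0) (by positivity)).trans_eq (by ring))
    (by norm_num) (by norm_num) (by norm_num))

theorem sc4 : min 1 (L * c) * min (t * (L * c) ^ 3) (t * (L * w) ^ 3 +
    (t * (L * w) ^ 3) ^ ((1 : ℝ) / 7) * (L * w * min X ((L * c) ^ 3)) ^ ((6 : ℝ) / 7)) ≤
    L ^ 5 * (min 1 c * min (t * c ^ 3) (t * w ^ 3 +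
      (t * w ^ 3) ^ ((1 : ℝ) / 7) * (w * min X (c ^ 3)) ^ ((6 : ℝ) / 7))) := by
  have L0 : 0 < L := by linarith
  have m0 : 0 ≤ min X ((L * c) ^ 3) := le_min X0 (by positivity)
  have p : min 1 (L * c) ≤ L * min 1 c := min_sc L0.le (by linarith) le_rfl
  have q := min_sc (Q := L ^ 4) (a := t * c ^ 3) (a' := t * (L * c) ^ 3) (by positivity)
    ((le_of_eq (by ring)).trans (pw L1 (x := t * c ^ 3) (by positivity) (by norm_num : 3 ≤ 4)))
    (sc3 L1 t0 c0 w0 X0)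
  have := le_min zero_le_one c0
  exact (mul_le_mul p q (le_min (by positivity) (by positivity)) (by positivity)).trans_eq (by ring)

end

/-- the node error, numbers -/
theorem en_num {l L ν ms r P G u N1 N2 N4 n3 U g G0 A X2 X3 W y : ℝ} (l1 : 100000 ≤ l) (L1 : 1 ≤ L)
    (m0 : 0 ≤ ms) (m1 : ms ≤ ν) (r1 : r ≤ 4) (U0 : 0 ≤ U) (g0 : 0 ≤ g) (G00 : 0 ≤ G0) (A0 : 0 ≤ A)
    (hA : A ^ 2 = X2) (X0 : 0 ≤ X3) (W0 : 0 ≤ W) (y0 : 0 ≤ y) (hP : P ≤ l * U ^ 3)
    (hG : G ≤ l * (g + 2 * L ^ 2 * G0)) (u0 : 0 ≤ u) (hu : u ≤ l * U) (n0 : 0 ≤ N1)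
    (n1 : N1 ^ 2 ≤ N2) (n2 : N2 ≤ l ^ 4 * L ^ 3 * X2)
    (h3 : n3 ≤ 2 * (l ^ 5 * L ^ 5 * X3) + l * L ^ 4 * y + 3 * W)
    (h4 : N4 ≤ 4 * (l ^ 5 * L ^ 5 * X3) + 2 * W) :
    15360 * ms * r + P + G * (u + N1) + (u ^ 3 + n3 + (u + N1) * (N2 + N1 ^ 2) + N4 + ms) ≤
      l ^ 7 * L ^ 5 * (U ^ 3 + (g + G0 + X2) * (U + A) + X3 + W + y + ν) := by
  have l0 : 1 ≤ l := by linarith
  have X20 : 0 ≤ X2 := hA ▸ sq_nonneg A
  have k : ∀ (c x : ℝ) (i j : ℕ), c ≤ l → i ≤ 6 → j ≤ 5 → 0 ≤ x →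
      c * (l ^ i * L ^ j * x) ≤ l ^ 7 * L ^ 5 * x := fun c x i j h1 h2 h3 h4 => by
    have a1 := mul_le_mul (pow_le_pow_right₀ l0 h2) (pow_le_pow_right₀ L1 h3) (by positivity)
      (by positivity)
    calc _ ≤ l * (l ^ 6 * L ^ 5 * x) :=
          mul_le_mul h1 (mul_le_mul_of_nonneg_right a1 h4) (by positivity) (by positivity)
      _ = _ := by ring
  have a1 : N1 ≤ l ^ 2 * L ^ 2 * A := by
    refine le_of_pow_le_pow_left₀ two_ne_zero (by positivity) (n1.trans (n2.trans ?_))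
    calc _ ≤ l ^ 4 * L ^ 4 * X2 := mul_le_mul_of_nonneg_right (mul_le_mul_of_nonneg_left
          (pow_le_pow_right₀ L1 (by norm_num)) (by positivity)) X20
      _ = _ := by rw [← hA]; ring
  have a2 : u + N1 ≤ l ^ 2 * L ^ 2 * (U + A) := by
    have : l ≤ l ^ 2 * L ^ 2 := (le_self_pow₀ l0 two_ne_zero).trans
      (le_mul_of_one_le_right (by positivity) (one_le_pow₀ L1))
    linarith [mul_le_mul_of_nonneg_right this U0]
  have a3 : G ≤ 2 * (l * L ^ 2 * (g + G0)) := by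
    have : l * g ≤ l * L ^ 2 * g := mul_le_mul_of_nonneg_right
      (le_mul_of_one_le_right (by positivity) (one_le_pow₀ L1)) g0
    have : 0 ≤ l * L ^ 2 * g := by positivity
    linarith
  have b1 := (mul_le_mul_of_nonneg_right a3 (by positivity : 0 ≤ u + N1)).trans
    (mul_le_mul_of_nonneg_left a2 (by positivity))
  have b2 := mul_le_mul a2 (show N2 + N1 ^ 2 ≤ 2 * (l ^ 4 * L ^ 3 * X2) by linarith)
    (by linarith [sq_nonneg N1]) (by positivity)
  have b3 := pow_le_pow_left₀ u0 hu 3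
  have b4 := mul_le_mul_of_nonneg_left r1 m0
  have b5 : l * U ^ 3 ≤ l ^ 3 * U ^ 3 :=
    mul_le_mul_of_nonneg_right (le_self_pow₀ l0 (by norm_num)) (by positivity)
  have c1 := k 2 (U ^ 3) 3 0 (by linarith) (by norm_num) (by norm_num) (by positivity)
  have c2 := k 2 ((g + G0) * (U + A)) 3 4 (by linarith) (by norm_num) (by norm_num) (by positivity)
  have c3 := k 2 (X2 * (U + A)) 6 5 (by linarith) (by norm_num) (by norm_num) (by positivity)
  have c4 := k 6 X3 5 5 (by linarith) (by norm_num) (by norm_num) X0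
  have c5 := k 5 W 0 0 (by linarith) (by norm_num) (by norm_num) W0
  have c6 := k 1 y 1 4 (by linarith) (by norm_num) (by norm_num) y0
  have c7 := k 61441 ν 0 0 (by linarith) (by norm_num) (by norm_num) (m0.trans m1)
  simp only [pow_zero, pow_one, mul_one, one_mul] at c1 c5 c6 c7
  linarith

/-! ### the crude ratio -/

variable {S : Sc} {M : Md} {m : ℕ} {a : ℝ}

theorem cr1 (S : Sc) (t : ℝ) : 1 ≤ cr S t := le_max_left _ _

theorem cb3 {x : ℝ} (hx : 0 ≤ x) : (x ^ ((1 : ℝ) / 3)) ^ 3 = x := by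
  rw [← rpow_natCast, ← rpow_mul hx]; norm_num

section fn
variable (F : Fn S M m a)
include F

theorem cr_fl {t : ℝ} (t0 : 0 < t) : S.F * S.ms t ≤ cr S t ^ 3 * t ^ 2 := by
  have := F.F0; have := F.ms_pos t0.le
  rw [← div_le_iff₀ (by positivity), ← cb3 (by positivity : 0 ≤ S.F * S.ms t / t ^ 2)]
  exact pow_le_pow_left₀ (by positivity) (le_max_right _ _) 3

theorem cr_cases {t : ℝ} (t0 : 0 < t) : cr S t = 1 ∨ cr S t ^ 3 * t ^ 2 = S.F * S.ms t := by
  have := F.F0; have := F.ms_pos t0.le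
  rcases max_choice 1 ((S.F * S.ms t / t ^ 2) ^ ((1 : ℝ) / 3)) with e | e
  · exact Or.inl e
  · right
    rw [cr, e, cb3 (by positivity)]; field_simp

theorem c_mono {t t' : ℝ} (t0 : 0 < t) (h : t ≤ t') : cr S t * t ≤ cr S t' * t' := by
  have t1 := t0.trans_le h
  have c1 := cr1 S t'
  rcases cr_cases F t0 with e | e
  · rw [e, one_mul]; exact h.trans (le_mul_of_one_le_left t1.le c1)
  · refine le_of_pow_le_pow_left₀ (by norm_num : 3 ≠ 0) (by positivity) ?_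
    have a1 := mul_le_mul ((mul_le_mul_of_nonneg_left (F.msm h) F.F0.le).trans (cr_fl F t1)) h t0.le
      (by positivity)
    calc _ = cr S t ^ 3 * t ^ 2 * t := by ring
      _ ≤ cr S t' ^ 3 * t' ^ 2 * t' := by rwa [e]
      _ = _ := by ring

theorem cr_dbl {t t' : ℝ} (t0 : 0 < t) (h : t ≤ t') : cr S t' ≤ 2 * cr S t := by
  have t1 := t0.trans_le h
  have c1 := cr1 S t
  rcases cr_cases F t1 with e | e
  · linarith
  · refine le_of_pow_le_pow_left₀ (by norm_num : 3 ≠ 0) (by positivity) ?_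
    have a1 := mul_le_mul_of_nonneg_left (E49.ms_quad F t0 h) F.F0.le
    have a2 := mul_le_mul_of_nonneg_left (cr_fl F t0) (by positivity : 0 ≤ 4 * t' ^ 2)
    refine le_of_mul_le_mul_right ?_ (by positivity : 0 < t' ^ 2 * t ^ 2)
    have a3 : 0 ≤ cr S t ^ 3 * (t' ^ 2 * t ^ 2) := by positivity
    calc _ = cr S t' ^ 3 * t' ^ 2 * t ^ 2 := by ring
      _ ≤ _ := by rw [e]; linarith

theorem cl_ge {V t : ℝ} (V0 : 0 ≤ V) (t0 : 0 ≤ t) : t ≤ cl S V t :=
  (le_mul_of_one_le_left t0 (cr1 S t)).trans (le_add_of_nonneg_right V0)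

theorem cl_mono {V t t' : ℝ} (t0 : 0 < t) (h : t ≤ t') : cl S V t ≤ cl S V t' :=
  add_le_add (c_mono F t0 h) le_rfl

theorem ws_nn {V t : ℝ} (V0 : 0 ≤ V) (t0 : 0 < t) : 0 ≤ ws S V t := by
  have := t0.le.trans (cl_ge F V0 t0.le)
  have := F.w3_pos t0
  unfold ws; positivity

variable {E l0 l V X Lg X2 X3 G0 L : ℝ} {η : ℝ → ℝ} (N : LN E S M l0 l V X Lg X2 X3 G0 η)
  (E1 : 1 ≤ E)
include N E1

theorem jl_le : M.s S.jl ≤ l0 := (le_mul_of_one_le_left (F.s_nonneg _) E1).trans N.l0s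

theorem l0_pos : 0 < l0 := (F.toCl.s_pos (F.i0.trans F.i1)).trans_le (jl_le F N E1)

/-- `Cf` from `LN` and the crude location -/
theorem cf_of (L1 : 1 ≤ L) (cru : ∀ k ≤ S.Jp, M.rb m a k ≤ L * cl S V (max (M.z k) l0)) :
    Cf E S M m a l0 fun t => L * cl S V t := by
  have p := l0_pos F N E1
  have V0 := N.V0
  have ge : ∀ t, l0 ≤ t → cl S V t ≤ L * cl S V t := fun t ht =>
    le_mul_of_one_le_left ((p.le.trans ht).trans (cl_ge F V0 (p.le.trans ht))) L1
  refine ⟨N.l0s, N.l0w, (mul_le_mul_of_nonneg_left N.l0l (by linarith)).trans N.l1,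
    fun t t' a1 a2 => mul_le_mul_of_nonneg_left (cl_mono F (p.trans_le a1) a2) (by linarith),
    fun t a1 => (cl_ge F V0 (p.le.trans a1)).trans (ge t a1), fun t a1 => ?_,
    fun t t' a1 a2 => ?_, cru⟩
  · have t0 := p.trans_le a1
    have c1 := cr1 S t
    calc _ ≤ cr S t ^ 3 * t ^ 2 * t := mul_le_mul_of_nonneg_right (cr_fl F t0) t0.le
      _ = (cr S t * t) ^ 3 := by ring
      _ ≤ _ := pow_le_pow_left₀ (by positivity) ((le_add_of_nonneg_right V0).trans (ge t a1)) 3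
  · have t0 := p.trans_le a1
    have t1 := t0.trans_le a2
    have e : ∀ s, 0 < s → L * cl S V s / s = L * (cr S s + V / s) := fun s hs => by
      unfold cl; field_simp
    have b1 : V / t' ≤ V / t := div_le_div_of_nonneg_left V0 t0 a2
    have b2 : 0 ≤ V / t := by positivity
    have b3 := mul_le_mul_of_nonneg_left (show cr S t' + V / t' ≤ 2 * (cr S t + V / t) by
      linarith [cr_dbl F t0 a2]) (by linarith : 0 ≤ L)
    rw [e _ t0, e _ t1]
    linarith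

/-- `SN'` from `LN` -/
theorem sn_of (L1 : 1 ≤ L) (hX : Phi M S m a ≤ X) : ∃ Y : ℝ → ℝ, (∀ t, l ≤ t → Y t = L ^ 4 * η t) ∧
    SN' E S M m a l0 X (L ^ 3 * X2) (L ^ 5 * X3) (fun t => L * cl S V t) Y := by
  have p := l0_pos F N E1
  have V0 := N.V0
  have L0 : 0 < L := by linarith
  have X0 := N.X0
  have e : ∀ t, wc S (fun t => L * cl S V t) t = L * ws S V t := fun t => by
    unfold wc ws; ring
  have c0 : ∀ t, l0 ≤ t → 0 ≤ cl S V t := fun t h => (p.le.trans h).trans (cl_ge F V0 (p.le.trans h))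
  set B := cl S V S.C / l0 * S.w3 l0 ^ ((1 : ℝ) / 3) with hB
  refine ⟨fun t => if l ≤ t then L ^ 4 * η t else L ^ 4 * (S.C * B ^ 3 +
    (S.C * B ^ 3) ^ ((1 : ℝ) / 7) * (B * X) ^ ((6 : ℝ) / 7)), fun t h => if_pos h, hX, X0, N.X1,
    fun t a1 a2 => ?_, fun t a1 a2 => ?_, fun t t' a1 a2 a3 => ?_⟩
  · rw [e]
    exact (sc2 L1 (p.le.trans a1) (c0 t a1) (ws_nn F V0 (p.trans_le a1)) X0.le).trans
      (mul_le_mul_of_nonneg_left (N.x2b t a1 a2) (by positivity))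
  · rw [e]
    exact (sc4 L1 (p.le.trans a1) (c0 t a1) (ws_nn F V0 (p.trans_le a1)) X0.le).trans
      (mul_le_mul_of_nonneg_left (N.x3b t a1 a2) (by positivity))
  · have a4 := a1.trans a2
    have t0 := p.trans_le a4
    have w0 := ws_nn F V0 t0
    rw [e]
    refine (sc3 L1 t0.le (c0 t' a4) w0 X0.le).trans ?_
    split_ifs with h
    · exact mul_le_mul_of_nonneg_left (N.ηc t t' h a2 a3) (by positivity)
    · refine mul_le_mul_of_nonneg_left ?_ (by positivity)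
      have c1 := c0 t' a4
      have w1 : ws S V t' ≤ B := mul_le_mul
        (div_le_div₀ (c0 _ (a4.trans a3)) (cl_mono F t0 a3) p a4)
        (rpow_le_rpow (F.w3_pos t0).le (P33.w3_anti F.toCl p a4) (by norm_num))
        (rpow_nonneg (F.w3_pos t0).le _) (div_nonneg (c0 _ (a4.trans a3)) p.le)
      have w2 : t' * ws S V t' ^ 3 ≤ S.C * B ^ 3 :=
        mul_le_mul a3 (pow_le_pow_left₀ w0 w1 3) (by positivity) F.C0.le
      have m0 : 0 ≤ min X (cl S V t' ^ 3) := le_min X0.le (by positivity)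
      have C0 := F.C0
      have B0 := w0.trans w1
      exact add_le_add w2 (mul_le_mul (rpow_le_rpow (by positivity) w2 (by norm_num))
        (rpow_le_rpow (by positivity) (mul_le_mul w1 (min_le_left _ _) m0 B0) (by norm_num))
        (by positivity) (by positivity))

theorem G0_nn : 0 ≤ G0 := (mul_nonneg (l0_pos F N E1).le (sq_nonneg _)).trans N.g0a
theorem X2_nn : 0 ≤ X2 := (mul_nonneg (l0_pos F N E1).le (sq_nonneg _)).trans N.x2a
theorem X3_nn : 0 ≤ X3 := (mul_nonneg (l0_pos F N E1).le (by positivity)).trans N.x3a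

/-- the side condition of `SzN` -/
theorem side (L1 : 1 ≤ L) {κ s : ℝ} (hκ : 20 * S.C ^ 2 * S.F * L ^ 3 ≤ κ) (hs : s ≤ S.C) (t : ℝ)
    (h1 : l0 ≤ t) (h2 : t ≤ s) : (L * cl S V t) ^ 3 / t * (S.F / (S.n * S.ms t)) ≤
      (2 * L ^ 2 * G0) ^ 2 + κ * (S.F / (S.n * S.ms s)) := by
  have p := l0_pos F N E1
  have t0 := p.trans_le h1
  have s0 := t0.trans_le h2
  have V0 := N.V0
  have L0 : 0 < L := by linarith
  have C1 := F.C1
  have F1 := F.F1
  have g1 := E49.gg_pos F t0.le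
  have g2 := E49.gg_pos F s0.le
  change _ * E49.gg S t ≤ _ + κ * E49.gg S s
  have k0 : 0 ≤ κ * E49.gg S s := mul_nonneg (le_trans (by positivity) hκ) g2.le
  have q : L ^ 3 * G0 ^ 2 ≤ L ^ 4 * G0 ^ 2 := pw L1 (sq_nonneg _) (by norm_num)
  have q0 : 0 ≤ L ^ 3 * G0 ^ 2 := by positivity
  rcases le_total t l with c | c
  · have := mul_le_mul_of_nonneg_left (N.g0b t h1 c) (by positivity : 0 ≤ L ^ 3)
    change L ^ 3 * (_ * E49.gg S t) ≤ _ at this
    calc _ = L ^ 3 * (cl S V t ^ 3 / t * E49.gg S t) := by ring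
      _ ≤ _ := by linarith
  · have l1 := p.trans_le N.l0l
    have b1 : V ^ 3 / t * E49.gg S t ≤ G0 ^ 2 := by
      refine le_trans (mul_le_mul (div_le_div₀ ?_ (pow_le_pow_left₀ V0 ?_ 3) l1 c)
        (E49.gg_anti F l1.le c) g1.le ?_) (N.g0b l N.l0l le_rfl)
      · exact pow_nonneg (l1.le.trans (cl_ge F V0 l1.le)) 3
      · exact le_add_of_nonneg_left (mul_nonneg (zero_le_one.trans (cr1 S l)) l1.le)
      · exact div_nonneg (pow_nonneg (l1.le.trans (cl_ge F V0 l1.le)) 3) l1.le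
    have b2 : cr S t ^ 3 * t ^ 2 * E49.gg S t ≤ 5 * S.C ^ 2 * S.F * E49.gg S s := by
      have d0 : 0 ≤ S.C ^ 2 * E49.gg S s := by positivity
      have d1 := mul_le_mul_of_nonneg_right F1 d0
      rcases cr_cases F t0 with e | e
      · have := mul_le_mul_of_nonneg_right (pow_le_pow_left₀ s0.le hs 2) g2.le
        rw [e]
        linarith [E49.gg_quad F t0 h2]
      · have m1 := F.ms_pos t0.le
        have m2 := F.ms_pos s0.le
        have n1 := F.n1
        have e1 : S.F * S.ms t * E49.gg S t = S.F * E49.gg S s * S.ms s := by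
          unfold E49.gg; field_simp
        have d2 := mul_le_of_le_one_right (by positivity : 0 ≤ S.F * E49.gg S s) (F.ms_le_one s)
        have d3 := mul_le_mul_of_nonneg_right (one_le_pow₀ (n := 2) C1)
          (by positivity : 0 ≤ S.F * E49.gg S s)
        rw [e, e1]
        linarith
    have c1 := cr1 S t
    have b3 : cl S V t ^ 3 ≤ 4 * ((cr S t * t) ^ 3 + V ^ 3) := by
      have x0 : 0 ≤ cr S t * t := by positivity
      unfold cl
      generalize cr S t * t = x at *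
      nlinarith [mul_nonneg (add_nonneg x0 V0) (sq_nonneg (x - V))]
    have b4 := mul_le_mul_of_nonneg_right b3 (by positivity : 0 ≤ L ^ 3 / t * E49.gg S t)
    have b5 := mul_le_mul_of_nonneg_right hκ g2.le
    have b6 := mul_le_mul_of_nonneg_left (add_le_add b1 b2) (by positivity : 0 ≤ 4 * L ^ 3)
    calc _ = cl S V t ^ 3 * (L ^ 3 / t * E49.gg S t) := by ring
      _ ≤ 4 * L ^ 3 * (V ^ 3 / t * E49.gg S t + cr S t ^ 3 * t ^ 2 * E49.gg S t) :=
          b4.trans_eq (by field_simp; ring)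
      _ ≤ _ := by linarith

end fn

end Crest.Agent.T156.Alt.Nd22

end
end

-- ▼ part T156/NdS_22

/-!
# Row 156, block (L): the errors of (E1) at good nodes, proof (helper22)
-/

set_option autoImplicit false
set_option linter.unusedSectionVars false

noncomputable section

namespace Crest.Agent.T156.Alt.Nd22

open Real Finset Filter
open Crest.Agent.T156.Alt.E61 Crest.Agent.T156.Alt.Mp9 Crest.Agent.T156.Alt.Sz9
open Crest.Agent.T156.Alt.L69 Crest.Agent.T156.Alt.C33 Pre29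
open Crest.Agent.T156.Alt.Md67 (Lg)

variable {S : Sc} {M : Md} {m : ℕ} {a : ℝ}

theorem mass (G : Lg M m a) {U : Finset ℕ} {x : ℝ} (x0 : 0 ≤ x) (h : ∀ k ∈ U, M.z k ≤ x) :
    ∑ k ∈ U, M.dz m a k ≤ x := by
  rcases U.eq_empty_or_nonempty with e | e
  · simp [e, x0]
  · refine (sum_le_sum_of_subset_of_nonneg (t := range (U.max' e + 1))
      (fun k hk => mem_range.2 (Nat.lt_succ_of_le (U.le_max' k hk)))
      fun k _ _ => G.dz_nonneg k).trans ?_
    rw [Md67.sum_dz_range G.toLeg]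
    linarith [h _ (U.max'_mem e), G.a0]

theorem sum_N (S : Sc) (M : Md) (g : ℕ → ℝ) :
    ∑ k ∈ range M.N, g k = ∑ k ∈ Bk S M, g k + ∑ k ∈ Tp S M, g k :=
  (sum_filter_add_sum_filter_not _ _ _).symm

theorem Bk_lt {k : ℕ} (h : k ∈ Bk S M) : k < S.J := by have := (mem_filter.1 h).2; omega

section cf
variable {E l0 lam : ℝ} {cf : ℝ → ℝ} (H : Cf E S M m a l0 cf) (F : Fn S M m a)
  (hE : 8 * S.C ^ 2 ≤ E)
include H F hE

theorem c_pos (k : ℕ) : 0 < cf (max (M.z k) l0) :=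
  ((H.pos F hE).trans_le (le_max_right _ _)).trans_le (H.ge _ (le_max_right _ _))

/-- a bulk sum from the sum above `l0` and a crude bound below -/
theorem bulk {g : ℕ → ℝ} {i : ℕ} {b : ℝ} (b0 : 0 ≤ b)
    (hg : ∀ k < S.J, g k ≤ b * cf (max (M.z k) l0) ^ i) :
    ∑ k ∈ Bk S M, M.dz m a k * g k ≤ ∑ k ∈ Bu S M l0, M.dz m a k * g k +
      3 * S.C ^ 2 * (6 * S.C ^ 2) ^ i * b * (l0 * cf l0 ^ i) := by
  have p := H.pos F hE
  have C1 := F.C1
  have c0 := p.trans_le (H.ge _ le_rfl)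
  have K1 : 1 ≤ 3 * S.C ^ 2 := by nlinarith
  rw [← sum_filter_add_sum_filter_not (Bk S M) fun k => l0 ≤ M.s k]
  refine add_le_add le_rfl ?_
  have hz : ∀ k ∈ (Bk S M).filter fun k => ¬ l0 ≤ M.s k, M.z k ≤ 3 * S.C ^ 2 * l0 := fun k hk =>
    H.z_low F hE (Bk_lt (mem_filter.1 hk).1) (not_le.1 (mem_filter.1 hk).2).le
  refine (sum_le_sum (g := fun k => M.dz m a k * (b * (2 * (3 * S.C ^ 2) * cf l0) ^ i))
    fun k hk => mul_le_mul_of_nonneg_left ((hg k (Bk_lt (mem_filter.1 hk).1)).trans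
      (mul_le_mul_of_nonneg_left (pow_le_pow_left₀ (c_pos H F hE k).le (H.le F hE le_rfl
        (le_max_right _ _) (max_le (hz k hk) (le_mul_of_one_le_left p.le K1)) K1) i) b0))
      (F.lg.dz_nonneg k)).trans ?_
  rw [← sum_mul]
  refine (mul_le_mul_of_nonneg_right (mass F.lg (by positivity) hz) (by positivity)).trans_eq ?_
  rw [show 2 * (3 * S.C ^ 2) * cf l0 = 6 * S.C ^ 2 * cf l0 by ring, mul_pow]; ring

theorem H_le {T G1 : ℝ} (A : At S M m a T) (Ce : CeiG S M G1) {k : ℕ} (hk : k < S.J) :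
    M.H k ≤ 32 * S.C ^ 4 * cf (max (M.z k) l0) ^ 3 := by
  have p := H.pos F hE
  have C1 := F.C1
  have F0 := F.F0
  have sl := H.sl F hE
  have z1 := le_max_left (M.z k) l0
  have t1 := le_max_right (M.z k) l0
  have f := H.fl _ t1
  generalize max (M.z k) l0 = τ at *
  have τ0 := p.trans_le t1
  have m0 := F.ms_pos τ0.le
  have q0 : 0 ≤ S.F * S.ms τ * τ := by positivity
  have c4 : S.C ≤ S.C ^ 4 := le_self_pow₀ C1 (by norm_num)
  refine le_trans ?_ (mul_le_mul_of_nonneg_left f (by positivity))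
  rcases le_or_gt k S.jl with c | c
  · have a1 := (F.leg.Hm (c.trans S.jl.le_succ)).trans Ce.bot
    have a2 := mul_le_mul (mul_le_mul_of_nonneg_left (F.msm (sl.trans t1))
      (by positivity : 0 ≤ S.C * S.F)) (sl.trans t1) (F.s_nonneg _) (by positivity)
    have a3 := mul_le_mul_of_nonneg_right c4 q0
    have a4 : 0 ≤ S.C ^ 4 * (S.F * S.ms τ * τ) := by positivity
    linarith
  · have a1 := A.H_abs Ce c hk
    have s1 : M.s k ≤ 2 * S.C * τ := (F.s_le_z (F.i1.trans c.le) hk).trans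
      (mul_le_mul_of_nonneg_left z1 (by positivity))
    have a2 : S.ms (M.s k) ≤ 16 * S.C ^ 2 * S.ms τ := by
      refine (F.msm s1).trans (le_of_mul_le_mul_right ?_ (pow_pos τ0 2))
      exact (E49.ms_quad F τ0 (le_mul_of_one_le_left τ0.le (by linarith))).trans_eq (by ring)
    have a3 : M.s S.jl + S.C * M.z k ≤ 2 * S.C * τ := by
      linarith [mul_le_mul_of_nonneg_left z1 F.C0.le, le_mul_of_one_le_left τ0.le C1]
    have z0 := F.z_pos k
    have s0 := F.s_nonneg S.jl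
    exact a1.trans ((mul_le_mul (mul_le_mul_of_nonneg_left a2 (by positivity : 0 ≤ S.C * S.F)) a3
      (by positivity) (by positivity)).trans_eq (by ring))

theorem pb_le3 (ms : ℝ) (k : ℕ) : pb M m a ms k ≤ 3 := by
  have := min_le_left 1 (2600 * (sb M m a (k + 1) + ms))
  have := F.leg.z1 k
  have := (rb_mem (M := M) (a := a) F.lg.m0 k).2
  unfold pb; linarith

theorem pb_le {T G1 : ℝ} (A : At S M m a T) (Ce : CeiG S M G1) (hl : 100000 * S.C ^ 4 ≤ lam)
    {k : ℕ} (hk : k < S.J) : pb M m a (S.C * S.v) k ≤ lam * min 1 (cf (max (M.z k) l0)) := by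
  have C1 := F.C1
  have c4 : 1 ≤ S.C ^ 4 := one_le_pow₀ C1
  have c0 := c_pos H F hE k
  rcases le_total 1 (cf (max (M.z k) l0)) with c | c
  · rw [min_eq_left c]; linarith [pb_le3 H F hE (S.C * S.v) k]
  rw [min_eq_right c]
  have a1 := pb_le' (ms := S.C * S.v) F.lg (hk.trans F.toCl.J_lt).le
  have a2 := H.cru k (hk.le.trans F.i3)
  have a3 := H_le H F hE A Ce hk
  have a4 := (le_max_left _ _).trans (H.ge _ (le_max_right (M.z k) l0))
  have a5 := (le_max_right _ _).trans (H.ge _ (le_max_right (M.z k) l0))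
  have a6 := mul_le_mul_of_nonneg_left ((H.v_le F hE).trans
    (mul_le_mul_of_nonneg_left a5 F.C0.le)) F.C0.le
  have a7 := mul_le_mul F.b1 a2 (rb_mem F.lg.m0 k).1 F.C0.le
  generalize cf (max (M.z k) l0) = x at *
  have b1 := mul_le_mul_of_nonneg_left (pow_le_of_le_one c0.le c (by norm_num : 3 ≠ 0))
    (by positivity : 0 ≤ 32 * S.C ^ 4)
  have b2 := mul_le_mul_of_nonneg_right (le_self_pow₀ C1 (by norm_num : 4 ≠ 0)) c0.le
  have b3 := mul_le_mul_of_nonneg_right (pow_le_pow_right₀ C1 (by norm_num : 2 ≤ 4)) c0.le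
  have b4 := mul_le_mul_of_nonneg_right c4 c0.le
  have b5 := mul_le_mul_of_nonneg_right hl c0.le
  linarith

end cf

theorem gd_mono (h : Cl S M) {κ κ' : ℝ} (hκ : κ ≤ κ') {U V j : ℕ} (g : Gd M m a κ U V j) :
    Gd M m a κ' U V j :=
  ⟨fun k p q => (g.1 k p q).trans (mul_le_mul_of_nonneg_right hκ (sub_nonneg.2 (h.leg.zm p))),
    fun k p q => (g.2 k p q).trans (mul_le_mul_of_nonneg_right hκ (sub_nonneg.2 (h.leg.zm q)))⟩

theorem U_nn (F : Fn S M m a) {κ t : ℝ} (k0 : 0 ≤ κ) (t0 : 0 < t) : 0 ≤ U S κ t := by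
  have := F.w3_pos t0
  unfold U w1; positivity

section core
variable {E l0 l V X Lg X2 X3 G0 L W3 G1 lam : ℝ} {η Y : ℝ → ℝ} (F : Fn S M m a)
  (N : LN E S M l0 l V X Lg X2 X3 G0 η) (I : NI L S M m a l0 V X2 G0 W3) (Ce : CeiG S M G1)
  (hE : 400 * S.C ^ 4 ≤ E) (hl : 100000 * S.C ^ 10 ≤ lam)
  (hu : ∀ k < M.N, u4 M m a k ≤ lam * (L * cl S V (max (M.z k) l0)))
include F hE

theorem E8 : 8 * S.C ^ 2 ≤ E := by
  nlinarith [pow_le_pow_right₀ F.C1 (by norm_num : 2 ≤ 4), one_le_pow₀ (n := 2) F.C1]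

theorem E1 : 1 ≤ E := by nlinarith [E8 F hE, one_le_pow₀ (n := 2) F.C1]

include N I hl hu

theorem n2_le (h2 : ∑ k ∈ Bu S M l0, M.dz m a k * u4 M m a k ^ 2 ≤ lam * (L ^ 3 * X2)) :
    Nu M m a (u4 M m a) 2 ≤ lam ^ 4 * L ^ 3 * X2 := by
  have L1 := I.L1
  have C1 := F.C1
  have c1 : 1 ≤ S.C ^ 10 := one_le_pow₀ C1
  have l1 : 1 ≤ lam := by linarith
  have X0 := X2_nn F N (E1 F hE)
  have b := bulk (cf_of F N (E1 F hE) L1 I.cru) F (E8 F hE) (g := fun k => u4 M m a k ^ 2) (i := 2)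
    (sq_nonneg lam) fun k hk => (pow_le_pow_left₀ (u4_nn k) (hu k (hk.trans F.toCl.J_lt)) 2).trans_eq
      (mul_pow _ _ _)
  have a1 := mul_le_mul (show 108 * S.C ^ 6 ≤ lam by
    linarith [pow_le_pow_right₀ C1 (by norm_num : 6 ≤ 10)]) N.x2a
    (mul_nonneg (l0_pos F N (E1 F hE)).le (sq_nonneg _)) (by positivity)
  have a2 := mul_le_mul_of_nonneg_left a1 (by positivity : 0 ≤ lam ^ 2 * L ^ 2)
  have a3 := mul_le_mul_of_nonneg_left (pw L1 X0 (by norm_num : 2 ≤ 3)) (by positivity : 0 ≤ lam ^ 3)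
  have a4 := pw L1 X0 (by norm_num : 1 ≤ 3)
  have y0 : 0 ≤ L ^ 3 * X2 := by positivity
  have a5 := pw l1 y0 (by norm_num : 1 ≤ 3)
  have a6 := pw l1 y0 (by norm_num : 0 ≤ 3)
  have a7 := mul_le_mul_of_nonneg_right (show 3 ≤ lam by linarith)
    (by positivity : 0 ≤ lam ^ 3 * (L ^ 3 * X2))
  have t := I.t2
  rw [Nu, sum_N S]
  simp only [pow_one, pow_zero, one_mul] at a4 a5 a6
  linarith

theorem b3_le (h3 : ∑ k ∈ Bu S M l0, M.dz m a k *
      (min 1 (L * cl S V (max (M.z k) l0)) * u4 M m a k ^ 3) ≤ lam * (L ^ 5 * X3)) :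
    ∑ k ∈ Bk S M, M.dz m a k * (min 1 (L * cl S V (max (M.z k) l0)) * u4 M m a k ^ 3) ≤
      2 * (lam ^ 4 * L ^ 5 * X3) := by
  have L1 := I.L1
  have C1 := F.C1
  have c1 : 1 ≤ S.C ^ 10 := one_le_pow₀ C1
  have l1 : 1 ≤ lam := by linarith
  have X0 := X3_nn F N (E1 F hE)
  have H := cf_of F N (E1 F hE) L1 I.cru
  have b := bulk H F (E8 F hE)
    (g := fun k => min 1 (L * cl S V (max (M.z k) l0)) * u4 M m a k ^ 3) (i := 4)
    (b := lam ^ 3) (by positivity) fun k hk => (mul_le_mul (min_le_right _ _)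
      (pow_le_pow_left₀ (u4_nn k) (hu k (hk.trans F.toCl.J_lt)) 3) (pow_nonneg (u4_nn k) 3)
      (c_pos H F (E8 F hE) k).le).trans_eq (by ring)
  have a1 := mul_le_mul (show 3888 * S.C ^ 10 ≤ lam by linarith) N.x3a
    (mul_nonneg (l0_pos F N (E1 F hE)).le (by positivity)) (by positivity)
  have a2 := mul_le_mul_of_nonneg_left a1 (by positivity : 0 ≤ lam ^ 3 * L ^ 4)
  have a3 := mul_le_mul_of_nonneg_left (pw L1 X0 (by norm_num : 4 ≤ 5)) (by positivity : 0 ≤ lam ^ 4)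
  have a5 := pw l1 (by positivity : 0 ≤ L ^ 5 * X3) (by norm_num : 1 ≤ 4)
  rw [pow_one] at a5
  linarith

include Ce

theorem n34_le {j : ℕ} {y : ℝ}
    (h3 : ∑ k ∈ Bk S M, M.dz m a k * (min 1 (L * cl S V (max (M.z k) l0)) * u4 M m a k ^ 3) ≤
      2 * (lam ^ 4 * L ^ 5 * X3)) (y0 : 0 ≤ y)
    (hy : j + j / 3 < S.J → ∑ k ∈ Bu S M (M.s j), M.dz m a k * u4 M m a k ^ 3 ≤ lam * L ^ 4 * y) :
    N3 M m a (u4 M m a) (S.C * S.v) j ≤ 2 * (lam ^ 5 * L ^ 5 * X3) + lam * L ^ 4 * y + 3 * W3 ∧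
      Nu M m a (u4 M m a) 4 ≤ 4 * (lam ^ 5 * L ^ 5 * X3) + 2 * W3 := by
  have L1 := I.L1
  have C1 := F.C1
  have c1 : 1 ≤ S.C ^ 10 := one_le_pow₀ C1
  have l1 : 1 ≤ lam := by linarith
  have H := cf_of F N (E1 F hE) L1 I.cru
  have G := F.lg
  have A : At S M m a (2 * S.C) := ⟨F.toCl, F.toIn, by linarith [F.b1, N.HJ], by linarith [F.sT]⟩
  have mj := mj_u4 (M := M) (a := a) G.m0
  have u3 : ∀ k, 0 ≤ u4 M m a k ^ 3 := fun k => pow_nonneg (u4_nn k) 3
  have m0 : ∀ k, 0 ≤ min 1 (L * cl S V (max (M.z k) l0)) := fun k =>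
    le_min zero_le_one (c_pos H F (E8 F hE) k).le
  have t := I.t3
  have q := mul_le_mul_of_nonneg_left h3 (by positivity : 0 ≤ lam)
  have tp : ∀ (c : ℝ) (g : ℕ → ℝ), 0 ≤ c → (∀ k, g k ≤ c) →
      ∑ k ∈ Tp S M, M.dz m a k * (g k * u4 M m a k ^ 3) ≤ c * W3 := fun c g c0 hg => by
    refine le_trans ?_ (mul_le_mul_of_nonneg_left t c0)
    rw [mul_sum]
    exact sum_le_sum fun k _ => (mul_le_mul_of_nonneg_left
      (mul_le_mul_of_nonneg_right (hg k) (u3 k)) (G.dz_nonneg k)).trans_eq (by ring)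
  constructor
  · have b1 := tp 3 (fun k => if k < j then pb M m a (S.C * S.v) k else 1) (by norm_num) fun k => by
      split_ifs
      exacts [pb_le3 H F (E8 F hE) _ k, by norm_num]
    have b2 : ∑ k ∈ (Bk S M).filter (j ≤ ·), M.dz m a k * u4 M m a k ^ 3 ≤ lam * L ^ 4 * y := by
      by_cases c : j + j / 3 < S.J
      · exact (sum_le_sum_of_subset_of_nonneg (fun k hk => mem_filter.2
          ⟨(mem_filter.1 hk).1, F.sm (mem_filter.1 hk).2⟩)
          fun k _ _ => mul_nonneg (G.dz_nonneg k) (u3 k)).trans (hy c)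
      · rw [filter_false_of_mem fun k hk => by have := (mem_filter.1 hk).2; omega, sum_empty]
        positivity
    rw [sum_filter] at b2
    have b3 : ∑ k ∈ Bk S M, M.dz m a k *
        ((if k < j then pb M m a (S.C * S.v) k else 1) * u4 M m a k ^ 3) ≤
        lam * ∑ k ∈ Bk S M, M.dz m a k * (min 1 (L * cl S V (max (M.z k) l0)) * u4 M m a k ^ 3) +
          ∑ k ∈ Bk S M, if j ≤ k then M.dz m a k * u4 M m a k ^ 3 else 0 := by
      rw [mul_sum, ← sum_add_distrib]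
      refine sum_le_sum fun k hk => ?_
      have d0 := G.dz_nonneg k
      rcases lt_or_ge k j with c | c
      · rw [if_pos c, if_neg (not_le.2 c), add_zero]
        exact (mul_le_mul_of_nonneg_left (mul_le_mul_of_nonneg_right (pb_le (lam := lam) H F (E8 F hE) A Ce
          (by linarith [pow_le_pow_right₀ C1 (by norm_num : 4 ≤ 10)]) (Bk_lt hk)) (u3 k))
          d0).trans_eq (by ring)
      · rw [if_neg (not_lt.2 c), if_pos c, one_mul]
        have := m0 k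
        have := u3 k
        exact le_add_of_nonneg_left (by positivity)
    rw [N3, sum_N S]
    linarith
  · have e : ∀ k, u4 M m a k ^ 4 = u4 M m a k * u4 M m a k ^ 3 := fun k => by ring
    have b1 := tp 2 (u4 M m a) (by norm_num) fun k => (mj.u0 k).2
    have b3 : ∑ k ∈ Bk S M, M.dz m a k * (u4 M m a k * u4 M m a k ^ 3) ≤ 2 * (lam *
        ∑ k ∈ Bk S M, M.dz m a k * (min 1 (L * cl S V (max (M.z k) l0)) * u4 M m a k ^ 3)) := by
      rw [mul_sum, mul_sum]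
      refine sum_le_sum fun k hk => ?_
      have p : u4 M m a k ≤ 2 * lam * min 1 (L * cl S V (max (M.z k) l0)) := by
        have p1 := hu k ((Bk_lt hk).trans F.toCl.J_lt)
        have p2 := (mj.u0 k).2
        rw [mul_min_of_nonneg _ _ (by positivity)]
        exact le_min (by linarith) (by linarith [(u4_nn k).trans p1])
      exact (mul_le_mul_of_nonneg_left (mul_le_mul_of_nonneg_right p (u3 k))
        (G.dz_nonneg k)).trans_eq (by ring)
    rw [Nu, sum_N S]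
    simp only [e]
    linarith

end core

/-! ### the error in the numbers of `LN` and `LP` -/

section use
variable {E l0 l V X Lg X2 X3 G0 W3 B κ t : ℝ} {η : ℝ → ℝ} (F : Fn S M m a)
  (N : LN E S M l0 l V X Lg X2 X3 G0 η) (E1 : 1 ≤ E)
include F N E1

theorem Lg1 : 1 ≤ Lg :=
  (E1.trans (le_mul_of_one_le_right (by linarith) (one_le_pow₀ F.F1))).trans N.Lg0

theorem U_le (B1 : 1 ≤ B) (t0 : 0 < t) (k0 : 0 ≤ κ) (hκ : κ ≤ B * (Lg ^ 2 * cr S t)) :
    U S κ t ≤ B * uw S Lg t := by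
  have g1 := Lg1 F N E1
  have c1 := cr1 S t
  have w0 := F.w3_pos t0
  have q : 1 ≤ B * (Lg ^ 2 * cr S t) :=
    one_le_mul_of_one_le_of_one_le B1 (one_le_mul_of_one_le_of_one_le (one_le_pow₀ g1) c1)
  have p := (rpow_le_rpow k0 hκ (by norm_num : (0 : ℝ) ≤ 2 / 3)).trans
    (rpow_le_self_of_one_le q (by norm_num))
  exact (mul_le_mul_of_nonneg_right p (rpow_nonneg w0.le _)).trans_eq (by unfold uw; ring)

/-- bulk nodes -/
theorem ee_le (B1 : 1 ≤ B) (h1 : l ≤ t) (h2 : t ≤ S.C) (k0 : 0 ≤ κ) (hκ : κ ≤ B * (Lg * cr S t))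
    (W0 : 0 ≤ W3) : ee S X2 X3 G0 W3 κ t (η t) ≤ 2 * B ^ 2 * (η t + W3) := by
  have g1 := Lg1 F N E1
  have c1 := cr1 S t
  have t0 := (l0_pos F N E1).trans_le (N.l0l.trans h1)
  have w0 := F.w3_pos t0
  have X20 := X2_nn F N E1
  have X30 := X3_nn F N E1
  have G00 := G0_nn F N E1
  have n1 := F.n1
  have m0 := F.ms_pos t0.le
  have gp : 0 < gg S t := E49.gg_pos F t0.le
  have b := N.ηb t h1 h2
  have u0 : 0 ≤ uw S Lg t := by unfold uw; positivity
  have u1 := U_le F N E1 B1 t0 k0 (hκ.trans (mul_le_mul_of_nonneg_left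
    (mul_le_mul_of_nonneg_right (le_self_pow₀ g1 two_ne_zero) (by linarith)) (by linarith)))
  have U0 := U_nn F k0 t0
  have u3 : U S κ t ^ 3 ≤ B ^ 2 * uw S Lg t ^ 3 := by
    have e : U S κ t ^ 3 = κ ^ 2 * S.w3 t := by
      unfold U w1
      rw [mul_pow, cb3 w0.le, ← rpow_natCast, ← rpow_mul k0]; norm_num
    have a1 : (Lg * cr S t) ^ 2 ≤ (Lg ^ 2 * cr S t) ^ 3 :=
      (pow_le_pow_left₀ (by positivity)
        (mul_le_mul_of_nonneg_right (le_self_pow₀ g1 two_ne_zero) (by linarith)) 2).trans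
        (pow_le_pow_right₀ (one_le_mul_of_one_le_of_one_le (one_le_pow₀ g1) c1) (by norm_num))
    rw [e, uw, mul_pow (Lg ^ 2 * cr S t), cb3 w0.le, ← mul_assoc]
    refine mul_le_mul_of_nonneg_right ((pow_le_pow_left₀ k0 hκ 2).trans ?_) w0.le
    rw [mul_pow]
    exact mul_le_mul_of_nonneg_left a1 (sq_nonneg B)
  have s1 : √(κ * gg S t) ≤ B * √(Lg * cr S t * gg S t) := by
    rw [← sqrt_sq (by linarith : 0 ≤ B), ← sqrt_mul (sq_nonneg B)]
    refine sqrt_le_sqrt ((mul_le_mul_of_nonneg_right (hκ.trans (mul_le_mul_of_nonneg_right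
      (le_self_pow₀ B1 two_ne_zero) (by positivity))) gp.le).trans_eq (by ring))
  have s2 := mul_le_mul (show √(κ * gg S t) + G0 + X2 ≤ B * (√(Lg * cr S t * gg S t) + G0 + X2) by
      linarith [le_mul_of_one_le_left G00 B1, le_mul_of_one_le_left X20 B1])
    (show U S κ t + √X2 ≤ B * (uw S Lg t + √X2) by
      linarith [le_mul_of_one_le_left (sqrt_nonneg X2) B1]) (by positivity) (by positivity)
  have r0 : 0 ≤ uw S Lg t ^ 2 * min (S.ms t / t) t :=
    mul_nonneg (sq_nonneg _) (le_min (by positivity) t0.le)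
  have B2 : 1 ≤ B ^ 2 := one_le_pow₀ B1
  have r1 : 0 ≤ (√(Lg * cr S t * gg S t) + G0 + X2) * (uw S Lg t + √X2) := by positivity
  have r2 : 0 ≤ uw S Lg t ^ 3 := by positivity
  have r3 : 0 ≤ X3 + 1 / (S.n : ℝ) := by positivity
  have r4 := mul_le_mul_of_nonneg_left b (sq_nonneg B)
  have r5 := le_mul_of_one_le_left r3 B2
  have r6 := le_mul_of_one_le_left W0 B2
  have r7 := le_mul_of_one_le_left (show 0 ≤ η t by linarith) B2
  have r8 := mul_nonneg (sq_nonneg B) r0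
  unfold ee
  linarith

end use


set_option maxHeartbeats 800000 in
/-- **(NodeS)** -/
theorem nodeS : NodeS := by
  intro C
  obtain ⟨CE, E0, HE⟩ := e1C2 true C
  filter_upwards [P33.szL C, P33.szP' C, szB' C, szN' C, eventually_ge_atTop 2]
    with A H1 H2 H3 H4 hA ε hε η' hη
  have h8 : 0 < η' / 8 := by positivity
  filter_upwards [H1 ε hε _ h8, H2 ε hε _ h8, H3 ε hε _ h8, H4 ε hε _ h8, ev_fn C hA,
    ev_K (400 * C ^ 4) hε, ev_K (100000 * C ^ 10 * (1 + CE)) h8,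
    tendsto_natCast_atTop_atTop.eventually_ge_atTop (C ^ 2)]
    with n H1 H2 H3 H4 F hE hl hn S M b1 b2 b3 h m a In G1 l0 l V X Lg X2 X3 G0 η L W3 Ce N R hX hL I
  replace F := F S M b1 b2 b3 h m a In
  replace H1 := H1 S M b1 b2 b3 h m a In
  replace H2 := H2 S M b1 b2 b3 h m a In
  replace H3 := H3 S M b1 b2 b3 h m a In
  replace H4 := H4 S M b1 b2 b3 h m a In
  subst b1 b3
  rw [show (S.n : ℝ) ^ η' = ((S.n : ℝ) ^ (η' / 8)) ^ 8 by rw [rp_pow]; congr 1; push_cast; ring]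
  generalize (S.n : ℝ) ^ (η' / 8) = lam at *
  generalize (S.n : ℝ) ^ ε = E at *
  have C1 := F.C1
  have C0 := F.C0
  have v0 := F.v0
  have n1 := F.n1
  have L1 := I.L1
  have c1 : 1 ≤ S.C ^ 10 := one_le_pow₀ C1
  have c2 : S.C * CE ≤ S.C ^ 10 * CE :=
    mul_le_mul_of_nonneg_right (le_self_pow₀ C1 (by norm_num)) E0
  have c3 : CE ≤ S.C * CE := le_mul_of_one_le_left E0 C1
  have hl' : 100000 * S.C ^ 10 ≤ lam := by linarith
  have hl2 : 4 * (S.C * CE) ≤ lam := by linarith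
  have l1 : 1 ≤ lam := by linarith
  have e1 := E1 F hE
  have H := cf_of F N e1 L1 I.cru
  have p := l0_pos F N e1
  obtain ⟨Y, hY, sn⟩ := sn_of F N e1 L1 hX
  obtain ⟨s2, s3, sy⟩ := H3 _ _ _ _ _ _ H sn
  have hu := H1 _ _ H
  have n2 := n2_le F N I hE hl' hu s2
  have b3 := b3_le F N I hE hl' hu s3
  have X20 := X2_nn F N e1
  have X30 := X3_nn F N e1
  have G00 := G0_nn F N e1
  have G := F.lg
  have mj := mj_u4 (M := M) (a := a) G.m0
  have W0 : 0 ≤ W3 := (sum_nonneg fun k _ => mul_nonneg (G.dz_nonneg k)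
    (pow_nonneg (u4_nn k) 3)).trans I.t3
  have A0 : At S M m a (2 * S.C) := ⟨h, In, by linarith [F.b1, N.HJ], by linarith [F.sT]⟩
  have ms1 : S.C * S.v ≤ 1 / S.n := by
    have a1 : S.v * (S.n : ℝ) ^ 2 ≤ S.C :=
      (mul_le_mul_of_nonneg_left (pow_le_pow_right₀ n1 (b2 ▸ hA)) v0.le).trans h.v2
    rw [le_div_iff₀ (by positivity)]
    refine le_of_mul_le_mul_right ?_ (by positivity : (0 : ℝ) < S.n)
    linarith [mul_le_mul_of_nonneg_left a1 C0.le]
  have hk : 20 * S.C ^ 2 * S.F * L ^ 3 ≤ Lg := by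
    have a1 : 20 * S.C ^ 2 * L ^ 3 ≤ E := le_of_pow_le_pow_left₀ two_ne_zero (by linarith)
      ((le_of_eq (by ring)).trans ((mul_le_mul hE hL (by positivity) (by linarith)).trans_eq
        (sq E).symm))
    have a2 := mul_le_mul a1 (le_self_pow₀ F.F1 two_ne_zero) F.F0.le (by linarith)
    linarith [N.Lg0]
  have pw8 : ∀ {x : ℝ} (i : ℕ), 0 ≤ x → i ≤ 8 → lam ^ i * x ≤ lam ^ 8 * x :=
    fun i h1 h2 => pw l1 h1 h2
  have nd : ∀ j κ y, Go L S M m a l0 l V Lg η j κ y → 0 ≤ U S κ (M.s j) ∧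
      0 ≤ ee S X2 X3 G0 W3 κ (M.s j) y ∧ u4 M m a j ≤ lam * U S κ (M.s j) ∧
      ∃ G, Tn S M m a (u4 M m a) (S.C * S.v) j G ∧
        en M m a (u4 M m a) (S.C * S.v) (n3 true M m a (u4 M m a) (S.C * S.v) j) G j ≤
          lam ^ 7 * L ^ 5 * ee S X2 X3 G0 W3 κ (M.s j) y ∧
        G ≤ lam * (√(κ * gg S (M.s j)) + 2 * L ^ 2 * G0) := fun j κ y g => by
    have jJ : j < S.J := by have := g.hi; omega
    have s1 : l0 ≤ M.s j := N.l0l.trans g.lo
    have s0 := p.trans_le s1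
    have sC : M.s j ≤ S.C := h.s_le_C (jJ.le.trans h.i3)
    have k0 : 0 < κ := lt_of_lt_of_le (by have := F.F0; positivity) (hk.trans g.k2)
    have j3 := P33.jl3 h (by linarith [E8 F hE, sq_nonneg S.C]) H s1 jJ.le
    have i0 := h.i0
    have i1 := h.i1
    have hi := g.hi
    have U0 := U_nn F k0.le s0
    have y0 := g.y0
    have uj := H2 _ _ H R j κ 0 s1 jJ g.k1 g.k3 (ev_good A0 k0.le (by omega) (by omega) (by omega)
      (by omega) g.gd).le (by rw [add_zero]; exact g.top)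
    rw [add_zero] at uj
    obtain ⟨G', T', g1, g2⟩ := H4 G1 l0 _ (2 * L ^ 2 * G0) Ce N.HJ H
      (by
        have := mul_le_mul_of_nonneg_left N.g0a (sq_nonneg L)
        have : 0 ≤ L ^ 2 * G0 := by positivity
        linarith)
      (I.pa.trans (by
        have := pw L1 (sq_nonneg G0) (by norm_num : 1 ≤ 4)
        have : 0 ≤ L ^ 4 * G0 ^ 2 := by positivity
        linarith))
      j (min (j + j / 3) (S.J - 1)) κ g.lo2 hi (by omega) g.k1
      (side F N e1 L1 (hk.trans g.k2) sC) (gd_mono h (div_le_self k0.le C1) g.gd)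
    obtain ⟨q3, q4⟩ := n34_le (j := j) F N I Ce hE hl' hu b3 y0 fun c => (sy _ s1 sC).trans (by
      rw [hY _ g.lo, mul_assoc]
      exact mul_le_mul_of_nonneg_left (mul_le_mul_of_nonneg_left (g.y1 c) (by positivity))
        (by positivity))
    rw [← P33.cube k0 (F.w3_pos s0)] at g2
    refine ⟨U0, by unfold ee; positivity, uj, G', T', le_trans (le_of_eq ?_)
      (en_num (r := r2 M m a j) (by linarith) L1 (by positivity) ms1 ?_ U0 (sqrt_nonneg _) G00
        (sqrt_nonneg _) (sq_sqrt X20) X30 W0 y0 g2 g1 (u4_nn j) uj (Nu_nn G mj 1) (Nu_one_sq G) n2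
        q3 q4), g1⟩
    · simp only [en, n3, if_true]; ring
    · refine (E49.r2_le_u G.m0 mj (jJ.trans h.J_lt)).trans ?_
      nlinarith [mj.u0 j]
  have ne : ∀ j κ y, Go L S M m a l0 l V Lg η j κ y → ∀ x : ℝ,
      ∃ G, Tn S M m a (u4 M m a) (S.C * S.v) j G ∧
        CE * (en M m a (u4 M m a) (S.C * S.v) (n3 true M m a (u4 M m a) (S.C * S.v) j) G j +
          4 * r2 M m a j * |x|) ≤ lam ^ 8 * L ^ 5 * ee S X2 X3 G0 W3 κ (M.s j) y +
            lam ^ 8 * U S κ (M.s j) ^ 2 * |x| := fun j κ y g x => by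
    obtain ⟨U0, e0, uj, G', T', q, -⟩ := nd j κ y g
    refine ⟨G', T', ?_⟩
    have a1 := (mul_le_mul_of_nonneg_left q E0).trans
      (mul_le_mul_of_nonneg_right (show CE ≤ lam by linarith) (by positivity))
    have a2 := (E49.r2_le_u G.m0 mj (show j < M.N by have := g.hi; have := h.J_lt; omega)).trans
      (pow_le_pow_left₀ (u4_nn j) uj 2)
    have a3 := mul_le_mul_of_nonneg_right (mul_le_mul (show 4 * CE ≤ lam by linarith) a2
      (r2_nn j) (by positivity)) (abs_nonneg x)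
    have a4 := pw8 (x := U S κ (M.s j) ^ 2 * |x|) 3 (by positivity) (by norm_num)
    linarith
  have l8 : CE ≤ lam ^ 8 := (show CE ≤ lam by linarith).trans (le_self_pow₀ l1 (by norm_num))
  have y0 : 0 ≤ L ^ 3 * X2 := by positivity
  have su : ∀ s : Finset ℕ, CE * ∑ k ∈ s, M.dz m a k * u4 M m a k ^ 2 ≤
      lam ^ 8 * ∑ k ∈ s, M.dz m a k * u4 M m a k ^ 2 := fun s => mul_le_mul_of_nonneg_right l8
    (sum_nonneg fun k _ => mul_nonneg (G.dz_nonneg k) (sq_nonneg _))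
  have n5 : (1 + 2 * S.C) * CE * Nu M m a (u4 M m a) 2 ≤ lam ^ 8 * (L ^ 3 * X2) := by
    have a1 := mul_le_mul (show (1 + 2 * S.C) * CE ≤ lam by linarith) n2 (Nu_nn G mj 2)
      (by positivity)
    linarith [pw8 5 y0 (by norm_num)]
  have m0 : 0 < S.C * S.v := by positivity
  refine ⟨by linarith [pw8 4 y0 (by norm_num)], fun k hk => (hu k hk).trans ?_,
    fun k κ e a1 a2 a3 a4 a5 a6 => ?_, fun j κ y g => ?_, fun T A i κ y g => ?_,
    fun T A i κ y k κ' y' g g' ik => ?_, fun j κ y g => ?_⟩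
  · have := pw8 1 (c_pos H F (E8 F hE) k).le (by norm_num)
    linarith
  · have q := H2 _ _ H R k κ e a1 a2 a3 a4 a5 a6
    have := pw8 1 (nonneg_of_mul_nonneg_right ((u4_nn k).trans q) (by linarith) |> fun e => e)
      (by norm_num)
    rw [pow_one] at this
    exact q.trans this
  · obtain ⟨U0, e0, uj, G', T', q, -⟩ := nd j κ y g
    have a1 := pw8 1 U0 (by norm_num)
    have a2 := pw8 (x := L ^ 5 * ee S X2 X3 G0 W3 κ (M.s j) y) 7 (by positivity) (by norm_num)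
    exact ⟨by linarith, G', T', by linarith⟩
  · obtain ⟨G', T', q⟩ := ne i κ y g (L0.Gd (lb M S m a T) (sb M m a (i + 1)))
    have r := (HE S M m a T _ _ A h.b1 mj m0 i G' T').1
    have p0 := pb_nn G m0 i
    have a1 : CE * Nu M m a (u4 M m a) 2 ≤ lam ^ 8 * (L ^ 3 * X2) :=
      (mul_le_mul_of_nonneg_right (by linarith) (Nu_nn G mj 2)).trans n5
    linarith [mul_le_mul_of_nonneg_left a1 p0, su (range i)]
  · obtain ⟨G', T', q⟩ := ne i κ y g (L0.Gd (lb M S m a T) (sb M m a (i + 1)))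
    obtain ⟨G'', T'', q'⟩ := ne k κ' y' g' (L0.Gd (lb M S m a T) (sb M m a (k + 1)))
    have r := (HE S M m a T _ _ A h.b1 mj m0 i G' T').2 k G'' T'' ik
    have D0 := sub_nonneg.2 (A.sb_mono (Nat.succ_le_succ ik.le))
    linarith [mul_le_mul_of_nonneg_right n5 D0, su (Ioo i k)]
  · obtain ⟨U0, e0, uj, G', T', q, q'⟩ := nd j κ y g
    have a2 := pw8 (x := L ^ 5 * ee S X2 X3 G0 W3 κ (M.s j) y) 7 (by positivity) (by norm_num)
    have s0 := sqrt_nonneg (κ * gg S (M.s j))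
    have a3 := pw8 (x := L ^ 2 * (√(κ * gg S (M.s j)) + G0)) 2 (by positivity) (by norm_num)
    have a4 := mul_le_mul_of_nonneg_right (show 2 ≤ lam by linarith)
      (by positivity : 0 ≤ lam * (L ^ 2 * (√(κ * gg S (M.s j)) + G0)))
    have a5 := mul_le_mul_of_nonneg_left (le_mul_of_one_le_left s0 (one_le_pow₀ (n := 2) L1))
      (by positivity : 0 ≤ lam)
    have a6 : 0 ≤ lam * (L ^ 2 * √(κ * gg S (M.s j))) := by positivity
    exact ⟨G', T', by linarith, by linarith⟩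

end Crest.Agent.T156.Alt.Nd22

end
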