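import Crest.Agent.T156.TL0D_9
import Crest.Agent.T156.NdS_89
import Crest.Agent.T156.NdS_22

/-!
Row 156, block (L) (helper9): the frame of (TL1): crude location, sizes, net and root node.
-/

set_option autoImplicit false

noncomputable section

namespace Crest.Agent.T156.Alt.Sz9

open Real Finset
open Crest.Agent.T156.Alt.E61 Crest.Agent.T156.Alt.Mp9 Crest.Agent.T156.Alt.L69
open Crest.Agent.T156.Alt.G89 (NG Tau Ug NdS)
open Crest.Agent.T156.Alt.Nd22 (NI NO)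

/-- the root node -/
structure Rn (E Λ : ℝ) (S : Sc) (M : Md) (m : ℕ) (a T l X2 : ℝ) (Gn : ℕ → Prop) (V0 u : ℕ) :
    Prop where
  gu : Gn u
  ju : S.jl < u
  uJ : 8 * u ≤ 5 * S.J
  uV : u ≤ V0
  su : 3 * l ≤ M.s u ∧ M.s u ≤ 6 * S.C ^ 2 * l
  zu : M.z u ≤ 8 * S.C ^ 3 * l
  lo : 2 * M.s (S.jl + 1) ≤ M.s u
  me : 8 * S.C ^ 2 * S.v ≤ M.s u
  cru : sb M m a (u + 1) ≤ Λ * (cr S l * l)
  ru : |res M S m a T u| ≤ Λ * (S.F * S.ms l * l + l ^ 3) + Λ / E * (S.ms l * sb M m a (u + 1))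
  ρ : pb M m a (S.C * S.v) u * X2 + ∑ k ∈ range u, M.dz m a k * u4 M m a k ^ 2 ≤
    Λ * ((sb M m a (u + 1) + l) * X2 + l * (cr S l * l) ^ 2)


variable {S : Sc} {M : Md} {m : ℕ} {a T E Λ Λ' lo l Lg X X2 X3 G0 G1 τ1 : ℝ} {η : ℝ → ℝ}
  {Gn : ℕ → Prop} {V0 u : ℕ}


theorem Ug_nn (h : Cl S M) {t : ℝ} (g0 : 0 ≤ Lg) (t0 : 0 < t) : 0 ≤ Ug S Lg t := by
  have := P33.w3_pos h t0
  have := cr1 S t
  unfold Ug Nd22.U w1; positivity

theorem Ug_le (h : Cl S M) {t : ℝ} (g1 : 1 ≤ Lg) (t0 : 0 < t) : Ug S Lg t ≤ uw S Lg t := by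
  have c1 := cr1 S t
  exact mul_le_mul_of_nonneg_right ((rpow_le_self_of_one_le
    (one_le_mul_of_one_le_of_one_le g1 c1) (by norm_num)).trans (mul_le_mul_of_nonneg_right
      (le_self_pow₀ g1 two_ne_zero) (by linarith))) (rpow_nonneg (P33.w3_pos h t0).le _)

theorem NG_mono (N : NG E Λ S M m a T lo Lg X2 τ1 η Gn V0) (A : At S M m a T) (hΛ : Λ ≤ Λ')
    (lo0 : 0 < lo) (g0 : 0 < Lg) (τ0 : 0 ≤ τ1) (X0 : 0 ≤ X2) (η0 : ∀ k < S.J, 0 ≤ η (M.s k)) :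
    NG E Λ' S M m a T lo Lg X2 τ1 η Gn V0 := by
  have G := lg A
  have hV := N.hV
  have d0 : ∀ {i k : ℕ}, i ≤ k → 0 ≤ G89.ds M m a i k := fun h =>
    sub_nonneg.2 (A.sb_mono (Nat.succ_le_succ h))
  have g1 : ∀ i, 0 ≤ G89.gd M S m a T i := fun _ => abs_nonneg _
  have s0 : ∀ U : Finset ℕ, 0 ≤ ∑ y ∈ U, M.dz m a y * u4 M m a y ^ 2 := fun _ =>
    sum_nonneg fun y _ => mul_nonneg (G.dz_nonneg y) (sq_nonneg _)
  refine ⟨N.gV, hV, N.big, N.top.trans ?_, fun i k a1 a2 a3 a4 a5 => (N.e1 i k a1 a2 a3 a4 a5).trans ?_,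
    fun i a1 a2 a3 => (N.ab i a1 a2 a3).trans ?_,
    fun U i k y a1 a2 a3 a4 => (N.u4 U i k y a1 a2 a3 a4).trans ?_,
    fun i k a1 a2 a3 a4 a5 a6 => ?_, fun p q a1 a2 a3 a4 a5 => N.ex p q a1 a2 a3 a4
      ((mul_le_mul_of_nonneg_right hΛ (A.cl.s_nn p)).trans a5),
    fun p q D0 a1 a2 a3 a4 a5 => N.exs p q D0 a1 a2 a3 a4
      ((mul_le_mul_of_nonneg_right hΛ a3.le).trans a5), N.sh⟩
  · have := d0 (show V0 ≤ S.J - 1 by omega)
    gcongr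
  · have := η0 i (by omega); have := η0 k (by omega); have := g1 i; have := g1 k
    have := d0 a2; have := s0 (Ioo i k)
    gcongr
  · have := η0 i (by omega); have := g1 i; have := s0 (range i)
    have : 0 ≤ pb M m a (S.C * S.v) i := by
      have := (A.sb_mem (k := i) (by have := A.cl.i3; omega)).1
      have := (rb_mem (M := M) (a := a) A.m_pos i).1
      have := A.cl.z_pos i; have := A.cl.v0; have := A.c_pos
      unfold pb; positivity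
    gcongr
  · have := d0 a1.2.1
    have := Ug_nn A.cl g0.le ((lo0.trans_le a2).trans_le (A.cl.sm a3))
    gcongr
  · have := d0 a2.le
    obtain ⟨b1, b2⟩ := N.lab i k a1 a2 a3 a4 a5 a6
    exact ⟨b1.trans (by gcongr), b2.trans (by gcongr)⟩

theorem η_C (h : Cl S M) {l0 V : ℝ} (N : LN E S M l0 l V X Lg X2 X3 G0 η) (η0 : 0 ≤ η S.C) :
    η 1 ≤ 16 * S.C ^ 4 * η S.C := by
  have k : ∀ i : ℕ, η 1 ≤ 16 ^ i * η (2 ^ i) := fun i => by
    induction i with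
    | zero => simp
    | succ i ih =>
      have := mul_le_mul_of_nonneg_left (N.η2 (2 ^ i) (by positivity)) (by positivity : (0 : ℝ) ≤ 16 ^ i)
      rw [pow_succ, pow_succ' (2 : ℝ)]; linarith
  obtain ⟨i, h1, h2⟩ := exists_nat_pow_near h.C1 one_lt_two
  have h3 : (16 : ℝ) ^ (i + 1) ≤ 16 * S.C ^ 4 := by
    have := pow_le_pow_left₀ (by positivity) h1 4
    rw [← pow_mul, mul_comm i, pow_mul] at this
    rw [pow_succ']; norm_num at this ⊢; linarith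
  exact ((k (i + 1)).trans (mul_le_mul_of_nonneg_left (N.ηa h2.le) (by positivity))).trans
    (mul_le_mul_of_nonneg_right h3 η0)


theorem Rn.mono (R : Rn E Λ S M m a T l X2 Gn V0 u) (A : At S M m a T) (hΛ : Λ ≤ Λ') (l0 : 0 < l)
    (E0 : 0 < E) (X0 : 0 ≤ X2) : Rn E Λ' S M m a T l X2 Gn V0 u := by
  have m0 := A.ms_pos l0.le
  have F0 : 0 ≤ S.F := by linarith [A.cl.F1]
  have s0 := (A.sb_mem (k := u) (by have := R.uJ; have := A.cl.i3; omega)).1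
  have c0 : 0 ≤ cr S l := by linarith [cr1 S l]
  exact ⟨R.gu, R.ju, R.uJ, R.uV, R.su, R.zu, R.lo, R.me, R.cru.trans (by gcongr),
    R.ru.trans (by gcongr), R.ρ.trans (by gcongr)⟩


theorem X3_η (h : Cl S M) {l0 V t : ℝ} (N : LN E S M l0 l V X Lg X2 X3 G0 η) (t0 : 0 < t)
    (h1 : l ≤ t) (h2 : t ≤ S.C) (G00 : 0 ≤ G0) (X0 : 0 ≤ X2) : X3 ≤ η t := by
  have c1 := cr1 S t
  have w0 := rpow_nonneg (P33.w3_pos h t0).le ((1 : ℝ) / 3)
  have U0 : 0 ≤ uw S Lg t := by unfold uw; positivity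
  have a1 : 0 ≤ uw S Lg t ^ 2 * min (S.ms t / t) t :=
    mul_nonneg (sq_nonneg _) (le_min (div_pos (h.ms_pos t0.le) t0).le t0.le)
  have a2 : 0 ≤ (√(Lg * cr S t * gg S t) + G0 + X2) * (uw S Lg t + √X2) := by positivity
  have a3 : 0 ≤ uw S Lg t ^ 3 := by positivity
  have a4 : (0 : ℝ) ≤ 1 / S.n := by positivity
  linarith [N.ηb t h1 h2]


end Crest.Agent.T156.Alt.Sz9

end
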