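import Crest.Agent.T156.Mon_48
import Crest.Agent.T156.PrDef_28

/-!
Row 156 (helper27): surgery on admissible lists: drop, splice, relabel, the two-sided cut.
-/

set_option autoImplicit false

namespace Crest.Agent.T156.Spl27

open MeasureTheory Set
open Crest.Agent.R164.GC Crest.Agent.R339.B Crest.Agent.R339.Var Crest.Agent.T157.Pf
open Crest.Agent.T156.Sc48

noncomputable section

theorem adm_tail {p : ℝ × ℝ} {l : List (ℝ × ℝ)} (h : Adm 1 (p :: l)) : Adm 1 l := h.2.2.2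

theorem TT_nil : TT ([] : List (ℝ × ℝ)) = 0 := by simp [TT]


/-- forget the time interval `[0, s)` -/
theorem drop : ∀ {l : List (ℝ × ℝ)}, Adm 1 l → ∀ s, 0 ≤ s → s ≤ TT l →
    ∃ r, Adm 1 r ∧ TT r = TT l - s ∧ (∀ t, 0 ≤ t → lvr 1 r t = lvr 1 l (t + s)) ∧
      headLv 1 r = lvr 1 l s
  | [], _, s, h0, h1 => ⟨[], trivial, by rw [TT_nil] at h1 ⊢; linarith, fun _ _ => rfl, rfl⟩
  | p :: l, h, s, h0, h1 => by
    rw [TT_cons] at h1
    by_cases hs : s < p.2
    · refine ⟨(p.1, p.2 - s) :: l, ⟨h.1, h.2.1, by simp only; linarith, h.2.2.2⟩, ?_, ?_, ?_⟩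
      · rw [TT_cons, TT_cons]; ring
      · intro t _
        simp only [lvr]
        by_cases h2 : t < p.2 - s
        · rw [if_pos h2, if_pos (by linarith)]
        · rw [if_neg h2, if_neg (by linarith)]
          congr 1; ring
      · simp only [lvr, headLv]; rw [if_pos hs]
    · obtain ⟨r, a, b, c, d⟩ := drop (adm_tail h) (s - p.2) (by linarith) (by linarith)
      refine ⟨r, a, by rw [b, TT_cons]; ring, fun t ht => ?_, ?_⟩
      · rw [c t ht]
        simp only [lvr]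
        rw [if_neg (by linarith)]
        congr 1; ring
      · rw [d]; simp only [lvr]; rw [if_neg hs]

/-- keep `[0, s)` of `l`, continue with `r` -/
theorem take_app {r : List (ℝ × ℝ)} (hr : Adm 1 r) : ∀ {l : List (ℝ × ℝ)}, Adm 1 l → ∀ s, 0 ≤ s →
    s ≤ TT l → (∀ t, 0 ≤ t → t < s → lvr 1 l t ≤ headLv 1 r) →
    ∃ u, Adm 1 u ∧ TT u = s + TT r ∧ (∀ t, 0 ≤ t → t < s → lvr 1 u t = lvr 1 l t) ∧
      (∀ t, s ≤ t → lvr 1 u t = lvr 1 r (t - s)) ∧ min (headLv 1 l) (headLv 1 r) ≤ headLv 1 u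
  | [], _, s, h0, h1, _ => by
    rw [TT_nil] at h1
    obtain rfl : s = 0 := le_antisymm h1 h0
    exact ⟨r, hr, by ring, fun t a b => absurd b (not_lt.2 a), fun t _ => by rw [sub_zero],
      min_le_right _ _⟩
  | p :: l, h, s, h0, h1, h2 => by
    rw [TT_cons] at h1
    rcases h0.eq_or_lt with rfl | hs
    · exact ⟨r, hr, by ring, fun t a b => absurd b (not_lt.2 a), fun t _ => by rw [sub_zero],
        min_le_right _ _⟩
    have hp : p.1 ≤ headLv 1 r := (lvr_mem h 0).1.trans (h2 0 le_rfl hs)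
    by_cases h3 : s ≤ p.2
    · refine ⟨(p.1, s) :: r, ⟨h.1, hp, h0, hr⟩, by rw [TT_cons], fun t _ b => ?_, fun t b => ?_,
        min_le_left _ _⟩
      · simp only [lvr]; rw [if_pos b, if_pos (by linarith)]
      · simp only [lvr]; rw [if_neg (not_lt.2 b)]
    · have h4 : 0 ≤ p.2 := h.2.2.1
      obtain ⟨u, a, b, c, d, e⟩ := take_app hr (adm_tail h) (s - p.2) (by linarith) (by linarith)
        (fun t x y => by
          have := h2 (t + p.2) (by linarith) (by linarith)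
          simp only [lvr] at this
          rwa [if_neg (by linarith), add_sub_cancel_right] at this)
      refine ⟨p :: u, ⟨h.1, (le_min h.2.1 hp).trans e, h4, a⟩, by rw [TT_cons, b]; ring,
        fun t x y => ?_, fun t x => ?_, min_le_left _ _⟩
      · simp only [lvr]
        split_ifs with h5
        · rfl
        · exact c _ (by linarith) (by linarith)
      · simp only [lvr]
        rw [if_neg (by linarith), d _ (by linarith)]
        congr 1; ring

/-- **splice**: `l0` before the time `s`, `l1` after -/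
theorem splice {l0 l1 : List (ℝ × ℝ)} (h0 : Adm 1 l0) (h1 : Adm 1 l1) {s : ℝ} (hs : 0 ≤ s)
    (s0 : s ≤ TT l0) (s1 : s ≤ TT l1) (hj : ∀ t, 0 ≤ t → t < s → lvr 1 l0 t ≤ lvr 1 l1 s) :
    ∃ u, Adm 1 u ∧ TT u = TT l1 ∧ (∀ t, 0 ≤ t → t < s → lvr 1 u t = lvr 1 l0 t) ∧
      ∀ t, s ≤ t → lvr 1 u t = lvr 1 l1 t := by
  obtain ⟨r, a, b, c, d⟩ := drop h1 s hs s1
  obtain ⟨u, e, f, g, k, -⟩ := take_app a h0 s hs s0 (by rw [d]; exact hj)
  refine ⟨u, e, by rw [f, b]; ring, g, fun t ht => ?_⟩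
  rw [k t ht, c _ (by linarith), sub_add_cancel]

/-- **relabel** -/
theorem relabel {ψ : ℝ → ℝ} (hm : Monotone ψ) (hp : ∀ x, 0 < ψ x) (h1 : ∀ x, ψ x ≤ 1) :
    ∀ {l : List (ℝ × ℝ)}, Adm 1 l → Adm 1 (l.map fun p => (ψ p.1, p.2)) ∧
      TT (l.map fun p => (ψ p.1, p.2)) = TT l ∧
      ∀ t, t < TT l → 0 ≤ t → lvr 1 (l.map fun p => (ψ p.1, p.2)) t = ψ (lvr 1 l t)
  | [], _ => ⟨trivial, rfl, fun t a b => by rw [TT_nil] at a; linarith⟩
  | p :: l, h => by
    obtain ⟨a, b, c⟩ := relabel hm hp h1 (adm_tail h)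
    refine ⟨⟨hp _, ?_, h.2.2.1, a⟩, ?_, fun t x y => ?_⟩
    · cases l with
      | nil => exact h1 _
      | cons q l => exact hm h.2.1
    · rw [List.map_cons, TT_cons, TT_cons, b]
    · rw [TT_cons] at x
      simp only [List.map_cons, lvr]
      split_ifs with h5
      · rfl
      · exact c _ (by linarith) (by linarith)

/-- zero slices can be removed -/
theorem exists_ok : ∀ {l : List (ℝ × ℝ)}, Adm 1 l →
    ∃ u, Pr.Ok u ∧ Eqv l u ∧ headLv 1 l ≤ headLv 1 u
  | [], _ => ⟨[], ⟨trivial, fun _ h => absurd h List.not_mem_nil⟩, Eqv.refl _, le_rfl⟩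
  | p :: l, h => by
    obtain ⟨u, a, b, c⟩ := exists_ok (adm_tail h)
    rcases h.2.2.1.eq_or_lt with e | e
    · refine ⟨u, a, Eqv.trans ?_ b, h.2.1.trans c⟩
      have : p = (p.1, 0) := Prod.ext rfl e.symm
      rw [this]
      exact eqv_zero h.1.ne' (adm_len (adm_tail h))
    · refine ⟨p :: u, ⟨⟨h.1, h.2.1.trans c, e.le, a.1⟩, fun q hq => ?_⟩, b.cons p, le_rfl⟩
      rcases List.mem_cons.1 hq with rfl | hq
      · exact e
      · exact a.2 q hq




end

end Crest.Agent.T156.Spl27
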