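import Crest.Agent.T156.Sun_9
import Crest.Agent.T156.PArea_50

/-!
Row 156, ALT, text (L) (helper9): one-sided Lipschitz bounds up to the mesh, and the areas between
the graphs of two step profiles with the same labels.
-/

set_option autoImplicit false

namespace Crest.Agent.T156.Sun9

open MeasureTheory Set
open Crest.Agent.T156.Pp.Area50

/-- `dz' ≥ -C` up to `η` -/
structure AOSL (a b C η : ℝ) (dz J : ℝ → ℝ) : Prop where
  pos : 0 < C
  le : a ≤ b
  lower : ∀ s t, a ≤ s → s ≤ t → t ≤ b → dz s - C * (t - s) - η ≤ dz t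
  int : IntervalIntegrable dz volume a b
  prim : ∀ s ∈ Icc a b, J s = J b + ∫ u in s..b, dz u

namespace AOSL
variable {a b C η : ℝ} {dz J : ℝ → ℝ}

theorem eta (h : AOSL a b C η dz J) : 0 ≤ η := by
  have := h.lower a a le_rfl le_rfl h.le; linarith

theorem int' (h : AOSL a b C η dz J) {s t : ℝ} (hs : s ∈ Icc a b) (ht : t ∈ Icc a b) :
    IntervalIntegrable dz volume s t := ii_sub h.le h.int hs ht

theorem sub (h : AOSL a b C η dz J) {s t : ℝ} (hs : s ∈ Icc a b) (ht : t ∈ Icc a b) :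
    J s - J t = ∫ u in s..t, dz u := by
  have hb : b ∈ Icc a b := ⟨h.le, le_rfl⟩
  rw [h.prim s hs, h.prim t ht, ← intervalIntegral.integral_add_adjacent_intervals (h.int' hs ht)
    (h.int' ht hb)]
  ring

theorem restrict (h : AOSL a b C η dz J) {a' b' : ℝ} (ha : a ≤ a') (hab : a' ≤ b') (hb : b' ≤ b) :
    AOSL a' b' C η dz J :=
  ⟨h.pos, hab, fun s t h1 h2 h3 => h.lower s t (ha.trans h1) h2 (h3.trans hb),
    h.int' ⟨ha, hab.trans hb⟩ ⟨ha.trans hab, hb⟩, fun s hs => by
    have := h.sub ⟨ha.trans hs.1, hs.2.trans hb⟩ ⟨ha.trans hab, hb⟩; linarith⟩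

theorem cont (h : AOSL a b C η dz J) : ContinuousOn J (Icc a b) := by
  have h1 := intervalIntegral.continuousOn_primitive_interval' h.int left_mem_uIcc
  rw [uIcc_of_le h.le] at h1
  refine (continuousOn_const.sub h1 : ContinuousOn (fun s => J a - ∫ u in a..s, dz u) _).congr
    fun s hs => ?_
  have := h.sub ⟨le_rfl, h.le⟩ hs
  show J s = J a - ∫ u in a..s, dz u
  linarith

/-- the energy with the mesh error -/
noncomputable def En (a b η : ℝ) (J : ℝ → ℝ) : ℝ :=
  2 * (∫ s in a..b, J s ^ 2) + 2 * η ^ 2 * (b - a) ^ 3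

/-- **exact envelope** -/
theorem exists_OSL (h : AOSL a b C η dz J) : ∃ dz' J' : ℝ → ℝ, OSL a b C dz' J' ∧
    (∀ s ∈ Icc a b, dz s ≤ dz' s ∧ dz' s ≤ dz s + η) ∧
    (∀ s ∈ Icc a b, J s ≤ J' s ∧ J' s ≤ J s + η * (b - s)) ∧
    ∫ s in a..b, J' s ^ 2 ≤ En a b η J := by
  set F : ℝ → ℝ := fun s => sSup ((fun u => dz u + C * u) '' Icc a s)
  have ub : ∀ s ∈ Icc a b, ∀ y ∈ (fun u => dz u + C * u) '' Icc a s, y ≤ dz s + C * s + η := by
    rintro s hs _ ⟨u, hu, rfl⟩
    have := h.lower u s hu.1 hu.2 hs.2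
    simp only; linarith
  have ne : ∀ s ∈ Icc a b, ((fun u => dz u + C * u) '' Icc a s).Nonempty := fun s hs =>
    ⟨_, a, ⟨le_rfl, hs.1⟩, rfl⟩
  have F1 : ∀ s ∈ Icc a b, dz s + C * s ≤ F s := fun s hs =>
    le_csSup ⟨_, ub s hs⟩ ⟨s, ⟨hs.1, le_rfl⟩, rfl⟩
  have F2 : ∀ s ∈ Icc a b, F s ≤ dz s + C * s + η := fun s hs => csSup_le (ne s hs) (ub s hs)
  have Fm : MonotoneOn F (Icc a b) := fun s hs t ht hst =>
    csSup_le_csSup ⟨_, ub t ht⟩ (ne s hs) (image_mono (Icc_subset_Icc_right hst))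
  have hO : OSL a b C (fun s => F s - C * s) fun s => J b + ∫ u in s..b, (F u - C * u) :=
    ⟨h.pos, by simpa using Fm, fun s _ => by simp⟩
  have hb : b ∈ Icc a b := ⟨h.le, le_rfl⟩
  have hJ : ∀ s ∈ Icc a b, J s ≤ J b + ∫ u in s..b, (F u - C * u) ∧
      J b + ∫ u in s..b, (F u - C * u) ≤ J s + η * (b - s) := by
    intro s hs
    have i1 := h.int' hs hb
    have i2 := hO.int hs hb
    have h1 := intervalIntegral.integral_mono_on hs.2 i1 i2 fun u hu => by
      have := F1 u ⟨hs.1.trans hu.1, hu.2⟩; linarith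
    have h2 := intervalIntegral.integral_mono_on hs.2 i2
      (i1.add (intervalIntegrable_const (c := η))) fun u hu => by
        have := F2 u ⟨hs.1.trans hu.1, hu.2⟩; linarith
    rw [intervalIntegral.integral_add i1 intervalIntegrable_const, intervalIntegral.integral_const,
      smul_eq_mul] at h2
    rw [h.prim s hs]
    constructor <;> linarith
  refine ⟨_, _, hO, fun s hs => ⟨by linarith [F1 s hs], by linarith [F2 s hs]⟩, hJ, ?_⟩
  have i3 : IntervalIntegrable (fun s => J s ^ 2) volume a b :=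
    (h.cont.pow 2).intervalIntegrable_of_Icc h.le
  have h3 := intervalIntegral.integral_mono_on h.le (hO.sq_int h.le)
    ((i3.const_mul 2).add (intervalIntegrable_const (c := 2 * (η * (b - a)) ^ 2))) fun s hs => by
      obtain ⟨h1, h2⟩ := hJ s hs
      have h4 : η * (b - s) ≤ η * (b - a) := mul_le_mul_of_nonneg_left (by linarith [hs.1]) h.eta
      have h5 : (J b + (∫ u in s..b, (F u - C * u)) - J s) ^ 2 ≤ (η * (b - a)) ^ 2 :=
        pow_le_pow_left₀ (by linarith) (by linarith) 2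
      nlinarith [sq_nonneg (J b + (∫ u in s..b, (F u - C * u)) - 2 * J s)]
  rw [intervalIntegral.integral_add (i3.const_mul 2) intervalIntegrable_const,
    intervalIntegral.integral_const, intervalIntegral.integral_const_mul, smul_eq_mul] at h3
  unfold En
  linarith

theorem lt_of (h : AOSL a b C η dz J) {s d : ℝ} (hd : 0 ≤ d)
    (hE : 2048 * C ^ 3 * En a b η J < d ^ 5) (hs : a ≤ s) (hb : s + d / (2 * C) ≤ b) :
    dz s < d := by
  obtain ⟨dz', J', hO, h1, -, h3⟩ := h.exists_OSL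
  have hC := h.pos
  have hsb : s ≤ b := le_trans (le_add_of_nonneg_right (by positivity)) hb
  exact (h1 s ⟨hs, hsb⟩).1.trans_lt (hO.lt_of hd
    ((mul_le_mul_of_nonneg_left h3 (by positivity)).trans_lt hE) hs hb)


theorem abs_le_of (h : AOSL a b C η dz J) {s d : ℝ} (hd : 0 ≤ d)
    (hE : 2048 * C ^ 3 * En a b η J < d ^ 5) (h0 : -(d / 2) ≤ dz a) (hs : a ≤ s)
    (hb : s + d / (2 * C) ≤ b) : |dz s| ≤ d + η := by
  obtain ⟨dz', J', hO, h1, -, h3⟩ := h.exists_OSL
  have hC := h.pos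
  have hsb : s ≤ b := le_trans (le_add_of_nonneg_right (by positivity)) hb
  have := abs_le.1 (hO.abs_le_of hd ((mul_le_mul_of_nonneg_left h3 (by positivity)).trans_lt hE)
    (h0.trans (h1 a ⟨le_rfl, h.le⟩).1) hs hb)
  have h2 := h1 s ⟨hs, hsb⟩
  exact abs_le.2 ⟨by linarith [h2.2], by linarith [h2.1, h.eta]⟩




/-- **`∫ dz⁴ ≲ ∫ J²`** up to the mesh -/
theorem four (h : AOSL a b C η dz J) {c d : ℝ} (hc : a ≤ c) (hcd : c ≤ d) (hd : d ≤ b)
    (hz : ∀ s ∈ Icc c d, -(2 * C * (s - a)) ≤ dz s ∧ dz s + η ≤ 2 * C * (b - s)) :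
    ∫ s in c..d, dz s ^ 4 ≤ 2048 * C ^ 2 * En a b η J + 8 * η ^ 4 * (d - c) := by
  obtain ⟨dz', J', hO, h1, -, h3⟩ := h.exists_OSL
  have hC := h.pos
  have hη := h.eta
  have sub : Icc c d ⊆ Icc a b := Icc_subset_Icc hc hd
  have h4 := hO.four hc hcd hd fun s hs =>
    ⟨(hz s hs).1.trans (h1 s (sub hs)).1, (h1 s (sub hs)).2.trans (hz s hs).2⟩
  have ii : ∀ {p : ℝ → ℝ}, IntervalIntegrable p volume c d →
      (∀ s ∈ Icc c d, |p s| ≤ 2 * C * (b - a)) →
      IntervalIntegrable (fun s => p s ^ 4) volume c d := fun {p} hp hp0 => by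
    rw [intervalIntegrable_iff_integrableOn_Icc_of_le hcd] at hp ⊢
    refine Integrable.of_bound (hp.aestronglyMeasurable.pow 4) ((2 * C * (b - a)) ^ 4)
      ((ae_restrict_iff' measurableSet_Icc).2 (Filter.Eventually.of_forall fun s hs => ?_))
    rw [Real.norm_eq_abs, abs_pow]
    exact pow_le_pow_left₀ (abs_nonneg _) (hp0 s hs) 4
  have b1 : ∀ s ∈ Icc c d, 2 * C * (s - a) ≤ 2 * C * (b - a) ∧ 2 * C * (b - s) ≤ 2 * C * (b - a) :=
    fun s hs => ⟨mul_le_mul_of_nonneg_left (by linarith [hs.2]) (by positivity),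
      mul_le_mul_of_nonneg_left (by linarith [hs.1]) (by positivity)⟩
  have m1 : c ∈ Icc a b := ⟨hc, hcd.trans hd⟩
  have m2 : d ∈ Icc a b := ⟨hc.trans hcd, hd⟩
  have i1 := ii (h.int' m1 m2) fun s hs => abs_le.2
    ⟨by linarith [(hz s hs).1, (b1 s hs).1], by linarith [(hz s hs).2, (b1 s hs).2]⟩
  have i2 := ii (hO.int m1 m2) fun s hs => abs_le.2
    ⟨by linarith [(hz s hs).1, (b1 s hs).1, (h1 s (sub hs)).1],
      by linarith [(hz s hs).2, (b1 s hs).2, (h1 s (sub hs)).2]⟩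
  have h5 := intervalIntegral.integral_mono_on hcd i1
    ((i2.const_mul 8).add (intervalIntegrable_const (c := 8 * η ^ 4))) fun s hs => by
      obtain ⟨h6, h7⟩ := h1 s (sub hs)
      have h8 : (dz' s - dz s) ^ 4 ≤ η ^ 4 := pow_le_pow_left₀ (by linarith) (by linarith) 4
      have h9 : ∀ x y : ℝ, (x - y) ^ 4 ≤ 8 * x ^ 4 + 8 * y ^ 4 := fun x y => by
        nlinarith [sq_nonneg (x ^ 2 - y ^ 2), sq_nonneg (x + y), sq_nonneg ((x + y) ^ 2),
          mul_nonneg (sq_nonneg (x + y)) (sq_nonneg (x - y)), sq_nonneg (x - y)]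
      have := h9 (dz' s) (dz' s - dz s)
      rw [sub_sub_cancel] at this
      linarith
  rw [intervalIntegral.integral_add (i2.const_mul 8) intervalIntegrable_const,
    intervalIntegral.integral_const, intervalIntegral.integral_const_mul, smul_eq_mul] at h5
  nlinarith [mul_le_mul_of_nonneg_left h3 (by positivity : (0:ℝ) ≤ 2048 * C ^ 2)]

end AOSL

/-! ### step profiles -/

section stp
open Finset
variable {z sh sb : ℕ → ℝ} {J : ℕ}

/-- the cell of `t` -/
theorem exists_cell {sig : ℕ → ℝ} (h : Up sig J) (t : ℝ) : ∃ k ≤ J,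
    (∀ j < J, sig (j + 1) ≤ t ↔ j < k) ∧ ∀ z, stp z sig J t = z k := by
  classical
  have ex : ∃ k, k ≤ J ∧ (k < J → t < sig (k + 1)) := ⟨J, le_rfl, fun h => absurd h (lt_irrefl _)⟩
  have hk := Nat.find_spec ex
  have hlt : ∀ j < Nat.find ex, sig (j + 1) ≤ t := fun j hj => by
    have := Nat.find_min ex hj
    by_contra hc
    exact this ⟨by omega, fun _ => not_le.1 hc⟩
  refine ⟨Nat.find ex, hk.1, fun j hj => ⟨fun h1 => ?_, hlt j⟩, fun z => stp_eq h hk.1
    (fun h0 => ?_) hk.2⟩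
  · by_contra hc
    have h2 := hk.2 (by omega)
    have := h.le (show Nat.find ex + 1 ≤ j + 1 by omega) (by omega)
    linarith
  · have := hlt (Nat.find ex - 1) (by omega)
    rwa [Nat.sub_add_cancel h0] at this

theorem sum_ind_cell {t : ℝ} {i k : ℕ} (hi : ∀ j < J, sb (j + 1) ≤ t ↔ j < i)
    (hk : ∀ j < J, sh (j + 1) ≤ t ↔ j < k) (hiJ : i ≤ J) (hkJ : k ≤ J) (f : ℕ → ℝ) :
    ∑ j ∈ range J, f j * |ind (sb (j + 1)) t - ind (sh (j + 1)) t| =
      ∑ j ∈ Finset.Ico (min i k) (max i k), f j := by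
  have e : Finset.Ico (min i k) (max i k) =
      (range J).filter fun j => min i k ≤ j ∧ j < max i k := by
    ext j; simp only [Finset.mem_Ico, mem_filter, Finset.mem_range]; omega
  rw [e, sum_filter]
  refine sum_congr rfl fun j hj => ?_
  rw [Finset.mem_range] at hj
  unfold ind
  simp only [hi j hj, hk j hj]
  split_ifs <;> first | omega | simp

/-- the two sets of passed nodes are nested -/
theorem abs_stp_sub (hz : Up z J) (hb : Up sb J) (hh : Up sh J) (t : ℝ) :
    |stp z sb J t - stp z sh J t| =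
      ∑ j ∈ range J, (z (j + 1) - z j) * |ind (sb (j + 1)) t - ind (sh (j + 1)) t| := by
  obtain ⟨i, hi, h1, h2⟩ := exists_cell hb t
  obtain ⟨k, hk, h3, h4⟩ := exists_cell hh t
  rw [sum_ind_cell h1 h3 hi hk, h2, h4, Finset.sum_Ico_sub z min_le_max]
  rcases le_total i k with c | c
  · rw [min_eq_left c, max_eq_right c, abs_sub_comm, abs_of_nonneg (sub_nonneg.2 (hz.le c hk))]
  · rw [min_eq_right c, max_eq_left c, abs_of_nonneg (sub_nonneg.2 (hz.le c hi))]

theorem ii_comp (hz : Up z J) (sb sh : ℕ → ℝ) {φ : ℝ → ℝ} (hφ : Continuous φ) (a b : ℝ) :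
    IntervalIntegrable (fun t => φ (stp z sb J t - stp z sh J t)) volume a b := by
  obtain ⟨M, hM⟩ := (isCompact_Icc (a := -(z J - z 0)) (b := z J - z 0)).exists_bound_of_continuousOn
    hφ.continuousOn
  have hm : Measurable fun t => φ (stp z sb J t - stp z sh J t) :=
    hφ.measurable.comp ((stp_mono sb hz).measurable.sub (stp_mono sh hz).measurable)
  rw [intervalIntegrable_iff]
  refine Measure.integrableOn_of_bounded (M := M) (by simp [uIoc]) hm.aestronglyMeasurable
    (Filter.Eventually.of_forall fun t => hM _ ⟨?_, ?_⟩)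
  · linarith [le_stp sb hz t, stp_le_top sh hz t]
  · linarith [le_stp sh hz t, stp_le_top sb hz t]

theorem ii_absind {a b : ℝ} {g : ℝ → ℝ} (hg : IntervalIntegrable g volume a b) (u u' : ℝ) :
    IntervalIntegrable (fun s => |ind u' s - ind u s| * g s) volume a b := by
  have e : (fun s => |ind u' s - ind u s| * g s) =
      fun s => (ind (min u u') s - ind (max u u') s) * g s := by
    funext s
    rcases le_total u u' with h | h
    · rw [min_eq_left h, max_eq_right h, abs_sub_comm,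
        abs_of_nonneg (sub_nonneg.2 (ind_le fun h1 => h.trans h1))]
    · rw [min_eq_right h, max_eq_left h,
        abs_of_nonneg (sub_nonneg.2 (ind_le fun h1 => h.trans h1))]
  rw [e]
  exact ii_ind_sub hg _ _

theorem int_absind_pow {a b u : ℝ} (h1 : a ≤ u) (h2 : u ≤ b) (u' : ℝ) (p : ℕ) :
    ∫ s in a..b, |ind u' s - ind u s| * |s - u| ^ p = |cl a b u' - u| ^ (p + 1) / (p + 1) := by
  have hab := h1.trans h2
  rw [int_abs_ind hab (Continuous.intervalIntegrable (by fun_prop) _ _)]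
  rcases le_total u u' with h | h
  · have h3 : u ≤ cl a b u' := by simpa [cl_of_mem h1 h2] using cl_mono a b h
    rw [min_eq_left h, max_eq_right h, cl_of_mem h1 h2, abs_of_nonneg (sub_nonneg.2 h3),
      intervalIntegral.integral_congr (g := fun s => (s - u) ^ p) fun s hs => by
        rw [uIcc_of_le h3] at hs; simp only [abs_of_nonneg (sub_nonneg.2 hs.1)],
      intervalIntegral.integral_comp_sub_right (fun s => s ^ p), integral_pow]
    simp
  · have h3 : cl a b u' ≤ u := by simpa [cl_of_mem h1 h2] using cl_mono a b h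
    rw [min_eq_right h, max_eq_left h, cl_of_mem h1 h2, abs_sub_comm (cl a b u'),
      abs_of_nonneg (sub_nonneg.2 h3),
      intervalIntegral.integral_congr (g := fun s => (u - s) ^ p) fun s hs => by
        rw [uIcc_of_le h3] at hs
        simp only [abs_sub_comm s, abs_of_nonneg (sub_nonneg.2 hs.2)],
      intervalIntegral.integral_comp_sub_left (fun s => s ^ p), integral_pow]
    simp

/-- lower slope of the reference profile seen from the node `j + 1` -/
def LoSl (z sh : ℕ → ℝ) (J : ℕ) (a b c η : ℝ) (j : ℕ) : Prop := ∀ t ∈ Icc a b,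
  (sh (j + 1) ≤ t → c * (t - sh (j + 1)) - η ≤ stp z sh J t - z j) ∧
    (t < sh (j + 1) → c * (sh (j + 1) - t) - η ≤ z (j + 1) - stp z sh J t)

/-- **areas between the graphs**: label side bounded by the time side -/
theorem area_ge (hz : Up z J) (hb : Up sb J) (hh : Up sh J) {a b c η : ℝ} (hab : a ≤ b) (hc : 0 < c)
    (hη : 0 ≤ η) {S : Finset ℕ} (hS : ∀ j ∈ S, j < J ∧ sh (j + 1) ∈ Icc a b ∧ LoSl z sh J a b c η j)
    (p : ℕ) :
    ∑ j ∈ S, (z (j + 1) - z j) * |cl a b (sb (j + 1)) - sh (j + 1)| ^ (p + 1) ≤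
      (p + 1) * ∫ t in a..b, |stp z sb J t - stp z sh J t| *
        ((|stp z sb J t - stp z sh J t| + η) / c) ^ p := by
  have i0 : ∀ j, IntervalIntegrable (fun t => (z (j + 1) - z j) *
      (|ind (sb (j + 1)) t - ind (sh (j + 1)) t| * |t - sh (j + 1)| ^ p)) volume a b := fun j =>
    (ii_absind (Continuous.intervalIntegrable (by fun_prop) _ _) _ _).const_mul _
  have e1 : ∑ j ∈ S, (z (j + 1) - z j) * |cl a b (sb (j + 1)) - sh (j + 1)| ^ (p + 1) =
      (p + 1) * ∫ t in a..b, ∑ j ∈ S, (z (j + 1) - z j) *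
        (|ind (sb (j + 1)) t - ind (sh (j + 1)) t| * |t - sh (j + 1)| ^ p) := by
    rw [intervalIntegral.integral_finsetSum fun j _ => i0 j, mul_sum]
    refine sum_congr rfl fun j hj => ?_
    rw [intervalIntegral.integral_const_mul, int_absind_pow (hS j hj).2.1.1 (hS j hj).2.1.2]
    field_simp
  rw [e1]
  refine mul_le_mul_of_nonneg_left (intervalIntegral.integral_mono_on hab
    ((IntervalIntegrable.sum S fun j _ => i0 j).congr fun s _ => by simp only [Finset.sum_apply])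
    (ii_comp hz sb sh (φ := fun y => |y| * ((|y| + η) / c) ^ p) (by fun_prop) a b)
    fun t ht => ?_) (by positivity)
  set g := ((|stp z sb J t - stp z sh J t| + η) / c) ^ p with hg
  have hg0 : 0 ≤ g := by positivity
  rw [abs_stp_sub hz hb hh, sum_mul]
  refine le_trans (sum_le_sum fun j hj => ?_) (sum_le_sum_of_subset_of_nonneg
    (fun j hj => mem_range.2 (hS j hj).1) fun j hj _ =>
      mul_nonneg (mul_nonneg (sub_nonneg.2 (hz j (mem_range.1 hj))) (abs_nonneg _)) hg0)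
  obtain ⟨hj1, -, hj3⟩ := hS j hj
  rw [mul_assoc]
  refine mul_le_mul_of_nonneg_left ?_ (sub_nonneg.2 (hz j hj1))
  obtain ⟨i, hi, h1, h2⟩ := exists_cell hb t
  have key : c * |t - sh (j + 1)| - η ≤ |stp z sb J t - stp z sh J t| →
      |t - sh (j + 1)| ^ p ≤ g := fun h =>
    pow_le_pow_left₀ (abs_nonneg _) (by rw [le_div_iff₀ hc]; linarith) p
  by_cases c1 : sb (j + 1) ≤ t <;> by_cases c2 : sh (j + 1) ≤ t
  · simp [ind_pos c1, ind_pos c2]
  · refine mul_le_mul_of_nonneg_left (key ?_) (abs_nonneg _)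
    have h3 := (hj3 t ht).2 (not_le.1 c2)
    have h4 : z (j + 1) ≤ z i := hz.le ((h1 j hj1).1 c1) hi
    rw [abs_sub_comm t, abs_of_nonneg (by linarith [not_le.1 c2]), h2]
    exact le_trans (by linarith) (le_abs_self _)
  · refine mul_le_mul_of_nonneg_left (key ?_) (abs_nonneg _)
    have h3 := (hj3 t ht).1 c2
    have h4 : z i ≤ z j := hz.le (not_lt.1 fun h => c1 ((h1 j hj1).2 h)) hj1.le
    rw [abs_of_nonneg (by linarith), h2]
    exact le_trans (by linarith) (neg_le_abs _)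
  · simp [ind_neg (not_le.1 c1), ind_neg (not_le.1 c2)]





/-- any monotone profile minus a profile that is Lipschitz up to `η` -/
theorem aosl_sub {zb zh Jf : ℝ → ℝ} {a b C η : ℝ} (hC : 0 < C) (hab : a ≤ b)
    (hb : MonotoneOn zb (Icc a b)) (hi : IntervalIntegrable zh volume a b)
    (hh : ∀ s t, a ≤ s → s ≤ t → t ≤ b → zh t - zh s ≤ C * (t - s) + η)
    (hJ : ∀ s ∈ Icc a b, Jf s = Jf b + ∫ u in s..b, (zb u - zh u)) :
    AOSL a b C η (fun s => zb s - zh s) Jf :=
  ⟨hC, hab, fun s t h1 h2 h3 => by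
    have := hb ⟨h1, h2.trans h3⟩ ⟨h1.trans h2, h3⟩ h2; have := hh s t h1 h2 h3; linarith,
    (MonotoneOn.intervalIntegrable (by rwa [uIcc_of_le hab])).sub hi, hJ⟩

end stp

end Crest.Agent.T156.Sun9
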