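import Crest.Agent.T156.QClDef_98
import Crest.Agent.T156.CeiG_88

/-!
# Row 156, block (L) on the class `Cl`: statements (helper69)

Everything is read under the a priori bound `Φ ≤ X`.  Free numbers: `l0 ≤ l` (first level of Q,
first thick level), `V` (crude excess of the location below `l`), `Lg` (slope of the good nodes),
`X2`, `X3`, `X4` (bounds of the sums of the powers of the centred overlap), `G0` (low part of the weak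
input), `η` (size of the residual of the first cavity equation at a good node of the level `t`).
-/

set_option autoImplicit false

noncomputable section

namespace Crest.Agent.T156.Alt.L69

open MeasureTheory Real Finset Filter

section sc

variable (S : Sc)

/-- the floor mass -/
def mf (t : ℝ) : ℝ := S.ms t / S.F
/-- `1 / (n mf)` -/
def gg (t : ℝ) : ℝ := S.F / (S.n * S.ms t)
/-- crude ratio time / label at the level `t` -/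
def cr (t : ℝ) : ℝ := max 1 ((S.F * S.ms t / t ^ 2) ^ ((1 : ℝ) / 3))
/-- size of the centred overlap at a good node -/
def uw (Lg t : ℝ) : ℝ := Lg ^ 2 * cr S t * S.w3 t ^ ((1 : ℝ) / 3)

/-- crude location at the level `t` -/
def cl (V t : ℝ) : ℝ := cr S t * t + V
/-- `w` with the crude ratio -/
def ws (V t : ℝ) : ℝ := cl S V t / t * S.w3 t ^ ((1 : ℝ) / 3)

end sc

section md

variable (M : Md) (S : Sc)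

/-- `Φ` -/
def Phi (m : ℕ) (a : ℝ) : ℝ := M.En S m a M.q 2 0 S.C
/-- label weight -/
def dx (k : ℕ) : ℝ := M.z k - M.z (k - 1)
/-- distance of the plateau node `k` to the lower, resp. upper end -/
def dl (k : ℕ) : ℝ := M.z (k - 1) - M.z (S.J - 1) + S.u0
def du (k : ℕ) : ℝ := 1 - M.z (k - 1)
def ds (k : ℕ) : ℝ := min (dl M S k) (du M k)
/-- a priori rise on the shell of the plateau node `k` -/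
def Rp (Xp Vt γ : ℝ) (k : ℕ) : ℝ :=
  √(Xp / max (dl M S k - S.u0) (Xp ^ ((1 : ℝ) / 3))) + min Vt (√(Xp / du M k)) + γ
/-- clock length of the shell of the plateau node `k` -/
def lsh (k : ℕ) : ℝ := S.den (M.z (k - 1)) * ds M S k
/-- size of the centred overlap on the shell for the slope `max (1, R / (ρ den))` -/
def ap (Xp Vt γ : ℝ) (k : ℕ) : ℝ :=
  (S.w3 1 * (S.den (M.z (k - 1)) + (Rp M S Xp Vt γ k + Xp ^ ((1 : ℝ) / 3)) ^ 2 /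
    (ds M S k ^ 2 * S.den (M.z (k - 1))))) ^ ((1 : ℝ) / 3) +
    S.w3 1 / (S.den (M.z (k - 1)) * ds M S k ^ 2) + √(S.w3 1 / lsh M S k)
/-- plateau part of `N p` -/
def Np (Xp Vt γ u1 Lp : ℝ) (p : ℕ) : ℝ := u1 + ∑ k ∈ (Icc S.J S.Jp).filter fun k => u1 ≤ du M k,
  dx M k * ((Lp ^ ((2 : ℝ) / 3) * ap M S Xp Vt γ k) ^ p + min (Rp M S Xp Vt γ k ^ p / Lp)
    (√(S.w3 1 / (S.den (M.z (k - 1)) * ds M S k ^ 2)) * Rp M S Xp Vt γ k ^ ((p : ℝ) - 1 / 2)))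
/-- the lower shells are dominated on the cone of the shell of `k` -/
def Far (Xp _Vt _γ u1 Lp : ℝ) : Prop := ∀ i k, S.J ≤ i → i ≤ k → k ≤ S.Jp → u1 ≤ du M k →
  S.w3 1 * S.den (M.z (i - 1)) ≤ Lp * ((lsh M S k + Xp ^ ((1 : ℝ) / 3)) * lsh M S k ^ 2 +
    S.w3 1 * S.den (M.z (k - 1))) * max 1 (lsh M S i / lsh M S k) ^ 3
/-- `∑ dx |rb - q|^i` over the plateau -/
def Pla (m : ℕ) (a : ℝ) (i : ℕ) : ℝ := ∑ k ∈ Icc S.J S.Jp, dx M k * |M.del m a k| ^ i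
/-- `∑ dx G²` over the plateau -/
def GP : ℝ := ∑ k ∈ Icc S.J S.Jp, dx M k * M.G k ^ 2
/-- `∑ dx G²` over the sloped nodes with time in `[t, t']` -/
def GS (t t' : ℝ) : ℝ := ∑ k ∈ (Ioo S.jl S.J).filter fun k => t ≤ M.s k ∧ M.s k ≤ t',
  dx M k * M.G k ^ 2
/-- **bulk cost** of the levels in `[t, t']` -/
def cB (η : ℝ → ℝ) (t t' : ℝ) : ℝ :=
  ∑ k ∈ (Ioo S.jl S.J).filter fun k => t ≤ M.s k ∧ M.s k ≤ t',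
  dx M k * (cr S (M.s k) * (η (M.s k) ^ 2 / mf S (M.s k)) +
    min (|M.G k| ^ ((4 : ℝ) / 3)) (M.G k ^ 2 / mf S (M.s k)))

end md

/-- **numbers of the bulk** -/
structure LN (E : ℝ) (S : Sc) (M : Md) (l0 l V X Lg X2 X3 G0 : ℝ) (η : ℝ → ℝ) : Prop where
  HJ : M.H S.Jp ≤ S.C
  l0s : E * M.s S.jl ≤ l0
  l0w : S.w3 l0 ≤ l0 ^ 3
  l0l : l0 ≤ l
  l1 : E * l ≤ 1
  sub : ∀ t t', 0 ≤ t → t ≤ t' → S.ms t' ≤ S.ms t + t' ^ 2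
  V0 : 0 ≤ V
  X0 : 0 < X
  X1 : E * X ≤ 1
  Lg0 : E * S.F ^ 2 ≤ Lg
  Lg1 : Lg ≤ S.n
  Lg2 : E * V ≤ Lg * (cr S l * l)
  X43 : E * X ^ ((4 : ℝ) / 3) ≤ mf S l
  G04 : E * G0 ^ 4 ≤ mf S l ^ 3
  /- `N 2` -/
  x2a : l0 * cl S V l0 ^ 2 ≤ X2
  x2b : ∀ t, l0 ≤ t → t ≤ S.C → min (t * cl S V t ^ 2) (t * ws S V t ^ 2 +
    (t * ws S V t ^ 2) ^ ((3 : ℝ) / 7) * min X (cl S V t ^ 3) ^ ((4 : ℝ) / 7)) ≤ X2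
  /- `N 3` in the parity form and `N 4` -/
  x3a : l0 * cl S V l0 ^ 4 ≤ X3
  x3b : ∀ t, l0 ≤ t → t ≤ S.C → min 1 (cl S V t) * min (t * cl S V t ^ 3) (t * ws S V t ^ 3 +
    (t * ws S V t ^ 3) ^ ((1 : ℝ) / 7) * (ws S V t * min X (cl S V t ^ 3)) ^ ((6 : ℝ) / 7)) ≤ X3
  /- low part of the weak input -/
  g0a : l0 * cl S V l0 ^ 2 ≤ G0
  g0b : ∀ t, l0 ≤ t → t ≤ l → cl S V t ^ 3 / t * gg S t ≤ G0 ^ 2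
  /- the residual -/
  ηa : Antitone η
  η2 : ∀ t, 0 < t → η t ≤ 16 * η (2 * t)
  ηb : ∀ t, l ≤ t → t ≤ S.C → uw S Lg t ^ 3 + uw S Lg t ^ 2 * min (S.ms t / t) t +
    (√(Lg * cr S t * gg S t) + G0 + X2) * (uw S Lg t + √X2) + X3 + 1 / S.n ≤ η t
  ηc : ∀ t t', l ≤ t → t ≤ t' → t' ≤ S.C → t' * ws S V t' ^ 3 + (t' * ws S V t' ^ 3) ^ ((1 : ℝ) / 7) *
    (ws S V t' * min X (cl S V t' ^ 3)) ^ ((6 : ℝ) / 7) ≤ η t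
  /- thickness -/
  th1 : ∀ t, l ≤ t → t ≤ S.C → E * η t ≤ mf S t ^ ((3 : ℝ) / 2)
  th2 : ∀ t, l ≤ t → t ≤ S.C → E * uw S Lg t ^ 2 ≤ mf S t
  th3 : E * X2 ≤ mf S l
  th4 : ∀ t, l ≤ t → t ≤ S.C → E * η t ≤ mf S t * t

/-- the quartic sum of the levels in `[t0, t1]` -/
def L4 (S : Sc) (V X t0 t1 X4 : ℝ) : Prop := ∀ t, t0 ≤ t → t ≤ t1 →
  t * ws S V t ^ 4 + ws S V t ^ ((3 : ℝ) / 2) * min X (cl S V t ^ 3) ^ ((7 : ℝ) / 6) ≤ X4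

/-- **numbers of the plateau**: `Xp` bounds the energy of the top window and the plateau, `Vt` the
location above the last shell (label length `u1` for the sizes, `u2` for the costs),
`j` bounds `|J| + ∫ |J|` a priori, `γ` is the
spread of the reference, `Lc`, `ηc`, `τ` belong to the two good nodes below the corner, `N` is
the cost -/
structure LP (E : ℝ) (S : Sc) (M : Md) (Xp Vt Lg Lp X2 X3 G0 G1 u1 u2 j γ Lc ηc τ : ℝ)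
    (η : ℝ → ℝ) (N : ℝ) : Prop where
  u0 : 0 < S.u0
  rev : ∃ k1, S.Jp ≤ k1 ∧ k1 ≤ M.N ∧ 1 / S.C ≤ ((k1 : ℝ) - S.Jp) * S.v ∧
    ∀ k, S.Jp ≤ k → k < k1 → S.θ * S.v / (S.C * S.F) ≤ M.H (k + 1) - M.H k
  Xp0 : 0 < Xp ∧ E * Xp ≤ 1
  Vt0 : 0 ≤ Vt
  u1a : S.ue ≤ u1
  u1b : u1 ≤ u2 ∧ E * u2 ≤ 1
  γ0 : M.s S.Jp - M.s S.J ≤ γ
  γ1 : E * γ ≤ 1
  Lp1 : 1 ≤ Lp ∧ Lp ≤ S.n
  Lp2 : Lp ≤ Lg ^ 3
  far : Far M S Xp Vt γ u1 Lp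
  n2 : Np M S Xp Vt γ u1 Lp 2 ≤ X2
  n3 : Np M S Xp Vt γ u1 Lp 3 ≤ X3
  g0p : u1 ≤ G0 ∧ ∀ k, S.J ≤ k → k ≤ S.Jp → u1 ≤ du M k →
    S.w3 1 * (Rp M S Xp Vt γ k / S.den (M.z (k - 1)) + ds M S k) ≤ G0 ^ 2
  g0c : ∃ lm, 0 < lm ∧ (∀ k, S.J ≤ k → k ≤ S.Jp → u1 ≤ du M k →
      lm ≤ S.den (M.z (k - 1)) * ds M S k) ∧
    S.w3 1 * (√Xp + γ + u1 + S.u0 * Xp ^ ((1 : ℝ) / 3)) ≤ lm * G0 ^ 2
  g0d : (∃ b, 0 < b ∧ (∀ k, S.J ≤ k → k ≤ S.Jp → u1 ≤ du M k →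
      b ^ 2 ≤ S.den (M.z (k - 1)) ^ 2 * dl M S k ^ 3) ∧
      S.w3 1 * (√Xp + γ + √S.u0 * Xp ^ ((1 : ℝ) / 3)) ≤ b * G0 ^ 2) ∨
    ∃ d, 0 < d ∧ (∀ k, S.J ≤ k → k ≤ S.Jp → u1 ≤ du M k → d ≤ S.den (M.z (k - 1))) ∧
      S.w3 1 * (Xp ^ ((1 : ℝ) / 3) + γ) ≤ d * G0 ^ 2
  g0e : u1 ≤ G0 ^ 2 ∨ (S.ue ≤ G0 ^ 2 ∧ ∀ k, S.J ≤ k → k ≤ S.Jp → S.ue ≤ du M k → du M k < u1 →
    S.w3 1 ≤ G0 ^ 2 * S.den (M.z (k - 1)))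
  /- costs -/
  c1 : ∑ k ∈ (Icc S.J S.Jp).filter fun k => u2 ≤ du M k,
    dx M k * min ((Lg ^ 2 * ap M S Xp Vt γ k) ^ 3) ((Lg ^ 2 * ap M S Xp Vt γ k) ^ 4 / S.θ) ≤ N
  c1' : ∀ e, e = η 1 + G0 ^ 2 + Np M S Xp Vt γ u1 Lp 2 + X2 * (Xp ^ ((1 : ℝ) / 3) + Vt) →
    min (e ^ ((3 : ℝ) / 2)) (e ^ 2 / S.θ) ≤ N
  c2 : (GP M S + GS M S (1 / (8 * S.C ^ 2)) S.C + G1 ^ 2 + (S.θ * γ) ^ 2) / S.θ ≤ N
  c3 : S.θ * (τ ^ 3 + S.u0 ^ 3) ≤ N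
  c4 : u2 ^ 2 + u2 * (η 1 + X2 + √((GP M S + G1 ^ 2) / u2) + S.θ * γ) +
    (u2 * S.θ) ^ ((3 : ℝ) / 2) + γ * (η 1 + X2) + γ ^ ((15 : ℝ) / 7) ≤ N
  c6 : γ * S.θ * τ ≤ N
  c8 : min (ηc ^ ((3 : ℝ) / 2)) (ηc ^ 2 / S.θ) ≤ N
  tw : S.w3 1 ≤ τ ^ 3
  c9 : (S.w3 1 * Xp) ^ ((3 : ℝ) / 4) + S.θ * (j ^ 9 + Xp ^ 3) ≤ N
  /- corner -/
  Lc1 : Lg ≤ Lc ∧ Lc ≤ S.n
  ηc1 : ∀ u, u = Lc ^ ((2 : ℝ) / 3) * S.w3 1 ^ ((1 : ℝ) / 3) →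
    u ^ 3 + u ^ 2 * (S.θ + j + Xp ^ ((1 : ℝ) / 3)) +
    (√(Lc * gg S 1) + G0 + X2) * (u + √X2) + X3 + 1 / S.n ≤ ηc ∧ E * u ^ 2 ≤ mf S 1
  τ0 : Xp ^ ((1 : ℝ) / 3) / Lc + ηc / mf S 1 ≤ τ
  τ1 : τ ≤ Xp ^ ((1 : ℝ) / 3)
  j1 : E * (j + τ) ≤ 1
  c5 : ∀ A B, A = S.θ + j + τ + γ →
    B = X2 * Xp ^ ((1 : ℝ) / 3) + A * min A (Xp ^ ((1 : ℝ) / 3)) ^ 2 →
    min (B ^ ((3 : ℝ) / 2)) (B ^ 2 / S.θ) ≤ N ∧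
      ((X2 + A * min A (Xp ^ ((1 : ℝ) / 3))) ^ 3 ≤ N ∨
        E * (X2 + A * min A (Xp ^ ((1 : ℝ) / 3))) ≤ S.θ)

/-- **output**: location from the energy `En` above the level `t0` -/
structure LO (Λ : ℝ) (S : Sc) (M : Md) (m : ℕ) (a t0 u1 En : ℝ) : Prop where
  two : ∀ t t', t0 ≤ t → t ≤ t' → ∑ k ∈ (M.blk S t t').filter (· < S.J),
    dx M k * M.del m a k ^ 2 ≤
      Λ * (min (√(t' * En)) (En / mf S t) + GS M S t t' + 1 / (S.n : ℝ) ^ 2)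
  four : ∑ k ∈ (M.blk S t0 S.C).filter (· < S.J), dx M k * M.del m a k ^ 4 ≤
    Λ * (En + ∑ k ∈ (M.blk S t0 S.C).filter (· < S.J), dx M k * M.G k ^ 4 + 1 / (S.n : ℝ) ^ 4)
  pla : Pla M S m a 2 ≤ Λ * (min (En ^ ((3 : ℝ) / 5)) (En / S.θ) + u1 + GP M S +
    (M.s S.Jp - M.s S.J) ^ 2 + 1 / (S.n : ℝ) ^ 2)

/-- crude location above the level `l` -/
def Cru (Λ₀ : ℝ) (S : Sc) (M : Md) (m : ℕ) (a l : ℝ) : Prop :=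
  ∀ k ≤ S.Jp, M.rb m a k ≤ Λ₀ * (cr S (max (M.z k) l) * max (M.z k) l)

/-- data of the junction and of the shells read by the sizes -/
structure Jn (S : Sc) (M : Md) (Xp u1 : ℝ) : Prop where
  dj1 : 1 ≤ S.C * S.den (M.z (S.J - 1))
  dj2 : S.den (M.z (S.J - 1)) ≤ S.C
  u03 : S.u0 ^ 3 ≤ Xp
  fine : ∀ k, S.J ≤ k → k ≤ S.Jp → u1 ≤ du M k → 1 ≤ S.n * lsh M S k

/-- the a priori bounds -/
structure Ap (S : Sc) (M : Md) (m : ℕ) (a l0 X Xp Vt u1 j : ℝ) : Prop where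
  all : Phi M S m a ≤ X
  top : M.En S m a M.q 2 (M.s S.J / 2) S.C ≤ Xp
  vt : ∀ k, S.J ≤ k → k ≤ S.Jp → u1 ≤ du M k → M.del m a k ≤ Vt
  j0 : √X + √(GS M S 0 S.C + GP M S) + l0 ^ 2 ≤ j
  jn : Jn S M Xp u1

/-- **(TLt)** location below the upper end from the a priori one (first pass: `Vt = 1`), no
thickness -/
def TLt : Prop := CL fun E Λ S M m a => ∀ l0 X Xp Vt X2 u1 j γ Lp, M.H S.Jp ≤ S.C →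
  0 < X → E * X ≤ 1 → 0 < Xp → E * Xp ≤ 1 → 0 ≤ Vt → E * M.s S.jl ≤ l0 →
  S.w3 l0 ≤ l0 ^ 3 → E * l0 ≤ 1 →
  l0 * cl S (X ^ ((1 : ℝ) / 3)) l0 ^ 2 ≤ X2 →
  (∀ t, l0 ≤ t → t ≤ S.C → min (t * cl S (X ^ ((1 : ℝ) / 3)) t ^ 2)
    (t * ws S (X ^ ((1 : ℝ) / 3)) t ^ 2 +
      (t * ws S (X ^ ((1 : ℝ) / 3)) t ^ 2) ^ ((3 : ℝ) / 7) * X ^ ((4 : ℝ) / 7)) ≤ X2) →
  0 < S.u0 → (∃ k1, S.Jp ≤ k1 ∧ k1 ≤ M.N ∧ 1 / S.C ≤ ((k1 : ℝ) - S.Jp) * S.v ∧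
    ∀ k, S.Jp ≤ k → k < k1 → S.θ * S.v / (S.C * S.F) ≤ M.H (k + 1) - M.H k) →
  S.ue ≤ u1 → E * u1 ≤ 1 → M.s S.Jp - M.s S.J ≤ γ → E * γ ≤ 1 → E ≤ Lp → Lp ≤ S.n →
  Far M S Xp Vt γ u1 Lp → Np M S Xp Vt γ u1 Lp 2 ≤ X2 → Ap S M m a l0 X Xp Vt u1 j →
  ∀ k, S.J ≤ k → k ≤ S.Jp → 2 * u1 ≤ du M k → ∀ k', k ≤ k' → k' ≤ S.Jp → du M k' ≤ du M k / 2 →
    M.del m a k ≤ Λ * (j + γ + √X2 + Lp * ap M S Xp Vt γ k +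
      min (√(M.H k' - M.H S.J)) (S.F * (M.H k' - M.H S.J) / S.θ) + 1 / √S.n)

/-- **(TL0)** crude location by the floor -/
def TL0 : Prop := CL fun E Λ S M m a => ∀ G1 u1 u2 j γ Lc ηc τ l X Xp Vt Lg Lp X2 X3 G0 η N,
  CeiG S M G1 → LN E S M l l (cr S l * l) X Lg X2 X3 G0 η →
  LP E S M Xp Vt Lg Lp X2 X3 G0 G1 u1 u2 j γ Lc ηc τ η N → S.F ^ 40 ≤ E →
  Ap S M m a l X Xp Vt u1 j → Cru Λ S M m a l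

/-- **(TL1)** global energy -/
def TL1 : Prop := CL fun E Λ S M m a => ∀ G1 u1 u2 j γ Lc ηc τ l X Xp Vt Lg Lp X2 X3 X4 G0 η N,
  CeiG S M G1 → LN E S M l l (cr S l * l) X Lg X2 X3 G0 η → L4 S (cr S l * l) X l S.C X4 →
  LP E S M Xp Vt Lg Lp X2 X3 G0 G1 u1 u2 j γ Lc ηc τ η N → S.F ^ 40 ≤ E →
  Ap S M m a l X Xp Vt u1 j →
  LO (Λ * S.F ^ 12) S M m a l u2 (l ^ 5 + S.ms l * l ^ 3 + cB M S η l S.C + X2 ^ 2 + X4 + N)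


/-- local size of the location at the level `t` -/
def bs (S : Sc) (Lg X2 g : ℝ) (η : ℝ → ℝ) (t : ℝ) : ℝ :=
  (η t + g) / mf S t + (X2 + uw S Lg t ^ 2) / √(mf S t)

/-- numbers of the thick zone: `g` bounds the residual, `t1` is the level of the cut, `ℓ` the
distance to the plateau, `En` the energy above the cut, `p0` the non local error -/
structure LT (E : ℝ) (S : Sc) (M : Md) (l X Xp Lg X2 X4 g t1 ℓ N En p0 : ℝ) (η : ℝ → ℝ) : Prop where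
  F1 : S.F = 1
  g1 : ∀ k, S.jl < k → l ≤ M.s k → k < S.J → |M.G k| ≤ g
  g2 : E * g ≤ S.ms l ^ ((3 : ℝ) / 2)
  lX : E * X ^ ((1 : ℝ) / 3) ≤ l
  ml : ∀ t, l ≤ t → t ≤ S.C → E * √(S.ms t) ≤ t
  ℓ1 : E * √S.θ ≤ ℓ
  ℓ2 : E * ℓ ≤ 1
  t1a : 2 * l ≤ t1
  t1b : E * t1 ≤ 1
  t1c : E * X ≤ t1 ^ 4
  x4 : L4 S (X ^ ((1 : ℝ) / 3)) X (t1 / 2) S.C X4
  en : cB M S η (t1 / 2) S.C + X2 ^ 2 + X4 + N + l ^ 3 * X + t1 * bs S Lg X2 g η t1 ^ 2 ≤ En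
  pa : √En + X ^ ((1 : ℝ) / 3) * √(S.ms l) +
    ∑ k ∈ (Ioo S.jl S.J).filter fun k => l ≤ M.s k, dx M k * bs S Lg X2 g η (M.s k) ≤ p0
  pb : Xp ^ ((1 : ℝ) / 3) * ℓ ≤ p0 ∨ (√(ℓ * En / S.θ) ≤ p0 ∧ E * ℓ * t1 ≤ S.θ)
  pc : E * p0 ≤ √(S.ms l)



end Crest.Agent.T156.Alt.L69

end
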