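import Crest.Agent.T156.ClTh_9
import Crest.Agent.T156.GapB_27
import Crest.Agent.T156.CutC_8
import Crest.Agent.T156.LDef_69

/-!
# Row 156, block (L): sums in the times of the mean profile; the root dichotomy (helper33)
-/

set_option autoImplicit false

noncomputable section

namespace Crest.Agent.T156.Alt.Ab33

open Real Finset

/-- Abel summation against a majorant -/
theorem abel_maj {σ Ψ φ : ℕ → ℝ} {u v : ℕ} (huv : u ≤ v) (φa : ∀ k, u ≤ k → k < v → φ (k + 1) ≤ φ k)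
    (h : ∀ k, u ≤ k → k ≤ v → σ k ≤ Ψ k) :
    ∑ k ∈ Ico u v, (σ (k + 1) - σ k) * φ k + (Ψ v - σ v) * φ v ≤
      (Ψ u - σ u) * φ u + ∑ k ∈ Ico u v, (Ψ (k + 1) - Ψ k) * φ k := by
  induction v, huv using Nat.le_induction with
  | base => simp
  | succ v huv ih =>
    have a := ih (fun k a b => φa k a (by omega)) fun k a b => h k a (by omega)
    have b := mul_le_mul_of_nonneg_left (φa v huv v.lt_succ_self)
      (sub_nonneg.2 (h (v + 1) (by omega) le_rfl))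
    rw [sum_Ico_succ_top huv, sum_Ico_succ_top huv]
    linarith

theorem abel_le {σ Ψ φ : ℕ → ℝ} {u v : ℕ} (huv : u ≤ v) (φa : ∀ k, u ≤ k → k < v → φ (k + 1) ≤ φ k)
    (h : ∀ k, u ≤ k → k ≤ v → σ k ≤ Ψ k) (φu : 0 ≤ φ u) (φv : 0 ≤ φ v) (σu : 0 ≤ σ u) :
    ∑ k ∈ Ico u v, (σ (k + 1) - σ k) * φ k ≤
      Ψ u * φ u + ∑ k ∈ Ico u v, (Ψ (k + 1) - Ψ k) * φ k := by
  linarith [abel_maj huv φa h, mul_nonneg (sub_nonneg.2 (h v huv le_rfl)) φv, mul_nonneg σu φu]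

/-- doubling -/
theorem dbl_pow {φ : ℝ → ℝ} {K l : ℝ} (l0 : 0 ≤ l) (K0 : 0 ≤ K)
    (h : ∀ t, l ≤ t → φ t ≤ K * φ (2 * t)) {t : ℝ} (ht : l ≤ t) (r : ℕ) :
    φ t ≤ K ^ r * φ (2 ^ r * t) := by
  induction r with
  | zero => simp
  | succ r ih =>
    have a := h (2 ^ r * t) (ht.trans (le_mul_of_one_le_left (l0.trans ht) (one_le_pow₀ one_le_two)))
    rw [pow_succ, pow_succ' 2, mul_assoc, mul_assoc]
    exact ih.trans (mul_le_mul_of_nonneg_left a (pow_nonneg K0 r))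

/-- what is used of a crude location -/
structure Cg (S : Sc) (M : Md) (m : ℕ) (a l : ℝ) (cf : ℝ → ℝ) : Prop where
  l0 : 0 < l
  nn : 0 ≤ cf l
  mono : ∀ t t', l ≤ t → t ≤ t' → cf t ≤ cf t'
  fl : ∀ t, l ≤ t → S.F * S.ms t * t ≤ cf t ^ 3
  dbl : ∀ t t', l ≤ t → t ≤ t' → cf t' / t' ≤ 2 * (cf t / t)
  cru : ∀ k ≤ S.Jp, M.rb m a k ≤ cf (max (M.z k) l)

/-- what is used of a weight -/
structure Wf (C l K : ℝ) (φ : ℝ → ℝ) : Prop where
  K0 : 0 ≤ K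
  nn : ∀ t, l ≤ t → 0 ≤ φ t
  anti : ∀ t t', l ≤ t → t ≤ t' → φ t' ≤ φ t
  dbl : ∀ t t', l ≤ t → t ≤ t' → t' ≤ 2 * C ^ 2 * t → φ t ≤ K * φ t'

theorem wf_of {C l : ℝ} {φ : ℝ → ℝ} (C1 : 1 ≤ C) (l0 : 0 ≤ l) (i : ℕ) (nn : ∀ t, l ≤ t → 0 ≤ φ t)
    (anti : ∀ t t', l ≤ t → t ≤ t' → φ t' ≤ φ t) (h : ∀ t, l ≤ t → φ t ≤ 2 ^ i * φ (2 * t)) :
    Wf C l ((4 * C ^ 2) ^ i) φ := by
  refine ⟨by positivity, nn, anti, fun t t' a b c => ?_⟩
  obtain ⟨r, r1, r2⟩ := exists_nat_pow_near (x := 2 * C ^ 2) (by nlinarith) one_lt_two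
  have e := dbl_pow l0 (by positivity) h a (r + 1)
  have f := anti t' (2 ^ (r + 1) * t) (a.trans b)
    (c.trans (mul_le_mul_of_nonneg_right r2.le (l0.trans a)))
  refine e.trans (mul_le_mul ?_ f (nn _ (a.trans (le_mul_of_one_le_left (l0.trans a)
    (one_le_pow₀ one_le_two)))) (by positivity))
  rw [← pow_mul, mul_comm i, pow_mul]
  exact pow_le_pow_left₀ (by positivity) (by rw [pow_succ]; linarith) i

variable {S : Sc} {M : Md} {m : ℕ} {a T G1 l K : ℝ} {cf φ : ℝ → ℝ}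

theorem v_le (h : Cl S M) {k : ℕ} (h1 : 1 ≤ k) (h2 : k ≤ S.J) : S.v ≤ S.C * M.s k := by
  have a := (h.s_bds h2).1
  have b : (1 : ℝ) ≤ k := by exact_mod_cast h1
  have d := mul_le_mul_of_nonneg_right b (div_pos h.v0 h.C0).le
  rw [← div_le_iff₀' h.C0]
  linarith

theorem kv_le (h : Cl S M) {k : ℕ} (h2 : k ≤ S.J) : k * S.v ≤ S.C * M.s k := by
  have a := (h.s_bds h2).1
  rwa [← mul_div_assoc, div_le_iff₀' h.C0] at a

theorem z_le (h : Cl S M) {k : ℕ} (h1 : S.jl ≤ k) (h2 : k < S.J) : M.z k ≤ 3 * S.C ^ 2 * M.s k := by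
  have a := (h.z_s (h.i1.trans h1) h2).2
  have b := mul_le_mul_of_nonneg_left (v_le h (h.i0.trans (h.i1.trans h1)) h2.le) h.C0.le
  have c := mul_le_mul_of_nonneg_right h.C1 (mul_nonneg h.C0.le (h.s_nn k))
  linarith

theorem sJ_ge (h : Cl S M) : 1 ≤ 3 * S.C ^ 3 * M.s S.J := by
  have a := h.atom.1
  have i2 := h.i2
  have b := (z_le h (k := S.J - 1) (by omega) (by omega)).trans
    (mul_le_mul_of_nonneg_left (h.sm (Nat.sub_le S.J 1)) (by positivity))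
  rw [div_le_iff₀ h.C0] at a
  linarith [mul_le_mul_of_nonneg_right b h.C0.le]

/-- the marks below the corner -/
theorem H_le (h : Cl S M) (E : CeiG S M G1) {k : ℕ} (h1 : S.jl < k) (h2 : k ≤ S.J) :
    M.H k ≤ 2 * S.C ^ 2 * (S.F * S.ms (M.s k) * M.s k) := by
  have C0 := h.C0
  have F0 : 0 < S.F := by linarith [h.F1]
  have m0 := h.ms_pos (h.s_nn k)
  have v0 := h.v0
  have a := tel_le (f := M.H) (c := S.C * S.F * S.ms (M.s k) * S.v) (show S.jl + 1 ≤ k from h1)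
    fun j p q => (E.up j p (q.trans_le h2)).trans (by have := h.msm (h.sm q.le); gcongr)
  have b : M.H (S.jl + 1) ≤ S.C * S.F * S.ms (M.s k) * M.s k := E.bot.trans (by
    have := h.msm (h.sm h1.le)
    have := h.sm h1.le
    have := h.s_nn S.jl
    gcongr)
  have c := mul_le_mul_of_nonneg_left (kv_le h h2) (show 0 ≤ S.C * S.F * S.ms (M.s k) by positivity)
  have d : 0 ≤ ((S.jl + 1 : ℕ) : ℝ) * (S.C * S.F * S.ms (M.s k) * S.v) := by positivity
  have e := mul_le_mul_of_nonneg_right h.C1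
    (show 0 ≤ S.C * S.F * S.ms (M.s k) * M.s k by have := h.s_nn k; positivity)
  linarith

theorem Cg.nn' (c : Cg S M m a l cf) {t : ℝ} (ht : l ≤ t) : 0 ≤ cf t :=
  c.nn.trans (c.mono l t le_rfl ht)

/-- the time of the mean profile at a sloped node -/
theorem sb_le (A : Mp9.At S M m a T) (E : CeiG S M G1) (HJ : M.H S.Jp ≤ S.C)
    (c : Cg S M m a l cf) {k : ℕ} (h1 : S.jl < k) (h2 : k < S.J) (hl : l ≤ M.s k) :
    Mp9.sb M m a (k + 1) ≤ 8 * S.C ^ 3 * cf (M.s k) := by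
  have h := A.cl
  have C1 := h.C1
  have C0 := h.C0
  have s0 := c.l0.trans_le hl
  have c0 := c.nn' hl
  have c2 : 1 ≤ S.C ^ 2 := one_le_pow₀ C1
  have kJ := h2.le.trans h.i3
  have a1 : M.s k ≤ 3 * S.C ^ 2 * M.s k := by nlinarith
  have a2 := (c.cru k kJ).trans (c.mono _ _ (le_max_right _ _)
    (max_le (z_le h h1.le h2) (hl.trans a1)))
  have a3 := c.dbl _ _ hl a1
  rw [div_le_iff₀ (by positivity), show 2 * (cf (M.s k) / M.s k) * (3 * S.C ^ 2 * M.s k) =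
    6 * S.C ^ 2 * cf (M.s k) by field_simp; ring] at a3
  have a4 : M.H k ≤ 2 * S.C ^ 2 * cf (M.s k) := by
    rcases le_total (cf (M.s k)) 1 with b | b
    · exact (H_le h E h1 h2.le).trans (mul_le_mul_of_nonneg_left
        ((c.fl _ hl).trans (pow_le_of_le_one c0 b (by norm_num))) (by positivity))
    · nlinarith [h.leg.Hm kJ, mul_le_mul_of_nonneg_left b (show 0 ≤ S.C ^ 2 by positivity)]
  obtain ⟨d1, d2⟩ := Mp9.d_mem h (kJ.trans h.i4.le)
  have a5 := mul_le_mul ((mul_le_of_le_one_left (by linarith) (Mp9.kp_mem m).2).trans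
    (d2.trans h.b1)) (a2.trans a3) (Mp9.rb_mem (M := M) (a := a) A.m_pos k).1 C0.le
  have a6 := mul_le_mul_of_nonneg_right C1 (show 0 ≤ S.C ^ 2 * cf (M.s k) by positivity)
  simp only [Mp9.sb]
  linarith

/-- **Abel**, index form -/
theorem abel_idx (A : Mp9.At S M m a T) (E : CeiG S M G1) (HJ : M.H S.Jp ≤ S.C)
    (c : Cg S M m a l cf) (W : Wf S.C l K φ) {p u v : ℕ} (h0 : S.jl < p) (hl : l ≤ M.s p)
    (h1 : p ≤ u) (h2 : v < S.J) (h3 : 2 * p < S.J) {U : Finset ℕ} (u1 : Ico p v ⊆ U)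
    (u2 : Ico p (2 * p) ⊆ U) (u3 : ∀ k ∈ U, l ≤ M.s k) :
    ∑ k ∈ Ico u v, (Mp9.sb M m a (k + 2) - Mp9.sb M m a (k + 1)) * φ (M.s k) ≤
      32 * S.C ^ 5 * (K + 1) * ∑ k ∈ U, L69.dx M k * (cf (M.s k) / M.s k * φ (M.s k)) := by
  have h := A.cl
  have C0 := h.C0
  have v0 := h.v0
  have K0 := W.K0
  have lk : ∀ k, p ≤ k → l ≤ M.s k := fun k b => hl.trans (h.sm b)
  have d0 : ∀ k, 0 ≤ L69.dx M k := fun k => sub_nonneg.2 (h.leg.zm (Nat.sub_le k 1))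
  have d1 : ∀ k, p ≤ k → k < S.J → S.v / S.C ≤ L69.dx M k := fun k b d => by
    have := (h.zs (k - 1) (by have := h.i1; omega) (by omega)).1
    rwa [Nat.sub_add_cancel (by omega)] at this
  have ψ0 : ∀ k, l ≤ M.s k → 0 ≤ cf (M.s k) / M.s k := fun k b => div_nonneg (c.nn' b) (h.s_nn k)
  have t0 : ∀ k ∈ U, 0 ≤ L69.dx M k * (cf (M.s k) / M.s k * φ (M.s k)) := fun k hk =>
    mul_nonneg (d0 k) (mul_nonneg (ψ0 k (u3 k hk)) (W.nn _ (u3 k hk)))
  have R0 := sum_nonneg t0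
  rcases lt_or_ge v u with e | e
  · rw [Ico_eq_empty (by omega), sum_empty]; positivity
  have cs : ∀ k, p ≤ k → k < S.J → cf (M.s k) ≤ cf (M.s k) / M.s k * (k * (S.C * S.v)) :=
    fun k b d => by
      have := mul_le_mul_of_nonneg_left (h.s_bds d.le).2 (ψ0 k (lk k b))
      rwa [div_mul_cancel₀ _ (c.l0.trans_le (lk k b)).ne'] at this
  have low : ∀ (k : ℕ) (x : ℝ) (f : ℕ → ℝ), p ≤ k → k < S.J → 0 ≤ x →
      (∀ i, p ≤ i → i < k → x ≤ f i) → ((k : ℝ) - p) * (S.v / S.C * (cf (M.s k) / M.s k / 2 * x)) ≤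
        ∑ i ∈ Ico p k, L69.dx M i * (cf (M.s i) / M.s i * f i) := fun k x f b d x0 hf => by
    have := card_nsmul_le_sum (Ico p k) (fun i => L69.dx M i * (cf (M.s i) / M.s i * f i))
      (S.v / S.C * (cf (M.s k) / M.s k / 2 * x)) fun i hi => by
        obtain ⟨i1, i2⟩ := mem_Ico.1 hi
        have := c.dbl _ _ (lk i i1) (h.sm i2.le)
        have := ψ0 k (lk k b)
        exact mul_le_mul (d1 i i1 (by omega)) (mul_le_mul (by linarith) (hf i i1 i2) x0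
          (ψ0 i (lk i i1))) (by positivity) (d0 i)
    rwa [Nat.card_Ico, nsmul_eq_mul, Nat.cast_sub b] at this
  have key := abel_le (σ := fun k => Mp9.sb M m a (k + 1)) (Ψ := fun k =>
    8 * S.C ^ 3 * cf (M.s (2 * p)) + 32 * S.C ^ 5 *
      ∑ i ∈ Ico p k, L69.dx M i * (cf (M.s i) / M.s i * 1)) (φ := fun k => φ (M.s k))
    (h1.trans e) (fun k b _ => W.anti _ _ (lk k b) (h.sm k.le_succ)) ?maj (W.nn _ hl)
    (W.nn _ (lk v (h1.trans e))) (A.sb_mem (by have := h.i3; omega)).1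
  case maj =>
    intro k b d
    have a1 := sb_le A E HJ c (h0.trans_le b) (by omega) (lk k b)
    have a2 := low k 1 (fun _ => 1) b (by omega) zero_le_one fun _ _ _ => le_rfl
    have a3 := ψ0 k (lk k b)
    have b' : (p : ℝ) ≤ k := by exact_mod_cast b
    have a0 := le_trans (mul_nonneg (sub_nonneg.2 b') (by positivity)) a2
    have a4 := c.nn' (lk (2 * p) (by omega))
    rcases le_total k (2 * p) with f | f
    · have := mul_le_mul_of_nonneg_left (c.mono _ _ (lk k b) (h.sm f))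
        (show 0 ≤ 8 * S.C ^ 3 by positivity)
      have : 0 ≤ 32 * S.C ^ 5 * ∑ i ∈ Ico p k, L69.dx M i * (cf (M.s i) / M.s i * 1) := by positivity
      linarith
    · have f' : (2 * p : ℝ) ≤ k := by exact_mod_cast f
      have a5 := (mul_le_mul_of_nonneg_right (show (k : ℝ) / 2 ≤ k - p by linarith)
        (by positivity)).trans a2
      have a6 := mul_le_mul_of_nonneg_left a5 (show 0 ≤ 32 * S.C ^ 5 by positivity)
      have a7 := mul_le_mul_of_nonneg_left (cs k b (by omega)) (show 0 ≤ 8 * S.C ^ 3 by positivity)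
      rw [show 32 * S.C ^ 5 * ((k : ℝ) / 2 * (S.v / S.C * (cf (M.s k) / M.s k / 2 * 1))) =
        8 * S.C ^ 3 * (cf (M.s k) / M.s k * (k * (S.C * S.v))) by
          generalize cf (M.s k) / M.s k = y; field_simp; ring] at a6
      have : 0 ≤ 8 * S.C ^ 3 * cf (M.s (2 * p)) := by positivity
      linarith
  have b1 : ∑ k ∈ Ico u v, (Mp9.sb M m a (k + 2) - Mp9.sb M m a (k + 1)) * φ (M.s k) ≤
      ∑ k ∈ Ico p v, (Mp9.sb M m a (k + 1 + 1) - Mp9.sb M m a (k + 1)) * φ (M.s k) :=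
    sum_le_sum_of_subset_of_nonneg (Ico_subset_Ico_left h1) fun k hk _ =>
      mul_nonneg (sub_nonneg.2 (A.sb_mono (by omega))) (W.nn _ (lk k (mem_Ico.1 hk).1))
  replace key := (b1.trans key).trans_eq (show _ = 8 * S.C ^ 3 * cf (M.s (2 * p)) * φ (M.s p) +
      32 * S.C ^ 5 * ∑ k ∈ Ico p v, L69.dx M k * (cf (M.s k) / M.s k * φ (M.s k)) by
    rw [Ico_self, sum_empty, mul_zero, add_zero, mul_sum]
    congr 1
    exact sum_congr rfl fun k hk => by rw [sum_Ico_succ_top (mem_Ico.1 hk).1]; ring)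
  have b2 := mul_le_mul_of_nonneg_left
    (sum_le_sum_of_subset_of_nonneg u1 fun k hk _ => t0 k hk) (show 0 ≤ 32 * S.C ^ 5 by positivity)
  have b3 := low (2 * p) (φ (M.s p)) (fun i => K * φ (M.s i)) (by omega) h3 (W.nn _ hl)
    fun i i1 i2 => W.dbl _ _ hl (h.sm i1) (by
      have a1 := (h.sm i2.le).trans (h.s_bds h3.le).2
      have a2 := mul_le_mul_of_nonneg_left (kv_le h (k := p) (by omega)) C0.le
      push_cast at a1
      linarith)
  rw [sum_congr rfl (g := fun k => K * (L69.dx M k * (cf (M.s k) / M.s k * φ (M.s k))))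
    fun k _ => by ring, ← mul_sum] at b3
  have b4 := mul_le_mul_of_nonneg_left (b3.trans (mul_le_mul_of_nonneg_left
    (sum_le_sum_of_subset_of_nonneg u2 fun k hk _ => t0 k hk) K0))
    (show 0 ≤ 32 * S.C ^ 5 by positivity)
  have b5 := mul_le_mul_of_nonneg_right (mul_le_mul_of_nonneg_left (cs (2 * p) (by omega) h3)
    (show 0 ≤ 8 * S.C ^ 3 by positivity)) (W.nn _ hl)
  rw [show 32 * S.C ^ 5 * ((((2 * p : ℕ) : ℝ) - p) *
      (S.v / S.C * (cf (M.s (2 * p)) / M.s (2 * p) / 2 * φ (M.s p)))) =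
    8 * S.C ^ 3 * (cf (M.s (2 * p)) / M.s (2 * p) * ((2 * p : ℕ) * (S.C * S.v))) * φ (M.s p) by
      generalize cf (M.s (2 * p)) / M.s (2 * p) = y; push_cast; field_simp; ring] at b4
  linarith

/-- **Abel**, the levels in `[t, t']` -/
theorem abel (A : Mp9.At S M m a T) (E : CeiG S M G1) (HJ : M.H S.Jp ≤ S.C)
    (c : Cg S M m a l cf) (W : Wf S.C l K φ) {t t' : ℝ} {u v : ℕ} (hj : M.s S.jl ≤ t) (hl : l ≤ t)
    (h0 : S.jl < u) (h1 : t ≤ M.s u) (h2 : v < S.J) (h3 : M.s v ≤ t') (h4 : 4 * S.C ^ 4 * t ≤ t')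
    (h5 : 12 * S.C ^ 7 * t < 1) :
    ∑ k ∈ Ico u v, (Mp9.sb M m a (k + 2) - Mp9.sb M m a (k + 1)) * φ (M.s k) ≤
      32 * S.C ^ 5 * (K + 1) * ∑ k ∈ (Ioo S.jl S.J).filter fun k => t ≤ M.s k ∧ M.s k ≤ t',
        L69.dx M k * (cf (M.s k) / M.s k * φ (M.s k)) := by
  classical
  have h := A.cl
  have C0 := h.C0
  have C1 := h.C1
  have t0 := c.l0.trans_le hl
  have sJ : 4 * S.C ^ 4 * t < M.s S.J :=
    lt_of_mul_lt_mul_left (a := 3 * S.C ^ 3) (by linarith [sJ_ge h]) (by positivity)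
  have c4 : 1 ≤ S.C ^ 4 := one_le_pow₀ C1
  have ex : ∃ k, S.jl < k ∧ t ≤ M.s k := ⟨u, h0, h1⟩
  obtain ⟨p1, p2⟩ := Nat.find_spec ex
  have p3 := Nat.find_min' ex ⟨h0, h1⟩
  have p4 : Nat.find ex ≤ S.J := Nat.find_min' ex ⟨h.jl_lt, by nlinarith⟩
  have p5 : M.s (Nat.find ex - 1) ≤ t := by
    rcases (show S.jl ≤ Nat.find ex - 1 by omega).eq_or_lt with e | e
    · rwa [← e]
    · exact (not_le.1 fun f => Nat.find_min ex (show Nat.find ex - 1 < _ by omega) ⟨e, f⟩).le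
  generalize Nat.find ex = p at p1 p2 p3 p4 p5
  have q1 := (h.ss (p - 1) (by omega)).2
  rw [Nat.sub_add_cancel (by omega)] at q1
  have q2 := mul_le_mul_of_nonneg_left ((v_le h (h.i0.trans h.i1) h.jl_lt.le).trans
    (mul_le_mul_of_nonneg_left hj C0.le)) C0.le
  have q3 : M.s p ≤ 2 * S.C ^ 2 * t := by
    nlinarith [mul_le_mul_of_nonneg_right (one_le_pow₀ (n := 2) C1) t0.le]
  have q4 : ((2 * p : ℕ) : ℝ) * (S.C * S.v) ≤ 4 * S.C ^ 4 * t := by
    have a1 := mul_le_mul_of_nonneg_left ((kv_le h p4).trans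
      (mul_le_mul_of_nonneg_left q3 C0.le)) C0.le
    push_cast
    linarith
  have q5 : 2 * p < S.J := by
    by_contra f
    have f' : (S.J : ℝ) ≤ ((2 * p : ℕ) : ℝ) := by exact_mod_cast not_lt.1 f
    linarith [(h.s_bds le_rfl).2, mul_le_mul_of_nonneg_right f' (mul_pos C0 h.v0).le]
  have q6 := ((h.s_bds q5.le).2.trans q4).trans h4
  refine abel_idx A E HJ c W p1 (hl.trans p2) p3 h2 q5 (fun k hk => ?_) (fun k hk => ?_)
    fun k hk => hl.trans (mem_filter.1 hk).2.1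
  all_goals obtain ⟨k1, k2⟩ := mem_Ico.1 hk
  · exact mem_filter.2 ⟨mem_Ioo.2 ⟨by omega, by omega⟩, p2.trans (h.sm k1), (h.sm k2.le).trans h3⟩
  · exact mem_filter.2 ⟨mem_Ioo.2 ⟨by omega, by omega⟩, p2.trans (h.sm k1), (h.sm k2.le).trans q6⟩

/-! ### the crude ratio `cr` -/

theorem cr_one (S : Sc) (t : ℝ) : 1 ≤ L69.cr S t := le_max_left _ _

theorem cr_cube (h : Cl S M) {t : ℝ} (t0 : 0 < t) :
    L69.cr S t ^ 3 = max 1 (S.F * S.ms t / t ^ 2) := by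
  have x0 : 0 ≤ S.F * S.ms t / t ^ 2 := by
    have := h.F1
    have := h.ms_pos t0.le
    positivity
  have e : ((S.F * S.ms t / t ^ 2) ^ ((1 : ℝ) / 3)) ^ 3 = S.F * S.ms t / t ^ 2 := by
    rw [← rpow_natCast, ← rpow_mul x0]; norm_num
  rw [L69.cr, (pow_left_monotoneOn (n := 3)).map_max (Set.mem_ofPred.2 zero_le_one)
    (Set.mem_ofPred.2 (rpow_nonneg x0 _)), one_pow, e]

theorem cc_cube (h : Cl S M) {t : ℝ} (t0 : 0 < t) :
    (L69.cr S t * t) ^ 3 = max (t ^ 3) (S.F * S.ms t * t) := by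
  rw [mul_pow, cr_cube h t0, max_mul_of_nonneg _ _ (pow_pos t0 3).le, one_mul]
  congr 1
  field_simp

theorem cc_mono (h : Cl S M) {t t' : ℝ} (t0 : 0 < t) (ht : t ≤ t') :
    L69.cr S t * t ≤ L69.cr S t' * t' := by
  have t1 := t0.trans_le ht
  have := cr_one S t'
  refine le_of_pow_le_pow_left₀ (by decide : 3 ≠ 0) (by positivity) ?_
  rw [cc_cube h t0, cc_cube h t1]
  have := h.F1
  have := h.ms_pos t1.le
  have := h.msm ht
  gcongr

theorem cr_dbl (h : Cl S M) {t t' : ℝ} (t0 : 0 < t) (ht : t ≤ t') :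
    L69.cr S t' ≤ 2 * L69.cr S t := by
  have t1 := t0.trans_le ht
  have := cr_one S t
  have F0 : 0 < S.F := by linarith [h.F1]
  refine le_of_pow_le_pow_left₀ (by decide : 3 ≠ 0) (by positivity) ?_
  rw [mul_pow, cr_cube h t0, cr_cube h t1]
  have a := h.ms_mul t0.le ((one_le_div t0).2 ht)
  rw [div_mul_cancel₀ _ t0.ne'] at a
  have b : S.F * S.ms t' / t' ^ 2 ≤ 4 * (S.F * S.ms t / t ^ 2) := by
    refine (div_le_div_of_nonneg_right (mul_le_mul_of_nonneg_left a F0.le) (by positivity)).trans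
      (le_of_eq ?_)
    field_simp
  have c1 := le_max_left 1 (S.F * S.ms t / t ^ 2)
  have c2 := le_max_right 1 (S.F * S.ms t / t ^ 2)
  exact max_le (by linarith) (by linarith)

theorem cg_cru {Λ₀ : ℝ} (h : Cl S M) (l0 : 0 < l) (L1 : 1 ≤ Λ₀) (c : L69.Cru Λ₀ S M m a l) :
    Cg S M m a l fun t => Λ₀ * (L69.cr S t * t) := by
  refine ⟨l0, by have := cr_one S l; positivity, fun t t' a b => ?_, fun t a => ?_,
    fun t t' a b => ?_, c⟩
  · exact mul_le_mul_of_nonneg_left (cc_mono h (l0.trans_le a) b) (by linarith)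
  · have t0 := l0.trans_le a
    have := cr_one S t
    rw [mul_pow]
    exact ((le_max_right _ _).trans (cc_cube h t0).ge).trans
      (le_mul_of_one_le_left (by positivity) (one_le_pow₀ L1))
  · have t0 := l0.trans_le a
    rw [mul_div_assoc, mul_div_assoc Λ₀, mul_div_cancel_right₀ _ t0.ne',
      mul_div_cancel_right₀ _ (t0.trans_le b).ne', mul_left_comm]
    exact mul_le_mul_of_nonneg_left (cr_dbl h t0 b) (by linarith)

/-- the weight `η² / mf` -/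
theorem wf_eta {η : ℝ → ℝ} (h : Cl S M) (l0 : 0 < l) (ηa : Antitone η)
    (η2 : ∀ t, 0 < t → η t ≤ 16 * η (2 * t)) :
    Wf S.C l ((4 * S.C ^ 2) ^ 10) fun t => η t ^ 2 / L69.mf S t := by
  have F0 : 0 < S.F := by linarith [h.F1]
  have e0 : ∀ t, 0 < t → 0 ≤ η t := fun t t0 => by
    linarith [η2 t t0, ηa (show t ≤ 2 * t by linarith)]
  have m0 : ∀ t, l ≤ t → 0 < L69.mf S t := fun t a => div_pos (h.ms_pos (l0.le.trans a)) F0
  refine wf_of h.C1 l0.le 10 (fun t a => div_nonneg (sq_nonneg _) (m0 t a).le)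
    (fun t t' a b => div_le_div₀ (sq_nonneg _)
      (pow_le_pow_left₀ (e0 _ (l0.trans_le (a.trans b))) (ηa b) 2) (m0 t a)
      (div_le_div_of_nonneg_right (h.msm b) F0.le)) fun t a => ?_
  have t0 := l0.trans_le a
  have a1 := pow_le_pow_left₀ (e0 t t0) (η2 t t0) 2
  have a2 : L69.mf S (2 * t) ≤ 4 * L69.mf S t := by
    unfold L69.mf
    rw [← mul_div_assoc]
    exact div_le_div_of_nonneg_right (h.ms2 t t0.le) F0.le
  have a3 := m0 t a
  have a4 := m0 (2 * t) (by linarith)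
  rw [← mul_div_assoc, div_le_div_iff₀ a3 a4]
  nlinarith [mul_le_mul a1 a2 a4.le (by positivity)]

/-- **Abel** for `Cru` -/
theorem abel_cru {Λ₀ : ℝ} (A : Mp9.At S M m a T) (E : CeiG S M G1) (HJ : M.H S.Jp ≤ S.C)
    (l0 : 0 < l) (L1 : 1 ≤ Λ₀) (c : L69.Cru Λ₀ S M m a l) (W : Wf S.C l K φ) {t t' : ℝ} {u v : ℕ}
    (hj : M.s S.jl ≤ t) (hl : l ≤ t) (h0 : S.jl < u) (h1 : t ≤ M.s u) (h2 : v < S.J)
    (h3 : M.s v ≤ t') (h4 : 4 * S.C ^ 4 * t ≤ t') (h5 : 12 * S.C ^ 7 * t < 1) :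
    ∑ k ∈ Ico u v, (Mp9.sb M m a (k + 2) - Mp9.sb M m a (k + 1)) * φ (M.s k) ≤
      32 * S.C ^ 5 * (K + 1) * Λ₀ * ∑ k ∈ (Ioo S.jl S.J).filter fun k => t ≤ M.s k ∧ M.s k ≤ t',
        L69.dx M k * (L69.cr S (M.s k) * φ (M.s k)) := by
  refine (abel A E HJ (cg_cru A.cl l0 L1 c) W hj hl h0 h1 h2 h3 h4 h5).trans (le_of_eq ?_)
  rw [mul_assoc _ Λ₀, mul_sum _ _ Λ₀]
  congr 1
  refine sum_congr rfl fun k hk => ?_
  have := (l0.trans_le (hl.trans (mem_filter.1 hk).2.1)).ne'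
  field_simp

/-- **Abel** against the bulk cost -/
theorem abel_cB {Λ₀ : ℝ} {η : ℝ → ℝ} (A : Mp9.At S M m a T) (E : CeiG S M G1)
    (HJ : M.H S.Jp ≤ S.C) (l0 : 0 < l) (L1 : 1 ≤ Λ₀) (c : L69.Cru Λ₀ S M m a l) (ηa : Antitone η)
    (η2 : ∀ t, 0 < t → η t ≤ 16 * η (2 * t)) {t t' : ℝ} {u v : ℕ}
    (hj : M.s S.jl ≤ t) (hl : l ≤ t) (h0 : S.jl < u) (h1 : t ≤ M.s u) (h2 : v < S.J)
    (h3 : M.s v ≤ t') (h4 : 4 * S.C ^ 4 * t ≤ t') (h5 : 12 * S.C ^ 7 * t < 1) :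
    ∑ k ∈ Ico u v, (Mp9.sb M m a (k + 2) - Mp9.sb M m a (k + 1)) *
        (η (M.s k) ^ 2 / L69.mf S (M.s k)) ≤
      32 * S.C ^ 5 * ((4 * S.C ^ 2) ^ 10 + 1) * Λ₀ * L69.cB M S η t t' := by
  have h := A.cl
  have C0 := h.C0
  refine (abel_cru A E HJ l0 L1 c (wf_eta h l0 ηa η2) hj hl h0 h1 h2 h3 h4 h5).trans
    (mul_le_mul_of_nonneg_left (sum_le_sum fun k _ => mul_le_mul_of_nonneg_left
      (le_add_of_nonneg_right (le_min (by positivity) (div_nonneg (sq_nonneg _) ?_)))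
      (sub_nonneg.2 (h.leg.zm (Nat.sub_le k 1)))) (by positivity))
  exact div_nonneg (h.ms_pos (h.s_nn k)).le (by linarith [h.F1])

/-! ### the root -/



end Crest.Agent.T156.Alt.Ab33

end
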