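import Crest.Agent.T156.SzGeo_98
import Crest.Agent.T156.QTop_57
import Crest.Agent.T156.QTw_57
import Crest.Agent.T156.SzQD_5
import Crest.Agent.T156.CakeS_64
import Crest.Agent.T156.Sun_9

-- ▼ part T156/SzF_98
section

/-!
# Row 156, block (L): the escape cone, frame of a plateau node (helper98)
-/

set_option autoImplicit false
set_option maxHeartbeats 400000

noncomputable section

namespace Crest.Agent.T156.Alt.SzT98

open Real Finset
open Crest.Agent.T156.Alt.Md67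

/-- `QG` without `w4`, with the weak forms and the forward cone up to the distance `D` -/
structure QF (K Λ₀ : ℝ) (S : Sc) (M : Md) (m : ℕ) (a t : ℝ) (k0 k1 : ℕ) (c ρ τ D : ℕ → ℝ) :
    Prop where
  blk : TB K S M t k0 k1
  crude : Crude Λ₀ S M m a t k0
  c0 : 0 ≤ c k0
  clk : ∀ k, k0 ≤ k → k < k1 → c k ≤ c (k + 1) ∧ c (k + 1) ≤ c k + K * S.v
  lip : ∀ k, k0 ≤ k → k < k1 → |ρ (k + 1) - ρ k| ≤ K * S.v
  rn : ∀ k, k0 ≤ k → k ≤ k1 → 1 ≤ S.n * ρ k
  ge : ∀ k, k0 ≤ k → k ≤ k1 → ρ k ≤ τ k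
  loc : ∀ k, k0 ≤ k → k ≤ k1 → |M.rb m a k - c k| ≤ τ k
  up : ∀ k i : ℕ, k0 ≤ k → k ≤ i → i ≤ k1 → ((i : ℝ) - k) * S.v ≤ ρ k → τ i ≤ K * τ k
  dn : ∀ i k : ℕ, k0 ≤ i → i ≤ k → k ≤ k1 → τ i * ρ k ≤ K * τ k * (ρ k + ((k : ℝ) - i) * S.v)
  t4 : ∀ k, k0 ≤ k → k ≤ k1 → S.w3 t ≤ τ k * min (ρ k) t * t
  den : ∀ k y : ℕ, k0 ≤ k → k ≤ k1 → k0 < y → y < k1 → |(y : ℝ) - k| * S.v ≤ ρ k →
    1 ≤ τ k ∨ S.w3 t * S.v ≤ K * M.dz m a y * (τ k * min (ρ k) t ^ 2)
  rD : ∀ k, ρ k ≤ D k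
  fw : ∀ k i : ℕ, k ≤ i → ((i : ℝ) - k) * S.v ≤ D k →
    τ i * ρ k ≤ K * τ k * (ρ k + ((i : ℝ) - k) * S.v)
  w4 : ∀ k, S.w3 t ≤ τ k ^ 2 * min (D k) t

variable (v l L κ : ℝ) (j : ℕ)

/-- distance above `j` -/
def aa (i : ℕ) : ℝ := max (((i : ℝ) - j) * v) 0
/-- distance below `j` -/
def bb (i : ℕ) : ℝ := max (((j : ℝ) - i) * v) 0
/-- windows -/
def rr (i : ℕ) : ℝ := min (l + aa v j i) L + bb v j i
/-- tolerance -/
def tt (i : ℕ) : ℝ := κ * (l + aa v j i + bb v j i) * exp (aa v j i / L)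
/-- reach of the forward cone -/
def DD (i : ℕ) : ℝ := L + bb v j i

variable {v l L κ j}

theorem aa0 (i : ℕ) : 0 ≤ aa v j i := le_max_right _ _
theorem bb0 (i : ℕ) : 0 ≤ bb v j i := le_max_right _ _
theorem ab (i : ℕ) : aa v j i - bb v j i = ((i : ℝ) - j) * v := by
  unfold aa bb
  rw [show ((j : ℝ) - i) * v = -(((i : ℝ) - j) * v) by ring]
  exact max_zero_sub_max_neg_zero_eq_self _
theorem ab' (hv : 0 ≤ v) (i : ℕ) : aa v j i + bb v j i = |(i : ℝ) - j| * v := by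
  unfold aa bb
  rw [show ((j : ℝ) - i) * v = -(((i : ℝ) - j) * v) by ring, ← abs_of_nonneg hv, ← abs_mul,
    abs_of_nonneg hv]
  exact max_zero_add_max_neg_zero_eq_abs_self _
theorem aa_le {i : ℕ} {x : ℝ} (hx : 0 ≤ x) (h : ((i : ℝ) - j) * v ≤ x) : aa v j i ≤ x := max_le h hx
theorem bb_le {i : ℕ} {x : ℝ} (hx : 0 ≤ x) (h : ((j : ℝ) - i) * v ≤ x) : bb v j i ≤ x := max_le h hx
theorem tt_self : tt v l L κ j j = κ * l := by simp [tt, aa, bb]

theorem mv (hv : 0 ≤ v) {k i : ℕ} (h : k ≤ i) : 0 ≤ ((i : ℝ) - k) * v ∧ aa v j k ≤ aa v j i ∧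
    bb v j i ≤ bb v j k ∧ aa v j i ≤ aa v j k + ((i : ℝ) - k) * v ∧
    bb v j k ≤ bb v j i + ((i : ℝ) - k) * v := by
  have d : 0 ≤ ((i : ℝ) - k) * v := mul_nonneg (sub_nonneg.2 (by exact_mod_cast h)) hv
  have a1 := ab (v := v) (j := j) i
  have a2 := ab (v := v) (j := j) k
  have := aa0 (v := v) (j := j) i
  have := aa0 (v := v) (j := j) k
  have := bb0 (v := v) (j := j) i
  have := bb0 (v := v) (j := j) k
  exact ⟨d, aa_le (by linarith) (by linarith), bb_le (by linarith) (by linarith),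
    aa_le (by linarith) (by linarith), bb_le (by linarith) (by linarith)⟩

section fr

variable (hv : 0 ≤ v) (lp : 0 < l) (lL : l ≤ L) (k1 : 1 ≤ κ)
include lp lL

theorem l_rr (i : ℕ) : l ≤ rr v l L j i := by
  have := le_min (le_add_of_nonneg_right (a := l) (aa0 (v := v) (j := j) i)) lL
  unfold rr
  linarith [bb0 (v := v) (j := j) i]

theorem rr_le (i : ℕ) : rr v l L j i ≤ l + aa v j i + bb v j i :=
  add_le_add (min_le_left _ _) le_rfl

include k1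

theorem P_tt (i : ℕ) : κ * (l + aa v j i + bb v j i) ≤ tt v l L κ j i := by
  have := aa0 (v := v) (j := j) i
  have := bb0 (v := v) (j := j) i
  have := lp.trans_le lL
  exact le_mul_of_one_le_right (by positivity) (one_le_exp (by positivity))

theorem r_tt (i : ℕ) : κ * rr v l L j i ≤ tt v l L κ j i :=
  (mul_le_mul_of_nonneg_left (rr_le lp lL i) (by linarith)).trans (P_tt lp lL k1 i)

theorem l_tt (i : ℕ) : κ * l ≤ tt v l L κ j i :=
  (mul_le_mul_of_nonneg_left (l_rr lp lL i) (by linarith)).trans (r_tt lp lL k1 i)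

theorem r_tt' (i : ℕ) : rr v l L j i ≤ tt v l L κ j i :=
  (le_mul_of_one_le_left (lp.le.trans (l_rr lp lL i)) k1).trans (r_tt lp lL k1 i)

/-- growth by one scale -/
theorem tt_cmp {i k : ℕ} {x c : ℝ} (h1 : aa v j i ≤ aa v j k + L) (hx : 0 ≤ x) (hc : 0 ≤ c)
    (h2 : (l + aa v j i + bb v j i) * x ≤ (l + aa v j k + bb v j k) * c) :
    tt v l L κ j i * x ≤ 3 * tt v l L κ j k * c := by
  have L0 := lp.trans_le lL
  have e : exp (aa v j i / L) ≤ 3 * exp (aa v j k / L) :=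
    calc _ ≤ exp (1 + aa v j k / L) := exp_le_exp.2 (by
          rw [div_le_iff₀ L0, add_mul, one_mul, div_mul_cancel₀ _ L0.ne']; linarith)
      _ ≤ _ := by
          rw [exp_add]
          exact mul_le_mul_of_nonneg_right (exp_one_lt_d9.le.trans (by norm_num)) (exp_pos _).le
  have := aa0 (v := v) (j := j) k
  have := bb0 (v := v) (j := j) k
  have k0 : 0 ≤ κ := by linarith
  calc _ = κ * ((l + aa v j i + bb v j i) * x) * exp (aa v j i / L) := by unfold tt; ring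
    _ ≤ κ * ((l + aa v j k + bb v j k) * c) * (3 * exp (aa v j k / L)) := by gcongr
    _ = _ := by unfold tt; ring

theorem big {n : ℝ} (n0 : 0 < n) (nl : 1 ≤ n * l) {i : ℕ} (h : log n * L ≤ aa v j i) :
    1 ≤ tt v l L κ j i := by
  have L0 := lp.trans_le lL
  have a1 : n ≤ exp (aa v j i / L) := by
    rw [← exp_log n0]
    exact exp_le_exp.2 ((le_div_iff₀ L0).2 h)
  have := aa0 (v := v) (j := j) i
  have := bb0 (v := v) (j := j) i
  have a2 : l ≤ κ * (l + aa v j i + bb v j i) :=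
    le_trans (by linarith) (le_mul_of_one_le_left (by positivity) k1)
  have := mul_le_mul a2 a1 n0.le (by positivity)
  unfold tt
  linarith

end fr

/-- **the frame of the escape cone at `j`** -/
theorem frame {K Λ₀ D : ℝ} {S : Sc} {M : Md} {m : ℕ} {a : ℝ} {k0 k1 : ℕ} (B : TB K S M 1 k0 k1)
    (cr : Crude Λ₀ S M m a 1 k0) (hm : 0 < m) (h : Cl S M) (K6 : 6 ≤ K) (lp : 0 < l) (lL : l ≤ L)
    (L1 : L ≤ 1) (lg : 1 ≤ log S.n) (LD : 2 * log S.n * L ≤ D) (hκ : 1 ≤ κ) (nl : 1 ≤ S.n * l)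
    (t4 : S.w3 1 ≤ κ * l * l) (t5 : S.w3 1 ≤ (κ * l) ^ 2 * L)
    (loc : ∀ i : ℕ, k0 ≤ i → ((i : ℝ) - j) * S.v ≤ D →
      |M.rb m a i - M.rb m a j| ≤ κ * (l + |(i : ℝ) - j| * S.v))
    (near : ∀ y : ℕ, k0 < y → |(y : ℝ) - j| * S.v ≤ D →
      S.w3 1 * S.v ≤ K * M.dz m a y * (κ * l * l ^ 2))
    (far : ∀ y : ℕ, k0 < y → D < ((j : ℝ) - y) * S.v →
      S.w3 1 * S.v ≤ K * M.dz m a y * (κ * (((j : ℝ) - y) * S.v / 2) ^ 3))
    (dz0 : ∀ y, 0 ≤ M.dz m a y) :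
    QF K Λ₀ S M m a 1 k0 k1 (fun _ => M.rb m a j) (rr S.v l L j) (tt S.v l L κ j) (DD S.v L j) := by
  have v0 := h.v0
  have L0 := lp.trans_le lL
  have l1 := lL.trans L1
  have rl := l_rr (v := S.v) (j := j) lp lL
  have lt := l_tt (v := S.v) (j := j) lp lL hκ
  have a0 := aa0 (v := S.v) (j := j)
  have b0 := bb0 (v := S.v) (j := j)
  have e := ab (v := S.v) (j := j)
  have kl : 0 < κ * l := by positivity
  have t0 : ∀ i, 0 < tt S.v l L κ j i := fun i => kl.trans_le (lt i)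
  have LD' : log S.n * L ≤ D / 2 := by linarith
  have LD2 : L ≤ D / 2 := (le_mul_of_one_le_left L0.le lg).trans LD'
  have bg := fun i => big (v := S.v) (j := j) (i := i) lp lL hκ h.N0 nl
  have rD : ∀ k, rr S.v l L j k ≤ DD S.v L j k := fun k => add_le_add (min_le_right _ _) le_rfl
  have key : ∀ {P r d : ℝ}, r ≤ P → 0 ≤ d → (P + d) * r ≤ P * (r + d) := fun h1 h2 => by
    nlinarith
  have fw : ∀ k i : ℕ, k ≤ i → ((i : ℝ) - k) * S.v ≤ DD S.v L j k → tt S.v l L κ j i *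
      rr S.v l L j k ≤ 3 * tt S.v l L κ j k * (rr S.v l L j k + ((i : ℝ) - k) * S.v) :=
    fun k i hk d => by
      obtain ⟨c0, -, c2, c3, -⟩ := mv (j := j) v0.le hk
      have r0 := lp.le.trans (rl k)
      refine tt_cmp lp lL hκ (aa_le (by linarith [a0 k]) ?_) r0 (by linarith)
        (le_trans (mul_le_mul_of_nonneg_right (by linarith) r0) (key (rr_le lp lL k) c0))
      unfold DD at d
      linarith [e k]
  refine ⟨B, cr, rb_nonneg hm j,
    fun _ _ _ => ⟨le_rfl, le_add_of_nonneg_right (by positivity)⟩, fun i _ _ => ?_,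
    fun i _ _ => nl.trans (mul_le_mul_of_nonneg_left (rl i) h.N0.le),
    fun i _ _ => r_tt' lp lL hκ i, fun i b _ => ?_, fun k i _ b _ d => ?_, fun i k _ b _ => ?_,
    fun i _ _ => ?_, fun k y _ _ b _ d => ?_, rD, fun k i b d => ?_, fun k => ?_⟩
  · obtain ⟨-, c1, c2, c3, c4⟩ := mv (j := j) v0.le (Nat.le_succ i)
    have c5 : (((i.succ : ℕ) : ℝ) - i) * S.v = S.v := by push_cast; ring
    rw [c5] at c3 c4
    have c6 : min (l + aa S.v j i) L ≤ min (l + aa S.v j i.succ) L :=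
      min_le_min (by linarith) le_rfl
    have c7 : min (l + aa S.v j i.succ) L ≤ min (l + aa S.v j i) L + S.v := by
      rw [← min_add_add_right]
      exact min_le_min (by linarith) (by linarith)
    have : S.v ≤ K * S.v := le_mul_of_one_le_left v0.le (by linarith)
    unfold rr
    exact abs_le.2 ⟨by linarith, by linarith⟩
  · rcases le_total (((i : ℝ) - j) * S.v) D with d | d
    · refine (loc i b d).trans (le_trans (le_of_eq ?_) (P_tt lp lL hκ i))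
      rw [add_assoc, ab' v0.le]
    · refine le_trans (abs_le.2 ⟨?_, ?_⟩) (bg i (by linarith [e i, b0 i]))
      · linarith [rb_nonneg (M := M) (a := a) hm i, rb_le_one (M := M) (a := a) hm j]
      · linarith [rb_nonneg (M := M) (a := a) hm j, rb_le_one (M := M) (a := a) hm i]
  · have c := fw k i b (d.trans (rD k))
    have r0 := lp.trans_le (rl k)
    refine le_of_mul_le_mul_right (c.trans ?_) r0
    have := mul_le_mul_of_nonneg_left d (t0 k).le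
    have := mul_le_mul_of_nonneg_right K6 (mul_pos (t0 k) r0).le
    nlinarith
  · obtain ⟨c0, c1, -, -, c4⟩ := mv (j := j) v0.le b
    have r0 := lp.le.trans (rl k)
    refine (tt_cmp lp lL hκ (by linarith) r0 (by linarith)
      (le_trans (mul_le_mul_of_nonneg_right (by linarith) r0) (key (rr_le lp lL k) c0))).trans ?_
    have := t0 k
    gcongr
    linarith
  · rw [mul_one]
    exact t4.trans (mul_le_mul (lt i) (le_min (rl i) l1) lp.le (t0 i).le)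
  · rcases le_total (D / 2) (aa S.v j k) with c | c
    · exact Or.inl (bg k (by linarith))
    have d1 := (mul_le_mul_of_nonneg_right (le_abs_self _) v0.le).trans d
    have d2 := (mul_le_mul_of_nonneg_right (neg_le_abs _) v0.le).trans d
    have K0 : 0 ≤ K * M.dz m a y := mul_nonneg (by linarith) (dz0 y)
    rcases le_or_gt (((j : ℝ) - y) * S.v) D with f | f
    · right
      have d3 := rD k
      unfold DD at d3
      refine (near y b ?_).trans (mul_le_mul_of_nonneg_left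
        (mul_le_mul (lt k) (pow_le_pow_left₀ lp.le (le_min (rl k) l1) 2) (by positivity)
          (t0 k).le) K0)
      rw [← abs_of_pos v0, ← abs_mul]
      exact abs_le.2 ⟨by linarith, by linarith [e k]⟩
    rcases le_total 1 (rr S.v l L j k) with g | g
    · exact Or.inl (g.trans (r_tt' lp lL hκ k))
    right
    have d4 : bb S.v j k ≤ rr S.v l L j k :=
      le_add_of_nonneg_left (le_min (by linarith [a0 k]) L0.le)
    have d5 : ((j : ℝ) - y) * S.v / 2 ≤ rr S.v l L j k := by linarith [e k, a0 k]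
    have d6 : 0 ≤ ((j : ℝ) - y) * S.v / 2 := by linarith
    refine (far y b f).trans (mul_le_mul_of_nonneg_left ?_ K0)
    rw [min_eq_left g]
    calc _ ≤ κ * rr S.v l L j k ^ 3 := by gcongr
      _ = κ * rr S.v l L j k * rr S.v l L j k ^ 2 := by ring
      _ ≤ _ := mul_le_mul_of_nonneg_right (r_tt lp lL hκ k) (sq_nonneg _)
  · refine (fw k i b d).trans ?_
    have := t0 k
    have := (mv (j := j) v0.le b).1
    have := lp.le.trans (rl k)
    gcongr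
    linarith
  · exact t5.trans (mul_le_mul (pow_le_pow_left₀ kl.le (lt k) 2)
      (le_min (le_add_of_nonneg_right (b0 k)) L1) L0.le (sq_nonneg _))

end Crest.Agent.T156.Alt.SzT98

end
end

-- ▼ part T156/SzP_98
section

/-!
# Row 156, block (L): pointwise size on the plateau (helper98)
-/

set_option autoImplicit false
set_option maxHeartbeats 400000

noncomputable section

namespace Crest.Agent.T156.Alt.SzT98

open Real Finset Filter
open Crest.Agent.T156.Alt.L69 Crest.Agent.T156.Alt.Md67 Crest.Agent.T156.Alt.C33 Pre29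

/-- the pair bound from the frame -/
def QFS : Prop := ∀ K : ℝ, 1 ≤ K → CL fun _ Λ S M m a => ∀ Λ₀ k0 k1 c ρ τ D,
  QF K Λ₀ S M m a 1 k0 k1 c ρ τ D → ∀ k, Inn K S 1 k0 k1 k →
    M.E2 m a (fun R => (R - c k) ^ 4) k ≤ (Λ * Λ₀ * τ k) ^ 4

theorem nums {w dn ds r P A e g c T : ℝ} (w0 : 0 < w) (dn0 : 0 < dn) (ds0 : 0 < ds) (ds1 : ds ≤ 1)
    (r0 : 0 ≤ r) (P1 : 1 ≤ P) (A0 : 0 ≤ A) (hA : A ^ 3 = w * (dn + r ^ 2 / (ds ^ 2 * dn)))
    (e0 : 0 ≤ e) (g1 : 1 ≤ g) (c1 : 1 ≤ c) (cg : 2 * c ≤ g ^ 2)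
    (hT : T = g ^ 2 * (P ^ 2 * (A + w / (dn * ds ^ 2)) + √(w / (dn * ds)) + e)) (T1 : T ≤ 1) :
    ∃ l L κ : ℝ, 0 < l ∧ l ≤ L ∧ L ≤ 1 ∧ g * L ≤ dn * ds ∧ κ * l = T ∧
      c * (P ^ 3 * (1 + r / (dn * ds))) ≤ κ ∧ P ^ 3 * (w * dn) ≤ κ * (dn * ds) ^ 3 ∧
      w ≤ T * l ∧ w ≤ T ^ 2 * L ∧ w * dn ≤ T * l ^ 2 := by
  obtain ⟨q, hq⟩ : ∃ q, q = 1 + r / (dn * ds) := ⟨_, rfl⟩
  obtain ⟨b, hb⟩ : ∃ b, b = w / (dn * ds ^ 2) := ⟨_, rfl⟩
  obtain ⟨B, hB⟩ : ∃ B, B = g ^ 2 := ⟨_, rfl⟩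
  have u0 : 0 ≤ r / (dn * ds) := by positivity
  have q1 : 1 ≤ q := by linarith
  have b0 : 0 < b := by rw [hb]; positivity
  have bw : b * (dn * ds ^ 2) = w := by rw [hb]; field_simp
  have B2 : 2 ≤ B := by linarith
  have gB : g ≤ B := by rw [hB]; exact le_self_pow₀ g1 two_ne_zero
  have P0 : 0 < P := by linarith
  have P2 : 1 ≤ P ^ 2 := one_le_pow₀ P1
  have f1 : w * dn * q ^ 2 ≤ 2 * A ^ 3 := by
    have a1 : A ^ 3 = w * dn * (1 + (r / (dn * ds)) ^ 2) := by rw [hA]; field_simp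
    have a2 : q ^ 2 ≤ 2 * (1 + (r / (dn * ds)) ^ 2) := by
      rw [hq]; nlinarith [sq_nonneg (1 - r / (dn * ds))]
    have := mul_le_mul_of_nonneg_left a2 (mul_pos w0 dn0).le
    linarith
  have f2 : w * q ≤ 2 * (A + b) ^ 2 := by
    refine le_of_pow_le_pow_left₀ two_ne_zero (by positivity) ?_
    have a1 : A ^ 3 * b ≤ (A + b) ^ 3 * (A + b) := by gcongr <;> linarith
    have a2 : w ≤ b * dn := by
      rw [← bw]
      have : ds ^ 2 ≤ 1 := pow_le_one₀ ds0.le ds1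
      gcongr
      exact mul_le_of_le_one_right dn0.le this
    have a3 := mul_le_mul_of_nonneg_right f1 b0.le
    have a4 := mul_le_mul_of_nonneg_left a2 (show 0 ≤ w * q ^ 2 by positivity)
    have a5 : 0 ≤ A ^ 3 * b := by positivity
    linarith
  rw [← hb, ← hB] at hT
  rw [← hq]
  have s0 := sqrt_nonneg (w / (dn * ds))
  have T2 : B * (P ^ 2 * (A + b)) ≤ T := by
    rw [hT]; exact mul_le_mul_of_nonneg_left (by linarith) (by linarith)
  have T3 : B * √(w / (dn * ds)) ≤ T := by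
    have : 0 ≤ P ^ 2 * (A + b) := by positivity
    rw [hT]; exact mul_le_mul_of_nonneg_left (by linarith) (by linarith)
  have S0 : 0 < A + b := by linarith
  have T4 : 2 * (A + b) ≤ T := le_trans (mul_le_mul B2 (le_mul_of_one_le_left S0.le P2) S0.le
    (by linarith)) T2
  have T0 : 0 < T := by linarith
  have T5 : B * (P ^ 2 * b) ≤ T := le_trans (by gcongr; linarith) T2
  have T6 : B * (P ^ 2 * A) ≤ T := le_trans (by gcongr; linarith) T2
  have wq : w ≤ 2 * (A + b) ^ 2 := (le_mul_of_one_le_right w0.le q1).trans f2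
  obtain ⟨L, hL⟩ : ∃ L, L = min 1 (dn * ds / g) := ⟨_, rfl⟩
  have g0 : 0 < g := by linarith
  have L0 : 0 < L := by rw [hL]; positivity
  have L1 : L ≤ 1 := hL ▸ min_le_left _ _
  have L2 : g * L ≤ dn * ds := by
    rw [mul_comm, ← le_div_iff₀ g0]; exact hL ▸ min_le_right _ _
  have Lc : L = 1 ∨ g * L = dn * ds := by
    rcases min_choice 1 (dn * ds / g) with h | h
    · exact Or.inl (hL.trans h)
    · right; rw [hL, h]; field_simp
  obtain ⟨k, hk⟩ : ∃ k, k = c * (P ^ 3 * q) := ⟨_, rfl⟩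
  have k0 : 0 < k := by rw [hk]; positivity
  obtain ⟨l, hl⟩ : ∃ l, l = min (L / P) (T / k) := ⟨_, rfl⟩
  have l0 : 0 < l := by rw [hl]; positivity
  have l1 : P * l ≤ L := by rw [mul_comm, ← le_div_iff₀ P0]; exact hl ▸ min_le_left _ _
  have l2 : k * l ≤ T := by rw [mul_comm, ← le_div_iff₀ k0]; exact hl ▸ min_le_right _ _
  have lc : P * l = L ∨ k * l = T := by
    rcases min_choice (L / P) (T / k) with h | h
    · left; rw [hl, h]; field_simp
    · right; rw [hl, h]; field_simp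
  refine ⟨l, L, T / l, l0, (le_mul_of_one_le_left l0.le P1).trans l1, L1, L2,
    div_mul_cancel₀ _ l0.ne', hk ▸ (le_div_iff₀ l0).2 l2, ?_, ?_, ?_, ?_⟩
  · rw [div_mul_eq_mul_div, le_div_iff₀ l0]
    have a1 : P * l ≤ dn * ds := l1.trans ((le_mul_of_one_le_left L0.le g1).trans L2)
    have a2 : P ^ 2 * b ≤ T := (le_mul_of_one_le_left (by positivity) (by linarith)).trans T5
    calc _ = P ^ 2 * b * (P * l) * (dn * ds) ^ 2 := by rw [← bw]; ring
      _ ≤ T * (dn * ds) * (dn * ds) ^ 2 := by gcongr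
      _ = _ := by ring
  · rcases lc with h | h
    · have a1 : B * (P * (A + b)) * L ≤ T * l := by
        rw [← h]
        calc _ = B * (P ^ 2 * (A + b)) * l := by ring
          _ ≤ _ := by gcongr
      refine le_trans ?_ a1
      have a2 : A + b ≤ P * (A + b) := le_mul_of_one_le_left S0.le P1
      rcases Lc with h' | h'
      · rw [h', mul_one]
        have := mul_le_mul B2 a2 S0.le (by linarith)
        have := mul_le_mul_of_nonneg_left (T4.trans T1) S0.le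
        linarith
      · calc w = b * ds * (g * L) := by rw [h', ← bw]; ring
          _ ≤ P * (A + b) * 1 * (B * L) := by gcongr; linarith
          _ = _ := by ring
    · refine le_of_mul_le_mul_left ?_ k0
      have a1 : k * (T * l) = T * T := by rw [mul_left_comm, h]
      have a2 : (B * (P ^ 2 * (A + b))) ^ 2 ≤ T ^ 2 := by gcongr
      have a3 : 2 * c ≤ B ^ 2 := (hB ▸ cg).trans (le_self_pow₀ (by linarith) two_ne_zero)
      have a4 : P ^ 3 ≤ P ^ 4 := pow_le_pow_right₀ P1 (by norm_num)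
      calc k * w = c * P ^ 3 * (w * q) := by rw [hk]; ring
        _ ≤ c * P ^ 4 * (2 * (A + b) ^ 2) := by gcongr
        _ = 2 * c * (P ^ 2 * (A + b)) ^ 2 := by ring
        _ ≤ B ^ 2 * (P ^ 2 * (A + b)) ^ 2 := by gcongr
        _ ≤ _ := by rw [a1, ← mul_pow, ← sq]; exact a2
  · rcases Lc with h' | h'
    · rw [h', mul_one]
      have := pow_le_pow_left₀ (by positivity) T4 2
      linarith [sq_nonneg (A + b)]
    · have a1 := pow_le_pow_left₀ (by positivity) T3 2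
      rw [mul_pow, sq_sqrt (by positivity)] at a1
      have a2 : g ≤ B ^ 2 := gB.trans (le_self_pow₀ (by linarith) two_ne_zero)
      calc w = g * (w / (dn * ds)) * L := by rw [← h']; field_simp
        _ ≤ B ^ 2 * (w / (dn * ds)) * L := by gcongr
        _ ≤ _ := by gcongr
  · have a0 : w * dn ≤ 2 * A ^ 3 :=
      (le_mul_of_one_le_right (by positivity) (one_le_pow₀ q1)).trans f1
    rcases lc with h | h
    · have a1 : B * (A + b) * L ^ 2 ≤ T * l ^ 2 := by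
        rw [← h]
        calc _ = B * (P ^ 2 * (A + b)) * l ^ 2 := by ring
          _ ≤ _ := by gcongr
      refine le_trans ?_ a1
      rcases Lc with h' | h'
      · rw [h', one_pow, mul_one]
        have a2 : A ^ 3 ≤ A := pow_le_of_le_one A0 (by linarith) three_ne_zero
        have := mul_le_mul_of_nonneg_right B2 S0.le
        linarith
      · calc w * dn = b * (g * L) ^ 2 := by rw [h', ← bw]; ring
          _ = B * b * L ^ 2 := by rw [hB]; ring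
          _ ≤ _ := by gcongr; linarith
    · refine le_of_mul_le_mul_left ?_ (pow_pos k0 2)
      have a1 : k ^ 2 * (T * l ^ 2) = T ^ 3 := by
        rw [show k ^ 2 * (T * l ^ 2) = T * (k * l) ^ 2 by ring, h]; ring
      have a3 : 2 * c ^ 2 ≤ B ^ 3 := by
        have := pow_le_pow_left₀ (by positivity) (hB ▸ cg : 2 * c ≤ B) 2
        have : B ^ 2 ≤ B ^ 3 := pow_le_pow_right₀ (by linarith) (by norm_num)
        linarith [sq_nonneg c]
      calc k ^ 2 * (w * dn) = c ^ 2 * P ^ 6 * (w * dn * q ^ 2) := by rw [hk]; ring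
        _ ≤ c ^ 2 * P ^ 6 * (2 * A ^ 3) := by gcongr
        _ = 2 * c ^ 2 * (P ^ 2 * A) ^ 3 := by ring
        _ ≤ B ^ 3 * (P ^ 2 * A) ^ 3 := by gcongr
        _ ≤ _ := by rw [a1, ← mul_pow]; gcongr

section cl

variable {S : Sc} {M : Md} {m : ℕ} {a E l0 X Xp Vt γ u1 j0 Lp : ℝ}

/-- regime -/
structure Rg (E : ℝ) (S : Sc) (M : Md) (m : ℕ) (a : ℝ) : Prop where
  F : Fn S M m a
  θ : S.C * S.θ ≤ 1 / 2
  lg : 1 ≤ log S.n
  v : 72 * S.C ^ 5 * (S.n * S.v) ≤ 1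
  E : (72 * S.C ^ 5) ^ 3 ≤ E

variable (G : Rg E S M m a) (H : Far E S M Xp Vt γ u1 Lp) (P : Ap S M m a l0 X Xp Vt u1 j0)
include G

theorem Rg.v' : 72 * S.C ^ 5 * S.v ≤ 1 := le_trans (by
  have := G.F.C0
  have := le_mul_of_one_le_left G.F.v0.le G.F.n1
  gcongr) G.v

theorem Rg.sJ : 1 ≤ 3 * S.C ^ 4 * M.s S.J := by
  have := G.F.C0
  have := mul_le_mul_of_nonneg_left (G.F.s_mem le_rfl).1 (show 0 ≤ 3 * S.C ^ 3 by positivity)
  linarith [G.F.J_lo]

theorem Rg.nw : 1 ≤ S.n * S.w3 1 := by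
  have h := G.F.toCl
  have := h.ms_pos zero_le_one
  have := h.N0
  rw [Sc.w3, mul_div_assoc', le_div_iff₀ (by positivity), one_mul, mul_one]
  exact mul_le_mul_of_nonneg_left ((G.F.ms_le_one 1).trans h.F1) h.N0.le

/-- the first node of the block -/
theorem Rg.k0 : ∃ k0, S.J / 2 ≤ k0 ∧ k0 ≤ S.J ∧ 3 / 4 * M.s S.J ≤ M.s k0 ∧
    1 ≤ 24 * S.C ^ 5 * (((S.J : ℝ) - k0) * S.v) := by
  have h := G.F.toCl
  have C1 := h.C1
  have C0 := h.C0
  have v0 := h.v0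
  obtain ⟨N, hN⟩ : ∃ N, N = ⌊(S.J : ℝ) / (4 * S.C ^ 2)⌋₊ := ⟨_, rfl⟩
  have a1 : (N : ℝ) * (4 * S.C ^ 2) ≤ S.J := by
    rw [← le_div_iff₀ (by positivity), hN]; exact Nat.floor_le (by positivity)
  have a2 : (S.J : ℝ) ≤ (N + 1) * (4 * S.C ^ 2) := by
    rw [← div_le_iff₀ (by positivity), hN]; exact (Nat.lt_floor_add_one _).le
  have a3 : 4 * N ≤ S.J := by
    have := mul_le_mul_of_nonneg_left (one_le_pow₀ (n := 2) C1) (Nat.cast_nonneg (α := ℝ) N)
    exact_mod_cast (by linarith : 4 * (N : ℝ) ≤ S.J)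
  have a4 := (h.s_tel (Nat.sub_le S.J N) le_rfl).2
  refine ⟨S.J - N, by omega, by omega, ?_, ?_⟩
  · rw [Nat.cast_sub (by omega), sub_sub_cancel] at a4
    have a5 : (N : ℝ) * (4 * S.C ^ 2) * S.v ≤ S.C * M.s S.J :=
      (mul_le_mul_of_nonneg_right a1 v0.le).trans (G.F.s_mem le_rfl).1
    have a6 : 4 * (N * (S.C * S.v)) ≤ M.s S.J := le_of_mul_le_mul_left (by linarith) C0
    linarith
  · rw [Nat.cast_sub (by omega), sub_sub_cancel]
    have := mul_le_mul_of_nonneg_right a2 (show 0 ≤ 3 * S.C ^ 3 * S.v by positivity)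
    have : 0 ≤ S.C ^ 5 * S.v := by positivity
    linarith [G.F.J_lo, G.v']

include H

theorem Rg.jl : M.s S.jl < M.s S.J / 2 := by
  have h := G.F.toCl
  have C1 := h.C1
  have a1 : S.C ^ 4 ≤ S.C ^ 5 := pow_le_pow_right₀ C1 (by norm_num)
  have a2 : 72 * S.C ^ 5 ≤ E :=
    (le_self_pow₀ (by linarith [one_le_pow₀ (n := 5) C1]) three_ne_zero).trans G.E
  have a3 := mul_le_mul_of_nonneg_right (show 72 * S.C ^ 4 ≤ E by linarith) (h.s_nn S.jl)
  have a4 : 0 < S.C ^ 4 := by positivity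
  refine lt_of_mul_lt_mul_left (a := 72 * S.C ^ 4) ?_ (by positivity)
  linarith [G.sJ, H.jl]

include P

/-- rise from the lower nodes -/
theorem Rg.rise {i k : ℕ} (i1 : 3 / 4 * M.s S.J ≤ M.s i) (ik : i < k) (k1 : S.J ≤ k)
    (k2 : k < S.Jp) (hu : u1 ≤ du M k) : M.rb m a k - M.rb m a i ≤
      5 * S.C * (Rp M S Xp Vt γ k + Xp ^ ((1 : ℝ) / 3)) + 6 * S.C * (((k : ℝ) - i) * S.v) := by
  have h := G.F.toCl
  have C1 := h.C1
  have C0 := h.C0
  have v0 := h.v0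
  have m0 : 0 < m := h.n1.trans G.F.m1
  have X0 := H.Xp0.1
  obtain ⟨x, hx⟩ : ∃ x, x = Xp ^ ((1 : ℝ) / 3) := ⟨_, rfl⟩
  have x0 : 0 < x := by rw [hx]; positivity
  have x3 : x ^ 3 = Xp := by
    rw [hx, ← rpow_natCast, ← rpow_mul X0.le]; norm_num
  have x1 : 72 * S.C ^ 5 * x ≤ 1 := by
    refine le_of_pow_le_pow_left₀ three_ne_zero zero_le_one ?_
    rw [mul_pow, x3, one_pow]
    exact (mul_le_mul_of_nonneg_right G.E X0.le).trans H.Xp0.2
  have γ0 := γ_nn h m0 G.θ P.top H.γ0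
  have d0 : 0 < du M k := (ds_pos h H.u0 k1 k2).trans_le (ds_le_du k)
  have a1 := del_up h m0 G.θ P.top H.γ0 k1 k2.le d0
  have a2 := P.vt k k1 k2.le hu
  have a3 : -M.del m a i ≤ γ + 5 * S.C * (x + S.v) :=
    del_r h m0 G.θ P.top H.γ0 i1 (by omega) (x3 ▸ by gcongr; linarith) (by linarith)
      (le_of_mul_le_mul_left (a := 3 * S.C ^ 4) (by linarith [G.sJ, G.v']) (by positivity)) (G.jl H)
  have a4 : min Vt √(Xp / du M k) + γ ≤ Rp M S Xp Vt γ k := by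
    unfold Rp; linarith [sqrt_nonneg (Xp / max (dl M S k - S.u0) (Xp ^ ((1 : ℝ) / 3)))]
  have a5 : 0 ≤ min Vt √(Xp / du M k) := le_min H.Vt0 (sqrt_nonneg _)
  have a6 : M.del m a k ≤ γ + 2 * min Vt √(Xp / du M k) := by
    rcases min_choice Vt √(Xp / du M k) with e | e <;> rw [e]
    · linarith [H.Vt0]
    · exact a1
  have d1 : S.v ≤ ((k : ℝ) - i) * S.v := le_mul_of_one_le_left v0.le (by
    have : (i : ℝ) + 1 ≤ k := by exact_mod_cast ik
    linarith)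
  have a7 : M.s k - M.s i ≤ γ + S.C * (((k : ℝ) - i) * S.v) := by
    have b1 := h.sm k2.le
    have b2 := H.γ0
    rcases le_total S.J i with e | e
    · have := h.sm e
      have : 0 ≤ S.C * (((k : ℝ) - i) * S.v) := mul_nonneg C0.le (by linarith)
      linarith
    · have b3 := (h.s_tel e le_rfl).2
      have : (S.J : ℝ) ≤ k := by exact_mod_cast k1
      have := mul_le_mul_of_nonneg_right (show (S.J : ℝ) - i ≤ k - i by linarith)
        (mul_pos C0 v0).le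
      linarith
  have a8 := (h.q_tel G.θ ik.le k2.le).2
  have a9 := mul_le_mul_of_nonneg_left d1 C0.le
  have := mul_le_mul_of_nonneg_right C1 (show 0 ≤ Rp M S Xp Vt γ k by linarith)
  unfold Md.del at a3 a6
  rw [← hx]
  linarith

omit H P in
/-- label weight against the density -/
theorem Rg.dz (P : Ap S M m a l0 X Xp Vt u1 j0) {y : ℕ} (y1 : S.jl < y) (y2 : y < S.Jp) :
    S.v ≤ S.C ^ 2 * M.dz m a y * S.den (M.z (max y S.J - 1)) := by
  have h := G.F.toCl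
  have C1 := h.C1
  have C0 := h.C0
  have z0 := G.F.lg.dz_nonneg y
  rcases le_or_gt S.J y with e | e
  · have a1 := (h.plat y e y2).1
    rw [← dz_up (m := m) (a := a) h.leg (by omega), div_le_iff₀ C0] at a1
    rw [max_eq_left e]
    have := h.den0 (M.z (y - 1))
    have : S.C ≤ S.C ^ 2 := le_self_pow₀ C1 two_ne_zero
    calc _ ≤ S.C * M.dz m a y * S.den (M.z (y - 1)) := by linarith
      _ ≤ _ := by gcongr
  · have a1 := T57.den_lo (m := m) (a := a) h y1 e zero_le_one h.v0.le le_rfl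
    rw [max_eq_right e.le]
    have := mul_le_mul_of_nonneg_left P.jn.dj1 (show 0 ≤ S.C * M.dz m a y by positivity)
    linarith

/-- **the frame of a plateau node** -/
theorem Rg.qf {k : ℕ} {L e κ0 l L0 κ : ℝ} (k1 : S.J ≤ k) (k2 : k < S.Jp)
    (hu : 3 * u1 ≤ 2 * du M k) (hL : Lp ≤ L)
    (h0 : κ0 = L * (1 + (Rp M S Xp Vt γ k + Xp ^ ((1 : ℝ) / 3)) / ls M S k))
    (he : ∀ i : ℕ, S.J / 2 ≤ i → i < S.Jp → |(i : ℝ) - k| * S.v ≤ ls M S k / (64 * S.C ^ 4) →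
      |M.rb m a i - M.rb m a k| ≤ e + κ0 * (|(i : ℝ) - k| * S.v))
    (lp : 0 < l) (lL : l ≤ L0) (L1 : L0 ≤ 1) (Lg : 128 * S.C ^ 4 * log S.n * L0 ≤ ls M S k)
    (T1 : κ * l ≤ 1) (eT : e ≤ κ * l) (κ1 : 320 * S.C ^ 5 * κ0 ≤ κ)
    (κ2 : L * (S.w3 1 * S.den (M.z (k - 1))) ≤ κ * ls M S k ^ 3) (t4 : S.w3 1 ≤ κ * l * l)
    (t5 : S.w3 1 ≤ (κ * l) ^ 2 * L0) (t3 : S.w3 1 * S.den (M.z (k - 1)) ≤ κ * l * l ^ 2) :
    ∃ k0 k', QF (4 * 10 ^ 7 * S.C ^ 17) (4 * 10 ^ 7 * S.C ^ 17) S M m a 1 k0 k'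
      (fun _ => M.rb m a k) (rr S.v l L0 k) (tt S.v l L0 κ k) (DD S.v L0 k) ∧
      Inn (4 * 10 ^ 7 * S.C ^ 17) S 1 k0 k' k := by
  obtain ⟨k', r1, r2, r3, r4⟩ := H.rev
  obtain ⟨k0, b1, b2, b3, b4⟩ := G.k0
  have h := G.F.toCl
  have C1 := h.C1
  have C0 := h.C0
  have v0 := h.v0
  have m0 : 0 < m := h.n1.trans G.F.m1
  have w0 := G.F.w3_pos one_pos
  have cp : ∀ i, i ≤ 17 → S.C ^ i ≤ S.C ^ 17 := fun i hi => pow_le_pow_right₀ C1 hi
  have c0 : 1 ≤ S.C ^ 17 := one_le_pow₀ C1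
  have c1 : S.C ≤ S.C ^ 5 := le_self_pow₀ C1 (by norm_num)
  have c4 : 1 ≤ S.C ^ 4 := one_le_pow₀ C1
  have c2 : S.C ^ 2 ≤ S.C ^ 4 := pow_le_pow_right₀ C1 (by norm_num)
  have c5 : S.C ^ 4 ≤ S.C ^ 5 := pow_le_pow_right₀ C1 (by norm_num)
  have l0 := ls_pos' h H.u0 k1 k2
  have d0 : 0 < du M k := (ds_pos h H.u0 k1 k2).trans_le (ds_le_du k)
  have hu1 : u1 ≤ du M k := by rcases le_total u1 0 with e | e <;> linarith
  have hue : 3 * S.ue ≤ 2 * du M k := by linarith [H.u1a]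
  have fine : ∀ y, S.J ≤ y → y ≤ k → 8 * S.C * S.v ≤ ls M S y := fun y y1 y2 => by
    have a1 := P.jn.fine y y1 (by omega) (hu1.trans (du_anti h H.u0 y2))
    refine le_of_mul_le_mul_left ?_ h.N0
    have := mul_le_mul_of_nonneg_right c1 (mul_pos h.N0 v0).le
    have : 0 ≤ S.C ^ 5 * (S.n * S.v) := by have := h.N0; positivity
    rw [ls_eq]
    linarith [G.v]
  have jk : S.jl < k0 := by
    by_contra hc
    linarith [h.sm (not_lt.1 hc), G.jl H, h.s_nn S.J]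
  have x0 : 0 ≤ Xp ^ ((1 : ℝ) / 3) := by have := H.Xp0.1; positivity
  have R0 : 0 ≤ Rp M S Xp Vt γ k := by
    have := γ_nn h m0 G.θ P.top H.γ0
    have := le_min H.Vt0 (sqrt_nonneg (Xp / du M k))
    unfold Rp; positivity
  have L1' : 1 ≤ L := H.Lp1.1.trans hL
  obtain ⟨u, hu'⟩ : ∃ u, u = (Rp M S Xp Vt γ k + Xp ^ ((1 : ℝ) / 3)) / ls M S k := ⟨_, rfl⟩
  have u0 : 0 ≤ u := by rw [hu']; positivity
  have ul : Rp M S Xp Vt γ k + Xp ^ ((1 : ℝ) / 3) = u * ls M S k := by rw [hu']; field_simp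
  rw [← hu'] at h0
  have q1 : 1 + u ≤ κ0 := h0 ▸ le_mul_of_one_le_left (by linarith) L1'
  have q2 : κ0 ≤ κ := le_trans (le_mul_of_one_le_left (by linarith) (by linarith)) κ1
  have l1 := lL.trans L1
  have wl : S.w3 1 ≤ l := t4.trans (mul_le_of_le_one_left lp.le T1)
  have s0 : 1 ≤ 4 * S.C ^ 4 * M.s k0 := by
    linarith [G.sJ, mul_le_mul_of_nonneg_left b3 (show 0 ≤ 4 * S.C ^ 4 by positivity)]
  have DD' : ls M S k / (64 * S.C ^ 4) ≤ ls M S k / (4 * S.C ^ 2) := by gcongr; linarith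
  have shy : ∀ y : ℕ, |(y : ℝ) - k| * S.v ≤ ls M S k / (64 * S.C ^ 4) →
      y < S.Jp ∧ Sh S M k (max y S.J) := fun y d => by
    have : Sh S M k (max y S.J) := by
      refine sh h H.u0 k1 k2 hue fine (le_max_right _ _) (le_trans ?_ (d.trans DD'))
      rcases le_total y S.J with e | e
      · have e1 : (y : ℝ) ≤ S.J := by exact_mod_cast e
        have e2 : (S.J : ℝ) ≤ k := by exact_mod_cast k1
        rw [max_eq_right e, abs_of_nonpos (by linarith), abs_of_nonpos (by linarith)]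
        gcongr
      · rw [max_eq_left e]
    exact ⟨(le_max_left _ _).trans_lt this.lt, this⟩
  have farl : ∀ y : ℕ, ls M S k / (64 * S.C ^ 4) < ((k : ℝ) - y) * S.v →
      y < k ∧ ls M S k ≤ 64 * S.C ^ 4 * (((k : ℝ) - y) * S.v) := fun y d => by
    have a1 : 0 < ((k : ℝ) - y) * S.v := lt_trans (by positivity) d
    have a2 : (y : ℝ) < k := sub_pos.1 ((mul_pos_iff_of_pos_right v0).1 a1)
    rw [div_lt_iff₀ (by positivity)] at d
    exact ⟨by exact_mod_cast a2, by linarith⟩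
  refine ⟨k0, k', frame (D := ls M S k / (64 * S.C ^ 4))
    ⟨one_pos, jk.le, by omega, by omega, r2, ?_, (h.leg.z1 _).trans (by linarith), by linarith,
      fun i b d => le_trans ?_ (r4 i b d)⟩
    (T57.crude_top m0 (by linarith) (by linarith)) m0 h (by linarith) lp lL L1 G.lg
    (by rw [le_div_iff₀ (by positivity)]; linarith) (by linarith)
    (G.nw.trans (mul_le_mul_of_nonneg_left wl h.N0.le)) t4 t5 (fun i b d => ?_) (fun y b d => ?_)
    (fun y b d => ?_) G.F.lg.dz_nonneg, ?_, ?_⟩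
  · exact s0.trans (mul_le_mul_of_nonneg_right (by linarith [cp 4 (by norm_num)]) (h.s_nn _))
  · have := h.ms_pos (h.s_nn i)
    have := h.ms1 (M.s i)
    have := h.F1
    have := h.θ0
    have := le_mul_of_one_le_left C0.le (show 1 ≤ 4 * 10 ^ 7 * S.C ^ 17 by linarith)
    gcongr
  · have z0 : 0 ≤ |(i : ℝ) - k| * S.v := by positivity
    rcases le_or_gt (((k : ℝ) - i) * S.v) (ls M S k / (64 * S.C ^ 4)) with f | f
    · have d' : |(i : ℝ) - k| * S.v ≤ ls M S k / (64 * S.C ^ 4) := by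
        rw [← abs_of_pos v0, ← abs_mul]
        exact abs_le.2 ⟨by linarith, d⟩
      have := mul_le_mul_of_nonneg_right q2 z0
      linarith [he i (by omega) (shy i d').1 d']
    · obtain ⟨f1, f2⟩ := farl i f
      have f3 : (i : ℝ) ≤ k := by exact_mod_cast f1.le
      have a1 := G.rise H P (b3.trans (h.sm b)) f1 k1 k2 hu1
      rw [abs_of_nonpos (sub_nonpos.2 (rb_mono m0 f1.le)), abs_of_nonpos (by linarith), neg_sub,
        neg_sub]
      rw [abs_of_nonpos (by linarith), neg_sub] at z0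
      rw [ul] at a1
      have a2 := mul_le_mul_of_nonneg_left f2 (show 0 ≤ 5 * S.C * u by positivity)
      have a3 := mul_le_mul_of_nonneg_right c1 z0
      have a4 := mul_le_mul_of_nonneg_right
        ((mul_le_mul_of_nonneg_left q1 (show 0 ≤ 320 * S.C ^ 5 by positivity)).trans κ1) z0
      have : 0 ≤ S.C ^ 5 * (((k : ℝ) - i) * S.v) := by positivity
      have : 0 < κ * l := mul_pos (by linarith) lp
      linarith
  · obtain ⟨y2, Y⟩ := shy y d
    have a1 := G.dz P (jk.trans b) y2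
    have z0 := G.F.lg.dz_nonneg y
    have a2 := Y.den2
    calc _ ≤ S.w3 1 * (S.C ^ 2 * M.dz m a y * (S.C * S.den (M.z (k - 1)))) := by
          refine mul_le_mul_of_nonneg_left (a1.trans ?_) w0.le
          gcongr
      _ = S.C ^ 3 * M.dz m a y * (S.w3 1 * S.den (M.z (k - 1))) := by ring
      _ ≤ _ := by
          have := h.den0 (M.z (k - 1))
          gcongr
          linarith [cp 3 (by norm_num)]
  · obtain ⟨f1, f2⟩ := farl y d
    obtain ⟨x, hx⟩ : ∃ x, x = ((k : ℝ) - y) * S.v := ⟨_, rfl⟩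
    rw [← hx] at f2 ⊢
    have x0' : 0 < x :=
      (mul_pos_iff_of_pos_left (show 0 < 64 * S.C ^ 4 by positivity)).1 (l0.trans_le f2)
    have a1 := G.dz P (jk.trans b) (f1.trans k2)
    have z0 := G.F.lg.dz_nonneg y
    have y2 : max y S.J ≤ k := max_le f1.le k1
    have a2 := H.far (max y S.J) k (le_max_right _ _) y2 k2.le hu1
    have a3 := ls_lo h H.u0 (le_max_right y S.J) y2 k2 hue
    have a4 : ((k : ℝ) - (max y S.J : ℕ)) * S.v ≤ x := by
      have : (y : ℝ) ≤ (max y S.J : ℕ) := by exact_mod_cast le_max_left _ _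
      rw [hx]; gcongr
    have a5 : max 1 (lsh M S (max y S.J) / lsh M S k) ≤ 132 * S.C ^ 5 * x / ls M S k := by
      have e1 := mul_le_mul_of_nonneg_right c5 x0'.le
      have e2 := mul_le_mul_of_nonneg_right (c2.trans c5) x0'.le
      have e3 := mul_le_mul_of_nonneg_left f2 C0.le
      have e4 := mul_le_mul_of_nonneg_left a4 (show 0 ≤ 4 * S.C ^ 2 by positivity)
      have : 0 ≤ S.C ^ 5 * x := by positivity
      refine max_le ((one_le_div l0).2 (by linarith)) ?_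
      rw [← ls_eq, ← ls_eq]
      gcongr
      linarith
    have a6 : Lp * ((lsh M S k + Xp ^ ((1 : ℝ) / 3)) * lsh M S k ^ 2 +
        S.w3 1 * S.den (M.z (k - 1))) ≤ 2 * κ * ls M S k ^ 3 := by
      have := h.den0 (M.z (k - 1))
      rw [← ls_eq]
      have e1 : (ls M S k + Xp ^ ((1 : ℝ) / 3)) * ls M S k ^ 2 ≤
          (1 + u) * ls M S k * ls M S k ^ 2 := by gcongr; linarith
      have e2 := mul_le_mul_of_nonneg_right (h0 ▸ q2) (pow_pos l0 3).le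
      refine (mul_le_mul hL (add_le_add e1 le_rfl) (by positivity) (by linarith)).trans ?_
      linarith
    have a7 : S.w3 1 * S.den (M.z (max y S.J - 1)) ≤
        2 * κ * ls M S k ^ 3 * (132 * S.C ^ 5 * x / ls M S k) ^ 3 := by
      have : 0 ≤ κ := by linarith
      refine a2.trans (mul_le_mul a6 (pow_le_pow_left₀ (by positivity) a5 3) (by positivity)
        (by positivity))
    have a8 : 2 * κ * ls M S k ^ 3 * (132 * S.C ^ 5 * x / ls M S k) ^ 3 =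
        36799488 * S.C ^ 15 * (κ * (x / 2) ^ 3) := by field_simp; ring
    have : 0 ≤ κ * (x / 2) ^ 3 := mul_nonneg (by linarith) (by positivity)
    calc _ ≤ S.w3 1 * (S.C ^ 2 * M.dz m a y * S.den (M.z (max y S.J - 1))) := by gcongr
      _ = S.C ^ 2 * M.dz m a y * (S.w3 1 * S.den (M.z (max y S.J - 1))) := by ring
      _ ≤ S.C ^ 2 * M.dz m a y * (36799488 * S.C ^ 15 * (κ * (x / 2) ^ 3)) := by
          rw [← a8]; gcongr
      _ = 36799488 * S.C ^ 17 * M.dz m a y * (κ * (x / 2) ^ 3) := by ring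
      _ ≤ _ := by gcongr; norm_num
  · have e : (S.J : ℝ) ≤ k := by exact_mod_cast k1
    rw [div_le_iff₀ (by positivity), mul_comm]
    refine b4.trans (mul_le_mul (by linarith [cp 5 (by norm_num)]) (by gcongr) ?_ (by positivity))
    have : (k0 : ℝ) ≤ S.J := by exact_mod_cast b2
    exact mul_nonneg (by linarith) v0.le
  · have e : (k : ℝ) ≤ S.Jp := by exact_mod_cast k2.le
    refine le_trans ?_ (r3.trans (mul_le_mul_of_nonneg_right (by linarith) v0.le))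
    exact one_div_le_one_div_of_le C0 (by linarith [cp 5 (by norm_num)])

end cl

/-- **`SzQ`** from the pair bound of the frame -/
theorem szQ_of (hQ : QFS) : SzQ5 := by
  intro C
  have hK : 1 ≤ 4 * 10 ^ 7 * max C 1 ^ 17 := by
    linarith [one_le_pow₀ (n := 17) (le_max_right C 1)]
  filter_upwards [hQ _ hK C, eventually_ge_atTop 2] with A Q hA ε hε η hη
  filter_upwards [Q 1 one_pos _ (half_pos hη), ev_fn C hA, ev_K ((72 * C ^ 5) ^ 3) hε,
    ev_rgc C hA (show 0 < η / 6 by positivity) (4 * 10 ^ 7 * C ^ 17 * (2 * (128 * C ^ 4) ^ 2)),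
    ev_K (72 * C ^ 6) one_pos]
    with n Q F e1 G e2 S M b1 b2 b3 h m a I l0 X Xp Vt γ u1 j Lp H P k L e k1 k2 hu hL e0 he
  replace F := F S M b1 b2 b3 h m a I
  replace Q := Q S M b1 b2 b3 h m a I
  replace G := G S b1 b2 b3
  subst b1 b3
  rw [max_eq_left h.C1] at Q
  have C1 := h.C1
  have C0 := h.C0
  have n0 := h.N0
  have lg := G.log1
  have m0 : 0 < m := h.n1.trans F.m1
  have w0 := F.w3_pos one_pos
  have R : Rg ((S.n : ℝ) ^ ε) S M m a := by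
    refine ⟨F, G.Cθ h, lg, le_of_mul_le_mul_left ?_ n0, e1⟩
    rw [rpow_one] at e2
    have a1 : S.v * (S.n : ℝ) ^ 2 ≤ S.C := (mul_le_mul_of_nonneg_left
      (pow_le_pow_right₀ F.n1 (b2 ▸ hA)) h.v0.le).trans h.v2
    have := mul_le_mul_of_nonneg_left a1 (show 0 ≤ 72 * S.C ^ 5 by positivity)
    linarith
  have L1 : 1 ≤ L := H.Lp1.1.trans hL
  obtain ⟨p, hp⟩ : ∃ p, p = L ^ ((1 : ℝ) / 3) := ⟨_, rfl⟩
  have p1 : 1 ≤ p := hp ▸ one_le_rpow L1 (by norm_num)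
  have p3 : p ^ 3 = L := by
    rw [hp, ← rpow_natCast, ← rpow_mul (by linarith)]; norm_num
  have p2 : L ^ ((2 : ℝ) / 3) = p ^ 2 := by
    rw [hp, ← rpow_natCast, ← rpow_mul (by linarith)]; norm_num
  have d0 := h.den0 (M.z (k - 1))
  have s0 := ds_pos h H.u0 k1 k2
  have s1 : ds M S k ≤ 1 := (ds_le_du k).trans (by unfold du; linarith [(F.z_pos (k - 1)).le])
  have r0 : 0 ≤ Rp M S Xp Vt γ k + Xp ^ ((1 : ℝ) / 3) := by
    have := γ_nn h m0 R.θ P.top H.γ0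
    have := le_min H.Vt0 (sqrt_nonneg (Xp / du M k))
    have := H.Xp0.1
    unfold Rp; positivity
  obtain ⟨A, hA'⟩ : ∃ A, A = (S.w3 1 * (S.den (M.z (k - 1)) + (Rp M S Xp Vt γ k +
    Xp ^ ((1 : ℝ) / 3)) ^ 2 / (ds M S k ^ 2 * S.den (M.z (k - 1))))) ^ ((1 : ℝ) / 3) := ⟨_, rfl⟩
  obtain ⟨s, hs⟩ : ∃ s, s = p ^ 2 * (A + S.w3 1 / (S.den (M.z (k - 1)) * ds M S k ^ 2)) +
    √(S.w3 1 / (S.den (M.z (k - 1)) * ds M S k)) + e := ⟨_, rfl⟩
  have A0 : 0 ≤ A := by rw [hA']; positivity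
  have es : e ≤ s := hs ▸ le_add_of_nonneg_left (by positivity)
  rw [p2, ap, add_sub_cancel_right, ← hA', lsh, ← hs]
  obtain ⟨g, hg⟩ : ∃ g, g = 128 * S.C ^ 4 * log S.n := ⟨_, rfl⟩
  have c4 : 1 ≤ S.C ^ 4 := one_le_pow₀ C1
  have g0 : 128 * S.C ^ 4 ≤ g := hg ▸ le_mul_of_one_le_right (by positivity) lg
  have g1 : 1 ≤ g := by linarith
  have K1 : 1 ≤ 4 * 10 ^ 7 * S.C ^ 17 := by linarith [one_le_pow₀ (n := 17) C1]
  have L0 := G.rp0 (η / 2)
  have Λ1 : 1 ≤ (S.n : ℝ) ^ (η / 2) := one_le_rpow F.n1 (by positivity)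
  have fin : (S.n : ℝ) ^ (η / 2) * (4 * 10 ^ 7 * S.C ^ 17) * (2 * (g ^ 2 * s)) ≤
      (S.n : ℝ) ^ η * s := by
    have e : (S.n : ℝ) ^ η = (S.n : ℝ) ^ (η / 2) *
        ((S.n : ℝ) ^ (η / 6) * ((S.n : ℝ) ^ (η / 6)) ^ 2) := by
      rw [← pow_succ', ← rpow_natCast, ← rpow_mul n0.le, ← rpow_add n0]; congr 1; push_cast; ring
    have := G.K_le
    have := G.log_le
    have := e0.trans es
    calc _ = (S.n : ℝ) ^ (η / 2) * (4 * 10 ^ 7 * S.C ^ 17 * (2 * (128 * S.C ^ 4) ^ 2) *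
          log S.n ^ 2) * s := by rw [hg]; ring
      _ ≤ _ := by rw [e]; gcongr
  have T0 : s ≤ g ^ 2 * s := le_mul_of_one_le_left (e0.trans es) (one_le_pow₀ g1)
  refine le_trans ?_ fin
  rcases le_total 1 (g ^ 2 * s) with T | T
  · exact ((E61.mj_u4 (M := M) (a := a) m0).u0 k).2.trans (le_trans (by linarith)
      (le_mul_of_one_le_left (by linarith) (one_le_mul_of_one_le_of_one_le Λ1 K1)))
  obtain ⟨l, L', κ, n1, n2, n3, n4, n5, n6, n7, n8, n9, n10⟩ := nums (c := 320 * S.C ^ 5) w0 d0 s0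
    s1 r0 p1 A0 (by rw [hA', ← rpow_natCast, ← rpow_mul (by positivity)]; norm_num) e0 g1
    (by linarith [one_le_pow₀ (n := 5) C1]) (by
      have := pow_le_pow_left₀ (by positivity) g0 2
      have : S.C ^ 5 ≤ S.C ^ 8 := pow_le_pow_right₀ C1 (by norm_num)
      have : 0 ≤ S.C ^ 5 := by positivity
      linarith) (congrArg _ hs) T
  rw [p3] at n6 n7
  rw [← n5] at n8 n9 n10 T T0 ⊢
  obtain ⟨k0, k', W, In⟩ := R.qf H P k1 k2 hu hL rfl he n1 n2 n3 (hg ▸ n4) T (es.trans T0) n6 n7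
    n8 n9 n10
  have u := Q _ _ _ _ _ _ _ W k In
  rw [tt_self] at u
  have : 0 ≤ κ * l := (e0.trans es).trans T0
  refine (E61.u4_le (M := M) (m := m) (a := a) (k := k) (by positivity) u).trans ?_
  exact mul_le_mul_of_nonneg_left (by linarith) (by positivity)

theorem QF.qw {K Λ₀ t : ℝ} {S : Sc} {M : Md} {m : ℕ} {a : ℝ} {k0 k1 : ℕ} {c ρ τ D : ℕ → ℝ}
    (W : QF K Λ₀ S M m a t k0 k1 c ρ τ D) : QW K Λ₀ S M m a t k0 k1 c ρ τ :=
  ⟨W.blk, W.crude, W.c0, W.clk, W.lip, W.rn, W.ge, W.loc, W.up, W.dn, W.t4, W.den⟩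

theorem qFS : QFS := by
  intro K hK C
  filter_upwards [T57.qGenW K 2 hK C] with A Q ε hε η hη
  filter_upwards [Q ε hε _ (half_pos hη), ev_K 2 (half_pos hη)]
    with n Q e2 S M b1 b2 b3 h m a I Λ₀ k0 k1 c ρ τ D W k In
  have v0 := h.v0
  have K0 : 0 < 1 / K := by positivity
  have a0 : k0 ≤ k := by
    have := (mul_pos_iff_of_pos_right v0).1 (K0.trans_le In.1)
    exact_mod_cast (sub_pos.1 this).le
  have a1 : k ≤ k1 := by
    have := (mul_pos_iff_of_pos_right v0).1 (K0.trans_le In.2)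
    exact_mod_cast (sub_pos.1 this).le
  have r0 : 0 < ρ k := (mul_pos_iff_of_pos_left h.N0).1 (one_pos.trans_le (W.rn k a0 a1))
  have D0 := r0.trans_le (W.rD k)
  have t0 := r0.trans_le (W.ge k a0 a1)
  have u := (Q S M b1 b2 b3 h m a I _ _ _ _ _ _ _ W.qw).pair k (D k) In (by linarith) D0
    fun i b _ d => W.fw k i b d
  have s : √(S.w3 1 / min (D k) 1) ≤ τ k :=
    sqrt_le_iff.2 ⟨t0.le, (div_le_iff₀ (lt_min D0 one_pos)).2 (W.w4 k)⟩
  have n0 : (0 : ℝ) < n := b3 ▸ h.N0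
  have L1 := W.crude.1
  refine u.trans (pow_le_pow_left₀ (by positivity) ?_ _)
  have e : (n : ℝ) ^ η = (n : ℝ) ^ (η / 2) * (n : ℝ) ^ (η / 2) := by
    rw [← rpow_add n0, add_halves]
  calc _ ≤ (n : ℝ) ^ (η / 2) * Λ₀ * (2 * τ k) := by gcongr; linarith
    _ = (n : ℝ) ^ (η / 2) * 2 * Λ₀ * τ k := by ring
    _ ≤ _ := by rw [e]; gcongr

/-- **pointwise size on the plateau** -/
theorem szQ5 : SzQ5 := szQ_of qFS

theorem szQ : SzQ := szQ_of5 szQ5

end Crest.Agent.T156.Alt.SzT98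

end
end

-- ▼ part T156/SzC_50
section

/-!
# Row 156 (helper50): greedy blocks, and the layer cake on a block by the rising sun count
-/

set_option autoImplicit false
set_option linter.unusedVariables false

noncomputable section

namespace Crest.Agent.T156.Alt.S50

open Real Finset Crest.Agent.T156.Sun9

/-- **greedy blocks** -/
theorem greedy {F G : ℕ → ℝ} {P : ℕ → Prop} [DecidablePred P] {J N : ℕ}
    (G0 : ∀ k, J ≤ k → 0 ≤ G k) (hP : ∀ i k, i ≤ k → P k → P i)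
    (h : ∀ k0, J ≤ k0 → k0 < N → P k0 → ∃ k1, k0 < k1 ∧ k1 ≤ N ∧
      ∑ k ∈ (Ico k0 k1).filter P, F k ≤ ∑ k ∈ Ico k0 k1, G k) :
    ∑ k ∈ (Ico J N).filter P, F k ≤ ∑ k ∈ Ico J N, G k := by
  suffices H : ∀ d k0, J ≤ k0 → N ≤ k0 + d →
      ∑ k ∈ (Ico k0 N).filter P, F k ≤ ∑ k ∈ Ico k0 N, G k from H N J le_rfl (by omega)
  intro d
  induction d with
  | zero => intro k0 _ h2; rw [Ico_eq_empty_of_le (by omega)]; simp
  | succ d ih =>
    intro k0 h1 h2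
    rcases le_or_gt N k0 with c | c
    · rw [Ico_eq_empty_of_le c]; simp
    by_cases hp : P k0
    · obtain ⟨k1, a1, a2, a3⟩ := h k0 h1 c hp
      have b := ih k1 (by omega) (by omega)
      rw [sum_filter] at a3 b ⊢
      rw [← sum_Ico_consecutive _ a1.le a2, ← sum_Ico_consecutive G a1.le a2]
      exact add_le_add a3 b
    · rw [filter_false_of_mem fun k hk hk' => hp (hP _ _ (mem_Ico.1 hk).1 hk'), sum_empty]
      exact sum_nonneg fun k hk => G0 k (h1.trans (mem_Ico.1 hk).1)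

theorem cone_of {f : ℕ → ℝ} {σ : ℝ} {a b k j : ℕ} (hf : Monotone f)
    (g : Good (fun i => (i : ℝ)) f σ a b k) (h1 : a ≤ j) (h2 : j ≤ b) :
    |f j - f k| ≤ σ * |(j : ℝ) - k| := by
  rcases le_total j k with c | c
  · have c' : (j : ℝ) ≤ k := by exact_mod_cast c
    rw [abs_sub_comm, abs_of_nonneg (sub_nonneg.2 (hf c)), abs_sub_comm,
      abs_of_nonneg (sub_nonneg.2 c')]
    exact g.2 j h1 c
  · have c' : (k : ℝ) ≤ j := by exact_mod_cast c
    rw [abs_of_nonneg (sub_nonneg.2 (hf c)), abs_of_nonneg (sub_nonneg.2 c')]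
    exact g.1 j c h2


/-- **one block** -/
theorem blk {f w u : ℕ → ℝ} {s : Finset ℕ} {a b : ℕ} {σ μ W α β ρ r : ℝ} (hf : Monotone f)
    (hab : a ≤ b) (hs : s ⊆ Icc a b) (hw : ∀ k ∈ s, 0 ≤ w k ∧ w k ≤ μ) (hW : ∑ k ∈ s, w k ≤ W)
    (σ0 : 0 < σ) (α0 : 0 < α) (β0 : 0 ≤ β) (ρ0 : 0 ≤ ρ) (μ0 : 0 ≤ μ) (hr : f b - f a ≤ r)
    (u0 : ∀ k ∈ s, 0 ≤ u k)
    (hu : ∀ k ∈ s, ∀ i : ℕ, (∀ j, a ≤ j → j ≤ b → |f j - f k| ≤ 8 ^ i * σ * |(j : ℝ) - k|) →
      u k ≤ 4 ^ i * α + β)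
    (hD : ∀ k ∈ s, u k ≤ α + β + ρ) (q : ℕ) :
    ∑ k ∈ s, w k * u k ^ (q + 2) ≤ 4 ^ (q + 2) * (W * (α ^ (q + 2) + β ^ (q + 2)) +
      32 * (μ * r / σ * (α * √α * (√ρ * ρ ^ q)))) := by
  classical
  have r0 : 0 ≤ r := (sub_nonneg.2 (hf hab)).trans hr
  have W0 : 0 ≤ W := (sum_nonneg fun k hk => (hw k hk).1).trans hW
  have K := Ck64.cakeR s (w := w) (u := fun k => max (u k - β) 0) (Y := 2 * (μ * r / σ))
    (good := fun i k => Good (fun i => (i : ℝ)) f (8 ^ i * σ) a b k) (fun k hk => (hw k hk).1)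
    (fun k _ => le_max_right _ _) α0 ρ0 (by positivity) hW
    (fun k hk i g => max_le (by linarith [hu k hk i fun j => cone_of hf g]) (by positivity))
    (fun k hk => max_le (by linarith [hD k hk]) (by positivity)) (fun i => by
      have c := card_bad (x := fun i => (i : ℝ)) (Λ := 8 ^ i * σ) (μ := 1) hf (by positivity) hab
        (fun i _ _ => by push_cast; linarith)
      have c1 := sum_le_card_nsmul (s.filter fun k =>
        ¬Good (fun i => (i : ℝ)) f (8 ^ i * σ) a b k) w μ fun k hk => (hw k (mem_filter.1 hk).1).2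
      have c2 : ((s.filter fun k => ¬Good (fun i => (i : ℝ)) f (8 ^ i * σ) a b k).card : ℝ) ≤
          ((Icc a b).filter fun k => ¬Good (fun i => (i : ℝ)) f (8 ^ i * σ) a b k).card := by
        exact_mod_cast card_le_card (filter_subset_filter _ hs)
      rw [nsmul_eq_mul] at c1
      refine le_trans (by convert c1) ((mul_le_mul_of_nonneg_right c2 μ0).trans ?_)
      rw [le_div_iff₀ (by positivity), ← mul_div_assoc, le_div_iff₀ σ0]
      have c3 := mul_le_mul_of_nonneg_left (c.trans (show _ ≤ 2 * r by linarith)) μ0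
      refine le_trans (le_of_eq ?_) (c3.trans (le_of_eq (by ring)))
      rw [mul_one]; ring) q
  have s1 : ∑ k ∈ s, w k * u k ^ (q + 2) ≤ ∑ k ∈ s, 2 ^ (q + 2) *
      (w k * max (u k - β) 0 ^ (q + 2) + w k * β ^ (q + 2)) := sum_le_sum fun k hk => by
    have e1 : u k ≤ max (u k - β) 0 + β := by linarith [le_max_left (u k - β) 0]
    have e2 := (pow_le_pow_left₀ (u0 k hk) e1 (q + 2)).trans
      (add_pow_le (le_max_right _ _) β0 (q + 2))
    have e3 : (2 : ℝ) ^ (q + 2 - 1) ≤ 2 ^ (q + 2) := pow_le_pow_right₀ one_le_two (by omega)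
    have e4 := e2.trans (mul_le_mul_of_nonneg_right e3 (by positivity))
    have := mul_le_mul_of_nonneg_left e4 (hw k hk).1
    linarith
  rw [← mul_sum, sum_add_distrib, ← sum_mul] at s1
  have s2 := mul_le_mul_of_nonneg_right hW (show 0 ≤ β ^ (q + 2) by positivity)
  have s3 : (1 : ℝ) ≤ 2 ^ (q + 2) := one_le_pow₀ one_le_two
  have s4 := mul_le_mul_of_nonneg_right s3 (show 0 ≤ W * β ^ (q + 2) by positivity)
  have e4 : (4 : ℝ) ^ (q + 2) = 2 ^ (q + 2) * 2 ^ (q + 2) := by rw [← mul_pow]; norm_num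
  rw [e4, mul_assoc]
  refine s1.trans (mul_le_mul_of_nonneg_left ?_ (by positivity))
  linarith

end Crest.Agent.T156.Alt.S50

end
end

-- ▼ part T156/SzR_50
section

/-!
# Row 156, block (L) (helper50): rise and slow variation on the shells of the plateau
-/

set_option autoImplicit false
set_option linter.unusedSectionVars false
set_option linter.unusedVariables false
set_option maxHeartbeats 400000

noncomputable section

namespace Crest.Agent.T156.Alt.S50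

open Real Finset
open Crest.Agent.T156.Alt.L69 Crest.Agent.T156.Alt.SzT98 Crest.Agent.T156.Alt.Md67

theorem rp3 {x : ℝ} (hx : 0 ≤ x) : (x ^ ((1 : ℝ) / 3)) ^ 3 = x := by
  rw [← rpow_natCast, ← rpow_mul hx]; norm_num

theorem sq_div {X a b : ℝ} (X0 : 0 ≤ X) (a0 : 0 < a) (h : a ≤ 4 * b) : √(X / b) ≤ 2 * √(X / a) := by
  have b0 : 0 < b := by linarith
  refine sqrt_le_iff.2 ⟨by positivity, ?_⟩
  rw [mul_pow, sq_sqrt (by positivity), ← mul_div_assoc, div_le_div_iff₀ b0 a0]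
  nlinarith [mul_le_mul_of_nonneg_left h X0]

/-- the part of the size that scales with the slope -/
def af (w d s R x : ℝ) : ℝ :=
  (w * (d + (R + x) ^ 2 / (s ^ 2 * d))) ^ ((1 : ℝ) / 3) + w / (d * s ^ 2)

theorem b_var {w d s d' s' C : ℝ} (w0 : 0 ≤ w) (d0 : 0 < d) (s0 : 0 < s')
    (h1 : d' ≤ C * d) (d1 : 0 < d') (h2 : 3 * s' ≤ 4 * s) : w / (d * s ^ 2) ≤ 2 * C * (w / (d' * s' ^ 2)) := by
  have s1 : 0 < s := by linarith
  have e : s' ^ 2 ≤ 2 * s ^ 2 := by nlinarith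
  rw [← mul_div_assoc, div_le_div_iff₀ (by positivity) (by positivity)]
  have := mul_le_mul_of_nonneg_left (mul_le_mul h1 e (by positivity) (d1.le.trans h1)) w0
  linarith

theorem af_var {w d s R x d' s' R' C : ℝ} (w0 : 0 ≤ w) (d0 : 0 < d) (s0 : 0 < s') (R0 : 0 ≤ R)
    (x0 : 0 ≤ x) (C1 : 1 ≤ C) (h0 : d ≤ C * d') (h1 : d' ≤ C * d) (h2 : 3 * s' ≤ 4 * s)
    (h3 : R ≤ 2 * R') : af w d s R x ≤ 2 * C * af w d' s' R' x := by
  have s1 : 0 < s := by linarith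
  have C0 : 0 < C := by linarith
  have d1 : 0 < d' := pos_of_mul_pos_right (d0.trans_le h0) C0.le |> fun h => h
  have R1 : 0 ≤ R' := by linarith
  have e1 := b_var (w := (R + x) ^ 2) (by positivity) d0 s0 h1 d1 h2
  have e2 : (R + x) ^ 2 / (d' * s' ^ 2) ≤ 4 * (R' + x) ^ 2 / (d' * s' ^ 2) := by
    gcongr; nlinarith
  have e3 : C ≤ C ^ 3 := le_self_pow₀ C1 (by norm_num)
  have e4 : d + (R + x) ^ 2 / (s ^ 2 * d) ≤ (2 * C) ^ 3 * (d' + (R' + x) ^ 2 / (s' ^ 2 * d')) := by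
    rw [mul_comm (s ^ 2), mul_comm (s' ^ 2)]
    rw [mul_div_assoc] at e2
    have p : 0 ≤ (R' + x) ^ 2 / (d' * s' ^ 2) := by positivity
    nlinarith [mul_le_mul_of_nonneg_right e3 p, mul_le_mul_of_nonneg_right e3 d1.le,
      mul_le_mul_of_nonneg_left e2 C0.le, mul_pos C0 d1]
  have e5 : (w * (d + (R + x) ^ 2 / (s ^ 2 * d))) ^ ((1 : ℝ) / 3) ≤
      2 * C * (w * (d' + (R' + x) ^ 2 / (s' ^ 2 * d'))) ^ ((1 : ℝ) / 3) := by
    refine le_of_pow_le_pow_left₀ three_ne_zero (by positivity) ?_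
    rw [mul_pow, rp3 (by positivity), rp3 (by positivity), mul_left_comm]
    exact mul_le_mul_of_nonneg_left e4 w0
  have := b_var w0 d0 s0 h1 d1 h2
  unfold af
  linarith

theorem af_pos {w d s R x : ℝ} (w0 : 0 < w) (d0 : 0 < d) (s0 : 0 < s) : 0 < af w d s R x := by
  unfold af; positivity

theorem num {w d s R x L α : ℝ} (q : ℕ) (w0 : 0 < w) (d0 : 0 < d) (s0 : 0 < s) (R0 : 0 ≤ R)
    (x0 : 0 ≤ x) (L1 : 1 ≤ L) (hα : α = L ^ ((2 : ℝ) / 3) * af w d s R x) :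
    R / (L * (d * s + R + x)) * (α * √α * (√R * R ^ q)) ≤ 3 * (α ^ (q + 2) +
      min (R ^ (q + 2) / L) (√(w / (d * s ^ 2)) * R ^ (((q + 2 : ℕ) : ℝ) - 1 / 2))) := by
  have L0 : 0 < L := by linarith
  obtain ⟨t, ht⟩ : ∃ t, t = L ^ ((1 : ℝ) / 3) := ⟨_, rfl⟩
  have t1 : 1 ≤ t := ht ▸ one_le_rpow L1 (by norm_num)
  have t3 : L = t ^ 3 := by rw [ht, rp3 L0.le]
  have t2 : L ^ ((2 : ℝ) / 3) = t ^ 2 := by
    rw [ht, ← rpow_natCast, ← rpow_mul L0.le]; norm_num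
  obtain ⟨r, r0, rfl⟩ : ∃ r, 0 ≤ r ∧ R = r ^ 2 := ⟨√R, sqrt_nonneg _, (sq_sqrt R0).symm⟩
  obtain ⟨y, y0, hy⟩ : ∃ y, 0 ≤ y ∧ af w d s (r ^ 2) x = y ^ 2 :=
    ⟨_, sqrt_nonneg _, (sq_sqrt (af_pos w0 d0 s0).le).symm⟩
  obtain ⟨D, hD⟩ : ∃ D, D = d * s + r ^ 2 + x := ⟨_, rfl⟩
  have p0 := mul_pos d0 s0
  have D0 : 0 < D := by rw [hD]; positivity
  have D1 : r ^ 2 ≤ D := by linarith
  have key : y ^ 3 ≤ 3 * √(w / (d * s ^ 2)) * D ∨ r ≤ y := by
    obtain ⟨B, hB⟩ : ∃ B, B = w / (d * s ^ 2) := ⟨_, rfl⟩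
    obtain ⟨A, hA⟩ : ∃ A, A = (w * (d + (r ^ 2 + x) ^ 2 / (s ^ 2 * d))) ^ ((1 : ℝ) / 3) := ⟨_, rfl⟩
    have B0 : 0 < B := by rw [hB]; positivity
    have A0 : 0 ≤ A := by rw [hA]; positivity
    have A3 : A ^ 3 ≤ B * D ^ 2 := by
      rw [hA, rp3 (by positivity), show w * (d + (r ^ 2 + x) ^ 2 / (s ^ 2 * d)) =
        B * ((d * s) ^ 2 + (r ^ 2 + x) ^ 2) by rw [hB]; field_simp]
      refine mul_le_mul_of_nonneg_left ?_ B0.le
      rw [hD]; nlinarith [mul_nonneg p0.le (show 0 ≤ r ^ 2 + x by positivity)]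
    rw [af, ← hA, ← hB] at hy
    rw [← hB]
    have fin : ∀ Z, 0 ≤ Z → y ^ 2 ≤ 2 * Z → Z ^ 3 ≤ B * D ^ 2 → y ^ 3 ≤ 3 * √B * D :=
      fun Z Z0 a b => by
        refine le_of_pow_le_pow_left₀ two_ne_zero (by positivity) ?_
        have := pow_le_pow_left₀ (sq_nonneg y) a 3
        rw [mul_pow, mul_pow, sq_sqrt B0.le]
        nlinarith [mul_nonneg B0.le (sq_nonneg D)]
    rcases le_total B A with c | c
    · exact .inl (fin A A0 (by linarith) A3)
    rcases le_total B (r ^ 2) with c' | c'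
    · refine .inl (fin B B0.le (by linarith) ?_)
      have := pow_le_pow_left₀ B0.le (c'.trans D1) 2
      nlinarith
    · exact .inr (le_of_pow_le_pow_left₀ two_ne_zero y0 (by linarith))
  have t0 : 0 < t := by linarith
  have e1 : α = (t * y) ^ 2 := by rw [hα, t2, hy]; ring
  have e2 : (r ^ 2) ^ (((q + 2 : ℕ) : ℝ) - 1 / 2) = r ^ (2 * q + 3) := by
    rw [← rpow_natCast r 2, ← rpow_mul r0, ← rpow_natCast]; congr 1; push_cast; ring
  have e3 : r ^ 2 / (L * D) * (α * √α * (√(r ^ 2) * (r ^ 2) ^ q)) = y ^ 3 * r ^ (2 * q + 3) / D := by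
    rw [e1, sqrt_sq (by positivity), sqrt_sq r0, t3]; field_simp; ring
  have e4 : α ^ (q + 2) = (t * y) ^ 3 * (t * y) ^ (2 * q + 1) := by rw [e1]; ring
  have e5 : y ^ 3 * r ^ (2 * q + 3) / D ≤ y ^ 3 * r ^ (2 * q + 1) := by
    rw [div_le_iff₀ D0]
    have := mul_le_mul_of_nonneg_left D1 (show 0 ≤ y ^ 3 * r ^ (2 * q + 1) by positivity)
    calc _ = y ^ 3 * r ^ (2 * q + 1) * r ^ 2 := by ring
      _ ≤ _ := this
  have yt : y ≤ t * y := le_mul_of_one_le_left y0 t1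
  have e6 : r ≤ t * y → y ^ 3 * r ^ (2 * q + 1) ≤ α ^ (q + 2) := fun c => by rw [e4]; gcongr
  rw [← hD, e2, e3]
  have a0 : 0 ≤ α ^ (q + 2) := by rw [e1]; positivity
  have m0 : 0 ≤ min ((r ^ 2) ^ (q + 2) / L) (√(w / (d * s ^ 2)) * r ^ (2 * q + 3)) :=
    le_min (by positivity) (by positivity)
  rcases le_total r (t * y) with c | c
  · linarith [e6 c]
  rcases key with k | k
  · rcases min_choice ((r ^ 2) ^ (q + 2) / L) (√(w / (d * s ^ 2)) * r ^ (2 * q + 3)) with e | e <;>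
      rw [e] at m0 ⊢
    · have : y ^ 3 * r ^ (2 * q + 1) ≤ (r ^ 2) ^ (q + 2) / L := by
        rw [le_div_iff₀ L0, t3]
        calc _ = (t * y) ^ 3 * r ^ (2 * q + 1) := by ring
          _ ≤ r ^ 3 * r ^ (2 * q + 1) := by gcongr
          _ = _ := by ring
      linarith
    · have : y ^ 3 * r ^ (2 * q + 3) / D ≤ 3 * (√(w / (d * s ^ 2)) * r ^ (2 * q + 3)) := by
        rw [div_le_iff₀ D0]
        have := mul_le_mul_of_nonneg_right k (show 0 ≤ r ^ (2 * q + 3) by positivity)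
        linarith
      linarith
  · linarith [e6 (k.trans yt)]

/-- the context at a fixed size, `x = Xp ^ (1/3)` -/
structure DC (S : Sc) (M : Md) (m : ℕ) (a Xp Vt γ u1 : ℝ) : Prop where
  h : Cl S M
  hm : 0 < m
  hθ : S.C * S.θ ≤ 1 / 2
  w0 : 0 < S.w3 1
  u0 : 0 < S.u0
  X0 : 0 < Xp
  V0 : 0 ≤ Vt
  ue : S.ue ≤ u1
  γ0 : M.s S.Jp - M.s S.J ≤ γ
  top : M.En S m a M.q 2 (M.s S.J / 2) S.C ≤ Xp
  vt : ∀ k, S.J ≤ k → k ≤ S.Jp → u1 ≤ du M k → M.del m a k ≤ Vt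
  dj : S.den (M.z (S.J - 1)) ≤ S.C
  u03 : S.u0 ≤ Xp ^ ((1 : ℝ) / 3)
  fine : ∀ k, S.J ≤ k → k ≤ S.Jp → u1 ≤ du M k → 32 * S.C ^ 2 * S.v ≤ ls M S k
  xs : 12 * S.C * Xp ^ ((1 : ℝ) / 3) ≤ M.s S.J
  jl : M.s S.jl < M.s S.J / 2

/-- density of `Np` -/
def Gp (M : Md) (S : Sc) (Xp Vt γ Lp : ℝ) (p k : ℕ) : ℝ :=
  (Lp ^ ((2 : ℝ) / 3) * ap M S Xp Vt γ k) ^ p + min (Rp M S Xp Vt γ k ^ p / Lp)
    (√(S.w3 1 / (S.den (M.z (k - 1)) * ds M S k ^ 2)) * Rp M S Xp Vt γ k ^ ((p : ℝ) - 1 / 2))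

/-- the scaling part of `ap` -/
def a0 (M : Md) (S : Sc) (Xp Vt γ : ℝ) (k : ℕ) : ℝ :=
  af (S.w3 1) (S.den (M.z (k - 1))) (ds M S k) (Rp M S Xp Vt γ k) (Xp ^ ((1 : ℝ) / 3))

variable {S : Sc} {M : Md} {m : ℕ} {a Xp Vt γ u1 Lp Λ : ℝ}

theorem ap_eq (k : ℕ) : ap M S Xp Vt γ k = a0 M S Xp Vt γ k + √(S.w3 1 / ls M S k) := rfl

namespace DC

variable (D : DC S M m a Xp Vt γ u1)
include D

theorem u1_nn : 0 ≤ u1 := by linarith [D.h.last, D.h.leg.z1 (S.Jp - 1), D.ue]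

theorem γn : 0 ≤ γ := by linarith [D.h.sm D.h.i3, D.γ0]

theorem x0 : 0 < Xp ^ ((1 : ℝ) / 3) := rpow_pos_of_pos D.X0 _

theorem R0 (k : ℕ) : 0 ≤ Rp M S Xp Vt γ k :=
  add_nonneg (add_nonneg (sqrt_nonneg _) (le_min D.V0 (sqrt_nonneg _))) D.γn

theorem G0 (L0 : 0 ≤ Lp) (p k : ℕ) : 0 ≤ Gp M S Xp Vt γ Lp p k := by
  have := D.R0 k
  have := D.w0
  have := D.h.den0 (M.z (k - 1))
  refine add_nonneg (pow_nonneg (mul_nonneg (by positivity) ?_) _)
    (le_min (by positivity) (by positivity))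
  unfold ap; positivity

theorem sh {k i : ℕ} (k1 : S.J ≤ k) (k2 : k < S.Jp) (k3 : 2 * u1 ≤ du M k) (i1 : S.J ≤ i)
    (hd : |(i : ℝ) - k| * S.v ≤ ls M S k / (8 * S.C ^ 2)) : Sh S M k i := by
  have C1 := D.h.C1
  have v0 := D.h.v0
  have u := D.u1_nn
  have p := ls_pos' D.h D.u0 k1 k2
  refine SzT98.sh D.h D.u0 k1 k2 (by linarith [D.ue]) (fun y a b => le_trans ?_
    (D.fine y a (by omega) (by linarith [du_anti D.h D.u0 b]))) i1 (hd.trans ?_)
  · nlinarith [mul_pos (show 0 < S.C by linarith) v0]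
  · gcongr; norm_num

theorem R_var {k i : ℕ} (k1 : S.J ≤ k) (k2 : k < S.Jp) (hi : k ≤ i) (s : Sh S M k i) :
    Rp M S Xp Vt γ i ≤ 2 * Rp M S Xp Vt γ k ∧ Rp M S Xp Vt γ k ≤ 2 * Rp M S Xp Vt γ i := by
  have x0 := D.x0
  have X0 := D.X0.le
  have V0 := D.V0
  have γn := D.γn
  have m1 : M.z (k - 1) ≤ M.z (i - 1) := D.h.leg.zm (by omega)
  have z := (abs_le.1 s.z).2
  have c1 := ds_le_dl (M := M) (S := S) k
  have d1 := (ds_pos D.h D.u0 k1 k2).trans_le (ds_le_du k)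
  have d2 := s.du1
  have d3 := du_anti D.h D.u0 hi
  have u03 := D.u03
  have a1 := le_max_left (dl M S k - S.u0) (Xp ^ ((1 : ℝ) / 3))
  have a2 := le_max_right (dl M S k - S.u0) (Xp ^ ((1 : ℝ) / 3))
  have a3 := le_max_left (dl M S i - S.u0) (Xp ^ ((1 : ℝ) / 3))
  have a4 := le_max_right (dl M S i - S.u0) (Xp ^ ((1 : ℝ) / 3))
  have e : dl M S i = dl M S k + (M.z (i - 1) - M.z (k - 1)) := by unfold dl; ring
  have b1 := sq_div X0 (x0.trans_le a2) (b := max (dl M S i - S.u0) (Xp ^ ((1 : ℝ) / 3)))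
    (max_le (by linarith) (by linarith))
  have b2 := sq_div X0 (x0.trans_le a4) (b := max (dl M S k - S.u0) (Xp ^ ((1 : ℝ) / 3)))
    (max_le (by linarith) (by linarith))
  have mn : ∀ y y' : ℝ, 0 ≤ y' → y ≤ 2 * y' → min Vt y ≤ 2 * min Vt y' := fun y y' h0 h => by
    rcases min_choice Vt y' with e | e <;> rw [e]
    · linarith [min_le_left Vt y]
    · linarith [min_le_right Vt y]
  have b3 := mn _ _ (sqrt_nonneg _) (sq_div X0 d1 (b := du M i) (by linarith))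
  have b4 := mn _ _ (sqrt_nonneg _) (sq_div X0 (a := du M i) (b := du M k) (by linarith)
    (by linarith))
  unfold Rp
  constructor <;> linarith

theorem rise {k i i' : ℕ} (k1 : S.J ≤ k) (k2 : k < S.Jp) (k3 : 2 * u1 ≤ du M k) (h1 : i ≤ k)
    (h2 : k ≤ i') (d1 : ((k : ℝ) - i) * S.v ≤ ls M S k / (8 * S.C ^ 2))
    (d2 : ((i' : ℝ) - k) * S.v ≤ ls M S k / (8 * S.C ^ 2)) :
    M.rb m a i' - M.rb m a i ≤ 11 * S.C * Rp M S Xp Vt γ k := by
  have h := D.h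
  have C1 := h.C1
  have C0 := h.C0
  have v0 := h.v0
  have u := D.u1_nn
  have x0 := D.x0
  have X0 := D.X0.le
  have γn := D.γn
  have u0 := D.u0
  have u03 := D.u03
  have r1 : (i : ℝ) ≤ k := by exact_mod_cast h1
  have r2 : (k : ℝ) ≤ i' := by exact_mod_cast h2
  have s' := D.sh k1 k2 k3 (k1.trans h2) (by rwa [abs_of_nonneg (sub_nonneg.2 r2)])
  have lo : ∀ y, S.J ≤ y → i ≤ y → y ≤ k → Sh S M k y := fun y b1 b2 b3 => by
    have b2' : (i : ℝ) ≤ y := by exact_mod_cast b2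
    have b3' : (y : ℝ) ≤ k := by exact_mod_cast b3
    refine D.sh k1 k2 k3 b1 (le_trans ?_ d1)
    rw [abs_of_nonpos (sub_nonpos.2 b3')]
    gcongr; linarith
  have p1 := (ds_pos h u0 k1 k2).trans_le (ds_le_du k)
  have p2 := s'.du1
  have up : M.del m a i' ≤ γ + 4 * min Vt √(Xp / du M k) := by
    rcases min_choice Vt √(Xp / du M k) with e | e <;> rw [e]
    · linarith [D.vt i' (k1.trans h2) s'.lt.le (by linarith), D.V0]
    · linarith [del_up h D.hm D.hθ D.top D.γ0 (k1.trans h2) s'.lt.le (by linarith),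
        sq_div X0 p1 (b := du M i') (by linarith)]
  have dn : M.q i' - M.q i - M.del m a i ≤
      2 * γ + 11 * S.C * √(Xp / max (dl M S k - S.u0) (Xp ^ ((1 : ℝ) / 3))) := by
    generalize hx : Xp ^ ((1 : ℝ) / 3) = x at *
    have x3 : x ^ 3 = Xp := by rw [← hx, rp3 X0]
    rcases le_or_gt (dl M S k - S.u0) (4 * x) with c | c
    · have t1 : x / 2 ≤ √(Xp / max (dl M S k - S.u0) x) := le_sqrt_of_sq_le (by
        rw [le_div_iff₀ (lt_max_of_lt_right x0), ← x3]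
        nlinarith [mul_le_mul_of_nonneg_left (max_le c (by linarith) : max _ x ≤ 4 * x)
          (sq_nonneg x)])
      have lJ : ls M S S.J ≤ S.C * x := by
        have : ds M S S.J ≤ x := (ds_le_dl _).trans (by unfold dl; linarith)
        exact mul_le_mul D.dj this (ds_pos h u0 le_rfl (by omega)).le C0.le
      have vx : S.v ≤ x := by
        have := (D.fine S.J le_rfl h.i3 (by linarith [du_anti h u0 k1])).trans lJ
        refine le_of_mul_le_mul_left (a := S.C) ?_ C0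
        nlinarith [mul_pos C0 v0]
      have t2 : M.s S.J - M.s i ≤ S.C * x / 4 := by
        rcases le_total S.J i with e | e
        · linarith [h.sm e, mul_pos C0 x0]
        · have b1 := (lo S.J le_rfl e k1).ls1
          have b2 := (h.s_tel e le_rfl).2
          have b3 : (S.J : ℝ) ≤ k := by exact_mod_cast k1
          have b4 : ((S.J : ℝ) - i) * S.v ≤ x / 4 := by
            refine le_trans (by gcongr) (d1.trans ?_)
            rw [div_le_div_iff₀ (by positivity) (by norm_num)]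
            nlinarith [mul_le_mul_of_nonneg_left lJ C0.le]
          nlinarith [mul_le_mul_of_nonneg_left b4 C0.le]
      have xs := D.xs
      rw [hx] at xs
      have t3 := del_r h D.hm D.hθ D.top D.γ0 (k := i) (r := x) (by linarith [mul_pos C0 x0])
        (by omega) x3.ge vx xs D.jl
      have t4 := (h.q_tel D.hθ (h1.trans h2) s'.lt.le).2
      have t5 := h.sm s'.lt.le
      have t6 := mul_le_mul_of_nonneg_left t1 C0.le
      linarith [D.γ0, mul_pos C0 x0]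
    · have c1 := ds_le_dl (M := M) (S := S) k
      have iJ : S.J ≤ i := by
        by_contra hc
        have := (abs_le.1 (lo S.J le_rfl (by omega) k1).z).1
        unfold dl at *
        linarith
      have t1 := (lo i iJ le_rfl h1).dl1
      have t2 := del_lo h D.hm D.hθ D.top D.γ0 iJ (by omega) (by linarith)
      have t3 := sq_div X0 (a := dl M S k - S.u0) (b := dl M S i - S.u0) (by linarith) (by linarith)
      have t4 := q_pl h D.hm D.hθ D.top D.γ0 iJ (h1.trans h2) s'.lt.le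
      rw [max_eq_left (by linarith)]
      nlinarith [sqrt_nonneg (Xp / (dl M S k - S.u0))]
  have m0 : 0 ≤ min Vt √(Xp / du M k) := le_min D.V0 (sqrt_nonneg _)
  unfold Rp
  unfold Md.del at up dn
  nlinarith [mul_le_mul_of_nonneg_right C1 m0, mul_le_mul_of_nonneg_right C1 γn]

theorem a_var {k i : ℕ} (k1 : S.J ≤ k) (k2 : k < S.Jp) (hi : k ≤ i) (s : Sh S M k i) :
    (a0 M S Xp Vt γ i ≤ 2 * S.C * a0 M S Xp Vt γ k ∧ a0 M S Xp Vt γ k ≤ 2 * S.C * a0 M S Xp Vt γ i) ∧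
    √(S.w3 1 / ls M S i) ≤ 2 * S.C * √(S.w3 1 / ls M S k) ∧
    √(S.w3 1 / ls M S k) ≤ 2 * S.C * √(S.w3 1 / ls M S i) := by
  have C1 := D.h.C1
  have p := ds_pos D.h D.u0 k1 k2
  have p' := ds_pos D.h D.u0 (k1.trans hi) s.lt
  have w0 := D.w0
  obtain ⟨r1, r2⟩ := D.R_var k1 k2 hi s
  have key : ∀ l l' : ℝ, 0 < l → 0 < l' → l' ≤ 2 * S.C * l →
      √(S.w3 1 / l) ≤ 2 * S.C * √(S.w3 1 / l') := fun l l' l0 l1 e => by
    refine sqrt_le_iff.2 ⟨by positivity, ?_⟩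
    rw [mul_pow, sq_sqrt (by positivity), ← mul_div_assoc, div_le_div_iff₀ l0 l1]
    have e2 : l' ≤ (2 * S.C) ^ 2 * l := e.trans (by gcongr; nlinarith)
    nlinarith [mul_le_mul_of_nonneg_left e2 w0.le]
  have l1 := ls_pos' D.h D.u0 k1 k2
  have l2 := ls_pos' D.h D.u0 (k1.trans hi) s.lt
  exact ⟨⟨af_var w0.le (D.h.den0 _) p (D.R0 i) D.x0.le C1 s.den2 s.den1 s.ds1 r1,
    af_var w0.le (D.h.den0 _) p' (D.R0 k) D.x0.le C1 s.den1 s.den2 (by linarith [s.ds2]) r2⟩,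
    key _ _ l2 l1 s.ls1, key _ _ l1 l2 s.ls2⟩

theorem G_var (L0 : 0 < Lp) {k i p : ℕ} (p4 : p ≤ 4) (k1 : S.J ≤ k) (k2 : k < S.Jp) (hi : k ≤ i)
    (p1 : 1 ≤ p) (s : Sh S M k i) :
    Gp M S Xp Vt γ Lp p k ≤ 32 * S.C ^ 4 * Gp M S Xp Vt γ Lp p i := by
  have C1 := D.h.C1
  have w0 := D.w0
  have p' := ds_pos D.h D.u0 (k1.trans hi) s.lt
  have p0 := ds_pos D.h D.u0 k1 k2
  have d0 := D.h.den0 (M.z (k - 1))
  have d1 := D.h.den0 (M.z (i - 1))
  obtain ⟨⟨-, a1⟩, -, a2⟩ := D.a_var k1 k2 hi s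
  have r2 := (D.R_var k1 k2 hi s).2
  have Rk := D.R0 k
  have Ri := D.R0 i
  have C4 : S.C ≤ S.C ^ 4 := le_self_pow₀ C1 (by norm_num)
  have b0 : ∀ y, 0 < ds M S y → 0 ≤ Lp ^ ((2 : ℝ) / 3) * ap M S Xp Vt γ y := fun y hy =>
    mul_nonneg (by positivity) (add_nonneg (af_pos w0 (D.h.den0 _) hy).le (sqrt_nonneg _))
  have b1 : (Lp ^ ((2 : ℝ) / 3) * ap M S Xp Vt γ k) ^ p ≤
      32 * S.C ^ 4 * (Lp ^ ((2 : ℝ) / 3) * ap M S Xp Vt γ i) ^ p := by
    have e : Lp ^ ((2 : ℝ) / 3) * ap M S Xp Vt γ k ≤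
        2 * S.C * (Lp ^ ((2 : ℝ) / 3) * ap M S Xp Vt γ i) := by
      rw [mul_left_comm, ap_eq, ap_eq]
      exact mul_le_mul_of_nonneg_left (by linarith) (by positivity)
    refine (pow_le_pow_left₀ (b0 k p0) e p).trans ?_
    rw [mul_pow]
    refine mul_le_mul_of_nonneg_right ((pow_le_pow_right₀ (by linarith) p4).trans ?_)
      (pow_nonneg (b0 i p') _)
    nlinarith [pow_pos (show 0 < S.C by linarith) 4]
  have t16 : (2 : ℝ) ^ p ≤ 16 := (pow_le_pow_right₀ one_le_two p4).trans (by norm_num)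
  have b2 : Rp M S Xp Vt γ k ^ p / Lp ≤ 32 * S.C ^ 4 * (Rp M S Xp Vt γ i ^ p / Lp) := by
    rw [← mul_div_assoc]
    refine div_le_div_of_nonneg_right ((pow_le_pow_left₀ Rk r2 p).trans ?_) L0.le
    rw [mul_pow]
    exact mul_le_mul_of_nonneg_right (by linarith) (by positivity)
  have pp : (0 : ℝ) ≤ (p : ℝ) - 1 / 2 := by
    have : (1 : ℝ) ≤ p := by exact_mod_cast p1
    linarith
  have b3 : Rp M S Xp Vt γ k ^ ((p : ℝ) - 1 / 2) ≤ 16 * Rp M S Xp Vt γ i ^ ((p : ℝ) - 1 / 2) := by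
    refine (rpow_le_rpow Rk r2 pp).trans ?_
    rw [mul_rpow zero_le_two Ri]
    refine mul_le_mul_of_nonneg_right (le_trans ?_ t16) (by positivity)
    rw [← rpow_natCast]
    exact rpow_le_rpow_of_exponent_le one_le_two (by linarith)
  have b4 : √(S.w3 1 / (S.den (M.z (k - 1)) * ds M S k ^ 2)) ≤
      2 * S.C ^ 4 * √(S.w3 1 / (S.den (M.z (i - 1)) * ds M S i ^ 2)) := by
    refine sqrt_le_iff.2 ⟨by positivity, ?_⟩
    rw [mul_pow, sq_sqrt (by positivity)]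
    refine (b_var w0.le d0 p' s.den2 d1 (by linarith [s.ds2])).trans
      (mul_le_mul_of_nonneg_right (by nlinarith) (by positivity))
  have b5 := mul_le_mul b4 b3 (by positivity) (by positivity)
  unfold Gp
  rw [mul_add, mul_min_of_nonneg _ _ (by positivity)]
  exact add_le_add b1 (min_le_min b2 (by linarith))

end DC

end Crest.Agent.T156.Alt.S50

end
end

-- ▼ part T156/SzS_50

/-!
# Row 156, block (L) (helper50): the plateau sums from the pointwise size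
-/

set_option autoImplicit false
set_option linter.unusedSectionVars false
set_option linter.unusedVariables false
set_option maxHeartbeats 400000

noncomputable section

namespace Crest.Agent.T156.Alt.S50

open Real Finset
open Crest.Agent.T156.Alt.L69 Crest.Agent.T156.Alt.SzT98 Crest.Agent.T156.Alt.Md67

variable {S : Sc} {M : Md} {m : ℕ} {a Xp Vt γ u1 Lp Λ : ℝ}

/-- the pointwise size, for any `u` -/
def PQ (Λ : ℝ) (S : Sc) (M : Md) (m : ℕ) (a Xp Vt γ u1 Lp : ℝ) (u : ℕ → ℝ) : Prop :=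
  ∀ k L e, S.J ≤ k → k < S.Jp → 2 * u1 ≤ du M k → Lp ≤ L → 0 ≤ e →
    (∀ i : ℕ, S.J / 2 ≤ i → i < S.Jp → |(i : ℝ) - k| * S.v ≤ ls M S k / (64 * S.C ^ 4) →
      |M.rb m a i - M.rb m a k| ≤
        e + L * (1 + (Rp M S Xp Vt γ k + Xp ^ ((1 : ℝ) / 3)) / ls M S k) * (|(i : ℝ) - k| * S.v)) →
    u k ≤ Λ * (L ^ ((2 : ℝ) / 3) * a0 M S Xp Vt γ k + √(S.w3 1 / ls M S k) + e)

theorem tail (h : Cl S M) {i : ℕ} (i1 : 1 ≤ i) (N : ℕ) : ∑ k ∈ Ico i N, dx M k ≤ du M i := by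
  rcases le_total N i with c | c
  · rw [Ico_eq_empty_of_le c, sum_empty]; exact sub_nonneg.2 (h.leg.z1 _)
  have : ∑ k ∈ Ico i N, dx M k = M.z (N - 1) - M.z (i - 1) := by
    induction N, c using Nat.le_induction with
    | base => simp
    | succ N c ih => rw [sum_Ico_succ_top c, ih, dx, Nat.add_sub_cancel]; ring
  rw [this]; exact sub_le_sub_right (h.leg.z1 _) _

theorem dx_nn (h : Cl S M) (k : ℕ) : 0 ≤ dx M k := sub_nonneg.2 (h.leg.zm (Nat.sub_le _ _))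

namespace DC

variable (D : DC S M m a Xp Vt γ u1)
include D

/-- the size on the block of `k0`, from a cone on the window of the block -/
theorem pt {u : ℕ → ℝ} (Λ0 : 0 < Λ) (L1 : 1 ≤ Lp) (P : PQ Λ S M m a Xp Vt γ u1 Lp u) {k0 n k : ℕ}
    (k1 : S.J ≤ k0) (k2 : k0 < S.Jp) (k3 : 2 * u1 ≤ du M k0)
    (n1 : n * S.v ≤ ls M S k0 / (16 * S.C ^ 2)) (n2 : ls M S k0 / (32 * S.C ^ 2) ≤ n * S.v)
    (h1 : k0 ≤ k) (h2 : k ≤ k0 + n) (h3 : 2 * u1 ≤ du M k) {L e : ℝ} (hL : Lp ≤ L) (e0 : 0 ≤ e)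
    (hc : ∀ j, k0 - n ≤ j → j ≤ k0 + 2 * n → |M.rb m a j - M.rb m a k| ≤ e +
      L * (ls M S k0 + Rp M S Xp Vt γ k0 + Xp ^ ((1 : ℝ) / 3)) * S.v / (4 * S.C ^ 2 * ls M S k0) *
        |(j : ℝ) - k|) : u k ≤ Λ * (2 * S.C * (L ^ ((2 : ℝ) / 3) * a0 M S Xp Vt γ k0 +
      √(S.w3 1 / ls M S k0)) + e) := by
  have C1 := D.h.C1
  have C0 := D.h.C0
  have v0 := D.h.v0
  have l0 := ls_pos' D.h D.u0 k1 k2
  have L0 : 0 < L := by linarith
  have r1 : (k0 : ℝ) ≤ k := by exact_mod_cast h1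
  have r2 : (k : ℝ) ≤ k0 + n := by exact_mod_cast h2
  have s := D.sh k1 k2 k3 (k1.trans h1) (by
    rw [abs_of_nonneg (sub_nonneg.2 r1)]
    refine le_trans (by gcongr; linarith) (n1.trans ?_)
    gcongr; norm_num)
  have l1 := ls_pos' D.h D.u0 (k1.trans h1) s.lt
  obtain ⟨⟨a1, -⟩, a2, -⟩ := D.a_var k1 k2 h1 s
  have a3 := (D.R_var k1 k2 h1 s).2
  have x0 := D.x0
  have Rk := D.R0 k
  have R0 := D.R0 k0
  refine (P k L e (k1.trans h1) s.lt h3 hL e0 fun i _ _ hi => ?_).trans ?_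
  · have b1 : |(i : ℝ) - k| ≤ n := by
      refine le_of_mul_le_mul_right (hi.trans (le_trans ?_ n2)) v0
      rw [div_le_div_iff₀ (by positivity) (by positivity)]
      have e1 : S.C ^ 3 ≤ S.C ^ 4 := pow_le_pow_right₀ C1 (by norm_num)
      nlinarith [mul_le_mul_of_nonneg_left s.ls2 (sq_nonneg S.C),
        mul_le_mul_of_nonneg_right e1 l0.le]
    obtain ⟨b2, b3⟩ := abs_le.1 b1
    have b4 : k ≤ i + n := by exact_mod_cast (show (k : ℝ) ≤ i + n by linarith)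
    have b5 : i ≤ k + n := by exact_mod_cast (show (i : ℝ) ≤ k + n by linarith)
    refine (hc i (by omega) (by omega)).trans (add_le_add le_rfl ?_)
    have b6 : (ls M S k0 + Rp M S Xp Vt γ k0 + Xp ^ ((1 : ℝ) / 3)) / (4 * S.C ^ 2 * ls M S k0) ≤
        1 + (Rp M S Xp Vt γ k + Xp ^ ((1 : ℝ) / 3)) / ls M S k := by
      rw [one_add_div l1.ne', div_le_div_iff₀ (by positivity) l1]
      have e1 : ls M S k0 + Rp M S Xp Vt γ k0 + Xp ^ ((1 : ℝ) / 3) ≤
          2 * S.C * (ls M S k + (Rp M S Xp Vt γ k + Xp ^ ((1 : ℝ) / 3))) := by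
        nlinarith [s.ls1, mul_le_mul_of_nonneg_right C1 Rk, mul_le_mul_of_nonneg_right C1 x0.le]
      have := mul_le_mul e1 s.ls2 l1.le (by positivity)
      linarith
    have := mul_le_mul_of_nonneg_left b6 (show 0 ≤ L * (|(i : ℝ) - k| * S.v) by positivity)
    refine le_trans (le_of_eq (by ring)) (this.trans (le_of_eq (by ring)))
  · have := mul_le_mul_of_nonneg_left a1 (show 0 ≤ L ^ ((2 : ℝ) / 3) by positivity)
    exact mul_le_mul_of_nonneg_left (by linarith) Λ0.le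

theorem ex_n {k0 : ℕ} (k1 : S.J ≤ k0) (k2 : k0 < S.Jp) (k3 : 2 * u1 ≤ du M k0) :
    ∃ n : ℕ, 0 < n ∧ n * S.v ≤ ls M S k0 / (16 * S.C ^ 2) ∧
      ls M S k0 / (32 * S.C ^ 2) ≤ n * S.v := by
  have C0 := D.h.C0
  have v0 := D.h.v0
  have l0 := ls_pos' D.h D.u0 k1 k2
  have f := D.fine k0 k1 k2.le (by linarith [D.u1_nn])
  have a1 := Nat.floor_le (show 0 ≤ ls M S k0 / (16 * S.C ^ 2) / S.v by positivity)
  have a2 := Nat.lt_floor_add_one (ls M S k0 / (16 * S.C ^ 2) / S.v)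
  rw [le_div_iff₀ v0] at a1
  rw [div_lt_iff₀ v0] at a2
  have a3 : S.v ≤ ls M S k0 / (32 * S.C ^ 2) := by rw [le_div_iff₀ (by positivity)]; linarith
  have a4 : ls M S k0 / (16 * S.C ^ 2) = 2 * (ls M S k0 / (32 * S.C ^ 2)) := by field_simp; norm_num
  have a5 : ls M S k0 / (32 * S.C ^ 2) ≤ ⌊ls M S k0 / (16 * S.C ^ 2) / S.v⌋₊ * S.v := by linarith
  refine ⟨_, Nat.pos_of_ne_zero fun e => ?_, a1, a5⟩
  rw [e] at a5
  simp only [Nat.cast_zero, zero_mul] at a5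
  linarith

theorem block {u : ℕ → ℝ} (Λ0 : 0 < Λ) (L1 : 1 ≤ Lp) (u0 : ∀ k, 0 ≤ u k)
    (P : PQ Λ S M m a Xp Vt γ u1 Lp u) {q : ℕ} (q2 : q ≤ 2) {k0 : ℕ} (k1 : S.J ≤ k0)
    (k2 : k0 < S.Jp) (k3 : 2 * u1 ≤ du M k0) : ∃ k', k0 < k' ∧ k' ≤ S.Jp ∧
      ∑ k ∈ (Ico k0 k').filter fun k => 2 * u1 ≤ du M k, dx M k * u k ^ (q + 2) ≤
      ∑ k ∈ Ico k0 k', if u1 ≤ du M k then (44 * S.C * Λ) ^ (q + 2) * (5000000 * S.C ^ 13) *
        (dx M k * Gp M S Xp Vt γ Lp (q + 2) k) else 0 := by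
  obtain ⟨n, n0, n1, n2⟩ := D.ex_n k1 k2 k3
  have h := D.h
  have C1 := h.C1
  have C0 := h.C0
  have v0 := h.v0
  have l0 := ls_pos' h D.u0 k1 k2
  have s0 := ds_pos h D.u0 k1 k2
  have d0 := h.den0 (M.z (k0 - 1))
  have L0 : 0 < Lp := by linarith
  have x0 := D.x0
  have R0 := D.R0 k0
  have w0 := D.w0
  have n3 : 2 * (n * S.v) ≤ ls M S k0 / (8 * S.C ^ 2) := by
    rw [show ls M S k0 / (8 * S.C ^ 2) = 2 * (ls M S k0 / (16 * S.C ^ 2)) by field_simp; norm_num]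
    linarith
  have nv : 0 ≤ n * S.v := by positivity
  have up : ∀ j : ℕ, j ≤ k0 + 2 * n → ((j : ℝ) - k0) * S.v ≤ ls M S k0 / (8 * S.C ^ 2) :=
    fun j hj => by
      have : (j : ℝ) ≤ k0 + 2 * n := by exact_mod_cast hj
      nlinarith
  have sh : ∀ k, k0 ≤ k → k ≤ k0 + n → Sh S M k0 k := fun k b1 b2 =>
    D.sh k1 k2 k3 (k1.trans b1) (by
      rw [abs_of_nonneg (sub_nonneg.2 (by exact_mod_cast b1))]; exact up k (by omega))
  have rs := D.rise k1 k2 k3 (Nat.sub_le k0 n) (Nat.le_add_right k0 (2 * n)) (by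
    have : (k0 : ℝ) ≤ ((k0 - n : ℕ) : ℝ) + n := by exact_mod_cast (by omega : k0 ≤ k0 - n + n)
    nlinarith) (up _ le_rfl)
  have mono := rb_mono (M := M) (a := a) D.hm
  have mem : ∀ k ∈ (Ico k0 (k0 + n)).filter fun k => 2 * u1 ≤ du M k,
      k0 ≤ k ∧ k ≤ k0 + n ∧ 2 * u1 ≤ du M k := fun k hk =>
    ⟨(mem_Ico.1 (mem_filter.1 hk).1).1, (mem_Ico.1 (mem_filter.1 hk).1).2.le, (mem_filter.1 hk).2⟩
  obtain ⟨α, hα⟩ : ∃ α, α = Lp ^ ((2 : ℝ) / 3) * a0 M S Xp Vt γ k0 := ⟨_, rfl⟩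
  obtain ⟨β, hβ⟩ : ∃ β, β = √(S.w3 1 / ls M S k0) := ⟨_, rfl⟩
  have α0 : 0 < α := hα ▸ mul_pos (by positivity) (af_pos w0 d0 s0)
  have β0 : 0 ≤ β := hβ ▸ sqrt_nonneg _
  have K0 : 0 < 11 * S.C * Λ := by positivity
  obtain ⟨W, hW⟩ : ∃ W, W = ∑ k ∈ Ico k0 (k0 + n), dx M k := ⟨_, rfl⟩
  have W1 : ds M S k0 ≤ 32 * S.C ^ 4 * W := by
    have b1 := card_nsmul_le_sum (Ico k0 (k0 + n)) (dx M)
      (S.v / (S.C ^ 2 * S.den (M.z (k0 - 1)))) fun k hk => by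
        rw [div_le_iff₀' (by positivity)]
        exact (sh k (mem_Ico.1 hk).1 (mem_Ico.1 hk).2.le).dz1
    rw [Nat.card_Ico, Nat.add_sub_cancel_left, nsmul_eq_mul, ← hW, ← mul_div_assoc,
      div_le_iff₀ (by positivity)] at b1
    rw [div_le_iff₀ (by positivity), ls] at n2
    refine le_of_mul_le_mul_left ?_ d0
    nlinarith [mul_le_mul_of_nonneg_right b1 (show 0 ≤ 32 * S.C ^ 2 by positivity)]
  have W0 : 0 ≤ W := hW ▸ sum_nonneg fun k _ => dx_nn h k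
  have B := blk (f := M.rb m a) (w := dx M) (u := fun k => u k / (11 * S.C * Λ)) (W := W)
    (s := (Ico k0 (k0 + n)).filter fun k => 2 * u1 ≤ du M k) (a := k0 - n) (b := k0 + 2 * n)
    (σ := Lp * (ls M S k0 + Rp M S Xp Vt γ k0 + Xp ^ ((1 : ℝ) / 3)) * S.v /
      (4 * S.C ^ 2 * ls M S k0)) (μ := S.C ^ 2 * S.v / S.den (M.z (k0 - 1))) mono (by omega)
    (fun k hk => mem_Icc.2 (by have := mem k hk; omega))
    (fun k hk => ⟨dx_nn h k, by
      rw [le_div_iff₀' d0]; exact (sh k (mem k hk).1 (mem k hk).2.1).dz2⟩)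
    (hW ▸ sum_le_sum_of_subset_of_nonneg (filter_subset _ _) fun k _ _ => dx_nn h k)
    (by positivity) α0 β0 R0 (by positivity) rs (fun k _ => div_nonneg (u0 k) K0.le)
    (fun k hk i hc => by
      obtain ⟨b1, b2, b3⟩ := mem k hk
      have t := D.pt Λ0 L1 P k1 k2 k3 n1 n2 b1 b2 b3 (L := 8 ^ i * Lp) (e := 0)
        (le_mul_of_one_le_left L0.le (one_le_pow₀ (by norm_num))) le_rfl fun j j1 j2 =>
          (hc j j1 j2).trans (le_of_eq (by ring))
      have e : ((8 : ℝ) ^ i) ^ ((2 : ℝ) / 3) = 4 ^ i := by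
        rw [show (8 : ℝ) ^ i = (2 ^ i) ^ 3 by rw [← pow_mul, mul_comm, pow_mul]; norm_num,
          ← rpow_natCast _ 3, ← rpow_mul (by positivity),
          show ((3 : ℕ) : ℝ) * (2 / 3) = (2 : ℕ) by norm_num, rpow_natCast, ← pow_mul, mul_comm,
          pow_mul]
        norm_num
      rw [mul_rpow (by positivity) L0.le, e, mul_assoc, mul_assoc, ← hα, ← hβ] at t
      rw [div_le_iff₀ K0]
      have : 0 ≤ S.C * Λ * (4 ^ i * α + β) := by positivity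
      linarith)
    (fun k hk => by
      obtain ⟨b1, b2, b3⟩ := mem k hk
      have t := D.pt Λ0 L1 P k1 k2 k3 n1 n2 b1 b2 b3 (L := Lp)
        (e := 11 * S.C * Rp M S Xp Vt γ k0) le_rfl (by positivity) fun j j1 j2 => by
          have := mono j1
          have := mono j2
          have := mono (show k0 - n ≤ k by omega)
          have := mono (show k ≤ k0 + 2 * n by omega)
          exact le_add_of_le_of_nonneg (abs_le.2 ⟨by linarith, by linarith⟩) (by positivity)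
      rw [← hα, ← hβ] at t
      rw [div_le_iff₀ K0]
      have : 0 ≤ S.C * Λ * (α + β) := by positivity
      linarith) q
  have N := num q w0 d0 s0 R0 x0.le L1 hα
  have G0 := D.G0 L0.le (q + 2) k0
  obtain ⟨μ, hμ⟩ : ∃ μ, μ = min (Rp M S Xp Vt γ k0 ^ (q + 2) / Lp)
    (√(S.w3 1 / (S.den (M.z (k0 - 1)) * ds M S k0 ^ 2)) *
      Rp M S Xp Vt γ k0 ^ (((q + 2 : ℕ) : ℝ) - 1 / 2)) := ⟨_, rfl⟩
  have μ0 : 0 ≤ μ := hμ ▸ le_min (by positivity) (by positivity)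
  have t1 : 1 ≤ Lp ^ ((2 : ℝ) / 3) := one_le_rpow L1 (by norm_num)
  have t2 : α + β ≤ Lp ^ ((2 : ℝ) / 3) * ap M S Xp Vt γ k0 := by
    rw [ap_eq, mul_add, ← hα, ← hβ]; linarith [le_mul_of_one_le_left β0 t1]
  have t3 : α ^ (q + 2) + μ ≤ Gp M S Xp Vt γ Lp (q + 2) k0 := by
    rw [Gp, ← hμ]; exact add_le_add (pow_le_pow_left₀ α0.le (by linarith) _) le_rfl
  have t4 : β ^ (q + 2) + μ ≤ Gp M S Xp Vt γ Lp (q + 2) k0 := by
    rw [Gp, ← hμ]; exact add_le_add (pow_le_pow_left₀ β0 (by linarith) _) le_rfl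
  rw [← hμ, ← ls] at N
  obtain ⟨Z, hZ⟩ : ∃ Z, Z = Rp M S Xp Vt γ k0 / (Lp * (ls M S k0 + Rp M S Xp Vt γ k0 +
    Xp ^ ((1 : ℝ) / 3))) * (α * √α * (√(Rp M S Xp Vt γ k0) * Rp M S Xp Vt γ k0 ^ q)) := ⟨_, rfl⟩
  have Z0 : 0 ≤ Z := by rw [hZ]; positivity
  have e1 : S.C ^ 2 * S.v / S.den (M.z (k0 - 1)) * (11 * S.C * Rp M S Xp Vt γ k0) /
      (Lp * (ls M S k0 + Rp M S Xp Vt γ k0 + Xp ^ ((1 : ℝ) / 3)) * S.v /
      (4 * S.C ^ 2 * ls M S k0)) * (α * √α * (√(Rp M S Xp Vt γ k0) * Rp M S Xp Vt γ k0 ^ q)) =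
      44 * S.C ^ 5 * ds M S k0 * Z := by
    have e : ds M S k0 = ls M S k0 / S.den (M.z (k0 - 1)) := by rw [ls]; field_simp
    rw [hZ, e]; field_simp; ring
  rw [e1] at B
  rw [← hZ] at N
  have C9 : 1 ≤ S.C ^ 9 := one_le_pow₀ C1
  have e2 : W * (α ^ (q + 2) + β ^ (q + 2)) + 32 * (44 * S.C ^ 5 * ds M S k0 * Z) ≤
      150000 * S.C ^ 9 * (W * Gp M S Xp Vt γ Lp (q + 2) k0) := by
    have c1 := mul_le_mul W1 (N.trans (mul_le_mul_of_nonneg_left t3 zero_le_three)) Z0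
      (by positivity)
    have c2 := mul_le_mul_of_nonneg_left c1 (show 0 ≤ 32 * 44 * S.C ^ 5 by positivity)
    have c3 := mul_le_mul_of_nonneg_left (show α ^ (q + 2) + β ^ (q + 2) ≤
      2 * Gp M S Xp Vt γ Lp (q + 2) k0 by linarith) W0
    have c4 := mul_le_mul_of_nonneg_right C9 (mul_nonneg W0 G0)
    have c5 := mul_nonneg W0 G0
    linarith
  have e3 : W * Gp M S Xp Vt γ Lp (q + 2) k0 ≤
      32 * S.C ^ 4 * ∑ k ∈ Ico k0 (k0 + n), dx M k * Gp M S Xp Vt γ Lp (q + 2) k := by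
    rw [hW, sum_mul, mul_sum]
    refine sum_le_sum fun k hk => ?_
    rw [mul_left_comm]
    exact mul_le_mul_of_nonneg_left (D.G_var L0 (by omega) k1 k2 (mem_Ico.1 hk).1 (by omega)
      (sh k (mem_Ico.1 hk).1 (mem_Ico.1 hk).2.le)) (dx_nn h k)
  refine ⟨k0 + n, by omega, (sh _ (by omega) le_rfl).lt.le, ?_⟩
  rw [sum_congr rfl fun k hk => if_pos (by
    linarith [(sh k (mem_Ico.1 hk).1 (mem_Ico.1 hk).2.le).du1, D.u1_nn]), ← mul_sum]
  have e4 : 0 ≤ ∑ k ∈ Ico k0 (k0 + n), dx M k * Gp M S Xp Vt γ Lp (q + 2) k :=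
    sum_nonneg fun k _ => mul_nonneg (dx_nn h k) (D.G0 L0.le _ _)
  simp only [div_pow, ← mul_div_assoc] at B
  rw [← sum_div, div_le_iff₀ (by positivity)] at B
  have e5 := e2.trans (mul_le_mul_of_nonneg_left e3 (by positivity))
  refine B.trans ?_
  rw [show 44 * S.C * Λ = 4 * (11 * S.C * Λ) by ring, mul_pow 4, mul_right_comm, mul_assoc _ (_ * _)]
  refine mul_le_mul_of_nonneg_left (e5.trans ?_) (by positivity)
  nlinarith [mul_nonneg (show 0 ≤ S.C ^ 13 by positivity) e4]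

/-- **the plateau sums**, for any `0 ≤ u ≤ 2` with the pointwise size -/
theorem sums {u : ℕ → ℝ} (Λ1 : 1 ≤ Λ) (L1 : 1 ≤ Lp) (u0 : ∀ k, 0 ≤ u k ∧ u k ≤ 2)
    (P : PQ Λ S M m a Xp Vt γ u1 Lp u) {p : ℕ} (p2 : 2 ≤ p) (p4 : p ≤ 4) :
    ∑ k ∈ Ico S.J M.N, M.dz m a k * u k ^ p ≤
      (44 * S.C * Λ) ^ 4 * (5000000 * S.C ^ 13) * Np M S Xp Vt γ u1 Lp p := by
  obtain ⟨q, rfl⟩ : ∃ q, p = q + 2 := ⟨p - 2, by omega⟩
  have h := D.h
  have C1 := h.C1
  have j1 : 1 ≤ S.J := by have := h.i2; omega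
  have un := D.u1_nn
  have K1 : 1 ≤ 44 * S.C * Λ := by nlinarith
  have C13 : 1 ≤ S.C ^ 13 := one_le_pow₀ C1
  have G0 : ∀ k, 0 ≤ dx M k * Gp M S Xp Vt γ Lp (q + 2) k := fun k =>
    mul_nonneg (dx_nn h k) (D.G0 (by linarith) _ _)
  have g := greedy (J := S.J) (N := S.Jp) (P := fun k => 2 * u1 ≤ du M k)
    (F := fun k => dx M k * u k ^ (q + 2))
    (G := fun k => if u1 ≤ du M k then (44 * S.C * Λ) ^ (q + 2) * (5000000 * S.C ^ 13) *
      (dx M k * Gp M S Xp Vt γ Lp (q + 2) k) else 0) (fun k _ => by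
      have := G0 k
      split_ifs <;> positivity) (fun i k hik hk => hk.trans (du_anti h D.u0 hik))
    fun k0 k1 k2 k3 => D.block (by linarith) L1 (fun k => (u0 k).1) P (q := q) (by omega) k1 k2 k3
  rw [← sum_filter, ← mul_sum] at g
  have g2 : ∑ k ∈ (Ico S.J S.Jp).filter fun k => u1 ≤ du M k, dx M k * Gp M S Xp Vt γ Lp (q + 2) k ≤
      ∑ k ∈ (Icc S.J S.Jp).filter fun k => u1 ≤ du M k, dx M k * Gp M S Xp Vt γ Lp (q + 2) k :=
    sum_le_sum_of_subset_of_nonneg (filter_subset_filter _ Ico_subset_Icc_self) fun k _ _ => G0 k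
  have cr : ∀ T : Finset ℕ, ∀ i N, 1 ≤ i → T ⊆ Ico i N →
      ∑ k ∈ T, dx M k * u k ^ (q + 2) ≤ 16 * du M i := fun T i N i1 hT => by
    have b := (sum_le_sum_of_subset_of_nonneg hT fun k _ _ => dx_nn h k).trans (tail h i1 N)
    refine le_trans (sum_le_sum (g := fun k => 16 * dx M k) fun k _ => ?_)
      (by rw [← mul_sum]; linarith)
    rw [mul_comm]
    exact mul_le_mul_of_nonneg_right ((pow_le_pow_left₀ (u0 k).1 (u0 k).2 _).trans
      ((pow_le_pow_right₀ one_le_two p4).trans (by norm_num))) (dx_nn h k)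
  have e1 := cr _ S.Jp M.N (j1.trans h.i3) Subset.rfl
  have e2 : ∑ k ∈ (Ico S.J S.Jp).filter fun k => ¬2 * u1 ≤ du M k, dx M k * u k ^ (q + 2) ≤
      32 * u1 := by
    rcases ((Ico S.J S.Jp).filter fun k => ¬2 * u1 ≤ du M k).eq_empty_or_nonempty with e | e
    · rw [e, sum_empty]; linarith
    obtain ⟨i, hi, hm⟩ := exists_min_image _ id e
    have := cr _ i S.Jp (j1.trans (mem_Ico.1 (mem_filter.1 hi).1).1) fun k hk =>
      mem_Ico.2 ⟨hm k hk, (mem_Ico.1 (mem_filter.1 hk).1).2⟩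
    linarith [not_le.1 (mem_filter.1 hi).2]
  have e3 : du M S.Jp ≤ u1 := h.last.trans D.ue
  rw [sum_congr rfl fun k hk => by
      rw [dz_up h.leg (show 0 < k by have := (mem_Ico.1 hk).1; omega), ← dx],
    ← sum_Ico_consecutive _ h.i3 h.i4.le,
    ← sum_filter_add_sum_filter_not (Ico S.J S.Jp) fun k => 2 * u1 ≤ du M k]
  have K4 : (44 * S.C * Λ) ^ (q + 2) ≤ (44 * S.C * Λ) ^ 4 := pow_le_pow_right₀ K1 p4
  have K5 : 1 ≤ (44 * S.C * Λ) ^ 4 := one_le_pow₀ K1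
  have e4 := g.trans (mul_le_mul (mul_le_mul_of_nonneg_right K4 (by positivity)) g2
    (sum_nonneg fun k _ => G0 k) (by positivity))
  have e5 : 48 * u1 ≤ (44 * S.C * Λ) ^ 4 * (5000000 * S.C ^ 13) * u1 :=
    mul_le_mul_of_nonneg_right (by nlinarith) un
  change _ ≤ _ * (u1 + ∑ k ∈ (Icc S.J S.Jp).filter fun k => u1 ≤ du M k,
    dx M k * Gp M S Xp Vt γ Lp (q + 2) k)
  linarith

end DC

theorem dc_of {E l0 X j : ℝ} (h : Cl S M) (I : S.In m a) (hθ : S.C * S.θ ≤ 1 / 2) (A2 : 2 ≤ S.A)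
    (hn : 32 * S.C ^ 3 ≤ S.n) (hE : 13824 * S.C ^ 9 ≤ E) (F : SzT98.Far E S M Xp Vt γ u1 Lp)
    (A : Ap S M m a l0 X Xp Vt u1 j) : DC S M m a Xp Vt γ u1 := by
  have C1 := h.C1
  have C0 := h.C0
  have v0 := h.v0
  have N0 := h.N0
  have N1 : (1 : ℝ) ≤ S.n := by exact_mod_cast h.n1
  have X0 := F.Xp0.1
  have x0 : 0 < Xp ^ ((1 : ℝ) / 3) := rpow_pos_of_pos X0 _
  have b1 : S.v * (S.n : ℝ) ^ 2 ≤ S.C :=
    (mul_le_mul_of_nonneg_left (pow_le_pow_right₀ N1 A2) v0.le).trans h.v2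
  have b2 : S.n * (32 * S.C ^ 2 * S.v) ≤ 1 := by
    refine le_of_mul_le_mul_right ?_ N0
    nlinarith [mul_le_mul_of_nonneg_left b1 (show 0 ≤ 32 * S.C ^ 2 by positivity)]
  have b3 : 32 * S.C ^ 2 * S.v ≤ 1 :=
    (le_mul_of_one_le_left (by positivity) N1).trans b2
  have b4 : 1 ≤ 2 * S.C ^ 2 * M.s S.J := by
    have e1 := (h.z_s (k := S.J - 1) (by have := h.j0_lt; omega) (by have := h.j0_lt; omega)).2
    have e2 := h.atom.1.trans e1
    rw [div_le_iff₀ C0] at e2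
    nlinarith [mul_le_mul_of_nonneg_left (h.sm (Nat.sub_le S.J 1)) (sq_nonneg S.C)]
  have b5 : 24 * S.C ^ 3 * Xp ^ ((1 : ℝ) / 3) ≤ 1 := by
    refine le_of_pow_le_pow_left₀ three_ne_zero zero_le_one ?_
    rw [mul_pow, rp3 X0.le]
    nlinarith [mul_le_mul_of_nonneg_right hE X0.le, F.Xp0.2]
  have C9 : S.C ^ 2 ≤ S.C ^ 9 := pow_le_pow_right₀ C1 (by norm_num)
  have C2 : 0 < S.C ^ 2 := by positivity
  refine ⟨h, lt_of_lt_of_le h.n1 I.m1, hθ, ?_, F.u0, X0, F.Vt0, F.u1a, F.γ0, A.top, A.vt,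
    A.jn.dj2, le_of_pow_le_pow_left₀ three_ne_zero x0.le (by rw [rp3 X0.le]; exact A.jn.u03),
    fun k k1 k2 k3 => le_of_mul_le_mul_left (b2.trans (A.jn.fine k k1 k2 k3)) N0, ?_, ?_⟩
  · have := h.F1
    have := h.ms_pos zero_le_one
    unfold Sc.w3; positivity
  · refine le_of_mul_le_mul_left (a := 2 * S.C ^ 2) ?_ (by positivity)
    linarith
  · refine lt_of_mul_lt_mul_left (a := 4 * S.C ^ 2) ?_ (by positivity)
    have e1 := mul_le_mul_of_nonneg_right (show 8 * S.C ^ 2 ≤ E by linarith) (h.s_nn S.jl)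
    linarith [F.jl]

theorem DC.Np0 (D : DC S M m a Xp Vt γ u1) (L0 : 0 ≤ Lp) (p : ℕ) : 0 ≤ Np M S Xp Vt γ u1 Lp p :=
  add_nonneg D.u1_nn (sum_nonneg fun k _ => mul_nonneg (dx_nn D.h k) (D.G0 L0 p k))

/-- **plateau sums** -/
theorem szS_of (H : SzQ) : SzS := by
  refine CL.mono (P := fun E Λ S M m a => ∀ l0 X Xp Vt γ u1 j Lp,
    SzT98.Far E S M Xp Vt γ u1 Lp → Ap S M m a l0 X Xp Vt u1 j → ∀ p, 2 ≤ p → p ≤ 4 →
      0 ≤ Np M S Xp Vt γ u1 Lp p ∧
      ∑ k ∈ Ico S.J M.N, M.dz m a k * E61.u4 M m a k ^ p ≤ Λ * Np M S Xp Vt γ u1 Lp p) ?_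
    fun E Λ S M m a _ _ _ _ R l0 X Xp Vt γ u1 j Lp F A p p2 p4 =>
      (R l0 X Xp Vt γ u1 j Lp F A p p2 p4).2
  refine CL.glue' H (fun E Λ Λ' S M m a l1 h R l0 X Xp Vt γ u1 j Lp F A p p2 p4 => ?_) 0 le_rfl 1 5
    fun C A ε η _ _ =>
    ⟨2 * 10 ^ 13 * C ^ 17, fun S M m a G _ b1 _ h I P l0 X Xp Vt γ u1 j Lp F A p p2 p4 => ?_⟩
  · obtain ⟨a1, a2⟩ := R l0 X Xp Vt γ u1 j Lp F A p p2 p4
    exact ⟨a1, a2.trans (mul_le_mul_of_nonneg_right h a1)⟩
  · have C1 := h.C1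
    have K := G.K_le
    have K' := G.K_log.trans ((log_le_sub_one_of_pos G.N0).trans (sub_le_self _ zero_le_one))
    rw [← G.hC] at K K'
    rw [pow_one] at F
    have e1 : S.C ^ 3 ≤ S.C ^ 17 := pow_le_pow_right₀ C1 (by norm_num)
    have e2 : S.C ^ 9 ≤ S.C ^ 17 := pow_le_pow_right₀ C1 (by norm_num)
    have e3 : 0 < S.C ^ 17 := by positivity
    have D := dc_of h I (G.Cθ h) (G.hA ▸ G.A2) (by linarith)
      (le_trans (by linarith) (Pre29.rp_le G.n1 (show η ≤ ε by simpa using b1))) F A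
    have T := D.sums G.Λ1 F.Lp1.1 (E61.mj_u4 D.hm).u0 (fun k L e k1 k2 k3 hL e0 hc => by
      have := P l0 X Xp Vt γ u1 j Lp F A k L e k1 k2 (by linarith [D.u1_nn]) hL e0 hc
      rwa [ap_eq, ← ls_eq, add_sub_cancel_right] at this) p2 p4
    have N0 := D.Np0 (zero_le_one.trans F.Lp1.1) p
    refine ⟨N0, T.trans (mul_le_mul_of_nonneg_right ?_ N0)⟩
    have := mul_le_mul_of_nonneg_right K (pow_nonneg (G.rp0 η).le 4)
    nlinarith [mul_pos e3 (pow_pos (G.rp0 η) 4)]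

end Crest.Agent.T156.Alt.S50

end
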