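import Crest.Agent.T156.CutC_8
import Crest.Agent.T156.ClAq_63
import Crest.Agent.T156.TL2D_63
import Crest.Agent.T156.ClTop_27
import Crest.Agent.T156.ClLev_27

-- ▼ part T156/TL2P_63
section

/-!
# Row 156, block (L), (TL2): the elementary part of the closing argument (helper63)
-/

set_option autoImplicit false

noncomputable section

namespace Crest.Agent.T156.Alt.L63

open MeasureTheory Real Set intervalIntegral
open Crest.Agent.T156.Cut8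

section pure

variable {T : ℝ} {u β J : ℝ → ℝ}

/-- `J` is the tail integral of `u` -/
structure Tl (T : ℝ) (u J : ℝ → ℝ) : Prop where
  lu : LB T u
  eq : ∀ t, J t = ∫ s in t..T, u s

namespace Tl

theorem cont (h : Tl T u J) (T0 : 0 ≤ T) : ContinuousOn J (Icc 0 T) := by
  rw [show J = fun t => ∫ s in t..T, u s from funext h.eq]
  exact h.lu.tail ⟨T0, le_rfl⟩

theorem lJ (h : Tl T u J) (T0 : 0 ≤ T) : LB T J := .of_cont (h.cont T0)

theorem sub (h : Tl T u J) {p q : ℝ} (h0 : 0 ≤ p) (h1 : p ≤ q) (h2 : q ≤ T) :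
    |J p - J q| ≤ ∫ s in p..q, |u s| := by
  rw [h.eq, h.eq, int_split h.lu (a := p) (b := q) (c := T) ⟨h0, by linarith⟩ ⟨by linarith, h2⟩
    ⟨by linarith, le_rfl⟩, add_sub_cancel_right]
  exact abs_integral_le_integral_abs h1

/-- a time with small `J` in every window -/
theorem mean (h : Tl T u J) {c x δ A : ℝ} (c0 : 0 ≤ c) (hx : c ≤ x) (δ0 : 0 < δ) (hT : x + δ ≤ T)
    (A0 : 0 ≤ A) (hE : ∫ s in c..T, J s ^ 2 ≤ δ * A ^ 2) : ∃ t ∈ Icc x (x + δ), |J t| ≤ A := by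
  have T0 : 0 ≤ T := by linarith
  obtain ⟨t, ht, hm⟩ := isCompact_Icc.exists_isMinOn (s := Icc x (x + δ))
    (nonempty_Icc.2 (by linarith)) (f := fun s => J s ^ 2)
    (((h.cont T0).mono (Icc_subset_Icc (by linarith) hT)).pow 2)
  refine ⟨t, ht, abs_le_of_sq_le_sq ?_ A0⟩
  have p := int_mono (LB.const (J t ^ 2)) (h.lJ T0).sq (a := x) (b := x + δ) (by linarith)
    (by linarith) hT fun s a b => hm ⟨a.le, b.le⟩
  have q := int_sub_le (h.lJ T0).sq c0 hx (by linarith : x ≤ x + δ) hT le_rfl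
    fun _ _ _ => sq_nonneg _
  rw [intervalIntegral.integral_const, smul_eq_mul, add_sub_cancel_left] at p
  exact le_of_mul_le_mul_left (p.trans (q.trans hE)) δ0

/-- one step: `J` from the sup of `u` -/
theorem step (h : Tl T u J) (lβ : LB T β) (β0 : ∀ t, 0 ≤ β t) {c δ A x y x0 y0 P I : ℝ}
    (a0 : 0 ≤ x0) (a1 : x0 ≤ x) (a2 : x ≤ c) (δ0 : 0 < δ) (a3 : c + δ ≤ y) (a4 : y ≤ y0)
    (a5 : y0 ≤ T) (A0 : 0 ≤ A) (P0 : 0 ≤ P) (hE : ∫ s in c..T, J s ^ 2 ≤ δ * A ^ 2)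
    (hu : ∀ t, x ≤ t → t ≤ y → |u t| ≤ P + β t) (hI : ∫ s in x0..y0, β s ≤ I) {t : ℝ}
    (h1 : x ≤ t) (h2 : t ≤ y) : |J t| ≤ A + (c + δ) * P + I := by
  have key : ∀ p q, x ≤ p → p ≤ q → q ≤ y → q - p ≤ c + δ → |J p - J q| ≤ (c + δ) * P + I := by
    intro p q b1 b2 b3 b4
    have e1 := h.sub (p := p) (by linarith) b2 (by linarith)
    have e2 := int_mono h.lu.abs ((LB.const P).add lβ) (a := p) (by linarith) b2 (by linarith)
      fun s s1 s2 => hu s (by linarith) (by linarith)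
    have mp : p ∈ Icc 0 T := ⟨by linarith, by linarith⟩
    have mq : q ∈ Icc 0 T := ⟨by linarith, by linarith⟩
    rw [integral_add ((LB.const P).ii mp mq) (lβ.ii mp mq), intervalIntegral.integral_const,
      smul_eq_mul] at e2
    have e3 := int_sub_le lβ a0 (a1.trans b1) b2 (b3.trans a4) a5 fun s _ _ => β0 s
    linarith [mul_le_mul_of_nonneg_right b4 P0]
  have c0 : 0 ≤ c := by linarith
  rcases le_total t (c + δ) with e | e
  · obtain ⟨s, hs, e1⟩ := h.mean c0 le_rfl δ0 (by linarith) A0 hE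
    rcases le_total t s with f | f
    · linarith [abs_sub_abs_le_abs_sub (J t) (J s), key t s h1 f (by linarith [hs.2])
        (by linarith [hs.2])]
    · linarith [abs_sub_abs_le_abs_sub (J t) (J s), abs_sub_comm (J t) (J s),
        key s t (by linarith [hs.1]) f h2 (by linarith [hs.1])]
  · obtain ⟨s, hs, e1⟩ := h.mean (x := t - δ) c0 (by linarith) δ0 (by linarith) A0 hE
    linarith [abs_sub_abs_le_abs_sub (J t) (J s), abs_sub_comm (J t) (J s),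
      key s t (by linarith [hs.1]) (by linarith [hs.2]) h2 (by linarith [hs.1])]

/-- **the boundary layers are removed** by `K` steps -/
theorem iter (h : Tl T u J) (lβ : LB T β) (β0 : ∀ t, 0 ≤ β t) {c δ A x0 y0 w w' L ι I j0 : ℝ}
    {K : ℕ} (a0 : 0 ≤ x0) (w0 : 0 ≤ w) (w0' : 0 ≤ w') (a2 : x0 + K * w ≤ c) (δ0 : 0 < δ)
    (a3 : c + δ ≤ y0 - K * w') (a5 : y0 ≤ T) (A0 : 0 ≤ A) (L0 : 0 ≤ L) (ι0 : 0 ≤ ι)
    (hL : (c + δ) * L ≤ 1 / 2) (hE : ∫ s in c..T, J s ^ 2 ≤ δ * A ^ 2)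
    (hI : ∫ s in x0..y0, β s ≤ I) (hj : ∀ t, x0 ≤ t → t ≤ y0 → |J t| ≤ j0)
    (hA : ∀ j x y, x0 ≤ x → x ≤ x0 + K * w → y ≤ y0 → (∀ t, x ≤ t → t ≤ y → |J t| ≤ j) →
      ∀ t, x + w ≤ t → t + w' ≤ y → |u t| ≤ L * (j + ι) + β t) :
    ∀ k ≤ K, ∀ t, x0 + k * w ≤ t → t ≤ y0 - k * w' → |J t| ≤ 2 * (A + I) + ι + j0 / 2 ^ k := by
  have K0 : (0 : ℝ) ≤ K := Nat.cast_nonneg _
  have xy : x0 ≤ y0 := by nlinarith [mul_nonneg K0 w0, mul_nonneg K0 w0']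
  have I0 : 0 ≤ I := (integral_nonneg xy fun s _ => β0 s).trans hI
  have j00 : 0 ≤ j0 := (abs_nonneg _).trans (hj x0 le_rfl xy)
  intro k
  induction k with
  | zero => intro _ t h1 h2; simp at h1 h2 ⊢; linarith [hj t h1 h2]
  | succ k ih =>
    intro hk t h1 h2
    have k1 : (k : ℝ) + 1 ≤ K := by exact_mod_cast hk
    have k0 : (0 : ℝ) ≤ k := Nat.cast_nonneg _
    have b1 := mul_le_mul_of_nonneg_right k1 w0
    have b2 := mul_le_mul_of_nonneg_right k1 w0'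
    have b3 := mul_nonneg k0 w0
    have b4 := mul_nonneg k0 w0'
    push_cast at h1 h2
    have p0 : 0 ≤ 2 * (A + I) + ι + j0 / 2 ^ k + ι := by positivity
    have := h.step lβ β0 (x := x0 + (k + 1) * w) (y := y0 - (k + 1) * w') a0 (by linarith)
      (by linarith) δ0 (by linarith) (by linarith) a5 A0 (mul_nonneg L0 p0) hE
      (fun s s1 s2 => hA _ (x0 + k * w) (y0 - k * w') (by linarith) (by linarith) (by linarith)
        (ih (by omega)) s (by linarith) (by linarith)) hI h1 h2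
    have q := mul_le_mul_of_nonneg_right hL p0
    have e : j0 / 2 ^ (k + 1) = j0 / 2 ^ k / 2 := by rw [pow_succ, div_div]
    rw [e]
    linarith

/-- `∫ |J|` below the level `c` -/
theorem low (h : Tl T u J) {b x c j a0 a1 : ℝ} (b0 : 0 ≤ b) (bx : b ≤ x) (xc : x ≤ c) (cT : c ≤ T)
    (hj : ∀ t, x ≤ t → t ≤ c → |J t| ≤ j) (h0 : ∫ s in (0 : ℝ)..b, |u s| ≤ a0)
    (h1 : ∫ s in b..x, |u s| ≤ a1) : ∫ s in (0 : ℝ)..c, |J s| ≤ c * j + x * a1 + b * a0 := by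
  have T0 : 0 ≤ T := by linarith
  have lJ := (h.lJ T0).abs
  have jx := hj x le_rfl xc
  have p : ∀ t, b ≤ t → t ≤ x → |J t| ≤ j + a1 := fun t t1 t2 => by
    linarith [abs_sub_abs_le_abs_sub (J t) (J x), h.sub (b0.trans t1) t2 (by linarith),
      int_sub_le h.lu.abs b0 t1 t2 le_rfl (by linarith) fun _ _ _ => abs_nonneg _]
  have q : ∀ t, 0 ≤ t → t ≤ b → |J t| ≤ j + a1 + a0 := fun t t1 t2 => by
    linarith [abs_sub_abs_le_abs_sub (J t) (J b), h.sub t1 t2 (by linarith), p b le_rfl bx,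
      int_sub_le h.lu.abs le_rfl t1 t2 le_rfl (by linarith) fun _ _ _ => abs_nonneg _]
  rw [int_split lJ (b := b) ⟨le_rfl, T0⟩ ⟨b0, by linarith⟩ ⟨by linarith, cT⟩,
    int_split lJ (a := b) (b := x) ⟨b0, by linarith⟩ ⟨by linarith, by linarith⟩ ⟨by linarith, cT⟩]
  linarith [int_le_const lJ le_rfl b0 (by linarith) fun t a b => q t a.le b.le,
    int_le_const lJ b0 bx (by linarith) fun t a b => p t a.le b.le,
    int_le_const lJ (b0.trans bx) xc cT fun t a b => hj t a.le b.le]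

/-- `∫ |J|` from the two parts -/
theorem iota (h : Tl T u J) {c ε e : ℝ} (c0 : 0 ≤ c) (cT : c ≤ T) (e0 : 0 ≤ e)
    (h1 : ∫ s in (0 : ℝ)..c, |J s| ≤ ε) (h2 : ∫ s in c..T, J s ^ 2 ≤ e ^ 2) :
    ∫ s in (0 : ℝ)..T, |J s| ≤ ε + (1 + T) * e := by
  have T0 : 0 ≤ T := c0.trans cT
  rw [int_split (h.lJ T0).abs (b := c) ⟨le_rfl, T0⟩ ⟨c0, cT⟩ ⟨T0, le_rfl⟩]
  have p := int_abs_le (h.lJ T0) c0 cT le_rfl h2
  have q : √((T - c) * e ^ 2) ≤ (1 + T) * e := sqrt_le_iff.2 ⟨by positivity, by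
    rw [mul_pow]
    exact mul_le_mul_of_nonneg_right (by nlinarith) (sq_nonneg _)⟩
  linarith

end Tl

/-- the area of the root zone from the one of the next window -/
theorem root_area {zb zh : ℝ → ℝ} (mb : Monotone zb) (mh : Monotone zh) (p0 : ∀ t, 0 ≤ zb t)
    (q0 : ∀ t, 0 ≤ zh t) {b H a1 : ℝ} (b0 : 0 ≤ b) (bT : 2 * b ≤ T) (hH : zh (2 * b) ≤ H)
    (h1 : ∫ s in b..2 * b, |zb s - zh s| ≤ a1) :
    ∫ s in (0 : ℝ)..b, |zb s - zh s| ≤ a1 + b * H := by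
  have lu : LB T fun s => |zb s - zh s| := ((LB.of_mono mb).sub (LB.of_mono mh)).abs
  have e1 := int_mono (LB.const (zb b - H)) lu b0 (by linarith : b ≤ 2 * b) bT fun s s1 s2 => by
    linarith [mb s1.le, mh s2.le, le_abs_self (zb s - zh s)]
  rw [intervalIntegral.integral_const, smul_eq_mul] at e1
  have a0 : 0 ≤ a1 := (integral_nonneg (by linarith) fun _ _ => abs_nonneg _).trans h1
  have e2 := int_le_const lu le_rfl b0 (by linarith) (K := max (zb b) H) fun s _ s2 =>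
    abs_le.2 ⟨by linarith [p0 s, mh (show s ≤ 2 * b by linarith), le_max_right (zb b) H],
      by linarith [q0 s, mb s2.le, le_max_left (zb b) H]⟩
  rcases max_choice (zb b) H with e | e <;> rw [e] at e2 <;> linarith

end pure

/-- **crude location** of a monotone sequence from the quadratic sum -/
theorem crude {z f g : ℕ → ℝ} {lo hi k : ℕ} (hz : Monotone z) (hf : Monotone f) {L e R ρ : ℝ}
    (L1 : 1 ≤ L) (e0 : 0 ≤ e) (R0 : 0 < R) (hρ : 2 * L * R + e ≤ ρ)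
    (gm : ∀ i k, i ≤ k → k ≤ hi → g i ≤ g k)
    (lip : ∀ i k, lo ≤ i → i ≤ k → k < hi → g (k + 1) - g i ≤ L * (z k - z i) + e)
    (hS : Ap63.Sx z (fun j => f j - g j) lo hi 2 ≤ R ^ 3) (h1 : lo < k) (h2 : k ≤ hi) :
    (R ≤ z hi - z (k - 1) → f k - g k ≤ 2 * ρ) ∧
      (g k - f k ≤ 2 * ρ ∨ g k ≤ g (lo + 1) + ρ) := by
  have LR : R ≤ L * R := le_mul_of_one_le_left R0.le L1
  have ρ0 : 0 ≤ ρ := by linarith
  have r2 : (2 * R) ^ 2 ≤ ρ ^ 2 := pow_le_pow_left₀ (by linarith) (by linarith) 2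
  have R3 := pow_pos R0 3
  have no : ¬ ρ ^ 2 * (ρ - e) ≤ L * Ap63.Sx z (fun j => f j - g j) lo hi 2 := fun h => by
    have a1 := mul_le_mul r2 (show 2 * L * R ≤ ρ - e by linarith) (by positivity) (sq_nonneg _)
    have a2 := mul_le_mul_of_nonneg_left hS (by linarith : 0 ≤ L)
    have a3 := mul_pos (by linarith : 0 < L) R3
    nlinarith
  refine ⟨fun hw => le_of_not_gt fun hc => ?_, or_iff_not_imp_left.2 fun hc => ?_⟩
  · rcases Ap63.up hz hf (by linarith) gm lip h1 h2 ρ0 hc.le 2 with p | p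
    · have a1 := mul_le_mul r2 hw R0.le (sq_nonneg _)
      nlinarith
    · exact no p
  · exact (Ap63.dn hz hf (by linarith) gm lip h1 h2 ρ0 (not_le.1 hc).le 2).resolve_right no

end Crest.Agent.T156.Alt.L63

end
end

-- ▼ part T156/TL2Q_63

/-!
# Row 156, block (L), (TL2): numbers and crude location for the closing argument (helper63)
-/

set_option autoImplicit false

noncomputable section

namespace Crest.Agent.T156.Alt.L63

open MeasureTheory Real Set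
open Crest.Agent.T156.Alt.L69 Crest.Agent.T156.Alt.Mp9 Crest.Agent.T156.Cut8

variable {E L : ℝ} {S : Sc} {M : Md} {m : ℕ} {a G1 u1 u2 j γ Lc ηc τ l0 l X Xp Vt Lg Lp X2 X3 X4
  G0 : ℝ} {η : ℝ → ℝ} {N : ℝ} {g : ℝ → ℝ} {t1 tu ℓ En p0 : ℝ}

theorem dx_nn (h : Cl S M) (k : ℕ) : 0 ≤ dx M k := sub_nonneg.2 (h.leg.zm (Nat.sub_le _ _))

theorem GS_nn (h : Cl S M) (t t' : ℝ) : 0 ≤ GS M S t t' :=
  Finset.sum_nonneg fun k _ => mul_nonneg (dx_nn h k) (sq_nonneg _)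

theorem GP_nn (h : Cl S M) : 0 ≤ GP M S :=
  Finset.sum_nonneg fun k _ => mul_nonneg (dx_nn h k) (sq_nonneg _)

theorem mf_pos (h : Cl S M) {t : ℝ} (ht : 0 ≤ t) : 0 < mf S t :=
  div_pos (h.ms_pos ht) (by linarith [h.F1])

/-- a factor of the energy goes into the loss -/
theorem lo_scale (h : Cl S M) {Λ c t0 u e e' : ℝ} (H : LO Λ S M m a t0 u e') (Λ0 : 0 ≤ Λ)
    (c1 : 1 ≤ c) (t00 : 0 ≤ t0) (u0 : 0 ≤ u) (e0 : 0 ≤ e) (e0' : 0 ≤ e') (he : e' ≤ c * e) :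
    LO (Λ * c) S M m a t0 u e := by
  have c0 : 0 ≤ c := by linarith
  have k : ∀ x x' y : ℝ, x' ≤ c * x → 0 ≤ y → Λ * (x' + y) ≤ Λ * c * (x + y) := fun x x' y p q => by
    rw [mul_assoc]
    exact mul_le_mul_of_nonneg_left (by nlinarith) Λ0
  refine ⟨fun t t' a1 a2 => (H.two t t' a1 a2).trans ?_, H.four.trans ?_, H.pla.trans ?_⟩
  · rw [add_assoc, add_assoc]
    refine k _ _ _ ?_ (add_nonneg (GS_nn h _ _) (by positivity))
    have t0' : 0 ≤ t' := by linarith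
    rw [mul_min_of_nonneg _ _ c0, ← mul_div_assoc]
    refine min_le_min (sqrt_le_iff.2 ⟨by positivity, ?_⟩)
      (div_le_div_of_nonneg_right he (mf_pos h (by linarith)).le)
    rw [mul_pow, sq_sqrt (by positivity)]
    have := mul_le_mul_of_nonneg_left he t0'
    nlinarith [mul_nonneg t0' e0, mul_nonneg c0 (mul_nonneg t0' e0)]
  · rw [add_assoc, add_assoc]
    exact k _ _ _ he (add_nonneg (Finset.sum_nonneg fun i _ =>
      mul_nonneg (dx_nn h i) (by positivity)) (by positivity))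
  · simp only [add_assoc]
    refine k _ _ _ ?_ (by have := GP_nn h; positivity)
    rw [mul_min_of_nonneg _ _ c0, ← mul_div_assoc]
    refine min_le_min ((rpow_le_rpow e0' he (by norm_num)).trans ?_)
      (div_le_div_of_nonneg_right he h.θ0.le)
    rw [mul_rpow c0 e0]
    exact mul_le_mul_of_nonneg_right ((rpow_le_rpow_of_exponent_le c1 (by norm_num)).trans_eq
      (rpow_one c)) (by positivity)

/-- the hypotheses with the regime of the scales -/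
structure Cx (E L : ℝ) (S : Sc) (M : Md) (m : ℕ) (a G1 u1 u2 j γ Lc ηc τ l0 l X Xp Vt Lg Lp X2 X3
    X4 G0 : ℝ) (η : ℝ → ℝ) (N : ℝ) (g : ℝ → ℝ) (t1 tu ℓ En p0 : ℝ) : Prop extends
    Hy E S M m a G1 u1 u2 j γ Lc ηc τ l0 l X Xp Vt Lg Lp X2 X3 X4 G0 η N g t1 tu ℓ En p0 where
  cl : Cl S M
  mem : S.In m a
  K : 10 ^ 9 * S.C ^ 13 ≤ L
  EL : L ^ 15 ≤ E
  lg : log S.n ≤ L
  Cn : 2 * S.C ≤ log S.n
  vn : S.v ≤ S.C * (1 / S.n) ^ 2

namespace Cx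

variable (H : Cx E L S M m a G1 u1 u2 j γ Lc ηc τ l0 l X Xp Vt Lg Lp X2 X3 X4 G0 η N g t1 tu ℓ
  En p0)
include H

theorem A : At S M m a (2 * S.C) :=
  ⟨H.cl, H.mem, by linarith [H.cl.b1, H.ln.HJ], by linarith [H.cl.sT, H.cl.C0]⟩

theorem KL {c : ℝ} (k : ℕ) (hc : c ≤ 10 ^ 9) (hk : k ≤ 13 := by norm_num) : c * S.C ^ k ≤ L :=
  (mul_le_mul hc (pow_le_pow_right₀ H.cl.C1 hk) (pow_nonneg H.cl.C0.le _) (by norm_num)).trans H.K

theorem L9 : 10 ^ 9 ≤ L := by simpa using H.KL 0 le_rfl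
theorem L1 : 1 ≤ L := le_trans (by norm_num) H.L9
theorem LE (k : ℕ) (hk : k ≤ 15 := by norm_num) : L ^ k ≤ E :=
  (pow_le_pow_right₀ H.L1 hk).trans H.EL
theorem LE1 : L ≤ E := by simpa using H.LE 1
theorem KE {c : ℝ} (k : ℕ) (hc : c ≤ 10 ^ 9) (hk : k ≤ 13 := by norm_num) : c * S.C ^ k ≤ E :=
  (H.KL k hc hk).trans H.LE1
theorem E9 : 10 ^ 9 ≤ E := H.L9.trans H.LE1
theorem E1 : 1 ≤ E := H.L1.trans H.LE1
theorem CE : 1000 * S.C ≤ E := by simpa using H.KE (c := 1000) 1 (by norm_num)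

/-- division by the margin -/
theorem dv {c x y : ℝ} (hc : c ≤ E) (x0 : 0 ≤ x) (h : E * x ≤ y) : c * x ≤ y :=
  (mul_le_mul_of_nonneg_right hc x0).trans h

theorem θ1 : S.θ ≤ 1 := by nlinarith [H.cl.msθ, H.Cn, H.cl.C1, H.cl.θ0]
theorem jl0 : 0 < M.s S.jl := H.cl.s_pos (H.cl.i0.trans H.cl.i1)
theorem jl_l0 : M.s S.jl ≤ l0 := by simpa using H.dv H.E1 H.jl0.le H.ln.l0s
theorem l00 : 0 < l0 := H.jl0.trans_le H.jl_l0
theorem l0' : 0 < l := H.l00.trans_le H.ln.l0l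
theorem l1 : l ≤ 1 := by simpa using H.dv H.E1 H.l0'.le H.ln.l1
theorem tuC : tu ≤ S.C := H.lt.tu1.trans (H.cl.s_le_C H.cl.i3)
theorem t10 : 0 < t1 := by linarith [H.lt.t1a, H.l0']
theorem t1u : 1000 * t1 ≤ tu := H.dv (by linarith [H.E9]) H.t10.le H.lt.t1b
theorem t11 : t1 ≤ 1 := by
  have := H.dv H.CE H.t10.le (H.lt.t1b.trans H.tuC)
  nlinarith [H.cl.C0, H.t10]
theorem ℓ0 : 0 < ℓ :=
  (mul_pos (by linarith [H.E1]) (sqrt_pos.2 H.cl.θ0)).trans_le H.lt.ℓ1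
theorem ℓu : 1000 * ℓ ≤ tu := H.dv (by linarith [H.E9]) H.ℓ0.le H.lt.ℓ2
theorem ℓ1 : ℓ ≤ 1 := by
  have := H.dv H.CE H.ℓ0.le (H.lt.ℓ2.trans H.tuC)
  nlinarith [H.cl.C0, H.ℓ0]
theorem mf_eq (t : ℝ) : mf S t = S.ms t := by rw [mf, H.lt.F1, div_one]
theorem μ0 : (0 : ℝ) < 1 / S.n := one_div_pos.2 H.cl.N0
theorem μms {t : ℝ} (ht : 0 ≤ t) : 1 / (S.n : ℝ) ≤ S.ms t := by
  simpa [rpow_neg_one] using H.cl.ms_ge ht
theorem msE {t : ℝ} (h1 : l ≤ t) (h2 : t ≤ S.C) : E ^ 2 * S.ms t ≤ t ^ 2 := by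
  have := pow_le_pow_left₀ (by have := H.E1; positivity) (H.lt.ml t h1 h2) 2
  rwa [mul_pow, sq_sqrt (H.cl.ms_pos (H.l0'.le.trans h1)).le] at this
theorem ms_le {t : ℝ} (h1 : l ≤ t) (h2 : t ≤ S.C) : S.ms t ≤ t ^ 2 :=
  (le_mul_of_one_le_left (H.cl.ms_pos (H.l0'.le.trans h1)).le (one_le_pow₀ H.E1)).trans
    (H.msE h1 h2)
theorem μl : E ^ 2 * (1 / S.n) ≤ l ^ 2 :=
  (mul_le_mul_of_nonneg_left (H.μms H.l0'.le) (sq_nonneg _)).trans
    (H.msE le_rfl (H.l1.trans H.cl.C1))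
theorem μl' : E * (1 / S.n) ≤ l := by
  nlinarith [H.μl, H.l1, H.l0', mul_le_mul_of_nonneg_right H.E1
    (mul_nonneg (zero_le_one.trans H.E1) H.μ0.le)]
theorem vμ : E * S.v ≤ 1 / S.n := by
  have a1 := mul_le_mul_of_nonneg_left H.vn (zero_le_one.trans H.E1)
  have a2 := mul_le_mul_of_nonneg_left H.μl' (mul_pos H.cl.C0 H.μ0).le
  have a3 : S.C * l ≤ 1 := H.dv (by linarith [H.CE, H.cl.C0]) H.l0'.le H.ln.l1
  nlinarith [mul_le_mul_of_nonneg_right a3 H.μ0.le]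
theorem μ1 : 1 / (S.n : ℝ) ≤ l := by simpa using H.dv H.E1 H.μ0.le H.μl'
theorem Cv : 1000 * (S.C * S.v) ≤ 1 / S.n := by
  rw [← mul_assoc]; exact H.dv H.CE H.cl.v0.le H.vμ
theorem Cm : S.C / (m + 1) ≤ S.C * (1 / S.n) := by
  have : (S.n : ℝ) ≤ m := by exact_mod_cast H.mem.m1
  rw [mul_one_div]
  exact div_le_div_of_nonneg_left H.cl.C0.le H.cl.N0 (by linarith)
theorem μℓ : E * (1 / S.n) ≤ ℓ := by
  have a1 : 1 / (S.n : ℝ) ≤ √S.θ := le_sqrt_of_sq_le (by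
    have : 1 / (S.n : ℝ) ≤ S.θ := H.μms zero_le_one
    nlinarith [H.μ0, H.θ1])
  exact (mul_le_mul_of_nonneg_left a1 (zero_le_one.trans H.E1)).trans H.lt.ℓ1

theorem R0 : 0 < X ^ ((1 : ℝ) / 3) := rpow_pos_of_pos H.ln.X0 _
theorem R3 : (X ^ ((1 : ℝ) / 3)) ^ 3 = X := by
  rw [← rpow_natCast, ← rpow_mul H.ln.X0.le]; norm_num
omit H in
theorem cr1 (S : Sc) (t : ℝ) : 1 ≤ cr S t := le_max_left _ _
theorem cl_ge {t : ℝ} (ht : 0 ≤ t) : t ≤ L69.cl S (X ^ ((1 : ℝ) / 3)) t := by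
  have := le_mul_of_one_le_left ht (cr1 S t)
  unfold L69.cl; linarith [H.R0]
theorem l0X : l0 ^ 3 ≤ X2 := by
  have := mul_le_mul_of_nonneg_left (pow_le_pow_left₀ H.l00.le (H.cl_ge H.l00.le) 2) H.l00.le
  linarith [H.ln.x2a]
theorem X20 : 0 ≤ X2 := (pow_pos H.l00 3).le.trans H.l0X
theorem w30 {t : ℝ} (ht : 0 < t) : 0 < S.w3 t := by
  have := H.cl.ms_pos ht.le
  have := H.cl.N0
  have := H.cl.F1
  unfold Sc.w3; positivity
theorem μη {t : ℝ} (h1 : l ≤ t) (h2 : t ≤ S.C) : 1 / (S.n : ℝ) ≤ η t := by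
  have t0 := H.l0'.trans_le h1
  have := H.w30 t0
  have := cr1 S t
  have u0 : 0 ≤ uw S Lg t := by unfold uw; positivity
  have := H.cl.ms_pos t0.le
  have := H.l00
  have g0 : 0 ≤ G0 := le_trans (by positivity) H.ln.g0a
  have x0 : 0 ≤ X3 := le_trans (by positivity) H.ln.x3a
  have := H.X20
  refine le_trans (le_add_of_nonneg_left ?_) (H.ln.ηb t h1 h2)
  have : 0 ≤ min (S.ms t / t) t := le_min (by positivity) t0.le
  positivity

/-- lower bounds of `bs` -/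
theorem bs_ge {t : ℝ} (h1 : l ≤ t) (h2 : t ≤ S.C) :
    η t + g t ≤ S.ms t * bs S Lg X2 (g t) η t ∧ η t + g t ≤ bs S Lg X2 (g t) η t := by
  have m0 := H.cl.ms_pos (H.l0'.le.trans h1)
  have := H.X20
  have p : η t + g t ≤ S.ms t * bs S Lg X2 (g t) η t := by
    rw [bs, H.mf_eq, mul_add, mul_div_cancel₀ _ m0.ne']
    exact le_add_of_nonneg_right (by positivity)
  have q : 0 ≤ bs S Lg X2 (g t) η t :=
    le_of_mul_le_mul_left (by linarith [H.μη h1 h2, H.μ0, H.lt.g0 t]) m0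
  exact ⟨p, p.trans (mul_le_of_le_one_left q ((H.cl.ms1 t).trans H.θ1))⟩

theorem μbs {t : ℝ} (h1 : l ≤ t) (h2 : t ≤ S.C) : 1 / (S.n : ℝ) ≤ bs S Lg X2 (g t) η t := by
  linarith [(H.bs_ge h1 h2).2, H.μη h1 h2, H.lt.g0 t]
theorem gbs {t : ℝ} (h1 : l ≤ t) (h2 : t ≤ S.C) : g t ≤ bs S Lg X2 (g t) η t := by
  linarith [(H.bs_ge h1 h2).2, H.μη h1 h2, H.μ0]
theorem bs0 {t : ℝ} (h1 : l ≤ t) (h2 : t ≤ S.C) : 0 ≤ bs S Lg X2 (g t) η t :=
  H.μ0.le.trans (H.μbs h1 h2)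

omit H in
theorem r32 {x : ℝ} (hx : 0 < x) : x ^ ((3 : ℝ) / 2) = x * √x := by
  rw [sqrt_eq_rpow, ← rpow_one_add' hx.le (by norm_num)]; norm_num

theorem bs_le {t : ℝ} (h1 : l ≤ t) (h2 : t ≤ tu) : E * bs S Lg X2 (g t) η t ≤ 4 * √(S.ms t) := by
  have tC := h2.trans H.tuC
  have m0 := H.cl.ms_pos (H.l0'.le.trans h1)
  have r0 := sqrt_pos.2 m0
  have a1 := H.ln.th1 t h1 tC
  have a2 := H.lt.g2 t h1 h2
  have a3 := H.ln.th2 t h1 tC
  have a4 := H.ln.th3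
  simp only [H.mf_eq] at a1 a3 a4
  rw [r32 m0] at a1 a2
  have a5 := H.cl.msm h1
  rw [bs, H.mf_eq, mul_add, ← mul_div_assoc, ← mul_div_assoc]
  have b1 : E * (η t + g t) / S.ms t ≤ 2 * √(S.ms t) := by rw [div_le_iff₀ m0]; linarith
  have b2 : E * (X2 + uw S Lg t ^ 2) / √(S.ms t) ≤ 2 * √(S.ms t) := by
    rw [div_le_iff₀ r0, mul_assoc, mul_self_sqrt m0.le]; linarith
  linarith

theorem g_le {t : ℝ} (h1 : l ≤ t) (h2 : t ≤ tu) : E * g t ≤ t ∧ E * g t ≤ ℓ ^ 3 := by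
  have m0 := H.cl.ms_pos (H.l0'.le.trans h1)
  have a2 := H.lt.g2 t h1 h2
  rw [r32 m0] at a2
  have r0 := sqrt_nonneg (S.ms t)
  have a1 : √(S.ms t) ≤ t := by simpa using H.dv H.E1 r0 (H.lt.ml t h1 (h2.trans H.tuC))
  have a3 : √(S.ms t) ≤ ℓ := (sqrt_le_sqrt (H.cl.ms1 t)).trans
    (by simpa using H.dv H.E1 (sqrt_nonneg _) H.lt.ℓ1)
  refine ⟨a2.trans ((mul_le_of_le_one_left r0 ((H.cl.ms1 t).trans H.θ1)).trans a1), a2.trans ?_⟩
  have := pow_le_pow_left₀ r0 a3 3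
  rwa [pow_succ, sq_sqrt m0.le] at this

/-- the parts of the energy -/
theorem en : X2 ^ 2 ≤ En ∧ l ^ 3 * X ≤ En ∧ (S.ms t1 * bs S Lg X2 (g t1) η t1) ^ 2 / t1 ≤ En := by
  have t0 := H.t10
  have c0 : 0 ≤ cB M S η (t1 / 2) S.C := Finset.sum_nonneg fun k _ => by
    have := mf_pos H.cl (H.cl.s_nn k)
    have := cr1 S (M.s k)
    have : 0 ≤ min (|M.G k| ^ ((4 : ℝ) / 3)) (M.G k ^ 2 / mf S (M.s k)) :=
      le_min (by positivity) (by positivity)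
    exact mul_nonneg (dx_nn H.cl k) (by positivity)
  have x0 : 0 ≤ X4 := by
    have := H.w30 t0
    have c := t0.trans_le (H.cl_ge t0.le)
    have : 0 ≤ ws S (X ^ ((1 : ℝ) / 3)) t1 := by unfold ws; positivity
    have : 0 ≤ min X (L69.cl S (X ^ ((1 : ℝ) / 3)) t1 ^ 3) := le_min H.ln.X0.le (by positivity)
    exact le_trans (by positivity) (H.lt.x4 t1 (by linarith) (H.t11.trans H.cl.C1))
  have n0 : 0 ≤ N := by
    have := GP_nn H.cl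
    have := GS_nn H.cl (1 / (8 * S.C ^ 2)) S.C
    have := H.cl.θ0
    exact le_trans (by positivity) H.lp.c2
  have a1 := sq_nonneg X2
  have a2 : 0 ≤ l ^ 3 * X := (mul_pos (pow_pos H.l0' 3) H.ln.X0).le
  have a3 : 0 ≤ (S.ms t1 * bs S Lg X2 (g t1) η t1) ^ 2 / t1 := by positivity
  exact ⟨by linarith [H.lt.en], by linarith [H.lt.en], by linarith [H.lt.en]⟩

theorem En0 : 0 ≤ En := (sq_nonneg _).trans H.en.1
theorem μEn : (1 / (S.n : ℝ)) ^ 2 ≤ En := by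
  have a := H.lt.t1a
  have l0 := H.l0'
  have tC := H.t11.trans H.cl.C1
  have p : 1 / (S.n : ℝ) ≤ S.ms t1 * bs S Lg X2 (g t1) η t1 := by
    linarith [(H.bs_ge (by linarith) tC).1, H.μη (by linarith) tC, H.lt.g0 t1]
  exact ((pow_le_pow_left₀ H.μ0.le p 2).trans
    (le_div_self (sq_nonneg _) H.t10 H.t11)).trans H.en.2.2
theorem μe : 1 / (S.n : ℝ) ≤ √En := le_sqrt_of_sq_le H.μEn
theorem Xe : X ≤ √En := le_sqrt_of_sq_le (by
  have a : X ^ ((1 : ℝ) / 3) ≤ l := by simpa using H.dv H.E1 H.R0.le H.lt.lX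
  have b := pow_le_pow_left₀ H.R0.le a 3
  rw [H.R3] at b
  nlinarith [H.en.2.1, H.ln.X0])

theorem pa : √(En / tu) ≤ p0 ∧ √En ≤ p0 ∧
    ∑ k ∈ (Finset.Ioo S.jl S.J).filter fun k => l ≤ M.s k ∧ M.s k ≤ tu,
      dx M k * bs S Lg X2 (g (M.s k)) η (M.s k) ≤ p0 := by
  have a : 0 ≤ ∑ k ∈ (Finset.Ioo S.jl S.J).filter fun k => l ≤ M.s k ∧ M.s k ≤ tu,
      dx M k * bs S Lg X2 (g (M.s k)) η (M.s k) := Finset.sum_nonneg fun k hk =>
    let h := (Finset.mem_filter.1 hk).2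
    mul_nonneg (dx_nn H.cl k) (H.bs0 h.1 (h.2.trans H.tuC))
  have := sqrt_nonneg (En / tu)
  have := sqrt_nonneg En
  exact ⟨by linarith [H.lt.pa], by linarith [H.lt.pa], by linarith [H.lt.pa]⟩

theorem idx {k : ℕ} (h1 : l ≤ M.s k) (h2 : M.s k < tu) : S.jl < k ∧ k < S.J :=
  ⟨lt_of_not_ge fun h => by linarith [H.cl.sm h, H.jl_l0, H.lt.l2, H.l00],
    lt_of_not_ge fun h => by linarith [H.cl.sm h, H.lt.tu1]⟩

theorem z_half {k : ℕ} (h0 : S.j0 ≤ k) (hk : k < S.J) (h : M.s k ≤ 1 / (4 * S.C ^ 2)) :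
    M.z k ≤ 1 / (2 * S.C) := by
  have C0 := H.cl.C0
  have a1 := (H.cl.z_s h0 hk).2
  have a2 : 8 * S.C ^ 2 * S.v ≤ 1 := (H.dv (H.KE 2 (by norm_num)) H.cl.v0.le H.vμ).trans
    (H.μ1.trans H.l1)
  rw [le_div_iff₀ (by positivity)] at h ⊢
  nlinarith [mul_le_mul_of_nonneg_right a1 (by positivity : 0 ≤ 2 * S.C)]

/-- the crude scale -/
theorem exσ : ∃ σ, X ^ ((1 : ℝ) / 3) ≤ σ ∧ S.v ≤ σ ∧ M.s S.jl ≤ σ ∧ E * σ ≤ l ∧ σ ^ 3 ≤ √En := by
  refine ⟨max (X ^ ((1 : ℝ) / 3)) (max S.v (M.s S.jl)), le_max_left _ _,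
    le_max_of_le_right (le_max_left _ _), le_max_of_le_right (le_max_right _ _), ?_⟩
  have v1 : S.v ≤ 1 / S.n := by simpa using H.dv H.E1 H.cl.v0.le H.vμ
  rcases max_choice (X ^ ((1 : ℝ) / 3)) (max S.v (M.s S.jl)) with e | e <;> rw [e]
  · exact ⟨H.lt.lX, H.R3.trans_le H.Xe⟩
  rcases max_choice S.v (M.s S.jl) with e | e <;> rw [e]
  · exact ⟨H.vμ.trans H.μ1, (pow_le_of_le_one H.cl.v0.le (v1.trans (H.μ1.trans H.l1))
      (by norm_num)).trans (v1.trans H.μe)⟩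
  · exact ⟨H.ln.l0s.trans H.ln.l0l, ((pow_le_pow_left₀ H.jl0.le H.jl_l0 3).trans H.l0X).trans
      (le_sqrt_of_sq_le H.en.1)⟩

theorem s_lip {i k : ℕ} (h0 : S.j0 ≤ i) (h1 : i ≤ k) (h2 : k + 1 < S.J) :
    M.s (k + 1) - M.s i ≤ S.C ^ 2 * (M.z k - M.z i) + S.C ^ 3 * S.v := by
  have a1 := Ap63.s_z H.cl h0 (h1.trans k.le_succ) h2
  have a2 := mul_le_mul_of_nonneg_left (H.cl.zs k (h0.trans h1) h2).2 (sq_nonneg S.C)
  linarith

theorem Sdel {lo hi : ℕ} (h1 : S.j0 ≤ lo) (h2 : hi ≤ S.Jp) : Ap63.Sx M.z (M.del m a) lo hi 2 ≤ X :=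
  (H.A.Sx_sub _ h1 h2 2).trans ((Ap63.En_eq H.cl m a M.q 2).ge.trans H.ap.all)

/-- **crude location** from the a priori bound -/
theorem del_cr {σ : ℝ} (h1 : X ^ ((1 : ℝ) / 3) ≤ σ) (h2 : S.v ≤ σ) (h3 : M.s S.jl ≤ σ) {k : ℕ}
    (k1 : S.j0 < k) (k2 : k < S.J) : -(10 * S.C ^ 3 * σ) ≤ M.del m a k ∧
      (M.z k ≤ 1 / (2 * S.C) → M.del m a k ≤ 10 * S.C ^ 3 * σ) := by
  have C1 := H.cl.C1
  have C0 := H.cl.C0
  have v0 := H.cl.v0
  have i3 := H.cl.i3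
  have i4 := H.cl.i4
  have σ0 : 0 ≤ σ := v0.le.trans h2
  have c1 : S.C ^ 2 * σ ≤ S.C ^ 3 * σ :=
    mul_le_mul_of_nonneg_right (pow_le_pow_right₀ C1 (by norm_num)) σ0
  have c2 : S.C * σ ≤ S.C ^ 3 * σ := mul_le_mul_of_nonneg_right (le_self_pow₀ C1 (by norm_num)) σ0
  have c3 : σ ≤ S.C * σ := le_mul_of_one_le_left σ0 C1
  have c4 := mul_le_mul_of_nonneg_left h1 (sq_nonneg S.C)
  have c5 := mul_le_mul_of_nonneg_left h2 (pow_pos C0 3).le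
  have c6 := mul_le_mul_of_nonneg_left h2 C0.le
  obtain ⟨p, q⟩ := crude (z := M.z) (f := M.rb m a) (g := M.q) (lo := S.j0) (hi := S.J - 1) (k := k)
    H.cl.leg.zm (rb_mono H.A.m_pos) (L := S.C ^ 2) (e := S.C ^ 3 * S.v) (ρ := 5 * S.C ^ 3 * σ)
    (one_le_pow₀ C1) (by positivity) H.R0 (by linarith)
    (fun i k a b => H.cl.q_mono a (by omega))
    (fun i k a b c => (Ap63.q_slow H.cl (b.trans k.le_succ) (by omega)).trans
      (H.s_lip a b (by omega)))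
    ((H.Sdel le_rfl (by omega)).trans_eq H.R3.symm) k1 (by omega)
  unfold Md.del
  refine ⟨?_, fun hz => ?_⟩
  · rcases q with q | q
    · linarith
    · linarith [H.cl.q_le_s (k := S.j0 + 1) (by omega), (H.cl.ss _ H.cl.j0_lt).2,
        H.cl.sm H.cl.i1, (rb_mem (M := M) (a := a) H.A.m_pos k).1]
  · have a1 : 2 * S.C * X ^ ((1 : ℝ) / 3) ≤ 1 :=
      (H.dv (by linarith [H.CE]) H.R0.le H.lt.lX).trans H.l1
    have a2 : X ^ ((1 : ℝ) / 3) ≤ 1 / (2 * S.C) := by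
      rw [le_div_iff₀ (by positivity)]; linarith
    have a3 : 1 / S.C = 2 * (1 / (2 * S.C)) := by field_simp
    linarith [p (by linarith [H.cl.atom.1, H.cl.leg.zm (Nat.sub_le k 1)])]

/-- crude location of the node times -/
theorem dsb_cr {k : ℕ} (h1 : l ≤ M.s k) (h2 : M.s k + ℓ / 8 ≤ tu) :
    15 / 16 * M.s k ≤ sb M m a (k + 1) ∧
      (M.s k ≤ 1 / (4 * S.C ^ 2) → sb M m a (k + 1) ≤ 17 / 16 * M.s k) := by
  obtain ⟨σ, a1, a2, a3, a4, -⟩ := H.exσ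
  have ℓ0 := H.ℓ0
  have C0 := H.cl.C0
  obtain ⟨k1, k2⟩ := H.idx h1 (by linarith)
  have kN : k ≤ M.N := (k2.trans H.cl.J_lt).le
  have j0 := H.cl.i1.trans_lt k1
  obtain ⟨p, q⟩ := H.del_cr a1 a2 a3 j0 k2
  have σ0 : 0 ≤ σ := H.cl.v0.le.trans a2
  have b1 : 1000 * S.C ^ 4 * σ ≤ l := H.dv (H.KE 4 (by norm_num)) σ0 a4
  have b2 := abs_le.1 (H.lt.g1 (M.s k) k k1 k2 h1 (by linarith [H.l0']) h2)
  have b3 : 1000 * g (M.s k) ≤ M.s k :=
    H.dv (by linarith [H.E9]) (H.lt.g0 _) (H.g_le h1 (by linarith)).1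
  have b4 : 1000 * S.C * (1 / S.n) ≤ l := H.dv H.CE H.μ0.le H.μl'
  obtain ⟨b5, b6⟩ := H.A.tail_mem kN
  have e := At.sb_sub M m a k
  have d0 : 0 ≤ M.d k := by linarith [H.cl.d_ge k]
  have d1 := mul_le_mul_of_nonneg_right ((H.cl.d_le kN).trans H.cl.b1)
    (show 0 ≤ 10 * S.C ^ 3 * σ by positivity)
  refine ⟨?_, fun hz => ?_⟩
  · linarith [mul_le_mul_of_nonneg_left p d0, H.Cm]
  · linarith [mul_le_mul_of_nonneg_left (q (H.z_half j0.le k2 hz)) d0, H.l0']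

end Cx

end Crest.Agent.T156.Alt.L63

end
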