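import Crest.Agent.T156.LInt_31
import Crest.Agent.T156.GsK_95
import Crest.Agent.T156.NgS_9
import Crest.Agent.T156.Abel_33
import Crest.Agent.T156.TkD_20
import Crest.Agent.T156.TkED_94
import Crest.Agent.T156.TL2Q_63

-- ▼ part T156/LoG_63
section

/-!
# Row 156, block (L): from the global energy to the location `LO` (helper63)
-/

set_option autoImplicit false

noncomputable section

namespace Crest.Agent.T156.Alt.L31

open MeasureTheory Set Real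
open Crest.Agent.R164.GC Crest.Agent.R339.B Crest.Agent.R339.Var Crest.Agent.T157.Pf
open Crest.Agent.T156.Cut8
open Crest.Agent.T156.Alt.Mp9 Crest.Agent.T156.Alt.L69 Crest.Agent.T156.Alt.C74
open Crest.Agent.T156.Alt.L25

variable {S : Sc} {M : Md} {m : ℕ} {a T B s u u1 En K K' E E' N Z lam : ℝ} {p : Pa}

/-- `lo_T` from the root with two losses -/
theorem lo_T2 (A : At S M m a T) (hC : S.C ≤ B) (hT : T ≤ B) (hθ : S.θ ≤ 1) (K1 : 1 ≤ K)
    (K2 : 1 ≤ K') {l : ℝ} (l0 : 0 < l) (jl : 2 * M.s S.jl ≤ l) (hv : 4 * S.v ≤ l) (ls : l ≤ 2 * s)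
    (sJ : s ≤ M.s S.J) (zs : ∀ t < s, lvr 1 (lb M S m a T) t ≤ M.z (S.J - 1))
    (q : QT S M m a T s u K E N Z) (hu : u ≤ K * u1) (u0 : 0 ≤ u) (u10 : 0 ≤ u1)
    (en : ∫ t in (0 : ℝ)..T, JJ M S m a T t ^ 2 ≤ K' * En)
    (mass : ∫ t in l / 2..s, mf S t * uu M S m a T t ^ 2 ≤ K' * En) (hE : E ≤ K' * En)
    (hZ : Z ≤ K' * En) (hN : N ≤ K' * En) (hW : W0 S l ≤ En)
    (γ3 : (M.s S.Jp - M.s S.J) ^ 3 ≤ En) (v4 : S.v ≤ 1 / (S.n : ℝ) ^ 4) :
    LO (10 ^ 8 * B ^ 12 * (3 * (K * K'))) S M m a l u1 En := by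
  have K0 : 0 ≤ K := by linarith
  have m0 := A.cl.ms_pos l0.le
  have w1 : 0 < l ^ 5 := by positivity
  have w2 : 0 ≤ S.ms l * l ^ 3 := by positivity
  unfold W0 at hW
  have En0 : 0 < En := by linarith
  have kk : K' ≤ K * K' := le_mul_of_one_le_left (by linarith) K1
  have kk' : K ≤ K * K' := le_mul_of_one_le_right K0 K2
  have x0 : 0 ≤ K' * En := by positivity
  have x1 : K' * En ≤ 3 * (K * K') * En := mul_le_mul_of_nonneg_right (by linarith) En0.le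
  have x2 : K * (3 * (K' * En)) = 3 * (K * K') * En := by ring
  have x3 : En ≤ K' * En := le_mul_of_one_le_left En0.le K2
  have B0 : 0 ≤ B := by linarith [A.cl.C1]
  have j0 := A.cl.s_nn S.jl
  have C1 := A.cl.C1
  refine lo_scale A.cl (En := 3 * (K * K') * En) (u1 := u) (K := 3 * (K * K'))
    (lo_of A hC hT hθ (by linarith) u0 fun h => ?_) l0.le (by positivity) (by linarith) le_rfl
    (by positivity) le_rfl En0.le (hu.trans (mul_le_mul_of_nonneg_right (by linarith) u10)) u10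
  obtain ⟨Q, q1, q2, q3, q4, q5, q6⟩ := q
  have y1 : K * (Z + N) ≤ 3 * (K * K') * En :=
    (mul_le_mul_of_nonneg_left (by linarith) K0).trans x2.le
  have r0 : S.C * S.v - uu M S m a T 0 ≤ S.C ^ 2 * (l / 2 - 0) := by
    have u2 := A.cl.lv0
    rw [← A.lvh' le_rfl] at u2
    have u3 := Pp.Ode3.lvr_pos A.okb.1.1 (l := lb M S m a T) 0
    have u4 := mul_le_mul_of_nonneg_left hv (show 0 ≤ S.C by linarith)
    have u5 : S.C * l ≤ S.C ^ 2 * l := mul_le_mul_of_nonneg_right (by nlinarith) l0.le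
    unfold uu; linarith
  have l3 : mf S l * l ^ 3 ≤ S.ms l * l ^ 3 :=
    mul_le_mul_of_nonneg_right (div_le_self m0.le A.cl.F1) (by positivity)
  exact ⟨0, l / 2, s, Q, l, le_rfl, by linarith, by linarith,
    by linarith [A.cl.sm A.cl.i1], by linarith, by linarith, sJ, q1, q2, en.trans x1,
    fun t h0 h1 => room_of A le_rfl (by linarith) r0 h0 h1, mass.trans x1, l0.le,
    fun k _ hk => .inr (.inl (by linarith)), by linarith, by linarith, q4.trans y1, q5.trans y1,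
    q6.trans ((mul_le_mul_of_nonneg_left (by linarith) K0).trans x2.le), zs, q3, by linarith,
    by positivity, h, v4⟩

/-- the mass from the root data -/
theorem mass63 (A : At S M m a T) {A0 D x : ℝ} (lH : LB T (HH M S m a T)) (hA : 0 ≤ A0)
    (As : A0 ≤ s) (sT : s ≤ T) (D1 : lvr 1 (lb M S m a T) A0 ≤ D) (D2 : lvr 1 (lh M T) A0 ≤ D)
    (ms : ∀ t, A0 < t → t < s → mm M S m a t * uu M S m a T t ^ 2 ≤ HH M S m a T t * uu M S m a T t)
    (x0 : 0 ≤ x) (xs : x ≤ s) : ∫ t in x..s, mf S t * uu M S m a T t ^ 2 ≤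
      mf S A0 * D ^ 2 * A0 + 384 * S.C ^ 5 * ∫ t in A0..s, HH M S m a T t * uu M S m a T t := by
  have lu : LB T (uu M S m a T) := A.LB_u
  have lf := (LB.of_mono (T := T) (mf_mono A)).mul lu.sq
  have p1 := int_sub_le lf le_rfl x0 xs le_rfl sT fun t h _ =>
    mul_nonneg (mf_pos' A.cl h.le).le (sq_nonneg _)
  rw [int_split lf (a := 0) (b := A0) (c := s) ⟨le_rfl, by linarith⟩ ⟨hA, by linarith⟩
    ⟨by linarith, sT⟩] at p1
  have p2 := int_le_const lf (K := mf S A0 * D ^ 2) le_rfl hA (by linarith) fun t t1 t2 => by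
    refine mul_le_mul (mf_mono A t2.le) (sq_le_sq' ?_ ?_) (sq_nonneg _) (mf_pos' A.cl hA).le
    · have := Sc48.lvr_mono A.okh.1.1 t2.le
      have := Pp.Ode3.lvr_pos A.okb.1.1 (l := lb M S m a T) t
      unfold uu; linarith
    · have := Sc48.lvr_mono A.okb.1.1 t2.le
      have := Pp.Ode3.lvr_pos A.okh.1.1 (l := lh M T) t
      unfold uu; linarith
  have p3 := mass_mm A hA As sT (int_mono (A.LB_mm.mul lu.sq) (lH.mul lu) hA As sT ms)
  linarith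

namespace Hx

variable (H : Hx E lam S M m a p) (h : Cl S M)
include H h

theorem u20 : 0 ≤ p.u2 := by
  linarith [H.lp.u1a, H.lp.u1b.1, h.last, h.leg.z1 (S.Jp - 1)]

omit H in
theorem cB0 (η : ℝ → ℝ) (t t' : ℝ) : 0 ≤ cB M S η t t' :=
  Finset.sum_nonneg fun k _ => mul_nonneg (L25.dx_nn h k) (add_nonneg
    (mul_nonneg (zero_le_one.trans (le_max_left _ _))
      (div_nonneg (sq_nonneg _) (L25.mf_pos' h (h.s_nn k)).le))
    (le_min (by positivity) (div_nonneg (sq_nonneg _) (L25.mf_pos' h (h.s_nn k)).le)))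

omit h in
theorem η0 {t : ℝ} (ht : 0 < t) : 0 ≤ p.η t := by
  have a1 := H.ln.η2 (t / 2) (by linarith)
  have a2 := H.ln.ηa (show t / 2 ≤ t by linarith)
  rw [show 2 * (t / 2) = t by ring] at a1
  linarith

theorem E1 : 1 ≤ E := (one_le_pow₀ h.F1).trans H.F40

theorem l00 : 0 < p.l0 := by
  have a1 := h.ss 0 (by have := h.i2; omega)
  have a2 := h.sm (h.i0.trans h.i1)
  have a3 : 0 < S.v / S.C := div_pos (v_pos h) (by linarith [h.C1])
  rw [h.s0] at a1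
  have a4 : 0 < M.s S.jl := by simp only [zero_add] at a1; linarith [a1.1]
  exact (mul_pos (by linarith [H.E1 h]) a4).trans_le H.ln.l0s

theorem lp0 : 0 < p.l := (H.l00 h).trans_le H.ln.l0l

theorem l_one : p.l ≤ 1 := (le_mul_of_one_le_left (H.lp0 h).le (H.E1 h)).trans H.ln.l1

theorem X20 : 0 ≤ p.X2 := (mul_nonneg (H.l00 h).le (sq_nonneg _)).trans H.ln.x2a

theorem γ0 : 0 ≤ p.γ := (sub_nonneg.2 (h.sm h.i3)).trans H.lp.γ0

theorem γN : p.γ ^ 3 ≤ p.N := by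
  have g0 := H.γ0 h
  have g1 : p.γ ≤ 1 := (le_mul_of_one_le_left g0 (H.E1 h)).trans H.lp.γ1
  have := H.η0 one_pos
  have := H.X20 h
  have := H.u20 h
  have := h.θ0
  have q : p.γ ^ 3 ≤ p.γ ^ ((15 : ℝ) / 7) := by
    rw [← rpow_natCast]
    exact rpow_le_rpow_of_exponent_ge' g0 g1 (by norm_num) (by norm_num)
  exact q.trans (le_trans (le_add_of_nonneg_left (by positivity)) H.lc.c4)

theorem N0 : 0 ≤ p.N := (pow_nonneg (H.γ0 h) 3).trans (H.γN h)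

theorem E_n : E ≤ S.n :=
  ((le_mul_of_one_le_right (by linarith [H.E1 h]) (one_le_pow₀ h.F1)).trans H.ln.Lg0).trans H.ln.Lg1

theorem n_l : 1 / (S.n : ℝ) ≤ S.ms p.l * p.l ^ 4 := by
  have l0 := H.l00 h
  have m0 := h.ms_pos l0.le
  have n0 : (0 : ℝ) < S.n := by linarith [H.E1 h, H.E_n h]
  have w := H.ln.l0w
  unfold Sc.w3 at w
  rw [div_le_iff₀ (by positivity)] at w
  refine le_trans ?_ (mul_le_mul (h.msm H.ln.l0l) (pow_le_pow_left₀ l0.le H.ln.l0l 4)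
    (by positivity) (h.ms_pos (H.lp0 h).le).le)
  rw [div_le_iff₀ n0]
  linarith [h.F1]

theorem n3 : 1 / (S.n : ℝ) ^ 3 ≤ S.ms p.l * p.l ^ 3 := by
  have l0 := H.lp0 h
  have n1 : (1 : ℝ) ≤ S.n := (H.E1 h).trans (H.E_n h)
  refine (one_div_le_one_div_of_le (by linarith) (le_self_pow₀ n1 three_ne_zero)).trans
    ((H.n_l h).trans (mul_le_mul_of_nonneg_left ?_ (h.ms_pos l0.le).le))
  exact pow_le_pow_of_le_one l0.le (H.l_one h) (by norm_num)

/-- the global energy -/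
def Eg (S : Sc) (M : Md) (p : Pa) (X4 : ℝ) : ℝ :=
  p.l ^ 5 + S.ms p.l * p.l ^ 3 + cB M S p.η p.l S.C + p.X2 ^ 2 + X4 + p.N

theorem Nn_le (X4 : ℝ) : Nn S M p X4 p.l ≤ Eg S M p X4 := by
  unfold Nn Eg
  linarith [H.n3 h, pow_pos (H.lp0 h) 5]

theorem W0_le {X4 : ℝ} (_x4 : 0 ≤ X4) : W0 S p.l + p.X2 ^ 2 + X4 + p.N ≤ Eg S M p X4 ∧
    0 < W0 S p.l := by
  have l0 := H.lp0 h
  have := h.ms_pos l0.le
  unfold W0 Eg
  exact ⟨by linarith [cB0 h p.η p.l S.C], by positivity⟩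

theorem v_l (E2 : 2 ≤ E) (hθ : S.θ ≤ 1) (v4 : S.v ≤ 1 / (S.n : ℝ) ^ 4) : 4 * S.v ≤ p.l := by
  have l0 := H.lp0 h
  have n2 : (2 : ℝ) ≤ S.n := E2.trans (H.E_n h)
  have a1 : S.ms p.l * p.l ^ 4 ≤ 1 * p.l ^ 1 := mul_le_mul ((h.ms1 _).trans hθ)
    (pow_le_pow_of_le_one l0.le (H.l_one h) (by norm_num)) (by positivity) zero_le_one
  have a2 : 4 * (1 / (S.n : ℝ) ^ 4) ≤ 1 / S.n := by
    rw [mul_one_div, div_le_div_iff₀ (by positivity) (by positivity)]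
    nlinarith [pow_le_pow_left₀ zero_le_two n2 3]
  linarith [H.n_l h]

end Hx

/-- **the output of (TL1x)** from the global energy -/
theorem lo63 (H : Hx E lam S M m a p) (A : At S M m a (2 * S.C)) (E2 : 2 ≤ E) (hθ : S.θ ≤ 1)
    (v4 : S.v ≤ 1 / (S.n : ℝ) ^ 4) {X4 A0 D : ℝ} (x4 : 0 ≤ X4) {v : ℕ} (jv : S.jl ≤ v)
    (vJ : v < S.J) (sJ : sb M m a (v + 1) ≤ M.s S.J) (ls : p.l ≤ 2 * sb M m a (v + 1))
    (lH : LB (2 * S.C) (HH M S m a (2 * S.C))) (hA : 0 ≤ A0) (As : A0 ≤ sb M m a (v + 1))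
    (D1 : lvr 1 (lb M S m a (2 * S.C)) A0 ≤ D) (D2 : lvr 1 (lh M (2 * S.C)) A0 ≤ D)
    (ms : ∀ t, A0 < t → t < sb M m a (v + 1) → mm M S m a t * uu M S m a (2 * S.C) t ^ 2 ≤
      HH M S m a (2 * S.C) t * uu M S m a (2 * S.C) t) (K1 : 1 ≤ K) (K2 : 1 ≤ K')
    (q : QT S M m a (2 * S.C) (sb M m a (v + 1)) (K * p.u2) (K * S.F) E'
      (S.F ^ 10 * Nn S M p X4 p.l) Z)
    (en : ∫ t in (0 : ℝ)..2 * S.C, JJ M S m a (2 * S.C) t ^ 2 ≤ K' * S.F ^ 11 * Hx.Eg S M p X4)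
    (hH : ∫ t in A0..sb M m a (v + 1), HH M S m a (2 * S.C) t * uu M S m a (2 * S.C) t ≤
      K' * S.F ^ 11 * Hx.Eg S M p X4)
    (hD : mf S A0 * D ^ 2 * A0 ≤ K' * S.F ^ 11 * Hx.Eg S M p X4)
    (hE : E' ≤ K' * S.F ^ 11 * Hx.Eg S M p X4) (hZ : Z ≤ K' * S.F ^ 11 * Hx.Eg S M p X4)
    {Λ : ℝ} (hΛ : 10 ^ 15 * S.C ^ 17 * (K * K') ≤ Λ) :
    LO (Λ * S.F ^ 12) S M m a p.l p.u2 (Hx.Eg S M p X4) := by
  have h := A.cl
  have C1 := h.C1
  have F1 := h.F1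
  have l0 := H.lp0 h
  obtain ⟨w1, w0⟩ := H.W0_le h x4
  have N0 := H.N0 h
  have g0 : 0 ≤ Hx.Eg S M p X4 := by linarith [sq_nonneg p.X2]
  have u0 := H.u20 h
  have c5 : 1 ≤ S.C ^ 5 := one_le_pow₀ C1
  have f11 : 1 ≤ S.F ^ 11 := one_le_pow₀ F1
  have k1 : 1 ≤ K' * S.F ^ 11 := one_le_mul_of_one_le_of_one_le K2 f11
  have y0 : 0 ≤ K' * S.F ^ 11 * Hx.Eg S M p X4 := by positivity
  have up : K' * S.F ^ 11 * Hx.Eg S M p X4 ≤ 385 * S.C ^ 5 * (K' * S.F ^ 11) * Hx.Eg S M p X4 := by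
    nlinarith
  have sT : sb M m a (v + 1) ≤ 2 * S.C := sJ.trans A.sJ_T
  have mq := mass63 A lH hA As sT D1 D2 ms (x := p.l / 2) (by linarith) (by linarith)
  have nn : S.F ^ 10 * Nn S M p X4 p.l ≤ K' * S.F ^ 11 * Hx.Eg S M p X4 :=
    (mul_le_mul_of_nonneg_left (H.Nn_le h X4) (by positivity)).trans
      (mul_le_mul_of_nonneg_right ((pow_le_pow_right₀ F1 (by norm_num)).trans
        (le_mul_of_one_le_left (by positivity) K2)) g0)
  have jl : 2 * M.s S.jl ≤ p.l := ((mul_le_mul_of_nonneg_right E2 (h.s_nn _)).trans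
    H.ln.l0s).trans H.ln.l0l
  have γ3 : (M.s S.Jp - M.s S.J) ^ 3 ≤ Hx.Eg S M p X4 := by
    linarith [pow_le_pow_left₀ (sub_nonneg.2 (h.sm h.i3)) H.lp.γ0 3, H.γN h, sq_nonneg p.X2]
  have r := lo_T2 (K' := 385 * S.C ^ 5 * (K' * S.F ^ 11)) (B := 2 * S.C) A (by linarith) le_rfl hθ
    (one_le_mul_of_one_le_of_one_le K1 F1) (by nlinarith) l0 jl (H.v_l h E2 hθ v4) ls sJ
    (fun t ht => zs_of A jv vJ ht) q (mul_le_mul_of_nonneg_right
      (le_mul_of_one_le_right (by linarith) F1) u0) (by positivity) u0 (en.trans up)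
    (mq.trans (by nlinarith [mul_le_mul_of_nonneg_left hH (show 0 ≤ 384 * S.C ^ 5 by positivity)]))
    (hE.trans up) (hZ.trans up) (nn.trans up) (by linarith [sq_nonneg p.X2]) γ3 v4
  refine lo_scale h r l0.le (by positivity) le_rfl ?_ g0 (by linarith) g0 (by linarith) u0
  have := mul_le_mul_of_nonneg_right hΛ (show 0 ≤ S.F ^ 12 by positivity)
  have : 0 ≤ S.C ^ 17 * (K * K') * S.F ^ 12 := by positivity
  nlinarith

end Crest.Agent.T156.Alt.L31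

end
end

-- ▼ part T156/EnG_63
section

/-!
# Row 156, block (L): the global energy from the root, the bulk and the continuation (helper63)
-/

set_option autoImplicit false

noncomputable section

namespace Crest.Agent.T156.Alt.L31

open MeasureTheory Set Real
open Crest.Agent.R164.GC Crest.Agent.R339.B Crest.Agent.R339.Var Crest.Agent.T157.Pf
open Crest.Agent.T156.Cut8
open Crest.Agent.T156.Alt.Mp9 Crest.Agent.T156.Alt.L69 Crest.Agent.T156.Alt.C74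

variable {S : Sc} {M : Md} {m : ℕ} {a T B c : ℝ}

/-- smallness of the pairing constant -/
structure Th (T C c θ0 : ℝ) : Prop where
  s1 : θ0 ≤ c
  s2 : θ0 ≤ 1 / 16
  s4 : θ0 * (3 * (4096 * C ^ 2) + (1 + T ^ 2)) ≤ c / 8
  s5 : θ0 * ((1 + T ^ 2) * (1 + 16 / c)) ≤ c / 16

theorem exTh (T C : ℝ) (hc : 0 < c) : ∃ θ0, 0 < θ0 ∧ θ0 ≤ 1 ∧ Th T C c θ0 := by
  have p4 : 0 < 3 * (4096 * C ^ 2) + (1 + T ^ 2) := by positivity
  have p5 : 0 < (1 + T ^ 2) * (1 + 16 / c) := by positivity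
  refine ⟨min (min c (1 / 16)) (min (c / 8 / (3 * (4096 * C ^ 2) + (1 + T ^ 2)))
    (c / 16 / ((1 + T ^ 2) * (1 + 16 / c)))), by positivity,
    ((min_le_left _ _).trans (min_le_right _ _)).trans (by norm_num),
    (min_le_left _ _).trans (min_le_left _ _), (min_le_left _ _).trans (min_le_right _ _), ?_, ?_⟩
  · exact (le_div_iff₀ p4).1 ((min_le_right _ _).trans (min_le_left _ _))
  · exact (le_div_iff₀ p5).1 ((min_le_right _ _).trans (min_le_right _ _))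

/-- the loss of the energy -/
def κE (c : ℝ) : ℝ := (7 + 17 / c) * (8 + 16 / c)

/-- **the global energy** -/
theorem en63 (F : Fr T c B (Spl27.okT T) (lvr 1) Pr.Gam Pr.GG) (A : At S M m a T)
    {r1 r2 ω β f : ℝ → ℝ} {A0 s l' D ρ f0 θ0 Ar X0 : ℝ} {Q : ℝ → Prop} (th : Th T S.C c θ0)
    (Z : Rt T B θ0 (lvr 1 (lh M T)) (lvr 1 (lb M S m a T))
      (fun t => Pr.Gam (lb M S m a T) t - Pr.Gam (lh M T) t) (HH M S m a T) r1 r2 ω β (mm M S m a) f
      A0 s l' D ρ f0 S.C (2 * (S.C * S.v)))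
    (As : A0 < s) (sJ : s < M.s S.J) (zs : ∀ t < s, lvr 1 (lb M S m a T) t ≤ M.z (S.J - 1))
    (ls : l' ≤ s)
    (ar : ρ * ∫ t in (0 : ℝ)..l', |uu M S m a T t| ≤ Ar +
      (∫ t in A0..s, HH M S m a T t * uu M S m a T t) / 16 +
      c / 32 * ∫ t in (0 : ℝ)..s, JJ M S m a T t ^ 2) (Ar0 : 0 ≤ Ar)
    (rt : A0 * f0 + ρ ^ 2 / l' + Ar + mf S A0 * D ^ 2 * A0 ≤ X0 +
      θ0 ^ 2 * ((∫ t in (0 : ℝ)..A0, JJ M S m a T t ^ 2) + A0 * io M S m a T ^ 2))
    (hF : ∫ t in A0..s, f t ≤ X0 + ∫ t in A0..s, HH M S m a T t * uu M S m a T t)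
    (hΩ : ∫ t in A0..s, ω t ^ 2 ≤ X0 + θ0 ^ 2 * ∫ t in A0..s, uu M S m a T t ^ 4)
    (ext : Cont T (uu M S m a T) (fun t => Pr.Gam (lb M S m a T) t - Pr.Gam (lh M T) t) (r2 s) (β s)
      0 s (c / 8 * (∫ t in (0 : ℝ)..T, JJ M S m a T t ^ 2) + X0) Q)
    (hv : 4096 * S.C ^ 2 * (2 * (S.C * S.v)) ^ 2 * T ^ 3 + 8 * (2 * (S.C * S.v)) ^ 4 * T +
      6 * (2 * (S.C * S.v)) / S.C ≤ X0) :
    ∃ z, 0 ≤ z ∧ Q z ∧ ∫ t in (0 : ℝ)..T, JJ M S m a T t ^ 2 ≤ κE c * X0 ∧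
      ∫ t in A0..s, HH M S m a T t * uu M S m a T t ≤ κE c * X0 ∧ z ≤ κE c * X0 ∧
      mf S A0 * D ^ 2 * A0 ≤ κE c * X0 := by
  have hc := F.c_pos
  have θp := Z.θ0
  have hA := Z.hA
  have sT := Z.sT
  have C0 := A.c_pos
  have v0 := v_pos A.cl
  have cv := mul_pos C0 v0
  have i2 := A.cl.i2
  have T0 : 0 ≤ T := by linarith
  have lu : LB T (uu M S m a T) := A.LB_u
  have lJ : LB T (JJ M S m a T) := F.lbJ A.okh A.okb (right_mem_Icc.mpr T0)
  have l4 : LB T fun t => uu M S m a T t ^ 4 := by simpa only [← pow_mul] using lu.sq.sq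
  have X00 : 0 ≤ X0 := le_trans (by positivity) hv
  have sJ1 : M.s (S.J - 1) < M.s S.J := by
    have := s_lt A.cl (show S.J - 1 < S.J by omega)
    rwa [Nat.sub_add_cancel (by omega)] at this
  have bJ : max s (M.s (S.J - 1)) < M.s S.J := max_lt sJ sJ1
  have j1 := int_sub_le lJ.sq le_rfl le_rfl (hA.trans As.le) sT le_rfl fun _ _ _ => sq_nonneg _
  have j2 := int_sub_le lJ.sq le_rfl le_rfl hA (As.le.trans sT) le_rfl fun _ _ _ => sq_nonneg _
  have j3 := int_sub_le l4 le_rfl hA As.le le_rfl sT fun _ _ _ => by positivity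
  have j4 : 0 ≤ ∫ t in A0..s, uu M S m a T t ^ 4 :=
    intervalIntegral.integral_nonneg As.le fun _ _ => by positivity
  have pE : 0 ≤ ∫ t in (0 : ℝ)..T, JJ M S m a T t ^ 2 :=
    intervalIntegral.integral_nonneg T0 fun _ _ => sq_nonneg _
  have pH : 0 ≤ ∫ t in A0..s, HH M S m a T t * uu M S m a T t := by
    simpa using int_mono (LB.const 0) (Z.R.lH.mul lu) hA As.le sT Z.R.H_nn
  have ι2 : io M S m a T ^ 2 ≤ (T - 0) * ∫ t in (0 : ℝ)..T, JJ M S m a T t ^ 2 :=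
    Gap27.sq_int_le lJ le_rfl T0 le_rfl
  obtain ⟨z, ⟨z0, q⟩, k⟩ := F.top0 A.okb A.okh (b := max s (M.s (S.J - 1))) (K3 := 1) (Ff := X0)
    (P0 := X0) (Ω := X0 / c) (Q := fun z => 0 ≤ z ∧ Q z) hA As (le_max_left _ _)
    (bJ.le.trans A.sJ_T) C0 θp Z.lm Z.lf Z.R Z.mass (by rw [one_mul]; exact hF)
    (by linarith [th.s2]) (fun x y h1 h2 h3 => by linarith [(A.sl bJ x y h1 h2 h3).2]) Z.h0
    (fun t ht => by
      have e1 := zs t ht
      have e2 := Sc48.lvr_mono A.okh.1.1 (le_max_right s (M.s (S.J - 1)))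
      rw [A.lvh_node (by have := A.cl.i1; omega) (by omega)] at e2
      linarith) Z.D1 Z.D2 Z.ρ0 Z.ab Z.hf0 Z.num Z.l0 (ls.trans sT)
    (ar.trans (add_le_add le_rfl (mul_le_mul_of_nonneg_left j1 (by positivity)))) Ar0
    (fun H' r1' r2' ω' β' ξ' R e1 e2 => by
      obtain ⟨X, z, q, e, hX⟩ := ext.top (hA.trans_lt As) H' r1' r2' ω' β' ξ' R e1 e2
      exact ⟨X, z, q, e, hX.trans (le_of_eq (by unfold JJ; ring))⟩)
    (by
      rw [div_le_iff₀ hc, add_mul, div_mul_cancel₀ _ hc.ne']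
      refine hΩ.trans (add_le_add le_rfl ?_)
      have e1 : θ0 ^ 2 ≤ θ0 * c := by rw [sq]; exact mul_le_mul_of_nonneg_left th.s1 θp.le
      exact (mul_le_mul e1 j3 j4 (by positivity)).trans (le_of_eq (by unfold uu; ring)))
    th.s4 (by linarith [th.s2])
  change c / 8 * (∫ t in (0 : ℝ)..T, JJ M S m a T t ^ 2) +
    (∫ t in A0..s, HH M S m a T t * uu M S m a T t) / 8 + z / 4 ≤ _ at k
  generalize (∫ t in (0 : ℝ)..T, JJ M S m a T t ^ 2) = I at *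
  generalize (∫ t in A0..s, HH M S m a T t * uu M S m a T t) = Hh at *
  generalize (∫ t in (0 : ℝ)..A0, JJ M S m a T t ^ 2) = I1 at *
  generalize 4096 * S.C ^ 2 * (2 * (S.C * S.v)) ^ 2 * T ^ 3 + 8 * (2 * (S.C * S.v)) ^ 4 * T +
      6 * (2 * (S.C * S.v)) / S.C = δ at *
  have l0 := Z.l0
  have θ1 : θ0 ≤ 1 := by linarith [th.s2]
  have a1 : 0 ≤ A0 * f0 := mul_nonneg hA Z.hf0
  have a2 : 0 ≤ ρ ^ 2 / l' := by positivity
  have a3 : 0 ≤ mf S A0 * D ^ 2 * A0 :=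
    mul_nonneg (mul_nonneg (L25.mf_pos' A.cl hA).le (sq_nonneg _)) hA
  have ic : 0 < 1 / c := by positivity
  have g1 : A0 * io M S m a T ^ 2 ≤ T ^ 2 * I :=
    (mul_le_mul (As.le.trans sT) ι2 (sq_nonneg _) T0).trans (le_of_eq (by ring))
  have g2 : θ0 ^ 2 * (I1 + A0 * io M S m a T ^ 2) ≤ θ0 * ((1 + T ^ 2) * I) := by
    refine (mul_le_mul_of_nonneg_left (show _ ≤ (1 + T ^ 2) * I by linarith) (sq_nonneg _)).trans
      (mul_le_mul_of_nonneg_right (by nlinarith) (by positivity))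
  have g3 : (1 + 16 / c) * (θ0 * ((1 + T ^ 2) * I)) ≤ c / 16 * I := by
    linarith [mul_le_mul_of_nonneg_right th.s5 pE]
  have g0 : 0 ≤ θ0 * ((1 + T ^ 2) * I) := by positivity
  generalize θ0 * ((1 + T ^ 2) * I) = G at *
  have e1 : 16 * ρ ^ 2 / (c * l') = 16 * (1 / c * (ρ ^ 2 / l')) := by field_simp
  have e2 : X0 / c = 1 / c * X0 := by ring
  have e3 : 16 / c = 16 * (1 / c) := by ring
  have e4 : κE c * X0 = (8 + 16 * (1 / c)) * ((7 + 17 * (1 / c)) * X0) := by unfold κE; ring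
  rw [e1, e2] at k
  rw [e3] at g3
  rw [e4]
  have e5 : c * (1 / c) = 1 := by field_simp
  generalize 1 / c = i at *
  have b1 : θ0 * (A0 * f0 + X0 + 3 * δ) ≤ A0 * f0 + 4 * X0 :=
    (mul_le_mul_of_nonneg_left (show _ ≤ A0 * f0 + 4 * X0 by linarith) θp.le).trans
      (mul_le_of_le_one_left (by linarith) θ1)
  have b2 : i * (ρ ^ 2 / l') ≤ i * (X0 + G) := mul_le_mul_of_nonneg_left (by linarith) ic.le
  have iX : 0 ≤ i * X0 := by positivity
  have iG : 0 ≤ i * G := by positivity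
  have cI : 0 ≤ c * I := by positivity
  have fin : c / 16 * I + Hh / 8 + z / 4 ≤ (6 + 17 * i) * X0 := by linarith
  have y0 : 0 ≤ (7 + 17 * i) * X0 := by positivity
  have y1 : 0 ≤ i * ((7 + 17 * i) * X0) := by positivity
  refine ⟨z, z0, q, ?_, by linarith, by linarith, by linarith⟩
  have y2 := mul_le_mul_of_nonneg_left (show c * I ≤ 16 * ((7 + 17 * i) * X0) by linarith) ic.le
  have y3 : i * (c * I) = I := by rw [← mul_assoc, mul_comm i, e5, one_mul]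
  linarith

end Crest.Agent.T156.Alt.L31

end
end

-- ▼ part T156/LGl_63
section

/-!
# Row 156, block (L): (TL1x) and (BoS) from the internal statements (helper63)
-/

set_option autoImplicit false

noncomputable section

namespace Crest.Agent.T156.Alt.L31

open MeasureTheory Set Real
open Crest.Agent.R164.GC Crest.Agent.R339.B Crest.Agent.R339.Var Crest.Agent.T157.Pf
open Crest.Agent.T156.Cut8
open Crest.Agent.T156.Gap27 (resN)
open Crest.Agent.T156.Alt.Mp9 Crest.Agent.T156.Alt.L69 Crest.Agent.T156.Alt.C74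

/-- glue with one small loss `L` -/
theorem glue63 {P R : CP} (H : CL P) (j : ℕ) (h : ∀ C : ℝ, ∃ K0 : ℝ, ∀ E L Λ S M m a, S.C = C →
    Cl S M → S.In m a → K0 ≤ L → 1000 ≤ L → L ^ j ≤ E → L ^ j ≤ Λ → S.θ ≤ 1 →
    S.v ≤ 1 / (S.n : ℝ) ^ 4 → P E L S M m a → R E Λ S M m a) : CL R :=
  H.glue fun C => ⟨5, fun A hA ε η hε hη => by
    obtain ⟨K0, h⟩ := h C
    have p : (0 : ℝ) < j + 1 := by positivity
    have h0 : 0 < min ε η / (j + 1) := by positivity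
    have h1 : min ε η / (j + 1) * j ≤ min ε η := by
      rw [div_mul_eq_mul_div, div_le_iff₀ p]
      exact mul_le_mul_of_nonneg_left (by linarith) (by positivity)
    refine ⟨ε, min ε η / (j + 1), K0, hε, h0, fun S M m a G c I q => ?_⟩
    have k : ∀ x, min ε η ≤ x → ((S.n : ℝ) ^ (min ε η / (j + 1))) ^ j ≤ (S.n : ℝ) ^ x := fun x hx => by
      rw [← rpow_natCast, ← rpow_mul G.N0.le]
      exact rpow_le_rpow_of_exponent_le G.N1.le (h1.trans hx)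
    exact h _ _ _ S M m a G.hC c I G.K_le G.num_le (k _ (min_le_left _ _)) (k _ (min_le_right _ _))
      (G.θ1 c) (L25.v4_of G c hA) q⟩

def BuP (θ0 : ℝ) : CP := fun E Λ S M m a =>
  ∀ p lam W Gn V0, Hx E lam S M m a p → lam ≤ W → W ^ 1000 ≤ E → Ng E W S M m a p Gn V0 →
  ∀ u v, Vs M p Gn u → Ve S M m a Gn V0 v → u < v →
  ∃ r1 r2 ω β f, Bk (Λ * W ^ 30) θ0 S M m a p Gn u v r1 r2 ω β f

def NgP : CP := fun E Λ S M m a => ∀ p lam, Hx E lam S M m a p →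
  ∃ Gn V0, Ng E (Λ * lam ^ 30) S M m a p Gn V0

def TxP : CP := fun E Λ S M m a => ∀ p lam K θ1 X4 t4 Gn V0, Hx E lam S M m a p → lam ≤ K →
  K ^ 1000 ≤ E → 1 ≤ K * θ1 → E * t4 ≤ S.C → L4 S p.V p.X t4 S.C X4 → Ng E K S M m a p Gn V0 →
  ∃ v, Ve S M m a Gn V0 v ∧ ∀ A A0 En βs, 0 ≤ A → A ≤ sb M m a (v + 1) → 0 ≤ A0 →
    8 * A0 ≤ M.s S.J → (∫ t in A0..2 * S.C, JJ M S m a (2 * S.C) t ^ 2) +
      (∫ t in (0 : ℝ)..A0, |JJ M S m a (2 * S.C) t|) ^ 2 ≤ En → 0 ≤ βs →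
    βs ≤ K * bE S M m a p (sb M m a (v + 1)) →
    Cont (2 * S.C) (uu M S m a (2 * S.C)) (rq S M m a)
      (resN (lb M S m a (2 * S.C)) M.b (sb M m a) (hb M) (v + 1)) βs A (sb M m a (v + 1))
      (θ1 * En + Λ * K ^ 990 * S.F ^ 10 * Nn S M p X4 t4)
      (L25.QT S M m a (2 * S.C) (sb M m a (v + 1)) (Λ * K ^ 990 * p.u2) (Λ * K ^ 990 * S.F) En
        (S.F ^ 10 * Nn S M p X4 t4))

def BoP : CP := fun E Λ S M m a => ∀ p lam W θ0 Gn V0 u v r1 r2 ω β f Eg,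
  Hx E lam S M m a p → p.l0 = p.l → p.V = cr S p.l * p.l → lam ≤ W → W ^ 1000 ≤ E →
  Λ ^ 1000 ≤ E → Ng E W S M m a p Gn V0 → Vs M p Gn u → M.s u ≤ 4 * p.l → Ve S M m a Gn V0 v →
  u < v → Bk W θ0 S M m a p Gn u v r1 r2 ω β f →
  ∫ r in (0 : ℝ)..2 * S.C, JJ M S m a (2 * S.C) r ^ 2 ≤ W * S.F ^ 12 * Eg →
  ∫ r in sb M m a (u + 1)..sb M m a (v + 1), HH M S m a (2 * S.C) r * uu M S m a (2 * S.C) r ≤
    W * S.F ^ 12 * Eg →
  ∃ ρ, Bo S M m a (2 * S.C) θ0 (Λ * W ^ 10) p.l p.X p.X2 Eg p.η u (sb M m a (v + 1)) ρ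
    r1 r2 ω β f

def RtP (K C B c θ0 : ℝ) : Prop :=
  ∀ (S : Sc) (M : Md) (m : ℕ) (a G1 L l X X2 Eg Y : ℝ) (η : ℝ → ℝ) (u : ℕ) (s ρ : ℝ)
    (r1 r2 ω β f : ℝ → ℝ), At S M m a (2 * C) → S.C = C → CeiG S M G1 →
  (∀ t t', 0 ≤ t → t ≤ t' → S.ms t' ≤ S.ms t + t' ^ 2) →
  Fr (2 * C) c B (Spl27.okT (2 * C)) (lvr 1) Pr.Gam Pr.GG → K ≤ L → 0 < l → L * S.v ≤ l ^ 2 →
  0 ≤ X2 → L ^ 4 * X2 ≤ mf S l → L ^ 2 * (cr S l * l) ≤ s →
  Bo S M m a (2 * C) θ0 L l X X2 Eg η u s ρ r1 r2 ω β f → 0 ≤ Y →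
  ρ ≤ L * ((sb M m a (u + 1) + l) * X2 + l * (cr S l * l) ^ 2 + √(sb M m a (u + 1) * Y)) →
  ∃ l' D f0 Ar, Rt (2 * C) B θ0 (lvr 1 (lh M (2 * C))) (lvr 1 (lb M S m a (2 * C))) (rq S M m a)
      (HH M S m a (2 * C)) r1 r2 ω β (mm M S m a) f (sb M m a (u + 1)) s l' D ρ f0 C
      (2 * (C * S.v)) ∧
    0 ≤ Ar ∧ l' ≤ L * (cr S l * l) ∧
    (∀ b, 2 * l' ≤ b → sb M m a (u + 1) ≤ b → b ≤ s →
      ρ * ∫ t in (0 : ℝ)..l', |uu M S m a (2 * C) t| ≤ Ar +
        (∫ t in sb M m a (u + 1)..b, HH M S m a (2 * C) t * uu M S m a (2 * C) t) / 16 +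
        c / 32 * ∫ t in (0 : ℝ)..b, JJ M S m a (2 * C) t ^ 2) ∧
    sb M m a (u + 1) * f0 + ρ ^ 2 / l' + Ar + mf S (sb M m a (u + 1)) * D ^ 2 * sb M m a (u + 1) ≤
      L ^ 70 * S.F ^ 10 * (W0 S l + cr S l * l * X2 ^ 2 + Y) +
      θ0 ^ 2 * ((∫ t in (0 : ℝ)..sb M m a (u + 1), JJ M S m a (2 * C) t ^ 2) +
        sb M m a (u + 1) * io M S m a (2 * C) ^ 2)

variable {S : Sc} {M : Md} {m : ℕ} {a E lam L W W' K B c θ0 KR X4 : ℝ} {p : Pa} {Gn : ℕ → Prop}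
  {V0 : ℕ}

theorem Hx.at' (H : Hx E lam S M m a p) (h : Cl S M) (I : S.In m a) : At S M m a (2 * S.C) :=
  ⟨h, I, by linarith [h.b1, H.ln.HJ], by linarith [h.sT, h.C1]⟩

theorem Ng.mono63 (G : Ng E W S M m a p Gn V0) (H : Hx E lam S M m a p) (A : At S M m a (2 * S.C))
    (hW : W ≤ W') : Ng E W' S M m a p Gn V0 := by
  have h := A.cl
  have F1 := h.F1
  have l0 := H.l00 h
  have τ0 : 0 ≤ p.τ := by
    have w : 0 ≤ S.w3 1 := div_nonneg (by linarith)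
      (mul_nonneg (mul_nonneg h.N0.le zero_le_one) (h.ms_pos zero_le_one).le)
    exact (Odd.pow_nonneg_iff (by decide : Odd 3)).1 (w.trans H.lp.tw)
  have e1 := H.η0 one_pos
  have g0 := H.γ0 h
  have m1 := L25.mf_pos' h zero_le_one
  refine ⟨Sz9.NG_mono G.ng A hW ((H.lp0 h).trans_le (le_max_left _ _))
    (lt_of_lt_of_le (by have := H.E1 h; positivity) H.ln.Lg0) (by positivity) (H.X20 h)
    fun k _ => ?_, G.n2.trans (mul_le_mul_of_nonneg_right hW (H.X20 h)),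
    fun k hk => (G.cru k hk).trans (mul_le_mul_of_nonneg_right hW ?_)⟩
  · rcases le_total (M.s k) 1 with q | q
    · exact e1.trans (H.ln.ηa q)
    · exact H.η0 (by linarith)
  · exact add_nonneg (mul_nonneg (zero_le_one.trans (Ab33.cr_one S _))
      (l0.le.trans (le_max_right _ _))) H.ln.V0

/-- the numbers of the root -/
theorem Hx.root (H : Hx E lam S M m a p) (h : Cl S M) (hθ : S.θ ≤ 1)
    (v4 : S.v ≤ 1 / (S.n : ℝ) ^ 4) {Q : ℝ} (Q1 : 1 ≤ Q) (hQ : Q ^ 18 ≤ E) :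
    Q ^ 3 * (cr S p.l * p.l) ≤ 1 ∧ Q * S.v ≤ p.l ^ 2 ∧ Q ^ 4 * p.X2 ≤ mf S p.l ∧
      Q * S.v ≤ 1 / (S.n : ℝ) ^ 3 := by
  have l0 := H.lp0 h
  have l1 := H.l_one h
  have F1 := h.F1
  have E1 := H.E1 h
  have n1 : (1 : ℝ) ≤ S.n := E1.trans (H.E_n h)
  have q1 : Q ≤ S.n := ((le_self_pow₀ Q1 (by norm_num)).trans hQ).trans (H.E_n h)
  have a4 : Q * S.v ≤ 1 / (S.n : ℝ) ^ 3 :=
    (mul_le_mul q1 v4 (v_pos h).le (by linarith)).trans (le_of_eq (by field_simp))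
  have m1 : S.ms p.l ≤ 1 := (h.ms1 _).trans hθ
  refine ⟨?_, ?_, (mul_le_mul_of_nonneg_right ((pow_le_pow_right₀ Q1 (by norm_num)).trans hQ)
    (H.X20 h)).trans H.ln.th3, a4⟩
  · have b1 : (cr S p.l * p.l) ^ 3 ≤ S.F * p.l := by
      rw [Ab33.cc_cube h l0]
      refine max_le ((pow_le_of_le_one l0.le l1 (by norm_num)).trans
        (le_mul_of_one_le_left l0.le F1)) (mul_le_mul_of_nonneg_right
          (mul_le_of_le_one_right (by linarith) m1) l0.le)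
    have b2 : Q ^ 9 * S.F ≤ E := by
      refine le_of_pow_le_pow_left₀ two_ne_zero (by linarith) ?_
      rw [mul_pow, ← pow_mul, sq E]
      exact mul_le_mul hQ ((pow_le_pow_right₀ F1 (by norm_num)).trans H.F40) (by positivity)
        (by linarith)
    refine le_of_pow_le_pow_left₀ three_ne_zero zero_le_one ?_
    rw [mul_pow, ← pow_mul, one_pow]
    refine (mul_le_mul_of_nonneg_left b1 (by positivity)).trans ?_
    rw [← mul_assoc]
    exact (mul_le_mul_of_nonneg_right b2 l0.le).trans H.ln.l1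
  · refine a4.trans ((H.n3 h).trans ?_)
    exact (mul_le_of_le_one_left (by positivity) m1).trans
      (pow_le_pow_of_le_one l0.le l1 (by norm_num))

theorem Hx.X40 (H : Hx E lam S M m a p) (h : Cl S M) (x4 : L4 S p.V p.X p.l S.C X4) : 0 ≤ X4 := by
  have h0 := H.lp0 h
  refine le_trans ?_ (x4 p.l le_rfl ((H.l_one h).trans h.C1))
  have c : 0 ≤ cl S p.V p.l :=
    add_nonneg (mul_nonneg (zero_le_one.trans (Ab33.cr_one S _)) h0.le) H.ln.V0
  have w : 0 ≤ S.w3 p.l := div_nonneg (by linarith [h.F1])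
    (mul_nonneg (mul_nonneg h.N0.le h0.le) (h.ms_pos h0.le).le)
  have : 0 ≤ ws S p.V p.l := mul_nonneg (div_nonneg c h0.le) (rpow_nonneg w _)
  have : 0 ≤ min p.X (cl S p.V p.l ^ 3) := le_min H.ln.X0.le (by positivity)
  positivity

/-- constants below the loss -/
structure Kc (S : Sc) (L c KR : ℝ) : Prop where
  L1 : 1000 ≤ L
  C : 10 ^ 15 * S.C ^ 17 ≤ L
  kr : KR ≤ L
  c8 : 8 / c ≤ L
  κ : κE c ≤ L

/-- **frame, energy and location at a point** -/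
theorem core63 (H : Hx E L S M m a p) (A : At S M m a (2 * S.C)) (e0 : p.l0 = p.l)
    (eV : p.V = cr S p.l * p.l) (x4 : L4 S p.V p.X p.l S.C X4) (hθ : S.θ ≤ 1)
    (v4 : S.v ≤ 1 / (S.n : ℝ) ^ 4)
    (F : Fr (2 * S.C) c B (Spl27.okT (2 * S.C)) (lvr 1) Pr.Gam Pr.GG) (th : Th (2 * S.C) S.C c θ0)
    (k : Kc S L c KR) (hK : K = L * (L * L ^ 30) ^ 30) (KE : K ^ 1000 ≤ E)
    (ng : NgP E L S M m a) (bu : BuP θ0 E L S M m a) (tx : TxP E L S M m a) (bo : BoP E L S M m a)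
    (rt : RtP KR S.C B c θ0) :
    ∃ Gn V0 u v, Ng E (L * L ^ 30) S M m a p Gn V0 ∧ Vs M p Gn u ∧ M.s u ≤ 4 * p.l ∧
      Ve S M m a Gn V0 v ∧ u < v ∧
      ∫ r in (0 : ℝ)..2 * S.C, JJ M S m a (2 * S.C) r ^ 2 ≤ K ^ 1101 * S.F ^ 10 * Hx.Eg S M p X4 ∧
      ∫ r in sb M m a (u + 1)..sb M m a (v + 1), HH M S m a (2 * S.C) r * uu M S m a (2 * S.C) r ≤
        K ^ 1101 * S.F ^ 10 * Hx.Eg S M p X4 ∧
      LO (K ^ 2100 * S.F ^ 12) S M m a p.l p.u2 (Hx.Eg S M p X4) := by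
  have h := A.cl
  have C1 := h.C1
  have F1 := h.F1
  have hc := F.c_pos
  have Lb := k.L1
  have L1 : 1 ≤ L := by linarith only [Lb]
  have v0 := v_pos h
  have l0 := H.lp0 h
  have l1 := H.l_one h
  have LW : L ≤ L * L ^ 30 := le_mul_of_one_le_right (by linarith only [L1]) (one_le_pow₀ L1)
  have W1 := L1.trans LW
  have WK : L * L ^ 30 ≤ K := hK ▸ (le_self_pow₀ W1 (by norm_num)).trans
    (le_mul_of_one_le_left (by positivity) L1)
  have LK := LW.trans WK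
  have K1 := L1.trans LK
  have pk : ∀ j ≤ 1000, K ^ j ≤ E := fun j hj => (pow_le_pow_right₀ K1 hj).trans KE
  have pc : ∀ j ≤ 17, 10 ^ 15 * S.C ^ j ≤ L := fun j hj =>
    (mul_le_mul_of_nonneg_left (pow_le_pow_right₀ C1 hj) (by norm_num)).trans k.C
  have E2 : 2 ≤ E := by linarith only [pk 1 (by norm_num), LK, Lb, pow_one K]
  obtain ⟨Gn, V0, G⟩ := ng p L H
  have G' := G.mono63 H A WK
  obtain ⟨Q, hQ⟩ : ∃ Q, Q = L * K ^ 10 := ⟨_, rfl⟩
  have KQ : L * K ≤ Q := hQ ▸ mul_le_mul_of_nonneg_left (le_self_pow₀ K1 (by norm_num))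
    (by linarith only [L1])
  have LQ : L ≤ Q := (le_mul_of_one_le_right (by linarith only [L1]) K1).trans KQ
  have Q1 := L1.trans LQ
  have Q0 : 0 < Q := by linarith only [Q1]
  have QK : Q ≤ K ^ 11 := by
    rw [hQ, pow_succ' K 10]
    exact mul_le_mul_of_nonneg_right LK (by positivity)
  obtain ⟨r3, rv, rX, rn⟩ := H.root h hθ v4 Q1
    ((pow_le_pow_left₀ Q0.le QK 18).trans (by rw [← pow_mul]; exact pk _ (by norm_num)))
  have cc : p.l ≤ cr S p.l * p.l := le_mul_of_one_le_left l0.le (Ab33.cr_one S _)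
  have c0 := l0.trans_le cc
  have q2 : 1000 * (Q ^ 2 * (cr S p.l * p.l)) ≤ 1 := by
    have := mul_le_mul_of_nonneg_right (Lb.trans LQ) (show 0 ≤ Q ^ 2 * (cr S p.l * p.l) by positivity)
    linarith only [this, r3]
  have q1 : Q * (cr S p.l * p.l) ≤ Q ^ 2 * (cr S p.l * p.l) :=
    mul_le_mul_of_nonneg_right (le_self_pow₀ Q1 two_ne_zero) c0.le
  have q0 : cr S p.l * p.l ≤ Q * (cr S p.l * p.l) := le_mul_of_one_le_left c0.le Q1
  have Ll : L * p.l ≤ 1 := by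
    linarith only [mul_le_mul LQ cc l0.le Q0.le, q1, q2]
  have c7 : 10 ^ 15 * S.C ^ 7 * p.l ≤ 1 :=
    (mul_le_mul_of_nonneg_right (pc 7 (by norm_num)) l0.le).trans Ll
  have c4 : S.C ^ 4 * p.l ≤ S.C ^ 7 * p.l :=
    mul_le_mul_of_nonneg_right (pow_le_pow_right₀ C1 (by norm_num)) l0.le
  have c2 : S.C ^ 2 * p.l ≤ S.C ^ 4 * p.l :=
    mul_le_mul_of_nonneg_right (pow_le_pow_right₀ C1 (by norm_num)) l0.le
  have c1 : p.l ≤ S.C ^ 2 * p.l := le_mul_of_one_le_left l0.le (one_le_pow₀ C1)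
  have lJ : 100 * (S.C ^ 4 * p.l) ≤ M.s S.J :=
    le_of_mul_le_mul_left (a := 3 * S.C ^ 3) (by linarith only [Ab33.sJ_ge h, c7, c4, c2, c1, l0])
      (by positivity)
  have JC : M.s S.J ≤ S.C := (h.sm h.i3).trans h.sT
  have jl : M.s S.jl ≤ p.l := ((le_mul_of_one_le_left (h.s_nn _) (H.E1 h)).trans H.ln.l0s).trans
    H.ln.l0l
  have c3 : 0 < S.C ^ 3 := by positivity
  obtain ⟨u, gu, ju, -, -, u1, u2⟩ := ng_gs (t := 9 / 4 * p.l) h G.ng (by positivity)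
    ((mul_le_mul (show 18 * S.C ^ 3 ≤ K by linarith only [pc 3 (by norm_num), LK, c3])
      WK (by positivity) (by positivity)).trans
      (((sq K).ge.trans (pk 2 (by norm_num))).trans ((le_mul_of_one_le_right (by linarith only [E2])
        (one_le_pow₀ F1)).trans H.ln.Lg0)))
    (by rw [e0]; exact max_le (by linarith only [l0]) (by linarith only [l0]))
    (by linarith only [jl, l0])
    (by
      have a1 := mul_le_mul_of_nonneg_right (show 32 * S.C ^ 3 ≤ Q by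
        linarith only [pc 3 (by norm_num), LQ, c3]) v0.le
      linarith only [a1, rv, pow_le_of_le_one l0.le l1 two_ne_zero, l0])
    (by linarith only [lJ, c2, c1, l0])
  have vs : Vs M p Gn u := ⟨gu, by
    rw [e0, max_eq_right (by linarith only [l0])]; linarith only [u1]⟩
  obtain ⟨v, ve, ext⟩ := tx p L K (c / 8) X4 p.l Gn V0 H LK KE
    (by
      have := (div_le_iff₀ hc).1 (k.c8.trans LK)
      linarith only [this]) (H.ln.l1.trans C1) x4 G'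
  obtain ⟨gv, vV, v1, v2, v3⟩ := id ve
  have uv : u < v := lt_of_not_ge fun q => by linarith only [h.sm q, v1, u2, lJ, c2, c1, l0]
  have vJ : v < S.J := by have := G.ng.hV; omega
  obtain ⟨r1, r2, ω, β, f, bk⟩ := bu p L _ Gn V0 H LW
    ((pow_le_pow_left₀ (by positivity) WK _).trans KE) G u v vs ve uv
  rw [← hK] at bk
  have kf : 1 ≤ K * S.F ^ 12 := one_le_mul_of_one_le_of_one_le K1 (one_le_pow₀ F1)
  have mx : ∀ x y : ℝ, x ≤ K * S.F ^ 12 * max (max x y) 0 ∧ y ≤ K * S.F ^ 12 * max (max x y) 0 :=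
    fun x y => by
      have := le_mul_of_one_le_left (le_max_right (max x y) 0) kf
      exact ⟨((le_max_left _ _).trans (le_max_left _ _)).trans this,
        ((le_max_right _ _).trans (le_max_left _ _)).trans this⟩
  obtain ⟨ρ, Z⟩ := bo p L K θ0 Gn V0 u v r1 r2 ω β f _ H e0 eV LK KE H.lE G' vs
    (by linarith only [u2, l0]) ve uv bk (mx _ _).1 (mx _ _).2
  rw [← hQ] at Z
  have X40 := H.X40 h x4
  have A0 := (A.sb_mem (Z.uJ.le.trans h.i3)).1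
  have AQ : sb M m a (u + 1) * Q < 1 := by
    linarith only [mul_le_mul_of_nonneg_right Z.cru Q0.le, q2]
  have As : sb M m a (u + 1) < sb M m a (v + 1) :=
    lt_of_mul_lt_mul_right (a := Q) (by linarith only [AQ, Z.s1.1]) Q0.le
  have Qs : Q ^ 2 * (cr S p.l * p.l) ≤ sb M m a (v + 1) :=
    le_of_mul_le_mul_left (a := Q) (by linarith only [r3, Z.s1.1]) Q0
  have ρ1 := Z.ρ1 (1 / Q) X4 ((lt_div_iff₀ Q0).2 AQ) ((le_div_iff₀ Q0).2 (by
      linarith only [mul_le_mul_of_nonneg_left cc (sq_nonneg Q), q2]))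
    (mul_one_div_cancel Q0.ne').le fun t a1 a2 => eV ▸ x4 t a1 (a2.trans (by
      rw [mul_one_div, div_le_iff₀ Q0]
      linarith only [le_mul_of_one_le_left Q0.le C1, LQ, Lb]))
  obtain ⟨l', D, f0, Ar, Zt, Ar0, ll, ar, rs⟩ := rt S M m a p.G1 Q p.l p.X p.X2 _ X4 p.η u _ ρ
    r1 r2 ω β f A rfl H.ce H.ln.sub F (k.kr.trans LQ) l0 rv (H.X20 h) rX Qs Z X40 ρ1
  obtain ⟨w1, w0⟩ := H.W0_le h X40
  have N0 := H.N0 h
  have nn := H.Nn_le h X4
  have x2 := sq_nonneg p.X2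
  have cb := Hx.cB0 h p.η p.l S.C
  have n3 : 0 ≤ 1 / (S.n : ℝ) ^ 3 := by positivity
  have e3 : Nn S M p X4 p.l =
    p.N + p.X2 ^ 2 + X4 + cB M S p.η p.l S.C + 1 / (S.n : ℝ) ^ 3 := rfl
  generalize hg : Hx.Eg S M p X4 = g at *
  have g0 : 0 ≤ g := by linarith only [w1, w0, N0, x2, X40]
  have up : ∀ y x, y ≤ Q ^ 100 → ∀ j ≤ 10, x ≤ y * (S.F ^ j * g) → x ≤ Q ^ 100 * S.F ^ 10 * g :=
    fun y x a1 j a2 a3 => a3.trans (by
      rw [mul_assoc]
      exact mul_le_mul a1 (mul_le_mul_of_nonneg_right (pow_le_pow_right₀ F1 a2) g0) (by positivity)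
        (by positivity))
  have QQ : Q ≤ Q ^ 100 := le_self_pow₀ Q1 (by norm_num)
  have sC : sb M m a (v + 1) ≤ S.C := v3.le.trans JC
  have lu : p.l ≤ M.s u := Z.su.1
  have ll' : 2 * l' ≤ sb M m a (v + 1) := by
    have := mul_le_mul_of_nonneg_right (show 2 ≤ Q by linarith only [LQ, Lb])
      (show 0 ≤ Q * (cr S p.l * p.l) by positivity)
    linarith only [this, ll, Qs]
  obtain ⟨z, z0, qt, b1, b2, b3, b4⟩ := en63 (X0 := Q ^ 100 * S.F ^ 10 * g) F A th Zt As v3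
    (fun t ht => L25.zs_of A (ju.trans uv).le vJ ht) (by linarith only [ll', Zt.l0])
    (ar _ ll' As.le le_rfl) Ar0
    (rs.trans (add_le_add ((mul_le_mul_of_nonneg_left (show _ ≤ g by
      linarith only [w1, N0, mul_le_mul_of_nonneg_right (show cr S p.l * p.l ≤ 1 by
        linarith only [q0, q1, q2, c0]) x2]) (by positivity)).trans
      (up _ _ (pow_le_pow_right₀ Q1 (show 70 ≤ 100 by norm_num)) 10 le_rfl (mul_assoc _ _ _).le))
      le_rfl))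
    ((bk.hF v p.l S.C uv.le le_rfl gv le_rfl lu (by linarith only [c7, c4, c2, c1, l0, C1])
      (by linarith only [c7, c4, c2, c1, l0]) ((h.sm vJ.le).trans JC) sC).trans (add_le_add
        (up (2 * K) _ (le_trans (by nlinarith only [KQ, Lb, K1]) QQ) 3 (by norm_num) (by
          have a1 : S.ms p.l * p.l ^ 2 * max (p.l - sb M m a (u + 1)) 0 ≤ g := by
            have := mul_le_mul_of_nonneg_left (max_le (show p.l - sb M m a (u + 1) ≤ p.l by
              linarith only [A0]) l0.le) (mul_pos (h.ms_pos l0.le) (pow_pos l0 2)).le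
            unfold W0 at w1
            linarith only [this, w1, N0, x2, X40, pow_pos l0 5]
          have a2 := mul_le_mul_of_nonneg_left a1 (show 0 ≤ S.F ^ 3 by positivity)
          have a3 := le_mul_of_one_le_left g0 (one_le_pow₀ (n := 3) F1)
          rw [mul_comm 2, mul_assoc K]
          exact mul_le_mul_of_nonneg_left (by linarith only [a2, a3, nn, e3, N0, x2, X40])
            (by linarith only [K1]))) le_rfl))
    ((bk.hΩ v p.l S.C X4 uv.le le_rfl gv le_rfl lu (by linarith only [c7, c4, c2, c1, l0]) sC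
      (by rwa [min_eq_right (by linarith only [C1])]) X40).trans (add_le_add
        (up (L * K) _ (KQ.trans QQ) 0 (by norm_num) (by
          have CL : S.C ≤ L := by linarith only [pc 1 (by norm_num), C1, pow_one S.C]
          have a1 := mul_le_mul_of_nonneg_right CL x2
          have a2 := le_mul_of_one_le_left
            (show 0 ≤ p.N + X4 + cB M S p.η p.l S.C + 1 / (S.n : ℝ) ^ 3 by positivity) L1
          have a3 := mul_le_mul_of_nonneg_left (e3 ▸ nn) (show 0 ≤ L by positivity)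
          rw [pow_zero, one_mul, mul_comm L, mul_assoc K]
          refine mul_le_mul_of_nonneg_left ?_ (by linarith only [K1])
          split_ifs <;> linarith only [a1, a2, a3, N0, cb])) le_rfl))
    (by
      rw [bk.r2s]
      refine (ext 0 0 _ _ le_rfl (A0.trans As.le) le_rfl (by linarith only [lJ, c2, c1, l0])
        (by simp) bk.be.1 bk.be.2).mono (add_le_add le_rfl (up (L * K ^ 990) _ ?_ 10 le_rfl ?_))
        fun _ _ q => q
      · rw [hQ, mul_pow, ← pow_mul]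
        exact mul_le_mul (le_self_pow₀ L1 (by norm_num)) (pow_le_pow_right₀ K1 (by norm_num))
          (by positivity) (by positivity)
      · rw [mul_assoc (L * K ^ 990)]
        exact mul_le_mul_of_nonneg_left (mul_le_mul_of_nonneg_left nn (by positivity))
          (by positivity))
    (up 1 _ (one_le_pow₀ Q1) 0 (by norm_num) (by
      have C0 : S.C ≠ 0 := by positivity
      have w : S.v ≤ 1 := by
        linarith only [le_mul_of_one_le_left v0.le Q1, rv, pow_le_one₀ (n := 2) l0.le l1]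
      have a1 := mul_le_mul_of_nonneg_left (pow_le_of_le_one v0.le w two_ne_zero)
        (show 0 ≤ S.C ^ 7 by positivity)
      have a2 := mul_le_mul (pow_le_pow_right₀ C1 (show 5 ≤ 7 by norm_num))
        (pow_le_of_le_one v0.le w four_ne_zero) (by positivity) (by positivity)
      have a3 := le_mul_of_one_le_left v0.le (one_le_pow₀ (n := 7) C1)
      have a4 := mul_le_mul_of_nonneg_right ((pc 7 (by norm_num)).trans LQ) v0.le
      have a5 : 6 * (2 * (S.C * S.v)) / S.C = 12 * S.v := by field_simp; norm_num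
      rw [a5, pow_zero, one_mul, one_mul]
      linarith only [a1, a2, a3, a4, rn, nn, e3, N0, x2, X40, cb, v0]))
  have fin : κE c * (Q ^ 100 * S.F ^ 10 * g) ≤ K ^ 1101 * S.F ^ 10 * g := by
    rw [← mul_assoc, ← mul_assoc]
    refine mul_le_mul_of_nonneg_right (mul_le_mul_of_nonneg_right ?_ (by positivity)) g0
    rw [pow_succ' K 1100]
    exact mul_le_mul (k.κ.trans LK) ((pow_le_pow_left₀ Q0.le QK 100).trans_eq (by rw [← pow_mul]))
      (by positivity) (by positivity)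
  have f11 : K ^ 1101 * S.F ^ 10 * g ≤ K ^ 1101 * S.F ^ 11 * g := mul_le_mul_of_nonneg_right
    (mul_le_mul_of_nonneg_left (pow_le_pow_right₀ F1 (by norm_num)) (by positivity)) g0
  have f2 := fin.trans f11
  refine ⟨Gn, V0, u, v, G, vs, by linarith only [u2, l0], ve, uv, b1.trans fin, b2.trans fin, ?_⟩
  subst hg
  refine lo63 H A E2 hθ v4 X40 (ju.trans uv).le vJ v3.le (by linarith only [v2, lJ, c2, c1, l0])
    Zt.R.lH A0 As.le Zt.D1 Zt.D2 Zt.mass (one_le_mul_of_one_le_of_one_le L1 (one_le_pow₀ K1))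
    (one_le_pow₀ K1) qt (b1.trans f2) (b2.trans f2) (b4.trans f2) (b1.trans f2) (b3.trans f2) ?_
  refine (mul_le_mul (k.C.trans LK) (mul_le_mul_of_nonneg_right (mul_le_mul_of_nonneg_right LK
    (by positivity)) (by positivity)) (by positivity) (by positivity)).trans ?_
  rw [← pow_succ', ← pow_add, ← pow_succ']
  exact pow_le_pow_right₀ K1 (by norm_num)

/-- the constants of the energy -/
theorem exC (h : RtK) (C : ℝ) : ∃ θ0 K0 c B KR : ℝ, (0 < θ0 ∧ θ0 ≤ 1) ∧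
    Fr (2 * C) c B (Spl27.okT (2 * C)) (lvr 1) Pr.Gam Pr.GG ∧ Th (2 * C) C c θ0 ∧ RtP KR C B c θ0 ∧
    ∀ (S : Sc) (L : ℝ), S.C = C → K0 ≤ L → 1000 ≤ L → Kc S L c KR := by
  obtain ⟨B, -, H⟩ := Gap27.hlip (2 * C)
  have F := (H _ le_rfl).2.2.2.2.2
  obtain ⟨θ0, a1, a2, th⟩ := exTh (2 * C) C F.c_pos
  obtain ⟨KR, -, rt⟩ := h C B _ θ0 F.c_pos a1 a2
  refine ⟨θ0, max (max (10 ^ 15 * C ^ 17) KR) (max (8 / (exp (-14 * (2 * C)) / 4))
    (κE (exp (-14 * (2 * C)) / 4))), _, B, KR, ⟨a1, a2⟩, F, th, rt, fun S L e k k1 => ?_⟩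
  simp only [max_le_iff] at k
  exact ⟨k1, e ▸ k.1.1, k.1.2, k.2.1, k.2.2⟩

theorem hx63 {G1 u1 u2 j γ Lc ηc τ l X Xp Vt V2 Lg Lp X2 X3 G0 N' N : ℝ} {η : ℝ → ℝ}
    (ce : CeiG S M G1) (ln : LN E S M l l (cr S l * l) X Lg X2 X3 G0 η)
    (lp : LP E S M Xp Vt Lg Lp X2 X3 G0 G1 u1 u2 j γ Lc ηc τ η N')
    (lc : LC E S M Xp Vt V2 Lg Lp X2 G0 G1 u1 u2 j γ ηc τ η N) (f40 : S.F ^ 40 ≤ E)
    (ap : Ap S M m a l X Xp Vt u1 j) (ap2 : Ap2 S M m a V2 u1 u2) (L1 : 1 ≤ L) (LE : L ^ 1000 ≤ E)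
    (cru : Cru L S M m a l) : Hx E L S M m a
      ⟨G1, u1, u2, j, γ, Lc, ηc, τ, l, l, cr S l * l, X, Xp, Vt, V2, Lg, Lp, X2, X3, G0, N', N, η⟩ :=
  ⟨ce, ln, lp, lc, f40, ap, ap2, L1, LE, le_rfl, fun k hk => (cru k hk).trans
    (mul_le_mul_of_nonneg_left (le_add_of_nonneg_right ln.V0) (by linarith))⟩

theorem K_eq (L : ℝ) : L * (L * L ^ 30) ^ 30 = L ^ 931 := by ring

/-- **(TL1x)** -/
theorem tl1x63 (h0 : TL0) (h1 : NgX) (h2 : BuS) (h3 : TxS) (h4 : BoK) (h5 : RtK) : TL1x := by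
  choose θ K0 c B KR θ0 F th rt kc using exC h5
  refine glue63 ((((h0.and h1).and (h2 θ θ0)).and h3).and h4) 2000000 fun C => ⟨K0 C, ?_⟩
  rintro E L Λ S M m a rfl h I k0 k1 LE LΛ hθ v4 ⟨⟨⟨⟨t0, ng⟩, bu⟩, tx⟩, bo⟩ G1 u1 u2 j γ Lc ηc τ l X
    Xp Vt V2 Lg Lp X2 X3 X4 G0 η N' N ce ln x4 lp lc f40 ap ap2
  have L1 : 1 ≤ L := by linarith
  have H := hx63 ce ln lp lc f40 ap ap2 L1 ((pow_le_pow_right₀ L1 (by norm_num)).trans LE)
    (t0 G1 u1 u2 j γ Lc ηc τ l X Xp Vt Lg Lp X2 X3 G0 η N' ce ln lp f40 ap)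
  obtain ⟨-, -, -, -, -, -, -, -, -, -, -, lo⟩ := core63 H (H.at' h I) rfl rfl x4 hθ v4 (F _) (th _)
    (kc _ S L rfl k0 k1) rfl (by
      rw [K_eq, ← pow_mul]; exact (pow_le_pow_right₀ L1 (by norm_num)).trans LE) ng bu tx bo (rt _)
  have F1 := h.F1
  obtain ⟨w1, w0⟩ := H.W0_le h (H.X40 h x4)
  have g0 := le_trans (add_nonneg (add_nonneg (add_nonneg w0.le (sq_nonneg _)) (H.X40 h x4))
    (H.N0 h)) w1
  refine L25.lo_scale h lo (H.lp0 h).le (by positivity) le_rfl ?_ g0 (one_mul _).ge g0 (one_mul _).ge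
    (H.u20 h)
  rw [mul_one, K_eq, ← pow_mul]
  exact mul_le_mul_of_nonneg_right ((pow_le_pow_right₀ L1 (by norm_num)).trans LΛ) (by positivity)

/-- the loss `Λ` as a value of the chain of losses -/
theorem exW {Λ Y : ℝ} (L1 : 1 ≤ L) (Y1 : 1 ≤ Y) (h : L ^ 11 * Y ^ 300 ≤ Λ) :
    ∃ W, Y ≤ W ∧ L * (L * W ^ 30) ^ 10 = Λ := by
  have p : 0 < L ^ 11 := by positivity
  have q : Y ^ 300 ≤ Λ / L ^ 11 := by rw [le_div_iff₀ p]; linarith
  have q0 : 0 ≤ Λ / L ^ 11 := le_trans (by positivity) q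
  have e : ((Λ / L ^ 11) ^ ((300 : ℕ) : ℝ)⁻¹) ^ 300 = Λ / L ^ 11 := rpow_inv_natCast_pow q0 (by norm_num)
  refine ⟨(Λ / L ^ 11) ^ ((300 : ℕ) : ℝ)⁻¹, le_of_pow_le_pow_left₀ (n := 300) (by norm_num)
    (rpow_nonneg q0 _) (q.trans e.ge), ?_⟩
  generalize (Λ / L ^ 11) ^ ((300 : ℕ) : ℝ)⁻¹ = W at e ⊢
  rw [eq_div_iff p.ne'] at e
  rw [← e]; ring

/-- **(BoS)** -/
theorem boS63 (h0 : TL0) (h1 : NgX) (h2 : BuS) (h3 : TxS) (h4 : BoK) (h5 : RtK) : BoS := by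
  intro θ' θ0'
  choose θ K0 c B KR θ0 F th rt kc using exC h5
  refine glue63 (((((h0.and h1).and (h2 θ θ0)).and h3).and h4).and (h2 θ' θ0')) 400000000
    fun C => ⟨K0 C, ?_⟩
  rintro E L Λ S M m a rfl h I k0 k1 LE LΛ hθ v4 ⟨⟨⟨⟨⟨t0, ng⟩, bu⟩, tx⟩, bo⟩, bu'⟩ G1 u1 u2 j γ Lc ηc
    τ l X Xp Vt V2 Lg Lp X2 X3 X4 G0 η N' N ce ln x4 lp lc f40 ΛE ap ap2
  have L1 : 1 ≤ L := by linarith
  have H := hx63 ce ln lp lc f40 ap ap2 L1 ((pow_le_pow_right₀ L1 (by norm_num)).trans LE)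
    (t0 G1 u1 u2 j γ Lc ηc τ l X Xp Vt Lg Lp X2 X3 G0 η N' ce ln lp f40 ap)
  have A := H.at' h I
  obtain ⟨Gn, V0, u, v, G, vs, ul, ve, uv, b1, b2, -⟩ := core63 H A rfl rfl x4 hθ v4 (F _) (th _)
    (kc _ S L rfl k0 k1) rfl (by
      rw [K_eq, ← pow_mul]; exact (pow_le_pow_right₀ L1 (by norm_num)).trans LE) ng bu tx bo (rt _)
  rw [K_eq, ← pow_mul] at b1 b2
  obtain ⟨W, w1, w2⟩ := exW (Λ := Λ) (Y := L ^ (931 * 1101)) L1 (one_le_pow₀ L1) (by
    rw [← pow_mul, ← pow_add]; exact (pow_le_pow_right₀ L1 (by norm_num)).trans LΛ)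
  have LW : L * L ^ 30 ≤ W := by
    rw [← pow_succ']; exact (pow_le_pow_right₀ L1 (by norm_num)).trans w1
  have LW' : L ≤ W := (le_mul_of_one_le_right (by linarith) (one_le_pow₀ L1)).trans LW
  have W1 := L1.trans LW'
  have WW : W ≤ L * W ^ 30 := (le_self_pow₀ W1 (by norm_num)).trans
    (le_mul_of_one_le_left (by positivity) L1)
  have WΛ : L * W ^ 30 ≤ Λ := w2 ▸ (le_self_pow₀ (W1.trans WW) (by norm_num)).trans
    (le_mul_of_one_le_left (by positivity) L1)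
  have WE : (L * W ^ 30) ^ 1000 ≤ E := (pow_le_pow_left₀ (by positivity) WΛ _).trans ΛE
  obtain ⟨r1, r2, ω, β, f, bk⟩ := bu' _ L W Gn V0 H LW'
    ((pow_le_pow_left₀ (by positivity) WW _).trans WE) (G.mono63 H A LW) u v vs ve uv
  have F1 := h.F1
  obtain ⟨g1, g2⟩ := H.W0_le h (H.X40 h x4)
  have g0 := le_trans (add_nonneg (add_nonneg (add_nonneg g2.le (sq_nonneg _)) (H.X40 h x4))
    (H.N0 h)) g1
  have up := mul_le_mul_of_nonneg_right (mul_le_mul (w1.trans WW)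
    (pow_le_pow_right₀ F1 (show 10 ≤ 12 by norm_num)) (by positivity) (by positivity)) g0
  obtain ⟨ρ, Z⟩ := bo _ L _ _ Gn V0 u v r1 r2 ω β f _ H rfl rfl (LW'.trans WW) WE H.lE
    (G.mono63 H A (LW.trans WW)) vs ul ve uv bk (b1.trans up) (b2.trans up)
  rw [w2] at Z
  exact ⟨u, _, ρ, r1, r2, ω, β, f, Z⟩

end Crest.Agent.T156.Alt.L31

end
end

-- ▼ part T156/TkF_20
section

/-!
# Row 156, block (L): `TkA` from `NdT` (helper20)
-/

set_option autoImplicit false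

noncomputable section

namespace Crest.Agent.T156.Alt.L63

open MeasureTheory Real Finset
open Crest.Agent.T156.Alt.L69 Crest.Agent.T156.Alt.Mp9 Crest.Agent.T156.Alt.Ap63

namespace T20

variable {S : Sc} {M : Md} {m : ℕ} {a : ℝ}
  {K E L G1 u1 u2 j γ Lc ηc τ l0 l X Xp Vt Lg Lp X2 X3 X4 G0 N t1 tu ℓ En p0 : ℝ} {η g : ℝ → ℝ}

/-- two good nodes around the zone -/
theorem ends (G : Rg K E L S) (F : Fc E L S M m a l X Lg X2 tu ℓ η g) (tu1 : tu ≤ M.s S.J)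
    (X0 : 0 ≤ X) {Gn : ℕ → Prop}
    (hN : ∀ U V, 5 / 4 * l ≤ M.s U → M.s V + ℓ / 5 ≤ tu → Nt E L S M m a Lg X X2 η Gn U V)
    {V : ℕ} (h1 : M.s V + ℓ / 4 ≤ tu) (h2 : 3 / 2 * l < sb M m a (V + 1))
    (h3 : 3 / 2 * l + ℓ / 4 ≤ tu) :
    ∃ i k, i ≤ k ∧ Gn i ∧ Gn k ∧ 5 / 4 * l ≤ M.s i ∧ M.s k + ℓ / 5 ≤ tu ∧
      sb M m a (i + 1) ≤ 3 / 2 * l ∧ V ≤ k := by
  have A := F.at'
  have h := A.cl
  have C1 := h.C1
  have C0 := h.C0
  have v0 := h.v0
  have L1 := G.L1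
  have L1' : 1 ≤ L := by linarith
  have l0 := F.l0
  have r0 : 0 < √(S.ms l) := sqrt_pos.2 (h.ms_pos l0.le)
  have ℓ0 : 0 < ℓ := lt_of_lt_of_le (by positivity) F.ℓ1
  have sJ : M.s S.J ≤ S.C := h.s_le_C h.i3
  have vr : S.v ≤ √(S.ms l) := G.vn.trans F.nl
  have C3 : S.C ≤ S.C ^ 3 := le_self_pow₀ C1 (by norm_num)
  have C2 : S.C ^ 2 ≤ S.C ^ 3 := pow_le_pow_right₀ C1 (by norm_num)
  have LC := G.LC
  have L0 : 0 < L := by linarith
  have Lg1 : 1 ≤ Lg := (one_le_pow₀ L1').trans F.Lg1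
  have R0 : 0 ≤ X ^ ((1 : ℝ) / 3) := rpow_nonneg X0 _
  have sm : ∀ y z, 0 ≤ y → L ^ 67 * y ≤ z → 1000 * (L ^ 2 * y) ≤ z := fun y z p q => by
    have a1 := mul_le_mul_of_nonneg_right L1 (by positivity : 0 ≤ L ^ 2 * y)
    have a2 := mul_le_mul_of_nonneg_right (pow_le_pow_right₀ L1' (show 3 ≤ 67 by norm_num)) p
    linarith
  have b2 : S.C * S.v ≤ L ^ 2 * √(S.ms l) :=
    mul_le_mul (by nlinarith) vr v0.le (by positivity)
  have b4 := sm _ _ r0.le (F.ml l le_rfl (by linarith))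
  have b5 := sm _ _ r0.le F.ℓ1
  have b6 := sm _ _ (by positivity) F.R2
  have b7 := sm _ _ (by positivity)
    ((mul_le_mul_of_nonneg_left (div_le_self R0 Lg1) (by positivity)).trans F.R1)
  have win : ∀ p q, S.j0 ≤ p → p ≤ q → q < S.J →
      L ^ 2 * (X ^ ((1 : ℝ) / 3) / Lg) + L ^ 2 * √(S.ms l) ≤ M.s q - M.s p →
      L * (X ^ ((1 : ℝ) / 3) / Lg + S.v) ≤ M.z q - M.z p := fun p q a1 a2 a3 a4 => by
    refine le_of_mul_le_mul_left (le_trans ?_ (a4.trans (s_z h a1 a2 a3))) (by positivity)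
    have a5 := mul_le_mul_of_nonneg_right (show S.C ^ 2 ≤ L by linarith)
      (by positivity : 0 ≤ L * (X ^ ((1 : ℝ) / 3) / Lg + S.v))
    linarith [mul_le_mul_of_nonneg_left vr (sq_nonneg L)]
  obtain ⟨U, u1, u2, u3, u4⟩ := h.exists_node (t := 5 / 4 * l) (by linarith) (by linarith)
  obtain ⟨q, q1, q2, q3, q4⟩ := h.exists_node (t := 21 / 16 * l) (by linarith) (by linarith)
  obtain ⟨W, w1, w2, w3, w4⟩ := h.exists_node (t := tu - ℓ / 5) (by linarith) (by linarith)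
  have u5 := (h.ss U u1).2
  have Uq : U + 1 ≤ q := le_of_not_gt fun c => by linarith [h.sm c.le]
  have qW : q ≤ W := Nat.lt_succ_iff.1 (lt_of_not_ge fun c => by linarith [h.sm c])
  have VW : V ≤ W := Nat.lt_succ_iff.1 (lt_of_not_ge fun c => by linarith [h.sm c])
  have jU : S.j0 ≤ U + 1 := h.i1.trans (le_of_not_gt fun c => by
    nlinarith [h.sm c.le, F.jl, h.s_nn S.jl])
  have H := hN (U + 1) W u3.le (by linarith)
  obtain ⟨i, i1, i2, gi⟩ := H.ex _ _ le_rfl Uq qW (win _ _ jU Uq q1 (by linarith))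
  have s1 := h.sm i1
  have s2 := h.sm i2
  have si := (F.loc i (i2.trans_lt q1) (by linarith) (by linarith)).2 (by linarith)
  have iV : i ≤ V := le_of_not_gt fun c => by linarith [A.sb_mono (Nat.succ_le_succ c.le)]
  obtain ⟨k, k1, k2, gk⟩ := H.ex _ _ (i1.trans iV) VW le_rfl
    (win _ _ (jU.trans (i1.trans iV)) VW w1 (by linarith))
  exact ⟨i, k, iV.trans k1, gi, gk, by linarith, by linarith [h.sm k2], by linarith, k1⟩

/-- the numbers of the window around `t` -/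
theorem nk (G : Rg K E L S) (F : Fc E L S M m a l X Lg X2 tu ℓ η g)
    (H : Hy E S M m a G1 u1 u2 j γ Lc ηc τ l0 l X Xp Vt Lg Lp X2 X3 X4 G0 η N g t1 tu ℓ En p0)
    {t t' b' p : ℝ} (t1' : l ≤ t) (tC : t ≤ S.C) (hb : b' ≤ 2 * t) (p0' : 0 ≤ p) (a1 : l ≤ t')
    (a2 : t' ≤ S.C) (a3 : t' ≤ 2 * t) :
    Nk K (2 * S.C) S m (t / 2) b' (S.C * S.v) (L / Lg) (256 * L * η t')
      (32 * L ^ 3 * (X2 + uw S Lg t' ^ 2)) (2 * L ^ 3) (g t') L (√(S.ms (t / 2))) (2 * log S.n)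
      (4 * √(S.ms (t / 2)) / L ^ 11) p (L ^ 5 * (p + bs S Lg X2 (g t') η t')) := by
  have h := F.at'.cl
  have C1 := h.C1
  have v0 := h.v0
  have n0 := h.N0
  have L1 := G.L1
  have L0 : 0 < L := by linarith
  have L1' : 1 ≤ L := by linarith
  have l0 := F.l0
  have t0 : 0 < t := by linarith
  have t0' : 0 < t' := by linarith
  have m0 := h.ms_pos (half_pos t0).le
  have m1 := h.ms_pos t0'.le
  have mq : ∀ s, s ≤ 2 * t → S.ms s ≤ 16 * S.ms (t / 2) := fun s hs => by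
    have := h.ms_pow (half_pos t0).le 2
    norm_num at this
    exact (h.msm (by linarith)).trans this
  set r := √(S.ms (t / 2)) with hr
  have r0 : 0 < r := sqrt_pos.2 m0
  have r2 : r ^ 2 = S.ms (t / 2) := sq_sqrt m0.le
  have pw : ∀ i k : ℕ, i ≤ k → L ^ i ≤ L ^ k := fun i k => pow_le_pow_right₀ L1'
  have pk : ∀ i k : ℕ, i + 1 = k → 1000 * L ^ i ≤ L ^ k := by
    rintro i _ rfl
    rw [pow_succ']; exact mul_le_mul_of_nonneg_right L1 (by positivity)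
  have mf1 : mf S t' = S.ms t' := by rw [mf, H.lt.F1, div_one]
  have g0 := H.lt.g0 t'
  have ηn := F.ηn t' a1 a2
  have n1 : 0 < 1 / (S.n : ℝ) := by positivity
  have X0 := F.X2
  set Y := X2 + uw S Lg t' ^ 2 with hY
  have Y0 : 0 ≤ Y := by positivity
  have q0 : 0 < √(S.ms t') := sqrt_pos.2 m1
  have q1 : √(S.ms t') ≤ 4 * r := by
    rw [sqrt_le_left (by positivity), mul_pow, r2]; linarith [mq t' a3]
  set B := bs S Lg X2 (g t') η t' with hB
  have e0 : B = (η t' + g t') / S.ms t' + Y / √(S.ms t') := by rw [hB, bs, mf1]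
  have x0 : 0 ≤ (η t' + g t') / S.ms t' := div_nonneg (by linarith) m1.le
  have x1 : 0 ≤ Y / √(S.ms t') := by positivity
  have B0 : 0 ≤ B := by linarith
  have e1 : η t' + g t' ≤ 16 * (B * r ^ 2) := by
    have : (η t' + g t') / S.ms t' ≤ B := by linarith
    rw [div_le_iff₀ m1] at this
    linarith [mul_le_mul_of_nonneg_left (r2 ▸ mq t' a3) B0]
  have e2 : Y ≤ 4 * (B * r) := by
    have : Y / √(S.ms t') ≤ B := by linarith
    rw [div_le_iff₀ q0] at this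
    linarith [mul_le_mul_of_nonneg_left q1 B0]
  have e3 : 1 / (S.n : ℝ) ≤ B := by
    have : η t' + g t' ≤ (η t' + g t') / S.ms t' :=
      le_div_self (by linarith) m1 ((h.ms1 _).trans F.θ1)
    linarith
  have f1 : ∀ y, 0 ≤ y → L ^ 5 * (B * y) ≤ L ^ 5 * (p + B) * y := fun y hy => by
    have : 0 ≤ L ^ 5 * (p * y) := by positivity
    linarith
  have f2 : ∀ c y, 0 ≤ y → c ≤ L ^ 5 → c * (B * y) ≤ L ^ 5 * (p + B) * y := fun c y hy hc =>
    (mul_le_mul_of_nonneg_right hc (by positivity)).trans (f1 y hy)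
  have L5 : 1 ≤ L ^ 5 := one_le_pow₀ L1'
  have f3 : B ≤ L ^ 5 * (p + B) := by simpa using f2 1 1 zero_le_one L5
  have vn := G.vn
  have lg := G.lg
  have lg1 := G.lg1
  have C3 : S.C ≤ S.C ^ 3 := le_self_pow₀ C1 (by norm_num)
  have LC := G.LC
  have rt : r ≤ √(S.ms t) := sqrt_le_sqrt (h.msm (by linarith))
  have p1 := pk 1 2 rfl
  have p2 := pk 2 3 rfl
  have p4 := pk 4 5 rfl
  have p25 := pw 3 5 (by norm_num)
  rw [pow_one] at p1
  refine ⟨by linarith, LC, G.LK, G.LT, r0, r2, r2 ▸ mq b' hb, ?_, by linarith, by positivity, ?_, ?_,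
    ?_, ?_, ?_, ?_, ?_, by linarith, ?_, ?_, ?_, ?_, ?_⟩
  · have := mul_le_mul_of_nonneg_right (show 2 ≤ L ^ 67 by linarith [pw 1 67 (by norm_num)])
      (sqrt_nonneg (S.ms t))
    linarith [F.ml t t1' tC]
  · rw [← mul_div_assoc, div_le_iff₀ (by positivity)]
    have := mul_le_mul_of_nonneg_left (pk 10 11 rfl) r0.le
    have : 0 ≤ r * L ^ 10 := by positivity
    linarith
  · rw [← mul_div_assoc, div_le_one (lt_of_lt_of_le (by positivity) F.Lg1)]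
    linarith [pw 4 67 (by norm_num), F.Lg1]
  · have a4 := H.ln.th2 t' a1 a2
    have a5 := H.ln.th3
    rw [mf, H.lt.F1, div_one] at a4 a5
    have a6 := mul_le_mul_of_nonneg_right G.LE Y0
    have a7 : E * Y ≤ 32 * r ^ 2 := by rw [r2, hY]; linarith [mq t' a3, h.msm a1]
    have a8 := mul_le_mul_of_nonneg_right (((mul_le_mul_of_nonneg_left (pk 6 7 rfl)
      (by norm_num : (0 : ℝ) ≤ 1000)).trans (pk 7 8 rfl)).trans (pw 8 67 (by norm_num))) Y0
    have : 0 ≤ L ^ 6 * Y := by positivity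
    linarith
  · have a4 : L ^ 3 * (2 * log S.n * (2 * L ^ 3 * (4 * r / L ^ 11))) = 16 * log S.n * r / L ^ 5 := by
      field_simp; ring
    rw [a4, div_le_iff₀ (by positivity)]
    linarith [mul_le_mul_of_nonneg_left (show 16 * log S.n ≤ L ^ 5 by linarith) r0.le]
  · have a4 := h.ms_ge (half_pos t0).le
    rw [rpow_neg_one, ← one_div] at a4
    have : S.ms (t / 2) ≤ r :=
      Real.le_sqrt_of_sq_le (by nlinarith [(h.ms1 (t / 2)).trans F.θ1])
    linarith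
  · exact (le_add_of_nonneg_right B0).trans (le_mul_of_one_le_left (by positivity) L5)
  · have := f2 S.C 1 zero_le_one (by linarith)
    linarith [mul_le_mul_of_nonneg_left (vn.trans e3) h.C0.le]
  · have := f2 (4096 * L) _ (sq_nonneg r) (by linarith)
    linarith [mul_le_mul_of_nonneg_left (show η t' ≤ 16 * (B * r ^ 2) by linarith) L0.le]
  · linarith [f2 16 _ (sq_nonneg r) (by linarith)]
  · have a4 : 1 / ((m : ℝ) + 1) ≤ 1 / S.n := one_div_le_one_div_of_le n0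
      (by have : (S.n : ℝ) ≤ m := by exact_mod_cast F.at'.mem.m1
          linarith)
    linarith [f2 16 _ (sq_nonneg r) (by linarith)]
  · have a4 := f2 (256 * L ^ 4) _ r0.le (by linarith [pow_pos L0 4])
    have a5 := mul_le_mul_of_nonneg_right lg (by positivity : 0 ≤ L ^ 3 * Y)
    linarith [mul_le_mul_of_nonneg_left e2 (pow_pos L0 4).le]
  · have : exp (-(2 * log S.n)) ≤ 1 / S.n := by
      rw [one_div, ← exp_log (inv_pos.2 n0), log_inv]
      exact exp_le_exp.2 (by linarith)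
    linarith

set_option maxHeartbeats 1600000 in
/-- **`TkA` at a fixed size** -/
theorem tkA_at (T0 : ℝ) : ∃ K : ℝ, ∀ {S : Sc} {M : Md} {m : ℕ} {a : ℝ}
    {E L G1 u1 u2 j γ Lc ηc τ l0 l X Xp Vt Lg Lp X2 X3 X4 G0 N t1 tu ℓ En p0 : ℝ} {η g : ℝ → ℝ},
    2 * S.C = T0 → Cl S M → S.In m a → Rg K E L S →
    Hy E S M m a G1 u1 u2 j γ Lc ηc τ l0 l X Xp Vt Lg Lp X2 X3 X4 G0 η N g t1 tu ℓ En p0 →
    ∀ Gn : ℕ → Prop,
    (∀ U V, 5 / 4 * l ≤ M.s U → M.s V + ℓ / 5 ≤ tu → Nt E L S M m a Lg X X2 η Gn U V) →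
    ∀ p x y V, 3 / 2 * l ≤ x → M.s V + ℓ / 4 ≤ tu → sb M m a (V + 1) + ℓ / 4 ≤ tu →
    y ≤ sb M m a (V + 1) → (∀ t, x ≤ t → t ≤ y → Hq S M m a t ≤ p) →
    ∀ t, x + L ^ 17 * √(S.ms t) ≤ t → t + L ^ 17 * √(S.ms t) ≤ y →
    ∀ t', l ≤ t' → t' ≤ tu → t' ≤ 2 * t → t ≤ 2 * t' →
      |uq S M m a t| ≤ L ^ 17 * (p + bs S Lg X2 (g t') η t') := by
  obtain ⟨K, -, HK⟩ := Nw.main T0
  refine ⟨K, fun {S M m a E L G1 u1 u2 j γ Lc ηc τ l0 l X Xp Vt Lg Lp X2 X3 X4 G0 N t1 tu ℓ En p0 η g}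
    hT h hm G H Gn hN p x y V hx hV hV' hy hp t ht ht' t' a1 a2 a3 a4 => ?_⟩
  subst hT
  have F := fc h hm G H
  have A := F.at'
  have L1 := G.L1
  have L0 : 0 < L := by linarith
  have L1' : 1 ≤ L := by linarith
  have l0' := F.l0
  have tu1 := H.lt.tu1
  have sJ : M.s S.J ≤ S.C := h.s_le_C h.i3
  have ℓ0 : 0 < ℓ := lt_of_lt_of_le (mul_pos (pow_pos L0 _) (sqrt_pos.2 (h.ms_pos l0'.le))) F.ℓ1
  have x0 : 0 ≤ L ^ 17 * √(S.ms t) := by positivity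
  have t0 : 0 < t := by linarith
  have q0 : 0 < √(S.ms t) := sqrt_pos.2 (h.ms_pos t0.le)
  have x1 : 0 < L ^ 17 * √(S.ms t) := by positivity
  have p0' : 0 ≤ p := (Hp_nn A t).trans (hp t (by linarith) (by linarith))
  obtain ⟨i0, i1, i01, g0, g1, s0, s1, b0, b1⟩ := ends G F tu1 H.ln.X0.le hN hV (by linarith) (by linarith)
  have Nd := hN i0 i1 s0 s1
  have m0 := h.ms_pos (half_pos t0).le
  have mq : ∀ s, s ≤ 2 * t → S.ms s ≤ 16 * S.ms (t / 2) := fun s hs => by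
    have := h.ms_pow (half_pos t0).le 2
    norm_num at this
    exact (h.msm (by linarith)).trans this
  have nk' := fun (b' : ℝ) (hb : b' ≤ 2 * t) =>
    nk G F H (by linarith : l ≤ t) (by linarith) hb p0' a1 (by linarith) a3
  set r := √(S.ms (t / 2)) with hr
  have r0 : 0 < r := sqrt_pos.2 m0
  have r2 : r ^ 2 = S.ms (t / 2) := sq_sqrt m0.le
  have rt : r ≤ √(S.ms t) := sqrt_le_sqrt (h.msm (by linarith))
  have pw : ∀ i k : ℕ, i ≤ k → L ^ i ≤ L ^ k := fun i k => pow_le_pow_right₀ L1'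
  set w := 2 * log S.n * L * r with hw
  have lg := G.lg
  have lg1 := G.lg1
  have w1 : r ≤ w := le_mul_of_one_le_left r0.le (one_le_mul_of_one_le_of_one_le (by linarith) L1')
  have w2 : 28 * w ≤ L ^ 17 * √(S.ms t) := by
    have b2 : 56 * log S.n * L ≤ L ^ 17 := by
      have := mul_le_mul (show 56 ≤ L by linarith) (mul_le_mul_of_nonneg_right lg L0.le)
        (by positivity) L0.le
      linarith [pw 3 17 (by norm_num)]
    linarith [mul_le_mul b2 rt r0.le (by positivity)]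
  have w3 : L ^ 17 * √(S.ms t) ≤ t :=
    (mul_le_mul_of_nonneg_right (pw 17 67 (by norm_num)) q0.le).trans (F.ml t (by linarith) (by linarith))
  have kJ : ∀ k, k ≤ i1 → k < S.J := fun k hk => lt_of_not_ge fun c => by
    linarith [h.sm (c.trans hk)]
  have lo : ∀ k, i0 ≤ k → k ≤ i1 → 15 / 16 * M.s k ≤ sb M m a (k + 1) ∧
      (M.s k + l / 8 ≤ M.s S.J → sb M m a (k + 1) ≤ 17 / 16 * M.s k) := fun k p q =>
    F.loc k (kJ k q) (by linarith [h.sm p]) (by linarith [h.sm q])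
  have Γr : 4 * r / L ^ 11 ≤ r := by
    rw [div_le_iff₀ (by positivity)]
    linarith [mul_le_mul_of_nonneg_left (show 4 ≤ L ^ 11 by linarith [pw 1 11 (by norm_num)]) r0.le]
  have sh : ∀ i k, Nx Gn i0 i1 i k → sb M m a (i + 1) ≤ t + 7 * w →
      sb M m a (k + 1) - sb M m a (i + 1) ≤ 4 * r / L ^ 11 := fun i k n c => by
    have d0 := sub_nonneg.2 (A.sb_mono (Nat.succ_le_succ n.2.1))
    have d1 := Nd.sh i k n
    have d2 := mq (M.s i) (by linarith [(lo i n.1 (n.2.1.trans n.2.2.1)).1])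
    have d3 := pow_le_pow_left₀ (h.ms_pos (h.s_nn i)).le d2 3
    refine le_of_pow_le_pow_left₀ (n := 6) (by norm_num) (by positivity) ?_
    rw [div_pow, le_div_iff₀ (by positivity)]
    refine le_of_mul_le_mul_left ?_ L0
    have d4 := mul_le_mul_of_nonneg_right G.LE (pow_nonneg d0 6)
    have d5 := mul_le_mul_of_nonneg_left d3 L0.le
    rw [← r2] at d5
    linarith only [d1, d4, d5]
  obtain ⟨i', u, n1, c1, c2⟩ := exists_nx (σ := fun k => sb M m a (k + 1)) (t := t - 7 * w) i01 g0 g1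
    (by linarith) (by linarith [A.sb_mono (Nat.succ_le_succ b1)])
  obtain ⟨v, k', n2, c3, c4⟩ := exists_nx (σ := fun k => sb M m a (k + 1)) (t := t + 7 * w) i01 g0 g1
    (by linarith) (by linarith [A.sb_mono (Nat.succ_le_succ b1)])
  have c5 := (sh _ _ n1 (by linarith)).trans Γr
  have c6 := (sh _ _ n2 c3).trans Γr
  have hu : i0 ≤ u := n1.1.trans n1.2.1
  have hv : v ≤ i1 := n2.2.1.trans n2.2.2.1
  have uv : u ≤ v := le_of_not_gt fun c => by linarith [A.sb_mono (Nat.succ_le_succ c.le)]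
  have su : t / 2 ≤ M.s u := le_of_not_gt fun c => by
    linarith [(lo u hu (uv.trans hv)).2 (by linarith)]
  have sv : M.s v ≤ 2 * t := by linarith [(lo v (hu.trans uv) hv).1]
  have X0 := F.X2
  have mlq : ∀ s, l ≤ s → s ≤ S.C → √(S.ms s) ≤ s := fun s p q =>
    (le_mul_of_one_le_left (sqrt_nonneg _) (one_le_pow₀ L1')).trans (F.ml s p q)
  have nd : ∀ i, u ≤ i → i ≤ v → η (M.s i) ≤ 256 * η t' ∧ 0 ≤ uw S Lg (M.s i) ∧
      uw S Lg (M.s i) ^ 2 ≤ 16 * uw S Lg t' ^ 2 := fun i p q => by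
    have d1 := h.sm p
    have d2 := h.sm (hu.trans p)
    obtain ⟨d3, d4⟩ := uw_le h H.lt.F1 Lg (s := M.s i) (t := t') (by linarith)
      (mlq _ a1 (by linarith)) (mlq _ (by linarith) (h.s_le_C ((kJ i (q.trans hv)).le.trans h.i3)))
      (by linarith)
    have d5 := H.ln.ηa (show t' / 4 ≤ M.s i by linarith)
    have d6 := H.ln.η2 (t' / 4) (by linarith)
    have d7 := H.ln.η2 (2 * (t' / 4)) (by linarith)
    rw [show 2 * (2 * (t' / 4)) = t' by ring] at d7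
    exact ⟨by linarith, d3, by linarith [pow_le_pow_left₀ d3 d4 2]⟩
  have Lg0 : 0 < Lg := lt_of_lt_of_le (by positivity) F.Lg1
  have η0 : 0 ≤ η t' := le_trans (by have := h.N0; positivity) (F.ηn t' a1 (by linarith))
  have L3 : L ≤ L ^ 3 := le_self_pow₀ L1' (by norm_num)
  have W : Nw S M m a (2 * S.C) Gn u v (t / 2) (max (M.s v) (sb M m a (v + 1))) (S.C * S.v) (L / Lg)
      (256 * L * η t') (32 * L ^ 3 * (X2 + uw S Lg t' ^ 2)) (2 * L ^ 3) (g t')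
      fun y => L * E61.u4 M m a y ^ 2 := by
    refine ⟨A, lt_of_not_ge fun c => ?_, uv, n1.2.2.2.2.1, n2.2.2.2.1, half_pos t0,
      max_lt (by linarith [h.sm hv]) (by linarith), su, le_max_left _ _, by linarith,
      le_max_right _ _, (mul_pos h.C0 h.v0).le, by positivity, by positivity, by positivity,
      by positivity, fun i k n => Nd.gap i k (n.up hu hv), fun i k y n p q => ?_,
      fun i k p q s gi gk => ?_, fun k p q _ => H.lt.g1 t' k ?_ (kJ k (q.trans hv))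
        (by linarith [h.sm (hu.trans p)]) (by linarith [h.sm q]) (by linarith [h.sm (q.trans hv)])⟩
    · nlinarith [h.sm c, h.sm hu, F.jl, h.s_nn S.jl]
    · obtain ⟨-, d1, d2⟩ := nd i n.1 (n.2.1.trans n.2.2.1)
      have d3 := pow_le_pow_left₀ (sqrt_nonneg _) (Nd.u4 i k y (n.up hu hv) p q) 2
      have d4 : (uw S Lg (M.s i) + (sb M m a (k + 1) - sb M m a (i + 1))) ^ 2 ≤
          32 * uw S Lg t' ^ 2 + 2 * (sb M m a (k + 1) - sb M m a (i + 1)) ^ 2 := by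
        linarith [sq_nonneg (uw S Lg (M.s i) - (sb M m a (k + 1) - sb M m a (i + 1)))]
      have d5 := mul_le_mul_of_nonneg_left d4 (pow_pos L0 3).le
      have d6 := mul_le_mul_of_nonneg_left d3 L0.le
      have d7 : 0 ≤ L ^ 3 * X2 := by positivity
      change L * E61.u4 M m a y ^ 2 ≤ _ at d6
      linarith only [d5, d6, d7]
    · obtain ⟨d1, -, d2⟩ := nd i p (q.trans s)
      refine (Nd.e1 i k (hu.trans p) q (s.trans hv) gi gk).trans ?_
      have d3 : L * ∑ y ∈ Ioo i k, M.dz m a y * E61.u4 M m a y ^ 2 =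
          ∑ y ∈ Ioo i k, (M.z y - M.z (y - 1)) * (L * E61.u4 M m a y ^ 2) := by
        rw [mul_sum]
        refine sum_congr rfl fun y hy => ?_
        rw [Md67.dz_up h.leg (Nat.zero_lt_of_lt (mem_Ioo.1 hy).1)]; ring
      have d0 := sub_nonneg.2 (A.sb_mono (Nat.succ_le_succ q))
      have d4 : L * uw S Lg (M.s i) ^ 2 ≤ 32 * L ^ 3 * (X2 + uw S Lg t' ^ 2) := by
        have e1 := mul_le_mul L3 d2 (sq_nonneg _) (pow_pos L0 3).le
        have e2 : 0 ≤ L ^ 3 * X2 := by positivity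
        have e3 : 0 ≤ L ^ 3 * uw S Lg t' ^ 2 := by positivity
        linarith
      have d5 : L * X2 ≤ 32 * L ^ 3 * (X2 + uw S Lg t' ^ 2) := by
        have e1 := mul_le_mul_of_nonneg_right L3 X0
        have e2 : 0 ≤ L ^ 3 * X2 := by positivity
        have e3 : 0 ≤ L ^ 3 * uw S Lg t' ^ 2 := by positivity
        linarith
      have d6 := mul_le_mul_of_nonneg_right d4 (add_nonneg
        (abs_nonneg (T156.L0.Gd (lb M S m a (2 * S.C)) (sb M m a (i + 1))))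
        (abs_nonneg (T156.L0.Gd (lb M S m a (2 * S.C)) (sb M m a (k + 1)))))
      have d7 := mul_le_mul_of_nonneg_right d5 d0
      have d8 := mul_le_mul_of_nonneg_left d1 L0.le
      simp only [Nat.succ_eq_add_one] at d7
      linarith only [d3, d6, d7, d8]
    · exact lt_of_not_ge fun c => by nlinarith [h.sm c, h.sm (hu.trans p), F.jl, h.s_nn S.jl]
  have fin := HK W le_rfl (nk' _ (max_le sv (by linarith)))
    (fun i k n => sh i k (n.up hu hv)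
      ((A.sb_mono (Nat.succ_le_succ (n.2.1.trans n.2.2.1))).trans c3))
    (fun s hs => hp s (by linarith [hs.1]) (by linarith [hs.2])) (by linarith) t
    ⟨by linarith, by linarith⟩
  exact fin.trans_eq (by ring)

end T20

open T20

/-- **(A)** -/
theorem tkA_of (H : NdT) : TkA := by
  unfold TkA
  refine CL.glue' H (fun E Λ Λ' S M m a h1 h2 h G1 u1 u2 j γ Lc ηc τ l0 l X Xp Vt Lg Lp X2 X3 X4 G0 η
    N g t1 tu ℓ En p0 hy p x y V b1 b2 b3 b4 b5 t c1 c2 t' d1 d2 d3 d4 => ?_) 2 le_rfl 67 17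
    fun C A ε η hε hη => ?_
  · have e := mul_le_mul_of_nonneg_right h2 (sqrt_nonneg (S.ms t))
    have := h _ _ _ _ _ _ _ _ _ _ _ _ _ _ _ _ _ _ _ _ _ _ _ _ _ _ _ hy p x y V b1 b2 b3 b4 b5 t
      (by linarith) (by linarith) t' d1 d2 d3 d4
    exact this.trans (mul_le_mul_of_nonneg_right h2
      (nonneg_of_mul_nonneg_right ((abs_nonneg _).trans this) (by linarith)))
  obtain ⟨K, HK⟩ := tkA_at (2 * C)
  refine ⟨max (max (32 * C ^ 3) (K * C)) (exp (4 * (2 * C))),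
    fun S M m a G _ e1 _ h hm P G1 u1 u2 j γ Lc ηc τ l0 l X Xp Vt Lg Lp X2 X3 X4 G0 η' N g t1 tu ℓ En
      p0 hy => ?_⟩
  rw [pow_one] at hy
  obtain ⟨Gn, hN⟩ := P _ _ _ _ _ _ _ _ _ _ _ _ _ _ _ _ _ _ _ _ _ _ _ _ _ _ _ hy
  have k := G.K_le
  have n0 := G.N0
  refine HK (by rw [G.hC]) h hm ⟨G.num_le, ?_, ?_, ?_, G.log_le, G.log1, ?_, ?_⟩ hy Gn hN
  · rw [G.hC]; exact ((le_max_left _ _).trans (le_max_left _ _)).trans k
  · rw [G.hC]; exact ((le_max_right _ _).trans (le_max_left _ _)).trans k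
  · rw [G.hC, exp_neg, ← div_eq_inv_mul, one_le_div (exp_pos _)]; exact (le_max_right _ _).trans k
  · rw [← rpow_natCast, ← rpow_mul n0.le]
    exact rpow_le_rpow_of_exponent_le G.N1.le (by rw [mul_comm]; exact e1)
  · have a1 : S.C ≤ S.n := by
      have := G.C_log
      rw [← G.hC] at this
      linarith [log_le_sub_one_of_pos n0, h.C0]
    have a2 : (S.n : ℝ) ^ 2 ≤ (S.n : ℝ) ^ S.A := pow_le_pow_right₀ G.N1.le (G.hA ▸ G.A2)
    have a3 := (mul_le_mul_of_nonneg_left a2 h.v0.le).trans (h.v2.trans a1)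
    rw [le_div_iff₀ n0]
    exact le_of_mul_le_mul_right (by linarith) n0

end Crest.Agent.T156.Alt.L63

end
end

-- ▼ part T156/TkJ_60
section

/-!
# Row 156, block (L): the crude facts read by (TkE) (helper60)
-/

set_option autoImplicit false

noncomputable section

namespace Crest.Agent.T156.Alt.L63

open MeasureTheory Set Real
open Crest.Agent.T156.Alt.Mp9 Crest.Agent.T156.Alt.L69 Crest.Agent.T156.Zb9
open Crest.Agent.T156.Pp.Area50

namespace J60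

theorem abs_le_sq {x r : ℝ} (r0 : 0 < r) : |x| ≤ r + x ^ 2 / r := by
  rw [add_div' _ _ _ r0.ne', le_div_iff₀ r0, ← sq_abs x]
  nlinarith [sq_nonneg (|x| - r), mul_nonneg (abs_nonneg x) r0.le]

theorem abs_le_min {x r μ : ℝ} (r0 : 0 < r) (r1 : r ≤ 1) (μ0 : 0 < μ) (μ1 : μ ≤ 1) :
    |x| ≤ r + min (|x| ^ ((4 : ℝ) / 3)) (x ^ 2 / μ) / r := by
  rcases min_choice (|x| ^ ((4 : ℝ) / 3)) (x ^ 2 / μ) with e | e <;> rw [e]
  · rcases le_total |x| r with c | c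
    · exact c.trans (le_add_of_nonneg_right (by positivity))
    have x0 : 0 < |x| := r0.trans_le c
    have a : r ≤ |x| ^ ((1 : ℝ) / 3) :=
      ((rpow_one r).symm.le.trans (rpow_le_rpow_of_exponent_ge r0 r1 (by norm_num))).trans
        (rpow_le_rpow r0.le c (by norm_num))
    have b : |x| ^ ((4 : ℝ) / 3) = |x| * |x| ^ ((1 : ℝ) / 3) := by
      rw [← rpow_one_add' x0.le (by norm_num)]; norm_num
    have d : |x| ≤ |x| ^ ((4 : ℝ) / 3) / r := by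
      rw [le_div_iff₀ r0, b]; exact mul_le_mul_of_nonneg_left a x0.le
    linarith
  · exact (abs_le_sq r0).trans (add_le_add le_rfl
      (div_le_div_of_nonneg_right (le_div_self (sq_nonneg _) μ0 μ1) r0.le))

theorem cl_lip (t T x y : ℝ) : |Pp.Area50.cl t T x - Pp.Area50.cl t T y| ≤ |x - y| :=
  (abs_max_sub_max_le_max _ _ _ _).trans (max_le (by simp)
    ((abs_min_sub_min_le_max _ _ _ _).trans (max_le le_rfl (by simp))))

variable {S : Sc} {M : Md} {m : ℕ} {a T : ℝ}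

/-- the first node above a time -/
theorem node (A : At S M m a T) {x : ℝ} (h0 : 0 ≤ x) (h1 : x < M.s S.J) :
    ∃ k, k ≤ S.J ∧ x < M.s k ∧ M.s k ≤ x + S.C * S.v := by
  obtain ⟨k, -, p, q, r⟩ := A.exists_ref (i := 0) (j := S.J) (A.cl.s0.trans_le h0) h1
  exact ⟨k + 1, p, r, by linarith [(A.cl.ss k p).2]⟩

theorem J_eq (A : At S M m a T) {t : ℝ} (h0 : M.s S.j0 ≤ t) (h1 : t ≤ T) :
    Sc48.Jf (lh M T) (lb M S m a T) T t = ∑ j ∈ Finset.range (S.Jp + 1),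
      (xb M a (j + 1) - xb M a j) *
        (Pp.Area50.cl t T (sh M S (j + 1)) - Pp.Area50.cl t T (sb M m a (j + 1))) := by
  rw [← Jf_eq _ _ _ _ h1]
  exact Jf_congr h1 (fun _ hs => A.lvh (h0.trans hs.1))
    fun _ hs => A.lvb ((s_nn A.cl _).trans (h0.trans hs.1))

theorem J_T (A : At S M m a T) {t : ℝ} (h0 : M.s S.j0 ≤ t) (h1 : t ≤ T) :
    |Sc48.Jf (lh M T) (lb M S m a T) T t| ≤ T := by
  have t0 := (s_nn A.cl _).trans h0
  have c : ∀ x, t ≤ Pp.Area50.cl t T x ∧ Pp.Area50.cl t T x ≤ T := fun x =>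
    ⟨le_max_left _ _, max_le h1 (min_le_right _ _)⟩
  rw [J_eq A h0 h1]
  refine (Finset.abs_sum_le_sum_abs _ _).trans ((Finset.sum_le_sum
    (g := fun j => (xb M a (j + 1) - xb M a j) * T) fun j _ => ?_).trans ?_)
  · have x0 := sub_nonneg.2 (A.xb_mono (Nat.le_succ j))
    rw [abs_mul, abs_of_nonneg x0]
    exact mul_le_mul_of_nonneg_left (abs_le.2
      ⟨by linarith [(c (sh M S (j + 1))).1, (c (sb M m a (j + 1))).2],
        by linarith [(c (sh M S (j + 1))).2, (c (sb M m a (j + 1))).1]⟩) x0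
  · rw [← Finset.sum_mul, Finset.sum_range_sub (xb M a)]
    simp only [xb]
    exact mul_le_of_le_one_left (t0.trans h1) (by linarith [A.cl.leg.z1 S.Jp, A.a_pos])

/-- the nodes below the time `t` cancel -/
theorem J_cut (A : At S M m a T) {t : ℝ} {k : ℕ} (k0 : S.j0 ≤ k) (k1 : k ≤ S.Jp) (h0 : M.s k ≤ t)
    (h0' : sb M m a (k + 1) ≤ t) (h1 : t ≤ T) :
    |Sc48.Jf (lh M T) (lb M S m a T) T t| ≤ Ap63.Sx M.z (dsb M m a) k S.Jp 1 := by
  rw [J_eq A ((A.cl.sm k0).trans h0) h1, Finset.range_eq_Ico,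
    ← Finset.sum_Ico_consecutive _ (Nat.zero_le (k + 1)) (Nat.succ_le_succ k1),
    Finset.sum_eq_zero (s := Finset.Ico 0 (k + 1)) fun j hj => ?_, zero_add, Nat.succ_eq_add_one,
    Finset.Ico_add_one_add_one_eq_Ioc]
  · refine (Finset.abs_sum_le_sum_abs _ _).trans (Finset.sum_le_sum fun j hj => ?_)
    have j0 := (Finset.mem_Ioc.1 hj).1
    have x0 := sub_nonneg.2 (A.xb_mono (Nat.le_succ j))
    rw [abs_mul, abs_of_nonneg x0, A.sh_succ (by omega), pow_one, dsb, abs_sub_comm (sb M m a _)]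
    obtain ⟨j, rfl⟩ : ∃ i, j = i + 1 := ⟨j - 1, by omega⟩
    exact mul_le_mul_of_nonneg_left (cl_lip _ _ _ _) x0
  · have j0 := Nat.le_of_lt_succ (Finset.mem_Ico.1 hj).2
    rw [cl_of_le ((A.sb_mono (Nat.succ_le_succ j0)).trans h0'),
      cl_of_le (u := sh M S (j + 1)) ((A.cl.sm (max_le j0 k0)).trans h0), sub_self, mul_zero]

end J60

open J60

variable {E L : ℝ} {S : Sc} {M : Md} {m : ℕ} {a G1 u1 u2 j γ Lc ηc τ l0 l X Xp Vt Lg Lp X2 X3 X4
  G0 : ℝ} {η : ℝ → ℝ} {N : ℝ} {g : ℝ → ℝ} {t1 tu ℓ En p0 : ℝ}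

namespace Cx

variable (H : Cx E L S M m a G1 u1 u2 j γ Lc ηc τ l0 l X Xp Vt Lg Lp X2 X3 X4 G0 η N g t1 tu ℓ
  En p0)
include H

theorem Cv60 : 1000 * (S.C * S.v) ≤ t1 := by linarith [H.Cv, H.μ1, H.lt.t1a, H.l0']

theorem t160 : 4 * t1 ≤ 1 / (4 * S.C ^ 2) := by
  have C0 := H.cl.C0
  have p := H.dv (H.KE (c := 16) 3 (by norm_num)) H.t10.le (H.lt.t1b.trans H.tuC)
  rw [le_div_iff₀ (by positivity)]
  exact le_of_mul_le_mul_left (a := S.C) (by linarith) C0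

/-- the sup bound on the window of the cut -/
theorem u60 {t : ℝ} (h1 : t1 ≤ t) (h2 : t ≤ 2 * t1) : L ^ 13 * |uq S M m a t| ≤ t1 := by
  obtain ⟨σ, a1, a2, a3, a4, -⟩ := H.exσ
  have C0 := H.cl.C0
  have C1 := H.cl.C1
  have t0 := H.t10
  have l0 := H.l0'
  have v0 := H.cl.v0
  have μ0 := H.μ0
  have lt := H.lt.t1a
  have tu := H.t1u
  have ℓu := H.ℓu
  have tJ := H.lt.tu1
  have Cv := H.Cv60
  have σ0 : 0 ≤ σ := v0.le.trans a2
  have g0 := H.lt.g0 t1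
  have g1 := (H.g_le (t := t1) (by linarith) (by linarith)).1
  have E0 : 0 ≤ E := by linarith [H.E1]
  set V := 10 * S.C ^ 4 * σ + g t1 + S.C * (1 / S.n) with hV
  have V0 : 0 ≤ V := by positivity
  have c1 : (1 : ℝ) ≤ S.C ^ 4 := one_le_pow₀ C1
  have c2 : S.C ≤ S.C ^ 4 := le_self_pow₀ C1 (by norm_num)
  have e1 : E * V ≤ 7 * S.C ^ 4 * t1 := by
    have b1 := mul_le_mul_of_nonneg_left (a4.trans (by linarith : l ≤ t1 / 2))
      (by positivity : 0 ≤ 10 * S.C ^ 4)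
    have b2 := mul_le_mul_of_nonneg_left (H.μl'.trans (by linarith : l ≤ t1)) C0.le
    have b3 := mul_le_mul_of_nonneg_right c1 t0.le
    have b4 := mul_le_mul_of_nonneg_right c2 t0.le
    rw [hV]
    linarith
  have e2 : 4 * V ≤ t1 := by
    have := H.dv (H.KE (c := 28) 4 (by norm_num)) V0 e1
    exact le_of_mul_le_mul_left (a := 7 * S.C ^ 4) (by linarith) (by positivity)
  obtain ⟨i, -, i1, i2⟩ := node H.A (x := l) l0.le (by linarith)
  obtain ⟨k, k0, k1, k2⟩ := node H.A (x := 3 * t1) (by linarith) (by linarith)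
  have ik : i ≤ k := le_of_not_gt fun c => by linarith [H.cl.sm c.le]
  have p := H.A.u_of_del (i := i) (i' := k) (V := V) (t := t)
    (H.cl.i1.trans (H.idx i1.le (by linarith)).1.le) ik k0 (fun y y1 y2 => by
      have s1 := H.cl.sm y1
      have s2 := H.cl.sm y2
      obtain ⟨q1, q2⟩ := H.idx (k := y) (by linarith) (by linarith)
      have j0 := H.cl.i1.trans_lt q1
      obtain ⟨d1, d2⟩ := H.del_cr a1 a2 a3 j0 q2
      have d3 := mul_le_mul_of_nonneg_left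
        (abs_le.2 ⟨d1, d2 (H.z_half j0.le q2 (by linarith [H.t160]))⟩) C0.le
      have d4 := H.lt.g1 t1 y q1 q2 (by linarith) (by linarith) (by linarith)
      rw [hV]
      linarith [H.Cm]) (by linarith) (by linarith)
  have L1 := H.L1
  have e3 : E * (S.C * V + S.C * S.v) ≤ L * t1 := by
    have b1 := mul_le_mul_of_nonneg_left e1 C0.le
    have b2 := mul_le_mul_of_nonneg_left (H.vμ.trans (H.μ1.trans (by linarith : l ≤ t1))) C0.le
    have b3 := mul_le_mul_of_nonneg_right (H.KL (c := 8) 5 (by norm_num)) t0.le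
    have b4 := mul_le_mul_of_nonneg_right (le_self_pow₀ C1 (show 5 ≠ 0 by norm_num)) t0.le
    linarith
  have e4 := H.dv (H.LE 14) (by positivity) e3
  refine (mul_le_mul_of_nonneg_left p (by positivity)).trans ?_
  exact le_of_mul_le_mul_left (a := L) (by linarith) (by linarith)

theorem cost60 : cB M S η (t1 / 2) S.C + GP M S ≤ En := by
  have t0 := H.t10
  have x0 : 0 ≤ X4 := by
    have := H.w30 t0
    have c := t0.trans_le (H.cl_ge t0.le)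
    have : 0 ≤ ws S (X ^ ((1 : ℝ) / 3)) t1 := by unfold ws; positivity
    have : 0 ≤ min X (L69.cl S (X ^ ((1 : ℝ) / 3)) t1 ^ 3) := le_min H.ln.X0.le (by positivity)
    exact le_trans (by positivity) (H.lt.x4 t1 (by linarith) (H.t11.trans H.cl.C1))
  have n0 : GP M S ≤ N := by
    have a := GP_nn H.cl
    have b := GS_nn H.cl (1 / (8 * S.C ^ 2)) S.C
    refine (le_div_self a H.cl.θ0 H.θ1).trans (le_trans ?_ H.lp.c2)
    exact div_le_div_of_nonneg_right (by nlinarith [sq_nonneg G1, sq_nonneg (S.θ * γ)]) H.cl.θ0.le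
  have a1 := sq_nonneg X2
  have a2 : 0 ≤ l ^ 3 * X := (mul_pos (pow_pos H.l0' 3) H.ln.X0).le
  have a3 : 0 ≤ (S.ms t1 * bs S Lg X2 (g t1) η t1) ^ 2 / t1 := by positivity
  linarith [H.lt.en]

theorem mf60 {t : ℝ} : mf S t ≤ 1 := (H.mf_eq t).trans_le ((H.cl.ms1 t).trans H.θ1)

/-- the residual in `L¹` above the level `t1 / 2` -/
theorem G60 {k : ℕ} {r : ℝ} (k0 : S.jl ≤ k) (k1 : k < S.J) (h : t1 / 2 ≤ M.s k) (r0 : 0 < r)
    (r1 : r ≤ 1) : Ap63.Sx M.z M.G k S.Jp 1 ≤ r + En / r := by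
  have i3 := H.cl.i3
  have dn := dx_nn H.cl
  have w := Ap63.wt_le H.cl k
  rw [← Ap63.tel M.z (k1.le.trans i3),
    ← Finset.sum_Ioc_consecutive _ (show k ≤ S.J - 1 by omega) (show S.J - 1 ≤ S.Jp by omega)] at w
  have p1 : ∑ y ∈ Finset.Ioc k (S.J - 1), dx M y * |M.G y| ^ 1 ≤
      r * ∑ y ∈ Finset.Ioc k (S.J - 1), dx M y + cB M S η (t1 / 2) S.C / r := by
    refine le_trans (Finset.sum_le_sum (g := fun y => r * dx M y + dx M y *
      (cr S (M.s y) * (η (M.s y) ^ 2 / mf S (M.s y)) +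
        min (|M.G y| ^ ((4 : ℝ) / 3)) (M.G y ^ 2 / mf S (M.s y))) / r) fun y _ => ?_) ?_
    · have m0 := mf_pos H.cl (H.cl.s_nn y)
      have c := cr1 S (M.s y)
      have b := abs_le_min (x := M.G y) r0 r1 m0 H.mf60
      have d : 0 ≤ cr S (M.s y) * (η (M.s y) ^ 2 / mf S (M.s y)) / r := by positivity
      rw [pow_one, mul_div_assoc, add_div, mul_comm r, ← mul_add]
      exact mul_le_mul_of_nonneg_left (by linarith) (dn y)
    rw [Finset.sum_add_distrib, ← Finset.mul_sum, ← Finset.sum_div]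
    refine add_le_add le_rfl (div_le_div_of_nonneg_right
      (Finset.sum_le_sum_of_subset_of_nonneg (fun y hy => ?_) fun y _ _ => ?_) r0.le)
    · obtain ⟨y1, y2⟩ := Finset.mem_Ioc.1 hy
      exact Finset.mem_filter.2 ⟨Finset.mem_Ioo.2 ⟨by omega, by omega⟩,
        h.trans (H.cl.sm y1.le), H.cl.s_le_C (by omega)⟩
    · have m0 := mf_pos H.cl (H.cl.s_nn y)
      have c := cr1 S (M.s y)
      have : 0 ≤ min (|M.G y| ^ ((4 : ℝ) / 3)) (M.G y ^ 2 / mf S (M.s y)) :=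
        le_min (by positivity) (by positivity)
      exact mul_nonneg (dn y) (by positivity)
  have p2 : ∑ y ∈ Finset.Ioc (S.J - 1) S.Jp, dx M y * |M.G y| ^ 1 ≤
      r * ∑ y ∈ Finset.Ioc (S.J - 1) S.Jp, dx M y + GP M S / r := by
    rw [GP, show Finset.Icc S.J S.Jp = Finset.Ioc (S.J - 1) S.Jp by ext; simp; omega,
      Finset.mul_sum, Finset.sum_div, ← Finset.sum_add_distrib]
    refine Finset.sum_le_sum fun y _ => ?_
    rw [pow_one, mul_div_assoc, mul_comm r, ← mul_add]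
    exact mul_le_mul_of_nonneg_left (abs_le_sq r0) (dn y)
  have p3 := div_le_div_of_nonneg_right H.cost60 r0.le
  have p4 := mul_le_of_le_one_right r0.le w
  rw [Ap63.Sx,
    ← Finset.sum_Ioc_consecutive _ (show k ≤ S.J - 1 by omega) (show S.J - 1 ≤ S.Jp by omega)]
  rw [add_div] at p3
  simp only [dx] at p1 p2
  linarith

/-- the tail integral above `t1` -/
theorem Jt60 {Y t : ℝ} (hX : X ≤ Y) (hE : En ≤ Y) (h1 : t1 ≤ t) (h2 : t ≤ 2 * S.C) :
    |Jq S M m a t| ≤ 10 * S.C * √Y := by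
  have C0 := H.cl.C0
  have C1 := H.cl.C1
  have t0 := H.t10
  have lt := H.lt.t1a
  have tu := H.t1u
  have ℓu := H.ℓu
  have tJ := H.lt.tu1
  have Cv := H.Cv60
  have Y0 := H.ln.X0.trans_le hX
  have r0 := sqrt_pos.2 Y0
  obtain ⟨k, -, k1, k2⟩ := node H.A (x := t1 / 2) (by linarith) (by linarith)
  obtain ⟨q1, q2⟩ := H.idx (k := k) (by linarith) (by linarith)
  have j0 := H.cl.i1.trans q1.le
  have kp := q2.le.trans H.cl.i3
  rcases le_total 1 √Y with c | c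
  · refine (J_T H.A ((H.cl.sm j0).trans (by linarith)) h2).trans ?_
    nlinarith
  have p := J_cut H.A j0 kp (t := t) (by linarith) (by
    linarith [(H.dsb_cr (k := k) (by linarith) (by linarith)).2 (by linarith [H.t160])]) h2
  have p1 := (Ap63.Sx_one H.cl.leg.zm kp (Ap63.wt_le H.cl k)).trans
    (sqrt_le_sqrt ((H.Sdel j0 le_rfl).trans hX))
  have p2 := H.G60 q1.le q2 k1.le r0 c
  have p3 : En / √Y ≤ √Y := by rw [div_le_iff₀ r0, mul_self_sqrt Y0.le]; exact hE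
  have p4 := mul_le_mul_of_nonneg_left (H.μe.trans (sqrt_le_sqrt hE)) C0.le
  have p5 := mul_le_mul_of_nonneg_left p1 C0.le
  have p6 := mul_le_mul_of_nonneg_right C1 r0.le
  linarith [(H.A.dsb_sum kp).1, H.Cm]

theorem sub60 {U : Finset ℕ} (hU : U ⊆ Finset.Ioc S.j0 S.Jp) :
    ∑ k ∈ U, dx M k * M.del m a k ^ 2 ≤ X := by
  refine le_trans ?_ (H.Sdel le_rfl le_rfl)
  rw [Ap63.Sx_two]
  exact Finset.sum_le_sum_of_subset_of_nonneg hU fun k _ _ =>
    mul_nonneg (dx_nn H.cl k) (sq_nonneg _)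

/-- the trivial location -/
theorem lo60 {Y : ℝ} (hX : X ≤ Y) : LO 1 S M m a (2 * t1) u2 Y := by
  have X0 := H.ln.X0
  have Y0 := X0.trans_le hX
  have t0 := H.t10
  have X1 : X ≤ 1 := by simpa using H.dv H.E1 X0.le H.ln.X1
  have hb : ∀ t t', (M.blk S t t').filter (· < S.J) ⊆ Finset.Ioc S.j0 S.Jp := fun t t' =>
    (Finset.filter_subset _ _).trans (Finset.filter_subset _ _)
  refine ⟨fun t t' a1 a2 => (H.sub60 (hb t t')).trans ?_, ?_, ?_⟩
  · have b1 : X ≤ t1 := le_trans (by simpa using H.dv H.E1 X0.le H.lt.t1c)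
      (pow_le_of_le_one t0.le H.t11 (by norm_num))
    have b2 : X ≤ √(t' * Y) := le_sqrt_of_sq_le (by
      rw [sq]; exact mul_le_mul (by linarith) hX X0.le (by linarith))
    have b3 := hX.trans (le_div_self Y0.le (mf_pos H.cl (t := t) (by linarith)) H.mf60)
    have b4 : 0 ≤ 1 / (S.n : ℝ) ^ 2 := by positivity
    linarith [le_min b2 b3, GS_nn H.cl t t']
  · have b1 : ∑ k ∈ (M.blk S (2 * t1) S.C).filter (· < S.J), dx M k * M.del m a k ^ 4 ≤
        ∑ k ∈ (M.blk S (2 * t1) S.C).filter (· < S.J), dx M k * M.del m a k ^ 2 :=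
      Finset.sum_le_sum fun k hk => mul_le_mul_of_nonneg_left (by
        have d := (sq_le_one_iff_abs_le_one _).2 (L25.del_one H.A (Finset.mem_Ioc.1 (hb _ _ hk)).2)
        nlinarith [sq_nonneg (M.del m a k)]) (dx_nn H.cl k)
    have b2 : 0 ≤ ∑ k ∈ (M.blk S (2 * t1) S.C).filter (· < S.J), dx M k * M.G k ^ 4 :=
      Finset.sum_nonneg fun k _ => mul_nonneg (dx_nn H.cl k) (by positivity)
    have b4 : 0 ≤ 1 / (S.n : ℝ) ^ 4 := by positivity
    linarith [H.sub60 (hb (2 * t1) S.C)]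
  · have b1 : Pla M S m a 2 ≤ X := by
      simp only [Pla, sq_abs]
      exact H.sub60 fun k hk => Finset.mem_Ioc.2
        ⟨H.cl.j0_lt.trans_le (Finset.mem_Icc.1 hk).1, (Finset.mem_Icc.1 hk).2⟩
    have b2 : X ≤ Y ^ ((3 : ℝ) / 5) :=
      ((rpow_one X).symm.le.trans (rpow_le_rpow_of_exponent_ge X0 X1 (by norm_num))).trans
        (rpow_le_rpow X0.le hX (by norm_num))
    have b3 := hX.trans (le_div_self Y0.le H.cl.θ0 H.θ1)
    have b4 : 0 ≤ 1 / (S.n : ℝ) ^ 2 := by positivity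
    linarith [le_min b2 b3, GP_nn H.cl, sq_nonneg (M.s S.Jp - M.s S.J), H.lp.u1b.1, H.lp.u1a,
      H.cl.last, H.cl.leg.z1 (S.Jp - 1)]

end Cx

/-- **(CrJ)** -/
theorem crJ : CrJ := fun _ _ _ _ _ _ _ _ _ _ _ _ _ _ _ _ _ _ _ _ _ _ _ _ _ _ _ _ _ _ _ _ _ H =>
  ⟨fun _ => H.u60, fun _ _ => H.Jt60, fun _ => H.lo60⟩

end Crest.Agent.T156.Alt.L63

end
end

-- ▼ part T156/TL2C_63
section

/-!
# Row 156, block (L), (TL2): the closing argument (helper63)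
-/

set_option autoImplicit false

noncomputable section

namespace Crest.Agent.T156.Alt.L63

open MeasureTheory Real Set
open Crest.Agent.T156.Alt.L69 Crest.Agent.T156.Alt.Mp9 Crest.Agent.T156.Cut8
open Crest.Agent.T156.Pp.Area50 Crest.Agent.T156.Zb9
open Crest.Agent.R164.GC Crest.Agent.R339.B Crest.Agent.R339.Var Crest.Agent.T157.Pf

/-- the size of the energy -/
theorem alg1 {L μ t P b j En : ℝ} (L2 : 2 ≤ L) (t0 : 0 < t) (t1 : t ≤ 1) (μ0 : 0 ≤ μ)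
    (hμ : μ ≤ t ^ 2) (j0 : 0 ≤ j) (jP : j ≤ P) (E0 : 0 ≤ En) (hb : (μ * b) ^ 2 / t ≤ En) :
    En + (μ * (L * (P + b))) ^ 2 / t + (2 * t * j + L * √En) ^ 2 ≤
      5 * L ^ 2 * En + 10 * L ^ 2 * (t * P) ^ 2 := by
  have a1 : (μ * (L * (P + b))) ^ 2 / t ≤ 2 * L ^ 2 * ((μ * P) ^ 2 / t + (μ * b) ^ 2 / t) := by
    rw [← add_div, ← mul_div_assoc]
    refine div_le_div_of_nonneg_right ?_ t0.le
    nlinarith [mul_nonneg (sq_nonneg L) (sq_nonneg (μ * P - μ * b))]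
  have a2 : (μ * P) ^ 2 / t ≤ (t * P) ^ 2 := by
    rw [div_le_iff₀ t0, mul_pow, mul_pow, mul_right_comm]
    refine mul_le_mul_of_nonneg_right ((pow_le_pow_left₀ μ0 hμ 2).trans ?_) (sq_nonneg _)
    nlinarith [mul_le_mul_of_nonneg_left t1 (pow_pos t0 3).le]
  have a3 : (2 * t * j + L * √En) ^ 2 ≤ 8 * (t * j) ^ 2 + 2 * L ^ 2 * En := by
    have := sq_nonneg (2 * t * j - L * √En)
    have e : (L * √En) ^ 2 = L ^ 2 * En := by rw [mul_pow, sq_sqrt E0]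
    nlinarith
  have a4 : (t * j) ^ 2 ≤ (t * P) ^ 2 :=
    pow_le_pow_left₀ (by positivity) (mul_le_mul_of_nonneg_left jP t0.le) 2
  have a5 : 1 ≤ L ^ 2 := one_le_pow₀ (by linarith)
  have a6 := mul_le_mul_of_nonneg_left (add_le_add a2 hb) (by positivity : 0 ≤ 2 * L ^ 2)
  nlinarith [mul_le_mul_of_nonneg_right a5 E0, mul_le_mul_of_nonneg_right a5 (sq_nonneg (t * P))]

/-- the contraction -/
theorem alg2 {L κ p y j ι P : ℝ} (L9 : 100 ≤ L) (p0 : 0 ≤ p) (P0 : 0 ≤ P) (κ0 : 0 ≤ κ)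
    (hκ : 40 * L ^ 4 * κ ≤ 1) (hy : y ≤ 3 * L ^ 2 * p + 4 * L ^ 2 * (κ * P)) (y0 : 0 ≤ y)
    (hj : j ≤ 2 * (L ^ 2 * y + L ^ 2 * p) + ι + p) (hι : ι ≤ 2 * (κ * P) + L * p + L * y)
    (hP : P = j + ι) : P ≤ L ^ 5 * p := by
  have l2 : L ≤ L ^ 2 := le_self_pow₀ (by linarith) (by norm_num)
  have l4 : L ^ 2 ≤ L ^ 4 := pow_le_pow_right₀ (by linarith) (by norm_num)
  have a1 := mul_le_mul_of_nonneg_right l2 y0
  have a2 := mul_le_mul_of_nonneg_left hy (by positivity : 0 ≤ 4 * L ^ 2)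
  have a3 := mul_le_mul_of_nonneg_right l2 p0
  have a4 := mul_le_mul_of_nonneg_right l4 p0
  have a5 := mul_le_mul_of_nonneg_right (show 1 ≤ L by linarith) p0
  have a6 := mul_le_mul_of_nonneg_right (show 1 ≤ L ^ 4 by linarith) (mul_nonneg κ0 P0)
  have a7 := mul_le_mul_of_nonneg_right hκ P0
  have a8 := mul_le_mul_of_nonneg_right L9 (by positivity : 0 ≤ L ^ 4 * p)
  nlinarith

variable {E L : ℝ} {S : Sc} {M : Md} {m : ℕ} {a G1 u1 u2 j γ Lc ηc τ l0 l X Xp Vt Lg Lp X2 X3 X4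
  G0 : ℝ} {η : ℝ → ℝ} {N : ℝ} {g : ℝ → ℝ} {t1 tu ℓ En p0 : ℝ}

/-- the conclusion of `TkA` -/
def TA (Λ : ℝ) (S : Sc) (M : Md) (m : ℕ) (a l Lg X2 : ℝ) (η g : ℝ → ℝ) (tu ℓ : ℝ) : Prop :=
  ∀ p x y V, 3 / 2 * l ≤ x → M.s V + ℓ / 4 ≤ tu → sb M m a (V + 1) + ℓ / 4 ≤ tu →
    y ≤ sb M m a (V + 1) → (∀ t, x ≤ t → t ≤ y → Hq S M m a t ≤ p) →
    ∀ t, x + Λ * √(S.ms t) ≤ t → t + Λ * √(S.ms t) ≤ y →
    ∀ t', l ≤ t' → t' ≤ tu → t' ≤ 2 * t → t ≤ 2 * t' →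
      |uq S M m a t| ≤ Λ * (p + bs S Lg X2 (g t') η t')

/-- `∫ |J|` -/
def io (S : Sc) (M : Md) (m : ℕ) (a : ℝ) : ℝ := ∫ t in (0 : ℝ)..2 * S.C, |Jq S M m a t|

namespace Cx

variable (H : Cx E L S M m a G1 u1 u2 j γ Lc ηc τ l0 l X Xp Vt Lg Lp X2 X3 X4 G0 η N g t1 tu ℓ
  En p0)
include H

theorem tl : Tl (2 * S.C) (uq S M m a) (Jq S M m a) := ⟨H.A.LB_uu, fun _ => rfl⟩

theorem Hq_eq (t : ℝ) : Hq S M m a t = |Jq S M m a t| + io S M m a := by
  unfold Hq Rig.Hp; rw [H.A.okh.2]; rfl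

theorem io0 : 0 ≤ io S M m a :=
  intervalIntegral.integral_nonneg H.A.T0 fun _ _ => abs_nonneg _

theorem J_le {t : ℝ} (h0 : 0 ≤ t) (h1 : t ≤ 2 * S.C) : |Jq S M m a t| ≤ 2 * S.C := by
  refine H.A.J_le_63 ?_ ⟨h0, h1⟩
  simpa using int_le_const H.A.LB_uu.abs le_rfl H.A.T0 le_rfl (K := 1) fun s _ _ => by
    unfold uu
    exact abs_le.2 ⟨by linarith [Pp.Ode3.lvr_pos H.A.okb.1.1 s, Pp.Ode3.lvr_le_one H.A.okh.1.1 s],
      by linarith [Pp.Ode3.lvr_pos H.A.okh.1.1 s, Pp.Ode3.lvr_le_one H.A.okb.1.1 s]⟩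

theorem vl : 1000 * (S.C * S.v) ≤ l := H.Cv.trans H.μ1
theorem vℓ : 1000 * (S.C * S.v) ≤ ℓ := H.Cv.trans (by simpa using H.dv H.E1 H.μ0.le H.μℓ)

/-- sums of `sb - s` on a range of sloped nodes -/
theorem Sdsb {lo hi : ℕ} (h1 : lo ≤ hi) (h2 : hi < S.J) : Ap63.Sx M.z (dsb M m a) lo hi 2 ≤
    3 * (S.C ^ 2 * Ap63.Sx M.z (M.del m a) lo hi 2 + Ap63.Sx M.z M.G lo hi 2 +
      (S.C * (1 / S.n)) ^ 2) :=
  (Ap63.Sx_le H.cl.leg.zm h1 (by linarith [H.cl.leg.z1 hi, H.cl.z_pos lo])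
    (mul_pos H.cl.C0 H.μ0).le fun k _ b =>
      (H.A.sub_le (b.trans (h2.trans H.cl.J_lt).le)).trans (add_le_add le_rfl H.Cm)).2

set_option maxHeartbeats 1000000 in
/-- **`∫ |J|` below the cut** -/
theorem low {c jj : ℝ} (h1 : 7 / 4 * l ≤ c) (h2 : c ≤ 2 * S.C)
    (hj : ∀ t, 7 / 4 * l ≤ t → t ≤ c → |Jq S M m a t| ≤ jj) :
    ∫ t in (0 : ℝ)..c, |Jq S M m a t| ≤ c * jj + L * √En := by
  obtain ⟨σ, a1, a2, a3, a4, a5⟩ := H.exσ
  have A := H.A
  have C1 := H.cl.C1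
  have C0 := H.cl.C0
  have l0 := H.l0'
  have v0 := H.cl.v0
  have σ0 : 0 ≤ σ := v0.le.trans a2
  have vl := H.vl
  have t1u := H.t1u
  have t1a := H.lt.t1a
  have tu1 := H.lt.tu1
  have ℓu := H.ℓu
  have b1 : 1000 * S.C ^ 4 * σ ≤ l := H.dv (H.KE 4 (by norm_num)) σ0 a4
  have c3 : σ ≤ S.C * σ := le_mul_of_one_le_left σ0 C1
  have c4 : S.C * σ ≤ S.C ^ 4 * σ := mul_le_mul_of_nonneg_right (le_self_pow₀ C1 (by norm_num)) σ0
  have c5 : S.C ^ 2 * σ ≤ S.C ^ 4 * σ :=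
    mul_le_mul_of_nonneg_right (pow_le_pow_right₀ C1 (by norm_num)) σ0
  have c6 := mul_le_mul_of_nonneg_left a2 C0.le
  set b := 20 * S.C ^ 4 * σ with hb
  have j1 : S.jl + 1 < S.J := H.cl.i2
  have s1 := (H.cl.ss _ H.cl.jl_lt).2
  have q4 : l ≤ 1 / (4 * S.C ^ 2) := by
    rw [le_div_iff₀' (by positivity)]; exact H.dv (H.KE 2 (by norm_num)) l0.le H.ln.l1
  have sbj : sb M m a (S.jl + 1) ≤ b := by
    have p := (H.del_cr a1 a2 a3 (H.cl.i1.trans_lt (Nat.lt_succ_self _)) j1).2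
      (H.z_half (H.cl.i1.trans (Nat.le_succ _)) j1 (by linarith))
    have q := H.cl.q_le_s (j1.trans H.cl.J_lt).le
    have r0 := (rb_mem (M := M) (a := a) A.m_pos (S.jl + 1)).1
    have r1 : kp m * M.d (S.jl + 1) ≤ 1 * S.C := mul_le_mul (kp_mem m).2
      ((H.cl.d_le (j1.trans H.cl.J_lt).le).trans H.cl.b1) (by linarith [H.cl.d_ge (S.jl + 1)])
      zero_le_one
    have r2 : M.rb m a (S.jl + 1) ≤ σ + S.C * σ + 10 * S.C ^ 3 * σ := by
      unfold Md.del at p; linarith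
    have r3 := mul_le_mul r1 r2 r0 (by linarith)
    have r4 := H.ce.bot
    have r5 : S.ms (M.s S.jl) * M.s S.jl ≤ 1 * σ :=
      mul_le_mul ((H.cl.ms1 _).trans H.θ1) a3 H.jl0.le zero_le_one
    rw [H.lt.F1, mul_one, mul_assoc] at r4
    have r6 := A.sb_mono (Nat.le_succ (S.jl + 1))
    simp only [sb] at r6 ⊢
    linarith [mul_le_mul_of_nonneg_left r5 C0.le]
  obtain ⟨hi, k1, k2, k3, k4⟩ := H.cl.exists_node (t := 2 * l) (by linarith) (by linarith)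
  have k5 := (H.cl.ss _ k1).2
  have k6 := (H.idx (k := hi) (by linarith) (by linarith)).1
  have k7 := (H.dsb_cr (k := hi + 1) (by linarith) (by linarith)).1
  have SG : Ap63.Sx M.z M.G S.jl hi 2 ≤ GS M S 0 (2 * l) := by
    rw [Ap63.Sx_two]
    refine Finset.sum_le_sum_of_subset_of_nonneg (fun k hk => ?_)
      fun k _ _ => mul_nonneg (dx_nn H.cl k) (sq_nonneg _)
    obtain ⟨p, q⟩ := Finset.mem_Ioc.1 hk
    exact Finset.mem_filter.2 ⟨Finset.mem_Ioo.2 ⟨p, q.trans_lt k1⟩, H.cl.s_nn k,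
      (H.cl.sm q).trans k2⟩
  have W := A.dz_sq_le H.cl.i1 k6.le k1 (x := b) (y := 7 / 4 * l) (by linarith) (by linarith) sbj
    (by linarith) (by linarith)
  have S1 := H.Sdsb k6.le k1
  have S2 := mul_le_mul_of_nonneg_left (H.Sdel H.cl.i1 (k1.le.trans H.cl.i3)) (sq_nonneg S.C)
  have S3 : S.v ^ 2 * (M.z hi - M.z S.jl) ≤ (1 / S.n) ^ 2 * 1 :=
    mul_le_mul (pow_le_pow_left₀ v0.le (by simpa using H.dv H.E1 v0.le H.vμ) 2)
      (by linarith [H.cl.leg.z1 hi, H.cl.z_pos S.jl]) (sub_nonneg.2 (H.cl.leg.zm k6.le))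
      (sq_nonneg _)
  set W0 := 12 * S.C * (S.C ^ 2 * X + GS M S 0 (2 * l) + S.C ^ 2 * (1 / S.n) ^ 2) +
    2 * S.C * (1 / S.n) ^ 2 with hW
  have W1 : ∫ t in b..7 / 4 * l, uq S M m a t ^ 2 ≤ W0 := by
    have := mul_le_mul_of_nonneg_left S1 (by positivity : 0 ≤ 4 * S.C)
    have := mul_le_mul_of_nonneg_left (add_le_add S2 SG) (by positivity : 0 ≤ 12 * S.C)
    have := mul_le_mul_of_nonneg_left S3 (by positivity : 0 ≤ 2 * S.C)
    rw [hW]
    linarith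
  have b0 : 0 ≤ b := by positivity
  have lT : 7 / 4 * l ≤ 2 * S.C := h1.trans h2
  have G0 := GS_nn H.cl 0 (2 * l)
  have X0 := H.ln.X0
  have W00 : 0 ≤ W0 := by positivity
  have I1 : ∫ t in b..7 / 4 * l, |uq S M m a t| ≤ √(2 * l * W0) :=
    (int_abs_le A.LB_uu b0 (by linarith) lT W1).trans
      (sqrt_le_sqrt (mul_le_mul_of_nonneg_right (by linarith) W00))
  have I2 : ∫ t in b..2 * b, |uq S M m a t| ≤ √(2 * l * W0) :=
    (int_sub_le A.LB_uu.abs b0 le_rfl (by linarith) (by linarith) lT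
      fun _ _ _ => abs_nonneg _).trans I1
  have I3 := root_area (T := 2 * S.C) A.zb_mono A.zh_mono
    (fun t => (Pp.Ode3.lvr_pos A.okb.1.1 t).le) (fun t => (Pp.Ode3.lvr_pos A.okh.1.1 t).le) b0
    (by linarith) (H := 4 * S.C * b)
    ((A.zh_le (by linarith) (by linarith)).trans (by
      linarith [mul_le_mul_of_nonneg_left (show S.v ≤ b by linarith) C0.le])) I2
  have I4 := H.tl.low b0 (by linarith) h1 h2 hj I3 I1
  have e0 := sqrt_nonneg En
  have I5 : 2 * l * √(2 * l * W0) ≤ 18 * S.C ^ 2 * √En := by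
    refine abs_le_of_sq_le_sq' ?_ (by positivity) |>.2
    rw [mul_pow, mul_pow _ √En, sq_sqrt (by positivity), sq_sqrt H.En0]
    have l3 : l ^ 3 * (1 / (S.n : ℝ)) ^ 2 ≤ En :=
      (mul_le_of_le_one_left (sq_nonneg _) (pow_le_one₀ l0.le H.l1)).trans H.μEn
    have p1 := mul_le_mul_of_nonneg_left H.en.2.1 (pow_pos C0 3).le
    have p2 := mul_le_mul_of_nonneg_left H.lt.gl C0.le
    have p3 := mul_le_mul_of_nonneg_left l3 (pow_pos C0 3).le
    have p4 := mul_le_mul_of_nonneg_left l3 C0.le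
    have p5 := mul_le_mul_of_nonneg_right (pow_le_pow_right₀ C1 (by norm_num : 3 ≤ 4)) H.En0
    have p6 := mul_le_mul_of_nonneg_right (le_self_pow₀ C1 (by norm_num : 4 ≠ 0)) H.En0
    rw [hW]
    linarith [mul_nonneg (pow_pos C0 4).le H.En0]
  have I6 := mul_le_mul_of_nonneg_left a5 (by positivity : 0 ≤ 32000 * S.C ^ 13)
  have I7 := mul_le_mul_of_nonneg_right (H.KL (c := 32036) 13 (by norm_num)) e0
  have I8 := mul_le_mul_of_nonneg_right (pow_le_pow_right₀ C1 (by norm_num : 2 ≤ 13)) e0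
  have I9 := mul_le_mul_of_nonneg_right (show b ≤ 2 * l by linarith) (sqrt_nonneg (2 * l * W0))
  have I10 : b * (b * (4 * S.C * b)) = 32000 * S.C ^ 13 * σ ^ 3 := by rw [hb]; ring
  linarith [mul_nonneg l0.le (sqrt_nonneg (2 * l * W0))]

omit H in
/-- number of halving steps -/
theorem exK {n : ℕ} {C L : ℝ} (h0 : 0 < n) (h1 : 2 * C ≤ log n) (h2 : log n ≤ L) (h3 : 10 ≤ L) :
    ∃ K : ℕ, 2 * C / 2 ^ K ≤ 1 / n ∧ (K : ℝ) + 1 ≤ L ^ 2 := by
  have n0 : (0 : ℝ) < n := by exact_mod_cast h0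
  have a1 : (n : ℝ) ≤ 2 ^ (Nat.log 2 n + 1) := by
    exact_mod_cast (Nat.lt_pow_succ_log_self (by norm_num) n).le
  have a2 : (2 : ℝ) ^ Nat.log 2 n ≤ n := by exact_mod_cast Nat.pow_log_le_self 2 h0.ne'
  have a3 := log_le_log (by positivity) a2
  rw [log_pow] at a3
  have a4 := mul_le_mul_of_nonneg_left log_two_gt_d9.le (Nat.cast_nonneg (α := ℝ) (Nat.log 2 n))
  refine ⟨2 * (Nat.log 2 n + 1), ?_, by push_cast; nlinarith⟩
  rw [div_le_div_iff₀ (by positivity) n0, one_mul, mul_comm 2 (Nat.log 2 n + 1), pow_mul, sq]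
  exact mul_le_mul (by linarith [log_le_sub_one_of_pos n0]) a1 n0.le (by positivity)

/-- the local error as a step function -/
def be (L : ℝ) (S : Sc) (M : Md) (Lg X2 : ℝ) (η g : ℝ → ℝ) (t : ℝ) : ℝ :=
  |stp (fun j => L * bs S Lg X2 (g (M.s (j - 1))) η (M.s (j - 1))) (sh M S) (S.Jp + 1) t|

theorem be_cell {k : ℕ} {t : ℝ} (h0 : l ≤ M.s k) (h1 : M.s k ≤ t) (h2 : t < M.s (k + 1))
    (h3 : M.s k < tu) : be L S M Lg X2 η g t = L * bs S Lg X2 (g (M.s k)) η (M.s k) := by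
  obtain ⟨k1, k2⟩ := H.idx h0 h3
  rw [be, (H.A.ref_cell (H.cl.i1.trans k1.le) (k2.trans_le H.cl.i3) h1 h2).stp H.A.uh,
    Nat.add_sub_cancel]
  exact abs_of_nonneg (mul_nonneg (by linarith [H.L1]) (H.bs0 h0 (h3.le.trans H.tuC)))

theorem be_int {y : ℝ} (h1 : 3 / 2 * l ≤ y) (h2 : y < tu) :
    ∫ t in 3 / 2 * l..y, be L S M Lg X2 η g t ≤ L ^ 2 * p0 := by
  have l0 := H.l0'
  have vl := H.vl
  have C0 := H.cl.C0
  have tu1 := H.lt.tu1
  have L0 : 0 ≤ L := by linarith [H.L1]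
  obtain ⟨i, i1, i2, i3, i4⟩ := H.cl.exists_node (t := 3 / 2 * l) (by linarith) (by linarith)
  obtain ⟨k, k1, k2, k3, -⟩ := H.cl.exists_node (t := y) (by linarith) (by linarith)
  have lB : LB (2 * S.C) (be L S M Lg X2 η g) := (LB_stp _ _ _ _).abs
  have ik : i ≤ k + 1 := le_of_not_gt fun h => by linarith [H.cl.sm h.le]
  have mem : ∀ y, i ≤ y → y < k + 1 → l ≤ M.s y ∧ M.s y < tu := fun y a b =>
    ⟨by linarith [H.cl.sm a], by linarith [H.cl.sm (Nat.le_of_lt_succ b)]⟩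
  have p := int_sub_le lB (H.cl.s_nn i) i2 h1 k3.le
    ((H.cl.sm (k1.trans_le H.cl.i3)).trans H.A.t2) fun _ _ _ => abs_nonneg _
  have q := H.A.int_ref lB ik (k1.trans_le H.cl.i3)
    (w := fun y => L * bs S Lg X2 (g (M.s y)) η (M.s y))
    fun y t a b c d => (H.be_cell (mem y a b).1 c.le d (mem y a b).2).le
  have r : ∑ y ∈ Finset.Ico i (k + 1), (M.s (y + 1) - M.s y) * (L * bs S Lg X2 (g (M.s y)) η (M.s y)) ≤
      ∑ y ∈ Finset.Ico i (k + 1), S.C ^ 2 * L * (dx M y * bs S Lg X2 (g (M.s y)) η (M.s y)) :=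
    Finset.sum_le_sum fun y hy => by
      obtain ⟨a, b⟩ := Finset.mem_Ico.1 hy
      obtain ⟨c, d⟩ := mem y a b
      obtain ⟨e, f⟩ := H.idx c d
      have i1 := H.cl.i1
      have z1 := (H.cl.zs (y - 1) (by omega) (by omega)).1
      rw [show y - 1 + 1 = y by omega, div_le_iff₀ C0] at z1
      have z2 : M.s (y + 1) - M.s y ≤ S.C ^ 2 * dx M y := by
        unfold dx; nlinarith [(H.cl.ss y f).2]
      have := mul_le_mul_of_nonneg_right z2 (mul_nonneg L0 (H.bs0 c (d.le.trans H.tuC)))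
      linarith
  rw [← Finset.mul_sum] at r
  have s := Finset.sum_le_sum_of_subset_of_nonneg (s := Finset.Ico i (k + 1))
    (t := (Finset.Ioo S.jl S.J).filter fun k => l ≤ M.s k ∧ M.s k ≤ tu)
    (f := fun y => dx M y * bs S Lg X2 (g (M.s y)) η (M.s y))
    (fun y hy => by
      obtain ⟨a, b⟩ := Finset.mem_Ico.1 hy
      obtain ⟨c, d⟩ := mem y a b
      exact Finset.mem_filter.2 ⟨Finset.mem_Ioo.2 (H.idx c d), c, d.le⟩)
    fun y hy _ => let h := (Finset.mem_filter.1 hy).2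
      mul_nonneg (dx_nn H.cl y) (H.bs0 h.1 (h.2.trans H.tuC))
  have p0' : 0 ≤ p0 := (sqrt_nonneg _).trans H.pa.1
  have u := mul_le_mul_of_nonneg_left (s.trans H.pa.2.2) (by positivity : 0 ≤ S.C ^ 2 * L)
  have v := mul_le_mul_of_nonneg_right (H.KL (c := 1) 2 (by norm_num)) (mul_nonneg L0 p0')
  linarith

theorem L3θ : L ^ 3 * √S.θ ≤ ℓ / 8 := by
  have L0 : 0 < L := by linarith [H.L1]
  have L4 : 8 * L ^ 3 ≤ E := le_trans (by nlinarith [H.L9, pow_pos L0 3]) (H.LE 4)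
  linarith [H.dv L4 (sqrt_nonneg _) H.lt.ℓ1]

/-- the bound of `J` on the thick zone -/
def jj (L : ℝ) (S : Sc) (M : Md) (m : ℕ) (a tu p0 e : ℝ) : ℝ :=
  2 * (L ^ 2 * (e / √tu) + L ^ 2 * p0) + io S M m a + 1 / S.n

set_option maxHeartbeats 1000000 in
/-- **`J` and `u` on the thick zone** from the energy `e²` above the cut -/
theorem jb (hA : TA L S M m a l Lg X2 η g tu ℓ) {e : ℝ} (e0 : 0 ≤ e)
    (he : ∫ t in 2 * t1..2 * S.C, Jq S M m a t ^ 2 ≤ e ^ 2) {V : ℕ} (h1 : M.s V + ℓ / 4 ≤ tu)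
    (h2 : sb M m a (V + 1) + ℓ / 4 ≤ tu) (h3 : tu / (16 * S.C ^ 3) ≤ sb M m a (V + 1)) {t : ℝ}
    (h4 : 7 / 4 * l ≤ t) (h5 : t + L ^ 3 * √S.θ ≤ sb M m a (V + 1)) :
    |Jq S M m a t| ≤ jj L S M m a tu p0 e ∧ ∀ t', l ≤ t' → t' ≤ tu → t' ≤ 2 * t → t ≤ 2 * t' →
      |uq S M m a t| ≤ L * (jj L S M m a tu p0 e + io S M m a + bs S Lg X2 (g t') η t') := by
  obtain ⟨K, K1, K2⟩ := exK H.cl.n1 H.Cn H.lg (by linarith [H.L9])
  have l0 := H.l0'
  have ℓ0 := H.ℓ0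
  have vl := H.vl
  have C0 := H.cl.C0
  have C1 := H.cl.C1
  have L1 := H.L1
  have L0 : 0 < L := by linarith
  have t10 := H.t10
  have t1a := H.lt.t1a
  have tuC := H.tuC
  have tu0 : 0 < tu := by linarith [H.t1u]
  have K0 : (0 : ℝ) ≤ K := Nat.cast_nonneg _
  have r1 := sqrt_nonneg (S.ms l)
  have r2 := sqrt_nonneg S.θ
  have L4 : 8 * L ^ 3 ≤ E := le_trans (by nlinarith [H.L9, pow_pos L0 3]) (H.LE 4)
  set w := 2 * L * √(S.ms l) with hw
  set w' := L * √S.θ with hw'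
  have w0 : 0 ≤ w := by positivity
  have w0' : 0 ≤ w' := by positivity
  have w1 : (K + 1) * w ≤ l / 4 := by
    linarith [mul_le_mul_of_nonneg_right K2 w0, H.dv L4 r1 (H.lt.ml l le_rfl (H.l1.trans C1))]
  have w3 : (K + 1) * w' ≤ L ^ 3 * √S.θ := by linarith [mul_le_mul_of_nonneg_right K2 w0']
  have w2 : (K + 1) * w' ≤ ℓ / 8 := w3.trans H.L3θ
  have key : ∀ jx x y, 3 / 2 * l ≤ x → x ≤ 7 / 4 * l → y ≤ sb M m a (V + 1) →
      (∀ t, x ≤ t → t ≤ y → |Jq S M m a t| ≤ jx) → ∀ t, x + w ≤ t → t + w' ≤ y →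
      ∀ t', l ≤ t' → t' ≤ tu → t' ≤ 2 * t → t ≤ 2 * t' →
        |uq S M m a t| ≤ L * (jx + io S M m a + bs S Lg X2 (g t') η t') := by
    intro jx x y a1 a2 a3 a4 t a5 a6
    refine hA _ x y V a1 h1 h2 a3 (fun s b1 b2 => by rw [H.Hq_eq]; linarith [a4 s b1 b2]) t ?_ ?_
    · rcases le_total t (2 * l) with c | c
      · have : √(S.ms t) ≤ 2 * √(S.ms l) := sqrt_le_iff.2 ⟨by positivity, by
          rw [mul_pow, sq_sqrt (H.cl.ms_pos l0.le).le]
          linarith [H.cl.msm c, H.cl.ms2 l l0.le]⟩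
        linarith [mul_le_mul_of_nonneg_left this L0.le]
      · have : 8 * L ≤ E := le_trans (by nlinarith [H.L9]) (H.LE 2)
        linarith [H.dv this (sqrt_nonneg _) (H.lt.ml t (by linarith) (by linarith))]
    · linarith [mul_le_mul_of_nonneg_left (sqrt_le_sqrt (H.cl.ms1 t)) L0.le]
  set d := tu / (64 * S.C ^ 3) with hd
  have C3 : 0 < 64 * S.C ^ 3 := by positivity
  have d0 : 0 < d := by positivity
  have d1 : d * (64 * S.C ^ 3) = tu := div_mul_cancel₀ _ C3.ne'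
  have d2 : tu / (16 * S.C ^ 3) = 4 * d := by rw [hd]; field_simp; norm_num
  have d3 : 2 * t1 ≤ d := by
    rw [hd, le_div_iff₀ C3]; linarith [H.dv (H.KE (c := 128) 3 (by norm_num)) t10.le H.lt.t1b]
  have d4 : ℓ ≤ d := by
    rw [hd, le_div_iff₀ C3]; linarith [H.dv (H.KE (c := 64) 3 (by norm_num)) ℓ0.le H.lt.ℓ2]
  have d5 : d ≤ 1 / 64 := by
    rw [hd, div_le_iff₀ C3]; linarith [le_self_pow₀ C1 (by norm_num : 3 ≠ 0)]
  have d6 : d / L ≤ d := div_le_self d0.le L1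
  have d7 : (2 * t1 + d / L) * L ≤ 1 / 2 := by
    have : 8 * (S.C * L) ≤ E :=
      le_trans (by nlinarith [H.KL (c := 8) 1 (by norm_num)]) (H.LE 2)
    have := H.dv this t10.le (H.lt.t1b.trans tuC)
    rw [add_mul, div_mul_cancel₀ _ L0.ne']
    nlinarith
  have d8 : e ^ 2 ≤ d / L * (L ^ 2 * (e / √tu)) ^ 2 := by
    have : d / L * (L ^ 2 * (e / √tu)) ^ 2 = L ^ 3 / (64 * S.C ^ 3) * e ^ 2 := by
      rw [mul_pow, div_pow, sq_sqrt tu0.le, hd]; field_simp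
    rw [this]
    refine le_mul_of_one_le_left (sq_nonneg _) ((one_le_div C3).2 ?_)
    exact (H.KL 3 (by norm_num)).trans (le_self_pow₀ L1 (by norm_num))
  have it := H.tl.iter (β := be L S M Lg X2 η g) (LB_stp _ _ _ _).abs (fun _ => abs_nonneg _)
    (c := 2 * t1) (δ := d / L) (x0 := 3 / 2 * l) (y0 := sb M m a (V + 1)) (K := K) (by linarith)
    w0 w0' (by linarith) (by positivity) (by linarith) (by linarith) (by positivity) L0.le H.io0 d7
    (he.trans d8) (H.be_int (by linarith) (by linarith))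
    (fun t a b => H.J_le (by linarith) (by linarith))
    (fun jx x y a1 a2 a3 a4 t a5 a6 => by
      obtain ⟨k, -, k2, k3, k4⟩ := H.cl.exists_node (t := t) (by linarith)
        (by linarith [H.lt.tu1])
      rw [H.be_cell (by linarith) k2 k3 (by linarith), ← mul_add]
      exact key jx x y a1 (by linarith) a3 a4 t a5 a6 _ (by linarith) (by linarith) (by linarith)
        (by linarith)) K le_rfl
  have it' : ∀ t, 3 / 2 * l + K * w ≤ t → t ≤ sb M m a (V + 1) - K * w' →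
      |Jq S M m a t| ≤ jj L S M m a tu p0 e := fun t a b => by
    unfold jj; linarith [it t a b]
  have K1 := mul_nonneg K0 w0
  have K2 := mul_nonneg K0 w0'
  exact ⟨it' t (by linarith) (by linarith), key _ _ _ (by linarith) (by linarith) (by linarith) it' t
    (by linarith) (by linarith)⟩

end Cx

end Crest.Agent.T156.Alt.L63

end
end

-- ▼ part T156/TL2R_63

/-!
# Row 156, block (L): `TL2x`, `TL2y` from `TkA` and `TkE` (helper63)
-/

set_option autoImplicit false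

noncomputable section

namespace Crest.Agent.T156.Alt.L63

open MeasureTheory Real Set
open Crest.Agent.T156.Alt.L69 Crest.Agent.T156.Alt.Mp9 Crest.Agent.T156.Cut8

variable {E L : ℝ} {S : Sc} {M : Md} {m : ℕ} {a G1 u1 u2 j γ Lc ηc τ l0 l X Xp Vt Lg Lp X2 X3 X4
  G0 : ℝ} {η : ℝ → ℝ} {N : ℝ} {g : ℝ → ℝ} {t1 tu ℓ En p0 : ℝ}

/-- the conclusion of `TkE` -/
def TE (Λ : ℝ) (S : Sc) (M : Md) (m : ℕ) (a t1 u2 En : ℝ) : Prop :=
  ∀ D ε, (∀ t, t1 ≤ t → t ≤ 2 * t1 → |uq S M m a t| ≤ D ∧ Hq S M m a t ≤ D) →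
    ∫ t in (0 : ℝ)..2 * t1, |Jq S M m a t| ≤ ε →
    ∫ t in 2 * t1..2 * S.C, Jq S M m a t ^ 2 ≤ Λ * (En + (S.ms t1 * D) ^ 2 / t1 + ε ^ 2) ∧
      LO Λ S M m a (2 * t1) u2 (En + (S.ms t1 * D) ^ 2 / t1 + ε ^ 2)

namespace Cx

variable (H : Cx E L S M m a G1 u1 u2 j γ Lc ηc τ l0 l X Xp Vt Lg Lp X2 X3 X4 G0 η N g t1 tu ℓ
  En p0)
include H

/-- a located node in the middle of the thick zone -/
theorem exV0 : ∃ V, M.s V + ℓ / 4 ≤ tu ∧ sb M m a (V + 1) + ℓ / 4 ≤ tu ∧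
    tu / (16 * S.C ^ 3) ≤ sb M m a (V + 1) ∧ 2 * t1 + ℓ / 8 ≤ sb M m a (V + 1) := by
  have C0 := H.cl.C0
  have C1 := H.cl.C1
  have t10 := H.t10
  have ℓu := H.ℓu
  have ℓ0 := H.ℓ0
  have vl := H.vl
  have t1a := H.lt.t1a
  have tu0 : 0 < tu := by linarith [H.t1u]
  set d := tu / (16 * S.C ^ 3) with hd
  have C3 : 0 < 16 * S.C ^ 3 := by positivity
  have d0 : 0 < d := by positivity
  have d1 : d ≤ tu / 16 :=
    div_le_div_of_nonneg_left tu0.le (by norm_num) (by linarith [one_le_pow₀ C1 (n := 3)])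
  have d3 : 4 * t1 ≤ d := by
    rw [hd, le_div_iff₀ C3]; linarith [H.dv (H.KE (c := 64) 3 (by norm_num)) t10.le H.lt.t1b]
  have d4 : ℓ ≤ d := by
    rw [hd, le_div_iff₀ C3]; linarith [H.dv (H.KE (c := 16) 3 (by norm_num)) ℓ0.le H.lt.ℓ2]
  have d5 : 2 * d ≤ 1 / (4 * S.C ^ 2) := by
    rw [hd, ← mul_div_assoc, div_le_div_iff₀ C3 (by positivity)]
    nlinarith [mul_le_mul_of_nonneg_right H.tuC (sq_nonneg S.C), pow_pos C0 3]
  obtain ⟨V, -, k2, -, k4⟩ := H.cl.exists_node (t := 2 * d) (by linarith) (by linarith [H.lt.tu1])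
  obtain ⟨p, q⟩ := H.dsb_cr (k := V) (by linarith) (by linarith)
  have := q (k2.trans d5)
  exact ⟨V, by linarith, by linarith, by linarith, by linarith⟩

set_option maxHeartbeats 1000000 in
/-- a located node near the top of the thick zone -/
theorem exV1 (tp : TP E S M X Xp t1 tu ℓ En p0) {Λ : ℝ} (Λ1 : 1 ≤ Λ) (hΛ : Λ ≤ L ^ 14)
    (lo : LO Λ S M m a (2 * t1) u2 (En + t1 * p0 ^ 2)) :
    ∃ V, M.s V + ℓ / 4 ≤ tu ∧ sb M m a (V + 1) + ℓ / 4 ≤ tu ∧ tu - ℓ / 2 ≤ sb M m a (V + 1) := by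
  have C0 := H.cl.C0
  have C1 := H.cl.C1
  have t10 := H.t10
  have ℓu := H.ℓu
  have ℓ0 := H.ℓ0
  have vℓ := H.vℓ
  have t1a := H.lt.t1a
  have t1u := H.t1u
  have tu1 := H.lt.tu1
  have v0 := H.cl.v0
  have l0 := H.l0'
  have i3 := H.cl.i3
  have E1 := H.E1
  have cv := mul_pos C0 v0
  obtain ⟨p, -, p2, p3, p4⟩ := H.cl.exists_node (t := tu - 3 / 4 * ℓ) (by linarith) (by linarith)
  obtain ⟨V, -, v2, -, v4⟩ := H.cl.exists_node (t := tu - 3 / 8 * ℓ) (by linarith) (by linarith)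
  obtain ⟨q, q1, q2, -, q4⟩ := H.cl.exists_node (t := tu - ℓ / 8) (by linarith) (by linarith)
  obtain ⟨p0', p1⟩ := H.idx (k := p) (by linarith) (by linarith)
  have p5 := (H.cl.ss p p1).2
  have pV : p < V := lt_of_not_ge fun h => by linarith [H.cl.sm h]
  have Vq : V ≤ q := le_of_not_gt fun h => by linarith [H.cl.sm h.le]
  have pq := pV.le.trans Vq
  have j0 := H.cl.i1.trans p0'.le
  have mem : ∀ k, p < k → k ≤ q → tu - 3 / 4 * ℓ ≤ M.s k ∧ M.s k ≤ tu - ℓ / 8 := fun k a b =>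
    ⟨p3.le.trans (H.cl.sm a), (H.cl.sm b).trans q2⟩
  obtain ⟨g1, g2⟩ := H.g_le (t := tu) (by linarith) le_rfl
  have g0 := H.lt.g0 tu
  have ℓ3 : ℓ ^ 3 ≤ 1 := pow_le_one₀ ℓ0.le H.ℓ1
  have g3 : E * g tu ^ 2 ≤ ℓ ^ 3 := by
    have : g tu ≤ 1 := by linarith [H.dv E1 g0 g2]
    nlinarith [mul_nonneg (zero_le_one.trans E1) g0]
  have m3 : E * (1 / (S.n : ℝ)) ^ 2 ≤ ℓ ^ 3 := by
    have r0 := sqrt_nonneg S.θ
    have a1 : √S.θ ≤ ℓ := by simpa using H.dv E1 r0 H.lt.ℓ1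
    have a2 : 1 / (S.n : ℝ) ≤ ℓ ^ 2 := (H.μms zero_le_one).trans
      ((sq_sqrt H.cl.θ0.le).ge.trans (pow_le_pow_left₀ r0 a1 2))
    linarith [mul_le_mul H.μℓ a2 H.μ0.le ℓ0.le]
  have wt : ∀ U : Finset ℕ, U ⊆ Finset.Ioc S.jl S.Jp →
      (∀ k ∈ U, k < S.J ∧ tu - 3 / 4 * ℓ ≤ M.s k ∧ M.s k ≤ tu - ℓ / 8) →
      ∑ k ∈ U, dx M k * M.G k ^ 2 ≤ g tu ^ 2 := fun U h1 h2 => by
    have a1 : ∑ k ∈ U, dx M k * M.G k ^ 2 ≤ ∑ k ∈ U, dx M k * g tu ^ 2 :=
      Finset.sum_le_sum fun k hk => mul_le_mul_of_nonneg_left (sq_le_sq' (neg_le_of_abs_le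
        (H.lt.g1 tu k (Finset.mem_Ioc.1 (h1 hk)).1 (h2 k hk).1 (by linarith [(h2 k hk).2.1])
          (by linarith [(h2 k hk).2.2]) (by linarith [(h2 k hk).2.2]))) (le_of_abs_le
        (H.lt.g1 tu k (Finset.mem_Ioc.1 (h1 hk)).1 (h2 k hk).1 (by linarith [(h2 k hk).2.1])
          (by linarith [(h2 k hk).2.2]) (by linarith [(h2 k hk).2.2])))) (dx_nn H.cl k)
    rw [← Finset.sum_mul] at a1
    have a2 := Finset.sum_le_sum_of_subset_of_nonneg h1 (f := dx M) fun k _ _ => dx_nn H.cl k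
    have a3 : ∑ k ∈ Finset.Ioc S.jl S.Jp, dx M k = M.z S.Jp - M.z S.jl :=
      Ap63.tel M.z (H.cl.jl_lt.le.trans i3)
    exact a1.trans (mul_le_of_le_one_left (sq_nonneg _)
      (by linarith [H.cl.leg.z1 S.Jp, H.cl.z_pos S.jl]))
  have SG : Ap63.Sx M.z M.G p q 2 ≤ g tu ^ 2 := by
    rw [Ap63.Sx_two]
    exact wt _ (Finset.Ioc_subset_Ioc p0'.le (by omega)) fun k hk =>
      let h := Finset.mem_Ioc.1 hk
      ⟨h.2.trans_lt q1, mem k h.1 h.2⟩
  have sub : ∀ t t', t ≤ tu - 3 / 4 * ℓ → tu - ℓ / 8 ≤ t' →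
      Finset.Ioc p q ⊆ (M.blk S t t').filter (· < S.J) := fun t t' a b k hk => by
    obtain ⟨c, d⟩ := Finset.mem_Ioc.1 hk
    exact Finset.mem_filter.2 ⟨Finset.mem_filter.2 ⟨Finset.mem_Ioc.2 ⟨by omega, by omega⟩,
      a.trans (mem k c d).1, (mem k c d).2.trans b⟩, d.trans_lt q1⟩
  have ℓ30 := pow_pos ℓ0 3
  have SD : E * Ap63.Sx M.z (M.del m a) p q 2 ≤ 6 * Λ * ℓ ^ 3 := by
    have Λ3 := mul_le_mul_of_nonneg_right Λ1 ℓ30.le
    have E0 : 0 ≤ E := by linarith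
    rcases tp with h | ⟨h, h'⟩ | h
    · linarith [mul_le_mul_of_nonneg_left (H.Sdel j0 (show q ≤ S.Jp by omega)) E0]
    · have : Ap63.Sx M.z (M.del m a) p q 2 ≤ Xp := le_trans
        (Finset.sum_le_sum_of_subset_of_nonneg ((sub (M.s S.J / 2) S.C (by linarith)
          (by linarith [H.tuC])).trans (Finset.filter_subset _ _))
          fun k _ _ => mul_nonneg (dx_nn H.cl k) (by positivity)) H.ap.top
      linarith [mul_le_mul_of_nonneg_left this E0]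
    · have a1 := lo.two (tu - 3 / 4 * ℓ) (tu - ℓ / 8) (by linarith) (by linarith)
      have a2 : Ap63.Sx M.z (M.del m a) p q 2 ≤
          ∑ k ∈ (M.blk S (tu - 3 / 4 * ℓ) (tu - ℓ / 8)).filter (· < S.J), dx M k * M.del m a k ^ 2 := by
        rw [Ap63.Sx_two]
        exact Finset.sum_le_sum_of_subset_of_nonneg (sub _ _ le_rfl le_rfl)
          fun k _ _ => mul_nonneg (dx_nn H.cl k) (sq_nonneg _)
      have a3 : GS M S (tu - 3 / 4 * ℓ) (tu - ℓ / 8) ≤ g tu ^ 2 := wt _ (fun k hk => by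
        have := Finset.mem_Ioo.1 (Finset.mem_filter.1 hk).1
        exact Finset.mem_Ioc.2 ⟨this.1, by omega⟩) fun k hk =>
          ⟨(Finset.mem_Ioo.1 (Finset.mem_filter.1 hk).1).2, (Finset.mem_filter.1 hk).2⟩
      have m0 := H.cl.ms_pos (t := tu - 3 / 4 * ℓ) (by linarith)
      have a4 : E * ((En + t1 * p0 ^ 2) / mf S (tu - 3 / 4 * ℓ)) ≤ 4 * ℓ ^ 3 := by
        rw [H.mf_eq, ← mul_div_assoc, div_le_iff₀ m0]
        have := (H.cl.msm (show tu ≤ 2 * (tu - 3 / 4 * ℓ) by linarith)).trans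
          (H.cl.ms2 _ (by linarith))
        linarith [mul_le_mul_of_nonneg_right this ℓ30.le]
      have a5 := mul_le_mul_of_nonneg_left (min_le_right (√((tu - ℓ / 8) * (En + t1 * p0 ^ 2)))
        ((En + t1 * p0 ^ 2) / mf S (tu - 3 / 4 * ℓ))) E0
      have a6 := mul_le_mul_of_nonneg_left a3 E0
      have a7 : E * (min (√((tu - ℓ / 8) * (En + t1 * p0 ^ 2)))
          ((En + t1 * p0 ^ 2) / mf S (tu - 3 / 4 * ℓ)) + GS M S (tu - 3 / 4 * ℓ) (tu - ℓ / 8) +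
          1 / (S.n : ℝ) ^ 2) ≤ 6 * ℓ ^ 3 := by
        rw [div_pow, one_pow] at m3
        linarith
      linarith [mul_le_mul_of_nonneg_left (a2.trans a1) E0,
        mul_le_mul_of_nonneg_left a7 (zero_le_one.trans Λ1)]
  set R := ℓ / (128 * S.C ^ 2) with hR
  have C2 : 0 < 128 * S.C ^ 2 := by positivity
  have R0 : 0 < R := by positivity
  have R1 : 128 * S.C ^ 2 * R = ℓ := mul_div_cancel₀ _ C2.ne'
  have SS : Ap63.Sx M.z (dsb M m a) p q 2 ≤ R ^ 3 := by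
    have c2 : 1 ≤ S.C ^ 2 := one_le_pow₀ C1
    have a1 := mul_le_mul_of_nonneg_left (H.Sdsb pq q1) (zero_le_one.trans E1)
    have a2 := mul_le_mul_of_nonneg_left SD (sq_nonneg S.C)
    have a3 := mul_le_mul_of_nonneg_left SG (zero_le_one.trans E1)
    have a4 := mul_le_mul_of_nonneg_left m3 (sq_nonneg S.C)
    have a5 := mul_le_mul_of_nonneg_right Λ1 (mul_pos (pow_pos C0 2) ℓ30).le
    have a6 := mul_le_mul_of_nonneg_right c2 ℓ30.le
    have a7 : E * Ap63.Sx M.z (dsb M m a) p q 2 ≤ 24 * S.C ^ 2 * Λ * ℓ ^ 3 := by linarith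
    have a8 : 24 * 128 ^ 3 * S.C ^ 8 * Λ ≤ E := le_trans ((mul_le_mul (H.KL 8 (by norm_num)) hΛ
      (by linarith) (by linarith [H.L1])).trans_eq (by ring)) H.EL
    have a9 := mul_le_mul_of_nonneg_right a8 (pow_pos R0 3).le
    rw [← R1] at a7
    exact le_of_mul_le_mul_left (a := E) (by linarith) (by linarith)
  have c3 : 1000 * (S.C ^ 3 * S.v) ≤ ℓ := by
    have := H.dv (H.KE (c := 1000) 3 (by norm_num)) v0.le H.vμ
    linarith [H.dv E1 H.μ0.le H.μℓ]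
  obtain ⟨up, dn⟩ := crude (z := M.z) (f := fun k => sb M m a (k + 1)) (g := M.s) (lo := p)
    (hi := q) (k := V) H.cl.leg.zm (fun _ _ h => H.A.sb_mono (Nat.succ_le_succ h))
    (L := S.C ^ 2) (e := S.C ^ 3 * S.v) (ρ := ℓ / 32) (one_le_pow₀ C1) (by positivity) R0
    (by linarith) (fun i k a _ => H.cl.sm a)
    (fun i k a b c => H.s_lip (j0.trans a) b (by omega)) SS pV Vq
  have w : R ≤ M.z q - M.z (V - 1) := by
    have := Ap63.s_z H.cl (j0.trans pV.le) Vq q1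
    have : S.C ^ 2 * R ≤ S.C ^ 2 * (M.z q - M.z V) := by linarith
    linarith [le_of_mul_le_mul_left this (pow_pos C0 2), H.cl.leg.zm (Nat.sub_le V 1)]
  have u1 := up w
  have u2 := dn.resolve_right (by intro h; linarith)
  exact ⟨V, by linarith, by linarith, by linarith⟩

set_option maxHeartbeats 1000000 in
/-- **the closing argument** -/
theorem core (hA : TA L S M m a l Lg X2 η g tu ℓ) (hE : TE L S M m a t1 u2 En) :
    (∀ Λ, L ^ 14 ≤ Λ → LO Λ S M m a (2 * t1) u2 (En + t1 * p0 ^ 2)) ∧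
    io S M m a ≤ L ^ 5 * p0 ∧
    ∫ t in 2 * t1..2 * S.C, Jq S M m a t ^ 2 ≤ L ^ 14 * (En + t1 * p0 ^ 2) ∧
    ∀ V, M.s V + ℓ / 4 ≤ tu → sb M m a (V + 1) + ℓ / 4 ≤ tu → tu / 16 ≤ sb M m a (V + 1) →
      ∀ t, 7 / 4 * l ≤ t → t + L ^ 3 * √S.θ ≤ sb M m a (V + 1) → Hq S M m a t ≤ L ^ 5 * p0 ∧
        ∀ t', l ≤ t' → t' ≤ tu → t' ≤ 2 * t → t ≤ 2 * t' →
          |uq S M m a t| ≤ L * (L ^ 5 * p0 + bs S Lg X2 (g t') η t') := by
  have L3θ := H.L3θ
  have C0 := H.cl.C0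
  have C1 := H.cl.C1
  have t10 := H.t10
  have t11 := H.t11
  have ℓu := H.ℓu
  have ℓ0 := H.ℓ0
  have t1a := H.lt.t1a
  have t1u := H.t1u
  have l0 := H.l0'
  have L1 := H.L1
  have L9 := H.L9
  have L0 : 0 < L := by linarith
  have E0 : 0 < E := by linarith [H.E1]
  have tuC := H.tuC
  have tu0 : 0 < tu := by linarith
  have En0 := H.En0
  obtain ⟨pa1, pa2, -⟩ := H.pa
  have p00 : 0 ≤ p0 := (sqrt_nonneg _).trans pa1
  set e := √(∫ t in 2 * t1..2 * S.C, Jq S M m a t ^ 2) with he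
  have e0 : 0 ≤ e := sqrt_nonneg _
  have e1 : ∫ t in 2 * t1..2 * S.C, Jq S M m a t ^ 2 ≤ e ^ 2 :=
    (sq_sqrt (intervalIntegral.integral_nonneg (by linarith) fun _ _ => sq_nonneg _)).ge
  have e2 : e ^ 2 ≤ ∫ t in 2 * t1..2 * S.C, Jq S M m a t ^ 2 :=
    (sq_sqrt (intervalIntegral.integral_nonneg (by linarith) fun _ _ => sq_nonneg _)).le
  obtain ⟨V0, a1, a2, a3, a4⟩ := H.exV0
  have b0 := fun t => H.jb hA e0 e1 a1 a2 a3 (t := t)
  have ι0 := H.io0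
  set ι := io S M m a with hι
  set jx := jj L S M m a tu p0 e with hj
  have r0 : 0 < √tu := sqrt_pos.2 tu0
  have j0 : 0 ≤ jx := by have := H.μ0; rw [hj, jj]; positivity
  have bs1 := H.bs0 (t := t1) (by linarith) (by linarith)
  have lw := H.low (c := 2 * t1) (jj := jx) (by linarith) (by linarith)
    fun t a b => (b0 t a (by linarith)).1
  obtain ⟨c1, c2⟩ := hE (L * (jx + ι + bs S Lg X2 (g t1) η t1)) _ (fun t a b => by
    obtain ⟨p, q⟩ := b0 t (by linarith) (by linarith)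
    refine ⟨q t1 (by linarith) (by linarith) (by linarith) b, ?_⟩
    rw [H.Hq_eq]
    linarith [le_mul_of_one_le_left (show 0 ≤ jx + ι + bs S Lg X2 (g t1) η t1 by positivity) L1]) lw
  have c3 := alg1 (L := L) (P := jx + ι) (by linarith) t10 t11 (H.cl.ms_pos t10.le).le
    (H.ms_le (by linarith) (by linarith)) j0 (by linarith) En0 H.en.2.2
  have P0 : 0 ≤ jx + ι := by positivity
  have c4 : e ≤ 3 * L ^ 2 * √En + 4 * L ^ 2 * (t1 * (jx + ι)) := by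
    refine abs_le_of_sq_le_sq' ?_ (by positivity) |>.2
    have f1 := mul_le_mul_of_nonneg_left c3 L0.le
    have f2 : (3 * L ^ 2 * √En) ^ 2 = 9 * L ^ 4 * En := by rw [mul_pow, sq_sqrt En0]; ring
    have f3 : L ^ 3 ≤ L ^ 4 := pow_le_pow_right₀ L1 (by norm_num)
    have f4 := mul_le_mul_of_nonneg_right f3 En0
    have f5 := mul_le_mul_of_nonneg_right f3 (sq_nonneg (t1 * (jx + ι)))
    have f6 : 0 ≤ 3 * L ^ 2 * √En * (4 * L ^ 2 * (t1 * (jx + ι))) := by positivity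
    have f7 : 0 ≤ L ^ 4 * En := by positivity
    have f8 : 0 ≤ L ^ 4 * (t1 * (jx + ι)) ^ 2 := by positivity
    rw [add_sq, f2]
    linarith
  have κ0 : 0 ≤ S.C / E := by positivity
  have κ1 : t1 ≤ S.C / E := by rw [le_div_iff₀ E0]; linarith [H.lt.t1b]
  have κ2 : t1 / √tu ≤ S.C / E := by
    rw [div_le_div_iff₀ r0 E0]
    have : √tu ≤ S.C := sqrt_le_iff.2 ⟨C0.le, tuC.trans (le_self_pow₀ C1 (by norm_num))⟩
    linarith [H.lt.t1b, mul_le_mul_of_nonneg_right this r0.le, mul_self_sqrt tu0.le]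
  have κ3 := mul_le_mul_of_nonneg_right κ1 P0
  have κ4 := mul_le_mul_of_nonneg_right κ2 P0
  have L2 : 0 ≤ L ^ 2 := sq_nonneg _
  have y1 : e ≤ 3 * L ^ 2 * p0 + 4 * L ^ 2 * (S.C / E * (jx + ι)) := by
    linarith [mul_le_mul_of_nonneg_left pa2 L2, mul_le_mul_of_nonneg_left κ3 L2]
  have y2 : e / √tu ≤ 3 * L ^ 2 * p0 + 4 * L ^ 2 * (S.C / E * (jx + ι)) := by
    have := div_le_div_of_nonneg_right c4 r0.le
    rw [sqrt_div En0] at pa1
    have q : (3 * L ^ 2 * √En + 4 * L ^ 2 * (t1 * (jx + ι))) / √tu =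
      3 * L ^ 2 * (√En / √tu) + 4 * L ^ 2 * (t1 / √tu * (jx + ι)) := by ring
    linarith [mul_le_mul_of_nonneg_left pa1 L2, mul_le_mul_of_nonneg_left κ4 L2]
  have io1 := H.tl.iota (by linarith) (by linarith) e0 lw e1
  have hP : jx + ι ≤ L ^ 5 * p0 := alg2 (y := max e (e / √tu)) (by linarith) p00 P0 κ0
    (by
      rw [← mul_div_assoc, div_le_one E0]
      have := mul_le_mul_of_nonneg_left (H.KL (c := 40) 1 (by norm_num)) (pow_pos L0 4).le
      linarith [H.LE 5])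
    (max_le y1 y2) (le_max_of_le_left e0)
    (by
      rw [hj, jj]
      linarith [mul_le_mul_of_nonneg_left (le_max_right e (e / √tu)) L2, H.μe])
    (by
      have q1 : (1 + 2 * S.C) * e ≤ L * max e (e / √tu) :=
        mul_le_mul (by linarith [H.KL (c := 3) 1 (by norm_num)]) (le_max_left _ _) e0 L0.le
      have q2 := mul_le_mul_of_nonneg_left (show jx ≤ jx + ι by linarith) t10.le
      unfold io at hι
      linarith [mul_le_mul_of_nonneg_left pa2 L0.le]) rfl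
  have c5 : En + (S.ms t1 * (L * (jx + ι + bs S Lg X2 (g t1) η t1))) ^ 2 / t1 +
      (2 * t1 * jx + L * √En) ^ 2 ≤ L ^ 13 * (En + t1 * p0 ^ 2) := by
    have f1 : (t1 * (jx + ι)) ^ 2 ≤ (t1 * (L ^ 5 * p0)) ^ 2 :=
      pow_le_pow_left₀ (by positivity) (mul_le_mul_of_nonneg_left hP t10.le) 2
    have f2 := mul_le_mul_of_nonneg_left f1 L2
    have f3 := mul_le_mul_of_nonneg_left t11 (by positivity : 0 ≤ L ^ 12 * (t1 * p0 ^ 2))
    have f4 := mul_le_mul_of_nonneg_right (show 10 ≤ L by linarith)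
      (by positivity : 0 ≤ L ^ 12 * (t1 * p0 ^ 2))
    have f5 := mul_le_mul_of_nonneg_right (show 5 ≤ L by linarith) (mul_nonneg L2 En0)
    have f6 := mul_le_mul_of_nonneg_right (pow_le_pow_right₀ L1 (by norm_num : 3 ≤ 13)) En0
    linarith
  have u20 : 0 ≤ u2 := by linarith [H.cl.last, H.cl.leg.z1 (S.Jp - 1), H.lp.u1a, H.lp.u1b.1]
  have sc : ∀ c, L ^ 13 ≤ c → LO (L * c) S M m a (2 * t1) u2 (En + t1 * p0 ^ 2) := fun c hc =>
    lo_scale H.cl c2 L0.le ((one_le_pow₀ L1).trans hc) (by linarith) u20 (by positivity)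
      (by positivity) (c5.trans (mul_le_mul_of_nonneg_right hc (by positivity)))
  have v4 : tu / (16 * S.C ^ 3) ≤ tu / 16 :=
    div_le_div_of_nonneg_left tu0.le (by norm_num) (by linarith [one_le_pow₀ C1 (n := 3)])
  refine ⟨fun Λ hΛ => by
    simpa only [mul_div_cancel₀ _ L0.ne'] using sc (Λ / L) (by rw [le_div_iff₀ L0]; linarith),
    by linarith, by linarith [mul_le_mul_of_nonneg_left c5 L0.le], fun V v1 v2 v3 t a b => ?_⟩
  obtain ⟨p, q⟩ := H.jb hA e0 e1 v1 v2 (v4.trans v3) a b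
  exact ⟨by rw [H.Hq_eq]; linarith, fun t' c d e f =>
    (q t' c d e f).trans (mul_le_mul_of_nonneg_left (by linarith) L0.le)⟩

/-- the nodes -/
theorem nodes (hA : TA L S M m a l Lg X2 η g tu ℓ) (hE : TE L S M m a t1 u2 En)
    (tp : TP E S M X Xp t1 tu ℓ En p0) {k : ℕ} (k1 : 2 * l ≤ M.s k) (k2 : M.s k + ℓ ≤ tu) :
    |M.del m a k| ≤ L ^ 7 * (p0 + bs S Lg X2 (g (M.s k)) η (M.s k)) := by
  obtain ⟨sc, -, -, hu⟩ := H.core hA hE
  have L3θ := H.L3θ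
  have C0 := H.cl.C0
  have C1 := H.cl.C1
  have ℓu := H.ℓu
  have ℓ0 := H.ℓ0
  have l0 := H.l0'
  have L1 := H.L1
  have L9 := H.L9
  have L0 : 0 < L := by linarith
  have E0 : 0 < E := by linarith [H.E1]
  have tuC := H.tuC
  have p00 : 0 ≤ p0 := (sqrt_nonneg _).trans H.pa.1
  obtain ⟨V, v1, v2, v3⟩ := H.exV1 tp (one_le_pow₀ L1) le_rfl (sc _ le_rfl)
  have kl : l ≤ M.s k := by linarith
  have ku : M.s k ≤ tu := by linarith
  have kC := ku.trans tuC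
  obtain ⟨i1, i2⟩ := H.idx kl (by linarith)
  set b := bs S Lg X2 (g (M.s k)) η (M.s k) with hb
  have b1 : 1 / (S.n : ℝ) ≤ b := H.μbs kl kC
  have b2 : g (M.s k) ≤ b := H.gbs kl kC
  have b3 : E * b ≤ 4 * √(S.ms (M.s k)) := H.bs_le kl ku
  obtain ⟨b4, b4'⟩ := H.lt.pc
  have μ0 := H.μ0
  have b5 : 0 < b := by linarith
  have cv := mul_pos C0 H.cl.v0
  have Cv := H.Cv
  have L6 : L ≤ L ^ 6 := le_self_pow₀ L1 (by norm_num)
  have U1 : L * (L ^ 5 * p0 + b) + S.C * S.v ≤ 2 * L ^ 6 * (p0 + b) := by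
    linarith [mul_le_mul_of_nonneg_right L6 b5.le, mul_le_mul_of_nonneg_right (L1.trans L6) b5.le,
      mul_nonneg (pow_pos L0 6).le p00]
  have U0 : 0 < 2 * L ^ 6 * (p0 + b) := by positivity
  have U2 : 2 * (S.C * (2 * L ^ 6 * (p0 + b))) ≤ L ^ 7 * (p0 + b) / 2 := by
    linarith [mul_le_mul_of_nonneg_right (H.KL (c := 8) 1 (by norm_num)) U0.le]
  have r1 := sqrt_nonneg (S.ms (M.s k))
  have U3 : 8 * (L ^ 7 * (p0 + b)) ≤ E * p0 + E * b := by
    have : 8 * L ^ 7 ≤ E := le_trans (by nlinarith [pow_pos L0 7]) (H.LE 8)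
    linarith [mul_le_mul_of_nonneg_right this (show 0 ≤ p0 + b by linarith)]
  have U4 : 8 * √(S.ms (M.s k)) ≤ M.s k := H.dv (by linarith [H.E9]) r1 (H.lt.ml _ kl kC)
  have U5 : 8 * √(S.ms (M.s k)) ≤ ℓ := by
    linarith [H.dv (c := 8) (by linarith [H.E9]) (sqrt_nonneg _) H.lt.ℓ1,
      sqrt_le_sqrt (H.cl.ms1 (M.s k))]
  have CU := mul_le_mul_of_nonneg_left U1 C0.le
  have CU0 := mul_pos C0 U0
  have fin := (H.A.node_of_u (a' := M.s k - L ^ 7 * (p0 + b) / 2) (b' := M.s k + L ^ 7 * (p0 + b) / 2)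
    (U := L * (L ^ 5 * p0 + b)) (ℓ := L ^ 7 * (p0 + b) / 2) (k := k)
    (by linarith [H.cl.sm H.cl.i1, H.jl_l0, H.ln.l0l]) (by linarith [H.lt.tu1]) (by linarith)
    (by linarith) (fun t ht => (hu V v1 v2 (by linarith) t (by linarith [ht.1])
      (by linarith [ht.2])).2 _ kl ku (by linarith [ht.1]) (by linarith [ht.2]))
    (by linarith) le_rfl).2
  have g1 := H.lt.g1 (M.s k) k i1 i2 kl (by linarith) (by linarith)
  have f1 := mul_le_mul_of_nonneg_left b1 C0.le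
  have f2 := mul_le_mul_of_nonneg_right (H.KL (c := 4) 1 (by norm_num)) b5.le
  have f3 := mul_le_mul_of_nonneg_right C1 b5.le
  have f4 := mul_le_mul_of_nonneg_right (le_self_pow₀ L1 (by norm_num : 7 ≠ 0)) b5.le
  linarith [H.Cm, mul_nonneg (pow_pos L0 7).le p00]

end Cx

/-- the regime of the closing argument -/
theorem cx_glue {R : CP} (hA : TkA) (hE : TkE) (h : ∀ E L Λ S M m a, L ^ 14 ≤ Λ →
    (∀ G1 u1 u2 j γ Lc ηc τ l0 l X Xp Vt Lg Lp X2 X3 X4 G0 η N g t1 tu ℓ En p0,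
      Hy E S M m a G1 u1 u2 j γ Lc ηc τ l0 l X Xp Vt Lg Lp X2 X3 X4 G0 η N g t1 tu ℓ En p0 →
      Cx E L S M m a G1 u1 u2 j γ Lc ηc τ l0 l X Xp Vt Lg Lp X2 X3 X4 G0 η N g t1 tu ℓ En p0 ∧
        TA L S M m a l Lg X2 η g tu ℓ ∧ TE L S M m a t1 u2 En) → R E Λ S M m a) : CL R := by
  unfold TkA at hA
  unfold TkE at hE
  refine (hA.and hE).glue fun C => ⟨2, fun A _ ε η hε hη => ⟨ε, min (ε / 15) (η / 14),
    10 ^ 9 * C ^ 13, hε, by positivity, ?_⟩⟩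
  rintro S M m a G hC hm ⟨hA, hE⟩
  have N1 := G.N1
  have pw : ∀ (k : ℕ) (x : ℝ), min (ε / 15) (η / 14) * k ≤ x →
      ((S.n : ℝ) ^ min (ε / 15) (η / 14)) ^ k ≤ (S.n : ℝ) ^ x := fun k x hx => by
    rw [← rpow_natCast, ← rpow_mul G.N0.le]
    exact rpow_le_rpow_of_exponent_le N1.le hx
  refine h _ _ _ S M m a (pw 14 _ ?_) fun G1 u1 u2 j γ Lc ηc τ l0 l X Xp Vt Lg Lp X2 X3 X4 G0 η' N
    g t1 tu ℓ En p0 H => ⟨⟨H, hC, hm, G.hC ▸ G.K_le, pw 15 _ ?_, G.log_le, G.hC ▸ G.C_log, ?_⟩,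
      hA _ _ _ _ _ _ _ _ _ _ _ _ _ _ _ _ _ _ _ _ _ _ _ _ _ _ _ H,
      hE _ _ _ _ _ _ _ _ _ _ _ _ _ _ _ _ _ _ _ _ _ _ _ _ _ _ _ H⟩
  · push_cast; linarith [min_le_right (ε / 15) (η / 14)]
  · push_cast; linarith [min_le_left (ε / 15) (η / 14)]
  · have := mul_le_mul_of_nonneg_left (pow_le_pow_right₀ N1.le (G.hA ▸ G.A2 : 2 ≤ S.A)) hC.v0.le
    rw [div_pow, one_pow, mul_one_div, le_div_iff₀ (pow_pos G.N0 2)]
    exact this.trans hC.v2

/-- **(TL2x)** from the two analytic pieces -/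
theorem tl2x_of (hA : TkA) (hE : TkE) : TL2x := cx_glue hA hE
  fun E L Λ S M m a hΛ h G1 u1 u2 j γ Lc ηc τ l0 l X Xp Vt Lg Lp X2 X3 X4 G0 η N g t1 tu ℓ En p0 H
    tp => by
  obtain ⟨H, hA, hE⟩ := h _ _ _ _ _ _ _ _ _ _ _ _ _ _ _ _ _ _ _ _ _ _ _ _ _ _ _ H
  refine ⟨fun k k1 k2 => (H.nodes hA hE tp k1 k2).trans (mul_le_mul_of_nonneg_right
    ((pow_le_pow_right₀ H.L1 (by norm_num)).trans hΛ) ?_), (H.core hA hE).1 _ hΛ⟩
  exact add_nonneg ((sqrt_nonneg _).trans H.pa.1)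
    (H.bs0 (by linarith [H.l0']) (by linarith [H.ℓ0, H.tuC]))

/-- **(TL2y)** from the two analytic pieces -/
theorem tl2y_of (hA : TkA) (hE : TkE) : TL2y := cx_glue hA hE
  fun E L Λ S M m a hΛ h G1 u1 u2 j γ Lc ηc τ l0 l X Xp Vt Lg Lp X2 X3 X4 G0 η N g t1 tu ℓ En p0
    H => by
  obtain ⟨H, hA, hE⟩ := h _ _ _ _ _ _ _ _ _ _ _ _ _ _ _ _ _ _ _ _ _ _ _ _ _ _ _ H
  obtain ⟨c1, c2, c3, c4⟩ := H.core hA hE
  have p00 : 0 ≤ p0 := (sqrt_nonneg _).trans H.pa.1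
  have pw : ∀ k ≤ 14, L ^ k ≤ Λ := fun k hk => (pow_le_pow_right₀ H.L1 hk).trans hΛ
  have q5 := mul_le_mul_of_nonneg_right (pw 5 (by norm_num)) p00
  refine ⟨c1 _ hΛ, c2.trans q5, c3.trans (mul_le_mul_of_nonneg_right hΛ
    (add_nonneg H.En0 (mul_nonneg H.t10.le (sq_nonneg _)))), fun V v1 v2 v3 t a b => ?_⟩
  obtain ⟨p, q⟩ := c4 V v1 v2 v3 t a
    (by linarith [mul_le_mul_of_nonneg_right (pw 3 (by norm_num)) (sqrt_nonneg S.θ)])
  refine ⟨p.trans q5, fun t' c d e f => (q t' c d e f).trans ?_⟩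
  linarith [mul_le_mul_of_nonneg_right (pw 6 (by norm_num)) p00,
    mul_le_mul_of_nonneg_right (pw 1 (by norm_num)) (H.bs0 c (d.trans H.tuC))]

end Crest.Agent.T156.Alt.L63

end
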