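import Crest.Agent.T156.NdB_89

-- ▼ part T156/NdC_89
section

/-!
# Row 156, block (L): the net of good nodes, the window of a gap (helper89)
-/

set_option autoImplicit false

noncomputable section

namespace Crest.Agent.T156.Alt.G89

open Real Finset
open Crest.Agent.T156.Alt.E61 Crest.Agent.T156.Alt.Mp9 Crest.Agent.T156.Alt.Sz9
open Crest.Agent.T156.Alt.L69 (LN cr cl mf uw gg Phi)

section gq

open Classical in
/-- label measure of the good nodes -/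
def gq (M : Md) (Gn : ℕ → Prop) (i k : ℕ) : ℝ :=
  ∑ y ∈ Ioc i k, if Gn y then M.z y - M.z (y - 1) else 0

variable {S : Sc} {M : Md} {m : ℕ} {a T θ δ τ : ℝ} {Gn : ℕ → Prop} {U V : ℕ}

theorem gq_add {i j k : ℕ} (h1 : i ≤ j) (h2 : j ≤ k) : gq M Gn i j + gq M Gn j k = gq M Gn i k :=
  sum_Ioc_consecutive _ h1 h2

theorem gq_nn (A : At S M m a T) (i k : ℕ) : 0 ≤ gq M Gn i k := sum_nonneg fun y _ => by
  split_ifs
  exacts [A.dz_nn y, le_rfl]

theorem gq_le (A : At S M m a T) {i k : ℕ} (h : i ≤ k) : gq M Gn i k ≤ M.z k - M.z i := by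
  rw [← At.sum_dz M h]
  refine sum_le_sum fun y _ => ?_
  split_ifs
  exacts [le_rfl, A.dz_nn y]

theorem gq_gap {p q : ℕ} (n : Nx Gn U V p q) (h : p < q) : gq M Gn p q = M.z q - M.z (q - 1) := by
  rw [gq, ← Ioo_insert_right h, sum_insert (by simp), if_pos n.2.2.2.2.1, sum_eq_zero, add_zero]
  intro y hy
  rw [mem_Ioo] at hy
  exact if_neg (n.2.2.2.2.2 y hy.1 hy.2)

theorem nx_prev {i k : ℕ} (h0 : U ≤ i) (h : i < k) (hk : k ≤ V) (gi : Gn i) (gk : Gn k) :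
    ∃ r, i ≤ r ∧ r < k ∧ Nx Gn U V r k := by
  classical
  have i1 : i ≤ Nat.findGreatest Gn (k - 1) := Nat.le_findGreatest (by omega) gi
  have i2 : Nat.findGreatest Gn (k - 1) ≤ k - 1 := Nat.findGreatest_le _
  exact ⟨_, i1, by omega, by omega, by omega, hk, Nat.findGreatest_spec (by omega : i ≤ k - 1) gi,
    gk, fun y c d => Nat.findGreatest_is_greatest c (by omega)⟩

theorem badm (lab : ∀ r k, Nx Gn U V r k → r < k → M.z (k - 1) - M.z r ≤ θ * ds M m a r k)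
    {i : ℕ} (h0 : U ≤ i) (gi : Gn i) : ∀ k, i ≤ k → k ≤ V → Gn k →
      M.z k - M.z i ≤ gq M Gn i k + θ * ds M m a i k := by
  intro k
  induction k using Nat.strong_induction_on with
  | _ k ih =>
  intro h1 h2 gk
  rcases h1.eq_or_lt with rfl | c
  · simp [ds, gq]
  obtain ⟨r, r1, r2, n⟩ := nx_prev h0 c h2 gi gk
  have a1 := ih r r2 r1 (by omega) n.2.2.2.1
  have a2 := lab r k n r2
  rw [← gq_add r1 r2.le, gq_gap n r2]
  unfold ds at *
  linarith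

theorem win_up (A : At S M m a T) {p q : ℕ} (n : Nx Gn U V p q) (h : p < q) (gV : Gn V)
    (τ0 : 0 ≤ τ) (hδ : ∀ y, p < y → y ≤ V → M.z y - M.z (y - 1) ≤ δ) (hδτ : δ ≤ τ)
    (big : 2 * τ < gq M Gn p V) :
    ∃ j, q ≤ j ∧ j ≤ V ∧ Gn j ∧ M.z q + τ ≤ M.z j ∧ gq M Gn p j ≤ 3 * τ := by
  classical
  have qV := n.2.2.1
  have a1 := (gq_gap (M := M) n h).trans_le (hδ q h qV)
  have ex : ∃ j, q ≤ j ∧ j ≤ V ∧ Gn j ∧ M.z q + τ ≤ M.z j := ⟨V, qV, le_rfl, gV, by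
    linarith [gq_add (M := M) (Gn := Gn) h.le qV, gq_le (Gn := Gn) A qV]⟩
  obtain ⟨j1, j2, j3, j4⟩ := Nat.find_spec ex
  refine ⟨_, j1, j2, j3, j4, ?_⟩
  rw [← gq_add h.le j1]
  rcases j1.eq_or_lt with c | c
  · rw [← c]; simp only [gq, Ioc_self, sum_empty] at a1 ⊢; linarith
  obtain ⟨r, r1, r2, n'⟩ := nx_prev (n.1.trans h.le) c j2 n.2.2.2.2.1 j3
  have a2 : M.z r < M.z q + τ := not_le.1 fun d =>
    Nat.find_min ex r2 ⟨r1, by omega, n'.2.2.2.1, d⟩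
  have a3 := (gq_gap (M := M) n' r2).trans_le (hδ _ (by omega) j2)
  rw [← gq_add r1 r2.le]
  linarith [gq_le (Gn := Gn) A r1]

end gq

theorem pw89 {D y ε : ℝ} (D4 : 10000 ≤ D) (y0 : 0 ≤ y) (hy : D ^ 6 * y ≤ 1) (hε : 1 ≤ ε * D)
    (i j : ℕ) (h : i + 2 ≤ 6 * j) : 10000 * (D ^ i * y ^ j) ≤ ε := by
  have D0 : 0 < D := by linarith
  have a1 : D ^ (i + 2) * y ^ j ≤ 1 := calc
    _ ≤ D ^ (6 * j) * y ^ j := by gcongr; linarith
    _ = (D ^ 6 * y) ^ j := by rw [mul_pow, pow_mul]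
    _ ≤ 1 := pow_le_one₀ (by positivity) hy
  have a2 : D * (D ^ i * y ^ j) ≤ ε := le_of_mul_le_mul_right (by
    calc _ = D ^ (i + 2) * y ^ j := by ring
      _ ≤ _ := a1.trans hε) D0
  exact le_trans (by gcongr) a2

theorem wn_num {D y ε r η U X2 F θ v mi : ℝ} (D4 : 10000 ≤ D) (y0 : 0 < y) (hy : D ^ 6 * y ≤ 1)
    (hε : 1 ≤ ε * D) (ε1 : ε ≤ 1) (r0 : 0 < r) (r1 : r ≤ 1) (η0 : 0 < η) (X0 : 0 ≤ X2)
    (h1 : η ≤ y ^ 6 * r ^ 3) (h2 : U ^ 2 ≤ y ^ 6 * r ^ 2) (h3 : X2 ≤ y ^ 6 * r ^ 2) (F1 : 1 ≤ F)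
    (θ0 : 0 ≤ θ) (h4 : θ * F ^ 2 ≤ D ^ 2 * y ^ 6) (v0 : 0 ≤ v) (h5 : F ^ 2 * v ≤ η) (h6 : mi ≤ η) :
    θ * (1 + 8 * D ^ 3 * (1 + D)) ≤ ε ∧
    (v ≤ ε * (r * y / 2) ∧ D ^ 12 * η / r ^ 2 ≤ ε * (r * y / 2)) ∧
    D ^ 4 * X2 + (2 * D ^ 5 * U ^ 2 + D * F ^ 2 * r ^ 2) * θ + D ^ 3 * U ^ 2 ≤ ε * (r * y / 2) ^ 2 ∧
    2 * D ^ 5 * U ^ 2 + D ^ 3 * U ^ 2 ≤ ε * (r ^ 2 / D) ∧
    D ^ 9 * η + D * F ^ 2 * r ^ 2 * v ≤ ε * (r * y / 2) ^ 3 ∧
    D ^ 9 * η + mi + v ^ 3 ≤ ε * (r ^ 2 / D * (D ^ 12 * η / r ^ 2)) := by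
  have D1 : 1 ≤ D := by linarith
  have D0 : 0 < D := by linarith
  have P := pw89 D4 y0.le hy hε
  have Dp : ∀ i j : ℕ, i ≤ j → D ^ i ≤ D ^ j := fun i j h => pow_le_pow_right₀ D1 h
  have F2 : 1 ≤ F ^ 2 := one_le_pow₀ F1
  have t1 : θ ≤ D ^ 2 * y ^ 6 := (le_mul_of_one_le_right θ0 F2).trans h4
  have t2 : θ ≤ 1 := by linarith [P 2 6 (by norm_num)]
  have v1 : v ≤ η := (le_mul_of_one_le_left v0 F2).trans h5
  have ry : 0 < r * y := by positivity
  have r3 : r ^ 3 ≤ r := by nlinarith [mul_le_mul r1 r1 r0.le zero_le_one]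
  have u0 := sq_nonneg U
  have z0 : 0 ≤ y ^ 6 * r ^ 2 := by positivity
  refine ⟨?_, ⟨?_, ?_⟩, ?_, ?_, ?_, ?_⟩
  · have a1 : 1 + 8 * D ^ 3 * (1 + D) ≤ 17 * D ^ 4 := by
      linarith [Dp 0 4 (by norm_num), Dp 3 4 (by norm_num)]
    linarith [mul_le_mul t1 a1 (by positivity) (by positivity), P 6 6 (by norm_num),
      show 0 ≤ D ^ 6 * y ^ 6 by positivity]
  · have a1 : y ^ 6 * r ^ 3 ≤ y ^ 6 * r := by gcongr
    linarith [mul_le_mul_of_nonneg_right (P 0 5 (by norm_num)) ry.le,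
      show 0 ≤ y ^ 6 * r by positivity]
  · rw [div_le_iff₀ (by positivity)]
    linarith [mul_le_mul_of_nonneg_right (P 12 5 (by norm_num)) (show 0 ≤ r ^ 3 * y by positivity),
      mul_le_mul_of_nonneg_left h1 (show 0 ≤ D ^ 12 by positivity),
      show 0 ≤ D ^ 12 * y ^ 6 * r ^ 3 by positivity]
  · have a1 := mul_le_mul (Dp 4 5 (by norm_num)) h3 X0 (by positivity)
    have a2 := mul_le_mul (Dp 3 5 (by norm_num)) h2 u0 (by positivity)
    have a3 := mul_le_mul (mul_le_mul_of_nonneg_left h2 (show 0 ≤ D ^ 5 by positivity)) t2 θ0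
      (by positivity)
    have a4 := mul_le_mul_of_nonneg_left h4 (show 0 ≤ D * r ^ 2 by positivity)
    have a5 := mul_le_mul_of_nonneg_right (Dp 3 5 (by norm_num)) z0
    linarith [mul_le_mul_of_nonneg_right (P 5 4 (by norm_num)) (show 0 ≤ r ^ 2 * y ^ 2 by positivity),
      show 0 ≤ D ^ 5 * (y ^ 6 * r ^ 2) by positivity]
  · rw [← mul_div_assoc, le_div_iff₀ D0]
    have a1 := mul_le_mul (Dp 4 6 (by norm_num)) h2 u0 (by positivity)
    have a2 := mul_le_mul_of_nonneg_left h2 (show 0 ≤ D ^ 6 by positivity)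
    linarith [mul_le_mul_of_nonneg_right (P 6 6 (by norm_num)) (show 0 ≤ r ^ 2 by positivity),
      show 0 ≤ D ^ 6 * (y ^ 6 * r ^ 2) by positivity]
  · have a1 : D * r ^ 2 * (F ^ 2 * v) ≤ D ^ 9 * 1 * η := by
      gcongr
      exacts [by simpa using Dp 1 9 (by norm_num), pow_le_one₀ r0.le r1]
    have a2 := mul_le_mul_of_nonneg_left h1 (show 0 ≤ D ^ 9 by positivity)
    linarith [mul_le_mul_of_nonneg_right (P 9 3 (by norm_num)) (show 0 ≤ r ^ 3 * y ^ 3 by positivity),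
      show 0 ≤ D ^ 9 * (y ^ 6 * r ^ 3) by positivity]
  · rw [show ε * (r ^ 2 / D * (D ^ 12 * η / r ^ 2)) = ε * D * (D * (D ^ 9 * η)) by field_simp]
    have y1 : y ^ 6 * r ^ 3 ≤ 1 := by
      have := P 0 6 (by norm_num)
      nlinarith [pow_le_one₀ (n := 3) r0.le r1, show 0 ≤ y ^ 6 by positivity]
    have a1 : v ^ 3 ≤ v := by
      have : v ≤ 1 := by linarith
      nlinarith [mul_le_mul this this v0 zero_le_one]
    have a2 : η ≤ D ^ 9 * η := le_mul_of_one_le_left η0.le (one_le_pow₀ D1)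
    have a3 := mul_le_mul_of_nonneg_right D4 (show 0 ≤ D ^ 9 * η by positivity)
    linarith [le_mul_of_one_le_left (show 0 ≤ D * (D ^ 9 * η) by positivity) hε]

namespace Cz

variable {D E Λ L : ℝ} {S : Sc} {M : Md} {m : ℕ} {a T G1 l0 l V X Lg X2 X3 G0 W3 : ℝ} {η : ℝ → ℝ}
  (Z : Cz D E Λ L S M m a T G1 l0 l V X Lg X2 X3 G0 W3 η)
include Z

theorem s_cmp {i j : ℕ} (h1 : l ≤ M.s i) (h2 : l ≤ M.s j) (h : j ≤ 2 * i) (hi : i ≤ S.J)
    (hj : j ≤ S.J) : M.s j ≤ 2 * S.C ^ 2 * M.s i := by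
  have := Z.cx.tl_cmp h hi hj
  rwa [tl_eq (Z.ln.l0l.trans h1), tl_eq (Z.ln.l0l.trans h2)] at this

theorem v_n : (S.n : ℝ) * (S.C * S.v) ≤ 1 / S.n := by
  rw [le_div_iff₀ Z.A.cl.N0]; linarith [Z.hv]

set_option maxHeartbeats 800000 in
/-- the window of a gap -/
theorem wn {Gn : ℕ → Prop} {W : ℕ → ℝ} {U V1 p q i j : ℕ} {ε y τ Dm : ℝ} (hε : 1 ≤ ε * D)
    (ε1 : ε ≤ 1) (y0 : 0 < y) (hy : E * y ^ 6 = 1) (hU : l ≤ M.s U) (hV : V1 < S.J) (i0 : U ≤ i)
    (ip : i ≤ p) (pq : p ≤ q) (qj : q ≤ j) (j1 : j ≤ V1) (gi : Gn i) (gj : Gn j) (c1 : p ≤ 2 * i)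
    (c2 : j ≤ 2 * p) (dn : M.z i + τ ≤ M.z p) (up : M.z q + τ ≤ M.z j)
    (hτ : D ^ 12 * (η (M.s p) + Ug S Lg (M.s p) ^ 2 * Dm) ≤ τ * mf S (M.s p))
    (Dp : gd M S m a T p ≤ Dm) (Dq : gd M S m a T q ≤ Dm)
    (hW : ∀ k, i ≤ k → k ≤ j → W k ≤ D * W p) (w1 : mf S (M.s p) * y ^ 2 / 4 ≤ W p) :
    ∃ i j η' α o' μ Mc τ0 Dm w, Wn S M m a T Gn U V1 (fun k => D ^ 8 * η (M.s k))
      (fun k => D * Ug S Lg (M.s k) ^ 2) (fun k => 2 * D ^ 3 * Ug S Lg (M.s k) ^ 2) W (D ^ 4 * X2)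
      (8 * D ^ 3) (D ^ 2 / Lg) ε D p q i j η' α o' μ Mc τ0 Dm w := by
  have h := Z.A.cl
  have D4 := Z.D4
  have D0 : 0 < D := by linarith
  have E0 : 0 < E := by linarith [Z.E1]
  have F0 : 0 < S.F := by linarith [h.F1]
  have g0 : 0 < Lg := by linarith [Z.EL]
  have lv : ∀ k, i ≤ k → l ≤ M.s k := fun k u => hU.trans (h.sm (by omega))
  have t1 := lv p ip
  have t2 := Z.sC (show p < S.J by omega)
  have m0 := Z.mf_pos (h.s_nn p)
  have e0 := Z.eta_pos t1 t2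
  have jl := Z.jl4 (Z.ln.l0l.trans (lv i le_rfl)) (show i ≤ S.J by omega)
  have := h.i0
  have := h.i1
  obtain ⟨r, r0, hr⟩ : ∃ r, 0 < r ∧ mf S (M.s p) = r ^ 2 := ⟨_, sqrt_pos.2 m0, (sq_sqrt m0.le).symm⟩
  have cm : ∀ k, i ≤ k → k ≤ j → _ := fun k u1 u2 => Z.cmp t1 (lv k u1) t2
    (Z.s_cmp t1 (lv k u1) (by omega) (by omega) (by omega))
    (Z.s_cmp (lv k u1) t1 (by omega) (by omega) (by omega))
  have cm' := (Z.cmp (lv i le_rfl) t1 (Z.sC (by omega))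
    (Z.s_cmp (lv i le_rfl) t1 (by omega) (by omega) (by omega))
    (Z.s_cmp t1 (lv i le_rfl) (by omega) (by omega) (by omega))).2.1
  have dv : ∀ {x z : ℝ}, E * x ≤ z → x ≤ y ^ 6 * z := fun {x z} u =>
    calc x = y ^ 6 * (E * x) := by rw [← mul_assoc, mul_comm (y ^ 6), hy, one_mul]
      _ ≤ _ := by gcongr
  have y6 : D ^ 6 * y ≤ 1 := (pow_le_one_iff_of_nonneg (by positivity) (show 6 ≠ 0 by norm_num)).1
    (by rw [mul_pow, ← pow_mul, ← hy]; gcongr; exact Z.DpE (by norm_num))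
  have n1 := (Z.eta_b t1 t2).1
  have u0 := Z.Ug_nn t1
  obtain ⟨N1, N2, N3, N4, N5, N6⟩ := wn_num (η := η (M.s p)) (U := Ug S Lg (M.s p)) (X2 := X2)
    (F := S.F) (θ := D ^ 2 / Lg) (v := S.v) (mi := 1 / (m + 1)) D4 y0 y6 hε ε1 r0
    (by nlinarith [Z.mf_le (M.s p)]) e0 Z.X20
    (dv (by
      have := Z.ln.th1 _ t1 t2
      rwa [hr, ← rpow_natCast, ← rpow_mul r0.le, show ((2 : ℕ) : ℝ) * (3 / 2) = (3 : ℕ) by norm_num,
        rpow_natCast] at this))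
    (dv (hr ▸ le_trans (by gcongr; exact Z.Ug_uw t1) (Z.ln.th2 _ t1 t2)))
    (dv (hr ▸ Z.ln.th3.trans (Z.mf_mono t1))) h.F1 (by positivity)
    (by
      rw [div_mul_eq_mul_div, mul_div_assoc]
      gcongr
      rw [div_le_iff₀ g0]
      exact dv Z.ln.Lg0) h.v0.le
    (by
      have a1 : S.F ^ 2 ≤ S.n := by nlinarith [Z.ln.Lg0, Z.ln.Lg1, Z.E1, sq_nonneg S.F]
      have a2 : S.v ≤ S.C * S.v := le_mul_of_one_le_left h.v0.le h.C1
      exact (mul_le_mul a1 a2 h.v0.le h.N0.le).trans (Z.v_n.trans n1))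
    (le_trans (one_div_le_one_div_of_le h.N0 (by
      have : (S.n : ℝ) ≤ m := by exact_mod_cast Z.mn
      linarith)) n1)
  have ε0 : 0 < ε := (mul_pos_iff_of_pos_right D0).1 (by linarith)
  have Dm0 : 0 ≤ Dm := (abs_nonneg _).trans Dp
  have mg : D ^ 12 * η (M.s p) / r ^ 2 + D ^ 3 * Ug S Lg (M.s p) ^ 2 * Dm / (ε * (r ^ 2 / D)) ≤ τ := by
    have a1 : D ^ 3 * Ug S Lg (M.s p) ^ 2 * Dm / (ε * (r ^ 2 / D)) ≤
        D ^ 12 * (Ug S Lg (M.s p) ^ 2 * Dm) / r ^ 2 := by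
      rw [div_le_div_iff₀ (by positivity) (by positivity),
        show D ^ 12 * (Ug S Lg (M.s p) ^ 2 * Dm) * (ε * (r ^ 2 / D)) =
          ε * D * (D ^ 10 * Ug S Lg (M.s p) ^ 2 * Dm * r ^ 2) by field_simp]
      refine le_trans ?_ (le_mul_of_one_le_left (by positivity) hε)
      gcongr
      exacts [by linarith, by norm_num]
    refine (add_le_add_right a1 _).trans ?_
    rw [← add_div, div_le_iff₀ (by positivity), ← hr]
    linarith
  refine ⟨i, j, D ^ 9 * η (M.s p), 2 * D ^ 5 * Ug S Lg (M.s p) ^ 2, D ^ 3 * Ug S Lg (M.s p) ^ 2,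
    r ^ 2 / D, D * S.F ^ 2 * r ^ 2, D ^ 12 * η (M.s p) / r ^ 2, Dm, r * y / 2, i0, ip, qj, j1, gi,
    gj, by linarith, by linarith, fun k u1 u2 => ?_, fun x z u1 u2 u3 => ?_, ?_, Dp, Dq,
    by positivity, by rw [hr] at w1; linarith, by positivity, by positivity,
    ⟨by positivity, by positivity, by positivity, by positivity⟩, N1, N2, N3, N4, N5, N6⟩
  · obtain ⟨a1, -, a2, -⟩ := cm k u1 u2
    have a3 := pow_le_pow_left₀ (Z.Ug_nn (lv k u1)) a2 2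
    refine ⟨hW k u1 u2, ?_, fun _ => ⟨?_, ?_⟩⟩
    · linarith [mul_le_mul_of_nonneg_left a3 (show 0 ≤ D ^ 3 by positivity)]
    · linarith [mul_le_mul_of_nonneg_left a1 (show 0 ≤ D ^ 8 by positivity)]
    · linarith [mul_le_mul_of_nonneg_left a3 D0.le]
  · refine le_trans (mul_le_mul_of_nonneg_right ?_ (sub_nonneg.2 (h.leg.zm u2)))
      (Z.A.h_fl (u := i) (by omega) u1 u2 (by omega))
    have c0 := h.C0
    rw [← hr, show S.ms (M.s i) / (S.C ^ 2 * S.F) = mf S (M.s i) / S.C ^ 2 by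
      unfold mf; field_simp, div_le_div_iff₀ D0 (by positivity)]
    linarith [show 0 < S.C ^ 2 * mf S (M.s p) by positivity]
  · refine (Z.A.h_up Z.ce.up (by omega) pq (by omega)).trans
      (mul_le_mul_of_nonneg_right ?_ (sub_nonneg.2 (h.leg.zm pq)))
    have a1 := mul_le_mul_of_nonneg_left (cm q (by omega) qj).2.1 (sq_nonneg S.F)
    have a2 := Z.mf_pos (h.s_nn q)
    have c0 := h.C0
    rw [← hr, show S.ms (M.s q) = S.F * mf S (M.s q) by unfold mf; field_simp]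
    linarith [show 0 < S.F ^ 2 * S.C ^ 2 * mf S (M.s q) by positivity]

end Cz

end Crest.Agent.T156.Alt.G89

end
end

-- ▼ part T156/NdE_89
section

/-!
# Row 156, block (L): the net of good nodes, short gaps (helper89)
-/

set_option autoImplicit false

noncomputable section

namespace Crest.Agent.T156.Alt.G89

open Real Finset
open Crest.Agent.T156.Alt.E61 Crest.Agent.T156.Alt.Mp9 Crest.Agent.T156.Alt.Sz9
open Crest.Agent.T156.Alt.L69 (LN cr cl mf uw gg Phi)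

theorem blog {D : ℝ} {y p h : ℕ} (h1 : 4 * D ^ 2 * h ≤ p) (h2 : p ≤ y + 2 * h) (h3 : p ≤ 2 * y)
    (p0 : 0 < p) : D ^ 2 * (log p - log y) ≤ 1 := by
  have y0 : (0 : ℝ) < y := by exact_mod_cast (show 0 < y by omega)
  have p1 : (0 : ℝ) < p := by exact_mod_cast p0
  have a1 := log_le_sub_one_of_pos (div_pos p1 y0)
  rw [log_div p1.ne' y0.ne', div_sub_one y0.ne'] at a1
  refine (mul_le_mul_of_nonneg_left a1 (sq_nonneg D)).trans ?_
  rw [← mul_div_assoc, div_le_one y0]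
  have b2 : (p : ℝ) ≤ y + 2 * h := by exact_mod_cast h2
  have b3 : (p : ℝ) ≤ 2 * y := by exact_mod_cast h3
  nlinarith [mul_le_mul_of_nonneg_left b2 (sq_nonneg D)]

theorem exp_three : exp 3 ≤ 27 := by
  rw [show (3 : ℝ) = (3 : ℕ) * 1 by norm_num, exp_nat_mul]
  exact (pow_le_pow_left₀ (exp_pos _).le exp_one_lt_three.le 3).trans_eq (by norm_num)

theorem exp_rat {x y : ℝ} (h : x ≤ y + 3) : exp x ≤ 27 * exp y :=
  (exp_le_exp.2 h).trans (by rw [exp_add, mul_comm]; gcongr; exact exp_three)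

namespace Cz

variable {D E Λ L : ℝ} {S : Sc} {M : Md} {m : ℕ} {a T G1 l0 l V X Lg X2 X3 G0 W3 : ℝ} {η : ℝ → ℝ}
  (Z : Cz D E Λ L S M m a T G1 l0 l V X Lg X2 X3 G0 W3 η)
include Z

theorem lE {t : ℝ} (h1 : l ≤ t) (h2 : t ≤ S.C) : E * (1 / S.n) ≤ mf S t * t :=
  (mul_le_mul_of_nonneg_left (Z.eta_b h1 h2).1 (by linarith [Z.E1])).trans (Z.ln.th4 t h1 h2)

theorem Jv : 1 ≤ 3 * S.C ^ 4 * (S.J * S.v) := by
  have h := Z.A.cl
  nlinarith [Ab33.sJ_ge h, mul_le_mul_of_nonneg_left (h.s_bds le_rfl).2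
    (show 0 ≤ 3 * S.C ^ 3 by have := h.C0; positivity)]

/-- the index step -/
theorem step {p : ℕ} (h1 : l ≤ M.s p) (hp : p < S.J) : ∃ h : ℕ, 4 * D ^ 2 * h ≤ p ∧
    (p : ℝ) ≤ 8 * D ^ 2 * h ∧ 100 * h ≤ p ∧ 1 ≤ h ∧ ∀ p', l ≤ M.s p' → p ≤ 2 * p' → p' ≤ 2 * p →
      p' + h < S.J → ∃ i, p' ≤ i ∧ i ≤ p' + h ∧ GN S M m a l0 V L Lg i := by
  have c := Z.A.cl
  have D4 := Z.D4
  have n0 := c.N0
  have t0 := c.s_nn p
  have E1 := Z.E1
  have a1 : E ≤ p := by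
    have b1 := Z.lE h1 (Z.sC hp)
    have b2 : mf S (M.s p) * M.s p ≤ 1 * (p * (S.C * S.v)) :=
      mul_le_mul (by linarith [Z.mf_le (M.s p)]) (c.s_bds hp.le).2 t0 zero_le_one
    have b3 : (p : ℝ) * (S.C * S.v) ≤ p * (1 / S.n) := by
      gcongr
      refine le_trans (le_mul_of_one_le_left (mul_pos c.C0 c.v0).le ?_) Z.v_n
      exact_mod_cast c.n1
    exact le_of_mul_le_mul_right (by linarith) (show (0 : ℝ) < 1 / S.n by positivity)
  have a2 : 8 * D ^ 2 ≤ p := by nlinarith [Z.DpE (i := 3) (by norm_num), sq_nonneg D]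
  have d0 : 0 < 4 * D ^ 2 := by positivity
  have f1 := Nat.floor_le (show (0 : ℝ) ≤ p / (4 * D ^ 2) by positivity)
  have f2 := Nat.lt_floor_add_one ((p : ℝ) / (4 * D ^ 2))
  generalize ⌊(p : ℝ) / (4 * D ^ 2)⌋₊ = h at f1 f2
  rw [le_div_iff₀ d0] at f1
  rw [div_lt_iff₀ d0] at f2
  have h0 : (0 : ℝ) ≤ h := by positivity
  have f3 : (1 : ℝ) < h := lt_of_mul_lt_mul_right (by linarith) d0.le
  have f4 : (p : ℝ) ≤ 8 * D ^ 2 * h := by nlinarith
  have f5 : 100 * h ≤ p := by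
    have : (100 : ℝ) * h ≤ p := by
      nlinarith [mul_le_mul_of_nonneg_right (show 100 ≤ 4 * D ^ 2 by nlinarith) h0]
    exact_mod_cast this
  refine ⟨h, by linarith, f4, f5, by exact_mod_cast f3.le, fun p' u1 u2 u3 u4 => ?_⟩
  refine Z.ex u1 (by omega) u4 (by omega) ?_
  have b1 : (p' : ℝ) ≤ 2 * p := by exact_mod_cast u3
  have b2 := (c.s_bds (show p' ≤ S.J by omega)).2
  have v0 := c.v0
  have b3 : 16 * S.C ≤ D := by linarith [Z.Cp (k := 1) (by norm_num), c.C0]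
  have C0 := c.C0
  push_cast
  calc D ^ 3 * M.s p' ≤ D ^ 3 * ((16 * D ^ 2 * h) * (S.C * S.v)) := by
        gcongr; exact b2.trans (by gcongr; linarith)
    _ = D ^ 5 * (16 * S.C) * S.v * h := by ring
    _ ≤ D ^ 5 * D * S.v * h := by gcongr
    _ ≤ _ := by
        have := Z.EL
        have : 0 < Lg := by linarith
        gcongr
        · linarith [Z.DpE (i := 6) (by norm_num), Z.EL]
        · linarith

/-- crude size of `Γ''` -/
theorem gd_cru {p k : ℕ} (h1 : l ≤ M.s p) (h : p ≤ k) (h2 : k ≤ 2 * p) (hk : k < S.J) :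
    gd M S m a T k ≤ D ^ 2 * (cr S (M.s p) * M.s p) := by
  have c := Z.A.cl
  have t1 := h1.trans (c.sm h)
  have jl := Z.jl4 (Z.ln.l0l.trans t1) hk.le
  have := c.i0
  have := c.i1
  have := c.i3
  have X := Z.cx.cf
  have a1 := abs_Gd_le Z.A (k := k) (by omega) (by omega)
  have a2 := Ab33.sb_le Z.A Z.ce Z.ln.HJ (l := l0) (cf := fun t => L * cl S V t)
    ⟨Z.l0p, Z.l0p.le.trans (X.ge _ le_rfl), X.mono, X.fl, X.dbl, X.cru⟩ (k := k) (by omega) hk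
    (Z.ln.l0l.trans t1)
  have a3 := Ab33.z_le c (k := k) (by omega) hk
  have a4 := (Z.cmp h1 t1 (Z.sC (by omega)) (Z.s_cmp h1 t1 h2 (by omega) hk.le)
    (Z.s_cmp t1 h1 (by omega) hk.le (by omega))).2.2.2
  have a5 := le_mul_of_one_le_left (c.s_nn k) (Ab33.cr_one S (M.s k))
  have a6 := Z.cl_le t1
  have C0 := c.C0
  have L1 := Z.ni.L1
  have D4 := Z.D4
  have x0 : 0 ≤ cr S (M.s p) * M.s p := mul_nonneg (by linarith [Ab33.cr_one S (M.s p)]) (c.s_nn p)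
  have b1 : 8 * S.C ^ 3 * (L * cl S V (M.s k)) ≤
      8 * S.C ^ 3 * (D * (2 * (4 * S.C ^ 2 * (cr S (M.s p) * M.s p)))) := by
    gcongr
    exacts [le_trans (c.s_nn k) (by unfold cl; linarith [Z.ln.V0]), Z.LD, by linarith]
  have b2 := mul_le_mul_of_nonneg_left (a5.trans a4) (show 0 ≤ 3 * S.C ^ 2 by positivity)
  have b3 := mul_le_mul_of_nonneg_right (Z.Cp (k := 5) (by norm_num)) (mul_nonneg (by linarith :
    0 ≤ D) x0)
  have b4 := mul_le_mul_of_nonneg_right (Z.Cp (k := 4) (by norm_num)) x0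
  have b5 := mul_le_mul_of_nonneg_right D4 (mul_nonneg (by linarith : 0 ≤ D) x0)
  have b6 : 0 ≤ D * (cr S (M.s p) * M.s p) := by positivity
  unfold gd
  linarith

theorem tiny {t y : ℝ} (h1 : l ≤ t) (h2 : t ≤ S.C) (y0 : 0 < y) (hy : E * y ^ 6 = 1) :
    900 * D * exp (-(100 * D)) ≤ mf S t * y ^ 2 / 4 := by
  have c := Z.A.cl
  have n0 := c.N0
  have D4 := Z.D4
  have E1 := Z.E1
  have m0 := Z.mf_pos (Z.lp.le.trans h1)
  have a1 : (S.n : ℝ) ≤ exp D := by rw [← exp_log n0]; exact exp_le_exp.2 Z.lg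
  have a2 : 1 ≤ S.n * mf S t := by
    have b1 := (Z.lE h1 h2).trans (mul_le_mul_of_nonneg_left (h2.trans Z.cx.CE) m0.le)
    rw [mul_one_div, div_le_iff₀ n0] at b1
    exact le_of_mul_le_mul_left (by linarith) (show 0 < E by linarith)
  have y1 : y ≤ 1 := (pow_le_one_iff_of_nonneg y0.le (show 6 ≠ 0 by norm_num)).1
    (by nlinarith [show 0 < y ^ 6 by positivity])
  have a3 : 1 ≤ S.n * y ^ 2 := hy ▸ mul_le_mul Z.En (pow_le_pow_of_le_one y0.le y1 (by norm_num))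
    (by positivity) n0.le
  have a4 : 3600 * D ≤ S.n := by nlinarith [Z.DpE (i := 2) (by norm_num), Z.En]
  have a5 : (S.n : ℝ) ^ 3 ≤ exp (100 * D) := (pow_le_pow_left₀ n0.le a1 3).trans (by
    rw [← exp_nat_mul]; exact exp_le_exp.2 (by push_cast; linarith))
  rw [exp_neg, ← div_eq_mul_inv, div_le_div_iff₀ (exp_pos _) (by norm_num)]
  calc 900 * D * 4 = 3600 * D * (1 * 1) := by ring
    _ ≤ S.n * (S.n * mf S t * (S.n * y ^ 2)) := by gcongr
    _ = mf S t * y ^ 2 * (S.n : ℝ) ^ 3 := by ring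
    _ ≤ _ := by gcongr

theorem gh {U V1 : ℕ} (hU : max l (2 * l0) ≤ M.s U) (uV : U ≤ V1)
    (ok : ∀ y ≤ V1, Okn S M m a Lg y) :
    GH S M m a T (GN S M m a l0 V L Lg) U V1 (fun k => D ^ 8 * η (M.s k))
      (fun k => D * Ug S Lg (M.s k) ^ 2) (fun k => D * u4 M m a k ^ 2)
      (fun k => 2 * D ^ 3 * Ug S Lg (M.s k) ^ 2) (D ^ 4 * X2) (8 * D ^ 3) (D ^ 2 / Lg) := by
  have c := Z.A.cl
  have D0 : 0 < D := by linarith [Z.D4]
  have hV := (ok V1 le_rfl).1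
  have lv : ∀ k, U ≤ k → l ≤ M.s k := fun k u => ((le_max_left _ _).trans hU).trans (c.sm u)
  have jl := Z.jl4 (Z.ln.l0l.trans (lv U le_rfl)) (show U ≤ S.J by omega)
  have := c.i0
  have := c.i1
  have g0 : 0 < Lg := by linarith [Z.EL, Z.E1]
  have X0 := Z.X20
  have cb : ∀ i k, Nx (GN S M m a l0 V L Lg) U V1 i k → ∀ y, i ≤ y → y ≤ k →
      D * u4 M m a y ^ 2 ≤ 2 * D ^ 3 * Ug S Lg (M.s y) ^ 2 + 8 * D ^ 3 * ds M m a i k ^ 2 :=
    fun i k n y u1 u2 => by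
    obtain ⟨n1, n2, n3, gi, gk, -⟩ := n
    have a1 := Z.pt (lv y (by omega)) gi gk u1 u2 (by omega) (ok y (by omega))
    have a2 := Z.Ug_nn (lv y (by omega))
    have a3 := ds_nn Z.A n2
    have a4 := pow_le_pow_left₀ (u4_nn y) (a1.trans
      (mul_le_mul_of_nonneg_right Z.ΛD (by positivity))) 2
    nlinarith [mul_le_mul_of_nonneg_left a4 D0.le, mul_nonneg (show 0 ≤ D ^ 3 by positivity)
      (sq_nonneg (Ug S Lg (M.s y) - 2 * ds M m a i k))]
  refine ⟨Z.A, by omega, by omega, by positivity, by positivity, by positivity,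
    fun y => by positivity, fun i k u1 u2 u3 gi gk => ?_, fun i k n h => (Z.lab
      (Z.ln.l0l.trans (lv i n.1)) h (by have := n.2.2.1; omega) n.2.2.2.1 (Or.inl n.2.2.2.2.1)
      n.2.2.2.2.2).1, fun y u1 u2 g => ?_, fun i k n y u1 u2 => cb i k n y u1.le u2.le⟩
  · refine (Z.e1 (hU.trans (c.sm u1)) u2 gi gk (ok i (by omega)) (ok k u3)).trans_eq ?_
    rw [mul_sum]
    congr 2
    refine sum_congr rfl fun y hy => ?_
    rw [Md67.dz_up c.leg (by have := (mem_Ioo.1 hy).1; omega)]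
    ring
  · simpa [ds] using cb y y ⟨u1, le_rfl, u2, g, g, fun k a b => by omega⟩ y le_rfl le_rfl

end Cz

end Crest.Agent.T156.Alt.G89

end
end

-- ▼ part T156/NdF_89
section

/-!
# Row 156, block (L): the net of good nodes, proof (helper89)
-/

set_option autoImplicit false

noncomputable section

namespace Crest.Agent.T156.Alt.G89

open Real Finset
open Crest.Agent.T156.Alt.E61 Crest.Agent.T156.Alt.Mp9 Crest.Agent.T156.Alt.Sz9
open Crest.Agent.T156.Alt.L69 (LN cr cl mf uw gg Phi)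

/-- the weight -/
def Wt (S : Sc) (M : Md) (Gn : ℕ → Prop) (D y τ : ℝ) (U V k : ℕ) : ℝ :=
  mf S (M.s k) * y ^ 2 / 4 + 30 * D * exp (D ^ 2 * (log U - log k)) +
    30 * D * exp (-(gq M Gn k V / τ))

namespace Cz

variable {D E Λ L : ℝ} {S : Sc} {M : Md} {m : ℕ} {a T G1 l0 l V X Lg X2 X3 G0 W3 : ℝ} {η : ℝ → ℝ}
  (Z : Cz D E Λ L S M m a T G1 l0 l V X Lg X2 X3 G0 W3 η)
include Z

theorem tau {D1 τ1 : ℝ} (P : Tau E S M m a T Lg D1 τ1 η) (h : l ≤ M.s (S.J - 1)) :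
    S.C * S.v ≤ τ1 ∧ D ^ 8 * (D ^ 12 * τ1) ≤ 1 := by
  have c := Z.A.cl
  have := c.i2
  have D4 := Z.D4
  have a1 := (P.t1 (S.J - 1) (by omega) (by omega)).1
  have a2 := (Z.eta_b h (Z.sC (by omega))).1
  have a3 := mul_nonneg (sq_nonneg (Ug S Lg (M.s (S.J - 1))))
    ((abs_nonneg _).trans (P.d1 (S.J - 1) (by omega) (by omega)))
  have m0 := Z.mf_pos (c.s_nn (S.J - 1))
  have a4 : S.C * S.v ≤ 1 / S.n := le_trans (le_mul_of_one_le_left (mul_pos c.C0 c.v0).le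
    (by exact_mod_cast c.n1)) Z.v_n
  have a5 := mul_pos c.C0 c.v0
  have t0 : 0 < τ1 := (mul_pos_iff_of_pos_right m0).1 (by linarith)
  refine ⟨by nlinarith [Z.mf_le (M.s (S.J - 1))], ?_⟩
  refine (pow_le_one_iff_of_nonneg (by positivity) two_ne_zero).1 (le_trans ?_ P.t2)
  rw [show (D ^ 8 * (D ^ 12 * τ1)) ^ 2 = D ^ 40 * τ1 ^ 2 by ring]
  gcongr
  exact Z.DE

theorem ds_le (hT : T ^ 2 ≤ D) {i k : ℕ} (h : i ≤ k) (hk : k < S.J) : ds M m a i k ^ 2 ≤ D := by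
  have := Z.A.cl.i3
  have a1 := (Z.A.sb_mem (k := i) (by omega)).1
  have a2 := (Z.A.sb_mem (k := k) (by omega)).2
  exact (pow_le_pow_left₀ (ds_nn Z.A h) (by unfold ds; linarith) 2).trans hT

/-- the good measure of the upper third -/
theorem gup (hT : T ^ 2 ≤ D) {U V1 : ℕ} (hU : max l (2 * l0) ≤ M.s U) (uV : U ≤ V1)
    (ok : ∀ y ≤ V1, Okn S M m a Lg y) (gV : GN S M m a l0 V L Lg V1)
    (big : ∀ j, GN S M m a l0 V L Lg j → 4 * j < 3 * S.J → j ≤ V1) {j : ℕ} (h1 : U ≤ j)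
    (h2 : 8 * j ≤ 5 * S.J) (gj : GN S M m a l0 V L Lg j) :
    1 ≤ D * gq M (GN S M m a l0 V L Lg) j V1 := by
  have c := Z.A.cl
  have G := Z.gh hU uV ok
  have := G.hU
  have := c.i0
  have := c.i1
  have hV := G.hV
  have D4 := Z.D4
  have D0 : 0 < D := by linarith
  have lv : ∀ k, U ≤ k → l ≤ M.s k := fun k u => ((le_max_left _ _).trans hU).trans (c.sm u)
  obtain ⟨h, -, -, s3, s4, s5⟩ := Z.step (lv ((2 * S.J + 2) / 3) (by omega)) (by omega)
  obtain ⟨g, g1, g2, g3⟩ := s5 _ (lv ((2 * S.J + 2) / 3) (by omega)) (by omega) (by omega) (by omega)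
  have g4 := big g g3 (by omega)
  have a1 := badm G.lab h1 gj V1 (by omega) le_rfl gV
  have a2 := c.leg.zm g4
  have a3 := (c.z_tel (i := j) (j := g) (by omega) (by omega) (by omega)).1
  have a4 : (S.J : ℝ) ≤ 24 * ((g : ℝ) - j) := by
    have : ((S.J + 24 * j : ℕ) : ℝ) ≤ (24 * g : ℕ) := by exact_mod_cast (by omega)
    push_cast at this; linarith
  have C0 := c.C0
  have v0 := c.v0
  have a5 : 2 ≤ D * (((g : ℝ) - j) * (S.v / S.C)) := by
    rw [← mul_div_assoc, ← mul_div_assoc, le_div_iff₀ C0]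
    have b1 := mul_le_mul_of_nonneg_left Z.Jv C0.le
    have b2 := mul_le_mul_of_nonneg_right a4 (show 0 ≤ S.C ^ 5 * S.v by positivity)
    have b3 := mul_le_mul_of_nonneg_right (Z.Cp (k := 5) (by norm_num))
      (show 0 ≤ ((g : ℝ) - j) * S.v from mul_nonneg (by linarith [(Nat.cast_nonneg S.J : (0 : ℝ) ≤ _)])
        v0.le)
    linarith
  have a6 : D * (D ^ 2 / Lg * ds M m a j V1) ≤ 1 := by
    have b1 := Z.ds_le hT (show j ≤ V1 by omega) hV
    have b2 : ds M m a j V1 ≤ D := by nlinarith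
    have g0 : 0 < Lg := by linarith [Z.EL, Z.E1]
    rw [div_mul_eq_mul_div, ← mul_div_assoc, div_le_one g0]
    linarith [mul_le_mul_of_nonneg_left b2 (show 0 ≤ D ^ 3 by positivity),
      Z.DpE (i := 4) (by norm_num), Z.EL]
  linarith [mul_le_mul_of_nonneg_left (show ((g : ℝ) - j) * (S.v / S.C) ≤
    gq M (GN S M m a l0 V L Lg) j V1 + D ^ 2 / Lg * ds M m a j V1 by linarith) D0.le]

set_option maxHeartbeats 800000 in
/-- every long gap has a window -/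
theorem win {D1 τ1 ε y : ℝ} (P : Tau E S M m a T Lg D1 τ1 η) (hT : T ^ 2 ≤ D) (hε : 1 ≤ ε * D)
    (ε1 : ε ≤ 1) (y0 : 0 < y) (hy : E * y ^ 6 = 1) {U V1 : ℕ} (hU : max l (2 * l0) ≤ M.s U)
    (uV : U ≤ V1) (ok : ∀ y ≤ V1, Okn S M m a Lg y) (gV : GN S M m a l0 V L Lg V1)
    (big : ∀ j, GN S M m a l0 V L Lg j → 4 * j < 3 * S.J → j ≤ V1) {p q : ℕ}
    (n : Nx (GN S M m a l0 V L Lg) U V1 p q)
    (hW : Wt S M (GN S M m a l0 V L Lg) D y (D ^ 12 * τ1) U V1 p < ds M m a p q ^ 2) :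
    ∃ i j η' α o' μ Mc τ0 Dm w, Wn S M m a T (GN S M m a l0 V L Lg) U V1
      (fun k => D ^ 8 * η (M.s k)) (fun k => D * Ug S Lg (M.s k) ^ 2)
      (fun k => 2 * D ^ 3 * Ug S Lg (M.s k) ^ 2) (Wt S M (GN S M m a l0 V L Lg) D y (D ^ 12 * τ1) U V1)
      (D ^ 4 * X2) (8 * D ^ 3) (D ^ 2 / Lg) ε D p q i j η' α o' μ Mc τ0 Dm w := by
  have c := Z.A.cl
  have G := Z.gh hU uV ok
  have := G.hU
  have := c.i0
  have := c.i1
  have hV := (ok V1 le_rfl).1
  have D4 := Z.D4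
  have D0 : 0 < D := by linarith
  have C0 := c.C0
  have v0 := c.v0
  have lv : ∀ k, U ≤ k → l ≤ M.s k := fun k u => ((le_max_left _ _).trans hU).trans (c.sm u)
  obtain ⟨n1, n2, n3, gp, gq', hb⟩ := id n
  obtain ⟨τa, τb⟩ := Z.tau P (lv _ (by omega))
  have τ0 : 0 < τ1 := (mul_pos C0 v0).trans_le τa
  have τc : τ1 ≤ D ^ 12 * τ1 := le_mul_of_one_le_left τ0.le (one_le_pow₀ (by linarith))
  set τ := D ^ 12 * τ1 with hτ
  have τp : 0 < τ := by linarith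
  have t1 := lv p n1
  have t2 := Z.sC (show p < S.J by omega)
  have m0 := Z.mf_pos (c.s_nn p)
  have w0 : 0 < mf S (M.s p) * y ^ 2 / 4 := by positivity
  have x1 := exp_pos (D ^ 2 * (log U - log p))
  have x2 := exp_pos (-(gq M (GN S M m a l0 V L Lg) p V1 / τ))
  have y1 := mul_pos D0 x1
  have y2 := mul_pos D0 x2
  have dl := Z.ds_le hT n2 (by omega)
  have pq : p < q := lt_of_le_of_ne n2 fun e => by
    subst e; simp only [ds, sub_self, Wt] at hW; linarith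
  obtain ⟨h, s1, s2, s3, s4, s5⟩ := Z.step t1 (show p < S.J by omega)
  have lo : ∀ x, -3 ≤ x → D ≤ 30 * D * exp x := fun x hx => by
    have := exp_rat (x := 0) (y := x) (by linarith)
    rw [exp_zero] at this
    nlinarith [exp_pos x]
  have uh : U + 2 * h ≤ p := by
    by_contra d
    have a1 := blog (y := U) s1 (by omega) (by omega) (by omega)
    have a2 := lo (D ^ 2 * (log U - log p)) (by linarith)
    unfold Wt at hW
    linarith
  obtain ⟨i, i1, i2, gi⟩ := s5 (p - 2 * h) (lv _ (by omega)) (by omega) (by omega) (by omega)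
  have hz : ∀ x z, U ≤ x → x + h ≤ z → z < S.J → M.z x + h * (S.v / S.C) ≤ M.z z :=
    fun x z u1 u2 u3 => by
    have a1 := (c.z_tel (i := x) (j := z) (by omega) (by omega) u3).1
    have a2 : (h : ℝ) ≤ (z : ℝ) - x := by
      have : ((x + h : ℕ) : ℝ) ≤ z := by exact_mod_cast u2
      push_cast at this; linarith
    linarith [mul_le_mul_of_nonneg_right a2 (show 0 ≤ S.v / S.C by positivity)]
  suffices ∃ j τ' Dm, q ≤ j ∧ j ≤ V1 ∧ j ≤ 2 * p ∧ GN S M m a l0 V L Lg j ∧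
      τ' ≤ h * (S.v / S.C) ∧ M.z q + τ' ≤ M.z j ∧
      D ^ 12 * (η (M.s p) + Ug S Lg (M.s p) ^ 2 * Dm) ≤ τ' * mf S (M.s p) ∧ gd M S m a T p ≤ Dm ∧
      gd M S m a T q ≤ Dm ∧ 30 * D * exp (-(gq M (GN S M m a l0 V L Lg) j V1 / τ)) ≤
        27 * (mf S (M.s p) * y ^ 2 / 4 + 30 * D * exp (-(gq M (GN S M m a l0 V L Lg) p V1 / τ))) by
    obtain ⟨j, τ', Dm, j1, j2, j3, gj, k1, k2, k3, k4, k5, k6⟩ := this
    refine Z.wn hε ε1 y0 hy (lv U le_rfl) (by omega) (show U ≤ i by omega) (by omega) n2 j1 j2 gi gj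
      (by omega) j3 (by linarith [hz i p (by omega) (by omega) (by omega)]) k2 k3 k4 k5
      (fun k u1 u2 => ?_) (by unfold Wt; linarith)
    have a1 := (Z.cmp t1 (lv k (by omega)) t2
      (Z.s_cmp t1 (lv k (by omega)) (by omega) (by omega) (by omega))
      (Z.s_cmp (lv k (by omega)) t1 (by omega) (by omega) (by omega))).2.1
    have a2 := mul_le_mul_of_nonneg_right (one_le_pow₀ (n := 2) c.C1) (Z.mf_pos (c.s_nn k)).le
    have a3 := mul_le_mul_of_nonneg_right (show 100 * mf S (M.s k) ≤ D * mf S (M.s p) by linarith)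
      (sq_nonneg y)
    have a4 := mul_le_mul_of_nonneg_left (exp_rat (x := D ^ 2 * (log U - log k))
      (y := D ^ 2 * (log U - log p))
      (by linarith [blog (y := k) s1 (by omega) (by omega) (by omega)])) D0.le
    have a5 := mul_le_mul_of_nonneg_left (exp_le_exp.2 (neg_le_neg (div_le_div_of_nonneg_right
      (show gq M (GN S M m a l0 V L Lg) j V1 ≤ gq M (GN S M m a l0 V L Lg) k V1 by
        linarith [gq_add (M := M) (Gn := GN S M m a l0 V L Lg) u2 j2,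
          gq_nn (Gn := GN S M m a l0 V L Lg) Z.A k j]) τp.le))) D0.le
    have b1 := mul_le_mul_of_nonneg_right D4 w0.le
    have b2 := mul_le_mul_of_nonneg_right D4 y1.le
    have b3 := mul_le_mul_of_nonneg_right D4 y2.le
    unfold Wt
    linarith
  have tp := (c.s_bds (show p ≤ S.J by omega)).2
  have h0 : (0 : ℝ) ≤ h := by positivity
  rcases lt_or_ge (2 * p) S.J with d | d
  · obtain ⟨r, r1, r2, r3⟩ := s5 (p + 1) (lv _ (by omega)) (by omega) (by omega) (by omega)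
    have qr : q ≤ r := by
      by_contra e
      exact hb r (by omega) (by omega) r3
    obtain ⟨j, j1, j2, gj⟩ := s5 (q + h) (lv _ (by omega)) (by omega) (by omega) (by omega)
    have E0 : 0 < E := by linarith [Z.E1]
    refine ⟨j, h * (S.v / S.C), D ^ 2 * (cr S (M.s p) * M.s p), by omega, big j gj (by omega),
      by omega, gj, le_rfl, hz q j (by omega) j1 (by omega), ?_,
      Z.gd_cru t1 le_rfl (by omega) (by omega), Z.gd_cru t1 n2 (by omega) (by omega), ?_⟩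
    · refine le_of_mul_le_mul_left ?_ E0
      have s0 := c.s_nn p
      have a1 := mul_le_mul_of_nonneg_left (Z.ln.th4 _ t1 t2) (show 0 ≤ D ^ 12 by positivity)
      have a2 := mul_le_mul_of_nonneg_left (Z.key t1 t2) (show 0 ≤ D ^ 14 * M.s p by positivity)
      have a3 := mul_le_mul_of_nonneg_right (Z.Dp (show 12 ≤ 14 by norm_num))
        (show 0 ≤ mf S (M.s p) * M.s p by positivity)
      have a4 : 2 * D ^ 14 * M.s p ≤ E * (h * (S.v / S.C)) := by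
        rw [← mul_div_assoc, ← mul_div_assoc, le_div_iff₀ C0]
        calc _ ≤ 2 * D ^ 14 * (8 * D ^ 2 * h * (S.C * S.v)) * S.C := by
              gcongr; exact tp.trans (by gcongr)
          _ = D ^ 16 * (16 * S.C ^ 2) * (h * S.v) := by ring
          _ ≤ D ^ 16 * D * (h * S.v) := by
              gcongr; linarith [Z.Cp (k := 2) (by norm_num), show 0 < S.C ^ 2 by positivity]
          _ ≤ _ := by gcongr; linarith [Z.DpE (i := 17) (by norm_num)]
      linarith [mul_le_mul_of_nonneg_right a4 m0.le]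
    · have a1 := Z.gup hT hU uV ok gV big (j := j) (by omega) (by omega) gj
      have a2 : 100 * D ≤ gq M (GN S M m a l0 V L Lg) j V1 / τ := by
        rw [le_div_iff₀ τp]
        refine le_of_mul_le_mul_left (le_trans ?_ a1) D0
        have := mul_le_mul_of_nonneg_right (Z.Dp (show 3 ≤ 8 by norm_num)) τp.le
        nlinarith [mul_le_mul_of_nonneg_right D4 (show 0 ≤ D ^ 2 * τ by positivity)]
      have a3 := mul_le_mul_of_nonneg_left (exp_le_exp.2 (neg_le_neg a2)) D0.le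
      have a4 := Z.tiny t1 t2 y0 hy
      have a5 := mul_pos D0 (exp_pos (-(100 * D)))
      linarith
  · have a0 : 2 * τ < gq M (GN S M m a l0 V L Lg) p V1 := by
      by_contra e
      have a1 := lo (-(gq M (GN S M m a l0 V L Lg) p V1 / τ)) (by
        rw [neg_le_neg_iff, div_le_iff₀ τp]; linarith)
      unfold Wt at hW
      linarith
    obtain ⟨j, j1, j2, gj, j3, j4⟩ := win_up Z.A n pq gV τp.le (δ := S.C * S.v) (fun x u1 u2 => by
      have := (c.zs (x - 1) (by omega) (by omega)).2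
      rwa [show x - 1 + 1 = x by omega] at this) (τa.trans τc) a0
    refine ⟨j, τ, D1, j1, j2, by omega, gj, ?_, j3, ?_, P.d1 p d (by omega),
      P.d1 q (by omega) (by omega), ?_⟩
    · rw [← mul_div_assoc, le_div_iff₀ C0]
      have a1 : (S.J : ℝ) ≤ 2 * p := by exact_mod_cast d
      refine le_of_mul_le_mul_left ?_ (show 0 < D ^ 8 by positivity)
      calc D ^ 8 * (τ * S.C) = D ^ 8 * τ * S.C := by ring
        _ ≤ 1 * S.C := by gcongr
        _ ≤ 3 * S.C ^ 4 * ((16 * D ^ 2 * h) * S.v) * S.C := by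
            gcongr; exact Z.Jv.trans (by gcongr; linarith)
        _ = D ^ 2 * (48 * S.C ^ 5) * (h * S.v) := by ring
        _ ≤ D ^ 7 * D * (h * S.v) := by
            gcongr
            exacts [by linarith, by norm_num,
              by linarith [Z.Cp (k := 5) (by norm_num), show 0 < S.C ^ 5 by positivity]]
        _ = _ := by ring
    · linarith [mul_le_mul_of_nonneg_left (P.t1 p d (by omega)).1 (show 0 ≤ D ^ 12 by positivity)]
    · have a1 := exp_rat (x := -(gq M (GN S M m a l0 V L Lg) j V1 / τ))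
        (y := -(gq M (GN S M m a l0 V L Lg) p V1 / τ)) (by
        rw [← gq_add (show p ≤ j by omega) j2, add_div]
        linarith [(div_le_iff₀ τp).2 j4])
      linarith [mul_le_mul_of_nonneg_left a1 D0.le]

end Cz

end Crest.Agent.T156.Alt.G89

end
end

-- ▼ part T156/NdG_89

/-!
# Row 156, block (L): the net of good nodes, conclusion (helper89)
-/

set_option autoImplicit false

noncomputable section

namespace Crest.Agent.T156.Alt.G89

open Real Finset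
open Crest.Agent.T156.Alt.E61 Crest.Agent.T156.Alt.Mp9 Crest.Agent.T156.Alt.Sz9
open Crest.Agent.T156.Alt.L69 (LN cr cl mf uw gg Phi)

namespace Cz

variable {D E Λ L : ℝ} {S : Sc} {M : Md} {m : ℕ} {a T G1 l0 l V X Lg X2 X3 G0 W3 : ℝ} {η : ℝ → ℝ}
  (Z : Cz D E Λ L S M m a T G1 l0 l V X Lg X2 X3 G0 W3 η)
include Z

/-- the first good node -/
theorem exU : ∃ U, GN S M m a l0 V L Lg U ∧ max l (2 * l0) ≤ M.s U ∧
    M.s U ≤ 33 / 32 * max l (2 * l0) ∧ 2 * U ≤ S.J := by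
  have c := Z.A.cl
  have C0 := c.C0
  have v0 := c.v0
  have lp := Z.lp
  have D4 := Z.D4
  have E1 := Z.E1
  have l1 : l ≤ max l (2 * l0) := le_max_left _ _
  have l2 : max l (2 * l0) ≤ 2 * l := max_le (by linarith) (by linarith [Z.ln.l0l])
  set lo := max l (2 * l0)
  have cE : ∀ k ≤ 10, 10000 * S.C ^ k * l ≤ 1 := fun k hk =>
    (mul_le_mul_of_nonneg_right ((Z.Cp hk).trans Z.D_E) lp.le).trans Z.ln.l1
  have a1 : lo < M.s S.J := by
    refine lt_of_mul_lt_mul_left ?_ (show 0 ≤ 3 * S.C ^ 3 by positivity)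
    nlinarith [cE 3 (by norm_num), Ab33.sJ_ge c, mul_le_mul_of_nonneg_left l2
      (show 0 ≤ S.C ^ 3 by positivity)]
  obtain ⟨k, k1, k2, k3, -⟩ := c.exists_node (by linarith) a1
  have k4 := (c.ss k k1).2
  have a2 : 100 * (S.C * S.v) ≤ l := by
    have b1 := Z.lE le_rfl Z.lC
    have b2 : S.C * S.v ≤ 1 / S.n := le_trans (le_mul_of_one_le_left (mul_pos c.C0 c.v0).le
      (by exact_mod_cast c.n1)) Z.v_n
    have b3 := mul_le_mul (show 100 ≤ E by linarith [Z.D_E]) b2 (by positivity) (by linarith)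
    nlinarith [Z.mf_le l]
  have a3 := (c.s_bds (show k + 1 ≤ S.J by omega)).1
  rw [← mul_div_assoc, div_le_iff₀ C0] at a3
  have a4 : 4 * (k + 1) ≤ S.J := by
    have : ((4 * (k + 1) : ℕ) : ℝ) ≤ S.J := by
      refine le_of_mul_le_mul_right ?_ (show 0 < 3 * S.C ^ 4 * S.v by positivity)
      have b1 := mul_le_mul_of_nonneg_left (a3.trans (mul_le_mul_of_nonneg_right
        (show M.s (k + 1) ≤ 3 * l by linarith) C0.le)) (show 0 ≤ 12 * S.C ^ 4 by positivity)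
      push_cast at b1 ⊢
      linarith [Z.Jv, cE 5 (by norm_num), show 0 < S.C ^ 5 * l by positivity]
    exact_mod_cast this
  obtain ⟨h, s1, -, s3, -, s5⟩ := Z.step (p := k + 1) (by linarith) (by omega)
  obtain ⟨U, u1, u2, gU⟩ := s5 (k + 1) (by linarith) (by omega) (by omega) (by omega)
  refine ⟨U, gU, k3.le.trans (c.sm u1), ?_, by omega⟩
  have b1 := (c.s_tel u1 (by omega)).2
  have b2 : (U : ℝ) - (k + 1 : ℕ) ≤ h := by
    have : (U : ℝ) ≤ (k + 1 + h : ℕ) := by exact_mod_cast u2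
    push_cast at this ⊢; linarith
  have b3 : 100 * (h * (S.C * S.v)) ≤ M.s (k + 1) := by
    refine le_of_mul_le_mul_right ?_ C0
    have d1 : 100 * S.C ^ 2 ≤ 4 * D ^ 2 := by
      nlinarith [Z.Cp (k := 2) (by norm_num), show 0 < S.C ^ 2 by positivity]
    have d2 := mul_le_mul_of_nonneg_right d1 (show 0 ≤ h * S.v by positivity)
    have d3 := mul_le_mul_of_nonneg_right s1 v0.le
    linarith
  linarith [mul_le_mul_of_nonneg_right b2 (mul_pos C0 v0).le]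

theorem beta {U i : ℕ} {lo : ℝ} (l0' : 0 < lo) (h1 : M.s U ≤ 33 / 32 * lo) (h2 : 9 / 8 * lo ≤ M.s i)
    (U0 : 0 < U) (hi : i < S.J) : U ≤ i ∧ D ^ 2 * (log U - log i) ≤ -(100 * D) := by
  have c := Z.A.cl
  have C0 := c.C0
  have v0 := c.v0
  have D4 := Z.D4
  have ui : U < i := lt_of_not_ge fun h => by linarith [c.sm h]
  refine ⟨ui.le, ?_⟩
  have u0 : (0 : ℝ) < U := by exact_mod_cast U0
  have u1 : (U : ℝ) < i := by exact_mod_cast ui
  have i0 := u0.trans u1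
  have a1 := log_le_sub_one_of_pos (div_pos u0 i0)
  rw [log_div u0.ne' i0.ne', div_sub_one i0.ne'] at a1
  have a2 := (c.s_tel ui.le hi.le).2
  have a3 := (c.s_bds (show U ≤ S.J by omega)).1
  rw [← mul_div_assoc, div_le_iff₀ C0] at a3
  have a4 : (U : ℝ) ≤ 11 * S.C ^ 2 * (i - U) := by
    refine le_of_mul_le_mul_right ?_ v0
    linarith [mul_le_mul_of_nonneg_right (show M.s U ≤ 11 * (((i : ℝ) - U) * (S.C * S.v)) by
      linarith) C0.le]
  have a5 := mul_le_mul_of_nonneg_right (one_le_pow₀ (n := 2) c.C1) (sub_nonneg.2 u1.le)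
  have a6 := mul_le_mul_of_nonneg_right (Z.Cp (k := 2) (by norm_num)) (sub_nonneg.2 u1.le)
  refine (mul_le_mul_of_nonneg_left a1 (sq_nonneg D)).trans ?_
  rw [← mul_div_assoc, div_le_iff₀ i0]
  linarith [mul_le_mul_of_nonneg_left (show 100 * (i : ℝ) ≤ D * (i - U) by linarith)
    (show 0 ≤ D by linarith)]

theorem ab16 {i : ℕ} (h1 : max l (2 * l0) ≤ M.s i) (gi : GN S M m a l0 V L Lg i)
    (oi : Okn S M m a Lg i) : |res M S m a T i| ≤
      D ^ 16 * η (M.s i) + D ^ 16 * Ug S Lg (M.s i) ^ 2 * gd M S m a T i +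
      D ^ 16 * (pb M m a (S.C * S.v) i * X2 + ∑ k ∈ range i, M.dz m a k * u4 M m a k ^ 2) := by
  have a1 := (le_max_left _ _).trans h1
  have b1 := Z.sC (show i < S.J by have := oi.1; omega)
  have g1 : 0 ≤ gd M S m a T i := abs_nonneg _
  have d1 : Λ ≤ D ^ 16 := Z.ΛD.trans (by simpa using Z.Dp (show 1 ≤ 16 by norm_num))
  have c1 := Z.no.ab T Z.A i _ _ (Z.go h1 gi oi)
  have c2 := mul_le_mul_of_nonneg_right d1 (mul_nonneg (sq_nonneg (Ug S Lg (M.s i))) g1)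
  have c3 := mul_le_mul_of_nonneg_right (Z.Dp (show 8 ≤ 16 by norm_num)) (Z.eta_pos a1 b1).le
  have c4 := mul_le_mul_of_nonneg_right (Z.la_le.trans (mul_le_mul_of_nonneg_right
    (Z.Dp (show 4 ≤ 16 by norm_num)) Z.X20)) (pb_nn (E61.lg Z.A) (mul_pos Z.A.cl.C0 Z.A.cl.v0) i)
  have c5 := mul_le_mul_of_nonneg_right d1 (sum_nonneg (s := range i)
    (f := fun y => M.dz m a y * u4 M m a y ^ 2) fun y _ => mul_nonneg ((E61.lg Z.A).dz_nonneg y) (sq_nonneg _))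
  have c6 := Z.ee_le a1 b1
  unfold Ug gd at *
  linarith

end Cz

set_option maxHeartbeats 800000 in
/-- **the net of good nodes** -/
theorem ng (T0 C0 : ℝ) : ∃ K : ℝ, ∀ {D E Λ L : ℝ} {S : Sc} {M : Md} {m : ℕ}
    {a T G1 l0 l V X Lg X2 X3 G0 W3 D1 τ1 : ℝ} {η : ℝ → ℝ},
    Cz D E Λ L S M m a T G1 l0 l V X Lg X2 X3 G0 W3 η → K ≤ D → S.C ≤ C0 → T ≤ T0 →
    Tau E S M m a T Lg D1 τ1 η →
    ∃ V0, NG E (D ^ 16) S M m a T (max l (2 * l0)) Lg X2 τ1 η (GN S M m a l0 V L Lg) V0 := by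
  classical
  obtain ⟨ε, ε0, ε1, hg⟩ := gapW T0 C0
  refine ⟨max (T0 ^ 2) (1 / ε), fun {D E Λ L S M m a T G1 l0 l V X Lg X2 X3 G0 W3 D1 τ1 η} Z hK hC
    hT P => ?_⟩
  have c := Z.A.cl
  have D4 := Z.D4
  have D0 : 0 < D := by linarith
  have E0 : 0 < E := by linarith [Z.E1]
  have g0 : 0 < Lg := by linarith [Z.EL]
  have T1 := Z.A.sb_mem (k := 0) (Nat.zero_le _)
  have hT2 : T ^ 2 ≤ D := (pow_le_pow_left₀ (T1.1.trans T1.2) hT 2).trans
    ((le_max_left _ _).trans hK)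
  have hε : 1 ≤ ε * D := (div_le_iff₀' ε0).1 ((le_max_right _ _).trans hK)
  obtain ⟨y, y0, hy⟩ : ∃ y, 0 < y ∧ E * y ^ 6 = 1 := ⟨E ^ (-(1 : ℝ) / 6), by positivity, by
    rw [← rpow_natCast, ← rpow_mul E0.le]; norm_num; rw [rpow_neg_one, mul_inv_cancel₀ E0.ne']⟩
  obtain ⟨U, gU, u1, u2, u3⟩ := Z.exU
  have l1 : l ≤ max l (2 * l0) := le_max_left _ _
  have := c.i2
  obtain ⟨V1, gV, ok, big, top⟩ := Z.exV P (l1.trans u1) gU (by omega)
  have uV := big U gU (by omega)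
  have G := Z.gh u1 uV ok
  have := G.hU
  have := c.i0
  have := c.i1
  have hV := (ok V1 le_rfl).1
  obtain ⟨τa, τb⟩ := Z.tau P ((l1.trans u1).trans (c.sm (by omega)))
  have cv := mul_pos c.C0 c.v0
  have τ0 : 0 < τ1 := cv.trans_le τa
  have SH := hg G hC hT (W := Wt S M (GN S M m a l0 V L Lg) D y (D ^ 12 * τ1) U V1)
    (fun k => by have := Z.mf_pos (c.s_nn k); unfold Wt; positivity) D0.le
    fun p q n hW => Z.win P hT2 hε ε1 y0 hy u1 uV ok gV big n hW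
  have hq : ∀ j, U ≤ j → 8 * j ≤ 5 * S.J → GN S M m a l0 V L Lg j →
      D ^ 14 * τ1 ≤ gq M (GN S M m a l0 V L Lg) j V1 := fun j a1 a2 a3 => by
    refine le_of_mul_le_mul_left (le_trans ?_ (Z.gup hT2 u1 uV ok gV big a1 a2 a3)) D0
    linarith [mul_le_mul_of_nonneg_right (Z.Dp (show 15 ≤ 20 by norm_num)) τ0.le]
  set Q : ℕ → Prop := fun k => GN S M m a l0 V L Lg k ∧
    D ^ 14 * τ1 ≤ gq M (GN S M m a l0 V L Lg) k V1 with hQ
  have qU : Q U := ⟨gU, hq U le_rfl (by omega) gU⟩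
  obtain ⟨g0', q0⟩ : Q (Nat.findGreatest Q V1) := Nat.findGreatest_spec uV qU
  have v1 : ∀ j, j ≤ V1 → Q j → j ≤ Nat.findGreatest Q V1 := fun j a b => Nat.le_findGreatest a b
  have v2 : Nat.findGreatest Q V1 ≤ V1 := Nat.findGreatest_le _
  generalize Nat.findGreatest Q V1 = V0 at g0' q0 v1 v2
  have uV0 := v1 U uV qU
  have p1 : ∀ {i : ℕ}, i ≤ 16 → D ^ i ≤ D ^ 16 := fun h => Z.Dp h
  have pL : D ^ 2 / Lg ≤ D ^ 16 / Lg := by gcongr; exacts [by linarith, by norm_num]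
  refine ⟨V0, g0', by omega, fun j gj hj => ?_, ?_, fun i k a1 a2 a3 gi gk => ?_,
    fun i a1 a2 gi => Z.ab16 a1 gi (ok i (by omega)), fun U' i k x n a1 a2 a3 => ?_,
    fun i k a1 a2 a3 gi gk hb => ?_, fun p q a1 a2 a3 a4 a5 => Z.ex (l1.trans a1) a2 a3 a4
      ((mul_le_mul_of_nonneg_right (p1 (by norm_num)) (c.s_nn p)).trans a5),
    fun p q D0 a1 a2 a3 a4 a5 => Z.exs a1 a2 a3 a4
      ((mul_le_mul_of_nonneg_right (p1 (by norm_num)) a3.le).trans a5), fun U' i k n a1 => ?_⟩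
  · rcases le_total j U with d | d
    · omega
    · exact v1 j (big j gj (by omega)) ⟨gj, hq j d hj gj⟩
  · have vV : V0 < V1 := lt_of_le_of_ne v2 fun e => by
      rw [e] at q0
      simp only [gq, Ioc_self, sum_empty] at q0
      linarith [show 0 < D ^ 14 * τ1 by positivity]
    have ex : ∃ r, V0 < r ∧ GN S M m a l0 V L Lg r := ⟨V1, vV, gV⟩
    obtain ⟨r1, r2⟩ := Nat.find_spec ex
    have r3 : Nat.find ex ≤ V1 := Nat.find_min' ex ⟨vV, gV⟩
    have n : Nx (GN S M m a l0 V L Lg) U V1 V0 (Nat.find ex) :=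
      ⟨uV0, r1.le, r3, g0', r2, fun x a b g => Nat.find_min ex b ⟨a, g⟩⟩
    generalize Nat.find ex = r at r1 r2 r3 n
    have a1 : gq M (GN S M m a l0 V L Lg) r V1 < D ^ 14 * τ1 := not_le.1 fun d => by
      have := v1 r r3 ⟨r2, d⟩; omega
    have a2 := gq_gap (M := M) n r1
    have a3 := (c.zs (r - 1) (by omega) (by omega)).2
    rw [show r - 1 + 1 = r by omega] at a3
    have a4 := gq_add (M := M) (Gn := GN S M m a l0 V L Lg) r1.le r3
    have a5 := badm G.lab uV0 g0' V1 v2 le_rfl gV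
    have a6 := ds_nn Z.A v2
    have a7 := ds_nn Z.A (show V1 ≤ S.J - 1 by omega)
    have a8 : 2 * D ^ 2 / Lg ≤ D ^ 16 / Lg := by
      gcongr; nlinarith [p1 (i := 3) (by norm_num), sq_nonneg D]
    have b1 := mul_le_mul_of_nonneg_right pL a6
    have b2 := mul_le_mul_of_nonneg_right a8 a7
    have b3 : D ^ 14 + D ^ 2 + 2 ≤ D ^ 16 := by
      nlinarith [Z.Dp (show 2 ≤ 14 by norm_num), Z.Dp (show 0 ≤ 14 by norm_num),
        Z.Dp (show 15 ≤ 16 by norm_num), mul_le_mul_of_nonneg_right D4 (show 0 ≤ D ^ 14 by positivity)]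
    have b4 := mul_le_mul_of_nonneg_right b3 τ0.le
    unfold ds at *
    linarith
  · have t1 := l1.trans a1
    have t2 := t1.trans (c.sm a2)
    have e1 := Z.eta_pos t1 (Z.sC (by omega))
    have e2 := Z.eta_pos t2 (Z.sC (by omega))
    have x0 := Z.X20
    have d0 := ds_nn Z.A a2
    have d1 : D ≤ D ^ 16 := by simpa using p1 (i := 1) (by norm_num)
    have g1 : 0 ≤ gd M S m a T i := abs_nonneg _
    have g2 : 0 ≤ gd M S m a T k := abs_nonneg _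
    have s0 : 0 ≤ ∑ y ∈ Ioo i k, M.dz m a y * u4 M m a y ^ 2 :=
      sum_nonneg fun y _ => mul_nonneg ((E61.lg Z.A).dz_nonneg y) (sq_nonneg _)
    refine (Z.e1 a1 a2 gi gk (ok i (by omega)) (ok k (by omega))).trans ?_
    gcongr <;> linarith
  · obtain ⟨-, n2, n3, gi, gk, -⟩ := n
    have t1 := (l1.trans a1).trans (c.sm a2)
    refine (Z.pt t1 gi gk a2 a3 (by omega) (ok x (by omega))).trans ?_
    have b1 := Z.Ug_nn t1
    have b2 := ds_nn Z.A n2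
    have b3 : 2 * Λ ≤ D ^ 16 := by nlinarith [p1 (i := 2) (by norm_num), Z.ΛD]
    linarith [mul_le_mul_of_nonneg_right b3 (add_nonneg b1 b2), mul_nonneg (zero_le_one.trans Z.Λ1) b1]
  · obtain ⟨b1, b2⟩ := Z.lab (Z.ln.l0l.trans (l1.trans a1)) a2 a3 gi gk hb
    have b3 := mul_le_mul_of_nonneg_right pL (ds_nn Z.A a2.le)
    constructor <;> linarith
  · obtain ⟨-, n2, n3, gi, gk, hb⟩ := n
    obtain ⟨b1, b2⟩ := Z.beta (Z.lp.trans_le l1) u2 a1 (by omega) (by omega)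
    have b3 := SH i k ⟨b1, n2, by omega, gi, gk, hb⟩
    have t1 := (l1.trans u1).trans (c.sm b1)
    have b4 := Z.tiny t1 (Z.sC (by omega)) y0 hy
    have b5 : 100 * D ≤ gq M (GN S M m a l0 V L Lg) i V1 / (D ^ 12 * τ1) := by
      rw [le_div_iff₀ (by positivity)]
      have d1 := gq_add (M := M) (Gn := GN S M m a l0 V L Lg) (show i ≤ V0 by omega) v2
      have d2 := gq_nn (Gn := GN S M m a l0 V L Lg) Z.A i V0
      linarith [mul_le_mul_of_nonneg_right D4 (show 0 ≤ D ^ 13 * τ1 by positivity),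
        show 0 ≤ D ^ 13 * τ1 by positivity]
    have b6 := mul_le_mul_of_nonneg_left (exp_le_exp.2 b2) D0.le
    have b7 := mul_le_mul_of_nonneg_left (exp_le_exp.2 (neg_le_neg b5)) D0.le
    have b8 := mul_pos D0 (exp_pos (-(100 * D)))
    have b9 := pow_le_pow_left₀ (sq_nonneg _) (show ds M m a i k ^ 2 ≤ mf S (M.s i) * y ^ 2 by
      unfold Wt at b3; linarith) 3
    calc E * ds M m a i k ^ 6 = E * (ds M m a i k ^ 2) ^ 3 := by ring
      _ ≤ E * (mf S (M.s i) * y ^ 2) ^ 3 := by gcongr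
      _ = E * y ^ 6 * mf S (M.s i) ^ 3 := by ring
      _ = _ := by rw [hy, one_mul]

end Crest.Agent.T156.Alt.G89

end
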