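import Crest.Agent.T156.LDefX_64
import Crest.Agent.T156.TLp_62
import Crest.Agent.T156.TLqD_53
import Crest.Agent.T156.NdG_89
import Crest.Agent.T156.NdW_22
import Crest.Agent.T156.PgZ_33
import Crest.Agent.T156.NdB_89
import Crest.Agent.T156.NdS_22
import Crest.Agent.T156.GdT_65
import Crest.Agent.T156.Cvx_25
import Crest.Agent.T156.ClMid_8
import Crest.Agent.T156.TLpS_73

-- ▼ part T156/LZD_94
section

/-!
# Row 156, block (L): what the rest of the proof reads (helper94)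
-/

set_option autoImplicit false

namespace Crest.Agent.T156.Alt.LZ

/-- **the output of the block (L)** -/
structure Out : Prop where
  tl0 : L69.TL0
  tlt : L69.TLt
  tl1x : L69.TL1x
  tl1cx : L69.TL1cx
  tl2x : L63.TL2x
  tl2y : L63.TL2y
  tlp : L62.TLp
  tlq : L63.TLq

end Crest.Agent.T156.Alt.LZ
end

-- ▼ part T156/NdZ_89
section

/-!
# Row 156, block (L): the net of good nodes on the class (helper89)
-/

set_option autoImplicit false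

noncomputable section

namespace Crest.Agent.T156.Alt.G89

theorem ngP : NgP := fun T0 C0 => by
  obtain ⟨K, h⟩ := ng T0 C0
  exact ⟨K, fun _ _ _ _ _ _ _ _ _ _ _ _ _ _ _ _ _ _ _ _ _ _ Z a b c d => ⟨_, h Z a b c d⟩⟩

/-- **(NdS)** -/
theorem ndS : NdS := ndS_of ngP

end Crest.Agent.T156.Alt.G89

end
end

-- ▼ part T156/TLpG_54
section

/-!
# Row 156, block (L): good nodes of the plateau and their sloped partners (helper54)
-/

set_option autoImplicit false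

noncomputable section

namespace Crest.Agent.T156.Alt.L62

open Real Finset
open Crest.Agent.T156.Alt.L69 Crest.Agent.T156.Alt.Mp9 Crest.Agent.T156.Alt.L63
open Crest.Agent.T156.Alt.E61 Crest.Agent.T156.Alt.Sz9
open Crest.Agent.T156.Alt.Nd22 (NI NO)
open Crest.Agent.T156.Alt.Nd33 (PG SV PO ep sl PgS)
open Crest.Agent.T156.Alt.G89 (Cz GN Okn Ug)

/-- crude location and the top sums under the hypotheses of (TL2) -/
def NiS54 : Prop := CL fun E Λ S M m a =>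
  ∀ G1 u1 u2 j γ Lc ηc τ l0 l X Xp Vt Lg Lp X2 X3 X4 G0 η N g t1 tu ℓ En p0,
  Hy E S M m a G1 u1 u2 j γ Lc ηc τ l0 l X Xp Vt Lg Lp X2 X3 X4 G0 η N g t1 tu ℓ En p0 →
  ∃ W3, NI Λ S M m a l0 (X ^ ((1 : ℝ) / 3)) X2 G0 W3 ∧ W3 ≤ Λ * η S.C

theorem young54 {u s : ℝ} (u0 : 0 ≤ u) (s0 : 0 < s) : u ^ 2 ≤ s ^ 2 + u ^ 3 / s := by
  rcases le_total u s with h | h
  · have := pow_le_pow_left₀ u0 h 2
    have : 0 ≤ u ^ 3 / s := by positivity
    linarith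
  · have : u ^ 2 ≤ u ^ 3 / s := by
      rw [le_div_iff₀ s0]
      nlinarith [mul_le_mul_of_nonneg_left h (sq_nonneg u)]
    linarith [sq_nonneg s]

theorem idx54 {S : Sc} {M : Md} (h : Cl S M) {x : ℝ} (x0 : 0 ≤ x) (x1 : x < M.s S.J) :
    ∃ k, k < S.J ∧ M.s k ≤ x ∧ x < M.s (k + 1) := by
  have jl := h.jl_lt
  have ex : ∃ k, x < M.s (k + 1) := ⟨S.J - 1, by rwa [Nat.sub_add_cancel (by omega)]⟩
  classical
  refine ⟨Nat.find ex, ?_, ?_, Nat.find_spec ex⟩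
  · have := Nat.find_min' ex (m := S.J - 1) (by rwa [Nat.sub_add_cancel (by omega)])
    omega
  · rcases Nat.eq_zero_or_pos (Nat.find ex) with e | e
    · rw [e, h.s0]; exact x0
    · have := Nat.find_min ex (m := Nat.find ex - 1) (by omega)
      rw [Nat.sub_add_cancel e] at this
      exact not_lt.1 this

/-- the slope term against the size -/
theorem wr_le {S : Sc} {M : Md} (h : Cl S M) (u0 : 0 < S.u0) {Xp Vt γ : ℝ} (X0 : 0 < Xp)
    (V0 : 0 ≤ Vt) (γ0 : 0 ≤ γ) (w0 : 0 ≤ S.w3 1) {k : ℕ} (k1 : S.J ≤ k) (k2 : k < S.Jp) :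
    0 ≤ ap M S Xp Vt γ k ∧ 0 ≤ sl M S Xp Vt γ k - 1 ∧
      S.w3 1 * (sl M S Xp Vt γ k - 1) ≤ ap M S Xp Vt γ k ^ 2 := by
  have d0 := SzT98.ds_pos h u0 k1 k2
  have d1 : ds M S k ≤ 1 := (min_le_right _ _).trans (by unfold du; linarith [h.z_pos (k - 1)])
  have n0 := h.den0 (M.z (k - 1))
  have r0 : 0 ≤ Rp M S Xp Vt γ k + Xp ^ ((1 : ℝ) / 3) := by
    have : 0 ≤ min Vt (√(Xp / du M k)) := le_min V0 (sqrt_nonneg _)
    unfold Rp; positivity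
  unfold ap sl lsh
  generalize Rp M S Xp Vt γ k + Xp ^ ((1 : ℝ) / 3) = ρ at *
  generalize S.den (M.z (k - 1)) = n at *
  generalize ds M S k = d at *
  generalize S.w3 1 = w at *
  have c0 := sqrt_nonneg (w / (n * d))
  have b0 : 0 ≤ w / (n * d ^ 2) := by positivity
  have i0 : 0 ≤ w * (n + ρ ^ 2 / (d ^ 2 * n)) := by positivity
  have a3 := Nd22.cb3 i0
  have a0 : 0 ≤ (w * (n + ρ ^ 2 / (d ^ 2 * n))) ^ ((1 : ℝ) / 3) := by positivity
  generalize (w * (n + ρ ^ 2 / (d ^ 2 * n))) ^ ((1 : ℝ) / 3) = A at *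
  refine ⟨by positivity, by rw [add_sub_cancel_left]; positivity, ?_⟩
  rw [add_sub_cancel_left, show w * (ρ / (n * d)) = w / (n * d) * ρ by ring]
  have W0 : 0 ≤ w / (n * d) := by positivity
  have Wb : w / (n * d) ≤ w / (n * d ^ 2) :=
    div_le_div_of_nonneg_left w0 (by positivity) (by nlinarith [mul_pos n0 d0])
  have WA : w / (n * d) * ρ ^ 2 ≤ A ^ 3 := by
    rw [a3]
    have := mul_le_mul_of_nonneg_right Wb (sq_nonneg ρ)
    have e : w * (n + ρ ^ 2 / (d ^ 2 * n)) = w * n + w / (n * d ^ 2) * ρ ^ 2 := by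
      field_simp
    have : 0 ≤ w * n := by positivity
    linarith
  generalize w / (n * d) = W at *
  generalize w / (n * d ^ 2) = B at *
  generalize √W = c at *
  rcases le_total ρ W with e | e
  · have x1 : W * ρ ≤ B * B := mul_le_mul Wb (e.trans Wb) r0 b0
    have x2 : B ^ 2 ≤ (A + B + c) ^ 2 := pow_le_pow_left₀ b0 (by linarith) 2
    linarith
  · have x1 : W * ρ ≤ A ^ 2 := by
      refine le_of_pow_le_pow_left₀ three_ne_zero (sq_nonneg _) ?_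
      have y1 : (W * ρ ^ 2) ^ 2 ≤ (A ^ 3) ^ 2 := pow_le_pow_left₀ (by positivity) WA 2
      have y2 := mul_le_mul_of_nonneg_left e (show 0 ≤ W ^ 2 * ρ ^ 3 by positivity)
      linarith
    have x2 : A ^ 2 ≤ (A + B + c) ^ 2 := pow_le_pow_left₀ a0 (by linarith) 2
    linarith

/-- the pointwise context -/
structure C54 (D E : ℝ) (S : Sc) (M : Md) (m : ℕ) (a G1 u1 u2 j γ Lc ηc τ l0 l X Xp Vt Lg Lp X2 X3
    X4 G0 : ℝ) (η : ℝ → ℝ) (N : ℝ) (g : ℝ → ℝ) (t1 ℓ En p0 W3 : ℝ) : Prop where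
  Z : Cz D E D D S M m a (2 * S.C) G1 l0 l (X ^ ((1 : ℝ) / 3)) X Lg X2 X3 G0 W3 η
  H : Hy E S M m a G1 u1 u2 j γ Lc ηc τ l0 l X Xp Vt Lg Lp X2 X3 X4 G0 η N g t1 (M.s S.J) ℓ En p0
  po : 8 * S.jl ≤ S.J → ∀ v G ev N2, v ≤ S.J → SV S M m a v G ev → Nu M m a (u4 M m a) 2 ≤ N2 →
    PO D S M m a G ev N2
  sz : ∑ k ∈ Ico S.J M.N, M.dz m a k * u4 M m a k ^ 2 ≤ D * Np M S Xp Vt γ u1 Lp 2
  out : ∀ k, S.J ≤ 8 * k → k < S.J → Gd65.Out D S M m a (2 * S.C) j γ (X ^ ((1 : ℝ) / 3)) k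

namespace C54

variable {D E : ℝ} {S : Sc} {M : Md} {m : ℕ} {a G1 u1 u2 j γ Lc ηc τ l0 l X Xp Vt Lg Lp X2 X3 X4
  G0 : ℝ} {η : ℝ → ℝ} {N : ℝ} {g : ℝ → ℝ} {t1 ℓ En p0 W3 : ℝ}
  (Q : C54 D E S M m a G1 u1 u2 j γ Lc ηc τ l0 l X Xp Vt Lg Lp X2 X3 X4 G0 η N g t1 ℓ En p0 W3)
include Q

theorem cE {k : ℕ} (hk : k ≤ 10) : 10000 * S.C ^ k ≤ E := (Q.Z.Cp hk).trans Q.Z.D_E

theorem l1 : l ≤ 1 := by nlinarith [Q.H.ln.l1, Q.Z.E1, Q.Z.lp]

theorem lE {k : ℕ} (hk : k ≤ 10) : 10000 * S.C ^ k * l ≤ 1 :=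
  (mul_le_mul_of_nonneg_right (Q.cE hk) Q.Z.lp.le).trans Q.H.ln.l1

theorem th : 0 < S.θ ∧ S.θ ≤ √S.θ ∧ 1 / S.n ≤ S.θ := by
  have h := Q.Z.A.cl
  have t0 := h.θ0
  have t1 : S.θ ≤ 1 := by nlinarith [Q.Z.hθ, h.C1]
  refine ⟨t0, le_sqrt' t0 |>.2 (by nlinarith), ?_⟩
  have := h.ms0.trans (h.ms1 0)
  rwa [rpow_neg_one, inv_eq_one_div] at this

theorem ell : 0 < ℓ ∧ E * S.θ ≤ ℓ ∧ 10 * (S.C * S.v) ≤ ℓ := by
  obtain ⟨t0, t1, t2⟩ := Q.th
  have h := Q.Z.A.cl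
  have E1 := Q.Z.E1
  have a : E * S.θ ≤ ℓ := (mul_le_mul_of_nonneg_left t1 (by linarith)).trans Q.H.lt.ℓ1
  refine ⟨lt_of_lt_of_le (by positivity) a, a, ?_⟩
  have n0 := h.N0
  have n1 : (1 : ℝ) ≤ S.n := by exact_mod_cast h.n1
  have cv := mul_pos h.C0 h.v0
  have b : S.C * S.v ≤ 1 / S.n := by
    rw [le_div_iff₀ n0]
    nlinarith [Q.Z.hv, mul_le_mul_of_nonneg_left n1 (mul_pos cv n0).le]
  have c : (10 : ℝ) ≤ E := by linarith [Q.Z.D4, Q.Z.D_E]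
  nlinarith [mul_le_mul_of_nonneg_right c t0.le]

theorem jl8 : 8 * S.jl ≤ S.J := by
  have h := Q.Z.A.cl
  have C0 := h.C0
  have v0 := h.v0
  have a := (h.s_tel (Nat.zero_le S.jl) h.jl_lt.le).1
  have b := (h.s_tel (Nat.zero_le S.J) le_rfl).2
  have c := Ab33.sJ_ge h
  rw [h.s0] at a b
  simp only [Nat.cast_zero, sub_zero] at a b
  have d : 10000 * S.C ^ 5 * M.s S.jl ≤ 1 :=
    (mul_le_mul_of_nonneg_right (Q.cE (by norm_num)) (h.s_nn _)).trans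
      (Q.H.ln.l0s.trans (Q.H.ln.l0l.trans Q.l1))
  rw [← mul_div_assoc, div_le_iff₀ C0] at a
  have e : (8 * S.jl : ℝ) * (3 * S.C ^ 4 * S.v) ≤ S.J * (3 * S.C ^ 4 * S.v) := by
    have a' := mul_le_mul_of_nonneg_left a (show 0 ≤ 24 * S.C ^ 4 by positivity)
    have b' := mul_le_mul_of_nonneg_left b (show 0 ≤ 3 * S.C ^ 3 by positivity)
    have := mul_nonneg (show 0 ≤ S.C ^ 5 by positivity) (h.s_nn S.jl)
    linarith
  exact_mod_cast le_of_mul_le_mul_right e (by positivity)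

/-- the window below the corner -/
theorem win {i : ℕ} (hi : i ≤ S.J) (h1 : M.s S.J - 100 * S.C ^ 3 * ℓ ≤ M.s i) :
    7 * S.J ≤ 8 * i ∧ 1 ≤ 4 * S.C ^ 4 * M.s i ∧ l ≤ M.s i ∧ M.s i ≤ S.C := by
  have h := Q.Z.A.cl
  have C0 := h.C0
  have C1 := h.C1
  have v0 := h.v0
  have l0 := Q.ell.1
  have a := (h.s_tel hi le_rfl).1
  have b := (h.s_tel (Nat.zero_le S.J) le_rfl).2
  have c := Ab33.sJ_ge h
  rw [h.s0] at b
  simp only [Nat.cast_zero, sub_zero] at b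
  have d : ∀ k ≤ 10, 10000 * S.C ^ k * ℓ ≤ M.s S.J := fun k hk =>
    (mul_le_mul_of_nonneg_right (Q.cE hk) l0.le).trans Q.H.lt.ℓ2
  have d3 := d 3 (by norm_num)
  have d5 := d 5 (by norm_num)
  rw [← mul_div_assoc, div_le_iff₀ C0] at a
  have s0 := h.s_nn i
  have f : 1 ≤ 4 * S.C ^ 3 * M.s i := by
    nlinarith [mul_le_mul_of_nonneg_left (show 99 / 100 * M.s S.J ≤ M.s i by linarith)
      (show 0 ≤ 4 * S.C ^ 3 by positivity)]
  refine ⟨?_, f.trans (by gcongr; norm_num), ?_, h.s_le_C (hi.trans h.i3)⟩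
  · have e : (7 * S.J : ℝ) * (S.C * S.v) ≤ 8 * i * (S.C * S.v) := by
      have a1 : (M.s S.J - M.s i) * S.C ≤ 100 * S.C ^ 3 * ℓ * S.C :=
        mul_le_mul_of_nonneg_right (by linarith) C0.le
      have a2 := mul_le_mul_of_nonneg_left (a.trans a1) C0.le
      have := mul_pos (pow_pos C0 5) l0
      linarith
    exact_mod_cast le_of_mul_le_mul_right e (by positivity)
  · have := Q.lE (k := 3) (by norm_num)
    refine le_of_mul_le_mul_left ?_ (show 0 < 4 * S.C ^ 3 by positivity)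
    have := mul_pos (pow_pos C0 3) Q.Z.lp
    linarith

/-- levels of order one -/
theorem lev {t : ℝ} (h1 : l ≤ t) (h2 : t ≤ S.C) (h3 : 1 ≤ 4 * S.C ^ 4 * t) :
    η t ≤ D ^ 2 * η 1 ∧ Ug S Lg t ≤ D ^ 2 * Ug S Lg 1 ∧ Lg * cr S t * gg S t ≤ D * η 1 := by
  have h := Q.Z.A.cl
  have C0 := h.C0
  have C1 := h.C1
  have c2 : S.C ≤ S.C ^ 2 := le_self_pow₀ C1 two_ne_zero
  have D4 := Q.Z.D4
  have e0 := Q.Z.eta_pos Q.l1 C1
  have U0 := Q.Z.Ug_nn Q.l1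
  have t0 := Q.Z.lp.trans_le h1
  have DD : D ≤ D ^ 2 := le_self_pow₀ (by linarith) two_ne_zero
  have key : η t ≤ D ^ 2 * η 1 ∧ Ug S Lg t ≤ D ^ 2 * Ug S Lg 1 := by
    rcases le_total 1 (2 * S.C ^ 2 * t) with e | e
    · obtain ⟨a, -, b, -⟩ := Q.Z.cmp Q.l1 h1 C1 (by linarith) e
      exact ⟨a.trans (mul_le_mul_of_nonneg_right DD e0.le),
        b.trans (mul_le_mul_of_nonneg_right DD U0)⟩
    · have p : 0 < 2 * S.C ^ 2 := by positivity
      have q : 2 * S.C ^ 2 * (1 / (2 * S.C ^ 2)) = 1 := by field_simp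
      have r1 : 1 / (2 * S.C ^ 2) ≤ 1 := by rw [div_le_one p]; linarith
      have r2 : l ≤ 1 / (2 * S.C ^ 2) := by
        rw [le_div_iff₀ p]
        have := mul_pos (pow_pos C0 2) Q.Z.lp
        linarith [Q.lE (k := 2) (by norm_num)]
      obtain ⟨a, -, b, -⟩ := Q.Z.cmp Q.l1 r2 C1 (by linarith) q.ge
      obtain ⟨a', -, b', -⟩ := Q.Z.cmp r2 h1 (r1.trans C1) (by
        rw [q]; nlinarith [mul_le_mul_of_nonneg_right (C1.trans c2) t0.le])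
        (by rw [div_le_iff₀ p]; linarith)
      exact ⟨by linarith [mul_le_mul_of_nonneg_left a (show 0 ≤ D by linarith)],
        by linarith [mul_le_mul_of_nonneg_left b (show 0 ≤ D by linarith)]⟩
  refine ⟨key.1, key.2, ?_⟩
  have m0 := h.ms_pos t0.le
  have m1 := h.θ0
  have n0 := h.N0
  have E1 := Q.Z.E1
  have cr1 : cr S t = 1 := by
    refine max_eq_left (rpow_le_one (by rw [Q.H.lt.F1]; positivity) ?_ (by norm_num))
    rw [Q.H.lt.F1, one_mul, div_le_one (by positivity)]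
    have a := Q.H.lt.ml t h1 h2
    have b : √(S.ms t) ≤ t := (le_mul_of_one_le_left (sqrt_nonneg _) E1).trans a
    exact (sqrt_le_left t0.le).1 b
  have c4 : 1 ≤ 4 * S.C ^ 4 := by linarith [one_le_pow₀ (n := 4) C1]
  have g1 : gg S t ≤ D * S.w3 1 := by
    have a := (h.msm h3).trans (h.ms_mul t0.le c4)
    have b := Q.Z.Cp (k := 8) (by norm_num)
    unfold gg Sc.w3
    rw [Q.H.lt.F1, ← mul_div_assoc, div_le_div_iff₀ (by positivity) (by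
      have : 0 < S.ms 1 := m1
      positivity)]
    have c : 4 * (4 * S.C ^ 4) ^ 2 * S.ms t ≤ D * S.ms t :=
      mul_le_mul_of_nonneg_right (by linarith [pow_pos C0 8]) m0.le
    linarith [mul_le_mul_of_nonneg_left (a.trans c) n0.le]
  have w0 := (Q.Z.w3p one_pos).le
  have g2 := E1.trans Q.Z.EL
  have g3 : Lg * S.w3 1 ≤ η 1 := by
    refine le_trans ?_ (Q.Z.eta_b Q.l1 C1).2.1
    rw [G89.uw_cube w0]
    refine mul_le_mul_of_nonneg_right ?_ w0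
    have a : Lg ≤ Lg ^ 2 * cr S 1 := (le_self_pow₀ g2 two_ne_zero).trans
      (le_mul_of_one_le_right (by positivity) (Ab33.cr_one S 1))
    exact a.trans (le_self_pow₀ (g2.trans a) three_ne_zero)
  rw [cr1, mul_one]
  linarith [mul_le_mul_of_nonneg_left g1 (show 0 ≤ Lg by linarith),
    mul_le_mul_of_nonneg_left g3 (show 0 ≤ D by linarith)]

/-- a good sloped node in every window -/
theorem node {p q : ℕ} (h1 : p ≤ q) (h2 : q < S.J) (h3 : M.s S.J - 100 * S.C ^ 3 * ℓ ≤ M.s p)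
    (h4 : M.s q + ℓ / 5 ≤ M.s S.J) (h5 : ℓ / (100 * S.C ^ 3) ≤ M.z q - M.z p) :
    ∃ i G ev, p ≤ i ∧ i ≤ q ∧ SV S M m a i G ev ∧ ev ≤ D ^ 10 * η 1 ∧
      (∃ Gb, 0 ≤ Gb ∧ G ≤ Gb ∧ Gb ^ 2 ≤ 2 * D ^ 7 * (η 1 + G0 ^ 2)) ∧
      u4 M m a i ≤ D ^ 3 * Ug S Lg 1 := by
  have h := Q.Z.A.cl
  have C0 := h.C0
  have C1 := h.C1
  have v0 := h.v0
  have D4 := Q.Z.D4
  have D0 : 0 < D := by linarith
  have E1 := Q.Z.E1
  obtain ⟨l0', l1', l2'⟩ := Q.ell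
  obtain ⟨t0, t1', -⟩ := Q.th
  have g2 := E1.trans Q.Z.EL
  have R0 : 0 < X ^ ((1 : ℝ) / 3) := rpow_pos_of_pos Q.H.ln.X0 _
  have γ0 : 0 ≤ γ := (sub_nonneg.2 (h.sm h.i3)).trans Q.H.lp.γ0
  have j0 : 0 ≤ j := le_trans (by positivity) Q.H.ap.j0
  obtain ⟨w1, -⟩ := Q.win (h1.trans h2.le) h3
  have j8 := Q.jl8
  have i1 := h.i1
  have i2 := h.i2
  obtain ⟨i, a1, a2, gi⟩ := Q.Z.exs (D0 := D * (S.θ + γ + X ^ ((1 : ℝ) / 3))) h1 h2 (by positivity)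
    (fun k b1 b2 => (Q.out k (by omega) (by omega)).1) (by
      have z := (h.z_tel (show S.j0 ≤ p by omega) h1 h2).2
      have z1 := h5.trans z
      rw [div_le_iff₀ (by positivity)] at z1
      have e1 : E * (S.θ + γ + X ^ ((1 : ℝ) / 3)) ≤ 3 * (Lg * ℓ) := by
        have := le_mul_of_one_le_left l0'.le g2
        have := mul_nonneg (show 0 ≤ E by linarith) j0
        linarith [Q.H.jg, Q.H.lt.Lg3]
      have e2 : 10000 * S.C ^ 4 * D ^ 3 ≤ E := le_trans (by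
        linarith [mul_le_mul_of_nonneg_right (Q.Z.Cp (k := 4) (by norm_num)) (pow_pos D0 3).le])
        (Q.Z.DpE (i := 4) (by norm_num))
      have e3 := mul_le_mul_of_nonneg_right e2
        (show 0 ≤ S.θ + γ + X ^ ((1 : ℝ) / 3) by positivity)
      have e4 := mul_le_mul_of_nonneg_left z1 (show 0 ≤ Lg by linarith)
      refine le_of_mul_le_mul_left ?_ (show 0 < 300 * S.C ^ 4 by positivity)
      have e5 : 0 ≤ S.C ^ 4 * (Lg * S.v) := by positivity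
      have e6 : 0 ≤ S.C ^ 4 * D ^ 3 * (S.θ + γ + X ^ ((1 : ℝ) / 3)) := by positivity
      have e7 : 0 ≤ Lg * ℓ := by positivity
      linarith)
  have iJ : i < S.J := by omega
  have si := h.sm a2
  obtain ⟨-, w2, w3, w4⟩ := Q.win iJ.le (h3.trans (h.sm a1))
  have o : Okn S M m a Lg i := by
    refine ⟨?_, Or.inr ?_⟩
    · by_contra c
      have e : i + 1 = S.J := by omega
      have := (h.ss i iJ).2
      rw [e] at this
      have := mul_pos C0 v0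
      linarith
    · have e1 := Q.Z.ev_le w3 gi (Or.inl gi) le_rfl le_rfl iJ
      rw [G89.ds, sub_self, mul_zero] at e1
      have e2 : uw S Lg (M.s i) ≤ √S.θ := by
        refine le_sqrt_of_sq_le ?_
        have := Q.H.ln.th2 _ w3 w4
        rw [mf, Q.H.lt.F1, div_one] at this
        linarith [h.ms1 (M.s i), le_mul_of_one_le_left (sq_nonneg (uw S Lg (M.s i))) E1]
      have e3 := (h.s_tel iJ.le le_rfl).2
      have e4 : Ug S Lg (M.s i) + G89.evn S M m a Lg i ≤ √S.θ := by linarith [Q.Z.Ug_uw w3]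
      have e5 : 2 * log S.n * (Ug S Lg (M.s i) + G89.evn S M m a Lg i) ≤ 2 * D * √S.θ :=
        (mul_le_mul_of_nonneg_left e4 (by linarith [log_natCast_nonneg S.n])).trans
          (mul_le_mul_of_nonneg_right (by linarith [Q.Z.lg]) (sqrt_nonneg _))
      have e6 : 10000 * S.C ^ 1 * D ≤ E := le_trans (by
        linarith [mul_le_mul_of_nonneg_right (Q.Z.Cp (k := 1) (by norm_num)) D0.le])
        (Q.Z.DpE (i := 2) (by norm_num))
      have e7 := (mul_le_mul_of_nonneg_right e6 (sqrt_nonneg S.θ)).trans Q.H.lt.ℓ1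
      have e8 : 2 * D * √S.θ ≤ ((S.J : ℝ) - i) * S.v := by
        refine le_of_mul_le_mul_left ?_ C0
        have : 0 ≤ S.C * D * √S.θ := by positivity
        linarith
      have e9 : 1 ≤ Lg * cr S (M.s i) := one_le_mul_of_one_le_of_one_le g2 (Ab33.cr_one S _)
      exact e5.trans (e8.trans (le_mul_of_one_le_left (le_trans (by positivity) e8) e9))
  have go := Q.Z.go (by rw [max_eq_left Q.H.lt.l2]; exact w3) gi o
  obtain ⟨G, n1, n2, n3⟩ := Q.Z.no.ng _ _ _ go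
  obtain ⟨y1, y2, y3⟩ := Q.lev w3 w4 w2
  have e0 := Q.Z.eta_pos Q.l1 C1
  have G00 : 0 ≤ G0 := le_trans (mul_nonneg Q.Z.l0p.le (sq_nonneg _)) Q.H.ln.g0a
  refine ⟨i, G, _, a1, a2, ⟨n1, n2⟩, (Q.Z.ee_le w3 w4).trans ?_, ⟨_, by positivity, n3, ?_⟩, ?_⟩
  · linarith [mul_le_mul_of_nonneg_left y1 (pow_pos D0 8).le]
  · have k0 : 0 ≤ Lg * cr S (M.s i) * gg S (M.s i) := by
      have := Ab33.cr_one S (M.s i)
      have := h.ms_pos (h.s_nn i)
      have := h.N0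
      have := h.F1
      unfold gg; positivity
    have s2 := sq_sqrt k0
    generalize √(Lg * cr S (M.s i) * gg S (M.s i)) = s at *
    have x1 : (s + G0) ^ 2 ≤ 2 * D * (η 1 + G0 ^ 2) := by
      nlinarith [sq_nonneg (s - G0), sq_nonneg G0]
    linarith [mul_le_mul_of_nonneg_left x1 (pow_pos D0 6).le]
  · have := (Q.Z.no.nd _ _ _ go).1
    change u4 M m a i ≤ D * Ug S Lg (M.s i) at this
    linarith [mul_le_mul_of_nonneg_left y2 D0.le]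

theorem np0 : 0 ≤ Np M S Xp Vt γ u1 Lp 2 := by
  have G := Md67.lg_of Q.Z.A.cl.leg Q.Z.A.m_pos Q.Z.A.a_pos.le
    (by linarith [Q.Z.A.mem.a2, Q.Z.A.a_pos] : a ≤ 2 * S.amax)
  have := (sum_nonneg fun k _ => mul_nonneg (G.dz_nonneg k) (sq_nonneg _)).trans Q.sz
  exact nonneg_of_mul_nonneg_right this (by linarith [Q.Z.D4])

theorem sub {U : Finset ℕ} (hU : ∀ k ∈ U, S.J ≤ k ∧ k < S.Jp) :
    ∑ k ∈ U, M.dz m a k * u4 M m a k ^ 2 ≤ D * Np M S Xp Vt γ u1 Lp 2 := by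
  have G := Md67.lg_of Q.Z.A.cl.leg Q.Z.A.m_pos Q.Z.A.a_pos.le
    (by linarith [Q.Z.A.mem.a2, Q.Z.A.a_pos] : a ≤ 2 * S.amax)
  exact (sum_le_sum_of_subset_of_nonneg
    (fun k hk => mem_Ico.2 ⟨(hU k hk).1, (hU k hk).2.trans Q.Z.A.cl.i4⟩)
    fun k _ _ => mul_nonneg (G.dz_nonneg k) (sq_nonneg _)).trans Q.sz

/-- the error of a good node of the plateau -/
theorem ep_le {G Gb ev : ℝ} (h1 : ev ≤ D ^ 10 * η 1) (b1 : G ≤ Gb)
    (b2 : Gb ^ 2 ≤ 2 * D ^ 7 * (η 1 + G0 ^ 2)) {k : ℕ} (k1 : S.J ≤ k) (k2 : k < S.Jp) :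
    ep S M m a G ev (D * D ^ 3 * X2) k (D * Lp * sl M S Xp Vt γ k)
        (min (D * (Lp ^ ((2 : ℝ) / 3) * ap M S Xp Vt γ k)) 2) +
      min (D * (Lp ^ ((2 : ℝ) / 3) * ap M S Xp Vt γ k)) 2 ^ 2 * Nd33.gd S M m a (2 * S.C) k ≤
      D ^ 11 * (η 1 + G0 ^ 2 + Np M S Xp Vt γ u1 Lp 2) + D ^ 3 * (Lg ^ 2 * ap M S Xp Vt γ k) ^ 2 := by
  have h := Q.Z.A.cl
  have C1 := h.C1
  have D4 := Q.Z.D4
  have D0 : 0 < D := by linarith
  have E1 := Q.Z.E1
  have g2 := E1.trans Q.Z.EL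
  have γ0 : 0 ≤ γ := (sub_nonneg.2 (h.sm h.i3)).trans Q.H.lp.γ0
  have w0 := (Q.Z.w3p one_pos).le
  obtain ⟨a0, s0, s1⟩ := wr_le h Q.H.lp.u0 Q.H.lp.Xp0.1 Q.H.lp.Vt0 γ0 w0 k1 k2
  have P1 := Q.H.lp.Lp1.1
  have P2 := Q.H.lp.Lp2
  have P3 : Lp ^ ((2 : ℝ) / 3) ≤ Lg ^ 2 := by
    refine (rpow_le_rpow (by linarith) P2 (by norm_num)).trans_eq ?_
    rw [← rpow_natCast, ← rpow_mul (by linarith), ← rpow_natCast]; norm_num
  obtain ⟨e1, e2, -⟩ := Q.Z.eta_b Q.l1 C1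
  have e0 := Q.Z.eta_pos Q.l1 C1
  have e3 : Lp * S.w3 1 ≤ η 1 := by
    refine le_trans ?_ e2
    rw [G89.uw_cube w0]
    exact mul_le_mul_of_nonneg_right (P2.trans (pow_le_pow_left₀ (by linarith)
      ((le_self_pow₀ g2 two_ne_zero).trans
        (le_mul_of_one_le_right (by positivity) (Ab33.cr_one S 1))) 3)) w0
  have e4 : S.w3 1 ≤ η 1 := (le_mul_of_one_le_left w0 P1).trans e3
  have X0 := Q.Z.X20
  have e5 : X2 ^ 2 ≤ η 1 := by
    have x1 : X2 ≤ 1 := by linarith [Q.H.ln.th3, Q.Z.mf_le l, le_mul_of_one_le_left X0 E1]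
    have x2 : X2 ≤ √X2 := le_sqrt_of_sq_le (by nlinarith)
    have x3 := Q.H.ln.ηb 1 Q.l1 C1
    have U0 := Q.Z.uw_nn Q.l1
    have G00 : 0 ≤ G0 := le_trans (mul_nonneg Q.Z.l0p.le (sq_nonneg _)) Q.H.ln.g0a
    have x4 : X2 * X2 ≤ (√(Lg * cr S 1 * gg S 1) + G0 + X2) * (uw S Lg 1 + √X2) :=
      mul_le_mul (by linarith [sqrt_nonneg (Lg * cr S 1 * gg S 1)]) (by linarith) X0 (by positivity)
    have x5 : 0 ≤ uw S Lg 1 ^ 2 * min (S.ms 1 / 1) 1 :=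
      mul_nonneg (sq_nonneg _) (le_min (by have := h.ms_pos zero_le_one; positivity) zero_le_one)
    have x6 : 0 ≤ X3 := le_trans (mul_nonneg Q.Z.l0p.le (by positivity)) Q.H.ln.x3a
    have x7 : 0 ≤ 1 / (S.n : ℝ) := by positivity
    linarith [pow_nonneg U0 3]
  have gd : Nd33.gd S M m a (2 * S.C) k ≤ 4 * (2 * S.C) + 2 := Tq5.abs_Gd Q.Z.A k2.le
  have sm := Q.sub (U := Ico S.J k) fun y hy => ⟨(mem_Ico.1 hy).1, (mem_Ico.1 hy).2.trans k2⟩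
  have n0 := Q.np0
  have u0 : 0 ≤ min (D * (Lp ^ ((2 : ℝ) / 3) * ap M S Xp Vt γ k)) 2 :=
    le_min (by positivity) zero_le_two
  have u1' : min (D * (Lp ^ ((2 : ℝ) / 3) * ap M S Xp Vt γ k)) 2 ≤
      D * (Lg ^ 2 * ap M S Xp Vt γ k) := (min_le_left _ _).trans (by gcongr)
  have u2' := min_le_right (D * (Lp ^ ((2 : ℝ) / 3) * ap M S Xp Vt γ k)) 2
  have s2 : Lp * (S.w3 1 * (sl M S Xp Vt γ k - 1)) ≤ (Lg ^ 2 * ap M S Xp Vt γ k) ^ 2 := by
    rw [mul_pow, ← pow_mul]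
    exact mul_le_mul (P2.trans (pow_le_pow_right₀ g2 (by norm_num))) s1 (by positivity)
      (by positivity)
  unfold ep
  generalize min (D * (Lp ^ ((2 : ℝ) / 3) * ap M S Xp Vt γ k)) 2 = up at *
  generalize Lg ^ 2 * ap M S Xp Vt γ k = A at *
  have q1 : up ^ 2 ≤ D ^ 2 * A ^ 2 := by rw [← mul_pow]; exact pow_le_pow_left₀ u0 u1' 2
  have q2 : up ^ 3 ≤ 2 * up ^ 2 := by linarith [mul_le_mul_of_nonneg_left u2' (sq_nonneg up)]
  have q3 : G * up ≤ (Gb ^ 2 + up ^ 2) / 2 := by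
    linarith [mul_le_mul_of_nonneg_right b1 u0, sq_nonneg (Gb - up)]
  have q4 : D * D ^ 3 * X2 * up ≤ (D ^ 8 * η 1 + up ^ 2) / 2 := by
    linarith [mul_le_mul_of_nonneg_left e5 (pow_pos D0 8).le, sq_nonneg (D * D ^ 3 * X2 - up)]
  have q5 := mul_le_mul_of_nonneg_left gd (sq_nonneg up)
  have q6 : (8 * S.C + 5) * up ^ 2 ≤ D / 2 * (D ^ 2 * A ^ 2) :=
    mul_le_mul (by linarith [Q.Z.Cp (k := 1) (by norm_num)]) q1 (sq_nonneg _) (by linarith)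
  have q7 := mul_le_mul_of_nonneg_left s2 D0.le
  have q8 := mul_le_mul_of_nonneg_left e3 D0.le
  have q9 : D * A ^ 2 ≤ D / 2 * (D ^ 2 * A ^ 2) := by
    have : D ≤ D / 2 * D ^ 2 := by nlinarith
    linarith [mul_le_mul_of_nonneg_right this (sq_nonneg A)]
  have p : ∀ i ≤ 10, ∀ x, 0 ≤ x → 10 * (D ^ i * x) ≤ D ^ 11 * x := fun i hi x x0 => by
    have := mul_le_mul_of_nonneg_right (Q.Z.Dp hi) x0
    have := mul_le_mul_of_nonneg_right D4 (show 0 ≤ D ^ 10 * x by positivity)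
    have : 0 ≤ D ^ 10 * x := by positivity
    linarith
  have p1 := p 10 le_rfl _ e0.le
  have p2 := p 7 (by norm_num) _ e0.le
  have p3 := p 7 (by norm_num) _ (sq_nonneg G0)
  have p4 := p 8 (by norm_num) _ e0.le
  have p5 := p 1 (by norm_num) _ e0.le
  have p6 := p 0 (by norm_num) _ e0.le
  have p7 := p 1 (by norm_num) _ n0
  have z1 : 0 ≤ D ^ 11 * G0 ^ 2 := by positivity
  have z2 : 0 ≤ D ^ 11 * η 1 := by positivity
  have z3 : 0 ≤ D ^ 11 * Np M S Xp Vt γ u1 Lp 2 := by positivity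
  linarith

/-- the sloped nodes between the partner and the corner -/
theorem slp {i : ℕ} (h0 : S.jl < i) (hi : i < S.J) (h1 : M.s S.J - 100 * S.C ^ 3 * ℓ ≤ M.s i) :
    ∑ k ∈ Ioo i S.J, M.dz m a k * u4 M m a k ^ 2 ≤
      2 * D * (ℓ ^ ((1 : ℝ) / 3) * η 1 ^ ((2 : ℝ) / 3)) := by
  have h := Q.Z.A.cl
  have C0 := h.C0
  have C1 := h.C1
  have D0 : 0 < D := by linarith [Q.Z.D4]
  have G := Md67.lg_of h.leg Q.Z.A.m_pos Q.Z.A.a_pos.le
    (by linarith [Q.Z.A.mem.a2, Q.Z.A.a_pos] : a ≤ 2 * S.amax)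
  have l0' := Q.ell.1
  have e0 := Q.Z.eta_pos Q.l1 C1
  obtain ⟨w1, -⟩ := Q.win hi.le h1
  have i1 := h.i1
  have i2 := h.i2
  have i0 := h.i0
  have s3 : ∑ k ∈ Ioo i S.J, M.dz m a k * u4 M m a k ^ 3 ≤ D * η 1 := by
    refine le_trans (sum_le_sum_of_subset_of_nonneg (fun k hk => ?_)
      fun k _ _ => mul_nonneg (G.dz_nonneg k) (pow_nonneg (u4_nn k) 3)) (Q.Z.ni.t3.trans
        (Q.Z.hW.trans (mul_le_mul_of_nonneg_left (Q.H.ln.ηa C1) D0.le)))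
    obtain ⟨a1, a2⟩ := mem_Ioo.1 hk
    exact mem_filter.2 ⟨mem_range.2 (a2.trans h.J_lt), by omega⟩
  have s0 : ∑ k ∈ Ioo i S.J, M.dz m a k ≤ D * ℓ := by
    have e : Ioo i S.J = Ioc i (S.J - 1) := by ext k; simp only [mem_Ioo, mem_Ioc]; omega
    rw [e, sum_congr rfl fun k hk => Md67.dz_up h.leg (by have := (mem_Ioc.1 hk).1; omega),
      At.sum_dz M (by omega)]
    have a1 := (h.z_tel (show S.j0 ≤ i by omega) (show i ≤ S.J - 1 by omega) (by omega)).2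
    have a2 := (h.s_tel (show i ≤ S.J - 1 by omega) (by omega)).1
    have a3 := h.sm (Nat.sub_le S.J 1)
    rw [← mul_div_assoc, div_le_iff₀ C0] at a2
    have a4 : (M.s (S.J - 1) - M.s i) * S.C ≤ 100 * S.C ^ 3 * ℓ * S.C :=
      mul_le_mul_of_nonneg_right (by linarith) C0.le
    have a5 := mul_le_mul_of_nonneg_left (a2.trans a4) C0.le
    have a6 := mul_le_mul_of_nonneg_right (Q.Z.Cp (k := 5) (by norm_num)) l0'.le
    have := mul_pos (pow_pos C0 5) l0'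
    linarith
  have a3 := Nd22.cb3 l0'.le
  have b3 := Nd22.cb3 e0.le
  have a0 : 0 < ℓ ^ ((1 : ℝ) / 3) := rpow_pos_of_pos l0' _
  have b0 : 0 < η 1 ^ ((1 : ℝ) / 3) := rpow_pos_of_pos e0 _
  have b2 : η 1 ^ ((2 : ℝ) / 3) = (η 1 ^ ((1 : ℝ) / 3)) ^ 2 := by
    rw [← rpow_natCast, ← rpow_mul e0.le]; norm_num
  rw [b2]
  generalize ℓ ^ ((1 : ℝ) / 3) = x at *
  generalize η 1 ^ ((1 : ℝ) / 3) = y at *
  have s : 0 < y / x := by positivity
  calc _ ≤ ∑ k ∈ Ioo i S.J, ((y / x) ^ 2 * M.dz m a k + M.dz m a k * u4 M m a k ^ 3 / (y / x)) :=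
        sum_le_sum fun k _ => (mul_le_mul_of_nonneg_left (young54 (u4_nn k) s)
          (G.dz_nonneg k)).trans_eq (by ring)
    _ = (y / x) ^ 2 * ∑ k ∈ Ioo i S.J, M.dz m a k +
        (∑ k ∈ Ioo i S.J, M.dz m a k * u4 M m a k ^ 3) / (y / x) := by
        rw [sum_add_distrib, mul_sum, sum_div]
    _ ≤ (y / x) ^ 2 * (D * ℓ) + D * η 1 / (y / x) := by gcongr
    _ = 2 * D * (x * y ^ 2) := by rw [← a3, ← b3]; field_simp; ring

/-- **the nodes** -/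
theorem pn (hx : ∀ k, S.J ≤ k → k ≤ S.Jp → 3 * u1 ≤ du M k →
    ∃ i, k < i ∧ i + 1 < S.Jp ∧ M.z (i - 1) ≤ M.z (k - 1) + ds M S k / 8 ∧
      M.z i ≤ M.z (k - 1) + ds M S k / 4 ∧ PG S M m a i (D * Lp * sl M S Xp Vt γ i)
        (D * (Lp ^ ((2 : ℝ) / 3) * ap M S Xp Vt γ i))) {W : ℝ} (hW : D ^ 13 ≤ W) :
    ∃ Pn, PN S M m a (2 * S.C) Pn (fun k => W * (Lg ^ 2 * ap M S Xp Vt γ k) ^ 2)
      (W * x0 S M X Xp Vt Lg Lp G0 u1 j γ ℓ η) (W * X2) (8 * u2) (ℓ / (100 * S.C ^ 3)) ℓ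
      (100 * S.C ^ 3) := by
  have h := Q.Z.A.cl
  have C0 := h.C0
  have C1 := h.C1
  have D4 := Q.Z.D4
  have D0 : 0 < D := by linarith
  have W0 : 0 ≤ W := (pow_pos D0 13).le.trans hW
  obtain ⟨l0', l1', l2'⟩ := Q.ell
  obtain ⟨t0, -, -⟩ := Q.th
  have e0 := Q.Z.eta_pos Q.l1 C1
  have n0 := Q.np0
  have X0 := Q.Z.X20
  have R0 : 0 < X ^ ((1 : ℝ) / 3) := rpow_pos_of_pos Q.H.ln.X0 _
  have γ0 : 0 ≤ γ := (sub_nonneg.2 (h.sm h.i3)).trans Q.H.lp.γ0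
  have j0 : 0 ≤ j := le_trans (by positivity) Q.H.ap.j0
  have xb0 : 0 ≤ uw S Lg 1 ^ 2 * (S.θ + j + X ^ ((1 : ℝ) / 3) + ℓ) := by positivity
  have xc0 : 0 ≤ ℓ ^ ((1 : ℝ) / 3) * η 1 ^ ((2 : ℝ) / 3) := by positivity
  have pw : ∀ i ≤ 12, ∀ x, 0 ≤ x → 10 * (D ^ i * x) ≤ W * x := fun i hi x x0 => by
    have := mul_le_mul_of_nonneg_right (Q.Z.Dp hi) x0
    have := mul_le_mul_of_nonneg_right D4 (show 0 ≤ D ^ 12 * x by positivity)
    have := mul_le_mul_of_nonneg_right hW x0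
    have : 0 ≤ D ^ 12 * x := by positivity
    linarith
  have dsb : ∀ i k, i ≤ k → 0 ≤ sb M m a (k + 1) - sb M m a (i + 1) := fun i k hk =>
    sub_nonneg.2 (Q.Z.A.sb_mono (Nat.succ_le_succ hk))
  have c3 : 1 ≤ S.C ^ 3 := one_le_pow₀ C1
  have sJ : 10000 * ℓ ≤ M.s S.J := by
    simpa using (mul_le_mul_of_nonneg_right (Q.cE (k := 0) (by norm_num)) l0'.le).trans Q.H.lt.ℓ2
  obtain ⟨q, q1, q2, q3⟩ := idx54 h (x := M.s S.J - ℓ / 5) (by linarith) (by linarith)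
  obtain ⟨p, p1, p2, p3⟩ := idx54 h (x := M.s S.J - ℓ) (by linarith) (by linarith)
  have sq := (h.ss q q1).2
  have sp := (h.ss p p1).2
  have pq : p ≤ q := by
    by_contra c
    linarith [h.sm (show q + 1 ≤ p by omega)]
  have p4 : M.s S.J - 100 * S.C ^ 3 * ℓ ≤ M.s p := by
    linarith [mul_le_mul_of_nonneg_right c3 l0'.le]
  have j8 := Q.jl8
  have i1 := h.i1
  have i2 := h.i2
  obtain ⟨w1, -⟩ := Q.win p1.le p4
  obtain ⟨v, G, ev, -, v2, sv, ev1, ⟨Gb, -, b1, b2⟩, -⟩ := Q.node pq q1 p4 (by linarith) (by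
    have a1 := (h.z_tel (show S.j0 ≤ p by omega) pq q1).1
    have a2 := (h.s_tel pq q1.le).2
    rw [← mul_div_assoc, div_le_iff₀ C0] at a1
    rw [div_le_iff₀ (by positivity)]
    have a3 := mul_le_mul_of_nonneg_left a1 C0.le
    have a4 : 0 ≤ M.z q - M.z p := sub_nonneg.2 (h.leg.zm pq)
    have a5 : (M.z q - M.z p) * S.C ^ 2 ≤ (M.z q - M.z p) * S.C ^ 3 :=
      mul_le_mul_of_nonneg_left (pow_le_pow_right₀ C1 (by norm_num)) a4
    have : 0 ≤ (M.z q - M.z p) * S.C ^ 3 := by positivity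
    linarith)
  have po := Q.po j8 v G ev _ (by omega) sv Q.Z.no.n2
  have ep1 := fun k => Q.ep_le ev1 b1 b2 (k := k)
  have xa0 : 0 ≤ η 1 + G0 ^ 2 + Np M S Xp Vt γ u1 Lp 2 := by positivity
  have y1 := pw 12 le_rfl _ xa0
  have y2 := pw 2 (by norm_num) _ n0
  have y3 := pw 11 (by norm_num) _ e0.le
  have y4 := pw 8 (by norm_num) _ xb0
  have y5 := pw 2 (by norm_num) _ xc0
  have z1 := mul_nonneg W0 e0.le
  have z2 := mul_nonneg W0 (sq_nonneg G0)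
  have z3 := mul_nonneg W0 n0
  have z4 := mul_nonneg W0 xb0
  have z5 := mul_nonneg W0 xc0
  refine ⟨fun k => PG S M m a k (D * Lp * sl M S Xp Vt γ k)
    (min (D * (Lp ^ ((2 : ℝ) / 3) * ap M S Xp Vt γ k)) 2), by unfold x0; positivity,
    by positivity, fun k => by positivity, fun k g => ⟨g.lo, g.hi⟩, fun k a1 a2 a3 => ?_,
    fun i k gi gk ik => ?_, fun p q _ a2 a3 a4 a5 a6 => ?_⟩
  · have ue : 0 ≤ u1 := le_trans (by linarith [h.last, h.leg.z1 (S.Jp - 1)]) Q.H.lp.u1a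
    obtain ⟨i, b1, -, -, b4, g⟩ := hx k a1 a2 (by linarith [Q.H.lp.u1b.1])
    exact ⟨i, ⟨g.lo, g.hi, g.den, g.cone, le_min g.u ((mj_u4 Q.Z.A.m_pos).u0 i).2⟩, b1.le, b4⟩
  · have d0 := mul_nonneg X0 (dsb i k ik)
    have a1 := pw 4 (by norm_num) _ (sq_nonneg (Lg ^ 2 * ap M S Xp Vt γ i))
    have a2 := pw 4 (by norm_num) _ (sq_nonneg (Lg ^ 2 * ap M S Xp Vt γ k))
    have a3 := pw 5 (by norm_num) _ d0
    have a4 := mul_nonneg W0 (sq_nonneg (Lg ^ 2 * ap M S Xp Vt γ i))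
    have a5 := mul_nonneg W0 (sq_nonneg (Lg ^ 2 * ap M S Xp Vt γ k))
    have a6 := mul_nonneg W0 d0
    unfold x0
    rcases ik.eq_or_lt with e | e
    · subst e
      rw [sub_self, abs_zero]
      linarith
    have b := po.dp _ Q.Z.A i _ _ k _ _ gi gk e
    have c1 := mul_le_mul_of_nonneg_left (ep1 i gi.lo gi.hi) D0.le
    have c2 := mul_le_mul_of_nonneg_left (ep1 k gk.lo gk.hi) D0.le
    have c3 := mul_le_mul_of_nonneg_left (Q.sub (U := Ioo i k) fun y hy =>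
      ⟨gi.lo.trans (mem_Ioo.1 hy).1.le, (mem_Ioo.1 hy).2.trans gk.hi⟩) D0.le
    unfold Nd33.ck at b
    linarith
  · obtain ⟨i, G', ev', b1, b2, sv', e1, -, e2⟩ := Q.node a2 a3 a4 a5 a6
    refine ⟨i, b1, b2, fun k gk => ?_⟩
    have iJ : i < S.J := by omega
    have si := a4.trans (h.sm b1)
    obtain ⟨w2, -⟩ := Q.win iJ.le si
    have ik : i < k := iJ.trans_le gk.lo
    have d0 := mul_nonneg X0 (dsb i k ik.le)
    have a2 := pw 4 (by norm_num) _ (sq_nonneg (Lg ^ 2 * ap M S Xp Vt γ k))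
    have a3 := pw 5 (by norm_num) _ d0
    have a5 := mul_nonneg W0 (sq_nonneg (Lg ^ 2 * ap M S Xp Vt γ k))
    have a6 := mul_nonneg W0 d0
    have b := po.dv _ Q.Z.A i G' ev' k _ _ sv' gk ik
    have c2 := mul_le_mul_of_nonneg_left (ep1 k gk.lo gk.hi) D0.le
    have c3 := mul_le_mul_of_nonneg_left (Q.sub (U := Ico S.J k) fun y hy =>
      ⟨(mem_Ico.1 hy).1, (mem_Ico.1 hy).2.trans gk.hi⟩) D0.le
    have c4 := mul_le_mul_of_nonneg_left (Q.slp (by omega) iJ si) D0.le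
    have c5 := mul_le_mul_of_nonneg_left e1 D0.le
    have c6 : u4 M m a i ^ 2 * Nd33.gd S M m a (2 * S.C) i ≤
        D ^ 7 * (uw S Lg 1 ^ 2 * (S.θ + j + X ^ ((1 : ℝ) / 3) + ℓ)) := by
      have g1 : Nd33.gd S M m a (2 * S.C) i ≤ D * (S.θ + j + γ + X ^ ((1 : ℝ) / 3)) :=
        (Q.out i (by omega) iJ).2.2
      have U0 := Q.Z.Ug_nn Q.l1
      have U1 := Q.Z.Ug_le Q.l1
      have U2 := Q.Z.Ug_uw Q.l1
      have g2 : γ ≤ Lg * ℓ := by
        linarith [Q.H.jg, le_mul_of_one_le_left (add_nonneg j0 γ0) Q.Z.E1]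
      have g3 := pow_le_pow_left₀ U0 U2 2
      have g4 := mul_le_mul U1 U2 U0 (U0.trans U2)
      have g5 : Ug S Lg 1 ^ 2 * (S.θ + j + γ + X ^ ((1 : ℝ) / 3)) ≤
          uw S Lg 1 ^ 2 * (S.θ + j + X ^ ((1 : ℝ) / 3) + ℓ) := by
        linarith [mul_le_mul_of_nonneg_right g3 (show 0 ≤ S.θ + j + X ^ ((1 : ℝ) / 3) by positivity),
          mul_le_mul_of_nonneg_left g2 (sq_nonneg (Ug S Lg 1)), mul_le_mul_of_nonneg_right g4 l0'.le]
      have g6 := mul_le_mul (pow_le_pow_left₀ (u4_nn i) e2 2) g1 (abs_nonneg _) (sq_nonneg _)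
      linarith [mul_le_mul_of_nonneg_left g5 (pow_pos D0 7).le]
    have c7 := mul_le_mul_of_nonneg_left c6 D0.le
    have sp : ∑ y ∈ Ioo i k, M.dz m a y * u4 M m a y ^ 2 =
        ∑ y ∈ Ioo i S.J, M.dz m a y * u4 M m a y ^ 2 +
          ∑ y ∈ Ico S.J k, M.dz m a y * u4 M m a y ^ 2 := by
      have := gk.lo
      rw [← sum_union (disjoint_left.2 fun y h1 h2 => by
        have := (mem_Ioo.1 h1).2; have := (mem_Ico.1 h2).1; omega)]
      congr 1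
      ext y
      simp only [mem_union, mem_Ioo, mem_Ico]
      omega
    unfold Nd33.ck at b
    rw [sp] at b
    unfold x0
    linarith

end C54

/-- `Far` from the numbers of the bulk and of the plateau -/
theorem far54 {E : ℝ} {S : Sc} {M : Md} {l0 l V X Lg X2 X3 G0 Xp Vt Lp G1 u1 u2 j γ Lc ηc τ N : ℝ}
    {η : ℝ → ℝ} (h : Cl S M) (E1 : 1 ≤ E) (n : LN E S M l0 l V X Lg X2 X3 G0 η)
    (p : LP E S M Xp Vt Lg Lp X2 X3 G0 G1 u1 u2 j γ Lc ηc τ η N) :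
    SzT98.Far E S M Xp Vt γ u1 Lp := by
  have a : 0 ≤ l := (mul_nonneg (by linarith) (h.s_nn _)).trans (n.l0s.trans n.l0l)
  exact ⟨p.u0, n.l0s.trans (n.l0l.trans ((le_mul_of_one_le_left a E1).trans n.l1)), p.rev, p.Xp0,
    p.Vt0, p.u1a, (mul_le_mul_of_nonneg_left p.u1b.1 (by linarith)).trans p.u1b.2, p.γ0, p.γ1,
    p.Lp1, p.far⟩

open Pre29 in
/-- **(PNS)** -/
theorem pnS_of (hN : NiS54) (hP : PgS) (hS : SzT98.SzS) : PNS := by
  unfold PNS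
  refine CL.glue (((((CL.and hN hP).and hS).and Nd22.nodeS).and Nd33.ndP).and Gd65.gdT)
    fun C => ⟨3, fun A hA ε η' hε hη => ?_⟩
  refine ⟨ε, min (η' / 13) (ε / 40), 10000 * C ^ 10, hε, by positivity,
    fun S M m a R c I ⟨⟨⟨⟨⟨h1, h2⟩, h3⟩, h4⟩, h5⟩, h6⟩
      G1 u1 u2 j γ Lc ηc τ l0 l X Xp Vt Lg Lp X2 X3 X4 G0 η N g t1 ℓ En p0 H => ?_⟩
  have n1 : 1 ≤ S.n := c.n1
  have e1 : ((S.n : ℝ) ^ min (η' / 13) (ε / 40)) ^ 40 ≤ (S.n : ℝ) ^ ε := by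
    rw [rp_pow]; exact rp_le n1 (by push_cast; linarith [min_le_right (η' / 13) (ε / 40)])
  have e2 : ((S.n : ℝ) ^ min (η' / 13) (ε / 40)) ^ 13 ≤ (S.n : ℝ) ^ η' := by
    rw [rp_pow]; exact rp_le n1 (by push_cast; linarith [min_le_left (η' / 13) (ε / 40)])
  have k1 := R.K_le
  have k2 := R.log_le
  have k3 := R.num_le
  have k4 := R.C_log
  have hC := R.hC
  have hA' : 3 ≤ S.A := R.hA ▸ hA
  subst hC
  generalize (S.n : ℝ) ^ min (η' / 13) (ε / 40) = D at *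
  generalize (S.n : ℝ) ^ ε = E at *
  have C1 := c.C1
  have l1 : 1 ≤ D := by linarith
  have DE : D ≤ E := (le_self_pow₀ l1 (by norm_num)).trans e1
  have E1 : 1 ≤ E := l1.trans DE
  have N0 := c.N0
  have A' : At S M m a (2 * S.C) := ⟨c, I, by linarith [c.b1, H.ln.HJ], by linarith [c.sT]⟩
  obtain ⟨W3, ni, hW⟩ := h1 _ _ _ _ _ _ _ _ _ _ _ _ _ _ _ _ _ _ _ _ _ _ _ _ _ _ _ H
  have F := far54 c E1 H.ln H.lp
  have R0 : 0 < X ^ ((1 : ℝ) / 3) := rpow_pos_of_pos H.ln.X0 _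
  have Rl : X ^ ((1 : ℝ) / 3) ≤ l := (le_mul_of_one_le_left R0.le E1).trans H.lt.lX
  have lp := R0.trans_le Rl
  have Z : Cz D E D D S M m a (2 * S.C) G1 l0 l (X ^ ((1 : ℝ) / 3)) X Lg X2 X3 G0 W3 η := by
    refine ⟨A', H.ce, H.ln, ni, h4 G1 l0 l _ X Lg X2 X3 G0 η D W3 H.ce H.ln H.lp.rev H.ap.all
      ((pow_le_pow_right₀ l1 (by norm_num)).trans e1) ni,
      Rl.trans (le_mul_of_one_le_left lp.le (Ab33.cr_one S l)), hW, k1, l1, le_rfl, le_rfl, k2, e1,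
      ?_, I.m1, ?_⟩
    · have a1 : S.v * (S.n : ℝ) ^ 3 ≤ S.C := (mul_le_mul_of_nonneg_left
        (pow_le_pow_right₀ (by exact_mod_cast n1) hA') c.v0.le).trans c.v2
      have a2 : S.C ^ 2 ≤ S.n := by
        have b1 := (le_mul_of_one_le_right (by linarith) (one_le_pow₀ c.F1)).trans
          (H.ln.Lg0.trans H.ln.Lg1)
        linarith [pow_le_pow_right₀ C1 (by norm_num : 2 ≤ 10), sq_nonneg S.C]
      refine le_of_mul_le_mul_right ?_ N0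
      linarith [mul_le_mul_of_nonneg_left a1 c.C0.le]
    · have t0 : 0 ≤ S.θ := (c.ms_pos zero_le_one).le
      linarith [mul_le_mul_of_nonneg_left k4 t0, c.msθ]
  have l01 : l0 ≤ 1 := H.ln.l0l.trans ((le_mul_of_one_le_left lp.le E1).trans H.ln.l1)
  have Q : C54 D E S M m a G1 u1 u2 j γ Lc ηc τ l0 l X Xp Vt Lg Lp X2 X3 X4 G0 η N g t1 ℓ En p0
      W3 := ⟨Z, H, h5 H.ln.HJ (by rw [H.lt.F1]; exact_mod_cast n1),
    h3 _ _ _ _ _ _ _ _ F H.ap 2 le_rfl (by norm_num),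
    (h6 _ _ _ _ _ _ _ _ A' le_rfl H.ln.l0s l01 H.ln.X0 H.ln.X1 H.lp.γ0 H.lp.γ1 H.ap).1⟩
  exact Q.pn (h2 _ _ _ _ _ _ _ _ F H.ap).2 e2

end Crest.Agent.T156.Alt.L62

end
end

-- ▼ part T156/TLpE_62
section

/-!
Row 156, block (L) (helper62): the labels just below the corner are not early.
-/

set_option autoImplicit false

noncomputable section

namespace Crest.Agent.T156.Pr.Cv25

open MeasureTheory Set
open Crest.Agent.R164.GC Crest.Agent.R339.B Crest.Agent.R339.Var Crest.Agent.T157.Pf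
open Crest.Agent.T156.Pr.Reg48

/-- rise of `M` across a concave stretch `[y, y + d)` -/
theorem rise62 {l : List (ℝ × ℝ)} {b f p y d q g A c L : ℝ} (h : Ok l) (hb : 0 < b) (f0 : 0 ≤ f)
    (fp : f ≤ p) (py : p ≤ y) (d0 : 0 ≤ d) (hq : y + d ≤ q) (qT : q ≤ TT l) (g0 : 0 ≤ g)
    (A0 : 0 ≤ A) (hL : q - f ≤ L) (hg : b * GG l f ≤ 1 + g) (h1 : ∀ s ∈ Ico f q, Gd l s ≤ A)
    (h2 : ∀ s ∈ Ico y (y + d), Gd l s ≤ -c) :
    b * (c * d * (q - (y + d))) - (g + b * A * L) * L ≤ Rig.Mf b l q - Rig.Mf b l p := by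
  have bA : 0 ≤ b * A := by positivity
  have k1 : ∀ r, f ≤ r → r ≤ q → b * GG l r ≤ 1 + g + b * A * (r - f) := fun r a1 a2 => by
    have := mul_le_mul_of_nonneg_left
      (GG_up h f0 a1 (a2.trans qT) fun s hs => h1 s ⟨hs.1, hs.2.trans_le a2⟩) hb.le
    linarith
  have k2 := mul_le_mul_of_nonneg_left
    (GG_up h (by linarith) (by linarith : y ≤ y + d) (hq.trans qT) h2) hb.le
  have k3 : ∀ r, y + d ≤ r → r ≤ q → b * GG l r ≤ 1 + g + b * A * L - b * (c * d) :=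
    fun r a1 a2 => by
      have a3 := mul_le_mul_of_nonneg_left (GG_up h (by linarith) a1 (a2.trans qT)
        fun s hs => h1 s ⟨by linarith [hs.1], hs.2.trans_le a2⟩) hb.le
      have a4 := k1 y (by linarith) (by linarith)
      have a5 : b * A * (r - (y + d) + (y - f)) ≤ b * A * L :=
        mul_le_mul_of_nonneg_left (by linarith) bA
      linarith
  have m1 := Mh_ge h hb (f0.trans fp) (by linarith : p ≤ y + d) (hq.trans qT)
    (e := -(g + b * A * L)) fun r hr => by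
      have a1 := k1 r (fp.trans hr.1) (hr.2.le.trans hq)
      have a5 : b * A * (r - f) ≤ b * A * L :=
        mul_le_mul_of_nonneg_left (by linarith [hr.2]) bA
      linarith
  have m2 := Mh_ge h hb (by linarith) hq qT (e := -(g + b * A * L) + b * (c * d)) fun r hr => by
    linarith [k3 r hr.1 hr.2.le]
  have L0 : 0 ≤ L := by linarith
  have m3 : (g + b * A * L) * (q - p) ≤ (g + b * A * L) * L :=
    mul_le_mul_of_nonneg_left (by linarith) (by positivity)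
  change _ ≤ q - b * Gam l q - (p - b * Gam l p)
  linarith

theorem num62 {P α δ b : ℝ} (P1 : 1 ≤ P) (α0 : 0 ≤ α) (hδ : 10 ^ 4 * P ^ 5 * α < δ) (b1 : 1 ≤ b)
    (bP : b ≤ P) {x : ℝ} (hx : δ / 4 ≤ x)
    (h : b * (δ / (4 * P ^ 2) * (δ / 2) * x) - (α ^ 2 + b * (10 * P ^ 2 * α) * (4 * δ)) * (4 * δ) ≤
      (P + 2) * α ^ 3 + b * (α ^ 3 + α ^ 2 * (4 * δ))) : False := by
  have P0 : 0 < P := by linarith
  have p5 : 1 ≤ P ^ 5 := one_le_pow₀ P1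
  have p3 : P ≤ P ^ 3 := le_self_pow₀ P1 (by norm_num)
  have αδ : α ≤ δ := by nlinarith
  have δ0 : 0 < δ := lt_of_le_of_lt (by positivity) hδ
  have a1 : δ ^ 3 / (32 * P ^ 2) ≤ b * (δ / (4 * P ^ 2) * (δ / 2) * x) := by
    have e : δ ^ 3 / (32 * P ^ 2) = δ / (4 * P ^ 2) * (δ / 2) * (δ / 4) := by field_simp; ring
    rw [e]
    exact (mul_le_mul_of_nonneg_left hx (by positivity)).trans
      (le_mul_of_one_le_left (mul_nonneg (by positivity) (by linarith)) b1)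
  have w0 : 0 ≤ α * δ ^ 2 := by positivity
  have a2 : α ^ 2 * δ ≤ α * δ ^ 2 := by nlinarith [mul_nonneg (mul_nonneg α0 δ0.le) (sub_nonneg.2 αδ)]
  have a3 : α ^ 3 ≤ α ^ 2 * δ := by nlinarith [mul_nonneg (sq_nonneg α) (sub_nonneg.2 αδ)]
  have a4 : b * (P ^ 2 * (α * δ ^ 2)) ≤ P * (P ^ 2 * (α * δ ^ 2)) :=
    mul_le_mul_of_nonneg_right bP (by positivity)
  have a5 : b * (α ^ 3 + α ^ 2 * (4 * δ)) ≤ P ^ 3 * (5 * (α * δ ^ 2)) :=
    mul_le_mul (bP.trans p3) (by linarith) (by positivity) (by positivity)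
  have a6 : (P + 2) * α ^ 3 ≤ 3 * P ^ 3 * (α * δ ^ 2) :=
    mul_le_mul (by linarith) (a3.trans a2) (by positivity) (by positivity)
  have a7 : α * δ ^ 2 ≤ P ^ 3 * (α * δ ^ 2) := le_mul_of_one_le_left w0 (P1.trans p3)
  have a8 : δ ^ 3 / (32 * P ^ 2) ≤ 172 * (P ^ 3 * (α * δ ^ 2)) := by linarith
  rw [div_le_iff₀ (by positivity)] at a8
  have a9 := mul_lt_mul_of_pos_right hδ (pow_pos δ0 2)
  have a10 : 0 ≤ P ^ 5 * (α * δ ^ 2) := by positivity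
  linarith

end Crest.Agent.T156.Pr.Cv25

namespace Crest.Agent.T156.Alt.Mp9.At

open Set
open Crest.Agent.R164.GC Crest.Agent.R339.B Crest.Agent.R339.Var Crest.Agent.T157.Pf
open Crest.Agent.T156.Pr.Cv25 Crest.Agent.T156.Pr.Reg48

/-- data of the early case: `f` the floor point, `V` the last located node, `i` a sloped partner of
the good node `w` of the plateau; every error is of size `α`, `α ^ 2` or `α ^ 3` -/
structure Ea (S : Sc) (M : Md) (m : ℕ) (a T f tl α : ℝ) (V i w : ℕ) : Prop where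
  tl0 : 0 < tl ∧ tl ≤ f ∧ tl ≤ M.s (S.J - 1)
  th : S.C * S.θ / tl ≤ α
  v : S.v ≤ α
  hj : ∀ t ∈ Icc 0 T, Rig.Hp (lh M T) (lb M S m a T) t ≤ α
  fl : M.b * Pr.GG (lb M S m a T) f ≤ 1 + α ^ 2
  uf : -α ≤ uu M S m a T f
  V1 : S.jl ≤ V ∧ V < S.J
  fy : sb M m a (V + 1) - 2 * α ≤ f
  zV : M.z (S.J - 1) - M.z V ≤ S.C * α
  i1 : S.jl < i ∧ i ≤ V ∧ f ≤ sb M m a (i + 1)
  i2 : S.θ * (M.s w - M.s i) ≤ α ^ 3
  Gi : -M.G i ≤ α ^ 3
  w1 : S.J ≤ w ∧ w ≤ S.Jp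
  Gw : M.G w ≤ α ^ 3
  w2 : |sb M m a (w + 1) - M.s S.J| ≤ α
  er : res M S m a T i - res M S m a T w ≤ α ^ 3 + α ^ 2 * (sb M m a (w + 1) - sb M m a (i + 1))

set_option maxHeartbeats 1600000 in
/-- **the early case** -/
theorem early62 (T0 : ℝ) : ∃ K : ℝ, 1 ≤ K ∧ ∀ {S : Sc} {M : Md} {m : ℕ} {a T f tl α : ℝ}
    {V i w : ℕ}, At S M m a T → T ≤ T0 → S.C ≤ T0 → Ea S M m a T f tl α V i w →
    M.s S.J - sb M m a (V + 1) ≤ K * α := by
  obtain ⟨K, K1, hK⟩ := Gd_two T0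
  have e0 := Real.exp_pos (4 * T0)
  obtain ⟨P, TP, KP, eP⟩ : ∃ P, T0 ≤ P ∧ K ≤ P ∧ Real.exp (4 * T0) ≤ P :=
    ⟨|T0| + K + Real.exp (4 * T0), by linarith [le_abs_self T0], by linarith [abs_nonneg T0],
      by linarith [abs_nonneg T0]⟩
  have P1 : 1 ≤ P := K1.trans KP
  refine ⟨10 ^ 4 * P ^ 5, by nlinarith [one_le_pow₀ (n := 5) P1], ?_⟩
  intro S M m a T f tl α V i w A hT hC h
  by_contra hn
  have hδ := not_le.1 hn
  obtain ⟨⟨l0, l1, l2⟩, th, hv, hj, fl, uf, ⟨V1, V2⟩, fy, zV, ⟨i1, i2, i3⟩, i4, Gi, ⟨w1, w2⟩, Gw,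
    w3, er⟩ := h
  set σ := M.s S.J with hσ
  set y := sb M m a (V + 1) with hy
  set q := sb M m a (w + 1) with hq
  set δ := σ - y with hd
  have C1 := A.cl.C1
  have c0 := A.c_pos
  have v0 := v_pos A.cl
  have CP : S.C ≤ P := hC.trans TP
  have P0 : 0 < P := by linarith
  have α0 : 0 ≤ α := by linarith
  have θ0 : 0 ≤ S.θ := (A.ms_pos le_rfl).le.trans (A.cl.ms1 0)
  have Pα : α ≤ P * α := le_mul_of_one_le_left α0 P1
  have P2 : P * α ≤ P ^ 2 * α := mul_le_mul_of_nonneg_right (le_self_pow₀ P1 two_ne_zero) α0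
  have P3 : P ^ 2 * α ≤ P ^ 3 * α :=
    mul_le_mul_of_nonneg_right (pow_le_pow_right₀ P1 (by norm_num)) α0
  have P5 : P ^ 3 * α ≤ P ^ 5 * α :=
    mul_le_mul_of_nonneg_right (pow_le_pow_right₀ P1 (by norm_num)) α0
  have Cα : S.C * α ≤ P * α := mul_le_mul_of_nonneg_right CP α0
  have Cv : S.C * S.v ≤ P * α := mul_le_mul CP hv v0.le P0.le
  have Kα : K * α ≤ P * α := mul_le_mul_of_nonneg_right KP α0
  obtain ⟨q1, q2⟩ := abs_le.1 w3
  have i3' := A.cl.i3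
  have py : sb M m a (i + 1) ≤ y := A.sb_mono (Nat.succ_le_succ i2)
  have f0 : 0 ≤ f := by linarith
  have qT : q ≤ T := (A.sb_mem w2).2
  have σT : σ ≤ T := (A.cl.sm i3').trans A.t2
  have eT : TT (lb M S m a T) = TT (lh M T) := A.okb.2.trans A.okh.2.symm
  have hT' : TT (lh M T) ≤ T0 := A.okh.2.trans_le hT
  have mem : ∀ t, 0 ≤ t → t ≤ T → t ∈ Icc 0 (TT (lh M T)) := fun t a1 a2 =>
    ⟨a1, a2.trans_eq A.okh.2.symm⟩
  have mb := Sc48.lvr_mono A.okb.1.1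
  have zy : lvr 1 (lb M S m a T) y = M.z V := A.lvb_node V1 (V2.le.trans i3')
  obtain ⟨p1, p2⟩ := A.s_pred
  have gh : ∀ r, tl ≤ r → r < σ → Pr.Reg48.Gd (lh M T) r ≤ α := fun r a1 a2 => by
    have := (le_abs_self _).trans (A.gd_h (l0.le.trans a1) a2)
    refine le_trans this (le_trans ?_ th)
    rw [mul_div_assoc]
    exact mul_le_mul_of_nonneg_left (div_le_div₀ θ0 (A.cl.ms1 r) l0 (a1.trans (le_max_left _ _)))
      c0.le
  -- upper bound from a lower bound of the labels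
  have up : ∀ t r d, 0 ≤ t → t ≤ T → tl ≤ r → r < σ → 0 ≤ d →
      -d ≤ lvr 1 (lb M S m a T) t - lvr 1 (lh M T) r →
      Pr.Reg48.Gd (lb M S m a T) t ≤ α + 2 * d + K * (α + |t - r|) := fun t r d a1 a2 a3 a4 a5 a6 => by
    have r0 := l0.le.trans a3
    have rT := mem r r0 (a4.le.trans σT)
    have k := (abs_le.1 (hK _ _ A.okb.1 A.okh.1 eT hT' t (mem t a1 a2) r rT α (hj t ⟨a1, a2⟩)).1).2
    obtain ⟨x0, x1⟩ := (ode A.okh.1).2.2.2 r rT
    have x2 := mul_le_mul_of_nonneg_left a6 x0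
    have x3 := mul_le_of_le_one_left a5 x1
    linarith [gh r a3 a4]
  have h1 : ∀ s ∈ Ico f q, Pr.Reg48.Gd (lb M S m a T) s ≤ 10 * P ^ 2 * α := fun s hs => by
    have s0 := f0.trans hs.1
    have sT := hs.2.le.trans qT
    rcases lt_or_ge s y with c | c
    · have k := ((A.sl (show s < σ by linarith)) f s f0 hs.1 le_rfl).2
      have k2 : S.C * (s - f) ≤ S.C * (2 * α) := mul_le_mul_of_nonneg_left (by linarith) c0.le
      have := up s s (4 * (P * α)) s0 sT (l1.trans hs.1) (by linarith) (by positivity) (by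
        have := mb hs.1
        unfold uu at uf
        linarith)
      rw [sub_self, abs_zero, add_zero] at this
      linarith
    · have zs := mb c
      rw [zy] at zs
      rcases lt_or_ge s σ with c' | c'
      · have := up s s (P * α) s0 sT (l1.trans hs.1) c' (by positivity) (by
          linarith [A.zh_le_8 c'])
        rw [sub_self, abs_zero, add_zero] at this
        linarith
      · have := up s (M.s (S.J - 1)) (P * α) s0 sT l2 p1 (by positivity) (by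
          rw [A.zh_pred]; linarith)
        rw [abs_of_nonneg (by linarith)] at this
        have k : K * (α + (s - M.s (S.J - 1))) ≤ P * (3 * (P * α)) :=
          mul_le_mul KP (by linarith [hs.2]) (by linarith) P0.le
        linarith only [this, k, Pα, P2, α0]
  have h2 : ∀ s ∈ Ico y (y + δ / 2), Pr.Reg48.Gd (lb M S m a T) s ≤ -(δ / (4 * P ^ 2)) := fun s hs => by
    have s0 : 0 ≤ s := by linarith [hs.1]
    have s1 : s ≤ M.s (S.J - 1) := by linarith [hs.2]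
    have sT : s ≤ T := by linarith
    have zs := mb hs.1
    rw [zy] at zs
    have k := ((A.sl p1) s _ s0 s1 le_rfl).1
    rw [A.zh_pred] at k
    have k1 : 1 / P * (δ / 2 - P * α) ≤ 1 / S.C * (M.s (S.J - 1) - s) :=
      mul_le_mul (one_div_le_one_div_of_le c0 CP) (by linarith [hs.2]) (by linarith) (by positivity)
    have k2 : 1 / P * (δ / 2 - P * α) = δ / P / 2 - α := by field_simp
    have k3 : 10 ^ 4 * (P ^ 2 * α) ≤ δ / P := by
      rw [le_div_iff₀ P0]; linarith only [hδ, P5, α0, Pα, P2, P3]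
    have k4 : δ / P / 4 ≤ lvr 1 (lb M S m a T) s - lvr 1 (lh M T) s := by linarith
    have k5 := (hK _ _ A.okb.1 A.okh.1 eT hT' s (mem s s0 sT) s (mem s s0 sT) α
      (hj s ⟨s0, sT⟩)).2 (by linarith [mul_nonneg (sq_nonneg P) α0])
    rw [sub_self, abs_zero, add_zero] at k5
    have k6 : 1 / P ≤ Real.exp (-(4 * T0)) := by
      rw [Real.exp_neg, ← one_div]
      exact one_div_le_one_div_of_le e0 eP
    have k7 : 1 / P * (δ / P / 4) ≤
        Real.exp (-(4 * T0)) * (lvr 1 (lb M S m a T) s - lvr 1 (lh M T) s) :=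
      mul_le_mul k6 k4 (by linarith [mul_nonneg (sq_nonneg P) α0]) (Real.exp_pos _).le
    have k8 : 1 / P * (δ / P / 4) = δ / (4 * P ^ 2) := by field_simp
    have k9 : 2 * (P * α) ≤ δ / (4 * P ^ 2) := by
      rw [le_div_iff₀ (by positivity)]; linarith only [hδ, P5, α0, Pα, P2, P3]
    linarith [gh s (by linarith [hs.1]) (by linarith)]
  have r := rise62 (L := 4 * δ) A.okb.1 A.b_pos f0 i3 py (by linarith : 0 ≤ δ / 2)
    (by linarith : y + δ / 2 ≤ q) (qT.trans_eq A.okb.2.symm) (sq_nonneg α) (by positivity)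
    (by linarith) fl h1 h2
  have iw : i ≤ w := by omega
  rw [hq, A.Mf_b (i1.trans_le iw) w2, A.Mf_b i1 (iw.trans w2), ← hq] at r
  have b0 := A.b_pos
  have b1 : 1 ≤ M.b := (d_mem A.cl (le_refl M.N)).1
  have rm := rb_mono (M := M) (a := a) A.m_pos iw
  have t1 : M.b * M.rb m a i / (m + 1) ≤ M.b * M.rb m a w / (m + 1) :=
    div_le_div_of_nonneg_right (mul_le_mul_of_nonneg_left rm b0.le) (by positivity)
  have t2 : res M S m a T i - res M S m a T w ≤ α ^ 3 + α ^ 2 * (4 * δ) :=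
    er.trans (add_le_add le_rfl (mul_le_mul_of_nonneg_left (by linarith) (sq_nonneg α)))
  have t3 := mul_le_mul_of_nonneg_left t2 b0.le
  have n1 := A.Mf_node i1 (iw.trans w2)
  have n2 := A.Mf_node (i1.trans_le iw) w2
  have n3 := (A.Mf_sl (s_nn A.cl i) le_rfl _ _ le_rfl (A.cl.sm iw) (A.cl.sm w2)).2
  have n4 : S.C * S.ms (M.s S.Jp) * (M.s w - M.s i) ≤ P * α ^ 3 := by
    rw [mul_assoc]
    exact mul_le_mul CP ((mul_le_mul_of_nonneg_right (A.cl.ms1 _)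
      (sub_nonneg.2 (A.cl.sm iw))).trans i4)
      (mul_nonneg (A.ms_pos (s_nn A.cl _)).le (sub_nonneg.2 (A.cl.sm iw))) P0.le
  exact num62 P1 α0 hδ b1 (A.cl.b1.trans CP) (x := q - (y + δ / 2)) (by linarith) (by linarith)

end Crest.Agent.T156.Alt.Mp9.At

end
end

-- ▼ part T156/TLpC_73

/-!
Row 156, block (L) (helper73): the core of (TLp) at the level of one member.
-/

set_option autoImplicit false

noncomputable section

namespace Crest.Agent.T156.Alt.L62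

open MeasureTheory Set Real
open Crest.Agent.R164.GC Crest.Agent.R339.B Crest.Agent.R339.Var Crest.Agent.T157.Pf
open Crest.Agent.T156.Alt.L69 (dx du)
open Crest.Agent.T156.Alt.Mp9 Crest.Agent.T156.Alt.Mp9.At

/-- the last located node `V`, the anchor time `t0` with its node `k0`, the floor point `f` -/
structure W1 (S : Sc) (M : Md) (m : ℕ) (a T ℓ D p g0 : ℝ) (V k0 : ℕ) (t0 f : ℝ) : Prop where
  V1 : S.jl < V ∧ V < S.J
  V2 : M.s V + ℓ / 4 ≤ M.s S.J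
  V3 : sb M m a (V + 1) + ℓ / 4 ≤ M.s S.J
  dich : M.s S.J - ℓ / 2 ≤ sb M m a (V + 1) ∨ M.z (S.J - 1) - M.z V ≤ S.C * ℓ
  t1 : sb M m a (V + 1) - ℓ / 8 ≤ t0 ∧ t0 ≤ sb M m a (V + 1)
  low : 3 / 4 * M.s S.J ≤ t0 - ℓ
  hu : ∀ t, M.s S.J / 2 ≤ t → t ≤ t0 → |uu M S m a T t| ≤ D
  hJ : |Sc48.Jf (lh M T) (lb M S m a T) T t0| ≤ p
  k1 : S.j0 ≤ k0 ∧ k0 < S.J
  k2 : t0 - D ≤ M.s k0 ∧ M.s k0 ≤ t0
  k3 : |sb M m a (k0 + 1) - t0| ≤ D
  f1 : t0 - ℓ ≤ f ∧ f ≤ t0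
  g0 : 0 ≤ g0 ∧ M.b * Pr.GG (lb M S m a T) f ≤ 1 + g0

/-- the cut node `w` and the good nodes that serve the nodes above `kA` -/
structure Np73 (S : Sc) (M : Md) (m : ℕ) (a T u0 κ aa u la Y : ℝ) (Pn : ℕ → Prop) (er : ℕ → ℝ)
    (w kA : ℕ) : Prop where
  pw : Pn w
  k1 : S.J ≤ kA ∧ kA ≤ w
  w1 : 1 - u0 ≤ M.z w
  κ1 : 0 < κ ∧ κ ≤ du M w ∧ κ ≤ M.z w - M.z (S.J - 1)
  a1 : aa ≤ M.z (kA - 1) - M.z (S.J - 1) ∧ M.z (kA - 1) - M.z (S.J - 1) ≤ 8 * aa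
  u0 : 0 ≤ u
  er0 : ∀ k, 0 ≤ er k
  lo : ∀ k, kA ≤ k → k ≤ w → ∃ i, S.J ≤ i ∧ i ≤ k ∧ aa ≤ M.z i - M.z (S.J - 1) ∧
    M.z k - M.z (S.J - 1) ≤ 4 * (M.z i - M.z (S.J - 1)) ∧
    res M S m a T i - res M S m a T w ≤ er k + la * (sb M m a (w + 1) - sb M m a (i + 1))
  hi : ∀ k, w < k → k ≤ S.Jp → u < du M k → ∃ j, k ≤ j ∧ j ≤ S.Jp ∧ du M k ≤ 4 * du M j ∧
    res M S m a T w - res M S m a T j ≤ er k + la * (sb M m a (j + 1) - sb M m a (w + 1))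
  sum : ∑ k ∈ Finset.Icc kA S.Jp, dx M k * (er k / (M.z k - M.z (S.J - 1))) ≤ Y

/-- the numbers at the scale `α` -/
structure Nu73 (S : Sc) (M : Md) (m : ℕ) (a T ℓ D g0 x la α : ℝ) (ez : ℕ → ℝ) (w : ℕ) : Prop where
  flat : M.s S.Jp = M.s S.J
  jl : M.s S.jl < M.s S.J / 2
  l1 : ℓ ≤ α
  D1 : D ≤ α
  th : 100 * S.C ^ 3 * S.θ ≤ α ^ 2
  v : 4 * S.C ^ 2 * S.v ≤ ℓ
  hp : ∀ t ∈ Icc 0 T, Rig.Hp (lh M T) (lb M S m a T) t ≤ α
  g1 : g0 ≤ α ^ 2
  la : la ≤ α ^ 2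
  er : x + ez w ≤ α ^ 3
  Gw : M.G w ≤ α ^ 3
  Gs : ∀ k, k < S.J → M.s S.J / 2 ≤ M.s k → M.s k + ℓ / 8 ≤ M.s S.J → |M.G k| ≤ α ^ 3
  Mt : |sb M m a (w + 1) - M.s S.J| ≤ α

variable {S : Sc} {M : Md} {m : ℕ} {a T ℓ D p g0 t0 f x la α u' : ℝ} {V k0 w : ℕ} {ez : ℕ → ℝ}
  {Pn : ℕ → Prop}

theorem z_sl73 (A : At S M m a T) {i k : ℕ} (h0 : S.j0 ≤ i) (h : i ≤ k) (h1 : k < S.J) :
    (M.s k - M.s i) / S.C - S.C * S.v ≤ M.z k - M.z i ∧
      M.z k - M.z i ≤ S.C * (M.s k - M.s i + S.v) := by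
  have := A.cl.lip _ _ (s_nn A.cl i) (A.cl.sm h) ((s_lt A.cl h1).trans_le (A.cl.sm h1))
  rwa [A.cl.lv i h0 _ le_rfl (s_lt A.cl (h.trans_lt h1)),
    A.cl.lv k (h0.trans h) _ le_rfl (s_lt A.cl h1)] at this

theorem Nu73.fa (n : Nu73 S M m a T ℓ D g0 x la α ez w) (A : At S M m a T)
    (h1 : 12 * S.C ^ 4 * α ≤ 1) : 0 < ℓ ∧ S.v ≤ α ∧ S.C * S.v ≤ ℓ / 4 ∧ S.C ^ 2 * S.v ≤ ℓ / 4 ∧
      6 * S.C ^ 2 * ℓ ≤ M.s S.J ∧ S.C * S.θ / (M.s S.J / 2) ≤ α ∧ M.s S.J / 2 ≤ M.s (S.J - 1) ∧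
      0 < M.s S.J / 2 ∧ α ≤ 1 := by
  have C1 := A.cl.C1
  have v0 := v_pos A.cl
  have θ0 : 0 ≤ S.θ := (A.ms_pos le_rfl).le.trans (A.cl.ms1 0)
  have c2 : S.C ≤ S.C ^ 2 := by nlinarith
  have c4 : 1 ≤ S.C ^ 4 := one_le_pow₀ C1
  have v1 : S.v ≤ S.C * S.v := le_mul_of_one_le_left v0.le C1
  have v2 : S.C * S.v ≤ S.C ^ 2 * S.v := by gcongr
  have hv := n.v
  have l1 := n.l1
  have l0 : 0 < ℓ := by linarith
  have α0 : 0 < α := by linarith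
  have α1 : 12 * α ≤ 1 := by nlinarith
  obtain ⟨j1, j2, -⟩ := A.J_pred
  obtain ⟨p1, p2⟩ := A.s_pred
  have z1 := A.z_le_s36 j1 j2
  have z2 := A.cl.atom.1
  rw [div_le_iff₀ (by linarith)] at z2
  have z3 : 1 ≤ S.C ^ 2 * M.s S.J + 2 * (S.C ^ 2 * S.v) := by
    have := mul_le_mul_of_nonneg_right (z1.trans (mul_le_mul_of_nonneg_left
      (show M.s (S.J - 1) + 2 * S.v ≤ M.s S.J + 2 * S.v by linarith) (by linarith))) A.c_pos.le
    linarith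
  have z4 : 1 ≤ 2 * (S.C ^ 2 * M.s S.J) := by linarith
  have σ0 : 0 < M.s S.J := (s_nn A.cl _).trans_lt p1
  have z5 : 6 * S.C ^ 2 * ℓ ≤ M.s S.J := by
    refine le_of_mul_le_mul_left ?_ (show 0 < 2 * S.C ^ 2 by positivity)
    have : 12 * S.C ^ 4 * ℓ ≤ 12 * S.C ^ 4 * α := by gcongr
    linarith
  have z6 : ℓ ≤ S.C ^ 2 * ℓ := le_mul_of_one_le_left l0.le (by linarith)
  refine ⟨l0, by linarith, by linarith, by linarith, z5, ?_, by linarith, by linarith, by linarith⟩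
  rw [div_le_iff₀ (by linarith)]
  have e1 : S.C * S.θ * 1 ≤ S.C * S.θ * (2 * (S.C ^ 2 * M.s S.J)) := by gcongr
  have e2 := mul_le_mul_of_nonneg_right n.th σ0.le
  have e3 : α ^ 2 * M.s S.J ≤ α * M.s S.J := by gcongr; nlinarith
  have e4 : 0 ≤ α * M.s S.J := by positivity
  linarith

set_option maxHeartbeats 800000 in
/-- **the last located node is close to the corner** -/
theorem wout73 (T0 : ℝ) : ∃ K : ℝ, 1 ≤ K ∧ ∀ {S : Sc} {M : Md} {m : ℕ}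
    {a T ℓ D p g0 t0 f x la α u' : ℝ} {V k0 w : ℕ} {ez : ℕ → ℝ} {Pn : ℕ → Prop}, At S M m a T →
    T ≤ T0 → S.C ≤ T0 → W1 S M m a T ℓ D p g0 V k0 t0 f →
    PN S M m a T Pn ez x la u' (ℓ / (100 * S.C ^ 3)) ℓ (100 * S.C ^ 3) → Pn w →
    Nu73 S M m a T ℓ D g0 x la α ez w → 12 * S.C ^ 4 * α ≤ 1 → M.s S.J - t0 ≤ K * α := by
  obtain ⟨K, K1, hK⟩ := early62 T0
  refine ⟨K + 1 + 6 * T0 ^ 2, by linarith [sq_nonneg T0], ?_⟩
  intro S M m a T ℓ D p g0 t0 f x la α u' V k0 w ez Pn A hT hC h P pw n h1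
  obtain ⟨l0, v1, v2, v3, l2, th, s1, s0, α1⟩ := n.fa A h1
  obtain ⟨⟨V1, V2⟩, V3, V4, dich, ⟨t1, t2⟩, low, hu, -, -, -, -, ⟨f1, f2⟩, -, g2⟩ := h
  have C1 := A.cl.C1
  have c0 := A.c_pos
  have v0 := v_pos A.cl
  have θ0 : 0 ≤ S.θ := (A.ms_pos le_rfl).le.trans (A.cl.ms1 0)
  have l1 := n.l1
  have α0 : 0 < α := by linarith
  have i1 := A.cl.i1
  have q0 : 0 ≤ K * α := by positivity
  have q1 : 0 ≤ T0 ^ 2 * α := by positivity
  have q2 : S.C ^ 2 * α ≤ T0 ^ 2 * α := by gcongr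
  rcases dich with d | d
  · linarith
  obtain ⟨j1, j2, -⟩ := A.J_pred
  obtain ⟨p1, p2⟩ := A.s_pred
  obtain ⟨w1, w2⟩ := P.mem w pw
  have c2 : ℓ ≤ S.C ^ 2 * ℓ := le_mul_of_one_le_left l0.le (one_le_pow₀ C1)
  have c3 : S.C ^ 2 * ℓ ≤ S.C ^ 3 * ℓ := by gcongr; norm_num
  have e1 : M.s S.J - M.s V ≤ 2 * (S.C ^ 2 * ℓ) := by
    have := (z_sl73 A (show S.j0 ≤ V by omega) (show V ≤ S.J - 1 by omega) j2).1
    have : (M.s (S.J - 1) - M.s V) / S.C ≤ S.C * ℓ + S.C * S.v := by linarith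
    rw [div_le_iff₀ c0] at this
    linarith
  have ex : ∃ q, M.s V - ℓ ≤ M.s q := ⟨V, by linarith⟩
  have pV : Nat.find ex ≤ V := Nat.find_min' ex (by linarith)
  have pa := Nat.find_spec ex
  have pj : S.jl < Nat.find ex := lt_of_not_ge fun c => by linarith [A.cl.sm c, n.jl]
  have pb := not_le.1 (Nat.find_min ex (show Nat.find ex - 1 < Nat.find ex by omega))
  set q := Nat.find ex with hq
  have pc := (A.cl.ss (q - 1) (by omega)).2
  rw [show q - 1 + 1 = q by omega] at pc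
  obtain ⟨z1, z2⟩ := z_sl73 A (show S.j0 ≤ q by omega) pV V2
  obtain ⟨i, a1, a2, hi⟩ := P.dv q V pj pV V2 (by linarith) (by linarith) (by
    refine le_trans ?_ z1
    have y1 : ℓ / (100 * S.C ^ 3) ≤ ℓ / (2 * S.C) :=
      div_le_div_of_nonneg_left l0.le (by positivity) (by nlinarith [one_le_pow₀ (n := 2) C1])
    have y2 : ℓ / (2 * S.C) = (ℓ / 2) / S.C := by field_simp
    have y3 : S.C * S.v = S.C ^ 2 * S.v / S.C := by field_simp
    rw [y3, ← sub_div]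
    exact y1.trans (y2.trans_le (div_le_div_of_nonneg_right (by linarith) c0.le)))
  have si := A.cl.sm a1
  have si' := A.cl.sm a2
  have uf := abs_le.1 (hu f (by linarith) f2)
  have D1 := n.D1
  rcases le_or_gt f (sb M m a (i + 1)) with c | c
  · have sw : M.s w ≤ M.s S.J := n.flat ▸ A.cl.sm w2.le
    have r := hK A hT hC (f := f) (tl := M.s S.J / 2) (α := α) (V := V) (i := i) (w := w)
      ⟨⟨s0, by linarith, s1⟩, th, v1, n.hp, by linarith [n.g1], by linarith, ⟨V1.le, V2⟩,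
        by linarith, d.trans (by gcongr), ⟨by omega, a2, c⟩, by
          calc S.θ * (M.s w - M.s i) ≤ S.θ * (100 * (S.C ^ 3 * ℓ)) := by
                gcongr; linarith [mul_pos (pow_pos c0 3) l0]
            _ = 100 * S.C ^ 3 * S.θ * ℓ := by ring
            _ ≤ α ^ 2 * α := by gcongr; exact n.th
            _ = _ := by ring,
        (neg_le_abs _).trans (n.Gs i (by omega) (by linarith) (by linarith)), ⟨w1, w2.le⟩, n.Gw,
        n.Mt, by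
          have y1 := (abs_le.1 (hi w pw)).1
          have y2 := mul_le_mul_of_nonneg_right n.la
            (sub_nonneg.2 (A.sb_mono (show i + 1 ≤ w + 1 by omega)))
          linarith [n.er]⟩
    linarith
  · have y1 := Sc48.lvr_mono A.okb.1.1 c.le
    rw [A.lvb_node (by omega) (by omega)] at y1
    have y2 := A.slope36 (s := f) (by linarith) (by linarith)
    have y3 := A.cl.leg.zm a1
    have y4 : S.C * (M.s V - M.s q + S.v) ≤ S.C * (α + α) := by gcongr; linarith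
    have y5 : S.C * ℓ ≤ S.C * α := by gcongr
    have y6 : α ≤ S.C * α := le_mul_of_one_le_left α0.le C1
    have y7 : 1 / S.C * (M.s S.J - f) ≤ 6 * (S.C * α) := by
      unfold uu at uf
      linarith [uf.2]
    rw [one_div_mul_eq_div, div_le_iff₀ c0] at y7
    linarith

theorem num73 {K κ α p D R W Y Dm w : ℝ} (K1 : 100 ≤ K) (κ0 : 0 < κ) (κ1 : κ ≤ 1) (α0 : 0 < α)
    (α1 : α ≤ 1) (D0 : 0 ≤ D) (D1 : D ≤ α) (W0 : 0 ≤ W) (w0 : 0 ≤ w)
    (w1 : w ≤ K * α) (m0 : 0 ≤ Dm) (m1 : Dm ≤ α) (hY : Y = p ^ 2 + D ^ 2 + α ^ 3 + W)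
    (hR : R ^ 2 ≤ 16000 * K ^ 5 * (α ^ 3 + W))
    (h : κ * Dm ≤ 2 * (p + 2 * D + 0 + R + 9 * (K * α) * (w + 0))) :
    9 * (K * α) * (w + 0 + D + Dm) ^ 2 + 3 * (R ^ 2 + Dm ^ 2 + 0 ^ 2) ≤ K ^ 8 / κ ^ 2 * Y := by
  have K0 : 1 ≤ K := by linarith
  have a3 : 0 < α ^ 3 := by positivity
  have p2 := sq_nonneg p
  have d2 := sq_nonneg D
  have Y0 : 0 ≤ Y := by linarith
  have k5 : 1 ≤ K ^ 5 := one_le_pow₀ K0
  have y1 : Y ≤ K ^ 5 * Y := le_mul_of_one_le_left Y0 k5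
  have y2 : K ^ 5 * (α ^ 3 + W) ≤ K ^ 5 * Y := by gcongr; linarith
  have y3 : K ^ 3 * α ^ 3 ≤ K ^ 5 * Y := by gcongr <;> [norm_num; linarith]
  have y4 : K ^ 4 * α ^ 4 ≤ K ^ 5 * Y :=
    calc K ^ 4 * α ^ 4 ≤ K ^ 5 * α ^ 3 := by
          gcongr ?_ * ?_
          · gcongr; norm_num
          · exact pow_le_pow_of_le_one α0.le α1 (by norm_num)
      _ ≤ _ := by gcongr; linarith
  have ka : α ≤ K * α := le_mul_of_one_le_left α0.le K0
  have e1 : 9 * (K * α) * (w + 0 + D + Dm) ^ 2 ≤ 9 * (K * α) * (3 * (K * α)) ^ 2 := by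
    gcongr; linarith
  have e2 : 9 * (K * α) * (w + 0) ≤ 9 * (K * α) * (K * α) := by gcongr; linarith
  have e3 : (κ * Dm) ^ 2 ≤ (2 * (p + 2 * D + R + 9 * (K * α) * (K * α))) ^ 2 :=
    pow_le_pow_left₀ (by positivity) (by linarith) 2
  have e4 : (p + 2 * D + R + 9 * (K * α) * (K * α)) ^ 2 ≤
      4 * (p ^ 2 + (2 * D) ^ 2 + R ^ 2 + (9 * (K * α) * (K * α)) ^ 2) := by
    generalize 9 * (K * α) * (K * α) = z
    linarith [sq_nonneg (p - 2 * D), sq_nonneg (p - R), sq_nonneg (p - z), sq_nonneg (2 * D - R),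
      sq_nonneg (2 * D - z), sq_nonneg (R - z)]
  have e5 : κ ^ 2 * Dm ^ 2 ≤ 300000 * (K ^ 5 * Y) := by linarith
  have k2 : κ ^ 2 ≤ 1 := pow_le_one₀ κ0.le κ1
  have e6 : 9 * (K * α) * (w + 0 + D + Dm) ^ 2 + 3 * R ^ 2 ≤ 50000 * (K ^ 5 * Y) := by linarith
  have e7 := mul_le_of_le_one_left (show 0 ≤ 50000 * (K ^ 5 * Y) by positivity) k2
  have e8 := mul_le_mul_of_nonneg_left e6 (sq_nonneg κ)
  have e9 : 100 ^ 3 * (K ^ 5 * Y) ≤ K ^ 3 * (K ^ 5 * Y) := by gcongr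
  rw [div_mul_eq_mul_div, le_div_iff₀ (by positivity)]
  linarith

set_option maxHeartbeats 800000 in
/-- **the core of (TLp)** -/
theorem core73 (T0 : ℝ) : ∃ K u0 : ℝ, 1 ≤ K ∧ 0 < u0 ∧ ∀ {S : Sc} {M : Md} {m : ℕ}
    {a T ℓ D p g0 t0 f x la α u' u κ Y GP : ℝ} {V k0 w kA : ℕ} {ez er : ℕ → ℝ} {Pn : ℕ → Prop},
    At S M m a T → T ≤ T0 → S.C ≤ T0 → W1 S M m a T ℓ D p g0 V k0 t0 f →
    PN S M m a T Pn ez x la u' (ℓ / (100 * S.C ^ 3)) ℓ (100 * S.C ^ 3) →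
    Np73 S M m a T u0 κ (K * α) u la Y Pn er w kA → Nu73 S M m a T ℓ D g0 x la α ez w →
    100 * K * α ≤ κ → ∑ j ∈ Finset.Icc S.J S.Jp, (M.z j - M.z (j - 1)) * M.G j ^ 2 ≤ GP →
    M.s S.J - t0 ≤ K * α ∧
    ∑ k ∈ Finset.Ioc k0 S.Jp, dx M k * (sb M m a (k + 1) - M.s k) ^ 2 ≤
      K ^ 8 / κ ^ 2 * (p ^ 2 + D ^ 2 + α ^ 3 + (√GP / (√κ * √α) + Y + u * T ^ 2)) := by
  obtain ⟨K1, k1, h1⟩ := wout73 T0
  obtain ⟨Ks, u0, ks, u1, h2⟩ := spread73 T0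
  set P := max T0 1 with hP
  have P1 : 1 ≤ P := le_max_right _ _
  set K2 := P * (K1 + 3) with hK2
  have k2 : K1 + 3 ≤ K2 := le_mul_of_one_le_left (by linarith) P1
  have k3 : Ks ≤ Ks * P * (K2 + 3) := by
    rw [mul_assoc]; exact le_mul_of_one_le_right (by linarith) (by nlinarith)
  have k4 : 0 ≤ P ^ 4 := by positivity
  obtain ⟨K, Ka, Kb, Kc, Kd⟩ : ∃ K, 100 ≤ K ∧ P ^ 4 ≤ K ∧ Ks * P * (K2 + 3) ≤ K ∧ K2 ≤ K :=
    ⟨100 + P ^ 4 + Ks * P * (K2 + 3) + K2, by linarith, by linarith, by linarith, by linarith⟩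
  refine ⟨K, u0, by linarith, u1, ?_⟩
  intro S M m a T ℓ D p g0 t0 f x la α u' u κ Y GP V k0 w kA ez er Pn A hT hC h Pp N n hκ hG
  have C1 := A.cl.C1
  have c0 := A.c_pos
  have v0 := v_pos A.cl
  have CP : S.C ≤ P := hC.trans (le_max_left _ _)
  have z1 := A.cl.leg.z1
  have zm := A.cl.leg.zm
  obtain ⟨κ0, κ1, κ2⟩ := N.κ1
  have x0 : 0 < M.z (S.J - 1) := lt_of_lt_of_le (by positivity) A.cl.atom.1
  have κ3 : κ ≤ 1 := by linarith [z1 w]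
  have α0 : 0 < α := lt_of_lt_of_le (lt_of_lt_of_le (by positivity) n.v) n.l1
  have hc : 12 * S.C ^ 4 * α ≤ 1 := by
    have : S.C ^ 4 * α ≤ K * α := by gcongr; exact le_trans (by gcongr) Kb
    have : 0 < K * α := by positivity
    linarith
  obtain ⟨l0, v1, v2, v3, l2, th, s1, s0, α1⟩ := n.fa A hc
  have hw := h1 A hT hC h Pp N.pw n hc
  obtain ⟨⟨V1, V2⟩, V3, V4, -, ⟨t1, t2⟩, low, hu, hJ, ⟨c1, c2⟩, ⟨c3, c4⟩, c5, ⟨f1, f2⟩, g1, g2⟩ := h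
  obtain ⟨w1, w2⟩ := Pp.mem w N.pw
  obtain ⟨b1, b2⟩ := N.k1
  obtain ⟨j1, j2, -⟩ := A.J_pred
  obtain ⟨p1, p2⟩ := A.s_pred
  have l1 := n.l1
  have D1 := n.D1
  have D0 : 0 ≤ D := (abs_nonneg _).trans c5
  have q1 : (K1 + 3) * α ≤ K2 * α := by gcongr
  have q2 : K2 * α ≤ K * α := by gcongr
  have q3 : S.C * ((K1 + 2) * α) + α ≤ K2 * α := by
    have : S.C * ((K1 + 2) * α) ≤ P * ((K1 + 2) * α) := by gcongr
    have := le_mul_of_one_le_left α0.le P1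
    rw [hK2]; linarith
  have θ0 : 0 ≤ S.θ := (A.ms_pos le_rfl).le.trans (A.cl.ms1 0)
  have th' : S.θ / (M.s S.J / 2) ≤ α := le_trans (by gcongr; exact le_mul_of_one_le_left θ0 C1) th
  obtain ⟨-, -, sp⟩ := h2 A hT (f := f) (g0 := g0) (la := la) (jj := α) (δ := K2 * α)
    (tl := M.s S.J / 2) (aa := K * α) (a0 := K * α) (u := u) (GP := GP) (γ := 0) (κ := κ) (er := er)
    (w := w) (kA := kA) ⟨s0, s1, by linarith, by linarith,
      f2.trans (t2.trans (A.sb_mono (by omega))), by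
        have y1 := (abs_le.1 (hu f (by linarith) f2)).1
        unfold uu at y1
        rcases le_total f (M.s (S.J - 1)) with c | c
        · have y2 := ((A.sl p1) f _ (by linarith) c le_rfl).2
          rw [A.zh_pred] at y2
          have : S.C * (M.s (S.J - 1) - f) + S.C * S.v ≤ S.C * ((K1 + 2) * α) := by
            rw [← mul_add]; gcongr; linarith
          linarith
        · have y2 := Sc48.lvr_mono A.okh.1.1 c
          rw [A.zh_pred] at y2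
          linarith,
      g2, g1, Pp.la0, by positivity, N.u0, N.er0, by linarith [(abs_le.1 n.Mt).2], n.hp, by
        calc Ks * S.C * (S.θ / (M.s S.J / 2) + α + K2 * α + S.v) ≤ Ks * P * ((K2 + 3) * α) := by
              gcongr; linarith
          _ = Ks * P * (K2 + 3) * α := by ring
          _ ≤ _ := by gcongr,
      b1, b2, w2.le, N.w1, κ0, κ1, κ2, by positivity, N.a1.1, by rw [n.flat, sub_self], hG, N.lo,
      N.hi⟩
  have Y0 : 0 ≤ ∑ k ∈ Finset.Icc kA S.Jp, dx M k * (er k / (M.z k - M.z (S.J - 1))) :=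
    Finset.sum_nonneg fun k hk => mul_nonneg (A.dz_nn k) (div_nonneg (N.er0 k)
      (sub_nonneg.2 (zm (by have := Finset.mem_Icc.1 hk; omega))))
  have Y1 := N.sum
  have u0' : 0 ≤ u * T ^ 2 := mul_nonneg N.u0 (sq_nonneg _)
  have G0 : 0 ≤ √GP / (√κ * √α) := by positivity
  have K0 : 1 ≤ K := by linarith
  have ka : α ≤ K * α := le_mul_of_one_le_left α0.le K0
  have sp2 : ∑ k ∈ Finset.Icc kA S.Jp, dx M k * (sb M m a (k + 1) - sb M m a (w + 1)) ^ 2 ≤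
      16000 * K ^ 5 * (α ^ 3 + (√GP / (√κ * √α) + Y + u * T ^ 2)) := by
    refine sp.trans ?_
    have la0 := Pp.la0
    have e0 : α ^ 2 ≤ (K * α) ^ 2 := by gcongr
    have e1 : (g0 + 2 * (K * α) * (K2 * α) + la) ^ 2 / (K * α) ≤ 16 * (K ^ 3 * α ^ 3) := by
      rw [div_le_iff₀ (by positivity)]
      have : 2 * (K * α) * (K2 * α) ≤ 2 * (K * α) * (K * α) := by gcongr
      calc _ ≤ (4 * (K * α) ^ 2) ^ 2 := by gcongr; linarith [n.g1, n.la]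
        _ = _ := by ring
    have e2 : (S.C * S.θ * 0 + √GP) / (√κ * √(K * α)) ≤ √GP / (√κ * √α) := by
      rw [mul_zero, zero_add]; gcongr
    have k3' : 1 ≤ K ^ 3 := one_le_pow₀ K0
    have e3 := le_mul_of_one_le_left (show 0 ≤ √GP / (√κ * √α) + Y by linarith) k3'
    have e4 : u * T ^ 2 ≤ K ^ 5 * (u * T ^ 2) := le_mul_of_one_le_left u0' (one_le_pow₀ K0)
    have e5 : 0 ≤ K ^ 3 * (√GP / (√κ * √α) + Y) := by linarith
    have e6 : 0 ≤ K ^ 5 * (u * T ^ 2) := by linarith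
    calc _ ≤ 1000 * K ^ 2 * (16 * (K ^ 3 * α ^ 3) + 16 * (K ^ 3 * (√GP / (√κ * √α) + Y))) +
          u * T ^ 2 := by
          gcongr ?_ * ?_ + _
          · gcongr; linarith
          · linarith
      _ ≤ _ := by linarith
  set W := √GP / (√κ * √α) + Y + u * T ^ 2 with hW
  have W0 : 0 ≤ W := by linarith
  have hR : √(16000 * K ^ 5 * (α ^ 3 + W)) ^ 2 = 16000 * K ^ 5 * (α ^ 3 + W) :=
    sq_sqrt (by positivity)
  have ms : Ms S M m a T t0 (sb M m a (w + 1)) D 0 (√(16000 * K ^ 5 * (α ^ 3 + W))) p (9 * (K * α)) κ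
      k0 kA := ⟨c1, c2, b1, by omega, c3, c4, by linarith, c5, by rw [n.flat, sub_self],
    A.sb_mono (by omega), (A.sb_mem w2.le).2, sqrt_nonneg _, sp2.trans hR.ge, hJ, by
      have y1 := (z_sl73 A c1 (show k0 ≤ S.J - 1 by omega) j2).2
      have : S.C * (M.s (S.J - 1) - M.s k0 + S.v) ≤ S.C * ((K1 + 2) * α) := by gcongr; linarith
      linarith [N.a1.2],
    κ1.trans (sub_le_sub_left (zm (by omega)) 1), by linarith [mul_pos (by linarith : 0 < K) α0]⟩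
  refine ⟨by linarith, (A.win73 ms le_rfl).trans ?_⟩
  exact num73 Ka κ0 κ3 α0 α1 D0 D1 W0 (by linarith) (by linarith) (abs_nonneg _) n.Mt rfl hR.le
    (A.shift73 ms)

end Crest.Agent.T156.Alt.L62

end
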