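import Crest.Agent.T156.NdS_89
import Crest.Agent.T156.ClResB_27
import Crest.Agent.T156.TermN_15

-- ▼ part T156/BdS_75
section

/-!
# Row 156, block (L): the bulk data `Bd` from the net of good nodes `NG` (helper75)
-/

set_option autoImplicit false
set_option linter.unusedSectionVars false

noncomputable section

namespace Crest.Agent.T156.Alt.B75

open Real Finset
open Crest.Agent.T156.Alt.E61 Crest.Agent.T156.Alt.Mp9 Crest.Agent.T156.Alt.Sz9
open Crest.Agent.T156.Alt.L69 (LN cr cl mf uw)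
open Crest.Agent.T156.Alt.G89
open Crest.Agent.T156.Cut8 (LB int_split int_mono)

/-- node error -/
def enB (M : Md) (Λ : ℝ) (η : ℝ → ℝ) (i : ℕ) : ℝ := Λ * η (M.s i)
/-- coefficient of `|Γ''|` -/
def onB (M : Md) (S : Sc) (Λ Lg : ℝ) (i : ℕ) : ℝ := Λ * Ug S Lg (M.s i) ^ 2
/-- slope of the label clock -/
def ccB (M : Md) (S : Sc) (m : ℕ) (a Λ Lg : ℝ) (y : ℕ) : ℝ :=
  Λ * min (u4 M m a y ^ 2) (2 * Λ ^ 2 * Ug S Lg (M.s y) ^ 2)
def alB (M : Md) (Λ : ℝ) (η : ℝ → ℝ) (y : ℕ) : ℝ := 17 * Λ * η (M.s y)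
def omB (M : Md) (S : Sc) (Λ Lg : ℝ) (y : ℕ) : ℝ := 4 * Λ * uw S Lg (M.s y) ^ 2
def GaB (M : Md) (S : Sc) (ε : ℝ) (y : ℕ) : ℝ := ε * √(mn M S y / (384 * S.C ^ 5 * S.F))

variable {S : Sc} {M : Md} {m : ℕ} {a T E Λ G1 l0 l V X Lg X2 X3 G0 lo τ1 ε t t' : ℝ} {η : ℝ → ℝ}
  {Gn : ℕ → Prop} {V0 u v : ℕ}

theorem uw_eq : uw S Lg t = Lg ^ 2 * Tn15.W S t := by rw [uw, Tn15.W, mul_assoc]

theorem Ug_nn (c : Cl S M) (g1 : 1 ≤ Lg) (t0 : 0 < t) : 0 ≤ Ug S Lg t := by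
  have := Tn15.w30 c t0
  have := Tn15.cr1 S t
  unfold Ug Nd22.U w1; positivity

theorem Ug_le (c : Cl S M) (g1 : 1 ≤ Lg) (t0 : 0 < t) : Ug S Lg t ≤ uw S Lg t := by
  have w0 := Tn15.w30 c t0
  have c1 := Tn15.cr1 S t
  have a1 : 1 ≤ Lg * cr S t := one_le_mul_of_one_le_of_one_le g1 c1
  have a2 : (Lg * cr S t) ^ ((2 : ℝ) / 3) ≤ Lg ^ 2 * cr S t := by
    refine (rpow_le_rpow_of_exponent_le a1 (show (2 : ℝ) / 3 ≤ 1 by norm_num)).trans ?_
    rw [rpow_one]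
    exact mul_le_mul_of_nonneg_right (le_self_pow₀ g1 two_ne_zero) (by linarith)
  exact mul_le_mul_of_nonneg_right a2 (rpow_nonneg w0.le _)

theorem uw_nn (c : Cl S M) (t0 : 0 < t) : 0 ≤ uw S Lg t := by
  rw [uw_eq]; exact mul_nonneg (sq_nonneg _) (Tn15.W0 c t0).le

theorem uw_anti (c : Cl S M) (t0 : 0 < t) (h : t ≤ t') : uw S Lg t' ≤ uw S Lg t := by
  rw [uw_eq, uw_eq]; exact mul_le_mul_of_nonneg_left (Tn15.W_anti c t0 h) (sq_nonneg _)

theorem uw_two (c : Cl S M) (t0 : 0 < t) (t1 : 0 < t') (h : t' ≤ 2 * t) :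
    uw S Lg t ≤ 2 * uw S Lg t' := by
  have := (Tn15.W_two c t0).trans
    (mul_le_mul_of_nonneg_left (Tn15.W_anti c t1 h) zero_le_two)
  rw [uw_eq, uw_eq]; nlinarith [sq_nonneg Lg]

theorem ccB_nn (Λ0 : 0 ≤ Λ) (y : ℕ) : 0 ≤ ccB M S m a Λ Lg y :=
  mul_nonneg Λ0 (le_min (sq_nonneg _) (by positivity))


theorem ccB_Ug (Λ0 : 0 ≤ Λ) (y : ℕ) : ccB M S m a Λ Lg y ≤ 2 * Λ ^ 3 * Ug S Lg (M.s y) ^ 2 :=
  (mul_le_mul_of_nonneg_left (min_le_right _ _) Λ0).trans_eq (by ring)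

theorem ccB_uw (c : Cl S M) (g1 : 1 ≤ Lg) (Λ0 : 0 ≤ Λ) {y : ℕ} (t0 : 0 < M.s y) :
    ccB M S m a Λ Lg y ≤ 2 * Λ ^ 3 * uw S Lg (M.s y) ^ 2 :=
  (ccB_Ug Λ0 y).trans (mul_le_mul_of_nonneg_left
    (pow_le_pow_left₀ (Ug_nn c g1 t0) (Ug_le c g1 t0) 2) (by positivity))

theorem s_sub (c : Cl S M) {i k : ℕ} (h : i ≤ k) (hk : k ≤ S.J) :
    M.s k ≤ M.s i + S.C * S.v * ((k : ℝ) - i) := by
  induction k, h using Nat.le_induction with
  | base => simp
  | succ k ik ih =>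
    have := ih (by omega)
    have := (c.ss k (by omega)).2
    push_cast
    linarith

theorem v_le (c : Cl S M) : S.v ≤ S.C * M.s S.jl := by
  have a := (c.ss 0 (by have := c.i2; omega)).1
  have b : M.s (0 + 1) ≤ M.s S.jl := c.sm (c.i0.trans c.i1)
  rw [c.s0, div_le_iff₀' c.C0] at a
  exact a.trans (mul_le_mul_of_nonneg_left (by linarith) c.C0.le)

theorem mn_eq (y : ℕ) : mn M S y = mf S (M.s y) / (384 * S.C ^ 5) := by
  rw [mn, mf, div_div, mul_comm S.F]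

section ln

variable (c : Cl S M) (N : LN E S M l0 l V X Lg X2 X3 G0 η) (E0 : 0 ≤ E)
include c N E0

theorem l0_nn : 0 ≤ l0 := (mul_nonneg E0 (c.s_nn _)).trans N.l0s
theorem X2_nn : 0 ≤ X2 := (mul_nonneg (l0_nn c N E0) (sq_nonneg _)).trans N.x2a
theorem X3_nn : 0 ≤ X3 := (mul_nonneg (l0_nn c N E0) (by positivity)).trans N.x3a
theorem G0_nn : 0 ≤ G0 := (mul_nonneg (l0_nn c N E0) (sq_nonneg _)).trans N.g0a

theorem uw_eta (t0 : 0 < t) (h1 : l ≤ t) (h2 : t ≤ S.C) :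
    uw S Lg t ^ 2 * min (S.ms t / t) t ≤ η t := by
  have a := N.ηb t h1 h2
  have := X2_nn c N E0
  have := X3_nn c N E0
  have := G0_nn c N E0
  have := uw_nn (Lg := Lg) c t0
  have := c.N0
  have : 0 ≤ uw S Lg t ^ 3 + (√(Lg * cr S t * L69.gg S t) + G0 + X2) * (uw S Lg t + √X2) + X3 +
    1 / (S.n : ℝ) := by positivity
  linarith

theorem eta_nn (t0 : 0 < t) (h1 : l ≤ t) (h2 : t ≤ S.C) : 0 ≤ η t :=
  (mul_nonneg (sq_nonneg _) (le_min (div_pos (c.ms_pos t0.le) t0).le t0.le)).trans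
    (uw_eta c N E0 t0 h1 h2)

end ln

section ng

variable (A : At S M m a T) (G : NG E Λ S M m a T lo Lg X2 τ1 η Gn V0)
include A G

/-- a gap is shorter than its level -/
theorem gap_two (Λ1 : 1 ≤ Λ) (hL : 4 * S.C * Λ ≤ Lg) {i k : ℕ} (n : Nx Gn u V0 i k)
    (h0 : lo ≤ M.s i) (me : 8 * S.C ^ 2 * S.v ≤ M.s i) : M.s k ≤ 2 * M.s i := by
  obtain ⟨-, n2, n3, -, -, n6⟩ := n
  have c := A.cl
  have hV := G.hV
  have C1 := c.C1
  have v0 := v_pos c
  have s0 := c.s_nn i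
  have cv : 8 * (S.C * S.v) ≤ M.s i := by nlinarith [mul_pos c.C0 v0]
  have a1 := s_sub c n2 (by omega)
  rcases le_or_gt k (i + 1) with e | e
  · have : (k : ℝ) - i ≤ 1 := by have : (k : ℝ) ≤ i + 1 := by exact_mod_cast e
                                 linarith
    nlinarith [mul_pos c.C0 v0]
  have key : ∀ q, i + 1 ≤ q → q < k → 2 * q ≤ 3 * (i + 1) →
      Lg * S.v * ((q : ℝ) - i) < Λ * M.s (i + 1) := fun q q1 q2 q3 => by
    by_contra h
    obtain ⟨j, j1, j2, j3⟩ := G.ex (i + 1) q (h0.trans (c.sm (Nat.le_succ i))) q1 (by omega) q3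
      (by push_cast; linarith [not_lt.1 h])
    exact n6 j (by omega) (by omega) j3
  have L0 : 0 < Lg := by nlinarith
  rcases le_or_gt (2 * (k - 1)) (3 * (i + 1)) with f | f
  · have b1 := key (k - 1) (by omega) (by omega) f
    rw [Nat.cast_sub (by omega), Nat.cast_one] at b1
    have b2 := s_sub c (Nat.le_succ i) (by omega)
    push_cast at b2
    have b3 : (0 : ℝ) ≤ (k : ℝ) - 1 - i := by
      have : (i : ℝ) + 1 ≤ k := by exact_mod_cast e.le
      linarith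
    have b4 : 4 * S.C * Λ * S.v * ((k : ℝ) - 1 - i) ≤ Lg * S.v * ((k : ℝ) - 1 - i) := by gcongr
    have b5 : Λ * (4 * (S.C * S.v * ((k : ℝ) - 1 - i))) ≤ Λ * (2 * M.s i) := by nlinarith
    have b6 := le_of_mul_le_mul_left b5 (by linarith)
    nlinarith
  · exfalso
    have b1 := key (i + 1 + (i + 1) / 2) (by omega) (by omega) (by omega)
    have b2 := s_sub c (Nat.zero_le (i + 1)) (by omega)
    rw [c.s0] at b2
    have b3 : ((i : ℝ) + 1) / 2 ≤ ((i + 1 + (i + 1) / 2 : ℕ) : ℝ) - i := by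
      have : (i + 1 : ℕ) ≤ 2 * ((i + 1) / 2) + 1 := by omega
      have : ((i + 1 : ℕ) : ℝ) ≤ 2 * (((i + 1) / 2 : ℕ) : ℝ) + 1 := by exact_mod_cast this
      push_cast [Nat.cast_add] at this ⊢
      linarith
    push_cast at b2
    have b4 : 4 * S.C * Λ * S.v * (((i : ℝ) + 1) / 2) ≤
        Lg * S.v * (((i + 1 + (i + 1) / 2 : ℕ) : ℝ) - i) := by gcongr
    have b5 := mul_le_mul_of_nonneg_left b2 (show 0 ≤ Λ by linarith)
    have b6 : 0 < Λ * (S.C * S.v * ((i : ℝ) + 1)) := by positivity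
    nlinarith

/-- **the clock** between two good nodes -/
theorem clock (Λ1 : 1 ≤ Λ) (L0 : 0 < Lg) (h0 : lo ≤ M.s u) (hv : v ≤ V0) {i : ℕ} (hi : u ≤ i)
    (gi : Gn i) : ∀ k, i ≤ k → k ≤ v → Gn k →
      Λ * ∑ y ∈ Ioc i k, (M.z y - M.z (y - 1)) * u4 M m a y ^ 2 ≤
        2 * Λ ^ 4 / Lg * (∫ r in sb M m a (i + 1)..sb M m a (k + 1), gB M m a Gn u v r ^ 2) +
          ∑ y ∈ Ioc i k, (M.z y - M.z (y - 1)) * ccB M S m a Λ Lg y := by
  classical
  have c := A.cl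
  have hV := G.hV
  have i3 := c.i3
  have Λ0 : 0 ≤ Λ := by linarith
  have lg : LB T fun r => gB M m a Gn u v r ^ 2 := (Gap27.LB_gl T).sq
  intro k
  induction k using Nat.strong_induction_on with
  | _ k ih =>
  intro h1 h2 gk
  rcases h1.eq_or_lt with rfl | e
  · simp
  have i1 : i ≤ Nat.findGreatest Gn (k - 1) := Nat.le_findGreatest (by omega) gi
  have i2 : Nat.findGreatest Gn (k - 1) ≤ k - 1 := Nat.findGreatest_le _
  have i3' : Gn (Nat.findGreatest Gn (k - 1)) := Nat.findGreatest_spec (by omega : i ≤ k - 1) gi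
  have i4 : ∀ y, Nat.findGreatest Gn (k - 1) < y → y < k → ¬ Gn y := fun y a c =>
    Nat.findGreatest_is_greatest a (by omega)
  set r := Nat.findGreatest Gn (k - 1)
  have rk : r < k := by omega
  have n : Nx Gn u v r k := ⟨by omega, rk.le, h2, i3', gk, i4⟩
  have sr : lo ≤ M.s r := h0.trans (c.sm n.1)
  have a1 := ih r rk i1 (by omega) i3'
  have d0 := ds_nn A rk.le
  -- the good end
  have a2 : Λ * u4 M m a k ^ 2 ≤ ccB M S m a Λ Lg k := by
    have := G.u4 u k k k ⟨by omega, le_rfl, by omega, gk, gk, fun _ p q => by omega⟩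
      (sr.trans (c.sm rk.le)) le_rfl le_rfl
    rw [ds, sub_self, add_zero] at this
    have := pow_le_pow_left₀ (u4_nn k) this 2
    exact mul_le_mul_of_nonneg_left (le_min le_rfl (by nlinarith [sq_nonneg (Λ * Ug S Lg (M.s k))])) Λ0
  -- inside the gap
  have a3 : ∀ y ∈ Ioo r k, Λ * u4 M m a y ^ 2 ≤
      ccB M S m a Λ Lg y + 2 * Λ ^ 3 * ds M m a r k ^ 2 := fun y hy => by
    have := pow_le_pow_left₀ (u4_nn y)
      (G.u4 u r k y (n.mono le_rfl hv) sr (mem_Ioo.1 hy).1.le (mem_Ioo.1 hy).2.le) 2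
    have b : u4 M m a y ^ 2 ≤ min (u4 M m a y ^ 2) (2 * Λ ^ 2 * Ug S Lg (M.s y) ^ 2) +
        2 * Λ ^ 2 * ds M m a r k ^ 2 := by
      rw [← sub_le_iff_le_add]
      exact le_min (by nlinarith [sq_nonneg (Λ * ds M m a r k)])
        (by nlinarith [sq_nonneg (Λ * (Ug S Lg (M.s y) - ds M m a r k))])
    have := mul_le_mul_of_nonneg_left b Λ0
    unfold ccB
    linarith
  have a4 : Λ * ∑ y ∈ Ioo r k, (M.z y - M.z (y - 1)) * u4 M m a y ^ 2 ≤
      ∑ y ∈ Ioo r k, (M.z y - M.z (y - 1)) * ccB M S m a Λ Lg y +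
        2 * Λ ^ 3 * ds M m a r k ^ 2 * (M.z (k - 1) - M.z r) := by
    rw [← At.sum_dz M (show r ≤ k - 1 by omega), show Ioc r (k - 1) = Ioo r k from by
      ext y; simp only [mem_Ioo, mem_Ioc]; omega, mul_sum, mul_sum, ← sum_add_distrib]
    refine sum_le_sum fun y hy => ?_
    have := mul_le_mul_of_nonneg_left (a3 y hy) (A.dz_nn y)
    linarith
  have a5 := mul_le_mul_of_nonneg_left (G.lab r k sr rk (by omega) i3' (.inl gk) i4).1
    (show 0 ≤ 2 * Λ ^ 3 * ds M m a r k ^ 2 by positivity)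
  have m1 := A.sb_mem (show r ≤ S.Jp by omega)
  have m2 := A.sb_mem (show k ≤ S.Jp by omega)
  have a6 : ds M m a r k ^ 3 ≤ ∫ x in sb M m a (r + 1)..sb M m a (k + 1), gB M m a Gn u v x ^ 2 := by
    have := int_mono (LB.const (T := T) (ds M m a r k ^ 2)) lg m1.1 (A.sb_mono (by omega)) m2.2
      fun x p q => pow_le_pow_left₀ d0 (Gap27.le_gl (cons_of n) p.le q.le) 2
    rw [intervalIntegral.integral_const, smul_eq_mul] at this
    exact le_of_eq_of_le (by rw [ds]; ring) this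
  have a7 := mul_le_mul_of_nonneg_left a6 (show 0 ≤ 2 * Λ ^ 4 / Lg by positivity)
  have a8 := mul_le_mul_of_nonneg_left a2 (A.dz_nn k)
  have a9 : 2 * Λ ^ 3 * ds M m a r k ^ 2 * (Λ / Lg * ds M m a r k) =
      2 * Λ ^ 4 / Lg * ds M m a r k ^ 3 := by ring
  rw [int_split lg (A.sb_mem (show i ≤ S.Jp by omega)) m1 m2, ← sum_Ioc_consecutive _ i1 rk.le,
    ← sum_Ioc_consecutive _ i1 rk.le, ← Ioo_insert_right rk, sum_insert (by simp),
    sum_insert (by simp)]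
  linarith

end ng

theorem Om_eq (c : Cl S M) (w : ℕ → ℝ) {i k : ℕ} (hi : u ≤ i) (h : i ≤ k) (hk : k ≤ v) :
    Om M w u v (M.z k) - Om M w u v (M.z i) = ∑ y ∈ Ioc i k, (M.z y - M.z (y - 1)) * w y := by
  induction k, h using Nat.le_induction with
  | base => simp
  | succ k ik ih =>
    have := Om_step c.leg.zm w u v k
    rw [cut, if_pos ⟨by omega, hk⟩] at this
    rw [sum_Ioc_succ_top ik, ← ih (by omega), Nat.add_sub_cancel]
    linarith

set_option maxHeartbeats 800000 in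
/-- **`Bd` from `NG`** on any pair of good nodes -/
theorem bd_of (A : At S M m a T) (ce : CeiG S M G1) (N : LN E S M l0 l V X Lg X2 X3 G0 η)
    (G : NG E Λ S M m a T lo Lg X2 τ1 η Gn V0) (hl : l ≤ lo) (Λ1 : 1 ≤ Λ) (θ1 : S.θ ≤ 1)
    (ε0 : 0 < ε) (ε1 : ε ≤ 1) (hE : (1536 * S.C ^ 7 * Λ ^ 4) ^ 6 * S.F ^ 3 ≤ ε ^ 6 * E)
    (hu : 9 / 8 * lo ≤ M.s u) (uv : u < v) (hv : v ≤ V0) (gu : Gn u) (gv : Gn v)
    (hJ : sb M m a (v + 1) < M.s S.J) :
    Bd S M m a T Gn u v (enB M Λ η) (onB M S Λ Lg) (ccB M S m a Λ Lg) (alB M Λ η) (omB M S Λ Lg)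
      (GaB M S ε) (Λ * X2) (2 * Λ ^ 4 / Lg) (Λ / Lg) ε := by
  have c := A.cl
  have hV := G.hV
  have i3 := c.i3
  have C1 := c.C1
  have F1 := c.F1
  have C0 := c.C0
  have v0 := v_pos c
  have Λ0 : 0 ≤ Λ := by linarith
  set K := 1536 * S.C ^ 7 * Λ ^ 4 with hK
  have pC : ∀ i, i ≤ 7 → S.C ^ i ≤ S.C ^ 7 := fun i h => pow_le_pow_right₀ C1 h
  have pΛ : ∀ i, i ≤ 4 → Λ ^ i ≤ Λ ^ 4 := fun i h => pow_le_pow_right₀ Λ1 h
  have kK : ∀ (x : ℝ) (i j : ℕ), x ≤ 1536 → i ≤ 7 → j ≤ 4 → x * S.C ^ i * Λ ^ j ≤ K :=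
    fun x i j hx hi hj => mul_le_mul (mul_le_mul hx (pC i hi) (by positivity) (by norm_num))
      (pΛ j hj) (by positivity) (by positivity)
  have K1 : 1 ≤ K := by simpa using kK 1 0 0 (by norm_num) (by norm_num) (by norm_num)
  have E0 : 0 < E := (mul_pos_iff_of_pos_left (pow_pos ε0 6)).1 (lt_of_lt_of_le (by positivity) hE)
  have KE : K ≤ ε * E := by
    have a1 : K ≤ K ^ 6 * S.F ^ 3 :=
      (le_self_pow₀ K1 (by norm_num)).trans (le_mul_of_one_le_right (by positivity) (one_le_pow₀ F1))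
    exact (a1.trans hE).trans (mul_le_mul_of_nonneg_right (pow_le_of_le_one ε0.le ε1 (by norm_num)) E0.le)
  have KE' : K ≤ E := KE.trans (mul_le_of_le_one_left E0.le ε1)
  have EL : E ≤ Lg := (le_mul_of_one_le_right E0.le (one_le_pow₀ F1)).trans N.Lg0
  have g1 : 1 ≤ Lg := by linarith
  have L0 : 0 < Lg := by linarith
  have vl := v_le c
  have sj : 0 < M.s S.jl := (mul_pos_iff_of_pos_left C0).1 (v0.trans_le vl)
  have l0' : 0 < l := (mul_pos E0 sj).trans_le (N.l0s.trans N.l0l)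
  have lu : lo ≤ M.s u := by linarith
  have ju : E * M.s S.jl ≤ M.s u := by linarith [N.l0s, N.l0l]
  have rg : ∀ y, u ≤ y → y ≤ v → 0 < M.s y ∧ l ≤ M.s y ∧ M.s y ≤ S.C := fun y h1 h2 =>
    ⟨by linarith [c.sm h1], by linarith [c.sm h1], c.s_le_C (by omega)⟩
  have me : 8 * S.C ^ 2 * S.v ≤ M.s u := by
    have := kK 8 3 0 (by norm_num) (by norm_num) (by norm_num)
    have := mul_le_mul_of_nonneg_left vl (show 0 ≤ 8 * S.C ^ 2 by positivity)
    nlinarith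
  have sm : ∀ (x κ : ℝ) (y : ℕ), 0 ≤ x → E * x ≤ mf S (M.s y) → 384 * S.C ^ 5 * κ ≤ K →
      κ * x ≤ ε * mn M S y := fun x κ y x0 h1 h2 => by
    rw [mn_eq, ← mul_div_assoc, le_div_iff₀ (by positivity)]
    calc κ * x * (384 * S.C ^ 5) = 384 * S.C ^ 5 * κ * x := by ring
      _ ≤ ε * E * x := mul_le_mul_of_nonneg_right (h2.trans KE) x0
      _ ≤ _ := by rw [mul_assoc]; exact mul_le_mul_of_nonneg_left h1 ε0.le
  have hu' : S.jl < u := lt_of_not_ge fun h => by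
    have := c.sm h
    have := kK 2 0 0 (by norm_num) (by norm_num) (by norm_num)
    nlinarith
  have X20 := X2_nn c N E0.le
  refine ⟨A, ce.up, N.sub, θ1, hu', uv, by omega, gu, gv, hJ, ?_, me, ε0.le, ε1, by positivity, ?_,
    by positivity, ?_, by positivity, ?_, ccB_nn Λ0, fun y h1 h2 => ?_, fun i k h1 h2 h3 gi gk => ?_,
    fun i k n => ?_, fun y h1 h2 => ?_⟩
  · have a1 := (c.ss S.jl c.jl_lt).2
    have a2 := kK 4 2 0 (by norm_num) (by norm_num) (by norm_num)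
    have a3 := mul_le_mul_of_nonneg_left vl C0.le
    have a4 : 1 ≤ S.C ^ 2 := one_le_pow₀ C1
    nlinarith
  · rw [← mul_div_assoc, div_le_iff₀ L0]
    have a1 := kK 1536 7 1 le_rfl le_rfl (by norm_num)
    calc 1536 * S.C ^ 7 * S.F ^ 2 * Λ = 1536 * S.C ^ 7 * Λ ^ 1 * S.F ^ 2 := by ring
      _ ≤ ε * E * S.F ^ 2 := mul_le_mul_of_nonneg_right (a1.trans KE) (by positivity)
      _ ≤ _ := by rw [mul_assoc]; exact mul_le_mul_of_nonneg_left N.Lg0 ε0.le
  · exact sm X2 Λ u X20 (N.th3.trans (Tn15.mf_mono c (by linarith)))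
      (by simpa using kK 384 5 1 (by norm_num) (by norm_num) (by norm_num))
  · rw [div_le_one L0]
    have := kK 2 0 4 (by norm_num) (by norm_num) le_rfl
    rw [pow_zero, mul_one] at this
    linarith
  · obtain ⟨r0, r1, r2⟩ := rg y h1.le h2
    refine (ccB_uw c g1 Λ0 r0).trans (sm _ _ y (sq_nonneg _) (N.th2 _ r1 r2) ?_)
    exact le_of_eq_of_le (by ring) (kK 768 5 3 (by norm_num) (by norm_num) (by norm_num))
  · have a1 := G.e1 i k (lu.trans (c.sm h1)) h2 (by omega) gi gk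
    have a2 := clock A G Λ1 L0 lu hv h1 gi k h2 h3 gk
    have a3 : ∑ y ∈ Ioo i k, M.dz m a y * u4 M m a y ^ 2 ≤
        ∑ y ∈ Ioc i k, (M.z y - M.z (y - 1)) * u4 M m a y ^ 2 := by
      rw [sum_congr rfl (g := fun y => (M.z y - M.z (y - 1)) * u4 M m a y ^ 2) fun y hy => by
        rw [Md67.dz_up c.leg (by have := (mem_Ioo.1 hy).1; omega)]]
      exact sum_le_sum_of_subset_of_nonneg Ioo_subset_Ioc_self fun y _ _ =>
        mul_nonneg (A.dz_nn y) (sq_nonneg _)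
    rw [Om_eq c _ h1 h2 h3]
    have a4 := mul_le_mul_of_nonneg_left a3 Λ0
    unfold ds gd at a1
    unfold enB onB
    linarith
  · have n' := n.mono le_rfl hv
    obtain ⟨n1, n2, n3, n4, n5, n6⟩ := n
    obtain ⟨p0, p1, p2⟩ := rg i n1 (n2.trans n3)
    obtain ⟨q0, q1, q2⟩ := rg k (n1.trans n2) n3
    have si : lo ≤ M.s i := lu.trans (c.sm n1)
    have tw := gap_two A G Λ1 (by
      have := kK 4 1 1 (by norm_num) (by norm_num) (by norm_num)
      rw [pow_one, pow_one] at this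
      linarith) n' si (me.trans (c.sm n1))
    have d0 := ds_nn A n2
    refine ⟨?_, mul_nonneg Λ0 (eta_nn c N E0.le p0 p1 p2), mul_nonneg Λ0 (eta_nn c N E0.le q0 q1 q2),
      mul_nonneg Λ0 (sq_nonneg _), fun y h1 h2 => ?_⟩
    · rcases n2.eq_or_lt with rfl | e
      · rw [sub_self, mul_zero, add_zero]; linarith [mul_pos C0 v0]
      · exact (G.lab i k si e (by omega) n4 (.inl n5) n6).2
    obtain ⟨r0, r1, r2⟩ := rg y (n1.trans h1) (h2.trans n3)
    have y1 := c.sm h1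
    have y2 := c.sm h2
    have u0 := uw_nn (Lg := Lg) c r0
    refine ⟨?_, ?_, ?_, ?_⟩
    · have m0 := Tn15.mf0 c r0.le
      have b1 := (G.sh u i k n' (hu.trans (c.sm n1))).trans
        (pow_le_pow_left₀ (Tn15.mf0 c p0.le).le (Tn15.mf_mono c y1) 3)
      have b2 : (384 * S.C ^ 5) ^ 6 * S.F ^ 3 ≤ ε ^ 6 * E := le_trans (by
        have := kK 384 5 0 (by norm_num) (by norm_num) (by norm_num)
        rw [pow_zero, mul_one] at this
        gcongr) hE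
      have b3 : (ds M m a i k ^ 2 * ((384 * S.C ^ 5) ^ 2 * S.F)) ^ 3 ≤ (ε ^ 2 * mf S (M.s y)) ^ 3 :=
        calc _ = (384 * S.C ^ 5) ^ 6 * S.F ^ 3 * ds M m a i k ^ 6 := by ring
          _ ≤ ε ^ 6 * E * ds M m a i k ^ 6 := by gcongr
          _ ≤ ε ^ 6 * mf S (M.s y) ^ 3 := by rw [mul_assoc]; gcongr
          _ = _ := by ring
      have b4 := le_of_pow_le_pow_left₀ three_ne_zero (by positivity) b3
      show ds M m a i k ≤ GaB M S ε y
      rw [GaB, ← sqrt_sq ε0.le, ← sqrt_mul (sq_nonneg _)]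
      refine le_sqrt_of_sq_le ?_
      rw [mn_eq, div_div, ← mul_div_assoc, le_div_iff₀ (by positivity)]
      exact le_of_eq_of_le (by ring) b4
    · have b1 := (N.η2 _ p0).trans
        (mul_le_mul_of_nonneg_left (N.ηa (show M.s y ≤ 2 * M.s i by linarith)) (by norm_num))
      have b2 := N.ηa y2
      unfold enB alB
      linarith [mul_le_mul_of_nonneg_left b1 Λ0, mul_le_mul_of_nonneg_left b2 Λ0]
    · have b1 := (Ug_le c g1 p0).trans (uw_two c p0 r0 (by linarith))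
      have b2 := pow_le_pow_left₀ (Ug_nn c g1 p0) b1 2
      unfold onB omB
      linarith [mul_le_mul_of_nonneg_left b2 Λ0]
    · have b1 := (Ug_le c g1 q0).trans (uw_anti c r0 y2)
      have b2 := pow_le_pow_left₀ (Ug_nn c g1 q0) b1 2
      unfold onB omB
      linarith [mul_le_mul_of_nonneg_left b2 Λ0, mul_nonneg Λ0 (sq_nonneg (uw S Lg (M.s y)))]
  · obtain ⟨r0, r1, r2⟩ := rg y h1 h2
    refine ⟨sm _ _ y (sq_nonneg _) (N.th2 _ r1 r2)
      (le_of_eq_of_le (by ring) (kK 1536 5 1 le_rfl (by norm_num) (by norm_num))), ?_, ?_⟩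
    · have b1 := uw_eta c N E0.le r0 r1 r2
      have b2 := eta_nn c N E0.le r0 r1 r2
      unfold omB alB jn
      linarith [mul_le_mul_of_nonneg_left b1 Λ0, mul_nonneg Λ0 b2]
    · rw [GaB, mul_pow, sq_sqrt (div_pos (A.mn_pos y) A.K_pos).le]
      exact le_of_eq (by have := A.K_pos; field_simp)

end Crest.Agent.T156.Alt.B75

end
end

-- ▼ part T156/BdS2_75

/-!
# Row 156, block (L): the bulk data with the clock of the absolute form (helper75)
-/

set_option autoImplicit false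
set_option linter.unusedSectionVars false

noncomputable section

namespace Crest.Agent.T156.Alt.B75

open Real Finset
open Crest.Agent.T156.Alt.E61 Crest.Agent.T156.Alt.Mp9 Crest.Agent.T156.Alt.Sz9
open Crest.Agent.T156.Alt.L69 (LN cr cl mf uw)
open Crest.Agent.T156.Alt.G89
open Crest.Agent.T156.Cut8 (LB int_split int_mono)

/-- slope of the label clock of the absolute form -/
def cc2 (M : Md) (S : Sc) (m : ℕ) (a Λ Lg X2 : ℝ) (y : ℕ) : ℝ := ccB M S m a Λ Lg y + Λ * X2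
/-- the low part of the absolute form -/
def rho (M : Md) (S : Sc) (m : ℕ) (a Λ X2 : ℝ) (u : ℕ) : ℝ :=
  Λ * X2 * (2602 * sb M m a (u + 1) + 2600 * (S.C * S.v) + M.z u) +
    Λ * ∑ k ∈ range (u + 1), M.dz m a k * u4 M m a k ^ 2

variable {S : Sc} {M : Md} {m : ℕ} {a T E Λ G1 l0 l V X Lg X2 X3 G0 lo τ1 ε B : ℝ} {η : ℝ → ℝ}
  {Gn : ℕ → Prop} {V0 u v : ℕ}

theorem Om_cc2 (c : Cl S M) {i k : ℕ} (hi : u ≤ i) (h : i ≤ k) (hk : k ≤ v) :
    Om M (cc2 M S m a Λ Lg X2) u v (M.z k) - Om M (cc2 M S m a Λ Lg X2) u v (M.z i) =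
      ∑ y ∈ Ioc i k, (M.z y - M.z (y - 1)) * ccB M S m a Λ Lg y + Λ * X2 * (M.z k - M.z i) := by
  rw [Om_eq c _ hi h hk, ← At.sum_dz M h, mul_sum, ← sum_add_distrib]
  exact sum_congr rfl fun y _ => by rw [cc2]; ring

/-- **`Bd` from `NG`** with the clock of the absolute form -/
theorem bd_of2 (A : At S M m a T) (ce : CeiG S M G1) (N : LN E S M l0 l V X Lg X2 X3 G0 η)
    (G : NG E Λ S M m a T lo Lg X2 τ1 η Gn V0) (hl : l ≤ lo) (Λ1 : 1 ≤ Λ) (θ1 : S.θ ≤ 1)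
    (ε0 : 0 < ε) (ε1 : ε ≤ 1) (hE : (1536 * S.C ^ 7 * Λ ^ 4) ^ 6 * S.F ^ 3 ≤ ε ^ 6 * E)
    (hu : 9 / 8 * lo ≤ M.s u) (uv : u < v) (hv : v ≤ V0) (gu : Gn u) (gv : Gn v)
    (hJ : sb M m a (v + 1) < M.s S.J) :
    Bd S M m a T Gn u v (enB M Λ η) (onB M S Λ Lg) (cc2 M S m a Λ Lg X2) (alB M Λ η)
      (omB M S Λ Lg) (GaB M S ε) (2602 * (Λ * X2)) (2 * Λ ^ 4 / Lg) (Λ / Lg) ε := by
  have D := bd_of A ce N G hl Λ1 θ1 ε0 ε1 hE hu uv hv gu gv hJ
  have c := A.cl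
  have hV := G.hV
  have i3 := c.i3
  have C1 := c.C1
  have C0 := c.C0
  have Λ0 : 0 ≤ Λ := by linarith
  set K := 1536 * S.C ^ 7 * Λ ^ 4 with hK
  have k1 : 1536 * (S.C ^ 5 * Λ ^ 3) ≤ K := by
    rw [hK, mul_assoc]
    exact mul_le_mul_of_nonneg_left (mul_le_mul (pow_le_pow_right₀ C1 (by norm_num))
      (pow_le_pow_right₀ Λ1 (by norm_num)) (by positivity) (by positivity)) (by norm_num)
  have k2 : S.C ^ 5 * Λ ≤ S.C ^ 5 * Λ ^ 3 :=
    mul_le_mul_of_nonneg_left (le_self_pow₀ Λ1 three_ne_zero) (by positivity)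
  have k3 : 1 ≤ S.C ^ 5 * Λ := one_le_mul_of_one_le_of_one_le (one_le_pow₀ C1) Λ1
  have K1 : 1536 ≤ K := by linarith
  have E0 : 0 < E := (mul_pos_iff_of_pos_left (pow_pos ε0 6)).1 (lt_of_lt_of_le (by
    have := c.F1; positivity) hE)
  have KE : 1536 * K ≤ ε * E := by
    have a1 : K ^ 2 ≤ K ^ 6 * S.F ^ 3 := (pow_le_pow_right₀ (by linarith) (by norm_num)).trans
      (le_mul_of_one_le_right (by positivity) (one_le_pow₀ c.F1))
    have a2 := (a1.trans hE).trans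
      (mul_le_mul_of_nonneg_right (pow_le_of_le_one ε0.le ε1 (by norm_num)) E0.le)
    nlinarith
  have g1 : 1 ≤ Lg := by
    linarith [mul_le_of_le_one_left E0.le ε1,
      (le_mul_of_one_le_right E0.le (one_le_pow₀ (n := 2) c.F1)).trans N.Lg0]
  have l0' : 0 < l := (mul_pos E0 (c.s_pos (c.i0.trans c.i1))).trans_le (N.l0s.trans N.l0l)
  have sm : ∀ (x κ : ℝ) (y : ℕ), 0 ≤ x → E * x ≤ mf S (M.s y) → 384 * S.C ^ 5 * κ ≤ 1536 * K →
      κ * x ≤ ε * mn M S y := fun x κ y x0 h1 h2 => by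
    rw [mn_eq, ← mul_div_assoc, le_div_iff₀ (by positivity)]
    calc κ * x * (384 * S.C ^ 5) = 384 * S.C ^ 5 * κ * x := by ring
      _ ≤ ε * E * x := mul_le_mul_of_nonneg_right (h2.trans KE) x0
      _ ≤ _ := by rw [mul_assoc]; exact mul_le_mul_of_nonneg_left h1 ε0.le
  have X20 := X2_nn c N E0.le
  have x0 := mul_nonneg Λ0 X20
  have x1 : ∀ y, u ≤ y → 2602 * Λ * X2 ≤ ε * mn M S y := fun y h =>
    sm X2 _ y X20 (N.th3.trans (Tn15.mf_mono c (by linarith [c.sm h]))) (by linarith)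
  refine ⟨A, D.up, D.sub, θ1, D.hu, uv, D.vJ, gu, gv, hJ, D.lo, D.me, ε0.le, ε1, D.th0, D.th1,
    by positivity, by linarith [x1 u le_rfl], D.ka0, D.ka1, fun y => add_nonneg (ccB_nn Λ0 y) x0,
    fun y h1 h2 => ?_, fun i k h1 h2 h3 gi gk => ?_, D.gap, D.nd⟩
  · have s1 := c.sm h1.le
    have a1 := ccB_uw (m := m) (a := a) c g1 Λ0 (show 0 < M.s y by linarith)
    have a2 := sm _ (4 * Λ ^ 3) y (sq_nonneg _) (N.th2 _ (by linarith) (c.s_le_C (by omega)))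
      (by linarith)
    unfold cc2
    linarith [x1 y h1.le]
  · have a1 := D.e1 i k h1 h2 h3 gi gk
    rw [Om_eq c _ h1 h2 h3] at a1
    have a2 := mul_nonneg x0 (sub_nonneg.2 (c.leg.zm h2))
    have a3 := mul_nonneg x0 (ds_nn A h2)
    rw [Om_cc2 c h1 h2 h3]
    unfold ds at a3
    linarith

/-- **the absolute form** at the good nodes of the bulk -/
theorem ab_of (A : At S M m a T) (G : NG E Λ S M m a T lo Lg X2 τ1 η Gn V0) (Λ1 : 1 ≤ Λ)
    (g0 : 0 < Lg) (X0 : 0 ≤ X2) (h0 : lo ≤ M.s u) (hv : v ≤ V0) (gu : Gn u) (i : ℕ) (h1 : u ≤ i)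
    (h2 : i ≤ v) (gi : Gn i) :
    |res M S m a T i| ≤ enB M Λ η i + onB M S Λ Lg i * |L0.Gd (lb M S m a T) (sb M m a (i + 1))| +
      rho M S m a Λ X2 u + (2602 * (Λ * X2) * (sb M m a (i + 1) - sb M m a (u + 1)) +
        2 * Λ ^ 4 / Lg * (∫ r in sb M m a (u + 1)..sb M m a (i + 1), gB M m a Gn u v r ^ 2) +
        (Om M (cc2 M S m a Λ Lg X2) u v (M.z i) - Om M (cc2 M S m a Λ Lg X2) u v (M.z u))) := by
  have c := A.cl
  have hV := G.hV
  have Λ0 : 0 ≤ Λ := by linarith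
  have a1 := G.ab i (h0.trans (c.sm h1)) (h2.trans hv) gi
  have a2 := clock A G Λ1 g0 h0 hv le_rfl gu i h1 h2 gi
  have a3 : ∑ k ∈ range i, M.dz m a k * u4 M m a k ^ 2 ≤
      ∑ k ∈ range (u + 1), M.dz m a k * u4 M m a k ^ 2 +
        ∑ y ∈ Ioc u i, (M.z y - M.z (y - 1)) * u4 M m a y ^ 2 := by
    rw [← sum_congr rfl (s₁ := Ioc u i) (f := fun y => M.dz m a y * u4 M m a y ^ 2) fun y hy => by
        rw [Md67.dz_up c.leg (by have := (mem_Ioc.1 hy).1; omega)],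
      ← sum_union (disjoint_left.2 fun y p q => by
        have := mem_range.1 p; have := (mem_Ioc.1 q).1; omega)]
    exact sum_le_sum_of_subset_of_nonneg (fun y hy => by
      have := mem_range.1 hy
      simp only [mem_union, mem_range, mem_Ioc]; omega) fun y _ _ =>
      mul_nonneg ((lg A).dz_nonneg y) (sq_nonneg _)
  have a4 : pb M m a (S.C * S.v) i ≤ 2602 * sb M m a (i + 1) + 2600 * (S.C * S.v) + M.z i := by
    have b1 := min_le_right 1 (2600 * (sb M m a (i + 1) + S.C * S.v))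
    have b2 := A.rb_le_sb (k := i) (by have := c.J_lt; omega)
    unfold pb; linarith
  have a5 := mul_le_mul_of_nonneg_left a4 (mul_nonneg Λ0 X0)
  have a6 := mul_le_mul_of_nonneg_left a3 Λ0
  rw [Om_cc2 c le_rfl h1 h2]
  unfold gd at a1
  unfold enB onB rho
  linarith

theorem crt_mul (c : Cl S M) {t k : ℝ} (t0 : 0 < t) (k1 : 1 ≤ k) :
    cr S (k * t) * (k * t) ≤ 2 * k * (cr S t * t) := by
  have k0 : 0 < k := by linarith
  have c1 := Tn15.cr1 S t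
  refine Tn15.le3 (by positivity) ?_
  rw [Tn15.crt3 c (mul_pos k0 t0), mul_pow (2 * k), Tn15.crt3 c t0]
  have a1 := mul_le_mul_of_nonneg_left (c.ms_mul t0.le k1)
    (show 0 ≤ S.F * (k * t) by have := Tn15.F0 c; positivity)
  have k3 : 0 ≤ k ^ 3 := by positivity
  have r1 := mul_le_mul_of_nonneg_left (le_max_left (t ^ 3) (S.F * S.ms t * t)) k3
  have r2 := mul_le_mul_of_nonneg_left (le_max_right (t ^ 3) (S.F * S.ms t * t)) k3
  have r3 : 0 ≤ k ^ 3 * t ^ 3 := by positivity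
  exact max_le (by linarith) (by linarith)


/-- **the low part is `L31.rh`** up to the constant, from the crude size below `u` -/
theorem rho_le (A : At S M m a T) (Λ0 : 0 ≤ Λ) (X0 : 0 ≤ X2) (V0' : 0 ≤ V) (B1 : 1 ≤ B)
    (l00 : 0 < l0) (hl : l0 ≤ M.s u) (hj : S.j0 ≤ u) (hJ : u < S.J)
    (me : 8 * S.C ^ 2 * S.v ≤ M.s u)
    (cru : ∀ k ≤ u, u4 M m a k ≤ B * cl S V (max (M.z k) l0)) :
    rho M S m a Λ X2 u ≤ 2602 * S.C ^ 3 * B ^ 2 * Λ *
      ((sb M m a (u + 1) + M.s u) * X2 + M.s u * cl S V (M.s u) ^ 2) := by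
  have c := A.cl
  have C1 := c.C1
  have C0 := c.C0
  have v0 := v_pos c
  have s0 : 0 < M.s u := l00.trans_le hl
  have sb0 := (A.sb_mem (k := u) (hJ.le.trans c.i3)).1
  have cv : 8 * (S.C * S.v) ≤ M.s u := by nlinarith [mul_pos C0 v0]
  have sC : M.s u ≤ S.C * M.s u := le_mul_of_one_le_left s0.le C1
  have zu : M.z u ≤ 2 * S.C * M.s u := by linarith [(c.z_s hj hJ).2]
  have q0 : 0 ≤ cl S V (M.s u) :=
    add_nonneg (mul_nonneg (zero_le_one.trans (Tn15.cr1 S _)) s0.le) V0'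
  have cw : ∀ k ≤ u, cl S V (max (M.z k) l0) ≤ 4 * S.C * cl S V (M.s u) := fun k hk => by
    have b1 := Tn15.crt_mono c (l00.trans_le (le_max_right (M.z k) l0))
      (max_le ((c.leg.zm hk).trans zu) (show l0 ≤ 2 * S.C * M.s u by linarith))
    have b2 := crt_mul c s0 (show 1 ≤ 2 * S.C by linarith)
    have b3 := mul_le_mul_of_nonneg_right C1 V0'
    unfold cl
    linarith
  have a1 : ∑ k ∈ range (u + 1), M.dz m a k * u4 M m a k ^ 2 ≤
      2 * S.C * M.s u * (B * (4 * S.C * cl S V (M.s u))) ^ 2 := by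
    refine (sum_le_sum fun k hk => mul_le_mul_of_nonneg_left (pow_le_pow_left₀ (u4_nn k)
      ((cru k (Nat.lt_succ_iff.1 (mem_range.1 hk))).trans (mul_le_mul_of_nonneg_left
        (cw k (Nat.lt_succ_iff.1 (mem_range.1 hk))) (by linarith))) 2) ((lg A).dz_nonneg k)).trans ?_
    rw [← sum_mul, Md67.sum_dz_range c.leg]
    exact mul_le_mul_of_nonneg_right (by linarith [(lg A).a0]) (sq_nonneg _)
  have k1 : S.C ≤ S.C ^ 3 * B ^ 2 := (le_self_pow₀ C1 three_ne_zero).trans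
    (le_mul_of_one_le_right (by positivity) (one_le_pow₀ B1))
  have a2 : 2602 * sb M m a (u + 1) + 2600 * (S.C * S.v) + M.z u ≤
      2602 * S.C ^ 3 * B ^ 2 * (sb M m a (u + 1) + M.s u) := by
    have := mul_le_mul_of_nonneg_right k1 s0.le
    have := mul_le_mul_of_nonneg_right (C1.trans k1) sb0
    linarith
  have a3 := mul_le_mul_of_nonneg_left a2 (mul_nonneg Λ0 X0)
  have a4 := mul_le_mul_of_nonneg_left a1 Λ0
  have a5 : 0 ≤ S.C ^ 3 * B ^ 2 * Λ * (M.s u * cl S V (M.s u) ^ 2) := by positivity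
  unfold rho
  linarith

end Crest.Agent.T156.Alt.B75

end
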