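import Crest.Agent.T156.Abel_33
import Crest.Agent.T156.TL1cD_74
import Crest.Agent.T156.LInt_31
import Crest.Agent.T156.BdS2_75
import Crest.Agent.T156.RtN_93
import Crest.Agent.T156.LOb_25
import Crest.Agent.T156.TLqP_53
import Crest.Agent.T156.PgZ_33
import Crest.Agent.T156.NdB_89
import Crest.Agent.T156.NdS_22
import Crest.Agent.T156.GdT_65
import Crest.Agent.T156.SzL_32

-- ▼ part T156/BoA_93
section

/-!
# Row 156, block (L): from the node form of the bulk to the form read by the cuts (helper93)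
-/

set_option autoImplicit false

noncomputable section

namespace Crest.Agent.T156.Alt.B93

open Real MeasureTheory Crest.Agent.T156.Alt.Mp9 Crest.Agent.T156.Cut8 Crest.Agent.T156.Alt.L69
open Crest.Agent.T156.Alt.C74 Crest.Agent.T156.Gap27

variable {S : Sc} {M : Md} {m : ℕ} {a T : ℝ}

theorem W0_nn' (h : Cl S M) {l : ℝ} (l0 : 0 < l) : 0 ≤ W0 S l := by
  have := h.ms_pos l0.le
  unfold W0; positivity

theorem lb_u (A : At S M m a T) : LB T (uu M S m a T) :=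
  (LB.of_mono (Sc48.lvr_mono A.okb.1.1)).sub (LB.of_mono (Sc48.lvr_mono A.okh.1.1))


/-- the reference time of a node from the location -/
theorem s_le (A : At S M m a T) {k : ℕ} {t : ℝ} (h1 : S.jl ≤ k) (h2 : k < S.J)
    (h3 : sb M m a (k + 1) < M.s S.J) (h4 : sb M m a (k + 1) ≤ 7 * t / 4)
    (hv : S.C ^ 2 * S.v ≤ t)
    (loc : ∀ r, 0 ≤ r → r ≤ 7 * t / 4 → |uu M S m a T r| ≤ t / (8 * S.C)) : M.s k ≤ 4 * t := by
  have kp := h2.le.trans A.cl.i3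
  have x0 := (A.sb_mem kp).1
  have C0 := A.c_pos
  have d := A.dist_le (A.cell h1 kp) (A.cl.i1.trans h1) h2 x0 h3
  have e := mul_le_mul_of_nonneg_left (loc _ x0 h4) C0.le
  rw [show S.C * (t / (8 * S.C)) = t / 8 by field_simp] at e
  have f := neg_abs_le (sb M m a (k + 1) - M.s k)
  rw [mul_add] at d
  linarith [show S.C * (S.C * S.v) = S.C ^ 2 * S.v by ring]

/-- a good node in the window `[3 t / 2, 7 t / 4]` -/
theorem window (A : At S M m a T) {Gn : ℕ → Prop} {u v : ℕ} {t L : ℝ} (ju : S.jl < u) (uv : u ≤ v)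
    (vJ : v < S.J) (gu : Gn u) (gv : Gn v) (hJ : sb M m a (v + 1) < M.s S.J)
    (sh : ∀ i k, Nx Gn u v i k → 16 * (sb M m a (k + 1) - sb M m a (i + 1)) ^ 2 ≤ L * S.ms (M.s i))
    (L0 : 0 ≤ L) (h1 : sb M m a (u + 1) < t) (h2 : 2 * t ≤ sb M m a (v + 1))
    (h3 : L * S.ms (4 * t) ≤ t ^ 2) (hv : S.C ^ 2 * S.v ≤ t)
    (loc : ∀ r, 0 ≤ r → r ≤ 7 * t / 4 → |uu M S m a T r| ≤ t / (8 * S.C)) :
    ∃ k, u ≤ k ∧ k ≤ v ∧ Gn k ∧ 3 * t / 2 ≤ sb M m a (k + 1) ∧ sb M m a (k + 1) ≤ 7 * t / 4 ∧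
      M.s k ≤ 4 * t := by
  have x0 := (A.sb_mem (uv.trans (vJ.le.trans A.cl.i3))).1
  have t0 : 0 < t := x0.trans_lt h1
  obtain ⟨i, k, n, p1, p2⟩ := exists_nx (σ := fun j => sb M m a (j + 1)) (t := 3 * t / 2) uv gu gv
    (by linarith) (by linarith)
  have q := sh i k n
  obtain ⟨n1, n2, n3, -, n5, -⟩ := n
  have lt : ∀ j, j ≤ v → sb M m a (j + 1) < M.s S.J := fun j h =>
    (A.sb_mono (Nat.succ_le_succ h)).trans_lt hJ
  have a1 := s_le A (k := i) (by omega) (by omega) (lt i (by omega)) (by linarith) hv loc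
  have a2 := q.trans ((mul_le_mul_of_nonneg_left (A.cl.msm a1) L0).trans h3)
  have a3 : sb M m a (k + 1) - sb M m a (i + 1) ≤ t / 4 :=
    le_of_sq_le_sq (by linarith) (by positivity)
  exact ⟨k, by omega, n3, n5, p2, by linarith,
    s_le A (by omega) (by omega) (lt k n3) (by linarith) hv loc⟩

theorem n_le (h : Cl S M) {l : ℝ} (l0 : 0 < l) (l1 : l ≤ 1) (hw : S.w3 l ≤ l ^ 3) :
    1 / (S.n : ℝ) ^ 3 ≤ W0 S l ∧ 1 / (S.n : ℝ) ^ 3 ≤ l ^ 2 * (cr S l * l) ^ 3 := by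
  have n1 : (1 : ℝ) ≤ S.n := by exact_mod_cast h.n1
  have m0 := h.ms_pos l0.le
  have F1 := h.F1
  unfold Sc.w3 at hw
  rw [div_le_iff₀ (by positivity)] at hw
  have a1 : 1 / (S.n : ℝ) ^ 3 ≤ S.ms l * l ^ 4 := by
    rw [div_le_iff₀ (by positivity)]
    have := mul_le_mul_of_nonneg_left (le_self_pow₀ n1 three_ne_zero)
      (show 0 ≤ S.ms l * l ^ 4 by positivity)
    linarith
  have a2 : S.ms l * l ^ 4 ≤ S.ms l * l ^ 3 :=
    mul_le_mul_of_nonneg_left (pow_le_pow_of_le_one l0.le l1 (by norm_num)) m0.le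
  have a3 : S.ms l * l ≤ (cr S l * l) ^ 3 := by
    rw [Ab33.cc_cube h l0]
    exact le_max_of_le_right (by nlinarith [mul_pos m0 l0])
  refine ⟨?_, ?_⟩
  · unfold W0
    linarith [pow_pos l0 5]
  · linarith [mul_le_mul_of_nonneg_left a3 (sq_nonneg l)]

theorem cc_mul (h : Cl S M) {l t R : ℝ} (l0 : 0 < l) (h1 : l ≤ t) (h2 : t ≤ R * l) :
    cr S t * t ≤ 2 * R * (cr S l * l) := by
  have := mul_le_mul (Ab33.cr_dbl h l0 h1) h2 (by linarith) (by linarith [Ab33.cr_one S l])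
  linarith

theorem lcc (h : Cl S M) {l : ℝ} (l0 : 0 < l) :
    l * (cr S l * l) ^ 2 ≤ S.F * S.ms l * l + l ^ 3 := by
  have c := Ab33.cc_cube h l0
  have c1 : l ≤ cr S l * l := le_mul_of_one_le_left l0.le (Ab33.cr_one S l)
  have m0 := h.ms_pos l0.le
  have F1 := h.F1
  have := mul_le_mul_of_nonneg_right c1 (sq_nonneg (cr S l * l))
  have : max (l ^ 3) (S.F * S.ms l * l) ≤ S.F * S.ms l * l + l ^ 3 :=
    max_le (le_add_of_nonneg_left (by positivity)) (le_add_of_nonneg_right (by positivity))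
  linarith

theorem gd_le (A : At S M m a T) {k : ℕ} (h1 : S.jl ≤ k) (h2 : k < S.J) :
    |L0.Gd (lb M S m a T) (sb M m a (k + 1))| ≤ 4 * sb M m a (k + 1) + 6 * S.C ^ 2 * M.s k := by
  have kp := h2.le.trans A.cl.i3
  have mx := A.sb_mem kp
  have p1 := L0.Gd_le (L0.ap_of_ok A.okb.1) (A.okb.2.symm ▸ mx)
  have p2 := L0.Gd_ge A.okb.1.1 (sb M m a (k + 1))
  rw [A.lvb_node h1 kp] at p2
  have p3 := Ab33.z_le A.cl h1 h2
  have p4 : 0 ≤ S.C ^ 2 * M.s k := mul_nonneg (sq_nonneg _) (A.cl.s_nn k)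
  exact abs_le.2 ⟨by linarith [mx.1], by linarith⟩

theorem L4_mono {V X t0 t1 t1' Y : ℝ} (h : L4 S V X t0 t1 Y) (h1 : t1' ≤ t1) : L4 S V X t0 t1' Y :=
  fun t p q => h t p (q.trans h1)

theorem L4_nn (h : Cl S M) {V X t0 t1 Y : ℝ} (H : L4 S V X t0 t1 Y) (t00 : 0 < t0) (h1 : t0 ≤ t1)
    (V0 : 0 ≤ V) (X0 : 0 ≤ X) : 0 ≤ Y := by
  have c0 : 0 ≤ cl S V t0 := by
    have := Ab33.cr_one S t0
    unfold cl; positivity
  have w0 : 0 ≤ ws S V t0 := by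
    have n1 : (1 : ℝ) ≤ S.n := by exact_mod_cast h.n1
    have m0 := h.ms_pos t00.le
    have F1 := h.F1
    unfold ws Sc.w3; positivity
  have : 0 ≤ min X (cl S V t0 ^ 3) := le_min X0 (by positivity)
  exact le_trans (by positivity) (H t0 le_rfl h1)

theorem three_sq {r P Q x y z : ℝ} (P0 : 0 ≤ P) (x0 : 0 ≤ x) (y0 : 0 ≤ y) (z0 : 0 ≤ z)
    (hQ : Q ≤ P ^ 2) (h : r ^ 2 ≤ Q * (x ^ 2 + y + z ^ 2)) : r ≤ P * (x + z + √y) := by
  have e := sq_sqrt y0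
  have s0 := sqrt_nonneg y
  refine le_of_sq_le_sq (h.trans ?_) (by positivity)
  rw [mul_pow]
  refine mul_le_mul hQ ?_ (by positivity) (sq_nonneg _)
  nlinarith [mul_nonneg x0 z0, mul_nonneg x0 s0, mul_nonneg z0 s0]

theorem cl_big (K : ℝ → ℝ) : CL fun _ Λ S _ _ _ => K S.C ≤ Λ ∧ S.θ ≤ 1 := fun C => by
  filter_upwards [Filter.eventually_ge_atTop 2] with A hA ε _ η hη
  filter_upwards [ev_rgc C hA hη (K C)] with n H S M b1 b2 b3 h m a _
  have R := H S b1 b2 b3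
  subst b1 b3
  exact ⟨R.K_le, by nlinarith [h.msθ, R.log1, h.θ0]⟩

theorem pw_le {Λ W E : ℝ} (L1 : 1 ≤ Λ) (W1 : 1 ≤ W) (h1 : Λ ^ 1000 ≤ E) (h2 : W ^ 1000 ≤ E) :
    (Λ * W ^ 10) ^ 14 ≤ E := by
  rcases le_total Λ W with c | c
  · refine le_trans ?_ ((pow_le_pow_right₀ W1 (show 11 * 14 ≤ 1000 by norm_num)).trans h2)
    rw [pow_mul, pow_succ' W 10]
    gcongr
  · refine le_trans ?_ ((pow_le_pow_right₀ L1 (show 11 * 14 ≤ 1000 by norm_num)).trans h1)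
    rw [pow_mul, pow_succ' Λ 10]
    gcongr

/-- the context of the root -/
structure Cx (E W R L lam : ℝ) (S : Sc) (M : Md) (m : ℕ) (a G1 l X Lg X2 X3 G0 : ℝ) (η : ℝ → ℝ)
    (u : ℕ) : Prop where
  A : At S M m a (2 * S.C)
  ce : CeiG S M G1
  ln : LN E S M l l (cr S l * l) X Lg X2 X3 G0 η
  θ1 : S.θ ≤ 1
  F2 : S.F ^ 40 ≤ E
  l1 : 1 ≤ lam
  lW : lam ≤ W
  R1 : 1 ≤ R
  hL : 100 * S.C ^ 7 * R ^ 3 * W ≤ L
  LE : L ^ 14 ≤ E
  cru : ∀ k ≤ S.Jp, M.rb m a k ≤ lam * cl S (cr S l * l) (max (M.z k) l)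
  s0 : l < M.s u
  s1 : M.s u ≤ R * l
  uJ : u < S.J

namespace Cx
variable {E W R L lam G1 l X Lg X2 X3 G0 : ℝ} {η : ℝ → ℝ} {u : ℕ}
  (Z : Cx E W R L lam S M m a G1 l X Lg X2 X3 G0 η u)
include Z

theorem W1 : 1 ≤ W := Z.l1.trans Z.lW

theorem cst {i j : ℕ} (hi : i ≤ 7) (hj : j ≤ 3) : 100 * (S.C ^ i * R ^ j * W) ≤ L := by
  have C1 := Z.A.cl.C1
  have R1 := Z.R1
  have W1 := Z.W1
  refine le_trans ?_ Z.hL
  rw [mul_assoc 100, mul_assoc 100]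
  gcongr

theorem L1 : 100 ≤ L := by
  have := Z.cst (i := 0) (j := 0) (by norm_num) (by norm_num)
  have := Z.W1
  simp only [pow_zero, one_mul] at *
  linarith

theorem cC {i : ℕ} (hi : i ≤ 7) : 100 * S.C ^ i ≤ L := by
  have := Z.cst (i := i) (j := 0) hi (by norm_num)
  rw [pow_zero, mul_one] at this
  linarith [le_mul_of_one_le_right (pow_pos Z.A.c_pos i).le Z.W1]

theorem L2 : L ^ 2 ≤ E := (pow_le_pow_right₀ (by linarith [Z.L1]) (by norm_num)).trans Z.LE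

theorem LE1 : L ≤ E := (le_self_pow₀ (by linarith [Z.L1]) two_ne_zero).trans Z.L2

theorem E1 : 1 ≤ E := by linarith [Z.L1, Z.LE1]

theorem jl_le : L * M.s S.jl ≤ l :=
  (mul_le_mul_of_nonneg_right Z.LE1 (Z.A.cl.s_nn _)).trans Z.ln.l0s

theorem v_le' : 100 * (S.C ^ 2 * S.v) ≤ l := by
  have h := Z.A.cl
  have a := mul_le_mul_of_nonneg_left (Ab33.v_le h (h.i0.trans h.i1) (by have := h.i2; omega))
    (sq_nonneg S.C)
  have b := mul_le_mul_of_nonneg_right (Z.cC (i := 3) (by norm_num)) (h.s_nn S.jl)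
  have c : 0 ≤ S.C ^ 3 * M.s S.jl := mul_nonneg (pow_pos h.C0 3).le (h.s_nn _)
  linarith [Z.jl_le]

theorem v_le : S.C ^ 2 * S.v ≤ l := by
  linarith [Z.v_le', mul_pos (pow_pos Z.A.c_pos 2) Z.A.cl.v0]

theorem l0 : 0 < l := lt_of_lt_of_le (mul_pos (pow_pos Z.A.c_pos 2) Z.A.cl.v0) Z.v_le

theorem Ll : L * l ≤ 1 := (mul_le_mul_of_nonneg_right Z.LE1 Z.l0.le).trans Z.ln.l1

theorem l_le : l ≤ 1 := by nlinarith [Z.Ll, Z.L1, Z.l0]

theorem ju : S.jl < u := lt_of_not_ge fun c => by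
  have := Z.A.cl.sm c
  nlinarith [Z.jl_le, Z.s0, Z.L1, Z.A.cl.s_nn S.jl]

theorem sC : M.s u ≤ S.C := (Z.A.cl.sm (Z.uJ.le.trans Z.A.cl.i3)).trans Z.A.cl.sT

theorem cc0 : l ≤ cr S l * l := le_mul_of_one_le_left Z.l0.le (Ab33.cr_one S l)

theorem x0 : 0 ≤ sb M m a (u + 1) := (Z.A.sb_mem (Z.uJ.le.trans Z.A.cl.i3)).1

theorem X20 : 0 ≤ X2 := le_trans (mul_nonneg Z.l0.le (sq_nonneg _)) Z.ln.x2a

theorem sb_le : sb M m a (u + 1) ≤ 32 * (S.C ^ 3 * R * W) * (cr S l * l) := by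
  have h := Z.A.cl
  have l0 := Z.l0
  have l1 := Z.l1
  have c : Cru (2 * lam) S M m a l := fun k hk => (Z.cru k hk).trans (by
    have := Ab33.cc_mono h l0 (le_max_right (M.z k) l)
    unfold cl
    nlinarith)
  have a1 := Ab33.sb_le Z.A Z.ce Z.ln.HJ (Ab33.cg_cru h l0 (by linarith) c) Z.ju Z.uJ Z.s0.le
  have a2 := cc_mul h l0 Z.s0.le Z.s1
  have C0 := h.C0
  have R1 := Z.R1
  have c0 := l0.trans_le Z.cc0
  calc _ ≤ _ := a1
    _ ≤ 8 * S.C ^ 3 * (2 * W * (2 * R * (cr S l * l))) := by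
        have := Ab33.cr_one S (M.s u)
        have := h.s_nn u
        have := Z.lW
        have := Z.W1
        gcongr
    _ = _ := by ring

theorem cru' : sb M m a (u + 1) ≤ L * (cr S l * l) := Z.sb_le.trans (by
  have := Z.cst (i := 3) (j := 1) (by norm_num) (by norm_num)
  rw [pow_one] at this
  have : 0 ≤ S.C ^ 3 * R * W := by
    have := Z.A.c_pos
    have := Z.R1
    have := Z.W1
    positivity
  exact mul_le_mul_of_nonneg_right (by linarith) (Z.l0.le.trans Z.cc0))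

theorem x_small : 16 * S.C ^ 5 * sb M m a (u + 1) < 1 := by
  have h := Z.A.cl
  have l0 := Z.l0
  have F1 := h.F1
  have L1 := Z.L1
  have a1 : (cr S l * l) ^ 3 ≤ S.F * l := by
    rw [Ab33.cc_cube h l0]
    refine max_le ((pow_le_of_le_one l0.le Z.l_le three_ne_zero).trans
      (le_mul_of_one_le_left l0.le F1)) (mul_le_mul_of_nonneg_right
        (mul_le_of_le_one_right (by linarith) ((h.ms1 l).trans Z.θ1)) l0.le)
  have a2 : L ^ 7 * S.F ≤ E := by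
    refine le_of_sq_le_sq ?_ (by linarith [Z.E1])
    rw [mul_pow, ← pow_mul, sq E]
    exact mul_le_mul Z.LE ((pow_le_pow_right₀ F1 (by norm_num)).trans Z.F2) (by positivity)
      (by linarith [Z.E1])
  have a3 : 16 * S.C ^ 5 * sb M m a (u + 1) ≤ L ^ 2 * (cr S l * l) := by
    have := mul_le_mul (show 16 * S.C ^ 5 ≤ L by
      linarith [Z.cC (i := 5) (by norm_num), pow_pos h.C0 5]) Z.cru' Z.x0 (by linarith)
    linarith
  refine a3.trans_lt (lt_of_pow_lt_pow_left₀ 3 zero_le_one ?_)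
  have a4 := (mul_le_mul_of_nonneg_right a2 l0.le).trans Z.ln.l1
  have a5 := mul_le_mul_of_nonneg_left a1 (show 0 ≤ L ^ 6 by positivity)
  have a6 := mul_lt_mul_of_pos_right (show 1 < L by linarith)
    (show 0 < L ^ 6 * (S.F * l) by positivity)
  linarith [show (L ^ 2 * (cr S l * l)) ^ 3 = L ^ 6 * (cr S l * l) ^ 3 by ring]

theorem low : M.s u * cl S (cr S l * l) (M.s u) ^ 2 ≤ 9 * R ^ 3 * (l * (cr S l * l) ^ 2) := by
  have h := Z.A.cl
  have l0 := Z.l0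
  have a2 := cc_mul h l0 Z.s0.le Z.s1
  have c0 := l0.trans_le Z.cc0
  have R1 := Z.R1
  have a1 : cl S (cr S l * l) (M.s u) ≤ 3 * R * (cr S l * l) := by
    unfold cl
    nlinarith
  have a0 : 0 ≤ cl S (cr S l * l) (M.s u) := by
    have := Ab33.cr_one S (M.s u)
    have := h.s_nn u
    unfold cl; positivity
  have := mul_le_mul Z.s1 (pow_le_pow_left₀ a0 a1 2) (sq_nonneg _) (by positivity)
  linarith

theorem ru {x : ℝ} (hx : x ≤ W * (η (M.s u) + uw S Lg (M.s u) ^ 2 *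
    |L0.Gd (lb M S m a (2 * S.C)) (sb M m a (u + 1))| + ((sb M m a (u + 1) + M.s u) * X2 +
      M.s u * cl S (cr S l * l) (M.s u) ^ 2))) :
    x ≤ L * (S.F * S.ms l * l + l ^ 3) + S.ms l * sb M m a (u + 1) / L := by
  have h := Z.A.cl
  have l0 := Z.l0
  have F1 := h.F1
  have E1 := Z.E1
  have R1 := Z.R1
  have W1 := Z.W1
  have L1 := Z.L1
  have C1 := h.C1
  have x0 := Z.x0
  have m0 := h.ms_pos l0.le
  have mf : ∀ t, 0 ≤ t → mf S t ≤ S.ms t := fun t t0 => div_le_self (h.ms_pos t0).le F1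
  have lC : l ≤ S.C := Z.l_le.trans C1
  have e0 : 0 ≤ η l := by
    linarith [Z.ln.η2 l l0, Z.ln.ηa (show l ≤ 2 * l by linarith)]
  have a1 : η (M.s u) ≤ S.ms l * l := (Z.ln.ηa Z.s0.le).trans
    ((le_mul_of_one_le_left e0 E1).trans ((Z.ln.th4 l le_rfl lC).trans
      (mul_le_mul_of_nonneg_right (mf l l0.le) l0.le)))
  have a2 : E * uw S Lg (M.s u) ^ 2 ≤ 4 * R ^ 2 * S.ms l :=
    (Z.ln.th2 _ Z.s0.le Z.sC).trans ((mf _ (h.s_nn u)).trans ((h.msm Z.s1).trans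
      (h.ms_mul l0.le R1)))
  have a3 := gd_le Z.A Z.ju.le Z.uJ
  have a4 : E * X2 ≤ S.ms l := Z.ln.th3.trans (mf l l0.le)
  have a5 := Z.low
  have a6 := lcc h l0
  have s1 := Z.s1
  have s0 := h.s_nn u
  have X0 := Z.X20
  have L2 := Z.L2
  have k1 := Z.cst (i := 2) (j := 3) (by norm_num) le_rfl
  have k2 := Z.cst (i := 0) (j := 2) (by norm_num) (by norm_num)
  rw [pow_zero, one_mul] at k2
  have g0 := abs_nonneg (L0.Gd (lb M S m a (2 * S.C)) (sb M m a (u + 1)))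
  generalize uw S Lg (M.s u) ^ 2 = w at *
  generalize |L0.Gd (lb M S m a (2 * S.C)) (sb M m a (u + 1))| = g at *
  generalize sb M m a (u + 1) = y at *
  generalize M.s u * cl S (cr S l * l) (M.s u) ^ 2 = q at *
  generalize l * (cr S l * l) ^ 2 = q' at *
  generalize S.ms l = μ at *
  obtain ⟨D, hD⟩ : ∃ D, D = S.F * μ * l + l ^ 3 := ⟨_, rfl⟩
  rw [← hD] at a6 ⊢
  have d1 : μ * l ≤ D := by
    rw [hD]; nlinarith [mul_pos m0 l0, pow_pos l0 3]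
  have c2 : 1 ≤ S.C ^ 2 := one_le_pow₀ C1
  have r2 : 1 ≤ R ^ 2 := one_le_pow₀ R1
  have r3 : R ≤ R ^ 3 := le_self_pow₀ R1 three_ne_zero
  have E0 : 0 < E := by linarith
  have b1 : E * (w * g) ≤ 4 * R ^ 2 * μ * (4 * y + 6 * S.C ^ 2 * (R * l)) := by
    rw [← mul_assoc]
    exact mul_le_mul a2 (a3.trans (by gcongr)) g0 (by positivity)
  have b2 : E * ((y + M.s u) * X2) ≤ (y + R * l) * μ := by
    rw [mul_left_comm]
    exact mul_le_mul (by linarith) a4 (by positivity) (by positivity)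
  have b3 : E * (w * g + (y + M.s u) * X2) ≤ 17 * R ^ 2 * (μ * y) +
      E * (25 * (S.C ^ 2 * R ^ 3) * D) := by
    have t1 := mul_le_mul_of_nonneg_right r2 (mul_nonneg m0.le x0)
    have t2 : R * (μ * l) ≤ S.C ^ 2 * R ^ 3 * D :=
      mul_le_mul (r3.trans (le_mul_of_one_le_left (by positivity) c2)) d1 (by positivity)
        (by positivity)
    have t3 := mul_le_mul_of_nonneg_left d1 (show 0 ≤ S.C ^ 2 * R ^ 3 by positivity)
    have t4 := mul_le_mul_of_nonneg_right E1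
      (show 0 ≤ 25 * (S.C ^ 2 * R ^ 3) * D by have := (mul_pos m0 l0).le.trans d1; positivity)
    linarith
  have b4 : W * (17 * R ^ 2 * (μ * y)) ≤ E * (μ * y / L) := by
    rw [← mul_div_assoc, le_div_iff₀ (by linarith)]
    have t1 : W * (17 * R ^ 2) * L ≤ E := by
      have := mul_le_mul_of_nonneg_right k2 (show 0 ≤ L by linarith)
      nlinarith [show 0 ≤ R ^ 2 * W * L by positivity]
    linarith [mul_le_mul_of_nonneg_right t1 (mul_nonneg m0.le x0)]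
  have b5 : W * (w * g + (y + M.s u) * X2) ≤ μ * y / L + W * (25 * (S.C ^ 2 * R ^ 3) * D) := by
    refine le_of_mul_le_mul_left ?_ E0
    linarith [mul_le_mul_of_nonneg_left b3 (show 0 ≤ W by linarith)]
  have D0 : 0 ≤ D := (mul_pos m0 l0).le.trans d1
  have b6 : η (M.s u) + q ≤ 10 * (S.C ^ 2 * R ^ 3) * D := by
    have t1 : 1 ≤ S.C ^ 2 * R ^ 3 := one_le_mul_of_one_le_of_one_le c2 (R1.trans r3)
    have t2 : R ^ 3 ≤ S.C ^ 2 * R ^ 3 := le_mul_of_one_le_left (by positivity) c2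
    have t3 := mul_le_mul_of_nonneg_left a6 (show 0 ≤ R ^ 3 by positivity)
    linarith [mul_le_mul_of_nonneg_right t1 D0, mul_le_mul_of_nonneg_right t2 D0]
  have b7 := mul_le_mul_of_nonneg_left b6 (show 0 ≤ W by linarith)
  have b8 := mul_le_mul_of_nonneg_right k1 D0
  have b9 : 0 ≤ S.C ^ 2 * R ^ 3 * W * D := by positivity
  linarith

theorem rho {r Y : ℝ} (Y0 : 0 ≤ Y) (hr : r ^ 2 ≤ W * sb M m a (u + 1) *
    (sb M m a (u + 1) * X2 ^ 2 + Y + 1 / (S.n : ℝ) ^ 3)) :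
    W * ((sb M m a (u + 1) + M.s u) * X2 + M.s u * cl S (cr S l * l) (M.s u) ^ 2) + r ≤
      L * ((sb M m a (u + 1) + l) * X2 + l * (cr S l * l) ^ 2 + √(sb M m a (u + 1) * Y)) := by
  have h := Z.A.cl
  have l0 := Z.l0
  have R1 := Z.R1
  have W1 := Z.W1
  have C1 := h.C1
  have x0 := Z.x0
  have X0 := Z.X20
  have a1 := (n_le h l0 Z.l_le Z.ln.l0w).2
  have a2 := Z.sb_le
  have a5 := Z.low
  have s1 := Z.s1
  have c0 := l0.trans_le Z.cc0
  have k1 := Z.cst (i := 3) (j := 3) (by norm_num) le_rfl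
  have c3 : 1 ≤ S.C ^ 3 := one_le_pow₀ C1
  have r3 : R ≤ R ^ 3 := le_self_pow₀ R1 three_ne_zero
  generalize M.s u * cl S (cr S l * l) (M.s u) ^ 2 = q at *
  generalize sb M m a (u + 1) = y at *
  generalize cr S l * l = c at *
  obtain ⟨P, hP⟩ : ∃ P, P = S.C ^ 3 * R ^ 3 * W := ⟨_, rfl⟩
  have p1 : S.C ^ 3 * R * W ≤ P := by rw [hP]; gcongr
  have p2 : R ^ 3 * W ≤ P := by
    rw [hP, mul_assoc]; exact le_mul_of_one_le_left (by positivity) c3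
  have p3 : R * W ≤ P := le_trans (by gcongr) p2
  have p4 : W ≤ P := (le_mul_of_one_le_left (by linarith) R1).trans p3
  have P1 : 1 ≤ P := W1.trans p4
  rw [← hP] at k1
  have b1 : y * (1 / (S.n : ℝ) ^ 3) ≤ 32 * P * (l * c ^ 2) ^ 2 := by
    have := mul_le_mul (a2.trans (show _ ≤ 32 * P * c by gcongr)) a1 (by positivity)
      (by positivity)
    linarith
  have b2 : r ≤ 6 * P * (y * X2 + l * c ^ 2 + √(y * Y)) := by
    refine three_sq (Q := W * (32 * P)) (by positivity) (by positivity) (by positivity)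
      (by positivity) (by nlinarith) (hr.trans ?_)
    rw [mul_assoc W, mul_assoc W]
    refine mul_le_mul_of_nonneg_left ?_ (by linarith)
    have := mul_le_mul_of_nonneg_right (show 1 ≤ 32 * P by linarith)
      (show 0 ≤ (y * X2) ^ 2 + y * Y by positivity)
    linarith
  have b3 : W * ((y + M.s u) * X2) ≤ P * ((y + l) * X2) := by
    have t1 := mul_le_mul_of_nonneg_right p4 x0
    have t2 := mul_le_mul_of_nonneg_right p3 l0.le
    have t3 := mul_le_mul_of_nonneg_left s1 (show 0 ≤ W by linarith)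
    rw [← mul_assoc, ← mul_assoc]
    exact mul_le_mul_of_nonneg_right (by linarith) X0
  have b4 : W * q ≤ 9 * P * (l * c ^ 2) := by
    have t1 := mul_le_mul_of_nonneg_left a5 (show 0 ≤ W by linarith)
    have t2 := mul_le_mul_of_nonneg_right p2 (show 0 ≤ l * c ^ 2 by positivity)
    linarith
  have b5 := mul_le_mul_of_nonneg_right k1
    (show 0 ≤ (y + l) * X2 + l * c ^ 2 + √(y * Y) by positivity)
  have b6 : 0 ≤ P * (y * X2) := by positivity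
  have b7 : 0 ≤ P * (l * X2) := by positivity
  have b8 : 0 ≤ P * (l * c ^ 2) := by positivity
  have b9 : 0 ≤ P * √(y * Y) := by positivity
  linarith

theorem win {Gn : ℕ → Prop} {v : ℕ} {t : ℝ} (uv : u ≤ v) (vJ : v < S.J) (gu : Gn u) (gv : Gn v)
    (hJ : sb M m a (v + 1) < M.s S.J)
    (sh : ∀ i k, Nx Gn u v i k → (sb M m a (k + 1) - sb M m a (i + 1)) ^ 2 ≤ W * S.ms (M.s i))
    (h1 : sb M m a (u + 1) < t) (h2 : 2 * t ≤ sb M m a (v + 1)) (h3 : L * l ≤ t)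
    (h4 : L * S.ms (4 * t) ≤ t ^ 2)
    (loc : ∀ r, 0 ≤ r → r ≤ 7 * t / 4 → |uu M S m a (2 * S.C) r| ≤ t / (8 * S.C)) :
    ∃ k, u ≤ k ∧ k ≤ v ∧ Gn k ∧ 3 * t / 2 ≤ sb M m a (k + 1) ∧ sb M m a (k + 1) ≤ 7 * t / 4 ∧
      M.s k ≤ 4 * t := by
  have k0 := Z.cst (i := 0) (j := 0) (by norm_num) (by norm_num)
  simp only [pow_zero, one_mul] at k0
  have L1 := Z.L1
  refine window Z.A Z.ju uv vJ gu gv hJ (fun i k n => ?_) (by linarith) h1 h2 h4
    (Z.v_le.trans ((le_mul_of_one_le_left Z.l0.le (by linarith)).trans h3)) loc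
  have m0 := (Z.A.cl.ms_pos (Z.A.cl.s_nn i)).le
  linarith [sh i k n, mul_le_mul_of_nonneg_right k0 m0,
    mul_nonneg (show 0 ≤ W by linarith [Z.W1]) m0]

theorem hF {f : ℝ → ℝ} {s x t : ℝ} (lf : LB (2 * S.C) f) (lH : LB (2 * S.C) (HH M S m a (2 * S.C)))
    (H0 : ∀ r, sb M m a (u + 1) < r → r < s →
      0 ≤ HH M S m a (2 * S.C) r * uu M S m a (2 * S.C) r)
    (f0 : ∀ r, sb M m a (u + 1) < r → r < s → l ≤ r → 0 ≤ f r) (sT : s ≤ 2 * S.C)
    (h1 : sb M m a (u + 1) < t) (h2 : 2 * t ≤ s) (h3 : L * l ≤ t) (x1 : 3 * t / 2 ≤ x)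
    (x2 : x ≤ 7 * t / 4)
    (H : 4 * S.C ^ 4 * l ≤ 4 * t → 12 * S.C ^ 7 * l < 1 → ∫ r in sb M m a (u + 1)..x, f r ≤
      W * (cB M S η l (4 * t) + S.F ^ 3 * S.ms l * l ^ 2 * max (l - sb M m a (u + 1)) 0 +
        1 / (S.n : ℝ) ^ 3) +
      ∫ r in sb M m a (u + 1)..x, HH M S m a (2 * S.C) r * uu M S m a (2 * S.C) r) :
    ∫ r in sb M m a (u + 1)..3 * t / 2, f r ≤ L * S.F ^ 12 * (W0 S l + cB M S η l (4 * t)) +
      ∫ r in sb M m a (u + 1)..2 * t, HH M S m a (2 * S.C) r * uu M S m a (2 * S.C) r := by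
  have h := Z.A.cl
  have l0 := Z.l0
  have x0 := Z.x0
  have L1 := Z.L1
  have F1 := h.F1
  have t0 : 0 < t := x0.trans_lt h1
  have lt : l ≤ t := (le_mul_of_one_le_left l0.le (by linarith)).trans h3
  have c4 := mul_le_mul_of_nonneg_right (Z.cC (i := 4) (by norm_num)) l0.le
  have c7 := mul_le_mul_of_nonneg_right (Z.cC (i := 7) le_rfl) l0.le
  have q := H (by linarith [mul_pos (pow_pos h.C0 4) l0])
    (by linarith [mul_pos (pow_pos h.C0 7) l0, Z.Ll])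
  have a1 : ∫ r in sb M m a (u + 1)..3 * t / 2, f r ≤ ∫ r in sb M m a (u + 1)..x, f r := by
    rw [int_split lf (b := 3 * t / 2) (c := x) ⟨x0, by linarith⟩ ⟨by linarith, by linarith⟩
      ⟨by linarith, by linarith⟩]
    refine le_add_of_nonneg_right (le_trans (by simp) (int_mono (LB.const 0) lf (by linarith) x1
      (by linarith) fun r p q => f0 r (by linarith) (by linarith) (by linarith)))
  have a2 := int_sub_le (lH.mul (lb_u Z.A)) x0 le_rfl (show _ ≤ x by linarith)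
    (show x ≤ 2 * t by linarith) (by linarith) fun r p q => H0 r p (q.trans_le h2)
  have m0 := h.ms_pos l0.le
  have w0 := W0_nn' h l0
  have cb : 0 ≤ cB M S η l (4 * t) := Finset.sum_nonneg fun k _ =>
    mul_nonneg (sub_nonneg.2 (h.leg.zm (Nat.sub_le k 1))) (by
      have := Ab33.cr_one S (M.s k)
      have : 0 < mf S (M.s k) := div_pos (h.ms_pos (h.s_nn k)) (by linarith)
      exact add_nonneg (by positivity) (le_min (by positivity) (by positivity)))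
  have f12 : 1 ≤ S.F ^ 12 := one_le_pow₀ F1
  have a3 : S.F ^ 3 * S.ms l * l ^ 2 * max (l - sb M m a (u + 1)) 0 ≤ S.F ^ 12 * W0 S l := by
    have t1 := mul_le_mul_of_nonneg_left (max_le (show l - sb M m a (u + 1) ≤ l by linarith) l0.le)
      (show 0 ≤ S.F ^ 3 * S.ms l * l ^ 2 by positivity)
    have t2 := mul_le_mul (pow_le_pow_right₀ F1 (show 3 ≤ 12 by norm_num))
      (show S.ms l * l ^ 3 ≤ W0 S l from le_add_of_nonneg_left (by positivity)) (by positivity)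
      (by positivity)
    linarith
  have a4 := (n_le h l0 Z.l_le Z.ln.l0w).1
  have k0 := Z.cst (i := 0) (j := 0) (by norm_num) (by norm_num)
  simp only [pow_zero, one_mul] at k0
  have W1 := Z.W1
  have a5 : cB M S η l (4 * t) + S.F ^ 3 * S.ms l * l ^ 2 * max (l - sb M m a (u + 1)) 0 +
      1 / (S.n : ℝ) ^ 3 ≤ 2 * (S.F ^ 12 * (W0 S l + cB M S η l (4 * t))) := by
    linarith [mul_le_mul_of_nonneg_right f12 w0, mul_le_mul_of_nonneg_right f12 cb]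
  have a6 := mul_le_mul_of_nonneg_left a5 (show 0 ≤ W by linarith)
  have a7 := mul_le_mul_of_nonneg_right (show 2 * W ≤ L by linarith)
    (show 0 ≤ S.F ^ 12 * (W0 S l + cB M S η l (4 * t)) by positivity)
  linarith

theorem hΩ {ω : ℝ → ℝ} {θ0 x t Y : ℝ} (lω : LB (2 * S.C) ω) (h1 : sb M m a (u + 1) < t)
    (h2 : t ≤ S.C) (Y0 : 0 ≤ Y) (x1 : 3 * t / 2 ≤ x) (x2 : x ≤ 7 * t / 4)
    (H : ∫ r in sb M m a (u + 1)..x, ω r ^ 2 ≤ W * (2 * t * X2 ^ 2 + Y + 1 / (S.n : ℝ) ^ 3) +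
      θ0 ^ 2 * ∫ r in sb M m a (u + 1)..x, uu M S m a (2 * S.C) r ^ 4) :
    ∫ r in sb M m a (u + 1)..3 * t / 2, ω r ^ 2 ≤ L * (W0 S l + t * X2 ^ 2 + Y) +
      θ0 ^ 2 * ∫ r in (0 : ℝ)..7 * t / 4, uu M S m a (2 * S.C) r ^ 4 := by
  have h := Z.A.cl
  have x0 := Z.x0
  have t0 : 0 < t := x0.trans_lt h1
  have a1 := int_sub_le lω.sq x0 le_rfl (show _ ≤ 3 * t / 2 by linarith) x1 (by linarith)
    fun _ _ _ => sq_nonneg _
  have l4 : LB (2 * S.C) fun r => uu M S m a (2 * S.C) r ^ 4 := by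
    simpa only [← pow_mul] using (lb_u Z.A).sq.sq
  have a2 := mul_le_mul_of_nonneg_left (int_sub_le l4 le_rfl x0 (show _ ≤ x by linarith) x2
    (by linarith) fun _ _ _ => by positivity) (sq_nonneg θ0)
  have a4 := (n_le h Z.l0 Z.l_le Z.ln.l0w).1
  have w0 := W0_nn' h Z.l0
  have k0 := Z.cst (i := 0) (j := 0) (by norm_num) (by norm_num)
  simp only [pow_zero, one_mul] at k0
  have W1 := Z.W1
  have p0 : 0 ≤ t * X2 ^ 2 := by positivity
  have a6 := mul_le_mul_of_nonneg_left (show 2 * t * X2 ^ 2 + Y + 1 / (S.n : ℝ) ^ 3 ≤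
    2 * (W0 S l + t * X2 ^ 2 + Y) by linarith) (show 0 ≤ W by linarith)
  have a7 := mul_le_mul_of_nonneg_right (show 2 * W ≤ L by linarith)
    (show 0 ≤ W0 S l + t * X2 ^ 2 + Y by positivity)
  linarith

end Cx

end Crest.Agent.T156.Alt.B93

end
end

-- ▼ part T156/BoK_93
section

/-!
# Row 156, block (L): (BoK) (helper93)
-/

set_option autoImplicit false

noncomputable section

namespace Crest.Agent.T156.Alt.L31

open Real MeasureTheory Crest.Agent.T156.Alt.Mp9 Crest.Agent.T156.Cut8 Crest.Agent.T156.Alt.L69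
open Crest.Agent.T156.Alt.C74 Crest.Agent.T156.Alt.B93

theorem boK : BoK := (cl_big fun C => 20000000 * C ^ 10).mono fun E Λ S M m a E1 Λ1 h In hb => by
  obtain ⟨hΛ, θ1⟩ := hb
  rintro ⟨G1, u1, u2, j, γ, Lc, ηc, τ, l0, l, V, X, Xp, Vt, V2, Lg, Lp, X2, X3, G0, N', N, η⟩
    lam W θ0 Gn V0 u v r1 r2 ω β f Eg H e1 e2 lW WE ΛE G hs su he uv B gJ gH
  dsimp only at e1 e2 su ⊢
  subst e1 e2
  have ln := H.ln
  have ce := H.ce
  have cru := H.cru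
  have ng := G.ng
  have cr4 := G.cru
  dsimp only at ln ce cru ng cr4
  have C1 := h.C1
  have C0 := h.C0
  have F1 := h.F1
  have W1 := H.l1.trans lW
  have A : At S M m a (2 * S.C) := ⟨h, In, by linarith [h.b1, ln.HJ], by linarith [h.sT]⟩
  obtain ⟨gu, s0⟩ := hs
  obtain ⟨gv, vV, -, v1, v2⟩ := he
  dsimp only at s0
  have hV := ng.hV
  have vJ : v < S.J := by omega
  have i3 := h.i3
  have l00 : 0 < l0 := (mul_pos (by linarith) (h.s_pos (h.i0.trans h.i1))).trans_le ln.l0s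
  have lo : max l0 (2 * l0) = 2 * l0 := max_eq_right (by linarith)
  have s0' : l0 < M.s u := by rw [lo] at s0; linarith
  have c3 : 1 ≤ S.C ^ 3 := one_le_pow₀ C1
  have wle : W ≤ 2602 * S.C ^ 3 * W ^ 2 * W := le_mul_of_one_le_left (by linarith)
    (one_le_mul_of_one_le_of_one_le (by linarith) (one_le_pow₀ W1))
  have hL : 100 * S.C ^ 7 * 4 ^ 3 * (2602 * S.C ^ 3 * W ^ 2 * W) ≤ Λ * W ^ 10 := by
    have a1 := mul_le_mul hΛ (pow_le_pow_right₀ W1 (show 3 ≤ 10 by norm_num)) (by positivity)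
      (by linarith)
    linarith [show 0 ≤ S.C ^ 10 * W ^ 3 by positivity]
  have Z' : Cx E (2602 * S.C ^ 3 * W ^ 2 * W) 4 (Λ * W ^ 10) lam S M m a G1 l0 X Lg X2 X3 G0 η u :=
    ⟨A, ce, ln, θ1, H.F40, H.l1, lW.trans wle, by norm_num, hL, pw_le Λ1 W1 ΛE WE, cru, s0', su,
      by omega⟩
  have Z : Cx E W 4 (Λ * W ^ 10) lam S M m a G1 l0 X Lg X2 X3 G0 η u :=
    { Z' with lW := lW, hL := le_trans (by gcongr) hL }
  have WL : W ≤ Λ * W ^ 10 := by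
    have := Z.cst (i := 0) (j := 0) (by norm_num) (by norm_num)
    simp only [pow_zero, one_mul] at this
    linarith
  generalize Λ * W ^ 10 = L at *
  have L1 := Z.L1
  have x0 := Z.x0
  have X0 := Z.X20
  have cc0 := l00.trans_le Z.cc0
  have c7 : 12 * S.C ^ 7 * l0 < 1 := by
    linarith [mul_le_mul_of_nonneg_right (Z.cC (i := 7) le_rfl) l00.le, mul_pos (pow_pos C0 7) l00,
      Z.Ll]
  have sT := (A.sb_mem (vJ.le.trans i3)).2
  have g1 : 1 ≤ Lg := (one_le_mul_of_one_le_of_one_le E1 (one_le_pow₀ F1)).trans ln.Lg0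
  have rh0 : 0 ≤ (sb M m a (u + 1) + M.s u) * X2 + M.s u * cl S (cr S l0 * l0) (M.s u) ^ 2 := by
    have := h.s_nn u
    positivity
  have sh : ∀ i k, Nx Gn u v i k →
      (sb M m a (k + 1) - sb M m a (i + 1)) ^ 2 ≤ W * S.ms (M.s i) := fun i k n => by
    have q := ng.sh u i k ⟨n.1, n.2.1, n.2.2.1.trans vV, n.2.2.2⟩ (s0.trans (h.sm n.1))
    have m0 := h.ms_pos (h.s_nn i)
    have a1 : mf S (M.s i) ≤ W * S.ms (M.s i) :=
      (div_le_self m0.le F1).trans (le_mul_of_one_le_left m0.le W1)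
    refine le_of_pow_le_pow_left₀ three_ne_zero (by positivity) ?_
    rw [← pow_mul]
    exact ((le_mul_of_one_le_left (by positivity) E1).trans q).trans
      (pow_le_pow_left₀ (div_pos m0 (by linarith)).le a1 3)
  have Eg0 : 0 ≤ S.F ^ 12 * Eg := by
    have := (intervalIntegral.integral_nonneg (by linarith) fun _ _ => sq_nonneg _).trans gJ
    rw [mul_assoc] at this
    exact (mul_nonneg_iff_of_pos_left (by linarith)).1 this
  have WE' : W * S.F ^ 12 * Eg ≤ L * S.F ^ 12 * Eg := by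
    rw [mul_assoc, mul_assoc]; exact mul_le_mul_of_nonneg_right WL Eg0
  obtain ⟨r, r0, hr, ab⟩ := B.ab
  refine ⟨W * ((sb M m a (u + 1) + M.s u) * X2 + M.s u * cl S (cr S l0 * l0) (M.s u) ^ 2) + r,
    Z.ju, Z.uJ, ⟨s0'.le, su.trans (mul_le_mul_of_nonneg_right (by linarith) l00.le)⟩, ⟨?_, v2⟩,
    Z.cru', Z'.ru ?_, by positivity, fun t Y t1 t2 _ t4 => ?_, B.lf, B.R, ab, B.nm,
    fun t t1 t2 t3 t4 loc => ?_, fun t Y t1 t2 t3 t4 t5 loc t6 => ?_, gJ.trans WE', gH.trans WE'⟩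
  · have a1 := Ab33.sJ_ge h
    have a2 := mul_le_mul_of_nonneg_left v1 (show 0 ≤ 3 * S.C ^ 3 by positivity)
    have a3 := (A.sb_mem (vJ.le.trans i3)).1
    linarith [mul_le_mul_of_nonneg_right (Z.cC (i := 3) (by norm_num)) a3,
      mul_nonneg (pow_pos C0 3).le a3]
  · have a1 := B75.ab_of A ng W1 (by linarith) X0 (by rw [lo] at s0 ⊢; linarith) le_rfl gu u le_rfl
      (by omega) gu
    simp only [sub_self, mul_zero, intervalIntegral.integral_same, add_zero, B75.enB,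
      B75.onB] at a1
    have a2 := B75.rho_le A (Λ := W) (by linarith) X0 cc0.le W1 l00 s0'.le (h.i1.trans Z.ju.le) Z.uJ
      (by linarith [Z.v_le', mul_pos (pow_pos C0 2) h.v0])
      fun k hk => cr4 k (by have := Z.uJ; have := h.i4; omega)
    have sp := l00.trans s0'
    have a3 := pow_le_pow_left₀ (B75.Ug_nn h g1 sp) (B75.Ug_le h g1 sp) 2
    have e0 : 0 ≤ η (M.s u) := by
      linarith [ln.η2 _ sp, ln.ηa (show M.s u ≤ 2 * M.s u by linarith)]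
    have g0 := abs_nonneg (L0.Gd (lb M S m a (2 * S.C)) (sb M m a (u + 1)))
    have a4 := mul_le_mul_of_nonneg_right (mul_le_mul wle a3 (sq_nonneg _) (by positivity)) g0
    linarith [mul_le_mul_of_nonneg_right wle e0]
  · have lt : l0 ≤ t := (le_mul_of_one_le_left l00.le (by linarith)).trans t2
    have Y0 := L4_nn h t4 l00 (by linarith) cc0.le ln.X0.le
    have q := hr l0 _ Y le_rfl s0'.le c7 le_rfl
      (L4_mono t4 ((min_le_left _ _).trans (by linarith))) Y0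
    rw [if_neg (not_le.2 Z.x_small), add_zero] at q
    exact Z.rho Y0 q
  · obtain ⟨k, k1, k2, k3, k4, k5, k6⟩ := Z.win uv.le vJ gu gv v2 sh t1 t2 t3 t4 loc
    exact Z.hF B.lf B.R.lH B.R.H_nn (fun r p _ _ => B.f0 r (x0.trans p.le)) sT t1 t2 t3 k4 k5
      fun p q => B.hF k l0 (4 * t) k1 k2 k3 le_rfl s0'.le p q k6 (by linarith)
  · obtain ⟨k, k1, k2, k3, k4, k5, -⟩ := Z.win uv.le vJ gu gv v2 sh t1 t2 t3 t5 loc
    have t0 : 0 < t := x0.trans_lt t1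
    have lt : l0 ≤ t := (le_mul_of_one_le_left l00.le (by linarith)).trans t3
    have Y0 := L4_nn h t6 l00 (by linarith) cc0.le ln.X0.le
    have q := B.hΩ k l0 (2 * t) Y k1 k2 k3 le_rfl s0'.le c7 (by linarith)
      (L4_mono t6 ((min_le_left _ _).trans (by linarith))) Y0
    rw [if_neg (not_le.2 (by
      linarith [mul_le_mul_of_nonneg_right (Z.cC (i := 5) (by norm_num)) t0.le,
        mul_pos (pow_pos C0 5) t0])), add_zero] at q
    exact Z.hΩ B.R.lω t1 (by linarith) Y0 k4 k5 q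

end Crest.Agent.T156.Alt.L31

end
end

-- ▼ part T156/RtK_25
section

/-!
Row 156, block (L) (helper25): the root data from the local energy.
-/

set_option autoImplicit false

noncomputable section

namespace Crest.Agent.T156.Alt.L31

open MeasureTheory Set Real
open Crest.Agent.R164.GC Crest.Agent.R339.B Crest.Agent.R339.Var Crest.Agent.T157.Pf
open Crest.Agent.T156.Cut8 (LB Res Jf Cont Rt Fr int_split int_mono int_le_const int_sub_le)
open Crest.Agent.T156.Alt.Mp9 Crest.Agent.T156.Alt.L69 Crest.Agent.T156.Alt.C74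

namespace R25

theorem ex_cbrt {x : ℝ} (hx : 0 ≤ x) : ∃ y : ℝ, 0 ≤ y ∧ y ^ 3 = x :=
  ⟨x ^ ((1 : ℝ) / 3), by positivity, by rw [← Real.rpow_natCast, ← Real.rpow_mul hx]; norm_num⟩

theorem four4 {x y z w : ℝ} : (x + y + z + w) ^ 4 ≤ 64 * (x ^ 4 + y ^ 4 + z ^ 4 + w ^ 4) := by
  have h2 : ∀ x y z w : ℝ, (x + y + z + w) ^ 2 ≤ 4 * (x ^ 2 + y ^ 2 + z ^ 2 + w ^ 2) :=
    fun x y z w => by
      linarith [sq_nonneg (x - y), sq_nonneg (x - z), sq_nonneg (y - z), sq_nonneg (x - w),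
        sq_nonneg (y - w), sq_nonneg (z - w)]
  have := pow_le_pow_left₀ (sq_nonneg _) (h2 x y z w) 2
  linarith [h2 (x ^ 2) (y ^ 2) (z ^ 2) (w ^ 2)]

/-- the quartic form at the root -/
theorem num_root {θ B C L l c t A X2 ρ R Y : ℝ} (θ0 : 0 < θ) (θ1 : θ ≤ 1) (B0 : 0 ≤ B) (C0 : 0 ≤ C)
    (L1 : 1 ≤ L) (l0 : 0 < l) (c0 : 0 ≤ c) (ct : c ≤ t) (c3 : c ^ 3 = l * t ^ 2) (A0 : 0 ≤ A)
    (hA : A ≤ L * c) (X0 : 0 ≤ X2) (hR : R = A + L * l) (Y0 : 0 ≤ Y)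
    (hρ : ρ ≤ L * ((A + l) * X2 + l * c ^ 2 + √(A * Y))) :
    ∃ f0, 0 ≤ f0 ∧ Gap27.Num θ 0 f0 (ρ + B * A ^ 2 * (2 * C * R)) 0 (B * A) ∧
      A * f0 ≤ 128 / θ ^ 4 * (L ^ 3 * (c * X2 ^ 2 + Y) + (2 + (1 + B + 2 * B * C) ^ 4) * R ^ 5 +
        R ^ 3 * t ^ 2) := by
  have Ll : l ≤ L * l := le_mul_of_one_le_left l0.le L1
  have R1 : A ≤ R := by linarith
  have R2 : L * l ≤ R := by linarith
  have R0 : 0 < R := by linarith
  have t0 := c0.trans ct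
  obtain ⟨x, x0, x3⟩ := ex_cbrt (show 0 ≤ L * R * X2 by positivity)
  obtain ⟨y, y0, y3⟩ := ex_cbrt (show 0 ≤ L * l * c ^ 2 by positivity)
  obtain ⟨z, z0', z3⟩ := ex_cbrt (show 0 ≤ L * √(A * Y) by positivity)
  set k := 1 + B + 2 * B * C with hk
  have BC : 0 ≤ B * C := by positivity
  have k1 : 1 ≤ k := by linarith
  have k3 : 2 * B * C ≤ k ^ 3 := le_trans (by linarith) (le_self_pow₀ k1 (by norm_num))
  have z0 : 0 ≤ k * R := by positivity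
  refine ⟨2 * ((x + y + z + k * R) / θ) ^ 4, by positivity,
    .inl ⟨(x + y + z + k * R) / θ, by positivity, ?_, ?_, le_rfl⟩, ?_⟩
  · have e : θ * ((x + y + z + k * R) / θ) ^ 3 = (x + y + z + k * R) ^ 3 / θ ^ 2 := by field_simp
    have a1 : x ^ 3 + y ^ 3 + z ^ 3 + (k * R) ^ 3 ≤ (x + y + z + k * R) ^ 3 := by
      linarith [pow_add_pow_le x0 y0 three_ne_zero,
        pow_add_pow_le (add_nonneg x0 y0) z0' three_ne_zero,
        pow_add_pow_le (add_nonneg (add_nonneg x0 y0) z0') z0 three_ne_zero]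
    have a2 : B * A ^ 2 * (2 * C * R) ≤ (k * R) ^ 3 := by
      have : 2 * B * C * (A ^ 2 * R) ≤ k ^ 3 * (R ^ 2 * R) := by gcongr
      linarith
    have a3 : L * ((A + l) * X2) ≤ L * (R * X2) := by gcongr; linarith
    rw [e]
    refine le_trans ?_ (le_div_self (by positivity) (by positivity) (pow_le_one₀ θ0.le θ1))
    linarith
  · have e : θ * ((x + y + z + k * R) / θ) ^ 2 = (x + y + z + k * R) ^ 2 / θ := by field_simp
    rw [e, zero_add]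
    refine div_le_div_of_nonneg_right (pow_le_pow_left₀ (by positivity) ?_ 2) θ0.le
    have : B * A ≤ k * R := mul_le_mul (by linarith) R1 A0 (by linarith)
    linarith
  · have a1 : x ^ 4 ≤ (L * X2) ^ 2 + R ^ 4 := by
      rcases le_total x R with h | h
      · linarith [pow_le_pow_left₀ x0 h 4, sq_nonneg (L * X2)]
      · have xp : 0 < x := R0.trans_le h
        have : x ^ 2 ≤ L * X2 := le_of_mul_le_mul_left (by
          have : R * (L * X2) ≤ x * (L * X2) := by gcongr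
          linarith) xp
        have := pow_le_pow_left₀ (sq_nonneg x) this 2
        linarith [pow_nonneg R0.le 4]
    have a2 : y * c ^ 2 ≤ R * t ^ 2 := by
      refine le_of_pow_le_pow_left₀ (n := 3) (by norm_num) (by positivity) ?_
      have e : (y * c ^ 2) ^ 3 = L * l * l * l * c ^ 2 * t ^ 4 := by
        rw [mul_pow, y3, show (c ^ 2) ^ 3 = (c ^ 3) ^ 2 by ring, c3]; ring
      have : L * l * l * l * c ^ 2 * t ^ 4 ≤ R * R * R * t ^ 2 * t ^ 4 := by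
        have lR : l ≤ R := Ll.trans R2
        gcongr
      rw [e]
      linarith
    have a3 : A * y ^ 4 ≤ R ^ 3 * t ^ 2 := by
      have e : A * y ^ 4 = A * (L * l) * (y * c ^ 2) := by
        rw [show y ^ 4 = y * y ^ 3 by ring, y3]; ring
      have : A * (L * l) * (y * c ^ 2) ≤ R * R * (R * t ^ 2) := by gcongr
      rw [e]
      linarith
    have a4 : A * x ^ 4 ≤ L ^ 3 * (c * X2 ^ 2) + R ^ 5 := by
      have b1 := mul_le_mul_of_nonneg_left a1 A0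
      have b2 := mul_le_mul_of_nonneg_right hA (sq_nonneg (L * X2))
      have b3 := mul_le_mul_of_nonneg_right R1 (pow_nonneg R0.le 4)
      linarith
    have a5 : A * (k * R) ^ 4 ≤ k ^ 4 * R ^ 5 := by
      linarith [mul_le_mul_of_nonneg_right R1 (pow_nonneg z0 4)]
    have a7 : A * z ^ 4 ≤ L ^ 3 * Y + R ^ 5 := by
      have l3 : L ^ 2 * Y ≤ L ^ 3 * Y :=
        mul_le_mul_of_nonneg_right (pow_le_pow_right₀ L1 (by norm_num)) Y0
      have l2 : 0 ≤ L ^ 2 * Y := by positivity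
      rcases le_total z A with h | h
      · have : A * z ^ 4 ≤ R * R ^ 4 := by have := h.trans R1; gcongr
        linarith
      rcases A0.eq_or_lt with e | e
      · rw [← e, zero_mul]; positivity
      have z6 : z ^ 6 = L ^ 2 * (A * Y) := by
        rw [show z ^ 6 = (z ^ 3) ^ 2 by ring, z3, mul_pow, Real.sq_sqrt (by positivity)]
      have : A * z ^ 4 ≤ L ^ 2 * Y := le_of_mul_le_mul_left (by
        have : A * A * z ^ 4 ≤ z * z * z ^ 4 := by gcongr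
        linarith) e
      linarith [pow_nonneg R0.le 5]
    have a6 := mul_le_mul_of_nonneg_left (four4 (x := x) (y := y) (z := z) (w := k * R)) A0
    have e : A * (2 * ((x + y + z + k * R) / θ) ^ 4) =
        128 / θ ^ 4 * (A * (x + y + z + k * R) ^ 4 / 64) := by
      field_simp; ring
    rw [e]
    exact mul_le_mul_of_nonneg_left (by linarith) (by positivity)

/-- the sum of the root sources -/
theorem num_sum {θ L F k0 k1 k2 C P W0 Y E Z r : ℝ} (θ0 : 0 < θ) (θ1 : θ ≤ 1) (L1 : 16 ≤ L)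
    (F1 : 1 ≤ F) (p0 : 0 ≤ k0) (p1 : 0 ≤ k1) (p2 : 0 ≤ k2) (C0 : 0 ≤ C) (W00 : 0 ≤ W0) (Y0 : 0 ≤ Y)
    (E0 : 0 ≤ E) (h0 : k0 ≤ L) (h1 : k1 / θ ^ 2 ≤ L) (h2 : k2 ≤ L) (h3 : C ≤ L)
    (hP : P ≤ L ^ 60 * F ^ 10 * W0 + E / L) (hr : r ≤ 16 * L ^ 4 * Y + 4 * L ^ 2 * (F * W0))
    (hZ : Z ≤ k0 * (L ^ 3 * Y) + k1 * P + k2 * F ^ 2 * r + C * W0) :
    Z ≤ L ^ 70 * F ^ 10 * (W0 + Y) + θ ^ 2 * E := by
  have L0 : 0 < L := by linarith
  have t2 : 0 < θ ^ 2 := by positivity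
  rw [div_le_iff₀ t2] at h1
  have h4 : k1 ≤ L := h1.trans (mul_le_of_le_one_right L0.le (pow_le_one₀ θ0.le θ1))
  have a1 : k1 * (E / L) ≤ θ ^ 2 * E := by
    rw [← mul_div_assoc, div_le_iff₀ L0]
    linarith [mul_le_mul_of_nonneg_right h1 E0]
  have a2 : k1 * (L ^ 60 * F ^ 10 * W0) ≤ L * (L ^ 60 * F ^ 10 * W0) := by gcongr
  have a3 : k2 * F ^ 2 * (16 * L ^ 4 * Y + 4 * L ^ 2 * (F * W0)) ≤
      L * F ^ 2 * (16 * L ^ 4 * Y + 4 * L ^ 2 * (F * W0)) := by gcongr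
  have a4 : k0 * (L ^ 3 * Y) ≤ L * (L ^ 3 * Y) := by gcongr
  have a5 := mul_le_mul_of_nonneg_left hP p1
  have a6 := mul_le_mul_of_nonneg_left hr (show 0 ≤ k2 * F ^ 2 by positivity)
  have a7 := mul_le_mul_of_nonneg_right h3 W00
  have pw : ∀ i j, i ≤ 69 → j ≤ 10 → 16 * (L ^ i * F ^ j) ≤ L ^ 70 * F ^ 10 := fun i j hi hj => by
    have : 16 * (L ^ i * F ^ j) ≤ L * (L ^ 69 * F ^ 10) :=
      mul_le_mul L1 (mul_le_mul (pow_le_pow_right₀ (by linarith) hi) (pow_le_pow_right₀ F1 hj)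
        (by positivity) (by positivity)) (by positivity) L0.le
    linarith
  have b1 := mul_le_mul_of_nonneg_right (pw 61 10 (by norm_num) le_rfl) W00
  have b2 := mul_le_mul_of_nonneg_right (pw 3 3 (by norm_num) (by norm_num)) W00
  have b3 := mul_le_mul_of_nonneg_right (pw 1 0 (by norm_num) (by norm_num)) W00
  have b4 := mul_le_mul_of_nonneg_right (pw 6 2 (by norm_num) (by norm_num)) Y0
  have b8 := mul_le_mul_of_nonneg_right L1 (show 0 ≤ L ^ 5 * F ^ 2 * Y by positivity)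
  have b5 := mul_le_mul_of_nonneg_right (pw 4 0 (by norm_num) (by norm_num)) Y0
  have b6 : 0 ≤ L ^ 70 * F ^ 10 * W0 := by positivity
  have b7 : 0 ≤ L ^ 70 * F ^ 10 * Y := by positivity
  linarith

theorem rho_sq {ρ L c X l W A Y : ℝ} (ρ0 : 0 ≤ ρ) (L1 : 1 ≤ L) (A0 : 0 ≤ A) (Y0 : 0 ≤ Y)
    (hA : A ≤ L * c) (h : ρ ≤ L * (2 * L * c * X + l * c ^ 2 + √(A * Y))) (c0 : 0 ≤ c)
    (h3 : l ^ 2 * c ^ 3 ≤ W) : ρ ^ 2 ≤ (16 * L ^ 4 * (c * X ^ 2 + Y) + 4 * L ^ 2 * W) * c := by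
  have a2 := pow_le_pow_left₀ ρ0 h 2
  have a4 := mul_le_mul_of_nonneg_left h3 (show 0 ≤ 4 * L ^ 2 * c by positivity)
  have a5 : L ^ 2 * √(A * Y) ^ 2 ≤ L ^ 4 * (c * Y) := by
    rw [Real.sq_sqrt (by positivity)]
    have b1 := mul_le_mul_of_nonneg_right hA (show 0 ≤ L ^ 2 * Y by positivity)
    have b2 := mul_le_mul_of_nonneg_right (pow_le_pow_right₀ L1 (show 3 ≤ 4 by norm_num))
      (mul_nonneg c0 Y0)
    linarith
  have a6 : 0 ≤ L ^ 4 * (c * Y) := by positivity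
  generalize √(A * Y) = w at *
  linarith [mul_nonneg (sq_nonneg L) (sq_nonneg (2 * L * c * X - l * c ^ 2)),
    mul_nonneg (sq_nonneg L) (sq_nonneg (2 * L * c * X + l * c ^ 2 - w))]

theorem rho_R {L A R Y : ℝ} (A0 : 0 ≤ A) (hA : A ≤ R) (Y0 : 0 ≤ Y) :
    2 * (L * √(A * Y) * R ^ 2) ≤ L ^ 2 * Y + R ^ 5 := by
  have e : √(A * Y) = √A * √Y := Real.sqrt_mul A0 Y
  have a1 := Real.sq_sqrt A0
  have a2 := Real.sq_sqrt Y0
  have a3 := mul_le_mul_of_nonneg_right hA (show 0 ≤ R ^ 4 by positivity)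
  have a4 := sq_nonneg (L * √Y - √A * R ^ 2)
  rw [sub_sq, mul_pow, mul_pow, a1, a2] at a4
  rw [e]
  linarith

variable {S : Sc} {M : Md} {m : ℕ} {a T : ℝ}

theorem mm_Mx (A : At S M m a T) {t : ℝ} (t0 : 0 ≤ t) : mm M S m a t ≤ Mx M S m a t := by
  have p := A.ms_pos (t0.trans (At.le_lev (M := M) (S := S) (m := m) (a := a) t))
  have F1 := A.cl.F1
  have q : 1 ≤ S.C ^ 2 * S.F := by nlinarith [one_le_pow₀ A.cl.C1 (n := 2)]
  have r : 1 ≤ S.C ^ 5 * S.F := by nlinarith [one_le_pow₀ A.cl.C1 (n := 5)]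
  exact (div_le_self p.le (by linarith)).trans (le_mul_of_one_le_left p.le q)

/-- the area below `l`, thin form -/
theorem ar_thin (A : At S M m a T) {l b ρ c : ℝ} (l0 : 0 < l) (vl : S.v ≤ l) (hb : 2 * l ≤ b)
    (bJ : b < M.s S.J) (ρ0 : 0 ≤ ρ) (c0 : 0 < c) :
    ρ * ∫ t in (0 : ℝ)..l, |uu M S m a T t| ≤ 4 * S.C * (ρ ^ 2 / l + l ^ 5) + 512 / c * (ρ ^ 2 / l) +
      c / 32 * ∫ t in (0 : ℝ)..b, JJ M S m a T t ^ 2 := by
  have C0 := A.c_pos
  have sT := A.sJ_T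
  have lu : LB T (uu M S m a T) := A.LB_u
  have mh := Sc48.lvr_mono A.okh.1.1 (l := lh M T)
  have mb := Sc48.lvr_mono A.okb.1.1 (l := lb M S m a T)
  have z2 := A.zh_le' (t := 2 * l) (by linarith) (by linarith)
  have cv := mul_le_mul_of_nonneg_left vl C0.le
  set κ := max (lvr 1 (lb M S m a T) l - lvr 1 (lh M T) (2 * l)) 0 with hκ
  have κ0 : 0 ≤ κ := le_max_right _ _
  have g : κ ^ 2 * l ^ 3 / 64 ≤ ∫ t in (0 : ℝ)..b, JJ M S m a T t ^ 2 := by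
    rcases le_total (lvr 1 (lb M S m a T) l - lvr 1 (lh M T) (2 * l)) 0 with h | h
    · rw [hκ, max_eq_right h]
      simpa using intervalIntegral.integral_nonneg (by linarith) fun _ _ => sq_nonneg _
    · refine (Lab36.gap_pos A.LB_u (u := l) l0.le l0.le (by linarith) κ0 fun t t1 t2 => ?_).trans
        (int_sub_le A.LB_J2 le_rfl l0.le (by linarith) (by linarith) (by linarith)
          fun _ _ _ => sq_nonneg _)
      rw [hκ, max_eq_left h]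
      linarith [mb t1.le, mh (show t ≤ 2 * l by linarith)]
  have p := int_le_const lu.abs (K := κ + 4 * S.C * l) le_rfl l0.le (by linarith) fun t t1 t2 => by
    have := mb t2.le
    have := mh (show t ≤ 2 * l by linarith)
    have := Pp.Ode3.lvr_pos A.okb.1.1 (l := lb M S m a T) t
    have := Pp.Ode3.lvr_pos A.okh.1.1 (l := lh M T) t
    have := le_max_left (lvr 1 (lb M S m a T) l - lvr 1 (lh M T) (2 * l)) 0
    unfold uu
    exact abs_le.2 ⟨by linarith, by linarith⟩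
  have q := mul_le_mul_of_nonneg_left p ρ0
  obtain ⟨x, rfl⟩ : ∃ x, ρ = x * l := ⟨ρ / l, by field_simp⟩
  have e : (x * l) ^ 2 / l = x ^ 2 * l := by field_simp
  rw [e]
  have y1 : x * l * (l * κ) ≤ 512 / c * (x ^ 2 * l) + c / 32 * (κ ^ 2 * l ^ 3 / 64) := by
    have : 512 / c * (x ^ 2 * l) + c / 32 * (κ ^ 2 * l ^ 3 / 64) - x * l * (l * κ) =
        l * (1024 * x - c * κ * l) ^ 2 / (2048 * c) := by field_simp; ring
    have : 0 ≤ l * (1024 * x - c * κ * l) ^ 2 / (2048 * c) := by positivity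
    linarith
  have y2 : x * l ^ 3 ≤ x ^ 2 * l + l ^ 5 := by
    nlinarith [mul_nonneg l0.le (sq_nonneg (x - l ^ 2)), mul_nonneg l0.le (sq_nonneg x), pow_pos l0 5]
  linarith [mul_le_mul_of_nonneg_left y2 (show 0 ≤ 4 * S.C by positivity),
    mul_le_mul_of_nonneg_left g (show 0 ≤ c / 32 by positivity)]

/-- the area below `l`, thick form -/
theorem ar_thick (A : At S M m a T) {l x b ρ D μ : ℝ} (l0 : 0 < l) (x0 : 0 ≤ x) (hb : l ≤ b)
    (xb : x ≤ b) (bT : b ≤ T) (ρ0 : 0 ≤ ρ) (μ0 : 0 < μ) (lH : LB T (HH M S m a T))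
    (hD : ∀ t, 0 < t → t < x → |uu M S m a T t| ≤ D) (D0 : 0 ≤ D)
    (hμ : ∀ t, x < t → μ ≤ mm M S m a t) :
    ρ * ∫ t in (0 : ℝ)..l, |uu M S m a T t| ≤ ρ * (x * D) + l * (4 * ρ ^ 2 / μ) +
      (∫ t in x..b, HH M S m a T t * uu M S m a T t) / 16 := by
  have lu : LB T (uu M S m a T) := A.LB_u
  have fl : ∀ t, 0 ≤ t → mm M S m a t * uu M S m a T t ^ 2 ≤ HH M S m a T t * uu M S m a T t :=
    fun t t0 => Gap27.HN_floor (mm_Mx A t0)
  have nn : ∀ t, 0 ≤ t → 0 ≤ HH M S m a T t * uu M S m a T t := fun t t0 =>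
    (mul_nonneg (A.mm_pos t0).le (sq_nonneg _)).trans (fl t t0)
  have q0 : 0 ≤ 4 * ρ ^ 2 / μ := by positivity
  have low : ∀ y, 0 ≤ y → y ≤ x → ρ * ∫ t in (0 : ℝ)..y, |uu M S m a T t| ≤ ρ * (x * D) :=
    fun y y0 y1 => mul_le_mul_of_nonneg_left ((int_le_const lu.abs le_rfl y0 (by linarith)
      fun t t1 t2 => hD t t1 (by linarith)).trans
        (mul_le_mul_of_nonneg_right (by linarith) D0)) ρ0
  rcases le_total l x with h | h
  · have : 0 ≤ ∫ t in x..b, HH M S m a T t * uu M S m a T t :=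
      intervalIntegral.integral_nonneg xb fun t ht => nn t (x0.trans ht.1)
    linarith [low l l0.le h, mul_nonneg l0.le q0]
  have mx : x ∈ Icc 0 T := ⟨x0, by linarith⟩
  have ml : l ∈ Icc 0 T := ⟨l0.le, by linarith⟩
  have p := int_mono ((LB.const ρ).mul lu.abs) (((lH.mul lu).div 16).add (LB.const (4 * ρ ^ 2 / μ)))
    x0 h ml.2 fun t t1 _ => by
      have a1 := mul_le_mul_of_nonneg_right (hμ t t1) (sq_nonneg (uu M S m a T t))
      have a2 : ρ * |uu M S m a T t| ≤ μ * uu M S m a T t ^ 2 / 16 + 4 * ρ ^ 2 / μ := by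
        rw [← sq_abs (uu M S m a T t)]
        generalize |uu M S m a T t| = w
        have : μ * w ^ 2 / 16 + 4 * ρ ^ 2 / μ - ρ * w = (μ * w - 8 * ρ) ^ 2 / (16 * μ) := by
          field_simp; ring
        have : 0 ≤ (μ * w - 8 * ρ) ^ 2 / (16 * μ) := by positivity
        linarith
      linarith [fl t (by linarith)]
  rw [intervalIntegral.integral_const_mul, intervalIntegral.integral_add
    (((lH.mul lu).div 16).ii mx ml) ((LB.const _).ii mx ml), intervalIntegral.integral_div,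
    intervalIntegral.integral_const, smul_eq_mul] at p
  have q := int_sub_le (lH.mul lu) x0 le_rfl h hb bT fun t t1 _ => nn t (by linarith)
  rw [int_split lu.abs (b := x) ⟨le_rfl, by linarith⟩ mx ml, mul_add]
  linarith [low x x0 le_rfl, mul_nonneg x0 q0]

end R25

open R25 in
set_option maxHeartbeats 1600000 in
/-- the root data, with the quartic part `√(A Y)` of the slow residual -/
theorem rt_core (h : RtN) (C B c θ : ℝ) (c0 : 0 < c) (θ0 : 0 < θ) (θ1 : θ ≤ 1) : ∃ K : ℝ, 1 ≤ K ∧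
  ∀ (S : Sc) (M : Md) (m : ℕ) (a G1 L l X2 Y : ℝ) (u : ℕ) (s ρ : ℝ)
    (r1 r2 ω β f : ℝ → ℝ), At S M m a (2 * C) → S.C = C → CeiG S M G1 →
  (∀ t t', 0 ≤ t → t ≤ t' → S.ms t' ≤ S.ms t + t' ^ 2) →
  Fr (2 * C) c B (Spl27.okT (2 * C)) (lvr 1) Pr.Gam Pr.GG → K ≤ L → 0 < l → L * S.v ≤ l ^ 2 →
  0 ≤ X2 → L ^ 4 * X2 ≤ mf S l → L ^ 2 * (cr S l * l) ≤ s → S.jl < u → u < S.J →
  (l ≤ M.s u ∧ M.s u ≤ L * l) → s < M.s S.J → sb M m a (u + 1) ≤ L * (cr S l * l) →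
  |res M S m a (2 * C) u| ≤ L * (S.F * S.ms l * l + l ^ 3) + S.ms l * sb M m a (u + 1) / L →
  0 ≤ ρ → 0 ≤ Y →
  ρ ≤ L * ((sb M m a (u + 1) + l) * X2 + l * (cr S l * l) ^ 2 + √(sb M m a (u + 1) * Y)) →
  LB (2 * C) f → Res (2 * C) (uu M S m a (2 * C))
    (fun t => Pr.Gam (lb M S m a (2 * C)) t - Pr.Gam (lh M (2 * C)) t) (HH M S m a (2 * C))
    r1 r2 ω β (fun t => Gap27.xi θ (mm M S m a t) (f t) (io M S m a (2 * C)) (uu M S m a (2 * C) t)
      (JJ M S m a (2 * C) t)) (sb M m a (u + 1)) s →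
  (∀ t, sb M m a (u + 1) ≤ t → t ≤ s → |r2 t| ≤ (∫ r in sb M m a (u + 1)..t, ω r) + ρ + β t) →
  ∃ l' D f0 Ar, Rt (2 * C) B θ (lvr 1 (lh M (2 * C))) (lvr 1 (lb M S m a (2 * C))) (rq S M m a)
      (HH M S m a (2 * C)) r1 r2 ω β (mm M S m a) f (sb M m a (u + 1)) s l' D ρ f0 C
      (2 * (C * S.v)) ∧
    0 ≤ Ar ∧ l' ≤ L * (cr S l * l) ∧
    (∀ b, 2 * l' ≤ b → sb M m a (u + 1) ≤ b → b ≤ s →
      ρ * ∫ t in (0 : ℝ)..l', |uu M S m a (2 * C) t| ≤ Ar +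
        (∫ t in sb M m a (u + 1)..b, HH M S m a (2 * C) t * uu M S m a (2 * C) t) / 16 +
        c / 32 * ∫ t in (0 : ℝ)..b, JJ M S m a (2 * C) t ^ 2) ∧
    sb M m a (u + 1) * f0 + ρ ^ 2 / l' + Ar + mf S (sb M m a (u + 1)) * D ^ 2 * sb M m a (u + 1) ≤
      L ^ 70 * S.F ^ 10 * (W0 S l + (cr S l * l * X2 ^ 2 + Y)) +
      θ ^ 2 * ((∫ t in (0 : ℝ)..sb M m a (u + 1), JJ M S m a (2 * C) t ^ 2) +
        sb M m a (u + 1) * io M S m a (2 * C) ^ 2) := by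
  obtain ⟨K0, K1, h⟩ := h C
  refine ⟨max K0 (17 + 128 / θ ^ 4 + (128 / θ ^ 4 * (2 + (1 + B + 2 * B * C) ^ 4) + 5 * C +
    4 * C ^ 2) / θ ^ 2 + (1 + 4 * C + 512 / c + 1536 * C ^ 5)), K1.trans (le_max_left _ _),
    fun S M m a G1 L l X2 Y u s ρ r1 r2 ω β f A hC ce sub F hK l0 hv X0 hX hs ju uJ su sJ cru ru ρ0
      Y0 ρ1 lf Rs ab => ?_⟩
  subst hC
  have B0 := F.C_nn
  have C0 := A.c_pos
  have C1 := A.cl.C1
  have F1 := A.cl.F1
  have v0 := v_pos A.cl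
  obtain ⟨hK0, hK⟩ := max_le_iff.1 hK
  set k0 := 128 / θ ^ 4 with hk0
  set k := (1 + B + 2 * B * S.C) ^ 4 with hk
  set k1 := k0 * (2 + k) + 5 * S.C + 4 * S.C ^ 2 with hk1
  set k2 := 1 + 4 * S.C + 512 / c + 1536 * S.C ^ 5 with hk2
  have p0 : 0 ≤ k0 := by positivity
  have pk : 0 ≤ k := by positivity
  have p1 : 0 ≤ k1 := by positivity
  have p1' : 0 ≤ k1 / θ ^ 2 := by positivity
  have pc : 0 ≤ 512 / c := by positivity
  have p5 : 0 ≤ 1536 * S.C ^ 5 := by positivity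
  have p2 : 0 ≤ k2 := by positivity
  have L16 : 16 ≤ L := by linarith
  have n0 : k0 + 1 ≤ L := by linarith
  have n1 : k1 / θ ^ 2 ≤ L := by linarith
  have n2 : k2 ≤ L := by linarith
  have n3 : 4 * S.C ≤ L := by linarith
  clear_value k0 k k1 k2
  have L1 : 1 ≤ L := by linarith
  have m0 := A.ms_pos l0.le
  have up := uJ.le.trans A.cl.i3
  have mA := A.sb_mem up
  set A0 := sb M m a (u + 1) with hA0
  set cl0 := cr S l * l with hcl
  have lc : l ≤ cl0 := le_mul_of_one_le_left l0.le (le_max_left _ _)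
  have cl1 : 0 < cl0 := l0.trans_le lc
  have c3 := Ab33.cc_cube A.cl l0
  rw [← hcl] at c3
  have t2 : ts S l ^ 2 = max (l ^ 2) (S.F * S.ms l) := by
    have q : √(S.F * S.ms l) ^ 2 = S.F * S.ms l := Real.sq_sqrt (by positivity)
    rcases le_total l (√(S.F * S.ms l)) with e | e
    · rw [ts, max_eq_right e, q, max_eq_right (q ▸ pow_le_pow_left₀ l0.le e 2)]
    · rw [ts, max_eq_left e, max_eq_left (q ▸ pow_le_pow_left₀ (Real.sqrt_nonneg _) e 2)]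
  have lt : l ≤ ts S l := le_max_left _ _
  have c3' : cl0 ^ 3 = l * ts S l ^ 2 := by
    rw [c3, t2, mul_max_of_nonneg _ _ l0.le]; congr 1 <;> ring
  have ct : cl0 ≤ ts S l := le_of_pow_le_pow_left₀ (n := 3) (by norm_num) (l0.le.trans lt) (by
    rw [c3']; linarith [mul_le_mul_of_nonneg_right lt (sq_nonneg (ts S l))])
  have Lc : cl0 ≤ L * cl0 := le_mul_of_one_le_left cl1.le L1
  have Lc2 : L * cl0 ≤ L ^ 2 * cl0 := mul_le_mul_of_nonneg_right (by nlinarith) cl1.le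
  have As : A0 ≤ s := by linarith [cru]
  have sT := A.sJ_T
  have Ll : 16 * l ≤ L * l := mul_le_mul_of_nonneg_right L16 l0.le
  have vl : S.v ≤ l := by
    have : l ≤ L := by linarith
    exact le_of_mul_le_mul_left (hv.trans (by nlinarith)) (show 0 < L by linarith)
  have hP := h S M m a G1 L l _ _ u A rfl ce sub hK0 l0 ju uJ su.2 (by linarith) cru ru
    le_rfl le_rfl
  rw [← hA0] at hP
  set R := A0 + L * l with hR
  have R1 : A0 ≤ R := by linarith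
  have R2 : L * l ≤ R := by linarith [mA.1]
  have R0 : 0 < R := by linarith
  have mA0 := (A.ms_pos mA.1).le
  obtain ⟨f0, f00, nm, hf⟩ := num_root θ0 θ1 B0 C0.le L1 l0 cl1.le ct c3' mA.1 cru X0 hR Y0 ρ1
  rw [← hk0, ← hk] at hf
  have cv : S.C * (2 * S.v) ≤ S.C * R := mul_le_mul_of_nonneg_left (by linarith) C0.le
  have D1 : lvr 1 (lb M S m a (2 * S.C)) A0 ≤ 2 * S.C * R := by
    rw [hA0, A.lvb_node ju.le up, ← A.lvh_node (A.cl.i1.trans ju.le) uJ]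
    have := A.zh_le' (s_nn A.cl u) ((s_lt A.cl uJ).trans_le (A.cl.sm uJ))
    linarith [mul_le_mul_of_nonneg_left (su.2.trans R2) C0.le]
  have D2 : lvr 1 (lh M (2 * S.C)) A0 ≤ 2 * S.C * R := by
    have := A.zh_le' mA.1 (by linarith)
    linarith [mul_le_mul_of_nonneg_left R1 C0.le]
  have W00 : 0 ≤ W0 S l := by unfold W0; positivity
  have l5 : l ^ 5 ≤ W0 S l := le_add_of_nonneg_right (by positivity)
  have r0 : 0 ≤ ρ ^ 2 / cl0 := by positivity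
  have P0 : 0 ≤ R ^ 3 * ts S l ^ 2 := by positivity
  have ρR : ρ ≤ 2 * (R * ts S l ^ 2) + L * √(A0 * Y) := by
    have a1 : L * X2 ≤ ts S l ^ 2 := by
      have : L * X2 ≤ L ^ 4 * X2 :=
        mul_le_mul_of_nonneg_right (le_self_pow₀ L1 (by norm_num)) X0
      have q : mf S l ≤ S.ms l := div_le_self m0.le F1
      rw [t2]
      exact le_max_of_le_right (by linarith [le_mul_of_one_le_left m0.le F1])
    have a2 : (A0 + l) * (L * X2) ≤ R * ts S l ^ 2 :=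
      mul_le_mul (by linarith) a1 (by positivity) R0.le
    have a3 : L * l * cl0 ^ 2 ≤ R * ts S l ^ 2 :=
      mul_le_mul R2 (pow_le_pow_left₀ cl1.le ct 2) (by positivity) R0.le
    linarith [ρ1]
  refine ⟨cl0, 2 * S.C * R, f0, 4 * S.C * (R ^ 3 * ts S l ^ 2) + S.C * (L ^ 2 * Y + R ^ 5) +
    (4 * S.C + 512 / c + 1536 * S.C ^ 5) * S.F ^ 2 * (ρ ^ 2 / cl0) + 4 * S.C * l ^ 5,
    ⟨mA.1, by linarith, θ0, A.LB_mm, lf, Rs, fun t t0 _ => Gap27.HN_floor (mm_Mx A (by linarith [mA.1])),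
      fun t t' a1 a2 a3 => by linarith [(A.sl sJ t t' a1 a2 a3).2, mul_pos C0 v0], ?_, D1, D2, ρ0,
      ab, f00, nm, cl1⟩, by positivity, Lc, fun y y1 y2 y3 => ?_, ?_⟩
  · have := A.zh_le' le_rfl (by linarith [mA.1])
    linarith
  · have F2 : 1 ≤ S.F ^ 2 := one_le_pow₀ F1
    have i1 : 0 ≤ ∫ t in A0..y, HH M S m a (2 * S.C) t * uu M S m a (2 * S.C) t :=
      intervalIntegral.integral_nonneg y2 fun t ht => (mul_nonneg (A.mm_pos (mA.1.trans ht.1)).le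
        (sq_nonneg _)).trans (Gap27.HN_floor (mm_Mx A (mA.1.trans ht.1)))
    have i2 : 0 ≤ c / 32 * ∫ t in (0 : ℝ)..y, JJ M S m a (2 * S.C) t ^ 2 :=
      mul_nonneg (by positivity) (intervalIntegral.integral_nonneg (by linarith) fun _ _ => sq_nonneg _)
    have j1 := mul_le_mul_of_nonneg_right (le_mul_of_one_le_right
      (show 0 ≤ 4 * S.C + 512 / c by positivity) F2) r0
    have j2 : 0 ≤ 1536 * S.C ^ 5 * S.F ^ 2 * (ρ ^ 2 / cl0) := by positivity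
    have j3 : 0 ≤ (4 * S.C + 512 / c) * (ρ ^ 2 / cl0) := by positivity
    have j4 : 0 ≤ 4 * S.C * (R ^ 3 * ts S l ^ 2) := by positivity
    have j5 : 0 ≤ 4 * S.C * l ^ 5 := by positivity
    have j6 : 0 ≤ S.C * (L ^ 2 * Y + R ^ 5) := by positivity
    rcases le_total (S.F * S.ms l) (l ^ 2) with e | e
    · have e1 : cl0 = l := by
        rw [t2, max_eq_left e] at c3'
        exact (pow_left_inj₀ cl1.le l0.le (by norm_num : 3 ≠ 0)).1 (c3'.trans (by ring))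
      have := ar_thin A cl1 (vl.trans lc) y1 (by linarith) ρ0 c0
      rw [show cl0 ^ 5 = l ^ 5 by rw [e1]] at this
      linarith only [this, i1, j1, j2, j4, j6]
    · have K0 := A.K_pos
      have := ar_thick A cl1 mA.1 (b := y) (by linarith) y2 (by linarith) ρ0 (div_pos m0 K0) Rs.lH
        (D := 2 * S.C * R) (fun t t1 t2 => by
          have := Sc48.lvr_mono A.okb.1.1 t2.le
          have := Sc48.lvr_mono A.okh.1.1 t2.le
          have := Pp.Ode3.lvr_pos A.okb.1.1 (l := lb M S m a (2 * S.C)) t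
          have := Pp.Ode3.lvr_pos A.okh.1.1 (l := lh M (2 * S.C)) t
          unfold uu
          exact abs_le.2 ⟨by linarith, by linarith⟩) (by positivity) fun t t1 => by
          refine div_le_div_of_nonneg_right (A.cl.msm (su.1.trans ?_)) K0.le
          refine le_trans ?_ (A.lev_mono t1.le)
          rw [hA0, A.lev_cell (A.cell ju.le up)]
          exact le_max_right _ _
      have a1 : ρ * (A0 * (2 * S.C * R)) ≤
          (2 * (R * ts S l ^ 2) + L * √(A0 * Y)) * (R * (2 * S.C * R)) := by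
        have := mA.1; have : 0 ≤ L := by linarith
        gcongr
      have a0 := mul_le_mul_of_nonneg_left (rho_R (L := L) mA.1 R1 Y0) C0.le
      have a2 : cl0 * (4 * ρ ^ 2 / (S.ms l / (384 * S.C ^ 5 * S.F))) ≤
          1536 * S.C ^ 5 * S.F ^ 2 * (ρ ^ 2 / cl0) := by
        have q : cl0 ^ 2 ≤ S.F * S.ms l := by
          have := pow_le_pow_left₀ cl1.le ct 2
          rwa [t2, max_eq_right e] at this
        have e2 : cl0 * (4 * ρ ^ 2 / (S.ms l / (384 * S.C ^ 5 * S.F))) =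
            1536 * S.C ^ 5 * S.F * (ρ ^ 2 / cl0) * (cl0 ^ 2 / S.ms l) := by field_simp; ring
        have q' : cl0 ^ 2 / S.ms l ≤ S.F := by rwa [div_le_iff₀ m0]
        rw [e2]
        linarith [mul_le_mul_of_nonneg_left q' (show 0 ≤ 1536 * S.C ^ 5 * S.F * (ρ ^ 2 / cl0) by
          positivity)]
      linarith only [this, a0, a1, a2, i2, j1, j3, j5]
  · refine num_sum (r := ρ ^ 2 / cl0) (C := 4 * S.C) θ0 θ1 L16 F1
      (add_nonneg p0 zero_le_one) p1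
      p2 (by positivity) W00 (by positivity) (add_nonneg (intervalIntegral.integral_nonneg mA.1
        fun _ _ => sq_nonneg _) (mul_nonneg mA.1 (sq_nonneg _))) n0 n1 n2 n3 hP ?_ ?_
    · rw [div_le_iff₀ cl1]
      have a1 : ρ ≤ L * (2 * L * cl0 * X2 + l * cl0 ^ 2 + √(A0 * Y)) :=
        ρ1.trans (mul_le_mul_of_nonneg_left (add_le_add (add_le_add
          (mul_le_mul_of_nonneg_right (by linarith [cru]) X0) le_rfl) le_rfl) (by linarith))
      refine rho_sq ρ0 L1 mA.1 Y0 cru a1 cl1.le ?_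
      rw [c3, mul_max_of_nonneg _ _ (sq_nonneg l), W0]
      have q1 := le_mul_of_one_le_left (pow_pos l0 5).le F1
      have q2 : 0 ≤ S.F * (S.ms l * l ^ 3) := by positivity
      have q3 := pow_pos l0 5
      exact max_le (by linarith only [q1, q2, q3]) (by linarith only [q1, q2, q3])
    · have F2 : 1 ≤ S.F ^ 2 := one_le_pow₀ F1
      have a1 : mf S A0 * (2 * S.C * R) ^ 2 * A0 ≤ S.ms A0 * (2 * S.C * R) ^ 2 * R := by
        have : mf S A0 ≤ S.ms A0 := div_le_self mA0 F1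
        have := mA.1
        gcongr
      have a2 := le_mul_of_one_le_left r0 F2
      have a3 := mul_le_mul_of_nonneg_left l5 (show 0 ≤ 4 * S.C by positivity)
      have q1 : 0 ≤ R ^ 5 := by positivity
      have q2 : 0 ≤ R ^ 3 * S.ms A0 := by positivity
      have g1 : S.C * (L ^ 2 * Y) ≤ L * (L ^ 2 * Y) :=
        mul_le_mul_of_nonneg_right (by linarith only [n3, C0]) (by positivity)
      have g6 : 0 ≤ L ^ 3 * (cl0 * X2 ^ 2) := by have : 0 ≤ L := by linarith only [L1]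
                                                 positivity
      have g7 := mul_nonneg C0.le P0
      have g2 := mul_nonneg (mul_nonneg p0 (add_nonneg zero_le_one pk)) P0
      have g3 := mul_nonneg (mul_nonneg p0 (add_nonneg zero_le_two pk)) q2
      have g4 := mul_nonneg C0.le (add_nonneg q1 q2)
      have g5 := mul_nonneg (sq_nonneg S.C) (add_nonneg q1 P0)
      have g8 := mul_nonneg C0.le q2
      rw [hk1, hk2]
      linarith only [hf, a1, a2, a3, g1, g2, g3, g4, g5, g6, g7, g8]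

/-- **(RtK)** -/
theorem rtK_of (h : RtN) : RtK := fun C B c θ c0 θ0 θ1 => by
  obtain ⟨K, K1, h⟩ := rt_core h C B c θ c0 θ0 θ1
  refine ⟨K, K1, fun S M m a G1 L l X X2 Eg Y η u s ρ r1 r2 ω β f A hC ce sub F hK l0 hv X0 hX hs b
    Y0 hρ => ?_⟩
  simpa only [add_assoc] using h S M m a G1 L l X2 Y u s ρ r1 r2 ω β f A hC ce sub F hK l0 hv X0 hX
    hs b.ju b.uJ b.su b.s1.2 b.cru b.ru b.ρ0 Y0 hρ b.lf b.R b.ab

theorem rtK : RtK := rtK_of rtN

end Crest.Agent.T156.Alt.L31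

end
end

-- ▼ part T156/TLqG_54

/-!
# Row 156, block (L): good nodes of the plateau and their sloped partners (helper54)
-/

set_option autoImplicit false

noncomputable section

namespace Crest.Agent.T156.Alt.Q54

open Real Finset
open Crest.Agent.T156.Alt.L69 Crest.Agent.T156.Alt.Mp9 Crest.Agent.T156.Alt.L63
open Crest.Agent.T156.Alt.L62
open Crest.Agent.T156.Alt.E61 Crest.Agent.T156.Alt.Sz9
open Crest.Agent.T156.Alt.Nd22 (NI NO Go)
open Crest.Agent.T156.Alt.Nd33 (PG SV PO ep sl PgS RH)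
open Crest.Agent.T156.Alt.G89 (Cz GN Okn Ug)

/-- crude location and the top sums under the hypotheses of (TL2) -/
def NiS54 : Prop := CL fun E Λ S M m a =>
  ∀ G1 u1 u2 j γ Lc ηc τ l0 l X Xp Vt Lg Lp X2 X3 X4 G0 η N g t1 tu ℓ En p0,
  Hy E S M m a G1 u1 u2 j γ Lc ηc τ l0 l X Xp Vt Lg Lp X2 X3 X4 G0 η N g t1 tu ℓ En p0 →
  ∃ W3, NI Λ S M m a l0 (X ^ ((1 : ℝ) / 3)) X2 G0 W3 ∧ W3 ≤ Λ * η S.C

/-- the constant error of the nodes whose partners lie at distance at most `ℓ` -/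
def x1 (S : Sc) (M : Md) (X Xp Vt Lg Lp G0 u1 j γ ℓ : ℝ) (η : ℝ → ℝ) : ℝ :=
  η 1 + G0 ^ 2 + Np M S Xp Vt γ u1 Lp 2 +
    uw S Lg 1 ^ 2 * (S.θ + j + X ^ ((1 : ℝ) / 3) + ℓ) + √(S.w3 1 * (Xp + ℓ ^ 3 + γ ^ 3))

/-- the sizes between a node with a cone and the corner -/
def SzL54 : Prop := CL fun E Λ S M m a => ∀ l0 X Xp Vt γ u1 j Lp,
  SzT98.Far E S M Xp Vt γ u1 Lp → Ap S M m a l0 X Xp Vt u1 j → ∀ (p : ℕ) (k0 ρ : ℝ), p < S.J →
  2 * S.J ≤ 3 * p → 1 ≤ k0 →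
  (∀ i : ℕ, S.J / 2 ≤ i → i ≤ p → M.rb m a p - M.rb m a i ≤ k0 * (((p : ℝ) - i) * S.v)) →
  M.rb m a (S.J - 1) - M.rb m a p ≤ ρ →
  ∑ k ∈ Ico p S.J, M.dz m a k * u4 M m a k ^ 2 ≤
    Λ * (((S.J : ℝ) - p) * S.v * (k0 ^ ((2 : ℝ) / 3) * S.w3 1 ^ ((1 : ℝ) / 3)) ^ 2 +
      √(S.w3 1 * ρ ^ 3) + √(S.w3 1 * Xp) + Np M S Xp Vt γ u1 Lp 2)

theorem sq3 {w a b c K : ℝ} (w0 : 0 ≤ w) (a0 : 0 ≤ a) (b0 : 0 ≤ b) (c0 : 0 ≤ c) (K1 : 1 ≤ K) :
    √(w * (K * (a + b + c)) ^ 3) ≤ 3 * K ^ 2 * √(w * (a ^ 3 + b ^ 3 + c ^ 3)) := by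
  have s1 := sq_sqrt (show 0 ≤ w * (a ^ 3 + b ^ 3 + c ^ 3) by positivity)
  refine sqrt_le_iff.2 ⟨by positivity, ?_⟩
  have h1 : (a + b + c) ^ 3 ≤ 9 * (a ^ 3 + b ^ 3 + c ^ 3) := by
    nlinarith [mul_nonneg (add_nonneg a0 b0) (sq_nonneg (a - b)),
      mul_nonneg (add_nonneg a0 c0) (sq_nonneg (a - c)),
      mul_nonneg (add_nonneg b0 c0) (sq_nonneg (b - c)),
      mul_nonneg a0 (sq_nonneg (b - c)), mul_nonneg b0 (sq_nonneg (a - c)),
      mul_nonneg c0 (sq_nonneg (a - b))]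
  have h2 : K ^ 3 ≤ K ^ 4 := pow_le_pow_right₀ K1 (by norm_num)
  have h3 := mul_le_mul h2 (mul_le_mul_of_nonneg_left h1 w0) (by positivity) (by positivity)
  rw [mul_pow (3 * K ^ 2), s1]
  linarith

theorem _root_.Crest.Agent.T156.Alt.L62.PN.mono54 {S : Sc} {M : Md} {m : ℕ} {a T : ℝ} {Pn : ℕ → Prop} {ez ez' : ℕ → ℝ}
    {x x' la la' u ω ℓ B : ℝ} (A : At S M m a T) (h : PN S M m a T Pn ez x la u ω ℓ B)
    (h1 : ∀ k, ez k ≤ ez' k) (h2 : x ≤ x') (h3 : la ≤ la') : PN S M m a T Pn ez' x' la' u ω ℓ B := by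
  have d : ∀ i k, i ≤ k → la * (sb M m a (k + 1) - sb M m a (i + 1)) ≤
      la' * (sb M m a (k + 1) - sb M m a (i + 1)) := fun i k hk =>
    mul_le_mul_of_nonneg_right h3 (sub_nonneg.2 (A.sb_mono (Nat.succ_le_succ hk)))
  refine ⟨h.x00.trans h2, h.la0.trans h3, fun k => (h.ez0 k).trans (h1 k), h.mem, h.ex,
    fun i k a1 a2 a3 => (h.dp i k a1 a2 a3).trans (by linarith [h1 i, h1 k, d i k a3]),
    fun p q a1 a2 a3 a4 a5 a6 => ?_⟩
  obtain ⟨i, b1, b2, b3⟩ := h.dv p q a1 a2 a3 a4 a5 a6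
  refine ⟨i, b1, b2, fun k hk => (b3 k hk).trans ?_⟩
  have := (h.mem k hk).1
  linarith [h1 k, d i k (by omega)]

theorem idx54 {S : Sc} {M : Md} (h : Cl S M) {x : ℝ} (x0 : 0 ≤ x) (x1 : x < M.s S.J) :
    ∃ k, k < S.J ∧ M.s k ≤ x ∧ x < M.s (k + 1) := by
  have jl := h.jl_lt
  have ex : ∃ k, x < M.s (k + 1) := ⟨S.J - 1, by rwa [Nat.sub_add_cancel (by omega)]⟩
  classical
  refine ⟨Nat.find ex, ?_, ?_, Nat.find_spec ex⟩
  · have := Nat.find_min' ex (m := S.J - 1) (by rwa [Nat.sub_add_cancel (by omega)])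
    omega
  · rcases Nat.eq_zero_or_pos (Nat.find ex) with e | e
    · rw [e, h.s0]; exact x0
    · have := Nat.find_min ex (m := Nat.find ex - 1) (by omega)
      rw [Nat.sub_add_cancel e] at this
      exact not_lt.1 this

/-- the slope term against the size -/
theorem wr_le {S : Sc} {M : Md} (h : Cl S M) (u0 : 0 < S.u0) {Xp Vt γ : ℝ} (X0 : 0 < Xp)
    (V0 : 0 ≤ Vt) (γ0 : 0 ≤ γ) (w0 : 0 ≤ S.w3 1) {k : ℕ} (k1 : S.J ≤ k) (k2 : k < S.Jp) :
    0 ≤ ap M S Xp Vt γ k ∧ 0 ≤ sl M S Xp Vt γ k - 1 ∧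
      S.w3 1 * (sl M S Xp Vt γ k - 1) ≤ ap M S Xp Vt γ k ^ 2 := by
  have d0 := SzT98.ds_pos h u0 k1 k2
  have d1 : ds M S k ≤ 1 := (min_le_right _ _).trans (by unfold du; linarith [h.z_pos (k - 1)])
  have n0 := h.den0 (M.z (k - 1))
  have r0 : 0 ≤ Rp M S Xp Vt γ k + Xp ^ ((1 : ℝ) / 3) := by
    have : 0 ≤ min Vt (√(Xp / du M k)) := le_min V0 (sqrt_nonneg _)
    unfold Rp; positivity
  unfold ap sl lsh
  generalize Rp M S Xp Vt γ k + Xp ^ ((1 : ℝ) / 3) = ρ at *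
  generalize S.den (M.z (k - 1)) = n at *
  generalize ds M S k = d at *
  generalize S.w3 1 = w at *
  have c0 := sqrt_nonneg (w / (n * d))
  have b0 : 0 ≤ w / (n * d ^ 2) := by positivity
  have i0 : 0 ≤ w * (n + ρ ^ 2 / (d ^ 2 * n)) := by positivity
  have a3 := Nd22.cb3 i0
  have a0 : 0 ≤ (w * (n + ρ ^ 2 / (d ^ 2 * n))) ^ ((1 : ℝ) / 3) := by positivity
  generalize (w * (n + ρ ^ 2 / (d ^ 2 * n))) ^ ((1 : ℝ) / 3) = A at *
  refine ⟨by positivity, by rw [add_sub_cancel_left]; positivity, ?_⟩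
  rw [add_sub_cancel_left, show w * (ρ / (n * d)) = w / (n * d) * ρ by ring]
  have W0 : 0 ≤ w / (n * d) := by positivity
  have Wb : w / (n * d) ≤ w / (n * d ^ 2) :=
    div_le_div_of_nonneg_left w0 (by positivity) (by nlinarith [mul_pos n0 d0])
  have WA : w / (n * d) * ρ ^ 2 ≤ A ^ 3 := by
    rw [a3]
    have := mul_le_mul_of_nonneg_right Wb (sq_nonneg ρ)
    have e : w * (n + ρ ^ 2 / (d ^ 2 * n)) = w * n + w / (n * d ^ 2) * ρ ^ 2 := by
      field_simp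
    have : 0 ≤ w * n := by positivity
    linarith
  generalize w / (n * d) = W at *
  generalize w / (n * d ^ 2) = B at *
  generalize √W = c at *
  rcases le_total ρ W with e | e
  · have x1 : W * ρ ≤ B * B := mul_le_mul Wb (e.trans Wb) r0 b0
    have x2 : B ^ 2 ≤ (A + B + c) ^ 2 := pow_le_pow_left₀ b0 (by linarith) 2
    linarith
  · have x1 : W * ρ ≤ A ^ 2 := by
      refine le_of_pow_le_pow_left₀ three_ne_zero (sq_nonneg _) ?_
      have y1 : (W * ρ ^ 2) ^ 2 ≤ (A ^ 3) ^ 2 := pow_le_pow_left₀ (by positivity) WA 2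
      have y2 := mul_le_mul_of_nonneg_left e (show 0 ≤ W ^ 2 * ρ ^ 3 by positivity)
      linarith
    have x2 : A ^ 2 ≤ (A + B + c) ^ 2 := pow_le_pow_left₀ a0 (by linarith) 2
    linarith

/-- the pointwise context -/
structure C54 (D E : ℝ) (S : Sc) (M : Md) (m : ℕ) (a G1 u1 u2 j γ Lc ηc τ l0 l X Xp Vt Lg Lp X2 X3
    X4 G0 : ℝ) (η : ℝ → ℝ) (N : ℝ) (g : ℝ → ℝ) (t1 ℓ En p0 W3 : ℝ) : Prop where
  Z : Cz D E D D S M m a (2 * S.C) G1 l0 l (X ^ ((1 : ℝ) / 3)) X Lg X2 X3 G0 W3 η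
  H : Hy E S M m a G1 u1 u2 j γ Lc ηc τ l0 l X Xp Vt Lg Lp X2 X3 X4 G0 η N g t1 (M.s S.J) ℓ En p0
  po : 8 * S.jl ≤ S.J → ∀ v G ev N2, v ≤ S.J → SV S M m a v G ev → Nu M m a (u4 M m a) 2 ≤ N2 →
    PO D S M m a G ev N2
  sz : ∑ k ∈ Ico S.J M.N, M.dz m a k * u4 M m a k ^ 2 ≤ D * Np M S Xp Vt γ u1 Lp 2
  out : ∀ k, S.J ≤ 8 * k → k < S.J → Gd65.Out D S M m a (2 * S.C) j γ (X ^ ((1 : ℝ) / 3)) k
  rh : RH S M m a Xp γ
  szl : ∀ (p : ℕ) (k0 ρ : ℝ), p < S.J → 2 * S.J ≤ 3 * p → 1 ≤ k0 →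
    (∀ i : ℕ, S.J / 2 ≤ i → i ≤ p → M.rb m a p - M.rb m a i ≤ k0 * (((p : ℝ) - i) * S.v)) →
    M.rb m a (S.J - 1) - M.rb m a p ≤ ρ →
    ∑ k ∈ Ico p S.J, M.dz m a k * u4 M m a k ^ 2 ≤
      D * (((S.J : ℝ) - p) * S.v * (k0 ^ ((2 : ℝ) / 3) * S.w3 1 ^ ((1 : ℝ) / 3)) ^ 2 +
        √(S.w3 1 * ρ ^ 3) + √(S.w3 1 * Xp) + Np M S Xp Vt γ u1 Lp 2)
  pg : ∀ k, S.J ≤ k → k ≤ S.Jp → 3 * u1 ≤ du M k →
    ∃ i, k < i ∧ i + 1 < S.Jp ∧ M.z (i - 1) ≤ M.z (k - 1) + ds M S k / 8 ∧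
      M.z i ≤ M.z (k - 1) + ds M S k / 4 ∧ PG S M m a i (D * Lp * sl M S Xp Vt γ i)
        (D * (Lp ^ ((2 : ℝ) / 3) * ap M S Xp Vt γ i))

namespace C54

variable {D E : ℝ} {S : Sc} {M : Md} {m : ℕ} {a G1 u1 u2 j γ Lc ηc τ l0 l X Xp Vt Lg Lp X2 X3 X4
  G0 : ℝ} {η : ℝ → ℝ} {N : ℝ} {g : ℝ → ℝ} {t1 ℓ En p0 W3 : ℝ}
  (Q : C54 D E S M m a G1 u1 u2 j γ Lc ηc τ l0 l X Xp Vt Lg Lp X2 X3 X4 G0 η N g t1 ℓ En p0 W3)
include Q

theorem cE {k : ℕ} (hk : k ≤ 10) : 10000 * S.C ^ k ≤ E := (Q.Z.Cp hk).trans Q.Z.D_E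

theorem l1 : l ≤ 1 := by nlinarith [Q.H.ln.l1, Q.Z.E1, Q.Z.lp]

theorem lE {k : ℕ} (hk : k ≤ 10) : 10000 * S.C ^ k * l ≤ 1 :=
  (mul_le_mul_of_nonneg_right (Q.cE hk) Q.Z.lp.le).trans Q.H.ln.l1

theorem th : 0 < S.θ ∧ S.θ ≤ √S.θ ∧ 1 / S.n ≤ S.θ := by
  have h := Q.Z.A.cl
  have t0 := h.θ0
  have t1 : S.θ ≤ 1 := by nlinarith [Q.Z.hθ, h.C1]
  refine ⟨t0, le_sqrt' t0 |>.2 (by nlinarith), ?_⟩
  have := h.ms0.trans (h.ms1 0)
  rwa [rpow_neg_one, inv_eq_one_div] at this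

theorem ell : 0 < ℓ ∧ E * S.θ ≤ ℓ ∧ 10 * (S.C * S.v) ≤ ℓ := by
  obtain ⟨t0, t1, t2⟩ := Q.th
  have h := Q.Z.A.cl
  have E1 := Q.Z.E1
  have a : E * S.θ ≤ ℓ := (mul_le_mul_of_nonneg_left t1 (by linarith)).trans Q.H.lt.ℓ1
  refine ⟨lt_of_lt_of_le (by positivity) a, a, ?_⟩
  have n0 := h.N0
  have n1 : (1 : ℝ) ≤ S.n := by exact_mod_cast h.n1
  have cv := mul_pos h.C0 h.v0
  have b : S.C * S.v ≤ 1 / S.n := by
    rw [le_div_iff₀ n0]
    nlinarith [Q.Z.hv, mul_le_mul_of_nonneg_left n1 (mul_pos cv n0).le]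
  have c : (10 : ℝ) ≤ E := by linarith [Q.Z.D4, Q.Z.D_E]
  nlinarith [mul_le_mul_of_nonneg_right c t0.le]

theorem jl8 : 8 * S.jl ≤ S.J := by
  have h := Q.Z.A.cl
  have C0 := h.C0
  have v0 := h.v0
  have a := (h.s_tel (Nat.zero_le S.jl) h.jl_lt.le).1
  have b := (h.s_tel (Nat.zero_le S.J) le_rfl).2
  have c := Ab33.sJ_ge h
  rw [h.s0] at a b
  simp only [Nat.cast_zero, sub_zero] at a b
  have d : 10000 * S.C ^ 5 * M.s S.jl ≤ 1 :=
    (mul_le_mul_of_nonneg_right (Q.cE (by norm_num)) (h.s_nn _)).trans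
      (Q.H.ln.l0s.trans (Q.H.ln.l0l.trans Q.l1))
  rw [← mul_div_assoc, div_le_iff₀ C0] at a
  have e : (8 * S.jl : ℝ) * (3 * S.C ^ 4 * S.v) ≤ S.J * (3 * S.C ^ 4 * S.v) := by
    have a' := mul_le_mul_of_nonneg_left a (show 0 ≤ 24 * S.C ^ 4 by positivity)
    have b' := mul_le_mul_of_nonneg_left b (show 0 ≤ 3 * S.C ^ 3 by positivity)
    have := mul_nonneg (show 0 ≤ S.C ^ 5 by positivity) (h.s_nn S.jl)
    linarith
  exact_mod_cast le_of_mul_le_mul_right e (by positivity)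

/-- levels of order one -/
theorem lev {t : ℝ} (h1 : l ≤ t) (h2 : t ≤ S.C) (h3 : 1 ≤ 4 * S.C ^ 4 * t) :
    η t ≤ D ^ 2 * η 1 ∧ Ug S Lg t ≤ D ^ 2 * Ug S Lg 1 ∧ Lg * cr S t * gg S t ≤ D * η 1 := by
  have h := Q.Z.A.cl
  have C0 := h.C0
  have C1 := h.C1
  have c2 : S.C ≤ S.C ^ 2 := le_self_pow₀ C1 two_ne_zero
  have D4 := Q.Z.D4
  have e0 := Q.Z.eta_pos Q.l1 C1
  have U0 := Q.Z.Ug_nn Q.l1
  have t0 := Q.Z.lp.trans_le h1
  have DD : D ≤ D ^ 2 := le_self_pow₀ (by linarith) two_ne_zero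
  have key : η t ≤ D ^ 2 * η 1 ∧ Ug S Lg t ≤ D ^ 2 * Ug S Lg 1 := by
    rcases le_total 1 (2 * S.C ^ 2 * t) with e | e
    · obtain ⟨a, -, b, -⟩ := Q.Z.cmp Q.l1 h1 C1 (by linarith) e
      exact ⟨a.trans (mul_le_mul_of_nonneg_right DD e0.le),
        b.trans (mul_le_mul_of_nonneg_right DD U0)⟩
    · have p : 0 < 2 * S.C ^ 2 := by positivity
      have q : 2 * S.C ^ 2 * (1 / (2 * S.C ^ 2)) = 1 := by field_simp
      have r1 : 1 / (2 * S.C ^ 2) ≤ 1 := by rw [div_le_one p]; linarith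
      have r2 : l ≤ 1 / (2 * S.C ^ 2) := by
        rw [le_div_iff₀ p]
        have := mul_pos (pow_pos C0 2) Q.Z.lp
        linarith [Q.lE (k := 2) (by norm_num)]
      obtain ⟨a, -, b, -⟩ := Q.Z.cmp Q.l1 r2 C1 (by linarith) q.ge
      obtain ⟨a', -, b', -⟩ := Q.Z.cmp r2 h1 (r1.trans C1) (by
        rw [q]; nlinarith [mul_le_mul_of_nonneg_right (C1.trans c2) t0.le])
        (by rw [div_le_iff₀ p]; linarith)
      exact ⟨by linarith [mul_le_mul_of_nonneg_left a (show 0 ≤ D by linarith)],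
        by linarith [mul_le_mul_of_nonneg_left b (show 0 ≤ D by linarith)]⟩
  refine ⟨key.1, key.2, ?_⟩
  have m0 := h.ms_pos t0.le
  have m1 := h.θ0
  have n0 := h.N0
  have E1 := Q.Z.E1
  have cr1 : cr S t = 1 := by
    refine max_eq_left (rpow_le_one (by rw [Q.H.lt.F1]; positivity) ?_ (by norm_num))
    rw [Q.H.lt.F1, one_mul, div_le_one (by positivity)]
    have a := Q.H.lt.ml t h1 h2
    have b : √(S.ms t) ≤ t := (le_mul_of_one_le_left (sqrt_nonneg _) E1).trans a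
    exact (sqrt_le_left t0.le).1 b
  have c4 : 1 ≤ 4 * S.C ^ 4 := by linarith [one_le_pow₀ (n := 4) C1]
  have g1 : gg S t ≤ D * S.w3 1 := by
    have a := (h.msm h3).trans (h.ms_mul t0.le c4)
    have b := Q.Z.Cp (k := 8) (by norm_num)
    unfold gg Sc.w3
    rw [Q.H.lt.F1, ← mul_div_assoc, div_le_div_iff₀ (by positivity) (by
      have : 0 < S.ms 1 := m1
      positivity)]
    have c : 4 * (4 * S.C ^ 4) ^ 2 * S.ms t ≤ D * S.ms t :=
      mul_le_mul_of_nonneg_right (by linarith [pow_pos C0 8]) m0.le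
    linarith [mul_le_mul_of_nonneg_left (a.trans c) n0.le]
  have w0 := (Q.Z.w3p one_pos).le
  have g2 := E1.trans Q.Z.EL
  have g3 : Lg * S.w3 1 ≤ η 1 := by
    refine le_trans ?_ (Q.Z.eta_b Q.l1 C1).2.1
    rw [G89.uw_cube w0]
    refine mul_le_mul_of_nonneg_right ?_ w0
    have a : Lg ≤ Lg ^ 2 * cr S 1 := (le_self_pow₀ g2 two_ne_zero).trans
      (le_mul_of_one_le_right (by positivity) (Ab33.cr_one S 1))
    exact a.trans (le_self_pow₀ (g2.trans a) three_ne_zero)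
  rw [cr1, mul_one]
  linarith [mul_le_mul_of_nonneg_left g1 (show 0 ≤ Lg by linarith),
    mul_le_mul_of_nonneg_left g3 (show 0 ≤ D by linarith)]

theorem cr1 {t : ℝ} (h1 : l ≤ t) (h2 : t ≤ S.C) : cr S t = 1 := by
  have t0 := Q.Z.lp.trans_le h1
  have m0 := Q.Z.A.cl.ms_pos t0.le
  refine max_eq_left (rpow_le_one (by rw [Q.H.lt.F1]; positivity) ?_ (by norm_num))
  rw [Q.H.lt.F1, one_mul, div_le_one (by positivity)]
  have a := Q.H.lt.ml t h1 h2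
  have b : √(S.ms t) ≤ t := (le_mul_of_one_le_left (sqrt_nonneg _) Q.Z.E1).trans a
  exact (sqrt_le_left t0.le).1 b

/-- a free window below the corner -/
theorem win' {i : ℕ} {d : ℝ} (hi : i ≤ S.J) (d0 : 0 ≤ d) (d1 : D * d ≤ 1)
    (h1 : M.s S.J - M.s i ≤ d) :
    7 * S.J ≤ 8 * i ∧ 1 ≤ 4 * S.C ^ 4 * M.s i ∧ l ≤ M.s i ∧ M.s i ≤ S.C ∧ M.s S.J ≤ 2 * M.s i ∧
      ((S.J : ℝ) - i) * S.v ≤ S.C * d := by
  have h := Q.Z.A.cl
  have C0 := h.C0
  have C1 := h.C1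
  have v0 := h.v0
  have a := (h.s_tel hi le_rfl).1
  have b := (h.s_tel (Nat.zero_le S.J) le_rfl).2
  have c := Ab33.sJ_ge h
  rw [h.s0] at b
  simp only [Nat.cast_zero, sub_zero] at b
  have e : ∀ k, k + 3 ≤ 10 → 1000 * S.C ^ k * d ≤ M.s S.J := fun k hk => by
    have x := (mul_le_mul_of_nonneg_right (Q.Z.Cp hk) d0).trans d1
    refine le_of_mul_le_mul_left ?_ (show 0 < 3 * S.C ^ 3 by positivity)
    have : 0 ≤ S.C ^ (k + 3) * d := by positivity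
    calc 3 * S.C ^ 3 * (1000 * S.C ^ k * d) = 3000 * (S.C ^ (k + 3) * d) := by ring
      _ ≤ _ := by linarith
  have d3 := e 0 (by norm_num)
  have d5 := e 2 (by norm_num)
  rw [← mul_div_assoc, div_le_iff₀ C0] at a
  have s0 := h.s_nn i
  have a1 : (M.s S.J - M.s i) * S.C ≤ d * S.C := mul_le_mul_of_nonneg_right h1 C0.le
  have f : 1 ≤ 4 * S.C ^ 3 * M.s i := by
    nlinarith [mul_le_mul_of_nonneg_left (show 99 / 100 * M.s S.J ≤ M.s i by linarith)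
      (show 0 ≤ 4 * S.C ^ 3 by positivity)]
  refine ⟨?_, f.trans (by gcongr; norm_num), ?_, h.s_le_C (hi.trans h.i3), by linarith,
    by linarith⟩
  · have e : (7 * S.J : ℝ) * (S.C * S.v) ≤ 8 * i * (S.C * S.v) := by
      have a2 := mul_le_mul_of_nonneg_left (a.trans a1) C0.le
      have := mul_nonneg (pow_pos C0 2).le d0
      linarith
    exact_mod_cast le_of_mul_le_mul_right e (by positivity)
  · have := Q.lE (k := 3) (by norm_num)
    refine le_of_mul_le_mul_left ?_ (show 0 < 4 * S.C ^ 3 by positivity)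
    have := mul_pos (pow_pos C0 3) Q.Z.lp
    linarith

theorem aa_lo {aa : ℝ} (a3 : E ^ 3 * S.w3 1 ≤ aa ^ 3) :
    0 < aa ∧ E * w1 S 1 ≤ aa ∧ 10 * (S.C * S.v) ≤ aa := by
  have h := Q.Z.A.cl
  have E1 := Q.Z.E1
  have w0 := Q.Z.w3p one_pos
  have n0 := h.N0
  have n1 : (1 : ℝ) ≤ S.n := by exact_mod_cast h.n1
  have cv := mul_pos h.C0 h.v0
  have a0 : 0 < aa := (Odd.pow_pos_iff (by decide : Odd 3)).1 (lt_of_lt_of_le (by positivity) a3)
  refine ⟨a0, le_of_pow_le_pow_left₀ three_ne_zero a0.le ?_,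
    le_of_pow_le_pow_left₀ three_ne_zero a0.le (le_trans ?_ a3)⟩
  · rw [mul_pow, w1, Nd22.cb3 w0.le]; exact a3
  · have b : S.C * S.v ≤ 1 / S.n := by
      rw [le_div_iff₀ n0]
      nlinarith [Q.Z.hv, mul_le_mul_of_nonneg_left n1 (mul_pos cv n0).le]
    have b1 : 1 / (S.n : ℝ) ≤ 1 := (div_le_one n0).2 n1
    have c : 1 / (S.n : ℝ) ≤ S.w3 1 := by
      have t0 : 0 < S.ms 1 := h.θ0
      have t1 : S.ms 1 ≤ 1 := by
        have : S.θ ≤ 1 := by nlinarith [Q.Z.hθ, h.C1, h.θ0]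
        exact this
      unfold Sc.w3
      rw [Q.H.lt.F1]
      exact div_le_div_of_nonneg_left zero_le_one (by positivity) (by nlinarith)
    have d : (S.C * S.v) ^ 3 ≤ S.w3 1 :=
      (pow_le_of_le_one cv.le (b.trans b1) three_ne_zero).trans (b.trans c)
    rw [mul_pow]
    exact mul_le_mul (pow_le_pow_left₀ (by norm_num) (by linarith [Q.Z.D4, Q.Z.D_E]) 3) d
      (by positivity) (by positivity)

/-- the data of a sloped node with a cone -/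
theorem sv_at {i : ℕ} {aa d : ℝ} (a3 : E ^ 3 * S.w3 1 ≤ aa ^ 3)
    (cn : Gd M m a (Lg * cr S (M.s i) / S.C) (i - i / 3) (min (i + i / 3) (S.J - 1)) i)
    (h1 : M.s i + aa / 5 ≤ M.s S.J) (h2 : M.s S.J - M.s i ≤ d) (d1 : D * d ≤ 1) :
    i < S.J ∧ ∃ G ev, SV S M m a i G ev ∧ ev ≤ D ^ 10 * η 1 ∧
      (∃ Gb, G ≤ Gb ∧ Gb ^ 2 ≤ 2 * D ^ 7 * (η 1 + G0 ^ 2)) ∧ u4 M m a i ≤ D ^ 3 * Ug S Lg 1 := by
  have h := Q.Z.A.cl
  have C0 := h.C0
  have C1 := h.C1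
  have v0 := h.v0
  have D4 := Q.Z.D4
  have D0 : 0 < D := by linarith
  have E1 := Q.Z.E1
  have g2 := E1.trans Q.Z.EL
  obtain ⟨a0, a1, a2⟩ := Q.aa_lo a3
  have iJ : i < S.J := by
    by_contra c
    linarith [h.sm (not_lt.1 c)]
  obtain ⟨-, w2, w3, w4, w5, -⟩ := Q.win' iJ.le (by linarith) d1 h2
  obtain ⟨y1, y2, y3⟩ := Q.lev w3 w4 w2
  have hi : i + 1 < S.J := by
    by_contra c
    have e : i + 1 = S.J := by omega
    have := (h.ss i iJ).2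
    rw [e] at this
    have := mul_pos C0 v0
    linarith
  have go : Go D S M m a l0 l (X ^ ((1 : ℝ) / 3)) Lg η i (Lg * cr S (M.s i)) (η (M.s i)) := by
    refine ⟨w3, Q.H.lt.l2.trans w3, hi, Q.Z.k1 w3,
      le_mul_of_one_le_right (by linarith) (Ab33.cr_one S _), Q.Z.kap_le w3 w4, Or.inr ?_, cn,
      (Q.Z.eta_pos w3 w4).le, fun _ => le_rfl⟩
    change 2 * log S.n * Ug S Lg (M.s i) ≤ _
    have w0 : 0 ≤ w1 S 1 := rpow_nonneg (Q.Z.w3p one_pos).le _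
    have e1 : Ug S Lg 1 ≤ Lg * w1 S 1 := by
      unfold Ug Nd22.U
      rw [Q.cr1 Q.l1 C1, mul_one]
      exact mul_le_mul_of_nonneg_right (rpow_le_self_of_one_le g2 (by norm_num)) w0
    have e2 : 2 * log S.n * Ug S Lg (M.s i) ≤ 2 * D * (D ^ 2 * (Lg * w1 S 1)) :=
      mul_le_mul (by linarith [Q.Z.lg]) (y2.trans (mul_le_mul_of_nonneg_left e1 (by positivity)))
        (Q.Z.Ug_nn w3) (by positivity)
    have e3 := (h.s_tel iJ.le le_rfl).2
    have e6 : 10000 * S.C ^ 1 * D ^ 3 ≤ E := le_trans (by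
      linarith [mul_le_mul_of_nonneg_right (Q.Z.Cp (k := 1) (by norm_num)) (pow_pos D0 3).le])
      (Q.Z.DpE (i := 4) (by norm_num))
    have e7 := (mul_le_mul_of_nonneg_right e6 w0).trans a1
    have e8 : 2 * D ^ 3 * w1 S 1 ≤ ((S.J : ℝ) - i) * S.v := by
      refine le_of_mul_le_mul_left ?_ C0
      have : 0 ≤ S.C * D ^ 3 * w1 S 1 := by positivity
      linarith
    rw [Q.cr1 w3 w4, mul_one]
    linarith [mul_le_mul_of_nonneg_left e8 (show 0 ≤ Lg by linarith)]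
  obtain ⟨G, n1, n2, n3⟩ := Q.Z.no.ng _ _ _ go
  have e0 := Q.Z.eta_pos Q.l1 C1
  refine ⟨iJ, G, _, ⟨n1, n2⟩, (Q.Z.ee_le w3 w4).trans ?_, ⟨_, n3, ?_⟩, ?_⟩
  · linarith [mul_le_mul_of_nonneg_left y1 (pow_pos D0 8).le]
  · have k0 : 0 ≤ Lg * cr S (M.s i) * gg S (M.s i) := by
      have := Ab33.cr_one S (M.s i)
      have := h.ms_pos (h.s_nn i)
      have := h.N0
      have := h.F1
      unfold gg; positivity
    have s2 := sq_sqrt k0
    generalize √(Lg * cr S (M.s i) * gg S (M.s i)) = s at *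
    have x1 : (s + G0) ^ 2 ≤ 2 * D * (η 1 + G0 ^ 2) := by
      nlinarith [sq_nonneg (s - G0), sq_nonneg G0]
    linarith [mul_le_mul_of_nonneg_left x1 (pow_pos D0 6).le]
  · have := (Q.Z.no.nd _ _ _ go).1
    change u4 M m a i ≤ D * Ug S Lg (M.s i) at this
    linarith [mul_le_mul_of_nonneg_left y2 D0.le]

/-- the cone on the whole lower half of the top window, and the rise up to the corner -/
theorem cone_lo {i : ℕ} {d : ℝ}
    (cn : Gd M m a (Lg * cr S (M.s i) / S.C) (i - i / 3) (min (i + i / 3) (S.J - 1)) i)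
    (iJ : i < S.J) (h2 : M.s S.J - M.s i ≤ d) (d1 : D * d ≤ 1) :
    (∀ y : ℕ, y < S.J → |M.rb m a y - M.rb m a i| ≤ Lg * (|(y : ℝ) - i| * S.v)) ∧
      M.rb m a (S.J - 1) - M.rb m a i ≤ 14 * S.C ^ 5 * (Xp ^ ((1 : ℝ) / 3) + d + γ) := by
  have h := Q.Z.A.cl
  have C0 := h.C0
  have C1 := h.C1
  have v0 := h.v0
  have E1 := Q.Z.E1
  have g2 := E1.trans Q.Z.EL
  have d0 : 0 ≤ d := (sub_nonneg.2 (h.sm iJ.le)).trans h2
  obtain ⟨w1', w2, w3, w4, -, w6⟩ := Q.win' iJ.le d0 d1 h2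
  have j8 := Q.jl8
  have i1 := h.i1
  have i2 := h.i2
  have mo := rb_mono (M := M) (a := a) Q.Z.A.m_pos
  rw [Q.cr1 w3 w4, mul_one] at cn
  have k0 : 0 ≤ Lg / S.C := by positivity
  have e : ∀ x : ℝ, Lg / S.C * (x * (S.C * S.v)) = Lg * (x * S.v) := fun x => by field_simp
  have R := Q.rh
  refine ⟨fun y hy => ?_, ?_⟩
  · rcases le_total i y with c | c
    · have c' : (0 : ℝ) ≤ y - i := sub_nonneg.2 (by exact_mod_cast c)
      rw [abs_of_nonneg (sub_nonneg.2 (mo c)), abs_of_nonneg c', ← e]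
      exact (cn.1 y c (by omega)).trans
        (mul_le_mul_of_nonneg_left (h.z_tel (by omega) c hy).2 k0)
    · have c' : (0 : ℝ) ≤ i - y := sub_nonneg.2 (by exact_mod_cast c)
      rw [abs_sub_comm, abs_of_nonneg (sub_nonneg.2 (mo c)), abs_sub_comm, abs_of_nonneg c']
      rcases le_or_gt (i - i / 3) y with f | f
      · rw [← e]
        exact (cn.2 y f c).trans (mul_le_mul_of_nonneg_left (h.z_tel (by omega) c iJ).2 k0)
      · have r1 := (rb_mem (M := M) (a := a) Q.Z.A.m_pos i).2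
        have r2 := (rb_mem (M := M) (a := a) Q.Z.A.m_pos y).1
        have f1 : (i : ℝ) ≤ 3 * (i - y) := by
          have : 3 * y ≤ 2 * i := by omega
          have : (3 * y : ℝ) ≤ 2 * i := by exact_mod_cast this
          linarith
        have f2 := (h.s_tel (Nat.zero_le i) iJ.le).2
        rw [h.s0] at f2
        simp only [Nat.cast_zero, sub_zero] at f2
        have f3 := mul_le_mul_of_nonneg_right f1 (mul_pos C0 v0).le
        have f4 := mul_le_mul_of_nonneg_left (f2.trans f3) (show 0 ≤ 4 * S.C ^ 4 by positivity)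
        have f5 := mul_le_mul_of_nonneg_right ((Q.cE (k := 5) (by norm_num)).trans Q.Z.EL)
          (mul_nonneg c' v0.le)
        have : 0 ≤ S.C ^ 5 * (((i : ℝ) - y) * S.v) := by positivity
        linarith
  · have γ0 := R.γ_nn
    have x0 : 0 < Xp ^ ((1 : ℝ) / 3) := rpow_pos_of_pos R.X0 _
    have r := R.rise le_rfl h.i3 i
    have u := R.up le_rfl h.i3 (W := 1 / S.C) (by positivity) (by
      have := h.atom.2
      have : 0 < 1 / S.C := by positivity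
      unfold du; linarith)
    have c4 : 1 ≤ S.C ^ 4 := one_le_pow₀ C1
    have x1 : Xp ^ ((1 : ℝ) / 3) ≤ 1 := by nlinarith [R.X1]
    have s : √(Xp / (1 / S.C)) ≤ S.C * Xp ^ ((1 : ℝ) / 3) := by
      refine sqrt_le_iff.2 ⟨by positivity, ?_⟩
      have x3 := Nd22.cb3 R.X0.le
      rw [div_div_eq_mul_div, div_one]
      generalize Xp ^ ((1 : ℝ) / 3) = x at *
      have y1 : x ^ 3 ≤ x ^ 2 := pow_le_pow_of_le_one x0.le x1 (by norm_num)
      have y2 : S.C ≤ S.C ^ 2 := le_self_pow₀ C1 two_ne_zero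
      rw [← x3, mul_pow, mul_comm]
      exact mul_le_mul y2 y1 (by positivity) (by positivity)
    have mx : max (M.del m a S.J) 0 ≤ γ + 2 * (S.C * Xp ^ ((1 : ℝ) / 3)) :=
      max_le (by linarith) (by positivity)
    rw [Nat.cast_sub iJ.le] at r
    have one : (1 : ℝ) ≤ S.J - i := by
      have : ((i + 1 : ℕ) : ℝ) ≤ S.J := by exact_mod_cast iJ
      push_cast at this; linarith
    have v1 : S.v ≤ S.C * d := (le_mul_of_one_le_left v0.le one).trans w6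
    have c5 : S.C ≤ S.C ^ 5 := le_self_pow₀ C1 (by norm_num)
    have c6 : S.C ^ 2 ≤ S.C ^ 5 := pow_le_pow_right₀ C1 (by norm_num)
    have q1 := mul_le_mul_of_nonneg_left w6 (show 0 ≤ 12 * S.C ^ 4 by positivity)
    have q2 := mul_le_mul_of_nonneg_left v1 C0.le
    have q3 := mul_le_mul_of_nonneg_right c5 x0.le
    have q4 := mul_le_mul_of_nonneg_right c6 d0
    have q5 := mul_le_mul_of_nonneg_right (C1.trans c5) γ0
    have q6 := mo (Nat.sub_le S.J 1)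
    have : 0 ≤ S.C ^ 5 * Xp ^ ((1 : ℝ) / 3) := by positivity
    have : 0 ≤ S.C ^ 5 * γ := by positivity
    linarith

/-- crude location without the mass -/
theorem loc {k : ℕ} (h1 : S.J ≤ 8 * k) (h2 : k < S.J) :
    |M.del m a k| ≤ 2 * (S.C ^ 2 * X ^ ((1 : ℝ) / 3) + 3 * S.C ^ 3 * S.v + γ) := by
  have h := Q.Z.A.cl
  have C0 := h.C0
  have C1 := h.C1
  have v0 := h.v0
  have E1 := Q.Z.E1
  have E0 : 0 < E := by linarith
  have R0 : 0 < X ^ ((1 : ℝ) / 3) := rpow_pos_of_pos Q.H.ln.X0 _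
  have R1 : E * X ^ ((1 : ℝ) / 3) ≤ 1 := Q.H.lt.lX.trans Q.l1
  have γ0 := Q.rh.γ_nn
  have j8 := Q.jl8
  have i2 := h.i2
  have n0 := h.N0
  have n1 : (1 : ℝ) ≤ S.n := by exact_mod_cast h.n1
  have cv := mul_pos C0 v0
  have v1 : E * (S.C * S.v) ≤ 1 := by
    nlinarith [Q.Z.hv, mul_le_mul_of_nonneg_left n1 (mul_pos cv n0).le,
      mul_le_mul_of_nonneg_right Q.Z.En cv.le]
  have s1 : E * M.s S.jl ≤ 1 := Q.H.ln.l0s.trans (Q.H.ln.l0l.trans Q.l1)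
  have s2 := (h.ss S.jl h.jl_lt).2
  have s3 := Gd65.s_top h h1 h2.le
  have c3 : S.C ≤ S.C ^ 3 := le_self_pow₀ C1 (by norm_num)
  have c3' := mul_le_mul_of_nonneg_right c3 v0.le
  have hs : 2 * S.C * (S.C ^ 2 * X ^ ((1 : ℝ) / 3) + 3 * S.C ^ 3 * S.v + γ) <
      M.s k - M.s (S.jl + 1) := by
    refine lt_of_mul_lt_mul_left ?_ E0.le
    have a1 := mul_le_mul_of_nonneg_left R1 (pow_pos C0 3).le
    have a2 := mul_le_mul_of_nonneg_left v1 (pow_pos C0 3).le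
    have a3 := mul_le_mul_of_nonneg_left Q.H.lp.γ1 C0.le
    have a4 := mul_le_mul_of_nonneg_left s2 E0.le
    have a5 := mul_le_mul_of_nonneg_right (Q.cE (k := 8) (by norm_num)) (h.s_nn k)
    have a6 := mul_le_mul_of_nonneg_left s3 (pow_pos C0 3).le
    linarith
  refine Gd65.del_win Q.Z.A Q.Z.hθ h.i1 (lo := S.jl) ?_ h2.le Q.H.lp.γ0 R0.le
    ((le_mul_of_one_le_left R0.le E1).trans R1) ?_
    (by linarith [mul_pos (pow_pos C0 3) v0]) hs
  · by_contra c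
    have : 0 ≤ 2 * S.C * (S.C ^ 2 * X ^ ((1 : ℝ) / 3) + 3 * S.C ^ 3 * S.v + γ) := by positivity
    linarith [h.sm (show k ≤ S.jl + 1 by omega)]
  · rw [Nd22.cb3 Q.H.ln.X0.le]
    refine le_trans ?_ Q.H.ap.all
    rw [Phi, Ap63.En_eq h]
    exact sum_le_sum_of_subset_of_nonneg (Ioc_subset_Ioc_left h.i1) fun k _ _ =>
      mul_nonneg (Ap63.w_nn h.leg.zm k) (by positivity)

/-- a sloped node with a cone in every window -/
theorem node {p q : ℕ} {aa d : ℝ} (a3 : E ^ 3 * S.w3 1 ≤ aa ^ 3)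
    (a1 : E * X ^ ((1 : ℝ) / 3) ≤ Lg * aa) (ag : E * γ ≤ Lg * aa) (d1 : D * d ≤ 1) (h1 : p ≤ q)
    (h2 : q < S.J) (h3 : M.s S.J - M.s p ≤ d) (h5 : aa / (100 * S.C ^ 3) ≤ M.z q - M.z p) :
    ∃ i, p ≤ i ∧ i ≤ q ∧
      Gd M m a (Lg * cr S (M.s i) / S.C) (i - i / 3) (min (i + i / 3) (S.J - 1)) i := by
  have h := Q.Z.A.cl
  have C0 := h.C0
  have C1 := h.C1
  have v0 := h.v0
  have D4 := Q.Z.D4
  have D0 : 0 < D := by linarith
  have E1 := Q.Z.E1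
  have g2 := E1.trans Q.Z.EL
  obtain ⟨b0, -, b2⟩ := Q.aa_lo a3
  have R0 : 0 < X ^ ((1 : ℝ) / 3) := rpow_pos_of_pos Q.H.ln.X0 _
  have γ0 := Q.rh.γ_nn
  have d0 : 0 ≤ d := (sub_nonneg.2 (h.sm (h1.trans h2.le))).trans h3
  obtain ⟨w1', -, w3, -⟩ := Q.win' (h1.trans h2.le) d0 d1 h3
  have j8 := Q.jl8
  have i1 := h.i1
  have i2 := h.i2
  obtain ⟨i, c1, c2, gi⟩ := Q.Z.exs
    (D0 := 2 * (S.C ^ 2 * X ^ ((1 : ℝ) / 3) + 3 * S.C ^ 3 * S.v + γ)) h1 h2 (by positivity)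
    (fun k b1 b2 => Q.loc (by omega) (by omega)) (by
      have z := (h.z_tel (show S.j0 ≤ p by omega) h1 h2).2
      have z1 := h5.trans z
      rw [div_le_iff₀ (by positivity)] at z1
      have e0 : E * S.v ≤ Lg * aa := mul_le_mul Q.Z.EL
        (by nlinarith [mul_le_mul_of_nonneg_right C1 v0.le]) v0.le (by linarith)
      have e2 : 10000 * S.C ^ 7 * D ^ 2 ≤ E := le_trans (by
        linarith [mul_le_mul_of_nonneg_right (Q.Z.Cp (k := 7) (by norm_num)) (pow_pos D0 2).le])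
        (Q.Z.DpE (i := 3) (by norm_num))
      have e3 := mul_le_mul_of_nonneg_right e2
        (show 0 ≤ X ^ ((1 : ℝ) / 3) + S.v + γ by positivity)
      have e4 := mul_le_mul_of_nonneg_left z1 (show 0 ≤ Lg by linarith)
      have e8 : S.C ^ 2 * X ^ ((1 : ℝ) / 3) + 3 * S.C ^ 3 * S.v + γ ≤
          3 * S.C ^ 3 * (X ^ ((1 : ℝ) / 3) + S.v + γ) := by
        have := mul_le_mul_of_nonneg_right (pow_le_pow_right₀ C1 (by norm_num : 2 ≤ 3)) R0.le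
        have := mul_le_mul_of_nonneg_right (one_le_pow₀ (n := 3) C1) γ0
        have := mul_pos (pow_pos C0 3) R0
        have := mul_nonneg (pow_pos C0 3).le γ0
        linarith
      have e9 := mul_le_mul_of_nonneg_left e8 (show 0 ≤ S.C ^ 4 * D ^ 2 by positivity)
      refine le_of_mul_le_mul_left ?_ (show 0 < 300 * S.C ^ 4 by positivity)
      have e5 : 0 ≤ S.C ^ 4 * (Lg * S.v) := by positivity
      have e6 : 0 ≤ S.C ^ 7 * D ^ 2 * (X ^ ((1 : ℝ) / 3) + S.v + γ) := by positivity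
      linarith)
  exact ⟨i, c1, c2, Q.Z.cx.gd gi Q.Z.Lq_pos.le (by omega) (by omega) (by omega)
    (Q.Z.kap (w3.trans (h.sm c1)))⟩

theorem np0 : 0 ≤ Np M S Xp Vt γ u1 Lp 2 := by
  have G := Md67.lg_of Q.Z.A.cl.leg Q.Z.A.m_pos Q.Z.A.a_pos.le
    (by linarith [Q.Z.A.mem.a2, Q.Z.A.a_pos] : a ≤ 2 * S.amax)
  have := (sum_nonneg fun k _ => mul_nonneg (G.dz_nonneg k) (sq_nonneg _)).trans Q.sz
  exact nonneg_of_mul_nonneg_right this (by linarith [Q.Z.D4])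

theorem sub {U : Finset ℕ} (hU : ∀ k ∈ U, S.J ≤ k ∧ k < S.Jp) :
    ∑ k ∈ U, M.dz m a k * u4 M m a k ^ 2 ≤ D * Np M S Xp Vt γ u1 Lp 2 := by
  have G := Md67.lg_of Q.Z.A.cl.leg Q.Z.A.m_pos Q.Z.A.a_pos.le
    (by linarith [Q.Z.A.mem.a2, Q.Z.A.a_pos] : a ≤ 2 * S.amax)
  exact (sum_le_sum_of_subset_of_nonneg
    (fun k hk => mem_Ico.2 ⟨(hU k hk).1, (hU k hk).2.trans Q.Z.A.cl.i4⟩)
    fun k _ _ => mul_nonneg (G.dz_nonneg k) (sq_nonneg _)).trans Q.sz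

/-- the error of a good node of the plateau -/
theorem ep_le {G Gb ev : ℝ} (h1 : ev ≤ D ^ 10 * η 1) (b1 : G ≤ Gb)
    (b2 : Gb ^ 2 ≤ 2 * D ^ 7 * (η 1 + G0 ^ 2)) {k : ℕ} (k1 : S.J ≤ k) (k2 : k < S.Jp) :
    ep S M m a G ev (D * D ^ 3 * X2) k (D * Lp * sl M S Xp Vt γ k)
        (min (D * (Lp ^ ((2 : ℝ) / 3) * ap M S Xp Vt γ k)) 2) +
      min (D * (Lp ^ ((2 : ℝ) / 3) * ap M S Xp Vt γ k)) 2 ^ 2 * Nd33.gd S M m a (2 * S.C) k ≤
      D ^ 11 * (η 1 + G0 ^ 2 + Np M S Xp Vt γ u1 Lp 2) + D ^ 3 * (Lg ^ 2 * ap M S Xp Vt γ k) ^ 2 := by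
  have h := Q.Z.A.cl
  have C1 := h.C1
  have D4 := Q.Z.D4
  have D0 : 0 < D := by linarith
  have E1 := Q.Z.E1
  have g2 := E1.trans Q.Z.EL
  have γ0 : 0 ≤ γ := (sub_nonneg.2 (h.sm h.i3)).trans Q.H.lp.γ0
  have w0 := (Q.Z.w3p one_pos).le
  obtain ⟨a0, s0, s1⟩ := wr_le h Q.H.lp.u0 Q.H.lp.Xp0.1 Q.H.lp.Vt0 γ0 w0 k1 k2
  have P1 := Q.H.lp.Lp1.1
  have P2 := Q.H.lp.Lp2
  have P3 : Lp ^ ((2 : ℝ) / 3) ≤ Lg ^ 2 := by
    refine (rpow_le_rpow (by linarith) P2 (by norm_num)).trans_eq ?_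
    rw [← rpow_natCast, ← rpow_mul (by linarith), ← rpow_natCast]; norm_num
  obtain ⟨e1, e2, -⟩ := Q.Z.eta_b Q.l1 C1
  have e0 := Q.Z.eta_pos Q.l1 C1
  have e3 : Lp * S.w3 1 ≤ η 1 := by
    refine le_trans ?_ e2
    rw [G89.uw_cube w0]
    exact mul_le_mul_of_nonneg_right (P2.trans (pow_le_pow_left₀ (by linarith)
      ((le_self_pow₀ g2 two_ne_zero).trans
        (le_mul_of_one_le_right (by positivity) (Ab33.cr_one S 1))) 3)) w0
  have e4 : S.w3 1 ≤ η 1 := (le_mul_of_one_le_left w0 P1).trans e3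
  have X0 := Q.Z.X20
  have e5 : X2 ^ 2 ≤ η 1 := by
    have x1 : X2 ≤ 1 := by linarith [Q.H.ln.th3, Q.Z.mf_le l, le_mul_of_one_le_left X0 E1]
    have x2 : X2 ≤ √X2 := le_sqrt_of_sq_le (by nlinarith)
    have x3 := Q.H.ln.ηb 1 Q.l1 C1
    have U0 := Q.Z.uw_nn Q.l1
    have G00 : 0 ≤ G0 := le_trans (mul_nonneg Q.Z.l0p.le (sq_nonneg _)) Q.H.ln.g0a
    have x4 : X2 * X2 ≤ (√(Lg * cr S 1 * gg S 1) + G0 + X2) * (uw S Lg 1 + √X2) :=
      mul_le_mul (by linarith [sqrt_nonneg (Lg * cr S 1 * gg S 1)]) (by linarith) X0 (by positivity)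
    have x5 : 0 ≤ uw S Lg 1 ^ 2 * min (S.ms 1 / 1) 1 :=
      mul_nonneg (sq_nonneg _) (le_min (by have := h.ms_pos zero_le_one; positivity) zero_le_one)
    have x6 : 0 ≤ X3 := le_trans (mul_nonneg Q.Z.l0p.le (by positivity)) Q.H.ln.x3a
    have x7 : 0 ≤ 1 / (S.n : ℝ) := by positivity
    linarith [pow_nonneg U0 3]
  have gd : Nd33.gd S M m a (2 * S.C) k ≤ 4 * (2 * S.C) + 2 := Tq5.abs_Gd Q.Z.A k2.le
  have sm := Q.sub (U := Ico S.J k) fun y hy => ⟨(mem_Ico.1 hy).1, (mem_Ico.1 hy).2.trans k2⟩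
  have n0 := Q.np0
  have u0 : 0 ≤ min (D * (Lp ^ ((2 : ℝ) / 3) * ap M S Xp Vt γ k)) 2 :=
    le_min (by positivity) zero_le_two
  have u1' : min (D * (Lp ^ ((2 : ℝ) / 3) * ap M S Xp Vt γ k)) 2 ≤
      D * (Lg ^ 2 * ap M S Xp Vt γ k) := (min_le_left _ _).trans (by gcongr)
  have u2' := min_le_right (D * (Lp ^ ((2 : ℝ) / 3) * ap M S Xp Vt γ k)) 2
  have s2 : Lp * (S.w3 1 * (sl M S Xp Vt γ k - 1)) ≤ (Lg ^ 2 * ap M S Xp Vt γ k) ^ 2 := by
    rw [mul_pow, ← pow_mul]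
    exact mul_le_mul (P2.trans (pow_le_pow_right₀ g2 (by norm_num))) s1 (by positivity)
      (by positivity)
  unfold ep
  generalize min (D * (Lp ^ ((2 : ℝ) / 3) * ap M S Xp Vt γ k)) 2 = up at *
  generalize Lg ^ 2 * ap M S Xp Vt γ k = A at *
  have q1 : up ^ 2 ≤ D ^ 2 * A ^ 2 := by rw [← mul_pow]; exact pow_le_pow_left₀ u0 u1' 2
  have q2 : up ^ 3 ≤ 2 * up ^ 2 := by linarith [mul_le_mul_of_nonneg_left u2' (sq_nonneg up)]
  have q3 : G * up ≤ (Gb ^ 2 + up ^ 2) / 2 := by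
    linarith [mul_le_mul_of_nonneg_right b1 u0, sq_nonneg (Gb - up)]
  have q4 : D * D ^ 3 * X2 * up ≤ (D ^ 8 * η 1 + up ^ 2) / 2 := by
    linarith [mul_le_mul_of_nonneg_left e5 (pow_pos D0 8).le, sq_nonneg (D * D ^ 3 * X2 - up)]
  have q5 := mul_le_mul_of_nonneg_left gd (sq_nonneg up)
  have q6 : (8 * S.C + 5) * up ^ 2 ≤ D / 2 * (D ^ 2 * A ^ 2) :=
    mul_le_mul (by linarith [Q.Z.Cp (k := 1) (by norm_num)]) q1 (sq_nonneg _) (by linarith)
  have q7 := mul_le_mul_of_nonneg_left s2 D0.le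
  have q8 := mul_le_mul_of_nonneg_left e3 D0.le
  have q9 : D * A ^ 2 ≤ D / 2 * (D ^ 2 * A ^ 2) := by
    have : D ≤ D / 2 * D ^ 2 := by nlinarith
    linarith [mul_le_mul_of_nonneg_right this (sq_nonneg A)]
  have p : ∀ i ≤ 10, ∀ x, 0 ≤ x → 10 * (D ^ i * x) ≤ D ^ 11 * x := fun i hi x x0 => by
    have := mul_le_mul_of_nonneg_right (Q.Z.Dp hi) x0
    have := mul_le_mul_of_nonneg_right D4 (show 0 ≤ D ^ 10 * x by positivity)
    have : 0 ≤ D ^ 10 * x := by positivity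
    linarith
  have p1 := p 10 le_rfl _ e0.le
  have p2 := p 7 (by norm_num) _ e0.le
  have p3 := p 7 (by norm_num) _ (sq_nonneg G0)
  have p4 := p 8 (by norm_num) _ e0.le
  have p5 := p 1 (by norm_num) _ e0.le
  have p6 := p 0 (by norm_num) _ e0.le
  have p7 := p 1 (by norm_num) _ n0
  have z1 : 0 ≤ D ^ 11 * G0 ^ 2 := by positivity
  have z2 : 0 ≤ D ^ 11 * η 1 := by positivity
  have z3 : 0 ≤ D ^ 11 * Np M S Xp Vt γ u1 Lp 2 := by positivity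
  linarith

/-- the sloped nodes between the partner and the corner -/
theorem slp {i : ℕ} {d : ℝ}
    (cn : Gd M m a (Lg * cr S (M.s i) / S.C) (i - i / 3) (min (i + i / 3) (S.J - 1)) i)
    (iJ : i < S.J) (h2 : M.s S.J - M.s i ≤ d) (d1 : D * d ≤ 1) :
    ∑ k ∈ Ioo i S.J, M.dz m a k * u4 M m a k ^ 2 ≤ D ^ 2 * (uw S Lg 1 ^ 2 * d +
      √(S.w3 1 * (Xp + d ^ 3 + γ ^ 3)) + Np M S Xp Vt γ u1 Lp 2) := by
  have h := Q.Z.A.cl
  have C0 := h.C0
  have C1 := h.C1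
  have D4 := Q.Z.D4
  have D0 : 0 < D := by linarith
  have G := Md67.lg_of h.leg Q.Z.A.m_pos Q.Z.A.a_pos.le
    (by linarith [Q.Z.A.mem.a2, Q.Z.A.a_pos] : a ≤ 2 * S.amax)
  have d0 : 0 ≤ d := (sub_nonneg.2 (h.sm iJ.le)).trans h2
  obtain ⟨w1', -, -, -, -, w6⟩ := Q.win' iJ.le d0 d1 h2
  obtain ⟨c1, c2⟩ := Q.cone_lo cn iJ h2 d1
  have b := Q.szl i Lg _ iJ (by omega) (Q.Z.E1.trans Q.Z.EL) (fun y _ hy => by
    have := c1 y (hy.trans_lt iJ)
    rw [abs_sub_comm, abs_sub_comm (y : ℝ), abs_of_nonneg (a := (i : ℝ) - y)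
      (sub_nonneg.2 (by exact_mod_cast hy))] at this
    exact (le_abs_self _).trans this) c2
  refine (sum_le_sum_of_subset_of_nonneg Ioo_subset_Ico_self
    fun k _ _ => mul_nonneg (G.dz_nonneg k) (sq_nonneg _)).trans (b.trans ?_)
  have w0 := (Q.Z.w3p one_pos).le
  have X0 := Q.rh.X0
  have γ0 := Q.rh.γ_nn
  have e1 : Lg ^ ((2 : ℝ) / 3) * S.w3 1 ^ ((1 : ℝ) / 3) = Ug S Lg 1 := by
    unfold Ug Nd22.U w1
    rw [Q.cr1 Q.l1 C1, mul_one]
  have e2 := sq3 w0 (rpow_pos_of_pos X0 ((1 : ℝ) / 3)).le d0 γ0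
    (show 1 ≤ 14 * S.C ^ 5 by linarith [one_le_pow₀ (n := 5) C1])
  rw [Nd22.cb3 X0.le] at e2
  have e3 : √(S.w3 1 * Xp) ≤ √(S.w3 1 * (Xp + d ^ 3 + γ ^ 3)) :=
    sqrt_le_sqrt (mul_le_mul_of_nonneg_left (by linarith [pow_nonneg d0 3, pow_nonneg γ0 3]) w0)
  have e4 : ((S.J : ℝ) - i) * S.v * Ug S Lg 1 ^ 2 ≤ D * d * uw S Lg 1 ^ 2 :=
    mul_le_mul (w6.trans (mul_le_mul_of_nonneg_right
      (by linarith [Q.Z.Cp (k := 1) (by norm_num)]) d0))
      (pow_le_pow_left₀ (Q.Z.Ug_nn Q.l1) (Q.Z.Ug_uw Q.l1) 2) (sq_nonneg _) (by positivity)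
  have y0 := sqrt_nonneg (S.w3 1 * (Xp + d ^ 3 + γ ^ 3))
  have e5 := mul_le_mul_of_nonneg_right Q.Z.CD y0
  have e6 := mul_le_mul_of_nonneg_right (one_le_pow₀ (n := 10) C1) y0
  have e7 := le_mul_of_one_le_left Q.np0 (show 1 ≤ D by linarith)
  rw [e1, sq D, mul_assoc D D]
  refine mul_le_mul_of_nonneg_left ?_ D0.le
  nlinarith [e2, e3, e4, e5, e6, e7]

/-- **the nodes**, free distances `aa ≤ d` -/
theorem pn {aa d B : ℝ} (A3 : E ^ 3 * S.w3 1 ≤ aa ^ 3) (A1 : E * X ^ ((1 : ℝ) / 3) ≤ Lg * aa)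
    (ag : E * γ ≤ Lg * aa) (ad : aa ≤ d) (d1 : D * d ≤ 1) (hB : B * aa ≤ d) {W : ℝ}
    (hW : D ^ 13 ≤ W) :
    ∃ Pn, PN S M m a (2 * S.C) Pn (fun k => W * (Lg ^ 2 * ap M S Xp Vt γ k) ^ 2)
      (W * x1 S M X Xp Vt Lg Lp G0 u1 j γ d η) (W * X2) (8 * u2) (aa / (100 * S.C ^ 3)) aa B := by
  have hx := Q.pg
  have h := Q.Z.A.cl
  have C0 := h.C0
  have C1 := h.C1
  have D4 := Q.Z.D4
  have D0 : 0 < D := by linarith
  have W0 : 0 ≤ W := (pow_pos D0 13).le.trans hW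
  obtain ⟨l0', -, l2'⟩ := Q.aa_lo A3
  have d0' : 0 < d := l0'.trans_le ad
  obtain ⟨t0, -, -⟩ := Q.th
  have e0 := Q.Z.eta_pos Q.l1 C1
  have n0 := Q.np0
  have X0 := Q.Z.X20
  have R0 : 0 < X ^ ((1 : ℝ) / 3) := rpow_pos_of_pos Q.H.ln.X0 _
  have γ0 : 0 ≤ γ := (sub_nonneg.2 (h.sm h.i3)).trans Q.H.lp.γ0
  have j0 : 0 ≤ j := le_trans (by positivity) Q.H.ap.j0
  have xb0 : 0 ≤ uw S Lg 1 ^ 2 * (S.θ + j + X ^ ((1 : ℝ) / 3) + d) := by positivity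
  have xc0 := sqrt_nonneg (S.w3 1 * (Xp + d ^ 3 + γ ^ 3))
  have pw : ∀ i ≤ 12, ∀ x, 0 ≤ x → 10 * (D ^ i * x) ≤ W * x := fun i hi x x0 => by
    have := mul_le_mul_of_nonneg_right (Q.Z.Dp hi) x0
    have := mul_le_mul_of_nonneg_right D4 (show 0 ≤ D ^ 12 * x by positivity)
    have := mul_le_mul_of_nonneg_right hW x0
    have : 0 ≤ D ^ 12 * x := by positivity
    linarith
  have dsb : ∀ i k, i ≤ k → 0 ≤ sb M m a (k + 1) - sb M m a (i + 1) := fun i k hk =>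
    sub_nonneg.2 (Q.Z.A.sb_mono (Nat.succ_le_succ hk))
  have c3 : 1 ≤ S.C ^ 3 := one_le_pow₀ C1
  have sJ : aa ≤ M.s S.J := by
    have x := (mul_le_mul_of_nonneg_right (Q.Z.Cp (k := 3) (by norm_num)) d0'.le).trans d1
    refine ad.trans (le_of_mul_le_mul_left ?_ (show 0 < 3 * S.C ^ 3 by positivity))
    have := mul_pos (pow_pos C0 3) d0'
    linarith [Ab33.sJ_ge h]
  obtain ⟨q, q1, q2, q3⟩ := idx54 h (x := M.s S.J - aa / 5) (by linarith) (by linarith)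
  obtain ⟨p, p1, p2, p3⟩ := idx54 h (x := M.s S.J - aa / 2) (by linarith) (by linarith)
  have sq := (h.ss q q1).2
  have sp := (h.ss p p1).2
  have pq : p ≤ q := by
    by_contra c
    linarith [h.sm (show q + 1 ≤ p by omega)]
  have p4 : M.s S.J - M.s p ≤ d := by linarith
  have j8 := Q.jl8
  have i1 := h.i1
  have i2 := h.i2
  obtain ⟨w1, -⟩ := Q.win' p1.le d0'.le d1 p4
  obtain ⟨v, v1, v2, cv⟩ := Q.node A3 A1 ag d1 pq q1 p4 (by
    have a1 := (h.z_tel (show S.j0 ≤ p by omega) pq q1).1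
    have a2 := (h.s_tel pq q1.le).2
    rw [← mul_div_assoc, div_le_iff₀ C0] at a1
    rw [div_le_iff₀ (by positivity)]
    have a3 := mul_le_mul_of_nonneg_left a1 C0.le
    have a4 : 0 ≤ M.z q - M.z p := sub_nonneg.2 (h.leg.zm pq)
    have a5 : (M.z q - M.z p) * S.C ^ 2 ≤ (M.z q - M.z p) * S.C ^ 3 :=
      mul_le_mul_of_nonneg_left (pow_le_pow_right₀ C1 (by norm_num)) a4
    have : 0 ≤ (M.z q - M.z p) * S.C ^ 3 := by positivity
    linarith)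
  obtain ⟨-, G, ev, sv, ev1, ⟨Gb, b1, b2⟩, -⟩ := Q.sv_at A3 cv (by linarith [h.sm v2])
    (show M.s S.J - M.s v ≤ d by linarith [h.sm v1]) d1
  have po := Q.po j8 v G ev _ (by omega) sv Q.Z.no.n2
  have ep1 := fun k => Q.ep_le ev1 b1 b2 (k := k)
  have xa0 : 0 ≤ η 1 + G0 ^ 2 + Np M S Xp Vt γ u1 Lp 2 := by positivity
  have y1 := pw 12 le_rfl _ xa0
  have y2 := pw 2 (by norm_num) _ n0
  have y3 := pw 11 (by norm_num) _ e0.le
  have y4 := pw 8 (by norm_num) _ xb0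
  have y5 := pw 3 (by norm_num) _ xc0
  have y6 := pw 3 (by norm_num) _ n0
  have y7 := pw 3 (by norm_num) _ xb0
  have z1 := mul_nonneg W0 e0.le
  have z2 := mul_nonneg W0 (sq_nonneg G0)
  have z3 := mul_nonneg W0 n0
  have z4 := mul_nonneg W0 xb0
  have z5 := mul_nonneg W0 xc0
  refine ⟨fun k => PG S M m a k (D * Lp * sl M S Xp Vt γ k)
    (min (D * (Lp ^ ((2 : ℝ) / 3) * ap M S Xp Vt γ k)) 2), by unfold x1; positivity,
    by positivity, fun k => by positivity, fun k g => ⟨g.lo, g.hi⟩, fun k a1 a2 a3 => ?_,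
    fun i k gi gk ik => ?_, fun p q _ f2 f3 f4 f5 f6 => ?_⟩
  · have ue : 0 ≤ u1 := le_trans (by linarith [h.last, h.leg.z1 (S.Jp - 1)]) Q.H.lp.u1a
    obtain ⟨i, b1, -, -, b4, g⟩ := hx k a1 a2 (by linarith [Q.H.lp.u1b.1])
    exact ⟨i, ⟨g.lo, g.hi, g.den, g.cone, le_min g.u ((mj_u4 Q.Z.A.m_pos).u0 i).2⟩, b1.le, b4⟩
  · have d0 := mul_nonneg X0 (dsb i k ik)
    have a1 := pw 4 (by norm_num) _ (sq_nonneg (Lg ^ 2 * ap M S Xp Vt γ i))
    have a2 := pw 4 (by norm_num) _ (sq_nonneg (Lg ^ 2 * ap M S Xp Vt γ k))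
    have a3 := pw 5 (by norm_num) _ d0
    have a4 := mul_nonneg W0 (sq_nonneg (Lg ^ 2 * ap M S Xp Vt γ i))
    have a5 := mul_nonneg W0 (sq_nonneg (Lg ^ 2 * ap M S Xp Vt γ k))
    have a6 := mul_nonneg W0 d0
    unfold x1
    rcases ik.eq_or_lt with e | e
    · subst e
      rw [sub_self, abs_zero]
      linarith
    have b := po.dp _ Q.Z.A i _ _ k _ _ gi gk e
    have c1 := mul_le_mul_of_nonneg_left (ep1 i gi.lo gi.hi) D0.le
    have c2 := mul_le_mul_of_nonneg_left (ep1 k gk.lo gk.hi) D0.le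
    have c3 := mul_le_mul_of_nonneg_left (Q.sub (U := Ioo i k) fun y hy =>
      ⟨gi.lo.trans (mem_Ioo.1 hy).1.le, (mem_Ioo.1 hy).2.trans gk.hi⟩) D0.le
    unfold Nd33.ck at b
    linarith
  · obtain ⟨i, b1, b2, ci⟩ := Q.node A3 A1 ag d1 f2 f3 (by linarith) f6
    have si : M.s S.J - M.s i ≤ d := by linarith [h.sm b1]
    obtain ⟨iJ, G', ev', sv', e1, -, e2⟩ := Q.sv_at A3 ci (by linarith [h.sm b2]) si d1
    refine ⟨i, b1, b2, fun k gk => ?_⟩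
    obtain ⟨w2, -⟩ := Q.win' iJ.le d0'.le d1 si
    have ik : i < k := iJ.trans_le gk.lo
    have d0 := mul_nonneg X0 (dsb i k ik.le)
    have a2 := pw 4 (by norm_num) _ (sq_nonneg (Lg ^ 2 * ap M S Xp Vt γ k))
    have a3 := pw 5 (by norm_num) _ d0
    have a5 := mul_nonneg W0 (sq_nonneg (Lg ^ 2 * ap M S Xp Vt γ k))
    have a6 := mul_nonneg W0 d0
    have b := po.dv _ Q.Z.A i G' ev' k _ _ sv' gk ik
    have c2 := mul_le_mul_of_nonneg_left (ep1 k gk.lo gk.hi) D0.le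
    have c3 := mul_le_mul_of_nonneg_left (Q.sub (U := Ico S.J k) fun y hy =>
      ⟨(mem_Ico.1 hy).1, (mem_Ico.1 hy).2.trans gk.hi⟩) D0.le
    have c4 := mul_le_mul_of_nonneg_left (Q.slp ci iJ si d1) D0.le
    have c8 : D ^ 3 * (uw S Lg 1 ^ 2 * d) ≤
        D ^ 3 * (uw S Lg 1 ^ 2 * (S.θ + j + X ^ ((1 : ℝ) / 3) + d)) := by gcongr; linarith
    have c5 := mul_le_mul_of_nonneg_left e1 D0.le
    have c6 : u4 M m a i ^ 2 * Nd33.gd S M m a (2 * S.C) i ≤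
        D ^ 7 * (uw S Lg 1 ^ 2 * (S.θ + j + X ^ ((1 : ℝ) / 3) + d)) := by
      have g1 : Nd33.gd S M m a (2 * S.C) i ≤ D * (S.θ + j + γ + X ^ ((1 : ℝ) / 3)) :=
        (Q.out i (by omega) iJ).2.2
      have U0 := Q.Z.Ug_nn Q.l1
      have U1 := Q.Z.Ug_le Q.l1
      have U2 := Q.Z.Ug_uw Q.l1
      have g2 : γ ≤ Lg * d := by
        linarith [le_mul_of_one_le_left γ0 Q.Z.E1,
          mul_le_mul_of_nonneg_left ad (show 0 ≤ Lg by linarith [Q.Z.E1, Q.Z.EL])]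
      have g3 := pow_le_pow_left₀ U0 U2 2
      have g4 := mul_le_mul U1 U2 U0 (U0.trans U2)
      have g5 : Ug S Lg 1 ^ 2 * (S.θ + j + γ + X ^ ((1 : ℝ) / 3)) ≤
          uw S Lg 1 ^ 2 * (S.θ + j + X ^ ((1 : ℝ) / 3) + d) := by
        linarith [mul_le_mul_of_nonneg_right g3 (show 0 ≤ S.θ + j + X ^ ((1 : ℝ) / 3) by positivity),
          mul_le_mul_of_nonneg_left g2 (sq_nonneg (Ug S Lg 1)), mul_le_mul_of_nonneg_right g4 d0'.le]
      have g6 := mul_le_mul (pow_le_pow_left₀ (u4_nn i) e2 2) g1 (abs_nonneg _) (sq_nonneg _)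
      linarith [mul_le_mul_of_nonneg_left g5 (pow_pos D0 7).le]
    have c7 := mul_le_mul_of_nonneg_left c6 D0.le
    have sp : ∑ y ∈ Ioo i k, M.dz m a y * u4 M m a y ^ 2 =
        ∑ y ∈ Ioo i S.J, M.dz m a y * u4 M m a y ^ 2 +
          ∑ y ∈ Ico S.J k, M.dz m a y * u4 M m a y ^ 2 := by
      have := gk.lo
      rw [← sum_union (disjoint_left.2 fun y h1 h2 => by
        have := (mem_Ioo.1 h1).2; have := (mem_Ico.1 h2).1; omega)]
      congr 1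
      ext y
      simp only [mem_union, mem_Ioo, mem_Ico]
      omega
    unfold Nd33.ck at b
    rw [sp] at b
    unfold x1
    linarith

end C54

/-- `Far` from the numbers of the bulk and of the plateau -/
theorem far54 {E : ℝ} {S : Sc} {M : Md} {l0 l V X Lg X2 X3 G0 Xp Vt Lp G1 u1 u2 j γ Lc ηc τ N : ℝ}
    {η : ℝ → ℝ} (h : Cl S M) (E1 : 1 ≤ E) (n : LN E S M l0 l V X Lg X2 X3 G0 η)
    (p : LP E S M Xp Vt Lg Lp X2 X3 G0 G1 u1 u2 j γ Lc ηc τ η N) :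
    SzT98.Far E S M Xp Vt γ u1 Lp := by
  have a : 0 ≤ l := (mul_nonneg (by linarith) (h.s_nn _)).trans (n.l0s.trans n.l0l)
  exact ⟨p.u0, n.l0s.trans (n.l0l.trans ((le_mul_of_one_le_left a E1).trans n.l1)), p.rev, p.Xp0,
    p.Vt0, p.u1a, (mul_le_mul_of_nonneg_left p.u1b.1 (by linarith)).trans p.u1b.2, p.γ0, p.γ1,
    p.Lp1, p.far⟩

open Pre29 in
/-- the context on the class -/
theorem c54_of (hN : NiS54) (hP : PgS) (hS : SzT98.SzS) (hL : SzL54) : CL fun E Λ S M m a =>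
    ∀ G1 u1 u2 j γ Lc ηc τ l0 l X Xp Vt Lg Lp X2 X3 X4 G0 η N g t1 ℓ En p0,
    Hy E S M m a G1 u1 u2 j γ Lc ηc τ l0 l X Xp Vt Lg Lp X2 X3 X4 G0 η N g t1 (M.s S.J) ℓ En p0 →
    ∃ D W3, D ^ 14 ≤ Λ ∧
      C54 D E S M m a G1 u1 u2 j γ Lc ηc τ l0 l X Xp Vt Lg Lp X2 X3 X4 G0 η N g t1 ℓ En p0 W3 := by
  refine CL.glue ((((((CL.and hN hP).and hS).and Nd22.nodeS).and Nd33.ndP).and Gd65.gdT).and hL)
    fun C => ⟨3, fun A hA ε η' hε hη => ?_⟩
  refine ⟨ε, min (η' / 14) (ε / 40), 10000 * C ^ 10, hε, by positivity,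
    fun S M m a R c I ⟨⟨⟨⟨⟨⟨h1, h2⟩, h3⟩, h4⟩, h5⟩, h6⟩, h7⟩
      G1 u1 u2 j γ Lc ηc τ l0 l X Xp Vt Lg Lp X2 X3 X4 G0 η N g t1 ℓ En p0 H => ?_⟩
  have n1 : 1 ≤ S.n := c.n1
  have e1 : ((S.n : ℝ) ^ min (η' / 14) (ε / 40)) ^ 40 ≤ (S.n : ℝ) ^ ε := by
    rw [rp_pow]; exact rp_le n1 (by push_cast; linarith [min_le_right (η' / 14) (ε / 40)])
  have e2 : ((S.n : ℝ) ^ min (η' / 14) (ε / 40)) ^ 14 ≤ (S.n : ℝ) ^ η' := by
    rw [rp_pow]; exact rp_le n1 (by push_cast; linarith [min_le_left (η' / 14) (ε / 40)])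
  have k1 := R.K_le
  have k2 := R.log_le
  have k3 := R.num_le
  have k4 := R.C_log
  have hC := R.hC
  have hA' : 3 ≤ S.A := R.hA ▸ hA
  subst hC
  generalize (S.n : ℝ) ^ min (η' / 14) (ε / 40) = D at *
  generalize (S.n : ℝ) ^ ε = E at *
  have C1 := c.C1
  have l1 : 1 ≤ D := by linarith
  have DE : D ≤ E := (le_self_pow₀ l1 (by norm_num)).trans e1
  have E1 : 1 ≤ E := l1.trans DE
  have N0 := c.N0
  have A' : At S M m a (2 * S.C) := ⟨c, I, by linarith [c.b1, H.ln.HJ], by linarith [c.sT]⟩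
  obtain ⟨W3, ni, hW⟩ := h1 _ _ _ _ _ _ _ _ _ _ _ _ _ _ _ _ _ _ _ _ _ _ _ _ _ _ _ H
  have F := far54 c E1 H.ln H.lp
  have R0 : 0 < X ^ ((1 : ℝ) / 3) := rpow_pos_of_pos H.ln.X0 _
  have Rl : X ^ ((1 : ℝ) / 3) ≤ l := (le_mul_of_one_le_left R0.le E1).trans H.lt.lX
  have lp := R0.trans_le Rl
  have Z : Cz D E D D S M m a (2 * S.C) G1 l0 l (X ^ ((1 : ℝ) / 3)) X Lg X2 X3 G0 W3 η := by
    refine ⟨A', H.ce, H.ln, ni, h4 G1 l0 l _ X Lg X2 X3 G0 η D W3 H.ce H.ln H.lp.rev H.ap.all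
      ((pow_le_pow_right₀ l1 (by norm_num)).trans e1) ni,
      Rl.trans (le_mul_of_one_le_left lp.le (Ab33.cr_one S l)), hW, k1, l1, le_rfl, le_rfl, k2, e1,
      ?_, I.m1, ?_⟩
    · have a1 : S.v * (S.n : ℝ) ^ 3 ≤ S.C := (mul_le_mul_of_nonneg_left
        (pow_le_pow_right₀ (by exact_mod_cast n1) hA') c.v0.le).trans c.v2
      have a2 : S.C ^ 2 ≤ S.n := by
        have b1 := (le_mul_of_one_le_right (by linarith) (one_le_pow₀ c.F1)).trans
          (H.ln.Lg0.trans H.ln.Lg1)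
        linarith [pow_le_pow_right₀ C1 (by norm_num : 2 ≤ 10), sq_nonneg S.C]
      refine le_of_mul_le_mul_right ?_ N0
      linarith [mul_le_mul_of_nonneg_left a1 c.C0.le]
    · have t0 : 0 ≤ S.θ := (c.ms_pos zero_le_one).le
      linarith [mul_le_mul_of_nonneg_left k4 t0, c.msθ]
  have l01 : l0 ≤ 1 := H.ln.l0l.trans ((le_mul_of_one_le_left lp.le E1).trans H.ln.l1)
  have Q : C54 D E S M m a G1 u1 u2 j γ Lc ηc τ l0 l X Xp Vt Lg Lp X2 X3 X4 G0 η N g t1 ℓ En p0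
      W3 := ⟨Z, H, h5 H.ln.HJ (by rw [H.lt.F1]; exact_mod_cast n1),
    h3 _ _ _ _ _ _ _ _ F H.ap 2 le_rfl (by norm_num),
    (h6 _ _ _ _ _ _ _ _ A' le_rfl H.ln.l0s l01 H.ln.X0 H.ln.X1 H.lp.γ0 H.lp.γ1 H.ap).1,
    (h2 _ _ _ _ _ _ _ _ F H.ap).1, h7 _ _ _ _ _ _ _ _ F H.ap, (h2 _ _ _ _ _ _ _ _ F H.ap).2⟩
  exact ⟨D, W3, e2, Q⟩

/-- **(PNq)** -/
theorem pnq_of (hN : NiS54) (hP : PgS) (hS : SzT98.SzS) : PNq := by
  refine (c54_of hN hP hS SzT98.szL).mono fun E Λ S M m a E1 Λ1 c I h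
    G1 u1 u2 j γ Lc ηc τ l0 l X Xp Vt Lg Lp X2 X3 X4 G0 η N g t1 ℓ En p0 H aa g' R2 L d ad d1 => ?_
  obtain ⟨D, W3, e, Q⟩ := h _ _ _ _ _ _ _ _ _ _ _ _ _ _ _ _ _ _ _ _ _ _ _ _ _ _ H
  have a0 := (Q.aa_lo L.a3).1
  obtain ⟨Pn, P⟩ := Q.pn (B := d / aa) L.a3 L.a1
    ((mul_le_mul_of_nonneg_left L.a6 (by linarith)).trans L.a1) ad
    ((mul_le_mul_of_nonneg_right Q.Z.D_E (a0.le.trans ad)).trans d1) (div_mul_cancel₀ d a0.ne').le
    ((Q.Z.Dp (by norm_num : 13 ≤ 14)).trans e)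
  refine ⟨Pn, P.mono54 Q.Z.A (fun _ => le_rfl) (mul_le_mul_of_nonneg_left ?_ (by linarith)) le_rfl⟩
  have := mul_nonneg Q.Z.X20 (rpow_pos_of_pos Q.rh.X0 ((1 : ℝ) / 3)).le
  unfold x1 eQ
  linarith

end Crest.Agent.T156.Alt.Q54
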