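import Crest.Agent.T156.BwA_14_Mg
import Crest.Agent.T156.LInt_31
import Crest.Agent.T156.NgS_9
import Crest.Agent.T156.GsK_95
import Crest.Agent.T156.TLpC_73_Mg
import Crest.Agent.T156.SzTG_64
import Crest.Agent.T156.SzVU_32
import Crest.Agent.T156.SzG_5
import Crest.Agent.T156.SzS_50_Mg
import Crest.Agent.T156.NgX_9_Mg
import Crest.Agent.T156.PgZ_33
import Crest.Agent.T156.TLqG_54_Mg
import Crest.Agent.T156.TL2R_63_Mg
import Crest.Agent.T156.TkE_94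
import Crest.Agent.T156.TLp1_26

-- ▼ part T156/BwB_14
section

/-!
# Row 156, block (L): (BwS) at fixed numbers (helper14)
-/

set_option autoImplicit false

noncomputable section

namespace Crest.Agent.T156.Alt.L63.Cx

open MeasureTheory Set Real
open Crest.Agent.R164.GC Crest.Agent.R339.B Crest.Agent.R339.Var Crest.Agent.T157.Pf
open Crest.Agent.T156.Cut8 (Lb Cont)
open Crest.Agent.T156.Gap27 (resN)
open Crest.Agent.T156.Alt.L69 Crest.Agent.T156.Alt.Mp9 Crest.Agent.T156.Alt.C74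
open Crest.Agent.T156.Alt.L31

variable {E L : ℝ} {S : Sc} {M : Md} {m : ℕ} {a G1 u1 u2 j γ Lc ηc τ l0 l X Xp Vt Lg Lp X2 X3 X4
  G0 : ℝ} {η : ℝ → ℝ} {N : ℝ} {g : ℝ → ℝ} {t1 tu ℓ En p0 : ℝ}
  (H : Cx E L S M m a G1 u1 u2 j γ Lc ηc τ l0 l X Xp Vt Lg Lp X2 X3 X4 G0 η N g t1 tu ℓ En p0)
include H

/-- the loss of the net goes up -/
theorem ng14 {W W' V V2 N' N'' : ℝ} {Gn : ℕ → Prop} {V0 : ℕ} (V0' : 0 ≤ V) (hW : W ≤ W')
    (G : Ng E W S M m a ⟨G1, u1, u2, j, γ, Lc, ηc, τ, l0, l, V, X, Xp, Vt, V2, Lg, Lp, X2, X3, G0,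
      N', N'', η⟩ Gn V0) :
    Ng E W' S M m a ⟨G1, u1, u2, j, γ, Lc, ηc, τ, l0, l, V, X, Xp, Vt, V2, Lg, Lp, X2, X3, G0,
      N', N'', η⟩ Gn V0 := by
  have τ0 : 0 ≤ τ := by
    by_contra c
    have := (Odd.pow_neg (by decide : Odd 3) (not_le.1 c))
    linarith [H.lp.tw, H.w30 one_pos]
  have e1 := H.μ0.le.trans (H.μη H.l1 H.cl.C1)
  have γ0 : 0 ≤ γ := (sub_nonneg.2 (H.cl.sm H.cl.i3)).trans H.lp.γ0
  have m1 := mf_pos H.cl zero_le_one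
  have F1 := H.cl.F1
  have g0 : 0 < Lg := lt_of_lt_of_le (by have := H.E1; positivity) H.ln.Lg0
  have eC := H.μ0.le.trans (H.μη (H.l1.trans H.cl.C1) le_rfl)
  refine ⟨Sz9.NG_mono G.ng H.A hW (H.l0'.trans_le (le_max_left _ _)) g0 (by positivity) H.X20
    fun k hk => eC.trans (H.ln.ηa (H.cl.s_le_C (hk.le.trans H.cl.i3))),
    G.n2.trans (mul_le_mul_of_nonneg_right hW H.X20),
    fun k hk => (G.cru k hk).trans (mul_le_mul_of_nonneg_right hW ?_)⟩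
  have := cr1 S (max (M.z k) l0)
  have : 0 ≤ max (M.z k) l0 := H.l00.le.trans (le_max_right _ _)
  unfold L69.cl
  positivity

/-- the gains in the form read by (TkE) -/
theorem qt14 {s Z Λ E' Y N' : ℝ} (Z0 : 0 ≤ Z) (hΛ : 2 * Z ≤ Λ) (E0 : 0 ≤ E') (Y0 : 0 ≤ Y)
    (hN : N' ≤ 2 * En) (q : L25.QT S M m a (2 * S.C) s (Z * u2) Z E' N' Y) :
    L25.QT S M m a (2 * S.C) s (Λ * u2) Λ E' (E' + En) Y := by
  obtain ⟨Q, q1, q2, q3, q4, q5, q6⟩ := q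
  have u0 : 0 ≤ u2 := by linarith [H.lp.u1a, H.lp.u1b.1, H.cl.last, H.cl.leg.z1 (S.Jp - 1)]
  have e0 := H.En0
  have p1 : Z * (Y + N') ≤ Λ * (Y + (E' + En)) :=
    calc Z * (Y + N') ≤ Z * (2 * (Y + (E' + En))) := mul_le_mul_of_nonneg_left (by linarith) Z0
      _ = 2 * Z * (Y + (E' + En)) := by ring
      _ ≤ _ := mul_le_mul_of_nonneg_right hΛ (by linarith)
  have p2 : Z * (E' + Y + N') ≤ Λ * (E' + Y + (E' + En)) :=
    calc Z * (E' + Y + N') ≤ Z * (2 * (E' + Y + (E' + En))) :=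
          mul_le_mul_of_nonneg_left (by linarith) Z0
      _ = 2 * Z * (E' + Y + (E' + En)) := by ring
      _ ≤ _ := mul_le_mul_of_nonneg_right hΛ (by linarith)
  exact ⟨Q, q1, q2, q3.trans (mul_le_mul_of_nonneg_right (by linarith) u0), q4.trans p1,
    q5.trans p1, q6.trans p2⟩

/-- **one bulk with its continuation** -/
theorem lb14 {K Z Λ θ0 V2 N' : ℝ} {p : Pa} {Gn : ℕ → Prop} {V0 u v : ℕ} {r1 r2 ω β f : ℝ → ℝ}
    (hp : p = ⟨G1, u1, u2, j, γ, Lc, ηc, τ, l0, l, X ^ ((1 : ℝ) / 3), X, Xp, Vt, V2, Lg, Lp, X2,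
      X3, G0, N', N, η⟩) (K0 : 0 ≤ K) (KZ : K ≤ Z) (hΛ : 2 * S.C * Z ≤ Λ)
    (V : Ve S M m a Gn V0 v) (hV : V0 + 1 < S.J) (uv : u < v) (su : t1 ≤ M.s u)
    (hA : t1 ≤ sb M m a (u + 1)) (hs : 2 * t1 ≤ sb M m a (v + 1))
    (B : Bk K θ0 S M m a p Gn u v r1 r2 ω β f)
    (hT : ∀ A A0 En βs, 0 ≤ A → A ≤ sb M m a (v + 1) → 0 ≤ A0 →
      8 * A0 ≤ M.s S.J → (∫ t in A0..2 * S.C, JJ M S m a (2 * S.C) t ^ 2) +
        (∫ t in (0 : ℝ)..A0, |JJ M S m a (2 * S.C) t|) ^ 2 ≤ En → 0 ≤ βs →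
      βs ≤ K * bE S M m a p (sb M m a (v + 1)) →
      Cont (2 * S.C) (uu M S m a (2 * S.C)) (rq S M m a)
        (resN (lb M S m a (2 * S.C)) M.b (sb M m a) (hb M) (v + 1)) βs A (sb M m a (v + 1))
        (θ0 * En + Z * S.F ^ 10 * Nn S M p X4 (t1 / 2))
        (L25.QT S M m a (2 * S.C) (sb M m a (v + 1)) (Z * p.u2) (Z * S.F) En
          (S.F ^ 10 * Nn S M p X4 (t1 / 2)))) :
    Lb (2 * S.C) θ0 (Λ * En) (lvr 1 (lh M (2 * S.C))) (lvr 1 (lb M S m a (2 * S.C)))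
      (fun t => Pr.Gam (lb M S m a (2 * S.C)) t - Pr.Gam (lh M (2 * S.C)) t)
      (HH M S m a (2 * S.C)) (mm M S m a) (sb M m a (u + 1)) (3 / 2 * t1) (sb M m a (v + 1))
      (fun E' Y => L25.QT S M m a (2 * S.C) (sb M m a (v + 1)) (Λ * u2) Λ E' (E' + En) Y)
      r1 r2 ω β f := by
  subst hp
  obtain ⟨s1, s2, s3, s4, s5⟩ := H.src14
  obtain ⟨n1, n2, n3, n4, n5, n6⟩ := H.num14
  obtain ⟨v1, v2, v3, v4, v5⟩ := V
  have t0 := H.t10
  have C1 := H.cl.C1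
  have e0 := H.En0
  have F1 := H.lt.F1
  have x2 := sq_nonneg X2
  have Z0 := K0.trans KZ
  have svC : M.s v ≤ S.C := H.cl.s_le_C (le_trans (by omega) H.cl.i3)
  have k1 : ∀ y, y ≤ S.C * (2 * En) → Z * y ≤ Λ * En := fun y hy =>
    calc Z * y ≤ Z * (S.C * (2 * En)) := mul_le_mul_of_nonneg_left hy Z0
      _ = 2 * S.C * Z * En := by ring
      _ ≤ _ := mul_le_mul_of_nonneg_right hΛ e0
  have k2 : ∀ y, 0 ≤ y → y ≤ S.C * (2 * En) → K * y ≤ Λ * En := fun y y0 hy =>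
    (mul_le_mul_of_nonneg_right KZ y0).trans (k1 y hy)
  have k3 : 2 * En ≤ S.C * (2 * En) := le_mul_of_one_le_left (by linarith) C1
  refine Cut8.lb_core B.R B.lf ?_ ?_ (fun t p q => B.nm t p q (by
    show l ≤ t; linarith)) B.r2s fun A' E' a1 a2 a3 => ?_
  · have := B.hF v (t1 / 2) S.C uv.le le_rfl v1 n1 (by linarith) n2 n3 svC (by linarith)
    rw [max_eq_right (by linarith), mul_zero, add_zero] at this
    exact this.trans (add_le_add_left (k2 _ (by positivity) (by dsimp only; linarith)) _)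
  · have := B.hΩ v (t1 / 2) S.C X4 uv.le le_rfl v1 n1 (by linarith) n3 (by linarith)
      (by rw [min_eq_right (by linarith)]; exact H.lt.x4) s2
    refine this.trans (add_le_add_left (k2 _ ?_ ?_) _)
    · dsimp only
      split_ifs <;> positivity
    · have b := mul_le_mul_of_nonneg_left s5 H.cl.C0.le
      have c : ∀ y : ℝ, 0 ≤ y → y ≤ S.C * y := fun y hy => le_mul_of_one_le_left hy C1
      dsimp only
      split_ifs <;> linarith [c _ s1, c _ s2, c _ s3, c _ s4, mul_nonneg H.cl.C0.le s1,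
        mul_nonneg H.cl.C0.le s3]
  · have E0 : 0 ≤ E' := le_trans (add_nonneg (intervalIntegral.integral_nonneg (by linarith)
      fun _ _ => sq_nonneg _) (sq_nonneg _)) a3
    have hN : Nn S M ⟨G1, u1, u2, j, γ, Lc, ηc, τ, l0, l, X ^ ((1 : ℝ) / 3), X, Xp, Vt, V2, Lg, Lp,
      X2, X3, G0, N', N, η⟩ X4 (t1 / 2) ≤ 2 * En := s5
    have := hT A' A' E' _ (by linarith) (by linarith) (by linarith) (by linarith) a3 B.be.1 B.be.2
    rw [F1, one_pow, mul_one, one_mul] at this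
    exact this.mono (by linarith [k1 _ (hN.trans k3)]) fun Y Y0 q =>
      H.qt14 Z0 (le_trans (by nlinarith) hΛ) E0 Y0 hN q

/-- the end of the bulk is a sloped node -/
theorem zs14 {Gn : ℕ → Prop} {V0 v : ℕ} (V : Ve S M m a Gn V0 v) (hV : V0 + 1 < S.J) {t : ℝ}
    (ht : t < sb M m a (v + 1)) : lvr 1 (lb M S m a (2 * S.C)) t ≤ M.z (S.J - 1) := by
  obtain ⟨-, v2, v3, -⟩ := V
  refine L25.zs_of H.A (le_of_not_ge fun c => ?_) (by omega) ht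
  linarith [H.cl.sm c, H.jl_l0, H.lt.l2, H.lt.t1a, H.num14.2.2.2.2.1, H.t10, H.l00]

end Crest.Agent.T156.Alt.L63.Cx

end
end

-- ▼ part T156/BwS_14
section

/-!
# Row 156, block (L): (BwS) from the net, the bulk and the continuation (helper14)
-/

set_option autoImplicit false

noncomputable section

namespace Crest.Agent.T156.Alt.L63

open MeasureTheory Set Real
open Crest.Agent.T156.Alt.L69 Crest.Agent.T156.Alt.Mp9 Crest.Agent.T156.Alt.C74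
open Crest.Agent.T156.Alt.L31

namespace Cx

variable {E L : ℝ} {S : Sc} {M : Md} {m : ℕ} {a G1 u1 u2 j γ Lc ηc τ l0 l X Xp Vt Lg Lp X2 X3 X4
  G0 : ℝ} {η : ℝ → ℝ} {N : ℝ} {g : ℝ → ℝ} {t1 tu ℓ En p0 : ℝ}
  (H : Cx E L S M m a G1 u1 u2 j γ Lc ηc τ l0 l X Xp Vt Lg Lp X2 X3 X4 G0 η N g t1 tu ℓ En p0)
include H

/-- crude location -/
theorem cru14 (k : ℕ) : M.rb m a k ≤ L * L69.cl S (X ^ ((1 : ℝ) / 3)) (max (M.z k) l0) := by
  have h := H.cl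
  have C0 := h.C0
  have C1 := h.C1
  have L1 := H.L1
  have R0 := H.R0
  have z0 := h.z_pos k
  have m1 := le_max_left (M.z k) l0
  have m2 := le_max_right (M.z k) l0
  have a1 : max (M.z k) l0 + X ^ ((1 : ℝ) / 3) ≤ L69.cl S (X ^ ((1 : ℝ) / 3)) (max (M.z k) l0) := by
    have := le_mul_of_one_le_left (z0.le.trans m1) (cr1 S (max (M.z k) l0))
    unfold L69.cl; linarith
  refine le_trans ?_ (mul_le_mul (H.KL (c := 3) 1 (by norm_num)) a1 (by positivity) (by linarith))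
  rw [pow_one]
  have b0 := mul_le_mul_of_nonneg_left m1 C0.le
  have b1 := mul_pos C0 R0
  have b2 := mul_pos C0 z0
  rcases le_total (2 * S.C * M.z k) 1 with c | c
  · have a2 := Sz9.start H.A H.ap.all R0 H.R3.ge
      ((H.dv (by linarith [H.CE]) R0.le H.lt.lX).trans H.l1) c
    have a3 := (h.s_bds h.jl_lt.le).1
    have a4 : (1 : ℝ) ≤ S.jl := by exact_mod_cast h.i0.trans h.i1
    rw [← mul_div_assoc, div_le_iff₀ C0] at a3
    have a5 : 2 * S.C ^ 2 * M.s S.jl ≤ l0 := H.dv (H.KE 2 (by norm_num)) H.jl0.le H.ln.l0s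
    have a6 : S.v ≤ M.s S.jl * S.C := (le_mul_of_one_le_left h.v0.le a4).trans a3
    have a7 : 2 * (S.C * S.v) ≤ max (M.z k) l0 := by
      linarith [mul_le_mul_of_nonneg_left a6 C0.le]
    linarith [mul_le_mul_of_nonneg_left a7 C0.le, le_mul_of_one_le_left R0.le C1]
  · linarith [(rb_mem (M := M) (a := a) H.A.m_pos k).2]

theorem hx14 (hE : L ^ 1000 ≤ E) : Hx E L S M m a ⟨G1, u1, u2, j, γ, Lc, ηc, τ, l0, l,
    X ^ ((1 : ℝ) / 3), X, Xp, Vt, Vt, Lg, Lp, X2, X3, G0, N, N, η⟩ :=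
  ⟨H.ce, H.ln, H.lp, H.lp.lc, by rw [H.lt.F1, one_pow]; exact H.E1, H.ap, H.ap.ap2 _, H.L1, hE,
    le_trans (by simpa using H.dv H.E1 H.R0.le H.lt.lX)
      (le_mul_of_one_le_left H.l0'.le (cr1 S l)), fun k _ => H.cru14 k⟩

/-- a good node just above each time of `[5 t1 / 4, 3 t1 / 2]` -/
theorem nd14 {W τ1 : ℝ} {Gn : ℕ → Prop} {V0 : ℕ} (W1 : 1 ≤ W) (hW : L * W ≤ E)
    (G : G89.NG E W S M m a (2 * S.C) (max l (2 * l0)) Lg X2 τ1 η Gn V0) {x : ℝ}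
    (x1 : 5 / 4 * t1 ≤ x) (x2 : x ≤ 3 / 2 * t1) : ∃ u, Gn u ∧ t1 ≤ M.s u ∧ x ≤ sb M m a (u + 1) ∧
      sb M m a (u + 1) < 2 * t1 ∧ E * (sb M m a (u + 1) - x) ≤ 2 * t1 := by
  have t0 := H.t10
  have l0' := H.l0'
  have C0 := H.cl.C0
  have ta := H.lt.t1a
  have E1 := H.E1
  rw [max_eq_left H.lt.l2] at G
  have hL : 18 * S.C ^ 3 * W ≤ Lg := by
    have := H.ln.Lg0
    rw [H.lt.F1, one_pow, mul_one] at this
    exact ((mul_le_mul_of_nonneg_right (H.KL 3 (by norm_num)) (by linarith)).trans hW).trans this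
  have hv : 32 * S.C ^ 3 * S.v ≤ l :=
    (H.dv (H.KE 3 (by norm_num)) H.cl.v0.le H.vμ).trans H.μ1
  have hJ : 8 * S.C ^ 2 * t1 ≤ M.s S.J := H.dv (H.KE 2 (by norm_num)) t0.le H.Et14
  have h4 : 8 * S.C ^ 3 * t1 ≤ S.C := (H.dv (H.KE 3 (by norm_num)) t0.le H.Et14).trans
    H.num14.2.2.2.2.2
  have h5 : 2 * t1 ≤ 1 / (4 * S.C ^ 2) := by
    rw [le_div_iff₀ (by positivity)]
    exact le_of_mul_le_mul_left (by linarith) C0
  have c2 : 0 < S.C ^ 2 * t1 := by positivity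
  have j1 : M.s S.jl ≤ l := by linarith [H.jl_l0, H.lt.l2, H.l00]
  obtain ⟨u, u1, -, -, u4, u5, u6⟩ := ng_gs (t := t1) H.cl G (by linarith) hL (by linarith)
    (by linarith) (by linarith) (by linarith)
  obtain ⟨w, w1, -, -, w4, w5, w6⟩ := ng_gs (t := 8 / 5 * t1) H.cl G (by linarith) hL (by linarith)
    (by linarith) (by linarith) (by linarith)
  have b := fun k (h1 : t1 ≤ M.s k) (h2 : M.s k ≤ 2 * t1) =>
    H.dsb_cr (k := k) (by linarith) (by linarith [H.t1u, H.ℓu, H.ℓ0])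
  have uw : u ≤ w := le_of_not_ge fun c => by linarith [H.cl.sm c]
  obtain ⟨i, k, nx, p1, p2⟩ := exists_nx (σ := fun y => sb M m a (y + 1)) uw u1 w1 (t := x)
    (by linarith [(b u u5 (by linarith)).2 (by linarith)])
    (by linarith [(b w (by linarith) (by linarith)).1])
  obtain ⟨q1, q2, q3, q4, q5, q6⟩ := nx
  have si := H.cl.sm q1
  have si' := H.cl.sm (q2.trans q3)
  have sh := G.sh u i k ⟨q1, q2, q3.trans w4, q4, q5, q6⟩ (by linarith)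
  have iC : M.s i ≤ S.C := by linarith [H.num14.2.2.2.2.1, H.num14.2.2.2.2.2]
  have m0 := H.cl.ms_pos (H.cl.s_nn i)
  have d0 : 0 ≤ G89.ds M m a i k := sub_nonneg.2 (p1.trans p2)
  have d1 : G89.ds M m a i k ≤ √(S.ms (M.s i)) := le_of_pow_le_pow_left₀ (n := 6) (by norm_num)
    (sqrt_nonneg _) (by
      rw [show √(S.ms (M.s i)) ^ 6 = (√(S.ms (M.s i)) ^ 2) ^ 3 by ring, sq_sqrt m0.le, ← H.mf_eq]
      exact (le_mul_of_one_le_left (by positivity) E1).trans sh)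
  have d2 := (mul_le_mul_of_nonneg_left d1 (by linarith)).trans (H.lt.ml _ (by linarith) iC)
  have d3 : E * (sb M m a (k + 1) - x) ≤ E * G89.ds M m a i k :=
    mul_le_mul_of_nonneg_left (sub_le_sub_left p1 _) (by linarith)
  refine ⟨k, q5, by linarith [H.cl.sm q2], p2, ?_, by linarith⟩
  linarith [H.A.sb_mono (Nat.succ_le_succ q3), (b w (by linarith) (by linarith)).2 (by linarith)]

/-- **(BwS) at fixed numbers** -/
theorem bw14 {θ0 Λ W K Z : ℝ} (hW : L ≤ W) (hK : L * W ≤ K) (hZ : K ≤ Z)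
    (hE : K ^ 1000 ≤ E) (hΛ : L * Z ≤ Λ)
    (N1 : ∀ p, Hx E L S M m a p → ∃ Gn V0, Ng E W S M m a p Gn V0)
    (B1 : ∀ p Gn V0, Hx E L S M m a p → Ng E W S M m a p Gn V0 →
      ∀ u v, Vs M p Gn u → Ve S M m a Gn V0 v → u < v →
      ∃ r1 r2 ω β f, Bk K θ0 S M m a p Gn u v r1 r2 ω β f)
    (T1 : ∀ p Gn V0, Hx E L S M m a p → E * (t1 / 2) ≤ S.C → L4 S p.V p.X (t1 / 2) S.C X4 →
      Ng E K S M m a p Gn V0 →
      ∃ v, Ve S M m a Gn V0 v ∧ ∀ A A0 En βs, 0 ≤ A → A ≤ sb M m a (v + 1) → 0 ≤ A0 →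
      8 * A0 ≤ M.s S.J → (∫ t in A0..2 * S.C, JJ M S m a (2 * S.C) t ^ 2) +
        (∫ t in (0 : ℝ)..A0, |JJ M S m a (2 * S.C) t|) ^ 2 ≤ En → 0 ≤ βs →
      βs ≤ K * bE S M m a p (sb M m a (v + 1)) →
      Cut8.Cont (2 * S.C) (uu M S m a (2 * S.C)) (rq S M m a)
        (Gap27.resN (lb M S m a (2 * S.C)) M.b (sb M m a) (hb M) (v + 1)) βs A (sb M m a (v + 1))
        (θ0 * En + Z * S.F ^ 10 * Nn S M p X4 (t1 / 2))
        (L25.QT S M m a (2 * S.C) (sb M m a (v + 1)) (Z * p.u2) (Z * S.F) En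
          (S.F ^ 10 * Nn S M p X4 (t1 / 2)))) :
    ∃ s, Bw E Λ θ0 S M m a t1 u2 En s := by
  have L1 := H.L1
  have W1 := L1.trans hW
  have WK : W ≤ K := (le_mul_of_one_le_left (by linarith) L1).trans hK
  have K1 := W1.trans WK
  have KE : K ≤ E := (le_self_pow₀ K1 (by norm_num)).trans hE
  have X := H.hx14 ((pow_le_pow_left₀ (by linarith) (hW.trans WK) 1000).trans hE)
  obtain ⟨Gn, V0, G⟩ := N1 _ X
  obtain ⟨n1, -, -, n4, n5, -⟩ := H.num14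
  obtain ⟨v, V, hT⟩ := T1 _ Gn V0 X n4 H.lt.x4 (H.ng14 H.R0.le WK G)
  have t0 := H.t10
  have hs : 2 * t1 ≤ sb M m a (v + 1) := by linarith [V.2.2.2.1]
  refine ⟨sb M m a (v + 1), hs, V.2.2.2.2, fun t ht => H.zs14 V G.ng.hV ht, fun x x1 x2 => ?_⟩
  obtain ⟨u, u1, u2, u3, u4, u5⟩ := H.nd14 W1 (hK.trans KE) G.ng x1 x2
  have uv : u < v := lt_of_not_ge fun c => by linarith [H.A.sb_mono (Nat.succ_le_succ c)]
  obtain ⟨r1, r2, ω, β, f, B⟩ := B1 _ Gn V0 X G u v ⟨u1, by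
    show 9 / 8 * max l (2 * l0) ≤ _
    rw [max_eq_left H.lt.l2]; linarith [H.l0']⟩ V uv
  exact ⟨_, r1, r2, ω, β, f, u3, u5, H.lb14 rfl (by linarith) hZ (le_trans (mul_le_mul_of_nonneg_right
    (by simpa using H.KL (c := 2) 1 (by norm_num)) (by linarith)) hΛ) V G.ng.hV uv u2
    (by linarith) hs B hT⟩

end Cx

/-- **(BwS)** -/
theorem bwS_of (hN : NgX) (hB : BuS) (hT : TxS) : BwS := fun θ hθ => by
  refine CL.mono (P := fun E Λ S M m a => ∀ Λ', Λ ≤ Λ' →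
    ∀ G1 u1 u2 j γ Lc ηc τ l0 l X Xp Vt Lg Lp X2 X3 X4 G0 η N g t1 tu ℓ En p0,
    Hy E S M m a G1 u1 u2 j γ Lc ηc τ l0 l X Xp Vt Lg Lp X2 X3 X4 G0 η N g t1 tu ℓ En p0 →
    ∃ s, Bw E Λ' (θ S.C) S M m a t1 u2 En s) ?_ fun _ _ _ _ _ _ _ _ _ _ H => H _ le_rfl
  refine ((CL.and hN (hB θ hθ)).and hT).glue'
    (fun _ _ _ _ _ _ _ _ h2 H Λ' h3 => H Λ' (h2.trans h3)) 2 (i := 1) le_rfl 931000 931002
    fun C A ε η hε hη => ⟨max (10 ^ 9 * C ^ 13) (1 / θ C), fun S M m a R hA h1 h2 c I q Λ hΛ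
      G1 u1 u2 j γ Lc ηc τ l0 l X Xp Vt Lg Lp X2 X3 X4 G0 η' N g t1 tu ℓ En p0 Y => ?_⟩
  obtain rfl := R.hC
  rw [pow_one] at *
  have n1 : 1 ≤ S.n := c.n1
  have n0 := c.N0
  have LE : ((S.n : ℝ) ^ η) ^ 931000 ≤ (S.n : ℝ) ^ ε := by
    rw [Pre29.rp_pow]; exact Pre29.rp_le n1 (by push_cast at h1 ⊢; linarith)
  have L1 := R.Λ1
  have k1 := (le_max_left _ _).trans R.K_le
  have k2 := (le_max_right _ _).trans R.K_le
  have lg := R.log_le
  have b1 : S.v * (S.n : ℝ) ^ 2 ≤ S.C := le_trans (mul_le_mul_of_nonneg_left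
    (pow_le_pow_right₀ (by exact_mod_cast n1) (R.hA ▸ R.A2)) c.v0.le) c.v2
  generalize (S.n : ℝ) ^ η = L at *
  generalize (S.n : ℝ) ^ ε = E at *
  have H : Cx E L S M m a G1 u1 u2 j γ Lc ηc τ l0 l X Xp Vt Lg Lp X2 X3 X4 G0 η' N g t1 tu ℓ En p0 :=
    ⟨Y, c, I, k1, (pow_le_pow_right₀ L1 (by norm_num)).trans LE, lg, R.C_log, by
      rwa [one_div_pow, mul_one_div, le_div_iff₀ (by positivity)]⟩
  obtain ⟨⟨q1, q2⟩, q3⟩ := q
  have θ0 := (hθ S.C).1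
  have hL : 1 ≤ L * θ S.C := (div_le_iff₀ θ0).1 k2
  have pw : ∀ {i k : ℕ}, i ≤ k → L ^ i ≤ L ^ k := fun h => pow_le_pow_right₀ L1 h
  have e1 : L * L ^ 30 = L ^ 31 := by ring
  have e2 : L * (L ^ 31) ^ 30 = L ^ 931 := by ring
  have e3 : (L ^ 931) ^ 1000 = L ^ 931000 := by rw [← pow_mul]
  have l1 : ∀ {k : ℕ}, k ≠ 0 → L ≤ L ^ k := fun h => le_self_pow₀ L1 h
  have K1 : 1 ≤ L ^ 931 := one_le_pow₀ L1
  refine H.bw14 (W := L ^ 31) (K := L ^ 931) (Z := L * (L ^ 931) ^ _) (l1 (by norm_num))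
    ((pow_succ' L 31).symm.trans_le (pw (by norm_num))) ?_ (e3.trans_le LE) ?_
    (fun p x => e1 ▸ q1 p L x)
    (fun p Gn V0 x y => e2 ▸ q2 p L _ Gn V0 x (l1 (by norm_num))
      (((pow_mul L 31 1000).symm.trans_le (pw (by norm_num))).trans LE) y)
    fun p Gn V0 x y z w => q3 p L _ _ _ _ Gn V0 x (l1 (by norm_num)) (e3.trans_le LE)
      (hL.trans (mul_le_mul_of_nonneg_right (l1 (by norm_num)) θ0.le)) y z w
  · exact (le_self_pow₀ K1 (by norm_num)).trans (le_mul_of_one_le_left (by positivity) L1)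
  · refine le_trans ?_ hΛ
    rw [← pow_mul, ← pow_succ', ← pow_succ']
    exact pw (by norm_num)

end Crest.Agent.T156.Alt.L63

end
end

-- ▼ part T156/LZ_94

/-!
# Row 156, block (L): assembly (helper94)
-/

set_option autoImplicit false

namespace Crest.Agent.T156.Alt.LZ

theorem szS : SzT98.SzS := S50.szS_of SzT98.szQ
theorem szTG : Tg64.SzTG := Tg64.szTG_of szS SzT98.szV
theorem szTG' : L63.SzTG := szTG
theorem tl0 : L69.TL0 := Tg64.tl0 szS SzT98.szV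
theorem tlt : L69.TLt := L69.tlt_q (Tg64.szN2 szS SzT98.szV) SzT98.szQ5
theorem pgS : Nd33.PgS := Nd33.pgS_of (Nd33.szQ0_of SzT98.szQ)
theorem niS : L63.NiS := L63.niS_of szTG'
theorem pnS : L62.PNS := L62.pnS_of niS pgS szS
theorem ngX : L31.NgX := Sz9.ngX_of szTG G89.ndS
theorem ndT : L63.NdT := L63.ndT_of szTG' G89.ndS
theorem ndTq : L63.NdTq := L63.ndTq_of szTG' G89.ndS
theorem tkA : L63.TkA := L63.tkA_of ndT
theorem pnq : L63.PNq := Q54.pnq_of niS pgS szS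
theorem buS : L31.BuS := L31.buS75

section Tx

variable (t : L31.TxS)
include t

theorem tl1x_t : L69.TL1x := L31.tl1x63 tl0 ngX buS t L31.boK L31.rtK
theorem tl1cx_t : L69.TL1cx := C74.tl1cx_of (L31.boS63 tl0 ngX buS t L31.boK L31.rtK)
theorem tkE_t : L63.TkE := L63.tkE_of L63.crJ (L63.bwS_of ngX buS t)
theorem tl2x_t : L63.TL2x := L63.tl2x_of tkA (tkE_t t)
theorem tl2y_t : L63.TL2y := L63.tl2y_of tkA (tkE_t t)
theorem p1S_t : L63.P1S := L63.p1_of (tl2y_t t) ndT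
theorem tlp_t : L62.TLp := L62.tlp_of (p1S_t t) pnS

end Tx

/-- the leaves that are still open -/
structure Open : Prop where
  txS : L31.TxS
  tlq : L63.P1S → L63.NdTq → L63.PNq → L63.TLq

/-- **the block (L)** from the open leaves -/
theorem Open.out (h : Open) : Out :=
  ⟨tl0, tlt, tl1x_t h.txS, tl1cx_t h.txS, tl2x_t h.txS, tl2y_t h.txS, tlp_t h.txS,
    h.tlq (p1S_t h.txS) ndTq pnq⟩

end Crest.Agent.T156.Alt.LZ
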