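import Crest.Agent.T156.QClDef_98

/-!
# Row 156: the LOCATION KIT read by R1 and the MOMENT KIT it produces (helper62)

Class form, absolute units, profile indices, static plateau.  `LK` is what SR and L deliver,
`KN` are the numbers, `MK` is what the error table and the SD budgets read.
Zones: low `s k < l0` (crude), sloped blocks `[t, 2 t]` with `l0 ≤ t ≤ T0`, top zone `T0 ≤ s k`
(last window and plateau), end `du k < u1` (crude).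
-/

set_option autoImplicit false

noncomputable section

namespace Crest.Agent.T156.Alt.R62

open MeasureTheory Real Finset Filter

variable (S : Sc) (M : Md)

/-- label weight of the node `k ≥ 1` -/
def lw (k : ℕ) : ℝ := M.z k - M.z (k - 1)
/-- distances of a plateau node to the two ends -/
def dl (k : ℕ) : ℝ := M.z (k - 1) - M.z (S.J - 1) + S.u0
def du (k : ℕ) : ℝ := 1 - M.z (k - 1)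
/-- clock length of the shell (`= Pl57.ls`) -/
def ls (k : ℕ) : ℝ := S.den (M.z (k - 1)) * min (dl S M k) (du M k)
/-- start of the top zone -/
def T0 : ℝ := M.s S.J / 16
/-- sloped nodes with time in `[t, t']` -/
def sb (t t' : ℝ) : Finset ℕ := (Ioo S.jl S.J).filter fun k => t ≤ M.s k ∧ M.s k ≤ t'
/-- plateau nodes at distance `≥ u` from the top -/
def pl (u : ℝ) : Finset ℕ := (Ico S.J S.Jp).filter fun k => u ≤ du M k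
/-- the top zone without its end -/
def tz (u : ℝ) : Finset ℕ := sb S M (T0 S M) S.C ∪ pl S M u
/-- tolerance on the plateau -/
def tau (Λ₁ Pt Vt : ℝ) (k : ℕ) : ℝ :=
  ls S M k + √(Pt / (dl S M k + Pt ^ ((1 : ℝ) / 3))) + min (√(Pt / du M k)) (Vt + Λ₁ * ls S M k)
/-- joint moments `E |ρ_k - q_k|^i (mᵀ A m / m²)_k` -/
def ja (m : ℕ) (a : ℝ) (i k : ℕ) : ℝ := M.EP' m a fun x => |M.rP m a k x - M.q k| ^ i * M.aP m a k x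

/-- **location kit** (output of SR, L, TopQ) -/
structure LK (m : ℕ) (a Φ : ℝ) (P : ℝ → ℝ) (l0 Λ₁ Pt Vt u1 : ℝ) : Prop where
  tot : ∑ k ∈ Ioc S.jl S.Jp, lw M k * M.del m a k ^ 2 ≤ Φ
  blk : ∀ t, l0 ≤ t → t ≤ T0 S M → ∑ k ∈ sb S M (t / 4) (8 * t), lw M k * M.del m a k ^ 2 ≤ P t
  top : ∑ k ∈ sb S M (T0 S M / 4) S.C ∪ Icc S.J S.Jp, lw M k * M.del m a k ^ 2 ≤ Pt
  up : ∀ k ∈ pl S M (u1 / 4), M.del m a k ≤ Vt + Λ₁ * ls S M k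

/-- **numbers** -/
structure KN (E l Φ : ℝ) (P : ℝ → ℝ) (l0 Λ₀ Λ₁ Pt Vt u1 V4 : ℝ) : Prop where
  jj : S.j0 = S.jl
  flat : ∀ k, S.J ≤ k → k ≤ S.Jp → M.s k = M.s S.J
  l3 : l ^ 3 = Φ
  l1 : E * l ≤ 1
  jl : 8 * M.s S.jl ≤ l0
  l0l : l0 ≤ l
  w0 : ∀ t, l0 / 8 ≤ t → t ≤ S.C → S.w3 t ≤ t ^ 3
  PΦ : ∀ t, P t ≤ Φ
  Plo : ∀ t, t ≤ E * l → P t = Φ
  Pw : ∀ t, l ≤ t → t ≤ S.C → t ^ 3 * S.w3 t ^ 2 ≤ P t ^ 3 ∧ S.v ≤ P t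
  PtΦ : Pt ≤ Φ
  Ptw : (Λ₀ ^ 2 * S.w3 1) ^ 2 ≤ Pt ^ 3 ∧ S.v ≤ Pt
  u0 : 0 < S.u0 ∧ S.u0 ^ 3 ≤ Pt
  dj : 1 / S.C ≤ S.den (M.z (S.J - 1)) ∧ S.den (M.z (S.J - 1)) ≤ S.C
  L1 : 1 ≤ Λ₁ ∧ Λ₁ ≤ Λ₀ ∧ Λ₀ ≤ S.n
  lsJ : ls S M S.J ≤ l
  Vt0 : 0 ≤ Vt
  ue : 8 * S.ue ≤ u1
  u1P : S.v ≤ u1 ∧ u1 ≤ Pt
  fine : ∀ k, S.J ≤ k → k < S.Jp → E * S.v ≤ ls S M k
  cap : ∀ k ∈ pl S M (u1 / 4), tau S M Λ₁ Pt Vt k ≤ Λ₀ * ls S M k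
  wpl : ∀ k ∈ pl S M (u1 / 4), E * Λ₀ ^ 2 * S.w3 1 ≤ ls S M k ^ 2 * min (dl S M k) (du M k)
  fin : ∀ k ∈ pl S M (u1 / 4), du M k ≤ u1 → 1 / S.C ≤ ls S M k
  s2 : ∑ k ∈ pl S M u1, lw M k * ls S M k ^ 2 ≤ Pt
  s4 : ∑ k ∈ pl S M u1, lw M k * (ls S M k ^ 4 + min (√(Pt / du M k)) (Vt + Λ₁ * ls S M k) ^ 4) +
    Pt * l ^ 2 + u1 ≤ V4

/-- **moment kit** with the loss `Λ` at the exponent `2 p` -/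
structure MK (p : ℕ) (Λ : ℝ) (m : ℕ) (a l Φ : ℝ) (P : ℝ → ℝ) (l0 Λ₀ Pt u1 V4 : ℝ) (G : ℕ → ℝ) :
    Prop where
  pos : ∀ k, 0 < G k
  le2 : ∀ k, G k ≤ 2
  mom : ∀ k, S.jl ≤ k → k ≤ M.N → M.E2 m a (fun R => (R - M.q k) ^ (2 * p)) k ≤ G k ^ (2 * p)
  nod : ∀ k, S.jl ≤ k → k ≤ M.N → M.Mo m a p (fun x => M.rP m a k x - M.q k) (G k)
  sl : ∀ k, S.jl ≤ k → k < S.J → G k ≤ Λ * l
  tot : ∑ k ∈ Ioo S.jl M.N, M.dz m a k * G k ^ 2 ≤ Λ * Φ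
  qua : ∑ k ∈ Ioo S.jl M.N, M.dz m a k * G k ^ 4 ≤ Λ * (Φ * l ^ 2 + V4)
  b2 : ∀ t, l0 ≤ t → t ≤ T0 S M → ∑ k ∈ sb S M t (2 * t), M.dz m a k * G k ^ 2 ≤ Λ * P t
  a0 : ∀ t, l0 ≤ t → t ≤ T0 S M →
    ∑ k ∈ sb S M t (2 * t), M.dz m a k * ja M m a 0 k ≤ Λ * S.w3 t * max t l
  a2 : ∀ t, l0 ≤ t → t ≤ T0 S M →
    ∑ k ∈ sb S M t (2 * t), M.dz m a k * ja M m a 2 k ≤ Λ * S.w3 t * P t
  a4 : ∀ t, l0 ≤ t → t ≤ T0 S M →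
    ∑ k ∈ sb S M t (2 * t), M.dz m a k * ja M m a 4 k ≤ Λ * S.w3 t * (P t * l ^ 2)
  t2 : ∑ k ∈ sb S M (T0 S M) S.C ∪ Ico S.J M.N, M.dz m a k * G k ^ 2 ≤ Λ * Pt
  t4 : ∑ k ∈ sb S M (T0 S M) S.C ∪ Ico S.J M.N, M.dz m a k * G k ^ 4 ≤ Λ * V4
  c0 : ∑ k ∈ tz S M u1, M.dz m a k * ja M m a 0 k ≤ Λ * Λ₀ * S.w3 1
  c2 : ∑ k ∈ tz S M u1, M.dz m a k * ja M m a 2 k ≤ Λ * Λ₀ * S.w3 1 * Pt
  c4 : ∑ k ∈ tz S M u1, M.dz m a k * ja M m a 4 k ≤ Λ * Λ₀ * S.w3 1 * V4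
  fin : ∑ k ∈ Ico S.J M.N \ pl S M u1, M.dz m a k ≤ 2 * u1

/-- crude location is free: monotone `rb`, sloped `q`, atom of the plateau -/
def CruS : Prop := ∀ C : ℝ, ∃ K : ℝ, 1 ≤ K ∧ ∀ (S : Sc) (M : Md), S.C = C → Cl S M → ∀ m a, S.In m a →
  ∀ l, M.s S.jl ≤ l → S.v ≤ l → (∀ k, S.J ≤ k → k ≤ S.Jp → M.s k = M.s S.J) →
    ∑ k ∈ Ioc S.jl S.Jp, lw M k * M.del m a k ^ 2 ≤ l ^ 3 →
    Crude K S M m a l S.jl ∧ ∀ k, S.jl ≤ k → k ≤ S.J → |M.del m a k| ≤ K * l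



/-- **moments from location** -/
def MomS : Prop := ∀ p : ℕ, 4 ≤ p → CL fun E Λ S M m a => ∀ l Φ P l0 Λ₀ Λ₁ Pt Vt u1 V4,
  KN S M E l Φ P l0 Λ₀ Λ₁ Pt Vt u1 V4 → LK S M m a Φ P l0 Λ₁ Pt Vt u1 →
  Crude Λ S M m a l S.jl ∧ ∃ G, MK S M p Λ m a l Φ P l0 Λ₀ Pt u1 V4 G


end Crest.Agent.T156.Alt.R62

end
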