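import Crest.Agent.T156.Seg_56
import Crest.Agent.T156.AltCl_88

-- ▼ part T156/SegB_56
section

/-!
# Row 156: the segment lemma with budgets in variance form (helper56)
-/

set_option autoImplicit false
set_option linter.unusedSectionVars false

noncomputable section

namespace Crest.Agent.T156.Cas.Seg56

open MeasureTheory Real Set Filter Topology
open Crest.Agent.T157.E Crest.Agent.T157.Casc Crest.Agent.T157.SL
open Crest.Agent.T157.G1 (ov fl FL)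
open Crest.Agent.T156.Cas.Lp12 Crest.Agent.T156.Cas.Sy41 Crest.Agent.T156.Cas.Q33
open Crest.Agent.T156.Alt.Sd56

variable {Ω : Type} [Fintype Ω] {w : Ω → ℝ} {L : ℝ → List (Lv Ω)} {N : ℕ} {D : ℕ → Ω → Ω → ℝ}

/-- the path functional `∑_{j ∈ S} dm_j G_j (ρ_j)` -/
def FS (w : Ω → ℝ) (M : List (Lv Ω)) (l₀ : Lv Ω) (S : Finset ℕ) (G : ℕ → ℝ → ℝ) (p : Pth Ω) : ℝ :=
  ∑ j ∈ S, dm M 0 j * G j (rr w (M.drop j) l₀ (p j))

/-- variance under the path law -/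
def Vr (w : Ω → ℝ) (M : List (Lv Ω)) (h : Ω → ℝ) (F : Pth Ω → ℝ) : ℝ :=
  EE w M h (fun p => F p ^ 2) - EE w M h F ^ 2

theorem ep_FS (hw : Wt w) (M : List (Lv Ω)) (l₀ : Lv Ω) (S : Finset ℕ) {G : ℕ → ℝ → ℝ}
    (hG : ∀ j, Continuous (G j)) : EP (FS w M l₀ S G) :=
  EP.sum S fun j _ => (EP.state (eg_comp_rr hw _ l₀ (hG j)) j).const_mul _

theorem EE_FS (hw : Wt w) (M : List (Lv Ω)) (h : Ω → ℝ) (l₀ : Lv Ω) (S : Finset ℕ)
    {G : ℕ → ℝ → ℝ} (hG : ∀ j, Continuous (G j)) : EE w M h (FS w M l₀ S G) =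
      ∑ j ∈ S, dm M 0 j * node w M j (fun z => G j (rr w (M.drop j) l₀ z)) h := by
  unfold FS
  rw [EE_sum hw _ _ S fun j _ => (EP.state (eg_comp_rr hw _ l₀ (hG j)) j).const_mul _]
  exact Finset.sum_congr rfl fun j _ => by
    rw [EE_const_mul, EE_node hw fun z => G j (rr w (M.drop j) l₀ z)]

theorem FS_root (l l₀ : Lv Ω) (U : List (Lv Ω)) (s s' : ℝ) {S : Finset ℕ} (hS : ∀ j ∈ S, 2 ≤ j)
    (G : ℕ → ℝ → ℝ) : FS w (rt l s :: U) l₀ S G = FS w (rt l s' :: U) l₀ S G := by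
  funext p
  refine Finset.sum_congr rfl fun j hj => ?_
  obtain ⟨i, rfl⟩ := Nat.exists_eq_add_of_le' (hS j hj)
  rfl

theorem Vr_eq (hw : Wt w) (M : List (Lv Ω)) (h : Ω → ℝ) {F : Pth Ω → ℝ} (hF : EP F) :
    Vr w M h F = EE w M h fun p => (F p - EE w M h F) ^ 2 := by
  rw [EE_sq_sub hw M h hF, Vr]; ring


theorem mo_of_Vr (hw : Wt w) {M : List (Lv Ω)} {h : Ω → ℝ} {F : Pth Ω → ℝ} (hF : EP F) {V : ℝ}
    (h0 : 0 ≤ V) (hV : Vr w M h F ≤ V ^ 2) : Mo w M h 2 (fun p => F p - EE w M h F) V :=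
  ⟨hF.sub (EP.const _), h0, by simpa only [sq_abs, ← Vr_eq hw M h hF] using hV⟩






/-- (SD) for `FS` -/
theorem sd_FS (hw : Wt w) (l : Lv Ω) (U : List (Lv Ω)) (h : Ω → ℝ) (l₀ : Lv Ω) {a a' Q V : ℝ}
    (haa : a ≤ a') (hQ : 0 ≤ Q) (hW : (a' - a) * Wd w l U h a a' ≤ Q ^ 2) (hV0 : 0 ≤ V)
    {S : Finset ℕ} (hS : ∀ j ∈ S, 2 ≤ j) {G : ℕ → ℝ → ℝ} (hG : ∀ j, Continuous (G j))
    (hV : ∀ s ∈ Icc a a', Vr w (rt l s :: U) h (FS w (rt l s :: U) l₀ S G) ≤ V ^ 2) :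
    |EE w (rt l a' :: U) h (FS w (rt l a' :: U) l₀ S G) -
      EE w (rt l a :: U) h (FS w (rt l a :: U) l₀ S G)| ≤ Q * V := by
  rw [FS_root l l₀ U a' 0 hS, FS_root l l₀ U a 0 hS]
  have ep := ep_FS hw (rt l 0 :: U) l₀ S hG
  refine delta_Mo hw l U h ep (c := fun s => EE w (rt l s :: U) h (FS w (rt l 0 :: U) l₀ S G))
    haa hQ hW fun s hs => mo_of_Vr hw ep hV0 ?_
  rw [← FS_root l l₀ U s 0 hS]
  exact hV s hs

/-- budgets in variance form, with a reference `q`: `V₂` for the squares, `V₁` for the linear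
part, `B` for the pair fluctuations, `A` for the other nodes -/
structure BudV (w : Ω → ℝ) (l : Lv Ω) (U : List (Lv Ω)) (h : Ω → ℝ) (l₀ : Lv Ω) (a a' : ℝ)
    (α φ : ℕ → ℝ) (Q V₂ V₁ B A : ℝ) : Prop where
  W : (a' - a) * Wd w l U h a a' ≤ Q ^ 2
  V2 : 0 ≤ V₂
  V1 : 0 ≤ V₁
  mono : ∀ s ∈ Icc a a', Mono 0 (rt l s :: U)
  ex : ∃ (S : Finset ℕ) (q c : ℕ → ℝ), S ⊆ Finset.Icc 2 (U.length + 1) ∧ ∀ s ∈ Icc a a',
    Vr w (rt l s :: U) h (FS w (rt l s :: U) l₀ S fun j r => α j * (r - q j) ^ 2) ≤ V₂ ^ 2 ∧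
    Vr w (rt l s :: U) h (FS w (rt l s :: U) l₀ S fun j r => (α j * q j + φ j) * r) ≤ V₁ ^ 2 ∧
    (∑ j ∈ S, dm (rt l s :: U) 0 j * (|α j| *
      (tc w (rt l s :: U) l₀ h j + 2 * vv w (rt l s :: U) l₀ h j)) ≤ B) ∧
    ∑ j ∈ Finset.Icc 2 (U.length + 1) \ S, dm (rt l s :: U) 0 j * |pi2 w (rt l s :: U) j
      (fun x y => α j / 2 * l₀.cov x y ^ 2 + φ j * l₀.cov x y) h - c j| ≤ A

theorem BudV.le (hw : Wt w) {l l₀ : Lv Ω} {U : List (Lv Ω)} {h : Ω → ℝ} {a a' Q V₂ V₁ B A : ℝ}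
    {α φ : ℕ → ℝ} (H : BudV w l U h l₀ a a' α φ Q V₂ V₁ B A) (haa : a ≤ a') (hQ : 0 ≤ Q) :
    |PS w l U h (Finset.Icc 2 (U.length + 1))
        (fun j x y => α j / 2 * l₀.cov x y ^ 2 + φ j * l₀.cov x y) a' -
      PS w l U h (Finset.Icc 2 (U.length + 1))
        (fun j x y => α j / 2 * l₀.cov x y ^ 2 + φ j * l₀.cov x y) a| ≤
      2 * (Q * (V₂ / 4 + V₁ / 2) + B / 2 + A) := by
  obtain ⟨S, q, c, hS, hb⟩ := H.ex
  have ia : a ∈ Icc a a' := ⟨le_rfl, haa⟩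
  have ia' : a' ∈ Icc a a' := ⟨haa, le_rfl⟩
  have hS2 : ∀ j ∈ S, 2 ≤ j := fun j hj => (Finset.mem_Icc.1 (hS hj)).1
  have c2 : ∀ j, Continuous fun r : ℝ => α j * (r - q j) ^ 2 := fun j => by fun_prop
  have c1 : ∀ j, Continuous fun r : ℝ => (α j * q j + φ j) * r := fun j => by fun_prop
  have k1 := sd_FS hw l U h l₀ haa hQ H.W H.V2 hS2 c2 fun s hs => (hb s hs).1
  have k1' := sd_FS hw l U h l₀ haa hQ H.W H.V1 hS2 c1 fun s hs => (hb s hs).2.1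
  have k2 : ∀ s ∈ Icc a a', |∑ j ∈ S, dm (rt l s :: U) 0 j * (α j *
      (tc w (rt l s :: U) l₀ h j + 2 * vv w (rt l s :: U) l₀ h j))| ≤ B := fun s hs => by
    refine (Finset.abs_sum_le_sum_abs _ _).trans (le_trans (le_of_eq ?_) (hb s hs).2.2.1)
    refine Finset.sum_congr rfl fun j _ => ?_
    have h1 := tc_nonneg (w := w) l₀ h (rt l s :: U) j
    have h2 := vv_nonneg hw l₀ h (rt l s :: U) j
    rw [abs_mul, abs_mul, abs_of_nonneg (dm_nonneg (H.mono s hs) j),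
      abs_of_nonneg (a := _ + _) (by positivity)]
  have k3 : ∀ s ∈ Icc a a', |∑ j ∈ Finset.Icc 2 (U.length + 1) \ S, dm (rt l s :: U) 0 j *
      pi2 w (rt l s :: U) j (fun x y => α j / 2 * l₀.cov x y ^ 2 + φ j * l₀.cov x y) h -
      ∑ j ∈ Finset.Icc 2 (U.length + 1) \ S, dm (rt l 0 :: U) 0 j * c j| ≤ A := fun s hs => by
    rw [← Finset.sum_sub_distrib]
    refine (Finset.abs_sum_le_sum_abs _ _).trans (le_trans (le_of_eq ?_) (hb s hs).2.2.2)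
    refine Finset.sum_congr rfl fun j hj => ?_
    rw [dm_root l U 0 s (Finset.mem_Icc.1 (Finset.mem_sdiff.1 hj).1).1, ← mul_sub, abs_mul,
      abs_of_nonneg (dm_nonneg (H.mono s hs) j)]
  simp only [PS, ← Finset.sum_sdiff hS]
  have e : ∀ s, ∑ j ∈ S, dm (rt l s :: U) 0 j *
      pi2 w (rt l s :: U) j (fun x y => α j / 2 * l₀.cov x y ^ 2 + φ j * l₀.cov x y) h =
      EE w (rt l s :: U) h (FS w (rt l s :: U) l₀ S fun j r => α j * (r - q j) ^ 2) / 2 +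
      EE w (rt l s :: U) h (FS w (rt l s :: U) l₀ S fun j r => (α j * q j + φ j) * r) +
      (∑ j ∈ S, dm (rt l s :: U) 0 j * (α j *
        (tc w (rt l s :: U) l₀ h j + 2 * vv w (rt l s :: U) l₀ h j))) / 2 -
      ∑ j ∈ S, dm (rt l 0 :: U) 0 j * (α j / 2 * q j ^ 2) := fun s => by
    rw [EE_FS hw _ _ _ _ c2, EE_FS hw _ _ _ _ c1, Finset.sum_div, Finset.sum_div,
      ← Finset.sum_add_distrib, ← Finset.sum_add_distrib, ← Finset.sum_sub_distrib]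
    refine Finset.sum_congr rfl fun j hj => ?_
    have r := eg_rr hw ((rt l s :: U).drop j) l₀
    have e1 : (fun z => α j / 2 * rr w ((rt l s :: U).drop j) l₀ z ^ 2 +
        φ j * rr w ((rt l s :: U).drop j) l₀ z) = fun z =>
        1 / 2 * (α j * (rr w ((rt l s :: U).drop j) l₀ z - q j) ^ 2) +
        (α j * q j + φ j) * rr w ((rt l s :: U).drop j) l₀ z - α j / 2 * q j ^ 2 := by
      funext z; ring
    have g2 := (((r.sub (Eg.const (q j))).pow 2).const_mul (α j)).const_mul (1 / 2)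
    rw [pi2_quad hw, dm_root l U 0 s (hS2 j hj), e1,
      node_sub hw (g2.add (r.const_mul _)) (Eg.const _), node_add hw g2 (r.const_mul _),
      node_const hw, node_const_mul w _ (1 / 2)]
    ring
  rw [e, e]
  have := abs_le.1 k1
  have := abs_le.1 k1'
  have := abs_le.1 (k2 a ia)
  have := abs_le.1 (k2 a' ia')
  have := abs_le.1 (k3 a ia)
  have := abs_le.1 (k3 a' ia')
  exact abs_le.2 ⟨by linarith, by linarith⟩

/-- the segment lemma from any bound of the exact derivative -/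
theorem seg_PS (hw : Wt w) (H : Seg L N D) (l l₀ : Lv Ω) (h : Ω → ℝ) {ν d a a' e : ℝ}
    {α φ : ℕ → ℝ} (hν : 0 ≤ ν) (hd : ∀ x, l₀.cov x x = d)
    (hD : ∀ j, 2 ≤ j → j ≤ N + 1 → ∀ x y,
      D (j - 1) x y = ν * (α j / 2 * l₀.cov x y ^ 2 + φ j * l₀.cov x y)) {g : ℝ → ℝ}
    (hb : ∀ t ∈ Ioo (0 : ℝ) 1, |PS w l (L t) h (Finset.Icc 2 (N + 1))
        (fun j x y => α j / 2 * l₀.cov x y ^ 2 + φ j * l₀.cov x y) a' -
      PS w l (L t) h (Finset.Icc 2 (N + 1))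
        (fun j x y => α j / 2 * l₀.cov x y ^ 2 + φ j * l₀.cov x y) a| ≤ 2 * g t)
    (hi : IntegrableOn g (Icc 0 1)) (he : ∫ t in (0 : ℝ)..1, g t ≤ e) :
    ∀ t ∈ Icc (0 : ℝ) 1, |DV w l (L t) h a a' - DV w l (L 0) h a a'| ≤ ν * e := by
  obtain ⟨c, hc⟩ : ∃ c, ∀ x, D N x x = c := by
    rcases Nat.eq_zero_or_pos N with rfl | hN
    · exact ⟨0, fun x => H.zero x x⟩
    · exact ⟨ν * (α (N + 1) / 2 * d ^ 2 + φ (N + 1) * d), fun x => by
        rw [← hd x]; exact hD (N + 1) (by omega) le_rfl x x⟩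
  refine Chain26.path_le (g := fun t => ν * g t) (H.contD hw l h a a')
    (fun t ht => (H.derD hw hc l h a a' ht).hasDerivWithinAt) (fun t ht => ?_) (hi.const_mul ν) ?_
  · have e : ∀ s, PS w l (L t) h (Finset.Icc 2 (N + 1)) (fun j => D (j - 1)) s =
        ν * PS w l (L t) h (Finset.Icc 2 (N + 1))
          (fun j x y => α j / 2 * l₀.cov x y ^ 2 + φ j * l₀.cov x y) s := fun s => by
      rw [PS, PS, Finset.mul_sum]
      refine Finset.sum_congr rfl fun j hj => ?_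
      obtain ⟨h1, h2⟩ := Finset.mem_Icc.1 hj
      have : D (j - 1) = fun x y => ν * (α j / 2 * l₀.cov x y ^ 2 + φ j * l₀.cov x y) := by
        funext x y; exact hD j h1 h2 x y
      simp only [this, pi2_const_mul]
      ring
    rw [e, e, ← mul_sub, abs_div, abs_neg, abs_mul, abs_of_nonneg hν, abs_two]
    have := mul_le_mul_of_nonneg_left (hb t ht) hν
    linarith
  · rw [intervalIntegral.integral_const_mul]
    exact mul_le_mul_of_nonneg_left he hν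

variable {n : ℕ}

/-- cube segments: the data -/
structure CS {n : ℕ} (L : ℝ → List (Lv (Cube n))) (N : ℕ) (d' f' : ℕ → ℝ) : Prop where
  len : ∀ t ∈ Icc (0 : ℝ) 1, (L t).length = N
  cov : ∃ x d f : ℕ → ℝ, ∀ t ∈ Icc (0 : ℝ) 1, ∀ k (hk : k < (L t).length), (L t)[k].m = x k ∧
    ∀ u v, (L t)[k].cov u v = n * ((d k + t * d' k) / 2 * ov u v ^ 2 + (f k + t * f' k) * ov u v)

/-- accumulated velocity at the node `j` of `root :: L t` -/
def acc (d' : ℕ → ℝ) (j : ℕ) : ℝ := ∑ k ∈ Finset.range (j - 1), d' k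

theorem CS.seg {L : ℝ → List (Lv (Cube n))} {N : ℕ} {d' f' : ℕ → ℝ} (H : CS L N d' f') :
    Seg L N fun j u v => n * (acc d' (j + 1) / 2 * ov u v ^ 2 + acc f' (j + 1) * ov u v) := by
  obtain ⟨x, d, f, hc⟩ := H.cov
  have i0 : (0 : ℝ) ∈ Icc (0 : ℝ) 1 := ⟨le_rfl, zero_le_one⟩
  refine (Seg.of_cov (κ := fun k u v => n * (d' k / 2 * ov u v ^ 2 + f' k * ov u v)) H.len
    fun t ht k h1 h0 => ⟨(hc t ht k h1).1.trans (hc 0 i0 k h0).1.symm, fun u v => by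
      rw [(hc t ht k h1).2, (hc 0 i0 k h0).2]; ring⟩).congr fun j _ => ?_
  funext u v
  simp only [acc, Nat.add_sub_cancel, ← Finset.mul_sum, Finset.sum_add_distrib, ← Finset.sum_mul,
    ← Finset.sum_div]

/-- **cube segment, any bound of the derivative**, in the form of `ChainQ_26` -/
theorem CS.cl (hn : 0 < n) {L : ℝ → List (Lv (Cube n))} {N : ℕ} {d' f' : ℕ → ℝ}
    (H : CS L N d' f') (l : Lv (Cube n)) {l₀ : Lv (Cube n)} (h₀ : ∀ u v, l₀.cov u v = ov u v)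
    {a a' e : ℝ} {g : ℝ → ℝ}
    (hb : ∀ t ∈ Ioo (0 : ℝ) 1, |PS (fun _ => 1) l (L t) 0 (Finset.Icc 2 (N + 1))
        (fun j x y => acc d' j / 2 * l₀.cov x y ^ 2 + acc f' j * l₀.cov x y) a' -
      PS (fun _ => 1) l (L t) 0 (Finset.Icc 2 (N + 1))
        (fun j x y => acc d' j / 2 * l₀.cov x y ^ 2 + acc f' j * l₀.cov x y) a| ≤ 2 * g t)
    (hi : IntegrableOn g (Icc 0 1)) (he : ∫ t in (0 : ℝ)..1, g t ≤ e) {t : ℝ}
    (ht : t ∈ Icc (0 : ℝ) 1) :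
    Chain26.Cl a a' (n * e) (Chain26.Vv l (L t)) (Chain26.Vv l (L 0)) :=
  seg_PS Link33.wt1 H.seg l l₀ 0 (d := 1) (Nat.cast_nonneg n)
    (fun u => by rw [h₀, Q33.ov_self hn]) (fun j h2 _ u v => by
      simp only [h₀, Nat.sub_add_cancel (by omega : 1 ≤ j)]) hb hi he t ht




end Crest.Agent.T156.Cas.Seg56

end
end

-- ▼ part T156/SegC_56

/-!
# Row 156: the segment lemma for the abstract models `Md` (helper56)
-/

set_option autoImplicit false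
set_option linter.unusedSectionVars false

noncomputable section

namespace Crest.Agent.T156.Alt

open MeasureTheory Real Set Filter Topology
open Crest.Agent.T157.E Crest.Agent.T157.Casc Crest.Agent.T157.SL
open Crest.Agent.T157.G1 (ov fl FL)
open Crest.Agent.T156.Cas Crest.Agent.T156.Cas.Lp12 Crest.Agent.T156.Cas.Sy41
open Crest.Agent.T156.Cas.Q33 Crest.Agent.T156.Cas.Seg56

namespace Md

variable (M : Md) (m : ℕ) (a : ℝ)

/-- the path functional `∑_{k ∈ S} dz_k G_k (ρ_k)` -/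
def PF (S : Finset ℕ) (G : ℕ → ℝ → ℝ) (p : Pth (Cube m)) : ℝ :=
  ∑ k ∈ S, M.dz m a k * G k (M.rh m a k (p (k + 1)))

/-- variance under the path law -/
def Var (F : Pth (Cube m) → ℝ) : ℝ := Vr (fun _ => 1) (M.L m a) 0 F

/-- pair fluctuation `E (R - ρ_k)² = tr C² + 2 V` at the node `k` -/
def pf (k : ℕ) : ℝ := tc (fun _ => 1) (M.L m a) (sl m) 0 (k + 1) +
  2 * vv (fun _ => 1) (M.L m a) (sl m) 0 (k + 1)

/-- `V (a') - V (a)` -/
def DV (a' : ℝ) : ℝ := M.V m a' - M.V m a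

end Md

namespace Sg56

variable {M : Md} {m : ℕ} {a a' x : ℝ}

theorem len_up (M : Md) (m : ℕ) : (M.up m).length = M.N := by simp [Md.up, Md.Mu]

theorem up_get (M : Md) (m k : ℕ) (hk : k < (M.up m).length) :
    (M.up m)[k] = mxL m 1 (M.z k, M.d (k + 1) - M.d k, M.H (k + 1) - M.H k) := by
  simp [Md.up, Md.Mu]

theorem mono_aux {Ω : Type} : ∀ (U : List (Lv Ω)) (z : ℕ → ℝ) (c : ℝ), Monotone z →
    (∀ k, z k ≤ 1) → c ≤ z 0 → (∀ k (hk : k < U.length), U[k].m = z k) → Mono c U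
  | [], z, _, _, h1, h0, _ => h0.trans (h1 0)
  | l :: U, z, c, hz, h1, h0, h => by
    have e : l.m = z 0 := h 0 (by simp)
    exact ⟨e ▸ h0, mono_aux U (fun k => z (k + 1)) _ (fun _ _ k => hz (by omega)) (fun k => h1 _)
      (e ▸ hz (Nat.zero_le 1)) fun k hk => h (k + 1) (by simpa using hk)⟩

theorem mono_L (H : M.Leg x) (m : ℕ) (h0 : 0 ≤ a) (h1 : a ≤ x) : Mono 0 (M.L m a) :=
  ⟨h0, mono_aux (M.up m) M.z a H.zm H.z1 (h1.trans H.z0) fun k hk => by rw [up_get]; rfl⟩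

theorem sl_eq (hm : 0 < m) : (sl m).cov = ov := by funext u v; exact sl_cov hm u v

theorem rh_eq (hm : 0 < m) (k : ℕ) (h : Cube m → ℝ) :
    M.rh m a k h = rr (fun _ => 1) ((M.L m a).drop (k + 1)) (sl m) h := by
  rw [rr_eq, sl_eq hm, Md.rh]

/-- `PF` is `FS` with shifted indices -/
theorem PF_eq (hm : 0 < m) (S : Finset ℕ) (G : ℕ → ℝ → ℝ) :
    M.PF m a S G = FS (fun _ => 1) (M.L m a) (sl m) (S.map (addRightEmbedding 1))
      fun j => G (j - 1) := by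
  funext p
  rw [FS, Finset.sum_map]
  exact Finset.sum_congr rfl fun k _ => by rw [rh_eq hm]; rfl


theorem pf_nonneg (k : ℕ) : 0 ≤ M.pf m a k :=
  add_nonneg (tc_nonneg _ _ _ _) (mul_nonneg zero_le_two (vv_nonneg Link33.wt1 _ _ _ _))

/-- `E (R - q)² = E (ρ - q)² + pf` -/
theorem E2_sq (hm : 0 < m) (k : ℕ) (q : ℝ) : M.E2 m a (fun r => (r - q) ^ 2) k =
    node (fun _ => 1) (M.L m a) (k + 1) (fun h => (M.rh m a k h - q) ^ 2) 0 + M.pf m a k := by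
  have := pi2_sq Link33.wt1 (M.L m a) (sl m) 0 (k + 1) q
  simp only [sl_cov hm] at this
  simp only [Md.E2, this, rh_eq hm, Md.pf, tc, vv]
  ring

end Sg56

open Sg56

/-- a segment of models: same tilts, same root, `d` and `H` affine in `t ∈ [0, 1]` -/
structure MS (F : ℝ → Md) (d' H' : ℕ → ℝ) (x : ℝ) : Prop where
  N : ∀ t ∈ Icc (0 : ℝ) 1, (F t).N = (F 0).N
  z : ∀ t ∈ Icc (0 : ℝ) 1, ∀ k < (F 0).N, (F t).z k = (F 0).z k
  d : ∀ t ∈ Icc (0 : ℝ) 1, ∀ k ≤ (F 0).N, (F t).d k = (F 0).d k + t * d' k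
  H : ∀ t ∈ Icc (0 : ℝ) 1, ∀ k ≤ (F 0).N, (F t).H k = (F 0).H k + t * H' k
  d0 : d' 0 = 0
  leg : ∀ t ∈ Icc (0 : ℝ) 1, (F t).Leg x

/-- the budgets of one member, for the velocity `(d', H')`: a set `S` of nodes in `sd` form around
any reference `q`, the other nodes absolutely -/
structure BM (M : Md) (m : ℕ) (a a' : ℝ) (d' H' : ℕ → ℝ) (Q V₂ V₁ B A : ℝ) : Prop where
  W : (a' - a) * M.W m a a' ≤ Q ^ 2
  V2 : 0 ≤ V₂
  V1 : 0 ≤ V₁
  ex : ∃ (S : Finset ℕ) (q c : ℕ → ℝ), S ⊆ Finset.Icc 1 M.N ∧ ∀ s ∈ Icc a a',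
    M.Var m s (M.PF m s S fun k r => d' k * (r - q k) ^ 2) ≤ V₂ ^ 2 ∧
    M.Var m s (M.PF m s S fun k r => (d' k * q k + H' k) * r) ≤ V₁ ^ 2 ∧
    ∑ k ∈ S, M.dz m s k * (|d' k| * M.pf m s k) ≤ B ∧
    ∑ k ∈ Finset.Icc 1 M.N \ S, M.dz m s k *
      |d' k / 2 * M.E2 m s (fun r => r ^ 2) k + H' k * M.rb m s k - c k| ≤ A

variable {F : ℝ → Md} {d' H' : ℕ → ℝ} {x a a' Q : ℝ} {m : ℕ}

theorem BM.budV {M : Md} {V₂ V₁ B A : ℝ} (H : BM M m a a' d' H' Q V₂ V₁ B A) (hm : 0 < m)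
    (hL : M.Leg x) (h0 : 0 ≤ a) (h1 : a' ≤ x) :
    BudV (fun _ => 1) (M.root m 0) (M.up m) 0 (sl m) a a' (fun j => d' (j - 1))
      (fun j => H' (j - 1)) Q V₂ V₁ B A := by
  obtain ⟨S, q, c, hS, hb⟩ := H.ex
  have eI : Finset.Icc 2 ((M.up m).length + 1) = (Finset.Icc 1 M.N).map (addRightEmbedding 1) := by
    rw [len_up, Finset.map_add_right_Icc]
  refine ⟨H.W, H.V2, H.V1, fun s hs => mono_L hL m (h0.trans hs.1) (hs.2.trans h1),
    S.map (addRightEmbedding 1), fun j => q (j - 1), fun j => c (j - 1),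
    eI ▸ Finset.map_subset_map.2 hS, fun s hs => ?_⟩
  obtain ⟨k1, k2, k3, k4⟩ := hb s hs
  rw [Md.Var, PF_eq hm] at k1 k2
  refine ⟨k1, k2, ?_, ?_⟩
  · rw [Finset.sum_map]; exact k3
  · rw [eI, ← Finset.map_sdiff, Finset.sum_map]
    refine le_of_eq_of_le (Finset.sum_congr rfl fun k _ => ?_) k4
    rw [sl_eq hm, pi2_add Link33.wt1, pi2_const_mul, pi2_const_mul]
    rfl

theorem MS.H0 (H : MS F d' H' x) : H' 0 = 0 := by
  have h1 := H.H 1 ⟨zero_le_one, le_rfl⟩ 0 (Nat.zero_le _)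
  rw [(H.leg 1 ⟨zero_le_one, le_rfl⟩).H0, (H.leg 0 ⟨le_rfl, zero_le_one⟩).H0] at h1
  linarith

theorem MS.root (H : MS F d' H' x) (m : ℕ) {t : ℝ} (ht : t ∈ Icc (0 : ℝ) 1) :
    (F t).root m 0 = (F 0).root m 0 := by
  rw [Md.root, Md.root, H.d t ht 0 (Nat.zero_le _), H.d0, mul_zero, add_zero]

theorem MS.cs (H : MS F d' H' x) (hm : 0 < m) : CS (fun t => (F t).up m) (F 0).N
    (fun k => d' (k + 1) - d' k) fun k => H' (k + 1) - H' k := by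
  refine ⟨fun t ht => (len_up _ m).trans (H.N t ht), (F 0).z, fun k => (F 0).d (k + 1) - (F 0).d k,
    fun k => (F 0).H (k + 1) - (F 0).H k, fun t ht k hk => ?_⟩
  have hk' : k < (F 0).N := by rwa [len_up, H.N t ht] at hk
  rw [up_get]
  refine ⟨H.z t ht k hk', fun u v => ?_⟩
  rw [mxL_cov hm 1 (sub_nonneg.2 ((H.leg t ht).dm k.le_succ))
    (sub_nonneg.2 ((H.leg t ht).Hm k.le_succ))]
  simp only [H.d t ht k hk'.le, H.d t ht (k + 1) hk', H.H t ht k hk'.le, H.H t ht (k + 1) hk']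
  ring

/-- the exact velocity of `V (a') - V (a)` is `-(m / 2) (PD a' - PD a)` -/
def Md.PD (M : Md) (m : ℕ) (d' H' : ℕ → ℝ) (s : ℝ) : ℝ := ∑ k ∈ Finset.Icc 1 M.N,
  M.dz m s k * (d' k / 2 * M.E2 m s (fun r => r ^ 2) k + H' k * M.rb m s k)

theorem PD_eq (M : Md) (hm : 0 < m) (d' H' : ℕ → ℝ) (s : ℝ) :
    PS (fun _ => 1) (M.root m 0) (M.up m) 0 (Finset.Icc 2 (M.N + 1))
      (fun j u v => d' (j - 1) / 2 * (sl m).cov u v ^ 2 + H' (j - 1) * (sl m).cov u v) s =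
      M.PD m d' H' s := by
  rw [PS, show Finset.Icc 2 (M.N + 1) = (Finset.Icc 1 M.N).map (addRightEmbedding 1) by
    rw [Finset.map_add_right_Icc], Finset.sum_map]
  refine Finset.sum_congr rfl fun k _ => ?_
  rw [sl_eq hm, pi2_add Link33.wt1, pi2_const_mul, pi2_const_mul]
  rfl


theorem BM.le {M : Md} {V₂ V₁ B A : ℝ} (H : BM M m a a' d' H' Q V₂ V₁ B A) (hm : 0 < m)
    (hL : M.Leg x) (h0 : 0 ≤ a) (haa : a ≤ a') (h1 : a' ≤ x) (hQ : 0 ≤ Q) :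
    |M.PD m d' H' a' - M.PD m d' H' a| ≤ 2 * (Q * (V₂ / 4 + V₁ / 2) + B / 2 + A) := by
  have k := (H.budV hm hL h0 h1).le Link33.wt1 haa hQ
  rwa [len_up, PD_eq _ hm, PD_eq _ hm] at k



end Crest.Agent.T156.Alt

end
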