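import Crest.Agent.T156.R1Top_77
import Crest.Agent.T156.LP_62
import Crest.Agent.T156.QCl_33
import Crest.Agent.T156.SegC_56

/-!
# Row 156 (helper82): the second level of R1

`Co*` = table of the site coefficients on the graded family, `Kit` = moments and numbers of a member.
The seven budgets of `R1Top_77` read only these two.
-/

set_option autoImplicit false

noncomputable section

namespace Crest.Agent.T156.Alt.R82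

open Real Finset
open Crest.Agent.T156.Cas Crest.Agent.T156.Cas.C40 Crest.Agent.T156.Alt.CIn12
open Crest.Agent.T156.Alt.Alg77 Crest.Agent.T156.Alt.R77 Crest.Agent.T156.Alt.R62

/-! ### coefficients -/

/-- density scale of the test measure at the time `y` -/
def mt (p : Pm) (t y : ℝ) : ℝ := p.msG t y / max y p.r

/-- a statement at every context and every node `jf < k ≤ Jp` -/
def Nds (X : Pm → Pl → ℝ → ℕ → ℝ → ℕ → Prop) (p : Pm) : Prop :=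
  ∀ σ σ' P t a a' Q m, Cx p σ σ' P t a a' Q m → ∀ x ∈ Set.Icc a a', ∀ k, p.jf < k → k ≤ p.Jp P →
    X p P t m x k

/-- root atom -/
def CoLo (L : ℝ) (p : Pm) : Prop := ∀ σ σ' P t a a' Q m, Cx p σ σ' P t a a' Q m →
  t * |c2lo (D0 p P t m a) (deriv p.bG t)| ≤ L * p.msG t 0

/-- local quadratic coefficient -/
def Co2 (L : ℝ) : Pm → Prop := Nds fun p P t m x k =>
  t * |c2 (D0 p P t m x) (fd p t) (deriv p.bG t) (k + 1)| ≤ L * p.msG t ((p.gst P t).s k)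

/-- local cubic coefficient -/
def Co3 (L : ℝ) : Pm → Prop := Nds fun p P t m x k =>
  t * |c3 (D0 p P t m x) (fd p t) (k + 1)| ≤ L * mt p t ((p.gst P t).s k)

/-- linear residual -/
def CoL (L : ℝ) : Pm → Prop := Nds fun p P t m x k =>
  t * |lin (D0 p P t m x) (fd p t) (sh (bq p P t)) (k + 1)| ≤
    L * (mt p t ((p.gst P t).s k) * p.r ^ 2 + p.muG t * |(p.gst P t).G k|)

/-- density, total mass, parity size -/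
def CoF (L : ℝ) : Pm → Prop := Nds fun p P t m x k =>
  t * |sv p t k| ≤ L * mt p t ((p.gst P t).s k) ∧ (2 * p.ye ≤ (p.gst P t).s k → sv p t k = 0) ∧
    t * R1J.n1 (D0 p P t m x).S (fd p t) ≤ L * p.muG t ∧
    min 1 ((p.gst P t).z k + (D0 p P t m x).sig (k + 1)) ≤ L * (p.gst P t).s k

/-- replicon coefficient and site link on the cavity list -/
def CoG (L : ℝ) : Pm → Prop := Nds fun p P t m x k =>
  |1 - (D0 p P t m x).τ (k + 1) * R1J.G (D0 p P t m x).S (k + 1)| ≤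
      L * max ((p.gst P t).s k) p.r ^ 2 ∧
    (D0 p P t m x).gq (k + 1) ≤ |(p.gst P t).G k| + L * ((p.gst P t).s k * p.r ^ 2 + 1 / p.n)

/-! ### the kit of a member -/

/-- `n^{-5/6} s⁵` and `n^{-2/3} s⁴` -/
def n5 (p : Pm) : ℝ := (p.n : ℝ) ^ (-(5 : ℝ) / 6) * p.s ^ 5
def n4 (p : Pm) : ℝ := (p.n : ℝ) ^ (-(2 : ℝ) / 3) * p.s ^ 4

/-- the scale of a member -/
structure ScG (E : ℝ) (p : Pm) (P : Pl) (t : ℝ) (S : Sc) : Prop where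
  cl : Cl S (p.gst P t)
  cei : Cei S (p.gst P t)
  C : S.C ≤ E
  n : S.n = p.n
  A : S.A = p.A
  v : S.v = p.v
  am : S.amax = p.am
  ms : S.ms = p.msG t
  j0 : S.j0 = p.jf
  jl : S.jl = p.jf
  J : S.J = p.J
  Jp : S.Jp = p.Jp P
  F : S.F = 1

/-- **the numbers**: loss `E`, gain `δ` -/
structure NR (E δ : ℝ) (p : Pm) (S : Sc) (M : Md) (l Φ : ℝ) (P : ℝ → ℝ) (l0 Λ₀ Pt u1 V4 : ℝ) :
    Prop where
  l3 : l ^ 3 = Φ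
  r0 : p.r ≤ l0
  jl : 8 * M.s S.jl ≤ l0
  l0l : l0 ≤ l
  ly : l ≤ δ * p.ye
  w0 : ∀ t, l0 / 8 ≤ t → t ≤ S.C → S.w3 t ≤ t ^ 3
  P0 : ∀ t, 0 ≤ P t ∧ P t ≤ Φ
  Plo : ∀ t, t ≤ l → P t = Φ
  L1 : 1 ≤ Λ₀
  Pt0 : 0 ≤ u1 ∧ u1 ≤ Pt ∧ Pt ≤ Φ ∧ u1 ≤ V4
  a : S.ms l0 * Φ ≤ δ * n5 p
  b : ∀ t, l0 ≤ t → t ≤ T0 S M → S.ms t * P t * max t l ^ 3 / t ^ 4 ≤ δ ^ 2 * n4 p
  c : S.θ * Λ₀ * (Pt + V4 + p.r ^ 4) ≤ δ ^ 2 * n4 p
  d : S.θ * V4 ≤ δ * n5 p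
  e : l ^ 2 / (p.n * l0 ^ 3) + Λ₀ / p.n ≤ δ * n5 p
  f : ∀ t, l0 ≤ t → t ≤ T0 S M → S.ms t * p.r ^ 4 * max t l / t ^ 3 ≤ δ ^ 2 * n4 p
  i : ∀ t, l0 ≤ t → t ≤ T0 S M → S.θ * Λ₀ * (t * P t) ≤ δ ^ 2 * n4 p
  j : ∀ t, l0 ≤ t → t ≤ T0 S M → Λ₀ * S.ms t ^ 2 * P t / t ≤ S.θ * (δ ^ 2 * n4 p)
  k : ∀ t, l0 ≤ t → t ≤ T0 S M → t * max t l * S.θ ≤ E * S.ms t
  l5 : S.θ * l ^ 5 ≤ δ * n5 p
  n : S.θ * Φ ^ 2 ≤ Λ₀ * p.s ^ 6 / p.n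

/-- **the moments** at one size and one root tilt -/
structure BK (E : ℝ) (S : Sc) (M : Md) (m : ℕ) (a l Φ : ℝ) (P : ℝ → ℝ) (l0 Λ₀ Pt u1 V4 : ℝ)
    (G : ℕ → ℝ) : Prop where
  fn : C33.Fn S M m a
  mk' : MK S M 8 E m a l Φ P l0 Λ₀ Pt u1 V4 G
  cru : Crude E S M m a l S.jl
  low : ∀ k ≤ M.N, M.E2 m a (fun R => R ^ 16) k ≤ (E * max (M.z k) l) ^ 16
  pfb : ∀ t, l0 ≤ t → t ≤ T0 S M →
    ∑ k ∈ sb S M t (2 * t), M.dz m a k * M.pf m a k ≤ E * S.w3 t * max t l / t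
  pft : ∑ k ∈ tz S M u1, M.dz m a k * M.pf m a k ≤ E * Λ₀ * S.w3 1
  gsq : ∑ k ∈ Ioo S.jl M.N \ (Ico S.J M.N \ pl S M u1), M.dz m a k * (M.G k ^ 2 * ja M m a 0 k) ≤
    E * S.θ ^ 2 * Λ₀ * S.w3 1 * Pt
  gup : ∀ k, S.jl < k → k ≤ S.Jp → |M.G k| ≤ E * S.θ
  glo : ∀ k, S.jl < k → M.s k ≤ 1 / E → M.G k = 0
  g2 : ∑ k ∈ Ioo S.jl M.N, M.dz m a k * M.G k ^ 2 ≤ E * S.θ ^ 2 * Pt

/-- **the kit**: loss `E`, gain `E ^ (-200)` -/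
def Kit (E : ℝ) (p : Pm) : Prop := ∀ σ t P, p.OctR σ t → p.PlG (p.muG σ) P →
  ∃ (S : Sc) (l Φ : ℝ) (Pf : ℝ → ℝ) (l0 Λ₀ Pt u1 V4 : ℝ), ScG E p P t S ∧
    NR E (1 / E ^ 200) p S (p.gst P t) l Φ Pf l0 Λ₀ Pt u1 V4 ∧
    ∀ m a, S.In m a → ∃ G, BK E S (p.gst P t) m a l Φ Pf l0 Λ₀ Pt u1 V4 G

/-- all coefficients -/
def Co (L : ℝ) (p : Pm) : Prop := CoLo L p ∧ Co2 L p ∧ Co3 L p ∧ CoL L p ∧ CoF L p ∧ CoG L p

/-- a budget of `R1Top_77` from the two inputs -/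
def From (X : ℝ → Pm → Prop) : Prop :=
  ∀ β : ℝ, 1 < β → Sml β Co → Sml β Kit → Gain β X


end Crest.Agent.T156.Alt.R82

end
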