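import Crest.Agent.T156.QCas_98
import Crest.Agent.T156.Eg_33
import Crest.Agent.T156.LpT_43
import Crest.Agent.T156.LpC_12
import Crest.Agent.T156.CInB_12
import Crest.Agent.T156.ErrL_35
import Crest.Agent.T156.Cost_41
import Crest.Agent.T156.QCl_33

-- ▼ part T156/CLf_24
section

/-!
# Row 156, inputs of block C: `L^p` bound of the leaf part `∑ μ_t m_t · (s - m_t)` (helper24)
-/

set_option autoImplicit false

noncomputable section

namespace Crest.Agent.T156.Cas.Lf24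

open MeasureTheory Real Finset
open Crest.Agent.T157.E Crest.Agent.T157.Casc Crest.Agent.T157.SL
open Crest.Agent.T156.Cas.Sy41 Crest.Agent.T156.Cas.Lp12 Crest.Agent.T156.Cas.QCas98
open Crest.Agent.T156.Cas.LpR43 (cK Mk)

variable {Ω : Type}



variable [Fintype Ω] {w : Ω → ℝ}

/-- expectation over the path and the leaf -/
def EL (w : Ω → ℝ) (L : List (Lv Ω)) (h : Ω → ℝ) (F : Pth Ω → Ω → ℝ) : ℝ :=
  EE w L h fun p => Pf w (L.drop L.length) (p L.length) (F p)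

/-- admissible functions of the path and the leaf -/
def EQ (F : Pth Ω → Ω → ℝ) : Prop := ∀ s, EP fun p => F p s

section el
variable (hw : Wt w) (L : List (Lv Ω)) (h : Ω → ℝ) {F G : Pth Ω → Ω → ℝ}
include hw


theorem EL_mono (hF : EQ F) (hG : EQ G) (e : ∀ p s, F p s ≤ G p s) : EL w L h F ≤ EL w L h G :=
  EE_mono hw L h (LpR43.ep_Pf hw _ _ hF) (LpR43.ep_Pf hw _ _ hG) fun p =>
    sum_le_sum fun s _ => mul_le_mul_of_nonneg_left (e p s) (P_nonneg hw _ _ s)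

theorem EL_path (F : Pth Ω → ℝ) : EL w L h (fun p _ => F p) = EE w L h F := by
  simp only [EL, Pf, ← sum_mul, sum_P hw, one_mul]

theorem EL_add (hF : EQ F) (hG : EQ G) :
    EL w L h (fun p s => F p s + G p s) = EL w L h F + EL w L h G := by
  rw [EL, EL, EL, ← EE_add hw L h (LpR43.ep_Pf hw _ _ hF) (LpR43.ep_Pf hw _ _ hG)]
  simp only [Pf, mul_add, sum_add_distrib]





end el

variable {L : List (Lv Ω)} {h : Ω → ℝ} {l₀ : Lv Ω} {τ : ℕ → ℝ}

/-- `η · (s - m_t)` -/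
def Xi (w : Ω → ℝ) (L : List (Lv Ω)) (l₀ : Lv Ω) (t : ℕ) (η : Pth Ω → l₀.ι → ℝ) (p : Pth Ω)
    (s : Ω) : ℝ := l₀.fld (η p) s - Pf w (L.drop t) (p t) (l₀.fld (η p))







/-! ### the dyadic decomposition on a block -/

/-- `m_j` along the path -/
def mP (w : Ω → ℝ) (L : List (Lv Ω)) (l₀ : Lv Ω) (j : ℕ) (p : Pth Ω) (i : l₀.ι) : ℝ :=
  mv w (L.drop j) l₀ (p j) i

/-- **the leaf part** `m_t · (s - m_t)` -/
def pi (w : Ω → ℝ) (L : List (Lv Ω)) (l₀ : Lv Ω) (t : ℕ) : Pth Ω → Ω → ℝ :=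
  Xi w L l₀ t (mP w L l₀ t)









omit [Fintype Ω] in
theorem sum_grid {f : ℕ → ℝ} (f0 : ∀ y, 0 ≤ f y) {e : ℕ} (he : 0 < e) (len : ℕ) :
    ∑ y ∈ range len, f y ≤ ∑ r ∈ range e, ∑ i ∈ range (len / e + 1), f (r + i * e) := by
  have key : ∀ N : ℕ, ∑ y ∈ range (N * e), f y = ∑ i ∈ range N, ∑ r ∈ range e, f (r + i * e) := by
    intro N
    induction N with
    | zero => simp
    | succ N ih => rw [Nat.succ_mul, sum_range_add, ih, sum_range_succ]; simp only [add_comm]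
  rw [sum_comm, ← key]
  refine sum_le_sum_of_subset_of_nonneg (range_mono ?_) fun y _ _ => f0 y
  have := Nat.lt_div_mul_add (a := len) he
  rw [Nat.succ_mul]; omega

/-- `L^k` bound of the increments on `[lo, hi]`, affine in the distance -/
def Inc (w : Ω → ℝ) (L : List (Lv Ω)) (h : Ω → ℝ) (l₀ : Lv Ω) (k lo hi : ℕ) (ρ c : ℝ) : Prop :=
  ∀ i j, lo ≤ i → i ≤ j → j ≤ hi → Mo w L h k (iP w L l₀ i j) (ρ + c * ((j - i : ℕ) : ℝ))

/-- increments of length `e` summed over `len` starting points -/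
theorem Inc.sum (hw : Wt w) {k lo hi β e len : ℕ} {ρ c : ℝ} (H : Inc w L h l₀ k lo hi ρ c)
    (hk : k ≠ 0) (ρ0 : 0 ≤ ρ) (c0 : 0 ≤ c) (he : 0 < e) (h0 : lo ≤ β) (h1 : β + len + 2 * e ≤ hi + 1) :
    Mo w L h k (fun p => ∑ y ∈ range len, iP w L l₀ (β + y) (β + y + e) p)
      (e * (17 * k * (ρ + 2 * c * len))) := by
  have k1 : (1 : ℝ) ≤ k := by exact_mod_cast Nat.one_le_iff_ne_zero.2 hk
  have ep := EP.sum (range len) fun y _ => ep_iP (L := L) (l₀ := l₀) hw (β + y) (β + y + e)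
  have i0 : ∀ i j p, 0 ≤ iP w L l₀ i j p := fun i j p => sum_nonneg fun _ _ => sq_nonneg _
  rcases le_total e len with hl | hl
  · have hd := Nat.div_mul_le_self len e
    have m1 : ∀ r ∈ range e, Mo w L h k (fun p => ∑ i ∈ range (len / e + 1),
        iP w L l₀ (β + (r + i * e)) (β + (r + i * e) + e) p) (17 * k * (ρ + 2 * c * len)) := by
      intro r hr
      have hr := mem_range.1 hr
      have h2 := H (β + (r + 0 * e)) (β + (r + (len / e + 1) * e)) (by omega)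
        (by rw [Nat.succ_mul]; omega) (by rw [Nat.succ_mul]; omega)
      have h3 := mo_qv hw l₀ (t := fun i => β + (r + i * e))
        (fun i j hij => by have := Nat.mul_le_mul_right e hij; beta_reduce; omega) hk h2
      refine (h3.congr fun p => sum_congr rfl fun i _ => ?_).mono ?_
      · rw [show β + (r + (i + 1) * e) = β + (r + i * e) + e by rw [Nat.succ_mul]; omega]; rfl
      · have : ((β + (r + (len / e + 1) * e) - (β + (r + 0 * e)) : ℕ) : ℝ) ≤ 2 * len := by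
          exact_mod_cast (by rw [Nat.succ_mul]; omega :
            β + (r + (len / e + 1) * e) - (β + (r + 0 * e)) ≤ 2 * len)
        nlinarith [mul_le_mul_of_nonneg_left this c0]
    refine ((Mo.sum hw (range e) m1).of_le' hw ep fun p => ?_).mono (by simp)
    rw [abs_of_nonneg (sum_nonneg fun _ _ => i0 _ _ p)]
    exact sum_grid (f := fun y => iP w L l₀ (β + y) (β + y + e) p) (fun _ => i0 _ _ p) he len
  · refine (Mo.sum hw (range len) (B := fun _ => ρ + c * e) fun y hy => ?_).mono ?_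
    · have := mem_range.1 hy
      simpa using H (β + y) (β + y + e) (by omega) (by omega) (by omega)
    · have h2 : (len : ℝ) ≤ e := by exact_mod_cast hl
      have h3 : (0 : ℝ) ≤ len := Nat.cast_nonneg _
      rw [sum_const, card_range, nsmul_eq_mul]
      have h4 : 0 ≤ e * (ρ + 2 * c * len) := by positivity
      nlinarith [mul_le_mul_of_nonneg_right h2 ρ0, mul_nonneg (mul_nonneg c0 h3) (h3.trans h2)]



/-! ### envelopes -/

/-- `E (|Y| - F)₊ ≤ tl` -/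
structure Ex (w : Ω → ℝ) (L : List (Lv Ω)) (h : Ω → ℝ) (Y : Pth Ω → Ω → ℝ) (F tl : ℝ) : Prop where
  eq : EQ Y
  le : EL w L h (fun p s => max (|Y p s| - F) 0) ≤ tl

namespace Ex
variable {Y Y' : Pth Ω → Ω → ℝ} {F F' tl tl' : ℝ}

theorem eqm (hY : EQ Y) (F : ℝ) : EQ fun p s => max (|Y p s| - F) 0 := fun s =>
  ((hY s).abs.sub (EP.const _)).max (EP.const 0)

theorem of_le (hw : Wt w) (H : Ex w L h Y F tl) (hY : EQ Y') (e : ∀ p s, |Y' p s| ≤ |Y p s|)
    (hF : F ≤ F') (ht : tl ≤ tl') : Ex w L h Y' F' tl' :=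
  ⟨hY, (EL_mono hw L h (eqm hY _) (eqm H.eq _) fun p s =>
    max_le_max (by linarith [e p s]) le_rfl).trans (H.le.trans ht)⟩

theorem mono (hw : Wt w) (H : Ex w L h Y F tl) (hF : F ≤ F') (ht : tl ≤ tl') : Ex w L h Y F' tl' :=
  H.of_le hw H.eq (fun _ _ => le_rfl) hF ht

theorem congr (H : Ex w L h Y F tl) (e : ∀ p s, Y' p s = Y p s) : Ex w L h Y' F tl := by
  rwa [show Y' = Y from funext fun p => funext (e p)]

theorem zero (hw : Wt w) : Ex w L h (fun _ _ => 0) 0 0 :=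
  ⟨fun _ => EP.const 0, by simp only [abs_zero, sub_self, max_self]; rw [EL_path hw, EE_const hw]⟩

theorem add (hw : Wt w) (H : Ex w L h Y F tl) (H' : Ex w L h Y' F' tl') :
    Ex w L h (fun p s => Y p s + Y' p s) (F + F') (tl + tl') := by
  have e : EQ fun p s => Y p s + Y' p s := fun s => (H.eq s).add (H'.eq s)
  refine ⟨e, (EL_mono hw L h (eqm e _) (fun s => (eqm H.eq F s).add (eqm H'.eq F' s))
    fun p s => ?_).trans ?_⟩
  · have := abs_add_le (Y p s) (Y' p s)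
    have h1 := le_max_left (|Y p s| - F) 0
    have h2 := le_max_left (|Y' p s| - F') 0
    exact max_le (by linarith) (add_nonneg (le_max_right _ _) (le_max_right _ _))
  · rw [EL_add hw L h (eqm H.eq F) (eqm H'.eq F')]
    exact add_le_add H.le H'.le

theorem sum (hw : Wt w) {κ : Type*} (S : Finset κ) {Y : κ → Pth Ω → Ω → ℝ} {F tl : κ → ℝ}
    (H : ∀ k ∈ S, Ex w L h (Y k) (F k) (tl k)) :
    Ex w L h (fun p s => ∑ k ∈ S, Y k p s) (∑ k ∈ S, F k) (∑ k ∈ S, tl k) := by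
  classical
  induction S using Finset.induction_on with
  | empty => simpa using zero hw
  | insert k S hk ih =>
    simp only [sum_insert hk]
    exact (H k (mem_insert_self _ _)).add hw (ih fun j hj => H j (mem_insert_of_mem hj))





end Ex



/-! ### increments from locations -/





end Crest.Agent.T156.Cas.Lf24

end
end

-- ▼ part T156/CLfB_24

/-!
# Row 156, block C: block data from a majorant of the weights per unit of field (helper24)

`Mj` = hypotheses of `Cost41.cost`; it bounds `∑ c a`, `∑ c v(k,k)`, `∑_{y<k} dz v(y,k)`.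
`AddP` = additive variance bound in profile indices.
-/

set_option autoImplicit false
set_option linter.unusedSectionVars false

noncomputable section

namespace Crest.Agent.T156.Alt.Lb24

open MeasureTheory Real Finset
open Crest.Agent.T157.E Crest.Agent.T157.Casc Crest.Agent.T157.SL
open Crest.Agent.T156.Cas Crest.Agent.T156.Cas.Sy41 Crest.Agent.T156.Cas.Q33
open Crest.Agent.T156.Cas.Lp12 Crest.Agent.T156.Cas.C40
open Crest.Agent.T156.Alt.Md67 Crest.Agent.T156.Alt.Cost41 Crest.Agent.T156.Alt.CIn12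

/-- `E tr C²` at the profile node `k` -/
def tcM (M : Md) (m : ℕ) (a : ℝ) (k : ℕ) : ℝ := tc (fun _ => 1) (M.L m a) (sl m) 0 (k + 1)
/-- `E V` at the profile node `k` -/
def vvM (M : Md) (m : ℕ) (a : ℝ) (k : ℕ) : ℝ := vv (fun _ => 1) (M.L m a) (sl m) 0 (k + 1)
/-- `v (y, k)` in profile indices -/
def vP (M : Md) (m : ℕ) (a : ℝ) (y k : ℕ) : ℝ :=
  Eg33.vt (fun _ => 1) (M.L m a) (sl m) 0 (y + 1) (k + 1)
/-- `E (ρ_k - rb_k)²` -/
def vrM (M : Md) (m : ℕ) (a : ℝ) (k : ℕ) : ℝ :=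
  node (fun _ => 1) (M.L m a) (k + 1)
    (fun z => (rr (fun _ => 1) ((M.L m a).drop (k + 1)) (sl m) z - M.rb m a k) ^ 2) 0

variable {M : Md} {m : ℕ} {a : ℝ}

theorem tcM_nn (k : ℕ) : 0 ≤ tcM M m a k := tc_nonneg _ _ _ _
theorem vvM_nn (k : ℕ) : 0 ≤ vvM M m a k := vv_nonneg Link33.wt1 _ _ _ _
theorem vP_nn (y k : ℕ) : 0 ≤ vP M m a y k := Eg33.vt_nonneg Link33.wt1 _ _ _ _ _
theorem vrM_nn (k : ℕ) : 0 ≤ vrM M m a k := node_nonneg _ (fun _ => sq_nonneg _) _ _ _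

theorem vP_near {y k : ℕ} (h : y ≤ k) : vP M m a y k ≤ tcM M m a y + vvM M m a y :=
  Eg33.vt_near Link33.wt1 _ _ _ (Nat.succ_le_succ h)

/-- pair = node + `tc` + `2 vv` -/
theorem E2_split (hm : 0 < m) (c : ℝ) (k : ℕ) : M.E2 m a (fun R => (R - c) ^ 2) k =
    tcM M m a k + 2 * vvM M m a k + node (fun _ => 1) (M.L m a) (k + 1)
      (fun z => (rr (fun _ => 1) ((M.L m a).drop (k + 1)) (sl m) z - c) ^ 2) 0 := by
  have := pi2_sq Link33.wt1 (M.L m a) (sl m) 0 (k + 1) c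
  simp only [sl_cov hm] at this
  exact this

/-- crude bounds from a second moment -/
theorem crude (hm : 0 < m) {c u : ℝ} {k : ℕ} (h : M.E2 m a (fun R => (R - c) ^ 2) k ≤ u) :
    tcM M m a k + 2 * vvM M m a k + vrM M m a k ≤ u := by
  refine le_trans ?_ h
  have e := E2_split (M := M) (a := a) hm (M.rb m a k) k
  rw [vrM, ← e, E2_sq_expand, E2_sq_expand]
  nlinarith [sq_nonneg (c - M.rb m a k)]

theorem crude0 (hm : 0 < m) {u : ℝ} {k : ℕ} (h : M.E2 m a (fun R => R ^ 2) k ≤ u) :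
    tcM M m a k + 2 * vvM M m a k + vrM M m a k ≤ u :=
  crude hm (c := 0) (by simpa only [sub_zero] using h)

theorem crude1 (hm : 0 < m) (k : ℕ) : tcM M m a k + 2 * vvM M m a k + vrM M m a k ≤ 1 :=
  crude0 hm (E2_le (fun r hr => by rw [← sq_abs]; exact pow_le_one₀ (abs_nonneg r) hr) k)

theorem vP_crude (hm : 0 < m) {c u : ℝ} {y k : ℕ} (hk : y ≤ k)
    (h : M.E2 m a (fun R => (R - c) ^ 2) y ≤ u) : vP M m a y k ≤ u := by
  linarith [vP_near (M := M) (m := m) (a := a) hk, crude hm h, vvM_nn (M := M) (m := m) (a := a) y,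
    vrM_nn (M := M) (m := m) (a := a) y]

theorem vP_le_one (hm : 0 < m) {y k : ℕ} (hk : y ≤ k) : vP M m a y k ≤ 1 := by
  linarith [vP_near (M := M) (m := m) (a := a) hk, crude1 (M := M) (a := a) hm y,
    vvM_nn (M := M) (m := m) (a := a) y, vrM_nn (M := M) (m := m) (a := a) y]

theorem vv_aa (G : Lg M m a) (k : ℕ) : M.z k * vvM M m a k ≤ aM M m a k :=
  vv_le Link33.wt1 G.monoL _ _ (ex_succ G.toLeg k).ge

/-- the budget of `tr C²` at one node -/
theorem tc_node (G : Lg M m a) {k : ℕ} (hk : k < M.N) :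
    (M.H (k + 1) - M.H k) * m * (M.z k ^ 2 * tcM M m a k) ≤
      (2 + 2 * ((M.H (k + 1) - M.H k) * m)) * (M.rb m a (k + 1) - M.rb m a k) := by
  have h1 := G.dt.ta_le 0 (j := k + 1) (by rw [len_L]; omega)
  have h2 := tc_le Link33.wt1 G.monoL (sl m) 0 (G.a0.trans (G.z0.trans (G.zm (Nat.zero_le k))))
    (ex_succ (m := m) (a := a) G.toLeg k).ge
  rw [dh_succ hk, mul_one, ← rb_eq (sl_cov G.m0), ← rb_eq (sl_cov G.m0)] at h1
  exact (mul_le_mul_of_nonneg_left h2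
    (mul_nonneg (dH_nonneg G.toLeg k) (Nat.cast_nonneg m))).trans h1

/-- **majorant data**: weights `c ≤ cm` on `(j0, N]`, majorant `W` per unit of field, tilt `≥ x`,
`R ≥` rises of `rb` against `W` -/
structure Mj (M : Md) (m : ℕ) (a : ℝ) (c W : ℕ → ℝ) (σ cm x R : ℝ) (j0 N D : ℕ) : Prop where
  σ0 : 0 < σ
  le : j0 ≤ N
  hN : N < M.N
  hΦ : ∀ i, j0 ≤ i → i ≤ N → σ ≤ M.z i * (M.H (i + 1) - M.H i)
  hD : Phi M N - Phi M j0 ≤ 2 ^ D * σ
  c0 : ∀ k, j0 < k → k ≤ N → 0 ≤ c k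
  cm0 : 0 ≤ cm
  c1 : ∀ k, j0 < k → k ≤ N → c k ≤ cm
  W0 : ∀ j, j0 ≤ j → j ≤ N + 1 → 0 ≤ W j
  hW : ∀ j k, j0 ≤ j → j < k → k ≤ N → ∑ i ∈ Ioc j k, c i ≤ W j * (Phi M k - Phi M j)
  hW' : ∀ k, j0 < k → k ≤ N → c k ≤ W (k + 1) * (M.z k * (M.H (k + 1) - M.H k))
  x0 : 0 < x
  hx : x ≤ M.z j0
  rw : RW (M.rb m a) W j0 (N + 1) ≤ R

/-- the bound -/
def bb (D m : ℕ) (R cm x : ℝ) : ℝ := (D + 2) * (2 / m * ((1 + D) * R) + cm / x)

namespace Mj

variable {c W : ℕ → ℝ} {σ cm x R : ℝ} {j0 N D : ℕ} (G : Lg M m a)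
  (H : Mj M m a c W σ cm x R j0 N D)
include G H

theorem rise_nn : 0 ≤ M.rb m a j0 * W j0 :=
  mul_nonneg (rb_nonneg G.m0 _) (H.W0 _ le_rfl (by have := H.le; omega))

theorem top_nn : 0 ≤ (M.rb m a (N + 1) - M.rb m a N) * W (N + 1) :=
  mul_nonneg (sub_nonneg.2 (rb_mono G.m0 N.le_succ)) (H.W0 _ (by have := H.le; omega) le_rfl)

theorem rw' : RW (M.rb m a) W j0 N ≤ R := by
  have := H.rw
  rw [RW_split _ _ H.le N.le_succ, Nat.Ioc_succ_singleton, sum_singleton, Nat.add_sub_cancel] at this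
  linarith [H.top_nn G]

theorem R0 : 0 ≤ R := le_trans (add_nonneg (H.rise_nn G) (sum_nonneg fun j hj => mul_nonneg
  (sub_nonneg.2 (rb_mono G.m0 (Nat.sub_le _ _)))
    (H.W0 j (mem_Ioc.1 hj).1.le (mem_Ioc.1 hj).2))) H.rw

theorem x1 : x ≤ 1 := H.hx.trans (G.z1 _)

theorem bb_nn : 0 ≤ bb D m R cm x := by
  have := H.R0 G
  have := H.cm0
  have := H.x0
  unfold bb
  positivity

/-- **Riccati sum** -/
theorem aa : ∑ k ∈ Ioc j0 N, c k * aM M m a k ≤ bb D m R cm x := by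
  refine (cost G H.σ0 H.le H.hN.le (fun i h1 h2 => H.hΦ i h1 h2.le) H.hD H.c0 H.cm0 H.c1
    (fun j h1 h2 => H.W0 j h1 (by omega)) H.hW).trans ?_
  have := H.rw' G
  have := le_div_self H.cm0 H.x0 (H.x1 G)
  unfold bb
  gcongr

theorem vv : x * ∑ k ∈ Ioc j0 N, c k * vvM M m a k ≤ bb D m R cm x := by
  refine le_trans ?_ (H.aa G)
  rw [mul_sum]
  refine sum_le_sum fun k hk => ?_
  obtain ⟨h1, h2⟩ := mem_Ioc.1 hk
  rw [mul_left_comm]
  exact mul_le_mul_of_nonneg_left ((mul_le_mul_of_nonneg_right (H.hx.trans (G.zm h1.le))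
    (vvM_nn k)).trans (vv_aa G k)) (H.c0 k h1 h2)

theorem tc : x * ∑ k ∈ Ioc j0 N, c k * tcM M m a k ≤ bb D m R cm x := by
  have m0 : (0 : ℝ) < m := Nat.cast_pos.2 G.m0
  have x0 := H.x0
  have cm0 := H.cm0
  have R0 := H.R0 G
  have t : ∀ k ∈ Ioc j0 N, x * (c k * tcM M m a k) ≤ 2 / m * ((M.rb m a (k + 1) - M.rb m a k) *
      W (k + 1)) + 2 * (cm / x) * (M.rb m a (k + 1) - M.rb m a k) := fun k hk => by
    obtain ⟨h1, h2⟩ := mem_Ioc.1 hk
    have zx := H.hx.trans (G.zm h1.le)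
    have z0 := x0.trans_le zx
    have d0 : 0 < M.H (k + 1) - M.H k :=
      pos_of_mul_pos_left (H.σ0.trans_le (H.hΦ k h1.le h2) |>.trans_eq (mul_comm _ _)) z0.le
        |> fun h => h
    have r0 : 0 ≤ M.rb m a (k + 1) - M.rb m a k := sub_nonneg.2 (rb_mono G.m0 k.le_succ)
    have e := tc_node G (h2.trans_lt H.hN)
    have c0 := H.c0 k h1 h2
    have t0 := tcM_nn (M := M) (m := m) (a := a) k
    set δ := M.H (k + 1) - M.H k
    set r := M.rb m a (k + 1) - M.rb m a k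
    have e1 : M.z k * tcM M m a k ≤ 2 / m * r / (M.z k * δ) + 2 / M.z k * r := by
      rw [← mul_le_mul_iff_right₀ (show 0 < δ * m * M.z k by positivity)]
      refine le_trans (le_of_eq (by ring)) (e.trans_eq ?_)
      field_simp
    have e2 : c k / (M.z k * δ) ≤ W (k + 1) := by
      rw [div_le_iff₀ (by positivity)]; exact H.hW' k h1 h2
    have e3 : c k / M.z k ≤ cm / x := div_le_div₀ cm0 (H.c1 k h1 h2) x0 zx
    calc x * (c k * tcM M m a k) ≤ c k * (M.z k * tcM M m a k) := by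
          rw [mul_left_comm]; gcongr
      _ ≤ c k * (2 / m * r / (M.z k * δ) + 2 / M.z k * r) := by gcongr
      _ = 2 / m * (r * (c k / (M.z k * δ))) + 2 * (c k / M.z k) * r := by ring
      _ ≤ _ := by gcongr
  rw [mul_sum]
  refine (sum_le_sum t).trans ?_
  rw [sum_add_distrib, ← mul_sum, ← mul_sum]
  have s1 : ∑ k ∈ Ioc j0 N, (M.rb m a (k + 1) - M.rb m a k) * W (k + 1) ≤ R := by
    have := H.rw
    rw [RW_split _ _ (j1 := j0 + 1) j0.le_succ (by have := H.le; omega), ← map_add_right_Ioc,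
      sum_map] at this
    simp only [addRightEmbedding_apply, Nat.add_sub_cancel] at this
    refine le_trans (le_add_of_nonneg_left (add_nonneg (H.rise_nn G) (sum_nonneg fun j hj =>
      mul_nonneg (sub_nonneg.2 (rb_mono G.m0 (Nat.sub_le _ _))) (H.W0 j (mem_Ioc.1 hj).1.le
        (by have := H.le; have := (mem_Ioc.1 hj).2; omega))))) this
  have s2 : ∑ k ∈ Ioc j0 N, (M.rb m a (k + 1) - M.rb m a k) ≤ 1 := by
    have := tele (fun k => M.rb m a (k + 1)) H.le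
    rw [sum_congr rfl fun k hk => by
      rw [show k - 1 + 1 = k by have := (mem_Ioc.1 hk).1; omega]] at this
    linarith [rb_le_one (M := M) (a := a) G.m0 (N + 1), rb_nonneg (M := M) (a := a) G.m0 (j0 + 1)]
  have D0 : (0 : ℝ) ≤ D := Nat.cast_nonneg D
  calc _ ≤ 2 / m * R + 2 * (cm / x) * 1 := by gcongr
    _ ≤ 2 * (2 / m * ((1 + D) * R) + cm / x) := by
        have : 0 ≤ 2 / m * R := by positivity
        have : 0 ≤ 2 / m * (D * R) := by positivity
        linarith [show 2 / m * ((1 + D) * R) = 2 / m * R + 2 / m * (D * R) by ring]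
    _ ≤ _ := by unfold bb; gcongr; linarith

/-- **diagonal sum** -/
theorem dia : x * ∑ k ∈ Ioc j0 N, c k * vP M m a k k ≤ 2 * bb D m R cm x := by
  have : ∑ k ∈ Ioc j0 N, c k * vP M m a k k ≤ ∑ k ∈ Ioc j0 N, c k * tcM M m a k +
      ∑ k ∈ Ioc j0 N, c k * vvM M m a k := by
    rw [← sum_add_distrib]
    exact sum_le_sum fun k hk => by
      rw [← mul_add]
      exact mul_le_mul_of_nonneg_left (vP_near le_rfl) (H.c0 k (mem_Ioc.1 hk).1 (mem_Ioc.1 hk).2)
  nlinarith [H.vv G, H.tc G, mul_le_mul_of_nonneg_left this H.x0.le]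

end Mj

/-- **ladder sum** below the node `k`, cut at `u` -/
theorem lad_of (G : Lg M m a) {u k : ℕ} (hu : u ≤ k) (hk : k ≤ M.N) {x S μ X T : ℝ} (x0 : 0 < x)
    (hx : x ≤ M.z k) (S0 : 0 < S) (hS : S ≤ Phi M k - Phi M u) (μ0 : 0 < μ)
    (hμ : μ ≤ ∑ y ∈ Ico u k, M.dz m a y) (hX : ∑ y ∈ range u, M.dz m a y ≤ X)
    (h1 : ∑ y ∈ Ico u k, M.dz m a y * tcM M m a y ≤ T)
    (h2 : ∑ y ∈ Ico u k, M.dz m a y * vvM M m a y ≤ T) :
    ∑ y ∈ range k, M.dz m a y * vP M m a y k ≤ X * (M.rb m a k / (x * (S * m))) + (2 + X / μ) * T := by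
  have m0 : (0 : ℝ) < m := Nat.cast_pos.2 G.m0
  have X0 : 0 ≤ X := (sum_nonneg fun y _ => G.dz_nonneg y).trans hX
  have := Eg33.vv_sum G.dt 0 (b := 1) (t := u + 1) (j := k + 1) (by omega) (by omega)
    (by rw [len_L]; omega) x0 (hx.trans (ex_succ G.toLeg k).ge) (S := S * m) (by positivity)
    (by
      refine (mul_le_mul_of_nonneg_right hS m0.le).trans_eq ?_
      rw [Phi_sub M hu, ← sum_Ico_add' _ _ _ 1, sum_mul]
      refine sum_congr rfl fun j hj => ?_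
      rw [ex_succ G.toLeg, dh_succ (by have := (mem_Ico.1 hj).2; omega)]
      ring)
    (c := dm (M.L m a) 0) (dm_nonneg G.monoL) (X := X) (by
      rw [← zero_add 1, ← sum_Ico_add' _ 0 u 1, ← range_eq_Ico]; exact hX) μ0
    (by rw [← sum_Ico_add' _ u k 1]; exact hμ)
  rw [← sum_Ico_add' _ u k 1, ← sum_Ico_add' _ u k 1, ← rb_eq (sl_cov G.m0),
    show Ico 1 (k + 1) = Ico (0 + 1) (k + 1) from rfl, ← sum_Ico_add' _ 0 k 1, ← range_eq_Ico] at this
  refine le_trans this ?_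
  have e := mul_le_mul_of_nonneg_left h1 (show 0 ≤ 1 + X / μ by positivity)
  simp only [dm_succ] at this ⊢
  unfold tcM at e
  unfold vvM at h2
  linarith

/-! ### additive variance bounds -/

/-- additive bound in profile indices -/
def AddP (M : Md) (m : ℕ) (a : ℝ) (J : ℕ) (A : ℕ → ℝ) : Prop := (∀ k, 0 ≤ A k) ∧
  ∀ T ⊆ Ico J M.N, ∀ φ : ℕ → ℝ,
    2 * PE M m a (fun g _ => cen M m a T (fun t => M.dz m a t * φ t) (pth M m a g) ^ 2) +
      2 * PE M m a (fun g x => lfp M m a T (fun t => M.dz m a t * φ t) g x ^ 2) ≤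
      ∑ k ∈ T, M.dz m a k * (φ k ^ 2 * A k)

variable {ρ : ℕ → ℝ} {J : ℕ} {W : Option (ℕ → ℝ)} {E : Ev}

theorem cs (G : Lg M m a) (T : Finset ℕ) (φ Y : ℕ → ℝ) : (∑ k ∈ T, M.dz m a k * φ k * Y k) ^ 2 ≤
    Om M m a T * ∑ k ∈ T, M.dz m a k * (φ k ^ 2 * M.z k) * Y k ^ 2 := by
  refine sum_sq_le_sum_mul_sum_of_sq_le_mul T
    (fun k _ => div_nonneg (G.dz_nonneg k) (G.z_nonneg k))
    (fun k _ => by have := G.dz_nonneg k; have := G.z_nonneg k; positivity) fun k _ => ?_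
  rcases (G.z_nonneg k).eq_or_lt with h | h
  · have : M.dz m a k = 0 := le_antisymm (h ▸ dz_le_z G k) (G.dz_nonneg k)
    simp [this]
  · exact le_of_eq (by field_simp)

/-- crude additive bound -/
theorem var_cr (G : Lg M m a) (T : Finset ℕ) (φ : ℕ → ℝ) {u : ℕ → ℝ}
    (hu : ∀ k ∈ T, φ k ≠ 0 → ∃ c, M.E2 m a (fun R => (R - c) ^ 2) k ≤ u k) :
    2 * PE M m a (fun g _ => cen M m a T (fun t => M.dz m a t * φ t) (pth M m a g) ^ 2) +
      2 * PE M m a (fun g x => lfp M m a T (fun t => M.dz m a t * φ t) g x ^ 2) ≤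
      ∑ k ∈ T, M.dz m a k * (φ k ^ 2 * (2 * Om M m a T * M.z k * u k)) := by
  have e1 : ∀ k, Eg fun g => (M.rP m a k (pth M m a g) - M.rb m a k) ^ 2 := fun k =>
    (((QCas98.ep_rP Link33.wt1 _).sub (EP.const _)).pow 2).eg _ _
  have e2 := fun k x => (eg_piL (M := M) (m := m) (a := a) k x).pow 2
  have k1 := Eg33.pE_mono' Link33.wt1 (M.L m a) 0 (fun _ => (eg_cen T _).pow 2)
    (fun _ => (Eg.sum _ fun k _ => (e1 k).const_mul _).const_mul _) fun g _ => cs G T φ _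
  have k2 := Eg33.pE_mono' Link33.wt1 (M.L m a) 0 (fun x => (eg_lfp T _ x).pow 2)
    (fun x => (Eg.sum _ fun k _ => (e2 k x).const_mul _).const_mul _) fun g x => cs G T φ _
  rw [Pe.pE_const_mul, Eg33.pE_sum' Link33.wt1 _ _ _ fun k _ => (e1 k).const_mul _] at k1
  rw [Pe.pE_const_mul, Eg33.pE_sum' Link33.wt1 _ _ _ fun k x => (e2 k x).const_mul _] at k2
  simp only [Pe.pE_const_mul] at k1 k2
  refine (add_le_add (mul_le_mul_of_nonneg_left k1 zero_le_two)
    (mul_le_mul_of_nonneg_left k2 zero_le_two)).trans ?_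
  simp only [mul_sum, ← sum_add_distrib]
  refine sum_le_sum fun k hk => ?_
  rcases eq_or_ne (φ k) 0 with h | h
  · simp [h]
  obtain ⟨c, hc⟩ := hu k hk h
  have h1 := (node_sq G k c).trans hc
  have h2 := PE_nonneg (e2 k) fun _ _ => sq_nonneg _
  have p : 0 ≤ 2 * Om M m a T * (M.dz m a k * (φ k ^ 2 * M.z k)) := by
    have := Om_nonneg G T; have := G.dz_nonneg k; have := G.z_nonneg k; positivity
  have := mul_le_mul_of_nonneg_left (show _ + _ ≤ u k from le_trans (by linarith) h1 :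
    PE M m a (fun g _ => (M.rP m a k (pth M m a g) - M.rb m a k) ^ 2) +
      PE M m a (fun g x => piL M m a k g x ^ 2) ≤ u k) p
  unfold PE at this
  linarith

/-- the density: crude on `cr`, Riccati elsewhere -/
def AX (M : Md) (m : ℕ) (a : ℝ) (J : ℕ) (cr : ℕ → Bool) (u : ℕ → ℝ) (k : ℕ) : ℝ :=
  if cr k then 4 * Om M m a (Ico J M.N) * M.z k * u k
  else (16 + 4 * Om M m a (Ico J M.N)) * aM M m a k

theorem addP (G : Lg M m a) (cr : ℕ → Bool) {u : ℕ → ℝ} (u0 : ∀ k, 0 ≤ u k)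
    (hu : ∀ k, J ≤ k → k < M.N → cr k → ∃ c, M.E2 m a (fun R => (R - c) ^ 2) k ≤ u k) :
    AddP M m a J (AX M m a J cr u) := by
  have O0 := Om_nonneg G (Ico J M.N)
  refine ⟨fun k => ?_, fun T hT φ => ?_⟩
  · have := G.z_nonneg k
    have := u0 k
    have := aM_nonneg G k
    unfold AX
    split_ifs <;> positivity
  have h := var_add T _ _ (var_cr G T (fun k => if cr k then φ k else 0) (u := u)
    fun k hk h => hu k (mem_Ico.1 (hT hk)).1 (mem_Ico.1 (hT hk)).2 (by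
      by_contra e; exact h (if_neg e))) (var_both G hT fun k => if cr k then 0 else φ k)
  have e : (fun t => M.dz m a t * (if cr t then φ t else 0) + M.dz m a t *
      if cr t then 0 else φ t) = fun t => M.dz m a t * φ t :=
    funext fun t => by split_ifs <;> ring
  rw [e] at h
  refine h.trans ?_
  simp only [mul_sum, ← sum_add_distrib]
  refine sum_le_sum fun k _ => ?_
  unfold AX
  split_ifs
  · have := mul_le_mul_of_nonneg_right (Om_mono G hT) (show 0 ≤ M.dz m a k * φ k ^ 2 *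
      (M.z k * u k) by have := G.z_nonneg k; have := u0 k; have := G.dz_nonneg k; positivity)
    linarith
  · rw [AA_succ]
    exact le_of_eq (by unfold aE aM; ring)

theorem AddP.cd (hm : 0 < m) {A : ℕ → ℝ} (h : AddP M m a J A) :
    (cd M m a ρ J W E).Add (sh A) := by
  refine ⟨fun j => h.1 _, fun φ => ?_⟩
  have g1 := eg_cen (M := M) (m := m) (a := a) (Ico J M.N) fun t => M.dz m a t * φ (t + 1)
  have g2 := eg_lfp (M := M) (m := m) (a := a) (Ico J M.N) fun t => M.dz m a t * φ (t + 1)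
  have p1 := PE_nonneg (fun _ : Cube m => g1.pow 2) fun _ _ => sq_nonneg _
  have p2 := PE_nonneg (fun x => (g2 x).pow 2) fun _ _ => sq_nonneg _
  have H := h.2 _ (Subset.refl (Ico J M.N)) fun t => φ (t + 1)
  have vN : ∀ g : NI (M.L m a) → ℝ, ∑ t ∈ (CIn12.cd M m a ρ J W E).up,
      (CIn12.cd M m a ρ J W E).dx t * φ t *
      ((CIn12.cd M m a ρ J W E).nd t g - (CIn12.cd M m a ρ J W E).del t) =
      cen M m a (Ico J M.N) (fun t => M.dz m a t * φ (t + 1)) (pth M m a g) := fun g => by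
    rw [sum_up, cen]
    refine sum_congr rfl fun t ht => ?_
    obtain ⟨h1, h2⟩ := mem_Ico.1 ht
    rw [cd_dx, cd_nd a ρ W E hm h1 h2, cd_del m a ρ W E h1 h2]; ring
  have vL : ∀ (g : NI (M.L m a) → ℝ) (x : Cube m), ∑ t ∈ (CIn12.cd M m a ρ J W E).up,
      (CIn12.cd M m a ρ J W E).dx t * φ t *
        ((CIn12.cd M m a ρ J W E).lf t g x - (CIn12.cd M m a ρ J W E).del t) =
      cen M m a (Ico J M.N) (fun t => M.dz m a t * φ (t + 1)) (pth M m a g) +
        lfp M m a (Ico J M.N) (fun t => M.dz m a t * φ (t + 1)) g x := fun g x => by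
    rw [sum_up, cen, lfp, ← sum_add_distrib]
    refine sum_congr rfl fun t ht => ?_
    obtain ⟨h1, h2⟩ := mem_Ico.1 ht
    rw [cd_dx, cd_lf a ρ W E hm h1 h2, cd_del m a ρ W E h1 h2]; ring
  rw [cd_I]
  exact ⟨le_trans (le_of_eq (congrArg (PE M m a) (funext fun g => funext fun _ =>
      congrArg (· ^ 2) (vN g))))
      (((le_mul_of_one_le_left p1 one_le_two).trans
        (le_add_of_nonneg_right (mul_nonneg zero_le_two p2))).trans H),
    le_trans (le_of_eq (congrArg (PE M m a) (funext fun g => funext fun x =>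
      congrArg (· ^ 2) (vL g x))))
      ((PE_add_sq (fun _ => g1) g2).trans H)⟩

/-! ### block data in profile indices -/

/-- the nodes of the block `i` -/
abbrev bk (M : Md) (J : ℕ) (lev : ℕ → ℕ) (i : ℕ) : Finset ℕ := (Ico J M.N).filter (lev · = i)

/-- **block data** -/
structure BP (M : Md) (m : ℕ) (a : ℝ) (J B : ℕ) (lev : ℕ → ℕ) (t al A : ℕ → ℝ) : Prop where
  mono : Monotone lev
  lt : ∀ k, J ≤ k → k < M.N → lev k < B
  t0 : ∀ i, 0 < t i
  al0 : ∀ i, 0 ≤ al i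
  mass : ∀ i, ∑ k ∈ bk M J lev i, M.dz m a k ≤ t i
  dia : ∀ i, t i * ∑ k ∈ bk M J lev i, M.dz m a k * vP M m a k k ≤ al i ^ 2
  lad : ∀ k, J ≤ k → k < M.N → M.dz m a k ≠ 0 →
    t (lev k) * ∑ y ∈ range k, M.dz m a y * vP M m a y k ≤ al (lev k) ^ 2
  add : AddP M m a J A
  sA : ∀ i, ∑ k ∈ bk M J lev i, M.dz m a k * A k ≤ al i ^ 2

/-- the clock in profile indices -/
def dvP (M : Md) (m : ℕ) (a : ℝ) (ρ e : ℕ → ℝ) (J k : ℕ) : ℝ := if k ≤ J then e k else
  tp M m k * ρ k + M.H k - (tp M m (k - 1) * ρ (k - 1) + M.H (k - 1)) +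
    (tp M m k - tp M m (k - 1)) + M.dz m a (k - 1) + M.dz m a k

theorem cd_dv (h : M.Leg a) {k : ℕ} (hk : k < M.N) :
    (cd M m a ρ J W E).dv (k + 1) = dvP M m a ρ E.e J k := by
  unfold CD.dv dvP
  rw [cd_J]
  by_cases c : k ≤ J
  · rw [if_pos (by omega), if_pos c, cd_e]
  obtain ⟨k, rfl⟩ : ∃ j, k = j + 1 := ⟨k - 1, by omega⟩
  rw [if_neg (by omega), if_neg c]
  simp only [Nat.add_sub_cancel]
  rw [cd_sig m ρ W E h (by omega) hk, cd_sig m ρ W E h (by omega) (by omega),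
    cd_tau m a ρ W E hk.le, cd_tau m a ρ W E (by omega), cd_dx, cd_dx]

theorem Rf_nn (h : Rf M ρ) : ∀ k < M.N, 0 ≤ ρ k := fun k hk => by
  induction k with
  | zero => exact h.nn
  | succ k ih => exact (ih (by omega)).trans (h.mono k hk)

theorem dvP_nn (G : Lg M m a) (h : Rf M ρ) {e : ℕ → ℝ} {k : ℕ} (he : 0 ≤ e k) (hk : k < M.N) :
    0 ≤ dvP M m a ρ e J k := by
  unfold dvP
  split_ifs with c
  · exact he
  obtain ⟨k, rfl⟩ : ∃ j, k = j + 1 := ⟨k - 1, by omega⟩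
  simp only [Nat.add_sub_cancel]
  have h1 := tp_mono (m := m) G.toLeg k.le_succ
  have := mul_le_mul h1 (h.mono k hk) (Rf_nn h k (by omega)) (tp_mem G.toLeg _).1
  linarith [G.dz_nonneg k, G.dz_nonneg (k + 1), G.Hm k.le_succ]

/-- telescoping of the clock on an interval above the cut -/
theorem sum_dvP (G : Lg M m a) {e : ℕ → ℝ} {b b' : ℕ} (hb : J ≤ b) (h : b ≤ b') :
    ∑ k ∈ Ioc b b', dvP M m a ρ e J k ≤ tp M m b' * ρ b' + M.H b' - (tp M m b * ρ b + M.H b) +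
      (tp M m b' - tp M m b) + 2 * M.z b' := by
  have : ∑ k ∈ Ioc b b', dvP M m a ρ e J k ≤ tp M m b' * ρ b' + M.H b' - (tp M m b * ρ b + M.H b) +
      (tp M m b' - tp M m b) + (2 * M.z b' - 2 * M.z b + M.dz m a b - M.dz m a b') := by
    induction b', h using Nat.le_induction with
    | base => simp
    | succ k hk ih =>
      rw [sum_Ioc_succ_top hk, dvP, if_neg (by omega), Nat.add_sub_cancel, dz_succ G.toLeg]
      linarith
  linarith [dz_le_z G b, G.dz_nonneg b', G.z_nonneg b]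

theorem sum_bk (lev : ℕ → ℕ) (i : ℕ) (F : ℕ → ℝ) :
    ∑ j ∈ (cd M m a ρ J W E).up with lev (j - 1) = i, F j = ∑ k ∈ bk M J lev i, F (k + 1) := by
  rw [sum_filter, sum_up, sum_filter]; rfl

namespace BP

variable {B : ℕ} {lev : ℕ → ℕ} {t al A : ℕ → ℝ} (H : BP M m a J B lev t al A)
include H

/-- **the block data of `ErrL_35`** -/
theorem bd (G : Lg M m a) (hρ : Rf M ρ) {c e : ℕ → ℝ} (e0 : ∀ k, 0 ≤ E.e k) (ee0 : ∀ i, 0 ≤ e i)
    (env : ∀ k, J ≤ k → k < M.N → M.dz m a k ≠ 0 → E.e k ≤ e (lev k))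
    (clk : ∀ i, ∑ k ∈ bk M J lev i, dvP M m a ρ E.e J k ≤ c i) (f00 : ∀ k, 0 ≤ E.f0 k)
    (f0 : ∀ k, J ≤ k → k < M.N → E.f0 k ≤ ErrL.ph B al (lev k)) :
    BD (cd M m a ρ J W E) B (fun j => lev (j - 1)) t c e al (sh A) := by
  refine ⟨dm_nonneg G.monoL, fun j hj => ?_, fun j _ => e0 _, fun y j => ?_, fun j _ => f00 _,
    fun i j h => H.mono (Nat.sub_le_sub_right h 1), fun j hj => ?_, H.t0, H.al0, ee0, fun i => ?_,
    fun i => ?_, fun j hj => ?_, fun i => ?_, fun j hj => ?_, fun j hj => ?_, H.add.cd G.m0,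
    fun i => ?_⟩
  · obtain ⟨k, rfl, -, h⟩ := mem_up hj
    rw [cd_dv G.toLeg h]
    exact dvP_nn G hρ (e0 k) h
  · rw [cd_v a ρ W E G.m0]
    exact Eg33.vt_nonneg Link33.wt1 _ _ _ _ _
  · obtain ⟨k, rfl, h, h'⟩ := mem_up hj
    exact H.lt k h h'
  · rw [sum_bk]; exact H.mass i
  · rw [sum_bk]
    exact (sum_congr rfl fun k hk => cd_dv G.toLeg (mem_Ico.1 (mem_filter.1 hk).1).2).trans_le
      (clk i)
  · obtain ⟨k, rfl, h, h'⟩ := mem_up hj
    exact env k h h'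
  · rw [sum_bk]
    simp only [cd_v a ρ W E G.m0]
    exact H.dia i
  · obtain ⟨k, rfl, h, h'⟩ := mem_up hj
    intro h0
    rw [show Ico 1 (k + 1) = Ico (0 + 1) (k + 1) from rfl, ← sum_Ico_add' _ 0 k 1, ← range_eq_Ico]
    simp only [cd_v a ρ W E G.m0]
    exact H.lad k h h' h0
  · obtain ⟨k, rfl, h, h'⟩ := mem_up hj
    exact f0 k h h'
  · rw [sum_bk]; exact H.sA i

/-- tails of the additive bound for a density `|φ| ≤ ab` on the blocks -/
theorem tail (G : Lg M m a) {φ ab : ℕ → ℝ} (ab0 : ∀ i, 0 ≤ ab i)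
    (hφ : ∀ k, J ≤ k → k < M.N → |φ k| ≤ ab (lev k)) (k : ℕ) :
    ∑ j ∈ tlP M J k, M.dz m a j * (φ j ^ 2 * A j) ≤
      ErrL.ph B (fun i => ab i * al i) (lev k) ^ 2 := by
  have sub := tlP_sub (M := M) (J := J) k
  rw [← sum_fiberwise_of_maps_to (t := Ico (lev k) B) (g := lev) fun j hj => mem_Ico.2
    ⟨H.mono ((le_max_left _ _).trans (mem_Ico.1 hj).1),
      H.lt j (mem_Ico.1 (sub hj)).1 (mem_Ico.1 hj).2⟩]
  refine le_trans (sum_le_sum fun i _ => ?_) (sum_sq_le_sq_sum_of_nonneg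
    fun i _ => mul_nonneg (ab0 i) (H.al0 i))
  rw [mul_pow]
  refine le_trans ?_ (mul_le_mul_of_nonneg_left (H.sA i) (sq_nonneg _))
  rw [mul_sum]
  refine le_trans (sum_le_sum fun j hj => ?_) (sum_le_sum_of_subset_of_nonneg
    (filter_subset_filter _ sub) fun j _ _ => mul_nonneg (sq_nonneg _)
      (mul_nonneg (G.dz_nonneg j) (H.add.1 j)))
  obtain ⟨h1, h2⟩ := mem_filter.1 hj
  have h3 := abs_le.1 (h2 ▸ hφ j (mem_Ico.1 (sub h1)).1 (mem_Ico.1 h1).2)
  rw [mul_left_comm]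
  exact mul_le_mul_of_nonneg_right (sq_le_sq' h3.1 h3.2) (mul_nonneg (G.dz_nonneg j) (H.add.1 j))

/-- **the field `var` of `WI`** for `μ = dz φ` -/
theorem var (G : Lg M m a) {φ ab μ f : ℕ → ℝ} (ab0 : ∀ i, 0 ≤ ab i)
    (hμ : ∀ k, J ≤ k → k < M.N → μ k = M.dz m a k * φ k)
    (hφ : ∀ k, J ≤ k → k < M.N → |φ k| ≤ ab (lev k))
    (hf : ∀ k, ErrL.ph B (fun i => ab i * al i) (lev k) ≤ f k) (k : ℕ) :
    2 * PE M m a (fun g _ => cen M m a (tlP M J k) μ (pth M m a g) ^ 2) +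
      2 * PE M m a (fun g x => lfp M m a (tlP M J k) μ g x ^ 2) ≤ f k ^ 2 := by
  have mem : ∀ t ∈ tlP M J k, J ≤ t ∧ t < M.N := fun t h => mem_Ico.1 (tlP_sub k h)
  have e1 : cen M m a (tlP M J k) μ = cen M m a (tlP M J k) fun t => M.dz m a t * φ t :=
    funext fun q => sum_congr rfl fun t ht => by rw [hμ t (mem t ht).1 (mem t ht).2]
  have e2 : lfp M m a (tlP M J k) μ = lfp M m a (tlP M J k) fun t => M.dz m a t * φ t :=
    funext fun q => funext fun x => sum_congr rfl fun t ht => by rw [hμ t (mem t ht).1 (mem t ht).2]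
  rw [e1, e2]
  exact (H.add.2 _ (tlP_sub k) φ).trans ((H.tail G ab0 hφ k).trans (pow_le_pow_left₀
    (ErrL.ph0 (fun i => mul_nonneg (ab0 i) (H.al0 i)) _) (hf k) 2))

end BP

theorem ph_anti {B : ℕ} {al : ℕ → ℝ} (h : ∀ i, 0 ≤ al i) : Antitone (ErrL.ph B al) :=
  fun _ _ e => sum_le_sum_of_subset_of_nonneg (Ico_subset_Ico e le_rfl) fun k _ _ => h k

end Crest.Agent.T156.Alt.Lb24

end
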