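import Crest.Agent.T156.PlO_13
import Crest.Agent.T156.GrDef_62

/-!
# Row 156, ALT: the plateau half of the membership of the mixed graded members (helper13)
-/

set_option autoImplicit false
set_option linter.unusedSectionVars false

noncomputable section

namespace Crest.Agent.T156.Alt.Plt13

open Real Set Finset
open Crest.Agent.T156.Alt.Mem37

theorem tele_Ioc (g : ℕ → ℝ) {m n : ℕ} (h : m ≤ n) :
    ∑ k ∈ Finset.Ioc m n, (g k - g (k - 1)) = g n - g m := by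
  induction n, h using Nat.le_induction with
  | base => simp
  | succ n hn ih => rw [Finset.sum_Ioc_succ_top hn, ih, Nat.add_sub_cancel]; ring

namespace Nm

variable {p : Pm} {ν : ℝ} (h : Nm p ν)
include h

theorem u0_cube : u0 p ν ^ 3 = p.la ν ^ 2 := by
  unfold u0
  rw [← rpow_natCast, ← rpow_mul h.lp.le, ← rpow_natCast]
  norm_num

/-- below `xs`: taper plus top part -/
theorem rF_sq_lo {K x : ℝ} (K0 : 0 < K) (hK : 1 / K ≤ 1 - p.xs) (hx : x ≤ p.xs) :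
    p.rF ν x ^ 2 ≤ 2 * p.rB ν x ^ 2 + 8 * K * p.la ν ^ 2 := by
  have u : 0 < 1 - x := by linarith [h.xs1]
  have b := h.top_bd (x := x) (by linarith)
  have c := h.rT_le (1 - x)
  have d := pow_le_pow_left₀ b.1 (b.2.trans c) 2
  have e : (2 * (p.la ν / √(1 - x))) ^ 2 = 4 * p.la ν ^ 2 / (1 - x) := by
    rw [mul_pow, div_pow, sq_sqrt u.le]; ring
  have f : 4 * p.la ν ^ 2 / (1 - x) ≤ 4 * K * p.la ν ^ 2 := by
    rw [div_le_iff₀ K0] at hK
    rw [div_le_iff₀ u]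
    have : 1 ≤ K * (1 - x) := by nlinarith
    nlinarith [mul_le_mul_of_nonneg_left this (sq_nonneg (p.la ν))]
  unfold Pm.rF
  nlinarith [sq_nonneg (p.rB ν x - (p.rT ν (1 - max x (1 / 2)) - p.rT ν (1 / 2)))]

/-- the last cell -/
theorem rF_sq_last {x : ℝ} (h0 : p.xs ≤ x) (h1 : x < 1) (h2 : 1 - x ≤ 1 / p.n) :
    (1 - x) * p.rF ν x ^ 2 ≤ 4 * p.la ν ^ 2 := by
  have u : 0 < 1 - x := by linarith
  have s := sqrt_pos.2 u
  have a := (h.rF_bd h1).2.2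
  have f : fb (p.la ν) (x - p.xs + u0 p ν) ≤ p.la ν / √(1 - x) :=
    div_le_div_of_nonneg_left h.lp.le s (sqrt_le_sqrt (by linarith [h.nl, h.l_le_u0]))
  have q : 0 ≤ p.la ν / √(1 - x) := div_nonneg h.lp.le s.le
  have b : -(2 * (p.la ν / √(1 - x))) ≤ p.rF ν x := by
    rw [h.rF_hi h0]; linarith [(h.top_bd h1).1]
  have c := sq_le_sq' b a
  have e : (1 - x) * (2 * (p.la ν / √(1 - x))) ^ 2 = 4 * p.la ν ^ 2 := by
    rw [mul_pow, div_pow, sq_sqrt u.le]; field_simp; ring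
  nlinarith [mul_le_mul_of_nonneg_left c u.le]

/-- **second moment of `rF ν` over all nodes above `jl`** (any shell grid, any spread) -/
theorem gtp {c0 C0 η Y K : ℝ} {P : Pl} {om : ℕ → ℝ} (G : Geo c0 C0 η Y p P om)
    (S : Shg p ν P.x P.I) (e2 : 1 - P.x P.I ≤ 1 / p.n) (K0 : 0 < K) (hK : 1 / K ≤ 1 - p.xs)
    {jl : ℕ} (hj : jl < p.J) :
    ∑ k ∈ Finset.Ioc jl (p.Jp P), (p.zP P k - p.zP P (k - 1)) * p.rF ν (p.xP P k) ^ 2 ≤
      (406 + 8 * K) * (p.la ν ^ 2 * log p.n) := by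
  have J0 := G.J0
  have l1 := h.l1
  have q := sq_nonneg (p.la ν)
  rw [← Finset.sum_Ioc_consecutive _ (show jl ≤ p.J - 1 by omega)
    (show p.J - 1 ≤ p.Jp P from (Nat.sub_le _ _).trans J_le)]
  have A : ∑ k ∈ Finset.Ioc jl (p.J - 1), (p.zP P k - p.zP P (k - 1)) * p.rF ν (p.xP P k) ^ 2 ≤
      2 * (p.la ν ^ 2 * log p.n) + 8 * K * p.la ν ^ 2 := by
    set a := p.xs - log p.n * u0 p ν with ha
    have L0 : 0 ≤ log p.n * u0 p ν := mul_nonneg (by linarith) h.u0p.le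
    have t := tele_Ioc (fun k => 2 * u0 p ν ^ 2 * max (p.z k) a + 8 * K * p.la ν ^ 2 * p.z k)
      (show jl ≤ p.J - 1 by omega)
    refine (Finset.sum_le_sum fun k hk => ?_).trans (t.le.trans ?_)
    · have hk := Finset.mem_Ioc.1 hk
      have m : p.z (k - 1) ≤ p.z k := G.base.lab.mono (Nat.sub_le _ _)
      have x1 : p.z (k - 1) ≤ p.xs := G.base.lab.mono (by omega)
      rw [xP_lo (by have := J_le (p := p) (P := P); omega), zP_lo (by omega), zP_lo (by omega)]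
      have b := mul_le_mul_of_nonneg_left (h.rF_sq_lo K0 hK x1) (sub_nonneg.2 m)
      have c : (p.z k - p.z (k - 1)) * p.rB ν (p.z (k - 1)) ^ 2 ≤
          u0 p ν ^ 2 * (max (p.z k) a - max (p.z (k - 1)) a) := by
        rcases le_total (p.z (k - 1)) a with e | e
        · rw [rB_eq, Rs13.r1_zero h.lp (by linarith) (by unfold u0 at ha; linarith)]
          have := max_le_max m (le_refl a)
          nlinarith [mul_nonneg (sq_nonneg (u0 p ν)) (sub_nonneg.2 this)]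
        · rw [max_eq_left e, max_eq_left (e.trans m), mul_comm]
          have r := Rs13.r1_bd (lg := log p.n) (xs := p.xs) h.lp (p.z (k - 1))
          refine mul_le_mul_of_nonneg_right (sq_le_sq' r.1 ?_) (sub_nonneg.2 m)
          exact r.2.trans h.u0p.le
      linarith
    · have e : p.z (p.J - 1) = p.xs := rfl
      simp only [e]
      rw [max_eq_left (by linarith : a ≤ p.xs)]
      have z0 : 0 ≤ p.z jl := (G.base.lab.pos.trans_le (G.base.lab.mono (Nat.zero_le _))).le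
      have b := mul_le_mul_of_nonneg_left (le_max_right (p.z jl) a) (sq_nonneg (u0 p ν))
      have c : u0 p ν ^ 2 * (log p.n * u0 p ν) = p.la ν ^ 2 * log p.n := by rw [← h.u0_cube]; ring
      have d := mul_le_mul_of_nonneg_left (show p.xs - p.z jl ≤ 1 by linarith [h.xs1])
        (mul_nonneg K0.le q)
      rw [ha] at b ⊢
      nlinarith
  have B : ∑ k ∈ Finset.Ioc (p.J - 1) (p.Jp P),
      (p.zP P k - p.zP P (k - 1)) * p.rF ν (p.xP P k) ^ 2 ≤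
      400 * (p.la ν ^ 2 * log p.n) + 4 * p.la ν ^ 2 := by
    have e : Finset.Ioc (p.J - 1) (p.Jp P) = Finset.Ico p.J (p.J + (P.I + 1)) := by
      ext k; simp only [Finset.mem_Ioc, Finset.mem_Ico, Pm.Jp]; omega
    rw [e, Finset.sum_Ico_eq_sum_range, Nat.add_sub_cancel_left, Finset.sum_range_succ]
    refine add_le_add (le_trans (Finset.sum_le_sum fun i hi => ?_) (S.sum_env h)) ?_
    · have hi := Finset.mem_range.1 hi
      have z := G.zP_x (i := i + 1) hi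
      rw [show p.J + (i + 1) - 1 = p.J + i by omega] at z
      rw [z, G.zP_x hi.le, G.xP_x hi.le]
      refine mul_le_mul_of_nonneg_left ?_ (sub_nonneg.2 (S.mono i hi))
      rw [← sq_abs]
      exact pow_le_pow_left₀ (abs_nonneg _) (h.abs_rF_env (S.ge hi.le) (S.lt h hi.le)) 2
    · rw [zP_hi (k := p.J + P.I) le_rfl, G.zP_x le_rfl, G.xP_x le_rfl]
      exact h.rF_sq_last (S.ge le_rfl) (S.lt h le_rfl) e2
  nlinarith [mul_le_mul_of_nonneg_left l1 q, mul_le_mul_of_nonneg_left l1 (mul_nonneg K0.le q)]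


end Nm

/-- the plateau fields of `MemD` -/
structure PlH (K : ℝ) (p : Pm) (P : Pl) (om : ℕ → ℝ) (jl : ℕ) (ms den : ℝ → ℝ) (g2 u0 ue : ℝ) :
    Prop where
  z0 : ∀ x, x ≤ 1 / (2 * K) → P.rs x = 0 ∧ P.hs x = 0
  sl : ∀ k, jl < k → k < p.J → -(p.v / (8 * K)) ≤ P.rs (p.z k) - P.rs (p.z (k - 1)) ∧
    P.rs (p.z k) - P.rs (p.z (k - 1)) ≤ K * p.v ∧
    -(ms (p.sO P om k) * p.v / (4 * K)) ≤ P.hs (p.z k) - P.hs (p.z (k - 1))
  pc : ∀ i < P.I, p.v / K ≤ P.γ * (P.x (i + 1) - P.x i) + (P.rs (P.x (i + 1)) - P.rs (P.x i)) ∧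
    P.γ * (P.x (i + 1) - P.x i) + (P.rs (P.x (i + 1)) - P.rs (P.x i)) ≤ K * p.v ∧
    0 ≤ P.rs (P.x (i + 1)) - P.rs (P.x i) ∧
    ms 1 / K * (P.rs (P.x (i + 1)) - P.rs (P.x i)) ≤ P.hs (P.x (i + 1)) - P.hs (P.x i)
  hN : P.hs (P.x P.I) ≤ K * p.A * log p.n
  Gtp : ∑ k ∈ Finset.Ioc jl (p.Jp P), (p.zP P k - p.zP P (k - 1)) * P.hs (p.xP P k) ^ 2 ≤ g2
  plat : ∀ i < P.I, p.v / K ≤ (P.x (i + 1) - P.x i) * den (P.x i) ∧
    (P.x (i + 1) - P.x i) * den (P.x i) ≤ K * p.v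
  den0 : ∀ x, 0 < den x
  dens : ∀ x x', p.xs ≤ x → x ≤ x' → x' < 1 → x' - x ≤ min (x - p.xs + u0) (1 - x') →
    den x ≤ K * den x' ∧ den x' ≤ K * den x
  last : 1 - P.x P.I ≤ ue
  /-- upper increments of the field (ceiling) -/
  up1 : ∀ k, jl < k → k < p.J → P.hs (p.z k) - P.hs (p.z (k - 1)) ≤ K * (ms (p.sO P om k) * p.v)
  up2 : ∀ i < P.I, P.hs (P.x (i + 1)) - P.hs (P.x i) ≤ K * (ms 1 * p.v)

theorem mixG_rs {p : Pm} {μ μ' : ℝ} {P P' : Pl} (H : p.PlG μ P) (H' : p.PlG μ' P') (t x : ℝ) :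
    (P.mix P' t).rs x = (1 - t) * p.rF (p.mt μ) x + t * p.rF (p.mt μ') x := by
  simp only [Pl.mix, H.rs, H'.rs]

theorem mixG_hs {p : Pm} {μ μ' : ℝ} {P P' : Pl} (H : p.PlG μ P) (H' : p.PlG μ' P') (t x : ℝ) :
    (P.mix P' t).hs x = (1 - t) * (μ * p.rF (p.mt μ) x) + t * (μ' * p.rF (p.mt μ') x) := by
  simp only [Pl.mix, H.hs, H'.hs]

theorem mt_cp {p : Pm} {μ μ' : ℝ} (hn : (0 : ℝ) < p.n) (hκ : 0 < p.κ) (h0 : 0 < μ) (h1 : μ ≤ μ')
    (h2 : μ' ≤ 4 * μ) : Cp p (p.mt μ) (p.mt μ') := by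
  have k : 0 < p.κ ^ 3 := pow_pos hκ 3
  have w : 0 < p.κ * (p.n : ℝ) ^ (-(1 : ℝ) / 3) := mul_pos hκ (rpow_pos_of_pos hn _)
  have a : 0 < p.mt μ := lt_min (div_pos h0 k) (lt_max_of_lt_left h0)
  have b : p.mt μ ≤ p.mt μ' :=
    min_le_min (div_le_div_of_nonneg_right h1 k.le) (max_le_max h1 le_rfl)
  refine cp_of hn a (a.trans_le b) ?_ (by linarith)
  unfold Pm.mt
  rw [mul_min_of_nonneg _ _ (by norm_num : (0 : ℝ) ≤ 4), mul_max_of_nonneg _ _ (by norm_num : (0 : ℝ) ≤ 4),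
    ← mul_div_assoc]
  exact min_le_min (div_le_div_of_nonneg_right h2 k.le) (max_le_max h2 (by linarith))

theorem cvx_sq {t : ℝ} (t0 : 0 ≤ t) (t1 : t ≤ 1) (a b : ℝ) :
    ((1 - t) * a + t * b) ^ 2 ≤ a ^ 2 + b ^ 2 := by
  have s0 := sub_nonneg.2 t1
  nlinarith [mul_nonneg (mul_nonneg s0 t0) (sq_nonneg (a - b)), mul_nonneg t0 (sq_nonneg a),
    mul_nonneg s0 (sq_nonneg b)]

section sums
variable {c0 C0 η Y K μ μ' t : ℝ} {p : Pm} {P P' : Pl} {om : ℕ → ℝ} {jl : ℕ}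
  (G : Geo c0 C0 η Y p (P.mix P' t) om) (h : Nm p (p.mt μ)) (h' : Nm p (p.mt μ'))
  (c : Cp p (p.mt μ) (p.mt μ')) (H : p.PlG μ P)
include G h h' c H

theorem sum_two (K0 : 0 < K) (kx : 1 / K ≤ 1 - p.xs) (hj : jl < p.J) :
    ∑ k ∈ Finset.Ioc jl (p.Jp (P.mix P' t)),
      (p.zP (P.mix P' t) k - p.zP (P.mix P' t) (k - 1)) *
        (p.rF (p.mt μ) (p.xP (P.mix P' t) k) ^ 2 + p.rF (p.mt μ') (p.xP (P.mix P' t) k) ^ 2) ≤
      5 * (406 + 8 * K) * (p.la (p.mt μ) ^ 2 * log p.n) := by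
  have O := H.ok
  have e2 : 1 - P.x P.I ≤ 1 / p.n := by
    have np := h.np
    have e : (p.n : ℝ) ^ (-(2 : ℝ)) = 1 / (p.n : ℝ) ^ 2 := by rw [rpow_neg np.le]; norm_num
    exact (O.e2.trans e.le).trans (one_div_le_one_div_of_le np (by nlinarith [h.n2]))
  have S : Shg p (p.mt μ) P.x P.I := by have := shg_of h O; exact this
  have S' : Shg p (p.mt μ') P.x P.I := by have := shg_cp h h' c O; exact this
  have a := h.gtp G S e2 K0 kx hj
  have b := h'.gtp G S' e2 K0 kx hj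
  have q : p.la (p.mt μ') ^ 2 ≤ 4 * p.la (p.mt μ) ^ 2 := by nlinarith [c.l1, h'.lp]
  have q' := mul_le_mul_of_nonneg_left (mul_le_mul_of_nonneg_right q
    (show 0 ≤ log (p.n : ℝ) by linarith [h.l1])) (show 0 ≤ 406 + 8 * K by linarith)
  simp only [mul_add (_ - _ : ℝ), Finset.sum_add_distrib]
  linarith

/-- **second moment of the clock shift of the mixtures** -/
theorem r2_mix (H' : p.PlG μ' P') (t0 : 0 ≤ t) (t1 : t ≤ 1) (K0 : 0 < K) (kx : 1 / K ≤ 1 - p.xs)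
    (hj : jl < p.J) :
    ∑ k ∈ Finset.Ioc jl (p.Jp (P.mix P' t)), (p.zP (P.mix P' t) k - p.zP (P.mix P' t) (k - 1)) *
      (P.mix P' t).rs (p.xP (P.mix P' t) k) ^ 2 ≤
      5 * (406 + 8 * K) * (p.la (p.mt μ) ^ 2 * log p.n) := by
  refine le_trans (Finset.sum_le_sum fun k _ => ?_) (sum_two G h h' c H K0 kx hj)
  refine mul_le_mul_of_nonneg_left ?_ (sub_nonneg.2 (G.zP_mono (Nat.sub_le k 1)))
  rw [mixG_rs H H']
  exact cvx_sq t0 t1 _ _

/-- **second moment of the field of the mixtures** (`g2P`) -/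
theorem g2_mix {θ : ℝ} (H' : p.PlG μ' P') (t0 : 0 ≤ t) (t1 : t ≤ 1) (K0 : 0 < K)
    (kx : 1 / K ≤ 1 - p.xs) (μ0 : 0 ≤ μ) (μ0' : 0 ≤ μ') (a2 : μ ≤ θ) (b2 : μ' ≤ θ)
    (hj : jl < p.J) :
    ∑ k ∈ Finset.Ioc jl (p.Jp (P.mix P' t)), (p.zP (P.mix P' t) k - p.zP (P.mix P' t) (k - 1)) *
      (P.mix P' t).hs (p.xP (P.mix P' t) k) ^ 2 ≤
      5 * (406 + 8 * K) * (θ ^ 2 * (p.la (p.mt μ) ^ 2 * log p.n)) := by
  have s := mul_le_mul_of_nonneg_left (sum_two G h h' c H K0 kx hj) (sq_nonneg θ)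
  refine le_trans ?_ (s.trans (le_of_eq (by ring)))
  rw [Finset.mul_sum]
  refine Finset.sum_le_sum fun k _ => ?_
  rw [mul_left_comm (θ ^ 2)]
  refine mul_le_mul_of_nonneg_left ?_ (sub_nonneg.2 (G.zP_mono (Nat.sub_le k 1)))
  rw [mixG_hs H H']
  refine (cvx_sq t0 t1 _ _).trans ?_
  rw [mul_pow, mul_pow, mul_add]
  exact add_le_add (mul_le_mul_of_nonneg_right (pow_le_pow_left₀ μ0 a2 2) (sq_nonneg _))
    (mul_le_mul_of_nonneg_right (pow_le_pow_left₀ μ0' b2 2) (sq_nonneg _))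


end sums


end Crest.Agent.T156.Alt.Plt13

end
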