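import Crest.Agent.T156.R1Top_77

/-!
# Row 156 (helper77): elementary facts of a context `R77.Cx`
-/

set_option autoImplicit false
set_option linter.unusedSectionVars false

noncomputable section

namespace Crest.Agent.T156.Alt.R77

open Real Finset Filter Topology
open Crest.Agent.T156.Cas Crest.Agent.T156.Cas.C40 Crest.Agent.T156.Alt.Alg77
open Crest.Agent.T156.Alt.CIn12 Crest.Agent.T156.Alt.Md67 Crest.Agent.T156.Alt.Md77

/-- the facts -/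
structure Fx (Λ : ℝ) (p : Pm) (P : Pl) (t a a' Q : ℝ) (m : ℕ) : Prop where
  mem : p.MemG t
  t0 : 0 < t
  y0 : 0 < p.ye
  g : P.γ = 0
  jJ : p.jf < p.J
  jr : p.jf * p.v ≤ p.r
  leg : (p.gst P t).Leg (2 * p.am)
  legz : (p.gst P t).Leg (p.z p.jf)
  top : Top (p.gst P t)
  a0 : 0 < a
  aa : a ≤ a'
  a1 : a' ≤ p.am
  m0 : 0 < m
  b0 : 0 ≤ p.bG t
  b1 : p.bG t ≤ p.β ^ 2
  W : (a' - a) * (p.gst P t).W m a a' ≤ Q ^ 2
  op : OP p (Set.Ioi 0) p.omG (omG' p) p.epsG (2 * p.ye)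
  o0 : ∀ j, 0 ≤ omG' p t j
  o1 : ∀ j, t * omG' p t j ≤ p.omG t j
  o2 : ∀ j : ℕ, max p.r (j * p.v) * p.omG t j ≤ 4 * p.msG t (j * p.v)
  dw : t * Pr.Dw p.z p.J 1 (omG' p t) ≤ Λ * p.muG t
  dw' : ∀ (c : ℕ → ℝ) (u : ℝ), 0 ≤ u → (∀ j, 0 ≤ c j ∧ c j ≤ 1) → (∀ j : ℕ, u < j * p.v → c j = 0) →
    t * Pr.Dw p.z p.J c (omG' p t) ≤ Λ * p.msG t u
  db : t * |deriv p.bG t| ≤ Λ * p.muG t

theorem fxS {β : ℝ} (hβ : 1 < β) : Sml β fun Λ p => ∀ σ σ' P t a a' Q m,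
    Cx p σ σ' P t a a' Q m → Fx Λ p P t a a' Q m := by
  refine Sml.glue' hβ ((legG hβ).and (GB92.pD β hβ).sml) 2 one_pos 40 ?_
  intro c0 C0 A c η _ _ _ _
  refine ⟨0, fun p H _ _ hη ⟨gL, C, _, hC, gD⟩ σ σ' P t a a' Q m x => ?_⟩
  have M0 := (Gr29.oct_mem x.oct).1
  obtain ⟨⟨op, o, d1, d2, d3⟩, -⟩ := gD t x.mem
  have t0 := H.σ0 x.mem
  have a1 := St56.jf_le H (by exact_mod_cast hη)
  have hj : p.jf < p.J := by
    have a2 := op.hY
    have a3 := H.r_le_ye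
    have a4 := H.r0
    exact_mod_cast lt_of_mul_lt_mul_right (show (p.jf : ℝ) * p.v < p.J * p.v by linarith) H.v0.le
  have l := gL t _ P x.mem (H.μ0_le_muG M0) (H.oct_mu x.oct').1 x.pl
  have mu := (H.muG0 t0).le
  exact ⟨x.mem, t0, H.ye0, x.pl.ok.g, hj, a1, l.1, l.2.1, top_gst H P t hj,
    (half_pos (H.rp0 _)).trans_le x.win.1, x.win.2, x.win.3,
    (by have := H.n3; have := x.m1; omega), by simpa [Pm.gst, Pm.famO] using l.1.d0, l.2.2.1,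
    x.wt _ ⟨t, ⟨x.t0, x.t1⟩, rfl⟩ m x.m1 x.m2, op, fun j => (o j).1, fun j => (o j).2.1,
    fun j => (o j).2.2, (d1 _).trans (by gcongr), fun c u h0 h1 h2 => (d2 _ c u h0 h1 h2).trans
      (mul_le_mul_of_nonneg_right hC (H.msG0 t0 u).le), d3.trans (by gcongr)⟩

theorem gst_N (p : Pm) (P : Pl) (t : ℝ) : (p.gst P t).N = p.NP P := rfl

theorem gst_d (p : Pm) (P : Pl) (t : ℝ) (k : ℕ) : (p.gst P t).d k = p.bG t := by
  simp [Pm.gst, Pm.famO]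

theorem gst_tp (p : Pm) (P : Pl) (t : ℝ) (m k : ℕ) :
    tp (p.gst P t) m k = p.bG t * m / (m + 1) := by rw [tp, gst_d]

theorem gst_z (p : Pm) (P : Pl) (t : ℝ) {k : ℕ} (hk : p.jf ≤ k) : (p.gst P t).z k = p.zP P k := by
  simp only [Pm.gst, Pm.famO, max_eq_left hk]

theorem fd_lo (p : Pm) (t : ℝ) {j : ℕ} (hj : j ≤ p.jf + 1) : fd p t j = 0 := if_pos hj

theorem fd_succ (p : Pm) (t : ℝ) {k : ℕ} (hk : p.jf < k) : fd p t (k + 1) = sv p t k := fc_succ hk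

namespace Fx

variable {Λ t a a' Q x : ℝ} {p : Pm} {P : Pl} {m : ℕ} (h : Fx Λ p P t a a' Q m)
include h

theorem JN : p.J ≤ p.NP P := by unfold Pm.NP; omega

theorem jN : p.jf < p.NP P := h.jJ.trans_le h.JN

theorem am0 : 0 < p.am := (h.a0.trans_le h.aa).trans_le h.a1

theorem cut : Cut (p.gst P t) (2 * p.am) (p.jf + 1) := cut_gst h.leg h.top h.jN

theorem lg (h0 : a ≤ x) (h1 : x ≤ a') : Lg (p.gst P t) m x :=
  lg_of h.leg h.m0 (h.a0.le.trans h0) (by linarith [h.a1, h.am0])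

theorem lga : Lg (p.gst P t) m a := h.lg le_rfl h.aa


theorem tw (x : ℝ) (E : CIn12.Ev) : Cas.Alg77.Tw (Dd p P t m x E) (fd p t) := h.cut.tw

theorem tau (x : ℝ) (E : CIn12.Ev) {k : ℕ} (hk : k ≤ p.NP P) :
    (Dd p P t m x E).τ (k + 1) = p.bG t * m / (m + 1) :=
  (cd_tau m x _ _ E hk).trans (gst_tp p P t m k)

theorem tp_le (k : ℕ) : 0 ≤ tp (p.gst P t) m k ∧ tp (p.gst P t) m k ≤ p.β ^ 2 :=
  ⟨(tp_mem h.leg k).1, (tp_mem h.leg k).2.1.trans ((gst_d p P t k).trans_le h.b1)⟩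

theorem om'_hi {k : ℕ} (hk : 2 * p.ye ≤ k * p.v) : omG' p t k = 0 := by
  have hy := h.y0
  rw [omG', PP3.sm_hi (by rw [le_sub_iff_add_le, le_div_iff₀ hy]; linarith)]
  ring

theorem sv_eq (k : ℕ) : sv p t k = if k < p.J then -omG' p t k else 0 := by
  unfold sv dom
  rcases lt_trichotomy k p.J with e | e | e
  · rw [if_pos e.le, if_pos e]
  · rw [e, if_pos le_rfl, if_neg (lt_irrefl _), h.op.om'_hi h.t0 le_rfl, neg_zero]
  · rw [if_neg e.not_ge, if_neg e.le.not_gt, neg_zero]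

theorem abs_sv (k : ℕ) : |sv p t k| = if k < p.J then omG' p t k else 0 := by
  rw [h.sv_eq]
  split_ifs
  exacts [by rw [abs_neg, abs_of_nonneg (h.o0 k)], abs_zero]

theorem abs_sv_le (k : ℕ) : |sv p t k| ≤ omG' p t k := by
  rw [h.abs_sv]
  split_ifs
  exacts [le_rfl, h.o0 k]

theorem t_sv (k : ℕ) : t * |sv p t k| ≤ p.omG t k :=
  (mul_le_mul_of_nonneg_left (h.abs_sv_le k) h.t0.le).trans (h.o1 k)

theorem sv_hi {k : ℕ} (hk : 2 * p.ye ≤ k * p.v) : sv p t k = 0 :=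
  abs_nonpos_iff.1 ((h.abs_sv_le k).trans_eq (h.om'_hi hk))

theorem dz_eq (x : ℝ) {k : ℕ} (h1 : p.jf < k) (h2 : k < p.J) :
    (p.gst P t).dz m x k = p.z k - p.z (k - 1) := by
  rw [dz_up h.leg (by omega), gst_z p P t h1.le, gst_z p P t (by omega), Pm.zP, Pm.zP, if_pos h2,
    if_pos (by omega)]

/-- weighted mass of the test density -/
theorem sum_sv (x : ℝ) {c : ℕ → ℝ} (hc : ∀ j, 0 ≤ c j) :
    ∑ k ∈ Ico (p.jf + 1) (p.NP P), (p.gst P t).dz m x k * (c k * |sv p t k|) ≤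
      Pr.Dw p.z p.J c (omG' p t) := by
  rw [← sum_Ico_consecutive _ (show p.jf + 1 ≤ p.J from h.jJ) h.JN, sum_eq_zero (s := Ico p.J _)
    fun k hk => by rw [h.abs_sv, if_neg (mem_Ico.1 hk).1.not_gt, mul_zero, mul_zero], add_zero,
    Pr.Dw, range_eq_Ico]
  refine le_of_le_of_eq ?_
    (sum_Ico_add' (fun k => (p.z k - p.z (k - 1)) * (c k * |omG' p t k|)) 0 p.J 1).symm
  refine (sum_congr rfl fun k hk => ?_).trans_le (sum_le_sum_of_subset_of_nonneg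
    (Ico_subset_Ico (by omega) (Nat.le_succ _)) fun k _ _ => mul_nonneg
      (sub_nonneg.2 (h.op.lab.mono (Nat.sub_le k 1))) (mul_nonneg (hc k) (abs_nonneg _)))
  obtain ⟨h1, h2⟩ := mem_Ico.1 hk
  rw [h.dz_eq x h1 h2, h.abs_sv, if_pos h2, abs_of_nonneg (h.o0 k)]

theorem I_fd (x : ℝ) (E : CIn12.Ev) (F : ℕ → ℝ → ℝ) : (Dd p P t m x E).I (fun j => F j (fd p t j)) =
    ∑ k ∈ Ico (p.jf + 1) (p.NP P), (p.gst P t).dz m x k * F (k + 1) (sv p t k) := by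
  rw [cd_I]
  exact sum_congr rfl fun k hk => by rw [fd_succ p t (mem_Ico.1 hk).1]

/-- total mass of the test measure -/
theorem n1 (x : ℝ) (E : CIn12.Ev) : t * (Dd p P t m x E).I (fun j => |fd p t j|) ≤ Λ * p.muG t := by
  rw [h.I_fd x E fun _ y => |y|]
  have := h.sum_sv x (c := 1) fun _ => zero_le_one
  simp only [Pi.one_apply, one_mul] at this
  exact (mul_le_mul_of_nonneg_left this h.t0.le).trans h.dw

/-- mass of the test measure below the level `u` -/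
theorem lo (x : ℝ) {u : ℝ} (hu : 0 ≤ u) {T : Finset ℕ} (hT : T ⊆ Ico (p.jf + 1) (p.NP P))
    (hu' : ∀ k ∈ T, (k : ℝ) * p.v ≤ u) :
    t * ∑ k ∈ T, (p.gst P t).dz m x k * |sv p t k| ≤ Λ * p.msG t u := by
  have c1 : ∀ j, 0 ≤ (if j ∈ T then (1 : ℝ) else 0) ∧ (if j ∈ T then (1 : ℝ) else 0) ≤ 1 :=
    fun j => by split_ifs <;> norm_num
  have := h.sum_sv x fun j => (c1 j).1
  simp only [ite_mul, one_mul, zero_mul, mul_ite, mul_zero, sum_ite_mem, inter_eq_right.2 hT] at this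
  exact (mul_le_mul_of_nonneg_left this h.t0.le).trans
    (h.dw' _ u hu c1 fun j hj => if_neg fun e => (hu' j e).not_gt hj)

theorem abs_om (x : ℝ) (E : CIn12.Ev) {j : ℕ} (hj : j ∈ (Dd p P t m x E).up) :
    |(Dd p P t m x E).om j| = (Dd p P t m x E).dx j * |fd p t j| := by
  obtain ⟨k, rfl, h1, -⟩ := mem_up hj
  rw [(h.tw x E).om _ hj, abs_mul, cd_dx, abs_of_nonneg]
  rw [dz_up h.leg (by omega)]
  exact sub_nonneg.2 (h.leg.zm (Nat.sub_le k 1))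

theorem Iw_eq (x : ℝ) (E : CIn12.Ev) (F : ℕ → ℝ) : (Dd p P t m x E).Iw F =
    ∑ k ∈ Ico (p.jf + 1) (p.NP P), (p.gst P t).dz m x k * (|sv p t k| * F (k + 1)) := by
  rw [← h.I_fd x E fun j y => |y| * F j]
  exact sum_congr rfl fun j hj => by rw [h.abs_om x E hj, mul_assoc]

theorem wt (x : ℝ) (E : CIn12.Ev) : t * (Dd p P t m x E).wt ≤ Λ * p.muG t := by
  have := h.n1 x E
  rw [h.I_fd x E fun _ y => |y|] at this
  rw [CD.wt, (h.tw x E).dd, h.Iw_eq]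
  simpa only [mul_one] using this

end Fx

end Crest.Agent.T156.Alt.R77

end
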