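import Crest.Agent.T156.Top_31

/-!
Row 156 (helper20): the sharp first-order response of the one-site Parisi data to a change of the
tilts on a short initial interval (TWIN of docs/T156_40C.md, section 4).
-/

set_option autoImplicit false

namespace Crest.Agent.T156.Twin20

open MeasureTheory ProbabilityTheory Filter Topology Set
open Crest.Agent.R164.GC Crest.Agent.R339.B Crest.Agent.R339.Var Crest.Agent.T157.Pf
open Crest.Agent.T156.Pp Crest.Agent.T156.Ker Crest.Agent.T156.Sc48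
open Crest.ProbabilityR.InvariantGlass (gaussOp)

noncomputable section

/-- the remaining time -/
theorem tb_time (Φ : ℝ → ℝ) (m : ℝ) :
    TB Φ m (fun v _ => max v 0) (fun _ _ => -1) (fun _ _ => 0) := by
  refine ⟨fun _ _ => 1, fun _ _ => 0, fun v x hv => ?_, fun v x => hasDerivAt_const x _,
    fun v x => hasDerivAt_const x 0, ⟨by fun_prop, fun d => ⟨max d 0, 0, le_max_right _ _, le_rfl,
      fun v x hv => ?_⟩⟩, UG.const 1, UG.const 0, UG.const 0, fun v x => by ring⟩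
  · refine (hasDerivAt_id' v).congr_of_eventuallyEq ?_
    filter_upwards [Ioi_mem_nhds hv] with s hs
    exact max_eq_left (le_of_lt hs)
  · rw [zero_mul, Real.exp_zero, mul_one, abs_of_nonneg (le_max_right _ _)]
    exact max_le_max_right _ hv

/-- a near martingale on a block -/
theorem block_gen {Φ : ℝ → ℝ} (h : Prof Φ) {m : ℝ} (hm : 0 < m) (hm1 : m ≤ 1) {d A B c0 c : ℝ}
    (hd : 0 ≤ d) (hu : ∀ v ∈ Icc 0 d, ∀ y, |deriv (gaussOp m v Φ) y| ≤ |y|) {P : ℝ → ℝ}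
    (hP : BD P) {Y LY Yx : ℝ → ℝ → ℝ} (hY : TB Φ m Y LY Yx) (hB : 0 ≤ B) (hc : 0 ≤ c)
    (hM : ∀ y, |P y - Y 0 y| ≤ A + B * y ^ 2)
    (hL : ∀ v ∈ Icc 0 d, ∀ y, |LY v y| ≤ c0 + c * y ^ 2) (x : ℝ) :
    |tE m d Φ P x - Y d x| ≤ A + c0 * d + (B + c * d) * ((x ^ 2 + d) * Real.exp (2 * d)) := by
  have t := (Lip62.tb_At' h m hP).sub hY
  have u2 : UG fun _ y : ℝ => y * y := UG.id.mul UG.id
  set Q := (x ^ 2 + d) * Real.exp (2 * d) with hQ
  have hq : ∀ τ ∈ Icc 0 d, VV Φ m d (fun _ y => y * y) x τ ≤ Q := fun τ hτ =>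
    (VV_sq h hm hm1 hu hτ.1 hτ.2 x).trans (by
      rw [hQ]
      have := hτ.1
      gcongr
      · exact hτ.2
      · exact hτ.2)
  have a1 := abs_sub_le_of_rder (a := 0) (b := d) (s := 0) (t := d) (C := c0 + c * Q)
    (VV_cont h t.ug d x).continuousOn
    (fun r hr => rder_of_block (VV_cont h t.ug d x) (VV_cont h (t.ugL h) d x)
      (fun τ a b => VV_deriv h t a b x) hr.1 hr.2) ⟨le_rfl, hd⟩ ⟨hd, le_rfl⟩ (fun r hr => by
      rw [min_eq_left hd, max_eq_right hd] at hr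
      refine (VV_abs h hm (t.ugL h) u2 hr.1 hr.2.le (a := c0) (c := c) (fun y => ?_) x).trans ?_
      · rw [zero_sub, abs_neg, ← sq]
        exact hL _ ⟨by linarith [hr.2], by linarith [hr.1]⟩ y
      · have := mul_le_mul_of_nonneg_left (hq r ⟨hr.1, hr.2.le⟩) hc
        linarith)
  have a2 := VV_abs h hm t.ug u2 hd le_rfl (a := A) (c := B) (fun y => by
    have e1 : At Φ m P 0 = P := tE_v0 m Φ P
    rw [sub_self, e1, ← sq]
    exact hM y) x
  rw [VV_zero h hm.ne' _ hd, sub_zero, abs_of_nonneg hd] at a1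
  have a3 := mul_le_mul_of_nonneg_left (hq d ⟨hd, le_rfl⟩) hB
  have b1 := abs_le.1 a1
  have b2 := abs_le.1 a2
  show |At Φ m P d x - Y d x| ≤ _
  rw [abs_le]
  constructor <;> linarith [b1.1, b1.2, b2.1, b2.2]

/-- the step of the recursion for the bounds -/
theorem step_le {c0 c t d x : ℝ} (hc : 0 ≤ c) (ht : 0 ≤ t) (hd : 0 ≤ d) :
    (c0 * t + c * t ^ 2 * Real.exp (2 * t)) + c0 * d +
      (c * t * Real.exp (2 * t) + c * d) * ((x ^ 2 + d) * Real.exp (2 * d)) ≤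
    (c0 * (d + t) + c * (d + t) ^ 2 * Real.exp (2 * (d + t))) +
      c * (d + t) * Real.exp (2 * (d + t)) * x ^ 2 := by
  rw [show 2 * (d + t) = 2 * t + 2 * d by ring, Real.exp_add]
  have e1 : 1 ≤ Real.exp (2 * t) := Real.one_le_exp (by positivity)
  have e2 : 1 ≤ Real.exp (2 * d) := Real.one_le_exp (by positivity)
  set E := Real.exp (2 * t)
  set E' := Real.exp (2 * d)
  have a1 : c * t * E + c * d ≤ c * (d + t) * E := by
    nlinarith [mul_le_mul_of_nonneg_left e1 (mul_nonneg hc hd)]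
  have a2 := mul_le_mul_of_nonneg_right a1 (show 0 ≤ (x ^ 2 + d) * E' by positivity)
  have a3 : c * t ^ 2 * E ≤ c * t ^ 2 * E * E' := le_mul_of_one_le_right (by positivity) e2
  have a4 : 0 ≤ c * (d * t) * E * E' := by positivity
  nlinarith

/-- `∫ (ζ - ζ')` -/
def al : List (ℝ × ℝ) → List (ℝ × ℝ) → ℝ
  | p :: l, p' :: l' => (p.1 - p'.1) * p.2 + al l l'
  | _, _ => 0

/-- `∫ (ζ - ζ')(u) u du` -/
def be : List (ℝ × ℝ) → List (ℝ × ℝ) → ℝ
  | p :: l, p' :: l' => (p.1 - p'.1) * p.2 ^ 2 / 2 + al l l' * p.2 + be l l'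
  | _, _ => 0

/-- tilts in `(0, m]`, nonnegative lengths -/
def Lo (m : ℝ) (M : List (ℝ × ℝ)) : Prop := ∀ p ∈ M, 0 < p.1 ∧ p.1 ≤ m ∧ 0 ≤ p.2

theorem Lo.tail {m : ℝ} {p : ℝ × ℝ} {M : List (ℝ × ℝ)} (h : Lo m (p :: M)) : Lo m M :=
  fun q hq => h q (List.mem_cons_of_mem _ hq)

theorem Lo.nn {m : ℝ} {M : List (ℝ × ℝ)} (h : Lo m M) : Nn M := fun q hq => (h q hq).2.2

theorem Lo.cons {m v : ℝ} {p : ℝ × ℝ} {M : List (ℝ × ℝ)} (h : Lo m (p :: M)) (hv : 0 ≤ v) :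
    Lo m ((p.1, v) :: M) := fun q hq => by
  rcases List.mem_cons.1 hq with rfl | hq
  · exact ⟨(h p List.mem_cons_self).1, (h p List.mem_cons_self).2.1, hv⟩
  · exact h.tail q hq

theorem bds {m : ℝ} (hm : 0 ≤ m) {M M' : List (ℝ × ℝ)} (hs : Sl M M') : Lo m M → Lo m M' →
    dN M M' ≤ m * TT M ∧ |al M M'| ≤ m * TT M ∧ |be M M'| ≤ m * TT M ^ 2 := by
  induction hs with
  | nil => intro _ _; simp [dN, al, be, TT]
  | @cons p p' M M' hp hl ih =>
    intro h h'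
    obtain ⟨i1, i2, i3⟩ := ih h.tail h'.tail
    obtain ⟨a1, a2, a3⟩ := h p List.mem_cons_self
    obtain ⟨b1, b2, -⟩ := h' p' List.mem_cons_self
    have hT := TT_nonneg h.tail.nn
    have e : |p.1 - p'.1| ≤ m := abs_le.2 ⟨by linarith, by linarith⟩
    have e1 := mul_le_mul_of_nonneg_right e a3
    rw [TT_cons]
    refine ⟨?_, ?_, ?_⟩
    · rw [dN, abs_sub_comm]
      linarith
    · rw [al]
      refine (abs_add_le _ _).trans ?_
      rw [abs_mul, abs_of_nonneg a3]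
      linarith
    · rw [be]
      refine (abs_add_three _ _ _).trans ?_
      rw [abs_div, abs_mul, abs_mul, abs_of_nonneg a3, abs_of_nonneg (sq_nonneg p.2), abs_two]
      have e2 := mul_le_mul_of_nonneg_right e (sq_nonneg p.2)
      have e3 := mul_le_mul_of_nonneg_right i2 a3
      nlinarith [mul_nonneg hm (mul_nonneg a3 hT), mul_nonneg hm (sq_nonneg p.2)]

theorem iter_neg {G : ℝ → ℝ} (he : ∀ x, G (-x) = G x) : ∀ (j : ℕ) (x : ℝ),
    iteratedDeriv j G (-x) = (-1) ^ j * iteratedDeriv j G x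
  | 0, x => by simpa using he x
  | j + 1, x => by
    rw [iteratedDeriv_succ]
    rcases neg_one_pow_eq_or ℝ j with h | h
    · rw [pow_succ, h, deriv_neg_of_even (fun y => by rw [iter_neg he j y, h, one_mul])]
      ring
    · rw [pow_succ, h, deriv_neg_of_odd (fun y => by rw [iter_neg he j y, h, neg_one_mul])]
      ring

theorem iter_odd_le {G : ℝ → ℝ} (hG : BD G) (he : ∀ x, G (-x) = G x) {j : ℕ} (hj : Odd j) {K : ℝ}
    (hK : ∀ x, |iteratedDeriv (j + 1) G x| ≤ K) (y : ℝ) : |iteratedDeriv j G y| ≤ K * |y| :=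
  odd_le (hG.iter j).diff (zero_of_odd fun x => by rw [iter_neg he, hj.neg_one_pow, neg_one_mul])
    (fun x => by rw [← iteratedDeriv_succ]; exact hK x) y

theorem Dn_odd_le {Φ : ℝ → ℝ} (h : Prof Φ) (he : ∀ x, Φ (-x) = Φ x) {j : ℕ} (hj : Even j) {K : ℝ}
    (hK : ∀ x, |Dn (j + 1) Φ x| ≤ K) (y : ℝ) : |Dn j Φ y| ≤ K * |y| :=
  odd_le (Dn_bd h j).diff
    (zero_of_odd fun x => by rw [Dn_neg he, hj.add_one.neg_one_pow, neg_one_mul])
    (fun x => by rw [← Dn_succ]; exact hK x) y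

/-- pointwise bound of the generator of the corrected function -/
theorem gen_le {m s C K z z' a b y u u' u1 u1' u2 u2' g1 g2 g3 : ℝ} (hC : 1 ≤ C) (hK : 0 ≤ K)
    (hs : 0 ≤ s) (hz : 0 ≤ z) (hzm : z ≤ m) (hz' : 0 ≤ z') (hzm' : z' ≤ m) (ha : |a| ≤ m * s)
    (hb : |b| ≤ m * s ^ 2) (hu : |u| ≤ |y|) (hu' : |u'| ≤ |y|) (hu1 : |u| ≤ 1) (hu1' : |u'| ≤ 1)
    (hd : |u - u'| ≤ C * (m * s) * |y|) (h1 : |u1| ≤ C) (h1' : |u1'| ≤ C) (h2 : |u2| ≤ C * |y|)
    (h2' : |u2'| ≤ C) (k1 : |g1| ≤ K * |y|) (k1' : |g1| ≤ K) (k2 : |g2| ≤ K) (k3 : |g3| ≤ K * |y|)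
    (k3' : |g3| ≤ K) :
    |z' * ((u - u') * g1) + a * (u * (-(z' * (u1' * g1)) + (z * u - z' * u') * g2)) +
      b * (u1 * (-(z' * (2 * (u1' * g2) + u2' * g1)) + (z * u - z' * u') * g3) +
        g2 * -(z * (u1 * u1)) + u2 * g3)| ≤
      6 * C ^ 2 * K * (m ^ 2 * s ^ 2) + (4 * C * K * (m ^ 2 * s) + C * K * (m * s ^ 2)) * y ^ 2 := by
  have hm : 0 ≤ m := hz.trans hzm
  have hC0 : 0 ≤ C := by linarith
  have hy := abs_nonneg y
  have az : |z| ≤ m := by rwa [abs_of_nonneg hz]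
  have az' : |z'| ≤ m := by rwa [abs_of_nonneg hz']
  have mul : ∀ {p q P Q : ℝ}, |p| ≤ P → |q| ≤ Q → |p * q| ≤ P * Q := fun h h' => by
    rw [abs_mul]
    exact mul_le_mul h h' (abs_nonneg _) ((abs_nonneg _).trans h)
  have add : ∀ {p q P Q : ℝ}, |p| ≤ P → |q| ≤ Q → |p + q| ≤ P + Q := fun h h' =>
    (abs_add_le _ _).trans (add_le_add h h')
  have sub : ∀ {p q P Q : ℝ}, |p| ≤ P → |q| ≤ Q → |p - q| ≤ P + Q := fun h h' =>
    (abs_sub _ _).trans (add_le_add h h')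
  have neg : ∀ {p P : ℝ}, |p| ≤ P → |-p| ≤ P := fun h => by rwa [abs_neg]
  have two : |(2:ℝ)| ≤ 2 := abs_two.le
  refine (add (add (mul az' (mul hd k1)) (mul ha (mul hu (add (neg (mul az' (mul h1' k1)))
    (mul (sub (mul az hu) (mul az' hu')) k2))))) (mul hb (add (add (mul h1 (add (neg (mul az'
      (add (mul two (mul h1' k2)) (mul h2' k1')))) (mul (sub (mul az hu1) (mul az' hu1')) k3')))
      (mul k2 (neg (mul az (mul h1 h1))))) (mul h2 k3)))).trans ?_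
  rw [← sq_abs y]
  have q1 : 0 ≤ K * (m ^ 2 * s) * |y| ^ 2 := by positivity
  have q2 : 0 ≤ C * K * (m ^ 2 * s ^ 2) := by positivity
  nlinarith [mul_le_mul_of_nonneg_right hC q1, mul_le_mul_of_nonneg_right hC q2]

/-- the corrected conditional expectation -/
def Yc (R R' : List (ℝ × ℝ)) (F : ℝ → ℝ) (M M' : List (ℝ × ℝ)) (x : ℝ) : ℝ :=
  EP R' F M' x + al M M' * (Dn 0 (PhiL 1 (M ++ R)) x * iteratedDeriv 1 (EP R' F M') x) +
    be M M' * (Dn 1 (PhiL 1 (M ++ R)) x * iteratedDeriv 2 (EP R' F M') x)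

theorem core (T : ℝ) : ∃ C : ℝ, 1 ≤ C ∧ ∀ (R R' : List (ℝ × ℝ)) (F : ℝ → ℝ) (K m s c0 c : ℝ),
    Sl R R' → dN R R' = 0 → BD F → (∀ x, F (-x) = F x) →
    (∀ j, 1 ≤ j → j ≤ 4 → ∀ x, |iteratedDeriv j F x| ≤ K) → 0 ≤ m → 0 ≤ s →
    c0 = C * K * (m ^ 2 * s ^ 2) → c = C * K * (m ^ 2 * s + m * s ^ 2) →
    ∀ M M' : List (ℝ × ℝ), Sl M M' → Adm 1 (M ++ R) → Adm 1 (M' ++ R') → TT (M ++ R) ≤ T →
      Lo m M → Lo m M' → TT M ≤ s → ∀ x, |EP R F M x - Yc R R' F M M' x| ≤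
        (c0 * TT M + c * TT M ^ 2 * Real.exp (2 * TT M)) +
          c * TT M * Real.exp (2 * TT M) * x ^ 2 := by
  obtain ⟨C0, h0, hD0⟩ := Dn_bound T 4
  obtain ⟨C1, h1, hD1⟩ := Dn_sl T 1
  obtain ⟨C2, h2, hE⟩ := EP_der T 4
  set C3 := C0 + C1 with hC3
  have h3 : 1 ≤ C3 := by linarith
  have h30 : 0 ≤ C3 := by linarith
  have h20 : 0 ≤ C2 := by linarith
  have h33 : C3 ≤ C3 ^ 2 := by nlinarith
  refine ⟨6 * C3 ^ 2 * C2, by nlinarith, fun R R' F K m s c0 c hR hR0 hF hev hK hm hs e0 e1 M M'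
    hsl => ?_⟩
  have hK0 : 0 ≤ K := (abs_nonneg _).trans (hK 1 le_rfl (by omega) 0)
  have hc : 0 ≤ c := by rw [e1]; positivity
  induction hsl with
  | nil => intro _ _ _ _ _ _ x; simp [EP, Yc, al, be, TT]
  | @cons p p' M M' hp hl ih =>
    intro h h' hT lo lo' hTs x
    rw [List.cons_append] at h h' hT
    have hP := PhiL_prof one_pos (M ++ R)
    have hP' := PhiL_prof one_pos (M' ++ R')
    have hd := h.2.2.1
    have hl' : Sl M M' := hl
    have htt := (hl'.append hR).tt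
    have hTM := TT_nonneg lo.tail.nn
    rw [TT_cons] at hT hTs ⊢
    have i := ih h.2.2.2 h'.2.2.2 (by linarith) lo.tail lo'.tail (by linarith)
    have hE' := EP_bd R' hF M'
    have tt := tb_time (PhiL 1 (M ++ R)) p.1
    have hY := ((Lip62.TB_change (Φ := PhiL 1 (M ++ R)) (m := p.1) (tb_Ak hP' p'.1 hE' 0)).add
      (((tt.const_mul (p.1 - p'.1)).add (TB.const (al M M'))).mul ((tb_Dn hP p.1 0).mul
        (Lip62.TB_change (tb_Ak hP' p'.1 hE' 1))))).add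
      ((((((tt.mul tt).const_mul ((p.1 - p'.1) / 2)).add (tt.const_mul (al M M'))).add
        (TB.const (be M M'))).mul ((tb_Dn hP p.1 1).mul (Lip62.TB_change (tb_Ak hP' p'.1 hE' 2)))))
    have g := block_gen hP h.1 (Lip62.head_le_one h) hd (fun v hv => u_le (adm_head h hv.1))
      (EP_bd R hF M) hY (c0 := c0) (c := c) (B := c * TT M * Real.exp (2 * TT M)) (by positivity) hc
      (fun y => by
        refine le_trans (le_of_eq ?_) (i y)
        have e : At (PhiL 1 (M' ++ R')) p'.1 (EP R' F M') 0 = EP R' F M' := tE_v0 _ _ _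
        simp only [Ak, e, gaussOp_v0 h.1.ne', max_self, mul_zero, zero_add, iteratedDeriv_zero, Yc])
      (fun v hv y => ?_) x
    · refine le_trans (le_of_eq ?_) (g.trans (step_le hc hTM hd))
      simp only [Ak, max_eq_left hd, iteratedDeriv_zero, Yc, EP, al, be, List.cons_append, PhiL,
        ← hp]
      congr 2
      unfold At
      ring
    · have a := adm_head h hv.1
      have a' := adm_head h' hv.1
      have b : TT ((p.1, v) :: (M ++ R)) ≤ T := by rw [TT_cons]; linarith [hv.2]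
      have b' : TT ((p'.1, v) :: (M' ++ R')) ≤ T := by rw [TT_cons, htt]; linarith [hv.2]
      have sv : Sl ((p.1, v) :: M) ((p'.1, v) :: M') := List.Forall₂.cons rfl hl
      have tv : TT ((p.1, v) :: M) ≤ s := by rw [TT_cons]; linarith [hv.2]
      have tv0 : 0 ≤ TT ((p.1, v) :: M) := TT_nonneg (lo.cons hv.1).nn
      obtain ⟨n1, n2, n3⟩ := bds hm sv (lo.cons hv.1) (lo'.cons hv.1)
      have n4 := mul_le_mul_of_nonneg_left tv hm
      have n5 := mul_le_mul_of_nonneg_left (pow_le_pow_left₀ tv0 tv 2) hm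
      have pr := PhiL_prof one_pos ((p.1, v) :: (M ++ R))
      have pr' := PhiL_prof one_pos ((p'.1, v) :: (M' ++ R'))
      have dD : ∀ j < 4, ∀ y, |Dn j (PhiL 1 ((p.1, v) :: (M ++ R))) y| ≤ C3 := fun j hj y =>
        (hD0 j hj _ a b y).trans (by linarith)
      have dD' : ∀ j < 4, ∀ y, |Dn j (PhiL 1 ((p'.1, v) :: (M' ++ R'))) y| ≤ C3 := fun j hj y =>
        (hD0 j hj _ a' b' y).trans (by linarith)
      have dE : ∀ j, 1 ≤ j → j ≤ 4 → ∀ y,
          |iteratedDeriv j (EP R' F ((p'.1, v) :: M')) y| ≤ C2 * K :=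
        hE ((p'.1, v) :: M') R' F K a' b' hF hK
      have bE := EP_bd R' hF ((p'.1, v) :: M')
      have eE := EP_even R' hev ((p'.1, v) :: M')
      have du : |Dn 0 (PhiL 1 ((p.1, v) :: (M ++ R))) y -
          Dn 0 (PhiL 1 ((p'.1, v) :: (M' ++ R'))) y| ≤ C3 * (m * s) * |y| := odd_le
        (g := fun y => Dn 0 (PhiL 1 ((p.1, v) :: (M ++ R))) y -
          Dn 0 (PhiL 1 ((p'.1, v) :: (M' ++ R'))) y)
        ((Dn_bd pr 0).diff.sub (Dn_bd pr' 0).diff)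
        (by simp only [Dn_zero, zero_of_odd (deriv_neg_of_even (PhiL_even _)), sub_self])
        (fun y => by
          rw [deriv_fun_sub ((Dn_bd pr 0).diff y) ((Dn_bd pr' 0).diff y), ← Dn_succ, ← Dn_succ,
            abs_sub_comm]
          have q := hD1 _ _ (sv.append hR) a a' b 1 le_rfl y
          rw [dN_append sv, hR0, add_zero] at q
          exact q.trans (mul_le_mul (by linarith) (n1.trans n4)
            (dN_nonneg _ (lo.cons hv.1).nn) h30)) y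
      have q := gen_le (z := p.1) (z' := p'.1) h3 (mul_nonneg h20 hK0) hs h.1.le
        (lo p List.mem_cons_self).2.1 h'.1.le (lo' p' List.mem_cons_self).2.1 (n2.trans n4)
        (n3.trans n5) (Dn_zero _ ▸ u_le a y) (Dn_zero _ ▸ u_le a' y) (Dn_zero _ ▸ pr.b1 y)
        (Dn_zero _ ▸ pr'.b1 y) du (dD 1 (by omega) y) (dD' 1 (by omega) y)
        (Dn_odd_le pr (PhiL_even _) even_two (dD 3 (by omega)) y) (dD' 2 (by omega) y)
        (iter_odd_le bE eE odd_one (dE 2 (by omega) (by omega)) y) (dE 1 le_rfl (by omega) y)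
        (dE 2 (by omega) (by omega) y)
        (iter_odd_le bE eE (j := 3) (by decide) (dE 4 (by omega) le_rfl) y)
        (dE 3 (by omega) (by omega) y)
      refine le_trans (le_of_eq ?_) (q.trans ?_)
      · congr 1
        simp only [LA, Ak_eq hP', D1_eq hP, D1_eq hP', Lip62.At_deriv hP, Lip62.At_deriv hP',
          Finset.sum_range_succ, Finset.range_zero, Finset.sum_empty, max_eq_left hv.1,
          al, be, PhiL, EP]
        simp only [Ak, Dn_zero]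
        unfold At
        norm_num
        ring
      · rw [e0, e1]
        have w1 : 0 ≤ C2 * K * (m ^ 2 * s) * y ^ 2 := by positivity
        have w2 : 0 ≤ C2 * K * (m * s ^ 2) * y ^ 2 := by positivity
        nlinarith [mul_le_mul_of_nonneg_right h33 w1, mul_le_mul_of_nonneg_right h33 w2,
          mul_nonneg (sq_nonneg C3) w1, mul_nonneg (sq_nonneg C3) w2]

/-! ### from lists on the same slices to arbitrary lists -/

theorem EX_bd {F : ℝ → ℝ} (hF : BD F) {l : List (ℝ × ℝ)} (h : Adm 1 l) {t : ℝ} (ht : 0 ≤ t) :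
    BD (EX 1 l t F) := by
  rw [EX_eq_EP F h ht]
  exact EP_bd _ hF _

theorem EX_even {F : ℝ → ℝ} (hF : ∀ x, F (-x) = F x) {l : List (ℝ × ℝ)} (h : Adm 1 l) {t : ℝ}
    (ht : 0 ≤ t) (x : ℝ) : EX 1 l t F (-x) = EX 1 l t F x := by
  rw [EX_eq_EP F h ht]
  exact EP_even _ hF _ x

/-- **tower property** -/
theorem tower {F : ℝ → ℝ} (hF : BD F) : ∀ {l : List (ℝ × ℝ)}, Adm 1 l → ∀ {s t : ℝ}, 0 ≤ s →
    s ≤ t → EX 1 l t F = EX 1 l s (EX 1 (rest l s) (t - s) F)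
  | [], _, _, _, _, _ => rfl
  | p :: l, h, s, t, hs, hst => by
    have hP := PhiL_prof one_pos l
    simp only [rest]
    split_ifs with h1
    · simp only [EX, if_pos h1]
      by_cases h2 : t ≤ p.2
      · rw [if_pos h2, if_pos (by linarith), show p.2 - s - (t - s) = p.2 - t by ring]
        have e := tE_semi (hP.step p.1 (p.2 - t)) h.1.ne' hs (sub_nonneg.2 hst) hF.eg
        rw [add_sub_cancel, ← gaussOp_semi hP h.1.ne' (sub_nonneg.2 hst) (sub_nonneg.2 h2),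
          show t - s + (p.2 - t) = p.2 - s by ring] at e
        exact e
      · rw [if_neg h2, if_neg (by linarith), show t - s - (p.2 - s) = t - p.2 by ring]
        have e := tE_semi hP h.1.ne' hs (sub_nonneg.2 h1)
          (EX_bd hF h.2.2.2 (t := t - p.2) (by linarith)).eg
        rw [add_sub_cancel] at e
        exact e
    · simp only [EX]
      rw [if_neg h1, if_neg (by linarith), tower hF h.2.2.2 (s := s - p.2) (t := t - p.2)
        (by linarith) (by linarith), show t - p.2 - (s - p.2) = t - s by ring]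

theorem lo_cut {m : ℝ} : ∀ {l : List (ℝ × ℝ)}, Adm 1 l → ∀ {s : ℝ}, 0 < s →
    (∀ r, 0 ≤ r → r < s → lvr 1 l r ≤ m) → Lo m (cut l s)
  | [], _, _, _, _ => fun _ hq => by simp [cut] at hq
  | p :: l, h, s, hs, hm => by
    have e : p.1 ≤ m := (lvr_mem h 0).1.trans (hm 0 le_rfl hs)
    simp only [cut]
    split_ifs with h1
    · intro q hq
      obtain rfl := List.mem_singleton.1 hq
      exact ⟨h.1, e, hs.le⟩
    · intro q hq
      rcases List.mem_cons.1 hq with rfl | hq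
      · exact ⟨h.1, e, h.2.2.1⟩
      · refine lo_cut h.2.2.2 (s := s - p.2) (by linarith) (fun r r0 r1 => ?_) q hq
        rw [← lvr_shift p l r0]
        exact hm _ (add_nonneg r0 h.2.2.1) (by linarith)

theorem dz_ii (l l' : List (ℝ × ℝ)) (a b : ℝ) :
    IntervalIntegrable (fun r => lvr 1 l r - lvr 1 l' r) volume a b :=
  (lvr_ii l a b).sub (lvr_ii l' a b)

theorem wz_ii (l l' : List (ℝ × ℝ)) (a b : ℝ) :
    IntervalIntegrable (fun r => r * (lvr 1 l r - lvr 1 l' r)) volume a b :=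
  (dz_ii l l' a b).continuousOn_mul continuousOn_id

theorem be_int {l l' : List (ℝ × ℝ)} (hs : Sl l l') : Nn l →
    al l l' = ∫ r in (0:ℝ)..TT l, (lvr 1 l r - lvr 1 l' r) ∧
      be l l' = ∫ r in (0:ℝ)..TT l, r * (lvr 1 l r - lvr 1 l' r) := by
  induction hs with
  | nil => intro _; simp [al, be, TT]
  | @cons p p' l l' hp hl ih =>
    intro h
    obtain ⟨i1, i2⟩ := ih h.tail
    have e1 : ∀ r, r < p.2 → lvr 1 (p :: l) r - lvr 1 (p' :: l') r = p.1 - p'.1 := fun r hr => by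
      simp only [lvr]
      rw [if_pos hr, if_pos (hp ▸ hr)]
    have e2 : ∀ r, 0 ≤ r → lvr 1 (p :: l) (r + p.2) - lvr 1 (p' :: l') (r + p.2) =
        lvr 1 l r - lvr 1 l' r := fun r hr => by
      rw [lvr_shift p l hr, hp, lvr_shift p' l' hr]
    have hT := TT_nonneg h.tail
    constructor
    · rw [TT_cons, int_cons (dz_ii _ _), intervalIntegral.integral_congr_Ioo_of_le h.head
        (g := fun _ => p.1 - p'.1) (fun r hr => e1 r hr.2),
        intervalIntegral.integral_congr_Ioo_of_le hT (g := fun r => lvr 1 l r - lvr 1 l' r)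
          (fun r hr => e2 r hr.1.le), ← i1, intervalIntegral.integral_const, al, smul_eq_mul]
      ring
    · rw [TT_cons, int_cons (wz_ii _ _), intervalIntegral.integral_congr_Ioo_of_le h.head
        (g := fun r => (p.1 - p'.1) * r) (fun r hr => by rw [e1 r hr.2, mul_comm]),
        intervalIntegral.integral_congr_Ioo_of_le hT
          (g := fun r => r * (lvr 1 l r - lvr 1 l' r) + p.2 * (lvr 1 l r - lvr 1 l' r))
          (fun r hr => by rw [e2 r hr.1.le, add_mul]),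
        intervalIntegral.integral_add (wz_ii _ _ _ _) ((dz_ii _ _ _ _).const_mul _),
        intervalIntegral.integral_const_mul, intervalIntegral.integral_const_mul, ← i1, ← i2,
        integral_id, be]
      ring

/-- `∫_0^s r (ζ - ζ')(r) dr` -/
def Mf (l l' : List (ℝ × ℝ)) (s : ℝ) : ℝ := ∫ r in (0:ℝ)..s, r * (lvr 1 l r - lvr 1 l' r)

/-- two lists whose tilts are at most `m` on `[0, s)` and agree above `s` -/
structure Tw (m s : ℝ) (l l' : List (ℝ × ℝ)) : Prop where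
  s0 : 0 < s
  le : ∀ r, 0 ≤ r → r < s → lvr 1 l r ≤ m
  le' : ∀ r, 0 ≤ r → r < s → lvr 1 l' r ≤ m
  eq : ∀ r, s < r → lvr 1 l' r = lvr 1 l r

theorem Tw.dz {m s : ℝ} {l l' : List (ℝ × ℝ)} (w : Tw m s l l') (h : Adm 1 l) (h' : Adm 1 l')
    {r : ℝ} (r0 : 0 ≤ r) (r1 : r < s) : |lvr 1 l' r - lvr 1 l r| ≤ m :=
  abs_le.2 ⟨by linarith [lvr_pos h' r, w.le r r0 r1], by linarith [lvr_pos h r, w.le' r r0 r1]⟩

theorem Tw.m0 {m s : ℝ} {l l' : List (ℝ × ℝ)} (w : Tw m s l l') (h : Adm 1 l) : 0 ≤ m :=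
  (lvr_pos h 0).le.trans (w.le 0 le_rfl w.s0)

theorem Tw.nf {m s : ℝ} {l l' : List (ℝ × ℝ)} (w : Tw m s l l') (h : Adm 1 l) (h' : Adm 1 l') :
    Nf l l' 0 s ≤ m * s := by
  have := intervalIntegral.integral_mono_on_of_le_Ioo w.s0.le (et_ii l l' 0 s)
    (intervalIntegrable_const (c := m)) fun r hr => w.dz h h' hr.1.le hr.2
  rw [intervalIntegral.integral_const, sub_zero, smul_eq_mul, mul_comm] at this
  exact this

theorem Tw.mf {m s : ℝ} {l l' : List (ℝ × ℝ)} (w : Tw m s l l') (h : Adm 1 l) (h' : Adm 1 l') :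
    |Mf l l' s| ≤ m * s ^ 2 := by
  have := intervalIntegral.norm_integral_le_of_norm_le_const_ae (a := 0) (b := s) (C := s * m)
    (f := fun r => r * (lvr 1 l r - lvr 1 l' r)) (by
      filter_upwards [Measure.ae_ne volume s] with r hr h1
      rw [uIoc_of_le w.s0.le] at h1
      rw [Real.norm_eq_abs, abs_mul, abs_of_pos h1.1, abs_sub_comm]
      exact mul_le_mul h1.2 (w.dz h h' h1.1.le (lt_of_le_of_ne h1.2 hr)) (abs_nonneg _) w.s0.le)
  rw [Real.norm_eq_abs, sub_zero, abs_of_pos w.s0] at this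
  exact this.trans_eq (by ring)

/-- **TWIN**, coefficients at the time `0` -/
theorem twin0 (T : ℝ) : ∃ C : ℝ, 1 ≤ C ∧ ∀ (l l' : List (ℝ × ℝ)) (m s t : ℝ) (F : ℝ → ℝ) (K : ℝ),
    Adm 1 l → Adm 1 l' → TT l' = TT l → TT l ≤ T → Tw m s l l' → s ≤ t → t ≤ TT l → BD F →
    (∀ x, F (-x) = F x) → (∀ j, 1 ≤ j → j ≤ 4 → ∀ x, |iteratedDeriv j F x| ≤ K) →
    |Pr.Et l t F - Pr.Et l' t F - Pr.chi l' * iteratedDeriv 2 (EX 1 l' t F) 0 * Mf l l' s| ≤
      C * K * (m * s ^ 3 * (m + s)) := by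
  obtain ⟨C0, h0, hC⟩ := core T
  obtain ⟨C1, h1, hD⟩ := Dn_lip T 1
  obtain ⟨C2, h2, hE⟩ := EX_der T 4
  set A := Real.exp (2 * |T|) with hA
  have hA1 : 1 ≤ A := Real.one_le_exp (by positivity)
  have p0 : 0 ≤ C0 := by linarith
  have p1 : 0 ≤ C1 := by linarith
  have p2 : 0 ≤ C2 := by linarith
  have p3 : 0 ≤ C0 * C2 * (1 + A) := by positivity
  refine ⟨C0 * C2 * (1 + A) + C1 * C2, by linarith [one_le_mul_of_one_le_of_one_le h1 h2],
    fun l l' m s t F K h h' e hT w hst ht hF hev hK => ?_⟩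
  have hK0 : 0 ≤ K := (abs_nonneg _).trans (hK 1 le_rfl (by omega) 0)
  have s0 := w.s0.le
  have t0 := s0.trans hst
  have m0 := w.m0 h
  obtain ⟨a, a', hs, ha, ha', q, q'⟩ := exists_sl h h' e
  obtain ⟨c1, c2, c3⟩ := adm_cut ha s0
  obtain ⟨c1', -, -⟩ := adm_cut ha' s0
  have sT : s ≤ TT a := q.tt ▸ hst.trans ht
  obtain ⟨r1, r2, -⟩ := Min62.rest_adm ha s s0 sT
  have r1' := (Lip62.adm_rest ha' s s0).1
  have tM : TT (cut a s) = s := by
    rw [TT_append, r2] at c3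
    linarith
  have lo := lo_cut ha w.s0 fun r r0 r1 => q.lv r r0 ▸ w.le r r0 r1
  have lo' := lo_cut ha' w.s0 fun r r0 r1 => q'.lv r r0 ▸ w.le' r r0 r1
  have n0 : dN (rest a s) (rest a' s) = 0 := by
    rw [(dN_int (hs.cut s).2 (nn_of_adm r1)).1]
    exact Nf_zero (Min62.TT_nn r1) fun r r0 _ => by
      have : 0 ≤ r + s := by linarith
      rw [lvr_rest a s r0.le, lvr_rest a' s r0.le, ← q.lv _ this, ← q'.lv _ this,
        w.eq _ (by linarith)]
  obtain ⟨B, hB⟩ := hF.bc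
  have ts := sub_nonneg.2 hst
  set G := EX 1 (rest a s) (t - s) F with hG
  have eG : EX 1 (rest a' s) (t - s) F = G :=
    ((eqv_of_dN (hs.cut s).2 r1 r1' n0).ex _ ts F B hB).symm
  have e1 : EX 1 l t F = EP (rest a s) G (cut a s) := by
    rw [q.ex t t0 F B hB, tower hF ha s0 hst, EX_eq_EP _ ha s0]
  have e2 : EX 1 l' t F = EP (rest a' s) G (cut a' s) := by
    rw [q'.ex t t0 F B hB, tower hF ha' s0 hst, eG, EX_eq_EP _ ha' s0]
  have e3 : be (cut a s) (cut a' s) = Mf l l' s := by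
    rw [(be_int (hs.cut s).1 lo.nn).2, tM]
    exact intervalIntegral.integral_congr_Ioo_of_le s0 fun r hr => by
      rw [lvr_cut a hr.2, lvr_cut a' hr.2, q.lv r hr.1.le, q'.lv r hr.1.le]
  have e4 : PhiL 1 (cut a s ++ rest a s) = PhiT 1 l 0 := by
    rw [c2, ← q.phi, PhiT_zero (nn_of_adm h)]
  have k := hC _ _ G (C2 * K) m s _ _ (hs.cut s).2 n0 (EX_bd hF r1 ts) (EX_even hev r1 ts)
    (hE _ r1 (by rw [r2, ← q.tt]; linarith) _ ts F K hF hK) m0 s0 rfl rfl _ _ (hs.cut s).1 c1 c1'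
    (by rw [c3, ← q.tt]; exact hT) lo lo' tM.le 0
  rw [Yc, ← e1, ← e2, e3, e4, tM, Dn_zero, zero_of_odd (deriv_neg_of_even (PhiT_even l 0))] at k
  have k1 := hD l l' h h' e hT 0 ⟨le_rfl, t0.trans ht⟩ 1 le_rfl 0
  rw [← Nf_add l l' 0 s, Nf_zero (hst.trans ht) fun r r0 _ => w.eq r r0, add_zero] at k1
  have k2 := hE l' h' (e ▸ hT) t t0 F K hF hK 2 (by omega) (by omega) 0
  have k3 := w.mf h h'
  have k4 : |(Dn 1 (PhiT 1 l' 0) 0 - Dn 1 (PhiT 1 l 0) 0) * iteratedDeriv 2 (EX 1 l' t F) 0 *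
      Mf l l' s| ≤ C1 * (m * s) * (C2 * K) * (m * s ^ 2) := by
    rw [abs_mul, abs_mul]
    have := k1.trans (mul_le_mul_of_nonneg_left (w.nf h h') (by linarith))
    gcongr
  have hx : Real.exp (2 * s) ≤ A := Real.exp_le_exp.2 (by linarith [le_abs_self T, hst.trans ht])
  have k5 : C0 * (C2 * K) * (m ^ 2 * s + m * s ^ 2) * s ^ 2 * Real.exp (2 * s) ≤
      C0 * (C2 * K) * (m ^ 2 * s + m * s ^ 2) * s ^ 2 * A := by gcongr
  have k6 : 0 ≤ C0 * C2 * K * (m * s ^ 4) := by positivity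
  have k7 : 0 ≤ C1 * C2 * K * (m * s ^ 4) := by positivity
  have b1 := abs_le.1 k
  have b2 := abs_le.1 k4
  unfold Pr.Et Pr.chi Pr.Dk
  rw [abs_le]
  constructor <;> linarith [b1.1, b1.2, b2.1, b2.2]

/-! ### moving the time at which the coefficients are read -/

theorem tb_lip {Φ : ℝ → ℝ} {m : ℝ} {F LF Fx : ℝ → ℝ → ℝ} (h : TB Φ m F LF Fx) {d C x : ℝ}
    (hd : 0 ≤ d) (hb : ∀ v ∈ Icc 0 d, |LF v x| + |deriv (Fx v) x| + |Dk Φ m 1 v x * Fx v x| ≤ C) :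
    |F d x - F 0 x| ≤ C * d := by
  rcases hd.eq_or_lt with rfl | hd
  · simp
  obtain ⟨Fv, Fxx, a1, -, a3, a4, -, -, -, a8⟩ := h
  obtain ⟨c, hc, e⟩ := exists_hasDerivAt_eq_slope (fun v => F v x) (fun v => Fv v x) hd
    (a4.cont.comp (by fun_prop : Continuous fun v : ℝ => (v, x))).continuousOn
    fun v hv => a1 v x hv.1
  rw [sub_zero, eq_div_iff hd.ne'] at e
  rw [← e, abs_mul, abs_of_pos hd]
  refine mul_le_mul_of_nonneg_right (le_trans ?_ (hb c ⟨hc.1.le, hc.2.le⟩)) hd.le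
  rw [(a3 c x).deriv, show Fv c x = -LF c x + 1 / 2 * Fxx c x + Dk Φ m 1 c x * Fx c x by
    rw [a8]; ring]
  refine (abs_add_three _ _ _).trans ?_
  rw [abs_neg, abs_mul, abs_of_pos (show (0:ℝ) < 1 / 2 by norm_num)]
  linarith [abs_nonneg (Fxx c x)]

theorem Dk_le {p : ℝ × ℝ} {l : List (ℝ × ℝ)} (h : Adm 1 (p :: l)) (v x : ℝ) :
    |Dk (PhiL 1 l) p.1 1 v x| ≤ 1 := by
  have hP := PhiL_prof one_pos l
  rw [D1_eq hP, Lip62.At_deriv hP, abs_mul, abs_of_pos h.1]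
  exact mul_le_one₀ (Lip62.head_le_one h) (abs_nonneg _) ((hP.step p.1 v).b1 x)

theorem shift_sl (T : ℝ) (k : ℕ) : ∃ C : ℝ, 1 ≤ C ∧ ∀ R M : List (ℝ × ℝ), Adm 1 (M ++ R) →
    TT (M ++ R) ≤ T → ∀ j ≤ k, ∀ x, |Dn j (PhiL 1 (M ++ R)) x - Dn j (PhiL 1 R) x| ≤ C * TT M ∧
      ∀ (F : ℝ → ℝ) (K : ℝ), BD F → (∀ i, 1 ≤ i → i ≤ k + 2 → ∀ y, |iteratedDeriv i F y| ≤ K) →
        |iteratedDeriv j (EP R F M) x - iteratedDeriv j F x| ≤ C * K * TT M := by
  obtain ⟨C0, h0, hD⟩ := Dn_bound T (k + 3)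
  obtain ⟨C2, h2, hE⟩ := EP_der T (k + 2)
  have p0 : 0 ≤ C0 := by linarith
  have p2 : 0 ≤ C2 := by linarith
  have q1 : (0:ℝ) ≤ 2 ^ k * (C0 * C0) := by positivity
  have q2 : (0:ℝ) ≤ 2 ^ k * (C0 * C2) := by positivity
  refine ⟨2 ^ k * (C0 * C0) + 2 * C0 + (2 ^ k * (C0 * C2) + 2 * C2), by linarith,
    fun R M => ?_⟩
  induction M with
  | nil => intro _ _ j _ x; simp [TT, EP]
  | cons p M ih =>
    intro h hT j hj x
    rw [List.cons_append] at h hT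
    rw [TT_cons] at hT ⊢
    have hd := h.2.2.1
    have hP := PhiL_prof one_pos (M ++ R)
    obtain ⟨i1, i2⟩ := ih h.2.2.2 (by linarith) j hj x
    have hm : |-p.1| ≤ 1 := by rw [abs_neg, abs_of_pos h.1]; exact Lip62.head_le_one h
    have dD : ∀ v ∈ Icc 0 p.2, ∀ i < k + 3, |Dn i (gaussOp p.1 v (PhiL 1 (M ++ R))) x| ≤ C0 :=
      fun v hv i hi => hD i hi _ (adm_head h hv.1) (by rw [TT_cons]; linarith [hv.2]) x
    have mul : ∀ {a b A B : ℝ}, |a| ≤ A → |b| ≤ B → |a * b| ≤ A * B := fun h h' => by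
      rw [abs_mul]
      exact mul_le_mul h h' (abs_nonneg _) ((abs_nonneg _).trans h)
    refine ⟨?_, fun F K hF hK => ?_⟩
    · have a := tb_lip (tb_Dn hP p.1 j) (x := x) (C := 2 ^ k * (C0 * C0) + 2 * C0) hd fun v hv => by
        have b1 := mul hm (abs_sum_le hj (a := fun i => Dn (i + 1) (gaussOp p.1 v (PhiL 1 (M ++ R))) x)
          (b := fun i => Dn (j - i) (gaussOp p.1 v (PhiL 1 (M ++ R))) x) (mul_nonneg p0 p0)
          fun i hi => mul (dD v hv _ (by omega)) (dD v hv _ (by omega)))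
        have b2 := mul (Dk_le h v x) (dD v hv (j + 1) (by omega))
        have b3 := dD v hv (j + 1 + 1) (by omega)
        rw [Dn_succ] at b3
        linarith
      rw [gaussOp_v0 h.1.ne'] at a
      have b1 := abs_le.1 a
      have b2 := abs_le.1 i1
      have b3 := mul_nonneg (show 0 ≤ 2 ^ k * (C0 * C2) + 2 * C2 by linarith) hd
      rw [abs_le]
      simp only [List.cons_append, PhiL]
      constructor <;> linarith [b1.1, b1.2, b2.1, b2.2]
    · have hK0 : 0 ≤ K := (abs_nonneg _).trans (hK 1 le_rfl (by omega) 0)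
      have dE : ∀ v ∈ Icc 0 p.2, ∀ i, 1 ≤ i → i ≤ k + 2 → ∀ y,
          |Ak (PhiL 1 (M ++ R)) p.1 (EP R F M) i v y| ≤ C2 * K := fun v hv =>
        hE ((p.1, v) :: M) R F K (adm_head h hv.1)
          (by rw [List.cons_append, TT_cons]; linarith [hv.2]) hF hK
      have a := tb_lip (tb_Ak hP p.1 (EP_bd R hF M) j) (x := x)
        (C := (2 ^ k * (C0 * C2) + 2 * C2) * K) hd fun v hv => by
        have b1 := mul hm (abs_sum_le hj (a := fun i => Dn (i + 1) (gaussOp p.1 v (PhiL 1 (M ++ R))) x)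
          (b := fun i => Ak (PhiL 1 (M ++ R)) p.1 (EP R F M) (j - i) v x)
          (mul_nonneg p0 (mul_nonneg p2 hK0))
          fun i hi => mul (dD v hv _ (by omega)) (dE v hv _ (by omega) (by omega) x))
        have b2 := mul (Dk_le h v x) (dE v hv (j + 1) (by omega) (by omega) x)
        have b3 := dE v hv (j + 1 + 1) (by omega) (by omega) x
        have e : Ak (PhiL 1 (M ++ R)) p.1 (EP R F M) (j + 1 + 1) v x =
            deriv (Ak (PhiL 1 (M ++ R)) p.1 (EP R F M) (j + 1) v) x := by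
          unfold Ak
          rw [iteratedDeriv_succ]
        rw [e] at b3
        simp only [LA, Ak_eq hP]
        linarith
      have e : At (PhiL 1 (M ++ R)) p.1 (EP R F M) 0 = EP R F M := tE_v0 _ _ _
      simp only [Ak, e] at a
      have b1 := abs_le.1 a
      have b2 := abs_le.1 (i2 F K hF hK)
      have b3 := mul_nonneg (mul_nonneg (show 0 ≤ 2 ^ k * (C0 * C0) + 2 * C0 by linarith) hK0) hd
      rw [abs_le]
      have e2 : EP R F (p :: M) = At (PhiL 1 (M ++ R)) p.1 (EP R F M) p.2 := rfl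
      rw [e2]
      constructor <;> linarith [b1.1, b1.2, b2.1, b2.2]

theorem tt_cut {l : List (ℝ × ℝ)} (h : Adm 1 l) {u : ℝ} (hu : u ∈ Icc 0 (TT l)) :
    TT (cut l u) = u := by
  have c3 := (adm_cut h hu.1).2.2
  rw [TT_append, (Min62.rest_adm h u hu.1 hu.2).2.1] at c3
  linarith

/-- the data at the time `u` against the data at the time `0` -/
theorem shift (T : ℝ) (k : ℕ) : ∃ C : ℝ, 1 ≤ C ∧ ∀ l : List (ℝ × ℝ), Adm 1 l → TT l ≤ T →
    ∀ u ∈ Icc 0 (TT l), ∀ j ≤ k, ∀ x, |Pr.Dk j l 0 x - Pr.Dk j l u x| ≤ C * u ∧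
      ∀ (F : ℝ → ℝ) (K t : ℝ), u ≤ t → BD F →
        (∀ i, 1 ≤ i → i ≤ k + 2 → ∀ y, |iteratedDeriv i F y| ≤ K) →
        |iteratedDeriv j (EX 1 l t F) x - iteratedDeriv j (EX 1 (rest l u) (t - u) F) x| ≤
          C * K * u := by
  obtain ⟨C, h1, hC⟩ := shift_sl T k
  obtain ⟨C2, h2, hE⟩ := EX_der T (k + 2)
  refine ⟨C * C2, one_le_mul_of_one_le_of_one_le h1 h2, fun l h hT u hu j hj x => ?_⟩
  obtain ⟨c1, c2, c3⟩ := adm_cut h hu.1
  obtain ⟨r1, r2⟩ := Lip62.adm_rest h u hu.1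
  obtain ⟨a, b⟩ := hC (rest l u) (cut l u) c1 (c3 ▸ hT) j hj x
  rw [tt_cut h hu] at a b
  refine ⟨?_, fun F K t ht hF hK => ?_⟩
  · unfold Pr.Dk
    rw [PhiT_zero (nn_of_adm h), Lip62.PhiT_eq_rest, ← c2]
    exact a.trans (mul_le_mul_of_nonneg_right (le_mul_of_one_le_right (by linarith) h2) hu.1)
  · have tu := sub_nonneg.2 ht
    rw [tower hF h hu.1 ht, EX_eq_EP _ h hu.1, mul_assoc C]
    exact b _ _ (EX_bd hF r1 tu) (hE _ r1 (r2.trans hT) _ tu F K hF hK)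

/-- `∂_yy E[F(X_t) | X_u = y]` at `y = 0` -/
def Hs (l : List (ℝ × ℝ)) (u t : ℝ) (F : ℝ → ℝ) : ℝ :=
  iteratedDeriv 2 (EX 1 (rest l u) (t - u) F) 0

/-- **TWIN**, coefficients at any time `u ≤ t` -/
theorem twin (T : ℝ) : ∃ C : ℝ, 1 ≤ C ∧ ∀ (l l' : List (ℝ × ℝ)) (m s t u : ℝ) (F : ℝ → ℝ) (K : ℝ),
    Adm 1 l → Adm 1 l' → TT l' = TT l → TT l ≤ T → Tw m s l l' → s ≤ t → t ≤ TT l → 0 ≤ u → u ≤ t →
    BD F → (∀ x, F (-x) = F x) → (∀ j, 1 ≤ j → j ≤ 4 → ∀ x, |iteratedDeriv j F x| ≤ K) →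
    |Pr.Et l t F - Pr.Et l' t F - Pr.Dk 1 l' u 0 * Hs l' u t F * Mf l l' s| ≤
      C * K * (m * s ^ 2 * (s * (m + s) + u)) := by
  obtain ⟨C0, h0, hC⟩ := twin0 T
  obtain ⟨C1, h1, hS⟩ := shift T 2
  obtain ⟨C2, h2, hE⟩ := EX_der T 4
  obtain ⟨C3, h3, hD⟩ := Dn_bound T 2
  have p0 : 0 ≤ C0 := by linarith
  have p1 : 0 ≤ C1 := by linarith
  have p2 : 0 ≤ C2 := by linarith
  have p3 : 0 ≤ C3 := by linarith
  have p4 : 0 ≤ C1 * C2 + C3 * C1 := by positivity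
  refine ⟨C0 + (C1 * C2 + C3 * C1), by linarith,
    fun l l' m s t u F K h h' e hT w hst ht u0 ut hF hev hK => ?_⟩
  have hK0 : 0 ≤ K := (abs_nonneg _).trans (hK 1 le_rfl (by omega) 0)
  have s0 := w.s0.le
  have m0 := w.m0 h
  have hu : u ∈ Icc 0 (TT l') := ⟨u0, e ▸ ut.trans ht⟩
  have a := hC l l' m s t F K h h' e hT w hst ht hF hev hK
  have a1 := (hS l' h' (e ▸ hT) u hu 1 (by omega) 0).1
  have a2 := (hS l' h' (e ▸ hT) u hu 2 le_rfl 0).2 F K t ut hF hK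
  have a3 := hE l' h' (e ▸ hT) t (s0.trans hst) F K hF hK 2 (by omega) (by omega) 0
  have a4 : |Pr.Dk 1 l' u 0| ≤ C3 := by
    unfold Pr.Dk
    rw [Lip62.PhiT_eq_rest]
    exact hD 1 (by omega) _ (Lip62.adm_rest h' u u0).1 ((Lip62.adm_rest h' u u0).2.trans (e ▸ hT)) 0
  have a5 := w.mf h h'
  have b1 : |(Pr.Dk 1 l' 0 0 - Pr.Dk 1 l' u 0) * iteratedDeriv 2 (EX 1 l' t F) 0 * Mf l l' s| ≤
      C1 * u * (C2 * K) * (m * s ^ 2) := by
    rw [abs_mul, abs_mul]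
    gcongr
  have b2 : |Pr.Dk 1 l' u 0 * (iteratedDeriv 2 (EX 1 l' t F) 0 - Hs l' u t F) * Mf l l' s| ≤
      C3 * (C1 * K * u) * (m * s ^ 2) := by
    rw [abs_mul, abs_mul]
    unfold Hs
    gcongr
  have k1 : 0 ≤ C0 * K * (m * s ^ 2 * u) := by positivity
  have k2 : 0 ≤ (C1 * C2 + C3 * C1) * K * (m * s ^ 2 * (s * (m + s))) := by positivity
  have c0 := abs_le.1 a
  have c1 := abs_le.1 b1
  have c2 := abs_le.1 b2
  unfold Pr.chi at c0
  rw [abs_le]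
  constructor <;> linarith [c0.1, c0.2, c1.1, c1.2, c2.1, c2.2]

/-! ### constants independent of the length of the reveal -/

theorem red {a l : List (ℝ × ℝ)} (h : Adm 1 a) (h2 : Adm 1 l) (hT : TT a ≤ TT l)
    (hz : ∀ s, 0 < s → s < TT l → lvr 1 l s = lvr 1 a s) {t : ℝ} (ht : t ∈ Icc 0 (TT l))
    {F : ℝ → ℝ} (hF : BD F) :
    EX 1 l t F = EX 1 a (min t (TT a)) (tE 1 (t - min t (TT a)) (phi0 1) F) := by
  obtain ⟨-, b, c⟩ := ext_le h h2 hT hz
  rcases le_total t (TT a) with h1 | h1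
  · rw [min_eq_left h1, sub_self, tE_v0, b t ⟨ht.1, h1⟩ F hF]
  · rw [min_eq_right h1, c t ⟨h1, ht.2⟩ F hF]

/-- **TWIN**, uniformly in the length of the reveal: `C` depends on `T1 ≤ T` only -/
theorem twin' (T : ℝ) : ∃ C : ℝ, 1 ≤ C ∧ ∀ (T1 : ℝ) (l l' : List (ℝ × ℝ)) (m s t u : ℝ) (F : ℝ → ℝ)
    (K : ℝ), Tp T1 l → Tp T1 l' → T1 ≤ T → Tw m s l l' → s ≤ T1 → s ≤ t → t ≤ TT l → t ≤ TT l' →
    0 ≤ u → u ≤ t → u ≤ T1 → BD F → (∀ x, F (-x) = F x) → Bk 4 F K →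
    |Pr.Et l t F - Pr.Et l' t F - Pr.Dk 1 l' u 0 * Hs l' u t F * Mf l l' s| ≤
      C * K * (m * s ^ 2 * (s * (m + s) + u)) := by
  obtain ⟨C, h1, hC⟩ := twin T
  obtain ⟨C2, h2, hB⟩ := top_bk 4
  refine ⟨C * C2, one_le_mul_of_one_le_of_one_le h1 h2,
    fun T1 l l' m s t u F K h h' hT w s1 hst ht ht' u0 ut u1 hF hev hK => ?_⟩
  obtain ⟨a, b, c, -⟩ := h.ext
  obtain ⟨a', b', c', sm, -⟩ := h'.ext
  have t0 := u0.trans ut
  have e := red a h.adm (b.trans_le h.mem.2) (fun s _ _ => by rw [c]) ⟨t0, ht⟩ hF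
  have e' := red a' h'.adm (b'.trans_le h'.mem.2) (fun s _ _ => by rw [c']) ⟨t0, ht'⟩ hF
  obtain ⟨r1, r2, -⟩ := Min62.rest_adm a' u u0 (u1.trans_eq b'.symm)
  obtain ⟨r3, r4, -⟩ := Min62.rest_adm h'.adm u u0 (ut.trans ht')
  have e'' := red r1 r3 (by rw [r2, r4, b']; linarith [h'.mem.2]) (fun s s0 _ => by
    rw [lvr_rest _ u s0.le, lvr_rest _ u s0.le, c']) (t := t - u)
    ⟨sub_nonneg.2 ut, by rw [r4]; linarith⟩ hF
  rw [b] at e
  rw [b'] at e'
  rw [r2, b', min_sub_sub_right, show t - u - (min t T1 - u) = t - min t T1 by ring] at e''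
  have k := hC (cut l T1) (cut l' T1) m s (min t T1) u (tE 1 (t - min t T1) (phi0 1) F) (C2 * K) a a'
    (b'.trans b.symm) (b.trans_le hT) ⟨w.s0, c ▸ w.le, c' ▸ w.le', c ▸ c' ▸ w.eq⟩ (le_min hst s1)
    ((min_le_right _ _).trans_eq b.symm) u0 (le_min ut u1) ((phi0_prof one_pos).tE_bd _ _ hF)
    (tE_even (phi0_even 1) hev _ _) fun j _ hj => bk_iff.1 (hB _ F K hF hK) j hj
  unfold Pr.Et Hs Mf at k ⊢
  rw [e, e', e'', sm.dk 1 u u0, ← c, ← c', mul_assoc C]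
  exact k

/-! ### instances -/

theorem iter_Dk (i j : ℕ) (l : List (ℝ × ℝ)) (t : ℝ) :
    iteratedDeriv i (Pr.Dk j l t) = Pr.Dk (i + j) l t := by
  simp only [Pr.Dk, Dn, iteratedDeriv_eq_iterate, Function.iterate_add_apply]

theorem bk_Dk (T : ℝ) (k : ℕ) : ∃ C : ℝ, 1 ≤ C ∧ ∀ (T1 : ℝ) (l : List (ℝ × ℝ)), Tp T1 l → T1 ≤ T →
    ∀ t, 0 ≤ t → ∀ j ≤ k, Bk k (Pr.Dk j l t) C := by
  obtain ⟨C, h1, hC⟩ := Dn_bound' T (k + k)
  exact ⟨C, h1, fun T1 l h hT t ht j hj => bk_iff.2 fun i hi x => by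
    rw [iter_Dk]; exact hC T1 l h hT t ht _ (by omega) x⟩

theorem Tw.dk {T1 m s t : ℝ} {l l' : List (ℝ × ℝ)} (w : Tw m s l l') (h : Tp T1 l) (h' : Tp T1 l')
    (s1 : s ≤ T1) (hst : s ≤ t) (j : ℕ) : Pr.Dk j l' t = Pr.Dk j l t := by
  obtain ⟨C, -, hC⟩ := Dn_lip' T1 j
  funext x
  have := hC T1 l l' h h' le_rfl t (w.s0.le.trans hst) j le_rfl x
  rw [Nf_zero (min_le_right _ _) fun r r0 _ => w.eq r ((le_min hst s1).trans_lt r0), mul_zero] at this
  exact sub_eq_zero.1 (abs_nonpos_iff.1 this)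

/-- `ψ = -(1/2) ∂_yy Γ(t | X_u = y)` at `y = 0` -/
def psi (l : List (ℝ × ℝ)) (u t : ℝ) : ℝ := -(1 / 2) * Hs l u t fun x => Pr.Dk 0 l t x ^ 2

/-- **TWIN** for `Γ`, `G` and `E Φ_xx` -/
theorem twin_fun (T : ℝ) : ∃ C : ℝ, 1 ≤ C ∧ ∀ (T1 : ℝ) (l l' : List (ℝ × ℝ)) (m s t u : ℝ),
    Tp T1 l → Tp T1 l' → T1 ≤ T → Tw m s l l' → s ≤ T1 → s ≤ t → t ≤ TT l → t ≤ TT l' →
    0 ≤ u → u ≤ t → u ≤ T1 →
    |Pr.Gam l t - Pr.Gam l' t + 2 * (Pr.Dk 1 l' u 0 * psi l' u t) * Mf l l' s| ≤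
      C * (m * s ^ 2 * (s * (m + s) + u)) ∧
    |Pr.GG l t - Pr.GG l' t - Pr.Dk 1 l' u 0 * Hs l' u t (fun x => Pr.Dk 1 l' t x ^ 2) * Mf l l' s| ≤
      C * (m * s ^ 2 * (s * (m + s) + u)) ∧
    |Pr.Et l t (Pr.Dk 1 l t) - Pr.Et l' t (Pr.Dk 1 l' t) -
      Pr.Dk 1 l' u 0 * Hs l' u t (Pr.Dk 1 l' t) * Mf l l' s| ≤
      C * (m * s ^ 2 * (s * (m + s) + u)) := by
  obtain ⟨C, h1, hC⟩ := twin' T
  obtain ⟨D, h2, hD⟩ := bk_Dk T 4
  have hDD : D ≤ 2 ^ 4 * (D * D) := by nlinarith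
  refine ⟨C * (2 ^ 4 * (D * D)), one_le_mul_of_one_le_of_one_le h1 (h2.trans hDD),
    fun T1 l l' m s t u h h' hT w s1 hst ht ht' u0 ut u1 => ?_⟩
  have k := fun F => hC T1 l l' m s t u F (2 ^ 4 * (D * D)) h h' hT w s1 hst ht ht' u0 ut u1
  have b := hD T1 l' h' hT t (u0.trans ut)
  have n : ∀ j x, Pr.Dk j l' t (-x) = (-1) ^ (j + 1) * Pr.Dk j l' t x := Dn_neg (PhiT_even l' t)
  have sq : ∀ j ≤ 4, |Pr.Et l t (fun x => Pr.Dk j l t x ^ 2) - Pr.Et l' t (fun x => Pr.Dk j l' t x ^ 2)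
      - Pr.Dk 1 l' u 0 * Hs l' u t (fun x => Pr.Dk j l' t x ^ 2) * Mf l l' s| ≤
      C * (2 ^ 4 * (D * D)) * (m * s ^ 2 * (s * (m + s) + u)) := fun j hj => by
    rw [← w.dk h h' s1 hst j]
    refine k _ ((Dk_bd j l' t).pow 2) (fun x => ?_) ?_
    · rw [n, mul_pow, ← pow_mul, mul_comm (j + 1), pow_mul, neg_one_sq, one_pow, one_mul]
    · simp only [pow_two]
      exact Bk.mul (Dk_bd j l' t) (Dk_bd j l' t) (b j hj) (b j hj)
  refine ⟨le_trans (le_of_eq ?_) (sq 0 (by omega)), sq 1 (by omega), ?_⟩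
  · unfold Pr.Gam psi
    congr 1
    ring
  · rw [← w.dk h h' s1 hst 1]
    exact k _ (Dk_bd 1 l' t) (fun x => by rw [n]; ring) ((b 1 (by omega)).mono hDD)

/-! ### node lists: the nodes `1, …, i` are moved -/



end

end Crest.Agent.T156.Twin20
private theorem rz_ca93fa6e74 : type_of% @_root_.Crest.Agent.T156.Twin20.al.eq_def := @_root_.Crest.Agent.T156.Twin20.al.eq_def -- L89
private theorem rz_0a1b7cb3d6 : type_of% @_root_.Crest.Agent.T156.Twin20.al.eq_1 := @_root_.Crest.Agent.T156.Twin20.al.eq_1 -- L89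
private theorem rz_ff5ea8e1a8 : type_of% @_root_.Crest.Agent.T156.Twin20.be.eq_def := @_root_.Crest.Agent.T156.Twin20.be.eq_def -- L94
private theorem rz_96061edec0 : type_of% @_root_.Crest.Agent.T156.Twin20.be.eq_1 := @_root_.Crest.Agent.T156.Twin20.be.eq_1 -- L94
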