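import Crest.Agent.T156.R1MixB_65
import Crest.Agent.T156.R1P_73
import Crest.Agent.T156.R1Alg_77
import Crest.Agent.T156.Twin_20

-- ▼ part T156/R1MixC_65
section

/-!
Row 156 (helper65): transfer of the site words from the reference list to the cavity list
(same labels above the cut `c`, times `0` below the cut, one more dead level at the root).
-/

set_option autoImplicit false
set_option linter.unusedSectionVars false

noncomputable section

namespace Crest.Agent.T156.Hess65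

open MeasureTheory Real Set Filter Topology
open Crest.Agent.T157.E Crest.Agent.T157.Casc Crest.Agent.T157.SL Crest.Agent.T157.Casc.C
open Crest.Agent.T157 Crest.Agent.T156.Cas
open Crest.ProbabilityR.SpinGlassDynamics (spin)
open Crest.Agent.T156.Pp
open Crest.Agent.T156.Pp.Area50 hiding ind
open Crest.Agent.T156.Cas.Ker15 (R1)
open Crest.Agent.T156.Cas.R1J (n1 ind off G S1)
open Crest.Agent.T156.Cas.R1P (len_rk ex_rk dm_rk n1_rk nd_rk rk_sML up_np)

/-- the part above the cut -/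
def ct (c : ℕ) (f : ℕ → ℝ) (k : ℕ) : ℝ := if k ≤ c then 0 else f k

/-- the same in cascade indices -/
def up1 (c : ℕ) (f : ℕ → ℝ) (j : ℕ) : ℝ := if j ≤ c + 1 then 0 else f (j - 1)

variable {z s σ f : ℕ → ℝ} {N c k : ℕ} {L Lr Lc : List (Lv Bool)}

theorem up1_eq (c : ℕ) (f : ℕ → ℝ) : up1 c f = fun j => ct c f (j - 1) := by
  funext j
  simp only [up1, ct, tsub_le_iff_right]

theorem ct_lo (h : k ≤ c) : ct c f k = 0 := if_pos h

theorem ct_hi (h : c < k) : ct c f k = f k := if_neg h.not_ge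

theorem ind_sh (hk : 0 < k) : ind (k + 1) = fun j => ind k (j - 1) := by
  funext j
  unfold ind
  split_ifs <;> first | rfl | omega

theorem ex_rk1 (z : ℕ → ℝ) (h : Up σ N) : ∃ L, List.Forall₂ (Rk1 spin) L (lsg z σ N) :=
  ⟨_, rk_sML (σ := fun _ => σ) (σ' := fun _ => σ) (τ := 0) h⟩

theorem mono_rk (H : List.Forall₂ (Rk1 spin) L (lsg z σ N)) (hz : Pr.Lab z N) (hσ : Up σ N) :
    Mono 0 L := by
  have a := adm_lsg N z σ (hz.top N le_rfl) hz.pos (fun j _ => hz.mono (Nat.le_succ j)) hσ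
  exact mono_of H a (a.head_pos one_pos).le

theorem tm_rk (H : List.Forall₂ (Rk1 spin) L (lsg z σ N)) (h0 : σ 0 = 0) (hk : k ≤ N) :
    Ker15.tm L k = σ k := by
  have := tm_lsg N z σ k hk
  rw [h0, sub_zero] at this
  exact (Ker15.tm_eq H k).trans this

theorem n1_same {L' : List (Lv Bool)} (H : List.Forall₂ (Rk1 spin) L (lsg z σ N))
    (H' : List.Forall₂ (Rk1 spin) L' (lsg z s N)) (hz : z N = 1) (f : ℕ → ℝ) :
    n1 L f = n1 L' f := by
  rw [n1, n1, len_rk H, len_rk H']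
  refine Finset.sum_congr rfl fun j hj => ?_
  have hj := Nat.lt_succ_iff.1 (Finset.mem_range.1 hj)
  cases j with
  | zero => rw [dm, dm, ex_rk H hz hj, ex_rk H' hz hj]; rfl
  | succ j => rw [dm_rk H hz hj, dm_rk H' hz hj]

/-- **`q'` is a site word** -/
theorem der_q {I : Set ℝ} {s s' : ℝ → ℕ → ℝ} (h : Pr.NP I s s') {τ : ℝ} (hτ : τ ∈ I) (hk : k ≤ N)
    (H : List.Forall₂ (Rk1 spin) L (Pr.lst z (s τ) N)) :
    deriv (fun u => Pr.Gam (Pr.lst z (s u) N) (s u k)) τ = Wd L [s' τ] k := by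
  have l : (Pr.sML z s s' N).length = N := by simp [Pr.sML]
  have z0 : s' τ 0 = 0 := (h.der τ hτ 0).unique ((hasDerivAt_const τ (0 : ℝ)).congr_of_eventuallyEq
    (by filter_upwards [h.op.mem_nhds hτ] with u hu using h.zero u hu))
  have d := der_Wd h.op (h.ok z N) hτ (om := s' τ) (fun j hj x y => by
    rw [Pr.dcov_sML z s s' τ x y (l ▸ hj), z0, sub_zero]) [] k
  rw [List.nil_append, Wd_rk1 (h.rk z N hτ) H] at d
  refine (d.congr_of_eventuallyEq ?_).deriv
  filter_upwards [h.op.mem_nhds hτ] with u hu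
  rw [h.Gam_pi2 z hk hu, ← twoF_TEf One15.w1]
  rfl

/-- reference list `Lr` (times `s`) and cavity list `Lc` (times `σ`, shifted by the root) -/
structure TR (z s σ : ℕ → ℝ) (N c : ℕ) (Lr Lc : List (Lv Bool)) : Prop where
  lab : Pr.Lab z N
  us : Up s N
  s0 : s 0 = 0
  uσ : Up σ N
  low : ∀ k ≤ c, σ k = 0
  cN : c ≤ N
  ref : List.Forall₂ (Rk1 spin) Lr (lsg z s N)
  cav : List.Forall₂ (Rk1 spin) Lc (lsg (ex Lc) (fun j => σ (j - 1)) (N + 1))
  ne : ∀ j ≤ c, ex Lc j ≠ 0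
  tilt : ∀ k, c ≤ k → k ≤ N → ex Lc (k + 1) = z k
  mono : Mono 0 Lc

/-- the displacement of the node times, in `L¹` -/
def gam (z s σ : ℕ → ℝ) (c : ℕ) (Lc : List (Lv Bool)) : ℝ :=
  n1 Lc (up1 c fun j => σ j - s j) + z c * s c

namespace TR

variable (h : TR z s σ N c Lr Lc)
include h

theorem zN : z N = 1 := h.lab.top N le_rfl

theorem cut {Lp : List (Lv Bool)} (H : List.Forall₂ (Rk1 spin) Lp (lsg z σ N)) {V : List (ℕ → ℝ)}
    (hV : ∀ f ∈ V, ∀ k ≤ c, f k = 0) (hk : k ≤ N) :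
    Wd Lc (V.map fun f j => f (j - 1)) (k + 1) = Wd Lp V k := by
  have cN := h.cN
  have e1 : ∀ f : ℕ → ℝ, (∀ k ≤ c, f k = 0) → (fun j => f (j - c + c)) = f := fun f hf => by
    funext j
    rcases le_total c j with a | a
    · rw [Nat.sub_add_cancel a]
    · rw [Nat.sub_eq_zero_of_le a, zero_add, hf c le_rfl, hf j a]
  have e2 : ∀ f : ℕ → ℝ, (∀ k ≤ c, f k = 0) →
      (fun j => f (j - (c + 1) + c)) = fun j => f (j - 1) := fun f hf => by
    funext j
    rw [← congrFun (e1 f hf) (j - 1), Nat.sub_sub, add_comm 1 c]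
  have u : Up (fun i => σ (i + c)) (N - c) := fun i hi => by
    have := h.uσ (i + c) (by omega)
    rwa [Nat.add_right_comm] at this
  obtain ⟨L0, H0⟩ := ex_rk1 (fun i => z (i + c)) u
  have c1 : Col (fun j => j - (c + 1)) (ex Lc) (fun i => z (i + c)) (N + 1) (N - c) :=
    ⟨Nat.zero_sub _, by omega, fun j hj => by
      rcases le_or_gt j c with a | a
      · exact Or.inl ⟨by omega, h.ne j a⟩
      · obtain ⟨i, rfl⟩ := Nat.exists_eq_add_of_lt a
        exact Or.inr ⟨by omega, by rw [h.tilt _ (by omega) (by omega)]; congr 1; omega⟩⟩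
  have c2 : Col (fun j => j - c) z (fun i => z (i + c)) N (N - c) :=
    ⟨Nat.zero_sub _, rfl, fun j hj => by
      rcases lt_or_ge j c with a | a
      · exact Or.inl ⟨by omega, (h.lab.pos.trans_le (h.lab.mono (Nat.zero_le _))).ne'⟩
      · exact Or.inr ⟨by omega, by rw [Nat.sub_add_cancel a]⟩⟩
  have v0 : ∀ f ∈ V.map fun f i => f (i + c), f 0 = 0 := fun f hf => by
    obtain ⟨g, hg, rfl⟩ := List.mem_map.1 hf
    exact hV g hg _ (by simp)
  have s0 : (fun i => σ (i + c)) 0 = 0 := h.low _ (by simp)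
  have w1 := c1.wd _ v0 (k := k + 1) (by omega) s0 u H0 (by rw [e2 σ h.low]; exact h.cav)
  have w2 := c2.wd _ v0 hk s0 u H0 (by rw [e1 σ h.low]; exact H)
  simp only [List.map_map, Function.comp_def] at w1 w2
  rw [List.map_congr_left (g := fun f j => f (j - 1)) fun f hf => e2 f (hV f hf)] at w1
  rw [List.map_congr_left (g := id) fun f hf => e1 f (hV f hf), List.map_id] at w2
  rw [w1, w2, Nat.add_sub_add_right]

theorem mvt {V : List (ℕ → ℝ)} (hV : ∀ f ∈ V, ∀ k ≤ c, f k = 0) (hk : k ≤ N) :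
    ∃ M : List (Lv Bool), R1 M ∧ Mono 0 M ∧ k ≤ M.length ∧ (∀ f, n1 M f = n1 Lr f) ∧
      pz M k ≤ min 1 (max (s k) (σ k)) ∧ Wd Lc (V.map fun f j => f (j - 1)) (k + 1) - Wd Lr V k =
        Wd M (V ++ [fun j => σ j - s j]) k := by
  obtain ⟨Lp, H⟩ := ex_rk1 z h.uσ
  have σ0 := h.low 0 c.zero_le
  obtain ⟨θ, hθ, M, HM, e⟩ := mvt_Wd h.us h.uσ (σ0.trans h.s0.symm) h.ref H V k
  have u : Up (fun j => s j + θ * (σ j - s j)) N := fun j hj => by
    have a := mul_nonneg (sub_nonneg.2 hθ.2.le) (sub_nonneg.2 (h.us j hj))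
    have b := mul_nonneg hθ.1.le (sub_nonneg.2 (h.uσ j hj))
    show s j + θ * (σ j - s j) ≤ s (j + 1) + θ * (σ (j + 1) - s (j + 1))
    linarith
  refine ⟨M, Ker15.r1_of HM, mono_rk HM h.lab u, (len_rk HM).symm ▸ hk, n1_same HM h.ref h.zN,
    min_le_min le_rfl ?_, by rw [h.cut H hV hk, e]⟩
  rw [tm_rk HM (by simp [σ0, h.s0]) hk]
  have a := mul_nonneg (sub_nonneg.2 hθ.2.le) (sub_nonneg.2 (le_max_left (s k) (σ k)))
  have b := mul_nonneg hθ.1.le (sub_nonneg.2 (le_max_right (s k) (σ k)))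
  linarith

theorem monoR : Mono 0 Lr := mono_rk h.ref h.lab h.us

theorem dm_eq (h1 : c < k) (hk : k ≤ N) : dm Lc 0 (k + 1) = dm Lr 0 k := by
  obtain ⟨i, rfl⟩ := Nat.exists_eq_add_of_lt h1
  rw [dm_rk h.ref h.zN hk, dm, exP, h.tilt _ h1.le hk, h.tilt _ (by omega) (by omega), Pr.dm]

theorem n1_up (f : ℕ → ℝ) : n1 Lc (up1 c f) = n1 Lr (ct c f) := by
  rw [n1, n1, len_rk h.cav, len_rk h.ref, Finset.sum_range_succ', up1_eq]
  simp only [Nat.zero_sub, ct_lo c.zero_le, abs_zero, mul_zero, add_zero, Nat.add_sub_cancel]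
  refine Finset.sum_congr rfl fun j hj => ?_
  rcases le_or_gt j c with a | a
  · simp [ct_lo a]
  · rw [h.dm_eq a (Nat.lt_succ_iff.1 (Finset.mem_range.1 hj))]

theorem n1_h : n1 Lr (fun j => σ j - s j) ≤ gam z s σ c Lc := by
  have cN := h.cN
  have sc : 0 ≤ s c := h.s0 ▸ h.us.le c.zero_le cN
  have e := sum_dm Lr 0 c
  rw [sub_zero, ex_rk h.ref h.zN cN] at e
  have e' : z c * s c = ∑ j ∈ Finset.range (N + 1), dm Lr 0 j * if j ≤ c then s c else 0 := by
    rw [← e, Finset.sum_mul, ← Finset.sum_subset (Finset.range_mono (Nat.succ_le_succ cN))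
      fun j _ hj => by rw [if_neg fun a => hj (Finset.mem_range.2 (by omega)), mul_zero]]
    exact Finset.sum_congr rfl fun j hj => by
      rw [if_pos (Nat.lt_succ_iff.1 (Finset.mem_range.1 hj))]
  rw [gam, h.n1_up, e', n1, n1, len_rk h.ref, ← Finset.sum_add_distrib]
  refine Finset.sum_le_sum fun j _ => ?_
  rw [← mul_add]
  refine mul_le_mul_of_nonneg_left ?_ (dm_nonneg h.monoR j)
  rcases le_or_gt j c with a | a
  · rw [ct_lo a, if_pos a, h.low j a, zero_sub, abs_neg, abs_zero, zero_add,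
      abs_of_nonneg (h.s0 ▸ h.us.le j.zero_le (a.trans cN))]
    exact h.us.le a cN
  · rw [ct_hi a, if_neg a.not_ge, add_zero]

theorem n1_fh (f : ℕ → ℝ) : n1 Lr (fun j => ct c f j * (σ j - s j)) =
    n1 Lc (up1 c fun j => f j * (σ j - s j)) := by
  rw [h.n1_up]
  congr 1
  funext j
  unfold ct
  split_ifs <;> simp

theorem gam_nn : 0 ≤ gam z s σ c Lc := (n1_nn h.monoR _).trans h.n1_h

/-- **one letter** -/
theorem lin_up (f : ℕ → ℝ) (h1 : c < k) (hk : k ≤ N) :
    |Wd Lc [up1 c f] (k + 1) - Wd Lr [ct c f] k| ≤ 4500 ^ 2 *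
      (1152 * min 1 (max (s k) (σ k)) * (n1 Lc (up1 c f) * gam z s σ c Lc) +
        2 * (|f k| * gam z s σ c Lc) + 2 * (|σ k - s k| * n1 Lc (up1 c f)) +
        2 * n1 Lc (up1 c fun j => f j * (σ j - s j)) + 8 * |f k * (σ k - s k)|) := by
  obtain ⟨M, r, m, l, e, p, w⟩ := h.mvt (V := [ct c f]) (fun g hg j hj => by
    rw [List.mem_singleton.1 hg, ct_lo hj]) hk
  have b := abs_Wd2 r m l (ct c f) fun j => σ j - s j
  simp only [e, ← h.n1_up, h.n1_fh, ct_hi h1] at b
  rw [List.map_singleton, ← up1_eq] at w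
  rw [w]
  refine b.trans (mul_le_mul_of_nonneg_left ?_ (by norm_num))
  have a1 := h.n1_h
  have a2 := n1_nn h.mono (up1 c f)
  have a3 := mul_le_mul p (mul_le_mul_of_nonneg_left a1 a2)
    (mul_nonneg a2 (n1_nn h.monoR _)) ((pz_nn r k).trans p)
  have a4 := mul_le_mul_of_nonneg_left a1 (abs_nonneg (f k))
  linarith

/-- the low part of the letter -/
theorem lin_low (f0 : f 0 = 0) (h1 : c < k) (hk : k ≤ N) :
    |Wd Lr [f] k - Wd Lr [ct c f] k| ≤
      184320 * (min 1 (s c) * ∑ j ∈ Finset.range c, Pr.dm z j * |f (j + 1)|) := by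
  have cN := h.cN
  have r := Ker15.r1_of h.ref
  have e : Wd Lr [f] k = 1 * Wd Lr [fun j => f j - ct c f j] k + 1 * Wd Lr [ct c f] k := by
    rw [← W_eq, ← W_eq, ← W_eq, ← R1P.W_lin]
    simp
  rw [e, one_mul, one_mul, add_sub_cancel_right]
  refine (abs_Wd1 r h.monoR ((len_rk h.ref).symm ▸ hk) (by simp [ct_hi h1])).trans
    (mul_le_mul_of_nonneg_left ?_ (by norm_num))
  rw [n1_rk h.ref h.zN (by simp [f0, ct]), Pr.Dw, Finset.mul_sum,
    ← Finset.sum_subset (Finset.range_mono cN) fun j _ hj => by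
      rw [ct_hi (by simpa [Nat.lt_succ_iff] using hj)]; simp]
  refine Finset.sum_le_sum fun j hj => ?_
  have a := Finset.mem_range.1 hj
  have d : 0 ≤ Pr.dm z j := sub_nonneg.2 (h.lab.mono (Nat.le_succ j))
  have p : pz Lr (min (j + 1) k) ≤ min 1 (s c) :=
    (pz_mono r ((min_le_left _ _).trans a)).trans_eq (by rw [pz, tm_rk h.ref h.s0 cN])
  rw [ct_lo a, sub_zero, Pi.one_apply, one_mul, abs_mul, abs_of_nonneg (pz_nn r _), mul_comm (min _ _),
    mul_assoc]
  exact mul_le_mul_of_nonneg_left (mul_le_mul_of_nonneg_left p (abs_nonneg _)) d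

/-- **`a_t`** -/
theorem a_up (f : ℕ → ℝ) (h1 : c < k) (hk : k ≤ N) :
    |Wd Lc [ind (k + 1), up1 c f] (k + 1) - Wd Lr [ind k, ct c f] k| ≤ 12 * 4500 ^ 3 *
      ((n1 Lc (up1 c f) + |f k|) * (gam z s σ c Lc + |σ k - s k|) +
        n1 Lc (up1 c fun j => f j * (σ j - s j))) := by
  obtain ⟨M, r, m, l, e, -, w⟩ := h.mvt (V := [ind k, ct c f]) (fun g hg j hj => by
    simp only [List.mem_cons, List.not_mem_nil, or_false] at hg
    rcases hg with rfl | rfl
    exacts [if_neg (by omega), ct_lo hj]) hk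
  have b := abs_Wd3c r m l (ind k) (ct c f) fun j => σ j - s j
  have i : ∀ g : ℕ → ℝ, n1 M (fun y => ind k y * g y) ≤ |g k| := fun g =>
    (R1P.sum_ind_le _ g (dm_nonneg m k)).trans (mul_le_of_le_one_left (abs_nonneg _) (dm_le_one m l))
  have i1 := i fun j => σ j - s j
  have i2 := i (ct c f)
  have i3 := i fun j => ct c f j * (σ j - s j)
  have i0 := dm_le_one m l
  simp only [← mul_assoc] at i3
  rw [n1_ind l] at b
  simp only [e, ← h.n1_up, h.n1_fh, ct_hi h1, show ind k k = 1 from if_pos rfl, one_mul, abs_one,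
    abs_mul] at b i1 i2 i3
  simp only [List.map_cons, List.map_nil, ← up1_eq, ← ind_sh (c.zero_le.trans_lt h1)] at w
  rw [w, mul_comm 12, mul_assoc]
  refine b.trans (mul_le_mul_of_nonneg_left ?_ (by norm_num))
  have a1 := h.n1_h
  have a2 := n1_nn h.mono (up1 c f)
  have a3 := n1_nn h.monoR fun j => σ j - s j
  have a4 := n1_nn h.mono (up1 c fun j => f j * (σ j - s j))
  have a5 := abs_nonneg (f k)
  have a6 := abs_nonneg (σ k - s k)
  have a7 := dm_nonneg m k
  generalize n1 Lr (fun y => ind k y * ct c f y * (σ y - s y)) = x3 at *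
  generalize n1 Lr (fun y => ind k y * ct c f y) = x2 at *
  generalize n1 Lr (fun y => ind k y * (σ y - s y)) = x1 at *
  generalize n1 Lr (fun j => σ j - s j) = H at *
  generalize n1 Lc (up1 c fun j => f j * (σ j - s j)) = P at *
  generalize n1 Lc (up1 c f) = F at *
  generalize gam z s σ c Lc = γ at *
  generalize |f k| = u at *
  generalize |σ k - s k| = v at *
  generalize dm M 0 k = d at *
  have b1 : (d + 1) * ((F + u) * (H + v)) ≤ 2 * ((F + u) * (γ + v)) :=
    mul_le_mul (by linarith) (by gcongr) (by positivity) (by norm_num)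
  have b2 : (x1 + v) * (F + u) ≤ 2 * v * (F + u) := by gcongr; linarith
  have b3 : (d + 1) * (P + u * v) ≤ 2 * (P + u * v) := by gcongr; linarith
  have b4 : (x2 + u) * (H + v) ≤ 2 * u * (γ + v) :=
    mul_le_mul (by linarith) (by linarith) (by positivity) (by positivity)
  have := mul_nonneg a2 (a3.trans a1)
  have := mul_nonneg a2 a6
  have := mul_nonneg a5 (a3.trans a1)
  have := mul_nonneg a5 a6
  linarith

/-- the local letter alone -/
theorem ind_up (h1 : c < k) (hk : k ≤ N) :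
    |Wd Lc [ind (k + 1)] (k + 1) - Wd Lr [ind k] k| ≤
      4 * 4500 ^ 2 * (gam z s σ c Lc + |σ k - s k|) := by
  obtain ⟨M, r, m, l, e, -, w⟩ := h.mvt (V := [ind k]) (fun g hg j hj => by
    rw [List.mem_singleton.1 hg]
    exact if_neg (by omega)) hk
  have b := abs_Wd2c r m l (ind k) fun j => σ j - s j
  have i1 : n1 M (fun y => ind k y * (σ y - s y)) ≤ |σ k - s k| :=
    (R1P.sum_ind_le _ _ (dm_nonneg m k)).trans (mul_le_of_le_one_left (abs_nonneg _) (dm_le_one m l))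
  have i0 := dm_le_one m l
  rw [n1_ind l, e fun j => σ j - s j, show ind k k = 1 from if_pos rfl, one_mul, abs_one] at b
  rw [List.map_singleton, ← ind_sh (c.zero_le.trans_lt h1)] at w
  rw [w, mul_comm 4, mul_assoc]
  refine b.trans (mul_le_mul_of_nonneg_left ?_ (by norm_num))
  have a1 := h.n1_h
  have a3 := n1_nn h.monoR fun j => σ j - s j
  have a6 := abs_nonneg (σ k - s k)
  have b1 : (dm M 0 k + 1) * (n1 Lr (fun j => σ j - s j) + |σ k - s k|) ≤
      2 * (gam z s σ c Lc + |σ k - s k|) :=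
    mul_le_mul (by linarith) (by linarith) (by positivity) (by norm_num)
  linarith

end TR

/-- **`G_t`** -/
theorem G_up (s1 : S1) : ∃ C : ℝ, 1 ≤ C ∧ ∀ (z s σ : ℕ → ℝ) (N c k : ℕ) (Lr Lc : List (Lv Bool)),
    TR z s σ N c Lr Lc → c < k → k < N →
    |G Lc (k + 1) - G Lr k| ≤ C * (dm Lc 0 (k + 1) + gam z s σ c Lc + |σ k - s k|) := by
  obtain ⟨C, c1, hC⟩ := s1
  refine ⟨2 * C + 4 * 4500 ^ 2, by linarith, fun z s σ N c k Lr Lc h h1 hk => ?_⟩
  have k0 := c.zero_le.trans_lt h1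
  have a := hC Lr k 1 (nd_rk h.ref h.lab h.us k0 hk) (ind k) (if_neg k0.ne)
  have b := hC Lc (k + 1) 1 ⟨Ker15.r1_of h.cav, h.mono, k.succ_pos,
    (len_rk h.cav).symm ▸ Nat.succ_lt_succ hk, one_pos, min_le_left _ _⟩ (ind (k + 1)) (by simp [ind])
  have d := h.ind_up h1 hk.le
  rw [n1_ind ((len_rk h.ref).symm ▸ hk.le), ← h.dm_eq h1 hk.le] at a
  rw [n1_ind ((len_rk h.cav).symm ▸ Nat.succ_le_succ hk.le)] at b
  simp only [show ∀ i, ind i i = 1 from fun i => if_pos rfl, one_mul, W_eq] at a b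
  have d0 := dm_nonneg h.mono (k + 1)
  have g0 := add_nonneg h.gam_nn (abs_nonneg (σ k - s k))
  have := mul_nonneg (zero_le_one.trans c1) g0
  rw [abs_le] at a b d ⊢
  constructor <;> nlinarith

end Crest.Agent.T156.Hess65

end
end

-- ▼ part T156/R1Lo2_73

/-!
# Row 156 (helper73): the coefficient of the root atom
-/

set_option autoImplicit false
set_option linter.unusedSectionVars false

noncomputable section

namespace Crest.Agent.T156.Cas.R1P

open Finset
open Crest.Agent.T157.E Crest.Agent.T157.Casc Crest.Agent.T157.SL Crest.Agent.T157.Casc.C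
open Crest.Agent.R339.B Crest.Agent.R339.Var Crest.Agent.T157 Crest.Agent.T157.Pf
open Crest.ProbabilityR.SpinGlassDynamics (spin)
open Crest.Agent.T156.Pp Crest.Agent.T156.Pp.Area50
open Crest.Agent.T156.Hess65 Crest.Agent.T156.Cas.C40
open Crest.Agent.T156.Cas.R1J (n1)

/-- all nodes above the root -/
def u1 (j : ℕ) : ℝ := if j = 0 then 0 else 1

/-- `Γ_k` with the field `y` -/
def Gf (T : List (Lv Bool)) (k : ℕ) (y : ℝ) : ℝ :=
  pi2 (fun _ => 1) T k (fun a b => spin a * spin b) fun b => y * spin b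

variable {T L Lr Lc : List (Lv Bool)} {ℓ : List (ℝ × ℝ)} {z z' s σ f : ℕ → ℝ} {N c k : ℕ}

theorem Gf_cons {m v : ℝ} (H : List.Forall₂ (Rk1 spin) T ((m, v) :: ℓ)) (hm : m ≠ 0)
    (hk : k ≤ ℓ.length) : Gf T (k + 1) = At (PhiL 1 ℓ) m (EX 1 ℓ (R339.Var.TT (ℓ.take k))
      fun y => Dn 0 (PhiT 1 ℓ (R339.Var.TT (ℓ.take k))) y ^ 2) v := by
  funext y
  have n : ∀ q ∈ ℓ, 0 ≤ q.2 := fun q hq => One15.nn_of H q (List.mem_cons_of_mem _ hq)
  have r : 0 ≤ R339.Var.TT (ℓ.take k) := One15.TT_nonneg fun q hq => n q (List.mem_of_mem_take hq)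
  have := One15.pi2_spin H (j := k + 1) (by simpa using hk) y
  rw [List.take_succ_cons, One15.TT_cons, EX_next hm n (by simpa using r),
    PhiT_next hm n (by simpa using r), add_sub_cancel_left] at this
  simp only [Dn_zero]
  exact this

/-- **heat equation at the root** -/
theorem heat (H : List.Forall₂ (Rk1 spin) T (lsg z σ (N + 1))) (a : Adm 1 (lsg z σ (N + 1)))
    (hσ : Up σ (N + 1)) (h1 : σ 0 < σ 1) (hk : k ≤ N) :
    BD (Gf T (k + 1)) ∧ iteratedDeriv 2 (Gf T (k + 1)) 0 = 2 * Wd T [u1] (k + 1) := by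
  set ℓ := lsg (fun j => z (j + 1)) (fun j => σ (j + 1)) N with hℓ
  have e : ∀ t, lsg z (fun j => σ j + t * u1 j) (N + 1) = (z 0, σ 1 - σ 0 + t) :: ℓ := fun t => by
    rw [lsg_succ]
    congr 1
    · simp [u1]; ring
    · simp [hℓ, lsg, u1]
  have up : ∀ t, σ 0 - σ 1 < t → Up (fun j => σ j + t * u1 j) (N + 1) := fun t ht j hj => by
    have := hσ j hj
    rcases j with _ | j <;> simp [u1] <;> linarith
  have d := der_pth (z := z) (s := σ) (f := u1) (N := N + 1) (I := Set.Ioi (σ 0 - σ 1)) isOpen_Ioi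
    (fun j _ => by
      rcases j with _ | j
      · exact Or.inr fun t ht => by have := Set.mem_Ioi.1 ht; simp [u1]; linarith
      · exact Or.inl (by simp [u1])) (by simp [u1]) (u := 0) (by simpa using h1) [] (k + 1)
  have R := rk1_pth 0 _ z σ u1 (up 0 (by linarith))
  simp only [zero_mul, add_zero] at R
  rw [List.nil_append, Wd_rk1 R H] at d
  rw [lsg_succ] at H a
  have m0 : z 0 ≠ 0 := ne_of_gt a.1
  have l : k ≤ ℓ.length := by simpa [hℓ, lsg] using hk
  have hP := PhiL_prof one_pos ℓ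
  have n : ∀ q ∈ ℓ, 0 ≤ q.2 := fun q hq => One15.nn_of H q (List.mem_cons_of_mem _ hq)
  have b : BD (EX 1 ℓ (R339.Var.TT (ℓ.take k)) fun y => Dn 0 (PhiT 1 ℓ (R339.Var.TT (ℓ.take k))) y ^ 2) :=
    Twin20.EX_bd ((Ker.Dk_bd 0 _ _).pow 2) a.2.2.2
      (One15.TT_nonneg fun q hq => n q (List.mem_of_mem_take hq))
  have g := TB_dv (Lip62.tb_At' hP (z 0) b) (sub_pos.2 h1) 0
  have d0 := Ode3.D0_zero a
  rw [Dn_zero, PhiL] at d0
  rw [D1_eq hP, Lip62.At_deriv hP, d0, mul_zero, zero_mul, add_zero, sub_zero] at g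
  have g' := (g.comp_of_eq 0 ((hasDerivAt_id' (0 : ℝ)).const_add (σ 1 - σ 0)) (by simp))
  have := d.unique (g'.congr_of_eventuallyEq (by
    filter_upwards [Ioi_mem_nhds (show σ 0 - σ 1 < 0 by linarith)] with t ht
    have R := rk1_pth t _ z σ u1 (up t ht)
    rw [e] at R
    have := congrFun (Gf_cons R m0 l) 0
    simp only [Gf, zero_mul] at this
    exact (twoF_TEf One15.w1 _ _ _ _).trans this))
  rw [Gf_cons H m0 l]
  refine ⟨At_bd hP _ b _, ?_⟩
  rw [this, iteratedDeriv_succ, iteratedDeriv_one]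
  ring

/-- `χ = 1 - ∑ dm Γ` -/
theorem chi_W (H : List.Forall₂ (Rk1 spin) T ℓ) : deriv (deriv (PhiL 1 ℓ)) 0 =
    1 - ∑ j ∈ range (T.length + 1), dm T 0 j * Wd T [] j := by
  rw [← One15.Hb_spin H, zero_smul, D28.Hb_eq One15.w1]
  simp only [← sq, One15.spin_sq, Pf, mul_one, sum_P One15.w1]
  congr 1
  exact sum_congr rfl fun j _ => congrArg _ (twoF_TEf One15.w1 _ _ _ _).symm

theorem sum_dm_le (g : ℕ → ℝ) {a : ℝ} (hM : Mono 0 L) {h : ℕ → ℝ}
    (hg : ∀ k ≤ L.length, |g k| ≤ a + h k) :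
    |∑ k ∈ range (L.length + 1), dm L 0 k * g k| ≤ a + ∑ k ∈ range (L.length + 1), dm L 0 k * h k := by
  have e := sum_dm L 0 L.length
  rw [ex_length, sub_zero] at e
  refine (abs_sum_le_sum_abs _ _).trans ?_
  rw [← mul_one a, ← e, mul_sum, ← sum_add_distrib]
  refine sum_le_sum fun k hk => ?_
  rw [abs_mul, abs_of_nonneg (dm_nonneg hM k), mul_comm a, ← mul_add]
  exact mul_le_mul_of_nonneg_left (hg k (Nat.lt_succ_iff.1 (mem_range.1 hk))) (dm_nonneg hM k)

/-- a word summed over the nodes -/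
def SW (L : List (Lv Bool)) (V : List (ℕ → ℝ)) : ℝ :=
  ∑ k ∈ range (L.length + 1), dm L 0 k * Wd L V k

/-- the same above the cut -/
def SU (L : List (Lv Bool)) (J : ℕ) (V : List (ℕ → ℝ)) : ℝ :=
  ∑ k ∈ Ioc J L.length, dm L 0 k * Wd L V k

theorem abs_SW1 (H : Ker15.R1 L) (hM : Mono 0 L) (f : ℕ → ℝ) : |SW L [f]| ≤ 80 * n1 L f := by
  refine (sum_dm_le _ (a := 40 * n1 L f) hM (h := fun k => 40 * |f k|) fun k hk =>
    (abs_Wd1c H hM hk f).trans_eq (mul_add _ _ _)).trans (le_of_eq ?_)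
  simp only [mul_left_comm _ (40 : ℝ), ← mul_sum, n1]
  ring

section tr
variable (h : TR z s σ N c Lr Lc)
include h

theorem rk_drop : List.Forall₂ (Rk1 spin) (Lc.drop (c + 1))
    (lsg (fun i => z (i + c)) (fun i => σ (i + c)) (N - c)) := by
  have := List.forall₂_drop (c + 1) h.cav
  have cN := h.cN
  rw [show N + 1 = c + 1 + (N - c) by omega, Hess65.lsg_add, List.drop_left' (by simp [lsg])] at this
  rwa [Hess65.lsg_congr (z' := fun i => z (i + c)) (s' := fun i => σ (i + c))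
    (fun j hj => by rw [show c + 1 + j = j + c + 1 by ring, h.tilt _ (by omega) (by omega)])
    fun j _ => by congr 1; omega] at this

theorem up_drop : Up (fun i => σ (i + c)) (N - c) := fun i hi => by
  have := h.uσ (i + c) (by omega)
  rwa [Nat.add_right_comm] at this

theorem adm_drop : Adm 1 (lsg (fun i => z (i + c)) (fun i => σ (i + c)) (N - c)) :=
  adm_lsg _ _ _ (h.lab.top _ (by have := h.cN; omega))
    (h.lab.pos.trans_le (h.lab.mono (Nat.zero_le _))) (fun j _ => h.lab.mono (by omega)) (up_drop h)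

theorem wd_drop {V : List (ℕ → ℝ)} (hV : ∀ f ∈ V, f 0 = 0) (hk : k ≤ N + 1) :
    Wd Lc (V.map fun f j => f (j - (c + 1))) k = Wd (Lc.drop (c + 1)) V (k - (c + 1)) := by
  have cN := h.cN
  have c1 : Col (fun j => j - (c + 1)) (ex Lc) (fun i => z (i + c)) (N + 1) (N - c) :=
    ⟨Nat.zero_sub _, by omega, fun j hj => by
      rcases le_or_gt j c with a | a
      · exact Or.inl ⟨by omega, h.ne j a⟩
      · obtain ⟨i, rfl⟩ := Nat.exists_eq_add_of_lt a
        exact Or.inr ⟨by omega, by rw [h.tilt _ (by omega) (by omega)]; congr 1; omega⟩⟩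
  refine c1.wd V hV hk (σ := fun i => σ (i + c)) (h.low _ (by simp)) (up_drop h) (rk_drop h) ?_
  rw [Hess65.lsg_congr (fun _ _ => rfl) (s' := fun j => σ (j - 1)) fun j _ => by
    rcases le_total j (c + 1) with a | a
    · rw [h.low _ (by omega), h.low _ (by omega)]
    · congr 1; omega]
  exact h.cav

theorem SU_eq {V : List (ℕ → ℝ)} (h0 : ∀ k ≤ c, Wd Lc V (k + 1) = 0) :
    SU Lc (c + 1) V = ∑ k ∈ range (Lr.length + 1), dm Lr 0 k * Wd Lc V (k + 1) := by
  have cN := h.cN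
  rw [SU, len_rk h.cav, len_rk h.ref, ← Ico_add_one_add_one_eq_Ioc,
    ← sum_Ico_add' (fun k => dm Lc 0 k * Wd Lc V k), range_eq_Ico,
    ← sum_Ico_consecutive _ (c + 1).zero_le (by omega : c + 1 ≤ N + 1),
    sum_eq_zero (s := Ico 0 (c + 1)) fun k hk => by
      rw [h0 k (Nat.lt_succ_iff.1 (mem_Ico.1 hk).2), mul_zero], zero_add]
  exact sum_congr rfl fun k hk => by
    rw [h.dm_eq (mem_Ico.1 hk).1 (Nat.lt_succ_iff.1 (mem_Ico.1 hk).2)]

theorem SU_nil : |SU Lc (c + 1) [] - SW Lr []| ≤ 80 * gam z s σ c Lc := by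
  obtain ⟨Lp, H⟩ := ex_rk1 z h.uσ
  rw [SU_eq h fun k hk => by
    have := h.cut H (V := []) (by simp) (hk.trans h.cN)
    rw [List.map_nil] at this
    have a := adm_lsg N z σ h.zN h.lab.pos (fun j _ => h.lab.mono (Nat.le_succ j)) h.uσ
    rw [this, Wd_nil H ((len_rk H).symm ▸ hk.trans h.cN), tm_lsg _ _ _ _ (hk.trans h.cN),
      h.low k hk, h.low 0 c.zero_le, sub_zero, Ode3.Gam, Ode3.Et_zero _ (One15.nn_of H), Ode3.W0,
      Ode3.D0_zero a]
    simp, SW, ← sum_sub_distrib]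
  simp only [← mul_sub]
  refine (sum_dm_le _ (a := 40 * n1 Lr fun j => σ j - s j) h.monoR
    (h := fun k => 40 * |σ k - s k|) fun k hk => ?_).trans ?_
  · obtain ⟨M, r, m, l, e, -, w⟩ := h.mvt (V := []) (by simp) (len_rk h.ref ▸ hk)
    rw [List.map_nil] at w
    rw [w, ← e, ← mul_add]
    exact abs_Wd1c r m l _
  · simp only [mul_left_comm _ (40 : ℝ), ← mul_sum]
    have := h.n1_h
    unfold n1 at this ⊢
    linarith

theorem SU_one (f0 : f 0 = 0) : |SU Lc (c + 1) [up1 c f] - SW Lr [f]| ≤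
    80 * ∑ j ∈ range c, Pr.dm z j * |f (j + 1)| + 3 * 4500 ^ 2 *
      (n1 Lc (up1 c f) * gam z s σ c Lc + n1 Lc (up1 c fun j => f j * (σ j - s j))) := by
  obtain ⟨Lp, H⟩ := ex_rk1 z h.uσ
  have cN := h.cN
  have hV : ∀ g ∈ [ct c f], ∀ k ≤ c, g k = 0 := fun g hg j hj => by
    rw [List.mem_singleton.1 hg, ct_lo hj]
  have e : SW Lr [f] = SW Lr [fun j => f j - ct c f j] + SW Lr [ct c f] := by
    simp only [SW, ← sum_add_distrib, ← mul_add]
    refine sum_congr rfl fun k _ => congrArg _ ?_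
    rw [← W_eq, ← W_eq, ← W_eq, ← Alg77.W_add]
    simp
  have a := abs_SW1 (Ker15.r1_of h.ref) h.monoR fun j => f j - ct c f j
  rw [n1_rk h.ref h.zN (by simp [f0, ct]), Pr.Dw, ← sum_subset (range_mono cN) fun j _ hj => by
      rw [ct_hi (by simpa [Nat.lt_succ_iff] using hj)]; simp,
    sum_congr rfl (g := fun j => Pr.dm z j * |f (j + 1)|) fun j hj => by
      rw [ct_lo (mem_range.1 hj)]; simp] at a
  have b : |SU Lc (c + 1) [up1 c f] - SW Lr [ct c f]| ≤ 3 * 4500 ^ 2 *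
      (n1 Lc (up1 c f) * gam z s σ c Lc + n1 Lc (up1 c fun j => f j * (σ j - s j))) := by
    rw [SU_eq h fun k hk => by
      have := h.cut H hV (hk.trans cN)
      rw [List.map_singleton, ← up1_eq] at this
      have b := abs_Wd1 (Ker15.r1_of H) (mono_rk H h.lab h.uσ) ((len_rk H).symm ▸ hk.trans cN)
        (ct_lo (f := f) hk)
      simp only [pz, fun y => tm_rk H (h.low 0 c.zero_le) ((min_le_right y k).trans (hk.trans cN)),
        fun y => h.low _ ((min_le_right y k).trans hk)] at b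
      rw [this]
      simpa [n1] using b, SW, ← sum_sub_distrib]
    simp only [← mul_sub]
    have a1 := h.n1_h
    have a2 := n1_nn h.monoR (ct c f)
    refine (sum_dm_le _ (a := 4500 ^ 2 * (n1 Lr (ct c f) * (n1 Lr fun j => σ j - s j) +
      n1 Lr fun j => ct c f j * (σ j - s j))) h.monoR (h := fun k => 4500 ^ 2 *
        (n1 Lr (ct c f) * |σ k - s k| + (n1 Lr fun j => σ j - s j) * |ct c f k| +
          2 * |ct c f k * (σ k - s k)|)) fun k hk => ?_).trans ?_
    · obtain ⟨M, r, m, l, e, -, w⟩ := h.mvt hV (len_rk h.ref ▸ hk)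
      rw [List.map_singleton, ← up1_eq] at w
      have := abs_Wd2c r m l (ct c f) fun j => σ j - s j
      simp only [e] at this
      rw [w]
      refine this.trans (le_of_eq ?_)
      rw [abs_mul]
      ring
    · simp only [mul_left_comm (dm Lr 0 _), mul_add, sum_add_distrib, ← mul_sum]
      rw [← h.n1_fh, h.n1_up]
      have := mul_le_mul_of_nonneg_left a1 a2
      unfold n1 at this ⊢
      linarith
  rw [e, ← sub_sub, sub_right_comm]
  exact (abs_sub _ _).trans (by linarith)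

end tr

/-- **`λ` and its variation as sums of site words** -/
theorem lam_W {D : CD} (h : TR z s σ N c Lr D.S) (hJ : D.J = c + 1) (T : Alg77.Tw D (up1 c f))
    (hc : c < N) (h1 : 0 < σ (c + 1)) : (0 ≤ D.lam ∧ D.lam ≤ 1) ∧ D.lam = 1 - SU D.S (c + 1) [] ∧
      D.lam2 = -(4 * D.lam * SU D.S (c + 1) [up1 c f]) := by
  have R := rk_drop h
  have a := adm_drop h
  have lS := len_rk h.cav
  have lK : D.K = N + 1 := (Alg77.lenS D).symm.trans lS
  have e : D.lam = deriv (deriv (PhiL 1 (lsg (fun i => z (i + c)) (fun i => σ (i + c)) (N - c)))) 0 := by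
    rw [CD.lam, iteratedDeriv_succ, iteratedDeriv_one, ← funext (X_spin R)]
    unfold CD.Ph
    rw [hJ]
    rfl
  have su : ∀ (V : List (ℕ → ℝ)) (g : ℕ → ℝ), (∀ f ∈ V, f 0 = 0) → g (c + 1) = 0 →
      ∑ i ∈ range ((D.S.drop (c + 1)).length + 1), dm (D.S.drop (c + 1)) 0 i *
        (g (i + (c + 1)) * Wd (D.S.drop (c + 1)) V i) = ∑ k ∈ Ioc (c + 1) D.S.length,
        dm D.S 0 k * (g k * Wd D.S (V.map fun f j => f (j - (c + 1))) k) := fun V g hV g0 => by
    have := Wt87.sum_dm_drop D.S (j := c + 1) (by omega)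
      fun k => g k * Wd (D.S.drop (c + 1)) V (k - (c + 1))
    simp only [Nat.add_sub_cancel, g0, zero_mul, mul_zero, zero_add] at this
    rw [List.length_drop, this]
    exact sum_congr rfl fun k hk => by rw [wd_drop h hV (lS ▸ (mem_Ioc.1 hk).2)]
  have u : ∀ V : List (ℕ → ℝ), ∑ k ∈ Ioc (c + 1) D.S.length, dm D.S 0 k *
      (u1 (k - (c + 1)) * Wd D.S V k) = SU D.S (c + 1) V := fun V => sum_congr rfl fun k hk => by
    rw [u1, if_neg (by have := mem_Ioc.1 hk; omega), one_mul]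
  refine ⟨⟨?_, ?_⟩, ?_, ?_⟩
  · have := Ode3.D1_pos a 0 0
    rw [PhiT_zero (One15.nn_of R), Dn_one, ← e] at this
    exact this.le
  · have := Ode3.D1_le a 0 0
    rwa [PhiT_zero (One15.nn_of R), Dn_one, ← e] at this
  · have := su [] (fun k => u1 (k - (c + 1))) (by simp) (by simp [u1])
    rw [List.map_nil, u] at this
    rw [e, chi_W R, ← this]
    refine congrArg _ (sum_congr rfl fun i _ => congrArg _ ?_)
    rcases i with _ | i
    · rw [Wd_nil R (Nat.zero_le _), tm_lsg _ _ _ _ (Nat.zero_le _), sub_self, Ode3.Gam,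
        Ode3.Et_zero _ (One15.nn_of R), Ode3.W0, Ode3.D0_zero a]
      simp
    · simp [u1]
  · obtain ⟨M, hM⟩ := Nat.exists_eq_add_of_lt hc
    have eN : N - c = M + 1 := by omega
    rw [eN] at R a
    have ht := fun k hk => heat (k := k) R a (eN ▸ up_drop h)
      (by rw [zero_add, h.low c le_rfl, add_comm]; exact h1) hk
    have hj : ∀ j ∈ D.up, ∃ k, k ≤ M ∧ j - (c + 1) = k + 1 := fun j hj =>
      ⟨j - (c + 2), by have := mem_Ioo.1 hj; omega, by have := mem_Ioo.1 hj; omega⟩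
    have e2 : (fun y => D.sH D.J y []) = fun y => ∑ j ∈ D.up,
        D.om j * (-D.q j + Gf (D.S.drop (c + 1)) (j - (c + 1)) y) := funext fun y => by
      rw [CD.sH, T.dd, hJ]
      refine sum_congr rfl fun j _ => congrArg _ ?_
      rw [List.map_nil, WdO_nil, twoF_TEf One15.w1]
      unfold oE
      rw [pi2_sub One15.w1, pi2_const One15.w1, Gf]
      ring
    have f0 : up1 c f (c + 1) = 0 := if_pos le_rfl
    have s1 := Wt87.sum_dm_drop D.S (j := c + 1) (by omega)
      fun k => up1 c f k * Wd (D.S.drop (c + 1)) [u1] (k - (c + 1))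
    simp only [Nat.add_sub_cancel, f0, zero_mul, mul_zero, zero_add] at s1
    rw [← List.length_drop, Alg77.lenS, ← Ioo_insert_right (hJ ▸ T.cut), sum_insert (by simp),
      Alg77.dmS, T.top, zero_mul, zero_add] at s1
    have s2 := su [fun i => up1 c f (i + (c + 1))] (fun k => u1 (k - (c + 1))) (by simpa using f0)
      (by simp [u1])
    have s3 := Alg77.W_sym (D.S.drop (c + 1)) (f := fun i => up1 c f (i + (c + 1))) (g := u1)
      (V := []) (by simpa using f0) (by simp [u1]) (by simp)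
    simp only [Nat.add_sub_cancel] at s2
    rw [u, List.map_singleton, show (fun j => up1 c f (j - (c + 1) + (c + 1))) = up1 c f from
      funext fun j => by
        rcases le_total (c + 1) j with b | b
        · rw [Nat.sub_add_cancel b]
        · rw [Nat.sub_eq_zero_of_le b, zero_add, f0, up1, if_pos b]] at s2
    rw [CD.lam2, T.dd, CD.dP, e2, iteratedDeriv_fun_sum fun j hj' => by
      obtain ⟨k, hk, e⟩ := hj j hj'
      exact ((((BD.const _).add (e ▸ (ht k hk).1)).const_mul _).contDiff 2).contDiffAt,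
      ← (s1.symm.trans (s3.trans s2)), ← hJ, sum_congr rfl (g := fun j => 2 * (dm D.S 0 j *
        (up1 c f j * Wd (D.S.drop D.J) [u1] (j - D.J)))) fun j hj' => by
        obtain ⟨k, hk, e⟩ := hj j hj'
        rw [iteratedDeriv_const_mul_field, iteratedDeriv_const_add two_pos, hJ, e, (ht k hk).2,
          T.om j hj', Alg77.dmS]
        ring, ← mul_sum]
    ring

theorem der_col {I : Set ℝ} {s s' : ℝ → ℕ → ℝ} {ν : ℕ → ℕ} {N' : ℕ} {τ : ℝ} (h : Pr.NP I s s')
    (hc : Col ν z' z N' N) (hz : z' N' = 1) (hτ : τ ∈ I)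
    (H : List.Forall₂ (Rk1 spin) L (lsg z' (fun j => s τ (ν j)) N')) :
    Pr.chi (Pr.lst z (s τ) N) = 1 - SW L [] ∧
    HasDerivAt (fun u => Pr.chi (Pr.lst z (s u) N)) (-SW L [fun j => s' τ (ν j)]) τ := by
  have R := fun u (hu : u ∈ I) => rk_sML (z := z') (σ := fun u j => s u (ν j))
    (σ' := fun u j => s' u (ν j)) (hc.up (up_np h hu N))
  have e : ∀ u ∈ I, ∀ {L}, List.Forall₂ (Rk1 spin) L (lsg z' (fun j => s u (ν j)) N') →
      Pr.chi (Pr.lst z (s u) N) = 1 - SW L [] := fun u hu L H => by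
    rw [SW, ← chi_W H, ← PhiT_zero (One15.nn_of H), (hc.eqv (up_np h hu N)).phiT 0 le_rfl,
      Pr.chi, Pr.Dk, Dn_one]
    rfl
  have d := fun k => der_Wd (P := Pr.sML z' (fun u j => s u (ν j)) (fun u j => s' u (ν j)) N')
    h.op (fun p hp => by
      obtain ⟨k, rfl⟩ := (List.mem_ofFn' _ _).1 hp
      rcases hc.step k k.2 with ⟨e, -⟩ | ⟨e, -⟩
      · exact Or.inr fun u => by simp [e]
      · exact Or.inl ⟨fun u hu => ⟨(h.der u hu _).sub (h.der u hu _),
          sub_pos.2 (h.sm u hu (by omega))⟩, (h.cont _).sub (h.cont _)⟩) hτ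
    (om := fun j => s' τ (ν j)) (fun j hj x y => by
      rw [Pr.dcov_sML _ _ _ _ _ _ (by simpa [Pr.sML] using hj), hc.zero, h.d0 hτ, sub_zero]) [] k
  simp only [List.nil_append, Wd_rk1 (R τ hτ) H] at d
  refine ⟨e τ hτ H, ((HasDerivAt.fun_sum fun k _ => (d k).const_mul (dm L 0 k)).const_sub
    1).congr_of_eventuallyEq ?_⟩
  filter_upwards [h.op.mem_nhds hτ] with u hu
  rw [e u hu (R u hu), SW, len_rk (R u hu), len_rk H]
  refine congrArg _ (sum_congr rfl fun k hk => ?_)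
  have hk := Nat.lt_succ_iff.1 (mem_range.1 hk)
  congr 1
  cases k with
  | zero => rw [dm, dm, ex_rk H hz hk, ex_rk (R u hu) hz hk]; rfl
  | succ j => rw [dm_rk H hz hk, dm_rk (R u hu) hz hk]

end Crest.Agent.T156.Cas.R1P

end
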