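import Crest.Agent.T156.CDef_40
import Crest.Agent.T156.Hess_65
import Crest.Agent.T156.R1J_60

/-!
# Row 156 (helper50): the dictionary `η → ε ε'` for the site words

Constants drop out of every slot of a word.  The site heads `sH`, `sL`, `dP` of `CDef_40` in both
directions are sums of the words `Wh` (`R1J.W` with a field).
-/

set_option autoImplicit false
set_option linter.all false

noncomputable section

namespace Crest.Agent.T156.Cas.Hd50

open MeasureTheory Real Set Filter Topology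
open Crest.Agent.T157.E Crest.Agent.T157.Casc Crest.Agent.T157.SL
open Crest.ProbabilityR.SpinGlassDynamics (spin)
open Mul55 C40

section gen

variable {Ω : Type} [Fintype Ω] {w : Ω → ℝ}

theorem dop_one (hw : Wt w) (M : List (Lv Ω)) (h : Ω → ℝ) {S : ℕ → Ω → Ω → ℝ}
    (hS : S ∈ Ok Ω M.length) (s : Sh) (v : ℝ) : Dop M S (TEf w M h) s (fun _ => v) = 0 := by
  obtain ⟨h0, c, hc⟩ := hS
  rw [← dT_eq_Dop hw s M h hc, dT_const' hw s M h h0]

theorem cst_mem {K : ℕ} {φ : ℕ → ℝ} (h0 : φ 0 = 0) :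
    (fun k (_ _ : Ω) => φ k) ∈ Ok Ω K := ⟨by funext x y; exact h0, _, fun _ => rfl⟩

theorem dop_cst (hw : Wt w) (M : List (Lv Ω)) (h : Ω → ℝ) {φ : ℕ → ℝ} (h0 : φ 0 = 0) (s : Sh)
    (F : (s.Lf → Ω) → ℝ) : Dop M (fun k _ _ => φ k) (TEf w M h) s F = 0 := by
  have k : ∀ G : (s.Lf → Ω) → ℝ, Dop M (fun k _ _ => φ k) (TEf w M h) s G =
      TE w s M h G * sg (-1) M s fun τ => φ τ.j := fun G => by
    rw [Dop_eq_sg, ← sg_const_mul]
    refine sg_congr _ _ _ fun τ hτ => ?_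
    rw [← hτ.TE_e hw M h G]
    exact Law.TE_mul_const hw _ M h _ _
  have z := dop_one hw M h (cst_mem h0) s 1
  rw [k, Law.TE_const hw, one_mul] at z
  rw [k, z, mul_zero]

/-- a nonempty word kills the constant test functions -/
theorem W_one (hw : Wt w) (M : List (Lv Ω)) (h : Ω → ℝ) {S : ℕ → Ω → Ω → ℝ}
    {U : List (ℕ → Ω → Ω → ℝ)} (hU : ∀ T ∈ S :: U, T ∈ Ok Ω M.length) (s : Sh) (v : ℝ) :
    WdO M (S :: U) (TEf w M h) s (fun _ => v) = 0 :=
  pd_wordO hw h M ((FL.ev s fun _ => v).dop M S) (fun M' hM => by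
    rw [← Dop_tilt hM]
    exact dop_one hw M' h (Sch6.len_congr hM ▸ hU S List.mem_cons_self) s v)
    fun T hT => hU T (List.mem_cons_of_mem _ hT)

/-- a constant letter kills the word -/
theorem W_cst (hw : Wt w) (M : List (Lv Ω)) (h : Ω → ℝ) {φ : ℕ → ℝ} (h0 : φ 0 = 0)
    {U : List (ℕ → Ω → Ω → ℝ)} (hU : ∀ T ∈ U, T ∈ Ok Ω M.length) (s : Sh) (F : (s.Lf → Ω) → ℝ) :
    Dop M (fun k _ _ => φ k) (WdO M U (TEf w M h)) s F = 0 :=
  pd_wordO hw h M ((FL.ev s F).dop M _) (fun M' hM => by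
    rw [← Dop_tilt hM]
    exact dop_cst hw M' h h0 s F) hU

/-- kernels that differ by constants -/
def Cs (S S' : ℕ → Ω → Ω → ℝ) : Prop := ∃ φ : ℕ → ℝ, φ 0 = 0 ∧ ∀ k x y, S' k x y = S k x y + φ k

/-- **constants drop from every letter** -/
theorem WdO_cs (hw : Wt w) (M : List (Lv Ω)) (h : Ω → ℝ) {U U' : List (ℕ → Ω → Ω → ℝ)}
    (H : List.Forall₂ Cs U U') (hU : ∀ T ∈ U, T ∈ Ok Ω M.length) :
    WdO M U' (TEf w M h) = WdO M U (TEf w M h) := by
  induction H with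
  | nil => rfl
  | @cons S S' U U' c _ ih =>
    obtain ⟨φ, h0, e⟩ := c
    have hU' := fun T hT => hU T (List.mem_cons_of_mem _ hT)
    funext s F
    have := ((isLin_TEf hw M h).wdO M U).dopS M 1 1 S (fun k _ _ => φ k) s F
    rw [W_cst hw M h h0 hU'] at this
    rw [WdO_cons, WdO_cons, ih hU', show S' = fun j x y => 1 * S j x y + 1 * φ j from
      funext fun j => funext fun x => funext fun y => by rw [e]; ring, this]
    ring

/-- the constant of the test pair -/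
theorem twoF_cst (hw : Wt w) (M : List (Lv Ω)) (h : Ω → ℝ) {U : List (ℕ → Ω → Ω → ℝ)}
    (hU : ∀ T ∈ U, T ∈ Ok Ω M.length) (j : ℕ) (a c : ℝ) (Q : Ω → Ω → ℝ) :
    twoF j (fun x y => a * (Q x y - c)) (WdO M U (TEf w M h)) =
      a * (twoF j Q (WdO M U (TEf w M h)) - if U = [] then c else 0) := by
  have l := (isLin_TEf hw M h).wdO M U (Sh.two j) a (-(a * c))
    (fun x => Q (x (Sh.twoL j)) (x (Sh.twoR j))) fun _ => 1
  have e : WdO M U (TEf w M h) (Sh.two j) (fun _ => 1) = if U = [] then 1 else 0 := by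
    cases U with
    | nil => exact (Law.TE_const hw _ M h 1).trans (if_pos rfl).symm
    | cons S U => rw [W_one hw M h hU, if_neg (List.cons_ne_nil _ _)]
  rw [e] at l
  rw [twoF, twoF, show (fun x : (Sh.two j).Lf → Ω => a * (Q (x (Sh.twoL j)) (x (Sh.twoR j)) - c)) =
    fun x => a * Q (x (Sh.twoL j)) (x (Sh.twoR j)) + -(a * c) * 1 from funext fun x => by ring, l]
  split_ifs <;> ring

end gen

open R1J (sk W ind)

/-- site words with a field -/
def Wh (T : List (Lv Bool)) (h : Bool → ℝ) (k : ℕ) (fs : List (ℕ → ℝ)) : ℝ :=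
  twoF k (fun a b => spin a * spin b) (WdO T (fs.map sk) (TEf (fun _ => 1) T h))

theorem Wh_zero (T : List (Lv Bool)) (k : ℕ) (fs : List (ℕ → ℝ)) : Wh T 0 k fs = W T k fs := rfl

theorem Wh_nil (T : List (Lv Bool)) (h : Bool → ℝ) (k : ℕ) :
    Wh T h k [] = pi2 (fun _ => 1) T k (fun a b => spin a * spin b) h := twoF_TEf One15.w1 _ _ _ _


/-- the centred letter `f_j η_j / 2` -/
def le (q f : ℕ → ℝ) : SK := fun j a b => f j / 2 * oE q j a b

theorem sk_mem {K : ℕ} {f : ℕ → ℝ} (h : f 0 = 0) : sk f ∈ Ok Bool K :=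
  Hess65.ek_mem (c := fun j => f j / 2) (by simp [h])

theorem sk_all {K : ℕ} {fs : List (ℕ → ℝ)} (h : ∀ f ∈ fs, f 0 = 0) :
    ∀ T ∈ fs.map sk, T ∈ Ok Bool K := fun T hT => by
  obtain ⟨f, hf, rfl⟩ := List.mem_map.1 hT
  exact sk_mem (h f hf)


theorem WdO_le (T : List (Lv Bool)) (h : Bool → ℝ) (q : ℕ → ℝ) {fs : List (ℕ → ℝ)}
    (h0 : ∀ f ∈ fs, f 0 = 0) : WdO T (fs.map (le q)) (TEf (fun _ => 1) T h) =
      WdO T (fs.map sk) (TEf (fun _ => 1) T h) := by
  refine WdO_cs One15.w1 T h ?_ (sk_all h0)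
  rw [List.forall₂_map_left_iff, List.forall₂_map_right_iff, List.forall₂_same]
  exact fun f hf => ⟨fun k => -(f k / 2 * q k), by simp [h0 f hf], fun k x y => by
    simp only [le, oE, sk]; ring⟩

/-- **the dictionary**, test pair -/
theorem two_le (T : List (Lv Bool)) (h : Bool → ℝ) (q : ℕ → ℝ) {fs : List (ℕ → ℝ)}
    (h0 : ∀ f ∈ fs, f 0 = 0) (k : ℕ) (a c : ℝ) :
    twoF k (fun x y => a * (spin x * spin y - c)) (WdO T (fs.map (le q)) (TEf (fun _ => 1) T h)) =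
      a * (Wh T h k fs - if fs = [] then c else 0) := by
  rw [WdO_le T h q h0, twoF_cst One15.w1 T h (sk_all h0), Wh]
  simp only [List.map_eq_nil_iff]

/-- **the dictionary**, value -/
theorem Lam_le (T : List (Lv Bool)) (h : Bool → ℝ) (q f : ℕ → ℝ) {fs : List (ℕ → ℝ)}
    (h0 : ∀ g ∈ fs, g 0 = 0) : Lam (fun _ => 1) T h ((f :: fs).map (le q)) =
      ∑ j ∈ Finset.range (T.length + 1),
        dm T 0 j * (f j / 2 * (Wh T h j fs - if fs = [] then q j else 0)) := by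
  rw [List.map_cons, Lam_cons, pairF]
  exact Finset.sum_congr rfl fun j _ =>
    congrArg (dm T 0 j * ·) (two_le T h q h0 j (f j / 2) (q j))

theorem s6 : R1J.S6 := fun T k c f fs q h0 => by
  have := two_le T 0 q h0 k 1 c
  simp only [one_mul, List.cons_ne_nil, if_false, sub_zero] at this
  exact this

/-- symmetry: the test weight is one more letter -/
theorem Wh_symm (T : List (Lv Bool)) (h : Bool → ℝ) {f g : ℕ → ℝ} {fs : List (ℕ → ℝ)}
    (hf : f 0 = 0) (hg : g 0 = 0) (h0 : ∀ u ∈ fs, u 0 = 0) :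
    ∑ j ∈ Finset.range (T.length + 1), dm T 0 j * (f j * Wh T h j (g :: fs)) =
      ∑ j ∈ Finset.range (T.length + 1), dm T 0 j * (g j * Wh T h j (f :: fs)) := by
  have k : ∀ f g : ℕ → ℝ, pairF T (sk f) (Dop T (sk g) (WdO T (fs.map sk) (TEf (fun _ => 1) T h))) =
      (∑ j ∈ Finset.range (T.length + 1), dm T 0 j * (f j * Wh T h j (g :: fs))) / 2 :=
    fun f g => by
      rw [Finset.sum_div]
      refine Finset.sum_congr rfl fun j _ => ?_
      rw [show sk f j = fun x y => f j / 2 * (fun x y => spin x * spin y) x y from rfl,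
        Hess65.twoF_mul (((isLin_TEf One15.w1 T h).wdO T _).dop T _)]
      simp only [Wh, List.map_cons, WdO_cons]
      ring
  have := pairF_swap One15.w1 T h (sk_mem hf) (sk_mem hg) (sk_all h0)
  rw [k, k] at this
  linarith

theorem s7 : R1J.S7 := fun T _ _ _ hf hg h0 => Wh_symm T 0 hf hg h0

/-- words are symmetric -/
theorem Wh_perm (T : List (Lv Bool)) (h : Bool → ℝ) (k : ℕ) {fs gs : List (ℕ → ℝ)} (p : fs.Perm gs)
    (h0 : ∀ f ∈ fs, f 0 = 0) : Wh T h k fs = Wh T h k gs := by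
  rw [Wh, Wh, WdO_perm One15.w1 T h (p.map sk) (sk_all h0)]

/-- words are linear in the first letter -/
theorem Wh_lin (T : List (Lv Bool)) (h : Bool → ℝ) (k : ℕ) (a b : ℝ) (f g : ℕ → ℝ)
    (fs : List (ℕ → ℝ)) : Wh T h k ((fun j => a * f j + b * g j) :: fs) =
      a * Wh T h k (f :: fs) + b * Wh T h k (g :: fs) := by
  have e : sk (fun j => a * f j + b * g j) = fun j x y => a * sk f j x y + b * sk g j x y := by
    funext j x y; simp only [sk]; ring
  simp only [Wh, twoF, List.map_cons, WdO_cons, e, ((isLin_TEf One15.w1 T h).wdO T _).dopS]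

theorem Wh_smul (T : List (Lv Bool)) (h : Bool → ℝ) (k : ℕ) (a : ℝ) (f : ℕ → ℝ)
    (fs : List (ℕ → ℝ)) : Wh T h k ((fun j => a * f j) :: fs) = a * Wh T h k (f :: fs) := by
  simpa using Wh_lin T h k a 0 f f fs

theorem Wh_sum (T : List (Lv Bool)) (h : Bool → ℝ) (k : ℕ) {ι : Type*} (A : Finset ι)
    (f : ι → ℕ → ℝ) (fs : List (ℕ → ℝ)) :
    Wh T h k ((fun j => ∑ i ∈ A, f i j) :: fs) = ∑ i ∈ A, Wh T h k (f i :: fs) := by
  classical
  induction A using Finset.induction_on with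
  | empty => simpa using Wh_smul T h k 0 (fun _ => 0) fs
  | insert a A ha ih =>
    simp only [Finset.sum_insert ha, ← ih]
    simpa using Wh_lin T h k 1 1 (f a) (fun j => ∑ i ∈ A, f i j) fs

theorem Wh_congr (T : List (Lv Bool)) (h : Bool → ℝ) (k : ℕ) {f g : ℕ → ℝ}
    (e : ∀ j ≤ T.length, f j = g j) (fs : List (ℕ → ℝ)) :
    Wh T h k (f :: fs) = Wh T h k (g :: fs) := by
  simp only [Wh, List.map_cons, WdO_cons]
  rw [Dop_congrS T (S' := sk g) fun j hj => by funext x y; simp only [sk, e j hj]]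


/-! ### the heads of `CDef_40` -/

variable (D : CD)

/-- the word at the node `j`, cascade from depth `i` on, field `y` -/
def T (i : ℕ) (y : ℝ) (j : ℕ) (fs : List (ℕ → ℝ)) : ℝ :=
  Wh (D.S.drop i) (fun b => y * spin b) (j - i) (fs.map fun f k => f (k + i))

/-- centred -/
def Tc (i : ℕ) (y : ℝ) (j : ℕ) (fs : List (ℕ → ℝ)) : ℝ :=
  T D i y j fs - if fs = [] then D.q j else 0

/-- `ω = τ δ` on UP -/
def ω (j : ℕ) : ℝ := if D.J < j then D.τ j * D.del j else 0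

/-- twice the indicator -/
def i2 (t j : ℕ) : ℝ := 2 * ind t j

theorem Sd_eq : D.Sd = le D.q (ω D) := by
  funext j a b
  simp only [CD.Sd, le, ω]
  split_ifs <;> ring

theorem lev_eq (t : ℕ) : D.lev t = le D.q (i2 t) := by
  funext j a b
  simp only [CD.lev, le, i2, ind]
  split_ifs <;> ring

theorem T_zero (j : ℕ) (fs : List (ℕ → ℝ)) : T D 0 0 j fs = W D.S j fs := by
  simp only [T, List.drop_zero, zero_mul, add_zero, List.map_id', Nat.sub_zero]
  rfl

theorem T_nil (i : ℕ) (y : ℝ) (j : ℕ) : T D i y j [] =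
    pi2 (fun _ => 1) (D.S.drop i) (j - i) (fun a b => spin a * spin b) fun b => y * spin b :=
  Wh_nil _ _ _

theorem W_nil (j : ℕ) : W D.S j [] = D.Gam j := Wh_nil _ _ _

theorem ω_lo {j : ℕ} (h : j ≤ D.J) : ω D j = 0 := if_neg (by omega)

theorem ω_up {j : ℕ} (h : j ∈ D.up) : ω D j = D.τ j * D.del j := if_pos (Finset.mem_Ioo.1 h).1

theorem i2_lo {t : ℕ} (ht : t ∈ D.up) {j : ℕ} (h : j ≤ D.J) : i2 t j = 0 := by
  have := (Finset.mem_Ioo.1 ht).1
  rw [i2, ind, if_neg (by omega), mul_zero]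

variable {D}

theorem map_shift (i : ℕ) (fs : List (ℕ → ℝ)) : ((fs.map (le D.q)).map fun k j => k (j + i)) =
    (fs.map fun f k => f (k + i)).map (le fun k => D.q (k + i)) := by
  simp only [List.map_map]
  rfl

theorem shift0 {i : ℕ} {fs : List (ℕ → ℝ)} (h0 : ∀ f ∈ fs, f i = 0) :
    ∀ f ∈ fs.map fun f k => f (k + i), f 0 = 0 := fun f hf => by
  obtain ⟨g, hg, rfl⟩ := List.mem_map.1 hf
  simpa using h0 g hg

/-- **test direction** -/
theorem sH_test {a : ℕ → ℝ} (hW : D.W = some a) (i : ℕ) (y : ℝ) {fs : List (ℕ → ℝ)}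
    (h0 : ∀ f ∈ fs, f i = 0) :
    D.sH i y (fs.map (le D.q)) = ∑ j ∈ D.up, a j * Tc D i y j fs := by
  simp only [CD.sH, CD.dd, CD.om, hW, map_shift]
  refine Finset.sum_congr rfl fun j _ => congrArg _ ?_
  have := two_le (D.S.drop i) (fun b => y * spin b) (fun k => D.q (k + i)) (shift0 h0) (j - i) 1
    (D.q j)
  simp only [one_mul, List.map_eq_nil_iff] at this
  exact this

theorem sum_up (top : D.dx D.K = 0) {i : ℕ} (hi : i ≤ D.J) (hc : D.J < D.K) {g : ℕ → ℝ}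
    (h : ∀ j ≤ D.J, g j = 0) :
    ∑ j ∈ Finset.range ((D.S.drop i).length + 1), dm (D.S.drop i) 0 j * g (j + i) =
      ∑ j ∈ D.up, D.dx j * g j := by
  have lS : D.S.length = D.K := opS_length
  have e : ∀ j, dm D.S 0 j = D.dx j := Cav22.dm_tilt tilt_opS 0
  rw [List.length_drop, Wt87.sum_dm_drop D.S (by omega) g, h i hi, mul_zero, zero_add, lS]
  simp only [e]
  refine (Finset.sum_subset (fun j hj => ?_) fun j hj hj' => ?_).symm
  · simp only [Finset.mem_Ioo, Finset.mem_Ioc] at hj ⊢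
    omega
  · simp only [Finset.mem_Ioo, Finset.mem_Ioc] at hj hj'
    rcases le_or_gt j D.J with h1 | h1
    · rw [h j h1, mul_zero]
    · rw [show j = D.K by omega, top, zero_mul]

/-- **value direction**: the first letter is a test measure `dx f / 2` -/
theorem sH_val (hW : D.W = none) (top : D.dx D.K = 0) (hc : D.J < D.K) {i : ℕ} (hi : i ≤ D.J)
    (y : ℝ) {f : ℕ → ℝ} (hf : ∀ j ≤ D.J, f j = 0) {fs : List (ℕ → ℝ)} (h0 : ∀ g ∈ fs, g i = 0) :
    D.sH i y ((f :: fs).map (le D.q)) = ∑ j ∈ D.up, D.dx j * (f j / 2 * Tc D i y j fs) := by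
  simp only [CD.sH, CD.dd, hW, map_shift]
  rw [List.map_cons, Lam_le _ _ _ _ (shift0 h0),
    ← sum_up top hi hc (g := fun j => f j / 2 * Tc D i y j fs) fun j hj => by simp [hf j hj]]
  simp only [Tc, T, Nat.add_sub_cancel, List.map_eq_nil_iff]

/-- value = test with the measure `dx f / 2` -/
theorem sH_val_test (hW : D.W = none) (top : D.dx D.K = 0) (hc : D.J < D.K) {i : ℕ} (hi : i ≤ D.J)
    (y : ℝ) {f : ℕ → ℝ} (hf : ∀ j ≤ D.J, f j = 0) {fs : List (ℕ → ℝ)} (h0 : ∀ g ∈ fs, g i = 0) :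
    D.sH i y ((f :: fs).map (le D.q)) =
      CD.sH { D with W := some fun j => D.dx j * (f j / 2) } i y (fs.map (le D.q)) := by
  rw [sH_val hW top hc hi y hf h0]
  refine Eq.trans ?_ (sH_test (D := { D with W := some fun j => D.dx j * (f j / 2) }) rfl i y h0).symm
  exact Finset.sum_congr rfl fun j _ => (mul_assoc _ _ _).symm

theorem Tc_cons (i : ℕ) (y : ℝ) (j : ℕ) (f : ℕ → ℝ) (fs : List (ℕ → ℝ)) :
    Tc D i y j (f :: fs) = T D i y j (f :: fs) := by
  rw [Tc, if_neg (List.cons_ne_nil _ _), sub_zero]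

theorem Tc_nil (i : ℕ) (y : ℝ) (j : ℕ) : Tc D i y j [] = T D i y j [] - D.q j := by
  rw [Tc, if_pos rfl]

theorem T_smul (i : ℕ) (y : ℝ) (j : ℕ) (a : ℝ) (f : ℕ → ℝ) (fs : List (ℕ → ℝ)) :
    T D i y j ((fun k => a * f k) :: fs) = a * T D i y j (f :: fs) :=
  Wh_smul _ _ _ a (fun k => f (k + i)) _

theorem T_perm (i : ℕ) (y : ℝ) (j : ℕ) {fs gs : List (ℕ → ℝ)} (p : fs.Perm gs)
    (h0 : ∀ f ∈ fs, f i = 0) : T D i y j fs = T D i y j gs :=
  Wh_perm _ _ _ (p.map _) (shift0 h0)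

theorem sL_test {a : ℕ → ℝ} (hW : D.W = some a) {f : ℕ → ℝ} {fs : List (ℕ → ℝ)}
    (h0 : ∀ g ∈ f :: fs, g 0 = 0) :
    D.sL ((f :: fs).map (le D.q)) = ∑ j ∈ D.up, a j * W D.S j (f :: fs) := by
  rw [CD.sL, sH_test hW 0 0 h0]
  simp only [Tc_cons, T_zero]


theorem W_i2 (L : List (Lv Bool)) (j t : ℕ) (fs : List (ℕ → ℝ)) :
    W L j (i2 t :: fs) = 2 * W L j (ind t :: fs) := Wh_smul L 0 j 2 (ind t) fs

theorem ind0 {t : ℕ} (ht : 0 < t) : ind t 0 = 0 := if_neg ht.ne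

theorem i20 {t : ℕ} (ht : 0 < t) : i2 t 0 = 0 := by rw [i2, ind0 ht, mul_zero]

theorem W_i22 (L : List (Lv Bool)) (j : ℕ) {t t' : ℕ} (ht : 0 < t) (ht' : 0 < t')
    {fs : List (ℕ → ℝ)} (h0 : ∀ u ∈ fs, u 0 = 0) :
    W L j (i2 t :: i2 t' :: fs) = 4 * W L j (ind t :: ind t' :: fs) := by
  have p1 := Wh_perm L 0 j (List.Perm.swap (i2 t') (ind t) fs) (by
    simpa only [List.forall_mem_cons, ind0 ht, i20 ht', true_and] using h0)
  have p2 := Wh_perm L 0 j (List.Perm.swap (ind t) (ind t') fs) (by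
    simpa only [List.forall_mem_cons, ind0 ht, ind0 ht', true_and] using h0)
  simp only [Wh_zero] at p1 p2
  rw [W_i2, p1, W_i2, p2]
  ring


theorem up0 {t : ℕ} (ht : t ∈ D.up) : 0 < t := by have := (Finset.mem_Ioo.1 ht).1; omega

section test
variable {a : ℕ → ℝ} (hW : D.W = some a)
include hW


theorem f1_test : D.f1' = ∑ j ∈ D.up, a j * W D.S j [ω D] := by
  rw [CD.f1', Sd_eq]
  exact sL_test hW (fs := []) (by simp [ω_lo])

theorem QM_test : D.QM = ∑ j ∈ D.up, a j * W D.S j [ω D, ω D] := by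
  rw [CD.QM, Sd_eq]
  exact sL_test hW (fs := [ω D]) (by simp [ω_lo])

theorem lev1_test {t : ℕ} (ht : 0 < t) :
    D.sL [D.lev t] = 2 * ∑ j ∈ D.up, a j * W D.S j [ind t] := by
  rw [lev_eq, Finset.mul_sum]
  refine (sL_test hW (fs := []) (by simp [i20 ht])).trans (Finset.sum_congr rfl fun j _ => ?_)
  rw [W_i2]; ring

theorem lev2_test {t t' : ℕ} (ht : 0 < t) (ht' : 0 < t') :
    D.sL [D.lev t, D.lev t'] = 4 * ∑ j ∈ D.up, a j * W D.S j [ind t, ind t'] := by
  rw [lev_eq, lev_eq, Finset.mul_sum]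
  refine (sL_test hW (fs := [i2 t']) (by simp [i20 ht, i20 ht'])).trans
    (Finset.sum_congr rfl fun j _ => ?_)
  rw [W_i22 _ _ ht ht' (by simp)]; ring


theorem dP_test (r : ℕ) {fs : List (ℕ → ℝ)} (h0 : ∀ f ∈ fs, f D.J = 0) :
    D.dP r (fs.map (le D.q)) =
      -iteratedDeriv r (fun y => ∑ j ∈ D.up, a j * Tc D D.J y j fs) 0 := by
  simp only [CD.dP, fun y => sH_test hW D.J y h0]

end test

section value
variable (hW : D.W = none) (top : D.dx D.K = 0) (hc : D.J < D.K)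
include hW top hc



/-- a letter `lev t` in front reads the word at the node `t` -/
theorem lev_val {t : ℕ} (ht : t ∈ D.up) {i : ℕ} (hi : i ≤ D.J) (y : ℝ) {fs : List (ℕ → ℝ)}
    (h0 : ∀ g ∈ fs, g i = 0) :
    D.sH i y (D.lev t :: fs.map (le D.q)) = D.dx t * Tc D i y t fs := by
  rw [lev_eq, ← List.map_cons, sH_val hW top hc hi y (fun _ => i2_lo D ht) h0,
    Finset.sum_eq_single t (fun j _ hj => by simp [i2, ind, hj]) fun h => absurd ht h]
  simp [i2, ind]





end value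

end Crest.Agent.T156.Cas.Hd50

end
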