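import Crest.Agent.T156.NuW_87
import Crest.Agent.T156.SiteC_94
import Crest.Agent.T156.R1J_60

/-!
# Row 156 (helper76): marked site words graph by graph, weights of new labels, leaf (S4)
-/

set_option autoImplicit false
set_option linter.unusedSectionVars false

noncomputable section

namespace Crest.Agent.T156.Cas

open MeasureTheory Real Set Filter Topology
open Crest.Agent.T157.E Crest.Agent.T157.Casc Crest.Agent.T157.SL Crest.Agent.T157.Casc.C
open Crest.Agent.R339.B Crest.Agent.R339.Var Crest.Agent.T157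
open Crest.ProbabilityR.SpinGlassDynamics (spin)
open Nu87 One15 Site94 Wp52

namespace SW76

section parity
variable {ι : Type} [DecidableEq ι] {r K : ℕ} {σ : SM r} {p p' : ι → Fin r} {B : Finset ι}
  {L : List (Lv Bool)} {ℓ : List (ℝ × ℝ)} {q : ι → ℕ → ℝ}

/-- the lowest level carries one edge -/
theorem odd_low (hσ : Rz K σ) {e₀ : ι} (h0 : e₀ ∈ B) {m : ℕ} (hm : σ (p e₀) (p' e₀) = m)
    (hK : m < K) (h : ∀ e ∈ B, e ≠ e₀ → m < σ (p e) (p' e)) : OddAt σ p p' B m := by
  refine ⟨p e₀, ?_⟩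
  rw [show (B.filter fun e => Crs σ (p e₀) m (p e) (p' e)) = {e₀} from ?_]
  · simp
  ext e
  simp only [Finset.mem_filter, Finset.mem_singleton]
  refine ⟨fun ⟨he, hc⟩ => by_contra fun hn => (h e he hn).not_ge (hc.le hσ), ?_⟩
  rintro rfl
  refine ⟨h0, ?_⟩
  rw [Crs, hσ.self, hm]
  omega

/-- two clusters and an odd number of edges between them -/
theorem odd_two (hσ : Rz K σ) {a b : Fin r} {m : ℕ} (hm : σ a b = m) (h : ¬Tri σ m)
    (ho : Odd (B.filter fun e => σ (p e) (p' e) = m).card) : OddAt σ p p' B m := by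
  refine ⟨a, ?_⟩
  rwa [Finset.filter_congr (q := fun e => σ (p e) (p' e) = m) fun e _ => by
    rcases two_cl hσ h hm.le (p e) (p' e) with h | h
    · rw [hm] at h
      exact iff_of_true h.2 h.1
    · rw [hm] at h
      exact iff_of_false h.2 h.1.ne']

theorem SF_par (H : List.Forall₂ (Rk1 spin) L ℓ) (hM : Mono 0 L) (hσ : Rz L.length σ)
    (h1 : ∀ e ∈ B, |q e (σ (p e) (p' e))| ≤ 1) {j t : ℕ} (ho : OddAt σ p p' B j) {s : ℝ}
    (hp : 0 < s) (hj : j ≤ t) (hs : 1 ≤ s ∨ R339.Var.TT (ℓ.take t) ≤ s)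
    (hq : ∀ e ∈ B, σ (p e) (p' e) ≤ j → |q e (σ (p e) (p' e))| ≤ s) :
    |SF L q p p' B σ| ≤ 2 ^ B.card * (cP r s * s) := by
  rcases hs with hs | hs
  · obtain ⟨a, -⟩ := ho
    exact (abs_SF_le hσ h1).trans (le_mul_of_one_le_right (by positivity)
      (one_le_mul_of_one_le_of_one_le (one_le_cP a s) hs))
  · exact SF_odd H hM hσ h1 ho hp
      ((monotone_nat_of_le_succ (TT_take_succ (nn_of H)) hj).trans hs) hq

end parity

section weights
variable {Ω : Type} [Fintype Ω] {M : List (Lv Ω)} {A B : ℕ → ℝ}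

theorem EyC_ab (hM : Mono 0 M) (hA : ∀ u, 0 ≤ A u) (hB : ∀ u, 0 ≤ B u) (h : ∀ u, A u * B u = 0)
    {j : ℕ} (hj : j ≤ M.length) : ∀ (k : ℕ) (α β : ℝ),
    EyC M (fun _ : Fin 1 => j) k (fun y => (α + ∑ i, if i.val < k then A (y i) else 0) *
      (β + ∑ i, B (y i))) ≤ (α + k * Br M A) * (β + B j + k * Br M B)
  | 0, α, β => by simp [EyC]
  | k + 1, α, β => by
      refine (EyC_mono hM (fun _ => hj) k fun y _ => ?_).trans
        ((EyC_ab hM hA hB h hj k (α + Br M A) (β + Br M B)).trans_eq (by push_cast; ring))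
      have e : ∀ f : Fin (1 + (k + 1)) → ℝ, ∑ i, f i =
          f (0 : Fin (1 + k + 1)) + ∑ i : Fin (1 + k), f i.succ := fun f =>
        Fin.sum_univ_succ (n := 1 + k) f
      simp only [e, Fin.cons_zero, Fin.cons_succ, Fin.val_succ, Fin.val_zero, Nat.zero_lt_succ,
        if_true, Nat.add_lt_add_iff_right]
      generalize (∑ i : Fin (1 + k), if i.val < k then A (y i) else 0) = a
      generalize (∑ i : Fin (1 + k), B (y i)) = b
      rw [show (fun u => (α + (A u + a)) * (β + (B u + b))) = fun u =>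
        (α + a) * (β + b) + ((α + a) * B u + (β + b) * A u) from funext fun u => by
          linear_combination h u, Br_add, Br_add, Br_const, Br_mul _ _ B, Br_mul _ _ A]
      nlinarith [mul_nonneg (Br_nonneg hM fun u _ => hA u) (Br_nonneg hM fun u _ => hB u)]

/-- **three clusters above the cut `m` and an edge at a new label above it** -/
theorem avc_tri (hM : Mono 0 M) {j m : ℕ} (hj : j ≤ M.length) (k : ℕ) (hB : ∀ u, 0 ≤ B u)
    (h0 : ∀ u ≤ m, B u = 0) (hBj : B j = 0) {a b : Fin (1 + k + 1)} (hab : a ≠ b)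
    [∀ σ : SM (1 + k + 1), Decidable (Tri σ m)] :
    avc M (tw M.length j) k (fun σ => if Tri σ m then B (σ a b) else 0) ≤
      (1 + k) ^ k * (k ^ 2 * (ex M m * Br M B)) := by
  have hA : ∀ u, (0 : ℝ) ≤ if u ≤ m then 1 else 0 := fun u => by positivity
  have n1 : ∀ (y : Fin (1 + k) → ℕ) (i : Fin (1 + k)),
      (0 : ℝ) ≤ if i.val < k then (if y i ≤ m then 1 else 0) else 0 := fun y i => by positivity
  have nB := Br_nonneg hM fun u _ => hB u
  have nn : ∀ y : Fin (1 + k) → ℕ, 0 ≤ (0 + ∑ i, if i.val < k then (if y i ≤ m then (1 : ℝ) else 0)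
      else 0) * (0 + ∑ i, B (y i)) := fun y => by
    rw [zero_add, zero_add]
    exact mul_nonneg (Finset.sum_nonneg fun i _ => n1 y i) (Finset.sum_nonneg fun i _ => hB _)
  by_cases hm : M.length ≤ m
  · refine (avc_congr (rz_tw _ j) k (ψ := fun _ => 0) fun σ hσ => ?_).trans_le ?_
    · rw [h0 _ ((hσ.le a b).trans hm), ite_self]
    · rw [avc_const]
      have := Nu87.ex_nonneg hM m
      positivity
  refine (avc_le hM (fun _ => hj) (cmp_tw hj) k (fun y _ => nn y) fun σ y _ hc => ?_).trans ?_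
  · split_ifs with ht
    · obtain ⟨x, z, w, h1, h2, h3⟩ := ht
      have hσ := hc.rz
      have ne : ∀ x z, σ x z ≤ m → x ≠ z := fun x z h e => hm (by rw [← hσ.self z]; exact e ▸ h)
      have h4 := hc.card m {x, z, w} fun c hc' d hd hcd => by
        have := hσ.comm x z; have := hσ.comm x w; have := hσ.comm z w
        simp only [Finset.mem_insert, Finset.mem_singleton] at hc' hd
        rcases hc' with rfl | rfl | rfl <;> rcases hd with rfl | rfl | rfl <;> omega
      rw [Finset.card_insert_of_notMem (by simp [ne _ _ h1, ne _ _ h2]),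
        Finset.card_pair (ne _ _ h3)] at h4
      obtain ⟨i, h5, h6⟩ := Finset.exists_mem_ne
        (show 1 < (Finset.univ.filter fun i => y i ≤ m).card by omega) ⟨k, by omega⟩
      have h7 : i.val < k := by
        have := i.2
        have : i.val ≠ k := fun e => h6 (Fin.ext e)
        omega
      obtain ⟨i', hi'⟩ := hc.mem a b hab
      have h8 := Finset.single_le_sum (fun i _ => n1 y i) (Finset.mem_univ i)
      rw [if_pos h7, if_pos (Finset.mem_filter.1 h5).2] at h8
      rw [zero_add, zero_add, hi']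
      exact (Finset.single_le_sum (fun i _ => hB (y i)) (Finset.mem_univ i')).trans
        (le_mul_of_one_le_left (Finset.sum_nonneg fun i _ => hB _) h8)
    · exact nn y
  · refine mul_le_mul ((by simp)) ((EyC_ab hM hA hB (fun u => ?_) hj k 0 0).trans ?_)
      ((EyC_mul _ 0 k fun _ => 0).symm.trans_le (EyC_mono hM (fun _ => hj) k
        fun y _ => (zero_mul _).trans_le (nn y)) |>.trans' (zero_mul _).ge) (by positivity)
    · split_ifs with h
      exacts [by rw [h0 u h, mul_zero], zero_mul _]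
    · have := mul_le_mul_of_nonneg_right (Br_le hM m) nB
      rw [hBj]
      nlinarith [mul_le_mul_of_nonneg_left this (sq_nonneg (k : ℝ))]



end weights

section words
variable {L : List (Lv Bool)} {ℓ : List (ℝ × ℝ)}

/-- `g_j η_j` -/
def wk (q g : ℕ → ℝ) : ℕ → Bool → Bool → ℝ := fun j a b => g j * et q j a b

theorem wk_ok {q g : ℕ → ℝ} (K : ℕ) (h : g 0 = 0) : wk q g ∈ Mul55.Ok Bool K :=
  ⟨funext fun _ => funext fun _ => by simp [wk, h], g K * (1 - q K), fun y => by
    rw [wk, et, ← sq, One15.spin_sq]⟩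

/-- the ends of the marked edge and of the edges `f` -/
abbrev pL {m : ℕ} (f : Fin m → Fin (1 + 2 * m + 1) × Fin (1 + 2 * m + 1)) :
    Fin (m + 1) → Fin (1 + 2 * m + 1) := Fin.cons (old (r := 1) (2 * m) 0) fun i => (f i).1
abbrev pR {m : ℕ} (f : Fin m → Fin (1 + 2 * m + 1) × Fin (1 + 2 * m + 1)) :
    Fin (m + 1) → Fin (1 + 2 * m + 1) := Fin.cons (old (r := 1) (2 * m) 1) fun i => (f i).2

/-- **a marked site word, graph by graph** -/
theorem abs_word_le (hM : Mono 0 L) {j : ℕ} (hj : j ≤ L.length) (q : ℕ → ℝ) {g : ℕ → ℕ → ℝ} {m : ℕ}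
    (hg : ∀ i < m, g i 0 = 0) {c : ℝ} (hc : 0 ≤ c)
    (H : ∀ f : Fin m → Fin (1 + 2 * m + 1) × Fin (1 + 2 * m + 1), (∀ i, (f i).1 ≠ (f i).2) →
      ∃ Φ, avc L (tw L.length j) (2 * m) Φ ≤ c ∧ ∀ σ, Rz L.length σ →
        σ (pL f 0) (pR f 0) = j → |∏ i : Fin m, g i (σ (f i).1 (f i).2)| *
          |SF L (fun _ => q) (pL f) (pR f) Finset.univ σ| ≤ Φ σ) :
    |twoF j (et q j) (WdO L ((List.range m).map fun i => wk q (g i)) (TEf (fun _ => 1) L 0))| ≤
      (2 * m + 2) ^ (4 * m) * c := by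
  have e1 := twoF_eq_nW (L := L) (h := 0) w1 (U := (List.range m).map fun i => wk q (g i))
    (fun S hS => by
      obtain ⟨i, hi, rfl⟩ := List.mem_map.1 hS
      exact wk_ok _ (hg i (List.mem_range.1 hi))) hj (et q)
  have e3 := nuc_nDv (w := fun _ => 1) (L := L) (h := 0) (tw L.length j) (fun i => wk q (g i))
    (ed (et q) 0 1) m fun _ => 1
  simp only [one_mul] at e3
  rw [e1, nW_range, e3]
  refine (abs_sum_nCG_le hc fun f hf => ?_).trans_eq (by push_cast; ring)
  obtain ⟨Φ, h1, h2⟩ := H f hf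
  refine (abs_avc_le hM (rz_tw _ j) _ fun σ hσ ho => ?_).trans h1
  refine le_of_eq_of_le ?_ (h2 σ hσ ((ho 0 1).trans (tw_01 hj)))
  rw [← abs_mul, SF, ← TM_mul]
  congr 2
  funext x
  simp only [Fin.prod_univ_succ (n := m), Fin.cons_zero, Fin.cons_succ, ed, wk, RF.re,
    Finset.prod_mul_distrib]
  ring

end words

end SW76

open SW76

/-- **leaf (S4)** -/
theorem R1J.s4 : R1J.S4 := by
  classical
  have c0 := one_le_cP (r := 8) 0 1
  refine ⟨8 ^ 12 * (2 * (1 + 21 ^ 6 * 2 * cP 8 1 + 7 ^ 6 * 36)), by linarith,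
    fun T k p H f hf => ?_⟩
  have hM := H.mono
  have hs : 0 < min 1 p := lt_min one_pos H.p0
  have x0 := Nu87.ex_nonneg hM k
  have t0 : 0 ≤ Ker15.tm T k := Ker15.tm_eq H.r1.rk k ▸ One15.TT_nonneg fun p hp =>
    nn_of H.r1.rk p (List.mem_of_mem_take hp)
  have hx : ex T k ≤ p := (le_min (Tay38.ex_le_one hM k) (by linarith)).trans H.par
  have hT : 1 ≤ min 1 p ∨ R339.Var.TT ((T.map fun l => (l.m, l.cov true true)).take k) ≤ min 1 p := by
    rcases le_or_gt 1 p with h | h
    · exact .inl (le_min le_rfl h)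
    · rw [← Ker15.tm_eq H.r1.rk, min_eq_right h.le]
      exact .inr (by linarith [(min_le_iff.1 H.par).resolve_left h.not_ge])
  have hc : cP 8 (min 1 p) * min 1 p ≤ cP 8 1 * p :=
    mul_le_mul (cP_mono _ (min_le_left _ _)) (min_le_right _ _) hs.le (cP_nonneg _ _)
  have n0 : 0 ≤ R1J.n1 T f := Br_nonneg hM (g := fun j => |f j|) fun _ _ => abs_nonneg _
  have n1 := mul_nonneg H.p0.le n0
  have n2 := mul_nonneg (mul_nonneg (cP_nonneg 8 1) H.p0.le) n0
  have key := abs_word_le hM H.kK.le (fun _ => 0) (m := 3)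
    (g := fun i j => (if i = 2 then f j else R1J.ind k j) / 2)
    (fun i _ => by simp [hf, R1J.ind, H.k0.ne])
    (c := 2 * (|f k| + 21 ^ 6 * 2 * (cP 8 1 * p * R1J.n1 T f) + 7 ^ 6 * 36 * (p * R1J.n1 T f)))
    (by positivity) fun e he => ⟨fun σ => 2 * (|f k| + cP 8 1 * p *
        (if σ (e 2).1 (e 2).2 = k then 0 else |f (σ (e 2).1 (e 2).2)|) +
      if Tri σ k then (if σ (e 2).1 (e 2).2 ≤ k then 0 else |f (σ (e 2).1 (e 2).2)|) else 0), ?_,
      fun σ hσ h0 => ?_⟩
  · have e : R1J.W T k [R1J.ind k, R1J.ind k, f] = twoF k (et (fun _ => 0) k) (WdO T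
        ((List.range 3).map fun i => wk (fun _ => 0) fun j =>
          (if i = 2 then f j else R1J.ind k j) / 2) (TEf (fun _ => 1) T 0)) := by
      have e1 : ∀ g, R1J.sk g = wk (fun _ => 0) fun j => g j / 2 := fun g => by
        funext j a b
        simp [wk, et, R1J.sk]
      have e2 : et (fun _ => 0) k = fun a b => spin a * spin b := by
        funext a b
        simp [et]
      simp only [R1J.W, List.map_cons, List.map_nil, e1, e2]
      rfl
    rw [e]
    refine key.trans ?_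
    norm_num only
    nlinarith [abs_nonneg (f k), mul_nonneg (cP_nonneg 8 1) (abs_nonneg (f k))]
  · have h1 := avc_pair_le hM H.kK.le 6 (D := fun v => if v = k then 0 else |f v|)
      (fun v => by positivity) (he 2)
    have h2 := avc_tri hM (m := k) H.kK.le 6 (B := fun v => if v ≤ k then 0 else |f v|)
      (fun v => by positivity) (fun u hu => if_pos hu) (if_pos le_rfl) (he 2)
    have h3 : Br T (fun v => if v = k then 0 else |f v|) ≤ R1J.n1 T f :=
      Br_mono hM (g' := fun j => |f j|) fun v _ => by split_ifs; exacts [abs_nonneg _, le_rfl]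
    have h4 : ex T k * Br T (fun v => if v ≤ k then 0 else |f v|) ≤ p * R1J.n1 T f :=
      mul_le_mul hx (Br_mono hM (g' := fun j => |f j|) fun v _ => by
        split_ifs; exacts [abs_nonneg _, le_rfl]) (Br_nonneg hM fun v _ => by positivity) H.p0.le
    rw [if_pos rfl, zero_add] at h1
    rw [avc_mul, avc_add, avc_add, avc_const, avc_mul]
    norm_num only at h1 h2
    have h5 := mul_le_mul_of_nonneg_left (h1.trans (mul_le_mul_of_nonneg_left
      (mul_le_mul_of_nonneg_left h3 zero_le_two) (by norm_num)))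
      (mul_nonneg (cP_nonneg 8 1) H.p0.le)
    linarith
  · have q1 : ∀ i ∈ (Finset.univ : Finset (Fin 4)), |(0 : ℝ)| ≤ 1 := fun _ _ => by simp
    have c16 : (2 : ℝ) ^ (Finset.univ : Finset (Fin 4)).card = 16 := by norm_num
    have z1 : 0 ≤ cP 8 1 * p * if σ (e 2).1 (e 2).2 = k then 0 else |f (σ (e 2).1 (e 2).2)| :=
      mul_nonneg (mul_nonneg (cP_nonneg 8 1) H.p0.le) (by positivity)
    have z2 : 0 ≤ if Tri σ k then (if σ (e 2).1 (e 2).2 ≤ k then 0 else |f (σ (e 2).1 (e 2).2)|)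
      else 0 := by positivity
    have cr := (abs_SF_le (L := T) (q := fun _ _ => 0) (p := pL e) (p' := pR e) hσ q1).trans_eq c16
    rw [Fin.prod_univ_three]
    beta_reduce
    by_cases h : σ (e 0).1 (e 0).2 = k ∧ σ (e 1).1 (e 1).2 = k
    swap
    · rw [not_and_or] at h
      refine le_trans (le_of_eq ?_) (show 0 ≤ _ by positivity)
      rcases h with h | h <;> simp [R1J.ind, h]
    have par : ∀ i ≤ k, OddAt σ (pL e) (pR e) Finset.univ i →
        |SF T (fun _ _ => 0) (pL e) (pR e) Finset.univ σ| ≤ 16 * (cP 8 1 * p) := fun i hi ho =>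
      (SF_par H.r1.rk hM hσ q1 ho hs hi hT fun _ _ _ => abs_zero.trans_le hs.le).trans
        (c16 ▸ mul_le_mul_of_nonneg_left hc (by positivity))
    have e8 : |(if ((0 : Fin 3) : ℕ) = 2 then f (σ (e 0).1 (e 0).2) else R1J.ind k (σ (e 0).1 (e 0).2)) / 2 *
        ((if ((1 : Fin 3) : ℕ) = 2 then f (σ (e 1).1 (e 1).2) else R1J.ind k (σ (e 1).1 (e 1).2)) / 2) *
        ((if ((2 : Fin 3) : ℕ) = 2 then f (σ (e 2).1 (e 2).2) else R1J.ind k (σ (e 2).1 (e 2).2)) / 2)| =
        |f (σ (e 2).1 (e 2).2)| / 8 := by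
      simp [R1J.ind, h.1, h.2, abs_mul, abs_div]
      ring
    rw [e8]
    have f0 := abs_nonneg (f (σ (e 2).1 (e 2).2))
    rcases lt_trichotomy (σ (e 2).1 (e 2).2) k with hv | hv | hv
    · have := par _ hv.le (odd_low hσ (Finset.mem_univ 3) rfl (hv.trans H.kK) fun i _ hi => by
        fin_cases i
        exacts [hv.trans_eq h0.symm, hv.trans_eq h.1.symm, hv.trans_eq h.2.symm, absurd rfl hi])
      rw [if_neg hv.ne]
      nlinarith [mul_le_mul_of_nonneg_left this f0, abs_nonneg (f k)]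
    · rw [hv] at f0 ⊢
      rw [if_pos rfl, if_pos le_rfl, ite_self]
      linarith [mul_le_mul_of_nonneg_left cr f0]
    · rw [if_neg hv.ne'] at z1 ⊢
      by_cases ht : Tri σ k
      · rw [if_pos ht, if_neg hv.not_ge]
        nlinarith [mul_le_mul_of_nonneg_left cr f0, abs_nonneg (f k)]
      · have := par k le_rfl (odd_two hσ h0 ht (by
          rw [Finset.card_filter, Fin.sum_univ_succ, Fin.sum_univ_three]
          simp only [Fin.cons_succ, h0, h.1, h.2, if_true, if_neg hv.ne']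
          decide))
        nlinarith [mul_le_mul_of_nonneg_left this f0, abs_nonneg (f k)]

end Crest.Agent.T156.Cas

end
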