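import Crest.Agent.T156.R1MixD_65
import Crest.Agent.T156.R1Lo2_73
import Crest.Agent.T156.L0_48
import Crest.Agent.T156.SW_76
import Crest.Agent.T156.R1Def_82
import Crest.Agent.T156.R1Cx_77
import Crest.Agent.T156.PlM_13
import Crest.Agent.T156.R1LwA_76
import Crest.Agent.T156.R1Fr_56
import Crest.Agent.T156.R1SDB_56
import Crest.Agent.T156.CLfB_24
import Crest.Agent.T156.LPc_32

-- ▼ part T156/R1Lo3_73
section

/-!
# Row 156 (helper73): the coefficient `c2lo` of the root atom on the graded family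
-/

set_option autoImplicit false
set_option linter.unusedSectionVars false

noncomputable section

namespace Crest.Agent.T156.Alt.P73

open Finset Filter
open Crest.Agent.T157.Casc Crest.Agent.T157.SL Crest.Agent.T157.Casc.C
open Crest.ProbabilityR.SpinGlassDynamics (spin)
open Crest.Agent.T156.Pp Crest.Agent.T156.Hess65
open Crest.Agent.T156.Pp.Area50 hiding ind
open Crest.Agent.T156.Cas Crest.Agent.T156.Cas.C40 Crest.Agent.T156.Alt.Md77
open Crest.Agent.T156.Alt.Md67 Crest.Agent.T156.Alt.CIn12 Crest.Agent.T156.Alt.Alg77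
open Crest.Agent.T156.Alt.Co65
open Crest.Agent.T156.Cas.R1J (n1)
open Crest.Agent.T156.Cas.R1P

theorem abs_SU1 {L : List (Lv Bool)} (H : Ker15.R1 L) (hM : Mono 0 L) (J : ℕ) (f : ℕ → ℝ) :
    |SU L J [f]| ≤ 80 * n1 L f := by
  have := sum_dm_le (fun k => |Wd L [f] k|) (a := 40 * n1 L f) hM (h := fun k => 40 * |f k|)
    fun k hk => (abs_abs _).trans_le ((abs_Wd1c H hM hk f).trans_eq (mul_add _ _ _))
  simp only [mul_left_comm _ (40 : ℝ), ← mul_sum] at this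
  refine (abs_sum_le_sum_abs _ _).trans ?_
  simp only [abs_mul, abs_of_nonneg (dm_nonneg hM _)]
  refine (sum_le_sum_of_subset_of_nonneg (t := range (L.length + 1))
    (fun k hk => mem_range.2 (Nat.lt_succ_of_le (mem_Ioc.1 hk).2))
    fun k _ _ => mul_nonneg (dm_nonneg hM k) (abs_nonneg _)).trans ?_
  unfold n1 at this ⊢
  linarith [le_abs_self (∑ k ∈ range (L.length + 1), dm L 0 k * |Wd L [f] k|)]

theorem lo_num {σ B K τ u b' ε ε' χ l d w F lo γ Γ P Φ ms μ : ℝ} (σ0 : 0 < σ) (B1 : 1 ≤ B)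
    (K1 : 1 ≤ K) (t0 : 0 ≤ τ) (u0 : 0 ≤ u) (tB : τ + u ≤ B) (uΓ : u ≤ Γ)
    (e1 : (τ + u) * χ ^ 2 = 1 - ε) (e2 : b' * χ ^ 2 + (τ + u) * (2 * χ * -w) = -ε')
    (c0 : 0 ≤ χ) (c1 : χ ≤ 1) (l0 : 0 ≤ l) (l1 : l ≤ 1) (a1 : σ * |b'| ≤ K * μ) (μ0 : 0 ≤ μ)
    (μ1 : μ ≤ 1) (ε0 : 0 ≤ ε) (εm : ε ≤ ms) (a2 : σ * |ε'| ≤ ε) (a3 : |d| ≤ 80 * F)
    (FK : σ * F ≤ K * μ) (a4 : |χ - l| ≤ 80 * γ) (γ0 : 0 ≤ γ) (γΓ : γ ≤ Γ)
    (a5 : |d - w| ≤ 80 * lo + 3 * 4500 ^ 2 * (F * γ + P)) (lK : σ * lo ≤ K * ms)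
    (PΦ : σ * P ≤ Φ + K * (u * μ)) (Φ0 : 0 ≤ Φ) :
    σ * |b' / 4 + τ ^ 2 * -(4 * l * d) / 8| ≤ B ^ 2 * K * (4 * 4500 ^ 2) * (ms + μ * Γ + Φ) := by
  have K0 := zero_le_one.trans K1
  have Γ0 := γ0.trans γΓ
  have m0 := ε0.trans εm
  have b0 : 0 ≤ τ + u := by positivity
  obtain ⟨S, hS⟩ : ∃ S, S = K * (ms + μ * Γ + Φ) := ⟨_, rfl⟩
  have d1 : 0 ≤ K * ms := by positivity
  have d2 : 0 ≤ K * (μ * Γ) := by positivity
  have d3 := le_mul_of_one_le_left Φ0 K1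
  have d4 := le_mul_of_one_le_left m0 K1
  have S0 : 0 ≤ S := by rw [hS]; positivity
  have id : σ * (b' / 4 + τ ^ 2 * -(4 * l * d) / 8) = (σ * b' * ε - (τ + u) * (σ * ε')) / 4 +
      ((2 * τ + u) * l * (u * (σ * d)) + (τ + u) ^ 2 * ((χ - l) * (σ * d)) -
        (τ + u) ^ 2 * χ * (σ * (d - w))) / 2 := by
    linear_combination σ * (τ + u) / 4 * e2 - σ * b' / 4 * e1
  have ab : ∀ x, |σ * x| = σ * |x| := fun x => by rw [abs_mul, abs_of_pos σ0]
  have T0 : σ * |d| ≤ 80 * (K * μ) := by linarith [mul_le_mul_of_nonneg_left a3 σ0.le]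
  have B2 : B ≤ B ^ 2 := le_self_pow₀ B1 two_ne_zero
  have bB := pow_le_pow_left₀ b0 tB 2
  have q : ∀ {c x y C : ℝ}, 0 ≤ c → c ≤ C * B ^ 2 → |x| ≤ y * S → |c * x| ≤ C * y * (B ^ 2 * S) :=
    fun {c x y C} h0 h1 h2 => by
      rw [abs_mul, abs_of_nonneg h0]
      exact (mul_le_mul h1 h2 (abs_nonneg _) (h0.trans h1)).trans_eq (by ring)
  have q1 := q (x := σ * b' * ε) (y := 1) (C := 1) zero_le_one (by linarith) (by
    rw [abs_mul, ab, abs_of_nonneg ε0]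
    have := mul_le_mul (a1.trans (mul_le_of_le_one_right K0 μ1)) εm ε0 K0
    rw [hS]; linarith)
  have q2 := q (x := σ * ε') (y := 1) (C := 1) b0 (by linarith) (by rw [ab, hS]; linarith)
  have q3 := q (x := u * (σ * d)) (y := 80) (C := 2) (c := (2 * τ + u) * l) (by positivity)
    ((mul_le_of_le_one_right (by positivity) l1).trans (by linarith)) (by
      rw [abs_mul, ab, abs_of_nonneg u0]
      have := mul_le_mul uΓ T0 (by positivity) Γ0
      rw [hS]; linarith)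
  have q4 := q (x := (χ - l) * (σ * d)) (y := 6400) (C := 1) (sq_nonneg (τ + u)) (by linarith) (by
    rw [abs_mul, ab]
    have := mul_le_mul (a4.trans (show _ ≤ 80 * Γ by linarith)) T0 (by positivity) (by positivity)
    rw [hS]; linarith)
  have q5 := q (x := σ * (d - w)) (y := 6 * 4500 ^ 2) (C := 1) (c := (τ + u) ^ 2 * χ)
    (by positivity) ((mul_le_of_le_one_right (by positivity) c1).trans (by linarith)) (by
      have x1 := mul_le_mul_of_nonneg_left a5 σ0.le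
      have x2 := mul_le_mul FK γΓ γ0 (by positivity)
      have x3 := mul_le_mul_of_nonneg_left (mul_le_mul_of_nonneg_right uΓ μ0) K0
      rw [ab, hS]; linarith)
  have : 0 ≤ B ^ 2 * S := by positivity
  rw [← ab, id, show B ^ 2 * K * (4 * 4500 ^ 2) * (ms + μ * Γ + Φ) =
    4 * 4500 ^ 2 * (B ^ 2 * S) by rw [hS]; ring]
  rw [one_mul] at q1
  rw [abs_le] at *
  constructor <;> linarith [q1.1, q1.2, q2.1, q2.2, q3.1, q3.2, q4.1, q4.2, q5.1, q5.2]

variable {p : Pm} {P : Pl} {σ Y : ℝ}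

theorem ap_gst (h : OP p (Set.Ioi 0) p.omG (omG' p) p.epsG Y) (hσ : 0 < σ) :
    Ode3.AP (p.lG σ) ∧ R339.Var.TT (p.lG σ) = Pr.sig p.v (p.omG σ) (p.J + p.Nr) :=
  have := (Pr.areaS p.z _ _ h.labN (h.hom σ hσ).sig0 (h.np.sm σ hσ)).1
  ⟨.of_ok this.1, this.2.1⟩

theorem nu_mono (p : Pm) (P : Pl) (k : ℕ) : nu p P k ≤ nu p P (k + 1) := by
  unfold Md77.nu Pm.Jp
  split_ifs <;> omega

/-- the reference overlaps are admissible -/
theorem rf_gst (h : OP p (Set.Ioi 0) p.omG (omG' p) p.epsG Y) (hσ : 0 < σ) (hg : P.γ = 0) :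
    Rf (p.gst P σ) (p.gst P σ).q := by
  refine ⟨q_nonneg 0, fun k hk => ?_, fun k _ => q_le_one k⟩
  obtain ⟨a, e⟩ := ap_gst h hσ
  have sm := (h.np.sm σ hσ).monotone
  change p.qO P (p.omG σ) k ≤ p.qO P (p.omG σ) (k + 1)
  rw [h.qO_eq hg hσ, h.qO_eq hg hσ]
  exact Ode3.Gam_mono a ((h.hom σ hσ).sig0.ge.trans (sm (Nat.zero_le _))) (sm (nu_mono p P k))
    (e ▸ sm (nu_le p P hk.le))

theorem q_pos (h : OP p (Set.Ioi 0) p.omG (omG' p) p.epsG Y) (hσ : 0 < σ) (hg : P.γ = 0) {k : ℕ}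
    (h0 : 0 < k) (hk : k ≤ p.J) : 0 < (p.gst P σ).q k := by
  obtain ⟨a, e⟩ := ap_gst h hσ
  have sm := h.np.sm σ hσ
  have s0 : 0 < Pr.sig p.v (p.omG σ) k := (h.hom σ hσ).sig0.ge.trans_lt (sm h0)
  change 0 < p.qO P (p.omG σ) k
  rw [h.qO_eq hg hσ, nu_lo hk]
  exact (mul_pos (Real.exp_pos _) s0).trans_le
    (L048.Gam_ge a le_rfl ⟨s0.le, e ▸ sm.monotone (by omega)⟩)

/-- **the coefficient of the root atom** -/
def LoQ (C : ℝ) (p : Pm) : Prop := ∀ σ, p.MemG σ → ∀ P : Pl, P.γ = 0 →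
  Pr.Lab (p.zP P) (p.NP P) → p.jf < p.J → p.J < p.NP P → ∀ m a, Lg (p.gst P σ) m a → 0 < a →
  Top (p.gst P σ) → ∀ E D, D = cdf (p.gst P σ) m a (p.gst P σ).q (p.jf + 1) (sv p σ) E →
  σ * |c2lo D (deriv p.bG σ)| ≤
    C * (p.msG σ (p.jf * p.v) + p.muG σ * Gm p P σ m a + Fg p P σ m a)

set_option maxHeartbeats 800000 in
theorem loQ (β : ℝ) (hβ : 1 < β) : Cst β LoQ := by
  intro c0 C0 hc0 hC0
  obtain ⟨K, k1, H1⟩ := P73.c2Q R1J.s1 R1J.s2 R1J.s3 β hβ c0 C0 hc0 hC0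
  obtain ⟨K', -, H2⟩ := p1G β hβ c0 C0 hc0 hC0
  have B1 : 1 ≤ β ^ 2 := one_le_pow₀ hβ.le
  refine ⟨(β ^ 2) ^ 2 * K * (4 * 4500 ^ 2), one_le_mul_of_one_le_of_one_le
    (one_le_mul_of_one_le_of_one_le (one_le_pow₀ B1) k1) (by norm_num), fun A' hA' c hc hc' => ?_⟩
  filter_upwards [H1 A' hA' c hc hc', H2 A' hA' c hc hc'] with n H1 H2 p q1 q2 q3 q4 ok σ hm
    P hg hz hj hN m a G ha ht E D hD
  obtain ⟨⟨σ0, κ0, r0, ry, κ1, yJ⟩, ⟨om, -⟩, ⟨b0, b1, -⟩, -, -, -, -, -, em, -, ve, -, -, μκ⟩ :=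
    H2 p q1 q2 q3 q4 ok σ hm
  obtain ⟨⟨f1, f2, f6, f3, f4⟩, -⟩ := H1 p q1 q2 q3 q4 ok σ hm
  rw [q1] at b1
  have hb := ok.base
  have v0 := hb.v_pos
  have h := op_gst p v0 hb.lab κ0.le (by linarith) (by linarith) yJ
  have hρ := rf_gst h σ0 hg
  have ε0 : 0 ≤ p.epsG σ := (Real.sqrt_nonneg _).trans ve
  have μ0 : 0 ≤ p.muG σ := (ε0.trans (em 0).1).trans (em 0).2
  have cl := col_nu h.lab fun k (_ : k < p.NP P) => (hz.pos.trans_le (hz.mono k.zero_le)).ne'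
  have es : p.sO P (p.omG σ) = fun k => Pr.sig p.v (p.omG σ) (nu p P k) := funext (h.sO_eq hg σ0)
  have us : Up (p.sO P (p.omG σ)) (p.NP P) := es ▸ cl.up (up_np h.np σ0 _)
  have s0 : p.sO P (p.omG σ) 0 = 0 := (Mem37.sP_lo p.J.zero_le).trans om.sig0
  obtain ⟨Lr, H⟩ := ex_rk1 (p.zP P) us
  have jN : p.jf < p.NP P := hj.trans hN
  have T : TR (p.zP P) (p.sO P (p.omG σ)) (fun k => D.sig (k + 1)) (p.NP P) p.jf Lr D.S :=
    hD ▸ tr_cd G ha hρ jN hz (fun k h1 _ => congrArg (p.zP P) (max_eq_left h1))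
      (by simp [Pm.gst, Pm.famO, Pm.HO]) us s0 H
  have nD : ∀ f, n1 D.S (up1 p.jf f) =
      ∑ k ∈ Ico (p.jf + 1) (p.NP P), (p.gst P σ).dz m a k * |f k| := fun f =>
    hD ▸ n1_cd G.toLeg ht f
  have dd : ∀ k, (p.gst P σ).d k = p.bG σ := fun k => by simp [Pm.gst, Pm.famO]
  obtain ⟨u, hu⟩ : ∃ u, u = p.bG σ / (m + 1) := ⟨_, rfl⟩
  have u0 : 0 ≤ u := hu ▸ div_nonneg (by linarith) (by positivity)
  have tu : ∀ k, 0 ≤ tp (p.gst P σ) m k ∧ p.bG σ = tp (p.gst P σ) m k + u := fun k => by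
    have := tp_mem (m := m) G.toLeg k
    rw [dd] at this
    exact ⟨this.1, by linarith [this.2.2]⟩
  have hh : ∀ k, p.jf + 1 ≤ k → k < p.NP P →
      |D.sig (k + 1) - p.sO P (p.omG σ) k| ≤ |(p.gst P σ).G k| + u := fun k h1 h2 => by
    have e : D.sig (k + 1) - p.sO P (p.omG σ) k = (p.gst P σ).G k - u * (p.gst P σ).q k := by
      rw [hD, cd_sig m _ _ E G.toLeg h1 h2, Md.G, dd, (tu k).2]
      change _ - (p.gst P σ).s k = _
      ring
    rw [e]
    refine (abs_sub _ _).trans (add_le_add le_rfl ?_)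
    rw [abs_of_nonneg (mul_nonneg u0 (q_nonneg k))]
    exact mul_le_of_le_one_right u0 (q_le_one k)
  have fo : ∀ k, σ * |sv p σ k| ≤ p.omG σ k := fun k => by
    rw [sv, abs_neg, dom]
    split_ifs
    exacts [f3 k, by simpa using om.nn k]
  have FK : σ * n1 D.S (up1 p.jf (sv p σ)) ≤ K * p.muG σ := by
    refine le_trans (mul_le_mul_of_nonneg_left ?_ σ0.le)
      ((mul_le_mul_of_nonneg_left (n1_sv h σ0 hz H) σ0.le).trans f2)
    rw [T.n1_up]
    exact R1J.n1_mono T.monoR fun j => by unfold ct; split_ifs <;> simp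
  have z0 : 0 ≤ p.z p.jf := hb.lab.pos.le.trans (hb.lab.mono p.jf.zero_le)
  have γΓ : gam (p.zP P) (p.sO P (p.omG σ)) (fun k => D.sig (k + 1)) p.jf D.S ≤ Gm p P σ m a := by
    rw [gam, Gm, nD, Mem37.zP_lo hj, Mem37.sP_lo hj.le, ← hu]
    refine add_le_add ((sum_le_sum fun k hk => mul_le_mul_of_nonneg_left
      (hh k (mem_Ico.1 hk).1 (mem_Ico.1 hk).2) (G.dz_nonneg k)).trans ?_)
      (mul_le_mul_of_nonneg_left (om.sig_le _) z0)
    simp only [mul_add, sum_add_distrib, ← sum_mul]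
    exact add_le_add le_rfl (mul_le_of_le_one_left u0 ((G.sum_dz_le _).trans (by linarith)))
  have uΓ : u ≤ Gm p P σ m a := by
    have : 0 ≤ ∑ k ∈ Ico (p.jf + 1) (p.NP P), (p.gst P σ).dz m a k * |(p.gst P σ).G k| :=
      sum_nonneg fun k _ => mul_nonneg (G.dz_nonneg k) (abs_nonneg _)
    have : 0 ≤ p.z p.jf * (p.jf * p.v) := by positivity
    rw [Gm, ← hu]
    linarith
  have PΦ : σ * n1 D.S (up1 p.jf fun j => sv p σ j * (D.sig (j + 1) - p.sO P (p.omG σ) j)) ≤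
      Fg p P σ m a + K * (u * p.muG σ) := by
    have := mul_le_mul_of_nonneg_left FK u0
    rw [nD, mul_sum, mul_sum] at this
    rw [nD, Fg, mul_sum, mul_left_comm K]
    refine le_trans ?_ (add_le_add le_rfl this)
    rw [← sum_add_distrib]
    refine sum_le_sum fun k hk => ?_
    have x1 := mul_le_mul_of_nonneg_left (hh k (mem_Ico.1 hk).1 (mem_Ico.1 hk).2)
      (mul_nonneg σ0.le (abs_nonneg (sv p σ k)))
    have x2 := mul_le_mul_of_nonneg_right (fo k) (abs_nonneg ((p.gst P σ).G k))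
    have := mul_le_mul_of_nonneg_left (show σ * |sv p σ k| * |D.sig (k + 1) - p.sO P (p.omG σ) k| ≤
      p.omG σ k * |(p.gst P σ).G k| + σ * |sv p σ k| * u by linarith) (G.dz_nonneg k)
    rw [abs_mul]
    linarith
  have lK : σ * ∑ j ∈ range p.jf, Pr.dm (p.zP P) j * |sv p σ (j + 1)| ≤
      K * p.msG σ (p.jf * p.v) := by
    refine (congrArg _ (sum_congr rfl fun j hj' => ?_)).trans_le (f4 _ hj)
    have := mem_range.1 hj'
    rw [Pr.dm, Pr.dm, Mem37.zP_lo (by omega), Mem37.zP_lo (by omega), sv, dom, if_pos (by omega),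
      abs_neg]
  have σ1 : 0 < D.sig (p.jf + 1 + 1) := by
    have : 0 < tp (p.gst P σ) m (p.jf + 1) := by
      have := G.m0
      rw [tp, dd]
      positivity
    rw [hD, cd_sig m _ _ E G.toLeg le_rfl (hN.trans_le' hj)]
    exact add_pos_of_pos_of_nonneg (mul_pos this (q_pos h σ0 hg p.jf.succ_pos hj))
      (G.H0.ge.trans (G.Hm (Nat.zero_le _)))
  obtain ⟨⟨l0, l1⟩, e1, e2⟩ := lam_W T (hD ▸ rfl) (hD ▸ (cut_gst G.toLeg ht jN).tw) jN σ1
  obtain ⟨x1, x2⟩ := der_col h.np cl (hz.top _ le_rfl) σ0 (es ▸ H)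
  rw [show (fun j => -omG' p σ (nu p P j)) = sv p σ from
    funext fun k => by rw [sv, h.dom_eq σ0 P]] at x2
  have ch := fun t (ht : 0 < t) => Ode3.chi_eq (ap_gst h ht).1
  have cp := fun t (ht : 0 < t) => (ch t ht).symm ▸ Ode3.chi_pos (ap_gst h ht).1
  have y := ((h.c1_b.der σ0).mul (x2.pow 2)).unique
    (((h.ce.der σ0).const_sub 1).congr_of_eventuallyEq (by
      filter_upwards [Ioi_mem_nhds σ0] with t ht using Pr.bb_mul (cp t ht) _))
  have y0 := Pr.bb_mul (cp σ σ0) (p.epsG σ)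
  obtain ⟨t0, tb⟩ := tu 0
  rw [c2lo, show D.τ 1 = tp (p.gst P σ) m 0 from hD ▸ cd_tau m a _ _ E (Nat.zero_le _), e2]
  refine lo_num (χ := Pr.chi (p.lG σ)) σ0 B1 k1 t0 u0 (tb ▸ b1) uΓ (tb ▸ y0) ?_ (cp σ σ0).le
    ((ch σ σ0).trans_le (Ode3.chi_le (ap_gst h σ0).1)) l0 l1 f1 μ0 (by linarith) ε0 (em _).1 f6
    (abs_SU1 (Ker15.r1_of T.cav) T.mono _ _) FK ?_ T.gam_nn γΓ
    (SU_one T (by simp [sv, dom, omG', σ0.le])) lK PΦ
    (sum_nonneg fun k _ => mul_nonneg (G.dz_nonneg k) (mul_nonneg (om.nn k) (abs_nonneg _)))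
  · rw [← tb]
    simp only [bo_gst, Pi.pow_apply, Nat.cast_ofNat, Nat.add_one_sub_one, pow_one] at y
    exact y
  · rw [e1, show Pr.chi (p.lG σ) = _ from x1, sub_sub_sub_cancel_left]
    exact SU_nil T

end Crest.Agent.T156.Alt.P73

end
end

-- ▼ part T156/R1CoA_65
section

/-!
Row 156 (helper65): site link, crude replicon coefficient and cubic word on the cavity list.
-/

set_option autoImplicit false
set_option linter.unusedSectionVars false

noncomputable section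

namespace Crest.Agent.T156.Alt.Co65

open Finset
open Crest.Agent.T157.Casc Crest.Agent.T157.SL Crest.Agent.T157.Casc.C
open Crest.ProbabilityR.SpinGlassDynamics (spin)
open Crest.Agent.T156.Pp Crest.Agent.T156.Hess65
open Crest.Agent.T156.Pp.Area50 hiding ind
open Crest.Agent.T156.Cas Crest.Agent.T156.Cas.C40 Crest.Agent.T156.Alt.Md77
open Crest.Agent.T156.Alt.Md67 Crest.Agent.T156.Alt.CIn12 Crest.Agent.T156.Alt.Alg77
open Crest.Agent.T156.Cas.R1J (n1 ind)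
open Crest.Agent.T156.Cas.R1P (len_rk ex_rk up_np rk_sML)

theorem tr_link : ∃ C : ℝ, 1 ≤ C ∧ ∀ (z s σ : ℕ → ℝ) (N c k : ℕ) (Lr Lc : List (Lv Bool)) (q : ℝ),
    TR z s σ N c Lr Lc → c < k → k < N → 0 < q → min 1 (z k + max (s k) (σ k)) ≤ q →
    |Wd Lc [] (k + 1) - Wd Lr [] k| ≤ |σ k - s k| + C * (q * gam z s σ c Lc) ∧
      |R1J.G Lc (k + 1)| ≤ C ∧ ∀ f : ℕ → ℝ, f 0 = 0 →
        |Wd Lc [ind (k + 1), ind (k + 1), f] (k + 1)| ≤ C * (|f (k + 1)| + q * n1 Lc f) := by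
  obtain ⟨C, c1, hC⟩ := R1J.s1
  obtain ⟨C', c2, hC'⟩ := R1J.s4
  refine ⟨C + C' + 80, by linarith, fun z s σ N c k Lr Lc q h k0 hk q0 hq => ?_⟩
  have σ0 := h.low 0 c.zero_le
  have r := Ker15.r1_of h.cav
  have l : k + 1 < Lc.length := (len_rk h.cav).symm ▸ Nat.succ_lt_succ hk
  refine ⟨?_, ?_, fun f f0 => ?_⟩
  · obtain ⟨Lp, H⟩ := ex_rk1 z h.uσ
    obtain ⟨θ, hθ, M, HM, e⟩ := mvt_Wd h.us h.uσ (σ0.trans h.s0.symm) h.ref H [] k
    have u : Up (fun j => s j + θ * (σ j - s j)) N := fun j hj => by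
      have a := mul_nonneg (sub_nonneg.2 hθ.2.le) (sub_nonneg.2 (h.us j hj))
      have b := mul_nonneg hθ.1.le (sub_nonneg.2 (h.uσ j hj))
      show s j + θ * (σ j - s j) ≤ s (j + 1) + θ * (σ (j + 1) - s (j + 1))
      linarith
    have e' := h.cut H (V := []) (by simp) hk.le
    have a := hC M k q ⟨Ker15.r1_of HM, mono_rk HM h.lab u, c.zero_le.trans_lt k0,
      (len_rk HM).symm ▸ hk, q0, le_trans (min_le_min le_rfl ?_) hq⟩ (fun j => σ j - s j)
      (by simp [σ0, h.s0])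
    · have g := Gn_mem HM (adm_lsg N z _ h.zN h.lab.pos (fun j _ => h.lab.mono j.le_succ) u)
        ((len_rk HM).symm ▸ hk.le)
      have b : |(σ k - s k) * R1J.G M k| ≤ |σ k - s k| := by
        rw [abs_mul]
        exact mul_le_of_le_one_right (abs_nonneg _) ((abs_of_nonneg g.1).trans_le g.2)
      rw [List.map_nil] at e'
      rw [n1_same HM h.ref h.zN, W_eq] at a
      rw [e', e, List.nil_append]
      have d := mul_le_mul_of_nonneg_left h.n1_h q0.le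
      have d0 := mul_nonneg q0.le h.gam_nn
      have d1 := mul_le_mul_of_nonneg_left d (zero_le_one.trans c1)
      have d2 := mul_nonneg (zero_le_one.trans c2) d0
      linarith [abs_sub_abs_le_abs_sub (Wd M [fun j => σ j - s j] k) ((σ k - s k) * R1J.G M k)]
    · rw [ex_rk HM h.zN hk.le, tm_rk HM (by simp [σ0, h.s0]) hk.le]
      have a := mul_nonneg (sub_nonneg.2 hθ.2.le) (sub_nonneg.2 (le_max_left (s k) (σ k)))
      have b := mul_nonneg hθ.1.le (sub_nonneg.2 (le_max_right (s k) (σ k)))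
      linarith
  · have a := hC Lc (k + 1) 1 ⟨r, h.mono, k.succ_pos, l, one_pos, min_le_left _ _⟩ (ind (k + 1))
      (by simp [ind])
    have b := abs_Wd1c r h.mono l.le (ind (k + 1))
    have d := dm_le_one h.mono l.le
    rw [n1_ind l.le, show ind (k + 1) (k + 1) = 1 from if_pos rfl] at a b
    rw [one_mul, one_mul, W_eq] at a
    rw [abs_one] at b
    have := mul_le_of_le_one_right (zero_le_one.trans c1) d
    linarith [abs_sub_abs_le_abs_sub (R1J.G Lc (k + 1)) (Wd Lc [ind (k + 1)] (k + 1)),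
      abs_sub_comm (R1J.G Lc (k + 1)) (Wd Lc [ind (k + 1)] (k + 1))]
  · refine (hC' Lc (k + 1) q ⟨r, h.mono, k.succ_pos, l, q0, le_trans (min_le_min le_rfl ?_) hq⟩ f
      f0).trans (mul_le_mul_of_nonneg_right (by linarith)
        (add_nonneg (abs_nonneg _) (mul_nonneg q0.le (n1_nn h.mono f))))
    rw [h.tilt k k0.le hk.le, tm_rk h.cav σ0 (Nat.succ_le_succ hk.le)]
    exact add_le_add le_rfl (le_max_right _ _)

variable {p : Pm} {P : Pl} {σ Y a : ℝ} {m : ℕ}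

/-- the cavity list of the graded family -/
theorem ctx (h : OP p (Set.Ioi 0) p.omG (omG' p) p.epsG Y) (σ0 : 0 < σ) (hg : P.γ = 0)
    (hz : Pr.Lab (p.zP P) (p.NP P)) (hj : p.jf < p.J) (G : Lg (p.gst P σ) m a) (ha : 0 < a)
    (ht : Top (p.gst P σ)) (hρ : Rf (p.gst P σ) (p.gst P σ).q) {Wt : Option (ℕ → ℝ)}
    {E : CIn12.Ev} {D : CD} (hD : D = cd (p.gst P σ) m a (p.gst P σ).q (p.jf + 1) Wt E) :
    ∃ Lr, TR (p.zP P) (p.sO P (p.omG σ)) (fun k => D.sig (k + 1)) (p.NP P) p.jf Lr D.S ∧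
      (∀ k, p.jf < k → k < p.NP P → |D.sig (k + 1) - p.sO P (p.omG σ) k| ≤ hd p P σ m k) ∧
      gam (p.zP P) (p.sO P (p.omG σ)) (fun k => D.sig (k + 1)) p.jf D.S ≤ Gm p P σ m a ∧
      ∀ k ≤ p.NP P, (p.gst P σ).q k = Wd Lr [] k := by
  have om := h.hom σ σ0
  have c := P73.col_nu (P := P) h.lab fun k _ => (hz.pos.trans_le (hz.mono k.zero_le)).ne'
  have es : p.sO P (p.omG σ) = fun k => Pr.sig p.v (p.omG σ) (nu p P k) := funext (h.sO_eq hg σ0)
  have us : Up (p.sO P (p.omG σ)) (p.NP P) := es ▸ c.up (up_np h.np σ0 _)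
  have s0 : p.sO P (p.omG σ) 0 = 0 := (Mem37.sP_lo p.J.zero_le).trans om.sig0
  obtain ⟨Lr, H⟩ := ex_rk1 (p.zP P) us
  have jN : p.jf < p.NP P := by unfold Pm.NP; omega
  have dd : ∀ k, (p.gst P σ).d k = p.bG σ := fun k => by simp [Pm.gst, Pm.famO]
  obtain ⟨u, hu⟩ : ∃ u, u = p.bG σ / (m + 1) := ⟨_, rfl⟩
  have u0 : 0 ≤ u := hu ▸ div_nonneg (dd 0 ▸ G.d0) (by positivity)
  have hh : ∀ k, p.jf + 1 ≤ k → k < p.NP P →
      |D.sig (k + 1) - p.sO P (p.omG σ) k| ≤ |(p.gst P σ).G k| + u := fun k h1 h2 => by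
    have e : D.sig (k + 1) - p.sO P (p.omG σ) k = (p.gst P σ).G k - u * (p.gst P σ).q k := by
      have := (tp_mem (m := m) G.toLeg k).2.2
      rw [dd, ← hu] at this
      rw [hD, cd_sig m _ Wt E G.toLeg h1 h2, Md.G, dd, ← this]
      change _ - (p.gst P σ).s k = _
      ring
    rw [e]
    refine (abs_sub _ _).trans (add_le_add le_rfl ?_)
    rw [abs_of_nonneg (mul_nonneg u0 (q_nonneg k))]
    exact mul_le_of_le_one_right u0 (q_le_one k)
  refine ⟨Lr, hD ▸ tr_cd G ha hρ jN hz (fun k h1 _ => congrArg (p.zP P) (max_eq_left h1))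
    (by simp [Pm.gst, Pm.famO, Pm.HO]) us s0 H, fun k h1 h2 => by
      rw [hd, ← hu]; exact hh k h1 h2, ?_, fun k hk => ?_⟩
  · have nD := n1_cd (m := m) (ρ := (p.gst P σ).q) (c := p.jf) (Wt := Wt) (E := E) G.toLeg ht
    rw [← hD] at nD
    rw [gam, Gm, nD, Mem37.zP_lo hj, Mem37.sP_lo hj.le, ← hu]
    refine add_le_add ((sum_le_sum fun k hk => mul_le_mul_of_nonneg_left
      (hh k (mem_Ico.1 hk).1 (mem_Ico.1 hk).2) (G.dz_nonneg k)).trans ?_)
      (mul_le_mul_of_nonneg_left (om.sig_le _) (h.lab.pos.le.trans (h.lab.mono p.jf.zero_le)))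
    simp only [mul_add, sum_add_distrib, ← sum_mul]
    exact add_le_add le_rfl (mul_le_of_le_one_left u0 ((G.sum_dz_le _).trans (by linarith)))
  · have R := rk_sML (z := p.z) (σ := fun t => Pr.sig p.v (p.omG t)) (σ' := fun t j => -omG' p t j)
      (up_np h.np σ0 (p.J + p.Nr))
    have e := c.wd [] (by simp) hk om.sig0 (up_np h.np σ0 _) R (es ▸ H)
    rw [List.map_nil, Wd_nil R ((len_rk R).symm ▸ nu_le p P hk), tm_lsg _ _ _ _ (nu_le p P hk),
      om.sig0, sub_zero] at e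
    rw [e]
    exact h.qO_eq hg σ0 k

/-- **site link, replicon coefficient, cubic word** -/
theorem coR : ∃ C : ℝ, 1 ≤ C ∧ ∀ (p : Pm) (P : Pl) (σ Y a : ℝ) (m : ℕ),
    OP p (Set.Ioi 0) p.omG (omG' p) p.epsG Y → 0 < σ → P.γ = 0 → Pr.Lab (p.zP P) (p.NP P) →
    p.jf < p.J → Lg (p.gst P σ) m a → 0 < a → Top (p.gst P σ) → ∀ Wt E D,
    D = cd (p.gst P σ) m a (p.gst P σ).q (p.jf + 1) Wt E → ∀ k, p.jf < k → k < p.NP P → ∀ q, 0 < q →
    min 1 ((p.gst P σ).z k + ((p.gst P σ).s k + hd p P σ m k)) ≤ q →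
    D.gq (k + 1) ≤ hd p P σ m k + C * (q * Gm p P σ m a) ∧ |R1J.G D.S (k + 1)| ≤ C ∧
      min 1 ((p.gst P σ).z k + D.sig (k + 1)) ≤ q ∧ 0 ≤ Gm p P σ m a ∧ ∀ f : ℕ → ℝ, f 0 = 0 →
        |R1J.W D.S (k + 1) [ind (k + 1), ind (k + 1), f]| ≤ C * (|f (k + 1)| + q * n1 D.S f) := by
  obtain ⟨C, c1, hC⟩ := tr_link
  refine ⟨C, c1, fun p P σ Y a m h σ0 hg hz hj G ha ht Wt E D hD k k0 kN q q0 hq => ?_⟩
  obtain ⟨Lr, T, h1, h2, h3⟩ := ctx h σ0 hg hz hj G ha ht (P73.rf_gst h σ0 hg) hD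
  have a := h1 k k0 kN
  have b : D.sig (k + 1) ≤ (p.gst P σ).s k + hd p P σ m k := by
    change _ ≤ p.sO P (p.omG σ) k + _
    linarith [le_abs_self (D.sig (k + 1) - p.sO P (p.omG σ) k)]
  have e : (p.gst P σ).z k = p.zP P k := congrArg (p.zP P) (max_eq_left k0.le)
  obtain ⟨g1, g2, g3⟩ := hC _ _ _ _ _ k _ _ q T k0 kN q0 (le_trans (min_le_min le_rfl
    (add_le_add e.ge (max_le (le_add_of_nonneg_right ((abs_nonneg _).trans a)) b))) hq)
  refine ⟨?_, g2, (min_le_min le_rfl (add_le_add le_rfl b)).trans hq, T.gam_nn.trans h2, g3⟩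
  have e2 : D.q (k + 1) = Wd Lr [] k := by rw [hD, cd_q m _ _ Wt E k0 kN, h3 k kN.le]
  rw [CD.gq, e2, Gam_W]
  exact g1.trans (add_le_add a (mul_le_mul_of_nonneg_left (mul_le_mul_of_nonneg_left h2 q0.le)
    (zero_le_one.trans c1)))

end Crest.Agent.T156.Alt.Co65

end
end

-- ▼ part T156/R1Lo4_73
section

/-!
# Row 156 (helper73): sizes of the static displacement, and `CoLo`
-/

set_option autoImplicit false
set_option linter.unusedSectionVars false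

noncomputable section

namespace Crest.Agent.T156.Alt.P73

open Real Finset Filter
open Crest.Agent.T156.Alt.Md67 Crest.Agent.T156.Alt.Md77 Crest.Agent.T156.Alt.R77
open Crest.Agent.T156.Alt.Co65 Mem37 Plt13

theorem G_gst (p : Pm) (P : Pl) (t : ℝ) {k : ℕ} (hk : p.jf < k) :
    (p.gst P t).G k = P.hs (p.xP P k) := by
  rw [Md.G, gst_d]
  change p.bG t * p.qO P (p.omG t) k + (p.HO P (p.omG t) (p.bG t + 0) k + 0) -
    p.sO P (p.omG t) k = _
  rw [Pm.HO, if_neg hk.not_ge]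
  ring

/-- sizes of the static displacement -/
def GmS (p : Pm) : Prop := ∀ σ σ' P t a a' Q m, Cx p σ σ' P t a a' Q m →
  Pr.Lab (p.zP P) (p.NP P) ∧ p.J < p.NP P ∧ p.muG t * p.r ^ 2 ≤ p.msG t 0 ∧
  (∀ k, p.jf < k → k * p.v ≤ 2 * p.ye → (p.gst P t).G k = 0) ∧
  ∀ x, Lg (p.gst P t) m x → Fg p P t m x = 0 ∧ Gm p P t m x ≤ 3 * p.r ^ 2 ∧
    ∑ k ∈ Ico (p.jf + 1) (p.NP P), (p.gst P t).dz m x k * |(p.gst P t).G k| ≤
      (p.n : ℝ) ^ (-(1 : ℝ) / 3) * p.κ ^ 3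

theorem gmS {β : ℝ} (hβ : 1 < β) : Sml β fun _ => GmS := by
  refine Sml.glueC hβ (p1G β hβ) ((St56.nm_sml hβ).and (gpO β hβ).sml) fun C hC c0 C0 h0 h1 =>
    ⟨0, fun A _ => ⟨1, one_pos, fun c _ hc => ⟨c / 40, by positivity, fun η hη _ =>
      ⟨exp (3 * C0 * C), fun p H G ⟨N, K, K1, KL, gp⟩ σ σ' P t a a' Q m x => ?_⟩⟩⟩⟩
  have hη' : 40 * η ≤ c := by linarith
  have M0 := (Gr29.oct_mem x.oct).1
  have μp := H.muG0 (H.σ0 M0)
  obtain ⟨n0, n1⟩ := H.mtG_mem M0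
  have N := N _ n0 n1
  have L := St56.ld_gst H hη' hC le_rfl G x.mem N n0 μp.le (H.oct_mu x.oct').1 x.pl.ok x.pl.hs
  have t0 := H.σ0 x.mem
  have v0 := H.v0
  have r0 := H.r0
  have yJ := L.geo.hY
  have g0 : ∀ k, p.jf < k → k * p.v ≤ 2 * p.ye → (p.gst P t).G k = 0 := fun k hk h2 => by
    have kJ : k ≤ p.J := by
      exact_mod_cast le_of_mul_le_mul_right (h2.trans yJ) v0
    obtain ⟨j, rfl⟩ := Nat.exists_eq_add_of_lt (p.jf.zero_le.trans_lt hk)
    rw [zero_add] at *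
    rw [G_gst p P t hk, L.hs, L.xP_succ kJ]
    simp only [L.rF0 kJ (by push_cast at h2; linarith), mul_zero]
  refine ⟨L.geo.lab, by have := Nr_pos H; unfold Pm.NP; omega, ?_, g0, fun y Y => ?_⟩
  · have := PG3.mG_conc H.κ0.le t0.le r0.le H.r_le_ye
    rw [H.msG_zero]
    exact this.trans (mul_le_of_le_one_right (H.epsG0 t0).le (pow_le_one₀ H.ye0.le H.ye1))
  set Λ := (p.n : ℝ) ^ η with hΛ
  have Λ0 : 0 < Λ := H.Λ0
  set l := p.la (p.mt (p.muG σ)) with hl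
  have l0 : 0 < l := N.lp
  have e2 : 1 - P.x P.I ≤ 1 / p.n := by
    have np := N.np
    have e : (p.n : ℝ) ^ (-(2 : ℝ)) = 1 / (p.n : ℝ) ^ 2 := by rw [rpow_neg np.le]; norm_num
    exact (x.pl.ok.e2.trans e.le).trans (one_div_le_one_div_of_le np (by nlinarith [N.n2]))
  have S : Shg p (p.mt (p.muG σ)) P.x P.I := by have := shg_of N x.pl.ok; exact this
  have s2 := N.gtp L.geo S e2 (K := K) (by linarith) (by linarith [gp.1.2.2.2.2.1]) L.jJ
  have s3 : ∑ k ∈ Ico (p.jf + 1) (p.NP P), (p.gst P t).dz m y k *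
      p.rF (p.mt (p.muG σ)) (p.xP P k) ^ 2 ≤ (Λ ^ 2 * l) ^ 2 := by
    have dz : ∀ k, p.jf < k → (p.gst P t).dz m y k = p.zP P k - p.zP P (k - 1) := fun k hk => by
      rw [dz_up Y.toLeg (by omega), gst_z p P t hk.le, gst_z p P t (by omega)]
    rw [← sum_subset (s₁ := Ioc p.jf (p.Jp P)) (fun k hk => by
        have := Nr_pos H
        simp only [mem_Ioc, mem_Ico, NP_eq] at *
        omega) fun k h1 h2 => by
        simp only [mem_Ioc, mem_Ico] at h1 h2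
        rw [dz k h1.1, zP_hi (by omega), zP_hi (by omega), sub_self, zero_mul],
      sum_congr rfl fun k hk => by rw [dz k (mem_Ioc.1 hk).1]]
    refine s2.trans ?_
    have := H.num_le
    have a1 : 406 + 8 * K ≤ Λ ^ 3 := by nlinarith [mul_le_mul this this (by norm_num) Λ0.le]
    calc _ ≤ Λ ^ 3 * (l ^ 2 * Λ) := by have := H.log1; gcongr; exact H.log_le
      _ = _ := by ring
  have s4 : ∑ k ∈ Ico (p.jf + 1) (p.NP P), (p.gst P t).dz m y k * |(p.gst P t).G k| ≤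
      p.muG σ * (Λ ^ 2 * l) := by
    have w0 : 0 < Λ ^ 2 * l := by positivity
    refine le_of_mul_le_mul_left ?_ (show 0 < 2 * (Λ ^ 2 * l) by positivity)
    have a1 := mul_le_mul_of_nonneg_right
      ((Y.sum_dz_le (Ico (p.jf + 1) (p.NP P))).trans (sub_le_self 1 Y.a0)) (sq_nonneg (Λ ^ 2 * l))
    rw [sum_mul] at a1
    have a2 := mul_le_mul_of_nonneg_left (add_le_add s3 a1) μp.le
    rw [← sum_add_distrib, mul_sum] at a2
    rw [mul_sum]
    refine (sum_le_sum fun k hk => ?_).trans (a2.trans_eq (by ring))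
    rw [G_gst p P t (mem_Ico.1 hk).1, L.hs, abs_mul, abs_of_pos μp, ← sq_abs (p.rF _ _)]
    nlinarith [mul_nonneg (mul_nonneg μp.le (Y.dz_nonneg k))
      (sq_nonneg (|p.rF (p.mt (p.muG σ)) (p.xP P k)| - Λ ^ 2 * l))]
  have κ0 := H.κ0
  have n0' := H.N0
  have s5 : p.muG σ * (Λ ^ 2 * l) ≤ (p.n : ℝ) ^ (-(1 : ℝ) / 3) * p.κ ^ 3 :=
    H.le_of_lg (by positivity) (by positivity) (by
      lg_norm
      rw [H.lg_la (H.mt0 μp), H.lg_rp, H.lg_n, H.lg_κ]
      linarith [min_le_right (-(logb p.n (p.mt (p.muG σ)) + 1 / 3) / 3)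
        (-(logb p.n (p.mt (p.muG σ)) + 1 / 3) / 2), (H.lg_mt' μp).1, (H.lg_muG' M0).2])
  have s6 : (p.n : ℝ) ^ (-(1 : ℝ) / 3) * p.κ ^ 3 ≤ p.r ^ 2 :=
    H.le_of_lg (by positivity) (by positivity) (by
      lg_norm
      linarith [H.lg_n, H.lg_κ, H.lg_r, H.lg_s.1])
  refine ⟨sum_eq_zero fun k hk => ?_, ?_, s4.trans s5⟩
  · rcases le_total (k * p.v) (2 * p.ye) with b | b
    · rw [g0 k (mem_Ico.1 hk).1 b, abs_zero, mul_zero, mul_zero]
    · rw [L.geo.hom.supp k b, zero_mul, mul_zero]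
  · have b1 : p.bG t / (m + 1) ≤ p.r ^ 2 := by
      have m1 : (p.n : ℝ) ≤ m := Nat.cast_le.2 x.m1
      have β0 := H.β0
      refine (div_le_div₀ (sq_nonneg _) (G t x.mem).2.2.1.2.1 n0' (by linarith)).trans
        (H.le_of_lg (by positivity) (by positivity) ?_)
      lg_norm
      linarith [H.lg_n, H.lg_β.2, H.lg_r, H.lg_s.1, H.c_le]
    have j0 := H.jfv0
    have b2 : p.z p.jf * (p.jf * p.v) ≤ p.r ^ 2 := by
      have j1 : (1 : ℝ) ≤ p.jf := by exact_mod_cast H.jf_pos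
      have := mul_le_mul_of_nonneg_left (le_mul_of_one_le_left v0.le j1) (zero_le_one.trans h1)
      refine (mul_le_mul_of_nonneg_right (show _ ≤ 2 * (C0 * (p.jf * p.v)) by
        linarith [(PP3.z_bds H.ok.base _ L.jJ).2]) j0.le).trans
        (H.le_of_lg (by positivity) (by positivity) ?_)
      rw [logb_mul (by positivity) j0.ne', logb_mul two_ne_zero (by positivity),
        logb_mul (by positivity) j0.ne', logb_pow]
      push_cast
      linarith [H.lg_jf.2, H.lg_r, H.lg_two.2, (H.lg_cst h1 H.C0_le).2]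
    rw [Gm]
    linarith

/-- **the coefficient of the root atom** -/
theorem coLo {β : ℝ} (hβ : 1 < β) : Sml β R82.CoLo := by
  refine Sml.glueC hβ (loQ β hβ) ((gmS hβ).and (fxS hβ)) fun C hC c0 C0 h0 h1 =>
    ⟨0, fun A _ => ⟨1, one_pos, fun c _ hc => ⟨1, one_pos, fun η _ _ =>
      ⟨4 * C, fun p H G ⟨g, f⟩ σ σ' P t a a' Q m x => ?_⟩⟩⟩⟩
  obtain ⟨lab, jN, mu, -, s⟩ := g σ σ' P t a a' Q m x
  have F := f σ σ' P t a a' Q m x
  obtain ⟨s1, s2, -⟩ := s a F.lga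
  have := G t x.mem P F.g lab F.jJ jN m a F.lga F.a0 F.top E0 _ rfl
  rw [s1, Reg.msG_lo t F.jr, ← H.msG_zero] at this
  have b := mul_le_mul_of_nonneg_left s2 (H.muG0 F.t0).le
  have m0 := (H.msG0 F.t0 0).le
  refine this.trans ((mul_le_mul_of_nonneg_left (show _ ≤ 4 * p.msG t 0 by linarith)
    (by linarith)).trans ?_)
  rw [← mul_assoc, mul_comm C]
  exact mul_le_mul_of_nonneg_right H.K_le m0

end Crest.Agent.T156.Alt.P73

end
end

-- ▼ part T156/R1Co_65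
section

/-!
Row 156 (helper65): the table `Co2 Co3 CoL CoF CoG` of the site coefficients.
-/

set_option autoImplicit false
set_option linter.unusedSectionVars false

noncomputable section

namespace Crest.Agent.T156.Alt.Co65

open Real
open Crest.Agent.T156.Cas Crest.Agent.T156.Cas.C40 Crest.Agent.T156.Alt.CIn12
open Crest.Agent.T156.Alt.Alg77 Crest.Agent.T156.Alt.R77 Crest.Agent.T156.Alt.R82
open Crest.Agent.T156.Alt.Md67 Crest.Agent.T156.Alt.Gr29 Crest.Agent.T156.Alt.Mem37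

theorem sml_up {β : ℝ} {R : ℝ → Pm → Prop} (k : ℕ)
    (H : Sml β fun Λ p => ∀ L, Λ ^ k ≤ L → R L p) : Sml β R :=
  (Sml.loss (R := fun x p => ∀ L, x ≤ L → R L p) k H
    fun _ _ _ _ h g L hL => g L (h.trans hL)).sml.mono fun Λ _ h => h Λ le_rfl

/-- the numbers of a node -/
structure Nn (Λ : ℝ) (p : Pm) (P : Pl) (t : ℝ) (m k : ℕ) (x : ℝ) : Prop where
  s0 : 0 < (p.gst P t).s k
  ms0 : 0 < p.msG t ((p.gst P t).s k)
  om : p.omG t k ≤ 16 * mt p t ((p.gst P t).s k)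
  xm : max ((p.gst P t).s k) p.r * p.muG t ≤ Λ ^ 2 * mt p t ((p.gst P t).s k)
  u0 : 0 ≤ p.bG t / (m + 1)
  u1 : p.bG t / (m + 1) ≤ p.r ^ 3
  u2 : p.bG t / (m + 1) ≤ Λ * (1 / p.n)
  lo : min 1 (p.jf * p.v) * p.msG t (p.jf * p.v) ≤ 2 * Λ * (mt p t ((p.gst P t).s k) * p.r ^ 2)
  par : min 1 ((p.gst P t).z k + ((p.gst P t).s k + hd p P t m k)) ≤ 12 * Λ * (p.gst P t).s k
  cas : (p.omG t k = 0 ∧ p.msG t ((p.gst P t).s k) = p.muG t) ∨ (k < p.J ∧ (p.gst P t).G k = 0)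
  bulk : k < p.J → p.msG t (k * p.v) ≤ 4 * p.msG t ((p.gst P t).s k) ∧
    p.msG t ((p.gst P t).s k) ≤ max ((p.gst P t).s k) p.r ^ 2 ∧ (p.gst P t).dz m x k ≤ p.r ^ 2 ∧
    |(p.gst P t).G k| ≤ 6 * max ((p.gst P t).s k) p.r ^ 2
  top : p.J ≤ k → 1 ≤ Λ * (p.gst P t).s k
  sv0 : 2 * p.ye ≤ (p.gst P t).s k → sv p t k = 0

variable {β c0 C0 c η K : ℝ} {A : ℕ} {p : Pm} {P : Pl} {σ σ' t a a' Q Λ : ℝ} {m k : ℕ}

theorem ms_max (p : Pm) (t s : ℝ) : p.msG t (max s p.r) = p.msG t s := by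
  rcases le_total s p.r with h | h
  · rw [max_eq_right h, Reg.msG_lo t h, Reg.msG_lo t le_rfl]
  · rw [max_eq_left h]

theorem xm_le (H : Reg β c0 C0 A c η K p) (t0 : 0 < t) {X : ℝ} (h0 : 0 < X) (h1 : 1 ≤ Λ)
    (h : X ≤ Λ) : X ^ 2 * p.muG t ≤ Λ ^ 2 * p.msG t X := by
  have m0 := (H.msG0 t0 X).le
  rcases le_total X p.ye with b | b
  · have e := H.msG_mul t0 ((one_le_div h0).2 b) X
    rw [div_mul_cancel₀ _ h0.ne', H.msG_hi t le_rfl, div_pow, div_mul_eq_mul_div,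
      le_div_iff₀' (pow_pos h0 2)] at e
    exact e.trans (mul_le_mul_of_nonneg_right (pow_le_pow_left₀ H.ye0.le (H.ye1.trans h1) 2) m0)
  · rw [← H.msG_hi t b]
    exact mul_le_mul_of_nonneg_right (pow_le_pow_left₀ h0.le h 2) m0

theorem xe_le (H : Reg β c0 C0 A c η K p) (t0 : 0 < t) {X : ℝ} (h0 : p.r ≤ X) (h1 : 1 ≤ Λ)
    (h : X ≤ Λ) : X * p.epsG t ≤ 2 * Λ * (p.r * p.msG t X) := by
  have r0 := H.r0
  have y0 := H.ye0
  have k0 := H.κ0
  have m0 := mul_pos r0 (H.msG0 t0 X)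
  rcases le_total X p.ye with b | b
  · have e := mul_le_mul_of_nonneg_left (gS_mono t0.le h0)
      (show 0 ≤ p.κ * p.r * X from mul_nonneg (by positivity) (r0.le.trans h0))
    refine le_trans ?_ (le_mul_of_one_le_left m0.le (by linarith))
    rw [msG_eq, xc_mid h0 b, Pm.epsG]
    linarith
  · have a : p.r ≤ p.ye ^ 2 * p.ye := H.le_of_lg r0 (by positivity) (by
      lg_norm
      linarith [H.lg_r, H.lg_ye, H.lg_s.2, H.c_le])
    have a1 : √p.r ≤ p.ye * √p.ye := by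
      have := sqrt_le_sqrt a
      rwa [sqrt_mul (sq_nonneg _), sqrt_sq y0.le] at this
    have a2 : min p.r (t * √p.r) ≤ p.ye * min p.ye (t * √p.ye) := by
      rw [mul_min_of_nonneg _ _ y0.le]
      refine min_le_min (a.trans ?_) ((mul_le_mul_of_nonneg_left a1 t0.le).trans_eq (by ring))
      nlinarith [H.ye1, sq_nonneg p.ye]
    have a3 : gS t p.r ≤ 2 * (p.ye * gS t p.ye) := by
      linarith [(gS_bds t0.le r0.le).2, mul_le_mul_of_nonneg_left (gS_bds t0.le y0.le).1 y0.le]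
    have a4 := mul_le_mul h (mul_le_mul_of_nonneg_left a3 (mul_pos k0 r0).le)
      (H.epsG0 t0).le (by linarith)
    rw [H.msG_hi t b, Pm.muG, Pm.epsG]
    linarith

theorem nn_of {η' ν lo hi : ℝ} (H : Reg β c0 C0 A c η K p) (hη : 40 * η ≤ c)
    (X : Cx p σ σ' P t a a' Q m) (F : Fx Λ p P t a a' Q m)
    (L : St56.LD c0 C0 η' (2 * p.ye) (p.muG σ) ν p.ye lo hi p P (p.omG t) (p.bG t))
    (k0 : p.jf < k) (k1 : k ≤ p.Jp P) (x : ℝ) : Nn ((p.n : ℝ) ^ η) p P t m k x := by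
  have g := L.geo
  have v0 := H.v0
  have r0 := H.r0
  have y0 := H.ye0
  have y1 := H.ye1
  have L0 := H.Λ0
  have L1 := H.Λ1
  have n0 := H.N0
  have t0 := F.t0
  have C1 := H.C01
  have hA : (2 : ℝ) ≤ A := by exact_mod_cast H.A2
  have βΛ : p.β ^ 2 ≤ (p.n : ℝ) ^ η := H.hβ ▸ H.β_le
  obtain ⟨s, hs⟩ : ∃ s, s = (p.gst P t).s k := ⟨_, rfl⟩
  have sl : k ≤ p.J → k * p.v / 2 ≤ s ∧ s ≤ k * p.v := fun h => by
    rw [hs, show (p.gst P t).s k = _ from sP_lo h]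
    exact ⟨g.hom.sig_ge v0 le_rfl k, g.hom.sig_le k⟩
  have sh : p.J ≤ k → s = p.J * p.v := fun h => by
    rw [hs, show (p.gst P t).s k = _ from g.sP_hi h, F.g, Nat.sub_eq_zero_of_le k1]
    simp
  have mo : ∀ {i j : ℕ}, i ≤ j → (i : ℝ) * p.v ≤ j * p.v := fun h =>
    mul_le_mul_of_nonneg_right (Nat.cast_le.2 h) v0.le
  have j0 := H.jfv0
  have j1 := mo k0.le
  have j2 := St56.jf_le H hη
  have sj : p.jf * p.v / 2 ≤ s ∧ s ≤ p.J * p.v ∧ s ≤ k * p.v := by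
    rcases le_total k p.J with h | h
    · exact ⟨by linarith [(sl h).1], (sl h).2.trans (mo h), (sl h).2⟩
    · exact ⟨by linarith [sh h, mo F.jJ.le], (sh h).le, (sh h).le.trans (mo h)⟩
  have s0 : 0 < s := by linarith [sj.1]
  have X0 : 0 < max s p.r := r0.trans_le (le_max_right _ _)
  have XΛ : max s p.r ≤ (p.n : ℝ) ^ η :=
    max_le (sj.2.1.trans (g.base.hi.trans βΛ)) (H.r_le_ye.trans (y1.trans L1))
  have ys : 2 * p.ye ≤ k * p.v → p.ye ≤ s := fun h => by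
    rcases le_total k p.J with b | b
    · linarith [(sl b).1]
    · linarith [sh b, g.hY]
  have eG : (p.gst P t).G k = p.muG σ * p.rF ν (p.xP P k) := by
    simp only [Md.G, Md.q, Pm.gst, Pm.famO, Pm.HO, Pm.qO, if_neg k0.not_ge, L.hs, Pi.zero_apply]
    ring
  have G0 : k * p.v < 2 * p.ye → k < p.J ∧ (p.gst P t).G k = 0 := fun h => by
    have b : k < p.J := by exact_mod_cast lt_of_mul_lt_mul_right (h.trans_le g.hY) v0.le
    obtain ⟨j, rfl⟩ : ∃ j, k = j + 1 := ⟨k - 1, by omega⟩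
    rw [eG, L.xP_succ (by omega), L.rF0 (by omega) ((mo j.le_succ).trans h.le), mul_zero]
    exact ⟨b, rfl⟩
  have G6 : |(p.gst P t).G k| ≤ 6 * p.ye ^ 2 := by
    have b : p.xP P k ≤ P.x P.I := g.zP_x le_rfl ▸ g.zP_mono (by unfold Pm.Jp; omega)
    have μ0 := H.muG0 (H.σ0 (oct_mem X.oct).1)
    have l0 : 0 < log (p.n : ℝ) := by linarith [H.log1]
    have d : p.muG σ * log p.n ≤ p.ye ^ 2 := H.le_of_lg (by positivity) (by positivity) (by
      lg_norm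
      linarith [(H.lg_muG' (oct_mem X.oct).1).2, H.lg_log.2, H.lg_ye, H.η_pos])
    rw [eG, abs_mul, abs_of_pos μ0]
    linarith [mul_le_mul_of_nonneg_left (L.nm.abs_rF_log (x := p.xP P k) (by linarith [L.xe])) μ0.le]
  have GX : |(p.gst P t).G k| ≤ 6 * min s (s ^ 2) := by
    rcases lt_or_ge (k * p.v) (2 * p.ye) with h | h
    · rw [(G0 h).2, abs_zero]
      positivity
    · have := ys h
      exact G6.trans (mul_le_mul_of_nonneg_left (le_min (by nlinarith)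
        (pow_le_pow_left₀ y0.le this 2)) (by norm_num))
  have m4 : k ≤ p.J → p.msG t (k * p.v) ≤ 4 * p.msG t s := fun h =>
    (H.msG_mono t0 (by linarith [(sl h).1])).trans (H.msG_two t0 s)
  have ms0 := H.msG0 t0 s
  have u2 : p.bG t / (m + 1) ≤ (p.n : ℝ) ^ η * (1 / p.n) := by
    rw [mul_one_div]
    exact div_le_div₀ L0.le (F.b1.trans βΛ) n0 (by linarith [(Nat.cast_le (α := ℝ)).2 X.m1])
  have u1 : (p.n : ℝ) ^ η * (1 / p.n) ≤ p.r ^ 3 := H.le_of_lg (by positivity) (by positivity) (by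
    lg_norm
    rw [H.lg_n]
    linarith [H.lg_r, H.lg_s.1, H.c_le, H.c_pos])
  have u3 : p.r ^ 3 ≤ p.jf * p.v / 2 := H.le_of_lg (by positivity) (by positivity) (by
    rw [logb_div j0.ne' two_ne_zero, logb_pow]
    push_cast
    linarith [H.lg_r, H.lg_s.2, H.lg_jf.1, H.lg_two.2, H.c_le, H.c_pos])
  have top : p.J ≤ k → 1 ≤ (p.n : ℝ) ^ η * s := fun h => by
    have b := H.c0_le
    rw [div_le_iff₀ H.c00] at b
    exact b.trans (mul_le_mul_of_nonneg_left (g.base.lo.trans (sh h).ge) L0.le)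
  subst hs
  refine ⟨s0, ms0, ?_, ?_, div_nonneg F.b0 (by positivity), u2.trans u1, u2, ?_, ?_, ?_,
    fun h => ⟨m4 h.le, ?_, ?_, ?_⟩, top, fun h => F.sv_hi (h.trans sj.2.2)⟩
  · rw [R82.mt, ← mul_div_assoc, le_div_iff₀ X0]
    rcases le_total k p.J with h | h
    · have := mul_le_mul_of_nonneg_right (max_le_max (le_refl p.r) sj.2.2) (g.hom.nn k)
      rw [max_comm] at this
      linarith [F.o2 k, m4 h]
    · rw [g.hom.supp k (g.hY.trans (mo h)), zero_mul]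
      positivity
  · have := xm_le H t0 X0 L1 XΛ
    rw [ms_max] at this
    rw [R82.mt, ← mul_div_assoc, le_div_iff₀ X0]
    linarith
  · have b := mul_le_mul_of_nonneg_left (xe_le H t0 (le_max_right _ _) L1 XΛ) r0.le
    have d := mul_le_mul_of_nonneg_right ((min_le_right 1 _).trans j2)
      (mul_pos X0 (H.epsG0 t0)).le
    rw [ms_max] at b
    rw [Reg.msG_lo t j2, R82.mt, div_mul_eq_mul_div, ← mul_div_assoc, le_div_iff₀ X0]
    linarith
  · rcases lt_or_ge k p.J with h | h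
    · have b := (PP3.z_bds g.base k h).2
      have d := mul_le_mul_of_nonneg_left (mo (show 1 ≤ k by omega)) (zero_le_one.trans C1)
      have e := mul_le_mul H.C0_le (sl h.le).1 (by positivity) L0.le
      have f := le_mul_of_one_le_left s0.le L1
      refine (min_le_right _ _).trans ?_
      rw [gst_z p P t k0.le, zP_lo h, hd]
      rw [Nat.cast_one, one_mul] at d
      linarith [min_le_left ((p.gst P t).s k) ((p.gst P t).s k ^ 2), sj.1]
    · linarith [min_le_left 1 ((p.gst P t).z k + ((p.gst P t).s k + hd p P t m k)), top h]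
  · rcases lt_or_ge (k * p.v) (2 * p.ye) with h | h
    exacts [Or.inr (G0 h), Or.inl ⟨g.hom.supp k h, H.msG_hi t (ys h)⟩]
  · refine (H.msG_le_sq t _).trans ((mul_le_of_le_one_left (sq_nonneg _) H.κ1).trans
      (pow_le_pow_left₀ (H.xc0 _).le ?_ 2))
    rw [max_comm]
    exact max_le_max le_rfl (min_le_left _ _)
  · have b := (g.base.slo (k - 1) (by omega)).2
    rw [Pr.dm, Nat.sub_add_cancel (by omega)] at b
    rw [F.dz_eq x k0 h]
    refine b.trans (H.le_of_lg (by positivity) (by positivity) ?_)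
    lg_norm
    linarith [(H.lg_cst C1 H.C0_le).2, H.lg_v_le, H.lg_r, H.lg_s.1, H.c_le, H.c_pos]
  · exact GX.trans (mul_le_mul_of_nonneg_left ((min_le_right _ _).trans
      (pow_le_pow_left₀ s0.le (le_max_left _ _) 2)) (by norm_num))

theorem lin_fin {p' μ Γ om g u lo mt r s X : ℝ} (L : 1000 ≤ Λ) (p1 : p' ≤ s + (g + u))
    (μ0 : 0 ≤ μ) (Γ0 : 0 ≤ Γ) (Γ1 : Γ ≤ 3 * r ^ 2) (o1 : om ≤ 16 * mt) (og : om * g = 0)
    (g0 : 0 ≤ g) (u0 : 0 ≤ u) (u1 : u ≤ r ^ 3) (l1 : lo ≤ 2 * Λ * (mt * r ^ 2)) (m0 : 0 ≤ mt)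
    (r0 : 0 < r) (r1 : r ≤ 1) (sX : s ≤ X) (rX : r ≤ X) (xm : X * μ ≤ Λ ^ 2 * mt) :
    p' * (μ * Γ) + om * (Γ + (g + u)) + (g + u) * μ + 0 + lo ≤ Λ ^ 3 * (mt * r ^ 2 + μ * g) := by
  have a2 : r ^ 2 ≤ 1 := pow_le_one₀ r0.le r1
  have a3 : u ≤ r ^ 2 := u1.trans (pow_le_pow_of_le_one r0.le r1 (by norm_num))
  have a4 : u ≤ r := u1.trans (pow_le_of_le_one r0.le r1 (by norm_num))
  have t1 := mul_le_mul (show p' ≤ 2 * X + g by linarith) (mul_le_mul_of_nonneg_left Γ1 μ0)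
    (mul_nonneg μ0 Γ0) (by linarith)
  have t2 := mul_le_mul_of_nonneg_right xm (sq_nonneg r)
  have t3 := mul_le_of_le_one_right (mul_nonneg μ0 g0) a2
  have t4 := mul_le_mul o1 Γ1 Γ0 (by linarith)
  have t5 := mul_le_mul o1 a3 u0 (by linarith)
  have t6 := mul_le_mul_of_nonneg_right u1 μ0
  have t7 := mul_le_mul_of_nonneg_right rX (mul_nonneg μ0 (sq_nonneg r))
  have b0 : 1000 * Λ ≤ Λ ^ 2 := by nlinarith
  have b1 : 1000 * Λ ^ 2 ≤ Λ ^ 3 := by nlinarith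
  have c1 := mul_le_mul_of_nonneg_right (show 7 * Λ ^ 2 + 2 * Λ + 64 ≤ Λ ^ 3 by linarith)
    (mul_nonneg m0 (sq_nonneg r))
  have c2 := mul_le_mul_of_nonneg_right (show 4 ≤ Λ ^ 3 by linarith) (mul_nonneg μ0 g0)
  linarith

theorem c3_fin {τ W C f n mt μ X s L : ℝ} (t0 : 0 < t) (L1 : 1000 ≤ Λ) (hL : Λ ^ 9 ≤ L)
    (τ0 : 0 ≤ τ) (τ1 : τ ≤ Λ) (C1 : 1 ≤ C) (CL : C ≤ Λ) (w : |W| ≤ C * (|f| + 12 * Λ * s * n))
    (f1 : t * |f| ≤ 16 * mt) (n1 : t * n ≤ Λ * μ) (s0 : 0 ≤ s) (sX : s ≤ X) (μ0 : 0 ≤ μ)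
    (m0 : 0 ≤ mt) (xm : X * μ ≤ Λ ^ 2 * mt) : t * |τ ^ 3 / 12 * W| ≤ L * mt := by
  have L0 : 0 ≤ Λ := by linarith
  have a1 := mul_le_mul_of_nonneg_left n1 (show 0 ≤ 12 * Λ * s by positivity)
  have a2 := mul_le_mul_of_nonneg_left ((mul_le_mul_of_nonneg_right sX μ0).trans xm)
    (show 0 ≤ 12 * Λ ^ 2 by positivity)
  have a3 := mul_le_mul_of_nonneg_right
    (one_le_pow₀ (n := 4) (show 1 ≤ Λ by linarith)) m0
  have a4 : t * |W| ≤ Λ * (28 * (Λ ^ 4 * mt)) := by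
    refine (mul_le_mul_of_nonneg_left w t0.le).trans ?_
    rw [mul_left_comm]
    exact (mul_le_mul_of_nonneg_left (by linarith) (by linarith)).trans
      (mul_le_mul_of_nonneg_right CL (by positivity))
  have a5 := mul_le_mul (pow_le_pow_left₀ τ0 τ1 3) a4 (by positivity) (by positivity)
  have a6 := mul_le_mul_of_nonneg_right L1 (show 0 ≤ Λ ^ 8 * mt by positivity)
  have a7 := mul_le_mul_of_nonneg_right hL m0
  have a8 : 0 ≤ Λ ^ 8 * mt := by positivity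
  rw [abs_mul, abs_of_nonneg (show 0 ≤ τ ^ 3 / 12 by positivity)]
  linarith

/-- **the five node tables** -/
theorem co5 (hβ : 1 < β) : Sml β fun L p => Co2 L p ∧ Co3 L p ∧ CoL L p ∧ CoF L p ∧ CoG L p := by
  obtain ⟨C', c1, hR⟩ := coR
  have key : Sml β fun Λ p => ∀ L, Λ ^ 9 ≤ L → Nds (fun p P t m x k =>
      t * |c2 (D0 p P t m x) (fd p t) (deriv p.bG t) (k + 1)| ≤ L * p.msG t ((p.gst P t).s k) ∧
      t * |c3 (D0 p P t m x) (fd p t) (k + 1)| ≤ L * mt p t ((p.gst P t).s k) ∧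
      t * |lin (D0 p P t m x) (fd p t) (sh (bq p P t)) (k + 1)| ≤
        L * (mt p t ((p.gst P t).s k) * p.r ^ 2 + p.muG t * |(p.gst P t).G k|) ∧
      (t * |sv p t k| ≤ L * mt p t ((p.gst P t).s k) ∧
        (2 * p.ye ≤ (p.gst P t).s k → sv p t k = 0) ∧
        t * R1J.n1 (D0 p P t m x).S (fd p t) ≤ L * p.muG t ∧
        min 1 ((p.gst P t).z k + (D0 p P t m x).sig (k + 1)) ≤ L * (p.gst P t).s k) ∧
      |1 - (D0 p P t m x).τ (k + 1) * R1J.G (D0 p P t m x).S (k + 1)| ≤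
        L * max ((p.gst P t).s k) p.r ^ 2 ∧
      (D0 p P t m x).gq (k + 1) ≤
        |(p.gst P t).G k| + L * ((p.gst P t).s k * p.r ^ 2 + 1 / p.n)) p := by
    refine Sml.glueC hβ (p1G β hβ) ((((St56.nm_sml hβ).and (fxS hβ)).and (P73.gmS hβ)).and
      (coQ β hβ).sml) fun C hC c0 C0 h0 h1 =>
      ⟨0, fun A _ => ⟨1, one_pos, fun c _ hc => ⟨c / 40, by positivity, fun η hη _ =>
        ⟨max C' (exp (3 * C0 * C)), fun p H G ⟨⟨⟨N, f⟩, g⟩, B, B1, BL, hQ⟩ L hL σ σ' P t a a' Q m X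
          x hx k k0 k1 => ?_⟩⟩⟩⟩
    have hη' : 40 * η ≤ c := by linarith
    have M0 := (oct_mem X.oct).1
    obtain ⟨n0, n1⟩ := H.mtG_mem M0
    have F := f σ σ' P t a a' Q m X
    have Z := nn_of H hη' X F (St56.ld_gst H hη' hC (le_max_right _ _) G X.mem (N _ n0 n1) n0
      (H.muG0 (H.σ0 M0)).le (H.oct_mu X.oct').1 X.pl.ok X.pl.hs) k0 k1 x
    obtain ⟨lab, -, -, -, g⟩ := g σ σ' P t a a' Q m X
    have lg := F.lg hx.1 hx.2
    have x0 := F.a0.trans_le hx.1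
    obtain ⟨g1, g2, -⟩ := g x lg
    have kN : k < p.NP P := by have := Nr_pos H; rw [NP_eq]; omega
    have CL : C' ≤ (p.n : ℝ) ^ η := (le_max_left _ _).trans H.K_le
    have βL : p.β ^ 2 ≤ (p.n : ℝ) ^ η := H.hβ ▸ H.β_le
    have L3 := H.num_le
    have n0 := H.N0
    have r0 := H.r0
    have r1 := H.r_le_ye.trans H.ye1
    have t0 := F.t0
    have μ0 := (H.muG0 t0).le
    have o0 := (F.op.hom t t0).nn k
    obtain ⟨q1, q2⟩ := hQ t X.mem P F.g lab F.jJ m x lg x0 F.top (P73.rf_gst F.op t0 F.g) _ E0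
      (D0 p P t m x) rfl
    obtain ⟨q2, q3, q4⟩ := q2 k k0 kN
    have τe : (D0 p P t m x).τ (k + 1) = tp (p.gst P t) m k := cd_tau m x _ _ E0 kN.le
    obtain ⟨τ0, τ1⟩ := F.tp_le k
    have fs := F.t_sv k
    generalize (p.n : ℝ) ^ η = Λ at *
    have s0 := Z.s0
    have m0 := Z.ms0
    obtain ⟨w1, w2, w3, Γ0, w4⟩ := hR p P t _ x m F.op t0 F.g lab F.jJ lg x0 F.top _ E0
      (D0 p P t m x) rfl k k0 kN _ (by positivity) Z.par
    have b1 : 1000 * Λ ≤ Λ ^ 2 := by nlinarith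
    have b2 : 1000 * Λ ^ 2 ≤ Λ ^ 3 := by nlinarith
    have b3 : 1000 * Λ ^ 3 ≤ Λ ^ 4 := by nlinarith
    have b4 : 1000 * Λ ^ 4 ≤ Λ ^ 5 := by nlinarith
    have b5 : Λ ^ 5 ≤ L := (pow_le_pow_right₀ (by linarith) (by norm_num)).trans hL
    have up : ∀ {x y z a : ℝ}, x ≤ B * z → z ≤ a * y → 0 ≤ a → 0 ≤ y → Λ * a ≤ L → x ≤ L * y :=
      fun a b d e h => (a.trans (mul_le_mul_of_nonneg_left b (by linarith))).trans
        ((mul_le_mul_of_nonneg_right BL (mul_nonneg d e)).trans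
          ((mul_assoc _ _ _).ge.trans (mul_le_mul_of_nonneg_right h e)))
    have rX := le_max_right ((p.gst P t).s k) p.r
    have sX := le_max_left ((p.gst P t).s k) p.r
    have e : mt p t ((p.gst P t).s k) * max ((p.gst P t).s k) p.r = p.msG t ((p.gst P t).s k) :=
      div_mul_cancel₀ _ (r0.trans_le rX).ne'
    have mt0 : 0 ≤ mt p t ((p.gst P t).s k) := div_nonneg m0.le (r0.le.trans rX)
    have r2 := pow_le_pow_left₀ r0.le rX 2
    have u2 := Z.u1.trans (pow_le_pow_of_le_one r0.le r1 (show 2 ≤ 3 by norm_num))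
    have g0 := abs_nonneg ((p.gst P t).G k)
    rw [hd, g1] at q2 q4
    rw [hd] at w1
    refine ⟨?_, c3_fin t0 L3 hL (τe ▸ τ0) (τe ▸ τ1.trans βL) c1 CL (w4 _ (fd_lo p t (Nat.zero_le _)))
      (by rw [fd_succ p t k0]; exact fs.trans Z.om)
      (q1.trans (mul_le_mul_of_nonneg_right BL μ0)) s0.le sX μ0 mt0 Z.xm,
      up q2 (lin_fin L3 (min_le_right _ _) μ0 Γ0 g2 Z.om ?_ g0 Z.u0 Z.u1 Z.lo mt0 r0 r1 sX rX Z.xm)
        (by linarith) (by positivity) (by linarith),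
      ⟨(fs.trans Z.om).trans (mul_le_mul_of_nonneg_right (by linarith) mt0), Z.sv0,
        q1.trans (mul_le_mul_of_nonneg_right (by linarith) μ0),
        w3.trans (mul_le_mul_of_nonneg_right (by linarith) s0.le)⟩, ?_, ?_⟩
    · rcases Z.cas with ⟨a, b⟩ | ⟨a, b⟩
      · exact up (a := 1) q3 (by rw [a, b]; linarith) zero_le_one m0.le (by linarith)
      · refine up (a := Λ ^ 3) (q4 a).1 ?_ (by linarith) m0.le (by linarith)
        have d1 := mul_le_mul_of_nonneg_left (show Gm p P t m x + (|(p.gst P t).G k| +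
          p.bG t / (m + 1)) ≤ 4 * p.r ^ 2 by rw [b, abs_zero]; linarith) (add_nonneg μ0 o0)
        have d2 := mul_le_mul_of_nonneg_left r2 μ0
        have d3 := mul_le_mul_of_nonneg_right Z.xm (r0.le.trans rX)
        have d4 := mul_le_mul Z.om ((pow_le_of_le_one r0.le r1 two_ne_zero).trans rX)
          (sq_nonneg _) (by linarith)
        have d5 := mul_le_mul_of_nonneg_right (show 4 * Λ ^ 2 + 68 ≤ Λ ^ 3 by linarith) m0.le
        rw [mul_assoc (Λ ^ 2), e] at d3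
        rw [mul_assoc, e] at d4
        linarith [(Z.bulk a).1]
    · rcases Z.cas with ⟨a, -⟩ | ⟨-, a⟩ <;> simp [a]
    · rcases lt_or_ge k p.J with h | h
      · obtain ⟨d1, d2, d3, d4⟩ := Z.bulk h
        exact up (a := 15) (q4 h).2 (by linarith) (by norm_num) (sq_nonneg _) (by linarith)
      · have d1 := one_le_pow₀ (n := 2)
          ((Z.top h).trans (mul_le_mul_of_nonneg_left sX (by linarith)))
        have d2 := mul_le_mul (τ1.trans βL) (w2.trans CL) (abs_nonneg _) (by linarith)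
        have d3 := mul_le_mul_of_nonneg_left d1 (show 0 ≤ 2 * Λ ^ 2 by linarith)
        have d4 := mul_le_mul_of_nonneg_right (show 2 * Λ ^ 4 ≤ L by linarith)
          (sq_nonneg (max ((p.gst P t).s k) p.r))
        refine (abs_sub _ _).trans ?_
        rw [abs_one, abs_mul, τe, abs_of_nonneg τ0]
        linarith
    · have d1 := mul_le_mul CL (mul_le_mul_of_nonneg_left g2
        (show 0 ≤ 12 * Λ * (p.gst P t).s k by positivity)) (by positivity) (by linarith)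
      have d2 := mul_le_mul_of_nonneg_right (show 36 * Λ ^ 2 ≤ L by linarith)
        (show 0 ≤ (p.gst P t).s k * p.r ^ 2 by positivity)
      have d3 := mul_le_mul_of_nonneg_right (show Λ ≤ L by linarith)
        (show 0 ≤ 1 / (p.n : ℝ) by positivity)
      linarith [Z.u2]
  refine (sml_up 9 key).mono fun L p H => ⟨?_, ?_, ?_, ?_, ?_⟩ <;>
    intro σ σ' P t a a' Q m X x hx k k0 k1 <;> obtain ⟨h1, h2, h3, h4, h5⟩ :=
      H σ σ' P t a a' Q m X x hx k k0 k1 <;> assumption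


/-- **all coefficients** -/
theorem co (hβ : 1 < β) : Sml β Co := (P73.coLo hβ).and (co5 hβ)

end Crest.Agent.T156.Alt.Co65

end
end

-- ▼ part T156/R1Lw_76
section

/-!
# Row 156, R1 (helper76): the low words `LwR` from root moments and two location numbers
-/

set_option autoImplicit false
set_option linter.unusedSectionVars false

noncomputable section

namespace Crest.Agent.T156.Alt.R77

open Real Finset Filter Topology
open Crest.Agent.T156.Cas Crest.Agent.T156.Cas.C40 Crest.Agent.T156.Alt.Alg77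
open Crest.Agent.T156.Alt.CIn12 Crest.Agent.T156.Alt.Md67 Crest.Agent.T156.Cas.C40.Lw76

namespace Lw76

variable {M : Md} {m J : ℕ} {a x X τ0 : ℝ} {ρ : ℕ → ℝ} {W : Option (ℕ → ℝ)} {E : CIn12.Ev}

theorem lt_cd (h : Cut M x J) (G : Lg M m a) (hρ : Rf M ρ) (hτ : tp M m M.N ≤ τ0) :
    Lt (cd M m a ρ J W E) τ0 where
  ook := (rf_cq hρ J).ook h.leg
  mono := G.monoL
  cut := by rw [cd_K, cd_J]; exact Nat.lt_succ_of_le h.JN
  top := by rw [cd_K, cd_dx]; exact dz_last h.leg h.top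
  tau := by rw [cd_K, cd_tau m a ρ W E le_rfl]; exact hτ

theorem Sa_cd (h : Cut M x J) (i : ℕ) :
    Sa (cd M m a ρ J W E) i = M.dz m a 0 * M.E2 m a (fun r => |r| ^ i) 0 := by
  rw [Sa, h.sum_low]; rfl


theorem mom_low (hX : 0 < X) {k : ℕ} (H : M.E2 m a (fun r => r ^ 4) k ≤ X ^ 4) :
    M.E2 m a (fun r => |r| ^ 2) k ≤ X ^ 2 ∧ M.E2 m a (fun r => |r| ^ 3) k ≤ X ^ 3 ∧
      M.E2 m a (fun r => |r| ^ 4) k ≤ X ^ 4 := by
  have e : ∀ r : ℝ, r ^ 4 = |r| ^ 4 := fun r => ((by decide : Even 4).pow_abs r).symm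
  have k2 := E2_mono (M := M) (m := m) (a := a) (f := fun r => 2 * X ^ 2 * |r| ^ 2)
    (g := fun r => X ^ 4 + r ^ 4) (fun r _ => by
      rw [e r]; nlinarith [sq_nonneg (|r| ^ 2 - X ^ 2)]) k
  have k3 := E2_mono (M := M) (m := m) (a := a) (f := fun r => 4 * X * |r| ^ 3)
    (g := fun r => X ^ 4 + 3 * r ^ 4) (fun r _ => by
      rw [e r]
      nlinarith [mul_nonneg (sq_nonneg (|r| - X)) (show 0 ≤ 3 * |r| ^ 2 + 2 * |r| * X + X ^ 2 by
        positivity)]) k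
  rw [E2_mul, E2_add, E2_const] at k2
  rw [E2_mul, E2_add, E2_const, E2_mul] at k3
  refine ⟨le_of_mul_le_mul_left (a := 2 * X ^ 2) (by linarith) (by positivity),
    le_of_mul_le_mul_left (a := 4 * X) (by linarith) (by positivity), by simpa only [← e] using H⟩

/-- **the low words on a cut above the root atom** -/
theorem abs_lw_cd (h : Cut M x J) (G : Lg M m a) (hρ : Rf M ρ) (hτ : tp M m M.N ≤ τ0)
    (hW : W.isSome = true) (hX : 0 < X) (hz : M.z 0 ≤ X) (H : M.E2 m a (fun r => r ^ 4) 0 ≤ X ^ 4)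
    (D : CD) (hD : D = cd M m a ρ J W E) : |lw D| ≤ 2 * 10 ^ 6 * (1 + τ0) ^ 4 * (D.wt * X ^ 5 +
      X ^ 3 * (D.wt * D.I (fun j => |D.del j|) + D.Iw fun j => |D.del j|)) := by
  have L : Lt D τ0 := hD ▸ lt_cd h G hρ hτ
  obtain ⟨m2, m3, m4⟩ := mom_low hX H
  have z1 : M.dz m a 0 ≤ X := by rw [dz_zero h.leg]; linarith [G.a0]
  have s : ∀ i, M.E2 m a (fun r => |r| ^ i) 0 ≤ X ^ i → Sa D i ≤ X ^ (i + 1) := fun i e => by
    rw [hD, Sa_cd h, pow_succ']
    exact mul_le_mul z1 e (E2_nonneg (fun _ _ => by positivity) _) hX.le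
  have x1 : T157.Casc.ex D.B D.J ≤ X := by
    obtain ⟨k, rfl⟩ := Nat.exists_eq_add_of_le' h.J0
    have : ∀ i ≤ k, M.z i = M.z 0 := fun i hi => by
      induction i with
      | zero => rfl
      | succ i ih => exact (h.low (i + 1) (by omega) (by omega)).trans (ih (by omega))
    rw [hD]
    exact ((ex_succ (m := m) (a := a) h.leg k).trans (this k le_rfl)).trans_le hz
  have t0 := L.tau0
  have w0 := D.wt0
  have B0 := add_nonneg (mul_nonneg w0 (L.I0 fun j _ => abs_nonneg (D.del j)))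
    (D.Iw0 fun j _ => abs_nonneg (D.del j))
  have a1 := mul_le_mul x1 (s 3 m3) (L.Sa0 3) hX.le
  have a2 := mul_le_mul_of_nonneg_left (add_le_add a1 (s 4 m4)) w0
  have a3 := mul_le_mul_of_nonneg_right (s 2 m2) B0
  have a4 := mul_nonneg (pow_nonneg hX.le 3) B0
  simp only [Nat.reduceAdd] at a2 a3
  refine (L.abs_lw (hD ▸ (cd_some ..).trans hW)).trans ?_
  calc _ ≤ 10 ^ 6 * (1 + τ0) ^ 4 * (2 * (D.wt * X ^ 5 +
      X ^ 3 * (D.wt * D.I (fun j => |D.del j|) + D.Iw fun j => |D.del j|))) :=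
        mul_le_mul_of_nonneg_left (by linarith) (by positivity)
    _ = _ := by ring

end Lw76




/-! ### from the kit -/

namespace Lw76

open SD56 R62 R82

/-- **weighted first moments from the moment kit** -/
theorem loc1 {S : Sc} {M : Md} {m I e : ℕ} {a a' x Q l Φ l0 Λ Λ₀ Pt u1 V4 v Al At : ℝ}
    {P A : ℝ → ℝ} {c G : ℕ → ℝ} (W : Wn M m a a' Q) (h : Cl S M)
    (K : MK S M e Λ m x l Φ P l0 Λ₀ Pt u1 V4 G) (H : Pf S M l0 u1 c Al A At) (l00 : 0 < l0)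
    (hI : T0 S M ≤ l0 * 2 ^ I) (he : 1 ≤ e) (v0 : 0 ≤ v)
    (n1 : ∀ t, l0 ≤ t → t ≤ T0 S M → A t ^ 2 * (S.C ^ 2 * (3 * t) * (Λ * P t)) ≤ v ^ 2)
    (n2 : At ^ 2 * (Λ * Pt) ≤ v ^ 2) :
    ∑ k ∈ Ioo S.jl M.N, M.dz m x k * |c k * M.del m x k| ≤
      4 * ((I + 1) * v) + 4 * (Al * (Λ * l) * (S.C ^ 2 * l0) + At * 2 * (2 * u1)) := by
  have d0 : ∀ k ∈ Ioo S.jl M.N, 0 ≤ M.dz m x k := fun k hk => W.dz0 x (pos_of S M k hk)
  have hF : ∀ k, |M.del m x k| ≤ M.E2 m x (fun R => |R - M.q k| ^ 1) k := fun k => by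
    simp only [pow_one]
    refine le_trans (le_of_eq ?_) (abs_E2_le (fun R => R - M.q k) k)
    rw [E2_sub, E2_const]; rfl
  have cs : ∀ (U : Finset ℕ) (w b : ℝ), U ⊆ Ioo S.jl M.N → ∑ k ∈ U, M.dz m x k ≤ w →
      ∑ k ∈ U, M.dz m x k * G k ^ 2 ≤ b → ∑ k ∈ U, M.dz m x k * G k ≤ √(w * b) :=
    fun U w b hU h1 h2 => by
      have u0 := sum_nonneg fun k hk => d0 k (hU hk)
      refine le_sqrt_of_sq_le ((sum_sq_le_sum_mul_sum_of_sq_le_mul U (fun k hk => d0 k (hU hk))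
        (fun k hk => mul_nonneg (d0 k (hU hk)) (sq_nonneg (G k))) fun k _ => le_of_eq (by ring)).trans
          (mul_le_mul h1 h2 (sum_nonneg fun k hk => mul_nonneg (d0 k (hU hk)) (sq_nonneg _))
            (u0.trans h1)))
  have rt : ∀ y z : ℝ, 0 ≤ y → y ^ 2 * z ≤ v ^ 2 → y ^ 1 * √z ≤ v := fun y z hy e => by
    rw [pow_one, ← sqrt_sq hy, ← sqrt_mul (sq_nonneg y)]
    exact sqrt_le_iff.2 ⟨v0, e⟩
  have b1 := bad K h H l00.le (i := 1) (by omega) hF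
  have b2 := H.sum h 1 (g := fun k => M.dz m x k * G k)
    (fun k hk => mul_nonneg (d0 k hk) (K.pos k).le) v0 hI l00.le
    (fun t h1 h2 => cs _ _ _ (sb_sub h) ((sum_le_sum_of_subset_of_nonneg (t := lz S M (3 * t))
      (fun k hk => mem_filter.2 ⟨mem_Ioo.2 (mem_sb.1 hk).1, by linarith [(mem_sb.1 hk).2.2]⟩)
      fun k hk _ => W.dz0 x (by have := mem_Ioo.1 (mem_filter.1 hk).1; omega)).trans
        (lz_wt h (by linarith))) (K.b2 t h1 h2))
    (cs _ 1 _ (tz_sub h) (W.wt_le x (tz_sub h)) ((sum_le_sum_of_subset_of_nonneg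
      (union_subset_union_right fun k hk => by
        have := (mem_pl.1 hk).1; have := h.i4; exact mem_Ico.2 (by omega))
      fun k hk _ => mul_nonneg (W.dz0 x (by
        have := h.jl_lt
        rcases mem_union.1 hk with e | e
        exacts [by have := (mem_sb.1 e).1; omega, by have := mem_Ico.1 e; omega]))
        (sq_nonneg _)).trans K.t2))
    (fun t h1 h2 => rt _ _ (H.A0 t) (n1 t h1 h2)) (rt _ _ H.At0 (by rwa [one_mul]))
  have b3 : ∑ k ∈ gd S M l0 u1, M.dz m x k * |c k * M.del m x k| ≤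
      4 * ∑ k ∈ gd S M l0 u1, |c k| ^ 1 * (M.dz m x k * G k) := by
    rw [mul_sum]
    refine sum_le_sum fun k hk => ?_
    have := mul_le_mul_of_nonneg_left ((hF k).trans (mom K (i := 1) (by omega) (gd_sub h hk)))
      (mul_nonneg (d0 k (gd_sub h hk)) (abs_nonneg (c k)))
    simp only [Nat.reduceAdd] at this
    rw [abs_mul]
    linarith
  simp only [Nat.reduceAdd] at b1
  rw [← sum_sdiff (gd_sub (l0 := l0) (u1 := u1) h)]
  linarith

variable {E t a a' Q l Φ l0 Λ₀ Pt u1 V4 x : ℝ} {p : Pm} {P : Pl} {m I : ℕ} {S : Sc} {Pf : ℝ → ℝ}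
  (F : Fr E p P t a a' Q m S l Φ Pf l0 Λ₀ Pt u1 V4 I)
include F

theorem l_le : l ≤ p.ye := F.nr.ly.trans (mul_le_of_le_one_left (F.r0.le.trans F.ry)
  ((div_le_one (pow_pos F.E0 _)).2 (one_le_pow₀ F.E1')))

theorem Φ_mem : 0 ≤ Φ ∧ Φ ≤ 1 :=
  F.nr.l3 ▸ ⟨pow_nonneg F.l0'.le 3, pow_le_one₀ F.l0'.le ((l_le F).trans F.y1)⟩

theorem mt_low {y : ℝ} (h : y ≤ l0) : R82.mt p t y * l0 ≤ S.ms l0 := by
  have a := F.nr.l0l.trans (l_le F)
  have b : 0 < max y p.r := lt_max_of_lt_right F.r0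
  rw [R82.mt, F.sc.ms, Pm.msG, Pm.msG, min_eq_left a, min_eq_left (h.trans a),
    max_eq_right F.nr.r0, max_comm p.r, mul_right_comm p.κ, mul_div_cancel_right₀ _ b.ne',
    mul_right_comm p.κ l0]
  exact mul_le_mul_of_nonneg_right (mul_le_mul_of_nonneg_left
    (Gr29.gS_mono F.fx.t0.le (max_le h F.nr.r0)) (rpow_nonneg p.n.cast_nonneg _)) F.l00.le

theorem mt_blk {τ y : ℝ} (h : l0 ≤ τ) (h1 : τ ≤ y) (h2 : y ≤ 2 * τ) :
    R82.mt p t y ≤ 4 * (S.ms τ / τ) := by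
  have t0 := F.l00.trans_le h
  rw [R82.mt, ← F.sc.ms, ← mul_div_assoc]
  exact div_le_div₀ (by have := F.cl.ms_pos t0.le; positivity)
    ((F.cl.msm h2).trans (F.cl.ms2 τ t0.le)) t0 (h1.trans (le_max_left _ _))

theorem mt_top {y : ℝ} (h : T0 S (p.gst P t) ≤ y) : R82.mt p t y ≤ 48 * E ^ 4 * S.θ := by
  have b : 0 < max y p.r := lt_max_of_lt_right F.r0
  have E0 := F.E0
  have a1 : 1 ≤ 48 * E ^ 4 * max y p.r :=
    F.T0_ge.trans (mul_le_mul_of_nonneg_left (h.trans (le_max_left _ _)) (by positivity))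
  rw [R82.mt, ← F.sc.ms, div_le_iff₀ b, mul_right_comm]
  exact (F.cl.ms1 y).trans (le_mul_of_one_le_left F.θ0.le a1)

/-- the lines `n`, `i`, `j`, `c` combined -/
theorem sq_line {y : ℝ} (h : Λ₀ * y ≤ S.θ * ((1 / E ^ 200) ^ 2 * n4 p)) :
    Φ ^ 2 * y ≤ (1 / E ^ 200 * n5 p) ^ 2 := by
  have n0 := F.n0
  have L0 : 0 < Λ₀ := one_pos.trans_le F.nr.L1
  have e : n5 p ^ 2 = n4 p * (p.s ^ 6 / p.n) := by
    have := F.n2_sq
    have e : n5 p = n2 p * p.s ^ 3 := by rw [n5, n2]; ring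
    rw [e, mul_pow, this]; ring
  have a1 := mul_le_mul_of_nonneg_left h (sq_nonneg Φ)
  have a2 := mul_le_mul_of_nonneg_left F.nr.n (mul_nonneg (sq_nonneg (1 / E ^ 200)) F.n40.le)
  refine le_of_mul_le_mul_left ?_ L0
  rw [mul_pow, e]
  calc _ = Φ ^ 2 * (Λ₀ * y) := by ring
    _ ≤ _ := a1
    _ = (1 / E ^ 200) ^ 2 * n4 p * (S.θ * Φ ^ 2) := by ring
    _ ≤ _ := a2
    _ = _ := by ring

/-- **`Φ (θ N₁ + a₁)`** for any density below the profile -/
theorem loc_kit (hx : x ∈ Set.Icc a a') {f : ℕ → ℝ}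
    (hf : ∀ k, p.jf < k → k ≤ p.Jp P → |f k| ≤ E * (S.θ + R82.mt p t ((p.gst P t).s k))) :
    Φ * ∑ k ∈ Ico (p.jf + 1) (p.NP P), (p.gst P t).dz m x k * (|f k| * |(p.gst P t).del m x k|) ≤
      E ^ 10 * (1 / E ^ 200 * n5 p) := by
  obtain ⟨G, K⟩ := F.mkk x hx
  obtain ⟨Φ0, Φ1⟩ := Φ_mem F
  have E0 := F.E0
  have E1 := F.E1
  have θ0 := F.θ0
  have l00 := F.l00
  have l0' := F.l0'
  have m0 := F.cl.ms_pos l00.le
  have C0 := F.cl.C0
  have C2 : S.C ^ 2 ≤ E ^ 2 := pow_le_pow_left₀ C0.le F.sc.C 2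
  have u0 := F.nr.Pt0.1
  set B := 1 / E ^ 200 * n5 p with hB
  have B0 : 0 ≤ B := by have := F.n50; positivity
  have H := F.pf_of (c := fun k => Φ * f k) (B := fun y => Φ * (E * (S.θ + R82.mt p t y)))
    (Al := Φ * (E * (S.θ + S.ms l0 / l0))) (A := fun τ => Φ * (E * (S.θ + 4 * |S.ms τ / τ|)))
    (At := Φ * (E * (49 * E ^ 4 * S.θ)))
    (fun k h1 h2 => by
      rw [abs_mul, abs_of_nonneg Φ0]; exact mul_le_mul_of_nonneg_left (hf k h1 h2) Φ0)
    (fun y _ h => by gcongr; exact (le_div_iff₀ l00).2 (mt_low F h))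
    (fun τ y h h1 h2 => by
      have := (mt_blk F h h1 h2).trans
        (mul_le_mul_of_nonneg_left (le_abs_self _) (by norm_num : (0 : ℝ) ≤ 4))
      gcongr)
    (fun y h => by
      have := mt_top F h
      have := le_mul_of_one_le_left θ0.le (one_le_pow₀ (n := 4) F.E1')
      gcongr; linarith) (by positivity) (fun _ => by positivity) (by positivity)
  have p1 : ∀ k : ℕ, 1 ≤ E ^ k := fun k => one_le_pow₀ F.E1'
  have a := loc1 (v := E ^ 7 * B) F.W F.cl K H l00 F.hI (by norm_num) (by positivity)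
    (fun τ h1 h2 => by
      have t0 := l00.trans_le h1
      have P0 := (F.nr.P0 τ).1
      have a1 := sq_line F (y := S.θ ^ 2 * (τ * Pf τ)) (by
        have := mul_le_mul_of_nonneg_left (F.nr.i τ h1 h2) θ0.le; linarith)
      have a2 := sq_line F (y := (S.ms τ / τ) ^ 2 * (τ * Pf τ))
        (le_of_eq_of_le (by field_simp) (F.nr.j τ h1 h2))
      have a3 : (S.θ + 4 * |S.ms τ / τ|) ^ 2 ≤ 2 * S.θ ^ 2 + 32 * (S.ms τ / τ) ^ 2 := by
        rw [← sq_abs (S.ms τ / τ)]; nlinarith [sq_nonneg (S.θ - 4 * |S.ms τ / τ|)]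
      rw [← hB] at a1 a2
      calc _ = 3 * E ^ 3 * S.C ^ 2 * (Φ ^ 2 * ((S.θ + 4 * |S.ms τ / τ|) ^ 2 * (τ * Pf τ))) := by ring
        _ ≤ 3 * E ^ 3 * E ^ 2 * (Φ ^ 2 * ((2 * S.θ ^ 2 + 32 * (S.ms τ / τ) ^ 2) * (τ * Pf τ))) := by
          gcongr
        _ ≤ 3 * E ^ 3 * E ^ 2 * (34 * B ^ 2) :=
          mul_le_mul_of_nonneg_left (by linarith) (by positivity)
        _ = 102 * 1 * (E ^ 5 * B ^ 2) := by ring
        _ ≤ E * E ^ 8 * (E ^ 5 * B ^ 2) := by gcongr; exacts [by linarith, p1 8]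
        _ = _ := by ring)
    (by
      have a1 := sq_line F (y := S.θ ^ 2 * Pt) (by
        have := mul_le_mul_of_nonneg_left F.nr.c θ0.le
        have := mul_nonneg (mul_nonneg (sq_nonneg S.θ) (zero_le_one.trans F.nr.L1))
          (add_nonneg (u0.trans F.nr.Pt0.2.2.2) (pow_nonneg F.r0.le 4))
        linarith)
      rw [← hB] at a1
      calc _ = 49 * 49 * 1 * E ^ 11 * (Φ ^ 2 * (S.θ ^ 2 * Pt)) := by ring
        _ ≤ E * E * E * E ^ 11 * B ^ 2 := by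
          have : 0 ≤ Pt := u0.trans F.nr.Pt0.2.1
          gcongr <;> linarith
        _ = _ := by ring)
  have b1 : S.θ * Φ * (l * l0) ≤ B := by
    refine le_trans ?_ F.nr.l5
    have := mul_le_mul_of_nonneg_left F.nr.l0l (show 0 ≤ S.θ * l ^ 4 by positivity)
    rw [← F.nr.l3]; linarith
  have b2 : S.ms l0 * Φ * l ≤ B :=
    (mul_le_of_le_one_right (by positivity) ((l_le F).trans F.y1)).trans F.nr.a
  have b3 : S.θ * u1 * Φ ≤ B := (mul_le_of_le_one_right (by positivity) Φ1).trans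
    ((mul_le_mul_of_nonneg_left F.nr.Pt0.2.2.2 θ0.le).trans F.nr.d)
  have c1 : Φ * (E * (S.θ + S.ms l0 / l0)) * (E * l) * (S.C ^ 2 * l0) ≤ E ^ 9 * B := by
    calc _ = E ^ 2 * S.C ^ 2 * (S.θ * Φ * (l * l0) + S.ms l0 * Φ * l) := by field_simp
      _ ≤ E ^ 2 * E ^ 2 * (B + B) := by gcongr
      _ = 2 * 1 * (E ^ 4 * B) := by ring
      _ ≤ E * E ^ 4 * (E ^ 4 * B) := by gcongr; exacts [by linarith, p1 4]
      _ = _ := by ring
  have c2 : Φ * (E * (49 * E ^ 4 * S.θ)) * 2 * (2 * u1) ≤ E ^ 9 * B := by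
    calc _ = 196 * 1 * (E ^ 5 * (S.θ * u1 * Φ)) := by ring
      _ ≤ E * E ^ 3 * (E ^ 5 * B) := by gcongr; exacts [by linarith, p1 3]
      _ = _ := by ring
  have c3 : ((I : ℝ) + 1) * (E ^ 7 * B) ≤ E ^ 9 * B :=
    (mul_le_mul_of_nonneg_right F.I1 (by positivity)).trans_eq (by ring)
  have c4 := mul_le_mul_of_nonneg_right (show 12 ≤ E by linarith) (show 0 ≤ E ^ 9 * B by positivity)
  rw [← gst_N, F.up_eq, mul_sum]
  refine (le_of_eq (sum_congr rfl fun k _ => ?_)).trans (a.trans (by linarith))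
  rw [abs_mul, abs_mul, abs_of_nonneg Φ0]; ring

/-- the root -/
theorem root_kit (hx : x ∈ Set.Icc a a') : (p.gst P t).z 0 ≤ E ^ 2 * l ∧
    (p.gst P t).E2 m x (fun r => r ^ 16) 0 ≤ (E ^ 3 * l) ^ 16 := by
  obtain ⟨G, K⟩ := F.bk x hx
  have h := F.cl
  have C0 := h.C0
  have C1 := h.C1
  have E0 := F.E0
  have l0' := F.l0'
  have z1 : (p.gst P t).z 0 ≤ E ^ 2 * l := by
    have a1 := (h.z_s le_rfl h.j0_lt).2
    have a2 := (h.s_bds h.j0_lt.le).1
    have a3 : (1 : ℝ) ≤ S.j0 := by exact_mod_cast h.i0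
    have a4 := (le_mul_of_one_le_left (div_pos h.v0 C0).le a3).trans a2
    have a5 := (mul_le_mul_of_nonneg_left (h.sm h.i1) (by norm_num : (0 : ℝ) ≤ 8)).trans
      (F.nr.jl.trans F.nr.l0l)
    have s0 := h.s_nn S.j0
    rw [div_le_iff₀' C0] at a4
    rw [h.low 0 (Nat.zero_le _)]
    calc _ ≤ S.C * (S.C * (8 * (p.gst P t).s S.j0)) := a1.trans
          (mul_le_mul_of_nonneg_left (by nlinarith) C0.le)
      _ ≤ E * (E * l) := by have := F.sc.C; gcongr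
      _ = _ := by ring
  refine ⟨z1, (K.low 0 (Nat.zero_le _)).trans (pow_le_pow_left₀
    (mul_nonneg E0.le (l0'.le.trans (le_max_right _ _))) ?_ _)⟩
  rw [pow_succ' E 2, mul_assoc]
  exact mul_le_mul_of_nonneg_left
    (max_le z1 (le_mul_of_one_le_left l0'.le (one_le_pow₀ F.E1'))) E0.le

theorem lw_kit (hβ : p.β ^ 2 ≤ E) (hx : x ∈ Set.Icc a a')
    (hf : ∀ k, p.jf < k → k ≤ p.Jp P → t * |sv p t k| ≤ E * R82.mt p t ((p.gst P t).s k)) :
    t * |lw (D0 p P t m x)| ≤ E ^ 27 * (1 / E ^ 200 * n5 p) := by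
  obtain ⟨z1, z2⟩ := root_kit F hx
  obtain ⟨Φ0, Φ1⟩ := Φ_mem F
  have E0 := F.E0
  have E1 := F.E1
  have l0' := F.l0'
  have t0 := F.fx.t0
  have θ0 := F.θ0
  have p1 : ∀ k : ℕ, 1 ≤ E ^ k := fun k => one_le_pow₀ F.E1'
  have G := F.fx.lg hx.1 hx.2
  have r := rf_q F.cl
  have hτ := (F.fx.tp_le (p.gst P t).N).2.trans hβ
  have z3 : (p.gst P t).E2 m x (fun r => r ^ 4) 0 ≤ (3 * (E ^ 3 * l)) ^ 4 := by
    have := mom_pair (M := p.gst P t) (m := m) (a := x) (k := 0) (p := 8) (i := 4) (c := 0) (q := 0)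
      (B := E ^ 3 * l) (by positivity) (by norm_num) (by simpa only [sub_zero] using z2)
    simp only [sub_zero, abs_zero, add_zero, (by decide : Even 4).pow_abs, Nat.reduceAdd] at this
    have := pow_pos (show 0 < E ^ 3 * l by positivity) 4
    rw [mul_pow]; linarith
  have e := abs_lw_cd (E := R77.E0) F.fx.cut G r hτ rfl (by positivity) (z1.trans (by
    have := mul_le_mul_of_nonneg_right F.E1' (show 0 ≤ E ^ 2 * l by positivity)
    have : 0 ≤ E ^ 3 * l := by positivity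
    linarith)) z3 (D0 p P t m x) rfl
  have w := F.fx.wt x R77.E0
  rw [← F.th] at w
  have k := loc_kit F hx (f := fun k => E * S.θ + t * |sv p t k|) fun k h1 h2 => by
    rw [abs_of_nonneg (by positivity)]; linarith [hf k h1 h2]
  have d : ∀ k ∈ Ico (p.jf + 1) (p.NP P), (D0 p P t m x).del (k + 1) = (p.gst P t).del m x k :=
    fun k hk => cd_del m x _ _ R77.E0 (mem_Ico.1 hk).1 (mem_Ico.1 hk).2
  have i1 : E * S.θ * (D0 p P t m x).I (fun j => |(D0 p P t m x).del j|) +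
      t * (D0 p P t m x).Iw (fun j => |(D0 p P t m x).del j|) = ∑ k ∈ Ico (p.jf + 1) (p.NP P),
        (p.gst P t).dz m x k * (|E * S.θ + t * abs (sv p t k)| * |(p.gst P t).del m x k|) := by
    rw [F.fx.Iw_eq, cd_I, mul_sum, mul_sum, gst_N, ← sum_add_distrib]
    exact sum_congr rfl fun k hk => by
      rw [d k hk, abs_of_nonneg (a := E * S.θ + t * |sv p t k|) (by positivity)]; ring
  have i0 : 0 ≤ (D0 p P t m x).I (fun j => |(D0 p P t m x).del j|) :=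
    (lt_cd F.fx.cut G r hτ).I0 fun j _ => abs_nonneg _
  have i2 : 0 ≤ (D0 p P t m x).Iw (fun j => |(D0 p P t m x).del j|) :=
    CD.Iw0 _ fun j _ => abs_nonneg _
  have w0 := (D0 p P t m x).wt0
  have l5 := F.nr.l5
  rw [← i1, ← F.nr.l3] at k
  set B := 1 / E ^ 200 * n5 p with hB
  have B0 : 0 ≤ B := by have := F.n50; positivity
  generalize (D0 p P t m x).I _ = y1 at *
  generalize (D0 p P t m x).Iw _ = y2 at *
  generalize (D0 p P t m x).wt = y3 at *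
  calc _ ≤ t * _ := mul_le_mul_of_nonneg_left e t0.le
    _ = 2 * 10 ^ 6 * (1 + E) ^ 4 * (243 * E ^ 15 * (t * y3 * l ^ 5) +
        27 * E ^ 9 * (l ^ 3 * (t * y3 * y1 + t * y2))) := by ring
    _ ≤ 2 * 10 ^ 6 * (2 * E) ^ 4 * (243 * E ^ 15 * (E * S.θ * l ^ 5) +
        27 * E ^ 9 * (l ^ 3 * (E * S.θ * y1 + t * y2))) := by gcongr; linarith
    _ ≤ 2 * 10 ^ 6 * (2 * E) ^ 4 * (243 * E ^ 15 * (E * B) + 27 * E ^ 9 * (E ^ 10 * B)) := by
      rw [mul_assoc E]; gcongr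
    _ = 32 * 1000 * 1000 * (E ^ 20 * B) * (243 + 27 * E ^ 3) := by ring
    _ ≤ 32 * E * E * (E ^ 20 * B) * (28 * E ^ 3) := by
      have : 1000 * 1 ≤ E * E ^ 2 := by gcongr; exact p1 2
      gcongr; linarith
    _ = 896 * 1 * (E ^ 25 * B) := by ring
    _ ≤ E * E * (E ^ 25 * B) := by gcongr <;> linarith
    _ = _ := by ring

end Lw76

/-- **the low words from the kit** -/
theorem lwR : R82.From LwR := fun β hβ hC hK => by
  refine Sml.gain (Sml.glue' hβ ((SD56.frS hβ hK).and hC) 2 one_pos 1 ?_)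
  intro c0 C0 A c η _ _ _ _
  refine ⟨0, fun p H _ _ _ ⟨f, g⟩ σ σ' P t a a' Q m cx => ?_⟩
  obtain ⟨S, l, Φ, Pf, l0, Λ₀, Pt, u1, V4, I, F⟩ := f σ σ' P t a a' Q m cx
  have k := fun x hx => Lw76.lw_kit F (H.hβ ▸ H.β_le) hx fun k h1 h2 =>
    (g.2.2.2.2.1 σ σ' P t a a' Q m cx x hx k h1 h2).1
  have k1 := k a F.W.lo
  have k2 := k a' F.W.hi
  have k3 := mul_le_mul_of_nonneg_left (abs_sub (lw (D0 p P t m a')) (lw (D0 p P t m a))) F.fx.t0.le
  have E0 := F.E0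
  have a1 : 0 ≤ ((p.n : ℝ) ^ η) ^ 27 * (1 / ((p.n : ℝ) ^ η) ^ 200 * (Q * SD56.n2 p)) := by
    have := F.n20; have := cx.Q0; positivity
  rw [mul_left_comm]
  refine F.bud (α := 2 * ((p.n : ℝ) ^ η) ^ 27) (by linarith) ?_
  exact (mul_le_mul_of_nonneg_right (show 2 ≤ (p.n : ℝ) ^ η by linarith [F.E1])
    (by positivity)).trans ((pow_succ' _ _).symm.trans_le (pow_le_pow_right₀ F.E1' (by norm_num)))

end Crest.Agent.T156.Alt.R77

end
end

-- ▼ part T156/LPk_6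

/-!
# Row 156 (helper6): pair fluctuations on the blocks and on the top zone (`SD56.PK`)
-/

set_option autoImplicit false
set_option linter.unusedSectionVars false

noncomputable section

namespace Crest.Agent.T156.Alt.R62

open Real Finset Filter
open Crest.Agent.T156.Alt.Md67 Crest.Agent.T156.Alt.SD56 Crest.Agent.T156.Alt.Lb24

/-- **pair fluctuations from location** -/
def PKS : Prop := CL fun E Λ S M m a => ∀ l Φ P l0 Λ₀ Λ₁ Pt Vt u1 V4,
  KN S M E l Φ P l0 Λ₀ Λ₁ Pt Vt u1 V4 → LK S M m a Φ P l0 Λ₁ Pt Vt u1 → PK S M Λ m a l l0 Λ₀ u1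

namespace Pk6

theorem rise {r : ℕ → ℝ} (hr : Monotone r) (r0 : 0 ≤ r 0) {T : Finset ℕ} {x : ℝ} (hx : 0 ≤ x)
    (h : ∀ k ∈ T, r (k + 1) ≤ x) : ∑ k ∈ T, (r (k + 1) - r k) ≤ x := by
  rcases T.eq_empty_or_nonempty with rfl | hT
  · simpa using hx
  refine (sum_le_sum_of_subset_of_nonneg (t := range (T.max' hT + 1))
    (fun k hk => mem_range.2 (Nat.lt_succ_of_le (T.le_max' k hk)))
    fun k _ _ => sub_nonneg.2 (hr k.le_succ)).trans ?_
  rw [sum_range_sub]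
  linarith [h _ (T.max'_mem hT)]

/-- what is used about the scales -/
structure Hy (S : Sc) (M : Md) (m : ℕ) (a E : ℝ) : Prop where
  cl : Cl S M
  inn : S.In m a
  hv : S.v * S.n ≤ S.C
  θ1 : S.θ ≤ 1
  hE : 64 * S.C ^ 4 ≤ E

variable {S : Sc} {M : Md} {m p : ℕ} {a E Λ l Φ l0 Λ₀ Λ₁ Pt Vt u1 V4 : ℝ} {P : ℝ → ℝ} {G : ℕ → ℝ}

theorem vv_sum (g : Lg M m a) {T : Finset ℕ} {y : ℝ} (y0 : 0 ≤ y) (h : ∀ k ∈ T, 1 ≤ y * M.z k) :
    ∑ k ∈ T, M.dz m a k * vvM M m a k ≤ y * ∑ k ∈ T, M.dz m a k * ja M m a 0 k := by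
  rw [mul_sum]
  refine sum_le_sum fun k hk => ?_
  have e : ja M m a 0 k = Cost41.aM M m a k := JA_zero (M.q k) k
  have a1 := mul_le_mul_of_nonneg_left (vv_aa g k) y0
  have a2 := le_mul_of_one_le_left (vvM_nn (M := M) (m := m) (a := a) k) (h k hk)
  rw [e, mul_left_comm]
  exact mul_le_mul_of_nonneg_left (by linarith) (g.dz_nonneg k)

theorem pf_sum (T : Finset ℕ) : ∑ k ∈ T, M.dz m a k * M.pf m a k =
    ∑ k ∈ T, M.dz m a k * tcM M m a k + 2 * ∑ k ∈ T, M.dz m a k * vvM M m a k := by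
  rw [mul_sum, ← sum_add_distrib]
  exact sum_congr rfl fun k _ => by
    show _ * (tcM M m a k + 2 * vvM M m a k) = _
    ring

namespace Hy

variable (X : Hy S M m a E)
include X

theorem lg : Lg M m a := lg_cl X.cl X.cl.n1 X.inn

/-- `tr C²` at one node -/
theorem tcy {k : ℕ} (k0 : S.jl ≤ k) (k1 : k < S.Jp) {y w : ℝ} (hy : 1 ≤ y * M.z k)
    (hw : S.F / (S.n * S.ms (M.s k)) ≤ w) :
    S.v * tcM M m a k ≤ 4 * S.C * y ^ 2 * w * (M.rb m a (k + 1) - M.rb m a k) := by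
  have h := X.cl
  have h1 := tc_node X.lg (k1.trans h.i4)
  have h2 := h.flr k k0 k1
  have C0 := h.C0
  have v0 := h.v0
  have F1 := h.F1
  have N0 := h.N0
  have ms := h.ms_pos (h.s_nn k)
  have ms1 := (h.ms1 (M.s k)).trans X.θ1
  have mn : (S.n : ℝ) ≤ m := Nat.cast_le.2 X.inn.m1
  have t0 := tcM_nn (M := M) (m := m) (a := a) k
  have d0 := sub_nonneg.2 (rb_mono (M := M) (a := a) X.lg.m0 k.le_succ)
  rw [div_le_iff₀ (by positivity)] at hw h2
  have hH : 0 < M.H (k + 1) - M.H k := pos_of_mul_pos_left ((mul_pos ms v0).trans_le h2) (by positivity)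
  have w0 : 0 < w := pos_of_mul_pos_left (one_pos.trans_le (F1.trans hw)) (by positivity)
  generalize M.H (k + 1) - M.H k = D at *
  generalize M.rb m a (k + 1) - M.rb m a k = Δ at *
  generalize tcM M m a k = τ at *
  have a1 : S.v ≤ S.C * w * (D * m) := by
    refine le_of_mul_le_mul_left ?_ ms
    calc _ ≤ D * (S.C * S.F) := h2
      _ ≤ D * (S.C * (w * (m * S.ms (M.s k)))) := by gcongr; exact hw.trans (by gcongr)
      _ = _ := by ring
  have a2 : S.v ≤ S.C * w := by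
    refine le_of_mul_le_mul_right (X.hv.trans ?_) N0
    have : 1 ≤ w * S.n := F1.trans (hw.trans (by
      gcongr; exact mul_le_of_le_one_right N0.le ms1))
    nlinarith
  have D0 : 0 < D * m := mul_pos hH (N0.trans_le mn)
  generalize D * m = e at *
  have a3 : S.v * (M.z k ^ 2 * τ) ≤ 4 * S.C * w * Δ := by
    refine le_of_mul_le_mul_left ?_ D0
    calc e * (S.v * (M.z k ^ 2 * τ)) = S.v * (e * (M.z k ^ 2 * τ)) := by ring
      _ ≤ S.v * ((2 + 2 * e) * Δ) := by gcongr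
      _ = 2 * (S.v * Δ) + 2 * (S.v * (e * Δ)) := by ring
      _ ≤ 2 * (S.C * w * e * Δ) + 2 * (S.C * w * (e * Δ)) := by gcongr
      _ = _ := by ring
  calc S.v * τ ≤ (y * M.z k) ^ 2 * (S.v * τ) :=
        le_mul_of_one_le_left (by positivity) (one_le_pow₀ hy)
    _ = y ^ 2 * (S.v * (M.z k ^ 2 * τ)) := by ring
    _ ≤ y ^ 2 * (4 * S.C * w * Δ) := by gcongr
    _ = _ := by ring

variable (N : KN S M E l Φ P l0 Λ₀ Λ₁ Pt Vt u1 V4)
include N

theorem l00 : 0 < l0 := by linarith [X.cl.s_pos (X.cl.i0.trans X.cl.i1), N.jl]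
theorem lp : 0 < l := (X.l00 N).trans_le N.l0l
theorem lC : 64 * S.C ^ 4 * l ≤ 1 := (mul_le_mul_of_nonneg_right X.hE (X.lp N).le).trans N.l1
theorem l1 : l ≤ 1 := by nlinarith [X.lC N, one_le_pow₀ (n := 4) X.cl.C1, X.lp N]
theorem Pt0 : 0 < Pt := X.cl.v0.trans_le N.Ptw.2

theorem vl : S.v ≤ l := by
  have := N.Ptw.2.trans (N.PtΦ.trans N.l3.ge)
  exact this.trans (pow_le_of_le_one (X.lp N).le (X.l1 N) (by norm_num))

theorem sJ : 1 ≤ 2 * S.C ^ 2 * M.s S.J := by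
  have h := X.cl
  have i1 := h.i1
  have i2 := h.i2
  have a1 := h.atom.1
  have a2 := (h.z_s (k := S.J - 1) (by omega) (by omega)).2
  have a3 := h.sm (Nat.sub_le S.J 1)
  have C0 := h.C0
  have c4 : S.C ^ 2 ≤ S.C ^ 4 := pow_le_pow_right₀ h.C1 (by norm_num)
  rw [div_le_iff₀ C0] at a1
  have a4 : S.C ^ 2 * S.v ≤ S.C ^ 4 * l := by gcongr; exacts [h.v0.le, X.vl N]
  have a5 := mul_le_mul_of_nonneg_right a2 C0.le
  have a6 := mul_le_mul_of_nonneg_left a3 (sq_nonneg S.C)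
  nlinarith [X.lC N]

omit X in
theorem q_pl {k : ℕ} (k0 : S.J ≤ k) (k1 : k ≤ S.Jp) : M.q k = M.q S.J := by
  rw [Md.q, Md.q, N.flat k k0 k1]

theorem nxt {k : ℕ} (hk : k ∈ pl S M u1) :
    M.z k - M.z (k - 1) ≤ Pl57.uu S M (M.z (k - 1)) / 2 ∧ k + 1 ∈ pl S M (u1 / 4) := by
  have h := X.cl
  obtain ⟨⟨k0, k1⟩, k2⟩ := mem_pl.1 hk
  have a1 := (h.plat k k0 k1).2
  have a2 : E * S.v ≤ S.den (M.z (k - 1)) * Pl57.uu S M (M.z (k - 1)) := N.fine k k0 k1
  have a3 : S.C ≤ S.C ^ 4 := le_self_pow₀ h.C1 (by norm_num)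
  have a4 : 2 * S.C * S.v ≤ E * S.v := mul_le_mul_of_nonneg_right (by linarith [X.hE, h.C0]) h.v0.le
  have b : M.z k - M.z (k - 1) ≤ Pl57.uu S M (M.z (k - 1)) / 2 :=
    le_of_mul_le_mul_right (by linarith) (h.den0 (M.z (k - 1)))
  have c : Pl57.uu S M (M.z (k - 1)) ≤ 1 - M.z (k - 1) := min_le_right _ _
  have u0 := h.v0.trans_le N.u1P.1
  unfold du at k2
  refine ⟨b, mem_pl.2 ⟨⟨by omega, lt_of_le_of_ne k1 fun e => ?_⟩, ?_⟩⟩
  · have := h.last
    rw [← e, Nat.add_sub_cancel] at this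
    linarith [N.ue]
  · rw [du, Nat.add_sub_cancel]
    linarith

/-- **rises against the density of the clock** -/
theorem shell {r : ℕ → ℝ} (hr : Monotone r) {c B : ℝ} (B0 : 0 ≤ B)
    (hB : ∀ k ∈ pl S M (u1 / 4), |r k - c| ≤ B * ls S M k) :
    ∑ k ∈ pl S M u1, (r (k + 1) - r k) / S.den (M.z (k - 1)) ≤ 8 * S.C ^ 3 * B := by
  have h := X.cl
  have C0 := h.C0
  have C1 := h.C1
  have u0 := h.v0.trans_le N.u1P.1
  have g0 : ∀ j, 0 ≤ (r (j + 1) - r j) / S.den (M.z (j - 1)) := fun j =>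
    div_nonneg (sub_nonneg.2 (hr j.le_succ)) (h.den0 _).le
  have emp : ∀ k, S.J ≤ k → k ∉ pl S M u1 → ∑ j ∈ (pl S M u1).filter (k ≤ ·),
      (r (j + 1) - r j) / S.den (M.z (j - 1)) = 0 := fun k k0 hk =>
    sum_eq_zero fun j hj => (hk <| by
      obtain ⟨j1, j2⟩ := mem_filter.1 hj
      obtain ⟨⟨-, j3⟩, j4⟩ := mem_pl.1 j1
      exact mem_pl.2 ⟨⟨k0, j2.trans_lt j3⟩, j4.trans
        (sub_le_sub_left (h.leg.zm (Nat.sub_le_sub_right j2 1)) 1)⟩).elim
  have du0 : ∀ k, 0 ≤ 8 * S.C ^ 3 * B * du M k := fun k =>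
    mul_nonneg (by positivity) (sub_nonneg.2 (h.leg.z1 _))
  have key : ∀ n k, S.J ≤ k → S.Jp ≤ k + n → ∑ j ∈ (pl S M u1).filter (k ≤ ·),
      (r (j + 1) - r j) / S.den (M.z (j - 1)) ≤ 8 * S.C ^ 3 * B * du M k := by
    intro n
    induction n with
    | zero =>
      intro k k0 hk
      rw [emp k k0 fun e => by have := (mem_pl.1 e).1.2; omega]
      exact du0 k
    | succ n ih =>
      intro k k0 hk
      by_cases hp : k ∈ pl S M u1
      swap
      · rw [emp k k0 hp]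
        exact du0 k
      obtain ⟨⟨-, k1⟩, k2⟩ := mem_pl.1 hp
      have x0 := Pl57.x_ge h k0
      have x1 := Pl57.x_lt h k0 k1
      have up := Pl57.uu_pos h N.u0.1 k0 k1
      have lk : ls S M k = S.den (M.z (k - 1)) * Pl57.uu S M (M.z (k - 1)) := rfl
      have ud : Pl57.uu S M (M.z (k - 1)) ≤ du M k := min_le_right _ _
      have dk : du M k = 1 - M.z (k - 1) := rfl
      have xm : ∀ j, k ≤ j → M.z (k - 1) ≤ M.z (j - 1) := fun j e =>
        h.leg.zm (Nat.sub_le_sub_right e 1)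
      generalize M.z (k - 1) = x at *
      have d0 := h.den0 x
      have ex : ∃ i : ℕ, ¬(k + i + 1 ∈ pl S M u1 ∧ M.z (k + i) - x ≤ Pl57.uu S M x / 2) :=
        ⟨S.Jp, fun e => by have := (mem_pl.1 e.1).1.2; omega⟩
      classical
      have hi := Nat.find_spec ex
      have hm := fun i => Nat.find_min ex (m := i)
      generalize Nat.find ex = i at hi hm
      have grp : ∀ j, k ≤ j → j ≤ k + i → j ∈ pl S M u1 ∧ |M.z (j - 1) - x| ≤ Pl57.uu S M x / 2 := by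
        intro j j0 j1
        rw [abs_of_nonneg (sub_nonneg.2 (xm j j0))]
        rcases j0.eq_or_lt with rfl | j2
        · exact ⟨hp, by unfold du at dk; linarith⟩
        · obtain ⟨i', rfl⟩ : ∃ i', j = k + i' + 1 := ⟨j - k - 1, by omega⟩
          exact not_not.1 (hm i' (by omega))
      obtain ⟨j1, j2⟩ := grp (k + i) (by omega) le_rfl
      obtain ⟨n1, n2⟩ := X.nxt N j1
      obtain ⟨⟨j3, j4⟩, -⟩ := mem_pl.1 j1
      have y0 := Pl57.x_ge h j3
      have ym : M.z (k + i - 1) ≤ M.z (k + i) := h.leg.zm (Nat.sub_le _ _)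
      have n3 : |M.z (k + i) - M.z (k + i - 1)| ≤ Pl57.uu S M (M.z (k + i - 1)) / 2 := by
        rwa [abs_of_nonneg (sub_nonneg.2 ym)]
      have c1 := (Pl57.cmp h y0 (Pl57.x_lt h j3 j4) (y0.trans ym) n3).2
      have c2 := (Pl57.cmp h x0 x1 y0 j2).2
      have c3 := Pl57.uu_lip (S := S) (M := M) (M.z (k + i)) (M.z (k + i - 1))
      have c4 := Pl57.uu_lip (S := S) (M := M) (M.z (k + i - 1)) x
      have c5 : ls S M (k + i + 1) ≤ S.C * (S.C * S.den x) * (9 / 4 * Pl57.uu S M x) :=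
        mul_le_mul (c1.trans (by gcongr)) (show Pl57.uu S M (M.z (k + i)) ≤ _ by linarith)
          (Pl57.uu_pos h N.u0.1 (k := k + i + 1) (by omega) (mem_pl.1 n2).1.2).le (by positivity)
      have b1 := (abs_le.1 (hB _ n2)).2
      have b2 := (abs_le.1 (hB k (mem_pl.2 ⟨⟨k0, k1⟩, by linarith⟩))).1
      have s1 : ∑ j ∈ Ico k (k + i + 1), (r (j + 1) - r j) / S.den (M.z (j - 1)) ≤
          4 * S.C ^ 3 * B * Pl57.uu S M x := by
        refine (sum_le_sum (g := fun j => S.C / S.den x * (r (j + 1) - r j)) fun j hj => ?_).trans ?_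
        · obtain ⟨e1, e2⟩ := mem_Ico.1 hj
          obtain ⟨e3, e4⟩ := grp j e1 (by omega)
          have e5 := (Pl57.cmp h x0 x1 (Pl57.x_ge h (mem_pl.1 e3).1.1) e4).1
          rw [div_mul_eq_mul_div, div_le_div_iff₀ (h.den0 _) d0]
          nlinarith [mul_le_mul_of_nonneg_left e5 (sub_nonneg.2 (hr j.le_succ))]
        rw [← mul_sum, sum_Ico_sub _ (by omega), div_mul_eq_mul_div, div_le_iff₀ d0]
        have e1 : r (k + i + 1) - r k ≤ B * (4 * S.C ^ 2 * (S.den x * Pl57.uu S M x)) := by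
          have e2 := mul_le_mul_of_nonneg_left c5 B0
          have e3 : B * (S.den x * Pl57.uu S M x) ≤ S.C ^ 2 * (B * (S.den x * Pl57.uu S M x)) :=
            le_mul_of_one_le_left (by positivity) (one_le_pow₀ C1)
          have e4 : 0 ≤ S.C ^ 2 * (B * (S.den x * Pl57.uu S M x)) := by positivity
          rw [lk] at b2
          linarith
        exact (mul_le_mul_of_nonneg_left e1 C0.le).trans_eq (by ring)
      have s2 := sum_le_sum_of_subset_of_nonneg (s := (pl S M u1).filter (k ≤ ·))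
        (t := Ico k (k + i + 1) ∪ (pl S M u1).filter (k + i + 1 ≤ ·)) (fun j hj => by
          obtain ⟨e1, e2⟩ := mem_filter.1 hj
          rcases lt_or_ge j (k + i + 1) with e | e
          exacts [mem_union_left _ (mem_Ico.2 ⟨e2, e⟩), mem_union_right _ (mem_filter.2 ⟨e1, e⟩)])
        fun j _ _ => g0 j
      refine s2.trans ((sum_union_le fun j _ => g0 j).trans ?_)
      have p0 : 0 ≤ 4 * S.C ^ 3 * B := by positivity
      rcases not_and_or.1 hi with e | e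
      · rw [emp _ (by omega) e]
        linarith [mul_le_mul_of_nonneg_left ud p0, du0 k]
      · have e1 := ih (k + i + 1) (by omega) (by omega)
        rw [du, Nat.add_sub_cancel] at e1
        rw [dk]
        linarith [mul_le_mul_of_nonneg_left (not_le.1 e).le p0]
  have := key S.Jp S.J le_rfl (by omega)
  rw [filter_true_of_mem fun j hj => (mem_pl.1 hj).1.1] at this
  exact this.trans (mul_le_of_le_one_right (by positivity) (sub_le_self _ (h.z_pos _).le))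

variable (L : LK S M m a Φ P l0 Λ₁ Pt Vt u1)
include L

theorem top : ∑ y ∈ sb S M (T0 S M / 4) S.C ∪ Icc S.J S.Jp,
    (M.z y - M.z (y - 1)) * |M.del m a y| ^ 2 ≤ Pt := by
  simpa only [sq_abs, lw] using L.top

/-- lower location at the last sloped node -/
theorem lo_J : -M.del m a (S.J - 1) ≤ 4 * S.C * Pt ^ ((1 : ℝ) / 3) := by
  have h := X.cl
  have v0 := h.v0
  have C0 := h.C0
  have C1 := h.C1
  have P0 := X.Pt0 N
  have p3 : (Pt ^ ((1 : ℝ) / 3)) ^ 3 = Pt := by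
    rw [← rpow_natCast, ← rpow_mul P0.le]; norm_num
  have p0 : 0 < Pt ^ ((1 : ℝ) / 3) := by positivity
  have hE := X.top N L
  have vP := N.Ptw.2
  generalize Pt ^ ((1 : ℝ) / 3) = q at *
  have ql : q ≤ l := le_of_pow_le_pow_left₀ three_ne_zero (X.lp N).le
    (p3.le.trans (N.PtΦ.trans N.l3.ge))
  have vq : S.v ≤ q := vP.trans (p3.ge.trans (pow_le_of_le_one p0.le (ql.trans (X.l1 N)) (by norm_num)))
  obtain ⟨n, n1, n2⟩ : ∃ n : ℕ, q ≤ n * S.v ∧ n * S.v ≤ 2 * q :=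
    ⟨⌈q / S.v⌉₊, (div_le_iff₀ v0).1 (Nat.le_ceil _), by
      have := (lt_div_iff₀ v0).1 (sub_lt_iff_lt_add.2 (Nat.ceil_lt_add_one (div_pos p0 v0).le))
      linarith⟩
  have sJ := X.sJ N
  have lC := X.lC N
  have lp := X.lp N
  have s0 : 0 < M.s S.J := h.s_pos (by have := h.i2; omega)
  have e1 : 32 * (S.C * l) ≤ M.s S.J := by
    refine le_of_mul_le_mul_left ?_ (show 0 < 2 * S.C ^ 2 by positivity)
    have : S.C ^ 3 * l ≤ S.C ^ 4 * l := by gcongr; norm_num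
    linarith
  have e2 : ((n : ℝ) + 1) * (S.C * S.v) ≤ 3 * (S.C * l) := by
    have := mul_le_mul_of_nonneg_left (show n * S.v + S.v ≤ 3 * l by linarith) C0.le
    linarith
  have Cl : l ≤ S.C * l := le_mul_of_one_le_left lp.le C1
  have nJ : n + 1 ≤ S.J := by
    by_contra e
    have e3 : (S.J : ℝ) ≤ n + 1 := by exact_mod_cast (not_le.1 e).le
    have := (h.s_bds le_rfl).2.trans (mul_le_mul_of_nonneg_right e3 (by positivity))
    linarith
  have e4 := (h.s_tel (i := S.J - 1 - n) (j := S.J) (by omega) le_rfl).2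
  rw [show (S.J : ℝ) - ((S.J - 1 - n : ℕ) : ℝ) = n + 1 by
    rw [Nat.sub_sub, Nat.cast_sub (by omega)]; push_cast; ring] at e4
  have e5 : S.jl < S.J - 1 - n := h.sm.reflect_lt (by linarith [N.jl, N.l0l])
  have n0 : 0 < n := Nat.cast_pos.1 (pos_of_mul_pos_left (p0.trans_le n1) v0.le)
  have := Pl57.lo_slope h (f := M.del m a) (K := S.C) (l := S.C * q) (kb := S.J - 1 - n)
    (k := S.J - 1) C0.le (h.i1.trans e5.le) n0 (by omega) (by omega) (fun y _ y1 => by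
      have a1 := rb_mono (M := M) (a := a) X.lg.m0 y.le_succ
      have a2 := dq_le h y.le_succ (by have := h.i3; omega)
      have a3 := (h.ss y (by omega)).2
      unfold Md.del
      linarith) (fun y hy => by
      obtain ⟨y0, y1⟩ := mem_Ioc.1 hy
      have := h.sm y0.le
      exact mem_union_left _ (mem_sb.2 ⟨⟨by omega, by omega⟩, by unfold T0; linarith,
        h.s_le_C (by have := h.i3; omega)⟩)) two_ne_zero hE (by positivity) (by
      calc Pt = q ^ 2 * q := by rw [← p3]; ring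
        _ ≤ 2 * S.C * q ^ 2 * (n * S.v) := by gcongr; nlinarith [sq_nonneg q]
        _ = _ := by field_simp)
  linarith [mul_le_mul_of_nonneg_left n2 C0.le]

/-- **location on the plateau** -/
theorem loc_pl {k : ℕ} (hk : k ∈ pl S M (u1 / 4)) :
    |M.del m a k| ≤ 10 * S.C * tau S M Λ₁ Pt Vt k := by
  have h := X.cl
  have C1 := h.C1
  obtain ⟨⟨k0, k1⟩, -⟩ := mem_pl.1 hk
  have i2 := h.i2
  have P0 := X.Pt0 N
  have hE := X.top N L
  have lo := X.lo_J N L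
  have ls0 : 0 < ls S M k := Pl57.ls_pos h N.u0.1 k0 k1
  have du0 : 0 < du M k := sub_pos.2 (Pl57.x_lt h k0 k1)
  have x0 := Pl57.x_ge h k0
  have dl0 : 0 < dl S M k := by unfold dl; linarith [N.u0.1]
  have rm := rb_mono (M := M) (a := a) X.lg.m0
  have dm : ∀ i j, S.J ≤ i → i ≤ j → j ≤ S.Jp → M.del m a i ≤ M.del m a j := fun i j b c d => by
    rw [Md.del, Md.del, q_pl N b (c.trans d), q_pl N (b.trans c) d]
    exact sub_le_sub_right (rm c) _
  have v1 : 0 ≤ Vt + Λ₁ * ls S M k := add_nonneg N.Vt0 (mul_nonneg (by linarith [N.L1.1]) ls0.le)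
  have u1 : M.del m a k ≤ 2 * √(Pt / du M k) :=
    Pl57.persist h.leg.zm (a := k - 1) (b := S.Jp) (by omega)
      (fun y hy => mem_union_right _ (by simp only [mem_Ioc, mem_Icc] at *; omega)) two_ne_zero hE du0
      (by rw [h.top _ le_rfl]; unfold du at *; linarith) (sqrt_nonneg _)
      (by rw [sq_sqrt (by positivity), div_mul_cancel₀ _ du0.ne'])
      fun y b c => (dm k y k0 (by omega) c).trans (le_abs_self _)
  have u2 : M.del m a k ≤ 2 * min (√(Pt / du M k)) (Vt + Λ₁ * ls S M k) := by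
    rw [mul_min_of_nonneg _ _ zero_le_two]
    exact le_min u1 (by linarith [L.up k hk])
  have m0 : 0 ≤ min (√(Pt / du M k)) (Vt + Λ₁ * ls S M k) := le_min (sqrt_nonneg _) v1
  have p3 : (Pt ^ ((1 : ℝ) / 3)) ^ 3 = Pt := by
    rw [← rpow_natCast, ← rpow_mul P0.le]; norm_num
  have p0 : 0 < Pt ^ ((1 : ℝ) / 3) := by positivity
  unfold tau
  generalize Pt ^ ((1 : ℝ) / 3) = q at *
  have uq : S.u0 ≤ q := le_of_pow_le_pow_left₀ three_ne_zero p0.le (N.u0.2.trans p3.ge)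
  have r0 := sqrt_nonneg (Pt / (dl S M k + q))
  have l1 : -M.del m a k ≤ 10 * S.C * √(Pt / (dl S M k + q)) := by
    rcases le_total (3 * q) (dl S M k) with e | e
    · refine le_trans (Pl57.persist h.leg.zm (a := S.J - 1) (b := k - 1) (W := dl S M k + q) (by omega)
        (fun y hy => mem_union_right _ (by simp only [mem_Ioc, mem_Icc] at *; omega)) two_ne_zero hE
        (by positivity) (by unfold dl at *; linarith) r0
        (by rw [sq_sqrt (by positivity), div_mul_cancel₀ _ (by positivity)])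
        fun y b c => (neg_le_neg (dm y k (by omega) (by omega) k1.le)).trans (neg_le_abs _)) ?_
      gcongr
      linarith
    · have e1 : q / 2 ≤ √(Pt / (dl S M k + q)) := le_sqrt_of_sq_le (by
        rw [le_div_iff₀ (by positivity), ← p3]
        nlinarith [mul_le_mul_of_nonneg_left e (sq_nonneg q)])
      have ql : q ≤ l := le_of_pow_le_pow_left₀ three_ne_zero (X.lp N).le
        (p3.le.trans (N.PtΦ.trans N.l3.ge))
      have vq : S.v ≤ q := N.Ptw.2.trans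
        (p3.ge.trans (pow_le_of_le_one p0.le (ql.trans (X.l1 N)) (by norm_num)))
      have a1 := rm (show S.J - 1 ≤ k by omega)
      have a2 := dq_le h (Nat.sub_le S.J 1) h.i3
      have a3 := (h.ss (S.J - 1) (by omega)).2
      rw [show S.J - 1 + 1 = S.J by omega] at a3
      rw [Md.del] at lo
      rw [Md.del, q_pl N k0 k1.le]
      linarith [mul_le_mul_of_nonneg_left e1 h.C0.le, mul_le_mul_of_nonneg_left vq h.C0.le]
  have C0 := h.C0
  refine abs_le.2 ⟨?_, ?_⟩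
  · nlinarith [mul_nonneg C0.le m0, mul_nonneg C0.le ls0.le]
  · nlinarith [mul_nonneg C0.le r0, mul_nonneg C0.le ls0.le, le_mul_of_one_le_left m0 C1]

variable (K : MK S M p Λ m a l Φ P l0 Λ₀ Pt u1 V4 G) (Λ1 : 1 ≤ Λ)
include K Λ1

theorem pkb {t : ℝ} (t0 : l0 ≤ t) (t1 : t ≤ T0 S M) :
    ∑ k ∈ sb S M t (2 * t), M.dz m a k * M.pf m a k ≤
      116 * S.C ^ 7 * Λ * S.w3 t * max t l / t := by
  have h := X.cl
  have C0 := h.C0
  have C1 := h.C1
  have tp := (X.l00 N).trans_le t0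
  have lp := X.lp N
  have N0 := h.N0
  have F1 := h.F1
  have ms := h.ms_pos tp.le
  have w0 : 0 ≤ S.w3 t := by unfold Sc.w3; positivity
  have m1 := le_max_left t l
  have m2 := le_max_right t l
  have hz : ∀ k ∈ sb S M t (2 * t), 1 ≤ 2 * S.C ^ 2 / t * M.z k := fun k hk => by
    obtain ⟨⟨k0, k1⟩, k2, -⟩ := mem_sb.1 hk
    have a1 := (h.z_tel h.i1 k0.le k1).1
    have a2 := (h.s_tel k0.le k1.le).2
    have a3 : S.C ^ 2 * (((k : ℝ) - S.jl) * (S.v / S.C)) = (k - S.jl) * (S.C * S.v) := by field_simp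
    have a4 := mul_le_mul_of_nonneg_left a1 (sq_nonneg S.C)
    have a5 := mul_nonneg (sq_nonneg S.C) (h.z_pos S.jl).le
    rw [div_mul_eq_mul_div, le_div_iff₀ tp]
    linarith [N.jl]
  have a1 := (vv_sum X.lg (by positivity) hz).trans
    (mul_le_mul_of_nonneg_left (K.a0 t t0 t1) (by positivity))
  have a2 : ∑ k ∈ sb S M t (2 * t), M.dz m a k * tcM M m a k ≤
      16 * S.C ^ 6 * S.w3 t / t * (7 * S.C * max t l) := by
    refine (sum_le_sum (g := fun k => 16 * S.C ^ 6 * S.w3 t / t *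
      (M.rb m a (k + 1) - M.rb m a k)) fun k hk => ?_).trans ?_
    · obtain ⟨⟨k0, k1⟩, k2, -⟩ := mem_sb.1 hk
      have b1 := X.tcy k0.le (k1.trans_le h.i3) (hz k hk) (w := t * S.w3 t) (by
        have := h.msm k2
        calc _ ≤ S.F / (S.n * S.ms t) := by gcongr
          _ = _ := by unfold Sc.w3; field_simp)
      have b2 := (h.zs (k - 1) (by have := h.i1; omega) (by omega)).2
      rw [show k - 1 + 1 = k by omega, ← dz_up (m := m) (a := a) h.leg (by omega)] at b2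
      calc _ ≤ S.C * S.v * tcM M m a k := mul_le_mul_of_nonneg_right b2 (tcM_nn k)
        _ ≤ S.C * _ := (mul_assoc _ _ _).trans_le (mul_le_mul_of_nonneg_left b1 C0.le)
        _ = _ := by field_simp; ring
    rw [← mul_sum]
    refine mul_le_mul_of_nonneg_left (rise (rb_mono X.lg.m0) (rb_nonneg X.lg.m0 0) (by positivity)
      fun k hk => ?_) (by positivity)
    obtain ⟨⟨k0, k1⟩, -, k2⟩ := mem_sb.1 hk
    have b1 := (abs_le.1 (sup_del h X.lg.m0 (by linarith [N.jl, N.l0l, h.s_nn S.jl]) (X.vl N) N.flat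
      (L.tot.trans N.l3.ge) (k := k + 1) (by omega) k1)).2
    have b2 := h.q_le_s (k := k + 1) (Nat.succ_le_of_lt (k1.trans h.J_lt))
    have b3 := (h.ss k k1).2
    have b4 := mul_le_mul_of_nonneg_left ((X.vl N).trans m2) C0.le
    have b5 := mul_le_mul_of_nonneg_left m2 C0.le
    have b6 := le_mul_of_one_le_left (tp.le.trans m1) C1
    rw [Md.del] at b1
    linarith
  rw [pf_sum]
  have p0 : 0 ≤ S.w3 t * max t l / t := by positivity
  have c1 : S.C ^ 7 ≤ S.C ^ 7 * Λ := le_mul_of_one_le_right (by positivity) Λ1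
  have c2 : S.C ^ 2 * Λ ≤ S.C ^ 7 * Λ := by gcongr; norm_num
  calc _ ≤ (112 * S.C ^ 7 + 4 * (S.C ^ 2 * Λ)) * (S.w3 t * max t l / t) :=
        (add_le_add a2 (mul_le_mul_of_nonneg_left a1 zero_le_two)).trans_eq (by ring)
    _ ≤ 116 * (S.C ^ 7 * Λ) * (S.w3 t * max t l / t) := by gcongr ?_ * _; linarith
    _ = _ := by ring

theorem pkc : ∑ k ∈ tz S M u1, M.dz m a k * M.pf m a k ≤
    2 ^ 33 * S.C ^ 16 * Λ * Λ₀ * S.w3 1 := by
  have h := X.cl
  have C0 := h.C0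
  have C1 := h.C1
  have N0 := h.N0
  have F1 := h.F1
  have ms := h.ms_pos zero_le_one
  have w0 : 0 ≤ S.w3 1 := by unfold Sc.w3; positivity
  have L1 : 1 ≤ Λ₀ := N.L1.1.trans N.L1.2.1
  have sJ := X.sJ N
  have hs : ∀ k ∈ tz S M u1, 1 ≤ 32 * S.C ^ 2 * M.s k ∧ S.jl ≤ k ∧ k < S.Jp := fun k hk => by
    rcases mem_union.1 hk with e | e
    · obtain ⟨⟨k0, k1⟩, k2, -⟩ := mem_sb.1 e
      have := mul_le_mul_of_nonneg_left k2 (sq_nonneg S.C)
      exact ⟨by unfold T0 at this; linarith, k0.le, k1.trans_le h.i3⟩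
    · obtain ⟨⟨k0, k1⟩, -⟩ := mem_pl.1 e
      have := mul_le_mul_of_nonneg_left (h.sm k0) (sq_nonneg S.C)
      have := mul_nonneg (sq_nonneg S.C) (h.s_nn k)
      exact ⟨by linarith, h.jl_lt.le.trans k0, k1⟩
  have hz : ∀ k ∈ tz S M u1, 1 ≤ 64 * S.C ^ 3 * M.z k := fun k hk => by
    rcases lt_or_ge k S.J with e | e
    · have a1 := (h.z_s (h.i1.trans (hs k hk).2.1) e).1
      rw [sub_le_iff_le_add, div_le_iff₀ C0] at a1
      have a2 := mul_le_mul_of_nonneg_left a1 (sq_nonneg S.C)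
      have a3 := mul_le_mul_of_nonneg_left (X.vl N) (pow_pos C0 4).le
      linarith [(hs k hk).1, X.lC N]
    · have a1 := h.atom.1.trans (h.leg.zm ((Nat.sub_le _ _).trans e))
      rw [div_le_iff₀' C0] at a1
      have a2 : S.C * M.z k ≤ S.C ^ 3 * M.z k :=
        mul_le_mul_of_nonneg_right (le_self_pow₀ C1 (by norm_num)) (h.z_pos k).le
      linarith
  have ht : ∀ k ∈ tz S M u1, S.C * S.v * tcM M m a k ≤
      2 ^ 26 * S.C ^ 12 * S.w3 1 * (M.rb m a (k + 1) - M.rb m a k) := fun k hk => by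
    obtain ⟨k0, k1, k2⟩ := hs k hk
    have b1 := X.tcy k1 k2 (hz k hk) (w := 4096 * S.C ^ 4 * S.w3 1) (by
      have m0 := h.ms_pos (h.s_nn k)
      have e := (h.msm k0).trans (h.ms_mul (h.s_nn k) (k := 32 * S.C ^ 2)
        (by linarith [one_le_pow₀ (n := 2) C1]))
      rw [Sc.w3, ← mul_div_assoc, div_le_div_iff₀ (by positivity) (by positivity)]
      calc _ = S.F * S.n * S.ms 1 := by ring
        _ ≤ S.F * S.n * (4 * (32 * S.C ^ 2) ^ 2 * S.ms (M.s k)) := by gcongr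
        _ = _ := by ring)
    exact (mul_assoc _ _ _).trans_le ((mul_le_mul_of_nonneg_left b1 C0.le).trans_eq (by ring))
  have a1 := (vv_sum X.lg (by positivity) hz).trans (mul_le_mul_of_nonneg_left K.c0 (by positivity))
  have a2 : ∑ k ∈ sb S M (T0 S M) S.C, M.dz m a k * tcM M m a k ≤
      2 ^ 26 * S.C ^ 12 * S.w3 1 * 1 := by
    refine (sum_le_sum (g := fun k => 2 ^ 26 * S.C ^ 12 * S.w3 1 *
      (M.rb m a (k + 1) - M.rb m a k)) fun k hk => ?_).trans ?_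
    · obtain ⟨⟨k0, k1⟩, -⟩ := mem_sb.1 hk
      have b2 := (h.zs (k - 1) (by have := h.i1; omega) (by omega)).2
      rw [show k - 1 + 1 = k by omega, ← dz_up (m := m) (a := a) h.leg (by omega)] at b2
      exact (mul_le_mul_of_nonneg_right b2 (tcM_nn k)).trans (ht k (mem_union_left _ hk))
    rw [← mul_sum]
    exact mul_le_mul_of_nonneg_left (rise (rb_mono X.lg.m0) (rb_nonneg X.lg.m0 0) zero_le_one
      fun k _ => rb_le_one X.lg.m0 _) (by positivity)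
  have a3 : ∑ k ∈ pl S M u1, M.dz m a k * tcM M m a k ≤
      2 ^ 26 * S.C ^ 12 * S.w3 1 * (8 * S.C ^ 3 * (10 * S.C * Λ₀)) := by
    refine (sum_le_sum (g := fun k => 2 ^ 26 * S.C ^ 12 * S.w3 1 *
      ((M.rb m a (k + 1) - M.rb m a k) / S.den (M.z (k - 1)))) fun k hk => ?_).trans ?_
    · obtain ⟨⟨k0, k1⟩, -⟩ := mem_pl.1 hk
      have b2 := (h.plat k k0 k1).2
      rw [← dz_up (m := m) (a := a) h.leg (by have := h.i2; omega)] at b2
      rw [← mul_div_assoc, le_div_iff₀ (h.den0 _), mul_right_comm]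
      exact (mul_le_mul_of_nonneg_right b2 (tcM_nn k)).trans (ht k (mem_union_right _ hk))
    rw [← mul_sum]
    refine mul_le_mul_of_nonneg_left (X.shell N (rb_mono X.lg.m0) (c := M.q S.J) (by positivity)
      fun k hk => ?_) (by positivity)
    have e := (X.loc_pl N L hk).trans (mul_le_mul_of_nonneg_left (N.cap k hk) (by positivity))
    rw [Md.del, q_pl N (mem_pl.1 hk).1.1 (mem_pl.1 hk).1.2.le] at e
    exact e.trans_eq (by ring)
  have a4 := (sum_union_le (U := sb S M (T0 S M) S.C) fun k _ =>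
    mul_nonneg (X.lg.dz_nonneg k) (tcM_nn (M := M) (m := m) (a := a) k)).trans (add_le_add a2 a3)
  rw [pf_sum]
  have c1 : S.C ^ 12 * S.w3 1 ≤ S.C ^ 16 * (Λ * Λ₀ * S.w3 1) := by
    gcongr
    exacts [by norm_num, le_mul_of_one_le_left w0 (one_le_mul_of_one_le_of_one_le Λ1 L1)]
  have c2 : S.C ^ 16 * (Λ₀ * S.w3 1) ≤ S.C ^ 16 * (Λ * Λ₀ * S.w3 1) := by
    gcongr
    exact le_mul_of_one_le_left (by linarith) Λ1
  have c3 : S.C ^ 3 * (Λ * Λ₀ * S.w3 1) ≤ S.C ^ 16 * (Λ * Λ₀ * S.w3 1) := by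
    gcongr
    norm_num
  have c4 : 0 ≤ S.C ^ 16 * (Λ * Λ₀ * S.w3 1) := by positivity
  unfold tz at *
  linarith

/-- **pair fluctuations** -/
theorem pk {Λ' : ℝ} (e : 2 ^ 33 * S.C ^ 16 * Λ ≤ Λ') : PK S M Λ' m a l l0 Λ₀ u1 := by
  have h := X.cl
  have C1 := h.C1
  have N0 := h.N0
  have F1 := h.F1
  have L1 : 1 ≤ Λ₀ := N.L1.1.trans N.L1.2.1
  refine ⟨fun t t0 t1 => (X.pkb N L K Λ1 t0 t1).trans ?_, (X.pkc N L K Λ1).trans ?_⟩
  · have tp := (X.l00 N).trans_le t0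
    have ms := h.ms_pos tp.le
    have w0 : 0 ≤ S.w3 t := by unfold Sc.w3; positivity
    have : 116 * S.C ^ 7 * Λ ≤ 2 ^ 33 * S.C ^ 16 * Λ := by gcongr <;> norm_num [C1]
    gcongr
    linarith
  · have ms := h.ms_pos zero_le_one
    have w0 : 0 ≤ S.w3 1 := by unfold Sc.w3; positivity
    gcongr

end Hy

end Pk6

theorem pkS_of (H : MomS) : PKS := by
  refine (H 4 le_rfl).glue fun C => ⟨0, fun A _ ε η hε hη => ⟨ε, min ε (η / 2), 2 ^ 33 * C ^ 16, hε,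
    by positivity, fun S M m a R h I g l Φ P l0 Λ₀ Λ₁ Pt Vt u1 V4 N L => ?_⟩⟩
  obtain ⟨-, G, K⟩ := g l Φ P l0 Λ₀ Λ₁ Pt Vt u1 V4 N L
  have e := R.K_le
  rw [← R.hC] at e
  have C1 := h.C1
  have N1 := R.N1.le
  have e1 := rpow_le_rpow_of_exponent_le N1 (min_le_left ε (η / 2))
  have e2 := rpow_le_rpow_of_exponent_le N1 (min_le_right ε (η / 2))
  have X : Pk6.Hy S M m a ((S.n : ℝ) ^ ε) := ⟨h, I, le_trans (mul_le_mul_of_nonneg_left
    (le_self_pow₀ N1 (by have := R.A2; have := R.hA; omega)) h.v0.le) h.v2, R.θ1 h,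
    le_trans (by gcongr <;> norm_num [C1]) (e.trans e1)⟩
  refine X.pk N L K R.Λ1 ?_
  calc _ ≤ (S.n : ℝ) ^ (η / 2) * (S.n : ℝ) ^ (η / 2) := mul_le_mul (e.trans e2) e2 (R.rp0 _).le (R.rp0 _).le
    _ = _ := by rw [← rpow_add R.N0, add_halves]

end Crest.Agent.T156.Alt.R62

end
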