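import Crest.Agent.T156.R1PE_60
import Crest.Agent.T156.R1LwA_76
import Crest.Agent.T156.R1PD_60
import Crest.Agent.T156.ErrSA_4

-- ▼ part T156/R1Jw_60
section

/-!
# Row 156 (helper60): the size of `J` on the frame, read on a window
-/

set_option autoImplicit false
set_option linter.unusedSectionVars false

noncomputable section

namespace Crest.Agent.T156.Alt.P60

open Real Finset
open Crest.Agent.T156.Cas Crest.Agent.T156.Cas.C40 Crest.Agent.T156.Alt.CIn12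
open Crest.Agent.T156.Alt.Md67
open Crest.Agent.T156.Alt.Alg77 Crest.Agent.T156.Alt.R77 Crest.Agent.T156.Alt.R62
open Crest.Agent.T156.Alt.R82 Crest.Agent.T156.Cas.C40.R1L

/-- the test density of a window -/
def wf (c μ1 μ2 : ℝ) (n k : ℕ) : ℝ :=
  c * ((if k ∈ Ioc (3 * n) (4 * n) then μ1 else 0) - if k ∈ Ioc n (2 * n) then μ2 else 0)

theorem wf_out (c μ1 μ2 : ℝ) {n k : ℕ} (h : k ∉ Ioc n (4 * n)) : wf c μ1 μ2 n k = 0 := by
  rw [mem_Ioc] at h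
  rw [wf, if_neg (by rw [mem_Ioc]; omega), if_neg (by rw [mem_Ioc]; omega), sub_zero, mul_zero]

theorem wf_abs {c μ1 μ2 : ℝ} (hc : 0 ≤ c) (h1 : 0 ≤ μ1) (h2 : 0 ≤ μ2) (n k : ℕ) :
    |wf c μ1 μ2 n k| ≤ c * (μ1 + μ2) := by
  rw [wf, abs_mul, abs_of_nonneg hc]
  refine mul_le_mul_of_nonneg_left (abs_le.2 ⟨?_, ?_⟩) hc <;> split_ifs <;> linarith

theorem wf_sum (c μ1 μ2 : ℝ) {n : ℕ} {T : Finset ℕ} (hT : Ioc n (4 * n) ⊆ T) (d g : ℕ → ℝ) :
    ∑ k ∈ T, d k * (wf c μ1 μ2 n k * g k) = c * (μ1 * ∑ k ∈ Ioc (3 * n) (4 * n), d k * g k -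
      μ2 * ∑ k ∈ Ioc n (2 * n), d k * g k) := by
  have a1 : Ioc (3 * n) (4 * n) ⊆ T := (Ioc_subset_Ioc (by omega) le_rfl).trans hT
  have a2 : Ioc n (2 * n) ⊆ T := (Ioc_subset_Ioc le_rfl (by omega)).trans hT
  rw [← inter_eq_right.2 a1, ← sum_ite_mem, ← inter_eq_right.2 a2, ← sum_ite_mem, mul_sum, mul_sum,
    ← sum_sub_distrib, mul_sum]
  refine sum_congr rfl fun k _ => ?_
  rw [wf]
  split_ifs <;> ring

theorem sum_sh (F : ℕ → ℝ) (a b : ℕ) :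
    ∑ j ∈ Icc (a + 1) (b + 1), F j = ∑ k ∈ Icc a b, F (k + 1) :=
  (sum_Ico_add' F a (b + 1) 1).symm

/-- more numbers -/
structure Xt (E : ℝ) (p : Pm) : Prop where
  κ0 : 0 < p.κ
  v0 : 0 < p.v
  vn : p.v ≤ 1 / p.n
  nr : 1 / p.n ≤ p.r ^ 3
  ye : E ^ 8 * p.ye ≤ 1
  β : p.β ^ 2 ≤ E

/-- a window -/
structure Wi (E : ℝ) (p : Pm) (P : Pl) (t a a' Q : ℝ) (m : ℕ) (S : Sc) (l Λ₀ x d : ℝ) (n : ℕ) :
    Prop where
  xt : Xt E p
  hx : x ∈ Set.Icc a a'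
  nm : p.n ≤ m
  ms : MS E d p t S (p.gst P t) m x l Λ₀
  co : ∀ k, p.jf < k → k ≤ p.Jp P →
    |1 - (D0 p P t m x).τ (k + 1) * R1J.G (D0 p P t m x).S (k + 1)| ≤
      E * max ((p.gst P t).s k) p.r ^ 2 ∧
    (D0 p P t m x).gq (k + 1) ≤ |(p.gst P t).G k| + E * ((p.gst P t).s k * p.r ^ 2 + 1 / p.n)
  jn : p.jf < n
  ln : E ^ 10 * l ≤ n * p.v
  ny : n * p.v < 2 * p.ye

variable {E t a a' Q l Φ l0 Λ₀ Pt u1 V4 x d : ℝ} {p : Pm} {P : Pl} {m I n : ℕ} {S : Sc}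
  {Pf : ℝ → ℝ}

theorem lt (F : SD56.Fr E p P t a a' Q m S l Φ Pf l0 Λ₀ Pt u1 V4 I) (hx : x ∈ Set.Icc a a')
    (f : ℕ → ℝ) (V : CIn12.Ev) {K : ℝ} (hK : p.β ^ 2 ≤ K) :
    Lw76.Lt (cdf (p.gst P t) m x (p.gst P t).q (p.jf + 1) f V) K where
  ook := (rf_cq (rf_q F.cl) _).ook F.fx.leg
  mono := (F.fx.lg hx.1 hx.2).monoL
  cut := F.fx.cut.tw.cut
  top := F.fx.cut.tw.top
  tau := by
    rw [cd_K, cd_tau m x _ _ V le_rfl]
    exact (F.fx.tp_le _).2.trans hK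

theorem bs (F : SD56.Fr E p P t a a' Q m S l Φ Pf l0 Λ₀ Pt u1 V4 I) (hx : x ∈ Set.Icc a a')
    (f : ℕ → ℝ) (V : CIn12.Ev) {K : ℝ} (hK : p.β ^ 2 ≤ K) :
    Bs (cdf (p.gst P t) m x (p.gst P t).q (p.jf + 1) f V) K :=
  have h := lt F hx f V hK
  ⟨h.ook, h.mono, h.top, h.tau_mem⟩

/-- the density of the window `n` -/
def wd (p : Pm) (M : Md) (t : ℝ) (n : ℕ) : ℕ → ℝ :=
  wf (p.lamG t (n * p.v) / (M.z (2 * n) - M.z n + (M.z (4 * n) - M.z (3 * n))))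
    (M.z (2 * n) - M.z n) (M.z (4 * n) - M.z (3 * n)) n

namespace Wi

variable (F : SD56.Fr E p P t a a' Q m S l Φ Pf l0 Λ₀ Pt u1 V4 I)
  (A : Wi E p P t a a' Q m S l Λ₀ x d n)
include F A

theorem pw {i j : ℕ} (h : i ≤ j) : E ^ i ≤ E ^ j := pow_le_pow_right₀ F.E1' h

theorem lX : l ≤ n * p.v :=
  (le_mul_of_one_le_left F.l0'.le (one_le_pow₀ F.E1')).trans A.ln

theorem X0 : 0 < n * p.v := F.l0'.trans_le (A.lX F)

theorem rX : p.r ≤ n * p.v := (F.nr.r0.trans F.nr.l0l).trans (A.lX F)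

theorem X1 : E ^ 8 * (n * p.v) ≤ 2 := by
  have := mul_le_mul_of_nonneg_left A.ny.le (pow_pos F.E0 8).le
  linarith [A.xt.ye]

theorem X2 {c : ℝ} {i : ℕ} (c1 : c ≤ 500) (hi : i ≤ 7) : c * E ^ i * (n * p.v) ≤ 1 := by
  have a1 := A.X1 F
  have a2 := A.X0 F
  have a3 : c * E ^ i ≤ E ^ 8 / 2 := by
    have := A.pw F hi
    have := pow_pos F.E0 i
    have := F.E1
    rw [pow_succ E 7]
    nlinarith
  nlinarith

theorem s_le {k : ℕ} (hk : k ≤ 4 * n) (hJ : k ≤ S.J) : (p.gst P t).s k ≤ 4 * E * (n * p.v) := by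
  have a1 := (F.cl.s_bds hJ).2
  have a2 : (k : ℝ) ≤ 4 * n := by exact_mod_cast hk
  have := A.xt.v0
  have := F.cl.C0
  rw [F.sc.v] at a1
  exact a1.trans ((mul_le_mul a2 (mul_le_mul_of_nonneg_right F.sc.C (by positivity))
    (by positivity) (by positivity)).trans_eq (by ring))

theorem yT : 4 * E * (n * p.v) ≤ T0 S (p.gst P t) := by
  have a1 := F.T0_ge
  have a2 := A.X2 F (c := 192) (i := 5) (by norm_num) (by norm_num)
  exact le_of_mul_le_mul_left (by linarith) (show 0 < 48 * E ^ 4 by have := F.E0; positivity)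

theorem nJ : 4 * n < S.J := by
  by_contra h
  have a1 := A.s_le F (not_lt.1 h) le_rfl
  have a2 := A.yT F
  have a3 := mul_pos F.E0 (A.X0 F)
  rw [T0] at a2
  linarith

theorem s4 {k : ℕ} (hk : k ≤ 4 * n) : (p.gst P t).s k ≤ 4 * E * (n * p.v) :=
  A.s_le F hk (hk.trans (A.nJ F).le)

theorem kN {k : ℕ} (hk : k ≤ 4 * n) : k < (p.gst P t).N :=
  (hk.trans_lt (A.nJ F)).trans F.cl.J_lt

theorem kJ {k : ℕ} (hk : k ≤ 4 * n) : k ≤ p.Jp P :=
  F.sc.Jp ▸ (hk.trans (A.nJ F).le).trans F.cl.i3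

theorem G0 {k : ℕ} (h : p.jf < k) (hk : k ≤ 4 * n) : (p.gst P t).G k = 0 := by
  obtain ⟨G, K⟩ := F.bk x A.hx
  refine K.glo k (F.sc.jl ▸ h) ((A.s4 F hk).trans ?_)
  rw [le_div_iff₀ F.E0]
  linarith [A.X2 F (c := 4) (i := 2) (by norm_num) (by norm_num)]

theorem sig (f : ℕ → ℝ) {k : ℕ} (h : p.jf < k) (hk : k ≤ 4 * n) :
    (p.gst P t).s k - E * p.r ^ 3 ≤
      (cdf (p.gst P t) m x (p.gst P t).q (p.jf + 1) f E0).sig (k + 1) ∧
    (cdf (p.gst P t) m x (p.gst P t).q (p.jf + 1) f E0).sig (k + 1) ≤ (p.gst P t).s k := by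
  have a1 := sig_sub (m := m) F.cl (p.gst P t).q k
  have a2 := F.cl.d_ge k
  have a3 := ((F.cl.d_le (A.kN F hk).le).trans F.cl.b1).trans F.sc.C
  have a4 : (p.n : ℝ) ≤ m + 1 := by exact_mod_cast A.nm.trans (Nat.le_succ m)
  have a5 : (p.gst P t).d k / (m + 1) * (p.gst P t).q k ≤ E * p.r ^ 3 :=
    calc _ ≤ E / p.n * 1 := mul_le_mul (div_le_div₀ F.E0.le a3 F.n0 a4) (q_le_one k) (q_nonneg k)
          (div_nonneg F.E0.le F.n0.le)
      _ ≤ _ := by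
        rw [mul_one, div_eq_mul_one_div]
        exact mul_le_mul_of_nonneg_left A.xt.nr F.E0.le
  have a6 : 0 ≤ (p.gst P t).d k / (m + 1) * (p.gst P t).q k :=
    mul_nonneg (div_nonneg (by linarith) (by positivity)) (q_nonneg k)
  rw [cd_sig m _ _ _ (F.fx.lg A.hx.1 A.hx.2).toLeg h (A.kN F hk)]
  rw [A.G0 F h hk, sub_self, mul_zero] at a1
  constructor <;> linarith

theorem vr : E * p.v ≤ E * p.r ^ 3 := mul_le_mul_of_nonneg_left (A.xt.vn.trans A.xt.nr) F.E0.le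

theorem Cv : S.C * S.v ≤ E * p.r ^ 3 :=
  (mul_le_mul_of_nonneg_right F.sc.C F.cl.v0.le).trans (F.sc.v ▸ A.vr F)

theorem dz {k : ℕ} (h : p.jf < k) (hk : k ≤ 4 * n) : (p.gst P t).dz m x k ≤ E * p.r ^ 3 := by
  obtain ⟨k, rfl⟩ : ∃ j, k = j + 1 := ⟨k - 1, by omega⟩
  rw [dz_succ F.fx.leg]
  exact (F.cl.zs k (by rw [F.sc.j0]; omega) (hk.trans_lt (A.nJ F))).2.trans (A.Cv F)

theorem rg : 5 * (E * p.r ^ 3) ≤ 5 * E ^ 2 * (n * p.v) * p.r ^ 2 := by
  have := F.r0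
  have := F.E0
  calc _ = 5 * (E * 1) * p.r * p.r ^ 2 := by ring
    _ ≤ 5 * (E * E) * (n * p.v) * p.r ^ 2 := by gcongr; exacts [F.E1', A.rX F]
    _ = _ := by ring

theorem tel {i j : ℕ} (hi : n ≤ i) (e : j = i + n) (hj : j ≤ 4 * n) :
    n * p.v / E ≤ (p.gst P t).z j - (p.gst P t).z i ∧
      n * p.v / E ≤ (p.gst P t).s j - (p.gst P t).s i := by
  have a0 : n * p.v / E ≤ ((j : ℝ) - i) * (S.v / S.C) := by
    rw [e, F.sc.v]
    push_cast
    rw [add_sub_cancel_left, ← mul_div_assoc]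
    exact div_le_div_of_nonneg_left (A.X0 F).le F.cl.C0 F.sc.C
  exact ⟨a0.trans (F.cl.z_tel (by rw [F.sc.j0]; have := A.jn; omega) (by omega)
    (hj.trans_lt (A.nJ F))).1, a0.trans (F.cl.s_tel (by omega) (hj.trans (A.nJ F).le)).1⟩

theorem z4 : (p.gst P t).z (4 * n) + (p.gst P t).s (4 * n) ≤ 5 * E ^ 2 * (n * p.v) := by
  have a1 := (F.cl.z_s (k := 4 * n) (by rw [F.sc.j0]; have := A.jn; omega) (A.nJ F)).2
  have a2 := A.s4 F le_rfl
  have a3 : S.v ≤ n * p.v := by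
    rw [F.sc.v]
    exact le_mul_of_one_le_left A.xt.v0.le (by have := A.jn; exact_mod_cast (by omega : 1 ≤ n))
  have X0 := A.X0 F
  have a4 := mul_le_mul F.sc.C (show (p.gst P t).s (4 * n) + 2 * S.v ≤ 4 * E * (n * p.v) +
    2 * (n * p.v) by linarith) (by linarith [F.cl.s_nn (4 * n), F.cl.v0]) F.E0.le
  nlinarith [mul_nonneg (mul_nonneg (sub_nonneg.2 F.E1) F.E0.le) X0.le, mul_pos F.E0 X0]

theorem lam0 : 0 < p.lamG t (n * p.v) :=
  have h := lt_min (A.X0 F) F.fx.y0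
  mul_pos A.xt.κ0 (lt_min h (mul_pos F.fx.t0 (sqrt_pos.2 h)))

theorem u0 : 0 < n * p.v / E := div_pos (A.X0 F) F.E0

theorem m1 : n * p.v / E ≤ (p.gst P t).z (2 * n) - (p.gst P t).z n :=
  (A.tel F le_rfl (by ring) (by omega)).1

theorem m2 : n * p.v / E ≤ (p.gst P t).z (4 * n) - (p.gst P t).z (3 * n) :=
  (A.tel F (by omega) (by ring) le_rfl).1

theorem wd_abs (k : ℕ) : |wd p (p.gst P t) t n k| ≤ p.lamG t (n * p.v) := by
  have a1 := (A.u0 F).trans_le (A.m1 F)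
  have a2 := (A.u0 F).trans_le (A.m2 F)
  exact (wf_abs (div_pos (A.lam0 F) (add_pos a1 a2)).le a1.le a2.le n k).trans_eq
    (div_mul_cancel₀ _ (add_pos a1 a2).ne')

theorem den : Den p t 1 (wd p (p.gst P t) t n) := by
  have v0 := A.xt.v0
  refine ⟨fun k => ?_, fun k h => wf_out _ _ _ fun e => ?_⟩
  · have a0 := lamG_nn A.xt.κ0.le F.fx.y0.le F.fx.t0.le (show 0 ≤ k * p.v by positivity)
    by_cases e : k ∈ Ioc n (4 * n)
    · have a1 : (n : ℝ) ≤ k := by exact_mod_cast (mem_Ioc.1 e).1.le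
      linarith [A.wd_abs F k, Pm.lamG_mono A.xt.κ0.le F.fx.t0.le
        (mul_le_mul_of_nonneg_right a1 v0.le)]
    · rw [wd, wf_out _ _ _ e, abs_zero]
      linarith
  · have a1 : (k : ℝ) ≤ 4 * n := by exact_mod_cast (mem_Ioc.1 e).2
    linarith [mul_le_mul_of_nonneg_right a1 v0.le, A.ny]

theorem sub : Ioc n (4 * n) ⊆ Ico (p.jf + 1) (p.gst P t).N := fun k hk => by
  have := A.jn
  have := mem_Ioc.1 hk
  exact mem_Ico.2 ⟨by omega, A.kN F this.2⟩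

theorem I_wd (g : ℕ → ℝ) :
    (cdf (p.gst P t) m x (p.gst P t).q (p.jf + 1) (wd p (p.gst P t) t n) E0).I
      (fun j => fc (p.jf + 1) (wd p (p.gst P t) t n) j * g j) =
    p.lamG t (n * p.v) / ((p.gst P t).z (2 * n) - (p.gst P t).z n +
      ((p.gst P t).z (4 * n) - (p.gst P t).z (3 * n))) *
    (((p.gst P t).z (2 * n) - (p.gst P t).z n) *
      ∑ k ∈ Ioc (3 * n) (4 * n), (p.gst P t).dz m x k * g (k + 1) -
    ((p.gst P t).z (4 * n) - (p.gst P t).z (3 * n)) *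
      ∑ k ∈ Ioc n (2 * n), (p.gst P t).dz m x k * g (k + 1)) := by
  rw [cd_I, ← wf_sum _ _ _ (A.sub F)]
  exact sum_congr rfl fun k hk => by rw [fc_succ (mem_Ico.1 hk).1]; rfl

theorem dz0 (k : ℕ) : 0 ≤ (p.gst P t).dz m x k := (F.fx.lg A.hx.1 A.hx.2).dz_nonneg k

theorem gap : p.lamG t (n * p.v) * (5 * E ^ 2 * (n * p.v)) * (5 * E ^ 2 * (n * p.v)) ≤
    E ^ 7 * (cdf (p.gst P t) m x (p.gst P t).q (p.jf + 1) (wd p (p.gst P t) t n) E0).I fun j =>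
      fc (p.jf + 1) (wd p (p.gst P t) t n) j *
        (cdf (p.gst P t) m x (p.gst P t).q (p.jf + 1) (wd p (p.gst P t) t n) E0).sig j := by
  have jn := A.jn
  have b1 := A.m1 F
  have b2 := A.m2 F
  have b3 := (A.tel F (i := 2 * n) (j := 3 * n) (by omega) (by ring) (by omega)).2
  have u0 := A.u0 F
  have l0 := A.lam0 F
  have E0' := F.E0
  have X0 := A.X0 F
  have c1 := sum_le_sum (s := Ioc n (2 * n)) fun k hk => mul_le_mul_of_nonneg_left
    ((A.sig F (wd p (p.gst P t) t n) (k := k) (by have := mem_Ioc.1 hk; omega)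
      (by have := mem_Ioc.1 hk; omega)).2.trans (F.cl.sm (mem_Ioc.1 hk).2)) (A.dz0 F k)
  have c2 := sum_le_sum (s := Ioc (3 * n) (4 * n)) fun k hk => mul_le_mul_of_nonneg_left
    ((sub_le_sub_right (F.cl.sm (mem_Ioc.1 hk).1.le) _).trans
      (A.sig F (wd p (p.gst P t) t n) (k := k) (by have := mem_Ioc.1 hk; omega)
        (mem_Ioc.1 hk).2).1) (A.dz0 F k)
  rw [← sum_mul, sum_dz F.fx.leg (by omega)] at c1 c2
  have c3 : E * p.r ^ 3 ≤ n * p.v / E / 2 := by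
    have r1 := F.ry.trans F.y1
    have r0 := F.r0
    have : p.r ^ 3 ≤ l := (pow_le_of_le_one r0.le r1 (by norm_num)).trans
      (F.nr.r0.trans F.nr.l0l)
    rw [div_div, le_div_iff₀ (by positivity)]
    calc E * p.r ^ 3 * (E * 2) ≤ E * l * (E * E ^ 8) := by
          gcongr
          · exact (mul_pos E0' F.l0').le
          · exact (show (2 : ℝ) ≤ E by linarith [F.E1]).trans
              (le_self_pow₀ (n := 8) F.E1' (by norm_num))
      _ = E ^ 10 * l := by ring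
      _ ≤ _ := A.ln
  rw [A.I_wd F]
  generalize (p.gst P t).z (2 * n) - (p.gst P t).z n = μ1 at *
  generalize (p.gst P t).z (4 * n) - (p.gst P t).z (3 * n) = μ2 at *
  have h1 := u0.trans_le b1
  have h2 := u0.trans_le b2
  have c4 : n * p.v / E / 2 * (μ1 + μ2) ≤ μ1 * μ2 := by
    nlinarith [mul_nonneg h1.le (sub_nonneg.2 b2), mul_nonneg h2.le (sub_nonneg.2 b1)]
  have c5 := add_le_add (mul_le_mul_of_nonneg_left c2 h1.le)
    (neg_le_neg (mul_le_mul_of_nonneg_left c1 h2.le))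
  have c6 := mul_le_mul_of_nonneg_left (show n * p.v / E / 2 ≤ (p.gst P t).s (3 * n) -
    E * p.r ^ 3 - (p.gst P t).s (2 * n) by linarith) (mul_pos h1 h2).le
  have c7 := mul_le_mul_of_nonneg_right c4 (half_pos u0).le
  refine le_trans ?_ (mul_le_mul_of_nonneg_left (mul_le_mul_of_nonneg_left
    (show n * p.v / E / 2 * (μ1 + μ2) * (n * p.v / E / 2) ≤ _ by linarith) (by positivity))
    (by positivity))
  calc _ = 100 * E ^ 6 * (p.lamG t (n * p.v) * (n * p.v / E / 2) ^ 2) := by field_simp; ring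
    _ ≤ E * E ^ 6 * (p.lamG t (n * p.v) * (n * p.v / E / 2) ^ 2) := by
        gcongr; linarith [F.E1]
    _ = _ := by field_simp

theorem p0 : 0 < 5 * E ^ 2 * (n * p.v) := by have := F.E0; have := A.X0 F; positivity

theorem lp : E * l ≤ 5 * E ^ 2 * (n * p.v) := by
  have := mul_le_mul_of_nonneg_left (A.lX F) F.E0.le
  nlinarith [mul_nonneg (sub_nonneg.2 F.E1') (mul_pos F.E0 (A.X0 F)).le, mul_pos F.E0 (A.X0 F)]

theorem yp : 4 * E * (n * p.v) ≤ 5 * E ^ 2 * (n * p.v) := by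
  nlinarith [mul_nonneg (sub_nonneg.2 F.E1') (mul_pos F.E0 (A.X0 F)).le, mul_pos F.E0 (A.X0 F)]

theorem ly : l ≤ 4 * E * (n * p.v) := by
  nlinarith [mul_nonneg (sub_nonneg.2 F.E1') (A.X0 F).le, A.lX F, A.X0 F]

theorem cum0 (y : ℝ) : 0 ≤ cum S (p.gst P t) m x y :=
  sum_nonneg fun k _ => mul_nonneg (A.dz0 F k) (abs_nonneg _)

theorem cum_le : E ^ 12 * cum S (p.gst P t) m x (4 * E * (n * p.v)) ≤ (n * p.v) ^ 2 := by
  have E0' := F.E0
  have X0 := A.X0 F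
  have l0 := F.l0'
  refine (pow_le_pow_iff_left₀ (mul_nonneg (by positivity) (A.cum0 F _)) (by positivity)
    two_ne_zero).1 ?_
  calc _ = E ^ 24 * cum S (p.gst P t) m x (4 * E * (n * p.v)) ^ 2 := by ring
    _ ≤ E ^ 24 * (E ^ 4 * (4 * E * (n * p.v) * l ^ 3)) :=
        mul_le_mul_of_nonneg_left (A.ms.Gb _ (A.ly F)) (by positivity)
    _ ≤ E ^ 24 * (E ^ 4 * (E * E * (n * p.v) * l ^ 3)) := by gcongr; linarith [F.E1]
    _ = n * p.v * (E ^ 10 * l) ^ 3 := by ring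
    _ ≤ n * p.v * (n * p.v) ^ 3 :=
        mul_le_mul_of_nonneg_left (pow_le_pow_left₀ (by positivity) A.ln 3) X0.le
    _ = _ := by ring

theorem low : |(cdf (p.gst P t) m x (p.gst P t).q (p.jf + 1) (wd p (p.gst P t) t n) E0).yh +
    (cdf (p.gst P t) m x (p.gst P t).q (p.jf + 1) (wd p (p.gst P t) t n) E0).y2 +
    (cdf (p.gst P t) m x (p.gst P t).q (p.jf + 1) (wd p (p.gst P t) t n) E0).y3 +
    (cdf (p.gst P t) m x (p.gst P t).q (p.jf + 1) (wd p (p.gst P t) t n) E0).y4 +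
    (cdf (p.gst P t) m x (p.gst P t).q (p.jf + 1) (wd p (p.gst P t) t n) E0).mx| ≤
    p.lamG t (n * p.v) * (5 * E ^ 2 * (n * p.v)) * (E ^ 16 * l ^ 3) := by
  have h := lt F A.hx (wd p (p.gst P t) t n) E0 A.xt.β
  have E0' := F.E0
  have l0 := A.lam0 F
  have a1 := h.low_crude rfl
  have a2 : Lw76.Sa (cdf (p.gst P t) m x (p.gst P t).q (p.jf + 1) (wd p (p.gst P t) t n) E0) 2 =
      S0 (p.gst P t) m x := by
    rw [Lw76.Sa, F.fx.cut.sum_low]
    simp only [sq_abs]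
    rfl
  have a3 : (cdf (p.gst P t) m x (p.gst P t).q (p.jf + 1) (wd p (p.gst P t) t n) E0).wt ≤
      p.lamG t (n * p.v) * (5 * E ^ 2 * (n * p.v)) := by
    rw [CD.wt, F.fx.cut.tw.dd, cd_Iw, ← sum_subset (A.sub F) fun k _ hk => by
      simp only [omP, wd, wf_out _ _ _ hk, mul_zero, abs_zero, zero_mul]]
    refine (sum_le_sum (g := fun k => p.lamG t (n * p.v) * (p.gst P t).dz m x k)
      fun k hk => ?_).trans ?_
    · simp only [omP]
      rw [mul_one, abs_mul, dz_free F.fx.leg m x (by have := mem_Ioc.1 hk; omega),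
        abs_of_nonneg (A.dz0 F k), mul_comm]
      exact mul_le_mul_of_nonneg_right (A.wd_abs F k) (A.dz0 F k)
    · rw [← mul_sum, sum_dz F.fx.leg (by omega)]
      gcongr
      linarith [A.z4 F, F.cl.z_pos n, F.cl.s_nn (4 * n)]
  have a4 : 3000000 * (1 + E) ^ 4 ≤ E ^ 7 := by
    calc _ ≤ 3000000 * (2 * E) ^ 4 := by gcongr; linarith [F.E1]
      _ = 48000000 * E ^ 4 := by ring
      _ ≤ 1000 ^ 3 * E ^ 4 := by gcongr; norm_num
      _ ≤ E ^ 3 * E ^ 4 := by gcongr; exact F.E1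
      _ = _ := by ring
  have a5 := h.Sa0 2
  have a6 := A.p0 F
  rw [F.fx.cut.yh_eq, zero_add]
  refine le_trans ?_ (a1.trans ((mul_le_mul a4 (mul_le_mul a3 (a2.trans_le A.ms.s0) a5
    (by positivity)) (mul_nonneg (CD.wt0 _) a5) (by positivity)).trans_eq (by ring)))
  exact (abs_add_le _ _).trans (add_le_add_left (abs_add_three _ _ _) _)

/-- **the window** -/
theorem wj : WJ (cdf (p.gst P t) m x (p.gst P t).q (p.jf + 1) (wd p (p.gst P t) t n) E0)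
    (fc (p.jf + 1) (wd p (p.gst P t) t n)) (4 * n + 1) (E ^ 7)
    (p.lamG t (n * p.v) * (5 * E ^ 2 * (n * p.v))) (5 * E ^ 2 * (n * p.v))
    (cum S (p.gst P t) m x (4 * E * (n * p.v)))
    (∑ k ∈ Ioo S.jl (p.gst P t).N, (p.gst P t).dz m x k * |(p.gst P t).del m x k|)
    (E ^ 16 * l ^ 3) (5 * E ^ 2 * (n * p.v) * p.r ^ 2) := by
  have jn := A.jn
  have E0' := F.E0
  have l0 := F.l0'
  have r0 := F.r0
  have X0 := A.X0 F
  have p0 := A.p0 F
  have rg := A.rg F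
  have r3 : 0 ≤ E * p.r ^ 3 := by positivity
  have ix : ∀ j, p.jf + 1 < j → j ≤ 4 * n + 1 → ∃ k, j = k + 1 ∧ p.jf < k ∧ k ≤ 4 * n :=
    fun j h1 h2 => ⟨j - 1, by omega, by omega, by omega⟩
  have eI : ∀ i, (cdf (p.gst P t) m x (p.gst P t).q (p.jf + 1) (wd p (p.gst P t) t n) E0).I
      ((cdf (p.gst P t) m x (p.gst P t).q (p.jf + 1) (wd p (p.gst P t) t n) E0).u i) =
      ∑ k ∈ Ioo S.jl (p.gst P t).N, (p.gst P t).dz m x k *
        (p.gst P t).E2 m x (fun R => |R - (p.gst P t).q k| ^ i) k := fun i => by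
    rw [cd_I, ← F.up_eq]
    exact sum_congr rfl fun k hk => by rw [cd_u _ _ _ _ _ _ (mem_Ico.1 hk).1 (mem_Ico.1 hk).2]
  have e2 : E ^ 2 * l ^ 3 ≤ E ^ 16 * l ^ 3 :=
    mul_le_mul_of_nonneg_right (A.pw F (by norm_num)) (by positivity)
  refine ⟨F.fx.cut.tw, mem_Ioo.2 ⟨show p.jf + 1 < _ by omega, ?_⟩, one_le_pow₀ F.E1',
    mul_pos (A.lam0 F) p0, p0, A.X2 F (by norm_num) (by norm_num), fun j hj => ?_, fun j => ?_, ?_,
    A.gap F, ?_, fun j h1 h2 => ?_, fun j h1 h2 => ?_, ?_, ?_, ?_, ?_,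
    A.ms.N2.trans (A.lp F), (eI 2).trans_le (A.ms.u2.trans e2), (eI 3).trans_le (A.ms.u3.trans e2),
    ?_, fun j h1 h2 => ?_, fun j h1 h2 => ?_, A.low F⟩
  · rw [cd_K]; exact Nat.succ_lt_succ (A.kN F le_rfl)
  · rw [fc, if_neg (by omega)]
    exact wf_out _ _ _ (by rw [mem_Ioc]; omega)
  · rw [mul_comm]
    refine mul_le_mul_of_nonneg_right ?_ p0.le
    unfold fc
    split_ifs
    exacts [abs_zero.trans_le (A.lam0 F).le, A.wd_abs F _]
  · have := A.I_wd F fun _ => 1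
    simp only [mul_one] at this
    rw [this, sum_dz F.fx.leg (by omega), sum_dz F.fx.leg (by omega)]
    ring
  · exact (add_le_add (ex_succ F.fx.leg _).le
      (A.sig F (wd p (p.gst P t) t n) (k := 4 * n) (by omega) le_rfl).2).trans (A.z4 F)
  · obtain ⟨k, rfl, k1, k2⟩ := ix j h1 h2.le
    rw [cd_dx, cd_dx]
    linarith [(A.sig F (wd p (p.gst P t) t n) k1 k2).1, A.dz F k1 k2, A.Cv F,
      (A.sig F (wd p (p.gst P t) t n) (k := k + 1) (by omega) (by omega)).2,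
      A.dz F (k := k + 1) (by omega) (by omega), (F.cl.ss k (k2.trans_lt (A.nJ F))).2]
  · obtain ⟨k, rfl, k1, k2⟩ := ix j h1 h2
    rw [cd_dx]
    linarith [A.dz F k1 k2]
  · rw [cd_J, sum_sh]
    refine (sum_congr rfl fun k hk => ?_).trans_le (sum_le_sum_of_subset_of_nonneg
      (fun k hk => ?_) fun k _ _ => mul_nonneg (A.dz0 F k) (abs_nonneg _))
    · rw [cd_dx, cd_del _ _ _ _ _ (mem_Icc.1 hk).1 (A.kN F (mem_Icc.1 hk).2)]; rfl
    · exact mem_filter.2 ⟨mem_Ioo.2 ⟨F.sc.jl ▸ (mem_Icc.1 hk).1,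
        (mem_Icc.1 hk).2.trans_lt (A.nJ F)⟩, A.s4 F (mem_Icc.1 hk).2⟩
  · have := mul_le_mul_of_nonneg_left (A.cum_le F) (show 0 ≤ 2 * E ^ 2 by positivity)
    have := mul_le_mul_of_nonneg_right (A.pw F (show 2 ≤ 4 by norm_num)) (sq_nonneg (n * p.v))
    have := mul_pos (pow_pos E0' 4) (pow_pos X0 2)
    linarith
  · exact mul_le_of_le_one_right p0.le (pow_le_one₀ r0.le (F.ry.trans F.y1))
  · rw [cd_I, ← F.up_eq]
    exact (sum_congr rfl fun k hk => by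
      rw [cd_del _ _ _ _ _ (mem_Ico.1 hk).1 (mem_Ico.1 hk).2]; rfl).le
  · rw [cd_J, sum_sh]
    refine (sum_congr rfl fun k hk => ?_).trans_le ((sum_le_sum_of_subset_of_nonneg
      (fun k hk => ?_) fun k _ _ => mul_nonneg (A.dz0 F k) ?_).trans (A.ms.u3'.trans ?_))
    · rw [cd_dx, cd_u _ _ _ _ _ _ (mem_Icc.1 hk).1 (A.kN F (mem_Icc.1 hk).2)]
    · exact mem_Ioo.2 ⟨F.sc.jl ▸ (mem_Icc.1 hk).1, (mem_Icc.1 hk).2.trans_lt (A.nJ F)⟩
    · exact Crest.Agent.T157.Casc.pi2_nonneg wt_one90 _ _ (fun _ _ => by positivity) _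
    · calc E ^ 3 * l ^ 4 = E * l * (E ^ 2 * l ^ 3) := by ring
        _ ≤ _ := mul_le_mul (A.lp F) e2 (by positivity) p0.le
  · obtain ⟨k, rfl, k1, k2⟩ := ix j h1 h2
    refine (A.co k k1 (A.kJ F k2)).1.trans (mul_le_mul (le_self_pow₀ F.E1' (by norm_num))
      (pow_le_pow_left₀ (r0.le.trans (le_max_right _ _)) (max_le ((A.s4 F k2).trans (A.yp F))
        ((F.nr.r0.trans F.nr.l0l).trans ((A.ly F).trans (A.yp F)))) 2) (sq_nonneg _)
      (by positivity))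
  · obtain ⟨k, rfl, k1, k2⟩ := ix j h1 h2
    have a1 := (A.co k k1 (A.kJ F k2)).2
    rw [A.G0 F k1 k2, abs_zero, zero_add, CD.gq] at a1
    refine a1.trans ?_
    have := mul_le_mul_of_nonneg_left (add_le_add (mul_le_mul_of_nonneg_right (A.s4 F k2)
      (sq_nonneg p.r)) A.xt.nr) E0'.le
    linarith

/-- the size of the remainder -/
theorem rho (hd : d = (1 / E ^ 200) ^ 2 * n4 p) {y : ℝ} (h1 : l ≤ y) (h2 : y ≤ E * (n * p.v))
    (h3 : n * p.v ≤ 2 * E ^ 10 * y) {ρ : ℝ}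
    (hρ : ρ = cum S (p.gst P t) m x (4 * E * (n * p.v)) + p.r ^ 2 +
      E ^ 16 * l ^ 3 / (5 * E ^ 2 * (n * p.v)) + 5 * E ^ 2 * (n * p.v) *
        ∑ k ∈ Ioo S.jl (p.gst P t).N, (p.gst P t).dz m x k * |(p.gst P t).del m x k|) :
    0 ≤ ρ ∧ S.ms y * ρ ^ 2 ≤ E ^ 37 * d * y ^ 2 ∧ ρ ≤ E ^ 22 * y ^ 2 := by
  have E0' := F.E0
  have E1 := F.E1
  have l0 := F.l0'
  have r0 := F.r0
  have X0 := A.X0 F
  have p0 := A.p0 F
  have y0 := l0.trans_le h1
  have m0 := F.cl.ms_pos y0.le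
  have d0 : 0 ≤ d := by have := F.n40; rw [hd]; positivity
  have y4 : y ≤ 4 * E * (n * p.v) := by linarith [mul_pos E0' X0]
  have yp := y4.trans (A.yp F)
  have yT := y4.trans (A.yT F)
  have rl := F.nr.r0.trans F.nr.l0l
  have γ0 := A.cum0 F (4 * E * (n * p.v))
  have N0 : 0 ≤ ∑ k ∈ Ioo S.jl (p.gst P t).N, (p.gst P t).dz m x k * |(p.gst P t).del m x k| :=
    sum_nonneg fun k _ => mul_nonneg (A.dz0 F k) (abs_nonneg _)
  have a1 := A.cum_le F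
  have a2 := A.ms.Ga _ (A.ly F) (A.yT F)
  have a3 := A.ms.N1
  have a4 := A.ms.N2
  generalize cum S (p.gst P t) m x (4 * E * (n * p.v)) = γ at *
  generalize ∑ k ∈ Ioo S.jl (p.gst P t).N, (p.gst P t).dz m x k * |(p.gst P t).del m x k| = N at *
  have up : ∀ {c : ℝ} {i j : ℕ} {z : ℝ}, c ≤ 1000 → i < j → 0 ≤ z → c * E ^ i * z ≤ E ^ j * z :=
    fun {c i j z} hc hi hz => mul_le_mul_of_nonneg_right
      ((mul_le_mul_of_nonneg_right (hc.trans E1) (by positivity)).trans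
        ((pow_succ' E i).symm.trans_le (A.pw F hi))) hz
  have dy : 0 ≤ d * y ^ 2 := by positivity
  have b1 : γ ≤ E ^ 21 * y ^ 2 :=
    calc γ ≤ E ^ 12 * γ := le_mul_of_one_le_left γ0 (one_le_pow₀ F.E1')
      _ ≤ (2 * E ^ 10 * y) ^ 2 := a1.trans (pow_le_pow_left₀ X0.le h3 2)
      _ = 4 * E ^ 20 * y ^ 2 := by ring
      _ ≤ _ := up (by norm_num) (by norm_num) (sq_nonneg _)
  have b2 : p.r ^ 2 ≤ E ^ 21 * y ^ 2 := (pow_le_pow_left₀ r0.le (rl.trans h1) 2).trans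
    (le_mul_of_one_le_left (sq_nonneg _) (one_le_pow₀ F.E1'))
  have b3 : E ^ 16 * l ^ 3 / (5 * E ^ 2 * (n * p.v)) ≤ E ^ 16 * l ^ 3 / y :=
    div_le_div_of_nonneg_left (by positivity) y0 yp
  have b4 : E ^ 16 * l ^ 3 / y ≤ E ^ 21 * y ^ 2 := by
    rw [div_le_iff₀ y0, mul_assoc, ← pow_succ]
    gcongr
    exacts [F.E1', by norm_num]
  have b5 : 5 * E ^ 2 * (n * p.v) ≤ 10 * E ^ 12 * y :=
    (mul_le_mul_of_nonneg_left h3 (by positivity)).trans_eq (by ring)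
  have b6 : 5 * E ^ 2 * (n * p.v) * N ≤ E ^ 21 * y ^ 2 :=
    calc _ ≤ 10 * E ^ 12 * y * (E * y) := mul_le_mul b5 (a4.trans (by gcongr)) N0 (by positivity)
      _ = 10 * E ^ 13 * y ^ 2 := by ring
      _ ≤ _ := up (by norm_num) (by norm_num) (sq_nonneg _)
  have c1 : S.ms y * γ ^ 2 ≤ E ^ 35 * (d * y ^ 2) :=
    calc _ ≤ E ^ 10 * d * (4 * E * (2 * E ^ 10 * y)) ^ 2 :=
          ((mul_le_mul_of_nonneg_right (F.cl.msm y4) (sq_nonneg _)).trans a2).trans (by gcongr)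
      _ = 64 * E ^ 32 * (d * y ^ 2) := by ring
      _ ≤ _ := up (by norm_num) (by norm_num) dy
  have c2 : S.ms y * (p.r ^ 2) ^ 2 ≤ E ^ 35 * (d * y ^ 2) := by
    have := F.nr.f y (F.nr.l0l.trans h1) yT
    rw [max_eq_left h1, div_le_iff₀ (by positivity), ← hd] at this
    refine le_trans (le_of_mul_le_mul_right ?_ y0) (le_mul_of_one_le_left dy (one_le_pow₀ F.E1'))
    linarith
  have c3 : S.ms y * (E ^ 16 * l ^ 3 / (5 * E ^ 2 * (n * p.v))) ^ 2 ≤ E ^ 35 * (d * y ^ 2) := by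
    have e1 := F.nr.b l F.nr.l0l (h1.trans yT)
    have e2 := F.cl.ms_mul l0.le ((one_le_div l0).2 h1)
    rw [F.nr.Plo l le_rfl, ← F.nr.l3, max_self, div_le_iff₀ (by positivity), ← hd] at e1
    rw [div_mul_cancel₀ _ l0.ne'] at e2
    have e3 : S.ms l * l ^ 2 ≤ d := le_of_mul_le_mul_right (by linarith) (pow_pos l0 4)
    calc _ ≤ 4 * (y / l) ^ 2 * S.ms l * (E ^ 16 * l ^ 3 / y) ^ 2 :=
          mul_le_mul e2 (pow_le_pow_left₀ (by positivity) b3 2) (sq_nonneg _) (m0.le.trans e2)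
      _ = 4 * E ^ 32 * (S.ms l * l ^ 2 * l ^ 2) := by field_simp
      _ ≤ 4 * E ^ 32 * (d * y ^ 2) := by gcongr
      _ ≤ _ := up (by norm_num) (by norm_num) dy
  have c4 : S.ms y * (5 * E ^ 2 * (n * p.v) * N) ^ 2 ≤ E ^ 35 * (d * y ^ 2) := by
    have e1 : S.ms y * N ^ 2 ≤ E ^ 10 * d := le_trans (mul_le_mul_of_nonneg_right
      ((F.cl.ms1 y).trans (le_mul_of_one_le_right F.θ0.le F.nr.L1)) (sq_nonneg _)) a3
    calc _ = (5 * E ^ 2 * (n * p.v)) ^ 2 * (S.ms y * N ^ 2) := by ring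
      _ ≤ (10 * E ^ 12 * y) ^ 2 * (E ^ 10 * d) := by gcongr
      _ = 100 * E ^ 34 * (d * y ^ 2) := by ring
      _ ≤ _ := up (by norm_num) (by norm_num) dy
  have q0 : 0 ≤ E ^ 16 * l ^ 3 / (5 * E ^ 2 * (n * p.v)) := by positivity
  have q1 : 0 ≤ 5 * E ^ 2 * (n * p.v) * N := by positivity
  generalize E ^ 16 * l ^ 3 / (5 * E ^ 2 * (n * p.v)) = u at *
  generalize 5 * E ^ 2 * (n * p.v) * N = w at *
  refine ⟨by rw [hρ]; positivity, ?_, ?_⟩
  · have e1 : ρ ^ 2 ≤ 4 * (γ ^ 2 + (p.r ^ 2) ^ 2 + u ^ 2 + w ^ 2) := by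
      rw [hρ]
      nlinarith [sq_nonneg (γ - p.r ^ 2), sq_nonneg (γ - u), sq_nonneg (γ - w),
        sq_nonneg (p.r ^ 2 - u), sq_nonneg (p.r ^ 2 - w), sq_nonneg (u - w)]
    linarith [mul_le_mul_of_nonneg_left e1 m0.le, up (c := 16) (i := 35) (j := 37) (by norm_num)
      (by norm_num) dy]
  · linarith [up (c := 4) (i := 21) (j := 22) (by norm_num) (by norm_num) (sq_nonneg y)]

end Wi

theorem xt_of {β c0 C0 c η K : ℝ} {A : ℕ} (H : Reg β c0 C0 A c η K p) (h : 3 * η ≤ c) :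
    Xt ((p.n : ℝ) ^ η) p := by
  have A2 : (2 : ℝ) ≤ A := by exact_mod_cast H.A2
  have n0 := one_div_pos.2 H.N0
  have e : logb p.n (1 / (p.n : ℝ)) = -1 := by rw [one_div, logb_inv, H.lg_n]
  refine ⟨H.κ0, H.v0, H.le_of_lg H.v0 n0 ?_, H.le_of_lg n0 (pow_pos H.r0 3) ?_,
    H.le_of_lg (mul_pos (pow_pos H.Λ0 8) H.ye0) one_pos ?_, H.hβ ▸ H.β_le⟩
  · linarith [H.lg_v_le, H.η_le, H.c_le]
  · rw [logb_pow, H.lg_r]
    push_cast
    linarith [H.lg_s.1, H.c_pos]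
  · rw [logb_mul (pow_pos H.Λ0 8).ne' H.ye0.ne', logb_pow, H.lg_rp, H.lg_ye, logb_one]
    push_cast
    linarith [H.η_pos]

/-- **the density times `J`** -/
theorem jwG_of {β : ℝ} (hβ : 1 < β) (hC : Sml β Co) (hR : Gain β RsG) (hM : Sml β MsG) :
    Sml β JwG := by
  obtain ⟨C, c1, hJ⟩ := jwin
  have k1 := (hR.mono fun _ p _ _ H (_ : 0 ≤ p.s) => H).sml 42 mo_RsG
  refine Sml.glue' hβ ((hC.and k1).and hM) 2 one_pos 3 fun c0 C0 A c η _ _ _ _ =>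
    ⟨C, fun p H _ _ hη ⟨⟨co, rs⟩, ms⟩ σ σ' P t a a' Q m X S l Φ Pf l0 Λ₀ Pt u1 V4 I F x hx k
      k1 k2 => ?_⟩
  have xt := xt_of H (by exact_mod_cast hη)
  have CE := H.K_le
  have s0 := H.s0.le
  have B0 := Bud_nonneg s0 X.Q0
  generalize (p.n : ℝ) ^ η = E at *
  have E0' := F.E0
  have E1 := F.E1
  have l0' := F.l0'
  have v0 := xt.v0
  have m0 : (0 : ℝ) < m := Nat.cast_pos.2 F.fx.m0
  have hx' : x ∈ Set.Icc a a' := by
    rcases hx with rfl | rfl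
    exacts [⟨le_rfl, F.fx.aa⟩, ⟨F.fx.aa, le_rfl⟩]
  have y0 : 0 < max ((p.gst P t).s k) l := l0'.trans_le (le_max_right _ _)
  have n4' := F.n40
  by_cases hs : sv p t k = 0
  · refine ⟨0, le_rfl, fun _ => rfl, by rw [sq (0 : ℝ), mul_zero, mul_zero]; positivity,
      by positivity, ?_⟩
    rw [hs, abs_zero, mul_zero, zero_mul, mul_zero, add_zero]
    split_ifs
    exacts [by positivity, le_rfl]
  have kJ : k < p.J := by
    by_contra h
    exact hs (by rw [F.fx.sv_eq, if_neg h])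
  have ky : k * p.v < 2 * p.ye := not_le.1 fun h => hs (F.fx.sv_hi h)
  have sk := F.cl.s_bds (F.sc.J ▸ kJ.le)
  have C0 := F.cl.C0
  have k0 : (0 : ℝ) ≤ k * p.v := by positivity
  rw [F.sc.v] at sk
  have s1 : k * p.v ≤ E * (p.gst P t).s k := by
    have := sk.1
    rw [← mul_div_assoc, div_le_iff₀ C0, mul_comm _ S.C] at this
    exact this.trans (mul_le_mul_of_nonneg_right F.sc.C (F.cl.s_nn k))
  have s2 : (p.gst P t).s k ≤ E * (k * p.v) :=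
    sk.2.trans ((mul_left_comm _ _ _).trans_le (mul_le_mul_of_nonneg_right F.sc.C k0))
  obtain ⟨n, kn, ln, nu⟩ : ∃ n : ℕ, k ≤ n ∧ E ^ 10 * l ≤ n * p.v ∧
      (n = k ∨ n * p.v ≤ 2 * E ^ 10 * l) := by
    have a1 := (div_le_iff₀ v0).1 (Nat.le_ceil (E ^ 10 * l / p.v))
    have a2 := (Nat.ceil_lt_add_one (show 0 ≤ E ^ 10 * l / p.v by positivity)).le
    rw [div_add_one v0.ne', le_div_iff₀ v0] at a2
    have a3 : p.v ≤ E ^ 10 * l := (H.v_le_r.trans (F.nr.r0.trans F.nr.l0l)).trans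
      (le_mul_of_one_le_left l0'.le (one_le_pow₀ F.E1'))
    rcases le_total k ⌈E ^ 10 * l / p.v⌉₊ with h | h
    · exact ⟨_, h, a1, .inr (by linarith)⟩
    · exact ⟨k, le_rfl, a1.trans (by gcongr), .inl rfl⟩
  have kn' : k * p.v ≤ n * p.v := by gcongr
  have W : Wi E p P t a a' Q m S l Λ₀ x _ n := ⟨xt, hx', X.m1,
    ms σ σ' P t a a' Q m X S l Φ Pf l0 Λ₀ Pt u1 V4 I F x hx',
    co.2.2.2.2.2 σ σ' P t a a' Q m X x hx', k1.trans_le kn, ln, by
      rcases nu with rfl | h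
      · exact ky
      · have a1 := mul_le_mul_of_nonneg_left F.nr.ly (show 0 ≤ E ^ 10 by positivity)
        have a2 : E ^ 10 * (1 / E ^ 200 * p.ye) < p.ye := by
          rw [← mul_assoc, mul_one_div]
          exact mul_lt_of_lt_one_left F.fx.y0 ((div_lt_one (by positivity)).2
            (pow_lt_pow_right₀ (by linarith) (by norm_num)))
        linarith⟩
  have X0 := W.X0 F
  have y1 : max ((p.gst P t).s k) l ≤ E * (n * p.v) :=
    max_le (s2.trans (by gcongr)) ((W.lX F).trans (le_mul_of_one_le_left X0.le F.E1'))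
  have y2 : n * p.v ≤ 2 * E ^ 10 * max ((p.gst P t).s k) l := by
    rcases nu with rfl | h
    · refine s1.trans (mul_le_mul ?_ (le_max_left _ _) (F.cl.s_nn _) (by positivity))
      linarith [le_self_pow₀ F.E1' (show 10 ≠ 0 by norm_num)]
    · exact h.trans (by gcongr; exact le_max_right _ _)
  obtain ⟨ρ0, ρ1, ρ2⟩ := W.rho F rfl (le_max_right _ _) y1 y2 rfl
  have j1 := hJ _ _ _ _ _ _ _ _ _ _ (bs F hx' _ E0 (xt.β.trans (le_self_pow₀ F.E1' (by norm_num))))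
    (W.wj F) (k + 1) (Nat.succ_lt_succ k1) (by omega)
  have j2 := rs s0 σ σ' P t a a' Q m X x hx _ (W.den F)
  have j3 := sv_lam F.fx xt.κ0.le v0.le k
  have j4 := Pm.lamG_mono xt.κ0.le F.fx.t0.le kn'
  have j5 := lamG_mul xt.κ0.le F.fx.y0.le F.fx.t0.le (F.cl.s_nn k) F.E1' s1
  have j6 := lamG_nn xt.κ0.le F.fx.y0.le F.fx.t0.le (F.cl.s_nn k)
  have lam0 := W.lam0 F
  have p0 := W.p0 F
  have yp : max ((p.gst P t).s k) l ≤ 5 * E ^ 2 * (n * p.v) :=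
    (y1.trans (by linarith [mul_pos E0' X0])).trans (W.yp F)
  rw [Rs] at j2
  change _ * |R1J.J (D0 p P t m x).S (Cas.Alg77.gd (D0 p P t m x)) (k + 1)| ≤ _ at j1
  rw [if_pos kJ]
  generalize |R1J.J (D0 p P t m x).S (Cas.Alg77.gd (D0 p P t m x)) (k + 1)| = Jv at *
  generalize max ((p.gst P t).s k) l = y at *
  generalize cum S (p.gst P t) m x (4 * E * (n * p.v)) = γ at *
  generalize ∑ k ∈ Ioo S.jl (p.gst P t).N, (p.gst P t).dz m x k * |(p.gst P t).del m x k| = N at *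
  generalize 5 * E ^ 2 * (n * p.v) = u at *
  generalize p.lamG t (n * p.v) = lam at *
  have dy : 0 ≤ (1 / E ^ 200) ^ 2 * n4 p := by positivity
  refine ⟨E ^ 31 * (γ + p.r ^ 2 + E ^ 16 * l ^ 3 / u + u * N), by positivity, fun h => absurd
    ((co.2.2.2.2.1 σ σ' P t a a' Q m X x hx' k k1 k2).2.1 h.le) hs, ?_, ?_, ?_⟩
  · calc _ = E ^ 62 * (S.ms y * (γ + p.r ^ 2 + E ^ 16 * l ^ 3 / u + u * N) ^ 2) := by ring
      _ ≤ E ^ 62 * (E ^ 37 * ((1 / E ^ 200) ^ 2 * n4 p) * y ^ 2) := by gcongr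
      _ = E ^ 99 * ((1 / E ^ 200) ^ 2 * n4 p) * y ^ 2 := by ring
      _ ≤ _ := by gcongr; exacts [F.E1', by norm_num]
  · calc _ ≤ E ^ 31 * (E ^ 22 * y ^ 2) := by gcongr
      _ = E ^ 53 * y ^ 2 := by ring
      _ ≤ _ := by gcongr; exacts [F.E1', by norm_num]
  · set ρ := γ + p.r ^ 2 + E ^ 16 * l ^ 3 / u + u * N with hρ
    set ε := E⁻¹ ^ 42 * Bud p Q / m with hε
    have ε0 : 0 ≤ ε := by positivity
    have a1 : Jv ≤ E ^ 29 * (ε / (lam * u * u) + ρ) := by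
      refine le_of_mul_le_mul_left (j1.trans ?_) (show 0 < lam * u * u by positivity)
      calc _ ≤ E * (E ^ 7) ^ 4 * (ε + lam * u * (u * γ + u * p.r ^ 2 + E ^ 16 * l ^ 3 +
              u ^ 2 * N)) := by
            refine mul_le_mul (by gcongr) (add_le_add_left ((le_div_iff₀' m0).2 j2) _) ?_
              (by positivity)
            have : u * γ + u * p.r ^ 2 + E ^ 16 * l ^ 3 + u ^ 2 * N = u * ρ := by
              rw [hρ]; field_simp
            rw [this]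
            positivity
        _ = _ := by rw [hρ]; field_simp
    have t0 : 0 ≤ t * |sv p t k| := mul_nonneg F.fx.t0.le (abs_nonneg _)
    calc _ ≤ t * |sv p t k| * (E ^ 29 * (ε / (lam * u * u))) + t * |sv p t k| * (E ^ 29 * ρ) :=
          (mul_le_mul_of_nonneg_left a1 t0).trans_eq (by ring)
      _ ≤ E * lam * (E ^ 29 * (ε / (lam * y * y))) +
            E * (E * p.lamG t ((p.gst P t).s k)) * (E ^ 29 * ρ) := by
          have e4 : (4 : ℝ) ≤ E := by linarith only [E1]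
          have b1 : t * |sv p t k| ≤ E * lam :=
            j3.trans (mul_le_mul e4 j4 (lamG_nn xt.κ0.le F.fx.y0.le F.fx.t0.le k0) E0'.le)
          have b2 : t * |sv p t k| ≤ E * (E * p.lamG t ((p.gst P t).s k)) :=
            j3.trans (mul_le_mul e4 j5 (lamG_nn xt.κ0.le F.fx.y0.le F.fx.t0.le k0) E0'.le)
          have b3 : ε / (lam * u * u) ≤ ε / (lam * y * y) :=
            div_le_div_of_nonneg_left ε0 (by positivity) (by gcongr)
          exact add_le_add (mul_le_mul b1 (mul_le_mul_of_nonneg_left b3 (by positivity))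
            (by positivity) (by positivity)) (mul_le_mul_of_nonneg_right b2 (by positivity))
      _ = _ := by rw [hε]; field_simp

/-- **`PhiR`** -/
theorem phiR_of (h1 : PhSD) (h2 : PhOff) (h3 : MsS) (hT : HT) {β : ℝ} (hβ : 1 < β) (hC : Sml β Co)
    (hK : Sml β Kit) (hE : Gain β ErrG) : Gain β PhiR :=
  h1 β hβ hK (h3 β hβ) (h2 β hβ hC (h3 β hβ) (jwG_of hβ hC (rsG_of hβ hT hE) (h3 β hβ)))

end Crest.Agent.T156.Alt.P60

end
end

-- ▼ part T156/R1Po_60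
section

/-!
# Row 156 (helper60): the profile of the off-diagonal response
-/

set_option autoImplicit false
set_option linter.unusedSectionVars false

noncomputable section

namespace Crest.Agent.T156.Alt.P60

open Real Finset
open Crest.Agent.T156.Cas Crest.Agent.T156.Cas.C40 Crest.Agent.T156.Alt.CIn12
open Crest.Agent.T156.Alt.Md67
open Crest.Agent.T156.Alt.Alg77 Crest.Agent.T156.Alt.R77 Crest.Agent.T156.Alt.R62
open Crest.Agent.T156.Alt.R82 Crest.Agent.T156.Cas.C40.R1L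

/-- `∑_T dz c |del|` -/
def sd (M : Md) (m : ℕ) (x : ℝ) (T : Finset ℕ) (c : ℕ → ℝ) : ℝ :=
  ∑ k ∈ T, M.dz m x k * (c k * |M.del m x k|)

variable {E t a a' Q l Φ l0 Λ₀ Pt u1 V4 x d : ℝ} {p : Pm} {P : Pl} {m I : ℕ} {S : Sc}
  {Pf : ℝ → ℝ} (F : SD56.Fr E p P t a a' Q m S l Φ Pf l0 Λ₀ Pt u1 V4 I)
include F

theorem sd0 (hx : x ∈ Set.Icc a a') (T : Finset ℕ) {c : ℕ → ℝ} (hc : ∀ k, 0 ≤ c k) :
    0 ≤ sd (p.gst P t) m x T c := sum_nonneg fun k _ =>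
  mul_nonneg ((F.fx.lg hx.1 hx.2).dz_nonneg k) (mul_nonneg (hc k) (abs_nonneg _))

theorem sv_J {k : ℕ} (h : sv p t k ≠ 0) : k < S.J := by
  by_contra e
  exact h (by rw [F.fx.sv_eq, if_neg (F.sc.J ▸ e)])

theorem ts0 (k : ℕ) : 0 ≤ t * |sv p t k| := mul_nonneg F.fx.t0.le (abs_nonneg _)

/-- a sum against the density lives on the support of the density -/
theorem sd_le (hx : x ∈ Set.Icc a a') {T U : Finset ℕ} {g : ℕ → ℝ} (g0 : ∀ k ∈ U, 0 ≤ g k)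
    (h : ∀ k ∈ T, sv p t k ≠ 0 → k ∈ U ∧ t * |sv p t k| * |(p.gst P t).del m x k| ≤ g k) :
    sd (p.gst P t) m x T (fun k => t * |sv p t k|) ≤ ∑ k ∈ U, (p.gst P t).dz m x k * g k := by
  have z := (F.fx.lg hx.1 hx.2).dz_nonneg
  rw [sd, ← sum_filter_of_ne (p := fun k => sv p t k ≠ 0) fun k _ h e => h (by
    rw [e, abs_zero, mul_zero, zero_mul, mul_zero])]
  exact (sum_le_sum fun k hk => mul_le_mul_of_nonneg_left
    (h k (mem_filter.1 hk).1 (mem_filter.1 hk).2).2 (z k)).trans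
    (sum_le_sum_of_subset_of_nonneg (fun k hk => (h k (mem_filter.1 hk).1 (mem_filter.1 hk).2).1)
      fun k hk _ => mul_nonneg (z k) (g0 k hk))

theorem El : E * l ≤ 1 := by
  have E0 := F.E0
  refine (mul_le_mul_of_nonneg_left (F.nr.ly.trans (mul_le_of_le_one_right (by positivity) F.y1))
    E0.le).trans ?_
  rw [mul_one_div, div_le_one (by positivity)]
  exact le_self_pow₀ F.E1' (by norm_num)

theorem kv {k : ℕ} (hk : k ≤ S.J) : k * p.v ≤ E * (p.gst P t).s k := by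
  have := (F.cl.s_bds hk).1
  rw [F.sc.v, ← mul_div_assoc, div_le_iff₀ F.cl.C0, mul_comm _ S.C] at this
  exact this.trans (mul_le_mul_of_nonneg_right F.sc.C (F.cl.s_nn k))

/-- the global sums -/
theorem glob (hx : x ∈ Set.Icc a a') (ms : MS E d p t S (p.gst P t) m x l Λ₀)
    (co : ∀ k, p.jf < k → k ≤ p.Jp P → t * |sv p t k| ≤ E * mt p t ((p.gst P t).s k) ∧
      (2 * p.ye ≤ (p.gst P t).s k → sv p t k = 0)) {N A : ℝ}
    (hN : N = S.θ * sd (p.gst P t) m x (Ioo S.jl (p.gst P t).N) fun _ => 1)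
    (hA : A = sd (p.gst P t) m x (Ioo S.jl (p.gst P t).N) fun k => t * |sv p t k|) :
    0 ≤ N ∧ 0 ≤ A ∧ Λ₀ * N ^ 2 ≤ E ^ 12 * (S.θ * d) ∧ Λ₀ * A ^ 2 ≤ E ^ 12 * (S.θ * d) ∧
      N ≤ E ^ 2 * S.θ ∧ A ≤ E ^ 2 * S.θ := by
  have E0' := F.E0
  have θ0 := F.θ0
  have l0' := F.l0'
  have L0 : 0 ≤ Λ₀ := by linarith [F.nr.L1]
  have A0 := hA ▸ sd0 F hx _ (ts0 F)
  have e2 : 1 ≤ E ^ 2 := one_le_pow₀ F.E1'
  have a1 := mul_le_mul_of_nonneg_left ms.N1 θ0.le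
  have d0 : 0 ≤ E ^ 10 * (S.θ * d) := le_trans (by positivity) ms.A1
  refine ⟨hN ▸ mul_nonneg θ0.le (sd0 F hx _ fun _ => zero_le_one), A0, ?_, ?_, ?_, ?_⟩
  · simp only [hN, sd, one_mul]
    linarith [mul_le_mul_of_nonneg_right e2 d0]
  · have a2 := sd_le F hx (T := Ioo S.jl (p.gst P t).N)
      (U := (Ioo S.jl S.J).filter fun k => (p.gst P t).s k ≤ 2 * p.ye)
      (g := fun k => E * (mt p t ((p.gst P t).s k) * |(p.gst P t).del m x k|))
      (fun k _ => mul_nonneg E0'.le (mul_nonneg (div_nonneg (F.sc.ms ▸ (F.cl.ms_pos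
        (F.cl.s_nn k)).le) (F.r0.le.trans (le_max_right _ _))) (abs_nonneg _))) fun k hk h => by
        have k1 := (mem_Ioo.1 hk).1
        have k2 := sv_J F h
        have c := co k (F.sc.jl ▸ k1) (F.sc.Jp ▸ k2.le.trans F.cl.i3)
        exact ⟨mem_filter.2 ⟨mem_Ioo.2 ⟨k1, k2⟩, (not_le.1 fun e => h (c.2 e)).le⟩,
          (mul_le_mul_of_nonneg_right c.1 (abs_nonneg _)).trans_eq (mul_assoc _ _ _)⟩
    simp only [mul_left_comm _ E, ← mul_sum] at a2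
    have a3 := mul_le_mul_of_nonneg_left (pow_le_pow_left₀ A0 (hA ▸ a2) 2) L0
    linarith [mul_le_mul_of_nonneg_left ms.A1 (sq_nonneg E)]
  · simp only [hN, sd, one_mul]
    rw [mul_comm]
    exact mul_le_mul_of_nonneg_right ((ms.N2.trans (El F)).trans e2) θ0.le
  · have a2 := sd_le F hx (T := Ioo S.jl (p.gst P t).N) (U := Ioo S.jl (p.gst P t).N)
      (g := fun k => 4 * t * |sv p t k|) (fun k _ => by linarith [ts0 F k]) fun k hk h =>
        ⟨hk, by linarith [mul_le_mul_of_nonneg_left ((ms.sup k (mem_Ioo.1 hk).1 (sv_J F h)).trans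
          (show 4 * E * l ≤ 4 by linarith [El F])) (ts0 F k)]⟩
    have a3 := F.fx.n1 x E0
    rw [F.fx.I_fd x E0 fun _ y => |y|, ← F.th, ← gst_N p P t, F.up_eq] at a3
    simp only [mul_left_comm _ (4 * t), ← mul_sum] at a2
    nlinarith [mul_nonneg (sub_nonneg.2 F.E1) (mul_pos E0' θ0).le, mul_pos E0' θ0]

/-- the low sums -/
theorem low (xt : Xt E p) (hx : x ∈ Set.Icc a a') (ms : MS E d p t S (p.gst P t) m x l Λ₀) {k : ℕ}
    (hk : (p.gst P t).s k ≤ p.ye) {y γ : ℝ} (hy : y = max ((p.gst P t).s k) l)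
    (hγ : γ = cum S (p.gst P t) m x y) :
    sd (p.gst P t) m x (Ico (p.jf + 1) k) (fun k => t * |sv p t k|) ≤
      4 * E * p.lamG t ((p.gst P t).s k) * γ ∧ 0 ≤ γ ∧ S.ms y * γ ^ 2 ≤ E ^ 10 * d * y ^ 2 ∧
      γ ≤ E ^ 2 * y ^ 2 := by
  have E0' := F.E0
  have l0' := F.l0'
  have ly : l ≤ y := hy ▸ le_max_right _ _
  have y0 := l0'.trans_le ly
  have γ0 : 0 ≤ γ := hγ ▸ sum_nonneg fun k _ =>
    mul_nonneg ((F.fx.lg hx.1 hx.2).dz_nonneg k) (abs_nonneg _)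
  have la := lamG_nn xt.κ0.le F.fx.y0.le F.fx.t0.le (F.cl.s_nn k)
  refine ⟨?_, γ0, hγ ▸ ms.Ga y ly ?_, ?_⟩
  · refine (sd_le F hx (U := (Ioo S.jl S.J).filter fun j => (p.gst P t).s j ≤ y)
      (g := fun j => 4 * E * p.lamG t ((p.gst P t).s k) * |(p.gst P t).del m x j|)
      (fun j _ => by positivity) fun j hj h => ?_).trans_eq ?_
    · have j1 := F.cl.sm (mem_Ico.1 hj).2.le
      refine ⟨mem_filter.2 ⟨mem_Ioo.2 ⟨F.sc.jl ▸ (mem_Ico.1 hj).1, sv_J F h⟩,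
        j1.trans (hy ▸ le_max_left _ _)⟩, mul_le_mul_of_nonneg_right ?_ (abs_nonneg _)⟩
      linarith [sv_lam F.fx xt.κ0.le xt.v0.le j, lamG_mul xt.κ0.le F.fx.y0.le F.fx.t0.le
        (F.cl.s_nn k) F.E1' ((kv F (sv_J F h).le).trans (mul_le_mul_of_nonneg_left j1 E0'.le))]
    · rw [hγ, cum, mul_sum]
      exact sum_congr rfl fun j _ => by ring
  · have a1 : l ≤ p.ye := F.nr.ly.trans (mul_le_of_le_one_left F.fx.y0.le
      ((div_le_one (by positivity)).2 (one_le_pow₀ F.E1')))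
    refine (hy ▸ max_le hk a1 : y ≤ p.ye).trans (le_of_mul_le_mul_left ?_
      (show 0 < 48 * E ^ 4 by positivity))
    have a2 : 48 * E ^ 4 ≤ E ^ 4 * E ^ 4 := mul_le_mul_of_nonneg_right
      ((show (48 : ℝ) ≤ E by linarith [F.E1]).trans (le_self_pow₀ F.E1' (by norm_num)))
      (by positivity)
    linarith [F.T0_ge, xt.ye, mul_le_mul_of_nonneg_right a2 F.fx.y0.le]
  · refine (pow_le_pow_iff_left₀ γ0 (by positivity) two_ne_zero).1 ((hγ ▸ ms.Gb y ly).trans ?_)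
    calc E ^ 4 * (y * l ^ 3) ≤ E ^ 4 * (y * y ^ 3) := by gcongr
      _ = _ := by ring

/-- sums against the total displacement -/
theorem sum_h (xt : Xt E p) {T : Finset ℕ} (hT : T ⊆ Ico (p.jf + 1) (p.gst P t).N) {c : ℕ → ℝ}
    (hc : ∀ k, 0 ≤ c k) : ∑ k ∈ T, (p.gst P t).dz m a k * (c k *
      |Cas.Alg77.gd (D0 p P t m a) (k + 1) + Cas.Alg77.gd (D0 p P t m a') (k + 1)|) ≤
      E * (sd (p.gst P t) m a T c + sd (p.gst P t) m a' T c) := by
  rw [sd, sd, ← sum_add_distrib, mul_sum]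
  refine sum_le_sum fun k hk => ?_
  obtain ⟨k1, k2⟩ := mem_Ico.1 (hT hk)
  have a1 := (bs F ⟨le_rfl, F.fx.aa⟩ (sv p t) E0 xt.β).abs_gd (k + 1)
  have a2 := (bs F ⟨F.fx.aa, le_rfl⟩ (sv p t) E0 xt.β).abs_gd (k + 1)
  rw [cd_del _ _ _ _ _ k1 k2] at a1 a2
  rw [dz_free (m := m) (a := a') F.fx.leg m a (by omega)]
  exact (mul_le_mul_of_nonneg_left (mul_le_mul_of_nonneg_left ((abs_add_le _ _).trans
    (add_le_add a1 a2)) (hc k)) (F.fx.lga.dz_nonneg k)).trans_eq (by rw [Md.del, Md.del]; ring)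

omit F in
theorem sq4 {m a b c e ρ X : ℝ} (m0 : 0 ≤ m) (hρ : ρ = a + b + c + e) (h1 : m * a ^ 2 ≤ X)
    (h2 : m * b ^ 2 ≤ X) (h3 : m * c ^ 2 ≤ X) (h4 : m * e ^ 2 ≤ X) : m * ρ ^ 2 ≤ 16 * X := by
  have e1 : ρ ^ 2 ≤ 4 * (a ^ 2 + b ^ 2 + c ^ 2 + e ^ 2) := by
    rw [hρ]
    nlinarith [sq_nonneg (a - b), sq_nonneg (a - c), sq_nonneg (a - e), sq_nonneg (b - c),
      sq_nonneg (b - e), sq_nonneg (c - e)]
  linarith [mul_le_mul_of_nonneg_left e1 m0]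

theorem up {c : ℝ} {i j : ℕ} {z : ℝ} (hc : c ≤ 1000) (hi : i < j) (hz : 0 ≤ z) :
    c * E ^ i * z ≤ E ^ j * z :=
  mul_le_mul_of_nonneg_right ((mul_le_mul_of_nonneg_right (hc.trans F.E1) (pow_pos F.E0 i).le).trans
    ((pow_succ' E i).symm.trans_le (pow_le_pow_right₀ F.E1' hi))) hz

set_option maxHeartbeats 1000000 in
/-- the split of the response -/
theorem split (xt : Xt E p) {C : ℝ} (CE : C ≤ E)
    (hC : ∀ (T : List (T157.Casc.Lv Bool)) (k : ℕ) (p : ℝ), R1J.Nd T k p →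
      ∀ f g : ℕ → ℝ, f 0 = 0 → g 0 = 0 → f k = 0 → g k = 0 → |R1J.W T k [f, g]| ≤
        C * (p * (R1J.n1 T f * R1J.n1 T g) + p * R1J.hi T k (fun j => f j * g j) +
          R1J.lo T k fun j => f j * g j)) {k : ℕ} (k1 : p.jf < k) (k2 : k ≤ p.Jp P)
    (hp : min 1 ((p.gst P t).z k + (D0 p P t m a).sig (k + 1)) ≤ E * (p.gst P t).s k) :
    |t * phi (D0 p P t m a) (D0 p P t m a') (fd p t) (k + 1)| ≤ E / 4 *
      (t * |sv p t k| * |R1J.J (D0 p P t m a).S (Cas.Alg77.gd (D0 p P t m a)) (k + 1)| +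
        t * |sv p t k| * |R1J.J (D0 p P t m a').S (Cas.Alg77.gd (D0 p P t m a')) (k + 1)| +
      E * (E * min 1 ((p.gst P t).s k) * (E * S.θ * (E *
          (sd (p.gst P t) m a (Ioo S.jl (p.gst P t).N) (fun _ => 1) +
            sd (p.gst P t) m a' (Ioo S.jl (p.gst P t).N) fun _ => 1)) +
          E * (sd (p.gst P t) m a (Ioo S.jl (p.gst P t).N) (fun k => t * |sv p t k|) +
            sd (p.gst P t) m a' (Ioo S.jl (p.gst P t).N) fun k => t * |sv p t k|)) +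
        E * (sd (p.gst P t) m a (Ico (p.jf + 1) k) (fun k => t * |sv p t k|) +
          sd (p.gst P t) m a' (Ico (p.jf + 1) k) fun k => t * |sv p t k|))) := by
  have H := bs F ⟨le_rfl, F.fx.aa⟩ (sv p t) E0 xt.β
  have kN : k < (p.gst P t).N := (F.sc.Jp ▸ k2).trans_lt F.cl.i4
  have E0' := F.E0
  have t0 := F.fx.t0
  have θ0 := F.θ0
  have s0 := F.cl.s_pos (show 1 ≤ k by omega)
  have hM := (H.nd1 (j := k + 1) (mem_Ioo.2 ⟨Nat.succ_lt_succ k1, by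
    rw [cd_K]; exact Nat.succ_lt_succ kN⟩)).mono
  set h : ℕ → ℝ := fun j => Cas.Alg77.gd (D0 p P t m a) j + Cas.Alg77.gd (D0 p P t m a') j with hh
  have g1 : ∀ j ≤ p.jf + 1, Cas.Alg77.gd (D0 p P t m a) j = 0 := fun j hj =>
    Cas.Alg77.gd_lo _ hj
  have g2 : ∀ j ≤ p.jf + 1, Cas.Alg77.gd (D0 p P t m a') j = 0 := fun j hj =>
    Cas.Alg77.gd_lo _ hj
  have h0 : ∀ j ≤ p.jf + 1, h j = 0 := fun j hj => by simp only [hh, g1 j hj, g2 j hj, add_zero]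
  have f0 : fd p t 0 = 0 := fd_lo p t (Nat.zero_le _)
  have eJ : R1J.J (D0 p P t m a).S (Cas.Alg77.gd (D0 p P t m a')) (k + 1) =
      R1J.J (D0 p P t m a').S (Cas.Alg77.gd (D0 p P t m a')) (k + 1) :=
    W_free (Nat.succ_pos _) F.fx.cut.N0 (by
      have := g2 0 (Nat.zero_le _)
      have := g2 1 (by omega)
      have : k ≠ 0 := by omega
      simp [R1J.ind, R1J.off, *]) (Nat.succ_pos _)
  have nd := H.nd (j := k + 1) (mem_Ioo.2 ⟨Nat.succ_lt_succ k1, by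
    rw [cd_K]; exact Nat.succ_lt_succ kN⟩) (p := E * min 1 ((p.gst P t).s k))
    (mul_pos E0' (lt_min one_pos s0)) (by
      rw [mul_min_of_nonneg _ _ E0'.le]
      refine le_min ((min_le_left _ _).trans (by linarith [F.E1])) (le_of_eq_of_le ?_ hp)
      exact congrArg (fun z => min 1 (z + _)) (ex_succ F.fx.leg k))
  have b0 := hC _ _ _ nd _ _ (R1J.off_zero (k + 1) f0) (R1J.off_zero (k + 1) (h0 0 (Nat.zero_le _)))
    (R1J.off_self _ _) (R1J.off_self _ _)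
  have b1 : t * R1J.n1 (D0 p P t m a).S (R1J.off (k + 1) (fd p t)) ≤ E * S.θ := by
    refine (mul_le_mul_of_nonneg_left (R1J.n1_off hM _ _) t0.le).trans ?_
    rw [H.n1_up fun j hj => fd_lo p t hj, F.th]
    exact F.fx.n1 a E0
  have b2 := sum_h F xt Subset.rfl (c := fun _ => 1) fun _ => zero_le_one
  have b3 := sum_h F xt Subset.rfl (ts0 F)
  have b4 := sum_h F xt (Ico_subset_Ico_right kN.le) (ts0 F)
  have e1 : ∀ T ⊆ Ico (p.jf + 1) (p.gst P t).N, t * ∑ j ∈ T, (p.gst P t).dz m a j *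
      |fd p t (j + 1) * h (j + 1)| = ∑ j ∈ T, (p.gst P t).dz m a j * (t * |sv p t j| * |h (j + 1)|) :=
    fun T hT => by
      rw [mul_sum]
      exact sum_congr rfl fun j hj => by rw [fd_succ p t (mem_Ico.1 (hT hj)).1, abs_mul]; ring
  simp only [one_mul] at b2
  have c2 := (R1J.n1_off hM (k + 1) h).trans
    (((H.n1_up h0).trans (cd_I _ _ _ _ _ _ _ _)).trans_le b2)
  have q3 : t * R1J.n1 (D0 p P t m a).S (fun j => fd p t j * h j) =
      ∑ j ∈ Ico (p.jf + 1) (p.gst P t).N, (p.gst P t).dz m a j * (t * |sv p t j| * |h (j + 1)|) := by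
    rw [H.n1_up fun j hj => by rw [h0 j hj, mul_zero], cd_I, e1 _ Subset.rfl]
  have q4 : t * R1J.lo (D0 p P t m a).S (k + 1) (fun j => fd p t j * h j) =
      ∑ j ∈ Ico (p.jf + 1) k, (p.gst P t).dz m a j * (t * |sv p t j| * |h (j + 1)|) := by
    rw [lo_up _ fun j hj => by rw [h0 j hj, mul_zero], cd_lw, e1 _ (Ico_subset_Ico_right kN.le)]
  have c3 := (mul_le_mul_of_nonneg_left ((R1J.hi_mono hM (k + 1) (R1J.abs_off2 (k + 1) (fd p t)
    h)).trans (R1J.hi_le hM _ _)) t0.le).trans (q3.trans_le b3)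
  have c4 := (mul_le_mul_of_nonneg_left (R1J.lo_mono hM (le_refl (k + 1))
    (R1J.abs_off2 (k + 1) (fd p t) h)) t0.le).trans (q4.trans_le b4)
  rw [F.up_eq] at c2 c3
  have n1 := R1J.n1_nonneg hM (R1J.off (k + 1) (fd p t))
  have n2 := R1J.n1_nonneg hM (R1J.off (k + 1) h)
  have n3 := R1J.hi_nonneg hM (k + 1) fun j => R1J.off (k + 1) (fd p t) j * R1J.off (k + 1) h j
  have n4 := R1J.lo_nonneg hM (k + 1) fun j => R1J.off (k + 1) (fd p t) j * R1J.off (k + 1) h j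
  have p0 := nd.p0
  have c5 := add_le_add (mul_le_mul_of_nonneg_left (add_le_add
    (mul_le_mul b1 c2 n2 (by positivity)) c3) p0.le) c4
  have c6 := (mul_le_mul_of_nonneg_left (b0.trans (mul_le_mul_of_nonneg_right CE (by positivity)))
    t0.le).trans ((le_of_eq (by ring)).trans (mul_le_mul_of_nonneg_left c5 E0'.le))
  rw [phi, Cas.Alg77.W_off _ _ f0 (h0 0 (Nat.zero_le _)), R1J.J_add (Nat.succ_pos k)
    (g1 0 (Nat.zero_le _)) (g2 0 (Nat.zero_le _)), eJ, fd_succ p t k1, mul_left_comm, abs_mul,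
    abs_of_nonneg (div_nonneg (H.tau _).1 (by norm_num)), abs_mul, abs_of_pos t0]
  refine mul_le_mul (div_le_div_of_nonneg_right (H.tau _).2 (by norm_num)) ?_ (by positivity)
    (by positivity)
  refine (mul_le_mul_of_nonneg_left ((abs_add_le _ _).trans (add_le_add_left ((abs_mul _ _).trans_le
    (mul_le_mul_of_nonneg_left (abs_add_le _ _) (abs_nonneg _))) _)) t0.le).trans ?_
  exact (le_of_eq (by ring)).trans (add_le_add_right c6 _)

omit F in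
/-- **the off-off half** -/
theorem phOff60 : PhOff := fun β hβ hC hM hJ => by
  obtain ⟨C, -, hC2⟩ := R1J.s2
  refine Sml.glue' hβ ((hC.and hM).and hJ) 2 one_pos 3 fun c0 C0 A c η _ _ _ _ =>
    ⟨C, fun p H _ _ hη ⟨⟨co, ms⟩, jw⟩ σ σ' P t a a' Q m X S l Φ Pf l0 Λ₀ Pt u1 V4 I F => ?_⟩
  have xt := xt_of H (by exact_mod_cast hη)
  have CE := H.K_le
  have B0 := Bud_nonneg H.s0.le X.Q0
  clear H hη
  generalize (p.n : ℝ) ^ η = E at *
  have E0' := F.E0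
  have θ0 := F.θ0
  have m0 : (0 : ℝ) < m := Nat.cast_pos.2 F.fx.m0
  have xa : a ∈ Set.Icc a a' := ⟨le_rfl, F.fx.aa⟩
  have xb : a' ∈ Set.Icc a a' := ⟨F.fx.aa, le_rfl⟩
  replace ms := ms σ σ' P t a a' Q m X S l Φ Pf l0 Λ₀ Pt u1 V4 I F
  replace jw := jw σ σ' P t a a' Q m X S l Φ Pf l0 Λ₀ Pt u1 V4 I F
  replace co := co.2.2.2.2.1 σ σ' P t a a' Q m X a xa
  have d0 : 0 ≤ (1 / E ^ 200) ^ 2 * n4 p := by have := F.n40; positivity
  generalize (1 / E ^ 200) ^ 2 * n4 p = d at *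
  obtain ⟨N0, A0, N1, A1, N2, A2⟩ := glob F xa (ms a xa)
    (fun k h1 h2 => ⟨(co k h1 h2).1, (co k h1 h2).2.1⟩) rfl rfl
  obtain ⟨N0', A0', N1', A1', N2', A2'⟩ := glob F xb (ms a' xb)
    (fun k h1 h2 => ⟨(co k h1 h2).1, (co k h1 h2).2.1⟩) rfl rfl
  have sp := fun k k1 k2 => split F xt CE hC2 (k := k) k1 k2 (co k k1 k2).2.2.2
  have sb : ∀ x ∈ Set.Icc a a', ∀ k ≤ p.Jp P,
      sd (p.gst P t) m x (Ico (p.jf + 1) k) (fun k => t * |sv p t k|) ≤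
        sd (p.gst P t) m x (Ioo S.jl (p.gst P t).N) fun k => t * |sv p t k| := fun x hx k hk =>
    sum_le_sum_of_subset_of_nonneg (F.up_eq ▸ Ico_subset_Ico_right
      ((F.sc.Jp ▸ hk).trans F.cl.i4.le)) fun j _ _ => mul_nonneg
        ((F.fx.lg hx.1 hx.2).dz_nonneg j) (mul_nonneg (ts0 F j) (abs_nonneg _))
  have sa := sb a xa
  replace sb := sb a' xb
  generalize sd (p.gst P t) m a (Ioo S.jl (p.gst P t).N) (fun _ => 1) = N at *
  generalize sd (p.gst P t) m a' (Ioo S.jl (p.gst P t).N) (fun _ => 1) = N' at *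
  generalize sd (p.gst P t) m a (Ioo S.jl (p.gst P t).N) (fun k => t * |sv p t k|) = A at *
  generalize sd (p.gst P t) m a' (Ioo S.jl (p.gst P t).N) (fun k => t * |sv p t k|) = A' at *
  have L0 : 0 ≤ Λ₀ := by linarith [F.nr.L1]
  have e45 : E ^ 4 ≤ E ^ 5 := pow_le_pow_right₀ F.E1' (by norm_num)
  have e35 : E ^ 3 ≤ E ^ 5 := pow_le_pow_right₀ F.E1' (by norm_num)
  refine ⟨E * (1 / E ^ 12 * Bud p Q / m), E ^ 5 * (S.θ * N + S.θ * N' + A + A'), by positivity, ?_,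
    by positivity, ?_, ?_, fun k k1 k2 => ?_⟩
  · calc _ = 1 / E ^ 11 * Bud p Q := by field_simp
      _ ≤ _ := by gcongr; exacts [F.E1', by norm_num]
  · have := mul_le_mul_of_nonneg_left (sq4 L0 rfl N1 N1' A1 A1') (show 0 ≤ E ^ 10 by positivity)
    linarith [up F (c := 16) (i := 22) (j := 300) (z := S.θ * d) (by norm_num) (by norm_num)
      (by positivity)]
  · have := mul_le_mul_of_nonneg_left (add_le_add (add_le_add (add_le_add N2 N2') A2) A2')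
      (show 0 ≤ E ^ 5 by positivity)
    linarith [up F (c := 4) (i := 7) (j := 150) (by norm_num) (by norm_num) θ0.le]
  obtain ⟨R, r0, r1, r2, r3, r4⟩ := jw a (.inl rfl) k k1 k2
  obtain ⟨R', r0', r1', r2', r3', r4'⟩ := jw a' (.inr rfl) k k1 k2
  have la := lamG_nn xt.κ0.le F.fx.y0.le F.fx.t0.le (F.cl.s_nn k)
  have mi : 0 ≤ min 1 ((p.gst P t).s k) := le_min zero_le_one (F.cl.s_nn k)
  have y0 : 0 < max ((p.gst P t).s k) l := F.l0'.trans_le (le_max_right _ _)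
  have ms0 := (F.cl.ms_pos y0.le).le
  obtain ⟨γ, γ', g0, g0', g1, g2, g2', g3, g3', g4⟩ : ∃ γ γ' : ℝ, 0 ≤ γ ∧ 0 ≤ γ' ∧
      (p.ye ≤ (p.gst P t).s k → γ = 0 ∧ γ' = 0) ∧
      S.ms (max ((p.gst P t).s k) l) * γ ^ 2 ≤ E ^ 10 * d * max ((p.gst P t).s k) l ^ 2 ∧
      S.ms (max ((p.gst P t).s k) l) * γ' ^ 2 ≤ E ^ 10 * d * max ((p.gst P t).s k) l ^ 2 ∧
      γ ≤ E ^ 2 * max ((p.gst P t).s k) l ^ 2 ∧ γ' ≤ E ^ 2 * max ((p.gst P t).s k) l ^ 2 ∧
      sd (p.gst P t) m a (Ico (p.jf + 1) k) (fun k => t * |sv p t k|) +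
        sd (p.gst P t) m a' (Ico (p.jf + 1) k) (fun k => t * |sv p t k|) ≤
        4 * E * p.lamG t ((p.gst P t).s k) * (γ + γ') +
          (if p.ye ≤ (p.gst P t).s k then 1 else 0) * (A + A') := by
    by_cases h : p.ye ≤ (p.gst P t).s k
    · refine ⟨0, 0, le_rfl, le_rfl, fun _ => ⟨rfl, rfl⟩, ?_, ?_, by positivity, by positivity, ?_⟩
      · rw [sq (0 : ℝ), mul_zero, mul_zero]; positivity
      · rw [sq (0 : ℝ), mul_zero, mul_zero]; positivity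
      · rw [if_pos h]
        linarith [sa k k2, sb k k2]
    · obtain ⟨q1, q2, q3, q4⟩ := low F xt xa (ms a xa) (not_le.1 h).le rfl rfl
      obtain ⟨q1', q2', q3', q4'⟩ := low F xt xb (ms a' xb) (not_le.1 h).le rfl rfl
      exact ⟨_, _, q2, q2', fun e => absurd e h, q3, q3', q4, q4', by rw [if_neg h]; linarith⟩
  have i0 : (0 : ℝ) ≤ if p.ye ≤ (p.gst P t).s k then 1 else 0 := by split_ifs <;> norm_num
  have dy : 0 ≤ d * max ((p.gst P t).s k) l ^ 2 := by positivity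
  have y2 := sq_nonneg (max ((p.gst P t).s k) l)
  refine ⟨E * R + E * R' + E ^ 4 * γ + E ^ 4 * γ', by positivity, fun h => ?_, ?_, ?_,
    (sp k k1 k2).trans ?_⟩
  · obtain ⟨e1, e2⟩ := g1 (by linarith [F.fx.y0])
    rw [r1 h, r1' h, e1, e2]
    ring
  · have u := up F (c := 1) (i := 18) (j := 202) (by norm_num) (by norm_num) dy
    have e2 : 0 ≤ E ^ 2 := by positivity
    have e8 : 0 ≤ E ^ 8 := by positivity
    have := sq4 (X := E ^ 202 * (d * max ((p.gst P t).s k) l ^ 2)) ms0 (a := E * R) (b := E * R')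
      (c := E ^ 4 * γ) (e := E ^ 4 * γ') rfl (by linarith [mul_le_mul_of_nonneg_left r2 e2])
      (by linarith [mul_le_mul_of_nonneg_left r2' e2])
      (by linarith [mul_le_mul_of_nonneg_left g2 e8])
      (by linarith [mul_le_mul_of_nonneg_left g2' e8])
    linarith [up F (c := 16) (i := 202) (j := 300) (by norm_num) (by norm_num) dy]
  · have e4 : 0 ≤ E ^ 4 := by positivity
    linarith [mul_le_mul_of_nonneg_left r3 E0'.le, mul_le_mul_of_nonneg_left r3' E0'.le,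
      mul_le_mul_of_nonneg_left g3 e4, mul_le_mul_of_nonneg_left g3' e4,
      up F (c := 2) (i := 6) (j := 101) (by norm_num) (by norm_num) y2,
      up F (c := 3) (i := 101) (j := 150) (by norm_num) (by norm_num) y2]
  · have e : (if k < p.J then E * (1 / E ^ 12 * Bud p Q / m) / max ((p.gst P t).s k) l ^ 2 else 0) =
        E * if k < p.J then 1 / E ^ 12 * Bud p Q / m / max ((p.gst P t).s k) l ^ 2 else 0 := by
      split_ifs
      exacts [mul_div_assoc _ _ _, (mul_zero _).symm]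
    have z0 : (0 : ℝ) ≤ if k < p.J then 1 / E ^ 12 * Bud p Q / m / max ((p.gst P t).s k) l ^ 2
        else 0 := by
      split_ifs
      exacts [by positivity, le_rfl]
    rw [e]
    generalize (if k < p.J then 1 / E ^ 12 * Bud p Q / m / max ((p.gst P t).s k) l ^ 2 else 0) = z
      at *
    generalize (if p.ye ≤ (p.gst P t).s k then (1 : ℝ) else 0) = i at *
    generalize min 1 ((p.gst P t).s k) = w at *
    generalize p.lamG t ((p.gst P t).s k) = lam at *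
    have AA := add_nonneg A0 A0'
    have NN := add_nonneg N0 N0'
    have e5 : 0 ≤ E ^ 5 := by positivity
    linarith [mul_le_mul_of_nonneg_left r4 E0'.le, mul_le_mul_of_nonneg_left r4' E0'.le,
      mul_le_mul_of_nonneg_left g4 (show 0 ≤ E ^ 3 by positivity), mul_nonneg E0'.le z0,
      mul_nonneg E0'.le (mul_nonneg la r0), mul_nonneg E0'.le (mul_nonneg la r0'),
      mul_le_mul_of_nonneg_right e45 (mul_nonneg mi AA),
      mul_le_mul_of_nonneg_right e35 (mul_nonneg i0 AA), mul_nonneg e5 (mul_nonneg mi AA),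
      mul_nonneg e5 (mul_nonneg i0 AA), mul_nonneg e5 (mul_nonneg mi NN),
      mul_nonneg e5 (mul_nonneg i0 NN)]

end Crest.Agent.T156.Alt.P60

end
end

-- ▼ part T156/R1MsB_38
section

/-!
# Row 156 (helper38): sums of moments on the frame, the crude fields of `P60.MS`
-/

set_option autoImplicit false
set_option linter.all false

noncomputable section

namespace Crest.Agent.T156.Alt.P60.M38

open Real Finset
open Crest.Agent.T156.Alt.Md67 Crest.Agent.T156.Alt.R62 Crest.Agent.T156.Alt.R77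
open Crest.Agent.T156.Alt.R82 Crest.Agent.T156.Alt.SD56 Crest.Agent.T156.Alt.Alg77

section cls
variable {S : Sc} {M : Md} {m : ℕ} {x l Φ l0 Λ Λ₀ Pt u1 V4 : ℝ} {P : ℝ → ℝ} {G : ℕ → ℝ}

theorem del_le (K : MK S M 8 Λ m x l Φ P l0 Λ₀ Pt u1 V4 G) {k : ℕ} (hk : k ∈ Ioo S.jl M.N) :
    |M.del m x k| ≤ 4 * G k := by
  have h := SD56.mom K (i := 1) (by norm_num) hk
  simp only [pow_one] at h
  refine le_trans (le_of_eq ?_) ((abs_E2_le (fun R => R - M.q k) k).trans (h.trans_eq (by norm_num)))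
  rw [E2_sub, E2_const]; rfl

end cls

variable {E t a a' Q l Φ l0 Λ₀ Pt u1 V4 x : ℝ} {p : Pm} {P : Pl} {m I : ℕ} {S : Sc} {Pf : ℝ → ℝ}
  (F : Fr E p P t a a' Q m S l Φ Pf l0 Λ₀ Pt u1 V4 I) (hx : x ∈ Set.Icc a a')
include F

theorem l_one : l ≤ 1 := by
  have h1 : 1 / E ^ 200 ≤ 1 := (div_le_one (pow_pos F.E0 _)).2 (one_le_pow₀ F.E1')
  exact F.nr.ly.trans (mul_le_one₀ h1 F.fx.y0.le F.y1)

theorem sub_J : Ioo S.jl S.J ⊆ Ioo S.jl (p.gst P t).N :=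
  Ioo_subset_Ioo_right (F.cl.i3.trans F.cl.i4.le)

include hx

theorem ms_sup (k : ℕ) (h1 : S.jl < k) (h2 : k < S.J) : |(p.gst P t).del m x k| ≤ 4 * E * l := by
  obtain ⟨G, K⟩ := F.mkk x hx
  linarith [del_le K (sub_J F (mem_Ioo.2 ⟨h1, h2⟩)), K.sl k h1.le h2]

theorem ms_N2 : ∑ k ∈ Ioo S.jl (p.gst P t).N, (p.gst P t).dz m x k * |(p.gst P t).del m x k| ≤
    E * l := by
  obtain ⟨G, K⟩ := F.mkk x hx
  have e0 := mul_pos F.E0 F.l0'
  have k1 := K.tot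
  have k2 := F.W.wt_le (S := S) x (U := Ioo S.jl (p.gst P t).N) Subset.rfl
  rw [← F.nr.l3] at k1
  refine le_of_mul_le_mul_left ?_ e0
  rw [mul_sum]
  refine (sum_le_sum (g := fun k => (E * l) ^ 2 / 2 * (p.gst P t).dz m x k +
    8 * ((p.gst P t).dz m x k * G k ^ 2)) fun k hk => ?_).trans ?_
  · have d := F.W.dz0 x (pos_of S _ k hk)
    have := mul_le_mul_of_nonneg_left (del_le K hk) e0.le
    nlinarith [mul_le_mul_of_nonneg_left (show E * l * |(p.gst P t).del m x k| ≤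
      (E * l) ^ 2 / 2 + 8 * G k ^ 2 by nlinarith [sq_nonneg (E * l - 4 * G k)]) d]
  · rw [sum_add_distrib, ← mul_sum, ← mul_sum]
    have k3 := mul_le_of_le_one_right (show 0 ≤ (E * l) ^ 2 / 2 by positivity) k2
    have k4 : 16 * l ≤ E := by linarith [l_one F, F.E1]
    nlinarith [mul_le_mul_of_nonneg_left k4 (mul_pos e0 F.l0').le]

theorem sum_pow {U : Finset ℕ} (hU : U ⊆ Ioo S.jl (p.gst P t).N) (i : ℕ) (hi : i ≤ 1) {g : ℝ}
    (g0 : 0 ≤ g) (hg : ∀ G, MK S (p.gst P t) 8 E m x l Φ Pf l0 Λ₀ Pt u1 V4 G → ∀ k ∈ U, G k ≤ g) :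
    ∑ k ∈ U, (p.gst P t).dz m x k * (p.gst P t).E2 m x
      (fun R => |R - (p.gst P t).q k| ^ (i + 2)) k ≤ 2 ^ (i + 3) * g ^ i * (E * l ^ 3) := by
  obtain ⟨G, K⟩ := F.mkk x hx
  have d := fun k hk => F.W.dz0 x (pos_of S (p.gst P t) k hk)
  rw [F.nr.l3]
  refine le_trans ?_ (mul_le_mul_of_nonneg_left ((sum_le_sum_of_subset_of_nonneg hU
    fun k hk _ => mul_nonneg (d k hk) (sq_nonneg _)).trans K.tot) (by positivity))
  rw [mul_sum]
  refine sum_le_sum fun k hk => ?_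
  rw [mul_left_comm]
  refine mul_le_mul_of_nonneg_left ((SD56.mom K (by omega) (hU hk)).trans ?_) (d k (hU hk))
  rw [pow_add (G k), mul_assoc]
  exact mul_le_mul_of_nonneg_left (mul_le_mul_of_nonneg_right
    (pow_le_pow_left₀ (K.pos k).le (hg G K k hk) i) (sq_nonneg _)) (by positivity)

theorem ms_u2 : ∑ k ∈ Ioo S.jl (p.gst P t).N, (p.gst P t).dz m x k * (p.gst P t).E2 m x
    (fun R => |R - (p.gst P t).q k| ^ 2) k ≤ E ^ 2 * l ^ 3 := by
  have h := sum_pow F hx Subset.rfl 0 zero_le_one zero_le_two fun G K k _ => K.le2 k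
  have := mul_le_mul_of_nonneg_right F.E1 (mul_pos F.E0 (pow_pos F.l0' 3)).le
  have := mul_pos F.E0 (pow_pos F.l0' 3)
  refine h.trans ?_
  norm_num
  linarith

theorem ms_u3 : ∑ k ∈ Ioo S.jl (p.gst P t).N, (p.gst P t).dz m x k * (p.gst P t).E2 m x
    (fun R => |R - (p.gst P t).q k| ^ 3) k ≤ E ^ 2 * l ^ 3 := by
  have h := sum_pow F hx Subset.rfl 1 le_rfl zero_le_two fun G K k _ => K.le2 k
  have := mul_le_mul_of_nonneg_right F.E1 (mul_pos F.E0 (pow_pos F.l0' 3)).le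
  have := mul_pos F.E0 (pow_pos F.l0' 3)
  refine h.trans ?_
  norm_num
  linarith

theorem ms_u3' : ∑ k ∈ Ioo S.jl S.J, (p.gst P t).dz m x k * (p.gst P t).E2 m x
    (fun R => |R - (p.gst P t).q k| ^ 3) k ≤ E ^ 3 * l ^ 4 := by
  have e0 := mul_pos F.E0 F.l0'
  have h := sum_pow F hx (sub_J F) 1 le_rfl e0.le
    fun G K k hk => K.sl k (mem_Ioo.1 hk).1.le (mem_Ioo.1 hk).2
  have := mul_le_mul_of_nonneg_right F.E1 (mul_pos e0 (mul_pos F.E0 (pow_pos F.l0' 3))).le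
  have := mul_pos e0 (mul_pos F.E0 (pow_pos F.l0' 3))
  refine h.trans ?_
  norm_num
  linarith

theorem ms_s0 : S0 (p.gst P t) m x ≤ E ^ 9 * l ^ 3 := by
  obtain ⟨G, K⟩ := F.bk x hx
  have E0 := F.E0
  have l0 := F.l0'
  have C0 := K.fn.C0
  have i0 := K.fn.i0
  have i1 := K.fn.i1
  have i2 := K.fn.i2
  have z1 : (p.gst P t).z 0 ≤ 3 / 8 * E ^ 2 * l := by
    have a1 := K.fn.z_le_s (k := S.j0) le_rfl (by omega)
    have a2 := (K.fn.ss 0 (by omega)).1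
    rw [K.fn.s0, sub_zero, div_le_iff₀' C0] at a2
    have a3 := K.fn.sm (show 0 + 1 ≤ S.j0 from i0)
    have a4 : (p.gst P t).s S.j0 ≤ l / 8 := by linarith [K.fn.sm i1, F.nr.jl, F.nr.l0l]
    have a5 := mul_le_mul F.sc.C (a3.trans a4) (K.fn.s_nonneg _) E0.le
    have a6 : (p.gst P t).s S.j0 + 2 * S.v ≤ 3 / 8 * E * l := by nlinarith [F.E1]
    rw [K.fn.low 0 (Nat.zero_le _)]
    exact a1.trans ((mul_le_mul F.sc.C a6 (by linarith [K.fn.s_nonneg S.j0, K.fn.v0]) E0.le).trans_eq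
      (by ring))
  have z2 : max ((p.gst P t).z 0) l ≤ E ^ 2 * l :=
    max_le (by nlinarith [mul_pos (pow_pos E0 2) l0])
      (le_mul_of_one_le_left l0.le (one_le_pow₀ F.E1'))
  have b0 : 0 < E * max ((p.gst P t).z 0) l := mul_pos E0 (l0.trans_le (le_max_right _ _))
  have h := CIn12.mom_pair (M := p.gst P t) (m := m) (a := x) (k := 0) (p := 8) (i := 2) (c := 0)
    (q := 0) b0 (by norm_num) (by simpa only [sub_zero] using K.low 0 (Nat.zero_le _))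
  simp only [sub_zero, abs_zero, add_zero, sq_abs] at h
  have h2 : (E * max ((p.gst P t).z 0) l) ^ 2 ≤ (E * (E ^ 2 * l)) ^ 2 := by gcongr
  have h3 : (p.gst P t).dz m x 0 ≤ 3 / 8 * E ^ 2 * l := by
    rw [dz_zero K.fn.leg]
    linarith [F.fx.a0, hx.1]
  refine (mul_le_mul h3 (h.trans (mul_le_mul_of_nonneg_left h2 (by positivity)))
    (E2_nonneg (fun _ _ => sq_nonneg _) 0) (by positivity)).trans ?_
  have := mul_pos (pow_pos E0 8) (pow_pos l0 3)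
  nlinarith [F.E1]

end Crest.Agent.T156.Alt.P60.M38

end
end

-- ▼ part T156/R1Ms_4

/-!
# Row 156, R1: the sums of moments on the frame (helper4)
-/

set_option autoImplicit false
set_option linter.unusedSectionVars false

noncomputable section

namespace Crest.Agent.T156.Alt.P60

open Real Finset
open Crest.Agent.T156.Alt.Md67 Crest.Agent.T156.Alt.R62 Crest.Agent.T156.Alt.R77
open Crest.Agent.T156.Alt.R82 Crest.Agent.T156.Alt.SD56 Crest.Agent.T156.Alt.E35.S4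

namespace M4

theorem sq_of {c s B : ℝ} (c0 : 0 < c) (B0 : 0 ≤ B) (s0 : 0 ≤ s) (h : s ≤ √(B / c)) :
    c * s ^ 2 ≤ B := by
  have := pow_le_pow_left₀ s0 h 2
  rwa [sq_sqrt (by positivity), le_div_iff₀' c0] at this

variable {E t a a' Q l Φ l0 Λ₀ Pt u1 V4 x : ℝ} {p : Pm} {P : Pl} {m I : ℕ} {S : Sc} {Pf : ℝ → ℝ}
  {G : ℕ → ℝ} (F : Fr E p P t a a' Q m S l Φ Pf l0 Λ₀ Pt u1 V4 I)
include F

/-- the decomposition against a square budget -/
theorem decq {g : ℕ → ℝ} {c B : ℝ} (c0 : 0 < c) (B0 : 0 ≤ B)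
    (g0 : ∀ k ∈ Ioo S.jl (p.gst P t).N, 0 ≤ g k)
    (h1 : ∀ v, 0 ≤ v → c * v ^ 2 = E ^ 4 * B → ∑ k ∈ lz S (p.gst P t) l0, g k ≤ v)
    (h2 : ∀ v, 0 ≤ v → c * v ^ 2 = E ^ 4 * B → ∀ τ, l0 ≤ τ → τ ≤ T0 S (p.gst P t) →
      ∑ k ∈ sb S (p.gst P t) τ (2 * τ), g k ≤ v)
    (h3 : ∀ v, 0 ≤ v → c * v ^ 2 = E ^ 4 * B →
      ∑ k ∈ sb S (p.gst P t) (T0 S (p.gst P t)) S.C ∪ Ico S.J (p.gst P t).N, g k ≤ v) :
    c * (∑ k ∈ Ioo S.jl (p.gst P t).N, g k) ^ 2 ≤ E ^ 10 * B := by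
  have E0 := F.E0
  have v0 := sqrt_nonneg (E ^ 4 * B / c)
  have e : c * √(E ^ 4 * B / c) ^ 2 = E ^ 4 * B := by
    rw [sq_sqrt (by positivity)]; field_simp
  have k := pow_le_pow_left₀ (sum_nonneg g0) (dec F g0 v0 (h1 _ v0 e) (h2 _ v0 e) (h3 _ v0 e)) 2
  refine (mul_le_mul_of_nonneg_left k c0.le).trans (le_of_eq ?_)
  rw [mul_pow, mul_left_comm, e]
  ring

variable (K : MK S (p.gst P t) 8 E m x l Φ Pf l0 Λ₀ Pt u1 V4 G)
include K

theorem d2 {U : Finset ℕ} {B : ℝ} (hU : U ⊆ Ioo S.jl (p.gst P t).N)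
    (h : ∑ k ∈ U, (p.gst P t).dz m x k * G k ^ 2 ≤ B) :
    ∑ k ∈ U, (p.gst P t).dz m x k * |(p.gst P t).del m x k| ^ 2 ≤ 16 * B := by
  refine le_trans ?_ (mul_le_mul_of_nonneg_left h (by norm_num))
  rw [mul_sum]
  refine sum_le_sum fun k hk => ?_
  rw [mul_left_comm]
  exact mul_le_mul_of_nonneg_left ((pow_le_pow_left₀ (abs_nonneg _) (M38.del_le K (hU hk)) 2).trans
    (le_of_eq (by ring))) (dz0 F (hU hk))

theorem tt {U : Finset ℕ} (hU : U ⊆ Ioo S.jl (p.gst P t).N) :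
    ∑ k ∈ U, (p.gst P t).dz m x k * G k ^ 2 ≤ E * Φ :=
  (sum_le_sum_of_subset_of_nonneg hU fun _ hk _ => mul_nonneg (dz0 F hk) (sq_nonneg _)).trans K.tot

theorem d_lo {v : ℝ} (v0 : 0 ≤ v) (h : 48 * E ^ 3 * (l0 * Pf l0) ≤ v ^ 2) :
    ∑ k ∈ lz S (p.gst P t) l0, (p.gst P t).dz m x k * |(p.gst P t).del m x k| ≤ v := by
  have E0 := F.E0
  have l00 := F.l00
  have Φ0 : 0 < Φ := F.nr.l3 ▸ pow_pos F.l0' 3
  refine cs (fun k hk => dz0 F (lz_sub F hk)) (lz_w F l00.le) (d2 F K (lz_sub F) (tt F K (lz_sub F)))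
    v0 (le_trans ?_ h)
  rw [F.nr.Plo l0 F.nr.l0l]
  have : 0 ≤ E ^ 3 * (l0 * Φ) := by positivity
  linarith

theorem d_sb {τ v : ℝ} (h1 : l0 ≤ τ) (h2 : τ ≤ T0 S (p.gst P t)) (v0 : 0 ≤ v)
    (h : 48 * E ^ 3 * (τ * Pf τ) ≤ v ^ 2) :
    ∑ k ∈ sb S (p.gst P t) τ (2 * τ), (p.gst P t).dz m x k * |(p.gst P t).del m x k| ≤ v :=
  cs (fun k hk => dz0 F (sb_sub F.cl hk)) (sb_w F h1) (d2 F K (sb_sub F.cl) (K.b2 τ h1 h2)) v0
    (by linarith)

omit K in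
theorem num {c v B y j : ℝ} (c0 : 0 < c) (B0 : 0 ≤ B) (e : c * v ^ 2 = E ^ 4 * B) (j0 : 0 ≤ j)
    (hj : j ≤ 1000) (h : c * y ≤ B) : j * E ^ 3 * y ≤ v ^ 2 := by
  have E0 := F.E0
  refine le_of_mul_le_mul_left ?_ c0
  rw [e]
  calc _ = j * E ^ 3 * (c * y) := by ring
    _ ≤ j * E ^ 3 * B := by gcongr
    _ ≤ E * E ^ 3 * B := by gcongr; linarith [F.E1]
    _ = _ := by ring

theorem N1 : S.θ * Λ₀ * (∑ k ∈ Ioo S.jl (p.gst P t).N,
    (p.gst P t).dz m x k * |(p.gst P t).del m x k|) ^ 2 ≤ E ^ 10 * ((1 / E ^ 200) ^ 2 * n4 p) := by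
  have E0 := F.E0
  have a4 := F.n40
  have c0 : 0 < S.θ * Λ₀ := mul_pos F.θ0 (by linarith [F.nr.L1])
  have P0 := F.nr.Pt0
  refine decq F c0 (by positivity) (fun k hk => mul_nonneg (dz0 F hk) (abs_nonneg _))
    (fun v v0 e => d_lo F K v0 (num F c0 (by positivity) e (by norm_num) (by norm_num)
      (F.nr.i _ le_rfl (l0_T F))))
    (fun v v0 e τ h1 h2 => d_sb F K h1 h2 v0 (num F c0 (by positivity) e (by norm_num) (by norm_num)
      (F.nr.i τ h1 h2)))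
    fun v v0 e => cs (fun k hk => dz0 F (top_sub F hk)) (F.W.wt_le x (top_sub F))
      (d2 F K (top_sub F) K.t2) v0 (le_trans ?_ (num F (j := 16) (y := Pt) c0 (by positivity) e
        (by norm_num) (by norm_num) (le_trans ?_ F.nr.c)))
  · have := mul_le_mul_of_nonneg_right (le_self_pow₀ F.E1' (show 3 ≠ 0 by norm_num))
      (P0.1.trans P0.2.1)
    linarith
  · exact mul_le_mul_of_nonneg_left (by linarith [pow_pos F.r0 4, P0.1, P0.2.2.2]) c0.le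

theorem Gb (y : ℝ) (hy : l ≤ y) : cum S (p.gst P t) m x y ^ 2 ≤ E ^ 4 * (y * l ^ 3) := by
  have E0 := F.E0
  have l0' := F.l0'
  have y0 := l0'.trans_le hy
  have s : (Ioo S.jl S.J).filter (fun k => (p.gst P t).s k ≤ y) ⊆ lz S (p.gst P t) (2 * y) :=
    fun k hk => mem_filter.2 ⟨(mem_filter.1 hk).1, by linarith [(mem_filter.1 hk).2]⟩
  have s' := s.trans (lz_sub F)
  have k := sq_of one_pos (B := E ^ 4 * (y * l ^ 3)) (by positivity)
    (sum_nonneg fun k hk => mul_nonneg (dz0 (x := x) F (s' hk)) (abs_nonneg ((p.gst P t).del m x k)))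
    (cs (fun k hk => dz0 F (s' hk)) ((sum_le_sum_of_subset_of_nonneg s fun k hk _ =>
      dz0 F (lz_sub F hk)).trans (lz_w F (by positivity))) (d2 F K s' (tt F K s')) (sqrt_nonneg _)
      (by
        rw [sq_sqrt (by positivity), div_one, ← F.nr.l3]
        calc _ = 32 * (E ^ 3 * (y * l ^ 3)) := by ring
          _ ≤ E * (E ^ 3 * (y * l ^ 3)) := by gcongr; linarith [F.E1]
          _ = _ := by ring))
  rwa [one_mul] at k

omit K in
theorem cut_eq (y : ℝ) (g : ℕ → ℝ) :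
    ∑ k ∈ (Ioo S.jl S.J).filter fun k => (p.gst P t).s k ≤ y, g k =
      ∑ k ∈ Ioo S.jl (p.gst P t).N, if k < S.J ∧ (p.gst P t).s k ≤ y then g k else 0 := by
  rw [← sum_filter]
  refine sum_congr ?_ fun _ _ => rfl
  ext k
  have := F.cl.J_lt
  simp only [mem_filter, mem_Ioo]
  exact ⟨fun h => ⟨⟨h.1.1, by omega⟩, h.1.2, h.2⟩, fun h => ⟨⟨h.1.1, h.2.1⟩, h.2.2⟩⟩

omit F K in
theorem cut_le {U V : Finset ℕ} {c : ℕ → Prop} [DecidablePred c] {g : ℕ → ℝ}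
    (g0 : ∀ k ∈ V, 0 ≤ g k) (h : ∀ k ∈ U, c k → k ∈ V) :
    ∑ k ∈ U, (if c k then g k else 0) ≤ ∑ k ∈ V, g k := by
  rw [← sum_filter]
  exact sum_le_sum_of_subset_of_nonneg (fun k hk => h k (mem_filter.1 hk).1 (mem_filter.1 hk).2)
    fun k hk _ => g0 k hk

theorem Ga (y : ℝ) (hy : l ≤ y) (hT : y ≤ T0 S (p.gst P t)) :
    S.ms y * cum S (p.gst P t) m x y ^ 2 ≤ E ^ 10 * ((1 / E ^ 200) ^ 2 * n4 p) * y ^ 2 := by
  have E0 := F.E0
  have a4 := F.n40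
  have l00 := F.l00
  have ly := F.nr.l0l.trans hy
  have c0 := F.cl.ms_pos (l00.le.trans ly)
  have g0 : ∀ k ∈ Ioo S.jl (p.gst P t).N, 0 ≤ (p.gst P t).dz m x k * |(p.gst P t).del m x k| :=
    fun k hk => mul_nonneg (dz0 F hk) (abs_nonneg _)
  have hb := F.nr.b
  have d0 : 0 < (1 / E ^ 200) ^ 2 * n4 p := by positivity
  generalize (1 / E ^ 200) ^ 2 * n4 p = d at hb d0 ⊢
  have k : ∀ v, S.ms y * v ^ 2 = E ^ 4 * (d * y ^ 2) → ∀ τ, l0 ≤ τ → τ ≤ y →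
      48 * E ^ 3 * (τ * Pf τ) ≤ v ^ 2 := fun v e τ h1 h2 => by
    have τ0 := l00.trans_le h1
    have m1 := F.cl.ms_pos τ0.le
    have P0 := (F.nr.P0 τ).1
    have a := F.cl.ms_mul τ0.le ((one_le_div τ0).2 h2)
    rw [div_mul_cancel₀ _ τ0.ne'] at a
    refine le_trans (le_of_eq (by ring)) (num F (j := 192) (y := τ * Pf τ / 4) c0 (by positivity) e
      (by norm_num) (by norm_num) ?_)
    calc _ ≤ 4 * (y / τ) ^ 2 * S.ms τ * (τ * Pf τ / 4) := by gcongr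
      _ = S.ms τ * Pf τ * τ ^ 3 / τ ^ 4 * y ^ 2 := by field_simp
      _ ≤ S.ms τ * Pf τ * max τ l ^ 3 / τ ^ 4 * y ^ 2 := by gcongr; exact le_max_left _ _
      _ ≤ _ := by gcongr; exact hb τ h1 (h2.trans hT)
  rw [cum, cut_eq F, mul_assoc]
  refine decq F c0 (by positivity) (fun k hk => by split_ifs; exacts [g0 k hk, le_rfl])
    (fun v v0 e => (cut_le (fun k hk => g0 k (lz_sub F hk)) fun _ hk _ => hk).trans
      (d_lo F K v0 (k v e _ le_rfl ly)))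
    (fun v v0 e τ h1 h2 => ?_)
    fun v v0 e => (cut_le (fun k hk => g0 k (sb_sub F.cl hk)) fun k hk c => ?_).trans
      (d_sb F K ly hT v0 (k v e _ ly le_rfl))
  · rcases le_or_gt τ y with c | c
    · exact (cut_le (fun k hk => g0 k (sb_sub F.cl hk)) fun _ hk _ => hk).trans
        (d_sb F K h1 h2 v0 (k v e _ h1 c))
    · exact (sum_eq_zero fun k hk => if_neg fun e =>
        absurd ((mem_sb.1 hk).2.1.trans e.2) (not_le.2 c)).trans_le v0
  · rcases mem_union.1 hk with e | e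
    · exact mem_sb.2 ⟨(mem_sb.1 e).1, hT.trans (mem_sb.1 e).2.1, by linarith [c.2]⟩
    · exact absurd c.1 (not_lt.2 (mem_Ico.1 e).1)

theorem A1 (hy : 2 * p.ye < T0 S (p.gst P t)) :
    Λ₀ * (∑ k ∈ (Ioo S.jl S.J).filter fun k => (p.gst P t).s k ≤ 2 * p.ye, (p.gst P t).dz m x k *
      (R82.mt p t ((p.gst P t).s k) * |(p.gst P t).del m x k|)) ^ 2 ≤
      E ^ 10 * (S.θ * ((1 / E ^ 200) ^ 2 * n4 p)) := by
  have E0 := F.E0
  have a4 := F.n40
  have θ0 := F.θ0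
  have l00 := F.l00
  have c0 : 0 < Λ₀ := by linarith [F.nr.L1]
  have g0 : ∀ k ∈ Ioo S.jl (p.gst P t).N, 0 ≤ (p.gst P t).dz m x k *
      (R82.mt p t ((p.gst P t).s k) * |(p.gst P t).del m x k|) :=
    fun k hk => mul_nonneg (dz0 F hk) (mul_nonneg (F.mt0 (F.cl.s_nn k)) (abs_nonneg _))
  have k : ∀ v, Λ₀ * v ^ 2 = E ^ 4 * (S.θ * ((1 / E ^ 200) ^ 2 * n4 p)) → ∀ τ, l0 ≤ τ →
      τ ≤ T0 S (p.gst P t) → 48 * E ^ 3 * (τ * Pf τ) ≤ (v * τ / (4 * S.ms τ)) ^ 2 :=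
    fun v e τ h1 h2 => by
      have τ0 := l00.trans_le h1
      have m1 := F.cl.ms_pos τ0.le
      have a := num F (j := 768) (y := S.ms τ ^ 2 * Pf τ / τ) c0 (by positivity) e (by norm_num)
        (by norm_num) (le_trans (le_of_eq (by ring)) (F.nr.j τ h1 h2))
      calc _ = 768 * E ^ 3 * (S.ms τ ^ 2 * Pf τ / τ) * (τ / (4 * S.ms τ)) ^ 2 := by field_simp; ring
        _ ≤ v ^ 2 * (τ / (4 * S.ms τ)) ^ 2 := by gcongr
        _ = _ := by ring
  rw [cut_eq F]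
  refine decq F c0 (by positivity) (fun k hk => by split_ifs; exacts [g0 k hk, le_rfl])
    (fun v v0 e => (cut_le (fun k hk => g0 k (lz_sub F hk)) fun _ hk _ => hk).trans ?_)
    (fun v v0 e τ h1 h2 => (cut_le (fun k hk => g0 k (sb_sub F.cl hk)) fun _ hk _ => hk).trans ?_)
    fun v v0 e => (sum_eq_zero fun k hk => if_neg fun c => ?_).trans_le v0
  · have m1 := F.cl.ms_pos l00.le
    refine (fac (B := 4 * S.ms l0 / l0) (fun k hk => dz0 F (lz_sub F hk)) (fun _ => abs_nonneg _)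
      (by positivity) (fun k hk => (mt_lo F (mem_filter.1 hk).2.le F.nr.r0
        (F.nr.l0l.trans (l_ye F))).trans (by gcongr; linarith))
      (d_lo F K (by positivity) (k v e _ le_rfl (l0_T F)))).trans (le_of_eq (by field_simp))
  · have τ0 := l00.trans_le h1
    have m1 := F.cl.ms_pos τ0.le
    refine (fac (B := 4 * S.ms τ / τ) (fun k hk => dz0 F (sb_sub F.cl hk)) (fun _ => abs_nonneg _)
      (by positivity) (fun k hk => F.mt_le (F.ms_blk h1 hk) τ0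
        ((mem_sb.1 hk).2.1.trans (le_max_left _ _)) (by positivity))
      (d_sb F K h1 h2 (by positivity) (k v e _ h1 h2))).trans (le_of_eq (by field_simp))
  · rcases mem_union.1 hk with e | e
    · linarith [(mem_sb.1 e).2.1, c.2]
    · exact absurd c.1 (not_lt.2 (mem_Ico.1 e).1)

end M4

/-- **the sums of moments on the frame** -/
theorem msS : MsS := fun β hβ => by
  refine Sml.glue' hβ (fxS hβ) 2 one_pos 2 ?_
  intro c0 C0 A c η _ _ hc _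
  refine ⟨0, fun p H _ _ hη _ σ σ' P t a a' Q m _ S l Φ Pf l0 Λ₀ Pt u1 V4 I F x hx => ?_⟩
  obtain ⟨G, K⟩ := F.mkk x hx
  have E0 := F.E0
  have y0 := H.ye0
  have e : ((p.n : ℝ) ^ η) ^ 5 * p.ye ≤ 1 := by
    rw [Pm.ye, Pm.κ, H.hc, ← rpow_natCast, ← rpow_natCast (_ ^ (-c)), ← rpow_mul H.N0.le,
      ← rpow_mul H.N0.le, ← rpow_add H.N0]
    exact rpow_le_one_of_one_le_of_nonpos H.N1.le (by push_cast at hη ⊢; linarith)
  have hy : 2 * p.ye < T0 S (p.gst P t) := by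
    refine lt_of_mul_lt_mul_left (lt_of_lt_of_le ?_ (e.trans F.T0_ge)) (by positivity)
    nlinarith [mul_le_mul_of_nonneg_right F.E1 (mul_pos (pow_pos E0 4) y0).le,
      mul_pos (pow_pos E0 4) y0]
  exact ⟨M38.ms_sup F hx, M4.N1 F K, M38.ms_N2 F hx, M4.Ga F K, M4.Gb F K, M4.A1 F K hy,
    M38.ms_u2 F hx, M38.ms_u3 F hx, M38.ms_u3' F hx, M38.ms_s0 F hx⟩

end Crest.Agent.T156.Alt.P60

end
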