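import Crest.Agent.T156.LP_62
import Crest.Agent.T156.QLow_33
import Crest.Agent.T156.ClReg_29
import Crest.Agent.T156.LPe_12
import Crest.Agent.T156.QDef_57
import Crest.Agent.T156.LPc_32

-- ▼ part T156/LPm_17
section

/-!
# Row 156: the moment kit from its blocks, glue `MomG` (helper17)
-/

set_option autoImplicit false

noncomputable section

namespace Crest.Agent.T156.Alt.R62

open Real Finset Filter
open Crest.Agent.T156.Cas Crest.Agent.T156.Cas.Lp12 Crest.Agent.T156.Alt.Md67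

namespace M17

theorem sum_cover {T I : Finset ℕ} {B : ℕ → Finset ℕ} {f : ℕ → ℝ} {c : ℝ} (hf : ∀ k, 0 ≤ f k)
    (h : ∀ k ∈ T, ∃ i ∈ I, k ∈ B i) (hc : ∀ i ∈ I, ∑ k ∈ B i, f k ≤ c) :
    ∑ k ∈ T, f k ≤ I.card * c := by
  have a1 : ∑ k ∈ T, f k ≤ ∑ k ∈ T, ∑ i ∈ I, if k ∈ B i then f k else 0 :=
    sum_le_sum fun k hk => by
      obtain ⟨i, hi, hk⟩ := h k hk
      refine le_trans (le_of_eq (if_pos hk).symm) (single_le_sum
        (f := fun i => if k ∈ B i then f k else 0) (fun j _ => ?_) hi)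
      split_ifs
      exacts [hf k, le_rfl]
  rw [sum_comm] at a1
  refine a1.trans ((sum_le_card_nsmul _ _ c fun i hi => ?_).trans_eq (nsmul_eq_mul _ _))
  rw [← sum_filter]
  exact (sum_le_sum_of_subset_of_nonneg (fun k hk => (mem_filter.1 hk).2) fun k _ _ => hf k).trans
    (hc i hi)

theorem sum_sub2 {T A B : Finset ℕ} {f : ℕ → ℝ} (hf : ∀ k, 0 ≤ f k) (h : T ⊆ A ∪ B) :
    ∑ k ∈ T, f k ≤ ∑ k ∈ A, f k + ∑ k ∈ B, f k :=
  (sum_le_sum_of_subset_of_nonneg h fun k _ _ => hf k).trans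
    (sum_union_inter.symm.ge.trans' (le_add_of_nonneg_right (sum_nonneg fun k _ => hf k)))

variable {S : Sc} {M : Md} {m p : ℕ} {a : ℝ}

theorem dz_lo (G : Lg M m a) {T : Finset ℕ} {x : ℝ} (hx : 0 ≤ x) (z0 : 0 ≤ M.z 0)
    (h : ∀ k ∈ T, 0 < k ∧ M.z k ≤ x) : ∑ k ∈ T, M.dz m a k ≤ x := by
  rcases T.eq_empty_or_nonempty with rfl | hT
  · simpa using hx
  refine (sum_le_sum_of_subset_of_nonneg (t := Ioc 0 (T.max' hT)) (fun k hk =>
    mem_Ioc.2 ⟨(h k hk).1, T.le_max' k hk⟩) fun k _ _ => G.dz_nonneg k).trans ?_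
  rw [sum_dz G.toLeg (Nat.zero_le _)]
  linarith [(h _ (T.max'_mem hT)).2]

theorem dz_hi (G : Lg M m a) {T : Finset ℕ} {x : ℝ} (hx : 0 ≤ x)
    (h : ∀ k ∈ T, 0 < k ∧ k ≤ M.N ∧ 1 - M.z (k - 1) ≤ x) : ∑ k ∈ T, M.dz m a k ≤ x := by
  rcases T.eq_empty_or_nonempty with rfl | hT
  · simpa using hx
  obtain ⟨h1, h2, h3⟩ := h _ (T.min'_mem hT)
  refine (sum_le_sum_of_subset_of_nonneg (t := Ioc (T.min' hT - 1) M.N) (fun k hk =>
    mem_Ioc.2 ⟨by have := T.min'_le k hk; omega, (h k hk).2.1⟩) fun k _ _ => G.dz_nonneg k).trans ?_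
  rw [sum_dz G.toLeg (by omega), G.zN]
  exact h3

/-- both moment bounds at the node `k` -/
def Ok (M : Md) (m : ℕ) (a : ℝ) (p k : ℕ) (g : ℝ) : Prop :=
  M.E2 m a (fun R => (R - M.q k) ^ (2 * p)) k ≤ g ^ (2 * p) ∧
    M.Mo m a p (fun x => M.rP m a k x - M.q k) g

theorem Ok.mono {k : ℕ} {g g' : ℝ} (h : Ok M m a p k g) (e : g ≤ g') : Ok M m a p k g' :=
  ⟨h.1.trans (pow_le_pow_left₀ h.2.nn e _), h.2.mono e⟩

/-- the exact norm -/
def ex (M : Md) (m : ℕ) (a : ℝ) (p k : ℕ) : ℝ :=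
  max (M.E2 m a (fun R => (R - M.q k) ^ (2 * p)) k ^ (((2 * p : ℕ) : ℝ)⁻¹))
    (nr (fun _ => 1) (M.L m a) 0 p fun x => M.rP m a k x - M.q k)

theorem E_nn (k : ℕ) : 0 ≤ M.E2 m a (fun R => (R - M.q k) ^ (2 * p)) k :=
  E2_nonneg (fun r _ => by rw [pow_mul]; positivity) k

theorem ok_ex (hp : p ≠ 0) (k : ℕ) : Ok M m a p k (ex M m a p k) :=
  ⟨(rpow_inv_natCast_pow (E_nn k) (by omega)).ge.trans
    (pow_le_pow_left₀ (rpow_nonneg (E_nn k) _) (le_max_left _ _) _),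
    (mo_nr hp ((C33.ep_rP k).sub (EP.const _))).mono (le_max_right _ _)⟩

theorem Ok.ex_le (hp : p ≠ 0) {k : ℕ} {g : ℝ} (h : Ok M m a p k g) : ex M m a p k ≤ g :=
  max_le ((pow_le_pow_iff_left₀ (rpow_nonneg (E_nn k) _) h.2.nn (by omega : 2 * p ≠ 0)).1
    ((rpow_inv_natCast_pow (E_nn k) (by omega)).trans_le h.1)) (h.2.nr_le hp)

/-- from the uncentred bounds -/
theorem ok_of (hp : p ≠ 0) {k : ℕ} {D : ℝ} (h0 : 0 ≤ M.q k) (h1 : M.q k ≤ D)
    (h2 : M.Mo m a p (M.rP m a k) D) (h3 : M.E2 m a (fun R => R ^ (2 * p)) k ≤ D ^ (2 * p)) :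
    Ok M m a p k (2 * D) := by
  constructor
  · have e : ∀ r : ℝ, (r - M.q k) ^ (2 * p) ≤ 2 ^ (2 * p - 1) * (r ^ (2 * p) + D ^ (2 * p)) :=
      fun r => by
        have ev : Even (2 * p) := even_two_mul p
        rw [← ev.pow_abs, ← ev.pow_abs r]
        exact (pow_le_pow_left₀ (abs_nonneg _) ((abs_sub _ _).trans (add_le_add_right
          ((abs_of_nonneg h0).trans_le h1) _)) _).trans (add_pow_le (abs_nonneg r) h2.nn _)
    refine (E2_mono (fun r _ => e r) k).trans ?_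
    rw [E2_mul, E2_add, E2_const, mul_pow]
    have : (2 : ℝ) ^ (2 * p) = 2 ^ (2 * p - 1) * 2 := by
      rw [← pow_succ]; congr 1; omega
    rw [this, mul_assoc]
    exact mul_le_mul_of_nonneg_left (by linarith) (by positivity)
  · refine ((h2.add Link33.wt1 (Mo.const Link33.wt1 (-M.q k))).congr
      fun _ => sub_eq_add_neg _ _).mono ?_
    rw [abs_neg, abs_of_nonneg h0]
    linarith

theorem ok_two (h : Cl S M) (hm : 0 < m) (hp : p ≠ 0) {k : ℕ} (hk : k ≤ M.N) : Ok M m a p k 2 := by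
  simpa using ok_of hp (h.q_nn hk) (Cl.q_le_one k) (C33.mo_one hm p k) (E2_le (fun r hr => by
    rw [one_pow, ← (even_two_mul p).pow_abs]
    exact pow_le_one₀ (abs_nonneg r) hr) k)

/-- the majorant -/
def GG (S : Sc) (M : Md) (m : ℕ) (a : ℝ) (p k : ℕ) : ℝ := min 2 (max S.v (ex M m a p k))

theorem GG_pos (h : Cl S M) (k : ℕ) : 0 < GG S M m a p k :=
  lt_min two_pos (h.v0.trans_le (le_max_left _ _))

theorem GG_ok (h : Cl S M) (hm : 0 < m) (hp : p ≠ 0) {k : ℕ} (hk : k ≤ M.N) :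
    Ok M m a p k (GG S M m a p k) :=
  (ok_ex hp k).mono (le_min ((ok_two h hm hp hk).ex_le hp) (le_max_right _ _))

theorem GG_le (hp : p ≠ 0) {k : ℕ} {g : ℝ} (h : Ok M m a p k g) : GG S M m a p k ≤ max S.v g :=
  (min_le_right _ _).trans (max_le_max le_rfl (h.ex_le hp))

theorem GG_sum (h : Cl S M) (G : Lg M m a) {Γ : ℕ → ℝ} (Γ0 : ∀ k, 0 < Γ k) {T : Finset ℕ}
    {g : ℕ → ℝ} (i : ℕ) (hT : ∀ k ∈ T, 0 < k ∧ 0 ≤ g k ∧ Γ k ≤ max S.v (g k)) :
    ∑ k ∈ T, M.dz m a k * Γ k ^ i ≤ S.v ^ i + ∑ k ∈ T, M.dz m a k * g k ^ i := by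
  have v0 := h.v0
  have a1 := dz_lo G zero_le_one (h.z_pos 0).le fun k hk => ⟨(hT k hk).1, h.leg.z1 k⟩
  refine le_trans (sum_le_sum fun k hk => mul_le_mul_of_nonneg_left
    (?_ : _ ≤ S.v ^ i + g k ^ i) (G.dz_nonneg k)) ?_
  · have g0 := (hT k hk).2.1
    refine (pow_le_pow_left₀ (Γ0 k).le (hT k hk).2.2 i).trans ?_
    rcases max_choice S.v (g k) with e | e <;> rw [e]
    · exact le_add_of_nonneg_right (by positivity)
    · exact le_add_of_nonneg_left (by positivity)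
  · simp only [mul_add, sum_add_distrib, ← sum_mul]
    exact add_le_add_left (mul_le_of_le_one_left (by positivity) a1) _

theorem sum_le_of (G : Lg M m a) {T : Finset ℕ} {g : ℕ → ℝ} {c x : ℝ} (hc : 0 ≤ c)
    (h : ∀ k ∈ T, g k ≤ c) (hx : ∑ k ∈ T, M.dz m a k ≤ x) : ∑ k ∈ T, M.dz m a k * g k ≤ x * c := by
  refine (sum_le_sum fun k hk => mul_le_mul_of_nonneg_left (h k hk) (G.dz_nonneg k)).trans ?_
  rw [← sum_mul]
  exact mul_le_mul_of_nonneg_right hx hc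

end M17

open M17

/-- the moment kit at a fixed size -/
theorem mk_of {S : Sc} {M : Md} {m p : ℕ} {a E lam l Φ : ℝ} {P : ℝ → ℝ} {l0 Λ₀ Λ₁ Pt Vt u1 V4 : ℝ}
    {Q : ℕ → ℝ → Prop} {Γ : ℕ → ℝ} (Γ0 : ∀ k, 0 < Γ k) (Γ2 : ∀ k, Γ k ≤ 2)
    (Γok : ∀ k ≤ M.N, Ok M m a p k (Γ k)) (Γle : ∀ {k g}, Q k g → 0 ≤ g ∧ Γ k ≤ max S.v g)
    (h : Cl S M) (I : S.In m a) (E1 : 1 ≤ E) (l1 : 1000 ≤ lam) (lC : S.C ≤ lam)
    (cnt : ∀ i : ℕ, 2 ^ i ≤ S.C ^ 2 * M.N → (i : ℝ) ≤ lam ^ 3)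
    (N : KN S M E l Φ P l0 Λ₀ Λ₁ Pt Vt u1 V4)
    (low : ∀ k ≤ M.N, ∀ D, M.q k ≤ D → lam * lam * max (M.z k) l ≤ D → Q k (2 * D))
    (blk : ∀ t, l0 ≤ t → t ≤ T0 S M → ∃ G : ℕ → ℝ, (∀ k, 0 < G k ∧ G k ≤ lam * l) ∧
      (∀ k ∈ sb S M t (2 * t), Q k (G k)) ∧
      ∑ k ∈ sb S M t (2 * t), M.dz m a k * G k ^ 2 ≤ lam * P t ∧
      ∑ k ∈ sb S M t (2 * t), M.dz m a k * ja M m a 0 k ≤ lam * S.w3 t * max t l ∧
      ∑ k ∈ sb S M t (2 * t), M.dz m a k * ja M m a 2 k ≤ lam * S.w3 t * P t ∧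
      ∑ k ∈ sb S M t (2 * t), M.dz m a k * ja M m a 4 k ≤ lam * S.w3 t * (P t * l ^ 2))
    (top : ∃ G : ℕ → ℝ, (∀ k, 0 < G k) ∧ (∀ k < S.J, G k ≤ lam * l) ∧
      (∀ k ∈ tz S M u1, Q k (G k)) ∧
      ∑ k ∈ tz S M u1, M.dz m a k * G k ^ 2 ≤ lam * Pt ∧
      ∑ k ∈ tz S M u1, M.dz m a k * G k ^ 4 ≤ lam * V4 ∧
      ∑ k ∈ tz S M u1, M.dz m a k * ja M m a 0 k ≤ lam * Λ₀ * S.w3 1 ∧
      ∑ k ∈ tz S M u1, M.dz m a k * ja M m a 2 k ≤ lam * Λ₀ * S.w3 1 * Pt ∧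
      ∑ k ∈ tz S M u1, M.dz m a k * ja M m a 4 k ≤ lam * Λ₀ * S.w3 1 * V4) :
    MK S M p (lam ^ 19) m a l Φ P l0 Λ₀ Pt u1 V4 Γ := by
  have G : Lg M m a := lg_cl h h.n1 I
  have C1 := h.C1
  have v0 := h.v0
  have i0 := h.i0
  have i1 := h.i1
  have i2 := h.i2
  have i3 := h.i3
  have i4 := h.i4
  have m1 : 1 ≤ lam := by linarith
  have lp : ∀ {i j : ℕ}, i ≤ j → lam ^ i ≤ lam ^ j := fun e => pow_le_pow_right₀ m1 e
  have L19 : lam ≤ lam ^ 19 := le_self_pow₀ m1 (by norm_num)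
  have s0 : 0 < M.s S.jl := h.s_pos (by omega)
  have l00 : 0 < l0 := by linarith [N.jl]
  have l0' : 0 < l := l00.trans_le N.l0l
  have ll1 : l ≤ 1 := by nlinarith [N.l1]
  have vP : S.v ≤ Pt := N.Ptw.2
  have vΦ : S.v ≤ Φ := vP.trans N.PtΦ
  have vl : S.v ≤ l := vΦ.trans (N.l3 ▸ pow_le_of_le_one l0'.le ll1 (by norm_num))
  have v1 : S.v ≤ 1 := vl.trans ll1
  have v2 : S.v ^ 2 ≤ S.v := pow_le_of_le_one v0.le v1 two_ne_zero
  have TC : T0 S M ≤ S.C := by linarith [h.s_le_C i3, h.s_nn S.J, show T0 S M = M.s S.J / 16 from rfl]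
  have vPt : ∀ t, t ≤ T0 S M → S.v ≤ P t := fun t ht => by
    rcases le_total t l with e | e
    · rw [N.Plo t (e.trans (le_mul_of_one_le_left l0'.le E1))]; exact vΦ
    · exact (N.Pw t e (ht.trans TC)).2
  have u0 : S.ue ≤ u1 / 8 := by linarith [N.ue]
  have u00 : 0 ≤ u1 := by linarith [h.last, h.leg.z1 (S.Jp - 1)]
  have V1 : Pt * l ^ 2 + u1 ≤ V4 := le_trans (by
    rw [add_assoc]
    exact le_add_of_nonneg_left (sum_nonneg fun k _ =>
      mul_nonneg (sub_nonneg.2 (h.leg.zm (Nat.sub_le k 1))) (by positivity))) N.s4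
  have Pl : 0 ≤ Pt * l ^ 2 := mul_nonneg (v0.le.trans vP) (sq_nonneg l)
  have v4 : S.v ^ 4 ≤ V4 := by
    calc S.v ^ 4 = S.v ^ 2 * S.v ^ 2 := by ring
      _ ≤ Pt * l ^ 2 := mul_le_mul (v2.trans vP) (by gcongr) (by positivity) (v0.le.trans vP)
      _ ≤ _ := by linarith
  have V0 : 0 ≤ V4 := le_trans (by positivity) v4
  have g0 : ∀ i k, 0 ≤ M.dz m a k * Γ k ^ i := fun i k =>
    mul_nonneg (G.dz_nonneg k) (pow_nonneg (Γ0 k).le i)
  have zl : ∀ k, S.jl ≤ k → k < S.J → M.s k < l0 → M.z k ≤ 3 * lam * l := fun k k1 k2 k3 => by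
    have := (h.z_s (i1.trans k1) k2).2
    nlinarith [N.l0l, mul_le_mul lC (show M.s k + 2 * S.v ≤ 3 * l by linarith [N.l0l])
      (by linarith [h.s_nn k]) (by linarith)]
  have ml : ∀ {x : ℝ}, x ≤ lam ^ 4 * l → max S.v x ≤ lam ^ 4 * l := fun hx =>
    max_le (vl.trans (le_mul_of_one_le_left l0'.le (one_le_pow₀ m1))) hx
  have l14 : lam * l ≤ lam ^ 4 * l :=
    mul_le_mul_of_nonneg_right (le_self_pow₀ m1 (by norm_num)) l0'.le
  obtain ⟨Gt, -, t1, t2, t3, t4, t5, t6, t7⟩ := top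
  have sl : ∀ k, S.jl ≤ k → k < S.J → Γ k ≤ lam ^ 4 * l := fun k k1 k2 => by
    rcases lt_or_ge (M.s k) l0 with e | e
    · have b1 : lam * lam * max (M.z k) l ≤ 3 * lam ^ 3 * l := by
        have : max (M.z k) l ≤ 3 * lam * l := max_le (zl k k1 k2 e) (by nlinarith)
        nlinarith [mul_le_mul_of_nonneg_left this (by positivity : 0 ≤ lam * lam)]
      have b4 : l ≤ 3 * lam ^ 3 * l :=
        le_mul_of_one_le_left l0'.le (by linarith [one_le_pow₀ (n := 3) m1])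
      refine (Γle (low k (by omega) _ ((h.q_le_s (by omega)).trans
        (e.le.trans (N.l0l.trans b4))) b1)).2.trans (ml ?_)
      nlinarith [mul_pos (pow_pos (by linarith : 0 < lam) 3) l0']
    have k3 : S.jl < k := lt_of_le_of_ne k1 fun e' => by subst e'; linarith [N.jl]
    rcases le_total (M.s k) (T0 S M) with e' | e'
    · obtain ⟨g, b1, b2, -⟩ := blk _ e e'
      exact (Γle (b2 k (mem_filter.2 ⟨mem_Ioo.2 ⟨k3, k2⟩, le_rfl, by
        linarith [h.s_nn k]⟩))).2.trans (ml ((b1 k).2.trans l14))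
    · exact (Γle (t2 k (mem_union_left _ (mem_filter.2 ⟨mem_Ioo.2 ⟨k3, k2⟩, e',
        h.s_le_C (by omega)⟩)))).2.trans (ml ((t1 k k2).trans l14))
  have b2 : ∀ t, l0 ≤ t → t ≤ T0 S M →
      ∑ k ∈ sb S M t (2 * t), M.dz m a k * Γ k ^ 2 ≤ 2 * lam * P t := fun t e e' => by
    obtain ⟨g, -, b2, b3, -⟩ := blk t e e'
    have := GG_sum h G Γ0 (T := sb S M t (2 * t)) 2 fun k hk =>
      ⟨Nat.zero_lt_of_lt (mem_Ioo.1 (mem_filter.1 hk).1).1, Γle (b2 k hk)⟩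
    linarith [vPt t e', le_mul_of_one_le_left (v0.le.trans (vPt t e')) m1]
  have fin : ∑ k ∈ Ico S.J M.N \ pl S M u1, M.dz m a k ≤ u1 := dz_hi G u00 fun k hk => by
    obtain ⟨k1, k2⟩ := mem_sdiff.1 hk
    obtain ⟨k3, k4⟩ := mem_Ico.1 k1
    refine ⟨by omega, k4.le, ?_⟩
    rcases lt_or_ge k S.Jp with e | e
    · exact (not_le.1 fun e' => k2 (mem_filter.2 ⟨mem_Ico.2 ⟨k3, e⟩, e'⟩)).le
    · linarith [h.last, h.leg.zm (show S.Jp - 1 ≤ k - 1 by omega)]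
  have tz0 : ∀ k ∈ tz S M u1, 0 < k := fun k hk => by
    rcases mem_union.1 hk with e | e
    · exact Nat.zero_lt_of_lt (mem_Ioo.1 (mem_filter.1 e).1).1
    · have := (mem_Ico.1 (mem_filter.1 e).1).1; omega
  have tt : ∀ i, ∑ k ∈ sb S M (T0 S M) S.C ∪ Ico S.J M.N, M.dz m a k * Γ k ^ i ≤
      S.v ^ i + ∑ k ∈ tz S M u1, M.dz m a k * Gt k ^ i + u1 * 2 ^ i := fun i => by
    refine (sum_sub2 (A := tz S M u1) (B := Ico S.J M.N \ pl S M u1) (g0 i) fun k hk => ?_).trans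
      (add_le_add (GG_sum h G Γ0 i fun k hk => ⟨tz0 k hk, Γle (t2 k hk)⟩)
        (sum_le_of G (by positivity) (fun k _ =>
          pow_le_pow_left₀ (Γ0 k).le (Γ2 k) i) fin))
    rcases mem_union.1 hk with e | e
    · exact mem_union_left _ (mem_union_left _ e)
    · by_cases e' : k ∈ pl S M u1
      · exact mem_union_left _ (mem_union_right _ e')
      · exact mem_union_right _ (mem_sdiff.2 ⟨e, e'⟩)
  have T2 : ∑ k ∈ sb S M (T0 S M) S.C ∪ Ico S.J M.N, M.dz m a k * Γ k ^ 2 ≤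
      2 * lam * Pt := by nlinarith [tt 2, N.u1P.2]
  have T4 : ∑ k ∈ sb S M (T0 S M) S.C ∪ Ico S.J M.N, M.dz m a k * Γ k ^ 4 ≤
      2 * lam * V4 := by nlinarith [tt 4]
  have Φ0 : 0 ≤ Φ := v0.le.trans vΦ
  have tot : ∑ k ∈ Ioo S.jl M.N, M.dz m a k * Γ k ^ 2 ≤ lam ^ 10 * Φ := by
    set A := (Ioo S.jl S.J).filter fun k => M.s k < l0
    set B := (Ioo S.jl S.J).filter fun k => l0 ≤ M.s k ∧ M.s k ≤ T0 S M
    have a1 : ∑ k ∈ A, M.dz m a k * Γ k ^ 2 ≤ 3 * lam * l * (lam ^ 4 * l) ^ 2 :=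
      sum_le_of G (by positivity) (fun k hk => by
        have := mem_Ioo.1 (mem_filter.1 hk).1
        exact pow_le_pow_left₀ (Γ0 k).le (sl k this.1.le this.2) 2)
        (dz_lo G (by positivity) (h.z_pos 0).le fun k hk => by
          have := mem_Ioo.1 (mem_filter.1 hk).1
          exact ⟨by omega, zl k this.1.le this.2 (mem_filter.1 hk).2⟩)
    have a2 := sum_cover (T := B) (I := (range (⌊lam ^ 3⌋₊ + 1)).filter fun i => 2 ^ i * l0 ≤ T0 S M)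
      (B := fun i => sb S M (2 ^ i * l0) (2 * (2 ^ i * l0))) (c := 2 * lam * Φ) (g0 2)
      (fun k hk => by
        obtain ⟨k1, k2, k3⟩ := mem_filter.1 hk
        obtain ⟨i, e1, e2⟩ := exists_nat_pow_near ((one_le_div l00).2 k2) one_lt_two
        rw [le_div_iff₀ l00] at e1
        rw [div_lt_iff₀ l00, pow_succ'] at e2
        refine ⟨i, mem_filter.2 ⟨mem_range.2 (Nat.lt_succ_of_le (Nat.le_floor (cnt i ?_))),
          e1.trans k3⟩, mem_filter.2 ⟨k1, e1, by linarith⟩⟩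
        have k4 := (mem_Ioo.1 k1).2
        have c1 := (h.s_bds k4.le).2
        have c2 := (h.s_bds h.jl_lt.le).1
        have c3 : (1 : ℝ) ≤ S.jl := by exact_mod_cast i0.trans i1
        have c4 : (k : ℝ) ≤ M.N := by exact_mod_cast (by omega : k ≤ M.N)
        have c5 : 0 < S.v / S.C := by positivity
        have c6 : S.v / S.C ≤ l0 := by nlinarith [N.jl]
        refine le_of_mul_le_mul_right ?_ c5
        calc _ ≤ 2 ^ i * l0 := by gcongr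
          _ ≤ M.N * (S.C * S.v) := e1.trans (c1.trans (by gcongr))
          _ = _ := by field_simp)
      fun i hi => (b2 _ (le_mul_of_one_le_left l00.le (one_le_pow₀ one_le_two))
        (mem_filter.1 hi).2).trans (mul_le_mul_of_nonneg_left (N.PΦ _) (by positivity))
    have a3 : (((range (⌊lam ^ 3⌋₊ + 1)).filter fun i => 2 ^ i * l0 ≤ T0 S M).card : ℝ) ≤
        2 * lam ^ 3 := by
      have := card_filter_le (range (⌊lam ^ 3⌋₊ + 1)) fun i => 2 ^ i * l0 ≤ T0 S M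
      rw [card_range] at this
      have b : ((⌊lam ^ 3⌋₊ + 1 : ℕ) : ℝ) ≤ 2 * lam ^ 3 := by
        push_cast; linarith [Nat.floor_le (show 0 ≤ lam ^ 3 by positivity), one_le_pow₀ (n := 3) m1]
      exact le_trans (by exact_mod_cast this) b
    have a4 := a2.trans (mul_le_mul_of_nonneg_right a3 (by positivity))
    have a5 := T2.trans (mul_le_mul_of_nonneg_left N.PtΦ (by positivity))
    have a6 := (sum_sub2 (T := Ioo S.jl M.N) (A := A ∪ B) (B := sb S M (T0 S M) S.C ∪ Ico S.J M.N)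
      (g0 2) fun k hk => by
        obtain ⟨k1, k2⟩ := mem_Ioo.1 hk
        rcases lt_or_ge k S.J with e | e
        · have k3 := mem_Ioo.2 ⟨k1, e⟩
          rcases lt_or_ge (M.s k) l0 with e1 | e1
          · exact mem_union_left _ (mem_union_left _ (mem_filter.2 ⟨k3, e1⟩))
          rcases le_total (M.s k) (T0 S M) with e2 | e2
          · exact mem_union_left _ (mem_union_right _ (mem_filter.2 ⟨k3, e1, e2⟩))
          · exact mem_union_right _ (mem_union_left _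
              (mem_filter.2 ⟨k3, e2, h.s_le_C (by omega)⟩))
        · exact mem_union_right _ (mem_union_right _ (mem_Ico.2 ⟨e, k2⟩))).trans
      (add_le_add (sum_sub2 (g0 2) subset_rfl) le_rfl)
    have e1 : 3 * lam * l * (lam ^ 4 * l) ^ 2 = 3 * (lam ^ 9 * Φ) := by rw [← N.l3]; ring
    have e2 : lam ^ 4 * Φ ≤ lam ^ 9 * Φ := mul_le_mul_of_nonneg_right (lp (by norm_num)) Φ0
    have e3 : lam ^ 1 * Φ ≤ lam ^ 9 * Φ := mul_le_mul_of_nonneg_right (lp (by norm_num)) Φ0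
    have e4 : 9 * (lam ^ 9 * Φ) ≤ lam * (lam ^ 9 * Φ) :=
      mul_le_mul_of_nonneg_right (by linarith) (by positivity)
    rw [e1] at a1
    linarith
  have L2 : 2 * lam ≤ lam ^ 19 := le_trans (by nlinarith) (lp (show 2 ≤ 19 by norm_num))
  have w0 : ∀ t, l0 ≤ t → 0 ≤ S.w3 t := fun t ht => by
    have := h.ms_pos (l00.le.trans ht)
    have := h.F1
    have := l00.trans_le ht
    unfold Sc.w3
    positivity
  have w1 := w0 1 (N.l0l.trans ll1)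
  have Λ0 : 0 ≤ Λ₀ := by linarith [N.L1.1, N.L1.2.1]
  have P0 := v0.le.trans vP
  refine ⟨Γ0, Γ2, fun k _ hk => (Γok k hk).1, fun k _ hk => (Γok k hk).2, fun k k1 k2 => (sl k k1 k2).trans
      (mul_le_mul_of_nonneg_right (lp (by norm_num)) l0'.le),
    tot.trans (mul_le_mul_of_nonneg_right (lp (by norm_num)) Φ0), ?_,
    fun t e e' => (b2 t e e').trans (mul_le_mul_of_nonneg_right L2 (v0.le.trans (vPt t e'))),
    fun t e e' => ?_, fun t e e' => ?_, fun t e e' => ?_,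
    T2.trans (mul_le_mul_of_nonneg_right L2 P0), T4.trans (mul_le_mul_of_nonneg_right L2 V0),
    t5.trans (by gcongr), t6.trans (by gcongr), t7.trans (by gcongr), by linarith⟩
  · have a1 : ∑ k ∈ Ioo S.jl S.J, M.dz m a k * Γ k ^ 4 ≤
        (lam ^ 4 * l) ^ 2 * (lam ^ 10 * Φ) := by
      refine le_trans ?_ (mul_le_mul_of_nonneg_left ((sum_le_sum_of_subset_of_nonneg
        (Ioo_subset_Ioo_right h.J_lt.le) fun k _ _ => g0 2 k).trans tot) (by positivity))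
      rw [mul_sum]
      refine sum_le_sum fun k hk => ?_
      have := pow_le_pow_left₀ (Γ0 k).le (sl k (mem_Ioo.1 hk).1.le (mem_Ioo.1 hk).2) 2
      nlinarith [mul_le_mul_of_nonneg_right this (g0 2 k)]
    have a2 := sum_sub2 (T := Ioo S.jl M.N) (A := Ioo S.jl S.J)
      (B := sb S M (T0 S M) S.C ∪ Ico S.J M.N) (g0 4) fun k hk => by
        obtain ⟨k1, k2⟩ := mem_Ioo.1 hk
        rcases lt_or_ge k S.J with e | e
        · exact mem_union_left _ (mem_Ioo.2 ⟨k1, e⟩)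
        · exact mem_union_right _ (mem_union_right _ (mem_Ico.2 ⟨e, k2⟩))
    have a3 : lam ^ 18 * (Φ * l ^ 2) ≤ lam ^ 19 * (Φ * l ^ 2) :=
      mul_le_mul_of_nonneg_right (lp (by norm_num)) (by positivity)
    linarith [mul_le_mul_of_nonneg_right L2 V0]
  · obtain ⟨g, -, -, -, b, -⟩ := blk t e e'
    have := w0 t e
    have : 0 ≤ max t l := l0'.le.trans (le_max_right _ _)
    exact b.trans (by gcongr)
  · obtain ⟨g, -, -, -, -, b, -⟩ := blk t e e'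
    have := w0 t e
    have := v0.le.trans (vPt t e')
    exact b.trans (by gcongr)
  · obtain ⟨g, -, -, -, -, -, b⟩ := blk t e e'
    have := w0 t e
    have := v0.le.trans (vPt t e')
    exact b.trans (by gcongr)

/-- the side facts of the glue at a fixed size -/
theorem side {C ε η K lam : ℝ} {A : ℕ} {S : Sc} {M : Md} {m : ℕ} {a l Φ : ℝ} {P : ℝ → ℝ}
    {l0 Λ₀ Λ₁ Pt Vt u1 V4 : ℝ} (hε : 0 < ε) (R : RgC C A (η / 19) K S) (h : Cl S M)
    (hlam : lam = (S.n : ℝ) ^ (η / 19)) (N : KN S M ((S.n : ℝ) ^ ε) l Φ P l0 Λ₀ Λ₁ Pt Vt u1 V4)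
    (L : LK S M m a Φ P l0 Λ₁ Pt Vt u1)
    (hK : ∀ l, M.s S.jl ≤ l → S.v ≤ l → (∀ k, S.J ≤ k → k ≤ S.Jp → M.s k = M.s S.J) →
      ∑ k ∈ Ioc S.jl S.Jp, lw M k * M.del m a k ^ 2 ≤ l ^ 3 →
      Crude K S M m a l S.jl ∧ ∀ k, S.jl ≤ k → k ≤ S.J → |M.del m a k| ≤ K * l) :
    (S.n : ℝ) ^ η = lam ^ 19 ∧ 1 ≤ (S.n : ℝ) ^ ε ∧ 0 < l ∧ M.s S.jl ≤ l ∧ S.w3 l ≤ l ^ 3 ∧
      (∀ x, lam ≤ x → Crude x S M m a l S.jl) ∧
      ∀ i : ℕ, 2 ^ i ≤ S.C ^ 2 * M.N → (i : ℝ) ≤ lam ^ 3 := by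
  have E1 : 1 ≤ (S.n : ℝ) ^ ε := one_le_rpow R.N1.le hε.le
  have m1 : 1 ≤ lam := hlam ▸ R.Λ1
  have s0 : 0 < M.s S.jl := h.s_pos (h.i0.trans h.i1)
  have sl : M.s S.jl ≤ l := by linarith [N.jl, N.l0l]
  have l0' : 0 < l := s0.trans_le sl
  have ll1 : l ≤ 1 := by nlinarith [N.l1]
  have vl : S.v ≤ l := (N.Ptw.2.trans N.PtΦ).trans
    (N.l3 ▸ pow_le_of_le_one l0'.le ll1 (by norm_num))
  obtain ⟨⟨-, c⟩, -⟩ := hK l sl vl N.flat (L.tot.trans N.l3.ge)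
  refine ⟨?_, E1, l0', sl, N.w0 l (by linarith [N.l0l, N.jl]) (ll1.trans h.C1),
    fun x hx => ⟨m1.trans hx, fun k k1 k2 => (c k k1 k2).trans (mul_le_mul_of_nonneg_right
      ((R.K_le.trans hlam.ge).trans hx) (l0'.le.trans (le_max_right _ _)))⟩, fun i hi => ?_⟩
  · rw [hlam, ← rpow_natCast, ← rpow_mul R.N0.le]; congr 1; push_cast; ring
  have n0 := R.N0
  have cn : S.C ≤ S.n := by
    linarith [R.hC, R.C_log, h.C0, log_le_sub_one_of_pos n0]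
  have a1 : (2 : ℝ) ^ i ≤ (S.n : ℝ) ^ (S.A + 3) := by
    calc _ ≤ S.C ^ 2 * M.N := hi
      _ ≤ (S.n : ℝ) ^ 2 * (S.n : ℝ) ^ (S.A + 1) := by have := h.C0; have := h.card; gcongr
      _ = _ := by ring
  have a2 := log_le_log (by positivity) a1
  rw [log_pow, log_pow, R.hA] at a2
  push_cast at a2
  have a3 : ((A : ℝ) + 3) * log S.n ≤ (lam + 3) * lam :=
    mul_le_mul (by linarith [R.A_le]) (R.log_le.trans hlam.ge) (by linarith [R.log1]) (by linarith)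
  have a4 : (i : ℝ) * (1 / 2) ≤ i * log 2 :=
    mul_le_mul_of_nonneg_left (by linarith [log_two_gt_d9]) (Nat.cast_nonneg i)
  have a5 : 1000 ≤ lam := hlam ▸ R.num_le
  nlinarith [mul_le_mul_of_nonneg_right a5 (sq_nonneg lam)]


end Crest.Agent.T156.Alt.R62

end
end

-- ▼ part T156/LPmE_17
section

/-!
# Row 156: the envelope kit from its blocks, `momE_of` (helper17)
-/

set_option autoImplicit false

noncomputable section

namespace Crest.Agent.T156.Alt.R62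

open Real Finset Filter
open Crest.Agent.T156.Cas Crest.Agent.T156.Cas.Lp12 Crest.Agent.T156.Alt.Md67

namespace M17

variable {S : Sc} {M : Md} {m p : ℕ} {a : ℝ}

/-- the least envelope -/
def ee (S : Sc) (M : Md) (m : ℕ) (a : ℝ) (k : ℕ) : ℝ := sInf {g | 0 ≤ g ∧ Env S M m a k g}

theorem env_two (h : Cl S M) {k : ℕ} (hk : k ≤ M.N) : Env S M m a k 2 :=
  (CIn12.env_triv (by
    rw [abs_of_nonneg (h.q_nn hk)]; linarith [Cl.q_le_one (M := M) k])).trans (CIn12.tlD_nn S 3)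

theorem ee_le {k : ℕ} {g : ℝ} (g0 : 0 ≤ g) (H : Env S M m a k g) : ee S M m a k ≤ g :=
  csInf_le ⟨0, fun _ hx => hx.1⟩ ⟨g0, H⟩

theorem env_ee (h : Cl S M) {k : ℕ} (hk : k ≤ M.N) : Env S M m a k (ee S M m a k) := by
  refine le_of_forall_pos_le_add fun ε hε => ?_
  obtain ⟨g, ⟨-, H⟩, e⟩ := exists_lt_of_csInf_lt (s := {g | 0 ≤ g ∧ Env S M m a k g})
    ⟨2, zero_le_two, env_two h hk⟩ (lt_add_of_pos_right (ee S M m a k) hε)
  refine (E2_mono (g := fun R => max (|R - M.q k| - g) 0 + ε) (fun r _ => max_le ?_ ?_) k).trans ?_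
  · linarith [le_max_left (|r - M.q k| - g) 0]
  · linarith [le_max_right (|r - M.q k| - g) 0]
  · rw [E2_add, E2_const]
    exact add_le_add_left H _

/-- the majorant with the envelope -/
def GE (S : Sc) (M : Md) (m : ℕ) (a : ℝ) (p k : ℕ) : ℝ :=
  min 2 (max (GG S M m a p k) (ee S M m a k))

end M17

open M17

theorem momE_of (hC : CruS) (hB : BlkE) (hT : TopBE) : MomE := fun p hp => by
  refine ((((hB p hp).and (hT p hp)).and (C33.qLowS p)).and (CIn12.env_cl 3)).glue fun C =>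
    ⟨0, fun A _ ε η hε hη => ?_⟩
  obtain ⟨K, K1, hK⟩ := hC C
  refine ⟨ε, η / 19, K, hε, by positivity, fun S M m a R h I ⟨⟨⟨b, t⟩, q⟩, e⟩
    l Φ P l0 Λ₀ Λ₁ Pt Vt u1 V4 N L => ?_⟩
  obtain ⟨e19, E1, l0', sl, w, cr, cnt⟩ := side hε R h rfl N L (hK S M R.hC h m a I)
  have p0 : p ≠ 0 := by omega
  rw [e19]
  refine ⟨cr _ (le_self_pow₀ R.Λ1 (by norm_num)), GE S M m a p, mk_of
    (Q := fun k g => Ok M m a p k g ∧ Env S M m a k g)
    (fun k => lt_min two_pos ((GG_pos h k).trans_le (le_max_left _ _))) (fun _ => min_le_left _ _)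
    (fun k hk => (GG_ok h (lg_cl h h.n1 I).m0 p0 hk).mono
      (le_min (min_le_left _ _) (le_max_left _ _)))
    (fun H => ⟨H.1.2.nn, (min_le_right _ _).trans (max_le (GG_le p0 H.1)
      ((ee_le H.1.2.nn H.2).trans (le_max_right _ _)))⟩) h I E1 R.num_le (R.C_le h) cnt N
    (fun k hk D d1 d2 => ?_) (b l Φ P l0 Λ₀ Λ₁ Pt Vt u1 V4 N L) (t l Φ P l0 Λ₀ Λ₁ Pt Vt u1 V4 N L),
    fun k _ hk => (env_ee h hk).mono
      (le_min (ee_le zero_le_two (env_two h hk)) (le_max_right _ _))⟩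
  obtain ⟨b2, b3⟩ := q _ l l0' sl w (cr _ le_rfl) k hk
  exact ⟨ok_of p0 (h.q_nn hk) d1 (b2.mono d2) (b3.trans (pow_le_pow_left₀ b2.nn d2 _)),
    e _ l l0' sl w (cr _ le_rfl) k _ _ (by rw [abs_of_nonneg (h.q_nn hk)]; linarith)⟩

end Crest.Agent.T156.Alt.R62

end
end

-- ▼ part T156/QTol_29
section

/-!
# Row 156, block Q: the leaves `CoverS` and `TolS` of `QDef_57` (helper29)
-/

set_option autoImplicit false

noncomputable section

namespace Crest.Agent.T156.Q57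

open Finset


namespace Tol29

theorem persist {f : ℕ → ℝ} {v : ℝ} (H : ∀ j, f j - v ≤ f (j + 1)) (i t : ℕ) :
    f i - t * v ≤ f (i + t) := by
  induction t with
  | zero => simp
  | succ t ih =>
    have := H (i + t)
    rw [← add_assoc]
    push_cast
    linarith

theorem card_near (s : Finset ℕ) (y : ℕ) {ρ : ℝ} (hρ : 0 ≤ ρ) :
    ((s.filter fun j : ℕ => |(y : ℝ) - j| ≤ ρ).card : ℝ) ≤ 2 * ρ + 1 := by
  have h1 : (s.filter fun j : ℕ => |(y : ℝ) - j| ≤ ρ) ⊆ Icc (y - ⌊ρ⌋₊) (y + ⌊ρ⌋₊) := by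
    intro j hj
    have h := abs_le.1 (mem_filter.1 hj).2
    rw [mem_Icc]
    constructor
    · rcases le_total y j with h2 | h2
      · omega
      · have : y - j ≤ ⌊ρ⌋₊ := Nat.le_floor (by rw [Nat.cast_sub h2]; exact h.2)
        omega
    · rcases le_total j y with h2 | h2
      · omega
      · have : j - y ≤ ⌊ρ⌋₊ := Nat.le_floor (by rw [Nat.cast_sub h2]; linarith [h.1])
        omega
  have h2 : (Icc (y - ⌊ρ⌋₊) (y + ⌊ρ⌋₊)).card ≤ 2 * ⌊ρ⌋₊ + 1 := by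
    rw [Nat.card_Icc]
    omega
  have h3 : (((s.filter fun j : ℕ => |(y : ℝ) - j| ≤ ρ).card : ℕ) : ℝ) ≤ ((2 * ⌊ρ⌋₊ + 1 : ℕ) : ℝ) :=
    Nat.cast_le.2 ((card_le_card h1).trans h2)
  have h4 := Nat.floor_le hρ
  push_cast at h3
  linarith

/-- the kernel that carries the mass of `y` to the node `j` -/
def ker (f : ℕ → ℝ) (v : ℝ) (y j : ℕ) : ℝ :=
  if |(y : ℝ) - j| ≤ 33 * |f y| / v ∧ v ≤ |f y| then |f y| * v else 0

theorem ker_nonneg (f : ℕ → ℝ) {v : ℝ} (hv : 0 < v) (y j : ℕ) : 0 ≤ ker f v y j := by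
  unfold ker
  split_ifs
  · positivity
  · exact le_rfl

theorem sum_ker (f : ℕ → ℝ) {v : ℝ} (hv : 0 < v) (s : Finset ℕ) (y : ℕ) :
    ∑ j ∈ s, ker f v y j ≤ 67 * f y ^ 2 := by
  rcases le_or_gt v |f y| with h | h
  · have h1 : ∑ j ∈ s, ker f v y j =
        ((s.filter fun j : ℕ => |(y : ℝ) - j| ≤ 33 * |f y| / v).card : ℝ) * (|f y| * v) := by
      simp only [ker, h, and_true]
      rw [← sum_filter, sum_const, nsmul_eq_mul]
    have h2 := card_near s y (ρ := 33 * |f y| / v) (by positivity)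
    have h3 : (2 * (33 * |f y| / v) + 1) * (|f y| * v) = 66 * |f y| ^ 2 + |f y| * v := by
      field_simp
      ring
    have h4 := mul_le_mul_of_nonneg_right h2 (by positivity : 0 ≤ |f y| * v)
    have h5 : |f y| * v ≤ |f y| * |f y| := mul_le_mul_of_nonneg_left h (abs_nonneg _)
    rw [h1, ← sq_abs (f y)]
    nlinarith
  · have h1 : ∀ j ∈ s, ker f v y j = 0 := fun j _ => if_neg fun h' => absurd h'.2 h.not_ge
    rw [sum_eq_zero h1]
    positivity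

/-- a deviation persists -/
theorem le_ker {f : ℕ → ℝ} {v : ℝ} (hv : 0 < v) (Hf : ∀ j, f j - v ≤ f (j + 1)) {j0 j1 H x j : ℕ}
    (hH : H ≤ j0) (hx0 : j0 ≤ x) (hx1 : x ≤ j1) (hb : |f x| ≤ H * v) (hl : 2 * v ≤ |f x|)
    (hj : |(x : ℝ) - j| * v / 16 ≤ |f x|) :
    f x ^ 2 ≤ 4 * ∑ y ∈ Icc (j0 - H) (j1 + H), ker f v y j := by
  set d := |f x| with hd
  set T := ⌊d / (2 * v)⌋₊ with hT
  have hd0 : 0 ≤ d := abs_nonneg _
  have hT1 : (T : ℝ) * v ≤ d / 2 := by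
    have := Nat.floor_le (by positivity : 0 ≤ d / (2 * v))
    rw [le_div_iff₀ (by positivity)] at this
    linarith
  have hT2 : d / 2 ≤ ((T : ℝ) + 1) * v := by
    have := (Nat.lt_floor_add_one (d / (2 * v))).le
    rw [div_le_iff₀ (by positivity)] at this
    linarith
  have hTH : T ≤ H := by
    have : (T : ℝ) * v ≤ H * v := by linarith
    exact_mod_cast le_of_mul_le_mul_right this hv
  obtain ⟨a, ha0, ha1, ha⟩ : ∃ a : ℕ, j0 - H ≤ a ∧ a + T ≤ j1 + H ∧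
      ∀ y ∈ Icc a (a + T), d / 2 ≤ |f y| ∧ |(y : ℝ) - x| ≤ T := by
    rcases le_total 0 (f x) with h | h
    · refine ⟨x, by omega, by omega, fun y hy => ?_⟩
      obtain ⟨h1, h2⟩ := mem_Icc.1 hy
      obtain ⟨t, rfl⟩ := Nat.exists_eq_add_of_le h1
      have h3 : (t : ℝ) ≤ T := Nat.cast_le.2 (by omega)
      have h4 := persist Hf x t
      have h5 : d = f x := abs_of_nonneg h
      refine ⟨le_trans ?_ (le_abs_self _), ?_⟩
      · nlinarith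
      · push_cast
        rw [add_sub_cancel_left, Nat.abs_cast]
        exact h3
    · refine ⟨x - T, by omega, by omega, fun y hy => ?_⟩
      obtain ⟨h1, h2⟩ := mem_Icc.1 hy
      obtain ⟨t, rfl⟩ := Nat.exists_eq_add_of_le (show y ≤ x by omega)
      have h3 : (t : ℝ) ≤ T := Nat.cast_le.2 (by omega)
      have h4 := persist Hf y t
      have h5 : d = -f (y + t) := abs_of_nonpos h
      refine ⟨le_trans ?_ (neg_le_abs _), ?_⟩
      · nlinarith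
      · push_cast
        rw [abs_sub_comm, add_sub_cancel_left, Nat.abs_cast]
        exact h3
  have h1 : ∀ y ∈ Icc a (a + T), d / 2 * v ≤ ker f v y j := fun y hy => by
    obtain ⟨h2, h3⟩ := ha y hy
    have h4 : |(y : ℝ) - j| ≤ |(y : ℝ) - x| + |(x : ℝ) - j| := abs_sub_le _ _ _
    have h5 : |(y : ℝ) - j| ≤ 33 * |f y| / v := by
      rw [le_div_iff₀ hv]
      nlinarith
    rw [ker, if_pos ⟨h5, by linarith⟩]
    exact mul_le_mul_of_nonneg_right h2 hv.le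
  have h2 := card_nsmul_le_sum _ _ _ h1
  rw [Nat.card_Icc, show a + T + 1 - a = T + 1 by omega, nsmul_eq_mul] at h2
  push_cast at h2
  have h3 : ∑ y ∈ Icc a (a + T), ker f v y j ≤ ∑ y ∈ Icc (j0 - H) (j1 + H), ker f v y j :=
    sum_le_sum_of_subset_of_nonneg (Icc_subset_Icc ha0 ha1) fun y _ _ => ker_nonneg f hv y j
  rw [← sq_abs (f x), ← hd]
  nlinarith

end Tol29

open Tol29

/-- **tolerance from RMS location**, without the factor `Q + 1` -/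
theorem tol_sharp (r c : ℕ → ℝ) {v l0 : ℝ} {j0 j1 H : ℕ} (hv : 0 < v) (hl : 16 * v ≤ l0)
    (hr : ∀ j, r j ≤ r (j + 1)) (hc : ∀ j, c (j + 1) - c j ≤ v) (hH : H ≤ j0)
    (hb : ∀ j, j0 ≤ j → j ≤ j1 → |r j - c j| ≤ H * v) :
    ∃ τ : ℕ → ℝ, (∀ j, l0 ≤ τ j ∧ τ j ≤ l0 + H * v) ∧
      (∀ j, j0 ≤ j → j ≤ j1 → |r j - c j| ≤ τ j) ∧
      (∀ i j : ℕ, |τ i - τ j| ≤ |(i : ℝ) - j| * v / 16) ∧
      ∑ j ∈ Icc j0 j1, τ j ^ 2 ≤ (j1 + 1 - j0 : ℕ) * l0 ^ 2 +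
        268 * ∑ j ∈ Icc (j0 - H) (j1 + H), (r j - c j) ^ 2 := by
  set f : ℕ → ℝ := fun j => r j - c j with hf
  have Hf : ∀ j, f j - v ≤ f (j + 1) := fun j => by
    have := hr j
    have := hc j
    simp only [hf]
    linarith
  set τ : ℕ → ℝ := fun j => (Icc j0 j1).fold max l0 fun i => |f i| - |(i : ℝ) - j| * v / 16 with hτ
  have hle : ∀ j t, t ≤ τ j ↔ t ≤ l0 ∨ ∃ i ∈ Icc j0 j1, t ≤ |f i| - |(i : ℝ) - j| * v / 16 :=
    fun j t => le_fold_max t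
  have hge : ∀ j t, τ j ≤ t ↔ l0 ≤ t ∧ ∀ i ∈ Icc j0 j1, |f i| - |(i : ℝ) - j| * v / 16 ≤ t :=
    fun j t => fold_max_le t
  have h0 : ∀ j, l0 ≤ τ j := fun j => (hle j l0).2 (.inl le_rfl)
  have hl0 : 0 ≤ l0 := by linarith
  have hHv : 0 ≤ (H : ℝ) * v := by positivity
  have hlip : ∀ i j : ℕ, τ i - τ j ≤ |(i : ℝ) - j| * v / 16 := fun i j => by
    have h1 : 0 ≤ |(i : ℝ) - j| * v / 16 := by positivity
    rw [sub_le_iff_le_add, hge]
    refine ⟨by linarith [h0 j], fun x hx => ?_⟩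
    have h2 := (hle j _).2 (.inr ⟨x, hx, le_rfl⟩)
    have h3 : |(x : ℝ) - j| ≤ |(x : ℝ) - i| + |(i : ℝ) - j| := abs_sub_le _ _ _
    nlinarith
  refine ⟨τ, fun j => ⟨h0 j, (hge j _).2 ⟨by linarith, fun i hi => ?_⟩⟩, fun j hj0 hj1 => ?_,
    fun i j => abs_le.2 ⟨?_, hlip i j⟩, ?_⟩
  · have h1 : 0 ≤ |(i : ℝ) - j| * v / 16 := by positivity
    have h2 := hb i (mem_Icc.1 hi).1 (mem_Icc.1 hi).2
    linarith
  · exact (hle j _).2 (.inr ⟨j, mem_Icc.2 ⟨hj0, hj1⟩, by simp [hf]⟩)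
  · have := hlip j i
    rw [abs_sub_comm] at this
    linarith
  have h1 : ∀ j ∈ Icc j0 j1, τ j ^ 2 ≤ l0 ^ 2 + 4 * ∑ y ∈ Icc (j0 - H) (j1 + H), ker f v y j := by
    intro j _
    have h2 : 0 ≤ ∑ y ∈ Icc (j0 - H) (j1 + H), ker f v y j :=
      sum_nonneg fun y _ => ker_nonneg f hv y j
    have h3 := h0 j
    rcases (hle j _).1 le_rfl with h | ⟨x, hx, h⟩
    · nlinarith
    · have h4 : 0 ≤ |(x : ℝ) - j| * v / 16 := by positivity
      have h5 := le_ker hv Hf (j := j) hH (mem_Icc.1 hx).1 (mem_Icc.1 hx).2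
        (hb x (mem_Icc.1 hx).1 (mem_Icc.1 hx).2) (by linarith) (by linarith)
      have h6 : τ j ^ 2 ≤ |f x| ^ 2 := pow_le_pow_left₀ (by linarith) (by linarith) 2
      rw [sq_abs] at h6
      nlinarith
  refine (sum_le_sum h1).trans ?_
  rw [sum_add_distrib, sum_const, Nat.card_Icc, nsmul_eq_mul, ← mul_sum, sum_comm]
  have h2 : ∑ y ∈ Icc (j0 - H) (j1 + H), ∑ j ∈ Icc j0 j1, ker f v y j ≤
      ∑ y ∈ Icc (j0 - H) (j1 + H), 67 * f y ^ 2 := sum_le_sum fun y _ => sum_ker f hv _ y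
  rw [← mul_sum] at h2
  simp only [hf] at h2 ⊢
  linarith


end Crest.Agent.T156.Q57
end
end

-- ▼ part T156/LPb_78

/-!
# Row 156: moments on one sloped block from the location kit (helper78)
-/

set_option autoImplicit false
set_option linter.unusedVariables false
set_option maxHeartbeats 400000

noncomputable section

namespace Crest.Agent.T156.Alt.R62

open MeasureTheory Real Finset Filter
open Crest.Agent.T156.Alt.Md67 Crest.Agent.T156.Alt.QS98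

namespace B78

variable {S : Sc} {M : Md} {m : ℕ} {a t : ℝ} {b0 b1 D p : ℕ}

theorem diag {P : ℝ → CP} (H : ∀ C, CL (P C)) : CL fun E Λ S M m a => P S.C E Λ S M m a := by
  intro C
  filter_upwards [H C C] with A H ε hε η hη
  filter_upwards [H ε hε η hη] with n H S M b1 b2 b3 b4 m a b5
  have := H S M b1 b2 b3 b4 m a b5
  rwa [← b1] at this

/-- geometry of the block `[t, 2 t]` with margins of `2 D` nodes -/
structure Geo (S : Sc) (M : Md) (t : ℝ) (b0 b1 D : ℕ) : Prop where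
  t0 : 0 < t
  D1 : 1 ≤ D
  lo : t / (32 * S.C) ≤ D * S.v
  De : D = ⌈t / (32 * S.C * S.v)⌉₊
  b0l : S.jl + 2 * D < b0
  b01 : b0 ≤ b1
  b1J : b1 + 2 * D ≤ S.J
  eq : sb S M t (2 * t) = Ico b0 b1
  rg : ∀ k, b0 ≤ k + 2 * D → k < b1 + 2 * D → t / 2 ≤ M.s k ∧ M.s k ≤ 3 * t
  cnt : ((b1 + 2 * D : ℕ) : ℝ) * S.v ≤ 4 * S.C * t
  vt : 32 * S.C * S.v ≤ t

theorem geo (h : Cl S M) (t0 : 0 < t) (hl : 8 * M.s S.jl ≤ t) (hT : t ≤ T0 S M)
    (vt : 32 * S.C * S.v ≤ t) : ∃ b0 b1 D, Geo S M t b0 b1 D := by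
  have C1 := h.C1
  have v0 := h.v0
  have hJ : 16 * t ≤ M.s S.J := by rw [T0] at hT; linarith
  have x0 : ∃ k, t ≤ M.s k := ⟨S.J, by linarith⟩
  have x1 : ∃ k, 2 * t < M.s k := ⟨S.J, by linarith⟩
  classical
  obtain ⟨b0, p0, q0⟩ : ∃ b, t ≤ M.s b ∧ ∀ k, t ≤ M.s k → b ≤ k :=
    ⟨Nat.find x0, Nat.find_spec x0, fun k hk => Nat.find_min' x0 hk⟩
  obtain ⟨b1, p1, q1⟩ : ∃ b, 2 * t < M.s b ∧ ∀ k, 2 * t < M.s k → b ≤ k :=
    ⟨Nat.find x1, Nat.find_spec x1, fun k hk => Nat.find_min' x1 hk⟩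
  set D := ⌈t / (32 * S.C * S.v)⌉₊ with hD
  have d0 : t / (32 * S.C * S.v) ≤ D := Nat.le_ceil _
  have d1 : (D : ℝ) < t / (32 * S.C * S.v) + 1 := Nat.ceil_lt_add_one (by positivity)
  have D1 : 1 ≤ D := Nat.one_le_ceil_iff.2 (by positivity)
  have d2 : (D : ℝ) * (S.C * S.v) ≤ t / 16 := by
    have : (D : ℝ) * (S.C * S.v) ≤ (t / (32 * S.C * S.v) + 1) * (S.C * S.v) := by gcongr
    have e : (t / (32 * S.C * S.v) + 1) * (S.C * S.v) = t / 32 + S.C * S.v := by field_simp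
    linarith
  have b0J : b0 ≤ S.J := q0 _ (by linarith)
  have b1J : b1 ≤ S.J := q1 _ (by linarith)
  have b01 : b0 ≤ b1 := q0 _ (by linarith)
  have b11 : 1 ≤ b1 := by
    by_contra hc
    rw [show b1 = 0 by omega, h.s0] at p1
    linarith
  have e1 : M.s (b1 - 1) ≤ 2 * t := by
    by_contra hc
    have := q1 _ (not_le.1 hc)
    omega
  have lo : ∀ k, b0 ≤ k + 2 * D → t / 2 ≤ M.s k := fun k hk => by
    rcases le_total b0 k with h1 | h1
    · linarith [h.sm h1]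
    · have h2 := (h.s_tel h1 b0J).2
      have h3 : (b0 : ℝ) - k ≤ 2 * D := by
        have : (b0 : ℝ) ≤ k + 2 * D := by exact_mod_cast hk
        linarith
      have : ((b0 : ℝ) - k) * (S.C * S.v) ≤ 2 * D * (S.C * S.v) := by gcongr
      linarith
  have hi : ∀ k, k < b1 + 2 * D → k ≤ S.J → M.s k ≤ 3 * t := fun k hk hkJ => by
    rcases le_total k (b1 - 1) with h1 | h1
    · linarith [h.sm h1]
    · have h2 := (h.s_tel h1 hkJ).2
      have h3 : (k : ℝ) - (b1 - 1 : ℕ) ≤ 2 * D := by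
        have : (k : ℝ) ≤ (b1 - 1 : ℕ) + 2 * D := by exact_mod_cast (by omega : k ≤ b1 - 1 + 2 * D)
        linarith
      have : ((k : ℝ) - (b1 - 1 : ℕ)) * (S.C * S.v) ≤ 2 * D * (S.C * S.v) := by gcongr
      linarith
  have a1 : b1 + 2 * D ≤ S.J := by
    by_contra hc
    linarith [hi S.J (by omega) le_rfl]
  have a0 : S.jl + 2 * D < b0 := by
    by_contra hc
    linarith [lo S.jl (by omega)]
  refine ⟨b0, b1, D, t0, D1, ?_, rfl, a0, b01, a1, ?_,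
    fun k h0 h1 => ⟨lo k h0, hi k h1 (by omega)⟩, ?_, vt⟩
  · rw [div_le_iff₀ (by positivity)] at d0 ⊢
    linarith
  · ext k
    simp only [sb, mem_filter, mem_Ioo, mem_Ico]
    refine ⟨fun ⟨_, h1, h2⟩ => ⟨q0 k h1, ?_⟩, fun ⟨h1, h2⟩ => ⟨⟨by omega, by omega⟩,
      p0.trans (h.sm h1), (h.sm (by omega : k ≤ b1 - 1)).trans e1⟩⟩
    by_contra hc
    linarith [h.sm (not_lt.1 hc)]
  · have h1 := (h.s_bds (k := b1 + 2 * D - 1) (by omega)).1
    have h2 := hi (b1 + 2 * D - 1) (by omega) (by omega)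
    have h3 : ((b1 + 2 * D : ℕ) : ℝ) = (b1 + 2 * D - 1 : ℕ) + 1 := by
      exact_mod_cast (by omega : b1 + 2 * D = b1 + 2 * D - 1 + 1)
    rw [← mul_div_assoc, div_le_iff₀ (by positivity)] at h1
    rw [h3]
    nlinarith

/-- the clock -/
def cq (S : Sc) (M : Md) (j : ℕ) : ℝ := M.q (min j S.J)

theorem cq_eq {k : ℕ} (hk : k ≤ S.J) : cq S M k = M.q k := by rw [cq, min_eq_left hk]

theorem cq_step (h : Cl S M) (hθ : S.C * S.θ ≤ 1 / 2) (j : ℕ) :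
    cq S M j ≤ cq S M (j + 1) ∧ cq S M (j + 1) - cq S M j ≤ S.C * S.v := by
  rcases lt_or_ge j S.J with h1 | h1
  · rw [cq_eq h1.le, cq_eq h1]
    exact ⟨h.q_mono (Nat.le_succ j) (h1.trans h.J_lt),
      (h.q_tel hθ (Nat.le_succ j) (h1.trans_le h.i3)).2.trans (h.ss j h1).2⟩
  · rw [cq, cq, min_eq_right h1, min_eq_right (by omega), sub_self]
    exact ⟨le_rfl, (mul_pos h.C0 h.v0).le⟩

theorem Geo.dz (G : Geo S M t b0 b1 D) (h : Cl S M) {k : ℕ} (h0 : S.jl < k) (h1 : k < S.J) :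
    M.dz m a k = lw M k ∧ S.v / S.C ≤ lw M k ∧ lw M k ≤ S.C * S.v := by
  have := h.zs (k - 1) (by have := h.i1; omega) (by omega)
  rw [Nat.sub_add_cancel (by omega)] at this
  exact ⟨dz_up h.leg (by omega), this⟩

theorem Geo.qh (G : Geo S M t b0 b1 D) (h : Cl S M) (hθ : S.C * S.θ ≤ 1 / 2)
    (hw : S.w3 t ≤ t ^ 3) {Λ₀ : ℝ} {ρ : ℕ → ℝ} (cr : Crude Λ₀ S M m a t (b0 - D))
    (lip : ∀ k, |ρ (k + 1) - ρ k| ≤ 32 * S.C * S.v)
    (wρ : ∀ k, S.w3 t ≤ ρ k ^ 3 ∧ ρ k ≤ t)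
    (loc : ∀ k, b0 - D ≤ k → k ≤ b1 - 1 + D → |M.rb m a k - cq S M k| ≤ Λ₀ * ρ k) :
    QH' (32 * S.C) Λ₀ S M m a t (b0 - D) (b1 - 1 + D) (cq S M) ρ := by
  have C1 := h.C1
  have v0 := h.v0
  have t0 := G.t0
  have := G.b0l
  have := G.b01
  have := G.b1J
  have := G.D1
  have w0 : 0 < S.w3 t := div_pos (by linarith [h.F1]) (mul_pos (mul_pos h.N0 t0) (h.ms_pos t0.le))
  have n1 : (1 : ℝ) ≤ S.n := by exact_mod_cast h.n1
  refine ⟨⟨t0, by omega, by omega, by have := h.i3; omega, ?_, ?_, hw⟩, cr, ?_, fun k _ _ => ?_,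
    fun k _ _ => lip k, fun k _ _ => ?_, fun k _ _ => ?_, loc, fun k y _ _ _ _ => by omega⟩
  · nlinarith [(G.rg (b0 - D) (by omega) (by omega)).1]
  · have h1 := (h.z_s (k := b1 - 1 + D) (by have := h.i1; omega) (by omega)).2
    have h2 := (G.rg (b1 - 1 + D) (by omega) (by omega)).2
    have h3 := G.vt
    nlinarith
  · exact h.q_nn ((min_le_right _ _).trans h.J_lt.le)
  · obtain ⟨h1, h2⟩ := cq_step h hθ k
    exact ⟨h1, by nlinarith [mul_pos h.C0 v0]⟩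
  · rw [min_eq_left (wρ k).2, ← pow_succ']
    exact (wρ k).1.trans (le_mul_of_one_le_left (w0.le.trans (wρ k).1) cr.1)
  · exact (wρ k).1.trans (le_mul_of_one_le_left (w0.le.trans (wρ k).1) n1)

/-- the envelope output -/
def EO (K Λ : ℝ) (S : Sc) (M : Md) (m : ℕ) (a t : ℝ) (k0 k1 : ℕ) (c ρ : ℕ → ℝ) : Prop :=
  ∀ (k : ℕ) (q e : ℝ), Inn K S t k0 k1 k → |c k| ≤ 1 → 0 < ρ k → |c k - q| + Λ * ρ k ≤ e →
    M.E2 m a (fun R => max (|R - q| - e) 0) k ≤ CIn12.tlD S 3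

theorem Geo.out (G : Geo S M t b0 b1 D) (h : Cl S M) (I : S.In m a) {Λ : ℝ} (hΛ : 0 ≤ Λ)
    {ρ : ℕ → ℝ} (h0 : ∀ k, 0 < ρ k ∧ ρ k ≤ t)
    (O : QO (32 * S.C) Λ p S M m a t (b0 - D) (b1 - 1 + D) (cq S M) ρ)
    (O' : EO (32 * S.C) Λ S M m a t (b0 - D) (b1 - 1 + D) (cq S M) ρ) :
    (∀ k ∈ sb S M t (2 * t), (M.E2 m a (fun R => (R - M.q k) ^ (2 * p)) k ≤ (Λ * ρ k) ^ (2 * p) ∧
      M.Mo m a p (fun x => M.rP m a k x - M.q k) (Λ * ρ k)) ∧ Env S M m a k (Λ * ρ k)) ∧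
    (∀ R, ∑ k ∈ Icc (b0 - D) (b1 - 1 + D), S.v * ρ k ^ 2 ≤ R →
      ∑ k ∈ sb S M t (2 * t), M.dz m a k * (Λ * ρ k) ^ 2 ≤ Λ ^ 2 * (S.C * R)) ∧
    ∀ i ≤ p, ∀ R, ∑ k ∈ Icc (b0 - D) (b1 - 1 + D), S.v * ρ k ^ i ≤ R →
      ∑ k ∈ sb S M t (2 * t), M.dz m a k * ja M m a i k ≤ Λ ^ (i + 1) * S.w3 t * (2 * S.C * R) := by
  have C0 := h.C0
  have v0 := h.v0
  have t0 := G.t0
  have := G.b0l
  have := G.b01
  have := G.b1J
  have := G.D1
  have w0 : 0 < S.w3 t := div_pos (by linarith [h.F1]) (mul_pos (mul_pos h.N0 t0) (h.ms_pos t0.le))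
  have inn : ∀ k, b0 ≤ k → k < b1 → Inn (32 * S.C) S t (b0 - D) (b1 - 1 + D) k := fun k a0 a1 => by
    refine ⟨G.lo.trans ?_, G.lo.trans ?_⟩ <;> gcongr
    · have : ((b0 - D : ℕ) : ℝ) + D ≤ k := by exact_mod_cast (by omega : b0 - D + D ≤ k)
      linarith
    · have : (k : ℝ) + D ≤ (b1 - 1 + D : ℕ) := by exact_mod_cast (by omega : k + D ≤ b1 - 1 + D)
      linarith
  rw [G.eq]
  refine ⟨fun k hk => ?_, fun R hR => ?_, fun i hi R hR => ?_⟩
  · obtain ⟨a0, a1⟩ := mem_Ico.1 hk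
    have e1 := O.pair k (inn k a0 a1)
    have e2 := O.node k (inn k a0 a1)
    have e3 := O' k (M.q k) (Λ * ρ k) (inn k a0 a1)
    rw [cq_eq (by omega)] at e1 e2 e3
    refine ⟨⟨e1, e2⟩, e3 ?_ (h0 k).1 (by rw [sub_self, abs_zero, zero_add])⟩
    rw [abs_of_nonneg (h.q_nn (by have := h.J_lt; omega))]
    exact Cl.q_le_one k
  · refine le_trans ?_ (mul_le_mul_of_nonneg_left (mul_le_mul_of_nonneg_left hR C0.le)
      (sq_nonneg Λ))
    rw [mul_sum, mul_sum]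
    refine le_trans (sum_le_sum fun k hk => ?_) (sum_le_sum_of_subset_of_nonneg
      (s := Ico b0 b1) (fun k hk => by simp only [mem_Ico, mem_Icc] at hk ⊢; omega)
      fun k _ _ => by positivity)
    obtain ⟨a0, a1⟩ := mem_Ico.1 hk
    obtain ⟨e1, -, e3⟩ := G.dz (m := m) (a := a) h (k := k) (by omega) (by omega)
    rw [e1]
    calc _ ≤ S.C * S.v * (Λ * ρ k) ^ 2 := by gcongr
      _ = _ := by ring
  · have W : Wts (32 * S.C) S t (b0 - D) (b1 - 1 + D) ρ b0 b1 D (fun y => max (M.dz m a y) 0)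
        fun _ => S.C * S.v :=
      ⟨fun k a0 a1 => ⟨inn k a0 a1, (min_le_right _ _).trans G.lo⟩, by omega,
        fun y => le_max_right _ _, fun _ => by positivity, fun y y' a0 _ a1 _ _ => by
          obtain ⟨e1, -, e3⟩ := G.dz (m := m) (a := a) h (k := y) (by omega) (by omega)
          exact max_le (e1.trans_le e3) (by positivity), by omega⟩
    refine le_trans (le_of_eq (sum_congr rfl fun k hk => ?_)) ((O.jnt _ _ _ _ _ W i hi).trans ?_)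
    · obtain ⟨a0, a1⟩ := mem_Ico.1 hk
      obtain ⟨e1, e2, -⟩ := G.dz (m := m) (a := a) h (k := k) (by omega) (by omega)
      rw [max_eq_left (e1 ▸ (div_pos v0 C0).le.trans e2), cq_eq (by omega), ja]
    · refine mul_le_mul_of_nonneg_left (le_trans ?_ (mul_le_mul_of_nonneg_left hR
        (by positivity))) (by positivity)
      rw [mul_sum]
      refine le_trans (sum_le_sum fun k hk => ?_) (sum_le_sum_of_subset_of_nonneg
        (s := Ico b0 (b1 + D)) (fun k hk => by simp only [mem_Ico, mem_Icc] at hk ⊢; omega)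
        fun k _ _ => by have := (h0 k).1; positivity)
      have r0 := (h0 k).1
      have : 1 + ρ k / t ≤ 2 := by linarith [(div_le_one t0).2 (h0 k).2]
      calc _ ≤ S.C * S.v * (ρ k ^ i * 2) := by gcongr
        _ = _ := by ring

theorem Geo.sum_c (G : Geo S M t b0 b1 D) (h : Cl S M) {x : ℝ} (hx : 0 ≤ x) :
    ∑ _k ∈ Icc (b0 - D) (b1 - 1 + D), S.v * x ≤ 4 * S.C * t * x := by
  have v0 := h.v0
  rw [sum_const, Nat.card_Icc, nsmul_eq_mul, ← mul_assoc]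
  refine mul_le_mul_of_nonneg_right (le_trans ?_ G.cnt) hx
  have := G.b0l
  have := G.b01
  gcongr
  omega

/-- the conclusion -/
def Out (p : ℕ) (Λ : ℝ) (S : Sc) (M : Md) (m : ℕ) (a l Pt t : ℝ) : Prop :=
  ∃ G : ℕ → ℝ, (∀ k, 0 < G k ∧ G k ≤ Λ * l) ∧
    (∀ k ∈ sb S M t (2 * t), (M.E2 m a (fun R => (R - M.q k) ^ (2 * p)) k ≤ G k ^ (2 * p) ∧
      M.Mo m a p (fun x => M.rP m a k x - M.q k) (G k)) ∧ Env S M m a k (G k)) ∧
    ∑ k ∈ sb S M t (2 * t), M.dz m a k * G k ^ 2 ≤ Λ * Pt ∧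
    ∑ k ∈ sb S M t (2 * t), M.dz m a k * ja M m a 0 k ≤ Λ * S.w3 t * max t l ∧
    ∑ k ∈ sb S M t (2 * t), M.dz m a k * ja M m a 2 k ≤ Λ * S.w3 t * Pt ∧
    ∑ k ∈ sb S M t (2 * t), M.dz m a k * ja M m a 4 k ≤ Λ * S.w3 t * (Pt * l ^ 2)

theorem Out.mono {Λ Λ' l Pt : ℝ} (O : Out p Λ S M m a l Pt t) (h : Λ ≤ Λ') (hl : 0 ≤ l)
    (hP : 0 ≤ Pt) (hw : 0 ≤ S.w3 t) : Out p Λ' S M m a l Pt t := by
  obtain ⟨G, h1, h2, h3, h4, h5, h6⟩ := O
  have : 0 ≤ max t l := le_max_of_le_right hl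
  exact ⟨G, fun k => ⟨(h1 k).1, (h1 k).2.trans (by gcongr)⟩, h2, h3.trans (by gcongr),
    h4.trans (by gcongr), h5.trans (by gcongr), h6.trans (by gcongr)⟩

/-- the common data -/
structure Cx (p : ℕ) (L K : ℝ) (S : Sc) (M : Md) (m : ℕ) (a l t : ℝ) (b0 b1 D : ℕ) : Prop where
  cl : Cl S M
  I : S.In m a
  geo : Geo S M t b0 b1 D
  hθ : S.C * S.θ ≤ 1 / 2
  K1 : 1 ≤ K
  hL : 600 * S.C ^ 2 * K ≤ L
  p4 : 4 ≤ p
  Q : ∀ Λ₀ t k0 k1 c ρ, QH' (32 * S.C) Λ₀ S M m a t k0 k1 c ρ →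
    QO (32 * S.C) (L * Λ₀) p S M m a t k0 k1 c ρ ∧ EO (32 * S.C) (L * Λ₀) S M m a t k0 k1 c ρ
  l0 : 0 < l
  hw : S.w3 t ≤ t ^ 3
  cr : Crude K S M m a l S.jl
  sup : ∀ k, S.jl ≤ k → k ≤ S.J → |M.del m a k| ≤ K * l

namespace Cx

variable {L K l : ℝ} (X : Cx p L K S M m a l t b0 b1 D)
include X

theorem num : 1 ≤ L ∧ 600 * K ≤ L ∧ 600 * S.C ^ 2 ≤ L := by
  have C2 : 1 ≤ S.C ^ 2 := one_le_pow₀ X.cl.C1
  have := X.K1
  have := X.hL
  refine ⟨by nlinarith, by nlinarith, by nlinarith⟩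

theorem w0 : 0 < S.w3 t :=
  div_pos (by linarith [X.cl.F1]) (mul_pos (mul_pos X.cl.N0 X.geo.t0) (X.cl.ms_pos X.geo.t0.le))

theorem loc {k : ℕ} (h0 : b0 ≤ k + 2 * D) (h1 : k < b1 + 2 * D) :
    |M.rb m a k - cq S M k| ≤ K * l := by
  have := X.geo.b0l
  have := X.geo.b1J
  rw [cq_eq (by omega)]
  exact X.sup k (by omega) (by omega)

/-- low blocks -/
theorem low (ht : t ≤ L * l) : Out p (L ^ 16) S M m a l (l ^ 3) t := by
  obtain ⟨L1, LK, LC⟩ := X.num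
  have G := X.geo
  have t0 := G.t0
  have l0 := X.l0
  have K1 := X.K1
  have w0 := X.w0
  have C0 := X.cl.C0
  have := G.b0l
  have := G.b01
  set y := max t l with hy
  have y1 : t ≤ y := le_max_left _ _
  have y2 : l ≤ y := le_max_right _ _
  have y3 : y ≤ L * l := max_le ht (le_mul_of_one_le_left l0.le L1)
  have r1 : 1 ≤ y / t := (one_le_div t0).2 y1
  have e0 : K * (y / t) * t = K * y := by field_simp
  have cr : Crude (K * (y / t)) S M m a t (b0 - D) := by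
    refine ⟨one_le_mul_of_one_le_of_one_le K1 r1, fun k h0 h1 =>
      (X.cr.2 k (by omega) h1).trans ?_⟩
    rw [mul_assoc]
    refine mul_le_mul_of_nonneg_left (max_le ?_ ?_) (by linarith)
    · exact (le_max_left _ _).trans (le_mul_of_one_le_left (le_max_of_le_right t0.le) r1)
    · calc l ≤ y / t * t := by rw [div_mul_cancel₀ _ t0.ne']; exact y2
        _ ≤ _ := by gcongr; exact le_max_right _ _
  have O := X.Q _ _ _ _ _ _ (G.qh X.cl X.hθ X.hw (ρ := fun _ => t) cr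
    (fun _ => by have := X.cl.v0; rw [sub_self, abs_zero]; positivity) (fun _ => ⟨X.hw, le_rfl⟩)
    fun k h0 h1 => (X.loc (by omega) (by omega)).trans (by rw [e0]; gcongr))
  obtain ⟨o1, o2, o3⟩ := G.out X.cl X.I (by positivity) (fun _ => ⟨t0, le_rfl⟩) O.1 O.2
  set x := L * (K * (y / t)) with hx
  have x0 : 0 < x := by positivity
  have x1 : x * t ≤ L ^ 2 * y := by
    rw [hx, mul_assoc, e0, sq, mul_assoc]
    gcongr
    linarith
  have x2 : x * t ≤ L ^ 3 * l := x1.trans (by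
    calc _ ≤ L ^ 2 * (L * l) := by gcongr
      _ = _ := by ring)
  have pw : ∀ {i j : ℕ}, i ≤ j → L ^ i ≤ L ^ j := fun h => pow_le_pow_right₀ L1 h
  have key : ∀ i ≤ p, ∑ k ∈ sb S M t (2 * t), M.dz m a k * ja M m a i k ≤
      L * S.w3 t * (x * t) ^ (i + 1) := fun i hi =>
    (o3 i hi _ (G.sum_c X.cl (pow_nonneg t0.le i))).trans (by
      calc _ = 8 * S.C ^ 2 * S.w3 t * (x * t) ^ (i + 1) := by ring
        _ ≤ _ := by gcongr; nlinarith)
  have p4 := X.p4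
  refine ⟨fun _ => x * t, fun _ => ⟨by positivity, x2.trans (by gcongr; norm_num)⟩, o1,
    (o2 _ (G.sum_c X.cl (sq_nonneg t))).trans ?_, (key 0 (by omega)).trans ?_,
    (key 2 (by omega)).trans ?_, (key 4 p4).trans ?_⟩
  · calc _ = 4 * S.C ^ 2 * t * (x * t) ^ 2 := by ring
      _ ≤ L * (L * l) * (L ^ 3 * l) ^ 2 := by gcongr; nlinarith
      _ = L ^ 8 * l ^ 3 := by ring
      _ ≤ _ := by gcongr; norm_num
  · calc _ ≤ L * S.w3 t * (L ^ 2 * y) ^ (0 + 1) := by gcongr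
      _ = L ^ 3 * S.w3 t * y := by ring
      _ ≤ _ := by gcongr; norm_num
  · calc _ ≤ L * S.w3 t * (L ^ 3 * l) ^ (2 + 1) := by gcongr
      _ = L ^ 10 * S.w3 t * l ^ 3 := by ring
      _ ≤ _ := by gcongr; norm_num
  · calc _ ≤ L * S.w3 t * (L ^ 3 * l) ^ (4 + 1) := by gcongr
      _ = _ := by ring

/-- high blocks -/
theorem high {Pt : ℝ} (ht : L * l ≤ t) (tC : t ≤ S.C) (hv : S.v * L ^ 2 ≤ S.C) (P1 : Pt ≤ l ^ 3)
    (P2 : t ^ 3 * S.w3 t ^ 2 ≤ Pt ^ 3) (P3 : S.v ≤ Pt)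
    (P4 : ∑ k ∈ sb S M (t / 4) (8 * t), lw M k * M.del m a k ^ 2 ≤ Pt) :
    Out p (L ^ 16) S M m a l Pt t := by
  obtain ⟨L1, LK, LC⟩ := X.num
  have G := X.geo
  have t0 := G.t0
  have l0 := X.l0
  have K1 := X.K1
  have w0 := X.w0
  have C1 := X.cl.C1
  have C0 := X.cl.C0
  have v0 := X.cl.v0
  have := G.b0l
  have := G.b01
  have := G.b1J
  have := G.D1
  have P0 : 0 < Pt := v0.trans_le P3
  have lt : l ≤ t := (le_mul_of_one_le_left l0.le L1).trans ht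
  set r := √(Pt / t) with hr
  have r2 : r ^ 2 = Pt / t := sq_sqrt (by positivity)
  have r0 : 0 < r := sqrt_pos.2 (by positivity)
  have rl : r ≤ l := by
    refine sqrt_le_iff.2 ⟨l0.le, ?_⟩
    rw [div_le_iff₀ t0]
    calc Pt ≤ l ^ 2 * l := by linarith [pow_succ l 2]
      _ ≤ _ := by gcongr
  have rw3 : S.w3 t ≤ r ^ 3 := by
    refine (pow_le_pow_iff_left₀ w0.le (by positivity) two_ne_zero).1 ?_
    rw [← pow_mul, mul_comm 3 2, pow_mul, r2, div_pow, le_div_iff₀ (by positivity)]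
    linarith
  have rv : 16 * (S.C * S.v) ≤ r := by
    refine le_sqrt_of_sq_le ?_
    rw [le_div_iff₀ t0]
    have a1 : S.v * (600 * S.C ^ 2) ^ 2 ≤ S.C := le_trans (by gcongr) hv
    have a2 : 256 * S.C ^ 3 * S.v ≤ 1 := by
      have : S.C * (360000 * S.C ^ 3 * S.v) ≤ S.C * 1 := by linarith
      have := le_of_mul_le_mul_left this C0
      have : 0 ≤ S.C ^ 3 * S.v := by positivity
      linarith
    calc _ ≤ (16 * (S.C * S.v)) ^ 2 * S.C := by gcongr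
      _ = 256 * S.C ^ 3 * S.v * S.v := by ring
      _ ≤ 1 * Pt := by gcongr
      _ = _ := one_mul _
  set H := ⌈K * l / (S.C * S.v)⌉₊ with hH
  have HD : H ≤ D := by
    rw [G.De]
    refine Nat.ceil_mono ?_
    rw [div_le_div_iff₀ (by positivity) (by positivity)]
    have : 32 * K * l ≤ t := le_trans (by gcongr; linarith) ht
    calc _ = 32 * K * l * (S.C * S.v) := by ring
      _ ≤ _ := by gcongr
  have H0 : K * l ≤ H * (S.C * S.v) := by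
    rw [← div_le_iff₀ (by positivity)]
    exact Nat.le_ceil _
  have H1 : H * (S.C * S.v) ≤ K * l + S.C * S.v := by
    have : (H : ℝ) ≤ K * l / (S.C * S.v) + 1 := (Nat.ceil_lt_add_one (by positivity)).le
    calc _ ≤ (K * l / (S.C * S.v) + 1) * (S.C * S.v) := by gcongr
      _ = _ := by field_simp
  obtain ⟨τ, a1, a2, a3, a4⟩ := Q57.tol_sharp (M.rb m a) (cq S M) (v := S.C * S.v) (l0 := r)
    (j0 := b0 - D) (j1 := b1 - 1 + D) (H := H) (by positivity) rv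
    (fun j => rb_mono (X.cl.n1.trans X.I.m1) (Nat.le_succ j)) (fun j => (cq_step X.cl X.hθ j).2)
    (by omega) fun j h0 h1 => (X.loc (by omega) (by omega)).trans H0
  have τ0 : ∀ k, 0 < τ k := fun k => r0.trans_le (a1 k).1
  have τl : ∀ k, τ k ≤ L * l := fun k => by
    have := (a1 k).2
    have : 0 < S.C * S.v := by positivity
    nlinarith
  have cr : Crude K S M m a t (b0 - D) := ⟨K1, fun k h0 h1 => (X.cr.2 k (by omega) h1).trans
    (by gcongr)⟩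
  have O := X.Q _ _ _ _ _ _ (G.qh X.cl X.hθ X.hw (ρ := τ) cr
    (fun k => (a3 (k + 1) k).trans (by
      rw [Nat.cast_succ, add_sub_cancel_left, abs_one]; nlinarith [mul_pos C0 v0]))
    (fun k => ⟨rw3.trans (by gcongr; exact (a1 k).1), (τl k).trans ht⟩)
    fun k h0 h1 => (a2 k h0 h1).trans (le_mul_of_one_le_left (τ0 k).le K1))
  obtain ⟨o1, o2, o3⟩ := G.out X.cl X.I (by positivity) (fun k => ⟨τ0 k, (τl k).trans ht⟩) O.1 O.2
  have s1 : ∑ k ∈ Icc (b0 - D - H) (b1 - 1 + D + H), S.v * (M.rb m a k - cq S M k) ^ 2 ≤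
      S.C * Pt := by
    refine le_trans ?_ (mul_le_mul_of_nonneg_left P4 C0.le)
    rw [mul_sum]
    refine le_trans (sum_le_sum fun k hk => ?_) (sum_le_sum_of_subset_of_nonneg
      (s := Icc (b0 - D - H) (b1 - 1 + D + H)) (fun k hk => ?_) fun k _ _ =>
        mul_nonneg C0.le (mul_nonneg (sub_nonneg.2 (X.cl.leg.zm (Nat.sub_le _ _))) (sq_nonneg _)))
    · obtain ⟨h0, h1⟩ := mem_Icc.1 hk
      obtain ⟨-, e2, -⟩ := G.dz (m := m) (a := a) X.cl (k := k) (by omega) (by omega)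
      rw [cq_eq (by omega), ← mul_assoc]
      rw [div_le_iff₀' C0] at e2
      exact mul_le_mul_of_nonneg_right e2 (sq_nonneg _)
    · obtain ⟨h0, h1⟩ := mem_Icc.1 hk
      obtain ⟨e1, e2⟩ := G.rg k (by omega) (by omega)
      exact mem_filter.2 ⟨mem_Ioo.2 ⟨by omega, by omega⟩, by linarith, by linarith⟩
  have s2 : ∑ k ∈ Icc (b0 - D) (b1 - 1 + D), S.v * τ k ^ 2 ≤ 272 * S.C * Pt := by
    have e1 := G.sum_c X.cl (sq_nonneg r)
    rw [sum_const, Nat.card_Icc, nsmul_eq_mul] at e1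
    have e2 : 4 * S.C * t * r ^ 2 = 4 * S.C * Pt := by rw [r2]; field_simp
    rw [← mul_sum] at s1 ⊢
    nlinarith [mul_le_mul_of_nonneg_left a4 v0.le]
  have s4 : ∑ k ∈ Icc (b0 - D) (b1 - 1 + D), S.v * τ k ^ 4 ≤ (L * l) ^ 2 * (272 * S.C * Pt) := by
    refine le_trans ?_ (mul_le_mul_of_nonneg_left s2 (sq_nonneg _))
    rw [mul_sum]
    refine sum_le_sum fun k _ => ?_
    have := τ0 k
    calc _ = τ k ^ 2 * (S.v * τ k ^ 2) := by ring
      _ ≤ _ := by gcongr; exact τl k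
  have s0 : ∑ k ∈ Icc (b0 - D) (b1 - 1 + D), S.v * τ k ^ 0 ≤ 4 * S.C * t * 1 := by
    simp only [pow_zero]
    exact G.sum_c X.cl zero_le_one
  have x1 : L * K ≤ L ^ 2 := by rw [sq]; gcongr; linarith
  have p4 := X.p4
  refine ⟨fun k => L * K * τ k, fun k => ⟨by have := τ0 k; positivity, ?_⟩, o1,
    (o2 _ s2).trans ?_, (o3 0 (by omega) _ s0).trans ?_, (o3 2 (by omega) _ s2).trans ?_,
    (o3 4 p4 _ s4).trans ?_⟩
  · calc L * K * τ k ≤ L ^ 2 * (L * l) := mul_le_mul x1 (τl k) (τ0 k).le (by positivity)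
      _ = L ^ 3 * l := by ring
      _ ≤ _ := by gcongr; norm_num
  · calc _ = (L * K) ^ 2 * (272 * S.C ^ 2) * Pt := by ring
      _ ≤ (L ^ 2) ^ 2 * L * Pt := by gcongr; nlinarith
      _ = L ^ 5 * Pt := by ring
      _ ≤ _ := by gcongr; norm_num
  · calc _ = L * K * (8 * S.C ^ 2) * S.w3 t * t := by ring
      _ ≤ L ^ 2 * L * S.w3 t * max t l := by gcongr; exacts [by nlinarith, le_max_left _ _]
      _ = L ^ 3 * S.w3 t * max t l := by ring
      _ ≤ _ := by have : 0 ≤ max t l := le_max_of_le_right l0.le; gcongr; norm_num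
  · calc _ = (L * K) ^ 3 * (544 * S.C ^ 2) * S.w3 t * Pt := by ring
      _ ≤ (L ^ 2) ^ 3 * L * S.w3 t * Pt := by gcongr; nlinarith
      _ = L ^ 7 * S.w3 t * Pt := by ring
      _ ≤ _ := by gcongr; norm_num
  · calc _ = (L * K) ^ 5 * (544 * S.C ^ 2) * L ^ 2 * S.w3 t * (Pt * l ^ 2) := by ring
      _ ≤ (L ^ 2) ^ 5 * L * L ^ 2 * S.w3 t * (Pt * l ^ 2) := by gcongr; nlinarith
      _ = L ^ 13 * S.w3 t * (Pt * l ^ 2) := by ring
      _ ≤ _ := by gcongr; norm_num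

end Cx

theorem n_t (h : Cl S M) (hθ : S.C * S.θ ≤ 1 / 2) (h0 : 0 < t) (hw : S.w3 t ≤ t ^ 3) :
    1 ≤ S.n * t := by
  have n1 : (1 : ℝ) ≤ S.n := by exact_mod_cast h.n1
  have m0 := h.ms_pos h0.le
  have m1 : S.ms t ≤ 1 := (h.ms1 t).trans (by nlinarith [h.C1, h.θ0])
  rw [Sc.w3, div_le_iff₀ (by positivity)] at hw
  by_contra hc
  push Not at hc
  have t1 : t ≤ 1 := by nlinarith
  have : t ^ 3 * (S.n * t * S.ms t) ≤ 1 * (S.n * t * 1) := by
    gcongr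
    exact pow_le_one₀ h0.le t1
  linarith [h.F1]

end B78

open B78

/-- **one sloped block** -/
theorem blkE_of (H : CruS) : BlkE := fun p hp => by
  refine (diag fun C => (qSyncS' (32 * max C 1) p (by linarith [le_max_right C 1])).and
    (CIn12.env_syn 3 (32 * max C 1) (by linarith [le_max_right C 1]))).glue' (i := 1)
    (R := fun E Λ S M m a => ∀ l Φ P l0 Λ₀ Λ₁ Pt Vt u1 V4,
      KN S M E l Φ P l0 Λ₀ Λ₁ Pt Vt u1 V4 → LK S M m a Φ P l0 Λ₁ Pt Vt u1 →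
      ∀ t, l0 ≤ t → t ≤ T0 S M → 0 < t → 0 < S.w3 t → 0 < l → 0 ≤ P t → Out p Λ S M m a l (P t) t)
    (fun E Λ Λ' S M m a _ hΛ h l Φ P l0 Λ₀ Λ₁ Pt Vt u1 V4 N Lk t h0 h1 a1 a2 a3 a4 =>
      (h l Φ P l0 Λ₀ Λ₁ Pt Vt u1 V4 N Lk t h0 h1 a1 a2 a3 a4).mono hΛ a3.le a4 a2.le)
    0 le_rfl 1 16 (fun C A ε η hε hη => ?_) |>.mono
    fun E Λ S M m a _ _ h I R l Φ P l0 Λ₀ Λ₁ Pt Vt u1 V4 N Lk t h0 h1 => ?_
  · obtain ⟨K, K1, H⟩ := H C
    refine ⟨600 * C ^ 2 * K, fun S M m a G _ j1 j2 h I Q => ?_⟩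
    intro l Φ P l0 Λ₀ Λ₁ Pt Vt u1 V4 N Lk t h0 h1 t0 w0 l0' P0
    rw [Nat.cast_one, one_mul] at j1 j2
    rw [pow_one] at N
    rw [max_eq_left h.C1] at Q
    have n1 : (1 : ℝ) ≤ S.n := by exact_mod_cast h.n1
    have LE : (S.n : ℝ) ^ η ≤ (S.n : ℝ) ^ ε := rpow_le_rpow_of_exponent_le n1 j1
    have Ln : (S.n : ℝ) ^ η ≤ S.n := (rpow_le_rpow_of_exponent_le n1 j2).trans_eq (rpow_one _)
    have L1 := G.Λ1
    have hL := G.K_le
    have hθ := G.Cθ h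
    have v0 := h.v0
    have C1 := h.C1
    rw [← G.hC] at hL
    set L := (S.n : ℝ) ^ η
    set E := (S.n : ℝ) ^ ε
    have vn : S.v * S.n ^ 2 ≤ S.C := le_trans (mul_le_mul_of_nonneg_left
      (pow_le_pow_right₀ n1 (G.hA ▸ G.A2)) v0.le) h.v2
    have sJ := h.s_le_C h.i3
    have tC : t ≤ S.C := by rw [T0] at h1; linarith
    have s0 := h.s_nn S.jl
    have hw := N.w0 t (by linarith [N.jl]) tC
    have l1 : l ≤ 1 := (le_mul_of_one_le_left l0'.le (L1.trans LE)).trans N.l1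
    have vl : S.v ≤ l := ((N.Pw l le_rfl (l1.trans C1)).2.trans (N.PΦ l)).trans
      (N.l3 ▸ pow_le_of_le_one l0'.le l1 (by norm_num))
    obtain ⟨c1, c2⟩ := H S M G.hC h m a I l (by linarith [N.jl, N.l0l]) vl N.flat
      (Lk.tot.trans_eq N.l3.symm)
    have vt : 32 * S.C * S.v ≤ t := by
      have a1 := n_t h hθ t0 hw
      have a2 : S.v * S.n * (600 * S.C ^ 2) ≤ S.C := by
        calc _ ≤ S.v * S.n * S.n := by gcongr; nlinarith [sq_nonneg S.C]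
          _ ≤ _ := by rw [mul_assoc, ← sq]; exact vn
      have a3 : 600 * S.C * (S.v * S.n) ≤ 1 :=
        le_of_mul_le_mul_left (a := S.C) (by linarith) h.C0
      calc _ ≤ 32 * S.C * S.v * (S.n * t) := le_mul_of_one_le_right (by positivity) a1
        _ = 32 * S.C * (S.v * S.n) * t := by ring
        _ ≤ 1 * t := by gcongr; nlinarith [mul_pos (mul_pos h.C0 v0) h.N0]
        _ = t := one_mul _
    obtain ⟨b0, b1, D, Ge⟩ := geo h t0 (N.jl.trans h0) h1 vt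
    have X : B78.Cx p L K S M m a l t b0 b1 D := ⟨h, I, Ge, hθ, K1, hL, hp,
      fun _ _ _ _ _ _ H => ⟨Q.1 _ _ _ _ _ _ H, Q.2 _ _ _ _ _ _ H⟩, l0', hw, c1, c2⟩
    rcases le_total t (L * l) with ht | ht
    · rw [N.Plo t (ht.trans (by gcongr)), ← N.l3]
      exact X.low ht
    · obtain ⟨q1, q2⟩ := N.Pw t ((le_mul_of_one_le_left l0'.le L1).trans ht) tC
      exact X.high ht tC (le_trans (by gcongr) vn) ((N.PΦ t).trans_eq N.l3.symm) q1 q2
        (Lk.blk t h0 h1)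
  · have s0 : 0 < M.s S.jl := h.s_pos (h.i0.trans h.i1)
    have t0 : 0 < t := by linarith [N.jl]
    exact R l Φ P l0 Λ₀ Λ₁ Pt Vt u1 V4 N Lk t h0 h1 t0
      (div_pos (by linarith [h.F1]) (mul_pos (mul_pos h.N0 t0) (h.ms_pos t0.le)))
      (by linarith [N.jl, N.l0l])
      (le_trans (sum_nonneg fun k _ => mul_nonneg (sub_nonneg.2 (h.leg.zm (Nat.sub_le _ _)))
        (sq_nonneg _)) (Lk.blk t h0 h1))

theorem blkE : BlkE := blkE_of cruS



end Crest.Agent.T156.Alt.R62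

end
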