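import Crest.Agent.T156.R1KitB_82_Mg
import Crest.Agent.T156.LPk_6_Mg
import Crest.Agent.T156.LPg_57
import Crest.Agent.T156.LPb_78_Mg

/-!
# Row 156 (helper82): the full kit needs only `LocG`
-/

set_option autoImplicit false

namespace Crest.Agent.T156.Alt.R82

open Crest.Agent.T156.Alt.R77 Crest.Agent.T156.Alt.R62

theorem momE : MomE := momE_of cruS blkE topBE

theorem momS : MomS := fun q hq => (momE q hq).mono
  fun _ _ _ _ _ _ _ _ _ _ H l Φ P l0 Λ₀ Λ₁ Pt Vt u1 V4 h1 h2 =>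
    (H l Φ P l0 Λ₀ Λ₁ Pt Vt u1 V4 h1 h2).imp_right fun G => G.imp fun _ g => g.1

/-- **the kit from the location statement** -/
theorem kit {β : ℝ} (hβ : 1 < β) (hL : LocG β) : Sml β Kit' :=
  kit_of hβ momE (pkS_of momS) gsq57 hL

end Crest.Agent.T156.Alt.R82
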