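import Crest.Agent.T156.CasDef_88

/-!
# Row 156: Hessian bounds and comparison of two terminal values (helper87)

`hessStmt : HessStmt`, `cmpStmt : CmpStmt`.
-/

set_option autoImplicit false
set_option linter.unusedSectionVars false

noncomputable section

namespace Crest.Agent.T156.Cas

open MeasureTheory Real Set Filter Topology
open Crest.Agent.T157.E Crest.Agent.T157.Casc Crest.Agent.T157.SL

variable {Ω : Type} [Fintype Ω] {w : Ω → ℝ}

namespace Hess87

theorem eg_Pf (hw : Wt w) (L : List (Lv Ω)) (f : Ω → ℝ) : Eg fun z => Pf w L z f :=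
  Eg.sum _ fun x _ => (eg_P hw L x).mul_const _

theorem eg_Hb (hw : Wt w) (L : List (Lv Ω)) (f f' : Ω → ℝ) : Eg fun z => Hb w L z f f' :=
  Eg.sum _ fun x _ => Eg.sum _ fun y _ => (eg_Hs hw L x y).const_mul _

theorem eg_Cb (hw : Wt w) (L : List (Lv Ω)) (f f' : Ω → ℝ) : Eg fun z => Cb w L z f f' :=
  (eg_Pf hw L _).sub ((eg_Pf hw L f).mul (eg_Pf hw L f'))

theorem Pf_cons (hw : Wt w) (l : Lv Ω) (L : List (Lv Ω)) (h f : Ω → ℝ) :
    Pf w (l :: L) h f = tE l (X w L) (fun z => Pf w L z f) h := by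
  simp only [Pf]
  rw [tE_sum (lg_X hw L) _ fun x _ => (eg_P hw L x).mul_const _]
  simp only [tE_mul_const]
  rfl

theorem Pf_mul_Pf (w : Ω → ℝ) (L : List (Lv Ω)) (h f f' : Ω → ℝ) :
    Pf w L h f * Pf w L h f' = ∑ x, ∑ y, f x * f' y * (P w L h x * P w L h y) := by
  simp only [Pf, Finset.sum_mul_sum]
  exact Finset.sum_congr rfl fun x _ => Finset.sum_congr rfl fun y _ => by ring

theorem Hb_cons (hw : Wt w) (l : Lv Ω) (L : List (Lv Ω)) (h f f' : Ω → ℝ) :
    Hb w (l :: L) h f f' = tE l (X w L) (fun z => Hb w L z f f') h + l.m *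
      (tE l (X w L) (fun z => Pf w L z f * Pf w L z f') h -
        Pf w (l :: L) h f * Pf w (l :: L) h f') := by
  have hX := lg_X hw L
  have e0 : ∀ x y, Eg fun z => f x * f' y * (Hs w L z x y + l.m * (P w L z x * P w L z y)) :=
    fun x y => ((eg_Hs hw L x y).add (((eg_P hw L x).mul (eg_P hw L y)).const_mul _)).const_mul _
  have e1 : ∑ x, ∑ y, f x * f' y * tE l (X w L)
      (fun z => Hs w L z x y + l.m * (P w L z x * P w L z y)) h =
      tE l (X w L) (fun z => Hb w L z f f') h +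
        l.m * tE l (X w L) (fun z => Pf w L z f * Pf w L z f') h := by
    simp only [← tE_const_mul]
    simp only [← tE_sum hX _ fun y _ => e0 _ y]
    rw [← tE_sum hX _ fun x _ => Eg.sum _ fun y _ => e0 x y,
      ← tE_add hX (eg_Hb hw L f f') (((eg_Pf hw L f).mul (eg_Pf hw L f')).const_mul _)]
    congr 1
    funext z
    simp only [Pf_mul_Pf, Hb, Finset.mul_sum, ← Finset.sum_add_distrib]
    exact Finset.sum_congr rfl fun x _ => Finset.sum_congr rfl fun y _ => by ring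
  rw [mul_sub, ← add_sub_assoc, ← e1, Pf_mul_Pf w (l :: L)]
  simp only [Hb, Hs, Finset.mul_sum, ← Finset.sum_sub_distrib]
  exact Finset.sum_congr rfl fun x _ => Finset.sum_congr rfl fun y _ => by ring

theorem Cb_cons (hw : Wt w) (l : Lv Ω) (L : List (Lv Ω)) (h f f' : Ω → ℝ) :
    Cb w (l :: L) h f f' = tE l (X w L) (fun z => Cb w L z f f') h +
      (tE l (X w L) (fun z => Pf w L z f * Pf w L z f') h -
        Pf w (l :: L) h f * Pf w (l :: L) h f') := by
  simp only [Cb]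
  rw [tE_sub (lg_X hw L) (eg_Pf hw L _) ((eg_Pf hw L f).mul (eg_Pf hw L f')),
    Pf_cons hw l L h fun x => f x * f' x]
  ring

theorem Hb_nil (w : Ω → ℝ) (h f f' : Ω → ℝ) : Hb w [] h f f' = Cb w [] h f f' := by
  rw [Cb, Pf_mul_Pf]
  simp only [Hb, Hs, Pf, mul_sub, Finset.sum_sub_distrib, mul_ite, mul_zero]
  congr 1
  refine Finset.sum_congr rfl fun x _ => ?_
  rw [Finset.sum_eq_single x (fun y _ hy => if_neg hy.symm) (by simp), if_pos rfl, mul_comm]

/-- the variance under a tilt is nonnegative -/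
theorem sq_tE_le {F Φ : (Ω → ℝ) → ℝ} (hF : Lg F) (h : Eg Φ) (l : Lv Ω) (z : Ω → ℝ) :
    tE l F Φ z * tE l F Φ z ≤ tE l F (fun y => Φ y * Φ y) z := by
  set c := tE l F Φ z with hc
  have h1 := tE_mono hF ((h.const_mul (2 * c)).sub (Eg.const (c * c))) (h.mul h)
    (fun y => by nlinarith [sq_nonneg (Φ y - c)]) l z
  rw [tE_sub hF (h.const_mul _) (Eg.const _), tE_const_mul, tE_const hF, ← hc] at h1
  linarith

theorem V_nonneg (hw : Wt w) (l : Lv Ω) (L : List (Lv Ω)) (h f : Ω → ℝ) :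
    0 ≤ tE l (X w L) (fun z => Pf w L z f * Pf w L z f) h -
      Pf w (l :: L) h f * Pf w (l :: L) h f := by
  rw [Pf_cons hw, sub_nonneg]
  exact sq_tE_le (lg_X hw L) (eg_Pf hw L f) l h

theorem Cb_nonneg (hw : Wt w) (L : List (Lv Ω)) (h f : Ω → ℝ) : 0 ≤ Cb w L h f f := by
  set c := Pf w L h f with hc
  have h1 : 0 ≤ ∑ x, P w L h x * (f x - c) ^ 2 :=
    Finset.sum_nonneg fun x _ => mul_nonneg (P_nonneg hw L h x) (sq_nonneg _)
  have h2 : ∑ x, P w L h x * (f x - c) ^ 2 = ∑ x, P w L h x * (f x * f x) -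
      2 * c * ∑ x, P w L h x * f x + c ^ 2 * ∑ x, P w L h x := by
    simp only [Finset.mul_sum, ← Finset.sum_sub_distrib, ← Finset.sum_add_distrib]
    exact Finset.sum_congr rfl fun x _ => by ring
  rw [h2, sum_P hw] at h1
  have h3 : ∑ x, P w L h x * f x = c := rfl
  rw [h3] at h1
  simp only [Cb, ← hc]
  simp only [Pf]
  nlinarith

omit [Fintype Ω] in
theorem mono_le_one : ∀ {L : List (Lv Ω)} {m0 : ℝ}, Mono m0 L → m0 ≤ 1
  | [], _, h => h
  | _ :: _, _, h => h.1.trans (mono_le_one h.2)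

theorem sandwich (hw : Wt w) (f : Ω → ℝ) : ∀ (L : List (Lv Ω)) (m0 : ℝ) (h : Ω → ℝ), Mono m0 L →
    m0 * Cb w L h f f ≤ Hb w L h f f ∧ Hb w L h f f ≤ Cb w L h f f
  | [], m0, h, hL => by
    rw [Hb_nil]
    exact ⟨mul_le_of_le_one_left (Cb_nonneg hw [] h f) hL, le_rfl⟩
  | l :: L, m0, h, hL => by
    have hX := lg_X hw L
    have h1 := tE_mono hX ((eg_Cb hw L f f).const_mul l.m) (eg_Hb hw L f f)
      (fun z => (sandwich hw f L l.m z hL.2).1) l h
    have h2 := tE_mono hX (eg_Hb hw L f f) (eg_Cb hw L f f)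
      (fun z => (sandwich hw f L l.m z hL.2).2) l h
    rw [tE_const_mul] at h1
    have h3 := V_nonneg hw l L h f
    have h4 := mul_le_mul_of_nonneg_right hL.1 (Cb_nonneg hw (l :: L) h f)
    have h5 := mul_le_of_le_one_left h3 (mono_le_one hL.2)
    rw [Hb_cons hw]
    refine ⟨h4.trans ?_, ?_⟩ <;> rw [Cb_cons hw]
    · rw [mul_add]; linarith
    · linarith

theorem Hb_symm (hw : Wt w) (f f' : Ω → ℝ) : ∀ (L : List (Lv Ω)) (h : Ω → ℝ),
    Hb w L h f f' = Hb w L h f' f
  | [], h => by simp only [Hb_nil, Cb, mul_comm]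
  | l :: L, h => by
    rw [Hb_cons hw, Hb_cons hw, mul_comm (Pf w (l :: L) h f)]
    simp only [Hb_symm hw f f' L, mul_comm (Pf w L _ f)]

theorem Hb_nonneg (hw : Wt w) (f : Ω → ℝ) : ∀ (L : List (Lv Ω)) (h : Ω → ℝ),
    (∀ l ∈ L, 0 ≤ l.m) → 0 ≤ Hb w L h f f
  | [], h, _ => by rw [Hb_nil]; exact Cb_nonneg hw [] h f
  | l :: L, h, hL => by
    rw [Hb_cons hw]
    exact add_nonneg (tE_nonneg l _ (fun z => Hb_nonneg hw f L z fun k hk => hL k (by simp [hk])) h)
      (mul_nonneg (hL l (by simp)) (V_nonneg hw l L h f))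

theorem Hb_cs (hw : Wt w) (L : List (Lv Ω)) (h f f' : Ω → ℝ) (hL : ∀ l ∈ L, 0 ≤ l.m) :
    Hb w L h f f' ^ 2 ≤ Hb w L h f f * Hb w L h f' f' := by
  have key : ∀ t : ℝ, 0 ≤ Hb w L h f f * (t * t) + 2 * Hb w L h f f' * t + Hb w L h f' f' := by
    intro t
    have h1 := Hb_nonneg hw (fun x => t * f x + f' x) L h hL
    have h2 : Hb w L h (fun x => t * f x + f' x) (fun x => t * f x + f' x) =
        Hb w L h f f * (t * t) + (Hb w L h f f' + Hb w L h f' f) * t + Hb w L h f' f' := by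
      simp only [Hb, Finset.sum_mul, ← Finset.sum_add_distrib]
      exact Finset.sum_congr rfl fun x _ => Finset.sum_congr rfl fun y _ => by ring
    rw [h2, Hb_symm hw f' f] at h1
    linarith
  have := discrim_le_zero key
  rw [discrim] at this
  nlinarith

theorem X_append (w : Ω → ℝ) (L : List (Lv Ω)) : ∀ M : List (Lv Ω), X w (M ++ L) = XT (X w L) M
  | [] => rfl
  | l :: M => by
    funext h
    simp only [List.cons_append, X, XT, X_append w L M]

theorem node_append (w : Ω → ℝ) (L : List (Lv Ω)) (Φ : (Ω → ℝ) → ℝ) : ∀ M : List (Lv Ω),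
    node w (M ++ L) M.length Φ = nodeT (X w L) M Φ
  | [] => by simp [nodeT]
  | l :: M => by
    rw [List.cons_append, List.length_cons, node_cons, node_append w L Φ M, X_append]
    rfl

variable {F G Φ : (Ω → ℝ) → ℝ}

theorem lg_XT (hF : Lg F) : ∀ M : List (Lv Ω), Lg (XT F M)
  | [] => hF
  | l :: M => (lg_XT hF M).step l

theorem eg_nodeT (hF : Lg F) (h : Eg Φ) : ∀ M : List (Lv Ω), Eg (nodeT F M Φ)
  | [] => h
  | l :: M => (eg_nodeT hF h M).tE (lg_XT hF M) l

theorem XT_ge (hF : Lg F) (hG : Lg G) : ∀ (M : List (Lv Ω)) (h : Ω → ℝ), (∀ l ∈ M, 0 ≤ l.m) →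
    XT F M h + nodeT F M (fun z => G z - F z) h ≤ XT G M h
  | [], h, _ => by simp [XT, nodeT]
  | l :: M, h, hM => by
    have h1 := step_ge (lg_XT hF M) (lg_XT hG M) (hM l (by simp)) h
    have h2 := tE_mono (lg_XT hF M) (eg_nodeT hF (hG.eg.sub hF.eg) M)
      ((lg_XT hG M).eg.sub (lg_XT hF M).eg)
      (fun z => by linarith [XT_ge hF hG M z fun k hk => hM k (by simp [hk])]) l h
    exact le_trans (add_le_add le_rfl h2) h1

theorem eg_exp_sub (hF : Lg F) (hG : Lg G) (x : ℝ) : Eg fun z => exp (x * (G z - F z)) := by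
  have := (hG.exp x).mul (hF.exp (-x))
  simp only [← exp_add] at this
  convert this using 3
  ring

/-- boosting, one level -/
theorem boost_step (hF : Lg F) (hG : Lg G) (l : Lv Ω) (h : Ω → ℝ) {x : ℝ} (hx : 0 < x)
    (hm : x ≤ l.m) :
    tE l F (fun z => exp (x * (G z - F z))) h ≤ exp (x * (step l G h - step l F h)) := by
  have hm0 : 0 < l.m := hx.trans_le hm
  set c := step l G h - step l F h with hc
  have hZF := hF.Z_pos l h
  have hZG := hG.Z_pos l h
  have e1 : tE l F (fun z => exp (l.m * (G z - F z))) h = exp (l.m * c) := by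
    have e : l.m * c = log (∫ g, exp (l.m * G (h + l.fld g)) ∂gv l.ι) -
        log (∫ g, exp (l.m * F (h + l.fld g)) ∂gv l.ι) := by
      simp only [hc, step, if_neg hm0.ne']
      field_simp
    rw [e, exp_sub, exp_log hZG, exp_log hZF, tE]
    congr 2
    funext g
    rw [← exp_add]
    congr 1
    ring
  have hθ : 0 ≤ x / l.m := (div_pos hx hm0).le
  have hθ1 : 0 ≤ 1 - x / l.m := sub_nonneg.2 ((div_le_one hm0).2 hm)
  have h1 := tE_mono hF (eg_exp_sub hF hG x)
    ((((eg_exp_sub hF hG l.m).const_mul (x / l.m * exp (-(l.m * c)))).add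
      (Eg.const (1 - x / l.m))).const_mul (exp (x * c))) (fun z => by
      have := convexOn_exp.2 (mem_univ (l.m * (G z - F z) - l.m * c)) (mem_univ 0) hθ hθ1 (by ring)
      simp only [smul_eq_mul, mul_zero, add_zero, exp_zero, mul_one] at this
      have e2 : x / l.m * (l.m * (G z - F z) - l.m * c) = x * (G z - F z) - x * c := by
        field_simp
      rw [e2, exp_sub, div_le_iff₀ (exp_pos _), sub_eq_add_neg (l.m * _), exp_add] at this
      linarith) l h
  rw [tE_const_mul, tE_add hF ((eg_exp_sub hF hG l.m).const_mul _) (Eg.const _), tE_const_mul,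
    tE_const hF, e1, mul_assoc, ← exp_add] at h1
  simpa using h1

theorem boost (hF : Lg F) (hG : Lg G) {x : ℝ} (hx : 0 < x) : ∀ (M : List (Lv Ω)) (h : Ω → ℝ),
    (∀ l ∈ M, x ≤ l.m) →
    nodeT F M (fun z => exp (x * (G z - F z))) h ≤ exp (x * (XT G M h - XT F M h))
  | [], _, _ => le_rfl
  | l :: M, h, hM =>
    (tE_mono (lg_XT hF M) (eg_nodeT hF (eg_exp_sub hF hG x) M)
      (eg_exp_sub (lg_XT hF M) (lg_XT hG M) x)
      (fun z => boost hF hG hx M z fun k hk => hM k (by simp [hk])) l h).trans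
      (boost_step (lg_XT hF M) (lg_XT hG M) l h hx (hM l (by simp)))

end Hess87

open Hess87

theorem hessStmt : HessStmt := fun _ _ _ hw =>
  ⟨fun L m0 h f _ hL => sandwich hw f L m0 h hL,
    fun l L h f f' => ⟨Hb_cons hw l L h f f', Cb_cons hw l L h f f'⟩,
    fun L h f f' hL => ⟨Hb_symm hw f f' L h, Hb_nonneg hw f L h hL, Hb_cs hw L h f f' hL⟩⟩


end Crest.Agent.T156.Cas

end
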