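import Mathlib
import Crest.Agent.T156.CaVar_6
import Crest.Agent.T156.CaTilt_43
import Crest.Agent.T156.CaHess_87

-- ▼ part T156/Kkt_28
section

/-!
# Row 156: the finite-dimensional Parisi problem, frame-free part (helper28, after 85's #7053)

A convex function on the ordered simplex: minimiser, KKT at every node with mass, the discrete
consequences for a linear grid, and the envelope inequality.
-/

set_option autoImplicit false

noncomputable section

namespace Crest.Agent.T156.Kkt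

open Set Filter Topology

variable {K : ℕ}

/-- the ordered simplex `lo ≤ x 0 ≤ … ≤ x (K-1) ≤ hi` -/
def Simp (K : ℕ) (lo hi : ℝ) : Set (Fin K → ℝ) := {x | Monotone x ∧ ∀ k, x k ∈ Icc lo hi}

/-- `xe 0 = lo`, `xe (k+1) = x k` for `k < K`, `hi` beyond; the mass of node `k` is
`xe (k+1) - xe k` -/
def xe (lo hi : ℝ) (x : Fin K → ℝ) : ℕ → ℝ
  | 0 => lo
  | k + 1 => if h : k < K then x ⟨k, h⟩ else hi

/-- extension by zero -/
def ez (g : Fin K → ℝ) (k : ℕ) : ℝ := if h : k < K then g ⟨k, h⟩ else 0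

theorem ez_fin (g : Fin K → ℝ) (k : Fin K) : ez g k = g k := by simp [ez]

theorem xe_succ (lo hi : ℝ) (x : Fin K → ℝ) (k : Fin K) : xe lo hi x (k + 1) = x k := by
  simp [xe]

theorem xe_mono {lo hi : ℝ} {x : Fin K → ℝ} (hx : x ∈ Simp K lo hi) (hlh : lo ≤ hi) :
    Monotone (xe lo hi x) := by
  refine monotone_nat_of_le_succ fun k => ?_
  cases k with
  | zero =>
    simp only [xe]; split_ifs with h
    · exact (hx.2 _).1
    · exact hlh
  | succ k =>
    simp only [xe]
    split_ifs with h1 h2 h2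
    · exact hx.1 (by simp [Fin.le_def])
    · exact (hx.2 _).2
    · omega
    · exact le_rfl

theorem simp_compact (K : ℕ) (lo hi : ℝ) : IsCompact (Simp K lo hi) := by
  refine (isCompact_Icc (a := fun _ : Fin K => lo) (b := fun _ => hi)).of_isClosed_subset ?_ ?_
  · have : Simp K lo hi = (⋂ i, ⋂ j, ⋂ _ : i ≤ j, {x : Fin K → ℝ | x i ≤ x j}) ∩
        ⋂ k, {x : Fin K → ℝ | x k ∈ Icc lo hi} := by
      ext x; simp [Simp, Monotone]
    rw [this]
    refine (isClosed_iInter fun i => isClosed_iInter fun j => isClosed_iInter fun _ =>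
      isClosed_le (continuous_apply i) (continuous_apply j)).inter
      (isClosed_iInter fun k => isClosed_Icc.preimage (continuous_apply k))
  · exact fun x hx => ⟨fun k => (hx.2 k).1, fun k => (hx.2 k).2⟩

/-- a minimiser exists -/
theorem exists_min {G : (Fin K → ℝ) → ℝ} (hG : ConvexOn ℝ {x | ∀ k, 0 ≤ x k} G) {lo hi : ℝ}
    (hlo : 0 < lo) (hlh : lo ≤ hi) : ∃ x ∈ Simp K lo hi, ∀ y ∈ Simp K lo hi, G x ≤ G y := by
  have hc : ContinuousOn G (Simp K lo hi) := by
    refine hG.continuousOn_interior.mono fun x hx => ?_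
    rw [mem_interior_iff_mem_nhds]
    have : {y : Fin K → ℝ | ∀ k, 0 ≤ y k} = ⋂ k, {y | 0 ≤ y k} := by ext; simp
    rw [this, iInter_mem]
    exact fun k => (continuous_apply k).continuousAt.preimage_mem_nhds
      (Ici_mem_nhds (hlo.trans_le (hx.2 k).1))
  obtain ⟨x, hx, hm⟩ := (simp_compact K lo hi).exists_isMinOn
    ⟨fun _ => lo, monotone_const, fun _ => ⟨le_rfl, hlh⟩⟩ hc
  exact ⟨x, hx, fun y hy => hm hy⟩

/-- moving a block of coordinates: partial derivatives suffice for a convex function -/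
theorem dir_nonneg {G : (Fin K → ℝ) → ℝ} (hG : ConvexOn ℝ {x | ∀ k, 0 ≤ x k} G)
    {x g : Fin K → ℝ} (hx : ∀ k, 0 < x k)
    (hd : ∀ k, HasDerivAt (fun t => G (Function.update x k t)) (g k) (x k))
    (A : Finset (Fin K)) (s : ℝ)
    (hmin : ∀ᶠ ε in 𝓝[>] (0 : ℝ), G x ≤ G fun i => x i + if i ∈ A then ε * s else 0) :
    0 ≤ s * ∑ i ∈ A, g i := by
  rcases A.eq_empty_or_nonempty with rfl | hA
  · simp
  have hn : (0 : ℝ) < A.card := by exact_mod_cast hA.card_pos
  set n : ℝ := (A.card : ℝ) with hn'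
  have hφ : HasDerivAt (fun ε => ∑ i ∈ A, G (Function.update x i (x i + ε * (n * s))))
      (∑ i ∈ A, g i * (n * s)) 0 := by
    refine HasDerivAt.fun_sum fun i _ => ?_
    have h1 : HasDerivAt (fun ε : ℝ => x i + ε * (n * s)) (n * s) 0 := by
      simpa using ((hasDerivAt_id (0 : ℝ)).mul_const (n * s)).const_add (x i)
    have h2 : HasDerivAt (fun t => G (Function.update x i t)) (g i) (x i + 0 * (n * s)) := by
      simpa using hd i
    exact h2.comp 0 h1
  have hD : ∀ᶠ ε in 𝓝[>] (0 : ℝ), ∀ i, 0 ≤ x i + ε * (n * s) := by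
    refine eventually_all.2 fun i => mem_nhdsWithin_of_mem_nhds ?_
    have : ContinuousAt (fun ε : ℝ => x i + ε * (n * s)) 0 := by fun_prop
    exact this.preimage_mem_nhds (Ici_mem_nhds (by simpa using hx i))
  have key : 0 ≤ ∑ i ∈ A, g i * (n * s) := by
    refine ge_of_tendsto hφ.tendsto_slope_zero_right ?_
    filter_upwards [hmin, hD, self_mem_nhdsWithin] with ε h1 h2 h3
    have h3' : (0 : ℝ) < ε := h3
    have hJ := hG.map_sum_le (t := A) (w := fun _ => n⁻¹)
      (p := fun i => Function.update x i (x i + ε * (n * s))) (fun _ _ => by positivity)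
      (by simp only [Finset.sum_const, nsmul_eq_mul, ← hn']; field_simp)
      (fun i _ k => by
        by_cases hk : k = i
        · subst hk; simpa using h2 k
        · simpa [Function.update_of_ne hk] using (hx k).le)
    have e : (∑ i ∈ A, n⁻¹ • Function.update x i (x i + ε * (n * s))) =
        fun i => x i + if i ∈ A then ε * s else 0 := by
      funext j
      have : ∀ i, Function.update x i (x i + ε * (n * s)) j =
          x j + if j = i then ε * (n * s) else 0 := fun i => by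
        by_cases hk : j = i
        · subst hk; simp
        · simp [hk]
      simp only [Finset.sum_apply, Pi.smul_apply, smul_eq_mul, this, ← Finset.mul_sum,
        Finset.sum_add_distrib, Finset.sum_const, nsmul_eq_mul, ← hn', Finset.sum_ite_eq]
      split_ifs <;> field_simp
      simp
    rw [e] at hJ
    simp only [smul_eq_mul, ← Finset.mul_sum] at hJ
    simp only [zero_add, zero_mul, add_zero, Function.update_eq_self, Finset.sum_const,
      nsmul_eq_mul, ← hn', smul_eq_mul]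
    refine mul_nonneg (by positivity) (sub_nonneg.2 ?_)
    have := h1.trans hJ
    rwa [← div_eq_inv_mul, le_div_iff₀ hn, mul_comm] at this
  rw [← Finset.sum_mul] at key
  have : 0 ≤ n * (s * ∑ i ∈ A, g i) := by linarith
  exact (mul_nonneg_iff_of_pos_left hn).1 this

theorem sum_block (g : Fin K → ℝ) {a b : ℕ} (hb : b ≤ K) :
    ∑ i ∈ Finset.univ.filter (fun i : Fin K => a ≤ i.val ∧ i.val < b), g i =
      ∑ i ∈ Finset.Ico a b, ez g i := by
  refine Finset.sum_bij (fun i _ => i.val) (fun i hi => by simpa using hi)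
    (fun i _ j _ h => Fin.ext h) (fun i hi => ?_) fun i _ => (ez_fin g i).symm
  rw [Finset.mem_Ico] at hi
  exact ⟨⟨i, by omega⟩, by simpa using hi, rfl⟩

/-- **KKT**: at a minimiser, at every node `k` with mass, the sums of the partial derivatives are
`≥ 0` on the blocks ending at `k` and `≤ 0` on the blocks starting at `k` -/
theorem kkt {G : (Fin K → ℝ) → ℝ} (hG : ConvexOn ℝ {x | ∀ k, 0 ≤ x k} G) {lo hi : ℝ}
    (hlo : 0 < lo) {x g : Fin K → ℝ} (hx : x ∈ Simp K lo hi)
    (hm : ∀ y ∈ Simp K lo hi, G x ≤ G y)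
    (hd : ∀ k, HasDerivAt (fun t => G (Function.update x k t)) (g k) (x k))
    {k : ℕ} (hk : k ≤ K) (hmass : xe lo hi x k < xe lo hi x (k + 1)) :
    (∀ j ≤ k, 0 ≤ ∑ i ∈ Finset.Ico j k, ez g i) ∧
      ∀ j, k ≤ j → j ≤ K → ∑ i ∈ Finset.Ico k j, ez g i ≤ 0 := by
  have hpos : ∀ i, 0 < x i := fun i => hlo.trans_le (hx.2 i).1
  have hlh : lo ≤ hi := by
    by_contra hc
    rcases Nat.eq_zero_or_pos K with rfl | hK
    · obtain rfl : k = 0 := by omega
      simp only [xe, lt_irrefl, dite_false] at hmass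
      exact hc hmass.le
    · exact hc ((hx.2 ⟨0, hK⟩).1.trans (hx.2 ⟨0, hK⟩).2)
  have hM := xe_mono hx hlh
  have below : ∀ i : Fin K, i.val < k → x i ≤ xe lo hi x k := fun i hi' => by
    rw [← xe_succ lo hi x i]; exact hM hi'
  have above : ∀ i : Fin K, k ≤ i.val → xe lo hi x (k + 1) ≤ x i := fun i hi' => by
    rw [← xe_succ lo hi x i]; exact hM (by omega)
  have h0 : lo ≤ xe lo hi x k := hM (Nat.zero_le k)
  have h1 : xe lo hi x (k + 1) ≤ hi := by
    have : xe lo hi x (K + 1) = hi := by simp [xe]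
    exact (hM (by omega : k + 1 ≤ K + 1)).trans this.le
  have hev : ∀ᶠ ε in 𝓝[>] (0 : ℝ), 0 < ε ∧ ε ≤ xe lo hi x (k + 1) - xe lo hi x k :=
    Ioc_mem_nhdsGT (sub_pos.2 hmass)
  constructor
  · intro j _
    have := dir_nonneg hG hpos hd (Finset.univ.filter fun i : Fin K => j ≤ i.val ∧ i.val < k) 1
      (hev.mono fun ε hε => hm _ ⟨fun a b hab => ?_, fun a => ?_⟩)
    · rwa [one_mul, sum_block g hk] at this
    · have hab' : a.val ≤ b.val := hab
      have := hx.1 hab
      simp only [Finset.mem_filter, Finset.mem_univ, true_and, mul_one]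
      split_ifs with ha hb hb
      · linarith
      · have := below a ha.2
        have := above b (by omega)
        linarith [hε.2]
      · linarith [hε.1]
      · linarith
    · simp only [Finset.mem_filter, Finset.mem_univ, true_and, mul_one]
      split_ifs with ha
      · have := below a ha.2
        exact ⟨by linarith [(hx.2 a).1, hε.1], by linarith [hε.2]⟩
      · simpa using hx.2 a
  · intro j _ hj
    have := dir_nonneg hG hpos hd (Finset.univ.filter fun i : Fin K => k ≤ i.val ∧ i.val < j) (-1)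
      (hev.mono fun ε hε => hm _ ⟨fun a b hab => ?_, fun a => ?_⟩)
    · rw [sum_block g hj] at this; linarith
    · have hab' : a.val ≤ b.val := hab
      have := hx.1 hab
      simp only [Finset.mem_filter, Finset.mem_univ, true_and, mul_neg, mul_one]
      split_ifs with ha hb hb
      · linarith
      · linarith [hε.1]
      · have := below a (by omega)
        have := above b hb.1
        linarith [hε.2]
      · linarith
    · simp only [Finset.mem_filter, Finset.mem_univ, true_and, mul_neg, mul_one]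
      split_ifs with ha
      · have := above a ha.1
        exact ⟨by linarith [hε.2], by linarith [(hx.2 a).2, hε.1]⟩
      · simpa using hx.2 a

/-! ### the linear grid -/

theorem sum_grid (a m : ℕ) :
    ∑ i ∈ Finset.Ico a (a + m), ((i : ℝ) + 1 / 2) = m * (a + m / 2) := by
  induction m with
  | zero => simp
  | succ m ih =>
    rw [← add_assoc, Finset.sum_Ico_succ_top (by omega), ih]
    push_cast; ring

/-- the data of a discrete Parisi problem at a node `k` with mass -/
structure Grid (K k : ℕ) (h : ℝ) (r rb : ℕ → ℝ) : Prop where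
  hk : k ≤ K
  h0 : 0 ≤ h
  nonneg : 0 ≤ r 0
  lo : ∀ i < K, r i ≤ rb i
  hi : ∀ i < K, rb i ≤ r (i + 1)
  below : ∀ j ≤ k, 0 ≤ ∑ i ∈ Finset.Ico j k, (rb i - (i + 1 / 2) * h)
  above : ∀ j, k ≤ j → j ≤ K → ∑ i ∈ Finset.Ico k j, (rb i - (i + 1 / 2) * h) ≤ 0

namespace Grid

variable {k : ℕ} {h : ℝ} {r rb : ℕ → ℝ} (H : Grid K k h r rb)
include H

theorem mono {i j : ℕ} (hij : i ≤ j) (hj : j ≤ K) : r i ≤ r j := by
  induction j, hij using Nat.le_induction with
  | base => exact le_rfl
  | succ j hij ih => exact (ih (by omega)).trans ((H.lo j hj).trans (H.hi j hj))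

theorem rb_le (hk : k < K) : rb k ≤ (k + 1 / 2) * h := by
  have := H.above (k + 1) (by omega) hk
  rw [Finset.sum_Ico_succ_top le_rfl] at this
  simp only [Finset.Ico_self, Finset.sum_empty, zero_add] at this
  linarith

/-- (i), upper half -/
theorem r_le (hk : k < K) : r k ≤ (k + 1 / 2) * h := (H.lo k hk).trans (H.rb_le hk)

/-- (i), lower half -/
theorem le_r : (k - 1 / 2) * h ≤ r k := by
  cases k with
  | zero => have := H.nonneg; have := H.h0; simp only [Nat.cast_zero]; linarith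
  | succ k =>
    have := H.below k (by omega)
    rw [Finset.sum_Ico_succ_top le_rfl] at this
    simp only [Finset.Ico_self, Finset.sum_empty, zero_add] at this
    have h2 := H.hi k H.hk
    push_cast; linarith

/-- (ii) -/
theorem rb_sub (hk : k < K) : rb k - r k ≤ h := by
  have := H.rb_le hk; have := H.le_r; linarith

/-- (iii), below the node -/
theorem sub_below (hk : k < K) (i : ℕ) : r k - r (k - i) ≤ (2 * i + 1) * h := by
  have h0 := H.h0
  have hu := H.r_le hk
  rcases Nat.eq_zero_or_pos i with rfl | hi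
  · simpa using h0
  have hi' : (0 : ℝ) < i := by exact_mod_cast hi
  by_cases h2 : 2 * i ≤ k
  · obtain ⟨a, rfl⟩ := Nat.exists_eq_add_of_le' h2
    have hb := H.below a (by omega)
    have e : a + 2 * i - i = a + i := by omega
    rw [e]
    rw [Finset.sum_sub_distrib, ← Finset.sum_mul, sum_grid,
      ← Finset.sum_Ico_consecutive _ (by omega : a ≤ a + i) (by omega : a + i ≤ a + 2 * i)] at hb
    have s1 : ∑ l ∈ Finset.Ico a (a + i), rb l ≤ i * r (a + i) := by
      refine (Finset.sum_le_card_nsmul _ _ (r (a + i)) fun l hl => ?_).trans (by simp)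
      rw [Finset.mem_Ico] at hl
      exact (H.hi l (by omega)).trans (H.mono (by omega) (by omega))
    have s2 : ∑ l ∈ Finset.Ico (a + i) (a + 2 * i), rb l ≤ i * r (a + 2 * i) := by
      refine (Finset.sum_le_card_nsmul _ _ (r (a + 2 * i)) fun l hl => ?_).trans ?_
      · rw [Finset.mem_Ico] at hl
        exact (H.hi l (by omega)).trans (H.mono (by omega) (by omega))
      · rw [Nat.card_Ico, show a + 2 * i - (a + i) = i by omega]; simp
    push_cast at hb hu
    have : 0 ≤ i * (r (a + i) + r (a + 2 * i) - 2 * (a + i) * h) := by nlinarith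
    have := (mul_nonneg_iff_of_pos_left hi').1 this
    nlinarith
  · have h3 : (k : ℝ) ≤ 2 * i := by exact_mod_cast (by omega : k ≤ 2 * i)
    have := H.nonneg.trans (H.mono (Nat.zero_le (k - i)) (by omega))
    nlinarith

/-- (iii), above the node -/
theorem sub_above (i : ℕ) (hi2 : k + 2 * i ≤ K) : r (k + i) - r k ≤ (2 * i + 1) * h := by
  have h0 := H.h0
  have hu := H.le_r
  rcases Nat.eq_zero_or_pos i with rfl | hi
  · simpa using h0
  have hi' : (0 : ℝ) < i := by exact_mod_cast hi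
  have hb := H.above (k + 2 * i) (by omega) hi2
  rw [Finset.sum_sub_distrib, ← Finset.sum_mul, sum_grid,
    ← Finset.sum_Ico_consecutive _ (by omega : k ≤ k + i) (by omega : k + i ≤ k + 2 * i)] at hb
  have s1 : i * r k ≤ ∑ l ∈ Finset.Ico k (k + i), rb l := by
    refine le_trans (by simp) (Finset.card_nsmul_le_sum _ _ (r k) fun l hl => ?_)
    rw [Finset.mem_Ico] at hl
    exact (H.mono hl.1 (by omega)).trans (H.lo l (by omega))
  have s2 : i * r (k + i) ≤ ∑ l ∈ Finset.Ico (k + i) (k + 2 * i), rb l := by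
    refine le_trans ?_ (Finset.card_nsmul_le_sum _ _ (r (k + i)) fun l hl => ?_)
    · rw [Nat.card_Ico, show k + 2 * i - (k + i) = i by omega]; simp
    · rw [Finset.mem_Ico] at hl
      exact (H.mono hl.1 (by omega)).trans (H.lo l (by omega))
  push_cast at hb
  have : 0 ≤ i * (2 * (k + i) * h - (r k + r (k + i))) := by nlinarith
  have := (mul_nonneg_iff_of_pos_left hi').1 this
  nlinarith

end Grid

/-! ### the envelope -/

/-- the value function moves no faster than the partial derivative at a minimiser -/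
theorem envelope {α : Type*} {G : ℝ → α → ℝ} {S : Set α} {m : ℝ → α} {a b C : ℝ}
    {D B B' : ℝ → ℝ} (hm : ∀ d ∈ Icc a b, m d ∈ S ∧ ∀ x ∈ S, G d (m d) ≤ G d x)
    (hL : ∀ x ∈ S, ∀ d ∈ Icc a b, ∀ e ∈ Icc a b, G d x - G e x ≤ C * |d - e|)
    (hD : ∀ d ∈ Ico a b, HasDerivWithinAt (fun e => G e (m d)) (D d) (Ici d) d)
    (hB : ContinuousOn B (Icc a b)) (hB' : ∀ d ∈ Ico a b, HasDerivWithinAt B (B' d) (Ici d) d)
    (hle : ∀ d ∈ Ico a b, D d ≤ B' d) :
    ∀ d ∈ Icc a b, G d (m d) - G a (m a) ≤ B d - B a := by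
  have hV : ∀ d ∈ Icc a b, ∀ e ∈ Icc a b, G d (m d) - G e (m e) ≤ C * |d - e| :=
    fun d hd e he => by linarith [(hm d hd).2 _ (hm e he).1, hL _ (hm e he).1 d hd e he]
  have hc : ContinuousOn (fun d => G d (m d)) (Icc a b) := by
    refine (LipschitzOnWith.of_dist_le_mul (K := ⟨|C|, abs_nonneg C⟩) fun d hd e he => ?_).continuousOn
    rw [Real.dist_eq, Real.dist_eq, abs_le]
    have h1 := hV d hd e he
    have h2 := hV e he d hd
    rw [abs_sub_comm e d] at h2
    have h3 := mul_le_mul_of_nonneg_right (le_abs_self C) (abs_nonneg (d - e))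
    change -(|C| * |d - e|) ≤ _ ∧ _ ≤ |C| * |d - e|
    constructor <;> linarith
  intro d hd
  have := image_le_of_liminf_slope_right_le_deriv_boundary hc
    (B := fun d => B d - B a + G a (m a)) (B' := B') (by simp)
    ((hB.sub continuousOn_const).add continuousOn_const)
    (fun x hx => ((hB' x hx).sub_const _).add_const _) (fun x hx r hr => ?_) hd
  · linarith
  · have h1 := ((hD x hx).mono Ioi_subset_Ici_self)
    rw [hasDerivWithinAt_iff_tendsto_slope' (by simp)] at h1
    have h2 := h1.eventually (Iio_mem_nhds ((hle x hx).trans_lt hr))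
    refine Eventually.frequently ?_
    filter_upwards [h2, Ioc_mem_nhdsGT hx.2] with z hz hz'
    refine lt_of_le_of_lt ?_ hz
    rw [slope_def_field, slope_def_field]
    have hx' : x ∈ Icc a b := ⟨hx.1, hx.2.le⟩
    have := (hm z ⟨hx.1.trans hz'.1.le, hz'.2⟩).2 _ (hm x hx').1
    exact div_le_div_of_nonneg_right (by linarith) (sub_pos.2 hz'.1).le


end Crest.Agent.T156.Kkt

end
private theorem rz_4976f675bb : type_of% @_root_.Crest.Agent.T156.Kkt.xe.eq_1 := @_root_.Crest.Agent.T156.Kkt.xe.eq_1 -- L25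
end

-- ▼ part T156/CaKkt_28

/-!
# Row 156: the finite-`n` Parisi problem in the cascade frame (helper28, after 85's #7053)

A block of `K` levels with free tilts `x` between a prefix `M` and a suffix `N`.  The value is
jointly convex in (state, tilts); at a minimiser of `X - ∑ x_k t_k` over the ordered simplex the
two-replica overlaps satisfy the KKT inequalities at every node with mass.
-/

set_option autoImplicit false
set_option linter.unusedSectionVars false

noncomputable section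

namespace Crest.Agent.T156.Cas

open MeasureTheory Real Set Filter Topology
open Crest.Agent.T157.E Crest.Agent.T157.Casc Crest.Agent.T157.SL
open Crest.Agent.T156.Kkt Var6

namespace Kkt28

variable {Ω : Type} [Fintype Ω] {w : Ω → ℝ} {K : ℕ}

/-! ### splitting a level, monotonicity of the overlap -/

theorem tE_split (hw : Wt w) {l l1 l2 : Lv Ω} (h1 : l.m = l1.m) (h2 : l1.m = l2.m)
    (hc : ∀ x y, l.cov x y = l1.cov x y + l2.cov x y) (L : List (Lv Ω)) {Φ : (Ω → ℝ) → ℝ}
    (hΦ : Eg Φ) : tE l (X w L) Φ = tE l1 (X w (l2 :: L)) (tE l2 (X w L) Φ) := by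
  have hs : C.Same l (C.addLv l1 l2) :=
    ⟨h1, by funext x y; exact (hc x y).trans (C.addLv_cov l1 l2 x y).symm⟩
  rw [hs.tE (C.lp_X hw L).meas hΦ.cont.measurable]
  funext h
  rw [C.tE_addLv h2 (C.lp_X hw L) h ((lg_X hw L).int hΦ (C.addLv l1 l2) h), C.X_cons]

theorem P_split (hw : Wt w) {l l1 l2 : Lv Ω} (h1 : l.m = l1.m) (h2 : l1.m = l2.m)
    (hc : ∀ x y, l.cov x y = l1.cov x y + l2.cov x y) (L : List (Lv Ω)) :
    P w (l :: L) = P w (l1 :: l2 :: L) := by
  funext z x
  exact congrFun (tE_split hw h1 h2 hc L (eg_P hw L x)) z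

theorem pi2_split_lo (hw : Wt w) {l l1 l2 : Lv Ω} (h1 : l.m = l1.m) (h2 : l1.m = l2.m)
    (hc : ∀ x y, l.cov x y = l1.cov x y + l2.cov x y) (L : List (Lv Ω)) (κ : Ω → Ω → ℝ) :
    ∀ M : List (Lv Ω), pi2 w (M ++ l :: L) M.length κ = pi2 w (M ++ l1 :: l2 :: L) M.length κ
  | [] => by
    funext z
    simp only [List.nil_append, List.length_nil, pi2_zero, P_split hw h1 h2 hc L]
  | k :: M => by
    funext z
    rw [List.cons_append, List.cons_append, List.length_cons, pi2_cons, pi2_cons,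
      pi2_split_lo hw h1 h2 hc L κ M, C.X_append_congr w (C.X_split hw h1 h2 hc L) M]

theorem pi2_split_hi (hw : Wt w) {l l1 l2 : Lv Ω} (h1 : l.m = l1.m) (h2 : l1.m = l2.m)
    (hc : ∀ x y, l.cov x y = l1.cov x y + l2.cov x y) (L : List (Lv Ω)) (κ : Ω → Ω → ℝ) (j : ℕ) :
    ∀ M : List (Lv Ω),
      pi2 w (M ++ l :: L) (M.length + j + 1) κ = pi2 w (M ++ l1 :: l2 :: L) (M.length + j + 2) κ
  | [] => by
    funext z
    simp only [List.nil_append, List.length_nil, zero_add]
    exact congrFun (tE_split hw h1 h2 hc L (eg_pi2 hw L j κ)) z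
  | k :: M => by
    funext z
    rw [List.cons_append, List.cons_append, List.length_cons,
      show M.length + 1 + j + 1 = M.length + j + 1 + 1 by omega,
      show M.length + 1 + j + 2 = M.length + j + 2 + 1 by omega, pi2_cons, pi2_cons,
      pi2_split_hi hw h1 h2 hc L κ j M, C.X_append_congr w (C.X_split hw h1 h2 hc L) M]

theorem qf_cov (L : List (Lv Ω)) (κ : Lv Ω) (z : Ω → ℝ) : qf (P w L z) κ.cov =
    ∑ i, Pf w L z (fun x => κ.A x i) * Pf w L z fun x => κ.A x i := by
  simp only [qf, Lv.cov, Pf, Finset.sum_mul_sum]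
  simp only [Finset.mul_sum]
  refine (Finset.sum_congr rfl fun x _ => Finset.sum_comm).trans (Finset.sum_comm.trans ?_)
  exact Finset.sum_congr rfl fun i _ => Finset.sum_congr rfl fun x _ =>
    Finset.sum_congr rfl fun y _ => by ring

theorem pi2_cov_nonneg (L : List (Lv Ω)) (j : ℕ) (κ : Lv Ω) (z : Ω → ℝ) :
    0 ≤ pi2 w L j κ.cov z :=
  node_nonneg w (fun z => by
    rw [qf_cov]; exact Finset.sum_nonneg fun i _ => mul_self_nonneg _) L j z

/-- the overlap of two replicas increases with the number of shared levels -/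
theorem pi2_succ (hw : Wt w) (κ : Lv Ω) : ∀ (L : List (Lv Ω)) (j : ℕ) (z : Ω → ℝ),
    pi2 w L j κ.cov z ≤ pi2 w L (j + 1) κ.cov z
  | [], j, z => by cases j <;> simp [pi2, node]
  | l :: L, 0, z => by
    have e : pi2 w L 0 κ.cov = fun z => ∑ i,
        Pf w L z (fun x => κ.A x i) * Pf w L z fun x => κ.A x i := by
      funext z; rw [pi2_zero, qf_cov]
    rw [pi2_cons, pi2_zero, qf_cov, e, tE_sum (lg_X hw L) _ fun i _ =>
      (Hess87.eg_Pf hw L _).mul (Hess87.eg_Pf hw L _)]
    exact Finset.sum_le_sum fun i _ => sub_nonneg.1 (Hess87.V_nonneg hw l L z _)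
  | l :: L, j + 1, z => by
    rw [pi2_cons, pi2_cons]
    exact tE_mono (lg_X hw L) (eg_pi2 hw L j _) (eg_pi2 hw L (j + 1) _) (pi2_succ hw κ L j) l z

theorem pi2_mono (hw : Wt w) (κ : Lv Ω) (L : List (Lv Ω)) (z : Ω → ℝ) :
    Monotone fun j => pi2 w L j κ.cov z := monotone_nat_of_le_succ fun j => pi2_succ hw κ L j z

theorem lv_cov (l : Lv Ω) {v : ℝ} (hv : 0 ≤ v) (m : ℝ) (x y : Ω) :
    (lv l v m).cov x y = v * l.cov x y := by
  simp only [Lv.cov, Finset.mul_sum]
  refine Finset.sum_congr rfl fun i _ => ?_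
  rw [show √v * l.A x i * (√v * l.A y i) = √v * √v * (l.A x i * l.A y i) by ring,
    mul_self_sqrt hv]

/-- the overlap inside a level lies between the overlaps at its two ends -/
theorem pi2_inside (hw : Wt w) (κ l : Lv Ω) (M L : List (Lv Ω)) (m : ℝ) {ρ : ℝ}
    (hρ : ρ ∈ Icc (0 : ℝ) 1) (z : Ω → ℝ) :
    pi2 w (M ++ tm l m :: L) M.length κ.cov z ≤
        pi2 w (M ++ lv l ρ m :: lv l (1 - ρ) m :: L) (M.length + 1) κ.cov z ∧
      pi2 w (M ++ lv l ρ m :: lv l (1 - ρ) m :: L) (M.length + 1) κ.cov z ≤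
        pi2 w (M ++ tm l m :: L) (M.length + 1) κ.cov z := by
  have hc : ∀ x y, (tm l m).cov x y = (lv l ρ m).cov x y + (lv l (1 - ρ) m).cov x y := by
    intro x y
    rw [lv_cov l hρ.1, lv_cov l (sub_nonneg.2 hρ.2)]
    change l.cov x y = _
    ring
  constructor
  · rw [pi2_split_lo hw (l := tm l m) (l1 := lv l ρ m) (l2 := lv l (1 - ρ) m) rfl rfl hc]
    exact pi2_succ hw κ _ _ z
  · have := pi2_split_hi hw (l := tm l m) (l1 := lv l ρ m) (l2 := lv l (1 - ρ) m) rfl rfl hc L
      κ.cov 0 M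
    rw [add_zero] at this
    rw [this]
    exact pi2_succ hw κ _ _ z

theorem int_inside (hw : Wt w) (κ l : Lv Ω) (M L : List (Lv Ω)) (m : ℝ) (z : Ω → ℝ) :
    pi2 w (M ++ tm l m :: L) M.length κ.cov z ≤ ∫ ρ in (0 : ℝ)..1,
        pi2 w (M ++ lv l ρ m :: lv l (1 - ρ) m :: L) (M.length + 1) κ.cov z ∧
      ∫ ρ in (0 : ℝ)..1, pi2 w (M ++ lv l ρ m :: lv l (1 - ρ) m :: L) (M.length + 1) κ.cov z ≤
        pi2 w (M ++ tm l m :: L) (M.length + 1) κ.cov z := by
  have hi : IntervalIntegrable (fun ρ =>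
      pi2 w (M ++ lv l ρ m :: lv l (1 - ρ) m :: L) (M.length + 1) κ.cov z) volume 0 1 :=
    ContinuousOn.intervalIntegrable_of_Icc zero_le_one (cont_rho hw M L l m m _ _ z)
  constructor
  · simpa using intervalIntegral.integral_mono_on zero_le_one intervalIntegrable_const hi
      fun ρ hρ => (pi2_inside hw κ l M L m hρ z).1
  · simpa using intervalIntegral.integral_mono_on zero_le_one hi intervalIntegrable_const
      fun ρ hρ => (pi2_inside hw κ l M L m hρ z).2

/-! ### a block of levels with free tilts -/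

/-- the block -/
def blk (l : Fin K → Lv Ω) (x : Fin K → ℝ) : List (Lv Ω) := List.ofFn fun k => tm (l k) (x k)

/-- prefix, block, suffix -/
def LL (M N : List (Lv Ω)) (l : Fin K → Lv Ω) (x : Fin K → ℝ) : List (Lv Ω) := M ++ blk l x ++ N

/-- the same list with level `k` of the block cut at the fraction `ρ` of its variance -/
def spl (M N : List (Lv Ω)) (l : Fin K → Lv Ω) (x : Fin K → ℝ) (k : Fin K) (ρ : ℝ) :
    List (Lv Ω) := (M ++ (blk l x).take k) ++
      lv (l k) ρ (x k) :: lv (l k) (1 - ρ) (x k) :: ((blk l x).drop (k + 1) ++ N)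


theorem pre_length (M : List (Lv Ω)) (l : Fin K → Lv Ω) (x : Fin K → ℝ) (k : Fin K) :
    (M ++ (blk l x).take k).length = M.length + k := by
  simp [blk]

theorem blk_update (l : Fin K → Lv Ω) (x : Fin K → ℝ) (k : Fin K) (s : ℝ) :
    blk l (Function.update x k s) = (blk l x).take k ++ tm (l k) s :: (blk l x).drop (k + 1) := by
  have h1 : blk l (Function.update x k s) = (blk l x).set k (tm (l k) s) := by
    refine List.ext_getElem (by simp [blk]) fun i h1 h2 => ?_
    simp only [blk, List.getElem_ofFn, List.getElem_set]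
    split_ifs with h
    · obtain rfl : i = k.val := h.symm
      simp
    · rw [Function.update_of_ne fun e => h (by rw [← e])]
  rw [h1, List.set_eq_take_append_cons_drop, if_pos (by simp [blk])]

theorem LL_update (M N : List (Lv Ω)) (l : Fin K → Lv Ω) (x : Fin K → ℝ) (k : Fin K) (s : ℝ) :
    LL M N l (Function.update x k s) =
      (M ++ (blk l x).take k) ++ tm (l k) s :: ((blk l x).drop (k + 1) ++ N) := by
  simp [LL, blk_update]

theorem LL_at (M N : List (Lv Ω)) (l : Fin K → Lv Ω) (x : Fin K → ℝ) (k : Fin K) :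
    LL M N l x = (M ++ (blk l x).take k) ++ tm (l k) (x k) :: ((blk l x).drop (k + 1) ++ N) := by
  rw [← LL_update, Function.update_eq_self]

/-- **joint convexity in (state, tilts of the block)** -/
theorem conv_LL (hw : Wt w) {M N : List (Lv Ω)} (hM : ∀ l ∈ M, 0 ≤ l.m) (hN : ∀ l ∈ N, 0 ≤ l.m)
    (l : Fin K → Lv Ω) {x y : Fin K → ℝ} (hx : ∀ k, 0 ≤ x k) (hy : ∀ k, 0 ≤ y k) {a b : ℝ}
    (ha : 0 ≤ a) (hb : 0 ≤ b) (hab : a + b = 1) (u v : Ω → ℝ) :
    X w (LL M N l (a • x + b • y)) (a • u + b • v) ≤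
      a * X w (LL M N l x) u + b * X w (LL M N l y) v := by
  set T : List (Lv Ω × ℝ) := M.map (fun k => (k, 0)) ++
    (List.ofFn fun k => (tm (l k) (x k), y k - x k)) ++ N.map fun k => (k, 0) with hT
  have e : ∀ t, tl T t = LL M N l fun k => x k + t * (y k - x k) := fun t => by
    simp [hT, tl, LL, blk, List.map_ofFn, Function.comp_def]
  have hpos : ∀ t, (∀ k, 0 ≤ x k + t * (y k - x k)) → ∀ p ∈ T, 0 ≤ p.1.m + t * p.2 := by
    intro t ht p hp
    simp only [hT, List.mem_append, List.mem_map, List.mem_ofFn] at hp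
    rcases hp with (⟨k, hk, rfl⟩ | ⟨k, rfl⟩) | ⟨k, hk, rfl⟩
    · simpa using hM k hk
    · exact ht k
    · simpa using hN k hk
  have := Tilt43.tl_conv hw (s := 0) (t := 1) ha hb hab T (hpos 0 (by simpa using hx))
    (hpos 1 (by simpa using hy)) u v
  rw [e, e, e] at this
  have e1 : (fun k => x k + (a * 0 + b * 1) * (y k - x k)) = a • x + b • y := by
    funext k
    simp only [Pi.add_apply, Pi.smul_apply, smul_eq_mul]
    rw [show a = 1 - b by linarith]; ring
  simpa only [e1, zero_mul, add_zero, one_mul, add_sub_cancel] using this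

/-- the objective `X - ∑ x_k t_k` -/
def Gp (w : Ω → ℝ) (M N : List (Lv Ω)) (l : Fin K → Lv Ω) (h : Ω → ℝ) (t : Fin K → ℝ)
    (x : Fin K → ℝ) : ℝ := X w (LL M N l x) h - ∑ k, x k * t k

/-- overlap (kernel `κ`) of two replicas sharing the prefix and `k` levels of the block -/
def rr (w : Ω → ℝ) (M N : List (Lv Ω)) (l : Fin K → Lv Ω) (h : Ω → ℝ) (κ : Ω → Ω → ℝ)
    (x : Fin K → ℝ) (k : ℕ) : ℝ := pi2 w (LL M N l x) (M.length + k) κ h

/-- its average over the inside of level `k` -/
def rb (w : Ω → ℝ) (M N : List (Lv Ω)) (l : Fin K → Lv Ω) (h : Ω → ℝ) (κ : Ω → Ω → ℝ)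
    (x : Fin K → ℝ) : ℕ → ℝ :=
  ez fun k : Fin K => ∫ ρ in (0 : ℝ)..1, pi2 w (spl M N l x k ρ) (M.length + k + 1) κ h

theorem convex_Gp (hw : Wt w) {M N : List (Lv Ω)} (hM : ∀ l ∈ M, 0 ≤ l.m) (hN : ∀ l ∈ N, 0 ≤ l.m)
    (l : Fin K → Lv Ω) (h : Ω → ℝ) (t : Fin K → ℝ) :
    ConvexOn ℝ {x | ∀ k, 0 ≤ x k} (Gp w M N l h t) := by
  refine ⟨fun x hx y hy a b ha hb _ k => ?_, fun x hx y hy a b ha hb hab => ?_⟩
  · have := hx k; have := hy k
    simp only [Pi.add_apply, Pi.smul_apply, smul_eq_mul]; positivity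
  · have h1 := conv_LL hw hM hN l hx hy ha hb hab h h
    rw [← add_smul, hab, one_smul] at h1
    have h2 : ∑ k, (a • x + b • y) k * t k = a * ∑ k, x k * t k + b * ∑ k, y k * t k := by
      simp only [Finset.mul_sum, ← Finset.sum_add_distrib, Pi.add_apply, Pi.smul_apply,
        smul_eq_mul]
      exact Finset.sum_congr rfl fun k _ => by ring
    simp only [Gp, smul_eq_mul, h2]
    linarith

theorem deriv_X (hw : Wt w) (M N : List (Lv Ω)) (l : Fin K → Lv Ω) (h : Ω → ℝ) (x : Fin K → ℝ)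
    (k : Fin K) : HasDerivAt (fun s => X w (LL M N l (Function.update x k s)) h)
      (rb w M N l h (l k).cov x k / 2) (x k) := by
  have := tder1 hw (M ++ (blk l x).take k) ((blk l x).drop (k + 1) ++ N) (l k) (x k) h
  simp only [lv_one, pre_length] at this
  simpa only [LL_update, rb, ez_fin, spl] using this

theorem deriv_Gp (hw : Wt w) (M N : List (Lv Ω)) (l : Fin K → Lv Ω) (h : Ω → ℝ)
    (t x : Fin K → ℝ) (k : Fin K) : HasDerivAt (fun s => Gp w M N l h t (Function.update x k s))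
      (rb w M N l h (l k).cov x k / 2 - t k) (x k) := by
  refine (deriv_X hw M N l h x k).fun_sub ?_
  have e : ∀ s, ∑ j, Function.update x k s j * t j =
      s * t k + ∑ j ∈ Finset.univ.erase k, x j * t j := fun s => by
    rw [← Finset.add_sum_erase _ _ (Finset.mem_univ k), Function.update_self]
    congr 1
    exact Finset.sum_congr rfl fun j hj => by
      rw [Function.update_of_ne (Finset.ne_of_mem_erase hj)]
  simp only [e]
  simpa using (hasDerivAt_id (x k)).mul_const (t k)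

theorem rr_le_rb (hw : Wt w) (M N : List (Lv Ω)) (l : Fin K → Lv Ω) (h : Ω → ℝ) (κ : Lv Ω)
    (x : Fin K → ℝ) {k : ℕ} (hk : k < K) :
    rr w M N l h κ.cov x k ≤ rb w M N l h κ.cov x k ∧
      rb w M N l h κ.cov x k ≤ rr w M N l h κ.cov x (k + 1) := by
  have := int_inside hw κ (l ⟨k, hk⟩) (M ++ (blk l x).take (⟨k, hk⟩ : Fin K))
    ((blk l x).drop ((⟨k, hk⟩ : Fin K) + 1) ++ N) (x ⟨k, hk⟩) h
  rw [← LL_at, pre_length] at this
  simpa only [rr, rb, ez, dif_pos hk, spl, add_assoc] using this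

theorem rb_smul (M N : List (Lv Ω)) (l : Fin K → Lv Ω) (h : Ω → ℝ) (κ : Ω → Ω → ℝ) (c : ℝ)
    (x : Fin K → ℝ) (k : ℕ) :
    rb w M N l h (fun a b => c * κ a b) x k = c * rb w M N l h κ x k := by
  simp only [rb, ez, pi2_const_mul, intervalIntegral.integral_const_mul]
  split_ifs <;> simp

theorem exists_min_Gp (hw : Wt w) {M N : List (Lv Ω)} (hM : ∀ l ∈ M, 0 ≤ l.m)
    (hN : ∀ l ∈ N, 0 ≤ l.m) (l : Fin K → Lv Ω) (h : Ω → ℝ) (t : Fin K → ℝ) {lo hi : ℝ}
    (hlo : 0 < lo) (hlh : lo ≤ hi) :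
    ∃ x ∈ Simp K lo hi, ∀ y ∈ Simp K lo hi, Gp w M N l h t x ≤ Gp w M N l h t y :=
  exists_min (convex_Gp hw hM hN l h t) hlo hlh

/-- **KKT**, arbitrary levels and arbitrary linear term -/
theorem kkt_Gp (hw : Wt w) {M N : List (Lv Ω)} (hM : ∀ l ∈ M, 0 ≤ l.m) (hN : ∀ l ∈ N, 0 ≤ l.m)
    (l : Fin K → Lv Ω) (h : Ω → ℝ) (t : Fin K → ℝ) {lo hi : ℝ} (hlo : 0 < lo) {x : Fin K → ℝ}
    (hx : x ∈ Simp K lo hi) (hm : ∀ y ∈ Simp K lo hi, Gp w M N l h t x ≤ Gp w M N l h t y)
    {k : ℕ} (hk : k ≤ K) (hmass : xe lo hi x k < xe lo hi x (k + 1)) :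
    (∀ j ≤ k, 0 ≤ ∑ i ∈ Finset.Ico j k,
      ez (fun i => rb w M N l h (l i).cov x i / 2 - t i) i) ∧
    ∀ j, k ≤ j → j ≤ K → ∑ i ∈ Finset.Ico k j,
      ez (fun i => rb w M N l h (l i).cov x i / 2 - t i) i ≤ 0 :=
  kkt (convex_Gp hw hM hN l h t) hlo hx hm (deriv_Gp hw M N l h t x) hk hmass

/-- **the linear grid**: all levels have covariance `c κ`, `t k = c (k + 1/2) η / 2` -/
theorem grid_Gp (hw : Wt w) {M N : List (Lv Ω)} (hM : ∀ l ∈ M, 0 ≤ l.m) (hN : ∀ l ∈ N, 0 ≤ l.m)
    (l : Fin K → Lv Ω) (h : Ω → ℝ) (κ : Lv Ω) {c η : ℝ} (hc : 0 < c) (hη : 0 ≤ η)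
    (hl : ∀ k a b, (l k).cov a b = c * κ.cov a b) {t : Fin K → ℝ}
    (ht : ∀ k, t k = c / 2 * ((k + 1 / 2) * η)) {lo hi : ℝ} (hlo : 0 < lo) {x : Fin K → ℝ}
    (hx : x ∈ Simp K lo hi) (hm : ∀ y ∈ Simp K lo hi, Gp w M N l h t x ≤ Gp w M N l h t y)
    {k : ℕ} (hk : k ≤ K) (hmass : xe lo hi x k < xe lo hi x (k + 1)) :
    Grid K k η (rr w M N l h κ.cov x) (rb w M N l h κ.cov x) := by
  obtain ⟨h1, h2⟩ := kkt_Gp hw hM hN l h t hlo hx hm hk hmass
  have e : ∀ a b, b ≤ K → ∑ i ∈ Finset.Ico a b,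
      ez (fun i => rb w M N l h (l i).cov x i / 2 - t i) i =
      c / 2 * ∑ i ∈ Finset.Ico a b, (rb w M N l h κ.cov x i - (i + 1 / 2) * η) := by
    intro a b hb
    rw [Finset.mul_sum]
    refine Finset.sum_congr rfl fun i hi => ?_
    have hi' : i < K := (Finset.mem_Ico.1 hi).2.trans_le hb
    have : (l ⟨i, hi'⟩).cov = fun a b => c * κ.cov a b := by funext a b; exact hl _ a b
    rw [ez, dif_pos hi', this, rb_smul, ht]
    ring
  have hc2 : 0 < c / 2 := by positivity
  refine ⟨hk, hη, pi2_cov_nonneg _ _ κ h, fun i hi => (rr_le_rb hw M N l h κ x hi).1,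
    fun i hi => (rr_le_rb hw M N l h κ x hi).2, fun j hj => ?_, fun j hj hj' => ?_⟩
  · have := h1 j hj
    rw [e j k hk] at this
    exact (mul_nonneg_iff_of_pos_left hc2).1 this
  · have := h2 j hj hj'
    rw [e k j hj'] at this
    by_contra hcon
    exact absurd this (not_le.2 (mul_pos hc2 (not_le.1 hcon)))

end Kkt28

end Crest.Agent.T156.Cas

end
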