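import Crest.Agent.T156.HbD_68
import Crest.Agent.T156.SclT_90
import Crest.Agent.T156.Kid_68
import Crest.Agent.T156.NuW_87
import Crest.Agent.T156.SiteC_94
import Crest.Agent.T156.R1MixB_65
import Crest.Agent.T156.R1S5_21
import Crest.Agent.T156.HbK_95

-- ▼ part T156/HbP_87
section

/-!
# Row 156 (helper87): `PE` and `PS` of `HbD_68`

The entropy after a strong reveal, and the crude effect of the scaling on site words.
-/

set_option autoImplicit false
set_option linter.all false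

noncomputable section

namespace Crest.Agent.T156.Cas.Hb68

open Real Finset
open Crest.Agent.T157.E Crest.Agent.T157.Casc Crest.Agent.T157.SL
open Crest.ProbabilityR.SpinGlassDynamics (spin)
open R1J (W sk)
open Ker15 (R1 tm)
open Nu87

namespace P87

/-! ### the entropy -/

theorem En_nonneg (L : List (Lv Bool)) : 0 ≤ En L :=
  node_nonneg _ (Gir68.Sn_nonneg wt_one90 fun _ => .inr rfl) _ _ _

theorem P_nil {Ω : Type} [Fintype Ω] [Nonempty Ω] (z : Ω → ℝ) (x : Ω) :
    P (fun _ => 1) [] z x = exp (z x - X (fun _ => 1) [] z) := by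
  rw [exp_sub, C.exp_X_nil wt_one90]
  simp only [P, prob, one_mul]

/-- `1 - tanh² ≤ 2 S` -/
theorem sech_le (z : Bool → ℝ) :
    0 ≤ 1 - qf (P (fun _ => 1) [] z) (fun a b => spin a * spin b) ∧
    1 - qf (P (fun _ => 1) [] z) (fun a b => spin a * spin b) ≤ 2 * Gir68.Sn (fun _ => 1) z := by
  have h1 := sum_P wt_one90 ([] : List (Lv Bool)) z
  have h2 := fun x => P_nonneg wt_one90 ([] : List (Lv Bool)) z x
  have h3 : ∀ x, 1 - P (fun _ => 1) [] z x ≤ X (fun _ => 1) [] z - z x := fun x => by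
    rw [P_nil]
    linarith [add_one_le_exp (z x - X (fun _ => 1) [] z)]
  have a := mul_le_mul_of_nonneg_left (h3 true) (h2 true)
  have b := mul_le_mul_of_nonneg_left (h3 false) (h2 false)
  have c := mul_nonneg (h2 true) (h2 false)
  simp only [qf, Gir68.Sn, Pf, Fintype.sum_bool, spin] at h1 ⊢
  generalize P (fun _ => 1) [] z true = p at *
  generalize P (fun _ => 1) [] z false = p' at *
  generalize X (fun _ => 1) [] z = Y at *
  obtain rfl : p' = 1 - p := by linarith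
  simp only [if_true, Bool.false_eq_true, if_false]
  constructor <;> nlinarith

theorem top_le (L : List (Lv Bool)) : |1 - W L L.length []| ≤ 2 * En L := by
  have e : 1 - W L L.length [] = node (fun _ => 1) L L.length
      (fun z => 1 - qf (P (fun _ => 1) [] z) fun a b => spin a * spin b) 0 := by
    rw [node_sub wt_one90 (Eg.const 1) (eg_qf wt_one90 _ _), node_const wt_one90]
    exact congrArg (1 - ·) ((Hd50.Wh_nil L 0 _).trans (by rw [pi2, List.drop_length]))
  rw [e, abs_of_nonneg (node_nonneg _ (fun z => (sech_le z).1) _ _ _), En,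
    ← congrFun (node_const_mul _ _ 2 L L.length) 0]
  exact node_mono wt_one90 ((Eg.const 1).sub (eg_qf wt_one90 _ _))
    ((Gir68.eg_Sn wt_one90).const_mul 2) (fun z => (sech_le z).2) _ _ _

theorem En_le {L : List (Lv Bool)} {U : ℝ} (H : Tp L U) : En L ≤ 2 * exp (-U / 2) := by
  obtain ⟨i, hi, hm, hU⟩ := H.top
  refine (Kid68.node_Sn_tail wt_one90 (fun _ => .inr rfl) hi hm
    (c := fun a b => (tm L L.length - tm L i) * (spin a * spin b)) (v := tm L L.length - tm L i)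
    (fun x y => by rw [H.r1.cacc, H.r1.cacc, sub_mul])
    (fun x _ => by cases x <;> simp [spin]) (fun x _ => ?_) 0).2
  have h4 : ∀ s : Finset Bool, s = {!x} → ∑ y ∈ s, 1 * exp (-(tm L L.length - tm L i -
      (tm L L.length - tm L i) * (spin x * spin y)) / 4) ≤ exp (-U / 2) := by
    rintro _ rfl
    rw [Finset.sum_singleton, one_mul]
    refine exp_le_exp.2 ?_
    cases x <;> simp [spin] <;> linarith
  exact h4 _ (by ext y; cases x <;> cases y <;> simp)

/-! ### the scaling -/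

section gen
variable {Ω : Type} [Fintype Ω] {L : List (Lv Ω)} {lam : ℝ} {r : ℕ}

theorem mono_scl (h0 : 0 ≤ lam) (h1 : lam ≤ 1) : ∀ {L : List (Lv Ω)} {m : ℝ}, Mono m L →
    Mono (lam * m) (L.map (scl lam))
  | [], m, H => (mul_le_mul_of_nonneg_left H h0).trans (by simpa using h1)
  | _ :: _, _, H => ⟨mul_le_mul_of_nonneg_left H.1 h0, mono_scl h0 h1 H.2⟩

theorem Ws_scl (σ : SM r) (G : Fin r → ℕ → ℝ) :
    Ws (L.map (scl lam)) σ G = lam * Ws L σ G + (1 - lam) * ∑ a, G a L.length := by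
  have e : ∀ j ∈ range L.length, ex (L.map (scl lam)) j = lam * ex L j := fun j hj => by
    simp [T157.Casc.ex, List.getElem?_eq_getElem (mem_range.1 hj)]
  rw [Ws, Ws, List.length_map, sum_congr (s₁ := range L.length) rfl fun j hj => by
    rw [e j hj, mul_assoc], ← mul_sum]
  ring

theorem abs_up1 (hL : Mono 0 L) {τ : SM (r + 1)} (hτ : Rz L.length τ) {φ : SM (r + 2) → ℝ} {p : ℝ}
    (h : ∀ σ, Rz L.length σ → |φ σ| ≤ p) : |up1 L φ τ| ≤ p := by
  have h1 := up1_mono hL hτ (ψ := fun _ => p) fun σ hσ => (abs_le.1 (h σ hσ)).2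
  have h2 := up1_mono hL hτ (φ := fun _ => -p) fun σ hσ => (abs_le.1 (h σ hσ)).1
  rw [up1_const] at h1 h2
  exact abs_le.2 ⟨h2, h1⟩

theorem up1_scl (hL : Mono 0 L) (h1 : lam ≤ 1) {τ : SM (r + 1)} (hτ : Rz L.length τ)
    {φ : SM (r + 2) → ℝ} {p : ℝ} (h : ∀ σ, Rz L.length σ → |φ σ| ≤ p) :
    |up1 (L.map (scl lam)) φ τ - up1 L φ τ| ≤ (1 - lam) * (2 * p) := by
  have a := abs_up1 hL hτ h
  have b : |(∑ a, φ (gr L.length τ a L.length)) / (r + 1)| ≤ p := by
    rw [abs_div, abs_of_pos (show (0 : ℝ) < r + 1 by positivity), div_le_iff₀ (by positivity)]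
    exact (abs_sum_le_sum_abs _ _).trans ((sum_le_card_nsmul _ _ p fun a _ =>
      h _ (hτ.gr a _)).trans_eq (by simp [mul_comm]))
  have e : up1 (L.map (scl lam)) φ τ - up1 L φ τ =
      (1 - lam) * ((∑ a, φ (gr L.length τ a L.length)) / (r + 1) - up1 L φ τ) := by
    rw [up1, Ws_scl, List.length_map, up1]
    ring
  rw [e, abs_mul, abs_of_nonneg (sub_nonneg.2 h1)]
  exact mul_le_mul_of_nonneg_left ((abs_sub _ _).trans (by linarith)) (sub_nonneg.2 h1)

theorem abs_avc (hL : Mono 0 L) {σ : SM (r + 1)} (hσ : Rz L.length σ) (k : ℕ)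
    {φ : SM (r + k + 1) → ℝ} {p : ℝ} (h : ∀ τ, Rz L.length τ → |φ τ| ≤ p) : |avc L σ k φ| ≤ p :=
  (Site94.abs_avc_le hL hσ k (g := fun _ => p) fun τ hτ _ => h τ hτ).trans_eq (avc_const _ _)

/-- **the weights under the scaling** -/
theorem avc_scl (hL : Mono 0 L) (h0 : 0 ≤ lam) (h1 : lam ≤ 1) {σ : SM (r + 1)}
    (hσ : Rz L.length σ) {p : ℝ} : ∀ (k : ℕ) {φ : SM (r + k + 1) → ℝ},
    (∀ τ, Rz L.length τ → |φ τ| ≤ p) →
    |avc (L.map (scl lam)) σ k φ - avc L σ k φ| ≤ k * ((1 - lam) * (2 * p))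
  | 0, _, _ => by simp [avc]
  | k + 1, φ, h => by
      have m : Mono 0 (L.map (scl lam)) := by simpa using mono_scl h0 h1 hL
      have l : (L.map (scl lam)).length = L.length := List.length_map _
      have a := abs_avc m (l ▸ hσ) k
        (φ := fun τ => up1 (r := r + k) (L.map (scl lam)) φ τ - up1 (r := r + k) L φ τ)
        fun τ hτ => up1_scl hL h1 (l ▸ hτ) h
      have b := avc_scl hL h0 h1 hσ k (φ := up1 (r := r + k) L φ) fun τ hτ => abs_up1 hL hτ h
      rw [avc_sub] at a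
      refine (abs_sub_le _ _ _).trans ((add_le_add a b).trans_eq ?_)
      push_cast
      ring

/-- **the law of the leaves under the scaling** -/
theorem TM_scl [Nonempty Ω] (hL : Mono 0 L) (h0 : 0 < lam) (h1 : lam ≤ 1) {σ : SM r}
    (hσ : Rz L.length σ) {G : (Fin r → Ω) → ℝ} {b : ℝ} (hG : ∀ x, |G x| ≤ b) :
    |TM (fun _ => 1) (L.map (scl lam)) 0 σ G - TM (fun _ => 1) L 0 σ G| ≤
      2 * b * ((lam⁻¹ - 1) * (r * node (fun _ => 1) L L.length (Gir68.Sn fun _ => 1) 0)) := by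
  obtain ⟨s, e, rfl⟩ := hσ
  have e1 := TM_sm wt_one90 s (L.map (scl lam)) 0 e.injective G
  have e2 := tX_scl h0 h1 s hL 0 (F := fun x => G fun a => x (e a)) fun x => hG _
  rw [List.length_map] at e1
  rw [smul_zero, ← Fintype.card_congr e, Fintype.card_fin] at e2
  rw [e1, TM_sm wt_one90 s L 0 e.injective]
  exact e2

/-- **the conditional law under the scaling** -/
theorem nuc_scl [Nonempty Ω] (hL : Mono 0 L) (h0 : 0 < lam) (h1 : lam ≤ 1) {σ : SM (r + 1)}
    (hσ : Rz L.length σ) (k : ℕ) {F : RF Ω (r + k + 1)} {b : ℝ} (hF : ∀ x τ, |F x τ| ≤ b) :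
    |nuc (fun _ => 1) (L.map (scl lam)) 0 σ k F - nuc (fun _ => 1) L 0 σ k F| ≤
      2 * b * ((lam⁻¹ - 1) * ((r + k + 1 : ℕ) *
        node (fun _ => 1) L L.length (Gir68.Sn fun _ => 1) 0)) + k * ((1 - lam) * (2 * b)) := by
  have m : Mono 0 (L.map (scl lam)) := by simpa using mono_scl h0.le h1 hL
  have l : (L.map (scl lam)).length = L.length := List.length_map _
  have a := abs_avc m (l ▸ hσ) k (φ := fun τ => TM (fun _ => 1) (L.map (scl lam)) 0 τ (fun x => F x τ)
    - TM (fun _ => 1) L 0 τ fun x => F x τ) fun τ hτ => TM_scl hL h0 h1 (l ▸ hτ) fun x => hF x τ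
  have b := avc_scl hL h0.le h1 hσ k (φ := fun τ => TM (fun _ => 1) L 0 τ fun x => F x τ)
    fun τ hτ => Hom68.abs_TM wt_one90 0 hτ fun x => hF x τ
  rw [avc_sub] at a
  exact (abs_sub_le _ _ _).trans (add_le_add a b)

/-- sup norm of the function of a word -/
theorem abs_nDv {U : ℕ → ℕ → Ω → Ω → ℝ} (hU : ∀ i j x y, |U i j x y| ≤ 1) {F : RF Ω (r + 1)}
    {b : ℝ} (hb : 0 ≤ b) (hF : ∀ x τ, |F x τ| ≤ b) (k : ℕ) (x : Fin (r + 2 * k + 1) → Ω)
    (τ : SM (r + 2 * k + 1)) : |nDv U F k x τ| ≤ (r + 2 * k + 1 : ℝ) ^ (4 * k) * b := by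
  rw [nDv_sum]
  refine abs_sum_nCG_le hb fun f _ => ?_
  rw [abs_mul, Finset.abs_prod]
  exact (mul_le_mul (hF _ _) (Finset.prod_le_one (fun _ _ => abs_nonneg _) fun i _ => hU _ _ _ _)
    (Finset.prod_nonneg fun _ _ => abs_nonneg _) hb).trans_eq (mul_one _)

end gen

theorem abs_ss (a b : Bool) : |spin a * spin b| ≤ 1 := by cases a <;> cases b <;> simp [spin]

theorem sk_ok {f : ℕ → ℝ} (h : f 0 = 0) (K : ℕ) : sk f ∈ Mul55.Ok Bool K :=
  ⟨by funext a b; simp [sk, h], f K / 2, fun y => by cases y <;> simp [sk, spin]⟩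

/-- a site word as a conditional law -/
theorem W_nuc (L : List (Lv Bool)) {k : ℕ} (hk : k ≤ L.length) {V : List (ℕ → ℝ)}
    (hV : ∀ f ∈ V, f 0 = 0) : W L k V = nuc (r := 1) (fun _ => 1) L 0 (tw L.length k)
      (2 * (V.map sk).length) (nDv (fun i => (V.map sk).getD i 0)
        (ed (fun _ a b => spin a * spin b) 0 1) (V.map sk).length) :=
  (twoF_eq_nW wt_one90 (fun S hS => by
    obtain ⟨f, hf, rfl⟩ := List.mem_map.1 hS
    exact sk_ok (hV f hf) _) hk fun _ a b => spin a * spin b).trans (nW_eq_nuc _ _ _)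

/-- **any word under the scaling** -/
theorem W_scl {L : List (Lv Bool)} (hL : Mono 0 L) {t : ℝ} (ht : 1 ≤ t) {k : ℕ} (hk : k ≤ L.length)
    {V : List (ℕ → ℝ)} (hV : ∀ f ∈ V, f 0 = 0) (hb : ∀ f ∈ V, ∀ j, |f j| ≤ 1) :
    |W (sc L t) k V - W L k V| ≤ 4 * (2 * V.length + 2 : ℝ) ^ (4 * V.length) *
      ((t - 1) * ((V.length + 1) * En L + V.length)) := by
  have t0 : 0 < t := one_pos.trans_le ht
  have l : (sc L t).length = L.length := List.length_map _
  have h1 : t⁻¹ ≤ 1 := inv_le_one_of_one_le₀ ht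
  have hU : ∀ i j x y, |(V.map sk).getD i 0 j x y| ≤ 1 := fun i j x y => by
    rcases lt_or_ge i V.length with h | h
    · rw [List.getD_eq_getElem _ _ (by simpa using h), List.getElem_map, sk, abs_mul, abs_div,
        abs_two]
      have := hb _ (List.getElem_mem h) j
      exact mul_le_one₀ (by linarith) (abs_nonneg _) (abs_ss _ _)
    · rw [List.getD_eq_default _ _ (by simpa using h)]
      simp
  have key := nuc_scl (r := 1) hL (inv_pos.2 t0) h1 (rz_tw L.length k) (2 * (V.map sk).length)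
    (abs_nDv (r := 1) hU (F := ed (fun _ a b => spin a * spin b) 0 1) zero_le_one
      (fun _ _ => abs_ss _ _) (V.map sk).length)
  rw [W_nuc _ (l ▸ hk) hV, W_nuc _ hk hV, l]
  refine key.trans ?_
  have h2 : 1 - t⁻¹ ≤ t - 1 := by
    have := mul_inv_cancel₀ t0.ne'
    nlinarith [mul_nonneg (sub_nonneg.2 ht) (sub_nonneg.2 h1)]
  rw [inv_inv, List.length_map, mul_one,
    show ((1 : ℕ) + 2 * V.length + 1 : ℝ) = 2 * V.length + 2 by push_cast; ring]
  change 2 * _ * (_ * (_ * En L)) + _ ≤ _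
  have h3 := mul_le_mul_of_nonneg_left h2 (show (0 : ℝ) ≤ 4 * V.length *
    (2 * V.length + 2 : ℝ) ^ (4 * V.length) by positivity)
  push_cast
  nlinarith

end P87

open P87

/-- **`PE`** -/
theorem pe : PE := ⟨4, by norm_num, fun L U H => by
  have h1 := En_le H
  have h2 := top_le L
  have h3 := exp_pos (-U / 2)
  exact ⟨En_nonneg L, by linarith, by linarith⟩⟩

/-- **`PS`** -/
theorem ps : PS := ⟨12 * 6 ^ 8, by norm_num, fun L _ hL t ht k hk => by
  have h0 := mul_nonneg (sub_nonneg.2 ht) (En_nonneg L)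
  refine ⟨(W_scl hL ht hk (V := []) (by simp) (by simp)).trans ?_, fun f g f0 g0 f1 g1 =>
    (W_scl hL ht hk (V := [f, g]) (by simp [f0, g0]) (by simp [f1, g1])).trans ?_⟩
  · simp only [List.length_nil, Nat.cast_zero, mul_zero, pow_zero, zero_add, one_mul, add_zero]
    linarith
  · simp only [List.length_cons, List.length_nil]
    norm_num
    nlinarith⟩

end Crest.Agent.T156.Cas.Hb68

end
end

-- ▼ part T156/HbL_97
section

/-!
# Row 156 (helper97): the leaf `PL` of `HbD_68`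

Landau's inequality along the direction `st a` of the node times.
-/

set_option autoImplicit false
set_option linter.all false

noncomputable section

namespace Crest.Agent.T156.Cas.Hb68

open Real Set
open Crest.Agent.T157.E Crest.Agent.T157.Casc Crest.Agent.T157.SL Crest.Agent.T157.Casc.C
open Crest.ProbabilityR.SpinGlassDynamics (spin)
open Crest.Agent.T156.Pp.Area50 (lsg Up lsg_succ lsg_zero)
open Crest.Agent.T156.Hess65 (Wd_rk1 pth rk1_pth der_pth cont_Wd pth_okC eq_lsg tm_lsg)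
open R1J (W ind n1)
open Ker15 (R1)

namespace L97

/-- one-sided Landau inequality -/
theorem landau {g g1 g2 : ℝ → ℝ} {δ A B : ℝ} (hδ : 0 < δ) (c0 : ContinuousOn g (Icc 0 δ))
    (c1 : ContinuousOn g1 (Icc 0 δ)) (d0 : ∀ u ∈ Ioo 0 δ, HasDerivAt g (g1 u) u)
    (d1 : ∀ u ∈ Ioo 0 δ, HasDerivAt g1 (g2 u) u) (hA : ∀ u ∈ Icc 0 δ, |g u| ≤ A)
    (hB : ∀ u ∈ Ioo 0 δ, |g2 u| ≤ B) : δ * |g1 0| ≤ 2 * A + δ * (δ * B) := by
  obtain ⟨θ, hθ, e⟩ := exists_hasDerivAt_eq_slope g g1 hδ c0 d0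
  rw [sub_zero, eq_div_iff hδ.ne'] at e
  have h1 := R1J.S21.mvt_le (c := 0) c1 d1 (fun u hu => by rw [sub_zero]; exact hB u hu)
    ⟨hθ.1.le, hθ.2.le⟩
  rw [mul_zero, sub_zero] at h1
  have B0 : 0 ≤ B := (abs_nonneg _).trans (hB θ hθ)
  have h2 : |g1 θ| * δ ≤ 2 * A := by
    rw [← abs_of_pos hδ, ← abs_mul, e]
    exact (abs_sub _ _).trans (by linarith [hA δ ⟨hδ.le, le_rfl⟩, hA 0 ⟨le_rfl, hδ.le⟩])
  have h3 : |g1 0| ≤ |g1 θ| + δ * B := by
    have := abs_sub (g1 θ) (g1 θ - g1 0)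
    rw [sub_sub_cancel] at this
    linarith [mul_le_mul_of_nonneg_right hθ.2.le B0]
  nlinarith [mul_le_mul_of_nonneg_left h3 hδ.le]

theorem st0 {a : ℕ} (ha : 1 ≤ a) : st a 0 = 0 := if_neg (by omega)

theorem abs_st (a j : ℕ) : |st a j| ≤ 1 := by unfold st; split_ifs <;> norm_num

theorem st_mono (a : ℕ) {i j : ℕ} (h : i ≤ j) : st a i ≤ st a j := by
  unfold st; split_ifs <;> first | omega | norm_num

/-- the word along the path `s + u st a` -/
def F (z s : ℕ → ℝ) (N a k : ℕ) (V : List (ℕ → ℝ)) (u : ℝ) : ℝ :=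
  Hess65.Wd (mat (pth z s (st a) N) u) V k

variable {z s : ℕ → ℝ} {N a k : ℕ}

theorem F_cont (V : List (ℕ → ℝ)) (D : ℝ) : ContinuousOn (F z s N a k V) (Icc 0 D) := by
  have := cont_Wd (pth_okC z s (st a) N (isCompact_Icc (a := 0) (b := D))) V k
  simp only [atL_tl] at this
  exact this

theorem F_der (hs : Up s N) (ha : 1 ≤ a) (V : List (ℕ → ℝ)) {u : ℝ} (hu : 0 < u) :
    HasDerivAt (F z s N a k V) (F z s N a k (V ++ [st a]) u) u := by
  refine der_pth (I := Ioi 0) isOpen_Ioi (fun j hj => ?_) (st0 ha) hu V k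
  by_cases e : j + 1 = a
  · refine Or.inr fun t ht => ?_
    have := hs j hj
    have ht' : 0 < t := ht
    rw [show st a (j + 1) = 1 from if_pos e.ge, show st a j = 0 from if_neg (by omega)]
    linarith
  · refine Or.inl ?_
    unfold st
    split_ifs <;> first | omega | norm_num

theorem up_u (hs : Up s N) (a : ℕ) {u : ℝ} (hu : 0 ≤ u) : Up (fun j => s j + u * st a j) N :=
  fun j hj => add_le_add (hs j hj) (mul_le_mul_of_nonneg_left (st_mono a j.le_succ) hu)

theorem rk_sc {t : ℝ} : ∀ (N : ℕ) (z s : ℕ → ℝ) (L : List (Lv Bool)),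
    List.Forall₂ (Rk1 spin) L (lsg z s N) →
      List.Forall₂ (Rk1 spin) (sc L t) (lsg (fun j => t⁻¹ * z j) (fun j => t ^ 2 * s j) N)
  | 0, z, s, L, H => by
    rw [lsg_zero] at H ⊢
    cases H
    exact .nil
  | N + 1, z, s, L, H => by
    rw [lsg_succ] at H ⊢
    cases H with
    | @cons l _ L _ h H =>
      refine .cons ⟨congrArg (t⁻¹ * ·) h.1, ?_, fun x y => ?_⟩ (rk_sc N _ _ L H)
      · have := mul_nonneg (sq_nonneg t) h.2.1
        show 0 ≤ t ^ 2 * s 1 - t ^ 2 * s 0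
        linarith
      · have := h.2.2 x y
        show ∑ i, t⁻¹⁻¹ * l.A x i * (t⁻¹⁻¹ * l.A y i) = (t ^ 2 * s 1 - t ^ 2 * s 0) * _
        rw [inv_inv, ← mul_sub, mul_assoc]
        rw [Lv.cov] at this
        rw [← show _ = (s 1 - s 0) * (spin x * spin y) from this, Finset.mul_sum]
        exact Finset.sum_congr rfl fun i _ => by ring

variable {L : List (Lv Bool)} {U : ℝ}

theorem rk_L (H : R1 L) : List.Forall₂ (Rk1 spin) L (lsg (ex L) (Ker15.tm L) L.length) := by
  have h := H.rk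
  have e : Ker15.tm L = Hess65.tm (L.map fun l => (l.m, l.cov true true)) :=
    funext fun j => Ker15.tm_eq h j
  rw [e, ← eq_lsg h]
  exact h

theorem up_L (H : R1 L) : Up (Ker15.tm L) L.length := fun j _ => H.tm_mono (Nat.le_succ j)

/-- the cascade with more variance below the node `a` -/
def Lu (L : List (Lv Bool)) (a : ℕ) (u : ℝ) : List (Lv Bool) :=
  mat (pth (ex L) (Ker15.tm L) (st a) L.length) u

theorem rk_u (H : R1 L) (a : ℕ) {u : ℝ} (hu : 0 ≤ u) : List.Forall₂ (Rk1 spin) (Lu L a u)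
    (lsg (ex L) (fun j => Ker15.tm L j + u * st a j) L.length) :=
  rk1_pth u _ _ _ _ (up_u (up_L H) a hu)

theorem len_u (H : R1 L) (a : ℕ) {u : ℝ} (hu : 0 ≤ u) : (Lu L a u).length = L.length :=
  R1J.S21.len_rk (rk_u H a hu)

theorem tp_u (H : Tp L U) (a : ℕ) {u : ℝ} (hu : 0 ≤ u) : Tp (Lu L a u) U := by
  have R := rk_u H.r1 a hu
  have l := len_u H.r1 a hu
  have e : ∀ j, ex (Lu L a u) j = ex L j := fun j => by
    rw [R1J.S21.ex_rk _ _ _ _ R]
    split_ifs with h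
    · rfl
    · exact (R1J.S21.ex_top L (not_lt.1 h)).symm
  have mo := R1J.S21.ex_mono H.mono
  obtain ⟨i, hi, h1, h2⟩ := H.top
  refine ⟨Ker15.r1_of R, R1J.S21.mono_of_ex _ _ ?_ fun j => ?_, H.U0, i, l ▸ hi,
    fun j hj => (e j).trans (h1 j hj), ?_⟩
  · rw [e]
    simpa [dm, exP] using dm_nonneg H.mono 0
  · rw [e, e]
    exact mo j.le_succ
  · have a1 := tm_lsg L.length (ex L) (fun j => Ker15.tm L j + u * st a j) i hi.le
    have a2 := tm_lsg L.length (ex L) (fun j => Ker15.tm L j + u * st a j) L.length le_rfl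
    rw [Hess65.tm] at a1 a2
    rw [l, Ker15.tm_eq R, Ker15.tm_eq R, a1, a2]
    linarith [mul_le_mul_of_nonneg_left (st_mono a hi.le) hu]

theorem W_u (a k : ℕ) (V : List (ℕ → ℝ)) (u : ℝ) :
    W (Lu L a u) k V = F (ex L) (Ker15.tm L) L.length a k V u := rfl

theorem W_0 (H : R1 L) (a k : ℕ) (V : List (ℕ → ℝ)) : W (Lu L a 0) k V = W L k V := by
  have R := rk_u H a le_rfl
  simp only [zero_mul, add_zero] at R
  exact congrFun (Wd_rk1 R (rk_L H) V) k

theorem W_sc0 (H : R1 L) (t : ℝ) (a k : ℕ) (V : List (ℕ → ℝ)) :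
    W (sc (Lu L a 0) t) k V = W (sc L t) k V := by
  have R := rk_u H a le_rfl
  simp only [zero_mul, add_zero] at R
  exact congrFun (Wd_rk1 (rk_sc _ _ _ _ R) (rk_sc _ _ _ _ (rk_L H)) V) k

theorem up_sc (H : R1 L) (t : ℝ) : Up (fun j => t ^ 2 * Ker15.tm L j) L.length :=
  fun j hj => mul_le_mul_of_nonneg_left (up_L H j hj) (sq_nonneg t)

theorem W_sc (H : R1 L) (t : ℝ) (a k : ℕ) (V : List (ℕ → ℝ)) {u : ℝ} (hu : 0 ≤ u) :
    W (sc (Lu L a u) t) k V =
      F (fun j => t⁻¹ * ex L j) (fun j => t ^ 2 * Ker15.tm L j) L.length a k V (t ^ 2 * u) := by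
  have R := rk_sc (t := t) _ _ _ _ (rk_u H a hu)
  have R' := rk1_pth (t ^ 2 * u) L.length (fun j => t⁻¹ * ex L j) (fun j => t ^ 2 * Ker15.tm L j)
    (st a) (up_u (up_sc H t) a (mul_nonneg (sq_nonneg t) hu))
  rw [show (fun j => t ^ 2 * Ker15.tm L j + t ^ 2 * u * st a j) =
    fun j => t ^ 2 * (Ker15.tm L j + u * st a j) from funext fun j => by ring] at R'
  exact congrFun (Wd_rk1 R R' V) k

theorem n1_le (hM : Mono 0 L) {f : ℕ → ℝ} (hf : ∀ j, |f j| ≤ 1) : n1 L f ≤ 1 := by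
  have : n1 L f ≤ ∑ j ∈ Finset.range (L.length + 1), dm L 0 j :=
    Finset.sum_le_sum fun j _ => mul_le_of_le_one_right (dm_nonneg hM j) (hf j)
  rwa [sum_dm, ex_length, sub_zero] at this

/-- the crude constant -/
def c2 : ℝ := 4500 ^ 2 * 6

theorem abs_W2 (H : R1 L) (hM : Mono 0 L) (hk : k ≤ L.length) (a : ℕ) :
    |W L k [st a, st a]| ≤ c2 := by
  refine (Hess65.abs_Wd2c H hM hk _ _).trans (mul_le_mul_of_nonneg_left ?_ (by positivity))
  have h1 := n1_le hM (abs_st a)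
  have h0 := Hess65.n1_nn hM (st a)
  have h2 : ∀ j, |st a j * st a j| ≤ 1 := fun j => by
    rw [abs_mul]; exact mul_le_one₀ (abs_st a j) (abs_nonneg _) (abs_st a j)
  have h3 := n1_le hM h2
  have h4 := abs_st a k
  have h5 := abs_nonneg (st a k)
  nlinarith [h2 k]

theorem exp_hq (U : ℝ) : exp (-U / 2) = exp (-U / 4) * exp (-U / 4) := by
  rw [← exp_add]; ring_nf

end L97

open L97 in
/-- **`PL`** -/
theorem pl (hE : PE) (hS : PS) : PL := by
  obtain ⟨C, C0, hE⟩ := hE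
  obtain ⟨D, D0, hS⟩ := hS
  have c0 : 0 ≤ c2 := by unfold c2; positivity
  have key : ∀ (L : List (Lv Bool)) (U : ℝ), Tp L U → ∀ a, 1 ≤ a →
      |W L L.length [st a]| ≤ (2 * C + c2) * exp (-U / 4) ∧ ∀ t, 1 ≤ t → t ≤ 2 → ∀ k ≤ L.length,
        |t ^ 2 * W (sc L t) k [st a] - W L k [st a]| ≤
          (2 * D * C + 16 * D * (1 + C) + 15 * c2) * ((t - 1) * exp (-U / 4)) := by
    intro L U H a ha
    set δ := exp (-U / 4) with hδ
    have δ0 : 0 < δ := exp_pos _
    have δ1 : δ ≤ 1 := exp_le_one_iff.2 (by linarith [H.U0])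
    have E : ∀ u, 0 ≤ u → 0 ≤ En (Lu L a u) ∧ En (Lu L a u) ≤ C * (δ * δ) ∧
        |1 - W (Lu L a u) L.length []| ≤ C * (δ * δ) := fun u hu => by
      have := hE _ U (tp_u H a hu)
      rwa [len_u H.r1 a hu, exp_hq] at this
    have B : ∀ u, 0 ≤ u → ∀ k ≤ L.length, |W (Lu L a u) k [st a, st a]| ≤ c2 := fun u hu k hk =>
      abs_W2 (tp_u H a hu).r1 (tp_u H a hu).mono (len_u H.r1 a hu ▸ hk) a
    refine ⟨?_, fun t t1 t2 k hk => ?_⟩
    · have := landau (g := fun u => F (ex L) (Ker15.tm L) L.length a L.length [] u - 1)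
        (g1 := F (ex L) (Ker15.tm L) L.length a L.length [st a])
        (g2 := F (ex L) (Ker15.tm L) L.length a L.length [st a, st a]) δ0
        ((F_cont _ _).sub continuousOn_const) (F_cont _ _)
        (fun u hu => (F_der (up_L H.r1) ha [] hu.1).sub_const 1)
        (fun u hu => F_der (up_L H.r1) ha [st a] hu.1)
        (fun u hu => (abs_sub_comm _ _).trans_le (E u hu.1).2.2) fun u hu => B u hu.1.le _ le_rfl
      rw [← W_u, W_0 H.r1] at this
      refine le_of_mul_le_mul_left (this.trans_eq (by ring)) δ0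
    · have t0 : 0 < t ^ 2 := by positivity
      have m : MapsTo (fun u => t ^ 2 * u) (Icc 0 δ) (Icc 0 (t ^ 2 * δ)) := fun u hu =>
        ⟨mul_nonneg t0.le hu.1, mul_le_mul_of_nonneg_left hu.2 t0.le⟩
      set G := F (fun j => t⁻¹ * ex L j) (fun j => t ^ 2 * Ker15.tm L j) L.length a k with hG
      set G' := F (ex L) (Ker15.tm L) L.length a k with hG'
      have cG : ∀ V, ContinuousOn (fun u => G V (t ^ 2 * u)) (Icc 0 δ) := fun V =>
        (F_cont V (t ^ 2 * δ)).comp (by fun_prop) m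
      have dG : ∀ V u, 0 < u →
          HasDerivAt (fun u => G V (t ^ 2 * u)) (t ^ 2 * G (V ++ [st a]) (t ^ 2 * u)) u :=
        fun V u hu => by
          have := (F_der (z := fun j => t⁻¹ * ex L j) (k := k) (up_sc H.r1 t) ha V
            (mul_pos t0 hu)).comp u ((hasDerivAt_id u).const_mul (t ^ 2))
          rw [mul_one, mul_comm] at this
          exact this
      have S := fun u (hu : 0 ≤ u) => hS _ (tp_u H a hu).r1 (tp_u H a hu).mono t t1 k
        (len_u H.r1 a hu ▸ hk)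
      have d1 : 0 ≤ t - 1 := sub_nonneg.2 t1
      have := landau (g := fun u => G [] (t ^ 2 * u) - G' [] u)
        (g1 := fun u => t ^ 2 * G [st a] (t ^ 2 * u) - G' [st a] u)
        (g2 := fun u => t ^ 2 * (t ^ 2 * G [st a, st a] (t ^ 2 * u)) - G' [st a, st a] u)
        (A := D * ((t - 1) * (C * (δ * δ)))) (B := (16 * D * (1 + C) + 15 * c2) * (t - 1)) δ0
        ((cG _).sub (F_cont _ _)) ((continuousOn_const.mul (cG _)).sub (F_cont _ _))
        (fun u hu => (dG [] u hu.1).sub (F_der (up_L H.r1) ha [] hu.1))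
        (fun u hu => ((dG [st a] u hu.1).const_mul _).sub (F_der (up_L H.r1) ha [st a] hu.1))
        (fun u hu => by
          have h1 := (S u hu.1).1
          rw [W_sc H.r1 t a k _ hu.1, W_u] at h1
          exact h1.trans (mul_le_mul_of_nonneg_left
            (mul_le_mul_of_nonneg_left (E u hu.1).2.1 d1) D0))
        fun u hu => by
          have h1 := (S u hu.1.le).2 _ _ (st0 ha) (st0 ha) (abs_st a) (abs_st a)
          have h2 := B u hu.1.le k hk
          rw [W_sc H.r1 t a k _ hu.1.le, W_u] at h1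
          rw [W_u] at h2
          have h3 : En (Lu L a u) ≤ C :=
            (E u hu.1.le).2.1.trans (mul_le_of_le_one_right C0 (mul_le_one₀ δ1 δ0.le δ1))
          have h4 := h1.trans (mul_le_mul_of_nonneg_left
            (mul_le_mul_of_nonneg_left (add_le_add_right h3 1) d1) D0)
          have h5 : t ^ 4 ≤ 16 := by nlinarith [sq_nonneg t, mul_le_mul t2 t2 (by linarith) zero_le_two]
          have h6 : t ^ 4 - 1 ≤ 15 * (t - 1) := by
            have : t ^ 3 + t ^ 2 + t + 1 ≤ 15 := by nlinarith [mul_le_mul t2 t2 (by linarith) zero_le_two]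
            nlinarith [mul_le_mul_of_nonneg_left this d1]
          have h7 : 0 ≤ t ^ 4 - 1 := sub_nonneg.2 (one_le_pow₀ t1)
          rw [show t ^ 2 * (t ^ 2 * G [st a, st a] (t ^ 2 * u)) - G' [st a, st a] u =
            t ^ 4 * (G [st a, st a] (t ^ 2 * u) - G' [st a, st a] u) +
              (t ^ 4 - 1) * G' [st a, st a] u by ring]
          refine (abs_add_le _ _).trans ?_
          rw [abs_mul, abs_mul, abs_of_nonneg h7, abs_of_nonneg (by positivity : 0 ≤ t ^ 4)]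
          have h8 := mul_le_mul h5 h4 (abs_nonneg _) (by norm_num)
          have h9 := mul_le_mul h6 h2 (abs_nonneg _) (by linarith)
          linarith
      simp only [hG, hG'] at this
      rw [← W_sc H.r1 t a k _ le_rfl, ← W_u, W_0 H.r1, W_sc0 H.r1] at this
      refine le_of_mul_le_mul_left (this.trans_eq (by ring)) δ0
  refine ⟨2 * (2 * C + c2 + (2 * D * C + 16 * D * (1 + C) + 15 * c2)), by positivity,
    fun L U H h hh => ?_⟩
  have e0 := exp_pos (-U / 4)
  have p1 : 0 ≤ (2 * C + c2) := by positivity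
  have p2 : 0 ≤ 2 * D * C + 16 * D * (1 + C) + 15 * c2 := by positivity
  obtain ⟨a, ha, ⟨-, rfl⟩ | ⟨-, rfl⟩⟩ := hh
  · obtain ⟨k1, k2⟩ := key L U H a ha
    refine ⟨k1.trans (mul_le_mul_of_nonneg_right (by linarith) e0.le), fun t t1 t2 k hk =>
      (k2 t t1 t2 k hk).trans (mul_le_mul_of_nonneg_right (by linarith)
        (mul_nonneg (sub_nonneg.2 t1) e0.le))⟩
  · obtain ⟨k1, k2⟩ := key L U H a ha
    obtain ⟨k3, k4⟩ := key L U H (a + 1) (by omega)
    have e : ∀ (T : List (Lv Bool)) (k : ℕ), W T k [ind a] = W T k [st a] - W T k [st (a + 1)] :=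
      fun T k => by
        rw [show ind a = fun j => 1 * st a j + -1 * st (a + 1) j from funext fun j => by
          unfold ind st; split_ifs <;> first | omega | norm_num, R1J.S21.W_lin]
        ring
    refine ⟨?_, fun t t1 t2 k hk => ?_⟩
    · rw [e]
      refine (abs_sub _ _).trans ?_
      nlinarith [mul_nonneg p2 e0.le]
    · rw [e, e, show t ^ 2 * (W (sc L t) k [st a] - W (sc L t) k [st (a + 1)]) -
          (W L k [st a] - W L k [st (a + 1)]) = (t ^ 2 * W (sc L t) k [st a] - W L k [st a]) -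
          (t ^ 2 * W (sc L t) k [st (a + 1)] - W L k [st (a + 1)]) by ring]
      refine (abs_sub _ _).trans ?_
      nlinarith [k2 t t1 t2 k hk, k4 t t1 t2 k hk,
        mul_nonneg p1 (mul_nonneg (sub_nonneg.2 t1) e0.le)]

end Crest.Agent.T156.Cas.Hb68

end
end

-- ▼ part T156/HbG5_95

/-!
# Row 156 (helper95): the site input `H5` from the Euler identity `W2`
-/

set_option autoImplicit false

noncomputable section

namespace Crest.Agent.T156.Cas.Hb68

open Real Finset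
open Crest.Agent.T157.E Crest.Agent.T157.Casc Crest.Agent.T157.SL
open R1J (W ind n1)
open Ker15 (R1 tm)
open C40 C40.E42 K95

theorem g5_alg {Su Sl SA x x' d w w' g g' B B' C a c : ℝ} (hx : d = x - x') (x0 : 0 ≤ x)
    (x1 : x ≤ 1) (d0 : 0 ≤ d) (hB' : B' = w - g) (hB : B = w' + g')
    (h1 : |Su + Sl + (SA + (x' * ((B' + w) / 2) - x * ((B + w') / 2))) + 3 * (d * (1 / 2 * w))| ≤ c)
    (h2 : |Sl| ≤ c) (h3 : |SA| ≤ c) (h4 : |w - g| ≤ C) (h5 : |w' - (w - g)| ≤ a)
    (h6 : d * C ≤ c) (h7 : a ≤ c) :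
    |4 * Su - 2 * (x * (g' - g)) + 4 * d * g| ≤ 18 * c := by
  have e : 4 * Su - 2 * (x * (g' - g)) + 4 * d * g =
      4 * (Su + Sl + (SA + (x' * ((B' + w) / 2) - x * ((B + w') / 2))) + 3 * (d * (1 / 2 * w))) -
        4 * Sl - 4 * SA - 2 * (d * (w - g)) + 4 * (x * (w' - (w - g))) := by
    rw [hB, hB', show x' = x - d by linarith]
    ring
  have a1 : |d * (w - g)| ≤ c := by
    rw [abs_mul, abs_of_nonneg d0]
    exact (mul_le_mul_of_nonneg_left h4 d0).trans h6
  have a2 : |x * (w' - (w - g))| ≤ c := by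
    rw [abs_mul, abs_of_nonneg x0]
    exact (mul_le_of_le_one_left (abs_nonneg _) x1).trans (h5.trans h7)
  rw [e]
  rw [abs_le] at *
  constructor <;> linarith [h1.1, h1.2, h2.1, h2.2, h3.1, h3.2, a1.1, a1.2, a2.1, a2.2]

/-- **(G5)** -/
theorem g5 : G5 := fun ⟨C₁, c1, w2⟩ ⟨C₂, c2, ab⟩ τ0 => by
  obtain ⟨C₃, c3, lw⟩ := w_low
  refine ⟨18 * (2 * (C₁ + C₂ + C₃)), by positivity, fun D η H h t ht => ?_⟩
  obtain ⟨t1, t2⟩ := CD.mem_up.1 ht
  obtain ⟨U, tU, hU⟩ := tp H h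
  obtain ⟨s, rfl⟩ : ∃ s, t = s + 1 := ⟨t - 1, by omega⟩
  have hl := lenS D
  have f0 : ind (s + 1) 0 = 0 := by simp [ind]
  have f1 : ∀ j, |ind (s + 1) j| ≤ 1 := fun j => by simp only [ind]; split_ifs <;> norm_num
  have fK : ind (s + 1) D.S.length = 0 := by simp [ind, hl, t2.ne']
  have hn : n1 D.S (ind (s + 1)) = D.dx (s + 1) := by rw [n1_ind (hl ▸ t2.le), dmS]
  have k := w2 D.S U tU _ f0 _ ⟨s + 1, by omega, Or.inr ⟨hl ▸ t2, rfl⟩⟩
  have ab' := fun i (hi : i < D.K) => ab D.S (r1S H) (monoS H) i (hl ▸ hi) _ _ f0 f0 f1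
  rw [hn] at ab' k
  have d0 := H.dx0 (s + 1)
  have dc := dx_le_ck95 H t2
  have dη := dx_eta H h ht
  have gη := gl_eta H h t2 t1
  have hL := one_le_La95 H
  have X3 := pow_nonneg H.X0 3
  have η0 := h.η0
  set R := La D * ((η + D.X ^ 3) * ck D (s + 1)) with hR
  have r1 : (η + D.X ^ 3) * D.dx (s + 1) ≤ (η + D.X ^ 3) * ck D (s + 1) := by gcongr
  have r2 : (η + D.X ^ 3) * ck D (s + 1) ≤ R :=
    le_mul_of_one_le_left (mul_nonneg (by positivity) (d0.trans dc)) hL
  have r3 : η * D.dx (s + 1) ≤ R := by nlinarith [mul_nonneg X3 d0]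
  have R0 : 0 ≤ R := (mul_nonneg η0 d0).trans r3
  have e1 : ∀ i, ex D.S i * (gl D.S i ^ 2 / 4 * A D.S i [ind (s + 1), ind (s + 1)] +
      (ind (s + 1) (i + 1) - ind (s + 1) i) / 2 * B D.S i (ind (s + 1)) +
      (ind (s + 1) (i + 1) - ind (s + 1) i) / 2 * W D.S (i + 1) [ind (s + 1)]) =
      ex D.S i * gl D.S i ^ 2 / 4 * A D.S i [ind (s + 1), ind (s + 1)] +
      (ind (s + 1) (i + 1) - ind (s + 1) i) *
        (ex D.S i * ((B D.S i (ind (s + 1)) + W D.S (i + 1) [ind (s + 1)]) / 2)) := fun i => by ring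
  have e2 : ∀ j, dm D.S 0 j * (ind (s + 1) j / 2 * W D.S j [ind (s + 1)]) =
      ind (s + 1) j * (dm D.S 0 j * (1 / 2 * W D.S j [ind (s + 1)])) := fun j => by ring
  simp only [e1, e2] at k
  rw [sum_om H, sum_add_distrib, sum_jump (hl ▸ t2), sum_ind (by omega), fK, dmS, exS, exS] at k
  rw [show (star D).sL [D.lev (s + 1), D.lev (s + 1)] = _ from
    Hd50.lev2_test (D := star D) rfl s.succ_pos s.succ_pos]
  refine (g5_alg (C := C₂ * D.dx (s + 1)) (a := C₂ * (gl D.S (s + 1) * D.dx (s + 1)))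
    (c := 2 * (C₁ + C₂ + C₃) * R) (dx_succ D s) (H.ex0 _) (Tay38.ex_le_one H.mono _) d0 ?_ ?_
    (k.trans ?_) ?_ ?_ ?_ ?_ ?_ ?_).trans (le_of_eq (by rw [hR]; ring))
  · simpa [ind, E42.G] using (ab' s (by omega)).2.2.1
  · simpa [ind, E42.G] using (ab' _ t2).2.2.1
  · have h1 := ms_ind H h ht
    have h2 : exp (-U / 4) * D.dx (s + 1) ≤ η * D.dx (s + 1) := by gcongr
    rw [abs_zero, add_zero]
    calc _ ≤ C₁ * (R + R) := by gcongr; exact h2.trans r3
      _ ≤ _ := by nlinarith [mul_nonneg c2 R0, mul_nonneg c3 R0]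
  · refine (abs_sum_le_sum_abs _ _).trans ((sum_le_sum (g := fun j =>
      omS D j * (C₃ * (D.X ^ 3 * D.dx (s + 1)))) fun j hj => ?_).trans ?_)
    · have j1 : j ≤ D.J := Nat.lt_succ_iff.1 (mem_range.1 hj)
      have o := omS_nonneg95 H (j1.trans_lt H.cut)
      rw [abs_mul, abs_of_nonneg o, ← dmS]
      exact mul_le_mul_of_nonneg_left (lw D.S (r1S H) (monoS H) j _ (by omega) (hl ▸ t2.le) _ X3
        (by rw [tmS H (j1.trans H.cut.le)]; exact sig_lo H j1)) o
    · rw [← sum_mul]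
      have h1 : La D * (D.X ^ 3 * D.dx (s + 1)) ≤ R := by
        rw [hR]
        gcongr
        exact le_add_of_nonneg_left η0
      calc _ ≤ 2 * La D * (C₃ * (D.X ^ 3 * D.dx (s + 1))) := by
            gcongr
            exact sum_omS H fun i hi => (mem_range.1 hi).trans_le H.cut
        _ = 2 * C₃ * (La D * (D.X ^ 3 * D.dx (s + 1))) := by ring
        _ ≤ 2 * C₃ * R := by gcongr
        _ ≤ _ := by nlinarith [mul_nonneg c1 R0, mul_nonneg c2 R0]
  · refine (abs_sum_le_sum_abs _ _).trans ((sum_le_sum (g := fun i =>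
      C₂ * (ex D.S i * gl D.S i ^ 2 * (|ind (s + 1) i| + D.dx (s + 1)))) fun i hi => ?_).trans ?_)
    · have x0 : 0 ≤ ex D.S i * gl D.S i ^ 2 := mul_nonneg (exS D i ▸ H.ex0 i) (sq_nonneg _)
      rw [abs_mul, abs_of_nonneg (by positivity)]
      calc _ ≤ ex D.S i * gl D.S i ^ 2 * (C₂ * (|ind (s + 1) i| + D.dx (s + 1))) :=
            mul_le_mul (by linarith) (ab' i (hl ▸ mem_range.1 hi)).2.1 (abs_nonneg _) x0
        _ = _ := by ring
    · rw [← mul_sum, hl]
      calc _ ≤ C₂ * R := mul_le_mul_of_nonneg_left (sum_gl2_ind H h ht) c2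
        _ ≤ _ := by nlinarith [mul_nonneg c1 R0, mul_nonneg c2 R0, mul_nonneg c3 R0]
  · simpa [ind, E42.G] using (ab' _ t2).2.2.2.2.1
  · simpa [ind, E42.G] using (ab' _ t2).2.2.2.2.2.2 (by simp [ind])
  · calc _ = C₂ * (D.dx (s + 1) * D.dx (s + 1)) := by ring
      _ ≤ C₂ * (η * D.dx (s + 1)) := by gcongr
      _ ≤ C₂ * R := by gcongr
      _ ≤ _ := by nlinarith [mul_nonneg c1 R0, mul_nonneg c2 R0, mul_nonneg c3 R0]
  · calc _ ≤ C₂ * (η * D.dx (s + 1)) := by gcongr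
      _ ≤ C₂ * R := by gcongr
      _ ≤ _ := by nlinarith [mul_nonneg c1 R0, mul_nonneg c2 R0, mul_nonneg c3 R0]

end Crest.Agent.T156.Cas.Hb68

end
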