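import Crest.Agent.T156.LDef_69

/-!
# Row 156, block (L): the costs read the location `V2` above the cut `u2` (helper64)
-/

set_option autoImplicit false

noncomputable section

namespace Crest.Agent.T156.Alt.L69

open MeasureTheory Real Finset Filter

/-- **costs of the plateau** with the location `V2` on `u2 ≤ 8 du` -/
structure LC (E : ℝ) (S : Sc) (M : Md) (Xp Vt V2 Lg Lp X2 G0 G1 u1 u2 j γ ηc τ : ℝ)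
    (η : ℝ → ℝ) (N : ℝ) : Prop where
  v2 : 0 ≤ V2 ∧ V2 ≤ Vt
  c1 : ∑ k ∈ (Icc S.J S.Jp).filter fun k => u2 ≤ du M k,
    dx M k * min ((Lg ^ 2 * ap M S Xp V2 γ k) ^ 3) ((Lg ^ 2 * ap M S Xp V2 γ k) ^ 4 / S.θ) ≤ N
  c1' : ∀ e, e = η 1 + G0 ^ 2 + Np M S Xp Vt γ u1 Lp 2 + X2 * (Xp ^ ((1 : ℝ) / 3) + V2) →
    min (e ^ ((3 : ℝ) / 2)) (e ^ 2 / S.θ) ≤ N
  c2 : (GP M S + GS M S (1 / (8 * S.C ^ 2)) S.C + G1 ^ 2 + (S.θ * γ) ^ 2) / S.θ ≤ N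
  c3 : S.θ * (τ ^ 3 + S.u0 ^ 3) ≤ N
  c4 : u2 ^ 2 + u2 * (η 1 + X2 + √((GP M S + G1 ^ 2) / u2) + S.θ * γ) +
    (u2 * S.θ) ^ ((3 : ℝ) / 2) + γ * (η 1 + X2) + γ ^ ((15 : ℝ) / 7) ≤ N
  c6 : γ * S.θ * τ ≤ N
  c8 : min (ηc ^ ((3 : ℝ) / 2)) (ηc ^ 2 / S.θ) ≤ N
  c9 : (S.w3 1 * Xp) ^ ((3 : ℝ) / 4) + S.θ * (j ^ 9 + Xp ^ 3) ≤ N
  c5 : ∀ A B, A = S.θ + j + τ + γ →
    B = X2 * Xp ^ ((1 : ℝ) / 3) + A * min A (Xp ^ ((1 : ℝ) / 3)) ^ 2 →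
    min (B ^ ((3 : ℝ) / 2)) (B ^ 2 / S.θ) ≤ N ∧
      ((X2 + A * min A (Xp ^ ((1 : ℝ) / 3))) ^ 3 ≤ N ∨
        E * (X2 + A * min A (Xp ^ ((1 : ℝ) / 3))) ≤ S.θ)

theorem LP.lc {E : ℝ} {S : Sc} {M : Md} {Xp Vt Lg Lp X2 X3 G0 G1 u1 u2 j γ Lc ηc τ N : ℝ}
    {η : ℝ → ℝ} (h : LP E S M Xp Vt Lg Lp X2 X3 G0 G1 u1 u2 j γ Lc ηc τ η N) :
    LC E S M Xp Vt Vt Lg Lp X2 G0 G1 u1 u2 j γ ηc τ η N :=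
  ⟨⟨h.Vt0, le_rfl⟩, h.c1, h.c1', h.c2, h.c3, h.c4, h.c6, h.c8, h.c9, h.c5⟩

/-- a priori location above the cut of the costs -/
def Ap2 (S : Sc) (M : Md) (m : ℕ) (a V2 u1 u2 : ℝ) : Prop :=
  ∀ k, S.J ≤ k → k ≤ S.Jp → u1 ≤ du M k → u2 ≤ 8 * du M k → M.del m a k ≤ V2

theorem Ap.ap2 {S : Sc} {M : Md} {m : ℕ} {a l0 X Xp Vt u1 j : ℝ} (h : Ap S M m a l0 X Xp Vt u1 j)
    (u2 : ℝ) : Ap2 S M m a Vt u1 u2 := fun k a b c _ => h.vt k a b c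

/-- **(TL1x)** global energy with the costs `LC` -/
def TL1x : Prop := CL fun E Λ S M m a =>
  ∀ G1 u1 u2 j γ Lc ηc τ l X Xp Vt V2 Lg Lp X2 X3 X4 G0 η N' N,
  CeiG S M G1 → LN E S M l l (cr S l * l) X Lg X2 X3 G0 η → L4 S (cr S l * l) X l S.C X4 →
  LP E S M Xp Vt Lg Lp X2 X3 G0 G1 u1 u2 j γ Lc ηc τ η N' →
  LC E S M Xp Vt V2 Lg Lp X2 G0 G1 u1 u2 j γ ηc τ η N → S.F ^ 40 ≤ E →
  Ap S M m a l X Xp Vt u1 j → Ap2 S M m a V2 u1 u2 →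
  LO (Λ * S.F ^ 12) S M m a l u2 (l ^ 5 + S.ms l * l ^ 3 + cB M S η l S.C + X2 ^ 2 + X4 + N)

/-- **(TL1cx)** the energy below an upper cut with the costs `LC` -/
def TL1cx : Prop := CL fun E Λ S M m a =>
  ∀ G1 u1 u2 j γ Lc ηc τ l X Xp Vt V2 Lg Lp X2 X3 X4 G0 η N' N t (g En : ℝ → ℝ),
  CeiG S M G1 → LN E S M l l (cr S l * l) X Lg X2 X3 G0 η → L4 S (cr S l * l) X l S.C X4 →
  LP E S M Xp Vt Lg Lp X2 X3 G0 G1 u1 u2 j γ Lc ηc τ η N' →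
  LC E S M Xp Vt V2 Lg Lp X2 G0 G1 u1 u2 j γ ηc τ η N → S.F ^ 40 ≤ E →
  Ap S M m a l X Xp Vt u1 j → Ap2 S M m a V2 u1 u2 → E * (cr S l * l) ≤ t → E * t ≤ 1 →
  (∀ t', t ≤ t' → E * t' ≤ 1 → (∀ k, t' ≤ M.s k → M.s k ≤ 4 * t' → |M.G k| ≤ g t') ∧
    E * √(S.ms (4 * t')) ≤ t' ∧ E * En t' ≤ t' ^ 5 ∧
    L4 S (cr S l * l) X l (4 * t') (En t') ∧
    l ^ 5 + S.ms l * l ^ 3 + cB M S η l (4 * t') + (η t' + g t') ^ 2 / t' +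
      t' * (l ^ 5 + S.ms l * l ^ 3 + cB M S η l S.C + X2 ^ 2 + X4 + N) ≤ En t' ∧
    (E * (2 * t') ≤ 1 → En (2 * t') ≤ 16 * En t') ∧
    (1 < E * (2 * t') → l ^ 5 + S.ms l * l ^ 3 + cB M S η l S.C + X2 ^ 2 + X4 + N ≤ En t')) →
  ∀ t0 t', l ≤ t0 → t0 ≤ t' → t' ≤ t → ∑ k ∈ M.blk S t0 t', dx M k * M.del m a k ^ 2 ≤
    Λ * S.F ^ 12 * (min (√(t' * En t)) (En t / mf S t0) + GS M S t0 t' + 1 / (S.n : ℝ) ^ 2)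

theorem tl1_of_x (h : TL1x) : TL1 := CL.mono h
  fun _ _ _ _ _ _ _ _ _ _ h G1 u1 u2 j γ Lc ηc τ l X Xp Vt Lg Lp X2 X3 X4 G0 η N a b c d e f =>
    h G1 u1 u2 j γ Lc ηc τ l X Xp Vt Vt Lg Lp X2 X3 X4 G0 η N N a b c d d.lc e f (f.ap2 u2)


end Crest.Agent.T156.Alt.L69

end
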