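import Mathlib

/-!
# Row 156, soft recursion: the plateau move and the closing by backward induction (helper26)

Frame free.  Level `k` has the tilt `z k`, node `k` carries the labels `[z (k-1), z k)`.
-/

set_option autoImplicit false

noncomputable section

namespace Crest.Agent.T156.SrP26

open Real Finset

/-! ### closing -/


/-- the truncated step size -/
def tr (T a : ℝ) : ℝ := min 1 (T / a)






/-! ### the plateau -/

/-- distance to the ends of the plateau -/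
def rho (xs u0 ue x : ℝ) : ℝ := min (x - xs + u0) (1 - x + ue)

theorem rho_lip (xs u0 ue : ℝ) {x y d : ℝ} (h1 : x ≤ y + d) (h2 : y ≤ x + d) :
    rho xs u0 ue x ≤ rho xs u0 ue y + d := by
  unfold rho
  rw [← min_add_add_right]
  exact min_le_min (by linarith) (by linarith)

/-- the grid of the plateau: nodes `J ≤ k ≤ Jp` -/
structure Pt (z : ℕ → ℝ) (J Jp : ℕ) (u0 ue h : ℝ) : Prop where
  J1 : 1 ≤ J
  JJ : J ≤ Jp
  mono : Monotone z
  z0 : 0 ≤ z (J - 1)
  top : z Jp = 1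
  mesh : ∀ k, J ≤ k → k < Jp → z k - z (k - 1) ≤ h
  last : 1 - z (Jp - 1) ≤ ue
  h0 : 0 < h
  hu : 16 * h ≤ u0
  he : 16 * h ≤ ue

/-- the accumulated change of the marks at the node `k` -/
def Gm (N : ℕ) (w : ℕ → ℝ) (xi : ℕ → ℕ) (k : ℕ) : ℝ :=
  ∑ i ∈ range N, w i * ((if xi i < k then 1 else 0) - if i < k then 1 else 0)

theorem tele {z : ℕ → ℝ} (a : ℕ) : ∀ b, a ≤ b → ∑ k ∈ Ioc a b, (z k - z (k - 1)) = z b - z a := by
  intro b hb
  induction b, hb using Nat.le_induction with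
  | base => simp
  | succ b hb ih => rw [sum_Ioc_succ_top hb, ih]; simp

namespace Pt

variable {z : ℕ → ℝ} {J Jp : ℕ} {u0 ue h : ℝ}

/-- the weight of the node `k` -/
def r (_P : Pt z J Jp u0 ue h) (k : ℕ) : ℝ := rho (z (J - 1)) u0 ue (z k)

variable (P : Pt z J Jp u0 ue h)
include P

theorem r_ge {k : ℕ} (h1 : J ≤ k) (h2 : k ≤ Jp) : 16 * h ≤ P.r k := by
  have a1 := P.mono (show J - 1 ≤ k by omega)
  have a2 := P.mono h2
  rw [P.top] at a2
  exact le_min (by linarith [P.hu]) (by linarith [P.he])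

theorem r_pos {k : ℕ} (h1 : J ≤ k) (h2 : k ≤ Jp) : 0 < P.r k :=
  lt_of_lt_of_le (by linarith [P.h0]) (P.r_ge h1 h2)

theorem dm_nn (k : ℕ) : 0 ≤ z k - z (k - 1) := sub_nonneg.2 (P.mono (Nat.sub_le _ _))

/-- `∫ dx / ρ` is a logarithm -/
theorem sum_inv : ∑ k ∈ Icc J Jp, (z k - z (k - 1)) / P.r k ≤
    log (1 + 1 / u0) + 2 * log (1 + 1 / ue) := by
  have u0p : 0 < u0 := by linarith [P.h0, P.hu]
  have uep : 0 < ue := by linarith [P.h0, P.he]
  have J1 := P.J1
  have JJ := P.JJ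
  have lg : ∀ {a b : ℝ}, 0 < a → 0 < b → (b - a) / b ≤ log b - log a := by
    intro a b ha hb
    have := log_le_sub_one_of_pos (div_pos ha hb)
    rw [log_div ha.ne' hb.ne'] at this
    rw [sub_div, div_self hb.ne']
    linarith
  set F : ℕ → ℝ := fun k => log (z k - z (J - 1) + u0) - 2 * log (1 - z k + ue) with hF
  have e : Icc J Jp = Ioc (J - 1) Jp := by ext k; simp only [mem_Icc, mem_Ioc]; omega
  have k1 : ∑ k ∈ Icc J Jp, (z k - z (k - 1)) / P.r k ≤ ∑ k ∈ Ioc (J - 1) Jp, (F k - F (k - 1)) := by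
    rw [e]
    refine sum_le_sum fun k hk => ?_
    rw [mem_Ioc] at hk
    have a1 := P.mono (show J - 1 ≤ k - 1 by omega)
    have a2 := P.mono hk.2
    rw [P.top] at a2
    have a3 := P.dm_nn k
    have a4 : z k - z (k - 1) ≤ ue := by
      rcases hk.2.eq_or_lt with rfl | h3
      · rw [P.top]; exact P.last
      · linarith [P.mesh k (by omega) h3, P.he, P.h0]
    have b1 := lg (a := z (k - 1) - z (J - 1) + u0) (b := z k - z (J - 1) + u0) (by linarith)
      (by linarith)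
    have b2 := lg (a := 1 - z k + ue) (b := 1 - z (k - 1) + ue) (by linarith) (by linarith)
    have b3 : (z k - z (k - 1)) / (1 - z k + ue) ≤
        2 * ((1 - z (k - 1) + ue - (1 - z k + ue)) / (1 - z (k - 1) + ue)) := by
      rw [← mul_div_assoc, div_le_div_iff₀ (by linarith) (by linarith)]
      nlinarith [mul_nonneg a3 (show 0 ≤ 2 * (1 - z k + ue) - (1 - z (k - 1) + ue) by linarith)]
    have b4 : (z k - z (k - 1)) / P.r k ≤ (z k - z (k - 1)) / (z k - z (J - 1) + u0) +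
        (z k - z (k - 1)) / (1 - z k + ue) := by
      have c1 : 0 ≤ (z k - z (k - 1)) / (z k - z (J - 1) + u0) := div_nonneg a3 (by linarith)
      have c2 : 0 ≤ (z k - z (k - 1)) / (1 - z k + ue) := div_nonneg a3 (by linarith)
      unfold r rho
      rcases min_choice (z k - z (J - 1) + u0) (1 - z k + ue) with c | c <;> rw [c] <;> linarith
    rw [show z k - z (J - 1) + u0 - (z (k - 1) - z (J - 1) + u0) = z k - z (k - 1) by ring] at b1
    simp only [hF]
    linarith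
  rw [tele (z := F) _ _ (by omega)] at k1
  refine k1.trans ?_
  simp only [hF, P.top, sub_self, zero_add]
  have z0 := P.z0
  have z1 : z (J - 1) ≤ 1 := P.top ▸ P.mono (by omega)
  have d1 : log (1 - z (J - 1) + u0) - log u0 ≤ log (1 + 1 / u0) := by
    rw [← log_div (by linarith) u0p.ne']
    refine log_le_log (div_pos (by linarith) u0p) ?_
    rw [div_le_iff₀ u0p, add_mul, one_div_mul_cancel u0p.ne']
    linarith
  have d2 : log (1 - z (J - 1) + ue) - log ue ≤ log (1 + 1 / ue) := by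
    rw [← log_div (by linarith) uep.ne']
    refine log_le_log (div_pos (by linarith) uep) ?_
    rw [div_le_iff₀ uep, add_mul, one_div_mul_cancel uep.ne']
    linarith
  linarith

/-- the square integral from the weighted sup norm -/
theorem phi_le {D : ℕ → ℝ} {Z : ℝ} (hZ : ∀ k, J ≤ k → k ≤ Jp → √(P.r k) * |D k| ≤ Z) :
    ∑ k ∈ Icc J Jp, (z k - z (k - 1)) * D k ^ 2 ≤
      (log (1 + 1 / u0) + 2 * log (1 + 1 / ue)) * Z ^ 2 := by
  refine le_trans ?_ (mul_le_mul_of_nonneg_right P.sum_inv (sq_nonneg Z))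
  rw [sum_mul]
  refine sum_le_sum fun k hk => ?_
  rw [mem_Icc] at hk
  have r0 := P.r_pos hk.1 hk.2
  have a1 := pow_le_pow_left₀ (by positivity) (hZ k hk.1 hk.2) 2
  rw [mul_pow, sq_sqrt r0.le, sq_abs] at a1
  rw [div_mul_eq_mul_div, le_div_iff₀ r0, mul_assoc]
  exact mul_le_mul_of_nonneg_left (by linarith) (P.dm_nn k)

end Pt

/-- what a move delivers -/
structure Mv (z dc : ℕ → ℝ) (J Jp N : ℕ) (w₀ l : ℝ) (w : ℕ → ℝ) (xi : ℕ → ℕ) : Prop where
  nn : ∀ k, 0 ≤ w k
  le : ∀ k, w k ≤ w₀ * dc k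
  supp : ∀ k, w k ≠ 0 → J ≤ k ∧ k + 1 < Jp
  tgt : ∀ k, xi k = k ∨ (J ≤ xi k ∧ xi k + 1 < Jp)
  G0 : ∀ k, k ≤ J ∨ Jp ≤ k → Gm N w xi k = 0
  G2 : ∑ k ∈ Icc 1 N, (z k - z (k - 1)) * Gm N w xi k ^ 2 ≤ (w₀ * l) ^ 2


end Crest.Agent.T156.SrP26

end
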