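import Crest.Agent.T156.MdDic_67
import Crest.Agent.T156.PCmp_3

/-!
# Row 156: dictionary between the abstract models `Alt.Md` and the ONE path (helper67, after helper23)
-/

set_option autoImplicit false
set_option linter.unusedSectionVars false

noncomputable section

namespace Crest.Agent.T156.Alt.Md67

open MeasureTheory Real Set Filter Topology
open Crest.Agent.T157.E Crest.Agent.T157.Casc Crest.Agent.T157.SL
open Crest.Agent.T157.G1 (ov fl FL)
open Crest.Agent.T156.Cas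
open Crest.ProbabilityR.SpinGlassDynamics (spin)

variable {M : Md} {m : ℕ} {a x : ℝ} {ρ : ℕ → ℝ}

/-- `τ_k = d_k m / (m + 1)` -/
def tp (M : Md) (m k : ℕ) : ℝ := M.d k * m / (m + 1)

/-- the last node has no weight -/
def Top (M : Md) : Prop := 0 < M.N ∧ M.z (M.N - 1) = 1

/-- an admissible reference on the profile nodes below the last one -/
structure Rf (M : Md) (ρ : ℕ → ℝ) : Prop where
  nn : 0 ≤ ρ 0
  mono : ∀ k, k + 1 < M.N → ρ k ≤ ρ (k + 1)
  le : ∀ k < M.N, ρ k ≤ 1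

theorem Rf.ook (hρ : Rf M ρ) (h : M.Leg x) : OOk (M.Mx a) (qx M ρ) :=
  Md67.ook h hρ.nn hρ.mono hρ.le

theorem rf_rb (hm : 0 < m) (a' : ℝ) : Rf M (M.rb m a') :=
  ⟨rb_nonneg hm 0, fun k _ => rb_mono hm (Nat.le_succ k), fun k _ => rb_le_one hm k⟩

theorem top_cl {S : Sc} (h : Cl S M) : Top M :=
  ⟨(Nat.zero_le _).trans_lt h.i4, h.top _ (by have := h.i4; omega)⟩

theorem q_nonneg (k : ℕ) : 0 ≤ M.q k := Pp.Ode3.Gam_nonneg _ _

theorem q_le_one (k : ℕ) : M.q k ≤ 1 := Pp.Ode3.Gam_le_one _ _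

theorem tp_mem (h : M.Leg x) (k : ℕ) :
    0 ≤ tp M m k ∧ tp M m k ≤ M.d k ∧ M.d k - tp M m k = M.d k / (m + 1) := by
  have h1 : (0 : ℝ) < m + 1 := by positivity
  have h2 := d_nonneg h k
  have e : M.d k - tp M m k = M.d k / (m + 1) := by rw [tp]; field_simp; ring
  exact ⟨by rw [tp]; positivity, by linarith [div_nonneg h2 h1.le], e⟩

theorem tp_mono (h : M.Leg x) : Monotone (tp M m) := fun _ _ e =>
  div_le_div_of_nonneg_right (mul_le_mul_of_nonneg_right (h.dm e) (Nat.cast_nonneg m))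
    (by positivity)

theorem oTau_tp {k : ℕ} (hk : k ≤ M.N) : oTau m 1 (M.Mx a) (k + 1) = tp M m k := oTau_succ hk

theorem oTau_top : oTau m 1 (M.Mx a) (M.Mx a).length = tp M m M.N := by
  rw [len_Mx, oTau_tp le_rfl]

theorem oTau_le (h : M.Leg x) (j : ℕ) : oTau m 1 (M.Mx a) j ≤ M.b := by
  rcases j with _ | k
  · rw [oTau_zero]; exact d_nonneg h _
  rcases le_total k M.N with hk | hk
  · rw [oTau_tp hk]; exact (tp_mem h k).2.1.trans (d_le_b h hk)
  · have e : oTau m 1 (M.Mx a) (k + 1) = oTau m 1 (M.Mx a) (M.N + 1) := by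
      rw [oTau, oTau, dAcc, dAcc, List.take_of_length_le (by rw [len_Mx]; omega),
        List.take_of_length_le len_Mx.le]
    rw [e, oTau_tp le_rfl]; exact (tp_mem h _).2.1

theorem dz_last (h : M.Leg x) (ht : Top M) : M.dz m a M.N = 0 := by
  rw [dz_up h ht.1, h.zN, ht.2, sub_self]

/-- sums against the label weights, without the last node -/
theorem sum_top (h : M.Leg x) (ht : Top M) (g : ℕ → ℝ) :
    ∑ j ∈ Finset.range ((M.Mx a).length + 1), dm (M.L m a) 0 j * g j =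
      a * g 0 + ∑ k ∈ Finset.range M.N, M.dz m a k * g (k + 1) := by
  rw [sum_L, Finset.sum_range_succ, dz_last h ht, zero_mul, add_zero]


theorem oU_succ {k : ℕ} (hk : k < M.N) (y y' : Cube m) :
    oU (qx M ρ) (k + 1) y y' = ov y y' - ρ k := by rw [oU, qx_succ hk]

theorem oE_succ {k : ℕ} (hk : k < M.N) (e e' : Bool) :
    oE (qx M ρ) (k + 1) e e' = spin e * spin e' - ρ k := by rw [oE, qx_succ hk]

theorem uM_succ (i : ℕ) {k : ℕ} (hk : k < M.N) :
    uM m 1 (M.Mx a) (qx M ρ) i (k + 1) = M.E2 m a (fun r => |r - ρ k| ^ i) k := by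
  simp only [uM, oU_succ hk]; rfl

theorem momU_eq (h : M.Leg x) (ht : Top M) (i : ℕ) :
    momU m 1 (M.Mx a) (qx M ρ) i = a * uM m 1 (M.Mx a) (qx M ρ) i 0 +
      ∑ k ∈ Finset.range M.N, M.dz m a k * M.E2 m a (fun r => |r - ρ k| ^ i) k := by
  refine (sum_top h ht _).trans ?_
  rw [Finset.sum_congr rfl fun k hk => by rw [uM_succ i (Finset.mem_range.1 hk)]]

/-- the moments in the names of the class -/
theorem momU_le (h : M.Leg x) (ht : Top M) (hm : 0 < m) (h0 : 0 ≤ a) (hρ : Rf M ρ) (i : ℕ) :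
    momU m 1 (M.Mx a) (qx M ρ) (i + 2) ≤ a / m +
      ∑ k ∈ Finset.range M.N, M.dz m a k * M.E2 m a (fun r => |r - ρ k| ^ (i + 2)) k := by
  rw [momU_eq h ht]
  exact add_le_add ((mul_le_mul_of_nonneg_left (uM_root hm (hρ.ook h) rfl i) h0).trans_eq
    (mul_one_div _ _)) le_rfl





theorem TT_Mx (h : M.Leg x) {k : ℕ} (hk : k < M.N) :
    R339.Var.TT ((opV m 1 (M.Mx a) (qx M ρ)).take (k + 1)) = tp M m k * ρ k + M.H k := by
  rw [TT_opV (by rw [len_Mx]; omega), oTau_tp hk.le, qx_succ hk, fAcc_Mx h hk.le]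


theorem adm_Mx (G : Lg M m a) (ha : 0 < a) (hρ : Rf M ρ) :
    R339.B.Adm 1 (opV m 1 (M.Mx a) (qx M ρ)) :=
  adm_opV (hρ.ook G.toLeg) G.monoL (Mx_pos G.toLeg ha)

theorem mono_opS_Mx (G : Lg M m a) : Mono 0 (opS m 1 (M.Mx a) (qx M ρ)) := mono_opS G.monoL

/-- the site overlap at the profile node `k` -/
theorem Gam_Mx (h : M.Leg x) (hρ : Rf M ρ) {k : ℕ} (hk : k < M.N) :
    pi2 (fun _ => 1) (opS m 1 (M.Mx a) (qx M ρ)) (k + 1) (fun e e' => spin e * spin e') 0 =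
      Pr.Gam (opV m 1 (M.Mx a) (qx M ρ)) (tp M m k * ρ k + M.H k) := by
  rw [pi2_opS (hρ.ook h) (by rw [len_Mx]; omega), oTau_tp hk.le, qx_succ hk, fAcc_Mx h hk.le]


/-! ### the reference of the class -/

section cl
variable {S : Sc} (h : Cl S M)
include h

theorem s_nonneg (k : ℕ) : 0 ≤ M.s k := h.s0.ge.trans (h.sm (Nat.zero_le k))

theorem s_mem {k : ℕ} (hk : k ≤ M.N) : M.s k ∈ Icc 0 (R339.Var.TT M.lr) :=
  ⟨s_nonneg h k, (h.sm hk).trans h.sN⟩

theorem lr_ap : Pp.Ode3.AP M.lr := .of_ok h.ok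


theorem q_mono {i j : ℕ} (hij : i ≤ j) (hj : j ≤ M.N) : M.q i ≤ M.q j :=
  Pp.Ode3.Gam_mono (lr_ap h) (s_nonneg h i) (h.sm hij) (s_mem h hj).2

theorem q_le_s {k : ℕ} (hk : k ≤ M.N) : M.q k ≤ M.s k := Pp.Ode3.Gam_le (lr_ap h) (s_mem h hk)

theorem q_lip {i j : ℕ} (hij : i ≤ j) (hj : j ≤ M.N) : M.q j - M.q i ≤ M.s j - M.s i := by
  have := Pp.Ode3.Gam_lip (lr_ap h) (s_mem h (hij.trans hj)) (s_mem h hj)
  rw [abs_of_nonneg (sub_nonneg.2 (h.sm hij))] at this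
  exact (le_abs_self _).trans this

theorem rf_q : Rf M M.q :=
  ⟨q_nonneg 0, fun k hk => q_mono h (Nat.le_succ k) hk.le, fun k _ => q_le_one k⟩



/-- site times of the ONE path at the reference `ρ` against the reference times -/
theorem sig_sub (ρ : ℕ → ℝ) (k : ℕ) : tp M m k * ρ k + M.H k - M.s k =
    M.G k + M.d k * (ρ k - M.q k) - M.d k / (m + 1) * ρ k := by
  rw [← (tp_mem (m := m) h.leg k).2.2, Md.G]; ring

end cl

end Crest.Agent.T156.Alt.Md67

end
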