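import Crest.Agent.T156.Lp_12

/-!
# Row 156 (helper12): `L^k` bounds under the path law

`Mo w L h k F B` says `‖F‖_k ≤ B`: Minkowski, Hölder, Lyapunov, Jensen, Garsia's lemma.
-/

set_option autoImplicit false
set_option linter.unusedSectionVars false

noncomputable section

namespace Crest.Agent.T156.Cas.Lp12

open MeasureTheory Real Set Filter Topology
open Crest.Agent.T157.E Crest.Agent.T157.Casc Crest.Agent.T157.SL

/-! ### scalar inequalities -/

theorem amgm {a b : ℝ} (ha : 0 ≤ a) (hb : 0 ≤ b) :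
    ∀ m : ℕ, (m + 1) * (a * b ^ m) ≤ m * b ^ (m + 1) + a ^ (m + 1)
  | 0 => by simp
  | m + 1 => by
    have h1 := mul_le_mul_of_nonneg_right (amgm ha hb m) hb
    have h2 : 0 ≤ (a - b) * (a ^ (m + 1) - b ^ (m + 1)) := by
      rcases le_total a b with k | k
      · exact mul_nonneg_of_nonpos_of_nonpos (by linarith)
          (sub_nonpos.2 (pow_le_pow_left₀ ha k _))
      · exact mul_nonneg (by linarith) (sub_nonneg.2 (pow_le_pow_left₀ hb k _))
    push_cast
    simp only [pow_succ] at h1 h2 ⊢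
    nlinarith

theorem le_pow_of_forall {x B : ℝ} {k : ℕ} (H : ∀ ε > 0, x ≤ (B + ε) ^ k) : x ≤ B ^ k := by
  have : Tendsto (fun ε : ℝ => (B + ε) ^ k) (𝓝[>] 0) (𝓝 (B ^ k)) := by
    have : Tendsto (fun ε : ℝ => (B + ε) ^ k) (𝓝 0) (𝓝 ((B + 0) ^ k)) :=
      (Continuous.tendsto (by fun_prop) 0)
    rw [add_zero] at this
    exact this.mono_left nhdsWithin_le_nhds
  exact ge_of_tendsto this (eventually_mem_nhdsWithin.mono fun ε hε => H ε hε)

theorem le_of_forall2 {x : ℝ} {f : ℝ → ℝ} (hf : Continuous f) (H : ∀ ε > 0, x ≤ f ε) : x ≤ f 0 :=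
  ge_of_tendsto ((hf.tendsto 0).mono_left (nhdsWithin_le_nhds (s := Ioi 0)))
    (eventually_mem_nhdsWithin.mono fun ε hε => H ε hε)

variable {Ω : Type} [Fintype Ω] {w : Ω → ℝ} {L : List (Lv Ω)} {h : Ω → ℝ} {k : ℕ}
  {F G : Pth Ω → ℝ} {A B C : ℝ}

/-- `‖F‖_k ≤ B` -/
structure Mo (w : Ω → ℝ) (L : List (Lv Ω)) (h : Ω → ℝ) (k : ℕ) (F : Pth Ω → ℝ) (B : ℝ) : Prop where
  ep : EP F
  nn : 0 ≤ B
  le : EE w L h (fun p => |F p| ^ k) ≤ B ^ k

/-- the norm `‖F‖_k` -/
def nr (w : Ω → ℝ) (L : List (Lv Ω)) (h : Ω → ℝ) (k : ℕ) (F : Pth Ω → ℝ) : ℝ :=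
  EE w L h (fun p => |F p| ^ k) ^ ((k : ℝ)⁻¹)

theorem nr_nonneg (F : Pth Ω → ℝ) : 0 ≤ nr w L h k F :=
  rpow_nonneg (EE_nonneg L h fun _ => by positivity) _

theorem nr_pow (hk : k ≠ 0) (F : Pth Ω → ℝ) : nr w L h k F ^ k = EE w L h fun p => |F p| ^ k :=
  rpow_inv_natCast_pow (EE_nonneg L h fun _ => by positivity) hk

theorem mo_nr (hk : k ≠ 0) (hF : EP F) : Mo w L h k F (nr w L h k F) :=
  ⟨hF, nr_nonneg F, (nr_pow hk F).ge⟩

theorem Mo.nr_le (hk : k ≠ 0) (H : Mo w L h k F B) : nr w L h k F ≤ B :=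
  (pow_le_pow_iff_left₀ (nr_nonneg F) H.nn hk).1 ((nr_pow hk F).trans_le H.le)

namespace Mo

theorem mono (H : Mo w L h k F B) (e : B ≤ C) : Mo w L h k F C :=
  ⟨H.ep, H.nn.trans e, H.le.trans (pow_le_pow_left₀ H.nn e k)⟩

theorem of_le (hw : Wt w) (H : Mo w L h k G B) (hF : EP F) (e : ∀ p, |F p| ≤ |G p|) :
    Mo w L h k F B :=
  ⟨hF, H.nn, (EE_mono hw L h (hF.abs.pow k) (H.ep.abs.pow k) fun p =>
    pow_le_pow_left₀ (abs_nonneg _) (e p) k).trans H.le⟩

theorem of_le' (hw : Wt w) (H : Mo w L h k G B) (hF : EP F) (e : ∀ p, |F p| ≤ G p) :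
    Mo w L h k F B := H.of_le hw hF fun p => (e p).trans (le_abs_self _)

theorem congr (H : Mo w L h k G B) (e : ∀ p, F p = G p) : Mo w L h k F B := by
  rwa [funext e]

theorem bdd (hw : Wt w) (hF : EP F) (e : ∀ p, |F p| ≤ B) : Mo w L h k F B :=
  ⟨hF, (abs_nonneg _).trans (e fun _ _ => 0),
    EE_le hw L h (hF.abs.pow k) fun p => pow_le_pow_left₀ (abs_nonneg _) (e p) k⟩

theorem const (hw : Wt w) (c : ℝ) : Mo w L h k (fun _ => c) |c| :=
  bdd hw (EP.const c) fun _ => le_rfl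

theorem abs (H : Mo w L h k F B) : Mo w L h k (fun p => |F p|) B :=
  ⟨H.ep.abs, H.nn, by simpa only [abs_abs] using H.le⟩

theorem neg (H : Mo w L h k F B) : Mo w L h k (fun p => -F p) B :=
  ⟨H.ep.neg, H.nn, by simpa only [abs_neg] using H.le⟩

theorem const_mul (H : Mo w L h k F B) (c : ℝ) : Mo w L h k (fun p => c * F p) (|c| * B) :=
  ⟨H.ep.const_mul c, mul_nonneg (abs_nonneg c) H.nn, by
    simp only [abs_mul, mul_pow, EE_const_mul]
    exact mul_le_mul_of_nonneg_left H.le (by positivity)⟩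

theorem const_mul' (H : Mo w L h k F B) {c : ℝ} (hc : 0 ≤ c) :
    Mo w L h k (fun p => c * F p) (c * B) := by
  simpa only [abs_of_nonneg hc] using H.const_mul c

/-- Minkowski -/
theorem add (hw : Wt w) (H : Mo w L h k F B) (H' : Mo w L h k G C) :
    Mo w L h k (fun p => F p + G p) (B + C) := by
  refine ⟨H.ep.add H'.ep, add_nonneg H.nn H'.nn, le_pow_of_forall fun ε hε => ?_⟩
  have hb : 0 < B + ε / 2 := by linarith [H.nn]
  have hc : 0 < C + ε / 2 := by linarith [H'.nn]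
  have h1 := (H.mono (C := B + ε / 2) (by linarith)).le
  have h2 := (H'.mono (C := C + ε / 2) (by linarith)).le
  rw [show B + C + ε = B + ε / 2 + (C + ε / 2) by ring]
  generalize B + ε / 2 = b at hb h1
  generalize C + ε / 2 = c at hc h2
  have hs : 0 < b + c := by linarith
  refine (EE_le2 hw L h ((H.ep.add H'.ep).abs.pow k) (H.ep.abs.pow k) (H'.ep.abs.pow k)
    (a := (b + c) ^ k * (b / (b + c)) / b ^ k) (b := (b + c) ^ k * (c / (b + c)) / c ^ k)
    fun p => ?_).trans ?_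
  · have h3 := (convexOn_pow k).2 (mem_Ici.2 (div_nonneg (abs_nonneg (F p)) hb.le))
      (mem_Ici.2 (div_nonneg (abs_nonneg (G p)) hc.le)) (div_nonneg hb.le hs.le)
      (div_nonneg hc.le hs.le) (by field_simp)
    simp only [smul_eq_mul] at h3
    have e : b / (b + c) * (|F p| / b) + c / (b + c) * (|G p| / c) = (|F p| + |G p|) / (b + c) := by
      field_simp
    rw [e, div_pow, div_pow, div_pow, div_le_iff₀ (pow_pos hs k)] at h3
    refine (pow_le_pow_left₀ (abs_nonneg _) (abs_add_le _ _) k).trans (h3.trans (le_of_eq ?_))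
    ring
  · have a1 := mul_le_mul_of_nonneg_left h1
      (by positivity : 0 ≤ (b + c) ^ k * (b / (b + c)) / b ^ k)
    have a2 := mul_le_mul_of_nonneg_left h2
      (by positivity : 0 ≤ (b + c) ^ k * (c / (b + c)) / c ^ k)
    refine (add_le_add a1 a2).trans (le_of_eq ?_)
    field_simp

theorem sub (hw : Wt w) (H : Mo w L h k F B) (H' : Mo w L h k G C) :
    Mo w L h k (fun p => F p - G p) (B + C) := by
  simpa only [sub_eq_add_neg] using H.add hw H'.neg

theorem sum (hw : Wt w) {κ : Type*} (s : Finset κ) {F : κ → Pth Ω → ℝ} {B : κ → ℝ}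
    (H : ∀ i ∈ s, Mo w L h k (F i) (B i)) : Mo w L h k (fun p => ∑ i ∈ s, F i p) (∑ i ∈ s, B i) := by
  classical
  induction s using Finset.induction_on with
  | empty => simpa using const hw 0
  | insert a s ha ih =>
    simp only [Finset.sum_insert ha]
    exact (H a (Finset.mem_insert_self _ _)).add hw (ih fun i hi => H i (Finset.mem_insert_of_mem hi))

/-- weighted averages -/
theorem wsum (hw : Wt w) {κ : Type*} (s : Finset κ) {c : κ → ℝ} (hc : ∀ i ∈ s, 0 ≤ c i)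
    {F : κ → Pth Ω → ℝ} {B : κ → ℝ} (H : ∀ i ∈ s, Mo w L h k (F i) (B i)) :
    Mo w L h k (fun p => ∑ i ∈ s, c i * F i p) (∑ i ∈ s, c i * B i) :=
  sum hw s fun i hi => (H i hi).const_mul' (hc i hi)

theorem pow {j : ℕ} (H : Mo w L h (j * k) F B) : Mo w L h k (fun p => F p ^ j) (B ^ j) :=
  ⟨H.ep.pow j, pow_nonneg H.nn j, by simpa only [abs_pow, ← pow_mul] using H.le⟩

theorem of_pow {j : ℕ} (hF : EP F) (hB : 0 ≤ B) (H : Mo w L h k (fun p => F p ^ j) (B ^ j)) :
    Mo w L h (j * k) F B := ⟨hF, hB, by simpa only [abs_pow, ← pow_mul] using H.le⟩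

/-- `|F|² ≤ G` -/
theorem of_sq_le (hw : Wt w) (hF : EP F) (hB : 0 ≤ B) (H : Mo w L h k G (B ^ 2))
    (e : ∀ p, F p ^ 2 ≤ G p) : Mo w L h (2 * k) F B :=
  of_pow hF hB (H.of_le' hw (hF.pow 2) fun p => by rw [abs_of_nonneg (sq_nonneg _)]; exact e p)

theorem _root_.Crest.Agent.T156.Cas.Lp12.EP.sqrt (hF : EP F) : EP fun p => √(F p) :=
  hF.comp_lin continuous_sqrt (a := 1) (b := 1) fun t => by
    rw [abs_of_nonneg (sqrt_nonneg t), one_mul]
    refine sqrt_le_iff.2 ⟨by positivity, ?_⟩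
    nlinarith [le_abs_self t, abs_nonneg t]

theorem sqrt (hw : Wt w) (H : Mo w L h k F B) : Mo w L h (2 * k) (fun p => √(F p)) √B :=
  of_sq_le hw H.ep.sqrt (sqrt_nonneg B) (by rw [sq_sqrt H.nn]; exact H.abs) fun p => by
    rcases le_total 0 (F p) with k | k
    · rw [sq_sqrt k]; exact le_abs_self _
    · rw [sqrt_eq_zero'.2 k]; simp

/-- Hölder, exponents `m + 1` and `(m + 1)/m` -/
theorem holder (hw : Wt w) {m : ℕ} (H : Mo w L h (m + 1) F B) (H' : Mo w L h (m + 1) G A) :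
    EE w L h (fun p => |F p| * |G p| ^ m) ≤ B * A ^ m := by
  have key : ∀ ε > 0, EE w L h (fun p => |F p| * |G p| ^ m) ≤ (B + ε) * (A + ε) ^ m := by
    intro ε hε
    have hb : 0 < B + ε := by linarith [H.nn]
    have hc : 0 < A + ε := by linarith [H'.nn]
    have h1 := (H.mono (C := B + ε) (by linarith)).le
    have h2 := (H'.mono (C := A + ε) (by linarith)).le
    generalize B + ε = b at hb h1
    generalize A + ε = c at hc h2
    have hm : (0 : ℝ) < m + 1 := by positivity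
    refine (EE_le2 hw L h (H.ep.abs.mul (H'.ep.abs.pow m)) (H.ep.abs.pow (m + 1))
      (H'.ep.abs.pow (m + 1))
      (a := b * c ^ m / (m + 1) / b ^ (m + 1)) (b := b * c ^ m / (m + 1) * m / c ^ (m + 1))
      fun p => ?_).trans ?_
    · have h3 := mul_le_mul_of_nonneg_left (amgm (div_nonneg (abs_nonneg (F p)) hb.le)
        (div_nonneg (abs_nonneg (G p)) hc.le) m) (by positivity : 0 ≤ b * c ^ m / (m + 1))
      simp only [div_pow] at h3
      refine le_of_eq_of_le ?_ (h3.trans (le_of_eq (by ring)))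
      field_simp
    · have a1 := mul_le_mul_of_nonneg_left h1
        (by positivity : 0 ≤ b * c ^ m / (m + 1) / b ^ (m + 1))
      have a2 := mul_le_mul_of_nonneg_left h2
        (by positivity : 0 ≤ b * c ^ m / (m + 1) * m / c ^ (m + 1))
      refine (add_le_add a1 a2).trans (le_of_eq ?_)
      field_simp
      ring
  have := le_of_forall2 (f := fun ε => (B + ε) * (A + ε) ^ m) (by fun_prop) key
  simpa using this

theorem lyap1 (hw : Wt w) (H : Mo w L h (k + 1) F B) : Mo w L h k F B :=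
  ⟨H.ep, H.nn, by simpa using holder hw (const hw 1) H⟩

/-- Lyapunov -/
theorem lyap (hw : Wt w) {K : ℕ} (e : k ≤ K) (H : Mo w L h K F B) : Mo w L h k F B := by
  induction e with
  | refl => exact H
  | step _ ih => exact ih (H.lyap1 hw)

/-- Cauchy–Schwarz -/
theorem mul (hw : Wt w) (H : Mo w L h (2 * k) F B) (H' : Mo w L h (2 * k) G C) :
    Mo w L h k (fun p => F p * G p) (B * C) := by
  rw [mul_comm 2 k] at H H'
  have := holder hw (m := 1) H.pow H'.pow
  exact ⟨H.ep.mul H'.ep, mul_nonneg H.nn H'.nn, by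
    simpa only [abs_mul, mul_pow, abs_pow, pow_one] using this⟩


theorem abs_EE_le (hw : Wt w) (hk : k ≠ 0) (H : Mo w L h k F B) : |EE w L h F| ≤ B := by
  have h1 := (H.lyap hw (Nat.one_le_iff_ne_zero.2 hk)).le
  simp only [pow_one] at h1
  have h2 := EE_mono hw L h H.ep H.ep.abs fun p => le_abs_self _
  have h3 := EE_mono hw L h H.ep.neg H.ep.abs fun p => neg_le_abs _
  have h4 := EE_const_mul (w := w) (-1) L h F
  simp only [neg_mul, one_mul] at h4
  rw [abs_le]
  constructor <;> linarith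

theorem EE_le (hw : Wt w) (hk : k ≠ 0) (H : Mo w L h k F B) : EE w L h F ≤ B :=
  (le_abs_self _).trans (H.abs_EE_le hw hk)

end Mo

/-- Jensen -/
theorem abs_EE_pow_le (hw : Wt w) (L : List (Lv Ω)) (h : Ω → ℝ) (hF : EP F) (k : ℕ) :
    |EE w L h F| ^ k ≤ EE w L h fun p => |F p| ^ k := by
  rcases Nat.eq_zero_or_pos k with rfl | hk
  · simp [EE_const hw]
  · rw [← nr_pow hk.ne']
    exact pow_le_pow_left₀ (abs_nonneg _) ((mo_nr hk.ne' hF).abs_EE_le hw hk.ne') k


namespace Mo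


/-- conditional expectations are contractions -/
theorem ce (hw : Wt w) (t : ℕ) (H : Mo w L h k F B) : Mo w L h k (CE w L t F) B := by
  refine ⟨ep_CE hw L t H.ep, H.nn, le_trans ?_ H.le⟩
  rw [EE_tower hw t L h fun p => |F p| ^ k]
  exact EE_mono hw L h ((ep_CE hw L t H.ep).abs.pow k) (ep_CE hw L t (H.ep.abs.pow k)) fun p =>
    abs_EE_pow_le hw _ _ (H.ep.cat t p) k

/-- `|G|^k ≤ ∑ |F_i|^k` -/
theorem of_sum_pow (hw : Wt w) {κ : Type*} (s : Finset κ) {F : κ → Pth Ω → ℝ} (hG : EP G)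
    (hF : ∀ i ∈ s, EP (F i)) (hB : 0 ≤ B) (e : ∀ p, |G p| ^ k ≤ ∑ i ∈ s, |F i p| ^ k)
    (H : ∑ i ∈ s, EE w L h (fun p => |F i p| ^ k) ≤ B ^ k) : Mo w L h k G B :=
  ⟨hG, hB, ((EE_mono hw L h (hG.abs.pow k) (EP.sum s fun i hi => (hF i hi).abs.pow k) e).trans_eq
    (EE_sum hw L h s fun i hi => (hF i hi).abs.pow k)).trans H⟩




end Mo

/-! ### Garsia's lemma -/

theorem garsia_pt {S : ℕ → ℝ} (h0 : S 0 = 0) (hS : Monotone S) (c : ℝ) (m : ℕ) : ∀ N : ℕ,
    (m + 2) * (c * S N ^ (m + 1)) - (m + 1) * S N ^ (m + 2) ≤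
      (m + 2) * ∑ i ∈ Finset.range N, (S (i + 1) ^ (m + 1) - S i ^ (m + 1)) * (c - S i)
  | 0 => by simp [h0]
  | N + 1 => by
    have h1 := garsia_pt h0 hS c m N
    have h2 := amgm (h0 ▸ hS (Nat.zero_le N)) (h0 ▸ hS (Nat.zero_le (N + 1))) (m + 1)
    rw [Finset.sum_range_succ]
    push_cast at h2
    have e : S N ^ (m + 2) = S N ^ (m + 1) * S N := pow_succ _ _
    rw [show m + 1 + 1 = m + 2 from rfl, e] at h2
    rw [e] at h1
    nlinarith

/-- **Garsia**: `S` increasing, `S (i+1)` known at the node `T i` -/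
theorem garsia (hw : Wt w) {S : ℕ → Pth Ω → ℝ} {W : Pth Ω → ℝ} {T : ℕ → ℕ} {N : ℕ}
    (hS : ∀ i, EP (S i)) (h0 : ∀ p, S 0 p = 0) (hm : ∀ p, Monotone fun i => S i p)
    (hT : Monotone T) (ha : ∀ i, Ad (T i) (S (i + 1)))
    (H : ∀ i < N, ∀ p, CE w L (T i) (fun q => S N q - S i q) p ≤ CE w L (T i) W p)
    (hW : Mo w L h k W B) (hk : k ≠ 0) : Mo w L h k (S N) (k * B) := by
  have S0 : ∀ i p, 0 ≤ S i p := fun i p => h0 p ▸ hm p (Nat.zero_le i)
  have ha' : ∀ i, Ad (T i) (S i) := fun i => by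
    cases i with
    | zero => exact fun p q _ => by rw [h0, h0]
    | succ i => exact (ha i).mono (hT (Nat.le_succ i))
  refine ⟨hS N, mul_nonneg (Nat.cast_nonneg k) hW.nn, ?_⟩
  obtain ⟨m, rfl⟩ := Nat.exists_eq_succ_of_ne_zero hk
  cases m with
  | zero =>
    simp only [Nat.succ_eq_add_one, zero_add, pow_one, Nat.cast_one, one_mul,
      abs_of_nonneg (S0 _ _)]
    rcases Nat.eq_zero_or_pos N with rfl | hN
    · simp only [funext h0, EE_const hw, hW.nn]
    · have := EE_mul_le hw L h (EP.const 1) (Ad.const (T 0) 1) (fun _ => zero_le_one)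
        ((hS N).sub (hS 0)) hW.ep (H 0 hN)
      simp only [one_mul, h0, sub_zero] at this
      exact this.trans (hW.EE_le hw one_ne_zero)
  | succ m =>
    have eG := fun i => ((hS (i + 1)).pow (m + 1)).sub ((hS i).pow (m + 1))
    have G0 : ∀ i p, 0 ≤ S (i + 1) p ^ (m + 1) - S i p ^ (m + 1) := fun i p =>
      sub_nonneg.2 (pow_le_pow_left₀ (S0 i p) (hm p (Nat.le_succ i)) _)
    have hA := mo_nr (w := w) (L := L) (h := h) hk (hS N)
    have h1 := EE_mono hw L h ((hS N).abs.pow (m + 2)) ((EP.sum (Finset.range N) fun i _ =>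
      (eG i).mul ((hS N).sub (hS i))).const_mul (m + 2)) fun p => by
        have := garsia_pt (h0 p) (hm p) (S N p) m N
        rw [abs_of_nonneg (S0 _ _)]
        have e : S N p ^ (m + 2) = S N p * S N p ^ (m + 1) := pow_succ' _ _
        rw [e] at this ⊢
        linarith
    rw [EE_const_mul, EE_sum hw L h _ fun i _ => (eG i).mul ((hS N).sub (hS i))] at h1
    have h2 : ∑ i ∈ Finset.range N, EE w L h (fun p =>
        (S (i + 1) p ^ (m + 1) - S i p ^ (m + 1)) * (S N p - S i p)) ≤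
        B * nr w L h (m + 2) (S N) ^ (m + 1) := by
      refine (Finset.sum_le_sum fun i hi => EE_mul_le hw L h (eG i)
        (((ha i).comp (· ^ (m + 1))).comp₂ ((ha' i).comp (· ^ (m + 1))) (· - ·)) (G0 i)
        ((hS N).sub (hS i)) hW.ep (H i (Finset.mem_range.1 hi))).trans ?_
      rw [← EE_sum hw L h _ fun i _ => (eG i).mul hW.ep]
      refine le_trans (EE_mono hw L h (EP.sum _ fun i _ => (eG i).mul hW.ep)
        (hW.ep.abs.mul ((hS N).abs.pow _)) fun p => ?_) (hW.holder hw hA)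
      rw [← Finset.sum_mul, Finset.sum_range_sub fun i => S i p ^ (m + 1), h0, zero_pow (by omega),
        sub_zero, abs_of_nonneg (S0 _ _), mul_comm]
      exact mul_le_mul_of_nonneg_right (le_abs_self _) (pow_nonneg (S0 _ _) _)
    have h3 := h1.trans (mul_le_mul_of_nonneg_left h2 (by positivity))
    rw [← nr_pow hk] at h3 ⊢
    set a := nr w L h (m + 2) (S N)
    refine pow_le_pow_left₀ hA.nn ?_ _
    rcases hA.nn.eq_or_lt with e | e
    · exact e ▸ mul_nonneg (Nat.cast_nonneg _) hW.nn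
    · have h4 : a * a ^ (m + 1) ≤ ((m + 2) * B) * a ^ (m + 1) := by
        rw [← pow_succ', mul_assoc]; exact h3
      have := le_of_mul_le_mul_right h4 (pow_pos e _)
      push_cast
      linarith

end Crest.Agent.T156.Cas.Lp12

end
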