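import Crest.Agent.T156.CaBlT_41
import Crest.Agent.T156.CaTp_90
import Crest.Agent.T156.CaERicB_43
import Crest.Agent.T156.CaDyad_41

/-!
# Row 156 (helper12): the path functional, the tower property and the calculus of `L^p` bounds

`EE w L h F` is the expectation of a function `F` of the path of states (`EE_eq`: it is `pE`),
`cat t p q` glues two paths at the node `t`, `EE_tower` is the tower property.
-/

set_option autoImplicit false
set_option linter.unusedSectionVars false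

noncomputable section

namespace Crest.Agent.T156.Cas.Lp12

open MeasureTheory Real Set Filter Topology
open Crest.Agent.T157.E Crest.Agent.T157.Casc Crest.Agent.T157.SL

/-- paths of states -/
abbrev Pth (Ω : Type) : Type := ℕ → Ω → ℝ

variable {Ω : Type}

/-- follow `p` up to the node `t`, then `q` -/
def cat (t : ℕ) (p q : Pth Ω) : Pth Ω := fun j => if j ≤ t then p j else q (j - t)

theorem cat_le {t j : ℕ} (h : j ≤ t) (p q : Pth Ω) : cat t p q j = p j := if_pos h

theorem cat_ge {t j : ℕ} (h : t ≤ j) {p q : Pth Ω} (e : q 0 = p t) : cat t p q j = q (j - t) := by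
  rcases h.eq_or_lt with rfl | h
  · rw [cat_le le_rfl, Nat.sub_self, e]
  · exact if_neg (by omega)

theorem cat_succ (t : ℕ) (h : Ω → ℝ) (p q : Pth Ω) :
    cat (t + 1) (Gf.cons h p) q = Gf.cons h (cat t p q) := by
  funext j
  cases j with
  | zero => rfl
  | succ j => simp only [cat, Gf.cons, Nat.add_le_add_iff_right, Nat.add_sub_add_right]

/-- `F` only depends on the states up to the node `t` -/
def Ad (t : ℕ) {α : Type*} (F : Pth Ω → α) : Prop := ∀ p q : Pth Ω, (∀ j ≤ t, p j = q j) → F p = F q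

theorem Ad.cat {t : ℕ} {α : Type*} {F : Pth Ω → α} (h : Ad t F) (p q : Pth Ω) :
    F (cat t p q) = F p := h _ _ fun _ hj => cat_le hj p q

theorem Ad.mono {t t' : ℕ} {α : Type*} {F : Pth Ω → α} (h : Ad t F) (e : t ≤ t') : Ad t' F :=
  fun p q H => h p q fun j hj => H j (hj.trans e)

theorem Ad.state {t j : ℕ} {α : Type*} (e : j ≤ t) (Φ : (Ω → ℝ) → α) :
    Ad t fun p : Pth Ω => Φ (p j) := fun _ _ H => congrArg Φ (H j e)

theorem Ad.const (t : ℕ) {α : Type*} (c : α) : Ad t fun _ : Pth Ω => c := fun _ _ _ => rfl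

theorem Ad.comp {t : ℕ} {α β : Type*} {F : Pth Ω → α} (h : Ad t F) (φ : α → β) :
    Ad t fun p => φ (F p) := fun p q H => congrArg φ (h p q H)

theorem Ad.comp₂ {t : ℕ} {α β γ : Type*} {F : Pth Ω → α} {G : Pth Ω → β} (h : Ad t F) (h' : Ad t G)
    (φ : α → β → γ) : Ad t fun p => φ (F p) (G p) := fun p q H => by
  beta_reduce; rw [h p q H, h' p q H]

theorem Ad.sum {t : ℕ} {κ : Type*} (s : Finset κ) {F : κ → Pth Ω → ℝ} (h : ∀ k ∈ s, Ad t (F k)) :
    Ad t fun p => ∑ k ∈ s, F k p := fun p q H => Finset.sum_congr rfl fun k hk => h k hk p q H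

variable [Fintype Ω] {w : Ω → ℝ}

/-- expectation of a function of the path -/
def EE (w : Ω → ℝ) : List (Lv Ω) → (Ω → ℝ) → (Pth Ω → ℝ) → ℝ
  | [], h, F => F fun _ => h
  | l :: L, h, F => tE l (X w L) (fun z => EE w L z fun p => F (Gf.cons h p)) h

/-- admissible functions of the path -/
def EP (F : Pth Ω → ℝ) : Prop :=
  ∀ (ι : Type) [Fintype ι] (p : (ι → ℝ) → Pth Ω), (∀ j y, Lg fun g => p g j y) → Eg fun g => F (p g)

namespace EP
variable {F G : Pth Ω → ℝ}

theorem egP (h : EP F) : EgP fun p : Pa Unit Ω => F (p ()) := fun ι _ _ hp => h ι _ (hp ())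


theorem const (c : ℝ) : EP fun _ : Pth Ω => c := fun _ _ _ _ => Eg.const c
theorem add (h : EP F) (h' : EP G) : EP fun p => F p + G p :=
  fun ι _ p hp => (h ι p hp).add (h' ι p hp)
theorem sub (h : EP F) (h' : EP G) : EP fun p => F p - G p :=
  fun ι _ p hp => (h ι p hp).sub (h' ι p hp)
theorem mul (h : EP F) (h' : EP G) : EP fun p => F p * G p :=
  fun ι _ p hp => (h ι p hp).mul (h' ι p hp)
theorem const_mul (c : ℝ) (h : EP F) : EP fun p => c * F p := (const c).mul h
theorem neg (h : EP F) : EP fun p => -F p := fun ι _ p hp => (h ι p hp).neg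
theorem abs (h : EP F) : EP fun p => |F p| := fun ι _ p hp => (h ι p hp).abs
theorem pow (h : EP F) (k : ℕ) : EP fun p => F p ^ k := fun ι _ p hp => (h ι p hp).pow k
theorem sum {κ : Type*} (s : Finset κ) {F : κ → Pth Ω → ℝ} (h : ∀ k ∈ s, EP (F k)) :
    EP fun p => ∑ k ∈ s, F k p := fun ι _ p hp => Eg.sum s fun k hk => h k hk ι p hp
theorem state {Φ : (Ω → ℝ) → ℝ} (h : Eg Φ) (j : ℕ) : EP fun p : Pth Ω => Φ (p j) :=
  fun _ _ _ hp => Tr.eg_comp h (hp j)
theorem max (h : EP F) (h' : EP G) : EP fun p => max (F p) (G p) := by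
  have e : ∀ p, Max.max (F p) (G p) = 1 / 2 * (F p + G p + |F p - G p|) := fun p => by
    rcases le_total (F p) (G p) with k | k
    · rw [max_eq_right k, abs_of_nonpos (by linarith)]; ring
    · rw [max_eq_left k, abs_of_nonneg (by linarith)]; ring
  simp only [e]
  exact ((h.add h').add (h.sub h').abs).const_mul _
theorem min (h : EP F) (h' : EP G) : EP fun p => min (F p) (G p) := by
  have e : ∀ p, Min.min (F p) (G p) = -Max.max (-F p) (-G p) := fun p => by
    rw [max_neg_neg, neg_neg]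
  simp only [e]
  exact (h.neg.max h'.neg).neg
/-- continuous functions of at most linear growth -/
theorem comp_lin (h : EP F) {φ : ℝ → ℝ} (hφ : Continuous φ) {a b : ℝ}
    (hb : ∀ t, |φ t| ≤ a + b * |t|) : EP fun p => φ (F p) := fun ι _ p hp => by
  obtain ⟨C, c, h1, h2, h3⟩ := (((h ι p hp).abs.const_mul b).add (Eg.const a)).bd
  exact ⟨hφ.comp (h ι p hp).cont, C, c, h1, h2, fun g =>
    ((hb _).trans (by rw [add_comm]; exact le_abs_self _)).trans (h3 g)⟩
theorem cons (h : EP F) (z : Ω → ℝ) : EP fun p => F (Gf.cons z p) := fun ι _ p hp =>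
  h ι _ fun j y => by
    cases j with
    | zero => exact Tr.lg_const (z y)
    | succ j => exact hp j y
theorem cat (h : EP F) (t : ℕ) (p : Pth Ω) : EP fun q => F (cat t p q) := fun ι _ q hq =>
  h ι _ fun j y => by
    unfold Lp12.cat
    split_ifs
    exacts [Tr.lg_const _, hq _ y]
theorem eg (h : EP F) (L : List (Lv Ω)) (z : Ω → ℝ) :
    Eg fun g : NI L → ℝ => F fun j => st L j z g := h.egP.stT (s := .one) L z

end EP

variable {F G : Pth Ω → ℝ}

theorem EE_tF (hw : Wt w) : ∀ (L : List (Lv Ω)) (h : Ω → ℝ) {F : Pth Ω → ℝ}, EP F →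
    EE w L h F = tF w .one L h fun p _ => F (p ())
  | [], h, F, _ => by
    refine Eq.symm ((Tr.tX_one w [] h _).trans ((Pe.pE_nil hw h _).trans ?_))
    have : ∀ g, stT .one ([] : List (Lv Ω)) h g () = fun _ => h := fun g =>
      funext fun j => Pe.st_nil j h g
    simp only [this, ← Finset.sum_mul, sum_P hw, one_mul, EE]
  | l :: L, h, F, hF => by
    rw [Tp.tF_one_cons, Tp.tF_step_cons hw .one l L h fun _ => hF.egP, EE]
    congr 1
    funext z
    exact EE_tF hw L z (hF.cons h)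

/-- `EE` is the path law -/
theorem EE_eq (hw : Wt w) (L : List (Lv Ω)) (h : Ω → ℝ) (hF : EP F) :
    EE w L h F = pE w L h fun g _ => F fun j => st L j h g :=
  (EE_tF hw L h hF).trans (Tr.tX_one w L h _)

theorem eg_EE (hw : Wt w) (L : List (Lv Ω)) (hF : EP F) : Eg fun z => EE w L z F := by
  simp only [fun z => EE_tF hw L z hF]
  exact Tp.eg_tF hw .one L fun _ => hF.egP

theorem EE_congr : ∀ (L : List (Lv Ω)) (h : Ω → ℝ) {F G : Pth Ω → ℝ},
    (∀ p, p 0 = h → F p = G p) → EE w L h F = EE w L h G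
  | [], _, _, _, e => e _ rfl
  | l :: L, h, F, G, e => by
    have : (fun p => F (Gf.cons h p)) = fun p => G (Gf.cons h p) := funext fun p => e _ rfl
    simp only [EE, this]

theorem EE_const (hw : Wt w) (c : ℝ) : ∀ (L : List (Lv Ω)) (h : Ω → ℝ), EE w L h (fun _ => c) = c
  | [], _ => rfl
  | l :: L, h => by simp only [EE, EE_const hw c L, tE_const (lg_X hw L)]

theorem EE_const_mul (c : ℝ) : ∀ (L : List (Lv Ω)) (h : Ω → ℝ) (F : Pth Ω → ℝ),
    EE w L h (fun p => c * F p) = c * EE w L h F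
  | [], _, _ => rfl
  | l :: L, h, F => by simp only [EE, EE_const_mul c L, tE_const_mul]


theorem EE_add (hw : Wt w) (L : List (Lv Ω)) (h : Ω → ℝ) (hF : EP F) (hG : EP G) :
    EE w L h (fun p => F p + G p) = EE w L h F + EE w L h G := by
  rw [EE_eq hw L h (hF.add hG), EE_eq hw L h hF, EE_eq hw L h hG]
  exact Sy41.pE_add hw L h (hF.eg L h) (hG.eg L h)

theorem EE_sub (hw : Wt w) (L : List (Lv Ω)) (h : Ω → ℝ) (hF : EP F) (hG : EP G) :
    EE w L h (fun p => F p - G p) = EE w L h F - EE w L h G := by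
  have := EE_add hw L h (hF.sub hG) hG
  simp only [sub_add_cancel] at this
  linarith

theorem EE_mono (hw : Wt w) (L : List (Lv Ω)) (h : Ω → ℝ) (hF : EP F) (hG : EP G)
    (e : ∀ p, F p ≤ G p) : EE w L h F ≤ EE w L h G := by
  rw [EE_eq hw L h hF, EE_eq hw L h hG]
  exact Sy41.pE_mono hw L h (hF.eg L h) (hG.eg L h) fun _ => e _

theorem EE_nonneg : ∀ (L : List (Lv Ω)) (h : Ω → ℝ) {F : Pth Ω → ℝ}, (∀ p, 0 ≤ F p) → 0 ≤ EE w L h F
  | [], _, _, e => e _
  | l :: L, h, _, e => tE_nonneg l _ (fun z => EE_nonneg L z fun _ => e _) h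

theorem EE_sum (hw : Wt w) (L : List (Lv Ω)) (h : Ω → ℝ) {κ : Type*} (s : Finset κ)
    {F : κ → Pth Ω → ℝ} (hF : ∀ k ∈ s, EP (F k)) :
    EE w L h (fun p => ∑ k ∈ s, F k p) = ∑ k ∈ s, EE w L h (F k) := by
  classical
  induction s using Finset.induction_on with
  | empty => simpa using EE_const hw 0 L h
  | insert a s ha ih =>
    have h1 := fun k hk => hF k (Finset.mem_insert_of_mem hk)
    simp only [Finset.sum_insert ha]
    rw [EE_add hw L h (hF a (Finset.mem_insert_self _ _)) (EP.sum s h1), ih h1]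

theorem EE_le (hw : Wt w) (L : List (Lv Ω)) (h : Ω → ℝ) (hF : EP F) {c : ℝ} (e : ∀ p, F p ≤ c) :
    EE w L h F ≤ c := (EE_mono hw L h hF (EP.const c) e).trans_eq (EE_const hw c L h)

/-- `a F + b G` -/
theorem EE_le2 (hw : Wt w) (L : List (Lv Ω)) (h : Ω → ℝ) {H : Pth Ω → ℝ} (hH : EP H) (hF : EP F)
    (hG : EP G) {a b : ℝ} (e : ∀ p, H p ≤ a * F p + b * G p) :
    EE w L h H ≤ a * EE w L h F + b * EE w L h G := by
  have := EE_mono hw L h hH ((hF.const_mul a).add (hG.const_mul b)) e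
  rwa [EE_add hw L h (hF.const_mul a) (hG.const_mul b), EE_const_mul, EE_const_mul] at this

/-- a function of one state -/
theorem EE_node (hw : Wt w) (Φ : (Ω → ℝ) → ℝ) : ∀ (j : ℕ) (L : List (Lv Ω)) (h : Ω → ℝ),
    EE w L h (fun p => Φ (p j)) = node w L j Φ h
  | 0, L, h => by
    rw [EE_congr L h (G := fun _ => Φ h) fun p e => by rw [e], EE_const hw, node_zero]
  | _ + 1, [], _ => rfl
  | j + 1, l :: L, h => by
    rw [EE, node_cons]
    congr 1
    funext z
    exact EE_node hw Φ j L z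

/-- conditional expectation at the node `t` -/
def CE (w : Ω → ℝ) (L : List (Lv Ω)) (t : ℕ) (F : Pth Ω → ℝ) (p : Pth Ω) : ℝ :=
  EE w (L.drop t) (p t) fun q => F (cat t p q)

/-- **tower property** (no hypothesis on `F`) -/
theorem EE_tower (hw : Wt w) : ∀ (t : ℕ) (L : List (Lv Ω)) (h : Ω → ℝ) (F : Pth Ω → ℝ),
    EE w L h F = EE w L h (CE w L t F)
  | 0, L, h, F => by
    rw [EE_congr L h (F := CE w L 0 F) (G := fun _ => EE w L h F) fun p e => ?_, EE_const hw]
    rw [CE, List.drop_zero, e]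
    refine EE_congr L h fun q e' => congrArg F (funext fun j => ?_)
    rw [cat_ge (Nat.zero_le j) (e'.trans e.symm), Nat.sub_zero]
  | t + 1, [], h, F => by
    simp only [EE, CE, List.drop_nil]
    congr 1
    funext j
    simp [cat]
  | t + 1, l :: L, h, F => by
    simp only [EE]
    congr 1
    funext z
    rw [EE_tower hw t L z]
    congr 1
    funext p
    simp only [CE, cat_succ, List.drop_succ_cons]
    rfl

theorem ad_CE (L : List (Lv Ω)) (t : ℕ) (F : Pth Ω → ℝ) : Ad t (CE w L t F) := fun p q H => by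
  have : ∀ r, cat t p r = cat t q r := fun r => funext fun j => by
    unfold cat
    split_ifs with k
    exacts [H j k, rfl]
  simp only [CE, H t le_rfl, this]

theorem ep_CE (hw : Wt w) (L : List (Lv Ω)) (t : ℕ) (hF : EP F) : EP (CE w L t F) :=
  fun ι _ p hp => by
    simp only [CE, fun g => EE_tF hw (L.drop t) (p g t) (hF.cat t (p g))]
    refine Tp.eg_tX hw .one (L.drop t) (H := fun g => p g t) (hp t)
      (F := fun g g' _ => F (cat t (p g) (stT .one (L.drop t) (p g t) g' ()))) fun _ =>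
        hF _ _ fun j y => ?_
    have h1 : ∀ j y, Lg fun q : ι ⊕ NT .one (L.drop t) → ℝ => p (fun i => q (.inl i)) j y :=
      fun j y => Tr.lg_comp (hp j y) fun i => Tr.lg_coord (Sum.inl i)
    unfold cat
    split_ifs
    · exact h1 j y
    · exact Tr.lg_stT .one (L.drop t) () _ (h1 t) (fun i => Tr.lg_coord (Sum.inr i)) y

theorem CE_ad (hw : Wt w) (L : List (Lv Ω)) {t : ℕ} (hG : Ad t G) (p : Pth Ω) :
    CE w L t G p = G p := by simp only [CE, hG.cat, EE_const hw]

theorem CE_mul (L : List (Lv Ω)) {t : ℕ} (hG : Ad t G) (F : Pth Ω → ℝ) (p : Pth Ω) :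
    CE w L t (fun q => G q * F q) p = G p * CE w L t F p := by
  simp only [CE, hG.cat, EE_const_mul]

/-- a function of the past (frozen) and of one later state -/
theorem CE_node (hw : Wt w) (L : List (Lv Ω)) {t j : ℕ} (htj : t ≤ j) {α : Type*} {v : Pth Ω → α}
    (hv : Ad t v) (Ψ : α → (Ω → ℝ) → ℝ) (p : Pth Ω) :
    CE w L t (fun q => Ψ (v q) (q j)) p = node w (L.drop t) (j - t) (Ψ (v p)) (p t) := by
  rw [CE, ← EE_node hw]
  exact EE_congr _ _ fun q e => by rw [hv.cat, cat_ge htj e]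


/-- **(TW)** -/
theorem EE_tw (hw : Wt w) (L : List (Lv Ω)) (h : Ω → ℝ) {t j : ℕ} (htj : t ≤ j) {α : Type*}
    {v : Pth Ω → α} (hv : Ad t v) (Ψ : α → (Ω → ℝ) → ℝ) :
    EE w L h (fun p => Ψ (v p) (p j)) =
      EE w L h fun p => node w (L.drop t) (j - t) (Ψ (v p)) (p t) := by
  rw [EE_tower hw t, funext (CE_node hw L htj hv Ψ)]

theorem EE_two (hw : Wt w) (L : List (Lv Ω)) (h : Ω → ℝ) {t j : ℕ} (htj : t ≤ j)
    (Ψ : (Ω → ℝ) → (Ω → ℝ) → ℝ) :
    EE w L h (fun p => Ψ (p t) (p j)) =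
      node w L t (fun z => node w (L.drop t) (j - t) (Ψ z) z) h := by
  rw [EE_tw hw L h htj (Ad.state le_rfl fun z => z) Ψ, ← EE_node hw]

/-- comparison through a conditional expectation -/
theorem EE_le_CE (hw : Wt w) (L : List (Lv Ω)) (h : Ω → ℝ) (t : ℕ) (hF : EP F) (hG : EP G)
    (e : ∀ p, CE w L t F p ≤ G p) : EE w L h F ≤ EE w L h G := by
  rw [EE_tower hw t L h F]
  exact EE_mono hw L h (ep_CE hw L t hF) hG e

/-- the same with an adapted weight `H ≥ 0` and both sides conditioned -/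
theorem EE_mul_le (hw : Wt w) (L : List (Lv Ω)) (h : Ω → ℝ) {t : ℕ} {H : Pth Ω → ℝ} (hH : EP H)
    (aH : Ad t H) (H0 : ∀ p, 0 ≤ H p) (hF : EP F) (hG : EP G)
    (e : ∀ p, CE w L t F p ≤ CE w L t G p) :
    EE w L h (fun p => H p * F p) ≤ EE w L h fun p => H p * G p := by
  rw [EE_tower hw t L h fun p => H p * F p, EE_tower hw t L h fun p => H p * G p,
    funext (CE_mul L aH F), funext (CE_mul L aH G)]
  exact EE_mono hw L h (hH.mul (ep_CE hw L t hF)) (hH.mul (ep_CE hw L t hG)) fun p =>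
    mul_le_mul_of_nonneg_left (e p) (H0 p)

theorem CE_mono (hw : Wt w) (L : List (Lv Ω)) (t : ℕ) (hF : EP F) (hG : EP G) (e : ∀ p, F p ≤ G p)
    (p : Pth Ω) : CE w L t F p ≤ CE w L t G p :=
  EE_mono hw _ _ (hF.cat t p) (hG.cat t p) fun _ => e _

theorem CE_add (hw : Wt w) (L : List (Lv Ω)) (t : ℕ) (hF : EP F) (hG : EP G) (p : Pth Ω) :
    CE w L t (fun q => F q + G q) p = CE w L t F p + CE w L t G p :=
  EE_add hw _ _ (hF.cat t p) (hG.cat t p)

theorem CE_sub (hw : Wt w) (L : List (Lv Ω)) (t : ℕ) (hF : EP F) (hG : EP G) (p : Pth Ω) :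
    CE w L t (fun q => F q - G q) p = CE w L t F p - CE w L t G p :=
  EE_sub hw _ _ (hF.cat t p) (hG.cat t p)

theorem CE_sum (hw : Wt w) (L : List (Lv Ω)) (t : ℕ) {κ : Type*} (s : Finset κ)
    {F : κ → Pth Ω → ℝ} (hF : ∀ k ∈ s, EP (F k)) (p : Pth Ω) :
    CE w L t (fun q => ∑ k ∈ s, F k q) p = ∑ k ∈ s, CE w L t (F k) p :=
  EE_sum hw _ _ s fun k hk => (hF k hk).cat t p

theorem CE_const_mul (L : List (Lv Ω)) (t : ℕ) (c : ℝ) (F : Pth Ω → ℝ) (p : Pth Ω) :
    CE w L t (fun q => c * F q) p = c * CE w L t F p := EE_const_mul c _ _ _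

/-- iterated conditioning -/
theorem CE_CE (hw : Wt w) (L : List (Lv Ω)) {t t' : ℕ} (htt : t ≤ t') (F : Pth Ω → ℝ) (p : Pth Ω) :
    CE w L t (CE w L t' F) p = CE w L t F p := by
  rw [CE, CE, EE_tower hw (t' - t) _ _ fun q => F (cat t p q)]
  refine EE_congr _ _ fun q e => ?_
  simp only [CE, List.drop_drop, Nat.add_sub_cancel' htt, cat_ge htt e]
  congr 1
  funext r
  congr 1
  funext j
  simp only [cat]
  split_ifs <;> first | rfl | omega | (congr 1; omega)

end Crest.Agent.T156.Cas.Lp12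

end
private theorem rz_fd1438569f : type_of% @_root_.Crest.Agent.T156.Cas.Lp12.EE.eq_def := @_root_.Crest.Agent.T156.Cas.Lp12.EE.eq_def -- L72
private theorem rz_c16e1ed5fa : type_of% @_root_.Crest.Agent.T156.Cas.Lp12.EE.eq_1 := @_root_.Crest.Agent.T156.Cas.Lp12.EE.eq_1 -- L72
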