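import Crest.Agent.T156.QDef_57
import Crest.Agent.T156.CaDyad_41

-- ▼ part T156/QIn_57
section

/-!
# Row 156, block Q: the cascade instance of `Q57.Sys` (definitions and leaves; helper57)
-/

set_option autoImplicit false

noncomputable section

namespace Crest.Agent.T156.Cas

open MeasureTheory Real Finset
open Crest.Agent.T157.E Crest.Agent.T157.Casc Crest.Agent.T157.SL

/-- path law, node means, node Hessians and label weights of a cascade -/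
def sysC {Ω : Type} [Fintype Ω] (w : Ω → ℝ) (L : List (Lv Ω)) (h : Ω → ℝ) (l₀ : Lv Ω) :
    Q57.Sys (NI L → ℝ) l₀.ι where
  μ := (gv (NI L)).withDensity fun g => ENNReal.ofReal (∑ x, den w L h g x)
  m j g := Sy41.mv w (L.drop j) l₀ (st L j h g)
  A j g i k := Hb w (L.drop j) (st L j h g) (fun x => l₀.A x i) fun x => l₀.A x k
  dm j := if 1 ≤ j ∧ j ≤ L.length then dm L 0 j else 0

/-- (C1) the exact structure holds, and integrals are `pE` -/
def InstS : Prop := ∀ (Ω : Type) [Fintype Ω] (w : Ω → ℝ), Wt w → ∀ (L : List (Lv Ω)) (h : Ω → ℝ)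
  (l₀ : Lv Ω) (T : Set (Equiv.Perm Ω)), Mono 0 L → (∀ τ ∈ T, Sym w L h τ) →
  (∀ x y, w x ≠ 0 → w y ≠ 0 → ∃ τ ∈ T, τ x = y) →
  (∀ τ ∈ T, ∀ x y, l₀.cov (τ x) (τ y) = l₀.cov x y) → (∀ x, l₀.cov x x ≤ 1) →
  (sysC w L h l₀).Ok ∧
  ∀ F : (NI L → ℝ) → ℝ, ∫ g, F g ∂(sysC w L h l₀).μ = pE w L h fun g _ => F g

/-- Riccati weight of the window `[t, y)` -/
def SW {Ω : Type} (L : List (Lv Ω)) (τ : ℕ → ℝ) (t y : ℕ) : ℝ := ∑ k ∈ Ico t y, ex L k * τ k

/-- (C2)-(C4) the pathwise Riccati bounds off a small set.  Levels `k ∈ [j0, j1)` have tilt `≥ x`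
and weight `≥ v / w3`; nodes up to `j2` have labels `≤ K x`; a node `j > j2` uses its own window
`[t' j, j)`. -/
def GoodS : Prop := ∀ p : ℕ, ∃ C : ℝ, 1 ≤ C ∧ ∀ (Ω : Type) [Fintype Ω] (w : Ω → ℝ), Wt w →
  ∀ (L : List (Lv Ω)) (h : Ω → ℝ) (l₀ : Lv Ω) (τ : ℕ → ℝ) (t' : ℕ → ℕ) (LL j0 j1 j2 : ℕ)
    (x v w3 K lam : ℝ), Mono 0 L → (∀ y, l₀.cov y y ≤ 1) →
    (∀ k (hk : k < L.length), Sy41.Dom L[k] l₀ (τ k)) → 0 < x → 0 < v → 4 * v ≤ w3 → 1 ≤ K →
    1 ≤ lam → j1 ≤ j2 → j2 ≤ L.length →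
    (∀ k, j0 ≤ k → k < j1 → x ≤ ex L k ∧ v ≤ w3 * (ex L k * τ k)) → ex L j2 ≤ K * x →
    (∀ j, j2 < j → j ≤ L.length → j1 ≤ t' j ∧ t' j < j ∧ (0 < dm L 0 j → 0 < SW L τ (t' j) j)) →
    ∑ j ∈ Ioc j2 L.length, dm L 0 j / (ex L (t' j) * SW L τ (t' j) j) ≤ K * w3 / (2 ^ LL * v) →
    (sysC w L h l₀).Good LL v (lam * w3 / x) (lam * K * w3)
      (C * ((LL + 2) * (j1 + 1) ^ 2) / lam ^ p) j0 j1

end Crest.Agent.T156.Cas
end
end

-- ▼ part T156/QGood_74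

/-!
Row 156, block Q, leaf C4 (helper74): `Sys.Good` from ratio moments (Markov and a union bound).
-/

set_option autoImplicit false

noncomputable section

namespace Crest.Agent.T156.Q57

open MeasureTheory Real Finset Filter Topology

namespace Good74

variable {α : Type} [MeasurableSpace α]

/-- Markov for a ratio, at a fixed regularisation -/
theorem markov_eps (μ : Measure α) [IsProbabilityMeasure μ] {X D : α → ℝ} (hX : Bm X)
    (hD : Measurable D) (hX0 : ∀ a, 0 ≤ X a) (hD0 : ∀ a, 0 ≤ D a) {p : ℕ} {c lam ε : ℝ}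
    (hc : 0 < c) (hl : 0 < lam) (hε : 0 < ε) (H : ∫ a, (X a / (D a + ε)) ^ p ∂μ ≤ c ^ p) :
    μ.real {a | lam * c * (D a + ε) < X a} ≤ 1 / lam ^ p := by
  obtain ⟨hXm, C, hC⟩ := hX
  have hm : Measurable fun a => (X a / (D a + ε)) ^ p := (hXm.div (hD.add_const ε)).pow_const p
  have hpos : ∀ a, 0 < D a + ε := fun a => add_pos_of_nonneg_of_pos (hD0 a) hε
  have h0 : ∀ a, 0 ≤ (X a / (D a + ε)) ^ p := fun a => pow_nonneg (div_nonneg (hX0 a) (hpos a).le) p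
  have hi : Integrable (fun a => (X a / (D a + ε)) ^ p) μ := by
    refine Integrable.of_bound hm.aestronglyMeasurable ((C / ε) ^ p) (ae_of_all _ fun a => ?_)
    rw [Real.norm_eq_abs, abs_of_nonneg (h0 a)]
    refine pow_le_pow_left₀ (div_nonneg (hX0 a) (hpos a).le) ?_ p
    have h1 : X a ≤ C := (le_abs_self _).trans (hC a)
    exact div_le_div₀ ((hX0 a).trans h1) h1 hε (le_add_of_nonneg_left (hD0 a))
  have h1 := mul_meas_ge_le_integral_of_nonneg (ae_of_all _ h0) hi ((lam * c) ^ p)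
  have h2 : μ.real {a | lam * c * (D a + ε) < X a} ≤
      μ.real {a | (lam * c) ^ p ≤ (X a / (D a + ε)) ^ p} := by
    refine measureReal_mono (fun a ha => ?_)
    show (lam * c) ^ p ≤ (X a / (D a + ε)) ^ p
    refine pow_le_pow_left₀ (by positivity) ?_ p
    rw [le_div_iff₀ (hpos a)]
    exact le_of_lt ha
  have h3 : (lam * c) ^ p * μ.real {a | lam * c * (D a + ε) < X a} ≤ c ^ p :=
    (mul_le_mul_of_nonneg_left h2 (by positivity)).trans (h1.trans H)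
  rw [le_div_iff₀ (by positivity)]
  rw [mul_pow] at h3
  have h4 : 0 < c ^ p := by positivity
  nlinarith

/-- Markov for a ratio -/
theorem markov (μ : Measure α) [IsProbabilityMeasure μ] {X D : α → ℝ} (hX : Bm X)
    (hD : Measurable D) (hX0 : ∀ a, 0 ≤ X a) (hD0 : ∀ a, 0 ≤ D a) {p : ℕ} {c lam : ℝ}
    (hc : 0 < c) (hl : 0 < lam)
    (H : ∀ ε, 0 < ε → ∫ a, (X a / (D a + ε)) ^ p ∂μ ≤ c ^ p) :
    μ.real {a | lam * c * D a < X a} ≤ 1 / lam ^ p := by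
  set E : ℕ → Set α := fun N => {a | lam * c * (D a + 1 / ((N : ℝ) + 1)) < X a} with hE
  have hmono : Monotone E := by
    intro N M hNM a ha
    have h1 : 1 / ((M : ℝ) + 1) ≤ 1 / ((N : ℝ) + 1) := Nat.one_div_le_one_div hNM
    have h2 : lam * c * (D a + 1 / ((N : ℝ) + 1)) < X a := ha
    show lam * c * (D a + 1 / ((M : ℝ) + 1)) < X a
    exact lt_of_le_of_lt (mul_le_mul_of_nonneg_left (by linarith) (by positivity)) h2
  have hU : {a | lam * c * D a < X a} ⊆ ⋃ N, E N := by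
    intro a ha
    have h1 : 0 < (X a - lam * c * D a) / (lam * c) := div_pos (sub_pos.2 ha) (by positivity)
    obtain ⟨N, hN⟩ := exists_nat_one_div_lt h1
    refine Set.mem_iUnion.2 ⟨N, ?_⟩
    rw [lt_div_iff₀ (by positivity)] at hN
    show lam * c * (D a + 1 / ((N : ℝ) + 1)) < X a
    nlinarith
  have hb : ∀ N, μ (E N) ≤ ENNReal.ofReal (1 / lam ^ p) := fun N => by
    have := markov_eps μ hX hD hX0 hD0 hc hl (by positivity : (0:ℝ) < 1 / ((N : ℝ) + 1))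
      (H _ (by positivity))
    rw [← ofReal_measureReal (measure_ne_top μ _)]
    exact ENNReal.ofReal_le_ofReal this
  have h2 : μ (⋃ N, E N) ≤ ENNReal.ofReal (1 / lam ^ p) := by
    rw [hmono.measure_iUnion]
    exact iSup_le hb
  exact ENNReal.toReal_le_of_le_ofReal (by positivity) ((measure_mono hU).trans h2)

variable {ι : Type} [Fintype ι] {S : Sys α ι}

theorem sq2_nonneg (z : ι → ℝ) : 0 ≤ sq2 z := sum_nonneg fun _ _ => sq_nonneg _

theorem dt_sq_le (z z' : ι → ℝ) : dt z z' ^ 2 ≤ sq2 z * sq2 z' := sum_mul_sq_le_sq_mul_sq _ _ _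

theorem sq2_sub_le (z z' : ι → ℝ) : sq2 (z - z') ≤ 2 * sq2 z + 2 * sq2 z' := by
  unfold sq2
  rw [mul_sum, mul_sum, ← sum_add_distrib]
  exact sum_le_sum fun i _ => by simp only [Pi.sub_apply]; nlinarith [sq_nonneg (z i + z' i)]

theorem meas_pc (h : S.Ok) (L k y : ℕ) (i : ι) : Measurable fun a => S.pc L k y a i := by
  unfold Sys.pc
  split_ifs
  · exact (h.mm _ i).sub (h.mm _ i)
  · exact h.mm _ i

theorem sq2_pc_le (h : S.Ok) (L k y : ℕ) (a : α) : sq2 (S.pc L k y a) ≤ 4 := by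
  unfold Sys.pc
  split_ifs
  · have h1 := h.bd (y - 2 ^ k / 2) a
    have h2 := h.bd (y - 2 ^ k) a
    unfold Sys.rho at h1 h2
    linarith [sq2_sub_le (S.m (y - 2 ^ k / 2) a) (S.m (y - 2 ^ k) a)]
  · have h1 := h.bd (y - 2 ^ L) a
    unfold Sys.rho at h1
    linarith

theorem meas_D (h : S.Ok) (L : ℕ) (v : ℝ) (k y : ℕ) : Measurable (S.D L v k y) :=
  (Finset.measurable_sum _ fun i _ => (meas_pc h L k y i).pow_const 2).div_const _

theorem D_nonneg (S : Sys α ι) (L : ℕ) {v : ℝ} (hv : 0 ≤ v) (k y : ℕ) (a : α) :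
    0 ≤ S.D L v k y a := div_nonneg (sq2_nonneg _) (by positivity)

theorem bm_B (h : S.Ok) (L k y : ℕ) : Bm fun a => S.B y a (S.pc L k y a) := by
  refine ⟨Finset.measurable_sum _ fun i _ => Finset.measurable_sum _ fun j _ =>
    ((meas_pc h L k y i).mul (meas_pc h L k y j)).mul (h.mA y i j), 4, fun a => ?_⟩
  rw [abs_of_nonneg (h.psd _ _ _)]
  exact (h.bdB _ _ _).trans (sq2_pc_le h L k y a)

theorem bm_dt (h : S.Ok) (L k y y' : ℕ) :
    Bm fun a => dt (S.pc L k y a) (S.m y' a - S.m y a) ^ 2 := by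
  refine ⟨(Finset.measurable_sum _ fun i _ =>
    (meas_pc h L k y i).mul ((h.mm y' i).sub (h.mm y i))).pow_const 2, 16, fun a => ?_⟩
  rw [abs_of_nonneg (sq_nonneg _)]
  have h1 := h.bd y' a
  have h2 := h.bd y a
  unfold Sys.rho at h1 h2
  have h3 := sq2_sub_le (S.m y' a) (S.m y a)
  have h4 := sq2_pc_le h L k y a
  refine (dt_sq_le _ _).trans ?_
  nlinarith [sq2_nonneg (S.pc L k y a), sq2_nonneg (S.m y' a - S.m y a)]

end Good74

open Good74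

/-- the ratio moments behind `Sys.Good` -/
structure Sys.Mom {α ι : Type} [MeasurableSpace α] [Fintype ι] (S : Sys α ι) (L : ℕ)
    (v c2 c3 : ℝ) (p j0 j1 : ℕ) : Prop where
  mB : ∀ k ≤ L + 1, ∀ y, j0 + 2 ^ L ≤ y → y ≤ j1 → ∀ ε : ℝ, 0 < ε →
    ∫ a, (S.B y a (S.pc L k y a) / (S.D L v k y a + ε)) ^ p ∂S.μ ≤ c3 ^ p
  mY : ∀ k ≤ L + 1, ∀ y, j0 + 2 ^ L ≤ y → ∀ y', y ≤ y' → y' ≤ j1 → ∀ ε : ℝ, 0 < ε →
    ∫ a, (dt (S.pc L k y a) (S.m y' a - S.m y a) ^ 2 / (S.D L v k y a + ε)) ^ p ∂S.μ ≤ c2 ^ p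

/-- **C4** -/
theorem good_of_mom {α ι : Type} [MeasurableSpace α] [Fintype ι] {S : Sys α ι} (h : S.Ok)
    {L p j0 j1 : ℕ} {v c2 c3 lam η : ℝ} (hv : 0 ≤ v) (hc2 : 0 < c2) (hc3 : 0 < c3) (hl : 0 < lam)
    (H : S.Mom L v c2 c3 p j0 j1) (hη : 2 * ((L : ℝ) + 2) * ((j1 : ℝ) + 1) ^ 2 ≤ η * lam ^ p) :
    S.Good L v (lam * c2) (lam * c3) η j0 j1 := by
  classical
  have := h.prob
  let T : Finset (ℕ × ℕ × ℕ) :=
    (range (L + 2) ×ˢ range (j1 + 1) ×ˢ range (j1 + 1)).filter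
      fun t => j0 + 2 ^ L ≤ t.2.1 ∧ t.2.1 ≤ t.2.2
  let E : ℕ × ℕ × ℕ → Set α := fun t =>
    {a | lam * c3 * S.D L v t.1 t.2.1 a < S.B t.2.1 a (S.pc L t.1 t.2.1 a)} ∪
    {a | lam * c2 * S.D L v t.1 t.2.1 a <
      dt (S.pc L t.1 t.2.1 a) (S.m t.2.2 a - S.m t.2.1 a) ^ 2}
  have hE : ∀ t, MeasurableSet (E t) := fun t =>
    (measurableSet_lt ((meas_D h L v _ _).const_mul _) (bm_B h L _ _).1).union
      (measurableSet_lt ((meas_D h L v _ _).const_mul _) (bm_dt h L _ _ _).1)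
  have hb : ∀ t ∈ T, S.μ.real (E t) ≤ 2 / lam ^ p := by
    intro t ht
    obtain ⟨h1, h2, h3⟩ := mem_filter.1 ht
    simp only [mem_product, mem_range] at h1
    have a1 := markov S.μ (bm_B h L t.1 t.2.1) (meas_D h L v _ _) (fun a => h.psd _ _ _)
      (D_nonneg S L hv _ _) hc3 hl (H.mB t.1 (by omega) t.2.1 h2 (by omega))
    have a2 := markov S.μ (bm_dt h L t.1 t.2.1 t.2.2) (meas_D h L v _ _) (fun a => sq_nonneg _)
      (D_nonneg S L hv _ _) hc2 hl (H.mY t.1 (by omega) t.2.1 h2 t.2.2 h3 (by omega))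
    refine (measureReal_union_le _ _).trans ?_
    have e : 2 / lam ^ p = 1 / lam ^ p + 1 / lam ^ p := by ring
    linarith
  refine ⟨⋃ t ∈ T, E t, Finset.measurableSet_biUnion T fun t _ => hE t, ?_, fun a ha k hk y h1 h2 => ?_⟩
  · refine (measureReal_biUnion_finset_le T E).trans ((sum_le_card_nsmul T _ _ hb).trans ?_)
    have hc : (T.card : ℝ) ≤ ((L : ℝ) + 2) * ((j1 : ℝ) + 1) ^ 2 := by
      have := card_filter_le (range (L + 2) ×ˢ range (j1 + 1) ×ˢ range (j1 + 1))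
        fun t : ℕ × ℕ × ℕ => j0 + 2 ^ L ≤ t.2.1 ∧ t.2.1 ≤ t.2.2
      simp only [card_product, card_range] at this
      have h5 : (T.card : ℝ) ≤ ((L + 2) * ((j1 + 1) * (j1 + 1)) : ℕ) := by exact_mod_cast this
      push_cast at h5
      nlinarith
    rw [nsmul_eq_mul, ← mul_div_assoc, div_le_iff₀ (by positivity)]
    linarith
  · have key : ∀ y', y ≤ y' → y' ≤ j1 → a ∉ E (k, y, y') := fun y' h3 h4 hE' =>
      ha (Set.mem_biUnion (show (k, y, y') ∈ (T : Set _) from mem_coe.2 (mem_filter.2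
        ⟨by simp only [mem_product, mem_range]; omega, h1, h3⟩)) hE')
    refine ⟨not_lt.1 fun hlt => key y le_rfl h2 (Or.inl hlt),
      fun y' h3 h4 => not_lt.1 fun hlt => key y' h3 h4 (Or.inr hlt)⟩

theorem Sys.Good.mono {α ι : Type} [MeasurableSpace α] [Fintype ι] {S : Sys α ι} {L j0 j1 : ℕ}
    {v l2 l3 η l2' l3' η' : ℝ} (h : S.Good L v l2 l3 η j0 j1) (hv : 0 ≤ v) (h2 : l2 ≤ l2')
    (h3 : l3 ≤ l3') (hη : η ≤ η') : S.Good L v l2' l3' η' j0 j1 := by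
  obtain ⟨Bad, hB, hm, H⟩ := h.ex
  refine ⟨Bad, hB, hm.trans hη, fun a ha k hk y h4 h5 => ?_⟩
  obtain ⟨a1, a2⟩ := H a ha k hk y h4 h5
  exact ⟨a1.trans (mul_le_mul_of_nonneg_right h3 (D_nonneg S L hv _ _ _)), fun y' b1 b2 =>
    (a2 y' b1 b2).trans (mul_le_mul_of_nonneg_right h2 (D_nonneg S L hv _ _ _))⟩

end Crest.Agent.T156.Q57
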