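import Mathlib

-- ▼ part T156/BdA_27
section

/-!
# Discrete Boué–Dupuis (helper27), part A: one-dimensional tools
-/

set_option autoImplicit false
open MeasureTheory ProbabilityTheory Real
open scoped NNReal

namespace Crest.Agent.T156.Bd

/-- standard Gaussian on the line -/
noncomputable abbrev gam : Measure ℝ := gaussianReal 0 1

/-- tilted heat step of amplitude `s` -/
noncomputable def T (x s : ℝ) (f : ℝ → ℝ) (a : ℝ) : ℝ :=
  (1 / x) * log (∫ g, exp (x * f (a + s * g)) ∂gam)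

/-- Lipschitz in elementary form -/
def Lip (L : ℝ) (f : ℝ → ℝ) : Prop := ∀ u w, |f u - f w| ≤ L * |u - w|

lemma Lip.nonneg {L : ℝ} {f : ℝ → ℝ} (h : Lip L f) : 0 ≤ L := by
  have := h 1 0
  simp at this
  exact le_trans (abs_nonneg _) this

lemma Lip.continuous {L : ℝ} {f : ℝ → ℝ} (h : Lip L f) : Continuous f := by
  have : LipschitzWith (Real.toNNReal L) f := by
    refine LipschitzWith.of_dist_le_mul fun u w => ?_
    rw [Real.dist_eq, Real.dist_eq, Real.coe_toNNReal _ h.nonneg]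
    exact h u w
  exact this.continuous

lemma int_exp_abs (m : ℝ) (v : ℝ≥0) (c : ℝ) :
    Integrable (fun g => exp (c * |g|)) (gaussianReal m v) := by
  refine ((integrable_exp_mul_gaussianReal (μ := m) (v := v) c).add
    (integrable_exp_mul_gaussianReal (μ := m) (v := v) (-c))).mono' (by fun_prop) ?_
  refine Filter.Eventually.of_forall fun g => ?_
  simp only [Real.norm_eq_abs, abs_exp, Pi.add_apply]
  rcases abs_cases g with h | h
  · rw [h.1]; linarith [exp_pos (-c * g)]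
  · rw [h.1]
    have : c * -g = -c * g := by ring
    rw [this]; linarith [exp_pos (c * g)]

/-- continuous functions with a bound `A exp (c|g|)` are integrable -/
lemma int_of_le {m : ℝ} {v : ℝ≥0} {φ : ℝ → ℝ} (hφ : Measurable φ) (A c : ℝ)
    (h : ∀ g, |φ g| ≤ A * exp (c * |g|)) : Integrable φ (gaussianReal m v) :=
  ((int_exp_abs m v c).const_mul A).mono' hφ.aestronglyMeasurable
    (Filter.Eventually.of_forall fun g => by simpa using h g)

lemma int_exp_of_le {m : ℝ} {v : ℝ≥0} {Y : ℝ → ℝ} (hY : Measurable Y) (A c : ℝ)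
    (h : ∀ g, |Y g| ≤ A + c * |g|) : Integrable (fun g => exp (Y g)) (gaussianReal m v) := by
  refine int_of_le (by fun_prop) (exp A) c fun g => ?_
  rw [abs_exp, ← exp_add]
  exact exp_le_exp.2 (le_trans (le_abs_self _) (h g))

lemma int_of_lin {m : ℝ} {v : ℝ≥0} {Y : ℝ → ℝ} (hY : Measurable Y) (A c : ℝ)
    (h : ∀ g, |Y g| ≤ A + c * |g|) : Integrable Y (gaussianReal m v) := by
  refine int_of_le hY (exp A) c fun g => ?_
  rw [← exp_add]
  have := add_one_le_exp (A + c * |g|)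
  linarith [h g]

lemma Lip.lin {L : ℝ} {f : ℝ → ℝ} (h : Lip L f) (x a s g : ℝ) :
    |x * f (a + s * g)| ≤ |x| * |f a| + (|x| * L * |s|) * |g| := by
  have h1 := h (a + s * g) a
  have h2 : |a + s * g - a| = |s| * |g| := by rw [← abs_mul]; congr 1; ring
  rw [h2] at h1
  have h3 : |f (a + s * g)| ≤ |f a| + L * (|s| * |g|) := by
    have := abs_sub_abs_le_abs_sub (f (a + s * g)) (f a)
    linarith
  rw [abs_mul]
  nlinarith [abs_nonneg x]

lemma Lip.intExp {L : ℝ} {f : ℝ → ℝ} (h : Lip L f) (x a s : ℝ) (m : ℝ) (v : ℝ≥0) :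
    Integrable (fun g => exp (x * f (a + s * g))) (gaussianReal m v) := by
  have := h.continuous
  exact int_exp_of_le (by fun_prop) _ _ (h.lin x a s)

lemma Lip.int {L : ℝ} {f : ℝ → ℝ} (h : Lip L f) (a s : ℝ) :
    Integrable (fun g => f (a + s * g)) gam := by
  have := h.continuous
  refine int_of_lin (by fun_prop) (|1| * |f a|) (|1| * L * |s|) fun g => ?_
  simpa using h.lin 1 a s g

lemma int_exp_pos {Ω : Type*} [MeasurableSpace Ω] {μ : Measure Ω} [IsProbabilityMeasure μ]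
    {Y : Ω → ℝ} (h : Integrable (fun g => exp (Y g)) μ) : 0 < ∫ g, exp (Y g) ∂μ :=
  integral_exp_pos h

/-- Jensen -/
lemma jensen {Ω : Type*} [MeasurableSpace Ω] {μ : Measure Ω} [IsProbabilityMeasure μ]
    {Y : Ω → ℝ} (hY : Integrable Y μ) (h : Integrable (fun g => exp (Y g)) μ) :
    ∫ g, Y g ∂μ ≤ log (∫ g, exp (Y g) ∂μ) := by
  rw [le_log_iff_exp_le (int_exp_pos h)]
  set m := ∫ g, Y g ∂μ
  have h1 : ∫ g, exp m * (1 + (Y g - m)) ∂μ ≤ ∫ g, exp (Y g) ∂μ := by
    refine integral_mono (((integrable_const _).add (hY.sub (integrable_const _))).const_mul _) h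
      fun g => ?_
    have := add_one_le_exp (Y g - m)
    have h2 : exp (Y g) = exp m * exp (Y g - m) := by rw [← exp_add]; congr 1; ring
    simp only [h2]
    exact mul_le_mul_of_nonneg_left (by linarith) (exp_pos m).le
  have i1 : Integrable (fun g => Y g - m) μ := hY.sub (integrable_const _)
  rw [integral_const_mul, integral_add (integrable_const _) i1,
    integral_sub hY (integrable_const _)] at h1
  simpa [m] using h1

lemma exp_le_quad (y : ℝ) : exp y ≤ 1 + y + y ^ 2 * exp |y| := by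
  have h1 : exp y * (1 - y) ≤ 1 := by
    have := add_one_le_exp (-y)
    have h2 : exp y * exp (-y) = 1 := by rw [← exp_add]; simp
    nlinarith [exp_pos y]
  -- exp y - 1 ≤ y exp y, and y (exp y - 1) ≤ y^2 exp |y|
  have h2 : y * (exp y - 1) ≤ y ^ 2 * exp |y| := by
    rcases abs_cases y with h | h
    · rw [h.1]; nlinarith [h.2]
    · have h3 := add_one_le_exp y
      have h4 : 1 ≤ exp |y| := one_le_exp (abs_nonneg y)
      nlinarith [h.2, sq_nonneg y]
  nlinarith

/-- reverse Jensen with a remainder -/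
lemma jensen_up {Ω : Type*} [MeasurableSpace Ω] {μ : Measure Ω} [IsProbabilityMeasure μ]
    {Y R : Ω → ℝ} (hY : Integrable Y μ) (h : Integrable (fun g => exp (Y g)) μ)
    (hR : Integrable R μ) (hb : ∀ g, Y g ^ 2 * exp |Y g| ≤ R g) :
    log (∫ g, exp (Y g) ∂μ) ≤ ∫ g, Y g ∂μ + ∫ g, R g ∂μ := by
  have h1 := log_le_sub_one_of_pos (int_exp_pos h)
  have h2 : ∫ g, exp (Y g) ∂μ ≤ ∫ g, (1 + Y g + R g) ∂μ :=
    integral_mono h (((integrable_const _).add hY).add hR) fun g => by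
      have := exp_le_quad (Y g)
      have := hb g
      simp only
      linarith
  have i1 : Integrable (fun g => 1 + Y g) μ := (integrable_const _).add hY
  rw [integral_add i1 hR, integral_add (integrable_const _) hY] at h2
  simp at h2
  linarith

/-- bounded case -/
lemma jensen_bdd {Ω : Type*} [MeasurableSpace Ω] {μ : Measure Ω} [IsProbabilityMeasure μ]
    {Y : Ω → ℝ} (hY : AEStronglyMeasurable Y μ) {B : ℝ} (hb : ∀ g, |Y g| ≤ B) :
    |log (∫ g, exp (Y g) ∂μ) - ∫ g, Y g ∂μ| ≤ 3 * B ^ 2 ∧ |log (∫ g, exp (Y g) ∂μ)| ≤ B := by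
  have hi : Integrable Y μ :=
    (integrable_const B).mono' hY (Filter.Eventually.of_forall fun g => by simpa using hb g)
  have he : Integrable (fun g => exp (Y g)) μ :=
    (integrable_const (exp B)).mono' (continuous_exp.comp_aestronglyMeasurable hY)
      (Filter.Eventually.of_forall fun g => by
        simpa using le_trans (le_abs_self _) (hb g))
  have h1 := jensen hi he
  have h2 : log (∫ g, exp (Y g) ∂μ) ≤ B := by
    rw [log_le_iff_le_exp (int_exp_pos he)]
    have : ∫ g, exp (Y g) ∂μ ≤ ∫ _g, exp B ∂μ :=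
      integral_mono he (integrable_const _) fun g => exp_le_exp.2 (le_trans (le_abs_self _) (hb g))
    simpa using this
  have h3 : -B ≤ ∫ g, Y g ∂μ := by
    have : ∫ _g, -B ∂μ ≤ ∫ g, Y g ∂μ :=
      integral_mono (integrable_const _) hi fun g => (abs_le.1 (hb g)).1
    simpa using this
  refine ⟨?_, abs_le.2 ⟨by linarith, h2⟩⟩
  rw [abs_of_nonneg (by linarith)]
  rcases le_total B 1 with hB | hB
  · have h4 := jensen_up (R := fun _ => 3 * B ^ 2) hi he (integrable_const _) fun g => by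
      have a1 : exp |Y g| ≤ 3 := by
        have := exp_le_exp.2 (le_trans (hb g) hB)
        have := exp_one_lt_d9
        linarith
      have a2 : Y g ^ 2 ≤ B ^ 2 := by
        rw [← sq_abs]; exact pow_le_pow_left₀ (abs_nonneg _) (hb g) 2
      nlinarith [sq_nonneg (Y g), exp_pos |Y g|]
    simp at h4
    linarith
  · nlinarith

/-- Cameron–Martin on the line -/
lemma cm (φ : ℝ → ℝ) (c : ℝ) :
    ∫ g, φ g ∂gam = ∫ g, φ (g + c) * exp (-(c * g) - c ^ 2 / 2) ∂gam := by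
  rw [integral_gaussianReal_eq_integral_smul one_ne_zero,
    integral_gaussianReal_eq_integral_smul one_ne_zero,
    ← integral_add_right_eq_self (fun x => gaussianPDFReal 0 1 x • φ x) c]
  congr 1
  funext g
  simp only [smul_eq_mul, gaussianPDFReal, NNReal.coe_one, mul_one, sub_zero]
  have : exp (-(g + c) ^ 2 / 2) = exp (-g ^ 2 / 2) * exp (-(c * g) - c ^ 2 / 2) := by
    rw [← exp_add]; congr 1; ring
  rw [this]; ring

lemma exp_T {L : ℝ} {f : ℝ → ℝ} (h : Lip L f) {x : ℝ} (hx : x ≠ 0) (s a : ℝ) :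
    exp (x * T x s f a) = ∫ g, exp (x * f (a + s * g)) ∂gam := by
  unfold T
  rw [← mul_assoc, mul_one_div_cancel hx, one_mul, exp_log (int_exp_pos (h.intExp x a s _ _))]

lemma mul_T {x : ℝ} (hx : x ≠ 0) (f : ℝ → ℝ) (s a : ℝ) :
    x * T x s f a = log (∫ g, exp (x * f (a + s * g)) ∂gam) := by
  unfold T
  rw [← mul_assoc, mul_one_div_cancel hx, one_mul]

lemma T_zero {x : ℝ} (hx : x ≠ 0) (f : ℝ → ℝ) : T x 0 f = f := by
  funext a
  simp [T, hx]

lemma map_mul (s : ℝ) : gam.map (fun g => s * g) = gaussianReal 0 (NNReal.mk (s ^ 2) (sq_nonneg s)) := by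
  have := gaussianReal_map_const_mul (μ := 0) (v := 1) s
  simpa using this

/-- semigroup property -/
lemma T_T {L : ℝ} {f : ℝ → ℝ} (h : Lip L f) {x : ℝ} (hx : x ≠ 0) {s s' r : ℝ}
    (hr : r ^ 2 = s ^ 2 + s' ^ 2) : T x s (T x s' f) = T x r f := by
  funext a
  have hc := h.continuous
  have e1 : ∀ t : ℝ, ∀ b : ℝ, ∫ g, exp (x * f (b + t * g)) ∂gam
      = ∫ z, exp (x * f (b + z)) ∂(gaussianReal 0 (NNReal.mk (t ^ 2) (sq_nonneg t))) := by
    intro t b
    rw [← map_mul, integral_map (by fun_prop) (by fun_prop)]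
  conv_lhs => unfold T
  conv_rhs => unfold T
  congr 2
  have e2 : ∀ g, exp (x * ((1 / x) * log (∫ g', exp (x * f (a + s * g + s' * g')) ∂gam)))
      = ∫ z, exp (x * f (a + s * g + z)) ∂(gaussianReal 0 (NNReal.mk (s' ^ 2) (sq_nonneg s'))) := by
    intro g
    rw [← e1]; exact exp_T h hx s' _
  simp only [e2]
  have e3 : gaussianReal 0 (NNReal.mk (r ^ 2) (sq_nonneg r))
      = (gaussianReal 0 (NNReal.mk (s ^ 2) (sq_nonneg s))) ∗ (gaussianReal 0 (NNReal.mk (s' ^ 2) (sq_nonneg s'))) := by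
    rw [gaussianReal_conv_gaussianReal]
    congr 1
    · simp
    · ext; simp [hr]
  have hi : Integrable (fun z => exp (x * f (a + z))) (gaussianReal 0 (NNReal.mk (r ^ 2) (sq_nonneg r))) := by
    simpa using h.intExp x a 1 0 (NNReal.mk (r ^ 2) (sq_nonneg r))
  rw [e1 r a]
  rw [e3] at hi ⊢
  rw [integral_conv hi, ← map_mul s, integral_map (by fun_prop)]
  · simp only [add_assoc]
  · apply StronglyMeasurable.aestronglyMeasurable
    apply StronglyMeasurable.integral_prod_right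
    apply Continuous.stronglyMeasurable
    unfold Function.uncurry
    fun_prop

end Crest.Agent.T156.Bd
end

-- ▼ part T156/BdB_27
section

/-!
# Discrete Boué–Dupuis (helper27), part B: one step estimates
-/

set_option autoImplicit false
open MeasureTheory ProbabilityTheory Real
open scoped NNReal

namespace Crest.Agent.T156.Bd

lemma T_mono {L L' : ℝ} {f k : ℝ → ℝ} (hf : Lip L f) (hk : Lip L' k) {x : ℝ} (hx : x ≠ 0)
    {c : ℝ} (h : ∀ u, f u ≤ k u + c) (s a : ℝ) : T x s f a ≤ T x s k a + c := by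
  have e : ∫ g, exp (x * k (a + s * g)) * exp (x * c) ∂gam = exp (x * (T x s k a + c)) := by
    rw [integral_mul_const, ← exp_T hk hx, ← exp_add]; congr 1; ring
  rcases lt_or_gt_of_ne hx with hx' | hx'
  · have : exp (x * (T x s k a + c)) ≤ exp (x * T x s f a) := by
      rw [← e, exp_T hf hx]
      refine integral_mono ((hk.intExp x a s _ _).mul_const _) (hf.intExp x a s _ _) fun g => ?_
      simp only [← exp_add]
      exact exp_le_exp.2 (by nlinarith [h (a + s * g)])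
    have := exp_le_exp.1 this
    nlinarith
  · have : exp (x * T x s f a) ≤ exp (x * (T x s k a + c)) := by
      rw [← e, exp_T hf hx]
      refine integral_mono (hf.intExp x a s _ _) ((hk.intExp x a s _ _).mul_const _) fun g => ?_
      simp only [← exp_add]
      exact exp_le_exp.2 (by nlinarith [h (a + s * g)])
    have := exp_le_exp.1 this
    nlinarith

/-- Lipschitz with a measurable first order expansion -/
def Reg (L Λ : ℝ) (f : ℝ → ℝ) : Prop :=
  Lip L f ∧ ∃ p : ℝ → ℝ, Measurable p ∧ (∀ b, |p b| ≤ L) ∧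
    ∀ b z, |f (b + z) - f b - p b * z| ≤ Λ * z ^ 2

/-- pointwise version -/
def PReg (L Λ : ℝ) (u : ℝ → ℝ) : Prop :=
  Lip L u ∧ ∀ a, ∃ q, |q| ≤ L ∧ ∀ z, |u (a + z) - u a - q * z| ≤ Λ * z ^ 2

lemma T_diff {L : ℝ} {f : ℝ → ℝ} (hf : Lip L f) {x : ℝ} (hx : x ≠ 0) (s a z : ℝ) :
    x * (T x s f (a + z) - T x s f a) =
      log (∫ g, exp (x * (f (a + s * g + z) - f (a + s * g)))
        ∂(gam.tilted fun g => x * f (a + s * g))) := by
  rw [integral_exp_tilted, log_div, mul_sub, mul_T hx, mul_T hx]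
  · congr 3
    funext g
    simp only [Pi.add_apply]
    congr 1
    have : a + z + s * g = a + s * g + z := by ring
    rw [this]; ring
  · apply ne_of_gt
    have := int_exp_pos (hf.intExp x (a + z) s 0 1)
    refine lt_of_lt_of_eq this ?_
    congr 1
    funext g
    simp only [Pi.add_apply]
    congr 1
    have : a + z + s * g = a + s * g + z := by ring
    rw [this]; ring
  · exact ne_of_gt (int_exp_pos (hf.intExp x a s 0 1))

lemma T_lip {L : ℝ} {f : ℝ → ℝ} (hf : Lip L f) {x : ℝ} (hx : x ≠ 0) (s : ℝ) :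
    Lip L (T x s f) := by
  intro u w
  have hc := hf.continuous
  have : IsProbabilityMeasure (gam.tilted fun g => x * f (w + s * g)) :=
    isProbabilityMeasure_tilted (hf.intExp x w s 0 1)
  have h1 := T_diff hf hx s w (u - w)
  have h2 := (jensen_bdd (μ := gam.tilted fun g => x * f (w + s * g))
    (Y := fun g => x * (f (w + s * g + (u - w)) - f (w + s * g))) (by fun_prop)
    (B := |x| * (L * |u - w|)) fun g => by
      rw [abs_mul]
      refine mul_le_mul_of_nonneg_left ?_ (abs_nonneg x)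
      simpa using hf (w + s * g + (u - w)) (w + s * g)).2
  rw [← h1, abs_mul] at h2
  have := le_of_mul_le_mul_left h2 (abs_pos.2 hx)
  simpa using this

lemma T_reg {L Λ : ℝ} {f : ℝ → ℝ} (hf : Reg L Λ f) {x : ℝ} (hx : x ≠ 0) (s : ℝ) :
    PReg L (Λ + 3 * |x| * L ^ 2) (T x s f) := by
  obtain ⟨hL, p, hpm, hpb, hp⟩ := hf
  refine ⟨T_lip hL hx s, fun a => ?_⟩
  have hc := hL.continuous
  set μ := gam.tilted fun g => x * f (a + s * g) with hμ
  have : IsProbabilityMeasure μ := isProbabilityMeasure_tilted (hL.intExp x a s 0 1)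
  have ip : Integrable (fun g => p (a + s * g)) μ :=
    (integrable_const L).mono' (by fun_prop : Measurable fun g => p (a + s * g)).aestronglyMeasurable
      (Filter.Eventually.of_forall fun g => by simpa using hpb _)
  refine ⟨∫ g, p (a + s * g) ∂μ, ?_, fun z => ?_⟩
  · have := norm_integral_le_of_norm_le_const (μ := μ) (f := fun g => p (a + s * g)) (C := L)
      (Filter.Eventually.of_forall fun g => by simpa using hpb _)
    simpa using this
  · have hb : ∀ g, |f (a + s * g + z) - f (a + s * g)| ≤ L * |z| := fun g => by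
      simpa using hL (a + s * g + z) (a + s * g)
    have h1 := T_diff hL hx s a z
    have h2 := (jensen_bdd (μ := μ)
      (Y := fun g => x * (f (a + s * g + z) - f (a + s * g))) (by fun_prop)
      (B := |x| * (L * |z|)) fun g => by
        rw [abs_mul]
        exact mul_le_mul_of_nonneg_left (hb g) (abs_nonneg x)).1
    rw [← h1, integral_const_mul, ← mul_sub, abs_mul] at h2
    have h3 : |T x s f (a + z) - T x s f a - ∫ g, (f (a + s * g + z) - f (a + s * g)) ∂μ|
        ≤ 3 * |x| * L ^ 2 * z ^ 2 := by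
      apply le_of_mul_le_mul_left _ (abs_pos.2 hx)
      refine h2.trans (le_of_eq ?_)
      rw [mul_pow, mul_pow, sq_abs z]; ring
    have id : Integrable (fun g => f (a + s * g + z) - f (a + s * g)) μ :=
      (integrable_const (L * |z|)).mono' (by fun_prop)
        (Filter.Eventually.of_forall fun g => by simpa using hb g)
    have h4 : |∫ g, (f (a + s * g + z) - f (a + s * g)) ∂μ - (∫ g, p (a + s * g) ∂μ) * z|
        ≤ Λ * z ^ 2 := by
      rw [← integral_mul_const, ← integral_sub id (ip.mul_const z)]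
      have := norm_integral_le_of_norm_le_const (μ := μ)
        (f := fun g => f (a + s * g + z) - f (a + s * g) - p (a + s * g) * z) (C := Λ * z ^ 2)
        (Filter.Eventually.of_forall fun g => by simpa using hp _ _)
      simpa using this
    have := abs_add_le (T x s f (a + z) - T x s f a - ∫ g, (f (a + s * g + z) - f (a + s * g)) ∂μ)
      (∫ g, (f (a + s * g + z) - f (a + s * g)) ∂μ - (∫ g, p (a + s * g) ∂μ) * z)
    have e : T x s f (a + z) - T x s f a - (∫ g, p (a + s * g) ∂μ) * z =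
      (T x s f (a + z) - T x s f a - ∫ g, (f (a + s * g + z) - f (a + s * g)) ∂μ) +
      (∫ g, (f (a + s * g + z) - f (a + s * g)) ∂μ - (∫ g, p (a + s * g) ∂μ) * z) := by ring
    rw [e]; nlinarith

lemma mul_T_cm {x : ℝ} (hx : x ≠ 0) (f : ℝ → ℝ) (s a c : ℝ) :
    x * T x s f a =
      log (∫ g, exp (x * f (a + s * c + s * g) - c * g - c ^ 2 / 2) ∂gam) := by
  rw [mul_T hx, cm _ c]
  congr 2
  funext g
  rw [← exp_add]
  have : a + s * (g + c) = a + s * c + s * g := by ring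
  rw [this]; congr 1; ring

lemma int_Y {L : ℝ} {f : ℝ → ℝ} (hf : Lip L f) (x s a c : ℝ) :
    Integrable (fun g => x * f (a + s * c + s * g) - c * g - c ^ 2 / 2) gam ∧
    Integrable (fun g => exp (x * f (a + s * c + s * g) - c * g - c ^ 2 / 2)) gam ∧
    ∫ g, (x * f (a + s * c + s * g) - c * g - c ^ 2 / 2) ∂gam
      = x * ∫ g, f (a + s * c + s * g) ∂gam - c ^ 2 / 2 := by
  have hc := hf.continuous
  have hb : ∀ g, |x * f (a + s * c + s * g) - c * g - c ^ 2 / 2| ≤
      (|x| * |f (a + s * c)| + c ^ 2 / 2) + (|x| * L * |s| + |c|) * |g| := by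
    intro g
    have h1 := hf.lin x (a + s * c) s g
    have h2 : |c * g| = |c| * |g| := abs_mul _ _
    have h3 := abs_le.1 h1
    have h4 := abs_le.1 h2.le
    rw [abs_le]; constructor <;> nlinarith [sq_nonneg c]
  have i1 : Integrable (fun g => x * f (a + s * c + s * g)) gam := (hf.int _ s).const_mul x
  have i2 : Integrable (fun g : ℝ => c * g) gam :=
    int_of_lin (by fun_prop) 0 |c| fun g => by simp [abs_mul]
  have i3 : Integrable (fun g => x * f (a + s * c + s * g) - c * g) gam := i1.sub i2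
  refine ⟨int_of_lin (by fun_prop) _ _ hb, int_exp_of_le (by fun_prop) _ _ hb, ?_⟩
  rw [integral_sub i3 (integrable_const _), integral_sub i1 i2, integral_const_mul,
    integral_const_mul, integral_id_gaussianReal]
  simp

/-- exact half of the step -/
lemma step_lo {L : ℝ} {f : ℝ → ℝ} (hf : Lip L f) {x : ℝ} (hx : x ≠ 0) (s a c : ℝ) :
    x * ∫ g, f (a + s * c + s * g) ∂gam - c ^ 2 / 2 ≤ x * T x s f a := by
  obtain ⟨i1, i2, e⟩ := int_Y hf x s a c
  rw [mul_T_cm hx f s a c, ← e]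
  exact jensen i1 i2

/-- approximate half of the step -/
lemma step_up (x L Λ : ℝ) (hx : x ≠ 0) : ∃ K : ℝ, 0 ≤ K ∧ ∀ (f : ℝ → ℝ) (a q s : ℝ), Lip L f →
    |q| ≤ L → (∀ z, |f (a + z) - f a - q * z| ≤ Λ * z ^ 2) → 0 ≤ s → s ≤ 1 →
    x * T x s f a ≤ x * ∫ g, f (a + s * (x * s * q) + s * g) ∂gam - (x * s * q) ^ 2 / 2
      + K * s ^ 4 := by
  set M := |x| * L
  set R : ℝ → ℝ := fun g => x ^ 2 * Λ ^ 2 * 24 * exp ((1 + 2 * M) * M) * exp ((1 + 2 * M) * |g|)
  have iR : Integrable R gam := (int_exp_abs 0 1 _).const_mul _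
  refine ⟨∫ g, R g ∂gam, integral_nonneg fun g => by positivity, ?_⟩
  intro f a q s hf hq hz hs0 hs1
  have hL := hf.nonneg
  have hM : 0 ≤ M := by positivity
  set c := x * s * q with hcdef
  have hc : |c| ≤ M := by
    rw [hcdef, abs_mul, abs_mul, abs_of_nonneg hs0]
    have : s * |q| ≤ L := by nlinarith [abs_nonneg q]
    rw [mul_assoc]
    exact mul_le_mul_of_nonneg_left this (abs_nonneg x)
  obtain ⟨i1, i2, e⟩ := int_Y hf x s a c
  set k := x * f a + c ^ 2 / 2
  have eY : ∀ g, x * f (a + s * c + s * g) - c * g - c ^ 2 / 2 - k =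
      x * (f (a + s * (g + c)) - f a - q * (s * (g + c))) := by
    intro g
    have : a + s * c + s * g = a + s * (g + c) := by ring
    rw [this]; simp only [k, hcdef]; ring
  have i1' : Integrable (fun g => x * f (a + s * c + s * g) - c * g - c ^ 2 / 2 - k) gam :=
    i1.sub (integrable_const k)
  have i2' : Integrable (fun g => exp (x * f (a + s * c + s * g) - c * g - c ^ 2 / 2 - k)) gam := by
    simp only [sub_eq_add_neg _ k, exp_add]
    exact i2.mul_const _
  have h := jensen_up (R := fun g => R g * s ^ 4) i1' i2' (iR.mul_const _) fun g => by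
    rw [eY g]
    set z := s * (g + c)
    set X := f (a + z) - f a - q * z
    set t := |g| + M
    have ht : 0 ≤ t := by positivity
    have hgc : |g + c| ≤ t := (abs_add_le _ _).trans (by simp only [t]; linarith)
    have hz1 : |z| ≤ s * t := by
      simp only [z]; rw [abs_mul, abs_of_nonneg hs0]
      exact mul_le_mul_of_nonneg_left hgc hs0
    have hX1 : |X| ≤ |Λ| * (s * t) ^ 2 := by
      refine (hz z).trans ?_
      have : z ^ 2 ≤ (s * t) ^ 2 := by
        rw [← sq_abs]; exact pow_le_pow_left₀ (abs_nonneg _) hz1 2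
      calc Λ * z ^ 2 ≤ |Λ| * z ^ 2 := mul_le_mul_of_nonneg_right (le_abs_self _) (sq_nonneg _)
        _ ≤ _ := mul_le_mul_of_nonneg_left this (abs_nonneg _)
    have hX2 : |X| ≤ 2 * L * t := by
      have a1 : |f (a + z) - f a| ≤ L * |z| := by simpa using hf (a + z) a
      have a2 : |q * z| ≤ L * |z| := by
        rw [abs_mul]; exact mul_le_mul_of_nonneg_right hq (abs_nonneg _)
      have a3 : |X| ≤ |f (a + z) - f a| + |q * z| := abs_sub _ _
      have a4 : |z| ≤ t := hz1.trans (by nlinarith)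
      nlinarith
    have b1 : (x * X) ^ 2 ≤ x ^ 2 * Λ ^ 2 * s ^ 4 * t ^ 4 := by
      have : X ^ 2 ≤ (|Λ| * (s * t) ^ 2) ^ 2 := by
        rw [← sq_abs]; exact pow_le_pow_left₀ (abs_nonneg _) hX1 2
      rw [mul_pow, sq_abs] at this
      calc (x * X) ^ 2 = x ^ 2 * X ^ 2 := by ring
        _ ≤ x ^ 2 * (Λ ^ 2 * ((s * t) ^ 2) ^ 2) := mul_le_mul_of_nonneg_left this (sq_nonneg _)
        _ = _ := by ring
    have b2 : exp |x * X| ≤ exp (2 * M * t) := by
      rw [exp_le_exp, abs_mul]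
      calc |x| * |X| ≤ |x| * (2 * L * t) := mul_le_mul_of_nonneg_left hX2 (abs_nonneg _)
        _ = _ := by simp only [M]; ring
    have b3 : t ^ 4 ≤ 24 * exp t := by
      have := Real.pow_div_factorial_le_exp t ht 4
      have e4 : ((Nat.factorial 4 : ℕ) : ℝ) = 24 := by norm_num [Nat.factorial]
      rw [e4, div_le_iff₀ (by norm_num)] at this
      linarith
    calc (x * X) ^ 2 * exp |x * X| ≤ (x ^ 2 * Λ ^ 2 * s ^ 4 * (24 * exp t)) * exp (2 * M * t) := by
          refine mul_le_mul (b1.trans ?_) b2 (exp_pos _).le (by positivity)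
          exact mul_le_mul_of_nonneg_left b3 (by positivity)
      _ = R g * s ^ 4 := by
          simp only [R]
          have : exp t * exp (2 * M * t) = exp ((1 + 2 * M) * M) * exp ((1 + 2 * M) * |g|) := by
            rw [← exp_add, ← exp_add]; congr 1; simp only [t]; ring
          linear_combination (x ^ 2 * Λ ^ 2 * s ^ 4 * 24) * this
  rw [integral_sub i1 (integrable_const k), e, integral_mul_const] at h
  have e2 : log (∫ g, exp (x * f (a + s * c + s * g) - c * g - c ^ 2 / 2 - k) ∂gam)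
      = x * T x s f a - k := by
    rw [mul_T_cm hx f s a c]
    simp only [sub_eq_add_neg _ k, exp_add]
    rw [integral_mul_const, log_mul (ne_of_gt (int_exp_pos i2)) (exp_pos _).ne', log_exp]
  rw [e2] at h
  simp at h
  linarith

end Crest.Agent.T156.Bd
end

-- ▼ part T156/BdC_27
section

/-!
# Discrete Boué–Dupuis (helper27), part C: the three function inequality on the line
-/

set_option autoImplicit false
open MeasureTheory ProbabilityTheory Real
open scoped NNReal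

namespace Crest.Agent.T156.Bd

/-- three function inequality with a defect -/
def Tri (θ η : ℝ) (f f₀ f₁ : ℝ → ℝ) : Prop :=
  ∀ a b, f ((1 - θ) * a + θ * b) ≤ (1 - θ) * f₀ a + θ * f₁ b + η

lemma Tri.int {θ η L : ℝ} {f f₀ f₁ : ℝ → ℝ} (h : Tri θ η f f₀ f₁) (hf : Lip L f) (h0 : Lip L f₀)
    (h1 : Lip L f₁) (a b s : ℝ) :
    ∫ g, f ((1 - θ) * a + θ * b + s * g) ∂gam ≤
      (1 - θ) * ∫ g, f₀ (a + s * g) ∂gam + θ * ∫ g, f₁ (b + s * g) ∂gam + η := by
  have i0 : Integrable (fun g => (1 - θ) * f₀ (a + s * g)) gam := (h0.int a s).const_mul _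
  have i1 : Integrable (fun g => θ * f₁ (b + s * g)) gam := (h1.int b s).const_mul _
  have i2 : Integrable (fun g => (1 - θ) * f₀ (a + s * g) + θ * f₁ (b + s * g)) gam := i0.add i1
  have : ∫ g, f ((1 - θ) * a + θ * b + s * g) ∂gam ≤
      ∫ g, ((1 - θ) * f₀ (a + s * g) + θ * f₁ (b + s * g) + η) ∂gam := by
    refine integral_mono (hf.int _ s) (i2.add (integrable_const _)) fun g => ?_
    have := h (a + s * g) (b + s * g)
    have e : (1 - θ) * (a + s * g) + θ * (b + s * g) = (1 - θ) * a + θ * b + s * g := by ring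
    rw [e] at this
    exact this
  rw [integral_add i2 (integrable_const _), integral_add i0 i1, integral_const_mul,
    integral_const_mul] at this
  simpa using this

/-- one step, both signs -/
lemma tri_step {θ x₀ x₁ : ℝ} (hθ0 : 0 ≤ θ) (hθ1 : θ ≤ 1)
    (hx : (0 < x₀ ∧ 0 < x₁) ∨ (x₀ < 0 ∧ x₁ < 0)) (L Λ : ℝ) :
    ∃ K : ℝ, 0 ≤ K ∧ ∀ (f f₀ f₁ : ℝ → ℝ) (η s : ℝ), PReg L Λ f → PReg L Λ f₀ → PReg L Λ f₁ →
      Tri θ η f f₀ f₁ → 0 ≤ s → s ≤ 1 →
      Tri θ (η + K * s ^ 4) (T ((1 - θ) * x₀ + θ * x₁) s f) (T x₀ s f₀) (T x₁ s f₁) := by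
  set x := (1 - θ) * x₀ + θ * x₁ with hxdef
  rcases hx with ⟨p0, p1⟩ | ⟨p0, p1⟩
  · have px : 0 < x := by
      rcases eq_or_lt_of_le hθ0 with h | h
      · rw [hxdef, ← h]; simpa using p0
      · have := mul_pos h p1
        have := mul_nonneg (sub_nonneg.2 hθ1) p0.le
        linarith
    obtain ⟨K, hK, hs⟩ := step_up x L Λ px.ne'
    refine ⟨K / x, by positivity, fun f f₀ f₁ η s hf h0 h1 ht s0 s1 a b => ?_⟩
    obtain ⟨q, hq, hz⟩ := hf.2 ((1 - θ) * a + θ * b)
    have u := hs f _ q s hf.1 hq hz s0 s1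
    have l0 := step_lo h0.1 p0.ne' s a (x₀ * s * q)
    have l1 := step_lo h1.1 p1.ne' s b (x₁ * s * q)
    have m := ht.int hf.1 h0.1 h1.1 (a + s * (x₀ * s * q)) (b + s * (x₁ * s * q)) s
    have e : (1 - θ) * (a + s * (x₀ * s * q)) + θ * (b + s * (x₁ * s * q))
        = (1 - θ) * a + θ * b + s * (x * s * q) := by rw [hxdef]; ring
    rw [e] at m
    set I := ∫ g, f ((1 - θ) * a + θ * b + s * (x * s * q) + s * g) ∂gam
    set I₀ := ∫ g, f₀ (a + s * (x₀ * s * q) + s * g) ∂gam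
    set I₁ := ∫ g, f₁ (b + s * (x₁ * s * q) + s * g) ∂gam
    have u' : T x s f ((1 - θ) * a + θ * b) ≤ I - x * (s * q) ^ 2 / 2 + K / x * s ^ 4 := by
      apply le_of_mul_le_mul_left _ px
      refine u.trans (le_of_eq ?_)
      field_simp
    have l0' : I₀ - x₀ * (s * q) ^ 2 / 2 ≤ T x₀ s f₀ a := by
      apply le_of_mul_le_mul_left _ p0
      refine (le_of_eq ?_).trans l0
      ring
    have l1' : I₁ - x₁ * (s * q) ^ 2 / 2 ≤ T x₁ s f₁ b := by
      apply le_of_mul_le_mul_left _ p1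
      refine (le_of_eq ?_).trans l1
      ring
    have a0 := mul_le_mul_of_nonneg_left l0' (sub_nonneg.2 hθ1)
    have a1 := mul_le_mul_of_nonneg_left l1' hθ0
    have e2 : x * (s * q) ^ 2 / 2 = (1 - θ) * (x₀ * (s * q) ^ 2 / 2) + θ * (x₁ * (s * q) ^ 2 / 2) := by
      rw [hxdef]; ring
    linarith
  · have px : x < 0 := by
      rcases eq_or_lt_of_le hθ0 with h | h
      · rw [hxdef, ← h]; simpa using p0
      · have := mul_pos h (neg_pos.2 p1)
        have := mul_nonneg (sub_nonneg.2 hθ1) (neg_pos.2 p0).le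
        linarith
    obtain ⟨K₀, hK₀, hs₀⟩ := step_up x₀ L Λ p0.ne
    obtain ⟨K₁, hK₁, hs₁⟩ := step_up x₁ L Λ p1.ne
    have n0 : 0 < -x₀ := neg_pos.2 p0
    have n1 : 0 < -x₁ := neg_pos.2 p1
    have nx : 0 < -x := neg_pos.2 px
    refine ⟨K₀ / (-x₀) + K₁ / (-x₁), by positivity, fun f f₀ f₁ η s hf h0 h1 ht s0 s1 a b => ?_⟩
    obtain ⟨q₀, hq₀, hz₀⟩ := h0.2 a
    obtain ⟨q₁, hq₁, hz₁⟩ := h1.2 b
    have u0 := hs₀ f₀ a q₀ s h0.1 hq₀ hz₀ s0 s1
    have u1 := hs₁ f₁ b q₁ s h1.1 hq₁ hz₁ s0 s1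
    set c := (1 - θ) * (x₀ * s * q₀) + θ * (x₁ * s * q₁) with hc
    have l := step_lo hf.1 px.ne s ((1 - θ) * a + θ * b) c
    have m := ht.int hf.1 h0.1 h1.1 (a + s * (x₀ * s * q₀)) (b + s * (x₁ * s * q₁)) s
    have e : (1 - θ) * (a + s * (x₀ * s * q₀)) + θ * (b + s * (x₁ * s * q₁))
        = (1 - θ) * a + θ * b + s * c := by rw [hc]; ring
    rw [e] at m
    set I := ∫ g, f ((1 - θ) * a + θ * b + s * c + s * g) ∂gam
    set I₀ := ∫ g, f₀ (a + s * (x₀ * s * q₀) + s * g) ∂gam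
    set I₁ := ∫ g, f₁ (b + s * (x₁ * s * q₁) + s * g) ∂gam
    have l' : T x s f ((1 - θ) * a + θ * b) ≤ I + c ^ 2 / (2 * -x) := by
      apply le_of_mul_le_mul_left _ nx
      have : -x * (I + c ^ 2 / (2 * -x)) = -(x * I - c ^ 2 / 2) := by
        have := px.ne; field_simp; ring
      rw [this]; linarith
    have u0' : I₀ + -x₀ * (s * q₀) ^ 2 / 2 - K₀ / (-x₀) * s ^ 4 ≤ T x₀ s f₀ a := by
      apply le_of_mul_le_mul_left _ n0
      have : -x₀ * (I₀ + -x₀ * (s * q₀) ^ 2 / 2 - K₀ / (-x₀) * s ^ 4)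
          = -(x₀ * I₀ - (x₀ * s * q₀) ^ 2 / 2 + K₀ * s ^ 4) := by
        have := p0.ne; field_simp; ring
      rw [this]; linarith
    have u1' : I₁ + -x₁ * (s * q₁) ^ 2 / 2 - K₁ / (-x₁) * s ^ 4 ≤ T x₁ s f₁ b := by
      apply le_of_mul_le_mul_left _ n1
      have : -x₁ * (I₁ + -x₁ * (s * q₁) ^ 2 / 2 - K₁ / (-x₁) * s ^ 4)
          = -(x₁ * I₁ - (x₁ * s * q₁) ^ 2 / 2 + K₁ * s ^ 4) := by
        have := p1.ne; field_simp; ring
      rw [this]; linarith
    have pers : c ^ 2 / (2 * -x) ≤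
        (1 - θ) * (-x₀ * (s * q₀) ^ 2 / 2) + θ * (-x₁ * (s * q₁) ^ 2 / 2) := by
      rw [div_le_iff₀ (by positivity)]
      have w0 : 0 ≤ (1 - θ) * -x₀ := mul_nonneg (sub_nonneg.2 hθ1) n0.le
      have w1 : 0 ≤ θ * -x₁ := mul_nonneg hθ0 n1.le
      have key : ((1 - θ) * (-x₀ * (s * q₀) ^ 2 / 2) + θ * (-x₁ * (s * q₁) ^ 2 / 2)) * (2 * -x)
          - c ^ 2 = ((1 - θ) * -x₀) * (θ * -x₁) * (s * q₀ - s * q₁) ^ 2 := by
        rw [hc, hxdef]; ring
      have := mul_nonneg (mul_nonneg w0 w1) (sq_nonneg (s * q₀ - s * q₁))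
      linarith
    have a0 := mul_le_mul_of_nonneg_left u0' (sub_nonneg.2 hθ1)
    have a1 := mul_le_mul_of_nonneg_left u1' hθ0
    have k0 : 0 ≤ K₀ / (-x₀) * s ^ 4 := by positivity
    have k1 : 0 ≤ K₁ / (-x₁) * s ^ 4 := by positivity
    have b0 := mul_nonneg hθ0 k0
    have b1 := mul_nonneg (sub_nonneg.2 hθ1) k1
    nlinarith

lemma comb_ne {θ x₀ x₁ : ℝ} (hθ0 : 0 ≤ θ) (hθ1 : θ ≤ 1)
    (hx : (0 < x₀ ∧ 0 < x₁) ∨ (x₀ < 0 ∧ x₁ < 0)) :
    (1 - θ) * x₀ + θ * x₁ ≠ 0 ∧ x₀ ≠ 0 ∧ x₁ ≠ 0 := by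
  rcases hx with ⟨p0, p1⟩ | ⟨p0, p1⟩
  · refine ⟨ne_of_gt ?_, p0.ne', p1.ne'⟩
    rcases eq_or_lt_of_le hθ0 with h | h
    · rw [← h]; simpa using p0
    · have := mul_pos h p1
      have := mul_nonneg (sub_nonneg.2 hθ1) p0.le
      linarith
  · refine ⟨ne_of_lt ?_, p0.ne, p1.ne⟩
    rcases eq_or_lt_of_le hθ0 with h | h
    · rw [← h]; simpa using p0
    · have := mul_pos h (neg_pos.2 p1)
      have := mul_nonneg (sub_nonneg.2 hθ1) (neg_pos.2 p0).le
      linarith

lemma PReg.mono {L Λ Λ' : ℝ} {u : ℝ → ℝ} (h : PReg L Λ u) (hl : Λ ≤ Λ') : PReg L Λ' u :=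
  ⟨h.1, fun a => by
    obtain ⟨q, hq, hz⟩ := h.2 a
    exact ⟨q, hq, fun z => (hz z).trans (mul_le_mul_of_nonneg_right hl (sq_nonneg z))⟩⟩

/-- the inequality for regular functions -/
lemma tri_reg {θ x₀ x₁ : ℝ} (hθ0 : 0 ≤ θ) (hθ1 : θ ≤ 1)
    (hx : (0 < x₀ ∧ 0 < x₁) ∨ (x₀ < 0 ∧ x₁ < 0)) {L Λ : ℝ} {f f₀ f₁ : ℝ → ℝ}
    (hf : Reg L Λ f) (h0 : Reg L Λ f₀) (h1 : Reg L Λ f₁) (ht : Tri θ 0 f f₀ f₁) :
    Tri θ 0 (T ((1 - θ) * x₀ + θ * x₁) 1 f) (T x₀ 1 f₀) (T x₁ 1 f₁) := by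
  obtain ⟨nx, n0, n1⟩ := comb_ne hθ0 hθ1 hx
  set x := (1 - θ) * x₀ + θ * x₁ with hxdef
  obtain ⟨K, hK, hs⟩ := tri_step hθ0 hθ1 hx L (Λ + 3 * (|x| + |x₀| + |x₁|) * L ^ 2)
  have main : ∀ s : ℝ, 0 ≤ s → s ≤ 1 → ∀ k : ℕ,
      Tri θ (k * (K * s ^ 4)) (T x (√k * s) f) (T x₀ (√k * s) f₀) (T x₁ (√k * s) f₁) := by
    intro s s0 s1 k
    induction k with
    | zero => simpa [T_zero nx, T_zero n0, T_zero n1] using ht
    | succ k ih =>
      have hr : (√((k + 1 : ℕ) : ℝ) * s) ^ 2 = s ^ 2 + (√k * s) ^ 2 := by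
        rw [mul_pow, mul_pow, sq_sqrt (by positivity), sq_sqrt (by positivity)]
        push_cast; ring
      have a := abs_nonneg x
      have a0 := abs_nonneg x₀
      have a1 := abs_nonneg x₁
      have := hs _ _ _ _ s ((T_reg hf nx (√k * s)).mono (by nlinarith [sq_nonneg L]))
        ((T_reg h0 n0 (√k * s)).mono (by nlinarith [sq_nonneg L]))
        ((T_reg h1 n1 (√k * s)).mono (by nlinarith [sq_nonneg L])) ih s0 s1
      rw [T_T hf.1 nx hr, T_T h0.1 n0 hr, T_T h1.1 n1 hr] at this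
      convert this using 1
      push_cast; ring
  intro a b
  rw [add_zero]
  refine le_of_forall_pos_le_add fun ε hε => ?_
  obtain ⟨N, hN⟩ := exists_nat_gt (K / ε)
  have hN0 : (0 : ℝ) < N := lt_of_le_of_lt (by positivity) hN
  have hN1 : (1 : ℝ) ≤ N := by exact_mod_cast (Nat.cast_pos.1 hN0)
  have sq : 0 < √(N : ℝ) := sqrt_pos.2 hN0
  have := main (1 / √N) (by positivity) (by
    rw [div_le_one sq]; exact one_le_sqrt.2 hN1) N a b
  rw [mul_one_div_cancel sq.ne'] at this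
  refine this.trans (add_le_add_right ?_ _)
  have e : (1 / √(N : ℝ)) ^ 4 = 1 / N ^ 2 := by
    rw [div_pow, one_pow, show (4 : ℕ) = 2 * 2 from rfl, pow_mul, sq_sqrt hN0.le]
  rw [e]
  rw [div_lt_iff₀ hε] at hN
  have : (N : ℝ) * (K * (1 / N ^ 2)) = K / N := by field_simp
  rw [this, div_le_iff₀ hN0]
  linarith

/-- box smoothing -/
noncomputable def sm (ε : ℝ) (f : ℝ → ℝ) (a : ℝ) : ℝ := (1 / ε) * ∫ t in (0 : ℝ)..ε, f (a + t)

lemma sm_sub {L ε : ℝ} (hε : 0 < ε) {f k : ℝ → ℝ} (hf : Continuous f) (hk : Continuous k)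
    (h : ∀ t ∈ Set.Icc 0 ε, |f t - k t| ≤ L) :
    |(1 / ε) * (∫ t in (0 : ℝ)..ε, f t) - (1 / ε) * ∫ t in (0 : ℝ)..ε, k t| ≤ L := by
  rw [← mul_sub, ← intervalIntegral.integral_sub (hf.intervalIntegrable _ _)
    (hk.intervalIntegrable _ _), abs_mul, abs_of_pos (by positivity : 0 < 1 / ε)]
  have := intervalIntegral.norm_integral_le_of_norm_le_const (a := 0) (b := ε) (C := L)
    (f := fun t => f t - k t) fun t ht => by
      rw [Set.uIoc_of_le hε.le] at ht
      exact h t ⟨ht.1.le, ht.2⟩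
  rw [Real.norm_eq_abs, sub_zero, abs_of_pos hε] at this
  rw [one_div, inv_mul_le_iff₀ hε]
  linarith

lemma sm_close {L ε : ℝ} (hε : 0 < ε) {f : ℝ → ℝ} (hf : Lip L f) (a : ℝ) :
    |sm ε f a - f a| ≤ L * ε := by
  have hc := hf.continuous
  have := sm_sub (L := L * ε) hε (f := fun t => f (a + t)) (k := fun _ => f a) (by fun_prop)
    continuous_const fun t ht => by
      refine (hf _ _).trans (mul_le_mul_of_nonneg_left ?_ hf.nonneg)
      rw [add_sub_cancel_left, abs_of_nonneg ht.1]; exact ht.2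
  have e : (1 / ε) * ∫ _t in (0 : ℝ)..ε, f a = f a := by
    simp; field_simp
  rw [e] at this
  exact this

lemma prim_bd {L : ℝ} {f : ℝ → ℝ} (hf : Lip L f) (u z : ℝ) :
    |(∫ t in u..(u + z), f t) - f u * z| ≤ L * z ^ 2 := by
  have hc := hf.continuous
  have e : f u * z = ∫ _t in u..(u + z), f u := by simp [mul_comm]
  rw [e, ← intervalIntegral.integral_sub (hc.intervalIntegrable _ _)
    (continuous_const.intervalIntegrable _ _)]
  have := intervalIntegral.norm_integral_le_of_norm_le_const (a := u) (b := u + z) (C := L * |z|)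
    (f := fun t => f t - f u) fun t ht => by
      refine (hf _ _).trans (mul_le_mul_of_nonneg_left ?_ hf.nonneg)
      have := Set.abs_sub_left_of_mem_uIcc (Set.uIoc_subset_uIcc ht)
      simpa using this
  rw [Real.norm_eq_abs, add_sub_cancel_left, mul_assoc, abs_mul_abs_self] at this
  rw [sq]; exact this

lemma sm_reg {L ε : ℝ} (hε : 0 < ε) {f : ℝ → ℝ} (hf : Lip L f) : Reg L (2 * L / ε) (sm ε f) := by
  have hc := hf.continuous
  refine ⟨fun u w => sm_sub hε (by fun_prop) (by fun_prop) fun t _ => by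
    simpa using hf (u + t) (w + t), fun b => (f (b + ε) - f b) / ε, by fun_prop, fun b => ?_,
    fun b z => ?_⟩
  · rw [abs_div, abs_of_pos hε, div_le_iff₀ hε]
    simpa [abs_of_pos hε] using hf (b + ε) b
  · have e1 : ∀ a, sm ε f a = (1 / ε) * ∫ t in a..(a + ε), f t := by
      intro a
      unfold sm
      rw [intervalIntegral.integral_comp_add_left]; simp
    have ii : ∀ a b : ℝ, IntervalIntegrable f volume a b := fun a b => hc.intervalIntegrable a b
    have e2 : (∫ t in (b + z)..(b + z + ε), f t) - (∫ t in b..(b + ε), f t)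
        = (∫ t in (b + ε)..(b + ε + z), f t) - ∫ t in b..(b + z), f t := by
      have a1 := intervalIntegral.integral_add_adjacent_intervals (ii b (b + z)) (ii (b + z) (b + z + ε))
      have a2 := intervalIntegral.integral_add_adjacent_intervals (ii b (b + ε)) (ii (b + ε) (b + ε + z))
      have : b + z + ε = b + ε + z := by ring
      rw [this] at a1 ⊢
      linarith
    have p1 := abs_le.1 (prim_bd hf (b + ε) z)
    have p2 := abs_le.1 (prim_bd hf b z)
    have e3 : sm ε f (b + z) - sm ε f b - (f (b + ε) - f b) / ε * z = (1 / ε) *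
        (((∫ t in (b + ε)..(b + ε + z), f t) - f (b + ε) * z) - ((∫ t in b..(b + z), f t) - f b * z)) := by
      rw [e1, e1, ← mul_sub, e2]; ring
    rw [e3, abs_mul, abs_of_pos (by positivity : 0 < 1 / ε)]
    have : 2 * L / ε * z ^ 2 = 1 / ε * (2 * L * z ^ 2) := by ring
    rw [this]
    refine mul_le_mul_of_nonneg_left (abs_le.2 ⟨?_, ?_⟩) (by positivity) <;> linarith

lemma sm_tri {L ε θ : ℝ} (hε : 0 < ε) {f f₀ f₁ : ℝ → ℝ} (hf : Lip L f) (h0 : Lip L f₀)
    (h1 : Lip L f₁) (ht : Tri θ 0 f f₀ f₁) : Tri θ 0 (sm ε f) (sm ε f₀) (sm ε f₁) := by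
  intro a b
  have c := hf.continuous
  have c0 := h0.continuous
  have c1 := h1.continuous
  have : ∫ t in (0 : ℝ)..ε, f ((1 - θ) * a + θ * b + t) ≤
      ∫ t in (0 : ℝ)..ε, ((1 - θ) * f₀ (a + t) + θ * f₁ (b + t)) := by
    refine intervalIntegral.integral_mono_on hε.le (Continuous.intervalIntegrable (by fun_prop) _ _)
      (Continuous.intervalIntegrable (by fun_prop) _ _) fun t _ => ?_
    have := ht (a + t) (b + t)
    have e : (1 - θ) * (a + t) + θ * (b + t) = (1 - θ) * a + θ * b + t := by ring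
    rw [e] at this
    linarith
  rw [intervalIntegral.integral_add (Continuous.intervalIntegrable (by fun_prop) _ _)
    (Continuous.intervalIntegrable (by fun_prop) _ _), intervalIntegral.integral_const_mul,
    intervalIntegral.integral_const_mul] at this
  have := mul_le_mul_of_nonneg_left this (by positivity : 0 ≤ 1 / ε)
  unfold sm
  linarith

/-- **three function inequality on the line** -/
theorem tri_one {θ x₀ x₁ : ℝ} (hθ0 : 0 ≤ θ) (hθ1 : θ ≤ 1)
    (hx : (0 < x₀ ∧ 0 < x₁) ∨ (x₀ < 0 ∧ x₁ < 0)) {L : ℝ} {f f₀ f₁ : ℝ → ℝ}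
    (hf : Lip L f) (h0 : Lip L f₀) (h1 : Lip L f₁) (ht : Tri θ 0 f f₀ f₁) :
    Tri θ 0 (T ((1 - θ) * x₀ + θ * x₁) 1 f) (T x₀ 1 f₀) (T x₁ 1 f₁) := by
  obtain ⟨nx, n0, n1⟩ := comb_ne hθ0 hθ1 hx
  intro a b
  rw [add_zero]
  refine le_of_forall_pos_le_add fun δ hδ => ?_
  have hL := hf.nonneg
  set ε := δ / (2 * L + 1) with hεdef
  have hε : 0 < ε := by positivity
  have := tri_reg hθ0 hθ1 hx (sm_reg hε hf) (sm_reg hε h0) (sm_reg hε h1) (sm_tri hε hf h0 h1 ht) a b
  have m := T_mono hf (sm_reg hε hf).1 nx (c := L * ε)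
    (fun u => by linarith [(abs_le.1 (sm_close hε hf u)).1]) 1 ((1 - θ) * a + θ * b)
  have m0 := T_mono (sm_reg hε h0).1 h0 n0 (c := L * ε)
    (fun u => by linarith [(abs_le.1 (sm_close hε h0 u)).2]) 1 a
  have m1 := T_mono (sm_reg hε h1).1 h1 n1 (c := L * ε)
    (fun u => by linarith [(abs_le.1 (sm_close hε h1 u)).2]) 1 b
  have a0 := mul_le_mul_of_nonneg_left m0 (sub_nonneg.2 hθ1)
  have a1 := mul_le_mul_of_nonneg_left m1 hθ0
  have : (2 * L + 1) * ε = δ := by rw [hεdef]; field_simp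
  nlinarith

end Crest.Agent.T156.Bd
end

-- ▼ part T156/BdDef_27
section

/-!
# Discrete Boué–Dupuis (helper27): the statement
-/

set_option autoImplicit false
open MeasureTheory ProbabilityTheory Real

namespace Crest.Agent.T156.Bd

/-- **three function inequality** for tilted Gaussian averages (no convexity needed beyond the
three function hypothesis; the functions are Lipschitz for the sup norm; tilts of one sign). -/
def BdStmt : Prop := ∀ (ι : Type) [Fintype ι] (f f₀ f₁ : (ι → ℝ) → ℝ) (L θ x₀ x₁ : ℝ),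
  0 ≤ θ → θ ≤ 1 → ((0 < x₀ ∧ 0 < x₁) ∨ (x₀ < 0 ∧ x₁ < 0)) →
  (∀ u w, |f u - f w| ≤ L * ‖u - w‖) → (∀ u w, |f₀ u - f₀ w| ≤ L * ‖u - w‖) →
  (∀ u w, |f₁ u - f₁ w| ≤ L * ‖u - w‖) →
  (∀ a b, f ((1 - θ) • a + θ • b) ≤ (1 - θ) * f₀ a + θ * f₁ b) →
  ((1 - θ) * x₀ + θ * x₁)⁻¹ *
      log (∫ g, exp (((1 - θ) * x₀ + θ * x₁) * f g) ∂Measure.pi fun _ : ι => gaussianReal 0 1) ≤
    (1 - θ) * (x₀⁻¹ * log (∫ g, exp (x₀ * f₀ g) ∂Measure.pi fun _ : ι => gaussianReal 0 1)) +
      θ * (x₁⁻¹ * log (∫ g, exp (x₁ * f₁ g) ∂Measure.pi fun _ : ι => gaussianReal 0 1))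

end Crest.Agent.T156.Bd
end

-- ▼ part T156/BdD_27

/-!
# Discrete Boué–Dupuis (helper27), part D: any finite dimension
-/

set_option autoImplicit false
open MeasureTheory ProbabilityTheory Real
open scoped NNReal

namespace Crest.Agent.T156.Bd

lemma int_exp_pi {ι : Type} [Fintype ι] {f : (ι → ℝ) → ℝ} {L : ℝ}
    (hf : ∀ u w, |f u - f w| ≤ L * ‖u - w‖) (hL : 0 ≤ L) (x : ℝ) :
    Integrable (fun g => exp (x * f g)) (Measure.pi fun _ : ι => gam) := by
  have hc : Continuous f := by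
    have : LipschitzWith (Real.toNNReal L) f := by
      refine LipschitzWith.of_dist_le_mul fun u w => ?_
      rw [Real.dist_eq, dist_eq_norm, Real.coe_toNNReal _ hL]
      exact hf u w
    exact this.continuous
  have hi : Integrable (fun g : ι → ℝ => ∏ i, exp (|x| * L * |g i|)) (Measure.pi fun _ : ι => gam) :=
    Integrable.fintype_prod (f := fun _ t => exp (|x| * L * |t|)) fun _ => int_exp_abs 0 1 _
  refine (hi.const_mul (exp (|x| * |f 0|))).mono' (by fun_prop) (Filter.Eventually.of_forall fun g => ?_)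
  rw [Real.norm_eq_abs, abs_exp, ← exp_sum, ← exp_add, exp_le_exp, ← Finset.mul_sum]
  have h1 : ‖g‖ ≤ ∑ i, |g i| :=
    (pi_norm_le_iff_of_nonneg (Finset.sum_nonneg fun i _ => abs_nonneg _)).2 fun i =>
      Finset.single_le_sum (f := fun i => |g i|) (fun i _ => abs_nonneg _) (Finset.mem_univ i)
  have h2 := hf g 0
  rw [sub_zero] at h2
  have h3 : |f g| ≤ |f 0| + L * ∑ i, |g i| := by
    have := abs_sub_abs_le_abs_sub (f g) (f 0)
    have := mul_le_mul_of_nonneg_left h1 hL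
    linarith
  calc x * f g ≤ |x| * |f g| := by rw [← abs_mul]; exact le_abs_self _
    _ ≤ |x| * (|f 0| + L * ∑ i, |g i|) := mul_le_mul_of_nonneg_left h3 (abs_nonneg x)
    _ = _ := by ring

lemma V_mono {Ω : Type*} [MeasurableSpace Ω] {μ : Measure Ω} [IsProbabilityMeasure μ]
    {f k : Ω → ℝ} {x c : ℝ} (hx : x ≠ 0) (hf : Integrable (fun g => exp (x * f g)) μ)
    (hk : Integrable (fun g => exp (x * k g)) μ) (h : ∀ g, f g ≤ k g + c) :
    x⁻¹ * log (∫ g, exp (x * f g) ∂μ) ≤ x⁻¹ * log (∫ g, exp (x * k g) ∂μ) + c := by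
  have e : log (∫ g, exp (x * k g) * exp (x * c) ∂μ) = log (∫ g, exp (x * k g) ∂μ) + x * c := by
    rw [integral_mul_const, log_mul (int_exp_pos hk).ne' (exp_pos _).ne', log_exp]
  have e2 : x⁻¹ * log (∫ g, exp (x * k g) ∂μ) + c
      = x⁻¹ * (log (∫ g, exp (x * k g) ∂μ) + x * c) := by field_simp
  have hp : 0 < ∫ g, exp (x * k g) * exp (x * c) ∂μ := by
    rw [integral_mul_const]; exact mul_pos (int_exp_pos hk) (exp_pos _)
  rw [e2, ← e]
  rcases lt_or_gt_of_ne hx with hx' | hx'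
  · refine mul_le_mul_of_nonpos_left (log_le_log hp ?_) (inv_nonpos.2 hx'.le)
    refine integral_mono (hk.mul_const _) hf fun g => ?_
    simp only [← exp_add]
    exact exp_le_exp.2 (by nlinarith [h g])
  · refine mul_le_mul_of_nonneg_left (log_le_log (int_exp_pos hf) ?_) (inv_nonneg.2 hx'.le)
    refine integral_mono hf (hk.mul_const _) fun g => ?_
    simp only [← exp_add]
    exact exp_le_exp.2 (by nlinarith [h g])

lemma cons_snd {n : ℕ} (a : ℝ) (u w : Fin n → ℝ) :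
    ‖(Fin.cons a u : Fin (n + 1) → ℝ) - Fin.cons a w‖ ≤ ‖u - w‖ :=
  (pi_norm_le_iff_of_nonneg (norm_nonneg _)).2 fun i => by
    refine Fin.cases ?_ (fun j => ?_) i
    · simp
    · simpa using norm_le_pi_norm (u - w) j

lemma cons_fst {n : ℕ} (a b : ℝ) (u : Fin n → ℝ) :
    ‖(Fin.cons a u : Fin (n + 1) → ℝ) - Fin.cons b u‖ ≤ |a - b| :=
  (pi_norm_le_iff_of_nonneg (abs_nonneg _)).2 fun i => by
    refine Fin.cases ?_ (fun j => ?_) i
    · simp
    · simp

lemma cons_comb {n : ℕ} (θ a b : ℝ) (u w : Fin n → ℝ) :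
    (Fin.cons ((1 - θ) * a + θ * b) ((1 - θ) • u + θ • w) : Fin (n + 1) → ℝ)
      = (1 - θ) • (Fin.cons a u : Fin (n + 1) → ℝ) + θ • (Fin.cons b w : Fin (n + 1) → ℝ) := by
  funext i
  refine Fin.cases ?_ (fun j => ?_) i <;> simp

lemma int_succ {n : ℕ} (φ : (Fin (n + 1) → ℝ) → ℝ)
    (hφ : Integrable φ (Measure.pi fun _ : Fin (n + 1) => gam)) :
    ∫ g, φ g ∂(Measure.pi fun _ : Fin (n + 1) => gam) =
      ∫ a, ∫ u, φ (Fin.cons a u) ∂(Measure.pi fun _ : Fin n => gam) ∂gam := by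
  have mp := (measurePreserving_piFinSuccAbove (fun _ : Fin (n + 1) => gam) 0).symm
  have e : ∀ p : ℝ × (Fin n → ℝ),
      (MeasurableEquiv.piFinSuccAbove (fun _ : Fin (n + 1) => ℝ) 0).symm p = Fin.cons p.1 p.2 := by
    intro p
    simp [MeasurableEquiv.piFinSuccAbove, Fin.insertNthEquiv]
  have hi : Integrable (fun p => φ ((MeasurableEquiv.piFinSuccAbove (fun _ : Fin (n + 1) => ℝ) 0).symm p))
      (gam.prod (Measure.pi fun _ : Fin n => gam)) :=
    (mp.integrable_comp_emb (MeasurableEquiv.measurableEmbedding _)).2 hφ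
  rw [← mp.integral_comp' φ]
  refine (integral_prod _ hi).trans ?_
  simp only [e]

/-- marginal in the first coordinate -/
noncomputable def mg {n : ℕ} (x : ℝ) (f : (Fin (n + 1) → ℝ) → ℝ) (a : ℝ) : ℝ :=
  x⁻¹ * log (∫ u, exp (x * f (Fin.cons a u)) ∂(Measure.pi fun _ : Fin n => gam))

lemma lip_cons {n : ℕ} {f : (Fin (n + 1) → ℝ) → ℝ} {L : ℝ} (hL : 0 ≤ L)
    (hf : ∀ u w, |f u - f w| ≤ L * ‖u - w‖) (a : ℝ) (u w : Fin n → ℝ) :
    |f (Fin.cons a u) - f (Fin.cons a w)| ≤ L * ‖u - w‖ :=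
  (hf _ _).trans (mul_le_mul_of_nonneg_left (cons_snd a u w) hL)

lemma mg_lip {n : ℕ} {f : (Fin (n + 1) → ℝ) → ℝ} {L x : ℝ} (hL : 0 ≤ L) (hx : x ≠ 0)
    (hf : ∀ u w, |f u - f w| ≤ L * ‖u - w‖) : Lip L (mg x f) := by
  have key : ∀ a b, mg x f a ≤ mg x f b + L * |a - b| := fun a b =>
    V_mono hx (int_exp_pi (lip_cons hL hf a) hL x) (int_exp_pi (lip_cons hL hf b) hL x) fun u => by
      have := (hf (Fin.cons a u) (Fin.cons b u)).trans
        (mul_le_mul_of_nonneg_left (cons_fst a b u) hL)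
      linarith [le_abs_self (f (Fin.cons a u) - f (Fin.cons b u))]
  intro a b
  have h1 := key a b
  have h2 := key b a
  rw [abs_sub_comm b a] at h2
  exact abs_le.2 ⟨by linarith, by linarith⟩

lemma T_mg {n : ℕ} {f : (Fin (n + 1) → ℝ) → ℝ} {L x : ℝ} (hL : 0 ≤ L) (hx : x ≠ 0)
    (hf : ∀ u w, |f u - f w| ≤ L * ‖u - w‖) :
    T x 1 (mg x f) 0 =
      x⁻¹ * log (∫ g, exp (x * f g) ∂(Measure.pi fun _ : Fin (n + 1) => gam)) := by
  rw [int_succ _ (int_exp_pi hf hL x), T, one_div]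
  congr 3
  funext a
  rw [mg, ← mul_assoc, mul_inv_cancel₀ hx, one_mul, zero_add, one_mul,
    exp_log (int_exp_pos (int_exp_pi (lip_cons hL hf a) hL x))]

theorem bd_fin {L θ x₀ x₁ : ℝ} (hθ0 : 0 ≤ θ) (hθ1 : θ ≤ 1)
    (hx : (0 < x₀ ∧ 0 < x₁) ∨ (x₀ < 0 ∧ x₁ < 0)) (hL : 0 ≤ L) : ∀ (n : ℕ)
    (f f₀ f₁ : (Fin n → ℝ) → ℝ), (∀ u w, |f u - f w| ≤ L * ‖u - w‖) →
    (∀ u w, |f₀ u - f₀ w| ≤ L * ‖u - w‖) → (∀ u w, |f₁ u - f₁ w| ≤ L * ‖u - w‖) →
    (∀ a b, f ((1 - θ) • a + θ • b) ≤ (1 - θ) * f₀ a + θ * f₁ b) →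
    ((1 - θ) * x₀ + θ * x₁)⁻¹ *
        log (∫ g, exp (((1 - θ) * x₀ + θ * x₁) * f g) ∂Measure.pi fun _ : Fin n => gam) ≤
      (1 - θ) * (x₀⁻¹ * log (∫ g, exp (x₀ * f₀ g) ∂Measure.pi fun _ : Fin n => gam)) +
        θ * (x₁⁻¹ * log (∫ g, exp (x₁ * f₁ g) ∂Measure.pi fun _ : Fin n => gam)) := by
  obtain ⟨nx, n0, n1⟩ := comb_ne hθ0 hθ1 hx
  intro n
  induction n with
  | zero =>
    intro f f₀ f₁ _ _ _ h
    have e : ∀ (k : (Fin 0 → ℝ) → ℝ) (y : ℝ), y ≠ 0 →
        y⁻¹ * log (∫ g, exp (y * k g) ∂Measure.pi fun _ : Fin 0 => gam) = k 0 := by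
      intro k y hy
      have : (fun g => exp (y * k g)) = fun _ => exp (y * k 0) := by
        funext g; rw [Subsingleton.elim g 0]
      rw [this]
      simp [hy]
    rw [e _ _ nx, e _ _ n0, e _ _ n1]
    simpa using h 0 0
  | succ n ih =>
    intro f f₀ f₁ hf h0 h1 h
    have := tri_one hθ0 hθ1 hx (mg_lip hL nx hf) (mg_lip hL n0 h0) (mg_lip hL n1 h1)
      (fun a b => by
        rw [add_zero]
        refine ih _ _ _ (lip_cons hL hf _) (lip_cons hL h0 _) (lip_cons hL h1 _) fun u w => ?_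
        rw [cons_comb]; exact h _ _) 0 0
    rw [← T_mg hL nx hf, ← T_mg hL n0 h0, ← T_mg hL n1 h1]
    simpa using this

theorem bdStmt : BdStmt := by
  intro ι _ f f₀ f₁ L θ x₀ x₁ hθ0 hθ1 hx hf h0 h1 h
  set n := Fintype.card ι
  let e : Fin n ≃ ι := (Fintype.equivFin ι).symm
  have mp := measurePreserving_piCongrLeft (fun _ : ι => gam) e
  have ee : ∀ g : Fin n → ℝ,
      MeasurableEquiv.piCongrLeft (fun _ : ι => ℝ) e g = fun i => g (e.symm i) := by
    intro g
    funext i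
    obtain ⟨j, rfl⟩ := e.surjective i
    simp [MeasurableEquiv.piCongrLeft_apply_apply]
  have ei : ∀ φ : (ι → ℝ) → ℝ, ∫ g, φ g ∂(Measure.pi fun _ : ι => gam)
      = ∫ g, φ (fun i => g (e.symm i)) ∂(Measure.pi fun _ : Fin n => gam) := by
    intro φ
    rw [← mp.integral_comp' φ]
    simp only [ee]
  have nn : ∀ u w : Fin n → ℝ,
      ‖(fun i => u (e.symm i)) - (fun i => w (e.symm i))‖ ≤ ‖u - w‖ := fun u w =>
    (pi_norm_le_iff_of_nonneg (norm_nonneg _)).2 fun i => norm_le_pi_norm (u - w) (e.symm i)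
  have tr : ∀ k : (ι → ℝ) → ℝ, (∀ u w, |k u - k w| ≤ L * ‖u - w‖) → ∀ u w : Fin n → ℝ,
      |k (fun i => u (e.symm i)) - k (fun i => w (e.symm i))| ≤ |L| * ‖u - w‖ := fun k hk u w =>
    (hk _ _).trans (mul_le_mul (le_abs_self L) (nn u w) (norm_nonneg _) (abs_nonneg L))
  rw [ei, ei, ei]
  exact bd_fin hθ0 hθ1 hx (abs_nonneg L) n _ _ _ (tr f hf) (tr f₀ h0) (tr f₁ h1) fun a b =>
    h (fun i => a (e.symm i)) (fun i => b (e.symm i))

end Crest.Agent.T156.Bd
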