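import Crest.Agent.T156.CasDef_88
import Crest.Agent.T156.BdD_27
import Crest.Agent.T156.CaTr_32
import Crest.Agent.T156.CaSand_41
import Crest.Agent.T156.CaSdB_90

-- ▼ part T156/HsA_98
section

/-!
# Row 156: Helffer–Sjöstrand, part A (helper98)

Abstract Hilbert space lemmas (density, Kato–Rellich step, kernel step), determinacy of a signed
measure by its moments, and the algebra of the Ornstein–Uhlenbeck operator on polynomials.
-/

set_option autoImplicit false
set_option maxHeartbeats 400000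

noncomputable section

namespace Crest.Agent.T156.Cas.Hs98

open MeasureTheory Real Set Filter Topology
open Crest.Agent.T157.E Crest.Agent.T157.Casc Crest.Agent.T157.SL
open scoped RealInnerProductSpace

/-! ### Hilbert space lemmas -/

section hilb
variable {V H : Type*} [AddCommGroup V] [Module ℝ V] [NormedAddCommGroup H]
  [InnerProductSpace ℝ H] [CompleteSpace H]

theorem approx (S : V →ₗ[ℝ] H) (h : ∀ ψ : H, (∀ v, ⟪ψ, S v⟫ = 0) → ψ = 0) (ψ : H) {ε : ℝ}
    (hε : 0 < ε) : ∃ v, ‖S v - ψ‖ < ε := by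
  have hb : (LinearMap.range S)ᗮ = ⊥ := by
    rw [Submodule.eq_bot_iff]
    intro x hx
    refine h x fun v => ?_
    rw [real_inner_comm]
    exact hx _ (LinearMap.mem_range_self S v)
  have hd : Dense ((LinearMap.range S : Submodule ℝ H) : Set H) :=
    Submodule.dense_iff_topologicalClosure_eq_top.2
      (Submodule.topologicalClosure_eq_top_iff.2 hb)
  obtain ⟨y, hy, ⟨v, rfl⟩⟩ := Metric.dense_iff.1 hd ψ ε hε
  exact ⟨v, by simpa [dist_eq_norm] using hy⟩

omit [CompleteSpace H] in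
theorem norm_lin (a b : H) (l : ℝ) :
    ‖l • a + b‖ ^ 2 = l ^ 2 * ‖a‖ ^ 2 + 2 * l * ⟪a, b⟫ + ‖b‖ ^ 2 := by
  rw [norm_add_sq_real, norm_smul, real_inner_smul_left, mul_pow, Real.norm_eq_abs, sq_abs]
  ring

theorem kato (J A B : V →ₗ[ℝ] H) {l : ℝ} (hJ : ∀ ψ : H, (∀ v, ⟪ψ, J v⟫ = 0) → ψ = 0)
    (hT : ∀ p, ∃ q, l • J q + A q = J p + B q)
    (hB : ∀ q, 8 * ‖B q‖ ^ 2 ≤ l * ⟪J q, A q⟫) (ψ : H) (hψ : ∀ v, ⟪ψ, (l • J + A) v⟫ = 0) :
    ψ = 0 := by
  have key : ∀ ε : ℝ, 0 < ε → ‖ψ‖ ≤ 2 * ε := by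
    intro ε hε
    obtain ⟨p, hp⟩ := approx J hJ ψ hε
    obtain ⟨q, hq⟩ := hT p
    have h0 := hψ q
    simp only [LinearMap.add_apply, LinearMap.smul_apply] at h0
    have h1 := norm_lin (J q) (A q) l
    have h2 := hB q
    have h3 : (4 * ‖B q‖) ^ 2 ≤ ‖l • J q + A q‖ ^ 2 := by
      rw [h1]
      nlinarith [sq_nonneg (l * ‖J q‖), sq_nonneg ‖A q‖]
    have h4 : 4 * ‖B q‖ ≤ ‖l • J q + A q‖ :=
      (pow_le_pow_iff_left₀ (by positivity) (norm_nonneg _) two_ne_zero).1 h3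
    rw [hq] at h0 h4
    have h5 : ‖J p + B q‖ ≤ ‖J p‖ + ‖B q‖ := norm_add_le _ _
    have h6 : ‖J p‖ ≤ ‖ψ‖ + ε := by
      have := norm_add_le ψ (J p - ψ)
      rw [add_sub_cancel] at this
      linarith
    have h7 : ‖ψ‖ ^ 2 = -⟪ψ, J p - ψ⟫ - ⟪ψ, B q⟫ := by
      rw [inner_add_right] at h0
      rw [inner_sub_right, real_inner_self_eq_norm_sq]
      linarith
    have h8 := abs_real_inner_le_norm ψ (J p - ψ)
    have h9 := abs_real_inner_le_norm ψ (B q)
    have h10 := neg_abs_le ⟪ψ, J p - ψ⟫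
    have h11 := neg_abs_le ⟪ψ, B q⟫
    have hn := norm_nonneg ψ
    have h12 : ‖ψ‖ * ‖J p - ψ‖ ≤ ‖ψ‖ * ε := mul_le_mul_of_nonneg_left hp.le hn
    have h13 : ‖ψ‖ * (3 * ‖B q‖) ≤ ‖ψ‖ * (‖ψ‖ + ε) :=
      mul_le_mul_of_nonneg_left (by linarith) hn
    by_contra hc
    push Not at hc
    nlinarith
  have : ‖ψ‖ ≤ 0 := by
    by_contra hc
    push Not at hc
    have := key (‖ψ‖ / 4) (by positivity)
    linarith
  exact norm_le_zero_iff.1 this

theorem kerstep (J A : V →ₗ[ℝ] H) {l : ℝ} (hl : 1 ≤ l)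
    (hS : ∀ ψ : H, (∀ v, ⟪ψ, (l • J + A) v⟫ = 0) → ψ = 0) (hp : ∀ q, 0 ≤ ⟪J q, A q⟫) (ψ : H)
    (hψ : ∀ v, ⟪ψ, A v⟫ = 0) {ε : ℝ} (hε : 0 < ε) :
    ∃ v, ‖J v - ψ‖ ≤ ε ∧ ⟪J v, A v⟫ ≤ ε ^ 2 := by
  obtain ⟨v, hv⟩ := approx (l • J + A) hS (l • ψ) hε
  have e : (l • J + A) v - l • ψ = l • (J v - ψ) + A v := by
    simp only [LinearMap.add_apply, LinearMap.smul_apply, smul_sub]
    abel
  rw [e] at hv
  have h1 := norm_lin (J v - ψ) (A v) l
  rw [inner_sub_left, hψ v, sub_zero] at h1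
  have h2 : ‖l • (J v - ψ) + A v‖ ^ 2 ≤ ε ^ 2 := pow_le_pow_left₀ (norm_nonneg _) hv.le 2
  have h3 := hp v
  have h4 : ‖J v - ψ‖ ^ 2 ≤ l ^ 2 * ‖J v - ψ‖ ^ 2 :=
    le_mul_of_one_le_left (sq_nonneg _) (one_le_pow₀ hl)
  have h5 : ⟪J v, A v⟫ ≤ l * ⟪J v, A v⟫ := le_mul_of_one_le_left h3 hl
  have h6 := sq_nonneg ‖A v‖
  have h7 := sq_nonneg ‖J v - ψ‖
  refine ⟨v, ?_, by nlinarith⟩
  exact (pow_le_pow_iff_left₀ (norm_nonneg _) hε.le two_ne_zero).1 (by nlinarith)

end hilb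

/-! ### polynomials -/

variable {ι : Type} [Fintype ι]

open MvPolynomial in
/-- evaluation of a polynomial -/
def ev (p : MvPolynomial ι ℝ) (g : ι → ℝ) : ℝ := eval g p

open MvPolynomial in
/-- partial derivative -/
abbrev D (i : ι) (p : MvPolynomial ι ℝ) : MvPolynomial ι ℝ := pderiv i p

omit [Fintype ι] in
theorem ev_add (p q : MvPolynomial ι ℝ) (g : ι → ℝ) : ev (p + q) g = ev p g + ev q g := by
  simp [ev]

omit [Fintype ι] in
theorem ev_smul (c : ℝ) (p : MvPolynomial ι ℝ) (g : ι → ℝ) : ev (c • p) g = c * ev p g := by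
  simp [ev]

open Classical in
theorem gr_coord (j : ι) :
    Gr (fun g : ι → ℝ => g j) fun i _ => if i = j then (1 : ℝ) else 0 := by
  refine ⟨Eg.coord j, fun _ => Eg.const _, fun h => ?_⟩
  have : Crest.Agent.R339.Guerra.dual (fun i => if i = j then (1 : ℝ) else 0) =
      (ContinuousLinearMap.proj j : (ι → ℝ) →L[ℝ] ℝ) := by
    ext v; simp
  rw [this]
  exact (ContinuousLinearMap.proj j : (ι → ℝ) →L[ℝ] ℝ).hasFDerivAt

open MvPolynomial in
theorem gr_ev (p : MvPolynomial ι ℝ) : Gr (ev p) fun i => ev (D i p) := by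
  classical
  induction p using MvPolynomial.induction_on with
  | C a =>
    have e : ev (C a : MvPolynomial ι ℝ) = fun _ => a := by funext g; simp [ev]
    rw [e]
    exact (Gr.const a).congr fun x z => by simp [ev, D]
  | add p q hp hq =>
    have e : ev (p + q) = fun g => ev p g + ev q g := by funext g; simp [ev]
    rw [e]
    exact (hp.add hq).congr fun x z => by simp [ev, D]
  | mul_X p j hp =>
    have e : ev (p * MvPolynomial.X j) = fun g => ev p g * g j := by funext g; simp [ev]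
    rw [e]
    refine (hp.mul (gr_coord j)).congr fun x z => ?_
    simp only [ev, D, pderiv_mul, pderiv_X, map_add, map_mul, eval_X, Pi.single_apply]
    by_cases h : x = j
    · simp [h]
    · simp [h, Ne.symm h]

theorem eg_ev (p : MvPolynomial ι ℝ) : Eg (ev p) := (gr_ev p).eg

omit [Fintype ι] in
open MvPolynomial in
theorem D_comm (i j : ι) (p : MvPolynomial ι ℝ) : D i (D j p) = D j (D i p) := by
  classical
  induction p using MvPolynomial.induction_on with
  | C a => simp [D]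
  | add p q hp hq => simp only [D, map_add] at hp hq ⊢; rw [hp, hq]
  | mul_X p k hp =>
    have e : ∀ a b : ι, pderiv a (pderiv b (MvPolynomial.X k : MvPolynomial ι ℝ)) = 0 := by
      intro a b
      rw [pderiv_X, Pi.single_apply]
      split_ifs <;> simp
    simp only [D, pderiv_mul, map_add, e] at hp ⊢
    rw [hp]
    ring

open MvPolynomial in
/-- the number operator -/
def Nop : MvPolynomial ι ℝ →ₗ[ℝ] MvPolynomial ι ℝ where
  toFun p := ∑ i, (MvPolynomial.X i * D i p - D i (D i p))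
  map_add' p q := by
    simp only [D, map_add, ← Finset.sum_add_distrib]
    exact Finset.sum_congr rfl fun _ _ => by ring
  map_smul' c p := by
    simp only [D, Derivation.map_smul, RingHom.id_apply, Finset.smul_sum, smul_sub, mul_smul_comm]

open MvPolynomial in
theorem ev_Nop (p : MvPolynomial ι ℝ) (g : ι → ℝ) :
    ev (Nop p) g = ∑ i, (g i * ev (D i p) g - ev (D i (D i p)) g) := by
  simp [ev, Nop]

open MvPolynomial in
theorem surj {l : ℝ} (hl : 0 ≤ l) (p : MvPolynomial ι ℝ) :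
    ∃ (q : MvPolynomial ι ℝ) (c : ℝ), p = l • q + Nop q + C c := by
  classical
  let M : Submodule ℝ (MvPolynomial ι ℝ) :=
    { carrier := {p | ∃ (q : MvPolynomial ι ℝ) (c : ℝ), p = l • q + Nop q + C c}
      add_mem' := by
        rintro a b ⟨q, c, rfl⟩ ⟨q', c', rfl⟩
        exact ⟨q + q', c + c', by simp only [smul_add, map_add]; abel⟩
      zero_mem' := ⟨0, 0, by simp⟩
      smul_mem' := by
        rintro a b ⟨q, c, rfl⟩
        refine ⟨a • q, a * c, ?_⟩
        rw [map_smul, smul_add, smul_add, smul_comm a l q, map_mul,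
          ← MvPolynomial.smul_eq_C_mul] }
  have mono : ∀ (n : ℕ) (s : ι →₀ ℕ), ∑ i, s i = n → ∀ a : ℝ, monomial s a ∈ M := by
    intro n
    induction n using Nat.strong_induction_on with
    | _ n ih =>
      intro s hs a
      rcases Nat.eq_zero_or_pos n with h0 | h0
      · have : s = 0 := by
          ext i
          have := Finset.single_le_sum (f := fun i => s i) (fun _ _ => Nat.zero_le _)
            (Finset.mem_univ i)
          simp only [Finsupp.coe_zero, Pi.zero_apply]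
          omega
        subst this
        exact ⟨0, a, by simp⟩
      · have hpos : (0 : ℝ) < l + n := by
          have : (0 : ℝ) < n := by exact_mod_cast h0
          linarith
        have h1 : l • monomial s a + Nop (monomial s a) ∈ M := ⟨monomial s a, 0, by simp⟩
        have h2 : ∑ i, D i (D i (monomial s a)) ∈ M := by
          refine M.sum_mem fun i _ => ?_
          by_cases hi : s i = 0
          · simp [D, hi]
          · simp only [D, pderiv_monomial]
            refine ih _ ?_ _ rfl _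
            rw [← hs]
            refine Finset.sum_lt_sum (fun j _ => ?_) ⟨i, Finset.mem_univ i, ?_⟩
            · simp only [Finsupp.coe_tsub, Pi.sub_apply]; omega
            · simp only [Finsupp.coe_tsub, Pi.sub_apply, Finsupp.single_eq_same]; omega
        have h3 : (l + n) • monomial s a =
            l • monomial s a + Nop (monomial s a) + ∑ i, D i (D i (monomial s a)) := by
          have : Nop (monomial s a) =
              ∑ i, (MvPolynomial.X i * D i (monomial s a)) - ∑ i, D i (D i (monomial s a)) := by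
            rw [← Finset.sum_sub_distrib]; rfl
          rw [this]
          simp only [D, X_mul_pderiv_monomial]
          rw [← Finset.sum_smul, hs, add_smul, Nat.cast_smul_eq_nsmul]
          abel
        have h4 := M.smul_mem (l + n)⁻¹ (h3 ▸ M.add_mem h1 h2)
        rwa [smul_smul, inv_mul_cancel₀ hpos.ne', one_smul] at h4
  have : p ∈ M := by
    rw [p.as_sum]
    exact M.sum_mem fun s _ => mono _ s rfl _
  exact this

open MvPolynomial in
theorem surj_pos {l : ℝ} (hl : 0 < l) (p : MvPolynomial ι ℝ) :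
    ∃ q : MvPolynomial ι ℝ, p = l • q + Nop q := by
  obtain ⟨q, c, h⟩ := surj hl.le p
  refine ⟨q + C (c / l), ?_⟩
  have e1 : Nop (C (c / l) : MvPolynomial ι ℝ) = 0 := by simp [Nop, D]
  have e2 : l • (C (c / l) : MvPolynomial ι ℝ) = C c := by
    rw [MvPolynomial.smul_eq_C_mul, ← map_mul, mul_div_cancel₀ _ hl.ne']
  rw [smul_add, map_add, e1, e2, h]
  abel

/-! ### determinacy -/

open MvPolynomial in
theorem det_zero (ν : Measure (ι → ℝ)) [SigmaFinite ν] {χ : (ι → ℝ) → ℝ}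
    (hi : ∀ c : ℝ, Integrable (fun x => χ x * exp (c * ‖x‖)) ν)
    (h0 : ∀ p : MvPolynomial ι ℝ, ∫ x, χ x * ev p x ∂ν = 0) : χ =ᵐ[ν] 0 := by
  classical
  have h1 : Integrable χ ν := by simpa using hi 0
  have := isFiniteMeasure_withDensity_ofReal h1.2
  have := isFiniteMeasure_withDensity_ofReal h1.neg.2
  have hbd : ∀ (ℓ : StrongDual ℝ (ι → ℝ)) {f : (ι → ℝ) → ℝ}, Integrable f ν →
      Integrable (fun x => (f x : ℂ) * Complex.exp (ℓ x * Complex.I)) ν := by
    intro ℓ f hf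
    refine Integrable.mul_bdd (c := 1) hf.ofReal ?_ (Eventually.of_forall fun x => ?_)
    · exact (by fun_prop : Continuous fun x : ι → ℝ =>
        Complex.exp (ℓ x * Complex.I)).aestronglyMeasurable
    · exact (Complex.norm_exp_ofReal_mul_I _).le
  have dens : ∀ (ℓ : StrongDual ℝ (ι → ℝ)) {f : (ι → ℝ) → ℝ}, Integrable f ν →
      charFunDual (ν.withDensity fun x => ENNReal.ofReal (f x)) ℓ =
        ∫ x, ((max (f x) 0 : ℝ) : ℂ) * Complex.exp (ℓ x * Complex.I) ∂ν := by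
    intro ℓ f hf
    rw [charFunDual_apply, integral_withDensity_eq_integral_toReal_smul₀
      hf.aemeasurable.ennreal_ofReal (Eventually.of_forall fun _ => ENNReal.ofReal_lt_top)]
    refine integral_congr_ae (Eventually.of_forall fun θ => ?_)
    simp only [ENNReal.toReal_ofReal', Complex.real_smul]
  have hft : ∀ ℓ : StrongDual ℝ (ι → ℝ),
      ∫ x, (χ x : ℂ) * Complex.exp (ℓ x * Complex.I) ∂ν = 0 := by
    intro ℓ
    set P : MvPolynomial ι ℝ := ∑ i, C (ℓ (Pi.single i 1)) * MvPolynomial.X i with hP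
    have hev : ∀ x, ev P x = ℓ x := fun x => by
      have e : x = ∑ i, x i • (Pi.single i 1 : ι → ℝ) := by
        ext j; simp [Finset.sum_apply, Pi.single_apply]
      conv_rhs => rw [e]
      simp [ev, hP, mul_comm]
    have hs := hasSum_integral_of_dominated_convergence (μ := ν)
      (F := fun (k : ℕ) x => (χ x : ℂ) * ((ℓ x * Complex.I) ^ k / k.factorial))
      (f := fun x => (χ x : ℂ) * Complex.exp (ℓ x * Complex.I))
      (fun k x => |χ x| * (|ℓ x| ^ k / k.factorial)) (fun k => ?_) (fun k => ?_) ?_ ?_ ?_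
    · have hz : ∀ k : ℕ,
          ∫ x, (χ x : ℂ) * ((ℓ x * Complex.I) ^ k / k.factorial) ∂ν = 0 := fun k => by
        have e : ∀ x, (χ x : ℂ) * ((ℓ x * Complex.I) ^ k / k.factorial) =
            ((χ x * ev (P ^ k) x : ℝ) : ℂ) * (Complex.I ^ k / k.factorial) := fun x => by
          have : ev (P ^ k) x = ℓ x ^ k := by rw [← hev]; simp [ev]
          rw [this]; push_cast; ring
        simp_rw [e]
        rw [integral_mul_const, integral_complex_ofReal, h0]
        simp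
      simp_rw [hz] at hs
      exact hs.unique hasSum_zero
    · exact (Complex.continuous_ofReal.comp_aestronglyMeasurable h1.1).mul
        (by fun_prop : Continuous fun x : ι → ℝ =>
          ((ℓ x * Complex.I) ^ k / k.factorial : ℂ)).aestronglyMeasurable
    · refine Eventually.of_forall fun x => ?_
      simp [norm_mul, norm_div, norm_pow]
    · exact Eventually.of_forall fun x => (Real.summable_pow_div_factorial _).mul_left _
    · have e : (fun x => ∑' k : ℕ, |χ x| * (|ℓ x| ^ k / k.factorial)) =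
          fun x => |χ x| * exp |ℓ x| := by
        funext x
        rw [tsum_mul_left, Real.exp_eq_exp_ℝ, NormedSpace.exp_eq_tsum_div]
      rw [e]
      refine (hi ‖ℓ‖).norm.mono' (h1.1.norm.mul (by fun_prop : Continuous fun x : ι → ℝ =>
        exp |ℓ x|).aestronglyMeasurable) (Eventually.of_forall fun x => ?_)
      rw [Real.norm_eq_abs, Real.norm_eq_abs, abs_mul, abs_mul, abs_abs, abs_of_pos (exp_pos _),
        abs_of_pos (exp_pos _)]
      exact mul_le_mul_of_nonneg_left (exp_le_exp.2 (ℓ.le_opNorm x)) (abs_nonneg _)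
    · refine Eventually.of_forall fun x => HasSum.mul_left _ ?_
      rw [Complex.exp_eq_exp_ℂ]
      exact NormedSpace.expSeries_div_hasSum_exp _
  have e : (ν.withDensity fun x => ENNReal.ofReal (χ x)) =
      ν.withDensity fun x => ENNReal.ofReal ((-χ) x) := by
    refine Measure.ext_of_charFunDual (funext fun ℓ => ?_)
    rw [dens ℓ h1, dens ℓ h1.neg, ← sub_eq_zero, ← hft ℓ,
      ← integral_sub (hbd ℓ h1.pos_part) (hbd ℓ h1.neg.pos_part)]
    refine integral_congr_ae (Eventually.of_forall fun θ => ?_)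
    simp only [Pi.neg_apply]
    rw [← sub_mul, ← Complex.ofReal_sub, max_zero_sub_max_neg_zero_eq_self]
  filter_upwards [(withDensity_eq_iff_of_sigmaFinite h1.aemeasurable.ennreal_ofReal
    h1.neg.aemeasurable.ennreal_ofReal).1 e] with θ hθ
  have := congrArg ENNReal.toReal hθ
  simp only [ENNReal.toReal_ofReal', Pi.neg_apply] at this
  rw [← max_zero_sub_max_neg_zero_eq_self (χ θ), this, sub_self, Pi.zero_apply]

end Crest.Agent.T156.Cas.Hs98

end
end

-- ▼ part T156/CaLow_67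
section

/-!
# Row 156: the lower tail of a convex function with the true variance (helper67)

`x ↦ x⁻¹ log E exp (x G)` is convex on `(-∞, 0)` (`Bd.BdStmt`), so it lies above its tangent at
`0-`.
-/

set_option autoImplicit false
set_option linter.unusedSectionVars false

noncomputable section

namespace Crest.Agent.T156.Cas

open MeasureTheory Real Set Filter Topology
open Crest.Agent.T157.E Crest.Agent.T157.Casc Crest.Agent.T157.SL

namespace Low

variable {ι : Type} [Fintype ι]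

theorem eg_int {Φ : (ι → ℝ) → ℝ} (h : Eg Φ) : Integrable Φ (gv ι) := by
  classical
  obtain ⟨C, c, -, -, h3⟩ := h.bd
  exact ((int_exp c).const_mul C).mono' h.cont.aestronglyMeasurable (.of_forall fun g => h3 g)

/-- a convex function of linear growth is Lipschitz -/
theorem lip_of_convex {F : (ι → ℝ) → ℝ} (hc : ConvexOn ℝ univ F) (hF : Lg F) :
    ∃ c : ℝ, ∀ u w, |F u - F w| ≤ c * ‖u - w‖ := by
  obtain ⟨C, c, hC, hc0, h3⟩ := hF.bd
  have h4 : ∀ z, |F z| ≤ C + c * ‖z‖ := fun z => h3 (0, z) trivial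
  have key : ∀ u w, F u - F w ≤ c * ‖u - w‖ := by
    intro u w
    set K := 2 * (C + c * ‖w‖) with hK
    have hK0 : 0 ≤ K := by positivity
    refine le_of_forall_pos_le_add fun ε hε => ?_
    set s := ε / (K + ε) with hs
    have s0 : 0 < s := by positivity
    have s1 : s ≤ 1 := by rw [hs, div_le_one (by positivity)]; linarith
    have h5 := hc.2 (mem_univ w) (mem_univ (w + s⁻¹ • (u - w))) (sub_nonneg.2 s1) s0.le
      (by ring)
    have e : (1 - s) • w + s • (w + s⁻¹ • (u - w)) = u := by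
      rw [smul_add, smul_smul, mul_inv_cancel₀ s0.ne', one_smul, sub_smul, one_smul]; abel
    rw [e] at h5
    have h6 : ‖w + s⁻¹ • (u - w)‖ ≤ ‖w‖ + s⁻¹ * ‖u - w‖ := by
      refine (norm_add_le _ _).trans ?_
      rw [norm_smul, Real.norm_eq_abs, abs_of_pos (inv_pos.2 s0)]
    have h7 := (abs_le.1 (h4 (w + s⁻¹ • (u - w)))).2
    have h8 := (abs_le.1 (h4 w)).1
    have h9 : F (w + s⁻¹ • (u - w)) ≤ C + c * ‖w‖ + s⁻¹ * (c * ‖u - w‖) := by
      have := mul_le_mul_of_nonneg_left h6 hc0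
      nlinarith
    have h10 := mul_le_mul_of_nonneg_left h9 s0.le
    have e2 : s * (C + c * ‖w‖ + s⁻¹ * (c * ‖u - w‖)) = s * (C + c * ‖w‖) + c * ‖u - w‖ := by
      field_simp
    have h11 : s * K ≤ ε := by
      rw [hs, div_mul_eq_mul_div, div_le_iff₀ (by positivity)]; nlinarith
    have h12 := mul_le_mul_of_nonneg_left h8 s0.le
    simp only [smul_eq_mul] at h5
    rw [e2] at h10
    rw [hK] at h11
    nlinarith
  refine ⟨c, fun u w => abs_le.2 ⟨?_, key u w⟩⟩
  have := key w u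
  rw [norm_sub_rev] at this
  linarith

theorem exp_le_cub (u : ℝ) : exp u ≤ 1 + u + u ^ 2 / 2 + |u| ^ 3 * exp |u| := by
  have h := Complex.norm_exp_sub_sum_le_norm_mul_exp (u : ℂ) 3
  have e : Complex.exp (u : ℂ) - ∑ m ∈ Finset.range 3, (u : ℂ) ^ m / (m.factorial : ℂ) =
      ((exp u - (1 + u + u ^ 2 / 2) : ℝ) : ℂ) := by
    simp [Finset.sum_range_succ, Nat.factorial]
  rw [e, Complex.norm_real, Complex.norm_real, Real.norm_eq_abs, Real.norm_eq_abs] at h
  linarith [le_abs_self (exp u - (1 + u + u ^ 2 / 2))]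

/-- the centred case -/
theorem core (hB : Bd.BdStmt) {G : (ι → ℝ) → ℝ} (hc : ConvexOn ℝ univ G) (hG : Lg G)
    (h0 : ∫ g, G g ∂gv ι = 0) {t : ℝ} (ht : 0 < t) :
    log (∫ g, exp (-t * G g) ∂gv ι) ≤ t ^ 2 / 2 * ∫ g, G g ^ 2 ∂gv ι := by
  obtain ⟨c, hl⟩ := lip_of_convex hc hG
  have ie : ∀ x : ℝ, Integrable (fun g => exp (x * G g)) (gv ι) := fun x => eg_int (hG.exp x)
  have iG : Integrable G (gv ι) := eg_int hG.eg
  have i2 : Integrable (fun g => G g ^ 2) (gv ι) := eg_int (hG.eg.pow 2)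
  have hA : Lg fun g => |G g| := by
    obtain ⟨C, c, -, -, h3⟩ := hG.bd
    exact Lg.of hG.eg.cont.abs C c fun z => by simpa using h3 (0, z) trivial
  have i3 : Integrable (fun g => |G g| ^ 3 * exp (2 * t * |G g|)) (gv ι) :=
    eg_int ((hG.eg.abs.pow 3).mul (hA.exp (2 * t)))
  set V := ∫ g, G g ^ 2 ∂gv ι with hV
  set K := ∫ g, |G g| ^ 3 * exp (2 * t * |G g|) ∂gv ι with hK
  have V0 : 0 ≤ V := integral_nonneg fun g => sq_nonneg _
  have K0 : 0 ≤ K := integral_nonneg fun g => by positivity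
  have pos : ∀ x : ℝ, 0 < ∫ g, exp (x * G g) ∂gv ι := fun x => integral_exp_pos (ie x)
  -- Jensen
  have lo : ∀ x : ℝ, 0 ≤ log (∫ g, exp (x * G g) ∂gv ι) := by
    intro x
    refine log_nonneg ?_
    have : ∫ g, (1 + x * G g) ∂gv ι ≤ ∫ g, exp (x * G g) ∂gv ι :=
      integral_mono ((integrable_const _).add (iG.const_mul x)) (ie x) fun g => by
        have := add_one_le_exp (x * G g)
        simp only
        linarith
    rw [integral_add (integrable_const _) (iG.const_mul x), integral_const_mul, h0] at this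
    simpa using this
  -- Taylor
  have up : ∀ y : ℝ, 0 ≤ y → y ≤ 2 * t →
      log (∫ g, exp (-y * G g) ∂gv ι) ≤ y ^ 2 / 2 * V + y ^ 3 * K := by
    intro y y0 y1
    have a1 : Integrable (fun g => 1 + -y * G g) (gv ι) := (integrable_const _).add (iG.const_mul _)
    have a2 : Integrable (fun g => 1 + -y * G g + y ^ 2 / 2 * G g ^ 2) (gv ι) :=
      a1.add (i2.const_mul _)
    have : ∫ g, exp (-y * G g) ∂gv ι ≤ ∫ g, (1 + -y * G g + y ^ 2 / 2 * G g ^ 2 +
        y ^ 3 * (|G g| ^ 3 * exp (2 * t * |G g|))) ∂gv ι := by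
      refine integral_mono (ie _) (a2.add (i3.const_mul _)) fun g => ?_
      have b1 := exp_le_cub (-y * G g)
      have b2 : |-y * G g| = y * |G g| := by rw [abs_mul, abs_neg, abs_of_nonneg y0]
      rw [b2] at b1
      have b3 : exp (y * |G g|) ≤ exp (2 * t * |G g|) :=
        exp_le_exp.2 (mul_le_mul_of_nonneg_right y1 (abs_nonneg _))
      have b4 := mul_le_mul_of_nonneg_left b3 (by positivity : 0 ≤ (y * |G g|) ^ 3)
      simp only
      nlinarith
    rw [integral_add a2 (i3.const_mul _), integral_add a1 (i2.const_mul _),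
      integral_add (integrable_const _) (iG.const_mul _), integral_const_mul, integral_const_mul,
      integral_const_mul, h0] at this
    have b := log_le_sub_one_of_pos (pos (-y))
    simp only [integral_const, probReal_univ, smul_eq_mul] at this
    linarith
  set Λ := log (∫ g, exp (-t * G g) ∂gv ι) with hΛ
  have main : ∀ s : ℝ, 0 < s → s ≤ 1 → Λ ≤ t ^ 2 / 2 * V + s * (t ^ 2 / 2 * V + 4 * t ^ 3 * K) := by
    intro s s0 s1
    have hb := hB ι G G G c s (-(s ^ 2 * t)) (-t) s0.le s1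
      (.inr ⟨neg_lt_zero.2 (by positivity), neg_lt_zero.2 ht⟩) hl hl hl fun a b => by
        simpa using hc.2 (mem_univ a) (mem_univ b) (sub_nonneg.2 s1) s0.le (by ring)
    set r := 1 + (1 - s) * s with hr
    have r1 : 1 ≤ r := by nlinarith
    have r2 : r ≤ 1 + s := by nlinarith
    have e : (1 - s) * -(s ^ 2 * t) + s * -t = -(s * t * r) := by rw [hr]; ring
    rw [e] at hb
    have y0 : 0 < s * t * r := by positivity
    have y1 : s * t * r ≤ 2 * t := by
      have : s * r ≤ 2 := by nlinarith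
      nlinarith
    have u := up (s * t * r) y0.le y1
    have l := lo (-(s ^ 2 * t))
    have n1 : (1 - s) * ((-(s ^ 2 * t))⁻¹ * log (∫ g, exp (-(s ^ 2 * t) * G g) ∂gv ι)) ≤ 0 := by
      refine mul_nonpos_of_nonneg_of_nonpos (sub_nonneg.2 s1) (mul_nonpos_of_nonpos_of_nonneg ?_ l)
      rw [inv_nonpos, neg_nonpos]; positivity
    have n2 : -(s * t * r / 2 * V + (s * t * r) ^ 2 * K) ≤
        (-(s * t * r))⁻¹ * log (∫ g, exp (-(s * t * r) * G g) ∂gv ι) := by
      rw [inv_neg, neg_mul, neg_le_neg_iff, inv_mul_le_iff₀ y0]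
      refine u.trans (le_of_eq ?_)
      ring
    have n3 : s * (t⁻¹ * Λ) ≤ s * t * r / 2 * V + (s * t * r) ^ 2 * K := by
      have : s * ((-t)⁻¹ * Λ) = -(s * (t⁻¹ * Λ)) := by rw [inv_neg]; ring
      change _ ≤ _ + s * ((-t)⁻¹ * Λ) at hb
      linarith
    have n4 : Λ ≤ t ^ 2 / 2 * V * r + s * (t ^ 3 * K * r ^ 2) := by
      have := mul_le_mul_of_nonneg_left n3 (by positivity : 0 ≤ t / s)
      have e1 : t / s * (s * (t⁻¹ * Λ)) = Λ := by field_simp
      have e2 : t / s * (s * t * r / 2 * V + (s * t * r) ^ 2 * K) =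
          t ^ 2 / 2 * V * r + s * (t ^ 3 * K * r ^ 2) := by field_simp
      rwa [e1, e2] at this
    have n5 : t ^ 2 / 2 * V * r ≤ t ^ 2 / 2 * V * (1 + s) :=
      mul_le_mul_of_nonneg_left r2 (by positivity)
    have n6 : t ^ 3 * K * r ^ 2 ≤ t ^ 3 * K * 4 :=
      mul_le_mul_of_nonneg_left (by nlinarith) (by positivity)
    have n7 := mul_le_mul_of_nonneg_left n6 s0.le
    nlinarith
  refine le_of_forall_pos_le_add fun ε hε => ?_
  set B := t ^ 2 / 2 * V + 4 * t ^ 3 * K with hBdef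
  have B0 : 0 ≤ B := by positivity
  refine (main (ε / (B + ε)) (by positivity) (by rw [div_le_one (by positivity)]; linarith)).trans
    (add_le_add_right ?_ _)
  rw [div_mul_eq_mul_div, div_le_iff₀ (by positivity)]
  nlinarith

theorem low (hB : Bd.BdStmt) (F : (ι → ℝ) → ℝ) (hc : ConvexOn ℝ univ F) (hF : Lg F) (t : ℝ)
    (ht : 0 ≤ t) : ∫ g, exp (-(t * (F g - ∫ g', F g' ∂gv ι))) ∂gv ι ≤
      exp (t ^ 2 / 2 * ((∫ g, F g ^ 2 ∂gv ι) - (∫ g, F g ∂gv ι) ^ 2)) := by
  rcases ht.eq_or_lt with rfl | ht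
  · simp
  set m := ∫ g', F g' ∂gv ι with hm
  have iF : Integrable F (gv ι) := eg_int hF.eg
  have i2 : Integrable (fun g => F g ^ 2) (gv ι) := eg_int (hF.eg.pow 2)
  have hG : Lg fun g => F g - m := by
    obtain ⟨C, c, -, -, h3⟩ := hF.bd
    refine Lg.of (hF.eg.cont.sub continuous_const) (C + |m|) c fun z => ?_
    have h4 : |F z| ≤ C + c * ‖z‖ := h3 (0, z) trivial
    have := abs_sub (F z) m
    linarith
  have hc' : ConvexOn ℝ univ fun g => F g - m := by
    simp only [sub_eq_add_neg]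
    exact hc.add_const (-m)
  have h0 : ∫ g, (F g - m) ∂gv ι = 0 := by
    rw [integral_sub iF (integrable_const _)]; simp [hm]
  have h1 := core hB hc' hG h0 ht
  have e : ∫ g, (F g - m) ^ 2 ∂gv ι = (∫ g, F g ^ 2 ∂gv ι) - m ^ 2 := by
    have a1 : Integrable (fun g => F g ^ 2 - 2 * m * F g) (gv ι) := i2.sub (iF.const_mul _)
    rw [show (fun g => (F g - m) ^ 2) = fun g => F g ^ 2 - 2 * m * F g + m ^ 2 from
      funext fun g => by ring, integral_add a1 (integrable_const _),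
      integral_sub i2 (iF.const_mul _), integral_const_mul, ← hm]
    simp only [integral_const, probReal_univ, smul_eq_mul]
    ring
  rw [e, log_le_iff_le_exp (integral_exp_pos (eg_int (hG.exp (-t))))] at h1
  simpa only [neg_mul] using h1

end Low


end Crest.Agent.T156.Cas

end
end

-- ▼ part T156/Hs_98
section

/-!
# Row 156: the Helffer–Sjöstrand inequality in the `lE` frame (helper98)

`Var f ≤ ‖∇f‖²_{-1}` for the law `∝ exp (-U) γ`, `U` convex.  No PDE: polynomials are dense in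
`L²(μ)`, `(λ + A) Poly` is dense (Kato–Rellich), the kernel of `A*` is made of constants, and the
Bochner identity holds on polynomials.  Corollaries: `blStmt`, Poincaré.
-/

set_option autoImplicit false
set_option maxHeartbeats 400000

noncomputable section

namespace Crest.Agent.T156.Cas

open MeasureTheory Real Set Filter Topology
open Crest.Agent.T157.E Crest.Agent.T157.Casc Crest.Agent.T157.SL
open scoped RealInnerProductSpace

/-- **Helffer–Sjöstrand**, dual form with the Hessian -/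
def HsStmt : Prop := ∀ (ι : Type) [Fintype ι] (U f : (ι → ℝ) → ℝ) (U₁ f₁ : ι → (ι → ℝ) → ℝ)
  (U₂ : ι → ι → (ι → ℝ) → ℝ) (K : ℝ), ConvexOn ℝ univ U → Lg U → Gr U U₁ →
  (∀ i, Gr (U₁ i) (U₂ i)) → Gr f f₁ → 0 ≤ K →
  (∀ (u : ι → (ι → ℝ) → ℝ) (u₁ : ι → ι → (ι → ℝ) → ℝ), (∀ e, Gr (u e) (u₁ e)) →
    ∑ e, lE U (fun g => f₁ e g * u e g) ≤ K * √(∑ e, ∑ j, lE U (fun g => u₁ e j g ^ 2) +
      lE U fun g => ∑ i, u i g ^ 2 + ∑ i, ∑ j, U₂ i j g * u i g * u j g)) →
  lC U f f ≤ K ^ 2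

namespace Hs98

variable {ι : Type} [Fintype ι] {U f h Θ : (ι → ℝ) → ℝ} {U₁ f₁ h₁ Θ₁ : ι → (ι → ℝ) → ℝ}
  {U₂ : ι → ι → (ι → ℝ) → ℝ}

/-- the law `∝ exp (-U) γ` -/
def mu (U : (ι → ℝ) → ℝ) : Measure (ι → ℝ) := (gv ι).tilted fun g => -U g

theorem eg_exp_neg (hU : Lg U) : Eg fun g => exp (-U g) := by
  simpa using hU.exp (-1)

theorem prob (hU : Lg U) : IsProbabilityMeasure (mu U) :=
  isProbabilityMeasure_tilted (Tr.eg_int (eg_exp_neg hU))

theorem lE_eq (U f : (ι → ℝ) → ℝ) : lE U f = ∫ g, f g ∂mu U := by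
  rw [mu, integral_tilted, lE, ← integral_div]
  refine integral_congr_ae (Eventually.of_forall fun g => ?_)
  simp only [smul_eq_mul]
  ring

theorem egi (hU : Lg U) (hf : Eg f) : Integrable f (mu U) := by
  rw [mu, integrable_tilted_iff (Tr.eg_int (eg_exp_neg hU))]
  exact Tr.eg_int ((eg_exp_neg hU).mul hf)

theorem mem2 (hU : Lg U) (hf : Eg f) : MemLp f 2 (mu U) :=
  (memLp_two_iff_integrable_sq hf.cont.aestronglyMeasurable).2 (egi hU (hf.pow 2))

theorem stein0 (hΘ : Gr Θ Θ₁) (i : ι) : ∫ g, g i * Θ g ∂gv ι = ∫ g, Θ₁ i g ∂gv ι := by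
  classical
  refine T157.SL.stein (hΘ.eg.toEG univ) ((hΘ.eg' i).toEG univ) (mem_univ 0) i fun y => ?_
  have h1 : HasDerivAt (fun s : ℝ => Function.update y i s) (Pi.single i 1) (y i) :=
    hasDerivAt_update y i (y i)
  have h2 := hΘ.hasDerivAt h1
  simp only [Function.update_eq_self] at h2
  refine h2.congr_deriv ?_
  simp [Pi.single_apply]

theorem stein_mu (hU : Lg U) (h1 : Gr U U₁) (hΘ : Gr Θ Θ₁) (i : ι) :
    ∫ g, ((g i + U₁ i g) * Θ g - Θ₁ i g) ∂mu U = 0 := by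
  have h := stein0 ((h1.exp hU (-1)).mul hΘ) i
  have e1 := (hU.exp (-1))
  rw [← lE_eq, lE, div_eq_zero_iff]
  left
  rw [← sub_eq_zero, ← integral_sub (Tr.eg_int ((Eg.coord i).mul (e1.mul hΘ.eg)))
    (Tr.eg_int (((e1.mul ((h1.eg' i).const_mul _)).mul hΘ.eg).add (e1.mul (hΘ.eg' i))))] at h
  rw [← h]
  refine integral_congr_ae (Eventually.of_forall fun g => ?_)
  simp only [neg_mul, one_mul]
  ring

/-- the generator (with a sign) on polynomials -/
def Af (U₁ : ι → (ι → ℝ) → ℝ) (p : MvPolynomial ι ℝ) (g : ι → ℝ) : ℝ :=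
  ∑ i, ((g i + U₁ i g) * ev (D i p) g - ev (D i (D i p)) g)

/-- the perturbation -/
def Bf (U₁ : ι → (ι → ℝ) → ℝ) (p : MvPolynomial ι ℝ) (g : ι → ℝ) : ℝ :=
  ∑ i, U₁ i g * ev (D i p) g

theorem eg_Af (h1 : Gr U U₁) (p : MvPolynomial ι ℝ) : Eg (Af U₁ p) :=
  Eg.sum _ fun i _ => (((Eg.coord i).add (h1.eg' i)).mul (eg_ev _)).sub (eg_ev _)

theorem eg_Bf (h1 : Gr U U₁) (p : MvPolynomial ι ℝ) : Eg (Bf U₁ p) :=
  Eg.sum _ fun i _ => (h1.eg' i).mul (eg_ev _)

theorem Af_eq (p : MvPolynomial ι ℝ) (g : ι → ℝ) : Af U₁ p g = ev (Nop p) g + Bf U₁ p g := by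
  rw [ev_Nop, Af, Bf, ← Finset.sum_add_distrib]
  exact Finset.sum_congr rfl fun _ _ => by ring

theorem green (hU : Lg U) (h1 : Gr U U₁) (hh : Gr h h₁) (p : MvPolynomial ι ℝ) :
    ∫ g, h g * Af U₁ p g ∂mu U = ∑ i, ∫ g, h₁ i g * ev (D i p) g ∂mu U := by
  have e : (fun g => h g * Af U₁ p g) = fun g => ∑ i, (((g i + U₁ i g) * (h g * ev (D i p) g) -
      (h₁ i g * ev (D i p) g + h g * ev (D i (D i p)) g)) + h₁ i g * ev (D i p) g) := by
    funext g
    rw [Af, Finset.mul_sum]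
    exact Finset.sum_congr rfl fun _ _ => by ring
  have i1 : ∀ i, Eg fun g => (g i + U₁ i g) * (h g * ev (D i p) g) -
      (h₁ i g * ev (D i p) g + h g * ev (D i (D i p)) g) := fun i =>
    (((Eg.coord i).add (h1.eg' i)).mul (hh.eg.mul (eg_ev _))).sub
      (((hh.eg' i).mul (eg_ev _)).add (hh.eg.mul (eg_ev _)))
  rw [e, integral_finsetSum _ fun i _ => egi hU ((i1 i).add ((hh.eg' i).mul (eg_ev _)))]
  refine Finset.sum_congr rfl fun i _ => ?_
  rw [integral_add (egi hU (i1 i)) (egi hU ((hh.eg' i).mul (eg_ev _))),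
    stein_mu hU h1 (hh.mul (gr_ev (D i p))) i, zero_add]

theorem gr_Af (h2 : ∀ i, Gr (U₁ i) (U₂ i)) (p : MvPolynomial ι ℝ) :
    Gr (Af U₁ p) fun j g => Af U₁ (D j p) g + ev (D j p) g + ∑ i, U₂ i j g * ev (D i p) g := by
  classical
  have h := Gr.sum Finset.univ fun i (_ : i ∈ Finset.univ) =>
    ((((gr_coord i).add (h2 i)).mul (gr_ev (D i p))).add ((gr_ev (D i (D i p))).const_mul (-1)))
  have e : Af U₁ p = fun z => ∑ i, ((z i + U₁ i z) * ev (D i p) z + -1 * ev (D i (D i p)) z) := by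
    funext z
    exact Finset.sum_congr rfl fun _ _ => by ring
  rw [e]
  refine h.congr fun j z => ?_
  have e2 : ev (D j p) z = ∑ i, (if j = i then (1 : ℝ) else 0) * ev (D i p) z := by simp
  rw [e2, Af, ← Finset.sum_add_distrib, ← Finset.sum_add_distrib]
  refine Finset.sum_congr rfl fun i _ => ?_
  rw [D_comm j i (D i p), D_comm j i p]
  convert_to _ = ((if j = i then (1 : ℝ) else 0) + U₂ i j z) * ev (D i p) z +
    (z i + U₁ i z) * ev (D i (D j p)) z + -1 * ev (D i (D i (D j p))) z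
  ring

theorem bochner (hU : Lg U) (h1 : Gr U U₁) (h2 : ∀ i, Gr (U₁ i) (U₂ i)) (p : MvPolynomial ι ℝ) :
    ∫ g, Af U₁ p g * Af U₁ p g ∂mu U = ∑ e, ∑ j, ∫ g, ev (D j (D e p)) g ^ 2 ∂mu U +
      ∫ g, (∑ i, ev (D i p) g ^ 2 + ∑ i, ∑ j, U₂ i j g * ev (D i p) g * ev (D j p) g) ∂mu U := by
  rw [green hU h1 (gr_Af h2 p) p]
  have i2 : ∀ j, Eg fun g => ev (D j p) g ^ 2 + ∑ i, U₂ i j g * ev (D i p) g * ev (D j p) g :=
    fun j => ((eg_ev _).pow 2).add
      (Eg.sum _ fun i _ => (((h2 i).eg' j).mul (eg_ev _)).mul (eg_ev _))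
  have e : (fun g => ∑ i, ev (D i p) g ^ 2 + ∑ i, ∑ j, U₂ i j g * ev (D i p) g * ev (D j p) g) =
      fun g => ∑ j, (ev (D j p) g ^ 2 + ∑ i, U₂ i j g * ev (D i p) g * ev (D j p) g) := by
    funext g
    rw [Finset.sum_add_distrib, Finset.sum_comm]
  rw [e, integral_finsetSum _ fun j _ => egi hU (i2 j), ← Finset.sum_add_distrib]
  refine Finset.sum_congr rfl fun j _ => ?_
  have e3 : (fun g => (Af U₁ (D j p) g + ev (D j p) g + ∑ i, U₂ i j g * ev (D i p) g) *
      ev (D j p) g) = fun g => ev (D j p) g * Af U₁ (D j p) g +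
        (ev (D j p) g ^ 2 + ∑ i, U₂ i j g * ev (D i p) g * ev (D j p) g) := by
    funext g
    rw [← Finset.sum_mul]
    ring
  rw [e3, integral_add (egi hU ((eg_ev _).mul (eg_Af h1 _))) (egi hU (i2 j)),
    green hU h1 (gr_ev (D j p)) (D j p)]
  simp only [sq]

theorem grad_bd (hc : ConvexOn ℝ univ U) (hU : Lg U) (h1 : Gr U U₁) :
    ∃ c : ℝ, ∀ i g, |U₁ i g| ≤ c := by
  classical
  obtain ⟨c, hc⟩ := Low.lip_of_convex hc hU
  refine ⟨|c|, fun i g => ?_⟩
  have h := (h1.fd g).le_of_lip' (abs_nonneg c) (Eventually.of_forall fun x =>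
    (hc x g).trans (mul_le_mul_of_nonneg_right (le_abs_self c) (norm_nonneg _)))
  have h2 := (Crest.Agent.R339.Guerra.dual fun x => U₁ x g).le_opNorm (Pi.single i 1)
  rw [Pi.norm_single, norm_one, mul_one] at h2
  have e : (Crest.Agent.R339.Guerra.dual fun x => U₁ x g) (Pi.single i 1) = U₁ i g := by
    simp [Pi.single_apply]
  rw [e] at h2
  exact h2.trans h

theorem hess_nonneg (hc : ConvexOn ℝ univ U) (h1 : Gr U U₁) (h2 : ∀ i, Gr (U₁ i) (U₂ i))
    (g η : ι → ℝ) : 0 ≤ ∑ i, ∑ j, U₂ i j g * η i * η j := by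
  have c1 : ConvexOn ℝ univ fun s : ℝ => U (g + s • η) := by
    have := hc.comp_affineMap (AffineMap.lineMap g (g + η))
    simp only [preimage_univ] at this
    have e : (fun s : ℝ => U (g + s • η)) = U ∘ AffineMap.lineMap g (g + η) := by
      funext s
      simp [AffineMap.lineMap_apply, add_comm]
    rw [e]
    exact this
  have d1 := h1.line g η
  have m1 : Monotone fun s : ℝ => ∑ i, U₁ i (g + s • η) * η i := by
    have := c1.monotoneOn_deriv fun s _ => (d1 s).differentiableAt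
    rw [monotoneOn_univ] at this
    convert this using 2 with s
    exact (d1 s).deriv.symm
  have d2 : HasDerivAt (fun s : ℝ => ∑ i, U₁ i (g + s • η) * η i)
      (∑ i, (∑ j, U₂ i j (g + (0 : ℝ) • η) * η j) * η i) 0 :=
    HasDerivAt.fun_sum fun i _ => ((h2 i).line g η 0).mul_const _
  have := d2.nonneg_of_monotone m1
  simp only [zero_smul, add_zero, Finset.sum_mul] at this
  refine this.trans_eq (Finset.sum_congr rfl fun i _ => Finset.sum_congr rfl fun j _ => ?_)
  ring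

/-! ### the Hilbert space -/

/-- the class of a function of exponential growth -/
def Lm (hU : Lg U) (f : (ι → ℝ) → ℝ) (hf : Eg f) : Lp ℝ 2 (mu U) := (mem2 hU hf).toLp f

theorem inner_Lm (hU : Lg U) (hf : Eg f) (ψ : Lp ℝ 2 (mu U)) :
    ⟪ψ, Lm hU f hf⟫ = ∫ g, ψ g * f g ∂mu U := by
  rw [L2.inner_def]
  refine integral_congr_ae ?_
  filter_upwards [(mem2 hU hf).coeFn_toLp] with g hg
  rw [Lm, hg]
  simp [mul_comm]

theorem inner_Lm2 (hU : Lg U) (hf : Eg f) (hh : Eg h) :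
    ⟪Lm hU h hh, Lm hU f hf⟫ = ∫ g, h g * f g ∂mu U := by
  rw [inner_Lm]
  refine integral_congr_ae ?_
  filter_upwards [(mem2 hU hh).coeFn_toLp] with g hg
  rw [Lm, hg]

theorem norm_Lm (hU : Lg U) (hf : Eg f) : ‖Lm hU f hf‖ ^ 2 = ∫ g, f g * f g ∂mu U := by
  rw [← real_inner_self_eq_norm_sq, inner_Lm2]

theorem int_psi (hU : Lg U) (hf : Eg f) (ψ : Lp ℝ 2 (mu U)) :
    Integrable (fun g => ψ g * f g) (mu U) :=
  (Lp.memLp ψ).integrable_mul (mem2 hU hf)

/-- a linear map from polynomials -/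
def mkL (hU : Lg U) (F : MvPolynomial ι ℝ → (ι → ℝ) → ℝ) (hF : ∀ p, Eg (F p))
    (ha : ∀ p q g, F (p + q) g = F p g + F q g) (hs : ∀ (c : ℝ) p g, F (c • p) g = c * F p g) :
    MvPolynomial ι ℝ →ₗ[ℝ] Lp ℝ 2 (mu U) where
  toFun p := Lm hU (F p) (hF p)
  map_add' p q := by
    rw [Lm, Lm, Lm, ← MemLp.toLp_add]
    exact MemLp.toLp_congr _ _ (Eventually.of_forall fun g => ha p q g)
  map_smul' c p := by
    rw [Lm, Lm, RingHom.id_apply, ← MemLp.toLp_const_smul]
    exact MemLp.toLp_congr _ _ (Eventually.of_forall fun g => hs c p g)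

/-- the embedding -/
def JL (hU : Lg U) : MvPolynomial ι ℝ →ₗ[ℝ] Lp ℝ 2 (mu U) := mkL hU ev eg_ev ev_add ev_smul

/-- the perturbation -/
def BL (hU : Lg U) (h1 : Gr U U₁) : MvPolynomial ι ℝ →ₗ[ℝ] Lp ℝ 2 (mu U) :=
  mkL hU (Bf U₁) (eg_Bf h1)
    (fun p q g => by
      simp only [Bf, D, map_add, ev_add, mul_add, Finset.sum_add_distrib])
    (fun c p g => by
      simp only [Bf, D, Derivation.map_smul, ev_smul, Finset.mul_sum]
      exact Finset.sum_congr rfl fun _ _ => by ring)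

/-- the generator -/
def AL (hU : Lg U) (h1 : Gr U U₁) : MvPolynomial ι ℝ →ₗ[ℝ] Lp ℝ 2 (mu U) :=
  JL hU ∘ₗ Nop + BL hU h1

theorem AL_eq (hU : Lg U) (h1 : Gr U U₁) (p : MvPolynomial ι ℝ) :
    AL hU h1 p = Lm hU (Af U₁ p) (eg_Af h1 p) := by
  change Lm hU _ (eg_ev (Nop p)) + Lm hU _ (eg_Bf h1 p) = _
  rw [Lm, Lm, Lm, ← MemLp.toLp_add]
  exact MemLp.toLp_congr _ _ (Eventually.of_forall fun g => (Af_eq p g).symm)

theorem JL_eq (hU : Lg U) (p : MvPolynomial ι ℝ) : JL hU p = Lm hU (ev p) (eg_ev p) := rfl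

theorem JA (hU : Lg U) (h1 : Gr U U₁) (p : MvPolynomial ι ℝ) :
    ⟪JL hU p, AL hU h1 p⟫ = ∑ i, ‖JL hU (D i p)‖ ^ 2 := by
  rw [AL_eq, JL_eq, inner_Lm2, green hU h1 (gr_ev p) p]
  exact Finset.sum_congr rfl fun i _ => by rw [JL_eq, norm_Lm]

theorem eg_en (c : ℝ) : Eg fun x : ι → ℝ => exp (c * ‖x‖) :=
  (Lg.of continuous_norm 0 1 fun z => by simp).exp c

theorem dense_J (hU : Lg U) (ψ : Lp ℝ 2 (mu U)) (h : ∀ v, ⟪ψ, JL hU v⟫ = 0) : ψ = 0 := by
  have := prob hU
  rw [Lp.eq_zero_iff_ae_eq_zero]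
  exact det_zero (mu U) (fun c => int_psi hU (eg_en c) ψ) fun p => by
    rw [← inner_Lm hU (eg_ev p)]; exact h p

theorem dense_S (hc : ConvexOn ℝ univ U) (hU : Lg U) (h1 : Gr U U₁) : ∃ l : ℝ, 1 ≤ l ∧
    ∀ ψ : Lp ℝ 2 (mu U), (∀ v, ⟪ψ, (l • JL hU + AL hU h1) v⟫ = 0) → ψ = 0 := by
  obtain ⟨c, hb⟩ := grad_bd hc hU h1
  set k : ℝ := ∑ _i : ι, c ^ 2 with hk
  have hk0 : 0 ≤ k := Finset.sum_nonneg fun _ _ => sq_nonneg _
  refine ⟨8 * k + 1, by linarith, kato (JL hU) (AL hU h1) (BL hU h1) (dense_J hU)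
    (fun p => ?_) fun q => ?_⟩
  · obtain ⟨q, hq⟩ := surj_pos (l := 8 * k + 1) (by linarith) p
    refine ⟨q, ?_⟩
    rw [hq, map_add, map_smul, AL, LinearMap.add_apply, LinearMap.comp_apply, add_assoc]
  · rw [JA]
    have e1 : ‖BL hU h1 q‖ ^ 2 = ∫ g, Bf U₁ q g * Bf U₁ q g ∂mu U := norm_Lm hU (eg_Bf h1 q)
    have e2 : ∑ i, ‖JL hU (D i q)‖ ^ 2 = ∫ g, ∑ i, ev (D i q) g * ev (D i q) g ∂mu U := by
      rw [integral_finsetSum _ fun i _ => egi hU ((eg_ev _).mul (eg_ev _))]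
      exact Finset.sum_congr rfl fun i _ => by rw [JL_eq, norm_Lm]
    have e3 : ∫ g, Bf U₁ q g * Bf U₁ q g ∂mu U ≤
        ∫ g, k * ∑ i, ev (D i q) g * ev (D i q) g ∂mu U := by
      refine integral_mono (egi hU ((eg_Bf h1 q).mul (eg_Bf h1 q)))
        (egi hU ((Eg.sum _ fun i _ => (eg_ev _).mul (eg_ev _)).const_mul k)) fun g => ?_
      have a1 := Finset.sum_mul_sq_le_sq_mul_sq Finset.univ (fun i => U₁ i g)
        (fun i => ev (D i q) g)
      have a2 : ∑ i, U₁ i g ^ 2 ≤ k :=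
        Finset.sum_le_sum fun i _ => sq_le_sq' (abs_le.1 (hb i g)).1 (abs_le.1 (hb i g)).2
      simp only [← sq, Bf]
      exact a1.trans (mul_le_mul_of_nonneg_right a2 (Finset.sum_nonneg fun _ _ => sq_nonneg _))
    rw [integral_const_mul, ← e2, ← e1] at e3
    have e4 : 0 ≤ ∑ i, ‖JL hU (D i q)‖ ^ 2 := Finset.sum_nonneg fun _ _ => sq_nonneg _
    nlinarith

/-- an element orthogonal to the range of the generator has zero weak gradient -/
theorem weak (hc : ConvexOn ℝ univ U) (hU : Lg U) (h1 : Gr U U₁) (ψ : Lp ℝ 2 (mu U))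
    (hψ : ∀ v, ⟪ψ, AL hU h1 v⟫ = 0) (hΘ : Gr Θ Θ₁) (i : ι) :
    ∫ g, ψ g * ((g i + U₁ i g) * Θ g - Θ₁ i g) ∂mu U = 0 := by
  obtain ⟨l, hl, hS⟩ := dense_S hc hU h1
  have eD : Eg fun g => (g i + U₁ i g) * Θ g - Θ₁ i g :=
    (((Eg.coord i).add (h1.eg' i)).mul hΘ.eg).sub (hΘ.eg' i)
  rw [← inner_Lm hU eD]
  set a := Lm hU _ eD with ha
  set b := Lm hU _ hΘ.eg with hb
  have key : ∀ ε : ℝ, 0 < ε → |⟪ψ, a⟫| ≤ ε * (‖a‖ + ‖b‖) := by
    intro ε hε
    obtain ⟨v, hv1, hv2⟩ := kerstep (JL hU) (AL hU h1) hl hS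
      (fun q => by rw [JA]; exact Finset.sum_nonneg fun _ _ => sq_nonneg _) ψ hψ hε
    rw [JA] at hv2
    have h3 : ‖JL hU (D i v)‖ ≤ ε :=
      (pow_le_pow_iff_left₀ (norm_nonneg _) hε.le two_ne_zero).1
        ((Finset.single_le_sum (f := fun j => ‖JL hU (D j v)‖ ^ 2) (fun _ _ => sq_nonneg _)
          (Finset.mem_univ i)).trans hv2)
    have h4 : ⟪JL hU v, a⟫ = ⟪JL hU (D i v), b⟫ := by
      rw [JL_eq, JL_eq, ha, hb, inner_Lm2, inner_Lm2, ← sub_eq_zero,
        ← integral_sub (egi hU ((eg_ev _).mul eD)) (egi hU ((eg_ev _).mul hΘ.eg)),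
        ← stein_mu hU h1 ((gr_ev v).mul hΘ) i]
      refine integral_congr_ae (Eventually.of_forall fun g => ?_)
      simp only
      ring
    have h5 : ⟪ψ, a⟫ = ⟪JL hU (D i v), b⟫ - ⟪JL hU v - ψ, a⟫ := by
      rw [inner_sub_left, h4]; ring
    rw [h5]
    have h6 := abs_real_inner_le_norm (JL hU (D i v)) b
    have h7 := abs_real_inner_le_norm (JL hU v - ψ) a
    have h8 := mul_le_mul_of_nonneg_right h3 (norm_nonneg b)
    have h9 := mul_le_mul_of_nonneg_right hv1 (norm_nonneg a)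
    have h10 := abs_sub ⟪JL hU (D i v), b⟫ ⟪JL hU v - ψ, a⟫
    linarith
  have hn : 0 ≤ ‖a‖ + ‖b‖ := by positivity
  refine abs_eq_zero.1 (le_antisymm (le_of_forall_pos_le_add fun δ hδ => ?_) (abs_nonneg _))
  have := key (δ / (‖a‖ + ‖b‖ + 1)) (by positivity)
  refine this.trans ?_
  rw [zero_add, div_mul_eq_mul_div, div_le_iff₀ (by positivity)]
  nlinarith

theorem kernel (hc : ConvexOn ℝ univ U) (hU : Lg U) (h1 : Gr U U₁) (ψ : Lp ℝ 2 (mu U))
    (hψ : ∀ v, ⟪ψ, AL hU h1 v⟫ = 0) (h0 : ∫ g, ψ g ∂mu U = 0) : ψ = 0 := by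
  have := prob hU
  have eU : Eg fun g => exp (1 * U g) := hU.exp 1
  have hpos : 0 < ∫ g, exp (1 * U g) ∂mu U := integral_exp_pos (egi hU eU)
  set c : ℝ := (∫ g, ψ g * exp (1 * U g) ∂mu U) / ∫ g, exp (1 * U g) ∂mu U with hcdef
  have hint : ∀ {F : (ι → ℝ) → ℝ}, Eg F → Integrable (fun g => (ψ g - c) * F g) (mu U) := by
    intro F hF
    simp_rw [sub_mul]
    exact (int_psi hU hF ψ).sub (egi hU (hF.const_mul c))
  have hsp : ∀ {F : (ι → ℝ) → ℝ}, Eg F → ∫ g, (ψ g - c) * F g ∂mu U =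
      ∫ g, ψ g * F g ∂mu U - c * ∫ g, F g ∂mu U := by
    intro F hF
    simp_rw [sub_mul]
    rw [integral_sub (int_psi hU hF ψ) (egi hU (hF.const_mul c)), integral_const_mul]
  have hz : (fun g => (ψ g - c) * exp (1 * U g)) =ᵐ[mu U] 0 := by
    refine det_zero (mu U) (fun a => ?_) fun p => ?_
    · simp_rw [mul_assoc]
      exact hint (eU.mul (eg_en a))
    · obtain ⟨q, a, hq⟩ := surj (le_refl (0 : ℝ)) p
      have eD : ∀ i, Eg fun g => (g i + U₁ i g) * (exp (1 * U g) * ev (D i q) g) -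
          (exp (1 * U g) * (1 * U₁ i g) * ev (D i q) g + exp (1 * U g) * ev (D i (D i q)) g) :=
        fun i => (((Eg.coord i).add (h1.eg' i)).mul (eU.mul (eg_ev _))).sub
          (((h1.exp hU 1).mul (gr_ev (D i q))).eg' i)
      have e : (fun g => (ψ g - c) * exp (1 * U g) * ev p g) = fun g =>
          ∑ i, (ψ g - c) * ((g i + U₁ i g) * (exp (1 * U g) * ev (D i q) g) -
            (exp (1 * U g) * (1 * U₁ i g) * ev (D i q) g + exp (1 * U g) * ev (D i (D i q)) g)) +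
          a * ((ψ g - c) * exp (1 * U g)) := by
        funext g
        have e1 : ev p g = ev (Nop q) g + a := by rw [hq]; simp [ev]
        rw [e1, ev_Nop, mul_add, Finset.mul_sum]
        congr 1
        · exact Finset.sum_congr rfl fun _ _ => by ring
        · ring
      rw [e, integral_add (integrable_finset_sum _ fun i _ => hint (eD i))
        ((hint eU).const_mul a), integral_finsetSum _ fun i _ => hint (eD i), integral_const_mul,
        hsp eU, hcdef, div_mul_cancel₀ _ hpos.ne', sub_self, mul_zero, add_zero]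
      refine Finset.sum_eq_zero fun i _ => ?_
      rw [← hcdef, hsp (eD i), weak hc hU h1 ψ hψ ((h1.exp hU 1).mul (gr_ev (D i q))) i,
        stein_mu hU h1 ((h1.exp hU 1).mul (gr_ev (D i q))) i]
      simp
  have hψc : (ψ : (ι → ℝ) → ℝ) =ᵐ[mu U] fun _ => c := by
    filter_upwards [hz] with g hg
    simpa [sub_eq_zero] using hg
  have hc0 : c = 0 := by
    rw [integral_congr_ae hψc] at h0
    simpa using h0
  rw [Lp.eq_zero_iff_ae_eq_zero]
  rw [hc0] at hψc
  exact hψc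

theorem lC_eq (hU : Lg U) (hf : Eg f) :
    lC U f f = ∫ g, (f g - lE U f) * (f g - lE U f) ∂mu U := by
  have := prob hU
  have e : (fun g => (f g - lE U f) * (f g - lE U f)) =
      fun g => (f g * f g - (2 * lE U f) * f g) + lE U f * lE U f := by funext g; ring
  rw [e, integral_add (egi hU ((hf.mul hf).sub (hf.const_mul _))) (integrable_const _),
    integral_sub (egi hU (hf.mul hf)) (egi hU (hf.const_mul _)), integral_const_mul, lC,
    ← lE_eq, ← lE_eq]
  simp only [integral_const, probReal_univ, smul_eq_mul, one_mul]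
  ring

end Hs98

open Hs98 in
theorem hsStmt : HsStmt := by
  intro ι _ U f U₁ f₁ U₂ K hc hU h1 h2 hf hK H
  have := prob hU
  have hf' : Gr (fun g => f g - lE U f) f₁ := by
    simpa only [← sub_eq_add_neg, add_zero] using hf.add (Gr.const (-lE U f))
  set one := Lm hU (fun _ => (1 : ℝ)) (Eg.const 1) with hone
  set g0 := Lm hU _ hf'.eg with hg0
  have hn : lC U f f = ‖g0‖ ^ 2 := by rw [hg0, norm_Lm, lC_eq hU hf.eg]
  have o1 : ⟪g0, one⟫ = 0 := by
    rw [hg0, hone, inner_Lm2]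
    simp only [mul_one]
    rw [integral_sub (egi hU hf.eg) (integrable_const _), ← lE_eq]
    simp
  have o2 : ∀ v, ⟪one, AL hU h1 v⟫ = 0 := fun v => by
    rw [AL_eq, hone, inner_Lm2, green hU h1 (Gr.const 1) v]
    simp
  have o3 : ∀ v, ⟪g0, AL hU h1 v⟫ ≤ K * ‖AL hU h1 v‖ := fun v => by
    have := H (fun e => ev (D e v)) (fun e j => ev (D j (D e v))) fun e => gr_ev _
    simp only [lE_eq] at this
    rw [← bochner hU h1 h2 v, ← norm_Lm hU (eg_Af h1 v), sqrt_sq (norm_nonneg _)] at this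
    rw [AL_eq, hg0, inner_Lm2, green hU h1 hf' v]
    exact this
  have key : ∀ ε : ℝ, 0 < ε → ‖g0‖ ^ 2 ≤ K * (‖g0‖ + ε) + ε * ‖g0‖ := by
    intro ε hε
    obtain ⟨⟨v, c⟩, hv⟩ := approx ((AL hU h1).coprod (LinearMap.toSpanSingleton ℝ _ one))
      (fun ψ hψ => kernel hc hU h1 ψ (fun v => by simpa using hψ (v, 0)) (by
        have := hψ (0, 1)
        simp only [LinearMap.coprod_apply, map_zero, LinearMap.toSpanSingleton_apply, one_smul,
          zero_add] at this
        rw [hone, inner_Lm] at this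
        simpa using this)) g0 hε
    simp only [LinearMap.coprod_apply, LinearMap.toSpanSingleton_apply] at hv
    set r := AL hU h1 v + c • one - g0 with hr
    have a1 : ‖g0‖ ^ 2 = ⟪g0, AL hU h1 v⟫ - ⟪g0, r⟫ := by
      rw [hr, inner_sub_right, inner_add_right, real_inner_smul_right, o1,
        real_inner_self_eq_norm_sq]
      ring
    have a2 := norm_lin one (AL hU h1 v) c
    rw [o2] at a2
    have a3 : ‖AL hU h1 v‖ ≤ ‖c • one + AL hU h1 v‖ :=
      (pow_le_pow_iff_left₀ (norm_nonneg _) (norm_nonneg _) two_ne_zero).1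
        (by rw [a2]; nlinarith [sq_nonneg (c * ‖one‖)])
    have a4 : ‖c • one + AL hU h1 v‖ ≤ ‖g0‖ + ε := by
      have e : c • one + AL hU h1 v = g0 + r := by rw [hr]; abel
      rw [e]
      exact (norm_add_le _ _).trans (by linarith)
    have a5 := abs_real_inner_le_norm g0 r
    have a6 := neg_abs_le ⟪g0, r⟫
    have a7 := mul_le_mul_of_nonneg_left hv.le (norm_nonneg g0)
    have a8 := mul_le_mul_of_nonneg_left (a3.trans a4) hK
    have a9 := o3 v
    linarith
  have hg := norm_nonneg g0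
  have fin : ‖g0‖ ^ 2 ≤ K * ‖g0‖ := by
    refine le_of_forall_pos_le_add fun δ hδ => ?_
    have := key (δ / (K + ‖g0‖ + 1)) (by positivity)
    have e : δ / (K + ‖g0‖ + 1) * (K + ‖g0‖) ≤ δ := by
      rw [div_mul_eq_mul_div, div_le_iff₀ (by positivity)]
      nlinarith
    nlinarith
  rw [hn]
  nlinarith [sq_nonneg (K - ‖g0‖)]

/-- **Helffer–Sjöstrand** without the Hessian: `Var f ≤ ‖∇f‖²_{-1}` -/
theorem hs1 {ι : Type} [Fintype ι] {U f : (ι → ℝ) → ℝ} {U₁ f₁ : ι → (ι → ℝ) → ℝ}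
    {U₂ : ι → ι → (ι → ℝ) → ℝ} {K : ℝ} (hc : ConvexOn ℝ univ U) (hU : Lg U) (h1 : Gr U U₁)
    (h2 : ∀ i, Gr (U₁ i) (U₂ i)) (hf : Gr f f₁) (hK : 0 ≤ K)
    (H : ∀ (u : ι → (ι → ℝ) → ℝ) (u₁ : ι → ι → (ι → ℝ) → ℝ), (∀ e, Gr (u e) (u₁ e)) →
      ∀ S : ℝ, 0 ≤ S → ∑ e, ∑ j, lE U (fun g => u₁ e j g ^ 2) + ∑ e, lE U (fun g => u e g ^ 2) ≤
        S ^ 2 → ∑ e, lE U (fun g => f₁ e g * u e g) ≤ K * S) :
    lC U f f ≤ K ^ 2 := by
  refine hsStmt ι U f U₁ f₁ U₂ K hc hU h1 h2 hf hK fun u u₁ hu => H u u₁ hu _ (sqrt_nonneg _) ?_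
  have e1 : Eg fun g => ∑ i, u i g ^ 2 := Eg.sum _ fun i _ => (hu i).eg.pow 2
  have e2 : Eg fun g => ∑ i, ∑ j, U₂ i j g * u i g * u j g :=
    Eg.sum _ fun i _ => Eg.sum _ fun j _ => (((h2 i).eg' j).mul (hu i).eg).mul (hu j).eg
  have a : ∑ e, lE U (fun g => u e g ^ 2) ≤
      lE U fun g => ∑ i, u i g ^ 2 + ∑ i, ∑ j, U₂ i j g * u i g * u j g := by
    simp only [Hs98.lE_eq]
    rw [← integral_finsetSum _ fun i _ => Hs98.egi hU ((hu i).eg.pow 2)]
    exact integral_mono (Hs98.egi hU e1) (Hs98.egi hU (e1.add e2)) fun g =>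
      le_add_of_nonneg_right (Hs98.hess_nonneg hc h1 h2 g fun i => u i g)
  refine (add_le_add le_rfl a).trans ?_
  rw [sq_sqrt']
  exact le_max_left _ _

open Hs98 in
/-- **Brascamp–Lieb** -/
theorem blStmt : BLStmt := by
  intro ι _ U f Γ U₁ f₁ U₂ hc hU h1 h2 hf hΓ hΓ0 H
  have hG : 0 ≤ lE U Γ := by rw [lE_eq]; exact integral_nonneg hΓ0
  rw [← sq_sqrt hG]
  refine hsStmt ι U f U₁ f₁ U₂ _ hc hU h1 h2 hf (sqrt_nonneg _) fun u u₁ hu => ?_
  set q : (ι → ℝ) → ℝ := fun g => ∑ i, u i g ^ 2 + ∑ i, ∑ j, U₂ i j g * u i g * u j g with hq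
  have eq : Eg q := (Eg.sum _ fun i _ => (hu i).eg.pow 2).add
    (Eg.sum _ fun i _ => Eg.sum _ fun j _ => (((h2 i).eg' j).mul (hu i).eg).mul (hu j).eg)
  have q0 : ∀ g, 0 ≤ q g := fun g => add_nonneg (Finset.sum_nonneg fun _ _ => sq_nonneg _)
    (hess_nonneg hc h1 h2 g fun i => u i g)
  have ea : Eg fun g => ∑ e, f₁ e g * u e g := Eg.sum _ fun e _ => (hf.eg' e).mul (hu e).eg
  have e0 : ∑ e, lE U (fun g => f₁ e g * u e g) = ∫ g, ∑ e, f₁ e g * u e g ∂mu U := by
    simp only [lE_eq]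
    rw [integral_finsetSum _ fun e _ => egi hU ((hf.eg' e).mul (hu e).eg)]
  have key : ∀ t : ℝ, 0 ≤ lE U Γ * (t * t) + (-2 * ∫ g, ∑ e, f₁ e g * u e g ∂mu U) * t + lE U q := by
    intro t
    have : 0 ≤ ∫ g, ((t * t) * Γ g + (-2 * t) * ∑ e, f₁ e g * u e g + q g) ∂mu U := by
      refine integral_nonneg fun g => ?_
      have a1 : (∑ e, f₁ e g * u e g) ^ 2 ≤ Γ g * q g := H g fun i => u i g
      have a2 := hΓ0 g
      have a3 := q0 g
      simp only [Pi.zero_apply]
      by_contra hneg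
      push Not at hneg
      have a4 : 0 ≤ t * t * Γ g + q g := add_nonneg (mul_nonneg (mul_self_nonneg t) a2) a3
      have a5 : t * t * Γ g + q g < 2 * t * ∑ e, f₁ e g * u e g := by linarith
      have a6 := mul_self_lt_mul_self a4 a5
      have a7 := mul_le_mul_of_nonneg_left a1 (mul_self_nonneg t)
      nlinarith [sq_nonneg (t * t * Γ g - q g)]
    rw [integral_add (egi hU ((hΓ.const_mul _).add (ea.const_mul _))) (egi hU eq),
      integral_add (egi hU (hΓ.const_mul _)) (egi hU (ea.const_mul _)), integral_const_mul,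
      integral_const_mul, ← lE_eq U Γ, ← lE_eq U q] at this
    linarith
  have hd := discrim_le_zero key
  rw [discrim] at hd
  have s0 : 0 ≤ ∑ e, ∑ j, lE U fun g => u₁ e j g ^ 2 :=
    Finset.sum_nonneg fun _ _ => Finset.sum_nonneg fun _ _ => by
      rw [lE_eq]; exact integral_nonneg fun _ => sq_nonneg _
  rw [e0, ← sqrt_mul hG]
  refine (le_abs_self _).trans (abs_le_sqrt ?_)
  nlinarith [mul_nonneg hG s0]


end Crest.Agent.T156.Cas

end
end

-- ▼ part T156/CaBlT_41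

/-!
# Row 156: Brascamp–Lieb on planted replica trees, arbitrary `C¹` functions of the node laws
-/

set_option autoImplicit false
set_option linter.unusedSectionVars false

noncomputable section

namespace Crest.Agent.T156.Cas.Sy41

open MeasureTheory Real Set Filter Topology
open Crest.Agent.T157.E Crest.Agent.T157.Casc Crest.Agent.T157.SL

variable {Ω : Type} [Fintype Ω] {w : Ω → ℝ}

theorem gr_state {Φ : (Ω → ℝ) → ℝ} {Ψ : Ω → (Ω → ℝ) → ℝ} (hΦ : Gr Φ Ψ) (s : Sh) (L : List (Lv Ω))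
    (h : Ω → ℝ) (a : s.Lf) (j : ℕ) : Gr (fun g => Φ (stT s L h g a j))
      fun i g => ∑ y, Ψ y (stT s L h g a j) * ft s L i a j y := by
  have e : ∀ g, stT s L h g a j = h + Lv.fld ⟨NT s L, fun y i => ft s L i a j y, 0⟩ g := fun g => by
    funext y; simp only [Sd.stT_apply s L h, Pi.add_apply, Lv.fld, mul_comm]
  simp only [e]
  exact Ric63.gr_fld hΦ ⟨NT s L, fun y i => ft s L i a j y, 0⟩ h

theorem Hb_sum_right {ι : Type} [Fintype ι] (L : List (Lv Ω)) (z f : Ω → ℝ) (η : ι → ℝ)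
    (q : ι → Ω → ℝ) : Hb w L z f (fun y => ∑ i, η i * q i y) = ∑ i, η i * Hb w L z f (q i) := by
  simp only [Hb, Finset.mul_sum, Finset.sum_mul]
  refine (Finset.sum_congr rfl fun _ _ => Finset.sum_comm).trans (Finset.sum_comm.trans ?_)
  exact Finset.sum_congr rfl fun _ _ => Finset.sum_congr rfl fun _ _ =>
    Finset.sum_congr rfl fun _ _ => by ring

theorem Hb_sum_left {ι : Type} [Fintype ι] (L : List (Lv Ω)) (z f : Ω → ℝ) (η : ι → ℝ)
    (q : ι → Ω → ℝ) : Hb w L z (fun y => ∑ i, η i * q i y) f = ∑ i, η i * Hb w L z (q i) f := by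
  simp only [Hb, Finset.mul_sum, Finset.sum_mul]
  refine (Finset.sum_congr rfl fun _ _ => Finset.sum_comm).trans (Finset.sum_comm.trans ?_)
  exact Finset.sum_congr rfl fun _ _ => Finset.sum_congr rfl fun _ _ =>
    Finset.sum_congr rfl fun _ _ => by ring

/-- the Hessian form of the tree potential -/
def HT (w : Ω → ℝ) (s : Sh) (L : List (Lv Ω)) (p u q : Pa s.Lf Ω) : ℝ :=
  ∑ a, ∑ j ∈ Finset.range (L.length + 1), cf s L a j * Hb w (L.drop j) (p a j) (u a j) (q a j)

theorem stT0 (s : Sh) (L : List (Lv Ω)) (η : NT s L → ℝ) (a : s.Lf) (j : ℕ) :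
    stT s L 0 η a j = fun y => ∑ i, η i * ft s L i a j y := by
  funext y; simp [Sd.stT_apply s L 0]

theorem HT_right (s : Sh) (L : List (Lv Ω)) (p u : Pa s.Lf Ω) (η : NT s L → ℝ) :
    ∑ i, HT w s L p u (ft s L i) * η i = HT w s L p u (stT s L 0 η) := by
  simp only [HT, stT0, Hb_sum_right, Finset.mul_sum, Finset.sum_mul]
  refine Finset.sum_comm.trans (Finset.sum_congr rfl fun _ _ => Finset.sum_comm.trans ?_)
  exact Finset.sum_congr rfl fun _ _ => Finset.sum_congr rfl fun _ _ => by ring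

theorem HT_left (s : Sh) (L : List (Lv Ω)) (p q : Pa s.Lf Ω) (η : NT s L → ℝ) :
    ∑ i, HT w s L p (ft s L i) q * η i = HT w s L p (stT s L 0 η) q := by
  simp only [HT, stT0, Hb_sum_left, Finset.mul_sum, Finset.sum_mul]
  refine Finset.sum_comm.trans (Finset.sum_congr rfl fun _ _ => Finset.sum_comm.trans ?_)
  exact Finset.sum_congr rfl fun _ _ => Finset.sum_congr rfl fun _ _ => by ring

theorem HT_nonneg (hw : Wt w) (s : Sh) {L : List (Lv Ω)} (hL : Mono 0 L) (p u : Pa s.Lf Ω) :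
    0 ≤ HT w s L p u u := Finset.sum_nonneg fun a _ => Finset.sum_nonneg fun j _ =>
  mul_nonneg (cf_nonneg s L 0 le_rfl hL a j)
    (Hess87.Hb_nonneg hw _ _ _ ((mono_drop j hL).nn le_rfl))

theorem HT_two (hw : Wt w) (s : Sh) {L : List (Lv Ω)} (hL : Mono 0 L) (p u q : Pa s.Lf Ω) (t : ℝ) :
    0 ≤ HT w s L p q q * (t * t) + 2 * HT w s L p u q * t + HT w s L p u u := by
  have := HT_nonneg hw s hL p fun a j y => u a j y + t * q a j y
  refine this.trans_eq ?_
  simp only [HT, Hb_lin, Finset.mul_sum, Finset.sum_mul, ← Finset.sum_add_distrib]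
  refine Finset.sum_congr rfl fun a _ => Finset.sum_congr rfl fun j _ => ?_
  rw [Hess87.Hb_symm hw (q a j) (u a j)]; ring

theorem eg_HT (hw : Wt w) (s : Sh) (L : List (Lv Ω)) (h : Ω → ℝ) {u q : (NT s L → ℝ) → Pa s.Lf Ω}
    (hu : ∀ a j y, Eg fun g => u g a j y) (hq : ∀ a j y, Eg fun g => q g a j y) :
    Eg fun g => HT w s L (stT s L h g) (u g) (q g) :=
  Eg.sum _ fun a _ => Eg.sum _ fun j _ => (Eg.sum _ fun x _ => Eg.sum _ fun y _ =>
    ((hu a j x).mul (hq a j y)).mul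
      ((EgP.state (eg_Hs hw (L.drop j) x y) a j).stT L h)).const_mul _

theorem gr_UT (hw : Wt w) (s : Sh) (L : List (Lv Ω)) (h : Ω → ℝ) (x : s.Lf → Ω) :
    Gr (UT w s L h x) fun i g => DP w s L x (stT s L h g) (ft s L i) := by
  classical
  rw [funext (UT_eq w s L h x)]
  have h1 := (Gr.sum Finset.univ fun a _ => Gr.sum (Finset.range (L.length + 1)) fun j _ =>
    (gr_state (gr_X hw (L.drop j)) s L h a j).const_mul (cf s L a j)).add
    ((Gr.sum Finset.univ fun a _ => gr_state (Hs98.gr_coord (x a)) s L h a L.length).const_mul (-1))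
  simp only [neg_one_mul, ← sub_eq_add_neg] at h1
  exact h1.congr fun i g => by simp [DP, Pf]

theorem gr_DP (hw : Wt w) (s : Sh) (L : List (Lv Ω)) (h : Ω → ℝ) (x : s.Lf → Ω) (q : Pa s.Lf Ω) :
    Gr (fun g => DP w s L x (stT s L h g) q) fun i g => HT w s L (stT s L h g) q (ft s L i) := by
  have h1 := (Gr.sum Finset.univ fun a _ => Gr.sum (Finset.range (L.length + 1)) fun j _ =>
    (gr_state (Ric63.gr_Pf hw (L.drop j) (q a j)) s L h a j).const_mul (cf s L a j)).add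
    (Gr.const (-∑ a, q a L.length (x a)))
  simp only [← sub_eq_add_neg] at h1
  refine h1.congr fun i g => ?_
  simp only [HT, Hb, add_zero, Finset.sum_mul]
  refine Finset.sum_congr rfl fun a _ => Finset.sum_congr rfl fun j _ => ?_
  rw [Finset.sum_comm]
  exact congrArg _ (Finset.sum_congr rfl fun _ _ => Finset.sum_congr rfl fun _ _ => by ring)

/-- the gradient of `F` is `∑ cf Bᵀ A u + v` -/
structure Dir (w : Ω → ℝ) (s : Sh) (L : List (Lv Ω)) (h : Ω → ℝ) (F : (NT s L → ℝ) → ℝ)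
    (u : (NT s L → ℝ) → Pa s.Lf Ω) (v : (NT s L → ℝ) → NT s L → ℝ) : Prop where
  egu : ∀ a j y, Eg fun g => u g a j y
  egv : ∀ i, Eg fun g => v g i
  gr : Gr F fun i g => HT w s L (stT s L h g) (u g) (ft s L i) + v g i

section dir
variable {s : Sh} {L : List (Lv Ω)} {h : Ω → ℝ} {F F' : (NT s L → ℝ) → ℝ}
  {u u' : (NT s L → ℝ) → Pa s.Lf Ω} {v v' : (NT s L → ℝ) → NT s L → ℝ}

theorem HT_comb (p u u' q : Pa s.Lf Ω) (c c' : ℝ) :
    HT w s L p (fun a j y => c * u a j y + c' * u' a j y) q =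
      c * HT w s L p u q + c' * HT w s L p u' q := by
  simp only [HT, Hb, Finset.mul_sum, ← Finset.sum_add_distrib]
  exact Finset.sum_congr rfl fun _ _ => Finset.sum_congr rfl fun _ _ =>
    Finset.sum_congr rfl fun _ _ => Finset.sum_congr rfl fun _ _ => by ring

theorem Dir.comb (H : Dir w s L h F u v) (H' : Dir w s L h F' u' v') (c c' : ℝ) :
    Dir w s L h (fun g => c * F g + c' * F' g) (fun g a j y => c * u g a j y + c' * u' g a j y)
      fun g i => c * v g i + c' * v' g i :=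
  ⟨fun a j y => ((H.egu a j y).const_mul c).add ((H'.egu a j y).const_mul c'),
    fun i => ((H.egv i).const_mul c).add ((H'.egv i).const_mul c'),
    ((H.gr.const_mul c).add (H'.gr.const_mul c')).congr fun i g => by rw [HT_comb]; ring⟩

theorem Dir.mul (H : Dir w s L h F u v) (H' : Dir w s L h F' u' v') :
    Dir w s L h (fun g => F g * F' g) (fun g a j y => F' g * u g a j y + F g * u' g a j y)
      fun g i => F' g * v g i + F g * v' g i :=
  ⟨fun a j y => (H'.gr.eg.mul (H.egu a j y)).add (H.gr.eg.mul (H'.egu a j y)),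
    fun i => (H'.gr.eg.mul (H.egv i)).add (H.gr.eg.mul (H'.egv i)),
    (H.gr.mul H'.gr).congr fun i g => by rw [HT_comb]; ring⟩

theorem gr_comp {ι : Type} [Fintype ι] {Φ : (ι → ℝ) → ℝ} {Ψ : ι → (ι → ℝ) → ℝ} (hΦ : Gr Φ Ψ)
    {φ φ' : ℝ → ℝ} (hφ : ∀ t, HasDerivAt φ (φ' t) t) (e : Eg fun g => φ (Φ g))
    (e' : Eg fun g => φ' (Φ g)) : Gr (fun g => φ (Φ g)) fun i g => φ' (Φ g) * Ψ i g :=
  ⟨e, fun i => e'.mul (hΦ.eg' i), fun g =>
    ((hφ (Φ g)).comp_hasFDerivAt g (hΦ.fd g)).congr_fderiv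
      (ContinuousLinearMap.ext fun η => by simp [Finset.mul_sum, mul_assoc])⟩

theorem Dir.comp (H : Dir w s L h F u v) {φ φ' : ℝ → ℝ} (hφ : ∀ t, HasDerivAt φ (φ' t) t)
    (e : Eg fun g => φ (F g)) (e' : Eg fun g => φ' (F g)) :
    Dir w s L h (fun g => φ (F g)) (fun g a j y => φ' (F g) * u g a j y)
      fun g i => φ' (F g) * v g i :=
  ⟨fun a j y => e'.mul (H.egu a j y), fun i => e'.mul (H.egv i),
    (gr_comp H.gr hφ e e').congr fun i g => by
      have := HT_comb (w := w) (L := L) (stT s L h g) (u g) (u g) (ft s L i) (φ' (F g)) 0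
      simp only [zero_mul, add_zero] at this
      rw [this]; ring⟩


/-- weighted sums of functions of the node laws -/
theorem Dir.nodes {f : s.Lf → ℕ → (Ω → ℝ) → ℝ} {u : s.Lf → ℕ → (Ω → ℝ) → Ω → ℝ}
    (hu : ∀ a j y, Eg fun z => u a j z y)
    (hf : ∀ a j, Gr (f a j) fun y z => ∑ x, u a j z x * Hs w (L.drop j) z x y) :
    Dir w s L h (fun g => ∑ a, ∑ j ∈ Finset.range (L.length + 1),
      cf s L a j * f a j (stT s L h g a j)) (fun g a j => u a j (stT s L h g a j)) fun _ _ => 0 :=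
  ⟨fun a j y => (EgP.state (hu a j y) a j).stT L h, fun _ => Eg.const 0,
    (Gr.sum Finset.univ fun a _ => Gr.sum (Finset.range (L.length + 1)) fun j _ =>
      (gr_state (hf a j) s L h a j).const_mul (cf s L a j)).congr fun i g => by
      simp only [HT, Hb, add_zero, Finset.sum_mul]
      refine Finset.sum_congr rfl fun a _ => Finset.sum_congr rfl fun j _ => ?_
      rw [Finset.sum_comm]
      exact congrArg _ (Finset.sum_congr rfl fun _ _ => Finset.sum_congr rfl fun _ _ => by ring)⟩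

/-- **Brascamp–Lieb on a planted tree** -/
theorem bl_tree (hw : Wt w) (hL : Mono 0 L) (H : Dir w s L h F u v) (x : s.Lf → Ω) :
    lC (UT w s L h x) F F ≤
      lE (UT w s L h x) fun g => HT w s L (stT s L h g) (u g) (u g) + ∑ i, v g i ^ 2 := by
  refine blStmt _ _ _ _ _ _ _ ?_ (Tr.lg_UT' hw s L h x) (gr_UT hw s L h x)
    (fun i => gr_DP hw s L h x (ft s L i)) H.gr
    ((eg_HT hw s L h H.egu H.egu).add (Eg.sum _ fun i _ => (H.egv i).pow 2))
    (fun g => add_nonneg (HT_nonneg hw s hL _ _) (Finset.sum_nonneg fun _ _ => sq_nonneg _))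
    fun g η => ?_
  · refine ⟨convex_univ, fun g _ g' _ a b ha hb hab => ?_⟩
    have := (convexOn_UT hw s L hL x).2 (mem_univ (h, g)) (mem_univ (h, g')) ha hb hab
    simpa only [Prod.fst_add, Prod.smul_fst, Prod.snd_add, Prod.smul_snd, ← add_smul, hab,
      one_smul] using this
  · have e : ∑ i, ∑ j, HT w s L (stT s L h g) (ft s L i) (ft s L j) * η i * η j =
        HT w s L (stT s L h g) (stT s L 0 η) (stT s L 0 η) := by
      rw [← HT_left]
      refine Finset.sum_congr rfl fun i _ => ?_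
      rw [← HT_right, Finset.sum_mul]
      exact Finset.sum_congr rfl fun _ _ => by ring
    simp only [add_mul, Finset.sum_add_distrib, HT_right, e]
    have h1 := discrim_le_zero (a := HT w s L (stT s L h g) (stT s L 0 η) (stT s L 0 η) + ∑ i, η i ^ 2)
      (b := 2 * (HT w s L (stT s L h g) (u g) (stT s L 0 η) + ∑ i, v g i * η i))
      (c := HT w s L (stT s L h g) (u g) (u g) + ∑ i, v g i ^ 2) fun t => by
        have h2 := HT_two hw s hL (stT s L h g) (u g) (stT s L 0 η) t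
        have h3 : 0 ≤ ∑ i, (v g i + t * η i) ^ 2 := Finset.sum_nonneg fun _ _ => sq_nonneg _
        have h4 : ∑ i, (v g i + t * η i) ^ 2 =
            (∑ i, η i ^ 2) * (t * t) + 2 * (∑ i, v g i * η i) * t + ∑ i, v g i ^ 2 := by
          simp only [Finset.mul_sum, Finset.sum_mul, ← Finset.sum_add_distrib]
          exact Finset.sum_congr rfl fun _ _ => by ring
        linarith
    rw [discrim] at h1
    nlinarith


end dir

/-- **Brascamp–Lieb under the path law** for invariant functions of the path -/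
theorem bl_pE (hw : Wt w) {L : List (Lv Ω)} (hL : Mono 0 L) (h : Ω → ℝ) {T : Set (Equiv.Perm Ω)}
    (hT : ∀ τ ∈ T, Sym w L h τ) (htr : ∀ x y, w x ≠ 0 → w y ≠ 0 → ∃ τ ∈ T, τ x = y)
    {F : (ℕ → Ω → ℝ) → ℝ} (hF : Measurable F)
    (hinv : ∀ τ ∈ T, ∀ p, F (fun j y => p j (τ.symm y)) = F p)
    {u : (NI L → ℝ) → Pa Unit Ω} {v : (NI L → ℝ) → NI L → ℝ}
    (H : Dir w .one L h (fun g => F fun j => st L j h g) u v) :
    pE w L h (fun g _ => F (fun j => st L j h g) ^ 2) - pE w L h (fun g _ => F fun j => st L j h g) ^ 2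
      ≤ pE w L h fun g _ => HT w .one L (stT .one L h g) (u g) (u g) + ∑ i, v g i ^ 2 := by
  have eF : Eg fun g : NI L → ℝ => F fun j => st L j h g := H.gr.eg
  have eB : Eg fun g : NI L → ℝ => HT w .one L (stT .one L h g) (u g) (u g) + ∑ i, v g i ^ 2 :=
    (eg_HT hw .one L h H.egu H.egu).add (Eg.sum _ fun i _ => (H.egv i).pow 2)
  set c := pE w L h fun g _ => F fun j => st L j h g with hc
  have e1 : c ^ 2 = ∑ x, P w L h x * c ^ 2 := by rw [← Finset.sum_mul, sum_P hw, one_mul]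
  rw [e1, Pe.pE_dis hw L h _ fun _ => eF.pow 2, Pe.pE_dis hw L h _ fun _ => eB,
    ← Finset.sum_sub_distrib]
  refine Finset.sum_le_sum fun x _ => ?_
  by_cases hx : w x = 0
  · simp [P_eq_zero hx]
  rw [← mul_sub]
  refine mul_le_mul_of_nonneg_left ?_ (P_nonneg hw L h x)
  rw [hc, plantStmt peStmt symStmt Ω w hw L h T x hT (fun y hy => htr x y hx hy) F hF eF hinv]
  simp only [sq (F _), sq (lE _ _)]
  exact bl_tree hw hL H fun _ => x

theorem gr_rr (hw : Wt w) (L : List (Lv Ω)) (l₀ : Lv Ω) : Gr (rr w L l₀)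
    fun y z => ∑ x, 2 * l₀.fld (mv w L l₀ z) x * Hs w L z x y := by
  have h1 := Gr.sum Finset.univ fun i (_ : i ∈ Finset.univ) =>
    (Ric63.gr_Pf hw L fun x => l₀.A x i).mul (Ric63.gr_Pf hw L fun x => l₀.A x i)
  have e : rr w L l₀ = fun z => ∑ i, Pf w L z (fun x => l₀.A x i) * Pf w L z fun x => l₀.A x i := by
    funext z; simp only [rr, mv, sq]
  rw [e]
  refine h1.congr fun y z => ?_
  simp only [Lv.fld, mv, Finset.mul_sum, Finset.sum_mul, ← Finset.sum_add_distrib]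
  rw [Finset.sum_comm]
  exact Finset.sum_congr rfl fun _ _ => Finset.sum_congr rfl fun _ _ => by ring

theorem eg_comp_rr (hw : Wt w) (L : List (Lv Ω)) (l₀ : Lv Ω) {G : ℝ → ℝ} (hG : Continuous G) :
    Eg fun z => G (rr w L l₀ z) := by
  obtain ⟨C, hC⟩ := isCompact_Icc.exists_bound_of_continuousOn
    (s := Icc 0 (∑ i, (∑ x, |l₀.A x i|) ^ 2)) hG.continuousOn
  refine Eg.of_bdd (hG.comp (eg_rr hw L l₀).cont) C fun z => hC _
    ⟨Finset.sum_nonneg fun _ _ => sq_nonneg _, Finset.sum_le_sum fun i _ => ?_⟩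
  exact sq_le_sq' (abs_le.1 (abs_mv_le hw _ l₀ z i)).1 (abs_le.1 (abs_mv_le hw _ l₀ z i)).2

/-- **arbitrary `C¹` functions of the node overlaps**:
`Var (∑ dm_j G_j (r_j)) ≤ 4 ∑ dm_j E G_j' (r_j)² mᵀ A m` -/
theorem sync_G (hw : Wt w) {L : List (Lv Ω)} (hL : Mono 0 L) (h : Ω → ℝ) {T : Set (Equiv.Perm Ω)}
    (hT : ∀ τ ∈ T, Sym w L h τ) (htr : ∀ x y, w x ≠ 0 → w y ≠ 0 → ∃ τ ∈ T, τ x = y) (l₀ : Lv Ω)
    (h₀ : ∀ τ ∈ T, ∀ x y, l₀.cov (τ x) (τ y) = l₀.cov x y) {G G' : ℕ → ℝ → ℝ}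
    (hG : ∀ j t, HasDerivAt (G j) (G' j t) t) (hG' : ∀ j, Continuous (G' j)) :
    pE w L h (fun g _ => nsum L h (dm L 0) (fun j z => G j (rr w (L.drop j) l₀ z)) g ^ 2) -
      pE w L h (fun g _ => nsum L h (dm L 0) (fun j z => G j (rr w (L.drop j) l₀ z)) g) ^ 2
      ≤ 4 * ∑ j ∈ Finset.range L.length, dm L 0 (j + 1) * node w L (j + 1) (fun z =>
        G' (j + 1) (rr w (L.drop (j + 1)) l₀ z) ^ 2 * mAm w (L.drop (j + 1)) l₀ z) h := by
  have cG : ∀ j, Continuous (G j) := fun j =>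
    continuous_iff_continuousAt.2 fun t => (hG j t).continuousAt
  have e1 := fun j => eg_comp_rr hw (L.drop j) l₀ (cG j)
  have e2 := fun j => eg_comp_rr hw (L.drop j) l₀ (hG' j)
  have D := Dir.nodes (w := w) (s := .one) (L := L) (h := h)
    (f := fun _ j z => G j (rr w (L.drop j) l₀ z))
    (u := fun _ j z x => 2 * G' j (rr w (L.drop j) l₀ z) * l₀.fld (mv w (L.drop j) l₀ z) x)
    (fun _ j y => ((e2 j).const_mul 2).mul (eg_fld l₀ (eg_mv hw _ l₀) y))
    fun _ j => (gr_comp (gr_rr hw (L.drop j) l₀) (hG j) (e1 j) (e2 j)).congr fun y z => by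
      rw [Finset.mul_sum]; exact Finset.sum_congr rfl fun _ _ => by ring
  have su : ∀ Φ : Unit → ℕ → ℝ, ∑ a : Sh.one.Lf, ∑ j ∈ Finset.range (L.length + 1),
      cf .one L a j * Φ a j = ∑ j ∈ Finset.range L.length, dm L 0 (j + 1) * Φ () (j + 1) := by
    intro Φ
    show ∑ a : Unit, _ = _
    rw [Fintype.sum_unique, Finset.sum_range_succ']
    simp [cf]
  rw [funext fun g => su fun a j => G j (rr w (L.drop j) l₀ (stT .one L h g a j))] at D
  have key := bl_pE hw hL h hT htr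
    (F := fun p => ∑ j ∈ Finset.range L.length, dm L 0 (j + 1) *
      G (j + 1) (rr w (L.drop (j + 1)) l₀ (p (j + 1))))
    (Finset.measurable_sum _ fun j _ =>
      ((e1 _).cont.measurable.comp (measurable_pi_apply _)).const_mul _) (fun τ hτ p => ?_) D
  · refine key.trans (le_of_eq ?_)
    have e3 := fun j => ((e2 j).pow 2).mul (eg_mAm hw (L.drop j) l₀)
    rw [← pE_nsum peStmt hw L h (dm L 0) e3, ← Pe.pE_const_mul]
    congr 1
    funext g _
    simp only [HT, Hb_smul, nsum, Finset.mul_sum, mAm, sq (0 : ℝ), mul_zero,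
      Finset.sum_const_zero, add_zero]
    refine (su _).trans (Finset.sum_congr rfl fun _ _ => ?_)
    simp only [stT]; ring
  · refine Finset.sum_congr rfl fun j _ => ?_
    rw [rr_eq, rr_eq]
    congr 2
    have e := fun x => (symStmt Ω w hw L h τ (hT τ hτ)).2.1 (j + 1) (fun y => p (j + 1) (τ.symm y)) x
    simp only [Equiv.symm_apply_apply] at e
    simp only [qf, e]
    rw [← Equiv.sum_comp τ]
    refine Finset.sum_congr rfl fun x _ => ?_
    rw [← Equiv.sum_comp τ]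
    simp only [h₀ τ hτ]

end Crest.Agent.T156.Cas.Sy41

end
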