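import Crest.Agent.T156.DnA_41
import Crest.Agent.T156.CaBlT_41

/-!
# Row 156, block (Q): the mean bounds Q1, Q1V, Q1J (helper33)

Label-averaged dyadic Riccati bound, budget for `tr A²` under `Dom`, `V`, `tr C²`, variance of
linear forms of the node overlaps.
-/

set_option autoImplicit false
set_option linter.unusedSectionVars false

noncomputable section

namespace Crest.Agent.T156.Cas.Q33

open MeasureTheory Real Set Filter Topology
open Crest.Agent.T157.E Crest.Agent.T157.Casc Crest.Agent.T157.SL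
open Crest.Agent.T156.Cas.Sy41

/-! ### frame-free: shifted sums of a monotone sequence -/

theorem sum_succ_sub (ρ : ℕ → ℝ) {d lo hi : ℕ} (hd : d + 1 ≤ lo) (h : lo ≤ hi) :
    ∑ J ∈ Finset.Ico lo hi, (ρ (J - d) - ρ (J - (d + 1))) = ρ (hi - (d + 1)) - ρ (lo - (d + 1)) := by
  rw [← Finset.sum_Ico_sub (fun J => ρ (J - (d + 1))) h]
  refine Finset.sum_congr rfl fun J hJ => ?_
  have := (Finset.mem_Ico.1 hJ).1
  congr 2
  omega

/-- look-back sum, bound by the number of residues -/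
theorem shift_sum_le {ρ : ℕ → ℝ} (hρ : Monotone ρ) {u' u lo hi : ℕ} (hu : u' ≤ u) (hl : u ≤ lo)
    (h : lo ≤ hi) : ∑ J ∈ Finset.Ico lo hi, (ρ (J - u') - ρ (J - u)) ≤
      ((u - u' : ℕ) : ℝ) * (ρ (hi - u') - ρ (lo - u)) := by
  have e : ∀ J, ρ (J - u') - ρ (J - u) = ∑ d ∈ Finset.Ico u' u, (ρ (J - d) - ρ (J - (d + 1))) := by
    intro J
    have := Finset.sum_Ico_sub (fun d => -ρ (J - d)) hu
    simp only [neg_sub_neg] at this
    exact this.symm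
  simp only [e]
  rw [Finset.sum_comm]
  refine (Finset.sum_le_card_nsmul _ _ (ρ (hi - u') - ρ (lo - u)) fun d hd => ?_).trans
    (le_of_eq (by simp))
  obtain ⟨h1, h2⟩ := Finset.mem_Ico.1 hd
  rw [sum_succ_sub ρ (by omega) h]
  exact sub_le_sub (hρ (by omega)) (hρ (by omega))

/-- look-back sum, bound by the number of nodes -/
theorem shift_sum_le' {ρ : ℕ → ℝ} (hρ : Monotone ρ) (u' u lo hi : ℕ) :
    ∑ J ∈ Finset.Ico lo hi, (ρ (J - u') - ρ (J - u)) ≤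
      ((hi - lo : ℕ) : ℝ) * (ρ (hi - u') - ρ (lo - u)) := by
  refine (Finset.sum_le_card_nsmul _ _ (ρ (hi - u') - ρ (lo - u)) fun J hJ => ?_).trans
    (le_of_eq (by simp))
  obtain ⟨h1, h2⟩ := Finset.mem_Ico.1 hJ
  exact sub_le_sub (hρ (by omega)) (hρ (by omega))

theorem shift_sum_min {ρ : ℕ → ℝ} (hρ : Monotone ρ) {u' u lo hi : ℕ} (hu : u' ≤ u) (hl : u ≤ lo)
    (h : lo ≤ hi) : ∑ J ∈ Finset.Ico lo hi, (ρ (J - u') - ρ (J - u)) ≤
      ((min (u - u') (hi - lo) : ℕ) : ℝ) * (ρ (hi - u') - ρ (lo - u)) := by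
  rcases le_total (u - u') (hi - lo) with h1 | h1
  · rw [min_eq_left h1]; exact shift_sum_le hρ hu hl h
  · rw [min_eq_right h1]; exact shift_sum_le' hρ u' u lo hi

theorem wsum_le {c F : ℕ → ℝ} {S : Finset ℕ} {κ : ℝ} (hc : ∀ j ∈ S, c j ≤ κ)
    (hF : ∀ j ∈ S, 0 ≤ F j) : ∑ j ∈ S, c j * F j ≤ κ * ∑ j ∈ S, F j := by
  rw [Finset.mul_sum]
  exact Finset.sum_le_sum fun j hj => mul_le_mul_of_nonneg_right (hc j hj) (hF j hj)


variable {Ω : Type} [Fintype Ω] {w : Ω → ℝ}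

/-! ### the mean quantities at a node -/

/-- `E mᵀ A m` at the node `j` -/
def aa (w : Ω → ℝ) (L : List (Lv Ω)) (l₀ : Lv Ω) (h : Ω → ℝ) (j : ℕ) : ℝ :=
  node w L j (mAm w (L.drop j) l₀) h

/-- `E V` at the node `j` -/
def vv (w : Ω → ℝ) (L : List (Lv Ω)) (l₀ : Lv Ω) (h : Ω → ℝ) (j : ℕ) : ℝ :=
  node w L j (Vq w (L.drop j) l₀) h

/-- `E tr A²` at the node `j` -/
def ta (w : Ω → ℝ) (L : List (Lv Ω)) (l₀ : Lv Ω) (h : Ω → ℝ) (j : ℕ) : ℝ :=
  node w L j (trA2 w (L.drop j) l₀) h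

/-- `E tr C²` at the node `j` -/
def tc (w : Ω → ℝ) (L : List (Lv Ω)) (l₀ : Lv Ω) (h : Ω → ℝ) (j : ℕ) : ℝ :=
  node w L j (trC2 w (L.drop j) l₀) h

section basic
variable (hw : Wt w) {L : List (Lv Ω)} (hL : Mono 0 L) (l₀ : Lv Ω) (h : Ω → ℝ)

theorem rho_nonneg (L : List (Lv Ω)) (j : ℕ) : 0 ≤ rho w L l₀ h j :=
  node_nonneg w (rr_nonneg _ l₀) L j h

include hw hL in
theorem aa_nonneg (j : ℕ) : 0 ≤ aa w L l₀ h j :=
  node_nonneg w (fun z => Hess87.Hb_nonneg hw _ _ z ((mono_drop j hL).nn le_rfl)) L j h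

include hw in
theorem vv_nonneg (L : List (Lv Ω)) (j : ℕ) : 0 ≤ vv w L l₀ h j :=
  node_nonneg w (Vq_nonneg hw _ l₀) L j h

theorem ta_nonneg (L : List (Lv Ω)) (j : ℕ) : 0 ≤ ta w L l₀ h j :=
  node_nonneg w (fun _ => Finset.sum_nonneg fun _ _ => Finset.sum_nonneg fun _ _ => sq_nonneg _)
    L j h

theorem tc_nonneg (L : List (Lv Ω)) (j : ℕ) : 0 ≤ tc w L l₀ h j :=
  node_nonneg w (fun _ => Finset.sum_nonneg fun _ _ => Finset.sum_nonneg fun _ _ => sq_nonneg _)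
    L j h

include hL in
omit [Fintype Ω] in
theorem ex_nonneg (j : ℕ) : 0 ≤ ex L j := by
  have := dm_nonneg (mono_drop j hL) 0
  simpa [dm, exP, ex] using this

include hw hL in
theorem vv_le {x : ℝ} {j : ℕ} (hx : x ≤ ex L j) : x * vv w L l₀ h j ≤ aa w L l₀ h j := by
  rw [vv, ← congrFun (node_const_mul w _ _ L j) h]
  exact node_mono hw ((eg_Vq hw _ l₀).const_mul _) (eg_mAm hw _ l₀)
    (fun z => Vq_le hw (mono_le hx (mono_drop_ex j hL)) l₀ z) L j h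

include hw hL in
theorem tc_le {x : ℝ} (h0 : 0 ≤ x) {j : ℕ} (hx : x ≤ ex L j) :
    x ^ 2 * tc w L l₀ h j ≤ ta w L l₀ h j := by
  rw [tc, ← congrFun (node_const_mul w _ _ L j) h]
  exact node_mono hw ((eg_trC2 hw _ l₀).const_mul _) (eg_trA2 hw _ l₀)
    (fun z => trC2_le hw h0 (mono_le hx (mono_drop_ex j hL)) l₀ z) L j h

end basic

theorem fld_sq_le' {l₀ : Lv Ω} {Λ : ℝ} (h1 : ∀ x, l₀.cov x x ≤ Λ) (x : Ω) (v : l₀.ι → ℝ) :
    l₀.fld v x ^ 2 ≤ Λ * ∑ i, v i ^ 2 :=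
  (Finset.sum_mul_sq_le_sq_mul_sq _ _ _).trans (mul_le_mul_of_nonneg_right
    (by simpa only [Lv.cov, sq] using h1 x) (Finset.sum_nonneg fun _ _ => sq_nonneg _))

theorem rr_le (hw : Wt w) (L : List (Lv Ω)) {l₀ : Lv Ω} {Λ : ℝ} (h1 : ∀ x, l₀.cov x x ≤ Λ)
    (z : Ω → ℝ) : rr w L l₀ z ≤ Λ := by
  refine le_trans ?_ (sum_P_le hw L z fun x _ => h1 x)
  simp only [rr, Lv.cov, Finset.mul_sum]
  rw [Finset.sum_comm]
  refine Finset.sum_le_sum fun i _ => ?_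
  have := Hess87.Cb_nonneg hw L z fun x => l₀.A x i
  rw [Cb_A, Pf] at this
  linarith [sq (mv w L l₀ z i)]

theorem rho_le (hw : Wt w) (L : List (Lv Ω)) {l₀ : Lv Ω} {Λ : ℝ} (h1 : ∀ x, l₀.cov x x ≤ Λ)
    (h : Ω → ℝ) (j : ℕ) : rho w L l₀ h j ≤ Λ := by
  have := node_mono hw (eg_rr hw (L.drop j) l₀) (Eg.const Λ) (rr_le hw _ h1) L j h
  rwa [C.node_const hw] at this

/-! ### the budget for `tr A²` under `Dom` -/

theorem Hb_aff_right (hw : Wt w) (L : List (Lv Ω)) (z u v : Ω → ℝ) (c κ : ℝ) :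
    Hb w L z u (fun x => c * v x + κ) = c * Hb w L z u v := by
  simp only [Hb, Finset.mul_sum]
  refine Finset.sum_congr rfl fun x _ => ?_
  have := Ric63.sum_Hs_row hw x L z
  calc _ = ∑ y, c * (u x * v y * Hs w L z x y) + u x * κ * ∑ y, Hs w L z x y := by
        rw [Finset.mul_sum, ← Finset.sum_add_distrib]
        exact Finset.sum_congr rfl fun _ _ => by ring
    _ = _ := by rw [this, mul_zero, add_zero]

theorem Hb_fld_right (L : List (Lv Ω)) (l : Lv Ω) (z u : Ω → ℝ) (η : l.ι → ℝ) :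
    Hb w L z u (l.fld η) = ∑ i, η i * Hb w L z u fun x => l.A x i := by
  simp only [Hb, Lv.fld, Finset.mul_sum, Finset.sum_mul]
  refine (Finset.sum_congr rfl fun x _ => Finset.sum_comm).trans (Finset.sum_comm.trans ?_)
  exact Finset.sum_congr rfl fun _ _ => Finset.sum_congr rfl fun _ _ =>
    Finset.sum_congr rfl fun _ _ => by ring

/-- Cramér–Rao in the directions of `l₀` -/
theorem bud_dom (hw : Wt w) {L : List (Lv Ω)} (hL : ∀ l ∈ L, 0 ≤ l.m) {l l₀ : Lv Ω} {τ : ℝ}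
    (hD : Dom l l₀ τ) (hm : 0 ≤ l.m) (f z : Ω → ℝ) :
    τ * ∑ i, tE l (X w L) (fun z => Hb w L z f fun x => l₀.A x i) z ^ 2 ≤
      tE l (X w L) (fun z => Pf w L z f ^ 2) z - tE l (X w L) (fun z => Pf w L z f) z ^ 2 := by
  have hX := lg_X hw L
  have hb := budStmt Ω w hw l L z _ _ hm hL (Ric63.gr_Pf hw L f)
  have e0 : ∀ i : l.ι, (fun z => ∑ y, (∑ x, f x * Hs w L z x y) * l.A y i) =
      fun z => Hb w L z f fun x => l.A x i := fun i => by
    funext z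
    simp only [Hb, Finset.sum_mul]
    exact Finset.sum_comm.trans (Finset.sum_congr rfl fun _ _ => Finset.sum_congr rfl fun _ _ => by
      ring)
  simp only [e0] at hb
  set V := tE l (X w L) (fun z => Pf w L z f ^ 2) z - tE l (X w L) (fun z => Pf w L z f) z ^ 2
  set v : l₀.ι → ℝ := fun i => tE l (X w L) (fun z => Hb w L z f fun x => l₀.A x i) z with hv
  set b : l.ι → ℝ := fun i => tE l (X w L) (fun z => Hb w L z f fun x => l.A x i) z with hb'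
  obtain ⟨η, κ, h1, h2⟩ := hD.2 v
  have e1 : ∑ i, η i * b i = √τ * ∑ i, v i ^ 2 := by
    have e2 : ∀ z, ∑ i, η i * Hb w L z f (fun x => l.A x i) =
        √τ * ∑ i, v i * Hb w L z f fun x => l₀.A x i := fun z => by
      rw [← Hb_fld_right, ← Hb_fld_right, funext h1, Hb_aff_right hw]
    simp only [hb', ← tE_const_mul]
    rw [← tE_sum hX _ fun i _ => (Hess87.eg_Hb hw L _ _).const_mul _]
    simp only [e2]
    rw [tE_const_mul, tE_sum hX _ fun i _ => (Hess87.eg_Hb hw L _ _).const_mul _]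
    simp only [tE_const_mul, sq]
    rfl
  have h3 : (∑ i, η i * b i) ^ 2 ≤ (∑ i, η i ^ 2) * ∑ i, b i ^ 2 :=
    Finset.sum_mul_sq_le_sq_mul_sq _ _ _
  have b0 : 0 ≤ ∑ i, b i ^ 2 := Finset.sum_nonneg fun _ _ => sq_nonneg _
  have s0 : 0 ≤ ∑ i, v i ^ 2 := Finset.sum_nonneg fun _ _ => sq_nonneg _
  have hV : ∑ i, b i ^ 2 ≤ V := hb
  rw [e1, mul_pow, sq_sqrt hD.1] at h3
  have h4 : τ * (∑ i, v i ^ 2) ^ 2 ≤ (∑ i, v i ^ 2) * V :=
    h3.trans (mul_le_mul h2 hV b0 s0)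
  show τ * ∑ i, v i ^ 2 ≤ V
  rcases s0.eq_or_lt with h0 | h0
  · rw [← h0, mul_zero]; exact b0.trans hV
  · exact le_of_mul_le_mul_left (by nlinarith) h0

theorem trA2_dom (hw : Wt w) {L : List (Lv Ω)} (hL : ∀ l ∈ L, 0 ≤ l.m) {l l₀ : Lv Ω} {τ Λ : ℝ}
    (h1 : ∀ x, l₀.cov x x ≤ Λ) (hD : Dom l l₀ τ) (hm : 0 ≤ l.m) (hm1 : l.m ≤ 1) (z : Ω → ℝ) :
    τ * trA2 w (l :: L) l₀ z ≤ (2 + 2 * (τ * Λ)) *
      (tE l (X w L) (rr w L l₀) z - rr w (l :: L) l₀ z) := by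
  have hX := lg_X hw L
  have em := eg_mv hw L l₀
  have mc : ∀ i, mv w (l :: L) l₀ z i = tE l (X w L) (fun z => mv w L l₀ z i) z := fun i =>
    Hess87.Pf_cons hw l L z _
  set v : l₀.ι → ℝ := fun i => tE l (X w L) (fun z => mv w L l₀ z i ^ 2) z -
    mv w (l :: L) l₀ z i ^ 2 with hv
  have eΔ : tE l (X w L) (rr w L l₀) z - rr w (l :: L) l₀ z = ∑ i, v i := by
    unfold rr
    rw [tE_sum hX _ fun i _ => (em i).pow 2, ← Finset.sum_sub_distrib]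
  have v0 : ∀ i, 0 ≤ v i := fun i => by
    simp only [hv, mc]; exact Ric63.var_nonneg hX (em i) l z
  have d1 : ∑ i, v i ≤ Λ := by
    rw [← eΔ]
    have := tE_mono hX (eg_rr hw L l₀) (Eg.const Λ) (rr_le hw L h1) l z
    rw [tE_const hX] at this
    linarith [rr_nonneg (w := w) (l :: L) l₀ z]
  have b1 : ∀ k, τ * ∑ i, tE l (X w L)
      (fun z => Hb w L z (fun x => l₀.A x k) fun x => l₀.A x i) z ^ 2 ≤ v k := fun k => by
    simp only [hv, mc]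
    exact bud_dom hw hL hD hm _ z
  have b2 : ∀ i k, (tE l (X w L) (fun z => mv w L l₀ z i * mv w L l₀ z k) z -
      mv w (l :: L) l₀ z i * mv w (l :: L) l₀ z k) ^ 2 ≤ v i * v k := fun i k => by
    have h2 := Ric63.tE_cs hX ((em i).sub (Eg.const (mv w (l :: L) l₀ z i)))
      ((em k).sub (Eg.const (mv w (l :: L) l₀ z k))) l z
    rw [Ric63.tE_var hX (em i), Ric63.tE_var hX (em k), ← mc, ← mc] at h2
    have e : (fun z' => (mv w L l₀ z' i - mv w (l :: L) l₀ z i) *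
        (mv w L l₀ z' k - mv w (l :: L) l₀ z k)) = fun z' => mv w L l₀ z' i * mv w L l₀ z' k -
        mv w (l :: L) l₀ z k * mv w L l₀ z' i - mv w (l :: L) l₀ z i * mv w L l₀ z' k +
        mv w (l :: L) l₀ z i * mv w (l :: L) l₀ z k := by funext z'; ring
    have e1 := (em i).mul (em k)
    have e2 := (em i).const_mul (mv w (l :: L) l₀ z k)
    have e3 := (em k).const_mul (mv w (l :: L) l₀ z i)
    rw [e, tE_add hX ((e1.sub e2).sub e3) (Eg.const _), tE_sub hX (e1.sub e2) e3, tE_sub hX e1 e2,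
      tE_const_mul, tE_const_mul, tE_const hX, ← mc, ← mc] at h2
    simp only [hv]
    convert h2 using 2 <;> ring
  have b3 : trA2 w (l :: L) l₀ z ≤ 2 * ∑ k, ∑ i, tE l (X w L)
      (fun z => Hb w L z (fun x => l₀.A x k) fun x => l₀.A x i) z ^ 2 + 2 * (∑ i, v i) ^ 2 := by
    simp only [trA2, sq (∑ i, v i), Finset.sum_mul_sum, Finset.mul_sum _ _ (2 : ℝ),
      ← Finset.sum_add_distrib]
    refine Finset.sum_le_sum fun k _ => Finset.sum_le_sum fun i _ => ?_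
    rw [Hess87.Hb_cons hw]
    have h3 := b2 k i
    simp only [mv] at h3
    generalize tE l (X w L) (fun z => Pf w L z (fun x => l₀.A x k) * Pf w L z fun x => l₀.A x i) z -
      Pf w (l :: L) z (fun x => l₀.A x k) * Pf w (l :: L) z (fun x => l₀.A x i) = c at h3 ⊢
    generalize tE l (X w L) (fun z => Hb w L z (fun x => l₀.A x k) fun x => l₀.A x i) z = A
    have h4 : (l.m * c) ^ 2 ≤ c ^ 2 := by
      rw [mul_pow]; exact mul_le_of_le_one_left (sq_nonneg _) (pow_le_one₀ hm hm1)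
    nlinarith [sq_nonneg (A - l.m * c)]
  have b4 := Finset.sum_le_sum fun k (_ : k ∈ Finset.univ) => b1 k
  rw [← Finset.mul_sum] at b4
  have s0 := Finset.sum_nonneg fun i (_ : i ∈ Finset.univ) => v0 i
  have b5 : (∑ i, v i) ^ 2 ≤ Λ * ∑ i, v i := by nlinarith
  rw [eΔ]
  nlinarith [mul_le_mul_of_nonneg_left b3 hD.1, mul_le_mul_of_nonneg_left b5 hD.1]

/-- the data common to all bounds -/
structure Dt (w : Ω → ℝ) (L : List (Lv Ω)) (l₀ : Lv Ω) (τ : ℕ → ℝ) (Λ : ℝ) : Prop where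
  wt : Wt w
  mono : Mono 0 L
  dom : ∀ k (hk : k < L.length), Dom L[k] l₀ (τ k)
  diag : ∀ x, l₀.cov x x ≤ Λ

variable {L : List (Lv Ω)} {l₀ : Lv Ω} {τ : ℕ → ℝ} {Λ : ℝ}

theorem Dt.lam_nonneg (H : Dt w L l₀ τ Λ) : 0 ≤ Λ :=
  (rho_nonneg l₀ 0 L 0).trans (rho_le H.wt L H.diag 0 0)

/-- **budget at one node** -/
theorem Dt.ta_le (H : Dt w L l₀ τ Λ) (h : Ω → ℝ) {j : ℕ} (hj : j < L.length) :
    τ j * ta w L l₀ h j ≤ (2 + 2 * (τ j * Λ)) * (rho w L l₀ h (j + 1) - rho w L l₀ h j) := by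
  have hw := H.wt
  have hd : L.drop j = L[j] :: L.drop (j + 1) := List.drop_eq_getElem_cons hj
  have hm := mono_drop j H.mono
  rw [hd] at hm
  rw [ta, ← rho_sub hw L l₀ (Nat.le_succ j), ← congrFun (node_const_mul w _ _ L j) h,
    ← congrFun (node_const_mul w _ _ L j) h]
  refine node_mono hw ((eg_trA2 hw _ l₀).const_mul _)
    ((((eg_rr hw _ l₀).node hw _ _).sub (eg_rr hw _ l₀)).const_mul _) (fun z => ?_) L j h
  rw [Nat.succ_eq_add_one, Nat.add_sub_cancel_left]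
  conv_lhs => rw [hd]
  conv_rhs => enter [2]; rw [hd]
  rw [node_cons, node_zero]
  exact trA2_dom hw (hm.2.nn hm.1) H.diag (H.dom j hj) hm.1 (Hess87.mono_le_one hm.2) z

/-- **budget on a window**: weights `c_j ≤ κ τ_j`, `τ_j Λ ≤ t` -/
theorem Dt.ta_win (H : Dt w L l₀ τ Λ) (h : Ω → ℝ) {lo hi : ℕ} (hl : lo ≤ hi) (hh : hi ≤ L.length)
    {c : ℕ → ℝ} {κ t : ℝ} (hκ : 0 ≤ κ) (hc : ∀ j ∈ Finset.Ico lo hi, c j ≤ κ * τ j)
    (ht : ∀ j ∈ Finset.Ico lo hi, τ j * Λ ≤ t) :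
    ∑ j ∈ Finset.Ico lo hi, c j * ta w L l₀ h j ≤
      κ * (2 + 2 * t) * (rho w L l₀ h hi - rho w L l₀ h lo) := by
  rw [← Finset.sum_Ico_sub (rho w L l₀ h) hl, Finset.mul_sum]
  refine Finset.sum_le_sum fun j hj => ?_
  have h1 := H.ta_le h ((Finset.mem_Ico.1 hj).2.trans_le hh)
  have h2 := mul_le_mul_of_nonneg_right (hc j hj) (ta_nonneg (w := w) l₀ h L j)
  have h3 := sub_nonneg.2 (rho_mono H.wt L l₀ h (Nat.le_succ j))
  have h4 := mul_le_mul_of_nonneg_right (ht j hj) h3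
  have h5 := mul_le_mul_of_nonneg_left h1 hκ
  have h6 := mul_le_mul_of_nonneg_left h4 hκ
  simp only [Nat.succ_eq_add_one] at h4 h6
  nlinarith

/-- **(Q1V), `tr C²`** -/
theorem Dt.tc_win (H : Dt w L l₀ τ Λ) (h : Ω → ℝ) {lo hi : ℕ} (hl : lo ≤ hi) (hh : hi ≤ L.length)
    {c : ℕ → ℝ} {κ t x : ℝ} (hκ : 0 ≤ κ) (hc : ∀ j ∈ Finset.Ico lo hi, c j ≤ κ * τ j)
    (ht : ∀ j ∈ Finset.Ico lo hi, τ j * Λ ≤ t) (hx : 0 < x)
    (hx' : ∀ j ∈ Finset.Ico lo hi, x ≤ ex L j) :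
    ∑ j ∈ Finset.Ico lo hi, c j * tc w L l₀ h j ≤
      κ * (2 + 2 * t) * (rho w L l₀ h hi - rho w L l₀ h lo) / x ^ 2 := by
  refine le_trans ?_ (div_le_div_of_nonneg_right
    (H.ta_win h hl hh (c := fun j => κ * τ j) hκ (fun _ _ => le_rfl) ht) (sq_nonneg x))
  rw [le_div_iff₀ (by positivity), Finset.sum_mul]
  refine Finset.sum_le_sum fun j hj => ?_
  have h1 := tc_le H.wt H.mono l₀ h hx.le (hx' j hj)
  have h2 := mul_le_mul_of_nonneg_right (hc j hj) (tc_nonneg (w := w) l₀ h L j)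
  have h3 : 0 ≤ κ * τ j := mul_nonneg hκ (H.dom j ((Finset.mem_Ico.1 hj).2.trans_le hh)).1
  nlinarith [mul_le_mul_of_nonneg_left h1 h3, mul_le_mul_of_nonneg_right h2 (sq_nonneg x)]

/-! ### dyadic Riccati bounds -/

/-- **any clock**: `S i` is a positive lower bound of the mass between `t i` and `J` -/
theorem Dt.aa_clock (H : Dt w L l₀ τ Λ) (h : Ω → ℝ) {J : ℕ} (hJ : J ≤ L.length) (K : ℕ)
    {t : ℕ → ℕ} (ht : Monotone t) (hK : t K ≤ J) {S : ℕ → ℝ} (h0 : ∀ i ≤ K, 0 < S i)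
    (hS : ∀ i ≤ K, S i ≤ ∑ k ∈ Finset.Ico (t i) J, ex L k * τ k) :
    aa w L l₀ h J ≤ (K + 2) * (rho w L l₀ h (t 0) / S 0 + ∑ i ∈ Finset.range K,
      (rho w L l₀ h (t (i + 1)) - rho w L l₀ h (t i)) / S (i + 1) +
        Λ * (rho w L l₀ h J - rho w L l₀ h (t K))) := by
  refine (dyad H.wt H.mono l₀ H.dom hJ (fld_sq_le' H.diag) h K ht hK
    ((h0 K le_rfl).trans_le (hS K le_rfl))).trans (mul_le_mul_of_nonneg_left ?_ (by positivity))
  refine add_le_add (add_le_add ?_ (Finset.sum_le_sum fun i hi => ?_)) le_rfl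
  · exact div_le_div_of_nonneg_left (rho_nonneg l₀ h L _) (h0 0 (Nat.zero_le _))
      (hS 0 (Nat.zero_le _))
  · have hi' : i + 1 ≤ K := Finset.mem_range.1 hi
    exact div_le_div_of_nonneg_left (sub_nonneg.2 (rho_mono H.wt L l₀ h (ht (Nat.le_succ i))))
      (h0 _ hi') (hS _ hi')

/-- uniform mass `σ` per level on `[A, B)` -/
structure Blk (w : Ω → ℝ) (L : List (Lv Ω)) (l₀ : Lv Ω) (τ : ℕ → ℝ) (Λ σ : ℝ) (A B : ℕ) : Prop
    extends Dt w L l₀ τ Λ where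
  len : B ≤ L.length
  pos : 0 < σ
  mass : ∀ k, A ≤ k → k < B → σ ≤ ex L k * τ k

variable {σ : ℝ} {A B : ℕ}

theorem Blk.mass_le (H : Blk w L l₀ τ Λ σ A B) {u J : ℕ} (h1 : A + u ≤ J) (h2 : J ≤ B) :
    σ * u ≤ ∑ k ∈ Finset.Ico (J - u) J, ex L k * τ k := by
  have := Finset.card_nsmul_le_sum (Finset.Ico (J - u) J) (fun k => ex L k * τ k) σ fun k hk => by
    obtain ⟨h3, h4⟩ := Finset.mem_Ico.1 hk
    exact H.mass k (by omega) (by omega)
  rw [Nat.card_Ico, show J - (J - u) = u by omega, nsmul_eq_mul] at this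
  linarith

/-- **one node**, look-back distances `2^D, …, 2, 1` -/
theorem Blk.aa_node (H : Blk w L l₀ τ Λ σ A B) (h : Ω → ℝ) {D J : ℕ} (h1 : A + 2 ^ D ≤ J)
    (h2 : J ≤ B) :
    aa w L l₀ h J ≤ (D + 2) * (rho w L l₀ h (J - 2 ^ D) / (σ * 2 ^ D) + ∑ i ∈ Finset.range D,
      (rho w L l₀ h (J - 2 ^ i) - rho w L l₀ h (J - 2 ^ (i + 1))) / (σ * 2 ^ i) +
        Λ * (rho w L l₀ h J - rho w L l₀ h (J - 1))) := by
  have hσ := H.pos
  have := H.toDt.aa_clock h (h2.trans H.len) D (t := fun i => J - 2 ^ (D - i))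
    (fun i j hij => Nat.sub_le_sub_left (Nat.pow_le_pow_right two_pos (by omega)) _)
    (Nat.sub_le _ _) (S := fun i => σ * 2 ^ (D - i)) (fun i _ => by positivity) fun i _ => by
      have h3 : 2 ^ (D - i) ≤ 2 ^ D := Nat.pow_le_pow_right two_pos (by omega)
      have := H.mass_le (u := 2 ^ (D - i)) (J := J) (by omega) h2
      push_cast at this
      exact this
  simp only [Nat.sub_zero, Nat.sub_self, pow_zero] at this
  refine this.trans (le_of_eq ?_)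
  congr 3
  rw [← Finset.sum_range_reflect]
  refine Finset.sum_congr rfl fun i hi => ?_
  have hi' := Finset.mem_range.1 hi
  rw [show D - (D - 1 - i + 1) = i by omega, show D - (D - 1 - i) = i + 1 by omega]

/-- **(Q1), window form** -/
theorem Blk.aa_win (H : Blk w L l₀ τ Λ σ A B) (h : Ω → ℝ) {D lo hi : ℕ} (h1 : A + 2 ^ D ≤ lo)
    (hl : lo ≤ hi) (h2 : hi ≤ B + 1) :
    ∑ J ∈ Finset.Ico lo hi, aa w L l₀ h J ≤ (D + 2) *
      (((hi - lo : ℕ) : ℝ) * rho w L l₀ h (hi - 2 ^ D) / (σ * 2 ^ D) + ∑ i ∈ Finset.range D,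
        ((min (2 ^ i) (hi - lo) : ℕ) : ℝ) *
          (rho w L l₀ h (hi - 2 ^ i) - rho w L l₀ h (lo - 2 ^ (i + 1))) / (σ * 2 ^ i) +
        Λ * (rho w L l₀ h (hi - 1) - rho w L l₀ h (lo - 1))) := by
  have hσ := H.pos
  have hρ := rho_mono H.wt L l₀ h
  have h3 : 1 ≤ 2 ^ D := Nat.one_le_two_pow
  refine (Finset.sum_le_sum fun J hJ => H.aa_node h (D := D)
    (h1.trans (Finset.mem_Ico.1 hJ).1) (by have := (Finset.mem_Ico.1 hJ).2; omega)).trans ?_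
  rw [← Finset.mul_sum, Finset.sum_add_distrib, Finset.sum_add_distrib, Finset.sum_comm]
  refine mul_le_mul_of_nonneg_left (add_le_add (add_le_add ?_
    (Finset.sum_le_sum fun i hiD => ?_)) (le_of_eq ?_)) (by positivity)
  · rw [← Finset.sum_div]
    refine div_le_div_of_nonneg_right ?_ (by positivity)
    refine (Finset.sum_le_card_nsmul _ _ (rho w L l₀ h (hi - 2 ^ D)) fun J hJ =>
      hρ (Nat.sub_le_sub_right (Finset.mem_Ico.1 hJ).2.le _)).trans (le_of_eq (by simp))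
  · rw [← Finset.sum_div]
    refine div_le_div_of_nonneg_right ?_ (by positivity)
    have h4 : 2 ^ (i + 1) ≤ 2 ^ D := Nat.pow_le_pow_right two_pos (Finset.mem_range.1 hiD)
    have := shift_sum_min hρ (u' := 2 ^ i) (u := 2 ^ (i + 1)) (lo := lo) (hi := hi)
      (Nat.pow_le_pow_right two_pos (Nat.le_succ i)) (by omega) hl
    rwa [show 2 ^ (i + 1) - 2 ^ i = 2 ^ i by rw [pow_succ]; omega] at this
  · rw [← Finset.mul_sum]
    congr 1
    exact sum_succ_sub (rho w L l₀ h) (d := 0) (by omega) hl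

/-- the block bound for `N` nodes, `top ≥ ρ`, `rise ≥` the rise of `ρ` on the enlarged block -/
def qb (Λ σ : ℝ) (D N : ℕ) (top rise : ℝ) : ℝ :=
  (D + 2) * (N * top / (σ * 2 ^ D) + (D / σ + Λ) * rise)

/-- **(Q1), block form**: only the top value and the rise of `ρ` enter -/
theorem Blk.aa_blk (H : Blk w L l₀ τ Λ σ A B) (h : Ω → ℝ) {D lo hi : ℕ} (h1 : A + 2 ^ D ≤ lo)
    (hl : lo ≤ hi) (h2 : hi ≤ B + 1) {top rise : ℝ} (ht : rho w L l₀ h (hi - 1) ≤ top)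
    (hr : rho w L l₀ h (hi - 1) - rho w L l₀ h (lo - 2 ^ D) ≤ rise) :
    ∑ J ∈ Finset.Ico lo hi, aa w L l₀ h J ≤ qb Λ σ D (hi - lo) top rise := by
  have hσ := H.pos
  have hρ := rho_mono H.wt L l₀ h
  have h3 : 1 ≤ 2 ^ D := Nat.one_le_two_pow
  have r0 : 0 ≤ rise := (sub_nonneg.2 (hρ (by omega))).trans hr
  refine (H.aa_win h h1 hl h2).trans (mul_le_mul_of_nonneg_left ?_ (by positivity))
  rw [add_mul, ← add_assoc]
  refine add_le_add (add_le_add ?_ ?_) ?_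
  · exact div_le_div_of_nonneg_right (mul_le_mul_of_nonneg_left ((hρ (by omega)).trans ht)
      (Nat.cast_nonneg _)) (by positivity)
  · refine (Finset.sum_le_card_nsmul _ _ (rise / σ) fun i hiD => ?_).trans (le_of_eq ?_)
    · have h4 : 2 ^ (i + 1) ≤ 2 ^ D := Nat.pow_le_pow_right two_pos (Finset.mem_range.1 hiD)
      have h5 : 1 ≤ 2 ^ i := Nat.one_le_two_pow
      have h6 : rho w L l₀ h (hi - 2 ^ i) - rho w L l₀ h (lo - 2 ^ (i + 1)) ≤ rise :=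
        (sub_le_sub (hρ (by omega)) (hρ (by omega))).trans hr
      have h7 : ((min (2 ^ i) (hi - lo) : ℕ) : ℝ) ≤ 2 ^ i := by exact_mod_cast min_le_left _ _
      rw [div_le_div_iff₀ (by positivity) hσ]
      have h8 := mul_le_mul_of_nonneg_left h6 (Nat.cast_nonneg (α := ℝ) (min (2 ^ i) (hi - lo)))
      have h9 := mul_le_mul_of_nonneg_right h7 r0
      nlinarith [mul_le_mul_of_nonneg_right (h8.trans h9) hσ.le]
    · simp only [Finset.card_range, nsmul_eq_mul]; ring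
  · exact mul_le_mul_of_nonneg_left ((sub_le_sub_left (hρ (by omega)) _).trans hr) H.lam_nonneg

/-- **(Q1)** with weights `c_j ≤ κ` (for instance `c_j = dm_j φ_j²`) -/
theorem Blk.q1 (H : Blk w L l₀ τ Λ σ A B) (h : Ω → ℝ) {D lo hi : ℕ} (h1 : A + 2 ^ D ≤ lo)
    (hl : lo ≤ hi) (h2 : hi ≤ B + 1) {top rise : ℝ} (ht : rho w L l₀ h (hi - 1) ≤ top)
    (hr : rho w L l₀ h (hi - 1) - rho w L l₀ h (lo - 2 ^ D) ≤ rise) {c : ℕ → ℝ} {κ : ℝ}
    (hκ : 0 ≤ κ) (hc : ∀ j ∈ Finset.Ico lo hi, c j ≤ κ) :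
    ∑ j ∈ Finset.Ico lo hi, c j * aa w L l₀ h j ≤ κ * qb Λ σ D (hi - lo) top rise :=
  (wsum_le hc fun j _ => aa_nonneg H.wt H.mono l₀ h j).trans
    (mul_le_mul_of_nonneg_left (H.aa_blk h h1 hl h2 ht hr) hκ)

/-- **(Q1V), `V`**, from any bound on `∑ c_j a_j` -/
theorem vv_win (hw : Wt w) (hL : Mono 0 L) (l₀ : Lv Ω) (h : Ω → ℝ) {S : Finset ℕ} {c : ℕ → ℝ}
    (hc : ∀ j ∈ S, 0 ≤ c j) {x : ℝ} (hx : 0 < x) (hx' : ∀ j ∈ S, x ≤ ex L j) :
    ∑ j ∈ S, c j * vv w L l₀ h j ≤ (∑ j ∈ S, c j * aa w L l₀ h j) / x := by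
  rw [le_div_iff₀ hx, Finset.sum_mul]
  refine Finset.sum_le_sum fun j hj => ?_
  nlinarith [mul_le_mul_of_nonneg_left (vv_le hw hL l₀ h (hx' j hj)) (hc j hj)]


/-- **pair versus node**: `E (R - q)² = E (ρ - q)² + tr C² + 2 V`, summed with signed weights -/
theorem pair_node (hw : Wt w) (L : List (Lv Ω)) (l₀ : Lv Ω) (h : Ω → ℝ) (S : Finset ℕ)
    (c q : ℕ → ℝ) :
    |∑ j ∈ S, c j * pi2 w L j (fun x y => (l₀.cov x y - q j) ^ 2) h -
      ∑ j ∈ S, c j * node w L j (fun z => (rr w (L.drop j) l₀ z - q j) ^ 2) h| ≤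
      ∑ j ∈ S, |c j| * tc w L l₀ h j + 2 * ∑ j ∈ S, |c j| * vv w L l₀ h j := by
  rw [← Finset.sum_sub_distrib, Finset.mul_sum, ← Finset.sum_add_distrib]
  refine (Finset.abs_sum_le_sum_abs _ _).trans (Finset.sum_le_sum fun j _ => le_of_eq ?_)
  have h1 := tc_nonneg (w := w) l₀ h L j
  have h2 := vv_nonneg hw l₀ h L j
  rw [pi2_sq hw, ← mul_sub, add_sub_cancel_right, abs_mul]
  change |c j| * |tc w L l₀ h j + 2 * vv w L l₀ h j| = _
  rw [abs_of_nonneg (a := tc w L l₀ h j + 2 * vv w L l₀ h j) (by positivity)]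
  ring

/-! ### variance of linear forms -/

/-- the linear form `∑ dm_j φ_j ρ_j` along the path -/
def lin (w : Ω → ℝ) (L : List (Lv Ω)) (l₀ : Lv Ω) (h : Ω → ℝ) (φ : ℕ → ℝ) (g : NI L → ℝ) : ℝ :=
  nsum L h (fun j => dm L 0 j * φ j) (fun j => rr w (L.drop j) l₀) g

theorem eg_lin (hw : Wt w) (L : List (Lv Ω)) (l₀ : Lv Ω) (h : Ω → ℝ) (φ : ℕ → ℝ) :
    Eg (lin w L l₀ h φ) :=
  eg_nsum peStmt hw L h (fun j => dm L 0 j * φ j) (f := fun j => rr w (L.drop j) l₀)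
    fun _ => eg_rr hw _ l₀

theorem pE_lin (hw : Wt w) (L : List (Lv Ω)) (l₀ : Lv Ω) (h : Ω → ℝ) (φ : ℕ → ℝ) :
    pE w L h (fun g _ => lin w L l₀ h φ g) =
      ∑ j ∈ Finset.range L.length, dm L 0 (j + 1) * φ (j + 1) * rho w L l₀ h (j + 1) :=
  pE_nsum peStmt hw L h _ fun _ => eg_rr hw _ l₀

section var
variable (hw : Wt w) (hL : Mono 0 L) (h : Ω → ℝ) {T : Set (Equiv.Perm Ω)}
  (hT : ∀ τ ∈ T, Sym w L h τ) (htr : ∀ x y, w x ≠ 0 → w y ≠ 0 → ∃ τ ∈ T, τ x = y)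
  (h₀ : ∀ τ ∈ T, ∀ x y, l₀.cov (τ x) (τ y) = l₀.cov x y)
include hT htr h₀

include hw hL in
/-- signed weights -/
theorem var_lin (φ : ℕ → ℝ) :
    pE w L h (fun g _ => lin w L l₀ h φ g ^ 2) - pE w L h (fun g _ => lin w L l₀ h φ g) ^ 2 ≤
      4 * ∑ j ∈ Finset.range L.length, dm L 0 (j + 1) * φ (j + 1) ^ 2 * aa w L l₀ h (j + 1) := by
  have := sync_G hw hL h hT htr l₀ h₀ (G := fun j t => φ j * t) (G' := fun j _ => φ j)
    (fun j t => by simpa using (hasDerivAt_id t).const_mul (φ j)) fun _ => continuous_const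
  have e : nsum L h (dm L 0) (fun j z => φ j * rr w (L.drop j) l₀ z) = lin w L l₀ h φ := by
    funext g
    simp only [lin, nsum, mul_assoc]
  simp only [e, node_const_mul] at this
  simpa only [aa, mul_assoc] using this



end var

end Crest.Agent.T156.Cas.Q33

end
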