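import Mathlib
import Crest.Agent.T156.QDef_57

-- ▼ part T156/QTwoA_21
section

/-!
# Row 156, block Q, leaf C6 (helper21), part A: `L^p` synchronisation, frame-free core

A class `C` of functions with a monotone seminorm `nm`; a vector process `m j`; windows of nodes.
-/

set_option autoImplicit false
set_option linter.unusedSectionVars false

noncomputable section

namespace Crest.Agent.T156.Q21

open Finset Real

/-- a class of functions with a monotone seminorm -/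
structure NS (P : Type) where
  C : (P → ℝ) → Prop
  nm : (P → ℝ) → ℝ
  c_const : ∀ c, C fun _ => c
  c_add : ∀ {F G}, C F → C G → C fun p => F p + G p
  c_mul : ∀ {F G}, C F → C G → C fun p => F p * G p
  c_abs : ∀ {F}, C F → C fun p => |F p|
  nonneg : ∀ F, 0 ≤ nm F
  mono : ∀ {F G}, C F → C G → (∀ p, |F p| ≤ |G p|) → nm F ≤ nm G
  add : ∀ {F G}, C F → C G → nm (fun p => F p + G p) ≤ nm F + nm G
  smul : ∀ {F} (c : ℝ), 0 ≤ c → C F → nm (fun p => c * F p) ≤ c * nm F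
  const : ∀ c, 0 ≤ c → nm (fun _ => c) ≤ c

namespace NS
variable {P : Type} (S : NS P) {F G X : P → ℝ}

theorem c_cmul (c : ℝ) (h : S.C F) : S.C fun p => c * F p := S.c_mul (S.c_const c) h

theorem c_sub (h : S.C F) (h' : S.C G) : S.C fun p => F p - G p := by
  simpa [sub_eq_add_neg] using S.c_add h (S.c_cmul (-1) h')

theorem c_sq (h : S.C F) : S.C fun p => F p ^ 2 := by simpa [sq] using S.c_mul h h

theorem c_div (h : S.C F) (c : ℝ) : S.C fun p => F p / c := by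
  simpa [div_eq_inv_mul] using S.c_cmul c⁻¹ h

theorem c_sum {κ : Type*} (s : Finset κ) {F : κ → P → ℝ} (h : ∀ k ∈ s, S.C (F k)) :
    S.C fun p => ∑ k ∈ s, F k p := by
  classical
  induction s using Finset.induction_on with
  | empty => simpa using S.c_const 0
  | insert a s ha ih =>
    simp only [sum_insert ha]
    exact S.c_add (h a (mem_insert_self _ _)) (ih fun k hk => h k (mem_insert_of_mem hk))

theorem c_pos (h : S.C F) : S.C fun p => max (F p) 0 := by
  have : (fun p => max (F p) 0) = fun p => (1 / 2) * (F p + |F p|) := funext fun p => by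
    rcases le_total (F p) 0 with k | k
    · rw [max_eq_right k, abs_of_nonpos k]; ring
    · rw [max_eq_left k, abs_of_nonneg k]; ring
  rw [this]; exact S.c_cmul _ (S.c_add h (S.c_abs h))

theorem mono' (h : S.C F) (h' : S.C G) (e : ∀ p, |F p| ≤ G p) : S.nm F ≤ S.nm G :=
  S.mono h h' fun p => (e p).trans (le_abs_self _)

theorem abs_le (h : S.C F) : S.nm (fun p => |F p|) ≤ S.nm F :=
  S.mono (S.c_abs h) h fun p => by simp

theorem sum_le {κ : Type*} (s : Finset κ) {F : κ → P → ℝ} (h : ∀ k ∈ s, S.C (F k)) :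
    S.nm (fun p => ∑ k ∈ s, F k p) ≤ ∑ k ∈ s, S.nm (F k) := by
  classical
  induction s using Finset.induction_on with
  | empty => simpa using S.const 0 le_rfl
  | insert a s ha ih =>
    simp only [sum_insert ha]
    have h2 := fun k hk => h k (mem_insert_of_mem hk)
    exact (S.add (h a (mem_insert_self _ _)) (S.c_sum s h2)).trans (by linarith [ih h2])

theorem wsum_le {κ : Type*} (s : Finset κ) {F : κ → P → ℝ} (h : ∀ k ∈ s, S.C (F k)) {c : κ → ℝ}
    (hc : ∀ k ∈ s, 0 ≤ c k) (h1 : ∑ k ∈ s, c k = 1) {M : ℝ} (hM : ∀ k ∈ s, S.nm (F k) ≤ M) :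
    S.nm (fun p => ∑ k ∈ s, c k * F k p) ≤ M := by
  refine (S.sum_le s fun k hk => S.c_cmul _ (h k hk)).trans ?_
  calc _ ≤ ∑ k ∈ s, c k * M := sum_le_sum fun k hk => (S.smul _ (hc k hk) (h k hk)).trans
        (mul_le_mul_of_nonneg_left (hM k hk) (hc k hk))
    _ = M := by rw [← sum_mul, h1, one_mul]

theorem le_add_const (h : S.C F) (h' : S.C G) {c : ℝ} (hc : 0 ≤ c) (e : ∀ p, |F p| ≤ G p + c) :
    S.nm F ≤ S.nm G + c :=
  (S.mono' h (S.c_add h' (S.c_const c)) e).trans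
    ((S.add h' (S.c_const c)).trans (by linarith [S.const c hc]))

/-- a square root under the norm -/
theorem le_sqrt (h : S.C F) (h' : S.C G) (hX : S.C X) (X0 : ∀ p, 0 ≤ X p) {c : ℝ} (hc : 0 ≤ c)
    (e : ∀ p, |F p| ≤ G p + c * √(X p)) : S.nm F ≤ S.nm G + c * √(S.nm X) := by
  have key : ∀ θ : ℝ, 0 < θ → S.nm F ≤ S.nm G + c * (θ / 2 + S.nm X / (2 * θ)) := fun θ hθ => by
    have h1 : ∀ p, |F p| ≤ (G p + c / (2 * θ) * X p) + c * (θ / 2) := fun p => by
      have a := sq_sqrt (X0 p)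
      have b : √(X p) ≤ θ / 2 + X p / (2 * θ) := by
        rw [div_add_div _ _ (by norm_num) (by positivity), le_div_iff₀ (by positivity)]
        nlinarith [sq_nonneg (θ - √(X p))]
      have := mul_le_mul_of_nonneg_left b hc
      have q : c * (θ / 2 + X p / (2 * θ)) = c / (2 * θ) * X p + c * (θ / 2) := by ring
      linarith [e p]
    have h2 := S.le_add_const h (S.c_add h' (S.c_cmul _ hX)) (by positivity) h1
    have h3 := S.add h' (S.c_cmul (c / (2 * θ)) hX)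
    have h4 := S.smul (c / (2 * θ)) (by positivity) hX
    have q : c * (θ / 2 + S.nm X / (2 * θ)) = c / (2 * θ) * S.nm X + c * (θ / 2) := by ring
    linarith
  rcases (S.nonneg X).eq_or_lt with k | k
  · rw [← k, sqrt_zero, mul_zero, add_zero]
    refine le_of_forall_pos_le_add fun ε hε => ?_
    have := key (ε / (c + 1)) (by positivity)
    rw [← k, zero_div, add_zero] at this
    refine this.trans (add_le_add le_rfl ?_)
    rw [← mul_div_assoc, ← mul_div_assoc, div_div, div_le_iff₀ (by positivity)]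
    nlinarith
  · have hs := sqrt_pos.2 k
    have := key _ hs
    refine this.trans_eq ?_
    congr 2
    have a := sq_sqrt k.le
    field_simp
    nlinarith

end NS

variable {P ι W : Type} [Fintype ι]

/-- data of the synchronisation argument -/
structure Dat (P ι W : Type) where
  m : ℕ → P → ι → ℝ
  a : ℕ → P → ℝ
  Ξ : P → ℝ
  I : W → Finset ℕ
  ω : W → ℕ → ℝ
  b : ℕ → ℕ → ℕ
  u : ℕ → ℝ
  L : ℕ
  J : ℕ
  γ : W → ℝ
  r : W → ℝ
  l1 : ℝ
  l2 : ℝ
  ξ : ℝ

namespace Dat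
variable (D : Dat P ι W) (S : NS P)

def ρ (j : ℕ) (p : P) : ℝ := ∑ i, D.m j p i ^ 2
def inc (i j : ℕ) (p : P) : ℝ := ∑ k, (D.m j p k - D.m i p k) ^ 2
def Y (y j : ℕ) (p : P) : ℝ := ∑ k, D.m y p k * (D.m j p k - D.m y p k)
/-- normalised square of the piece `k` of `m y` -/
def Dk (k y : ℕ) (p : P) : ℝ :=
  (if k < D.L then D.inc (D.b (k + 1) y) (D.b k y) p else D.ρ (D.b D.L y) p) / D.u k
def X (t : W) (p : P) : ℝ := ∑ y ∈ D.I t, D.ω t y * ∑ k ∈ range (D.L + 1), (D.Dk k y p + 1)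
def rb (t : W) (p : P) : ℝ := ∑ y ∈ D.I t, D.ω t y * D.ρ y p
def ab (t : W) (p : P) : ℝ := ∑ y ∈ D.I t, D.ω t y * D.a y p
def Λ (t : W) : ℝ := S.nm (D.X t)
def Λk (t : W) (k : ℕ) : ℝ := S.nm fun p => ∑ y ∈ D.I t, D.ω t y * D.Dk k y p
def N (t : W) : ℝ := S.nm fun p => D.rb t p - D.r t
def V (t : W) : ℝ := |D.r t - D.γ t|
def T (t : W) : ℝ := D.l1 * √((D.L + 1) * D.Λ S t) + D.ξ
def Z (t : W) : ℝ := D.N S t + D.V t + 2 * D.T S t

/-- hypotheses on the process -/
structure Ok : Prop where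
  cm : ∀ j i, S.C fun p => D.m j p i
  ca : ∀ j, S.C (D.a j)
  a0 : ∀ j p, 0 ≤ D.a j p
  cΞ : S.C D.Ξ
  nΞ : S.nm D.Ξ ≤ D.ξ
  Ξ0 : ∀ p, 0 ≤ D.Ξ p
  ω0 : ∀ t y, 0 ≤ D.ω t y
  u0 : ∀ k, 0 < D.u k
  l10 : 0 ≤ D.l1
  l20 : 0 ≤ D.l2

/-- submartingale + Jensen: the window `t` lies after the node `j` -/
def Up (t : W) (j : ℕ) : Prop :=
  S.nm (fun p => max (D.ρ j p - D.γ t) 0) ≤ S.nm fun p => max (D.rb t p - D.γ t) 0

/-- hypotheses on one window -/
structure Gd (t : W) : Prop where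
  ω1 : ∑ y ∈ D.I t, D.ω t y = 1
  g1 : ∀ y ∈ D.I t, ∀ j, y ≤ j → j ≤ D.J → ∀ p,
    |D.Y y j p| ≤ D.l1 * ∑ k ∈ range (D.L + 1), √(D.Dk k y p + 1) + D.Ξ p
  g2 : ∀ y ∈ D.I t, ∀ p, D.a y p ≤ D.l2 * ∑ k ∈ range (D.L + 1), (D.Dk k y p + 1) + D.Ξ p

variable {D S}

theorem ρ0 (j : ℕ) (p : P) : 0 ≤ D.ρ j p := sum_nonneg fun _ _ => sq_nonneg _
theorem inc0 (i j : ℕ) (p : P) : 0 ≤ D.inc i j p := sum_nonneg fun _ _ => sq_nonneg _

theorem inc_eq (y j : ℕ) (p : P) : D.inc y j p = D.ρ j p - D.ρ y p - 2 * D.Y y j p := by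
  simp only [inc, ρ, Y, mul_sum, ← sum_sub_distrib]
  exact sum_congr rfl fun _ _ => by ring

theorem inc_tri (y i j : ℕ) (p : P) : D.inc i j p ≤ 2 * (D.inc y j p + D.inc y i p) := by
  simp only [inc, mul_sum, ← sum_add_distrib]
  exact sum_le_sum fun k _ => by
    nlinarith [sq_nonneg (D.m j p k - D.m y p k + (D.m i p k - D.m y p k))]

namespace Ok
variable (H : D.Ok S)
include H

theorem cρ (j : ℕ) : S.C (D.ρ j) := S.c_sum _ fun i _ => S.c_sq (H.cm j i)
theorem cinc (i j : ℕ) : S.C (D.inc i j) :=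
  S.c_sum _ fun k _ => S.c_sq (S.c_sub (H.cm j k) (H.cm i k))
theorem cY (y j : ℕ) : S.C (D.Y y j) :=
  S.c_sum _ fun k _ => S.c_mul (H.cm y k) (S.c_sub (H.cm j k) (H.cm y k))
theorem cD (k y : ℕ) : S.C (D.Dk k y) := by
  unfold Dk
  by_cases h : k < D.L
  · simp only [if_pos h]; exact S.c_div (H.cinc _ _) _
  · simp only [if_neg h]; exact S.c_div (H.cρ _) _
theorem D0 (k y : ℕ) (p : P) : 0 ≤ D.Dk k y p := by
  refine div_nonneg ?_ (H.u0 k).le
  split_ifs
  exacts [inc0 _ _ _, ρ0 _ _]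
theorem cX (t : W) : S.C (D.X t) := S.c_sum _ fun y _ => S.c_cmul _
  (S.c_sum _ fun k _ => S.c_add (H.cD k y) (S.c_const 1))
theorem X0 (t : W) (p : P) : 0 ≤ D.X t p := sum_nonneg fun y _ => mul_nonneg (H.ω0 t y)
  (sum_nonneg fun k _ => by linarith [H.D0 k y p])
theorem crb (t : W) : S.C (D.rb t) := S.c_sum _ fun y _ => S.c_cmul _ (H.cρ y)
theorem cab (t : W) : S.C (D.ab t) := S.c_sum _ fun y _ => S.c_cmul _ (H.ca y)
theorem ξ0 : 0 ≤ D.ξ := (S.nonneg _).trans H.nΞ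
theorem T0 (t : W) : 0 ≤ D.T S t := add_nonneg (mul_nonneg H.l10 (sqrt_nonneg _)) H.ξ0
theorem NV_le (t : W) : D.N S t + D.V t ≤ D.Z S t := by unfold Z; linarith [H.T0 t]
theorem Z0 (t : W) : 0 ≤ D.Z S t :=
  (add_nonneg (S.nonneg _) (abs_nonneg _)).trans (H.NV_le t)

/-- (a) upper bound from a later window -/
theorem up_le {t : W} {j : ℕ} (hj : D.Up S t j) :
    S.nm (fun p => max (D.ρ j p - D.γ t) 0) ≤ D.N S t + D.V t := by
  refine le_trans hj ?_
  have c1 := S.c_sub (H.crb t) (S.c_const (D.r t))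
  refine (S.le_add_const (G := fun p => |D.rb t p - D.r t|)
    (S.c_pos (S.c_sub (H.crb t) (S.c_const _))) (S.c_abs c1) (abs_nonneg (D.r t - D.γ t))
    fun p => ?_).trans (add_le_add (S.abs_le c1) le_rfl)
  rw [abs_of_nonneg (le_max_right _ _)]
  refine max_le ?_ (by positivity)
  show D.rb t p - D.γ t ≤ _
  linarith [le_abs_self (D.rb t p - D.r t), le_abs_self (D.r t - D.γ t)]

/-- (b) locking, pathwise -/
theorem lock {t : W} {j : ℕ} (G : D.Gd t) (hj : ∀ y ∈ D.I t, y ≤ j) (hJ : j ≤ D.J) (p : P) :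
    ∑ y ∈ D.I t, D.ω t y * |D.Y y j p| ≤ D.Ξ p + D.l1 * √((D.L + 1) * D.X t p) := by
  have h1 : ∑ y ∈ D.I t, D.ω t y * |D.Y y j p| ≤ ∑ y ∈ D.I t, D.ω t y *
      (D.l1 * ∑ k ∈ range (D.L + 1), √(D.Dk k y p + 1) + D.Ξ p) :=
    sum_le_sum fun y hy => mul_le_mul_of_nonneg_left (G.g1 y hy j (hj y hy) hJ p) (H.ω0 t y)
  have h2 : ∑ y ∈ D.I t, D.ω t y * (D.l1 * ∑ k ∈ range (D.L + 1), √(D.Dk k y p + 1) + D.Ξ p) =
      D.Ξ p + D.l1 * ∑ y ∈ D.I t, D.ω t y * ∑ k ∈ range (D.L + 1), √(D.Dk k y p + 1) := by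
    simp only [mul_add, sum_add_distrib, ← sum_mul, G.ω1, mul_sum, mul_left_comm]; ring
  refine h1.trans (h2.trans_le (add_le_add le_rfl (mul_le_mul_of_nonneg_left ?_ H.l10)))
  refine le_sqrt_of_sq_le ?_
  set f : ℕ → ℝ := fun y => ∑ k ∈ range (D.L + 1), √(D.Dk k y p + 1) with hf
  have j1 : (∑ y ∈ D.I t, D.ω t y * f y) ^ 2 ≤ ∑ y ∈ D.I t, D.ω t y * f y ^ 2 := by
    have := sum_sq_le_sum_mul_sum_of_sq_le_mul (D.I t) (r := fun y => D.ω t y * f y)
      (f := fun y => D.ω t y) (g := fun y => D.ω t y * f y ^ 2) (fun y _ => H.ω0 t y)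
      (fun y _ => mul_nonneg (H.ω0 t y) (sq_nonneg _)) (fun y _ => le_of_eq (by ring))
    rwa [G.ω1, one_mul] at this
  refine j1.trans ?_
  rw [X, mul_sum]
  refine sum_le_sum fun y _ => ?_
  rw [mul_left_comm]
  refine mul_le_mul_of_nonneg_left ?_ (H.ω0 t y)
  have := sq_sum_le_card_mul_sum_sq (s := range (D.L + 1)) (f := fun k => √(D.Dk k y p + 1))
  simp only [card_range, Nat.cast_add, Nat.cast_one] at this
  refine this.trans_eq ?_
  congr 1
  exact sum_congr rfl fun k _ => sq_sqrt (by linarith [H.D0 k y p])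

theorem avg_inc {t : W} {j : ℕ} (G : D.Gd t) (hj : ∀ y ∈ D.I t, y ≤ j) (hJ : j ≤ D.J) (p : P) :
    ∑ y ∈ D.I t, D.ω t y * D.inc y j p ≤
      D.ρ j p - D.rb t p + 2 * (D.Ξ p + D.l1 * √((D.L + 1) * D.X t p)) := by
  have h := H.lock G hj hJ p
  have : ∑ y ∈ D.I t, D.ω t y * D.inc y j p ≤
      ∑ y ∈ D.I t, D.ω t y * (D.ρ j p - D.ρ y p + 2 * |D.Y y j p|) :=
    sum_le_sum fun y _ => mul_le_mul_of_nonneg_left
      (by rw [inc_eq]; linarith [neg_abs_le (D.Y y j p)]) (H.ω0 t y)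
  have e : ∑ y ∈ D.I t, D.ω t y * (D.ρ j p - D.ρ y p + 2 * |D.Y y j p|) =
      D.ρ j p - D.rb t p + 2 * ∑ y ∈ D.I t, D.ω t y * |D.Y y j p| := by
    simp only [mul_add, mul_sub, sum_add_distrib, sum_sub_distrib, ← sum_mul, G.ω1, rb, mul_sum,
      mul_left_comm]; ring
  linarith

/-- norm of a function dominated by `G + c (|rb - r| + V + 2 lock)` -/
theorem le_Z {t : W} {F G : P → ℝ} (hF : S.C F) (hG : S.C G) {c : ℝ} (hc : 0 ≤ c)
    (e : ∀ p, |F p| ≤ G p + c * (|D.rb t p - D.r t| + D.V t +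
      2 * (D.Ξ p + D.l1 * √((D.L + 1) * D.X t p)))) : S.nm F ≤ S.nm G + c * D.Z S t := by
  have c1 := S.c_sub (H.crb t) (S.c_const (D.r t))
  have c2 := S.c_abs c1
  have c3 := S.c_cmul ((D.L : ℝ) + 1) (H.cX t)
  have cV := S.c_const (c * D.V t)
  have hV : 0 ≤ c * D.V t := mul_nonneg hc (abs_nonneg _)
  have k1 := S.le_sqrt hF (S.c_add (S.c_add (S.c_add hG (S.c_cmul c c2)) cV)
    (S.c_cmul (2 * c) H.cΞ)) c3 (fun p => mul_nonneg (by positivity) (H.X0 t p))
    (c := 2 * c * D.l1) (mul_nonneg (by positivity) H.l10) fun p => (e p).trans_eq (by ring)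
  have k2 := S.add (S.c_add (S.c_add hG (S.c_cmul c c2)) cV) (S.c_cmul (2 * c) H.cΞ)
  have k3 := S.add (S.c_add hG (S.c_cmul c c2)) cV
  have k4 := S.add hG (S.c_cmul c c2)
  have k5 := S.smul c hc c2
  have k6 := mul_le_mul_of_nonneg_left (S.abs_le c1) hc
  have k7 := S.const _ hV
  have k8 := S.smul (2 * c) (by positivity) H.cΞ
  have k9 := mul_le_mul_of_nonneg_left H.nΞ (show 0 ≤ 2 * c by positivity)
  have k10 := mul_le_mul_of_nonneg_left (sqrt_le_sqrt (S.smul ((D.L : ℝ) + 1) (by positivity)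
    (H.cX t))) (show 0 ≤ 2 * c * D.l1 from mul_nonneg (by positivity) H.l10)
  have e2 : c * D.Z S t = c * D.N S t + c * D.V t +
      (2 * c * D.l1 * √((D.L + 1) * D.Λ S t) + 2 * c * D.ξ) := by simp only [Z, T]; ring
  rw [e2]; simp only [N, Λ]
  linarith

/-- **(Q2), one node**: a window `t` before `j` and a window `t'` after `j` -/
theorem loc {t t' : W} {j : ℕ} (G : D.Gd t) (hj : ∀ y ∈ D.I t, y ≤ j) (hJ : j ≤ D.J)
    (hj' : D.Up S t' j) (c : ℝ) :
    S.nm (fun p => D.ρ j p - c) ≤ D.Z S t + D.Z S t' + |D.γ t - c| + |D.γ t' - c| := by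
  have cu := S.c_pos (S.c_sub (H.cρ j) (S.c_const (D.γ t')))
  have k := H.le_Z (t := t) (S.c_sub (H.cρ j) (S.c_const c))
    (S.c_add cu (S.c_const (|D.γ t - c| + |D.γ t' - c|))) zero_le_one fun p => by
      have a := H.avg_inc G hj hJ p
      have b : 0 ≤ ∑ y ∈ D.I t, D.ω t y * D.inc y j p :=
        sum_nonneg fun y _ => mul_nonneg (H.ω0 t y) (inc0 _ _ _)
      have q : 0 ≤ D.Ξ p + D.l1 * √((D.L + 1) * D.X t p) :=
        add_nonneg (H.Ξ0 p) (mul_nonneg H.l10 (sqrt_nonneg _))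
      rw [_root_.abs_le, V]
      constructor <;>
      linarith [le_max_left (D.ρ j p - D.γ t') 0, le_max_right (D.ρ j p - D.γ t') 0,
        le_abs_self (D.γ t - c), neg_abs_le (D.γ t - c), le_abs_self (D.γ t' - c),
        abs_nonneg (D.γ t' - c), neg_abs_le (D.rb t p - D.r t), abs_nonneg (D.rb t p - D.r t),
        neg_abs_le (D.r t - D.γ t), abs_nonneg (D.r t - D.γ t), abs_nonneg (D.γ t - c)]
  have k2 := S.add cu (S.c_const (|D.γ t - c| + |D.γ t' - c|))
  have k3 := S.const (|D.γ t - c| + |D.γ t' - c|) (by positivity)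
  linarith [H.up_le hj', H.NV_le t']

/-- (c) increments: a window `t` before `i ≤ j`, windows `t1` after `i`, `t2` after `j` -/
theorem inc_le {t t1 t2 : W} {i j : ℕ} (G : D.Gd t) (hi : ∀ y ∈ D.I t, y ≤ i) (hij : i ≤ j)
    (hJ : j ≤ D.J) (hi' : D.Up S t1 i) (hj' : D.Up S t2 j) :
    S.nm (D.inc i j) ≤ 4 * D.Z S t + 2 * (D.Z S t1 + |D.γ t1 - D.γ t|) +
      2 * (D.Z S t2 + |D.γ t2 - D.γ t|) := by
  have cj := S.c_pos (S.c_sub (H.cρ j) (S.c_const (D.γ t2)))
  have ci := S.c_pos (S.c_sub (H.cρ i) (S.c_const (D.γ t1)))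
  have cc := S.c_const (2 * |D.γ t1 - D.γ t| + 2 * |D.γ t2 - D.γ t|)
  have k := H.le_Z (t := t) (H.cinc i j)
    (S.c_add (S.c_add (S.c_cmul 2 cj) (S.c_cmul 2 ci)) cc) (c := 4) (by norm_num) fun p => by
      have a := H.avg_inc G (fun y hy => (hi y hy).trans hij) hJ p
      have a' := H.avg_inc G hi (hij.trans hJ) p
      have b : D.inc i j p ≤ 2 * (∑ y ∈ D.I t, D.ω t y * D.inc y j p +
          ∑ y ∈ D.I t, D.ω t y * D.inc y i p) := by
        calc D.inc i j p = ∑ y ∈ D.I t, D.ω t y * D.inc i j p := by rw [← sum_mul, G.ω1, one_mul]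
          _ ≤ ∑ y ∈ D.I t, D.ω t y * (2 * (D.inc y j p + D.inc y i p)) :=
            sum_le_sum fun y _ => mul_le_mul_of_nonneg_left (inc_tri y i j p) (H.ω0 t y)
          _ = _ := by
            simp only [mul_add, sum_add_distrib, mul_sum, mul_left_comm]
      rw [abs_of_nonneg (inc0 _ _ _), V]
      linarith [le_max_left (D.ρ j p - D.γ t2) 0, le_max_left (D.ρ i p - D.γ t1) 0,
        le_abs_self (D.γ t2 - D.γ t), le_abs_self (D.γ t1 - D.γ t),
        neg_abs_le (D.rb t p - D.r t), neg_abs_le (D.r t - D.γ t)]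
  have k2 := S.add (S.c_add (S.c_cmul 2 cj) (S.c_cmul 2 ci)) cc
  have k3 := S.add (S.c_cmul 2 cj) (S.c_cmul 2 ci)
  have k4 := S.smul 2 zero_le_two cj
  have k5 := S.smul 2 zero_le_two ci
  have k6 := S.const (2 * |D.γ t1 - D.γ t| + 2 * |D.γ t2 - D.γ t|) (by positivity)
  linarith [H.up_le hj', H.up_le hi', H.NV_le t1, H.NV_le t2]

theorem ρ_le {t : W} {j : ℕ} (hj : D.Up S t j) :
    S.nm (D.ρ j) ≤ D.Z S t + |D.γ t| := by
  have := S.le_add_const (H.cρ j) (S.c_pos (S.c_sub (H.cρ j) (S.c_const (D.γ t))))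
    (abs_nonneg (D.γ t)) fun p => by
      rw [abs_of_nonneg (ρ0 _ _)]
      linarith [le_max_left (D.ρ j p - D.γ t) 0, le_abs_self (D.γ t)]
  linarith [H.up_le hj, H.NV_le t]

/-- (e) the averaged Hessian form -/
theorem ab_le {t : W} (G : D.Gd t) : S.nm (D.ab t) ≤ D.l2 * D.Λ S t + D.ξ := by
  have k := S.mono' (H.cab t) (S.c_add (S.c_cmul D.l2 (H.cX t)) H.cΞ) fun p => by
    rw [ab, abs_of_nonneg (sum_nonneg fun y _ => mul_nonneg (H.ω0 t y) (H.a0 y p))]
    calc _ ≤ ∑ y ∈ D.I t, D.ω t y * (D.l2 * ∑ k ∈ range (D.L + 1), (D.Dk k y p + 1) + D.Ξ p) :=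
          sum_le_sum fun y hy => mul_le_mul_of_nonneg_left (G.g2 y hy p) (H.ω0 t y)
      _ = _ := by
        rw [X, mul_sum]
        simp only [mul_add (D.ω t _), sum_add_distrib, ← sum_mul, G.ω1, one_mul, mul_left_comm]
  have k2 := S.add (S.c_cmul D.l2 (H.cX t)) H.cΞ
  have k3 := S.smul D.l2 H.l20 (H.cX t)
  simp only [Λ]
  linarith [H.nΞ]

/-- (d) splitting into scales -/
theorem Λ_le {t : W} (h1 : ∑ y ∈ D.I t, D.ω t y = 1) :
    D.Λ S t ≤ ∑ k ∈ range (D.L + 1), (D.Λk S t k + 1) := by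
  have e : D.X t = fun p => ∑ k ∈ range (D.L + 1), (∑ y ∈ D.I t, D.ω t y * D.Dk k y p + 1) := by
    funext p
    simp only [X, mul_sum]
    rw [sum_comm]
    exact sum_congr rfl fun k _ => by simp only [mul_add, sum_add_distrib, mul_one, h1]
  have c : ∀ k, S.C fun p => ∑ y ∈ D.I t, D.ω t y * D.Dk k y p := fun k =>
    S.c_sum _ fun y _ => S.c_cmul _ (H.cD k y)
  rw [Λ, e]
  refine (S.sum_le _ fun k _ => S.c_add (c k) (S.c_const 1)).trans (sum_le_sum fun k _ => ?_)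
  exact (S.add (c k) (S.c_const 1)).trans (add_le_add le_rfl (S.const 1 zero_le_one))

theorem Λk_point {t : W} {k : ℕ} (h1 : ∑ y ∈ D.I t, D.ω t y = 1) (hk : k < D.L) {M : ℝ}
    (hM : ∀ y ∈ D.I t, S.nm (D.inc (D.b (k + 1) y) (D.b k y)) ≤ M) : D.Λk S t k ≤ M / D.u k := by
  refine S.wsum_le _ (fun y _ => H.cD k y) (fun y _ => H.ω0 t y) h1 fun y hy => ?_
  have : D.Dk k y = fun p => (D.u k)⁻¹ * D.inc (D.b (k + 1) y) (D.b k y) p := by
    funext p; rw [Dk, if_pos hk, div_eq_inv_mul]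
  rw [this, div_eq_inv_mul]
  have u := (inv_pos.2 (H.u0 k)).le
  exact (S.smul _ u (H.cinc _ _)).trans (mul_le_mul_of_nonneg_left (hM y hy) u)

theorem Λk_top {t : W} (h1 : ∑ y ∈ D.I t, D.ω t y = 1) {M : ℝ}
    (hM : ∀ y ∈ D.I t, S.nm (D.ρ (D.b D.L y)) ≤ M) : D.Λk S t D.L ≤ M / D.u D.L := by
  refine S.wsum_le _ (fun y _ => H.cD _ y) (fun y _ => H.ω0 t y) h1 fun y hy => ?_
  have : D.Dk D.L y = fun p => (D.u D.L)⁻¹ * D.ρ (D.b D.L y) p := by
    funext p; rw [Dk, if_neg (lt_irrefl _), div_eq_inv_mul]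
  rw [this, div_eq_inv_mul]
  have u := (inv_pos.2 (H.u0 D.L)).le
  exact (S.smul _ u (H.cρ _)).trans (mul_le_mul_of_nonneg_left (hM y hy) u)

end Ok

end Dat

end Crest.Agent.T156.Q21

end
end

-- ▼ part T156/QTwoB_21
section

/-!
# Row 156, block Q, leaf C6 (helper21), part B: the core in the frame of `QDef_57`
-/

set_option autoImplicit false
set_option linter.unusedSectionVars false

noncomputable section

namespace Crest.Agent.T156.Q21

open MeasureTheory Finset Real Crest.Agent.T156.Q57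

section ns
variable {α : Type} [MeasurableSpace α] {μ : Measure α} {p : ℕ} {X Y : α → ℝ}

/-- the `L^p` norm -/
def nr (μ : Measure α) (p : ℕ) (X : α → ℝ) : ℝ := (∫ a, |X a| ^ p ∂μ) ^ ((p : ℝ)⁻¹)

theorem nr0 (X : α → ℝ) : 0 ≤ nr μ p X :=
  rpow_nonneg (integral_nonneg fun _ => by positivity) _

theorem nr_pow (hp : 1 ≤ p) (X : α → ℝ) : nr μ p X ^ p = ∫ a, |X a| ^ p ∂μ :=
  rpow_inv_natCast_pow (integral_nonneg fun _ => by positivity) (by omega)

theorem nb_nr (hp : 1 ≤ p) (X : α → ℝ) : Nb μ p X (nr μ p X) := ⟨nr0 X, (nr_pow hp X).ge⟩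

theorem nr_le (hp : 1 ≤ p) {c : ℝ} (h : Nb μ p X c) : nr μ p X ≤ c :=
  (pow_le_pow_iff_left₀ (nr0 X) h.1 (by omega)).1 ((nr_pow hp X).trans_le h.2)

theorem nb_of_le (hp : 1 ≤ p) {c : ℝ} (h : nr μ p X ≤ c) : Nb μ p X c :=
  ⟨(nr0 X).trans h, (nr_pow hp X).ge.trans (pow_le_pow_left₀ (nr0 X) h p)⟩

theorem bm_const (c : ℝ) : Bm fun _ : α => c := ⟨measurable_const, |c|, fun _ => le_rfl⟩

theorem bm_add (h : Bm X) (h' : Bm Y) : Bm fun a => X a + Y a := by
  obtain ⟨m, C, hC⟩ := h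
  obtain ⟨m', C', hC'⟩ := h'
  exact ⟨m.add m', C + C', fun a => (abs_add_le _ _).trans (add_le_add (hC a) (hC' a))⟩

theorem bm_mul (h : Bm X) (h' : Bm Y) : Bm fun a => X a * Y a := by
  obtain ⟨m, C, hC⟩ := h
  obtain ⟨m', C', hC'⟩ := h'
  exact ⟨m.mul m', C * C', fun a => by
    rw [abs_mul]; exact mul_le_mul (hC a) (hC' a) (abs_nonneg _) ((abs_nonneg _).trans (hC a))⟩

theorem bm_abs (h : Bm X) : Bm fun a => |X a| := by
  obtain ⟨m, C, hC⟩ := h
  exact ⟨m.abs, C, fun a => by simpa using hC a⟩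

/-- the seminorm frame of a probability space -/
def ns (hN : NbS) (μ : Measure α) [IsProbabilityMeasure μ] {p : ℕ} (hp : 1 ≤ p) : NS α where
  C := Bm
  nm := nr μ p
  c_const := bm_const
  c_add := bm_add
  c_mul := bm_mul
  c_abs := bm_abs
  nonneg := nr0
  mono := fun h h' e => nr_le hp ((hN α μ p hp).2.1 _ _ _ h h' e (nb_nr hp _))
  add := fun {F G} h h' => nr_le hp (by
    have := (hN α μ p hp).1 Bool univ (fun b => bif b then F else G)
      (fun b => bif b then nr μ p F else nr μ p G) (fun b _ => by cases b <;> assumption)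
      (fun b _ => by cases b <;> exact nb_nr hp _)
    simpa using this)
  smul := fun {F} c hc _ => nr_le hp ⟨mul_nonneg hc (nr0 F), by
    simp only [abs_mul, abs_of_nonneg hc, mul_pow, integral_const_mul, nr_pow hp, le_refl]⟩
  const := fun c hc => nr_le hp ⟨hc, by simp [abs_of_nonneg hc]⟩

end ns

variable {α ι : Type} [MeasurableSpace α] [Fintype ι]

/-- first node of the window -/
def st (N : ℕ → ℕ) (t : ℕ × Bool) : ℕ := bif t.2 then t.1 else t.1 - N t.1

open Classical in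
/-- the data: the window `(j, true)` starts at `j`, the window `(j, false)` ends before `j` -/
def dat (S : Sys α ι) (Bad : Set α) (L j1 : ℕ) (v l2 l3 e : ℝ) (N : ℕ → ℕ) (c : ℕ → ℝ) :
    Dat α ι (ℕ × Bool) where
  m := S.m
  a := S.aa
  Ξ := fun a => if a ∈ Bad then 2 else 0
  I := fun t => Ico (st N t) (st N t + N t.1)
  ω := fun t _ => (N t.1 : ℝ)⁻¹
  b := fun k y => y - 2 ^ k / 2
  u := fun k => 2 ^ k * v
  L := L + 1
  J := j1
  γ := fun t => c t.1
  r := fun t => av (st N t) (N t.1) S.r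
  l1 := √l2
  l2 := (L + 2) * l3
  ξ := 2 * e

section dict
variable {S : Sys α ι} {Bad : Set α} {L j1 : ℕ} {v l2 l3 e : ℝ} {N : ℕ → ℕ} {c : ℕ → ℝ}

theorem dat_ρ (j : ℕ) : (dat S Bad L j1 v l2 l3 e N c).ρ j = S.rho j := rfl

theorem dat_inc (i j : ℕ) :
    (dat S Bad L j1 v l2 l3 e N c).inc i j = fun a => sq2 (S.m j a - S.m i a) := rfl

theorem dat_D (k y : ℕ) (hk : k ≤ L + 1) (a : α) :
    (dat S Bad L j1 v l2 l3 e N c).Dk k y a = S.D L v k y a := by
  have e1 : ∀ k : ℕ, 2 ^ (k + 1) / 2 = 2 ^ k := fun k => by rw [pow_succ]; omega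
  unfold Dat.Dk Sys.D Sys.pc
  by_cases h : k ≤ L
  · rw [if_pos h, if_pos (show k < (dat S Bad L j1 v l2 l3 e N c).L from Nat.lt_succ_of_le h)]
    simp only [dat_inc, dat, e1]; rfl
  · rw [if_neg h, if_neg (show ¬ k < (dat S Bad L j1 v l2 l3 e N c).L from fun h' => h (by
      simpa [dat, Nat.lt_succ_iff] using h'))]
    simp only [dat, e1]; rfl

theorem av_eq (b n : ℕ) (f : ℕ → ℝ) : av b n f = ∑ y ∈ Ico b (b + n), (n : ℝ)⁻¹ * f y := by
  rw [av, ← mul_sum, div_eq_inv_mul]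

theorem dat_rb (t : ℕ × Bool) (a : α) : (dat S Bad L j1 v l2 l3 e N c).rb t a =
    av (st N t) (N t.1) fun y => S.rho y a := (av_eq _ _ _).symm

theorem dat_ab (t : ℕ × Bool) (a : α) : (dat S Bad L j1 v l2 l3 e N c).ab t a =
    av (st N t) (N t.1) fun y => S.aa y a := (av_eq _ _ _).symm

theorem sum_pc (y : ℕ) (a : α) : ∑ k ∈ range (L + 2), S.pc L k y a = S.m y a := by
  have e1 : ∀ k : ℕ, 2 ^ (k + 1) / 2 = 2 ^ k := fun k => by rw [pow_succ]; omega
  rw [sum_range_succ]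
  have : ∑ k ∈ range (L + 1), S.pc L k y a =
      ∑ k ∈ range (L + 1), (S.m (y - 2 ^ k / 2) a - S.m (y - 2 ^ (k + 1) / 2) a) :=
    sum_congr rfl fun k hk => by rw [Sys.pc, if_pos (Nat.lt_succ_iff.1 (mem_range.1 hk)), e1]
  rw [this, sum_range_sub' fun k => S.m (y - 2 ^ k / 2) a, Sys.pc, if_neg (by omega), e1]
  simp

theorem abs_m_le (H : S.Ok) (j : ℕ) (a : α) (i : ι) : |S.m j a i| ≤ 1 := by
  have h : S.m j a i ^ 2 ≤ 1 :=
    (single_le_sum (f := fun i => S.m j a i ^ 2) (fun _ _ => sq_nonneg _) (mem_univ i)).trans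
      (H.bd j a)
  exact abs_le_one_iff_mul_self_le_one.2 (by nlinarith)

theorem aa_le (H : S.Ok) (j : ℕ) (a : α) : S.aa j a ≤ 1 := (H.bdB j a _).trans (H.bd j a)

theorem bm_aa (H : S.Ok) (j : ℕ) : Bm (S.aa j) :=
  ⟨Finset.measurable_sum _ fun i _ => Finset.measurable_sum _ fun k _ =>
    ((H.mm j i).mul (H.mm j k)).mul (H.mA j i k), 1, fun a => by
      rw [abs_of_nonneg (show 0 ≤ S.aa j a from H.psd j a _)]; exact aa_le H j a⟩

theorem B_add (H : S.Ok) (j : ℕ) (a : α) (z z' : ι → ℝ) {θ : ℝ} (hθ : 0 < θ) :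
    S.B j a (z + z') ≤ (1 + 1 / θ) * S.B j a z + (1 + θ) * S.B j a z' := by
  have h := H.psd j a (z - θ • z')
  have e : θ * ((1 + 1 / θ) * S.B j a z + (1 + θ) * S.B j a z' - S.B j a (z + z')) =
      S.B j a (z - θ • z') := by
    simp only [Sys.B, mul_sum, ← sum_add_distrib, ← sum_sub_distrib, Pi.add_apply, Pi.sub_apply,
      Pi.smul_apply, smul_eq_mul]
    refine sum_congr rfl fun i _ => sum_congr rfl fun k _ => ?_
    field_simp; ring
  rw [← e] at h
  linarith [nonneg_of_mul_nonneg_right h hθ]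

theorem B_sum (H : S.Ok) (j : ℕ) (a : α) (z : ℕ → ι → ℝ) : ∀ n : ℕ,
    S.B j a (∑ k ∈ range (n + 1), z k) ≤ (n + 1) * ∑ k ∈ range (n + 1), S.B j a (z k)
  | 0 => by simp
  | n + 1 => by
    have ih := B_sum H j a z n
    have p : (0 : ℝ) < n + 1 := by positivity
    rw [sum_range_succ, sum_range_succ _ (n + 1)]
    refine (B_add H j a _ _ p).trans ?_
    have := mul_le_mul_of_nonneg_left ih (show 0 ≤ 1 + 1 / ((n : ℝ) + 1) by positivity)
    have e : (1 + 1 / ((n : ℝ) + 1)) * ((n + 1) * ∑ k ∈ range (n + 1), S.B j a (z k)) =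
        (n + 1 + 1) * ∑ k ∈ range (n + 1), S.B j a (z k) := by field_simp
    push_cast
    nlinarith

theorem abs_Y_le (H : S.Ok) (y j : ℕ) (a : α) :
    |(dat S Bad L j1 v l2 l3 e N c).Y y j a| ≤ 2 := by
  have h1 := Dat.inc_eq (D := dat S Bad L j1 v l2 l3 e N c) y j a
  have h2 := Dat.inc0 (D := dat S Bad L j1 v l2 l3 e N c) y j a
  have h3 : (dat S Bad L j1 v l2 l3 e N c).inc y j a ≤ 2 * (S.rho j a + S.rho y a) := by
    simp only [Dat.inc, Sys.rho, sq2, mul_sum, ← sum_add_distrib]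
    exact sum_le_sum fun k _ => by
      show (S.m j a k - S.m y a k) ^ 2 ≤ _
      nlinarith [sq_nonneg (S.m j a k + S.m y a k)]
  rw [dat_ρ, dat_ρ] at h1
  have r0 : ∀ j, 0 ≤ S.rho j a := fun j => sum_nonneg fun _ _ => sq_nonneg _
  rw [abs_le]
  constructor <;> linarith [H.bd j a, H.bd y a, r0 j, r0 y]

theorem D_le (H : S.Ok) (hv : 0 < v) (k y : ℕ) (a : α) :
    (dat S Bad L j1 v l2 l3 e N c).Dk k y a ≤ 4 / v := by
  have h3 : ∀ i j, (dat S Bad L j1 v l2 l3 e N c).inc i j a ≤ 4 := fun y j => by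
    have : (dat S Bad L j1 v l2 l3 e N c).inc y j a ≤ 2 * (S.rho j a + S.rho y a) := by
      simp only [Dat.inc, Sys.rho, sq2, mul_sum, ← sum_add_distrib]
      exact sum_le_sum fun k _ => by
        show (S.m j a k - S.m y a k) ^ 2 ≤ _
        nlinarith [sq_nonneg (S.m j a k + S.m y a k)]
    linarith [H.bd j a, H.bd y a]
  refine div_le_div₀ (by norm_num) ?_ hv (le_mul_of_one_le_left hv.le (one_le_pow₀ one_le_two))
  split_ifs
  · exact h3 _ _
  · exact (H.bd _ a).trans (by norm_num)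

theorem dat_ok (hN : NbS) (H : S.Ok) {p : ℕ} (hp : 1 ≤ p) (hB : MeasurableSet Bad)
    (hμ : S.μ.real Bad ≤ e ^ p) (he : 0 ≤ e) (hv : 0 < v) (h3 : 0 ≤ l3) :
    haveI := H.prob; (dat S Bad L j1 v l2 l3 e N c).Ok (ns hN S.μ hp) := by
  have := H.prob
  classical
  have cΞ : Bm (dat S Bad L j1 v l2 l3 e N c).Ξ :=
    ⟨Measurable.ite hB measurable_const measurable_const, 2, fun a => by
      simp only [dat]; split_ifs <;> norm_num⟩
  refine ⟨fun j i => ⟨H.mm j i, 1, fun a => abs_m_le H j a i⟩, bm_aa H, fun j a => H.psd j a _, cΞ,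
    ?_, fun a => ?_, fun t y => ?_, fun k => ?_, sqrt_nonneg _, ?_⟩
  · have := (hN α S.μ p hp).2.2.2.2.2 Bad _ (fun _ => 0) 0 2 e hB cΞ (bm_const 0) zero_le_two he hμ
      (fun a => by simp only [dat]; split_ifs <;> norm_num)
      (fun a ha => by simp only [dat, if_neg ha, le_refl]) ⟨le_rfl, by simp [show p ≠ 0 by omega]⟩
    rw [zero_add] at this
    exact nr_le hp this
  · simp only [dat]; split_ifs <;> norm_num
  · simp only [dat]; positivity
  · simp only [dat]; positivity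
  · simp only [dat]; positivity

theorem dat_gd (H : S.Ok) {j0 : ℕ} (hv : 0 < v) (h2 : 0 ≤ l2) (h3 : 0 ≤ l3)
    (hG : ∀ a, a ∉ Bad → ∀ k ≤ L + 1, ∀ y, j0 + 2 ^ L ≤ y → y ≤ j1 →
      S.B y a (S.pc L k y a) ≤ l3 * S.D L v k y a ∧
      ∀ y', y ≤ y' → y' ≤ j1 → dt (S.pc L k y a) (S.m y' a - S.m y a) ^ 2 ≤ l2 * S.D L v k y a)
    {t : ℕ × Bool} (hN : 1 ≤ N t.1) (h0 : j0 + 2 ^ L ≤ st N t) (h1 : st N t + N t.1 ≤ j1) :
    (dat S Bad L j1 v l2 l3 e N c).Gd t := by
  classical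
  have D0 : ∀ k y a, 0 ≤ S.D L v k y a := fun k y a =>
    div_nonneg (sum_nonneg fun _ _ => sq_nonneg _) (by positivity)
  have hk : ∀ k ∈ range ((dat S Bad L j1 v l2 l3 e N c).L + 1), k ≤ L + 1 := fun k hk =>
    Nat.lt_succ_iff.1 (mem_range.1 hk)
  refine ⟨?_, fun y hy j hj hJ a => ?_, fun y hy a => ?_⟩
  · simp only [dat, sum_const, Nat.card_Ico, add_tsub_cancel_left, nsmul_eq_mul]
    exact mul_inv_cancel₀ (by positivity)
  · have hy := mem_Ico.1 hy
    by_cases ha : a ∈ Bad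
    · refine (abs_Y_le H y j a).trans ?_
      have : (dat S Bad L j1 v l2 l3 e N c).Ξ a = 2 := if_pos ha
      rw [this]
      exact le_add_of_nonneg_left (mul_nonneg (sqrt_nonneg _) (sum_nonneg fun _ _ => sqrt_nonneg _))
    · have : (dat S Bad L j1 v l2 l3 e N c).Ξ a = 0 := if_neg ha
      rw [this, add_zero]
      have e1 : (dat S Bad L j1 v l2 l3 e N c).Y y j a =
          ∑ k ∈ range (L + 2), dt (S.pc L k y a) (S.m j a - S.m y a) := by
        simp only [dt]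
        rw [sum_comm]
        refine sum_congr rfl fun i _ => ?_
        rw [← sum_mul, ← Finset.sum_apply, sum_pc]; rfl
      rw [e1, mul_sum]
      refine (abs_sum_le_sum_abs _ _).trans (sum_le_sum fun k hk' => ?_)
      rw [dat_D k y (hk k hk')]
      show _ ≤ √l2 * _
      rw [← sqrt_mul h2]
      refine abs_le_sqrt (((hG a ha k (hk k hk') y (by omega) (by omega)).2 j hj hJ).trans ?_)
      nlinarith
  · have hy := mem_Ico.1 hy
    have s0 : 0 ≤ ∑ k ∈ range ((dat S Bad L j1 v l2 l3 e N c).L + 1),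
        ((dat S Bad L j1 v l2 l3 e N c).Dk k y a + 1) :=
      sum_nonneg fun k hk' => by rw [dat_D k y (hk k hk')]; linarith [D0 k y a]
    by_cases ha : a ∈ Bad
    · have : (dat S Bad L j1 v l2 l3 e N c).Ξ a = 2 := if_pos ha
      rw [this]
      have q : 0 ≤ (dat S Bad L j1 v l2 l3 e N c).l2 := by simp only [dat]; positivity
      have := aa_le H y a
      show S.aa y a ≤ _
      nlinarith [mul_nonneg q s0]
    · have : (dat S Bad L j1 v l2 l3 e N c).Ξ a = 0 := if_neg ha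
      rw [this, add_zero]
      show S.B y a (S.m y a) ≤ ((L : ℝ) + 2) * l3 * _
      have := B_sum H y a (fun k => S.pc L k y a) (L + 1)
      rw [sum_pc] at this
      refine this.trans ?_
      push_cast
      rw [show (L : ℝ) + 1 + 1 = L + 2 by ring, mul_assoc, mul_sum _ _ l3]
      refine mul_le_mul_of_nonneg_left (sum_le_sum fun k hk' => ?_) (by positivity)
      rw [dat_D k y (hk k hk')]
      refine (hG a ha k (hk k hk') y (by omega) (by omega)).1.trans ?_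
      nlinarith

end dict

/-- sums of shifted increments through the residue classes -/
theorem qv_shift {P : Type} (S : NS P) {f : ℕ → ℕ → P → ℝ} (hf : ∀ i j, S.C (f i j))
    (f0 : ∀ i j a, 0 ≤ f i j a) (lo n h : ℕ) (hh : 1 ≤ h) {M : ℝ}
    (hM : ∀ ρ < h, S.nm (fun a => ∑ i ∈ range (n / h + 1),
      f (lo + ρ + i * h) (lo + ρ + (i + 1) * h) a) ≤ M) :
    S.nm (fun a => ∑ y ∈ Ico lo (lo + n), f y (y + h) a) ≤ h * M := by
  have c := fun ρ => S.c_sum (range (n / h + 1)) fun i _ =>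
    hf (lo + ρ + i * h) (lo + ρ + (i + 1) * h)
  refine (S.mono' (S.c_sum _ fun y _ => hf _ _) (S.c_sum (range h) fun ρ _ => c ρ) fun a => ?_).trans
    ((S.sum_le _ fun ρ _ => c ρ).trans ?_)
  · rw [abs_of_nonneg (sum_nonneg fun _ _ => f0 _ _ _), ← sum_product']
    have inj : Set.InjOn (fun y => ((y - lo) % h, (y - lo) / h)) (Ico lo (lo + n) : Finset ℕ) :=
      fun y hy y' hy' e => by
        have h1 := mem_Ico.1 (mem_coe.1 hy)
        have h2 := mem_Ico.1 (mem_coe.1 hy')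
        have a1 := Nat.mod_add_div (y - lo) h
        have a2 := Nat.mod_add_div (y' - lo) h
        simp only [Prod.mk.injEq] at e
        rw [e.1, e.2] at a1
        omega
    have e0 : ∑ y ∈ Ico lo (lo + n), f y (y + h) a =
        ∑ x ∈ (Ico lo (lo + n)).image fun y => ((y - lo) % h, (y - lo) / h),
          f (lo + x.1 + x.2 * h) (lo + x.1 + (x.2 + 1) * h) a := by
      rw [sum_image inj]
      refine sum_congr rfl fun y hy => ?_
      have h1 := mem_Ico.1 hy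
      have a1 := Nat.mod_add_div' (y - lo) h
      have e1 : lo + (y - lo) % h + (y - lo) / h * h = y := by omega
      have e2 : lo + (y - lo) % h + ((y - lo) / h + 1) * h = y + h := by rw [add_mul]; omega
      simp only [e1, e2]
    rw [e0]
    refine sum_le_sum_of_subset_of_nonneg (fun y hy => ?_) fun _ _ _ => f0 _ _ _
    obtain ⟨z, hz, rfl⟩ := mem_image.1 hy
    have h1 := mem_Ico.1 hz
    exact mem_product.2 ⟨mem_range.2 (Nat.mod_lt _ hh), mem_range.2
      (Nat.lt_succ_of_le (Nat.div_le_div_right (by omega)))⟩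
  · calc _ ≤ ∑ ρ ∈ range h, M := sum_le_sum fun ρ hρ => hM ρ (mem_range.1 hρ)
      _ = h * M := by simp

end Crest.Agent.T156.Q21

end
end

-- ▼ part T156/QTwo_21

/-!
# Row 156, block Q, leaf C6 (helper21): `L^p` synchronisation, `Q57.syncS_of`
-/

set_option autoImplicit false
set_option linter.unusedSectionVars false

noncomputable section

namespace Crest.Agent.T156.Q21

open MeasureTheory Finset Real Crest.Agent.T156.Q57

variable {α ι : Type} [MeasurableSpace α] [Fintype ι]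

/-- everything that is fixed during the iteration -/
structure Ctx (S : Sys α ι) (Sn : NS α) (Bad : Set α) (L j0 j1 : ℕ) (v l2 l3 e K CB A : ℝ)
    (N : ℕ → ℕ) (τ c g : ℕ → ℝ) : Prop where
  ok : S.Ok
  win : S.Win L v l2 l3 K j0 j1 N τ c g
  dok : (dat S Bad L j1 v l2 l3 e N c).Ok Sn
  gd : ∀ t : ℕ × Bool, j0 + 2 ^ L ≤ st N t → st N t + N t.1 ≤ j1 →
    (dat S Bad L j1 v l2 l3 e N c).Gd t
  ev : e ≤ v
  e3 : e ≤ l3
  CB1 : 1 ≤ CB
  A1 : 1 ≤ A
  up : ∀ j, (dat S Bad L j1 v l2 l3 e N c).Up Sn (j, true) j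
  bl : ∀ (J : Finset ℕ) (φ : ℕ → ℝ) (γ : ℝ),
    Sn.nm (fun a => ∑ j ∈ J, S.dm j * (φ j ^ 2 * S.aa j a)) ≤ γ →
    Sn.nm (fun a => ∑ j ∈ J, S.dm j * (φ j * (S.rho j a - S.r j))) ≤ CB * √γ
  qv : ∀ (b h n : ℕ) (X : ℝ), n + 1 ≤ 2 ^ (L + 3) →
    (∀ i ≤ n, Sn.nm (fun a => sq2 (S.m (b + i * h) a - S.m b a)) ≤ X) →
    Sn.nm (fun a => ∑ i ∈ range n, sq2 (S.m (b + (i + 1) * h) a - S.m (b + i * h) a)) ≤ A * X

/-- the shrinking ranges -/
def Rg (L j0 j1 n j : ℕ) : Prop := j0 + (n + 1) * (8 * 2 ^ L) ≤ j ∧ j + (n + 1) * (8 * 2 ^ L) ≤ j1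

theorem Rg.near {L j0 j1 n j i : ℕ} (h : Rg L j0 j1 (n + 1) j) (h1 : i ≤ j + 8 * 2 ^ L)
    (h2 : j ≤ i + 8 * 2 ^ L) : Rg L j0 j1 n i := by
  obtain ⟨a, b⟩ := h
  rw [add_mul (n + 1)] at a b
  constructor <;> omega

theorem Rg.base {L j0 j1 n j : ℕ} (h : Rg L j0 j1 n j) :
    j0 + 8 * 2 ^ L ≤ j ∧ j + 8 * 2 ^ L ≤ j1 := by
  obtain ⟨a, b⟩ := h
  rw [add_mul n] at a b
  constructor <;> omega

theorem r_mem {S : Sys α ι} (H : S.Ok) (j : ℕ) : 0 ≤ S.r j ∧ S.r j ≤ 1 := by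
  have := H.prob
  have r0 : ∀ a, 0 ≤ S.rho j a := fun a => sum_nonneg fun _ _ => sq_nonneg _
  refine ⟨integral_nonneg r0, ?_⟩
  have := integral_mono_of_nonneg (μ := S.μ) (f := S.rho j) (g := fun _ => (1 : ℝ))
    (.of_forall r0) (integrable_const 1) (.of_forall (H.bd j))
  simpa [Sys.r] using this

theorem abs_av_le {b n : ℕ} (hn : 1 ≤ n) {f : ℕ → ℝ} {q M : ℝ}
    (h : ∀ y ∈ Ico b (b + n), |f y - q| ≤ M) : |av b n f - q| ≤ M := by
  have p : (0 : ℝ) < n := by positivity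
  have e : av b n f - q = (∑ y ∈ Ico b (b + n), (f y - q)) / n := by
    rw [sum_sub_distrib, av]; simp only [sum_const, Nat.card_Ico, add_tsub_cancel_left, nsmul_eq_mul]
    field_simp
  rw [e, abs_div, abs_of_pos p, div_le_iff₀ p]
  refine (abs_sum_le_sum_abs _ _).trans ((sum_le_sum h).trans_eq ?_)
  simp [mul_comm]

namespace Ctx
variable {S : Sys α ι} {Sn : NS α} {Bad : Set α} {L j0 j1 : ℕ} {v l2 l3 e K CB A : ℝ}
  {N : ℕ → ℕ} {τ c g : ℕ → ℝ} (H : Ctx S Sn Bad L j0 j1 v l2 l3 e K CB A N τ c g)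
include H

theorem Nv0 (j : ℕ) : 0 < N j * v := mul_pos (by exact_mod_cast H.win.N1 j) H.win.v0
theorem τ0 (j : ℕ) : 0 < τ j := (H.Nv0 j).trans_le (H.win.Nv j)
theorem q1 (j : ℕ) : 1 ≤ τ j / (N j * v) := (one_le_div (H.Nv0 j)).2 (H.win.Nv j)
theorem v_le (j : ℕ) : v ≤ τ j :=
  (le_mul_of_one_le_left H.win.v0.le (by exact_mod_cast H.win.N1 j)).trans (H.win.Nv j)

theorem st_bd (j : ℕ) (b : Bool) (hj : 2 ^ L ≤ j) : st N (j, b) ≤ j ∧ j ≤ st N (j, b) + N j := by
  have := H.win.NU j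
  cases b <;> simp only [st, cond_true, cond_false] <;> omega

theorem gd' {n j : ℕ} (hj : Rg L j0 j1 n j) (b : Bool) :
    (dat S Bad L j1 v l2 l3 e N c).Gd (j, b) := by
  have h1 := hj.base
  have h2 := H.st_bd j b (by omega)
  have h3 := H.win.NU j
  exact H.gd _ (by omega) (by show _ + N j ≤ _; omega)

theorem c_sub {i j : ℕ} {d : ℕ} (h1 : i ≤ j + d) (h2 : j ≤ i + d) : |c i - c j| ≤ d * v := by
  have v0 := H.win.v0
  rcases le_total i j with k | k
  · obtain ⟨a, b⟩ := H.win.clk i j k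
    rw [abs_sub_comm, abs_of_nonneg a]
    refine b.trans (mul_le_mul_of_nonneg_right ?_ v0.le)
    have : (j : ℝ) ≤ i + d := by exact_mod_cast h2
    linarith
  · obtain ⟨a, b⟩ := H.win.clk j i k
    rw [abs_of_nonneg a]
    refine b.trans (mul_le_mul_of_nonneg_right ?_ v0.le)
    have : (i : ℝ) ≤ j + d := by exact_mod_cast h1
    linarith

theorem τ_near {n i j : ℕ} (hj : Rg L j0 j1 n j) (h1 : i ≤ j + 4 * N j) (h2 : j ≤ i + 4 * N j) :
    τ i ≤ K * τ j := by
  have h3 := hj.base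
  have h4 := H.win.NU j
  exact (H.win.near i j (by omega) (by omega) (by omega) (by omega) h1 h2).2.2

theorem τ_back {n i j d : ℕ} (hj : Rg L j0 j1 n j) (hd : N j ≤ d) (hd' : d ≤ 2 ^ L)
    (h1 : i ≤ j + N j) (h2 : j ≤ i + 2 * d) : τ i * N j ≤ 2 * K * τ j * d := by
  have h3 := hj.base
  have k0 : 0 ≤ K * τ j := mul_nonneg (by linarith [H.win.K1]) (H.τ0 j).le
  have d1 : (N j : ℝ) ≤ d := by exact_mod_cast hd
  by_cases k : i + N j ≤ j
  · refine (H.win.back i j (by omega) (by omega) k (by omega)).trans ?_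
    have : (j : ℝ) ≤ i + 2 * d := by exact_mod_cast h2
    nlinarith
  · have := H.τ_near hj (i := i) (by omega) (by omega)
    have n0 : (0 : ℝ) ≤ N j := by positivity
    nlinarith [mul_le_mul this d1 n0 k0]

theorem ab_le {n j : ℕ} (hj : Rg L j0 j1 n j) (b : Bool) {x : ℝ}
    (hΛ : (dat S Bad L j1 v l2 l3 e N c).Λ Sn (j, b) ≤ (L + 2) * x * (τ j / (N j * v))) :
    Sn.nm ((dat S Bad L j1 v l2 l3 e N c).ab (j, b)) ≤
      (x + 2) * (((L : ℝ) + 2) ^ 2 * l3 * (τ j / (N j * v))) := by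
  refine (H.dok.ab_le (H.gd' hj b)).trans ?_
  show ((L : ℝ) + 2) * l3 * _ + 2 * e ≤ _
  have l3p := H.win.l30
  have h1 := mul_le_mul_of_nonneg_left hΛ (show 0 ≤ ((L : ℝ) + 2) * l3 by positivity)
  have h2 : l3 ≤ ((L : ℝ) + 2) ^ 2 * l3 * (τ j / (N j * v)) := by
    have a0 : (0 : ℝ) ≤ L := by positivity
    have a : (1 : ℝ) ≤ ((L : ℝ) + 2) ^ 2 := one_le_pow₀ (by linarith)
    nlinarith [mul_le_mul a (H.q1 j) zero_le_one (by positivity)]
  nlinarith [H.e3]

theorem Z_le {n j : ℕ} (hj : Rg L j0 j1 n j) (b : Bool) {x : ℝ} (hx : 1 ≤ x)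
    (hΛ : (dat S Bad L j1 v l2 l3 e N c).Λ Sn (j, b) ≤ (L + 2) * x * (τ j / (N j * v))) :
    (dat S Bad L j1 v l2 l3 e N c).Z Sn (j, b) ≤ (2 * CB + K + 7) * √x * τ j := by
  have h3 := hj.base
  have h4 := H.win.NU j
  have h5 := H.st_bd j b (by omega)
  have t0 := H.τ0 j
  have n0 := H.Nv0 j
  have np : (0 : ℝ) < N j := by exact_mod_cast H.win.N1 j
  have sx : 1 ≤ √x := one_le_sqrt.2 hx
  have sx2 : √x ^ 2 = x := sq_sqrt (by linarith)
  have v0 := H.win.v0
  have hT : (dat S Bad L j1 v l2 l3 e N c).T Sn (j, b) ≤ √x * τ j + 2 * τ j := by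
    show √l2 * √((((L + 1 : ℕ) : ℝ) + 1) * _) + 2 * e ≤ _
    refine add_le_add ?_ (by linarith [H.ev, H.v_le j])
    rw [← sqrt_mul H.win.l20.le]
    refine sqrt_le_iff.2 ⟨by positivity, ?_⟩
    push_cast
    have a := mul_le_mul_of_nonneg_left hΛ (show 0 ≤ l2 * ((L : ℝ) + 2) by
      have := H.win.l20; positivity)
    have b' := mul_le_mul_of_nonneg_right (H.win.T4 j (by omega) (by omega))
      (show 0 ≤ x * (τ j / (N j * v)) by positivity)
    have e1 : τ j * (N j * v) * (x * (τ j / (N j * v))) = x * τ j ^ 2 := by field_simp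
    rw [mul_pow, sx2]
    nlinarith
  have hV : (dat S Bad L j1 v l2 l3 e N c).V (j, b) ≤ (K + 1) * τ j := by
    refine abs_av_le (H.win.N1 j) fun y hy => ?_
    have hy : st N (j, b) ≤ y ∧ y < st N (j, b) + N j := mem_Ico.1 hy
    have a1 := H.win.loc y (by omega) (by omega)
    have a2 := H.τ_near hj (i := y) (by omega) (by omega)
    have a3 := H.c_sub (i := y) (j := j) (d := N j) (by omega) (by omega)
    have a4 := abs_sub_le (S.r y) (c y) (c j)
    have := H.win.Nv j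
    show |S.r y - c j| ≤ _
    linarith
  have hN : (dat S Bad L j1 v l2 l3 e N c).N Sn (j, b) ≤ 2 * CB * √x * τ j := by
    have cN := Sn.c_sub (H.dok.crb (j, b)) (Sn.c_const ((dat S Bad L j1 v l2 l3 e N c).r (j, b)))
    rcases H.win.T3 j (by omega) (by omega) with k | ⟨g0, g1, g2⟩
    · have := Sn.mono' cN (Sn.c_const 2) fun a => by
        rw [dat_rb]
        have b1 := abs_av_le (b := st N (j, b)) (H.win.N1 j) (f := fun y => S.rho y a) (q := 0)
          (M := 1) fun y _ => by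
            rw [sub_zero, abs_of_nonneg (show 0 ≤ S.rho y a from
              sum_nonneg fun _ _ => sq_nonneg _)]; exact H.ok.bd y a
        have b2 := abs_av_le (b := st N (j, b)) (H.win.N1 j) (f := S.r) (q := 0)
          (M := 1) fun y _ => by
            rw [sub_zero, abs_of_nonneg (r_mem H.ok y).1]; exact (r_mem H.ok y).2
        rw [sub_zero] at b1 b2
        refine (abs_sub _ _).trans ?_
        show |av (st N (j, b)) (N j) fun y => S.rho y a| + |av (st N (j, b)) (N j) S.r| ≤ 2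
        linarith
      refine (this.trans (Sn.const 2 zero_le_two)).trans ?_
      have := mul_le_mul H.CB1 sx zero_le_one (by linarith [H.CB1])
      nlinarith
    · have dp : ∀ y ∈ Ico (st N (j, b)) (st N (j, b) + N j), g j ≤ S.dm y := fun y hy => by
        have hy := mem_Ico.1 hy
        exact g1 y (by omega) (by omega)
      have caa : ∀ y, Sn.C (S.aa y) := H.dok.ca
      have k1 : Sn.nm (fun a => ∑ y ∈ Ico (st N (j, b)) (st N (j, b) + N j),
          S.dm y * ((N j * S.dm y)⁻¹ ^ 2 * S.aa y a)) ≤ (2 * √x * τ j) ^ 2 := by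
        refine (Sn.mono' (Sn.c_sum _ fun y _ => Sn.c_cmul _ (Sn.c_cmul _ (caa y)))
          (Sn.c_cmul (g j * N j)⁻¹ (H.dok.cab (j, b))) fun a => ?_).trans
          ((Sn.smul _ (by positivity) (H.dok.cab (j, b))).trans ?_)
        · rw [abs_of_nonneg (sum_nonneg fun y _ => mul_nonneg (H.ok.dm0 y)
            (mul_nonneg (sq_nonneg _) (show 0 ≤ S.aa y a from H.ok.psd y a _))), dat_ab, av_eq,
            mul_sum]
          refine sum_le_sum fun y hy => ?_
          have d0 := g0.trans_le (dp y hy)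
          have a0 : 0 ≤ S.aa y a := H.ok.psd y a _
          have : S.dm y * ((N j * S.dm y)⁻¹ ^ 2 * S.aa y a) =
              (S.dm y * N j)⁻¹ * ((N j : ℝ)⁻¹ * S.aa y a) := by field_simp
          rw [this]
          exact mul_le_mul_of_nonneg_right (inv_anti₀ (by positivity)
            (mul_le_mul_of_nonneg_right (dp y hy) np.le)) (by positivity)
        · rw [inv_mul_le_iff₀ (by positivity)]
          refine (H.ab_le hj b hΛ).trans ?_
          have b' := mul_le_mul_of_nonneg_right g2 (show 0 ≤ τ j / (N j * v) by positivity)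
          have e1 : g j * N j * (τ j * (N j * v)) * (τ j / (N j * v)) = g j * N j * τ j ^ 2 := by
            field_simp
          rw [e1] at b'
          have q : 0 ≤ g j * N j * τ j ^ 2 := by positivity
          calc _ ≤ (x + 2) * (g j * N j * τ j ^ 2) := mul_le_mul_of_nonneg_left b' (by linarith)
            _ ≤ (4 * x) * (g j * N j * τ j ^ 2) := mul_le_mul_of_nonneg_right (by linarith) q
            _ = _ := by rw [mul_pow, mul_pow, sx2]; ring
      have k2 := H.bl _ _ _ k1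
      rw [sqrt_sq (by positivity)] at k2
      refine le_of_eq_of_le ?_ (k2.trans_eq (by ring))
      unfold Dat.N
      congr 1
      funext a
      rw [dat_rb]
      show av _ _ _ - av (st N (j, b)) (N j) S.r = _
      rw [av_eq, av_eq, ← sum_sub_distrib]
      refine sum_congr rfl fun y hy => ?_
      have d0 := g0.trans_le (dp y hy)
      show (N j : ℝ)⁻¹ * _ - _ = _
      field_simp
  unfold Dat.Z
  have k0 : 0 ≤ (K + 5) * τ j := mul_nonneg (by linarith [H.win.K1]) t0.le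
  nlinarith [mul_le_mul_of_nonneg_left sx k0]

/-- the invariant -/
def Inv (_ : Ctx S Sn Bad L j0 j1 v l2 l3 e K CB A N τ c g) (n : ℕ) (x : ℝ) : Prop :=
  ∀ j b, Rg L j0 j1 n j →
    (dat S Bad L j1 v l2 l3 e N c).Λ Sn (j, b) ≤ (L + 2) * x * (τ j / (N j * v))

theorem before {n j : ℕ} (hj : Rg L j0 j1 n j) :
    ∀ y ∈ (dat S Bad L j1 v l2 l3 e N c).I (j, false), y ≤ j := fun y hy => by
  have hy : j - N j ≤ y ∧ y < j - N j + N j := mem_Ico.1 hy
  have := hj.base
  have := H.win.NU j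
  omega

theorem inc_le {n : ℕ} {x : ℝ} (hx : 1 ≤ x) (I : H.Inv n x) {i j : ℕ} (hi : Rg L j0 j1 n i)
    (hj : Rg L j0 j1 n j) {d : ℕ} (hij : i ≤ j) (hd : j ≤ i + d) :
    Sn.nm ((dat S Bad L j1 v l2 l3 e N c).inc i j) ≤
      (2 * CB + K + 7) * √x * (6 * τ i + 2 * τ j) + 2 * (d * v) := by
  have h := H.dok.inc_le (H.gd' hi false) (H.before hi) hij
    (show j ≤ j1 by have := hj.base; omega) (H.up i) (H.up j)
  have z1 := H.Z_le hi false hx (I _ _ hi)
  have z2 := H.Z_le hi true hx (I _ _ hi)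
  have z3 := H.Z_le hj true hx (I _ _ hj)
  have c1 := H.c_sub (i := j) (j := i) (d := d) hd (by omega)
  have e1 : |(dat S Bad L j1 v l2 l3 e N c).γ (i, true) -
    (dat S Bad L j1 v l2 l3 e N c).γ (i, false)| = 0 := by simp [dat]
  have e2 : |(dat S Bad L j1 v l2 l3 e N c).γ (j, true) -
    (dat S Bad L j1 v l2 l3 e N c).γ (i, false)| = |c j - c i| := rfl
  rw [e1, e2] at h
  linarith

/-- one scale -/
theorem scale {n : ℕ} {x : ℝ} (hx : 1 ≤ x) (I : H.Inv n x) {j : ℕ} (hj : Rg L j0 j1 (n + 1) j)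
    (b : Bool) {k : ℕ} (hk : k ≤ L + 1) :
    (dat S Bad L j1 v l2 l3 e N c).Λk Sn (j, b) k ≤
      A * (16 * K * (2 * CB + K + 7) + K + 8) * √x * (τ j / (N j * v)) := by
  set C1 := 2 * CB + K + 7 with hC1
  have K1 := H.win.K1
  have c0 : 0 ≤ C1 := by linarith [H.CB1]
  have h3 := hj.base
  have h4 := H.win.NU j
  have h5 := H.st_bd j b (by omega)
  have t0 := H.τ0 j
  have n0 := H.Nv0 j
  have v0 := H.win.v0
  have q1 := H.q1 j
  have np : (0 : ℝ) < N j := by exact_mod_cast H.win.N1 j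
  have sx : 1 ≤ √x := one_le_sqrt.2 hx
  have w1 := (H.gd' hj b).ω1
  have e1 : ∀ k : ℕ, 2 ^ (k + 1) / 2 = 2 ^ k := fun k => by rw [pow_succ]; omega
  have fin : ∀ y : ℝ, y ≤ (16 * K * C1 + K + 8) * √x * (τ j / (N j * v)) →
      y ≤ A * (16 * K * C1 + K + 8) * √x * (τ j / (N j * v)) := fun y hy => by
    have : 0 ≤ (16 * K * C1 + K + 8) * √x * (τ j / (N j * v)) := by positivity
    nlinarith [H.A1]
  have xq : 1 ≤ √x * (τ j / (N j * v)) := by nlinarith
  rcases hk.lt_or_eq with hk | rfl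
  · have kU : 2 ^ k ≤ 2 ^ L := Nat.pow_le_pow_right two_pos (by omega)
    have kp : 1 ≤ 2 ^ k := Nat.one_le_two_pow
    have kr : (0 : ℝ) < 2 ^ k := by positivity
    by_cases hs : 2 ^ k ≤ N j
    · set h := 2 ^ k - 2 ^ k / 2 with hh
      have h1 : 1 ≤ h := by omega
      set X := (8 * K * C1 + 8) * √x * τ j with hX
      have key := qv_shift Sn H.dok.cinc Dat.inc0 (st N (j, b) - 2 ^ k) (N j) h h1 (M := A * X)
        fun ρ hρ => H.qv _ h _ X (by
          have := Nat.div_le_self (N j) h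
          rw [pow_add]; omega) fun i hi => by
          have a1 : i * h ≤ (N j / h + 1) * h := Nat.mul_le_mul_right _ hi
          have a2 := Nat.div_mul_le_self (N j) h
          rw [add_mul, one_mul] at a1
          have b1 := H.inc_le hx I (i := st N (j, b) - 2 ^ k + ρ)
            (j := st N (j, b) - 2 ^ k + ρ + i * h) (hj.near (by omega) (by omega))
            (hj.near (by omega) (by omega)) (d := 4 * N j) (by omega) (by omega)
          have b2 := H.τ_near hj (i := st N (j, b) - 2 ^ k + ρ) (by omega) (by omega)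
          have b3 := H.τ_near hj (i := st N (j, b) - 2 ^ k + ρ + i * h) (by omega) (by omega)
          refine b1.trans ?_
          have b4 := mul_le_mul_of_nonneg_left (show 6 * τ (st N (j, b) - 2 ^ k + ρ) +
            2 * τ (st N (j, b) - 2 ^ k + ρ + i * h) ≤ 8 * K * τ j by linarith)
            (show 0 ≤ C1 * √x by positivity)
          have b5 := H.win.Nv j
          push_cast
          nlinarith [mul_le_mul_of_nonneg_right sx t0.le]
      have e2 : (fun a => ∑ y ∈ (dat S Bad L j1 v l2 l3 e N c).I (j, b),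
          (dat S Bad L j1 v l2 l3 e N c).ω (j, b) y * (dat S Bad L j1 v l2 l3 e N c).Dk k y a) =
          fun a => (N j * (2 ^ k * v))⁻¹ * ∑ y ∈ Ico (st N (j, b) - 2 ^ k)
            (st N (j, b) - 2 ^ k + N j), (dat S Bad L j1 v l2 l3 e N c).inc y (y + h) a := by
        funext a
        show ∑ y ∈ Ico (st N (j, b)) (st N (j, b) + N j), _ = _
        rw [mul_sum, sum_Ico_eq_sum_range, sum_Ico_eq_sum_range, add_tsub_cancel_left,
          add_tsub_cancel_left]
        refine sum_congr rfl fun y _ => ?_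
        rw [Dat.Dk, if_pos (show k < (dat S Bad L j1 v l2 l3 e N c).L from hk)]
        show (N j : ℝ)⁻¹ * ((dat S Bad L j1 v l2 l3 e N c).inc (st N (j, b) + y - 2 ^ (k + 1) / 2)
          (st N (j, b) + y - 2 ^ k / 2) a / (2 ^ k * v)) = _
        rw [e1, show st N (j, b) + y - 2 ^ k = st N (j, b) - 2 ^ k + y by omega,
          show st N (j, b) + y - 2 ^ k / 2 = st N (j, b) - 2 ^ k + y + h by omega]
        field_simp
      unfold Dat.Λk
      rw [e2]
      refine (Sn.smul _ (by positivity) (Sn.c_sum _ fun y _ => H.dok.cinc _ _)).trans ?_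
      rw [inv_mul_le_iff₀ (by positivity)]
      refine key.trans ?_
      have hr : (h : ℝ) ≤ 2 ^ k := by exact_mod_cast (show h ≤ 2 ^ k by omega)
      have A0 : 0 ≤ A := by linarith [H.A1]
      have e3 : N j * (2 ^ k * v) * (A * (16 * K * C1 + K + 8) * √x * (τ j / (N j * v))) =
          2 ^ k * (A * ((16 * K * C1 + K + 8) * √x * τ j)) := by field_simp
      rw [e3]
      refine mul_le_mul hr (mul_le_mul_of_nonneg_left ?_ A0) (by positivity) kr.le
      have : 0 ≤ K * C1 := by positivity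
      exact mul_le_mul_of_nonneg_right (mul_le_mul_of_nonneg_right (by linarith) (by positivity))
        t0.le
    · refine fin _ ((H.dok.Λk_point w1 (show k < (dat S Bad L j1 v l2 l3 e N c).L from hk)
        (M := C1 * √x * (16 * K * τ j * 2 ^ k / N j) + 2 * (2 ^ k * v)) fun y hy => ?_).trans ?_)
      · have hy : st N (j, b) ≤ y ∧ y < st N (j, b) + N j := mem_Ico.1 hy
        show Sn.nm ((dat S Bad L j1 v l2 l3 e N c).inc (y - 2 ^ (k + 1) / 2) (y - 2 ^ k / 2)) ≤ _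
        rw [e1]
        have b1 := H.inc_le hx I (i := y - 2 ^ k) (j := y - 2 ^ k / 2)
          (hj.near (by omega) (by omega)) (hj.near (by omega) (by omega)) (d := 2 ^ k) (by omega)
          (by omega)
        have b2 := H.τ_back hj (i := y - 2 ^ k) (d := 2 ^ k) (by omega) kU (by omega) (by omega)
        have b3 := H.τ_back hj (i := y - 2 ^ k / 2) (d := 2 ^ k) (by omega) kU (by omega) (by omega)
        push_cast at b1 b2 b3
        refine b1.trans (add_le_add (mul_le_mul_of_nonneg_left ?_ (by positivity)) le_rfl)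
        rw [le_div_iff₀ np]; linarith
      · show _ / (2 ^ k * v) ≤ _
        have e3 : (C1 * √x * (16 * K * τ j * 2 ^ k / N j) + 2 * (2 ^ k * v)) / (2 ^ k * v) =
            16 * K * C1 * (√x * (τ j / (N j * v))) + 2 := by field_simp
        rw [e3]
        nlinarith
  · refine fin _ ((H.dok.Λk_top w1 (M := C1 * √x * (2 * K * τ j * 2 ^ L / N j) +
        K * τ j * 2 ^ L / N j) fun y hy => ?_).trans ?_)
    · have hy : st N (j, b) ≤ y ∧ y < st N (j, b) + N j := mem_Ico.1 hy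
      show Sn.nm ((dat S Bad L j1 v l2 l3 e N c).ρ (y - 2 ^ (L + 1) / 2)) ≤ _
      rw [e1]
      have r1 : Rg L j0 j1 n (y - 2 ^ L) := hj.near (by omega) (by omega)
      have b1 := H.dok.ρ_le (H.up (y - 2 ^ L))
      have b2 := H.Z_le r1 true hx (I _ _ r1)
      have b3 := H.τ_back hj (i := y - 2 ^ L) (d := 2 ^ L) h4 le_rfl (by omega) (by omega)
      have b4 := (H.win.clk (y - 2 ^ L) j (by omega)).1
      have b5 := H.win.old j (by omega) (by omega)
      have b6 : |(dat S Bad L j1 v l2 l3 e N c).γ (y - 2 ^ L, true)| = c (y - 2 ^ L) :=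
        abs_of_nonneg (H.win.c02 _).1
      push_cast at b3
      rw [b6] at b1
      refine b1.trans (add_le_add (b2.trans (mul_le_mul_of_nonneg_left ?_ (by positivity))) ?_)
      · rw [le_div_iff₀ np]; exact b3
      · rw [le_div_iff₀ np]; nlinarith
    · show _ / (2 ^ (L + 1) * v) ≤ _
      have e3 : (C1 * √x * (2 * K * τ j * 2 ^ L / N j) + K * τ j * 2 ^ L / N j) / (2 ^ (L + 1) * v) =
          K * C1 * (√x * (τ j / (N j * v))) + K / 2 * (τ j / (N j * v)) := by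
        rw [pow_succ]; field_simp
      rw [e3]
      have a1 : 0 ≤ K * C1 := by positivity
      have a2 : τ j / (N j * v) ≤ √x * (τ j / (N j * v)) := by nlinarith
      nlinarith [mul_le_mul_of_nonneg_left a2 (show 0 ≤ K / 2 by positivity)]

theorem round {n : ℕ} {x : ℝ} (hx : 1 ≤ x) (I : H.Inv n x) :
    H.Inv (n + 1) (A * (16 * K * (2 * CB + K + 7) + K + 9) * √x) := fun j b hj => by
  refine (H.dok.Λ_le (H.gd' hj b).ω1).trans ?_
  have sx : 1 ≤ √x := one_le_sqrt.2 hx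
  have q1 := H.q1 j
  have : (1 : ℝ) ≤ A * (√x * (τ j / (N j * v))) := by
    have : 1 ≤ √x * (τ j / (N j * v)) := by nlinarith
    nlinarith [H.A1]
  calc _ ≤ ∑ k ∈ range (L + 1 + 1),
        A * (16 * K * (2 * CB + K + 7) + K + 9) * √x * (τ j / (N j * v)) :=
        sum_le_sum fun k hk => by
          have := H.scale hx I hj b (Nat.lt_succ_iff.1 (mem_range.1 hk))
          linarith
    _ = _ := by simp only [sum_const, card_range, nsmul_eq_mul]; push_cast; ring

theorem start {x : ℝ} (hx : 4 / v + 1 ≤ x) : H.Inv 0 x := fun j b hj => by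
  have w1 := (H.gd' hj b).ω1
  have v0 := H.win.v0
  have x0 : 0 ≤ ((L : ℝ) + 2) * x := by
    have : 0 ≤ 4 / v + 1 := by positivity
    exact mul_nonneg (by positivity) (this.trans hx)
  refine ((Sn.mono' (H.dok.cX _) (Sn.c_const (((L : ℝ) + 2) * x)) fun a => ?_).trans
    (Sn.const _ x0)).trans (le_mul_of_one_le_right x0 (H.q1 j))
  rw [abs_of_nonneg (H.dok.X0 _ a), ← one_mul (((L : ℝ) + 2) * x), ← w1, sum_mul]
  refine sum_le_sum fun y _ => mul_le_mul_of_nonneg_left ?_ (H.dok.ω0 _ y)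
  calc _ ≤ ∑ k ∈ range (L + 1 + 1), x := sum_le_sum fun k _ => by
        linarith [D_le (Bad := Bad) (L := L) (j1 := j1) (l2 := l2) (l3 := l3) (e := e) (N := N)
          (c := c) H.ok v0 k y a]
    _ = _ := by simp only [sum_const, card_range, nsmul_eq_mul]; push_cast; ring

theorem iter {Z B : ℝ} (hB : B = A * (16 * K * (2 * CB + K + 7) + K + 9)) {J : ℕ} (hZ : 1 ≤ Z)
    (hJ : 4 / v ≤ Z ^ 2 ^ J) : ∀ n ≤ J, H.Inv n (B ^ 2 * Z ^ 2 ^ (J - n)) := by
  have B2 : 2 ≤ B := by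
    have a : 0 ≤ 16 * K * (2 * CB + K + 7) := by
      have := H.win.K1; have := H.CB1; positivity
    nlinarith [H.A1, H.win.K1]
  intro n
  induction n with
  | zero =>
    intro _
    refine H.start ?_
    have : 1 ≤ Z ^ 2 ^ J := one_le_pow₀ hZ
    rw [Nat.sub_zero]
    have b4 : 2 ≤ B ^ 2 := by nlinarith
    nlinarith [mul_le_mul_of_nonneg_right b4 (zero_le_one.trans this)]
  | succ n ih =>
    intro hn
    have z1 : 1 ≤ Z ^ 2 ^ (J - n) := one_le_pow₀ hZ
    have := H.round (by nlinarith) (ih (by omega))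
    rw [← hB, show J - n = J - (n + 1) + 1 by omega, pow_succ 2, pow_mul, ← mul_pow,
      sqrt_sq (by positivity), ← mul_assoc, ← sq] at this
    exact this

theorem out {n : ℕ} {x : ℝ} (hx : 1 ≤ x) (I : H.Inv n x) {j : ℕ} (hj : Rg L j0 j1 n j) :
    Sn.nm (fun a => S.rho j a - c j) ≤ 2 * (2 * CB + K + 7) * √x * τ j ∧
    Sn.nm (fun a => av j (N j) fun y => S.aa y a) ≤
      (x + 2) * (((L : ℝ) + 2) ^ 2 * l3 * (τ j / (N j * v))) := by
  constructor
  · have h := H.dok.loc (H.gd' hj false) (H.before hj) (show j ≤ j1 by have := hj.base; omega)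
      (H.up j) (c j)
    have z1 := H.Z_le hj false hx (I _ _ hj)
    have z2 := H.Z_le hj true hx (I _ _ hj)
    have e1 : ∀ b, |(dat S Bad L j1 v l2 l3 e N c).γ (j, b) - c j| = 0 := fun b => by simp [dat]
    rw [e1, e1, dat_ρ] at h
    linarith
  · have h := H.ab_le hj true (I _ _ hj)
    rwa [show (dat S Bad L j1 v l2 l3 e N c).ab (j, true) = fun a => av j (N j) fun y => S.aa y a
      from funext fun a => dat_ab _ a] at h

end Ctx

end Crest.Agent.T156.Q21

namespace Crest.Agent.T156.Q57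

open MeasureTheory Finset Real Crest.Agent.T156.Q21

/-- **(Q2)** -/
theorem syncS_of (hN : NbS) (hQ : QvS) (hB : BlpS) : SyncS := by
  intro i K hi
  obtain ⟨CB, CB1, hB⟩ := hB i
  set B0 : ℝ := 16 * (2 ^ i : ℕ) * (16 * K * (2 * CB + K + 7) + K + 9) with hB0
  refine ⟨1 + (|2 * (2 * CB + K + 7) * B0| + (B0 ^ 2 + 2)), le_add_of_nonneg_right (by positivity),
    fun α ι _ _ S L J j0 j1 v l2 l3 e P Z N τ c g H hG W e0 ev e3 P1 hP Z1 hZ j h0 h1 => ?_⟩
  have := H.prob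
  obtain ⟨Bad, mB, μB, hG⟩ := hG.ex
  have hp : 1 ≤ 2 ^ i := Nat.one_le_two_pow
  have hp2 : 2 ≤ 2 ^ i := by
    calc 2 = 2 ^ 1 := rfl
      _ ≤ 2 ^ i := Nat.pow_le_pow_right two_pos hi
  have pr : (1 : ℝ) ≤ (2 ^ i : ℕ) := by exact_mod_cast hp
  have dok := dat_ok (Bad := Bad) (L := L) (j1 := j1) (l2 := l2) (N := N) (c := c) hN H hp mB μB e0
    W.v0 W.l30.le
  have X : Ctx S (ns hN S.μ hp) Bad L j0 j1 v l2 l3 e K CB (16 * (2 ^ i : ℕ) * P) N τ c g := by
    refine ⟨H, W, dok, fun t a b => dat_gd H W.v0 W.l20.le W.l30.le hG (W.N1 _) a b, ev, e3, CB1,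
      by nlinarith, fun j => ?_, fun J φ γ h => ?_, fun b h n X hn hX => ?_⟩
    · refine nr_le hp ((hQ α ι S H).2.1 _ j (N j) (c j) _ hp2 (W.N1 j) ?_)
      have : (fun a => max ((dat S Bad L j1 v l2 l3 e N c).rb (j, true) a -
          (dat S Bad L j1 v l2 l3 e N c).γ (j, true)) 0) =
          fun a => max (av j (N j) (fun y => S.rho y a) - c j) 0 := funext fun a => by
        rw [dat_rb]; rfl
      show Nb _ _ _ (nr S.μ _ _)
      rw [this]; exact nb_nr hp _
    · refine nr_le hp ((hN α S.μ _ hp).2.2.1 _ _ ?_ (hB α ι S H J φ γ (nb_of_le hp h)))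
      exact (ns hN S.μ hp).c_sum _ fun y _ => (ns hN S.μ hp).c_cmul _ ((ns hN S.μ hp).c_cmul _
        ((ns hN S.μ hp).c_sub (dok.cρ y) (bm_const _)))
    · refine nr_le hp ((hQ α ι S H).1 _ b h n X P hp2 P1 (le_trans ?_ hP)
        fun i hi => nb_of_le hp (hX i hi))
      exact_mod_cast hn
  have I := X.iter (B := B0 * P) (by rw [hB0]; ring) Z1 hZ J le_rfl
  rw [Nat.sub_self, pow_zero, pow_one] at I
  have K1 := W.K1
  have B1 : 1 ≤ B0 := by
    have a : 0 ≤ 16 * K * (2 * CB + K + 7) := by positivity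
    nlinarith
  have BP : 1 ≤ B0 * P := by nlinarith
  have x1 : 1 ≤ (B0 * P) ^ 2 * Z := by nlinarith [one_le_pow₀ (n := 2) BP]
  obtain ⟨o1, o2⟩ := X.out x1 I (j := j) ⟨h0, h1⟩
  have t0 := X.τ0 j
  constructor
  · refine nb_of_le hp (le_trans o1 (mul_le_mul_of_nonneg_right ?_ t0.le))
    have s1 : √((B0 * P) ^ 2 * Z) ≤ B0 * P * Z :=
      sqrt_le_iff.2 ⟨by positivity, by
        rw [mul_pow (B0 * P)]
        exact mul_le_mul_of_nonneg_left (by nlinarith) (by positivity)⟩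
    refine (mul_le_mul_of_nonneg_left s1 (by positivity)).trans ?_
    have a := le_abs_self (2 * (2 * CB + K + 7) * B0)
    have b : 0 ≤ P * Z := by positivity
    nlinarith [mul_le_mul_of_nonneg_right a b, sq_nonneg B0]
  · refine nb_of_le hp (le_trans o2 (mul_le_mul_of_nonneg_right ?_ ?_))
    · have a := abs_nonneg (2 * (2 * CB + K + 7) * B0)
      have b : 1 ≤ P ^ 2 * Z := by nlinarith [one_le_pow₀ (n := 2) P1]
      nlinarith [mul_nonneg a (zero_le_one.trans b)]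
    · have := W.l30; have := X.q1 j; positivity

end Crest.Agent.T156.Q57

end
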