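import Crest.Agent.T156.QGood_74_Mg
import Crest.Agent.T156.QInst_98
import Crest.Agent.T156.LpR_43
import Crest.Agent.T156.QDef_57
import Crest.Agent.T156.QTwo_21
import Mathlib
import Crest.Agent.T156.LpB_12

-- ▼ part T156/QGoodC_74
section

/-!
# Row 156, block Q: `GoodS` (helper74)
-/

set_option autoImplicit false
set_option maxHeartbeats 400000

noncomputable section

namespace Crest.Agent.T156.Cas

open MeasureTheory Real Finset
open Crest.Agent.T157.E Crest.Agent.T157.Casc Crest.Agent.T157.SL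
open Crest.Agent.T156.Cas.Sy41 Crest.Agent.T156.Q57 Crest.Agent.T156.Cas.QSys98
open Crest.Agent.T156.Cas.Lp12

namespace GoodC74

variable {Ω : Type} [Fintype Ω] {w : Ω → ℝ}

/-- the system with the label weights removed (no symmetry is needed for `Ok`) -/
def sys0 (w : Ω → ℝ) (L : List (Lv Ω)) (h : Ω → ℝ) (l₀ : Lv Ω) : Sys (NI L → ℝ) l₀.ι :=
  { qsys w L l₀ h id with dm := fun _ => 0 }

theorem sys0_B (L : List (Lv Ω)) (h : Ω → ℝ) (l₀ : Lv Ω) (j : ℕ) (g : NI L → ℝ) (z : l₀.ι → ℝ) :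
    (sys0 w L h l₀).B j g z = Bq w (L.drop j) l₀ (st L j h g) z := qsys_B w L l₀ h id j g z

theorem sys0_ok (hw : Wt w) {L : List (Lv Ω)} (hL : Mono 0 L) (h : Ω → ℝ) (l₀ : Lv Ω)
    (h1 : ∀ x, l₀.cov x x ≤ 1) : (sys0 w L h l₀).Ok where
  prob := prob_mu hw L h
  mm := fun j i => (Pe.eg_st L h j (eg_mv hw _ l₀ i)).cont.measurable
  mA := fun j i k => (Pe.eg_st L h j (Hess87.eg_Hb hw _ _ _)).cont.measurable
  bd := fun j g => Q33.rr_le hw _ h1 _
  psd := fun j g z => by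
    rw [sys0_B]
    exact Hess87.Hb_nonneg hw _ _ _ ((Sy41.mono_drop _ hL).nn le_rfl)
  bdB := fun j g z => by
    rw [sys0_B]
    have := Bq_le hw (Sy41.mono_drop j hL) l₀ (Q33.fld_sq_le' h1) (st L j h g) z
    rwa [one_mul] at this
  dm0 := fun _ => le_rfl
  mart := fun t j htj φ hφ => by
    have eG : ∀ i, Eg fun g => φ (fun k => (qsys w L l₀ h id).m (min k t) g) i := fun i =>
      eg_path hw L l₀ h id (fun k => min k t) ((continuous_apply i).comp hφ)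
    have aG : ∀ i, LpR43.Ad L t fun g => φ (fun k => (qsys w L l₀ h id).m (min k t) g) i :=
      fun i => (LpR43.Ad.pi fun k => LpR43.Ad.st L (min_le_right k t) h
        (mv w (L.drop (min k t)) l₀)).comp fun p => φ p i
    have em : ∀ j i, Eg fun g => (qsys w L l₀ h id).m j g i := fun j i =>
      Pe.eg_st L h j (eg_mv hw _ l₀ i)
    show ∫ a, dt (φ fun k => (qsys w L l₀ h id).m (min k t) a)
      ((qsys w L l₀ h id).m j a - (qsys w L l₀ h id).m t a) ∂mu w L h = 0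
    simp only [dt, Pi.sub_apply, mul_sub]
    rw [integral_finsetSum _ fun i _ => integrable_mu hw L h
      (((eG i).mul (em j i)).sub ((eG i).mul (em t i)))]
    refine Finset.sum_eq_zero fun i _ => ?_
    rw [integral_sub (integrable_mu hw L h ((eG i).mul (em j i)))
      (integrable_mu hw L h ((eG i).mul (em t i))), int_mu hw, int_mu hw, sub_eq_zero]
    exact mart hw L l₀ h htj (eG i) (aG i) i
  bl := fun J g g' Ψ Ψ' _ _ _ _ => by
    have := prob_mu hw L h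
    have e : (sys0 w L h l₀).μ = mu w L h := rfl
    have e' : ∀ j, (sys0 w L h l₀).dm j = 0 := fun _ => rfl
    simp [e, e']

/-- the pieces as functions of the path -/
def pcP (w : Ω → ℝ) (L : List (Lv Ω)) (l₀ : Lv Ω) (LL k y : ℕ) (p : Pth Ω) : l₀.ι → ℝ :=
  if k ≤ LL then mv w (L.drop (y - 2 ^ k / 2)) l₀ (p (y - 2 ^ k / 2)) -
    mv w (L.drop (y - 2 ^ k)) l₀ (p (y - 2 ^ k))
  else mv w (L.drop (y - 2 ^ LL)) l₀ (p (y - 2 ^ LL))


theorem ep_pcP (hw : Wt w) (L : List (Lv Ω)) (l₀ : Lv Ω) (LL k y : ℕ) (i : l₀.ι) :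
    EP fun p => pcP w L l₀ LL k y p i := by
  unfold pcP
  split_ifs
  · exact (LpR43.ep_mv hw _ l₀ _ i).sub (LpR43.ep_mv hw _ l₀ _ i)
  · exact LpR43.ep_mv hw _ l₀ _ i

theorem ad_pcP (L : List (Lv Ω)) (l₀ : Lv Ω) {LL k : ℕ} (hk : k ≤ LL + 1) (y : ℕ) :
    Ad (y - 2 ^ k / 2) (pcP w L l₀ LL k y) := fun p q H => by
  unfold pcP
  split_ifs with h1
  · rw [H _ le_rfl, H (y - 2 ^ k) (Nat.sub_le_sub_left (Nat.div_le_self _ _) _)]
  · obtain rfl : k = LL + 1 := by omega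
    rw [H (y - 2 ^ LL) (by rw [pow_succ, Nat.mul_div_cancel _ two_pos])]

/-- ratio moments from conditional moments -/
theorem ratio (hw : Wt w) (L : List (Lv Ω)) (h : Ω → ℝ) {ι : Type} [Fintype ι]
    {η : Pth Ω → ι → ℝ} (hη : ∀ i, EP fun p => η p i) {a : ℕ} (aη : Ad a η) {F : Pth Ω → ℝ}
    (hF : EP F) {n : ℕ} {c θ u ε : ℝ} (hc : 0 ≤ c) (hθ : 0 ≤ θ) (hu : 0 < u) (hε : 0 < ε)
    (H : ∀ p, CE w L a (fun q => F q ^ n) p ≤ c * (θ * ∑ i, η p i ^ 2) ^ n) :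
    ∫ g, (F (fun j => st L j h g) / (sq2 (η fun j => st L j h g) / u + ε)) ^ n ∂mu w L h ≤
      c * (θ * u) ^ n := by
  have s0 : ∀ p, 0 ≤ sq2 (η p) := fun p => Good74.sq2_nonneg _
  have eH : EP fun p => (1 / (sq2 (η p) / u + ε)) ^ n := by
    have := (LpR43.ep_sq hη).comp_lin (φ := fun t => (1 / (|t| / u + ε)) ^ n)
      (Continuous.pow (continuous_const.div (by fun_prop) fun t => by positivity) n)
      (a := (1 / ε) ^ n) (b := 0) fun t => by
        rw [zero_mul, add_zero, abs_of_nonneg (by positivity)]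
        exact pow_le_pow_left₀ (by positivity)
          (one_div_le_one_div_of_le hε (le_add_of_nonneg_left (by positivity))) n
    refine (congrArg EP (funext fun p => ?_)).mp this
    rw [abs_of_nonneg (show 0 ≤ ∑ i, η p i ^ 2 from s0 p)]
    rfl
  have aH : Ad a fun p => (1 / (sq2 (η p) / u + ε)) ^ n :=
    aη.comp fun z => (1 / (sq2 z / u + ε)) ^ n
  have e : ∀ p : Pth Ω, (F p / (sq2 (η p) / u + ε)) ^ n =
      (1 / (sq2 (η p) / u + ε)) ^ n * F p ^ n := fun p => by rw [← mul_pow]; congr 1; ring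
  simp only [e]
  rw [int_EE hw L h (eH.mul (hF.pow n)), EE_tower hw a, funext (CE_mul L aH _)]
  refine EE_le hw L h (eH.mul (ep_CE hw L a (hF.pow n))) fun p => ?_
  have h0 := s0 p
  refine (mul_le_mul_of_nonneg_left (H p) (by positivity)).trans ?_
  rw [mul_left_comm, ← mul_pow]
  refine mul_le_mul_of_nonneg_left (pow_le_pow_left₀ (by positivity) ?_ n) hc
  show 1 / (sq2 (η p) / u + ε) * (θ * sq2 (η p)) ≤ θ * u
  rw [one_div_mul_eq_div, div_le_iff₀ (by positivity)]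
  have : θ * u * (sq2 (η p) / u + ε) = θ * sq2 (η p) + θ * u * ε := by field_simp
  rw [this]
  exact le_add_of_nonneg_right (by positivity)

/-- a pathwise bound gives ratio moments -/
theorem ratio_triv {α : Type} [MeasurableSpace α] (μ : Measure α) [IsProbabilityMeasure μ]
    {X D : α → ℝ} {c ε : ℝ} (hc : 0 ≤ c) (hε : 0 < ε) (X0 : ∀ a, 0 ≤ X a) (D0 : ∀ a, 0 ≤ D a)
    (H : ∀ a, X a ≤ c * D a) (n : ℕ) : ∫ a, (X a / (D a + ε)) ^ n ∂μ ≤ c ^ n := by
  have hp : ∀ a, 0 < D a + ε := fun a => add_pos_of_nonneg_of_pos (D0 a) hε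
  refine (integral_mono_of_nonneg (ae_of_all _ fun a => pow_nonneg (div_nonneg (X0 a) (hp a).le) n)
    (integrable_const (c ^ n)) (ae_of_all _ fun a => ?_)).trans (by simp)
  refine pow_le_pow_left₀ (div_nonneg (X0 a) (hp a).le) ?_ n
  rw [div_le_iff₀ (hp a)]
  nlinarith [H a, mul_nonneg hc hε.le]

omit [Fintype Ω] in
theorem sum_dm_Ioc (L : List (Lv Ω)) {a b : ℕ} (hab : a ≤ b) :
    ∑ j ∈ Ioc a b, dm L 0 j = ex L b - ex L a := by
  induction b, hab using Nat.le_induction with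
  | base => simp
  | succ b hb ih =>
    rw [Finset.sum_Ioc_succ_top hb, ih]
    simp only [dm, exP]
    ring

theorem cK_le {n : ℕ} (hn : n ≠ 0) {t t' : ℝ} (h0 : 0 ≤ t) (h : t ≤ 4 * t') :
    LpR43.cK n * t ^ n ≤ (4 * LpR43.cK n * t') ^ n := by
  have h1 := LpR43.one_le_cK n
  calc LpR43.cK n * t ^ n ≤ LpR43.cK n ^ n * (4 * t') ^ n :=
        mul_le_mul (le_self_pow₀ h1 hn) (pow_le_pow_left₀ h0 h n) (by positivity) (by positivity)
    _ = _ := by rw [← mul_pow]; congr 1; ring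

end GoodC74

open GoodC74 in
/-- **(C2)-(C4)** -/
theorem goodS : GoodS := fun p => by
  have hK1 := LpR43.one_le_cK p
  refine ⟨2 * (4 * LpR43.cK p) ^ p, by
    have := one_le_pow₀ (show 1 ≤ 4 * LpR43.cK p by linarith) (n := p); linarith, ?_⟩
  intro Ω _ w hw L h l₀ τ t' LL j0 j1 j2 x v w3 K lam hL h1 hτ hx hv hw3 hK hlam h12 h2L hlev htop
    hwin hsum
  have ok := sys0_ok hw hL h l₀ h1
  have hw0 : 0 < w3 := by linarith
  set c0 := 4 * LpR43.cK p with hc0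
  have c0p : 0 < c0 := by positivity
  have hprob := ok.prob
  -- the window of a piece
  have hWin : ∀ k, 1 ≤ k → k ≤ LL + 1 → ∀ y, j0 + 2 ^ LL ≤ y → y ≤ j1 → ∀ j, y ≤ j → j ≤ L.length →
      LpR43.Win L τ (y - 2 ^ k / 2) j (2 * w3 / (x * (2 ^ k * v))) ∧ x ≤ ex L (y - 2 ^ k / 2) := by
    intro k hk1 hk y hy0 hy1 j hyj hj
    obtain ⟨k, rfl⟩ : ∃ k', k = k' + 1 := ⟨k - 1, by omega⟩
    have e2 : 2 ^ (k + 1) / 2 = 2 ^ k := by rw [pow_succ, Nat.mul_div_cancel _ two_pos]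
    rw [e2]
    have hle : 2 ^ k ≤ 2 ^ LL := Nat.pow_le_pow_right two_pos (by omega)
    have hpos : 0 < 2 ^ k := by positivity
    have hxa := (hlev (y - 2 ^ k) (by omega) (by omega)).1
    refine ⟨⟨hj, y - 2 ^ k, le_rfl, by omega, ?_⟩, hxa⟩
    have a1 : (2 ^ k : ℝ) * (v / w3) ≤ LpR43.Sw L τ (y - 2 ^ k) y := by
      have := Finset.card_nsmul_le_sum (Ico (y - 2 ^ k) y) (fun i => ex L i * τ i) (v / w3)
        fun i hi => by
          have hi' := mem_Ico.1 hi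
          rw [div_le_iff₀ hw0, mul_comm]
          exact (hlev i (by omega) (by omega)).2
      rw [Nat.card_Ico, show y - (y - 2 ^ k) = 2 ^ k by omega, nsmul_eq_mul] at this
      exact_mod_cast this
    have a2 : LpR43.Sw L τ (y - 2 ^ k) y ≤ LpR43.Sw L τ (y - 2 ^ k) j := by
      have := LpR43.Sw_nonneg hL l₀ hτ (a := y) hj
      unfold LpR43.Sw at this ⊢
      rw [← Finset.sum_Ico_consecutive _ (by omega : y - 2 ^ k ≤ y) hyj]
      linarith
    have a3 : x * ((2 ^ k : ℝ) * (v / w3)) ≤ ex L (y - 2 ^ k) * LpR43.Sw L τ (y - 2 ^ k) j :=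
      mul_le_mul hxa (a1.trans a2) (by positivity) (hx.le.trans hxa)
    refine le_trans (le_of_eq ?_) (mul_le_mul_of_nonneg_left a3 (by positivity))
    rw [pow_succ]
    field_simp
  have hx1 : ∀ y, j0 + 2 ^ LL ≤ y → y ≤ j1 → x ≤ 1 := fun y h3 h4 => by
    have hpos : 0 < 2 ^ LL := by positivity
    exact ((hlev j0 le_rfl (by omega)).1.trans (LpR43.ex_mono hL (show j0 ≤ L.length by omega))).trans
      (by simp [T157.Casc.ex])
  have mom : (sys0 w L h l₀).Mom LL v (c0 * (w3 / x)) (c0 * (K * w3)) p j0 j1 := by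
    constructor
    · intro k hk y hy0 hy1 ε hε
      rcases eq_or_ne p 0 with rfl | hp
      · simp
      rcases Nat.eq_zero_or_pos k with rfl | hk1
      · refine ratio_triv _ (by positivity) hε (fun a => ok.psd _ _ _)
          (Good74.D_nonneg _ _ hv.le _ _) (fun a => (ok.bdB _ _ _).trans ?_) p
        have s0 := Good74.sq2_nonneg ((sys0 w L h l₀).pc LL 0 y a)
        unfold Sys.D
        rw [pow_zero, one_mul, ← mul_div_assoc, le_div_iff₀ hv, mul_comm]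
        refine mul_le_mul_of_nonneg_right ?_ s0
        nlinarith [mul_le_mul hK (le_refl w3) hw0.le (by linarith : (0:ℝ) ≤ K)]
      set θ0 := 2 * w3 / (x * (2 ^ k * v)) with hθ0
      have θ0p : 0 < θ0 := by positivity
      let θ : ℕ → ℝ := fun j => if j ≤ j2 then θ0 else
        if j ≤ L.length then 1 / (ex L (t' j) * SW L τ (t' j) j) else 0
      have θn : ∀ j, 0 ≤ θ j := fun j => by
        simp only [θ]
        split_ifs with a1 a2
        · exact θ0p.le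
        · exact one_div_nonneg.2 (mul_nonneg (LpR43.ex_nonneg hL _) (LpR43.Sw_nonneg hL l₀ hτ a2))
        · exact le_rfl
      have θy : θ y = θ0 := if_pos (by omega)
      have Hy : LpR43.Win L τ (y - 2 ^ k / 2) y (θ y) := by
        rw [θy]; exact (hWin k hk1 hk y hy0 hy1 y le_rfl (by omega)).1
      have Hj : ∀ j, y < j → j ≤ L.length → dm L 0 j ≠ 0 →
          LpR43.Win L τ (y - 2 ^ k / 2) j (θ j) := fun j a1 a2 a3 => by
        by_cases a4 : j ≤ j2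
        · rw [show θ j = θ0 from if_pos a4]; exact (hWin k hk1 hk y hy0 hy1 j a1.le a2).1
        · obtain ⟨b1, b2, b3⟩ := hwin j (by omega) a2
          have b4 := b3 ((dm_nonneg hL j).lt_of_ne a3.symm)
          have b5 : 0 < ex L (t' j) := hx.trans_le ((hWin k hk1 hk y hy0 hy1 j a1.le a2).2.trans
            (LpR43.ex_mono hL ((Nat.sub_le _ _).trans (hy1.trans b1))))
          refine ⟨a2, t' j, (Nat.sub_le _ _).trans (hy1.trans b1), b2.le, le_of_eq ?_⟩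
          simp only [θ, if_neg a4, if_pos a2]
          exact (one_div_mul_cancel (mul_pos b5 b4).ne').symm
      have hkap : LpR43.kap L θ y * (2 ^ k * v) ≤ 4 * (K * w3) := by
        have e1 : LpR43.kap L θ y = θ0 * ex L j2 +
            ∑ j ∈ Ioc j2 L.length, dm L 0 j / (ex L (t' j) * SW L τ (t' j) j) := by
          unfold LpR43.kap
          rw [← Finset.sum_Ioc_consecutive _ (by omega : y ≤ j2) h2L, θy,
            Finset.sum_congr rfl fun j hj => show dm L 0 j * θ j = dm L 0 j * θ0 by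
              rw [show θ j = θ0 from if_pos (mem_Ioc.1 hj).2],
            ← Finset.sum_mul, sum_dm_Ioc L (by omega : y ≤ j2),
            Finset.sum_congr rfl fun j hj => show dm L 0 j * θ j =
              dm L 0 j / (ex L (t' j) * SW L τ (t' j) j) by
              simp only [θ, if_neg (not_le.2 (mem_Ioc.1 hj).1), if_pos (mem_Ioc.1 hj).2]
              ring]
          ring
        have e2 : θ0 * ex L j2 * (2 ^ k * v) ≤ 2 * (K * w3) := by
          have : θ0 * (K * x) * (2 ^ k * v) = 2 * (K * w3) := by rw [hθ0]; field_simp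
          rw [← this]
          gcongr
        have e3 : K * w3 / (2 ^ LL * v) * (2 ^ k * v) ≤ 2 * (K * w3) := by
          have a1 : (2 : ℝ) ^ k ≤ 2 ^ (LL + 1) := pow_le_pow_right₀ one_le_two hk
          have : K * w3 / (2 ^ LL * v) * (2 ^ (LL + 1) * v) = 2 * (K * w3) := by
            rw [pow_succ]; field_simp
          rw [← this]
          gcongr
        have e4 := mul_le_mul_of_nonneg_right hsum (by positivity : (0:ℝ) ≤ 2 ^ k * v)
        rw [e1, add_mul]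
        linarith
      have kp := LpR43.kap_pos hL l₀ hτ θn Hy
      have R := ratio hw L h (ep_pcP hw L l₀ LL k y) (ad_pcP L l₀ hk y)
        (LpR43.ep_Bq hw (L.drop y) l₀ y (ep_pcP hw L l₀ LL k y)) (LpR43.cK_pos p).le kp.le
        (by positivity : (0:ℝ) < 2 ^ k * v) hε
        (LpR43.CE_Bq hw hL l₀ hτ θn Hy Hj (ad_pcP L l₀ hk y) p)
      simp only [sys0_B]
      exact R.trans (cK_le hp (by positivity) hkap)
    · intro k hk y hy0 y' hy' hy1 ε hε
      rcases eq_or_ne p 0 with rfl | hp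
      · simp
      have x1 := hx1 y hy0 (by omega)
      rcases Nat.eq_zero_or_pos k with rfl | hk1
      · refine ratio_triv _ (by positivity) hε (fun a => sq_nonneg _)
          (Good74.D_nonneg _ _ hv.le _ _) (fun a => (Good74.dt_sq_le _ _).trans ?_) p
        have s0 := Good74.sq2_nonneg ((sys0 w L h l₀).pc LL 0 y a)
        have b1 := ok.bd y' a
        have b2 := ok.bd y a
        unfold Sys.rho at b1 b2
        have b3 := Good74.sq2_sub_le ((sys0 w L h l₀).m y' a) ((sys0 w L h l₀).m y a)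
        unfold Sys.D
        rw [pow_zero, one_mul, ← mul_div_assoc, le_div_iff₀ hv, mul_assoc, mul_comm]
        refine mul_le_mul_of_nonneg_right ?_ s0
        have b4 : w3 ≤ w3 / x := le_div_self hw0.le hx x1
        nlinarith
      have Hy := (hWin k hk1 hk y hy0 (by omega) y le_rfl (by omega)).1
      have R := ratio hw L h (ep_pcP hw L l₀ LL k y) (ad_pcP L l₀ hk y)
        ((LpR43.ep_Yi hw L l₀ (ep_pcP hw L l₀ LL k y) y y').pow 2) (LpR43.cK_pos p).le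
        (by positivity : (0:ℝ) ≤ 2 * w3 / (x * (2 ^ k * v)))
        (by positivity : (0:ℝ) < 2 ^ k * v) hε (n := p) fun q => by
          simpa only [← pow_mul] using LpR43.CE_Yi hw hL l₀ hτ Hy hy' (ad_pcP L l₀ hk y) p q
      refine R.trans (cK_le hp (by positivity) ?_)
      have : 2 * w3 / (x * (2 ^ k * v)) * (2 ^ k * v) = 2 * (w3 / x) := by field_simp
      rw [this]
      have : 0 < w3 / x := by positivity
      linarith
  have G := good_of_mom ok (lam := lam / c0)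
    (η := 2 * c0 ^ p * ((LL + 2) * (j1 + 1) ^ 2) / lam ^ p) hv.le (by positivity) (by positivity)
    (by positivity) mom (le_of_eq (by rw [div_pow]; field_simp))
  have e1 : lam / c0 * (c0 * (w3 / x)) = lam * w3 / x := by field_simp
  have e2 : lam / c0 * (c0 * (K * w3)) = lam * K * w3 := by field_simp
  rw [e1, e2] at G
  exact ⟨G.ex⟩

end Crest.Agent.T156.Cas
end
end

-- ▼ part T156/QNb_89
section

/-!
# Row 156, block Q (helper89): the leaves `NbS`, `GarS`, `JointS`, `QvS` of `QDef_57`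
-/

set_option autoImplicit false

noncomputable section

namespace Crest.Agent.T156.Q57.N89

open MeasureTheory Real Finset Filter Topology

section bm
variable {α : Type} [MeasurableSpace α] {X Y : α → ℝ}

theorem bm_const (c : ℝ) : Bm fun _ : α => c := ⟨measurable_const, |c|, fun _ => le_rfl⟩

theorem bm_add (h : Bm X) (h' : Bm Y) : Bm fun a => X a + Y a := by
  obtain ⟨m, C, hC⟩ := h
  obtain ⟨m', C', hC'⟩ := h'
  exact ⟨m.add m', C + C', fun a => (abs_add_le _ _).trans (add_le_add (hC a) (hC' a))⟩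

theorem bm_mul (h : Bm X) (h' : Bm Y) : Bm fun a => X a * Y a := by
  obtain ⟨m, C, hC⟩ := h
  obtain ⟨m', C', hC'⟩ := h'
  refine ⟨m.mul m', C * C', fun a => ?_⟩
  rw [abs_mul]
  exact mul_le_mul (hC a) (hC' a) (abs_nonneg _) ((abs_nonneg _).trans (hC a))

theorem bm_neg (h : Bm X) : Bm fun a => -X a := by
  obtain ⟨m, C, hC⟩ := h
  exact ⟨m.neg, C, fun a => by rw [abs_neg]; exact hC a⟩

theorem bm_sub (h : Bm X) (h' : Bm Y) : Bm fun a => X a - Y a := by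
  simpa only [sub_eq_add_neg] using bm_add h (bm_neg h')

theorem bm_abs (h : Bm X) : Bm fun a => |X a| := by
  obtain ⟨m, C, hC⟩ := h
  exact ⟨m.abs, C, fun a => by rw [abs_abs]; exact hC a⟩

theorem bm_pow (h : Bm X) : ∀ k : ℕ, Bm fun a => X a ^ k
  | 0 => by simpa using bm_const (α := α) 1
  | k + 1 => by simpa only [pow_succ] using bm_mul (bm_pow h k) h

theorem bm_cmul (c : ℝ) (h : Bm X) : Bm fun a => c * X a := bm_mul (bm_const c) h

theorem bm_div (h : Bm X) (c : ℝ) : Bm fun a => X a / c := by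
  simpa only [div_eq_mul_inv] using bm_mul h (bm_const c⁻¹)

theorem bm_max (h : Bm X) (h' : Bm Y) : Bm fun a => max (X a) (Y a) := by
  obtain ⟨m, C, hC⟩ := h
  obtain ⟨m', C', hC'⟩ := h'
  refine ⟨m.max m', max C C', fun a => ?_⟩
  show |max (X a) (Y a)| ≤ max C C'
  rcases le_total (X a) (Y a) with h | h
  · rw [max_eq_right h]; exact (hC' a).trans (le_max_right _ _)
  · rw [max_eq_left h]; exact (hC a).trans (le_max_left _ _)

theorem bm_sum {κ : Type*} (s : Finset κ) {X : κ → α → ℝ} (h : ∀ k ∈ s, Bm (X k)) :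
    Bm fun a => ∑ k ∈ s, X k a := by
  classical
  induction s using Finset.induction_on with
  | empty => simpa using bm_const (α := α) 0
  | insert k s hk ih =>
    simp only [Finset.sum_insert hk]
    exact bm_add (h k (mem_insert_self _ _)) (ih fun j hj => h j (mem_insert_of_mem hj))

theorem bm_sqrt (h : Bm X) : Bm fun a => √(X a) := by
  obtain ⟨m, C, hC⟩ := h
  refine ⟨m.sqrt, √C, fun a => ?_⟩
  rw [abs_of_nonneg (sqrt_nonneg _)]
  exact sqrt_le_sqrt ((le_abs_self _).trans (hC a))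

theorem bm_ind {B : Set α} (hB : MeasurableSet B) (h : Bm X) : Bm (B.indicator X) := by
  obtain ⟨m, C, hC⟩ := h
  refine ⟨m.indicator hB, max C 0, fun a => ?_⟩
  by_cases ha : a ∈ B
  · rw [Set.indicator_of_mem ha]; exact (hC a).trans (le_max_left _ _)
  · rw [Set.indicator_of_notMem ha, abs_zero]; exact le_max_right _ _

theorem bm_int (μ : Measure α) [IsFiniteMeasure μ] (h : Bm X) : Integrable X μ := by
  obtain ⟨m, C, hC⟩ := h
  exact Integrable.of_bound m.aestronglyMeasurable C (ae_of_all _ hC)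

end bm

theorem amgm (p : ℕ) {t u : ℝ} (ht : 0 ≤ t) (hu : 0 ≤ u) :
    (p + 1) * (t * u ^ p) ≤ p * u ^ (p + 1) + t ^ (p + 1) := by
  have h := pow_add_mul_le_add_pow (a := u) (b := t - u) hu (by linarith) (p + 1)
  rw [add_sub_cancel, Nat.add_sub_cancel] at h
  push_cast at h
  have e : u ^ (p + 1) = u ^ p * u := pow_succ u p
  nlinarith

section nb
variable {α : Type} [MeasurableSpace α] {μ : Measure α} [IsProbabilityMeasure μ] {p : ℕ}
  {X Y : α → ℝ} {c d : ℝ}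

omit [IsProbabilityMeasure μ] in
theorem nb_le (h : Nb μ p X c) (hc : c ≤ d) : Nb μ p X d :=
  ⟨h.1.trans hc, h.2.trans (pow_le_pow_left₀ h.1 hc p)⟩

omit [IsProbabilityMeasure μ] in
theorem nb_of_pos (hc : 0 ≤ c) (h : ∀ e, 0 < e → Nb μ p X (c + e)) : Nb μ p X c := by
  refine ⟨hc, ?_⟩
  have t : Tendsto (fun e : ℝ => (c + e) ^ p) (𝓝[>] 0) (𝓝 (c ^ p)) := by
    have : Continuous fun e : ℝ => (c + e) ^ p := by fun_prop
    simpa using (this.tendsto 0).mono_left nhdsWithin_le_nhds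
  exact ge_of_tendsto t (eventually_nhdsWithin_of_forall fun e he => (h e he).2)

theorem nb_mono (hX : Bm X) (hY : Bm Y) (h : ∀ a, |X a| ≤ |Y a|) (hc : Nb μ p Y c) :
    Nb μ p X c :=
  ⟨hc.1, (integral_mono (bm_int μ (bm_pow (bm_abs hX) p)) (bm_int μ (bm_pow (bm_abs hY) p))
    fun a => pow_le_pow_left₀ (abs_nonneg _) (h a) p).trans hc.2⟩

theorem nb_const (p : ℕ) (hc : |c| ≤ d) : Nb μ p (fun _ => c) d :=
  ⟨(abs_nonneg _).trans hc, by simpa using pow_le_pow_left₀ (abs_nonneg _) hc p⟩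


omit [IsProbabilityMeasure μ] in
theorem nb_cmul (k : ℝ) (h : Nb μ p X c) : Nb μ p (fun a => k * X a) (|k| * c) := by
  refine ⟨mul_nonneg (abs_nonneg _) h.1, ?_⟩
  simp only [abs_mul, mul_pow]
  rw [integral_const_mul]
  exact mul_le_mul_of_nonneg_left h.2 (by positivity)

theorem nb_add (hX : Bm X) (hY : Bm Y) (h : Nb μ p X c) (h' : Nb μ p Y d) :
    Nb μ p (fun a => X a + Y a) (c + d) := by
  have key : ∀ c d : ℝ, 0 < c → 0 < d → Nb μ p X c → Nb μ p Y d →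
      Nb μ p (fun a => X a + Y a) (c + d) := by
    intro c d hc hd h h'
    have hs : 0 < c + d := by positivity
    refine ⟨hs.le, ?_⟩
    have pt : ∀ a, |X a + Y a| ^ p ≤ (c + d) ^ p * (c / (c + d) / c ^ p) * |X a| ^ p +
        (c + d) ^ p * (d / (c + d) / d ^ p) * |Y a| ^ p := by
      intro a
      have m1 : |X a| / c ∈ Set.Ici (0 : ℝ) := Set.mem_Ici.2 (by positivity)
      have m2 : |Y a| / d ∈ Set.Ici (0 : ℝ) := Set.mem_Ici.2 (by positivity)
      have w1 : 0 ≤ c / (c + d) := by positivity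
      have w2 : 0 ≤ d / (c + d) := by positivity
      have w3 : c / (c + d) + d / (c + d) = 1 := by field_simp
      have cv := (convexOn_pow (𝕜 := ℝ) p).2 m1 m2 w1 w2 w3
      simp only [smul_eq_mul] at cv
      have e : c / (c + d) * (|X a| / c) + d / (c + d) * (|Y a| / d) = (|X a| + |Y a|) / (c + d) := by
        field_simp
      rw [e, div_pow, div_le_iff₀ (by positivity), div_pow, div_pow] at cv
      refine (pow_le_pow_left₀ (abs_nonneg _) (abs_add_le _ _) p).trans (cv.trans_eq ?_)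
      ring
    have i1 := bm_int μ (bm_pow (bm_abs hX) p)
    have i2 := bm_int μ (bm_pow (bm_abs hY) p)
    refine (integral_mono (bm_int μ (bm_pow (bm_abs (bm_add hX hY)) p))
      ((i1.const_mul _).add (i2.const_mul _)) pt).trans ?_
    simp only [Pi.add_apply]
    rw [integral_add (i1.const_mul _) (i2.const_mul _), integral_const_mul, integral_const_mul]
    refine (add_le_add (mul_le_mul_of_nonneg_left h.2 (by positivity))
      (mul_le_mul_of_nonneg_left h'.2 (by positivity))).trans_eq ?_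
    field_simp
  refine nb_of_pos (add_nonneg h.1 h'.1) fun e he => ?_
  have := key (c + e / 2) (d + e / 2) (by linarith [h.1]) (by linarith [h'.1])
    (nb_le h (by linarith)) (nb_le h' (by linarith))
  exact nb_le this (by linarith)

theorem nb_sum {κ : Type*} (s : Finset κ) {X : κ → α → ℝ} {c : κ → ℝ} (hX : ∀ k ∈ s, Bm (X k))
    (h : ∀ k ∈ s, Nb μ p (X k) (c k)) : Nb μ p (fun a => ∑ k ∈ s, X k a) (∑ k ∈ s, c k) := by
  classical
  induction s using Finset.induction_on with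
  | empty => simpa using nb_const (μ := μ) (c := 0) (d := 0) p (by simp)
  | insert k s hk ih =>
    simp only [Finset.sum_insert hk]
    exact nb_add (hX k (mem_insert_self _ _)) (bm_sum s fun j hj => hX j (mem_insert_of_mem hj))
      (h k (mem_insert_self _ _))
      (ih (fun j hj => hX j (mem_insert_of_mem hj)) fun j hj => h j (mem_insert_of_mem hj))

theorem nb_succ (hX : Bm X) (h : Nb μ (p + 1) X c) : Nb μ p X c := by
  refine nb_of_pos h.1 fun e he => ?_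
  have h' := nb_le h (show c ≤ c + e by linarith)
  have hc : 0 < c + e := by linarith [h.1]
  generalize c + e = t at h' hc
  refine ⟨hc.le, ?_⟩
  have i1 := bm_int μ (bm_pow (bm_abs hX) (p + 1))
  have i0 := bm_int μ (bm_pow (bm_abs hX) p)
  have := integral_mono ((i0.const_mul t).const_mul ((p : ℝ) + 1))
    ((i1.const_mul p).add (integrable_const (t ^ (p + 1)))) fun a => amgm p hc.le (abs_nonneg (X a))
  simp only [Pi.add_apply] at this
  rw [integral_add (i1.const_mul _) (integrable_const _), integral_const_mul, integral_const_mul,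
    integral_const_mul, integral_const] at this
  simp only [probReal_univ, smul_eq_mul, one_mul] at this
  have h2 := mul_le_mul_of_nonneg_left h'.2 (Nat.cast_nonneg (α := ℝ) p)
  have h3 : ((p : ℝ) + 1) * t * ∫ a, |X a| ^ p ∂μ ≤ ((p : ℝ) + 1) * t * t ^ p := by
    rw [pow_succ] at h2 this
    nlinarith
  exact le_of_mul_le_mul_left h3 (by positivity)

theorem nb_exp (hX : Bm X) {q : ℕ} (hpq : p ≤ q) (h : Nb μ q X c) : Nb μ p X c := by
  induction q, hpq using Nat.le_induction with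
  | base => exact h
  | succ q _ ih => exact ih (nb_succ hX h)

theorem nb_l1 (hp : 1 ≤ p) (hX : Bm X) (h : Nb μ p X c) : ∫ a, |X a| ∂μ ≤ c := by
  simpa using (nb_exp hX hp h).2

theorem nb_sqrt2 (hX : Bm X) (h : Nb μ p X c) : Nb μ (2 * p) (fun a => √(X a)) (√c) := by
  refine ⟨sqrt_nonneg _, ?_⟩
  rw [pow_mul, sq_sqrt h.1]
  refine (integral_mono (bm_int μ (bm_pow (bm_abs (bm_sqrt hX)) _))
    (bm_int μ (bm_pow (bm_abs hX) p)) fun a => ?_).trans h.2
  show |√(X a)| ^ (2 * p) ≤ |X a| ^ p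
  rw [pow_mul, sq_abs]
  refine pow_le_pow_left₀ (sq_nonneg _) ?_ p
  rw [← sq_sqrt (abs_nonneg (X a))]
  exact pow_le_pow_left₀ (sqrt_nonneg _) (sqrt_le_sqrt (le_abs_self _)) 2

theorem nb_sqrt (hX : Bm X) (h : Nb μ p X c) : Nb μ p (fun a => √(X a)) (√c) :=
  nb_exp (bm_sqrt hX) (by omega) (nb_sqrt2 hX h)


theorem nb_bad (hp : 1 ≤ p) {B : Set α} {M e : ℝ} (hB : MeasurableSet B) (hX : Bm X) (hY : Bm Y)
    (hM : 0 ≤ M) (he : 0 ≤ e) (hμ : μ.real B ≤ e ^ p) (h1 : ∀ a, |X a| ≤ M)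
    (h2 : ∀ a, a ∉ B → |X a| ≤ |Y a|) (h : Nb μ p Y c) : Nb μ p X (c + M * e) := by
  have hI : Bm (B.indicator fun _ : α => M) := bm_ind hB (bm_const M)
  have n2 : Nb μ p (B.indicator fun _ : α => M) (M * e) := by
    refine ⟨by positivity, ?_⟩
    have : (fun a => |B.indicator (fun _ : α => M) a| ^ p) = B.indicator fun _ => M ^ p := by
      funext a
      by_cases ha : a ∈ B
      · simp [Set.indicator_of_mem ha, abs_of_nonneg hM]
      · simp [Set.indicator_of_notMem ha, show p ≠ 0 by omega]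
    rw [this, integral_indicator_const _ hB, smul_eq_mul, mul_pow, mul_comm]
    exact mul_le_mul_of_nonneg_left hμ (by positivity)
  have n1 : Nb μ p (fun a => |Y a|) c := ⟨h.1, by simpa only [abs_abs] using h.2⟩
  refine nb_mono hX (bm_add (bm_abs hY) hI) (fun a => ?_) (nb_add (bm_abs hY) hI n1 n2)
  refine le_trans ?_ (le_abs_self _)
  by_cases ha : a ∈ B
  · rw [Set.indicator_of_mem ha]; linarith [h1 a, abs_nonneg (Y a)]
  · rw [Set.indicator_of_notMem ha, add_zero]; exact h2 a ha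

/-- the maximum of `n` variables costs `n ^ (1 / p)` -/
theorem nb_dom {κ : Type*} (s : Finset κ) {Z : κ → α → ℝ} {P : ℝ} (hX : Bm X)
    (hZ : ∀ k ∈ s, Bm (Z k)) (hP : 0 ≤ P) (hc : 0 ≤ c) (hs : (s.card : ℝ) ≤ P ^ p)
    (hd : ∀ a, ∃ k ∈ s, |X a| ≤ |Z k a|) (h : ∀ k ∈ s, Nb μ p (Z k) c) : Nb μ p X (P * c) := by
  refine ⟨by positivity, ?_⟩
  have i : ∀ k ∈ s, Integrable (fun a => |Z k a| ^ p) μ := fun k hk =>
    bm_int μ (bm_pow (bm_abs (hZ k hk)) p)
  refine (integral_mono (bm_int μ (bm_pow (bm_abs hX) p)) (integrable_finset_sum s i)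
    fun a => ?_).trans ?_
  · obtain ⟨k, hk, h1⟩ := hd a
    exact (pow_le_pow_left₀ (abs_nonneg _) h1 p).trans
      (Finset.single_le_sum (f := fun k => |Z k a| ^ p) (fun _ _ => by positivity) hk)
  · rw [integral_finset_sum s i, mul_pow]
    refine (Finset.sum_le_sum fun k hk => (h k hk).2).trans ?_
    rw [Finset.sum_const, nsmul_eq_mul]
    exact mul_le_mul_of_nonneg_right hs (by positivity)

end nb

theorem nbS : NbS := fun _ _ _ _ _ hp =>
  ⟨fun _ s _ _ hX h => nb_sum s hX h, fun _ _ _ hX hY h hc => nb_mono hX hY h hc,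
    fun _ _ hX h => nb_exp hX (by omega) h, fun _ _ hX h => nb_sqrt hX h,
    fun _ _ hX h => nb_l1 hp hX h,
    fun _ _ _ _ _ _ hB hX hY hM he hμ h1 h2 h => nb_bad hp hB hX hY hM he hμ h1 h2 h⟩

theorem gar_pt (p n : ℕ) (hp : 1 ≤ p) (S : ℕ → ℝ) (h0 : S 0 = 0) (hm : ∀ i, S i ≤ S (i + 1)) :
    S n ^ (p + 1) ≤ (p + 1) * ∑ i ∈ range n, (S (i + 1) ^ p - S i ^ p) * (S n - S i) := by
  have nn : ∀ i, 0 ≤ S i := fun i => h0 ▸ monotone_nat_of_le_succ hm (Nat.zero_le i)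
  have t := Finset.sum_range_sub (fun i => (p + 1) * S n * S i ^ p - p * S i ^ (p + 1)) n
  have e : S n ^ (p + 1) = ((p + 1) * S n * S n ^ p - p * S n ^ (p + 1)) -
      ((p + 1) * S n * S 0 ^ p - p * S 0 ^ (p + 1)) := by
    rw [h0, zero_pow (by omega), zero_pow (by omega)]
    ring
  rw [e, ← t, Finset.mul_sum]
  refine Finset.sum_le_sum fun i _ => ?_
  have := amgm p (nn i) (nn (i + 1))
  have e2 : S i ^ (p + 1) = S i ^ p * S i := pow_succ _ _
  nlinarith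

theorem garS : GarS := by
  intro α _ μ _ p n S W c hS hW h0 hm hG hp hc
  have nn : ∀ i a, 0 ≤ S i a := fun i a =>
    h0 a ▸ monotone_nat_of_le_succ (f := fun i => S i a) (fun i => hm i a) (Nat.zero_le i)
  have hc0 := hc.1
  refine ⟨by positivity, ?_⟩
  have bG : ∀ i, Bm fun a => S (i + 1) a ^ p - S i a ^ p := fun i =>
    bm_sub (bm_pow (hS _) p) (bm_pow (hS _) p)
  have i1 : ∀ i ∈ range n, Integrable (fun a => (S (i + 1) a ^ p - S i a ^ p) * (S n a - S i a)) μ :=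
    fun i _ => bm_int μ (bm_mul (bG i) (bm_sub (hS n) (hS i)))
  have i2 : ∀ i ∈ range n, Integrable (fun a => (S (i + 1) a ^ p - S i a ^ p) * W a) μ :=
    fun i _ => bm_int μ (bm_mul (bG i) hW)
  have iS := bm_int μ (bm_pow (bm_abs (hS n)) (p + 1))
  have iW := bm_int μ (bm_pow (bm_abs hW) (p + 1))
  have a1 : ∫ a, |S n a| ^ (p + 1) ∂μ ≤
      (p + 1) * ∑ i ∈ range n, ∫ a, (S (i + 1) a ^ p - S i a ^ p) * (S n a - S i a) ∂μ := by
    rw [← integral_finset_sum _ i1, ← integral_const_mul]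
    refine integral_mono iS ((integrable_finset_sum _ i1).const_mul _) fun a => ?_
    show |S n a| ^ (p + 1) ≤ _
    rw [abs_of_nonneg (nn n a)]
    exact gar_pt p n hp (fun i => S i a) (h0 a) fun i => hm i a
  have a2 : (p + 1) * ∑ i ∈ range n, ∫ a, (S (i + 1) a ^ p - S i a ^ p) * W a ∂μ ≤
      1 / 2 * ∫ a, |S n a| ^ (p + 1) ∂μ +
        1 / 2 * (2 * ((p : ℝ) + 1)) ^ (p + 1) * ∫ a, |W a| ^ (p + 1) ∂μ := by
    rw [← integral_finset_sum _ i2, ← integral_const_mul, ← integral_const_mul,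
      ← integral_const_mul, ← integral_add (iS.const_mul _) (iW.const_mul _)]
    refine integral_mono ((integrable_finset_sum _ i2).const_mul _)
      ((iS.const_mul _).add (iW.const_mul _)) fun a => ?_
    show (p + 1 : ℝ) * ∑ i ∈ range n, (S (i + 1) a ^ p - S i a ^ p) * W a ≤
      1 / 2 * |S n a| ^ (p + 1) + 1 / 2 * (2 * ((p : ℝ) + 1)) ^ (p + 1) * |W a| ^ (p + 1)
    rw [← Finset.sum_mul, Finset.sum_range_sub (fun i => S i a ^ p) n, h0 a, zero_pow (by omega),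
      sub_zero, abs_of_nonneg (nn n a)]
    have s0 := nn n a
    have w0 := abs_nonneg (W a)
    have w1 := le_abs_self (W a)
    generalize S n a = s at s0 ⊢
    have sp : 0 ≤ s ^ p := by positivity
    have b1 : (p + 1 : ℝ) * (s ^ p * W a) ≤ (p + 1) * (s ^ p * |W a|) := by gcongr
    refine b1.trans ?_
    generalize |W a| = w at w0 ⊢
    rcases le_total (2 * ((p : ℝ) + 1) * w) s with h | h
    · have : 0 ≤ 1 / 2 * (2 * ((p : ℝ) + 1)) ^ (p + 1) * w ^ (p + 1) := by positivity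
      have h2 := mul_le_mul_of_nonneg_left h sp
      rw [pow_succ s]
      nlinarith
    · have : 0 ≤ 1 / 2 * s ^ (p + 1) := by positivity
      have h2 := pow_le_pow_left₀ s0 h p
      have h3 : (p + 1 : ℝ) * (s ^ p * w) ≤ (p + 1) * ((2 * ((p : ℝ) + 1) * w) ^ p * w) := by gcongr
      have h4 : (p + 1 : ℝ) * ((2 * ((p : ℝ) + 1) * w) ^ p * w) =
          1 / 2 * (2 * ((p : ℝ) + 1)) ^ (p + 1) * w ^ (p + 1) := by
        rw [mul_pow, pow_succ (2 * ((p : ℝ) + 1)), pow_succ w]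
        ring
      linarith
  have a3 : (p + 1 : ℝ) * ∑ i ∈ range n, ∫ a, (S (i + 1) a ^ p - S i a ^ p) * (S n a - S i a) ∂μ ≤
      (p + 1) * ∑ i ∈ range n, ∫ a, (S (i + 1) a ^ p - S i a ^ p) * W a ∂μ :=
    mul_le_mul_of_nonneg_left (Finset.sum_le_sum fun i hi => hG i (mem_range.1 hi)) (by positivity)
  have a4 := mul_le_mul_of_nonneg_left hc.2
    (show 0 ≤ 1 / 2 * (2 * ((p : ℝ) + 1)) ^ (p + 1) by positivity)
  rw [mul_pow]
  linarith

section sys
variable {α ι : Type} [MeasurableSpace α] [Fintype ι] {S : Sys α ι}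

theorem sq2_nonneg (z : ι → ℝ) : 0 ≤ sq2 z := Finset.sum_nonneg fun _ _ => sq_nonneg _

theorem sq2_sub (z z' : ι → ℝ) : sq2 (z - z') = sq2 z - sq2 z' - 2 * dt z' (z - z') := by
  simp only [sq2, dt, Finset.mul_sum, ← Finset.sum_sub_distrib, Pi.sub_apply]
  exact Finset.sum_congr rfl fun i _ => by ring

theorem sq2_tri (x y z : ι → ℝ) : sq2 (x - y) ≤ 2 * sq2 (x - z) + 2 * sq2 (y - z) := by
  simp only [sq2, Finset.mul_sum, ← Finset.sum_add_distrib, Pi.sub_apply]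
  exact Finset.sum_le_sum fun i _ => by nlinarith [sq_nonneg (x i + y i - 2 * z i)]

theorem sq2_three (x y z : ι → ℝ) :
    sq2 (x - z) = sq2 (y - z) + sq2 (x - y) + 2 * dt (y - z) (x - y) := by
  simp only [sq2, dt, Finset.mul_sum, ← Finset.sum_add_distrib, Pi.sub_apply]
  exact Finset.sum_congr rfl fun i _ => by ring

theorem bm_m (H : S.Ok) (j : ℕ) (i : ι) : Bm fun a => S.m j a i := by
  refine ⟨H.mm j i, 1, fun a => ?_⟩
  have h1 : S.m j a i ^ 2 ≤ 1 :=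
    (Finset.single_le_sum (f := fun i => S.m j a i ^ 2) (fun _ _ => sq_nonneg _)
      (mem_univ i)).trans (H.bd j a)
  exact abs_le_one_iff_mul_self_le_one.2 (by nlinarith)

theorem bm_sq2 {z : α → ι → ℝ} (h : ∀ i, Bm fun a => z a i) : Bm fun a => sq2 (z a) :=
  bm_sum _ fun i _ => bm_pow (h i) 2

theorem bm_dt {z z' : α → ι → ℝ} (h : ∀ i, Bm fun a => z a i) (h' : ∀ i, Bm fun a => z' a i) :
    Bm fun a => dt (z a) (z' a) := bm_sum _ fun i _ => bm_mul (h i) (h' i)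

theorem bm_inc (H : S.Ok) (j k : ℕ) (i : ι) : Bm fun a => (S.m j a - S.m k a) i :=
  bm_sub (bm_m H j i) (bm_m H k i)

theorem bm_rho (H : S.Ok) (j : ℕ) : Bm (S.rho j) := bm_sq2 (bm_m H j)

theorem aa_mem (H : S.Ok) (j : ℕ) (a : α) : 0 ≤ S.aa j a ∧ S.aa j a ≤ 1 :=
  ⟨H.psd j a _, (H.bdB j a _).trans (H.bd j a)⟩

theorem bm_aa (H : S.Ok) (j : ℕ) : Bm (S.aa j) := by
  refine ⟨?_, 1, fun a => abs_le.2 ⟨by linarith [(aa_mem H j a).1], (aa_mem H j a).2⟩⟩
  exact Finset.measurable_sum _ fun i _ => Finset.measurable_sum _ fun k _ =>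
    ((H.mm j i).mul (H.mm j k)).mul (H.mA j i k)

theorem bm_av (j N : ℕ) {f : ℕ → α → ℝ} (h : ∀ y, Bm (f y)) : Bm fun a => av j N fun y => f y a :=
  bm_div (bm_sum _ fun y _ => h y) _

theorem int_av (μ : Measure α) [IsFiniteMeasure μ] (j N : ℕ) {f : ℕ → α → ℝ} (h : ∀ y, Bm (f y)) :
    ∫ a, av j N (fun y => f y a) ∂μ = av j N fun y => ∫ a, f y a ∂μ := by
  simp only [av]
  rw [integral_div, integral_finset_sum _ fun y _ => bm_int μ (h y)]

theorem av_mono {j N : ℕ} {f g : ℕ → ℝ} (h : ∀ y ∈ Ico j (j + N), f y ≤ g y) :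
    av j N f ≤ av j N g :=
  div_le_div_of_nonneg_right (Finset.sum_le_sum h) (Nat.cast_nonneg N)

theorem av_lin {j N : ℕ} (hN : 1 ≤ N) (k c : ℝ) (f : ℕ → ℝ) :
    av j N (fun y => k * f y + c) = k * av j N f + c := by
  have : (N : ℝ) ≠ 0 := by positivity
  simp only [av, Finset.sum_add_distrib, ← Finset.mul_sum, Finset.sum_const, Nat.card_Ico,
    Nat.add_sub_cancel_left, nsmul_eq_mul]
  field_simp

/-- a weight known at `t` times a vector known at `t` is orthogonal to later increments -/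
theorem orth (H : S.Ok) {t j : ℕ} (htj : t ≤ j) {G : (ℕ → ι → ℝ) → ℝ} (hG : Continuous G)
    {u u' : ℕ} (hu : u ≤ t) (hu' : u' ≤ t) (k : ℝ) :
    ∫ a, G (fun k => S.m (min k t) a) * dt (S.m u a - k • S.m u' a) (S.m j a - S.m t a) ∂S.μ = 0 := by
  have := H.mart t j htj (fun p i => G p * (p u i - k * p u' i)) (by fun_prop)
  rw [← this]
  refine integral_congr_ae (ae_of_all _ fun a => ?_)
  simp only [dt, Finset.mul_sum, min_eq_left hu, min_eq_left hu', Pi.sub_apply, Pi.smul_apply,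
    smul_eq_mul]
  exact Finset.sum_congr rfl fun i _ => by ring

theorem int_sq_inc (H : S.Ok) {i j : ℕ} (hij : i ≤ j) :
    ∫ a, sq2 (S.m j a - S.m i a) ∂S.μ = S.r j - S.r i := by
  haveI := H.prob
  have o := orth H hij (G := fun _ => 1) continuous_const le_rfl le_rfl 0
  simp only [one_mul, zero_smul, sub_zero] at o
  simp only [sq2_sub]
  rw [integral_sub (bm_int _ (bm_sub (bm_sq2 (bm_m H j)) (bm_sq2 (bm_m H i))))
    (bm_int _ (bm_cmul 2 (bm_dt (bm_m H i) (bm_inc H j i)))), integral_const_mul, o,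
    integral_sub (bm_int _ (bm_sq2 (bm_m H j))) (bm_int _ (bm_sq2 (bm_m H i)))]
  simp [Sys.r, Sys.rho]

/-- Jensen upwards -/
theorem up (H : S.Ok) {p j N : ℕ} {c X : ℝ} (hp : 2 ≤ p) (hN : 1 ≤ N)
    (h : Nb S.μ p (fun a => max (av j N (fun y => S.rho y a) - c) 0) X) :
    Nb S.μ p (fun a => max (S.rho j a - c) 0) X := by
  haveI := H.prob
  refine ⟨h.1, le_trans ?_ h.2⟩
  have bs : Bm fun a => max (S.rho j a - c) 0 := bm_max (bm_sub (bm_rho H j) (bm_const c)) (bm_const 0)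
  have bu : Bm fun a => max (av j N (fun y => S.rho y a) - c) 0 :=
    bm_max (bm_sub (bm_av j N (bm_rho H)) (bm_const c)) (bm_const 0)
  have bw : Bm fun a => (p : ℝ) * max (S.rho j a - c) 0 ^ (p - 1) := bm_cmul _ (bm_pow bs _)
  have bf : ∀ y, Bm fun a => (p : ℝ) * max (S.rho j a - c) 0 ^ (p - 1) * (S.rho y a - S.rho j a) :=
    fun y => bm_mul bw (bm_sub (bm_rho H y) (bm_rho H j))
  have pos : ∀ y ∈ Ico j (j + N),
      0 ≤ ∫ a, (p : ℝ) * max (S.rho j a - c) 0 ^ (p - 1) * (S.rho y a - S.rho j a) ∂S.μ := by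
    intro y hy
    have o := orth H (mem_Ico.1 hy).1
      (G := fun q => (p : ℝ) * max (sq2 (q j) - c) 0 ^ (p - 1)) (by unfold sq2; fun_prop)
      le_rfl le_rfl 0
    simp only [zero_smul, sub_zero, min_self] at o
    have i1 := bm_int S.μ (bm_cmul 2 (bm_mul bw (bm_dt (bm_m H j) (bm_inc H y j))))
    have := integral_mono i1 (bm_int S.μ (bf y)) fun a => by
      have e := sq2_sub (S.m y a) (S.m j a)
      have e0 := sq2_nonneg (S.m y a - S.m j a)
      have w0 : 0 ≤ (p : ℝ) * max (S.rho j a - c) 0 ^ (p - 1) := by positivity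
      have : 2 * dt (S.m j a) (S.m y a - S.m j a) ≤ S.rho y a - S.rho j a := by
        simp only [Sys.rho]; linarith
      have := mul_le_mul_of_nonneg_left this w0
      show 2 * (_ * _) ≤ _ * _
      linarith
    rw [integral_const_mul] at this
    refine le_trans (le_of_eq ?_) this
    simp only [Sys.rho]
    rw [o, mul_zero]
  have p2 : 0 ≤ ∫ a, av j N (fun y =>
      (p : ℝ) * max (S.rho j a - c) 0 ^ (p - 1) * (S.rho y a - S.rho j a)) ∂S.μ := by
    rw [int_av _ j N bf]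
    exact div_nonneg (Finset.sum_nonneg pos) (Nat.cast_nonneg N)
  have i0 := bm_int S.μ (bm_pow (bm_abs bs) p)
  have i2 := bm_int S.μ (bm_av j N bf)
  have := integral_mono (i0.add i2) (bm_int S.μ (bm_pow (bm_abs bu) p)) fun a => by
    show |max (S.rho j a - c) 0| ^ p + av j N (fun y =>
      (p : ℝ) * max (S.rho j a - c) 0 ^ (p - 1) * (S.rho y a - S.rho j a)) ≤
      |max (av j N (fun y => S.rho y a) - c) 0| ^ p
    have e : av j N (fun y => (p : ℝ) * max (S.rho j a - c) 0 ^ (p - 1) * (S.rho y a - S.rho j a)) =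
        (p : ℝ) * max (S.rho j a - c) 0 ^ (p - 1) * (av j N (fun y => S.rho y a) - S.rho j a) := by
      generalize (p : ℝ) * max (S.rho j a - c) 0 ^ (p - 1) = k
      have l := av_lin (j := j) hN k (-(k * S.rho j a)) fun y => S.rho y a
      have e2 : (fun y => k * (S.rho y a - S.rho j a)) =
          fun y => k * S.rho y a + -(k * S.rho j a) := by
        funext y
        ring
      rw [e2, l]
      ring
    rw [e, abs_of_nonneg (le_max_right _ _), abs_of_nonneg (le_max_right _ _)]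
    generalize av j N (fun y => S.rho y a) = R
    generalize S.rho j a = r
    have u0 : 0 ≤ max (R - c) 0 := le_max_right _ _
    have u1 : R - c ≤ max (R - c) 0 := le_max_left _ _
    rcases le_total (r - c) 0 with h | h
    · rw [max_eq_right h, zero_pow (by omega), zero_pow (by omega)]
      simpa using pow_nonneg u0 p
    · rw [max_eq_left h]
      have t := pow_add_mul_le_add_pow (a := r - c) (b := max (R - c) 0 - (r - c)) h (by linarith) p
      rw [add_sub_cancel] at t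
      have w0 : 0 ≤ (p : ℝ) * (r - c) ^ (p - 1) := by positivity
      have := mul_le_mul_of_nonneg_left (show R - r ≤ max (R - c) 0 - (r - c) by linarith) w0
      linarith
  simp only [Pi.add_apply] at this
  rw [integral_add i0 i2] at this
  linarith

/-- weighted orthogonality along a mesh -/
theorem qv_w (H : S.Ok) (b h i : ℕ) {G : (ℕ → ι → ℝ) → ℝ} (hG : Continuous G) {g : α → ℝ}
    (hg : Bm g) (hGg : ∀ t, b + i * h ≤ t → ∀ a, G (fun k => S.m (min k t) a) = g a) :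
    ∀ n, i ≤ n → ∫ a, g a * ∑ k ∈ Ico i n, sq2 (S.m (b + (k + 1) * h) a - S.m (b + k * h) a) ∂S.μ =
      ∫ a, g a * sq2 (S.m (b + n * h) a - S.m (b + i * h) a) ∂S.μ := by
  haveI := H.prob
  intro n hn
  induction n, hn using Nat.le_induction with
  | base => simp [sq2]
  | succ n hn ih =>
    have l1 : b + i * h ≤ b + n * h := by gcongr
    have l2 : b + n * h ≤ b + (n + 1) * h := by gcongr; omega
    have o := orth H l2 hG le_rfl l1 1
    simp only [one_smul, hGg _ l1] at o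
    have j1 := bm_int S.μ (bm_mul hg (bm_sum (Ico i n) fun k _ =>
      bm_sq2 (bm_inc H (b + (k + 1) * h) (b + k * h))))
    have j2 := bm_int S.μ (bm_mul hg (bm_sq2 (bm_inc H (b + (n + 1) * h) (b + n * h))))
    have j3 := bm_int S.μ (bm_mul hg (bm_sq2 (bm_inc H (b + n * h) (b + i * h))))
    have j4 := bm_int S.μ (bm_cmul 2 (bm_mul hg (bm_dt (bm_inc H (b + n * h) (b + i * h))
      (bm_inc H (b + (n + 1) * h) (b + n * h)))))
    simp only [Finset.sum_Ico_succ_top hn, mul_add]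
    rw [integral_add j1 j2, ih]
    have e : ∀ a, g a * sq2 (S.m (b + (n + 1) * h) a - S.m (b + i * h) a) =
        (g a * sq2 (S.m (b + n * h) a - S.m (b + i * h) a) +
          g a * sq2 (S.m (b + (n + 1) * h) a - S.m (b + n * h) a)) +
        2 * (g a * dt (S.m (b + n * h) a - S.m (b + i * h) a)
          (S.m (b + (n + 1) * h) a - S.m (b + n * h) a)) := fun a => by
      rw [sq2_three _ (S.m (b + n * h) a)]; ring
    simp only [e]
    have j5 := bm_int S.μ (bm_add (bm_mul hg (bm_sq2 (bm_inc H (b + n * h) (b + i * h))))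
      (bm_mul hg (bm_sq2 (bm_inc H (b + (n + 1) * h) (b + n * h)))))
    rw [integral_add j5 j4, integral_add j3 j2, integral_const_mul, o, mul_zero, add_zero]

/-- quadratic variation along a mesh -/
theorem qv (H : S.Ok) {p b h n : ℕ} {X P : ℝ} (hp : 2 ≤ p) (hP : 1 ≤ P) (hn : (n + 1 : ℝ) ≤ P ^ p)
    (hX : ∀ i ≤ n, Nb S.μ p (fun a => sq2 (S.m (b + i * h) a - S.m b a)) X) :
    Nb S.μ p (fun a => ∑ i ∈ range n, sq2 (S.m (b + (i + 1) * h) a - S.m (b + i * h) a))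
      (16 * p * P * X) := by
  haveI := H.prob
  obtain ⟨q, rfl⟩ : ∃ q, p = q + 1 := ⟨p - 1, by omega⟩
  set Z : ℕ → α → ℝ := fun i a => sq2 (S.m (b + i * h) a - S.m b a) with hZ
  have bZ : ∀ i, Bm (Z i) := fun i => bm_sq2 (bm_inc H _ _)
  have ne : (range (n + 1)).Nonempty := ⟨0, by simp⟩
  set Mx : α → ℝ := fun a => (range (n + 1)).sup' ne fun i => Z i a with hMx
  have leM : ∀ i ≤ n, ∀ a, Z i a ≤ Mx a := fun i hi a =>
    Finset.le_sup' (fun i => Z i a) (mem_range.2 (by omega))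
  have exM : ∀ a, ∃ k ∈ range (n + 1), |Mx a| ≤ |Z k a| := fun a => by
    obtain ⟨k, hk, e⟩ := Finset.exists_mem_eq_sup' ne fun i => Z i a
    exact ⟨k, hk, by rw [show Mx a = Z k a from e]⟩
  have bM : Bm Mx := by
    refine ⟨?_, 4, fun a => ?_⟩
    · have := Finset.measurable_sup' ne fun i _ => (bZ i).1
      convert this using 1
      funext a
      simp only [hMx, Finset.sup'_apply]
    · obtain ⟨k, _, e⟩ := exM a
      refine e.trans ?_
      rw [abs_of_nonneg (sq2_nonneg _)]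
      have t := sq2_tri (S.m (b + k * h) a) (S.m b a) 0
      have t1 := H.bd (b + k * h) a
      have t2 := H.bd b a
      simp only [sub_zero, Sys.rho] at t t1 t2
      linarith
  have X0 : 0 ≤ X := (hX 0 (Nat.zero_le n)).1
  have nM : Nb S.μ (q + 1) Mx (P * X) :=
    nb_dom (range (n + 1)) bM (fun k _ => bZ k) (by linarith) X0 (by simpa using hn) exM
      fun k hk => hX k (by have := mem_range.1 hk; omega)
  set T : ℕ → α → ℝ := fun i a =>
    ∑ k ∈ range i, sq2 (S.m (b + (k + 1) * h) a - S.m (b + k * h) a) with hT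
  have bT : ∀ i, Bm (T i) := fun i => bm_sum _ fun k _ => bm_sq2 (bm_inc H _ _)
  have mT : ∀ i a, T i a ≤ T (i + 1) a := fun i a => by
    simp only [hT, Finset.sum_range_succ]
    linarith [sq2_nonneg (S.m (b + (i + 1) * h) a - S.m (b + i * h) a)]
  have T0 : ∀ i a, 0 ≤ T i a := fun i a => Finset.sum_nonneg fun _ _ => sq2_nonneg _
  have g := garS α S.μ q n T (fun a => 8 * Mx a) (|8| * (P * X)) bT (bm_cmul 8 bM)
    (fun a => by simp [hT]) mT (fun i hi => ?_) (by omega) (nb_cmul 8 nM)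
  · refine nb_le g (le_of_eq ?_)
    rw [abs_of_pos (by norm_num : (0 : ℝ) < 8)]
    push_cast
    ring
  have bg : Bm fun a => T (i + 1) a ^ q - T i a ^ q := bm_sub (bm_pow (bT _) q) (bm_pow (bT _) q)
  have g0 : ∀ a, 0 ≤ T (i + 1) a ^ q - T i a ^ q := fun a =>
    sub_nonneg.2 (pow_le_pow_left₀ (T0 i a) (mT i a) q)
  have w := qv_w H b h (i + 1) (G := fun u =>
    (∑ k ∈ range (i + 1), sq2 (u (b + (k + 1) * h) - u (b + k * h))) ^ q -
      (∑ k ∈ range i, sq2 (u (b + (k + 1) * h) - u (b + k * h))) ^ q)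
    (by unfold sq2; fun_prop) bg (fun t ht a => ?_) n hi
  · have j1 := bm_int S.μ (bm_mul bg (bm_sq2 (bm_inc H (b + (i + 1) * h) (b + i * h))))
    have j2 := bm_int S.μ (bm_mul bg (bm_sum (Ico (i + 1) n) fun k _ =>
      bm_sq2 (bm_inc H (b + (k + 1) * h) (b + k * h))))
    have j3 := bm_int S.μ (bm_mul bg (bm_sq2 (bm_inc H (b + n * h) (b + (i + 1) * h))))
    have e : ∀ a, (T (i + 1) a ^ q - T i a ^ q) * (T n a - T i a) =
        (T (i + 1) a ^ q - T i a ^ q) * sq2 (S.m (b + (i + 1) * h) a - S.m (b + i * h) a) +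
        (T (i + 1) a ^ q - T i a ^ q) *
          ∑ k ∈ Ico (i + 1) n, sq2 (S.m (b + (k + 1) * h) a - S.m (b + k * h) a) := fun a => by
      have e1 := Finset.sum_Ico_eq_sub
        (fun k => sq2 (S.m (b + (k + 1) * h) a - S.m (b + k * h) a)) hi.le
      rw [Finset.sum_eq_sum_Ico_succ_bot hi] at e1
      rw [← mul_add, e1]
    simp only [e]
    rw [integral_add j1 j2, w, ← integral_add j1 j3]
    refine integral_mono (j1.add j3) (bm_int _ (bm_mul bg (bm_cmul 8 bM))) fun a => ?_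
    show _ * _ + _ * _ ≤ _ * _
    rw [← mul_add]
    refine mul_le_mul_of_nonneg_left ?_ (g0 a)
    have t1 := sq2_tri (S.m (b + (i + 1) * h) a) (S.m (b + i * h) a) (S.m b a)
    have t2 := sq2_tri (S.m (b + n * h) a) (S.m (b + (i + 1) * h) a) (S.m b a)
    have u1 := leM i hi.le a
    have u2 := leM (i + 1) hi a
    have u3 := leM n le_rfl a
    simp only [hZ] at u1 u2 u3
    linarith
  · have e : ∀ j ≤ i + 1, ∑ k ∈ range j,
        sq2 (S.m (min (b + (k + 1) * h) t) a - S.m (min (b + k * h) t) a) = T j a := fun j hj =>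
      Finset.sum_congr rfl fun k hk => by
        have hk' := mem_range.1 hk
        have l1 : (k + 1) * h ≤ (i + 1) * h := by gcongr; omega
        have l2 : k * h ≤ (i + 1) * h := by gcongr; omega
        rw [min_eq_left (by omega), min_eq_left (by omega)]
    show (∑ k ∈ range (i + 1), _) ^ q - (∑ k ∈ range i, _) ^ q = _
    rw [e (i + 1) le_rfl, e i (by omega)]

end sys

theorem qvS : QvS := fun _ _ _ _ _ H =>
  ⟨fun _ _ _ _ _ _ hp hP hn hX => qv H hp hP hn hX, fun _ _ _ _ _ hp hN h => up H hp hN h,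
    fun _ _ hij => int_sq_inc H hij⟩

theorem jointS : JointS := by
  intro α ι _ _ S H p q j N c M G lam hN hq hp hG hl hGl hM hA
  haveI := H.prob
  have M0 : 0 ≤ M := (hM j (mem_Ico.2 ⟨le_rfl, by omega⟩)).1
  have be : ∀ y, Bm fun a => |S.rho y a - c y| := fun y =>
    bm_abs (bm_sub (bm_rho H y) (bm_const _))
  have a1 : av j N (fun y => ∫ a, S.aa y a ∂S.μ) ≤ G := by
    rw [← int_av _ j N (bm_aa H)]
    refine le_trans (integral_mono (bm_int _ (bm_av j N (bm_aa H)))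
      (bm_int _ (bm_abs (bm_av j N (bm_aa H)))) fun a => le_abs_self _) ?_
    exact nb_l1 hp (bm_av j N (bm_aa H)) hA
  have key : ∀ M', M < M' → av j N (fun y => ∫ a, |S.rho y a - c y| ^ q * S.aa y a ∂S.μ) ≤
      2 * (lam * M') ^ q * G := by
    intro M' hM'
    have M1 : 0 < M' := M0.trans_lt hM'
    have T0 : 0 < lam * M' := by positivity
    have st : ∀ y ∈ Ico j (j + N), ∫ a, |S.rho y a - c y| ^ q * S.aa y a ∂S.μ ≤
        (lam * M') ^ q * ∫ a, S.aa y a ∂S.μ + (lam * M') ^ q * G := by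
      intro y hy
      have i1 := (bm_int S.μ (bm_aa H y)).const_mul ((lam * M') ^ q)
      have i2 := (bm_int S.μ (bm_pow (be y) p)).const_mul ((lam * M') ^ q / (lam * M') ^ p)
      have := integral_mono (bm_int S.μ (bm_mul (bm_pow (be y) q) (bm_aa H y))) (i1.add i2)
        fun a => by
          show |S.rho y a - c y| ^ q * S.aa y a ≤ (lam * M') ^ q * S.aa y a +
            (lam * M') ^ q / (lam * M') ^ p * |S.rho y a - c y| ^ p
          obtain ⟨a0, a1⟩ := aa_mem H y a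
          have e0 := abs_nonneg (S.rho y a - c y)
          generalize |S.rho y a - c y| = e at e0 ⊢
          generalize lam * M' = T at T0 ⊢
          rcases le_total e T with h | h
          · have h1 := mul_le_mul_of_nonneg_right (pow_le_pow_left₀ e0 h q) a0
            have : 0 ≤ T ^ q / T ^ p * e ^ p := by positivity
            linarith
          · have h1 : e ^ q * S.aa y a ≤ e ^ q := mul_le_of_le_one_right (by positivity) a1
            have h2 : (e / T) ^ q ≤ (e / T) ^ p :=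
              pow_le_pow_right₀ ((one_le_div T0).2 h) hq
            rw [div_pow, div_pow, div_le_iff₀ (by positivity)] at h2
            have h3 : e ^ p / T ^ p * T ^ q = T ^ q / T ^ p * e ^ p := by ring
            have : 0 ≤ T ^ q * S.aa y a := by positivity
            linarith
      simp only [Pi.add_apply] at this
      rw [integral_add i1 i2, integral_const_mul, integral_const_mul] at this
      refine this.trans (add_le_add le_rfl ?_)
      have n1 := (nb_le (hM y hy) hM'.le).2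
      refine (mul_le_mul_of_nonneg_left n1 (by positivity)).trans ?_
      have l0 : 0 < lam := by linarith
      have e : (lam * M') ^ q / (lam * M') ^ p * M' ^ p = (lam * M') ^ q * (1 / lam ^ p) := by
        rw [mul_pow lam M' p]
        field_simp
      rw [e]
      refine mul_le_mul_of_nonneg_left ?_ (by positivity)
      rw [div_le_iff₀ (by positivity)]
      exact hGl
    refine (av_mono st).trans ?_
    rw [av_lin hN]
    have := mul_le_mul_of_nonneg_left a1 (show 0 ≤ (lam * M') ^ q by positivity)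
    linarith
  have t : Tendsto (fun M' : ℝ => 2 * (lam * M') ^ q * G) (𝓝[>] M) (𝓝 (2 * (lam * M) ^ q * G)) := by
    have : Continuous fun M' : ℝ => 2 * (lam * M') ^ q * G := by fun_prop
    exact (this.tendsto M).mono_left nhdsWithin_le_nhds
  exact ge_of_tendsto t (eventually_nhdsWithin_of_forall fun e he => key e he)

end Crest.Agent.T156.Q57.N89

end
end

-- ▼ part T156/QBlp_56
section

/-!
# Row 156, block Q: Brascamp–Lieb for powers (`BlpS`) (helper56)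
-/

set_option autoImplicit false

noncomputable section

namespace Crest.Agent.T156.Q57

open MeasureTheory Real Finset

namespace Blp56

variable {α : Type} [MeasurableSpace α] {X Y : α → ℝ}

theorem bm_const (c : ℝ) : Bm fun _ : α => c := ⟨measurable_const, |c|, fun _ => le_rfl⟩

theorem bm_add (h : Bm X) (h' : Bm Y) : Bm fun a => X a + Y a := by
  obtain ⟨m, C, b⟩ := h
  obtain ⟨m', C', b'⟩ := h'
  exact ⟨m.add m', C + C', fun a => (abs_add_le _ _).trans (add_le_add (b a) (b' a))⟩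

theorem bm_mul (h : Bm X) (h' : Bm Y) : Bm fun a => X a * Y a := by
  obtain ⟨m, C, b⟩ := h
  obtain ⟨m', C', b'⟩ := h'
  exact ⟨m.mul m', C * C', fun a => by
    rw [abs_mul]; exact mul_le_mul (b a) (b' a) (abs_nonneg _) ((abs_nonneg _).trans (b a))⟩

theorem bm_sub (h : Bm X) (h' : Bm Y) : Bm fun a => X a - Y a := by
  simpa [sub_eq_add_neg] using bm_add h (bm_mul (bm_const (-1)) h')

theorem bm_pow (h : Bm X) : ∀ k : ℕ, Bm fun a => X a ^ k
  | 0 => by simpa using bm_const 1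
  | k + 1 => by simpa [pow_succ] using bm_mul (bm_pow h k) h

theorem bm_abs (h : Bm X) : Bm fun a => |X a| := by
  obtain ⟨m, C, b⟩ := h
  exact ⟨continuous_abs.measurable.comp m, C, fun a => by simpa using b a⟩

theorem bm_sum {κ : Type} (s : Finset κ) {X : κ → α → ℝ} (h : ∀ k ∈ s, Bm (X k)) :
    Bm fun a => ∑ k ∈ s, X k a := by
  classical
  induction s using Finset.induction_on with
  | empty => simpa using bm_const 0
  | insert k s hk ih =>
    simpa [Finset.sum_insert hk] using bm_add (h k (by simp)) (ih fun j hj => h j (by simp [hj]))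

theorem bm_int (h : Bm X) (μ : Measure α) [IsProbabilityMeasure μ] : Integrable X μ := by
  obtain ⟨m, C, b⟩ := h
  exact Integrable.of_bound m.aestronglyMeasurable C (.of_forall b)

theorem sq_int (h : Bm X) (μ : Measure α) [IsProbabilityMeasure μ] :
    (∫ a, X a ∂μ) ^ 2 ≤ ∫ a, X a ^ 2 ∂μ := by
  set c := ∫ a, X a ∂μ with hc
  have p : 0 ≤ ∫ a, (X a ^ 2 + (-(2 * c) * X a + c ^ 2)) ∂μ :=
    integral_nonneg fun a => (sq_nonneg (X a - c)).trans_eq (by ring)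
  rw [integral_add (bm_int (bm_pow h 2) μ) (bm_int (bm_add (bm_mul (bm_const _) h) (bm_const _)) μ),
    integral_add (bm_int (bm_mul (bm_const _) h) μ) (integrable_const _), integral_const_mul,
    ← hc] at p
  simp only [integral_const, probReal_univ, smul_eq_mul, one_mul] at p
  linarith

theorem nb_half (h : Bm X) (μ : Measure α) [IsProbabilityMeasure μ] {p : ℕ} {c : ℝ}
    (H : Nb μ (2 * p) X c) : Nb μ p X c := by
  refine ⟨H.1, (abs_le_of_sq_le_sq' ((sq_int (bm_pow (bm_abs h) p) μ).trans ?_)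
    (pow_nonneg H.1 p)).2⟩
  simpa only [← pow_mul, mul_comm p 2] using H.2

theorem young {x y : ℝ} (hx : 0 ≤ x) (hy : 0 ≤ y) (k : ℕ) :
    x ^ k * y ≤ x ^ (k + 1) / 2 + (2 * y) ^ (k + 1) / 2 := by
  rcases le_total (2 * y) x with h | h
  · have := mul_le_mul_of_nonneg_left h (pow_nonneg hx k)
    have p : 0 ≤ (2 * y) ^ (k + 1) := by positivity
    rw [pow_succ x]; linarith
  · have := mul_le_mul_of_nonneg_right (pow_le_pow_left₀ hx h k) hy
    have p : 0 ≤ x ^ (k + 1) := by positivity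
    rw [pow_succ (2 * y)]; linarith

variable {ι : Type} [Fintype ι] {S : Sys α ι}

theorem bm_rho (H : S.Ok) (j : ℕ) : Bm (S.rho j) :=
  ⟨Finset.measurable_sum _ fun i _ => (H.mm j i).pow_const 2, 1, fun a => by
    rw [abs_of_nonneg (Finset.sum_nonneg fun _ _ => sq_nonneg _)]; exact H.bd j a⟩

theorem bm_aa (H : S.Ok) (j : ℕ) : Bm (S.aa j) :=
  ⟨Finset.measurable_sum _ fun i _ => Finset.measurable_sum _ fun k _ =>
    ((H.mm j i).mul (H.mm j k)).mul (H.mA j i k), 1, fun a => by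
    rw [Sys.aa, abs_of_nonneg (H.psd j a _)]; exact (H.bdB j a _).trans (H.bd j a)⟩

theorem key (H : S.Ok) (J : Finset ℕ) (φ : ℕ → ℝ) {γ : ℝ} (k : ℕ)
    (h : Nb S.μ (k + 1) (fun a => ∑ j ∈ J, S.dm j * (φ j ^ 2 * S.aa j a)) γ) :
    ∫ a, (∑ j ∈ J, S.dm j * (φ j * (S.rho j a - S.r j))) ^ (2 * (k + 1)) ∂S.μ ≤
      2 * (∫ a, (∑ j ∈ J, S.dm j * (φ j * (S.rho j a - S.r j))) ^ (k + 1) ∂S.μ) ^ 2 +
        (8 * (k + 1) ^ 2) ^ (k + 1) * γ ^ (k + 1) := by
  have := H.prob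
  have b := H.bl J (fun j t => φ j * (t - S.r j)) (fun j _ => φ j) (fun t => t ^ (k + 1))
    (fun t => (k + 1) * t ^ k)
    (fun j t => by simpa using ((hasDerivAt_id t).sub_const (S.r j)).const_mul (φ j))
    (fun _ => continuous_const) (fun t => by simpa using hasDerivAt_pow (k + 1) t) (by fun_prop)
  set F : α → ℝ := fun a => ∑ j ∈ J, S.dm j * (φ j * (S.rho j a - S.r j)) with hF
  set G : α → ℝ := fun a => ∑ j ∈ J, S.dm j * (φ j ^ 2 * S.aa j a) with hG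
  have bF : Bm F := bm_sum J fun j _ =>
    bm_mul (bm_const _) (bm_mul (bm_const _) (bm_sub (bm_rho H j) (bm_const _)))
  have bG : Bm G := bm_sum J fun j _ => bm_mul (bm_const _) (bm_mul (bm_const _) (bm_aa H j))
  have G0 : ∀ a, 0 ≤ G a := fun a => Finset.sum_nonneg fun j _ =>
    mul_nonneg (H.dm0 j) (mul_nonneg (sq_nonneg _) (H.psd j a _))
  have i1 := bm_int (bm_pow bF (2 * (k + 1))) S.μ
  have i2 := bm_int (bm_pow (bm_abs bG) (k + 1)) S.μ
  have c : ∫ a, (((k : ℝ) + 1) * F a ^ k) ^ 2 * (4 * G a) ∂S.μ ≤ ∫ a, (F a ^ (2 * (k + 1)) / 2 +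
      (8 * ((k : ℝ) + 1) ^ 2) ^ (k + 1) / 2 * |G a| ^ (k + 1)) ∂S.μ :=
    integral_mono (bm_int (bm_mul (bm_pow (bm_mul (bm_const _) (bm_pow bF k)) 2)
      (bm_mul (bm_const _) bG)) _) ((i1.div_const 2).add (i2.const_mul _)) fun a => by
      have y := young (sq_nonneg (F a)) (y := 4 * ((k : ℝ) + 1) ^ 2 * G a)
        (mul_nonneg (by positivity) (G0 a)) k
      rw [show 2 * (4 * ((k : ℝ) + 1) ^ 2 * G a) = 8 * ((k : ℝ) + 1) ^ 2 * G a by ring, mul_pow,
        ← pow_mul, ← pow_mul] at y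
      simp only [abs_of_nonneg (G0 a)]
      refine le_of_eq_of_le (by ring) (y.trans_eq (by ring))
  rw [integral_add (i1.div_const 2) (i2.const_mul _), integral_div, integral_const_mul] at c
  have d := mul_le_mul_of_nonneg_left h.2
    (show 0 ≤ (8 * ((k : ℝ) + 1) ^ 2) ^ (k + 1) / 2 by positivity)
  have e : ∀ a, (F a ^ (k + 1)) ^ 2 = F a ^ (2 * (k + 1)) := fun a => by ring
  have b' : ∫ a, (F a ^ (k + 1)) ^ 2 ∂S.μ - (∫ a, F a ^ (k + 1) ∂S.μ) ^ 2 ≤
      ∫ a, (((k : ℝ) + 1) * F a ^ k) ^ 2 * (4 * G a) ∂S.μ := b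
  simp only [e] at b'
  linarith

theorem mean_zero (H : S.Ok) (J : Finset ℕ) (φ : ℕ → ℝ) :
    ∫ a, ∑ j ∈ J, S.dm j * (φ j * (S.rho j a - S.r j)) ∂S.μ = 0 := by
  have := H.prob
  rw [integral_finsetSum _ fun j _ => bm_int
    (bm_mul (bm_const _) (bm_mul (bm_const _) (bm_sub (bm_rho H j) (bm_const _)))) _]
  refine Finset.sum_eq_zero fun j _ => ?_
  rw [integral_const_mul, integral_const_mul,
    integral_sub (bm_int (bm_rho H j) _) (integrable_const _)]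
  simp [Sys.r]

end Blp56

open Blp56

/-- **(BLp)** -/
theorem blpS : BlpS := by
  intro i
  induction i with
  | zero =>
    refine ⟨3, by norm_num, fun α ι _ _ S H J φ γ h => ⟨by positivity, ?_⟩⟩
    have k := key H J φ 0 h
    simp only [zero_add, pow_one, mean_zero H, Nat.cast_zero] at k
    simp only [pow_zero, mul_one, sq_abs, mul_pow, sq_sqrt h.1] at k ⊢
    linarith [h.1]
  | succ i ih =>
    obtain ⟨C, h1, hC⟩ := ih
    obtain ⟨k, hk⟩ : ∃ k, 2 ^ (i + 1) = k + 1 := ⟨_, (Nat.succ_pred_eq_of_pos (by positivity)).symm⟩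
    refine ⟨2 * C + 8 * (k + 1) ^ 2, by nlinarith [sq_nonneg ((k : ℝ) + 1)],
      fun α ι _ _ S H J φ γ h => ⟨by positivity, ?_⟩⟩
    have := H.prob
    have bG : Bm fun a => ∑ j ∈ J, S.dm j * (φ j ^ 2 * S.aa j a) :=
      bm_sum J fun j _ => bm_mul (bm_const _) (bm_mul (bm_const _) (bm_aa H j))
    have a1 := (hC α ι S H J φ γ (nb_half bG S.μ (by rwa [← pow_succ']))).2
    rw [← pow_succ', hk] at a1
    rw [hk] at h ⊢
    have a2 := key H J φ k h
    have ev : Even (k + 1) := hk ▸ (by rw [pow_succ']; exact even_two_mul _)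
    simp only [ev.pow_abs] at a1
    simp only [(even_two_mul (k + 1)).pow_abs]
    have a3 := pow_le_pow_left₀ (integral_nonneg fun a => ev.pow_nonneg _) a1 2
    have g : √γ ^ (2 * (k + 1)) = γ ^ (k + 1) := by rw [pow_mul, sq_sqrt h.1]
    rw [← pow_mul, mul_comm (k + 1) 2, mul_pow, g] at a3
    rw [mul_pow, g]
    have q1 : 2 * C ^ (2 * (k + 1)) ≤ (2 * C) ^ (2 * (k + 1)) := by
      rw [mul_pow]
      exact mul_le_mul_of_nonneg_right (le_self_pow₀ one_le_two (by omega)) (by positivity)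
    have q2 : (8 * ((k : ℝ) + 1) ^ 2) ^ (k + 1) ≤ (8 * ((k : ℝ) + 1) ^ 2) ^ (2 * (k + 1)) :=
      pow_le_pow_right₀ (by nlinarith [sq_nonneg (k : ℝ), Nat.cast_nonneg (α := ℝ) k]) (by omega)
    have q3 := pow_add_pow_le (x := 2 * C) (y := 8 * ((k : ℝ) + 1) ^ 2) (by linarith)
      (by positivity) (show 2 * (k + 1) ≠ 0 by omega)
    have q4 := mul_le_mul_of_nonneg_right ((add_le_add q1 q2).trans q3) (pow_nonneg h.1 (k + 1))
    linarith

end Crest.Agent.T156.Q57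

end
end

-- ▼ part T156/QSyn_21
section

/-!
# Row 156, block Q (helper21): `SyncS` closed, and the increment output (c)
-/

set_option autoImplicit false

noncomputable section

namespace Crest.Agent.T156.Q57

open MeasureTheory Finset Real Crest.Agent.T156.Q21

/-- **(Q2)**, unconditional -/
theorem syncS : SyncS := syncS_of N89.nbS N89.qvS blpS

/-- output (c): increments of the martingale, same prefix as `SyncS` -/
def SyncC21 : Prop := ∀ (i : ℕ) (K : ℝ), 1 ≤ i → ∃ C : ℝ, 1 ≤ C ∧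
  ∀ (α ι : Type) [MeasurableSpace α] [Fintype ι] (S : Sys α ι) (L J j0 j1 : ℕ) (v l2 l3 e P Z : ℝ)
    (N : ℕ → ℕ) (τ c g : ℕ → ℝ), S.Ok → S.Good L v l2 l3 (e ^ 2 ^ i) j0 j1 →
    S.Win L v l2 l3 K j0 j1 N τ c g → 0 ≤ e → e ≤ v → e ≤ l3 → 1 ≤ P → (2 : ℝ) ^ (L + 3) ≤ P ^ 2 ^ i →
    1 ≤ Z → 4 / v ≤ Z ^ 2 ^ J → ∀ j, j0 + (J + 1) * (8 * 2 ^ L) ≤ j → j + (J + 1) * (8 * 2 ^ L) ≤ j1 →
      ∀ j', j ≤ j' → j' ≤ j + 2 * N j →
        Nb S.μ (2 ^ i) (fun a => sq2 (S.m j' a - S.m j a)) (C * P * Z * τ j)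

theorem syncC21 : SyncC21 := by
  have hN := N89.nbS
  have hQ := N89.qvS
  intro i K hi
  obtain ⟨CB, CB1, hB⟩ := blpS i
  set B0 : ℝ := 16 * (2 ^ i : ℕ) * (16 * K * (2 * CB + K + 7) + K + 9) with hB0
  refine ⟨|(2 * CB + K + 7) * B0 * (6 + 2 * K)| + 4, by linarith [abs_nonneg ((2 * CB + K + 7) * B0 *
    (6 + 2 * K))], fun α ι _ _ S L J j0 j1 v l2 l3 e P Z N τ c g H hG W e0 ev e3 P1 hP Z1 hZ j h0 h1
    j' h2 h3 => ?_⟩
  have := H.prob
  obtain ⟨Bad, mB, μB, hG⟩ := hG.ex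
  have hp : 1 ≤ 2 ^ i := Nat.one_le_two_pow
  have hp2 : 2 ≤ 2 ^ i := by
    calc 2 = 2 ^ 1 := rfl
      _ ≤ 2 ^ i := Nat.pow_le_pow_right two_pos hi
  have pr : (1 : ℝ) ≤ (2 ^ i : ℕ) := by exact_mod_cast hp
  have dok := dat_ok (Bad := Bad) (L := L) (j1 := j1) (l2 := l2) (N := N) (c := c) hN H hp mB μB e0
    W.v0 W.l30.le
  have X : Ctx S (ns hN S.μ hp) Bad L j0 j1 v l2 l3 e K CB (16 * (2 ^ i : ℕ) * P) N τ c g := by
    refine ⟨H, W, dok, fun t a b => dat_gd H W.v0 W.l20.le W.l30.le hG (W.N1 _) a b, ev, e3, CB1,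
      by nlinarith, fun j => ?_, fun J φ γ h => ?_, fun b h n X hn hX => ?_⟩
    · refine nr_le hp ((hQ α ι S H).2.1 _ j (N j) (c j) _ hp2 (W.N1 j) ?_)
      have : (fun a => max ((dat S Bad L j1 v l2 l3 e N c).rb (j, true) a -
          (dat S Bad L j1 v l2 l3 e N c).γ (j, true)) 0) =
          fun a => max (av j (N j) (fun y => S.rho y a) - c j) 0 := funext fun a => by
        rw [dat_rb]; rfl
      show Nb _ _ _ (nr S.μ _ _)
      rw [this]; exact nb_nr hp _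
    · refine nr_le hp ((hN α S.μ _ hp).2.2.1 _ _ ?_ (hB α ι S H J φ γ (nb_of_le hp h)))
      exact (ns hN S.μ hp).c_sum _ fun y _ => (ns hN S.μ hp).c_cmul _ ((ns hN S.μ hp).c_cmul _
        ((ns hN S.μ hp).c_sub (dok.cρ y) (bm_const _)))
    · refine nr_le hp ((hQ α ι S H).1 _ b h n X P hp2 P1 (le_trans ?_ hP)
        fun i hi => nb_of_le hp (hX i hi))
      exact_mod_cast hn
  have K1 := W.K1
  have t0 := X.τ0 j
  have a0 := abs_nonneg ((2 * CB + K + 7) * B0 * (6 + 2 * K))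
  have PZ : 1 ≤ P * Z := by nlinarith
  refine nb_of_le hp ?_
  cases J with
  | zero =>
    have c4 := (ns hN S.μ hp).mono' (dok.cinc j j') (bm_const 4) fun a => by
      rw [abs_of_nonneg (Dat.inc0 _ _ _)]
      have : (dat S Bad L j1 v l2 l3 e N c).inc j j' a ≤ 2 * (S.rho j' a + S.rho j a) := by
        simp only [Dat.inc, Sys.rho, sq2, mul_sum, ← sum_add_distrib]
        exact sum_le_sum fun k _ => by
          show (S.m j' a k - S.m j a k) ^ 2 ≤ _
          nlinarith [sq_nonneg (S.m j' a k + S.m j a k)]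
      linarith [H.bd j a, H.bd j' a]
    refine (c4.trans ((ns hN S.μ hp).const 4 (by norm_num))).trans ?_
    rw [pow_zero, pow_one, div_le_iff₀ W.v0] at hZ
    have b1 := mul_le_mul_of_nonneg_left (X.v_le j) (zero_le_one.trans Z1)
    have b2 : 0 ≤ Z * τ j := by positivity
    have b3 : 1 ≤ (|(2 * CB + K + 7) * B0 * (6 + 2 * K)| + 4) * P := by nlinarith
    nlinarith [mul_le_mul_of_nonneg_right b3 b2]
  | succ J =>
    have I := X.iter (B := B0 * P) (by rw [hB0]; ring) Z1 hZ J (Nat.le_succ J)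
    rw [show J + 1 - J = 1 by omega, pow_one, ← mul_pow] at I
    have B1 : 1 ≤ B0 := by
      have a : 0 ≤ 16 * K * (2 * CB + K + 7) := by positivity
      nlinarith
    have BP : 1 ≤ B0 * P * Z := by nlinarith
    have hj : Rg L j0 j1 (J + 1) j := ⟨h0, h1⟩
    have NU := W.NU j
    have k := X.inc_le (one_le_pow₀ BP) I (i := j) (j := j') (hj.near (by omega) (by omega))
      (hj.near (by omega) (by omega)) (d := 2 * N j) h2 h3
    rw [sqrt_sq (by positivity)] at k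
    have t1 := X.τ_near hj (i := j') (by omega) (by omega)
    refine le_trans k ?_
    have b1 := mul_le_mul_of_nonneg_left (show 6 * τ j + 2 * τ j' ≤ (6 + 2 * K) * τ j by linarith)
      (show 0 ≤ (2 * CB + K + 7) * (B0 * P * Z) by positivity)
    have b2 := W.Nv j
    have b3 : 0 ≤ P * Z * τ j := by positivity
    have b4 := mul_le_mul_of_nonneg_right (le_abs_self ((2 * CB + K + 7) * B0 * (6 + 2 * K))) b3
    have b5 := mul_le_mul_of_nonneg_right PZ t0.le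
    push_cast
    nlinarith

end Crest.Agent.T156.Q57

end
end

-- ▼ part T156/Qf_24
section

/-!
Row 156, block (Q), frame-free leaves of `docs/T156_57.md`, section 7:
Garsia's lemma over a positive linear functional (F2), persistence of deviations and cubic
telescoping (F1), the square-root recursion (F3).
-/

namespace Crest.Agent.T156.Qf24

open Finset

/-! ### positive linear functionals on a class of functions -/

/-- `E` is additive, homogeneous and monotone on the class `C`, an algebra of functions -/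
structure PF {X : Type*} (C : (X → ℝ) → Prop) (E : (X → ℝ) → ℝ) : Prop where
  const : ∀ c, C fun _ => c
  add : ∀ {F G}, C F → C G → C fun x => F x + G x
  mul : ∀ {F G}, C F → C G → C fun x => F x * G x
  E_add : ∀ {F G}, C F → C G → E (fun x => F x + G x) = E F + E G
  E_cmul : ∀ (c : ℝ) {F}, C F → E (fun x => c * F x) = c * E F
  E_mono : ∀ {F G}, C F → C G → (∀ x, F x ≤ G x) → E F ≤ E G

section PF
variable {X : Type*} {C : (X → ℝ) → Prop} {E : (X → ℝ) → ℝ}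

theorem PF.cmul (h : PF C E) (c : ℝ) {F : X → ℝ} (hF : C F) : C fun x => c * F x :=
  h.mul (h.const c) hF

theorem PF.sub (h : PF C E) {F G : X → ℝ} (hF : C F) (hG : C G) : C fun x => F x - G x := by
  have := h.add hF (h.cmul (-1) hG)
  simpa [sub_eq_add_neg] using this

theorem PF.pow (h : PF C E) {F : X → ℝ} (hF : C F) : ∀ k : ℕ, C fun x => F x ^ k
  | 0 => by simpa using h.const 1
  | k + 1 => by simpa [pow_succ] using h.mul (h.pow hF k) hF

theorem PF.sum (h : PF C E) {κ : Type*} (s : Finset κ) {F : κ → X → ℝ} (hF : ∀ i ∈ s, C (F i)) :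
    C fun x => ∑ i ∈ s, F i x := by
  classical
  induction s using Finset.induction_on with
  | empty => simpa using h.const 0
  | insert a s ha ih =>
    simp only [Finset.sum_insert ha]
    exact h.add (hF a (mem_insert_self _ _)) (ih fun i hi => hF i (mem_insert_of_mem hi))

theorem PF.E_zero (h : PF C E) : E (fun _ => 0) = 0 := by
  simpa using h.E_cmul 0 (h.const 0)


theorem PF.E_sum (h : PF C E) {κ : Type*} (s : Finset κ) {F : κ → X → ℝ}
    (hF : ∀ i ∈ s, C (F i)) : E (fun x => ∑ i ∈ s, F i x) = ∑ i ∈ s, E (F i) := by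
  classical
  induction s using Finset.induction_on with
  | empty => simpa using h.E_zero
  | insert a s ha ih =>
    simp only [Finset.sum_insert ha]
    rw [h.E_add (hF a (mem_insert_self _ _)) (h.sum s fun i hi => hF i (mem_insert_of_mem hi)),
      ih fun i hi => hF i (mem_insert_of_mem hi)]


end PF

/-- Young's inequality with natural exponents -/
theorem young {a b : ℝ} (ha : 0 ≤ a) (hb : 0 ≤ b) :
    ∀ k : ℕ, ((k : ℝ) + 1) * a * b ^ k ≤ a ^ (k + 1) + k * b ^ (k + 1)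
  | 0 => by simp
  | k + 1 => by
    have ih := mul_le_mul_of_nonneg_right (young ha hb k) hb
    have h2 : 0 ≤ (a - b) * (a ^ (k + 1) - b ^ (k + 1)) := by
      rcases le_total a b with h | h
      · exact mul_nonneg_of_nonpos_of_nonpos (by linarith)
          (by linarith [pow_le_pow_left₀ ha h (k + 1)])
      · exact mul_nonneg (by linarith) (by linarith [pow_le_pow_left₀ hb h (k + 1)])
    push_cast
    simp only [pow_succ] at *
    nlinarith

/-- the pointwise inequality behind Garsia's lemma -/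
theorem garsia_pt (S : ℕ → ℝ) (N k : ℕ) (hk : 1 ≤ k) (h0 : S 0 = 0) (hS : ∀ i ≤ N, 0 ≤ S i) :
    S N ^ (k + 1) ≤
      ((k : ℝ) + 1) * ∑ i ∈ range N, (S (i + 1) ^ k - S i ^ k) * (S N - S i) := by
  have tel := Finset.sum_range_sub
    (fun i => ((k : ℝ) + 1) * S N * S i ^ k - k * S i ^ (k + 1)) N
  have e0 : ((k : ℝ) + 1) * S N * S 0 ^ k - k * S 0 ^ (k + 1) = 0 := by
    rw [h0, zero_pow (by omega), zero_pow (by omega)]; ring
  have e1 : ((k : ℝ) + 1) * S N * S N ^ k - k * S N ^ (k + 1) = S N ^ (k + 1) := by ring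
  simp only [e0, e1, sub_zero] at tel
  rw [← tel, Finset.mul_sum]
  refine Finset.sum_le_sum fun i hi => ?_
  have hi := Finset.mem_range.1 hi
  have := young (hS i hi.le) (hS (i + 1) hi) k
  simp only [pow_succ] at *
  nlinarith

section garsia
variable {X : Type*} {C : (X → ℝ) → Prop} {E : (X → ℝ) → ℝ}

/-- **Garsia's lemma**, raw form: only the test functions `S (i+1)^k - S i^k` are used.
`V` is any function of the class above all `w i ^ (k+1)` (`W^(k+1)` or `∑ i, w i ^ (k+1)`). -/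
theorem garsia (h : PF C E) (S w : ℕ → X → ℝ) (V : X → ℝ) (N k : ℕ) (hk : 1 ≤ k)
    (hS : ∀ i ≤ N, C (S i)) (hw : ∀ i < N, C (w i)) (hV : C V) (h0 : ∀ x, S 0 x = 0)
    (mono : ∀ i < N, ∀ x, S i x ≤ S (i + 1) x)
    (V0 : ∀ x, 0 ≤ V x) (wV : ∀ i < N, ∀ x, w i x ^ (k + 1) ≤ V x)
    (H : ∀ i < N, E (fun x => (S (i + 1) x ^ k - S i x ^ k) * (S N x - S i x)) ≤
      E fun x => (S (i + 1) x ^ k - S i x ^ k) * w i x) :
    E (fun x => S N x ^ (k + 1)) ≤ ((k : ℝ) + 1) ^ (k + 1) * E V := by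
  have S0 : ∀ x, ∀ i ≤ N, 0 ≤ S i x := fun x i => by
    induction i with
    | zero => exact fun _ => (h0 x).ge
    | succ i ih => exact fun hi => (ih (by omega)).trans (mono i hi x)
  have cG : ∀ i ∈ range N, C fun x => S (i + 1) x ^ k - S i x ^ k := fun i hi =>
    have hi := Finset.mem_range.1 hi
    h.sub (h.pow (hS _ hi) k) (h.pow (hS _ hi.le) k)
  have c1 : ∀ i ∈ range N, C fun x => (S (i + 1) x ^ k - S i x ^ k) * (S N x - S i x) :=
    fun i hi => h.mul (cG i hi) (h.sub (hS N le_rfl) (hS i (Finset.mem_range.1 hi).le))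
  have c2 : ∀ i ∈ range N, C fun x => (S (i + 1) x ^ k - S i x ^ k) * w i x :=
    fun i hi => h.mul (cG i hi) (hw i (Finset.mem_range.1 hi))
  have cN := h.pow (hS N le_rfl) (k + 1)
  have s1 := h.E_mono cN (h.cmul ((k : ℝ) + 1) (h.sum _ c1)) fun x =>
    garsia_pt (fun i => S i x) N k hk (h0 x) (S0 x)
  rw [h.E_cmul _ (h.sum _ c1), h.E_sum _ c1] at s1
  have s2 := Finset.sum_le_sum fun i (hi : i ∈ range N) => H i (Finset.mem_range.1 hi)
  rw [← h.E_sum _ c2] at s2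
  have s3 := h.E_mono (h.cmul (((k : ℝ) + 1) ^ 2) (h.sum _ c2))
    (h.add (h.cmul (((k : ℝ) + 1) ^ (k + 1)) hV) (h.cmul k cN)) fun x => by
      set u := V x ^ (((k + 1 : ℕ) : ℝ)⁻¹) with hu
      have u0 : 0 ≤ u := Real.rpow_nonneg (V0 x) _
      have uV : u ^ (k + 1) = V x := Real.rpow_inv_natCast_pow (V0 x) (by omega)
      have t1 : ∑ i ∈ range N, (S (i + 1) x ^ k - S i x ^ k) * w i x ≤
          ∑ i ∈ range N, (S (i + 1) x ^ k - S i x ^ k) * u := by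
        refine Finset.sum_le_sum fun i hi => ?_
        have hi := Finset.mem_range.1 hi
        refine mul_le_mul_of_nonneg_left ?_
          (sub_nonneg.2 (pow_le_pow_left₀ (S0 x i hi.le) (mono i hi x) k))
        exact le_of_pow_le_pow_left₀ (n := k + 1) (by omega) u0 (uV ▸ wV i hi x)
      rw [← Finset.sum_mul, Finset.sum_range_sub (fun i => S i x ^ k), h0 x,
        zero_pow (by omega), sub_zero] at t1
      have t2 := young (a := ((k : ℝ) + 1) * u) (by positivity) (S0 x N le_rfl) k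
      rw [mul_pow, uV] at t2
      have t3 := mul_le_mul_of_nonneg_left t1 (show 0 ≤ ((k : ℝ) + 1) ^ 2 by positivity)
      nlinarith
  rw [h.E_cmul _ (h.sum _ c2), h.E_add (h.cmul _ hV) (h.cmul _ cN), h.E_cmul _ hV,
    h.E_cmul _ cN] at s3
  have k0 : (0 : ℝ) ≤ (k : ℝ) + 1 := by positivity
  have s4 := mul_le_mul_of_nonneg_left
    (s1.trans (mul_le_mul_of_nonneg_left s2 k0)) k0
  nlinarith


/-- squared distance of two vectors -/
def d2 {ι : Type*} [Fintype ι] (a b : ι → ℝ) : ℝ := ∑ c, (a c - b c) ^ 2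




end garsia

/-! ### F3: the square-root recursion -/


/-! ### F1: one-sided Lipschitz sequences -/

section F1
variable {f : ℕ → ℝ} {κ : ℝ} {lo hi : ℕ}

/-- `f` does not fall faster than `κ` per step on `[lo, hi]` -/
def Sl (f : ℕ → ℝ) (κ : ℝ) (lo hi : ℕ) : Prop := ∀ j, lo ≤ j → j < hi → f j - κ ≤ f (j + 1)

theorem Sl.le (h : Sl f κ lo hi) {i j : ℕ} (hi' : lo ≤ i) (hij : i ≤ j) (hj : j ≤ hi) :
    f i - κ * ((j : ℝ) - i) ≤ f j := by
  induction j, hij using Nat.le_induction with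
  | base => simp
  | succ j hij ih =>
    have := ih (by omega)
    have := h j (by omega) (by omega)
    push_cast
    linarith

theorem Sl.le' (h : Sl f κ lo hi) (hκ : 0 ≤ κ) {i j U : ℕ} (hi' : lo ≤ i) (hij : i ≤ j)
    (hj : j ≤ hi) (hU : j ≤ i + U) : f i - κ * U ≤ f j := by
  have h1 := h.le hi' hij hj
  have : (j : ℝ) ≤ i + U := by exact_mod_cast hU
  nlinarith





/-- a deviation persists: `(t+1) f_j² ≤ 4 ∑ f²` as long as `2 κ t ≤ |f j|` -/
theorem Sl.persist (h : Sl f κ lo hi) (hκ : 0 ≤ κ) {j t : ℕ} (hj : lo + t ≤ j) (hj' : j + t ≤ hi)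
    (ht : 2 * (κ * t) ≤ |f j|) : ((t : ℝ) + 1) * f j ^ 2 ≤ 4 * ∑ i ∈ Icc lo hi, f i ^ 2 := by
  have e0 : 0 ≤ κ * t := by positivity
  rcases le_total 0 (f j) with c | c
  · rw [abs_of_nonneg c] at ht
    have s1 : ∑ _i ∈ Icc j (j + t), f j ^ 2 ≤ ∑ i ∈ Icc j (j + t), 4 * f i ^ 2 :=
      Finset.sum_le_sum fun i hi => by
        have hi := Finset.mem_Icc.1 hi
        have := h.le' hκ (U := t) (show lo ≤ j by omega) hi.1 (by omega) hi.2
        nlinarith
    rw [Finset.sum_const, Nat.card_Icc, show j + t + 1 - j = t + 1 by omega, nsmul_eq_mul,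
      ← Finset.mul_sum] at s1
    have s2 : ∑ i ∈ Icc j (j + t), f i ^ 2 ≤ ∑ i ∈ Icc lo hi, f i ^ 2 :=
      Finset.sum_le_sum_of_subset_of_nonneg (Finset.Icc_subset_Icc (by omega) hj')
        fun _ _ _ => sq_nonneg _
    push_cast at s1
    linarith
  · rw [abs_of_nonpos c] at ht
    have s1 : ∑ _i ∈ Icc (j - t) j, f j ^ 2 ≤ ∑ i ∈ Icc (j - t) j, 4 * f i ^ 2 :=
      Finset.sum_le_sum fun i hi => by
        have hi := Finset.mem_Icc.1 hi
        have := h.le' hκ (U := t) (show lo ≤ i by omega) hi.2 (by omega) (by omega)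
        nlinarith
    rw [Finset.sum_const, Nat.card_Icc, show j + 1 - (j - t) = t + 1 by omega, nsmul_eq_mul,
      ← Finset.mul_sum] at s1
    have s2 : ∑ i ∈ Icc (j - t) j, f i ^ 2 ≤ ∑ i ∈ Icc lo hi, f i ^ 2 :=
      Finset.sum_le_sum_of_subset_of_nonneg (Finset.Icc_subset_Icc (by omega) (by omega))
        fun _ _ _ => sq_nonneg _
    push_cast at s1
    linarith

/-- (D0), sup form: `|f j|³ ≤ (8κ + 4|f j|/(M+1)) ∑ f²` at distance `M` from the ends -/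
theorem Sl.cube_le (h : Sl f κ lo hi) (hκ : 0 ≤ κ) {j M : ℕ} (hj : lo + M ≤ j) (hj' : j + M ≤ hi) :
    |f j| ^ 3 ≤ (8 * κ + 4 * |f j| / (M + 1)) * ∑ i ∈ Icc lo hi, f i ^ 2 := by
  set S := ∑ i ∈ Icc lo hi, f i ^ 2 with hS
  have S0 : 0 ≤ S := Finset.sum_nonneg fun _ _ => sq_nonneg _
  have a0 := abs_nonneg (f j)
  have e3 : |f j| ^ 3 = |f j| * f j ^ 2 := by rw [← sq_abs]; ring
  have M0 : (0 : ℝ) < M + 1 := by positivity
  by_cases c : 2 * (κ * M) ≤ |f j|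
  · have h1 := h.persist hκ hj hj' c
    have h2 : f j ^ 2 ≤ 4 * S / (M + 1) := by rw [le_div_iff₀ M0]; linarith
    have h3 := mul_le_mul_of_nonneg_left h2 a0
    have h4 : |f j| * (4 * S / (M + 1)) = 4 * |f j| / (M + 1) * S := by ring
    nlinarith [mul_nonneg hκ S0]
  · push Not at c
    have κ0 : 0 < κ := by
      rcases hκ.eq_or_lt with h0 | h0
      · rw [← h0] at c; simp at c; linarith
      · exact h0
    set t := ⌊|f j| / (2 * κ)⌋₊ with ht
    have t1 : (t : ℝ) ≤ |f j| / (2 * κ) := Nat.floor_le (by positivity)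
    have t2 : |f j| / (2 * κ) < t + 1 := Nat.lt_floor_add_one _
    rw [le_div_iff₀ (by positivity)] at t1
    rw [div_lt_iff₀ (by positivity)] at t2
    have t3 : t ≤ M := by
      have : (t : ℝ) < M := by nlinarith
      exact_mod_cast this.le
    have h1 := h.persist hκ (t := t) (j := j) (by omega) (by omega) (by linarith)
    have h2 : |f j| * f j ^ 2 ≤ (t + 1) * (2 * κ) * f j ^ 2 :=
      mul_le_mul_of_nonneg_right t2.le (sq_nonneg _)
    have h3 := mul_le_mul_of_nonneg_left h1 (show 0 ≤ 2 * κ by positivity)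
    have h4 : 0 ≤ 4 * |f j| / (M + 1) * S := by positivity
    nlinarith









/-- from counting measure to comparable weights -/
theorem wsum_le (s t : Finset ℕ) (g g' d : ℕ → ℝ) {d₀ d₁ K : ℝ} (h₀ : 0 < d₀) (h₁ : 0 ≤ d₁)
    (hK : 0 ≤ K) (g0 : ∀ i ∈ s, 0 ≤ g i) (g0' : ∀ i ∈ t, 0 ≤ g' i) (hs : ∀ i ∈ s, d i ≤ d₁)
    (ht : ∀ i ∈ t, d₀ ≤ d i) (h : ∑ i ∈ s, g i ≤ K * ∑ i ∈ t, g' i) :
    ∑ i ∈ s, d i * g i ≤ d₁ / d₀ * K * ∑ i ∈ t, d i * g' i := by
  have a1 : ∑ i ∈ s, d i * g i ≤ d₁ * ∑ i ∈ s, g i := by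
    rw [Finset.mul_sum]
    exact Finset.sum_le_sum fun i hi => mul_le_mul_of_nonneg_right (hs i hi) (g0 i hi)
  have a2 : d₀ * ∑ i ∈ t, g' i ≤ ∑ i ∈ t, d i * g' i := by
    rw [Finset.mul_sum]
    exact Finset.sum_le_sum fun i hi => mul_le_mul_of_nonneg_right (ht i hi) (g0' i hi)
  calc _ ≤ d₁ * (K * ∑ i ∈ t, g' i) := a1.trans (mul_le_mul_of_nonneg_left h h₁)
    _ = d₁ / d₀ * K * (d₀ * ∑ i ∈ t, g' i) := by field_simp
    _ ≤ _ := mul_le_mul_of_nonneg_left a2 (by positivity)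

end F1

end Crest.Agent.T156.Qf24
end

-- ▼ part T156/QBlk_24
section

/-!
Row 156, block Q: from the leaves of `QDef_57` to the block statements (W), (A), (B), (Q3).
-/

set_option autoImplicit false

noncomputable section

namespace Crest.Agent.T156.Q57.Blk24

open MeasureTheory Real Finset

section basic
variable {α : Type} [MeasurableSpace α]

theorem bm_const (c : ℝ) : Bm fun _ : α => c := ⟨measurable_const, |c|, fun _ => le_rfl⟩

theorem bm_add {X Y : α → ℝ} (hX : Bm X) (hY : Bm Y) : Bm fun a => X a + Y a := by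
  obtain ⟨m1, C1, h1⟩ := hX
  obtain ⟨m2, C2, h2⟩ := hY
  exact ⟨m1.add m2, C1 + C2, fun a => (abs_add_le _ _).trans (add_le_add (h1 a) (h2 a))⟩

theorem bm_mul {X Y : α → ℝ} (hX : Bm X) (hY : Bm Y) : Bm fun a => X a * Y a := by
  obtain ⟨m1, C1, h1⟩ := hX
  obtain ⟨m2, C2, h2⟩ := hY
  exact ⟨m1.mul m2, C1 * C2, fun a => by
    rw [abs_mul]; exact mul_le_mul (h1 a) (h2 a) (abs_nonneg _) ((abs_nonneg _).trans (h1 a))⟩

theorem bm_abs {X : α → ℝ} (hX : Bm X) : Bm fun a => |X a| := by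
  obtain ⟨m1, C1, h1⟩ := hX
  exact ⟨m1.abs, C1, fun a => by rw [abs_abs]; exact h1 a⟩

theorem bm_int (μ : Measure α) [IsProbabilityMeasure μ] {X : α → ℝ} (hX : Bm X) :
    Integrable X μ := by
  obtain ⟨m1, C1, h1⟩ := hX
  exact Integrable.of_bound m1.aestronglyMeasurable C1 (Filter.Eventually.of_forall h1)

/-- the integral is a positive functional on bounded measurable functions -/
theorem pf (μ : Measure α) [IsProbabilityMeasure μ] :
    Qf24.PF (Bm (α := α)) fun X => ∫ a, X a ∂μ :=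
  ⟨bm_const, bm_add, bm_mul, fun hF hG => integral_add (bm_int μ hF) (bm_int μ hG),
    fun c _ _ => integral_const_mul c _,
    fun hF hG h => integral_mono (bm_int μ hF) (bm_int μ hG) h⟩

theorem bm_sub {X Y : α → ℝ} (hX : Bm X) (hY : Bm Y) : Bm fun a => X a - Y a := by
  simpa [sub_eq_add_neg] using bm_add hX (bm_mul (bm_const (-1)) hY)

theorem bm_pow {X : α → ℝ} (hX : Bm X) : ∀ k : ℕ, Bm fun a => X a ^ k
  | 0 => by simpa using bm_const (α := α) 1
  | k + 1 => by simpa [pow_succ] using bm_mul (bm_pow hX k) hX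

theorem bm_sum {κ : Type*} (s : Finset κ) {X : κ → α → ℝ} (h : ∀ k ∈ s, Bm (X k)) :
    Bm fun a => ∑ k ∈ s, X k a := by
  classical
  induction s using Finset.induction_on with
  | empty => simpa using bm_const (α := α) 0
  | insert b s hb ih =>
    simp only [Finset.sum_insert hb]
    exact bm_add (h b (mem_insert_self _ _)) (ih fun i hi => h i (mem_insert_of_mem hi))

variable {μ : Measure α} {p : ℕ} {X Y : α → ℝ} {c c' : ℝ}

theorem nb_le (h : Nb μ p X c) (hc : c ≤ c') : Nb μ p X c' :=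
  ⟨h.1.trans hc, h.2.trans (pow_le_pow_left₀ h.1 hc p)⟩

theorem nb_cmul (h : Nb μ p X c) {t : ℝ} (ht : 0 ≤ t) : Nb μ p (fun a => t * X a) (t * c) := by
  refine ⟨mul_nonneg ht h.1, ?_⟩
  simp only [abs_mul, mul_pow, abs_of_nonneg ht, integral_const_mul]
  exact mul_le_mul_of_nonneg_left h.2 (pow_nonneg ht _)

theorem nb_mono [IsProbabilityMeasure μ] (hX : Bm X) (hY : Bm Y) (e : ∀ a, |X a| ≤ |Y a|)
    (h : Nb μ p Y c) : Nb μ p X c :=
  ⟨h.1, (integral_mono (bm_int μ (bm_pow (bm_abs hX) p)) (bm_int μ (bm_pow (bm_abs hY) p))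
    fun a => pow_le_pow_left₀ (abs_nonneg _) (e a) p).trans h.2⟩

theorem nb_pred [IsProbabilityMeasure μ] (hX : Bm X) (h : Nb μ (p + 1) X c) : Nb μ p X c := by
  refine ⟨h.1, ?_⟩
  have i1 := bm_pow (bm_abs hX) p
  have i2 := bm_pow (bm_abs hX) (p + 1)
  have key : ∀ d : ℝ, c ≤ d → 0 < d → ∫ a, |X a| ^ p ∂μ ≤ d ^ p := fun d hd d0 => by
    have h1 := (pf μ).E_mono (bm_mul (bm_const (((p : ℝ) + 1) * d)) i1)
      (bm_add (bm_const (d ^ (p + 1))) (bm_mul (bm_const (p : ℝ)) i2))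
      fun a => Qf24.young d0.le (abs_nonneg (X a)) p
    rw [integral_add (bm_int μ (bm_const _)) (bm_int μ (bm_mul (bm_const (p : ℝ)) i2))] at h1
    simp only [integral_const_mul, integral_const, probReal_univ, one_smul] at h1
    have h2 := mul_le_mul_of_nonneg_left (nb_le h hd).2 (Nat.cast_nonneg (α := ℝ) p)
    have h3 : ((p : ℝ) + 1) * d * ∫ a, |X a| ^ p ∂μ ≤ ((p : ℝ) + 1) * d * d ^ p := by
      rw [pow_succ] at h1 h2; nlinarith
    exact le_of_mul_le_mul_left h3 (by positivity)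
  have lim : Filter.Tendsto (fun d : ℝ => d ^ p) (nhdsWithin c (Set.Ioi c)) (nhds (c ^ p)) :=
    ((continuous_pow p).tendsto c).mono_left nhdsWithin_le_nhds
  exact ge_of_tendsto lim (eventually_nhdsWithin_of_forall fun d hd =>
    key d (le_of_lt hd) (h.1.trans_lt hd))

/-- Lyapunov -/
theorem nb_lyap [IsProbabilityMeasure μ] (hX : Bm X) {q : ℕ} (hq : q ≤ p) (h : Nb μ p X c) :
    Nb μ q X c := by
  induction p, hq using Nat.le_induction with
  | base => exact h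
  | succ p _ ih => exact ih (nb_pred hX h)

theorem nb_add (hNb : NbS) [IsProbabilityMeasure μ] (hp : 1 ≤ p) (hX : Bm X) (hY : Bm Y)
    (h : Nb μ p X c) (h' : Nb μ p Y c') : Nb μ p (fun a => X a + Y a) (c + c') := by
  have := (hNb α μ p hp).1 Bool univ (fun b => if b then X else Y) (fun b => if b then c else c')
    (fun b _ => by cases b <;> simpa) (fun b _ => by cases b <;> simpa)
  simpa using this

/-- greedy cover by windows, for any monotone subadditive notion of bound -/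
theorem cover_gen {β : Type} (Bd : (β → ℝ) → ℝ → Prop) (Cl : (β → ℝ) → Prop)
    (X : ℕ → β → ℝ) (G : ℕ → ℝ) (N : ℕ → ℕ) (U b1 : ℕ) (X0 : ∀ y a, 0 ≤ X y a)
    (G0 : ∀ y, 0 ≤ G y) (cl : ∀ a b, Cl fun x => ∑ y ∈ Ico a b, X y x)
    (mono : ∀ F F' c c', Cl F → Cl F' → (∀ x, 0 ≤ F x ∧ F x ≤ F' x) → c ≤ c' → Bd F' c → Bd F c')
    (add : ∀ F F' c c', Cl F → Cl F' → Bd F c → Bd F' c' → Bd (fun x => F x + F' x) (c + c'))
    (zero : ∀ c, 0 ≤ c → Bd (fun _ => 0) c) : ∀ (d b0 : ℕ), b1 ≤ b0 + d →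
    (∀ j, b0 ≤ j → j < b1 → 1 ≤ N j ∧ N j ≤ U ∧
      Bd (fun x => ∑ y ∈ Ico j (j + N j), X y x) (∑ y ∈ Ico j (j + N j), G y)) →
    Bd (fun x => ∑ y ∈ Ico b0 b1, X y x) (∑ y ∈ Ico b0 (b1 + U), G y) := by
  intro d
  induction d with
  | zero =>
    intro b0 hb _
    rw [Finset.Ico_eq_empty_of_le (by omega)]
    simpa using zero _ (Finset.sum_nonneg fun y _ => G0 y)
  | succ d ih =>
    intro b0 hb h
    rcases le_or_gt b1 b0 with k | k
    · exact ih b0 (by omega) h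
    obtain ⟨n1, n2, n3⟩ := h b0 le_rfl k
    rcases le_or_gt b1 (b0 + N b0) with k2 | k2
    · exact mono _ _ _ _ (cl _ _) (cl _ _) (fun x => ⟨Finset.sum_nonneg fun y _ => X0 y x,
        Finset.sum_le_sum_of_subset_of_nonneg (Finset.Ico_subset_Ico le_rfl k2)
          fun y _ _ => X0 y x⟩)
        (Finset.sum_le_sum_of_subset_of_nonneg (Finset.Ico_subset_Ico le_rfl (by omega))
          fun y _ _ => G0 y) n3
    · have := add _ _ _ _ (cl _ _) (cl _ _) n3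
        (ih (b0 + N b0) (by omega) fun j h1 h2 => h j (by omega) h2)
      rw [Finset.sum_Ico_consecutive _ (by omega) (by omega)] at this
      simpa only [Finset.sum_Ico_consecutive _ (Nat.le_add_right b0 (N b0)) k2.le] using this

theorem cover_real (f G : ℕ → ℝ) (N : ℕ → ℕ) (U b0 b1 : ℕ) (f0 : ∀ y, 0 ≤ f y) (G0 : ∀ y, 0 ≤ G y)
    (h : ∀ j, b0 ≤ j → j < b1 → 1 ≤ N j ∧ N j ≤ U ∧
      ∑ y ∈ Ico j (j + N j), f y ≤ ∑ y ∈ Ico j (j + N j), G y) :
    ∑ y ∈ Ico b0 b1, f y ≤ ∑ y ∈ Ico b0 (b1 + U), G y :=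
  cover_gen (β := Unit) (fun F c => F () ≤ c) (fun _ => True) (fun y _ => f y) G N U b1
    (fun y _ => f0 y) G0 (fun _ _ => trivial)
    (fun _ _ _ _ _ _ h1 h2 h3 => ((h1 ()).2.trans h3).trans h2)
    (fun _ _ _ _ _ _ h1 h2 => add_le_add h1 h2) (fun _ h => h) b1 b0 (by omega) h

theorem cover_nb (hNb : NbS) [IsProbabilityMeasure μ] (hp : 1 ≤ p) (X : ℕ → α → ℝ) (G : ℕ → ℝ)
    (N : ℕ → ℕ) (U b0 b1 : ℕ) (bX : ∀ y, Bm (X y)) (X0 : ∀ y a, 0 ≤ X y a) (G0 : ∀ y, 0 ≤ G y)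
    (h : ∀ j, b0 ≤ j → j < b1 → 1 ≤ N j ∧ N j ≤ U ∧
      Nb μ p (fun x => ∑ y ∈ Ico j (j + N j), X y x) (∑ y ∈ Ico j (j + N j), G y)) :
    Nb μ p (fun x => ∑ y ∈ Ico b0 b1, X y x) (∑ y ∈ Ico b0 (b1 + U), G y) :=
  cover_gen (Nb μ p) Bm X G N U b1 X0 G0 (fun _ _ => bm_sum _ fun y _ => bX y)
    (fun _ _ _ _ h1 h2 h3 h4 h5 => nb_le (nb_mono h1 h2 (fun a => by
      rw [abs_of_nonneg (h3 a).1]; exact (h3 a).2.trans (le_abs_self _)) h5) h4)
    (fun _ _ _ _ h1 h2 h3 h4 => nb_add hNb hp h1 h2 h3 h4)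
    (fun c hc => ⟨hc, by
      simp only [abs_zero, zero_pow (show p ≠ 0 by omega), integral_zero]; positivity⟩)
    b1 b0 (by omega) h

end basic

section sys
variable {α ι : Type} [MeasurableSpace α] [Fintype ι] {S : Sys α ι}

theorem rho_nonneg (j : ℕ) (a : α) : 0 ≤ S.rho j a := Finset.sum_nonneg fun _ _ => sq_nonneg _

theorem bm_rho (hS : S.Ok) (j : ℕ) : Bm (S.rho j) :=
  ⟨Finset.measurable_sum _ fun i _ => (hS.mm j i).pow_const 2, 1, fun a => by
    rw [abs_of_nonneg (rho_nonneg j a)]; exact hS.bd j a⟩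

theorem aa_nonneg (hS : S.Ok) (j : ℕ) (a : α) : 0 ≤ S.aa j a := hS.psd j a _

theorem bm_aa (hS : S.Ok) (j : ℕ) : Bm (S.aa j) :=
  ⟨Finset.measurable_sum _ fun i _ => Finset.measurable_sum _ fun k _ =>
    ((hS.mm j i).mul (hS.mm j k)).mul (hS.mA j i k), 1, fun a => by
    rw [abs_of_nonneg (aa_nonneg hS j a)]; exact (hS.bdB j a _).trans (hS.bd j a)⟩


/-- (W) at one node -/
theorem mom_node (hS : S.Ok) {p q j : ℕ} (hq : q ≤ p) {c M : ℝ}
    (h : Nb S.μ p (fun a => S.rho j a - c) M) : ∫ a, |S.rho j a - c| ^ q ∂S.μ ≤ M ^ q :=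
  haveI := hS.prob
  (nb_lyap (bm_sub (bm_rho hS j) (bm_const c)) hq h).2

/-- (A) weighted sums of `mᵀ A m` in `L^p` -/
theorem a_sum (hNb : NbS) (hS : S.Ok) {p : ℕ} (hp : 1 ≤ p) (N : ℕ → ℕ) (U b0 b1 : ℕ)
    (u ub Gf G : ℕ → ℝ) (u0 : ∀ y, 0 ≤ u y) (G0 : ∀ y, 0 ≤ G y)
    (hN : ∀ j, b0 ≤ j → j < b1 → 1 ≤ N j ∧ N j ≤ U)
    (hA : ∀ j, b0 ≤ j → j < b1 → Nb S.μ p (fun a => av j (N j) fun y => S.aa y a) (Gf j))
    (hu : ∀ j, b0 ≤ j → j < b1 → ∀ y ∈ Ico j (j + N j), u y ≤ ub j ∧ ub j * Gf j ≤ G y) :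
    Nb S.μ p (fun a => ∑ y ∈ Ico b0 b1, u y * S.aa y a) (∑ y ∈ Ico b0 (b1 + U), G y) := by
  have := hS.prob
  refine cover_nb hNb hp (fun y a => u y * S.aa y a) G N U b0 b1
    (fun y => bm_mul (bm_const _) (bm_aa hS y)) (fun y a => mul_nonneg (u0 y) (aa_nonneg hS y a))
    G0 fun j h1 h2 => ⟨(hN j h1 h2).1, (hN j h1 h2).2, ?_⟩
  have n1 := (hN j h1 h2).1
  have n0 : (0 : ℝ) < N j := by exact_mod_cast n1
  have ub0 : 0 ≤ ub j := (u0 j).trans (hu j h1 h2 j (Finset.mem_Ico.2 ⟨le_rfl, by omega⟩)).1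
  have k := nb_cmul (hA j h1 h2) (t := ub j * N j) (by positivity)
  refine nb_le (nb_mono (bm_sum _ fun y _ => bm_mul (bm_const _) (bm_aa hS y))
    (bm_mul (bm_const _) ?_) (fun a => ?_) k) ?_
  · simp only [av, div_eq_mul_inv]
    exact bm_mul (bm_sum _ fun y _ => bm_aa hS y) (bm_const _)
  · rw [abs_of_nonneg (Finset.sum_nonneg fun y _ => mul_nonneg (u0 y) (aa_nonneg hS y a))]
    refine le_trans ?_ (le_abs_self _)
    have : ub j * N j * av j (N j) (fun y => S.aa y a) = ∑ y ∈ Ico j (j + N j), ub j * S.aa y a := by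
      rw [← Finset.mul_sum, av]; field_simp
    rw [this]
    exact Finset.sum_le_sum fun y hy =>
      mul_le_mul_of_nonneg_right (hu j h1 h2 y hy).1 (aa_nonneg hS y a)
  · have := Finset.sum_le_sum fun y hy => (hu j h1 h2 y hy).2
    rw [Finset.sum_const, Nat.card_Ico, Nat.add_sub_cancel_left, nsmul_eq_mul] at this
    linarith

/-- (Q3) the joint bound, summed over a block -/
theorem q3_sum (hJ : JointS) (hS : S.Ok) {p q : ℕ} (hp : 1 ≤ p) (hq : q ≤ p) (N : ℕ → ℕ)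
    (U b0 b1 : ℕ) (c M u ub Gf G : ℕ → ℝ) {lam : ℝ} (hl : 1 ≤ lam) (u0 : ∀ y, 0 ≤ u y)
    (G0 : ∀ y, 0 ≤ G y) (hN : ∀ j, b0 ≤ j → j < b1 → 1 ≤ N j ∧ N j ≤ U)
    (hG : ∀ j, b0 ≤ j → j < b1 → 0 < Gf j ∧ 1 ≤ Gf j * lam ^ p)
    (hM : ∀ j, b0 ≤ j → j < b1 → ∀ y ∈ Ico j (j + N j),
      Nb S.μ p (fun a => S.rho y a - c y) (M j))
    (hA : ∀ j, b0 ≤ j → j < b1 → Nb S.μ p (fun a => av j (N j) fun y => S.aa y a) (Gf j))
    (hu : ∀ j, b0 ≤ j → j < b1 → ∀ y ∈ Ico j (j + N j),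
      u y ≤ ub j ∧ ub j * (2 * (lam * M j) ^ q * Gf j) ≤ G y) :
    ∑ y ∈ Ico b0 b1, u y * ∫ a, |S.rho y a - c y| ^ q * S.aa y a ∂S.μ ≤
      ∑ y ∈ Ico b0 (b1 + U), G y := by
  have f0 : ∀ y, 0 ≤ ∫ a, |S.rho y a - c y| ^ q * S.aa y a ∂S.μ := fun y =>
    integral_nonneg fun a => mul_nonneg (by positivity) (aa_nonneg hS y a)
  refine cover_real _ G N U b0 b1 (fun y => mul_nonneg (u0 y) (f0 y)) G0 fun j h1 h2 =>
    ⟨(hN j h1 h2).1, (hN j h1 h2).2, ?_⟩
  have n1 := (hN j h1 h2).1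
  have n0 : (0 : ℝ) < N j := by exact_mod_cast n1
  have ub0 : 0 ≤ ub j := (u0 j).trans (hu j h1 h2 j (Finset.mem_Ico.2 ⟨le_rfl, by omega⟩)).1
  have k := hJ α ι S hS p q j (N j) c (M j) (Gf j) lam n1 hq hp (hG j h1 h2).1 hl (hG j h1 h2).2
    (hM j h1 h2) (hA j h1 h2)
  rw [av, div_le_iff₀ n0] at k
  have s1 : ∑ y ∈ Ico j (j + N j), u y * ∫ a, |S.rho y a - c y| ^ q * S.aa y a ∂S.μ ≤
      ub j * ∑ y ∈ Ico j (j + N j), ∫ a, |S.rho y a - c y| ^ q * S.aa y a ∂S.μ := by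
    rw [Finset.mul_sum]
    exact Finset.sum_le_sum fun y hy => mul_le_mul_of_nonneg_right (hu j h1 h2 y hy).1 (f0 y)
  have s2 := Finset.sum_le_sum fun y hy => (hu j h1 h2 y hy).2
  rw [Finset.sum_const, Nat.card_Ico, Nat.add_sub_cancel_left, nsmul_eq_mul] at s2
  have s3 := mul_le_mul_of_nonneg_left k ub0
  nlinarith

/-- variance of a local functional of the overlaps whose gradient vanishes to order `k` -/
theorem var_loc (hS : S.Ok) (J : Finset ℕ) (g g' : ℕ → ℝ → ℝ) (c ψ : ℕ → ℝ) (k : ℕ)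
    (hg : ∀ j t, HasDerivAt (g j) (g' j t) t) (hc : ∀ j, Continuous (g' j))
    (hb : ∀ j ∈ J, ∀ t, 0 ≤ t → t ≤ 1 → |g' j t| ≤ ψ j * |t - c j| ^ k) :
    ∫ a, (∑ j ∈ J, S.dm j * g j (S.rho j a)) ^ 2 ∂S.μ -
      (∫ a, ∑ j ∈ J, S.dm j * g j (S.rho j a) ∂S.μ) ^ 2 ≤
    4 * ∑ j ∈ J, S.dm j * ψ j ^ 2 * ∫ a, |S.rho j a - c j| ^ (2 * k) * S.aa j a ∂S.μ := by
  have := hS.prob
  have h := hS.bl J g g' (fun t => t) (fun _ => 1) hg hc (fun t => hasDerivAt_id t)
    continuous_const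
  refine h.trans ?_
  simp only [one_pow, one_mul]
  have b2 : ∀ j, Bm fun a => |S.rho j a - c j| ^ (2 * k) * S.aa j a := fun j =>
    bm_mul (bm_pow (bm_abs (bm_sub (bm_rho hS j) (bm_const _))) _) (bm_aa hS j)
  have b1 : ∀ j, Bm fun a => g' j (S.rho j a) := fun j => by
    obtain ⟨C, hC⟩ := isCompact_Icc.exists_bound_of_continuousOn
      ((hc j).continuousOn (s := Set.Icc (0 : ℝ) 1))
    exact ⟨(hc j).measurable.comp (bm_rho hS j).1, C, fun a => hC _ ⟨rho_nonneg j a, hS.bd j a⟩⟩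
  rw [integral_const_mul]
  refine mul_le_mul_of_nonneg_left ?_ (by norm_num)
  simp only [← integral_const_mul]
  rw [← integral_finsetSum _ fun j _ => bm_int S.μ (bm_mul (bm_const _) (b2 j))]
  refine integral_mono (bm_int _ (bm_sum _ fun j _ =>
    bm_mul (bm_const _) (bm_mul (bm_pow (b1 j) 2) (bm_aa hS j))))
    (bm_int _ (bm_sum _ fun j _ => bm_mul (bm_const _) (b2 j))) fun a => ?_
  refine Finset.sum_le_sum fun j hj => ?_
  have e1 := pow_le_pow_left₀ (abs_nonneg _) (hb j hj _ (rho_nonneg j a) (hS.bd j a)) 2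
  rw [sq_abs, mul_pow, ← pow_mul, mul_comm k 2] at e1
  have := mul_le_mul_of_nonneg_left (mul_le_mul_of_nonneg_right e1 (aa_nonneg hS j a)) (hS.dm0 j)
  linarith


/-- what a block delivers: windows `N`, tolerance `τ`, on the nodes `[a0, a1]` -/
structure Out (S : Sys α ι) (p a0 a1 U : ℕ) (v A G Tt Tm l0 : ℝ) (c τ : ℕ → ℝ) (N : ℕ → ℕ) :
    Prop where
  v0 : 0 < v
  A0 : 0 ≤ A
  G0 : 0 < G
  N1 : ∀ j, 1 ≤ N j ∧ N j ≤ U
  Nv : ∀ j, N j * v ≤ τ j
  lo : ∀ j, l0 ≤ τ j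
  near : ∀ j, ∀ y ∈ Ico j (j + N j), τ y ≤ 2 * τ j ∧ τ j ≤ 2 * τ y
  sum2 : ∑ j ∈ Icc a0 a1, τ j ^ 2 ≤ Tt
  sup : ∀ j, a0 ≤ j → j ≤ a1 → τ j ≤ Tm
  loc : ∀ j, a0 ≤ j → j ≤ a1 → Nb S.μ p (fun a => S.rho j a - c j) (A * τ j)
  ric : ∀ j, a0 ≤ j → j ≤ a1 → Nb S.μ p (fun a => av j (N j) fun y => S.aa y a) G

namespace Out

variable {p a0 a1 U : ℕ} {v A G Tt Tm l0 : ℝ} {c τ : ℕ → ℝ} {N : ℕ → ℕ}

theorem tau0 (h : Out S p a0 a1 U v A G Tt Tm l0 c τ N) (j : ℕ) : 0 ≤ τ j :=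
  le_trans (mul_nonneg (Nat.cast_nonneg _) h.v0.le) (h.Nv j)

theorem sum_pow (h : Out S p a0 a1 U v A G Tt Tm l0 c τ N) (q : ℕ) {b0 b1 : ℕ} (h0 : a0 ≤ b0)
    (h1 : b1 ≤ a1 + 1) (hT : 0 ≤ Tm) : ∑ y ∈ Ico b0 b1, τ y ^ (q + 2) ≤ Tm ^ q * Tt := by
  calc ∑ y ∈ Ico b0 b1, τ y ^ (q + 2) ≤ ∑ y ∈ Ico b0 b1, Tm ^ q * τ y ^ 2 :=
        Finset.sum_le_sum fun y hy => by
          have hy := Finset.mem_Ico.1 hy
          rw [pow_add]
          exact mul_le_mul_of_nonneg_right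
            (pow_le_pow_left₀ (h.tau0 y) (h.sup y (by omega) (by omega)) q) (sq_nonneg _)
    _ ≤ Tm ^ q * ∑ y ∈ Icc a0 a1, τ y ^ 2 := by
        rw [← Finset.mul_sum]
        exact mul_le_mul_of_nonneg_left (Finset.sum_le_sum_of_subset_of_nonneg (fun y hy => by
          simp only [Finset.mem_Ico, Finset.mem_Icc] at *; omega) fun _ _ _ => sq_nonneg _)
          (pow_nonneg hT _)
    _ ≤ _ := mul_le_mul_of_nonneg_left h.sum2 (pow_nonneg hT _)

/-- **(W)** -/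
theorem W (h : Out S p a0 a1 U v A G Tt Tm l0 c τ N) (hS : S.Ok) {q b0 b1 : ℕ} (hq : q + 2 ≤ p)
    (h0 : a0 ≤ b0) (h1 : b1 ≤ a1 + 1) (hT : 0 ≤ Tm) (u : ℕ → ℝ) {Dm : ℝ} (hD : 0 ≤ Dm)
    (hu : ∀ y ∈ Ico b0 b1, u y ≤ Dm) :
    ∑ y ∈ Ico b0 b1, u y * ∫ a, |S.rho y a - c y| ^ (q + 2) ∂S.μ ≤
      Dm * A ^ (q + 2) * (Tm ^ q * Tt) := by
  calc _ ≤ ∑ y ∈ Ico b0 b1, Dm * A ^ (q + 2) * τ y ^ (q + 2) := Finset.sum_le_sum fun y hy => by
        have hy' := Finset.mem_Ico.1 hy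
        have := mom_node hS hq (h.loc y (by omega) (by omega))
        rw [mul_assoc, ← mul_pow]
        exact mul_le_mul (hu y hy) this (integral_nonneg fun a => by positivity) hD
    _ ≤ _ := by
        rw [← Finset.mul_sum]
        exact mul_le_mul_of_nonneg_left (h.sum_pow q h0 h1 hT)
          (mul_nonneg hD (pow_nonneg h.A0 _))


theorem N_le (h : Out S p a0 a1 U v A G Tt Tm l0 c τ N) {U' : ℕ} (hU : Tm ≤ U' * v) (j : ℕ)
    (h0 : a0 ≤ j) (h1 : j ≤ a1) : N j ≤ U' := by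
  have := ((h.Nv j).trans (h.sup j h0 h1)).trans hU
  exact_mod_cast le_of_mul_le_mul_right this h.v0

/-- **(Q3)** -/
theorem Q3 (h : Out S p a0 a1 U v A G Tt Tm l0 c τ N) (hJ : JointS) (hS : S.Ok) {q b0 b1 : ℕ}
    (hq : q + 2 ≤ p) (h0 : a0 ≤ b0) (h1 : b1 + U ≤ a1 + 1) (hT : 0 ≤ Tm) {lam : ℝ} (hl : 1 ≤ lam)
    (hG : 1 ≤ G * lam ^ p) (u : ℕ → ℝ) (u0 : ∀ y, 0 ≤ u y) {Dm : ℝ} (hD : 0 ≤ Dm)
    (hu : ∀ y ∈ Ico b0 (b1 + U), u y ≤ Dm) :
    ∑ y ∈ Ico b0 b1, u y * ∫ a, |S.rho y a - c y| ^ (q + 2) * S.aa y a ∂S.μ ≤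
      2 * Dm * G * (4 * lam * A) ^ (q + 2) * (Tm ^ q * Tt) := by
  have A0 := h.A0
  have G0 := h.G0
  have l0' : 0 ≤ lam := by linarith
  have k := q3_sum hJ hS (p := p) (q := q + 2) (by omega) hq N U b0 b1 c (fun j => A * (2 * τ j)) u
    (fun _ => Dm) (fun _ => G) (fun y => 2 * Dm * G * (4 * lam * A) ^ (q + 2) * τ y ^ (q + 2)) hl u0
    (fun y => by have := h.tau0 y; positivity) (fun j _ _ => h.N1 j) (fun _ _ _ => ⟨G0, hG⟩)
    (fun j a b y hy => nb_le (h.loc y (by simp only [Finset.mem_Ico] at hy; omega)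
      (by have := (h.N1 j).2; simp only [Finset.mem_Ico] at hy; omega))
      (mul_le_mul_of_nonneg_left (h.near j y hy).1 A0))
    (fun j a b => h.ric j (by omega) (by have := (h.N1 j).1; have := (h.N1 j).2; omega))
    fun j a b y hy => ⟨hu y (by have := (h.N1 j).2; simp only [Finset.mem_Ico] at *; omega), by
      have t0 := h.tau0 j
      have e : lam * (A * (2 * τ j)) ≤ 4 * lam * A * τ y := by
        have := mul_le_mul_of_nonneg_left (h.near j y hy).2 (mul_nonneg l0' A0)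
        nlinarith
      have e2 := pow_le_pow_left₀ (by positivity) e (q + 2)
      rw [mul_pow (4 * lam * A)] at e2
      have := mul_le_mul_of_nonneg_left e2 (show 0 ≤ 2 * Dm * G by positivity)
      linarith⟩
  refine k.trans ?_
  rw [← Finset.mul_sum]
  exact mul_le_mul_of_nonneg_left (h.sum_pow q h0 h1 hT) (by positivity)

/-- **(Q3), variance form**: `g_j' (t) = O(|t - c_j|^(k+1))` -/
theorem var (h : Out S p a0 a1 U v A G Tt Tm l0 c τ N) (hJ : JointS) (hS : S.Ok) {k b0 b1 : ℕ}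
    (hq : 2 * k + 2 ≤ p) (h0 : a0 ≤ b0) (h1 : b1 + U ≤ a1 + 1) (hT : 0 ≤ Tm) {lam : ℝ}
    (hl : 1 ≤ lam) (hG : 1 ≤ G * lam ^ p) (g g' : ℕ → ℝ → ℝ) (ψ : ℕ → ℝ)
    (hg : ∀ j t, HasDerivAt (g j) (g' j t) t) (hc : ∀ j, Continuous (g' j))
    (hb : ∀ j ∈ Ico b0 b1, ∀ t, 0 ≤ t → t ≤ 1 → |g' j t| ≤ ψ j * |t - c j| ^ (k + 1))
    {Dm : ℝ} (hD : 0 ≤ Dm) (hu : ∀ y ∈ Ico b0 (b1 + U), S.dm y * ψ y ^ 2 ≤ Dm) :
    ∫ a, (∑ j ∈ Ico b0 b1, S.dm j * g j (S.rho j a)) ^ 2 ∂S.μ -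
      (∫ a, ∑ j ∈ Ico b0 b1, S.dm j * g j (S.rho j a) ∂S.μ) ^ 2 ≤
    8 * Dm * G * (4 * lam * A) ^ (2 * k + 2) * (Tm ^ (2 * k) * Tt) := by
  have k1 := var_loc hS (Ico b0 b1) g g' c ψ (k + 1) hg hc hb
  have k2 := h.Q3 hJ hS hq h0 h1 hT hl hG (fun y => S.dm y * ψ y ^ 2)
    (fun y => mul_nonneg (hS.dm0 y) (sq_nonneg _)) hD hu
  rw [show 2 * (k + 1) = 2 * k + 2 by ring] at k1
  linarith

end Out


/-! ### the bulk block -/

/-- windows of clock length `τ`, at most `2 ^ L` nodes -/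
def Nw (L : ℕ) (v : ℝ) (τ : ℕ → ℝ) (j : ℕ) : ℕ := min ⌊τ j / v⌋₊ (2 ^ L)

section Nw
variable {L : ℕ} {v : ℝ} {τ : ℕ → ℝ}

theorem fl_ge (hv : 0 < v) {t : ℝ} (ht : 16 * v ≤ t) : 15 / 16 * t ≤ ⌊t / v⌋₊ * v := by
  have h1 := Nat.lt_floor_add_one (t / v)
  rw [div_lt_iff₀ hv] at h1
  linarith

theorem fl_le (hv : 0 < v) {t : ℝ} (ht : 0 ≤ t) : ⌊t / v⌋₊ * v ≤ t := by
  have h1 := Nat.floor_le (div_nonneg ht hv.le)
  rwa [le_div_iff₀ hv] at h1

theorem Nw_v (hv : 0 < v) {j : ℕ} (ht : 0 ≤ τ j) : Nw L v τ j * v ≤ τ j :=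
  le_trans (mul_le_mul_of_nonneg_right (by exact_mod_cast min_le_left _ _) hv.le) (fl_le hv ht)

theorem Nw_ge (hv : 0 < v) {j : ℕ} (ht : 16 * v ≤ τ j) {x : ℝ} (h1 : x ≤ 15 / 16 * τ j)
    (h2 : x ≤ 2 ^ L * v) : x ≤ Nw L v τ j * v := by
  unfold Nw
  rcases min_choice ⌊τ j / v⌋₊ (2 ^ L) with e | e <;> rw [e]
  · exact h1.trans (fl_ge hv ht)
  · exact_mod_cast h2

theorem Nw_one (hv : 0 < v) {j : ℕ} (ht : 16 * v ≤ τ j) : 1 ≤ Nw L v τ j := by
  have h := Nw_ge (L := L) hv ht (x := 1 * v) (by linarith)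
    (mul_le_mul_of_nonneg_right (one_le_pow₀ (by norm_num)) hv.le)
  exact_mod_cast le_of_mul_le_mul_right h hv

theorem Nw_two (hv : 0 < v) {i j : ℕ} (hi : 0 ≤ τ i) (ht : 16 * v ≤ τ j)
    (h : τ i ≤ 15 / 8 * τ j) : Nw L v τ i ≤ 2 * Nw L v τ j := by
  have h1 := Nw_v (L := L) hv hi
  have h2 : (Nw L v τ i : ℝ) ≤ 2 ^ L := by exact_mod_cast min_le_right _ _
  have h3 := Nw_ge (L := L) hv ht (x := Nw L v τ i / 2 * v) (by linarith)
    (mul_le_mul_of_nonneg_right (by linarith [Nat.cast_nonneg (α := ℝ) (Nw L v τ i)]) hv.le)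
  have h4 := le_of_mul_le_mul_right h3 hv
  have : (Nw L v τ i : ℝ) ≤ 2 * Nw L v τ j := by linarith
  exact_mod_cast this

theorem lip_near (hv : 0 < v) (lip : ∀ i j : ℕ, |τ i - τ j| ≤ |(i : ℝ) - j| * v / 16) {i j M : ℕ}
    (h1 : i ≤ j + M) (h2 : j ≤ i + M) : |τ i - τ j| ≤ M * v / 16 := by
  refine (lip i j).trans ?_
  have a1 : (i : ℝ) ≤ j + M := by exact_mod_cast h1
  have a2 : (j : ℝ) ≤ i + M := by exact_mod_cast h2
  have : |(i : ℝ) - j| ≤ M := abs_le.2 ⟨by linarith, by linarith⟩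
  gcongr

end Nw

/-- the data of a bulk block -/
structure Blk (S : Sys α ι) (L j0 j1 H Q : ℕ) (v l2 l3 K l0 δ Sg : ℝ) (c : ℕ → ℝ) : Prop where
  v0 : 0 < v
  l20 : 0 < l2
  l30 : 0 < l3
  K2 : 2 ≤ K
  clk : ∀ i j, i ≤ j → 0 ≤ c j - c i ∧ c j - c i ≤ (j - i : ℝ) * v
  c02 : ∀ j, 0 ≤ c j ∧ c j ≤ 2
  cK : ∀ j, j0 ≤ j → j ≤ j1 → c j ≤ K * (2 ^ L * v)
  H0 : H ≤ j0
  crude : ∀ j, j0 ≤ j → j ≤ j1 → |S.r j - c j| ≤ H * v
  HK : (H : ℝ) ≤ K * 2 ^ L
  HQ : H * v ≤ 2 ^ Q * l0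
  l16 : 16 * v ≤ l0
  lU : l0 ≤ 2 * (2 ^ L * v)
  T4 : 2 * (((L : ℝ) + 2) ^ 2 * l2) ≤ l0 ^ 2
  δ0 : 0 < δ
  dm : ∀ y, j0 ≤ y + 2 ^ L → y < j1 + 2 ^ L → δ ≤ S.dm y
  T3 : 4 * v * (((L : ℝ) + 2) ^ 2 * l3) ≤ δ * l0 ^ 3
  rms : ∑ j ∈ Icc (j0 - H) (j1 + H), (S.r j - c j) ^ 2 ≤ Sg

theorem Blk.win {L j0 j1 H Q : ℕ} {v l2 l3 K l0 δ Sg : ℝ} {c τ : ℕ → ℝ}
    (h : Blk S L j0 j1 H Q v l2 l3 K l0 δ Sg c) (lo : ∀ j, l0 ≤ τ j)
    (loc : ∀ j, j0 ≤ j → j ≤ j1 → |S.r j - c j| ≤ τ j)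
    (lip : ∀ i j : ℕ, |τ i - τ j| ≤ |(i : ℝ) - j| * v / 16) :
    S.Win L v l2 l3 K j0 j1 (Nw L v τ) τ c fun _ => δ := by
  have hv := h.v0
  have K2 := h.K2
  have t16 : ∀ j, 16 * v ≤ τ j := fun j => h.l16.trans (lo j)
  have t0 : ∀ j, 0 ≤ τ j := fun j => by linarith [t16 j]
  have l00 : 0 ≤ l0 := by linarith [h.l16]
  have Nv : ∀ j, Nw L v τ j * v ≤ τ j := fun j => Nw_v hv (t0 j)
  have Nl : ∀ j, l0 / 2 ≤ Nw L v τ j * v := fun j =>
    Nw_ge hv (t16 j) (by linarith [lo j]) (by linarith [h.lU])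
  have NU : ∀ j, Nw L v τ j ≤ 2 ^ L := fun j => min_le_right _ _
  refine ⟨hv, by linarith, h.l20, h.l30, fun j => Nw_one hv (t16 j), NU, h.clk, h.c02, Nv, loc,
    fun i j _ _ _ _ h1 h2 => ?_, fun i j _ _ h1 _ => ?_, fun j h1 h2 => ?_, fun j _ _ => ?_,
    fun j h1 h2 => Or.inr ⟨h.δ0, fun y a b => h.dm y (by have := NU j; omega)
      (by have := NU j; omega), ?_⟩⟩
  · have k := abs_le.1 (lip_near hv lip h1 h2)
    push_cast at k
    have := Nv j
    have := t0 j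
    exact ⟨Nw_two hv (t0 i) (t16 j) (by linarith [k.2]), Nw_two hv (t0 j) (t16 i) (by linarith [k.1]),
      by nlinarith [k.2]⟩
  · have a1 : (i : ℝ) + Nw L v τ j ≤ j := by exact_mod_cast h1
    have n0 : (0 : ℝ) ≤ Nw L v τ j := Nat.cast_nonneg _
    have k := (abs_le.1 (lip i j)).2
    rw [abs_of_nonpos (by linarith)] at k
    have e1 := mul_le_mul_of_nonneg_right k n0
    have e2 := mul_le_mul_of_nonneg_left (Nv j) (show 0 ≤ (j : ℝ) - i by linarith)
    have e3 := mul_le_mul_of_nonneg_left (show (Nw L v τ j : ℝ) ≤ j - i by linarith) (t0 j)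
    have e4 : 0 ≤ τ j * ((j : ℝ) - i) := mul_nonneg (t0 j) (by linarith)
    nlinarith
  · have e1 := mul_le_mul_of_nonneg_right (h.cK j h1 h2) (Nat.cast_nonneg (α := ℝ) (Nw L v τ j))
    have e2 := mul_le_mul_of_nonneg_left (Nv j) (show 0 ≤ K * 2 ^ L by positivity)
    nlinarith
  · have := mul_le_mul (lo j) (Nl j) (by linarith) (t0 j)
    nlinarith [h.T4]
  · have e1 : l0 / 2 * (l0 * (l0 / 2)) ≤ Nw L v τ j * v * (τ j * (Nw L v τ j * v)) :=
      mul_le_mul (Nl j) (mul_le_mul (lo j) (Nl j) (by linarith) (t0 j)) (by positivity)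
        (by positivity)
    have e2 := mul_le_mul_of_nonneg_left e1 h.δ0.le
    have e3 := h.T3
    refine le_of_mul_le_mul_left ?_ hv
    nlinarith


end sys

end Crest.Agent.T156.Q57.Blk24
end
end

-- ▼ part T156/LpP_43
section

/-!
# Row 156: `L^p` bound for the overlap of a pair split at a node (helper43)
-/

set_option autoImplicit false
set_option linter.unusedSectionVars false

noncomputable section

namespace Crest.Agent.T156.Cas.LpR43

open MeasureTheory Real Set Filter Topology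
open Crest.Agent.T157.E Crest.Agent.T157.Casc Crest.Agent.T157.SL
open Sy41 Lp12

variable {Ω : Type} [Fintype Ω] {w : Ω → ℝ}

/-! ### adapted weights -/



/-! ### separable functions of two states -/

/-- finite sums of products -/
def Sep (Ψ : (Ω → ℝ) → (Ω → ℝ) → ℝ) : Prop := ∃ (κ : Type) (_ : Fintype κ)
  (a b : κ → (Ω → ℝ) → ℝ), (∀ k, Eg (a k)) ∧ (∀ k, Eg (b k)) ∧ ∀ z z', Ψ z z' = ∑ k, a k z * b k z'

section sep
variable {Ψ Ψ' : (Ω → ℝ) → (Ω → ℝ) → ℝ}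

theorem Sep.of {κ : Type} [Fintype κ] {a b : κ → (Ω → ℝ) → ℝ} (ha : ∀ k, Eg (a k))
    (hb : ∀ k, Eg (b k)) : Sep fun z z' => ∑ k, a k z * b k z' :=
  ⟨κ, inferInstance, a, b, ha, hb, fun _ _ => rfl⟩

theorem Sep.const (c : ℝ) : Sep fun (_ _ : Ω → ℝ) => c :=
  ⟨Unit, inferInstance, fun _ _ => c, fun _ _ => 1, fun _ => Eg.const _, fun _ => Eg.const _,
    fun _ _ => by simp⟩

theorem Sep.add (h : Sep Ψ) (h' : Sep Ψ') : Sep fun z z' => Ψ z z' + Ψ' z z' := by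
  obtain ⟨κ, _, a, b, ha, hb, e⟩ := h
  obtain ⟨κ', _, a', b', ha', hb', e'⟩ := h'
  refine ⟨κ ⊕ κ', inferInstance, Sum.elim a a', Sum.elim b b', ?_, ?_, fun z z' => ?_⟩
  · rintro (k | k); exacts [ha k, ha' k]
  · rintro (k | k); exacts [hb k, hb' k]
  · simp [e, e']

theorem Sep.mul (h : Sep Ψ) (h' : Sep Ψ') : Sep fun z z' => Ψ z z' * Ψ' z z' := by
  obtain ⟨κ, _, a, b, ha, hb, e⟩ := h
  obtain ⟨κ', _, a', b', ha', hb', e'⟩ := h'
  refine ⟨κ × κ', inferInstance, fun k z => a k.1 z * a' k.2 z, fun k z => b k.1 z * b' k.2 z,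
    fun k => (ha _).mul (ha' _), fun k => (hb _).mul (hb' _), fun z z' => ?_⟩
  beta_reduce
  rw [e, e', Finset.sum_mul_sum, Fintype.sum_prod_type]
  exact Finset.sum_congr rfl fun _ _ => Finset.sum_congr rfl fun _ _ => by ring

theorem Sep.pow (h : Sep Ψ) : ∀ n : ℕ, Sep fun z z' => Ψ z z' ^ n
  | 0 => by simpa using Sep.const 1
  | n + 1 => by simpa only [pow_succ] using (h.pow n).mul h

theorem Sep.right (h : Sep Ψ) (z : Ω → ℝ) : Eg (Ψ z) := by
  obtain ⟨κ, _, a, b, -, hb, e⟩ := h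
  rw [funext (e z)]
  exact Eg.sum _ fun k _ => (hb k).const_mul _

/-- expectation over two branches started at `z` -/
def TT2 (w : Ω → ℝ) (N : List (Lv Ω)) (c c' : ℕ) (Ψ : (Ω → ℝ) → (Ω → ℝ) → ℝ) (z : Ω → ℝ) : ℝ :=
  node w N c (fun u => node w N c' (Ψ u) z) z

theorem Sep.eg_in (h : Sep Ψ) (hw : Wt w) (N : List (Lv Ω)) (c' : ℕ) (z : Ω → ℝ) :
    Eg fun u => node w N c' (Ψ u) z := by
  obtain ⟨κ, _, a, b, ha, hb, e⟩ := h
  simp only [fun u => funext (e u), node_sep hw _ hb]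
  exact Eg.sum _ fun k _ => (ha k).mul_const _

theorem TT2_sep (hw : Wt w) {κ : Type} [Fintype κ] {a b : κ → (Ω → ℝ) → ℝ} (ha : ∀ k, Eg (a k))
    (hb : ∀ k, Eg (b k)) (N : List (Lv Ω)) (c c' : ℕ) (z : Ω → ℝ) :
    TT2 w N c c' (fun u u' => ∑ k, a k u * b k u') z = ∑ k, node w N c (a k) z * node w N c' (b k) z := by
  simp only [TT2, node_sep hw _ hb]
  simp only [mul_comm (a _ _), node_sep hw _ ha]
  simp only [mul_comm]

theorem Sep.eg_TT2 (h : Sep Ψ) (hw : Wt w) (N : List (Lv Ω)) (c c' : ℕ) : Eg (TT2 w N c c' Ψ) := by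
  obtain ⟨κ, _, a, b, ha, hb, e⟩ := h
  rw [show Ψ = fun u u' => ∑ k, a k u * b k u' from funext fun u => funext (e u),
    funext (TT2_sep hw ha hb N c c')]
  exact Eg.sum _ fun k _ => ((ha k).node hw N c).mul ((hb k).node hw N c')

theorem Sep.swap (h : Sep Ψ) (hw : Wt w) (N : List (Lv Ω)) (c c' : ℕ) (z : Ω → ℝ) :
    TT2 w N c c' Ψ z = TT2 w N c' c (fun u u' => Ψ u' u) z := by
  obtain ⟨κ, _, a, b, ha, hb, e⟩ := h
  rw [show Ψ = fun u u' => ∑ k, a k u * b k u' from funext fun u => funext (e u),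
    TT2_sep hw ha hb]
  simp only [mul_comm (a _ _), TT2_sep hw hb ha]
  simp only [mul_comm]

end sep

theorem add_pow_le_w {A B : ℝ} (hA : 0 < A) (hB : 0 < B) (u v : ℝ) (n : ℕ) :
    (u + v) ^ (2 * n) ≤ (A + B) ^ (2 * n) * (A / (A + B) / A ^ (2 * n)) * u ^ (2 * n) +
      (A + B) ^ (2 * n) * (B / (A + B) / B ^ (2 * n)) * v ^ (2 * n) := by
  have h := (even_two_mul n).convexOn_pow (𝕜 := ℝ) |>.2 (mem_univ (u / A)) (mem_univ (v / B))
    (by positivity : 0 ≤ A / (A + B)) (by positivity : 0 ≤ B / (A + B)) (by field_simp)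
  simp only [smul_eq_mul] at h
  have e : u + v = (A + B) * (A / (A + B) * (u / A) + B / (A + B) * (v / B)) := by field_simp
  rw [e, mul_pow]
  refine (mul_le_mul_of_nonneg_left h (by positivity)).trans_eq ?_
  simp only [div_pow]
  ring

theorem mink_fin {A B x y d : ℝ} {k : ℕ} (hA : 0 < A) (hB : 0 < B) (hx : x ≤ A ^ k) (hy : y ≤ B ^ k)
    (h : d ≤ (A + B) ^ k * (A / (A + B) / A ^ k) * x + (A + B) ^ k * (B / (A + B) / B ^ k) * y) :
    d ≤ (A + B) ^ k := by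
  refine h.trans ((add_le_add (mul_le_mul_of_nonneg_left hx (by positivity))
    (mul_le_mul_of_nonneg_left hy (by positivity))).trans_eq ?_)
  field_simp

/-- `(m¹_c · m²_{c'} - q)^{2n}` -/
def Ps (w : Ω → ℝ) (L : List (Lv Ω)) (l₀ : Lv Ω) (q : ℝ) (n c c' : ℕ) (u u' : Ω → ℝ) : ℝ :=
  (∑ i, mv w (L.drop c) l₀ u i * mv w (L.drop c') l₀ u' i + -q) ^ (2 * n)

theorem sep_Ps (hw : Wt w) (L : List (Lv Ω)) (l₀ : Lv Ω) (q : ℝ) (n c c' : ℕ) :
    Sep (Ps w L l₀ q n c c') :=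
  ((Sep.of (eg_mv hw (L.drop c) l₀) (eg_mv hw (L.drop c') l₀)).add (Sep.const _)).pow _

/-- its mean for a pair split at the node `j` -/
def DD (w : Ω → ℝ) (L : List (Lv Ω)) (l₀ : Lv Ω) (h : Ω → ℝ) (q : ℝ) (n j c c' : ℕ) : ℝ :=
  node w L j (TT2 w (L.drop j) (c - j) (c' - j) (Ps w L l₀ q n c c')) h

theorem DD_swap (hw : Wt w) (L : List (Lv Ω)) (l₀ : Lv Ω) (h : Ω → ℝ) (q : ℝ) (n j c c' : ℕ) :
    DD w L l₀ h q n j c c' = DD w L l₀ h q n j c' c := by
  unfold DD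
  congr 1
  funext z
  rw [(sep_Ps hw L l₀ q n c c').swap hw]
  congr 1
  funext u u'
  simp only [Ps, mul_comm]

theorem rr_pow_mono (hw : Wt w) (L : List (Lv Ω)) (l₀ : Lv Ω) (h : Ω → ℝ) (n : ℕ) {c c' : ℕ}
    (hc : c ≤ c') : node w L c (fun z => rr w (L.drop c) l₀ z ^ n) h ≤
      node w L c' (fun z => rr w (L.drop c') l₀ z ^ n) h := by
  have r0 : ∀ (N : List (Lv Ω)) z, 0 ≤ rr w N l₀ z := fun _ _ =>
    Finset.sum_nonneg fun _ _ => sq_nonneg _
  rw [← node_tower L hc]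
  refine node_mono hw ((eg_rr hw _ l₀).pow n) (((eg_rr hw _ l₀).pow n).node hw _ _) (fun z => ?_) _ _ h
  refine le_trans (pow_le_pow_left₀ (r0 _ z) ?_ n) (node_pow_le hw (eg_rr hw _ l₀) (r0 _) _ _ z n)
  rw [← sub_nonneg, ← node_incr' hw L l₀ hc]
  exact node_nonneg w (fun z => Finset.sum_nonneg fun i _ => sq_nonneg _) _ _ _

/-- start of the chain: both branches at the node `c` -/
theorem DD_base (hw : Wt w) (L : List (Lv Ω)) (l₀ : Lv Ω) (h : Ω → ℝ) (q : ℝ) (n : ℕ) {j c : ℕ}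
    (hjc : j ≤ c) : DD w L l₀ h q n j c c ≤ EE w L h fun p => (|rr w (L.drop c) l₀ (p c) - q| +
      2 * ∑ i, (mv w (L.drop c) l₀ (p c) i - mv w (L.drop j) l₀ (p j) i) ^ 2) ^ (2 * n) := by
  set G : (Ω → ℝ) → (Ω → ℝ) → ℝ := fun z u => (|rr w (L.drop c) l₀ u - q| +
    2 * ∑ i, (mv w (L.drop c) l₀ u i - mv w (L.drop j) l₀ z i) ^ 2) ^ (2 * n) with hG
  have eG : ∀ z, Eg (G z) := fun z => (((eg_rr hw _ l₀).sub (Eg.const q)).abs.add
    ((Eg.sum _ fun i _ => ((eg_mv hw _ l₀ i).sub (Eg.const _)).pow 2).const_mul 2)).pow _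
  have pG : EP fun p => G (p j) (p c) := (((EP.state (eg_rr hw _ l₀) c).sub (EP.const q)).abs.add
    ((ep_sq fun i => (ep_mv hw _ l₀ c i).sub (ep_mv hw _ l₀ j i)).const_mul 2)).pow _
  have hs := sep_Ps hw L l₀ q n c c
  rw [DD, ← EE_node hw, EE_tower hw j L h fun p => G (p j) (p c)]
  refine EE_mono hw L h (EP.state (hs.eg_TT2 hw _ _ _) j) (ep_CE hw L j pG) fun p => ?_
  rw [CE_node hw L hjc (Lp12.Ad.state le_rfl fun z => z) G]
  generalize p j = z
  have key : ∀ u u', Ps w L l₀ q n c c u u' ≤ 1 / 2 * G z u + 1 / 2 * G z u' := fun u u' => by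
    have h1 := (even_two_mul n).convexOn_pow (𝕜 := ℝ) |>.2
      (mem_univ (|rr w (L.drop c) l₀ u - q| +
        2 * ∑ i, (mv w (L.drop c) l₀ u i - mv w (L.drop j) l₀ z i) ^ 2))
      (mem_univ (|rr w (L.drop c) l₀ u' - q| +
        2 * ∑ i, (mv w (L.drop c) l₀ u' i - mv w (L.drop j) l₀ z i) ^ 2))
      (by norm_num : (0 : ℝ) ≤ 1 / 2) (by norm_num : (0 : ℝ) ≤ 1 / 2) (by norm_num)
    simp only [smul_eq_mul] at h1
    refine le_trans ?_ h1
    rw [Ps, ← (even_two_mul n).pow_abs]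
    refine pow_le_pow_left₀ (abs_nonneg _) ?_ _
    simp only [rr]
    generalize mv w (L.drop c) l₀ u = a
    generalize mv w (L.drop c) l₀ u' = b
    generalize mv w (L.drop j) l₀ z = m
    have h2 : ∑ i, a i * b i = (∑ i, a i ^ 2 + ∑ i, b i ^ 2 - ∑ i, (a i - b i) ^ 2) / 2 := by
      rw [← Finset.sum_add_distrib, ← Finset.sum_sub_distrib, Finset.sum_div]
      exact Finset.sum_congr rfl fun _ _ => by ring
    have h3 : ∑ i, (a i - b i) ^ 2 ≤ 2 * ∑ i, (a i - m i) ^ 2 + 2 * ∑ i, (b i - m i) ^ 2 := by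
      rw [Finset.mul_sum, Finset.mul_sum, ← Finset.sum_add_distrib]
      exact Finset.sum_le_sum fun i _ => by nlinarith [sq_nonneg (a i + b i - 2 * m i)]
    have h4 : 0 ≤ ∑ i, (a i - b i) ^ 2 := Finset.sum_nonneg fun _ _ => sq_nonneg _
    rw [h2, abs_le]
    constructor <;> linarith [le_abs_self (∑ i, a i ^ 2 - q), neg_abs_le (∑ i, a i ^ 2 - q),
      le_abs_self (∑ i, b i ^ 2 - q), neg_abs_le (∑ i, b i ^ 2 - q)]
  set c0 := node w (L.drop j) (c - j) (G z) z with hc0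
  have k2 : ∀ u, node w (L.drop j) (c - j) (Ps w L l₀ q n c c u) z ≤ 1 / 2 * G z u + 1 / 2 * c0 :=
    fun u => by
      have := node_le2 hw (hs.right u) (Eg.const (G z u)) (eG z) (key u) (L.drop j) (c - j) z
      rwa [node_const hw] at this
  have := node_le2 hw (hs.eg_in hw (L.drop j) (c - j) z) (eG z) (Eg.const c0) k2 (L.drop j) (c - j) z
  rw [node_const hw] at this
  exact this.trans_eq (by rw [← hc0]; ring)

section pair
variable (hw : Wt w) {L : List (Lv Ω)} (hL : Mono 0 L) (l₀ : Lv Ω) {τ : ℕ → ℝ}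
  (hτ : ∀ k (hk : k < L.length), Dom L[k] l₀ (τ k))
include hw hL hτ

/-- one branch, fixed direction: from the node `c` to the leaf -/
theorem one_leaf {j c : ℕ} {θ : ℝ} (H : Win L τ j c θ) (v : l₀.ι → ℝ) (q : ℝ) (n : ℕ) {A B : ℝ}
    (hA : 0 < A) (hB : 0 < B) (z : Ω → ℝ) :
    Pf w (L.drop j) z (fun s => (l₀.fld v s + -q) ^ (2 * n)) ≤
      (A + B) ^ (2 * n) * (A / (A + B) / A ^ (2 * n)) * node w (L.drop j) (c - j)
        (fun u => (∑ i, v i * mv w (L.drop c) l₀ u i + -q) ^ (2 * n)) z +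
      (A + B) ^ (2 * n) * (B / (A + B) / B ^ (2 * n)) * (cK n * (θ * ∑ i, v i ^ 2) ^ n) := by
  have h1 := node_sum_P hw (fun s => (l₀.fld v s + -q) ^ (2 * n)) (L.drop j) (c - j) z
  rw [List.drop_drop, Nat.add_sub_cancel' H.le] at h1
  rw [Pf, ← h1]
  refine (node_le2 hw (Hess87.eg_Pf hw (L.drop c) _)
    (((Eg.sum _ fun i _ => (eg_mv hw (L.drop c) l₀ i).const_mul (v i)).add (Eg.const _)).pow _)
    (eg_Mk hw (L.drop c) (l₀.fld v) n) (fun u => ?_) _ _ z).trans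
    (add_le_add le_rfl (mul_le_mul_of_nonneg_left (er_Mk hw hL l₀ hτ H v n z) (by positivity)))
  have e : ∑ i, v i * mv w (L.drop c) l₀ u i = Pf w (L.drop c) u (l₀.fld v) := by
    simp only [Pf_fld, mul_comm]
  rw [e, Mk]
  generalize Pf w (L.drop c) u (l₀.fld v) = m
  have h2 : ∀ s, (l₀.fld v s + -q) ^ (2 * n) ≤ _ := fun s =>
    (congrArg (· ^ (2 * n)) (by ring : l₀.fld v s + -q = (m + -q) + (l₀.fld v s - m))).trans_le
      (add_pow_le_w hA hB _ _ n)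
  refine (Finset.sum_le_sum fun s _ => mul_le_mul_of_nonneg_left (h2 s)
    (P_nonneg hw _ u s)).trans_eq ?_
  simp only [mul_add, Finset.sum_add_distrib, ← Finset.sum_mul, sum_P hw, one_mul, Pf,
    mul_left_comm (P w _ u _) (_ * _), ← Finset.mul_sum]

/-- one branch, fixed direction: from the node `c` to the node `c'` -/
theorem one_step {j c c' : ℕ} {θ : ℝ} (H : Win L τ j c θ) (hc : c ≤ c') (v : l₀.ι → ℝ) (q : ℝ)
    (n : ℕ) {A B : ℝ} (hA : 0 < A) (hB : 0 < B) (z : Ω → ℝ) :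
    node w (L.drop j) (c' - j) (fun u => (∑ i, v i * mv w (L.drop c') l₀ u i + -q) ^ (2 * n)) z ≤
      (A + B) ^ (2 * n) * (A / (A + B) / A ^ (2 * n)) * node w (L.drop j) (c - j)
        (fun u => (∑ i, v i * mv w (L.drop c) l₀ u i + -q) ^ (2 * n)) z +
      (A + B) ^ (2 * n) * (B / (A + B) / B ^ (2 * n)) * (cK n * (θ * ∑ i, v i ^ 2) ^ n) := by
  refine le_trans ?_ (one_leaf hw hL l₀ hτ H v q n hA hB z)
  have h1 := node_sum_P hw (fun s => (l₀.fld v s + -q) ^ (2 * n)) (L.drop j) (c' - j) z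
  rw [List.drop_drop, Nat.add_sub_cancel' (H.le.trans hc)] at h1
  rw [Pf, ← h1]
  refine node_mono hw
    (((Eg.sum _ fun i _ => (eg_mv hw (L.drop c') l₀ i).const_mul (v i)).add (Eg.const _)).pow _)
    (Hess87.eg_Pf hw (L.drop c') _) (fun u => ?_) _ _ z
  have e : ∑ i, v i * mv w (L.drop c') l₀ u i + -q =
      ∑ s, P w (L.drop c') u s * (l₀.fld v s + -q) := by
    simp only [mul_add, Finset.sum_add_distrib, ← Finset.sum_mul, sum_P hw, one_mul]
    congr 1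
    simpa only [mul_comm, Pf] using (Pf_fld (w := w) (L.drop c') l₀ u v).symm
  rw [e]
  exact Real.pow_arith_mean_le_arith_mean_pow_of_even Finset.univ _ _
    (fun s _ => P_nonneg hw _ u s) (sum_P hw _ u) (even_two_mul n)

theorem DD_step {j c c' c'' : ℕ} {θ : ℝ} (hjc : j ≤ c) (H : Win L τ j c' θ) (hc : c' ≤ c'')
    (h : Ω → ℝ) (q : ℝ) (n : ℕ) {A B : ℝ} (hA : 0 < A) (hB : 0 < B)
    (h1 : DD w L l₀ h q n j c c' ≤ A ^ (2 * n))
    (h2 : cK n * θ ^ n * node w L c (fun z => rr w (L.drop c) l₀ z ^ n) h ≤ B ^ (2 * n)) :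
    DD w L l₀ h q n j c c'' ≤ (A + B) ^ (2 * n) := by
  refine mink_fin hA hB h1 h2 ?_
  have s1 := sep_Ps hw L l₀ q n c c'
  have s2 := sep_Ps hw L l₀ q n c c''
  have er := ((eg_rr hw (L.drop c) l₀).pow n).const_mul (cK n * θ ^ n)
  rw [← congrFun (node_const_mul w _ _ L c) h, ← node_tower L hjc]
  refine node_le2 hw (s2.eg_TT2 hw _ _ _) (s1.eg_TT2 hw _ _ _) (er.node hw _ _) (fun z => ?_) L j h
  refine node_le2 hw (s2.eg_in hw _ _ z) (s1.eg_in hw _ _ z) er (fun u => ?_) _ _ z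
  refine (one_step hw hL l₀ hτ H hc (mv w (L.drop c) l₀ u) q n hA hB z).trans_eq ?_
  rw [mul_pow θ, ← mul_assoc (cK n)]
  rfl

theorem DD_leaf {j c : ℕ} {θ Λ : ℝ} (H : Win L τ j c θ) (hΛ : ∀ x, l₀.cov x x ≤ Λ) (h : Ω → ℝ)
    (q : ℝ) (n : ℕ) {A B : ℝ} (hA : 0 < A) (hB : 0 < B)
    (h1 : DD w L l₀ h q n j c c ≤ A ^ (2 * n)) (h2 : cK n * (θ * Λ) ^ n ≤ B ^ (2 * n)) :
    pi2 w L j (fun x y => (l₀.cov x y - q) ^ (2 * n)) h ≤ (A + B + B) ^ (2 * n) := by
  have hθ := H.pos hL l₀ hτ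
  have hK := cK_pos n
  have s1 := sep_Ps hw L l₀ q n c c
  have nA : ∀ x, ∑ i, l₀.A x i ^ 2 ≤ Λ := fun x => by simpa only [Lv.cov, sq] using hΛ x
  have nm : ∀ u, ∑ i, mv w (L.drop c) l₀ u i ^ 2 ≤ Λ := fun u => by
    refine le_trans ?_ (sum_P_le hw (L.drop c) u (f := fun x => ∑ i, l₀.A x i ^ 2) fun x _ => nA x)
    simp only [Finset.mul_sum]
    rw [Finset.sum_comm]
    exact Finset.sum_le_sum fun i _ => Real.pow_arith_mean_le_arith_mean_pow_of_even Finset.univ _ _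
      (fun s _ => P_nonneg hw _ u s) (sum_P hw _ u) even_two
  have bd : ∀ v : l₀.ι → ℝ, ∑ i, v i ^ 2 ≤ Λ → cK n * (θ * ∑ i, v i ^ 2) ^ n ≤ B ^ (2 * n) :=
    fun v hv => le_trans (by gcongr) h2
  -- leaf on the first branch, node `c` on the second
  set Φ : (Ω → ℝ) → Ω → ℝ := fun u s => (l₀.fld (mv w (L.drop c) l₀ u) s + -q) ^ (2 * n) with hΦ
  have eΦ : ∀ s, Eg fun u => Φ u s := fun s =>
    ((eg_fld l₀ (eg_mv hw _ l₀) s).add (Eg.const _)).pow _
  have e1 : ∀ z, node w (L.drop j) (c - j) (fun u => Pf w (L.drop j) z (Φ u)) z =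
      ∑ s, P w (L.drop j) z s * node w (L.drop j) (c - j) (fun u => Φ u s) z := fun z =>
    node_sep hw _ eΦ _ _ z
  have g1 : Eg fun z => ∑ s, P w (L.drop j) z s * node w (L.drop j) (c - j) (fun u => Φ u s) z :=
    Eg.sum _ fun s _ => (eg_P hw _ s).mul ((eΦ s).node hw _ _)
  have m1 : node w L j (fun z => ∑ s, P w (L.drop j) z s *
      node w (L.drop j) (c - j) (fun u => Φ u s) z) h ≤ (A + B) ^ (2 * n) := by
    refine mink_fin hA hB h1 le_rfl ?_
    have := node_le2 hw g1 (s1.eg_TT2 hw (L.drop j) (c - j) (c - j)) (Eg.const (B ^ (2 * n)))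
      (a := (A + B) ^ (2 * n) * (A / (A + B) / A ^ (2 * n)))
      (b := (A + B) ^ (2 * n) * (B / (A + B) / B ^ (2 * n))) (fun z => ?_) L j h
    · rwa [node_const hw] at this
    have := node_le2 hw (Eg.sum Finset.univ fun s _ => (eΦ s).const_mul (P w (L.drop j) z s))
      (s1.eg_in hw (L.drop j) (c - j) z) (Eg.const (B ^ (2 * n))) (fun u =>
        (one_leaf hw hL l₀ hτ H (mv w (L.drop c) l₀ u) q n hA hB z).trans (add_le_add le_rfl
          (mul_le_mul_of_nonneg_left (bd _ (nm u)) (by positivity)))) (L.drop j) (c - j) z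
    rw [node_const hw] at this
    exact (e1 z).symm.trans_le this
  have hAB : 0 < A + B := by positivity
  refine mink_fin hAB hB m1 le_rfl ?_
  have := node_le2 hw (Φ := fun z => qf (P w (L.drop j) z) fun x y => (l₀.cov x y - q) ^ (2 * n))
    (Eg.sum _ fun x _ => Eg.sum _ fun y _ => ((eg_P hw _ x).mul (eg_P hw _ y)).mul_const _) g1
    (Eg.const (B ^ (2 * n))) (a := (A + B + B) ^ (2 * n) * ((A + B) / (A + B + B) / (A + B) ^ (2 * n)))
    (b := (A + B + B) ^ (2 * n) * (B / (A + B + B) / B ^ (2 * n))) (fun z => ?_) L j h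
  · rwa [node_const hw] at this
  have k : ∀ x, Pf w (L.drop j) z (fun y => (l₀.cov x y - q) ^ (2 * n)) ≤ _ := fun x =>
    (one_leaf hw hL l₀ hτ H (l₀.A x) q n hAB hB z).trans' (le_of_eq (by
      simp only [Lv.fld, Lv.cov, sub_eq_add_neg, mul_comm])) |>.trans (add_le_add le_rfl
        (mul_le_mul_of_nonneg_left (bd _ (nA x)) (by positivity)))
  refine le_trans (le_of_eq ?_) ((Finset.sum_le_sum fun x (_ : x ∈ Finset.univ) =>
    mul_le_mul_of_nonneg_left (k x) (P_nonneg hw (L.drop j) z x)).trans_eq ?_)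
  · simp only [qf, Pf, Finset.mul_sum, mul_assoc]
  · simp only [mul_add, Finset.sum_add_distrib, ← Finset.sum_mul, sum_P hw, one_mul,
      mul_left_comm (P w _ z _) (_ * _), ← Finset.mul_sum, hΦ, Lv.fld]

theorem DD_chain {j : ℕ} {c : ℕ → ℕ} (hc : Monotone c) (hj : j ≤ c 0) {θ B : ℕ → ℝ} (h : Ω → ℝ)
    (q : ℝ) (n : ℕ) {A : ℝ} (hA : 0 < A) (hB : ∀ l, 0 < B l)
    (h1 : DD w L l₀ h q n j (c 0) (c 0) ≤ A ^ (2 * n)) : ∀ K : ℕ,
    (∀ l < K, Win L τ j (c l) (θ l)) → (∀ l < K, cK n * θ l ^ n *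
      node w L (c (l + 1)) (fun z => rr w (L.drop (c (l + 1))) l₀ z ^ n) h ≤ B l ^ (2 * n)) →
    DD w L l₀ h q n j (c K) (c K) ≤ (A + 2 * ∑ l ∈ Finset.range K, B l) ^ (2 * n)
  | 0, _, _ => by simpa using h1
  | K + 1, H, h2 => by
    have ih := DD_chain hc hj h q n hA hB h1 K (fun l hl => H l (by omega))
      fun l hl => h2 l (by omega)
    have HK := H K (by omega)
    have hθ := HK.pos hL l₀ hτ
    have hK := cK_pos n
    have p : 0 < A + 2 * ∑ l ∈ Finset.range K, B l :=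
      add_pos_of_pos_of_nonneg hA (mul_nonneg two_pos.le (Finset.sum_nonneg fun l _ => (hB l).le))
    have cK' := hc K.le_succ
    have s1 := DD_step hw hL l₀ hτ HK.le HK cK' h q n p (hB K) ih
      ((mul_le_mul_of_nonneg_left (rr_pow_mono hw L l₀ h n cK') (by positivity)).trans
        (h2 K (by omega)))
    rw [DD_swap hw] at s1
    have s2 := DD_step hw hL l₀ hτ (HK.le.trans cK') HK cK' h q n (add_pos p (hB K)) (hB K) s1
      (h2 K (by omega))
    rw [Finset.sum_range_succ]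
    exact s2.trans_eq (by congr 1; ring)

/-- **overlap of a pair split at `j`**: `c 0 ≤ … ≤ c K` are nodes after `j`, each with a window
after `j` -/
theorem pair_Lp {j : ℕ} {c : ℕ → ℕ} (hc : Monotone c) (K : ℕ) {θ B : ℕ → ℝ} {Λ : ℝ}
    (hΛ : ∀ x, l₀.cov x x ≤ Λ) (H : ∀ l ≤ K, Win L τ j (c l) (θ l)) (h : Ω → ℝ) (q : ℝ) (n : ℕ)
    {A : ℝ} (hA : 0 < A) (hB : ∀ l, 0 < B l)
    (h1 : EE w L h (fun p => (|rr w (L.drop (c 0)) l₀ (p (c 0)) - q| + 2 * ∑ i,
      (mv w (L.drop (c 0)) l₀ (p (c 0)) i - mv w (L.drop j) l₀ (p j) i) ^ 2) ^ (2 * n)) ≤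
      A ^ (2 * n))
    (h2 : ∀ l < K, cK n * θ l ^ n *
      node w L (c (l + 1)) (fun z => rr w (L.drop (c (l + 1))) l₀ z ^ n) h ≤ B l ^ (2 * n))
    (h3 : cK n * (θ K * Λ) ^ n ≤ B K ^ (2 * n)) :
    pi2 w L j (fun x y => (l₀.cov x y - q) ^ (2 * n)) h ≤
      (A + 2 * ∑ l ∈ Finset.range (K + 1), B l) ^ (2 * n) := by
  have hj := (H 0 (Nat.zero_le K)).le
  have s1 := DD_chain hw hL l₀ hτ hc hj h q n hA hB ((DD_base hw L l₀ h q n hj).trans h1) K
    (fun l hl => H l hl.le) h2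
  have p : 0 < A + 2 * ∑ l ∈ Finset.range K, B l :=
    add_pos_of_pos_of_nonneg hA (mul_nonneg two_pos.le (Finset.sum_nonneg fun l _ => (hB l).le))
  rw [Finset.sum_range_succ]
  exact (DD_leaf hw hL l₀ hτ (H K le_rfl) hΛ h q n p (hB K) s1 h3).trans_eq (by congr 1; ring)

/-- the same from `Mo` bounds -/
theorem pair_Mo {j : ℕ} {c : ℕ → ℕ} (hc : Monotone c) (K : ℕ) {θ ρ : ℕ → ℝ} {Λ C : ℝ}
    (hΛ : ∀ x, l₀.cov x x ≤ Λ) (H : ∀ l ≤ K, Win L τ j (c l) (θ l)) (h : Ω → ℝ) (q : ℝ) (n : ℕ)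
    (hC : 0 < C) (hC' : cK n ≤ C ^ (2 * n)) {A A' : ℝ}
    (h0 : Mo w L h (2 * n) (fun p => rr w (L.drop (c 0)) l₀ (p (c 0)) - q) A)
    (h1 : Mo w L h (2 * n) (fun p => ∑ i,
      (mv w (L.drop (c 0)) l₀ (p (c 0)) i - mv w (L.drop j) l₀ (p j) i) ^ 2) A')
    (h2 : ∀ l < K, Mo w L h n (fun p => rr w (L.drop (c (l + 1))) l₀ (p (c (l + 1)))) (ρ l))
    (h3 : Λ ≤ ρ K) (hΛ0 : 0 ≤ Λ) :
    pi2 w L j (fun x y => (l₀.cov x y - q) ^ (2 * n)) h ≤
      (A + 2 * A' + 2 * C * ∑ l ∈ Finset.range (K + 1), √(θ l * ρ l)) ^ (2 * n) := by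
  refine le_pow_of_forall fun ε hε => ?_
  have hK := cK_pos n
  set δ := ε / (2 * K + 3) with hδ
  have δ0 : 0 < δ := by positivity
  have m := (h0.abs.add hw (h1.const_mul' two_pos.le)).le
  simp only [(even_two_mul n).pow_abs] at m
  have hb : ∀ l ≤ K, 0 ≤ ρ l → cK n * (θ l * ρ l) ^ n ≤ (C * √(θ l * ρ l) + δ) ^ (2 * n) :=
    fun l hl h0 => by
      have := (H l hl).pos hL l₀ hτ
      refine le_trans ?_ (pow_le_pow_left₀ (by positivity) (le_add_of_nonneg_right δ0.le) _)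
      rw [mul_pow C, pow_mul (√_), sq_sqrt (by positivity)]
      gcongr
  have := pair_Lp hw hL l₀ hτ hc K (B := fun l => C * √(θ l * ρ l) + δ) hΛ H h q n
    (A := A + 2 * A' + δ) (by linarith [h0.nn, h1.nn]) (fun l => by positivity)
    (m.trans (pow_le_pow_left₀ (by linarith [h0.nn, h1.nn]) (by linarith) _)) (fun l hl => ?_) ?_
  · refine this.trans_eq ?_
    congr 1
    rw [Finset.sum_add_distrib, ← Finset.mul_sum, Finset.sum_const, Finset.card_range, nsmul_eq_mul,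
      hδ]
    push_cast
    field_simp
    ring
  · have p := (H l hl.le).pos hL l₀ hτ
    have m2 := (h2 l hl).le
    have r0 : ∀ z, 0 ≤ rr w (L.drop (c (l + 1))) l₀ z := fun _ =>
      Finset.sum_nonneg fun _ _ => sq_nonneg _
    simp only [abs_of_nonneg (r0 _)] at m2
    rw [EE_node hw fun z => rr w (L.drop (c (l + 1))) l₀ z ^ n] at m2
    refine le_trans ?_ (hb l hl.le (h2 l hl).nn)
    rw [mul_pow, ← mul_assoc]
    gcongr
  · have p := (H K le_rfl).pos hL l₀ hτ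
    refine le_trans ?_ (hb K le_rfl (hΛ0.trans h3))
    gcongr

end pair

end Crest.Agent.T156.Cas.LpR43

end
end

-- ▼ part T156/QCas_98

/-!
# Row 156, block Q on a cascade (helper98)

All auxiliary parameters of `SyncS` / `GoodS` are eliminated: one loss factor `lam` with
`1 / v, 2 ^ (LL + 3), j1 + 1 ≤ lam ^ r`.
-/

set_option autoImplicit false
set_option maxHeartbeats 400000

noncomputable section

namespace Crest.Agent.T156.Cas.QCas98

open MeasureTheory Real Finset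
open Crest.Agent.T157.E Crest.Agent.T157.Casc Crest.Agent.T157.SL
open Crest.Agent.T156.Cas.Sy41 Crest.Agent.T156.Q57 Crest.Agent.T156.Cas.Lp12

variable {Ω : Type}

/-- Riccati data of a block of levels `[j0, j1)` (the hypotheses of `GoodS`) -/
structure Ric (L : List (Lv Ω)) (τ : ℕ → ℝ) (t' : ℕ → ℕ) (LL j0 j1 j2 : ℕ) (x v w3 K : ℝ) :
    Prop where
  x0 : 0 < x
  v0 : 0 < v
  vw : 4 * v ≤ w3
  K1 : 1 ≤ K
  j12 : j1 ≤ j2
  j2L : j2 ≤ L.length
  blk : ∀ k, j0 ≤ k → k < j1 → x ≤ ex L k ∧ v ≤ w3 * (ex L k * τ k)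
  top : ex L j2 ≤ K * x
  up : ∀ j, j2 < j → j ≤ L.length → j1 ≤ t' j ∧ t' j < j ∧ (0 < dm L 0 j → 0 < SW L τ (t' j) j)
  sum : ∑ j ∈ Ioc j2 L.length, dm L 0 j / (ex L (t' j) * SW L τ (t' j) j) ≤ K * w3 / (2 ^ LL * v)

theorem Ric.sub {L : List (Lv Ω)} {τ : ℕ → ℝ} {t' : ℕ → ℕ} {LL j0 j1 j2 a0 a1 : ℕ} {x v w3 K : ℝ}
    (H : Ric L τ t' LL j0 j1 j2 x v w3 K) (h0 : j0 ≤ a0) (h1 : a1 ≤ j1) :
    Ric L τ t' LL a0 a1 j2 x v w3 K :=
  ⟨H.x0, H.v0, H.vw, H.K1, h1.trans H.j12, H.j2L, fun k a b => H.blk k (h0.trans a) (b.trans_le h1),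
    H.top, fun j a b => ⟨h1.trans (H.up j a b).1, (H.up j a b).2⟩, H.sum⟩

/-- a window inside the block -/
theorem Ric.win {L : List (Lv Ω)} {τ : ℕ → ℝ} {t' : ℕ → ℕ} {LL j0 j1 j2 : ℕ} {x v w3 K : ℝ}
    (H : Ric L τ t' LL j0 j1 j2 x v w3 K) {a b N : ℕ} (h0 : j0 ≤ a) (hN : 1 ≤ N) (h1 : a + N ≤ b)
    (h2 : b ≤ j1) : LpR43.Win L τ a b (w3 / (x * (N * v))) := by
  refine ⟨h2.trans (H.j12.trans H.j2L), a, le_rfl, by omega, ?_⟩
  have v0 := H.v0
  have x0 := H.x0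
  have w0 : 0 < w3 := by linarith [H.vw]
  have N0 : (0 : ℝ) < N := by exact_mod_cast hN
  have e1 : (N : ℝ) * v ≤ w3 * LpR43.Sw L τ a b := by
    have : ∑ _k ∈ Ico a b, v ≤ ∑ k ∈ Ico a b, w3 * (ex L k * τ k) :=
      sum_le_sum fun k hk => (H.blk k (h0.trans (mem_Ico.1 hk).1) ((mem_Ico.1 hk).2.trans_le h2)).2
    rw [sum_const, Nat.card_Ico, nsmul_eq_mul, ← mul_sum] at this
    refine le_trans (mul_le_mul_of_nonneg_right ?_ v0.le) this
    exact_mod_cast (by omega : N ≤ b - a)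
  have e2 := (H.blk a h0 (by omega)).1
  rw [div_mul_eq_mul_div, le_div_iff₀ (by positivity)]
  nlinarith [mul_le_mul e2 e1 (by positivity) (x0.le.trans e2)]

variable [Fintype Ω]

/-- a symmetric cascade whose levels see the features of `l₀` -/
structure Dat (w : Ω → ℝ) (L : List (Lv Ω)) (h : Ω → ℝ) (l₀ : Lv Ω) (τ : ℕ → ℝ) : Prop where
  hw : Wt w
  mono : Mono 0 L
  sym : ∃ T : Set (Equiv.Perm Ω), (∀ σ ∈ T, Sym w L h σ) ∧
    (∀ x y, w x ≠ 0 → w y ≠ 0 → ∃ σ ∈ T, σ x = y) ∧ ∀ σ ∈ T, ∀ x y, l₀.cov (σ x) (σ y) = l₀.cov x y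
  one : ∀ x, l₀.cov x x ≤ 1
  dom : ∀ k (hk : k < L.length), Dom L[k] l₀ (τ k)

variable {w : Ω → ℝ} {L : List (Lv Ω)} {h : Ω → ℝ} {l₀ : Lv Ω} {τ : ℕ → ℝ}

theorem Dat.ok (H : Dat w L h l₀ τ) : (sysC w L h l₀).Ok := by
  obtain ⟨T, a, b, c⟩ := H.sym
  exact (instS Ω w H.hw L h l₀ T H.mono a b c H.one).1

section dict
variable (w L h l₀)



theorem sysC_aa (j : ℕ) (g : NI L → ℝ) :
    (sysC w L h l₀).aa j g = mAm w (L.drop j) l₀ (st L j h g) := (Hb_fld _ l₀ _ _ _).symm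

theorem sysC_dm {j : ℕ} (h1 : 1 ≤ j) (h2 : j ≤ L.length) : (sysC w L h l₀).dm j = dm L 0 j :=
  if_pos ⟨h1, h2⟩

variable {w}

theorem sysC_r (hw : Wt w) (j : ℕ) : (sysC w L h l₀).r j = rho w L l₀ h j :=
  QSys98.int_node hw L h j (eg_rr hw _ l₀)

variable {L h l₀}

theorem mo_of_nb (hw : Wt w) {F : Pth Ω → ℝ} (hF : EP F) {k : ℕ} {B : ℝ}
    (H : Nb (QSys98.mu w L h) k (fun g => F fun j => st L j h g) B) : Mo w L h k F B :=
  ⟨hF, H.1, by rw [← QSys98.int_EE hw L h (hF.abs.pow k)]; exact H.2⟩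

theorem nb_of_mo (hw : Wt w) {F : Pth Ω → ℝ} {k : ℕ} {B : ℝ} (H : Mo w L h k F B) :
    Nb (QSys98.mu w L h) k (fun g => F fun j => st L j h g) B :=
  ⟨H.nn, (QSys98.int_EE hw L h (H.ep.abs.pow k)).trans_le H.le⟩

end dict

/-- overlap at the node `j` as a function of the path -/
def rP (w : Ω → ℝ) (L : List (Lv Ω)) (l₀ : Lv Ω) (j : ℕ) (p : Pth Ω) : ℝ := rr w (L.drop j) l₀ (p j)

/-- `mᵀ A m` at the node `j` -/
def aP (w : Ω → ℝ) (L : List (Lv Ω)) (l₀ : Lv Ω) (j : ℕ) (p : Pth Ω) : ℝ := mAm w (L.drop j) l₀ (p j)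

/-- `|m_{j'} - m_j|²` -/
def iP (w : Ω → ℝ) (L : List (Lv Ω)) (l₀ : Lv Ω) (j j' : ℕ) (p : Pth Ω) : ℝ :=
  ∑ i, (mv w (L.drop j') l₀ (p j') i - mv w (L.drop j) l₀ (p j) i) ^ 2

theorem ep_rP (hw : Wt w) (j : ℕ) : EP (rP w L l₀ j) := EP.state (eg_rr hw _ l₀) j

theorem ep_aP (hw : Wt w) (j : ℕ) : EP (aP w L l₀ j) := EP.state (eg_mAm hw _ l₀) j

theorem ep_iP (hw : Wt w) (j j' : ℕ) : EP (iP w L l₀ j j') :=
  LpR43.ep_sq fun i => (LpR43.ep_mv hw _ l₀ j' i).sub (LpR43.ep_mv hw _ l₀ j i)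

theorem ep_av {F : ℕ → Pth Ω → ℝ} (hF : ∀ y, EP (F y)) (b N : ℕ) :
    EP fun p => av b N fun y => F y p := by
  simp only [av, div_eq_inv_mul]
  exact (EP.sum _ fun y _ => hF y).const_mul _

/-- polynomial sizes -/
structure Pol (r LL j1 : ℕ) (v lam : ℝ) : Prop where
  v1 : 1 ≤ v * lam ^ r
  L1 : (2 : ℝ) ^ (LL + 3) ≤ lam ^ r
  j1 : (j1 : ℝ) + 1 ≤ lam ^ r

/-- **(Q2) on a cascade, any window system**, in the frame of `Q57` -/
theorem sync_sys (r i : ℕ) (K : ℝ) (hi : 1 ≤ i) (hr : r ≤ i) : ∃ C : ℝ, 1 ≤ C ∧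
    ∀ (Ω : Type) [Fintype Ω] (w : Ω → ℝ) (L : List (Lv Ω)) (h : Ω → ℝ) (l₀ : Lv Ω) (τ : ℕ → ℝ)
      (t' : ℕ → ℕ) (LL j0 j1 j2 : ℕ) (x v w3 lam : ℝ) (N : ℕ → ℕ) (tol c g : ℕ → ℝ),
      Dat w L h l₀ τ → Ric L τ t' LL j0 j1 j2 x v w3 K → C ≤ lam → Pol r LL j1 v lam →
      (sysC w L h l₀).Win LL v (lam * w3 / x) (lam * K * w3) K j0 j1 N tol c g →
      ∀ j, j0 + (r + 2) * (8 * 2 ^ LL) ≤ j → j + (r + 2) * (8 * 2 ^ LL) ≤ j1 →
        Nb (sysC w L h l₀).μ (2 ^ i) (fun a => (sysC w L h l₀).rho j a - c j) (lam ^ 3 * tol j) ∧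
        Nb (sysC w L h l₀).μ (2 ^ i) (fun a => av j (N j) fun y => (sysC w L h l₀).aa y a)
          (lam ^ 4 * (((LL : ℝ) + 2) ^ 2 * (lam * K * w3) * (tol j / (N j * v)))) ∧
        ∀ j', j ≤ j' → j' ≤ j + 2 * N j →
          Nb (sysC w L h l₀).μ (2 ^ i)
            (fun a => sq2 ((sysC w L h l₀).m j' a - (sysC w L h l₀).m j a)) (lam ^ 3 * tol j) := by
  obtain ⟨C1, C11, h1⟩ := syncS i K hi
  obtain ⟨C3, C31, h3⟩ := syncC21 i K hi
  obtain ⟨C2, C21, h2⟩ := goodS (1 + r * 3 + r * 2 ^ i)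
  refine ⟨max C1 (max C2 C3), le_max_of_le_left C11, ?_⟩
  intro Ω _ w L h l₀ τ t' LL j0 j1 j2 x v w3 lam N tol c g D R hC P W j hj hj'
  have := D.ok.prob
  have c1 : C1 ≤ lam := (le_max_left _ _).trans hC
  have c2 : C2 ≤ lam := ((le_max_left _ _).trans (le_max_right _ _)).trans hC
  have c3 : C3 ≤ lam := ((le_max_right _ _).trans (le_max_right _ _)).trans hC
  have l1 : 1 ≤ lam := C11.trans c1
  have v0 := R.v0
  have K1 := R.K1
  have w0 : 0 < w3 := by linarith [R.vw]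
  have G := h2 Ω w D.hw L h l₀ τ t' LL j0 j1 j2 x v w3 K lam D.mono D.one D.dom R.x0 R.v0 R.vw R.K1
    l1 R.j12 R.j2L R.blk R.top R.up R.sum
  set M := lam ^ r with hM
  have M8 : 8 ≤ M := by
    refine le_trans ?_ P.L1
    rw [pow_add]
    have : (1 : ℝ) ≤ 2 ^ LL := one_le_pow₀ one_le_two
    linarith
  have LM : (LL : ℝ) + 2 ≤ M := by
    refine le_trans ?_ P.L1
    have : LL + 3 < 2 ^ (LL + 3) := Nat.lt_two_pow_self
    have : ((LL + 3 : ℕ) : ℝ) < ((2 ^ (LL + 3) : ℕ) : ℝ) := by exact_mod_cast this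
    push_cast at this
    linarith
  have hη : C2 * ((LL + 2) * (j1 + 1) ^ 2) / lam ^ (1 + r * 3 + r * 2 ^ i) ≤ v ^ 2 ^ i := by
    rw [div_le_iff₀ (by positivity), pow_add, pow_add, pow_one, pow_mul, pow_mul, ← hM]
    have a1 : C2 * ((LL + 2) * (j1 + 1) ^ 2) ≤ lam * M ^ 3 := by
      have : ((LL : ℝ) + 2) * (j1 + 1) ^ 2 ≤ M * M ^ 2 :=
        mul_le_mul LM (pow_le_pow_left₀ (by positivity) P.j1 2) (by positivity) (by positivity)
      calc _ ≤ lam * (M * M ^ 2) := mul_le_mul c2 this (by positivity) (by positivity)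
        _ = _ := by ring
    have a2 : 1 ≤ v ^ 2 ^ i * M ^ 2 ^ i := by rw [← mul_pow]; exact one_le_pow₀ P.v1
    calc _ ≤ lam * M ^ 3 * 1 := by rwa [mul_one]
      _ ≤ lam * M ^ 3 * (v ^ 2 ^ i * M ^ 2 ^ i) := mul_le_mul_of_nonneg_left a2 (by positivity)
      _ = _ := by ring
  have G' := G.mono v0.le le_rfl le_rfl hη
  have q1 : v ≤ lam * K * w3 := by
    have : 1 ≤ lam * K := one_le_mul_of_one_le_of_one_le l1 K1
    nlinarith [R.vw]
  have q2 : (2 : ℝ) ^ (LL + 3) ≤ lam ^ 2 ^ i :=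
    P.L1.trans (pow_le_pow_right₀ l1 (hr.trans Nat.lt_two_pow_self.le))
  have q3 : 4 / v ≤ lam ^ 2 ^ (r + 1) := by
    have a1 : 4 / v ≤ M * M := by
      rw [div_le_iff₀ v0]
      nlinarith [P.v1]
    refine a1.trans ?_
    rw [hM, ← pow_add]
    refine pow_le_pow_right₀ l1 ?_
    have : r < 2 ^ r := Nat.lt_two_pow_self
    rw [pow_succ]; omega
  have key := h1 _ _ (sysC w L h l₀) LL (r + 1) j0 j1 v _ _ v lam lam N tol c g D.ok G' W v0.le
    le_rfl q1 l1 q2 l1 q3 j hj hj'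
  have key' := h3 _ _ (sysC w L h l₀) LL (r + 1) j0 j1 v _ _ v lam lam N tol c g D.ok G' W v0.le
    le_rfl q1 l1 q2 l1 q3 j hj hj'
  have t0 : 0 ≤ tol j := le_trans (by positivity) (W.Nv j)
  have b0 : ∀ C ≤ lam, C * lam * lam ≤ lam ^ 3 := fun C hC => by
    nlinarith [mul_pos (zero_lt_one.trans_le l1) (zero_lt_one.trans_le l1)]
  have b2 : C1 * lam ^ 2 * lam ≤ lam ^ 4 := by
    have := mul_le_mul_of_nonneg_right (b0 C1 c1) (zero_le_one.trans l1)
    nlinarith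
  exact ⟨Blk24.nb_le key.1 (mul_le_mul_of_nonneg_right (b0 C1 c1) t0),
    Blk24.nb_le key.2 (mul_le_mul_of_nonneg_right b2 (by positivity)), fun j' a b =>
    Blk24.nb_le (key' j' a b) (mul_le_mul_of_nonneg_right (b0 C3 c3) t0)⟩

/-- the outputs in the path frame, on the nodes `[a0, a1]` -/
structure Syn (w : Ω → ℝ) (L : List (Lv Ω)) (h : Ω → ℝ) (l₀ : Lv Ω) (p a0 a1 : ℕ) (v A G : ℝ)
    (N : ℕ → ℕ) (tol c : ℕ → ℝ) : Prop where
  loc : ∀ j, a0 ≤ j → j ≤ a1 → Mo w L h p (fun q => rP w L l₀ j q - c j) (A * tol j)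
  ric : ∀ j, a0 ≤ j → j ≤ a1 →
    Mo w L h p (fun q => av j (N j) fun y => aP w L l₀ y q) (G * (tol j / (N j * v)))
  inc : ∀ j j', a0 ≤ j → j ≤ a1 → j ≤ j' → j' ≤ j + 2 * N j →
    Mo w L h p (iP w L l₀ j j') (A * tol j)

/-- **(Q2) on a cascade, any window system**, in the path frame -/
theorem sync_cas (r i : ℕ) (K : ℝ) (hi : 1 ≤ i) (hr : r ≤ i) : ∃ C : ℝ, 1 ≤ C ∧
    ∀ (Ω : Type) [Fintype Ω] (w : Ω → ℝ) (L : List (Lv Ω)) (h : Ω → ℝ) (l₀ : Lv Ω) (τ : ℕ → ℝ)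
      (t' : ℕ → ℕ) (LL j0 j1 j2 a0 a1 : ℕ) (x v w3 lam : ℝ) (N : ℕ → ℕ) (tol c g : ℕ → ℝ),
      Dat w L h l₀ τ → Ric L τ t' LL j0 j1 j2 x v w3 K → C ≤ lam → Pol r LL j1 v lam →
      (sysC w L h l₀).Win LL v (lam * w3 / x) (lam * K * w3) K j0 j1 N tol c g →
      j0 + (r + 2) * (8 * 2 ^ LL) ≤ a0 → a1 + (r + 2) * (8 * 2 ^ LL) ≤ j1 →
      Syn w L h l₀ (2 ^ i) a0 a1 v (lam ^ 3) (lam ^ 4 * (((LL : ℝ) + 2) ^ 2 * (lam * K * w3)))
        N tol c := by
  obtain ⟨C, C1, H⟩ := sync_sys r i K hi hr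
  refine ⟨C, C1, ?_⟩
  intro Ω _ w L h l₀ τ t' LL j0 j1 j2 a0 a1 x v w3 lam N tol c g D R hC P W h0 h1
  have key := H Ω w L h l₀ τ t' LL j0 j1 j2 x v w3 lam N tol c g D R hC P W
  refine ⟨fun j a b => mo_of_nb D.hw ((ep_rP D.hw j).sub (EP.const _))
    (key j (by omega) (by omega)).1, fun j a b => mo_of_nb D.hw (ep_av (ep_aP D.hw) _ _) ?_,
    fun j j' a b e e' => mo_of_nb D.hw (ep_iP D.hw j j') ((key j (by omega) (by omega)).2.2 j' e e')⟩
  have := (key j (by omega) (by omega)).2.1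
  simp only [sysC_aa] at this
  rw [mul_assoc]
  exact this

/-! ### pairs -/

/-- data of the levels above the node `b`: nodes `u 0 = b ≤ u 1 ≤ … ≤ u k`, windows, overlaps -/
structure Up (w : Ω → ℝ) (L : List (Lv Ω)) (h : Ω → ℝ) (l₀ : Lv Ω) (τ : ℕ → ℝ) (n b k : ℕ)
    (u : ℕ → ℕ) (θ ρ : ℕ → ℝ) : Prop where
  u0 : u 0 = b
  mono : Monotone u
  win : ∀ l, 1 ≤ l → l ≤ k → LpR43.Win L τ b (u l) (θ l)
  ov : ∀ l < k, Mo w L h n (rP w L l₀ (u (l + 1))) (ρ l)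
  top : 1 ≤ ρ k

theorem mo_rP_mono (hw : Wt w) {n c c' : ℕ} {B : ℝ} (hc : c ≤ c') (H : Mo w L h n (rP w L l₀ c') B) :
    Mo w L h n (rP w L l₀ c) B := by
  refine ⟨ep_rP hw c, H.nn, le_trans ?_ H.le⟩
  have e : ∀ c, EE w L h (fun p => |rP w L l₀ c p| ^ n) =
      node w L c (fun z => rr w (L.drop c) l₀ z ^ n) h := fun c => by
    rw [← EE_node hw]
    congr 1
    funext p
    rw [rP, abs_of_nonneg (show 0 ≤ rr w (L.drop c) l₀ (p c) from sum_nonneg fun _ _ => sq_nonneg _)]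
  rw [e, e]
  exact LpR43.rr_pow_mono hw L l₀ h n hc

/-- **pairs split at `j`**: first window `[j, c₀)`, then the chain above `b ≥ c₀` -/
theorem pair_up (D : Dat w L h l₀ τ) {n j c₀ b k : ℕ} {u : ℕ → ℕ} {θ ρ : ℕ → ℝ}
    (U : Up w L h l₀ τ n b k u θ ρ) {θ₀ C A A' q : ℝ} (hb : c₀ ≤ b) (W0 : LpR43.Win L τ j c₀ θ₀)
    (W1 : LpR43.Win L τ j b θ₀) (hC : 0 < C) (hC' : LpR43.cK n ≤ C ^ (2 * n))
    (h0 : Mo w L h (2 * n) (fun p => rP w L l₀ c₀ p - q) A)
    (h1 : Mo w L h (2 * n) (iP w L l₀ j c₀) A') :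
    pi2 w L j (fun x y => (l₀.cov x y - q) ^ (2 * n)) h ≤
      (A + 2 * A' + 2 * C * (2 * √(θ₀ * ρ 0) + ∑ l ∈ range k, √(θ (l + 1) * ρ (l + 1)))) ^ (2 * n) := by
  have hjb : j ≤ b := W1.le
  have key := LpR43.pair_Mo D.hw D.mono l₀ D.dom (j := j)
    (c := fun l => Nat.casesOn l c₀ u)
    (monotone_nat_of_le_succ fun l => by
      cases l with
      | zero => exact hb.trans U.u0.ge
      | succ l => exact U.mono (Nat.le_succ l)) (k + 1)
    (θ := fun l => Nat.casesOn l θ₀ fun l => Nat.casesOn l θ₀ fun l => θ (l + 1))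
    (ρ := fun l => Nat.casesOn l (ρ 0) ρ) (Λ := 1) D.one
    (fun l hl => by
      rcases l with _ | _ | l
      · exact W0
      · show LpR43.Win L τ j (u 0) θ₀
        rw [U.u0]; exact W1
      · exact (U.win (l + 1) (by omega) (by omega)).anti hjb) h q n hC hC' h0 h1
    (fun l hl => by
      rcases l with _ | l
      · show Mo w L h n (rP w L l₀ (u 0)) (ρ 0)
        rcases Nat.eq_zero_or_pos k with rfl | hk
        · refine (Mo.bdd D.hw (ep_rP D.hw _) fun p => ?_).mono U.top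
          rw [rP, abs_of_nonneg (show 0 ≤ rr w _ l₀ _ from sum_nonneg fun _ _ => sq_nonneg _)]
          exact Q33.rr_le D.hw _ D.one _
        · exact mo_rP_mono D.hw (U.mono (Nat.zero_le 1)) (U.ov 0 hk)
      · exact U.ov l (by omega)) U.top zero_le_one
  rw [sum_range_succ', sum_range_succ'] at key
  have key' : _ ≤ (A + 2 * A' + 2 * C * (∑ l ∈ range k, √(θ (l + 1) * ρ (l + 1)) + √(θ₀ * ρ 0) +
    √(θ₀ * ρ 0))) ^ (2 * n) := key
  refine key'.trans (le_of_eq ?_)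
  congr 1
  ring

section syn
variable {p a0 a1 : ℕ} {v A G : ℝ} {N : ℕ → ℕ} {tol c : ℕ → ℝ}


theorem Syn.ov (S : Syn w L h l₀ p a0 a1 v A G N tol c) (hw : Wt w) {q j j' : ℕ} (hq : q ≤ p)
    (h0 : a0 ≤ j) (h1 : j ≤ a1) (hj : j' ≤ j) :
    Mo w L h q (rP w L l₀ j') (|c j| + A * tol j) :=
  mo_rP_mono hw hj (((Mo.const hw (c j)).add hw ((S.loc j h0 h1).lyap hw hq)).congr
    fun _ => by ring)

/-- **pairs split at a synchronised node** -/
theorem Syn.pair (S : Syn w L h l₀ p a0 a1 v A G N tol c) (D : Dat w L h l₀ τ) {t' : ℕ → ℕ}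
    {LL j0 j1 j2 : ℕ} {x w3 K : ℝ} (R : Ric L τ t' LL j0 j1 j2 x v w3 K) {n j b k : ℕ} {u : ℕ → ℕ}
    {θ ρ : ℕ → ℝ} (U : Up w L h l₀ τ n b k u θ ρ) (hn : 2 * n ≤ p) (h0 : a0 ≤ j) (h0' : j0 ≤ j)
    (hN : 1 ≤ N j) (h1 : j + N j ≤ a1) (h2 : j + N j ≤ b) (h3 : b ≤ j1) {C : ℝ} (hC : 0 < C)
    (hC' : LpR43.cK n ≤ C ^ (2 * n)) (q : ℝ) :
    pi2 w L j (fun x y => (l₀.cov x y - q) ^ (2 * n)) h ≤
      (A * tol (j + N j) + |c (j + N j) - q| + 2 * (A * tol j) + 2 * C *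
        (2 * √(w3 / (x * (N j * v)) * ρ 0) + ∑ l ∈ range k, √(θ (l + 1) * ρ (l + 1)))) ^ (2 * n) :=
  pair_up D U h2 (R.win h0' hN le_rfl (h2.trans h3)) (R.win h0' hN h2 h3) hC hC'
    ((((S.loc (j + N j) (by omega) h1).lyap D.hw hn).add D.hw
      (Mo.const D.hw (c (j + N j) - q))).congr fun _ => by ring)
    ((S.inc j (j + N j) h0 (by omega) (by omega) (by omega)).lyap D.hw hn)

end syn

/-! ### a uniform block with sup location -/

/-- nodes `[j0, j1]`: clock `c`, label density `≥ 1 / K`, location `l`, windows of `N` nodes -/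
structure UB (w : Ω → ℝ) (L : List (Lv Ω)) (h : Ω → ℝ) (l₀ : Lv Ω) (LL j0 j1 N : ℕ)
    (x v w3 K lam l : ℝ) (c : ℕ → ℝ) : Prop where
  j01 : 1 ≤ j0
  le : j0 ≤ j1
  N1 : 1 ≤ N
  NU : N ≤ 2 ^ LL
  Nv : N * v ≤ l
  clk : ∀ j, j0 ≤ j → j < j1 → c j ≤ c (j + 1) ∧ c (j + 1) ≤ c j + v
  c0 : 0 ≤ c j0
  c2 : c j1 ≤ 2
  old : c j1 * N ≤ K * l * 2 ^ LL
  loc : ∀ j, j0 ≤ j → j ≤ j1 → |rho w L l₀ h j - c j| ≤ l
  dm : ∀ j, j0 ≤ j → j ≤ j1 → v ≤ K * dm L 0 j
  T4 : ((LL : ℝ) + 2) ^ 2 * (lam * w3 / x) ≤ l * (N * v)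
  T3 : 2 ≤ l ∨ ((LL : ℝ) + 2) ^ 2 * (lam * K * w3) * K ≤ l * (N * v) ^ 2

/-- the clock frozen outside the block -/
def cl (j0 j1 : ℕ) (c : ℕ → ℝ) (j : ℕ) : ℝ := c (max j0 (min j j1))

theorem cl_eq {j0 j1 j : ℕ} (c : ℕ → ℝ) (h0 : j0 ≤ j) (h1 : j ≤ j1) : cl j0 j1 c j = c j := by
  rw [cl, min_eq_left h1, max_eq_right h0]

section ub
variable {LL j0 j1 j2 N : ℕ} {x v w3 K lam l : ℝ} {c : ℕ → ℝ} {t' : ℕ → ℕ}

theorem UB.inc (B : UB w L h l₀ LL j0 j1 N x v w3 K lam l c) {i : ℕ} (hi : j0 ≤ i) :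
    ∀ d : ℕ, i + d ≤ j1 → c i ≤ c (i + d) ∧ c (i + d) ≤ c i + d * v
  | 0, _ => by simp
  | d + 1, hd => by
    obtain ⟨a, b⟩ := B.inc hi d (by omega)
    obtain ⟨a', b'⟩ := B.clk (i + d) (by omega) (by omega)
    rw [← add_assoc]
    push_cast
    exact ⟨a.trans a', by linarith⟩

theorem UB.inc' (B : UB w L h l₀ LL j0 j1 N x v w3 K lam l c) {i j : ℕ} (hi : j0 ≤ i) (hij : i ≤ j)
    (hj : j ≤ j1) : c i ≤ c j ∧ c j ≤ c i + ((j : ℝ) - i) * v := by
  obtain ⟨d, rfl⟩ := Nat.exists_eq_add_of_le hij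
  have := B.inc hi d hj
  push_cast
  exact ⟨this.1, by linarith [this.2]⟩

theorem UB.win (B : UB w L h l₀ LL j0 j1 N x v w3 K lam l c) (hw : Wt w)
    (R : Ric L τ t' LL j0 j1 j2 x v w3 K) (hl : 0 < lam) {a0 a1 : ℕ} (h0 : j0 + 2 ^ LL ≤ a0)
    (h1 : a1 + 2 ^ LL ≤ j1) :
    (sysC w L h l₀).Win LL v (lam * w3 / x) (lam * K * w3) K a0 a1 (fun _ => N) (fun _ => l)
      (cl j0 j1 c) fun _ => v / K := by
  have v0 := R.v0
  have x0 := R.x0
  have K1 := R.K1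
  have w0 : 0 < w3 := by linarith [R.vw]
  have l0 : 0 ≤ l := le_trans (by positivity) B.Nv
  have le := B.le
  have NU := B.NU
  have hP : 0 < 2 ^ LL := Nat.two_pow_pos LL
  have hc : ∀ j, c j0 ≤ cl j0 j1 c j ∧ cl j0 j1 c j ≤ c j1 := fun j =>
    ⟨(B.inc' le_rfl (le_max_left _ _) (by omega)).1,
      (B.inc' (le_max_left _ _) (by omega) le_rfl).1⟩
  refine ⟨v0, K1, by positivity, by positivity, fun _ => B.N1, fun _ => B.NU, fun i j hij => ?_,
    fun j => ⟨B.c0.trans (hc j).1, (hc j).2.trans B.c2⟩, fun _ => B.Nv, fun j a b => ?_,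
    fun i j _ _ _ _ _ _ => ⟨by omega, by omega, by nlinarith⟩, fun i j _ _ a _ => ?_,
    fun j _ _ => ?_, fun _ _ _ => B.T4, fun j a b => ?_⟩
  · obtain ⟨a, b⟩ := B.inc' (i := max j0 (min i j1)) (j := max j0 (min j j1)) (le_max_left _ _)
      (by omega) (by omega)
    refine ⟨sub_nonneg.2 a, ?_⟩
    have : ((max j0 (min j j1) : ℕ) : ℝ) + i ≤ (max j0 (min i j1) : ℕ) + j := by
      exact_mod_cast (by omega : max j0 (min j j1) + i ≤ max j0 (min i j1) + j)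
    have := mul_le_mul_of_nonneg_right
      (show ((max j0 (min j j1) : ℕ) : ℝ) - (max j0 (min i j1) : ℕ) ≤ j - i by linarith) v0.le
    simp only [cl]
    linarith
  · rw [sysC_r L h l₀ hw, cl_eq c (by omega) (by omega)]
    exact B.loc j (by omega) (by omega)
  · have : (N : ℝ) ≤ j - i := by
      have : ((i + N : ℕ) : ℝ) ≤ j := by exact_mod_cast a
      push_cast at this
      linarith
    have h2 : (0 : ℝ) ≤ N := Nat.cast_nonneg N
    nlinarith [mul_le_mul_of_nonneg_left this l0, mul_nonneg l0 (h2.trans this)]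
  · exact (mul_le_mul_of_nonneg_right (hc j).2 (Nat.cast_nonneg N)).trans B.old
  · refine B.T3.imp id fun h3 => ⟨by positivity, fun y a' b' => ?_, ?_⟩
    · have j01 := B.j01
      have := R.j12.trans R.j2L
      rw [sysC_dm w L h l₀ (by omega) (by omega), div_le_iff₀ (by positivity), mul_comm]
      exact B.dm y (by omega) (by omega)
    · rw [show v / K * N * (l * (N * v)) = l * (N * v) ^ 2 / K by ring, le_div_iff₀ (by positivity)]
      exact h3

end ub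

/-- **(Q2) on a uniform block**: the path frame and 24's `Out` -/
theorem ub_out (r i : ℕ) (K : ℝ) (hi : 1 ≤ i) (hr : r ≤ i) : ∃ C : ℝ, 1 ≤ C ∧
    ∀ (Ω : Type) [Fintype Ω] (w : Ω → ℝ) (L : List (Lv Ω)) (h : Ω → ℝ) (l₀ : Lv Ω) (τ : ℕ → ℝ)
      (t' : ℕ → ℕ) (LL j0 j1 j2 N a0 a1 : ℕ) (x v w3 lam l : ℝ) (c : ℕ → ℝ),
      Dat w L h l₀ τ → Ric L τ t' LL j0 j1 j2 x v w3 K → C ≤ lam → Pol r LL j1 v lam →
      UB w L h l₀ LL j0 j1 N x v w3 K lam l c →
      j0 + (r + 3) * (8 * 2 ^ LL) ≤ a0 → a1 + (r + 3) * (8 * 2 ^ LL) ≤ j1 →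
      Syn w L h l₀ (2 ^ i) a0 a1 v (lam ^ 3) (lam ^ 4 * (((LL : ℝ) + 2) ^ 2 * (lam * K * w3)))
        (fun _ => N) (fun _ => l) c ∧
      Blk24.Out (sysC w L h l₀) (2 ^ i) a0 a1 N v (lam ^ 3)
        (lam ^ 4 * (((LL : ℝ) + 2) ^ 2 * (lam * K * w3)) * (l / (N * v)))
        ((a1 + 1 - a0 : ℕ) * l ^ 2) l l c (fun _ => l) fun _ => N := by
  obtain ⟨C, C1, H⟩ := sync_cas r i K hi hr
  refine ⟨C, C1, ?_⟩
  intro Ω _ w L h l₀ τ t' LL j0 j1 j2 N a0 a1 x v w3 lam l c D R hC P B h0 h1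
  have hP : 0 < 2 ^ LL := Nat.two_pow_pos LL
  have l1 : 0 < lam := by linarith
  have e : (r + 3) * (8 * 2 ^ LL) = (r + 2) * (8 * 2 ^ LL) + 8 * 2 ^ LL := by ring
  have S := H Ω w L h l₀ τ t' LL (j0 + 2 ^ LL) (j1 - 2 ^ LL) j2 a0 a1 x v w3 lam _ _ _ _ D
    (R.sub (by omega) (by omega)) hC ⟨P.v1, P.L1, le_trans (by
      have : ((j1 - 2 ^ LL : ℕ) : ℝ) ≤ j1 := by exact_mod_cast Nat.sub_le _ _
      linarith) P.j1⟩ (B.win D.hw R l1 le_rfl (by omega)) (by omega) (by omega)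
  have S' : Syn w L h l₀ (2 ^ i) a0 a1 v (lam ^ 3)
      (lam ^ 4 * (((LL : ℝ) + 2) ^ 2 * (lam * K * w3))) (fun _ => N) (fun _ => l) c :=
    ⟨fun j a b => by
      have := S.loc j a b
      rwa [cl_eq c (by omega) (by omega)] at this, S.ric, S.inc⟩
  have v0 := R.v0
  have K1 := R.K1
  have w0 : 0 < w3 := by linarith [R.vw]
  have N0 : (0 : ℝ) < N := by exact_mod_cast B.N1
  have l0 : 0 < l := lt_of_lt_of_le (by positivity) B.Nv
  refine ⟨S', v0, by positivity, by positivity, fun _ => ⟨B.N1, le_rfl⟩, fun _ => B.Nv,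
    fun _ => le_rfl, fun _ _ _ => ⟨by linarith, by linarith⟩, by simp, fun _ _ _ => le_rfl,
    fun j a b => nb_of_mo D.hw (S'.loc j a b), fun j a b => ?_⟩
  simp only [sysC_aa]
  exact nb_of_mo D.hw (S'.ric j a b)

end Crest.Agent.T156.Cas.QCas98
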