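import Crest.Agent.T156.AltCl_88
import Crest.Agent.T156.QCas_98
import Crest.Agent.T156.QCube_33

/-!
# Row 156, block Q on the class `Cl`: definitions and statements (helper98)

Profile indices.  The caller chooses a level `t`, a block `[k0, k1]` of nodes, a clock `c` and a
Lipschitz tolerance `ρ` (constant for a sup location, `TolS` for an rms location, shells on the
plateau).
-/

set_option autoImplicit false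

noncomputable section

namespace Crest.Agent.T156.Alt

open MeasureTheory Real Finset Filter
open Crest.Agent.T157.E Crest.Agent.T157.Casc Crest.Agent.T157.SL
open Crest.Agent.T156.Cas Crest.Agent.T156.Cas.Lp12

/-- `w(t)³` -/
def Sc.w3 (S : Sc) (t : ℝ) : ℝ := S.F / (S.n * t * S.ms t)

namespace Md

variable (M : Md) (m : ℕ) (a : ℝ)

/-- path overlap at the node `k` -/
def rP (k : ℕ) : Pth (Cube m) → ℝ := QCas98.rP (fun _ => 1) (M.L m a) (Q33.sl m) (k + 1)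
/-- `mᵀ A m / m²` at the node `k` -/
def aP (k : ℕ) : Pth (Cube m) → ℝ := QCas98.aP (fun _ => 1) (M.L m a) (Q33.sl m) (k + 1)
/-- `|m_{k'} - m_k|² / m` -/
def iP (k k' : ℕ) : Pth (Cube m) → ℝ :=
  QCas98.iP (fun _ => 1) (M.L m a) (Q33.sl m) (k + 1) (k' + 1)
/-- path expectation -/
abbrev EP' (F : Pth (Cube m) → ℝ) : ℝ := EE (fun _ => 1) (M.L m a) 0 F
/-- `‖F‖_p ≤ B` under the path law -/
abbrev Mo (p : ℕ) (F : Pth (Cube m) → ℝ) (B : ℝ) : Prop := Lp12.Mo (fun _ => 1) (M.L m a) 0 p F B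
/-- Riccati rates, cascade index -/
def τ (k : ℕ) : ℝ := (if k = 0 then 0 else M.H k - M.H (k - 1)) * m

end Md

/-- a block of the level `t` -/
structure QB (K : ℝ) (S : Sc) (M : Md) (t : ℝ) (k0 k1 : ℕ) : Prop where
  t0 : 0 < t
  k0l : S.jl ≤ k0
  k01 : k0 ≤ k1
  k1p : k1 ≤ S.Jp
  lo : t ≤ K * M.s k0
  hi : M.z k1 ≤ K * t
  wt : S.w3 t ≤ t ^ 3

/-- crude location (`L0`) from the node `k0` on -/
def Crude (Λ₀ : ℝ) (S : Sc) (M : Md) (m : ℕ) (a t : ℝ) (k0 : ℕ) : Prop :=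
  1 ≤ Λ₀ ∧ ∀ k, k0 ≤ k → k ≤ S.Jp → M.rb m a k ≤ Λ₀ * max (M.z k) t

/-- **input of Q**: clock `c`, tolerance `ρ` -/
structure QH (K Λ₀ : ℝ) (S : Sc) (M : Md) (m : ℕ) (a t : ℝ) (k0 k1 : ℕ) (c ρ : ℕ → ℝ) : Prop where
  blk : QB K S M t k0 k1
  crude : Crude Λ₀ S M m a t k0
  c0 : 0 ≤ c k0
  clk : ∀ k, k0 ≤ k → k < k1 → c k ≤ c (k + 1) ∧ c (k + 1) ≤ c k + K * S.v
  lip : ∀ k, k0 ≤ k → k < k1 → |ρ (k + 1) - ρ k| ≤ K * S.v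
  wρ : ∀ k, k0 ≤ k → k ≤ k1 → S.w3 t ≤ ρ k ^ 3
  loc : ∀ k, k0 ≤ k → k ≤ k1 → |M.rb m a k - c k| ≤ ρ k
  den : ∀ k y : ℕ, k0 ≤ k → k ≤ k1 → S.J ≤ y → y < k1 → |(y : ℝ) - k| * S.v ≤ ρ k →
    1 ≤ ρ k ∨ S.w3 t * S.v ≤ K * M.dz m a y * (ρ k * min (ρ k) t ^ 2)

/-- inner nodes of a block -/
def Inn (K : ℝ) (S : Sc) (t : ℝ) (k0 k1 k : ℕ) : Prop :=
  t / K ≤ ((k : ℝ) - k0) * S.v ∧ t / K ≤ ((k1 : ℝ) - k) * S.v

/-- weights `u` on the inner interval `[b0, b1)`, a majorant `G` on windows, overshoot `U` -/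
structure Wts (K : ℝ) (S : Sc) (t : ℝ) (k0 k1 : ℕ) (ρ : ℕ → ℝ) (b0 b1 U : ℕ) (u G : ℕ → ℝ) :
    Prop where
  inn : ∀ k, b0 ≤ k → k < b1 → Inn K S t k0 k1 k ∧ min (ρ k) (t / K) ≤ U * S.v
  top : b1 + U ≤ k1 + 1
  u0 : ∀ y, 0 ≤ u y
  G0 : ∀ y, 0 ≤ G y
  maj : ∀ y y' : ℕ, b0 ≤ y → b0 ≤ y' → y < b1 + U → y' < b1 + U → |(y : ℝ) - y'| * S.v ≤ ρ y' →
    u y ≤ G y'
  bot : k0 ≤ b0

/-- **output of Q** with the loss `Λ` at the exponent `p` -/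
structure QO (K Λ : ℝ) (p : ℕ) (S : Sc) (M : Md) (m : ℕ) (a t : ℝ) (k0 k1 : ℕ) (c ρ : ℕ → ℝ) :
    Prop where
  node : ∀ k, Inn K S t k0 k1 k → M.Mo m a p (fun q => M.rP m a k q - c k) (Λ * ρ k)
  pair : ∀ k, Inn K S t k0 k1 k → M.E2 m a (fun R => (R - c k) ^ (2 * p)) k ≤ (Λ * ρ k) ^ (2 * p)
  inc : ∀ k k', Inn K S t k0 k1 k → k ≤ k' → Λ * (((k' : ℝ) - k) * S.v) ≤ min (ρ k) t →
    M.Mo m a p (M.iP m a k k') (Λ * ρ k)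
  ric : ∀ b0 b1 U u G, Wts K S t k0 k1 ρ b0 b1 U u G →
    M.Mo m a p (fun q => ∑ y ∈ Ico b0 b1, u y * M.aP m a y q)
      (Λ * S.w3 t * ∑ y ∈ Ico b0 (b1 + U), G y * (1 + ρ y / t))
  jnt : ∀ b0 b1 U u G, Wts K S t k0 k1 ρ b0 b1 U u G → ∀ i ≤ p,
    ∑ y ∈ Ico b0 b1, u y * M.EP' m a (fun q => |M.rP m a y q - c y| ^ i * M.aP m a y q) ≤
      Λ ^ (i + 1) * S.w3 t * ∑ y ∈ Ico b0 (b1 + U), G y * (ρ y ^ i * (1 + ρ y / t))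


/-- **(S)** crude `L^p` bounds at every node (root node and merged zone included) -/
def QLowS : Prop := ∀ p : ℕ, CL fun _ Λ S M m a =>
  ∀ Λ₀ t, 0 < t → M.s S.jl ≤ t → S.w3 t ≤ t ^ 3 → Crude Λ₀ S M m a t S.jl → ∀ k ≤ M.N,
    M.Mo m a p (M.rP m a k) (Λ * Λ₀ * max (M.z k) t) ∧
    M.E2 m a (fun R => R ^ (2 * p)) k ≤ (Λ * Λ₀ * max (M.z k) t) ^ (2 * p)


/-- **(Var)** Brascamp–Lieb for local functionals; exact, any legal model -/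
def QVarS : Prop := ∀ (M : Md) (m : ℕ) (a x : ℝ), 0 < m → 0 ≤ a → a ≤ x → M.Leg x →
  ∀ (J : Finset ℕ) (g g' : ℕ → ℝ → ℝ) (c ψ : ℕ → ℝ) (i : ℕ) (B : ℝ),
    (∀ k r, HasDerivAt (g k) (g' k r) r) → (∀ k, Continuous (g' k)) →
    (∀ k ∈ J, ∀ r, 0 ≤ r → r ≤ 1 → |g' k r| ≤ ψ k * |r - c k| ^ i) → 0 ≤ B →
    4 * ∑ k ∈ J, M.dz m a k * ψ k ^ 2 *
      M.EP' m a (fun q => |M.rP m a k q - c k| ^ (2 * i) * M.aP m a k q) ≤ B ^ 2 →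
    M.Mo m a 2 (fun q => ∑ k ∈ J, M.dz m a k * g k (M.rP m a k q) -
      M.EP' m a fun q => ∑ k ∈ J, M.dz m a k * g k (M.rP m a k q)) B

/-! ### leaves -/

/-- the cascade of a legal model is symmetric and sees the spins -/
def QDatS : Prop := ∀ (M : Md) (m : ℕ) (a x : ℝ), 0 < m → 0 ≤ a → a ≤ x → M.Leg x →
  QCas98.Dat (fun _ => 1) (M.L m a) 0 (Q33.sl m) (M.τ m)

/-- Riccati data of a block, mesh `16 K v` -/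
def QRicS : Prop := ∀ K C : ℝ, 1 ≤ K → ∃ K' : ℝ, 1 ≤ K' ∧ ∀ A : ℕ, 2 ≤ A → ∀ᶠ n : ℕ in atTop,
  ∀ (S : Sc) (M : Md), S.C = C → S.A = A → S.n = n → Cl S M → ∀ m a, S.In m a →
    ∀ t k0 k1, QB K S M t k0 k1 → ∀ LL : ℕ, 2 ^ LL * (16 * K * S.v) ≤ t →
      ∃ (t' : ℕ → ℕ) (j2 : ℕ), QCas98.Ric (M.L m a) (M.τ m) t' LL (k0 + 1) (k1 + 1) j2 (t / K')
        (16 * K * S.v) (K' * S.w3 t) (K' ^ 2)

/-- the chain of the levels above a node `b` of the level `t`, from crude `L^p` bounds -/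
def QUpS : Prop := ∀ K C : ℝ, 1 ≤ K → ∃ K' : ℝ, 1 ≤ K' ∧ ∀ A : ℕ, 2 ≤ A → ∀ᶠ n : ℕ in atTop,
  ∀ (S : Sc) (M : Md), S.C = C → S.A = A → S.n = n → Cl S M → ∀ m a, S.In m a →
    ∀ (t Λ : ℝ) (p b : ℕ), QB K S M t b b → 1 ≤ Λ →
      (∀ k, b ≤ k → k ≤ S.Jp → M.Mo m a p (M.rP m a k) (Λ * max (M.z k) t)) →
      ∃ (k : ℕ) (u : ℕ → ℕ) (θ ρ : ℕ → ℝ),
        QCas98.Up (fun _ => 1) (M.L m a) 0 (Q33.sl m) (M.τ m) p (b + 1) k u θ ρ ∧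
        ρ 0 ≤ K' * Λ * t ∧
        ∑ l ∈ range k, √(θ (l + 1) * ρ (l + 1)) ≤ K' * √(Λ * S.w3 t / t)

end Crest.Agent.T156.Alt

end
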