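import Crest.Agent.T156.CDef_40
import Crest.Agent.T156.QClDef_98
import Crest.Agent.T156.MdOne_67

/-!
# Row 156, block C: the inputs `CD.Ok` of `CDef_40` on the models `Alt.Md` (helper12)

`cd M m a ρ J W E` is the datum of the model `M` at the size `m`, root tilt `a`, reference `ρ`
(replaced by `0` on the profile nodes `k < J`).  All envelopes are given in profile indices.
-/

set_option autoImplicit false
set_option linter.unusedSectionVars false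

noncomputable section

namespace Crest.Agent.T156.Alt.CIn12

open MeasureTheory Real Finset
open Crest.Agent.T157.E Crest.Agent.T157.Casc Crest.Agent.T157.SL
open Crest.Agent.T157.G1 (ov)
open Crest.ProbabilityR.SpinGlassDynamics (spin)
open Crest.Agent.T156.Cas Crest.Agent.T156.Cas.Sy41 Crest.Agent.T156.Cas.Q33
open Crest.Agent.T156.Cas.Lp12 Crest.Agent.T156.Cas.C40 Crest.Agent.T156.Alt.Md67

/-! ### Markov -/

theorem exc_pow (x : ℝ) {A : ℝ} (hA : 0 < A) (k : ℕ) :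
    max (|x| - A) 0 ≤ (A ^ (2 * k + 1))⁻¹ * x ^ (2 * (k + 1)) := by
  have e : x ^ (2 * (k + 1)) = |x| ^ (2 * k + 1) * |x| := by
    rw [← pow_succ, ← (even_two_mul (k + 1)).pow_abs]; rfl
  rcases le_total |x| A with h | h
  · rw [max_eq_right (by linarith), e]; positivity
  · rw [max_eq_left (by linarith), e, ← mul_assoc]
    have : 1 ≤ (A ^ (2 * k + 1))⁻¹ * |x| ^ (2 * k + 1) := by
      rw [inv_mul_eq_div, one_le_div (by positivity)]
      exact pow_le_pow_left₀ hA.le h _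
    nlinarith [abs_nonneg x]


theorem ratio {g l : ℝ} (hg : 0 < g) (hl : 0 < l) (k : ℕ) :
    ((l * g) ^ (2 * k + 1))⁻¹ * g ^ (2 * (k + 1)) = g / l ^ (2 * k + 1) := by
  rw [show 2 * (k + 1) = 2 * k + 1 + 1 from rfl, pow_succ g (2 * k + 1), mul_pow]
  field_simp

variable {M : Md} {m : ℕ} {a : ℝ}

/-- **excess of a pair from an even moment** -/
theorem env_pair {k p : ℕ} {c B A q e : ℝ} (hA : 0 < A) (he : |c - q| + A ≤ e)
    (H : M.E2 m a (fun R => (R - c) ^ (2 * (p + 1))) k ≤ B ^ (2 * (p + 1))) :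
    M.E2 m a (fun R => max (|R - q| - e) 0) k ≤ (A ^ (2 * p + 1))⁻¹ * B ^ (2 * (p + 1)) := by
  refine (E2_mono (g := fun R => (A ^ (2 * p + 1))⁻¹ * (R - c) ^ (2 * (p + 1)))
    (fun r _ => le_trans ?_ (exc_pow _ hA p)) k).trans ?_
  · refine max_le_max ?_ le_rfl
    linarith [abs_sub_le r c q]
  · rw [E2_mul]
    exact mul_le_mul_of_nonneg_left H (by positivity)

/-- the same with the threshold `λ B` -/
theorem env_pair' {k p : ℕ} {c B l q e : ℝ} (hB : 0 < B) (hl : 0 < l) (he : |c - q| + l * B ≤ e)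
    (H : M.E2 m a (fun R => (R - c) ^ (2 * (p + 1))) k ≤ B ^ (2 * (p + 1))) :
    M.E2 m a (fun R => max (|R - q| - e) 0) k ≤ B / l ^ (2 * p + 1) :=
  (env_pair (mul_pos hl hB) he H).trans_eq (ratio hB hl p)

theorem env_triv {k : ℕ} {q e : ℝ} (he : 1 + |q| ≤ e) :
    M.E2 m a (fun R => max (|R - q| - e) 0) k ≤ 0 :=
  E2_le (fun r hr => max_le (by linarith [abs_sub r q]) le_rfl) k

/-- absolute moments from an even moment -/
theorem mom_pair {k p i : ℕ} {c B q : ℝ} (hB : 0 < B) (hi : i ≤ 2 * p)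
    (H : M.E2 m a (fun R => (R - c) ^ (2 * p)) k ≤ B ^ (2 * p)) :
    M.E2 m a (fun R => |R - q| ^ i) k ≤ 2 ^ (i + 1) * (B + |c - q|) ^ i := by
  have h0 := abs_nonneg (c - q)
  refine (E2_mono (g := fun R => 2 ^ i * (B + |c - q|) ^ i +
    2 ^ i * (B + |c - q|) ^ i / B ^ (2 * p) * (R - c) ^ (2 * p)) (fun r _ => ?_) k).trans ?_
  · have e1 : |r - q| ≤ |r - c| + |c - q| := abs_sub_le r c q
    have e2 : 0 ≤ 2 ^ i * (B + |c - q|) ^ i / B ^ (2 * p) * (r - c) ^ (2 * p) :=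
      mul_nonneg (by positivity) ((even_two_mul p).pow_nonneg _)
    rcases le_total |r - c| B with h | h
    · have : |r - q| ^ i ≤ (2 * (B + |c - q|)) ^ i :=
        pow_le_pow_left₀ (abs_nonneg _) (by linarith) i
      rw [mul_pow] at this
      linarith
    · have h1 : 1 ≤ |r - c| / B := by rwa [one_le_div hB]
      have h2 : |r - q| ≤ (B + |c - q|) * (|r - c| / B) := by
        have : B * (|r - c| / B) = |r - c| := by field_simp
        nlinarith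
      have h3 : |r - q| ^ i ≤ (B + |c - q|) ^ i * (|r - c| / B) ^ (2 * p) :=
        (pow_le_pow_left₀ (abs_nonneg _) h2 i).trans (by
          rw [mul_pow]
          exact mul_le_mul_of_nonneg_left (pow_le_pow_right₀ h1 hi) (by positivity))
      have h4 : (B + |c - q|) ^ i * (|r - c| / B) ^ (2 * p) ≤
          2 ^ i * (B + |c - q|) ^ i / B ^ (2 * p) * (r - c) ^ (2 * p) := by
        rw [div_pow, (even_two_mul p).pow_abs]
        have : (1 : ℝ) ≤ 2 ^ i := one_le_pow₀ one_le_two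
        have p0 : 0 ≤ (B + |c - q|) ^ i * ((r - c) ^ (2 * p) / B ^ (2 * p)) :=
          mul_nonneg (by positivity) (div_nonneg ((even_two_mul p).pow_nonneg _) (by positivity))
        calc _ ≤ 2 ^ i * ((B + |c - q|) ^ i * ((r - c) ^ (2 * p) / B ^ (2 * p))) :=
              le_mul_of_one_le_left p0 this
          _ = _ := by ring
      have : (0 : ℝ) ≤ 2 ^ i * (B + |c - q|) ^ i := by positivity
      linarith
  · rw [E2_add, E2_const, E2_mul]
    have := mul_le_mul_of_nonneg_left H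
      (show 0 ≤ 2 ^ i * (B + |c - q|) ^ i / B ^ (2 * p) by positivity)
    rw [div_mul_cancel₀ _ (by positivity)] at this
    rw [pow_succ]
    linarith

/-! ### the datum -/

/-- the reference, `0` below the cut -/
def cq (J : ℕ) (ρ : ℕ → ℝ) (k : ℕ) : ℝ := if k < J then 0 else ρ k

/-- profile index to cascade index -/
def sh (f : ℕ → ℝ) (j : ℕ) : ℝ := f (j - 1)

@[simp] theorem sh_succ (f : ℕ → ℝ) (k : ℕ) : sh f (k + 1) = f k := rfl

/-- envelopes (profile indices) -/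
structure Ev where
  X : ℝ
  e : ℕ → ℝ
  tl : ℝ
  F0 : ℕ → ℝ
  F1 : ℕ → ℝ
  f0 : ℕ → ℝ
  f1 : ℕ → ℝ
  Z : ℝ
  G0 : ℕ → ℝ := F0

/-- **the datum of block C** -/
def cd (M : Md) (m : ℕ) (a : ℝ) (ρ : ℕ → ℝ) (J : ℕ) (W : Option (ℕ → ℝ)) (E : Ev) : CD :=
  ⟨m, 1, M.Mx a, qx M (cq J ρ), J, W.map sh, E.X, sh E.e, E.tl, sh E.F0, sh E.F1, sh E.f0,
    sh E.f1, E.Z, sh E.G0⟩

/-- the test measure in profile indices -/
def omP (W : Option (ℕ → ℝ)) (k : ℕ) : ℝ := match W with | none => 0 | some ω => ω k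

/-- `m_k · (σ - m_k) / m` along a path -/
def piL (M : Md) (m : ℕ) (a : ℝ) (k : ℕ) (g : NI (M.L m a) → ℝ) (x : Cube m) : ℝ :=
  Eg33.ms (fun _ => 1) (M.L m a) (sl m) 0 (k + 1) g x -
    Eg33.rs (fun _ => 1) (M.L m a) (sl m) 0 (k + 1) g

/-- the path of the noise `g` -/
def pth (M : Md) (m : ℕ) (a : ℝ) (g : NI (M.L m a) → ℝ) : Pth (Cube m) :=
  fun j => st (M.L m a) j 0 g

/-- expectation over the path and the leaf -/
abbrev PE (M : Md) (m : ℕ) (a : ℝ) (F : (NI (M.L m a) → ℝ) → Cube m → ℝ) : ℝ :=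
  pE (fun _ => 1) (M.L m a) 0 F

/-- site overlap at the profile node `k` -/
def GamC (M : Md) (m : ℕ) (a : ℝ) (ρ : ℕ → ℝ) (J k : ℕ) : ℝ :=
  Pr.Gam (opV m 1 (M.Mx a) (qx M (cq J ρ))) (tp M m k * ρ k + M.H k)

variable {ρ : ℕ → ℝ} {J : ℕ} {W : Option (ℕ → ℝ)} {E : Ev}

theorem cq_lt {k : ℕ} (h : k < J) : cq J ρ k = 0 := if_pos h

theorem cq_ge {k : ℕ} (h : J ≤ k) : cq J ρ k = ρ k := if_neg (by omega)

theorem rf_cq (h : Rf M ρ) (J : ℕ) : Rf M (cq J ρ) := by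
  have nn : ∀ k < M.N, 0 ≤ ρ k := fun k hk => by
    induction k with
    | zero => exact h.nn
    | succ k ih => exact (ih (by omega)).trans (h.mono k hk)
  refine ⟨?_, fun k hk => ?_, fun k hk => ?_⟩ <;> unfold cq <;> split_ifs
  exacts [le_rfl, h.nn, le_rfl, nn _ hk, by omega, h.mono k hk, zero_le_one, h.le k hk]

section dict
variable (M m a ρ J W E)

theorem cd_K : (cd M m a ρ J W E).K = M.N + 1 := len_Mx
theorem cd_B : (cd M m a ρ J W E).B = M.L m a := rfl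
theorem cd_J : (cd M m a ρ J W E).J = J := rfl
theorem cd_X : (cd M m a ρ J W E).X = E.X := rfl
theorem cd_tl : (cd M m a ρ J W E).tl = E.tl := rfl
theorem cd_some : (cd M m a ρ J W E).W.isSome = W.isSome := by cases W <;> rfl
theorem cd_dd (x y : ℝ) : (cd M m a ρ J W E).dd x y = if W.isSome then y else x := by
  cases W <;> rfl
theorem cd_e (k : ℕ) : (cd M m a ρ J W E).e (k + 1) = E.e k := rfl
theorem cd_om (k : ℕ) : (cd M m a ρ J W E).om (k + 1) = omP W k := by cases W <;> rfl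
theorem cd_dx (k : ℕ) : (cd M m a ρ J W E).dx (k + 1) = M.dz m a k := rfl
theorem cd_rb (k : ℕ) : (cd M m a ρ J W E).rb (k + 1) = M.rb m a k := rfl
theorem cd_E2 (f : ℝ → ℝ) (k : ℕ) :
    (cd M m a ρ J W E).E2 (k + 1) (fun x y => f (ov x y)) = M.E2 m a f k := rfl

theorem sum_up (F : ℕ → ℝ) :
    ∑ j ∈ (cd M m a ρ J W E).up, F j = ∑ k ∈ Ico J M.N, F (k + 1) := by
  rw [Finset.sum_Ico_add' F J M.N 1, CD.up, cd_K, cd_J]; rfl

theorem sum_lo (F : ℕ → ℝ) : ∑ j ∈ (cd M m a ρ J W E).lo, F j = ∑ k ∈ range J, F (k + 1) := by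
  rw [range_eq_Ico, Finset.sum_Ico_add' F 0 J 1, CD.lo, cd_J]; rfl

theorem sum_tail (j : ℕ) (F : ℕ → ℝ) :
    ∑ t ∈ (cd M m a ρ J W E).tail j, F t = ∑ k ∈ Ico (max (j - 1) J) M.N, F (k + 1) := by
  rw [Finset.sum_Ico_add' F _ M.N 1, CD.tail, cd_K, cd_J]
  congr 2
  omega

theorem sum_Ioo (i j : ℕ) (F : ℕ → ℝ) : ∑ t ∈ Ioo i (j + 1), F t = ∑ k ∈ Ico i j, F (k + 1) := by
  rw [Finset.sum_Ico_add' F i j 1]; rfl

theorem cd_I (f : ℕ → ℝ) :
    (cd M m a ρ J W E).I f = ∑ k ∈ Ico J M.N, M.dz m a k * f (k + 1) := sum_up ..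

theorem cd_Iw (f : ℕ → ℝ) :
    (cd M m a ρ J W E).Iw f = ∑ k ∈ Ico J M.N, |omP W k| * f (k + 1) := by
  rw [CD.Iw, sum_up]; simp only [cd_om]


theorem cd_lw (f : ℕ → ℝ) (j : ℕ) :
    (cd M m a ρ J W E).lw f (j + 1) = ∑ k ∈ Ico J j, M.dz m a k * f (k + 1) := by
  rw [CD.lw, cd_J, sum_Ioo]; rfl


variable {M J}

theorem cd_q_lo {j : ℕ} (hJ : J ≤ M.N) (h : j ≤ J) : (cd M m a ρ J W E).q j = 0 := by
  rcases j with _ | k
  · rfl
  · exact (qx_succ (by omega)).trans (cq_lt (by omega))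

theorem cd_q {k : ℕ} (h : J ≤ k) (hk : k < M.N) : (cd M m a ρ J W E).q (k + 1) = ρ k :=
  (qx_succ hk).trans (cq_ge h)

theorem cd_del {k : ℕ} (h : J ≤ k) (hk : k < M.N) :
    (cd M m a ρ J W E).del (k + 1) = M.rb m a k - ρ k := by rw [CD.del, cd_q m a ρ W E h hk, cd_rb]


theorem cd_u (i : ℕ) {k : ℕ} (h : J ≤ k) (hk : k < M.N) :
    (cd M m a ρ J W E).u i (k + 1) = M.E2 m a (fun R => |R - ρ k| ^ i) k :=
  (uM_succ i hk).trans (by rw [cq_ge h]; rfl)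

theorem cd_u3 {k : ℕ} (h : J ≤ k) (hk : k < M.N) :
    (cd M m a ρ J W E).u3 (k + 1) = M.E2 m a (fun R => (R - ρ k) ^ 3) k := by
  unfold CD.u3 oU
  rw [cd_q m a ρ W E h hk]; rfl

theorem cd_tau {k : ℕ} (hk : k ≤ M.N) : (cd M m a ρ J W E).τ (k + 1) = tp M m k := oTau_tp hk

variable {a}

theorem cd_sig (h : M.Leg a) {k : ℕ} (hJ : J ≤ k) (hk : k < M.N) :
    (cd M m a ρ J W E).sig (k + 1) = tp M m k * ρ k + M.H k := by
  rw [CD.sig, cd_tau m a ρ W E hk.le, cd_q m a ρ W E hJ hk]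
  exact congrArg _ (fAcc_Mx h hk.le)

variable {ρ}

theorem cd_Gam (h : M.Leg a) (hρ : Rf M ρ) {k : ℕ} (hJ : J ≤ k) (hk : k < M.N) :
    (cd M m a ρ J W E).Gam (k + 1) = GamC M m a ρ J k :=
  (Gam_Mx h (rf_cq hρ J) hk).trans (by rw [cq_ge hJ]; rfl)

variable {m} (a ρ)

theorem cd_nd (hm : 0 < m) {k : ℕ} (hJ : J ≤ k) (hk : k < M.N) (g : NI (M.L m a) → ℝ) :
    (cd M m a ρ J W E).nd (k + 1) g = M.rP m a k (pth M m a g) - ρ k := by
  have e : oU (qx M (cq J ρ)) (k + 1) = fun x y : Cube m => (sl m).cov x y - ρ k :=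
    funext fun x => funext fun y => by rw [oU_succ hk, cq_ge hJ, sl_cov hm]
  change qf (P (fun _ => 1) ((M.L m a).drop (k + 1)) (st (M.L m a) (k + 1) 0 g))
    (oU (qx M (cq J ρ)) (k + 1)) = _
  rw [e, qf_sub, qf_const (sum_P Link33.wt1 _ _)]
  exact congrArg (· - ρ k) (rr_eq _ _ _).symm

theorem cd_lf (hm : 0 < m) {k : ℕ} (hJ : J ≤ k) (hk : k < M.N) (g : NI (M.L m a) → ℝ) (x : Cube m) :
    (cd M m a ρ J W E).lf (k + 1) g x = M.rP m a k (pth M m a g) - ρ k + piL M m a k g x := by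
  have e : oU (qx M (cq J ρ)) (k + 1) x = fun y : Cube m => (sl m).cov x y - ρ k :=
    funext fun y => by rw [oU_succ hk, cq_ge hJ, sl_cov hm]
  have e2 : M.rP m a k (pth M m a g) = Eg33.rs (fun _ => 1) (M.L m a) (sl m) 0 (k + 1) g := rfl
  change Pf (fun _ => 1) ((M.L m a).drop (k + 1)) (st (M.L m a) (k + 1) 0 g)
    (oU (qx M (cq J ρ)) (k + 1) x) = _
  rw [e, e2, piL, Eg33.ms_eq]
  simp only [Pf, mul_sub, Finset.sum_sub_distrib, ← Finset.sum_mul, sum_P Link33.wt1, one_mul]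
  ring

theorem cd_v (hm : 0 < m) (y t : ℕ) :
    (cd M m a ρ J W E).v y t = Eg33.vt (fun _ => 1) (M.L m a) (sl m) 0 y t := by
  unfold CD.v Eg33.vt Eg33.vz
  simp only [sl_cov hm]
  rfl

end dict

/-! ### the weak inputs -/

/-- nodes above the cut from `k` on -/
abbrev tlP (M : Md) (J k : ℕ) : Finset ℕ := Ico (max k J) M.N

/-- the centred functional -/
def cen (M : Md) (m : ℕ) (a : ℝ) (T : Finset ℕ) (μ : ℕ → ℝ) (q : Pth (Cube m)) : ℝ :=
  ∑ t ∈ T, μ t * (M.rP m a t q - M.rb m a t)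

/-- its leaf part -/
def lfp (M : Md) (m : ℕ) (a : ℝ) (T : Finset ℕ) (μ : ℕ → ℝ) (g : NI (M.L m a) → ℝ) (x : Cube m) :
    ℝ := ∑ t ∈ T, μ t * piL M m a t g x

theorem ep_cen (T : Finset ℕ) (μ : ℕ → ℝ) : EP (cen M m a T μ) :=
  EP.sum _ fun _ _ => ((QCas98.ep_rP Link33.wt1 _).sub (EP.const _)).const_mul _

theorem eg_cen (T : Finset ℕ) (μ : ℕ → ℝ) : Eg fun g => cen M m a T μ (pth M m a g) :=
  (ep_cen T μ).eg _ _

theorem eg_piL (t : ℕ) (x : Cube m) : Eg fun g => piL M m a t g x :=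
  (Eg33.eg_ms Link33.wt1 _ _ _ _ x).sub (Eg33.eg_rs Link33.wt1 _ _ _ _)

theorem eg_lfp (T : Finset ℕ) (μ : ℕ → ℝ) (x : Cube m) : Eg fun g => lfp M m a T μ g x :=
  Eg.sum _ fun t _ => (eg_piL t x).const_mul _


theorem eg_exc {ι : Type} [Fintype ι] {F : (ι → ℝ) → ℝ} (hF : Eg F) (A : ℝ) :
    Eg fun g => max (|F g| - A) 0 := by
  have e : ∀ t : ℝ, max t 0 = 1 / 2 * (t + |t|) := fun t => by
    rcases le_total 0 t with k | k
    · rw [max_eq_left k, abs_of_nonneg k]; ring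
    · rw [max_eq_right k, abs_of_nonpos k]; ring
  simp only [e]
  exact ((hF.abs.sub (Eg.const A)).add (hF.abs.sub (Eg.const A)).abs).const_mul _




theorem PE_add_sq {F G : (NI (M.L m a) → ℝ) → Cube m → ℝ} (hF : ∀ x, Eg fun g => F g x)
    (hG : ∀ x, Eg fun g => G g x) : PE M m a (fun g x => (F g x + G g x) ^ 2) ≤
      2 * PE M m a (fun g x => F g x ^ 2) + 2 * PE M m a fun g x => G g x ^ 2 := by
  refine (Eg33.pE_mono' Link33.wt1 _ _ (fun x => ((hF x).add (hG x)).pow _)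
    (G := fun g x => 2 * F g x ^ 2 + 2 * G g x ^ 2)
    (fun x => (((hF x).pow _).const_mul _).add (((hG x).pow _).const_mul _))
    fun g x => by nlinarith [sq_nonneg (F g x - G g x)]).trans_eq ?_
  rw [Eg33.pE_add' Link33.wt1 _ _ (fun x => ((hF x).pow _).const_mul _)
    fun x => ((hG x).pow _).const_mul _, Pe.pE_const_mul, Pe.pE_const_mul]

/-- **the weak inputs in profile indices**: location `l`, thresholds `A`, `A'` -/
structure WI (M : Md) (m : ℕ) (a : ℝ) (ρ : ℕ → ℝ) (J : ℕ) (μ F f : ℕ → ℝ) (tl : ℝ) : Prop where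
  nn : ∀ k, 0 ≤ F k ∧ 0 ≤ f k
  anti : ∀ k, F (k + 1) ≤ F k ∧ f (k + 1) ≤ f k
  env : ∀ k, ∃ l A A' : ℝ, |∑ t ∈ tlP M J k, μ t * (M.rb m a t - ρ t)| ≤ l ∧ 0 ≤ A' ∧
    l + A + A' ≤ F k ∧
    PE M m a (fun g _ => max (|cen M m a (tlP M J k) μ (pth M m a g)| - A) 0) +
      PE M m a (fun g x => max (|lfp M m a (tlP M J k) μ g x| - A') 0) ≤ tl
  var : ∀ k, 2 * PE M m a (fun g _ => cen M m a (tlP M J k) μ (pth M m a g) ^ 2) +
    2 * PE M m a (fun g x => lfp M m a (tlP M J k) μ g x ^ 2) ≤ f k ^ 2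

theorem PE_nonneg {F : (NI (M.L m a) → ℝ) → Cube m → ℝ} (hF : ∀ x, Eg fun g => F g x)
    (h : ∀ g x, 0 ≤ F g x) : 0 ≤ PE M m a F :=
  (pE_const Link33.wt1 _ _ 0).ge.trans (Eg33.pE_mono' Link33.wt1 _ _ (fun _ => Eg.const 0) hF h)

theorem sh_anti {F : ℕ → ℝ} (h : ∀ k, F (k + 1) ≤ F k) : ∀ j, sh F (j + 1) ≤ sh F j
  | 0 => le_rfl
  | j + 1 => h j



theorem WI.mono {μ F f F' f' : ℕ → ℝ} {tl tl' : ℝ} (H : WI M m a ρ J μ F f tl)
    (hF : ∀ k, F k ≤ F' k) (hf : ∀ k, f k ≤ f' k)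
    (an : ∀ k, F' (k + 1) ≤ F' k ∧ f' (k + 1) ≤ f' k) (ht : tl ≤ tl') :
    WI M m a ρ J μ F' f' tl' :=
  ⟨fun k => ⟨(H.nn k).1.trans (hF k), (H.nn k).2.trans (hf k)⟩, an, fun k => by
    obtain ⟨l, A, A', h1, h0, h2, h3⟩ := H.env k
    exact ⟨l, A, A', h1, h0, h2.trans (hF k), h3.trans ht⟩,
    fun k => (H.var k).trans (pow_le_pow_left₀ (H.nn k).2 (hf k) 2)⟩



theorem mem_up {j : ℕ} (h : j ∈ (cd M m a ρ J W E).up) : ∃ k, j = k + 1 ∧ J ≤ k ∧ k < M.N := by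
  rw [CD.up, cd_K, cd_J, mem_Ioo] at h
  exact ⟨j - 1, by omega, by omega, by omega⟩


end Crest.Agent.T156.Alt.CIn12

end
private theorem rz_4e3cd58140 : type_of% @_root_.Crest.Agent.T156.Alt.CIn12.omP.eq_1 := @_root_.Crest.Agent.T156.Alt.CIn12.omP.eq_1 -- L142
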