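import Crest.Agent.T156.CDef_40
import Crest.Agent.T156.HessT_65
import Crest.Agent.T156.Twin_20
import Crest.Agent.T156.AltOne_23

-- ▼ part T156/R2cD_85
section

/-!
# Row 156, R2 (helper85): the names of the reduced heads (P), (W), (EE) on the data `CD`
-/

set_option autoImplicit false

noncomputable section

namespace Crest.Agent.T156.Cas.C40.R85

open Crest.Agent.T157.E Crest.Agent.T157.Casc Crest.Agent.T157.SL
open Crest.Agent.T157.G1 (ov)
open Crest.ProbabilityR.SpinGlassDynamics (spin)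

/-- constant `τ` above the root -/
def CT (D : CD) (τ : ℝ) : Prop := ∀ j, 1 ≤ j → j ≤ D.K → D.τ j = τ
/-- `∫_low E R² dx` -/
def s2 (D : CD) : ℝ := ∑ j ∈ D.lo, D.dx j * D.E2 j fun x y => ov x y ^ 2
/-- `∫_low h E R dx` -/
def sh (D : CD) : ℝ := ∑ j ∈ D.lo, D.dx j * (fAcc D.M j * D.rb j)
/-- the low triangle -/
def s3 (D : CD) (τ : ℝ) : ℝ := D.S3 / τ ^ 3
/-- `∫_low E R⁴ dx` -/
def s4 (D : CD) : ℝ := ∑ j ∈ D.lo, D.dx j * D.E2 j fun x y => ov x y ^ 4
/-- `k² τ⁴ / 12` -/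
def kap (D : CD) (τ : ℝ) : ℝ := D.k4 ^ 2 * τ ^ 4 / 12
/-- `Γ_j` given the field `y` at the cut -/
def Gy (D : CD) (j : ℕ) (y : ℝ) : ℝ :=
  pi2 (fun _ => 1) (D.S.drop D.J) (j - D.J) (fun a b => spin a * spin b) fun b => y * spin b
/-- `ψ_j` -/
def psi (D : CD) (j : ℕ) : ℝ := -(1 / 2) * iteratedDeriv 2 (Gy D j) 0
/-- `∫_up ψ δ dx` -/
def O (D : CD) : ℝ := ∑ j ∈ D.up, D.dx j * (psi D j * D.del j)
/-- `μ_j = 1 - τ E Φ_yy²` -/
def mu (D : CD) (τ : ℝ) (j : ℕ) : ℝ := 1 - τ * Hess65.Gn D.S j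
/-- `δ` on UP, zero on LOW -/
def dU (D : CD) (j : ℕ) : ℝ := if D.J < j then D.del j else 0
/-- the one-site list of the site cascade -/
abbrev V (D : CD) : List (ℝ × ℝ) := opV D.n D.β D.M D.q
/-- `‖δ‖²_{H⁻¹}` in the clock of the site cascade -/
def ell2 (D : CD) : ℝ := Hess65.Hc D.S (V D) (dU D)
/-- `∫_up μ E U² dx` -/
def muU (D : CD) (τ : ℝ) : ℝ := ∑ j ∈ D.up, D.dx j * (mu D τ j * D.u 2 j)
/-- (TWIN) with the low reference `S0` and the error `tw` -/
def TW (D : CD) (τ S0 tw : ℝ) : Prop :=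
  ∀ j ∈ D.up, |D.Gam j - D.q j + τ ^ 2 * D.lam * psi D j * S0| ≤ tw

variable {D : CD} {τ : ℝ}

theorem CT.lo (h : CT D τ) (hc : D.J < D.K) {j : ℕ} (hj : j ∈ D.lo) : D.τ j = τ :=
  h j (Finset.mem_Icc.1 hj).1 ((Finset.mem_Icc.1 hj).2.trans hc.le)

theorem CT.up (h : CT D τ) {j : ℕ} (hj : j ∈ D.up) : D.τ j = τ :=
  h j (by have := Finset.mem_Ioo.1 hj; omega) (Finset.mem_Ioo.1 hj).2.le

theorem S1_eq (h : CT D τ) (hc : D.J < D.K) : D.S1 = τ * s2 D := by
  rw [CD.S1, s2, Finset.mul_sum]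
  exact Finset.sum_congr rfl fun j hj => by rw [h.lo hc hj]; ring

theorem S2_eq (h : CT D τ) (hc : D.J < D.K) : D.S2 = τ ^ 2 * s2 D := by
  rw [CD.S2, s2, Finset.mul_sum]
  exact Finset.sum_congr rfl fun j hj => by rw [h.lo hc hj]; ring

theorem S4_eq (h : CT D τ) (hc : D.J < D.K) : D.S4 = τ ^ 4 * s4 D := by
  rw [CD.S4, s4, Finset.mul_sum]
  exact Finset.sum_congr rfl fun j hj => by rw [h.lo hc hj]; ring

theorem Sh_eq (h : CT D τ) (hc : D.J < D.K) : D.Sh' = τ * sh D := by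
  rw [CD.Sh', sh, Finset.mul_sum]
  exact Finset.sum_congr rfl fun j hj => by rw [h.lo hc hj]; ring

theorem S3_eq (D : CD) (h : τ ≠ 0) : D.S3 = τ ^ 3 * s3 D τ := by
  rw [s3]; field_simp

theorem Su_eq (h : CT D τ) : D.Su = τ * D.I (D.u 2) := by
  rw [CD.Su, CD.I, Finset.mul_sum]
  exact Finset.sum_congr rfl fun j hj => by rw [h.up hj]; ring

end Crest.Agent.T156.Cas.C40.R85

end
end

-- ▼ part T156/R2c_85

/-!
# Row 156, R2 (helper85): the heads (P), (W) and the second-order bound from HV, HL, HU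
-/

set_option autoImplicit false

noncomputable section

namespace Crest.Agent.T156.Cas.C40.R85

open MeasureTheory Real Set Filter Topology
open Crest.Agent.T157.E Crest.Agent.T157.Casc Crest.Agent.T157.SL Crest.Agent.T157.Casc.C
open Crest.Agent.R339.B Crest.Agent.R339.Var Crest.Agent.T157.Pf
open Crest.Agent.T157.G1 (ov)
open Crest.ProbabilityR.SpinGlassDynamics (spin)
open Mul55 Hess65 Crest.Agent.T156.Pp

/-! ### two-letter site words -/

section site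
variable {L : List (Lv Bool)} {q c c' : ℕ → ℝ}

theorem dop_lev (L : List (Lv Bool)) (h : Bool → ℝ) (h0 : c 0 = 0) (s : Sh)
    (F : (s.Lf → Bool) → ℝ) : Dop L (fun j _ _ => c j) (TEf (fun _ => 1) L h) s F = 0 := by
  have hw := One15.w1
  have h1 := dT_const' hw s L h (S := fun j _ _ => c j) (by funext x y; exact h0)
    (TE (fun _ => 1) s L h F)
  rw [dT_eq_sg hw s L h (c := c L.length) fun _ => rfl] at h1
  rw [Dop_eq_sg, ← h1]
  refine sg_congr _ _ _ fun τ hτ => ?_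
  unfold GT.ev
  simp only [TEf, mul_comm _ (c τ.j), Law.TE_const_mul hw, Law.TE_const hw, hτ.TE_e hw]

/-- `c η` -/
def kq (q c : ℕ → ℝ) : SK := fun j a b => c j * oE q j a b

theorem kq_mem {K : ℕ} (h0 : c 0 = 0) : kq q c ∈ Ok Bool K :=
  ⟨by funext x y; simp [kq, h0], c K * (1 - q K), fun y => by
    rw [kq, oE, ← sq, One15.spin_sq]⟩

theorem dop_kq (L : List (Lv Bool)) (h : Bool → ℝ) (h0 : c 0 = 0) :
    Dop L (kq q c) (TEf (fun _ => 1) L h) = Dop L (ek c) (TEf (fun _ => 1) L h) := by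
  funext s F
  have e : kq q c = fun j x y => 1 * ek c j x y + (-1) * (fun j _ _ => c j * q j) j x y := by
    funext j x y; simp only [kq, oE, ek]; ring
  rw [e, (isLin_TEf One15.w1 L h).dopS, dop_lev L h (by simp [h0])]
  ring

theorem lam_two (L : List (Lv Bool)) (h0 : c 0 = 0) (h0' : c' 0 = 0) :
    Lam (fun _ => 1) L 0 [kq q c, kq q c'] =
      ∑ j ∈ Finset.range (L.length + 1), dm L 0 j * c j * Lom L (fun i => 2 * c' i) j := by
  have s1 := pairF_swap One15.w1 L 0 (S := kq q c) (T := ek c') (kq_mem h0) (ek_mem h0')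
    (U := []) (by simp)
  have s2 := pairF_swap One15.w1 L 0 (S := ek c') (T := ek c) (ek_mem h0') (ek_mem h0)
    (U := []) (by simp)
  rw [WdO_nil] at s1 s2
  have e : ek c' = ek fun i => 2 * c' i / 2 := by funext j x y; simp [ek]
  rw [Lam_cons, WdO_cons, WdO_nil, dop_kq L 0 h0', s1, dop_kq L 0 h0, s2, ← pairF_Lom, ← e]

theorem lam_one (L : List (Lv Bool)) (h : Bool → ℝ) :
    Lam (fun _ => 1) L h [kq q c] = ∑ j ∈ Finset.range (L.length + 1), dm L 0 j *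
      (c j * (pi2 (fun _ => 1) L j (fun a b => spin a * spin b) h - q j)) := by
  rw [Lam_cons, WdO_nil, pairF]
  refine Finset.sum_congr rfl fun j _ => ?_
  rw [twoF_TEf One15.w1]
  unfold kq oE
  rw [pi2_const_mul, pi2_sub One15.w1, pi2_const One15.w1]

theorem EX_rest_take (F : ℝ → ℝ) {t : ℝ} (ht : 0 ≤ t) : ∀ {l : List (ℝ × ℝ)},
    (∀ p ∈ l, 0 ≤ p.2) → ∀ J, EX 1 (rest l (R339.Var.TT (l.take J))) t F = EX 1 (l.drop J) t F
  | [], _, J => by simp [rest]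
  | p :: l, h, 0 => by
    have e : R339.Var.TT ((p :: l).take 0) = 0 := rfl
    rw [e, rest, if_pos (h p List.mem_cons_self), sub_zero, List.drop_zero]
  | p :: l, h, J + 1 => by
    have h2 : ∀ r ∈ l, 0 ≤ r.2 := fun r hr => h r (List.mem_cons_of_mem _ hr)
    have h3 : 0 ≤ R339.Var.TT (l.take J) := TT_nonneg fun r hr => h2 r (List.mem_of_mem_take hr)
    have ih := EX_rest_take F ht h2 J
    rw [List.take_succ_cons, List.drop_succ_cons, TT_cons, rest]
    split_ifs with h4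
    · have h5 : R339.Var.TT (l.take J) = 0 := le_antisymm (by linarith) h3
      have h6 : EX 1 (rest l 0) t F = EX 1 l t F := EX_rest_take F ht h2 0
      rw [← ih, h5, h6, add_zero, sub_self, EX]
      split_ifs with h7
      · rw [le_antisymm h7 ht, tE_v0, One15.EX_zero F h2]
      · rw [tE_v0, sub_zero]
    · rw [add_sub_cancel_left, ih]

theorem adm_drop : ∀ {l : List (ℝ × ℝ)}, Adm 1 l → ∀ J, Adm 1 (l.drop J)
  | [], _, J => by simp [Adm]
  | _ :: _, h, 0 => h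
  | _ :: _, h, J + 1 => adm_drop h.2.2.2 J

theorem TT_app (l l' : List (ℝ × ℝ)) : R339.Var.TT (l ++ l') = R339.Var.TT l + R339.Var.TT l' := by simp [R339.Var.TT]

theorem TT_drop_take (l : List (ℝ × ℝ)) {J j : ℕ} (h : J ≤ j) :
    R339.Var.TT ((l.drop J).take (j - J)) = R339.Var.TT (l.take j) - R339.Var.TT (l.take J) := by
  obtain ⟨k, rfl⟩ := Nat.exists_eq_add_of_le h
  rw [Nat.add_sub_cancel_left, List.take_add, TT_app]
  ring

end site

variable {D : CD} {τ τ0 : ℝ}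

theorem dd_val (h : D.W.isSome = false) (x y : ℝ) : D.dd x y = x := by
  unfold CD.dd
  cases hW : D.W with
  | none => rfl
  | some _ => rw [hW] at h; simp at h


theorem lenS (D : CD) : D.S.length = D.K := opS_length

theorem lenV (D : CD) : (V D).length = D.K := opV_length

theorem dmS (D : CD) (j : ℕ) : dm D.S 0 j = D.dx j := Cav22.dm_tilt tilt_opS 0 j

theorem exS (D : CD) (j : ℕ) : ex D.S j = ex D.B j := Cav22.ex_tilt tilt_opS j

theorem tmV (D : CD) {j : ℕ} (hj : j ≤ D.K) : Hess65.tm (V D) j = D.sig j := TT_opV hj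

theorem dU_zero (D : CD) : dU D 0 = 0 := by simp [dU]

theorem dU_up {j : ℕ} (hj : j ∈ D.up) : dU D j = D.del j := if_pos (Finset.mem_Ioo.1 hj).1

theorem sL_val (h : D.W.isSome = false) (W : List SK) : D.sL W = Lam (fun _ => 1) D.S 0 W := by
  rw [CD.sL, CD.sH, dd_val h]
  simp only [List.drop_zero, zero_mul, add_zero, List.map_id']
  rfl

theorem Sd_kq (D : CD) : D.Sd = kq D.q fun j => D.τ j / 2 * dU D j := by
  funext j a b
  by_cases h : D.J < j <;> simp [CD.Sd, kq, dU, h]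

theorem lev_kq (D : CD) (t : ℕ) : D.lev t = kq D.q fun j => if j = t then 1 else 0 := by
  funext j a b
  by_cases h : j = t <;> simp [CD.lev, kq, h]

/-- sums over all nodes of terms that vanish on LOW -/
theorem sum_up (top : D.dx D.K = 0) {g : ℕ → ℝ} (h : ∀ j ≤ D.J, g j = 0) :
    ∑ j ∈ Finset.range (D.K + 1), D.dx j * g j = ∑ j ∈ D.up, D.dx j * g j := by
  refine (Finset.sum_subset (fun j hj => ?_) fun j hj hj' => ?_).symm
  · simp only [Finset.mem_Ioo, Finset.mem_range] at hj ⊢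
    omega
  · simp only [Finset.mem_Ioo, Finset.mem_range] at hj hj'
    rcases le_or_gt j D.J with h1 | h1
    · rw [h j h1, mul_zero]
    · rw [show j = D.K by omega, top, zero_mul]

theorem dU_lo {j : ℕ} (h : j ≤ D.J) : dU D j = 0 := if_neg (by omega)

/-- the first-order term -/
theorem f1_eq (h : D.W.isSome = false) (top : D.dx D.K = 0) (hc : CT D τ) :
    D.f1' = τ / 2 * ∑ j ∈ D.up, D.dx j * (D.del j * (D.Gam j - D.q j)) := by
  rw [CD.f1', sL_val h, Sd_kq, lam_one, lenS]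
  simp only [dmS]
  rw [sum_up top fun j hj => by simp [dU_lo hj], Finset.mul_sum]
  refine Finset.sum_congr rfl fun j hj => ?_
  rw [hc.up hj, dU_up hj, CD.Gam]
  ring

/-- the mean part of the second-order term -/
theorem QM_eq (h : D.W.isSome = false) (hc : CT D τ) :
    D.QM = τ ^ 2 / 2 * ∑ j ∈ Finset.range (D.S.length + 1),
      dm D.S 0 j * dU D j * Lom D.S (dU D) j := by
  have e : ∀ j ≤ D.S.length, D.τ j / 2 * dU D j = τ / 2 * dU D j := fun j hj => by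
    rcases Nat.eq_zero_or_pos j with rfl | h1
    · rw [dU_zero, mul_zero, mul_zero]
    · rw [hc j h1 (lenS D ▸ hj)]
  rw [CD.QM, sL_val h, Sd_kq, lam_two _ (by simp [dU_zero]) (by simp [dU_zero]),
    Lom_congr _ (om' := fun i => τ * dU D i + 0 * dU D i) fun j hj => by rw [e j hj]; ring,
    Finset.mul_sum]
  refine Finset.sum_congr rfl fun j hj => ?_
  rw [Lom_lin, e j (Nat.lt_succ_iff.1 (Finset.mem_range.1 hj))]
  ring

/-- the diagonal word -/
theorem lev_eq (h : D.W.isSome = false) {t : ℕ} (ht : t ∈ D.up) :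
    D.sL [D.lev t, D.lev t] = 2 * (D.dx t * Lom D.S (fun j => if j = t then 1 else 0) t) := by
  have t0 : (0 : ℕ) ≠ t := by have := Finset.mem_Ioo.1 ht; omega
  have e := Lom_lin D.S 2 0 (fun j => if j = t then 1 else 0) (fun _ => 0) t
  simp only [mul_zero, add_zero, zero_mul] at e
  rw [sL_val h, lev_kq, lam_two _ (by simp [t0]) (by simp [t0]), Finset.sum_eq_single t
    (fun j _ hj => by simp [hj]) fun hj => absurd (Finset.mem_range.2 (by
      have := Finset.mem_Ioo.1 ht; rw [lenS]; omega)) hj, if_pos rfl, e, dmS]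
  ring

/-- the site data: positive tilts, tilt one from the level `P` on, time `≤ T` below -/
structure St (D : CD) (τ T : ℝ) (P : ℕ) : Prop where
  ct : CT D τ
  pos : 0 < τ
  tilt : ∀ p ∈ D.M, 0 < p.1
  JP : D.J < P
  PK : P ≤ D.K
  one : ex D.B P = 1
  time : D.sig P + 1 ≤ T

variable {T : ℝ} {P : ℕ}

theorem rkS (ok : D.Ok τ0) : List.Forall₂ (Rk1 spin) D.S (V D) := rk_opS ok.ook

theorem St.adm (s : St D τ T P) (ok : D.Ok τ0) : Adm 1 (V D) := adm_opV ok.ook ok.mono s.tilt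

theorem St.hess (s : St D τ T P) (ok : D.Ok τ0) {om : ℕ → ℝ} (h0 : om 0 = 0) :
    ∑ j ∈ Finset.range (D.S.length + 1), dm D.S 0 j * om j * Lom D.S om j ≤
      ∑ j ∈ Finset.range (D.S.length + 1), dm D.S 0 j * Hess65.Gn D.S j * om j ^ 2 -
        Real.exp (-14 * T) / 4 * Hc D.S (V D) om :=
  hessT (rkS ok) (s.adm ok) (lenS D ▸ s.PK) ((exS D P).trans s.one) ((tmV D s.PK).symm ▸ s.time) h0

theorem St.lev_le (s : St D τ T P) (ok : D.Ok τ0) (h : D.W.isSome = false) {t : ℕ}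
    (ht : t ∈ D.up) : D.sL [D.lev t, D.lev t] ≤ 2 * (D.dx t * Hess65.Gn D.S t) := by
  have t0 : (0 : ℕ) ≠ t := by have := Finset.mem_Ioo.1 ht; omega
  have tm : t ∈ Finset.range (D.S.length + 1) :=
    Finset.mem_range.2 (by have := Finset.mem_Ioo.1 ht; rw [lenS]; omega)
  have k := s.hess ok (om := fun j => if j = t then 1 else 0) (by simp [t0])
  rw [Finset.sum_eq_single t (fun j _ hj => by simp [hj]) fun hj => absurd tm hj,
    Finset.sum_eq_single t (fun j _ hj => by simp [hj]) fun hj => absurd tm hj, if_pos rfl,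
    dmS] at k
  have := mul_nonneg (by positivity : 0 ≤ Real.exp (-14 * T) / 4)
    (Hc_nonneg (rkS ok) fun j => if j = t then 1 else 0)
  rw [lev_eq h ht]
  linarith

theorem Gy_eq (ok : D.Ok τ0) {j : ℕ} (h1 : D.J ≤ j) (h2 : j ≤ D.K) :
    Gy D j = EX 1 ((V D).drop D.J) (D.sig j - D.sig D.J) fun y => Pr.Dk 0 (V D) (D.sig j) y ^ 2 := by
  funext y
  have R := List.forall₂_drop D.J (rkS ok)
  have k := One15.pi2_spin R (j := j - D.J) (by rw [List.length_drop, lenV]; omega) y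
  rw [One15.PhiT_take R, List.drop_drop, Nat.add_sub_cancel' h1, ← One15.PhiT_take (rkS ok),
    TT_drop_take _ h1, TT_opV h2, TT_opV ok.cut.le] at k
  simp only [Pr.Dk, Dn_zero]
  exact k

theorem sig_mono (ok : D.Ok τ0) {i j : ℕ} (h1 : i ≤ j) (h2 : j ≤ D.K) : D.sig i ≤ D.sig j := by
  have := (nd_tm (rkS ok)).up.le h1 (lenS D ▸ h2)
  rwa [tmV D h2, tmV D (h1.trans h2)] at this

theorem St.Gy_bd (s : St D τ T P) (ok : D.Ok τ0) {j : ℕ} (h1 : D.J ≤ j) (h2 : j ≤ D.K) :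
    BD (Gy D j) := by
  rw [Gy_eq ok h1 h2]
  exact Twin20.EX_bd ((Ker.Dk_bd 0 _ _).pow 2) (adm_drop (s.adm ok) _)
    (sub_nonneg.2 (sig_mono ok h1 h2))

theorem psi_eq (ok : D.Ok τ0) {j : ℕ} (h1 : D.J ≤ j) (h2 : j ≤ D.K) :
    psi D j = Twin20.psi (V D) (D.sig D.J) (D.sig j) := by
  have k := EX_rest_take (fun y => Pr.Dk 0 (V D) (D.sig j) y ^ 2)
    (sub_nonneg.2 (sig_mono ok h1 h2)) (One15.nn_of (rkS ok)) D.J
  rw [TT_opV ok.cut.le] at k
  rw [psi, Gy_eq ok h1 h2, Twin20.psi, Twin20.Hs, k]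

theorem lam_eq (ok : D.Ok τ0) : D.lam = Pr.Dk 1 (V D) (D.sig D.J) 0 := by
  have e : D.Ph = PhiT 1 (V D) (D.sig D.J) := by
    funext y
    have k := X_spin (List.forall₂_drop D.J (rkS ok)) y
    rw [← One15.PhiT_take (rkS ok), TT_opV ok.cut.le] at k
    exact k
  rw [CD.lam, e, Pr.Dk, Dn, iteratedDeriv_succ']

/-- the mixed term -/
theorem St.dP_eq (s : St D τ T P) (ok : D.Ok τ0) (h : D.W.isSome = false) :
    D.dP 2 [D.Sd] = τ * O D := by
  have e : (fun y => D.sH D.J y [D.Sd]) = fun y => ∑ j ∈ D.up,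
      D.dx j * (τ / 2 * D.del j) * (-D.q j + Gy D j y) := by
    funext y
    have k := Wt87.sum_dm_drop D.S (j := D.J) (lenS D ▸ ok.cut.le) fun j =>
      D.τ j / 2 * dU D j * (Gy D j y - D.q j)
    rw [CD.sH, dd_val h, List.map_singleton, Sd_kq]
    refine (lam_one (q := fun j => D.q (j + D.J)) (c := fun j => D.τ (j + D.J) / 2 * dU D (j + D.J))
      _ _).trans ?_
    simp only [Gy, Nat.add_sub_cancel] at k
    rw [List.length_drop, k, dU_lo le_rfl, lenS, ← Finset.Ioo_insert_right ok.cut,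
      Finset.sum_insert (by simp), dmS, ok.top]
    simp only [mul_zero, zero_mul, zero_add]
    refine Finset.sum_congr rfl fun j hj => ?_
    rw [dmS, s.ct.up hj, dU_up hj, Gy]
    ring
  have b : ∀ j ∈ D.up, BD (Gy D j) := fun j hj =>
    s.Gy_bd ok (Finset.mem_Ioo.1 hj).1.le (Finset.mem_Ioo.1 hj).2.le
  rw [CD.dP, e, iteratedDeriv_fun_sum fun j hj =>
    ((((BD.const _).add (b j hj)).const_mul _).contDiff 2).contDiffAt, O, Finset.mul_sum,
    ← Finset.sum_neg_distrib]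
  refine Finset.sum_congr rfl fun j hj => ?_
  rw [iteratedDeriv_const_mul_field, iteratedDeriv_const_add two_pos, psi]
  ring

theorem St.mx_eq (s : St D τ T P) (ok : D.Ok τ0) (h : D.W.isSome = false) :
    D.mx = τ ^ 3 * D.lam / 2 * s2 D * O D := by
  rw [CD.mx, CD.dmx, dd_val h, s.dP_eq ok h, S2_eq s.ct ok.cut]
  ring

/-! ### moments -/

theorem dx_nonneg (ok : D.Ok τ0) (j : ℕ) : 0 ≤ D.dx j := dm_nonneg ok.mono j

theorem del_eq (D : CD) (j : ℕ) : D.del j = D.E2 j (oU D.q j) := by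
  unfold CD.del CD.rb CD.E2 oU
  rw [pi2_sub wt_one90, pi2_const wt_one90]

theorem del_sq_le (D : CD) (j : ℕ) : D.del j ^ 2 ≤ D.u 2 j := by
  have k := pi2_nonneg wt_one90 D.B j (K := fun x y =>
    |oU D.q j x y| ^ 2 - 2 * D.del j * oU D.q j x y + D.del j ^ 2)
    (fun x y => by rw [sq_abs]; nlinarith [sq_nonneg (oU D.q j x y - D.del j)]) 0
  rw [pi2_add wt_one90, pi2_sub wt_one90, pi2_const_mul, pi2_const wt_one90] at k
  have e := del_eq D j
  unfold CD.E2 at e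
  change 0 ≤ D.u 2 j - _ * pi2 _ D.B j (oU D.q j) 0 + _ at k
  rw [← e] at k
  linarith

theorem abs_del_le (D : CD) (j : ℕ) : |D.del j| ≤ D.g j := by
  have u0 : 0 ≤ D.u 3 j := uM_nonneg 3 j
  have g0 : 0 ≤ D.g j := Real.rpow_nonneg u0 _
  have g3 : D.g j ^ 3 = D.u 3 j := by
    rw [CD.g, ← Real.rpow_natCast, ← Real.rpow_mul u0]; norm_num
  have y : ∀ c, 0 < c → |D.del j| ≤ 2 * c / 3 + 1 / (3 * c ^ 2) * D.u 3 j := fun c hc => by
    have p : ∀ x : ℝ, |x| ≤ 2 * c / 3 + 1 / (3 * c ^ 2) * |x| ^ 3 := fun x => by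
      have a := abs_nonneg x
      have : 0 ≤ (|x| - c) ^ 2 * (|x| + 2 * c) / (3 * c ^ 2) := by positivity
      have e : (|x| - c) ^ 2 * (|x| + 2 * c) / (3 * c ^ 2) =
          2 * c / 3 + 1 / (3 * c ^ 2) * |x| ^ 3 - |x| := by field_simp; ring
      linarith
    have e : pi2 (fun _ => 1) D.B j (fun x y => 2 * c / 3 + 1 / (3 * c ^ 2) * |oU D.q j x y| ^ 3) 0
        = 2 * c / 3 + 1 / (3 * c ^ 2) * D.u 3 j := by
      rw [pi2_add wt_one90, pi2_const_mul, pi2_const wt_one90]; rfl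
    have k1 := pi2_mono wt_one90 D.B j (fun x y => (le_abs_self _).trans (p (oU D.q j x y))) 0
    have k2 := pi2_mono wt_one90 D.B j (K := fun x y => -1 * oU D.q j x y)
      (fun x y => (show -1 * oU D.q j x y ≤ _ by rw [neg_one_mul]; exact neg_le_abs _).trans
        (p (oU D.q j x y))) 0
    rw [pi2_const_mul] at k2
    rw [e] at k1 k2
    rw [del_eq, CD.E2]
    exact abs_le.2 ⟨by linarith, k1⟩
  rcases g0.eq_or_lt with h | h
  · rw [← h] at g3 ⊢
    refine le_of_forall_pos_le_add fun c hc => (y c hc).trans ?_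
    rw [← g3]
    simp only [ne_eq, OfNat.ofNat_ne_zero, not_false_eq_true, zero_pow, mul_zero]
    linarith
  · refine (y _ h).trans_eq ?_
    rw [← g3]
    field_simp
    ring

/-- first-order term and mixed term after (TWIN) -/
theorem St.f1_mx (s : St D τ T P) (ok : D.Ok τ0) (h : D.W.isSome = false) {S0 tw : ℝ}
    (w : TW D τ S0 tw) :
    |D.f1' + D.mx - τ ^ 3 * D.lam / 2 * (s2 D - S0) * O D| ≤ τ / 2 * (tw * D.N1) := by
  have e : D.f1' + D.mx - τ ^ 3 * D.lam / 2 * (s2 D - S0) * O D = τ / 2 * ∑ j ∈ D.up,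
      D.dx j * (D.del j * (D.Gam j - D.q j + τ ^ 2 * D.lam * psi D j * S0)) := by
    have : ∀ j, D.dx j * (D.del j * (D.Gam j - D.q j + τ ^ 2 * D.lam * psi D j * S0)) =
        D.dx j * (D.del j * (D.Gam j - D.q j)) +
          τ ^ 2 * D.lam * S0 * (D.dx j * (psi D j * D.del j)) := fun j => by ring
    simp only [this, Finset.sum_add_distrib, ← Finset.mul_sum]
    rw [s.mx_eq ok h, f1_eq h ok.top s.ct, O]
    ring
  rw [e, abs_mul, abs_of_pos (half_pos s.pos), CD.N1, CD.I, Finset.mul_sum _ _ tw]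
  refine mul_le_mul_of_nonneg_left ((Finset.abs_sum_le_sum_abs _ _).trans
    (Finset.sum_le_sum fun j hj => ?_)) (half_pos s.pos).le
  rw [abs_mul, abs_mul, abs_of_nonneg (dx_nonneg ok j), mul_left_comm tw, mul_comm tw]
  exact mul_le_mul_of_nonneg_left (mul_le_mul (abs_del_le D j) (w j hj) (abs_nonneg _)
    ((abs_nonneg _).trans (abs_del_le D j))) (dx_nonneg ok j)

/-- the second-order term has a sign -/
theorem St.q2_le (s : St D τ T P) (ok : D.Ok τ0) (h : D.W.isSome = false) :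
    τ / 2 * muU D τ + τ ^ 2 / 2 * (Real.exp (-14 * T) / 4) * ell2 D ≤ -(2 * D.q2) := by
  have a := s.hess ok (dU_zero D)
  have e1 : ∑ j ∈ Finset.range (D.S.length + 1), dm D.S 0 j * Hess65.Gn D.S j * dU D j ^ 2 =
      ∑ j ∈ D.up, D.dx j * (Hess65.Gn D.S j * D.del j ^ 2) := by
    simp only [dmS, mul_assoc]
    rw [lenS, sum_up ok.top fun j hj => by simp [dU_lo hj]]
    exact Finset.sum_congr rfl fun j hj => by rw [dU_up hj]
  have b : D.LOC ≤ τ ^ 2 / 2 * ∑ j ∈ D.up, D.dx j * (Hess65.Gn D.S j * (D.u 2 j - D.del j ^ 2)) := by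
    rw [CD.LOC, Finset.mul_sum]
    refine Finset.sum_le_sum fun j hj => ?_
    rw [s.ct.up hj]
    refine (mul_le_mul_of_nonneg_left (s.lev_le ok h hj)
      (mul_nonneg (by positivity) (sub_nonneg.2 (del_sq_le D j)))).trans_eq ?_
    ring
  have e2 : muU D τ = D.I (D.u 2) - τ * (∑ j ∈ D.up, D.dx j * (Hess65.Gn D.S j * D.del j ^ 2) +
      ∑ j ∈ D.up, D.dx j * (Hess65.Gn D.S j * (D.u 2 j - D.del j ^ 2))) := by
    rw [muU, CD.I, ← Finset.sum_add_distrib, Finset.mul_sum, ← Finset.sum_sub_distrib]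
    exact Finset.sum_congr rfl fun j _ => by rw [mu]; ring
  have a' := mul_le_mul_of_nonneg_left a (by positivity : 0 ≤ τ ^ 2 / 2)
  rw [← QM_eq h s.ct, e1] at a'
  rw [CD.q2, dd_val h, Su_eq s.ct, e2, ell2]
  linarith

/-! ### the heads -/

/-- **(W)** -/
theorem headW (hL : HL) (τ0 : ℝ) : ∃ C : ℝ, 0 ≤ C ∧ ∀ (D : CD) (τ T : ℝ) (P : ℕ), D.Ok τ0 →
    D.W.isSome = false → St D τ T P →
    |2 * (τ / 4 * (1 - τ * D.lam ^ 2) * s2 D) - τ * D.lam ^ 2 / 2 * sh D +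
      3 * (τ ^ 3 * D.lam ^ 3 / 6 * s3 D τ) - 4 * (kap D τ / 4 * s4 D) -
      τ ^ 3 * D.lam * s2 D * O D| ≤ C * D.Err := by
  obtain ⟨C, h0, hC⟩ := hL τ0
  refine ⟨C, h0, fun D τ T P ok h s => ?_⟩
  rw [← abs_neg]
  refine le_trans (le_of_eq ?_) (hC D ok h)
  congr 1
  simp only [CD.yh, CD.y2, CD.y3, CD.y4, CD.lam2, CD.lam3, CD.k44, dd_val h, s.mx_eq ok h,
    S1_eq s.ct ok.cut, S2_eq s.ct ok.cut, S4_eq s.ct ok.cut, Sh_eq s.ct ok.cut,
    S3_eq D s.pos.ne', kap]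
  ring

/-- **(P)** -/
theorem headP (hV : HV) (hU : HU) (τ0 : ℝ) : ∃ C : ℝ, 0 ≤ C ∧ ∀ (D : CD) (τ T S0 tw : ℝ) (P : ℕ),
    D.Ok τ0 → D.W.isSome = false → St D τ T P → TW D τ S0 tw →
    |D.dP0 - (τ / 4 * (1 - τ * D.lam ^ 2) * s2 D - τ * D.lam ^ 2 / 2 * sh D +
      τ ^ 3 * D.lam ^ 3 / 6 * s3 D τ - kap D τ / 4 * s4 D) -
      τ ^ 3 * D.lam / 4 * (S0 - s2 D) * O D| ≤ C * D.Err + τ / 4 * (tw * D.N1) := by
  obtain ⟨C, h0, hC⟩ := hV τ0
  obtain ⟨C', h0', hC'⟩ := hU τ0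
  refine ⟨C + C' / 2, by positivity, fun D τ T S0 tw P ok h s w => ?_⟩
  have a := abs_le.1 (hC D ok h)
  have b := abs_le.1 (hC' D ok h)
  have c := abs_le.1 (s.f1_mx ok h w)
  have e : D.yh + D.y2 + D.y3 + D.y4 = -(τ / 4 * (1 - τ * D.lam ^ 2) * s2 D -
      τ * D.lam ^ 2 / 2 * sh D + τ ^ 3 * D.lam ^ 3 / 6 * s3 D τ - kap D τ / 4 * s4 D) := by
    simp only [CD.yh, CD.y2, CD.y3, CD.y4, CD.lam2, CD.lam3, CD.k44, dd_val h,
      S1_eq s.ct ok.cut, S2_eq s.ct ok.cut, S4_eq s.ct ok.cut, Sh_eq s.ct ok.cut,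
      S3_eq D s.pos.ne', kap]
    ring
  exact abs_le.2 ⟨by linarith [a.1, a.2, b.1, b.2, c.1, c.2],
    by linarith [a.1, a.2, b.1, b.2, c.1, c.2]⟩

/-- **(E2)**: `∫ μ E U² + c ‖δ‖²_{H⁻¹}` is at most the mixed term plus the error -/
theorem headE2 (hU : HU) (τ0 : ℝ) : ∃ C : ℝ, 0 ≤ C ∧ ∀ (D : CD) (τ T S0 tw : ℝ) (P : ℕ),
    D.Ok τ0 → D.W.isSome = false → St D τ T P → TW D τ S0 tw →
    τ / 2 * muU D τ + τ ^ 2 / 2 * (Real.exp (-14 * T) / 4) * ell2 D ≤
      τ ^ 3 * D.lam / 2 * (s2 D - S0) * O D + τ / 2 * (tw * D.N1) + C * D.Err := by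
  obtain ⟨C, h0, hC⟩ := hU τ0
  refine ⟨C, h0, fun D τ T S0 tw P ok h s w => ?_⟩
  have b := abs_le.1 (hC D ok h)
  have c := abs_le.1 (s.f1_mx ok h w)
  linarith [s.q2_le ok h, b.1, c.2]

end Crest.Agent.T156.Cas.C40.R85

end
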