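import Crest.Agent.T156.R2EDef_42
import Crest.Agent.T156.CErr_54
import Crest.Agent.T156.Kid_68
import Crest.Agent.T156.R2EB_42
import Crest.Agent.T156.R2c_85
import Crest.Agent.T156.R2a_58
import Crest.Agent.T156.CIn_12

-- ▼ part T156/R2EA_42
section

/-!
# Row 156, R2: the two Euler identities in the names of `CDef_40` (helper42)
-/

set_option autoImplicit false
set_option linter.all false

noncomputable section

namespace Crest.Agent.T156.Cas.C40.E42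

open MeasureTheory Real Set Filter Topology
open Crest.Agent.T157.E Crest.Agent.T157.Casc Crest.Agent.T157.SL
open Crest.Agent.T157.G1 (ov)
open Crest.ProbabilityR.SpinGlassDynamics (spin)
open Eul43 Kid68

variable {D : CD} {τ0 η : ℝ}

/-- the part of `E_a Φ₀ / n` that is read on the site cascade -/
def C1 (D : CD) : ℝ := Crest.Agent.T157.Casc.X (fun _ => 1) D.S 0 - oC D.n D.β D.M D.q +
  ∑ j ∈ D.lo, D.dx j * (fAcc D.M j * D.Gam j) +
  (∑ j ∈ Finset.range D.J, ex D.B j * (fAcc D.M (j + 1) - fAcc D.M j) *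
    ins (fun _ => 1) D.S j (fun a b => spin a * spin b) 0) / 2 +
  x1 D / 2 * (D.sig (D.J + 1) - D.sig D.J) * ins (fun _ => 1) D.S D.J (fun a b => spin a * spin b) 0 -
  τ D / 4 * (x1 D * D.q (D.J + 1) ^ 2)

theorem sum_succ_split {J K : ℕ} (h : J < K) (f : ℕ → ℝ) :
    ∑ j ∈ Finset.range K, f (j + 1) =
      ∑ j ∈ Finset.Icc 1 J, f j + ∑ j ∈ Finset.Ioo J K, f j + f K := by
  induction K, h using Nat.le_induction with
  | base =>
    rw [Finset.sum_range_succ, show Finset.Ioo J (J + 1) = ∅ by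
      ext; simp only [Finset.mem_Ioo, Finset.notMem_empty, iff_false]; omega, Finset.sum_empty, add_zero,
      Finset.range_eq_Ico, Finset.sum_Ico_add' f 0 J 1]
    rfl
  | succ K hK ih =>
    rw [Finset.sum_range_succ, ih, show Finset.Ioo J (K + 1) = insert K (Finset.Ioo J K) by
      ext; simp only [Finset.mem_Ioo, Finset.mem_insert]; omega, Finset.sum_insert (by simp)]
    ring

theorem Hm.tau (H : Hm D η) {j : ℕ} (hj : 1 ≤ j) (hK : 1 ≤ D.K) : D.τ j = τ D := by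
  obtain ⟨a, d, M', e, h0⟩ := H.root
  obtain ⟨j, rfl⟩ : ∃ k, j = k + 1 := ⟨j - 1, by omega⟩
  obtain ⟨k, hk⟩ : ∃ k, D.K = k + 1 := ⟨D.K - 1, by omega⟩
  rw [τ, hk]
  simp only [CD.τ, oTau, e, dAcc_root h0]

theorem La1 (h : D.Ok τ0) : 1 ≤ La D := le_add_of_nonneg_right (h.sig0 le_rfl)

theorem η8 (H : Hm D η) : η ^ 8 ≤ η := pow_le_of_le_one H.η0 H.η1 (by norm_num)

theorem small (h : D.Ok τ0) (H : Hm D η) {x : ℝ} (hx : 0 ≤ x) (e : x * La D ^ 2 ≤ η ^ 8) :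
    x ≤ η ^ 8 := le_trans (le_mul_of_one_le_right hx (one_le_pow₀ (La1 h))) e

theorem ent_bd {N : ℕ} (hN : 0 < N) {x : ℝ} (hx : 0 ≤ x) (h : N * x ≤ 1) :
    2 * ((1 + x) ^ N - 1) / N + 2 * x ≤ 6 * x := by
  have hn : (0 : ℝ) < N := by exact_mod_cast hN
  have h1 : (1 + x) ^ N ≤ exp (N * x) := by
    rw [exp_nat_mul]
    exact pow_le_pow_left₀ (by linarith) (by linarith [add_one_le_exp x]) N
  have h2 := abs_exp_sub_one_le (x := N * x) (by rw [abs_of_nonneg (by positivity)]; exact h)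
  rw [abs_of_nonneg (by positivity : 0 ≤ (N : ℝ) * x)] at h2
  have h3 := le_abs_self (exp (N * x) - 1)
  have : 2 * ((1 + x) ^ N - 1) / N ≤ 4 * x := by
    rw [div_le_iff₀ hn]; nlinarith
  linarith

/-- **the two Euler identities** -/
theorem kid (h : D.Ok τ0) (H : Hm D η) :
    |EP D / D.n - C1 D - (-∑ j ∈ D.up, omS D j * (D.rb j - D.Gam j) +
      τ D / 2 * ∑ t ∈ D.up, D.del t * mv D D.q t - D.Su / 2 - D.S1 / 2 - Shu D - Jh D / 2)| ≤
      11 * η + τ0 / D.n + Th D := by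
  have hK : 1 ≤ D.K := by have := h.cut; omega
  have hτ := fun j (hj : 1 ≤ j) => H.tau hj hK
  have hτ0 : 0 ≤ τ D ∧ τ D ≤ τ0 := h.tau_mem D.K
  have hn : (0 : ℝ) < D.n := by exact_mod_cast h.pos
  have hn1 : (1 : ℝ) ≤ D.n := by exact_mod_cast h.pos
  have hsl : ∀ j < D.K, 0 ≤ D.sig (j + 1) - D.sig j := fun j hj =>
    sub_nonneg.2 (h.sig_le (Nat.le_succ j) hj)
  have hsg : ∀ j, 1 ≤ j → D.sig (j + 1) - D.sig j =
      fM D.M j + τ D * (D.q (j + 1) - D.q j) := fun j hj => by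
    simp only [CD.sig, hτ j hj, hτ (j + 1) (by omega), fAcc_succ]; ring
  have hf0 : ∀ j, 0 ≤ fM D.M j := fun j => by
    have := h.fAcc_mono (Nat.le_succ j); rw [Nat.succ_eq_add_one, fAcc_succ] at this; linarith
  have hq0 : ∀ j < D.K, 0 ≤ D.q (j + 1) - D.q j := fun j hj => sub_nonneg.2 (h.ook.mono j hj)
  have hin : ∀ j < D.K, 0 ≤ D.rb j ∧ D.rb j ≤ ins (fun _ => 1) D.B j ov 0 ∧
      ins (fun _ => 1) D.B j ov 0 ≤ D.rb (j + 1) := fun j hj => by
    have e : (T157.G1.fl D.n 1 (0, 1 / D.n)).cov = ov := funext fun x => funext fun y => by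
      rw [Link33.cov_fl D.n 1 _ x y h.pos (by positivity)]; field_simp
    have := ins_mem wt_one90 (T157.G1.fl D.n 1 (0, 1 / D.n)) D.B (j := j)
      (by rw [D.B_len]; exact hj) 0
    have h1 := pi2_cov_nonneg wt_one90 (T157.G1.fl D.n 1 (0, 1 / D.n)) D.B j 0
    rw [e] at this h1
    exact ⟨h1, this⟩
  have hins : 0 ≤ ins (fun _ => 1) D.B D.J ov 0 ∧ ins (fun _ => 1) D.B D.J ov 0 ≤ 1 :=
    ⟨(hin _ h.cut).1.trans (hin _ h.cut).2.1, (hin _ h.cut).2.2.trans (pi2_le_one wt_one90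
      (fun x y => (le_abs_self _).trans (Cas.abs_ov_le x y)) _ _ _)⟩
  have hth : 0 ≤ Jh D - ∑ j ∈ Finset.range D.J, ex D.B j * (fAcc D.M (j + 1) - fAcc D.M j) *
      ins (fun _ => 1) D.B j ov 0 ∧ Jh D - ∑ j ∈ Finset.range D.J,
      ex D.B j * (fAcc D.M (j + 1) - fAcc D.M j) * ins (fun _ => 1) D.B j ov 0 ≤ Th D := by
    rw [Jh, Th, ← Finset.sum_sub_distrib]
    have k := fun j => mul_nonneg (h.ex0 j) (sub_nonneg.2 (h.fAcc_mono (Nat.le_succ j)))
    have k' := fun j (hj : j ∈ Finset.range D.J) => hin j ((Finset.mem_range.1 hj).trans h.cut)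
    exact ⟨Finset.sum_nonneg fun j hj => sub_nonneg.2
      (mul_le_mul_of_nonneg_left (k' j hj).2.2 (k j)), Finset.sum_le_sum fun j hj => by
        rw [← mul_sub]
        exact mul_le_mul_of_nonneg_left (sub_le_sub_left (k' j hj).2.1 _) (k j)⟩
  obtain ⟨i, U, i1, i2, i3, i4, i5, i6⟩ := H.ent
  obtain ⟨a, d, M', e, h0⟩ := H.root
  have eK : D.K = M'.length + 1 := by simp [CD.K, e]
  have eτ : bb D.n D.β ^ 2 * d = τ D := by
    rw [τ, eK]; simp only [CD.τ, oTau, e, dAcc_root h0]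
  have eβ : D.β ^ 2 * d = τ D * (D.n + 1) / D.n := by rw [← eτ, bb_sq]; field_simp
  have hβ : D.β ^ 2 * d ≤ 2 * τ D := by
    rw [eβ, div_le_iff₀ hn]; nlinarith [hτ0.1]
  have q0 := h.qlo 0 (Nat.zero_le _)
  have hm : ∀ j ∈ D.up, fM D.M j ≤ η ^ 8 ∧ τ D * (D.q (j + 1) - D.q j) ≤ η ^ 8 := fun j hj => by
    have u := CD.mem_up.1 hj
    have := small h H (hsl j u.2) (H.mesh j u.2 u.1)
    rw [hsg j (by omega)] at this
    have := mul_nonneg hτ0.1 (hq0 j u.2)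
    exact ⟨by linarith, by linarith [hf0 j]⟩
  have k := kid_op (N := D.n) (β := D.β) (a := a) (d := d) (M' := M') (q := D.q) h.pos
    (e ▸ h.ook) h0 q0 (e ▸ h.mono) (J := D.up)
    (fun j hj => Finset.mem_range.2 (eK ▸ (CD.mem_up.1 hj).2)) (p := fun j => j)
    (fun j _ => .inl rfl) (ε := 2 * η ^ 8) (by have := H.η0; positivity)
    (fun j hj => by have := (hm j hj).1; rw [e] at this; linarith [pow_nonneg H.η0 8])
    (fun j hj => by
      linarith [(hm j hj).2, mul_le_mul_of_nonneg_right hβ (hq0 j (CD.mem_up.1 hj).2)])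
    (i := i) (by omega) (eK ▸ i2) (e ▸ i3) (U := U) (by rw [← eK, ← e]; exact i4)
  have eE : EE (fun _ => 1) (mxL D.n D.β (a, d, 0)) (M'.map (mxL D.n D.β)) 0 a = EP D := by
    rw [EE_eq, EP]; simp only [CD.B, e]; rfl
  have esg : ∀ j, Kid68.sg (τ D) (fM D.M) D.q j = D.sig j := fun j => by
    have := sg_op (N := D.n) (β := D.β) (a := a) (d := d) h0 q0 j
    rw [eτ, ← e] at this
    exact this
  have esl : ∀ j, 1 ≤ j → Kid68.sl (τ D) (fM D.M) D.q j = D.sig (j + 1) - D.sig j := fun j hj =>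
    (hsg j hj).symm
  rw [eE, ← e, eτ] at k
  have eM : Km (fun _ => 1) (fun _ => 1) D.B D.S ov (fun e e' => spin e * spin e') (τ D) (fM D.M)
      D.q D.up (fun j => j) =
      C1 D - (Crest.Agent.T157.Casc.X (fun _ => 1) D.S 0 - oC D.n D.β D.M D.q) +
      (-∑ j ∈ D.up, omS D j * (D.rb j - D.Gam j) + τ D / 2 * ∑ t ∈ D.up, D.del t * mv D D.q t -
        D.Su / 2 - D.S1 / 2 - Shu D - (∑ j ∈ Finset.range D.J,
          ex D.B j * (fAcc D.M (j + 1) - fAcc D.M j) * ins (fun _ => 1) D.B j ov 0) / 2) -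
      x1 D / 2 * (fM D.M D.J * ins (fun _ => 1) D.B D.J ov 0) := by
    have a0 : Finset.range D.K \ D.up = Finset.range (D.J + 1) := by
      have := h.cut
      ext j
      simp only [Finset.mem_sdiff, Finset.mem_range, Finset.mem_Ioo]
      omega
    have a1 := sum_succ_split h.cut fun j => D.dx j * D.sig j * (D.rb j - D.Gam j)
    have a2 := sum_succ_split h.cut fun j => D.dx j *
      pi2 (fun _ => 1) D.B j (fun x y => (ov x y - D.q j) ^ 2) 0
    rw [h.top, zero_mul] at a2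
    rw [h.top, zero_mul, zero_mul] at a1
    have b1 : ∑ j ∈ Finset.Icc 1 D.J, D.dx j * D.sig j * (D.rb j - D.Gam j) =
        Shu D - ∑ j ∈ D.lo, D.dx j * (fAcc D.M j * D.Gam j) := by
      rw [Shu, ← Finset.sum_sub_distrib]
      refine Finset.sum_congr rfl fun j hj => ?_
      rw [CD.sig, h.qlo j (CD.mem_lo.1 hj).2]; ring
    have b2 : τ D * ∑ j ∈ Finset.Icc 1 D.J, D.dx j *
        pi2 (fun _ => 1) D.B j (fun x y => (ov x y - D.q j) ^ 2) 0 = D.S1 := by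
      rw [CD.S1, Finset.mul_sum]
      refine Finset.sum_congr rfl fun j hj => ?_
      rw [hτ j (CD.mem_lo.1 hj).1, h.qlo j (CD.mem_lo.1 hj).2]
      simp only [sub_zero, CD.E2]; ring
    have b3 : τ D * ∑ j ∈ Finset.Ioo D.J D.K, D.dx j *
        pi2 (fun _ => 1) D.B j (fun x y => (ov x y - D.q j) ^ 2) 0 = D.Su := by
      rw [CD.Su, Finset.mul_sum]
      refine Finset.sum_congr rfl fun j hj => ?_
      rw [hτ j (by have := (CD.mem_up.1 hj).1; omega)]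
      simp only [CD.u, uM, sq_abs, oU]; ring
    have b4 : ∑ j ∈ Finset.range D.J, (ex D.B j / 2 * (fM D.M j * ins (fun _ => 1) D.B j ov 0 -
        Kid68.sl (τ D) (fM D.M) D.q j * ins (fun _ => 1) D.S j (fun e e' => spin e * spin e') 0) +
        τ D / 4 * (ex D.B j * (D.q (j + 1) ^ 2 - D.q j ^ 2))) =
        (∑ j ∈ Finset.range D.J,
          ex D.B j * (fAcc D.M (j + 1) - fAcc D.M j) * ins (fun _ => 1) D.B j ov 0) / 2 -
        (∑ j ∈ Finset.range D.J, ex D.B j * (fAcc D.M (j + 1) - fAcc D.M j) *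
          ins (fun _ => 1) D.S j (fun a b => spin a * spin b) 0) / 2 := by
      rw [← sub_div, ← Finset.sum_sub_distrib, Finset.sum_div]
      refine Finset.sum_congr rfl fun j hj => ?_
      have := Finset.mem_range.1 hj
      rw [Kid68.sl, h.qlo j this.le, h.qlo (j + 1) this, fAcc_succ]
      ring
    have b6 : ∑ j ∈ Finset.Ioo D.J D.K, D.dx j * D.sig j * (D.rb j - D.Gam j) +
        ∑ j ∈ Finset.Ioo D.J D.K, ex D.B j / 2 * Kid68.sl (τ D) (fM D.M) D.q j *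
        (pi2 (fun _ => 1) D.B j ov 0 - pi2 (fun _ => 1) D.S j (fun e e' => spin e * spin e') 0) =
        ∑ j ∈ D.up, omS D j * (D.rb j - D.Gam j) := by
      rw [← Finset.sum_add_distrib]
      refine Finset.sum_congr rfl fun j hj => ?_
      have := (CD.mem_up.1 hj).1
      rw [esl j (by omega), omS, mv]
      simp only [CD.rb, CD.E2, CD.Gam]; ring
    have b7 : ∑ j ∈ Finset.Ioo D.J D.K, ex D.B j * (D.q (j + 1) - D.q j) *
        (pi2 (fun _ => 1) D.B j ov 0 - D.q j) = ∑ t ∈ D.up, D.del t * mv D D.q t := by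
      refine Finset.sum_congr rfl fun j hj => ?_
      rw [mv]
      simp only [CD.del, CD.rb, CD.E2]; ring
    simp only [Km, D.B_len, esg, a0, Finset.sum_range_succ _ D.J, b4, b7,
      esl D.J H.J1, h.qlo D.J le_rfl]
    simp only [CD.rb, CD.E2, CD.Gam, CD.dx] at a1 a2 b1 b2 b3 b6 ⊢
    rw [a1, a2, b1, C1, x1]
    simp only [CD.rb, CD.E2, CD.Gam, CD.dx]
    linear_combination (-1 : ℝ) * b6 - (1 / 2 : ℝ) * b2 - (1 / 2 : ℝ) * b3
  rw [eM] at k
  have c1 : 0 ≤ x1 D / 2 * (fM D.M D.J * ins (fun _ => 1) D.B D.J ov 0) ∧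
      x1 D / 2 * (fM D.M D.J * ins (fun _ => 1) D.B D.J ov 0) ≤ η := by
    have x0 : 0 ≤ x1 D := h.ex0 _
    have x2 : x1 D ≤ 1 := h.x1.trans h.X1
    have f1 : fM D.M D.J ≤ η := by
      have := H.fJ; rw [fAcc_succ] at this; linarith [η8 H]
    refine ⟨mul_nonneg (by linarith) (mul_nonneg (hf0 _) hins.1), ?_⟩
    nlinarith [mul_le_mul f1 hins.2 hins.1 H.η0, mul_nonneg (hf0 D.J) hins.1, H.η0]
  have c2 := ent_bd h.pos (exp_pos (-U / 2)).le i5
  have c3 : exp (-U / 2) ≤ η := by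
    have u1 := small h H (exp_pos _).le i6
    have u2 : exp (-U / 2) = exp (-U / 4) * exp (-U / 4) := by rw [← exp_add]; ring_nf
    have u3 := (u1.trans (η8 H))
    rw [u2]; nlinarith [exp_pos (-U / 4), H.η1]
  have c4 : D.β ^ 2 * d / (2 * (D.n + 1)) ≤ τ0 / D.n := by
    rw [div_le_div_iff₀ (by positivity) hn]
    nlinarith [hτ0.1, hτ0.2, mul_le_mul_of_nonneg_right hβ hn.le]
  have k' := abs_le.1 k
  have := η8 H
  refine abs_le.2 ⟨?_, ?_⟩ <;> linarith [k'.1, k'.2, c1.1, c1.2, hth.1, hth.2]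

end Crest.Agent.T156.Cas.C40.E42

end
end

-- ▼ part T156/R2E_42
section

/-!
# Row 156, R2: the head (EE) from the site inputs `H0 … H7` (helper42)
-/

set_option autoImplicit false
set_option linter.all false

noncomputable section

namespace Crest.Agent.T156.Cas.C40.E42

open MeasureTheory Real Set Filter Topology
open Crest.Agent.T157.E Crest.Agent.T157.Casc Crest.Agent.T157.SL
open Crest.Agent.T157.G1 (ov)
open Crest.ProbabilityR.SpinGlassDynamics (spin)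

variable {D : CD} {τ0 η m : ℝ}

/-! ### crude sizes -/

theorem E2_mem (D : CD) (j : ℕ) {G : Cube D.n → Cube D.n → ℝ} {b : ℝ} (h0 : ∀ x y, 0 ≤ G x y)
    (h1 : ∀ x y, G x y ≤ b) : 0 ≤ D.E2 j G ∧ D.E2 j G ≤ b :=
  ⟨T157.Casc.pi2_nonneg wt_one90 _ _ h0 _,
    (T157.Casc.pi2_mono wt_one90 _ j h1 0).trans (pi2_const wt_one90 _ j b 0).le⟩

theorem rb_mem (h : D.Ok τ0) (j : ℕ) : 0 ≤ D.rb j ∧ D.rb j ≤ 1 := by
  have hn : (0 : ℝ) < D.n := by exact_mod_cast h.pos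
  have e : (T157.G1.fl D.n 1 (0, 1 / D.n)).cov = ov := funext fun x => funext fun y => by
    rw [Link33.cov_fl D.n 1 _ x y h.pos (by positivity)]; field_simp
  have h1 := Kid68.pi2_cov_nonneg wt_one90 (T157.G1.fl D.n 1 (0, 1 / D.n)) D.B j 0
  rw [e] at h1
  exact ⟨h1, Kid68.pi2_le_one wt_one90 (fun x y => (le_abs_self _).trans (Cas.abs_ov_le x y)) _ _ _⟩

theorem abs_del (h : D.Ok τ0) {t : ℕ} (ht : t ∈ D.up) : |D.del t| ≤ 1 := by
  have h1 := rb_mem h t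
  have h2 := h.ook.mem (CD.mem_up.1 ht).2.le
  exact abs_le.2 ⟨by rw [CD.del]; linarith [h2.2], by rw [CD.del]; linarith [h2.1]⟩

theorem u2_le (h : D.Ok τ0) {t : ℕ} (ht : t ∈ D.up) : D.u 2 t ≤ 4 :=
  (E2_mem D t (G := fun x y => |oU D.q t x y| ^ 2) (fun _ _ => sq_nonneg _) fun x y => by
    have := abs_oU_le h.ook (CD.mem_up.1 ht).2.le x y
    nlinarith [abs_nonneg (oU D.q t x y)]).2

theorem abs_u3 (D : CD) (t : ℕ) : |D.u3 t| ≤ D.u 3 t := by
  have h1 := T157.Casc.pi2_mono wt_one90 D.B t (K := fun x y => oU D.q t x y ^ 3)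
    (fun x y => (le_abs_self _).trans_eq (abs_pow _ _)) 0
  have h2 := T157.Casc.pi2_mono wt_one90 D.B t (K := fun x y => -1 * oU D.q t x y ^ 3)
    (fun x y => (neg_one_mul _).trans_le ((neg_le_abs _).trans_eq (abs_pow _ _))) 0
  rw [pi2_const_mul, neg_one_mul] at h2
  exact abs_le.2 ⟨neg_le.1 h2, h1⟩

theorem ck0 (h : D.Ok τ0) {t : ℕ} (ht : t ∈ D.up) : 0 ≤ ck D t :=
  add_nonneg (h.dx0 t) (sub_nonneg.2 (h.sig_le t.le_succ (CD.mem_up.1 ht).2))

theorem sum_ck (h : D.Ok τ0) : ∑ t ∈ D.up, ck D t ≤ La D := by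
  have h1 := h.sum_dx_one (A := D.up) fun i hi => (CD.mem_up.1 hi).2.le
  have h2 : ∑ j ∈ D.up, (D.sig (j + 1) - D.sig j) ≤ D.sig D.K := by
    refine (Finset.sum_le_sum_of_subset_of_nonneg (t := Finset.range D.K) (fun j hj =>
      Finset.mem_range.2 (CD.mem_up.1 hj).2) fun j hj _ =>
        sub_nonneg.2 (h.sig_le j.le_succ (Finset.mem_range.1 hj))).trans ?_
    rw [Finset.sum_range_sub]
    linarith [h.sig0 (Nat.zero_le D.K)]
  simp only [ck, Finset.sum_add_distrib, La]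
  linarith

theorem Ck0 (h : D.Ok τ0) {a : ℕ → ℝ} (ha : ∀ t, 0 ≤ a t) : 0 ≤ Ck D a :=
  Finset.sum_nonneg fun t ht => mul_nonneg (ck0 h ht) (ha t)

theorem lo_mem (h : D.Ok τ0) {a : ℕ → ℝ} {b : ℝ} (hb : 0 ≤ b) (ha : ∀ j ∈ D.lo, |a j| ≤ b) :
    |∑ j ∈ D.lo, D.dx j * a j| ≤ b := by
  refine (Finset.abs_sum_le_sum_abs _ _).trans ((Finset.sum_le_sum (g := fun j => D.dx j * b)
    fun j hj => ?_).trans ?_)
  · rw [abs_mul, abs_of_nonneg (h.dx0 j)]
    exact mul_le_mul_of_nonneg_left (ha j hj) (h.dx0 j)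
  · rw [← Finset.sum_mul]
    exact mul_le_of_le_one_left hb (h.sum_lo.trans h.X1)

theorem ov_pow (D : CD) (j p : ℕ) : 0 ≤ D.E2 j (fun x y => ov x y ^ (2 * p)) ∧
    D.E2 j (fun x y => ov x y ^ (2 * p)) ≤ 1 :=
  E2_mem D j (fun _ _ => by rw [pow_mul]; positivity) fun x y =>
    (le_abs_self _).trans ((abs_pow _ _).trans_le (pow_le_one₀ (abs_nonneg _) (Cas.abs_ov_le x y)))

theorem Sp_mem (h : D.Ok τ0) (p : ℕ) :
    0 ≤ ∑ j ∈ D.lo, D.dx j * (D.τ j ^ (2 * p) * D.E2 j fun x y => ov x y ^ (2 * p)) ∧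
    ∑ j ∈ D.lo, D.dx j * (D.τ j ^ (2 * p) * D.E2 j fun x y => ov x y ^ (2 * p)) ≤ τ0 ^ (2 * p) := by
  have k := fun j => mul_nonneg (pow_nonneg (h.tau_mem j).1 (2 * p)) (ov_pow D j p).1
  refine ⟨Finset.sum_nonneg fun j _ => mul_nonneg (h.dx0 j) (k j), (le_abs_self _).trans
    (lo_mem h (pow_nonneg h.tau0 _) fun j _ => ?_)⟩
  rw [abs_of_nonneg (k j)]
  exact (mul_le_of_le_one_right (pow_nonneg (h.tau_mem j).1 _) (ov_pow D j p).2).trans
    (pow_le_pow_left₀ (h.tau_mem j).1 (h.tau_mem j).2 _)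

theorem S2_mem (h : D.Ok τ0) : 0 ≤ D.S2 ∧ D.S2 ≤ τ0 ^ 2 := Sp_mem h 1

theorem S4_mem (h : D.Ok τ0) : 0 ≤ D.S4 ∧ D.S4 ≤ τ0 ^ 4 := Sp_mem h 2

theorem Shu_mem (h : D.Ok τ0) : 0 ≤ Shu D ∧ Shu D ≤ 1 := by
  have k := fun j => mul_nonneg (h.fAcc0 j) (rb_mem h j).1
  refine ⟨Finset.sum_nonneg fun j _ => mul_nonneg (h.dx0 j) (k j), (le_abs_self _).trans
    (lo_mem h zero_le_one fun j hj => ?_)⟩
  rw [abs_of_nonneg (k j)]
  exact mul_le_one₀ ((h.fAcc_mono (CD.mem_lo.1 hj).2).trans (h.h1.trans (pow_le_one₀ h.X0 h.X1)))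
    (rb_mem h j).1 (rb_mem h j).2

theorem abs_KR (h : D.Ok τ0) (j : ℕ) (x y : Cube D.n) : |D.KR j x y| ≤ τ0 := by
  unfold CD.KR
  split_ifs
  · rw [abs_mul, abs_of_nonneg (h.tau_mem j).1]
    exact (mul_le_of_le_one_right (h.tau_mem j).1 (Cas.abs_ov_le x y)).trans (h.tau_mem j).2
  · rw [abs_zero]; exact h.tau0

theorem abs_S3 (h : D.Ok τ0) : |D.S3| ≤ 2 * τ0 ^ 3 := by
  have t0 := h.tau0
  refine lo_mem h (by positivity) fun j _ => (Finset.abs_sum_le_sum_abs _ _).trans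
    ((Finset.sum_le_sum (g := fun a => ∑ i ∈ Finset.range (D.B.length + 1),
      cw (Sh.two j) D.B a i * τ0 ^ 3) fun a _ => (Finset.abs_sum_le_sum_abs _ _).trans ?_).trans_eq ?_)
  · refine (Finset.sum_le_sum fun i _ => ?_).trans (Finset.sum_le_sum_of_subset_of_nonneg
      (Finset.range_mono (by rw [D.B_len]; have := h.cut; omega))
      fun i _ _ => mul_nonneg (cw_nonneg _ h.mono _ _) (by positivity))
    rw [abs_mul, abs_of_nonneg (cw_nonneg _ h.mono _ _)]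
    refine mul_le_mul_of_nonneg_left (One15.abs_TE_le wt_one90 _ _ _ fun x => ?_)
      (cw_nonneg _ h.mono _ _)
    rw [abs_mul, abs_mul, pow_succ', sq]
    exact mul_le_mul (abs_KR h _ _ _) (mul_le_mul (abs_KR h _ _ _) (abs_KR h _ _ _) (abs_nonneg _) t0)
      (by positivity) t0
  · simp only [← Finset.sum_mul, sum_cw, Wt87.card_two]
    norm_num

/-! ### the package -/

/-- all the inputs with one constant -/
structure Pk (D : CD) (η m : ℝ) : Prop where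
  m1 : 1 ≤ m
  tau : τ D ≤ m
  la : La D ≤ m
  s2 : D.S2 ≤ m
  s3 : |D.S3| ≤ m
  s4 : D.S4 ≤ m
  h0 : |D.lam| ≤ m ∧ |D.k4| ≤ m ∧ ∀ t ∈ D.up, |D.dP 2 [D.lev t]| ≤ m * D.dx t
  h1 : |(star D).dP 2 [] + D.lam - x1 D * s1 D * D.lam ^ 2| ≤ m * (D.X ^ 3 + η)
  h2 : |(star D).dP 4 [] + 3 * D.k4| ≤ m * (D.X + η)
  h3 : ∀ t ∈ D.up, |(star D).sL [D.lev t] - mv D D.Gam t +
    x1 D * D.lam * s1 D ^ 2 * D.dP 2 [D.lev t] / 2| ≤ m * (η * ck D t + D.X ^ 4 * D.dx t)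
  h4 : ∀ t ∈ D.up, |(star D).dP 2 [D.lev t] + 2 * D.dP 2 [D.lev t]| ≤ m * ((D.e t + η) * ck D t)
  h5 : ∀ t ∈ D.up, |(star D).sL [D.lev t, D.lev t] - 2 * mv D (G D) t + 4 * D.dx t * G D t| ≤
    m * ((η + D.X ^ 3) * ck D t)
  h6 : ∀ t ∈ D.up, ∀ t' ∈ D.up, t ≠ t' →
    |(star D).sL [D.lev t, D.lev t']| ≤ m * (min (D.e t) (D.e t') * (ck D t * ck D t'))
  h7 : ∀ t ∈ D.up, |(star D).sL [D.lev t, D.lev t, D.lev t]| ≤ m * (D.e t * ck D t)

theorem ab {x y a b : ℝ} (h : |x| ≤ a) (h' : |y| ≤ b) : |x * y| ≤ a * b := by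
  rw [abs_mul]; exact mul_le_mul h h' (abs_nonneg _) ((abs_nonneg _).trans h)

theorem sum_bd {A : Finset ℕ} {f g : ℕ → ℝ} (h : ∀ t ∈ A, |f t| ≤ g t) :
    |∑ t ∈ A, f t| ≤ ∑ t ∈ A, g t := (Finset.abs_sum_le_sum_abs _ _).trans (Finset.sum_le_sum h)

section terms
variable (h : D.Ok τ0) (H : Hm D η) (P : Pk D η m)
include h H

theorem tau_up {t : ℕ} (ht : t ∈ D.up) : D.τ t = τ D :=
  H.tau (by have := CD.mem_up.1 ht; omega) (by have := h.cut; omega)

theorem cf_eq {t : ℕ} (ht : t ∈ D.up) : cf D t = τ D / 2 * D.del t := by rw [cf, tau_up h H ht]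

include P

theorem abs_tau : |τ D| ≤ m := (abs_of_nonneg (h.tau_mem D.K).1).trans_le P.tau

theorem abs_cf {t : ℕ} (ht : t ∈ D.up) : |cf D t| ≤ m * |D.del t| := by
  rw [cf_eq h H ht]
  refine ab ?_ le_rfl
  rw [abs_div, abs_two]
  linarith [abs_tau h H P, P.m1]

theorem eta_ck : ∑ t ∈ D.up, η * ck D t ≤ η * m := by
  rw [← Finset.mul_sum]
  exact mul_le_mul_of_nonneg_left ((sum_ck h).trans P.la) H.η0

theorem Op_le : |Op D| ≤ m ^ 2 * D.I fun t => |D.del t| := by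
  rw [Op, dP_lin_val h H.val, CD.I, Finset.mul_sum]
  exact sum_bd fun t ht => (ab (abs_cf h H P ht) (P.h0.2.2 t ht)).trans_eq (by ring)

theorem b5 : |(star D).f1' - τ D / 2 * ∑ t ∈ D.up, D.del t * mv D D.Gam t +
    x1 D * D.lam * s1 D ^ 2 / 2 * Op D| ≤ m ^ 2 * (η * m + D.X ^ 4 * D.I fun t => |D.del t|) := by
  have m0 : 0 ≤ m := zero_le_one.trans P.m1
  rw [star, f1_lin h, Op, dP_lin_val h H.val, Finset.mul_sum, Finset.mul_sum,
    ← Finset.sum_sub_distrib, ← Finset.sum_add_distrib]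
  refine (sum_bd (g := fun t => m ^ 2 * (η * ck D t + D.X ^ 4 * (D.dx t * |D.del t|)))
    fun t ht => ?_).trans ?_
  · have k := ab (abs_cf h H P ht) (P.h3 t ht)
    have k1 := mul_le_of_le_one_left (mul_nonneg H.η0 (ck0 h ht)) (abs_del h ht)
    refine le_trans (le_of_eq ?_) (k.trans ?_)
    · rw [cf_eq h H ht, star]; congr 1; ring
    · nlinarith [mul_le_mul_of_nonneg_left k1 (sq_nonneg m)]
  · rw [← Finset.mul_sum, Finset.sum_add_distrib, ← Finset.mul_sum (a := D.X ^ 4)]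
    exact mul_le_mul_of_nonneg_left (add_le_add (eta_ck h H P) le_rfl) (sq_nonneg m)

theorem b6 : |(star D).dP 2 [D.Sd] + 2 * Op D| ≤
    m ^ 2 * (Ck D (fun t => D.e t * |D.del t|) + η * m) := by
  rw [star, dP_lin h, Op, dP_lin_val h H.val, Finset.mul_sum, ← Finset.sum_add_distrib]
  refine (sum_bd (g := fun t => m ^ 2 * (ck D t * (D.e t * |D.del t|) + η * ck D t))
    fun t ht => ?_).trans ?_
  · have k := ab (abs_cf h H P ht) (P.h4 t ht)
    have k1 := mul_le_of_le_one_left (mul_nonneg H.η0 (ck0 h ht)) (abs_del h ht)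
    refine le_trans (le_of_eq ?_) (k.trans ?_)
    · rw [star]; congr 1; ring
    · nlinarith [mul_le_mul_of_nonneg_left k1 (sq_nonneg m)]
  · rw [← Finset.mul_sum, Finset.sum_add_distrib]
    exact mul_le_mul_of_nonneg_left (add_le_add le_rfl (eta_ck h H P)) (sq_nonneg m)

theorem b8 : |∑ t ∈ D.up, D.τ t ^ 3 / 8 * D.u3 t * (star D).sL [D.lev t, D.lev t, D.lev t]| ≤
    m ^ 4 * Ck D fun t => D.e t * D.u 3 t := by
  rw [Ck, Finset.mul_sum]
  refine sum_bd fun t ht => (ab (ab (a := m ^ 3) ?_ (abs_u3 D t)) (P.h7 t ht)).trans_eq (by ring)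
  rw [tau_up h H ht, abs_div, abs_pow]
  have := pow_le_pow_left₀ (abs_nonneg _) (abs_tau h H P) 3
  norm_num
  linarith [pow_nonneg (abs_nonneg (τ D)) 3]

theorem b7off : |(star D).QM - ∑ t ∈ D.up, cf D t ^ 2 * (star D).sL [D.lev t, D.lev t]| ≤
    m ^ 3 * Ck D (fun t => √(D.e t) * |D.del t|) ^ 2 := by
  have m0 : 0 ≤ m := zero_le_one.trans P.m1
  rw [star, QM_lin h, ← Finset.sum_sub_distrib, sq (Ck _ _), Ck, Finset.sum_mul_sum, Finset.mul_sum]
  refine sum_bd fun t ht => ?_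
  rw [← Finset.add_sum_erase _ _ ht, sq, add_sub_cancel_left, Finset.mul_sum]
  refine (sum_bd fun t' ht' => ?_).trans (Finset.sum_le_sum_of_subset_of_nonneg
    (Finset.erase_subset _ _) fun t' ht' _ => ?_)
  · have u := Finset.mem_erase.1 ht'
    refine (ab (ab (abs_cf h H P ht) (abs_cf h H P u.2)) (P.h6 t ht t' u.2 u.1.symm)).trans ?_
    have k : min (D.e t) (D.e t') ≤ √(D.e t) * √(D.e t') := by
      rw [← mul_self_sqrt (le_min (h.e0 t) (h.e0 t'))]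
      exact mul_le_mul (sqrt_le_sqrt (min_le_left _ _)) (sqrt_le_sqrt (min_le_right _ _))
        (sqrt_nonneg _) (sqrt_nonneg _)
    have c1 := ck0 h ht
    have c2 := ck0 h u.2
    refine le_trans (le_of_eq ?_) ((mul_le_mul_of_nonneg_left k (a := m ^ 3 * (ck D t * |D.del t| *
      (ck D t' * |D.del t'|))) (by positivity)).trans_eq ?_) <;> ring
  · have c1 := ck0 h ht
    have c2 := ck0 h ht'
    positivity

theorem b7 : |∑ t ∈ D.up, cf D t ^ 2 * (star D).sL [D.lev t, D.lev t] +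
    ∑ t ∈ D.up, D.τ t ^ 2 / 4 * (D.u 2 t - D.del t ^ 2) * (star D).sL [D.lev t, D.lev t] + D.Su| ≤
    m ^ 3 * (Eloc D + η * m + D.X ^ 3 * Ck D (D.u 2)) := by
  have m0 : 0 ≤ m := zero_le_one.trans P.m1
  have t1 := abs_tau h H P
  have t2 : |τ D ^ 2 / 4| ≤ m ^ 2 / 4 := by
    have := pow_le_pow_left₀ (abs_nonneg _) t1 2
    rw [sq_abs] at this
    rw [abs_of_nonneg (by positivity)]
    linarith
  have p2 : m ^ 2 ≤ m ^ 3 := pow_le_pow_right₀ P.m1 (by norm_num)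
  have p1 : m ≤ m ^ 3 := le_self_pow₀ P.m1 (by norm_num)
  rw [CD.Su, ← Finset.sum_add_distrib, ← Finset.sum_add_distrib]
  refine (sum_bd (g := fun t => m ^ 3 * ((D.dx t * |1 - τ D * G D t| + |mv D (G D) t|) * D.u 2 t +
    η * ck D t + D.X ^ 3 * (ck D t * D.u 2 t))) fun t ht => ?_).trans ?_
  · have u0 := D.u0 2 t
    have a0 : |D.u 2 t| ≤ D.u 2 t := (abs_of_nonneg u0).le
    have k1 := ab (ab t2 a0) (P.h5 t ht)
    have k2 := ab (ab t2 a0) (le_refl |mv D (G D) t|)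
    have k3 := ab (ab t1 a0) (ab (abs_of_nonneg (h.dx0 t)).le (le_refl |1 - τ D * G D t|))
    have k4 := mul_le_mul_of_nonneg_left (u2_le h ht) (mul_nonneg (pow_nonneg m0 3)
      (mul_nonneg H.η0 (ck0 h ht)))
    have k5 := mul_le_mul_of_nonneg_right p2 (mul_nonneg u0 (abs_nonneg (mv D (G D) t)))
    have k6 := mul_le_mul_of_nonneg_right p1 (mul_nonneg u0 (mul_nonneg (h.dx0 t)
      (abs_nonneg (1 - τ D * G D t))))
    have k7 := mul_nonneg (pow_nonneg m0 3) (mul_nonneg (pow_nonneg h.X0 3) (mul_nonneg (ck0 h ht) u0))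
    have k8 := mul_nonneg (pow_nonneg m0 3) (mul_nonneg u0 (abs_nonneg (mv D (G D) t)))
    rw [cf_eq h H ht, tau_up h H ht]
    rw [abs_le] at k1 k2 k3 ⊢
    constructor <;> linarith [k1.1, k1.2, k2.1, k2.2, k3.1, k3.2]
  · rw [← Finset.mul_sum, Finset.sum_add_distrib, Finset.sum_add_distrib,
      ← Finset.mul_sum (a := D.X ^ 3)]
    exact mul_le_mul_of_nonneg_left (add_le_add (add_le_add le_rfl (eta_ck h H P)) le_rfl)
      (pow_nonneg m0 3)

/-- **(EE)** with one constant -/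
theorem ee_pk (hτ : τ0 ≤ m) :
    |EP D / D.n - C1 D - EM D| ≤ |dT D (omS D)| + Th D + 20 * m ^ 5 * EB D η := by
  have m0 : 0 ≤ m := zero_le_one.trans P.m1
  have X0 := h.X0
  have η0 := H.η0
  have u : ∀ {k : ℕ} {y z : ℝ}, k ≤ 5 → 0 ≤ y → y ≤ z → m ^ k * y ≤ m ^ 5 * z := fun hk hy hz =>
    mul_le_mul (pow_le_pow_right₀ P.m1 hk) hz hy (pow_nonneg m0 5)
  have u' : ∀ {k : ℕ} {y : ℝ}, k ≤ 4 → 0 ≤ y → y ≤ m → m ^ k * (η * y) ≤ m ^ 5 * η :=
    fun {k y} hk hy hz => (mul_le_mul (pow_le_pow_right₀ P.m1 hk)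
      (mul_le_mul_of_nonneg_left hz η0) (mul_nonneg η0 hy) (pow_nonneg m0 4)).trans_eq (by ring)
  have sh := Shu_mem h
  have s2 := (S2_mem h).1
  have s4 := (S4_mem h).1
  have i0 : 0 ≤ D.I fun t => |D.del t| := h.I0 fun _ _ => abs_nonneg _
  have i1 : D.I (fun t => |D.del t|) ≤ 1 := h.I_le zero_le_one fun t ht => abs_del h ht
  have c8 := Ck0 h (a := fun t => D.e t * |D.del t|) fun t => mul_nonneg (h.e0 t) (abs_nonneg _)
  have cu := Ck0 h (D.u0 2)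
  have c3 := Ck0 h (a := fun t => D.e t * D.u 3 t) fun t => mul_nonneg (h.e0 t) (D.u0 3 t)
  have el : 0 ≤ Eloc D := Finset.sum_nonneg fun t _ => mul_nonneg (add_nonneg
    (mul_nonneg (h.dx0 t) (abs_nonneg _)) (abs_nonneg _)) (D.u0 2 t)
  have n0 : 0 ≤ 1 / (D.n : ℝ) := by positivity
  have t1 := abs_tau h H P
  have l1 := P.h0.1
  have r : |(star D).dP 2 [] + D.lam| ≤ m ^ 2 * (2 * D.X ^ 2 + η) := by
    have a := ab (ab ((abs_of_nonneg (h.ex0 D.J)).trans_le h.x1)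
      ((abs_of_nonneg (h.sig0 h.cut)).trans_le H.sX)) (ab l1 l1)
    have b := P.h1
    have c : m * (D.X ^ 3 + η) ≤ m ^ 2 * (D.X ^ 2 + η) :=
      mul_le_mul (le_self_pow₀ P.m1 two_ne_zero) (add_le_add (pow_le_pow_of_le_one X0 h.X1
        (by norm_num)) le_rfl) (by positivity) (by positivity)
    rw [abs_le] at a b ⊢
    simp only [x1, s1] at b
    constructor <;> linarith [a.1, a.2, b.1, b.2]
  have r1 := abs_le.1 (ab (le_refl |1 - τ D * D.lam ^ 2|) (abs_of_nonneg sh.1).le)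
  have r1' := abs_le.1 (ab (ab (ab t1 l1) r) (abs_of_nonneg sh.1).le)
  have r2 := abs_le.1 (ab (ab l1 P.h1) (abs_of_nonneg s2).le)
  have r3 := abs_le.1 (ab (ab (ab l1 l1) r) (le_refl |D.S3|))
  have r4 := abs_le.1 (ab (ab P.h0.2.1 P.h2) (abs_of_nonneg s4).le)
  have r5 := abs_le.1 (ab t1 (le_refl |TS D|))
  have r5' := abs_le.1 (b5 h H P)
  have r6 := abs_le.1 (ab (ab (abs_of_nonneg s2).le r) (Op_le h H P))
  have r6' := abs_le.1 (ab (ab (abs_of_nonneg s2).le l1) (b6 h H P))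
  have r7 := abs_le.1 (b7off h H P)
  have r7' := abs_le.1 (b7 h H P)
  have r8 := abs_le.1 (b8 h H P)
  have k := abs_le.1 (kid h H)
  have d := abs_le.1 (le_refl |dT D (omS D)|)
  have e1 : dT D (omS D) = ∑ j ∈ D.up, omS D j * (D.rb j - D.Gam j) - (star D).main := rfl
  have e2 := main_wi D (omS D)
  have e3 : TS D = ∑ t ∈ D.up, D.del t * mv D D.Gam t - ∑ t ∈ D.up, D.del t * mv D D.q t := by
    rw [TS, ← Finset.sum_sub_distrib]
    exact Finset.sum_congr rfl fun t _ => by simp only [mv]; ring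
  have e4 : D.Sh' = τ D * Shu D := by
    rw [CD.Sh', Shu, Finset.mul_sum]
    exact Finset.sum_congr rfl fun j hj => by
      rw [H.tau (CD.mem_lo.1 hj).1 (by have := h.cut; omega)]; ring
  have e5 : D.val.dP 2 [D.Sd] = Op D := by
    have := H.val
    cases D
    cases this
    rfl
  rw [e4, e5, ← star] at e2
  have e6 : τ D * TS D = τ D * _ := congrArg (τ D * ·) e3
  have a1 := fun {y : ℝ} (hy : 0 ≤ y) (k : ℕ) (hk : k ≤ 5) => u hk hy le_rfl
  have p2 := a1 (mul_nonneg (abs_nonneg (1 - τ D * D.lam ^ 2)) sh.1)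
  have p2' := a1 (mul_nonneg (sq_nonneg D.X) sh.1)
  have p3 := a1 (mul_nonneg (pow_nonneg X0 3) s2)
  have p4 := a1 (mul_nonneg (sq_nonneg D.X) (abs_nonneg D.S3))
  have p5 := a1 (mul_nonneg X0 s4)
  have p6 := a1 (abs_nonneg (TS D))
  have p7 := a1 (mul_nonneg (pow_nonneg X0 4) i0)
  have p7' := a1 (mul_nonneg (mul_nonneg (sq_nonneg D.X) s2) i0)
  have p8 := a1 (mul_nonneg s2 c8)
  have p9 := a1 el
  have p10 := a1 (mul_nonneg (pow_nonneg X0 3) cu)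
  have p11 := a1 (sq_nonneg (Ck D fun t => √(D.e t) * |D.del t|))
  have p12 := a1 c3
  have p0 := a1 η0
  have p1 : τ0 / D.n ≤ m ^ 5 * (1 / D.n) := by
    rw [div_eq_mul_one_div]
    exact mul_le_mul_of_nonneg_right (hτ.trans (le_self_pow₀ P.m1 (by norm_num))) n0
  have tot : |EP D / D.n - C1 D - EM D| ≤ |dT D (omS D)| + Th D + m ^ 5 * (20 * η + 1 / D.n +
      2 * ((|1 - τ D * D.lam ^ 2| + D.X ^ 2) * Shu D) + D.X ^ 3 * D.S2 + D.X ^ 2 * |D.S3| +
      D.X * D.S4 + |TS D| + (D.X ^ 4 + D.X ^ 2 * D.S2) * D.I (fun t => |D.del t|) +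
      D.S2 * Ck D (fun t => D.e t * |D.del t|) + Eloc D + D.X ^ 3 * Ck D (D.u 2) +
      Ck D (fun t => √(D.e t) * |D.del t|) ^ 2 + Ck D fun t => D.e t * D.u 3 t) := by
    have z := fun {y : ℝ} (hy : 0 ≤ y) => mul_nonneg (pow_nonneg m0 5) hy
    have f := And.intro (And.intro (And.intro (p2 0 (by norm_num)) (p2' 4 (by norm_num)))
      (And.intro (p3 2 (by norm_num)) (p4 4 (by norm_num))))
      (And.intro (And.intro (p5 2 (by norm_num)) (p6 1 (by norm_num)))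
        (And.intro (p7 2 (by norm_num)) (p7' 4 (by norm_num))))
    have f' := And.intro (And.intro (And.intro (p8 3 (by norm_num)) (p9 3 (by norm_num)))
      (And.intro (p10 3 (by norm_num)) (p11 3 (by norm_num))))
      (And.intro (And.intro (p12 4 (by norm_num)) (p0 0 (by norm_num)))
        (And.intro (p0 3 (by norm_num)) (p0 4 (by norm_num))))
    have g1 := u' (k := 4) le_rfl sh.1 (sh.2.trans P.m1)
    have g2 := u' (k := 2) (by norm_num) s2 P.s2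
    have g3 := u' (k := 4) le_rfl (abs_nonneg _) P.s3
    have g4 := u' (k := 2) (by norm_num) s4 P.s4
    have g5 := u' (k := 4) le_rfl (mul_nonneg s2 i0) ((mul_le_of_le_one_right s2 i1).trans P.s2)
    have g6 := u' (k := 4) le_rfl s2 P.s2
    have z2 := z (mul_nonneg (abs_nonneg (1 - τ D * D.lam ^ 2)) sh.1)
    have z3 := z (mul_nonneg (pow_nonneg X0 3) s2)
    have z5 := z (mul_nonneg X0 s4)
    have z6 := z (abs_nonneg (TS D))
    have z8 := z (mul_nonneg s2 c8)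
    have z9 := z el
    have z10 := z (mul_nonneg (pow_nonneg X0 3) cu)
    have z11 := z (sq_nonneg (Ck D fun t => √(D.e t) * |D.del t|))
    have z12 := z c3
    have z0 := z η0
    rw [EM, abs_le]
    constructor <;> linarith
  refine tot.trans (add_le_add le_rfl ?_)
  rw [mul_comm 20 (m ^ 5), mul_assoc, EB]
  refine mul_le_mul_of_nonneg_left ?_ (pow_nonneg m0 5)
  linarith [mul_nonneg (add_nonneg (abs_nonneg (1 - τ D * D.lam ^ 2)) (sq_nonneg D.X)) sh.1,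
    mul_nonneg (pow_nonneg X0 3) s2, mul_nonneg (sq_nonneg D.X) (abs_nonneg D.S3), mul_nonneg X0 s4,
    abs_nonneg (TS D), mul_nonneg (add_nonneg (pow_nonneg X0 4) (mul_nonneg (sq_nonneg D.X) s2)) i0,
    mul_nonneg s2 c8, mul_nonneg (pow_nonneg X0 3) cu,
    sq_nonneg (Ck D fun t => √(D.e t) * |D.del t|)]

end terms

/-- **the head (EE)** -/
def HE : Prop := ∀ τ0 : ℝ, ∃ C : ℝ, 0 ≤ C ∧ ∀ (D : CD) (η : ℝ), D.Ok τ0 → Hm D η →
  |EP D / D.n - C1 D - EM D| ≤ |dT D (omS D)| + Th D + C * La D ^ 5 * EB D η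

theorem he_of (h0 : H0) (h1 : H1) (h2 : H2) (h3 : H3) (h4 : H4) (h5 : H5) (h6 : H6) (h7 : H7) :
    HE := fun τ0 => by
  obtain ⟨c0, p0, h0⟩ := h0 τ0
  obtain ⟨c1, p1, h1⟩ := h1 τ0
  obtain ⟨c2, p2, h2⟩ := h2 τ0
  obtain ⟨c3, p3, h3⟩ := h3 τ0
  obtain ⟨c4, p4, h4⟩ := h4 τ0
  obtain ⟨c5, p5, h5⟩ := h5 τ0
  obtain ⟨c6, p6, h6⟩ := h6 τ0
  obtain ⟨c7, p7, h7⟩ := h7 τ0
  obtain ⟨c, hc⟩ : ∃ c, c = 1 + c0 + c1 + c2 + c3 + c4 + c5 + c6 + c7 + |τ0| + τ0 ^ 2 +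
    2 * |τ0| ^ 3 + τ0 ^ 4 := ⟨_, rfl⟩
  have a1 := abs_nonneg τ0
  have a2 := sq_nonneg τ0
  have a3 := pow_nonneg a1 3
  have a4 : 0 ≤ τ0 ^ 4 := by positivity
  refine ⟨20 * c ^ 5, by rw [hc]; positivity, fun D η h H => ?_⟩
  have l1 := La1 h
  have k : ∀ {x : ℝ}, x ≤ c → x ≤ c * La D := fun hx =>
    hx.trans (le_mul_of_one_le_right (by linarith) l1)
  have k' : ∀ {x y z : ℝ}, x ≤ c → 0 ≤ y → z ≤ x * La D * y → z ≤ c * La D * y := fun hx hy hz =>
    hz.trans (mul_le_mul_of_nonneg_right (mul_le_mul_of_nonneg_right hx (by linarith)) hy)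
  have k0 : c0 * La D ≤ c * La D := mul_le_mul_of_nonneg_right (by linarith) (by linarith)
  have X0 := h.X0
  have η0 := H.η0
  have t0 := abs_of_nonneg h.tau0
  rw [t0] at hc a3
  have q0 := h0 D η h H
  refine (ee_pk h H (m := c * La D) ⟨k (by linarith), k (h.tau.trans (by linarith)),
    le_mul_of_one_le_left (by linarith) (by linarith), k ((S2_mem h).2.trans (by linarith)),
    k ((abs_S3 h).trans (by linarith)), k ((S4_mem h).2.trans (by linarith)),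
    ⟨q0.1.trans k0, q0.2.1.trans k0, fun t ht => k' (by linarith) (h.dx0 t) (q0.2.2 t ht)⟩,
    k' (by linarith) (by positivity) (h1 D η h H), k' (by linarith) (by positivity) (h2 D η h H),
    fun t ht => k' (by linarith) ?_ (h3 D η h H t ht),
    fun t ht => k' (by linarith) ?_ (h4 D η h H t ht),
    fun t ht => k' (by linarith) ?_ (h5 D η h H t ht),
    fun t ht t' ht' e => k' (by linarith) ?_ (h6 D η h H t ht t' ht' e),
    fun t ht => k' (by linarith) ?_ (h7 D η h H t ht)⟩ (k (by linarith))).trans_eq (by ring)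
  · exact add_nonneg (mul_nonneg η0 (ck0 h ht)) (mul_nonneg (by positivity) (h.dx0 t))
  · exact mul_nonneg (add_nonneg (h.e0 t) η0) (ck0 h ht)
  · exact mul_nonneg (by positivity) (ck0 h ht)
  · exact mul_nonneg (le_min (h.e0 t) (h.e0 t')) (mul_nonneg (ck0 h ht) (ck0 h ht'))
  · exact mul_nonneg (h.e0 t) (ck0 h ht)

theorem Hm.ct (H : Hm D η) (h : D.Ok τ0) : R85.CT D (τ D) := fun j hj _ =>
  H.tau hj (by have := h.cut; omega)

/-- (EE) in the form of the hypothesis `hE` of `R2a58.alg`; `Op D = τ O` is `R85.St.dP_eq` -/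
theorem EM_alg (h : D.Ok τ0) (H : Hm D η) (ht : τ D ≠ 0) {O : ℝ} (hO : Op D = τ D * O) (E : ℝ) :
    E - EM D = E + 2 * (τ D / 4 * (1 - τ D * D.lam ^ 2) * R85.s2 D) +
      3 * (τ D ^ 3 * D.lam ^ 3 / 6 * R85.s3 D (τ D)) - 6 * (R85.kap D (τ D) / 4 * R85.s4 D) +
      τ D ^ 2 * D.lam / 2 * x1 D * (D.lam ^ 2 * s1 D) * R85.s2 D + Jh D / 2 -
      τ D ^ 3 * D.lam / 2 * (x1 D * (s1 D / τ D) ^ 2 + 3 * R85.s2 D) * O := by
  rw [EM, hO, R85.S1_eq (H.ct h) h.cut, R85.S2_eq (H.ct h) h.cut, R85.S4_eq (H.ct h) h.cut,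
    R85.s3, R85.kap]
  field_simp
  ring

/-- **(EE)**, the hypothesis `hE` of `R2a58.alg` -/
theorem headE (he : HE) (τ0 : ℝ) : ∃ C : ℝ, 0 ≤ C ∧ ∀ (D : CD) (η τ' T : ℝ) (P : ℕ), D.Ok τ0 →
    Hm D η → R85.St D τ' T P →
    |EP D / D.n - C1 D + 2 * (τ' / 4 * (1 - τ' * D.lam ^ 2) * R85.s2 D) +
      3 * (τ' ^ 3 * D.lam ^ 3 / 6 * R85.s3 D τ') - 6 * (R85.kap D τ' / 4 * R85.s4 D) +
      τ' ^ 2 * D.lam / 2 * x1 D * (D.lam ^ 2 * s1 D) * R85.s2 D + Jh D / 2 -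
      τ' ^ 3 * D.lam / 2 * (x1 D * (s1 D / τ') ^ 2 + 3 * R85.s2 D) * R85.O D| ≤
      |dT D (omS D)| + Th D + C * La D ^ 5 * EB D η := by
  obtain ⟨C, h0, hC⟩ := he τ0
  refine ⟨C, h0, fun D η τ' T P h H s => ?_⟩
  obtain rfl : τ D = τ' := s.ct D.K (by have := h.cut; omega) le_rfl
  rw [← EM_alg h H s.pos.ne' (s.dP_eq h (by rw [H.val]; rfl))]
  exact hC D η h H

end Crest.Agent.T156.Cas.C40.E42

end
end

-- ▼ part T156/R2F_42

/-!
# Row 156, R2: the flow defect on the data `CD` (helper42)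

`Kc` does not depend on the root tilt; `r2cd` = `R2a58.alg` on the heads (P), (W), (EE).
-/

set_option autoImplicit false
set_option linter.all false

noncomputable section

namespace Crest.Agent.T156.Cas.C40.E42

open MeasureTheory Real Set Filter Topology
open Crest.Agent.T157.E Crest.Agent.T157.Casc Crest.Agent.T157.SL
open Crest.Agent.T157.G1 (ov)
open Crest.ProbabilityR.SpinGlassDynamics (spin)
open Eul43

section null
variable {Ω : Type} [Fintype Ω] {w : Ω → ℝ} {l : Lv Ω} (hl : ∀ g, l.fld g = 0)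
include hl

theorem tE_null (F Φ : (Ω → ℝ) → ℝ) (h : Ω → ℝ) : tE l F Φ h = Φ h := by
  simp only [tE, hl, add_zero, integral_const, probReal_univ, one_smul]
  exact mul_div_cancel_left₀ _ (exp_pos _).ne'

theorem X_null (L : List (Lv Ω)) (h : Ω → ℝ) :
    Crest.Agent.T157.Casc.X w (l :: L) h = Crest.Agent.T157.Casc.X w L h := by
  simp only [Crest.Agent.T157.Casc.X, step, hl, add_zero, integral_const, probReal_univ, one_smul,
    log_exp]
  split_ifs with h0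
  · rfl
  · exact inv_mul_cancel_left₀ h0 _

theorem pi2_null (L : List (Lv Ω)) (j : ℕ) (K : Ω → Ω → ℝ) (h : Ω → ℝ) :
    pi2 w (l :: L) (j + 1) K h = pi2 w L j K h := tE_null hl _ _ h

theorem ins_null (L : List (Lv Ω)) (j : ℕ) (K : Ω → Ω → ℝ) (h : Ω → ℝ) :
    ins w (l :: L) (j + 1) K h = ins w L j K h := by
  simp only [ins, List.getElem?_cons_succ]
  cases L[j]? with
  | none => rfl
  | some l' =>
    exact congrArg (fun f : ℝ → ℝ => ∫ ρ in (0 : ℝ)..1, f ρ)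
      (funext fun ρ => pi2_null hl (Gir68.spl L j l' ρ) (j + 1) K h)

end null

/-- the constant of the flow defect -/
def Kc (D : CD) : ℝ :=
  6 * (Crest.Agent.T157.Casc.X (fun _ => 1) D.S 0 - oC D.n D.β D.M D.q) - C1 D

/-- **`Kc` does not see the root tilt** -/
theorem Kc_root {D D' : CD} {a a' d : ℝ} {M' : List (ℝ × ℝ × ℝ)} (e : D.M = (a, d, 0) :: M')
    (e' : D'.M = (a', d, 0) :: M') (en : D'.n = D.n) (eβ : D'.β = D.β) (eq : D'.q = D.q)
    (eJ : D'.J = D.J) (J1 : 1 ≤ D.J) (q0 : D.q 0 = 0) (q1 : D.q 1 = 0) : Kc D' = Kc D := by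
  obtain ⟨n, β, M, q, J, W, _⟩ := D
  obtain ⟨n', β', M'', q', J', W', _⟩ := D'
  simp only at e e' en eβ eq eJ J1 q0 q1
  subst e e' en eβ eq eJ
  obtain ⟨J, rfl⟩ : ∃ k, J' = k + 1 := ⟨J' - 1, by omega⟩
  obtain ⟨S', hS⟩ : ∃ S', ∀ a, ∃ l : Lv Bool, (∀ g, l.fld g = 0) ∧
      opS n' β' ((a, d, 0) :: M') q' = l :: S' :=
    ⟨(opS n' β' ((0, d, 0) :: M') q').tail, fun a =>
      ⟨C.sl spin (a, 0 + ((0 + bb n' β' ^ 2 * d) * q' 1 - 0 * q' 0)),
        fun g => funext fun x => by simp [Lv.fld, q0, q1], rfl⟩⟩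
  obtain ⟨l, hl, eS⟩ := hS a
  obtain ⟨l', hl', eS'⟩ := hS a'
  have tau : ∀ j, oTau n' β' ((a', d, 0) :: M') j = oTau n' β' ((a, d, 0) :: M') j := fun j => by
    cases j <;> rfl
  have fa : ∀ j, fAcc ((a', d, 0) :: M') j = fAcc ((a, d, 0) :: M') j := fun j => by
    cases j <;> rfl
  have f1 : fAcc ((a, d, 0) :: M') 1 = 0 := by simp [fAcc]
  have f0 : fAcc ((a, d, 0) :: M') 0 = 0 := rfl
  have ga : ∀ j, pi2 (fun _ => 1) (l' :: S') (j + 1) (fun a b => spin a * spin b) 0 =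
      pi2 (fun _ => 1) (l :: S') (j + 1) (fun a b => spin a * spin b) 0 := fun j => by
    rw [pi2_null hl, pi2_null hl']
  have c : oC n' β' ((a', d, 0) :: M') q' = oC n' β' ((a, d, 0) :: M') q' := by
    simp only [oC, tau, List.length_cons]
    congr 2
    refine Finset.sum_congr rfl fun j _ => ?_
    rcases j with _ | _ | j
    · simp [q0]
    · simp [q1]
    · rfl
  simp only [Kc, C1, CD.S, CD.Gam, x1, τ, CD.τ, CD.sig, CD.K, CD.lo, CD.dx, CD.B, eS, eS', c, tau, fa,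
    ga, X_null hl, X_null hl', ins_null hl, ins_null hl', List.length_cons]
  congr 4
  · congr 1
    refine Finset.sum_congr rfl fun j hj => ?_
    rcases j with _ | _ | j
    · simp at hj
    · simp [f1]
    · rw [ga]; rfl
  · congr 1
    refine Finset.sum_congr rfl fun j _ => ?_
    rcases j with _ | j
    · simp [f1, f0]
    · rw [ins_null hl, ins_null hl']; rfl

variable {D : CD} {τ0 η : ℝ}

theorem oN_le (h : D.Ok τ0) (H : Hm D η) : |oN D.n D.β D.M| ≤ τ0 / D.n := by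
  obtain ⟨a, d, M', e, h0⟩ := H.root
  have hn : (0 : ℝ) < D.n := by exact_mod_cast h.pos
  have eK : D.K = M'.length + 1 := by simp [CD.K, e]
  have eτ : bb D.n D.β ^ 2 * d = τ D := by
    rw [τ, eK]; simp only [CD.τ, oTau, e, Kid68.dAcc_root h0]
  have ea : ex D.B 0 = a := by simp only [CD.B, e]; rfl
  have a0 : 0 ≤ a := ea ▸ h.ex0 0
  have a1 : a ≤ 1 := ea ▸ Tay38.ex_le_one h.mono 0
  have t := h.tau_mem D.K
  have s : (M'.map fun p => p.1 * p.2.1).sum = 0 := List.sum_eq_zero fun x hx => by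
    obtain ⟨p, hp, rfl⟩ := List.mem_map.1 hx
    rw [h0 p hp, mul_zero]
  have k : oN D.n D.β D.M = a / 4 * τ D / D.n := by
    rw [oN, e, List.map_cons, List.sum_cons, s, ← eτ, bb_sq]
    field_simp
    ring
  have t0 : 0 ≤ τ D := t.1
  rw [k, abs_of_nonneg (by positivity)]
  exact div_le_div_of_nonneg_right ((mul_le_of_le_one_left t0 (by linarith)).trans t.2) hn.le

theorem EB0 (h : D.Ok τ0) (H : Hm D η) : 0 ≤ EB D η := by
  have X0 := h.X0
  have η0 := H.η0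
  have sh := (Shu_mem h).1
  have s2 := (S2_mem h).1
  have s4 := (S4_mem h).1
  have i0 : 0 ≤ D.I fun t => |D.del t| := h.I0 fun _ _ => abs_nonneg _
  have c8 := Ck0 h (a := fun t => D.e t * |D.del t|) fun t => mul_nonneg (h.e0 t) (abs_nonneg _)
  have cu := Ck0 h (D.u0 2)
  have c3 := Ck0 h (a := fun t => D.e t * D.u 3 t) fun t => mul_nonneg (h.e0 t) (D.u0 3 t)
  have el : 0 ≤ Eloc D := Finset.sum_nonneg fun t _ => mul_nonneg (add_nonneg
    (mul_nonneg (h.dx0 t) (abs_nonneg _)) (abs_nonneg _)) (D.u0 2 t)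
  unfold EB
  positivity

/-- `6 ×` the flow defect -/
def T6 (D : CD) : ℝ := 6 * (Crest.Agent.T157.Casc.X (fun _ => 1) (D.M.map (mxL (D.n + 1) D.β)) 0 -
  Crest.Agent.T157.Casc.X (fun _ => 1) D.B 0) - EP D / D.n
/-- the coefficient (A) -/
def Aq (D : CD) (τ' : ℝ) : ℝ := 1 - τ' * D.lam ^ 2 + τ' * D.lam * x1 D * (D.lam ^ 2 * s1 D)
/-- the coefficient (B) -/
def Bq (D : CD) (τ' S0 : ℝ) : ℝ := x1 D * (s1 D / τ') ^ 2 - 3 * S0
/-- the main terms of the flow defect -/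
def Mn (D : CD) (τ' S0 : ℝ) : ℝ := τ' / 2 * Aq D τ' * R85.s2 D +
  (Jh D - 3 * (τ' * D.lam ^ 2) * R85.sh D) / 2 - τ' ^ 3 * D.lam / 2 * Bq D τ' S0 * R85.O D

/-- **the flow defect on `CD`** -/
theorem r2cd (hV : HV) (hL : HL) (hU : HU) (he : HE) (τ0 : ℝ) : ∃ C : ℝ, 0 ≤ C ∧
    ∀ (D : CD) (η τ' T S0 tw : ℝ) (P : ℕ), D.Ok τ0 → Hm D η → R85.St D τ' T P → R85.TW D τ' S0 tw →
      |T6 D - Kc D - Mn D τ' S0| ≤
        C * D.Err + 3 / 2 * τ' * (tw * D.N1) + |dT D (omS D)| + Th D + C * La D ^ 5 * EB D η := by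
  obtain ⟨c1, p1, h1⟩ := R85.headP hV hU τ0
  obtain ⟨c2, p2, h2⟩ := R85.headW hL τ0
  obtain ⟨c3, p3, h3⟩ := headE he τ0
  refine ⟨6 * c1 + 3 * c2 + c3 + 6 * |τ0|, by positivity, fun D η τ' T S0 tw P h H s w => ?_⟩
  have hW : D.W.isSome = false := by rw [H.val]; rfl
  have a := h1 D τ' T S0 tw P h hW s w
  rw [← sub_zero D.dP0] at a
  have k := abs_le.1 (R2a58.alg a (h2 D τ' T P h hW s) (h3 D η τ' T P h H s))
  have o := abs_le.1 (oN_le h H)
  have e0 := h.Err0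
  have e1 : τ0 / D.n ≤ |τ0| * D.Err := by
    rw [div_eq_mul_one_div, abs_of_nonneg h.tau0]
    exact mul_le_mul_of_nonneg_left (h.n_le.trans (h.E0_le hW)) h.tau0
  have e2 : 0 ≤ La D ^ 5 * EB D η :=
    mul_nonneg (pow_nonneg (zero_le_one.trans (La1 h)) 5) (EB0 h H)
  have e3 := mul_nonneg p3 e0
  have e4 := mul_nonneg (show 0 ≤ 6 * c1 + 3 * c2 + 6 * |τ0| by positivity) e2
  simp only [CD.dP0] at k
  simp only [T6, Kc, Mn, Aq, Bq]
  exact abs_le.2 ⟨by linarith [k.1, o.1], by linarith [k.2, o.2]⟩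

/-! ### on the models `Md` -/

open Alt Alt.CIn12

variable (M : Md) (m : ℕ) (a : ℝ) (ρ : ℕ → ℝ) (J : ℕ) (W : Option (ℕ → ℝ)) (E : Ev)

theorem EP_cd : EP (cd M m a ρ J W E) = M.EP m a :=
  (EE_eq (w := fun _ => 1) (M.root m 0) (M.up m) 0 a).symm

theorem T6_cd : T6 (cd M m a ρ J W E) = 6 * M.T m a := by
  rw [T6, EP_cd, Md.T, mul_sub 6 (_ - _), mul_comm 6 (_ / _), div_mul_eq_mul_div,
    mul_comm _ (6 : ℝ), mul_div_mul_left _ _ (by norm_num)]
  rfl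

theorem Kc_cd (hJ : 1 ≤ J) (hN : 0 < M.N) (a' : ℝ) (W' : Option (ℕ → ℝ)) (E' : Ev) :
    Kc (cd M m a' ρ J W' E') = Kc (cd M m a ρ J W E) :=
  Kc_root (D := cd M m a ρ J W E) (D' := cd M m a' ρ J W' E') rfl rfl rfl rfl rfl rfl hJ
    rfl ((Md67.qx_succ hN).trans (cq_lt hJ))

end Crest.Agent.T156.Cas.C40.E42

end
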