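import Crest.Agent.T156.R2EDef_42

/-!
# Row 156, R2: derivatives in the field of all words, crude bounds, `H0` (helper6)

`DK w M f k h` is the `k`-th derivative of the tree expectations in the direction `f` of the state.
-/

set_option autoImplicit false
set_option linter.all false

noncomputable section

namespace Crest.Agent.T156.Cas.H06

open MeasureTheory Real Set Filter Topology
open Crest.Agent.T157.E Crest.Agent.T157.Casc Crest.Agent.T157.SL
open Crest.ProbabilityR.SpinGlassDynamics (spin)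
open Mul55 Tay38 Wt87

variable {Ω : Type} {M : List (Lv Ω)}

/-- one leg `f` -/
def Lop (M : List (Lv Ω)) (f : Ω → ℝ) (Λ : Fn Ω) : Fn Ω := fun s F =>
  ∑ a, Λ s (fun x => F x * f (x a)) - ∑ a, ∑ j ∈ Finset.range (M.length + 1), cw s M a j *
    Λ (s.graft a j) fun x => F (fun b => x (s.emb a j b)) * f (x (s.nw a j))

theorem fl_lop {Φ : Fn Ω → ℝ} (h : FL Φ) (M : List (Lv Ω)) (f : Ω → ℝ) :
    FL fun Λ => Φ (Lop M f Λ) :=
  fun R H _ _ e => h R H _ _ fun s F => H.sub (H.sum _ fun _ _ => e _ _)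
    (H.sum _ fun _ _ => H.sum _ fun _ _ => H.smul _ (e _ _))

theorem fl_lops (M : List (Lv Ω)) (f : Ω → ℝ) : ∀ (k : ℕ) {Φ : Fn Ω → ℝ}, FL Φ →
    FL fun Λ => Φ ((Lop M f)^[k] Λ)
  | 0, _, h => h
  | k + 1, _, h => fl_lop (fl_lops M f k h) M f

theorem fl_twoF (j : ℕ) (Q : Ω → Ω → ℝ) : FL (twoF j Q) := FL.ev _ _

/-- functionals bounded on shapes with at most `N` leaves -/
def Bnd (N A : ℝ) (Λ : Fn Ω) : Prop := ∀ (s : Sh) (F : (s.Lf → Ω) → ℝ) (B : ℝ),
  (Fintype.card s.Lf : ℝ) ≤ N → 0 ≤ B → (∀ x, |F x| ≤ B) → |Λ s F| ≤ A * B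

theorem Bnd.mono {N N' A A' : ℝ} {Λ : Fn Ω} (H : Bnd N A Λ) (h : N' ≤ N) (h' : A ≤ A') :
    Bnd N' A' Λ := fun s F B h1 h2 h3 =>
  (H s F B (h1.trans h) h2 h3).trans (mul_le_mul_of_nonneg_right h' h2)

theorem abs_mul_le {a b A B : ℝ} (h : |a| ≤ A) (h' : |b| ≤ B) : |a * b| ≤ A * B := by
  rw [abs_mul]
  exact mul_le_mul h h' (abs_nonneg _) ((abs_nonneg _).trans h)

theorem Bnd.lop (hM : Mono 0 M) {N A c : ℝ} {Λ : Fn Ω} {f : Ω → ℝ} (H : Bnd (N + 1) A Λ)
    (hA : 0 ≤ A) (hc : 0 ≤ c) (hf : ∀ y, |f y| ≤ c) : Bnd N (2 * N * c * A) (Lop M f Λ) := by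
  intro s F B hN hB hF
  have h0 : 0 ≤ A * (B * c) := by positivity
  have h1 : |∑ a, Λ s (fun x => F x * f (x a))| ≤ Fintype.card s.Lf * (A * (B * c)) :=
    abs_sum_le_card fun a => H s _ _ (by linarith) (by positivity) fun x => abs_mul_le (hF x) (hf _)
  have h2 := sum_cw_aff (g := fun _ => 0) hM (fun _ => le_rfl) s (α := A * (B * c)) (β := 0)
    (X := fun a j => Λ (s.graft a j) fun x => F (fun b => x (s.emb a j b)) * f (x (s.nw a j)))
    le_rfl fun a j _ => by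
      rw [zero_mul, add_zero]
      exact H _ _ _ (by rw [card_graft]; push_cast; linarith) (by positivity)
        fun x => abs_mul_le (hF _) (hf _)
  rw [zero_mul, add_zero] at h2
  have h3 := mul_le_mul_of_nonneg_right hN h0
  exact (abs_sub _ _).trans (by linarith)

theorem Bnd.lops (hM : Mono 0 M) {A c : ℝ} {Λ : Fn Ω} {f : Ω → ℝ} (hA : 0 ≤ A) (hc : 0 ≤ c)
    (hf : ∀ y, |f y| ≤ c) : ∀ (k : ℕ) {N : ℝ}, 0 ≤ N → Bnd (N + k) A Λ →
      Bnd N ((2 * (N + k) * c) ^ k * A) ((Lop M f)^[k] Λ)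
  | 0, N, _, H => by simpa using H
  | k + 1, N, hN, H => by
      have := (Bnd.lops hM hA hc hf k (N := N + 1) (by linarith)
        (H.mono (by push_cast; linarith) le_rfl)).lop hM (by positivity) hc hf
      rw [Function.iterate_succ_apply']
      refine this.mono le_rfl ?_
      have e : N + 1 + k = N + (k + 1 : ℕ) := by push_cast; ring
      have h1 : N ≤ N + (k + 1 : ℕ) := le_add_of_nonneg_right (Nat.cast_nonneg _)
      rw [e, pow_succ', mul_assoc _ _ A]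
      gcongr

/-- the evaluations that occur in `Dop` -/
theorem Bnd.term {N A c B : ℝ} {Λ : Fn Ω} (H : Bnd (N + 2) A Λ) {s : Sh}
    (hN : (Fintype.card s.Lf : ℝ) ≤ N) {F : (s.Lf → Ω) → ℝ} (hB : 0 ≤ B) (hF : ∀ x, |F x| ≤ B)
    (hc : 0 ≤ c) {K : Ω → Ω → ℝ} (hK : ∀ x y, |K x y| ≤ c) {s' : Sh} {e : s.Lf → s'.Lf}
    (p q : s'.Lf) (H' : (∃ h : s = s', e = h ▸ id) ∨ (∃ a j, ∃ h : s.graft a j = s', e = h ▸ s.emb a j) ∨
      ∃ a j a' j', ∃ h : (s.graft a j).graft a' j' = s',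
        e = h ▸ fun b => (s.graft a j).emb a' j' (s.emb a j b)) :
    |Λ s' fun x => F (fun b => x (e b)) * K (x p) (x q)| ≤ A * (B * c) := by
  refine H _ _ _ ?_ (by positivity) fun x => abs_mul_le (hF _) (hK _ _)
  rcases H' with ⟨rfl, -⟩ | ⟨a, j, rfl, -⟩ | ⟨a, j, a', j', rfl, -⟩
  · linarith
  · rw [card_graft]; push_cast; linarith
  · rw [card_graft, card_graft]; push_cast; linarith

theorem Bnd.dop (hM : Mono 0 M) {N A c : ℝ} {Λ : Fn Ω} {S : ℕ → Ω → Ω → ℝ} (H : Bnd (N + 2) A Λ)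
    (hA : 0 ≤ A) (hc : 0 ≤ c) (hS : ∀ j ≤ M.length, ∀ x y, |S j x y| ≤ c) :
    Bnd N (53 * N ^ 3 * c * A) (Dop M S Λ) := by
  intro s F B hN hB hF
  have := abs_Dop_le (g := fun _ => 0) hM (fun _ => le_rfl) (S := S) (Λ := Λ) s F
    (α := A * (B * c)) (β := 0) (by positivity) le_rfl fun s' e p q i _ hi H' => by
      rw [zero_mul, add_zero]
      exact H.term hN hB hF hc (hS i (hi ▸ shr_le _ _ _ _)) p q H'
  rw [zero_mul, add_zero] at this
  calc _ ≤ 53 * N ^ 3 * (A * (B * c)) := this.trans (by gcongr)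
    _ = _ := by ring

theorem Bnd.wdO (hM : Mono 0 M) {A c : ℝ} {Λ : Fn Ω} (hA : 0 ≤ A) (hc : 0 ≤ c) :
    ∀ (U : List (ℕ → Ω → Ω → ℝ)) {N : ℝ}, 0 ≤ N → (∀ S ∈ U, ∀ j ≤ M.length, ∀ x y, |S j x y| ≤ c) →
      Bnd (N + 2 * U.length) A Λ →
      Bnd N ((53 * (N + 2 * U.length) ^ 3 * c) ^ U.length * A) (WdO M U Λ)
  | [], N, _, _, H => by simpa [WdO] using H
  | S :: U, N, hN, hU, H => by
      have := (Bnd.wdO hM hA hc U (N := N + 2) (by linarith)
        (fun T hT => hU T (List.mem_cons_of_mem _ hT))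
        (H.mono (by rw [List.length_cons]; push_cast; linarith) le_rfl)).dop hM (by positivity) hc
        (hU S List.mem_cons_self)
      rw [WdO_cons]
      refine this.mono le_rfl ?_
      have e : N + 2 + 2 * U.length = N + 2 * (S :: U).length := by
        rw [List.length_cons]; push_cast; ring
      have h1 : N ≤ N + 2 * (S :: U).length := le_add_of_nonneg_right (by positivity)
      rw [e, show ∀ x : ℝ, x ^ (S :: U).length = x * x ^ U.length from fun x => pow_succ' x _,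
        mul_assoc _ _ A]
      gcongr

/-- **weighted form**: the letter is bounded by `g j` on the level `j` -/
theorem Bnd.dop_wt (hM : Mono 0 M) {N A B : ℝ} {Λ : Fn Ω} {S : ℕ → Ω → Ω → ℝ} {g : ℕ → ℝ}
    (H : Bnd (N + 2) A Λ) (hA : 0 ≤ A) (hg : ∀ j, 0 ≤ g j)
    (hS : ∀ j ≤ M.length, ∀ x y, |S j x y| ≤ g j) (s : Sh) (hN : (Fintype.card s.Lf : ℝ) ≤ N)
    {F : (s.Lf → Ω) → ℝ} (hB : 0 ≤ B) (hF : ∀ x, |F x| ≤ B) :
    |Dop M S Λ s F| ≤ 53 * N ^ 3 * (A * B * Nv M g s) := by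
  have := abs_Dop_le hM hg (S := S) (Λ := Λ) s F (α := 0) (β := A * B) le_rfl (by positivity)
    fun s' e p q i hpq hi H' => by
      rw [zero_add]
      refine (H.term hN hB hF (hg i) (hS i (hi ▸ shr_le _ _ _ _)) p q H').trans ?_
      rw [← mul_assoc]
      refine mul_le_mul_of_nonneg_left ?_ (by positivity)
      refine le_trans ?_ (le_add_of_nonneg_right (N0_nonneg hM hg))
      exact hi ▸ le_prs s' (G := fun a b => g (s'.shr a b M.length)) (fun _ _ => hg _) hpq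
  rw [zero_add] at this
  have h0 := Nv_nonneg hM hg s
  exact this.trans (by gcongr)

theorem Nv_two (M : List (Lv Ω)) (g : ℕ → ℝ) {j : ℕ} (hj : j ≤ M.length) :
    Nv M g (Sh.two j) = 2 * g j + ∑ i ∈ Finset.range (M.length + 1), dm M 0 i * g i := by
  rw [Nv, Tay38.prs_two, shr_comm _ (Sh.twoR j), shr_two, min_eq_left hj]
  ring

/-- a marked pair and one weighted letter -/
theorem Bnd.two_wt (hM : Mono 0 M) {A B : ℝ} {Λ : Fn Ω} {S : ℕ → Ω → Ω → ℝ} {g : ℕ → ℝ}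
    (H : Bnd 4 A Λ) (hA : 0 ≤ A) (hg : ∀ j, 0 ≤ g j)
    (hS : ∀ j ≤ M.length, ∀ x y, |S j x y| ≤ g j) {j : ℕ} (hj : j ≤ M.length) {Q : Ω → Ω → ℝ}
    (hB : 0 ≤ B) (hQ : ∀ x y, |Q x y| ≤ B) : |twoF j Q (Dop M S Λ)| ≤
      424 * (A * B * (2 * g j + ∑ i ∈ Finset.range (M.length + 1), dm M 0 i * g i)) := by
  have := Bnd.dop_wt hM (N := 2) (by rwa [show (2 : ℝ) + 2 = 4 by norm_num]) hA hg hS (Sh.two j)
    (by rw [card_two]; norm_num) (F := fun x => Q (x (Sh.twoL j)) (x (Sh.twoR j))) hB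
    fun x => hQ _ _
  rw [Nv_two M g hj] at this
  exact this.trans_eq (by norm_num)

theorem Bnd.two {A B : ℝ} {Λ : Fn Ω} (H : Bnd 2 A Λ) (j : ℕ) {Q : Ω → Ω → ℝ} (hB : 0 ≤ B)
    (hQ : ∀ x y, |Q x y| ≤ B) : |twoF j Q Λ| ≤ A * B :=
  H _ _ _ (by rw [card_two]; norm_num) hB fun _ => hQ _ _

theorem Bnd.pair (hM : Mono 0 M) {A : ℝ} {Λ : Fn Ω} (H : Bnd 2 A Λ) {S : ℕ → Ω → Ω → ℝ}
    {g : ℕ → ℝ} (hg : ∀ j, 0 ≤ g j) (hS : ∀ j ≤ M.length, ∀ x y, |S j x y| ≤ g j) :
    |pairF M S Λ| ≤ A * ∑ i ∈ Finset.range (M.length + 1), dm M 0 i * g i := by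
  rw [pairF, Finset.mul_sum]
  refine (Finset.abs_sum_le_sum_abs _ _).trans (Finset.sum_le_sum fun j hj => ?_)
  rw [abs_mul, abs_of_nonneg (dm_nonneg hM j), mul_left_comm]
  exact mul_le_mul_of_nonneg_left (H.two j (hg j)
    (hS j (Nat.lt_succ_iff.1 (Finset.mem_range.1 hj)))) (dm_nonneg hM j)

variable [Fintype Ω] {w : Ω → ℝ}

/-- the `k`-th derivative of the tree expectations in the direction `f` of the state -/
def DK (w : Ω → ℝ) (M : List (Lv Ω)) (f : Ω → ℝ) (k : ℕ) (h : Ω → ℝ) : Fn Ω :=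
  (Lop M f)^[k] (TEf w M h)

theorem DK_zero (f h : Ω → ℝ) : DK w M f 0 h = TEf w M h := rfl

theorem bnd_TEf (hw : Wt w) (M : List (Lv Ω)) (h : Ω → ℝ) (N : ℝ) : Bnd N 1 (TEf w M h) :=
  fun s F B _ _ hF => by rw [one_mul]; exact One15.abs_TE_le hw s M h hF

/-- **crude bound of the derivatives** -/
theorem bnd_DK (hw : Wt w) (hM : Mono 0 M) {f : Ω → ℝ} {c : ℝ} (hc : 0 ≤ c) (hf : ∀ y, |f y| ≤ c)
    (k : ℕ) (h : Ω → ℝ) {N : ℝ} (hN : 0 ≤ N) : Bnd N ((2 * (N + k) * c) ^ k) (DK w M f k h) := by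
  simpa only [mul_one, DK] using Bnd.lops hM zero_le_one hc hf k hN (bnd_TEf hw M h _)

/-- **every finite combination of tree expectations is smooth in the state** -/
theorem der_DK (hw : Wt w) {Φ : Fn Ω → ℝ} (hΦ : FL Φ) (M : List (Lv Ω)) (f h : Ω → ℝ) (k : ℕ)
    (e : ℝ) : HasDerivAt (fun e : ℝ => Φ (DK w M f k (h + e • f)))
      (Φ (DK w M f (k + 1) (h + e • f))) e :=
  (fl_lops M f k hΦ).der (Λ := fun e : ℝ => TEf w M (h + e • f))
    (Λ' := Lop M f (TEf w M (h + e • f))) fun s F => One15.hasDerivAt_TE hw s M h f F e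

theorem iter_DK (hw : Wt w) {Φ : Fn Ω → ℝ} (hΦ : FL Φ) (M : List (Lv Ω)) (f h : Ω → ℝ) (k : ℕ) :
    ∀ r : ℕ, iteratedDeriv r (fun e : ℝ => Φ (DK w M f k (h + e • f))) =
      fun e : ℝ => Φ (DK w M f (k + r) (h + e • f))
  | 0 => iteratedDeriv_zero
  | r + 1 => by
      rw [iteratedDeriv_succ, iter_DK hw hΦ M f h k r]
      funext e
      exact (der_DK hw hΦ M f h (k + r) e).deriv


theorem der_X (hw : Wt w) (M : List (Lv Ω)) (f h : Ω → ℝ) (e : ℝ) :
    HasDerivAt (fun e : ℝ => X w M (h + e • f)) (TEf w M (h + e • f) .one fun x => f (x ())) e := by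
  have : HasDerivAt (fun e : ℝ => X w M (h + e • f)) (Pf w M (h + e • f) f) e := by
    simpa only [Pf, mul_comm] using (gr_X hw M).line h f e
  exact this.congr_deriv (Law.TE_one hw M _ fun x => f (x ())).symm

theorem iter_X (hw : Wt w) (M : List (Lv Ω)) (f h : Ω → ℝ) (r : ℕ) :
    iteratedDeriv (r + 1) (fun e : ℝ => X w M (h + e • f)) =
      fun e : ℝ => DK w M f r (h + e • f) .one fun x => f (x ()) := by
  rw [iteratedDeriv_succ', show deriv (fun e : ℝ => X w M (h + e • f)) = _ from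
    funext fun e => (der_X hw M f h e).deriv]
  simpa only [zero_add, DK_zero] using iter_DK hw (FL.ev .one fun x => f (x ())) M f h 0 r

/-! ### the site -/

section site
variable {T : List (Lv Bool)}

theorem fld (y : ℝ) : (fun b => y * spin b) = (0 : Bool → ℝ) + y • spin := by
  funext b; simp

/-- the `k`-th derivative in the field `y` -/
def DY (T : List (Lv Bool)) (k : ℕ) (y : ℝ) : Fn Bool := DK (fun _ => 1) T spin k fun b => y * spin b

theorem DY_zero (y : ℝ) : DY T 0 y = TEf (fun _ => 1) T fun b => y * spin b := rfl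

theorem bnd_DY (hT : Mono 0 T) (k : ℕ) (y : ℝ) {N : ℝ} (hN : 0 ≤ N) :
    Bnd N ((2 * (N + k)) ^ k) (DY T k y) := by
  simpa only [mul_one, DY] using bnd_DK wt_one90 hT zero_le_one (fun b => (One15.abs_spin b).le) k
    (fun b => y * spin b) hN

theorem der_DY {Φ : Fn Bool → ℝ} (hΦ : FL Φ) (T : List (Lv Bool)) (k : ℕ) (y : ℝ) :
    HasDerivAt (fun y => Φ (DY T k y)) (Φ (DY T (k + 1) y)) y := by
  simpa only [DY, fld] using der_DK wt_one90 hΦ T spin 0 k y

/-- **all `y`-derivatives of all words** -/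
theorem iter_DY {Φ : Fn Bool → ℝ} (hΦ : FL Φ) (T : List (Lv Bool)) (r : ℕ) (y : ℝ) :
    iteratedDeriv r (fun y => Φ (TEf (fun _ => 1) T fun b => y * spin b)) y = Φ (DY T r y) := by
  have := congrFun (iter_DK wt_one90 hΦ T spin 0 0 r) y
  simpa only [DY, fld, zero_add r, DK_zero] using this


theorem iter_Ph (T : List (Lv Bool)) (r : ℕ) (y : ℝ) :
    iteratedDeriv (r + 1) (fun y => X (fun _ => 1) T fun b => y * spin b) y =
      DY T r y .one fun x => spin (x ()) := by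
  simpa only [DY, fld] using congrFun (iter_X wt_one90 T spin 0 r) y

theorem abs_iter_Ph (hT : Mono 0 T) (r : ℕ) (y : ℝ) :
    |iteratedDeriv (r + 1) (fun y => X (fun _ => 1) T fun b => y * spin b) y| ≤
      (2 * (1 + r)) ^ r := by
  rw [iter_Ph]
  simpa only [mul_one] using bnd_DY hT r y zero_le_one .one _ 1 (by exact_mod_cast (Fintype.card_unit).le) zero_le_one
    fun x => (One15.abs_spin _).le

end site

theorem dm_drop' (L : List (Lv Ω)) {y t : ℕ} (h : y < t) : dm (L.drop y) 0 (t - y) = dm L 0 t := by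
  obtain ⟨j, rfl⟩ := Nat.exists_eq_add_of_lt h
  rw [show y + j + 1 - y = j + 1 by omega]
  simp only [dm, exP, T157.Casc.ex, List.getElem?_drop, ← add_assoc]

/-! ### on the data of block C -/

section cd
open C40
variable {D : CD} {τ0 : ℝ}

theorem monoS (H : D.Ok τ0) : Mono 0 D.S := Cav22.mono_tilt tilt_opS.symm H.mono

theorem monoJ (H : D.Ok τ0) (i : ℕ) : Mono 0 (D.S.drop i) := One15.mono_drop i (monoS H)

theorem len_S (D : CD) : D.S.length = D.K := by
  simpa using congrArg List.length (tilt_opS (n := D.n) (β := D.β) (M := D.M) (q := D.q))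

theorem dm_J (D : CD) {i t : ℕ} (h : i < t) : dm (D.S.drop i) 0 (t - i) = D.dx t := by
  rw [dm_drop' _ h, Cav22.dm_tilt tilt_opS]

/-- the head as a functional of the law -/
def hd (D : CD) (i : ℕ) (V : List SK) (Λ : Fn Bool) : ℝ :=
  D.dd (match V with
    | [] => 0
    | S :: U => pairF (D.S.drop i) (fun j => S (j + i))
        (WdO (D.S.drop i) (U.map fun k j => k (j + i)) Λ))
    (∑ j ∈ D.up, D.om j * twoF (j - i) (oE D.q j)
      (WdO (D.S.drop i) (V.map fun k j => k (j + i)) Λ))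

theorem sH_eq (D : CD) (i : ℕ) (y : ℝ) (V : List SK) :
    D.sH i y V = hd D i V (TEf (fun _ => 1) (D.S.drop i) fun b => y * spin b) := by
  cases V <;> rfl

theorem fl_hd (D : CD) (i : ℕ) (V : List SK) : FL (hd D i V) := by
  unfold hd CD.dd
  cases D.W with
  | none =>
    cases V with
    | nil => exact fun R H _ _ _ => H.zero
    | cons S U => exact FL.wdO _ _ (fl_pairF _ _)
  | some ω => exact FL.sum _ fun j _ => FL.cmul _ (FL.wdO _ _ (fl_twoF _ _))

/-- **`dP` as a word on the differentiated law** -/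
theorem dP_eq (D : CD) (r : ℕ) (V : List SK) : D.dP r V = -hd D D.J V (DY (D.S.drop D.J) r 0) := by
  rw [CD.dP, ← iter_DY (fl_hd D D.J V)]
  simp only [sH_eq]

theorem abs_lam (H : D.Ok τ0) : |D.lam| ≤ 4 := by
  have := abs_iter_Ph (monoJ H D.J) 1 0
  norm_num at this
  exact this

theorem abs_k4 (H : D.Ok τ0) : |D.k4| ≤ 512 := by
  have := abs_iter_Ph (monoJ H D.J) 3 0
  norm_num at this
  exact this

theorem pair_lev (D : CD) {i t : ℕ} (h : i < t) (ht : t ≤ D.K) (Λ : Fn Bool) {A : ℝ}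
    (hΛ : Bnd 2 A Λ) : pairF (D.S.drop i) (fun j => D.lev t (j + i)) Λ =
      D.dx t * twoF (t - i) (oE D.q t) Λ := by
  rw [pairF, Finset.sum_eq_single (t - i) (fun j _ hj => ?_) fun hj => ?_, dm_J D h,
    Nat.sub_add_cancel h.le]
  · congr 2
    funext a b
    exact if_pos rfl
  · have := hΛ.two j (Q := D.lev t (j + i)) le_rfl fun a b => by
      rw [CD.lev, if_neg (by omega), abs_zero]
    rw [mul_zero] at this
    rw [abs_nonpos_iff.1 this, mul_zero]
  · exact absurd (Finset.mem_range.2 (by rw [List.length_drop, len_S]; omega)) hj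

theorem abs_dP_lev (H : D.Ok τ0) (hW : D.W = none) (r : ℕ) {t : ℕ} (ht : t ∈ D.up) :
    |D.dP r [D.lev t]| ≤ (2 * (2 + r)) ^ r * 2 * D.dx t := by
  obtain ⟨h1, h2⟩ := Finset.mem_Ioo.1 ht
  have hB := bnd_DY (monoJ H D.J) r 0 zero_le_two
  have e : hd D D.J [D.lev t] (DY (D.S.drop D.J) r 0) =
      pairF (D.S.drop D.J) (fun j => D.lev t (j + D.J)) (DY (D.S.drop D.J) r 0) := by
    simp only [hd, CD.dd, hW]
    rfl
  rw [dP_eq, abs_neg, e, pair_lev D h1 h2.le _ hB, abs_mul,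
    abs_of_nonneg (dm_nonneg H.mono t), mul_comm]
  exact mul_le_mul_of_nonneg_right (hB.two _ zero_le_two fun a b => abs_oE_le H.ook h2.le a b)
    (dm_nonneg H.mono t)

theorem one_le_La (H : D.Ok τ0) : 1 ≤ E42.La D := by
  have h1 := (H.ook.oTau_le D.n D.β D.K).1
  have h2 := (H.ook.mem (le_refl D.K)).1
  have h3 : 0 ≤ fAcc D.M D.K := List.sum_nonneg fun x hx => by
    obtain ⟨p, hp, rfl⟩ := List.mem_map.1 hx
    exact (H.ook.nn p (List.mem_of_mem_take hp)).2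
  have : 0 ≤ D.sig D.K := add_nonneg (mul_nonneg h1 h2) h3
  rw [E42.La]
  linarith

end cd

end Crest.Agent.T156.Cas.H06

namespace Crest.Agent.T156.Cas.C40.E42

open H06

/-- crude sizes -/
theorem h0 : H0 := fun τ0 => ⟨512, by norm_num, fun D η H hm => by
  have h1 := one_le_La H
  refine ⟨(abs_lam H).trans (by linarith), (abs_k4 H).trans (by linarith), fun t ht => ?_⟩
  refine (abs_dP_lev H hm.val 2 ht).trans (mul_le_mul_of_nonneg_right ?_
    (Crest.Agent.T157.Casc.dm_nonneg H.mono t))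
  norm_num
  linarith⟩

end Crest.Agent.T156.Cas.C40.E42

end
private theorem rz_863043e366 : type_of% @_root_.Crest.Agent.T156.Cas.H06.hd.eq_1 := @_root_.Crest.Agent.T156.Cas.H06.hd.eq_1 -- L299
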