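import Crest.Agent.T156.Hom_68
import Crest.Agent.T156.CL3_76
import Crest.Agent.T156.R2EDef_42
import Crest.Agent.T156.R2H0_6
import Crest.Agent.T156.Kid_68
import Crest.Agent.T156.Ker_15
import Crest.Agent.T156.Mul_55
import Crest.Agent.T156.CHd_50
import Crest.Agent.T156.AltOne_23

-- ▼ part T156/R2HA_26
section

/-!
# Row 156 (helper26): derivatives in the incoming field, free low levels

`Tk` = iterated leg sums; `at_free` = the exact response at a node below which nothing is shared.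
-/

set_option autoImplicit false
set_option linter.unusedSectionVars false
set_option linter.unusedVariables false

noncomputable section

namespace Crest.Agent.T156.Cas.H26

open MeasureTheory Real Set Filter Topology
open Crest.Agent.T157.E Crest.Agent.T157.Casc Crest.Agent.T157.SL
open Nu87 Ker15 Hom68

variable {Ω : Type} [Fintype Ω] {w : Ω → ℝ} {r : ℕ}

/-! ### ladders -/

/-- all derivatives -/
def Ld (V : ℕ → ℝ → ℝ) : Prop := ∀ k y, HasDerivAt (V k) (V (k + 1) y) y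

theorem Ld.iter2 {V : ℕ → ℝ → ℝ} (h : Ld V) : iteratedDeriv 2 (V 0) 0 = V 2 0 := by
  have e : deriv (V 0) = V 1 := funext fun y => (h 0 y).deriv
  rw [iteratedDeriv_succ, iteratedDeriv_one, e, (h 1 0).deriv]

theorem Ld.sum {α : Type} (A : Finset α) (c : α → ℝ) {V : α → ℕ → ℝ → ℝ} (h : ∀ a ∈ A, Ld (V a)) :
    Ld fun k y => ∑ a ∈ A, c a * V a k y :=
  fun k y => HasDerivAt.fun_sum fun a ha => (h a ha k y).const_mul (c a)

theorem Ld.cmul (c : ℝ) {V : ℕ → ℝ → ℝ} (h : Ld V) : Ld fun k y => c * V k y :=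
  fun k y => (h k y).const_mul c

theorem Ld.succ {V : ℕ → ℝ → ℝ} (h : Ld V) : Ld fun k => V (k + 1) := fun k y => h (k + 1) y

theorem Ld.prod {a b c : ℕ → ℝ → ℝ} (ha : Ld a) (hb : Ld b) (hc : Ld c) {κ q : ℝ}
    (e : ∀ y, a 0 y = κ * (b 0 y * c 0 y) - q) :
    a 2 0 = κ * (b 2 0 * c 0 0 + 2 * (b 1 0 * c 1 0) + b 0 0 * c 2 0) := by
  have e1 : a 1 = fun y => κ * (b 1 y * c 0 y + b 0 y * c 1 y) := funext fun y => by
    have h1 := ha 0 y
    rw [funext e] at h1
    exact h1.unique ((((hb 0 y).fun_mul (hc 0 y)).const_mul κ).sub_const q)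
  have h1 := ha 1 0
  rw [e1] at h1
  rw [h1.unique ((((hb 1 0).fun_mul (hc 0 0)).fun_add ((hb 0 0).fun_mul (hc 1 0))).const_mul κ)]
  ring

/-! ### functionals on split matrices -/

/-- families of functionals -/
abbrev FM (Ω : Type) : Type := ∀ r : ℕ, SM r → ((Fin r → Ω) → ℝ) → ℝ

/-- the tree law -/
def TF (w : Ω → ℝ) (R : List (Lv Ω)) (h : Ω → ℝ) : FM Ω := fun _ σ F => TM w R h σ F

/-- one more leg -/
def dF (R : List (Lv Ω)) (f : Ω → ℝ) (Φ : FM Ω) : FM Ω := fun r σ F =>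
  ∑ a, Φ r σ (fun x => F x * f (x a)) -
    Ws R σ fun a k => Φ (r + 1) (gr R.length σ a k) fun x => F (fun c => x c.succ) * f (x 0)

/-- `k` legs -/
def Tk (w : Ω → ℝ) (R : List (Lv Ω)) (f : Ω → ℝ) (y : ℝ) : ℕ → FM Ω
  | 0 => TF w R (y • f)
  | k + 1 => dF R f (Tk w R f y k)

def q1 (S : ℕ → Ω → Ω → ℝ) (F : (Fin r → Ω) → ℝ) (τ : SM (r + 1)) (x : Fin (r + 1) → Ω) : ℝ :=
  F (fun c => x c.succ) * (∑ b : Fin r, (ed S b.succ 0 x τ + ed S 0 b.succ x τ) + ed S 0 0 x τ)

def q2 (S : ℕ → Ω → Ω → ℝ) (F : (Fin r → Ω) → ℝ) (τ : SM (r + 2)) (x : Fin (r + 2) → Ω) : ℝ :=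
  F (fun b => x b.succ.succ) * ed S 0 1 x τ

/-- the atom operator on a functional -/
def AtF (R : List (Lv Ω)) (Φ : FM Ω) (n : ℕ) (K : Ω → Ω → ℝ) (σ : SM r) (F : (Fin r → Ω) → ℝ) : ℝ :=
  AtW R n σ (fun τ => Φ _ τ (q1 (sgl n K) F τ)) fun τ => Φ _ τ (q2 (sgl n K) F τ)

/-- a letter on a functional -/
def dMF (R : List (Lv Ω)) (Φ : FM Ω) (S : ℕ → Ω → Ω → ℝ) (σ : SM r) (F : (Fin r → Ω) → ℝ) : ℝ :=
  Φ _ σ (fun x => F x * ∑ a, ∑ b, ed S a b x σ) -
    Ws R σ (fun a j => Φ _ (gr R.length σ a j) (q1 S F (gr R.length σ a j))) +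
    Ws R σ fun a j => Ws R (gr R.length σ a j) fun c k =>
      Φ _ (gr R.length (gr R.length σ a j) c k) (q2 S F (gr R.length (gr R.length σ a j) c k))



/-- derivative of a family -/
def DF (K : ℕ) (Φ : ℝ → FM Ω) (Φ' : FM Ω) (u : ℝ) : Prop :=
  ∀ (r : ℕ) (σ : SM r), Rz K σ → ∀ F, HasDerivAt (fun y => Φ y r σ F) (Φ' r σ F) u

section der
variable {R : List (Lv Ω)} {Φ : ℝ → FM Ω} {Φ' : FM Ω} {u : ℝ}

theorem DF.dF (H : DF R.length Φ Φ' u) (f : Ω → ℝ) :
    DF R.length (fun y => dF R f (Φ y)) (dF R f Φ') u := fun r σ hσ F =>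
  (HasDerivAt.fun_sum fun a _ => H r σ hσ _).fun_sub
    (hasDerivAt_Ws R σ fun a k => H _ _ (hσ.gr a k) _)

theorem der_Br (σ : SM r) (n : ℕ) {G : ℝ → Fin r → ℝ} {G' : Fin r → ℝ}
    (h : ∀ a, HasDerivAt (fun y => G y a) (G' a) u) :
    HasDerivAt (fun y => Br σ n (G y)) (Br σ n G') u :=
  HasDerivAt.fun_sum fun a _ => (h a).div_const _

theorem der_ite {p : Prop} [Decidable p] {g : ℝ → ℝ} {g' : ℝ} (h : HasDerivAt g g' u) :
    HasDerivAt (fun y => if p then 0 else g y) (if p then 0 else g') u := by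
  split_ifs
  · exact hasDerivAt_const _ _
  · exact h

theorem DF.atF (H : DF R.length Φ Φ' u) (n : ℕ) (K : Ω → Ω → ℝ) {σ : SM r} (hσ : Rz R.length σ)
    (F : (Fin r → Ω) → ℝ) : HasDerivAt (fun y => AtF R (Φ y) n K σ F) (AtF R Φ' n K σ F) u :=
  ((der_Br σ n fun a => H _ _ (hσ.gr a n) _).fun_neg.fun_add
    (hasDerivAt_Ws R σ fun a j => der_ite (der_Br _ n fun c => H _ _ ((hσ.gr a j).gr c n) _))).fun_add
    (der_Br σ n fun a => hasDerivAt_Ws R _ fun c k => H _ _ ((hσ.gr a n).gr c k) _)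

theorem DF.dMF (H : DF R.length Φ Φ' u) (S : ℕ → Ω → Ω → ℝ) {σ : SM r} (hσ : Rz R.length σ)
    (F : (Fin r → Ω) → ℝ) : HasDerivAt (fun y => dMF R (Φ y) S σ F) (dMF R Φ' S σ F) u :=
  ((H _ _ hσ _).fun_sub (hasDerivAt_Ws R σ fun a j => H _ _ (hσ.gr a j) _)).fun_add
    (hasDerivAt_Ws R σ fun a j => hasDerivAt_Ws R _ fun c k => H _ _ ((hσ.gr a j).gr c k) _)

theorem df_Tk (hw : Wt w) (R : List (Lv Ω)) (f : Ω → ℝ) (u : ℝ) : ∀ k,
    DF R.length (fun y => Tk w R f y k) (Tk w R f u (k + 1)) u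
  | 0 => fun r σ hσ F => by
    have := hasDerivAt_dL hw R 0 hσ f F u
    simp only [zero_add] at this
    exact this
  | k + 1 => (df_Tk hw R f u k).dF f

end der

theorem ld_Tk (hw : Wt w) (R : List (Lv Ω)) (f : Ω → ℝ) {σ : SM r} (hσ : Rz R.length σ)
    (F : (Fin r → Ω) → ℝ) : Ld fun k y => Tk w R f y k r σ F :=
  fun k y => df_Tk hw R f y k r σ hσ F

theorem ld_At (hw : Wt w) (R : List (Lv Ω)) (f : Ω → ℝ) (n : ℕ) (K : Ω → Ω → ℝ) {σ : SM r}
    (hσ : Rz R.length σ) (F : (Fin r → Ω) → ℝ) : Ld fun k y => AtF R (Tk w R f y k) n K σ F :=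
  fun k y => (df_Tk hw R f y k).atF n K hσ F

theorem ld_dM (hw : Wt w) (R : List (Lv Ω)) (f : Ω → ℝ) (S : ℕ → Ω → Ω → ℝ) {σ : SM r}
    (hσ : Rz R.length σ) (F : (Fin r → Ω) → ℝ) : Ld fun k y => dMF R (Tk w R f y k) S σ F :=
  fun k y => (df_Tk hw R f y k).dMF S hσ F

/-! ### bounds -/

/-- norm of a family on at most `N` replicas -/
def BF (K N : ℕ) (c : ℝ) (Φ : FM Ω) : Prop :=
  ∀ (r : ℕ) (σ : SM r), r ≤ N → Rz K σ → ∀ (F : (Fin r → Ω) → ℝ) (b : ℝ), 0 ≤ b →
    (∀ x, |F x| ≤ b) → |Φ r σ F| ≤ c * b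

section bd
variable {R : List (Lv Ω)} {Φ Φ' : FM Ω} {N : ℕ} {c : ℝ}

theorem BF.dF (hR : Mono 0 R) (hc : 0 ≤ c) (H : BF R.length (N + 1) c Φ) {f : Ω → ℝ}
    (hf : ∀ y, |f y| ≤ 1) : BF R.length N (2 * N * c) (dF R f Φ) := fun r σ hr hσ F b hb hF => by
  have e : ∀ x y, |F x * f y| ≤ b := fun x y => by
    rw [abs_mul]
    exact (mul_le_mul (hF x) (hf y) (abs_nonneg _) hb).trans_eq (mul_one b)
  have a1 : |∑ a, Φ r σ fun x => F x * f (x a)| ≤ r * (c * b) :=
    (Finset.abs_sum_le_sum_abs _ _).trans ((Finset.sum_le_card_nsmul _ _ _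
      fun a _ => H _ σ (by omega) hσ _ _ hb fun x => e x _).trans_eq (by simp))
  have a2 := abs_Ws hR hσ (hσ.ncm fun τ => Φ (r + 1) τ fun x => F (fun c => x c.succ) * f (x 0))
    fun a j => H _ _ (by omega) (hσ.gr a j) _ _ hb fun x => e _ _
  have : (r : ℝ) ≤ N := by exact_mod_cast hr
  have h3 : (r : ℝ) * (c * b) ≤ N * (c * b) := by gcongr
  refine (abs_sub _ _).trans ?_
  linarith

theorem dF_sub (R : List (Lv Ω)) (f : Ω → ℝ) (Φ Φ' : FM Ω) :
    dF R f (fun r σ F => Φ r σ F - Φ' r σ F) = fun r σ F => dF R f Φ r σ F - dF R f Φ' r σ F := by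
  funext r σ F
  simp only [dF, Ws_sub, Finset.sum_sub_distrib]
  ring

theorem Ws_st {R R' : List (Lv Ω)} (H : ST R R') {κ : Type} [Fintype κ] (σ : κ → κ → ℕ)
    (G : κ → ℕ → ℝ) : Ws R' σ G = Ws R σ G := by
  simp only [Ws, H.len, Cav22.ex_tilt H]

theorem dF_st {R R' : List (Lv Ω)} (H : ST R R') (f : Ω → ℝ) : dF R' f = dF R f := by
  funext Φ r σ F
  simp only [dF, Ws_st H, H.len]

theorem AtF_st {R R' : List (Lv Ω)} (H : ST R R') (Φ : FM Ω) (n : ℕ) (K : Ω → Ω → ℝ) (σ : SM r)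
    (F : (Fin r → Ω) → ℝ) : AtF R' Φ n K σ F = AtF R Φ n K σ F := by
  simp only [AtF, AtW, Ws_st H, H.len]

/-- the constant of `k` legs on at most `N` replicas -/
def cT (N : ℕ) : ℕ → ℝ
  | 0 => 1
  | k + 1 => 2 * N * cT (N + 1) k

theorem cT_nn : ∀ (k N : ℕ), 0 ≤ cT N k
  | 0, _ => zero_le_one
  | k + 1, N => mul_nonneg (by positivity) (cT_nn k _)

theorem bf_Tk (hw : Wt w) (hR : Mono 0 R) {f : Ω → ℝ} (hf : ∀ y, |f y| ≤ 1) (y : ℝ) :
    ∀ k N, BF R.length N (cT N k) (Tk w R f y k)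
  | 0, _ => fun r σ _ hσ F b _ hF => (abs_TM hw _ hσ hF).trans_eq (one_mul b).symm
  | k + 1, N => (bf_Tk hw hR hf y k (N + 1)).dF hR (cT_nn _ _) hf

theorem bf_sub {R' : List (Lv Ω)} (hR : Mono 0 R) (H : ST R R') {f : Ω → ℝ} (hf : ∀ y, |f y| ≤ 1)
    (y : ℝ) {δ : ℝ} (hδ : 0 ≤ δ) {M : ℕ} (hC : Hom68.Cl w M R (y • f) R' (y • f) δ) :
    ∀ k N, N + k ≤ M → BF R.length N (cT N k * δ)
      fun r σ F => Tk w R' f y k r σ F - Tk w R f y k r σ F
  | 0, N, e => fun r σ hr hσ F b _ hF =>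
    (hC.2 r σ (by omega) hσ F b hF).trans_eq (by rw [cT, one_mul])
  | k + 1, N, e => by
    have := (bf_sub hR H hf y hδ hC k (N + 1) (by omega)).dF hR (mul_nonneg (cT_nn _ _) hδ) hf
    rw [dF_sub] at this
    simp only [Tk, dF_st H, cT]
    rwa [← mul_assoc] at this

theorem BF.atF (hR : Mono 0 R) (H : BF R.length (r + 2) c Φ) (n : ℕ) {σ : SM r}
    (hσ : Rz R.length σ) {K : Ω → Ω → ℝ} {g b : ℝ} (hg : 0 ≤ g) (hb : 0 ≤ b)
    (hK : ∀ x y, |K x y| ≤ g) {F : (Fin r → Ω) → ℝ} (hF : ∀ x, |F x| ≤ b) :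
    |AtF R Φ n K σ F| ≤ cA r * (c * (b * g)) :=
  (abs_AtW hR n hσ (fun τ hτ => H _ τ (by omega) hτ _ _ (by positivity) (abs_q1 hK hF τ))
    fun τ hτ => H _ τ le_rfl hτ _ _ (by positivity) (abs_q2 hK hF τ)).trans_eq
      (by unfold cA; push_cast; ring)

theorem AtF_sub (R : List (Lv Ω)) (Φ Φ' : FM Ω) (n : ℕ) (K : Ω → Ω → ℝ) (σ : SM r)
    (F : (Fin r → Ω) → ℝ) : AtF R (fun r σ F => Φ r σ F - Φ' r σ F) n K σ F =
      AtF R Φ n K σ F - AtF R Φ' n K σ F := AtW_sub R n σ _ _ _ _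

theorem BF.dMF (hR : Mono 0 R) (H : BF R.length (r + 2) c Φ) (n : ℕ) {σ : SM r}
    (hσ : Rz R.length σ) {K : Ω → Ω → ℝ} {g b : ℝ} (hg : 0 ≤ g) (hb : 0 ≤ b)
    (hK : ∀ x y, |K x y| ≤ g) {F : (Fin r → Ω) → ℝ} (hF : ∀ x, |F x| ≤ b) :
    |dMF R Φ (sgl n K) σ F| ≤ r * (4 * r + 2) * (c * (b * g)) := by
  have a0 := H _ σ (by omega) hσ (fun x => F x * ∑ a, ∑ b, ed (sgl n K) a b x σ)
    (b * (r * (r * g))) (by positivity) fun x => by
      rw [abs_mul]
      refine mul_le_mul (hF x) ?_ (abs_nonneg _) hb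
      refine (Finset.abs_sum_le_sum_abs _ _).trans ((Finset.sum_le_card_nsmul _ _ (r * g)
        fun a _ => ?_).trans_eq (by simp))
      exact (Finset.abs_sum_le_sum_abs _ _).trans ((Finset.sum_le_card_nsmul _ _ g
        fun b _ => abs_ed hK a b x σ).trans_eq (by simp))
  have a1 := abs_Ws hR hσ (hσ.ncm fun τ => Φ _ τ (q1 (sgl n K) F τ))
    fun a j => H _ _ (by omega) (hσ.gr a j) _ _ (by positivity) (abs_q1 hK hF _)
  have a2 := abs_Ws hR hσ (hσ.ncm fun τ' => Ws R τ' fun c k =>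
      Φ _ (gr R.length τ' c k) (q2 (sgl n K) F (gr R.length τ' c k)))
    fun a j => abs_Ws hR (hσ.gr a j) ((hσ.gr a j).ncm fun τ => Φ _ τ (q2 (sgl n K) F τ))
      fun c k => H _ _ le_rfl ((hσ.gr a j).gr c k) _ _ (by positivity) (abs_q2 hK hF _)
  push_cast at a2
  refine (abs_add_le _ _).trans ((add_le_add ((abs_sub _ _).trans (add_le_add a0 a1)) a2).trans_eq ?_)
  ring

end bd

end Crest.Agent.T156.Cas.H26

end
private theorem rz_2af0227148 : type_of% @_root_.Crest.Agent.T156.Cas.H26.Tk.eq_def := @_root_.Crest.Agent.T156.Cas.H26.Tk.eq_def -- L67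
private theorem rz_76782e1171 : type_of% @_root_.Crest.Agent.T156.Cas.H26.Tk.eq_1 := @_root_.Crest.Agent.T156.Cas.H26.Tk.eq_1 -- L67
private theorem rz_42ab1a3ddb : type_of% @_root_.Crest.Agent.T156.Cas.H26.cT.eq_def := @_root_.Crest.Agent.T156.Cas.H26.cT.eq_def -- L194
private theorem rz_f0a18843e2 : type_of% @_root_.Crest.Agent.T156.Cas.H26.cT.eq_1 := @_root_.Crest.Agent.T156.Cas.H26.cT.eq_1 -- L194
end

-- ▼ part T156/R2HB_26
section

/-!
# Row 156 (helper26): the exact response at a node below which all levels are free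
-/

set_option autoImplicit false
set_option linter.unusedSectionVars false
set_option linter.unusedVariables false

noncomputable section

namespace Crest.Agent.T156.Cas.H26

open MeasureTheory Real Set Filter Topology
open Crest.Agent.T157.E Crest.Agent.T157.Casc Crest.Agent.T157.SL
open Nu87 Ker15 Hom68

variable {Ω : Type} [Fintype Ω] {w : Ω → ℝ} {r : ℕ}

/-- a replica split off at the root is independent -/
theorem ind0 (hw : Wt w) (L : List (Lv Ω)) (h : Ω → ℝ) {ρ : SM (r + 2)} (hρ : Rz L.length ρ)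
    (h0 : ∀ b : Fin (r + 1), ρ 0 b.succ = 0) (G : Ω → (Fin (r + 1) → Ω) → ℝ) :
    TM w L h ρ (fun x => G (x 0) fun c => x c.succ) =
      TM w L h (fun a b => ρ a.succ b.succ) fun x => Pf w L h fun z => G z x := by
  obtain ⟨s, e, he⟩ := hρ.re (Fin.succ : Fin (r + 1) → Fin (r + 2))
  let e2 : Fin (r + 2) → (Sh.split .one s).Lf := Fin.cons (.inl ()) fun c => .inr (e c)
  have hi : Function.Injective e2 := by
    intro a b
    refine Fin.cases ?_ (fun a => ?_) a <;> refine Fin.cases ?_ (fun b => ?_) b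
    · exact fun _ => rfl
    · exact fun h => absurd h Sum.inl_ne_inr
    · exact fun h => absurd h Sum.inr_ne_inl
    · exact fun h => congrArg _ (e.injective (Sum.inr_injective h))
  have e1 : ρ = sm (Sh.split .one s) e2 L.length := by
    funext a b
    refine Fin.cases ?_ (fun a => ?_) a <;> refine Fin.cases ?_ (fun b => ?_) b
    · exact hρ.self 0
    · exact h0 b
    · exact (hρ.comm _ _).trans (h0 a)
    · exact congrFun₂ he a b
  rw [he]
  conv_lhs => rw [e1]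
  rw [TM_sm hw _ L h hi, Law.TE_split hw, Law.TE_one hw]
  simp only [Pf, TM_sum, TM_mul]
  refine Finset.sum_congr rfl fun z _ => ?_
  rw [TM_sm hw s L h e.injective]
  rfl

/-- the first `n` levels lose their variance -/
def zp : List (Lv Ω) → ℕ → List (Lv Ω)
  | L, 0 => L
  | [], _ + 1 => []
  | l :: L, n + 1 => z0 Ω l.m :: zp L n

theorem st_zp : ∀ (L : List (Lv Ω)) (n : ℕ), ST L (zp L n)
  | _, 0 => by cases ‹List (Lv Ω)› <;> rfl
  | [], _ + 1 => rfl
  | l :: L, n + 1 => congrArg (l.m :: ·) (st_zp L n)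

theorem zp_zero (L : List (Lv Ω)) : zp L 0 = L := by cases L <;> rfl

theorem cacc_zp (x y : Ω) : ∀ (L : List (Lv Ω)) (n j : ℕ),
    cacc (zp L n) j x y = cacc L j x y - cacc L (min j n) x y
  | L, 0, j => by rw [zp_zero]; simp [cacc]
  | [], _ + 1, _ => by simp [cacc, zp]
  | _ :: _, _ + 1, 0 => by simp [cacc]
  | l :: L, n + 1, j + 1 => by
    rw [zp, Nat.succ_min_succ, Sd.cacc_cons, Sd.cacc_cons, Sd.cacc_cons, cacc_zp x y L n j, z0_cov]
    ring

theorem mem_zp : ∀ {L : List (Lv Ω)} {n : ℕ} {l : Lv Ω}, l ∈ zp L n → l ∈ L ∨ ∃ m, l = z0 Ω m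
  | L, 0, _, h => Or.inl (zp_zero L ▸ h)
  | [], _ + 1, _, h => Or.inl h
  | l :: L, n + 1, _, h => by
    rcases List.mem_cons.1 h with rfl | h
    · exact Or.inr ⟨_, rfl⟩
    · exact (mem_zp h).imp_left (List.mem_cons_of_mem _)

theorem TM_zp (hw : Wt w) (h : Ω → ℝ) (F : (Fin r → Ω) → ℝ) : ∀ (L : List (Lv Ω)) (n : ℕ)
    (τ : SM r), n ≤ L.length → Rz L.length τ →
    TM w (zp L n) h τ F = TM w (L.drop n) h (fun a b => τ a b - n) F
  | L, 0, τ, _, _ => by rw [zp_zero]; rfl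
  | [], _ + 1, _, hn, _ => absurd hn (by simp)
  | l :: L, n + 1, τ, hn, hτ => by
    have hl : (zp L n).length = L.length := (st_zp L n).len.symm
    have e := TM_del hw [] (zp L n) l.m (τ := τ) (by simpa [hl] using hτ) h F
    have e1 : (fun a b => dn ([] : List (Lv Ω)).length (τ a b)) = fun a b => τ a b - 1 := by
      funext a b; unfold dn; simp only [List.length_nil]; split_ifs <;> omega
    rw [e1] at e
    have r1 : Rz L.length fun a b => τ a b - 1 :=
      rz_map hτ (f := fun i => i - 1) (fun _ _ h => Nat.sub_le_sub_right h 1) rfl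
    refine e.trans ((TM_zp hw h F L n _ (Nat.le_of_succ_le_succ hn) r1).trans ?_)
    simp only [List.drop_succ_cons, Nat.sub_sub, add_comm 1 n]

/-- replicas split off below depth `n` are independent, with the one-leaf average `P` -/
def Fr (w : Ω → ℝ) (R : List (Lv Ω)) (h : Ω → ℝ) (n : ℕ) (P : (Ω → ℝ) → ℝ) : Prop :=
  ∀ (r : ℕ) (ρ : SM (r + 2)), Rz R.length ρ → (∀ b : Fin (r + 1), ρ 0 b.succ ≤ n) →
    ∀ G : Ω → (Fin (r + 1) → Ω) → ℝ, TM w R h ρ (fun x => G (x 0) fun c => x c.succ) =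
      TM w R h (fun a b => ρ a.succ b.succ) fun x => P fun z => G z x

theorem fr_zp (hw : Wt w) (L : List (Lv Ω)) (h : Ω → ℝ) {n : ℕ} (hn : n ≤ L.length) :
    Fr w (zp L n) h n (Pf w (L.drop n) h) := fun r ρ hρ h0 G => by
  rw [← (st_zp L n).len] at hρ
  rw [TM_zp hw h _ L n ρ hn hρ, TM_zp hw h _ L n _ hn (hρ.re Fin.succ)]
  exact ind0 hw (L.drop n) h (ρ := fun a b => ρ a b - n)
    (rz_map hρ (f := fun i => i - n) (fun _ _ h => Nat.sub_le_sub_right h n)
      (List.length_drop ..).symm) (fun b => Nat.sub_eq_zero_of_le (h0 b)) G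

theorem Pf_zp (hw : Wt w) (L : List (Lv Ω)) (h : Ω → ℝ) {n : ℕ} (hn : n ≤ L.length) (f : Ω → ℝ) :
    Pf w (zp L n) h f = Pf w (L.drop n) h f := by
  have h1 := rz_one L.length
  have h2 : Rz (L.drop n).length fun a b : Fin 1 => L.length - n := by
    rw [List.length_drop]; exact rz_one _
  have h3 : Rz (zp L n).length fun a b : Fin 1 => L.length := by
    rw [← (st_zp L n).len]; exact h1
  rw [← TM_single hw h3 0 f, TM_zp hw h _ L n _ hn h1, TM_single hw h2]

/-! ### weights -/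

theorem cls_all {σ : SM r} {j : ℕ} (h : ∀ a b, j ≤ σ a b) (a : Fin r) : cls σ a j = r := by
  rw [cls, Finset.filter_true_of_mem fun b _ => h a b, Finset.card_univ, Fintype.card_fin]

theorem Br_const {σ : SM (r + 1)} {n : ℕ} (h : ∀ a b, n < σ a b) {G : Fin (r + 1) → ℝ} {u : ℝ}
    (hG : ∀ a, G a = u) : Br σ n G = u := by
  simp only [Br, hG, cls_all (j := n + 1) h, Finset.sum_const, Finset.card_univ, Fintype.card_fin,
    nsmul_eq_mul]
  field_simp

theorem Br_cls {K n : ℕ} {τ : SM (r + 1)} (hτ : Rz K τ) (hn : n < K) {G : Fin (r + 1) → ℝ} {u : ℝ}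
    (hG : ∀ c, G c = if n < τ 0 c then u else 0) : Br τ n G = u := by
  have hc : ∀ c, n < τ 0 c → cls τ c (n + 1) = cls τ 0 (n + 1) := fun c hc =>
    congrArg Finset.card (Finset.filter_congr fun b _ => by
      have h1 := hτ.ultra 0 c b
      have h2 := hτ.ultra c 0 b
      rw [hτ.comm c 0] at h2
      omega)
  have h0 : (cls τ 0 (n + 1) : ℝ) ≠ 0 := by
    have : 0 < cls τ 0 (n + 1) := Finset.card_pos.2 ⟨0, by simp [hτ.self]; omega⟩
    exact_mod_cast this.ne'
  have : ∀ c, G c / cls τ c (n + 1) = if n + 1 ≤ τ 0 c then u / cls τ 0 (n + 1) else 0 := fun c => by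
    rw [hG]
    by_cases h : n < τ 0 c
    · rw [if_pos h, if_pos (Nat.succ_le_of_lt h), hc c h]
    · rw [if_neg h, if_neg (by omega), zero_div]
  simp only [Br, this]
  rw [← Finset.sum_filter, Finset.sum_const, nsmul_eq_mul]
  exact mul_div_cancel₀ _ h0

theorem Ws_lt (R : List (Lv Ω)) {σ : SM (r + 1)} {n : ℕ} (hn : n + 1 < R.length)
    (h : ∀ a b, n + 1 < σ a b) (u : ℝ) :
    Ws R σ (fun _ k => if k < n + 1 then u else 0) = ex R n * u := by
  rw [Ws, Finset.sum_eq_single n (fun j _ hj => by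
      rcases lt_or_gt_of_ne hj with h' | h'
      · simp [show j < n + 1 by omega, h']
      · simp [show ¬j < n + 1 by omega, show ¬j < n by omega])
    fun h' => absurd (Finset.mem_range.2 (by omega)) h']
  have := Br_const (n := n) (σ := σ) (fun a b => by have := h a b; omega) (G := fun _ => u)
    fun _ => rfl
  simp only [show ¬R.length < n + 1 by omega, if_false, Finset.sum_const_zero, zero_add,
    Nat.lt_succ_self, if_true, lt_irrefl, sub_zero]
  exact congrArg _ this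

/-- **the exact response** -/
theorem at_free (hw : Wt w) {R : List (Lv Ω)} {h : Ω → ℝ} {n : ℕ} {P : (Ω → ℝ) → ℝ}
    (H : Fr w R h n P) (hP : ∀ c f, P (fun z => c * f z) = c * P f) (h0 : 0 < n)
    (hn : n < R.length) {σ : SM (r + 1)} (hσ : Rz R.length σ) (hs : ∀ a b, n < σ a b)
    {K : Ω → Ω → ℝ} (hK : ∀ x y, K x y = K y x) (F : (Fin (r + 1) → Ω) → ℝ) :
    At w R h n K σ F = -2 * dL w R h σ (fun y => P fun z => K z y) F := by
  set k : Ω → ℝ := fun y => P fun z => K z y with hk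
  set u : Fin (r + 1) → ℕ → ℝ := fun a j =>
    TM w R h (gr R.length σ a j) fun x => F (fun c => x c.succ) * k (x 0) with hu
  have es : ∀ {m : ℕ} {τ : SM m} {a b : Fin m}, τ a b = n → ∀ x,
      ed (sgl n K) a b x τ = K (x a) (x b) := fun e x => by simp [ed, sgl, e]
  -- one new leaf
  have t1 : ∀ a, Q1 w R h (sgl n K) F (gr R.length σ a n) =
      2 * ∑ b, TM w R h σ fun x => F x * k (x b) := fun a => by
    have e1 : ∀ b : Fin (r + 1), gr R.length σ a n 0 b.succ = n := fun b =>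
      min_eq_left (hs b a).le
    have e2 : ∀ b : Fin (r + 1), gr R.length σ a n b.succ 0 = n := fun b =>
      min_eq_left (hs b a).le
    have e3 : gr R.length σ a n 0 0 ≠ n := hn.ne'
    simp only [Q1, es (e1 _), es (e2 _), ed_sgl K e3, add_zero, hK _ (_ : Ω), Finset.mul_sum, TM_sum]
    refine Finset.sum_congr rfl fun b _ => ?_
    have := H r _ (hσ.gr a n) (fun b => (e1 b).le) fun z x => 2 * (F x * K z (x b))
    simp only [hP] at this
    rw [← TM_mul]
    refine Eq.trans ?_ this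
    congr 1
    funext x
    rw [hK (x b.succ)]
    ring
  -- the newest leaf is free
  have t2 : ∀ a j (c : Fin (r + 2)), n ≤ gr R.length σ a j 0 c →
      Q2 w R h (sgl n K) F (gr R.length (gr R.length σ a j) c n) = u a j := fun a j c hc => by
    have e1 : gr R.length (gr R.length σ a j) c n 0 1 = n := min_eq_left hc
    have := H (r + 1) _ ((hσ.gr a j).gr c n) (fun b => min_le_left _ _)
      fun z x => F (fun c => x c.succ) * K z (x 0)
    simp only [hP] at this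
    simp only [Q2, es e1]
    exact this
  have t0 : ∀ a j, j ≤ n → u a j = u 0 n := fun a j hj => by
    have h1 := H r _ (hσ.gr a j) (fun b => (min_le_left _ _).trans hj) fun z x => F x * k z
    have h2 := H r _ (hσ.gr 0 n) (fun b => min_le_left _ _) fun z x => F x * k z
    exact h1.trans h2.symm
  have t3 : ∀ a j, j ≠ n → (Br (gr R.length σ a j) n fun c =>
      Q2 w R h (sgl n K) F (gr R.length (gr R.length σ a j) c n)) = u a j := fun a j hj =>
    Br_cls (hσ.gr a j) hn fun c => by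
      have hne := gr_ne hn.ne' (fun a b => (hs a b).ne') a hj 0 c
      split_ifs with hc
      · exact t2 a j c hc.le
      · have e1 : gr R.length (gr R.length σ a j) c n 0 1 ≠ n := by
          show min n (gr R.length σ a j 0 c) ≠ n
          omega
        simp only [Q2, ed_sgl K e1, mul_zero, TM_zero]
  -- the older new leaf is free
  have t4 : ∀ a (b : Fin (r + 1)) j, Q2 w R h (sgl n K) F
      (gr R.length (gr R.length σ a n) b.succ j) = u b j - if j < n then u 0 n else 0 := fun a b j => by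
    have e0 : gr R.length (gr R.length σ a n) b.succ j 0 1 = min j n := by
      show min j (min n (σ b a)) = _
      rw [min_eq_left (hs b a).le]
    split_ifs with hj
    · rw [t0 b j hj.le, sub_self]
      have e1 : gr R.length (gr R.length σ a n) b.succ j 0 1 ≠ n := by rw [e0]; omega
      simp only [Q2, ed_sgl K e1, mul_zero, TM_zero]
    · have hτ := (hσ.gr a n).gr b.succ j
      have e1 := TM_inj (h := h) hw hτ (Equiv.swap (0 : Fin (r + 3)) 1).injective
        fun y => F (fun c => y c.succ.succ) * K (y 0) (y (Fin.succ 0))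
      have e2 := H (r + 1) _ (hτ.perm (Equiv.swap 0 1)) (fun c => by
        refine Fin.cases ?_ (fun c => ?_) c
        · rw [swap_0, swap_1]
          exact (min_le_right _ _).trans (min_le_left _ _)
        · rw [swap_0, swap_2]
          exact min_le_left _ _) fun z x => F (fun c => x c.succ) * K z (x 0)
      have e3 : (fun c d : Fin (r + 2) => gr R.length (gr R.length σ a n) b.succ j
          (Equiv.swap 0 1 c.succ) (Equiv.swap 0 1 d.succ)) = gr R.length σ b j := by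
        funext c d
        refine Fin.cases ?_ (fun c => ?_) c <;> refine Fin.cases ?_ (fun d => ?_) d <;>
          simp only [swap_1, swap_2] <;> rfl
      simp only [hP, e3] at e2
      simp only [swap_0, swap_1, swap_2] at e1
      rw [sub_zero]
      simp only [Q2, es (e0.trans (min_eq_right (not_lt.1 hj)))]
      refine Eq.trans ?_ (e1.trans e2)
      congr 1
      funext x
      rw [hK]
      rfl
  obtain ⟨n, rfl⟩ := Nat.exists_eq_succ_of_ne_zero h0.ne'
  have t5 : ∀ a, (Ws R (gr R.length σ a (n + 1)) fun c j => Q2 w R h (sgl (n + 1) K) F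
      (gr R.length (gr R.length σ a (n + 1)) c j)) = Ws R σ u + dm R 0 (n + 1) * u 0 (n + 1) :=
    fun a => by
      rw [Ws_gr R hσ a hn.le ((hσ.gr a _).ncm _), Finset.sum_eq_single 0 (fun i hi h0 => by
        have e1 : gr R.length (gr R.length σ a (n + 1)) 0 (i + (n + 1)) 0 1 ≠ n + 1 := by
          show min (i + (n + 1)) R.length ≠ n + 1
          omega
        simp only [Q2, ed_sgl K e1, mul_zero, TM_zero]) (by simp), zero_add,
        t2 a _ 0 hn.le, t0 a _ le_rfl]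
      simp only [t4, Ws_sub, Ws_lt R hn hs, dm, exP, ex_drop22, zero_add]
      ring
  have t6 : (Ws R σ fun a j => if j = n + 1 then 0 else Br (gr R.length σ a j) (n + 1) fun c =>
      Q2 w R h (sgl (n + 1) K) F (gr R.length (gr R.length σ a j) c (n + 1))) =
      Ws R σ u - dm R 0 (n + 1) * u 0 (n + 1) := by
    rw [← Br_const hs (G := fun a => if n + 1 = n + 1 then u 0 (n + 1) else 0) fun _ => if_pos rfl,
      ← Ws_single R h0 hn (fun a b => (hs a b).ne')
        (G := fun a j => if j = n + 1 then u 0 (n + 1) else 0) fun _ _ _ hj => if_neg hj, ← Ws_sub]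
    refine Ws_congr R σ fun a j _ => ?_
    split_ifs with hj
    · rw [hj, t0 a _ le_rfl, sub_self]
    · rw [t3 a j hj, sub_zero]
  rw [At, AtW, Br_const hs t1, t6, Br_const hs t5, dL]
  ring

end Crest.Agent.T156.Cas.H26

end
private theorem rz_f099bbcdbe : type_of% @_root_.Crest.Agent.T156.Cas.H26.zp.eq_def := @_root_.Crest.Agent.T156.Cas.H26.zp.eq_def -- L51
private theorem rz_a66c16b422 : type_of% @_root_.Crest.Agent.T156.Cas.H26.zp.eq_1 := @_root_.Crest.Agent.T156.Cas.H26.zp.eq_1 -- L51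
end

-- ▼ part T156/R2HC_26
section

/-!
# Row 156 (helper26): second derivatives in the field near the bottom of a site cascade
-/

set_option autoImplicit false
set_option linter.unusedSectionVars false
set_option linter.unusedVariables false

noncomputable section

namespace Crest.Agent.T156.Cas.H26

open MeasureTheory Real Set Filter Topology
open Crest.Agent.T157.E Crest.Agent.T157.Casc Crest.Agent.T157.SL
open Crest.ProbabilityR.SpinGlassDynamics (spin)
open Nu87 Ker15 Hom68 One15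

section gen
variable {Ω : Type} [Fintype Ω] {w : Ω → ℝ} {r : ℕ}

theorem dL_aff (hw : Wt w) {R : List (Lv Ω)} (h : Ω → ℝ) {σ : SM r} (hσ : Rz R.length σ)
    (f : Ω → ℝ) (m q : ℝ) (F : (Fin r → Ω) → ℝ) :
    dL w R h σ (fun b => m * f b - q) F = m * dL w R h σ f F := by
  have e : ∀ a b : ℝ, a * (m * b - q) = m * (a * b) - q * a := fun a b => by ring
  have e2 : ∀ a k, TM w R h (gr R.length σ a k) (fun x => F fun c => x c.succ) = TM w R h σ F :=
    fun a k => TM_inj hw (hσ.gr a k) (Fin.succ_injective r) F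
  simp only [dL, e, TM_sub, TM_mul, e2, Ws_sub, Ws_mul, Ws_const, Finset.sum_sub_distrib,
    ← Finset.mul_sum, Finset.sum_const, Finset.card_univ, nsmul_eq_mul]
  ring

theorem Pf_aff (hw : Wt w) (L : List (Lv Ω)) (h f : Ω → ℝ) (c q : ℝ) :
    Pf w L h (fun z => f z * c - q) = Pf w L h f * c - q := by
  simp only [Pf, mul_sub, Finset.sum_sub_distrib, ← Finset.sum_mul, sum_P hw, one_mul, ← mul_assoc]

theorem Pf_cmul (L : List (Lv Ω)) (h : Ω → ℝ) (c : ℝ) (f : Ω → ℝ) :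
    Pf w L h (fun z => c * f z) = c * Pf w L h f := by
  simp only [Pf, Finset.mul_sum, mul_left_comm c]

/-- a kernel on the marked pair -/
def Fp (K : Ω → Ω → ℝ) (x : Fin 2 → Ω) : ℝ := K (x 0) (x 1)

theorem two_TM (hw : Wt w) (L : List (Lv Ω)) (h : Ω → ℝ) {i : ℕ} (hi : i ≤ L.length)
    (K : Ω → Ω → ℝ) : twoF i K (TEf w L h) = TM w L h (tw L.length i) (Fp K) := by
  have := TM_pair (h := h) hw (rz_tw L.length i) (a := 0) (b := 1) (by decide) K
  rw [tw_01 hi] at this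
  rw [twoF_TEf hw, ← this]
  rfl

theorem two_dM (hw : Wt w) (L : List (Lv Ω)) (h : Ω → ℝ) {i n : ℕ} (hi : i ≤ L.length)
    (h0 : 0 < n) (hn : n < L.length) (K K' : Ω → Ω → ℝ) :
    twoF i K (WdO L [sgl n K'] (TEf w L h)) = dM w L h (sgl n K') (tw L.length i) (Fp K) := by
  have hc : ∀ y, sgl n K' L.length y y = 0 := fun y => by simp [sgl, hn.ne']
  have := twoF_eq_nW (h := h) hw (U := [sgl n K']) (fun S hS => by
    rw [List.mem_singleton.1 hS]
    exact ⟨by simp [sgl, h0.ne], 0, hc⟩) hi fun _ => K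
  rw [this]
  exact (dM_eq hw (rz_tw L.length i) hc (ed (fun _ => K) 0 1)).symm

end gen

variable {r : ℕ} {L : List (Lv Bool)}

theorem TM_odd (hL : Fl L) {σ : SM r} (hσ : Rz L.length σ) {G : (Fin r → Bool) → ℝ}
    (hG : ∀ x, G (fun a => !x a) = -G x) : TM (fun _ => 1) L ((0 : ℝ) • spin) σ G = 0 := by
  obtain ⟨s, e, rfl⟩ := hσ
  have h1 := TE_flip hL s (fun x => G fun a => x (e a)) 0
  have h2 := Law.TE_const_mul w1 s L ((0 : ℝ) • spin) (-1) fun x => G fun a => x (e a)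
  simp only [neg_zero, fun y : s.Lf → Bool => hG fun a => y (e a)] at h1
  simp only [neg_one_mul] at h2
  rw [TM_sm w1 s L _ e.injective]
  linarith

theorem r1_zp (H : R1 L) (n : ℕ) : R1 (zp L n) := fun l hl => by
  rcases mem_zp hl with h | ⟨m, rfl⟩
  · exact H l h
  · exact ⟨0, le_rfl, fun a b => by rw [z0_cov, zero_mul]⟩

theorem cl_zp (H : R1 L) (hM : Mono 0 L) {n : ℕ} (hn : n ≤ L.length) {e : ℝ}
    (he : min 1 (tm L n) ≤ e) (h : Bool → ℝ) : Hom68.Cl (fun _ => 1) 6 L h (zp L n) h (72 * e) := by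
  have t0 : ∀ j, 0 ≤ tm L j := fun j => by
    have := H.tm_mono (Nat.zero_le j)
    rwa [show tm L 0 = 0 by simp [tm, cacc]] at this
  have et : ∀ j, tm (zp L n) j - tm L j = -tm L (min j n) := fun j => by
    rw [tm, cacc_zp, tm, tm]; ring
  rcases min_le_iff.1 he with h1 | h1
  · refine ⟨(st_zp L n).len.symm, fun r τ _ hτ G b hG => ?_⟩
    have a1 := abs_TM w1 h hτ hG
    have a2 := abs_TM w1 h ((st_zp L n).len ▸ hτ : Rz (zp L n).length τ) hG
    have b0 := (abs_nonneg _).trans a1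
    refine (abs_sub _ _).trans ?_
    nlinarith
  · refine (cl_cov w1 hM (st_zp L n) (fun y => H.diag (r1_zp H n) _ y) (g := e) (fun j _ x y => ?_)
      6 h).mono w1 (by norm_num)
    rw [H.abs_dC (r1_zp H n), et, abs_neg, abs_of_nonneg (t0 _)]
    exact (H.tm_mono (min_le_right _ _)).trans h1

/-- derivatives of the magnetisation -/
def mg (L : List (Lv Bool)) (k : ℕ) (y : ℝ) : ℝ :=
  Tk (fun _ => 1) L spin y k 1 (fun _ _ => L.length) fun x => spin (x 0)

/-- derivatives of a pair expectation -/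
def pg (L : List (Lv Bool)) (i : ℕ) (K : Bool → Bool → ℝ) (k : ℕ) (y : ℝ) : ℝ :=
  Tk (fun _ => 1) L spin y k 2 (tw L.length i) (Fp K)

/-- derivatives of the response at the node `n` -/
def ag (L : List (Lv Bool)) (n : ℕ) (K' : Bool → Bool → ℝ) (i : ℕ) (K : Bool → Bool → ℝ) (k : ℕ)
    (y : ℝ) : ℝ := AtF L (Tk (fun _ => 1) L spin y k) n K' (tw L.length i) (Fp K)

/-- derivatives of a word with one letter -/
def wg (L : List (Lv Bool)) (n : ℕ) (K' : Bool → Bool → ℝ) (i : ℕ) (K : Bool → Bool → ℝ) (k : ℕ)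
    (y : ℝ) : ℝ := dMF L (Tk (fun _ => 1) L spin y k) (sgl n K') (tw L.length i) (Fp K)

theorem ld_mg (L : List (Lv Bool)) : Ld (mg L) := ld_Tk w1 L spin (rz_one _) _
theorem ld_pg (L : List (Lv Bool)) (i : ℕ) (K : Bool → Bool → ℝ) : Ld (pg L i K) :=
  ld_Tk w1 L spin (rz_tw _ i) _
theorem ld_ag (L : List (Lv Bool)) (n : ℕ) (K' : Bool → Bool → ℝ) (i : ℕ) (K : Bool → Bool → ℝ) :
    Ld (ag L n K' i K) := ld_At w1 L spin n K' (rz_tw _ i) _
theorem ld_wg (L : List (Lv Bool)) (n : ℕ) (K' : Bool → Bool → ℝ) (i : ℕ) (K : Bool → Bool → ℝ) :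
    Ld (wg L n K' i K) := ld_dM w1 L spin _ (rz_tw _ i) _

theorem mg_zero (L : List (Lv Bool)) (y : ℝ) : mg L 0 y = Pf (fun _ => 1) L (y • spin) spin :=
  TM_single w1 (rz_one _) 0 spin

theorem iter_X (L : List (Lv Bool)) :
    iteratedDeriv 2 (fun y : ℝ => X (fun _ => 1) L fun b => y * spin b) 0 = mg L 1 0 := by
  have e : deriv (fun y : ℝ => X (fun _ => 1) L fun b => y * spin b) = mg L 0 := by
    funext y
    have h1 := (gr_X w1 L).line 0 spin y
    simp only [zero_add] at h1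
    exact h1.deriv.trans (mg_zero L y).symm
  rw [iteratedDeriv_succ, iteratedDeriv_one, e, (ld_mg L 0 0).deriv]

theorem tw_ne {K i n : ℕ} (hi : i ≤ K) (hn : n < K) (h : i ≠ n) : ∀ a b, tw K i a b ≠ n :=
  gr_ne hn.ne' (fun _ _ => hn.ne') 0 h

theorem tw_gt {K i n : ℕ} (hn : n < K) (h : n < i) : ∀ a b, n < tw K i a b := fun a b => by
  refine Fin.cases ?_ (fun a => ?_) a <;> refine Fin.cases ?_ (fun b => ?_) b
  exacts [hn, lt_min h hn, lt_min h hn, hn]

theorem wg_eq {n i : ℕ} (h0 : 0 < n) (hn : n < L.length) (hi : i ≤ L.length) (h : i ≠ n)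
    (K' K : Bool → Bool → ℝ) : wg L n K' i K 2 0 = dm L 0 n * ag L n K' i K 2 0 := by
  rw [← (ld_wg L n K' i K).iter2, ← ((ld_ag L n K' i K).cmul (dm L 0 n)).iter2]
  congr 1
  funext y
  exact dM_single L _ h0 hn (tw_ne hi hn h) K' _

theorem as1 (b : Bool) : |spin b| ≤ 1 := (One15.abs_spin b).le

section bd
variable (hM : Mono 0 L) {K K' : Bool → Bool → ℝ} (hK : ∀ a b, |K a b| ≤ 2)
  (hK' : ∀ a b, |K' a b| ≤ 2) (n i : ℕ)
include hM

theorem abs_mg : |mg L 1 0| ≤ 8 :=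
  (bf_Tk w1 hM as1 0 1 4 1 _ (by norm_num) (rz_one _) _ 1 zero_le_one fun _ => as1 _).trans
    (by norm_num [cT])

include hK

theorem abs_pg : |pg L i K 2 0| ≤ 160 :=
  (bf_Tk w1 hM as1 0 2 4 2 _ (by norm_num) (rz_tw _ i) _ 2 zero_le_two fun _ => hK _ _).trans
    (by norm_num [cT])

include hK'

theorem abs_ag : |ag L n K' i K 2 0| ≤ 7040 :=
  ((bf_Tk w1 hM as1 0 2 4).atF (r := 2) hM n (rz_tw _ i) zero_le_two zero_le_two hK'
    fun _ => hK _ _).trans (by norm_num [cT, cA])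

theorem abs_wg : |wg L n K' i K 2 0| ≤ 7040 :=
  ((bf_Tk w1 hM as1 0 2 4).dMF (r := 2) hM n (rz_tw _ i) zero_le_two zero_le_two hK'
    fun _ => hK _ _).trans (by norm_num [cT])

end bd

theorem mg_odd (H : R1 L) : mg L 0 0 = 0 :=
  TM_odd (G := fun x => spin (x 0)) (fl_of H.rk) (rz_one _) fun _ => One15.spin_not _

theorem pg_odd (H : R1 L) (i : ℕ) {K : Bool → Bool → ℝ} (hK : ∀ a b, K (!a) (!b) = K a b) :
    pg L i K 1 0 = 0 := by
  have e1 : ∀ a, TF (fun _ => 1) L ((0 : ℝ) • spin) 2 (tw L.length i)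
      (fun x => Fp K x * spin (x a)) = 0 := fun a =>
    TM_odd (fl_of H.rk) (rz_tw _ i) fun x => by simp only [Fp, hK, One15.spin_not, mul_neg]
  have e2 : ∀ a k, TF (fun _ => 1) L ((0 : ℝ) • spin) (2 + 1) (gr L.length (tw L.length i) a k)
      (fun x => Fp K (fun c => x c.succ) * spin (x 0)) = 0 := fun a k =>
    TM_odd (fl_of H.rk) ((rz_tw _ i).gr a k) fun x => by simp only [Fp, hK, One15.spin_not, mul_neg]
  simp only [pg, Tk, dF, e1, e2, Ws_const, Finset.sum_const_zero, mul_zero, sub_zero]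

/-- `η` -/
def et (q : ℝ) (a b : Bool) : ℝ := spin a * spin b - q

theorem ag_zp (H : R1 L) {n i : ℕ} (h0 : 0 < n) (hn : n < L.length) (hi : n < i) (q : ℝ)
    {K : Bool → Bool → ℝ} (hK : ∀ a b, K (!a) (!b) = K a b) :
    ag (zp L n) n (et q) i K 2 0 = -4 * (mg (zp L n) 1 0 * pg (zp L n) i K 2 0) := by
  have hl := (st_zp L n).len
  have := (ld_ag (zp L n) n (et q) i K).prod (ld_mg (zp L n)) (ld_pg (zp L n) i K).succ
    (κ := -2) (q := 0) fun y => by
      have h1 := at_free w1 (fr_zp w1 L (y • spin) hn.le) (Pf_cmul _ _) h0 (hl ▸ hn)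
        (rz_tw (zp L n).length i) (tw_gt (hl ▸ hn) hi) (K := et q)
        (fun a b => by rw [et, et, mul_comm]) (Fp K)
      simp only [et, Pf_aff w1] at h1
      rw [dL_aff w1 _ (rz_tw _ i), ← Pf_zp w1 L _ hn.le, ← mg_zero] at h1
      rw [sub_zero]
      exact h1
  rw [this, mg_odd (r1_zp H n), pg_odd (r1_zp H n) i hK]
  ring

theorem pg_zp (H : R1 L) {n : ℕ} (hn : n ≤ L.length) (q : ℝ) :
    pg (zp L n) n (et q) 2 0 = 2 * mg (zp L n) 1 0 ^ 2 := by
  have := (ld_pg (zp L n) n (et q)).prod (ld_mg (zp L n)) (ld_mg (zp L n)) (κ := 1) (q := q)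
    fun y => by
      have h1 := fr_zp w1 L (y • spin) hn 0 _ (rz_tw (zp L n).length n) (fun b => min_le_left _ _)
        fun z x => spin z * spin (x 0) - q
      simp only [Pf_aff w1] at h1
      rw [← Pf_zp w1 L _ hn, ← mg_zero] at h1
      rw [one_mul]
      refine h1.trans ?_
      rw [TM_sub, TM_mul, show (fun a b : Fin (0 + 1) => tw (zp L n).length n a.succ b.succ) =
        fun _ _ => (zp L n).length from rfl, TM_const w1 (rz_one _)]
      rfl
  rw [this, mg_odd (r1_zp H n)]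
  ring

section cl
variable (H : R1 L) (hM : Mono 0 L) {n : ℕ} (hn : n < L.length) {e : ℝ} (he0 : 0 ≤ e)
  (he : min 1 (tm L n) ≤ e)
include H hM hn he0 he

theorem bf_zp (k : ℕ) (hk : k ≤ 2) : BF L.length 4 (cT 4 k * (72 * e)) fun r σ F =>
    Tk (fun _ => 1) (zp L n) spin 0 k r σ F - Tk (fun _ => 1) L spin 0 k r σ F :=
  bf_sub hM (st_zp L n) as1 0 (by positivity) (cl_zp H hM hn.le he _) k 4 (by omega)

theorem mg_sub : |mg (zp L n) 1 0 - mg L 1 0| ≤ 576 * e := by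
  have := bf_zp H hM hn he0 he 1 one_le_two 1 _ (by norm_num) (rz_one _) (fun x => spin (x 0)) 1
    zero_le_one fun _ => as1 _
  rw [mg, mg, ← (st_zp L n).len]
  exact this.trans_eq (by norm_num [cT]; ring)

theorem pg_sub (i : ℕ) {K : Bool → Bool → ℝ} (hK : ∀ a b, |K a b| ≤ 2) :
    |pg (zp L n) i K 2 0 - pg L i K 2 0| ≤ 11520 * e := by
  have := bf_zp H hM hn he0 he 2 le_rfl 2 _ (by norm_num) (rz_tw _ i) (Fp K) 2 zero_le_two
    fun _ => hK _ _
  rw [pg, pg, ← (st_zp L n).len]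
  exact this.trans_eq (by norm_num [cT]; ring)

theorem ag_sub (i : ℕ) {K K' : Bool → Bool → ℝ} (hK : ∀ a b, |K a b| ≤ 2)
    (hK' : ∀ a b, |K' a b| ≤ 2) : |ag (zp L n) n K' i K 2 0 - ag L n K' i K 2 0| ≤ 506880 * e := by
  have := (bf_zp H hM hn he0 he 2 le_rfl).atF (r := 2) hM n (rz_tw _ i) zero_le_two zero_le_two hK'
    (F := Fp K) fun _ => hK _ _
  rw [AtF_sub] at this
  rw [ag, ag, AtF_st (st_zp L n), ← (st_zp L n).len]
  exact this.trans_eq (by norm_num [cT, cA]; ring)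

/-- **the response at a low node factorises** -/
theorem ag_main (h0 : 0 < n) {i : ℕ} (hi : n < i) {q : ℝ} (hq : ∀ a b, |et q a b| ≤ 2)
    {K : Bool → Bool → ℝ} (hK : ∀ a b, |K a b| ≤ 2) (hK' : ∀ a b, K (!a) (!b) = K a b) :
    |ag L n (et q) i K 2 0 + 4 * (mg L 1 0 * pg L i K 2 0)| ≤ 1300000 * e := by
  have hM' := Cav22.mono_tilt (st_zp L n) hM
  have a1 := ag_sub H hM hn he0 he i hK hq
  rw [ag_zp H h0 hn hi q hK'] at a1
  have a2 := mul_le_mul (mg_sub H hM hn he0 he) (abs_pg hM hK i) (abs_nonneg _) (by positivity)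
  have a3 := mul_le_mul (abs_mg hM') (pg_sub H hM hn he0 he i hK) (abs_nonneg _) (by positivity)
  rw [← abs_mul] at a2 a3
  have b1 := abs_le.1 a1
  have b2 := abs_le.1 a2
  have b3 := abs_le.1 a3
  exact abs_le.2 ⟨by nlinarith [b1.2, b2.2, b3.2], by nlinarith [b1.1, b2.1, b3.1]⟩

theorem pg_main {q : ℝ} (hq : ∀ a b, |et q a b| ≤ 2) :
    |pg L n (et q) 2 0 - 2 * mg L 1 0 ^ 2| ≤ 30000 * e := by
  have hM' := Cav22.mono_tilt (st_zp L n) hM
  have a1 := pg_sub H hM hn he0 he n hq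
  rw [pg_zp H hn.le] at a1
  have a2 := mul_le_mul (mg_sub H hM hn he0 he) (abs_mg hM) (abs_nonneg _) (by positivity)
  have a3 := mul_le_mul (mg_sub H hM hn he0 he) (abs_mg hM') (abs_nonneg _) (by positivity)
  rw [← abs_mul] at a2 a3
  have b1 := abs_le.1 a1
  have b2 := abs_le.1 a2
  have b3 := abs_le.1 a3
  exact abs_le.2 ⟨by nlinarith [b1.2, b2.1, b3.1], by nlinarith [b1.1, b2.2, b3.2]⟩

end cl

end Crest.Agent.T156.Cas.H26

end
end

-- ▼ part T156/R2H7_76
section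

/-!
# Row 156, R2 (helper76): size of the Euler measure, site input `H7`
-/

set_option autoImplicit false
set_option linter.unusedSectionVars false

noncomputable section

namespace Crest.Agent.T156.Cas.C40.E42

open MeasureTheory Real Set Filter Topology
open Crest.Agent.T157.E Crest.Agent.T157.Casc Crest.Agent.T157.SL

namespace H76

variable {D : CD} {τ0 : ℝ} (H : D.Ok τ0)
include H

theorem La1 : 1 ≤ La D := le_add_of_nonneg_right (H.sig0 le_rfl)

theorem dsig0 {t : ℕ} (ht : t < D.K) : 0 ≤ D.sig (t + 1) - D.sig t :=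
  sub_nonneg.2 (H.sig_le t.le_succ ht)

theorem dx_le_ck {t : ℕ} (ht : t < D.K) : D.dx t ≤ ck D t := le_add_of_nonneg_right (dsig0 H ht)

theorem ck0 {t : ℕ} (ht : t < D.K) : 0 ≤ ck D t := (H.dx0 t).trans (dx_le_ck H ht)

theorem omS0 {t : ℕ} (ht : t < D.K) : 0 ≤ omS D t :=
  add_nonneg (mul_nonneg (H.dx0 t) (H.sig0 ht.le))
    (div_nonneg (mul_nonneg (H.ex0 t) (dsig0 H ht)) zero_le_two)

theorem ex_le {t : ℕ} (ht : t ∈ D.up) : ex D.B t ≤ D.e t :=
  (le_min (Tay38.ex_le_one H.mono t)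
    (le_add_of_nonneg_right (H.sig0 (CD.mem_up.1 ht).2.le))).trans (H.esc t ht)

theorem sig_le {t : ℕ} (ht : t ∈ D.up) : D.sig t ≤ La D * D.e t := by
  have hK := (CD.mem_up.1 ht).2.le
  have h1 := La1 H
  have h2 : D.sig t ≤ La D := (H.sig_le hK le_rfl).trans (le_add_of_nonneg_left zero_le_one)
  rcases min_le_iff.1 (H.esc t ht) with h | h
  · nlinarith
  · nlinarith [H.ex0 t, H.e0 t]

/-- `ω*_t ≤ La e_t ck_t` -/
theorem omS_le {t : ℕ} (ht : t ∈ D.up) : omS D t ≤ La D * (D.e t * ck D t) := by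
  have hK := (CD.mem_up.1 ht).2
  have h1 := mul_le_mul_of_nonneg_left (sig_le H ht) (H.dx0 t)
  have h2 := mul_le_mul_of_nonneg_right (ex_le H ht) (dsig0 H hK)
  have h3 := mul_nonneg (H.e0 t) (dsig0 H hK)
  have h4 := mul_le_mul_of_nonneg_right (La1 H) h3
  rw [omS, mv, ck]
  linarith


theorem sum_dsig : ∑ t ∈ D.up, (D.sig (t + 1) - D.sig t) ≤ D.sig D.K := by
  refine (Finset.sum_le_sum_of_subset_of_nonneg (t := Finset.range D.K)
    (fun t ht => Finset.mem_range.2 (CD.mem_up.1 ht).2)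
    fun t ht _ => dsig0 H (Finset.mem_range.1 ht)).trans ?_
  rw [Finset.sum_range_sub]
  linarith [H.sig0 (Nat.zero_le _)]

/-- total mass of `ω*` -/
theorem sum_omS : ∑ t ∈ D.up, |omS D t| ≤ 2 * La D := by
  have h1 : D.I D.sig ≤ D.sig D.K :=
    H.I_le (H.sig0 le_rfl) fun j hj => H.sig_le (CD.mem_up.1 hj).2.le le_rfl
  refine (Finset.sum_le_sum (g := fun t => D.dx t * D.sig t + (D.sig (t + 1) - D.sig t))
    fun t ht => ?_).trans ?_
  · have hK := (CD.mem_up.1 ht).2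
    have h2 := mul_le_mul_of_nonneg_right (Tay38.ex_le_one H.mono t) (dsig0 H hK)
    rw [abs_of_nonneg (omS0 H hK), omS, mv]
    linarith [dsig0 H hK]
  · rw [Finset.sum_add_distrib, La]
    linarith [sum_dsig H, show ∑ t ∈ D.up, D.dx t * D.sig t = D.I D.sig from rfl]

end H76

open H76

/-- **site input `H7`** -/
theorem h7 : H7 := fun τ0 => by
  refine ⟨3 * c76, mul_nonneg (by norm_num) c76_nonneg, fun D η H _ t ht => ?_⟩
  have hK := (CD.mem_up.1 ht).2
  rw [sL_eq76]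
  refine ((star D).abs_sum_om fun j hj => H.word3_le ht (CD.mem_up.1 hj).2.le).trans ?_
  rw [CD.Iw_mul, CD.Iw_add, CD.Iw_const, mul_comm 3, mul_assoc c76, mul_assoc c76]
  refine mul_le_mul_of_nonneg_left ?_ c76_nonneg
  have h1 : (star D).Iw (fun j => if j = t then 1 else 0) = omS D t := by
    simp only [CD.Iw, mul_ite, mul_one, mul_zero, Finset.sum_ite_eq']
    exact (if_pos ht).trans (abs_of_nonneg (omS0 H hK))
  have h2 : (star D).Iw (fun _ => 1) ≤ 2 * La D :=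
    (Finset.sum_congr rfl fun _ _ => mul_one _).trans_le (sum_omS (D := D) H)
  have h3 := mul_le_mul (mul_le_mul_of_nonneg_right (dx_le_ck H hK) (H.e0 t)) h2
    ((star D).Iw0 fun _ _ => zero_le_one) (mul_nonneg (ck0 H hK) (H.e0 t))
  rw [h1]
  linarith [omS_le H ht]

end Crest.Agent.T156.Cas.C40.E42

end
end

-- ▼ part T156/R2H4_26
section

/-!
# Row 156, R2 (helper26): the site input `H4` from `H1`
-/

set_option autoImplicit false
set_option linter.unusedSectionVars false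
set_option linter.unusedVariables false

noncomputable section

namespace Crest.Agent.T156.Cas.C40.E42

open MeasureTheory Real Set Filter Topology
open Crest.Agent.T157.E Crest.Agent.T157.Casc Crest.Agent.T157.SL
open Crest.ProbabilityR.SpinGlassDynamics (spin)
open Ker15 H26 H06

namespace H426

variable {D : CD} {τ0 : ℝ}

theorem lenJ (D : CD) : (D.S.drop D.J).length = D.K - D.J := by rw [List.length_drop, len_S]

theorem rk (H : D.Ok τ0) : List.Forall₂ (C.Rk1 spin) D.S (opV D.n D.β D.M D.q) :=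
  C.forall₂_sl spin (opV_nn H.ook)

theorem r1J (H : D.Ok τ0) : R1 (D.S.drop D.J) := fun l hl =>
  r1_of (rk H) l (List.mem_of_mem_drop hl)

theorem tmJ (H : D.Ok τ0) {t : ℕ} (ht : t ∈ D.up) : min 1 (tm (D.S.drop D.J) (t - D.J)) ≤ D.e t := by
  obtain ⟨h1, h2⟩ := CD.mem_up.1 ht
  have e1 : ∀ j ≤ D.K, tm D.S j = D.sig j := fun j hj => (tm_eq (rk H) j).trans (opV_acc hj)
  have e2 : tm D.S (D.J + (t - D.J)) = tm D.S D.J + tm (D.S.drop D.J) (t - D.J) := by
    simp only [tm, cacc, List.take_add, List.map_append, List.sum_append]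
  rw [Nat.add_sub_cancel' h1.le, e1 t h2.le, e1 _ H.cut.le] at e2
  refine (min_le_min_left _ ?_).trans (H.esc t ht)
  linarith [H.sig0 H.cut.le, H.ex0 t]

theorem lev_sgl (D : CD) {t : ℕ} (h : D.J < t) :
    (fun i => D.lev t (i + D.J)) = Hom68.sgl (t - D.J) (oE D.q t) := by
  funext i a b
  unfold CD.lev Hom68.sgl
  by_cases e : i = t - D.J
  · rw [if_pos (by omega), if_pos e, e, Nat.sub_add_cancel h.le]
  · rw [if_neg (by omega), if_neg e]; rfl

theorem dP_star_lev (D : CD) {t : ℕ} (ht : t ∈ D.up) : (star D).dP 2 [D.lev t] =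
    -∑ j ∈ D.up, omS D j * wg (D.S.drop D.J) (t - D.J) (oE D.q t) (j - D.J) (oE D.q j) 2 0 := by
  obtain ⟨h1, h2⟩ := CD.mem_up.1 ht
  rw [CD.dP, ← (Ld.sum D.up (omS D) fun j _ => ld_wg (D.S.drop D.J) (t - D.J) (oE D.q t) (j - D.J)
    (oE D.q j)).iter2]
  congr 2
  funext y
  change ∑ j ∈ D.up, omS D j * twoF (j - D.J) (oE D.q j) (WdO (D.S.drop D.J)
    [fun i => D.lev t (i + D.J)] (TEf (fun _ => 1) (D.S.drop D.J) (y • spin))) = _
  refine Finset.sum_congr rfl fun j hj => congrArg _ ?_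
  have := two_dM One15.w1 (D.S.drop D.J) (y • spin) (i := j - D.J) (n := t - D.J)
    (by rw [lenJ]; have := (CD.mem_up.1 hj).2; omega) (by omega) (by rw [lenJ]; omega)
    (oE D.q j) (oE D.q t)
  rw [← lev_sgl D h1] at this
  rw [wg, ← lev_sgl D h1]
  exact this

theorem dP_star_nil (D : CD) : (star D).dP 2 [] =
    -∑ j ∈ D.up, omS D j * pg (D.S.drop D.J) (j - D.J) (oE D.q j) 2 0 := by
  rw [CD.dP, ← (Ld.sum D.up (omS D) fun j _ => ld_pg (D.S.drop D.J) (j - D.J) (oE D.q j)).iter2]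
  congr 2
  funext y
  change ∑ j ∈ D.up, omS D j * twoF (j - D.J) (oE D.q j)
    (TEf (fun _ => 1) (D.S.drop D.J) (y • spin)) = _
  refine Finset.sum_congr rfl fun j hj => congrArg _ ?_
  exact two_TM One15.w1 (D.S.drop D.J) (y • spin) (i := j - D.J)
    (by rw [lenJ]; have := (CD.mem_up.1 hj).2; omega) (oE D.q j)

theorem dP_val_lev (H : D.Ok τ0) (hW : D.W = none) {t : ℕ} (ht : t ∈ D.up) : D.dP 2 [D.lev t] =
    -(D.dx t * pg (D.S.drop D.J) (t - D.J) (oE D.q t) 2 0) := by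
  obtain ⟨h1, h2⟩ := CD.mem_up.1 ht
  rw [CD.dP, ← ((ld_pg (D.S.drop D.J) (t - D.J) (oE D.q t)).cmul (D.dx t)).iter2]
  congr 2
  funext y
  have e : D.sH D.J y [D.lev t] = pairF (D.S.drop D.J) (fun j => D.lev t (j + D.J))
      (DY (D.S.drop D.J) 0 y) := by
    simp only [CD.sH, CD.dd, hW]
    rfl
  rw [e, pair_lev D h1 h2.le _ (bnd_DY (monoJ H D.J) 0 y zero_le_two)]
  exact congrArg _ (two_TM One15.w1 (D.S.drop D.J) (y • spin) (i := t - D.J)
    (by rw [lenJ]; omega) (oE D.q t))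

theorem sum_low (H : D.Ok τ0) {t : ℕ} (ht : t ∈ D.up) :
    ∑ j ∈ D.up, (if j < t then omS D j else 0) ≤ 2 * (La D * D.e t) := by
  have hL : D.sig D.K ≤ La D := le_add_of_nonneg_left zero_le_one
  have a1 : ∑ j ∈ D.up.filter (· < t), D.dx j ≤ D.e t :=
    (H.sum_dx_le fun i hi => (Finset.mem_filter.1 hi).2.le).trans (H76.ex_le H ht)
  have a2 : ∑ j ∈ D.up.filter (· < t), (D.sig (j + 1) - D.sig j) ≤ La D :=
    ((Finset.sum_le_sum_of_subset_of_nonneg (Finset.filter_subset _ _) fun j hj _ =>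
      H76.dsig0 H (CD.mem_up.1 hj).2).trans (H76.sum_dsig H)).trans hL
  have e0 := H.e0 t
  have l1 := H76.La1 H
  rw [← Finset.sum_filter]
  refine (Finset.sum_le_sum (g := fun j => La D * D.dx j + D.e t * (D.sig (j + 1) - D.sig j))
    fun j hj => ?_).trans ?_
  · obtain ⟨hj, hjt⟩ := Finset.mem_filter.1 hj
    have hK := (CD.mem_up.1 hj).2
    have b1 := mul_le_mul_of_nonneg_left ((H.sig_le hK.le le_rfl).trans hL) (H.dx0 j)
    have b2 := mul_le_mul_of_nonneg_right ((H76.ex_le H hj).trans (H.e_mono hjt.le))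
      (H76.dsig0 H hK)
    have b3 := mul_nonneg e0 (H76.dsig0 H hK)
    rw [omS, mv]
    linarith
  · rw [Finset.sum_add_distrib, ← Finset.mul_sum, ← Finset.mul_sum]
    nlinarith [mul_le_mul_of_nonneg_left a1 (zero_le_one.trans l1), mul_le_mul_of_nonneg_left a2 e0]

theorem node (H : D.Ok τ0) {t j : ℕ} (ht : t ∈ D.up) (hj : j ∈ D.up) :
    |wg (D.S.drop D.J) (t - D.J) (oE D.q t) (j - D.J) (oE D.q j) 2 0 +
      4 * D.dx t * (mg (D.S.drop D.J) 1 0 * pg (D.S.drop D.J) (j - D.J) (oE D.q j) 2 0)| ≤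
      (if j = t then 12160 else 0) + D.dx t * (if j < t then 12160 else 0) +
        1300000 * (D.dx t * D.e t) := by
  obtain ⟨h1, h2⟩ := CD.mem_up.1 ht
  obtain ⟨j1, j2⟩ := CD.mem_up.1 hj
  have hM := monoJ H D.J
  have kt := abs_oE_le H.ook h2.le
  have kj := abs_oE_le H.ook j2.le
  have d0 := H.dx0 t
  have d1 := H.dx1 h2.le
  have e0 := H.e0 t
  have de := mul_nonneg d0 e0
  have hn : t - D.J < (D.S.drop D.J).length := by rw [lenJ]; omega
  have m := mul_le_mul (abs_mg hM) (abs_pg hM kj (j - D.J)) (abs_nonneg _) (by norm_num)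
  rw [← abs_mul] at m
  have m' := abs_le.1 m
  rcases lt_trichotomy j t with h | h | h
  · have a := abs_le.1 (abs_ag hM kj kt (t - D.J) (j - D.J))
    rw [wg_eq (by omega) hn (by rw [lenJ]; omega) (by omega), dm_J D h1, if_neg h.ne, if_pos h]
    exact abs_le.2 ⟨by nlinarith [a.1, m'.1], by nlinarith [a.2, m'.2]⟩
  · have a := abs_le.1 (abs_wg hM kj kt (t - D.J) (j - D.J))
    rw [if_pos h, if_neg (by omega)]
    exact abs_le.2 ⟨by nlinarith [a.1, m'.1], by nlinarith [a.2, m'.2]⟩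
  · have a := abs_le.1 (ag_main (r1J H) hM hn e0 (tmJ H ht) (by omega) (i := j - D.J) (by omega)
      (q := D.q t) kt kj fun a b => by simp only [oE, One15.spin_not, neg_mul_neg])
    rw [wg_eq (by omega) hn (by rw [lenJ]; omega) (by omega), dm_J D h1, if_neg h.ne',
      if_neg (by omega)]
    have b1 := mul_le_mul_of_nonneg_left a.1 d0
    have b2 := mul_le_mul_of_nonneg_left a.2 d0
    change D.dx t * _ ≤ D.dx t * (ag _ _ (oE D.q t) _ _ 2 0 + _) at b1
    change D.dx t * (ag _ _ (oE D.q t) _ _ 2 0 + _) ≤ _ at b2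
    exact abs_le.2 ⟨by linarith, by linarith⟩

/-- the marked response factorises -/
theorem star_lev (H : D.Ok τ0) {t : ℕ} (ht : t ∈ D.up) :
    |(star D).dP 2 [D.lev t] + 4 * D.dx t * (D.lam * (star D).dP 2 [])| ≤
      2700000 * (La D * (D.e t * ck D t)) := by
  have hK := (CD.mem_up.1 ht).2
  have e0 := H.e0 t
  have d0 := H.dx0 t
  have l0 := zero_le_one.trans (H76.La1 H)
  have dc := mul_le_mul_of_nonneg_left (mul_le_mul_of_nonneg_left (H76.dx_le_ck H hK) e0) l0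
  have e : (star D).dP 2 [D.lev t] + 4 * D.dx t * (D.lam * (star D).dP 2 []) =
      -∑ j ∈ D.up, omS D j * (wg (D.S.drop D.J) (t - D.J) (oE D.q t) (j - D.J) (oE D.q j) 2 0 +
      4 * D.dx t * (mg (D.S.drop D.J) 1 0 * pg (D.S.drop D.J) (j - D.J) (oE D.q j) 2 0)) := by
    rw [dP_star_lev D ht, dP_star_nil, show D.lam = mg (D.S.drop D.J) 1 0 from iter_X _]
    simp only [mul_add, Finset.sum_add_distrib, mul_neg, Finset.mul_sum, neg_add]
    congr 2
    exact Finset.sum_congr rfl fun _ _ => by ring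
  rw [e, abs_neg]
  refine (Finset.abs_sum_le_sum_abs _ _).trans ((Finset.sum_le_sum
    (g := fun j => (if j = t then 12160 * omS D t else 0) +
      12160 * D.dx t * (if j < t then omS D j else 0) + 1300000 * (D.dx t * D.e t) * |omS D j|)
    fun j hj => ?_).trans ?_)
  · have o := H76.omS0 H (CD.mem_up.1 hj).2
    rw [abs_mul, abs_of_nonneg o]
    refine (mul_le_mul_of_nonneg_left (node H ht hj) o).trans_eq ?_
    split_ifs with h1 h2 h2
    · omega
    · rw [h1]; ring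
    · ring
    · ring
  · rw [Finset.sum_add_distrib, Finset.sum_add_distrib, Finset.sum_ite_eq', if_pos ht,
      ← Finset.mul_sum, ← Finset.mul_sum]
    have a1 := H76.omS_le H ht
    have a2 := mul_le_mul_of_nonneg_left (sum_low H ht) d0
    have a3 := mul_le_mul_of_nonneg_left (H76.sum_omS H) (mul_nonneg d0 e0)
    have a4 := mul_nonneg l0 (mul_nonneg e0 d0)
    nlinarith

theorem val_lev (H : D.Ok τ0) (hW : D.W = none) {t : ℕ} (ht : t ∈ D.up) :
    |D.dP 2 [D.lev t] + 2 * D.dx t * D.lam ^ 2| ≤ 30000 * (D.dx t * D.e t) := by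
  obtain ⟨h1, h2⟩ := CD.mem_up.1 ht
  have a := mul_le_mul_of_nonneg_left (pg_main (r1J H) (monoJ H D.J) (n := t - D.J)
    (by rw [lenJ]; omega) (H.e0 t) (tmJ H ht) (q := D.q t) (abs_oE_le H.ook h2.le)) (H.dx0 t)
  rw [← abs_of_nonneg (H.dx0 t), ← abs_mul, abs_of_nonneg (H.dx0 t), ← abs_neg] at a
  rw [dP_val_lev H hW ht, show D.lam = mg (D.S.drop D.J) 1 0 from iter_X _]
  refine le_of_eq_of_le (congrArg _ ?_) (a.trans_eq (by ring))
  change _ = -(D.dx t * (pg _ _ (oE D.q t) 2 0 - _))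
  ring

end H426

open H426

/-- `d ψ = -ψ + O (e)` -/
theorem h4_of (h1 : H1) : H4 := fun τ0 => by
  obtain ⟨C, hC, h1⟩ := h1 τ0
  refine ⟨2800000 + 16 * C, by positivity, fun D η H hm t ht => ?_⟩
  have hK := (CD.mem_up.1 ht).2
  have a1 := abs_le.1 (star_lev H ht)
  have a2 := abs_le.1 (val_lev H hm.val ht)
  have a3 := h1 D η H hm
  have e0 := H.e0 t
  have d0 := H.dx0 t
  have dc := H76.dx_le_ck H hK
  have l1 := H76.La1 H
  have η0 := hm.η0
  have X0 := H.X0
  have lam := abs_lam H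
  have x3 : D.X ^ 3 ≤ D.e t := (pow_le_of_le_one X0 H.X1 (by norm_num)).trans (H.eX t)
  have xs : |x1 D * s1 D| ≤ D.e t := by
    have s0 : 0 ≤ s1 D := H.sig0 H.cut
    rw [abs_of_nonneg (mul_nonneg (show 0 ≤ x1 D from H.ex0 _) s0)]
    exact (mul_le_mul (H.x1.trans H.X1) hm.sX s0 zero_le_one).trans (by rw [one_mul]; exact H.eX t)
  have b1 : |D.lam * ((star D).dP 2 [] + D.lam - x1 D * s1 D * D.lam ^ 2)| ≤
      4 * (C * La D * (D.e t + η)) := by
    rw [abs_mul]
    exact mul_le_mul lam (a3.trans (by gcongr)) (abs_nonneg _) (by norm_num)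
  have b2 : |x1 D * s1 D * D.lam ^ 3| ≤ D.e t * 4 ^ 3 := by
    rw [abs_mul, abs_pow]
    gcongr
  have c1 := mul_le_mul (le_refl _) dc d0 (by positivity : 0 ≤ C * La D * (D.e t + η))
  have c2 : D.dx t * D.e t ≤ La D * (D.e t * ck D t) := by
    calc _ = 1 * (D.e t * D.dx t) := by ring
      _ ≤ _ := by gcongr
  have c3 : La D * (D.e t * ck D t) ≤ La D * ((D.e t + η) * ck D t) := by
    have := d0.trans dc
    gcongr
    linarith
  have c4 := mul_nonneg d0 e0
  have f1 := mul_le_mul_of_nonneg_left (abs_le.1 b1).1 d0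
  have f2 := mul_le_mul_of_nonneg_left (abs_le.1 b1).2 d0
  have f3 := mul_le_mul_of_nonneg_left (abs_le.1 b2).1 d0
  have f4 := mul_le_mul_of_nonneg_left (abs_le.1 b2).2 d0
  exact abs_le.2 ⟨by nlinarith [a1.1, a2.1], by nlinarith [a1.2, a2.2]⟩

end Crest.Agent.T156.Cas.C40.E42

end
end

-- ▼ part T156/Yd_50
section

/-!
# Row 156 (helper50): derivatives in the field, finite differences, the Euler identity with a field
-/

set_option autoImplicit false
set_option linter.all false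

noncomputable section

namespace Crest.Agent.T156.Cas.Yd50

open MeasureTheory Real Set Filter Topology
open Crest.Agent.T157.E Crest.Agent.T157.Casc Crest.Agent.T157.SL
open Crest.ProbabilityR.SpinGlassDynamics (spin)

/-! ### chains of derivatives -/

/-- `g (i + 1)` is the derivative of `g i` -/
def Ch (g : ℕ → ℝ → ℝ) : Prop := ∀ i y, HasDerivAt (g i) (g (i + 1) y) y

variable {g g' : ℕ → ℝ → ℝ}

theorem Ch.itD (H : Ch g) : ∀ i, iteratedDeriv i (g 0) = g i
  | 0 => iteratedDeriv_zero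
  | i + 1 => by rw [iteratedDeriv_succ, H.itD i]; exact funext fun y => (H i y).deriv

theorem Ch.sub (H : Ch g) (H' : Ch g') : Ch fun i y => g i y - g' i y :=
  fun i y => (H i y).sub (H' i y)

theorem Ch.sum {ι : Type*} (A : Finset ι) (a : ι → ℝ) {g : ι → ℕ → ℝ → ℝ} (H : ∀ j, Ch (g j)) :
    Ch fun i y => ∑ j ∈ A, a j * g j i y :=
  fun i y => HasDerivAt.fun_sum fun j _ => (H j i y).const_mul (a j)

theorem step_le {f f' : ℝ → ℝ} (hd : ∀ y, HasDerivAt f (f' y) y) (h0 : f 0 = 0) {c : ℝ} {k : ℕ}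
    (hc : 0 ≤ c) (hb : ∀ y, |y| ≤ 2 → |f' y| ≤ c * |y| ^ k) (y : ℝ) (hy : |y| ≤ 2) :
    |f y| ≤ c * |y| ^ (k + 1) := by
  have := Convex.norm_image_sub_le_of_norm_hasDerivWithin_le (f := f) (s := Icc (-|y|) |y|)
    (C := c * |y| ^ k) (fun x _ => (hd x).hasDerivWithinAt) (fun x hx => by
      have a : |x| ≤ |y| := abs_le.2 hx
      exact (hb x (a.trans hy)).trans (by gcongr)) (convex_Icc _ _)
    (x := 0) (y := y) ⟨by simp, abs_nonneg y⟩ ⟨neg_abs_le y, le_abs_self y⟩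
  simpa only [h0, sub_zero, Real.norm_eq_abs, mul_assoc, ← pow_succ] using this

theorem Ch.tay {c : ℝ} : ∀ (r : ℕ) {g : ℕ → ℝ → ℝ}, Ch g → (∀ y, |y| ≤ 2 → |g r y| ≤ c) →
    ∀ y, |y| ≤ 2 → |g 0 y - ∑ i ∈ Finset.range r, g i 0 * y ^ i / i.factorial| ≤ c * |y| ^ r
  | 0, g, _, hb => fun y hy => by simpa using hb y hy
  | r + 1, g, H, hb => by
    have ih := Ch.tay r (g := fun i => g (i + 1)) (fun i y => H (i + 1) y) hb
    refine step_le (fun y => ?_) (by simp [Finset.sum_range_succ'])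
      ((abs_nonneg _).trans (hb 0 (by simp))) ih
    simp only [Finset.sum_range_succ', pow_zero]
    refine (H 0 y).sub (HasDerivAt.add_const _ (HasDerivAt.fun_sum fun i _ => ?_))
    refine ((((hasDerivAt_id y).fun_pow (i + 1)).const_mul _).div_const _).congr_deriv ?_
    have : (i.factorial : ℝ) ≠ 0 := by positivity
    simp only [id, Nat.factorial_succ, Nat.add_sub_cancel]
    push_cast
    field_simp

/-- second difference -/
def D2 (h : ℝ) (f : ℝ → ℝ) : ℝ := f h - 2 * f 0 + f (-h)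

/-- fourth difference -/
def D4 (h : ℝ) (f : ℝ → ℝ) : ℝ := f (2 * h) - 4 * f h + 6 * f 0 - 4 * f (-h) + f (-(2 * h))

theorem Ch.d2 (H : Ch g) {c h : ℝ} (hb : ∀ y, |y| ≤ 2 → |g 3 y| ≤ c) (h0 : 0 ≤ h) (h1 : h ≤ 1) :
    |D2 h (g 0) - h ^ 2 * g 2 0| ≤ 2 * c * h ^ 3 := by
  have a := abs_le.1 (H.tay 3 hb h (by rw [abs_of_nonneg h0]; linarith))
  have b := abs_le.1 (H.tay 3 hb (-h) (by rw [abs_neg, abs_of_nonneg h0]; linarith))
  rw [abs_neg] at b
  rw [abs_of_nonneg h0] at a b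
  simp only [Finset.sum_range_succ, Finset.sum_range_zero, Nat.factorial] at a b
  push_cast at a b
  rw [D2]
  exact abs_le.2 ⟨by linarith [a.1, b.1], by linarith [a.2, b.2]⟩

theorem Ch.d4 (H : Ch g) {c h : ℝ} (hb : ∀ y, |y| ≤ 2 → |g 5 y| ≤ c) (h0 : 0 ≤ h) (h1 : h ≤ 1) :
    |D4 h (g 0) - h ^ 4 * g 4 0| ≤ 72 * c * h ^ 5 := by
  have h2 : 0 ≤ 2 * h := by linarith
  have a := abs_le.1 (H.tay 5 hb h (by rw [abs_of_nonneg h0]; linarith))
  have b := abs_le.1 (H.tay 5 hb (-h) (by rw [abs_neg, abs_of_nonneg h0]; linarith))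
  have a' := abs_le.1 (H.tay 5 hb (2 * h) (by rw [abs_of_nonneg h2]; linarith))
  have b' := abs_le.1 (H.tay 5 hb (-(2 * h)) (by rw [abs_neg, abs_of_nonneg h2]; linarith))
  rw [abs_neg] at b b'
  rw [abs_of_nonneg h0] at a b
  rw [abs_of_nonneg h2] at a' b'
  simp only [Finset.sum_range_succ, Finset.sum_range_zero, Nat.factorial] at a b a' b'
  push_cast at a b a' b'
  rw [D4]
  exact abs_le.2 ⟨by linarith [a.2, b.2, a'.1, b'.1], by linarith [a.1, b.1, a'.2, b'.2]⟩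

/-! ### the response to the field -/

section gen
variable {Ω : Type} [Fintype Ω] {w : Ω → ℝ} {M : List (Lv Ω)} {f : Ω → ℝ}

/-- one leg -/
def Lp (M : List (Lv Ω)) (f : Ω → ℝ) (Λ : Fn Ω) : Fn Ω := fun s F =>
  ∑ a, Λ s (fun x => F x * f (x a)) - ∑ a, ∑ j ∈ Finset.range (M.length + 1), cw s M a j *
    Λ (s.graft a j) fun x => F (fun b => x (s.emb a j b)) * f (x (s.nw a j))

theorem fl_lp {Φ : Fn Ω → ℝ} (h : FL Φ) : FL fun Λ => Φ (Lp M f Λ) :=
  fun R H _ _ e => h R H _ _ fun s F => H.sub (H.sum _ fun _ _ => e _ _)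
    (H.sum _ fun _ _ => H.sum _ fun _ _ => H.smul _ (e _ _))

theorem fl_it : ∀ (r : ℕ) {Φ : Fn Ω → ℝ}, FL Φ → FL fun Λ => Φ ((Lp M f)^[r] Λ)
  | 0, _, h => h
  | r + 1, _, h => by
    simpa only [Function.iterate_succ_apply'] using fl_it r (fl_lp h)

/-- curves of functionals moved by the leg -/
def Cv (M : List (Lv Ω)) (f : Ω → ℝ) (Λ : ℝ → Fn Ω) : Prop :=
  ∀ e s F, HasDerivAt (fun e => Λ e s F) (Lp M f (Λ e) s F) e

theorem Cv.ch {Λ : ℝ → Fn Ω} (H : Cv M f Λ) (s : Sh) (F : (s.Lf → Ω) → ℝ) :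
    Ch fun i e => (Lp M f)^[i] (Λ e) s F := fun i e => (fl_it i (FL.ev s F)).der (H e)

theorem cv_TE (hw : Wt w) (M : List (Lv Ω)) (h f : Ω → ℝ) :
    Cv M f fun e => TEf w M (h + e • f) := fun e s F => One15.hasDerivAt_TE hw s M h f F e

theorem Lp_tilt {M M' : List (Lv Ω)} (H : M.map Lv.m = M'.map Lv.m) : Lp M f = Lp M' f := by
  funext Λ s F
  simp only [Lp, Sch6.len_congr H, Sch6.cw_congr _ H]

/-- bounded functionals on shapes with at most `N` leaves -/
def Bn (N : ℕ) (c : ℝ) (Λ : Fn Ω) : Prop := ∀ s : Sh, Fintype.card s.Lf ≤ N →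
  ∀ (F : (s.Lf → Ω) → ℝ) (b : ℝ), (∀ x, |F x| ≤ b) → |Λ s F| ≤ c * b

theorem Bn.lp [Nonempty Ω] (hM : Mono 0 M) (hf : ∀ y, |f y| ≤ 1) {N N' : ℕ} {c : ℝ} {Λ : Fn Ω}
    (H : Bn (N + 1) c Λ) (hc : 0 ≤ c) (hN : N ≤ N') : Bn N (2 * N' * c) (Lp M f Λ) := by
  intro s hs F b hF
  obtain ⟨y⟩ := ‹Nonempty Ω›
  have b0 : 0 ≤ b := (abs_nonneg _).trans (hF fun _ => y)
  have e : ∀ x y, |F x * f y| ≤ b := fun x y => by
    rw [abs_mul]
    exact (mul_le_mul (hF x) (hf y) (abs_nonneg _) b0).trans_eq (mul_one _)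
  have h1 : |∑ a, Λ s (fun x => F x * f (x a))| ≤ Fintype.card s.Lf * (c * b) := by
    refine (Finset.abs_sum_le_sum_abs _ _).trans ((Finset.sum_le_sum fun a _ =>
      H s (by omega) _ b fun x => e x _).trans_eq ?_)
    simp
  have h2 : |∑ a, ∑ j ∈ Finset.range (M.length + 1), cw s M a j *
      Λ (s.graft a j) fun x => F (fun b => x (s.emb a j b)) * f (x (s.nw a j))| ≤
      Fintype.card s.Lf * (c * b) := by
    rw [← sum_cw s M, Finset.sum_mul]
    refine (Finset.abs_sum_le_sum_abs _ _).trans (Finset.sum_le_sum fun a _ => ?_)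
    rw [Finset.sum_mul]
    refine (Finset.abs_sum_le_sum_abs _ _).trans (Finset.sum_le_sum fun j _ => ?_)
    rw [abs_mul, abs_of_nonneg (cw_nonneg s hM a j)]
    exact mul_le_mul_of_nonneg_left (H _ (by rw [Wt87.card_graft]; omega) _ b fun x => e _ _)
      (cw_nonneg s hM a j)
  have h3 : (Fintype.card s.Lf : ℝ) * (c * b) ≤ N' * (c * b) :=
    mul_le_mul_of_nonneg_right (by exact_mod_cast hs.trans hN) (mul_nonneg hc b0)
  exact (abs_sub _ _).trans (by linarith)

theorem Bn.it [Nonempty Ω] (hM : Mono 0 M) (hf : ∀ y, |f y| ≤ 1) {N' : ℕ} {Λ : Fn Ω} {c : ℝ}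
    (hc : 0 ≤ c) : ∀ (r N : ℕ), N + r ≤ N' → Bn (N + r) c Λ →
      Bn N ((2 * N') ^ r * c) ((Lp M f)^[r] Λ)
  | 0, N, _, H => by simpa using H
  | r + 1, N, hN, H => by
    have := (Bn.it hM hf (N' := N') hc r (N + 1) (by omega) (by rwa [add_right_comm])).lp hM hf
      (by positivity) (N' := N') (by omega)
    rwa [Function.iterate_succ_apply', pow_succ', mul_assoc]

theorem bn_TE (hw : Wt w) (M : List (Lv Ω)) (h : Ω → ℝ) (N : ℕ) : Bn N 1 (TEf w M h) :=
  fun s _ F b hF => (One15.abs_TE_le hw s M h hF).trans_eq (one_mul b).symm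

end gen

/-! ### one site -/

open Ker15 (R1 tm z0)
open Eul43 (ins)

/-- the field `y ε` -/
def fd (y : ℝ) : Bool → ℝ := fun b => y * spin b

/-- `ε ε'` -/
def ee (a b : Bool) : ℝ := spin a * spin b

theorem fd_eq (y : ℝ) : 0 + y • spin = fd y := by funext b; simp [fd]

theorem cv_fd (L : List (Lv Bool)) : Cv L spin fun y => TEf (fun _ => 1) L (fd y) := by
  simpa only [fd_eq] using cv_TE One15.w1 L 0 spin

/-- derivatives of `Γ_j` -/
def gam (L : List (Lv Bool)) (j i : ℕ) (y : ℝ) : ℝ :=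
  (Lp L spin)^[i] (TEf (fun _ => 1) L (fd y)) (Sh.two j) fun x => ee (x (Sh.twoL j)) (x (Sh.twoR j))

/-- derivatives of the magnetisation -/
def mg (L : List (Lv Bool)) (i : ℕ) (y : ℝ) : ℝ :=
  (Lp L spin)^[i] (TEf (fun _ => 1) L (fd y)) .one fun x => spin (x ())

/-- derivatives of the value -/
def xc (L : List (Lv Bool)) : ℕ → ℝ → ℝ
  | 0 => fun y => X (fun _ => 1) L (fd y)
  | i + 1 => mg L i

/-- derivatives of `y m - Φ` -/
def ec (L : List (Lv Bool)) : ℕ → ℝ → ℝ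
  | 0 => fun y => y * mg L 0 y - X (fun _ => 1) L (fd y)
  | i + 1 => fun y => i * mg L i y + y * mg L (i + 1) y

variable {L : List (Lv Bool)}

theorem ch_gam (L : List (Lv Bool)) (j : ℕ) : Ch (gam L j) := (cv_fd L).ch _ _

theorem ch_mg (L : List (Lv Bool)) : Ch (mg L) := (cv_fd L).ch _ _

theorem gam_zero (L : List (Lv Bool)) (j : ℕ) (y : ℝ) :
    gam L j 0 y = pi2 (fun _ => 1) L j ee (fd y) := twoF_TEf One15.w1 j ee L _

theorem mg_zero (L : List (Lv Bool)) (y : ℝ) : mg L 0 y = Pf (fun _ => 1) L (fd y) spin :=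
  Law.TE_one One15.w1 L _ _

theorem ch_xc (L : List (Lv Bool)) : Ch (xc L)
  | 0, y => by
    have := (gr_X One15.w1 L).line 0 spin y
    simp only [fd_eq] at this
    exact this.congr_deriv (mg_zero L y).symm
  | i + 1, y => ch_mg L i y

theorem ch_ec (L : List (Lv Bool)) : Ch (ec L)
  | 0, y => (((hasDerivAt_id y).mul (ch_mg L 0 y)).sub (ch_xc L 0 y)).congr_deriv (by
      simp only [ec, xc, id]; push_cast; ring)
  | i + 1, y => (((ch_mg L i y).const_mul (i : ℝ)).add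
      ((hasDerivAt_id y).mul (ch_mg L (i + 1) y))).congr_deriv (by
      simp only [ec, id]; push_cast; ring)

theorem abs_ee (a b : Bool) : |ee a b| ≤ 1 := (OneP.abs_spin2 a b).le

theorem pw_le {i : ℕ} (hi : i ≤ 5) : (2 * ((7 : ℕ) : ℝ)) ^ i * 1 * 1 ≤ 14 ^ 5 := by
  rw [mul_one, mul_one, show (2 * ((7 : ℕ) : ℝ)) = 14 by norm_num]
  exact pow_le_pow_right₀ (by norm_num) hi

theorem abs_gam (hM : Mono 0 L) (j : ℕ) {i : ℕ} (hi : i ≤ 5) (y : ℝ) : |gam L j i y| ≤ 14 ^ 5 :=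
  (Bn.it hM (fun b => (One15.abs_spin b).le) (N' := 7) zero_le_one i 2 (by omega)
    (bn_TE One15.w1 L _ _) _ (Wt87.card_two j).le _ 1 fun _ => abs_ee _ _).trans (pw_le hi)

theorem abs_mg (hM : Mono 0 L) {i : ℕ} (hi : i ≤ 5) (y : ℝ) : |mg L i y| ≤ 14 ^ 5 :=
  (Bn.it hM (fun b => (One15.abs_spin b).le) (N' := 7) zero_le_one i 1 (by omega)
    (bn_TE One15.w1 L _ _) _ (Fintype.card_le_one_iff.2 fun _ _ => rfl) _ 1 fun _ => (One15.abs_spin _).le).trans (pw_le hi)

theorem abs_ec (hM : Mono 0 L) {i : ℕ} (hi : i ≤ 4) (y : ℝ) (hy : |y| ≤ 2) :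
    |ec L (i + 1) y| ≤ 6 * 14 ^ 5 := by
  have a := abs_mg hM (i := i) (by omega) y
  have b := abs_mg hM (i := i + 1) (by omega) y
  have c : (i : ℝ) ≤ 4 := by exact_mod_cast hi
  refine (abs_add_le _ _).trans ?_
  rw [abs_mul, abs_mul, Nat.abs_cast]
  nlinarith [mul_le_mul c a (abs_nonneg _) (by norm_num), mul_le_mul hy b (abs_nonneg _) (by norm_num)]

theorem mg00 (H : R1 L) : mg L 0 0 = 0 := by
  have := One15.TE_flip (One15.fl_of H.rk) .one (fun x => spin (x ())) 0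
  simp only [One15.spin_not, neg_zero, ← neg_one_mul (spin _), Law.TE_const_mul One15.w1] at this
  have e : mg L 0 0 = TE (fun _ => 1) .one L ((0 : ℝ) • spin) fun x => spin (x ()) := by
    rw [← zero_add ((0 : ℝ) • spin), fd_eq]; rfl
  linarith

theorem gam00 (L : List (Lv Bool)) : gam L 0 0 = fun y => mg L 0 y * mg L 0 y := by
  funext y
  rw [gam_zero, pi2_zero, mg_zero]
  exact qf_mul _ _ _

theorem gam02 (H : R1 L) : gam L 0 2 0 = 2 * mg L 1 0 ^ 2 := by
  have e1 : gam L 0 1 = fun y => mg L 1 y * mg L 0 y + mg L 0 y * mg L 1 y := funext fun y =>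
    (ch_gam L 0 0 y).unique (by rw [gam00]; exact (ch_mg L 0 y).mul (ch_mg L 0 y))
  have e2 := (ch_gam L 0 1 0).unique (by
    rw [e1]; exact ((ch_mg L 1 0).mul (ch_mg L 0 0)).add ((ch_mg L 0 0).mul (ch_mg L 1 0)))
  rw [e2, mg00 H]
  ring

/-- inside the first level -/
theorem gam_spl {l : Lv Bool} (H : R1 (l :: L)) (hM : Mono 0 (l :: L)) {ρ : ℝ}
    (hρ : ρ ∈ Icc (0 : ℝ) 1) : Mono 0 (Gir68.spl (l :: L) 0 l ρ) ∧
      |gam (Gir68.spl (l :: L) 0 l ρ) 1 2 0 - 2 * mg (l :: L) 1 0 ^ 2| ≤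
        14 ^ 5 * tm (l :: L) 1 := by
  refine ⟨⟨hM.1, le_rfl, hM.2⟩, ?_⟩
  obtain ⟨v, v0, hv⟩ := H l List.mem_cons_self
  have et : tm (l :: L) 1 = v := by simp [tm, cacc, hv, spin]
  set A := z0 Bool l.m :: l :: L with hA
  set B := Gir68.spl (l :: L) 0 l ρ with hB
  have mA : Mono 0 A := ⟨hM.1, le_rfl, hM.2⟩
  have st : Ker15.ST A B := rfl
  have c2 : ∀ j x y, Ker15.dC A B (j + 2) x y = 0 := fun j x y => by
    simp only [Ker15.dC, hA, hB, Gir68.spl, List.take_zero, List.nil_append, zero_add,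
      List.drop_one, List.tail_cons, Sd.cacc_cons, Ker15.z0_cov, Gir68.lv_cov l hρ.1,
      Gir68.lv_cov l (sub_nonneg.2 hρ.2)]
    ring
  have c1 : ∀ j x y, |Ker15.dC A B j x y| ≤ v
    | 0, x, y => by simpa [Ker15.dC, cacc] using v0
    | 1, x, y => by
      have : Ker15.dC A B 1 x y = ρ * (v * (spin x * spin y)) := by
        simp [Ker15.dC, hA, hB, Gir68.spl, cacc, Ker15.z0_cov, Gir68.lv_cov l hρ.1, hv]
      rw [this, abs_mul, abs_mul, OneP.abs_spin2, abs_of_nonneg hρ.1, abs_of_nonneg v0]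
      nlinarith [hρ.2]
    | j + 2, x, y => by rw [c2, abs_zero]; exact v0
  have b : Bn (2 + 2) (32 * v) fun s F =>
      1 * TEf (fun _ => 1) B (fd 0) s F + -1 * TEf (fun _ => 1) A (fd 0) s F := fun s hs F b hF => by
    have := Ker15.ker1 One15.w1 mA st (c := 0) (fun y => c2 L.length y y) s hs (fd 0) hF
      fun j _ => c1 j
    simp only [one_mul, neg_one_mul, ← sub_eq_add_neg]
    exact this.trans_eq (by push_cast; ring)
  have k := Bn.it mA (fun b => (One15.abs_spin b).le) (N' := 7) (by positivity) 2 2 (by omega) b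
    _ (Wt87.card_two 1).le (fun x => ee (x (Sh.twoL 1)) (x (Sh.twoR 1))) 1 fun _ => abs_ee _ _
  rw [(fl_it (M := A) (f := spin) 2 (FL.ev _ _)).lin] at k
  have e0 : gam A 1 0 = gam (l :: L) 0 0 := funext fun y => by
    rw [gam_zero, gam_zero, ← twoF_TEf One15.w1, ← twoF_TEf One15.w1]
    exact Ker15.TE_rf One15.w1 (L := l :: L) (j := 0) (by simp) false _ _ _
  have e2 : gam A 1 2 = gam (l :: L) 0 2 := by
    rw [← (ch_gam A 1).itD, e0, (ch_gam _ 0).itD]
  rw [← gam02 H, ← e2, et, gam, gam, ← Lp_tilt st]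
  refine le_trans (le_of_eq (congrArg _ (by ring))) (k.trans ?_)
  push_cast
  linarith

/-! ### the Euler identity with a field -/

/-- the Euler weights -/
def wt (L : List (Lv Bool)) (j : ℕ) : ℝ :=
  dm L 0 j * tm L j + ex L j * (tm L (j + 1) - tm L j) / 2

/-- the tested overlap above the first level -/
def AA (L : List (Lv Bool)) (i : ℕ) (y : ℝ) : ℝ := ∑ j ∈ Finset.Ico 1 L.length, wt L j * gam L j i y

/-- thin levels above the first one, small entropy -/
structure Eu (L : List (Lv Bool)) (ε : ℝ) : Prop where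
  r1 : R1 L
  mono : Mono 0 L
  pos : 0 < L.length
  top : dm L 0 L.length = 0
  mesh : ∀ j ∈ Finset.Ico 1 L.length, tm L (j + 1) - tm L j ≤ ε
  ent : ∀ h, |node (fun _ => 1) L L.length (Gir68.Sn fun _ => 1) h| ≤ ε

theorem tm0 (L : List (Lv Bool)) : tm L 0 = 0 := by simp [tm, cacc]

theorem ql (H : R1 L) : Eul43.QL L ee (fun _ => 0) fun j => tm L (j + 1) - tm L j :=
  fun j hj x y => by rw [← Ker15.cv_eq L j hj, Ker15.cv, H.cacc, H.cacc, ee]; ring

theorem ee_cov : (C.sl spin (0, 1)).cov = ee := funext fun x => funext fun y => by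
  rw [(C.rk1_sl spin (p := (0, 1)) zero_le_one).2.2, one_mul, ee]

variable {ε : ℝ}

theorem Eu.id (H : Eu L ε) (y : ℝ) : |AA L 0 y - ec L 0 y +
    ex L 0 / 2 * tm L 1 * ins (fun _ => 1) L 0 ee (fd y) - tm L L.length| ≤ 2 * ε := by
  have e := Eul43.euler_QL One15.w1 (R := ee) (fun x => by rw [ee, ← sq, One15.spin_sq]) (ql H.r1)
    (fd y) (Nat.zero_le _)
  have e0 : 0 ≤ ε := (abs_nonneg _).trans (H.ent 0)
  have p : Pf (fun _ => 1) L (fd y) (fd y) = y * mg L 0 y := by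
    rw [mg_zero]
    simp only [Pf, fd, Finset.mul_sum, mul_left_comm]
  simp only [Finset.sum_range_sub (tm L), tm0, Finset.sum_const_zero, zero_mul, zero_add, sub_zero,
    node_zero, List.drop_zero, p] at e
  rw [Finset.sum_range_succ, H.top, zero_mul, add_zero, Finset.range_eq_Ico,
    Finset.sum_eq_sum_Ico_succ_bot H.pos, Finset.sum_eq_sum_Ico_succ_bot H.pos] at e
  have k := Kid68.ins_sum One15.w1 (C.sl spin (0, 1)) L (fd y) (J := Finset.Ico 1 L.length)
    (fun j hj => Finset.mem_range.2 (Finset.mem_Ico.1 hj).2)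
    (c := fun j => ex L j / 2 * (tm L (j + 1) - tm L j)) e0 (fun j hj => by
      have a := Kid68.ex_mem H.mono j
      have b := sub_nonneg.2 (H.r1.tm_mono (Nat.le_succ j))
      rw [abs_of_nonneg (mul_nonneg (by linarith [a.1]) b)]
      nlinarith [H.mesh j hj, a.2])
    fun j _ => ⟨le_rfl, Kkt28.pi2_succ One15.w1 _ L j _⟩
  have k0 := Kid68.pi2_cov_nonneg One15.w1 (C.sl spin (0, 1)) L 0 (fd y)
  have k1 := Kid68.pi2_le_one One15.w1 (fun a b => (le_abs_self _).trans (abs_ee a b)) L L.length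
    (fd y)
  rw [ee_cov] at k k0
  have k2 := abs_le.1 (k.trans (mul_le_of_le_one_right e0 (by linarith)))
  have k3 := abs_le.1 (H.ent (fd y))
  have a : AA L 0 y = ∑ j ∈ Finset.Ico 1 L.length,
      dm L 0 j * (tm L j * pi2 (fun _ => 1) L j ee (fd y)) + (∑ j ∈ Finset.Ico 1 L.length,
      ex L j / 2 * ((tm L (j + 1) - tm L j) * ins (fun _ => 1) L j ee (fd y)) -
      ∑ j ∈ Finset.Ico 1 L.length, ex L j / 2 * (tm L (j + 1) - tm L j) *
        (ins (fun _ => 1) L j ee (fd y) - pi2 (fun _ => 1) L j ee (fd y))) := by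
    rw [← Finset.sum_sub_distrib, ← Finset.sum_add_distrib]
    exact Finset.sum_congr rfl fun j _ => by rw [wt, gam_zero]; ring
  simp only [tm0, zero_add, zero_mul, mul_zero, sub_zero] at e
  simp only [a, ec]
  exact abs_le.2 ⟨by linarith [k2.2, k3.1], by linarith [k2.1, k3.2]⟩

theorem Eu.abs_AA (H : Eu L ε) {i : ℕ} (hi : i ≤ 5) (y : ℝ) :
    |AA L i y| ≤ 2 * tm L L.length * 14 ^ 5 := by
  have t0 : ∀ j, 0 ≤ tm L j := fun j => tm0 L ▸ H.r1.tm_mono (Nat.zero_le j)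
  have s : Finset.Ico 1 L.length ⊆ Finset.range L.length := fun j hj =>
    Finset.mem_range.2 (Finset.mem_Ico.1 hj).2
  have d := fun j => sub_nonneg.2 (H.r1.tm_mono (Nat.le_succ j))
  have b : ∀ j ∈ Finset.range L.length, 0 ≤ wt L j ∧
      wt L j ≤ dm L 0 j * tm L L.length + (tm L (j + 1) - tm L j) := fun j hj => by
    have a := Kid68.ex_mem H.mono j
    have c := mul_le_mul_of_nonneg_left (H.r1.tm_mono (Finset.mem_range.1 hj).le)
      (dm_nonneg H.mono j)
    have := mul_nonneg (dm_nonneg H.mono j) (t0 j)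
    have := mul_nonneg a.1 (d j)
    have := mul_le_of_le_one_left (d j) a.2
    rw [wt]
    constructor <;> linarith
  have u : ∑ j ∈ Finset.range L.length, dm L 0 j = 1 := by
    have := sum_dm L 0 L.length
    rwa [Finset.sum_range_succ, H.top, add_zero, ex_length, sub_zero] at this
  refine (Finset.abs_sum_le_sum_abs _ _).trans ((Finset.sum_le_sum fun j hj => ?_).trans
    ((Finset.sum_mul _ _ _).ge.trans (mul_le_mul_of_nonneg_right
      ((Finset.sum_le_sum_of_subset_of_nonneg s fun j hj _ => (b j hj).1).trans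
        ((Finset.sum_le_sum fun j hj => (b j hj).2).trans_eq ?_)) (by norm_num))))
  · rw [abs_mul, abs_of_nonneg (b j (s hj)).1]
    exact mul_le_mul_of_nonneg_left (abs_gam H.mono j hi y) (b j (s hj)).1
  · rw [Finset.sum_add_distrib, ← Finset.sum_mul, u, Finset.sum_range_sub (tm L), tm0]
    ring

theorem ch_AA (L : List (Lv Bool)) : Ch (AA L) := Ch.sum _ _ (ch_gam L)

theorem int_le {f : ℝ → ℝ} (hf : IntervalIntegrable f volume 0 1) {v e : ℝ}
    (h : ∀ ρ ∈ Icc (0 : ℝ) 1, |f ρ - v| ≤ e) : |(∫ ρ in (0 : ℝ)..1, f ρ) - v| ≤ e := by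
  have a := intervalIntegral.integral_mono_on zero_le_one hf intervalIntegrable_const
    (g := fun _ => v + e) fun ρ hρ => by linarith [(abs_le.1 (h ρ hρ)).2]
  have b := intervalIntegral.integral_mono_on zero_le_one intervalIntegrable_const hf
    (f := fun _ => v - e) fun ρ hρ => by linarith [(abs_le.1 (h ρ hρ)).1]
  simp only [intervalIntegral.integral_const, sub_zero, one_smul] at a b
  exact abs_le.2 ⟨by linarith, by linarith⟩

theorem ins_d {l : Lv Bool} (H : R1 (l :: L)) (hM : Mono 0 (l :: L)) {h : ℝ} (h0 : 0 ≤ h)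
    (h1 : h ≤ 1) : |D2 h (fun y => ins (fun _ => 1) (l :: L) 0 ee (fd y)) -
      h ^ 2 * (2 * mg (l :: L) 1 0 ^ 2)| ≤ 14 ^ 5 * (2 * h ^ 3 + h ^ 2 * tm (l :: L) 1) ∧
    |D4 h fun y => ins (fun _ => 1) (l :: L) 0 ee (fd y)| ≤ 14 ^ 5 * (73 * h ^ 4) := by
  have I := fun y => Eul43.int_spl One15.w1 (l :: L) 0 l ee (fd y)
  have e : ∀ y, ins (fun _ => 1) (l :: L) 0 ee (fd y) =
      ∫ ρ in (0 : ℝ)..1, pi2 (fun _ => 1) (Gir68.spl (l :: L) 0 l ρ) (0 + 1) ee (fd y) := fun _ => rfl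
  constructor
  · have i2 := ((I h).sub ((I 0).const_mul 2)).add (I (-h))
    rw [D2, e, e, e, ← intervalIntegral.integral_const_mul,
      ← intervalIntegral.integral_sub (I h) ((I 0).const_mul 2),
      ← intervalIntegral.integral_add ((I h).sub ((I 0).const_mul 2)) (I (-h))]
    refine int_le i2 fun ρ hρ => ?_
    obtain ⟨m, k⟩ := gam_spl H hM hρ
    have d := (ch_gam _ 1).d2 (fun y _ => abs_gam m 1 (by norm_num) y) h0 h1
    simp only [D2, gam_zero] at d
    have k' := mul_le_mul_of_nonneg_left k (sq_nonneg h)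
    rw [← abs_of_nonneg (sq_nonneg h), ← abs_mul, abs_of_nonneg (sq_nonneg h)] at k'
    have a := abs_le.1 d
    have b := abs_le.1 k'
    exact abs_le.2 ⟨by linarith [a.1, b.1], by linarith [a.2, b.2]⟩
  · have j1 := (I (2 * h)).sub ((I h).const_mul 4)
    have j2 := j1.add ((I 0).const_mul 6)
    have j3 := j2.sub ((I (-h)).const_mul 4)
    rw [D4, e, e, e, e, e, ← intervalIntegral.integral_const_mul,
      ← intervalIntegral.integral_const_mul, ← intervalIntegral.integral_const_mul,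
      ← intervalIntegral.integral_sub (I _) ((I h).const_mul 4),
      ← intervalIntegral.integral_add j1 ((I 0).const_mul 6),
      ← intervalIntegral.integral_sub j2 ((I (-h)).const_mul 4),
      ← intervalIntegral.integral_add j3 (I _), ← sub_zero (intervalIntegral _ _ _ _)]
    refine int_le (j3.add (I _)) fun ρ hρ => ?_
    have m := (gam_spl H hM hρ).1
    have d := (ch_gam _ 1).d4 (fun y _ => abs_gam m 1 le_rfl y) h0 h1
    simp only [D4, gam_zero] at d
    have p : 0 ≤ h ^ 4 := by positivity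
    have k' := mul_le_mul_of_nonneg_left (abs_gam m 1 (i := 4) (by norm_num) 0) p
    rw [← abs_of_nonneg p, ← abs_mul, abs_of_nonneg p] at k'
    have q : h ^ 5 ≤ h ^ 4 := pow_le_pow_of_le_one h0 h1 (by norm_num)
    have a := abs_le.1 d
    have b := abs_le.1 k'
    exact abs_le.2 ⟨by linarith [a.1, b.1], by linarith [a.2, b.2]⟩

/-- **second and fourth derivative of the Euler identity** -/
theorem Eu.der (H : Eu L ε) {h : ℝ} (h0 : 0 ≤ h) (h1 : h ≤ 1) :
    h ^ 2 * |AA L 2 0 - mg L 1 0 + ex L 0 * tm L 1 * mg L 1 0 ^ 2| ≤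
      8 * ε + 14 ^ 5 * (13 * (1 + tm L L.length) * h ^ 3 + h ^ 2 * (ex L 0 * tm L 1 ^ 2)) ∧
    h ^ 4 * |AA L 4 0 - 3 * mg L 3 0| ≤
      32 * ε + 14 ^ 5 * (432 * (1 + tm L L.length) * h ^ 5 + 37 * h ^ 4 * (ex L 0 * tm L 1)) := by
  obtain ⟨l, L, rfl⟩ := List.exists_cons_of_length_pos H.pos
  set N := l :: L
  have t0 : ∀ j, 0 ≤ tm N j := fun j => tm0 N ▸ H.r1.tm_mono (Nat.zero_le j)
  have t1 : tm N 1 ≤ tm N N.length := H.r1.tm_mono H.pos
  have x := Kid68.ex_mem H.mono 0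
  have κ0 : 0 ≤ ex N 0 / 2 * tm N 1 := mul_nonneg (by linarith [x.1]) (t0 1)
  have κ1 : ex N 0 * tm N 1 ≤ tm N N.length := (mul_le_of_le_one_left (t0 1) x.2).trans t1
  have c := (ch_AA N).sub (ch_ec N)
  have b : ∀ i ≤ 4, ∀ y, |y| ≤ 2 → |AA N (i + 1) y - ec N (i + 1) y| ≤
      (2 * tm N N.length + 6) * 14 ^ 5 := fun i hi y hy =>
    (abs_sub _ _).trans (by linarith [H.abs_AA (i := i + 1) (by omega) y, abs_ec H.mono hi y hy])
  obtain ⟨i2, i4⟩ := ins_d H.r1 H.mono h0 h1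
  have i2' := mul_le_mul_of_nonneg_left i2 κ0
  have i4' := mul_le_mul_of_nonneg_left i4 κ0
  rw [← abs_of_nonneg κ0, ← abs_mul, abs_of_nonneg κ0] at i2' i4'
  have r := fun y => abs_le.1 (H.id y)
  constructor
  · have d := abs_le.1 (c.d2 (b 2 (by norm_num)) h0 h1)
    have k := abs_le.1 i2'
    have p3 : 0 ≤ h ^ 3 := by positivity
    have := mul_le_mul_of_nonneg_left κ1 p3
    have := mul_nonneg (t0 N.length) p3
    have := mul_nonneg (sq_nonneg h) (mul_nonneg x.1 (sq_nonneg (tm N 1)))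
    simp only [D2, ec] at d k r
    rw [← abs_of_nonneg (sq_nonneg h), ← abs_mul, abs_of_nonneg (sq_nonneg h)]
    push_cast at d
    exact abs_le.2 ⟨by linarith [d.2, k.2, (r h).1, (r 0).2, (r (-h)).1],
      by linarith [d.1, k.1, (r h).2, (r 0).1, (r (-h)).2]⟩
  · have d := abs_le.1 (c.d4 (b 4 le_rfl) h0 h1)
    have k := abs_le.1 i4'
    have p4 : 0 ≤ h ^ 4 := by positivity
    have := mul_nonneg (t0 N.length) (by positivity : 0 ≤ h ^ 5)
    have := mul_nonneg p4 κ0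
    simp only [D4, ec] at d k r
    rw [← abs_of_nonneg p4, ← abs_mul, abs_of_nonneg p4]
    push_cast at d
    exact abs_le.2 ⟨by linarith [d.2, k.2, (r (2 * h)).1, (r h).2, (r 0).1, (r (-h)).2,
      (r (-(2 * h))).1], by linarith [d.1, k.1, (r (2 * h)).2, (r h).1, (r 0).2, (r (-h)).1,
      (r (-(2 * h))).2]⟩

end Crest.Agent.T156.Cas.Yd50

end
private theorem rz_8f538b12c9 : type_of% @_root_.Crest.Agent.T156.Cas.Yd50.ec.eq_1 := @_root_.Crest.Agent.T156.Cas.Yd50.ec.eq_1 -- L202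
private theorem rz_491861786c : type_of% @_root_.Crest.Agent.T156.Cas.Yd50.xc.eq_1 := @_root_.Crest.Agent.T156.Cas.Yd50.xc.eq_1 -- L197
end

-- ▼ part T156/R2H12_50

/-!
# Row 156, R2 (helper50): the site inputs `H1`, `H2` of (EE)
-/

set_option autoImplicit false
set_option linter.all false

noncomputable section

namespace Crest.Agent.T156.Cas.C40.E42

open MeasureTheory Real Set Filter Topology
open Crest.Agent.T157.E Crest.Agent.T157.Casc Crest.Agent.T157.SL
open Crest.ProbabilityR.SpinGlassDynamics (spin)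
open Yd50
open Ker15 (R1 tm)

namespace H50

variable {D : CD} {τ0 η : ℝ}

theorem lenS (D : CD) : D.S.length = D.K := opS_length

theorem len (D : CD) (i : ℕ) : (D.S.drop i).length = D.K - i := by rw [List.length_drop, lenS]

theorem r1S (H : OOk D.M D.q) : R1 D.S := Ker15.r1_of (rk_opS H)

theorem tmS (H : OOk D.M D.q) {j : ℕ} (hj : j ≤ D.K) : tm D.S j = D.sig j :=
  (Ker15.tm_eq (rk_opS H) j).trans (TT_opV hj)

theorem tm_drop (H : OOk D.M D.q) {i j : ℕ} (hj : j + i ≤ D.K) :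
    tm (D.S.drop i) j = D.sig (j + i) - D.sig i := by
  rw [← tmS H hj, ← tmS H (by omega : i ≤ D.K), add_comm j]
  simp only [tm, cacc, List.take_add, List.map_append, List.sum_append]
  ring

theorem ex_drop (D : CD) (i j : ℕ) : ex (D.S.drop i) j = ex D.B (j + i) := by
  rw [← Cav22.ex_tilt (tilt_opS (q := D.q))]
  simp only [T157.Casc.ex, List.getElem?_drop, add_comm i]

theorem dm_drop (D : CD) (i j : ℕ) : dm (D.S.drop i) 0 (j + 1) = D.dx (j + 1 + i) := by
  rw [add_right_comm, dm, CD.dx, dm, exP, exP, ex_drop, ex_drop, add_right_comm]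

theorem sig_mono (H : OOk D.M D.q) {i j : ℕ} (h : i ≤ j) (hj : j ≤ D.K) : D.sig i ≤ D.sig j := by
  rw [← tmS H hj, ← tmS H (h.trans hj)]
  exact (r1S H).tm_mono h

theorem sig_nn (H : OOk D.M D.q) {j : ℕ} (hj : j ≤ D.K) : 0 ≤ D.sig j := by
  rw [← tmS H hj, ← tm0 D.S]
  exact (r1S H).tm_mono (Nat.zero_le j)

theorem La1 (H : OOk D.M D.q) : 1 ≤ La D := le_add_of_nonneg_right (sig_nn H le_rfl)

theorem eta_pos (h : Hm D η) (H : OOk D.M D.q) : 0 < η := by
  obtain ⟨i, U, -, -, -, -, -, e⟩ := h.ent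
  refine h.η0.lt_of_ne fun z => ?_
  have := mul_pos (exp_pos (-U / 4)) (pow_pos (one_pos.trans_le (La1 H)) 2)
  rw [← z] at e
  norm_num at e
  linarith

theorem eu (ok : D.Ok τ0) (h : Hm D η) : Eu (D.S.drop D.J) (2 * η ^ 8) := by
  have H := ok.ook
  have c := ok.cut
  have l2 : 1 ≤ La D ^ 2 := one_le_pow₀ (La1 H)
  have p8 : 0 ≤ η ^ 8 := by positivity
  have r1 : R1 (D.S.drop D.J) := fun l hl => r1S H l (List.mem_of_mem_drop hl)
  refine ⟨r1, One15.mono_drop _ (Cav22.mono_tilt tilt_opS.symm ok.mono), by rw [len]; omega, ?_,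
    fun j hj => ?_, fun z => ?_⟩
  · obtain ⟨r, hr⟩ : ∃ r, D.K - D.J = r + 1 := ⟨D.K - D.J - 1, by omega⟩
    rw [len, hr, dm_drop, show r + 1 + D.J = D.K by omega, ok.top]
  · rw [len, Finset.mem_Ico] at hj
    have a := h.mesh (j + D.J) (by omega) (by omega)
    have b := sub_nonneg.2 (sig_mono H (Nat.le_succ (j + D.J)) (by omega))
    rw [tm_drop H (by omega), tm_drop H (by omega), add_right_comm]
    nlinarith
  · obtain ⟨i, U, i0, i1, hm, hU, -, e⟩ := h.ent
    obtain ⟨a, d, M', hM, h0⟩ := h.root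
    obtain ⟨k, rfl⟩ : ∃ k, i = k + D.J := ⟨i - D.J, by omega⟩
    set W := D.sig D.K - D.sig (k + D.J) with hW
    have u : U ≤ W := by
      have t : ∀ j, 0 < j → D.τ j = bb D.n D.β ^ 2 * d := fun j hj => by
        obtain ⟨j, rfl⟩ := Nat.exists_eq_succ_of_ne_zero hj.ne'
        rw [CD.τ, oTau, hM, Kid68.dAcc_root h0]
      have d0 : 0 ≤ d := (H.nn (a, d, 0) (hM ▸ List.mem_cons_self)).1
      have q1 := (H.mem i1.le).2
      have := mul_le_of_le_one_right (by positivity : 0 ≤ bb D.n D.β ^ 2 * d) q1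
      rw [hW, CD.sig, CD.sig, t _ (by omega), t _ (by omega), H.top]
      linarith
    have b : exp (-W / 2) ≤ η ^ 8 := by
      have e1 : exp (-U / 4) ≤ η ^ 8 := (le_mul_of_one_le_right (exp_pos _).le l2).trans e
      have e2 : exp (-W / 2) ≤ exp (-U / 4) * exp (-U / 4) := by
        rw [← exp_add]; exact exp_le_exp.2 (by linarith)
      exact e2.trans ((mul_le_of_le_one_right (exp_pos _).le
        (e1.trans (pow_le_one₀ h.η0 h.η1))).trans e1)
    have e2 := Kid68.node_Sn_tail One15.w1 (fun _ => Or.inr rfl) (L := D.S.drop D.J) (i := k)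
      (by rw [len]; omega) (fun j hj => (ex_drop D _ j).trans (hm _ (by omega)))
      (c := fun e e' => W * (spin e * spin e')) (v := W) (b := η ^ 8) (fun x y => by
        rw [r1.cacc, r1.cacc, tm_drop H (by rw [len]; omega), tm_drop H i1.le, len,
          Nat.sub_add_cancel c.le]
        ring) (fun x _ => by rw [← sq, One15.spin_sq, mul_one]) (fun x _ => by
        have h4 : ∀ (s : Finset Bool), s = {!x} →
            ∑ y ∈ s, 1 * exp (-(W - W * (spin x * spin y)) / 4) ≤ η ^ 8 := by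
          rintro _ rfl
          rw [Finset.sum_singleton, one_mul]
          refine le_of_eq_of_le (congrArg exp ?_) b
          cases x <;> simp [spin] <;> ring
        exact h4 _ (by ext y; cases x <;> cases y <;> simp)) z
    exact abs_le.2 ⟨by linarith [e2.1], e2.2⟩

theorem lam_eq (D : CD) : D.lam = mg (D.S.drop D.J) 1 0 := congrFun ((ch_xc _).itD 2) 0

theorem k4_eq (D : CD) : D.k4 = mg (D.S.drop D.J) 3 0 := congrFun ((ch_xc _).itD 4) 0

/-- `dP r []` in any test direction -/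
theorem dP_nil {a : ℕ → ℝ} (hW : D.W = some a) (r : ℕ) :
    D.dP (r + 1) [] = -∑ j ∈ D.up, a j * gam (D.S.drop D.J) (j - D.J) (r + 1) 0 := by
  have c := Ch.sum D.up a fun j => ch_gam (D.S.drop D.J) (j - D.J)
  have e : (fun y => ∑ j ∈ D.up, a j * Hd50.Tc D D.J y j []) = fun y => -∑ j ∈ D.up, a j * D.q j +
      ∑ j ∈ D.up, a j * gam (D.S.drop D.J) (j - D.J) 0 y := funext fun y => by
    rw [neg_add_eq_sub, ← Finset.sum_sub_distrib]
    exact Finset.sum_congr rfl fun j _ => by rw [Hd50.Tc_nil, Hd50.T_nil, gam_zero, mul_sub]; rfl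
  have := Hd50.dP_test hW (r + 1) (fs := []) (by simp)
  rw [e, iteratedDeriv_const_add (Nat.succ_pos r), c.itD] at this
  exact this

theorem star_dP (ok : D.Ok τ0) {r : ℕ} (hr : r ≤ 4) :
    |(star D).dP (r + 1) [] + AA (D.S.drop D.J) (r + 1) 0| ≤ 14 ^ 5 * D.sig D.J := by
  have H := ok.ook
  have c := ok.cut
  have e : AA (D.S.drop D.J) (r + 1) 0 = ∑ j ∈ D.up, (omS D j - D.sig D.J * D.dx j) *
      gam (D.S.drop D.J) (j - D.J) (r + 1) 0 := by
    rw [show D.up = Finset.Ico (1 + D.J) (D.K - D.J + D.J) from by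
      ext j; simp only [Finset.mem_Ioo, Finset.mem_Ico]; omega, ← Finset.sum_Ico_add', AA, len]
    refine Finset.sum_congr rfl fun j hj => ?_
    rw [Finset.mem_Ico] at hj
    obtain ⟨j, rfl⟩ := Nat.exists_eq_add_of_le' hj.1
    rw [wt, dm_drop, ex_drop, tm_drop H (by omega), tm_drop H (by omega), Nat.add_sub_cancel, omS,
      mv, add_right_comm (j + 1) 1]
    ring
  have d : ∀ j, 0 ≤ D.dx j := dm_nonneg ok.mono
  have u : ∑ j ∈ D.up, D.dx j ≤ 1 := by
    have := sum_dm D.B 0 D.K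
    rw [sub_zero] at this
    exact (Finset.sum_le_sum_of_subset_of_nonneg (fun j hj => Finset.mem_range.2 (by
      have := (Finset.mem_Ioo.1 hj).2; omega)) fun j _ _ => d j).trans
      (this.trans_le (Kid68.ex_mem ok.mono _).2)
  have s0 := sig_nn H c.le
  have m : Mono 0 (D.S.drop D.J) := One15.mono_drop _ (Cav22.mono_tilt tilt_opS.symm ok.mono)
  have e' : (star D).dP (r + 1) [] =
      -∑ j ∈ D.up, omS D j * gam (D.S.drop D.J) (j - D.J) (r + 1) 0 := dP_nil (D := star D) rfl r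
  rw [e', e, neg_add_eq_sub, ← Finset.sum_sub_distrib]
  refine (Finset.abs_sum_le_sum_abs _ _).trans ((Finset.sum_le_sum
    (g := fun j => 14 ^ 5 * D.sig D.J * D.dx j) fun j _ => ?_).trans ?_)
  · have := mul_le_mul_of_nonneg_left (abs_gam m (j - D.J) (i := r + 1) (by omega) 0)
      (mul_nonneg s0 (d j))
    rw [← abs_of_nonneg (mul_nonneg s0 (d j)), ← abs_mul, abs_of_nonneg (mul_nonneg s0 (d j)),
      ← abs_neg] at this
    exact (le_of_eq (congrArg _ (by ring))).trans (this.trans_eq (by ring))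
  · rw [← Finset.mul_sum]
    exact mul_le_of_le_one_right (by positivity) u

theorem nums (ok : D.Ok τ0) (h : Hm D η) : 0 ≤ D.sig D.J ∧ D.sig D.J ≤ D.X ^ 3 ∧ 0 ≤ x1 D ∧
    x1 D ≤ D.X ∧ ex (D.S.drop D.J) 0 = x1 D ∧ tm (D.S.drop D.J) 1 = s1 D - D.sig D.J ∧
    D.sig D.J ≤ s1 D ∧ 1 + tm (D.S.drop D.J) (D.S.drop D.J).length ≤ La D := by
  have H := ok.ook
  have c := ok.cut
  refine ⟨sig_nn H c.le, ?_, (Kid68.ex_mem ok.mono _).1, ok.x1, by rw [ex_drop, zero_add, x1],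
    by rw [tm_drop H (by omega), add_comm, s1], sig_mono H (Nat.le_succ _) c, ?_⟩
  · rw [CD.sig, ok.qlo _ le_rfl, mul_zero, zero_add]
    exact ok.h1
  · rw [tm_drop H (by rw [len]; omega), len, Nat.sub_add_cancel c.le, La]
    linarith [sig_nn H c.le]

end H50

open H50

theorem h1 : H1 := fun τ0 => ⟨3 * 14 ^ 10, by norm_num, fun D η ok h => by
  obtain ⟨a0, a1, x0, xX, ex0, t1, t0, T⟩ := nums ok h
  have p := eta_pos h ok.ook
  have E := eu ok h
  have k := (E.der (h := η ^ 2) (by positivity) (pow_le_one₀ h.η0 h.η1)).1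
  have s := abs_le.1 (star_dP ok (r := 1) (by norm_num))
  have l := abs_mg E.mono (i := 1) (by norm_num) 0
  have l2 : D.lam ^ 2 ≤ 14 ^ 10 := by
    rw [lam_eq, ← sq_abs]
    exact (pow_le_pow_left₀ (abs_nonneg _) l 2).trans_eq (by norm_num)
  rw [← lam_eq, ex0, t1] at k
  have X0 := x0.trans xX
  have L1 := La1 ok.ook
  have b1 : x1 D * (s1 D - D.sig D.J) ^ 2 ≤ D.X ^ 3 :=
    (mul_le_mul xX (pow_le_pow_left₀ (by linarith) (by linarith [h.sX] : _ ≤ D.X) 2) (sq_nonneg _)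
      X0).trans_eq (by ring)
  have b2 : x1 D * D.sig D.J * D.lam ^ 2 ≤ D.X ^ 3 * 14 ^ 10 :=
    mul_le_mul ((mul_le_of_le_one_left a0 (xX.trans ok.X1)).trans a1) l2 (sq_nonneg _)
      (by positivity)
  have b3 : 0 ≤ x1 D * D.sig D.J * D.lam ^ 2 := by positivity
  have z : |AA (D.S.drop D.J) 2 0 - D.lam + x1 D * (s1 D - D.sig D.J) * D.lam ^ 2| ≤
      16 * η + 14 ^ 5 * (13 * (La D * η) + D.X ^ 3) := by
    refine le_of_mul_le_mul_left (k.trans ?_) (by positivity : 0 < (η ^ 2) ^ 2)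
    have e1 : η ^ 8 ≤ η ^ 5 := pow_le_pow_of_le_one h.η0 h.η1 (by norm_num)
    have e2 : (1 + tm (D.S.drop D.J) (D.S.drop D.J).length) * η ^ 6 ≤ La D * η ^ 5 :=
      mul_le_mul T (pow_le_pow_of_le_one h.η0 h.η1 (by norm_num)) (by positivity) (by linarith)
    have e3 := mul_le_mul_of_nonneg_left b1 (by positivity : 0 ≤ η ^ 4)
    linarith
  have z' := abs_le.1 z
  have X3 : 0 ≤ D.X ^ 3 := by positivity
  have c1 := le_mul_of_one_le_left X3 L1
  have c2 := le_mul_of_one_le_left h.η0 L1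
  exact abs_le.2 ⟨by linarith [z'.2, s.1, h.η0], by linarith [z'.1, s.2, h.η0]⟩⟩

theorem h2 : H2 := fun τ0 => ⟨14 ^ 10, by norm_num, fun D η ok h => by
  obtain ⟨a0, a1, x0, xX, ex0, t1, t0, T⟩ := nums ok h
  have p := eta_pos h ok.ook
  have E := eu ok h
  have k := (E.der h.η0 h.η1).2
  have s := abs_le.1 (star_dP ok (r := 3) (by norm_num))
  rw [← k4_eq, ex0, t1] at k
  have X0 := x0.trans xX
  have L1 := La1 ok.ook
  have b1 : x1 D * (s1 D - D.sig D.J) ≤ D.X :=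
    (mul_le_of_le_one_right x0 (by linarith [h.sX, ok.X1])).trans xX
  have b2 : D.X ^ 3 ≤ D.X := pow_le_of_le_one X0 ok.X1 (by norm_num)
  have z : |AA (D.S.drop D.J) 4 0 - 3 * D.k4| ≤
      64 * η + 14 ^ 5 * (432 * (La D * η) + 37 * D.X) := by
    refine le_of_mul_le_mul_left (k.trans ?_) (by positivity : 0 < η ^ 4)
    have e1 : η ^ 8 ≤ η ^ 5 := pow_le_pow_of_le_one h.η0 h.η1 (by norm_num)
    have e2 := mul_le_mul_of_nonneg_right T (by positivity : 0 ≤ η ^ 5)
    have e3 := mul_le_mul_of_nonneg_left b1 (by positivity : 0 ≤ η ^ 4)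
    linarith
  have z' := abs_le.1 z
  have c1 := le_mul_of_one_le_left X0 L1
  have c2 := le_mul_of_one_le_left h.η0 L1
  exact abs_le.2 ⟨by linarith [z'.2, s.1, h.η0], by linarith [z'.1, s.2, h.η0]⟩⟩

end Crest.Agent.T156.Cas.C40.E42

end
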