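import Crest.Agent.T156.ErrM_35
import Crest.Agent.T156.ErrT_5

-- ▼ part T156/ErrO_35
section

/-!
# Row 156: the clauses `nl`, `nl2`, `q2a` of `CD.Ok` from block data (helper35)
-/

set_option autoImplicit false
set_option linter.unusedSectionVars false

noncomputable section

namespace Crest.Agent.T156.Cas.C40.BD

open Real Finset ErrL

variable {D : CD} {B : ℕ} {lev : ℕ → ℕ} {t c e al A : ℕ → ℝ} (h : BD D B lev t c e al A)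
  {a ab lam E : ℕ → ℝ} {Λ w δ : ℝ} (N : NB B t c e al ab lam E Λ w δ) (d : Den D lev a ab)
include h N d

theorem pw {i j : ℕ} (k : i ≤ j) : Λ ^ i * δ ≤ Λ ^ j * δ :=
  mul_le_mul_of_nonneg_right (pow_le_pow_right₀ N.Λ1 k) N.δ0

/-- the total weight times a nonnegative number, in the test direction -/
theorem wt_dd {x y : ℝ} (x0 : 0 ≤ x) (hx : w * x ≤ y) : D.wt * x * D.dd 0 1 ≤ Λ ^ 2 * y := by
  have y0 : 0 ≤ y := (mul_nonneg N.w0.le x0).trans hx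
  have k := mul_le_mul_of_nonneg_right (h.wt_N N d) x0
  have k2 := mul_le_mul_of_nonneg_left hx (sq_nonneg Λ)
  unfold CD.wt CD.dd
  cases D.W with
  | none => simpa using mul_nonneg (sq_nonneg Λ) y0
  | some ω => simp only [mul_one]; linarith

/-- the left side of `q2a` -/
theorem q2a_N : D.wt * D.I (fun j => √(D.v j j) * D.lw (fun k => D.e k * √(D.v k k)) j) *
    D.dd 0 1 + D.Iw (fun j => √(D.v j j) * (D.f0 j + D.sv D.f0 D.J +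
      D.lw (fun k => D.e k * √(D.v k k)) j + D.hi (fun k => √(D.v k k)) j)) +
    D.Iw (fun j => D.f0 j * (D.f0 j + D.sv D.f0 D.J)) ≤ 7 * (Λ ^ 6 * δ) := by
  have k := h.wt_dd N d (sum_nonneg fun j hj => mul_nonneg (h.dx0 j)
    (mul_nonneg (sqrt_nonneg (D.v j j)) (h.lw0 hj))) (h.alw_N N)
  have k1 := h.leg_N N d
  have k2 := h.ff_N N d
  have k3 := h.pw N d (i := 4) (j := 6) (by norm_num)
  unfold CD.I
  linarith

/-- the extra term of `nl2` -/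
theorem nlx_N (hK : log ((D.K : ℝ) + 2) ≤ Λ) : log ((D.K : ℝ) + 2) *
    (1 + D.sv (fun _ => 1) D.J) ^ 2 * (D.I (fun t => D.e t * √(D.v t t)) *
      √(D.I fun t => a t ^ 2 * A t)) ≤ 4 * (Λ ^ 8 * δ) := by
  have L0 := h.Λ0 N
  have L1 := N.Λ1
  have d0 := N.δ0
  have k3 : √(D.I fun j => a j ^ 2 * A j) ≤ Λ * (√w * √δ) := (sqrt_le_sqrt
    (h.I_A (fun j hj _ => h.a_sq d hj) fun _ => sq_nonneg _)).trans (h.sqrt_ab N d)
  have g0 : 0 ≤ Sg B fun k => e k * al k := Sg0 fun k _ => mul_nonneg (h.ee0 k) (h.al0 k)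
  have k4 := mul_le_mul h.I_ea k3 (sqrt_nonneg _) g0
  have k5 := mul_le_mul_of_nonneg_left (h.ea_r N le_rfl (z := √w * √δ) le_rfl) L0
  have k6 : D.I (fun t => D.e t * √(D.v t t)) * √(D.I fun t => a t ^ 2 * A t) ≤ Λ ^ 3 * δ := by
    linarith
  have k0 : 0 ≤ D.I (fun t => D.e t * √(D.v t t)) * √(D.I fun t => a t ^ 2 * A t) :=
    mul_nonneg (sum_nonneg fun j hj => mul_nonneg (h.dx0 j)
      (mul_nonneg (h.e0 j hj) (sqrt_nonneg _))) (sqrt_nonneg _)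
  have k7 : Sg B c ≤ Λ * Λ := Sg_le' N.BΛ L0 fun i hi => (N.cE i hi).trans (N.EΛ i hi)
  have k8 : 0 ≤ D.sv (fun _ => 1) D.J := h.sv0 fun _ _ => zero_le_one
  have k9 : (1 + D.sv (fun _ => 1) D.J) ^ 2 ≤ (2 * Λ ^ 2) ^ 2 :=
    pow_le_pow_left₀ (by linarith) (by nlinarith [h.sv_one]) 2
  have := mul_le_mul (mul_le_mul hK k9 (sq_nonneg _) L0) k6 k0 (by positivity)
  linarith

/-- **the clause `q2a`** -/
theorem q2a (hZ : 22 * (Λ ^ 9 * δ) ≤ D.Z) :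
    D.wt * D.I (fun j => √(D.v j j) * D.lw (fun k => D.e k * √(D.v k k)) j) * D.dd 0 1 +
    D.Iw (fun j => √(D.v j j) * (D.f0 j + D.sv D.f0 D.J +
      D.lw (fun k => D.e k * √(D.v k k)) j + D.hi (fun k => √(D.v k k)) j)) +
    D.Iw (fun j => D.f0 j * (D.f0 j + D.sv D.f0 D.J)) ≤ D.Z := by
  have := h.pw N d (i := 6) (j := 9) (by norm_num)
  have := mul_nonneg (pow_nonneg (h.Λ0 N) 9) N.δ0
  linarith [h.q2a_N N d]

/-- **the clause `nl2`** -/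
theorem nl2 (hK : log ((D.K : ℝ) + 2) ≤ Λ) (hZ : 22 * (Λ ^ 9 * δ) ≤ D.Z) :
    D.NLa ≤ D.Z ∨ ∃ a l A : ℕ → ℝ, (∀ j ∈ D.up, D.om j = D.dx j * a j) ∧ (∀ j, 0 < l j) ∧
    (∀ j, l j ≤ l (j + 1)) ∧ D.Add A ∧ D.TFa a l A + log (D.K + 2) *
      (1 + D.sv (fun _ => 1) D.J) ^ 2 *
        (D.I (fun t => D.e t * √(D.v t t)) * √(D.I fun t => a t ^ 2 * A t)) ≤ D.Z :=
  Or.inr ⟨a, fun j => lam (lev j), A, d.om, fun _ => N.l0 _,
    fun j => N.lm (h.mono (Nat.le_succ j)), h.add, by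
      linarith [h.TFa_le d N.l0, h.TF_N N d hK, h.nlx_N N d hK,
        h.pw N d (i := 8) (j := 9) (by norm_num)]⟩

/-- **the clause `nl`** -/
theorem nl1 (hK : log ((D.K : ℝ) + 2) ≤ Λ) (hZ : 22 * (Λ ^ 9 * δ) ≤ D.Z) :
    D.NLa ≤ D.Z ∨ ∃ a l A : ℕ → ℝ, (∀ j ∈ D.up, D.om j = D.dx j * a j) ∧ (∀ j, 0 < l j) ∧
    (∀ j, l j ≤ l (j + 1)) ∧ D.Add A ∧ D.TFa a l A ≤ D.Z :=
  h.nl d N.l0 N.lm (by
    linarith [h.TF_N N d hK, mul_nonneg (pow_nonneg (h.Λ0 N) 9) N.δ0])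


end Crest.Agent.T156.Cas.C40.BD

end
end

-- ▼ part T156/ErrP_35

/-!
# Row 156: admissibility and the size of `Err` for a test datum, from numbers (helper35)
-/

set_option autoImplicit false
set_option linter.unusedSectionVars false

noncomputable section

namespace Crest.Agent.T156.Cas.C40

open Real Finset
open Crest.Agent.T157.E Crest.Agent.T157.Casc Crest.Agent.T157.SL
open Crest.Agent.T157.G1 (ov)
open Mul55 CD Et5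

/-- the same datum with another `Z` -/
def CD.wz (D : CD) (z : ℝ) : CD := { D with Z := z }

/-- `CD.Ok` without the clauses on `Z` -/
structure Ok0 (D : CD) (τ0 : ℝ) : Prop where
  pos : 0 < D.n
  ook : OOk D.M D.q
  mono : Mono 0 D.B
  cut : D.J < D.K
  top : D.dx D.K = 0
  tau : D.τ D.K ≤ τ0
  qlo : ∀ j ≤ D.J, D.q j = 0
  X1 : D.X ≤ 1
  x1 : ex D.B D.J ≤ D.X
  h1 : fAcc D.M D.J ≤ D.X ^ 3
  stt : D.W = none → ∀ j ∈ D.up, |D.Gam j - D.q j| ≤ D.X ^ 3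
  tl0 : 0 ≤ D.tl
  envL : ∀ j ∈ D.lo, D.E2 j (fun x y => max (|ov x y| - D.X) 0) ≤ D.tl
  envU : ∀ j ∈ D.up, D.E2 j (fun x y => max (|oU D.q j x y| - D.e j) 0) ≤ D.tl
  eX : ∀ j, D.X ≤ D.e j
  emono : ∀ j, D.e j ≤ D.e (j + 1)
  esc : ∀ j ∈ D.up, min 1 (ex D.B j + D.sig j) ≤ D.e j
  wk0 : D.Wk D.dx D.F0 D.f0
  wk1 : D.Wk2 D.om D.F1 D.f1
  qe : ∀ j ∈ D.up, D.q j ≤ D.e j
  wkp : D.Wp D.dx D.f0 ∧ D.Wp D.om D.f1
  wg0 : D.Wk2 D.dx D.G0 D.f0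
  gF : ∀ j, D.G0 j ≤ D.F0 j

namespace CD

/-- left sides of the clauses on `Z` -/
def stwL (D : CD) : ℝ := D.Iw (fun j => D.g j * (D.gq j * D.g j + D.I fun t => D.gq t * D.g t)) +
  (D.K + 1) ^ 2 * D.tl
def xcL (D : CD) : ℝ := D.wt * (D.N1 * D.N2) * D.dd 0 1 +
  D.Iw (fun j => min (D.g j * D.lw (fun t => D.g t ^ 2) j)
    (√(D.u 2 j) * D.lw (fun t => √(D.u 4 t)) j))
def q2L (D : CD) : ℝ :=
  D.wt * D.I (fun j => √(D.v j j) * D.lw (fun k => D.e k * √(D.v k k)) j) * D.dd 0 1 +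
    D.Iw (fun j => √(D.v j j) * (D.f0 j + D.sv D.f0 D.J +
      D.lw (fun k => D.e k * √(D.v k k)) j + D.hi (fun k => √(D.v k k)) j)) +
    D.Iw (fun j => D.f0 j * (D.f0 j + D.sv D.f0 D.J))
def stqL (D : CD) : ℝ :=
  (D.wt * (D.I (fun t => D.gq t * D.g t ^ 2) + D.I (fun t => D.gq t * D.g t) * D.N1) +
    D.Iw fun j => D.gq j * (D.g j * D.N1 + D.N2 + D.N1 ^ 2)) * D.dd 0 1
def nlP (D : CD) (z : ℝ) : Prop := D.NLa ≤ z ∨ ∃ a l A : ℕ → ℝ,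
  (∀ j ∈ D.up, D.om j = D.dx j * a j) ∧ (∀ j, 0 < l j) ∧ (∀ j, l j ≤ l (j + 1)) ∧ D.Add A ∧
    D.TFa a l A ≤ z
def nl2P (D : CD) (z : ℝ) : Prop := D.NLa ≤ z ∨ ∃ a l A : ℕ → ℝ,
  (∀ j ∈ D.up, D.om j = D.dx j * a j) ∧ (∀ j, 0 < l j) ∧ (∀ j, l j ≤ l (j + 1)) ∧ D.Add A ∧
    D.TFa a l A + log (D.K + 2) * (1 + D.sv (fun _ => 1) D.J) ^ 2 *
      (D.I (fun t => D.e t * √(D.v t t)) * √(D.I fun t => a t ^ 2 * A t)) ≤ z

theorem Ok.ok0 {D : CD} {τ0 : ℝ} (h : D.Ok τ0) : Ok0 D τ0 :=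
  ⟨h.pos, h.ook, h.mono, h.cut, h.top, h.tau, h.qlo, h.X1, h.x1, h.h1, h.stt, h.tl0, h.envL, h.envU,
    h.eX, h.emono, h.esc, h.wk0, h.wk1, h.qe, h.wkp, h.wg0, h.gF⟩

end CD

namespace Ok0

variable {D : CD} {τ0 : ℝ} (h : Ok0 D τ0)
include h

theorem wz (z : ℝ) : Ok0 (D.wz z) τ0 :=
  ⟨h.pos, h.ook, h.mono, h.cut, h.top, h.tau, h.qlo, h.X1, h.x1, h.h1, h.stt, h.tl0, h.envL, h.envU,
    h.eX, h.emono, h.esc, ⟨h.wk0.1, h.wk0.2, h.wk0.3, h.wk0.4, h.wk0.5, h.wk0.6⟩,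
    ⟨h.wk1.1, h.wk1.2, h.wk1.3, h.wk1.4, h.wk1.5, h.wk1.6⟩, h.qe, h.wkp,
    ⟨h.wg0.1, h.wg0.2, h.wg0.3, h.wg0.4, h.wg0.5, h.wg0.6⟩, h.gF⟩

theorem ok (h1 : D.nlP D.Z) (h2 : D.stwL ≤ D.Z) (h3 : D.xcL ≤ D.Z) (h4 : D.q2L ≤ D.Z)
    (h5 : D.nl2P D.Z) (h6 : D.A1 ≤ D.Z) (h7 : D.stqL ≤ D.Z) : D.Ok τ0 :=
  ⟨h.pos, h.ook, h.mono, h.cut, h.top, h.tau, h.qlo, h.X1, h.x1, h.h1, h.stt, h.tl0, h.envL, h.envU,
    h.eX, h.emono, h.esc, h.wk0, h.wk1, h1, h2, h.qe, h3, h.wkp, h4, h5, h.wg0, h.gF, h6, h7⟩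

theorem okz {z : ℝ} (h1 : D.nlP z) (h2 : D.stwL ≤ z) (h3 : D.xcL ≤ z) (h4 : D.q2L ≤ z)
    (h5 : D.nl2P z) (h6 : D.A1 ≤ z) (h7 : D.stqL ≤ z) : (D.wz z).Ok τ0 :=
  (h.wz z).ok h1 h2 h3 h4 h5 h6 h7

/-- some `Z` is admissible -/
theorem big : ∃ z, (D.wz z).Ok τ0 := by
  have a := abs_nonneg D.NLa
  have b := abs_nonneg D.stwL
  have c := abs_nonneg D.xcL
  have d := abs_nonneg D.q2L
  have e := abs_nonneg D.A1
  have f := abs_nonneg D.stqL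
  refine ⟨|D.NLa| + |D.stwL| + |D.xcL| + |D.q2L| + |D.A1| + |D.stqL|,
    h.okz (Or.inl ?_) ?_ ?_ ?_ (Or.inl ?_) ?_ ?_⟩
  exacts [by linarith [le_abs_self D.NLa], by linarith [le_abs_self D.stwL],
    by linarith [le_abs_self D.xcL], by linarith [le_abs_self D.q2L],
    by linarith [le_abs_self D.NLa], by linarith [le_abs_self D.A1],
    by linarith [le_abs_self D.stqL]]

end Ok0

theorem Et5.Tc.wz {D : CD} {B V N Φ L F F' w a1 a2 : ℝ} (T : Tc D B V N Φ L F F' w a1 a2) (z : ℝ) :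
    Tc (D.wz z) B V N Φ L F F' w a1 a2 :=
  ⟨T.1, T.2, T.3, T.4, T.5, T.6, T.7, T.8, T.9, T.10, T.11, T.12, T.13, T.14, T.15, T.16⟩

theorem BD.wz {D : CD} {B : ℕ} {lev : ℕ → ℕ} {t c e al A : ℕ → ℝ} (h : BD D B lev t c e al A)
    (z : ℝ) : BD (D.wz z) B lev t c e al A :=
  ⟨h.1, h.2, h.3, h.4, h.5, h.6, h.7, h.8, h.9, h.10, h.11, h.12, h.13, h.14, h.15, h.16, h.17,
    h.18⟩

theorem Den.wz {D : CD} {lev : ℕ → ℕ} {a ab : ℕ → ℝ} (h : Den D lev a ab) (z : ℝ) :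
    Den (D.wz z) lev a ab := ⟨h.1, h.2, h.3⟩

/-- scaling of the test measure -/
theorem NB.smul {B : ℕ} {t c e al ab lam E : ℕ → ℝ} {Λ w δ : ℝ}
    (N : NB B t c e al ab lam E Λ w δ) {x : ℝ} (hx : 0 < x) :
    NB B t c e al (fun i => x * ab i) (fun i => x * lam i) E Λ (x * w) (x * δ) :=
  ⟨fun i => mul_pos hx (N.l0 i), fun _ _ k => mul_le_mul_of_nonneg_left (N.lm k) hx.le, N.Em, N.Λ1,
    N.BΛ, mul_pos hx N.w0, mul_nonneg hx.le N.δ0, N.tE, N.cE, N.eE, N.EΛ,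
    fun i k => mul_le_mul_of_nonneg_left (N.abl i k) hx.le,
    fun i k => mul_le_mul_of_nonneg_left (N.lw i k) hx.le,
    fun i k => by linarith [mul_le_mul_of_nonneg_left (N.n1 i k) hx.le],
    fun i k => by linarith [mul_le_mul_of_nonneg_left (N.n2 i k) hx.le]⟩

/-- the remaining numbers -/
structure Nz (D : CD) (Φ dI dW U UW S1 S2 S3 S4 S5 : ℝ) : Prop where
  r4 : D.I (fun j => √(D.u 4 j)) ≤ Φ
  dI : D.I D.dx ≤ dI
  dW : D.Iw D.dx ≤ dW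
  U : D.I (fun j => D.u 4 j + D.u 5 j) ≤ U
  UW : D.Iw (fun j => D.u 4 j + D.u 5 j) ≤ UW
  S1 : D.Iw (fun j => D.gq j * D.g j ^ 2) ≤ S1
  S2 : D.I (fun j => D.gq j * D.g j) ≤ S2
  S3 : D.I (fun j => D.gq j * D.g j ^ 2) ≤ S3
  S4 : D.Iw (fun j => D.gq j * D.g j) ≤ S4
  S5 : D.Iw D.gq ≤ S5

theorem Nz.wz {D : CD} {Φ dI dW U UW S1 S2 S3 S4 S5 : ℝ} (h : Nz D Φ dI dW U UW S1 S2 S3 S4 S5)
    (z : ℝ) : Nz (D.wz z) Φ dI dW U UW S1 S2 S3 S4 S5 :=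
  ⟨h.1, h.2, h.3, h.4, h.5, h.6, h.7, h.8, h.9, h.10⟩

section
variable {D : CD} {τ0 B V N Φ L F F' w a1 a2 dI dW U UW S1 S2 S3 S4 S5 : ℝ}
  (T : Tc D B V N Φ L F F' w a1 a2) (h : D.Ok τ0) (Z : Nz D Φ dI dW U UW S1 S2 S3 S4 S5)
include T h

theorem xc_le : D.xcL ≤ (w * N + a1) * Φ := by
  obtain ⟨B0, V0, N0, Φ0, L0, F0, F0', w0, a10, a20⟩ := T.nn h
  have k1 := mul_le_mul T.w (mul_le_mul T.n1 T.n2 h.N20 N0) (mul_nonneg h.N10 h.N20) w0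
  have k2 : D.Iw (fun j => min (D.g j * D.lw (fun t => D.g t ^ 2) j)
      (√(D.u 2 j) * D.lw (fun t => √(D.u 4 t)) j)) ≤ D.Iw fun j => Φ * D.g j :=
    D.Iw_mono fun j hj => (min_le_left _ _).trans ((mul_le_mul_of_nonneg_left
      ((lw_le h (fun t => sq_nonneg (D.g t)) (mem_up.1 hj).2.le).trans T.n2)
      (D.g0 j)).trans_eq (mul_comm _ _))
  rw [D.Iw_mul] at k2
  have k3 := mul_le_mul_of_nonneg_left T.a1 Φ0
  rw [xcL, dd_test T.W]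
  linarith

include Z

theorem S20 : 0 ≤ S2 := (h.I0 fun j _ => mul_nonneg (abs_nonneg _) (D.g0 j)).trans Z.S2

theorem S10 : 0 ≤ S1 := (D.Iw0 fun _ _ => mul_nonneg (abs_nonneg _) (sq_nonneg _)).trans Z.S1

theorem stw_le : D.stwL ≤ S1 + a1 * S2 + (D.K + 1) ^ 2 * D.tl := by
  have k : D.Iw (fun j => D.g j * (D.gq j * D.g j + D.I fun t => D.gq t * D.g t)) ≤
      D.Iw fun j => D.gq j * D.g j ^ 2 + S2 * D.g j := D.Iw_mono fun j _ => by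
    linarith [mul_le_mul_of_nonneg_left Z.S2 (D.g0 j)]
  rw [D.Iw_add, D.Iw_mul] at k
  have := mul_le_mul_of_nonneg_left T.a1 (S20 T h Z)
  rw [stwL]
  linarith [Z.S1]

theorem stq_le : D.stqL ≤ w * (S3 + S2 * N) + (N * S4 + 2 * Φ * S5) := by
  obtain ⟨B0, V0, N0, Φ0, L0, F0, F0', w0, a10, a20⟩ := T.nn h
  have a1 : 0 ≤ D.I (fun t => D.gq t * D.g t ^ 2) :=
    h.I0 fun j _ => mul_nonneg (abs_nonneg _) (sq_nonneg _)
  have a2 : 0 ≤ D.I (fun t => D.gq t * D.g t) :=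
    h.I0 fun j _ => mul_nonneg (abs_nonneg _) (D.g0 j)
  have k1 := mul_le_mul T.w (add_le_add Z.S3 (mul_le_mul Z.S2 T.n1 h.N10 (S20 T h Z)))
    (add_nonneg a1 (mul_nonneg a2 h.N10)) w0
  have k2 : D.Iw (fun j => D.gq j * (D.g j * D.N1 + D.N2 + D.N1 ^ 2)) ≤
      D.Iw fun j => N * (D.gq j * D.g j) + 2 * Φ * D.gq j := D.Iw_mono fun j _ => by
    have g0 : 0 ≤ D.gq j := abs_nonneg _
    linarith [mul_le_mul_of_nonneg_left T.n1 (mul_nonneg g0 (D.g0 j)),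
      mul_le_mul_of_nonneg_left T.n2 g0, mul_le_mul_of_nonneg_left (T.N11 h) g0]
  rw [D.Iw_add, D.Iw_mul, D.Iw_mul] at k2
  have k3 := mul_le_mul_of_nonneg_left Z.S4 N0
  have k4 := mul_le_mul_of_nonneg_left Z.S5 (show 0 ≤ 2 * Φ by positivity)
  rw [stqL, dd_test T.W, mul_one]
  linarith

theorem stq0 : 0 ≤ w * (S3 + S2 * N) + (N * S4 + 2 * Φ * S5) := by
  obtain ⟨B0, V0, N0, Φ0, L0, F0, F0', w0, a10, a20⟩ := T.nn h
  have a2 := S20 T h Z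
  have a3 : 0 ≤ S3 := (h.I0 fun j _ => mul_nonneg (abs_nonneg _) (sq_nonneg _)).trans Z.S3
  have a4 : 0 ≤ S4 := (D.Iw0 fun j _ => mul_nonneg (abs_nonneg _) (D.g0 j)).trans Z.S4
  have a5 : 0 ≤ S5 := (D.Iw0 fun j _ => abs_nonneg _).trans Z.S5
  positivity

theorem zA_le : D.A1 ≤ F' * (1 + V) * Φ + √D.tl * ((1 + V) * (2 * F' + 2 * B * F * w)) := by
  obtain ⟨B0, V0, N0, Φ0, L0, F0, F0', w0, a10, a20⟩ := T.nn h
  have k1 : D.I (fun j => √(D.u 4 j) * D.fs D.F1 j) ≤ D.I fun j => F' * (1 + V) * √(D.u 4 j) :=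
    h.I_mono fun j hj => (mul_le_mul_of_nonneg_left (T.fF1 h (mem_up.1 hj).1.le)
      (sqrt_nonneg _)).trans_eq (mul_comm _ _)
  rw [D.I_mul] at k1
  have k2 := mul_le_mul_of_nonneg_left Z.r4 (show 0 ≤ F' * (1 + V) by positivity)
  have k3 : D.Iw (fun j => D.e j * D.G0 j) ≤ D.Iw fun _ => B * F := D.Iw_mono fun j hj =>
    mul_le_mul (T.eB j hj) ((h.gF j).trans ((h.wk0.F_anti (mem_up.1 hj).1).trans T.F0))
      (h.G00 j) B0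
  rw [D.Iw_const, ← wt_test T.W] at k3
  have k4 := mul_le_mul_of_nonneg_left T.w (mul_nonneg B0 F0)
  have k5 : D.fs D.G0 D.J ≤ F * (1 + V) :=
    fs_le h h.G00 h.wg0.F_anti ((h.gF _).trans T.F0) T.V le_rfl
  have k6 := mul_le_mul T.w k5 (h.fs0 h.G00 _) w0
  have k7 := mul_le_mul_of_nonneg_right T.B1 (show 0 ≤ w * (F * (1 + V)) by positivity)
  have k8 : 0 ≤ B * F * w * V := by positivity
  have k9 : D.fs D.F1 D.J + D.fs D.f1 D.J + D.Iw (fun j => D.e j * D.G0 j) +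
      D.wt * D.fs D.G0 D.J ≤ (1 + V) * (2 * F' + 2 * B * F * w) := by
    linarith [T.fF1 h le_rfl, T.ff1 h le_rfl]
  have := mul_le_mul_of_nonneg_left k9 (sqrt_nonneg D.tl)
  rw [A1]
  linarith

end

/-- the ladder part of `Err` without the low term -/
theorem BD.lad_N' {D : CD} {B : ℕ} {lev : ℕ → ℕ} {t c e al A : ℕ → ℝ} (h : BD D B lev t c e al A)
    {a ab lam E : ℕ → ℝ} {Λ w δ : ℝ} (N : NB B t c e al ab lam E Λ w δ) (d : Den D lev a ab)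
    (hW : D.W.isSome = true) :
    D.wt * (D.Lad0 + D.VF) + D.Lad1 ≤ D.wt * (D.X ^ 2 * D.Lv1) + 6 * (Λ ^ 7 * δ) := by
  have l0 : 0 ≤ D.Lad0 - D.X ^ 2 * D.Lv1 := by
    have a1 : 0 ≤ D.I (fun t => D.e t ^ 2 * D.v t t) := sum_nonneg fun j _ => mul_nonneg (h.dx0 j)
      (mul_nonneg (sq_nonneg _) (h.v0 j j))
    have a2 : 0 ≤ D.I fun t => D.e t * ∑ y ∈ Ico 1 t, D.dx y * D.v y t :=
      sum_nonneg fun j hj => mul_nonneg (h.dx0 j) (mul_nonneg (h.e0 j hj) (h.lad0 j))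
    rw [Lad0]; linarith
  have v0 : 0 ≤ D.VF := add_nonneg (sq_nonneg _) (h.sv0 fun _ _ => sq_nonneg _)
  have k := h.wt_dd N d (add_nonneg l0 v0) (y := 2 * (Λ * δ) + 2 * (Λ ^ 5 * δ))
    (by linarith [h.Lad0_N N, h.VF_N N])
  rw [dd_test hW, mul_one] at k
  have := h.pw N d (i := 1) (j := 7) (by norm_num)
  have := h.pw N d (i := 3) (j := 7) (by norm_num)
  linarith [h.Lad1_N N d]

/-- the homogeneous part of the bound: linear in `F' w a1 a2 dW UW S1 S4 S5` -/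
def Pe (B V N Φ L F X n dI U S2 S3 r F' w a1 a2 dW UW S1 S4 S5 : ℝ) : ℝ :=
  w * (X ^ 6 + X ^ 2 * L + 1 / n + dI + U) + dW + UW + S1 + a1 * S2 +
    (w * (S3 + S2 * N) + (N * S4 + 2 * Φ * S5)) +
    r * ((1 + V) * (2 * F' + 2 * B * F * w)) +
    7 * B * (1 + V) * (w * ((L + Φ) * (N + F) + L * Φ) + (L + Φ) * (a1 + F') + (L + N + F) * a2)

theorem Pe_smul (x B V N Φ L F X n dI U S2 S3 r F' w a1 a2 dW UW S1 S4 S5 : ℝ) :
    x * Pe B V N Φ L F X n dI U S2 S3 r F' w a1 a2 dW UW S1 S4 S5 = Pe B V N Φ L F X n dI U S2 S3 r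
      (x * F') (x * w) (x * a1) (x * a2) (x * dW) (x * UW) (x * S1) (x * S4) (x * S5) := by
  unfold Pe; ring

/-- **admissibility and size of the error** -/
theorem err_Z {D : CD} {τ0 B V N Φ L F F' w a1 a2 dI dW U UW S1 S2 S3 S4 S5 : ℝ} (h : Ok0 D τ0)
    (T : Tc D B V N Φ L F F' w a1 a2) (Z : Nz D Φ dI dW U UW S1 S2 S3 S4 S5) {Bn : ℕ} {lev : ℕ → ℕ}
    {t c e al A a ab lam E : ℕ → ℝ} {Λ w' δ : ℝ} (b : BD D Bn lev t c e al A)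
    (Nb : NB Bn t c e al ab lam E Λ w' δ) (d : Den D lev a ab) (hK : log ((D.K : ℝ) + 2) ≤ Λ) :
    ∃ z, (D.wz z).Ok τ0 ∧ (D.wz z).Err ≤
      Pe B V N Φ L F D.X D.n dI U S2 S3 √D.tl F' w a1 a2 dW UW S1 S4 S5 + (1 + w) * ((D.K + 1) ^ 2 * D.tl) + 28 * (Λ ^ 9 * δ) := by
  obtain ⟨z0, h0⟩ := h.big
  obtain ⟨B0, V0, N0, Φ0, L0, F0, F0', w0, a10, a20⟩ := (T.wz z0).nn h0
  have k1 : D.xcL ≤ (w * N + a1) * Φ := xc_le (D := D.wz z0) (T.wz z0) h0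
  have k2 : D.stwL ≤ S1 + a1 * S2 + (D.K + 1) ^ 2 * D.tl := stw_le (D := D.wz z0) (T.wz z0) h0 (Z.wz z0)
  have k3 : D.A1 ≤ F' * (1 + V) * Φ + √D.tl * ((1 + V) * (2 * F' + 2 * B * F * w)) :=
    zA_le (D := D.wz z0) (T.wz z0) h0 (Z.wz z0)
  have k4 : D.stqL ≤ w * (S3 + S2 * N) + (N * S4 + 2 * Φ * S5) :=
    stq_le (D := D.wz z0) (T.wz z0) h0 (Z.wz z0)
  have p4 := stq0 (T.wz z0) h0 (Z.wz z0)
  have s1 := S10 (T.wz z0) h0 (Z.wz z0)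
  have s2 := S20 (T.wz z0) h0 (Z.wz z0)
  have t0 := h.tl0
  have p0 : 0 ≤ Λ ^ 9 * δ := mul_nonneg (pow_nonneg (b.Λ0 Nb) 9) Nb.δ0
  have p1 : 0 ≤ (w * N + a1) * Φ := by positivity
  have p2 : 0 ≤ S1 + a1 * S2 + (D.K + 1) ^ 2 * D.tl := by positivity
  have p3 : 0 ≤ F' * (1 + V) * Φ + √D.tl * ((1 + V) * (2 * F' + 2 * B * F * w)) := by positivity
  set z := (w * N + a1) * Φ + (S1 + a1 * S2 + (D.K + 1) ^ 2 * D.tl) +
    (F' * (1 + V) * Φ + √D.tl * ((1 + V) * (2 * F' + 2 * B * F * w))) +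
    (w * (S3 + S2 * N) + (N * S4 + 2 * Φ * S5)) + 22 * (Λ ^ 9 * δ) with hz
  have hZ : 22 * (Λ ^ 9 * δ) ≤ (D.wz z).Z := show _ ≤ z by linarith
  have ok : (D.wz z).Ok τ0 := h.okz ((b.wz z).nl1 Nb (d.wz z) hK hZ) (by linarith) (by linarith)
    ((b.wz z).q2a Nb (d.wz z) hZ) ((b.wz z).nl2 Nb (d.wz z) hK hZ) (by linarith) (by linarith)
  refine ⟨z, ok, ?_⟩
  have T' : Tc (D.wz z) B V N Φ L F F' D.wt a1 a2 := { T.wz z with w := le_rfl }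
  have e : (D.wz z).Err ≤ D.wt * (D.X ^ 6 + 1 / D.n + (D.K + 1) ^ 2 * D.tl + D.I D.dx +
      D.I (fun j => D.u 4 j + D.u 5 j) + D.Lad0 + D.VF) + D.Iw D.dx +
    D.Iw (fun j => D.u 4 j + D.u 5 j) + D.Lad1 + z +
    6 * B * (1 + V) * (D.wt * ((L + Φ) * (N + F) + L * Φ) + (L + Φ) * (a1 + F') +
      (L + N + F) * a2) := T'.err_le ok
  have l1 := b.lad_N' Nb d T.W
  have l2 := b.pw Nb d (i := 7) (j := 9) (by norm_num)
  have X0 : 0 ≤ D.X := h0.X0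
  have q0 : 0 ≤ D.X ^ 6 + D.X ^ 2 * D.Lv1 + 1 / D.n + (D.K + 1) ^ 2 * D.tl + D.I D.dx +
      D.I (fun j => D.u 4 j + D.u 5 j) := by
    have a1 : 0 ≤ D.Lv1 := h0.Lv10
    have a2 : 0 ≤ D.I D.dx := sum_nonneg fun j _ => mul_nonneg (b.dx0 j) (b.dx0 j)
    have a3 : 0 ≤ D.I (fun j => D.u 4 j + D.u 5 j) :=
      sum_nonneg fun j _ => mul_nonneg (b.dx0 j) (add_nonneg (D.u0 4 j) (D.u0 5 j))
    positivity
  have q1 := mul_le_mul T.w (show D.X ^ 6 + D.X ^ 2 * D.Lv1 + 1 / D.n + (D.K + 1) ^ 2 * D.tl +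
      D.I D.dx + D.I (fun j => D.u 4 j + D.u 5 j) ≤ D.X ^ 6 + D.X ^ 2 * L + 1 / D.n +
      (D.K + 1) ^ 2 * D.tl + dI + U by
    linarith [Z.dI, Z.U, mul_le_mul_of_nonneg_left T.L1 (sq_nonneg D.X)]) q0 w0
  have q2 := mul_le_mul_of_nonneg_left (mul_le_mul_of_nonneg_right T.w
    (show 0 ≤ (L + Φ) * (N + F) + L * Φ by positivity))
    (show 0 ≤ 6 * B * (1 + V) by positivity)
  have c2 : 1 + V ≤ B * (1 + V) := le_mul_of_one_le_left (add_nonneg zero_le_one V0) T.B1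
  have c1 : 1 ≤ B * (1 + V) := (le_add_of_nonneg_right V0).trans c2
  have q3 := mul_le_mul_of_nonneg_right c1 p1
  have q4 := mul_le_mul_of_nonneg_right c2 (mul_nonneg F0' Φ0)
  have q5 : 0 ≤ B * (1 + V) * (w * (L * (N + F) + Φ * F + L * Φ) + L * (a1 + F') +
      (L + N + F) * a2) := by positivity
  refine e.trans ?_
  unfold Pe
  linear_combination l1 + 6 * l2 + q1 + q2 + q3 + q4 + q5 + Z.dW + Z.UW + hz

end Crest.Agent.T156.Cas.C40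

end
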