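import Crest.Agent.T156.R2K_30
import Crest.Agent.T156.ClReg_29
import Crest.Agent.T156.LPb_78_Mg
import Crest.Agent.T156.CInM_12
import Crest.Agent.T156.SprL_11
import Crest.Agent.T156.R2VD_23
import Crest.Agent.T156.EnD_91
import Crest.Agent.T156.R2N_81
import Crest.Agent.T156.R2Def_30
import Crest.Agent.T156.FamSm_28
import Crest.Agent.T156.R2Th_26

-- ▼ part T156/R2J_90
section

/-!
# Row 156, R2 (helper90): the low source `JS`
-/

set_option autoImplicit false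

noncomputable section

namespace Crest.Agent.T156.Alt.R2.J90

open Real Finset
open Crest.Agent.T156.Cas Crest.Agent.T156.Cas.C40 Crest.Agent.T156.Alt.Md67

variable {S : Sc} {M : Md} {m : ℕ} {a : ℝ}

theorem dz_nn (G : Lg M m a) (k : ℕ) : 0 ≤ M.dz m a k := by
  rcases k with _ | k
  · rw [dz_zero G.toLeg]; exact sub_nonneg.2 G.z0
  · rw [dz_succ G.toLeg]; exact sub_nonneg.2 (G.zm (Nat.le_succ k))

theorem dz_le (h : Cl S M) {k : ℕ} (h0 : S.j0 < k) (hk : k < S.J) :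
    M.dz m a k ≤ S.C ^ 2 * (M.s (k + 1) - M.s k) := by
  obtain ⟨j, rfl⟩ : ∃ j, k = j + 1 := ⟨k - 1, by omega⟩
  have z := (h.zs j (by omega) hk).2
  have s := (h.ss (j + 1) hk).1
  have C0 := h.C0
  rw [div_le_iff₀ C0] at s
  rw [dz_succ h.leg]
  nlinarith

theorem log_step {x y : ℝ} (hx : 0 < x) (hxy : x ≤ y) (h2 : y ≤ 2 * x) :
    (y - x) / x ≤ 2 * (log y - log x) := by
  have hy : 0 < y := hx.trans_le hxy
  have h1 := one_sub_inv_le_log_of_pos (div_pos hy hx)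
  rw [log_div hy.ne' hx.ne', inv_div] at h1
  have e : 1 - x / y = (y - x) / y := by field_simp
  rw [e] at h1
  have : (y - x) / x ≤ 2 * ((y - x) / y) := by
    rw [← mul_div_assoc, div_le_div_iff₀ hx hy]
    nlinarith
  linarith

/-- **the low source on the class** -/
theorem core (h : Cl S M) (G : Lg M m a) {i : ℕ} (hi : i ≤ S.J) {A t0 T a1 a2 a3 : ℝ}
    (ht0 : M.s S.j0 < t0) (hJ : t0 < M.s S.J) (hv : S.C * S.v ≤ t0) (hT : M.s i ≤ T)
    (h0T : t0 ≤ T) (p1 : 0 ≤ a1) (p2 : 0 ≤ a2) (p3 : 0 ≤ a3)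
    (hA : ∑ k ∈ range i, M.dz m a k * M.E2 m a (fun R => (R - M.q k) ^ 2) k ≤ A)
    (hV : ∀ k < i, t0 ≤ M.s k → |M.del m a k| ≤ a1 / M.s k ^ 2 + a2 / M.s k + a3) :
    |∑ k ∈ range i, M.dz m a k * M.E2 m a (fun R => R ^ 2) k -
      ∑ k ∈ range i, M.dz m a k * M.q k ^ 2| ≤
      2 * A + 3 * S.C * t0 ^ 3 + 2 * S.C ^ 2 * (2 * a1 * log (T / t0) + (a2 + a3 * T) * T) := by
  have C0 := h.C0
  have C1 := h.C1
  have v0 := h.v0
  have t0p : 0 < t0 := (h.s_nn _).trans_lt ht0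
  have iN : S.J ≤ M.N := h.i3.trans h.i4.le
  obtain ⟨k1, hk1, b1, b2, -⟩ := h.exists_node t0p.le hJ
  set U : ℕ → ℝ := fun k => M.E2 m a (fun R => (R - M.q k) ^ 2) k with hU
  set φ : ℕ → ℝ := fun k => log (max (M.s k) t0) with hφ
  have φm : ∀ k, φ k ≤ φ (k + 1) := fun k =>
    log_le_log (lt_max_of_lt_right t0p) (max_le_max_right _ (h.sm (Nat.le_succ k)))
  have a23 : 0 ≤ a2 + a3 * T := by have := t0p.le.trans h0T; positivity
  have key : ∀ k ∈ range i, |M.dz m a k * M.E2 m a (fun R => R ^ 2) k - M.dz m a k * M.q k ^ 2| ≤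
      2 * (M.dz m a k * U k) + (if k ∈ range (k1 + 1) then M.dz m a k * t0 ^ 2 else 0) +
      2 * S.C ^ 2 * (2 * a1 * (φ (k + 1) - φ k) + (a2 + a3 * T) * (M.s (k + 1) - M.s k)) := by
    intro k hk
    rw [mem_range] at hk
    have d0 := dz_nn G k
    have q0 := h.q_nn (k := k) (by omega)
    have q1 := h.q_le_s (k := k) (by omega)
    have U0 : M.del m a k ^ 2 ≤ U k := sq_le_E2 _ k
    have e : M.dz m a k * M.E2 m a (fun R => R ^ 2) k - M.dz m a k * M.q k ^ 2 =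
        M.dz m a k * (U k + 2 * (M.q k * M.del m a k)) := by
      simp only [hU, E2_sq_expand, Md.del]; ring
    have U1 : 0 ≤ U k := (sq_nonneg _).trans U0
    have e2 : |U k + 2 * (M.q k * M.del m a k)| ≤ U k + 2 * (M.q k * |M.del m a k|) := by
      refine (abs_add_le _ _).trans_eq ?_
      rw [abs_of_nonneg U1, abs_mul, abs_mul, abs_two, abs_of_nonneg q0]
    have sm := sub_nonneg.2 (h.sm (Nat.le_succ k))
    simp only [Nat.succ_eq_add_one] at sm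
    have fm := sub_nonneg.2 (φm k)
    rw [e, abs_mul, abs_of_nonneg d0]
    refine (mul_le_mul_of_nonneg_left e2 d0).trans ?_
    have dU := mul_nonneg d0 U1
    rcases lt_or_ge (M.s k) t0 with c | c
    · have kk : k ∈ range (k1 + 1) := by
        rw [mem_range]
        by_contra hc
        linarith [h.sm (show k1 + 1 ≤ k by omega)]
      rw [if_pos kk]
      have f1 : 2 * (M.q k * |M.del m a k|) ≤ U k + t0 ^ 2 := by
        have := sq_abs (M.del m a k)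
        nlinarith [sq_nonneg (M.q k - |M.del m a k|), pow_le_pow_left₀ q0 (q1.trans c.le) 2]
      have f2 := mul_le_mul_of_nonneg_left f1 d0
      have f3 : 0 ≤ 2 * S.C ^ 2 *
          (2 * a1 * (φ (k + 1) - φ k) + (a2 + a3 * T) * (M.s (k + 1) - M.s k)) := by positivity
      nlinarith
    · have s0 : 0 < M.s k := t0p.trans_le c
      have j0 : S.j0 < k := by
        by_contra hc
        linarith [h.sm (show k ≤ S.j0 by omega)]
      have d1 : M.dz m a k ≤ _ := dz_le h j0 (by omega)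
      have sT : M.s k ≤ T := (h.sm hk.le).trans hT
      have f1 : M.q k * |M.del m a k| ≤ a1 / M.s k + (a2 + a3 * T) := by
        refine (mul_le_mul q1 (hV k hk c) (abs_nonneg _) s0.le).trans ?_
        have : M.s k * (a1 / M.s k ^ 2 + a2 / M.s k + a3) = a1 / M.s k + (a2 + a3 * M.s k) := by
          field_simp; ring
        rw [this]
        linarith [mul_le_mul_of_nonneg_left sT p3]
      have f2 := mul_le_mul d1 f1 (by positivity) (by positivity)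
      have f3 : (M.s (k + 1) - M.s k) / M.s k ≤ 2 * (φ (k + 1) - φ k) := by
        simp only [hφ]
        rw [max_eq_left c, max_eq_left (by linarith)]
        exact log_step s0 (by linarith) (by linarith [(h.ss k (by omega)).2])
      have f4 := mul_le_mul_of_nonneg_left f3 (show 0 ≤ S.C ^ 2 * a1 by positivity)
      have f5 : S.C ^ 2 * (M.s (k + 1) - M.s k) * (a1 / M.s k + (a2 + a3 * T)) =
          S.C ^ 2 * a1 * ((M.s (k + 1) - M.s k) / M.s k) +
            S.C ^ 2 * ((a2 + a3 * T) * (M.s (k + 1) - M.s k)) := by ring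
      have f6 : 0 ≤ (if k ∈ range (k1 + 1) then M.dz m a k * t0 ^ 2 else 0) := by
        split_ifs <;> positivity
      nlinarith
  rw [← sum_sub_distrib]
  refine ((abs_sum_le_sum_abs _ _).trans (sum_le_sum key)).trans ?_
  rw [sum_add_distrib, sum_add_distrib, ← mul_sum, ← mul_sum, sum_add_distrib, ← mul_sum, ← mul_sum,
    sum_range_sub, sum_range_sub, sum_ite_mem, h.s0, sub_zero]
  have g1 : ∑ k ∈ range i ∩ range (k1 + 1), M.dz m a k * t0 ^ 2 ≤ 3 * S.C * t0 ^ 3 := by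
    refine (sum_le_sum_of_subset_of_nonneg inter_subset_right fun k _ _ =>
      mul_nonneg (dz_nn G k) (sq_nonneg _)).trans ?_
    rw [← sum_mul, sum_dz_range h.leg]
    have z1 := (h.z_s (le_max_right k1 S.j0) (max_lt hk1 h.j0_lt)).2
    have z2 := h.leg.zm (le_max_left k1 S.j0)
    have z3 : M.s (max k1 S.j0) ≤ t0 := by
      rcases le_total k1 S.j0 with c | c
      · rw [max_eq_right c]; exact ht0.le
      · rw [max_eq_left c]; exact b1
    have z4 : S.v ≤ t0 := (le_mul_of_one_le_left v0.le C1).trans hv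
    have z5 : M.z k1 - a ≤ 3 * S.C * t0 := by nlinarith [G.a0]
    nlinarith [mul_le_mul_of_nonneg_right z5 (sq_nonneg t0)]
  have g2 : φ i - φ 0 ≤ log (T / t0) := by
    simp only [hφ]
    rw [h.s0, max_eq_right t0p.le, log_div (t0p.trans_le h0T).ne' t0p.ne']
    exact sub_le_sub_right (log_le_log (lt_max_of_lt_right t0p) (max_le hT h0T)) _
  have g3 := mul_le_mul_of_nonneg_left g2 (show 0 ≤ 2 * a1 by positivity)
  have g4 := mul_le_mul_of_nonneg_left hT a23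
  have g5 := mul_le_mul_of_nonneg_left (add_le_add g3 g4) (show 0 ≤ 2 * S.C ^ 2 by positivity)
  linarith

/-- **what `JS` reads**, with the loss `κ^{-K}` -/
structure JI (K : ℕ) (p : Pm) (P : Pl) (m : ℕ) (a : ℝ) : Prop where
  sq : ∑ k ∈ range (jc p), (Me p P).dz m a k *
    (Me p P).E2 m a (fun R => (R - (Me p P).q k) ^ 2) k ≤
      (p.κ ^ K)⁻¹ * (p.s ^ 3 * (p.n : ℝ) ^ (-(1 : ℝ) / 2))
  sup : ∀ k < jc p, (p.κ ^ K)⁻¹ * (p.s * (p.n : ℝ) ^ (-(1 : ℝ) / 6)) ≤ (Me p P).s k →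
    |(Me p P).del m a k| ≤ (p.κ ^ K)⁻¹ * (p.s ^ 3 * (p.n : ℝ) ^ (-(1 : ℝ) / 2) / (Me p P).s k ^ 2 +
      p.s ^ 2 * (p.n : ℝ) ^ (-(13 : ℝ) / 40))

theorem s2_eq (p : Pm) (P : Pl) (m : ℕ) (a : ℝ) (E : CIn12.Ev) : R85.s2 (D p P m a E) =
    ∑ k ∈ range (jc p), (Me p P).dz m a k * (Me p P).E2 m a (fun R => R ^ 2) k := by
  rw [R85.s2, CIn12.sum_lo]; rfl

section reg
variable {β c0 C0 c η K0 C : ℝ} {A K : ℕ} {p : Pm} {P : Pl} {E : CIn12.Ev}

/-- the size of the low source -/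
theorem abs_le (H : Reg β c0 C0 A c η K0 p) (hC : C ≤ (p.n : ℝ) ^ η) (e : En C p P)
    (h : In p m a) (K1 : 1 ≤ K) (hc : (K + 2) * c ≤ 1 / 600) (hη : 4 * η ≤ c) (I : JI K p P m a) :
    |R85.s2 (D p P m a E) - Sq p P m a| ≤
      ((p.n : ℝ) ^ η) ^ 4 * ((p.κ ^ K)⁻¹ ^ 3 * (p.s ^ 3 * (p.n : ℝ) ^ (-(1 : ℝ) / 2))) := by
  have k0 := H.κ0
  have s0 := H.s0
  have N0 := H.N0
  have v0 := H.v0
  have t0 := t10 H
  have L0 := H.Λ0
  have L3 := H.num_le
  have C1 : 1 ≤ C := e.cl.C1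
  have K1' : (1 : ℝ) ≤ K := by exact_mod_cast K1
  have c0' := H.c_pos
  have Kc : c ≤ K * c := le_mul_of_one_le_left c0'.le K1'
  have A2 : (2 : ℝ) ≤ A := by exact_mod_cast H.A2
  have j1 := jc_lt H
  have j2 := jf_lt H
  have n2 := H.lg_num (x := 2) (by norm_num) (by norm_num)
  have n3 := H.lg_num (x := 3) (by norm_num) (by norm_num)
  set L := (p.κ ^ K)⁻¹ with hL
  set Y := p.s ^ 3 * (p.n : ℝ) ^ (-(1 : ℝ) / 2) with hY
  set x0 := L * (p.s * (p.n : ℝ) ^ (-(1 : ℝ) / 6)) with hx0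
  have L1 : 1 ≤ L := one_le_inv₀ (by positivity) |>.2 (pow_le_one₀ k0.le H.κ1)
  have Y0 : 0 < Y := by positivity
  have x00 : 0 < x0 := by positivity
  have lL : logb p.n L = K * c := by rw [hL, logb_inv, logb_pow, H.lg_κ]; ring
  have lY : logb p.n Y = 3 * logb p.n p.s - 1 / 2 := by
    rw [hY]; lg_norm; rw [H.lg_n]; ring
  have lx : logb p.n x0 = K * c + logb p.n p.s - 1 / 6 := by
    rw [hx0, logb_mul (by positivity) (by positivity), lL]; lg_norm; rw [H.lg_n]; ring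
  have a1 : 2 * (p.jf * p.v) ≤ x0 := by
    have := H.jfv0
    refine H.le_of_lg (by positivity) x00 ?_
    rw [logb_mul two_ne_zero this.ne']
    linarith [H.lg_jf.2, n2.2]
  have a2 : x0 ≤ t1 p := H.le_of_lg x00 t0 (by linarith [lg_t1 H])
  have a3 : C * p.v ≤ x0 := by
    refine H.le_of_lg (by positivity) x00 ?_
    rw [logb_mul (by positivity) v0.ne']
    linarith [H.lg_v_le, H.lg_le (by positivity) hC, H.lg_s.1, H.η_pos]
  have a4 : (Me p P).s (jc p) ≤ 3 * t1 p := by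
    linarith [(e.s_lo H (k := jc p) (by omega)).2, (jc_bds H).2, H.v_le_r, r_le_t1 H]
  have a5 : x0 < (Me p P).s p.J := by
    have : (4 : ℝ) * jc p ≤ p.J := by exact_mod_cast j1
    rw [e.sJ]
    nlinarith [(jc_bds H).1]
  have a6 : log (3 * t1 p / x0) ≤ (p.n : ℝ) ^ η := by
    refine (log_le_log (by positivity) (H.le_of_lg (by positivity) N0 ?_)).trans H.log_le
    rw [logb_div (by positivity) x00.ne', logb_mul (by norm_num) t0.ne', H.lg_n]
    linarith [lg_t1 H, n3.2]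
  have a7 : (0 + L * (p.s ^ 2 * (p.n : ℝ) ^ (-(13 : ℝ) / 40)) * (3 * t1 p)) * (3 * t1 p) ≤ Y := by
    rw [zero_add]
    refine H.le_of_lg (by positivity) Y0 ?_
    rw [lY]
    lg_norm
    rw [H.lg_n]
    linarith [lg_t1 H, n3.2, H.lg_s.2]
  have a8 : x0 ^ 3 = L ^ 3 * Y := by
    rw [hx0, hY, mul_pow, mul_pow, ← rpow_mul_natCast N0.le]; norm_num
  have b := core (i := jc p) (A := L * Y) (t0 := x0) (T := 3 * t1 p) (a1 := L * Y) (a2 := 0)
    (a3 := L * (p.s ^ 2 * (p.n : ℝ) ^ (-(13 : ℝ) / 40))) e.cl (e.lg H h)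
    (show jc p ≤ p.J by omega)
    (show (Me p P).s p.jf < x0 by linarith [(e.s_lo H (k := p.jf) (by omega)).2, H.jfv0])
    a5 a3 a4 (by linarith) (by positivity) le_rfl (by positivity) I.sq
    fun k hk hs => (I.sup k hk hs).trans_eq (by ring)
  rw [s2_eq, Sq]
  refine b.trans ?_
  change 2 * (L * Y) + 3 * C * x0 ^ 3 + 2 * C ^ 2 * _ ≤ _
  rw [a8]
  set Λ := (p.n : ℝ) ^ η
  set Z := L ^ 3 * Y with hZ
  have z1 : L * Y ≤ Z := mul_le_mul_of_nonneg_right (le_self_pow₀ L1 (by norm_num)) Y0.le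
  have z2 : Y ≤ Z := (le_mul_of_one_le_left Y0.le L1).trans z1
  have Z0 : 0 < Z := Y0.trans_le z2
  have z3 : 2 * (L * Y) * log (3 * t1 p / x0) ≤ 2 * Z * Λ :=
    (mul_le_mul_of_nonneg_left a6 (by positivity)).trans (by gcongr)
  have z4 : 2 * C ^ 2 * (2 * (L * Y) * log (3 * t1 p / x0) +
      (0 + L * (p.s ^ 2 * (p.n : ℝ) ^ (-(13 : ℝ) / 40)) * (3 * t1 p)) * (3 * t1 p)) ≤
      2 * Λ ^ 2 * (2 * Z * Λ + Z) :=
    (mul_le_mul_of_nonneg_left (add_le_add z3 (a7.trans z2)) (by positivity)).trans (by gcongr)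
  have z5 : C * Z ≤ Λ * Z := mul_le_mul_of_nonneg_right hC Z0.le
  have z6 : 2 + 3 * Λ + 2 * Λ ^ 2 * (2 * Λ + 1) ≤ Λ ^ 4 := by
    have w1 : Λ ≤ Λ ^ 2 := le_self_pow₀ (by linarith) (by norm_num)
    have w2 : Λ ^ 2 ≤ Λ ^ 3 := pow_le_pow_right₀ (by linarith) (by norm_num)
    nlinarith [mul_le_mul_of_nonneg_right L3 (pow_pos L0 3).le]
  nlinarith [mul_le_mul_of_nonneg_right z6 Z0.le]

end reg

/-- **the low source** -/
theorem jS_of {β : ℝ} (hβ : 1 < β) (K : ℕ) (K1 : 1 ≤ K)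
    (h : EvA β fun p P m a _ => JI K p P m a) : JS β := by
  unfold JS EvA at *
  exact Sml.glueC hβ (enS hβ) h fun C _ c0 C0 _ _ => ⟨0, fun A _ => ⟨1 / 600 / (K + 2), by positivity,
    fun c hc c0' => ⟨c / 4, by positivity, fun η hη _ => ⟨C, fun p H e I P m a E ad => by
      rw [le_div_iff₀' (by positivity)] at hc hη
      have b := abs_le (E := E) H H.K_le (e H.r_le_ye P ad.sp) ad.inn K1 hc hη (I P m a E ad)
      have k0 := H.κ0
      have s0 := H.s0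
      have N0 := H.N0
      have t0 := t10 H
      have u0 := un0 H
      have g0 := gn0 H 200
      refine ((sq_abs _).symm.trans_le (pow_le_pow_left₀ (abs_nonneg _) b 2)).trans
        (H.le_of_lg (by positivity) (by positivity) ?_)
      lg_norm
      rw [H.lg_n, H.lg_κ, lg_gn H, lg_un H, lg_t1 H]
      linarith⟩⟩⟩⟩

end Crest.Agent.T156.Alt.R2.J90

end
end

-- ▼ part T156/R2MG_90
section

/-!
# Row 156, R2 (helper90): sums of the sloped envelope of the END model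
-/

set_option autoImplicit false

noncomputable section

namespace Crest.Agent.T156.Alt.R2.J90

open Real Finset
open Crest.Agent.T156.Cas Crest.Agent.T156.Cas.C40 Crest.Agent.T156.Alt.Md67

variable {S : Sc} {M : Md} {m : ℕ} {a t0 : ℝ} {T : Finset ℕ}

theorem tel (h : Cl S M) (hv : S.C * S.v ≤ t0)
    (hT : ∀ k ∈ T, S.j0 < k ∧ k < S.J ∧ t0 ≤ M.s k) {f φ : ℝ → ℝ} (f0 : ∀ x, t0 ≤ x → 0 ≤ f x)
    (hf : ∀ x y, t0 ≤ x → x ≤ y → y ≤ 2 * x → (y - x) * f x ≤ φ y - φ x)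
    (φm : ∀ x y, t0 ≤ x → x ≤ y → φ x ≤ φ y) :
    ∑ k ∈ T, M.dz m a k * f (M.s k) ≤ S.C ^ 2 * (φ (max (M.s S.J) t0) - φ t0) := by
  have t0p : 0 < t0 := (mul_pos h.C0 h.v0).trans_le hv
  set ψ : ℕ → ℝ := fun k => φ (max (M.s k) t0) with hψ
  have a1 : ∀ k ∈ T, M.dz m a k * f (M.s k) ≤ S.C ^ 2 * (ψ (k + 1) - ψ k) := fun k hk => by
    obtain ⟨b1, b2, b3⟩ := hT k hk
    have sm := h.sm (Nat.le_succ k)
    simp only [Nat.succ_eq_add_one] at sm
    simp only [hψ]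
    rw [max_eq_left b3, max_eq_left (b3.trans sm)]
    refine (mul_le_mul_of_nonneg_right (dz_le h b1 b2) (f0 _ b3)).trans ?_
    rw [mul_assoc]
    exact mul_le_mul_of_nonneg_left (hf _ _ b3 sm (by linarith [(h.ss k b2).2])) (sq_nonneg _)
  refine (sum_le_sum a1).trans ((sum_le_sum_of_subset_of_nonneg
    (f := fun k => S.C ^ 2 * (ψ (k + 1) - ψ k))
    (fun k hk => mem_range.2 (hT k hk).2.1) fun k _ _ => mul_nonneg (sq_nonneg _) (sub_nonneg.2
      (φm _ _ (le_max_right _ _) (max_le_max_right _ (h.sm (Nat.le_succ k)))))).trans_eq ?_)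
  rw [← mul_sum, sum_range_sub]
  simp only [hψ]
  rw [h.s0, max_eq_right t0p.le]

/-- sums of `α / t² + β / t + γ` over sloped nodes above `t0` -/
theorem sum3 (h : Cl S M) (G : Lg M m a) (hv : S.C * S.v ≤ t0) (hC : t0 ≤ S.C)
    (hT : ∀ k ∈ T, S.j0 < k ∧ k < S.J ∧ t0 ≤ M.s k) {F : ℕ → ℝ} {α β γ : ℝ} (α0 : 0 ≤ α)
    (β0 : 0 ≤ β) (γ0 : 0 ≤ γ) (hF : ∀ k ∈ T, F k ≤ α / M.s k ^ 2 + β / M.s k + γ) :
    ∑ k ∈ T, M.dz m a k * F k ≤ 2 * S.C ^ 2 * (α / t0 + β * log (S.C / t0)) + γ := by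
  have t0p : 0 < t0 := (mul_pos h.C0 h.v0).trans_le hv
  have mx : max (M.s S.J) t0 ≤ S.C := max_le ((h.sm h.i3).trans h.sT) hC
  have m0 : 0 < max (M.s S.J) t0 := lt_max_of_lt_right t0p
  have a1 := tel (m := m) (a := a) h hv hT (f := fun x => 1 / x ^ 2) (φ := fun x => -(2 / x))
    (fun x _ => by positivity) (fun x y h1 h2 h3 => by
      have x0 := t0p.trans_le h1
      have y0 := x0.trans_le h2
      rw [show -(2 / y) - -(2 / x) = (y - x) * (2 / (x * y)) by field_simp; ring]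
      refine mul_le_mul_of_nonneg_left ?_ (sub_nonneg.2 h2)
      rw [div_le_div_iff₀ (by positivity) (by positivity)]
      nlinarith)
    fun x y h1 h2 => neg_le_neg (div_le_div_of_nonneg_left zero_le_two (t0p.trans_le h1) h2)
  have a2 := tel (m := m) (a := a) h hv hT (f := fun x => 1 / x) (φ := fun x => 2 * log x)
    (fun x h1 => (one_div_pos.2 (t0p.trans_le h1)).le) (fun x y h1 h2 h3 => by
      linarith [log_step (t0p.trans_le h1) h2 h3, mul_one_div (y - x) x])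
    fun x y h1 h2 => by linarith [log_le_log (t0p.trans_le h1) h2]
  have a3 : ∑ k ∈ T, M.dz m a k ≤ 1 := by
    refine (sum_le_sum_of_subset_of_nonneg (fun k hk => mem_range.2 (show k < M.N + 1 by
      have := (hT k hk).2.1; have := h.J_lt; omega)) fun k _ _ => dz_nn G k).trans ?_
    rw [sum_dz_all]; linarith [G.a0]
  have a4 : ∑ k ∈ T, M.dz m a k * F k ≤ α * ∑ k ∈ T, M.dz m a k * (1 / M.s k ^ 2) +
      β * ∑ k ∈ T, M.dz m a k * (1 / M.s k) + γ * ∑ k ∈ T, M.dz m a k := by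
    rw [mul_sum, mul_sum, mul_sum, ← sum_add_distrib, ← sum_add_distrib]
    exact sum_le_sum fun k hk => (mul_le_mul_of_nonneg_left (hF k hk) (dz_nn G k)).trans_eq
      (by ring)
  have b1 : ∑ k ∈ T, M.dz m a k * (1 / M.s k ^ 2) ≤ S.C ^ 2 * (2 / t0) :=
    a1.trans (mul_le_mul_of_nonneg_left (by linarith [div_pos two_pos m0]) (sq_nonneg _))
  have b2 : ∑ k ∈ T, M.dz m a k * (1 / M.s k) ≤ S.C ^ 2 * (2 * log (S.C / t0)) :=
    a2.trans (mul_le_mul_of_nonneg_left (by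
      rw [log_div h.C0.ne' t0p.ne']; linarith [log_le_log m0 mx]) (sq_nonneg _))
  have := mul_le_mul_of_nonneg_left b1 α0
  have := mul_le_mul_of_nonneg_left b2 β0
  have := mul_le_mul_of_nonneg_left a3 γ0
  have e : 2 * S.C ^ 2 * (α / t0 + β * log (S.C / t0)) =
    α * (S.C ^ 2 * (2 / t0)) + β * (S.C ^ 2 * (2 * log (S.C / t0))) := by ring
  linarith

end Crest.Agent.T156.Alt.R2.J90

end
end

-- ▼ part T156/R2MS_39
section

/-!
# Row 156 (helper39): moments on the sloped part, plateau not flat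
-/

set_option autoImplicit false

noncomputable section

namespace Crest.Agent.T156.Alt.R62.S39

open Real Finset Filter
open Crest.Agent.T156.Cas Crest.Agent.T156.Alt.Md67 Crest.Agent.T156.Alt.QS98 B78

variable {S : Sc} {M : Md}

/-- sup location from the total energy -/
theorem sup_del (h : Cl S M) {m : ℕ} {a l : ℝ} (hm : 0 < m) (l1 : M.s S.jl ≤ l) (l2 : S.v ≤ l)
    (fl : M.s S.Jp - M.s S.J ≤ l)
    (hE : ∑ k ∈ Ioc S.jl S.Jp, lw M k * M.del m a k ^ 2 ≤ l ^ 3) {k : ℕ} (k0 : S.jl ≤ k)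
    (k1 : k ≤ S.J) : |M.del m a k| ≤ 5 * S.C * l := by
  have v0 := h.v0
  have C1 := h.C1
  have C0 := h.C0
  have l0 : 0 < l := v0.trans_le l2
  have i1 := h.i1
  have i2 := h.i2
  have i3 := h.i3
  have i4 := h.i4
  obtain ⟨n, n1, n2⟩ : ∃ n : ℕ, l ≤ n * S.v ∧ n * S.v ≤ 2 * l :=
    ⟨⌈l / S.v⌉₊, (div_le_iff₀ v0).1 (Nat.le_ceil _), by
      have := (lt_div_iff₀ v0).1 (sub_lt_iff_lt_add.2 (Nat.ceil_lt_add_one (div_pos l0 v0).le))
      linarith⟩
  have hE' : ∑ y ∈ Ioc S.jl S.Jp, (M.z y - M.z (y - 1)) * |M.del m a y| ^ 2 ≤ l ^ 3 := by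
    simpa only [sq_abs, lw] using hE
  have ds : ∀ i j, i ≤ j → j ≤ S.J → j ≤ i + n → M.s j - M.s i ≤ 2 * S.C * l := fun i j a b c => by
    have e1 := (h.s_tel a b).2
    have e2 : (j : ℝ) - i ≤ n := by
      have : (j : ℝ) ≤ i + n := by exact_mod_cast c
      linarith
    have e3 := mul_le_mul_of_nonneg_right e2 (mul_pos C0 v0).le
    have e4 := mul_le_mul_of_nonneg_left n2 C0.le
    linarith
  have dq : ∀ i j, i ≤ j → j ≤ S.J → j ≤ i + n → M.q j - M.q i ≤ 2 * S.C * l := fun i j a b c =>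
    (dq_le h a (b.trans i3)).trans (ds i j a b c)
  have dz : ∀ i, S.jl ≤ i → i + n < S.J → 2 * l / S.C / 2 ≤ M.z (i + n) - M.z i := fun i a b => by
    refine le_trans ?_ (h.z_tel (i1.trans a) (Nat.le_add_right i n) b).1
    rw [Nat.cast_add, add_sub_cancel_left, ← mul_div_assoc, div_right_comm,
      mul_div_cancel_left₀ _ two_ne_zero]
    exact div_le_div_of_nonneg_right n1 C0.le
  have W0 : 0 < 2 * l / S.C := by positivity
  have Cl0 : 0 ≤ S.C * l := by positivity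
  have lC : l ≤ S.C * l := le_mul_of_one_le_left l0.le C1
  have hV : l ^ 3 ≤ (S.C * l) ^ 2 * (2 * l / S.C) := by
    rw [show (S.C * l) ^ 2 * (2 * l / S.C) = 2 * S.C * l ^ 3 by field_simp]
    exact le_mul_of_one_le_left (by positivity) (by linarith)
  have rm := Md67.rb_mono (M := M) (a := a) hm
  have r0 := Md67.rb_nonneg (M := M) (a := a) hm k
  have r1 := Md67.rb_le_one (M := M) (a := a) hm k
  refine abs_le.2 ⟨?_, ?_⟩
  · by_cases c : S.jl + n + 1 ≤ k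
    · obtain ⟨i, rfl⟩ : ∃ i, k = i + n + 1 := ⟨k - n - 1, by omega⟩
      have := Pl57.persist (F := -M.del m a (i + n + 1) - 2 * S.C * l) h.leg.zm
        (a := i) (b := i + n + 1) (by omega) (Ioc_subset_Ioc (by omega) (by omega)) two_ne_zero hE'
        W0 ((dz i (by omega) (by omega)).trans (sub_le_sub_right (h.leg.zm (Nat.le_succ _)) _)) Cl0
        hV fun y a b => by
          have e1 := dq y (i + n + 1) b k1 (by omega)
          have e2 := rm b
          refine le_trans ?_ (neg_le_abs _)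
          unfold Md.del
          linarith
      linarith
    · have e1 := ds S.jl k k0 k1 (by omega)
      have e2 := h.q_le_s (k := k) (by omega)
      unfold Md.del
      linarith
  · by_cases c : k + n < S.J
    · have := Pl57.persist (F := M.del m a k - 2 * S.C * l) h.leg.zm
        (a := k) (b := k + n) (by omega) (Ioc_subset_Ioc k0 (by omega)) two_ne_zero hE'
        W0 (dz k k0 c) Cl0 hV fun y a b => by
          have e1 := dq k y a.le (by omega) b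
          have e2 := rm a.le
          refine le_trans ?_ (le_abs_self _)
          unfold Md.del
          linarith
      linarith
    · have q0 := h.q_nn (k := k) (by omega)
      rcases le_total 1 l with c1 | c1
      · unfold Md.del
        linarith
      · have := Pl57.persist (F := M.del m a k - 3 * S.C * l) (W := 2 / S.C) h.leg.zm
          (a := S.J - 1) (b := S.Jp) (by omega) (Ioc_subset_Ioc (by omega) le_rfl) two_ne_zero hE'
          (by positivity) (by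
            rw [h.top _ le_rfl, div_right_comm, div_self two_ne_zero]; linarith [h.atom.2]) Cl0 (by
            rw [show (S.C * l) ^ 2 * (2 / S.C) = 2 * S.C * l ^ 2 by field_simp, pow_succ, mul_comm]
            exact mul_le_mul_of_nonneg_right (by linarith) (by positivity)) fun y a b => by
            have e1 := dq k S.J k1 le_rfl (by omega)
            have e2 := rm (show k ≤ y by omega)
            have e3 := dq_le h (show S.J ≤ y by omega) b
            have e4 := h.sm b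
            refine le_trans ?_ (le_abs_self _)
            unfold Md.del
            linarith
        linarith

theorem cru (h : Cl S M) {m : ℕ} {a l : ℝ} (hI : S.In m a) (l1 : M.s S.jl ≤ l) (l2 : S.v ≤ l)
    (fl : M.s S.Jp - M.s S.J ≤ l)
    (hE : ∑ k ∈ Ioc S.jl S.Jp, lw M k * M.del m a k ^ 2 ≤ l ^ 3) :
    Crude (1 + 6 * S.C ^ 2) S M m a l S.jl ∧
      ∀ k, S.jl ≤ k → k ≤ S.J → |M.del m a k| ≤ (1 + 6 * S.C ^ 2) * l := by
  have hm : 0 < m := lt_of_lt_of_le h.n1 hI.m1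
  have C1 := h.C1
  have C0 := h.C0
  have l0 : 0 < l := h.v0.trans_le l2
  have C2 : S.C ≤ S.C ^ 2 := le_self_pow₀ C1 two_ne_zero
  refine ⟨⟨by nlinarith, fun k k0 k1 => ?_⟩, fun k k0 k1 =>
    (sup_del h hm l1 l2 fl hE k0 k1).trans (mul_le_mul_of_nonneg_right (by linarith) l0.le)⟩
  have m1 := le_max_left (M.z k) l
  have m2 := le_max_right (M.z k) l
  have m0 := l0.le.trans m2
  have a1 := mul_le_mul_of_nonneg_left m1 C0.le
  have a2 := mul_le_mul_of_nonneg_left m2 C0.le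
  have a3 := mul_le_mul_of_nonneg_right C2 m0
  rcases lt_or_ge k S.J with c | c
  · have e1 := (le_abs_self _).trans (sup_del h hm l1 l2 fl hE k0 c.le)
    have e2 := h.q_le_s (k := k) (k1.trans h.i4.le)
    have e3 := (h.z_s (h.i1.trans k0) c).1
    rw [sub_le_iff_le_add, div_le_iff₀ C0] at e3
    have e4 := mul_le_mul_of_nonneg_left (l2.trans m2) (sq_nonneg S.C)
    unfold Md.del at e1
    nlinarith
  · have e1 := h.atom.1.trans (h.leg.zm (show S.J - 1 ≤ k by omega))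
    rw [div_le_iff₀ C0] at e1
    have e2 := Md67.rb_le_one (M := M) (a := a) hm k
    nlinarith


variable {m p : ℕ} {a : ℝ}

/-- weight of the nodes with label at most `Z` -/
theorem wt_le (G : Lg M m a) {T : Finset ℕ} {Z : ℝ} (hZ : 0 ≤ Z) (h : ∀ k ∈ T, M.z k ≤ Z) :
    ∑ k ∈ T, M.dz m a k ≤ Z := by
  rcases T.eq_empty_or_nonempty with rfl | hT
  · simpa using hZ
  refine (sum_le_sum_of_subset_of_nonneg (t := range (T.max' hT + 1)) (fun k hk =>
    mem_range.2 (Nat.lt_succ_of_le (T.le_max' k hk))) fun k _ _ => G.dz_nonneg k).trans ?_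
  rw [sum_dz_range G.toLeg]
  linarith [h _ (T.max'_mem hT), G.a0]

/-- moments and envelope at the node `k` -/
def Qk (S : Sc) (M : Md) (m : ℕ) (a : ℝ) (p k : ℕ) (g : ℝ) : Prop :=
  M17.Ok M m a p k g ∧ Env S M m a k g

theorem Qk.mono {k : ℕ} {g g' : ℝ} (h : Qk S M m a p k g) (e : g ≤ g') : Qk S M m a p k g' :=
  ⟨h.1.mono e, h.2.mono e⟩

/-- **the canonical envelope** -/
abbrev Γ (S : Sc) (M : Md) (m : ℕ) (a : ℝ) (p : ℕ) : ℕ → ℝ := M17.GE S M m a p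

theorem Γ_pos (h : Cl S M) (k : ℕ) : 0 < Γ S M m a p k :=
  lt_min two_pos ((M17.GG_pos h k).trans_le (le_max_left _ _))


theorem Γ_ok (h : Cl S M) (hm : 0 < m) (hp : p ≠ 0) {k : ℕ} (hk : k ≤ M.N) :
    Qk S M m a p k (Γ S M m a p k) :=
  ⟨(M17.GG_ok h hm hp hk).mono (le_min (min_le_left _ _) (le_max_left _ _)),
    (M17.env_ee h hk).mono (le_min (M17.ee_le zero_le_two (M17.env_two h hk)) (le_max_right _ _))⟩

theorem Qk.le (hp : p ≠ 0) {k : ℕ} {g : ℝ} (H : Qk S M m a p k g) : Γ S M m a p k ≤ max S.v g :=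
  (min_le_right _ _).trans (max_le (M17.GG_le hp H.1)
    ((M17.ee_le H.1.2.nn H.2).trans (le_max_right _ _)))

theorem Γ_ge (h : Cl S M) (hm : 0 < m) (hp : p ≠ 0) (J : ℕ) :
    CIn12.GE S M m a J p (Γ S M m a p) :=
  ⟨fun k _ _ => Γ_pos h k, fun _ _ hk => (Γ_ok h hm hp hk.le).1.1,
    fun _ _ hk => (Γ_ok h hm hp hk.le).2⟩

/-- the second moment -/
theorem sq_le (h : Cl S M) (hm : 0 < m) (hp : p ≠ 0) {k : ℕ} (hk : k < M.N) :
    M.E2 m a (fun R => (R - M.q k) ^ 2) k ≤ 9 * Γ S M m a p k ^ 2 :=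
  ((Γ_ge h hm hp 0).sq_le (Nat.pos_of_ne_zero hp) (Nat.zero_le k) hk).trans_eq (by ring)

/-- **input**: total energy `l³` -/
structure SI (E : ℝ) (S : Sc) (M : Md) (m : ℕ) (a l : ℝ) : Prop where
  jl : 8 * M.s S.jl ≤ l
  l1 : E * l ≤ 1
  spr : M.s S.Jp - M.s S.J ≤ l
  w0 : ∀ t, l ≤ t → t ≤ S.C → S.w3 t ≤ t ^ 3
  w1 : ∀ t, l ≤ t → t ≤ S.C → t ^ 3 * S.w3 t ^ 2 ≤ (l ^ 3) ^ 3
  v3 : S.v ≤ l ^ 3
  en : ∑ k ∈ Ioc S.jl S.Jp, lw M k * M.del m a k ^ 2 ≤ l ^ 3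

/-- **output** -/
structure SO (p : ℕ) (Λ : ℝ) (S : Sc) (M : Md) (m : ℕ) (a l : ℝ) : Prop where
  fn : C33.Fn S M m a
  l0 : 0 < l
  cr : Crude Λ S M m a l S.jl
  low : CIn12.LowE S M m a Λ l
  sup : ∀ k, S.jl ≤ k → k ≤ S.J → |M.del m a k| ≤ Λ * l
  all : ∀ k ≤ M.N, Qk S M m a p k (Λ * max (M.z k) l)
  out : ∀ t, l ≤ t → t ≤ T0 S M → Out p Λ S M m a l (l ^ 3) t
  sl : ∀ k < S.J, M.s k ≤ T0 S M → Γ S M m a p k ≤ Λ * l
  tot : ∑ k ∈ (range S.J).filter fun k => M.s k ≤ T0 S M, M.dz m a k * Γ S M m a p k ^ 2 ≤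
    Λ * l ^ 3
  blk : ∀ t V, l ≤ t → t ≤ T0 S M → 0 < V → V ≤ t → S.w3 t ≤ V ^ 3 →
    (∀ k, S.jl < k → k < S.J → t / 2 ≤ M.s k → M.s k ≤ 3 * t → |M.del m a k| ≤ V) →
    (∀ k ∈ sb S M t (2 * t), Qk S M m a p k (Λ * V)) ∧ ∀ i ≤ p,
      ∑ k ∈ sb S M t (2 * t), M.dz m a k * ja M m a i k ≤ Λ ^ (i + 1) * S.w3 t * (t * V ^ i)

def SlM : Prop := ∀ p : ℕ, 4 ≤ p → CL fun E Λ S M m a => ∀ l, SI E S M m a l → SO p Λ S M m a l

theorem w3_pos (h : Cl S M) {t : ℝ} (ht : 0 < t) : 0 < S.w3 t :=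
  div_pos (by linarith [h.F1]) (mul_pos (mul_pos h.N0 ht) (h.ms_pos ht.le))

theorem q_z (F : C33.Fn S M m a) {k : ℕ} (hk : k ≤ M.N) : M.q k ≤ 2 * S.C ^ 2 * M.z k := by
  have h := F.toCl
  have j0 := (h.j0_lt.le.trans h.i3)
  rcases le_total k S.j0 with e | e
  · rw [h.low k e]
    exact (h.q_mono e (j0.trans h.i4.le)).trans
      ((h.q_le_s (j0.trans h.i4.le)).trans (F.s_le_z' le_rfl j0))
  rcases le_total k S.Jp with e' | e'
  · exact (h.q_le_s hk).trans (F.s_le_z' e e')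
  · rw [h.top k e']
    linarith [q_le_one (M := M) k, one_le_pow₀ (n := 2) h.C1]

/-- at a fixed size -/
theorem so_of {L Λ E l : ℝ} (F : C33.Fn S M m a) (hθ : S.C * S.θ ≤ 1 / 2) (hp : 4 ≤ p)
    (hL : 600 * S.C ^ 2 * (1 + 6 * S.C ^ 2) ≤ L) (l1 : 1000 ≤ L) (LE : L ≤ E) (Ln : L ≤ S.n)
    (vn : S.v * S.n ^ 2 ≤ S.C) (cnt : ∀ i : ℕ, 2 ^ i ≤ S.C ^ 2 * M.N → (i : ℝ) ≤ L ^ 3)
    (hΛ : L ^ 20 ≤ Λ)
    (Q : ∀ Λ₀ t k0 k1 c ρ, QH' (32 * S.C) Λ₀ S M m a t k0 k1 c ρ →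
      QO (32 * S.C) (L * Λ₀) p S M m a t k0 k1 c ρ ∧ EO (32 * S.C) (L * Λ₀) S M m a t k0 k1 c ρ)
    (q : ∀ Λ₀ t, 0 < t → M.s S.jl ≤ t → S.w3 t ≤ t ^ 3 → Crude Λ₀ S M m a t S.jl → ∀ k ≤ M.N,
      M.Mo m a p (M.rP m a k) (L * Λ₀ * max (M.z k) t) ∧
      M.E2 m a (fun R => R ^ (2 * p)) k ≤ (L * Λ₀ * max (M.z k) t) ^ (2 * p))
    (e : ∀ Λ₀ t, 0 < t → M.s S.jl ≤ t → S.w3 t ≤ t ^ 3 → Crude Λ₀ S M m a t S.jl → ∀ k q e,
      |q| + L * Λ₀ * max (M.z k) t ≤ e → M.E2 m a (fun R => max (|R - q| - e) 0) k ≤ CIn12.tlD S 3)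
    (N : SI E S M m a l) : SO p Λ S M m a l := by
  have h := F.toCl
  have I := F.toIn
  have G : Lg M m a := lg_cl h h.n1 I
  have p0 : p ≠ 0 := by omega
  have C1 := h.C1
  have C0 := h.C0
  have v0 := h.v0
  have i1 := h.i1
  have i2 := h.i2
  have i3 := h.i3
  have i4 := h.i4
  have C2 : 1 ≤ S.C ^ 2 := one_le_pow₀ C1
  have CC : S.C ≤ S.C ^ 2 := le_self_pow₀ C1 two_ne_zero
  set K := 1 + 6 * S.C ^ 2 with hK
  have K1 : 1 ≤ K := by linarith
  have KL : K ≤ L := by nlinarith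
  have CL' : 600 * S.C ^ 2 ≤ L := by nlinarith
  have L1 : 1 ≤ L := by linarith
  have L0 : 0 < L := by linarith
  have lp : ∀ {i : ℕ}, i ≤ 20 → L ^ i ≤ Λ := fun e => (pow_le_pow_right₀ L1 e).trans hΛ
  have KΛ : K ≤ Λ := KL.trans ((pow_one L).ge.trans (lp (by norm_num)))
  have s0 : 0 < M.s S.jl := h.s_pos (h.i0.trans i1)
  have sl : M.s S.jl ≤ l := by linarith [N.jl]
  have l0 : 0 < l := s0.trans_le sl
  have ll1 : l ≤ 1 := (le_mul_of_one_le_left l0.le (L1.trans LE)).trans N.l1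
  have vl : S.v ≤ l := N.v3.trans (pow_le_of_le_one l0.le ll1 (by norm_num))
  have wl := N.w0 l le_rfl (ll1.trans C1)
  obtain ⟨c1, c2⟩ := cru h I sl vl N.spr N.en
  have mx : ∀ k, 0 ≤ max (M.z k) l := fun k => l0.le.trans (le_max_right _ _)
  have LK : L * K ≤ L ^ 2 := by rw [sq]; gcongr
  have TC : T0 S M ≤ S.C := by
    linarith [h.s_le_C i3, h.s_nn S.J, show T0 S M = M.s S.J / 16 from rfl]
  have all : ∀ k ≤ M.N, Qk S M m a p k (2 * (L ^ 2 * max (M.z k) l)) := fun k hk => by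
    obtain ⟨b2, b3⟩ := q _ l l0 sl wl c1 k hk
    have d2 := mul_le_mul_of_nonneg_right LK (mx k)
    have d1 : M.q k ≤ L ^ 2 * max (M.z k) l := (q_z F hk).trans
      (mul_le_mul (by nlinarith) (le_max_left _ _) (h.z_pos k).le (by positivity))
    exact ⟨M17.ok_of p0 (h.q_nn hk) d1 (b2.mono d2) (b3.trans (pow_le_pow_left₀ b2.nn d2 _)),
      e _ l l0 sl wl c1 k _ _ (by rw [abs_of_nonneg (h.q_nn hk)]; linarith)⟩
  have geo' : ∀ t, l ≤ t → t ≤ T0 S M → ∃ b0 b1 D, B78.Cx p L K S M m a l t b0 b1 D :=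
    fun t h0 h1 => by
    have t0 := l0.trans_le h0
    have hw := N.w0 t h0 (h1.trans TC)
    have vt : 32 * S.C * S.v ≤ t := by
      have a1 := n_t h hθ t0 hw
      have N0 := h.N0
      have a2 : S.v * S.n * (600 * S.C ^ 2) ≤ S.C := by
        calc _ ≤ S.v * S.n * S.n := by gcongr; linarith
          _ ≤ _ := by rw [mul_assoc, ← sq]; exact vn
      have a3 : 600 * S.C * (S.v * S.n) ≤ 1 :=
        le_of_mul_le_mul_left (a := S.C) (by linarith) C0
      calc _ ≤ 32 * S.C * S.v * (S.n * t) := le_mul_of_one_le_right (by positivity) a1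
        _ = 32 * S.C * (S.v * S.n) * t := by ring
        _ ≤ 1 * t := by gcongr; nlinarith [mul_pos (mul_pos C0 v0) N0]
        _ = t := one_mul _
    obtain ⟨b0, b1, D, Ge⟩ := geo h t0 (N.jl.trans h0) h1 vt
    exact ⟨b0, b1, D, h, I, Ge, hθ, K1, hL, hp, Q, l0, hw, c1, c2⟩
  have out : ∀ t, l ≤ t → t ≤ T0 S M → Out p (L ^ 16) S M m a l (l ^ 3) t := fun t h0 h1 => by
    obtain ⟨b0, b1, D, X⟩ := geo' t h0 h1
    rcases le_total t (L * l) with ht | ht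
    · exact X.low ht
    · refine X.high ht (h1.trans TC) (le_trans (by gcongr) vn) le_rfl (N.w1 t h0 (h1.trans TC)) N.v3
        ((sum_le_sum_of_subset_of_nonneg (fun k hk => ?_) fun k _ _ => mul_nonneg
          (sub_nonneg.2 (h.leg.zm (Nat.sub_le _ _))) (sq_nonneg _)).trans N.en)
      have := mem_Ioo.1 (mem_filter.1 hk).1
      exact mem_Ioc.2 ⟨this.1, by omega⟩
  have zl : ∀ k < S.J, M.s k < l → M.z k ≤ L * l := fun k k2 k3 => by
    have : M.z k ≤ S.C * (l + 2 * S.v) := by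
      rcases le_total S.j0 k with e | e
      · exact (h.z_s e k2).2.trans (mul_le_mul_of_nonneg_left (by linarith) C0.le)
      · rw [h.low k e]
        exact (h.z_s le_rfl h.j0_lt).2.trans
          (mul_le_mul_of_nonneg_left (by linarith [h.sm i1]) C0.le)
    nlinarith [mul_le_mul_of_nonneg_left vl C0.le,
      mul_le_mul_of_nonneg_right (show 3 * S.C ≤ L by linarith) l0.le]
  have ml : ∀ {x : ℝ} {i : ℕ}, x ≤ L ^ i * l → max S.v x ≤ L ^ i * l := fun hx =>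
    max_le (vl.trans (le_mul_of_one_le_left l0.le (one_le_pow₀ L1))) hx
  have s1 : ∀ k < S.J, M.s k < l → Γ S M m a p k ≤ L ^ 4 * l := fun k k2 k3 => by
    refine ((all k (by omega)).le p0).trans (ml ?_)
    have := mul_le_mul_of_nonneg_left (max_le (zl k k2 k3) (le_mul_of_one_le_left l0.le L1))
      (sq_nonneg L)
    nlinarith [mul_pos (pow_pos L0 3) l0]
  have kj : ∀ k, l ≤ M.s k → S.jl < k := fun k hk => by
    by_contra hc
    linarith [h.sm (not_lt.1 hc), N.jl]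
  have g0 : ∀ k, 0 ≤ M.dz m a k * Γ S M m a p k ^ 2 := fun k =>
    mul_nonneg (G.dz_nonneg k) (sq_nonneg _)
  have l3 : 0 < l ^ 3 := pow_pos l0 3
  refine ⟨F, l0, ⟨K1.trans KΛ, fun k a b => (c1.2 k a b).trans (by have := mx k; gcongr)⟩,
    fun k x y hy => e _ l l0 sl wl c1 k x y (le_trans (add_le_add_right
      (mul_le_mul_of_nonneg_right (LK.trans (lp (by norm_num))) (mx k)) _) hy),
    fun k a b => (c2 k a b).trans (by gcongr), fun k hk => (all k hk).mono ?_,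
    fun t a b => (out t a b).mono (lp (by norm_num)) l0.le l3.le (w3_pos h (l0.trans_le a)).le,
    fun k k2 k3 => ?_, ?_, fun t V h0 h1 V0 Vt wV loc => ?_⟩
  · rw [← mul_assoc]
    exact mul_le_mul_of_nonneg_right (le_trans (by nlinarith) (lp (show 3 ≤ 20 by norm_num))) (mx k)
  · rcases lt_or_ge (M.s k) l with e | e
    · exact (s1 k k2 e).trans (mul_le_mul_of_nonneg_right (lp (by norm_num)) l0.le)
    · obtain ⟨g, b1, b2, -⟩ := out _ e k3
      exact ((Qk.le p0 (b2 k (mem_filter.2 ⟨mem_Ioo.2 ⟨kj k e, k2⟩, le_rfl, by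
        linarith [h.s_nn k]⟩))).trans (ml (b1 k).2)).trans
        (mul_le_mul_of_nonneg_right (lp (by norm_num)) l0.le)
  · set A := (range S.J).filter fun k => M.s k < l
    set B := (Ioo S.jl S.J).filter fun k => l ≤ M.s k ∧ M.s k ≤ T0 S M
    have a1 : ∑ k ∈ A, M.dz m a k * Γ S M m a p k ^ 2 ≤ L * l * (L ^ 4 * l) ^ 2 :=
      M17.sum_le_of G (by positivity) (fun k hk => pow_le_pow_left₀ (Γ_pos h k).le
        (s1 k (mem_range.1 (mem_filter.1 hk).1) (mem_filter.1 hk).2) 2)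
        (wt_le G (by positivity) fun k hk =>
          zl k (mem_range.1 (mem_filter.1 hk).1) (mem_filter.1 hk).2)
    have a2 := M17.sum_cover (T := B)
      (I := (range (⌊L ^ 3⌋₊ + 1)).filter fun i => 2 ^ i * l ≤ T0 S M)
      (B := fun i => sb S M (2 ^ i * l) (2 * (2 ^ i * l))) (c := 2 * L ^ 16 * l ^ 3) g0
      (fun k hk => by
        obtain ⟨k1, k2, k3⟩ := mem_filter.1 hk
        obtain ⟨i, e1, e2⟩ := exists_nat_pow_near ((one_le_div l0).2 k2) one_lt_two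
        rw [le_div_iff₀ l0] at e1
        rw [div_lt_iff₀ l0, pow_succ'] at e2
        refine ⟨i, mem_filter.2 ⟨mem_range.2 (Nat.lt_succ_of_le (Nat.le_floor (cnt i ?_))),
          e1.trans k3⟩, mem_filter.2 ⟨k1, e1, by linarith⟩⟩
        have k4 := (mem_Ioo.1 k1).2
        have c1 := (h.s_bds k4.le).2
        have c4 : (k : ℝ) ≤ M.N := by exact_mod_cast (by omega : k ≤ M.N)
        have c5 : 0 < S.v / S.C := by positivity
        have c6 : S.v / S.C ≤ l := (div_le_self v0.le C1).trans vl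
        refine le_of_mul_le_mul_right ?_ c5
        calc _ ≤ 2 ^ i * l := by gcongr
          _ ≤ M.N * (S.C * S.v) := e1.trans (c1.trans (by gcongr))
          _ = _ := by field_simp)
      fun i hi => by
        obtain ⟨g, -, b2, b3, -⟩ := out _ (le_mul_of_one_le_left l0.le (one_le_pow₀ one_le_two))
          (mem_filter.1 hi).2
        have : ∑ k ∈ sb S M (2 ^ i * l) (2 * (2 ^ i * l)), M.dz m a k * Γ S M m a p k ^ 2 ≤
            S.v ^ 2 + ∑ k ∈ sb S M (2 ^ i * l) (2 * (2 ^ i * l)), M.dz m a k * g k ^ 2 :=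
          M17.GG_sum h G (Γ_pos (m := m) (a := a) (p := p) h) 2 fun k hk =>
            ⟨Nat.zero_lt_of_lt (mem_Ioo.1 (mem_filter.1 hk).1).1, (b2 k hk).1.2.nn,
              Qk.le p0 (b2 k hk)⟩
        have v2 : S.v ^ 2 ≤ S.v := pow_le_of_le_one v0.le (vl.trans ll1) two_ne_zero
        linarith [N.v3, le_mul_of_one_le_left l3.le (one_le_pow₀ (n := 16) L1)]
    have a3 : (((range (⌊L ^ 3⌋₊ + 1)).filter fun i => 2 ^ i * l ≤ T0 S M).card : ℝ) ≤
        2 * L ^ 3 := by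
      have := card_filter_le (range (⌊L ^ 3⌋₊ + 1)) fun i => 2 ^ i * l ≤ T0 S M
      rw [card_range] at this
      have b : ((⌊L ^ 3⌋₊ + 1 : ℕ) : ℝ) ≤ 2 * L ^ 3 := by
        push_cast; linarith [Nat.floor_le (show 0 ≤ L ^ 3 by positivity), one_le_pow₀ (n := 3) L1]
      exact le_trans (by exact_mod_cast this) b
    have a4 := a2.trans (mul_le_mul_of_nonneg_right a3 (by positivity))
    have a6 := M17.sum_sub2 (T := (range S.J).filter fun k => M.s k ≤ T0 S M) (A := A) (B := B) g0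
      fun k hk => by
        obtain ⟨k1, k2⟩ := mem_filter.1 hk
        rcases lt_or_ge (M.s k) l with e | e
        · exact mem_union_left _ (mem_filter.2 ⟨k1, e⟩)
        · exact mem_union_right _ (mem_filter.2 ⟨mem_Ioo.2 ⟨kj k e, mem_range.1 k1⟩, e, k2⟩)
    have e2 : L ^ 9 * l ^ 3 ≤ L ^ 19 * l ^ 3 :=
      mul_le_mul_of_nonneg_right (pow_le_pow_right₀ L1 (by norm_num)) l3.le
    have e4 : 5 * (L ^ 19 * l ^ 3) ≤ L * (L ^ 19 * l ^ 3) :=
      mul_le_mul_of_nonneg_right (by linarith) (by positivity)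
    linarith [mul_le_mul_of_nonneg_right hΛ l3.le]
  · obtain ⟨b0, b1, D, X⟩ := geo' t h0 h1
    have Ge := X.geo
    have t0 := Ge.t0
    have := Ge.b0l
    have := Ge.b01
    have := Ge.b1J
    have := Ge.D1
    have cr : Crude K S M m a t (b0 - D) := ⟨K1, fun k a b => (c1.2 k (by omega) b).trans
      (mul_le_mul_of_nonneg_left (max_le_max le_rfl h0) (by linarith))⟩
    have O := Q _ _ _ _ _ _ (Ge.qh h hθ X.hw (ρ := fun _ => V) cr
      (fun _ => by rw [sub_self, abs_zero]; positivity) (fun _ => ⟨wV, Vt⟩) fun k a b => by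
        obtain ⟨r1, r2⟩ := Ge.rg k (by omega) (by omega)
        rw [cq_eq (by omega)]
        exact (loc k (by omega) (by omega) r1 r2).trans (le_mul_of_one_le_left V0.le K1))
    obtain ⟨o1, -, o3⟩ := Ge.out h I (by positivity) (fun _ => ⟨V0, Vt⟩) O.1 O.2
    have w0 := w3_pos h t0
    refine ⟨fun k hk => Qk.mono (o1 k hk) (mul_le_mul_of_nonneg_right
      (LK.trans (lp (by norm_num))) V0.le), fun i hi =>
      (o3 i hi _ (Ge.sum_c h (pow_nonneg V0.le i))).trans ?_⟩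
    have b1 : (L * K) ^ (i + 1) * (8 * S.C ^ 2) ≤ Λ ^ (i + 1) := by
      calc _ ≤ (L ^ 2) ^ (i + 1) * L ^ (i + 1) := mul_le_mul (by gcongr)
            (le_trans (by linarith) (le_self_pow₀ L1 i.succ_ne_zero)) (by positivity) (by positivity)
        _ = (L ^ 3) ^ (i + 1) := by ring
        _ ≤ _ := pow_le_pow_left₀ (by positivity) (lp (by norm_num)) _
    calc _ = (L * K) ^ (i + 1) * (8 * S.C ^ 2) * S.w3 t * (t * V ^ i) := by ring
      _ ≤ _ := by gcongr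

/-- **moments on the sloped part** -/
theorem slM : SlM := fun p hp => by
  refine ((((diag fun C => (qSyncS' (32 * max C 1) p (by linarith [le_max_right C 1])).and
    (CIn12.env_syn 3 (32 * max C 1) (by linarith [le_max_right C 1]))).and (qLowS p)).and
    (CIn12.env_cl 3)).and CIn12.cl_fn).glue fun C => ⟨0, fun A _ ε η hε hη => ?_⟩
  refine ⟨ε, min (η / 20) (min ε 1), 600 * C ^ 2 * (1 + 6 * C ^ 2), hε, by positivity,
    fun S M m a R h I ⟨⟨⟨Q, q⟩, e⟩, F⟩ l N => ?_⟩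
  set η' := min (η / 20) (min ε 1) with hη'
  have n1 := R.N1.le
  have n0 := R.N0
  have C1 := h.C1
  have hL := R.K_le
  rw [← R.hC] at hL
  rw [max_eq_left C1] at Q
  refine so_of F (R.Cθ h) hp hL R.num_le (rpow_le_rpow_of_exponent_le n1
    ((min_le_right _ _).trans (min_le_left _ _))) ((rpow_le_rpow_of_exponent_le n1
    ((min_le_right _ _).trans (min_le_right _ _))).trans_eq (rpow_one _))
    (le_trans (mul_le_mul_of_nonneg_left (pow_le_pow_right₀ n1 (R.hA ▸ R.A2)) h.v0.le) h.v2)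
    (fun i hi => ?_) ?_ (fun _ _ _ _ _ _ H => ⟨Q.1 _ _ _ _ _ _ H, Q.2 _ _ _ _ _ _ H⟩) q e N
  · set lam := (S.n : ℝ) ^ η'
    have cn : S.C ≤ S.n := by
      linarith [R.hC, R.C_log, h.C0, log_le_sub_one_of_pos n0]
    have a1 : (2 : ℝ) ^ i ≤ (S.n : ℝ) ^ (S.A + 3) := by
      calc _ ≤ S.C ^ 2 * M.N := hi
        _ ≤ (S.n : ℝ) ^ 2 * (S.n : ℝ) ^ (S.A + 1) := by have := h.C0; have := h.card; gcongr
        _ = _ := by ring
    have a2 := log_le_log (by positivity) a1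
    rw [log_pow, log_pow, R.hA] at a2
    push_cast at a2
    have a5 : 1000 ≤ lam := R.num_le
    have a3 : ((A : ℝ) + 3) * log S.n ≤ (lam + 3) * lam :=
      mul_le_mul (by linarith [R.A_le]) R.log_le (by linarith [R.log1]) (by linarith)
    have a4 : (i : ℝ) * (1 / 2) ≤ i * log 2 :=
      mul_le_mul_of_nonneg_left (by linarith [log_two_gt_d9]) (Nat.cast_nonneg i)
    nlinarith [mul_le_mul_of_nonneg_right a5 (sq_nonneg lam)]
  · rw [Pre29.rp_pow]
    exact rpow_le_rpow_of_exponent_le n1 (by push_cast; linarith [min_le_left (η / 20) (min ε 1)])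

end Crest.Agent.T156.Alt.R62.S39

end
end

-- ▼ part T156/R2ME_90
section

/-!
# Row 156, R2 (helper90): the sloped moment kit on the END model
-/

set_option autoImplicit false
set_option linter.unusedSectionVars false

noncomputable section

namespace Crest.Agent.T156.Alt.R2.J90

open Real Finset
open Crest.Agent.T156.Alt.Md67 Crest.Agent.T156.Alt.R62 Crest.Agent.T156.Alt.R62.S39

/-- the crude level -/
def lE (p : Pm) : ℝ := p.s * (p.n : ℝ) ^ (2 / 9 * p.c - 1 / 6)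

/-- output of SR (`= Sml β Sp41.SrE`) -/
def SrF (β : ℝ) : Prop := Sml β fun _ p => ∀ P, p.SpOk (7 / 20) P → ∀ m a, p.InW m a →
  p.ph2 P (p.tst P p.ye) m a ≤ p.s ^ 3 * (p.n : ℝ) ^ (2 / 3 * p.c - 1 / 2)

/-- **the sloped kit on END** -/
def SoE (β : ℝ) : Prop := Sml β fun Λ p => ∀ P m a, p.SpOk (7 / 20) P → In p m a →
  ∃ C, C ≤ Λ ∧ En C p P ∧ SO 4 Λ (Se p C P) (Me p P) m a (lE p)

variable {β c0 C0 c η K0 C : ℝ} {A : ℕ} {p : Pm} {P : Pl} {m : ℕ} {a : ℝ}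

theorem inW (h : In p m a) : p.InW m a := ⟨h.m1, h.m2, h.a1, h.a2⟩

section reg
variable (H : Reg β c0 C0 A c η K0 p)
include H

theorem lE0 : 0 < lE p := mul_pos H.s0 (H.rp0 _)

theorem lg_lE : logb p.n (lE p) = logb p.n p.s + 2 / 9 * c - 1 / 6 := by
  rw [lE, logb_mul H.s0.ne' (H.rp0 _).ne', H.lg_rp, H.hc]; ring

theorem lE3 : p.s ^ 3 * (p.n : ℝ) ^ (2 / 3 * p.c - 1 / 2) = lE p ^ 3 := by
  rw [lE, mul_pow, Pre29.rp_pow]; congr 2; push_cast; ring

theorem w3_le {t x : ℝ} (x0 : 0 < x) (xt : x ≤ t) (xy : x ≤ p.ye) :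
    (Se p C P).w3 t ≤ 1 / (p.n * t * (p.κ * x ^ 2)) := by
  have k0 := H.κ0
  have N0 := H.N0
  have t0 := x0.trans_le xt
  change 1 / (p.n * t * (1 * p.κ * max p.r (min t p.ye) ^ 2)) ≤ _
  rw [one_mul]
  refine one_div_le_one_div_of_le (by positivity) ?_
  gcongr
  exact (le_min xt xy).trans (le_max_right _ _)

theorem le_sJ (e : En C p P) {x : ℝ} (x0 : 0 < x) (h : logb p.n x ≤ -η) :
    x ≤ (Me p P).s p.J := by
  have b := H.lg_le (by have := H.c00; positivity) H.c0_le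
  rw [one_div, logb_inv] at b
  rw [e.sJ]
  exact (H.le_of_lg x0 H.c00 (by linarith)).trans H.ok.base.lo

theorem si_end (hC : C ≤ (p.n : ℝ) ^ η) (hη : 60 * η ≤ c) (e : En C p P) (sp : p.SpOk (7 / 20) P)
    (hE : p.ph2 P (p.tst P p.ye) m a ≤ p.s ^ 3 * (p.n : ℝ) ^ (2 / 3 * p.c - 1 / 2)) :
    SI ((p.n : ℝ) ^ p.c) (Se p C P) (Me p P) m a (lE p) := by
  have l0 := lE0 H
  have ll := lg_lE H
  have k0 := H.κ0
  have N0 := H.N0
  have y0 := H.ye0
  have j0 := H.jfv0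
  have C1 : 1 ≤ C := e.cl.C1
  have lC := H.lg_cst C1 hC
  have s1 := H.lg_s
  have cc := H.c_le
  have c0' := H.c_pos
  have A2 : (2 : ℝ) ≤ A := by exact_mod_cast H.A2
  have ly : lE p ≤ p.ye := H.le_of_lg l0 y0 (by linarith [H.lg_ye])
  have jl : p.jf < p.J := e.cl.jl_lt
  have a0 : 1 / (p.n * lE p * (p.κ * lE p ^ 2)) ≤ lE p ^ 3 := by
    refine H.le_of_lg (by positivity) (by positivity) ?_
    lg_norm
    linarith [H.lg_n, H.lg_κ]
  refine ⟨?_, H.le_of_lg (by positivity) one_pos ?_, e.gam.trans (sp.g'.trans_le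
    (H.le_of_lg (H.rp0 _) l0 (by linarith [H.lg_rp (-(7 / 20))]))), fun t h1 _ => ?_,
    fun t h1 h2 => ?_, H.le_of_lg H.v0 (by positivity) ?_, hE.trans_eq (lE3 H)⟩
  · have : 12 * (p.jf * p.v) ≤ lE p := H.le_of_lg (by positivity) l0 (by
      rw [logb_mul (by norm_num) j0.ne']
      linarith [H.lg_jf.2, (H.lg_num (x := 12) (by norm_num) (by norm_num)).2])
    exact le_trans (by linarith [(e.s_lo H jl.le).2] : 8 * (Me p P).s p.jf ≤ _) this
  · rw [logb_mul (H.rp0 _).ne' l0.ne', H.lg_rp, logb_one, H.hc]; linarith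
  · refine (w3_le H l0 h1 ly).trans (le_trans ?_ (a0.trans (pow_le_pow_left₀ l0.le h1 3)))
    exact one_div_le_one_div_of_le (by positivity) (by gcongr)
  · have t0 := l0.trans_le h1
    have w0 := (w3_pos e.cl t0).le
    rcases le_total t p.ye with h3 | h3
    · have b := pow_le_pow_left₀ w0 (w3_le (C := C) (P := P) H t0 le_rfl h3) 2
      refine (mul_le_mul_of_nonneg_left b (by positivity)).trans
        (H.le_of_lg (by positivity) (by positivity) ?_)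
      lg_norm
      linarith [H.lg_n, H.lg_κ, H.lg_mono l0 h1]
    · have b := pow_le_pow_left₀ w0 (w3_le (C := C) (P := P) H y0 h3 le_rfl) 2
      refine (mul_le_mul_of_nonneg_left b (by positivity)).trans
        (H.le_of_lg (by positivity) (by positivity) ?_)
      lg_norm
      linarith [H.lg_n, H.lg_κ, H.lg_ye, H.lg_mono t0 (show t ≤ C from h2)]
  · change logb _ p.v ≤ _
    rw [logb_pow]; push_cast; linarith [H.lg_v_le]

theorem s_jc (e : En C p P) {k : ℕ} (hk : k ≤ jc p) : (Me p P).s k ≤ 3 * t1 p := by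
  have := jc_lt H
  linarith [(e.s_lo H (k := jc p) (by omega)).2, (jc_bds H).2, H.v_le_r, r_le_t1 H, e.cl.sm hk]

theorem t1_sJ (e : En C p P) : 48 * t1 p ≤ (Me p P).s p.J := by
  have := t10 H
  refine le_sJ H e (by positivity) ?_
  rw [logb_mul (by norm_num) this.ne']
  linarith [lg_t1 H, (H.lg_num (x := 48) (by norm_num) (by norm_num)).2, H.c_le, H.η_le, H.lg_s.2]

/-- the second moments below the cut -/
theorem sq_end (hη : 60 * η ≤ c) (e : En C p P) (h : In p m a)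
    (O : SO 4 ((p.n : ℝ) ^ η) (Se p C P) (Me p P) m a (lE p)) :
    ∑ k ∈ range (jc p), (Me p P).dz m a k * (Me p P).E2 m a (fun R => (R - (Me p P).q k) ^ 2) k ≤
      p.κ ^ (-(7 : ℝ) / 10) * (p.s ^ 3 * (p.n : ℝ) ^ (-(1 : ℝ) / 2)) := by
  have j1 := jc_lt H
  have iN : p.J < (Me p P).N := e.cl.J_lt
  have G := e.lg H h
  have l0 := lE0 H
  have k0 := H.κ0
  have N0 := H.N0
  have s0 := H.s0
  have a1 : ∑ k ∈ range (jc p), (Me p P).dz m a k *
      (Me p P).E2 m a (fun R => (R - (Me p P).q k) ^ 2) k ≤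
      9 * ∑ k ∈ range (jc p), (Me p P).dz m a k * Γ (Se p C P) (Me p P) m a 4 k ^ 2 := by
    rw [mul_sum]
    exact sum_le_sum fun k hk => (mul_le_mul_of_nonneg_left (sq_le (p := 4) e.cl G.m0 (by norm_num)
      (by have := mem_range.1 hk; omega)) (dz_nn G k)).trans_eq (by ring)
  have a2 := (sum_le_sum_of_subset_of_nonneg (s := range (jc p)) (fun k hk => by
    have := mem_range.1 hk
    exact mem_filter.2 ⟨mem_range.2 (show k < p.J by omega), show _ ≤ (Me p P).s p.J / 16 by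
      linarith [s_jc H e this.le, t1_sJ H e]⟩)
    fun k _ _ => mul_nonneg (dz_nn G k) (sq_nonneg _)).trans O.tot
  refine a1.trans ((mul_le_mul_of_nonneg_left a2 (by norm_num)).trans
    (H.le_of_lg (by positivity) (by positivity) ?_))
  lg_norm
  linarith [H.lg_n, H.lg_κ, lg_lE H, (H.lg_num (x := 9) (by norm_num) (by norm_num)).2,
    mul_one η ▸ congrArg (η * ·) H.lg_n]

end reg

theorem soE_of (hβ : 1 < β) (hM : SlM) (h : SrF β) : SoE β := by
  unfold SoE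
  exact Sml.glueCL hβ (enS hβ) h (hM 4 le_rfl) id id (fun _ hc => hc) fun C _ c0 C0 _ _ =>
    ⟨0, fun A _ => ⟨1, one_pos, fun c _ c0' => ⟨c / 60, by positivity, fun η hη _ =>
      ⟨C, fun p H e I L P m a sp h => by
        rw [le_div_iff₀' (by positivity)] at hη
        have e := e H.r_le_ye P sp
        exact ⟨C, H.K_le, e, L _ _ rfl rfl rfl e.cl m a h.sc _
          (si_end H H.K_le hη e sp (I P sp m a (inW h)))⟩⟩⟩⟩⟩

/-- the input of `LwS` -/
theorem lw_of (hβ : 1 < β) (h : SoE β) : Sml β fun _ p => ∀ P m a, p.SpOk (7 / 20) P → In p m a →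
    ∑ k ∈ range (jc p), (Me p P).dz m a k * (Me p P).E2 m a (fun R => (R - (Me p P).q k) ^ 2) k ≤
      p.κ ^ (-(7 : ℝ) / 10) * (p.s ^ 3 * (p.n : ℝ) ^ (-(1 : ℝ) / 2)) :=
  Sml.glue' hβ h 0 one_pos 60 fun _ _ _ _ _ _ _ _ _ => ⟨0, fun p H _ _ hη I P m a sp h => by
    obtain ⟨C, -, e, O⟩ := I P m a sp h
    exact sq_end H (by exact_mod_cast hη) e h O⟩

end Crest.Agent.T156.Alt.R2.J90

end
end

-- ▼ part T156/R2MZ_90
section

/-!
# Row 156, R2 (helper90): `JS` and `GlS` from SR and the location of the END model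
-/

set_option autoImplicit false
set_option linter.unusedSectionVars false

noncomputable section

namespace Crest.Agent.T156.Alt.R2.J90

open Real Finset
open Crest.Agent.T156.Alt.Md67 Crest.Agent.T156.Alt.R62 Crest.Agent.T156.Alt.R62.S39

/-- the three sizes and the envelope at the time `t` -/
def eU (p : Pm) : ℝ := p.s ^ 3 * (p.n : ℝ) ^ (-(1 / 2 : ℝ))
def eX (p : Pm) : ℝ := (p.n : ℝ) ^ (-(1 / 3 : ℝ))
def eB (p : Pm) : ℝ := p.s ^ 2 * (p.n : ℝ) ^ (-(13 / 40 : ℝ))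
def Av (p : Pm) (t : ℝ) : ℝ := eU p / t ^ 2 + eX p / t + eB p

theorem pow3 {x y z : ℝ} (hx : 0 ≤ x) (hy : 0 ≤ y) (hz : 0 ≤ z) (i : ℕ) :
    (x + y + z) ^ i ≤ 3 ^ i * (x ^ i + y ^ i + z ^ i) := by
  have a := pow_nonneg hx i
  have b := pow_nonneg hy i
  have c := pow_nonneg hz i
  have key : ∀ w, 0 ≤ w → x ≤ w → y ≤ w → z ≤ w → w ^ i ≤ x ^ i + y ^ i + z ^ i →
      (x + y + z) ^ i ≤ 3 ^ i * (x ^ i + y ^ i + z ^ i) := fun w _ h1 h2 h3 h4 =>
    (pow_le_pow_left₀ (by positivity) (by linarith : _ ≤ 3 * w) i).trans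
      (by rw [mul_pow]; gcongr)
  rcases le_total x y with h1 | h1 <;> rcases le_total y z with h2 | h2
  · exact key z hz (h1.trans h2) h2 le_rfl (by linarith)
  · exact key y hy h1 le_rfl h2 (by linarith)
  · rcases le_total x z with h3 | h3
    · exact key z hz h3 h2 le_rfl (by linarith)
    · exact key x hx le_rfl h1 h3 (by linarith)
  · exact key x hx le_rfl h1 (h2.trans h1) (by linarith)

/-- `y ^ i / t ^ (j + 2) ≤ y ^ i / t0 ^ j / t ^ 2` -/
theorem dv {y t t0 : ℝ} (hy : 0 ≤ y) (h0 : 0 < t0) (h : t0 ≤ t) (j : ℕ) :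
    y / t ^ (j + 2) ≤ y / t0 ^ j / t ^ 2 := by
  have := h0.trans_le h
  rw [div_div, pow_add]
  gcongr

variable {β c0 C0 c η K0 C : ℝ} {A : ℕ} {p : Pm} {P : Pl} {m : ℕ} {a : ℝ}

section reg
variable (H : Reg β c0 C0 A c η K0 p)
include H

theorem eU0 : 0 < eU p := mul_pos (pow_pos H.s0 3) (H.rp0 _)
theorem eX0 : 0 < eX p := H.rp0 _
theorem eB0 : 0 < eB p := mul_pos (pow_pos H.s0 2) (H.rp0 _)
theorem lg_eU : logb p.n (eU p) = 3 * logb p.n p.s - 1 / 2 := by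
  rw [eU, logb_mul (pow_pos H.s0 3).ne' (H.rp0 _).ne', H.lg_rp, logb_pow]; push_cast; ring
theorem lg_eX : logb p.n (eX p) = -(1 / 3) := H.lg_rp _
theorem lg_eB : logb p.n (eB p) = 2 * logb p.n p.s - 13 / 40 := by
  rw [eB, logb_mul (pow_pos H.s0 2).ne' (H.rp0 _).ne', H.lg_rp, logb_pow]; push_cast; ring
theorem Av0 {t : ℝ} (ht : 0 < t) : 0 < Av p t := by
  have := eU0 H; have := eX0 H; have := eB0 H; unfold Av; positivity

theorem third {x Z : ℝ} (x0 : 0 < x) (Z0 : 0 < Z) (h : logb p.n x + η ≤ logb p.n Z) :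
    x ≤ Z / 3 := H.le_of_lg x0 (by positivity) (by
  rw [logb_div Z0.ne' (by norm_num)]
  linarith [(H.lg_num (x := 3) (by norm_num) (by norm_num)).2])

theorem ye_sJ (hη : 60 * η ≤ c) (e : En C p P) : 2 * p.ye ≤ (Me p P).s p.J := by
  have := H.ye0
  refine le_sJ H e (by positivity) ?_
  rw [logb_mul (by norm_num) this.ne']
  linarith [H.lg_ye, H.lg_two.2, H.η_pos]

theorem ji_end (hη : 60 * η ≤ c) (e : En C p P) (h : In p m a)
    (O : SO 4 ((p.n : ℝ) ^ η) (Se p C P) (Me p P) m a (lE p))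
    (L : En91.LocE p P (Me p P) m a) : JI 13 p P m a := by
  have k0 := H.κ0
  have s0 := H.s0
  have N0 := H.N0
  have c0' := H.c_pos
  refine ⟨(sq_end H hη e h O).trans (H.le_of_lg (by positivity) (by positivity) ?_),
    fun k hk hs => (L.sup k (le_trans (H.le_of_lg (by positivity) (by positivity) ?_) hs)
      (by linarith [s_jc H e hk.le, t1_sJ H e, ye_sJ H hη e, t10 H])).trans_eq ?_⟩
  · lg_norm
    linarith [H.lg_κ]
  · lg_norm
    rw [H.lg_n, H.lg_κ, H.hc]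
    linarith [H.lg_two.2]
  · rw [neg_div, neg_div, Pm.κ, Pre29.rp_pow, ← rpow_neg N0.le]
    congr 2
    push_cast; ring

theorem mem_Tlo (e : En C p P) {k : ℕ} (hk : k ∈ Tlo p P) :
    p.jf < k ∧ k < p.J ∧ t1 p / 2 ≤ (Me p P).s k ∧ (Me p P).s k < (Me p P).s p.J / 16 := by
  obtain ⟨h1, h2⟩ := mem_filter.1 hk
  have h3 := (mem_Ico.1 h1).1
  have j1 := jc_lt H
  have j2 := jf_lt H
  refine ⟨by omega, lt_of_not_ge fun hc => ?_, ?_, h2⟩
  · linarith [e.cl.sm hc, e.cl.s_nn p.J]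
  · linarith [(e.s_lo H (k := jc p) (by omega)).1, (jc_bds H).1, e.cl.sm h3]

/-- **the pointwise envelope** -/
theorem pw_end (hC : C ≤ (p.n : ℝ) ^ η) (hc : c ≤ 1 / 1000) (hη : 60 * η ≤ c) (e : En C p P)
    (O : SO 4 ((p.n : ℝ) ^ η) (Se p C P) (Me p P) m a (lE p))
    (L : En91.LocE p P (Me p P) m a) {k : ℕ} (h1 : p.jf < k) (h2 : k < p.J)
    (h3 : t1 p / 2 ≤ (Me p P).s k) (h4 : (Me p P).s k ≤ (Me p P).s p.J / 16) :
    Qk (Se p C P) (Me p P) m a 4 k ((p.n : ℝ) ^ (14 * c) * Av p ((Me p P).s k)) := by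
  have k0 := H.κ0
  have s0 := H.s0
  have N0 := H.N0
  have y0 := H.ye0
  have c0' := H.c_pos
  have u0 := eU0 H
  have x0 := eX0 H
  have b0 := eB0 H
  have t0 := t10 H
  have C1 : 1 ≤ C := e.cl.C1
  have lC := H.lg_cst C1 hC
  have ls := H.lg_s
  have n2 := H.lg_two
  have n4 := H.lg_num (x := 4) (by norm_num) (by norm_num)
  set t := (Me p P).s k with ht
  have tp : 0 < t := by linarith
  have A0 := Av0 H tp
  have lt : logb p.n p.s + c / 7 - 3 / 20 - η ≤ logb p.n t := by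
    have := H.lg_mono (by positivity) h3
    rw [logb_div t0.ne' two_ne_zero] at this
    linarith [lg_t1 H]
  have tC : t ≤ C := (e.cl.sm (h2.le.trans e.cl.i3)).trans e.cl.sT
  set Q := 4 * (p.n : ℝ) ^ (13 * p.c) with hQ
  have Q0 : 0 < Q := by positivity
  have lQ : logb p.n Q = logb p.n 4 + 13 * c := by
    rw [hQ, logb_mul (by norm_num) (by positivity), H.lg_rp, H.hc]
  have a1 : Q * Av p t ≤ t := by
    have b1 : Q * (eU p / t ^ 2) ≤ t / 3 := third H (by positivity) tp (by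
      lg_norm; linarith [lg_eU H])
    have b2 : Q * (eX p / t) ≤ t / 3 := third H (by positivity) tp (by
      lg_norm; linarith [lg_eX H])
    have b3 : Q * eB p ≤ t / 3 := third H (by positivity) tp (by
      lg_norm; linarith [lg_eB H])
    rw [Av]; linarith
  have a2 : (Se p C P).w3 t ≤ (Q * Av p t) ^ 3 := by
    refine (w3_le (x := t * p.ye / C) H (by positivity) ?_ ?_).trans
      ((H.le_of_lg (y := (Q * (eX p / t)) ^ 3) (by positivity) (by positivity) ?_).trans ?_)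
    · rw [div_le_iff₀ (by positivity)]; gcongr; exact H.ye1.trans C1
    · rw [div_le_iff₀ (by positivity), mul_comm]; gcongr
    · lg_norm
      linarith [lg_eX H, H.lg_n, H.lg_κ, H.lg_ye]
    · gcongr
      rw [Av]; linarith [div_pos u0 (pow_pos tp 2)]
  have a3 := (O.blk t (Q * Av p t) (H.le_of_lg (lE0 H) tp (by linarith [lg_lE H])) h4
    (by positivity) a1 a2 fun j _ _ j1 j2 => (L.sup j (le_trans (H.le_of_lg (y := t / 2)
      (by positivity) (by positivity) (by lg_norm; rw [H.lg_n, H.hc]; linarith)) j1)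
      (by linarith [ye_sJ H hη e])).trans ?_).1 k
    (mem_filter.2 ⟨mem_Ioo.2 ⟨h1, h2⟩, le_rfl, by linarith⟩)
  · refine a3.mono ?_
    rw [← mul_assoc]
    refine mul_le_mul_of_nonneg_right (H.le_of_lg (by positivity) (by positivity) ?_) A0.le
    rw [logb_mul (by positivity) Q0.ne', H.lg_rp, H.lg_rp]
    linarith
  · rw [hQ, mul_comm 4, mul_assoc]
    refine mul_le_mul_of_nonneg_left ?_ (by positivity)
    have : eU p / (Me p P).s j ^ 2 ≤ eU p / (t / 2) ^ 2 := by gcongr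
    have e1 : eU p / (t / 2) ^ 2 = 4 * (eU p / t ^ 2) := by field_simp; norm_num
    change eU p / _ + eB p ≤ _
    rw [Av]
    linarith [div_pos x0 tp]

/-- **the table on the sloped nodes** -/
theorem gz_end (hC : C ≤ (p.n : ℝ) ^ η) (hc : c ≤ 1 / 1000) (hη : 60 * η ≤ c) (e : En C p P)
    (h : In p m a) (W : ∀ k ∈ Tlo p P,
      Qk (Se p C P) (Me p P) m a 4 k ((p.n : ℝ) ^ (14 * c) * Av p ((Me p P).s k))) :
    GZ p P m a (Tlo p P) (fun k => 3 * ((p.n : ℝ) ^ (14 * c) * Av p ((Me p P).s k)))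
      (fun k => 3 * ((p.n : ℝ) ^ (14 * c) * Av p ((Me p P).s k))) ∧
    ∑ k ∈ Tlo p P, (Me p P).dz m a k * (max (t1 p) ((Me p P).z k) ^ 2 *
      (Me p P).E2 m a (fun R => (R - (Me p P).q k) ^ 2) k) ≤
      kk p ^ 5 * (p.s ^ 4 * (p.n : ℝ) ^ (-(13 : ℝ) / 20)) := by
  have s0 := H.s0
  have N0 := H.N0
  have v0 := H.v0
  have c0' := H.c_pos
  have u0 := eU0 H
  have x0 := eX0 H
  have b0 := eB0 H
  have K0' := kk0 H
  have C1 : 1 ≤ C := e.cl.C1
  have lC := H.lg_cst C1 hC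
  have ls := H.lg_s
  have n2 := H.lg_two
  have n3 := H.lg_num (x := 3) (by norm_num) (by norm_num)
  have A2 : (2 : ℝ) ≤ A := by exact_mod_cast H.A2
  have G := e.lg H h
  have lu := lg_eU H
  have lx := lg_eX H
  have lb := lg_eB H
  have lk := lg_kk H
  have ln := H.lg_n
  have Λ0 := H.Λ0
  have lΛ := H.lg_rp η
  set L := (p.n : ℝ) ^ (14 * c) with hL
  have L0 : 0 < L := H.rp0 _
  have lL : logb p.n L = 14 * c := H.lg_rp _
  set t0 := t1 p / 2 with ht0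
  have t0p : 0 < t0 := half_pos (t10 H)
  have lt : logb p.n t0 = logb p.n p.s + c / 7 - 3 / 20 - logb p.n 2 := by
    rw [ht0, logb_div (t10 H).ne' two_ne_zero, lg_t1 H]
  have hv : C * p.v ≤ t0 := H.le_of_lg (by positivity) t0p (by
    rw [logb_mul (by positivity) v0.ne']; linarith [H.lg_v_le])
  have hC' : t0 ≤ C := H.le_of_lg t0p (by positivity) (by linarith)
  have lg : log (C / t0) ≤ (p.n : ℝ) ^ η := by
    refine (log_le_log (by positivity) (H.le_of_lg (by positivity) N0 ?_)).trans H.log_le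
    rw [logb_div (by positivity) t0p.ne']
    linarith
  have hT := fun k (hk : k ∈ Tlo p P) => mem_Tlo H e hk
  have S3 := fun (F : ℕ → ℝ) (α β γ : ℝ) => sum3 (T := Tlo p P) (F := F) (α := α) (β := β) (γ := γ)
    e.cl G hv hC' fun k hk => ⟨(hT k hk).1, (hT k hk).2.1, (hT k hk).2.2.1⟩
  have tp : ∀ k ∈ Tlo p P, 0 < (Me p P).s k := fun k hk => t0p.trans_le (hT k hk).2.2.1
  have g0 : ∀ k ∈ Tlo p P, 0 < L * Av p ((Me p P).s k) := fun k hk => mul_pos L0 (Av0 H (tp k hk))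
  have ab : ∀ k ∈ Tlo p P, ∀ i ≤ 4, 2 ≤ i → (Me p P).E2 m a (fun R => |R - (Me p P).q k| ^ i) k ≤
      (3 * (L * Av p ((Me p P).s k))) ^ i := fun k hk i hi h2 => by
    have := CIn12.mom_pair (q := (Me p P).q k) (g0 k hk) (by omega : i ≤ 2 * 4) (W k hk).1.1
    rw [sub_self, abs_zero, add_zero] at this
    rw [mul_pow 3]
    refine this.trans (mul_le_mul_of_nonneg_right ?_ (pow_pos (g0 k hk) i).le)
    interval_cases i <;> norm_num
  have pw : ∀ k ∈ Tlo p P, ∀ i : ℕ, (3 * (L * Av p ((Me p P).s k))) ^ i ≤ (3 * L * 3) ^ i *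
      (eU p ^ i / (Me p P).s k ^ (2 * i) + eX p ^ i / (Me p P).s k ^ i + eB p ^ i) :=
    fun k hk i => by
    have := tp k hk
    rw [← mul_assoc, mul_pow, mul_pow _ 3, mul_assoc, pow_mul, ← div_pow, ← div_pow]
    exact mul_le_mul_of_nonneg_left (pow3 (by positivity) (by positivity) b0.le i) (by positivity)
  have s1 : ∑ k ∈ Tlo p P, (Me p P).dz m a k * (3 * (L * Av p ((Me p P).s k))) ≤
      kk p ^ 5 * (p.s ^ 2 * (p.n : ℝ) ^ (-(13 : ℝ) / 40)) := by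
    refine (S3 _ (3 * L * eU p) (3 * L * eX p) (3 * L * eB p) (by positivity) (by positivity)
      (by positivity) fun k _ => le_of_eq (by rw [Av]; ring)).trans ?_
    change 2 * C ^ 2 * (_ + _ * log (C / t0)) + _ ≤ _
    have d0 : 2 * C ^ 2 * (3 * L * eX p * log (C / t0)) ≤
      2 * C ^ 2 * (3 * L * eX p * (p.n : ℝ) ^ η) := by gcongr
    have d1 := third H (x := 2 * C ^ 2 * (3 * L * eU p / t0))
      (Z := kk p ^ 5 * (p.s ^ 2 * (p.n : ℝ) ^ (-(13 : ℝ) / 40))) (by positivity) (by positivity)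
      (by lg_norm; linarith)
    have d2 := third H (x := 2 * C ^ 2 * (3 * L * eX p * (p.n : ℝ) ^ η))
      (Z := kk p ^ 5 * (p.s ^ 2 * (p.n : ℝ) ^ (-(13 : ℝ) / 40))) (by positivity) (by positivity)
      (by lg_norm; rw [ln]; linarith)
    have d3 := third H (x := 3 * L * eB p)
      (Z := kk p ^ 5 * (p.s ^ 2 * (p.n : ℝ) ^ (-(13 : ℝ) / 40))) (by positivity) (by positivity)
      (by lg_norm; linarith)
    linarith
  have fin : ∀ {F : ℕ → ℝ} {α α' γ Z : ℝ}, 0 < α → 0 < α' → 0 < γ → 0 < Z →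
      (∀ k ∈ Tlo p P, F k ≤ (α + α') / (Me p P).s k ^ 2 + γ) →
      logb p.n α + 4 * η - logb p.n t0 ≤ logb p.n Z →
      logb p.n α' + 4 * η - logb p.n t0 ≤ logb p.n Z → logb p.n γ + η ≤ logb p.n Z →
      ∑ k ∈ Tlo p P, (Me p P).dz m a k * F k ≤ Z := fun {F α α' γ Z} p1 p2 p3 p4 hF q1 q2 q3 => by
    refine (S3 F (α + α') 0 γ (by positivity) le_rfl p3.le fun k hk => by
      simpa using hF k hk).trans ?_
    change 2 * C ^ 2 * (_ + _ * log (C / t0)) + _ ≤ _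
    have d1 := third H (x := 2 * C ^ 2 * (α / t0)) (by positivity) p4 (by lg_norm; linarith)
    have d2 := third H (x := 2 * C ^ 2 * (α' / t0)) (by positivity) p4 (by lg_norm; linarith)
    have d3 := third H p3 p4 q3
    rw [add_div]
    linarith
  set B := 3 * L * 3 with hB
  have B0 : 0 < B := by positivity
  have lB : logb p.n B ≤ 14 * c + 2 * η := by rw [hB]; lg_norm; linarith
  have sq : ∀ k ∈ Tlo p P, (Me p P).E2 m a (fun R => (R - (Me p P).q k) ^ 2) k ≤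
      (3 * (L * Av p ((Me p P).s k))) ^ 2 := fun k hk => by
    simpa only [sq_abs] using ab k hk 2 (by norm_num) le_rfl
  have tC : ∀ k ∈ Tlo p P, (Me p P).s k ≤ C := fun k hk =>
    (e.cl.sm ((hT k hk).2.1.le.trans e.cl.i3)).trans e.cl.sT
  have z3 : ∀ k ∈ Tlo p P, max (t1 p) ((Me p P).z k) ≤ 3 * C * (Me p P).s k := fun k hk => by
    obtain ⟨f1, f2, f3, -⟩ := hT k hk
    have t0' := tp k hk
    have z1 : (Me p P).z k ≤ C * ((Me p P).s k + 2 * p.v) := (e.cl.z_s f1.le f2).2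
    have z2 : p.v ≤ (Me p P).s k := (le_mul_of_one_le_left v0.le C1).trans (hv.trans f3)
    exact max_le (by nlinarith) (by nlinarith)
  refine ⟨⟨fun k hk => by linarith [g0 k hk], sq, fun k hk => ?_,
    fun k hk => by linarith [g0 k hk], fun k hk => ?_, s1, s1, ?_, ?_, ?_⟩, ?_⟩
  · refine ((W k hk).2.mono (by linarith [g0 k hk])).trans ?_
    change ((p.n : ℝ) ^ (3 * (p.A + 1)))⁻¹ ≤ _
    rw [← rpow_natCast, ← rpow_neg N0.le, H.hA]
    exact rpow_le_rpow_of_exponent_le H.N1.le (by push_cast; linarith)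
  · exact ab k hk 3 (by norm_num) (by norm_num)
  · refine fin (α := B ^ 2 * (eU p ^ 2 / t0 ^ 2)) (α' := B ^ 2 * eX p ^ 2) (γ := B ^ 2 * eB p ^ 2)
      (by positivity) (by positivity) (by positivity) (by positivity) (fun k hk => ?_)
      (by lg_norm; linarith) (by lg_norm; linarith) (by lg_norm; linarith)
    have d1 := dv (pow_pos u0 2).le t0p (hT k hk).2.2.1 2
    refine (pw k hk 2).trans ((mul_le_mul_of_nonneg_left
      (add_le_add_left (add_le_add_left d1 _) _) (by positivity)).trans_eq (by ring))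
  · refine fin (α := 3 * C * B ^ 3 * (eU p ^ 3 / t0 ^ 3)) (α' := 3 * C * B ^ 3 * eX p ^ 3)
      (γ := 3 * C * B ^ 3 * (eB p ^ 3 * C))
      (by positivity) (by positivity) (by positivity) (by positivity) (fun k hk => ?_)
      (by lg_norm; linarith) (by lg_norm; linarith) (by lg_norm; linarith)
    have t0' := tp k hk
    have d1 := dv (pow_pos u0 3).le t0p (hT k hk).2.2.1 3
    refine (mul_le_mul (z3 k hk) (pw k hk 3) (pow_pos (by linarith [g0 k hk]) 3).le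
      (by positivity)).trans ?_
    have e1 : 3 * C * (Me p P).s k * (B ^ 3 * (eU p ^ 3 / (Me p P).s k ^ (2 * 3) +
        eX p ^ 3 / (Me p P).s k ^ 3 + eB p ^ 3)) = 3 * C * B ^ 3 * (eU p ^ 3 / (Me p P).s k ^ (3 + 2) +
        eX p ^ 3 / (Me p P).s k ^ 2 + eB p ^ 3 * (Me p P).s k) := by field_simp; ring
    rw [e1]
    refine (mul_le_mul_of_nonneg_left (add_le_add (add_le_add_left d1 _)
      (mul_le_mul_of_nonneg_left (tC k hk) (by positivity))) (by positivity)).trans_eq (by ring)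
  · refine fin (α := B ^ 4 * (eU p ^ 4 / t0 ^ 6)) (α' := B ^ 4 * (eX p ^ 4 / t0 ^ 2))
      (γ := B ^ 4 * eB p ^ 4)
      (by positivity) (by positivity) (by positivity) (by positivity) (fun k hk => ?_)
      (by lg_norm; linarith) (by lg_norm; linarith) (by lg_norm; linarith)
    have d1 := dv (pow_pos u0 4).le t0p (hT k hk).2.2.1 6
    have d2 := dv (pow_pos x0 4).le t0p (hT k hk).2.2.1 2
    refine (ab k hk 4 le_rfl (by norm_num)).trans ((pw k hk 4).trans ((mul_le_mul_of_nonneg_left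
      (add_le_add_left (add_le_add d1 d2) _) (by positivity)).trans_eq (by ring)))
  · refine fin (α := (3 * C) ^ 2 * B ^ 2 * eU p ^ 2) (α' := (3 * C) ^ 2 * B ^ 2 * eU p ^ 2)
      (γ := (3 * C) ^ 2 * B ^ 2 * (2 * (eB p * C) ^ 2))
      (by positivity) (by positivity) (by positivity) (by positivity) (fun k hk => ?_)
      (by lg_norm; linarith) (by lg_norm; linarith) (by lg_norm; linarith)
    have t0' := tp k hk
    refine (mul_le_mul (pow_le_pow_left₀ ((t10 H).le.trans (le_max_left _ _)) (z3 k hk) 2)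
      ((sq k hk).trans (pw k hk 2)) (E2_nonneg (fun _ _ => sq_nonneg _) k) (sq_nonneg _)).trans ?_
    have e1 : (3 * C * (Me p P).s k) ^ 2 * (B ^ 2 * (eU p ^ 2 / (Me p P).s k ^ (2 * 2) +
        eX p ^ 2 / (Me p P).s k ^ 2 + eB p ^ 2)) = (3 * C) ^ 2 * B ^ 2 * (eU p ^ 2 / (Me p P).s k ^ 2 +
        eX p ^ 2 + (eB p * (Me p P).s k) ^ 2) := by field_simp; ring
    have d1 : eX p ^ 2 ≤ (eB p * C) ^ 2 := H.le_of_lg (by positivity) (by positivity) (by
      lg_norm; linarith)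
    have d2 : (eB p * (Me p P).s k) ^ 2 ≤ (eB p * C) ^ 2 := by have := tC k hk; gcongr
    have d3 : 0 ≤ eU p ^ 2 / (Me p P).s k ^ 2 := by positivity
    rw [e1]
    exact (mul_le_mul_of_nonneg_left (show _ ≤ 2 * (eU p ^ 2 / (Me p P).s k ^ 2) +
      2 * (eB p * C) ^ 2 by linarith) (by positivity)).trans_eq (by ring)

end reg

/-- **`JS` from SR and the location** -/
theorem jS_loc (hβ : 1 < β) (h : SoE β) (L : En91.LocS β) : JS β := by
  refine jS_of hβ 13 (by norm_num) ?_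
  unfold EvA
  exact Sml.glue' hβ (h.and L) 0 one_pos 60 fun _ _ _ _ _ _ _ _ _ =>
    ⟨0, fun p H _ _ hη I P m a E ad => by
      obtain ⟨C, -, e, O⟩ := I.1 P m a ad.sp ad.inn
      exact ji_end H (by exact_mod_cast hη) e ad.inn O (I.2 P ad.sp m a (inW ad.inn))⟩

theorem gl_both (hβ : 1 < β) (h : SoE β) (L : En91.LocS β) :
    Sml β fun _ p => ∀ P m a, p.SpOk (7 / 20) P → In p m a → (∃ G g, GZ p P m a (Tlo p P) G g) ∧
      ∑ k ∈ Tlo p P, (Me p P).dz m a k * (max (t1 p) ((Me p P).z k) ^ 2 *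
        (Me p P).E2 m a (fun R => (R - (Me p P).q k) ^ 2) k) ≤
        kk p ^ 5 * (p.s ^ 4 * (p.n : ℝ) ^ (-(13 : ℝ) / 20)) :=
  Sml.glue' hβ (h.and L) 0 (by norm_num : (0 : ℝ) < 1 / 1000) 60 fun _ _ _ _ _ _ _ _ _ =>
    ⟨0, fun p H _ hc hη I P m a sp h => by
      obtain ⟨C, hC, e, O⟩ := I.1 P m a sp h
      have hη' := (mul_le_mul_of_nonneg_right (by norm_num : (60 : ℝ) ≤ (60 : ℕ)) H.η_pos.le).trans hη
      exact (gz_end H hC hc hη' e h fun k hk =>
        have T := mem_Tlo H e hk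
        pw_end H hC hc hη' e O (I.2 P sp m a (inW h)) T.1 T.2.1 T.2.2.1 T.2.2.2.le).imp_left
          fun g => ⟨_, _, g⟩⟩

/-- **`GlS` from SR and the location** -/
theorem glS_of (hβ : 1 < β) (h : SoE β) (L : En91.LocS β) : GlS β :=
  (gl_both hβ h L).mono fun _ _ g P m a sp h => (g P m a sp h).1

end Crest.Agent.T156.Alt.R2.J90

end
end

-- ▼ part T156/R2O_81
section

/-!
Row 156, R2 (helper81): the reference lists of the family have linear tilts on `[0, y / 2]`.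
-/

set_option autoImplicit false

noncomputable section

namespace Crest.Agent.T156.Alt

open Real Set Filter Topology
open Crest.Agent.R164.GC Crest.Agent.R339.B Crest.Agent.R339.Var Crest.Agent.T157.Pf
open Pr.Ref81 Pr.Exp50

/-- the linear zone of the family -/
def LinQ (K : ℝ) (p : Pm) : Prop := ∀ τ y, p.Mem τ y → ∀ P : Pl, 0 ≤ P.γ → P.γ ≤ 1 → P.x 0 = p.xs →
  (∀ i < P.I, P.x i < P.x (i + 1)) → P.x P.I ≤ 1 → ∃ K₀,
  LinT (p.lP P τ y) (p.b τ y) (p.al τ) K₀ K (√p.v) (y / 2) ∧ (0 ≤ p.b τ y ∧ p.b τ y ≤ K) ∧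
  (1 / K ≤ p.al τ ∧ p.al τ ≤ K) ∧ |eps0 (p.b τ y) (p.lP P τ y) - p.eps τ| ≤ K * P.γ ∧
  |k3 (p.lP P τ y) (p.b τ y) (p.al τ)| ≤ K * (p.κ + P.γ) ∧
  ∀ k : ℕ, k * p.v ≤ y / 2 → k + 1 < p.J ∧ p.zP P k = p.z k ∧ k * p.v / 2 ≤ p.sP P τ y k ∧
    p.sP P τ y k ≤ k * p.v ∧ p.sP P τ y k < p.sP P τ y (k + 1) ∧
    p.sP P τ y (k + 1) - p.sP P τ y k ≤ 2 * p.v ∧ ∀ x, x = p.z k ∨ x = p.z (k - 1) →
      |x - p.al τ * p.sP P τ y k| ≤ K₀ * (p.sP P τ y k ^ 2 + √p.v)

theorem linQ (β : ℝ) (hβ : 1 < β) : Cst β LinQ := by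
  intro c0 C0 hc0 hC0
  have hb : 1 ≤ β ^ 2 := one_le_pow₀ hβ.le
  obtain ⟨K0, η0, k0, p0, H⟩ := lin_ref (β ^ 2) c0 C0 hb hc0 hC0
  obtain ⟨C1, c1, h1⟩ := p1 β hβ c0 C0 hc0 hC0
  obtain ⟨K1, k1, h2⟩ := linP β hβ c0 C0 hc0 hC0
  have q0 : 0 ≤ K0 * (C0 + 1) := by positivity
  obtain ⟨K, j1, j2, j3⟩ : ∃ K, K0 * (C0 + 1) ≤ K ∧ K1 ≤ K ∧ 2 * β ^ 2 ≤ K :=
    ⟨K0 * (C0 + 1) + K1 + 2 * β ^ 2, by linarith, by linarith, by linarith⟩
  obtain ⟨K2, η2, k2, k2', p2, H2⟩ := linRef_tp (β ^ 2 + 1) K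
  have j4 := j2.trans k2'
  obtain ⟨δ, hδ, d0, d1, d2, d3, d4⟩ : ∃ δ : ℝ, 0 < δ ∧ δ ≤ 1 / 8 ∧ δ ≤ η0 ∧ δ ≤ c0 / 2 ∧ δ ≤ η2 ∧
      δ ≤ η2 ^ 2 :=
    ⟨min (min (1 / 8) (min η0 (c0 / 2))) (min η2 (η2 ^ 2)), by positivity,
      (min_le_left _ _).trans (min_le_left _ _),
      (min_le_left _ _).trans ((min_le_right _ _).trans (min_le_left _ _)),
      (min_le_left _ _).trans ((min_le_right _ _).trans (min_le_right _ _)),
      (min_le_right _ _).trans (min_le_left _ _), (min_le_right _ _).trans (min_le_right _ _)⟩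
  refine ⟨K2, k2, fun A hA c hc hc' => ?_⟩
  filter_upwards [PP3.ev_small β c0 C0 hA hc hc' hδ, h1 A hA c hc hc', h2 A hA c hc hc',
    eventually_ge_atTop 3] with n hS hP hQ n3 p hβ' hn hA' hc'' hp τ y hm P g0 g1 x0 xm x1
  have S := hS p hβ' hn hA' hc'' hp
  obtain ⟨ho, -, ⟨b1, -⟩, -⟩ := hP p hβ' hn hA' hc'' hp τ y hm
  obtain ⟨⟨a1, a2⟩, a3, a4, a5, -⟩ := hQ p hβ' hn hA' hc'' hp τ y hm P g0 g1 x0 xm x1
  clear hS hP hQ h1 h2
  subst hβ'
  obtain ⟨κ0, r0, m0, t0, t1, ry, yd, -⟩ := PP3.mem_facts S hp.s1 hm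
  have hB := hp.base
  have v0 := hB.v_pos
  have y0 : 0 < y := r0.trans_le ry
  have l0 : 0 ≤ τ * p.κ := by positivity
  have l1 : τ * p.κ ≤ p.κ := mul_le_of_le_one_left κ0.le t1
  have kd := S.κ
  have hL : 4 * p.κ ≤ 1 / 2 := by linarith only [kd, d0]
  have e0 := Pr.Sharp81.eta_nn hB
  have ηv : C0 / (p.n : ℝ) ^ p.A + p.v ≤ δ := S.ηv.trans (mul_le_of_le_one_right hδ.le S.μ1)
  have yJ : 2 * y ≤ p.J * p.v := by linarith only [yd, d2, hB.lo]
  have J0 : 0 < (p.J : ℝ) * p.v := hc0.trans_le hB.lo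
  have G : Mem37.Geo c0 C0 _ (2 * y) p P (p.om τ y) := ⟨hB, ⟨ho.zero, ho.nn, ho.supp, fun j =>
    (ho.lip j).trans (mul_le_mul_of_nonneg_right hL v0.le)⟩, yJ,
    Nat.pos_of_ne_zero (fun h => by simp [h] at J0), g0, x0, xm, x1⟩
  have ep : p.eps τ ≤ 1 := by
    have : p.r ^ 2 ≤ 1 := pow_le_one₀ r0.le (by linarith only [ry, yd, d0])
    unfold Pm.eps
    exact mul_le_one₀ (by linarith only [l1, hL]) (sq_nonneg _) this
  have b0 : 0 ≤ p.b τ y := div_nonneg (sub_nonneg.2 ep) (sq_nonneg _)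
  have b2 : p.b τ y ≤ 2 * p.β ^ 2 := by
    have a : 0 ≤ p.μ τ y / C1 := by unfold Pm.μ; positivity
    have : p.b τ y / p.β ^ 2 ≤ 1 := by linarith only [a, b1]
    rw [div_le_one (by positivity)] at this
    linarith only [this, hb]
  obtain ⟨-, a6, -⟩ := H _ _ _ _ hB (by linarith only [ηv, v0, d1])
    (by linarith only [ηv, e0, d1]) (p.om τ y) (2 * y) (4 * p.κ) (τ * p.κ) y (p.b τ y)
    (p.J + p.Nr) ho hL yJ l0 (by linarith only [l1, hL, κ0])
    (by linarith only [yJ, y0]) (yd.trans d1) (fun j hj => by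
      unfold Pm.om
      rw [PP3.sm_lo (by rw [sub_nonpos, div_le_one y0]; exact hj)]; ring) b0 b2
    (Nat.le_add_right _ _)
  have sp := G.spr (g1.trans (p.one_le_Nr v0 (by omega) (by omega)))
  have w0 := Real.sqrt_nonneg p.v
  have sv : √(C0 / (p.n : ℝ) ^ p.A) + p.v ≤ (C0 + 1) * √p.v := by
    have v1 : p.v ≤ √p.v := Real.le_sqrt_of_sq_le (by nlinarith only [v0, ηv, e0, d0])
    have s2 : √p.v ^ 2 = p.v := Real.sq_sqrt v0.le
    have n0 : 0 < (p.n : ℝ) ^ p.A := by have := S.n1; positivity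
    have u : C0 / (p.n : ℝ) ^ p.A ≤ (C0 * √p.v) ^ 2 := by
      rw [mul_pow, s2, Pm.v, ← mul_div_assoc]
      exact div_le_div_of_nonneg_right (by
        nlinarith only [hC0, hb, mul_nonneg (sub_nonneg.2 hC0) (sub_nonneg.2 hb),
          mul_nonneg (sq_nonneg C0) (sub_nonneg.2 hb)]) n0.le
    have := Real.sqrt_le_iff.2 ⟨by positivity, u⟩
    linarith only [this, v1]
  have K10 : 0 < K1 := by linarith only [k1]
  have α0 : 0 ≤ p.al τ := le_trans (by positivity) a1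
  have yT : y / 2 ≤ p.J * p.v + P.γ := by linarith only [yJ, y0, g0]
  have lv : ∀ r, 0 ≤ r → r < y / 2 → |lvr 1 (p.lP P τ y) r - p.al τ * r| ≤ K * (r ^ 2 + √p.v) :=
    fun r r0 r1 => by
      have e : lvr 1 (p.lP P τ y) r = _ := G.lv_lo r0 (by linarith only [r1, yJ, y0])
      rw [e]
      refine (a6 r r0 r1).trans (le_trans (mul_le_mul_of_nonneg_left (show _ ≤ (C0 + 1) *
        (r ^ 2 + √p.v) by linarith only [sv, mul_nonneg (zero_le_one.trans hC0) (sq_nonneg r)])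
        (zero_le_one.trans k0)) ?_)
      rw [← mul_assoc]
      exact mul_le_mul_of_nonneg_right j1 (by positivity)
  refine ⟨K, ⟨G.ok, yT.trans sp.tp2.mem.2, q0.trans j1, k2', w0, α0, lv, fun t u0 u1 x z0 hx => ?_⟩,
    ⟨b0, (b2.trans j3).trans k2'⟩, ⟨(one_div_le_one_div_of_le K10 j4).trans a1, a2.trans j4⟩,
    a3.trans (mul_le_mul_of_nonneg_right j4 g0),
    a4.trans (mul_le_mul_of_nonneg_right j4 (by positivity)), fun k hk => ?_⟩
  · have := H2 (p.lP P τ y) _ (p.b τ y) (p.al τ) (√p.v) 0 (y / 2) t x sp.tp2 (add_le_add hB.hi g1)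
      (by simpa only [add_zero] using lv) b0 (b2.trans j3) α0 (a2.trans j2) w0 le_rfl
      (Real.sqrt_le_iff.2 ⟨p2.le, by linarith only [ηv, e0, d4]⟩) p2.le yT
      (by linarith only [yd, d3, y0]) u0 u1 z0 (by simpa only [add_zero] using hx)
    rwa [add_zero] at this
  · obtain ⟨u1, u2, u3, u4, u5⟩ := a5 k hk
    have ds : p.v / 2 ≤ p.sP P τ y (k + 1) - p.sP P τ y k ∧
        p.sP P τ y (k + 1) - p.sP P τ y k ≤ 3 / 2 * p.v := G.ds_lo (by omega)
    exact ⟨u1, u2, u3, u4, by linarith only [ds.1, v0], by linarith only [ds.2, v0], fun x hx =>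
      (u5 x hx).xa.trans (mul_le_mul_of_nonneg_right j2 (by positivity))⟩

end Crest.Agent.T156.Alt

end
end

-- ▼ part T156/R2S_81
section

/-!
Row 156, R2 (helper81): location of the END datum (`Kt`), the leaf `TwS`.
-/

set_option autoImplicit false

noncomputable section

namespace Crest.Agent.T156.Alt.R2

open Real Set Filter Topology
open Crest.Agent.T156.Cas Crest.Agent.T156.Cas.C40 Crest.Agent.T156.Cas.C40.R81
open Pr.Ref81 Pr.Exp50 Pre29
open Crest.Agent.T157.Casc (ex)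

/-- the time of the first mark -/
def rf (p : Pm) : ℝ := p.s * (p.n : ℝ) ^ (p.c / 13 - 1 / 6)
/-- the clock defect -/
def dd (p : Pm) (m : ℕ) : ℝ := p.b 1 p.ye / (m + 1)

/-- **location of the END datum** -/
structure Kt (C K : ℝ) (p : Pm) (P : Pl) (m : ℕ) (a : ℝ) (E : CIn12.Ev) : Prop where
  cl : Cl (p.spS C p.ye P) (Me p P)
  leg : (Me p P).Leg a
  a0 : 0 < a
  m0 : 0 < m
  j1 : p.jf < jc p
  j2 : jc p + 1 < p.J
  f1 : p.jf * p.v ≤ 2 * rf p
  c1 : t1 p ≤ jc p * p.v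
  c2 : jc p * p.v ≤ 2 * t1 p
  c3 : 2 * t1 p ≤ p.ye / 2
  hd : ∀ k, (Me p P).d k = p.b 1 p.ye
  hG : ∀ k, p.jf < k → (Me p P).G k = 0
  b1 : 1 ≤ p.b 1 p.ye
  b2 : p.b 1 p.ye ≤ C
  τ1 : 1 / 2 ≤ τ p P m
  τ2 : p.b 1 p.ye - τ p P m = dd p m
  d0 : 0 ≤ dd p m
  d1 : dd p m ≤ C / p.n
  x1 : ex (D p P m a E).B (jc p) = p.z (jc p - 1)
  st : R85.St (D p P m a E) (τ p P m) (C + 2) (p.Jp P + 1)
  lk : LkD (D p P m a E) (Me p P).lr (CIn12.sh (Me p P).s) (p.Jp P + 1) (dd p m)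
  al : 1 / K ≤ p.al 1 ∧ p.al 1 ≤ K
  eps : |eps0 (p.b 1 p.ye) (Me p P).lr - p.κ * p.r ^ 2| ≤ K * P.γ
  k3 : |k3 (Me p P).lr (p.b 1 p.ye) (p.al 1)| ≤ K * (p.κ + P.γ)
  lo : ∀ k ≤ jc p, p.zP P k = p.z k ∧ k * p.v / 2 ≤ (Me p P).s k ∧ (Me p P).s k ≤ k * p.v ∧
    (Me p P).s k < (Me p P).s (k + 1) ∧ (Me p P).s (k + 1) - (Me p P).s k ≤ 2 * p.v
  lin : ∃ K₀, LinT (Me p P).lr (p.b 1 p.ye) (p.al 1) K₀ K (√p.v) (p.ye / 2) ∧ ∀ k ≤ jc p, ∀ x,
    x = p.z k ∨ x = p.z (k - 1) →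
      |x - p.al 1 * (Me p P).s k| ≤ K₀ * ((Me p P).s k ^ 2 + √p.v)

/-- length of the reveal -/
def SN (p : Pm) : Prop := ∀ P, p.r ≤ p.ye → p.SpOk (7 / 20) P →
  (Me p P).s (p.NP P) = (Me p P).s (p.Jp P) + p.Nr * p.v

variable {β c0 C0 c η K0 C K a : ℝ} {A m : ℕ} {p : Pm} {P : Pl} {E : CIn12.Ev}

theorem tc_pos (R : Reg β c0 C0 A c η K0 p) : 0 < t1 p := mul_pos R.r0 (rp_pos R.n1 _)
theorem rf_pos (R : Reg β c0 C0 A c η K0 p) : 0 < rf p := mul_pos R.s0 (rp_pos R.n1 _)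

theorem lg_tc (R : Reg β c0 C0 A c η K0 p) :
    logb p.n (t1 p) = logb p.n p.s + c / 7 - 3 / 20 := by
  rw [t1, logb_mul R.r0.ne' (rp_pos R.n1 _).ne', R.lg_rp, R.lg_r]; ring

theorem lg_rf (R : Reg β c0 C0 A c η K0 p) :
    logb p.n (rf p) = logb p.n p.s + c / 13 - 1 / 6 := by
  rw [rf, logb_mul R.s0.ne' (rp_pos R.n1 _).ne', R.lg_rp, R.hc]; ring

theorem kit (R : Reg β c0 C0 A c η K0 p) (hC : C ≤ (p.n : ℝ) ^ η) (g1 : ClSp C p) (g2 : LinQ K p)
    (g3 : SN p) (ad : Ad p P m a E) : Kt C K p P m a E := by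
  have v0 := R.v0
  have r0 := R.r0
  have t0 := tc_pos R
  have f0 := rf_pos R
  have N0 := R.N0
  have A2 : (2 : ℝ) ≤ A := by exact_mod_cast R.A2
  have cl := (g1 p.ye P R.r_le_ye le_rfl ad.sp).1
  have a0 : 0 < a := (half_pos (rp_pos R.n1 _)).trans_le ad.inn.a1
  have leg : (Me p P).Leg a :=
    Md67.Leg_mono cl.leg (show a ≤ 2 * p.am by linarith only [ad.inn.a2, a0])
  have m0 : 0 < m := R.n0.trans_le ad.inn.m1
  have nm : (p.n : ℝ) ≤ m := Nat.cast_le.2 ad.inn.m1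
  have rt : p.r * 1000 ≤ t1 p := mul_le_mul_of_nonneg_left
    (R.num_le.trans (rp_le R.n1 (by linarith only [R.η_le, R.c_le]))) r0.le
  have c1 : t1 p ≤ jc p * p.v := (div_le_iff₀ v0).1 (Nat.le_ceil _)
  have c2 : jc p * p.v ≤ t1 p + p.v := by
    have h2 := (Nat.ceil_lt_add_one (div_pos t0 v0).le).le
    rwa [div_add_one v0.ne', le_div_iff₀ v0] at h2
  have f1 : p.jf * p.v ≤ rf p + p.v := by
    have h2 := (Nat.ceil_lt_add_one (div_pos f0 v0).le).le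
    rwa [div_add_one v0.ne', le_div_iff₀ v0] at h2
  have f2 : p.v ≤ rf p := R.le_of_lg v0 f0 (by
    linarith only [lg_rf R, R.lg_v_le, R.lg_s.1, R.c_pos, R.η_le, R.c_le, A2])
  have f3 : rf p ≤ p.r := R.le_of_lg f0 r0 (by linarith only [lg_rf R, R.lg_r, R.c_pos])
  have j1 : p.jf < jc p := by
    have : (p.jf : ℝ) * p.v < jc p * p.v := by linarith only [f1, f2, f3, rt, c1, r0]
    exact_mod_cast lt_of_mul_lt_mul_right this v0.le
  have c3 : 4 * t1 p ≤ p.ye := R.le_of_lg (by positivity) R.ye0 (by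
    lg_norm
    linarith only [lg_tc R, R.lg_ye, R.lg_s.2, (R.lg_num (x := 4) (by norm_num) (by norm_num)).2,
      R.η_le, R.c_le])
  have c4 : jc p * p.v ≤ 2 * t1 p := by linarith only [c2, f2, f3, rt, r0]
  obtain ⟨K₀, lt, -, a1, a3, a4, a5⟩ := g2 1 p.ye (Or.inr ⟨rfl, R.r_le_ye, le_rfl⟩) P
    (ad.sp.γ0 R.n1).le (ad.sp.γ1 R.n1 (by norm_num)) ad.sp.x0
    (fun i _ => ad.sp.xm (Nat.lt_succ_self i)) (ad.sp.x_lt R.n1 le_rfl).le
  replace a5 := fun k (hk : k ≤ jc p) => a5 k (by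
    have := mul_le_mul_of_nonneg_right (Nat.cast_le (α := ℝ).2 hk) v0.le
    linarith only [this, c3, c4])
  have hd : ∀ k, (Me p P).d k = p.b 1 p.ye := fun k => by
    change (if _ then _ else _) = _
    split_ifs <;> simp
  have hb : (Me p P).b = p.b 1 p.ye := hd _
  have hG : ∀ k, p.jf < k → (Me p P).G k = 0 := fun k hk => by
    have e : (Me p P).H k = (Me p P).s k - p.b 1 p.ye * (Me p P).q k := by
      change (if _ then _ else _) + _ = _
      rw [if_neg (not_le.2 hk), ad.sp.hs]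
      simp only [add_zero, Pi.zero_apply]
      rfl
    rw [Md.G, hd, e]; ring
  have b1 : 1 ≤ p.b 1 p.ye := hd 0 ▸ cl.b0
  have b2 : p.b 1 p.ye ≤ C := hb ▸ cl.b1
  have te : τ p P m = p.b 1 p.ye * m / (m + 1) := by rw [τ, Md67.tp, hd]
  have m1 : (1 : ℝ) ≤ m := Nat.one_le_cast.2 m0
  have d1 : dd p m ≤ C / p.n :=
    div_le_div₀ (by linarith only [b1, b2]) b2 N0 (by linarith only [nm])
  have d2 : C / p.n ≤ 1 / 2 := by
    have := R.Λ0
    refine (div_le_div_of_nonneg_right hC N0.le).trans (R.le_of_lg (by positivity) (by norm_num) ?_)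
    lg_norm
    rw [R.lg_n]
    linarith only [(R.lg_num (x := 2) (by norm_num) (by norm_num)).2, R.η_le, R.c_le]
  have j2 := (a5 _ le_rfl).1
  have jJ : p.J ≤ p.Jp P := Nat.le_add_right _ _
  obtain ⟨i, hi⟩ : ∃ i, jc p = i + 1 := ⟨jc p - 1, by omega⟩
  have lk := lkD_cl (m := m) (i := i) (W := none) (E := E) cl leg (show p.jf ≤ i by omega)
    (show i + 1 ≤ p.Jp P by omega) (a5 i (by omega)).2.2.2.2.1 (fun k h _ => hG k (by omega))
    (fun k _ _ => (hd k).trans hb.symm) (by rw [hb]; exact d1.trans d2) (by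
      have := g3 P R.r_le_ye ad.sp
      have e := mul_le_mul A2 R.log1 zero_le_one (by linarith only [A2])
      change (Me p P).s (p.Jp P) + 1 / 2 ≤ (Me p P).s (p.NP P)
      linarith only [this, e, R.Nr_bds.1])
  rw [← hi, hb] at lk
  have st := st_cd (m := m) (J := jc p) (ρ := (Me p P).q) (W := none) (E := E) (T := C + 2) cl leg a0 m0
    (show jc p ≤ p.Jp P by omega) (fun k _ => (hd k).trans hb.symm) (by
      have e := hG (p.Jp P) (by omega)
      have f := mul_le_mul_of_nonneg_right (Md67.tp_mem (m := m) leg (p.Jp P)).2.1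
        (Md67.q_nonneg (M := Me p P) (p.Jp P))
      have g : (Me p P).s (p.Jp P) ≤ C := cl.sT
      rw [Md.G] at e
      change Md67.tp (Me p P) m (p.Jp P) * (Me p P).q (p.Jp P) + (Me p P).H (p.Jp P) + 1 ≤ _
      linarith only [e, f, g])
  rw [hb, ← te] at st
  refine ⟨cl, leg, a0, m0, j1, j2, by linarith only [f1, f2], c1, c4, by linarith only [c3], hd, hG,
    b1, b2, ?_, ?_, div_nonneg (by linarith only [b1]) (by positivity), d1, ?_, st, lk, a1,
    by rw [Pm.eps, one_mul] at a3; exact a3, a4, fun k hk => ?_,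
    K₀, lt, fun k hk => (a5 k hk).2.2.2.2.2.2⟩
  · rw [te, le_div_iff₀ (by positivity)]
    nlinarith only [b1, m1]
  · rw [te, dd]; field_simp; ring
  · rw [hi, cd_ex leg, Nat.add_sub_cancel, ← (a5 i (by omega)).2.1]
    exact congrArg (p.zP P) (max_eq_left (show p.jf ≤ i by omega))
  · obtain ⟨-, u1, u2, u3, u4, u5, -⟩ := a5 k hk
    exact ⟨u1, u2, u3, u4, u5⟩

theorem sn (hβ : 1 < β) : Sml β fun _ p => SN p := (memSp β hβ).sml.mono
  fun _ p ⟨_, _, _, h⟩ P r hP => by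
    obtain ⟨⟨_, _, _, a⟩, -⟩ := h p.ye P r le_rfl hP
    exact a.geo.sP_N

/-- **leaves may use the location `Kt`**; `C`, `K` are fixed before all thresholds -/
theorem EvA.of_kit (hβ : 1 < β) {Q : Pm → Pl → ℕ → ℝ → CIn12.Ev → Prop} (A0 : ℕ) {c1 : ℝ}
    (hc1 : 0 < c1) (j : ℕ) (h : ∀ C K : ℝ, 1 ≤ C → 1 ≤ K → ∃ K' : ℝ,
      ∀ (c0 C0 : ℝ) (A : ℕ) (c η : ℝ) (p : Pm) (P : Pl) (m : ℕ) (a : ℝ) (E : CIn12.Ev),
      Reg β c0 C0 A c η K' p → A0 ≤ A → c ≤ c1 → j * η ≤ c → C ≤ (p.n : ℝ) ^ η →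
      K ≤ (p.n : ℝ) ^ η → Ad p P m a E → Kt C K p P m a E → Q p P m a E) : EvA β Q := by
  intro c0 C0 h0 h1
  obtain ⟨C, hC, G1⟩ := clSp β hβ c0 C0 h0 h1
  obtain ⟨K, hK, G2⟩ := linQ β hβ c0 C0 h0 h1
  obtain ⟨K', h⟩ := h C K hC hK
  have T : Sml β fun _ p => ClSp C p → LinQ K p → ∀ P m a E, Ad p P m a E → Q p P m a E :=
    (sn hβ).glue' hβ A0 hc1 j fun c0 C0 A c η _ _ _ _ => ⟨max (max C K) K',
      fun p R a1 a2 a3 g3 g1 g2 P m a E ad => by
        have e := (le_max_left _ _).trans R.K_le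
        exact h c0 C0 A c η p P m a E (R.mono_K (le_max_right _ _)) a1 a2 a3
          ((le_max_left _ _).trans e) ((le_max_right _ _).trans e) ad
          (kit R ((le_max_left _ _).trans e) g1 g2 g3 ad)⟩
  filter_upwards [T c0 C0 h0 h1, eventually_ge_atTop 2] with A T hA
  filter_upwards [T, ev_pos, ev_le (by norm_num : (0 : ℝ) < 1 / 200)] with c T hc hc'
  filter_upwards [T] with η T
  filter_upwards [T, G1 A hA c hc hc', G2 A hA c hc hc'] with n T G1 G2 p b1 b2 b3 b4 b5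
  exact T p b1 b2 b3 b4 b5 (G1 p b1 b2 b3 b4 b5) (G2 p b1 b2 b3 b4 b5)

/-- the monomial inequalities; `u = L / n`, `g = n^{-1/10}` -/
structure Nm (p : Pm) (L X u g : ℝ) : Prop where
  κ : L ^ 2 * p.κ ^ 2 ≤ 1
  κ2 : 2 * p.κ ≤ 1
  uX : L ^ 2 * u ≤ X ^ 5
  Xr : L ^ 2 * X ^ 4 ≤ p.r ^ 3
  ur : L ^ 2 * u ≤ p.r ^ 3
  fr : L ^ 2 * rf p ^ 3 ≤ p.r ^ 3
  uf : u ≤ rf p
  f1 : 2 * rf p ≤ 1
  vu : √p.v ≤ u
  rg : p.r ^ 2 ≤ g
  γg : L * (p.n : ℝ) ^ (-(7 / 20 : ℝ)) ≤ g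
  tg : L * t1 p ^ 2 ≤ g
  ug : L * u ≤ t1 p * g
  g1 : g ≤ 1
  gr : L ^ 2 * (X * t1 p ^ 2 * g) ≤ p.r ^ 3

theorem nm (R : Reg β c0 C0 A c η K0 p) (hj : 100 * η ≤ c) : Nm p ((p.n : ℝ) ^ η) (t1 p / p.κ)
    ((p.n : ℝ) ^ η / p.n) ((p.n : ℝ) ^ (-(1 / 10 : ℝ))) := by
  have v0 := R.v0
  have r0 := R.r0
  have t0 := tc_pos R
  have f0 := rf_pos R
  have N0 := R.N0
  have k0 := R.κ0
  have A2 : (2 : ℝ) ≤ A := by exact_mod_cast R.A2
  have e1 := lg_tc R
  have e2 := lg_rf R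
  have e3 := R.lg_r
  have e4 := R.lg_κ
  have e5 := R.lg_v_le
  have e6 := R.lg_s.1
  have e7 := R.lg_s.2
  have e8 := R.c_le
  have e9 := R.η_pos
  have e0 := (R.lg_num (x := 2) (by norm_num) (by norm_num)).2
  constructor <;> refine R.le_of_lg (by positivity) (by positivity) ?_ <;> lg_norm <;>
    (try simp only [R.lg_n]) <;> linarith only [A2, e0, e1, e2, e3, e4, e5, e6, e7, e8, e9, hj]

theorem Kt.z (k : Kt C K p P m a E) {i : ℕ} (h1 : p.jf ≤ i) (h2 : i ≤ jc p) :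
    (Me p P).z i = p.z i := (congrArg (p.zP P) (max_eq_left h1)).trans (k.lo i h2).1

theorem Kt.s_le (k : Kt C K p P m a E) (v0 : 0 < p.v) {i : ℕ} (h2 : i ≤ jc p) :
    0 ≤ (Me p P).s i ∧ (Me p P).s i ≤ 2 * t1 p :=
  ⟨le_trans (by positivity) (k.lo i h2).2.1, (k.lo i h2).2.2.1.trans
    ((mul_le_mul_of_nonneg_right (Nat.cast_le.2 h2) v0.le).trans k.c2)⟩

theorem tw_num {C L X s κ d u : ℝ} (CL : C ≤ L) (L1 : 1000 ≤ L) (X0 : 0 ≤ X) (X1 : X ≤ 1)
    (s0 : 0 ≤ s) (k1 : κ ≤ 1) (hs : s ≤ 2 * (κ * X)) (d0 : 0 ≤ d) (du : d ≤ u)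
    (h1 : L ^ 2 * κ ^ 2 ≤ 1) (h2 : L ^ 2 * u ≤ X ^ 5) :
    C * (X * s ^ 2 * (s * (X + s) + X ^ 3) + d) ≤ X ^ 5 := by
  have L0 : 0 ≤ L := by linarith only [L1]
  have a1 : s ≤ 2 * X := by linarith only [hs, mul_le_of_le_one_left X0 k1]
  have a3 : s * (X + s) + X ^ 3 ≤ 7 * X ^ 2 := by
    have a := mul_le_mul a1 (show X + s ≤ 3 * X by linarith only [a1]) (by positivity) (by positivity)
    linarith only [a, pow_le_pow_of_le_one X0 X1 (show 2 ≤ 3 by norm_num)]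
  have a5 : C * (X * s ^ 2 * (s * (X + s) + X ^ 3) + d) ≤
      L * (X * (2 * (κ * X)) ^ 2 * (7 * X ^ 2) + u) := by gcongr
  have b1 := mul_le_mul_of_nonneg_right h1 (pow_nonneg X0 5)
  have b2 := mul_le_mul_of_nonneg_right L1 (show 0 ≤ L * (κ ^ 2 * X ^ 5) by positivity)
  have b3 := mul_le_mul_of_nonneg_right L1 (mul_nonneg L0 (d0.trans du))
  linarith only [a5, b1, b2, b3, h2, pow_nonneg X0 5]

theorem dq_num {e k3 K L t g r κ γ δ u : ℝ} (K0 : 0 ≤ K) (KL : K ≤ L) (t0 : 0 ≤ t) (t1 : t ≤ 1)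
    (k0 : 0 ≤ κ) (k1 : κ ≤ 1) (g0 : 0 ≤ γ) (g1 : γ ≤ 1) (d0 : 0 ≤ δ) (du : δ ≤ u)
    (he : |e - κ * r ^ 2| ≤ K * γ) (hk : |k3| ≤ K * (κ + γ)) (h1 : r ^ 2 ≤ g) (h2 : L * γ ≤ g)
    (h3 : L * t ^ 2 ≤ g) (h4 : L * u ≤ t * g) :
    |e| ≤ 2 * g ∧ |e| * (2 * t) + |k3| * (2 * t) ^ 3 + K * ((2 * t) ^ 4 + δ) ≤ 37 * (t * g) := by
  have L0 := K0.trans KL
  have a1 : |e| ≤ 2 * g := by
    have := abs_le.1 he
    have := mul_le_of_le_one_left (sq_nonneg r) k1
    have := mul_nonneg k0 (sq_nonneg r)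
    have := mul_le_mul_of_nonneg_right KL g0
    rw [abs_le]; constructor <;> linarith [sq_nonneg r]
  have a2 : |k3| ≤ L * (1 + 1) := hk.trans (by gcongr)
  have a3 := mul_le_mul_of_nonneg_right a1 t0
  have a4 := mul_le_mul_of_nonneg_right a2 (pow_nonneg t0 3)
  have a5 := mul_le_mul_of_nonneg_right h3 t0
  have a6 : K * t ^ 4 ≤ L * t ^ 3 :=
    mul_le_mul KL (pow_le_pow_of_le_one t0 t1 (by norm_num)) (by positivity) L0
  have a7 := mul_le_mul KL du d0 L0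
  exact ⟨a1, by linarith only [a3, a4, a5, a6, a7, h4]⟩

/-- **(TWIN), (B)** -/
theorem twS (hβ : 1 < β) : TwS β := EvA.of_kit hβ 2 one_pos 100 fun C K hC hK => by
  obtain ⟨C1, c1, H1⟩ := link (C + 2)
  obtain ⟨C2, c2, H2⟩ := AB (C + 2) K C (zero_le_one.trans hK) hC
  refine ⟨max C1 C2, fun c0 C0 A c η p P m a E R _ _ hj CL KL ad k => ?_⟩
  have N := nm R hj
  have L1 := R.num_le
  have l1 := (le_max_left _ _).trans R.K_le
  have l2 := (le_max_right _ _).trans R.K_le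
  have du : dd p m ≤ (p.n : ℝ) ^ η / p.n := k.d1.trans (div_le_div_of_nonneg_right CL R.N0.le)
  have v0 := R.v0
  have t0 := tc_pos R
  have f0 := rf_pos R
  have k0 := R.κ0
  have hX : t1 p = p.κ * E.X := by rw [ad.env.X]; field_simp
  have γg := N.γg
  rw [← ad.env.X] at N
  rw [← ad.sp.g'] at γg
  generalize (p.n : ℝ) ^ η / p.n = u at N du
  generalize (p.n : ℝ) ^ (-(1 / 10 : ℝ)) = g at N γg
  generalize (p.n : ℝ) ^ η = L at N L1 l1 l2 CL KL γg
  have L0 : 0 ≤ L := by linarith only [L1]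
  have d0 := k.d0
  have u0 := d0.trans du
  have w0 := sqrt_nonneg p.v
  have X0 : 0 < E.X := by rw [ad.env.X]; positivity
  have X1 : E.X ≤ 1 := ad.ok.X1
  have tX : 2 * t1 p ≤ E.X := by
    linarith only [hX, mul_le_mul_of_nonneg_right N.κ2 X0.le]
  obtain ⟨K₀, lt, hx⟩ := k.lin
  have sj := k.s_le v0 le_rfl
  have x1 : ex (D p P m a E).B (D p P m a E).J = p.z (jc p - 1) := k.x1
  have s1 : (D p P m a E).sig ((D p P m a E).J + 1) ≤ (Me p P).s (jc p) :=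
    (k.lk.mem ad.ok (Nat.lt_succ_self _) (lt_of_le_of_lt k.st.JP k.lk.PK)).2.1
  obtain ⟨tw, -, sq, -⟩ := H1 _ _ _ _ _ _ _ _ ad.ok k.st k.lk le_rfl
  obtain ⟨-, bq, -⟩ := H2 _ _ _ _ _ _ _ _ _ _ _ ad.ok k.st k.lk (lt.mono (sj.2.trans k.c3))
    (zero_le_one.trans k.b1) k.b2 (by rw [k.τ2, abs_of_nonneg d0]) (sj.2.trans tX)
    (by rw [x1]; exact hx _ le_rfl _ (Or.inr rfl))
  have τ4 : ∀ x : ℝ, 4 * |τ p P m ^ 2 * x| ≤ p.r ^ 3 → |x| ≤ p.r ^ 3 := fun x h => by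
    rw [abs_mul, abs_of_nonneg (sq_nonneg _)] at h
    have := mul_le_mul_of_nonneg_right (pow_le_pow_left₀ (by norm_num) k.τ1 2) (abs_nonneg x)
    linarith only [h, this]
  have L2 : ∀ x, 0 ≤ x → 1000 * (L * x) ≤ L ^ 2 * x ∧ 1000 * x ≤ L * x := fun x hx =>
    ⟨by linarith only [mul_le_mul_of_nonneg_right L1 (mul_nonneg L0 hx)],
      mul_le_mul_of_nonneg_right L1 hx⟩
  have r3 := pow_pos R.r0 3
  have X4 := L2 _ (pow_nonneg X0.le 4)
  have U := L2 _ u0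
  refine ⟨_, fun j hj => (tw j hj).trans (tw_num l1 L1 X0.le X1 k.lk.s0.le R.κ1
    (hX ▸ s1.trans sj.2) d0 du N.κ N.uX), τ4 _ ?_, τ4 _ ?_⟩
  · have : C2 * (E.X ^ 4 + √p.v + dd p m) ≤ L * (E.X ^ 4 + u + u) := by
      have := N.vu
      gcongr
    have e : |τ p P m ^ 2 * E42.Bq (D p P m a E) (τ p P m) _| ≤ _ := bq.trans this
    linarith only [e, X4.1, U.1, N.Xr, N.ur, r3]
  · obtain ⟨i, hi⟩ : ∃ i, jc p = i + 1 := ⟨jc p - 1, by have := k.j1; omega⟩
    have ji : p.jf ≤ i := by have := k.j1; omega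
    have t1' : t1 p ≤ 1 := by linarith only [tX, X1, t0]
    have dq := (dq_num (zero_le_one.trans hK) KL t0.le t1' k0.le R.κ1 (ad.sp.γ0 R.n1).le
      (ad.sp.γ1 R.n1 (by norm_num)) w0 N.vu k.eps k.k3 N.rg γg N.tg N.ug).2
    have g0 := (sq_nonneg _).trans N.rg
    have hq := S0_Sq (m := m) (τ := τ p P m) (dq := 38 * (t1 p * g)) k.cl k.leg ji
      (by have := k.j2; have := k.cl.i4; have : p.J ≤ (p.spS C p.ye P).Jp := k.cl.i3; omega)
      (k.lo p.jf k.j1.le).2.2.2.1 fun j _ h2 => by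
        have sj := k.s_le v0 (show j ≤ jc p by omega)
        have a := abs_le.1 (((lt.mono k.c3).hv_le sj.1 sj.2).trans dq)
        have b := mul_le_of_le_one_right d0 (Md67.q_le_one (M := Me p P) j)
        have c := mul_nonneg d0 (Md67.q_nonneg (M := Me p P) j)
        have e : τ p P m * (Me p P).q j - (Me p P).s j =
            -hv (p.b 1 p.ye) (Me p P).lr ((Me p P).s j) - dd p m * (Me p P).q j := by
          rw [← k.τ2, hv, Md.q]; ring
        rw [e, abs_le]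
        constructor <;> linarith only [a.1, a.2, b, c, du, U.2, N.ug, u0]
    have zi : (Me p P).z i = p.z (jc p - 1) := by
      rw [k.z ji (by omega), hi, Nat.add_sub_cancel]
    have zX : p.z (jc p - 1) ≤ E.X := x1 ▸ ad.ok.x1
    rw [← hi, zi] at hq
    rw [x1] at sq
    change |_ - (_ * (Me p P).s (jc p) ^ 2 - 2 * M1 _ ((Me p P).s (jc p)))| ≤
      2 * E.X * (E.X ^ 6 + (Me p P).s (jc p) * _) at sq
    change |_ - _ * Sq p P m a| ≤ 2 * ((Me p P).z p.jf * (Me p P).s p.jf ^ 2) +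
      (_ - (Me p P).z p.jf) * _ at hq
    have z0 : 0 ≤ (Me p P).z p.jf := (k.a0.le.trans k.leg.z0).trans (k.leg.zm (Nat.zero_le _))
    have sf0 := (k.s_le v0 k.j1.le).1
    have sf : (Me p P).s p.jf ≤ 2 * rf p := (k.lo _ k.j1.le).2.2.1.trans k.f1
    have zf : (Me p P).z p.jf ≤ L * (2 * rf p) + L * (2 * rf p + rf p) := by
      have a := (abs_le.1 (hx _ k.j1.le _ (Or.inl rfl))).2
      have b := mul_le_mul (k.al.2.trans KL) sf sf0 L0
      have c := mul_le_mul (lt.K1.trans KL) (add_le_add ((pow_le_of_le_one sf0 (sf.trans N.f1)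
        two_ne_zero).trans sf) (N.vu.trans N.uf)) (by positivity) L0
      rw [k.z le_rfl k.j1.le]
      linarith only [a, b, c]
    have a1 := mul_le_mul zf (pow_le_pow_left₀ sf0 sf 2) (sq_nonneg _) (by positivity)
    have si := k.s_le v0 (show i ≤ jc p by omega)
    have a2 : (p.z (jc p - 1) - (Me p P).z p.jf) * (38 * (t1 p * g) * (2 * (Me p P).s i +
        38 * (t1 p * g))) ≤ E.X * (38 * (t1 p * g) * (2 * (2 * t1 p) + 38 * (t1 p * 1))) := by
      have := si.1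
      have := si.2
      have := N.g1
      gcongr
      linarith only [zX, z0]
    have a3 : 2 * E.X * (E.X ^ 6 + (Me p P).s (jc p) * dd p m) ≤ 2 * 1 * (E.X ^ 4 + 1 * u) := by
      have := sj.1
      have := (sj.2.trans tX).trans X1
      have := pow_le_pow_of_le_one X0.le X1 (show 4 ≤ 6 by norm_num)
      gcongr
    have F := L2 _ (pow_nonneg f0.le 3)
    have G := L2 (E.X * t1 p ^ 2 * g) (by positivity)
    have b1 := abs_le.1 (sq.trans a3)
    have b2 := abs_le.1 hq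
    have : |τ p P m ^ 2 * (S0l (D p P m a E) (Me p P).lr (τ p P m) - Sq p P m a)| ≤ p.r ^ 3 / 4 := by
      rw [abs_le]
      constructor <;> linarith only [b1.1, b1.2, b2.1, b2.2, a1, a2, F.1, G.1, G.2, X4.1, X4.2, U.1,
        U.2, N.Xr, N.ur, N.fr, N.gr, r3]
    linarith only [this]

end Crest.Agent.T156.Alt.R2

end
end

-- ▼ part T156/R2Lw_30

/-!
# Row 156, R2 (helper30): the low zone `LwS`
-/

set_option autoImplicit false
set_option linter.unusedSectionVars false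

noncomputable section

namespace Crest.Agent.T156.Alt.R2

open Real Finset Filter
open Crest.Agent.T157.E Crest.Agent.T157.Casc Crest.Agent.T157.SL
open Crest.Agent.T156.Cas Crest.Agent.T156.Cas.C40 Md67 CIn12 R2a58 Pr.Ref81 Pr.Exp50

/-- the second moments on the low zone -/
def LwIn (β : ℝ) : Prop := EvA β fun p P m a _ =>
  ∑ k ∈ range (jc p), (Me p P).dz m a k * (Me p P).E2 m a (fun R => (R - (Me p P).q k) ^ 2) k ≤
    p.κ ^ (-(7 : ℝ) / 10) * (p.s ^ 3 * (p.n : ℝ) ^ (-(1 : ℝ) / 2))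

namespace Lw30

variable {M : Md} {m k N : ℕ} {a : ℝ} {E : CIn12.Ev}

theorem dz_nn (G : Lg M m a) (k : ℕ) : 0 ≤ M.dz m a k := by
  rcases k with _ | k
  · rw [dz_zero G.toLeg]; exact sub_nonneg.2 G.z0
  · rw [dz_succ G.toLeg]; exact sub_nonneg.2 (G.zm (Nat.le_succ k))

theorem s2_eq (J : ℕ) : R85.s2 (cd M m a M.q J none E) =
    ∑ i ∈ range J, M.dz m a i * M.E2 m a (fun R => R ^ 2) i := by
  rw [R85.s2, CIn12.sum_lo]; rfl

theorem sh_eq (G : Lg M m a) {J : ℕ} (hJ : J ≤ M.N) : R85.sh (cd M m a M.q (J + 1) none E) =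
    ∑ i ∈ range J, (M.z (i + 1) - M.z i) * (M.H (i + 1) * M.rb m a (i + 1)) := by
  have e : ∀ i ≤ M.N, fAcc (cd M m a M.q (J + 1) none E).M (i + 1) = M.H i := fun i hi =>
    fAcc_Mx G.toLeg hi
  rw [R85.sh, CIn12.sum_lo, sum_range_succ', e 0 (Nat.zero_le _), G.H0, zero_mul, mul_zero,
    add_zero]
  exact sum_congr rfl fun i hi => by
    rw [e _ (by have := mem_range.1 hi; omega), cd_dx, cd_rb, dz_succ G.toLeg]

theorem Jh_eq (G : Lg M m a) {J : ℕ} (hJ : J ≤ M.N) : E42.Jh (cd M m a M.q (J + 1) none E) =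
    ∑ i ∈ range J, M.z i * (M.H (i + 1) - M.H i) * M.rb m a (i + 1) := by
  have e : ∀ i ≤ M.N, fAcc (cd M m a M.q (J + 1) none E).M (i + 1) = M.H i := fun i hi =>
    fAcc_Mx G.toLeg hi
  rw [E42.Jh, cd_J, sum_range_succ', e 0 (Nat.zero_le _), G.H0,
    show fAcc (cd M m a M.q (J + 1) none E).M 0 = 0 from rfl, sub_zero, mul_zero, zero_mul, add_zero]
  exact sum_congr rfl fun i hi => by
    have := mem_range.1 hi
    rw [e _ (by omega), e _ (by omega), R81.cd_ex G.toLeg, cd_rb]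

/-- **the low zone of a model** -/
theorem low_md (G : Lg M m a) (hJ : k + N ≤ M.N) {τ ct K A X v dx de dq θ μ Hm ρ V X0 H0 ρ0 q0 : ℝ}
    (h : Lin (fun i => M.z (k + i)) (fun i => M.s (k + i)) (fun i => M.H (k + i))
      (fun i => M.q (k + i)) N τ ct K A X X v dx de dq) (hde : 0 ≤ de) (hv : 0 ≤ v) (hτ : 0 ≤ τ)
    (hr : M.rb m a (k + N) ≤ ρ) (hθ : |1 - θ| ≤ μ) (hμ : μ ≤ 1) (hH : ∀ i ≤ N, |M.H (k + i)| ≤ Hm)
    (hq : ∀ i ≤ k + N, M.q i ≤ X) (hV : ∑ i ∈ range (k + N + 1), M.dz m a i *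
      M.E2 m a (fun R => (R - M.q i) ^ 2) i ≤ V) (z1 : M.z k ≤ X0) (H1 : M.H k ≤ H0)
    (r1 : M.rb m a k ≤ ρ0) (q1 : ∀ i ≤ k, M.q i ≤ q0) :
    |τ / 2 * A * R85.s2 (cd M m a M.q (k + N + 1) none E) +
      (E42.Jh (cd M m a M.q (k + N + 1) none E) -
        3 * θ * R85.sh (cd M m a M.q (k + N + 1) none E)) / 2 - Clow M.z M.s M.H M.q k N τ K A| ≤
      τ / 2 * |A| * (3 * V + 2 * (X0 * q0 ^ 2)) + 4 * X0 * H0 * ρ0 +
        3 / 2 * |Hs (fun i => M.s (k + i)) (fun i => M.H (k + i)) K A| * (X * (ρ + X)) +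
        dl ct K A X X v dx de dq * ρ + 3 / 2 * μ * Hm * X * ρ := by
  have rm := rb_mono (M := M) (a := a) G.m0
  have r0 := rb_nonneg (M := M) (a := a) G.m0
  have d0 := dz_nn G
  have z0 : 0 ≤ M.z 0 := G.a0.trans G.z0
  have U0 : ∀ i, 0 ≤ M.dz m a i * M.E2 m a (fun R => (R - M.q i) ^ 2) i := fun i =>
    mul_nonneg (d0 i) (E2_nonneg (fun _ _ => sq_nonneg _) i)
  rw [show k + N + 1 = (k + 1) + N by ring, sum_range_add] at hV
  have V1 := sum_nonneg (s := range (k + 1)) fun i _ => U0 i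
  have V2 := sum_nonneg (s := range N) fun i _ => U0 (k + 1 + i)
  have e1 : ∀ i, k + (i + 1) = k + i + 1 := fun _ => rfl
  have e2 : ∀ i, k + 1 + i = k + i + 1 := fun _ => by ring
  have L := low M.z M.s M.H M.q (M.rb m a)
    (fun i => if i ≤ k then 0 else M.E2 m a (fun R => R ^ 2) i) k N (V1 := X * (ρ + X)) (V2 := V)
    (ρ2 := 0) h hde hv hτ (fun i _ => rm (by omega)) (r0 k) hr hθ hμ hH ?_ ?_
    (fun i _ => G.zm (Nat.le_succ i)) z0 z1 (fun i _ => G.Hm (Nat.le_succ i)) G.H0.ge H1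
    (fun i hi => (abs_of_nonneg (r0 i)).trans_le ((rm hi).trans r1))
    fun i hi => by rw [if_pos hi, abs_zero]
  · have b1 : ∑ i ∈ range (k + 1), M.dz m a i * M.E2 m a (fun R => R ^ 2) i ≤
        2 * V + 2 * (X0 * q0 ^ 2) := by
      have s1 : ∑ i ∈ range (k + 1), M.dz m a i ≤ X0 := by
        rw [sum_range_succ', dz_zero G.toLeg, sum_congr rfl fun i _ => dz_succ G.toLeg i,
          sum_range_sub]
        linarith [G.a0]
      have s2 : ∑ i ∈ range (k + 1), M.dz m a i * M.E2 m a (fun R => R ^ 2) i ≤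
          ∑ i ∈ range (k + 1), (2 * (M.dz m a i * M.E2 m a (fun R => (R - M.q i) ^ 2) i) +
            2 * (M.dz m a i * q0 ^ 2)) := sum_le_sum fun i hi => by
        have c1 := E2_mono (M := M) (m := m) (a := a) (f := fun R => R ^ 2)
          (g := fun R => 2 * (R - M.q i) ^ 2 + 2 * q0 ^ 2) (fun r _ => by
            linarith [sq_nonneg (r - 2 * M.q i), pow_le_pow_left₀ (q_nonneg i)
              (q1 i (Nat.lt_succ_iff.1 (mem_range.1 hi))) 2]) i
        rw [E2_add, E2_mul, E2_const] at c1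
        linarith [mul_le_mul_of_nonneg_left c1 (d0 i)]
      rw [sum_add_distrib, ← mul_sum, ← mul_sum, ← sum_mul] at s2
      linarith [mul_le_mul_of_nonneg_right s1 (sq_nonneg q0)]
    have b0 : 0 ≤ ∑ i ∈ range (k + 1), M.dz m a i * M.E2 m a (fun R => R ^ 2) i :=
      sum_nonneg fun i _ => mul_nonneg (d0 i) (E2_nonneg (fun _ _ => sq_nonneg _) i)
    have e3 : ∑ i ∈ range (k + N + 1), M.dz m a i * M.E2 m a (fun R => R ^ 2) i =
        ∑ i ∈ range (k + 1), M.dz m a i * M.E2 m a (fun R => R ^ 2) i +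
        ∑ i ∈ range (k + N), (M.z (i + 1) - M.z i) *
          if i + 1 ≤ k then 0 else M.E2 m a (fun R => R ^ 2) (i + 1) := by
      rw [show k + N + 1 = (k + 1) + N by ring, sum_range_add, sum_range_add _ k N,
        sum_eq_zero (s := range k) fun i hi => by rw [if_pos (Nat.succ_le_of_lt (mem_range.1 hi)), mul_zero], zero_add]
      exact congrArg _ (sum_congr rfl fun i _ => by
        rw [if_neg (by omega), e2, dz_succ G.toLeg])
    have b2 := mul_le_mul_of_nonneg_left ((abs_of_nonneg b0).trans_le b1)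
      (show 0 ≤ τ / 2 * |A| by positivity)
    rw [← abs_of_nonneg (show 0 ≤ τ / 2 by positivity), ← abs_mul, ← abs_mul, abs_mul (τ / 2),
      abs_of_nonneg (show 0 ≤ τ / 2 by positivity)] at b2
    rw [s2_eq, sh_eq G hJ, Jh_eq G hJ, e3]
    have b3 := abs_le.1 b2
    have L' := abs_le.1 L
    exact abs_le.2 ⟨by linarith [b3.1, L'.1], by linarith [b3.2, L'.2]⟩
  · have X0 := (q_nonneg 0).trans (hq 0 (Nat.zero_le _))
    have ρ0 := (r0 _).trans hr
    refine (abs_sum_le_sum_abs _ _).trans ((sum_le_sum (g := fun i =>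
      (M.z (k + (i + 1)) - M.z (k + i)) * (ρ + X)) fun i hi => ?_).trans ?_)
    · have i1 := mem_range.1 hi
      have z2 : 0 ≤ M.z (k + (i + 1)) - M.z (k + i) := sub_nonneg.2 (G.zm (by omega))
      rw [abs_mul, abs_of_nonneg z2]
      refine mul_le_mul_of_nonneg_left (abs_le.2 ⟨?_, ?_⟩) z2
      · linarith [r0 (k + (i + 1)), hq (k + (i + 1)) (by omega)]
      · linarith [rm (show k + (i + 1) ≤ k + N by omega), q_nonneg (M := M) (k + (i + 1))]
    · rw [← sum_mul, sum_range_sub fun i => M.z (k + i)]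
      exact mul_le_mul_of_nonneg_right (by linarith [h.z1, h.z0]) (by linarith)
  · rw [sum_congr rfl (g := fun i => M.dz m a (k + 1 + i) *
      M.E2 m a (fun R => (R - M.q (k + 1 + i)) ^ 2) (k + 1 + i)) fun i _ => by
      rw [if_neg (by omega), e1, e2, dz_succ G.toLeg, E2_sq_expand], abs_of_nonneg V2]
    linarith

theorem dl_num {ct K A X v dx de dq L : ℝ} (X0 : 0 ≤ X) (X1 : X ≤ 1) (L1 : 1 ≤ L)
    (h1 : de ≤ 2 * L * X ^ 3) (h2 : |A| ≤ X ^ 2) (q0 : 0 ≤ dq) (h3 : dq ≤ 6 * L * X ^ 3)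
    (h4 : dx ≤ 2 * L * X ^ 2) (h5 : ct ≤ L) (v0 : 0 ≤ v) (h6 : v ≤ X ^ 2) (h7 : |K| ≤ 2 * L) :
    dl ct K A X X v dx de dq ≤ 74 * (L ^ 2 * X ^ 5) := by
  have L0 : 0 ≤ L := by linarith
  have a1 : dl ct K A X X v dx de dq ≤ 4 * (2 * L * X ^ 3) * X * X + 2 * X ^ 2 * (6 * L * X ^ 3) * X +
      (6 * (2 * L * X ^ 2) + 6 * L * X ^ 2) * (2 * L * X ^ 2 + X ^ 2) * X := by
    unfold dl; gcongr
  have a2 := mul_le_mul_of_nonneg_left (pow_le_pow_of_le_one X0 X1 (show 5 ≤ 6 by norm_num)) L0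
  have a3 := mul_le_mul_of_nonneg_right L1 (show 0 ≤ L * X ^ 5 by positivity)
  linarith

variable {β c0 C0 c η K' C K : ℝ} {A : ℕ} {p : Pm} {P : Pl}

/-- the monomials; `e = κ r²`, `f = rf`, `w = κ^{1/100} un` -/
structure Nw (p : Pm) (L X e f w : ℝ) : Prop where
  κ2 : 2 * p.κ ≤ 1
  Xy : 2 * X ≤ p.ye
  v1 : √p.v ≤ X ^ 6
  v2 : 2 * p.v ≤ X ^ 2
  v3 : √p.v ≤ e * f
  nX : L / p.n ≤ X ^ 6
  γe : L * (p.n : ℝ) ^ (-(7 / 20 : ℝ)) ≤ e
  γκ : (p.n : ℝ) ^ (-(7 / 20 : ℝ)) ≤ p.κ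
  eX : 2 * e ≤ X ^ 2
  e1 : e ≤ 1
  tl : (p.n : ℝ) ^ (-(2 * (p.A : ℝ) + 5)) ≤ X ^ 3
  LX : L ^ 2 * X ^ 2 ≤ 1
  f1 : f ≤ 1
  fe : f ^ 3 ≤ e
  κf : p.κ * f ^ 2 ≤ e
  y1 : L * (L ^ 2 * X ^ 6) ≤ w
  y2 : L * (L * (e * (p.κ ^ (-(7 : ℝ) / 10) * (p.s ^ 3 * (p.n : ℝ) ^ (-(1 : ℝ) / 2))))) ≤ w
  y3 : L * (L ^ 3 * (e * f ^ 3)) ≤ w
  y4 : L * (L ^ 4 * (e * f ^ 2 * (p.s * (p.n : ℝ) ^ (p.c / 2 - 1 / 6)))) ≤ w

theorem nw (R : Reg β c0 C0 A c η K' p) (hc : c ≤ 1 / 10 ^ 4) (hj : 10000 * η ≤ c) :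
    Nw p ((p.n : ℝ) ^ η) (t1 p / p.κ) (p.κ * p.r ^ 2) (rf p) (p.κ ^ ((1 : ℝ) / 100) * un p) := by
  have v0 := R.v0
  have r0 := R.r0
  have t0 := t10 R
  have f0 := rf_pos R
  have N0 := R.N0
  have k0 := R.κ0
  have s0 := R.s0
  have u0 := un0 R
  have y0 := R.ye0
  have A2 : (2 : ℝ) ≤ A := by exact_mod_cast R.A2
  have e0 := (R.lg_num (x := 2) (by norm_num) (by norm_num)).2
  constructor <;> refine R.le_of_lg (by positivity) (by positivity) ?_ <;> lg_norm <;>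
    (try simp only [R.lg_n, lg_t1 R, lg_rf R, R.lg_r, R.lg_κ, lg_un R, R.lg_ye, R.hc, R.hA]) <;>
    linarith only [A2, e0, R.lg_v_le, R.lg_s.1, R.lg_s.2, hc, R.η_pos, hj]

/-- the constant of the low zone -/
def cL (p : Pm) (P : Pl) (m : ℕ) : ℝ := Clow (Me p P).z (Me p P).s (Me p P).H (Me p P).q (p.jf + 1)
  (jc p - (p.jf + 2)) (τ p P m) (k3 (Me p P).lr (p.b 1 p.ye) (p.al 1)) (eps0 (p.b 1 p.ye) (Me p P).lr)

set_option maxHeartbeats 800000 in
theorem lw_kit (hβ : 1 < β) : EvA β fun p P m a E =>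
    (Me p P).rb m a (p.jf + 1) ≤ p.s * (p.n : ℝ) ^ (p.c / 2 - 1 / 6) →
    ∑ k ∈ range (jc p), (Me p P).dz m a k * (Me p P).E2 m a (fun R => (R - (Me p P).q k) ^ 2) k ≤
      p.κ ^ (-(7 : ℝ) / 10) * (p.s ^ 3 * (p.n : ℝ) ^ (-(1 : ℝ) / 2)) →
    |LowT (D p P m a E) (τ p P m) - cL p P m| ≤ p.κ ^ ((1 : ℝ) / 100) * un p := by
  refine EvA.of_kit hβ 0 (c1 := 1 / 10 ^ 4) (by positivity) 10000 fun C K hC hK => ?_
  obtain ⟨CA, a1, hA⟩ := R81.AB (C + 2) K C (by linarith) hC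
  refine ⟨CA, fun c0 C0 A c η p P m a E R _ hc hj CL KL ad k hr hV => ?_⟩
  have n := nw R hc (by exact_mod_cast hj)
  have AL := R.K_le
  have L3 := R.num_le
  have ok := ad.ok
  have G : Lg (Me p P) m a := ⟨k.leg, k.m0, k.a0.le⟩
  obtain ⟨K₀, lt, hx⟩ := k.lin
  have eX := ad.env.X
  have t0 := t10 R
  have k0 := R.κ0
  have v0 := R.v0
  have f0 := rf_pos R
  have r0 := R.r0
  have tX : 2 * t1 p ≤ E.X := by
    rw [eX, le_div_iff₀ k0]
    linarith [mul_le_mul_of_nonneg_left n.κ2 t0.le]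
  have e1 := k.eps
  have e2 := k.k3
  have tl : E.tl ≤ E.X ^ 3 := by rw [ad.env.tl, eX]; exact n.tl
  rw [ad.sp.g'] at e1 e2
  rw [← eX] at n
  have X1 : E.X ≤ 1 := ok.X1
  have X0 : 0 ≤ E.X := ok.X0
  have i3 : p.J ≤ p.Jp P := k.cl.i3
  have i4 : p.Jp P < (Me p P).N := k.cl.i4
  have j2 := k.j2
  obtain ⟨N, hN⟩ : ∃ N, jc p = p.jf + 1 + N + 1 := ⟨jc p - (p.jf + 2), by have := jf_lt R; omega⟩
  have sX : ∀ i ≤ jc p, 0 ≤ (Me p P).s i ∧ (Me p P).s i ≤ E.X := fun i hi =>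
    ⟨(k.s_le v0 hi).1, (k.s_le v0 hi).2.trans tX⟩
  have qs : ∀ i ≤ jc p, (Me p P).q i ≤ (Me p P).s i := fun i hi =>
    Pp.Ode3.Gam_le (lr_ap k.cl) (s_mem k.cl (by omega))
  have hd : |p.b 1 p.ye - τ p P m| ≤ dd p m := (congrArg _ k.τ2).trans_le (abs_of_nonneg k.d0).le
  have τL : τ p P m ≤ C := by linarith [k.τ2, k.d0, k.b2]
  have τ0 : 0 ≤ τ p P m := by linarith [k.τ1]
  have dX : dd p m ≤ E.X ^ 6 :=
    (k.d1.trans (div_le_div_of_nonneg_right CL R.N0.le)).trans n.nX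
  have ltX := lt.mono (show E.X ≤ p.ye / 2 by linarith [n.Xy])
  obtain ⟨b1, -, l0, l1⟩ := hA _ _ _ _ _ _ _ K₀ _ _ _ ok k.st k.lk (ltX.mono (sX _ le_rfl).2)
    (by linarith [k.b1]) k.b2 hd (sX _ le_rfl).2 (k.x1 ▸ hx _ le_rfl _ (.inr rfl))
  have g1 : (D p P m a E).sig (jc p + 1) ≤ E.X :=
    (k.lk.mem ok (Nat.lt_succ_self _) (lt_of_le_of_lt k.st.JP k.lk.PK)).2.1.trans (sX _ le_rfl).2
  have g0 : 0 ≤ (D p P m a E).sig (jc p + 1) := k.lk.s0.le
  have x1 : ex (D p P m a E).B (jc p) ≤ E.X := ok.x1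
  have x0 : 0 ≤ ex (D p P m a E).B (jc p) := ok.ex0 _
  have zX : (Me p P).z (p.jf + 1 + N) ≤ E.X := by
    rw [k.x1, ← k.z (by omega) (by omega), hN, Nat.add_sub_cancel] at x1; exact x1
  have hH : ∀ i, p.jf < i → (Me p P).H i = (Me p P).s i - p.b 1 p.ye * (Me p P).q i := fun i hi => by
    have := k.hG i hi
    rw [Md.G, k.hd] at this
    linarith
  obtain ⟨c1, c2, c3⟩ := ltX.lin (z := fun i => (Me p P).z (p.jf + 1 + i))
    (s := fun i => (Me p P).s (p.jf + 1 + i)) (H := fun i => (Me p P).H (p.jf + 1 + i))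
    (q := fun i => (Me p P).q (p.jf + 1 + i)) (N := N) (A := eps0 (p.b 1 p.ye) (Me p P).lr) (a := 0)
    (v := 2 * p.v) (fun i _ => k.leg.zm (by omega))
    (k.a0.le.trans (k.leg.z0.trans (k.leg.zm (Nat.zero_le _)))) zX
    (fun i _ => k.cl.sm (by omega)) (sX _ (by omega)).1 (sX _ (by omega)).2
    (fun i hi => (k.lo (p.jf + 1 + i) (by omega)).2.2.2.2)
    (fun i hi => hx _ (by omega) _ (.inl (k.z (by omega) (by omega)))) (fun _ _ => rfl)
    (fun i _ => hH _ (by omega)) (by simp) hd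
  have sf : ∀ i ≤ p.jf + 1, (Me p P).s i ≤ 4 * rf p := fun i hi => by
    have u1 : (i : ℝ) ≤ 2 * p.jf := by have := R.jf_pos; exact_mod_cast (by omega)
    linarith [(k.lo i (by omega)).2.2.1, mul_le_mul_of_nonneg_right u1 v0.le, k.f1]
  have s0 := (sX (p.jf + 1) (by omega)).1
  have s1 := sf _ le_rfl
  have s3 := (sX (p.jf + 1) (by omega)).2
  have hv := (ltX.mono (sX (p.jf + 1) (by omega)).2).hv_le s0 le_rfl
  have hz := abs_le.1 (hx (p.jf + 1) (by omega) _ (.inl (k.z (by omega) (by omega))))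
  have rX : (Me p P).rb m a (p.jf + 1 + N) ≤ 2 * E.X := by
    have u1 : (Me p P).E2 m a (fun R => max (|R| - E.X) 0) (p.jf + 1 + N) ≤ E.tl :=
      ok.envL (p.jf + 1 + N + 1) (CD.mem_lo.2 ⟨by omega, hN.ge⟩)
    have u2 := E2_mono (M := Me p P) (m := m) (a := a) (f := id)
      (g := fun R => E.X + max (|R| - E.X) 0) (fun r _ => by
        linarith [le_max_left (|r| - E.X) 0, le_abs_self r, id_eq r]) (p.jf + 1 + N)
    rw [E2_add, E2_const] at u2
    linarith [pow_le_of_le_one X0 X1 (show 3 ≠ 0 by norm_num), show (Me p P).rb m a (p.jf + 1 + N) =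
      (Me p P).E2 m a id (p.jf + 1 + N) from rfl]
  have s2 : 0 ≤ R85.s2 (D p P m a E) ∧ R85.s2 (D p P m a E) ≤ 3 * E.X ^ 3 := by
    have u1 := ok.sum_u_lo 1
    have u2 : R85.s2 (D p P m a E) = ∑ j ∈ (D p P m a E).lo, (D p P m a E).dx j *
        (D p P m a E).u 2 j := sum_congr rfl fun j hj => congrArg _ (R85.E2_lo ok hj 1)
    rw [u2]
    refine ⟨sum_nonneg fun j _ => mul_nonneg (ok.dx0 j) (CD.u0 _ _ _), u1.trans ?_⟩
    change E.X ^ 3 + _ * E.tl ≤ _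
    push_cast
    linarith
  have K0 := lt.K0
  have K1 := lt.K1
  have α0 := lt.α0
  have αK := k.al.2
  have δ0 := sqrt_nonneg p.v
  change |E42.Aq (D p P m a E) (τ p P m) - _| ≤ CA * (_ * E.X ^ 2 + E.X ^ 3 + _ + _) at b1
  have aq : E42.Aq (D p P m a E) (τ p P m) = 1 - τ p P m * (D p P m a E).lam ^ 2 + τ p P m *
    (D p P m a E).lam * ex (D p P m a E).B (jc p) * ((D p P m a E).lam ^ 2 *
      (D p P m a E).sig (jc p + 1)) := rfl
  have eH : Pr.Exp50.hv (p.b 1 p.ye) (Me p P).lr ((Me p P).s (p.jf + 1)) = (Me p P).H (p.jf + 1) :=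
    (hH _ (Nat.lt_succ_self _)).symm
  rw [eH] at hv
  rw [hN] at hV
  have main := fun {μ X0 H0 : ℝ} h1 h2 h3 h4 => low_md (E := E) (θ := τ p P m * (D p P m a E).lam ^ 2)
    (μ := μ) (X0 := X0) (H0 := H0) G (by omega) c1 (by positivity) (by positivity) τ0 rX h1 h2 c3
    (fun i hi => (qs i (by omega)).trans (sX i (by omega)).2) hV h3 h4 hr
    fun i hi => (qs i (by omega)).trans (sf i hi)
  rw [← hN] at main
  rw [cL, show jc p - (p.jf + 2) = N by omega, LowT]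
  have d0 := k.d0
  generalize Clow _ _ _ _ _ _ _ _ _ = cc at main ⊢
  generalize Hs _ _ _ _ = hs at main c2
  generalize R85.s2 (D p P m a E) = S2 at *
  generalize E42.Jh (D p P m a E) = Jh at *
  generalize R85.sh (D p P m a E) = Sh at *
  generalize E42.Aq (D p P m a E) (τ p P m) = Aq at *
  generalize (D p P m a E).lam = l at *
  generalize ex (D p P m a E).B (jc p) = x at *
  generalize (D p P m a E).sig (jc p + 1) = g at *
  generalize eps0 (p.b 1 p.ye) (Me p P).lr = ε at *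
  generalize k3 (Me p P).lr (p.b 1 p.ye) (p.al 1) = k' at *
  generalize τ p P m = τ at *
  generalize (p.n : ℝ) ^ η = L at *
  generalize p.κ ^ ((1 : ℝ) / 100) * un p = w at *
  have e0 : 0 < p.κ * p.r ^ 2 := by positivity
  generalize p.κ * p.r ^ 2 = e at *
  obtain ⟨κ2, -, v1, v2, v3, -, γe, γκ, eX', e1', -, LX, f1, fe, κf, y1, y2, y3, y4⟩ := n
  have V0 : 0 ≤ p.κ ^ (-(7 : ℝ) / 10) * (p.s ^ 3 * (p.n : ℝ) ^ (-(1 : ℝ) / 2)) := by
    have := R.s0; positivity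
  have ρ0 : 0 ≤ p.s * (p.n : ℝ) ^ (p.c / 2 - 1 / 6) := by have := R.s0; positivity
  have γ0 : 0 ≤ (p.n : ℝ) ^ (-(7 / 20 : ℝ)) := by positivity
  generalize p.κ ^ (-(7 : ℝ) / 10) * (p.s ^ 3 * (p.n : ℝ) ^ (-(1 : ℝ) / 2)) = V at *
  generalize p.s * (p.n : ℝ) ^ (p.c / 2 - 1 / 6) = ρ at *
  generalize (p.n : ℝ) ^ (-(7 / 20 : ℝ)) = γ at *
  generalize E.X = X at *
  generalize rf p = f at *
  generalize √p.v = δ at *
  generalize dd p m = d at *
  generalize (Me p P).s (p.jf + 1) = s at *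
  clear hA hx lt ltX c1 c3 sX qs sf hH hV hd k ad ok G
  have L0 : 0 ≤ L := by linarith
  have L1 : 1 ≤ L := by linarith
  have xp : ∀ i j : ℕ, i ≤ j → X ^ j ≤ X ^ i := fun i j h => pow_le_pow_of_le_one X0 X1 h
  have ε1 : |ε| ≤ 2 * e := by
    have := abs_le.1 (e1.trans ((mul_le_mul_of_nonneg_right KL γ0).trans γe))
    exact abs_le.2 ⟨by linarith only [this.1, e0], by linarith only [this.2]⟩
  have ε2 := ε1.trans eX'
  have k1 : |k'| ≤ L * (2 * p.κ) := e2.trans (by gcongr; linarith only [γκ])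
  have k2 : |k'| ≤ 2 * L := by linarith only [k1, mul_le_mul_of_nonneg_left κ2 L0, L0]
  have kδ : ∀ i ≤ 6, K * (X ^ i + δ) ≤ 2 * L * X ^ i := fun i hi =>
    (mul_le_mul KL (show _ ≤ 2 * X ^ i by linarith only [v1, xp i 6 hi]) (by positivity) L0).trans_eq
      (by ring)
  have p1 : |ε| * X ≤ X ^ 3 := (mul_le_mul_of_nonneg_right ε2 X0).trans_eq (by ring)
  have p2 := mul_le_mul_of_nonneg_right k2 (pow_nonneg X0 3)
  have p3 := mul_le_mul_of_nonneg_left (xp 3 4 (by norm_num)) L0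
  have p4 := mul_le_mul_of_nonneg_right L1 (pow_nonneg X0 3)
  have p5 : d * X ≤ X ^ 3 := (mul_le_of_le_one_right d0 X1).trans (dX.trans (xp 3 6 (by norm_num)))
  have p6 := kδ 4 (by norm_num)
  have q1 : |Aq - ε| ≤ L * (4 * X ^ 3) := b1.trans (mul_le_mul AL (by
    linarith only [mul_le_mul_of_nonneg_right ε2 (sq_nonneg X), xp 3 4 (by norm_num), v1, dX,
      xp 3 6 (by norm_num)]) (by positivity) L0)
  have q2 : |1 - τ * l ^ 2| ≤ 6 * L * X ^ 2 := by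
    have u1 : τ * l * x * (l ^ 2 * g) ≤ L * 1 * X * (1 ^ 2 * X) := by gcongr; linarith only [τL, CL]
    have u0 : 0 ≤ τ * l * x * (l ^ 2 * g) := by positivity
    have u2 := abs_le.1 q1
    have u3 := abs_le.1 ε2
    have u4 := mul_le_mul_of_nonneg_left (xp 2 3 (by norm_num)) L0
    have u5 := mul_le_mul_of_nonneg_right L1 (sq_nonneg X)
    exact abs_le.2 ⟨by linarith only [aq, u1, u2.1, u3.1, u4, u5],
      by linarith only [aq, u0, u2.2, u3.2, u4, u5, sq_nonneg X]⟩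
  have q3 : 6 * L * X ^ 2 ≤ 1 := by
    linarith only [LX, mul_le_mul_of_nonneg_right L3 (show 0 ≤ L * X ^ 2 by positivity),
      show 0 ≤ L * X ^ 2 by positivity]
  have ef := mul_le_of_le_one_left f0.le e1'
  have q4 : (Me p P).z (p.jf + 1) ≤ L ^ 2 * f := by
    have u1 : p.al 1 * s ≤ L * (4 * f) := by gcongr; linarith only [αK, KL]
    have u2 : K₀ * (s ^ 2 + δ) ≤ L * (17 * f) := mul_le_mul (K1.trans KL) (by
      linarith only [pow_le_pow_left₀ s0 s1 2, mul_le_of_le_one_left f0.le f1, v3, ef])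
      (by positivity) L0
    linarith only [hz.2, u1, u2, mul_le_mul_of_nonneg_right L3 (show 0 ≤ L * f by positivity),
      show 0 ≤ L * f by positivity]
  have q5 : (Me p P).H (p.jf + 1) ≤ L ^ 2 * (e * f) := by
    have u1 : |ε| * s ≤ 2 * e * (4 * f) := by gcongr
    have u2 : |k'| * s ^ 3 ≤ L * (2 * p.κ) * (4 * f) ^ 3 := by gcongr
    have u3 : K * (s ^ 4 + δ) ≤ L * (257 * (e * f)) := mul_le_mul KL (by
      linarith only [pow_le_pow_left₀ s0 s1 4, mul_le_mul_of_nonneg_right fe f0.le, v3])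
      (by positivity) L0
    have u4 := mul_le_mul_of_nonneg_right κf (show 0 ≤ L * f by positivity)
    have u5 := mul_le_mul_of_nonneg_right L1 (show 0 ≤ e * f by positivity)
    linarith only [(le_abs_self _).trans hv, u1, u2, u3, u4, u5,
      mul_le_mul_of_nonneg_right L3 (show 0 ≤ L * (e * f) by positivity),
      show 0 ≤ L * (e * f) by positivity]
  have M := abs_le.1 (main q2 q3 q4 q5)
  have t1 : τ / 2 * |ε| * (3 * V + 2 * (L ^ 2 * f * (4 * f) ^ 2)) ≤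
      L / 2 * (2 * e) * (3 * V + 2 * (L ^ 2 * f * (4 * f) ^ 2)) := by
    gcongr; linarith only [τL, CL]
  have t3 : 3 / 2 * |hs| * (X * (2 * X + X)) ≤ 3 / 2 * (2 * L * X ^ 4) * (X * (2 * X + X)) := by
    gcongr
    refine c2.trans (le_trans ?_ p6)
    rw [zero_mul, add_zero]
    gcongr
  have t4 := mul_le_mul_of_nonneg_right (dl_num (ct := p.al 1) (K := k') (v := 2 * p.v)
    (dq := |ε| * X + |k'| * X ^ 3 + K * (X ^ 4 + δ) + d * X) X0 X1 L1
    (show K * (X ^ 3 + δ) + 0 ≤ _ by linarith only [kδ 3 (by norm_num)]) ε2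
    (by have := K0.trans K1; positivity) (by linarith only [p1, p2, p3, p4, p5, p6])
    (kδ 2 (by norm_num)) (αK.trans KL) (by positivity) v2 k2) (show 0 ≤ 2 * X by positivity)
  have t5 : 3 / 2 * (6 * L * X ^ 2) * (|ε| * X + |k'| * X ^ 3 + K * (X ^ 4 + δ)) * X * (2 * X) ≤
      3 / 2 * (6 * L * X ^ 2) * (5 * L * X ^ 3) * X * (2 * X) := by
    gcongr; linarith only [p1, p2, p3, p4, p6]
  have t6 : |τ / 2 * (Aq - ε) * S2| ≤ L / 2 * (L * (4 * X ^ 3)) * (3 * X ^ 3) := by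
    rw [abs_mul, abs_mul, abs_of_nonneg s2.1, abs_of_nonneg (show 0 ≤ τ / 2 by positivity)]
    gcongr
    exacts [s2.1, by linarith only [τL, CL], s2.2]
  have t7 := abs_le.1 t6
  have w1 := mul_le_mul_of_nonneg_left (xp 6 7 (by norm_num)) (sq_nonneg L)
  have w2 := mul_le_mul_of_nonneg_right L1 (show 0 ≤ L * X ^ 6 by positivity)
  have z1 : 0 ≤ L ^ 2 * X ^ 6 := by positivity
  have z2 : 0 ≤ L * (e * V) := by positivity
  have z3 : 0 ≤ L ^ 3 * (e * f ^ 3) := by positivity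
  have z4 : 0 ≤ L ^ 4 * (e * f ^ 2 * ρ) := by positivity
  have o1 := (mul_le_mul_of_nonneg_right L3 z1).trans y1
  have o2 := (mul_le_mul_of_nonneg_right L3 z2).trans y2
  have o3 := (mul_le_mul_of_nonneg_right L3 z3).trans y3
  have o4 := (mul_le_mul_of_nonneg_right L3 z4).trans y4
  exact abs_le.2 ⟨by linarith only [M.1, t1, t3, t4, t5, t7.1, w1, w2, o1, o2, o3, o4, z1],
    by linarith only [M.2, t1, t3, t4, t5, t7.2, w1, w2, o1, o2, o3, o4, z1]⟩

end Lw30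

/-- **the low zone** -/
theorem lwS_of {β : ℝ} (hβ : 1 < β) (h1 : RbS β) (h2 : LwIn β) : LwS β := by
  have h3 := Lw30.lw_kit hβ
  unfold RbS LwIn LwS EvA at *
  exact ((h1.and h2).and h3).mono fun _ p ⟨⟨g1, g2⟩, g3⟩ P m =>
    ⟨_, fun a E h => g3 P m a E h (g1 P m a h.sp h.inn) (g2 P m a E h)⟩

end Crest.Agent.T156.Alt.R2

end
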