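import Crest.Agent.T156.R2c_85
import Crest.Agent.T156.R2EDef_42
import Crest.Agent.T156.ErrT_5

/-!
# Row 156, R2 (helper85): the price of the error `E42.EB` of the head (EE)
-/

set_option autoImplicit false
set_option linter.unusedSectionVars false

noncomputable section

namespace Crest.Agent.T156.Cas.C40.R85

open MeasureTheory Real Set Filter Topology
open Crest.Agent.T157.E Crest.Agent.T157.Casc Crest.Agent.T157.SL
open Crest.Agent.T157.G1 (ov)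
open E42 (mv ck Ck G Eloc Shu EB)

variable {D : CD} {τ0 : ℝ}

/-! ### the low terms -/

theorem E2_lo (h : D.Ok τ0) {j : ℕ} (hj : j ∈ D.lo) (p : ℕ) :
    D.E2 j (fun x y => ov x y ^ (2 * p)) = D.u (2 * p) j := by
  simp only [CD.u, uM, oU, h.qlo j (CD.mem_lo.1 hj).2, sub_zero, (even_two_mul p).pow_abs]
  rfl

theorem S_le (h : D.Ok τ0) (p : ℕ) :
    0 ≤ ∑ j ∈ D.lo, D.dx j * (D.τ j ^ (2 * (p + 1)) * D.E2 j fun x y => ov x y ^ (2 * (p + 1))) ∧
    ∑ j ∈ D.lo, D.dx j * (D.τ j ^ (2 * (p + 1)) * D.E2 j fun x y => ov x y ^ (2 * (p + 1))) ≤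
      τ0 ^ (2 * (p + 1)) * (D.X ^ (2 * p + 3) + (2 * p + 2) * D.tl) := by
  have a := h.sum_u_lo (2 * p + 1)
  constructor
  · exact Finset.sum_nonneg fun j hj => mul_nonneg (h.dx0 j)
      (mul_nonneg (pow_nonneg (h.tau_mem j).1 _) (E2_lo h hj _ ▸ D.u0 _ j))
  · refine le_trans ?_ (mul_le_mul_of_nonneg_left (a.trans_eq (by push_cast; ring))
      (pow_nonneg h.tau0 _))
    rw [Finset.mul_sum]
    refine Finset.sum_le_sum fun j hj => ?_
    rw [E2_lo h hj, mul_left_comm]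
    exact mul_le_mul_of_nonneg_right (pow_le_pow_left₀ (h.tau_mem j).1 (h.tau_mem j).2 _)
      (mul_nonneg (h.dx0 j) (D.u0 _ j))

theorem S2_le (h : D.Ok τ0) : 0 ≤ D.S2 ∧ D.S2 ≤ τ0 ^ 2 * (D.X ^ 3 + 2 * D.tl) := by
  have := S_le h 0
  norm_num at this
  exact this

theorem S4_le (h : D.Ok τ0) : 0 ≤ D.S4 ∧ D.S4 ≤ τ0 ^ 4 * (D.X ^ 5 + 4 * D.tl) := by
  have := S_le h 1
  norm_num at this
  exact this

theorem Shu_le (h : D.Ok τ0) : |Shu D| ≤ D.X ^ 3 * (D.X ^ 2 + D.tl) := by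
  have a := h.sum_u_lo 0
  norm_num at a
  refine (Finset.abs_sum_le_sum_abs _ _).trans (le_trans ?_
    (mul_le_mul_of_nonneg_left a (pow_nonneg h.X0 3)))
  rw [Finset.mul_sum]
  refine Finset.sum_le_sum fun j hj => ?_
  have b : |D.rb j| ≤ D.u 1 j := by
    simp only [CD.u, uM, oU, h.qlo j (CD.mem_lo.1 hj).2, sub_zero, pow_one]
    have k := pi2_mono (Ω := Cube D.n) wt_one90 D.B j (K := fun x y => -1 * ov x y)
      (K' := fun x y => |ov x y|) (fun x y => by rw [neg_one_mul]; exact neg_le_abs _) 0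
    rw [pi2_const_mul] at k
    exact abs_le.2 ⟨by unfold CD.rb CD.E2; linarith,
      pi2_mono wt_one90 _ _ (fun _ _ => le_abs_self _) _⟩
  rw [abs_mul, abs_mul, abs_of_nonneg (h.dx0 j), abs_of_nonneg (h.fAcc0 j), mul_left_comm (D.X ^ 3)]
  exact mul_le_mul_of_nonneg_left (mul_le_mul ((h.fAcc_mono (CD.mem_lo.1 hj).2).trans h.h1) b
    (abs_nonneg _) (pow_nonneg h.X0 3)) (h.dx0 j)

theorem abs_KR (h : D.Ok τ0) (j : ℕ) (x y : Cube D.n) : |D.KR j x y| ≤ τ0 := by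
  unfold CD.KR
  split_ifs
  · rw [abs_mul, abs_of_nonneg (h.tau_mem j).1]
    exact (mul_le_of_le_one_right (h.tau_mem j).1 (abs_ov_le x y)).trans (h.tau_mem j).2
  · rw [abs_zero]; exact h.tau0

theorem KR_sq (h : D.Ok τ0) {j : ℕ} (hj : j ≤ D.J) :
    pi2 (fun _ => 1) D.B j (fun x y => D.KR j x y ^ 2) 0 ≤ τ0 ^ 2 * (D.X ^ 2 + 2 * D.tl) := by
  have t0 := h.tl0
  simp only [CD.KR, if_pos hj, mul_pow]
  rw [pi2_const_mul]
  rcases Nat.eq_zero_or_pos j with rfl | h1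
  · rw [show D.τ 0 = 0 by simp [CD.τ, oTau, dAcc], zero_pow two_ne_zero, zero_mul]
    positivity
  · have hj' : j ∈ D.lo := CD.mem_lo.2 ⟨h1, hj⟩
    have a := h.u_lo hj' 1
    have b := E2_lo h hj' 1
    norm_num at a b
    unfold CD.E2 at b
    rw [b]
    exact mul_le_mul (pow_le_pow_left₀ (h.tau_mem j).1 (h.tau_mem j).2 _) a (D.u0 _ j)
      (sq_nonneg _)

theorem cw_low (h : D.Ok τ0) {j : ℕ} (hj : j ≤ D.J) :
    ∑ a : (Sh.two j).Lf, ∑ i ∈ Finset.range (D.J + 1), cw (Sh.two j) D.B a i ≤ 4 * D.X := by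
  have JK : D.J ≤ D.B.length := D.B_len ▸ h.cut.le
  have e := Wt87.sum_cw_eq (Sh.two j) D.B fun _ i => if i ≤ D.J then 1 else 0
  rw [Wt87.Wn_two D.B (hj.trans JK) fun _ _ _ _ => rfl] at e
  have e1 : ∀ a, ∑ i ∈ Finset.range (D.J + 1), cw (Sh.two j) D.B a i =
      ∑ i ∈ Finset.range (D.B.length + 1), cw (Sh.two j) D.B a i * if i ≤ D.J then 1 else 0 :=
    fun a => by
    rw [← Finset.sum_subset (Finset.range_mono (Nat.succ_le_succ JK)) fun i _ hi => by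
      rw [if_neg (by simpa using hi), mul_zero]]
    exact Finset.sum_congr rfl fun i hi => by
      rw [if_pos (Nat.lt_succ_iff.1 (Finset.mem_range.1 hi)), mul_one]
  have a1 : ∑ k ∈ Finset.range (j + 1), dm D.B 0 k * (if k ≤ D.J then 1 else 0 : ℝ) ≤ D.X :=
    ((Finset.sum_congr rfl fun k hk => by
      rw [if_pos (by have := Finset.mem_range.1 hk; omega), mul_one]).trans_le
        (h.sum_dx_le fun k hk => by have := Finset.mem_range.1 hk; omega)).trans h.x1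
  have a2 : ex D.B j ≤ D.X :=
    ((h.sum_dx j).symm.trans_le (h.sum_dx_le fun k hk => by
      have := Finset.mem_range.1 hk; omega)).trans h.x1
  have a3 : ∑ k ∈ Finset.Ioc j D.B.length, dm D.B 0 k *
      ((if k ≤ D.J then 1 else 0) + if k ≤ D.J then 1 else 0 : ℝ) ≤ 2 * D.X := by
    have := (h.sum_dx_le (A := (Finset.Ioc j D.B.length).filter (· ≤ D.J))
      fun k hk => (Finset.mem_filter.1 hk).2).trans h.x1
    rw [Finset.sum_filter] at this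
    refine le_trans (le_of_eq ?_) (mul_le_mul_of_nonneg_left this zero_le_two)
    rw [Finset.mul_sum]
    exact Finset.sum_congr rfl fun k _ => by split_ifs <;> ring
  simp only [e1, e, if_pos hj, mul_one]
  linarith

theorem Tay38.TE_pair' {Ω : Type} [Fintype Ω] {w : Ω → ℝ} (hw : Wt w) (s : Sh) (L : List (Lv Ω))
    (h : Ω → ℝ) {a b : s.Lf} (hab : a ≠ b) (K : Ω → Ω → ℝ) :
    TE w s L h (fun x => K (x a) (x b)) = pi2 w L (s.shr a b L.length) K h :=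
  Cas.Tay38.TE_pair hw K s L h a b hab

theorem S3_le (h : D.Ok τ0) : |D.S3| ≤ 4 * τ0 ^ 3 * (D.X ^ 2 * (D.X ^ 2 + 2 * D.tl)) := by
  have t0 := h.tau0
  have X0 := h.X0
  have l0 := h.tl0
  have hw := wt_one90 (Ω := Cube D.n)
  refine (Finset.abs_sum_le_sum_abs _ _).trans ((Finset.sum_le_sum (g := fun j =>
    D.dx j * (4 * D.X * (τ0 ^ 3 * (D.X ^ 2 + 2 * D.tl)))) fun j hj => ?_).trans ?_)
  swap
  · rw [← Finset.sum_mul]
    exact (mul_le_mul_of_nonneg_right h.sum_lo (by positivity)).trans_eq (by ring)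
  have jJ := (CD.mem_lo.1 hj).2
  have jK : j ≤ D.B.length := D.B_len ▸ jJ.trans h.cut.le
  rw [abs_mul, abs_of_nonneg (h.dx0 j)]
  refine mul_le_mul_of_nonneg_left (le_trans ?_
    (mul_le_mul_of_nonneg_right (cw_low h jJ) (by positivity))) (h.dx0 j)
  rw [Finset.sum_mul]
  refine (Finset.abs_sum_le_sum_abs _ _).trans (Finset.sum_le_sum fun a _ => ?_)
  rw [Finset.sum_mul]
  refine (Finset.abs_sum_le_sum_abs _ _).trans (Finset.sum_le_sum fun i hi => ?_)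
  have iJ : i ≤ D.J := Nat.lt_succ_iff.1 (Finset.mem_range.1 hi)
  rw [abs_mul, abs_of_nonneg (cw_nonneg _ h.mono a i)]
  refine mul_le_mul_of_nonneg_left ?_ (cw_nonneg _ h.mono a i)
  set i' := (Sh.two j).shr (Sh.twoL j) a i with hi'
  have n1 : (Sh.two j).emb a i (Sh.twoL j) ≠ (Sh.two j).emb a i (Sh.twoR j) := fun e => by
    have := Wt87.shr_emb (Sh.two j) a i (Sh.twoL j) (Sh.twoR j) (j + 1)
    rw [e, Wt87.shr_self, Wt87.shr_two] at this
    omega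
  have p1 := Tay38.TE_pair' hw _ D.B 0 n1 fun x y => D.KR j x y ^ 2
  have p2 := Tay38.TE_pair' hw _ D.B 0 (Tay38.emb_ne (Sh.two j) a i (Sh.twoL j)) fun x y => D.KR i' x y ^ 2
  rw [Wt87.shr_emb, Wt87.shr_two, min_eq_left jK] at p1
  rw [Wt87.shr_nw, min_eq_left (D.B_len ▸ iJ.trans h.cut.le), ← hi'] at p2
  have k1 := KR_sq h jJ
  have k2 := KR_sq h ((Wt87.shr_le _ _ _ _).trans iJ : i' ≤ D.J)
  have lin := isLin_TEf hw D.B 0 ((Sh.two j).graft a i) (τ0 / 2) (τ0 / 2)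
    (fun x => D.KR j (x ((Sh.two j).emb a i (Sh.twoL j))) (x ((Sh.two j).emb a i (Sh.twoR j))) ^ 2)
    fun x => D.KR i' (x ((Sh.two j).emb a i (Sh.twoL j))) (x ((Sh.two j).nw a i)) ^ 2
  unfold TEf at lin
  rw [p1, p2] at lin
  refine ((Law.abs_TE_le hw _ _ _ _).trans (Law.TE_mono hw _ _ _ fun x => ?_)).trans
    (lin.trans_le ?_)
  · rw [abs_mul, abs_mul, ← sq_abs (D.KR j _ _), ← sq_abs (D.KR i' _ _)]
    have b := mul_le_mul_of_nonneg_left (abs_KR h ((Sh.two j).shr (Sh.twoR j) a i)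
      (x ((Sh.two j).emb a i (Sh.twoR j))) (x ((Sh.two j).nw a i))) (mul_nonneg
      (abs_nonneg (D.KR j (x ((Sh.two j).emb a i (Sh.twoL j))) (x ((Sh.two j).emb a i (Sh.twoR j)))))
      (abs_nonneg (D.KR i' (x ((Sh.two j).emb a i (Sh.twoL j))) (x ((Sh.two j).nw a i)))))
    have c := mul_nonneg t0 (sq_nonneg
      (|D.KR j (x ((Sh.two j).emb a i (Sh.twoL j))) (x ((Sh.two j).emb a i (Sh.twoR j)))| -
        |D.KR i' (x ((Sh.two j).emb a i (Sh.twoL j))) (x ((Sh.two j).nw a i))|))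
    linarith
  · linarith [mul_le_mul_of_nonneg_left k1 t0, mul_le_mul_of_nonneg_left k2 t0]

/-! ### the thin clock -/

/-- variance slice above the node `t` -/
abbrev ds (D : CD) (t : ℕ) : ℝ := D.sig (t + 1) - D.sig t

/-- sums over the reveal nodes -/
def Rv (D : CD) (P : ℕ) (a : ℕ → ℝ) : ℝ := ∑ t ∈ Finset.Ico P D.K, ds D t * a t

/-- the site and clock inputs of the price -/
structure Pz (D : CD) (P : ℕ) (L θ ρ ε B Lg : ℝ) : Prop where
  JP : D.J < P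
  PK : P ≤ D.K
  L1 : 1 ≤ L
  θ0 : 0 < θ
  ρ0 : 0 ≤ ρ
  ε0 : 0 ≤ ε
  e0 : ∀ t ∈ D.up, 0 < D.e t
  eB : ∀ t ∈ D.up, D.e t ≤ B
  lg : Ck D (fun t => 1 / D.e t) ≤ Lg
  ck : ∀ t ∈ D.up, t < P → ds D t ≤ L * D.dx t
  mu : ∀ t ∈ D.up, θ * (D.dx t * D.e t ^ 2) ≤ D.dx t * mu D (E42.τ D) t
  gp : ∀ t ∈ D.up, t < P → |mv D (G D) t| ≤ L * (D.dx t * R85.mu D (E42.τ D) t) + ρ * ds D t
  gr : ∀ t ∈ D.up, P ≤ t → |mv D (G D) t| ≤ L * ds D t
  ts : ∀ t ∈ D.up, |mv D (fun j => D.Gam j - D.q j) t| ≤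
    ρ * (D.e t * ds D t) + if t + 1 = D.K then ε else 0
  mu0 : |1 - E42.τ D * D.lam ^ 2| ≤ L * D.X

/-- bound of `Ck (e² E U²)` -/
def W2 (D : CD) (P : ℕ) (L θ B : ℝ) : ℝ :=
  2 * L / θ * muU D (E42.τ D) + B ^ 2 * Rv D P (D.u 2)

variable {P : ℕ} {L θ ρ ε B Lg : ℝ}

theorem ds0 (h : D.Ok τ0) {t : ℕ} (ht : t < D.K) : 0 ≤ ds D t :=
  sub_nonneg.2 (h.sig_le (Nat.le_succ t) ht)

theorem ck0 (h : D.Ok τ0) {t : ℕ} (ht : t ∈ D.up) : 0 ≤ ck D t :=
  add_nonneg (h.dx0 t) (ds0 h (CD.mem_up.1 ht).2)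

theorem Rv0 (h : D.Ok τ0) {a : ℕ → ℝ} (ha : ∀ t, 0 ≤ a t) : 0 ≤ Rv D P a :=
  Finset.sum_nonneg fun t ht => mul_nonneg (ds0 h (Finset.mem_Ico.1 ht).2) (ha t)


theorem Ck0 (h : D.Ok τ0) {a : ℕ → ℝ} (e : ∀ t ∈ D.up, 0 ≤ a t) : 0 ≤ Ck D a :=
  Finset.sum_nonneg fun t ht => mul_nonneg (ck0 h ht) (e t ht)

theorem Ck_cs (h : D.Ok τ0) {r a b : ℕ → ℝ} (ha : ∀ t ∈ D.up, 0 ≤ a t) (hb : ∀ t ∈ D.up, 0 ≤ b t)
    (e : ∀ t ∈ D.up, r t ^ 2 ≤ a t * b t) : Ck D r ^ 2 ≤ Ck D a * Ck D b :=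
  Finset.sum_sq_le_sum_mul_sum_of_sq_le_mul _ (fun t ht => mul_nonneg (ck0 h ht) (ha t ht))
    (fun t ht => mul_nonneg (ck0 h ht) (hb t ht)) fun t ht => by
      rw [mul_pow, mul_mul_mul_comm, ← sq]
      exact mul_le_mul_of_nonneg_left (e t ht) (sq_nonneg _)

namespace Pz

variable (z : Pz D P L θ ρ ε B Lg) (h : D.Ok τ0)
include z

theorem mem {t : ℕ} (ht : t ∈ Finset.Ico P D.K) : t ∈ D.up :=
  CD.mem_up.2 ⟨z.JP.trans_le (Finset.mem_Ico.1 ht).1, (Finset.mem_Ico.1 ht).2⟩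

theorem Rv_eq (a : ℕ → ℝ) : Rv D P a = ∑ t ∈ D.up, if P ≤ t then ds D t * a t else 0 := by
  rw [← Finset.sum_filter, Rv]
  congr 1
  ext t
  have := z.JP
  simp only [Finset.mem_Ico, Finset.mem_filter, Finset.mem_Ioo]
  omega

include h

/-- labels and reveal -/
theorem split {c a : ℕ → ℝ} {α β : ℝ} (h1 : ∀ t ∈ D.up, t < P → c t ≤ α * (D.dx t * a t))
    {b : ℕ → ℝ} (h2 : ∀ t ∈ D.up, P ≤ t → c t ≤ α * (D.dx t * a t) + β * (ds D t * b t)) :
    ∑ t ∈ D.up, c t ≤ α * D.I a + β * Rv D P b := by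
  rw [z.Rv_eq, CD.I, Finset.mul_sum, Finset.mul_sum, ← Finset.sum_add_distrib]
  refine Finset.sum_le_sum fun t ht => ?_
  split_ifs with hP
  · exact h2 t ht hP
  · rw [mul_zero, add_zero]; exact h1 t ht (not_le.1 hP)

theorem Ck_le {a : ℕ → ℝ} (ha : ∀ t ∈ D.up, 0 ≤ a t) : Ck D a ≤ 2 * L * D.I a + 1 * Rv D P a := by
  refine z.split h (fun t ht hP => ?_) fun t ht _ => ?_ <;>
    have p := mul_nonneg (sub_nonneg.2 z.L1) (mul_nonneg (h.dx0 t) (ha t ht))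
  · have := mul_le_mul_of_nonneg_right (z.ck t ht hP) (ha t ht)
    unfold E42.ck
    linarith
  · have := mul_nonneg (h.dx0 t) (ha t ht)
    unfold E42.ck
    linarith

theorem dmu {t : ℕ} (ht : t ∈ D.up) : θ * (D.dx t * D.e t ^ 2) ≤ D.dx t * R85.mu D (E42.τ D) t :=
  (fun _ : D.Ok τ0 => z.mu t ht) h

theorem dmu0 {t : ℕ} (ht : t ∈ D.up) : 0 ≤ D.dx t * R85.mu D (E42.τ D) t :=
  (mul_nonneg z.θ0.le (mul_nonneg (h.dx0 t) (sq_nonneg _))).trans (z.dmu h ht)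

theorem muU0 : 0 ≤ muU D (E42.τ D) :=
  Finset.sum_nonneg fun t ht => (mul_nonneg (z.dmu0 h ht) (D.u0 2 t)).trans_eq (mul_assoc _ _ _)

theorem Ie2 : D.I (fun t => D.e t ^ 2 * D.u 2 t) ≤ 1 / θ * muU D (E42.τ D) := by
  rw [one_div, ← div_eq_inv_mul, le_div_iff₀' z.θ0, CD.I, Finset.mul_sum]
  refine Finset.sum_le_sum fun t ht => ?_
  have := mul_le_mul_of_nonneg_right (z.dmu h ht) (D.u0 2 t)
  linarith

theorem Rv_e (p : ℕ) {a : ℕ → ℝ} (ha : ∀ t, 0 ≤ a t) :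
    Rv D P (fun t => D.e t ^ p * a t) ≤ B ^ p * Rv D P a := by
  rw [Rv, Rv, Finset.mul_sum]
  refine Finset.sum_le_sum fun t ht => ?_
  rw [mul_left_comm (B ^ p)]
  exact mul_le_mul_of_nonneg_left (mul_le_mul_of_nonneg_right
    (pow_le_pow_left₀ (h.e0 t) (z.eB t (z.mem ht)) p) (ha t)) (ds0 h (Finset.mem_Ico.1 ht).2)

theorem Ck_e2 : Ck D (fun t => D.e t ^ 2 * D.u 2 t) ≤ W2 D P L θ B := by
  have a := z.Ck_le h (a := fun t => D.e t ^ 2 * D.u 2 t) fun t _ => mul_nonneg (sq_nonneg _) (D.u0 2 t)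
  have b := mul_le_mul_of_nonneg_left (z.Ie2 h) (show 0 ≤ 2 * L by linarith [z.L1])
  have c := z.Rv_e h 2 (D.u0 2)
  rw [W2, div_eq_mul_one_div (2 * L)]
  linarith

theorem sq1 : Ck D (fun t => √(D.e t) * |D.del t|) ^ 2 ≤ Lg * W2 D P L θ B := by
  refine (Ck_cs h (a := fun t => 1 / D.e t) (b := fun t => D.e t ^ 2 * D.u 2 t)
    (fun t ht => (one_div_pos.2 (z.e0 t ht)).le) (fun t _ => mul_nonneg (sq_nonneg _) (D.u0 2 t))
    fun t ht => ?_).trans (mul_le_mul z.lg (z.Ck_e2 h)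
      (Ck0 h fun t _ => mul_nonneg (sq_nonneg _) (D.u0 2 t))
      ((Ck0 h fun t ht => (one_div_pos.2 (z.e0 t ht)).le).trans z.lg))
  have e := z.e0 t ht
  rw [mul_pow, sq_sqrt e.le, sq_abs, show 1 / D.e t * (D.e t ^ 2 * D.u 2 t) = D.e t * D.u 2 t by
    field_simp]
  exact mul_le_mul_of_nonneg_left (del_sq_le D t) e.le

theorem sq2 : Ck D (fun t => D.e t * |D.del t|) ≤ √(B * (Lg * W2 D P L θ B)) := by
  have a := Ck_cs h (r := fun t => D.e t * |D.del t|) (a := fun t => B * (1 / D.e t))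
    (b := fun t => D.e t ^ 2 * D.u 2 t)
    (fun t ht => mul_nonneg ((z.e0 t ht).le.trans (z.eB t ht)) (one_div_pos.2 (z.e0 t ht)).le)
    (fun t _ => mul_nonneg (sq_nonneg _) (D.u0 2 t)) fun t ht => by
      have e := z.e0 t ht
      rw [mul_pow, sq_abs, show B * (1 / D.e t) * (D.e t ^ 2 * D.u 2 t) = B * D.e t * D.u 2 t by
        field_simp, sq]
      exact mul_le_mul (mul_le_mul_of_nonneg_right (z.eB t ht) e.le) (del_sq_le D t) (sq_nonneg _)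
        (mul_nonneg (e.le.trans (z.eB t ht)) e.le)
  have e : Ck D (fun t => B * (1 / D.e t)) = B * Ck D fun t => 1 / D.e t := by
    simp only [Ck, Finset.mul_sum, mul_left_comm _ B]
  rcases D.up.eq_empty_or_nonempty with h0 | ⟨t, ht⟩
  · rw [Ck, h0, Finset.sum_empty]; exact sqrt_nonneg _
  have B0 := (z.e0 t ht).le.trans (z.eB t ht)
  refine le_sqrt_of_sq_le (a.trans ?_)
  rw [e, mul_assoc]
  exact mul_le_mul_of_nonneg_left (mul_le_mul z.lg (z.Ck_e2 h)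
    (Ck0 h fun t _ => mul_nonneg (sq_nonneg _) (D.u0 2 t))
    ((Ck0 h fun t ht => (one_div_pos.2 (z.e0 t ht)).le).trans z.lg)) B0

theorem Ck_u2 : Ck D (D.u 2) ≤ 2 * L * D.N2 + Rv D P (D.u 2) := by
  have a := z.Ck_le h (a := D.u 2) fun t _ => D.u0 2 t
  have b := mul_le_mul_of_nonneg_left (h.I_mono (b := fun j => D.g j ^ 2) fun j _ => Et5.u2_le D j)
    (show 0 ≤ 2 * L by linarith [z.L1])
  unfold CD.N2
  linarith

theorem Ck_u3 : Ck D (fun t => D.e t * D.u 3 t) ≤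
    2 * L * D.I (fun t => D.e t * D.g t ^ 3) + 2 * B * Rv D P (D.u 2) := by
  have a := z.Ck_le h (a := fun t => D.e t * D.u 3 t) fun t _ => mul_nonneg (h.e0 t) (D.u0 3 t)
  have b : Rv D P (fun t => D.e t * D.u 3 t) ≤ 2 * B * Rv D P (D.u 2) := by
    rw [Rv, Rv, Finset.mul_sum]
    refine Finset.sum_le_sum fun t ht => ?_
    have tK := (Finset.mem_Ico.1 ht).2
    have u : D.u 3 t ≤ 2 * D.u 2 t := by
      rw [CD.u, CD.u, uM, uM, ← pi2_const_mul]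
      refine pi2_mono (Ω := Cube D.n) wt_one90 _ t (fun x y => ?_) 0
      rw [pow_succ']
      exact mul_le_mul_of_nonneg_right (abs_oU_le h.ook tK.le x y) (sq_nonneg _)
    have := mul_le_mul_of_nonneg_left (mul_le_mul (z.eB t (z.mem ht)) u (D.u0 3 t)
      ((h.e0 t).trans (z.eB t (z.mem ht)))) (ds0 h tK)
    linarith
  simp only [D.g_cube]
  linarith

theorem TS_le : |E42.TS D| ≤ ρ * √(B * (Lg * W2 D P L θ B)) + 2 * ε := by
  have a : |E42.TS D| ≤ ρ * Ck D (fun t => D.e t * |D.del t|) +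
      ∑ t ∈ D.up, if t + 1 = D.K then 2 * ε else 0 := by
    rw [Ck, Finset.mul_sum, ← Finset.sum_add_distrib]
    refine (Finset.abs_sum_le_sum_abs _ _).trans (Finset.sum_le_sum fun t ht => ?_)
    have d0 := abs_nonneg (D.del t)
    have d2 : |D.del t| ≤ 2 := by
      have k := pi2_mono (Ω := Cube D.n) wt_one90 D.B t (K' := fun _ _ => 2 ^ 2)
        (fun x y => pow_le_pow_left₀ (abs_nonneg _) (abs_oU_le h.ook (CD.mem_up.1 ht).2.le x y) 2) 0
      rw [pi2_const wt_one90] at k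
      exact abs_le_of_sq_le_sq' ((del_sq_le D t).trans k) zero_le_two |> abs_le.2
    have k := mul_le_mul_of_nonneg_left (z.ts t ht) d0
    have p := mul_nonneg z.ρ0 (mul_nonneg (h.dx0 t) (mul_nonneg (h.e0 t) d0))
    have q := mul_le_mul_of_nonneg_right d2 z.ε0
    rw [abs_mul]
    unfold E42.ck
    split_ifs at k ⊢ <;> linarith
  have b : (∑ t ∈ D.up, if t + 1 = D.K then 2 * ε else 0) ≤ 2 * ε := by
    rw [← Finset.sum_filter, Finset.sum_const, nsmul_eq_mul]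
    refine mul_le_of_le_one_left (by linarith [z.ε0]) ?_
    exact_mod_cast Finset.card_le_one.2 fun s hs t ht => by
      have := (Finset.mem_filter.1 hs).2
      have := (Finset.mem_filter.1 ht).2
      omega
  linarith [mul_le_mul_of_nonneg_left (z.sq2 h) z.ρ0]

theorem Eloc_le : Eloc D ≤
    2 * L * muU D (E42.τ D) + L * Rv D P (D.u 2) + ρ * L * D.N2 := by
  have L0 : 0 ≤ L := by linarith [z.L1]
  have a := z.split h (c := fun t => (D.dx t * |1 - E42.τ D * G D t| + |mv D (G D) t|) * D.u 2 t)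
    (a := fun t => 2 * L * (R85.mu D (E42.τ D) t * D.u 2 t) + ρ * L * D.g t ^ 2) (α := 1) (β := L)
    (b := D.u 2) (fun t ht hP => ?_) fun t ht hP => ?_
  · rw [D.I_add, D.I_mul, D.I_mul] at a
    unfold Eloc muU CD.N2
    unfold CD.I at a ⊢
    linarith
  all_goals
    have m0 := z.dmu0 h ht
    have u0 := D.u0 2 t
    have e : D.dx t * |1 - E42.τ D * G D t| = D.dx t * R85.mu D (E42.τ D) t := by
      rw [← abs_of_nonneg m0, abs_mul, abs_of_nonneg (h.dx0 t)]; rfl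
    have p1 := mul_nonneg (sub_nonneg.2 z.L1) (mul_nonneg m0 u0)
    have p2 := mul_le_mul_of_nonneg_left (Et5.u2_le D t) (mul_nonneg (mul_nonneg z.ρ0 L0) (h.dx0 t))
    rw [e]
  · have p3 := mul_le_mul_of_nonneg_right (z.gp t ht hP) u0
    have p4 := mul_le_mul_of_nonneg_left (z.ck t ht hP) (mul_nonneg z.ρ0 u0)
    linarith
  · have p3 := mul_le_mul_of_nonneg_right (z.gr t ht hP) u0
    have p4 := mul_nonneg (mul_nonneg (mul_nonneg z.ρ0 L0) (h.dx0 t)) u0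
    have p5 := mul_nonneg m0 u0
    linarith

/-- **the price of `EB`** -/
theorem EB_le (η : ℝ) : EB D η ≤ η + 2 * ε + 1 / D.n +
    20 * L * (1 + τ0) ^ 4 * (D.X ^ 6 + D.tl + D.X ^ 4 * D.N1 + (D.X ^ 3 + ρ) * D.N2 +
      D.I (fun t => D.e t * D.g t ^ 3) + muU D (E42.τ D) + (1 + B) * Rv D P (D.u 2) +
      (D.X ^ 3 + D.tl + ρ) * √(B * (Lg * W2 D P L θ B))) + Lg * W2 D P L θ B := by
  have X0 := h.X0
  have X1 := h.X1
  have l0 := h.tl0
  have t0 := h.tau0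
  have L1 := z.L1
  have ρ0 := z.ρ0
  have n1 := h.N10
  have n2 := h.N20
  have i3 := h.Ig30
  have m0 := z.muU0 h
  have r0 : 0 ≤ Rv D P (D.u 2) := Rv0 h (D.u0 2)
  have xp : ∀ i j : ℕ, i ≤ j → D.X ^ j ≤ D.X ^ i := fun i j e => pow_le_pow_of_le_one X0 X1 e
  have x1 : ∀ i : ℕ, D.X ^ i * D.tl ≤ D.tl := fun i =>
    mul_le_of_le_one_left l0 (pow_le_one₀ X0 X1)
  obtain ⟨c, hc⟩ : ∃ c, c = (1 + τ0) ^ 4 := ⟨_, rfl⟩
  have c1 : 1 ≤ c := hc ▸ one_le_pow₀ (by linarith)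
  have tc : ∀ i ≤ 4, τ0 ^ i ≤ c := fun i hi => hc ▸ (pow_le_pow_left₀ t0 (by linarith) i).trans
    (pow_le_pow_right₀ (by linarith) hi)
  obtain ⟨A, hA⟩ : ∃ A, A = D.X ^ 6 + D.tl := ⟨_, rfl⟩
  have x6 := pow_nonneg X0 6
  have A0 : 0 ≤ A := by linarith
  have s2 : D.S2 ≤ c * (D.X ^ 3 + 2 * D.tl) :=
    (S2_le h).2.trans (mul_le_mul_of_nonneg_right (tc 2 (by omega)) (by positivity))
  have b1 : (|1 - E42.τ D * D.lam ^ 2| + D.X ^ 2) * Shu D ≤ 2 * L * A := by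
    have a1 : |1 - E42.τ D * D.lam ^ 2| + D.X ^ 2 ≤ 2 * L * D.X := by
      have := xp 1 2 (by omega)
      linarith [z.mu0, mul_nonneg (sub_nonneg.2 L1) X0]
    refine (mul_le_mul_of_nonneg_left (le_abs_self _) (by positivity)).trans
      ((mul_le_mul a1 (Shu_le h) (abs_nonneg _) (by positivity)).trans ?_)
    · rw [mul_assoc (2 * L)]
      exact mul_le_mul_of_nonneg_left (by linarith [x1 4]) (by linarith)
  have b2 : D.X ^ 3 * D.S2 ≤ 2 * c * A := by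
    have := mul_le_mul_of_nonneg_left s2 (pow_nonneg X0 3)
    have := mul_le_mul_of_nonneg_left (x1 3) (zero_le_one.trans c1)
    have := mul_nonneg (zero_le_one.trans c1) x6
    rw [hA]; linarith
  have b3 : D.X ^ 2 * |D.S3| ≤ 8 * c * A := by
    have a1 := (S3_le h).trans (mul_le_mul_of_nonneg_right (mul_le_mul_of_nonneg_left
      (tc 3 (by omega)) (by norm_num)) (by positivity))
    have := mul_le_mul_of_nonneg_left a1 (pow_nonneg X0 2)
    have := mul_le_mul_of_nonneg_left (x1 4) (zero_le_one.trans c1)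
    have := mul_nonneg (zero_le_one.trans c1) x6
    rw [hA]; linarith
  have b4 : D.X * D.S4 ≤ 4 * c * A := by
    have a1 := (S4_le h).2.trans (mul_le_mul_of_nonneg_right (tc 4 le_rfl) (by positivity))
    have := mul_le_mul_of_nonneg_left a1 X0
    have := mul_le_mul_of_nonneg_left (x1 1) (zero_le_one.trans c1)
    have := mul_nonneg (zero_le_one.trans c1) x6
    rw [hA]; linarith
  have d1 : D.I (fun t => |D.del t|) ≤ D.N1 := h.I_mono fun t _ => abs_del_le D t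
  have d0 : 0 ≤ D.I (fun t => |D.del t|) := h.I0 fun t _ => abs_nonneg _
  have d2 : D.I (fun t => |D.del t|) ≤ 2 := h.I_le zero_le_two fun t ht => by
    have k := pi2_mono (Ω := Cube D.n) wt_one90 D.B t (K' := fun _ _ => 2 ^ 2)
      (fun x y => pow_le_pow_left₀ (abs_nonneg _) (abs_oU_le h.ook (CD.mem_up.1 ht).2.le x y) 2) 0
    rw [pi2_const wt_one90] at k
    exact abs_le_of_sq_le_sq' ((del_sq_le D t).trans k) zero_le_two |> abs_le.2
  have b5 : (D.X ^ 4 + D.X ^ 2 * D.S2) * D.I (fun t => |D.del t|) ≤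
      2 * c * (D.X ^ 4 * D.N1) + 4 * c * A := by
    have a1 : D.X ^ 2 * D.S2 ≤ c * D.X ^ 4 + 2 * c * D.tl := by
      have := mul_le_mul_of_nonneg_left s2 (pow_nonneg X0 2)
      have := mul_le_mul_of_nonneg_left (x1 2) (zero_le_one.trans c1)
      have := mul_le_mul_of_nonneg_left (xp 4 5 (by omega)) (zero_le_one.trans c1)
      linarith
    have a2 := mul_le_mul_of_nonneg_right a1 d0
    have a3 := mul_le_mul_of_nonneg_left d1 (pow_nonneg X0 4)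
    have a4 := mul_le_mul_of_nonneg_left a3 (zero_le_one.trans c1)
    have a5 := mul_le_mul_of_nonneg_left d2 (by positivity : 0 ≤ 2 * c * D.tl)
    have a6 := mul_nonneg (sub_nonneg.2 c1) (mul_nonneg (pow_nonneg X0 4) n1)
    have := mul_nonneg (zero_le_one.trans c1) x6
    rw [hA]; linarith
  obtain ⟨Y, hY⟩ : ∃ Y, Y = √(B * (Lg * W2 D P L θ B)) := ⟨_, rfl⟩
  have Y0 : 0 ≤ Y := hY ▸ sqrt_nonneg _
  have b6 : D.S2 * Ck D (fun t => D.e t * |D.del t|) ≤ 2 * c * ((D.X ^ 3 + D.tl) * Y) := by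
    have a1 := mul_le_mul s2 (hY ▸ z.sq2 h) (Ck0 h fun t _ => mul_nonneg (h.e0 t) (abs_nonneg _))
      (by positivity)
    have := mul_nonneg (zero_le_one.trans c1) (mul_nonneg (pow_nonneg X0 3) Y0)
    linarith
  have b7 : D.X ^ 3 * Ck D (D.u 2) ≤ 2 * L * (D.X ^ 3 * D.N2) + Rv D P (D.u 2) := by
    have := mul_le_mul_of_nonneg_left (z.Ck_u2 h) (pow_nonneg X0 3)
    have := mul_le_of_le_one_left r0 (pow_le_one₀ (n := 3) X0 X1)
    linarith
  have b8 := z.TS_le h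
  have b9 := z.Eloc_le h
  have b10 := z.Ck_u3 h
  have b11 := z.sq1 h
  have BR : 0 ≤ B * Rv D P (D.u 2) := by
    rw [Rv, Finset.mul_sum]
    exact Finset.sum_nonneg fun t ht => mul_nonneg ((h.e0 t).trans (z.eB t (z.mem ht)))
      (mul_nonneg (ds0 h (Finset.mem_Ico.1 ht).2) (D.u0 2 t))
  rw [← hc, ← hY, ← hA] at *
  have Lc : 1 ≤ L * c := one_le_mul_of_one_le_of_one_le L1 c1
  have q : ∀ w, 0 ≤ w → w ≤ L * c * w ∧ L * w ≤ L * c * w ∧ c * w ≤ L * c * w := fun w hw =>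
    ⟨le_mul_of_one_le_left hw Lc, mul_le_mul_of_nonneg_right
      (le_mul_of_one_le_right (by linarith) c1) hw, mul_le_mul_of_nonneg_right
      (le_mul_of_one_le_left (by linarith) L1) hw⟩
  obtain ⟨-, q1, q2⟩ := q A A0
  obtain ⟨q3', -, q3⟩ := q (D.X ^ 4 * D.N1) (by positivity)
  obtain ⟨q4', q4, -⟩ := q (D.X ^ 3 * D.N2) (by positivity)
  obtain ⟨q5', q5, -⟩ := q (ρ * D.N2) (by positivity)
  obtain ⟨q6', q6, -⟩ := q _ i3
  obtain ⟨q7', q7, -⟩ := q _ m0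
  obtain ⟨q8, q9, -⟩ := q _ r0
  obtain ⟨q10, -, -⟩ := q _ BR
  obtain ⟨q11', -, q11⟩ := q ((D.X ^ 3 + D.tl) * Y) (by positivity)
  obtain ⟨q12, -, -⟩ := q (ρ * Y) (by positivity)
  have w1 : 0 ≤ D.X ^ 4 * D.N1 := by positivity
  have w2 : 0 ≤ D.X ^ 3 * D.N2 := by positivity
  have w3 : 0 ≤ ρ * D.N2 := by positivity
  have w4 : 0 ≤ (D.X ^ 3 + D.tl) * Y := by positivity
  have w5 : 0 ≤ ρ * Y := by positivity
  have w6 := mul_nonneg (zero_le_one.trans c1) A0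
  unfold EB
  linarith

end Pz

end Crest.Agent.T156.Cas.C40.R85

end
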