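import Crest.Agent.T156.Apt_7
import Crest.Agent.T156.ClZb_9
import Crest.Agent.T156.AltOne_23
import Crest.Agent.T156.Hess_65
import Crest.Agent.T156.LpR_43
import Crest.Agent.T156.MvB_7
import Crest.Agent.T156.MvL_30
import Crest.Agent.T156.CRem_23
import Crest.Agent.T156.CIn_12
import Crest.Agent.T156.R2c_85
import Crest.Agent.T156.R2B_85

-- ▼ part T156/MvS_30
section

/-!
# Row 156: the slope of the site fixed point on the top part (helper30)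

From the node `k0` on the tilt is `1` and `τ` is constant.  The replicon coefficient increases from
`k0` on, and `r ↦ Γ_s (r) - r` has slope `≤ -θ`: the hypothesis `hsl` of `Apt7.apt_full`.
-/

set_option autoImplicit false
set_option linter.unusedSectionVars false

noncomputable section

namespace Crest.Agent.T156.Cas.Mv30

open MeasureTheory Real Set Filter Topology
open Crest.Agent.T157.E Crest.Agent.T157.Casc Crest.Agent.T157.SL
open Crest.Agent.R339.B Crest.Agent.R339.Var Crest.Agent.T157.Pf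
open Crest.Agent.T156.Pp.Area50 Crest.Agent.T156.Zb9 Apt7

/-- tilt `1` and constant `τ` from the node `k0` on -/
structure Tp (n : ℕ) (β : ℝ) (M : List (ℝ × ℝ × ℝ)) (q : ℕ → ℝ) (k0 : ℕ) : Prop where
  ook : OOk M q
  mono : Mono 0 (M.map (mxL n β))
  pos : 0 < ex (M.map (mxL n β)) 0
  lt : k0 < M.length
  top : ex (M.map (mxL n β)) k0 = 1
  tau : oTau n β M k0 = oTau n β M M.length

/-- node times -/
def sg' (n : ℕ) (β : ℝ) (M : List (ℝ × ℝ × ℝ)) (q : ℕ → ℝ) (j : ℕ) : ℝ :=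
  oTau n β M j * q j + fAcc M j

/-- the list of the part below `k0`, continued with tilt `1` -/
def ul (n : ℕ) (β : ℝ) (M : List (ℝ × ℝ × ℝ)) (q : ℕ → ℝ) (k0 : ℕ) : List (ℝ × ℝ) :=
  zl (ex (M.map (mxL n β))) (sg' n β M q) k0 (oTau n β M M.length + fAcc M M.length)

variable {n : ℕ} {β : ℝ} {M : List (ℝ × ℝ × ℝ)} {q q' : ℕ → ℝ} {k0 : ℕ}

theorem tilt_ex (k : ℕ) (h : k < M.length) : M[k].1 = ex (M.map (mxL n β)) k := by
  simp [T157.Casc.ex, h, mxL_m]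

theorem up_sg (H : OOk M q) : Up (sg' n β M q) M.length := fun j hj => by
  have e := opV_eq n β M q (tilt_ex (n := n) (β := β))
  have := opV_nn (n := n) (β := β) H
    (ex (M.map (mxL n β)) j, sg' n β M q (j + 1) - sg' n β M q j) (by
      rw [e, lsg, List.mem_ofFn]; exact ⟨⟨j, hj⟩, rfl⟩)
  exact sub_nonneg.1 this

theorem sg_zero : sg' n β M q 0 = 0 := by simp [sg', oTau, dAcc, fAcc]

theorem sg_top (H : OOk M q) : sg' n β M q M.length = oTau n β M M.length + fAcc M M.length := by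
  rw [sg', H.top, mul_one]

theorem acc_mono {f : ℝ × ℝ × ℝ → ℝ} (h : ∀ p ∈ M, 0 ≤ f p) :
    Monotone fun j => ((M.take j).map f).sum := monotone_nat_of_le_succ fun j => by
  rcases lt_or_ge j M.length with c | c
  · rw [List.take_succ_eq_append_getElem c, List.map_append, List.sum_append]
    simpa using h _ (List.getElem_mem c)
  · rw [List.take_of_length_le c, List.take_of_length_le (c.trans (Nat.le_succ j))]

theorem fAcc_mono (H : OOk M q) : Monotone (fAcc M) := acc_mono fun p hp => (H.nn p hp).2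

theorem oTau_mono (H : OOk M q) : Monotone (oTau n β M) := fun _ _ h =>
  mul_le_mul_of_nonneg_left (acc_mono (fun p hp => (H.nn p hp).1) h) (sq_nonneg _)

namespace Tp

theorem ex_top (T : Tp n β M q k0) {j : ℕ} (hj : k0 ≤ j) : ex (M.map (mxL n β)) j = 1 :=
  le_antisymm (Tay38.ex_le_one T.mono j) (T.top ▸ LpR43.ex_mono T.mono hj)

theorem dm_top (T : Tp n β M q k0) {j : ℕ} (hj : k0 < j) : dm (M.map (mxL n β)) 0 j = 0 := by
  obtain ⟨j, rfl⟩ : ∃ i, j = i + 1 := ⟨j - 1, by omega⟩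
  simp only [dm, exP]
  rw [T.ex_top hj.le, T.ex_top (Nat.lt_succ_iff.1 hj), sub_self]

theorem tau_top (T : Tp n β M q k0) {j : ℕ} (hj : k0 ≤ j) : oTau n β M j = oTau n β M M.length :=
  le_antisymm (T.ook.oTau_le n β j).2 (T.tau ▸ oTau_mono T.ook hj)

theorem dat (T : Tp n β M q k0) : Dat (ex (M.map (mxL n β))) (sg' n β M q) k0
    (oTau n β M M.length + fAcc M M.length) :=
  ⟨fun j _ => LpR43.ex_mono T.mono (Nat.le_succ j), T.pos, T.top,
    fun j hj => up_sg T.ook j (hj.trans T.lt), sg_zero,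
    sg_top (n := n) (β := β) T.ook ▸ (up_sg T.ook).le T.lt.le le_rfl⟩


/-- every reference that agrees with `q` up to `k0` has the same site list -/
theorem same (T : Tp n β M q k0) (H : OOk M q') (e : ∀ j ≤ k0, q' j = q j) :
    Ker.Same (ul n β M q k0) (opV n β M q') (oTau n β M M.length + fAcc M M.length) := by
  have top : ∀ k, k0 ≤ k → k ≤ M.length → ex (M.map (mxL n β)) k = 1 := fun k h _ => T.ex_top h
  have T' : Tp n β M q' k0 := ⟨H, T.mono, T.pos, T.lt, T.top, T.tau⟩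
  have ad := (T'.dat.same_lsg T.lt.le top (up_sg H)).1
  have := T.dat.same ad fun t _ => by
    rw [lvr_lsg (top _ T.lt.le le_rfl) (up_sg H) sg_zero,
      stp_ext (J := k0) T.lt.le fun k h1 h2 => by rw [top k h1 h2, T.top],
      stp_congr (fun _ _ => rfl) fun k _ hk => show sg' n β M q' k = sg' n β M q k by
        rw [sg', sg', e k hk]]
  rw [TT_lsg, sg_zero, sg_top H, sub_zero, min_self] at this
  rw [opV_eq n β M q' (tilt_ex (n := n) (β := β))]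
  exact this

theorem mem (H : OOk M q') {j : ℕ} (hj : j ≤ M.length) :
    sg' n β M q' j ∈ Icc 0 (oTau n β M M.length + fAcc M M.length) :=
  ⟨sg_zero (n := n) (β := β) (M := M) (q := q') ▸ (up_sg H).le (Nat.zero_le j) hj,
    sg_top (n := n) (β := β) H ▸ (up_sg H).le hj le_rfl⟩

theorem Gs_eq (T : Tp n β M q k0) (H : OOk M q') (e : ∀ j ≤ k0, q' j = q j) {j : ℕ}
    (hj : j ≤ M.length) : Gs n β M q' j = Pr.Gam (ul n β M q k0) (sg' n β M q' j) :=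
  (pi2_opS H hj).trans ((T.same H e).gam _ (mem H hj))

theorem Gn_eq (T : Tp n β M q k0) {j : ℕ} (hj : j ≤ M.length) :
    Hess65.Gn (opS n β M q) j = Pr.GG (ul n β M q k0) (sg' n β M q j) := by
  have hl : (opS n β M q).length = M.length := by rw [opS, List.length_map, opV_length]
  rw [Hess65.Gn_eq (rk_opS T.ook) (hl.symm ▸ hj), Hess65.tm, TT_opV hj]
  exact (T.same T.ook fun _ _ => rfl).gg _ (mem T.ook hj)

theorem GG_le (T : Tp n β M q k0) {t : ℝ} (h1 : sg' n β M q k0 ≤ t)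
    (h2 : t ≤ oTau n β M M.length + fAcc M M.length) :
    Pr.GG (ul n β M q k0) t ≤ Hess65.Gn (opS n β M q) k0 := by
  have D := T.dat
  have := (Pr.platS _ D.ok _ t (D.nn le_rfl) h1 (D.tt.symm ▸ h2) fun s hs => D.lv_top hs).1
  rw [T.Gn_eq T.lt.le]
  refine this.trans (mul_le_of_le_one_left (Pp.Ode3.Gp_nonneg _ _) ?_)
  exact exp_le_one_iff.2 (by linarith)

/-- **the replicon coefficient increases on the top part** -/
theorem mu_ge (T : Tp n β M q k0) {s : ℕ} (h1 : k0 ≤ s) (h2 : s ≤ M.length) :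
    1 - oTau n β M k0 * Hess65.Gn (opS n β M q) k0 ≤
      1 - oTau n β M s * Hess65.Gn (opS n β M q) s := by
  rw [T.tau_top h1, T.tau, T.Gn_eq h2]
  have := T.GG_le ((up_sg T.ook).le h1 h2) (mem T.ook h2).2
  linarith [mul_le_mul_of_nonneg_left this (T.ook.oTau_le n β M.length).1]

theorem incr (T : Tp n β M q k0) {t t' : ℝ} (h1 : sg' n β M q k0 ≤ t) (h : t ≤ t')
    (h2 : t' ≤ oTau n β M M.length + fAcc M M.length) :
    Pr.Gam (ul n β M q k0) t' - Pr.Gam (ul n β M q k0) t ≤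
      Hess65.Gn (opS n β M q) k0 * (t' - t) := by
  have D := T.dat
  have h0 : 0 ≤ t := (D.nn le_rfl).trans h1
  have h3 : t' ≤ R339.Var.TT (ul n β M q k0) := D.tt.symm ▸ h2
  have e := Pp.Ode3.Gam_int D.ap h0 h h3
  have i := Pp.Ode3.ii_of_cont (Pp.Ode3.Gp_cont D.ap) ⟨h0, h.trans h3⟩ ⟨h0.trans h, h3⟩
  have := intervalIntegral.integral_mono_on h i
    (intervalIntegrable_const (c := Hess65.Gn (opS n β M q) k0)) fun r hr =>
      T.GG_le (h1.trans hr.1) (hr.2.trans h2)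
  rw [intervalIntegral.integral_const, smul_eq_mul, mul_comm] at this
  exact e.trans_le this

/-- **the slope hypothesis of `apt_full`** -/
theorem slope (T : Tp n β M q k0) {s : ℕ} (h1 : k0 < s) (h2 : s < M.length) {θ : ℝ}
    (hθ : θ ≤ 1 - oTau n β M k0 * Hess65.Gn (opS n β M q) k0) (r : ℝ) (r1 : q k0 ≤ r) (r2 : r ≤ 1) :
    θ * |r - q s| - |Gs n β M q s - q s| ≤ |Gs n β M (qr M.length (k0 + 1) q r) s - r| := by
  have ht := (T.ook.oTau_le n β M.length).1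
  have eq : qr M.length (k0 + 1) q r s = r := if_pos ⟨h1, h2⟩
  rw [T.Gs_eq T.ook (fun _ _ => rfl) h2.le, T.Gs_eq (ook_qr T.ook r1 r2)
    (fun j hj => if_neg (by omega)) h2.le, sg', sg', eq, T.tau_top h1.le]
  rw [T.tau] at hθ
  set τ := oTau n β M M.length with hτ
  have lo : ∀ x, q k0 ≤ x → sg' n β M q k0 ≤ τ * x + fAcc M s := fun x hx => by
    rw [sg', T.tau]
    exact add_le_add (mul_le_mul_of_nonneg_left hx ht) (fAcc_mono T.ook h1.le)
  have hi : ∀ x, x ≤ 1 → τ * x + fAcc M s ≤ τ + fAcc M M.length := fun x hx =>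
    add_le_add (mul_le_of_le_one_right ht hx) (fAcc_mono T.ook h2.le)
  have q1 := T.ook.le h1.le h2.le
  have q2 := (T.ook.mem h2.le).2
  set a := Pr.Gam (ul n β M q k0) (τ * r + fAcc M s)
  set b := Pr.Gam (ul n β M q k0) (τ * q s + fAcc M s)
  rcases le_total r (q s) with c | c
  · have : b - a ≤ _ := T.incr (lo r r1) (by nlinarith) (hi _ q2)
    rw [abs_of_nonpos (sub_nonpos.2 c)]
    have h3 := mul_le_mul_of_nonneg_right hθ (sub_nonneg.2 c)
    linarith [le_abs_self (a - r), neg_abs_le (b - q s)]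
  · have : a - b ≤ _ := T.incr (lo _ q1) (by nlinarith) (hi _ r2)
    rw [abs_of_nonneg (sub_nonneg.2 c)]
    have h3 := mul_le_mul_of_nonneg_right hθ (sub_nonneg.2 c)
    linarith [neg_abs_le (a - r), le_abs_self (b - q s)]

end Tp

end Crest.Agent.T156.Cas.Mv30

end
end

-- ▼ part T156/MvN_30
section

/-!
# Row 156: the second moment at a reveal node (helper30)

The cubic term of the mean-variance inequality is absorbed with the a priori tail `apt_full`.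
-/

set_option autoImplicit false
set_option linter.unusedSectionVars false

noncomputable section

namespace Crest.Agent.T156.Cas.Mv30

open MeasureTheory Real Set Filter Topology
open Crest.Agent.T157.E Crest.Agent.T157.Casc Crest.Agent.T157.SL
open Crest.Agent.T157.G1 (ov fl)
open Apt7

variable {n : ℕ} {β : ℝ} {M : List (ℝ × ℝ × ℝ)} {q : ℕ → ℝ} {k0 : ℕ}

/-- the a priori tail at the node `s` -/
def TL (n : ℕ) (β : ℝ) (M : List (ℝ × ℝ × ℝ)) (q : ℕ → ℝ) (s p : ℕ) (ρ μ : ℝ) : ℝ :=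
  (72 * pv (fun _ => 1) (M.map (mxL n β)) s ov 0 / ρ ^ 2 + 3 * (24 / ρ) ^ (p + 1) * mo n β M q (p + 1) +
    4 / (n * ρ ^ 3)) / μ

theorem mo_nonneg (hM : Mono 0 (M.map (mxL n β))) (k : ℕ) : 0 ≤ mo n β M q k :=
  Finset.sum_nonneg fun j _ => mul_nonneg (dm_nonneg hM j)
    (pi2_nonneg wt_one90 _ _ (fun _ _ => by positivity) _)

theorem quad {θ x B E : ℝ} (hθ : 0 < θ) (h : θ / 2 * x ^ 2 ≤ x * B + E) :
    x ^ 2 ≤ 4 * B ^ 2 / θ ^ 2 + 4 * E / θ := by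
  have e : 4 * B ^ 2 / θ ^ 2 + 4 * E / θ = (4 * B ^ 2 + 4 * E * θ) / θ ^ 2 := by field_simp
  rw [e, le_div_iff₀ (by positivity)]
  nlinarith [sq_nonneg (θ * x - 2 * B), mul_le_mul_of_nonneg_left h hθ.le]

namespace Tp

theorem th_le (T : Tp n β M q k0) : 1 - oTau n β M k0 * Hess65.Gn (opS n β M q) k0 ≤ 1 := by
  rw [T.Gn_eq T.lt.le]
  exact sub_le_self _ (mul_nonneg (T.ook.oTau_le n β _).1 (Pp.Ode3.Gp_nonneg _ _))

/-- **a priori tail**: beyond `ε` -/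
theorem tail (T : Tp n β M q k0) (hn : 0 < n) {s : ℕ} (h1 : k0 < s) (h2 : s < M.length)
    {θ ε ρ μ : ℝ} {J : Finset ℕ} (p : ℕ) (θ0 : 0 < θ)
    (hθ : θ ≤ 1 - oTau n β M k0 * Hess65.Gn (opS n β M q) k0) (ε1 : ε ≤ 1) (ρ0 : 0 < ρ)
    (hρ : ρ * (24 + 256 * cE n β M) ≤ θ * ε) (hξ : |Gs n β M q s - q s| ≤ θ * ε / 4) (μ0 : 0 < μ)
    (μ1 : μ ≤ 1) (hJ : ∀ j ∈ J, j ≤ k0 ∧ q k0 - ρ / 4 ≤ q j)
    (hJμ : μ ≤ ∑ j ∈ J, dm (M.map (mxL n β)) 0 j) {χ : ℝ → ℝ} (hχ : ∀ u, χ u ≤ 1)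
    (hχ0 : ∀ u, |u - q s| ≤ ε → χ u ≤ 0) : Er n β M s χ ≤ TL n β M q s p ρ μ := by
  have θ1 := hθ.trans T.th_le
  have c0 := cE_nonneg (n := n) (β := β) T.ook
  have cρ := mul_nonneg c0 ρ0.le
  have ρ1 : ρ ≤ 1 := by nlinarith
  have n0 : (0 : ℝ) < n := Nat.cast_pos.2 hn
  obtain ⟨D, D1, D2⟩ : ∃ D : ℕ, 1 / ρ ≤ D ∧ (D : ℝ) ≤ 2 / ρ := ⟨⌈1 / ρ⌉₊, Nat.le_ceil _,
    (Nat.ceil_lt_add_one (by positivity)).le.trans (by
      have : 1 ≤ 1 / ρ := one_le_one_div ρ0 ρ1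
      linarith [show 2 / ρ = 1 / ρ + 1 / ρ by ring])⟩
  have D0 : (0 : ℝ) < D := lt_of_lt_of_le (by positivity) D1
  have d1 : 3 / (D : ℝ) ≤ 3 * ρ := by
    rw [div_le_iff₀ D0]; rw [div_le_iff₀ ρ0] at D1; linarith
  have d2 : ρ / 4 ≤ 1 / (2 * (D : ℝ)) := by
    rw [div_le_div_iff₀ (by norm_num) (by positivity)]; rw [le_div_iff₀ ρ0] at D2; linarith
  have d0 : 0 ≤ 3 / (D : ℝ) := by positivity
  have γ0 : 0 < θ * ε / 2 := by nlinarith
  have h := apt_full hn T.mono T.ook h1 h2 (fun j hj _ => T.dm_top hj) (Nat.cast_pos.1 D0) θ0.le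
    (T.slope h1 h2 hθ) ρ0 p γ0 (ε := ε) (by
      nlinarith [mul_le_mul_of_nonneg_left d1 c0, mul_le_mul_of_nonneg_right θ1 d0])
    μ0 (fun j hj => ⟨(hJ j hj).1.trans h1.le, by linarith [(hJ j hj).2]⟩) hJμ hχ hχ0
  refine h.trans ?_
  have p0 := pv_nonneg wt_one90 (M.map (mxL n β)) s ov 0
  have m0 := mo_nonneg (q := q) T.mono (p + 1)
  rw [TL]
  set P := pv (fun _ => 1) (M.map (mxL n β)) s ov 0
  set m := mo n β M q (p + 1)
  have a1 : 40 * cE n β M * (8 * P / ρ + m / ρ ^ p) / (θ * ε / 2) ≤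
      8 * P / ρ ^ 2 + (24 / ρ) ^ (p + 1) * m := by
    have b1 : 40 * cE n β M / (θ * ε / 2) ≤ 1 / ρ := by
      rw [div_le_div_iff₀ γ0 ρ0]; nlinarith
    have b2 : m / ρ ^ (p + 1) ≤ (24 / ρ) ^ (p + 1) * m := by
      rw [div_pow, div_mul_eq_mul_div]
      exact div_le_div_of_nonneg_right (le_mul_of_one_le_left m0 (one_le_pow₀ (by norm_num)))
        (by positivity)
    have b3 := mul_le_mul_of_nonneg_right b1 (show 0 ≤ 8 * P / ρ + m / ρ ^ p by positivity)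
    have b4 : 1 / ρ * (8 * P / ρ + m / ρ ^ p) = 8 * P / ρ ^ 2 + m / ρ ^ (p + 1) := by
      field_simp; ring
    rw [mul_div_right_comm]
    linarith
  have a2 : 4 * ((D : ℝ) + 3) * D / n / (θ * ε / 2) ≤ 4 / (n * ρ ^ 3) := by
    have b1 : (D : ℝ) * ρ ≤ 2 := (le_div_iff₀ ρ0).1 D2
    have b2 : ((D : ℝ) + 3) * ρ ≤ 5 := by linarith
    have b3 : ((D : ℝ) + 3) * ρ * (D * ρ) ≤ 5 * 2 := mul_le_mul b2 b1 (by positivity) (by norm_num)
    rw [div_div, div_le_div_iff₀ (by positivity) (by positivity)]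
    have b4 := mul_le_mul_of_nonneg_right b3 (mul_nonneg ρ0.le n0.le)
    have b5 := mul_le_mul_of_nonneg_right (show 10 * ρ ≤ θ * ε / 2 by nlinarith) n0.le
    nlinarith
  have a3 : 16 * (D : ℝ) ^ 2 * P + 2 * (12 * (D : ℝ)) ^ (p + 1) * m ≤
      64 * P / ρ ^ 2 + 2 * (24 / ρ) ^ (p + 1) * m := by
    refine add_le_add ?_ (mul_le_mul_of_nonneg_right (mul_le_mul_of_nonneg_left
      (pow_le_pow_left₀ (by positivity) (by linarith [show 24 / ρ = 12 * (2 / ρ) by ring]) _)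
      zero_le_two) m0)
    have := mul_le_mul_of_nonneg_right (pow_le_pow_left₀ D0.le D2 2) p0
    linarith [show (2 / ρ) ^ 2 * P * 16 = 64 * P / ρ ^ 2 by ring]
  have a4 := le_div_self (show 0 ≤ 8 * P / ρ ^ 2 + (24 / ρ) ^ (p + 1) * m + 4 / (n * ρ ^ 3) by
    positivity) μ0 μ1
  have a5 := div_le_div_of_nonneg_right a3 μ0.le
  rw [add_div]
  refine (add_le_add ((add_le_add a1 a2).trans a4) a5).trans_eq ?_
  ring

/-- **the second moment at a reveal node** from the mean-variance inequality `MC` -/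
theorem node_le (T : Tp n β M q k0) (hn : 0 < n) {s : ℕ} (h1 : k0 < s) (h2 : s < M.length)
    {θ C B E ρ μ : ℝ} {J : Finset ℕ} (p : ℕ) (θ0 : 0 < θ)
    (hθ : θ ≤ 1 - oTau n β M k0 * Hess65.Gn (opS n β M q) k0) (C1 : 1 ≤ C) (ρ0 : 0 < ρ)
    (hρ : ρ * (24 + 256 * cE n β M) ≤ θ ^ 2 / (2 * C)) (hξ : |Gs n β M q s - q s| ≤ θ ^ 2 / (8 * C))
    (μ0 : 0 < μ) (μ1 : μ ≤ 1) (hJ : ∀ j ∈ J, j ≤ k0 ∧ q k0 - ρ / 4 ≤ q j)
    (hJμ : μ ≤ ∑ j ∈ J, dm (M.map (mxL n β)) 0 j)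
    (MC : (1 - oTau n β M s * Hess65.Gn (opS n β M q) s) * Er n β M s (fun u => (u - q s) ^ 2) ≤
      √(Er n β M s fun u => (u - q s) ^ 2) * B + E + C * Er n β M s fun u => |u - q s| ^ 3) :
    Er n β M s (fun u => (u - q s) ^ 2) ≤
      4 * B ^ 2 / θ ^ 2 + 4 * (E + 8 * C * TL n β M q s p ρ μ) / θ := by
  have θ1 := hθ.trans T.th_le
  have C0 : 0 < C := by linarith
  have e1 : θ ^ 2 / (2 * C) = θ * (θ / (2 * C)) := by ring
  have ε0 : 0 ≤ θ / (2 * C) := by positivity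
  have h := T.tail hn h1 h2 p θ0 hθ (ε := θ / (2 * C)) (by
    rw [div_le_one (by positivity)]; linarith) ρ0 (e1 ▸ hρ) (hξ.trans_eq (by ring)) μ0 μ1 hJ hJμ
    (χ := fun u => min 1 ((|u - q s| ^ 3 - θ / (2 * C) * (u - q s) ^ 2) / 8))
    (fun u => min_le_left _ _) fun u hu => (min_le_right _ _).trans (by
      have := mul_le_mul_of_nonneg_right hu (sq_nonneg (u - q s))
      rw [pow_succ', sq_abs]
      linarith)
  have u0 : 0 ≤ Er n β M s fun u => (u - q s) ^ 2 :=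
    pi2_nonneg wt_one90 _ _ (fun _ _ => sq_nonneg _) _
  have h3 : Er n β M s (fun u => |u - q s| ^ 3) ≤ θ / (2 * C) * Er n β M s (fun u => (u - q s) ^ 2) +
      8 * Er n β M s fun u => min 1 ((|u - q s| ^ 3 - θ / (2 * C) * (u - q s) ^ 2) / 8) := by
    simp only [Er]
    rw [← pi2_const_mul, ← pi2_const_mul, ← pi2_add wt_one90]
    refine pi2_mono wt_one90 _ _ (fun x y => ?_) _
    have a : |ov x y - q s| ≤ 2 := abs_oU_le T.ook h2.le x y
    have b := pow_le_pow_left₀ (abs_nonneg _) a 3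
    have c := mul_nonneg ε0 (sq_nonneg (ov x y - q s))
    rcases min_choice 1 ((|ov x y - q s| ^ 3 - θ / (2 * C) * (ov x y - q s) ^ 2) / 8) with e | e <;>
      rw [e] <;> linarith
  have h4 := mul_le_mul_of_nonneg_right (hθ.trans (T.mu_ge h1.le h2.le)) u0
  have h5 := mul_le_mul_of_nonneg_left (h3.trans (add_le_add le_rfl
    (mul_le_mul_of_nonneg_left h (by norm_num)))) C0.le
  set u := Er n β M s fun u => (u - q s) ^ 2
  have e2 : C * (θ / (2 * C) * u + 8 * TL n β M q s p ρ μ) =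
      θ / 2 * u + 8 * C * TL n β M q s p ρ μ := by field_simp
  have := quad (x := √u) (B := B) (E := E + 8 * C * TL n β M q s p ρ μ) θ0 (by
    rw [sq_sqrt u0]; linarith)
  rwa [sq_sqrt u0] at this

end Tp

end Crest.Agent.T156.Cas.Mv30

end
end

-- ▼ part T156/MvT_30
section

/-!
# Row 156: MVtop, the second moments on the reveal nodes (helper30)
-/

set_option autoImplicit false
set_option linter.unusedSectionVars false

noncomputable section

namespace Crest.Agent.T156.Cas.C40.Mv30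

open MeasureTheory Real Set Filter Topology
open Crest.Agent.T157.E Crest.Agent.T157.Casc Crest.Agent.T157.SL
open Crest.Agent.T157.G1 (ov fl)
open Apt7 Cas.Mv30 Ex23

/-- the top part starts at the node `P`; replicon `θ`, atom of mass `μ` at distance `d` -/
structure TopD (D : CD) (P : ℕ) (θ μ d : ℝ) : Prop where
  val : D.W = none
  root : 0 < ex D.B 0
  JP : D.J < P
  PK : P < D.K
  one : ex D.B P = 1
  tau : D.τ P = D.τ D.K
  θ0 : 0 < θ
  mu : θ ≤ 1 - D.τ P * Hess65.Gn D.S P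
  X3 : D.X ^ 3 ≤ d
  μ0 : 0 < μ
  atom : ∃ A : Finset ℕ, (∀ j ∈ A, j ≤ P ∧ D.q P - d ≤ D.q j) ∧ μ ≤ ∑ j ∈ A, D.dx j

/-- `E (R - ρ_t)²` -/
abbrev pD (D : CD) (t : ℕ) : ℝ := pv (fun _ => 1) D.B t ov 0
/-- the label inputs -/
def IU (D : CD) : ℝ := D.I (fun j => D.e j ^ 2 * D.u 2 j) + D.I (D.u 4)

variable {D : CD} {τ0 θ μ d : ℝ} {P : ℕ}

theorem u2_eq (D : CD) (j : ℕ) : D.u 2 j = Er D.n D.β D.M j fun u => (u - D.q j) ^ 2 := by
  simp only [CD.u, uM, Er, sq_abs, oU]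

theorem u4_eq (D : CD) (j : ℕ) : D.u 4 j = Er D.n D.β D.M j fun u => (u - D.q j) ^ 4 := by
  simp only [CD.u, uM, Er, (show Even 4 by decide).pow_abs, oU]

theorem TopD.tp (R : TopD D P θ μ d) (H : D.Ok τ0) : Tp D.n D.β D.M D.q P :=
  ⟨H.ook, H.mono, R.root, R.PK, R.one, R.tau⟩

theorem I_sq (H : D.Ok τ0) (a : ℕ → ℝ) : D.I a ^ 2 ≤ D.I fun j => a j ^ 2 := by
  have := Finset.sum_sq_le_sum_mul_sum_of_sq_le_mul D.up (r := fun j => D.dx j * a j) (f := D.dx)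
    (g := fun j => D.dx j * a j ^ 2) (fun j _ => H.dx0 j)
    (fun j _ => mul_nonneg (H.dx0 j) (sq_nonneg _)) fun j _ => le_of_eq (by ring)
  exact this.trans (mul_le_of_le_one_left (H.I0 fun _ _ => sq_nonneg _)
    (H.sum_dx_one fun j hj => (CD.mem_up.1 hj).2.le))

theorem split (H : D.Ok τ0) {f : ℕ → ℝ} {c : ℝ} (hc : 0 ≤ c) (h : ∀ j ≤ D.J, f j ≤ c) :
    ∑ j ∈ Finset.range (D.K + 1), D.dx j * f j ≤ D.X * c + D.I f := by
  have h1 : ∑ j ∈ Finset.range (D.K + 1), D.dx j * f j ≤ ∑ j ∈ Finset.range (D.K + 1),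
      ((if j ≤ D.J then D.dx j else 0) * c + if j ≤ D.J then 0 else D.dx j * f j) :=
    Finset.sum_le_sum fun j _ => by
      split_ifs with e
      · rw [add_zero]; exact mul_le_mul_of_nonneg_left (h j e) (H.dx0 j)
      · simp
  rw [Finset.sum_add_distrib, ← Finset.sum_mul, sum_dx_lo D H.cut,
    sum_up (by rw [H.top, zero_mul])] at h1
  exact h1.trans (add_le_add (mul_le_mul_of_nonneg_right H.x1 hc) le_rfl)

/-- the parity weight -/
def gg (D : CD) (j : ℕ) : ℝ := if j ≤ D.J then D.X else D.e j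

theorem TopD.site (R : TopD D P θ μ d) (H : D.Ok τ0) {s : ℕ} (h1 : P < s) (h2 : s < D.K)
    {τ : GT (Sh.two s)} (hτ : τ.Mem _ D.K) :
    |Zs D.n D.β D.M D.q s τ| ≤ (512 * exp 2 + 4) * gg D τ.j := by
  have X0 : 0 < D.X := R.root.trans_le ((LpR43.ex_mono H.mono (Nat.zero_le _)).trans H.x1)
  have e0 := exp_pos 2
  have JP := R.JP
  have big : ∀ x, 1 ≤ x → |Zs D.n D.β D.M D.q s τ| ≤ (512 * exp 2 + 4) * x := fun x hx =>
    (abs_Zs H.ook h2.le hτ).trans (by nlinarith)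
  have low : ∀ x, 0 < x → x ≤ 1 → τ.j < s → D.sig τ.j ≤ x → D.q τ.j ≤ x →
      |Zs D.n D.β D.M D.q s τ| ≤ (512 * exp 2 + 4) * x := fun x x0 x1 a b c => by
    refine (abs_Zs_low H.ook H.mono h2.le hτ a x0 b).trans ?_
    have : exp (1 / 2 + √x) ≤ exp 2 := exp_le_exp.2 (by linarith [sqrt_le_one.2 x1])
    have := mul_le_mul_of_nonneg_right this x0.le
    rw [Ker15.PB]; push_cast; linarith
  rw [gg]
  split_ifs with c
  · refine low _ X0 H.X1 (by omega) ?_ (by rw [H.qlo _ c]; exact X0.le)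
    rw [CD.sig, H.qlo _ c, mul_zero, zero_add]
    exact ((H.fAcc_mono c).trans H.h1).trans (pow_le_of_le_one X0.le H.X1 (by norm_num))
  · rcases le_or_gt 1 (D.e τ.j) with a | a
    · exact big _ a
    · have b : τ.j < s := by
        by_contra b
        have := H.esc s (CD.mem_up.2 ⟨by omega, h2⟩)
        rw [(R.tp H).ex_top h1.le, min_eq_left (le_add_of_nonneg_right (H.sig0 h2.le))] at this
        linarith [H.e_mono (not_lt.1 b)]
      have m := CD.mem_up.2 ⟨not_le.1 c, b.trans h2⟩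
      refine low _ (X0.trans_le (H.eX _)) a.le b ?_ (H.qe _ m)
      rcases min_le_iff.1 (H.esc _ m) with f | f
      · linarith
      · linarith [H.ex0 τ.j]

theorem R0_parts (H : D.Ok τ0) : D.X ^ 6 + (1 / D.n + D.tl) ≤ 4 * R0 D := by
  have := H.I0 (a := fun j => D.u 5 j) fun j _ => D.u0 5 j
  have h5 : D.tl ≤ (D.K + 1) ^ 2 * D.tl := le_mul_of_one_le_left H.tl0
    (one_le_pow₀ (le_add_of_nonneg_left D.K.cast_nonneg))
  rw [R0]; linarith

/-- the two label sums of `mv_crude` -/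
theorem sums (H : D.Ok τ0) :
    (∑ j ∈ Finset.range (D.K + 1), D.dx j * (gg D j * √(D.u 2 j))) ^ 2 ≤ 32 * (R0 D + IU D) ∧
    (∑ j ∈ Finset.range (D.K + 1), D.dx j * √(D.u 4 j)) ^ 2 ≤ 32 * (R0 D + IU D) := by
  have X0 := H.X0
  have X1 := H.X1
  have t0 := H.tl0
  have n0 : (0 : ℝ) ≤ 1 / D.n := by positivity
  have r := R0_parts H
  have i1 := H.I0 (a := fun j => D.e j ^ 2 * D.u 2 j) fun j _ => mul_nonneg (sq_nonneg _) (D.u0 2 j)
  have i2 := H.I0 (a := D.u 4) fun j _ => D.u0 4 j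
  have X2 : D.X ^ 2 ≤ 1 := pow_le_one₀ X0 X1
  have key : ∀ (f : ℕ → ℝ) (c I : ℝ), (∀ j, 0 ≤ f j) → 0 ≤ c → (∀ j ≤ D.J, f j ≤ c) →
      (D.X * c) ^ 2 ≤ 16 * R0 D → D.I (fun j => f j ^ 2) ≤ IU D →
      (∑ j ∈ Finset.range (D.K + 1), D.dx j * f j) ^ 2 ≤ 32 * (R0 D + IU D) :=
    fun f c _ f0 c0 a b e => by
      have h := pow_le_pow_left₀ (Finset.sum_nonneg fun j _ => mul_nonneg (H.dx0 j) (f0 j))
        (split H c0 a) 2
      have := I_sq H f
      rw [IU] at *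
      nlinarith [sq_nonneg (D.X * c - D.I f)]
  constructor
  · refine key _ (D.X * √(D.X ^ 2 + 1 / D.n + 2 * D.tl)) 0 (fun j => mul_nonneg ?_ (sqrt_nonneg _))
      (by positivity) (fun j hj => ?_) ?_ ?_
    · rw [gg]; split_ifs; exacts [X0, H.e0 j]
    · rw [gg, if_pos hj]
      exact mul_le_mul_of_nonneg_left (sqrt_le_sqrt (by simpa using u_lo H hj 0)) X0
    · rw [mul_pow, mul_pow, sq_sqrt (by positivity)]
      have a := mul_le_of_le_one_left (b := 1 / D.n + 2 * D.tl) (by positivity) X2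
      have b := mul_le_of_le_one_left (b := D.X ^ 2 * (1 / D.n + 2 * D.tl)) (by positivity) X2
      nlinarith [pow_nonneg X0 6]
    · refine le_trans (H.I_mono fun j hj => ?_) (le_add_of_nonneg_right i2)
      rw [gg, if_neg (not_le.2 (CD.mem_up.1 hj).1), mul_pow, sq_sqrt (D.u0 2 j)]
  · refine key _ √(D.X ^ 4 + 1 / D.n + 4 * D.tl) 0 (fun j => sqrt_nonneg _) (sqrt_nonneg _)
      (fun j hj => sqrt_le_sqrt (by simpa using u_lo H hj 2)) ?_ ?_
    · rw [mul_pow, sq_sqrt (by positivity)]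
      have a := mul_le_of_le_one_left (b := 1 / D.n + 4 * D.tl) (by positivity) X2
      nlinarith [pow_nonneg X0 6]
    · refine le_trans (H.I_mono fun j _ => ?_) (le_add_of_nonneg_left i1)
      rw [sq_sqrt (D.u0 4 j)]

theorem ar1 {A θ μ p R m n : ℝ} (A1 : 1 ≤ A) (θ0 : 0 < θ) (θ1 : θ ≤ 1) (μ0 : 0 < μ) (p0 : 0 ≤ p)
    (R0 : 0 ≤ R) (hm : m ≤ 20 * R) (n0 : 0 < n) (hn : 1 / n ≤ 4 * R) :
    (72 * p / (θ ^ 2 / A) ^ 2 + 3 * (24 / (θ ^ 2 / A)) ^ (4 + 1) * m + 4 / (n * (θ ^ 2 / A) ^ 3)) / μ ≤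
      (72 * A ^ 2 + 60 * (24 * A) ^ 5 + 16 * A ^ 3) * (p + R) / (μ * θ ^ 10) := by
  have A0 : 0 < A := by linarith
  have e : (72 * p / (θ ^ 2 / A) ^ 2 + 3 * (24 / (θ ^ 2 / A)) ^ (4 + 1) * m +
      4 / (n * (θ ^ 2 / A) ^ 3)) / μ = (72 * A ^ 2 * (θ ^ 6 * p) + 3 * (24 * A) ^ 5 * m +
        4 * A ^ 3 * (θ ^ 4 * (1 / n))) / (μ * θ ^ 10) := by
    rw [show 4 + 1 = 5 from rfl]; field_simp
  rw [e]
  refine div_le_div_of_nonneg_right ?_ (by positivity)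
  have a := mul_le_of_le_one_left p0 (pow_le_one₀ (n := 6) θ0.le θ1)
  have b := (mul_le_of_le_one_left (show 0 ≤ 1 / n by positivity)
    (pow_le_one₀ (n := 4) θ0.le θ1)).trans hn
  have a' := mul_le_mul_of_nonneg_left a (show 0 ≤ 72 * A ^ 2 by positivity)
  have b' := mul_le_mul_of_nonneg_left b (show 0 ≤ 4 * A ^ 3 by positivity)
  have c' := mul_le_mul_of_nonneg_left hm (show 0 ≤ 3 * (24 * A) ^ 5 by positivity)
  have : 0 ≤ 72 * A ^ 2 * R + (60 * (24 * A) ^ 5 + 16 * A ^ 3) * p := by positivity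
  linarith

theorem ar2 {u B E T θ μ p R I a b c k z : ℝ} (θ0 : 0 < θ) (θ1 : θ ≤ 1) (μ0 : 0 < μ) (μ1 : μ ≤ 1)
    (p0 : 0 ≤ p) (R0 : 0 ≤ R) (I0 : 0 ≤ I) (a0 : 0 ≤ a) (b0 : 0 ≤ b) (c0 : 0 ≤ c) (k0 : 0 ≤ k)
    (z0 : 0 ≤ z) (h : u ≤ 4 * B ^ 2 / θ ^ 2 + 4 * (E + 8 * c * T) / θ) (hB : B ^ 2 ≤ a * (R + I))
    (hE : E ≤ b * (p + R)) (hT : T ≤ k * (p + R) / (μ * θ ^ 10)) :
    u ≤ (z + 4 * a + 4 * (b + 8 * c * k)) * (I / θ ^ 2 + (p + R) / (μ * θ ^ 11)) := by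
  have l : ∀ i : ℕ, μ * θ ^ i ≤ 1 := fun i => mul_le_one₀ μ1 (by positivity) (pow_le_one₀ θ0.le θ1)
  have h1 : R / θ ^ 2 ≤ (p + R) / (μ * θ ^ 11) := by
    refine div_le_div₀ (by positivity) (by linarith) (by positivity) ?_
    have := mul_le_mul_of_nonneg_right (l 9) (sq_nonneg θ)
    linarith [show μ * θ ^ 9 * θ ^ 2 = μ * θ ^ 11 by ring]
  have h2 := hE.trans (mul_le_mul_of_nonneg_left
    (le_div_self (show 0 ≤ p + R by positivity) (by positivity) (l 10)) b0)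
  have h3 : 4 * (E + 8 * c * T) / θ ≤ 4 * (b + 8 * c * k) * ((p + R) / (μ * θ ^ 11)) := by
    rw [div_le_iff₀ θ0, show 4 * (b + 8 * c * k) * ((p + R) / (μ * θ ^ 11)) * θ =
      4 * (b * ((p + R) / (μ * θ ^ 10)) + 8 * c * (k * (p + R) / (μ * θ ^ 10))) by field_simp]
    linarith [mul_le_mul_of_nonneg_left hT (show 0 ≤ 8 * c by positivity)]
  have h4 : 4 * B ^ 2 / θ ^ 2 ≤ 4 * a * (R / θ ^ 2 + I / θ ^ 2) := by
    rw [← add_div, ← mul_div_assoc]
    exact div_le_div_of_nonneg_right (by linarith) (by positivity)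
  have h5 := mul_le_mul_of_nonneg_left h1 a0
  have i0 : 0 ≤ I / θ ^ 2 := by positivity
  have i1 : 0 ≤ (p + R) / (μ * θ ^ 11) := by positivity
  have := mul_nonneg z0 (add_nonneg i0 i1)
  have := mul_nonneg (show 0 ≤ b + 8 * c * k by positivity) i0
  linarith

theorem sq3 (x y z : ℝ) : (x + y + z) ^ 2 ≤ 3 * (x ^ 2 + y ^ 2 + z ^ 2) := by
  nlinarith [sq_nonneg (x - y), sq_nonneg (y - z), sq_nonneg (x - z)]

theorem R0_nonneg (H : D.Ok τ0) : 0 ≤ R0 D := by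
  have := R0_parts H
  have := H.tl0
  have : 0 ≤ D.X ^ 6 + 1 / (D.n : ℝ) := by positivity
  linarith

theorem IU_nonneg (H : D.Ok τ0) : 0 ≤ IU D :=
  add_nonneg (H.I0 fun j _ => mul_nonneg (sq_nonneg _) (D.u0 2 j)) (H.I0 fun j _ => D.u0 4 j)

set_option maxHeartbeats 1000000 in
/-- **MVtop at one node** -/
theorem mv_node (τ0 : ℝ) : ∃ C, 1 ≤ C ∧ ∀ (D : CD) (P : ℕ) (θ μ : ℝ), D.Ok τ0 →
    TopD D P θ μ (θ ^ 2 / C) → ∀ s, P < s → s < D.K →
      D.u 2 s ≤ C * (IU D / θ ^ 2 + (pD D s + R0 D) / (μ * θ ^ 11)) := by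
  obtain ⟨t, ht⟩ : ∃ t, t = |τ0| := ⟨_, rfl⟩
  have t0 : 0 ≤ t := ht ▸ abs_nonneg _
  obtain ⟨c1, e1⟩ : ∃ c, c = 50 + 92160 * t * exp (468 * t) := ⟨_, rfl⟩
  obtain ⟨c0, e0⟩ : ∃ c, c = 3 * t * exp (216 * t) := ⟨_, rfl⟩
  obtain ⟨cg, eg⟩ : ∃ c, c = t * (512 * exp 2 + 4) := ⟨_, rfl⟩
  have p1 : 0 ≤ c1 := by rw [e1]; positivity
  have p0 : 0 ≤ c0 := by rw [e0]; positivity
  have pg : 0 ≤ cg := by rw [eg]; positivity
  obtain ⟨C, eC⟩ : ∃ c, c = 1 + 3 * c1 * t := ⟨_, rfl⟩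
  have C1 : 1 ≤ C := by rw [eC]; exact le_add_of_nonneg_right (by positivity)
  obtain ⟨A, eA⟩ : ∃ c, c = 2 * C * (24 + 256 * c0) := ⟨_, rfl⟩
  have A1 : 2 * C ≤ A := by rw [eA]; exact le_mul_of_one_le_right (by linarith) (by linarith)
  have A0 : 0 < A := by linarith
  have z0 : 0 ≤ 4 * (12 + 96 * (400 * cg ^ 2 + (c1 * t) ^ 2)) +
    4 * (8 + 64 * t + 8 * C * (72 * A ^ 2 + 60 * (24 * A) ^ 5 + 16 * A ^ 3)) := by positivity
  refine ⟨4 * A + 4 * (12 + 96 * (400 * cg ^ 2 + (c1 * t) ^ 2)) +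
    4 * (8 + 64 * t + 8 * C * (72 * A ^ 2 + 60 * (24 * A) ^ 5 + 16 * A ^ 3)), by linarith,
    fun D P θ μ H R s h1 h2 => ?_⟩
  have T := R.tp H
  have θ0 := R.θ0
  have θ1 := R.mu.trans T.th_le
  obtain ⟨J, hJ, hμ⟩ := R.atom
  have μ1 : μ ≤ 1 := hμ.trans (H.sum_dx_one fun j hj => (hJ j hj).1.trans R.PK.le)
  have τ1 : ∀ j, D.τ j ≤ t := fun j => (H.tau_mem j).2.trans (ht ▸ le_abs_self _)
  have τ0' := (H.tau_mem D.K).1
  have b1 : cM D.n D.β D.M ≤ c1 := by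
    rw [e1, cM]; have := τ1 D.K; gcongr
  have b1' : 0 ≤ cM D.n D.β D.M := by rw [cM]; positivity
  have b0 : cE D.n D.β D.M ≤ c0 := by
    rw [e0, cE]; have := τ1 D.K; gcongr
  have hd : ∀ y, 0 < y → y ≤ 4 * A → ∀ x, x ≤ θ ^ 2 / (4 * A + 4 * (12 + 96 * (400 * cg ^ 2 +
      (c1 * t) ^ 2)) + 4 * (8 + 64 * t + 8 * C * (72 * A ^ 2 + 60 * (24 * A) ^ 5 + 16 * A ^ 3))) →
      x ≤ θ ^ 2 / y := fun y y0 y1 x hx =>
    hx.trans (div_le_div_of_nonneg_left (sq_nonneg _) y0 (by linarith))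
  have ξ : |Gs D.n D.β D.M D.q s - D.q s| ≤ D.X ^ 3 :=
    H.stt R.val s (CD.mem_up.2 ⟨R.JP.trans h1, h2⟩)
  have g0 : ∀ j, 0 ≤ gg D j := fun j => by rw [gg]; split_ifs; exacts [H.X0, H.e0 j]
  have u0 : ∀ j, 0 ≤ Er D.n D.β D.M j fun u => (u - D.q j) ^ 2 := fun j => u2_eq D j ▸ D.u0 2 j
  have mc := (le_abs_self _).trans (mv_crude H.pos H.ook H.mono h2 (T.dm_top h1)
    (g := fun j => cg * gg D j) (a := fun j => √(D.u 2 j)) (v := fun j => √(D.u 4 j))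
    (sqrt_nonneg _) (fun j => mul_nonneg pg (g0 j)) (fun τ hτ _ => by
      rw [eg, mul_assoc]
      exact mul_le_mul (τ1 _) (R.site H h1 h2 hτ) (abs_nonneg _) t0)
    (sq_sqrt (u0 s)).ge (fun _ => sqrt_nonneg _) (fun y _ _ => by
      rw [sq_sqrt (D.u0 2 y), u2_eq]) (fun _ => sqrt_nonneg _) fun y _ _ => by
      rw [sq_sqrt (D.u0 4 y), u4_eq])
  have u3 : 0 ≤ Er D.n D.β D.M s fun u => |u - D.q s| ^ 3 :=
    pi2_nonneg wt_one90 _ _ (fun _ _ => by positivity) _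
  have pp : 0 ≤ pD D s := pv_nonneg wt_one90 _ _ _ _
  have r0 := R0_nonneg H
  have i0 := IU_nonneg H
  have rp := R0_parts H
  have h := T.node_le H.pos h1 h2 4 θ0 R.mu C1 (ρ := θ ^ 2 / A) (by positivity) (by
    rw [div_mul_eq_mul_div, div_le_div_iff₀ A0 (by linarith), eA]
    have := mul_le_mul_of_nonneg_left b0 (mul_nonneg (sq_nonneg θ) (show 0 ≤ C by linarith))
    linarith) (ξ.trans (hd _ (by linarith) (by linarith) _ R.X3)) R.μ0 μ1 (fun j hj =>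
      ⟨(hJ j hj).1, by
        have := hd _ (by positivity) le_rfl _ le_rfl
        rw [div_div, mul_comm A]
        linarith [(hJ j hj).2]⟩) hμ
    ((mc.trans_eq (congrArg (· + _) (add_assoc _ _ _))).trans (add_le_add le_rfl
      (mul_le_mul_of_nonneg_right (by
        have := mul_le_mul b1 (τ1 D.K) τ0' p1
        linarith) u3)))
  rw [← u2_eq] at h
  obtain ⟨s1, s2⟩ := sums H
  refine ar2 θ0 θ1 R.μ0 μ1 pp r0 i0 (by positivity) (by positivity) (by linarith) (by positivity)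
    (by positivity) h ?_ ?_
    (ar1 (by linarith) θ0 θ1 R.μ0 pp r0 (momU_le H) (Nat.cast_pos.2 H.pos) (n_le_R0 H))
  · have a1 : ∑ j ∈ Finset.range (D.K + 1), D.dx j * (cg * gg D j * √(D.u 2 j)) =
        cg * ∑ j ∈ Finset.range (D.K + 1), D.dx j * (gg D j * √(D.u 2 j)) := by
      rw [Finset.mul_sum]; exact Finset.sum_congr rfl fun j _ => by ring
    have a2 : ∑ j ∈ Finset.range (D.K + 1), D.dx j * (D.τ j * √(D.u 4 j)) ≤
        t * ∑ j ∈ Finset.range (D.K + 1), D.dx j * √(D.u 4 j) := by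
      rw [Finset.mul_sum]
      exact Finset.sum_le_sum fun j _ => (mul_le_mul_of_nonneg_left
        (mul_le_mul_of_nonneg_right (τ1 j) (sqrt_nonneg _)) (H.dx0 j)).trans_eq (by ring)
    have a3 : 0 ≤ ∑ j ∈ Finset.range (D.K + 1), D.dx j * (D.τ j * √(D.u 4 j)) :=
      Finset.sum_nonneg fun j _ => mul_nonneg (H.dx0 j) (mul_nonneg (H.tau_mem j).1 (sqrt_nonneg _))
    have a4 := pow_le_pow_left₀ (mul_nonneg b1' a3) (mul_le_mul b1 a2 a3 p1) 2
    have a5 := pow_le_pow_left₀ (abs_nonneg _) ξ 2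
    have a6 := mul_le_mul_of_nonneg_left s1 (sq_nonneg cg)
    have a7 := mul_le_mul_of_nonneg_left s2 (sq_nonneg (c1 * t))
    have a8 : 0 ≤ 1 / (D.n : ℝ) + D.tl := add_nonneg (by positivity) H.tl0
    refine (sq3 _ _ _).trans ?_
    erw [a1]
    linarith
  · have := mul_le_mul_of_nonneg_right (τ1 D.K) pp
    have := n_le_R0 H
    have := mul_nonneg t0 r0
    rw [show 2 / (D.n : ℝ) = 2 * (1 / D.n) by ring]
    linarith

theorem u2_le (H : D.Ok τ0) {j : ℕ} (hj : j ≤ D.K) : D.u 2 j ≤ 4 :=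
  (pi2_mono wt_one90 _ _ (K' := fun _ _ => 4) (fun x y => by
    have := pow_le_pow_left₀ (abs_nonneg _) (abs_oU_le H.ook hj x y) 2
    linarith) _).trans_eq (pi2_const wt_one90 _ _ _ _)

open Alt Alt.Md67 Alt.CIn12

/-- the reveal levels of the model: field steps in `[σ, 1 / m]`, at most `2 ^ K` of them -/
structure Lw (M : Md) (m j0 K : ℕ) (σ : ℝ) : Prop where
  σ0 : 0 < σ
  lo : ∀ i, j0 ≤ i → i < M.N → σ ≤ M.H (i + 1) - M.H i
  hi : ∀ i, j0 ≤ i → i < M.N → (M.H (i + 1) - M.H i) * m ≤ 1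
  tot : M.H M.N - M.H j0 ≤ 2 ^ K * σ

/-- the bound per unit of weight -/
def mvA (D : CD) (θ μ : ℝ) : ℝ := IU D / θ ^ 2 + R0 D / (μ * θ ^ 11)

/-- conclusions of MVtop: `D` is the datum of the model `M`, top part from the profile node `j0` -/
structure MVt (C : ℝ) (D : CD) (M : Md) (m : ℕ) (a : ℝ) (ρ : ℕ → ℝ) (j0 K : ℕ) (σ θ μ : ℝ) :
    Prop where
  /-- (MV), weights on the reveal nodes -/
  sum : ∀ (c : ℕ → ℝ) (cm : ℝ), 0 ≤ cm → (∀ t ∈ Finset.Ioo (j0 + 1) D.K, 0 ≤ c t ∧ c t ≤ cm) →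
    ∑ t ∈ Finset.Ioo (j0 + 1) D.K, c t * D.u 2 t ≤
      C * ((∑ t ∈ Finset.Ioo (j0 + 1) D.K, c t) * mvA D θ μ +
        4 * (K + 2) ^ 2 * (cm / (σ * m)) / (μ * θ ^ 11))
  /-- (MV), the first and the last node are free -/
  sum' : ∀ (c : ℕ → ℝ) (cm : ℝ), 0 ≤ cm → (∀ t ∈ Finset.Ico (j0 + 1) D.K, 0 ≤ c t) →
    (∀ t, j0 + 1 < t → t + 1 < D.K → c t ≤ cm) →
    ∑ t ∈ Finset.Ico (j0 + 1) D.K, c t * D.u 2 t ≤ 4 * (c (j0 + 1) + c (D.K - 1)) +
      C * ((∑ t ∈ Finset.Ico (j0 + 1) D.K, c t) * mvA D θ μ +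
        4 * (K + 2) ^ 2 * (cm / (σ * m)) / (μ * θ ^ 11))
  /-- (Vtop) -/
  top : ∀ U : ℕ, 0 < U → j0 + U < M.N → ∀ k ≤ j0 + 1, M.rb m a k ≤ ρ (j0 + U) +
    √(C * (mvA D θ μ + 4 * (K + 2) ^ 2 * (1 / (σ * m)) / (μ * θ ^ 11) / U))

/-- **MVtop** -/
theorem mvTop (τ0 : ℝ) : ∃ C, 1 ≤ C ∧ ∀ (M : Md) (m : ℕ) (a : ℝ) (ρ : ℕ → ℝ) (J : ℕ) (E : Ev)
    (j0 K : ℕ) (σ θ μ : ℝ), Lg M m a → (cd M m a ρ J none E).Ok τ0 →
    TopD (cd M m a ρ J none E) (j0 + 1) θ μ (θ ^ 2 / C) → Lw M m j0 K σ →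
    MVt C (cd M m a ρ J none E) M m a ρ j0 K σ θ μ := by
  obtain ⟨C, C1, h⟩ := mv_node τ0
  refine ⟨C, C1, fun M m a ρ J E j0 K σ θ μ G H R L => ?_⟩
  have h := h _ _ θ μ H R
  have eK := cd_K M m a ρ J none E
  have eq : ∀ k, J ≤ k → k < M.N → (cd M m a ρ J none E).q (k + 1) = ρ k := fun k h1 h2 =>
    (qx_succ h2).trans (cq_ge h1)
  have ep : ∀ k, pD (cd M m a ρ J none E) (k + 1) = pM M m a k := fun _ => rfl
  have er := cd_rb M m a ρ J none E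
  have eJ : J ≤ j0 := Nat.lt_succ_iff.1 R.JP
  have z1 : M.z j0 = 1 := (ex_succ G.toLeg j0).symm.trans R.one
  generalize cd M m a ρ J none E = D at *
  have hN : j0 < M.N := by have := R.PK; omega
  have θ0 := R.θ0
  have μ0 := R.μ0
  have C0 : 0 ≤ C := by linarith
  have A0 : 0 ≤ mvA D θ μ := by
    have := IU_nonneg H
    have := R0_nonneg H
    rw [mvA]; positivity
  have S : ∀ (c : ℕ → ℝ) (cm : ℝ), 0 ≤ cm → (∀ t ∈ Finset.Ioo (j0 + 1) D.K, 0 ≤ c t ∧ c t ≤ cm) →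
      ∑ t ∈ Finset.Ioo (j0 + 1) D.K, c t * D.u 2 t ≤
        C * ((∑ t ∈ Finset.Ioo (j0 + 1) D.K, c t) * mvA D θ μ +
          4 * (K + 2) ^ 2 * (cm / (σ * m)) / (μ * θ ^ 11)) := fun c cm c0 hc => by
    have l := legs G (c := fun k => c (k + 1)) L.σ0 hN z1 L.lo L.hi L.tot c0 fun k hk =>
      hc _ (by rw [Finset.mem_Ioo] at hk ⊢; omega)
    have e : ∑ t ∈ Finset.Ioo (j0 + 1) D.K, c t * pD D t =
        ∑ k ∈ Finset.Ioo j0 M.N, c (k + 1) * pM M m a k := by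
      rw [eK, sum_Ioo]; simp only [ep]; rfl
    refine (Finset.sum_le_sum fun t ht => mul_le_mul_of_nonneg_left
      (h t (Finset.mem_Ioo.1 ht).1 (Finset.mem_Ioo.1 ht).2) (hc t ht).1).trans ?_
    refine le_trans (le_of_eq ?_) (mul_le_mul_of_nonneg_left (add_le_add le_rfl
      (div_le_div_of_nonneg_right (e.trans_le l) (by positivity))) C0)
    rw [Finset.sum_mul, Finset.sum_div, ← Finset.sum_add_distrib, Finset.mul_sum]
    exact Finset.sum_congr rfl fun t _ => by rw [mvA]; ring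
  refine ⟨S, fun c cm c0 hc hc' => ?_, fun U U0 hU k hk => ?_⟩
  · have s := S (fun t => if t = D.K - 1 then 0 else c t) cm c0 fun t ht => by
      have := Finset.mem_Ioo.1 ht
      split_ifs with e
      exacts [⟨le_rfl, c0⟩, ⟨hc t (Finset.mem_Ico.2 ⟨this.1.le, this.2⟩), hc' t this.1 (by omega)⟩]
    have m1 : j0 + 1 ∈ Finset.Ico (j0 + 1) D.K := Finset.mem_Ico.2 ⟨le_rfl, R.PK⟩
    have m2 : D.K - 1 ∈ Finset.Ico (j0 + 1) D.K := Finset.mem_Ico.2 ⟨by omega, by omega⟩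
    have a1 := mul_le_mul_of_nonneg_left (u2_le H R.PK.le) (hc _ m1)
    have a2 := mul_le_mul_of_nonneg_left (u2_le H (Nat.sub_le D.K 1)) (hc _ m2)
    have a3 : ∑ t ∈ Finset.Ioo (j0 + 1) D.K, c t * D.u 2 t ≤ ∑ t ∈ Finset.Ioo (j0 + 1) D.K,
        (if t = D.K - 1 then 0 else c t) * D.u 2 t + c (D.K - 1) * D.u 2 (D.K - 1) := by
      refine le_trans (le_of_eq ?_) (add_le_add le_rfl (show ∑ t ∈ Finset.Ioo (j0 + 1) D.K,
        (if t = D.K - 1 then c t * D.u 2 t else 0) ≤ _ from ?_))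
      · rw [← Finset.sum_add_distrib]
        exact Finset.sum_congr rfl fun t _ => by split_ifs <;> simp
      · rw [Finset.sum_ite_eq']
        split_ifs
        exacts [le_rfl, mul_nonneg (hc _ m2) (D.u0 _ _)]
    have a4 : ∑ t ∈ Finset.Ioo (j0 + 1) D.K, (if t = D.K - 1 then 0 else c t) ≤
        ∑ t ∈ Finset.Ico (j0 + 1) D.K, c t :=
      (Finset.sum_le_sum fun t ht => by
        split_ifs
        exacts [hc t (Finset.Ioo_subset_Ico_self ht), le_rfl]).trans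
        (Finset.sum_le_sum_of_subset_of_nonneg Finset.Ioo_subset_Ico_self fun t ht _ => hc t ht)
    have a5 := mul_le_mul_of_nonneg_left (mul_le_mul_of_nonneg_right a4 A0) C0
    rw [← Finset.Ioo_insert_left R.PK, Finset.sum_insert (by simp), Finset.Ioo_insert_left R.PK]
    linarith
  · have sub : Finset.Ioc (j0 + 1) (j0 + 1 + U) ⊆ Finset.Ioo (j0 + 1) D.K := fun t ht => by
      rw [Finset.mem_Ioc] at ht; rw [Finset.mem_Ioo]; omega
    have s := S (fun t => if t ∈ Finset.Ioc (j0 + 1) (j0 + 1 + U) then 1 else 0) 1 zero_le_one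
      fun t _ => by split_ifs <;> norm_num
    simp only [ite_mul, one_mul, zero_mul, Finset.sum_ite_mem, Finset.inter_eq_right.2 sub,
      Finset.sum_const, Nat.card_Ioc, Nat.add_sub_cancel_left, nsmul_eq_mul, mul_one] at s
    have U1 : (0 : ℝ) < U := Nat.cast_pos.2 U0
    rcases le_total (M.rb m a k) (ρ (j0 + U)) with c | c
    · exact c.trans (le_add_of_nonneg_right (sqrt_nonneg _))
    have b := Finset.card_nsmul_le_sum (Finset.Ioc (j0 + 1) (j0 + 1 + U)) (D.u 2)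
      ((M.rb m a k - ρ (j0 + U)) ^ 2) fun t ht => by
        rw [Finset.mem_Ioc] at ht
        obtain ⟨i, rfl⟩ : ∃ i, t = i + 1 := ⟨t - 1, by omega⟩
        refine le_trans (pow_le_pow_left₀ (sub_nonneg.2 c) ?_ 2) (R85.del_sq_le D _)
        have b1 := H.ook.le (show i + 1 ≤ j0 + U + 1 by omega) (show j0 + U + 1 ≤ D.K by omega)
        rw [eq (j0 + U) (by omega) hU] at b1
        rw [CD.del, er]
        linarith [rb_mono (M := M) (a := a) G.m0 (show k ≤ i by omega)]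
    rw [Nat.card_Ioc, Nat.add_sub_cancel_left, nsmul_eq_mul] at b
    refine sub_le_iff_le_add'.1 (le_sqrt_of_sq_le (le_of_mul_le_mul_left ((b.trans s).trans_eq ?_) U1))
    field_simp

end Crest.Agent.T156.Cas.C40.Mv30

end
end

-- ▼ part T156/MvC_30

/-!
# Row 156: MVtop on the class `Alt.Cl` (helper30)
-/

set_option autoImplicit false
set_option linter.unusedSectionVars false

noncomputable section

namespace Crest.Agent.T156.Cas.C40.Mv30

open MeasureTheory Real Set Filter Topology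
open Crest.Agent.T157.E Crest.Agent.T157.Casc Crest.Agent.T157.SL
open Apt7 Cas.Mv30 Ex23 Alt Alt.Md67 Alt.CIn12

variable {S : Sc} {M : Md} {m J K : ℕ} {a θ d : ℝ} {E : Ev}

theorem d_top (h : Cl S M) {k : ℕ} (h1 : S.Jp ≤ k) (h2 : k ≤ M.N) : M.d k = M.b :=
  le_antisymm (d_le_b h.leg h2) (h.wmk.1 ▸ h.leg.dm (by have := h.i2; have := h.i3; omega))

theorem ms_pos (h : Cl S M) (hn : 0 < S.n) {t : ℝ} (ht : 0 ≤ t) : 0 < S.ms t :=
  (rpow_pos_of_pos (Nat.cast_pos.2 hn) _).trans_le (h.ms0.trans (h.msm ht))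

/-- field steps on the reveal levels -/
theorem dH_top (h : Cl S M) {k : ℕ} (h1 : S.Jp ≤ k) (h2 : k < M.N) :
    M.H (k + 1) - M.H k = M.s (k + 1) - M.s k - M.b * (M.q (k + 1) - M.q k) ∧
      S.ms (M.s S.Jp) / S.C * (M.s (k + 1) - M.s k) ≤ M.H (k + 1) - M.H k := by
  have a1 := h.Grv k h1 h2.le
  have a2 := h.Grv (k + 1) (by omega) h2
  rw [← a1, Md.G, Md.G, d_top h h1 h2.le, d_top h (k := k + 1) (by omega) h2] at a2
  have s0 := s_nonneg h S.Jp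
  have m1 := s_mem h h2.le
  have m2 := s_mem h (k := k + 1) h2
  have sl := h.sm (Nat.le_succ k)
  have i := intervalIntegral.integral_mono_on sl
    (Pp.Ode3.ii_of_cont (Pp.Ode3.Gp_cont (lr_ap h)) m1 m2)
    (intervalIntegrable_const (c := Pr.GG M.lr (M.s S.Jp))) fun r hr =>
      (Pr.platS _ h.ok _ r s0 ((h.sm h1).trans hr.1) (hr.2.trans m2.2) h.lv1).1.trans
        (mul_le_of_le_one_left (Pp.Ode3.Gp_nonneg _ _)
          (exp_le_one_iff.2 (by linarith [h.sm h1, hr.1])))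
  rw [intervalIntegral.integral_const, smul_eq_mul] at i
  have e : M.q (k + 1) - M.q k ≤ _ := (Pp.Ode3.Gam_int (lr_ap h) m1.1 sl m2.2).trans_le i
  have c := mul_le_mul_of_nonneg_right (h.crit _ ⟨s0, le_rfl⟩).1 (sub_nonneg.2 sl)
  have := mul_le_mul_of_nonneg_left e (d_nonneg h.leg M.N)
  rw [Md.e] at c
  rw [show M.d M.N = M.b from rfl] at this
  constructor <;> linarith

theorem dH_le (h : Cl S M) {k : ℕ} (h1 : S.Jp ≤ k) (h2 : k < M.N) :
    M.H (k + 1) - M.H k ≤ S.C * S.v := by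
  have : 0 ≤ M.b * (M.q (k + 1) - M.q k) :=
    mul_nonneg (d_nonneg h.leg M.N) (sub_nonneg.2 (q_mono h (Nat.le_succ k) h2))
  linarith [(dH_top h h1 h2).1, (h.sr k h1 h2).2]

theorem v_pos (h : Cl S M) (hn : 0 < S.n) : 0 < S.v := by
  have := (one_div_pos.2 (show 0 < S.C by linarith [h.C1])).trans_le h.v1
  exact (pos_iff_pos_of_mul_pos this).2 (by positivity)

/-- the reveal grid -/
theorem lw_cl (h : Cl S M) (hn : 0 < S.n)
    (hv : ∀ k, S.Jp ≤ k → k < M.N → S.v / S.C ≤ M.s (k + 1) - M.s k) (hm : S.C * S.v * m ≤ 1)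
    (hK : S.C * S.A * log S.n ≤ 2 ^ K * (S.ms (M.s S.Jp) * S.v / S.C ^ 2)) :
    Lw M m S.Jp K (S.ms (M.s S.Jp) * S.v / S.C ^ 2) := by
  have C0 : 0 < S.C := by linarith [h.C1]
  have m0 := ms_pos h hn (s_nonneg h S.Jp)
  have v0 := v_pos h hn
  refine ⟨by positivity, fun i h1 h2 => le_trans (le_trans (le_of_eq (by field_simp))
    (mul_le_mul_of_nonneg_left (hv i h1 h2) (by positivity))) (dH_top h h1 h2).2,
    fun i h1 h2 => (mul_le_mul_of_nonneg_right (dH_le h h1 h2) m.cast_nonneg).trans hm, ?_⟩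
  linarith [h.HN, H_nonneg h.leg S.Jp]

/-- the top part -/
theorem topD_cl (h : Cl S M) (ha : 0 < a) (hJ : J ≤ S.J) (θ0 : 0 < θ)
    (hθ : θ ≤ 1 - tp M m S.Jp * Hess65.Gn (cd M m a M.q J none E).S (S.Jp + 1))
    (hX : E.X ^ 3 ≤ d) (hd : M.s S.Jp - M.s S.J ≤ d) :
    TopD (cd M m a M.q J none E) (S.Jp + 1) θ (1 / S.C) d := by
  have i3 := h.i3
  have i4 := h.i4
  have i2 := h.i2
  have eq : ∀ k, J ≤ k → k < M.N → (cd M m a M.q J none E).q (k + 1) = M.q k := fun k h1 h2 =>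
    (qx_succ h2).trans (cq_ge h1)
  refine ⟨rfl, ha, Nat.lt_succ_of_le (hJ.trans i3), by rw [cd_K]; omega,
    (ex_succ h.leg _).trans (h.top _ le_rfl), ?_, θ0, ?_, hX, one_div_pos.2 (by linarith [h.C1]),
    Finset.Ioc S.J (S.Jp + 1), fun j hj => ?_, ?_⟩
  · refine (oTau_tp i4.le).trans (Eq.trans ?_ oTau_top.symm)
    rw [tp, tp, d_top h le_rfl i4.le]; rfl
  · exact hθ.trans_eq (by rw [← oTau_tp (a := a) i4.le]; rfl)
  · rw [Finset.mem_Ioc] at hj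
    obtain ⟨k, rfl⟩ : ∃ k, j = k + 1 := ⟨j - 1, by omega⟩
    rw [eq _ (by omega) i4, eq k (by omega) (by omega)]
    have := q_lip h (show k ≤ S.Jp by omega) i4.le
    exact ⟨hj.2, by linarith [h.sm (show S.J ≤ k by omega)]⟩
  · rw [← Finset.Ico_add_one_add_one_eq_Ioc, ← Finset.sum_Ico_add' _ S.J (S.Jp + 1) 1]
    simp only [cd_dx]
    have := sum_dz (m := m) (a := a) h.leg (show S.J - 1 ≤ S.Jp by omega)
    rw [← Finset.Ico_add_one_add_one_eq_Ioc, Nat.sub_add_cancel (by omega), h.top _ le_rfl] at this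
    linarith [h.atom.2]

theorem ds_le (h : Cl S M) (G : Lg M m a) (hJ : J ≤ S.J) {k : ℕ} (h1 : S.Jp ≤ k) (h2 : k < M.N) :
    R85.ds (cd M m a M.q J none E) (k + 1) ≤
      S.C * S.v + if k + 1 < M.N then 0 else S.C * (1 - M.q k) := by
  have i3 := h.i3
  have t1 : ∀ i, S.Jp ≤ i → i ≤ M.N → tp M m i = tp M m M.N := fun i a b => by
    rw [tp, tp, d_top h a b]; rfl
  have t2 : tp M m M.N ≤ M.b := (tp_mem h.leg _).2.1
  rw [R85.ds, cd_sig m _ _ E G.toLeg (k := k) (by omega) h2, t1 k h1 h2.le]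
  split_ifs with c
  · rw [cd_sig m _ _ E G.toLeg (by omega) c, t1 _ (by omega) h2]
    have := mul_le_mul_of_nonneg_right t2 (sub_nonneg.2 (q_mono h (show k ≤ k + 1 by omega) h2))
    linarith [(dH_top h h1 h2).1, (h.sr k h1 h2).2]
  · have e : k + 1 = M.N := by omega
    rw [CD.sig, cd_tau m a _ _ E h2, show (cd M m a M.q J none E).q (k + 1 + 1) = 1 from
      qx_top e.ge, show fAcc (cd M m a M.q J none E).M (k + 1 + 1) = M.H (k + 1) from
      fAcc_Mx G.toLeg h2, t1 _ (by omega) h2]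
    have := mul_le_mul_of_nonneg_right (t2.trans h.b1) (sub_nonneg.2 (q_le_one (M := M) k))
    linarith [dH_le h h1 h2]

/-- **MVtop on the class** -/
theorem mv_cl (τ0 : ℝ) : ∃ C, 1 ≤ C ∧ ∀ (S : Sc) (M : Md) (m : ℕ) (a : ℝ) (J : ℕ) (E : Ev) (K : ℕ)
    (θ : ℝ), Cl S M → 0 < S.n → S.In m a → (cd M m a M.q J none E).Ok τ0 → J ≤ S.J →
    (∀ k, S.Jp ≤ k → k < M.N → S.v / S.C ≤ M.s (k + 1) - M.s k) → S.C * S.v * m ≤ 1 →
    S.C * S.A * log S.n ≤ 2 ^ K * (S.ms (M.s S.Jp) * S.v / S.C ^ 2) → 0 < θ →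
    θ ≤ 1 - tp M m S.Jp * Hess65.Gn (cd M m a M.q J none E).S (S.Jp + 1) →
    E.X ^ 3 ≤ θ ^ 2 / C → M.s S.Jp - M.s S.J ≤ θ ^ 2 / C →
    MVt C (cd M m a M.q J none E) M m a M.q S.Jp K (S.ms (M.s S.Jp) * S.v / S.C ^ 2) θ (1 / S.C) ∧
    R85.Rv (cd M m a M.q J none E) (S.Jp + 1) ((cd M m a M.q J none E).u 2) ≤
      8 * S.C * (S.v + (1 - M.q (M.N - 1))) +
        C * ((S.C + S.C * S.A * log S.n) * mvA (cd M m a M.q J none E) θ (1 / S.C) +
          4 * (K + 2) ^ 2 * S.C ^ 4 / (S.ms (M.s S.Jp) * m * θ ^ 11)) := by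
  obtain ⟨C, C1, H⟩ := mvTop τ0
  refine ⟨C, C1, fun S M m a J E K θ h hn hi ok hJ hv hm hK θ0 hθ hX hd => ?_⟩
  have G := lg_cl h hn hi
  have a0 : 0 < a := lt_of_lt_of_le (by positivity) hi.a1
  have R := topD_cl h a0 hJ θ0 hθ hX hd
  have V := H M m a M.q J E _ K _ θ _ G ok R (lw_cl h hn hv hm hK)
  refine ⟨V, ?_⟩
  have i4 := h.i4
  have C0 : 0 < S.C := by linarith [h.C1]
  have m0 := ms_pos h hn (s_nonneg h S.Jp)
  have v0 := v_pos h hn
  have n0 : (0 : ℝ) < m := Nat.cast_pos.2 G.m0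
  have eK := cd_K M m a M.q J none E
  have d1 := fun k => ds_le (E := E) (k := k) h G hJ
  have tot : (cd M m a M.q J none E).sig (M.N + 1) ≤ S.C + S.C * S.A * log S.n := by
    rw [CD.sig, cd_tau m a _ _ E le_rfl, show (cd M m a M.q J none E).q (M.N + 1) = 1 from
      qx_top le_rfl, show fAcc (cd M m a M.q J none E).M (M.N + 1) = M.H M.N from
      fAcc_Mx G.toLeg le_rfl]
    linarith [(tp_mem (m := m) h.leg M.N).2.1, h.b1, h.HN, show M.d M.N = M.b from rfl]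
  generalize cd M m a M.q J none E = D at *
  have q1 := mul_nonneg C0.le (sub_nonneg.2 (q_le_one (M := M) (M.N - 1)))
  have d2 : ∀ k, S.Jp ≤ k → k < M.N → R85.ds D (k + 1) ≤ S.C * S.v + S.C * (1 - M.q (M.N - 1)) :=
    fun k a b => (d1 k a b).trans (add_le_add le_rfl (by
      split_ifs with c
      exacts [q1, by rw [show k = M.N - 1 by omega]]))
  have s := V.sum' (R85.ds D) (S.C * S.v) (by positivity)
    (fun t ht => sub_nonneg.2 (ok.sig_le (Nat.le_succ t) (Finset.mem_Ico.1 ht).2)) fun t a b => by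
      obtain ⟨k, rfl⟩ : ∃ k, t = k + 1 := ⟨t - 1, by omega⟩
      have := d1 k (by omega) (by omega)
      rwa [if_pos (by omega), add_zero] at this
  have e1 : ∑ t ∈ Finset.Ico (S.Jp + 1) D.K, R85.ds D t ≤ S.C + S.C * S.A * log S.n := by
    rw [Finset.sum_Ico_sub D.sig R.PK.le, eK]
    linarith [ok.sig0 R.PK.le]
  have A0 : 0 ≤ mvA D θ (1 / S.C) := by
    have := IU_nonneg ok
    have := R0_nonneg ok
    rw [mvA]; positivity
  have e2 := mul_le_mul_of_nonneg_left (mul_le_mul_of_nonneg_right e1 A0) (zero_le_one.trans C1)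
  have e3 : 4 * ((K : ℝ) + 2) ^ 2 * (S.C * S.v / (S.ms (M.s S.Jp) * S.v / S.C ^ 2 * m)) /
      (1 / S.C * θ ^ 11) = 4 * (K + 2) ^ 2 * S.C ^ 4 / (S.ms (M.s S.Jp) * m * θ ^ 11) := by
    field_simp
  have e4 := d2 (M.N - 1) (by omega) (by omega)
  rw [show M.N - 1 + 1 = D.K - 1 by omega] at e4
  rw [e3] at s
  rw [R85.Rv]
  linarith [d2 S.Jp le_rfl i4]

end Crest.Agent.T156.Cas.C40.Mv30

end
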