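import Crest.Agent.T156.R2K_30
import Crest.Agent.T156.R2P_85
import Crest.Agent.T156.MvC_30

-- ▼ part T156/R2Pz_68
section

/-!
# Row 156, R2 (helper68): the leaf `PzS` of `R2Def_30`
-/

set_option autoImplicit false
set_option linter.unusedSectionVars false

noncomputable section

namespace Crest.Agent.T156.Alt.R2

open Real Finset Filter
open Crest.Agent.T156.Cas Crest.Agent.T156.Cas.C40 Md67 CIn12

namespace Z68

theorem pz_mono {D : CD} {P : ℕ} {L θ ρ ε ε' B Lg Lg' : ℝ} (H : R85.Pz D P L θ ρ ε B Lg)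
    (h : ε ≤ ε') (h' : Lg ≤ Lg') : R85.Pz D P L θ ρ ε' B Lg' :=
  { H with
    ε0 := H.ε0.trans h
    lg := H.lg.trans h'
    ts := fun t ht => (H.ts t ht).trans (add_le_add le_rfl (by split_ifs; exacts [h, le_rfl])) }

variable {β c0 C0 c η K C : ℝ} {A : ℕ} {p : Pm} {P : Pl} {m : ℕ} {a : ℝ} {E : CIn12.Ev}
variable (H : Reg β c0 C0 A c η K p)
include H

theorem lgΛ : logb p.n ((p.n : ℝ) ^ η) = η := H.lg_rp η

theorem Λ_kk (k : ℕ) (hk : k ≤ 20) : ((p.n : ℝ) ^ η) ^ k ≤ kk p := by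
  refine H.le_of_lg (pow_pos H.Λ0 k) (kk0 H) ?_
  have : (k : ℝ) ≤ 20 := by exact_mod_cast hk
  rw [logb_pow, lgΛ H, lg_kk H]
  nlinarith [H.η_le, H.η_pos]

theorem t1_ye : 3 * t1 p ≤ p.ye := by
  have := t10 H
  refine H.le_of_lg (by positivity) H.ye0 ?_
  lg_norm
  linarith [lg_t1 H, H.lg_ye, (H.lg_num (x := 3) (by norm_num) (by norm_num)).2, H.c_le,
    H.η_le, H.lg_s.2]

theorem ye_c0 (hj : η ≤ c) : p.ye ≤ c0 := by
  have b := H.lg_le (by have := H.c00; positivity) H.c0_le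
  rw [one_div, logb_inv] at b
  exact H.le_of_lg H.ye0 H.c00 (by linarith [H.lg_ye, H.c_pos])

theorem ms_ge {t : ℝ} (t0 : 0 ≤ t) (h : t ≤ p.ye) : p.κ * t ^ 2 ≤ p.ms 1 p.ye t := by
  rw [Pm.ms, one_mul, min_eq_left h]
  exact mul_le_mul_of_nonneg_left (pow_le_pow_left₀ t0 (le_max_right _ _) 2) H.κ0.le

theorem ms_hi {t : ℝ} (h : p.ye ≤ t) : p.ms 1 p.ye t = p.κ ^ 7 := by
  rw [H.ms_top H.mem_end h, Pm.μ, Pm.ye]; ring

theorem nums (hA : 8 ≤ A) (hc : c ≤ 1 / 400) {X : ℝ} (hX : X = t1 p / p.κ) :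
    (p.n : ℝ) ^ η * p.v ≤ t1 p ∧ (p.n : ℝ) ^ η / p.n ≤ X ^ 3 ∧ kk p * X ^ 3 ≤ X ∧
    ((p.n : ℝ) ^ η) ^ 3 * (kk p * X ^ 3) ≤ p.κ * t1 p ^ 2 ∧ 1 / p.κ ≤ kk p ∧
    (p.n : ℝ) ^ η * ((kk p)⁻¹ * (1 / p.κ) ^ 2) ≤ p.κ ^ 7 ∧
    (p.n : ℝ) ^ η * ((kk p)⁻¹ * (1 / p.κ) ^ 2) ≤ p.κ ∧ (p.n : ℝ) ^ η * p.v ≤ 1 / p.n ∧
    (p.n : ℝ) ^ η * (1 / (p.n : ℝ) ^ 2) ≤ 1 / p.n ∧ (kk p)⁻¹ ≤ p.κ ^ 7 / (p.n : ℝ) ^ η := by
  have a8 : (8 : ℝ) ≤ A := by exact_mod_cast hA
  have lΛ := lgΛ H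
  have L0 := H.Λ0
  have t0 := t10 H
  have κ0 := H.κ0
  have N0 := H.N0
  have v0 := H.v0
  have kk0 := kk0 H
  have lt := lg_t1 H
  have ls := H.lg_s.1
  have ls' := H.lg_s.2
  have lκ := H.lg_κ
  have lk := lg_kk H
  have lv := H.lg_v_le
  have ln := H.lg_n
  have ηc := H.η_le
  have η0 := H.η_pos
  have X0 : 0 < X := hX ▸ div_pos t0 κ0
  have lX : logb p.n X = logb p.n p.s + 8 / 7 * c - 3 / 20 := by
    rw [hX, logb_div t0.ne' κ0.ne', lt, lκ]; ring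
  generalize (p.n : ℝ) ^ η = Λ at *
  refine ⟨?_, ?_, ?_, ?_, ?_, ?_, ?_, ?_, ?_, ?_⟩ <;>
    refine H.le_of_lg (by positivity) (by positivity) ?_ <;> lg_norm <;> linarith

variable (e : En C p P)
include e

theorem s_jc : t1 p / 2 ≤ (Me p P).s (jc p) ∧ (Me p P).s (jc p) ≤ 3 * t1 p := by
  have a := e.s_lo H (k := jc p) (by have := jc_lt H; omega)
  have b := jc_bds H
  constructor <;> linarith [a.1, a.2, b.1, b.2, H.v_le_r, r_le_t1 H]

theorem ye_sJ {k : ℕ} (hk : p.J ≤ k) : p.ye ≤ (Me p P).s k :=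
  ((ye_c0 H H.η_le).trans (H.ok.base.lo.trans e.sJ.ge)).trans (e.cl.sm hk)

/-- the labels on the slope -/
theorem z_le {k : ℕ} (h1 : p.jf ≤ k) (h2 : k < p.J) :
    (Me p P).z k ≤ C * (Me p P).s k + 2 * (C * p.v) := by
  have a := Mp9.s_lt e.cl (k := k) h2
  have b := (e.cl.lip 0 _ le_rfl (s_nonneg e.cl k) (a.trans_le (e.cl.sm h2))).2
  have d : _ ≤ C * p.v := e.cl.lv0
  rw [e.cl.lv k h1 _ le_rfl a, sub_zero] at b
  have b' : _ ≤ C * (_ + p.v) := b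
  linarith

theorem lkD (hC : C ≤ (p.n : ℝ) ^ η) (sp : p.SpOk (7 / 20) P) (h : In p m a) :
    R81.LkD (D p P m a E) (Me p P).lr (sh (Me p P).s) (p.Jp P + 1) ((Me p P).b / (m + 1)) := by
  have j1 := jf_lt H
  have j2 := jc_lt H
  have i3 : p.J ≤ p.Jp P := e.cl.i3
  have m1 : (p.n : ℝ) ≤ m := by exact_mod_cast h.m1
  have a1 : 2 * (p.n : ℝ) ^ η ≤ p.n := by
    have := H.Λ0
    refine H.le_of_lg (by positivity) H.N0 ?_
    rw [logb_mul two_ne_zero this.ne', lgΛ H, H.lg_n]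
    linarith [(H.lg_num (x := 2) (by norm_num) (by norm_num)).2, H.η_le, H.c_le]
  have a2 : (2 : ℝ) ≤ A := by exact_mod_cast H.A2
  obtain ⟨i, hi⟩ : ∃ i, jc p = i + 1 := ⟨jc p - 1, by omega⟩
  rw [D, hi]
  refine R81.lkD_cl e.cl (e.lg H h).toLeg (show p.jf ≤ i by omega) (show _ ≤ p.Jp P by omega)
    (Mp9.s_lt e.cl (show i < p.J by omega)) (fun k hk _ => G_zero sp (by omega))
    (fun k _ _ => d_eq k) ?_ ?_
  · rw [div_le_iff₀ (by linarith [H.N0])]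
    linarith [e.bβ]
  · rw [e.sN]
    exact add_le_add le_rfl (by nlinarith [H.Nr_bds.1, H.log1])

end Z68

open Z68 in
/-- **`PzS`** -/
theorem pzS {β : ℝ} (hβ : 1 < β) : PzS β := by
  unfold PzS EvA
  refine Sml.glueC hβ (enS hβ) Sml.triv fun C hC c0 C0 _ _ => ⟨8, fun A hA => ⟨1 / 400, by norm_num,
    fun c hc _ => ⟨1, one_pos, fun η _ _ => ?_⟩⟩⟩
  obtain ⟨C', C1, G⟩ := R85.pz_cl (C + 1)
  refine ⟨576 * C ^ 6 + C' * β ^ 2 + 30 * C' + (1 + 2 * C ^ 2) + 18 * C ^ 3 + 2 * (C + 1),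
    fun p H en _ P m a E h => ?_⟩
  have e := en H.r_le_ye P h.sp
  have hK := H.K_le
  have b2 : 0 < β ^ 2 := by have := H.β1; positivity
  have k1 : 576 * C ^ 6 + C' * β ^ 2 ≤ (p.n : ℝ) ^ η := le_trans (by
    have : 0 ≤ 30 * C' + (1 + 2 * C ^ 2) + 18 * C ^ 3 + 2 * (C + 1) := by positivity
    linarith) hK
  have p1 : 0 ≤ 576 * C ^ 6 + C' * β ^ 2 := by positivity
  have p2 : 0 ≤ C ^ 2 := by positivity
  have p3 : 0 ≤ C ^ 3 := by positivity
  have k2 : 30 * C' ≤ (p.n : ℝ) ^ η := by linarith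
  have k3 : 1 + 2 * C ^ 2 ≤ (p.n : ℝ) ^ η := by linarith
  have k4 : 18 * C ^ 3 ≤ (p.n : ℝ) ^ η := by linarith
  have k5 : 2 * (C + 1) ≤ (p.n : ℝ) ^ η := by linarith
  have l1 := Λ_kk H 1 (by norm_num)
  have l4 := Λ_kk H 4 (by norm_num)
  have L0 := H.Λ0
  have L3 := H.num_le
  have lA := H.A_le
  have ll := H.log_le
  have lβ := H.β_le
  have l0 := H.log1
  rw [pow_one] at l1
  have t0 := t10 H
  have κ0 := H.κ0
  have κ1 := H.κ1
  have N0 := H.N0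
  have v0 := H.v0
  have kk0 := kk0 H
  have j1 := jf_lt H
  have j2 := jc_lt H
  have sj := s_jc H e
  have q := e.q_top H hA
  have lk' := lkD (E := E) H e (by linarith) h.sp h.inn
  have st := e.st (E := E) H h.sp h.inn
  have ty := t1_ye H
  have mh := fun t => ms_hi H (t := t)
  have mg := fun t => ms_ge H (t := t)
  have ys := fun k => ye_sJ H e (k := k)
  have zl := fun k => z_le H e (k := k)
  have tX : t1 p ≤ E.X := by rw [h.env.X, le_div_iff₀ κ0]; exact mul_le_of_le_one_right t0.le κ1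
  have X0 := t0.trans_le tX
  obtain ⟨n1, n2, n3, n4, n5, n6, n7, n8, n9, n10⟩ := nums H hA hc h.env.X
  have m1 : (p.n : ℝ) ≤ m := by exact_mod_cast h.inn.m1
  generalize (p.n : ℝ) ^ η = Λ at *
  have cv : 2 * (C * p.v) ≤ Λ * p.v := by
    linarith only [mul_le_mul_of_nonneg_right k5 v0.le, v0]
  have ez : ∀ k, max (t1 p) ((Me p P).z k) ≤ 1 := fun k =>
    max_le (by linarith [H.ye1]) (e.cl.leg.z1 k)
  have e0 : ∀ k, 0 ≤ max (t1 p) ((Me p P).z k) := fun k => t0.le.trans (le_max_left _ _)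
  obtain ⟨g1, g2⟩ := G (Se p C P) (Me p P) m a (jc p) E (p.β ^ 2) (kk p * E.X ^ 3 / 3) (kk p)⁻¹
    (kk p) (kk p) e.cl H.n0 h.inn.sc h.ok (by rw [tp_eq]; exact st) lk'
    (show p.jf < _ by omega) (show _ ≤ p.J by omega) (show C * p.v ≤ _ by linarith [sj.1])
    (by linarith [sj.2, H.ye1]) (by
      have a1 : (Me p P).s (jc p) ^ 2 ≤ (3 * E.X) ^ 2 :=
        pow_le_pow_left₀ (by linarith [sj.1]) (by linarith [sj.2]) 2
      have a2 : (Me p P).b / (m + 1) ≤ Λ / p.n :=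
        div_le_div₀ L0.le (by linarith [e.bβ]) N0 (by linarith)
      have a3 := mul_le_mul_of_nonneg_left a1 X0.le
      have a4 : 0 < E.X ^ 3 := by positivity
      have a5 : E.X * (Me p P).s (jc p) ^ 2 + (Me p P).b / (m + 1) ≤ 10 * E.X ^ 3 := by
        linarith only [a3, a2, n2]
      linarith only [mul_le_mul_of_nonneg_left a5 (zero_le_one.trans C1),
        mul_le_mul_of_nonneg_right (k2.trans l1) a4.le])
    (by linarith only [n3, X0]) (by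
      show p.ms 1 p.ye 0 ≤ _
      rw [Pm.ms, min_eq_left H.ye0.le, max_eq_left H.r0.le, one_mul]
      have := H.r0
      have a1 : p.κ * p.r ≤ 1 := mul_le_one₀ κ1 this.le (H.r_le_ye.trans H.ye1)
      linarith only [r_le_t1 H, tX, mul_le_mul_of_nonneg_right a1 this.le])
    (by
      refine le_trans ?_ ((mg (t1 p / 2) (by positivity) (by linarith)).trans
        (e.cl.msm (show t1 p / 2 ≤ _ from sj.1)))
      have a0 : 0 < kk p * E.X ^ 3 := by positivity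
      have a1 : 2 * C * p.β ^ 2 ≤ Λ * Λ := by
        rw [H.hβ]; exact mul_le_mul (by linarith) lβ b2.le L0.le
      have a2 : 4 * (Λ * Λ) ≤ Λ ^ 3 := by
        linarith only [mul_le_mul_of_nonneg_left L3 (mul_pos L0 L0).le, mul_pos L0 L0]
      show 2 * C * _ ≤ _
      linarith only [mul_le_mul_of_nonneg_right a1 a0.le, mul_le_mul_of_nonneg_right a2 a0.le,
        mul_pos (mul_pos L0 L0) a0, n4])
    (inv_pos.2 kk0) (fun k _ _ => by
      rw [h.env.e]; exact (div_le_div_of_nonneg_right (ez k) κ0.le).trans n5)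
    (fun k h1 _ => by
      have w0 : 0 < (kk p)⁻¹ * (1 / p.κ) ^ 2 := by positivity
      have r : (kk p)⁻¹ * E.e k ^ 2 = (kk p)⁻¹ * (1 / p.κ) ^ 2 * max (t1 p) ((Me p P).z k) ^ 2 := by
        rw [h.env.e]; ring
      show 2 * C * _ ≤ p.ms 1 p.ye _
      rw [r]
      generalize (kk p)⁻¹ * (1 / p.κ) ^ 2 = w at *
      rcases le_or_gt p.ye ((Me p P).s k) with y | y
      · have a1 := mul_le_of_le_one_right w0.le (pow_le_one₀ (e0 k) (ez k) (n := 2))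
        rw [mh _ y]
        linarith only [mul_le_mul_of_nonneg_left a1 (show 0 ≤ 2 * C by positivity), n6, w0,
          mul_le_mul_of_nonneg_right k5 w0.le]
      · have s1 : t1 p / 2 ≤ (Me p P).s k := sj.1.trans (e.cl.sm h1)
        have s0 : 0 < (Me p P).s k := by linarith
        have a1 : max (t1 p) ((Me p P).z k) ≤ 3 * C * (Me p P).s k := by
          have z1 := zl k (by omega) (not_le.1 fun b => (ys k b).not_gt y)
          have := mul_le_mul_of_nonneg_right hC s0.le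
          refine max_le ?_ ?_ <;> linarith only [z1, this, s0, s1, cv, n1]
        have a2 := pow_le_pow_left₀ (e0 k) a1 2
        refine le_trans ?_ (mg _ s0.le y.le)
        have a3 := mul_le_mul_of_nonneg_left a2 (show 0 ≤ 2 * C * w by positivity)
        have a4 := mul_le_mul_of_nonneg_right ((mul_le_mul_of_nonneg_right k4 w0.le).trans n7)
          (sq_nonneg ((Me p P).s k))
        linarith only [a3, a4])
    (by rw [H.hβ]; exact k1.trans l1)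
  rw [mul_div_cancel₀ _ three_ne_zero] at g1
  refine ⟨pz_mono g1 ?_ ?_, ?_⟩
  · show C * p.v + (C + 1) * _ ≤ _
    linarith only [mul_le_mul_of_nonneg_left q (show 0 ≤ C + 1 by positivity), cv, n8, n9,
      mul_le_mul_of_nonneg_right k5 (show 0 ≤ 1 / (p.n : ℝ) ^ 2 by positivity)]
  · show (1 + 2 * C ^ 2) * (1 + log p.n) + C * (C + C * p.A * log p.n) ≤ _
    have a1 : (1 + 2 * C ^ 2) * (1 + log p.n) ≤ Λ * (2 * Λ) :=
      mul_le_mul k3 (by linarith) (by linarith) L0.le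
    have a2 : C ^ 2 * (A * log p.n) ≤ Λ * (Λ * Λ) :=
      mul_le_mul (by linarith) (mul_le_mul lA ll (by linarith) L0.le) (by positivity) L0.le
    have a3 := mul_pos L0 L0
    rw [H.hA]
    linarith only [mul_pos a3 L0, mul_le_mul_of_nonneg_left L3 (mul_pos a3 L0).le, a1, a2, l4,
      mul_le_mul_of_nonneg_left L3 a3.le, mul_le_mul_of_nonneg_left L3 L0.le, k3, p2, L0, a3]
  · have := g2 (p.Jp P) (show _ ≤ p.Jp P by unfold Pm.Jp; omega) le_rfl
    rw [tp_eq] at this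
    refine n10.trans (le_trans ?_ this)
    show _ ≤ p.ms 1 p.ye _ / (2 * C)
    rw [mh _ (ys (p.Jp P) (Nat.le_add_right _ _))]
    exact div_le_div_of_nonneg_left (by positivity) (by positivity) (by linarith)

end Crest.Agent.T156.Alt.R2

end
end

-- ▼ part T156/R2Mv_55

/-!
# Row 156, R2 (helper55): (MV) on the reveal nodes of the END model, numbers
-/

set_option autoImplicit false
set_option linter.all false

noncomputable section

namespace Crest.Agent.T156.Alt.R2.Mv55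

open Real Finset Filter
open Crest.Agent.T157.E Crest.Agent.T157.Casc Crest.Agent.T157.SL
open Crest.Agent.T156.Cas Crest.Agent.T156.Cas.C40 Md67 CIn12

variable {β c0 C0 c η K C : ℝ} {A : ℕ} {p : Pm} {P : Pl} {m : ℕ} {a : ℝ} {E : CIn12.Ev}

/-- the statement of `mv_cl` for the constant `Cm` -/
def MC (τ0 C : ℝ) : Prop := ∀ (S : Sc) (M : Md) (m : ℕ) (a : ℝ) (J : ℕ) (E : CIn12.Ev) (K : ℕ)
    (θ : ℝ), Cl S M → 0 < S.n → S.In m a → (cd M m a M.q J none E).Ok τ0 → J ≤ S.J →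
    (∀ k, S.Jp ≤ k → k < M.N → S.v / S.C ≤ M.s (k + 1) - M.s k) → S.C * S.v * m ≤ 1 →
    S.C * S.A * log S.n ≤ 2 ^ K * (S.ms (M.s S.Jp) * S.v / S.C ^ 2) → 0 < θ →
    θ ≤ 1 - tp M m S.Jp * Hess65.Gn (cd M m a M.q J none E).S (S.Jp + 1) →
    E.X ^ 3 ≤ θ ^ 2 / C → M.s S.Jp - M.s S.J ≤ θ ^ 2 / C →
    R85.Rv (cd M m a M.q J none E) (S.Jp + 1) ((cd M m a M.q J none E).u 2) ≤
      8 * S.C * (S.v + (1 - M.q (M.N - 1))) +
        C * ((S.C + S.C * S.A * log S.n) * Mv30.mvA (cd M m a M.q J none E) θ (1 / S.C) +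
          4 * (K + 2) ^ 2 * S.C ^ 4 / (S.ms (M.s S.Jp) * m * θ ^ 11))

theorem mc (τ0 : ℝ) : ∃ C, 1 ≤ C ∧ MC τ0 C := by
  obtain ⟨C, C1, H⟩ := Mv30.mv_cl τ0
  exact ⟨C, C1, fun S M m a J E K θ a1 a2 a3 a4 a5 a6 a7 a8 a9 a10 a11 a12 =>
    (H S M m a J E K θ a1 a2 a3 a4 a5 a6 a7 a8 a9 a10 a11 a12).2⟩

section reg
variable (H : Reg β c0 C0 A c η K p)
include H

theorem lgΛ : logb p.n ((p.n : ℝ) ^ η) = η := H.lg_rp η

theorem exK : ∃ k : ℕ, (p.n : ℝ) ^ (A + 2) ≤ 2 ^ k ∧ (k : ℝ) + 2 ≤ ((p.n : ℝ) ^ η) ^ 3 := by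
  refine ⟨(Nat.log 2 p.n + 1) * (A + 2), ?_, ?_⟩
  · rw [pow_mul]
    refine pow_le_pow_left₀ H.N0.le ?_ _
    exact_mod_cast (Nat.lt_pow_succ_log_self one_lt_two p.n).le
  · have h : ((2 : ℝ)) ^ Nat.log 2 p.n ≤ p.n := by
      exact_mod_cast Nat.pow_log_le_self 2 H.n0.ne'
    have h2 := log_le_log (by positivity) h
    rw [log_pow] at h2
    have h3 : (Nat.log 2 p.n : ℝ) ≤ 2 * (p.n : ℝ) ^ η := by
      nlinarith [log_two_gt_d9, (Nat.cast_nonneg (Nat.log 2 p.n) : (0 : ℝ) ≤ _), H.log_le]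
    have h4 := H.A_le
    have h5 := H.num_le
    generalize (p.n : ℝ) ^ η = L at *
    have h6 : ((Nat.log 2 p.n : ℝ) + 1) * ((A : ℝ) + 2) ≤ (3 * L) * (2 * L) :=
      mul_le_mul (by linarith) (by linarith) (by positivity) (by linarith)
    have h7 : 1000 * (L * L) ≤ L * (L * L) := mul_le_mul_of_nonneg_right h5 (by positivity)
    push_cast
    nlinarith

theorem ye_le : p.ye ≤ p.J * p.v := by
  refine le_trans (H.le_of_lg H.ye0 H.c00 ?_) H.ok.base.lo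
  have a0 := H.c00
  have b := H.lg_le (by positivity) H.c0_le
  rw [one_div, logb_inv] at b
  linarith [H.lg_ye, H.η_le, H.c_pos]

theorem ms_hi (e : En C p P) {k : ℕ} (hk : p.J ≤ k) :
    (Se p C P).ms ((Me p P).s k) = p.κ ^ 7 := by
  have : p.ye ≤ (Me p P).s k := (ye_le H).trans (e.sJ.ge.trans (e.cl.sm hk))
  refine (H.ms_top H.mem_end this).trans ?_
  rw [Pm.μ, Pm.ye]; ring


/-- `I (e² u 2)` -/
theorem Ie_le (h : Ad p P m a E) {L ρ ε B Lg : ℝ}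
    (z : R85.Pz (D p P m a E) (p.J + 1) L (kk p)⁻¹ ρ ε B Lg)
    (h2 : R85.muU (D p P m a E) (τ p P m) ≤ gn p 250 * un p) :
    (D p P m a E).I (fun t => (D p P m a E).e t ^ 2 * (D p P m a E).u 2 t) ≤
      kk p * (gn p 250 * un p) := by
  refine (z.Ie2 h.ok).trans ?_
  rw [τ_D, one_div, inv_inv]
  exact mul_le_mul_of_nonneg_left h2 (kk0 H).le

theorem kk1 : 1 ≤ kk p := H.le_of_lg one_pos (kk0 H) (by
  rw [logb_one, lg_kk H]; linarith [H.c_pos])

theorem gn_le {i j : ℝ} (hi : 0 < i) (h : i ≤ j) : gn p i ≤ gn p j :=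
  H.le_of_lg (gn0 H _) (gn0 H _) (by
    rw [lg_gn H, lg_gn H, neg_div, neg_div]
    exact neg_le_neg (one_div_le_one_div_of_le hi h))

/-- the mean value constant -/
theorem mvA_le (h : Ad p P m a E) (C1 : 1 ≤ C) {L ρ ε B Lg : ℝ}
    (z : R85.Pz (D p P m a E) (p.J + 1) L (kk p)⁻¹ ρ ε B Lg)
    (h1 : (D p P m a E).Err ≤ gn p 200 * un p)
    (h2 : R85.muU (D p P m a E) (τ p P m) ≤ gn p 250 * un p) :
    Mv30.mvA (D p P m a E) (kk p)⁻¹ (1 / C) ≤ 3 * C * (kk p ^ 11 * (gn p 250 * un p)) := by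
  have a1 := Ie_le H h z h2
  have a2 : (D p P m a E).I ((D p P m a E).u 4) ≤ (D p P m a E).Err :=
    h.ok.Iu4_le.trans (h.ok.E0_le rfl)
  have a3 : Ex23.R0 (D p P m a E) ≤ (D p P m a E).Err := (Ex23.ek _ _ h.ok).1 rfl
  have a4 := h1.trans (mul_le_mul_of_nonneg_right (gn_le H (by norm_num)
    (show (200 : ℝ) ≤ 250 by norm_num)) (un0 H).le)
  have k1 := kk1 H
  have g0 := mul_pos (gn0 H 250) (un0 H)
  rw [Mv30.mvA, Mv30.IU]
  generalize gn p 250 * un p = g at *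
  generalize kk p = k at *
  have e1 : ∀ x : ℝ, x / k⁻¹ ^ 2 = k ^ 2 * x := fun x => by field_simp
  have e2 : ∀ x : ℝ, x / (1 / C * k⁻¹ ^ 11) = C * (k ^ 11 * x) := fun x => by field_simp
  rw [e1, e2]
  have p3 : k ^ 2 * (k * g) ≤ k ^ 11 * g := by
    rw [← mul_assoc, ← pow_succ]
    exact mul_le_mul_of_nonneg_right (pow_le_pow_right₀ k1 (by norm_num)) g0.le
  have p2 : k ^ 2 * g ≤ k ^ 11 * g :=
    mul_le_mul_of_nonneg_right (pow_le_pow_right₀ k1 (by norm_num)) g0.le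
  have q0 : 0 ≤ k ^ 11 * g := by positivity
  have b1 := mul_le_mul_of_nonneg_left (add_le_add a1 (a2.trans a4)) (show 0 ≤ k ^ 2 by positivity)
  have b2 := mul_le_mul_of_nonneg_left (mul_le_mul_of_nonneg_left (a3.trans a4)
    (show 0 ≤ k ^ 11 by positivity)) (zero_le_one.trans C1)
  have b3 := mul_le_mul_of_nonneg_right C1 q0
  nlinarith

/-- **the reveal part** -/
theorem rv_top {Cm : ℝ} (hm : MC (β ^ 2) Cm) (Cm1 : 1 ≤ Cm) (hCm : Cm ≤ (p.n : ℝ) ^ η)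
    (e : En C p P) (hC : C ≤ (p.n : ℝ) ^ η) (hA : 8 ≤ A) (hc : c ≤ 1 / 10 ^ 6)
    (h : Ad p P m a E) {L ρ ε B Lg : ℝ}
    (z : R85.Pz (D p P m a E) (p.J + 1) L (kk p)⁻¹ ρ ε B Lg)
    (zm : (kk p)⁻¹ ≤ R85.mu (D p P m a E) (τ p P m) (p.Jp P + 1))
    (h1 : (D p P m a E).Err ≤ gn p 200 * un p)
    (h2 : R85.muU (D p P m a E) (τ p P m) ≤ gn p 250 * un p) :
    R85.Rv (D p P m a E) (p.Jp P + 1) ((D p P m a E).u 2) ≤ gn p 270 * un p := by
  obtain ⟨k, k1, k2⟩ := exK H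
  have C1 : 1 ≤ C := e.cl.C1
  have C0 : 0 < C := by linarith
  have Cm0 : 0 < Cm := by linarith
  have v0 := H.v0
  have κ0 := H.κ0
  have N0 := H.N0
  have t0 := t10 H
  have u0 := un0 H
  have K0 := kk0 H
  have g1 := gn0 H 250
  have g2 := gn0 H 270
  have L0 := H.Λ0
  have l0 : 0 < log (p.n : ℝ) := by linarith [H.log1]
  have A8 : (8 : ℝ) ≤ A := by exact_mod_cast hA
  have A0 : (0 : ℝ) < A := by linarith
  have m0 : (0 : ℝ) < m := by exact_mod_cast h.inn.m0 H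
  obtain ⟨lC1, lC2⟩ := H.lg_cst C1 hC
  obtain ⟨lCm1, lCm2⟩ := H.lg_cst Cm1 hCm
  obtain ⟨lA1, lA2⟩ := H.lg_cst (show (1 : ℝ) ≤ A by linarith) H.A_le
  obtain ⟨lm1, lm2⟩ := H.lg_m h.inn.m1 h.inn.m2
  obtain ⟨ll1, ll2⟩ := H.lg_log
  have lv := H.lg_v
  obtain ⟨lb1, lb2⟩ := H.lg_β
  obtain ⟨ls1, ls2⟩ := H.lg_s
  have lk := H.lg_κ
  have lt := lg_t1 H
  have lu := lg_un H
  have lkk := lg_kk H
  have lg1 := lg_gn H 250
  have lg2 := lg_gn H 270
  have ln := H.lg_n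
  have hη := H.η_le
  have η0 := H.η_pos
  have lL := lgΛ H
  have ms := ms_hi H e (show p.J ≤ p.Jp P from e.cl.i3)
  have γ0 : 0 < P.γ := h.sp.g' ▸ H.rp0 _
  have lγ : logb p.n P.γ = -(7 / 20) := by rw [h.sp.g', H.lg_rp]
  have R := hm (Se p C P) (Me p P) m a (jc p) E k (kk p)⁻¹ e.cl H.n0 h.inn.sc (H.hβ ▸ h.ok)
    (Nat.lt_succ_iff.1 z.JP) (fun j a _ => (div_le_self v0.le C1).trans (e.hi j a).ge)
    (show C * p.v * m ≤ 1 from H.le_of_lg (by positivity) one_pos (by lg_norm; linarith))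
    (by
      rw [show (Se p C P).Jp = p.Jp P from rfl, ms]
      refine le_trans ?_ (mul_le_mul_of_nonneg_right k1 (by
        show 0 ≤ p.κ ^ 7 * p.v / C ^ 2; positivity))
      show C * p.A * log p.n ≤ (p.n : ℝ) ^ (A + 2) * (p.κ ^ 7 * p.v / C ^ 2)
      rw [H.hA]
      refine H.le_of_lg (by positivity) (by positivity) ?_
      lg_norm
      push_cast
      rw [ln]
      linarith)
    (inv_pos.2 K0) (zm.trans_eq (by rw [R85.mu, ← tp_eq (p.Jp P)]; rfl))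
    (by
      rw [h.env.X]
      refine H.le_of_lg (by positivity) (by positivity) ?_
      lg_norm
      linarith)
    (e.gam.trans (H.le_of_lg γ0 (by positivity) (by lg_norm; linarith)))
  rw [show (Se p C P).Jp = p.Jp P from rfl, ms] at R
  have mv := mvA_le H h C1 z h1 h2
  have qt := e.q_top H hA
  refine R.trans ?_
  show 8 * C * (p.v + (1 - (Me p P).q ((Me p P).N - 1))) + Cm * ((C + C * p.A * log p.n) *
    Mv30.mvA (D p P m a E) (kk p)⁻¹ (1 / C) + 4 * (k + 2) ^ 2 * C ^ 4 /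
      (p.κ ^ 7 * m * (kk p)⁻¹ ^ 11)) ≤ _
  rw [H.hA]
  have n8 := H.lg_num (x := 40) (by norm_num) (by norm_num)
  have b1 : 40 * (C * p.v) ≤ gn p 270 * un p :=
    H.le_of_lg (by positivity) (by positivity) (by lg_norm; linarith)
  have b2 : 40 * (C * (1 / (p.n : ℝ) ^ 2)) ≤ gn p 270 * un p :=
    H.le_of_lg (by positivity) (by positivity) (by lg_norm; linarith)
  have b3 : 40 * (Cm * (C * A * log p.n * (C * (kk p ^ 11 * (gn p 250 * un p))))) ≤
      gn p 270 * un p := H.le_of_lg (by positivity) (by positivity) (by lg_norm; linarith)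
  have b4 : 40 * (Cm * ((((p.n : ℝ) ^ η) ^ 3) ^ 2 * C ^ 4 / (p.κ ^ 7 * m * (kk p)⁻¹ ^ 11))) ≤
      gn p 270 * un p := H.le_of_lg (by positivity) (by positivity) (by
        generalize (p.n : ℝ) ^ η = Λ at *
        lg_norm; linarith)
  have c1 : C ≤ C * A * log p.n := by
    rw [mul_assoc]
    exact le_mul_of_one_le_right C0.le (one_le_mul_of_one_le_of_one_le (by linarith) H.log1)
  have c2 : (C + C * A * log p.n) * Mv30.mvA (D p P m a E) (kk p)⁻¹ (1 / C) ≤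
      (2 * (C * A * log p.n)) * (3 * C * (kk p ^ 11 * (gn p 250 * un p))) :=
    (mul_le_mul_of_nonneg_left mv (by positivity)).trans
      (mul_le_mul_of_nonneg_right (by linarith) (by positivity))
  have c3 : 4 * ((k : ℝ) + 2) ^ 2 * C ^ 4 / (p.κ ^ 7 * m * (kk p)⁻¹ ^ 11) ≤
      4 * ((((p.n : ℝ) ^ η) ^ 3) ^ 2 * C ^ 4 / (p.κ ^ 7 * m * (kk p)⁻¹ ^ 11)) := by
    rw [mul_assoc, mul_div_assoc]
    gcongr
  have c4 := mul_le_mul_of_nonneg_left (add_le_add c2 c3) Cm0.le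
  have c5 := mul_le_mul_of_nonneg_left qt C0.le
  have c6 := mul_pos g2 u0
  linarith

/-- the closing numbers -/
theorem fin_num (hc : c ≤ 1 / 10 ^ 6) : kk p * (gn p 270 * un p + kk p * (gn p 250 * un p) + ηH p) ≤
    gn p 300 * un p := by
  have u0 := un0 H
  have K0 := kk0 H
  have g1 := gn0 H 250
  have g2 := gn0 H 270
  have g3 := gn0 H 300
  have h0 := ηH0 H
  obtain ⟨ls1, ls2⟩ := H.lg_s
  obtain ⟨n1, n2⟩ := H.lg_num (x := 3) (by norm_num) (by norm_num)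
  have lu := lg_un H
  have lkk := lg_kk H
  have lg1 := lg_gn H 250
  have lg2 := lg_gn H 270
  have lg3 := lg_gn H 300
  have lh := lg_ηH H
  have hη := H.η_le
  have η0 := H.η_pos
  have b1 : 3 * (kk p * (gn p 270 * un p)) ≤ gn p 300 * un p :=
    H.le_of_lg (by positivity) (by positivity) (by lg_norm; linarith)
  have b2 : 3 * (kk p * (kk p * (gn p 250 * un p))) ≤ gn p 300 * un p :=
    H.le_of_lg (by positivity) (by positivity) (by lg_norm; linarith)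
  have b3 : 3 * (kk p * ηH p) ≤ gn p 300 * un p :=
    H.le_of_lg (by positivity) (by positivity) (by lg_norm; linarith)
  linarith

end reg

/-- **the plateau part** (sandwich): the only input besides `PzS` -/
def RvE (β : ℝ) : Prop := EvA β fun p P m a E =>
  R85.Rv (D p P m a E) (p.J + 1) ((D p P m a E).u 2) ≤ kk p *
    (R85.Rv (D p P m a E) (p.Jp P + 1) ((D p P m a E).u 2) +
      (D p P m a E).I (fun t => (D p P m a E).e t ^ 2 * (D p P m a E).u 2 t) + ηH p)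

/-- the reveal part alone -/
theorem rvT (hβ : 1 < β) (hP : PzS β) : EvA β fun p P m a E =>
    (D p P m a E).Err ≤ gn p 200 * un p → R85.muU (D p P m a E) (τ p P m) ≤ gn p 250 * un p →
    R85.Rv (D p P m a E) (p.Jp P + 1) ((D p P m a E).u 2) ≤ gn p 270 * un p ∧
    (D p P m a E).I (fun t => (D p P m a E).e t ^ 2 * (D p P m a E).u 2 t) ≤
      kk p * (gn p 250 * un p) := by
  obtain ⟨Cm, Cm1, hm⟩ := mc (β ^ 2)
  unfold PzS EvA at hP
  refine Sml.glueC hβ (enS hβ) hP fun C _ c0 C0 _ _ => ⟨8, fun A hA => ⟨1 / 10 ^ 6, by norm_num,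
    fun c hc _ => ⟨1, one_pos, fun η _ _ => ⟨max C Cm, fun p H e z P m a E h h1 h2 => ?_⟩⟩⟩⟩
  obtain ⟨z1, z2⟩ := z P m a E h
  exact ⟨rv_top H hm Cm1 ((le_max_right _ _).trans H.K_le) (e H.r_le_ye P h.sp)
    ((le_max_left _ _).trans H.K_le) hA hc h z1 z2 h1 h2, Ie_le H h z1 h2⟩

end Mv55

open Mv55 in
/-- **(MV)** -/
theorem mvS_of {β : ℝ} (hβ : 1 < β) (hP : PzS β) (hR : RvE β) : MvS β := by
  have hT := rvT hβ hP
  unfold RvE at hR
  unfold EvA at hT hR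
  unfold MvS EvA
  refine Sml.glue' hβ (Sml.and hT hR) 0 (c1 := 1 / 10 ^ 6) (by norm_num) 0
    fun c0 C0 A c η _ _ _ _ => ⟨1, fun p H _ hc _ z P m a E h h1 h2 => ?_⟩
  obtain ⟨a1, a2⟩ := z.1 P m a E h h1 h2
  refine (z.2 P m a E h).trans (le_trans ?_ (fin_num H hc))
  exact mul_le_mul_of_nonneg_left (by linarith) (kk0 H).le

end Crest.Agent.T156.Alt.R2

end
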