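import Crest.Agent.T156.PrC_28

/-!
Row 156, ALT, text (P) (helper28): P1 and P2 from the leaves.
-/

set_option autoImplicit false

namespace Crest.Agent.T156.Pr

open MeasureTheory Set
open Crest.Agent.R164.GC Crest.Agent.R339.B Crest.Agent.R339.Var Crest.Agent.T157.Pf
open Crest.Agent.T156.Pp

noncomputable section

theorem lo_zero (z : ℕ → ℝ) (v : ℝ) (N : ℕ) : lo z v 0 N = lst z (fun j => j * v) N := by
  unfold lo; congr 1; funext j; simp [sig]

theorem bb_mul {l : List (ℝ × ℝ)} (h : 0 < chi l) (eps : ℝ) : bb l eps * chi l ^ 2 = 1 - eps := by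
  unfold bb; field_simp

theorem WW_sub (z : ℕ → ℝ) (N : ℕ) (v : ℝ) (om : ℕ → ℝ) (t : ℝ) :
    ∑ j ∈ Finset.range N, (if ((j:ℝ) + 1) * v ≤ t then dm z j * (om (j + 1) - (0 : ℕ → ℝ) (j + 1))
      else 0) = WW z N v om t := by
  unfold WW; simp

theorem Base.eta_nn {b0 c C η v : ℝ} {J : ℕ} {z : ℕ → ℝ} (h : Base b0 c C η v J z) : 0 ≤ η :=
  (abs_nonneg _).trans (h.crit J le_rfl 0 ⟨le_rfl, mul_nonneg (Nat.cast_nonneg _) h.v_pos.le⟩)

/-- choice of the smallness constants -/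
theorem small (b0 c K : ℝ) (hb : 1 ≤ b0) (hc : 0 < c) (hK : 1 ≤ K) : ∃ y : ℝ, 0 < y ∧ y ≤ c ∧
    y ≤ 1 ∧ K * √y ≤ 1 / (64 * b0 ^ 2) ∧ K * y ≤ 1 / (64 * b0 ^ 2) := by
  set r := min (min c 1) (1 / (64 * b0 ^ 2 * K)) with hr
  have r0 : 0 < r := lt_min (lt_min hc one_pos) (by positivity)
  have r1 : r ≤ 1 := (min_le_left _ _).trans (min_le_right _ _)
  have r2 : r ≤ c := (min_le_left _ _).trans (min_le_left _ _)
  have r3 : K * r ≤ 1 / (64 * b0 ^ 2) := by
    have := mul_le_mul_of_nonneg_left (min_le_right (min c 1) (1 / (64 * b0 ^ 2 * K)))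
      (by linarith : 0 ≤ K)
    refine this.trans (le_of_eq ?_)
    field_simp
  have r4 : r ^ 2 ≤ r := by nlinarith
  refine ⟨r ^ 2, by positivity, by linarith, by linarith, by rw [Real.sqrt_sq r0.le]; exact r3, ?_⟩
  nlinarith

set_option maxHeartbeats 1000000 in
theorem p1B_of (hO : OdeS) (h2 : Lip2S) (hF : LipFS) (hC : CmpS) (hP : PlatS) (hA : AreaS) :
    P1B := by
  intro b0 c C T0 hb hc hC1
  obtain ⟨Q, q1, hQ⟩ := core hO h2 hF hC hA T0
  obtain ⟨C0, -, hO⟩ := hO T0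
  set C1 := 2 * b0 * (Q * (1 + 2 * C) + Q * b0 + 2) with hC1'
  have c1 : 2 * b0 * Q ≤ C1 := by
    have : 0 ≤ 2 * b0 * (Q * (2 * C) + Q * b0 + 2) := by positivity
    linarith only [this, hC1']
  have c2 : 4 * b0 ≤ C1 := by
    have : 0 ≤ 2 * b0 * (Q * (1 + 2 * C) + Q * b0) := by positivity
    linarith only [this, hC1']
  have c3 : Q ≤ C1 := by nlinarith only [c1, q1, hb]
  obtain ⟨y, y0, y1, y2, y3, y4⟩ := small b0 c (C1 + 15) hb hc (by linarith)
  refine ⟨1 / (16 * b0 ^ 2), 3 * C1, y, 1 / (4 * b0), by positivity, by linarith, y0, by positivity,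
    fun η v J z hB hη N om Y L eps hN hT h hY hYy hL e0 e1 => ?_⟩
  have hv := hB.v_pos
  have η0 := hB.eta_nn
  have hz := hB.lab.up hN
  have hJN : (J:ℝ) * v ≤ N * v := mul_le_mul_of_nonneg_right (by exact_mod_cast hN) hv.le
  have hYJ : Y ≤ J * v := hYy.trans (y1.trans hB.lo)
  have hYN := hYJ.trans hJN
  have h0 : Om v Y L 0 := om_zero v Y h.Lv
  obtain ⟨o, e⟩ := lo_ok hA hz h hv hL hYN
  obtain ⟨k1, -, -, k2⟩ := hQ z N v Y L C η 0 om hv hz hB.lin (by linarith) η0 hT h0 h hY hYN hL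
  obtain ⟨⟨-, -, cA, -⟩, -, ⟨-, g0, -, -, -, x0, x1⟩, bd⟩ := hO _ o (e.trans_le hT)
  rw [e] at cA bd
  have cr := hB.crit N hN
  rw [← lo_zero] at cr
  rw [← WW_eq h le_rfl] at k1 k2
  have W0 : 0 ≤ WW z N v om Y := by rw [WW_eq h le_rfl]; exact DD_nn hz _ _
  have W1 : WW z N v om Y ≤ L * Y := by rw [WW_eq h le_rfl]; exact DD_le hz h hv hY
  have W2 : WW z N v om (2 * Y) = WW z N v om Y := by
    rw [WW_eq h le_rfl, WW_eq h (by linarith)]
  set W := WW z N v om Y with hW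
  set l := lo z v om N with hl
  set l0 := lo z v 0 N with hl0
  have W3 : W ≤ y := by nlinarith only [W1, hL, hY, hYy]
  have b00 : 0 < b0 := by linarith
  have ib : 1 / (64 * b0 ^ 2) ≤ 1 / (4 * b0) :=
    one_div_le_one_div_of_le (by positivity) (by nlinarith only [hb])
  have crd : ∀ t ∈ Icc 0 ((J:ℝ) * v), |GG l0 t - 1 / b0| ≤ η := fun t ht => by
    rw [show GG l0 t - 1 / b0 = (b0 * GG l0 t - 1) / b0 by field_simp, abs_div, abs_of_pos b00]
    exact (div_le_self (abs_nonneg _) hb).trans (cr t ht)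
  have z0 : (0:ℝ) ∈ Icc 0 ((J:ℝ) * v) := ⟨le_rfl, hY.trans hYJ⟩
  have x2 : |chi l ^ 2 - 1 / b0| ≤ Q * W + η := by
    rw [← g0]
    have a := abs_le.1 (k1 0 ⟨le_rfl, hY.trans hYN⟩).2.1
    have b := abs_le.1 (crd 0 z0)
    rw [abs_le]; constructor <;> linarith only [a.1, a.2, b.1, b.2]
  have QW : Q * W ≤ 1 / (64 * b0 ^ 2) :=
    (mul_le_mul (show Q ≤ C1 + 15 by linarith only [c3]) W3 W0 (by linarith only [c3, q1])).trans y4
  have x3 : 1 / (2 * b0) ≤ chi l ^ 2 := by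
    have a := (abs_le.1 x2).1
    have : 1 / b0 = 1 / (2 * b0) + 1 / (4 * b0) + 1 / (4 * b0) := by field_simp; ring
    linarith only [a, this, QW, ib, hη]
  have bm := bb_mul x0 eps
  set b := bb l eps with hbb
  have x4 : chi l ^ 2 ≤ 1 := pow_le_one₀ x0.le x1
  have b0' : 0 ≤ b := by rw [hbb]; unfold bb; exact div_nonneg (by linarith) (sq_nonneg _)
  have b1 : 3 / 4 ≤ b := by nlinarith only [bm, x4, b0', e1]
  have b2 : b ≤ 2 * b0 := by
    have a := mul_le_mul_of_nonneg_left x3 b0'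
    rw [bm, mul_one_div, div_le_iff₀ (by positivity)] at a
    nlinarith only [a, e0, hb]
  have aA : ∀ r ∈ Icc 0 Y, 1 / (8 * b0 ^ 2) ≤ AA l r := fun r hr => by
    have a := (abs_le.1 (bd r ⟨hr.1, hr.2.trans hYN⟩).2.2.2.2.2.2.2.1).1
    have a1 : (1 / (2 * b0)) ^ 2 ≤ (chi l ^ 2) ^ 2 := pow_le_pow_left₀ (by positivity) x3 2
    have a2 : (chi l ^ 2) ^ 2 ≤ chi l ^ 3 := by
      rw [← pow_mul]; exact pow_le_pow_of_le_one x0.le x1 (by norm_num)
    have a3 : (1 / (2 * b0)) ^ 2 = 1 / (8 * b0 ^ 2) + 8 * (1 / (64 * b0 ^ 2)) := by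
      field_simp; ring
    have a4 : 0 < 1 / (64 * b0 ^ 2) := by positivity
    have a5 : 0 ≤ C1 * y := mul_nonneg (by linarith only [c3, q1]) y0.le
    linarith only [hr.2, a, a1, a2, a3, a4, a5, y4, hYy]
  have sharp : ∀ t ∈ Icc 0 ((J:ℝ) * v),
      |ee l eps t - eps - 2 * b * SS z N v 0 om t| ≤ C1 * (W * t ^ 2 + η) := fun t ht => by
    have a := (k1 t ⟨ht.1, ht.2.trans hJN⟩).2.2
    have a1 := abs_le.1 (crd t ht)
    have a2 := abs_le.1 (crd 0 z0)
    have t1 : t ≤ b0 := ht.2.trans hB.hi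
    have e1 : ee l eps t - eps - 2 * b * SS z N v 0 om t =
        -b * ((GG l t - GG l 0 - (GG l0 t - GG l0 0) + 2 * SS z N v 0 om t) +
          (GG l0 t - GG l0 0)) := by
      unfold ee
      rw [← hbb, g0]
      linear_combination -bm
    have a3 : |(GG l t - GG l 0 - (GG l0 t - GG l0 0) + 2 * SS z N v 0 om t) +
        (GG l0 t - GG l0 0)| ≤ (Q * (1 + 2 * C) + Q * b0 + 2) * (W * t ^ 2 + η) := by
      refine (abs_add_le _ _).trans ?_
      have a4 : |GG l0 t - GG l0 0| ≤ 2 * η := by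
        rw [abs_le]; constructor <;> linarith only [a1.1, a1.2, a2.1, a2.2]
      have a5 : W * t ≤ b0 := by nlinarith only [ht.1, t1, W0, W3, y2]
      have a6 := mul_le_mul_of_nonneg_left a5 (show 0 ≤ Q * η by positivity)
      have a7 : 0 ≤ W * t ^ 2 := by positivity
      have a8 : 0 ≤ (Q * b0 + 2) * (W * t ^ 2) := by positivity
      have a9 : 0 ≤ Q * (1 + 2 * C) * η := by positivity
      linarith only [a, a4, a6, a8, a9]
    rw [e1, abs_mul, abs_neg, abs_of_nonneg b0', hC1', mul_assoc (2 * b0)]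
    exact mul_le_mul b2 a3 (abs_nonneg _) (by positivity)
  have one : ∀ t ∈ Icc 0 ((J:ℝ) * v),
      eps + 1 / (8 * b0 ^ 2) * WW z N v om t - C1 * (W * t ^ 2 + η) ≤ ee l eps t ∧
      ee l eps t ≤ eps + C1 * WW z N v om (2 * t) + C1 * (W * t ^ 2 + η) := fun t ht => by
    obtain ⟨s1, s2⟩ := SS_bds hz h0 h hv hL h.nn ⟨ht.1, ht.2.trans hJN⟩ cA
      (fun r hr => ⟨(bd r hr).2.2.2.2.2.1, (bd r hr).2.2.2.2.2.2.1⟩) aA
    rw [WW_sub] at s1 s2
    have w0 : 0 ≤ WW z N v om t := Finset.sum_nonneg fun j _ => by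
      split_ifs
      · exact mul_nonneg (hz.dm_nn j) (h.nn _)
      · exact le_rfl
    have s0 : 0 ≤ SS z N v 0 om t := le_trans (by positivity) s1
    have a := abs_le.1 (sharp t ht)
    have a1 := mul_le_mul (show 2 * b ≤ C1 by linarith only [b2, c2]) s2 s0
      (by linarith only [c3, q1])
    have a2 := mul_le_mul_of_nonneg_right (show 1 ≤ 2 * b by linarith only [b1]) s0
    constructor <;> linarith only [a.1, a.2, a1, a2, s1]
  have two : ∀ t ∈ Icc Y ((J:ℝ) * v), |ee l eps t - thh b0 l eps| ≤ C1 * (√Y * W + η) :=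
    fun t ht => by
    have a := k2 t ⟨ht.1, ht.2.trans hJN⟩
    have a1 := crd t ⟨hY.trans ht.1, ht.2⟩
    have e1 : ee l eps t - thh b0 l eps = -b * ((GG l t - GG l0 t) + (GG l0 t - 1 / b0)) := by
      unfold ee thh
      rw [← hbb]
      ring
    have a2 := (abs_add_le _ _).trans (add_le_add a a1)
    have a3 : 0 ≤ √Y * W := by positivity
    rw [e1, abs_mul, abs_neg, abs_of_nonneg b0']
    refine (mul_le_mul b2 a2 (abs_nonneg _) (by positivity)).trans ?_
    have a4 := mul_le_mul_of_nonneg_right c1 a3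
    have a5 := mul_le_mul_of_nonneg_right (show 2 * b0 ≤ C1 by linarith only [c2, hb]) η0
    linarith only [a4, a5]
  have C10 : 0 ≤ C1 := by linarith only [c3, q1]
  refine ⟨⟨o, e, hYJ⟩, fun t ht => ?_, fun t ht => (two t ht).trans ?_, ?_,
    ⟨x2.trans (by nlinarith only [c3, q1, W0, η0]), W0, W1, x3, b1, b2⟩, fun t ht => ?_⟩
  · obtain ⟨a1, a2⟩ := one t ht
    have w0 : ∀ s, 0 ≤ WW z N v om s := fun s => Finset.sum_nonneg fun j _ => by
      split_ifs
      · exact mul_nonneg (hz.dm_nn j) (h.nn _)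
      · exact le_rfl
    have a3 : 0 ≤ C1 * (W * t ^ 2 + η) := by positivity
    have a4 := mul_nonneg C10 (w0 (2 * t))
    have a5 : 1 / (16 * b0 ^ 2) * WW z N v om t ≤ 1 / (8 * b0 ^ 2) * WW z N v om t :=
      mul_le_mul_of_nonneg_right (one_div_le_one_div_of_le (by positivity)
        (by nlinarith only [hb])) (w0 t)
    refine ⟨by linarith only [a1, a3, a5], by linarith only [a2, a3, a4],
      (sharp t ht).trans (by linarith only [a3])⟩
  · have : 0 ≤ C1 * (√Y * W + η) := by positivity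
    linarith only [this]
  · obtain ⟨a1, a2⟩ := one Y ⟨hY, hYJ⟩
    rw [W2] at a2
    have a3 := abs_le.1 (two Y ⟨le_rfl, hYJ⟩)
    have s1 : √Y ≤ √y := Real.sqrt_le_sqrt hYy
    have s0 := Real.sqrt_nonneg Y
    have s2 : C1 * √Y ≤ 1 / (64 * b0 ^ 2) := by
      nlinarith only [Real.sqrt_nonneg y, s1, C10, y3]
    have s3 : C1 * Y ^ 2 ≤ 1 / (64 * b0 ^ 2) := by
      have : Y ^ 2 ≤ y := by nlinarith only [hY, hYy, y2]
      nlinarith only [this, C10, y4, y0]
    have s4 := mul_le_mul_of_nonneg_right s2 W0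
    have s5 := mul_le_mul_of_nonneg_right s3 W0
    have s6 : 1 / (8 * b0 ^ 2) = 8 * (1 / (64 * b0 ^ 2)) := by field_simp; ring
    have s7 : 1 / (16 * b0 ^ 2) = 4 * (1 / (64 * b0 ^ 2)) := by field_simp; ring
    have s8 : 1 / (64 * b0 ^ 2) ≤ 1 := by
      rw [div_le_one (by positivity)]; nlinarith only [hb]
    have s9 : 0 ≤ 1 / (64 * b0 ^ 2) * W := by positivity
    have s10 := mul_le_mul_of_nonneg_right s8 W0
    have s11 := mul_nonneg C10 η0
    have s12 := mul_le_mul_of_nonneg_right (show 1 ≤ C1 by linarith only [c3, q1]) W0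
    rw [s6] at a1
    rw [s7]
    constructor <;> linarith only [a1, a2, a3.1, a3.2, s4, s5, s9, s10, s11, s12]
  · have a := (hP l o (J * v) t (hY.trans hYJ) ht.1 (by rw [e]; exact ht.2)
      fun s hs => lvr_top hA hB.lab hN h hv hL hs).1
    have := mul_le_mul_of_nonneg_left a b0'
    unfold ee
    rw [← hbb]
    linarith only [this]


end

end Crest.Agent.T156.Pr
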