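import Mathlib
import Crest.Agent.T156.Lsp_88

-- ▼ part T156/Ph_28
section

/-!
# Row 156 (helper28): the logarithmic spread
-/

set_option autoImplicit false

noncomputable section

namespace Crest.Agent.T156.Ph28

open Real Set

/-- the logarithmic clock on `[xs, 1)` with corner length `w` -/
def lgs (xs w x : ℝ) : ℝ := log ((x - xs + w) / w) - log ((1 - x) / (1 - xs))

/-- its density -/
def dl (xs w x : ℝ) : ℝ := if xs ≤ x ∧ x < 1 then 1 / (x - xs + w) + 1 / (1 - x) else 1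

variable {xs w a b x : ℝ}

theorem log_bd {s t : ℝ} (hs : 0 < s) (h : s ≤ t) :
    (t - s) / t ≤ log t - log s ∧ log t - log s ≤ (t - s) / s := by
  have ht := hs.trans_le h
  have a := log_le_sub_one_of_pos (div_pos hs ht)
  have b := log_le_sub_one_of_pos (div_pos ht hs)
  rw [log_div hs.ne' ht.ne'] at a
  rw [log_div ht.ne' hs.ne'] at b
  rw [sub_div, sub_div, div_self hs.ne', div_self ht.ne']
  constructor <;> linarith


theorem lgs_eq (hw : 0 < w) (h0 : xs ≤ x) (h1 : x < 1) :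
    lgs xs w x = log (x - xs + w) - log w - (log (1 - x) - log (1 - xs)) := by
  unfold lgs
  rw [log_div (by linarith) hw.ne', log_div (by linarith) (by linarith)]

theorem dl_eq (h0 : xs ≤ x) (h1 : x < 1) : dl xs w x = 1 / (x - xs + w) + 1 / (1 - x) :=
  if_pos ⟨h0, h1⟩



/-- two-sided increments -/
theorem lgs_sub (hw : 0 < w) (ha : xs ≤ a) (hab : a ≤ b) (hb : b < 1) :
    (b - a) / (b - xs + w) + (b - a) / (1 - a) ≤ lgs xs w b - lgs xs w a ∧
      lgs xs w b - lgs xs w a ≤ (b - a) / (a - xs + w) + (b - a) / (1 - b) := by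
  obtain ⟨c1, c2⟩ := log_bd (s := a - xs + w) (t := b - xs + w) (by linarith) (by linarith)
  obtain ⟨d1, d2⟩ := log_bd (s := 1 - b) (t := 1 - a) (by linarith) (by linarith)
  rw [show b - xs + w - (a - xs + w) = b - a by ring] at c1 c2
  rw [show 1 - a - (1 - b) = b - a by ring] at d1 d2
  rw [lgs_eq hw (ha.trans hab) hb, lgs_eq hw ha (hab.trans_lt hb)]
  constructor <;> linarith





/-- slopes on a shell -/
theorem slope (hw : 0 < w) (ha : xs ≤ a) (hab : a ≤ b) (hb : b < 1)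
    (hs : b - a ≤ min (a - xs + w) (1 - b)) :
    dl xs w a * (b - a) ≤ 2 * (lgs xs w b - lgs xs w a) ∧
      lgs xs w b - lgs xs w a ≤ 2 * (dl xs w a * (b - a)) := by
  obtain ⟨c1, c2⟩ := lgs_sub hw ha hab hb
  have s1 := hs.trans (min_le_left _ _)
  have s2 := hs.trans (min_le_right _ _)
  have d : 0 ≤ b - a := by linarith
  have pa : 0 < a - xs + w := by linarith
  have e1 : (b - a) / (a - xs + w) ≤ 2 * ((b - a) / (b - xs + w)) := by
    rw [← mul_div_assoc, div_le_div_iff₀ pa (by linarith)]; nlinarith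
  have e2 : (b - a) / (1 - b) ≤ 2 * ((b - a) / (1 - a)) := by
    rw [← mul_div_assoc, div_le_div_iff₀ (by linarith) (by linarith)]; nlinarith
  have e3 : 0 ≤ (b - a) / (1 - a) := div_nonneg d (by linarith)
  have e4 : 0 ≤ (b - a) / (a - xs + w) := div_nonneg d pa.le
  rw [dl_eq ha (by linarith), add_mul, one_div_mul_eq_div, one_div_mul_eq_div]
  constructor <;> linarith

/-- the density on a shell -/
theorem dens (hw : 0 < w) (ha : xs ≤ a) (hab : a ≤ b) (hb : b < 1)
    (hs : b - a ≤ min (a - xs + w) (1 - b)) :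
    dl xs w a ≤ 2 * dl xs w b ∧ dl xs w b ≤ 2 * dl xs w a := by
  have s1 := hs.trans (min_le_left _ _)
  have s2 := hs.trans (min_le_right _ _)
  have pa : 0 < a - xs + w := by linarith
  have e1 : 1 / (a - xs + w) ≤ 2 * (1 / (b - xs + w)) := by
    rw [← mul_div_assoc, div_le_div_iff₀ pa (by linarith)]; linarith
  have e2 : 1 / (1 - b) ≤ 2 * (1 / (1 - a)) := by
    rw [← mul_div_assoc, div_le_div_iff₀ (by linarith) (by linarith)]; linarith
  have e3 : 1 / (1 - a) ≤ 1 / (1 - b) := one_div_le_one_div_of_le (by linarith) (by linarith)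
  have e4 : 1 / (b - xs + w) ≤ 1 / (a - xs + w) := one_div_le_one_div_of_le pa (by linarith)
  have e5 : 0 < 1 / (1 - a) := one_div_pos.2 (by linarith)
  have e6 : 0 < 1 / (b - xs + w) := one_div_pos.2 (by linarith)
  rw [dl_eq ha (by linarith), dl_eq (by linarith) hb]
  constructor <;> linarith





/-- small rise forces a shell -/
theorem shell (hw : 0 < w) (ha : xs ≤ a) (hab : a ≤ b) (hb : b < 1)
    (h : lgs xs w b - lgs xs w a ≤ 1 / 2) : b - a ≤ min (a - xs + w) (1 - b) := by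
  have c := (lgs_sub hw ha hab hb).1
  have d1 : 0 ≤ (b - a) / (b - xs + w) := div_nonneg (by linarith) (by linarith)
  have d2 : 0 ≤ (b - a) / (1 - a) := div_nonneg (by linarith) (by linarith)
  have e1 : (b - a) / (b - xs + w) ≤ 1 / 2 := by linarith
  have e2 : (b - a) / (1 - a) ≤ 1 / 2 := by linarith
  rw [div_le_iff₀ (by linarith)] at e1 e2
  exact le_min (by linarith) (by linarith)

end Crest.Agent.T156.Ph28

end
end

-- ▼ part T156/LspB_28

/-!
# Row 156 (helper28): slopes and shells of the logarithmic spread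
-/

set_option autoImplicit false

noncomputable section

namespace Crest.Agent.T156.Alt.Pm

open Real Set

variable (p : Pm) (γ : ℝ) {a b x : ℝ}

/-- the density of `lsp`, positive everywhere -/
def ld (x : ℝ) : ℝ := if p.xs ≤ x ∧ x ≤ 1 then p.lsp' γ x else 1

theorem ld_eq (h0 : p.xs ≤ x) (h1 : x ≤ 1) :
    p.ld γ x = (1 / (x - p.xs + p.l0' γ) + 1 / (1 - x + p.l1')) / p.lL := if_pos ⟨h0, h1⟩

theorem ld_pos (x : ℝ) : 0 < p.ld γ x := by
  unfold ld
  split_ifs with h
  · exact p.lsp'_pos γ h.1 h.2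
  · exact one_pos

theorem l1'_le3 (hn : 1 ≤ p.n) : p.l1' ≤ (p.n : ℝ) ^ (-(3 : ℝ)) := by
  have n0 : (0:ℝ) < p.n := Nat.cast_pos.2 hn
  rw [rpow_neg n0.le, show (p.n : ℝ) ^ (3 : ℝ) = (p.n : ℝ) ^ 3 by norm_num, ← one_div]
  exact one_div_le_one_div_of_le (by positivity) (pow_le_pow_left₀ n0.le (by linarith) 3)

/-- two-sided increments -/
theorem lsp_sub (ha : p.xs ≤ a) (hab : a ≤ b) (hb : b ≤ 1) :
    (b - a) / (b - p.xs + p.l0' γ) + (b - a) / (1 - a + p.l1') ≤ p.lL * (p.lsp γ b - p.lsp γ a) ∧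
      p.lL * (p.lsp γ b - p.lsp γ a) ≤
        (b - a) / (a - p.xs + p.l0' γ) + (b - a) / (1 - b + p.l1') := by
  have w := p.l0'_pos γ
  have w' := p.l1'_pos
  obtain ⟨c1, c2⟩ := Ph28.log_bd (s := a - p.xs + p.l0' γ) (t := b - p.xs + p.l0' γ)
    (by linarith) (by linarith)
  obtain ⟨d1, d2⟩ := Ph28.log_bd (s := 1 - b + p.l1') (t := 1 - a + p.l1') (by linarith)
    (by linarith)
  rw [show b - p.xs + p.l0' γ - (a - p.xs + p.l0' γ) = b - a by ring] at c1 c2
  rw [show 1 - a + p.l1' - (1 - b + p.l1') = b - a by ring] at d1 d2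
  unfold lsp
  rw [← sub_div, mul_div_cancel₀ _ p.lL_pos.ne']
  constructor <;> linarith

/-- slopes on a shell -/
theorem lsp_slope (ha : p.xs ≤ a) (hab : a ≤ b) (hb : b ≤ 1)
    (hs : b - a ≤ min (a - p.xs + p.l0' γ) (1 - b)) :
    p.ld γ a * (b - a) ≤ 2 * (p.lsp γ b - p.lsp γ a) ∧
      p.lsp γ b - p.lsp γ a ≤ 2 * (p.ld γ a * (b - a)) := by
  obtain ⟨c1, c2⟩ := p.lsp_sub γ ha hab hb
  have w := p.l0'_pos γ
  have w' := p.l1'_pos
  have L := p.lL_pos
  have s1 := hs.trans (min_le_left _ _)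
  have s2 := hs.trans (min_le_right _ _)
  have d : 0 ≤ b - a := by linarith
  have pa : 0 < a - p.xs + p.l0' γ := by linarith
  have e1 : (b - a) / (a - p.xs + p.l0' γ) ≤ 2 * ((b - a) / (b - p.xs + p.l0' γ)) := by
    rw [← mul_div_assoc, div_le_div_iff₀ pa (by linarith)]; nlinarith
  have e2 : (b - a) / (1 - b + p.l1') ≤ 2 * ((b - a) / (1 - a + p.l1')) := by
    rw [← mul_div_assoc, div_le_div_iff₀ (by linarith) (by linarith)]; nlinarith
  have e3 : 0 ≤ (b - a) / (1 - a + p.l1') := div_nonneg d (by linarith)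
  have e4 : 0 ≤ (b - a) / (a - p.xs + p.l0' γ) := div_nonneg d pa.le
  have e : p.lL * (p.ld γ a * (b - a)) =
      (b - a) / (a - p.xs + p.l0' γ) + (b - a) / (1 - a + p.l1') := by
    rw [p.ld_eq γ ha (by linarith), ← mul_assoc, mul_div_cancel₀ _ L.ne']; ring
  constructor <;> refine le_of_mul_le_mul_left ?_ L <;> linarith

/-- the density on a shell -/
theorem ld_dens (ha : p.xs ≤ a) (hab : a ≤ b) (hb : b ≤ 1)
    (hs : b - a ≤ min (a - p.xs + p.l0' γ) (1 - b)) :
    p.ld γ a ≤ 2 * p.ld γ b ∧ p.ld γ b ≤ 2 * p.ld γ a := by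
  have w := p.l0'_pos γ
  have w' := p.l1'_pos
  have L := p.lL_pos
  have s1 := hs.trans (min_le_left _ _)
  have s2 := hs.trans (min_le_right _ _)
  have pa : 0 < a - p.xs + p.l0' γ := by linarith
  have e1 : 1 / (a - p.xs + p.l0' γ) ≤ 2 * (1 / (b - p.xs + p.l0' γ)) := by
    rw [← mul_div_assoc, div_le_div_iff₀ pa (by linarith)]; linarith
  have e2 : 1 / (1 - b + p.l1') ≤ 2 * (1 / (1 - a + p.l1')) := by
    rw [← mul_div_assoc, div_le_div_iff₀ (by linarith) (by linarith)]; linarith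
  have e3 : 1 / (1 - a + p.l1') ≤ 1 / (1 - b + p.l1') :=
    one_div_le_one_div_of_le (by linarith) (by linarith)
  have e4 : 1 / (b - p.xs + p.l0' γ) ≤ 1 / (a - p.xs + p.l0' γ) :=
    one_div_le_one_div_of_le pa (by linarith)
  have e5 : 0 < 1 / (1 - a + p.l1') := one_div_pos.2 (by linarith)
  have e6 : 0 < 1 / (b - p.xs + p.l0' γ) := one_div_pos.2 (by linarith)
  rw [p.ld_eq γ ha (by linarith), p.ld_eq γ (by linarith) hb, ← mul_div_assoc, ← mul_div_assoc]
  constructor <;> exact div_le_div_of_nonneg_right (by linarith) L.le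

/-- a small rise forces a shell -/
theorem lsp_shell (ha : p.xs ≤ a) (hab : a ≤ b) (hb : p.l1' ≤ 1 - b)
    (h : p.lL * (p.lsp γ b - p.lsp γ a) ≤ 1 / 3) :
    b - a ≤ min (a - p.xs + p.l0' γ) (1 - b) := by
  have w := p.l0'_pos γ
  have w' := p.l1'_pos
  have c := (p.lsp_sub γ ha hab (by linarith)).1
  have d1 : 0 ≤ (b - a) / (b - p.xs + p.l0' γ) := div_nonneg (by linarith) (by linarith)
  have d2 : 0 ≤ (b - a) / (1 - a + p.l1') := div_nonneg (by linarith) (by linarith)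
  have e1 : (b - a) / (b - p.xs + p.l0' γ) ≤ 1 / 3 := by linarith
  have e2 : (b - a) / (1 - a + p.l1') ≤ 1 / 3 := by linarith
  rw [div_le_iff₀ (by linarith)] at e1 e2
  exact le_min (by linarith) (by linarith)

/-- density times distance to the ends -/
theorem ld_min (h0 : p.xs ≤ x) (h1 : p.l1' ≤ 1 - x) :
    1 / (2 * p.lL) ≤ p.ld γ x * min (x - p.xs + p.l0' γ) (1 - x) ∧
      p.ld γ x * min (x - p.xs + p.l0' γ) (1 - x) ≤ 2 / p.lL := by
  have w := p.l0'_pos γ
  have w' := p.l1'_pos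
  have L := p.lL_pos
  have s : 0 < x - p.xs + p.l0' γ := by linarith
  have q : 0 < 1 - x + p.l1' := by linarith
  rw [p.ld_eq γ h0 (by linarith), div_mul_eq_mul_div, add_mul, one_div_mul_eq_div,
    one_div_mul_eq_div, ← div_div]
  have a : min (x - p.xs + p.l0' γ) (1 - x) / (x - p.xs + p.l0' γ) ≤ 1 :=
    (div_le_one s).2 (min_le_left _ _)
  have b : min (x - p.xs + p.l0' γ) (1 - x) / (1 - x + p.l1') ≤ 1 :=
    (div_le_one q).2 ((min_le_right _ _).trans (by linarith))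
  refine ⟨div_le_div_of_nonneg_right ?_ L.le, div_le_div_of_nonneg_right (by linarith) L.le⟩
  rcases le_total (x - p.xs + p.l0' γ) (1 - x) with c | c
  · rw [min_eq_left c, div_self s.ne']; linarith [div_pos s q]
  · rw [min_eq_right c]
    have : 1 / 2 ≤ (1 - x) / (1 - x + p.l1') := by rw [le_div_iff₀ q]; linarith
    linarith [div_nonneg (show 0 ≤ 1 - x by linarith) s.le]

/-- upper bound of the density by the distances to the ends -/
theorem ld_le (h0 : p.xs ≤ x) (h1 : x < 1) :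
    p.ld γ x ≤ (1 / (x - p.xs + p.l0' γ) + 1 / (1 - x)) / p.lL := by
  rw [p.ld_eq γ h0 h1.le]
  have := one_div_le_one_div_of_le (sub_pos.2 h1) (show 1 - x ≤ 1 - x + p.l1' by
    linarith [p.l1'_pos])
  exact div_le_div_of_nonneg_right (by linarith) p.lL_pos.le

theorem ld_ge (hx : 0 ≤ p.xs) (x : ℝ) : 1 / (2 * p.lL) ≤ p.ld γ x := by
  have L := p.lL_ge
  by_cases h : p.xs ≤ x ∧ x ≤ 1
  · rw [p.ld_eq γ h.1 h.2, ← div_div]
    have a : 0 < 1 / (x - p.xs + p.l0' γ) := one_div_pos.2 (by linarith [p.l0'_pos γ, h.1])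
    have b : 1 / 2 ≤ 1 / (1 - x + p.l1') :=
      one_div_le_one_div_of_le (by linarith [p.l1'_pos, h.2]) (by linarith [p.l1'_le, h.1])
    exact div_le_div_of_nonneg_right (by linarith) (by linarith)
  · rw [ld, if_neg h, div_le_one (by linarith)]; linarith

/-- the corner term: `γ / (lL l0') ≤ 1 / 64` -/
theorem γ_l0' : γ ≤ p.lL * p.l0' γ / 64 := by
  unfold l0'
  rw [mul_div_cancel₀ _ p.lL_pos.ne']
  linarith [le_max_left γ (1 / ((p.n : ℝ) + 1))]

theorem l0'_le : p.l0' γ ≤ 11 * max γ (1 / ((p.n : ℝ) + 1)) := by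
  have : 0 < max γ (1 / ((p.n : ℝ) + 1)) := lt_max_of_lt_right (by positivity)
  unfold l0'
  rw [div_le_iff₀ p.lL_pos]
  nlinarith [p.lL_ge]

theorem lL_le (hn : 2 ≤ (p.n : ℝ)) : p.lL ≤ 18 * log p.n := by
  have : log ((p.n : ℝ) + 3) ≤ log ((p.n : ℝ) ^ 3) :=
    log_le_log (by linarith) (by nlinarith [mul_le_mul hn hn (by norm_num) (by linarith)])
  rw [log_pow] at this
  unfold lL; push_cast at this; linarith

/-- the spread lags behind the label: `γ lsp x ≤ x - xs` -/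
theorem γ_lsp_le (hγ : 0 ≤ γ) (hs : 2 * γ ≤ 1 - p.xs) (h0 : p.xs ≤ x) (h1 : x ≤ 1) :
    γ * p.lsp γ x ≤ x - p.xs ∨ (1 - p.xs) / 2 ≤ x - p.xs := by
  rcases le_total (x - p.xs) ((1 - p.xs) / 2) with c | c
  · left
    have w := p.l0'_pos γ
    have w' := p.l1'_pos
    have L := p.lL_ge
    have a := (p.lsp_sub γ le_rfl h0 h1).2
    rw [p.lsp_xs, sub_zero, sub_self, zero_add] at a
    have d : 0 ≤ x - p.xs := by linarith
    have b1 : γ * ((x - p.xs) / p.l0' γ) ≤ p.lL * (x - p.xs) / 64 := by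
      rw [← mul_div_assoc, div_le_iff₀ w]
      nlinarith [mul_le_mul_of_nonneg_right (p.γ_l0' γ) d]
    have b2 : γ * ((x - p.xs) / (1 - x + p.l1')) ≤ x - p.xs := by
      rw [← mul_div_assoc, div_le_iff₀ (by linarith)]
      nlinarith [mul_le_mul_of_nonneg_right (show γ ≤ 1 - x + p.l1' by linarith) d]
    refine le_of_mul_le_mul_left ?_ p.lL_pos
    nlinarith [mul_le_mul_of_nonneg_left a hγ, mul_le_mul_of_nonneg_right L d]
  · exact Or.inr c

/-- integrated form of `ds ≤ dx` on the plateau -/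
theorem γ_lsp (hγ : 0 ≤ γ) (hx : 0 ≤ p.xs) (hs : 2 * γ ≤ 1 - p.xs) (h0 : p.xs ≤ x) (h1 : x ≤ 1) :
    γ * p.lsp γ x ≤ x - p.xs := by
  rcases p.γ_lsp_le γ hγ hs h0 h1 with c | c
  · exact c
  · linarith [mul_le_of_le_one_right hγ (p.lsp_le_one γ hx h0 h1)]

end Crest.Agent.T156.Alt.Pm

end
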