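import Crest.Agent.T156.PlEx_13
import Crest.Agent.T156.LspB_28
import Crest.Agent.T156.SprDef_59
import Crest.Agent.T156.SrC_3
import Crest.Agent.T156.GrReg_29
import Crest.Agent.T156.SRDef2_19

-- ▼ part T156/SrCD_3
section

/-!
Row 156 (helper3): the density `α dn + γ ld` of the clock of the members of stage C.
-/

set_option autoImplicit false

noncomputable section

namespace Crest.Agent.T156.Alt.SrD3

open Real Plt13

variable {p : Pm} {μ α γ x x' : ℝ}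

theorem dt_anti {V l u u' : ℝ} (hV : 0 < V) (hl : 0 ≤ l) (hu : 0 < u') (h : u' ≤ u) :
    dt V l u ≤ dt V l u' := by
  have c : V * √u' + l ≤ V * √u + l := by nlinarith [sqrt_le_sqrt h]
  unfold dt
  exact div_le_div_of_nonneg_left (by positivity) (by positivity)
    (mul_le_mul (by linarith) c (by positivity) (by linarith))

theorem dt_up {V l u : ℝ} (hV : 0 < V) (V1 : V ≤ 1) (hl : 0 < l) (hu : 0 < u) :
    dt V l u ≤ 1 / (2 * u) := by
  have s := sqrt_pos.2 hu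
  unfold dt
  rw [div_le_div_iff₀ (by positivity) (by positivity)]
  nlinarith [mul_pos hu (mul_pos hV s), mul_le_mul_of_nonneg_left V1 (mul_pos hu hl).le]

theorem db_half (h : Nm p μ) (h0 : p.xs ≤ x) : db (p.la μ) (x - p.xs + u0 p μ) ≤ 1 / 2 := by
  have u := h.u0p
  have f := h.fb_u0
  have s := sqrt_pos.2 u
  have A : u0 p μ ≤ x - p.xs + u0 p μ := by linarith
  unfold fb at f
  rw [div_eq_iff s.ne'] at f
  unfold db
  rw [div_le_div_iff₀ (by have := u.trans_le A; positivity) two_pos]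
  nlinarith [mul_le_mul A (sqrt_le_sqrt A) s.le (u.le.trans A)]

theorem dn_fa (h : Nm p μ) (h0 : p.xs ≤ x) (h1 : x ≤ x') (h2 : x' < 1) :
    dn p μ x ≤ 1 / 2 + dn p μ x' := by
  have pu : 0 < 1 - x' := by linarith
  unfold dn
  rw [den_eq h0 (h1.trans_lt h2), den_eq (h0.trans h1) h2]
  linarith [db_half h h0, dt_anti h.Vp h.lp.le pu (show _ ≤ 1 - x by linarith),
    dt_anti one_pos h.sp.le pu (show _ ≤ 1 - x by linarith),
    db_pos h.lp (show 0 < x' - p.xs + u0 p μ by linarith [h.u0p])]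

theorem dn_up (h : Nm p μ) (h0 : p.xs ≤ x) (h1 : x < 1) : dn p μ x ≤ 1 / 2 + 1 / (1 - x) := by
  have pu : 0 < 1 - x := by linarith
  have e : 1 / (1 - x) = 1 / (2 * (1 - x)) + 1 / (2 * (1 - x)) := by field_simp; ring
  unfold dn
  rw [den_eq h0 h1]
  linarith [db_half h h0, dt_up h.Vp h.V1 h.lp pu, dt_up one_pos le_rfl h.sp pu]

theorem dn_lo (h : Nm p μ) (h0 : p.xs ≤ x) (h2 : p.u2 μ ≤ 1 - x) :
    √(p.u2 μ) / 4 ≤ dn p μ x * ((1 - x) * √(1 - x)) := by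
  have pu : 0 < 1 - x := h.u2p.trans_le h2
  have a := db_pos h.lp (show 0 < x - p.xs + u0 p μ by linarith [h.u0p])
  have b := dt_nn h.Vp h.lp.le pu
  have s := sqrt_pos.2 pu
  have t := h.sp
  have st := sqrt_le_sqrt h2
  have k : √(p.u2 μ) / 4 ≤ dt 1 (√(p.u2 μ)) (1 - x) * ((1 - x) * √(1 - x)) := by
    unfold dt
    rw [div_mul_eq_mul_div, div_le_div_iff₀ (by norm_num) (by positivity)]
    nlinarith [mul_le_mul_of_nonneg_left st (mul_pos t pu).le]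
  unfold dn
  rw [den_eq h0 (by linarith)]
  nlinarith [mul_nonneg (add_nonneg a.le b) (mul_pos pu s).le]

theorem ld_lo (h0 : p.xs ≤ x) : γ * (1 / (x - p.xs + p.l0' γ) / p.lL) ≤ 1 / 64 := by
  have w := p.l0'_pos γ
  have L := p.lL_pos
  rw [div_div, mul_one_div, div_le_div_iff₀ (mul_pos (by linarith) L) (by norm_num)]
  nlinarith [p.γ_l0' γ, mul_nonneg (sub_nonneg.2 h0) L.le]

theorem ld_fa (g0 : 0 ≤ γ) (h0 : p.xs ≤ x) (h1 : x ≤ x') (h2 : x' < 1) :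
    γ * p.ld γ x ≤ 1 / 64 + γ * p.ld γ x' := by
  have L := p.lL_pos
  have a := one_div_le_one_div_of_le (show 0 < 1 - x' + p.l1' by linarith [p.l1'_pos])
    (show _ ≤ 1 - x + p.l1' by linarith)
  have b : 0 ≤ 1 / (x' - p.xs + p.l0' γ) := one_div_nonneg.2 (by linarith [p.l0'_pos γ])
  have c := mul_le_mul_of_nonneg_left (div_le_div_of_nonneg_right (show 1 / (1 - x + p.l1') ≤
    1 / (x' - p.xs + p.l0' γ) + 1 / (1 - x' + p.l1') by linarith) L.le) g0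
  rw [p.ld_eq γ h0 (by linarith), p.ld_eq γ (h0.trans h1) h2.le, add_div, mul_add]
  linarith [ld_lo (γ := γ) h0]

theorem ld_up (g0 : 0 ≤ γ) (g1 : γ ≤ 1) (h0 : p.xs ≤ x) (h1 : x < 1) :
    γ * p.ld γ x ≤ 1 / 64 + 1 / (1 - x) := by
  have a : 0 ≤ 1 / (1 - x) := one_div_nonneg.2 (by linarith)
  have b := mul_le_mul_of_nonneg_left (p.ld_le γ h0 h1) g0
  have c := mul_le_mul g1 (div_le_self a (show 1 ≤ p.lL by linarith [p.lL_ge]))
    (div_nonneg a p.lL_pos.le) zero_le_one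
  rw [add_div, mul_add] at b
  linarith [ld_lo (γ := γ) h0]

/-- the rise of the static clock shift -/
theorem rF_up (h : Nm p μ) (hx : 1 / (p.n : ℝ) ^ 2 ≤ 1 - x) : p.rF μ x - p.rF μ p.xs ≤
    u0 p μ + p.Vc μ * (2 * log p.n) + √(p.u2 μ) / √(1 - x) := by
  have np := h.np
  have n2 := h.n2
  have V0 := h.Vp
  have l0 := h.lp
  have s : 1 / (p.n : ℝ) ≤ √(1 - x) := le_sqrt_of_sq_le (by rwa [div_pow, one_pow])
  have s0 : 0 < √(1 - x) := (by positivity : (0 : ℝ) < 1 / (p.n : ℝ)).trans_le s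
  rw [div_le_iff₀ np] at s
  have a : p.la μ / (p.Vc μ * √(1 - x)) ≤ p.n := by
    rw [div_le_iff₀ (by positivity)]; nlinarith [h.lV]
  have b : log (1 + p.la μ / (p.Vc μ * √(1 - x))) ≤ log ((p.n : ℝ) ^ 2) :=
    log_le_log (by positivity) (by nlinarith)
  rw [log_pow] at b
  have c := (h.rF_bd (x := x) (by linarith [sqrt_pos.1 s0])).2.1
  have d := ft_le one_pos h.sp.le (1 - x)
  rw [h.rT_eq, ft] at c
  push_cast at b
  linarith [h.rF_xs, mul_le_mul_of_nonneg_left b V0.le]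

/-- the shape of the plateau data -/
structure Sh (α : ℝ) (p : Pm) (Q : Pl) (den : ℝ → ℝ) : Prop where
  a0 : 0 ≤ α
  a1 : α ≤ 1
  nm : Nm p p.μe
  g0 : 0 ≤ Q.γ
  g1 : Q.γ ≤ 1
  x0 : Q.x 0 = p.xs
  rs : ∀ x, Q.rs x = α * p.rF p.μe x
  den : ∀ x, den x = α * dn p p.μe x + Q.γ * p.ld Q.γ x

namespace Sh

variable {Q : Pl} {den : ℝ → ℝ} (h : Sh α p Q den)
include h

theorem fa (h0 : p.xs ≤ x) (h1 : x ≤ x') (h2 : x' < 1) : den x ≤ 1 + den x' := by
  have a := mul_le_mul_of_nonneg_left (dn_fa h.nm h0 h1 h2) h.a0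
  rw [h.den, h.den]
  linarith [ld_fa h.g0 h0 h1 h2, h.a1]

theorem up (h0 : p.xs ≤ x) (h1 : x < 1) : den x ≤ 1 + 2 * (1 / (1 - x)) := by
  have a := mul_le_of_le_one_left (h.nm.den0 x).le h.a1
  rw [h.den]
  linarith [ld_up h.g0 h.g1 h0 h1, dn_up h.nm h0 h1]

theorem lo (h0 : p.xs ≤ x) (h2 : p.u2 p.μe ≤ 1 - x) :
    α * (√(p.u2 p.μe) / 4) ≤ den x * ((1 - x) * √(1 - x)) := by
  have a := mul_le_mul_of_nonneg_left (dn_lo h.nm h0 h2) h.a0
  have b := mul_nonneg (mul_nonneg h.g0 (p.ld_pos Q.γ x).le)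
    (mul_nonneg (h.nm.u2p.le.trans h2) (sqrt_nonneg (1 - x)))
  rw [h.den]
  linarith

theorem rise (hx : 1 / (p.n : ℝ) ^ 2 ≤ 1 - x) : Q.rs x - Q.rs p.xs ≤
    u0 p p.μe + p.Vc p.μe * (2 * log p.n) + √(p.u2 p.μe) / √(1 - x) := by
  have a := h.nm.u0p
  have b := h.nm.Vp
  have c := h.nm.l1
  rw [h.rs, h.rs, ← mul_sub]
  exact (mul_le_mul_of_nonneg_left (rF_up h.nm hx) h.a0).trans
    (mul_le_of_le_one_left (by positivity) h.a1)

end Sh

end Crest.Agent.T156.Alt.SrD3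

end
end

-- ▼ part T156/SrCB_3

/-!
Row 156 (helper3): the hypotheses of SR on the members of stage C (numbers).
-/

set_option autoImplicit false
set_option linter.unusedSectionVars false

noncomputable section

namespace Crest.Agent.T156.Alt

open Real Finset Filter
open Mem37 Sr Pre29

namespace SrC3

/-- the level of (VAR) -/
def lS (p : Pm) (E : ℝ) : ℝ := E ^ 10 * (p.s * (p.n : ℝ) ^ (p.c / 6 - 1 / 6))
/-- the level above which the mass is large -/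
def yS (p : Pm) (E : ℝ) : ℝ := E ^ 15 * (p.s * (p.n : ℝ) ^ (p.c / 2 - 1 / 6))

/-- sizes of the family, `Λ = n ^ η` -/
structure Fm (Λ K W D Γ lm : ℝ) (p : Pm) (Q : Pl) (S : Sc) : Prop where
  K1 : 1 ≤ K
  KΛ : 8 * K ^ 2 ≤ Λ
  b1 : 1 + 2 / Λ ≤ p.b 1 p.ye
  hW : W ≤ (p.n : ℝ) ^ (-(1 : ℝ) / 2)
  hD : D ≤ Λ ^ 3 * (p.n : ℝ) ^ (-(7 / 20 : ℝ))
  Γ0 : 0 ≤ Γ
  hΓ : Γ ≤ (p.n : ℝ) ^ (-(7 / 20 : ℝ))
  u0 : (p.n : ℝ) ^ (-(7 / 20) - p.c) ≤ S.u0
  u1 : S.u0 ^ 3 ≤ (p.n : ℝ) ^ (-(1 : ℝ) / 2)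
  ue : S.ue ≤ 1 / p.n
  g2 : S.g2 ≤ (p.n : ℝ) ^ (-(2 / 3) - 7 * p.c)
  gD : D ^ 2 ≤ S.g2
  gr : ∀ t, p.sO Q (p.om 1 p.ye) p.jf < t → |S.gr t| ≤ D * min t S.C
  hl : (p.n : ℝ) ^ (-(7 / 20) - p.c) ≤ lm
  den : ∀ x, p.xs ≤ x → 1 / (p.n : ℝ) ^ 2 ≤ 1 - x → lm ≤ S.den x * min (x - p.xs + S.u0) (1 - x)
  dj : 1 / S.C ≤ S.den p.xs ∧ S.den p.xs ≤ S.C
  ue0 : 1 / (p.n : ℝ) ^ 2 ≤ S.ue
  u3 : p.μe * S.u0 ^ 3 ≤ (p.n : ℝ) ^ (-(2 / 3 : ℝ))
  al : ∃ α, SrD3.Sh α p Q S.den ∧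
    S.g2 ≤ α ^ 2 * (p.n : ℝ) ^ (-(2 / 3 : ℝ)) + (p.n : ℝ) ^ (-(9 / 10 : ℝ))

/-- margins: `n^{3η} ≤ E ≤ E' ≤ n^{c/1000}` -/
structure Mg (η E E' : ℝ) (p : Pm) : Prop where
  c1 : p.c ≤ 1 / 2000
  lo : (p.n : ℝ) ^ (3 * η) ≤ E
  mid : E ≤ E'
  hi : E' ≤ (p.n : ℝ) ^ (p.c / 1000)

section num

variable {β c0 C0 c η K₀ E E' : ℝ} {A : ℕ} {p : Pm} (H : Reg β c0 C0 A c η K₀ p) (G : Mg η E E' p)
include H

theorem μe0 : 0 < p.μe := H.μ_pos H.mem_end

theorem n2_le {x : ℝ} (hx : (p.n : ℝ) ^ (-(1 : ℝ)) ≤ x) : 1 / (p.n : ℝ) ^ 2 ≤ x := by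
  refine le_trans ?_ hx
  rw [rpow_neg_one, ← one_div]
  exact one_div_le_one_div_of_le H.N0 (le_self_pow₀ H.N1.le two_ne_zero)

theorem n2_le' {Z x : ℝ} (hc : p.c ≤ 1) (Z0 : 0 < Z) (Z1 : Z ≤ (p.n : ℝ) ^ (p.c / 1000))
    (h2 : (p.n : ℝ) ^ (-(1 : ℝ) / 2) / Z ≤ x) : 1 / (p.n : ℝ) ^ 2 ≤ x := by
  refine n2_le H (le_trans ?_ h2)
  rw [le_div_iff₀ Z0]
  refine (mul_le_mul_of_nonneg_left Z1 (H.rp0 _).le).trans ?_
  rw [← rpow_add H.N0]
  exact rp_le H.n1 (by linarith)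

theorem lg_μe : logb p.n p.μe = -(7 * c) := by
  rw [Pm.μe, H.lg_μ_eq H.mem_end, H.lg_ye, logb_one]; ring

include G

theorem E0 : 0 < E := (H.rp0 _).trans_le G.lo
theorem E0' : 0 < E' := (E0 H G).trans_le G.mid

theorem lg_E : 3 * η ≤ logb p.n E ∧ logb p.n E ≤ logb p.n E' ∧ logb p.n E' ≤ c / 1000 ∧
    c ≤ 1 / 2000 ∧ 0 < η :=
  ⟨H.lg_rp (3 * η) ▸ H.lg_mono (H.rp0 _) G.lo, H.lg_mono (E0 H G) G.mid,
    H.hc ▸ H.lg_rp (p.c / 1000) ▸ H.lg_mono (E0' H G) G.hi, H.hc ▸ G.c1, H.η_pos⟩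

theorem l0 : 0 < lS p E' := mul_pos (pow_pos (E0' H G) _) (mul_pos H.s0 (H.rp0 _))
theorem y0 : 0 < yS p E' := mul_pos (pow_pos (E0' H G) _) (mul_pos H.s0 (H.rp0 _))

theorem lg_l : logb p.n (lS p E') = 10 * logb p.n E' + logb p.n p.s + c / 6 - 1 / 6 := by
  rw [lS, logb_mul (pow_pos (E0' H G) _).ne' (mul_pos H.s0 (H.rp0 _)).ne',
    logb_mul H.s0.ne' (H.rp0 _).ne', logb_pow, H.lg_rp, H.hc]
  push_cast; ring

theorem lg_y : logb p.n (yS p E') = 15 * logb p.n E' + logb p.n p.s + c / 2 - 1 / 6 := by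
  rw [yS, logb_mul (pow_pos (E0' H G) _).ne' (mul_pos H.s0 (H.rp0 _)).ne',
    logb_mul H.s0.ne' (H.rp0 _).ne', logb_pow, H.lg_rp, H.hc]
  push_cast; ring

theorem r_le_l : p.r ≤ lS p E' := H.le_of_lg H.r0 (l0 H G) (by
  rw [lg_l H G, H.lg_r]; linarith [lg_E H G, H.c_pos])

theorem l_le_y : lS p E' ≤ yS p E' := H.le_of_lg (l0 H G) (y0 H G) (by
  rw [lg_l H G, lg_y H G]; linarith [lg_E H G, H.c_pos])

theorem y_le_ye : yS p E' ≤ p.ye := H.le_of_lg (y0 H G) H.ye0 (by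
  rw [lg_y H G, H.lg_ye]; linarith [lg_E H G, H.c_pos, H.lg_s])

theorem jf_le_r : p.jf * p.v ≤ p.r := H.le_of_lg H.jfv0 H.r0 (by
  linarith [H.lg_jf.2, H.lg_r, lg_E H G, H.c_pos])

theorem half_le : (p.n : ℝ) ^ (-(1 : ℝ) / 2) ≤ lS p E' ^ 3 :=
  H.le_of_lg (H.rp0 _) (pow_pos (l0 H G) _) (by
    rw [logb_pow, lg_l H G, H.lg_rp]; push_cast; linarith [lg_E H G, H.c_pos, H.lg_s])

theorem Λ_le : (p.n : ℝ) ^ η ≤ E :=
  (rp_le H.n1 (by linarith [H.η_pos])).trans G.lo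

variable {K W D Γ lm Y : ℝ} {Q : Pl} {g : ℕ → ℝ} {S : Sc} (h : Mc K W D Γ p Q g S)
  (F : Fm ((p.n : ℝ) ^ η) K W D Γ lm p Q S)
include h F

theorem lg_K : 0 ≤ logb p.n S.C ∧ logb p.n S.C ≤ η :=
  H.lg_cst h.cl.C1 (h.eC ▸ F.KΛ)

theorem D_le : D ≤ (p.n : ℝ) ^ (3 * η - 7 / 20) := by
  refine F.hD.trans_eq ?_
  rw [rp_pow, ← rpow_add H.N0]; congr 1; push_cast; ring

/-- **numbers of `SH`** -/
theorem nc (hY : lS p E' ^ 3 ≤ Y) (hY1 : E ^ 200 * Y ≤ (p.n : ℝ) ^ (-(1 : ℝ) / 10)) :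
    Nc E K W D Γ (lS p E') (yS p E') Y p Q S := by
  obtain ⟨e1, e2, e3, e4, e5⟩ := lg_E H G
  have E0 := E0 H G
  have Y0 := (half_le H G).trans hY
  have σ := H.lg_s
  have c0' := H.c_pos
  have D1 := D_le H G h F
  have D0 := h.D0
  have m0 := μe0 H
  have lμ := lg_μe H
  have lC := lg_K H G h F
  have C0' := h.cl.C0
  have l1 := H.log1
  have k0 := H.κ0
  have r0 := H.r0
  have K1 := F.K1
  have j0 := H.jfv0
  have jf := H.lg_jf
  have E6 : 1000 ≤ E := H.num_le.trans (Λ_le H G)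
  have n0 := H.rp0 (-(1 : ℝ) / 2)
  have KC : 4 * K ≤ S.C := by rw [h.eC]; nlinarith
  refine ⟨E0.le, le_trans (add_le_add le_rfl (div_le_div_of_nonneg_left zero_le_two H.Λ0
    (Λ_le H G))) F.b1, ?_, ?_, F.dj.2, ⟨(H.rp0 _).trans_le F.u0, F.u1.trans Y0⟩, F.ue.trans (le_trans ?_ Y0), ?_,
    F.hW.trans Y0, fun t ht => (le_abs_self _).trans ((F.gr t ht).trans (mul_le_mul
      (D1.trans (rp_le H.n1 (by linarith))) (min_le_left _ _) ?_ (H.rp0 _).le)), ?_, F.g2.trans ?_, ?_,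
    (jf_le_r H G).trans (r_le_l H G), hY,
    (jf_le_r H G).trans ((r_le_l H G).trans (l_le_y H G)), ?_, Y0, hY1, le_trans ?_ hY,
    le_trans ?_ (pow_le_pow_left₀ (pow_pos (l0 H G) _).le hY 2), ?_, ?_⟩
  · refine H.le_of_lg (by positivity) one_pos ?_
    rw [logb_mul (by positivity) (by positivity), logb_mul two_ne_zero m0.ne', lμ, logb_one]
    linarith [H.lg_two.2, H.lg_log.2]
  · refine ((pow_le_pow_left₀ F.Γ0 F.hΓ 2).trans ?_).trans Y0
    rw [rp_pow]; exact rp_le H.n1 (by norm_num)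
  · rw [one_div, ← rpow_neg_one]; exact rp_le H.n1 (by norm_num)
  · refine le_trans (show _ ≤ 7 * log (p.n : ℝ) by linarith) (H.le_of_lg (by positivity) E0 ?_)
    rw [logb_mul (by norm_num) (by positivity)]
    linarith [(H.lg_num (x := 7) (by norm_num) (by norm_num)).2, H.lg_log.2]
  · exact le_min ((h.cl.s_nn p.jf).trans ht.le) C0'.le
  · have a : ((p.n : ℝ) ^ (3 * η - 7 / 20)) ^ 2 * (4 * S.C ^ 2 / (p.κ ^ 2 * p.r)) ≤
        (p.n : ℝ) ^ (-(1 : ℝ) / 2) := by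
      have := H.rp0 (3 * η - 7 / 20)
      refine H.le_of_lg (by positivity) n0 ?_
      rw [logb_mul (by positivity) (by positivity), logb_div (by positivity) (by positivity),
        logb_mul (by positivity) (by positivity), logb_mul (by positivity) (by positivity),
        logb_pow, logb_pow, logb_pow, H.lg_rp, H.lg_rp, H.lg_κ, H.lg_r]
      push_cast
      linarith [(H.lg_num (x := 4) (by norm_num) (by norm_num)).2]
    have b : ((p.n : ℝ) ^ (3 * η - 7 / 20)) ^ 2 * (S.C ^ 2 / p.μe ^ 2) ≤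
        (p.n : ℝ) ^ (-(1 : ℝ) / 2) := by
      have := H.rp0 (3 * η - 7 / 20)
      refine H.le_of_lg (by positivity) n0 ?_
      rw [logb_mul (by positivity) (by positivity), logb_div (by positivity) (by positivity),
        logb_pow, logb_pow, logb_pow, H.lg_rp, H.lg_rp, lμ]
      push_cast
      linarith
    have d := mul_le_mul_of_nonneg_right (pow_le_pow_left₀ D0 D1 2)
      (show 0 ≤ 4 * S.C ^ 2 / (p.κ ^ 2 * p.r) + S.C ^ 2 / p.μe ^ 2 by positivity)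
    have e := mul_le_mul E6 Y0 n0.le E0.le
    linarith [F.hW]
  · refine le_trans ?_ (mul_le_mul_of_nonneg_left Y0 (by positivity))
    refine H.le_of_lg (H.rp0 _) (by positivity) ?_
    rw [logb_mul (by positivity) (by positivity), logb_mul (by positivity) (by positivity),
      logb_pow, H.lg_rp, H.lg_rp, lμ, H.hc]
    push_cast; linarith
  · have := H.rp0 (-(1 : ℝ) / 6)
    refine H.le_of_lg (by positivity) j0 ?_
    rw [logb_mul (by positivity) (by positivity), logb_mul (by positivity) (by positivity),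
      logb_pow, H.lg_rp]
    push_cast; linarith [H.lg_two.2]
  · have := H.rp0 (-(1 : ℝ) / 3)
    have := y0 H G
    rw [min_eq_left (y_le_ye H G)]
    refine H.le_of_lg (by positivity) (by positivity) ?_
    rw [logb_mul (by positivity) (by positivity), logb_mul (by positivity) (by positivity),
      logb_pow, logb_pow, H.lg_rp, H.lg_κ, lg_y H G]
    push_cast; linarith
  · have := H.rp0 (-(1 : ℝ) / 3)
    have := y0 H G
    refine H.le_of_lg (by positivity) (pow_pos (l0 H G) _) ?_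
    rw [logb_mul (by positivity) (by positivity), logb_pow, H.lg_rp, lg_y H G, lg_l H G]
    push_cast; linarith
  · have := y0 H G
    refine H.le_of_lg (by positivity) (pow_pos (pow_pos (l0 H G) _) _) ?_
    rw [logb_mul (by positivity) (by positivity), logb_pow, logb_pow, logb_pow, lg_y H G, lg_l H G]
    push_cast; linarith
  · refine le_trans (mul_le_mul (show 2 * K ≤ S.C by linarith) D1 D0 C0'.le) ?_
    have := H.rp0 (3 * η - 7 / 20)
    refine H.le_of_lg (by positivity) (by positivity) ?_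
    rw [logb_mul (by positivity) (by positivity), logb_mul (by positivity) (by positivity),
      logb_pow, H.lg_rp, H.lg_κ, H.lg_r]
    push_cast; linarith
  · have v0 := H.v0
    refine KC.trans (le_of_mul_le_mul_right ?_ v0)
    rw [mul_assoc _ (p.jf : ℝ)]
    refine H.le_of_lg (by positivity) (by positivity) ?_
    have A2 : (2 : ℝ) ≤ A := by exact_mod_cast H.A2
    rw [logb_mul C0'.ne' v0.ne', logb_mul (by positivity) j0.ne',
      logb_mul (by positivity) (by positivity), logb_pow, H.lg_κ, H.lg_r]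
    push_cast; linarith [H.lg_v_le]

theorem sh (hY : lS p E' ^ 3 ≤ Y) (hY1 : E ^ 200 * Y ≤ (p.n : ℝ) ^ (-(1 : ℝ) / 10)) :
    SH E S (p.cM Q g) (lS p E') (yS p E') Y := h.sh (nc H G h F hY hY1)

theorem w3_eq (t : ℝ) : S.w3 t = 1 / (p.n * t * p.ms 1 p.ye t) := by
  rw [Sc.w3, h.eF, h.en, h.ems]

theorem lg_w1 : 0 < S.w3 1 ∧ logb p.n (S.w3 1) = -1 + 7 * c := by
  have m0 := μe0 H
  have n0 := H.N0
  rw [w3_eq H G h F, h.ms_top h.y1, mul_one]
  refine ⟨by positivity, ?_⟩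
  rw [one_div, logb_inv, logb_mul n0.ne' m0.ne', H.lg_n, lg_μe H]; ring

theorem lg_w {t : ℝ} (h1 : p.r ≤ t) (h2 : t ≤ p.ye) :
    0 < S.w3 t ∧ logb p.n (S.w3 t) = -1 + c - 3 * logb p.n t := by
  have t0 := H.r0.trans_le h1
  have n0 := H.N0
  have k0 := H.κ0
  rw [w3_eq H G h F, h.ms_eq, min_eq_left h2, max_eq_right h1]
  refine ⟨by positivity, ?_⟩
  rw [one_div, logb_inv, logb_mul (by positivity) (by positivity), logb_mul n0.ne' t0.ne',
    logb_mul k0.ne' (by positivity), logb_pow, H.lg_n, H.lg_κ]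
  push_cast; ring

/-- **scale data of (VAR)** -/
theorem vh (hY : lS p E' ^ 3 ≤ Y) (hY1 : E ^ 200 * Y ≤ (p.n : ℝ) ^ (-(1 : ℝ) / 10)) :
    VH E S (p.cM Q g) (lS p E') lm Y := by
  have s := sh H G h F hY hY1
  obtain ⟨e1, e2, e3, e4, e5⟩ := lg_E H G
  have E0 := E0 H G
  have Y0 := (half_le H G).trans hY
  have σ := H.lg_s
  have c0' := H.c_pos
  have l0' := l0 H G
  have ly := (l_le_y H G).trans (y_le_ye H G)
  have n0 := H.rp0 (-(1 : ℝ) / 2)
  refine ⟨s.jj, s.jl, s.l3, ?_, fun t a b => ?_, s.ue, s.u0, (H.rp0 _).trans_le F.hl, ?_,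
    fun x a b => ?_, h.xs_eq ▸ F.dj, s.ck, s.Y0, s.Y1⟩
  · obtain ⟨a, b⟩ := lg_w H G h F (r_le_l H G) ly
    refine H.le_of_lg (by positivity) (by positivity) ?_
    rw [logb_mul (by positivity) a.ne', logb_pow, logb_pow, b, lg_l H G]
    push_cast; linarith
  · have t0 := l0'.trans_le a
    rcases le_total t p.ye with d | d
    · obtain ⟨f, f'⟩ := lg_w H G h F ((r_le_l H G).trans a) d
      refine le_trans (H.le_of_lg (by positivity) (by positivity) ?_)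
        (pow_le_pow_left₀ (pow_pos l0' _).le hY 3)
      have := H.lg_mono l0' a
      rw [logb_mul (by positivity) (by positivity), logb_pow, logb_pow, logb_pow, logb_pow, f']
      rw [lg_l H G] at this ⊢
      push_cast; linarith
    · have m0 := μe0 H
      have N0 := H.N0
      rw [w3_eq H G h F, h.ms_top d]
      refine le_trans (H.le_of_lg (by positivity) (by positivity) ?_)
        (pow_le_pow_left₀ n0.le Y0 3)
      rw [logb_mul (by positivity) (by positivity), logb_pow, logb_pow, logb_pow, one_div, logb_inv,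
        logb_mul (by positivity) m0.ne', logb_mul N0.ne' t0.ne', H.lg_n, lg_μe H, H.lg_rp]
      push_cast; linarith [H.lg_mono t0 b, (lg_K H G h F).2]
  · obtain ⟨a, b⟩ := lg_w1 H G h F
    refine le_trans (H.le_of_lg a (mul_pos n0 (H.rp0 _)) ?_)
      (mul_le_mul Y0 F.hl (H.rp0 _).le (n0.le.trans Y0))
    rw [logb_mul n0.ne' (H.rp0 _).ne', b, H.lg_rp, H.lg_rp, H.hc]
    linarith
  · rw [h.xs_eq] at a ⊢
    exact F.den x a (n2_le H ((rp_le H.n1 (by norm_num)).trans (Y0.trans (by linarith))))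

theorem ml {t : ℝ} (ht : (p.cM Q g).s S.jl ≤ t) : E' ^ 60 * S.ms t ≤ t ^ 2 := by
  obtain ⟨e1, e2, e3, e4, e5⟩ := lg_E H G
  have E0 := E0' H G
  have c0' := H.c_pos
  have k0 := H.κ0
  have r0 := H.r0
  have j0 := H.jfv0
  rw [h.jl] at ht
  have a : p.jf * p.v / 2 ≤ t := h.s_jf.1.trans ht
  rw [h.ems, h.ms_eq]
  rcases le_total p.r (min t p.ye) with d | d
  · rw [max_eq_right d, ← mul_assoc]
    have b : E' ^ 60 * p.κ ≤ 1 := H.le_of_lg (by positivity) one_pos (by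
      rw [logb_mul (by positivity) k0.ne', logb_pow, H.lg_κ, logb_one]; push_cast; linarith)
    exact (mul_le_of_le_one_left (sq_nonneg _) b).trans
      (pow_le_pow_left₀ (r0.le.trans d) (min_le_left _ _) 2)
  · rw [max_eq_left d]
    refine le_trans (H.le_of_lg (by positivity) (by positivity) ?_)
      (pow_le_pow_left₀ (by positivity) a 2)
    rw [logb_mul (by positivity) (by positivity), logb_mul k0.ne' (by positivity), logb_pow,
      logb_pow, logb_pow, logb_div j0.ne' two_ne_zero, H.lg_κ, H.lg_r]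
    push_cast; linarith [H.lg_jf.1, H.lg_two.2]

theorem g5 : S.g2 ≤ S.θ * nu S ^ 2 := by
  rw [h.θ_eq, nu, h.en]
  refine F.g2.trans (H.le_of_lg (H.rp0 _) (mul_pos (μe0 H) (pow_pos (H.rp0 _) _)) ?_)
  rw [logb_mul (μe0 H).ne' (pow_pos (H.rp0 _) _).ne', logb_pow, H.lg_rp, H.lg_rp,
    lg_μe H, H.hc]
  push_cast; linarith

theorem g3 {t : ℝ} (h1 : yS p E' ≤ t) (h2 : t ≤ S.C) : t * S.g2 ≤ S.θ * S.ms t * lS p E' ^ 3 := by
  obtain ⟨e1, e2, e3, e4, e5⟩ := lg_E H G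
  have t0 := (y0 H G).trans_le h1
  have m0 := μe0 H
  have l0' := l0 H G
  have k0 := H.κ0
  have σ := H.lg_s
  have c0' := H.c_pos
  have g0 := H.rp0 (-(2 / 3) - 7 * p.c)
  refine (mul_le_mul_of_nonneg_left F.g2 t0.le).trans ?_
  rw [h.θ_eq, h.ems]
  rcases le_total t p.ye with d | d
  · rw [h.ms_eq, min_eq_left d, max_eq_right ((r_le_l H G).trans ((l_le_y H G).trans h1))]
    refine H.le_of_lg (by positivity) (by positivity) ?_
    have := H.lg_mono (y0 H G) h1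
    rw [logb_mul t0.ne' g0.ne', logb_mul (by positivity) (by positivity),
      logb_mul m0.ne' (by positivity), logb_mul k0.ne' (by positivity), logb_pow, logb_pow,
      H.lg_rp, lg_μe H, H.lg_κ, lg_l H G, H.hc]
    rw [lg_y H G] at this
    push_cast; linarith
  · rw [h.ms_top d]
    refine H.le_of_lg (by positivity) (by positivity) ?_
    rw [logb_mul t0.ne' g0.ne', logb_mul (by positivity) (by positivity),
      logb_mul m0.ne' m0.ne', logb_pow, H.lg_rp, lg_μe H, lg_l H G, H.hc]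
    push_cast; linarith [H.lg_mono t0 h2, (lg_K H G h F).2]

theorem HJ : (p.cM Q g).H S.Jp ≤ 1 := by
  obtain ⟨e1, e2, e3, e4, e5⟩ := lg_E H G
  have m0 := μe0 H
  have c0' := H.c_pos
  have l1 := H.log1
  have C0' := h.cl.C0
  have K1 := F.K1
  have q : ∀ {x : ℝ}, 0 < x → logb p.n x ≤ -η → x ≤ 1 / 3 := fun {x} hx hl => by
    refine H.le_of_lg hx (by norm_num) ?_
    rw [one_div, logb_inv]
    linarith [(H.lg_num (x := 3) (by norm_num) (by norm_num)).2]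
  have a : S.C * p.μe ≤ 1 / 3 := q (by positivity) (by
    rw [logb_mul C0'.ne' m0.ne', lg_μe H]; linarith [(lg_K H G h F).2])
  have b : p.μe * (6 * log p.n) ≤ 1 / 3 := q (by positivity) (by
    rw [logb_mul m0.ne' (by positivity), logb_mul (by norm_num) (by positivity), lg_μe H]
    linarith [(H.lg_num (x := 6) (by norm_num) (by norm_num)).2, H.lg_log.2])
  have d := (D_le H G h F).trans (q (H.rp0 _) (by rw [H.lg_rp]; linarith))
  have e := mul_le_mul_of_nonneg_right (show K * (K + 1) ≤ S.C by rw [h.eC]; nlinarith) m0.le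
  rw [h.eJp]
  linarith [h.H_Jp]

theorem u0w : S.w3 1 ≤ lm * S.u0 := by
  obtain ⟨e1, e2, e3, e4, e5⟩ := lg_E H G
  obtain ⟨a, b⟩ := lg_w1 H G h F
  have n0 := H.rp0 (-(7 / 20) - p.c)
  refine le_trans (H.le_of_lg a (mul_pos n0 n0) ?_) (mul_le_mul F.hl F.u0 n0.le (n0.le.trans F.hl))
  rw [logb_mul n0.ne' n0.ne', b, H.lg_rp, H.hc]
  linarith

theorem w2 : (S.n : ℝ) ^ (-(251 : ℝ) / 500) ≤ lm * max S.θ (nu S) := by
  obtain ⟨e1, e2, e3, e4, e5⟩ := lg_E H G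
  have n0 := H.rp0 (-(7 / 20) - p.c)
  have m0 := μe0 H
  rw [h.en, h.θ_eq]
  refine le_trans (H.le_of_lg (H.rp0 _) (mul_pos n0 m0) ?_)
    (mul_le_mul F.hl (le_max_left _ _) m0.le (n0.le.trans F.hl))
  rw [logb_mul n0.ne' m0.ne', H.lg_rp, H.lg_rp, lg_μe H, H.hc]
  linarith

theorem dt {Z x : ℝ} (Z0 : 0 < Z) (Z1 : Z ≤ (p.n : ℝ) ^ (p.c / 1000)) (h1 : p.xs ≤ x)
    (h2 : (p.n : ℝ) ^ (-(1 : ℝ) / 2) / Z ≤ 1 - x) :
    (p.n : ℝ) ^ ((1 : ℝ) / 7) ≤ p.n * max S.θ (nu S) * (S.den x * (1 - x) ^ 2) := by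
  obtain ⟨e1, e2, e3, e4, e5⟩ := lg_E H G
  have n0 := H.rp0 (-(7 / 20) - p.c)
  have n1 := H.rp0 (-(1 : ℝ) / 2)
  have m0 := μe0 H
  have N0 := H.N0
  have ρ0 := div_pos n1 Z0
  have d0 := h.cl.den0 x
  have a := (F.hl.trans (F.den x h1 (n2_le' H (by linarith [G.c1]) Z0 Z1 h2))).trans
    (mul_le_mul_of_nonneg_left (min_le_right _ _) d0.le)
  have b := mul_le_mul a h2 ρ0.le (n0.le.trans a)
  rw [mul_assoc, ← sq] at b
  rw [h.θ_eq]
  refine le_trans (H.le_of_lg (H.rp0 _) (by positivity) ?_) (mul_le_mul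
    (mul_le_mul_of_nonneg_left (le_max_left p.μe (nu S)) N0.le) b (by positivity)
    (mul_nonneg N0.le (le_max_of_le_left m0.le)))
  have := H.lg_mono Z0 Z1
  rw [logb_mul (by positivity) (by positivity), logb_mul N0.ne' m0.ne', logb_mul n0.ne' ρ0.ne',
    logb_div n1.ne' Z0.ne', H.lg_n, lg_μe H, H.lg_rp, H.lg_rp, H.lg_rp]
  rw [H.lg_rp] at this
  rw [H.hc] at this ⊢
  linarith

theorem dl {x : ℝ} (h1 : p.xs ≤ x) (h2 : S.ue ≤ 1 - x) (h3 : 1 - x ≤ (p.n : ℝ) ^ (-(1 : ℝ) / 2)) :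
    1 ≤ S.den x := by
  obtain ⟨e1, e2, e3, e4, e5⟩ := lg_E H G
  have n1 := H.rp0 (-(1 : ℝ) / 2)
  have d0 := h.cl.den0 x
  have a := ((F.hl.trans (F.den x h1 (F.ue0.trans h2))).trans
    (mul_le_mul_of_nonneg_left (min_le_right _ _) d0.le)).trans
    (mul_le_mul_of_nonneg_left h3 d0.le)
  have b : (p.n : ℝ) ^ (-(1 : ℝ) / 2) ≤ (p.n : ℝ) ^ (-(7 / 20) - p.c) :=
    rp_le H.n1 (by linarith [G.c1])
  exact le_of_mul_le_mul_right (by linarith) n1

theorem dq {Z x : ℝ} (Z0 : 0 < Z) (Z1 : Z ≤ (p.n : ℝ) ^ (p.c / 1000)) (h1 : p.xs ≤ x)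
    (h2 : (p.n : ℝ) ^ (-(1 : ℝ) / 2) / Z ≤ 1 - x) :
    (p.n : ℝ) ^ ((39 : ℝ) / 100) ≤
      p.n * max S.θ (nu S) * (S.den x * (1 - x) ^ ((3 : ℝ) / 2)) := by
  obtain ⟨e1, e2, e3, e4, e5⟩ := lg_E H G
  have n0 := H.rp0 (-(7 / 20) - p.c)
  have n1 := H.rp0 (-(1 : ℝ) / 2)
  have m0 := μe0 H
  have N0 := H.N0
  have ρ0 := div_pos n1 Z0
  have x0 := ρ0.trans_le h2
  have d0 := h.cl.den0 x
  have a := (F.hl.trans (F.den x h1 (n2_le' H (by linarith [G.c1]) Z0 Z1 h2))).trans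
    (mul_le_mul_of_nonneg_left (min_le_right _ _) d0.le)
  have r0 := rpow_pos_of_pos ρ0 ((1 : ℝ) / 2)
  have b := mul_le_mul a (rpow_le_rpow ρ0.le h2 (show (0 : ℝ) ≤ 1 / 2 by norm_num)) r0.le
    (n0.le.trans a)
  have e : (1 - x) * (1 - x) ^ ((1 : ℝ) / 2) = (1 - x) ^ ((3 : ℝ) / 2) := by
    rw [show (3 : ℝ) / 2 = 1 + 1 / 2 by norm_num, rpow_add x0, rpow_one]
  rw [mul_assoc, e] at b
  rw [h.θ_eq]
  refine le_trans (H.le_of_lg (H.rp0 _) (by positivity) ?_) (mul_le_mul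
    (mul_le_mul_of_nonneg_left (le_max_left p.μe (nu S)) N0.le) b (by positivity)
    (mul_nonneg N0.le (le_max_of_le_left m0.le)))
  have := H.lg_mono Z0 Z1
  rw [logb_mul (by positivity) (by positivity), logb_mul N0.ne' m0.ne', logb_mul n0.ne' r0.ne',
    logb_rpow_eq_mul_logb_of_pos ρ0, logb_div n1.ne' Z0.ne', H.lg_n, lg_μe H, H.lg_rp, H.lg_rp,
    H.lg_rp]
  rw [H.lg_rp] at this
  rw [H.hc] at this ⊢
  linarith

theorem jl4 : (p.n : ℝ) ^ ((1 : ℝ) / 140) * (p.cM Q g).s S.jl ^ 3 ≤ nu S := by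
  obtain ⟨e1, e2, e3, e4, e5⟩ := lg_E H G
  have n0 := H.rp0 ((1 : ℝ) / 140)
  have j0 := H.jfv0
  rw [h.jl, nu, h.en]
  refine le_trans (mul_le_mul_of_nonneg_left (pow_le_pow_left₀ (h.cl.s_nn p.jf) h.s_jf.2 3)
    n0.le) (H.le_of_lg (by positivity) (H.rp0 _) ?_)
  rw [logb_mul (by positivity) (by positivity), logb_pow, H.lg_rp, H.lg_rp]
  push_cast; linarith [H.lg_jf.2, H.lg_s.2]

theorem fl2 : (p.cM Q g).s S.Jp - (p.cM Q g).s S.J ≤ nu S := by
  rw [h.eJ, h.eJp, nu, h.en]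
  exact h.flat.trans (F.hΓ.trans (rp_le H.n1 (by norm_num)))

theorem g6 {t : ℝ} (h1 : yS p E' ≤ t) (h2 : t ≤ S.C) :
    t * nu S ^ 2 / (p.n : ℝ) ^ ((1 : ℝ) / 100) ≤ S.ms t * lS p E' ^ 3 := by
  obtain ⟨e1, e2, e3, e4, e5⟩ := lg_E H G
  have t0 := (y0 H G).trans_le h1
  have m0 := μe0 H
  have l0' := l0 H G
  have k0 := H.κ0
  have σ := H.lg_s
  have c0' := H.c_pos
  have g0 := H.rp0 (-(1 : ℝ) / 3)
  have g1 := H.rp0 ((1 : ℝ) / 100)
  rw [nu, h.en, h.ems]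
  rcases le_total t p.ye with d | d
  · rw [h.ms_eq, min_eq_left d, max_eq_right ((r_le_l H G).trans ((l_le_y H G).trans h1))]
    refine H.le_of_lg (by positivity) (by positivity) ?_
    have := H.lg_mono (y0 H G) h1
    rw [logb_div (by positivity) g1.ne', logb_mul t0.ne' (by positivity),
      logb_mul (by positivity) (by positivity), logb_mul k0.ne' (by positivity), logb_pow, logb_pow,
      logb_pow, H.lg_rp, H.lg_rp, H.lg_κ, lg_l H G]
    rw [lg_y H G] at this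
    push_cast; linarith
  · rw [h.ms_top d]
    refine H.le_of_lg (by positivity) (by positivity) ?_
    rw [logb_div (by positivity) g1.ne', logb_mul t0.ne' (by positivity),
      logb_mul m0.ne' (by positivity), logb_pow, logb_pow, H.lg_rp, H.lg_rp, lg_μe H, lg_l H G]
    push_cast; linarith [H.lg_mono t0 h2, (lg_K H G h F).2]

theorem jl3 : E' ^ 10 * (p.cM Q g).s S.jl ^ 3 ≤ nu S := by
  obtain ⟨e1, e2, e3, e4, e5⟩ := lg_E H G
  have E0 := E0' H G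
  have j0 := H.jfv0
  rw [h.jl, nu, h.en]
  refine le_trans (mul_le_mul_of_nonneg_left (pow_le_pow_left₀ (h.cl.s_nn p.jf) h.s_jf.2 3)
    (by positivity)) (H.le_of_lg (by positivity) (H.rp0 _) ?_)
  rw [logb_mul (by positivity) (by positivity), logb_pow, logb_pow, H.lg_rp]
  push_cast; linarith [H.lg_jf.2, H.lg_s.2]

theorem rt5 {t : ℝ} (h1 : yS p E' ≤ t) : (p.cM Q g).s S.jl ^ 5 ≤ S.ms t * lS p E' ^ 3 := by
  obtain ⟨e1, e2, e3, e4, e5⟩ := lg_E H G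
  have j0 := H.jfv0
  have y0' := y0 H G
  have l0' := l0 H G
  have k0 := H.κ0
  have a := h.cl.msm h1
  rw [h.ems, h.ms_eq (yS p E'), min_eq_left (y_le_ye H G),
    max_eq_right ((r_le_l H G).trans (l_le_y H G))] at a
  rw [h.jl, h.ems]
  refine le_trans (pow_le_pow_left₀ (h.cl.s_nn p.jf) h.s_jf.2 5) (le_trans
    (H.le_of_lg (by positivity) (by positivity) ?_) (mul_le_mul_of_nonneg_right a (by positivity)))
  rw [logb_mul (by positivity) (by positivity), logb_mul k0.ne' (by positivity), logb_pow, logb_pow,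
    logb_pow, H.lg_κ, lg_y H G, lg_l H G]
  push_cast; linarith [H.lg_jf.2, H.c_pos]

theorem gs {t : ℝ} (h1 : lS p E' ≤ t) : S.gr t ^ 2 ≤ t * S.ms t * lS p E' ^ 3 := by
  obtain ⟨e1, e2, e3, e4, e5⟩ := lg_E H G
  have l0' := l0 H G
  have t0 := l0'.trans_le h1
  have k0 := H.κ0
  have m0 := μe0 H
  have C0' := h.cl.C0
  have σ := H.lg_s
  have c0' := H.c_pos
  have d0 := H.rp0 (3 * η - 7 / 20)
  have jr : p.jf * p.v < p.r := by
    have := H.le_of_lg (x := 2 * (p.jf * p.v)) (by linarith [H.jfv0]) H.r0 (by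
      rw [logb_mul two_ne_zero H.jfv0.ne']; linarith [H.lg_jf.2, H.lg_r, H.lg_two.2])
    linarith [H.jfv0]
  have a := (F.gr t ((h.s_jf.2.trans_lt jr).trans_le ((r_le_l H G).trans h1))).trans
    (mul_le_mul_of_nonneg_right (D_le H G h F) (le_min t0.le C0'.le))
  rw [← sq_abs]
  refine (pow_le_pow_left₀ (abs_nonneg _) a 2).trans ?_
  have m1 : 0 ≤ min t S.C := le_min t0.le C0'.le
  rw [h.ems, mul_pow, sq (min t S.C)]
  rcases le_total t p.ye with d | d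
  · rw [h.ms_eq, min_eq_left d, max_eq_right ((r_le_l H G).trans h1)]
    refine le_trans (mul_le_mul_of_nonneg_left (mul_le_mul (min_le_left _ _) (min_le_left _ _) m1
      t0.le) (by positivity)) (H.le_of_lg (by positivity) (by positivity) ?_)
    have := H.lg_mono l0' h1
    rw [logb_mul (by positivity) (by positivity), logb_mul t0.ne' t0.ne',
      logb_mul (by positivity) (by positivity), logb_mul t0.ne' (by positivity),
      logb_mul k0.ne' (by positivity), logb_pow, logb_pow, logb_pow, H.lg_rp, H.lg_κ]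
    rw [lg_l H G] at this ⊢
    push_cast; linarith
  · rw [h.ms_top d]
    refine le_trans (mul_le_mul_of_nonneg_left (mul_le_mul (min_le_left _ _) (min_le_right _ _) m1
      t0.le) (by positivity)) (H.le_of_lg (by positivity) (by positivity) ?_)
    rw [logb_mul (by positivity) (by positivity), logb_mul t0.ne' C0'.ne',
      logb_mul (by positivity) (by positivity), logb_mul t0.ne' m0.ne', logb_pow, logb_pow,
      H.lg_rp, lg_μe H, lg_l H G]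
    push_cast; linarith [(lg_K H G h F).2]

theorem gm {t : ℝ} (h1 : (p.cM Q g).s S.jl < t) (h2 : t ≤ S.C) :
    S.θ * S.gr t ^ 2 ≤ E * S.ms t * S.g2 := by
  rw [h.jl] at h1
  have t0 := (h.cl.s_nn p.jf).trans h1.le
  have a := F.gr t h1
  rw [min_eq_left h2] at a
  have b := pow_le_pow_left₀ (abs_nonneg _) a 2
  rw [sq_abs, mul_pow] at b
  have C1 := h.cl.C1
  have CE : S.C ^ 2 ≤ E := H.le_of_lg (by positivity) (E0 H G) (by
    rw [logb_pow]; push_cast; linarith [(lg_K H G h F).2, lg_E H G])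
  have m0 := h.cl.ms_pos t0
  have d : S.θ * t ^ 2 ≤ S.C ^ 2 * S.ms t := by
    rw [h.θ_eq, h.ems]
    rcases le_total t p.ye with e | e
    · rw [h.μe_eq, h.ms_eq, min_eq_left e]
      have f := mul_le_mul (pow_le_one₀ H.ye0.le h.y1 (n := 2))
        (pow_le_pow_left₀ t0 (le_max_right p.r t) 2) (sq_nonneg _) zero_le_one
      have f' := mul_le_mul_of_nonneg_left f h.k0.le
      have f2 := le_mul_of_one_le_left (show 0 ≤ p.κ * max p.r t ^ 2 by have := h.k0; positivity)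
        (one_le_pow₀ C1 (n := 2))
      linarith
    · rw [h.ms_top e, mul_comm]
      exact mul_le_mul_of_nonneg_right (pow_le_pow_left₀ t0 h2 2) h.μe0.le
  have e := mul_le_mul (d.trans (mul_le_mul_of_nonneg_right CE m0.le)) F.gD (sq_nonneg _)
    (mul_nonneg (E0 H G).le m0.le)
  linarith [mul_le_mul_of_nonneg_left b h.cl.θ0.le]

theorem d0 : (p.n : ℝ) ^ ((1 : ℝ) / 7) ≤ p.n * max S.θ (nu S) * (lm * S.u0) := by
  obtain ⟨e1, e2, e3, e4, e5⟩ := lg_E H G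
  have n0 := H.rp0 (-(7 / 20) - p.c)
  have m0 := μe0 H
  have N0 := H.N0
  rw [h.θ_eq]
  refine le_trans (H.le_of_lg (H.rp0 _) (by positivity) ?_) (mul_le_mul
    (mul_le_mul_of_nonneg_left (le_max_left p.μe (nu S)) N0.le)
    (mul_le_mul F.hl F.u0 n0.le (n0.le.trans F.hl)) (by positivity)
    (mul_nonneg N0.le (le_max_of_le_left m0.le)))
  rw [logb_mul (by positivity) (by positivity), logb_mul N0.ne' m0.ne', logb_mul n0.ne' n0.ne',
    H.lg_n, lg_μe H, H.lg_rp, H.lg_rp, H.hc]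
  linarith

theorem lm2 : (p.n : ℝ) ^ (-(18 : ℝ) / 25) ≤ lm ^ 2 * max S.θ (nu S) := by
  obtain ⟨e1, e2, e3, e4, e5⟩ := lg_E H G
  have n0 := H.rp0 (-(7 / 20) - p.c)
  have m0 := μe0 H
  rw [h.θ_eq]
  refine le_trans (H.le_of_lg (H.rp0 _) (by positivity) ?_) (mul_le_mul
    (pow_le_pow_left₀ n0.le F.hl 2) (le_max_left p.μe (nu S)) m0.le (sq_nonneg _))
  rw [logb_mul (by positivity) m0.ne', logb_pow, lg_μe H, H.lg_rp, H.lg_rp, H.hc]
  push_cast; linarith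

theorem g7 {t : ℝ} (h1 : yS p E' ≤ t) (h2 : t ≤ S.C) : t * (p.n : ℝ) ^ ((1 : ℝ) / 6) ≤
    ((p.n : ℝ) ^ ((5 : ℝ) / 6) * (S.ms t * lS p E' ^ 3)) ^ 2 := by
  obtain ⟨e1, e2, e3, e4, e5⟩ := lg_E H G
  have t0 := (y0 H G).trans_le h1
  have m0 := μe0 H
  have l0' := l0 H G
  have k0 := H.κ0
  have σ := H.lg_s
  have c0' := H.c_pos
  have g0 := H.rp0 ((1 : ℝ) / 6)
  have g1 := H.rp0 ((5 : ℝ) / 6)
  rw [h.ems]
  rcases le_total t p.ye with d | d
  · rw [h.ms_eq, min_eq_left d, max_eq_right ((r_le_l H G).trans ((l_le_y H G).trans h1))]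
    refine H.le_of_lg (by positivity) (by positivity) ?_
    have := H.lg_mono (y0 H G) h1
    rw [logb_mul t0.ne' g0.ne', logb_pow, logb_mul g1.ne' (by positivity),
      logb_mul (by positivity) (by positivity), logb_mul k0.ne' (by positivity), logb_pow, logb_pow,
      H.lg_rp, H.lg_rp, H.lg_κ, lg_l H G]
    rw [lg_y H G] at this
    push_cast; linarith
  · rw [h.ms_top d]
    refine H.le_of_lg (by positivity) (by positivity) ?_
    rw [logb_mul t0.ne' g0.ne', logb_pow, logb_mul g1.ne' (by positivity),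
      logb_mul m0.ne' (by positivity), logb_pow, H.lg_rp, H.lg_rp, lg_μe H, lg_l H G]
    push_cast; linarith [H.lg_mono t0 h2, (lg_K H G h F).2]

omit G h F in
theorem lg_st (hc : c ≤ 1 / 2000) : logb p.n (p.Vc p.μe) = -(1 / 6) + 3 * c / 4 ∧
    logb p.n (p.u2 p.μe) = -(5 / 6) + 27 * c / 4 ∧
    logb p.n (Plt13.u0 p p.μe) = -(2 / 9) + 2 * c := by
  have m0 := μe0 H
  have a : logb p.n (p.Vc p.μe) = -(1 / 6) + 3 * c / 4 := by
    rw [H.lg_Vc m0, lg_μe H, max_eq_left (by linarith), add_zero]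
  refine ⟨a, by rw [H.lg_u2 m0, lg_μe H, a]; ring, ?_⟩
  rw [Plt13.u0, logb_rpow_eq_mul_logb_of_pos (H.la0 m0), H.lg_la m0, lg_μe H,
    min_eq_right (by linarith)]
  ring

/-- the two cuts -/
theorem cuts : ∃ r₁ r₂, (p.n : ℝ) ^ (-(18 / 25 : ℝ)) ≤ r₁ ∧ r₁ ≤ (p.n : ℝ) ^ (-(101 : ℝ) / 200) ∧
    (p.n : ℝ) ^ (p.c / 1000) * r₁ ≤ r₂ ∧ (p.n : ℝ) ^ (-(71 / 100 : ℝ)) ≤ r₂ ∧
    r₂ ≤ (p.n : ℝ) ^ (-(1 : ℝ) / 2) ∧ r₂ * S.g2 ≤ (p.n : ℝ) ^ (-(137 : ℝ) / 100) ∧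
    ∀ x, p.xs ≤ x → r₁ ≤ 1 - x →
      (p.n : ℝ) ^ (-(121 / 200 : ℝ)) ≤ S.den x * ((1 - x) * √(1 - x)) ∧
      (p.n : ℝ) ^ (-(43 / 50 : ℝ)) ≤ S.den x * (1 - x) ^ 2 := by
  obtain ⟨e1, e2, e3, e4, e5⟩ := lg_E H G
  obtain ⟨α, A, hg⟩ := F.al
  have c0' := H.c_pos
  have R := fun x => H.rp0 x
  have L := fun {a b : ℝ} (e : a ≤ b) => rp_le H.n1 e
  have l2 := H.lg_two.2
  have hc := H.hc
  have two : ∀ {x y : ℝ}, x ≤ (p.n : ℝ) ^ (-(1371 / 1000 : ℝ)) → y ≤ (p.n : ℝ) ^ (-(7 / 5 : ℝ)) →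
      x + y ≤ (p.n : ℝ) ^ (-(137 : ℝ) / 100) := fun {x y} a b => by
    have := H.le_of_lg (x := 2 * (p.n : ℝ) ^ (-(1371 / 1000 : ℝ))) (by linarith [R (-(1371 / 1000))])
      (R (-(137 : ℝ) / 100)) (by rw [logb_mul two_ne_zero (R _).ne', H.lg_rp, H.lg_rp]; linarith)
    linarith [L (show -(7 / 5 : ℝ) ≤ -(1371 / 1000) by norm_num)]
  rcases le_total (α ^ 2) ((p.n : ℝ) ^ (-(41 / 200 : ℝ))) with a | a
  · refine ⟨_, _, L (by norm_num), le_rfl, ?_, L (by norm_num), le_rfl, ?_, fun x b d => ?_⟩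
    · rw [← rpow_add H.N0]; exact L (by linarith)
    · refine (mul_le_mul_of_nonneg_left (hg.trans (add_le_add (mul_le_mul_of_nonneg_right a
        (R _).le) le_rfl)) (R _).le).trans ?_
      rw [mul_add, ← rpow_add H.N0, ← rpow_add H.N0, ← rpow_add H.N0]
      exact two (L (by norm_num)) (L (by norm_num))
    · have x0 := (R _).trans_le d
      have f := (F.hl.trans (F.den x b (n2_le H ((L (by norm_num)).trans d)))).trans
        (mul_le_mul_of_nonneg_left (min_le_right _ _) (h.cl.den0 x).le)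
      have f0 := (R _).le.trans f
      have s := sqrt_le_sqrt d
      rw [sqrt_eq_rpow, ← rpow_mul H.N0.le] at s
      have f1 := mul_le_mul f s (R _).le f0
      have f2 := mul_le_mul f d (R _).le f0
      rw [← rpow_add H.N0, mul_assoc] at f1 f2
      exact ⟨(L (by linarith)).trans f1, (L (by linarith)).trans (f2.trans_eq (by ring))⟩
  · have a2 := (R _).trans_le a
    have α0 : 0 < α := A.a0.lt_of_ne fun e => by rw [← e] at a2; norm_num at a2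
    have la := H.lg_mono (R _) a
    have la' := H.lg_np α0 A.a1
    rw [logb_pow, H.lg_rp] at la
    push_cast at la
    have r2 : 0 < (p.n : ℝ) ^ (-(71 / 100 : ℝ)) / α ^ 2 := div_pos (R _) a2
    have r1 := div_pos r2 (R (p.c / 1000))
    have q2 : logb p.n ((p.n : ℝ) ^ (-(71 / 100 : ℝ)) / α ^ 2) = -(71 / 100) - 2 * logb p.n α := by
      rw [logb_div (R _).ne' a2.ne', logb_pow, H.lg_rp]; norm_num
    have q1 := logb_div (b := p.n) r2.ne' (R (p.c / 1000)).ne'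
    rw [q2, H.lg_rp] at q1
    have b1 := H.le_of_lg (R (-(18 / 25))) r1 (by rw [q1, H.lg_rp]; linarith)
    have b2 := H.le_of_lg r2 (R (-(1 : ℝ) / 2)) (by rw [q2, H.lg_rp]; linarith)
    refine ⟨_, _, b1, H.le_of_lg r1 (R _) (by rw [q1, H.lg_rp]; linarith),
      (mul_div_cancel₀ _ (R _).ne').le, H.le_of_lg (R _) r2 (by rw [q2, H.lg_rp]; linarith), b2,
      ?_, fun x b d => ?_⟩
    · refine (mul_le_mul_of_nonneg_left hg r2.le).trans ?_
      rw [mul_add, ← mul_assoc, div_mul_cancel₀ _ a2.ne', ← rpow_add H.N0]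
      refine two (L (by norm_num)) ((mul_le_mul_of_nonneg_right b2 (R _).le).trans ?_)
      rw [← rpow_add H.N0]; exact L (by norm_num)
    · obtain ⟨-, lu, -⟩ := lg_st H e4
      have u0 := A.nm.u2p
      have s0 := A.nm.sp
      have x0 := r1.trans_le d
      have f := A.lo b ((H.le_of_lg u0 (R _) (by rw [lu, H.lg_rp]; linarith)).trans (b1.trans d))
      have f0 : 0 < α * (√(p.u2 p.μe) / 4) := by positivity
      have lf : logb p.n (α * (√(p.u2 p.μe) / 4)) =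
          logb p.n α + (-(5 / 12) + 27 * c / 8 - logb p.n 4) := by
        rw [logb_mul α0.ne' (by positivity), logb_div s0.ne' (by norm_num), lg_sqrt _ u0.le, lu]
        ring
      have l4 := (H.lg_num (x := 4) (by norm_num) (by norm_num)).2
      have f2 := mul_le_mul f (sqrt_le_sqrt d) (sqrt_nonneg _) (f0.le.trans f)
      rw [mul_assoc (S.den x), mul_assoc (1 - x), mul_self_sqrt x0.le, ← sq] at f2
      refine ⟨le_trans (H.le_of_lg (R _) f0 (by rw [lf, H.lg_rp]; linarith)) f,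
        le_trans (H.le_of_lg (R _) (mul_pos f0 (sqrt_pos.2 r1)) ?_) f2⟩
      rw [logb_mul f0.ne' (sqrt_pos.2 r1).ne', lf, lg_sqrt _ r1.le, q1, H.lg_rp]
      linarith

/-- the rise of the clock below a cut -/
theorem rise {k : ℕ} (h1 : S.J ≤ k) (h2 : k ≤ S.Jp)
    (h3 : (p.n : ℝ) ^ (-(18 / 25 : ℝ)) ≤ 1 - (p.cM Q g).z (k - 1)) :
    (p.cM Q g).ck k - (p.cM Q g).ck S.J ≤ (p.n : ℝ) ^ (-(21 : ℝ) / 400) := by
  obtain ⟨e1, e2, e3, e4, e5⟩ := lg_E H G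
  obtain ⟨α, A, -⟩ := F.al
  obtain ⟨_, _, _, _, _, _, _, m⟩ := h.mem
  obtain ⟨lV, lu, l0⟩ := lg_st H e4
  have cl := h.cl
  have a := (le_abs_self _).trans (Pp.Ode3.Gam_lip cl.ap ⟨cl.s_nn S.J, cl.s_TT (cl.i3.trans cl.i4.le)⟩
    ⟨cl.s_nn k, cl.s_TT (h2.trans cl.i4.le)⟩)
  rw [abs_of_nonneg (sub_nonneg.2 (cl.sm h1))] at a
  have b := cl.sm h2
  have d : (p.cM Q g).s S.Jp - (p.cM Q g).s S.J ≤ Γ := by rw [h.eJ, h.eJp]; exact h.flat
  have j := h.jJ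
  rw [h.eJ] at h1
  rw [h.eJp] at h2
  obtain ⟨i, rfl⟩ := Nat.exists_eq_add_of_le h1
  have hi : i ≤ Q.I := by unfold Pm.Jp at h2; omega
  change _ ≤ 1 - p.zP Q (max (p.J + i - 1) p.jf) at h3
  rw [max_eq_left (by omega), m.geo.zP_x hi] at h3
  have f := A.rise (n2_le H ((rp_le H.n1 (by norm_num)).trans h3))
  have R := fun x => H.rp0 x
  have l4 := (H.lg_num (x := 4) (by norm_num) (by norm_num)).2
  have q : ∀ {x : ℝ}, 0 < x → logb p.n x ≤ -(21 / 400) - η →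
      4 * x ≤ (p.n : ℝ) ^ (-(21 : ℝ) / 400) := fun {x} hx hl => H.le_of_lg (by positivity) (R _) (by
      rw [logb_mul (by norm_num) hx.ne', H.lg_rp]; linarith)
  have l1 := H.log1
  have V0 := A.nm.Vp
  have s0 := A.nm.sp
  have s1 := sqrt_pos.2 (R (-(18 / 25)))
  have q1 := q (R (-(7 / 20))) (by rw [H.lg_rp]; linarith)
  have q2 := q A.nm.u0p (by rw [l0]; linarith)
  have q3 := q (x := p.Vc p.μe * (2 * log p.n)) (by positivity) (by
    rw [logb_mul V0.ne' (by positivity), logb_mul two_ne_zero (by positivity), lV]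
    linarith [H.lg_two.2, H.lg_log.2])
  have q4 := q (div_pos s0 s1) (by
    rw [logb_div s0.ne' s1.ne', lg_sqrt _ A.nm.u2p.le, lg_sqrt _ (R _).le, lu, H.lg_rp]; linarith)
  have q5 := div_le_div_of_nonneg_left s0.le s1 (sqrt_le_sqrt h3)
  have e : (p.cM Q g).ck (p.J + i) - (p.cM Q g).ck S.J = ((p.cM Q g).q (p.J + i) -
      (p.cM Q g).q S.J) + (Q.rs (Q.x i) - Q.rs p.xs) := by
    rw [h.eJ, ← A.x0, ← m.geo.xP_x hi, ← m.geo.xP_x (Nat.zero_le _)]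
    show (p.cM Q g).q (p.J + i) + Q.rs (p.xP Q (p.J + i)) - ((p.cM Q g).q p.J +
      Q.rs (p.xP Q (p.J + 0))) = _
    ring
  rw [e]
  change (p.cM Q g).q (p.J + i) - (p.cM Q g).q S.J ≤ _ at a
  linarith [F.hΓ]

/-- **the cuts of `SX`** -/
theorem tp {k : ℕ} {E₀ Y : ℝ} (E0 : 0 < E₀) (z1 : E₀ ^ k ≤ (p.n : ℝ) ^ (p.c / 1000))
    (z2 : E₀ ^ (k ^ 2) ≤ (p.n : ℝ) ^ (p.c / 1000)) (hY : Y = E₀ ^ (k ^ 2) * lS p E' ^ 3) :
    ∃ r₁ r₂, Tp k E₀ S (p.cM Q g) lm Y r₁ r₂ := by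
  obtain ⟨e1, e2, e3, e4, e5⟩ := lg_E H G
  obtain ⟨r₁, r₂, f1, f2, f3, f4, f5, f6, f7⟩ := cuts H G h F
  obtain ⟨α, A, -⟩ := F.al
  have c0' := H.c_pos
  have R := fun x => H.rp0 x
  have L := fun {a b : ℝ} (e : a ≤ b) => rp_le H.n1 e
  have m0 := μe0 H
  have lμ := lg_μe H
  have N0 := H.N0
  have r0 := (R _).trans_le f1
  have Z0 : 0 < E₀ ^ (k ^ 2) := pow_pos E0 _
  have M0 : p.μe ≤ max S.θ (nu S) := h.θ_eq ▸ le_max_left _ _
  have M1 : p.μe ≤ max S.θ (nuY k E₀ S Y) := h.θ_eq ▸ le_max_left _ _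
  have up : ∀ {a b y : ℝ}, (p.n : ℝ) ^ b ≤ y → a ≤ 1 - 7 * c + b →
      (p.n : ℝ) ^ a ≤ p.n * max S.θ (nu S) * y := fun {a b y} i j => by
    refine le_trans (H.le_of_lg (R _) (mul_pos (mul_pos N0 m0) (R b)) ?_) (mul_le_mul
      (mul_le_mul_of_nonneg_left M0 N0.le) i (R _).le (mul_nonneg N0.le (m0.le.trans M0)))
    rw [logb_mul (by positivity) (R _).ne', logb_mul N0.ne' m0.ne', H.lg_n, lμ, H.lg_rp, H.lg_rp]
    linarith
  have e32 : ∀ {x : ℝ}, r₁ ≤ 1 - x → (1 - x) ^ ((3 : ℝ) / 2) = (1 - x) * √(1 - x) := fun {x} a => by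
    rw [show (3 : ℝ) / 2 = 1 + 1 / 2 by norm_num, rpow_add (r0.trans_le a), rpow_one, sqrt_eq_rpow]
  have dq : ∀ x, p.xs ≤ x → r₁ ≤ 1 - x → (p.n : ℝ) ^ ((39 : ℝ) / 100) ≤
      p.n * max S.θ (nu S) * (S.den x * (1 - x) ^ ((3 : ℝ) / 2)) := fun x a b => by
    rw [e32 b]; exact up (f7 x a b).1 (by linarith)
  have r12 : r₁ ≤ r₂ := (le_mul_of_one_le_left r0.le (one_le_rpow H.N1.le
    (by rw [H.hc]; linarith))).trans f3
  refine ⟨r₁, r₂, h.en ▸ up f1 (by linarith), h.en ▸ f2,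
    (mul_le_mul_of_nonneg_right z1 r0.le).trans f3, f5.trans ?_, h.en ▸ f6, ?_, fun x a b => ?_,
    fun x a b => h.en ▸ up (f7 x (h.xs_eq ▸ a) b).2 (by linarith),
    fun x a b => h.en ▸ dq x (h.xs_eq ▸ a) b, fun x a b => ?_,
    .inr fun j a b d => h.en ▸ rise H G h F a b (f1.trans d), fun x a b => ?_, fun j a b d => ?_⟩
  · rw [Yd, hY, mul_div_cancel_left₀ _ Z0.ne']; exact half_le H G
  · rw [h.θ_eq, h.en]
    exact (mul_le_of_le_one_right (r0.le.trans r12) (H.le_of_lg m0 one_pos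
      (by rw [lμ, logb_one]; linarith))).trans f5
  · rw [h.xs_eq] at a ⊢
    exact F.den x a (n2_le H ((L (by norm_num)).trans (f1.trans b)))
  · have l0' := l0 H G
    have i : (p.n : ℝ) ^ (-(1 : ℝ) / 3) ≤ nuY k E₀ S Y := h.en ▸ le_max_left _ _
    have Y0 : 0 < Y := by rw [hY]; positivity
    have s0 := sqrt_pos.2 Y0
    have z := H.lg_mono Z0 z2
    have d := up (a := 79 / 200 - 7 * c) (f7 x (h.xs_eq ▸ a) b).1 (by linarith)
    have t0 := R (-(21 : ℝ) / 200)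
    have t1 := R (79 / 200 - 7 * c)
    have t2 := R (-(1 : ℝ) / 3)
    rw [h.en, e32 b]
    refine le_trans (H.le_of_lg (by positivity) (by positivity) ?_)
      (mul_le_mul d (pow_le_pow_left₀ t2.le i 2) (sq_nonneg _) (t1.le.trans d))
    rw [logb_mul (by positivity) t0.ne', logb_mul Z0.ne' s0.ne', lg_sqrt _ Y0.le, hY,
      logb_mul Z0.ne' (by positivity), logb_mul t1.ne' (by positivity), logb_pow _ (lS p E'),
      logb_pow _ ((p.n : ℝ) ^ _), lg_l H G, H.lg_rp, H.lg_rp, H.lg_rp]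
    rw [H.lg_rp, H.hc] at z
    push_cast; linarith [H.lg_s.2]
  · have t0 := R (-(71 / 100))
    have x0 : 0 < 1 - x := by linarith
    have i : 1 / (1 - x) ≤ 16 * (1 / (p.n : ℝ) ^ (-(71 / 100 : ℝ))) := by
      rw [mul_one_div, div_le_div_iff₀ x0 t0]; linarith
    have j : 1 ≤ 1 / (p.n : ℝ) ^ (-(71 / 100 : ℝ)) := by
      rw [le_div_iff₀ t0, one_mul]; exact rpow_le_one_of_one_le_of_nonpos H.N1.le (by norm_num)
    have t1 := R ((8 : ℝ) / 11)
    rw [h.en]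
    refine (A.up (h.xs_eq ▸ a) (by linarith)).trans (le_trans (show _ ≤ 33 *
      (1 / (p.n : ℝ) ^ (-(71 / 100 : ℝ))) by linarith) (le_trans (H.le_of_lg (by positivity)
        (mul_pos t1 m0) ?_) (mul_le_mul_of_nonneg_left M1 t1.le)))
    rw [logb_mul (by norm_num) (by positivity), one_div, logb_inv, logb_mul t1.ne' m0.ne', lμ,
      H.lg_rp, H.lg_rp]
    linarith [(H.lg_num (x := 33) (by norm_num) (by norm_num)).2]
  · have t1 := R ((3 : ℝ) / 10)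
    rw [h.en]
    refine (rise H G h F a b (f1.trans (r12.trans d))).trans (le_trans (H.le_of_lg (R _)
      (mul_pos t1 m0) ?_) (mul_le_mul_of_nonneg_left M1 t1.le))
    rw [logb_mul t1.ne' m0.ne', lμ, H.lg_rp, H.lg_rp]
    linarith

theorem fa {x x' : ℝ} (h0 : p.xs ≤ x) (h1 : x ≤ x') (h2 : x' < 1) :
    S.den x ≤ E * (1 + S.den x') := by
  obtain ⟨α, A, -⟩ := F.al
  exact (A.fa h0 h1 h2).trans (le_mul_of_one_le_left (by linarith [h.cl.den0 x'])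
    (H.Λ1.trans (Λ_le H G)))

theorem u3 {Z : ℝ} (Z1 : 1 ≤ Z) : S.θ * S.u0 ^ 3 ≤ Z * nu S ^ 2 ∧ ∀ t, yS p E' ≤ t → t ≤ S.C →
    t * (S.θ * S.u0 ^ 3) ≤ Z * (S.ms t * lS p E' ^ 3) := by
  obtain ⟨e1, e2, e3, e4, e5⟩ := lg_E H G
  have m0 := μe0 H
  have l0' := l0 H G
  have k0 := H.κ0
  have σ := H.lg_s
  have c0' := H.c_pos
  have g0 := H.rp0 (-(2 / 3))
  rw [h.θ_eq]
  refine ⟨F.u3.trans (le_trans (le_of_eq ?_) (le_mul_of_one_le_left (sq_nonneg _) Z1)),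
    fun t h1 h2 => ?_⟩
  · rw [nu, h.en, rp_pow]; congr 1; norm_num
  have t0 := (y0 H G).trans_le h1
  refine (mul_le_mul_of_nonneg_left F.u3 t0.le).trans (le_trans ?_ (le_mul_of_one_le_left
    (mul_nonneg (h.cl.ms_pos t0.le).le (pow_pos l0' _).le) Z1))
  rw [h.ems]
  rcases le_total t p.ye with d | d
  · rw [h.ms_eq, min_eq_left d, max_eq_right ((r_le_l H G).trans ((l_le_y H G).trans h1))]
    refine H.le_of_lg (by positivity) (by positivity) ?_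
    have := H.lg_mono (y0 H G) h1
    rw [logb_mul t0.ne' g0.ne', logb_mul (by positivity) (by positivity),
      logb_mul k0.ne' (by positivity), logb_pow, logb_pow, H.lg_rp, H.lg_κ, lg_l H G]
    rw [lg_y H G] at this
    push_cast; linarith
  · rw [h.ms_top d]
    refine H.le_of_lg (by positivity) (by positivity) ?_
    rw [logb_mul t0.ne' g0.ne', logb_mul m0.ne' (by positivity), logb_pow, H.lg_rp, lg_μe H,
      lg_l H G]
    push_cast; linarith [H.lg_mono t0 h2, (lg_K H G h F).2]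

theorem nl {a : ℝ} (ha : a ≤ 13 / 20 - 8 * c) : (p.n : ℝ) ^ a ≤ p.n * max S.θ (nu S) * lm := by
  have n0 := H.rp0 (-(7 / 20) - p.c)
  have m0 := μe0 H
  have N0 := H.N0
  rw [h.θ_eq]
  refine le_trans (H.le_of_lg (H.rp0 _) (by positivity) ?_) (mul_le_mul
    (mul_le_mul_of_nonneg_left (le_max_left p.μe (nu S)) N0.le) F.hl n0.le
    (mul_nonneg N0.le (le_max_of_le_left m0.le)))
  rw [logb_mul (by positivity) n0.ne', logb_mul N0.ne' m0.ne', H.lg_n, lg_μe H, H.lg_rp, H.lg_rp,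
    H.hc]
  linarith

theorem w4 : 1 ≤ p.n * max S.θ (nu S) * lm * (lS p E' ^ 3) ^ ((7 : ℝ) / 6) := by
  have a := nl H G h F (a := 7 / 12) (by linarith [(lg_E H G).2.2.2.1])
  have b := rpow_le_rpow (H.rp0 _).le (half_le H G) (show (0 : ℝ) ≤ 7 / 6 by norm_num)
  refine le_trans (le_of_eq ?_) (mul_le_mul a b (by positivity) ((H.rp0 _).le.trans a))
  rw [← rpow_mul H.N0.le, ← rpow_add H.N0]; norm_num

end num

/-- the size for the margin `k` -/
def YS (k : ℕ) (p : Pm) (E : ℝ) : ℝ := E ^ (k ^ 2) * lS p (E ^ k) ^ 3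

section out

variable {β c0 C0 c η K₀ E K W D Γ lm : ℝ} {A k : ℕ} {p : Pm} {Q : Pl} {g : ℕ → ℝ} {S : Sc}
  (H : Reg β c0 C0 A c η K₀ p) (h : Mc K W D Γ p Q g S)
  (F : Fm ((p.n : ℝ) ^ η) K W D Γ lm p Q S) (hk : 1 ≤ k) (hc : p.c ≤ 1 / 2000)
  (h1 : (p.n : ℝ) ^ (3 * η) ≤ E) (h2 : E ^ (k ^ 3) ≤ (p.n : ℝ) ^ (p.c / 1000))
include H h F hk hc h1 h2

/-- **all hypotheses of SR** and the size of the output -/
theorem all : SH E S (p.cM Q g) (lS p (E ^ k)) (yS p (E ^ k)) (YS k p E) ∧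
    VH E S (p.cM Q g) (lS p (E ^ k)) lm (YS k p E) ∧
    SX k E S (p.cM Q g) (lS p (E ^ k)) lm (yS p (E ^ k)) (YS k p E) ∧
    2 * (E ^ 100 * YS k p E) ≤ p.s ^ 3 * (p.n : ℝ) ^ (2 / 3 * p.c - 1 / 2) := by
  have E1 : 1 ≤ E := (one_le_rpow H.N1.le (by linarith [H.η_pos])).trans h1
  have E0 : 0 < E := by linarith
  have k2 : k ≤ k ^ 2 := Nat.le_self_pow two_ne_zero k
  have k3 : k ^ 2 ≤ k ^ 3 := Nat.pow_le_pow_right hk (by norm_num)
  have a1 : E ≤ E ^ k := le_self_pow₀ E1 (by omega)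
  have a2 : E ^ (k ^ 2) ≤ (p.n : ℝ) ^ (p.c / 1000) := (pow_le_pow_right₀ E1 k3).trans h2
  have a3 : E ^ k ≤ (p.n : ℝ) ^ (p.c / 1000) := (pow_le_pow_right₀ E1 k2).trans a2
  have G : Mg η E (E ^ k) p := ⟨hc, h1, a1, a3⟩
  have G' : Mg η (E ^ k) (E ^ k) p := ⟨hc, h1.trans a1, le_rfl, a3⟩
  obtain ⟨e1, e2, e3, e4, e5⟩ := lg_E H G
  have l0' := l0 H G
  have Z0 : 0 < E ^ (k ^ 2) := pow_pos E0 _
  have Z1 := H.lg_mono Z0 a2
  rw [H.lg_rp, H.hc] at Z1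
  have σ := H.lg_s
  have c0' := H.c_pos
  have Y0 : 0 < YS k p E := mul_pos Z0 (pow_pos l0' _)
  have lY : logb p.n (YS k p E) = logb p.n (E ^ (k ^ 2)) + 3 * logb p.n (lS p (E ^ k)) := by
    rw [YS, logb_mul Z0.ne' (pow_pos l0' _).ne', logb_pow _ (lS p _)]; norm_num
  have b1 : lS p (E ^ k) ^ 3 ≤ YS k p E :=
    le_mul_of_one_le_left (pow_pos l0' _).le (one_le_pow₀ E1)
  have b2 : E ^ 200 * YS k p E ≤ (p.n : ℝ) ^ (-(1 : ℝ) / 10) := by
    refine H.le_of_lg (by positivity) (H.rp0 _) ?_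
    rw [logb_mul (by positivity) Y0.ne', logb_pow, lY, lg_l H G, H.lg_rp]
    push_cast; linarith
  have b3 : (E ^ k) ^ 200 * lS p (E ^ k) ^ 3 ≤ (p.n : ℝ) ^ (-(1 : ℝ) / 10) := by
    refine H.le_of_lg (by positivity) (H.rp0 _) ?_
    rw [logb_mul (by positivity) (by positivity), logb_pow _ (E ^ k), logb_pow _ (lS p _),
      lg_l H G, H.lg_rp]
    push_cast; linarith
  have eY : Yd k E (YS k p E) = lS p (E ^ k) ^ 3 := by
    rw [Yd, YS, mul_div_cancel_left₀ _ Z0.ne']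
  have Ek : 1 ≤ E ^ k := one_le_pow₀ E1
  have θ0 := h.cl.θ0
  refine ⟨sh H G h F b1 b2, vh H G h F b1 b2, ⟨eY ▸ sh H G' h F le_rfl b3,
    eY ▸ vh H G' h F le_rfl b3, u0w H G h F, fun t ht => ?_, fun t t' _ _ => h.sub t t', ?_,
    fun t a b => ?_, h.rev, HJ H G h F, w2 H G h F, fun x a b => ?_, fun x a b => ?_, ?_, ?_,
    h.en ▸ F.ue, fun t a _ => eY ▸ rt5 H G h F a, fun t a => eY ▸ gs H G h F a, h.zJ,
    fun t a b => gm H G' h F a b, fun x a b d => ?_, h.en ▸ jl4 H G h F, fl2 H G h F,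
    fun x a b => ?_, fun t a b => ?_, h.en ▸ d0 H G h F,
    fun x x' a b d => fa H G' h F (h.xs_eq ▸ a) b d, h.en ▸ lm2 H G h F,
    fun t a b => ?_, eY ▸ u3 H G h F (one_le_pow₀ E1), tp H G h F E0 a3 a2 rfl,
    by rw [eY, h.en]; exact w4 H G h F, .inr (h.en ▸ nl H G h F (by linarith))⟩, ?_⟩
  · rw [mul_comm 60, pow_mul]; exact ml H G h F ht
  · rw [mul_assoc]
    exact (g5 H G h F).trans (le_mul_of_one_le_left (mul_nonneg θ0.le (sq_nonneg _)) Ek)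
  · rw [eY, mul_assoc (E ^ k), mul_assoc (E ^ k)]
    exact (g3 H G h F a b).trans (le_mul_of_one_le_left (mul_nonneg (mul_nonneg θ0.le
      (h.cl.ms_pos ((y0 H G).le.trans a)).le) (pow_pos l0' _).le) Ek)
  · rw [h.xs_eq] at a
    rw [h.en] at b ⊢
    exact dt H G h F Z0 a2 a b
  · rw [h.xs_eq] at a ⊢
    rw [h.en] at b
    exact F.den x a (n2_le' H (by linarith) Z0 a2 b)
  · rw [h.en]
    refine h2.trans ((rp_le H.n1 (show p.c / 1000 ≤ 1 by linarith)).trans_eq (rpow_one _))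
  · rw [mul_comm 10, pow_mul]; exact jl3 H G h F
  · rw [h.xs_eq] at a
    rw [h.en] at d
    exact dl H G h F a b d
  · rw [h.xs_eq] at a
    rw [h.en] at b ⊢
    exact dq H G h F Z0 a2 a b
  · rw [eY, h.en]
    exact g6 H G h F a b
  · rw [eY, h.en]
    exact g7 H G h F a b
  · have s0 := H.s0
    have := H.rp0 (2 / 3 * p.c - 1 / 2)
    refine H.le_of_lg (by positivity) (by positivity) ?_
    rw [logb_mul two_ne_zero (by positivity), logb_mul (by positivity) Y0.ne', logb_pow, lY,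
      lg_l H G, logb_mul (by positivity) this.ne', logb_pow _ p.s, H.lg_rp, H.hc]
    push_cast; linarith [H.lg_two.2]

end out

/-- **the output of SR on a family of members of stage C**: `R K Λ p` lists what the family needs -/
theorem phi_le {β : ℝ} (hβ : 1 < β) (hS : SrS2) (hV : VarS) {R : ℝ → Pm → Prop} (hR : Cst β R)
    {T : ℝ → ℝ → Pm → Prop} (hT : ∀ K, 1 ≤ K → Thr β fun _ _ Λ p => R K p → T K Λ p) :
    Sml β fun Λ p => ∃ K, 1 ≤ K ∧ R K p ∧ T K Λ p ∧ ∀ W D Γ lm Q g S, Mc K W D Γ p Q g S →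
      Fm Λ K W D Γ lm p Q S → ∀ m a, p.InW m a →
        (p.cM Q g).Phi S m a ≤ p.s ^ 3 * (p.n : ℝ) ^ (2 / 3 * p.c - 1 / 2) := by
  obtain ⟨k, hk, hO⟩ := hS
  have k0 : (0 : ℝ) < (k : ℝ) ^ 3 := by positivity
  refine Sml.glueCL hβ hR Sml.triv (CL.and hO hV) (fun K => 8 * K ^ 2)
    (fun c => c / (1000 * (k : ℝ) ^ 3)) (fun c hc => by positivity) fun K hK c0 C0 h0 h1 => ?_
  obtain ⟨A0, hA⟩ := hT K hK c0 C0 h0 h1
  refine ⟨A0, fun A a => ?_⟩
  obtain ⟨c1, c1', hc⟩ := hA A a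
  refine ⟨min c1 (1 / 2000), by positivity, fun c b b' => ?_⟩
  obtain ⟨η1, η1', hη⟩ := hc c (b.trans (min_le_left _ _)) b'
  refine ⟨min η1 (c / (3000 * (k : ℝ) ^ 3)), by positivity, fun η d d' => ?_⟩
  obtain ⟨K', hK'⟩ := hη η (d.trans (min_le_left _ _)) d'
  refine ⟨K', fun p H r _ L => ⟨K, hK, r, hK' p H r, fun W D Γ lm Q g S h F m a hm => ?_⟩⟩
  have e : 3 * η ≤ p.c / (1000 * (k : ℝ) ^ 3) := by
    have := d.trans (min_le_right _ _)
    rw [H.hc, show c / (1000 * (k : ℝ) ^ 3) = 3 * (c / (3000 * (k : ℝ) ^ 3)) by field_simp; ring]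
    linarith
  obtain ⟨s1, s2, s3, s4⟩ := all H h F hk (H.hc ▸ b.trans (min_le_right _ _)) (rp_le H.n1 e)
    (le_of_eq (by rw [rp_pow]; congr 1; push_cast; field_simp))
  obtain ⟨o, v⟩ := L S _ h.eC h.eA h.en h.cl m a ⟨h.en ▸ hm.m1, h.en ▸ hm.m2, h.en ▸ hm.a1,
    h.eam ▸ hm.a2⟩
  exact (o _ _ _ _ s1 s3 (v _ _ _ s2)).trans s4

end SrC3

end Crest.Agent.T156.Alt

end
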