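import Crest.Agent.T156.C1Mem_3
import Crest.Agent.T156.FamSm_28
import Crest.Agent.T156.SprM_41
import Crest.Agent.T156.PlW_13
import Crest.Agent.T156.LspB_28
import Crest.Agent.T156.SprI_41
import Crest.Agent.T156.SprLeg_59
import Crest.Agent.T156.SprLN_11
import Crest.Agent.T156.GrReg_29
import Crest.Agent.T156.SprFa_59
import Crest.Agent.T156.SrCB_3
import Crest.Agent.T156.SprL_11
import Crest.Agent.T156.AltP1_3
import Crest.Agent.T156.SrW_17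

-- ▼ part T156/C1MemB_3
section

/-!
Row 156 (helper3): the class is monotone in its constant; field segments between members with
different constants.
-/

set_option autoImplicit false

noncomputable section

namespace Crest.Agent.T156.Alt

open Real Set Filter Topology
open Crest.Agent.R164.GC Crest.Agent.R339.B Crest.Agent.R339.Var Crest.Agent.T157.Pf
open Mem37

/-- **the constant of the class may be increased** -/
theorem Cl.monoC {S : Sc} {M : Md} (h : Cl S M) {C' : ℝ} (hC : S.C ≤ C') (gr' : ℝ → ℝ) (g2' : ℝ)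
    (hg : ∀ t, S.gr t ≤ gr' t)
    (hG : ∑ k ∈ Finset.Icc 1 S.Jp, (M.z k - M.z (k - 1)) * M.G k ^ 2 ≤ g2') :
    Cl { S with C := C', gr := gr', g2 := g2' } M := by
  have C1 := h.C1
  have C0 : 0 < S.C := by linarith
  have up : ∀ {x : ℝ}, 0 ≤ x → S.C * x ≤ C' * x := fun hx => mul_le_mul_of_nonneg_right hC hx
  have dn : ∀ {x : ℝ}, 0 ≤ x → x / C' ≤ x / S.C := fun hx => div_le_div_of_nonneg_left hx C0 hC
  have n0 : (0 : ℝ) < S.n := by
    rcases (Nat.cast_nonneg (α := ℝ) S.n).eq_or_lt with e | e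
    · have a := h.card
      have b := h.i4
      rw [← e, zero_pow (Nat.succ_ne_zero _)] at a
      have : (0 : ℝ) < M.N := by exact_mod_cast (Nat.zero_le _).trans_lt b
      linarith
    · exact e
  have v0 : 0 < S.v := by
    have := (one_div_pos.2 C0).trans_le h.v1
    exact (mul_pos_iff_of_pos_right (pow_pos n0 _)).1 this
  have m0 : ∀ {t : ℝ}, 0 ≤ t → 0 ≤ S.ms t := fun ht =>
    ((rpow_pos_of_pos n0 _).le.trans h.ms0).trans (h.msm ht)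
  have s0 : ∀ k, 0 ≤ M.s k := fun k => h.s0 ▸ h.sm (Nat.zero_le k)
  have i2 : 1 / (2 * C') ≤ 1 / (2 * S.C) := one_div_le_one_div_of_le (by linarith) (by linarith)
  have n1 : (1 : ℝ) ≤ S.n := by exact_mod_cast (Nat.cast_pos.1 n0)
  exact { h with
    C1 := C1.trans hC
    v1 := (dn zero_le_one).trans h.v1
    v2 := h.v2.trans hC
    b1 := h.b1.trans hC
    wmk := ⟨h.wmk.1, h.wmk.2.trans (up (m0 (s0 _)))⟩
    HN := h.HN.trans (mul_le_mul_of_nonneg_right (up (Nat.cast_nonneg _)) (log_nonneg n1))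
    sT := h.sT.trans hC
    lip := fun t t' a b c => by
      obtain ⟨d, e⟩ := h.lip t t' a b c
      exact ⟨le_trans (sub_le_sub (dn (sub_nonneg.2 b)) (up v0.le)) d,
        e.trans (up (by linarith))⟩
    lv0 := h.lv0.trans (up v0.le)
    zs := fun k a b => ⟨(dn v0.le).trans (h.zs k a b).1, (h.zs k a b).2.trans (up v0.le)⟩
    ss := fun k a => ⟨(dn v0.le).trans (h.ss k a).1, (h.ss k a).2.trans (up v0.le)⟩
    sr := fun k a b => ⟨(h.sr k a b).1, (h.sr k a b).2.trans (up v0.le)⟩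
    atom := ⟨(dn zero_le_one).trans h.atom.1,
      h.atom.2.trans (sub_le_sub_left (dn zero_le_one) 1)⟩
    crit := fun t ht => ⟨(dn (m0 ht.1)).trans (h.crit t ht).1, (h.crit t ht).2.trans (up (m0 ht.1))⟩
    gpp := fun t a b => (h.gpp t a b).trans (up (div_nonneg (m0 a) (le_max_of_le_left a)))
    ckm := fun k a b => ⟨(dn v0.le).trans (h.ckm k a b).1, (h.ckm k a b).2.trans (up v0.le)⟩
    ckq := fun k a => h.ckq k (a.trans i2)
    flr := fun k a b => le_trans (div_le_div_of_nonneg_left (mul_nonneg (m0 (s0 k)) v0.le)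
      (mul_pos C0 (zero_lt_one.trans_le h.F1)) (up (zero_le_one.trans h.F1))) (h.flr k a b)
    Glo := fun k a => (h.Glo k a).trans (mul_le_mul_of_nonneg_right (up (m0 (s0 _))) (s0 _))
    Gmi := fun k a b => (h.Gmi k a (b.trans i2)).trans (hg _)
    Gtp := (Finset.sum_le_sum_of_subset_of_nonneg (Finset.filter_subset _ _) fun k _ _ =>
      mul_nonneg (sub_nonneg.2 (h.leg.zm (Nat.sub_le _ _))) (sq_nonneg _)).trans hG
    plat := fun k a b => ⟨(dn v0.le).trans (h.plat k a b).1, (h.plat k a b).2.trans (up v0.le)⟩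
    dens := fun x x' a b c d => ⟨(h.dens x x' a b c d).1.trans (up (h.den0 _).le),
      (h.dens x x' a b c d).2.trans (up (h.den0 _).le)⟩ }

namespace MemD

variable {K c0 C0 η Y : ℝ} {p : Pm} {P : Pl} {om : ℕ → ℝ} {jl : ℕ} {b₁ be : ℝ}
  {ms den : ℝ → ℝ} {g2 u0 ue : ℝ} (h : MemD K c0 C0 η Y p P om jl b₁ be ms den g2 u0 ue)
include h

/-- the whole residual sum -/
theorem Gall : ∑ k ∈ Finset.Icc 1 (p.Jp P), ((p.famO P om jl b₁ be 0).z k -
    (p.famO P om jl b₁ be 0).z (k - 1)) * (p.famO P om jl b₁ be 0).G k ^ 2 ≤ g2 := by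
  refine le_trans (le_of_eq ?_) h.Gtp
  symm
  refine Finset.sum_subset_zero_on_sdiff (fun k hk => ?_) (fun k hk => ?_) fun k hk => ?_
  · obtain ⟨a, b⟩ := Finset.mem_Ioc.1 hk
    exact Finset.mem_Icc.2 ⟨by omega, b⟩
  · obtain ⟨a, b⟩ := Finset.mem_sdiff.1 hk
    have c : k ≤ jl := by
      by_contra hc
      exact b (Finset.mem_Ioc.2 ⟨not_le.1 hc, (Finset.mem_Icc.1 a).2⟩)
    show (p.zP P (max k jl) - p.zP P (max (k - 1) jl)) * _ = 0
    rw [max_eq_right c, max_eq_right (by omega), sub_self, zero_mul]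
  · have a := (Finset.mem_Ioc.1 hk).1
    rw [h.G_hi a]
    show _ = (p.zP P (max k jl) - p.zP P (max (k - 1) jl)) * _
    rw [max_eq_left a.le, max_eq_left (by omega)]

/-- membership with any larger constant -/
theorem clC {C : ℝ} (hC : 8 * K ^ 2 ≤ C) :
    Cl (p.scl P om C jl ms den g2 u0 ue) (p.famO P om jl b₁ be 0) :=
  h.cl.monoC hC (p.scl P om C jl ms den g2 u0 ue).gr g2 (fun t => by
    show (if t ≤ p.sO P om jl then _ else _) ≤ if t ≤ p.sO P om jl then _ else _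
    split_ifs
    · exact mul_le_mul_of_nonneg_right (mul_le_mul_of_nonneg_right hC
        (h.msp (h.geo.sP_nn jl)).le) (h.geo.sP_nn jl)
    · exact le_rfl) h.Gall


end MemD

namespace C1Mem3

variable {K K' c0 C0 η Y c0' C0' η' Y' : ℝ} {p : Pm} {P P' : Pl} {om : ℕ → ℝ} {b : ℝ}
  {ms den den' : ℝ → ℝ} {g2 u0 ue g2' u0' ue' : ℝ}

/-- two members on one grid with their own constants -/
structure TwoC (K K' c0 C0 η Y c0' C0' η' Y' D : ℝ) (p : Pm) (P P' : Pl) (om : ℕ → ℝ) (b : ℝ)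
    (ms den den' : ℝ → ℝ) (g2 u0 ue g2' u0' ue' : ℝ) : Prop where
  h0 : MemD K c0 C0 η Y p P om p.jf b 0 ms den g2 u0 ue
  h1 : MemD K' c0' C0' η' Y' p P' om p.jf b 0 ms den' g2' u0' ue'
  hI : P'.I = P.I
  mJ : ms 1 ≤ ms (p.J * p.v)
  D0 : 0 ≤ D
  D1 : D ≤ 1
  lo : ∀ k ≤ p.J, |p.dH P P' om (b + 0) k| ≤ D * p.sO P om k
  al : ∀ k, |p.dH P P' om (b + 0) k| ≤ D

namespace TwoC

open Two (dH_lo dH_hi inc)

variable {D : ℝ}
  (h : TwoC K K' c0 C0 η Y c0' C0' η' Y' D p P P' om b ms den den' g2 u0 ue g2' u0' ue')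
include h

theorem Jp_eq : p.Jp P' = p.Jp P := by unfold Pm.Jp; rw [h.hI]

theorem ms_eq (k : ℕ) : ms (p.sO P' om k) = ms (p.sO P om k) := by
  rcases le_total k p.J with a | a
  · rw [sP_lo a, sP_lo a]
  · have a0 := h.h0.msm (h.h0.geo.sP_J ▸ h.h0.geo.sP_mono a)
    have a1 := h.h1.msm (h.h1.geo.sP_J ▸ h.h1.geo.sP_mono a)
    linarith [h.mJ, h.h0.ms1 (p.sO P om k), h.h0.ms1 (p.sO P' om k)]

/-- **membership of the segment** -/
theorem cl {C : ℝ} (hC : 8 * K ^ 2 ≤ C) (hC' : 8 * K' ^ 2 ≤ C) {t : ℝ} (ht : t ∈ Icc (0 : ℝ) 1) :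
    Cl (p.sgS P om C D ms den g2 u0 ue) (p.sgM P P' om b t) := by
  have c := h.h0.clC hC
  have c' := h.h1.clC hC'
  have t0 := ht.1
  have t1 := sub_nonneg.2 ht.2
  have tD : ∀ {k : ℕ} {x : ℝ}, |p.dH P P' om (b + 0) k| ≤ x → |t * p.dH P P' om (b + 0) k| ≤ x :=
    fun hx => by
      rw [abs_mul, abs_of_nonneg t0]
      exact (mul_le_of_le_one_left (abs_nonneg _) ht.2).trans hx
  have eG : ∀ k, (p.famO P om p.jf b 0 0).d k * (p.famO P om p.jf b 0 0).q k +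
      (p.HO P om (b + 0) k + t * p.dH P P' om (b + 0) k) - (p.famO P om p.jf b 0 0).s k =
      (p.famO P om p.jf b 0 0).G k + t * p.dH P P' om (b + 0) k := fun k => by
    show _ = (p.famO P om p.jf b 0 0).d k * (p.famO P om p.jf b 0 0).q k +
      (p.HO P om (b + 0) k + 0) - (p.famO P om p.jf b 0 0).s k + _
    ring
  refine c.withH (fun k => p.HO P om (b + 0) k + t * p.dH P P' om (b + 0) k) _ _ ?_
    (monotone_nat_of_le_succ fun k => ?_) ?_ (fun k h1 h2 => ?_) (fun k hk => ?_)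
    (fun k h1 h2 => ?_) ?_ (fun k h1 _ => ?_)
  · show p.HO P om (b + 0) 0 + t * p.dH P P' om (b + 0) 0 = 0
    rw [MemD.H_lo (Nat.zero_le _), dH_lo (Nat.zero_le _)]; ring
  · rcases lt_or_ge k (p.Jp P) with a | a
    · have e := inc (P' := P') (om := om) (b := b) t a
      have a0 := mul_nonneg t1 (sub_nonneg.2 (h.h0.H_mono (Nat.le_succ k)))
      have a1 := mul_nonneg t0 (sub_nonneg.2 (h.h1.H_mono (Nat.le_succ k)))
      simp only [Nat.succ_eq_add_one] at a0 a1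
      linarith
    · rw [dH_hi a, dH_hi (a.trans (Nat.le_succ k))]
      linarith [h.h0.H_mono (Nat.le_succ k)]
  · show p.HO P om (b + 0) (p.NP P) + t * p.dH P P' om (b + 0) (p.NP P) ≤ C * p.A * log p.n
    have A : (1 : ℝ) ≤ p.A := by exact_mod_cast h.h0.A1
    have a := one_le_mul_of_one_le_of_one_le A h.h0.lg
    have a' := mul_le_mul_of_nonneg_right hC (zero_le_one.trans a)
    linarith [HN_le h.h0, (abs_le.1 (tD (h.al (p.NP P)))).2, h.D1]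
  · change p.jf ≤ k at h1
    change k < p.Jp P at h2
    show ms (p.sO P om k) * p.v / (C * 1) ≤ _
    rw [inc t h2]
    have f0 : ms (p.sO P om k) * p.v / (C * 1) ≤
        p.HO P om (b + 0) (k + 1) + 0 - (p.HO P om (b + 0) k + 0) := c.flr k h1 h2
    have f1 : ms (p.sO P' om k) * p.v / (C * 1) ≤
        p.HO P' om (b + 0) (k + 1) + 0 - (p.HO P' om (b + 0) k + 0) :=
      c'.flr k h1 (h.Jp_eq ▸ h2 : k < p.Jp P')
    rw [h.ms_eq] at f1
    linarith [mul_le_mul_of_nonneg_left f0 t1, mul_le_mul_of_nonneg_left f1 t0]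
  · rw [eG, dH_lo hk, mul_zero, add_zero]
    exact c.Glo k hk
  · rw [eG]
    have kJ : k ≤ p.J := by
      by_contra hc
      have a := c.leg.zm (show p.J - 1 ≤ k by omega)
      have b' := c.atom.1
      have C0' : 0 < C := zero_lt_one.trans_le c.C1
      have d : 1 / (2 * C) < 1 / C := one_div_lt_one_div_of_lt C0' (by linarith)
      exact absurd ((b'.trans a).trans h2) (not_le.2 d)
    exact (abs_add_le _ _).trans (add_le_add (c.Gmi k h1 h2) (tD (h.lo k kJ)))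
  · have z := c.leg.zm
    refine (Finset.sum_le_sum_of_subset_of_nonneg (Finset.filter_subset _ _) fun k _ _ =>
      mul_nonneg (sub_nonneg.2 (z (Nat.sub_le _ _))) (sq_nonneg _)).trans ?_
    have s1 : ∑ k ∈ Finset.Icc 1 (p.Jp P),
        ((p.famO P om p.jf b 0 0).z k - (p.famO P om p.jf b 0 0).z (k - 1)) ≤ 1 := by
      have e : ∀ n : ℕ, ∑ k ∈ Finset.Icc 1 n, ((p.famO P om p.jf b 0 0).z k -
          (p.famO P om p.jf b 0 0).z (k - 1)) =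
          (p.famO P om p.jf b 0 0).z n - (p.famO P om p.jf b 0 0).z 0 := fun n => by
        induction n with
        | zero => simp
        | succ n ih => rw [Finset.sum_Icc_succ_top (by omega), ih, Nat.add_sub_cancel]; ring
      rw [e]
      have a : 0 < (p.famO P om p.jf b 0 0).z 0 := h.h0.geo.lab.pos.trans_le
        (h.h0.geo.zP_mono (Nat.zero_le _))
      linarith [c.leg.z1 (p.Jp P)]
    have s2 := h.h0.Gall
    have s3 := mul_le_of_le_one_left (sq_nonneg D) s1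
    rw [Finset.sum_mul] at s3
    refine le_trans (Finset.sum_le_sum (g := fun k =>
      2 * (((p.famO P om p.jf b 0 0).z k - (p.famO P om p.jf b 0 0).z (k - 1)) *
        (p.famO P om p.jf b 0 0).G k ^ 2) +
      2 * (((p.famO P om p.jf b 0 0).z k - (p.famO P om p.jf b 0 0).z (k - 1)) * D ^ 2))
      fun k _ => ?_) ?_
    rotate_left
    · rw [Finset.sum_add_distrib, ← Finset.mul_sum, ← Finset.mul_sum]
      exact add_le_add (mul_le_mul_of_nonneg_left s2 zero_le_two)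
        (mul_le_mul_of_nonneg_left s3 zero_le_two)
    · rw [eG]
      have a := sq_le_sq' (abs_le.1 (tD (h.al k))).1 (abs_le.1 (tD (h.al k))).2
      have w := sub_nonneg.2 (z (Nat.sub_le k 1))
      have := mul_le_mul_of_nonneg_left (show ((p.famO P om p.jf b 0 0).G k +
        t * p.dH P P' om (b + 0) k) ^ 2 ≤ 2 * (p.famO P om p.jf b 0 0).G k ^ 2 + 2 * D ^ 2 by
          nlinarith [sq_nonneg ((p.famO P om p.jf b 0 0).G k - t * p.dH P P' om (b + 0) k)]) w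
      linarith
  · change p.Jp P ≤ k at h1
    show p.HO P om (b + 0) k + t * p.dH P P' om (b + 0) k - (p.HO P om (b + 0) k + 0) =
      p.HO P om (b + 0) (p.Jp P) + t * p.dH P P' om (b + 0) (p.Jp P) -
        (p.HO P om (b + 0) (p.Jp P) + 0)
    rw [dH_hi h1]; ring

/-- the ceiling of the segment -/
theorem cei {C : ℝ} (c0' : Cei (p.scl P om C p.jf ms den g2 u0 ue) (p.famO P om p.jf b 0 0))
    (c1' : Cei (p.scl P' om C p.jf ms den' g2' u0' ue') (p.famO P' om p.jf b 0 0)) {t : ℝ}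
    (ht : t ∈ Icc (0 : ℝ) 1) : Cei (p.sgS P om C D ms den g2 u0 ue) (p.sgM P P' om b t) := by
  have t0 := ht.1
  have t1 := sub_nonneg.2 ht.2
  have jJ := h.h0.jlJ
  have JJ := J_le (p := p) (P := P)
  refine ⟨fun k h1 h2 => ?_, ?_⟩
  · have a0 : p.HO P om (b + 0) (k + 1) + 0 - (p.HO P om (b + 0) k + 0) ≤
        C * 1 * ms (p.sO P om k) * p.v := c0'.up k h1 h2
    have a1 : p.HO P' om (b + 0) (k + 1) + 0 - (p.HO P' om (b + 0) k + 0) ≤
        C * 1 * ms (p.sO P' om k) * p.v := c1'.up k h1 (h.Jp_eq ▸ h2 : k < p.Jp P')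
    rw [h.ms_eq] at a1
    show p.HO P om (b + 0) (k + 1) + t * p.dH P P' om (b + 0) (k + 1) -
      (p.HO P om (b + 0) k + t * p.dH P P' om (b + 0) k) ≤ C * 1 * ms (p.sO P om k) * p.v
    rw [inc t h2]
    linarith [mul_le_mul_of_nonneg_left a0 t1, mul_le_mul_of_nonneg_left a1 t0]
  · have a0 : p.HO P om (b + 0) (p.jf + 1) + 0 ≤
        C * 1 * ms (p.sO P om p.jf) * p.sO P om p.jf := c0'.bot
    have a1 : p.HO P' om (b + 0) (p.jf + 1) + 0 ≤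
        C * 1 * ms (p.sO P' om p.jf) * p.sO P' om p.jf := c1'.bot
    rw [sP_lo (P := P') (by omega), ← sP_lo (P := P) (by omega)] at a1
    show p.HO P om (b + 0) (p.jf + 1) + t * p.dH P P' om (b + 0) (p.jf + 1) ≤
      C * 1 * ms (p.sO P om p.jf) * p.sO P om p.jf
    unfold Pm.dH
    rw [min_eq_left (by omega)]
    linarith [mul_le_mul_of_nonneg_left a0 t1, mul_le_mul_of_nonneg_left a1 t0]

end TwoC

end C1Mem3

end Crest.Agent.T156.Alt

end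
end

-- ▼ part T156/Mem1_3
section

/-!
Row 156 (helper3): membership along the segment `C1` (`Mem1`).
-/

set_option autoImplicit false
set_option linter.unusedSectionVars false

noncomputable section

namespace Crest.Agent.T156.Alt

open Real Set Filter Topology
open Crest.Agent.T156.Pr Crest.Agent.T157.Nm
open Plt13 Mem37

namespace Mem13

/-- numeric inputs for the static marks `rF ν` below the plateau -/
structure Nu (K K0 c0 C0 η Y ν : ℝ) (p : Pm) : Prop where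
  nm : Nm p ν
  base : Base (p.β ^ 2) c0 C0 η p.v p.J p.z
  hc : 0 < c0
  hC : 1 ≤ C0
  hK : 1 ≤ K0
  KK : 78 * (C0 * K0 ^ 2) ≤ K
  xs1 : 1 / K0 ≤ p.xs
  xs2 : p.xs ≤ 1 - 1 / K0
  u : log p.n * u0 p ν ≤ 1 / (2 * K0)
  lg : 12 * C0 * K ≤ log p.n
  hY : C0 * p.v + C0 * Y ≤ 1 / (2 * K0)

namespace Nu

variable {K K0 c0 C0 η Y ν : ℝ} {p : Pm} (h : Nu K K0 c0 C0 η Y ν p)
include h

theorem K0K : K0 ≤ K := by
  have a := h.hK
  have b := mul_le_mul h.hC (show K0 ≤ K0 ^ 2 by nlinarith) (by linarith) (by linarith [h.hC])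
  linarith [h.KK]

theorem K78 : 78 ≤ K := by
  have := one_le_mul_of_one_le_of_one_le h.hC (one_le_pow₀ (n := 2) h.hK)
  linarith [h.KK]

theorem zero {x : ℝ} (hx : x ≤ 1 / (2 * K0)) : p.rF ν x = 0 := by
  have a : 1 / (2 * K0) ≤ 1 / 2 := one_div_le_one_div_of_le two_pos (by linarith [h.hK])
  have b : 1 / K0 = 1 / (2 * K0) + 1 / (2 * K0) := by have := h.hK; field_simp; norm_num
  exact h.nm.rF_zero (hx.trans a) (by linarith [h.u, h.xs1])

theorem zero' {x : ℝ} (hx : x ≤ 1 / (2 * K)) : p.rF ν x = 0 :=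
  h.zero (hx.trans (one_div_le_one_div_of_le (by linarith [h.hK]) (by linarith [h.K0K])))

theorem z_le {k : ℕ} (hk : k < p.J) : p.z k ≤ p.xs := h.base.lab.mono (by omega)

theorem sq_ge {x : ℝ} (hx : x ≤ p.xs) : 1 / K0 ≤ 1 - x ∧ 1 / K0 ≤ √(1 - x) := by
  have a : 1 / K0 ≤ 1 - x := by linarith [h.xs2]
  have b : 1 / K0 ≤ 1 := by rw [div_le_one (by linarith [h.hK])]; exact h.hK
  have c : 0 < 1 / K0 := by have := h.hK; positivity
  exact ⟨a, le_sqrt_of_sq_le (by nlinarith)⟩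

/-- one step of the marks below the plateau -/
theorem step {k : ℕ} (h1 : 1 ≤ k) (hk : k < p.J) :
    -(p.v / (8 * K)) ≤ p.rF ν (p.z k) - p.rF ν (p.z (k - 1)) ∧
      p.rF ν (p.z k) - p.rF ν (p.z (k - 1)) ≤ K * p.v := by
  obtain ⟨j, rfl⟩ : ∃ j, k = j + 1 := ⟨k - 1, by omega⟩
  obtain ⟨a, b⟩ := h.base.slo j hk
  unfold dm at a b
  have v0 := h.nm.v0
  have k1 := h.hK
  have K1 := h.K78
  have C1 := h.hC
  have d0 : 0 ≤ p.z (j + 1) - p.z j := le_trans (mul_pos h.hc v0).le a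
  obtain ⟨c, d⟩ := h.nm.rF_sub_lo (sub_nonneg.1 d0) (h.z_le hk)
  obtain ⟨e, f⟩ := h.sq_ge (h.z_le hk)
  rw [Nat.add_sub_cancel]
  have l0 : 0 < log (p.n : ℝ) := by linarith [h.nm.l1]
  refine ⟨le_trans (neg_le_neg ?_) c, d.trans ?_⟩
  · refine (mul_le_mul_of_nonneg_left b (by positivity)).trans ?_
    rw [div_mul_eq_mul_div, div_le_div_iff₀ (by positivity) (by positivity)]
    linarith [mul_le_mul_of_nonneg_left h.lg v0.le]
  · have g : 1 / K0 * (1 / K0) ≤ (1 - p.z (j + 1)) * √(1 - p.z (j + 1)) :=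
      mul_le_mul e f (by positivity) (le_trans (by positivity) e)
    refine (div_le_div₀ (by positivity) (mul_le_mul h.nm.l_le b d0 zero_le_one) (by positivity)
      g).trans ?_
    have : 1 * (C0 * p.v) / (1 / K0 * (1 / K0)) = C0 * K0 ^ 2 * p.v := by field_simp
    rw [this]
    exact mul_le_mul_of_nonneg_right (by linarith [h.KK, show 0 ≤ C0 * K0 ^ 2 by positivity]) v0.le

/-- the marks vanish below the level `Y` -/
theorem step0 {k : ℕ} (hk : k < p.J) (hY : k * p.v ≤ Y) :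
    p.rF ν (p.z k) - p.rF ν (p.z (k - 1)) = 0 := by
  have a := (PP3.z_bds h.base k hk).2
  have b := mul_le_mul_of_nonneg_left hY (show 0 ≤ C0 by linarith [h.hC])
  have c : p.z k ≤ 1 / (2 * K0) := by linarith [h.hY]
  rw [h.zero c, h.zero ((h.base.lab.mono (Nat.sub_le k 1)).trans c), sub_self]

/-- the field `m rF ν` against a mass `w ≥ m` above the level `Y` -/
theorem stepH {k : ℕ} (h1 : 1 ≤ k) (hk : k < p.J) {m w : ℝ} (hm : 0 ≤ m) (hw : 0 ≤ w)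
    (hY : Y ≤ k * p.v → m ≤ w) :
    -(w * p.v / (4 * K)) ≤ m * p.rF ν (p.z k) - m * p.rF ν (p.z (k - 1)) ∧
      m * p.rF ν (p.z k) - m * p.rF ν (p.z (k - 1)) ≤ K * w * p.v := by
  have v0 := h.nm.v0
  have K1 := h.K78
  rw [← mul_sub]
  rcases le_total (k * p.v) Y with a | a
  · rw [h.step0 hk a, mul_zero]
    exact ⟨neg_nonpos.2 (by positivity), by positivity⟩
  · obtain ⟨b, c⟩ := h.step h1 hk
    have b' := mul_le_mul_of_nonneg_left b hm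
    have c' := mul_le_mul_of_nonneg_left c hm
    have d := mul_le_mul_of_nonneg_right (hY a) (show 0 ≤ p.v / (8 * K) by positivity)
    have e := mul_le_mul_of_nonneg_right (hY a) (show 0 ≤ K * p.v by positivity)
    have f : w * p.v / (4 * K) = 2 * (w * (p.v / (8 * K))) := by field_simp; ring
    have g : 0 ≤ w * (p.v / (8 * K)) := by positivity
    constructor <;> linarith

/-- size of the marks below the plateau -/
theorem sq_lo {x : ℝ} (hx : x ≤ p.xs) : p.rF ν x ^ 2 ≤ 4 * K0 ^ 2 * p.la ν ^ 2 +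
    if p.xs - log p.n * u0 p ν < x then u0 p ν ^ 2 else 0 := by
  have k1 := h.hK
  have x1 := hx.trans_lt h.nm.xs1
  obtain ⟨a, -, b⟩ := h.nm.rF_bd x1
  have c : p.la ν / √(1 - x) ≤ K0 * p.la ν := by
    refine (div_le_div_of_nonneg_left h.nm.lp.le (by positivity) (h.sq_ge hx).2).trans_eq ?_
    field_simp
  have l0 := h.nm.lp
  have u0' := h.nm.u0p
  split_ifs with e
  · rcases le_total 0 (p.rF ν x) with s | s
    · nlinarith [pow_le_pow_left₀ s (show p.rF ν x ≤ 2 * (K0 * p.la ν) by linarith) 2]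
    · nlinarith [sq_le_sq' a (s.trans u0'.le), sq_nonneg (K0 * p.la ν)]
  · have s : 0 ≤ p.rF ν x := by
      unfold Pm.rF
      rw [rB_eq, Rs13.r1_zero l0 (by linarith [h.nm.l1]) (by unfold u0 at e; linarith), zero_add]
      exact (h.nm.top_bd x1).1
    nlinarith [pow_le_pow_left₀ s (show p.rF ν x ≤ 2 * (K0 * p.la ν) by linarith) 2]

theorem sum_lo (j : ℕ) : ∑ k ∈ Finset.Ico (j + 1) p.J, (p.z k - p.z (k - 1)) *
    p.rF ν (p.z (k - 1)) ^ 2 ≤ (4 * K0 ^ 2 + log p.n) * p.la ν ^ 2 := by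
  set L := log p.n * u0 p ν with hL
  have L0 : 0 ≤ L := mul_nonneg (by linarith [h.nm.l1]) h.nm.u0p.le
  set φ : ℝ → ℝ := fun x => 4 * K0 ^ 2 * p.la ν ^ 2 * x + u0 p ν ^ 2 * max x (p.xs - L) with hφ
  have a : ∀ k ∈ Finset.Ico (j + 1) p.J, (p.z k - p.z (k - 1)) * p.rF ν (p.z (k - 1)) ^ 2 ≤
      φ (p.z k) - φ (p.z (k - 1)) := fun k hk => by
    have hk' := (Finset.mem_Ico.1 hk).2
    have m := h.base.lab.mono (Nat.sub_le k 1)
    refine (mul_le_mul_of_nonneg_left (h.sq_lo (m.trans (h.z_le hk'))) (sub_nonneg.2 m)).trans ?_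
    simp only [hφ]
    split_ifs with e
    · rw [max_eq_left e.le, max_eq_left (e.le.trans m)]; linarith
    · linarith [mul_le_mul_of_nonneg_left (max_le_max m (le_refl (p.xs - L))) (sq_nonneg (u0 p ν))]
  refine (Finset.sum_le_sum a).trans ?_
  have u3 : u0 p ν ^ 3 = p.la ν ^ 2 := by
    unfold u0
    rw [← rpow_natCast, ← rpow_mul h.nm.lp.le]
    norm_num
  have b0 : 0 ≤ (4 * K0 ^ 2 + log p.n) * p.la ν ^ 2 := by have := h.nm.l1; positivity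
  rcases le_or_gt p.J (j + 1) with c | c
  · rwa [Finset.Ico_eq_empty_of_le c, Finset.sum_empty]
  have e : ∀ n, j + 1 ≤ n → ∑ k ∈ Finset.Ico (j + 1) n, (φ (p.z k) - φ (p.z (k - 1))) =
      φ (p.z (n - 1)) - φ (p.z j) := fun n hn => by
    induction n, hn using Nat.le_induction with
    | base => simp
    | succ n hn ih => rw [Finset.sum_Ico_succ_top hn, ih, Nat.add_sub_cancel]; ring
  rw [e _ c.le]
  have z0 : 0 ≤ p.z j := h.base.lab.pos.le.trans (h.base.lab.mono (Nat.zero_le _))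
  have x1 := h.nm.xs1
  have f1 := mul_le_of_le_one_right (show 0 ≤ 4 * K0 ^ 2 * p.la ν ^ 2 by positivity)
    (show p.xs - p.z j ≤ 1 by linarith)
  have f2 := mul_le_mul_of_nonneg_left (le_max_right (p.z j) (p.xs - L)) (sq_nonneg (u0 p ν))
  show 4 * K0 ^ 2 * p.la ν ^ 2 * p.xs + u0 p ν ^ 2 * max p.xs (p.xs - L) -
    (4 * K0 ^ 2 * p.la ν ^ 2 * p.z j + u0 p ν ^ 2 * max (p.z j) (p.xs - L)) ≤ _
  rw [max_eq_left (by linarith : p.xs - L ≤ p.xs)]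
  have f3 : u0 p ν ^ 2 * L = log p.n * p.la ν ^ 2 := by rw [hL, ← u3]; ring
  linarith

/-- the whole second moment of the marks on a static grid -/
theorem gtp {P Q : Pl} (H : p.PlOk ν P) (hI : Q.I = P.I) (hx : Q.x = P.x) {j : ℕ} (hj : j < p.J) :
    ∑ k ∈ Finset.Ioc j (p.Jp Q), (p.zP Q k - p.zP Q (k - 1)) * p.rF ν (p.xP Q k) ^ 2 ≤
      (4 * K0 ^ 2 + 1201 * log p.n) * p.la ν ^ 2 := by
  have e1 : Finset.Ioc j (p.Jp Q) = Finset.Ico (j + 1) (p.J + (P.I + 1)) := by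
    ext k; simp only [Finset.mem_Ioc, Finset.mem_Ico, Pm.Jp, hI]; omega
  rw [e1, ← Finset.sum_Ico_consecutive _ (show j + 1 ≤ p.J from hj) (Nat.le_add_right _ _),
    Finset.sum_Ico_eq_sum_range (m := p.J), Nat.add_sub_cancel_left]
  have a := h.sum_lo j
  have b := sum_rF_two h.nm H
  have JJ := J_le (p := p) (P := Q)
  have zx : ∀ i ≤ P.I + 1, p.zP Q (p.J + i - 1) = xe P i := fun i hi => by
    unfold xe
    split_ifs with c
    · rcases Nat.eq_zero_or_pos i with rfl | d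
      · rw [zP_lo (by omega), H.x0]; rfl
      · rw [zP_mid (by omega) (by unfold Pm.Jp; omega), hx]; congr 1; omega
    · exact zP_hi (by unfold Pm.Jp; omega)
  rw [Finset.sum_congr rfl fun k hk => show (p.zP Q k - p.zP Q (k - 1)) * p.rF ν (p.xP Q k) ^ 2 =
      (p.z k - p.z (k - 1)) * p.rF ν (p.z (k - 1)) ^ 2 by
        have := (Finset.mem_Ico.1 hk).2
        rw [xP_lo (by omega), zP_lo this, zP_lo (by omega)],
    Finset.sum_congr rfl fun i hi => show (p.zP Q (p.J + i) - p.zP Q (p.J + i - 1)) *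
      p.rF ν (p.xP Q (p.J + i)) ^ 2 = (xe P (i + 1) - xe P i) * |p.rF ν (xe P i)| ^ 2 by
        have := Finset.mem_range.1 hi
        rw [xP_lo (by unfold Pm.Jp; omega), zx i this.le, ← zx (i + 1) this, sq_abs]
        rfl]
  linarith

end Nu

section den

variable {p : Pm} {ν x : ℝ} (N : Nm p ν) (h0 : p.xs ≤ x) (h1 : x < 1)
include N h0 h1

theorem db_mul : p.la ν / 4 ≤ db (p.la ν) (x - p.xs + u0 p ν) * (x - p.xs + u0 p ν) := by
  have pA : 0 < x - p.xs + u0 p ν := by linarith [N.u0p]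
  have s := sqrt_pos.2 pA
  have s2 : √(x - p.xs + u0 p ν) ≤ 2 := by
    rw [sqrt_le_left (by norm_num)]; linarith [N.u0_le, N.x0]
  have e : db (p.la ν) (x - p.xs + u0 p ν) * (x - p.xs + u0 p ν) =
      p.la ν / (2 * √(x - p.xs + u0 p ν)) := by unfold db; field_simp
  rw [e]
  exact div_le_div_of_nonneg_left N.lp.le (by positivity) (by linarith)

theorem dt_mul : p.la ν / 4 ≤ dt (p.Vc ν) (p.la ν) (1 - x) * (1 - x) := by
  have pu : 0 < 1 - x := by linarith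
  have l0 := N.lp
  have V0 := N.Vp
  have s := sqrt_pos.2 pu
  have s1 : √(1 - x) ≤ 1 := sqrt_le_one.2 (by linarith [N.x0])
  have e : dt (p.Vc ν) (p.la ν) (1 - x) * (1 - x) =
      p.la ν * p.Vc ν / (2 * (p.Vc ν * √(1 - x) + p.la ν)) := by unfold dt; field_simp
  rw [e, div_le_div_iff₀ (by norm_num) (by positivity)]
  nlinarith [mul_le_mul_of_nonneg_left s1 V0.le, N.lV]

theorem dn_ge : db (p.la ν) (x - p.xs + u0 p ν) + dt (p.Vc ν) (p.la ν) (1 - x) ≤ dn p ν x := by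
  unfold dn
  rw [den_eq h0 h1]
  linarith [dt_nn one_pos (sqrt_nonneg (p.u2 ν)) (show 0 < 1 - x by linarith)]

/-- the local scale of the static clock -/
theorem dn_min : p.la ν / 4 ≤ dn p ν x * min (x - p.xs + u0 p ν) (1 - x) := by
  have pA : 0 < x - p.xs + u0 p ν := by linarith [N.u0p]
  have pu : 0 < 1 - x := by linarith
  have a := db_pos N.lp pA
  have b := dt_nn N.Vp N.lp.le pu
  have c := dn_ge N h0 h1
  rcases min_choice (x - p.xs + u0 p ν) (1 - x) with e | e <;> rw [e]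
  · exact (db_mul N h0 h1).trans (mul_le_mul_of_nonneg_right (by linarith) pA.le)
  · exact (dt_mul N h0 h1).trans (mul_le_mul_of_nonneg_right (by linarith) pu.le)

/-- the log spread is slower than the static clock -/
theorem lsp_step {γ y : ℝ} (g0 : 0 ≤ γ) (g1 : 16 * γ ≤ p.la ν) (hxy : x ≤ y) (hy : y - x ≤ 1 - y) :
    γ * (p.lsp γ y - p.lsp γ x) ≤ (y - x) * dn p ν x := by
  have L := p.lL_ge
  have L0 := p.lL_pos
  have l0 := p.l0'_pos γ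
  have l1 := p.l1'_pos
  have pA : 0 < x - p.xs + u0 p ν := by linarith [N.u0p]
  have pu : 0 < 1 - x := by linarith
  have py : 0 < 1 - y := by linarith
  have d : 0 ≤ y - x := by linarith
  have lp := N.lp
  set u := γ / p.lL with hu
  have u0' : 0 ≤ u := by positivity
  have u1 : 96 * u ≤ p.la ν := by
    have : u ≤ γ / 6 := div_le_div_of_nonneg_left g0 (by norm_num) L
    linarith
  have u2 : 64 * u ≤ p.l0' γ := by
    rw [hu, Pm.l0', ← mul_div_assoc]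
    exact div_le_div_of_nonneg_right (by linarith [le_max_left γ (1 / ((p.n : ℝ) + 1))]) L0.le
  have lg : ∀ {a b : ℝ}, 0 < a → a ≤ b → log b - log a ≤ (b - a) / a := fun {a b} ha hab => by
    rw [← log_div (by linarith) ha.ne', sub_div, div_self ha.ne']
    exact log_le_sub_one_of_pos (div_pos (by linarith) ha)
  have a1 := lg (show 0 < x - p.xs + p.l0' γ by linarith) (show _ ≤ y - p.xs + p.l0' γ by linarith)
  have a2 := lg (show 0 < 1 - y + p.l1' by linarith) (show _ ≤ 1 - x + p.l1' by linarith)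
  have e : γ * (p.lsp γ y - p.lsp γ x) = u * ((log (y - p.xs + p.l0' γ) - log (x - p.xs + p.l0' γ)) +
      (log (1 - x + p.l1') - log (1 - y + p.l1'))) := by
    unfold Pm.lsp; rw [hu]; field_simp; ring
  have b1 : u / (x - p.xs + p.l0' γ) ≤ db (p.la ν) (x - p.xs + u0 p ν) := by
    have s := sqrt_pos.2 pA
    unfold db
    rw [div_le_div_iff₀ (by linarith) (by positivity)]
    rcases le_total (x - p.xs) (u0 p ν) with c | c
    · have s0 := sqrt_pos.2 N.u0p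
      have f : p.la ν = u0 p ν * √(u0 p ν) := by
        have := N.fb_u0
        unfold fb at this
        rwa [div_eq_iff s0.ne'] at this
      have f1 : √(x - p.xs + u0 p ν) ≤ 2 * √(u0 p ν) := by
        rw [sqrt_le_left (by positivity), mul_pow, sq_sqrt N.u0p.le]; linarith [N.u0p]
      have f2 := mul_le_mul (show x - p.xs + u0 p ν ≤ 2 * u0 p ν by linarith) f1 s.le
        (by linarith [N.u0p])
      have f3 := mul_le_mul_of_nonneg_left f2 u0'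
      have f4 := mul_le_mul_of_nonneg_left (show 64 * u ≤ x - p.xs + p.l0' γ by linarith) lp.le
      have f5 := mul_nonneg u0' lp.le
      have f6 : u * (2 * u0 p ν * (2 * √(u0 p ν))) = 4 * (u * p.la ν) := by rw [f]; ring
      linarith
    · have s2 : √(x - p.xs + u0 p ν) ≤ 2 := by
        rw [sqrt_le_left (by norm_num)]; linarith [N.u0_le, N.x0]
      have f2 := mul_le_mul (show x - p.xs + u0 p ν ≤ 2 * (x - p.xs) by linarith) s2 s.le
        (by linarith)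
      have f3 := mul_le_mul_of_nonneg_left f2 u0'
      have f4 := mul_le_mul_of_nonneg_right u1 (show 0 ≤ x - p.xs by linarith)
      have f5 := mul_nonneg u0' (show 0 ≤ x - p.xs by linarith)
      nlinarith [mul_pos lp l0]
  have b2 : u / (1 - y + p.l1') ≤ dt (p.Vc ν) (p.la ν) (1 - x) := by
    rw [div_le_iff₀ (by linarith)]
    have := mul_le_mul_of_nonneg_left (show (1 - x) / 2 ≤ 1 - y + p.l1' by linarith)
      (dt_nn N.Vp lp.le pu)
    linarith [dt_mul N h0 h1]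
  have c1 := mul_le_mul_of_nonneg_left (add_le_add a1 a2) u0'
  have c2 := mul_le_mul_of_nonneg_left ((add_le_add b1 b2).trans (dn_ge N h0 h1)) d
  rw [e]
  refine c1.trans (le_of_eq_of_le ?_ c2)
  ring

end den

/-- the bound of the residual sum -/
def gE (K : ℝ) (p : Pm) : ℝ := p.μe ^ 2 * (K * log p.n * p.la p.μe ^ 2)

variable {K K0 c0 C0 η : ℝ} {p : Pm}

/-- plateau data with the labels and marks of a static grid and a small spread -/
theorem pld (h : Nu K K0 c0 C0 η (2 * p.ye) p.μe p) (hK : 4 * K0 ^ 2 + 1201 ≤ K) {L : ℝ}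
    (ho : Om p.v (2 * p.ye) L (p.om 1 p.ye)) (r0 : 0 ≤ p.r) (ry : p.r ≤ p.ye) (k0 : 0 ≤ p.κ)
    (m1 : p.μe ≤ 1) (hA : 1 ≤ p.A) (hj : p.jf < p.J) {P Q : Pl} (H : p.PlOk p.μe P)
    (hI : Q.I = P.I) (hx : Q.x = P.x) (hr : ∀ x, Q.rs x = p.rF p.μe x)
    (hh : ∀ x, Q.hs x = p.μe * p.rF p.μe x) (g0 : 0 ≤ Q.γ)
    (g1 : Q.γ ≤ (p.n : ℝ) ^ (-(7 / 20 : ℝ))) (g2 : 16 * Q.γ ≤ p.la p.μe) :
    PlD K p Q p.ye (dn p p.μe) (gE K p) (u0 p p.μe) ((p.n : ℝ) ^ (-(2 : ℝ))) ∧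
    (∀ k, p.jf < k → k < p.J → Q.hs (p.z k) - Q.hs (p.z (k - 1)) ≤
      K * p.ms 1 p.ye (p.sO Q (p.om 1 p.ye) k) * p.v) ∧
    ∀ i < Q.I, Q.hs (Q.x (i + 1)) - Q.hs (Q.x i) ≤
      K * p.μe * (Q.rs (Q.x (i + 1)) - Q.rs (Q.x i)) := by
  have N := h.nm
  have v0 := N.v0
  have K1 := h.K78
  have l1 := N.l1
  have m0 : 0 ≤ p.μe := mul_nonneg (by linarith) (sq_nonneg _)
  have sH : ∀ k, p.jf < k → k < p.J → _ := fun k a b => h.stepH (k := k) (by omega) b m0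
    (w := p.ms 1 p.ye (sig p.v (p.om 1 p.ye) k)) (mul_nonneg (by linarith) (sq_nonneg _))
    fun c => by
      rw [ho.sig_eq c]
      unfold Pm.ms Pm.μe Pm.μ
      rw [min_eq_right (by linarith), max_eq_right ry]
  have st : ∀ i < P.I, p.v / 2 ≤ p.rF p.μe (P.x (i + 1)) - p.rF p.μe (P.x i) ∧
      p.rF p.μe (P.x (i + 1)) - p.rF p.μe (P.x i) ≤ 2 * p.v := fun i hi => H.rs ▸ H.st i hi
  have vK : p.v / K ≤ p.v / 78 := div_le_div_of_nonneg_left v0.le (by norm_num) K1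
  have Kv := mul_le_mul_of_nonneg_right K1 v0.le
  refine ⟨⟨g0, g1, hx ▸ H.x0, fun i _ => hx ▸ H.xm (Nat.lt_succ_self i),
    by rw [hx, hI]; exact (x_lt N H le_rfl).le, by rw [hI]; linarith [I_le N H], fun x a => ?_,
    fun k a b => ?_, fun i hi => ?_, ?_, ?_, fun i hi => ?_, N.den0, fun x x' a b c d => ?_,
    by rw [hx, hI]; exact H.e2⟩, fun k a b => ?_, fun i hi => ?_⟩
  · rw [hr, hh, h.zero' a, mul_zero]; exact ⟨rfl, rfl⟩
  · rw [hr, hr, hh, hh]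
    exact ⟨(h.step (by omega) b).1, (h.step (by omega) b).2, (sH k a b).1⟩
  · rw [hI] at hi
    rw [hr, hr, hh, hh, hx, ← mul_sub]
    obtain ⟨a, b⟩ := st i hi
    have d : 0 ≤ P.x (i + 1) - P.x i := sub_nonneg.2 (H.xm.monotone (Nat.le_succ i))
    have e := lsp_step N (x_ge N H i) (x_lt N H hi.le) g0 g2 (sub_nonneg.1 d)
      (le_min_iff.1 (x_shell N H hi)).2
    have f := mul_nonneg g0 (sub_nonneg.2 (p.lsp_le Q.γ (x_ge N H i) (sub_nonneg.1 d)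
      (x_lt N H hi).le))
    have K' := mul_le_mul_of_nonneg_right (show 80 ≤ K by linarith [sq_nonneg K0]) v0.le
    refine ⟨by linarith, by linarith [(x_plat N H hi).2], by linarith,
      mul_le_mul_of_nonneg_right (div_le_self m0 (by linarith)) (by linarith)⟩
  · rw [hh, hx, hI]
    have a := (abs_le.1 (N.abs_rF_log H.e1)).2
    have A : (1 : ℝ) ≤ p.A := by exact_mod_cast hA
    have b := mul_le_mul_of_nonneg_left a m0
    have c := mul_le_of_le_one_left (show 0 ≤ 6 * log (p.n : ℝ) by linarith) m1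
    have d := mul_le_mul_of_nonneg_right (show 6 ≤ K * p.A by nlinarith)
      (show 0 ≤ log (p.n : ℝ) by linarith)
    linarith
  · simp only [hh, mul_pow, mul_left_comm _ (p.μe ^ 2), ← Finset.mul_sum]
    refine mul_le_mul_of_nonneg_left ((h.gtp H hI hx hj).trans
      (mul_le_mul_of_nonneg_right ?_ (sq_nonneg _))) (sq_nonneg _)
    nlinarith [sq_nonneg K0]
  · rw [hI] at hi
    rw [hx]
    obtain ⟨a, b⟩ := x_plat N H hi
    exact ⟨vK.trans a, b.trans Kv⟩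
  · obtain ⟨e, f⟩ := N.dens a b c d
    exact ⟨e.trans (mul_le_mul_of_nonneg_right (by linarith) (N.den0 _).le),
      f.trans (mul_le_mul_of_nonneg_right (by linarith) (N.den0 _).le)⟩
  · rw [hh, hh, sP_lo b.le]; exact (sH k a b).2
  · rw [hI] at hi
    rw [hr, hr, hh, hh, hx, ← mul_sub]
    exact mul_le_mul_of_nonneg_right (le_mul_of_one_le_left m0 (by linarith))
      (by linarith [(st i hi).1])

/-- the scales of the segment `C1` -/
def sC (K D : ℝ) (p : Pm) (P : Pl) : Sc :=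
  p.sgS P (p.om 1 p.ye) (8 * K ^ 2) D (p.ms 1 p.ye) (dn p p.μe) (gE K p) (u0 p p.μe)
    ((p.n : ℝ) ^ (-(2 : ℝ)))

/-- membership along `C1` with explicit scales -/
def Mem1X (K : ℝ) (p : Pm) : Prop :=
  ∀ P, p.PlOk p.μe P → ∀ t ∈ Icc (0 : ℝ) 1,
    Cl (sC K (3 * K ^ 2 * (p.n : ℝ) ^ (-(7 / 20 : ℝ))) p P) (p.c1M (7 / 20) P t) ∧
    Cei (sC K (3 * K ^ 2 * (p.n : ℝ) ^ (-(7 / 20 : ℝ))) p P) (p.c1M (7 / 20) P t)

theorem la_bds {β K η : ℝ} (h : Ctx β c0 C0 K η p) (hc : log 16 ≤ 1 / 60 * log p.n) :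
    16 * (p.n : ℝ) ^ (-(7 / 20 : ℝ)) ≤ p.la p.μe ∧
      u0 p p.μe ≤ (p.n : ℝ) ^ (-(1 / 9 : ℝ)) := by
  have Eμ : Eb p.μe _ := (Eb.one.mul h.Eκ).mul h.Eye.pow
  have Em : Eb (p.mu' p.μe) _ := Eμ.mul (h.Epow ((1 : ℝ) / 3))
  have El : Eb (p.la p.μe) _ := (h.Epow _).mul (Em.rpow.min Em.rpow)
  have E16 := Eb.log (show (0 : ℝ) < 16 by norm_num)
  have Eu : Eb (u0 p p.μe) _ := El.rpow
  have l2 := h.l2
  have c0 := h.cl_pos
  have c1 := h.cl_le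
  constructor
  · rw [(E16.mul (h.Epow (-(7 / 20)))).le_iff El]
    push_cast
    rw [← sub_le_iff_le_add', le_min_iff]
    constructor <;> linarith
  · rw [Eu.le_iff (h.Epow _)]
    push_cast
    linarith [min_le_left (-1 / 3 * (0 + -(p.c * log p.n) + 2 * -(3 * (p.c * log p.n)) +
      1 / 3 * log p.n)) (-1 / 2 * (0 + -(p.c * log p.n) + 2 * -(3 * (p.c * log p.n)) +
      1 / 3 * log p.n))]

/-- the numeric inputs hold -/
theorem nuE (β : ℝ) (hβ : 1 < β) (c0 C0 : ℝ) (hc0 : 0 < c0) (hC0 : 1 ≤ C0) :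
    ∃ K0 : ℝ, 1 ≤ K0 ∧ ∀ K, 78 * (C0 * K0 ^ 2) ≤ K → ∀ A : ℕ, 2 ≤ A → ∀ c : ℝ, 0 < c →
      c ≤ 1 / 200 → ∀ᶠ n : ℕ in atTop, All β c0 C0 A c n fun p =>
        Nu K K0 c0 C0 (C0 / (p.n : ℝ) ^ p.A) (2 * p.ye) p.μe p ∧ Ctx β c0 C0 1 1 p ∧
          16 * (p.n : ℝ) ^ (-(7 / 20 : ℝ)) ≤ p.la p.μe ∧ p.jf < p.J ∧
          ∃ L, Om p.v (2 * p.ye) L (p.om 1 p.ye) := by
  obtain ⟨_, -, H3⟩ := gp β hβ c0 C0 hc0 hC0
  obtain ⟨K0, k1, H1⟩ := gpO β hβ c0 C0 hc0 hC0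
  obtain ⟨K2, _, -, H2⟩ := fin_nm hβ c0 C0 hc0 hC0
  refine ⟨K0, k1, fun K hK A hA c hc hc' => ?_⟩
  have d0 : 0 < 1 / (6 * C0 * K0) := by positivity
  filter_upwards [H1 A hA c hc hc', PP3.ev_small β c0 C0 hA hc hc' d0,
    ev_ctx β (max (max K2 1) (max (12 * C0 * K) (60 * log 16))) hc0 hC0 hA hc hc' one_pos,
    ev_log (2 * K0) (show (0 : ℝ) < 1 / 9 by norm_num), H3 A hA c hc hc']
    with n h1 hS h2 h3 h4 p e1 e2 e3 e4 hp
  have S := hS p e1 e2 e3 e4 hp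
  have X := h2 p e1 e2 e3 e4 hp
  obtain ⟨⟨-, a1, -, a3, a4, a5⟩, -⟩ := h1 p e1 e2 e3 e4 hp
  have b := X.big.le
  rw [one_mul, max_le_iff, max_le_iff, max_le_iff] at b
  have N := (H2 p (X.mono ((le_max_left _ _).trans (le_max_left _ _)) le_rfl)).2 p.μe
    (X.μ0_le_μ X.mem_end) ((X.μ_le X.mem_end).trans
      (pow_le_of_le_one X.κ_pos.le X.κ_le_one (by norm_num)))
  obtain ⟨f1, f2⟩ := la_bds X (by linarith [b.2.2])
  rw [← e2] at h3
  have n0 := X.n_pos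
  refine ⟨⟨N, hp.base, hc0, hC0, k1, hK, a3, a4, ?_, b.2.1, ?_⟩,
    X.mono ((le_max_right _ _).trans (le_max_left _ _)) le_rfl, f1, ?_,
    _, (h4 p e1 e2 e3 e4 hp 1 p.ye zero_le_one le_rfl X.ye_pos le_rfl).1⟩
  · refine (mul_le_mul_of_nonneg_left f2 (by linarith [X.l2])).trans ?_
    rw [rpow_neg n0.le, ← div_eq_mul_inv, div_le_div_iff₀ (by positivity) (by positivity)]
    linarith
  · have vδ : p.v ≤ 1 / (6 * C0 * K0) := by
      have := S.ηv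
      have : 0 ≤ C0 / (p.n:ℝ) ^ p.A := by positivity
      have := mul_le_of_le_one_right d0.le S.μ1
      linarith
    have g := mul_le_mul_of_nonneg_left (show p.v + 2 * p.ye ≤ 3 * (1 / (6 * C0 * K0)) by
      linarith [S.ye]) (show 0 ≤ C0 by linarith)
    have e : C0 * (3 * (1 / (6 * C0 * K0))) = 1 / (2 * K0) := by field_simp; norm_num
    linarith
  · have : (p.jf : ℝ) * p.v < p.J * p.v := by linarith [X.r_le_ye, X.ye_pos]
    exact_mod_cast lt_of_mul_lt_mul_right this N.v0.le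

theorem mem1X (β : ℝ) (hβ : 1 < β) : Cst β Mem1X := by
  intro c0 C0 hc0 hC0
  obtain ⟨K1, k1, H1⟩ := memT β hβ c0 C0 hc0 hC0
  obtain ⟨K0, k0, H0⟩ := nuE β hβ c0 C0 hc0 hC0
  have q1 : 0 ≤ C0 * K0 ^ 2 := by positivity
  have q2 := sq_nonneg K0
  obtain ⟨K, hK⟩ : ∃ K, K = K1 + 78 * (C0 * K0 ^ 2) + 4 * K0 ^ 2 + 1201 := ⟨_, rfl⟩
  refine ⟨K, by linarith, fun A hA c hc hc' => ?_⟩
  have t1 := (tendsto_rpow_atTop (y := 7 / 20) (by norm_num)).comp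
    (tendsto_natCast_atTop_atTop (R := ℝ))
  filter_upwards [H1 K (by linarith) A hA c hc hc', H0 K (by linarith) A hA c hc hc',
    t1.eventually_ge_atTop (3 * K ^ 2)] with n h1 h0 h3 p e1 e2 e3 e4 hp P H t ht
  have T := h1 p e1 e2 e3 e4 hp p.ye
  obtain ⟨N, X, f1, jJ, L, ho⟩ := h0 p e1 e2 e3 e4 hp
  simp only [Function.comp] at h3
  rw [← e2] at h3
  have n0 := X.n_pos
  have γ0 : 0 < (p.n : ℝ) ^ (-(7 / 20 : ℝ)) := rpow_pos_of_pos n0 _
  have W : ∀ {Q : Pl}, _ := fun {Q} => pld N (by linarith) ho X.r_pos.le X.r_le_ye X.κ_pos.le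
    (X.μ_le_one X.mem_end) (by have := X.A2; omega) jJ H (Q := Q)
  obtain ⟨d0, u1, u2⟩ := W rfl rfl (fun x => by rw [H.rs]) (fun x => by rw [H.hs]) H.g.ge
    (H.g.le.trans γ0.le) (by rw [H.g, mul_zero]; exact N.nm.lp.le)
  obtain ⟨d1, w1, w2⟩ := W (Q := p.alP (7 / 20) P 1) rfl rfl (fun x => one_mul _)
    (fun x => one_mul _) γ0.le le_rfl f1
  obtain ⟨m0, b1, -, -, b2, b3⟩ := T _ _ _ _ _ X.r_le_ye le_rfl d0
  obtain ⟨m1, -, -, F, -, -⟩ := T _ _ _ _ _ X.r_le_ye le_rfl d1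
  have K1' := m0.K1
  have bK := m0.bK
  have b0 : 0 ≤ p.b 1 p.ye + 0 := by linarith [m0.b0]
  obtain ⟨s1, s2⟩ := C1Mem3.dH_spr (b := p.b 1 p.ye + 0) m0.geo m1.geo H.g rfl rfl
    (by rw [H.hs]; funext x; exact one_mul _) F.γN F.tr.near (by linarith) b0
  have eγ : (p.alP (7 / 20) P 1).γ = (p.n : ℝ) ^ (-(7 / 20 : ℝ)) := rfl
  rw [eγ] at s1 s2
  have g1 := mul_le_mul_of_nonneg_right bK (show 0 ≤ K by linarith)
  have g2 : (p.b 1 p.ye + 0) * K + 1 + (p.b 1 p.ye + 0) ≤ 3 * K ^ 2 := by nlinarith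
  have Tw : C1Mem3.Two K c0 C0 _ _ (3 * K ^ 2 * (p.n : ℝ) ^ (-(7 / 20 : ℝ))) p P
      (p.alP (7 / 20) P 1) _ _ _ _ _ _ _ _ _ _ _ :=
    ⟨m0, m1, rfl, (b1.trans b3.symm).le, by positivity, by
      rw [rpow_neg n0.le, ← div_eq_mul_inv, div_le_one (by positivity)]; exact h3,
      fun k hk => (s1 k hk).trans (mul_le_mul_of_nonneg_right (mul_le_mul_of_nonneg_right
        (by linarith) γ0.le) (m0.geo.sP_nn k)),
      fun k => (s2 k).trans (mul_le_mul_of_nonneg_right g2 γ0.le)⟩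
  rw [c1M_eq]
  exact ⟨Tw.cl ht, Tw.cei (m0.cei' b2 Tw.mJ u1 (b1 ▸ u2)) (m1.cei' b2 Tw.mJ w1 (b1 ▸ w2)) ht⟩

end Mem13

/-- **membership along `C1`** -/
theorem mem1 {β : ℝ} (hβ : 1 < β) : Cst β (Mem1 (7 / 20)) := by
  intro c0 C0 hc0 hC0
  obtain ⟨K, K1, H⟩ := Mem13.mem1X β hβ c0 C0 hc0 hC0
  refine ⟨8 * K ^ 2, by nlinarith, fun A hA c hc hc' => ?_⟩
  filter_upwards [H A hA c hc hc'] with n h p e1 e2 e3 e4 hp P hP t ht
  exact ⟨_, (h p e1 e2 e3 e4 hp P hP t ht).1, rfl, rfl, rfl, rfl, rfl, rfl, rfl, rfl, rfl, rfl, rfl⟩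

end Crest.Agent.T156.Alt

end
end

-- ▼ part T156/SprJ_41
section

/-!
# Row 156, stage C1: the spread is switched on (helper41)
-/

set_option autoImplicit false
set_option linter.unusedSectionVars false

noncomputable section

namespace Crest.Agent.T156.Alt.Cost41

open Real Set
open Crest.Agent.T156.Alt.Plt13 Crest.Agent.T156.Alt.Md67

/-- **a segment of marks on a fine grid is a stage** -/
theorem go_seg {p : Pm} {Λ α B Bl l V W δ : ℝ} {P : Pl} {M : ℝ → Md} {φ : ℕ → ℝ} (U : Nu p Λ)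
    (hn : 0 < p.n) (F : FS M φ) (G : ∀ t ∈ Icc (0 : ℝ) 1, Gm p Λ α P (M t))
    (Z : ∀ t ∈ Icc (0 : ℝ) 1, Sz p Λ B Bl P (M t) φ) (hd : (M 0).d 0 ≤ p.β ^ 2)
    (l0 : p.r ≤ l) (l1 : l ≤ 1) (V0 : 0 ≤ V) (Bl0 : 0 ≤ Bl) (W0 : 0 ≤ W)
    (hL : ∀ t ∈ Icc (0 : ℝ) 1, ∀ m a, p.InW m a →
      (∀ k ≤ p.Jp P, (M t).rb m a k ≤ Λ * max ((M t).z k) l) ∧ p.tw P (M t) m a ≤ V ^ 2)
    (hW : Λ ^ 3 * (2 / p.n * (Λ ^ 3 * (72 * Λ ^ 8 * (Bl ^ 2 * (l / p.r) ^ 2 / p.μe) +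
        6 * 10 ^ 6 * Λ ^ 14 * (B ^ 2 / (p.μe * α) * (p.la p.μe * (p.la p.μe + V))))) +
        Λ ^ 2 * (p.n : ℝ) ^ (-(2 : ℝ))) ≤ W ^ 2)
    (h1 : 2 * p.n * W ≤ δ * (p.n : ℝ) ^ ((1 : ℝ) / 6) * p.s ^ 2)
    (h2 : 2 * p.n * ((p.n : ℝ) ^ (-(2 : ℝ)) * Λ) ≤ δ * (p.n : ℝ) ^ ((1 : ℝ) / 6) * p.s ^ 5) :
    Go δ p (M 0) (M 1) := by
  have I0 : (0 : ℝ) ∈ Icc (0 : ℝ) 1 := ⟨le_rfl, zero_le_one⟩
  have L : ∀ t ∈ Icc (0 : ℝ) 1, (M t).Leg p.am := fun t ht => by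
    obtain ⟨C, -, S, h, -, -, -, -, sa, -⟩ := (G t ht).mem
    exact Leg_mono h.leg (by rw [sa]; linarith [U.am, U.i0])
  obtain ⟨C, -, S, h, -, -, -, -, -, -, -, sl, sJ, sP, -⟩ := (G 0 I0).mem
  have jJ : p.jf + 1 < p.J := sl ▸ sJ ▸ h.i2
  have JP : p.Jp P = p.J + P.I := rfl
  have PN : p.Jp P < (M 0).N := sP ▸ h.i4
  have np := U.np
  have L0 := U.L0
  have G0 := G 0 I0
  have z1 : ∀ k, p.Jp P ≤ k → (M 0).z k = 1 := fun k hk => by
    rw [G0.z, max_eq_left (by omega), Pm.zP, if_neg (by omega), if_neg (by omega)]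
  refine ⟨M '' Icc 0 1, F.stage (n := p.n) (s := p.s) (γ := p.ga) hn W0 L hd (j0 := p.jf)
    (N := p.Jp P - 1) (by omega) (by omega) (fun t ht m m1 m2 a c1 c2 => ?_) ?_ (by positivity)
    h1 h2, 1, ⟨zero_le_one, le_rfl⟩, rfl⟩
  · have w : p.InW m a := ⟨m1, m2, c1, c2⟩
    have k := cost_one U (G t ht) (Z t ht) w l0 l1 V0 Bl0 (hL t ht m a w).1 (hL t ht m a w).2
    rw [F.z] at k
    exact k.trans hW
  · rw [Finset.sum_eq_zero fun k hk => by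
      rw [(Z 0 I0).φ0 k (Finset.mem_Ioc.1 hk).2, abs_zero, mul_zero], zero_add]
    refine (Finset.sum_le_sum (g := fun k => ((M 0).z k - (M 0).z (k - 1)) * Λ)
      fun k _ => ?_).trans ?_
    · rcases le_or_gt k (p.Jp P) with c | c
      · exact mul_le_mul_of_nonneg_left ((Z 0 I0).top k c) (sub_nonneg.2 (h.leg.zm (by omega)))
      · rw [z1 k c.le, z1 (k - 1) (by omega), sub_self, zero_mul, zero_mul]
    · rw [← Finset.sum_mul, tele _ (by omega), z1 _ PN.le, show p.Jp P - 1 = p.J - 1 + P.I by omega,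
        z_x G0.z G0.fine.x0 (by omega) le_rfl]
      exact mul_le_mul_of_nonneg_right G0.fine.e2 L0.le

/-- the velocity of the segment `C1` -/
def ph1 (p : Pm) (g : ℝ) (P : Pl) : ℕ → ℝ :=
  p.dH P (p.alP g P 1) (p.om 1 p.ye) (p.b 1 p.ye + 0)

theorem fs1 (p : Pm) (g : ℝ) (P : Pl) : FS (p.c1M g P) (ph1 p g P) := by
  refine ⟨fun _ => rfl, fun _ => rfl, fun _ => rfl, fun t k => ?_,
    C1Mem3.Two.dH_lo (Nat.zero_le _)⟩
  rw [c1M_eq, c1M_eq]
  change _ + t * _ = _ + 0 * _ + t * _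
  rw [zero_mul, add_zero (p.HO _ _ _ _)]; rfl

theorem c1M_zero (p : Pm) (g : ℝ) (P : Pl) : p.c1M g P 0 = p.tst P p.ye := by
  unfold Pm.c1M Pm.tst
  congr 1
  funext k
  exact zero_mul _

theorem env_ge {p : Pm} {μ x : ℝ} (N : Nm p μ) (h0 : p.xs ≤ x) (h1 : x ≤ 1) :
    p.la μ / 2 ≤ env p μ x := by
  have a : p.la μ / 2 ≤ fb (p.la μ) (x - p.xs + u0 p μ) :=
    div_le_div_of_nonneg_left N.lp.le (sqrt_pos.2 (by linarith [N.u0p]))
      (sqrt_le_iff.2 ⟨by norm_num, by linarith [N.u0_le, N.x0]⟩)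
  have b := ft_nn N.Vp N.lp.le (1 - x)
  have c := ft_nn one_pos N.sp.le (1 - x)
  unfold env
  linarith

section num

variable {β c0 C0 c η K : ℝ} {A : ℕ} {p : Pm} (H : Reg β c0 C0 A c η K p)
include H

theorem μe0 : 0 < p.μe := H.μ_pos H.mem_end

theorem lg_μe : logb p.n p.μe = -(7 * c) := by
  rw [Pm.μe, H.lg_μ_eq H.mem_end, logb_one, H.lg_ye]; ring

theorem lg_lae : logb p.n (p.la p.μe) = -(1 / 3) + 3 * c := by
  rw [H.lg_la (μe0 H), lg_μe H, min_eq_right (by linarith [H.c_le])]; ring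

/-- the numbers -/
theorem nu_of (hA : 5 ≤ A) (hη : 60 * η ≤ c) (N : Nm p p.μe) : Nu p ((p.n : ℝ) ^ η) := by
  have N0 := H.N0
  have μ0 := μe0 H
  have v0 := H.v0
  have r0 := H.r0
  have y0 := H.ye0
  have Λ0 := H.Λ0
  have L0 : 0 < log (p.n : ℝ) := by linarith [H.log1]
  have l0 := N.lp
  have A5 : (5 : ℝ) ≤ A := by exact_mod_cast hA
  have lΛ := H.lg_rp η
  have η0 := H.η_pos
  have cl := H.c_le
  have ls := H.lg_s
  have l2 := H.lg_two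
  have l4 := H.lg_num (x := 4) (by norm_num) (by norm_num)
  have l6 := H.lg_num (x := 6) (by norm_num) (by norm_num)
  have ln := H.lg_n
  have LΛ := H.log_le
  have AΛ := H.A_le
  have h6 := H.num_le
  set Λ := (p.n : ℝ) ^ η with hΛ
  refine ⟨h6, LΛ, H.hA ▸ AΛ, N, ?_, ?_, ?_, ?_, ?_, Spr59.jf_le H (by linarith), ?_, H.r_le_ye,
    ?_, ?_, ?_, H.ok.s1, H.κ0⟩
  · refine H.le_of_lg (by positivity) (by positivity) ?_
    lg_norm
    rw [ln]
    linarith [H.lg_v_le]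
  · refine H.le_of_lg one_pos (by positivity) ?_
    lg_norm
    rw [ln, H.hA]
    linarith [H.lg_v, H.lg_β.1]
  · refine H.le_of_lg (by positivity) H.am0 ?_
    lg_norm
    linarith [H.lg_am]
  · refine H.le_of_lg (by positivity) r0 ?_
    lg_norm
    linarith [H.lg_r]
  · refine H.le_of_lg (by positivity) one_pos ?_
    lg_norm
    linarith [H.lg_r]
  · refine H.le_of_lg (by positivity) one_pos ?_
    lg_norm
    linarith [H.lg_ye]
  · refine H.le_of_lg (by positivity) (by norm_num) ?_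
    lg_norm
    linarith [lg_μe H]
  · refine H.le_of_lg (by positivity) (by positivity) ?_
    lg_norm
    rw [ln]
    linarith
  · refine H.le_of_lg (by have := N.u0p; positivity) one_pos ?_
    rw [u0]
    lg_norm
    linarith [lg_lae H, H.lg_log.2]

set_option maxHeartbeats 1600000 in
theorem go1 {C C' : ℝ} (hA : 5 ≤ A) (hc : c ≤ 1 / 400) (hη : 60 * η ≤ c) (C1 : 1 ≤ C) (CK : C ≤ K)
    (hK : exp (3 * C0 * C) ≤ K) (G : CrS C p) (N : Nm p p.μe) (CΛ : C' ≤ (p.n : ℝ) ^ η)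
    (hM : Mem1 (7 / 20) C' p) (hL : SprL1 (7 / 20) ((p.n : ℝ) ^ η) p) :
    C1S (7 / 20) ((p.n : ℝ) ^ η)⁻¹ p := by
  intro P hP
  have U := nu_of H hA hη N
  have N0 := H.N0
  have μ0 := μe0 H
  have v0 := H.v0
  have r0 := H.r0
  have s0 := H.s0
  have Λ0 := H.Λ0
  have l0 := N.lp
  have A5 : (5 : ℝ) ≤ A := by exact_mod_cast hA
  have lΛ := H.lg_rp η
  have η0 := H.η_pos
  have ls := H.lg_s
  have l2 := H.lg_two
  have l3 := H.lg_num (x := 3) (by norm_num) (by norm_num)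
  have ln := H.lg_n
  have lm := lg_μe H
  have ll := lg_lae H
  have h6 := H.num_le
  have bΛ := H.β_le
  have KΛ := CK.trans H.K_le
  have xI := x_lt N hP le_rfl
  obtain ⟨S0, F0⟩ := Spr59.ls_of H (by linarith) C1 hK G N hP.x0 hP.xm xI hP.g.ge
    (hP.g ▸ (H.rp0 _).le) (fun x => by rw [hP.hs]) μ0.le le_rfl
  obtain ⟨S1, F1⟩ := Spr59.ls_al (g := 7 / 20) le_rfl H (by linarith) C1 hK G N hP.x0 hP.xm xI
    zero_le_one le_rfl
  have b0 : 0 ≤ p.b 1 p.ye + 0 := by linarith [F0.b1]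
  obtain ⟨s1, s2⟩ := C1Mem3.dH_spr (b := p.b 1 p.ye + 0) S0.geo S1.geo hP.g rfl rfl
    (by rw [hP.hs]; funext x; exact one_mul _) F1.γN F1.tr.near (by linarith) b0
  have eγ : (p.alP (7 / 20) P 1).γ = (p.n : ℝ) ^ (-(7 / 20 : ℝ)) := rfl
  rw [eγ] at s1 s2
  have lγ := H.lg_rp (-(7 / 20 : ℝ))
  have γ0 := H.rp0 (-(7 / 20 : ℝ))
  have lC0 : 0 < p.lC := mul_pos s0 (H.rp0 _)
  have lC : logb p.n p.lC = logb p.n p.s + c - 1 / 6 := by
    rw [Pm.lC, logb_mul s0.ne' (H.rp0 _).ne', H.lg_rp, H.hc]; ring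
  have jJ := S0.jJ
  have ms : ∀ i < P.I, P.x (i + 1) - P.x i ≤ (p.n : ℝ) ^ (-(3 : ℝ)) := fun i hi =>
    (x_mesh N hP hi).trans (H.le_of_lg (by positivity) (by positivity) (by
      lg_norm
      rw [ln]
      linarith [H.lg_v_le, (H.lg_num (x := 624) (by norm_num) (by norm_num)).2]))
  generalize (p.n : ℝ) ^ (-(7 / 20 : ℝ)) = γ at *
  set Λ := (p.n : ℝ) ^ η with hΛ
  have bb : p.b 1 p.ye + 0 ≤ Λ := by linarith [F0.b2, H.hβ ▸ bΛ]
  have bC : (p.b 1 p.ye + 0) * C ≤ Λ ^ 2 := by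
    rw [sq]; exact mul_le_mul bb KΛ (by linarith) Λ0.le
  have g1 : 3 * Λ ^ 2 * γ ≤ p.μe * (p.la p.μe / 2) :=
    H.le_of_lg (by positivity) (by positivity) (by
      lg_norm
      linarith)
  have al : ∀ k, |ph1 p (7 / 20) P k| ≤ p.μe * (p.la p.μe / 2) := fun k =>
    (s2 k).trans (le_trans (mul_le_mul_of_nonneg_right (by nlinarith) γ0.le) g1)
  have a1 : p.μe * (p.la p.μe / 2) ≤ p.μe * p.la p.μe :=
    mul_le_mul_of_nonneg_left (by linarith) μ0.le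
  have fine : p.Fine P := ⟨hP.x0, hP.xm, fun i hi => (ms i hi).trans U.n32, xI, hP.e2⟩
  rw [← c1M_zero p (7 / 20) P]
  refine go_seg (α := 1) (B := p.μe) (Bl := Λ ^ 2 * γ) (l := p.lC)
    (V := Λ * p.s ^ 4 * (p.n : ℝ) ^ (-(1 : ℝ) / 3) / √p.μe)
    (W := Λ ^ 13 * p.s ^ 2 * (p.n : ℝ) ^ (-(5 / 6) - c / 4)) U H.n0 (fs1 p _ P)
    (fun t ht => ⟨⟨C', CΛ, hM P hP t ht⟩, fun _ => rfl, fine, hP.e1, ms, one_pos, le_rfl,
      fun i hi => ?_, ?_⟩)
    (fun t ht => ⟨fun k hk => C1Mem3.Two.dH_lo hk, fun k _ b _ => ?_, fun k _ _ => ?_,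
      fun k _ _ _ => (al k).trans a1, fun k a b => ?_, fun k _ => ?_⟩)
    (by simpa [Pm.c1M, Pm.fam] using F0.b2) ?_ ?_ (by positivity) (by positivity) (by positivity)
    (fun t ht m a w => ⟨(hL P hP t ht m a w).1, (hL P hP t ht m a w).2.trans ?_⟩) ?_ ?_ ?_
  · have := (hP.st i hi).2
    rw [hP.rs] at this
    linarith
  · have e : p.sO P (p.om 1 p.ye) (p.Jp P) = p.sO P (p.om 1 p.ye) p.J := by
      rw [S0.geo.sP_Jp, S0.geo.sP_J, hP.g, zero_mul, add_zero]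
    change Pr.Gam _ (p.sO P (p.om 1 p.ye) (p.Jp P)) - Pr.Gam _ (p.sO P (p.om 1 p.ye) p.J) ≤ _
    rw [e, sub_self]
    exact l0.le
  · exact (s1 k b.le).trans (mul_le_mul_of_nonneg_right (mul_le_mul_of_nonneg_right bC γ0.le)
      (S0.geo.sP_nn k))
  · exact ((al k).trans a1).trans (mul_le_mul_of_nonneg_left N.l_le_u0 μ0.le)
  · obtain ⟨i, rfl⟩ := Nat.exists_eq_add_of_le a
    have hi : i ≤ P.I := by unfold Pm.Jp at b; omega
    rw [show p.J + i - 1 = p.J - 1 + i by omega, z_x (fun _ => rfl) hP.x0 jJ hi]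
    exact (al _).trans (mul_le_mul_of_nonneg_left
      (env_ge N (x_ge N hP i) (x_lt N hP hi).le) μ0.le)
  · exact ((al k).trans a1).trans
      ((mul_le_one₀ (Spr59.μe_le H) l0.le N.l_le).trans U.L1)
  · exact H.le_of_lg r0 lC0 (by linarith [H.lg_r])
  · exact H.le_of_lg lC0 one_pos (by rw [logb_one]; linarith)
  · refine H.le_of_lg (by positivity) (by positivity) ?_
    lg_norm
    rw [ln]
    linarith
  · set W := Λ ^ 13 * p.s ^ 2 * (p.n : ℝ) ^ (-(5 / 6) - c / 4) with hW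
    set V := Λ * p.s ^ 4 * (p.n : ℝ) ^ (-(1 : ℝ) / 3) / √p.μe with hV
    have l4 := H.lg_num (x := 4) (by norm_num) (by norm_num)
    have l72 := H.lg_num (x := 72) (by norm_num) (by norm_num)
    have t0 : (6 * 10 ^ 6 : ℝ) ≤ Λ ^ 3 :=
      le_trans (by norm_num) (pow_le_pow_left₀ (by norm_num) h6 3)
    have t1 : Λ ^ 3 * (2 / p.n * (Λ ^ 3 * (72 * Λ ^ 8 * ((Λ ^ 2 * γ) ^ 2 * (p.lC / p.r) ^ 2 /
        p.μe)))) ≤ W ^ 2 / 4 := H.le_of_lg (by positivity) (by positivity) (by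
      rw [hW]
      lg_norm
      rw [ln]
      linarith [H.lg_r])
    have t2 : Λ ^ 3 * (2 / p.n * (Λ ^ 3 * (Λ ^ 3 * Λ ^ 14 * (p.μe * (p.la p.μe * p.la p.μe))))) ≤
        W ^ 2 / 4 := H.le_of_lg (by positivity) (by positivity) (by
      rw [hW]
      lg_norm
      rw [ln]
      linarith)
    have t3 : Λ ^ 3 * (2 / p.n * (Λ ^ 3 * (Λ ^ 3 * Λ ^ 14 * (p.μe * (p.la p.μe * V))))) ≤
        W ^ 2 / 4 := H.le_of_lg (by positivity) (by positivity) (by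
      rw [hW, hV]
      lg_norm
      rw [ln]
      linarith)
    have t4 : Λ ^ 3 * (Λ ^ 2 * (p.n : ℝ) ^ (-(2 : ℝ))) ≤ W ^ 2 / 4 :=
      H.le_of_lg (by positivity) (by positivity) (by
        rw [hW]
        lg_norm
        rw [ln]
        linarith)
    have e : p.μe ^ 2 / (p.μe * 1) = p.μe := by field_simp
    rw [e]
    refine le_trans ?_ (show Λ ^ 3 * (2 / p.n * (Λ ^ 3 * (72 * Λ ^ 8 * ((Λ ^ 2 * γ) ^ 2 *
      (p.lC / p.r) ^ 2 / p.μe) + Λ ^ 3 * Λ ^ 14 * (p.μe * (p.la p.μe * (p.la p.μe + V))))) +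
      Λ ^ 2 * (p.n : ℝ) ^ (-(2 : ℝ))) ≤ _ by linarith)
    gcongr
  · refine H.le_of_lg (by positivity) (by positivity) ?_
    lg_norm
    rw [ln]
    linarith
  · refine H.le_of_lg (by positivity) (by positivity) ?_
    lg_norm
    rw [ln]
    linarith

end num

/-- **`C1S`** from the location input and the membership -/
theorem c1S_of {β : ℝ} (hβ : 1 < β) (hM : Cst β (Mem1 (7 / 20))) (h1 : Loss β (SprL1 (7 / 20))) :
    Gain β (C1S (7 / 20)) :=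
  Sml.gain (Sml.glueC hβ (crS β hβ) ((hM.sml.and h1.sml).and (Spr59.nm_sml hβ))
    fun C hC c0 C0 _ _ => ⟨5, fun _ hA => ⟨1 / 400, by norm_num, fun c hc c0 =>
      ⟨c / 60, by positivity, fun _ hη _ => ⟨max C (exp (3 * C0 * C)),
        fun _ H G ⟨⟨⟨_, _, CΛ, M⟩, L⟩, N⟩ => go1 H hA hc (by linarith) hC (le_max_left _ _)
          (le_max_right _ _) G N CΛ M L⟩⟩⟩⟩)

/-- **`C1S`** from the location input alone -/
theorem c1S {β : ℝ} (hβ : 1 < β) (h1 : Loss β (SprL1 (7 / 20))) : Gain β (C1S (7 / 20)) :=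
  c1S_of hβ (mem1 hβ) h1

end Crest.Agent.T156.Alt.Cost41

end
end

-- ▼ part T156/SprLP_11
section

/-!
# Row 156, block (L) (helper11): the plateau numbers `LP` with `Vt = 1`, `Lp = Lg³`
-/

set_option autoImplicit false
set_option linter.unusedSectionVars false

noncomputable section

namespace Crest.Agent.T156.Alt.Lt11

open Real Finset
open Crest.Agent.T156.Alt.L69 Crest.Agent.T156.Alt.Ps64

section sums

variable {S : Sc} {M : Md} {h u1 Xp D lm dm Λ Vt γ w Z s : ℝ} (P : PD S M h u1 Xp D lm dm Λ)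
  (hw : S.w3 1 ≤ w) (hZ : ∑ k ∈ nd S M u1, dx M k * aA S M Xp Vt γ k ≤ Z)
include P hw hZ

theorem ap2 (hs : 0 < s) (hs3 : Z ≤ s ^ 3) :
    ∑ k ∈ nd S M u1, dx M k * ap M S Xp Vt γ k ^ 2 ≤ 2 * s ^ 2 + 2 * (w / dm * (w / lm * Λ)) := by
  have a1 := hZ.trans hs3
  have a2 := P.sum_aB hw 1
  have a3 := P.sum_one
  calc _ ≤ ∑ k ∈ nd S M u1, (4 / (3 * s) * (dx M k * aA S M Xp Vt γ k) + 2 * s ^ 2 / 3 * dx M k +
          2 * (dx M k * aB S M k ^ (1 + 1))) := by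
        refine sum_le_sum fun k _ => ?_
        have b1 := young (rpow_nonneg (P.aA0 (Vt := Vt) (γ := γ) k) ((1 : ℝ) / 3)) hs
        rw [cube3 (P.aA0 k)] at b1
        have b2 : ap M S Xp Vt γ k ^ 2 ≤ 2 * (2 / (3 * s) * aA S M Xp Vt γ k + s ^ 2 / 3) +
            2 * aB S M k ^ 2 := by
          rw [ap_eq]
          nlinarith [sq_nonneg (aA S M Xp Vt γ k ^ ((1 : ℝ) / 3) - aB S M k)]
        exact (mul_le_mul_of_nonneg_left b2 (P.dx0 k)).trans_eq (by ring)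
    _ ≤ _ := by
        rw [sum_add_distrib, sum_add_distrib, ← mul_sum, ← mul_sum, ← mul_sum]
        have c1 := mul_le_mul_of_nonneg_left a1 (by positivity : 0 ≤ 4 / (3 * s))
        have c2 := mul_le_mul_of_nonneg_left a3 (by positivity : 0 ≤ 2 * s ^ 2 / 3)
        have c3 : 4 / (3 * s) * s ^ 3 = 4 * s ^ 2 / 3 := by field_simp
        rw [pow_one] at a2
        linarith

theorem ap3 : ∑ k ∈ nd S M u1, dx M k * ap M S Xp Vt γ k ^ 3 ≤
      4 * Z + 4 * ((w / dm) ^ 2 * (w / lm * Λ)) := by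
  have a2 := P.sum_aB hw 2
  calc _ ≤ ∑ k ∈ nd S M u1, (4 * (dx M k * aA S M Xp Vt γ k) + 4 * (dx M k * aB S M k ^ (2 + 1))) := by
        refine sum_le_sum fun k _ => ?_
        have b1 := add_pow_le (rpow_nonneg (P.aA0 (Vt := Vt) (γ := γ) k) ((1 : ℝ) / 3)) (P.aB0 k) 3
        rw [cube3 (P.aA0 k), ← ap_eq] at b1
        exact (mul_le_mul_of_nonneg_left b1 (P.dx0 k)).trans_eq (by ring)
    _ ≤ _ := by
        rw [sum_add_distrib, ← mul_sum, ← mul_sum]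
        linarith

theorem ap4 {aM : ℝ} (h0 : 0 ≤ aM) (hM : ∀ k ∈ nd S M u1, aA S M Xp Vt γ k ≤ aM ^ 3) :
    ∑ k ∈ nd S M u1, dx M k * ap M S Xp Vt γ k ^ 4 ≤
      8 * (aM * Z) + 8 * ((w / dm) ^ 3 * (w / lm * Λ)) := by
  have a1 := mul_le_mul_of_nonneg_left hZ h0
  have a2 := P.sum_aB hw 3
  calc _ ≤ ∑ k ∈ nd S M u1,
          (8 * (aM * (dx M k * aA S M Xp Vt γ k)) + 8 * (dx M k * aB S M k ^ (3 + 1))) := by
        refine sum_le_sum fun k hk => ?_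
        have b0 := rpow_nonneg (P.aA0 (Vt := Vt) (γ := γ) k) ((1 : ℝ) / 3)
        have b1 := add_pow_le b0 (P.aB0 k) 4
        have b2 : aA S M Xp Vt γ k ^ ((1 : ℝ) / 3) ≤ aM :=
          le_of_pow_le_pow_left₀ (n := 3) (by norm_num) h0 (by rw [cube3 (P.aA0 k)]; exact hM k hk)
        have b3 := mul_le_mul_of_nonneg_right b2 (P.aA0 (Vt := Vt) (γ := γ) k)
        have b4 : (aA S M Xp Vt γ k ^ ((1 : ℝ) / 3)) ^ 4 =
            aA S M Xp Vt γ k ^ ((1 : ℝ) / 3) * aA S M Xp Vt γ k := by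
          rw [pow_succ', cube3 (P.aA0 k)]
        rw [← ap_eq, b4] at b1
        have b5 : ap M S Xp Vt γ k ^ 4 ≤ 8 * (aM * aA S M Xp Vt γ k) + 8 * aB S M k ^ 4 := by
          norm_num at b1; linarith
        exact (mul_le_mul_of_nonneg_left b5 (P.dx0 k)).trans_eq (by ring)
    _ ≤ _ := by
        rw [sum_add_distrib, ← mul_sum, ← mul_sum, ← mul_sum]
        linarith

end sums

/-- the facts on the plateau of the member -/
structure FP (S : Sc) (M : Md) (h u D lm b dM U0 U1 γ Γ : ℝ) : Prop where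
  cl : Cl S M
  F1 : S.F = 1
  mesh : ∀ k, S.J ≤ k → k < S.Jp → dx M k ≤ h
  ue : 0 < S.ue ∧ S.ue ≤ h
  u0 : U0 ≤ S.u0 ∧ S.u0 ^ 3 ≤ U1
  ck : S.C ^ 2 * (M.ck S.Jp - M.ck S.J) ≤ D
  d1 : ∀ y, M.z (S.J - 1) ≤ y → y < 1 → lm ≤ S.den y * min (y - M.z (S.J - 1) + S.u0) (1 - y)
  d2 : ∀ y, M.z (S.J - 1) ≤ y → u ≤ 1 - y → b ^ 2 ≤ S.den y ^ 2 * (1 - y) ^ 3
  d3 : ∀ y, M.z (S.J - 1) ≤ y → u ≤ 1 - y → S.den y ≤ dM
  rev : ∃ k1, S.Jp ≤ k1 ∧ k1 ≤ M.N ∧ 1 / S.C ≤ ((k1 : ℝ) - S.Jp) * S.v ∧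
    ∀ k, S.Jp ≤ k → k < k1 → S.θ * S.v / (S.C * S.F) ≤ M.H (k + 1) - M.H k
  spr : M.s S.Jp - M.s S.J ≤ γ
  G : GS M S 0 S.C + GP M S ≤ Γ

/-- pure numbers of the plateau -/
structure NP (E n C θ w h u D lm b dM U0 U1 γ Γ x Λ dm B σ aM Lg Lc uc X2 X3 G0 e j ec τ N : ℝ) :
    Prop where
  E1 : 1 ≤ E
  w1 : 1 ≤ w * (n * θ)
  h0 : 0 < h
  hu : 16 * h ≤ u
  hU : 16 * h ≤ U0
  hx : 16 * h ≤ x
  nu : 1 / u ≤ n
  nU : 1 / U0 ≤ n
  nx : 1 / x ≤ n
  Λ1 : 6 * log (1 + n) ≤ Λ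
  x1 : E * x ≤ 1
  u1 : E * u ≤ 1
  γ0 : 0 ≤ γ
  γ1 : E * γ ≤ 1
  lm0 : 0 < lm
  b0 : 0 < b
  dm0 : 0 < dm
  dm1 : dm ≤ lm * U0
  dm2 : dm ^ 2 ≤ b ^ 2 * u
  B1 : 3 * (4 * x ^ 2 + γ ^ 2 + 2 * C * x ^ 3) / lm + 3 * √(x ^ 3) / b ≤ B
  σ0 : 0 < σ
  σ1 : 4 * (w * (D + B * Λ) + w / lm * √(w / lm)) ≤ σ ^ 3
  aM0 : 0 ≤ aM
  aM1 : 4 * (w * (dM + 16 / dm) + w / lm * √(w / lm)) ≤ aM ^ 3
  Lg1 : 1 ≤ Lg
  Lg2 : Lg ^ 3 ≤ n
  f1 : 1 ≤ Lg ^ 6 * x
  f2 : w ≤ Lg ^ 3 * (lm ^ 2 * U0)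
  f3 : w ≤ Lg ^ 3 * b ^ 2
  n2 : u + (Lg ^ 4 * (2 * σ ^ 2 + 2 * (w / dm * (w / lm * Λ))) + (9 * x ^ 3 * Λ + 3 * γ ^ 2)) ≤ X2
  n3 : u + (Lg ^ 6 * (4 * σ ^ 3 + 4 * ((w / dm) ^ 2 * (w / lm * Λ))) +
    3 * (9 * x ^ 3 * Λ + 3 * γ ^ 2)) ≤ X3
  g1 : u ≤ G0
  g2 : w * ((2 * x + γ + u) / lm + 1) ≤ G0 ^ 2
  hU1 : U1 ≤ 1
  g3 : h ≤ G0 ^ 2
  c1 : Lg ^ 8 / θ * (8 * (aM * σ ^ 3) + 8 * ((w / dm) ^ 3 * (w / lm * Λ))) ≤ N
  e0 : 0 ≤ e
  c1' : (e + G0 ^ 2 + 3 * X2) ^ 2 / θ ≤ N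
  c2 : (Γ + (θ * γ) ^ 2) / θ ≤ N
  c3 : θ * (τ ^ 3 + U1) ≤ N
  c4 : u ^ 2 + u * (e + X2 + √(Γ / u) + θ * γ) + (u * θ) ^ ((3 : ℝ) / 2) + γ * (e + X2) +
    γ ^ ((15 : ℝ) / 7) ≤ N
  c6 : γ * θ * τ ≤ N
  c8 : ec ^ 2 / θ ≤ N
  Lc1 : Lg ≤ Lc ∧ Lc ≤ n
  uc0 : 0 ≤ uc
  uc1 : Lc ^ 2 * w ≤ uc ^ 3
  j0 : 0 ≤ j
  ec1 : uc ^ 3 + uc ^ 2 * (θ + j + x) + (√(Lc * w) + G0 + X2) * (uc + √X2) + X3 + 1 / n ≤ ec
  uc2 : E * uc ^ 2 ≤ θ
  τ0 : x / Lc + ec / θ ≤ τ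
  τ1 : 0 ≤ τ ∧ τ ≤ x
  j1 : E * (j + τ) ≤ 1
  c5a : j + τ + γ ≤ θ
  c5b : (X2 * x + 2 * θ * x ^ 2) ^ 2 / θ ≤ N
  c5c : E * (X2 + 2 * θ * x) ≤ θ
  τw : w ≤ τ ^ 3
  c9 : (w * x ^ 3) ^ ((3 : ℝ) / 4) + θ * (j ^ 9 + (x ^ 3) ^ 3) ≤ N

section

variable {E w h u D lm b dM U0 U1 γ Γ x Λ dm B σ aM Lg Lc uc X2 X3 G0 e j ec τ N : ℝ} {S : Sc}
  {M : Md} (F : FP S M h u D lm b dM U0 U1 γ Γ)
  (H : NP E S.n S.C S.θ w h u D lm b dM U0 U1 γ Γ x Λ dm B σ aM Lg Lc uc X2 X3 G0 e j ec τ N)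
include F H

theorem p_x0 : 0 < x := by linarith [H.hx, H.h0]
theorem p_u0 : 0 < u := by linarith [H.hu, H.h0]
theorem p_U0 : 0 < U0 := by linarith [H.hU, H.h0]
theorem p_x1 : x ≤ 1 := by nlinarith [H.x1, H.E1, p_x0 F H]
theorem p_γ1 : γ ≤ 1 := by nlinarith [H.γ1, H.E1, H.γ0]

theorem p_w : 0 < S.w3 1 ∧ S.w3 1 ≤ w ∧ gg S 1 = S.w3 1 := by
  have n0 := F.cl.N0
  have t0 : 0 < S.ms 1 := F.cl.θ0
  rw [Sc.w3, gg, F.F1, mul_one]
  exact ⟨by positivity, (div_le_iff₀ (by positivity)).2 H.w1, rfl⟩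

theorem p_xs {k : ℕ} (hk : S.J ≤ k) : M.z (S.J - 1) ≤ M.z (k - 1) := F.cl.leg.zm (by omega)

theorem p_lm {k : ℕ} (hk : S.J ≤ k) (h1 : 0 < du M k) : lm ≤ S.den (M.z (k - 1)) * ds M S k :=
  F.d1 _ (p_xs F H hk) (by rw [du] at h1; linarith)

theorem p_du1 (k : ℕ) : du M k ≤ 1 := by rw [du]; linarith [F.cl.z_pos (k - 1)]

theorem p_case {k : ℕ} (hk : S.J ≤ k) :
    (U0 ≤ ds M S k ∧ 1 ≤ 2 * S.C * du M k) ∨ ds M S k = du M k := by
  rcases le_total (dl M S k) (du M k) with c | c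
  · refine Or.inl ⟨?_, ?_⟩
    · rw [ds, min_eq_left c, dl]; linarith [p_xs F H hk, F.u0.1]
    · have a : 1 / S.C ≤ 2 * du M k := by
        rw [dl] at c; rw [du] at c ⊢; linarith [F.cl.atom.2, F.u0.1, p_U0 F H]
      rw [div_le_iff₀ F.cl.C0] at a; linarith
  · exact Or.inr (min_eq_right c)

theorem p_top {k : ℕ} (hk : S.J ≤ k) (h1 : u ≤ du M k) :
    b ^ 2 ≤ S.den (M.z (k - 1)) ^ 2 * du M k ^ 3 := F.d2 _ (p_xs F H hk) h1

theorem p_log {y : ℝ} (h0 : 0 < y) (h1 : 1 / y ≤ S.n) : log (1 + 1 / y) ≤ log (1 + (S.n : ℝ)) :=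
  log_le_log (by positivity) (by linarith)

theorem pd : PD S M h u (x ^ 3) D lm dm Λ := by
  have x0 := p_x0 F H
  have u0 := p_u0 F H
  have U := p_U0 F H
  have l1 := p_log F H u0 H.nu
  refine ⟨F.cl, H.h0, F.mesh, by linarith [F.ue.2, H.hu, H.h0], H.hu, H.hU.trans F.u0.1,
    by positivity, by rw [third x0.le]; exact H.hx, F.ck, H.lm0, fun k hk => ?_, H.dm0,
    fun k hk => ?_, ?_, ?_⟩
  · obtain ⟨a, c⟩ := mem_filter.1 hk
    exact p_lm F H (mem_Icc.1 a).1 (u0.trans_le c)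
  · obtain ⟨a, c⟩ := mem_filter.1 hk
    have a1 := (mem_Icc.1 a).1
    have d0 := F.cl.den0 (M.z (k - 1))
    rcases p_case F H a1 with ⟨c1, -⟩ | c1
    · have := mul_le_mul (p_lm F H a1 (u0.trans_le c)) c1 U.le
        (H.lm0.le.trans (p_lm F H a1 (u0.trans_le c)))
      nlinarith [H.dm1]
    · rw [c1]
      refine le_of_pow_le_pow_left₀ (n := 2) two_ne_zero (by positivity) ?_
      have := mul_le_mul (p_top F H a1 c) c u0.le (by have := u0.trans_le c; positivity)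
      nlinarith [H.dm2]
  · have := p_log F H (U.trans_le F.u0.1) ((one_div_le_one_div_of_le U F.u0.1).trans H.nU)
    linarith [H.Λ1]
  · rw [third x0.le]
    linarith [H.Λ1, p_log F H x0 H.nx]

theorem p_T (k : ℕ) : √(x ^ 3 / max (dl M S k - S.u0) ((x ^ 3) ^ ((1 : ℝ) / 3))) ≤ x := by
  have x0 := p_x0 F H
  rw [third x0.le]
  refine sqrt_le_iff.2 ⟨x0.le, (div_le_div_of_nonneg_left (by positivity) x0
    (le_max_right _ _)).trans (le_of_eq (by field_simp))⟩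

theorem p_B {k : ℕ} (hk : S.J ≤ k) (h1 : u ≤ du M k) :
    (Rp M S (x ^ 3) 1 γ k + (x ^ 3) ^ ((1 : ℝ) / 3)) ^ 2 ≤
      B * (S.den (M.z (k - 1)) * ds M S k) := by
  have x0 := p_x0 F H
  have y0 := (p_u0 F H).trans_le h1
  have l0 := H.lm0
  have b0 := H.b0
  have C0 := F.cl.C0
  have d0 := F.cl.den0 (M.z (k - 1))
  have L := p_lm F H hk y0
  have T := p_T F H k
  have T0 := sqrt_nonneg (x ^ 3 / max (dl M S k - S.u0) ((x ^ 3) ^ ((1 : ℝ) / 3)))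
  set m := min 1 √(x ^ 3 / du M k) with hm
  have m0 : 0 ≤ m := le_min zero_le_one (sqrt_nonneg _)
  have r : (Rp M S (x ^ 3) 1 γ k + (x ^ 3) ^ ((1 : ℝ) / 3)) ^ 2 ≤
      3 * (4 * x ^ 2 + γ ^ 2 + m ^ 2) := by
    have r1 : Rp M S (x ^ 3) 1 γ k + (x ^ 3) ^ ((1 : ℝ) / 3) ≤ 2 * x + m + γ := by
      rw [Rp, ← hm]; linarith [third x0.le]
    have r0 : 0 ≤ Rp M S (x ^ 3) 1 γ k + (x ^ 3) ^ ((1 : ℝ) / 3) :=
      add_nonneg ((pd F H).Rp0 zero_le_one H.γ0 k) (by positivity)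
    refine (pow_le_pow_left₀ r0 r1 2).trans ?_
    nlinarith [sq_nonneg (m - γ), sq_nonneg (2 * x - γ), sq_nonneg (2 * x - m)]
  have a1 : 3 * (4 * x ^ 2 + γ ^ 2 + 2 * S.C * x ^ 3) ≤
      3 * (4 * x ^ 2 + γ ^ 2 + 2 * S.C * x ^ 3) / lm * (S.den (M.z (k - 1)) * ds M S k) :=
    le_trans (le_of_eq (by field_simp)) (mul_le_mul_of_nonneg_left L (by positivity))
  have a2 := mul_le_mul_of_nonneg_right H.B1 (l0.le.trans L)
  have a3 : 0 ≤ 3 * √(x ^ 3) / b * (S.den (M.z (k - 1)) * ds M S k) :=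
    mul_nonneg (by positivity) (l0.le.trans L)
  have a4 : 0 ≤ S.C * x ^ 3 := by positivity
  rcases p_case F H hk with ⟨-, c⟩ | c
  · have : m ^ 2 ≤ 2 * S.C * x ^ 3 := by
      refine (pow_le_pow_left₀ m0 (min_le_right _ _) 2).trans ?_
      rw [sq_sqrt (by positivity), div_le_iff₀ y0]
      nlinarith [pow_pos x0 3]
    linarith
  · have t : √(x ^ 3 / du M k) ≤ √(x ^ 3) / b * (S.den (M.z (k - 1)) * ds M S k) := by
      rw [c]
      refine sqrt_le_iff.2 ⟨by positivity, ?_⟩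
      rw [mul_pow, div_pow, sq_sqrt (by positivity), div_mul_eq_mul_div,
        div_le_div_iff₀ y0 (by positivity)]
      nlinarith [mul_le_mul_of_nonneg_left (p_top F H hk h1) (pow_pos x0 3).le]
    have : m ^ 2 ≤ m := by nlinarith [min_le_left 1 √(x ^ 3 / du M k)]
    have e : 3 * √(x ^ 3) / b * (S.den (M.z (k - 1)) * ds M S k) =
        3 * (√(x ^ 3) / b * (S.den (M.z (k - 1)) * ds M S k)) := by ring
    linarith [min_le_right 1 √(x ^ 3 / du M k)]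

theorem p_Z : ∑ k ∈ nd S M u, dx M k * aA S M (x ^ 3) 1 γ k ≤ σ ^ 3 := by
  have P := pd F H
  obtain ⟨w0, w1, -⟩ := p_w F H
  have B0 : 0 ≤ B := le_trans (by
    have := H.lm0; have := H.b0; have := p_x0 F H; have := F.cl.C0; positivity) H.B1
  refine le_trans (P.sum_aA0 w1 ?_) H.σ1
  calc _ ≤ ∑ k ∈ nd S M u, w * (dx M k * S.den (M.z (k - 1)) + B * (dx M k / ds M S k)) := by
        refine sum_le_sum fun k hk => ?_
        have s0 := P.ds0 hk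
        have d0 := F.cl.den0 (M.z (k - 1))
        have a : a0 S M (x ^ 3) 1 γ k ≤ w * (S.den (M.z (k - 1)) + B / ds M S k) := by
          refine mul_le_mul w1 (add_le_add le_rfl ?_) (by positivity) (w0.le.trans w1)
          rw [div_le_div_iff₀ (by positivity) s0]
          nlinarith [mul_le_mul_of_nonneg_right (p_B F H (P.lt hk).1 (P.lt hk).2.2) s0.le]
        exact (mul_le_mul_of_nonneg_left a (P.dx0 k)).trans_eq (by ring)
    _ ≤ _ := by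
        rw [← mul_sum, sum_add_distrib, ← mul_sum]
        exact mul_le_mul_of_nonneg_left (add_le_add P.sum_den
          (mul_le_mul_of_nonneg_left P.sum_ds B0)) (w0.le.trans w1)

theorem p_R3 : (x ^ 3) ^ ((1 : ℝ) / 3) + 1 + γ ≤ 3 := by
  rw [third (p_x0 F H).le]; linarith [p_x1 F H, p_γ1 F H]

theorem p_aM : ∀ k ∈ nd S M u, aA S M (x ^ 3) 1 γ k ≤ aM ^ 3 := fun k hk => by
  have P := pd F H
  obtain ⟨w0, w1, -⟩ := p_w F H
  have d0 := F.cl.den0 (M.z (k - 1))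
  refine (P.aA_le0 w1 hk).trans (le_trans (mul_le_mul_of_nonneg_left (add_le_add
    (mul_le_mul w1 (add_le_add (F.d3 _ (P.xs_le hk) (P.lt hk).2.2)
    (div_le_div₀ (by norm_num) ?_ H.dm0 (by linarith [P.dm1 k hk]))) (by positivity)
    (w0.le.trans w1)) le_rfl) (by norm_num)) H.aM1)
  have x0 := p_x0 F H
  have r0 : 0 ≤ Rp M S (x ^ 3) 1 γ k + (x ^ 3) ^ ((1 : ℝ) / 3) :=
    add_nonneg (P.Rp0 zero_le_one H.γ0 k) (by positivity)
  have r1 : Rp M S (x ^ 3) 1 γ k + (x ^ 3) ^ ((1 : ℝ) / 3) ≤ 4 := by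
    linarith [(P.Rp_le (Vt := 1) (γ := γ) k).trans (p_R3 F H), third x0.le, p_x1 F H]
  nlinarith

theorem p_L (i : ℕ) : ((Lg ^ 3) ^ ((2 : ℝ) / 3)) ^ i = Lg ^ (2 * i) := by
  have L0 : 0 ≤ Lg := by linarith [H.Lg1]
  rw [← rpow_natCast Lg 3, ← rpow_mul L0, pow_mul, ← rpow_natCast Lg 2]; norm_num

theorem p_far : Far M S (x ^ 3) 1 γ u (Lg ^ 3) := by
  intro i k hi hik hk h1
  have P := pd F H
  obtain ⟨w0, w1, -⟩ := p_w F H
  have x0 := p_x0 F H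
  have u0 := p_u0 F H
  have L1 : 1 ≤ Lg ^ 3 := one_le_pow₀ H.Lg1
  have hd : du M k ≤ du M i := by
    rw [du, du]; linarith [F.cl.leg.zm (show i - 1 ≤ k - 1 by omega)]
  have yk := u0.trans_le h1
  have li := p_lm F H hi (yk.trans_le hd)
  have lk := p_lm F H (hi.trans hik) yk
  have l0 := H.lm0
  have sk : 0 < lsh M S k := l0.trans_le lk
  have si : 0 < lsh M S i := l0.trans_le li
  have m1 := le_max_left 1 (lsh M S i / lsh M S k)
  have di := F.cl.den0 (M.z (i - 1))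
  have dk := F.cl.den0 (M.z (k - 1))
  have a : w ≤ Lg ^ 3 * (lsh M S i ^ 2 * ds M S i) := by
    rcases p_case F H hi with ⟨c, -⟩ | c
    · exact H.f2.trans (mul_le_mul_of_nonneg_left (mul_le_mul (pow_le_pow_left₀ l0.le li 2) c
        (p_U0 F H).le (by positivity)) (by positivity))
    · refine H.f3.trans (mul_le_mul_of_nonneg_left ((p_top F H hi (h1.trans hd)).trans_eq ?_)
        (by positivity))
      rw [lsh, c]; ring
  have a2 : S.w3 1 * S.den (M.z (i - 1)) ≤ Lg ^ 3 * lsh M S i ^ 3 :=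
    (mul_le_mul_of_nonneg_right (w1.trans a) di.le).trans_eq (by rw [lsh]; ring)
  have a4 : lsh M S k ^ 3 ≤ (lsh M S k + (x ^ 3) ^ ((1 : ℝ) / 3)) * lsh M S k ^ 2 +
      S.w3 1 * S.den (M.z (k - 1)) := by
    rw [third x0.le]
    nlinarith [mul_pos x0 (pow_pos sk 2), mul_pos w0 dk]
  have a3 : lsh M S i ^ 3 ≤ ((lsh M S k + (x ^ 3) ^ ((1 : ℝ) / 3)) * lsh M S k ^ 2 +
      S.w3 1 * S.den (M.z (k - 1))) * max 1 (lsh M S i / lsh M S k) ^ 3 :=
    le_trans (le_of_eq (by field_simp)) (mul_le_mul a4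
      (pow_le_pow_left₀ (by positivity) (le_max_right 1 (lsh M S i / lsh M S k)) 3)
      (by positivity) (by positivity))
  rw [mul_assoc]
  exact a2.trans (mul_le_mul_of_nonneg_left a3 (by positivity))

theorem p_n2 : 0 ≤ Np M S (x ^ 3) 1 γ u (Lg ^ 3) 2 ∧ Np M S (x ^ 3) 1 γ u (Lg ^ 3) 2 ≤ X2 := by
  have P := pd F H
  have L1 : 1 ≤ Lg ^ 3 := one_le_pow₀ H.Lg1
  have L0 : 0 ≤ Lg := by linarith [H.Lg1]
  have a0 : 0 ≤ ∑ k ∈ nd S M u, dx M k * ap M S (x ^ 3) 1 γ k ^ 2 :=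
    sum_nonneg fun k _ => mul_nonneg (P.dx0 k) (sq_nonneg _)
  have b0 : 0 ≤ ∑ k ∈ nd S M u, dx M k * Rp M S (x ^ 3) 1 γ k ^ 2 :=
    sum_nonneg fun k _ => mul_nonneg (P.dx0 k) (sq_nonneg _)
  have u0 := p_u0 F H
  refine ⟨?_, (P.Np_le _ _).trans ?_⟩
  · rw [Np]
    refine add_nonneg u0.le (sum_nonneg fun k _ => mul_nonneg (P.dx0 k) ?_)
    have r0 := P.Rp0 (Vt := 1) zero_le_one H.γ0 k
    have w0 := (p_w F H).1
    have d0 := F.cl.den0 (M.z (k - 1))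
    positivity
  rw [p_L F H]
  exact le_trans (add_le_add le_rfl (add_le_add (mul_le_mul_of_nonneg_left
    (ap2 P (p_w F H).2.1 (p_Z F H) H.σ0 le_rfl) (by positivity))
    ((div_le_self b0 L1).trans (P.sum_Rp zero_le_one)))) H.n2

theorem p_n3 : Np M S (x ^ 3) 1 γ u (Lg ^ 3) 3 ≤ X3 := by
  have P := pd F H
  have L1 : 1 ≤ Lg ^ 3 := one_le_pow₀ H.Lg1
  have L0 : 0 ≤ Lg := by linarith [H.Lg1]
  have b0 : 0 ≤ ∑ k ∈ nd S M u, dx M k * Rp M S (x ^ 3) 1 γ k ^ 3 :=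
    sum_nonneg fun k _ => mul_nonneg (P.dx0 k) (pow_nonneg (P.Rp0 zero_le_one H.γ0 k) 3)
  have := P.Λ0
  have := p_x0 F H
  refine (P.Np_le _ _).trans ?_
  rw [p_L F H]
  exact le_trans (add_le_add le_rfl (add_le_add (mul_le_mul_of_nonneg_left
    (ap3 P (p_w F H).2.1 (p_Z F H)) (by positivity))
    ((div_le_self b0 L1).trans ((P.sum_Rp3 zero_le_one H.γ0).trans
      (mul_le_mul_of_nonneg_right (p_R3 F H) (by positivity)))))) H.n3

theorem p_GP : 0 ≤ GP M S ∧ GP M S ≤ Γ ∧ ∀ t, GS M S t S.C + GP M S ≤ Γ := by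
  have P := pd F H
  have a : 0 ≤ GP M S := sum_nonneg fun k _ => mul_nonneg (P.dx0 k) (sq_nonneg _)
  have c : 0 ≤ GS M S 0 S.C := sum_nonneg fun k _ => mul_nonneg (P.dx0 k) (sq_nonneg _)
  refine ⟨a, by linarith [F.G], fun t => le_trans (add_le_add ?_ le_rfl) F.G⟩
  exact sum_le_sum_of_subset_of_nonneg (fun k hk => mem_filter.2
    ⟨(mem_filter.1 hk).1, F.cl.s_nn k, (mem_filter.1 hk).2.2⟩)
    fun k _ _ => mul_nonneg (P.dx0 k) (sq_nonneg _)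

theorem p_τw : S.w3 1 ≤ τ ^ 3 := (p_w F H).2.1.trans H.τw

theorem p_c9 : (S.w3 1 * x ^ 3) ^ ((3 : ℝ) / 4) + S.θ * (j ^ 9 + (x ^ 3) ^ 3) ≤ N := by
  obtain ⟨w0, w1, -⟩ := p_w F H
  have x0 := p_x0 F H
  refine le_trans (add_le_add (rpow_le_rpow (by positivity) ?_ (by norm_num)) le_rfl) H.c9
  exact mul_le_mul_of_nonneg_right w1 (by positivity)

/-- **the plateau numbers** -/
theorem lp : LP E S M (x ^ 3) 1 Lg (Lg ^ 3) X2 X3 G0 0 u u j γ Lc ec τ (fun _ => e) N := by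
  have P := pd F H
  obtain ⟨w0, w1, w2⟩ := p_w F H
  obtain ⟨G1, G2, G3⟩ := p_GP F H
  have x0 := p_x0 F H
  have x1 := p_x1 F H
  have u0 := p_u0 F H
  have l0 := H.lm0
  have θ0 := F.cl.θ0
  have γ0 := H.γ0
  have E1 := H.E1
  have e3 := third x0.le
  have mf1 : mf S 1 = S.θ := by rw [mf, F.F1, div_one]; rfl
  have X0 : 0 ≤ X2 := (p_n2 F H).1.trans (p_n2 F H).2
  have G0' : 0 ≤ G0 := u0.le.trans H.g1
  have g2 : w * (2 * x + γ + u) ≤ lm * G0 ^ 2 := by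
    have a : w * ((2 * x + γ + u) / lm) ≤ G0 ^ 2 := by nlinarith [H.g2]
    rw [← mul_div_assoc, div_le_iff₀ l0] at a; linarith
  have top : ∀ k, S.J ≤ k → 0 < du M k → lm ≤ S.den (M.z (k - 1)) * du M k := fun k a c =>
    (p_lm F H a c).trans (mul_le_mul_of_nonneg_left (min_le_right _ _) (F.cl.den0 _).le)
  refine ⟨(p_U0 F H).trans_le F.u0.1, F.rev, ⟨by positivity, ?_⟩, zero_le_one, P.ue.le,
    ⟨le_rfl, H.u1⟩, F.spr, H.γ1, ⟨one_le_pow₀ H.Lg1, H.Lg2⟩, le_rfl, p_far F H, (p_n2 F H).2,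
    p_n3 F H, ⟨H.g1, fun k a _ c => ?_⟩, ⟨lm, l0, fun k a _ c => p_lm F H a (u0.trans_le c), ?_⟩,
    Or.inr ⟨lm, l0, fun k a _ c => (top k a (u0.trans_le c)).trans
      (mul_le_of_le_one_right (F.cl.den0 _).le (p_du1 F H k)), by
        rw [e3]
        exact (mul_le_mul w1 (by linarith) (by positivity) (w0.le.trans w1)).trans g2⟩,
    Or.inr ⟨F.ue.2.trans H.g3, fun k a _ c d => ?_⟩, ?_, fun e' he => ?_, ?_, ?_, ?_, H.c6,
    (min_le_right _ _).trans H.c8, p_τw F H, p_c9 F H, H.Lc1,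
    fun u' hu => ?_, by rw [e3, mf1]; exact H.τ0, by rw [e3]; exact H.τ1.2, H.j1,
    fun A B' hA hB => ?_⟩
  · nlinarith [H.x1, mul_le_mul_of_nonneg_left (pow_le_one₀ (n := 2) x0.le x1)
      (show 0 ≤ E * x by positivity)]
  · have y0 := u0.trans_le c
    have d0 := F.cl.den0 (M.z (k - 1))
    have L := p_lm F H a y0
    have s0 : 0 < ds M S k := (mul_pos_iff_of_pos_left d0).1 (l0.trans_le L)
    have s1 : ds M S k ≤ du M k := min_le_right _ _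
    have s2 := s1.trans (p_du1 F H k)
    have m : √(x ^ 3 / du M k) * ds M S k ≤ x := by
      refine le_of_pow_le_pow_left₀ (n := 2) two_ne_zero x0.le ?_
      rw [mul_pow, sq_sqrt (by positivity), div_mul_eq_mul_div, div_le_iff₀ y0]
      have := mul_le_mul (mul_le_of_le_one_right (sq_nonneg x) x1) (mul_le_mul s2 s1 s0.le
        zero_le_one) (by positivity) (sq_nonneg x)
      nlinarith
    have r : Rp M S (x ^ 3) 1 γ k * ds M S k ≤ 2 * x + γ + u := by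
      rw [Rp]
      nlinarith [mul_le_mul (p_T F H k) s2 s0.le x0.le, mul_le_of_le_one_right γ0 s2,
        mul_le_mul_of_nonneg_right (min_le_right 1 √(x ^ 3 / du M k)) s0.le]
    refine le_trans (mul_le_mul w1 (add_le_add ?_ s2) (by
      have := P.Rp0 (Vt := 1) zero_le_one γ0 k; positivity) (w0.le.trans w1)) H.g2
    rw [div_le_div_iff₀ d0 l0]
    nlinarith [mul_le_mul_of_nonneg_left L (P.Rp0 (Vt := 1) zero_le_one γ0 k),
      mul_le_mul_of_nonneg_right r d0.le]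
  · rw [e3]
    have U0 := (p_U0 F H).trans_le F.u0.1
    have U1 : S.u0 ≤ 1 :=
      le_of_pow_le_pow_left₀ (n := 3) (by norm_num) zero_le_one (by linarith [F.u0.2, H.hU1])
    have a1 : √(x ^ 3) ≤ x := sqrt_le_iff.2 ⟨x0.le, by nlinarith [mul_pos x0 x0]⟩
    have a2 : S.u0 * x ≤ x := mul_le_of_le_one_left x0.le U1
    exact (mul_le_mul w1 (by linarith) (by positivity) (w0.le.trans w1)).trans g2
  · have y0 := F.ue.1.trans_le c
    have d0 := F.cl.den0 (M.z (k - 1))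
    have a1 := mul_le_mul_of_nonneg_right ((top k a y0).trans
      (mul_le_mul_of_nonneg_left d.le d0.le)) (sq_nonneg G0)
    have a2 : w * u ≤ lm * G0 ^ 2 :=
      (mul_le_mul_of_nonneg_left (by linarith) (w0.le.trans w1)).trans g2
    exact w1.trans (le_of_mul_le_mul_right (by linarith) u0)
  · refine le_trans ?_ ((mul_le_mul_of_nonneg_left (ap4 P w1 (p_Z F H) H.aM0 (p_aM F H))
      (show 0 ≤ Lg ^ 8 / S.θ by positivity)).trans H.c1)
    rw [mul_sum]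
    exact sum_le_sum fun k _ =>
      (mul_le_mul_of_nonneg_left (min_le_right _ _) (P.dx0 k)).trans_eq (by ring)
  · refine (min_le_right _ _).trans (le_trans (div_le_div_of_nonneg_right
      (pow_le_pow_left₀ ?_ ?_ 2) θ0.le) H.c1')
    · have := H.e0
      have := (p_n2 F H).1
      rw [he, e3]; positivity
    · rw [he, e3]; nlinarith [(p_n2 F H).2]
  · exact le_trans (div_le_div_of_nonneg_right (by linarith [G3 (1 / (8 * S.C ^ 2))]) θ0.le) H.c2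
  · exact (mul_le_mul_of_nonneg_left (by linarith [F.u0.2]) θ0.le).trans H.c3
  · refine le_trans ?_ H.c4
    have : √((GP M S + 0 ^ 2) / u) ≤ √(Γ / u) :=
      sqrt_le_sqrt (div_le_div_of_nonneg_right (by linarith) u0.le)
    gcongr
  · have c0 : 0 ≤ Lc := by linarith [H.Lg1, H.Lc1.1]
    have u1 : 0 ≤ u' := by rw [hu]; positivity
    have u2 : u' ≤ uc := by
      refine le_of_pow_le_pow_left₀ (n := 3) (by norm_num) H.uc0 (le_trans ?_ H.uc1)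
      rw [hu, mul_pow, cube3 w0.le, ← rpow_natCast, ← rpow_mul c0]
      norm_num
      exact mul_le_mul_of_nonneg_left w1 (sq_nonneg _)
    have j0 := H.j0
    rw [e3, mf1, w2]
    refine ⟨le_trans ?_ H.ec1, le_trans ?_ H.uc2⟩
    · have := H.uc0
      gcongr
    · gcongr
  · rw [e3] at hB ⊢
    have A0 : 0 ≤ A := by linarith [H.j0, H.τ1.1]
    have A1 : A ≤ 2 * S.θ := by linarith [H.c5a]
    have m0 : 0 ≤ min A x := le_min A0 x0.le
    have m1 : min A x ≤ x := min_le_right _ _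
    refine ⟨(min_le_right _ _).trans (le_trans (div_le_div_of_nonneg_right
      (pow_le_pow_left₀ (by rw [hB]; positivity) ?_ 2) θ0.le) H.c5b), Or.inr (le_trans ?_ H.c5c)⟩
    · rw [hB]; gcongr
    · gcongr

end

end Crest.Agent.T156.Alt.Lt11

end
end

-- ▼ part T156/SprLO_11
section

/-!
# Row 156, block (L) (helper11): residual sums, the bulk cost `cB`, and the top window from `LO`
-/

set_option autoImplicit false
set_option linter.unusedSectionVars false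

noncomputable section

namespace Crest.Agent.T156.Alt.Lt11

open Real Finset
open Crest.Agent.T156.Alt.L69 Crest.Agent.T156.Alt.Ps64

/-- residual and mass of the member -/
structure FG (S : Sc) (M : Md) (l t0 κ D : ℝ) : Prop where
  cl : Cl S M
  F1 : S.F = 1
  l0 : 0 < l
  κ0 : 0 < κ
  D0 : 0 ≤ D
  gr : ∀ t, M.s S.jl < t → S.gr t ≤ D * t
  ml : ∀ t, l ≤ t → S.ms t ≤ t ^ 2
  mlo : ∀ t, l ≤ t → min (κ * t ^ 2) S.θ ≤ S.ms t
  lt0 : l ≤ t0
  t1 : S.θ ≤ κ * t0 ^ 2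
  t2 : S.C * (t0 + 2 * S.v) ≤ 1 / (2 * S.C)

variable {S : Sc} {M : Md} {l t0 κ D : ℝ} (F : FG S M l t0 κ D)
include F

theorem g_dx (k : ℕ) : 0 ≤ dx M k := sub_nonneg.2 (F.cl.leg.zm (Nat.sub_le k 1))

theorem g_one {T : Finset ℕ} (hT : T ⊆ Ioc S.jl S.Jp) : ∑ k ∈ T, dx M k ≤ 1 :=
  (sum_le_sum_of_subset_of_nonneg hT fun k _ _ => g_dx F k).trans
    ((Ap63.tel M.z (F.cl.jl_lt.le.trans F.cl.i3)).trans_le (Ap63.wt_le F.cl _))

theorem g_lo {k : ℕ} (h1 : S.jl < k) (h2 : M.z k ≤ 1 / (2 * S.C)) :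
    M.G k ^ 2 ≤ D ^ 2 * M.s k ^ 2 := by
  have a := (F.cl.Gmi k h1.le h2).trans (F.gr _ (F.cl.s_lt h1 F.cl.jl_lt))
  rw [← mul_pow, ← sq_abs (M.G k)]
  exact pow_le_pow_left₀ (abs_nonneg _) a 2

theorem g_sum {T : Finset ℕ} (hT : T ⊆ Ioc S.jl S.Jp) {f : ℕ → ℝ} {a c : ℝ} (a0 : 0 ≤ a)
    (c0 : 0 ≤ c) (h1 : ∀ k ∈ T, M.z k ≤ 1 / (2 * S.C) → f k ≤ a)
    (h2 : ∀ k ∈ T, 1 / (2 * S.C) < M.z k → f k ≤ c * M.G k ^ 2) :
    ∑ k ∈ T, dx M k * f k ≤ a + c * S.g2 := by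
  have s1 := g_one F hT
  have s2 : ∑ k ∈ T.filter fun k => 1 / (2 * S.C) < M.z k, dx M k * M.G k ^ 2 ≤ S.g2 :=
    le_trans (sum_le_sum_of_subset_of_nonneg (fun k hk => by
      obtain ⟨x, y⟩ := mem_filter.1 hk
      obtain ⟨u, w⟩ := mem_Ioc.1 (hT x)
      exact mem_filter.2 ⟨mem_Icc.2 ⟨by omega, w⟩, y⟩)
      fun k _ _ => mul_nonneg (g_dx F k) (sq_nonneg _)) F.cl.Gtp
  calc _ ≤ ∑ k ∈ T, (a * dx M k +
        c * if 1 / (2 * S.C) < M.z k then dx M k * M.G k ^ 2 else 0) := by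
        refine sum_le_sum fun k hk => ?_
        have d := g_dx F k
        split_ifs with e
        · nlinarith [mul_le_mul_of_nonneg_left (h2 k hk e) d, mul_nonneg a0 d]
        · nlinarith [mul_le_mul_of_nonneg_left (h1 k hk (not_lt.1 e)) d]
    _ ≤ _ := by
        rw [sum_add_distrib, ← mul_sum, ← mul_sum, ← sum_filter]
        nlinarith [mul_le_mul_of_nonneg_left s2 c0]

/-- `∫ G²` -/
theorem g_all : GS M S 0 S.C + GP M S ≤ D ^ 2 * S.C ^ 2 + S.g2 := by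
  have i := F.cl.jl_lt
  rw [GS, GP, ← sum_union (disjoint_left.2 fun k a b => by
    have := (mem_Ioo.1 (mem_filter.1 a).1).2
    have := (mem_Icc.1 b).1
    omega), ← one_mul S.g2]
  have i3 := F.cl.i3
  have hT : ((Ioo S.jl S.J).filter fun k => 0 ≤ M.s k ∧ M.s k ≤ S.C) ∪ Icc S.J S.Jp ⊆
      Ioc S.jl S.Jp := fun k hk => by
    rcases mem_union.1 hk with a | a
    · have := mem_Ioo.1 (mem_filter.1 a).1
      exact mem_Ioc.2 ⟨this.1, by omega⟩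
    · have := mem_Icc.1 a
      exact mem_Ioc.2 ⟨by omega, this.2⟩
  refine g_sum F hT (by positivity) zero_le_one (fun k hk e => ?_) fun k _ _ => (one_mul _).ge
  obtain ⟨a, b⟩ := mem_Ioc.1 (hT hk)
  exact (g_lo F a e).trans (mul_le_mul_of_nonneg_left
    (pow_le_pow_left₀ (F.cl.s_nn k) (F.cl.s_le_C b) 2) (sq_nonneg D))

theorem g_inv {t : ℝ} (ht : l ≤ t) : 1 / S.ms t ≤ 1 / (κ * t ^ 2) + 1 / S.θ := by
  have t0 := F.l0.trans_le ht
  have κ0 := F.κ0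
  have θ0 := F.cl.θ0
  rcases min_le_iff.1 (F.mlo t ht) with a | a
  · linarith [one_div_le_one_div_of_le (by positivity) a, one_div_pos.2 θ0]
  · linarith [one_div_le_one_div_of_le θ0 a, show 0 < 1 / (κ * t ^ 2) by positivity]

theorem g_top {t : ℝ} (ht : t0 ≤ t) : S.θ ≤ S.ms t :=
  (le_min F.t1 le_rfl).trans ((F.mlo t0 F.lt0).trans (F.cl.msm ht))

theorem g_t0 {k : ℕ} (h0 : S.j0 ≤ k) (hk : k < S.J) (h : 1 / (2 * S.C) ≤ M.z k) : t0 ≤ M.s k := by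
  have := le_of_mul_le_mul_left ((F.t2.trans h).trans (F.cl.z_s h0 hk).2) F.cl.C0
  linarith

theorem g_sq {T : Finset ℕ} (hT : ∀ k ∈ T, S.jl < k ∧ k < S.J ∧ l ≤ M.s k) :
    ∑ k ∈ T, dx M k / M.s k ^ 2 ≤ 4 * S.C ^ 2 / l := by
  have l0 := F.l0
  have C0 := F.cl.C0
  have i1 := F.cl.i1
  have p : ∀ k, 0 < M.s k + l := fun k => by linarith [F.cl.s_nn k]
  set ψ : ℕ → ℝ := fun k => -(1 / (M.s k + l)) with hψ
  have m : ∀ k, 0 ≤ ψ k - ψ (k - 1) := fun k => by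
    have := one_div_le_one_div_of_le (p (k - 1))
      (show M.s (k - 1) + l ≤ M.s k + l by linarith [F.cl.sm (Nat.sub_le k 1)])
    simp only [hψ]; linarith
  calc _ ≤ ∑ k ∈ T, 4 * S.C ^ 2 * (ψ k - ψ (k - 1)) := by
        refine sum_le_sum fun k hk => ?_
        obtain ⟨a, b, c⟩ := hT k hk
        obtain ⟨j, rfl⟩ : ∃ j, k = j + 1 := ⟨k - 1, by omega⟩
        have z := (F.cl.zs j (by omega) b).2
        have s := (F.cl.ss j (by omega)).1
        rw [div_le_iff₀ C0] at s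
        have s0 := l0.trans_le c
        have d : dx M (j + 1) ≤ S.C ^ 2 * (M.s (j + 1) - M.s j) := by
          rw [dx, Nat.add_sub_cancel]; nlinarith
        have d0 : 0 ≤ M.s (j + 1) - M.s j := sub_nonneg.2 (F.cl.sm j.le_succ)
        have e : ψ (j + 1) - ψ (j + 1 - 1) =
            (M.s (j + 1) - M.s j) / ((M.s (j + 1) + l) * (M.s j + l)) := by
          have := p j
          have := p (j + 1)
          simp only [hψ, Nat.add_sub_cancel]; field_simp; ring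
        have q : (M.s (j + 1) + l) * (M.s j + l) ≤ 4 * M.s (j + 1) ^ 2 := by nlinarith [p j]
        rw [e]
        refine (div_le_div_of_nonneg_right d (sq_nonneg _)).trans (le_trans (le_of_eq ?_)
          (mul_le_mul_of_nonneg_left (div_le_div_of_nonneg_left d0 (mul_pos (p _) (p _)) q)
            (by positivity)))
        field_simp
    _ ≤ 4 * S.C ^ 2 * ∑ k ∈ Ioc S.jl S.J, (ψ k - ψ (k - 1)) := by
        rw [← mul_sum]
        exact mul_le_mul_of_nonneg_left (sum_le_sum_of_subset_of_nonneg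
          (fun k hk => mem_Ioc.2 ⟨(hT k hk).1, (hT k hk).2.1.le⟩) fun k _ _ => m k) (by positivity)
    _ ≤ _ := by
        rw [Ap63.tel ψ F.cl.jl_lt.le, div_eq_mul_one_div]
        refine mul_le_mul_of_nonneg_left ?_ (by positivity)
        have := one_div_le_one_div_of_le l0 (show l ≤ M.s S.jl + l by linarith [F.cl.s_nn S.jl])
        have := one_div_pos.2 (p S.J)
        simp only [hψ]; linarith

/-- **the bulk cost** for a constant residual size -/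
theorem cB_le (e : ℝ) : cB M S (fun _ => e) l S.C ≤ e ^ 2 * (4 * S.C ^ 2 / (κ * l) + 1 / S.θ) +
    (D ^ 2 * (1 / κ + S.C ^ 2 / S.θ) + S.g2 / S.θ) := by
  have l0 := F.l0
  have κ0 := F.κ0
  have θ0 := F.cl.θ0
  have i1 := F.cl.i1
  have i3 := F.cl.i3
  set T := (Ioo S.jl S.J).filter fun k => l ≤ M.s k ∧ M.s k ≤ S.C with hT
  have t : ∀ k ∈ T, S.jl < k ∧ k < S.J ∧ l ≤ M.s k := fun k hk =>
    ⟨(mem_Ioo.1 (mem_filter.1 hk).1).1, (mem_Ioo.1 (mem_filter.1 hk).1).2, (mem_filter.1 hk).2.1⟩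
  have t' : T ⊆ Ioc S.jl S.Jp := fun k hk => mem_Ioc.2 ⟨(t k hk).1, by have := t k hk; omega⟩
  have s1 := g_sq F t
  have s2 := g_one F t'
  have s3 := g_sum F t' (f := fun k => M.G k ^ 2 / S.ms (M.s k))
    (a := D ^ 2 * (1 / κ + S.C ^ 2 / S.θ)) (c := 1 / S.θ) (by positivity) (by positivity)
    (fun k hk h => by
      obtain ⟨a, b, c⟩ := t k hk
      have s0 := l0.trans_le c
      have u := mul_le_mul (g_lo F a h) (g_inv F c) (one_div_pos.2 (F.cl.ms_pos s0.le)).le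
        (by positivity)
      have w : M.s k ^ 2 / S.θ ≤ S.C ^ 2 / S.θ := div_le_div_of_nonneg_right
        (pow_le_pow_left₀ s0.le (F.cl.s_le_C (by omega)) 2) θ0.le
      have y : D ^ 2 * M.s k ^ 2 * (1 / (κ * M.s k ^ 2) + 1 / S.θ) =
          D ^ 2 * (1 / κ + M.s k ^ 2 / S.θ) := by field_simp
      rw [div_eq_mul_one_div]
      exact u.trans (y.trans_le (mul_le_mul_of_nonneg_left (by linarith) (sq_nonneg D))))
    fun k hk h => by
      obtain ⟨a, b, c⟩ := t k hk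
      rw [one_div_mul_eq_div]
      exact div_le_div_of_nonneg_left (sq_nonneg _) θ0 (g_top F (g_t0 F (by omega) b h.le))
  calc _ ≤ ∑ k ∈ T, (e ^ 2 * (1 / κ * (dx M k / M.s k ^ 2) + 1 / S.θ * dx M k) +
        dx M k * (M.G k ^ 2 / S.ms (M.s k))) := by
        refine sum_le_sum fun k hk => ?_
        obtain ⟨a, b, c⟩ := t k hk
        have s0 := l0.trans_le c
        have m0 := F.cl.ms_pos s0.le
        have c1 : cr S (M.s k) = 1 := by
          rw [cr, F.F1, one_mul]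
          exact max_eq_left (rpow_le_one (by positivity)
            ((div_le_one (by positivity)).2 (F.ml _ c)) (by norm_num))
        have c2 : mf S (M.s k) = S.ms (M.s k) := by rw [mf, F.F1, div_one]
        rw [c1, c2, one_mul]
        have u := mul_le_mul_of_nonneg_left (g_inv F c) (sq_nonneg e)
        rw [mul_one_div] at u
        exact (mul_le_mul_of_nonneg_left (add_le_add u (min_le_right _ _)) (g_dx F k)).trans_eq
          (by field_simp)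
    _ ≤ _ := by
        rw [sum_add_distrib, ← mul_sum, sum_add_distrib, ← mul_sum, ← mul_sum]
        have a1 := mul_le_mul_of_nonneg_left s1 (show 0 ≤ 1 / κ by positivity)
        have a2 := mul_le_mul_of_nonneg_left s2 (show 0 ≤ 1 / S.θ by positivity)
        have a3 : 1 / κ * (4 * S.C ^ 2 / l) = 4 * S.C ^ 2 / (κ * l) := by field_simp
        rw [one_div_mul_eq_div] at s3
        exact add_le_add (mul_le_mul_of_nonneg_left (by linarith) (sq_nonneg e)) s3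

/-- **the top window** from the output of (L) -/
theorem tw_le {Λ a u En γ Γ : ℝ} {m : ℕ} (hΛ : 0 ≤ Λ) (En0 : 0 ≤ En) (O : LO Λ S M m a l u En)
    (hγ : M.s S.Jp - M.s S.J ≤ γ) (hΓ : GS M S 0 S.C + GP M S ≤ Γ) :
    ∑ k ∈ (Ioc S.j0 S.Jp).filter fun k => M.z (S.J - 1) / 2 ≤ M.z (k - 1),
      (M.z k - M.z (k - 1)) * (M.rb m a k - M.q k) ^ 2 ≤
      Λ * (2 * (En / S.θ) + u + Γ + γ ^ 2 + 2 / (S.n : ℝ) ^ 2) := by
  have θ0 := F.cl.θ0
  have a1 := O.two t0 S.C F.lt0 (by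
    have C1 := F.cl.C1
    have v := F.cl.v0
    have : 1 / (2 * S.C) ≤ S.C * S.C := (div_le_one (by linarith)).2 (by linarith) |>.trans
      (by nlinarith)
    have := le_of_mul_le_mul_left (F.t2.trans this) F.cl.C0
    linarith)
  have a2 := O.pla
  have b1 : En / mf S t0 ≤ En / S.θ := by
    rw [mf, F.F1, div_one]; exact div_le_div_of_nonneg_left En0 θ0 (g_top F le_rfl)
  have b2 : GS M S t0 S.C ≤ GS M S 0 S.C := sum_le_sum_of_subset_of_nonneg (fun k hk =>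
    mem_filter.2 ⟨(mem_filter.1 hk).1, F.cl.s_nn k, (mem_filter.1 hk).2.2⟩)
    fun k _ _ => mul_nonneg (g_dx F k) (sq_nonneg _)
  have b3 : (M.s S.Jp - M.s S.J) ^ 2 ≤ γ ^ 2 :=
    pow_le_pow_left₀ (sub_nonneg.2 (F.cl.sm F.cl.i3)) hγ 2
  have c : ∑ k ∈ (Ioc S.j0 S.Jp).filter fun k => M.z (S.J - 1) / 2 ≤ M.z (k - 1),
      (M.z k - M.z (k - 1)) * (M.rb m a k - M.q k) ^ 2 ≤
      ∑ k ∈ (M.blk S t0 S.C).filter (· < S.J), dx M k * M.del m a k ^ 2 + Pla M S m a 2 := by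
    simp only [Pla, sq_abs]
    rw [← sum_union (disjoint_left.2 fun k a b => by
      have := (mem_filter.1 a).2
      have := (mem_Icc.1 b).1
      omega)]
    refine sum_le_sum_of_subset_of_nonneg (fun k hk => ?_)
      fun k _ _ => mul_nonneg (g_dx F k) (sq_nonneg _)
    obtain ⟨x, y⟩ := mem_filter.1 hk
    obtain ⟨x1, x2⟩ := mem_Ioc.1 x
    rcases lt_or_ge k S.J with d | d
    · refine mem_union_left _ (mem_filter.2 ⟨mem_filter.2 ⟨x, g_t0 F x1.le d ?_,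
        F.cl.s_le_C x2⟩, d⟩)
      have e : 1 / (2 * S.C) = 1 / S.C / 2 := by rw [div_div, mul_comm]
      linarith [F.cl.atom.1, F.cl.leg.zm (Nat.sub_le k 1)]
    · exact mem_union_right _ (mem_Icc.2 ⟨d, x2⟩)
  refine c.trans ((add_le_add a1 a2).trans ?_)
  rw [← mul_add]
  refine mul_le_mul_of_nonneg_left ?_ hΛ
  have e : 2 / (S.n : ℝ) ^ 2 = 1 / (S.n : ℝ) ^ 2 + 1 / (S.n : ℝ) ^ 2 := by ring
  linarith [min_le_right (√(S.C * En)) (En / mf S t0), min_le_right (En ^ ((3 : ℝ) / 5)) (En / S.θ)]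

/-- the a priori package with `Vt = 1`, `Xp = X` -/
theorem ap_of {m : ℕ} {a X u j Γ : ℝ} (hm : 0 < m)
    (hX : ∑ k ∈ Ioc S.j0 S.Jp, (M.z k - M.z (k - 1)) * M.del m a k ^ 2 ≤ X)
    (hΓ : GS M S 0 S.C + GP M S ≤ Γ) (hj : √X + √Γ + l ^ 2 ≤ j) (hJ : Jn S M X u) :
    Ap S M m a l X X 1 u j := by
  have e : Phi M S m a ≤ X := by
    rw [Phi, Ap63.En_eq F.cl, Ap63.Sx_two]; exact hX
  refine ⟨e, le_trans (sum_le_sum_of_subset_of_nonneg (fun k hk => mem_filter.2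
    ⟨(mem_filter.1 hk).1, F.cl.s_nn k, (mem_filter.1 hk).2.2⟩)
    fun k _ _ => mul_nonneg (g_dx F k) (by positivity)) e, fun k _ b _ => ?_,
    by linarith [sqrt_le_sqrt hΓ], hJ⟩
  linarith [(Mp9.rb_mem (M := M) (a := a) hm k).2, F.cl.q_nn (b.trans F.cl.i4.le), Md.del.eq_1 M m a k]

omit F in
/-- crude location from the a priori bound -/
theorem cru_of (h : Cl S M) {m : ℕ} {a x γ L Λ : ℝ} (hm : 0 < m) (x0 : 0 ≤ x) (x1 : x ≤ 1)
    (hX : ∑ k ∈ Ioc S.j0 S.Jp, (M.z k - M.z (k - 1)) * M.del m a k ^ 2 ≤ x ^ 3)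
    (hγ : M.s S.Jp - M.s S.J ≤ γ) (hL : S.C ^ 2 * S.v + 2 * Ap63.VV S M S.j0 x γ ≤ L)
    (hΛ : S.C + 1 ≤ Λ) : ∀ k ≤ S.Jp, M.rb m a k ≤ Λ * max (M.z k) L := by
  intro k hk
  have C0 := h.C0
  have P : Ap63.Pri S M S.j0 (M.rb m a) M.q x γ :=
    ⟨h, le_rfl, h.j0_lt, Ap63.sw_q h ((Ap63.q_slow h h.i3 le_rfl).trans hγ), Mp9.rb_mono hm,
      fun k => (Mp9.rb_mem hm k).1, x0, x1, by rw [Ap63.Sx_two]; exact hX⟩
  have m1 := le_max_left (M.z k) L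
  have m2 := le_max_right (M.z k) L
  have z0 := h.z_pos k
  refine le_trans ?_ (mul_le_mul_of_nonneg_right hΛ (z0.le.trans m1))
  rcases lt_or_ge k S.J with d | d
  · have a1 := P.fm (le_max_left k S.j0)
    have a2 := P.le_s (k := max k S.j0) (max_le d.le h.j0_lt.le)
    have a3 := (h.z_s (le_max_right k S.j0) (max_lt d h.j0_lt)).1
    have a4 : M.z (max k S.j0) = M.z k := by
      rcases le_total k S.j0 with e | e
      · rw [max_eq_right e, h.low k e]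
      · rw [max_eq_left e]
    rw [a4, sub_le_iff_le_add, div_le_iff₀ C0] at a3
    nlinarith [mul_le_mul_of_nonneg_left m1 C0.le]
  · have a1 := h.atom.1.trans (h.leg.zm (show S.J - 1 ≤ k by omega))
    rw [div_le_iff₀ C0] at a1
    nlinarith [(Mp9.rb_mem (M := M) (a := a) hm k).2, mul_le_mul_of_nonneg_left m1 C0.le]

end Crest.Agent.T156.Alt.Lt11

end
end

-- ▼ part T156/SprLX_11
section

/-!
# Row 156, stage C (helper11): the exponent table of (L)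
-/

set_option autoImplicit false
set_option linter.unusedSectionVars false

noncomputable section

namespace Crest.Agent.T156.Alt.Lt11

open Real

/-- positive numbers with given exponents; `σ = lg s`, `a = lg α` -/
structure Tb (n c η σ a E C θ μ l g ω ν x Lg X2 X3 G0 e N : ℝ) : Prop where
  n1 : 1 < n
  c0 : 0 < c
  c1 : c ≤ 1 / 2000
  η0 : 0 < η
  η1 : 100 * η ≤ c
  k3 : 1000 ≤ n ^ η
  σ0 : 0 ≤ σ
  σ1 : σ ≤ 1 / 19
  a0 : 3 * c - 1 / 12 ≤ a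
  a1 : a ≤ 0
  E1 : 1 ≤ E
  lE : logb n E ≤ c / 100
  C1 : 1 ≤ C
  lC : logb n C ≤ η
  θ0 : 0 < θ
  lθ : logb n θ = -(7 * c)
  μ0 : 0 < μ
  lμ : logb n μ = 2 * σ + 5 * c - 5 / 18
  l0 : 0 < l
  ll : logb n l = σ + 3 * c - 5 / 36
  g0 : 0 < g
  lg : logb n g = -(13 / 18) - 5 * c - 2 * σ
  ω0 : 0 < ω
  lω : logb n ω = -(7 / 36) - 2 * c - σ
  ν0 : 0 < ν
  lν : logb n ν = -(2 / 3)
  x0 : 0 < x
  lx : logb n x = σ + c / 2 - 1 / 6
  L0 : 0 < Lg
  lL : logb n Lg = 1 / 36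
  X20 : 0 < X2
  l2 : logb n X2 = 3 * σ - 3 / 8
  X30 : 0 < X3
  l3 : logb n X3 = 3 * σ + 2 * c - 1 / 2
  G00 : 0 < G0
  lG : logb n G0 = 3 * σ - 2 / 5
  e0 : 0 < e
  le : logb n e = 3 * σ - 5 / 12
  N0 : 0 < N
  lN : logb n N = 8 * σ - 2 / 3 - 2 * a

theorem lg_le {n x y : ℝ} (hn : 1 < n) (hx : 0 < x) (hy : 0 < y) (h : logb n x ≤ logb n y) :
    x ≤ y := (logb_le_logb hn hx hy).1 h

theorem ex_lg {n : ℝ} (hn : 1 < n) (y : ℝ) : ∃ z, 0 < z ∧ logb n z = y :=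
  ⟨n ^ y, by positivity, logb_rpow (by linarith) hn.ne'⟩

theorem sm_lg {n η R : ℝ} (hn : 1 < n) (h : 1000 ≤ n ^ η) (hR : 0 < R) :
    ∃ z, 0 < z ∧ logb n z = logb n R - η ∧ 1000 * z ≤ R := by
  have a : 0 < n ^ η := by linarith
  refine ⟨R / n ^ η, by positivity, ?_, ?_⟩
  · rw [logb_div hR.ne' a.ne', logb_rpow (by linarith) hn.ne']
  · rw [← mul_div_assoc, div_le_iff₀ a]; nlinarith

/-- a monomial inequality -/
macro "lgl" : tactic => `(tactic| exact lg_le (by assumption) (by positivity) (by positivity)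
  (by (try lg_norm); linarith))

set_option maxHeartbeats 2000000 in
theorem Tb.nn {n c η σ a E C θ μ l g ω ν x Lg X2 X3 G0 e N : ℝ}
    (T : Tb n c η σ a E C θ μ l g ω ν x Lg X2 X3 G0 e N) :
    NN E n C μ l g ω ν x Lg X2 X3 N G0 e := by
  obtain ⟨n1, c0, c1, η0, η1, k3, σ0, σ1, a0, a1, E1, lE, C1, lC, θ0, lθ, μ0, lμ, l0, ll, g0, lg,
    ω0, lω, ν0, lν, x0, lx, L0, lL, X20, l2, X30, l3, G00, lG, e0, le, N0, lN⟩ := T
  have n0 : 0 < n := by linarith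
  have E0 : 0 < E := by linarith
  have C0 : 0 < C := by linarith
  have ln : logb n n = 1 := logb_self_eq_one n1
  obtain ⟨y2, y20, m2, k2⟩ := sm_lg n1 k3 X20
  obtain ⟨y3, y30, m3, k3'⟩ := sm_lg n1 k3 X30
  obtain ⟨yG, yG0, mG, kG⟩ := sm_lg n1 k3 G00
  obtain ⟨ye, ye0, me, ke⟩ := sm_lg n1 k3 e0
  obtain ⟨yN, yN0, mN, kN⟩ := sm_lg n1 k3 N0
  obtain ⟨z2, z20, p2, q2⟩ := sm_lg n1 k3 (pow_pos X20 3)
  obtain ⟨zG, zG0, pG, qG⟩ := sm_lg n1 k3 (pow_pos G00 2)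
  rw [logb_pow] at p2 pG
  push_cast at p2 pG
  refine ⟨E1, l0, by lgl, by lgl, ω0, by lgl, by lgl, ν0, by lgl, x0, by lgl, by lgl, by lgl,
    by lgl, by lgl, ?_, ?_, ?_, ?_, ?_, ?_, ?_, ?_, ?_, by lgl, by lgl, by lgl, by lgl, ?_⟩
  · linarith [show l ^ 3 ≤ y2 by lgl]
  · linarith [show C * g ^ 2 ≤ z2 by lgl]
  · linarith [show x ^ 3 ≤ y2 by lgl]
  · linarith [show l ^ 5 ≤ y3 by lgl]
  · linarith [show g ≤ y3 by lgl]
  · linarith [show ω * x ^ 3 ≤ y3 by lgl]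
  · linarith [show l ^ 3 ≤ yG by lgl]
  · linarith [show l ^ 2 * g ≤ zG by lgl]
  · linarith [show Lg ^ 6 * ω ^ 3 ≤ ye by lgl, show Lg ^ 4 * (ν / l) ≤ ye by lgl,
      show √(Lg * g) * (Lg ^ 2 * ω) ≤ ye by lgl, show √(Lg * g) * √X2 ≤ ye by lgl,
      show G0 * (Lg ^ 2 * ω) ≤ ye by lgl, show G0 * √X2 ≤ ye by lgl,
      show X2 * (Lg ^ 2 * ω) ≤ ye by lgl, show X2 * √X2 ≤ ye by lgl, show X3 ≤ ye by lgl,
      show 1 / n ≤ ye by lgl]
  · have l2' : logb n 2 ≤ η := by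
      have := logb_le_logb_of_le n1 two_pos (show (2 : ℝ) ≤ n ^ η by linarith)
      rwa [logb_rpow n0 n1.ne'] at this
    linarith [show g * ω ≤ yN by lgl,
      show (2 * ω) ^ ((3 : ℝ) / 2) * (x ^ 3) ^ ((7 : ℝ) / 6) ≤ yN by lgl]

/-- the plateau numbers -/
structure Tp (n c η σ a h u D lm b U1 γ Γ w Λ dm B s' aM Lc uc j ec : ℝ) : Prop where
  h0 : 0 < h
  lh : logb n h = -2
  u0 : 0 < u
  lu : logb n u = 7 * c - 2 / 3 - 2 * a
  D0 : 0 < D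
  lD : logb n D = 4 * η
  m0 : 0 < lm
  lm' : logb n lm = -(71 / 200)
  b0 : 0 < b
  lb : a - 5 / 12 + 27 * c / 8 - η ≤ logb n b
  U0 : 0 < U1
  lU : logb n U1 = 6 * c - 2 / 3
  γ0 : 0 < γ
  lγ : logb n γ = -(7 / 20)
  Γ0 : 0 < Γ
  lΓ : logb n Γ = -(2 / 3) - 15 * c / 2
  w0 : 0 < w
  lw : logb n w = 7 * c - 1
  Λ0 : 0 < Λ
  lΛ : logb n Λ = 2 * η
  Λ1 : 6 * log (1 + n) ≤ Λ
  d0 : 0 < dm
  ld : logb n dm = -(3 / 4)
  B0 : 0 < B
  lB : logb n B = 2 * σ + 1 / 6 - a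
  s0 : 0 < s'
  ls : logb n s' = σ + 3 * c - 5 / 18 - a / 3
  A0 : 0 < aM
  lA : logb n aM = 3 * c - 1 / 12
  c0 : 0 < Lc
  lc : logb n Lc = 1 / 6 - 3 * c
  v0 : 0 < uc
  lv : logb n uc = 3 * c - 2 / 9
  j0 : 0 < j
  lj : logb n j = 2 * σ + 2 * c - 1 / 4
  f0 : 0 < ec
  lf : logb n ec = σ - 1 / 3 - 7 * c

set_option maxHeartbeats 8000000 in
theorem Tb.np {n c η σ a E C θ μ l g ω ν x Lg X2 X3 G0 e N h u D lm b U1 γ Γ w Λ dm B s' aM Lc uc j
    ec : ℝ} (T : Tb n c η σ a E C θ μ l g ω ν x Lg X2 X3 G0 e N)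
    (P : Tp n c η σ a h u D lm b U1 γ Γ w Λ dm B s' aM Lc uc j ec) :
    NP E n C θ w h u D lm b (3 / u) lm U1 γ Γ x Λ dm B s' aM Lg Lc uc X2 X3 G0 e j ec (2 * (x / Lc))
      N := by
  obtain ⟨n1, c0, c1, η0, η1, k3, σ0, σ1, a0, a1, E1, lE, C1, lC, θ0, lθ, -, -, -, -, -, -,
    -, -, -, -, x0, lx, L0, lL, X20, l2, X30, l3, G00, lG, e0, le, N0, lN⟩ := T
  obtain ⟨h0, lh, u0, lu, D0, lD, m0, lm', b0, lb, U0, lU, γ0, lγ, Γ0, lΓ, w0, lw, Λ0, lΛ, Λ1, d0,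
    ld, B0, lB, s0, ls, A0, lA, Lc0, lc, v0, lv, j0, lj, f0, lf⟩ := P
  have n0 : 0 < n := by linarith
  have E0 : 0 < E := by linarith
  have C0 : 0 < C := by linarith
  have ln : logb n n = 1 := logb_self_eq_one n1
  obtain ⟨y1, y10, m1, k1⟩ := sm_lg n1 k3 one_pos
  rw [logb_one] at m1
  obtain ⟨y2, y20, m2, k2⟩ := sm_lg n1 k3 X20
  obtain ⟨y3, y30, m3, k3'⟩ := sm_lg n1 k3 X30
  obtain ⟨yN, yN0, mN, kN⟩ := sm_lg n1 k3 N0
  obtain ⟨yB, yB0, mB, kB⟩ := sm_lg n1 k3 B0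
  obtain ⟨yf, yf0, mf, kf⟩ := sm_lg n1 k3 f0
  obtain ⟨yθ, yθ0, mθ, kθ⟩ := sm_lg n1 k3 θ0
  obtain ⟨zG, zG0, pG, qG⟩ := sm_lg n1 k3 (pow_pos G00 2)
  obtain ⟨zs, zs0, ps, qs⟩ := sm_lg n1 k3 (pow_pos s0 3)
  obtain ⟨zA, zA0, pA, qA⟩ := sm_lg n1 k3 (pow_pos A0 3)
  rw [logb_pow] at pG ps pA
  push_cast at pG ps pA
  have hh : ∀ y, 0 < y → -1 ≤ logb n y → 16 * h ≤ y := fun y y0 ly => by
    obtain ⟨z, z0, p, q⟩ := sm_lg n1 k3 y0
    linarith [show h ≤ z by lgl]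
  have τ0 : 0 < x / Lc := by positivity
  refine ⟨E1, by lgl, h0, hh u u0 (by linarith), hh lm m0 (by linarith), hh x x0 (by linarith),
    by lgl, by lgl, by lgl, Λ1, by lgl, by lgl, γ0.le, by lgl, m0, b0, d0, by lgl, by lgl, ?_,
    s0, ?_, A0.le, ?_, by lgl, by lgl, by lgl, by lgl, by lgl, ?_, ?_, by lgl, ?_, by lgl, by lgl, ?_,
    e0.le, ?_, ?_, ?_, ?_, ?_, by lgl, ⟨by lgl, by lgl⟩, v0.le, by lgl, j0.le, ?_, by lgl, ?_,
    ⟨by positivity, ?_⟩, ?_, ?_, ?_, ?_, ?_, ?_⟩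
  · have e1 : 3 * (4 * x ^ 2 + γ ^ 2 + 2 * C * x ^ 3) / lm + 3 * √(x ^ 3) / b =
        12 * (x ^ 2 / lm) + 3 * (γ ^ 2 / lm) + 6 * (C * x ^ 3 / lm) + 3 * (√(x ^ 3) / b) := by ring
    linarith [show x ^ 2 / lm ≤ yB by lgl, show γ ^ 2 / lm ≤ yB by lgl,
      show C * x ^ 3 / lm ≤ yB by lgl, show √(x ^ 3) / b ≤ yB by lgl]
  · linarith [show w * D ≤ zs by lgl, show w * (B * Λ) ≤ zs by lgl,
      show w / lm * √(w / lm) ≤ zs by lgl]
  · have e1 : w * (3 / u + 16 / dm) = 3 * (w / u) + 16 * (w / dm) := by ring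
    linarith [show w / u ≤ zA by lgl, show w / dm ≤ zA by lgl,
      show w / lm * √(w / lm) ≤ zA by lgl]
  · linarith [show u ≤ y2 by lgl, show Lg ^ 4 * s' ^ 2 ≤ y2 by lgl,
      show Lg ^ 4 * (w / dm * (w / lm * Λ)) ≤ y2 by lgl, show x ^ 3 * Λ ≤ y2 by lgl,
      show γ ^ 2 ≤ y2 by lgl]
  · linarith [show u ≤ y3 by lgl, show Lg ^ 6 * s' ^ 3 ≤ y3 by lgl,
      show Lg ^ 6 * ((w / dm) ^ 2 * (w / lm * Λ)) ≤ y3 by lgl, show x ^ 3 * Λ ≤ y3 by lgl,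
      show γ ^ 2 ≤ y3 by lgl]
  · have e1 : w * ((2 * x + γ + u) / lm + 1) =
        2 * (w * x / lm) + w * γ / lm + w * u / lm + w := by ring
    linarith [show w * x / lm ≤ zG by lgl, show w * γ / lm ≤ zG by lgl,
      show w * u / lm ≤ zG by lgl, show w ≤ zG by lgl]
  · linarith [show Lg ^ 8 / θ * (aM * s' ^ 3) ≤ yN by lgl,
      show Lg ^ 8 / θ * ((w / dm) ^ 3 * (w / lm * Λ)) ≤ yN by lgl]
  · have a2 : e + G0 ^ 2 + 3 * X2 ≤ 5 * X2 := by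
      linarith [show e ≤ X2 by lgl, show G0 ^ 2 ≤ X2 by lgl]
    have a3 := div_le_div_of_nonneg_right (pow_le_pow_left₀ (by positivity) a2 2) θ0.le
    have e1 : (5 * X2) ^ 2 / θ = 25 * (X2 ^ 2 / θ) := by ring
    linarith [show X2 ^ 2 / θ ≤ yN by lgl]
  · rw [add_div]
    linarith [show Γ / θ ≤ yN by lgl, show (θ * γ) ^ 2 / θ ≤ yN by lgl]
  · linarith [show θ * (x / Lc) ^ 3 ≤ yN by lgl, show θ * U1 ≤ yN by lgl]
  · linarith [show u ^ 2 ≤ yN by lgl, show u * e ≤ yN by lgl, show u * X2 ≤ yN by lgl,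
      show u * √(Γ / u) ≤ yN by lgl, show u * (θ * γ) ≤ yN by lgl,
      show (u * θ) ^ ((3 : ℝ) / 2) ≤ yN by lgl, show γ * e ≤ yN by lgl, show γ * X2 ≤ yN by lgl,
      show γ ^ ((15 : ℝ) / 7) ≤ yN by lgl]
  · linarith [show γ * θ * (x / Lc) ≤ yN by lgl]
  · linarith [show uc ^ 3 ≤ yf by lgl, show uc ^ 2 * θ ≤ yf by lgl, show uc ^ 2 * j ≤ yf by lgl,
      show uc ^ 2 * x ≤ yf by lgl, show √(Lc * w) * uc ≤ yf by lgl,
      show √(Lc * w) * √X2 ≤ yf by lgl, show G0 * uc ≤ yf by lgl, show G0 * √X2 ≤ yf by lgl,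
      show X2 * uc ≤ yf by lgl, show X2 * √X2 ≤ yf by lgl, show X3 ≤ yf by lgl,
      show 1 / n ≤ yf by lgl]
  · linarith [show ec / θ ≤ x / Lc by lgl]
  · obtain ⟨z, z0, p, q⟩ := sm_lg n1 k3 x0
    linarith [show x / Lc ≤ z by lgl]
  · linarith [show E * j ≤ y1 by lgl, show E * (x / Lc) ≤ y1 by lgl]
  · linarith [show j ≤ yθ by lgl, show x / Lc ≤ yθ by lgl, show γ ≤ yθ by lgl]
  · have a2 : X2 * x + 2 * θ * x ^ 2 ≤ 3 * (θ * x ^ 2) := by
      linarith [show X2 * x ≤ θ * x ^ 2 by lgl]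
    have a3 := div_le_div_of_nonneg_right (pow_le_pow_left₀ (by positivity) a2 2) θ0.le
    have e1 : (3 * (θ * x ^ 2)) ^ 2 / θ = 9 * ((θ * x ^ 2) ^ 2 / θ) := by ring
    linarith [show (θ * x ^ 2) ^ 2 / θ ≤ yN by lgl]
  · linarith [show E * X2 ≤ yθ by lgl, show E * (θ * x) ≤ yθ by lgl]
  · linarith [show w ≤ (x / Lc) ^ 3 by lgl, pow_pos τ0 3]
  · linarith [show (w * x ^ 3) ^ ((3 : ℝ) / 4) ≤ yN by lgl, show θ * j ^ 9 ≤ yN by lgl,
      show θ * (x ^ 3) ^ 3 ≤ yN by lgl]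

end Crest.Agent.T156.Alt.Lt11

end
end

-- ▼ part T156/SprLG_11
section

/-!
# Row 156, stage C (helper11): `SprL1`, `SprL2` from (TL1) and the output of SR
-/

set_option autoImplicit false
set_option linter.unusedSectionVars false

noncomputable section

namespace Crest.Agent.T156.Alt

namespace Lt11

open Real Set Filter Topology
open Crest.Agent.T156.Alt.L69 Crest.Agent.T156.Alt.Ps64

/-- the body of `TL1` -/
def T1 (E Λ : ℝ) (S : Sc) (M : Md) (m : ℕ) (a : ℝ) : Prop :=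
  ∀ G1 u1 u2 j γ Lc ηc τ l X Xp Vt Lg Lp X2 X3 X4 G0 η N,
  CeiG S M G1 → LN E S M l l (cr S l * l) X Lg X2 X3 G0 η → L4 S (cr S l * l) X l S.C X4 →
  LP E S M Xp Vt Lg Lp X2 X3 G0 G1 u1 u2 j γ Lc ηc τ η N → S.F ^ 40 ≤ E →
  Ap S M m a l X Xp Vt u1 j →
  LO (Λ * S.F ^ 12) S M m a l u2 (l ^ 5 + S.ms l * l ^ 3 + cB M S η l S.C + X2 ^ 2 + X4 + N)

/-- a monomial inequality with powers of `n` -/
scoped macro "lgr " h:term : tactic => `(tactic| exact lg_le (by assumption) (by positivity)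
  (by positivity) (by (try lg_norm); (try simp only [$h:term, mul_one]); linarith))

theorem nn_c {E n n' C μ μ' l g ω ν x Lg X2 X3 X4 G0 e : ℝ}
    (h : NN E n C μ l g ω ν x Lg X2 X3 X4 G0 e) (e1 : n' = n) (e2 : μ' = μ) :
    NN E n' C μ' l g ω ν x Lg X2 X3 X4 G0 e := by subst e1 e2; exact h

theorem np_c {E n n' C θ θ' w h u D lm b dM U0 U1 γ Γ x Λ dm B σ aM Lg Lc uc X2 X3 G0 e j ec τ N : ℝ}
    (H : NP E n C θ w h u D lm b dM U0 U1 γ Γ x Λ dm B σ aM Lg Lc uc X2 X3 G0 e j ec τ N)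
    (e1 : n' = n) (e2 : θ' = θ) :
    NP E n' C θ' w h u D lm b dM U0 U1 γ Γ x Λ dm B σ aM Lg Lc uc X2 X3 G0 e j ec τ N := by
  subst e1 e2; exact H

theorem fin_num {n c η σ a C K κ θ Λ s α l e X2 N u Γ γ ν g2 cb : ℝ} (n1 : 1 < n) (c0 : 0 < c)
    (c1 : c ≤ 1 / 2000) (η0 : 0 < η) (η1 : 100 * η ≤ c) (k3 : 1000 ≤ Λ) (σ0 : 0 ≤ σ) (a1 : a ≤ 0)
    (C0 : 0 < C) (lC : logb n C ≤ η) (K0 : 0 < K) (lK : logb n K ≤ η)
    (κ0 : 0 < κ) (lκ : logb n κ = -c) (θ0 : 0 < θ) (lθ : logb n θ = -(7 * c))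
    (s0 : 0 < s) (ls : logb n s = σ) (α0 : 0 < α) (la : logb n α = a)
    (l0 : 0 < l) (ll : logb n l = σ + 3 * c - 5 / 36) (e0 : 0 < e) (le : logb n e = 3 * σ - 5 / 12)
    (X0 : 0 < X2) (l2 : logb n X2 = 3 * σ - 3 / 8) (N0 : 0 < N)
    (lN : logb n N = 8 * σ - 2 / 3 - 2 * a) (u0 : 0 < u) (lu : logb n u = 7 * c - 2 / 3 - 2 * a)
    (Γ0 : 0 < Γ) (lΓ : logb n Γ = -(2 / 3) - 15 * c / 2) (γ0 : 0 < γ) (lγ : logb n γ = -(7 / 20))
    (ν0 : 0 < ν) (lν : logb n ν = -2 / 3) (hg : g2 ≤ Γ)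
    (hb : cb ≤ e ^ 2 * (4 * C ^ 2 / (κ * l) + 1 / θ) +
      ((K ^ 3 * γ) ^ 2 * (1 / κ + C ^ 2 / θ) + g2 / θ)) :
    Λ * (2 * ((l ^ 5 + κ * l ^ 2 * l ^ 3 + cb + X2 ^ 2 + N + N) / θ) + u + Γ + γ ^ 2 + 2 / n ^ 2) ≤
      Λ ^ 2 * s ^ 8 * ν / (α ^ 2 * θ) := by
  have n0 : 0 < n := by linarith
  have ln : logb n n = 1 := logb_self_eq_one n1
  have Λ0 : 0 < Λ := by linarith
  have En : l ^ 5 + κ * l ^ 2 * l ^ 3 + cb + X2 ^ 2 + N + N ≤ 14 * N := by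
    have e1 : 4 * C ^ 2 / (κ * l) = 4 * (C ^ 2 / (κ * l)) := by ring
    have b1 : g2 / θ ≤ N := (div_le_div_of_nonneg_right hg θ0.le).trans (by lgl)
    rw [e1] at hb
    linarith [show l ^ 5 ≤ N by lgl, show κ * l ^ 2 * l ^ 3 ≤ N by lgl, show X2 ^ 2 ≤ N by lgl,
      show e ^ 2 * (C ^ 2 / (κ * l)) ≤ N by lgl, show e ^ 2 * (1 / θ) ≤ N by lgl,
      show (K ^ 3 * γ) ^ 2 * (1 / κ) ≤ N by lgl, show (K ^ 3 * γ) ^ 2 * (C ^ 2 / θ) ≤ N by lgl]
  have b2 := div_le_div_of_nonneg_right En θ0.le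
  have e2 : 14 * N / θ = 14 * (N / θ) := by ring
  have e3 : 2 / n ^ 2 = 2 * (1 / n ^ 2) := by ring
  have b3 := mul_le_mul_of_nonneg_right k3 (show 0 ≤ Λ * (N / θ) by positivity)
  have b4 : Λ ^ 2 * (N / θ) ≤ Λ ^ 2 * s ^ 8 * ν / (α ^ 2 * θ) := by lgl
  refine (mul_le_mul_of_nonneg_left (show _ ≤ 33 * (N / θ) by
    linarith [show u ≤ N / θ by lgl, show Γ ≤ N / θ by lgl, show γ ^ 2 ≤ N / θ by lgl,
      show 1 / n ^ 2 ≤ N / θ by lgl]) Λ0.le).trans ?_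
  have : 0 ≤ Λ * (N / θ) := by positivity
  linarith

section num

variable {β c0 C0 c η K' : ℝ} {A : ℕ} {p : Pm} (H : Reg β c0 C0 A c η K' p)
include H

theorem μ0 : 0 < p.μe := H.μ_pos H.mem_end

theorem lμ : logb p.n p.μe = -(7 * c) := by
  rw [Pm.μe, H.lg_μ_eq H.mem_end, logb_one, H.lg_ye]; ring

theorem lla : logb p.n (p.la p.μe) = -(1 / 3) + 3 * c := by
  rw [H.lg_la (μ0 H), lμ H, min_eq_right (by linarith [H.c_le])]; ring

theorem lu2 : logb p.n (p.u2 p.μe) = -(5 / 6) + 27 * c / 4 := by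
  rw [H.lg_u2 (μ0 H), H.lg_Vc (μ0 H), lμ H, max_eq_left (by linarith [H.c_le])]; ring

theorem ms_le {t : ℝ} (ht : p.r ≤ t) : p.ms 1 p.ye t ≤ t ^ 2 := by
  have r0 := H.r0
  have a : max p.r (min t p.ye) ^ 2 ≤ t ^ 2 :=
    pow_le_pow_left₀ (r0.le.trans (le_max_left _ _)) (max_le ht (min_le_left _ _)) 2
  rw [Pm.ms, one_mul]
  exact (mul_le_of_le_one_left (sq_nonneg _) H.κ1).trans a

theorem ms_sub {t t' : ℝ} (h0 : 0 ≤ t) (h : t ≤ t') :
    p.ms 1 p.ye t' ≤ p.ms 1 p.ye t + t' ^ 2 := by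
  rcases le_total p.r t' with a | a
  · linarith [ms_le H a, H.ms0 H.mem_end t]
  · have e : ∀ y ≤ p.r, p.ms 1 p.ye y = 1 * p.κ * p.r ^ 2 := fun y hy => by
      rw [Pm.ms, max_eq_left ((min_le_left _ _).trans hy)]
    rw [e t' a, e t (h.trans a)]
    linarith [sq_nonneg t']

theorem ms_lo {t : ℝ} (h0 : 0 ≤ t) : min (p.κ * t ^ 2) p.μe ≤ p.ms 1 p.ye t := by
  rcases le_total t p.ye with a | a
  · refine (min_le_left _ _).trans ?_
    rw [Pm.ms, one_mul, min_eq_left a]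
    exact mul_le_mul_of_nonneg_left (pow_le_pow_left₀ h0 (le_max_right _ _) 2) H.κ0.le
  · rw [H.ms_top H.mem_end a]; exact min_le_right _ _

set_option maxHeartbeats 8000000 in
/-- **one member** -/
theorem one {K α : ℝ} {P : Pl} {S : Sc} {M : Md} {m : ℕ} {a : ℝ} (hc : c ≤ 1 / 2000)
    (hη : 100 * η ≤ c) (K1 : 1 ≤ K) (hK : 8 * K ^ 2 ≤ (p.n : ℝ) ^ η) (F : Fa K α p P S M)
    (α0 : (p.n : ℝ) ^ (3 * c - 1 / 12) ≤ α) (α1 : α ≤ 1) (W : p.InW m a)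
    (hΦ : p.ph2 P M m a ≤ (p.n : ℝ) ^ η * p.s ^ 3 * (p.n : ℝ) ^ (c - 1 / 2))
    (L : T1 ((p.n : ℝ) ^ (c / 100)) ((p.n : ℝ) ^ η) S M m a) :
    p.tw P M m a ≤ ((p.n : ℝ) ^ η) ^ 2 * p.s ^ 8 * (p.n : ℝ) ^ (-(2 : ℝ) / 3) / (α ^ 2 * p.μe) := by
  have n1 := H.N1
  have n0 := H.N0
  have s0 := H.s0
  have ls := H.lg_s
  have c0' := H.c_pos
  have η0 := H.η_pos
  have k3 := H.num_le
  have θ0 := μ0 H
  have lθ := lμ H
  have κ0 := H.κ0
  have lκ := H.lg_κ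
  have αp : 0 < α := (H.rp0 _).trans_le α0
  have la0 := H.lg_mono (H.rp0 _) α0
  rw [H.lg_rp] at la0
  have la1 := H.lg_np αp α1
  have ln := H.lg_n
  have Λ0 := H.Λ0
  have lΛ := H.lg_rp η
  have K0 : 0 < K := by linarith
  have lK := H.lg_cst K1 (by nlinarith)
  have cl := F.cl
  have C0 := cl.C0
  have lC := H.lg_cst cl.C1 (F.eC ▸ hK)
  have L0 : 0 < log (p.n : ℝ) := by linarith [H.log1]
  have lL := H.lg_log
  have eθ : S.θ = p.μe := by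
    rw [Sc.θ, F.em]; exact H.ms_top H.mem_end H.ye1
  have m0 : 0 < m := H.n0.trans_le W.m1
  set σ := logb p.n p.s with hσ
  obtain ⟨l, l0, ll⟩ := ex_lg n1 (σ + 3 * c - 5 / 36)
  obtain ⟨g, g0, lg⟩ := ex_lg n1 (-(13 / 18) - 5 * c - 2 * σ)
  obtain ⟨ω, ω0, lω⟩ := ex_lg n1 (-(7 / 36) - 2 * c - σ)
  obtain ⟨ν, ν0, lν⟩ := ex_lg n1 (-(2 / 3))
  obtain ⟨x, x0, lx⟩ := ex_lg n1 (σ + c / 2 - 1 / 6)
  obtain ⟨Lg, Lg0, lLg⟩ := ex_lg n1 (1 / 36)
  obtain ⟨X2, X20, l2⟩ := ex_lg n1 (3 * σ - 3 / 8)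
  obtain ⟨X3, X30, l3⟩ := ex_lg n1 (3 * σ + 2 * c - 1 / 2)
  obtain ⟨G0, G00, lG⟩ := ex_lg n1 (3 * σ - 2 / 5)
  obtain ⟨e, e0, le⟩ := ex_lg n1 (3 * σ - 5 / 12)
  obtain ⟨N, N0, lN⟩ := ex_lg n1 (8 * σ - 2 / 3 - 2 * logb p.n α)
  obtain ⟨u, u0, lu⟩ := ex_lg n1 (7 * c - 2 / 3 - 2 * logb p.n α)
  obtain ⟨D, D0, lD⟩ := ex_lg n1 (4 * η)
  obtain ⟨Γ, Γ0, lΓ⟩ := ex_lg n1 (-(2 / 3) - 15 * c / 2)
  obtain ⟨w, w0, lw⟩ := ex_lg n1 (7 * c - 1)
  obtain ⟨dm, d0, ld⟩ := ex_lg n1 (-(3 / 4))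
  obtain ⟨B, B0, lB⟩ := ex_lg n1 (2 * σ + 1 / 6 - logb p.n α)
  obtain ⟨s', s'0, ls'⟩ := ex_lg n1 (σ + 3 * c - 5 / 18 - logb p.n α / 3)
  obtain ⟨aM, A0, lA⟩ := ex_lg n1 (3 * c - 1 / 12)
  obtain ⟨Lc, Lc0, lc⟩ := ex_lg n1 (1 / 6 - 3 * c)
  obtain ⟨uc, v0, lv⟩ := ex_lg n1 (3 * c - 2 / 9)
  obtain ⟨j, j0, lj⟩ := ex_lg n1 (2 * σ + 2 * c - 1 / 4)
  obtain ⟨ec, f0, lf⟩ := ex_lg n1 (σ - 1 / 3 - 7 * c)
  have r0 := H.r0
  have lr := H.lg_r
  have y0 := H.ye0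
  have ly := H.lg_ye
  have rl : p.r ≤ l := by lgr ln
  have ly' : l ≤ p.ye := by lgr ln
  have eμ : S.ms l = p.κ * l ^ 2 := by
    rw [F.em, Pm.ms, one_mul, min_eq_left ly', max_eq_right rl]
  have E1 : 1 ≤ (p.n : ℝ) ^ (c / 100) := one_le_rpow n1.le (by positivity)
  have T : Tb p.n c η σ (logb p.n α) ((p.n : ℝ) ^ (c / 100)) S.C p.μe (p.κ * l ^ 2) l g ω ν x Lg X2
      X3 G0 e N :=
    ⟨n1, c0', hc, η0, hη, k3, ls.1, ls.2, la0, la1, E1, (H.lg_rp _).le, cl.C1, lC.2, θ0, lθ,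
      by positivity, by lg_norm; linarith, l0, ll, g0, lg, ω0, lω, ν0, lν, x0, lx, Lg0, lLg, X20, l2,
      X30, l3, G00, lG, e0, le, N0, lN⟩
  have p0 := H.u20 θ0
  have lp' := lu2 H
  have a0 := H.la0 θ0
  have ll' := lla H
  have l4' := H.lg_num (x := 4) (by norm_num) (by norm_num)
  have γ0 := H.rp0 (-(7 / 20 : ℝ))
  have lγ := H.lg_rp (-(7 / 20 : ℝ))
  have Tq : Tp p.n c η σ (logb p.n α) ((p.n : ℝ) ^ (-(2 : ℝ))) u D ((p.n : ℝ) ^ (-(71 / 200 : ℝ)))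
      (α * √(p.u2 p.μe) / 4) (p.la p.μe ^ 2) ((p.n : ℝ) ^ (-(7 / 20 : ℝ))) Γ w
      (((p.n : ℝ) ^ η) ^ 2) dm B s' aM Lc uc j ec :=
    ⟨H.rp0 _, H.lg_rp _, u0, lu, D0, lD, H.rp0 _, H.lg_rp _, by positivity, by lg_norm; linarith,
      by positivity, by lg_norm; linarith, γ0, lγ, Γ0, lΓ, w0, lw, by positivity,
      by rw [logb_pow, lΛ]; norm_num, by
        have : log (1 + (p.n : ℝ)) ≤ log ((p.n : ℝ) ^ 2) :=
          log_le_log (by positivity) (by nlinarith [H.N3])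
        rw [log_pow] at this
        push_cast at this
        nlinarith [H.log_le], d0, ld, B0, lB, s'0, ls', A0, lA, Lc0, lc, v0, lv, j0, lj, f0, lf⟩
  have en : (S.n : ℝ) = p.n := by rw [F.en]
  have NN' := nn_c T.nn en eμ
  have NP' := np_c (T.np Tq) en eθ
  set γ := (p.n : ℝ) ^ (-(7 / 20 : ℝ)) with hγ
  have ml : ∀ t, l ≤ t → S.ms t ≤ t ^ 2 := fun t ht => F.em ▸ ms_le H (rl.trans ht)
  have fg : FG S M l p.ye p.κ (K ^ 3 * γ) := by
    refine ⟨cl, F.eF, l0, κ0, by positivity, F.gr, ml, fun t ht => ?_, ly', ?_, ?_⟩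
    · rw [eθ, F.em]; exact ms_lo H (l0.le.trans ht)
    · rw [eθ, Pm.μe, Pm.μ, one_mul]
    · obtain ⟨z, z0, pz, qz⟩ := sm_lg n1 k3 one_pos
      rw [logb_one] at pz
      have := H.v_le_r.trans H.r_le_ye
      rw [F.ev, le_div_iff₀ (by positivity)]
      nlinarith [show S.C ^ 2 * p.ye ≤ z by lgr ln, mul_le_mul_of_nonneg_left this (sq_nonneg S.C)]
  obtain ⟨yΓ, yΓ0, mΓ, kΓ⟩ := sm_lg n1 k3 Γ0
  have l7 := H.lg_rp (-(7 / 10 : ℝ))
  have r7 := H.rp0 (-(7 / 10 : ℝ))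
  set δ := (p.n : ℝ) ^ (-(7 / 10 : ℝ)) with hδ
  have g2 : S.g2 ≤ 2 * yΓ := by
    linarith [F.g2, show K ^ 5 * ((p.μe * p.la p.μe) ^ 2 * log p.n) ≤ yΓ by lgr ln,
      show K ^ 5 * δ ≤ yΓ by lgr ln]
  have hΓ : GS M S 0 S.C + GP M S ≤ Γ := by
    linarith [g_all fg, show (K ^ 3 * γ) ^ 2 * S.C ^ 2 ≤ yΓ by lgr ln]
  have u1 : u ≤ 1 := by lgr ln
  have fp : FP S M ((p.n : ℝ) ^ (-(2 : ℝ))) u D ((p.n : ℝ) ^ (-(71 / 200 : ℝ)))
      (α * √(p.u2 p.μe) / 4) (3 / u) ((p.n : ℝ) ^ (-(71 / 200 : ℝ))) (p.la p.μe ^ 2) γ Γ := by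
    refine ⟨cl, F.eF, F.mesh, F.ue, F.u0, (mul_le_mul_of_nonneg_left F.ck (sq_nonneg _)).trans
      (by lgr ln), F.ex ▸ F.d1, fun y a b => ?_, fun y a b => ?_, F.rev, F.spr, hΓ⟩
    · refine le_trans (le_of_eq ?_) (F.d2 y (F.ex ▸ a) (le_trans (by lgr ln) b))
      rw [div_pow, mul_pow, sq_sqrt p0.le]; norm_num
    · have b1 := div_le_div_of_nonneg_left zero_le_two u0 b
      have b2 : 1 ≤ 1 / u := (le_div_iff₀ u0).2 (by linarith)
      have b3 : 3 / u = 1 / u + 2 / u := by ring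
      linarith [F.d3 y (F.ex ▸ a) (by linarith)]
  have fn : FN ((p.n : ℝ) ^ (c / 100)) S M l := by
    refine ⟨cl, F.eF, F.HJ, (mul_le_mul_of_nonneg_left F.sj (by positivity)).trans ?_,
      F.em ▸ fun t t' => ms_sub H, ml⟩
    have := H.lg_two
    rw [H.hc]
    lgr ln
  have hX : ∑ k ∈ Finset.Ioc S.j0 S.Jp, (M.z k - M.z (k - 1)) * M.del m a k ^ 2 ≤ x ^ 3 := by
    rw [F.e0, F.eP]
    exact hΦ.trans (by lgr ln)
  obtain ⟨yj, yj0, mj, kj⟩ := sm_lg n1 k3 j0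
  have ap := ap_of (u := u) (j := j) fg m0 hX hΓ (by
    linarith [show √(x ^ 3) ≤ yj by lgr ln, show √Γ ≤ yj by lgr ln, show l ^ 2 ≤ yj by lgr ln])
    ⟨F.ex ▸ F.dj.1, F.ex ▸ F.dj.2, F.u0.2.trans (by lgr ln), fun k a _ b => le_trans
      (show 1 ≤ (p.n : ℝ) * (p.n : ℝ) ^ (-(71 / 200 : ℝ)) by lgr ln) (by
        rw [en]
        exact mul_le_mul_of_nonneg_left (p_lm fp NP' a (u0.trans_le b)) n0.le)⟩
  have O := L _ _ _ _ _ _ _ _ _ _ _ _ _ _ _ _ _ _ _ _ (F.cei.toG cl) (Lt11.ln fn NN') (l4 fn NN' _)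
    (lp fp NP') (by rw [F.eF, one_pow]; exact E1) ap
  rw [F.eF, one_pow, mul_one] at O
  have cb := cB_le fg e
  have cb0 : 0 ≤ cB M S (fun _ => e) l S.C := Finset.sum_nonneg fun k _ => mul_nonneg (g_dx fg k)
    (by
      have := cl.ms_pos (cl.s_nn k)
      have : 0 ≤ cr S (M.s k) := zero_le_one.trans (le_max_left _ _)
      rw [mf, F.eF]
      positivity)
  have tw := tw_le fg Λ0.le (by rw [eμ]; positivity) O F.spr hΓ
  rw [F.e0, F.eP, F.ex, eθ, F.en, eμ] at tw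
  refine tw.trans ?_
  rw [eθ] at cb
  exact fin_num n1 c0' hc η0 hη k3 ls.1 la1 C0 lC.2 K0 lK.2 κ0 lκ θ0 lθ s0 hσ.symm αp rfl l0 ll e0 le
    X20 l2 N0 lN u0 lu Γ0 lΓ γ0 lγ (H.rp0 _) (H.lg_rp _) (by linarith) cb

/-- the crude location of one member -/
theorem cru1 {K α : ℝ} {P : Pl} {S : Sc} {M : Md} {m : ℕ} {a : ℝ}
    (hη : 100 * η ≤ c) (hK : 8 * K ^ 2 ≤ (p.n : ℝ) ^ η) (F : Fa K α p P S M) (W : p.InW m a)
    (hΦ : p.ph2 P M m a ≤ (p.n : ℝ) ^ η * p.s ^ 3 * (p.n : ℝ) ^ (c - 1 / 2)) :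
    ∀ k ≤ p.Jp P, M.rb m a k ≤ ((p.n : ℝ) ^ η) ^ 3 * max (M.z k) p.lC := by
  have n1 := H.N1
  have n0 := H.N0
  have s0 := H.s0
  have ls := H.lg_s
  have c0' := H.c_pos
  have c1 := H.c_le
  have η0 := H.η_pos
  have k3 := H.num_le
  have Λ0 := H.Λ0
  have ln := H.lg_n
  have cl := F.cl
  have C0 := cl.C0
  have lC := H.lg_cst cl.C1 (F.eC ▸ hK)
  have v0 := H.v0
  have lv := H.lg_v_le
  have A2 : (2 : ℝ) ≤ A := by exact_mod_cast H.A2
  obtain ⟨x, x0, lx⟩ := ex_lg n1 (logb p.n p.s + c / 2 - 1 / 6)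
  have L0 : 0 < p.lC := mul_pos s0 (H.rp0 _)
  have lL : logb p.n p.lC = logb p.n p.s + c - 1 / 6 := by
    rw [Pm.lC, logb_mul s0.ne' (H.rp0 _).ne', H.lg_rp, H.hc]; ring
  obtain ⟨z, z0, pz, qz⟩ := sm_lg n1 k3 L0
  have hX : ∑ k ∈ Finset.Ioc S.j0 S.Jp, (M.z k - M.z (k - 1)) * M.del m a k ^ 2 ≤ x ^ 3 := by
    rw [F.e0, F.eP]
    exact hΦ.trans (by lgr ln)
  have sj := F.sj
  rw [H.hc, F.el, ← F.e0] at sj
  rw [← F.eP]
  refine cru_of cl (H.n0.trans_le W.m1) x0.le (by lgr ln) hX F.spr ?_ ?_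
  · rw [Ap63.VV, F.ev]
    linarith [show S.C ^ 2 * p.v ≤ z by lgr ln, show S.C ^ 2 * x ≤ z by lgr ln,
      show S.C ^ 3 * p.v ≤ z by lgr ln, show S.C * p.v ≤ z by lgr ln,
      show (p.n : ℝ) ^ (-(7 / 20 : ℝ)) ≤ z by lgr ln,
      show p.s * (p.n : ℝ) ^ (c / 13 - 1 / 6) ≤ z by lgr ln]
  · have := F.eC ▸ hK
    nlinarith [mul_le_mul k3 k3 (by norm_num) Λ0.le]

end num

theorem t1_of {K α E Λ : ℝ} {p : Pm} {P : Pl} {S : Sc} {M : Md} {m : ℕ} {a : ℝ}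
    (F : Fa K α p P S M) (W : p.InW m a) (L : CLat T1 (8 * K ^ 2) p.A p.n E Λ) :
    T1 E Λ S M m a :=
  L S M F.eC F.eA F.en F.cl m a ⟨by rw [F.en]; exact W.m1, by rw [F.en]; exact W.m2,
    by rw [F.en]; exact W.a1, by rw [F.ea]; exact W.a2⟩

theorem loss_s {β : ℝ} {R : ℝ → Pm → Prop} (H : Loss β fun Λ p => 0 ≤ p.s → R Λ p) : Loss β R :=
  fun c0 C0 a b => (H c0 C0 a b).mono fun _ H => H.mono fun _ H η hη => (H η hη).mono
    fun _ H p b1 b2 b3 b4 b5 => H p b1 b2 b3 b4 b5 (zero_le_one.trans b5.s1)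

theorem μe_nn (p : Pm) : 0 ≤ p.μe := by
  unfold Pm.μe Pm.μ Pm.κ
  positivity

end Lt11

open Real Set Lt11 L69

/-- **the location input of `C1S`** -/
theorem sprL1_of {β : ℝ} (hβ : 1 < β) (hT : TL1) (hS : Loss β SrP1) :
    Loss β (SprL1 (7 / 20)) := by
  refine loss_s (Sml.loss 3 (Sml.glueCL (X := T1) hβ (fa1 hβ) hS.sml hT (fun K => 8 * K ^ 2)
    (fun c => c / 100) (fun c hc => by positivity) fun K K1 c0 C0 _ _ => ⟨5, fun A hA =>
      ⟨1 / 2000, by norm_num, fun c hc c0' => ⟨c / 100, by positivity, fun η hη η0 =>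
        ⟨8 * K ^ 2, fun p H hF hP L _ P hP' t ht m a W => ?_⟩⟩⟩⟩) ?_)
  · obtain ⟨S, F⟩ := hF (H.hA ▸ hA) P hP' t ht
    have Φ := hP P hP' t ht m a W
    rw [H.hc] at Φ L
    refine ⟨cru1 H (by linarith) H.K_le F W Φ, ?_⟩
    have := one H hc (by linarith) K1 H.K_le F
      (rpow_le_one_of_one_le_of_nonpos H.N1.le (by linarith)) le_rfl W Φ (t1_of F W L)
    rw [one_pow, one_mul] at this
    have := μ0 H
    have := H.s0
    have := H.N0
    refine le_trans ‹_› ?_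
    gcongr
    · exact H.Λ1
    · norm_num
  · intro x x' p _ h G hs P hP t ht m a W
    obtain ⟨a1, a2⟩ := G hs P hP t ht m a W
    refine ⟨fun k hk => (a1 k hk).trans (mul_le_mul_of_nonneg_right h (le_max_of_le_right
      (mul_nonneg hs (by positivity)))), a2.trans ?_⟩
    have := μe_nn p
    gcongr

/-- **the location input of `C2S`** -/
theorem sprL2_of {β : ℝ} (hβ : 1 < β) (hT : TL1) (hS : Loss β SrP2) :
    Loss β (SprL2 (7 / 20)) := by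
  refine Sml.loss 3 (Sml.glueCL (X := T1) hβ (fa2' hβ) (hS.sml.and (legA hβ le_rfl)) hT
    (fun K => 8 * K ^ 2)
    (fun c => c / 100) (fun c hc => by positivity) fun K K1 c0 C0 _ _ => ⟨5, fun A hA =>
      ⟨1 / 2000, by norm_num, fun c hc c0' => ⟨c / 100, by positivity, fun η hη η0 =>
        ⟨8 * K ^ 2, fun p H hF ⟨hP, hL⟩ L α α' P a0 a1 a2 a3 hP' m a W => ?_⟩⟩⟩⟩) ?_
  · have Φ := hP α α' P a0 a1 a2 a3 hP' m a W
    rw [H.hc] at Φ L
    have θ0 := μ0 H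
    have s0 := H.s0
    have n0 := H.N0
    have n1 := H.N1
    have Λ0 := H.Λ0
    have k3 := H.num_le
    have a0' : 0 < α' := by linarith
    rcases le_total ((p.n : ℝ) ^ (3 * c - 1 / 12)) α' with h | h
    · obtain ⟨S, F⟩ := hF (H.hA ▸ hA) α α' P ((rpow_le_rpow_of_exponent_le n1.le
        (by linarith)).trans (h.trans a3)) a1 a2 a3 hP'
      refine (one H hc (by linarith) K1 H.K_le F h (a3.trans a1) W Φ (t1_of F W L)).trans ?_
      rw [div_le_div_iff₀ (by positivity) (by positivity)]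
      have e : α ^ 2 ≤ (p.n : ℝ) ^ η * α' ^ 2 := by nlinarith
      have := mul_le_mul_of_nonneg_left e (show 0 ≤ ((p.n : ℝ) ^ η) ^ 2 * p.s ^ 8 *
        (p.n : ℝ) ^ (-(2 : ℝ) / 3) * p.μe by positivity)
      linarith
    · have zm := (hL.2.1 α' P a0'.le (a3.trans a1) hP'.toFine).1.zm
      refine le_trans (Finset.sum_le_sum_of_subset_of_nonneg (Finset.filter_subset _ _)
        fun k _ _ => mul_nonneg (sub_nonneg.2 (zm (Nat.sub_le k 1))) (sq_nonneg _))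
        (le_trans Φ ?_)
      have l1 := H.lg_mono a0' h
      have l2 := H.lg_mono a0 (show α ≤ 2 * α' by linarith)
      have l3 := H.lg_two
      have ls := H.lg_s
      have lθ := lμ H
      have ln := H.lg_n
      rw [H.lg_rp] at l1
      rw [logb_mul two_ne_zero a0'.ne'] at l2
      lgr ln
  · intro x x' p _ h G α α' P a0 a1 a2 a3 hP m a W
    refine (G α α' P a0 a1 a2 a3 hP m a W).trans ?_
    have := μe_nn p
    gcongr

end Crest.Agent.T156.Alt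

end
end

-- ▼ part T156/SrP1_3

/-!
Row 156 (helper3): the output of SR along the segment `C1` (`SrP1`).
-/

set_option autoImplicit false
set_option linter.unusedSectionVars false

noncomputable section

namespace Crest.Agent.T156.Alt

open Real Set Filter Topology
open Crest.Agent.T156.Pr Crest.Agent.T157.Nm
open Plt13 Mem37 Mem13 SrC3 Pre29

/-- the residual profile is only read below `C` -/
theorem Cl.regr {S : Sc} {M : Md} (h : Cl S M) (g : ℝ → ℝ) (hg : ∀ t, t ≤ S.C → S.gr t ≤ g t) :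
    Cl { S with gr := g } M :=
  { h with
    Gmi := fun k a b => (h.Gmi k a b).trans (hg _ (by
      rcases le_total k S.Jp with c | c
      · exact (h.sm c).trans h.sT
      · have e := h.top k c
        have : 1 / (2 * S.C) ≤ 1 / 2 := one_div_le_one_div_of_le two_pos (by linarith [h.C1])
        have b' : M.z k ≤ 1 / (2 * S.C) := b
        linarith)) }

namespace SrP3

section den

variable {p : Pm} {ν x : ℝ} (N : Nm p ν) (h0 : p.xs ≤ x) (h1 : x < 1)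
include N h0 h1

theorem db_mul : p.la ν / 4 ≤ db (p.la ν) (x - p.xs + u0 p ν) * (x - p.xs + u0 p ν) := by
  have pA : 0 < x - p.xs + u0 p ν := by linarith [N.u0p]
  have s := sqrt_pos.2 pA
  have s2 : √(x - p.xs + u0 p ν) ≤ 2 := by
    rw [sqrt_le_left (by norm_num)]; linarith [N.u0_le, N.x0]
  have e : db (p.la ν) (x - p.xs + u0 p ν) * (x - p.xs + u0 p ν) =
      p.la ν / (2 * √(x - p.xs + u0 p ν)) := by unfold db; field_simp
  rw [e]
  exact div_le_div_of_nonneg_left N.lp.le (by positivity) (by linarith)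

theorem dt_mul : p.la ν / 4 ≤ Plt13.dt (p.Vc ν) (p.la ν) (1 - x) * (1 - x) := by
  have pu : 0 < 1 - x := by linarith
  have l0 := N.lp
  have V0 := N.Vp
  have s := sqrt_pos.2 pu
  have s1 : √(1 - x) ≤ 1 := sqrt_le_one.2 (by linarith [N.x0])
  have e : Plt13.dt (p.Vc ν) (p.la ν) (1 - x) * (1 - x) =
      p.la ν * p.Vc ν / (2 * (p.Vc ν * √(1 - x) + p.la ν)) := by unfold Plt13.dt; field_simp
  rw [e, div_le_div_iff₀ (by norm_num) (by positivity)]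
  nlinarith [mul_le_mul_of_nonneg_left s1 V0.le, N.lV]

theorem dn_ge : db (p.la ν) (x - p.xs + u0 p ν) + Plt13.dt (p.Vc ν) (p.la ν) (1 - x) ≤ dn p ν x := by
  unfold dn
  rw [den_eq h0 h1]
  linarith [dt_nn one_pos (sqrt_nonneg (p.u2 ν)) (show 0 < 1 - x by linarith)]

/-- the local scale of the static clock -/
theorem dn_min : p.la ν / 4 ≤ dn p ν x * min (x - p.xs + u0 p ν) (1 - x) := by
  have pA : 0 < x - p.xs + u0 p ν := by linarith [N.u0p]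
  have pu : 0 < 1 - x := by linarith
  have a := db_pos N.lp pA
  have b := dt_nn N.Vp N.lp.le pu
  have c := dn_ge N h0 h1
  rcases min_choice (x - p.xs + u0 p ν) (1 - x) with e | e <;> rw [e]
  · exact (db_mul N h0 h1).trans (mul_le_mul_of_nonneg_right (by linarith) pA.le)
  · exact (dt_mul N h0 h1).trans (mul_le_mul_of_nonneg_right (by linarith) pu.le)

end den

/-- size of the difference of the marks -/
abbrev dC (K : ℝ) (p : Pm) : ℝ := 3 * K ^ 2 * (p.n : ℝ) ^ (-(7 / 20 : ℝ))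

/-- the scales along `C1`, bounded residual profile -/
def sB (K : ℝ) (p : Pm) (P : Pl) : Sc :=
  { sC K (dC K p) p P with
    gr := fun t => (if t ≤ p.sO P (p.om 1 p.ye) p.jf then 8 * K ^ 2 *
      p.ms 1 p.ye (p.sO P (p.om 1 p.ye) p.jf) * p.sO P (p.om 1 p.ye) p.jf else 0) +
        dC K p * min t (8 * K ^ 2) }

/-- the perturbation of the marks along `C1` -/
def gC (p : Pm) (P : Pl) (t : ℝ) (k : ℕ) : ℝ :=
  t * p.dH P (p.alP (7 / 20) P 1) (p.om 1 p.ye) (p.b 1 p.ye + 0) k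

theorem c1M_cM (p : Pm) (P : Pl) (t : ℝ) : p.c1M (7 / 20) P t = p.cM P (gC p P t) := c1M_eq ..

/-- the data along `C1` -/
def Pk (K : ℝ) (p : Pm) : Prop :=
  Nm p p.μe ∧ 1 / K ≤ 1 - p.xs ∧ 1 - p.b 1 p.ye / p.β ^ 2 ≤ K * p.μe ∧
    (624 * p.n * p.v ≤ 1 / (p.n : ℝ) ^ 2 → ∀ P, p.PlOk p.μe P → ∀ t ∈ Icc (0 : ℝ) 1,
      Mc K (K * log p.n * p.la p.μe ^ 2) (dC K p) 0 p P (gC p P t) (sB K p P))

theorem n2 {n : ℕ} : (n : ℝ) ^ (-(2 : ℝ)) = 1 / (n : ℝ) ^ 2 := by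
  rw [rpow_neg n.cast_nonneg, rpow_two, one_div]

theorem pk (β : ℝ) (hβ : 1 < β) : Cst β Pk := by
  intro c0 C0 hc0 hC0
  obtain ⟨K1, k1, H1⟩ := memT β hβ c0 C0 hc0 hC0
  obtain ⟨K0, k0, H0⟩ := nuE β hβ c0 C0 hc0 hC0
  obtain ⟨K2, k2, H2⟩ := p1 β hβ c0 C0 hc0 hC0
  have q1 : 0 ≤ C0 * K0 ^ 2 := by positivity
  have q2 := sq_nonneg K0
  obtain ⟨K, hK⟩ : ∃ K, K = K1 + K2 + 78 * (C0 * K0 ^ 2) + 4 * K0 ^ 2 + 1201 := ⟨_, rfl⟩
  refine ⟨K, by linarith, fun A hA c hc hc' => ?_⟩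
  have t1 := (tendsto_rpow_atTop (y := 7 / 20) (by norm_num)).comp
    (tendsto_natCast_atTop_atTop (R := ℝ))
  filter_upwards [H1 K (by linarith) A hA c hc hc', H0 K (by linarith) A hA c hc hc',
    H2 A hA c hc hc', t1.eventually_ge_atTop (3 * K ^ 2)] with n h1 h0 h2 h3 p e1 e2 e3 e4 hp
  have T := h1 p e1 e2 e3 e4 hp p.ye
  obtain ⟨N, X, f1, jJ, L, ho⟩ := h0 p e1 e2 e3 e4 hp
  have m0' : 0 < p.μe := X.μ_pos X.mem_end
  refine ⟨N.nm, (one_div_le_one_div_of_le (by linarith) N.K0K).trans (N.sq_ge le_rfl).1,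
    (h2 p e1 e2 e3 e4 hp 1 p.ye X.mem_end).2.2.1.2.trans
      (mul_le_mul_of_nonneg_right (by linarith) m0'.le), fun hv P H t ht => ?_⟩
  simp only [Function.comp] at h3
  rw [← e2] at h3
  have n0 := X.n_pos
  have γ0 : 0 < (p.n : ℝ) ^ (-(7 / 20 : ℝ)) := rpow_pos_of_pos n0 _
  have W : ∀ {Q : Pl}, _ := fun {Q} => pld N (by linarith) ho X.r_pos.le X.r_le_ye X.κ_pos.le
    (X.μ_le_one X.mem_end) (by have := X.A2; omega) jJ H (Q := Q)
  obtain ⟨d0, u1, u2⟩ := W rfl rfl (fun x => by rw [H.rs]) (fun x => by rw [H.hs]) H.g.ge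
    (H.g.le.trans γ0.le) (by rw [H.g, mul_zero]; exact N.nm.lp.le)
  obtain ⟨d1, w1, w2⟩ := W (Q := p.alP (7 / 20) P 1) rfl rfl (fun x => one_mul _)
    (fun x => one_mul _) γ0.le le_rfl f1
  obtain ⟨m0, b1, -, -, b2, b3⟩ := T _ _ _ _ _ X.r_le_ye le_rfl d0
  obtain ⟨m1, -, -, F, -, -⟩ := T _ _ _ _ _ X.r_le_ye le_rfl d1
  have K1' := m0.K1
  have bK := m0.bK
  have b0 : 0 ≤ p.b 1 p.ye + 0 := by linarith [m0.b0]
  obtain ⟨s1, s2⟩ := C1Mem3.dH_spr (b := p.b 1 p.ye + 0) m0.geo m1.geo H.g rfl rfl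
    (by rw [H.hs]; funext x; exact one_mul _) F.γN F.tr.near (by linarith) b0
  have eγ : (p.alP (7 / 20) P 1).γ = (p.n : ℝ) ^ (-(7 / 20 : ℝ)) := rfl
  rw [eγ] at s1 s2
  have g1 := mul_le_mul_of_nonneg_right bK (show 0 ≤ K by linarith)
  have g2 : (p.b 1 p.ye + 0) * K + 1 + (p.b 1 p.ye + 0) ≤ 3 * K ^ 2 := by nlinarith
  have Tw : C1Mem3.Two K c0 C0 _ _ (dC K p) p P (p.alP (7 / 20) P 1) _ _ _ _ _ _ _ _ _ _ _ :=
    ⟨m0, m1, rfl, (b1.trans b3.symm).le, by positivity, by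
      rw [dC, rpow_neg n0.le, ← div_eq_mul_inv, div_le_one (by positivity)]; exact h3,
      fun k hk => (s1 k hk).trans (mul_le_mul_of_nonneg_right (mul_le_mul_of_nonneg_right
        (by linarith) γ0.le) (m0.geo.sP_nn k)),
      fun k => (s2 k).trans (mul_le_mul_of_nonneg_right g2 γ0.le)⟩
  have cl := Tw.cl ht
  have ce := Tw.cei (m0.cei' b2 Tw.mJ u1 (b1 ▸ u2)) (m1.cei' b2 Tw.mJ w1 (b1 ▸ w2)) ht
  have at' : ∀ {x y : ℝ}, |x| ≤ y → |t * x| ≤ y := fun {x y} e => by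
    rw [abs_mul, abs_of_nonneg ht.1]
    exact (mul_le_of_le_one_left (abs_nonneg _) ht.2).trans e
  refine ⟨⟨_, _, _, _, _, _, _, m0⟩, cl.regr _ fun s hs => add_le_add le_rfl
      (mul_le_mul_of_nonneg_left (le_min le_rfl hs) Tw.D0), ⟨ce.up, ce.bot⟩, rfl, rfl, rfl, rfl,
    rfl, rfl, rfl, rfl, rfl, rfl, rfl, X.r_pos, X.r_le_ye, X.ye_le_one, X.κ_pos, X.κ_le_one,
    fun x => by rw [H.hs, H.rs], fun k a b => ?_, ?_, ?_, fun i hi => (x_mesh N.nm H hi).trans hv,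
    n2 ▸ H.e2, ?_, fun i _ => ?_, x_lt N.nm H le_rfl, Tw.D0, fun k hk => ?_,
    fun k hk => at' (Tw.lo k hk), fun k => at' (Tw.al k)⟩
  · rcases lt_or_ge k p.J with e | e
    · rcases le_total (k * p.v) (2 * p.ye) with f | f
      · left
        have a := (PP3.z_bds N.base k e).2
        have b := mul_le_mul_of_nonneg_left f (show 0 ≤ C0 by linarith)
        rw [m0.xP_sl e.le, H.rs]
        exact N.zero ((N.base.lab.mono (Nat.sub_le k 1)).trans (by linarith [N.hY]))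
      · right
        rw [sP_lo e.le, ho.sig_eq f]
        unfold Pm.ms Pm.μe Pm.μ
        rw [min_eq_right (by linarith [X.ye_pos]), max_eq_right X.r_le_ye]
    · right
      have a0 := m0.msm (m0.geo.sP_J ▸ m0.geo.sP_mono e)
      exact le_antisymm ((m0.ms1 _).trans_eq b1) ((b1.symm.trans_le Tw.mJ).trans a0)
  · rw [H.rs]
    refine (N.gtp H rfl rfl jJ).trans (mul_le_mul_of_nonneg_right ?_ (sq_nonneg _))
    nlinarith [N.nm.l1]
  · rw [H.rs]; exact (abs_le.1 (N.nm.abs_rF_log H.e1)).2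
  · rw [m0.geo.sP_Jp, m0.geo.sP_J, H.g]; linarith
  · rw [H.g, zero_mul]; linarith [x_ge N.nm H i]
  · rw [gC, C1Mem3.Two.dH_lo hk, mul_zero]

/-- the density of the static clock at the atom -/
theorem dn_xs {K ν : ℝ} {p : Pm} (N : Nm p ν) (K1 : 1 ≤ K) (hx : 1 / K ≤ 1 - p.xs) :
    1 / (8 * K ^ 2) ≤ dn p ν p.xs ∧ dn p ν p.xs ≤ 8 * K ^ 2 := by
  have x1 := N.xs1
  have u0' := N.u0p
  have s0 := sqrt_pos.2 u0'
  have f : p.la ν = u0 p ν * √(u0 p ν) := by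
    have := N.fb_u0
    unfold fb at this
    rwa [div_eq_iff s0.ne'] at this
  have e : db (p.la ν) (p.xs - p.xs + u0 p ν) = 1 / 2 := by
    rw [sub_self, zero_add, db, ← f]; have := N.lp; field_simp
  have pu : 0 < 1 - p.xs := by linarith
  have g : ∀ {V l : ℝ}, 0 < V → V ≤ 1 → 0 < l → Plt13.dt V l (1 - p.xs) ≤ K := fun {V l} a b c => by
    have s := sqrt_nonneg (1 - p.xs)
    unfold Plt13.dt
    rw [div_le_iff₀ (by positivity)]
    rw [div_le_iff₀ (by linarith)] at hx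
    have i := mul_le_mul hx (show l * V ≤ V * √(1 - p.xs) + l by nlinarith [mul_nonneg a.le s])
      (by positivity) (by positivity)
    nlinarith [mul_nonneg (show 0 ≤ (1 - p.xs) * K by positivity)
      (show 0 ≤ V * √(1 - p.xs) + l by positivity)]
  have K2 : K ≤ K ^ 2 := by nlinarith
  unfold dn
  rw [den_eq le_rfl x1, e]
  have a := dt_nn N.Vp N.lp.le pu
  have b := dt_nn one_pos (sqrt_nonneg (p.u2 ν)) pu
  have c : 1 / (8 * K ^ 2) ≤ 1 / 2 := one_div_le_one_div_of_le two_pos (by linarith)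
  exact ⟨by linarith, by linarith [g N.Vp N.V1 N.lp, g one_pos le_rfl N.sp]⟩

/-- the sizes along `C1` -/
def Tk (K Λ : ℝ) (p : Pm) : Prop := 624 * p.n * p.v ≤ 1 / (p.n : ℝ) ^ 2 ∧ 1 ≤ p.n ∧ 0 < p.s ∧
  0 < p.c ∧ 1 ≤ Λ ∧ ∀ P, p.PlOk p.μe P → 0 ≤ p.sO P (p.om 1 p.ye) p.jf →
    Fm Λ K (K * log p.n * p.la p.μe ^ 2) (dC K p) 0 (p.la p.μe / 4) p P (sB K p P)

theorem tk (β : ℝ) (K : ℝ) (hK : 1 ≤ K) : Thr β fun _ _ Λ p => Pk K p → Tk K Λ p := by
  refine fun c0 C0 _ _ => ⟨4, fun A hA => ⟨1 / 2000, by norm_num, fun c hc c0' => ⟨c / 4,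
    by positivity, fun η hη η0 => ⟨max (8 * K ^ 2) (3 / (β ^ 2 - 1)), fun p H R => ?_⟩⟩⟩⟩
  obtain ⟨N, hx, hb, -⟩ := R
  obtain ⟨k1, k2⟩ := max_le_iff.1 H.K_le
  have N0 := H.N0
  have v0 := H.v0
  have m0 := μe0 H
  have lμ := lg_μe H
  have l0 := N.lp
  have l1 := H.log1
  have Λ0 := H.Λ0
  have Λ1 := H.Λ1
  have K2 : K ≤ K ^ 2 := by nlinarith
  have lK := H.lg_cst hK (by nlinarith)
  have lK2 := H.lg_cst (x := 8 * K ^ 2) (by nlinarith) k1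
  have ll : logb p.n (p.la p.μe) = -(1 / 3) + 3 * c := by
    rw [H.lg_la m0, lμ, min_eq_right (by linarith)]; ring
  have lu : logb p.n (u0 p p.μe) = -(2 / 9) + 2 * c := by
    rw [u0, logb_rpow_eq_mul_logb_of_pos l0, ll]; ring
  have A4 : (4 : ℝ) ≤ A := by exact_mod_cast hA
  have γ0 := H.rp0 (-(7 / 20 : ℝ))
  have l4 := H.lg_num (x := 4) (by norm_num) (by norm_num)
  have G0 : 0 < gE K p := by unfold gE; positivity
  have hg : 2 * gE K p + 2 * dC K p ^ 2 ≤ (p.n : ℝ) ^ (-(2 / 3) - 7 * p.c) := by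
    have g0 := H.rp0 (-(2 / 3) - 7 * p.c)
    have a : 4 * gE K p ≤ (p.n : ℝ) ^ (-(2 / 3) - 7 * p.c) := by
      refine H.le_of_lg (by positivity) g0 ?_
      rw [logb_mul (by norm_num) G0.ne', gE, logb_mul (by positivity) (by positivity),
        logb_mul (by positivity) (by positivity), logb_mul (by positivity) (by positivity),
        logb_pow, logb_pow, ll, lμ, H.lg_rp, H.hc]
      push_cast; linarith [H.lg_log.2]
    have b : 4 * (8 * K ^ 2 * (p.n : ℝ) ^ (-(7 / 20 : ℝ))) ^ 2 ≤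
        (p.n : ℝ) ^ (-(2 / 3) - 7 * p.c) := by
      refine H.le_of_lg (by positivity) g0 ?_
      rw [logb_mul (by norm_num) (by positivity), logb_pow, logb_mul (by positivity) γ0.ne',
        H.lg_rp, H.lg_rp, H.hc]
      push_cast; linarith
    have d : dC K p ^ 2 ≤ (8 * K ^ 2 * (p.n : ℝ) ^ (-(7 / 20 : ℝ))) ^ 2 :=
      pow_le_pow_left₀ (by positivity) (mul_le_mul_of_nonneg_right (by nlinarith) γ0.le) 2
    linarith
  refine ⟨?_, H.n1, H.s0, H.hc ▸ c0', Λ1, fun P HP hP => ⟨hK, k1, ?_, ?_, ?_, le_rfl, γ0.le, ?_, ?_, ?_,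
    hg, ?_, fun t ht => ?_, ?_, fun x a b => dn_min N a ?_, dn_xs N hK hx, n2.ge, ?_,
    1, ⟨zero_le_one, le_rfl, N, HP.g.ge, HP.g.le.trans zero_le_one, HP.x0,
      fun x => by rw [HP.rs, one_mul], fun x => by rw [HP.g, zero_mul, add_zero, one_mul]; rfl⟩,
    hg.trans ?_⟩⟩
  · refine H.le_of_lg (by positivity) (by positivity) ?_
    rw [logb_mul (by positivity) v0.ne', logb_mul (by norm_num) N0.ne', one_div, logb_inv, logb_pow,
      H.lg_n]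
    push_cast
    linarith [H.lg_v_le, (H.lg_num (x := 624) (by norm_num) (by norm_num)).2]
  · have b2 := H.β2
    have a : p.β ^ 2 * (K * p.μe) ≤ 1 / (p.n : ℝ) ^ η := by
      refine H.le_of_lg (by positivity) (by positivity) ?_
      rw [logb_mul (by positivity) (by positivity), logb_mul (by positivity) m0.ne', logb_pow,
        one_div, logb_inv, H.lg_rp, lμ]
      push_cast; linarith [H.lg_β.2]
    rw [← H.hβ, div_le_iff₀ (by linarith), mul_comm, ← div_le_iff₀ Λ0] at k2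
    have d := mul_le_mul_of_nonneg_left hb (show 0 ≤ p.β ^ 2 by linarith)
    rw [mul_sub, mul_one, mul_div_cancel₀ _ (by linarith : p.β ^ 2 ≠ 0)] at d
    have e : 3 / (p.n : ℝ) ^ η = 3 * (1 / (p.n : ℝ) ^ η) := by ring
    have e' : 2 / (p.n : ℝ) ^ η = 2 * (1 / (p.n : ℝ) ^ η) := by ring
    linarith
  · refine H.le_of_lg (by positivity) (H.rp0 _) ?_
    rw [logb_mul (by positivity) (by positivity), logb_mul (by positivity) (by positivity),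
      logb_pow, ll, H.lg_rp]
    push_cast; linarith [H.lg_log.2]
  · exact mul_le_mul_of_nonneg_right ((show 3 * K ^ 2 ≤ _ by nlinarith).trans
      (le_self_pow₀ Λ1 three_ne_zero)) γ0.le
  · exact H.le_of_lg (H.rp0 _) N.u0p (by rw [H.lg_rp, H.hc]; exact le_of_le_of_eq (by linarith) lu.symm)
  · refine H.le_of_lg (x := u0 p p.μe ^ 3) (pow_pos N.u0p _) (H.rp0 _) ?_
    rw [logb_pow, lu, H.lg_rp]; push_cast; linarith
  · show (p.n : ℝ) ^ (-(2 : ℝ)) ≤ _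
    rw [one_div, ← rpow_neg_one]; exact rp_le H.n1 (by norm_num)
  · show _ ≤ 2 * gE K p + 2 * dC K p ^ 2
    linarith [sq_nonneg (dC K p)]
  · show |ite _ _ _ + dC K p * min t (8 * K ^ 2)| ≤ dC K p * min t (8 * K ^ 2)
    rw [if_neg (not_le.2 ht), zero_add, abs_of_nonneg (mul_nonneg (by positivity)
      (le_min (hP.trans ht.le) (by positivity)))]
  · refine H.le_of_lg (H.rp0 _) (by positivity) ?_
    rw [logb_div l0.ne' (by norm_num), ll, H.lg_rp, H.hc]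
    linarith
  · linarith [show 0 < 1 / (p.n : ℝ) ^ 2 by positivity]
  · refine H.le_of_lg (x := p.μe * u0 p p.μe ^ 3) (mul_pos m0 (pow_pos N.u0p _)) (H.rp0 _) ?_
    rw [logb_mul m0.ne' (pow_pos N.u0p _).ne', logb_pow, lu, lμ, H.lg_rp]; push_cast; linarith
  · rw [one_pow, one_mul]
    exact le_add_of_le_of_nonneg (rp_le H.n1 (by linarith [H.hc])) (H.rp0 _).le

end SrP3

open SrP3 in
/-- **the output of SR along `C1`** -/
theorem srP1 {β : ℝ} (hβ : 1 < β) (hS : Sr.SrS2) : Loss β SrP1 := by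
  refine (((phi_le hβ hS V17.varS (pk β hβ) (tk β)).mono fun Λ p h => ?_).loss1
    (R := fun Λ p => 0 ≤ p.s ∧ SrP1 Λ p) fun x y p _ e h => ⟨h.1, fun P a t b m a' d =>
      (h.2 P a t b m a' d).trans (mul_le_mul_of_nonneg_right (mul_le_mul_of_nonneg_right e
        (pow_nonneg h.1 _)) (rpow_nonneg p.n.cast_nonneg _))⟩).mono fun _ _ _ h => h.2
  obtain ⟨K, -, R, ⟨t1, t2, t3, t4, t5, T⟩, h⟩ := h
  refine ⟨t3.le, fun P hP t ht m a hm => ?_⟩
  have M := R.2.2.2 t1 P hP t ht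
  rw [c1M_cM, mul_assoc]
  refine (h _ _ _ _ _ _ _ M (T P hP (M.cl.s_nn p.jf)) m a hm).trans ?_
  refine (mul_le_mul_of_nonneg_left (rp_le t2 (by linarith)) (by positivity)).trans
    (le_mul_of_one_le_left (mul_nonneg (by positivity) (rpow_nonneg p.n.cast_nonneg _)) t5)

end Crest.Agent.T156.Alt

end
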