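import Crest.Agent.T156.SprR_59
import Crest.Agent.T156.SrP1_3_Mg
import Crest.Agent.T156.SrP2_41
import Crest.Agent.T156.LDefX_64
import Crest.Agent.T156.R2H12_50_Mg
import Crest.Agent.T156.HomB_68
import Crest.Agent.T156.HbG5_95_Mg
import Crest.Agent.T156.HbA_91
import Crest.Agent.T156.HbG3_39
import Crest.Agent.T156.HbT_16
import Crest.Agent.T156.R2F_42
import Crest.Agent.T156.HbK_95
import Crest.Agent.T156.R2Lw_30_Mg
import Crest.Agent.T156.R2VG_23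
import Crest.Agent.T156.R2LvA_21
import Crest.Agent.T156.R2VD_23
import Crest.Agent.T156.R2K_30
import Crest.Agent.T156.CLfC_24
import Crest.Agent.T156.R2GD_78
import Crest.Agent.T156.R2Mv_55_Mg
import Crest.Agent.T156.Swm_78
import Crest.Agent.T156.EnD_91
import Crest.Agent.T156.GrReg_29
import Crest.Agent.T156.EnFe_13
import Crest.Agent.T156.SprLN_11
import Crest.Agent.T156.SrC_3
import Crest.Agent.T156.PlS_64

-- ▼ part T156/SprZ_59
section

/-!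
# Row 156 (helper59): stage C from the global energy bound and the output of SR
-/

set_option autoImplicit false

noncomputable section

namespace Crest.Agent.T156.Alt

theorem sprS_L {β : ℝ} (hβ : 1 < β) (hT : L69.TL1) (hS : Sr.SrS2) : Gain β (SprS (7 / 20)) :=
  sprS_red hβ (Cost41.c1S hβ (sprL1_of hβ hT (srP1 hβ hS))) (sprL2_of hβ hT (Sp41.srP2 hβ hS))

theorem sprS_x {β : ℝ} (hβ : 1 < β) (hT : L69.TL1x) (hS : Sr.SrS2) : Gain β (SprS (7 / 20)) :=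
  sprS_L hβ (L69.tl1_of_x hT) hS

end Crest.Agent.T156.Alt

end
end

-- ▼ part T156/R2H4b_26
section

/-!
# Row 156, R2 (helper26): the site input `H4`
-/

namespace Crest.Agent.T156.Cas.C40.E42

/-- **site input `H4`** -/
theorem h4 : H4 := h4_of h1

end Crest.Agent.T156.Cas.C40.E42
end

-- ▼ part T156/HbZ_68
section

/-!
# Row 156 (helper68): the Euler identities of the site words and `H5`, unconditional
-/

set_option autoImplicit false
set_option linter.all false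

namespace Crest.Agent.T156.Cas.Hb68

theorem w1 : W1 := w1_of pe ps

theorem w2 : W2 := w2_of (pl pe ps)

theorem h5 : C40.E42.H5 := g5 w2 ab

end Crest.Agent.T156.Cas.Hb68
end

-- ▼ part T156/HbH3_16
section

/-!
# Row 156 (helper16): `H3`, unconditional
-/

set_option autoImplicit false

namespace Crest.Agent.T156.Cas.Hb68

/-- **`H3`** -/
theorem h3 : C40.E42.H3 := g3 w1 ab yd at16

end Crest.Agent.T156.Cas.Hb68
end

-- ▼ part T156/R2G_42
section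

/-!
# Row 156, R2: the head (EE), unconditional (helper42)
-/

set_option autoImplicit false

namespace Crest.Agent.T156.Cas.C40.E42

/-- **(EE)** -/
theorem he : HE := he_of h0 h1 h2 Hb68.h3 h4 Hb68.h5 h6 h7

end Crest.Agent.T156.Cas.C40.E42
end

-- ▼ part T156/R2MY_90
section

/-!
# Row 156, R2 (helper90): the sloped leaves from SR and the location
-/

set_option autoImplicit false

noncomputable section

namespace Crest.Agent.T156.Alt.R2

open J90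

variable {β : ℝ}

theorem soE90 (hβ : 1 < β) (h : SrF β) : SoE β := soE_of hβ R62.S39.slM h

theorem lwIn_of (hβ : 1 < β) (h : SrF β) : LwIn β := by
  unfold LwIn EvA
  exact (lw_of hβ (soE90 hβ h)).mono fun _ _ g P m a _ ad => g P m a ad.sp ad.inn

theorem jS_end (hβ : 1 < β) (h : SrF β) (L : En91.LocS β) : JS β := jS_loc hβ (soE90 hβ h) L

theorem glS_end (hβ : 1 < β) (h : SrF β) (L : En91.LocS β) : GlS β := glS_of hβ (soE90 hβ h) L

theorem glE_end (hβ : 1 < β) (h : SrF β) (L : En91.LocS β) : GlE β :=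
  (gl_both hβ (soE90 hβ h) L).mono fun _ _ g P m a sp h => (g P m a sp h).2

end Crest.Agent.T156.Alt.R2

end
end

-- ▼ part T156/R2Lv_21
section

/-!
# Row 156, R2: the low variance of the END model (helper21)
-/

set_option autoImplicit false

noncomputable section

namespace Crest.Agent.T156.Alt.R2

open Real Finset
open Crest.Agent.T156.Cas Crest.Agent.T156.Cas.C40

variable {β c0 C0 c η K C : ℝ} {A : ℕ} {p : Pm} {P : Pl}

/-- the Riccati weight of the END model below `ye` -/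
theorem w3_end (H : Reg β c0 C0 A c η K p) {t : ℝ} (t0 : 0 < t) (ht : t ≤ p.ye) :
    (Se p C P).w3 t = 1 / (p.n * t * (p.κ * max p.r t ^ 2)) := by
  show 1 / (p.n * t * p.ms 1 p.ye t) = _
  rw [Pm.ms, one_mul, min_eq_left ht]

theorem lv_end (H : Reg β c0 C0 A c η K p) (hK : 2 * C ≤ K) (hη : 60 * η ≤ c) (e : En C p P)
    {m : ℕ} {a : ℝ} {E : CIn12.Ev} (x : Ad p P m a E)
    (cr : ∀ k, p.jf ≤ k → k ≤ p.Jp P →
      (Me p P).rb m a k ≤ (p.n : ℝ) ^ η * max ((Me p P).z k) (p.r / p.κ))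
    (L : (Se p C P).F ≤ (Se p C P).n → ∀ Λ₀ l, 0 < l → (Me p P).s (Se p C P).jl ≤ l →
      (Se p C P).w3 l ≤ l ^ 3 → Crude Λ₀ (Se p C P) (Me p P) m a l (Se p C P).jl →
      ∀ (b : ℕ) (ρ : ℕ → ℝ) (W : Option (ℕ → ℝ)) (E : CIn12.Ev) (τ0 U : ℝ),
        4 * (Se p C P).jl ≤ b → b < (Se p C P).J → (CIn12.cd (Me p P) m a ρ b W E).Ok τ0 → 0 ≤ U →
        (∀ t, 4 * (Se p C P).jl * (Se p C P).v ≤ t → t ≤ (Se p C P).C * (b * (Se p C P).v) →
          (Se p C P).w3 t * max t l ^ 3 ≤ U) →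
        (CIn12.cd (Me p P) m a ρ b W E).vL ≤ τ0 ^ 4 * (((p.n : ℝ) ^ η) ^ 5 * Λ₀ ^ 4 *
          (max ((Se p C P).jl * (Se p C P).v) l ^ 6 + U +
            b * (Se p C P).v / ((Se p C P).jl * (Se p C P).v) * U) + 192 * CIn12.tlD (Se p C P) 1)) :
    (D p P m a E).vL ≤ kk p ^ 5 * (p.s ^ 6 * (p.n : ℝ) ^ (-(59 : ℝ) / 60)) := by
  have C1 : 1 ≤ C := e.cl.C1
  have r0 := H.r0
  have k0 := H.κ0
  have k1 := H.κ1
  have N0 := H.N0
  have v0 := H.v0
  have s0 := H.s0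
  have j0 := H.jfv0
  have t0 := t10 H
  have b0 := H.β0
  have L0 := H.Λ0
  have cp := H.c_pos
  have cl := H.c_le
  have ηp := H.η_pos
  have ls := H.lg_s
  have lj := H.lg_jf
  have lr := H.lg_r
  have lk := H.lg_κ
  have ln := H.lg_n
  have lt := lg_t1 H
  have lL := H.lg_rp η
  have l2 := H.lg_num (x := 2) (by norm_num) (by norm_num)
  have l4 := H.lg_num (x := 4) (by norm_num) (by norm_num)
  have lC := H.lg_cst (x := 2 * C) (by linarith) (hK.trans H.K_le)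
  have j1 := jc_lt H
  have j2 := jf_lt H
  have jb := jc_bds H
  have jb2 : jc p * p.v ≤ 2 * t1 p := by linarith [H.v_le_r, r_le_t1 H]
  have rl : p.r ≤ p.r / p.κ := le_div_self r0.le k0 k1
  have jr : 2 * (p.jf * p.v) ≤ p.r := H.le_of_lg (by positivity) r0 (by
    rw [logb_mul (by norm_num) j0.ne']; linarith)
  have j4 : 4 * p.jf ≤ jc p := by
    have a1 : 4 * (p.jf * p.v) ≤ t1 p := H.le_of_lg (by positivity) t0 (by
      rw [logb_mul (by norm_num) j0.ne']; linarith)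
    exact_mod_cast le_of_mul_le_mul_right (show (4 * (p.jf : ℝ)) * p.v ≤ jc p * p.v by linarith) v0
  have ly : p.r / p.κ ≤ p.ye := H.le_of_lg (by positivity) H.ye0 (by
    lg_norm; linarith [H.lg_ye])
  have ty : 2 * C * t1 p ≤ p.ye := H.le_of_lg (by positivity) H.ye0 (by
    rw [logb_mul (by positivity) t0.ne']; linarith [H.lg_ye])
  obtain ⟨U, hU⟩ : ∃ U, U = p.r / (p.jf * p.v) / (p.n * p.κ ^ 4) := ⟨_, rfl⟩
  have U0 : 0 < U := by rw [hU]; positivity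
  have lU : logb p.n U ≤ c / 7 - c / 13 + 4 * c - 1 := by
    rw [hU, logb_div (by positivity) (by positivity), logb_div r0.ne' j0.ne']
    lg_norm
    linarith
  have key := L (show (1 : ℝ) ≤ p.n from H.N1.le) ((p.n : ℝ) ^ η) (p.r / p.κ) (by positivity)
    (show (Me p P).s p.jf ≤ _ by linarith [(e.s_lo H (k := p.jf) (by omega)).2])
    (by
      rw [w3_end H (by positivity) ly, max_eq_right rl]
      refine H.le_of_lg (by positivity) (by positivity) ?_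
      lg_norm
      linarith)
    ⟨H.Λ1, cr⟩ (jc p) _ none E _ U j4 (show jc p < p.J by omega) x.ok U0.le
    (fun t h1 h2 => by
      change 4 * (p.jf : ℝ) * p.v ≤ t at h1
      change t ≤ C * (jc p * p.v) at h2
      have t0 : 0 < t := by linarith
      have m0 : 0 < max p.r t := lt_max_of_lt_left r0
      have a1 : max t (p.r / p.κ) ≤ max p.r t / p.κ := max_le
        ((le_max_right _ _).trans (le_div_self m0.le k0 k1)) (by gcongr; exact le_max_left _ _)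
      have a2 : max p.r t / t ≤ p.r / (p.jf * p.v) := by
        rw [div_le_div_iff₀ t0 j0]
        rcases le_total p.r t with g | g
        · rw [max_eq_right g, mul_comm p.r]; gcongr; linarith
        · rw [max_eq_left g]; gcongr; linarith
      rw [w3_end H t0 (h2.trans (le_trans ?_ ty)), hU]
      · calc _ ≤ 1 / (p.n * t * (p.κ * max p.r t ^ 2)) * (max p.r t / p.κ) ^ 3 := by gcongr
          _ = max p.r t / t / (p.n * p.κ ^ 4) := by field_simp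
          _ ≤ _ := by gcongr
      · linarith [mul_le_mul_of_nonneg_left jb2 (zero_le_one.trans C1)])
  refine key.trans ?_
  change (p.β ^ 2) ^ 4 * (((p.n : ℝ) ^ η) ^ 5 * ((p.n : ℝ) ^ η) ^ 4 *
    (max (p.jf * p.v) (p.r / p.κ) ^ 6 + U + jc p * p.v / (p.jf * p.v) * U) +
      192 * ((p.n : ℝ) ^ (1 * (p.A + 1)))⁻¹) ≤ _
  rw [max_eq_right (by linarith)]
  obtain ⟨T, hT⟩ : ∃ T, T = kk p ^ 5 * (p.s ^ 6 * (p.n : ℝ) ^ (-(59 : ℝ) / 60)) := ⟨_, rfl⟩
  have kk0 := kk0 H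
  have n0 := H.rp0 (-(59 : ℝ) / 60)
  have T0 : 0 < T := by rw [hT]; positivity
  have lT : logb p.n T = 100 * c + 6 * logb p.n p.s - 59 / 60 := by
    rw [hT, logb_mul (by positivity) (by positivity), logb_mul (by positivity) n0.ne', logb_pow,
      logb_pow, lg_kk H, H.lg_rp]
    push_cast
    ring
  rw [← hT]
  have lb := H.lg_β
  generalize (p.n : ℝ) ^ η = Λ at *
  have d1 : 4 * ((p.β ^ 2) ^ 4 * (Λ ^ 5 * Λ ^ 4 * (p.r / p.κ) ^ 6)) ≤ T :=
    H.le_of_lg (by positivity) T0 (by lg_norm; linarith)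
  have d2 : 4 * ((p.β ^ 2) ^ 4 * (Λ ^ 5 * Λ ^ 4 * U)) ≤ T :=
    H.le_of_lg (by positivity) T0 (by lg_norm; linarith)
  have d3 : 4 * ((p.β ^ 2) ^ 4 * (Λ ^ 5 * Λ ^ 4 * (2 * t1 p / (p.jf * p.v) * U))) ≤ T := by
    generalize p.jf * p.v = j at *
    exact H.le_of_lg (by positivity) T0 (by lg_norm; linarith)
  have d4 : 768 * ((p.β ^ 2) ^ 4 * ((p.n : ℝ) ^ (1 * (p.A + 1)))⁻¹) ≤ T := by
    have l7 := H.lg_num (x := 768) (by norm_num) (by norm_num)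
    have : (2 : ℝ) ≤ p.A := by rw [H.hA]; exact_mod_cast H.A2
    refine H.le_of_lg (by positivity) T0 ?_
    lg_norm
    push_cast
    rw [ln]
    linarith
  have d5 : (p.β ^ 2) ^ 4 * (Λ ^ 5 * Λ ^ 4 * (jc p * p.v / (p.jf * p.v) * U)) ≤
      (p.β ^ 2) ^ 4 * (Λ ^ 5 * Λ ^ 4 * (2 * t1 p / (p.jf * p.v) * U)) := by gcongr
  linarith

/-- **the low variance** -/
theorem lvS_of {β : ℝ} (hβ : 1 < β) (h : CrE β) : LvS β := by
  unfold LvS EvA
  refine Sml.glueCL hβ (enS hβ) h Lv21.lvC (fun C => C) (fun _ => 1) (fun _ _ => one_pos)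
    fun C _ c0 C0 _ _ => ⟨0, fun A _ => ⟨1, one_pos, fun c _ hc => ⟨c / 60, by positivity,
      fun η hη _ => ⟨2 * C, fun p H G R L P m a E x => ?_⟩⟩⟩⟩
  have e := G H.r_le_ye P x.sp
  exact lv_end H le_rfl (by linarith) e x (R P m a x.sp x.inn)
    (L (Se p C P) (Me p P) rfl rfl rfl e.cl m a x.inn.sc)

end Crest.Agent.T156.Alt.R2

end
end

-- ▼ part T156/R2TpA_85
section

/-!
# Row 156, R2 (helper85): the top block on a spread plateau
-/

set_option autoImplicit false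
set_option linter.unusedSectionVars false

noncomputable section

namespace Crest.Agent.T156.Alt.Tp85

open Real Finset
open Crest.Agent.T156.Alt.Md67 Crest.Agent.T156.Alt.Cost41 Crest.Agent.T156.Alt.Lb24

theorem abel (ρ z : ℕ → ℝ) {j K : ℕ} (h : j ≤ K) :
    ∑ i ∈ Ioc j K, (ρ i - ρ (i - 1)) * (1 - z (i - 1)) =
      ∑ i ∈ Ioc j K, (z i - z (i - 1)) * (ρ i - ρ j) + (1 - z K) * (ρ K - ρ j) := by
  induction K, h using Nat.le_induction with
  | base => simp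
  | succ b hb ih => rw [sum_Ioc_succ_top hb, sum_Ioc_succ_top hb, ih, Nat.add_sub_cancel]; ring

theorem exists_D {Y : ℝ} (h : 1 ≤ Y) : ∃ D : ℕ, Y ≤ 2 ^ D ∧ (D : ℝ) ≤ 2 * log Y + 1 := by
  have l0 := log_nonneg h
  refine ⟨⌈2 * log Y⌉₊, ?_, (Nat.ceil_lt_add_one (by positivity)).le⟩
  rw [← log_le_log_iff (by positivity) (by positivity), log_pow]
  nlinarith [Nat.le_ceil (2 * log Y), log_two_gt_d9]

/-- the data -/
structure TI (S : Sc) (M : Md) (m : ℕ) (a : ℝ) (j0 n1 n2 D : ℕ) (σ x μ lm p γ u : ℝ) : Prop where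
  cl : Cl S M
  lg : Lg M m a
  v0 : 0 < S.v
  jl : S.jl ≤ j0
  jn : j0 + n1 + n2 ≤ S.J
  n2a : 2 ≤ n2
  n2b : n2 ≤ n1
  n1a : S.C * (n1 * S.v) ≤ 1
  σ0 : 0 < σ
  σ1 : σ ≤ x * (S.ms (M.s j0) * S.v / (S.C * S.F))
  x0 : 0 < x
  x1 : x ≤ M.z j0
  μ0 : 0 < μ
  μ1 : μ ≤ M.z (S.J - 2) - M.z j0
  lm1 : S.C * lm ≤ 1
  lm2 : 2 * S.C * S.v ≤ lm
  den : ∀ k, S.J ≤ k → k < S.Jp → u ≤ 1 - M.z (k - 1) →
    lm ≤ S.den (M.z (k - 1)) * (1 - M.z (k - 1))
  ue : S.ue ≤ u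
  p0 : 0 < p
  loc : S.C * ∑ k ∈ Ioc j0 S.Jp, M.dz m a k * M.del m a k ^ 2 ≤ p ^ 2 * (n2 * S.v)
  γ1 : M.s S.Jp - M.s S.J ≤ γ
  hD : M.H M.N ≤ 2 ^ D * σ

/-- the rises against the majorant -/
def RR (S : Sc) (n1 n2 : ℕ) (σ lm p γ : ℝ) : ℝ :=
  (1 / n1 + (2 * p + γ + 2 * S.C * (n1 * S.v)) / n2 +
    2 * S.C * S.v / lm * (2 * p + γ + 2 * S.C * (n2 * S.v))) / σ

namespace TI

variable {S : Sc} {M : Md} {m : ℕ} {a : ℝ} {j0 n1 n2 D : ℕ} {σ x μ lm p γ u : ℝ}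
  (H : TI S M m a j0 n1 n2 D σ x μ lm p γ u)
include H

theorem C0 : 0 < S.C := by linarith [H.cl.C1]

theorem lm0 : 0 < lm := lt_of_lt_of_le (by have := H.C0; have := H.v0; positivity) H.lm2

theorem hΦ {i : ℕ} (h1 : j0 ≤ i) (h2 : i < S.Jp) : σ ≤ M.z i * (M.H (i + 1) - M.H i) := by
  have C0 := H.C0
  have v0 := H.v0
  have F0 : 0 < S.F := by linarith [H.cl.F1]
  have a1 := H.σ0.trans_le H.σ1
  refine H.σ1.trans (mul_le_mul (H.x1.trans (H.lg.zm h1)) (le_trans ?_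
    (H.cl.flr i (H.jl.trans h1) h2)) (pos_of_mul_pos_left' a1 H.x0).le (H.lg.z_nonneg i))
  have := H.cl.msm (H.cl.sm h1)
  gcongr
where pos_of_mul_pos_left' {a b : ℝ} (h : 0 < a * b) (ha : 0 < a) : 0 < b :=
  (mul_pos_iff_of_pos_left ha).1 h

theorem dz_sl {k : ℕ} (h1 : j0 < k) (h2 : k < S.J) :
    S.v / S.C ≤ M.dz m a k ∧ M.dz m a k ≤ S.C * S.v := by
  have := H.cl.zs (k - 1) (by have := H.jl; have := H.cl.i1; omega) (by omega)
  rwa [Nat.sub_add_cancel (by omega), ← dz_up (m := m) (a := a) H.lg.toLeg (by omega)] at this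

theorem dz_pl {k : ℕ} (h1 : S.J ≤ k) (h2 : k < S.Jp) (h3 : u ≤ 1 - M.z (k - 1)) :
    M.dz m a k ≤ S.C * S.v / lm * (1 - M.z (k - 1)) := by
  have a1 := (H.cl.plat k h1 h2).2
  rw [← dz_up (m := m) (a := a) H.lg.toLeg (by have := H.cl.i2; omega)] at a1
  have a2 := mul_le_mul_of_nonneg_left (H.den k h1 h2 h3) (H.lg.dz_nonneg k)
  have a3 := mul_le_mul_of_nonneg_right a1 (sub_nonneg.2 (H.lg.z1 (k - 1)))
  rw [div_mul_eq_mul_div, le_div_iff₀ H.lm0]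
  linarith

theorem part {T : Finset ℕ} (h : T ⊆ Ioc j0 S.Jp) :
    S.C * ∑ k ∈ T, M.dz m a k * M.del m a k ^ 2 ≤ p ^ 2 * (n2 * S.v) :=
  (mul_le_mul_of_nonneg_left (sum_le_sum_of_subset_of_nonneg h fun k _ _ =>
    mul_nonneg (H.lg.dz_nonneg k) (sq_nonneg _)) H.C0.le).trans H.loc

theorem n2v : (n2 : ℝ) * S.v ≤ 1 := by
  have : (n2 : ℝ) ≤ n1 := by exact_mod_cast H.n2b
  have v0 := H.v0
  have : (n2 : ℝ) * S.v ≤ n1 * S.v := by gcongr
  have := mul_le_mul_of_nonneg_right H.cl.C1 (show 0 ≤ (n1 : ℝ) * S.v by positivity)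
  linarith [H.n1a]

/-- upper location below the corner -/
theorem rb_hi {j : ℕ} (hj : j ≤ S.J) : M.rb m a j ≤ M.q S.Jp + p := by
  have i2 := H.cl.i2
  have i3 := H.cl.i3
  have jn := H.jn
  have n2 := H.n2a
  refine le_of_not_gt fun h => ?_
  have a1 : ∑ k ∈ Ioc (S.J - 1) S.Jp, M.dz m a k * (M.rb m a j - M.q S.Jp) ^ 2 ≤
      ∑ k ∈ Ioc (S.J - 1) S.Jp, M.dz m a k * M.del m a k ^ 2 := sum_le_sum fun k hk => by
    obtain ⟨k1, k2⟩ := mem_Ioc.1 hk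
    refine mul_le_mul_of_nonneg_left (pow_le_pow_left₀ (by linarith [H.p0]) ?_ 2) (H.lg.dz_nonneg k)
    exact sub_le_sub (rb_mono H.lg.m0 (by omega)) (q_mono H.cl k2 H.cl.i4.le)
  rw [← sum_mul, sum_dz H.lg.toLeg (by omega), H.cl.top _ le_rfl] at a1
  have a2 := (mul_le_mul_of_nonneg_left a1 H.C0.le).trans (H.part (Ioc_subset_Ioc_left (by omega)))
  have a3 : 1 ≤ S.C * (1 - M.z (S.J - 1)) := by
    rw [← div_le_iff₀' H.C0]; linarith [H.cl.atom.2]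
  have a4 : p ^ 2 < (M.rb m a j - M.q S.Jp) ^ 2 := pow_lt_pow_left₀ (by linarith) H.p0.le two_ne_zero
  have a5 := mul_le_mul_of_nonneg_right a3 (sq_nonneg (M.rb m a j - M.q S.Jp))
  have a6 := mul_le_of_le_one_right (sq_nonneg p) H.n2v
  linarith

/-- lower location at the distance `n` from the corner -/
theorem rb_lo {n : ℕ} (h0 : n2 ≤ n) (h1 : n ≤ n1) :
    M.q S.Jp - (γ + 2 * S.C * (n * S.v)) - p ≤ M.rb m a (S.J - n) := by
  have i3 := H.cl.i3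
  have i4 := H.cl.i4
  have jn := H.jn
  have n2' := H.n2a
  have C0 := H.C0
  have v0 := H.v0
  have b1 : M.q (S.J - n - n2) - p ≤ M.rb m a (S.J - n) := by
    refine le_of_not_gt fun h => ?_
    have a1 : ∑ k ∈ Ioc (S.J - n - n2) (S.J - n), S.v / S.C *
        (M.q (S.J - n - n2) - M.rb m a (S.J - n)) ^ 2 ≤
        ∑ k ∈ Ioc (S.J - n - n2) (S.J - n), M.dz m a k * M.del m a k ^ 2 := sum_le_sum fun k hk => by
      obtain ⟨k1, k2⟩ := mem_Ioc.1 hk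
      refine mul_le_mul (H.dz_sl (by omega) (by omega)).1 ?_ (sq_nonneg _) (H.lg.dz_nonneg k)
      rw [← neg_sq (M.del m a k), Md.del, neg_sub]
      exact pow_le_pow_left₀ (by linarith [H.p0])
        (sub_le_sub (q_mono H.cl k1.le (by omega)) (rb_mono H.lg.m0 k2)) 2
    rw [sum_const, Nat.card_Ioc, show S.J - n - (S.J - n - n2) = n2 by omega, nsmul_eq_mul] at a1
    have a2 := (mul_le_mul_of_nonneg_left a1 C0.le).trans
      (H.part (Ioc_subset_Ioc (by omega) (by omega)))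
    have a4 : p ^ 2 < (M.q (S.J - n - n2) - M.rb m a (S.J - n)) ^ 2 :=
      pow_lt_pow_left₀ (by linarith) H.p0.le two_ne_zero
    have n0 : (0 : ℝ) < n2 := by exact_mod_cast (by omega : 0 < n2)
    have a5 := mul_lt_mul_of_pos_right a4 (mul_pos n0 v0)
    rw [show S.C * (n2 * (S.v / S.C * (M.q (S.J - n - n2) - M.rb m a (S.J - n)) ^ 2)) =
      (M.q (S.J - n - n2) - M.rb m a (S.J - n)) ^ 2 * (n2 * S.v) by field_simp] at a2
    linarith
  have b2 := q_lip H.cl (show S.J - n - n2 ≤ S.Jp by omega) i4.le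
  have b3 := tel_ge (f := fun k => -M.s k) (c := -(S.C * S.v)) (show S.J - n - n2 ≤ S.J by omega)
    fun k _ hk => by linarith [(H.cl.ss k hk).2]
  rw [← Nat.cast_sub (by omega), show S.J - (S.J - n - n2) = n + n2 by omega] at b3
  push_cast at b3
  have b4 : (n2 : ℝ) ≤ n := by exact_mod_cast h0
  have b5 := mul_le_mul_of_nonneg_right b4 (mul_pos C0 v0).le
  linarith [H.γ1]

theorem γ0 : 0 ≤ γ := (sub_nonneg.2 (H.cl.sm H.cl.i3)).trans H.γ1

/-- the rise against the weight above -/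
theorem rise : ∑ i ∈ Ioc (S.J - n2) S.Jp, (M.rb m a i - M.rb m a (i - 1)) * (1 - M.z (i - 1)) ≤
    2 * p + γ + 2 * S.C * (n2 * S.v) := by
  have i3 := H.cl.i3
  have jn := H.jn
  have n2' := H.n2b
  have n2a := H.n2a
  have p0 := H.p0
  have C0 := H.C0
  have v0 := H.v0
  have γ0 := H.γ0
  rw [abel _ _ (by omega), H.cl.top _ le_rfl, sub_self, zero_mul, add_zero]
  have a1 := H.rb_lo le_rfl n2'
  refine (sum_le_sum (g := fun k => M.dz m a k * (p / 2 + (p + γ + 2 * S.C * (n2 * S.v))) +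
    1 / (2 * p) * (M.dz m a k * M.del m a k ^ 2)) fun k hk => ?_).trans ?_
  · obtain ⟨k1, k2⟩ := mem_Ioc.1 hk
    rw [← dz_up (m := m) (a := a) H.lg.toLeg (by omega), mul_left_comm (1 / (2 * p)), ← mul_add]
    refine mul_le_mul_of_nonneg_left ?_ (H.lg.dz_nonneg k)
    have b1 := q_mono H.cl k2 H.cl.i4.le
    have b2 : M.del m a k ≤ p / 2 + 1 / (2 * p) * M.del m a k ^ 2 := by
      have : p / 2 + 1 / (2 * p) * M.del m a k ^ 2 - M.del m a k =
        1 / (2 * p) * (M.del m a k - p) ^ 2 := by field_simp; ring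
      have : 0 ≤ 1 / (2 * p) * (M.del m a k - p) ^ 2 := by positivity
      linarith
    rw [Md.del] at b2 ⊢
    linarith
  · rw [sum_add_distrib, ← sum_mul, ← mul_sum]
    have b1 := mul_le_of_le_one_left (show 0 ≤ p / 2 + (p + γ + 2 * S.C * (n2 * S.v)) by positivity)
      ((H.lg.sum_dz_le (Ioc (S.J - n2) S.Jp)).trans (sub_le_self 1 H.lg.a0))
    have b2 := H.part (T := Ioc (S.J - n2) S.Jp) (Ioc_subset_Ioc_left (by omega))
    have b3 := mul_le_of_le_one_right (sq_nonneg p) H.n2v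
    have b4 := mul_le_mul_of_nonneg_right H.cl.C1 (sum_nonneg (s := Ioc (S.J - n2) S.Jp)
      fun k _ => mul_nonneg (H.lg.dz_nonneg k) (sq_nonneg (M.del m a k)))
    have b5 := mul_le_mul_of_nonneg_left (show ∑ k ∈ Ioc (S.J - n2) S.Jp,
      M.dz m a k * M.del m a k ^ 2 ≤ p ^ 2 by linarith) (show 0 ≤ 1 / (2 * p) by positivity)
    rw [show 1 / (2 * p) * p ^ 2 = p / 2 by field_simp] at b5
    linarith

/-- **the top block** -/
theorem top : ∃ N, Top M m a (S.J - 1) N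
    (1 / (x * (n1 * σ * m)) + (2 + 1 / μ) *
      (bb D m (RR S n1 n2 σ lm p γ) (S.C * S.v / lm) x / x)) u := by
  classical
  have i3 := H.cl.i3
  have i4 := H.cl.i4
  have jn := H.jn
  have n2b := H.n2b
  have n2a := H.n2a
  have C0 := H.C0
  have v0 := H.v0
  have σ0 := H.σ0
  have l0 := H.lm0
  have p0 := H.p0
  have γ0 := H.γ0
  have G := H.lg
  have ex : ∃ N, S.J - 1 ≤ N ∧ 1 - M.z N ≤ u := ⟨S.Jp - 1, by omega, H.cl.last.trans H.ue⟩
  obtain ⟨N, ⟨N1, N2⟩, N3, N4⟩ : ∃ N, (S.J - 1 ≤ N ∧ 1 - M.z N ≤ u) ∧ N ≤ S.Jp - 1 ∧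
      ∀ k < N, ¬(S.J - 1 ≤ k ∧ 1 - M.z k ≤ u) := ⟨Nat.find ex, Nat.find_spec ex,
    Nat.find_min' ex ⟨by omega, H.cl.last.trans H.ue⟩, fun k hk => Nat.find_min ex hk⟩
  have pl : ∀ k, S.J ≤ k → k ≤ N → M.dz m a k ≤ S.C * S.v / lm * (1 - M.z (k - 1)) :=
    fun k h1 h2 => H.dz_pl h1 (by omega)
      (le_of_not_ge fun h => N4 (k - 1) (by omega) ⟨by omega, h⟩)
  have Φ1 : ∀ i, j0 ≤ i → i ≤ N → σ ≤ M.z i * (M.H (i + 1) - M.H i) := fun i h1 h2 =>
    H.hΦ h1 (by omega)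
  have n10 : (0 : ℝ) < n1 := by exact_mod_cast (by omega : 0 < n1)
  have n20 : (0 : ℝ) < n2 := by exact_mod_cast (by omega : 0 < n2)
  have n21 : (n2 : ℝ) ≤ n1 := by exact_mod_cast n2b
  obtain ⟨c, hc⟩ : ∃ c, c = S.C * S.v / lm := ⟨_, rfl⟩
  have c0 : 0 < c := by rw [hc]; positivity
  have c1 : S.C * (S.C * S.v) ≤ c := by
    rw [hc, le_div_iff₀ l0]
    nlinarith [mul_le_mul_of_nonneg_left H.lm1 (mul_pos C0 v0).le]
  have c2 : 2 * c ≤ 1 := by rw [hc, ← mul_div_assoc, div_le_one l0]; linarith [H.lm2]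
  have c3 : S.C * S.v ≤ c := le_trans (le_mul_of_one_le_left (by positivity) H.cl.C1) c1
  have w1 : S.C * S.v ≤ 1 / n1 := by rw [le_div_iff₀ n10]; linarith [H.n1a]
  have w2 : 1 / (n1 : ℝ) ≤ 1 / n2 := one_div_le_one_div_of_le n20 n21
  have z1 : ∀ k, 0 ≤ 1 - M.z k := fun k => sub_nonneg.2 (G.z1 k)
  -- one node against the weight above
  have nd : ∀ j k, j0 < k → k ≤ N → j ≤ k → M.dz m a k ≤ c * (1 - M.z (j - 1)) := fun j k a b e => by
    rcases lt_or_ge k S.J with h | h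
    · have a3 : 1 ≤ S.C * (1 - M.z (j - 1)) := by
        rw [← div_le_iff₀' C0]; linarith [H.cl.atom.2, G.zm (show j - 1 ≤ S.J - 1 by omega)]
      have := mul_le_mul_of_nonneg_right a3 (mul_pos C0 v0).le
      have := mul_le_mul_of_nonneg_right c1 (z1 (j - 1))
      linarith [(H.dz_sl a h).2]
    · exact (hc ▸ pl k h b).trans (mul_le_mul_of_nonneg_left
        (by linarith [G.zm (show j - 1 ≤ k - 1 by omega)]) c0.le)
  obtain ⟨w, hw⟩ : ∃ w : ℕ → ℝ, w = fun j => if j ≤ S.J - n1 then 1 / (n1 : ℝ) else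
    if j ≤ S.J - n2 then 1 / (n2 : ℝ) else 2 * c * (1 - M.z (j - 1)) := ⟨_, rfl⟩
  have w0 : ∀ j, 0 ≤ w j := fun j => by
    have := z1 (j - 1)
    rw [hw]; dsimp only; split_ifs <;> positivity
  have wa : ∀ j ≤ S.J - n2, S.C * S.v ≤ w j ∧ 1 ≤ w j * ((S.J : ℝ) - j) := fun j hj => by
    rw [hw]; dsimp only
    split_ifs with h
    · have : (n1 : ℝ) + j ≤ S.J := by exact_mod_cast (by omega : n1 + j ≤ S.J)
      exact ⟨w1, by rw [one_div, inv_mul_eq_div, one_le_div n10]; linarith⟩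
    · have : (n2 : ℝ) + j ≤ S.J := by exact_mod_cast (by omega : n2 + j ≤ S.J)
      exact ⟨w1.trans w2, by rw [one_div, inv_mul_eq_div, one_le_div n20]; linarith⟩
  have wb : ∀ j, S.J - n2 < j → w j = 2 * c * (1 - M.z (j - 1)) := fun j hj => by
    rw [hw]; dsimp only; rw [if_neg (by omega), if_neg (by omega)]
  have fin : ∀ {y t F : ℝ} {j : ℕ}, y ≤ w j * t → t * σ ≤ F → y ≤ w j / σ * F := fun {y t F j} a b =>
    a.trans (le_trans (le_of_eq (by field_simp))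
      (mul_le_mul_of_nonneg_left b (div_nonneg (w0 j) σ0.le)))
  have J : Mj M m a (M.dz m a) (fun j => w j / σ) σ c x (RR S n1 n2 σ lm p γ) j0 N D := by
    refine ⟨σ0, by omega, by omega, Φ1, (Phi_le G (by omega) (by omega)).trans H.hD,
      fun k _ _ => G.dz_nonneg k, c0.le, fun k a b => (nd k k a b le_rfl).trans
        (mul_le_of_le_one_right c0.le (sub_le_self _ (G.z_nonneg _))),
      fun j _ _ => div_nonneg (w0 j) σ0.le, fun j k h1 h2 h3 => ?_, fun k h1 h2 => ?_, H.x0, H.x1, ?_⟩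
    · refine fin (t := (k : ℝ) - j) ?_ (Phi_ge h2.le fun i a b => Φ1 i (h1.trans a) (by omega))
      have cd : ∀ y, (∀ i ∈ Ioc j k, M.dz m a i ≤ y) → ∑ i ∈ Ioc j k, M.dz m a i ≤
          y * ((k : ℝ) - j) := fun y hy => by
        have := sum_le_card_nsmul _ _ y hy
        rwa [Nat.card_Ioc, nsmul_eq_mul, Nat.cast_sub h2.le, mul_comm] at this
      rcases le_or_gt j (S.J - n2) with h | h
      · rcases lt_or_ge k S.J with e | e
        · exact cd _ fun i hi => (H.dz_sl (h1.trans_lt (mem_Ioc.1 hi).1)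
            ((mem_Ioc.1 hi).2.trans_lt e)).2.trans (wa j h).1
        · have : (S.J : ℝ) ≤ k := by exact_mod_cast e
          exact ((G.sum_dz_le _).trans (sub_le_self 1 G.a0)).trans ((wa j h).2.trans
            (mul_le_mul_of_nonneg_left (by linarith) (w0 j)))
      · refine cd _ fun i hi => (nd j i (h1.trans_lt (mem_Ioc.1 hi).1) ((mem_Ioc.1 hi).2.trans h3)
          (mem_Ioc.1 hi).1.le).trans ?_
        rw [wb j h]
        linarith [mul_nonneg c0.le (z1 (j - 1))]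
    · refine fin (t := 1) ?_ ((one_mul σ).trans_le (Φ1 k h1.le h2))
      rw [mul_one]
      rcases le_or_gt (k + 1) (S.J - n2) with h | h
      · exact (H.dz_sl h1 (by omega)).2.trans (wa _ h).1
      · have a1 := nd k k h1 h2 le_rfl
        have a2 := dz_up (m := m) (a := a) G.toLeg (show 0 < k by omega)
        have a3 := mul_le_mul_of_nonneg_right c2 (G.dz_nonneg k)
        rw [wb _ h, Nat.add_sub_cancel]
        nlinarith
    · have r0 : ∀ j, 0 ≤ M.rb m a j - M.rb m a (j - 1) := fun j =>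
        sub_nonneg.2 (rb_mono G.m0 (Nat.sub_le _ _))
      rw [RW_split _ _ (j1 := S.J - n2) (by omega) (by omega),
        RW_split _ _ (j1 := S.J - n1) (by omega) (by omega), RW,
        sum_congr rfl (g := fun j => (M.rb m a j - M.rb m a (j - 1)) * (1 / n1 / σ)) fun j hj => by
          rw [hw]; dsimp only; rw [if_pos (mem_Ioc.1 hj).2],
        sum_congr (s₁ := Ioc (S.J - n1) (S.J - n2)) rfl
          (g := fun j => (M.rb m a j - M.rb m a (j - 1)) * (1 / n2 / σ)) fun j hj => by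
          rw [hw]; dsimp only; rw [if_neg (mem_Ioc.1 hj).1.not_ge, if_pos (mem_Ioc.1 hj).2],
        sum_congr (s₁ := Ioc (S.J - n2) (N + 1)) rfl (g := fun j => 2 * c / σ *
          ((M.rb m a j - M.rb m a (j - 1)) * (1 - M.z (j - 1)))) fun j hj => by
          rw [wb j (mem_Ioc.1 hj).1]; ring,
        ← sum_mul, ← sum_mul, ← mul_sum, tele _ (by omega), tele _ (by omega),
        show w j0 = 1 / n1 by rw [hw]; exact if_pos (by omega)]
      have a1 := mul_le_mul_of_nonneg_left ((sum_le_sum_of_subset_of_nonneg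
        (Ioc_subset_Ioc_right (show N + 1 ≤ S.Jp by omega)) fun j _ _ =>
          mul_nonneg (r0 j) (z1 _)).trans H.rise) (show 0 ≤ 2 * c / σ by positivity)
      have a2 := mul_le_mul_of_nonneg_right (rb_le_one (M := M) (a := a) G.m0 (S.J - n1))
        (show 0 ≤ 1 / n1 / σ by positivity)
      have a3 := mul_le_mul_of_nonneg_right (show M.rb m a (S.J - n2) - M.rb m a (S.J - n1) ≤
        2 * p + γ + 2 * S.C * (n1 * S.v) by
          linarith [H.rb_hi (Nat.sub_le S.J n2), H.rb_lo n2b le_rfl])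
        (show 0 ≤ 1 / n2 / σ by positivity)
      refine le_trans (by linarith) ((add_le_add (add_le_add a2 a3) a1).trans_eq ?_)
      rw [RR, hc]; ring
  refine ⟨N, (J.top G (b := S.J - 1) (by omega) (by omega) H.μ0 H.μ1 (s := n1 * σ) (by positivity)
    (le_trans (mul_le_mul_of_nonneg_right ?_ σ0.le) (Phi_ge (by omega) fun i a b =>
      Φ1 i (by omega) (by omega)))).mono (hc ▸ le_rfl) N2⟩
  rw [← Nat.cast_sub (by omega)]
  exact_mod_cast (by omega)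

end TI

end Crest.Agent.T156.Alt.Tp85

end
end

-- ▼ part T156/R2Tp_85
section

/-!
# Row 156, R2 (helper85): the Riccati sums of the top block of the END model
-/

set_option autoImplicit false
set_option linter.unusedSectionVars false

noncomputable section

namespace Crest.Agent.T156.Alt.R2

open Real Finset
open Crest.Agent.T156.Alt.Md67 Crest.Agent.T156.Alt.Cost41 Crest.Agent.T156.Alt.Lb24
open Crest.Agent.T156.Alt.Tp85

/-- the field `top` of `En91.LocE` -/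
def LocT (β : ℝ) : Prop := Sml β fun _ p => ∀ P m a, p.SpOk (7 / 20) P → In p m a →
  ∑ k ∈ (Ioc p.jf (p.Jp P)).filter fun k => p.ye ≤ (Me p P).s k,
    ((Me p P).z k - (Me p P).z (k - 1)) * (Me p P).del m a k ^ 2 ≤
      p.s ^ 4 * (p.n : ℝ) ^ (22 * p.c - 13 / 20)

namespace Tp85

theorem ceil_bds {w v : ℝ} (v0 : 0 < v) (h : v ≤ w) : w ≤ ⌈w / v⌉₊ * v ∧ ⌈w / v⌉₊ * v ≤ 2 * w := by
  have h1 := Nat.le_ceil (w / v)
  have h2 := (Nat.ceil_lt_add_one (div_pos (v0.trans_le h) v0).le).le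
  rw [div_le_iff₀ v0] at h1
  rw [div_add_one v0.ne', le_div_iff₀ v0] at h2
  exact ⟨h1, by linarith⟩

/-- the final bound from monomial lines -/
theorem fin {S : Sc} {D m n1 n2 : ℕ} {x θ lm p γ w1 w2 Y1 Y2 Z L n T : ℝ} (C0 : 0 < S.C)
    (v0 : 0 < S.v) (x0 : 0 < x) (x1 : x ≤ 1) (θ0 : 0 < θ) (l0 : 0 < lm) (n0 : 0 < n) (hm : n ≤ m)
    (p0 : 0 < p) (γ0 : 0 < γ) (a0 : 0 < w1) (b0 : 0 < w2) (a1 : w1 ≤ n1 * S.v)
    (a2 : n1 * S.v ≤ 2 * w1) (b1 : w2 ≤ n2 * S.v) (b2 : n2 * S.v ≤ 2 * w2) (y1 : p ≤ Y2)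
    (y2 : γ ≤ Y2) (y3 : S.C * w2 ≤ Y2) (y4 : Y2 ≤ Y1) (y5 : S.C * w1 ≤ Y1) (z1 : 1 / w1 ≤ Z)
    (z2 : 7 * Y1 / w2 ≤ Z) (z3 : 14 * S.C * Y2 / lm ≤ Z) (hL : (D : ℝ) + 2 ≤ L)
    (t1 : 3 * (S.C / (x ^ 2 * w1 * θ * n)) ≤ T) (t2 : 54 * (L ^ 2 * Z * S.C / (x ^ 3 * θ * n)) ≤ T)
    (t3 : 9 * (L * S.C * S.v / (lm * x ^ 3)) ≤ T) :
    1 / (x * (n1 * (x * (θ * S.v / (S.C * 1))) * m)) + (2 + 1 / x) *
      (bb D m (RR S n1 n2 (x * (θ * S.v / (S.C * 1))) lm p γ) (S.C * S.v / lm) x / x) ≤ T := by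
  have m0 : (0 : ℝ) < m := n0.trans_le hm
  have n10 : (0 : ℝ) < n1 := (mul_pos_iff_of_pos_right v0).1 (a0.trans_le a1)
  have n20 : (0 : ℝ) < n2 := (mul_pos_iff_of_pos_right v0).1 (b0.trans_le b1)
  have Z0 : 0 < Z := lt_of_lt_of_le (by positivity) z1
  have D0 : (0 : ℝ) ≤ D := Nat.cast_nonneg D
  have L0 : 0 < L := by linarith
  have e1 : 1 / (x * (n1 * (x * (θ * S.v / (S.C * 1))) * m)) ≤ S.C / (x ^ 2 * w1 * θ * n) :=
    calc _ = S.C / (x ^ 2 * (n1 * S.v) * θ * m) := by field_simp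
      _ ≤ _ := by gcongr
  have r1 : 1 / (n1 : ℝ) ≤ S.v * Z :=
    calc _ = S.v * (1 / (n1 * S.v)) := by field_simp
      _ ≤ S.v * (1 / w1) := by gcongr
      _ ≤ _ := by gcongr
  have r2 : (2 * p + γ + 2 * S.C * (n1 * S.v)) / n2 ≤ S.v * Z :=
    calc _ = S.v * ((2 * p + γ + 2 * S.C * (n1 * S.v)) / (n2 * S.v)) := by field_simp
      _ ≤ S.v * (7 * Y1 / w2) := by
        gcongr
        · linarith
        · linarith [mul_le_mul_of_nonneg_left a2 C0.le]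
      _ ≤ _ := by gcongr
  have r3 : 2 * S.C * S.v / lm * (2 * p + γ + 2 * S.C * (n2 * S.v)) ≤ S.v * Z :=
    calc _ ≤ 2 * S.C * S.v / lm * (7 * Y2) := by
          gcongr
          linarith [mul_le_mul_of_nonneg_left b2 C0.le]
      _ = S.v * (14 * S.C * Y2 / lm) := by ring
      _ ≤ _ := by gcongr
  have r4 : RR S n1 n2 (x * (θ * S.v / (S.C * 1))) lm p γ ≤ 3 * Z * S.C / (x * θ) :=
    calc _ ≤ 3 * (S.v * Z) / (x * (θ * S.v / (S.C * 1))) :=
          div_le_div_of_nonneg_right (by linarith) (by positivity)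
      _ = _ := by field_simp
  have r0 : 0 ≤ RR S n1 n2 (x * (θ * S.v / (S.C * 1))) lm p γ := by unfold RR; positivity
  have e2 : (2 + 1 / x) * (bb D m (RR S n1 n2 (x * (θ * S.v / (S.C * 1))) lm p γ)
      (S.C * S.v / lm) x / x) ≤
      18 * (L ^ 2 * Z * S.C / (x ^ 3 * θ * n)) + 3 * (L * S.C * S.v / (lm * x ^ 3)) :=
    calc _ ≤ (3 / x) * (L * (2 / n * (L * (3 * Z * S.C / (x * θ))) + S.C * S.v / lm / x) / x) := by
          unfold bb
          gcongr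
          · have : 1 ≤ 1 / x := one_le_one_div x0 x1
            rw [show 3 / x = 3 * (1 / x) by ring]
            linarith
          · linarith
      _ = _ := by field_simp; ring
  linarith

end Tp85

/-- **the top block of the END model** -/
theorem tpS_of {β : ℝ} (hβ : 1 < β) (h : LocT β) : TpS β := by
  refine Sml.glueC hβ (enS hβ) h fun C hC c0 C0 _ _ => ⟨4, fun A hA => ⟨1 / 1000, by norm_num,
    fun c hc c0' => ⟨c, c0', fun η hη η0 => ⟨C, fun p H hE hP P m a sp hi => ?_⟩⟩⟩⟩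
  have e := hE H.r_le_ye P sp
  have loc := hP P m a sp hi
  have G := e.lg H hi
  have N0 := H.N0
  have v0 := H.v0
  have s0 := H.s0
  have k0 := H.κ0
  have y0 := H.ye0
  have K0 := kk0 H
  have L0 := p.lL_pos
  have c00 := H.c00
  have C0' : 0 < C := by linarith
  have A4 : (4 : ℝ) ≤ A := by exact_mod_cast hA
  have ln := H.lg_n
  have lC := H.lg_cst hC H.K_le
  have lv := H.lg_v_le
  have lv' : -(A : ℝ) ≤ logb p.n p.v := by linarith [H.lg_v, H.lg_β.1]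
  have ls := H.lg_s
  have lk := H.lg_κ
  have ly := H.lg_ye
  have lK := lg_kk H
  have lc : -η ≤ logb p.n c0 := by
    have b := H.lg_le (by positivity) H.c0_le
    rw [one_div, logb_inv] at b; linarith
  have lL : logb p.n p.lL ≤ 2 * η := by
    have := H.lg_mono L0 (p.lL_le (by linarith [H.N3]))
    have l1 := H.log1
    rw [logb_mul (by norm_num) (by positivity)] at this
    linarith [H.lg_log.2, (H.lg_num (x := 18) (by norm_num) (by norm_num)).2]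
  have nm : ∀ x : ℝ, 1 ≤ x → x ≤ 1000 → 0 ≤ logb p.n x ∧ logb p.n x ≤ η := fun x => H.lg_num
  have n2 := nm 2 (by norm_num) (by norm_num)
  have n3 := nm 3 (by norm_num) (by norm_num)
  have n4 := nm 4 (by norm_num) (by norm_num)
  have n7 := nm 7 (by norm_num) (by norm_num)
  have n8 := nm 8 (by norm_num) (by norm_num)
  have n9 := nm 9 (by norm_num) (by norm_num)
  have n14 := nm 14 (by norm_num) (by norm_num)
  have n54 := nm 54 (by norm_num) (by norm_num)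
  have j1 := jc_lt H
  have j2 := jf_lt H
  have i3 : p.J ≤ p.Jp P := e.cl.i3
  have Jv := H.ok.base.lo
  -- monomials
  have mo : ∀ {x y : ℝ}, 0 < x → 0 < y → logb p.n x ≤ logb p.n y → x ≤ y := H.le_of_lg
  obtain ⟨w1, hw1, a0⟩ : ∃ w, logb p.n w = -21 / 200 ∧ 0 < w := ⟨_, H.lg_rp _, H.rp0 _⟩
  obtain ⟨w2, hw2, b0⟩ : ∃ w, logb p.n w = -21 / 100 ∧ 0 < w := ⟨_, H.lg_rp _, H.rp0 _⟩
  obtain ⟨q, hq, q0⟩ : ∃ w, logb p.n w = 2 * logb p.n p.s + 12 * c - 11 / 50 ∧ 0 < w :=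
    ⟨_, H.lg_rp _, H.rp0 _⟩
  obtain ⟨Y1, hY1, Y10⟩ : ∃ w, logb p.n w = 2 * logb p.n p.s + 12 * c - 21 / 200 ∧ 0 < w :=
    ⟨_, H.lg_rp _, H.rp0 _⟩
  obtain ⟨Y2, hY2, Y20⟩ : ∃ w, logb p.n w = 2 * logb p.n p.s + 12 * c - 21 / 100 ∧ 0 < w :=
    ⟨_, H.lg_rp _, H.rp0 _⟩
  obtain ⟨Z, hZ, Z0⟩ : ∃ w, logb p.n w = 2 * logb p.n p.s + 17 * c + 7 / 50 ∧ 0 < w :=
    ⟨_, H.lg_rp _, H.rp0 _⟩
  obtain ⟨L, hL, L1, L2⟩ : ∃ w, logb p.n w = 3 * η ∧ 0 < w ∧ w = ((p.n : ℝ) ^ η) ^ 3 :=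
    ⟨_, by rw [logb_pow, H.lg_rp]; norm_num, pow_pos H.Λ0 3, rfl⟩
  have γ0 : 0 < P.γ := sp.g' ▸ H.rp0 _
  have hγ : logb p.n P.γ = -7 / 20 := by rw [sp.g', H.lg_rp]; norm_num
  have ga := Tp85.ceil_bds v0 (mo v0 a0 (by linarith))
  have gb := Tp85.ceil_bds v0 (mo v0 b0 (by linarith))
  have w21 : w2 ≤ w1 := mo b0 a0 (by linarith)
  have J4 : 4 * ⌈w1 / p.v⌉₊ ≤ p.J := by
    have : 8 * w1 ≤ c0 := mo (by positivity) c00 (by lg_norm; linarith)
    exact_mod_cast le_of_mul_le_mul_right (show (4 * (⌈w1 / p.v⌉₊ : ℝ)) * p.v ≤ p.J * p.v by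
      linarith [ga.2]) v0
  have n21 : ⌈w2 / p.v⌉₊ ≤ ⌈w1 / p.v⌉₊ := Nat.ceil_mono (by gcongr)
  -- labels
  have zz : ∀ i j, p.jf ≤ i → i ≤ j → j < p.J → p.J ≤ 4 * (j - i) →
      c0 / (4 * C) ≤ (Me p P).z j - (Me p P).z i := fun i j h1 h2 h3 h4 => by
    refine le_trans ?_ (tel_ge (c := p.v / C) h2 fun k a b =>
      (e.cl.zs k (h1.trans a) (show k + 1 < p.J by omega)).1)
    have : (p.J : ℝ) ≤ 4 * ((j : ℝ) - i) := by rw [← Nat.cast_sub h2]; exact_mod_cast h4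
    rw [← mul_div_assoc, ← div_div]
    exact div_le_div_of_nonneg_right (by linarith [mul_le_mul_of_nonneg_right this v0.le]) C0'.le
  have x1 : c0 / (4 * C) ≤ (Me p P).z (p.J / 2) := by
    linarith [zz p.jf (p.J / 2) le_rfl (by omega) (by omega) (by omega), G.z_nonneg p.jf]
  have x0 : 0 < c0 / (4 * C) := by positivity
  obtain ⟨x, hx, x2⟩ : ∃ x, x = c0 / (4 * C) ∧ -(3 * η) ≤ logb p.n x :=
    ⟨_, rfl, by lg_norm; linarith⟩
  rw [← hx] at x0 x1 zz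
  have sy : p.ye ≤ (Me p P).s (p.J / 2) := by
    have a1 : 8 * p.ye ≤ c0 := mo (by positivity) c00 (by lg_norm; linarith)
    have a2 : (p.J : ℝ) ≤ 4 * ((p.J / 2 : ℕ) : ℝ) := by exact_mod_cast (by omega)
    nlinarith [(e.s_lo H (k := p.J / 2) (by omega)).1]
  have hθ : (Se p C P).ms ((Me p P).s (p.J / 2)) = p.κ * p.ye ^ 2 := by
    show 1 * p.κ * max p.r (min _ p.ye) ^ 2 = _
    rw [min_eq_right sy, max_eq_right H.r_le_ye, one_mul]
  obtain ⟨D, D1, D2⟩ := exists_D (Y := (p.n : ℝ) ^ (A + 2)) (one_le_pow₀ H.N1.le)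
  have T : TI (Se p C P) (Me p P) m a (p.J / 2) ⌈w1 / p.v⌉₊ ⌈w2 / p.v⌉₊ D
      (x * (p.κ * p.ye ^ 2 * p.v / (C * 1))) x x (P.γ / (2 * p.lL)) q P.γ
      ((p.n : ℝ) ^ (-(2 : ℝ))) := by
    refine ⟨e.cl, G, v0, show p.jf ≤ _ by omega, show _ ≤ p.J by omega, ?_, n21, ?_, by positivity,
      by rw [hθ]; exact le_rfl, x0, x1, x0, zz _ (p.J - 2) (by omega) (by omega) (by omega) (by omega),
      ?_, ?_, fun k h1 h2 h3 => ?_, le_rfl, q0, ?_, e.gam, ?_⟩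
    · have : 2 * p.v ≤ w2 := mo (by positivity) b0 (by lg_norm; linarith)
      exact_mod_cast le_of_mul_le_mul_right (show (2 : ℝ) * p.v ≤ ⌈w2 / p.v⌉₊ * p.v by
        linarith [gb.1]) v0
    · have : C * (2 * w1) ≤ 1 := mo (by positivity) one_pos (by lg_norm; linarith)
      exact (mul_le_mul_of_nonneg_left ga.2 C0'.le).trans this
    · have l6 := H.lg_nn (x := p.lL) (by linarith [p.lL_ge])
      exact mo (x := C * _) (by positivity) one_pos (by lg_norm; linarith)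
    · exact mo (x := 2 * C * p.v) (by positivity) (by positivity) (by lg_norm; linarith)
    · have b1 : p.xs ≤ (Me p P).z (k - 1) := by
        refine le_trans (le_of_eq ?_) (G.zm (show p.J - 1 ≤ k - 1 from Nat.sub_le_sub_right h1 1))
        show _ = p.zP P (max (p.J - 1) p.jf)
        rw [max_eq_left (by omega)]
        exact (if_pos (by omega)).symm
      have b2 : p.l1' ≤ 1 - (Me p P).z (k - 1) := ((p.l1'_le3 H.n1).trans
        (rpow_le_rpow_of_exponent_le H.N1.le (by norm_num))).trans h3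
      have b3 := (p.ld_min P.γ b1 b2).1.trans
        (mul_le_mul_of_nonneg_left (min_le_right _ _) (p.ld_pos _ _).le)
      show _ ≤ P.γ * p.ld P.γ _ * _
      rw [mul_assoc, div_eq_mul_one_div]
      exact mul_le_mul_of_nonneg_left b3 γ0.le
    · have b1 : ∑ k ∈ Ioc (p.J / 2) (p.Jp P), (Me p P).dz m a k * (Me p P).del m a k ^ 2 ≤
          p.s ^ 4 * (p.n : ℝ) ^ (22 * p.c - 13 / 20) := by
        refine le_trans ?_ loc
        rw [sum_congr rfl fun k hk => by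
          rw [dz_up (m := m) (a := a) G.toLeg (show 0 < k by have := (mem_Ioc.1 hk).1; omega)]]
        refine sum_le_sum_of_subset_of_nonneg (fun k hk => ?_) fun k _ _ =>
          mul_nonneg (sub_nonneg.2 (G.zm (Nat.sub_le _ _))) (sq_nonneg _)
        obtain ⟨k1, k2⟩ := mem_Ioc.1 hk
        exact mem_filter.2 ⟨mem_Ioc.2 ⟨by omega, k2⟩, sy.trans (e.cl.sm k1.le)⟩
      have b2 : C * (p.s ^ 4 * (p.n : ℝ) ^ (22 * p.c - 13 / 20)) ≤ q ^ 2 * w2 :=
        mo (by positivity) (by positivity) (by lg_norm; rw [ln, H.hc]; linarith)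
      exact ((mul_le_mul_of_nonneg_left b1 C0'.le).trans b2).trans
        (mul_le_mul_of_nonneg_left gb.1 (sq_nonneg _))
    · have b1 : (Me p P).H (Me p P).N ≤ C * p.A * log p.n := e.cl.HN
      have l1 := H.log1
      have lA := H.lg_cst (x := A) (by linarith) H.A_le
      rw [H.hA] at b1
      refine b1.trans (le_trans (mo (y := (p.n : ℝ) ^ (A + 2) * _) (by positivity) (by positivity) ?_)
        (mul_le_mul_of_nonneg_right D1 (by positivity)))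
      lg_norm
      rw [ln]
      push_cast
      linarith [H.lg_log.2]
  obtain ⟨N, T⟩ := T.top
  obtain ⟨U, hU, U0, U1⟩ : ∃ w, w = kk p ^ 5 * (p.s ^ 5 * (p.n : ℝ) ^ (-(17 : ℝ) / 20)) ∧ 0 < w ∧
      logb p.n w = 100 * c + 5 * logb p.n p.s - 17 / 20 :=
    ⟨_, rfl, by positivity, by lg_norm; rw [ln]; linarith⟩
  rw [← hU]
  refine ⟨N, T.mono (Tp85.fin (S := Se p C P) (Y1 := Y1) (Y2 := Y2) (Z := Z) (L := L) C0' v0 x0
    (x1.trans (G.z1 _)) (by positivity) (by positivity) N0 (by exact_mod_cast hi.m1) q0 γ0 a0 b0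
    ga.1 ga.2 gb.1 gb.2 (mo q0 Y20 (by linarith)) (mo γ0 Y20 (by linarith))
    (mo (x := C * w2) (by positivity) Y20 (by lg_norm; linarith)) (mo Y20 Y10 (by linarith))
    (mo (x := C * w1) (by positivity) Y10 (by lg_norm; linarith))
    (mo (by positivity) Z0 (by lg_norm; linarith)) (mo (by positivity) Z0 (by lg_norm; linarith))
    (mo (x := 14 * C * Y2 / _) (by positivity) Z0 (by lg_norm; linarith)) ?_
    (mo (x := 3 * (C / _)) (by positivity) U0 (by lg_norm; linarith))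
    (mo (x := 54 * (_ * _ * C / _)) (by positivity) U0 (by lg_norm; linarith))
    (mo (x := 9 * (L * C * p.v / _)) (by positivity) U0 (by lg_norm; linarith)))
    (mo (H.rp0 _) U0 (by rw [H.lg_rp]; linarith))⟩
  rw [log_pow] at D2
  push_cast at D2
  have u1 := H.A_le
  have u2 := H.log_le
  have u3 := H.num_le
  have u4 := H.log1
  have u5 : ((A : ℝ) + 2) * log p.n ≤ (2 * (p.n : ℝ) ^ η) * (p.n : ℝ) ^ η := by gcongr; linarith
  rw [L2]
  nlinarith [mul_le_mul_of_nonneg_right u3 (sq_nonneg ((p.n : ℝ) ^ η))]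

end Crest.Agent.T156.Alt.R2

end
end

-- ▼ part T156/R2TL_68
section

/-!
# Row 156, R2 (helper68): the top labels, leaf `TopL` of `R2GD_78`
-/

set_option autoImplicit false
set_option linter.unusedSectionVars false

noncomputable section

namespace Crest.Agent.T156.Cas.TL68

open Real Set
open Crest.Agent.T157.E Crest.Agent.T157.Casc Crest.Agent.T157.SL
open Crest.Agent.T157.G1 (ov fl FL)
open Crest.Agent.T156.Cas.Q33 Crest.Agent.T156.Cas.Sy41 Crest.Agent.T156.Alt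
open Crest.Agent.T156.Alt.Md67 Crest.Agent.T156.Alt.Cost41 Apt7 Mv30

variable {M : Md} {m : ℕ} {a : ℝ}

/-- **legs**: tilt at least `x` from `j0` on, field steps in `[σ, 1 / m]` -/
theorem legsX (G : Lg M m a) {j0 K : ℕ} {σ cm x : ℝ} {c : ℕ → ℝ} (σ0 : 0 < σ) (h : j0 < M.N)
    (x0 : 0 < x) (top : x ≤ M.z j0) (lo : ∀ i, j0 ≤ i → i < M.N → σ ≤ M.H (i + 1) - M.H i)
    (hi : ∀ i, j0 ≤ i → i < M.N → (M.H (i + 1) - M.H i) * m ≤ 1)
    (hK : M.H M.N - M.H j0 ≤ 2 ^ K * (x * σ)) (cm0 : 0 ≤ cm)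
    (hc : ∀ k ∈ Finset.Ioo j0 M.N, 0 ≤ c k ∧ c k ≤ cm) :
    ∑ k ∈ Finset.Ioo j0 M.N, c k * pM M m a k ≤ 4 * (K + 2) ^ 2 * (cm / (σ * m) / x ^ 2) := by
  have m0 : (0 : ℝ) < m := Nat.cast_pos.2 G.m0
  have z1 : ∀ i, j0 ≤ i → x ≤ M.z i := fun i hi => top.trans (G.zm hi)
  have x1 : x ≤ 1 := top.trans (G.z1 _)
  have eov : (sl m).cov = ov := funext fun x => funext (sl_cov G.m0 x)
  have sm : σ * m ≤ 1 := (mul_le_mul_of_nonneg_right (lo j0 le_rfl h) m0.le).trans (hi j0 le_rfl h)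
  set κ := cm / (σ * m) with hκ
  have κ0 : 0 ≤ κ := by positivity
  have eκ : cm = κ * (σ * m) := by rw [hκ]; field_simp
  have cκ : cm ≤ κ / x := (eκ.trans_le (mul_le_of_le_one_right κ0 sm)).trans
    (le_div_self κ0 x0 x1)
  have lo' : ∀ i, j0 ≤ i → i < M.N → x * σ ≤ M.z i * (M.H (i + 1) - M.H i) := fun i a b =>
    mul_le_mul (z1 i a) (lo i a b) σ0.le (G.z_nonneg i)
  have h1 := G.dt.tc_win 0 (lo := j0 + 2) (hi := M.N + 1) (by omega) len_L.ge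
    (c := fun j => c (j - 1)) (κ := κ) (t := 1) (x := x) κ0 (fun j hj => ?_) (fun j hj => ?_)
    x0 fun j hj => ?_
  rotate_left
  · obtain ⟨k, rfl⟩ : ∃ k, j = k + 1 := ⟨j - 1, by have := Finset.mem_Ico.1 hj; omega⟩
    have := Finset.mem_Ico.1 hj
    rw [dh_succ (by omega), Nat.add_sub_cancel]
    refine ((hc k (Finset.mem_Ioo.2 ⟨by omega, by omega⟩)).2.trans_eq eκ).trans ?_
    exact mul_le_mul_of_nonneg_left (mul_le_mul_of_nonneg_right (lo k (by omega) (by omega)) m0.le) κ0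
  · obtain ⟨k, rfl⟩ : ∃ k, j = k + 1 := ⟨j - 1, by have := Finset.mem_Ico.1 hj; omega⟩
    have := Finset.mem_Ico.1 hj
    rw [dh_succ (by omega), mul_one]
    exact hi k (by omega) (by omega)
  · obtain ⟨k, rfl⟩ : ∃ k, j = k + 1 := ⟨j - 1, by have := Finset.mem_Ico.1 hj; omega⟩
    have := Finset.mem_Ico.1 hj
    rw [ex_succ G.toLeg]
    exact z1 k (by omega)
  have r1 : rho (fun _ => 1) (M.L m a) (sl m) 0 (M.N + 1) ≤ 1 := by
    rw [← rb_eq (sl_cov G.m0)]; exact rb_le_one G.m0 _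
  have r0 := rho_nonneg (w := fun _ => 1) (sl m) 0 (M.L m a) (j0 + 2)
  have e1 : ∑ j ∈ Finset.Ico (j0 + 2) (M.N + 1), c (j - 1) * tc (fun _ => 1) (M.L m a) (sl m) 0 j =
      ∑ k ∈ Finset.Ioo j0 M.N, c k * tc (fun _ => 1) (M.L m a) (sl m) 0 (k + 1) := by
    rw [← Finset.sum_Ico_add' _ (j0 + 1) M.N 1]; rfl
  have h2 := cost G (c := fun k => if k < M.N then c k else 0) (W := fun _ => κ / x * m) (cm := cm)
    (K := K) (mul_pos x0 σ0) h.le le_rfl lo' (by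
      rw [Phi_sub M h.le]
      refine le_trans ?_ hK
      rw [← Finset.sum_Ico_sub M.H h.le]
      exact Finset.sum_le_sum fun j _ =>
        mul_le_of_le_one_left (sub_nonneg.2 (G.Hm j.le_succ)) (G.z1 j)) (fun k a _ => by
      split_ifs with e; exacts [(hc k (Finset.mem_Ioo.2 ⟨a, e⟩)).1, le_rfl]) cm0 (fun k a _ => by
      split_ifs with e; exacts [(hc k (Finset.mem_Ioo.2 ⟨a, e⟩)).2, cm0]) (fun _ _ _ => by positivity)
    fun j k a b d => by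
      rw [Phi_sub M b.le, Finset.mul_sum,
        ← Finset.Ico_add_one_add_one_eq_Ioc, ← Finset.sum_Ico_add' _ j k 1]
      refine Finset.sum_le_sum fun i hi => ?_
      have := Finset.mem_Ico.1 hi
      have h3 := mul_le_mul_of_nonneg_left (lo' i (by omega) (by omega))
        (show 0 ≤ κ / x * m by positivity)
      refine le_trans ?_ h3
      rw [show κ / x * m * (x * σ) = cm by rw [eκ]; field_simp]
      split_ifs with e; exacts [(hc _ (Finset.mem_Ioo.2 ⟨by omega, e⟩)).2, cm0]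
  have h3 := RW_const (ρ := M.rb m a) (W := fun _ => κ / x * m) (j0 := j0) (N := M.N)
    (B := κ / x * m) (rb_mono G.m0) (rb_nonneg G.m0 _) h.le (rb_le_one G.m0 _) (by positivity)
    fun _ _ _ => le_rfl
  have h4 : x * ∑ k ∈ Finset.Ioo j0 M.N, c k * vv (fun _ => 1) (M.L m a) (sl m) 0 (k + 1) ≤
      ∑ k ∈ Finset.Ioc j0 M.N, (if k < M.N then c k else 0) * aM M m a k := by
    rw [← Finset.Ioo_insert_right h, Finset.sum_insert (by simp), if_neg (lt_irrefl _), zero_mul,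
      zero_add, Finset.mul_sum]
    refine Finset.sum_le_sum fun k hk => ?_
    have := Finset.mem_Ioo.1 hk
    rw [if_pos this.2, mul_left_comm]
    exact mul_le_mul_of_nonneg_left (vv_le Link33.wt1 G.monoL (sl m) 0 (x := x) (j := k + 1) (by
      rw [ex_succ G.toLeg]; exact z1 k this.1.le)) (hc k hk).1
  have h5 : 2 / (m : ℝ) * ((1 + K) * RW (M.rb m a) (fun _ => κ / x * m) j0 M.N) ≤
      2 * (1 + K) * (κ / x) := (mul_le_mul_of_nonneg_left (mul_le_mul_of_nonneg_left h3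
        (by positivity)) (by positivity)).trans_eq (by field_simp)
  have h6 := mul_le_mul_of_nonneg_left (add_le_add h5 cκ) (show (0 : ℝ) ≤ K + 2 by positivity)
  have h7 := h1.trans (div_le_div_of_nonneg_right (mul_le_of_le_one_right (by positivity)
    (show _ ≤ (1 : ℝ) by linarith)) (sq_nonneg x))
  have h8 := (le_div_iff₀' x0).2 (h4.trans (h2.trans h6))
  rw [show (K + 2 : ℝ) * (2 * (1 + K) * (κ / x) + κ / x) / x =
    (K + 2) * (2 * K + 3) * (κ / x ^ 2) by field_simp; ring] at h8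
  simp only [pM, ← eov, pv_eq Link33.wt1, mul_add, Finset.sum_add_distrib, mul_left_comm _ (2 : ℝ),
    ← Finset.mul_sum]
  rw [e1, show κ * (2 + 2 * 1) / x ^ 2 = 4 * (κ / x ^ 2) by ring] at h7
  have k0 : 0 ≤ K * (κ / x ^ 2) := by positivity
  linarith

theorem cube_le (x y : ℝ) : |x + y| ^ 3 ≤ 4 * |x| ^ 3 + 4 * |y| ^ 3 := by
  have h := pow_le_pow_left₀ (abs_nonneg _) (abs_add_le x y) 3
  nlinarith [mul_nonneg (add_nonneg (abs_nonneg x) (abs_nonneg y)) (sq_nonneg (|x| - |y|))]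

variable {S : Sc}

/-- **sandwich** of a plateau node -/
theorem sand (h : Cl S M) {i k s : ℕ} (h1 : i ≤ k) (h2 : k ≤ s) (h3 : s ≤ M.N) {u d : ℝ}
    (hu : M.E2 m a (fun R => |R - M.q s| ^ 2) s ≤ u) (hd : M.s s - M.s i ≤ d) (d1 : d ≤ 1) :
    M.E2 m a (fun R => |R - M.q k| ^ 3) k ≤ 864 * pM M m a k +
      (864 * M.E2 m a (fun R => |R - M.q i| ^ 3) i + (3456 * u + 3460 * d ^ 2)) := by
  have w : M.E2 m a (fun R => |R - M.q i| ^ 3) k ≤ 6 ^ 3 * (pM M m a k +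
      M.E2 m a (fun R => |R - M.q i| ^ 3) i + M.E2 m a (fun R => |R - M.q i| ^ 3) s) :=
    Swm78.swm_ov 1 (M.Mx a) (Nat.succ_le_succ h1) (Nat.succ_le_succ h2) (M.q i) 1
  have q1 := q_mono h h1 (h2.trans h3)
  have q2 := q_mono h h2 h3
  have q3 := (q_lip h (h1.trans h2) h3).trans hd
  have d0 : 0 ≤ d := by linarith
  have a1 : M.E2 m a (fun R => |R - M.q k| ^ 3) k ≤
      M.E2 m a (fun R => 4 * |R - M.q i| ^ 3 + 4 * d ^ 2) k := E2_mono (fun r _ => by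
    have := cube_le (r - M.q i) (M.q i - M.q k)
    have b := pow_le_pow_left₀ (abs_nonneg _) (show |M.q i - M.q k| ≤ d from
      abs_le.2 ⟨by linarith, by linarith⟩) 3
    have b' := pow_le_pow_of_le_one d0 d1 (show 2 ≤ 3 by norm_num)
    rw [sub_add_sub_cancel] at this
    linarith) k
  have a2 : M.E2 m a (fun R => |R - M.q i| ^ 3) s ≤
      M.E2 m a (fun R => 4 * |R - M.q s| ^ 2 + 4 * d ^ 2) s := E2_mono (fun r hr => by
    have b : |r - M.q i| ≤ 2 := abs_le.2 ⟨by linarith [(abs_le.1 hr).1, q_le_one (M := M) i],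
      by linarith [(abs_le.1 hr).2, q_nonneg (M := M) i]⟩
    have b1 := mul_le_mul_of_nonneg_left b (sq_nonneg |r - M.q i|)
    have b2 := pow_le_pow_left₀ (by linarith) q3 2
    rw [sq_abs] at b1 ⊢
    rw [pow_succ, sq_abs]
    nlinarith [sq_nonneg (r - M.q s - (M.q s - M.q i))]) s
  rw [E2_add, E2_mul, E2_const] at a1 a2
  linarith

/-- **the top labels** on the class -/
theorem top_cl (h : Cl S M) (G : Lg M m a) {i s : ℕ} (i1 : 1 ≤ i) (h1 : i < S.Jp) (h2 : S.Jp ≤ s)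
    (h3 : s ≤ M.N) {u d Y : ℝ} (hu : M.E2 m a (fun R => |R - M.q s| ^ 2) s ≤ u)
    (hd : M.s s - M.s i ≤ d) (d1 : d ≤ 1) (hY : ∑ k ∈ Finset.Ioo i M.N,
      (if k < S.Jp then M.dz m a k else 0) * pM M m a k ≤ Y) :
    ∑ k ∈ Finset.Ico i M.N, M.dz m a k * M.E2 m a (fun R => |R - M.q k| ^ 3) k ≤
      864 * ((1 - M.z (i - 1)) * M.E2 m a (fun R => |R - M.q i| ^ 3) i) +
        (864 * Y + 8 * S.ue + (1 - M.z (i - 1)) * (3456 * u + 3460 * d ^ 2)) := by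
  have i4 := h.i4
  have u0 : 0 ≤ u := (E2_nonneg (fun _ _ => by positivity) s).trans hu
  have U0 : 0 ≤ M.E2 m a (fun R => |R - M.q i| ^ 3) i := E2_nonneg (fun _ _ => by positivity) i
  set B := 864 * M.E2 m a (fun R => |R - M.q i| ^ 3) i + (3456 * u + 3460 * d ^ 2) with hB
  have B0 : 0 ≤ B := by positivity
  have e : ∑ k ∈ Finset.Ico i M.N, M.dz m a k ≤ 1 - M.z (i - 1) := by
    have := sum_dz (m := m) (a := a) h.leg (show i - 1 ≤ M.N - 1 by omega)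
    rw [← Finset.Ico_add_one_add_one_eq_Ioc, Nat.sub_add_cancel i1,
      Nat.sub_add_cancel (by omega)] at this
    linarith [G.z1 (M.N - 1)]
  have t : ∑ k ∈ Finset.Ioo i M.N, M.dz m a k * M.E2 m a (fun R => |R - M.q k| ^ 3) k ≤
      ∑ k ∈ Finset.Ioo i M.N, (864 * ((if k < S.Jp then M.dz m a k else 0) * pM M m a k) +
        M.dz m a k * B + if k = S.Jp then 8 * S.ue else 0) := Finset.sum_le_sum fun k hk => by
    have hk := Finset.mem_Ioo.1 hk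
    have z0 := G.dz_nonneg k
    rcases lt_trichotomy k S.Jp with b | b | b
    · rw [if_pos b, if_neg b.ne]
      linarith [mul_le_mul_of_nonneg_left (sand h hk.1.le (b.le.trans h2) h3 hu hd d1) z0]
    · have a1 : M.dz m a k ≤ S.ue := by
        rw [dz_up h.leg (by omega), h.top k b.ge, b]; exact h.last
      have a2 : M.E2 m a (fun R => |R - M.q k| ^ 3) k ≤ 2 ^ 3 := E2_le (fun r hr =>
        pow_le_pow_left₀ (abs_nonneg _) (abs_le.2 ⟨by
          linarith [(abs_le.1 hr).1, q_le_one (M := M) k],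
          by linarith [(abs_le.1 hr).2, q_nonneg (M := M) k]⟩) 3) k
      rw [if_neg b.not_lt, if_pos b]
      linarith [mul_le_mul_of_nonneg_left a2 z0, mul_nonneg z0 B0]
    · rw [if_neg b.not_gt, if_neg b.ne', dz_up h.leg (by omega), h.top k b.le,
        h.top _ (by omega), sub_self]
      simp
  rw [Finset.sum_add_distrib, Finset.sum_add_distrib, ← Finset.mul_sum, ← Finset.sum_mul,
    Finset.sum_ite_eq', if_pos (Finset.mem_Ioo.2 ⟨h1, i4⟩)] at t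
  rw [← Finset.Ioo_insert_left (h1.trans i4), Finset.sum_insert (by simp)] at e ⊢
  have a3 := mul_le_mul_of_nonneg_left (show M.E2 m a (fun R => |R - M.q i| ^ 3) i ≤ B by
    rw [hB]; nlinarith [sq_nonneg d]) (G.dz_nonneg i)
  have a4 := mul_le_mul_of_nonneg_right e B0
  rw [hB] at a4
  linarith

/-- a good reveal node -/
theorem pick {C θ μ σ : ℝ} {D : C40.CD} {ρ : ℕ → ℝ} {j0 K U : ℕ}
    (V : C40.Mv30.MVt C D M m a ρ j0 K σ θ μ) (hK : D.K = M.N + 1) (U0 : 0 < U)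
    (hU : j0 + U < M.N) : ∃ s, j0 < s ∧ s ≤ j0 + U ∧ D.u 2 (s + 1) ≤
      C * (C40.Mv30.mvA D θ μ + 4 * (K + 2) ^ 2 * (1 / (σ * m)) / (μ * θ ^ 11) / U) := by
  have e : ∀ f : ℕ → ℝ, ∑ t ∈ Finset.Ioo (j0 + 1) D.K, (if t ≤ j0 + 1 + U then (1 : ℝ) else 0) * f t =
      ∑ t ∈ Finset.Ioc (j0 + 1) (j0 + 1 + U), f t := fun f => by
    simp only [ite_mul, one_mul, zero_mul]
    rw [← Finset.sum_filter]
    refine Finset.sum_congr (Finset.ext fun t => ?_) fun _ _ => rfl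
    simp only [Finset.mem_filter, Finset.mem_Ioo, Finset.mem_Ioc]
    omega
  have h := V.sum (fun t => if t ≤ j0 + 1 + U then (1 : ℝ) else 0) 1 zero_le_one fun t _ => by
    split_ifs <;> norm_num
  have e1 := e fun _ => 1
  simp only [mul_one, Finset.sum_const, Nat.card_Ioc, Nat.add_sub_cancel_left, nsmul_eq_mul] at e1
  rw [e, e1] at h
  have u0 : (0 : ℝ) < U := Nat.cast_pos.2 U0
  obtain ⟨t, ht, h2⟩ := Finset.exists_le_of_sum_le (s := Finset.Ioc (j0 + 1) (j0 + 1 + U))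
    (f := D.u 2) (g := fun _ => C * (C40.Mv30.mvA D θ μ +
      4 * (K + 2) ^ 2 * (1 / (σ * m)) / (μ * θ ^ 11) / U)) ⟨j0 + 2, by simp; omega⟩ (by
    rw [Finset.sum_const, Nat.card_Ioc, Nat.add_sub_cancel_left, nsmul_eq_mul]
    refine h.trans_eq ?_
    generalize 4 * ((K : ℝ) + 2) ^ 2 * (1 / (σ * m)) / (μ * θ ^ 11) = T
    field_simp)
  have := Finset.mem_Ioc.1 ht
  obtain ⟨s, rfl⟩ : ∃ s, t = s + 1 := ⟨t - 1, by omega⟩
  exact ⟨s, by omega, by omega, h2⟩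

end Crest.Agent.T156.Cas.TL68

namespace Crest.Agent.T156.Alt.R2

open Real Finset Filter
open Crest.Agent.T156.Cas Crest.Agent.T156.Cas.C40 Md67 CIn12

namespace TL68

variable {β c0 C0 c η K C : ℝ} {A : ℕ} {p : Pm} {P : Pl} {m : ℕ} {a : ℝ} {E : CIn12.Ev}

theorem xs_eq (h : p.jf < p.J) : (Me p P).z (p.J - 1) = p.xs := by
  show p.zP P (max (p.J - 1) p.jf) = _
  rw [max_eq_left (by omega), Pm.zP, if_pos (by omega)]
  rfl

variable (H : Reg β c0 C0 A c η K p)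
include H

theorem uc0 : 0 < uc p := mul_pos H.s0 (H.rp0 _)
theorem cb0 (x : ℝ) : 0 < cb p x := mul_pos (pow_pos H.s0 _) (H.rp0 _)
theorem lg_uc : logb p.n (uc p) = logb p.n p.s - 1 / 5 := by
  rw [uc, logb_mul H.s0.ne' (H.rp0 _).ne', H.lg_rp]; ring
theorem lg_cb (x : ℝ) : logb p.n (cb p x) = 5 * logb p.n p.s - x := by
  rw [cb, logb_mul (pow_pos H.s0 _).ne' (H.rp0 _).ne', H.lg_rp, logb_pow]; push_cast; ring

theorem nums {C' γ X w W Λ : ℝ} (C1 : 1 ≤ C) (hC : C ≤ (p.n : ℝ) ^ η) (C1' : 1 ≤ C')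
    (hC' : C' ≤ (p.n : ℝ) ^ η) (hA : 8 ≤ A) (hc : c ≤ 1 / 10 ^ 6) (h : In p m a)
    (hγ : γ = (p.n : ℝ) ^ (-(7 / 20 : ℝ))) (hX : X = t1 p / p.κ) (hw : w = (p.n : ℝ) ^ (-(1 / 3 : ℝ)))
    (hW : W = p.s ^ 4 * (p.n : ℝ) ^ (-(13 : ℝ) / 20)) (hΛ : Λ = (p.n : ℝ) ^ η) :
    C * A * log p.n ≤ (p.n : ℝ) ^ (A + 2) * (1 / C * (p.κ ^ 7 * p.v / C ^ 2)) ∧
    C * p.v * m ≤ 1 ∧ X ^ 3 ≤ (kk p)⁻¹ ^ 2 / C' ∧ γ ≤ (kk p)⁻¹ ^ 2 / C' ∧ γ ≤ w ∧ p.v ≤ w ∧
    3 * w ≤ 1 ∧ (p.n : ℝ) ^ (-(3 : ℝ)) ≤ uc p ∧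
    10 ^ 6 * ((Λ ^ 3) ^ 2 * (C * p.v * log p.n * uc p / γ / (p.κ ^ 7 * p.v / C ^ 2 * m) /
      (1 / C) ^ 2)) ≤ cb p (847 / 1000) ∧
    10 ^ 2 * (p.n : ℝ) ^ (-(2 : ℝ)) ≤ cb p (847 / 1000) ∧
    10 ^ 5 * (uc p * (C' * (C * (kk p ^ 19 * W)))) ≤ cb p (847 / 1000) ∧
    10 ^ 6 * (uc p * (C' * ((Λ ^ 3) ^ 2 * (1 / (p.κ ^ 7 * p.v / C ^ 2 * m)) /
      (1 / C * (kk p)⁻¹ ^ 11) / (w / p.v)))) ≤ cb p (847 / 1000) ∧
    10 ^ 6 * (uc p * w ^ 2) ≤ cb p (847 / 1000) := by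
  have C0 : 0 < C := by linarith
  have C0' : 0 < C' := by linarith
  have v0 := H.v0
  have κ0 := H.κ0
  have N0 := H.N0
  have t0 := t10 H
  have K0 := kk0 H
  have s0 := H.s0
  have u0 := uc0 H
  have b0 := cb0 H (847 / 1000)
  have l0 : 0 < log (p.n : ℝ) := by linarith [H.log1]
  have A8 : (8 : ℝ) ≤ A := by exact_mod_cast hA
  have A0 : (0 : ℝ) < A := by linarith
  have m0 : (0 : ℝ) < m := by exact_mod_cast h.m0 H
  obtain ⟨lC1, lC2⟩ := H.lg_cst C1 hC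
  obtain ⟨lD1, lD2⟩ := H.lg_cst C1' hC'
  obtain ⟨lA1, lA2⟩ := H.lg_cst (show (1 : ℝ) ≤ A by linarith) H.A_le
  obtain ⟨lm1, lm2⟩ := H.lg_m h.m1 h.m2
  obtain ⟨ll1, ll2⟩ := H.lg_log
  obtain ⟨lb1, lb2⟩ := H.lg_β
  obtain ⟨ls1, ls2⟩ := H.lg_s
  have l10 := (H.lg_num (x := 10) (by norm_num) (by norm_num)).2
  have l3 := (H.lg_num (x := 3) (by norm_num) (by norm_num)).2
  have lv := H.lg_v
  have lk := H.lg_κ
  have lt := lg_t1 H
  have lkk := lg_kk H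
  have lu := lg_uc H
  have lb := lg_cb H (847 / 1000)
  have ln := H.lg_n
  have hη := H.η_le
  have η0 := H.η_pos
  have L0 : 0 < Λ := hΛ ▸ H.Λ0
  have lL : logb p.n Λ = η := hΛ ▸ H.lg_rp η
  have γ0 : 0 < γ := hγ ▸ H.rp0 _
  have lγ : logb p.n γ = -(7 / 20) := by rw [hγ, H.lg_rp]
  have w0 : 0 < w := hw ▸ H.rp0 _
  have lw : logb p.n w = -(1 / 3) := by rw [hw, H.lg_rp]
  have W0 : 0 < W := hW ▸ mul_pos (pow_pos s0 _) (H.rp0 _)
  have lW : logb p.n W = 4 * logb p.n p.s - 13 / 20 := by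
    rw [hW, logb_mul (pow_pos s0 _).ne' (H.rp0 _).ne', H.lg_rp, logb_pow]; push_cast; ring
  have X0 : 0 < X := hX ▸ div_pos t0 κ0
  have lX : logb p.n X = logb p.n p.s + 8 / 7 * c - 3 / 20 := by
    rw [hX, logb_div t0.ne' κ0.ne', lt, lk]; ring
  clear hγ hX hw hW hΛ hC hC'
  refine ⟨H.le_of_lg (by positivity) (by positivity) (by lg_norm; push_cast; rw [ln]; linarith),
    ?_, ?_, ?_, ?_, ?_, ?_, ?_, ?_, ?_, ?_, ?_, ?_⟩ <;>
    refine H.le_of_lg (by positivity) (by positivity) ?_ <;> (try lg_norm) <;> linarith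

theorem mvA_le (C1 : 1 ≤ C) {X : CD} {W : ℝ} (W0 : 0 ≤ W) (h1 : Mv30.IU X ≤ kk p ^ 8 * W)
    (h2 : Ex23.R0 X ≤ kk p ^ 8 * W) :
    Mv30.mvA X (kk p)⁻¹ (1 / C) ≤ 2 * (C * (kk p ^ 19 * W)) := by
  have k1 := Mv55.kk1 H
  rw [Mv30.mvA]
  generalize kk p = k at *
  have e1 : ∀ x : ℝ, x / k⁻¹ ^ 2 = k ^ 2 * x := fun x => by field_simp
  have e2 : ∀ x : ℝ, x / (1 / C * k⁻¹ ^ 11) = C * (k ^ 11 * x) := fun x => by field_simp
  rw [e1, e2]
  have p1 : k ^ 10 * W ≤ k ^ 19 * W :=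
    mul_le_mul_of_nonneg_right (pow_le_pow_right₀ k1 (by norm_num)) W0
  have b1 := mul_le_mul_of_nonneg_left h1 (show 0 ≤ k ^ 2 by positivity)
  have b2 := mul_le_mul_of_nonneg_left (mul_le_mul_of_nonneg_left h2
    (show 0 ≤ k ^ 11 by positivity)) (zero_le_one.trans C1)
  have b3 := mul_le_mul_of_nonneg_right C1 (show 0 ≤ k ^ 19 * W by positivity)
  linarith

variable (e : En C p P)
include e

theorem s_rev (j : ℕ) : (Me p P).s (p.Jp P + j) = (Me p P).s (p.Jp P) + j * p.v := by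
  induction j with
  | zero => simp
  | succ j ih =>
    have := e.hi (p.Jp P + j) (Nat.le_add_right _ _)
    rw [← add_assoc]
    push_cast
    linarith

/-- label weights near the top -/
theorem dz_le (sp : p.SpOk (7 / 20) P) (hl : (p.n : ℝ) ^ (-(3 : ℝ)) ≤ uc p) {i k : ℕ} (h1 : p.J ≤ i)
    (h2 : i < k) (h3 : k < p.Jp P) (hd : duE p P i ≤ 2 * uc p) :
    (Me p P).dz m a k ≤ 54 * (C * p.v * log p.n * uc p / P.γ) := by
  have γ0 : 0 < P.γ := sp.g' ▸ H.rp0 _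
  have i2 : p.jf + 1 < p.J := e.cl.i2
  have a1 : _ * (P.γ * p.ld P.γ ((Me p P).z (k - 1))) ≤ C * p.v :=
    (e.cl.plat k (show p.J ≤ k by omega) h3).2
  have a2 : p.xs ≤ (Me p P).z (k - 1) :=
    (xs_eq (by omega)).ge.trans (e.cl.leg.zm (show p.J - 1 ≤ k - 1 by omega))
  have a3 := e.cl.leg.z1 (k - 1)
  have a4 := e.cl.leg.zm (show i - 1 ≤ k - 1 by omega)
  have a5 := (p.l1'_le3 H.n1).trans hl
  have a6 := p.lL_le (by linarith [H.N3])
  have u0 := uc0 H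
  have l0 : 0 < log (p.n : ℝ) := by linarith [H.log1]
  have z0 := sub_nonneg.2 (e.cl.leg.zm (show k - 1 ≤ k by omega))
  rw [duE] at hd
  have b1 : 1 / (3 * uc p) ≤ 1 / (1 - (Me p P).z (k - 1) + p.l1') :=
    one_div_le_one_div_of_le (by linarith [p.l1'_pos]) (by linarith)
  have b2 : 0 ≤ 1 / ((Me p P).z (k - 1) - p.xs + p.l0' P.γ) :=
    (one_div_pos.2 (by linarith [p.l0'_pos P.γ])).le
  have b3 : 1 / (3 * uc p) / (18 * log p.n) ≤ p.ld P.γ ((Me p P).z (k - 1)) := by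
    rw [p.ld_eq _ a2 a3]
    exact div_le_div₀ (by linarith [show 0 ≤ 1 / (3 * uc p) by positivity]) (by linarith)
      p.lL_pos a6
  have b4 := (mul_le_mul_of_nonneg_left (mul_le_mul_of_nonneg_left b3 γ0.le) z0).trans a1
  rw [dz_up e.cl.leg (by omega)]
  rw [← le_div_iff₀ (by positivity)] at b4
  exact b4.trans_eq (by field_simp; ring)

end TL68

open TL68 Cas.TL68 in
/-- **`TopL`** -/
theorem topL_of {β : ℝ} (hβ : 1 < β) (hP : PzS β) : TopL β := by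
  obtain ⟨C', C1', G⟩ := Mv30.mv_cl (β ^ 2)
  unfold PzS EvA at hP
  unfold TopL EvA
  refine Sml.glueC hβ (enS hβ) hP fun C C1 c0 C0 _ _ => ⟨8, fun A hA => ⟨1 / 10 ^ 6, by norm_num,
    fun c hc _ => ⟨1, one_pos, fun η _ _ => ⟨max C C', fun p H en z P m a E h h1 h2 i i1 i2 hd => ?_⟩⟩⟩⟩
  obtain ⟨z1, z2⟩ := z P m a E h
  have e := en H.r_le_ye P h.sp
  obtain ⟨k, k1, k2⟩ := Mv55.exK H
  obtain ⟨n1, n2, n3, n4, n5, n6, n7, n8, n9, n10, n11, n12, n13⟩ := nums H C1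
    ((le_max_left _ _).trans H.K_le) C1' ((le_max_right _ _).trans H.K_le) hA hc h.inn h.sp.g'
    h.env.X rfl rfl rfl
  have mv := mvA_le H C1 (mul_pos (pow_pos H.s0 _) (H.rp0 _)).le h1 h2
  have w0 := H.rp0 (-(1 / 3 : ℝ))
  have L0 := H.Λ0
  generalize (p.n : ℝ) ^ (-(1 / 3 : ℝ)) = w at *
  generalize p.s ^ 4 * (p.n : ℝ) ^ (-(13 : ℝ) / 20) = W at *
  have C0' : 0 < C := by linarith
  have v0 := H.v0
  have κ0 := H.κ0
  have κ1 := H.κ1
  have K0 := kk0 H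
  have u0 := uc0 H
  have l1 := H.log1
  have m0 : (0 : ℝ) < m := by exact_mod_cast h.inn.m0 H
  have γ0 : 0 < P.γ := h.sp.g' ▸ H.rp0 _
  have j2 : p.jf + 1 < p.J := e.cl.i2
  have j4 : p.Jp P < (Me p P).N := e.cl.i4
  have Lg := e.lg H h.inn
  have ms := fun j => Mv55.ms_hi H e (k := j)
  have σ0 : 0 < p.κ ^ 7 * p.v / C ^ 2 := by positivity
  have hK : C * A * log p.n ≤ 2 ^ k * (1 / C * (p.κ ^ 7 * p.v / C ^ 2)) :=
    n1.trans (mul_le_mul_of_nonneg_right k1 (by positivity))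
  have hv : ∀ j, (Se p C P).Jp ≤ j → j < (Me p P).N →
      (Se p C P).v / (Se p C P).C ≤ (Me p P).s (j + 1) - (Me p P).s j :=
    fun j a _ => (div_le_self v0.le C1).trans (e.hi j a).ge
  have hK' : (Se p C P).C * (Se p C P).A * log (Se p C P).n ≤
      2 ^ k * ((Se p C P).ms ((Me p P).s (Se p C P).Jp) * (Se p C P).v / (Se p C P).C ^ 2) := by
    rw [show (Se p C P).Jp = p.Jp P from rfl, ms (p.Jp P) e.cl.i3]
    show C * p.A * log p.n ≤ 2 ^ k * (p.κ ^ 7 * p.v / C ^ 2)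
    rw [H.hA]
    exact hK.trans (mul_le_mul_of_nonneg_left (mul_le_of_le_one_left σ0.le
      ((div_le_one C0').2 C1)) (by positivity))
  have lw := Mv30.lw_cl e.cl H.n0 hv n2 hK'
  have V := (G (Se p C P) (Me p P) m a (jc p) E k (kk p)⁻¹ e.cl H.n0 h.inn.sc (H.hβ ▸ h.ok)
    (Nat.lt_succ_iff.1 z1.JP) hv n2 hK' (inv_pos.2 K0)
    (z2.trans_eq (by rw [R85.mu, ← tp_eq (p.Jp P)]; rfl)) n3 (e.gam.trans n4)).1
  rw [show (Se p C P).Jp = p.Jp P from rfl, ms (p.Jp P) e.cl.i3] at V lw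
  -- the window
  have U1 := Nat.le_ceil (w / p.v)
  have U2 := (Nat.ceil_lt_add_one (div_pos w0 v0).le).le
  have U0 : 0 < ⌈w / p.v⌉₊ := Nat.ceil_pos.2 (div_pos w0 v0)
  generalize ⌈w / p.v⌉₊ = U at *
  rw [div_add_one v0.ne', le_div_iff₀ v0] at U2
  have U3' : U < p.Nr := by
    have A8 : (8 : ℝ) ≤ A := by exact_mod_cast hA
    have := mul_le_mul A8 l1 zero_le_one (by linarith)
    exact_mod_cast lt_of_mul_lt_mul_right (show (U : ℝ) * p.v < p.Nr * p.v by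
      linarith only [H.Nr_bds.1, this, U2, n6, n7, w0]) v0.le
  have eN : (Me p P).N = p.Jp P + p.Nr := rfl
  obtain ⟨s, s1, s2, hu⟩ := pick V (cd_K _ _ _ _ _ _ _) U0 (by omega)
  have jcl := jc_lt H
  rw [cd_u m a _ _ E 2 (show jc p ≤ s by omega) (by omega)] at hu
  have ds : (Me p P).s s - (Me p P).s i ≤ 3 * w := by
    have a1 := e.cl.sm s2
    have a2 := e.cl.sm i1
    rw [s_rev H e] at a1
    linarith only [a1, a2, e.gam, U2, n5, n6]
  have Y := legsX Lg (j0 := i) (K := k) (x := 1 / C) (c := fun j => if j < p.Jp P then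
    (Me p P).dz m a j else 0) (cm := 54 * (C * p.v * log p.n * uc p / P.γ)) σ0 (by omega)
    (by positivity) (e.cl.atom.1.trans (Lg.zm (show p.J - 1 ≤ i by omega))) (fun j a b => by
      rcases lt_or_ge j (p.Jp P) with d | d
      · have := e.cl.flr j (show p.jf ≤ j by omega) d
        rw [ms j (by omega)] at this
        refine le_trans ?_ this
        show _ ≤ p.κ ^ 7 * p.v / (C * 1)
        exact div_le_div_of_nonneg_left (by positivity) (by positivity) (by nlinarith only [C1])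
      · exact lw.lo j d b) (fun j a b => by
      rcases lt_or_ge j (p.Jp P) with d | d
      · have := e.cei.up j (show p.jf + 1 ≤ j by omega) d
        rw [ms j (by omega)] at this
        refine le_trans (mul_le_mul_of_nonneg_right (this.trans ?_) m0.le) n2
        show C * 1 * p.κ ^ 7 * p.v ≤ C * p.v
        rw [mul_one]
        exact mul_le_mul_of_nonneg_right (mul_le_of_le_one_right C0'.le
          (pow_le_one₀ κ0.le κ1)) v0.le
      · exact lw.hi j d b) (by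
      have a1 : (Me p P).H (Me p P).N ≤ C * p.A * log p.n := e.cl.HN
      rw [H.hA] at a1
      linarith only [a1, hK, H_nonneg e.cl.leg i]) (by positivity) fun j hj => by
    split_ifs with b
    · exact ⟨Lg.dz_nonneg j, dz_le H e h.sp n8 i1 (mem_Ioo.1 hj).1 b hd⟩
    · exact ⟨le_rfl, by positivity⟩
  have T := top_cl e.cl Lg (i := i) (s := s) (by omega) i2 s1.le (by omega) hu ds n7 Y
  have d0 : 0 ≤ duE p P i := sub_nonneg.2 (Lg.z1 _)
  have t0 : 0 ≤ duE p P i * U3 p P m a i :=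
    mul_nonneg d0 (E2_nonneg (fun _ _ => by positivity) i)
  have k3 : ((k : ℝ) + 2) ^ 2 ≤ (((p.n : ℝ) ^ η) ^ 3) ^ 2 := pow_le_pow_left₀ (by positivity) k2 2
  generalize (((p.n : ℝ) ^ η) ^ 3) ^ 2 = L at *
  have L1 : 0 ≤ L := le_trans (by positivity) k3
  refine T.trans ?_
  show 864 * (duE p P i * U3 p P m a i) + (864 * (4 * ((k : ℝ) + 2) ^ 2 *
    (54 * (C * p.v * log p.n * uc p / P.γ) / (p.κ ^ 7 * p.v / C ^ 2 * m) / (1 / C) ^ 2)) +
    8 * (p.n : ℝ) ^ (-(2 : ℝ)) + duE p P i * (3456 * (C' * (Mv30.mvA (D p P m a E) (kk p)⁻¹ (1 / C) +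
      4 * ((k : ℝ) + 2) ^ 2 * (1 / (p.κ ^ 7 * p.v / C ^ 2 * m)) / (1 / C * (kk p)⁻¹ ^ 11) / U)) +
      3460 * (3 * w) ^ 2)) ≤ _
  have f1 : 4 * ((k : ℝ) + 2) ^ 2 * (54 * (C * p.v * log p.n * uc p / P.γ) /
      (p.κ ^ 7 * p.v / C ^ 2 * m) / (1 / C) ^ 2) ≤ 216 * (L * (C * p.v * log p.n * uc p / P.γ /
      (p.κ ^ 7 * p.v / C ^ 2 * m) / (1 / C) ^ 2)) := by
    rw [mul_div_assoc, mul_div_assoc]
    have := mul_le_mul_of_nonneg_right k3 (show 0 ≤ C * p.v * log p.n * uc p / P.γ /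
      (p.κ ^ 7 * p.v / C ^ 2 * m) / (1 / C) ^ 2 by positivity)
    linarith only [this]
  have f2 : 4 * ((k : ℝ) + 2) ^ 2 * (1 / (p.κ ^ 7 * p.v / C ^ 2 * m)) / (1 / C * (kk p)⁻¹ ^ 11) / U ≤
      4 * (L * (1 / (p.κ ^ 7 * p.v / C ^ 2 * m)) / (1 / C * (kk p)⁻¹ ^ 11) / (w / p.v)) := by
    rw [mul_assoc, mul_div_assoc 4, mul_div_assoc 4]
    gcongr
  have W0 : 0 ≤ C * (kk p ^ 19 * W) := by
    have := (Mv30.IU_nonneg h.ok).trans h1
    have := nonneg_of_mul_nonneg_right this (pow_pos K0 8)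
    positivity
  have R0 : 0 ≤ L * (1 / (p.κ ^ 7 * p.v / C ^ 2 * m)) / (1 / C * (kk p)⁻¹ ^ 11) / (w / p.v) := by
    positivity
  have Q0 : 0 ≤ L * (C * p.v * log p.n * uc p / P.γ /
      (p.κ ^ 7 * p.v / C ^ 2 * m) / (1 / C) ^ 2) := by positivity
  have f3 := mul_le_mul_of_nonneg_left (add_le_add mv f2) (zero_le_one.trans C1')
  generalize L * (1 / (p.κ ^ 7 * p.v / C ^ 2 * m)) / (1 / C * (kk p)⁻¹ ^ 11) / (w / p.v) = R at *
  generalize C * (kk p ^ 19 * W) = Q at *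
  generalize C' * (Mv30.mvA (D p P m a E) (kk p)⁻¹ (1 / C) + 4 * ((k : ℝ) + 2) ^ 2 *
    (1 / (p.κ ^ 7 * p.v / C ^ 2 * m)) / (1 / C * (kk p)⁻¹ ^ 11) / U) = u at *
  have f4 : duE p P i * (3456 * u + 3460 * (3 * w) ^ 2) ≤
      2 * uc p * (3456 * (C' * (2 * Q + 4 * R)) + 3460 * (3 * w) ^ 2) :=
    (mul_le_mul_of_nonneg_left (by linarith only [f3]) d0).trans
      (mul_le_mul_of_nonneg_right hd (by positivity))
  have g1 : 0 ≤ uc p * (C' * Q) := by positivity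
  have g2 : 0 ≤ uc p * (C' * R) := by positivity
  have g3 : 0 ≤ uc p * w ^ 2 := by positivity
  have g4 := H.rp0 (-(2 : ℝ))
  linarith only [f1, f4, t0, n9, n10, n11, n12, n13, g1, g2, g3, g4, Q0]

/-- **`TopL`** -/
theorem topL {β : ℝ} (hβ : 1 < β) : TopL β := topL_of hβ (pzS hβ)

end Crest.Agent.T156.Alt.R2

end
end

-- ▼ part T156/R2Gb_42
section

/-!
# Row 156, R2: the cubic sum of the top zone from the two passes (helper42)
-/

set_option autoImplicit false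

noncomputable section

namespace Crest.Agent.T156.Alt.R2

open Real Finset Md67

/-- **`GhB`** -/
theorem ghB_of {β : ℝ} (hβ : 1 < β) (h1 : GhX β) (h2 : TopL β) : GhB β := by
  unfold GhX TopL GhB EvA at *
  refine Sml.glueC hβ (enS hβ) (h1.and h2) fun C _ c0 C0 _ _ => ⟨0, fun A _ => ⟨1 / 2000,
    by norm_num, fun c hc c0' => ⟨c, c0', fun η _ _ => ⟨1, fun p H e W => ?_⟩⟩⟩⟩
  intro P m a E ad iu r0
  have G := (e H.r_le_ye P ad.sp).lg H ad.inn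
  obtain ⟨-, i, i1, i2, d, a1, a2⟩ := W.1 P m a ad.sp ad.inn
  have a3 := W.2 P m a E ad iu r0 i i1 i2 d
  have a4 : ∑ k ∈ (Thi p P).filter (fun k => ¬ k < i), (Me p P).dz m a k * U3 p P m a k ≤
      ∑ k ∈ Ico i (Me p P).N, (Me p P).dz m a k * U3 p P m a k :=
    sum_le_sum_of_subset_of_nonneg (fun k hk => by
      obtain ⟨h, h'⟩ := mem_filter.1 hk
      exact mem_Ico.2 ⟨not_lt.1 h', (mem_Ico.1 (mem_filter.1 h).1).2⟩)
      fun k _ _ => mul_nonneg (G.dz_nonneg k) (E2_nonneg (fun r _ => by positivity) k)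
  rw [← sum_filter_add_sum_filter_not (Thi p P) (· < i)]
  have s0 := H.s0
  have N0 := H.N0
  have l2 := (H.lg_num (x := 2) (by norm_num) (by norm_num)).2
  have l3 := (H.lg_num (x := 1000) (by norm_num) (by norm_num)).2
  have b1 : 2 * 2 * 1000 * cb p (848 / 1000) ≤ cb p (169 / 200) := by
    unfold cb
    refine H.le_of_lg (by positivity) (by positivity) ?_
    simp (disch := positivity) only [logb_mul, H.lg_rp]
    linarith [H.η_le]
  have b2 : 2 * cb p (847 / 1000) ≤ cb p (169 / 200) := by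
    unfold cb
    refine H.le_of_lg (by positivity) (by positivity) ?_
    simp (disch := positivity) only [logb_mul, H.lg_rp]
    linarith [H.η_le]
  have b3 : 0 ≤ cb p (848 / 1000) := by unfold cb; positivity
  linarith

end Crest.Agent.T156.Alt.R2

end
end

-- ▼ part T156/EnSr_41
section

/-!
# Row 156 (helper41): the output of SR on the END model, in the form `En91.SrE`
-/

set_option autoImplicit false

noncomputable section

namespace Crest.Agent.T156.Alt.En91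

open Real

theorem srE {β : ℝ} (hβ : 1 < β) (hS : Sr.SrS2) : SrE β := by
  refine Sml.glue' hβ (Sp41.srE hβ hS) 2 one_pos 1 ?_
  intro c0 C0 A c η _ _ _ _
  refine ⟨1, fun p H _ _ _ h P hP m a w => (h P hP m a w).trans ?_⟩
  have s0 := H.s0
  exact mul_le_mul_of_nonneg_left (Pre29.rp_le H.n1 (by linarith [H.c_pos, H.hc])) (by positivity)

end Crest.Agent.T156.Alt.En91

end
end

-- ▼ part T156/EnN_91
section

/-!
# Row 156 (helper91): location of the END model, monomial inequalities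
-/

set_option autoImplicit false
set_option linter.unusedSectionVars false

noncomputable section

namespace Crest.Agent.T156.Alt.En91

open Real

section num
variable (p : Pm)
def nω : ℝ := (p.n : ℝ) ^ (5 / 2 * p.c - 1 / 3)
def nμ : ℝ := (p.n : ℝ) ^ (-(18 / 5 * p.c))
def nρ : ℝ := p.s * (p.n : ℝ) ^ (5 * p.c - 1 / 6)
def nU : ℝ := (p.n : ℝ) ^ (-(5 * p.c) - 1 / 6)
def nb : ℝ := p.s ^ 3 * (p.n : ℝ) ^ (12 * p.c - 1 / 2)
def nY : ℝ := p.s ^ 4 * (p.n : ℝ) ^ (22 * p.c - 13 / 20)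
end num

/-- positivity -/
structure Ps (p : Pm) : Prop where
  x : 0 < nx p
  l0 : 0 < nl0 p
  l : 0 < nl p
  L : 0 < nL p
  X2 : 0 < nX2 p
  X3 : 0 < nX3 p
  G : 0 < nG p
  e : 0 < ne p
  u : 0 < nu p
  j : 0 < nj p
  γ : 0 < nγ p
  N : 0 < nN p
  t : 0 < nt p
  E : 0 < nE p
  p0 : 0 < np p
  ω : 0 < nω p
  μ : 0 < nμ p
  ρ : 0 < nρ p
  U : 0 < nU p
  b : 0 < nb p
  Y : 0 < nY p
  κ : 0 < p.κ
  y : 0 < p.ye
  r : 0 < p.r
  n : (0 : ℝ) < p.n

/-- the inequalities -/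
structure Nb (E C Λ : ℝ) (p : Pm) : Prop where
  a1 : 10 * (E * (p.s * (p.n : ℝ) ^ (p.c / 13 - 1 / 6))) ≤ nl0 p
  a2 : nω p ≤ nl0 p ^ 2
  a3 : 10 * nl0 p ≤ nl p
  a4 : E * nl p ≤ 1
  a5 : 10 * nl p ≤ nt p
  a6 : E * nt p ≤ 1
  a7 : p.r ≤ nl0 p
  a8 : nx p ≤ nl0 p
  a9 : E * nx p ^ 3 ≤ 1
  b1 : E ≤ nL p
  b2 : nL p ≤ p.n
  b3 : E * nx p ≤ nρ p
  b4 : nρ p ≤ nl p
  b5 : E * nx p ^ 4 ≤ nρ p ^ 2
  b6 : E * nG p ^ 4 ≤ (nρ p ^ 2) ^ 3
  b7 : 10 * nl0 p ^ 3 ≤ nX2 p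
  b8 : 10 * (nω p ^ 2 / nl0 p) ≤ nX2 p
  b9 : 10 * nx p ^ 3 ≤ nX2 p
  c1 : 100 * nl0 p ^ 5 ≤ nX3 p
  c2 : 100 * (nω p ^ 3 / nl0 p ^ 2) ≤ nX3 p
  c3 : 10 * (nω p / nl0 p * nx p ^ 3) ≤ nX3 p
  c4 : 10 * nl0 p ^ 3 ≤ nG p
  c5 : 10 * nω p ^ 3 ≤ nG p ^ 2
  c6 : nL p ^ 2 * (nω p / nl p) ≤ nU p
  c7 : 10 * nU p ^ 3 ≤ ne p
  c8 : 10 * (nL p ^ 4 * (nω p ^ 2 / nl p)) ≤ ne p
  c9 : nL p * (nω p ^ 3 / nl p ^ 2) ≤ nG p ^ 2
  d1 : nX2 p ≤ nG p
  d2 : nX2 p ≤ nU p ^ 2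
  d3 : 100 * (nG p * nU p) ≤ ne p
  d4 : 10 * nX3 p ≤ ne p
  d5 : 10 * (1 / (p.n : ℝ)) ≤ ne p
  d6 : E * ne p ≤ nρ p ^ 3
  d7 : E * nU p ^ 2 ≤ nρ p ^ 2
  d8 : E * nX2 p ≤ nρ p ^ 2
  d9 : E * ne p ≤ nρ p ^ 2 * nl p
  e1 : nρ p ≤ nμ p * nl p
  e2 : 1 ≤ p.n * nμ p ^ 2 * nω p ^ 3
  e3 : nμ p ^ 2 * C ^ 2 ≤ p.κ * p.ye ^ 2
  e4 : nμ p ^ 2 ≤ p.κ
  e5 : p.κ ≤ (1 / E) ^ 2
  e6 : E * p.ye ≤ 1
  e7 : E * nx p ^ 3 ≤ nt p ^ 4
  e8 : E * nx p ^ 3 ≤ p.ye ^ 3
  e9 : 10 * nt p ≤ p.ye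
  f1 : 10 * (nω p / nt p) ≤ 1
  f2 : 1000 * (C * (nω p / nt p) ^ 4) ≤ nN p
  f3 : 10 * (nω p / nt p * nx p ^ 3) ≤ nN p
  f4 : 10 * (ne p / nμ p ^ 2) ≤ nb p
  f5 : 10 * (nX2 p * C / nμ p) ≤ nb p
  f6 : 10 * (nL p ^ 4 * nω p ^ 2 / (nμ p * nl p)) ≤ nb p
  f7 : 100 * (ne p ^ 2 / (nμ p * nt p) ^ 2) ≤ nE p
  f8 : 10 * nX2 p ^ 2 ≤ nE p
  f9 : 10 * nN p ≤ nE p
  g1 : 10 * (nl p ^ 3 * nx p ^ 3) ≤ nE p
  g2 : 10 * ((nb p / nt p ^ 2) ^ 2 / nt p) ≤ nE p
  g3 : nE p ≤ (np p / 10) ^ 2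
  g4 : 10 * (nl p * nx p) ≤ np p
  g5 : 100 * (nb p * (C ^ 2 / nl p)) ≤ np p
  g6 : E * np p ≤ nρ p
  g7 : nx p ^ 3 ≤ (nj p / 10) ^ 2
  g8 : 10 * nl0 p ^ 2 ≤ nj p
  g9 : p.s ^ 3 * (p.n : ℝ) ^ (2 * p.c - 1 / 2) ≤ nx p ^ 3
  h1 : Λ * np p ≤ (p.n : ℝ) ^ (13 * p.c) * (p.s ^ 2 * (p.n : ℝ) ^ (-(13 / 40 : ℝ)))
  h2 : Λ * nb p ≤ (p.n : ℝ) ^ (13 * p.c) * (p.s ^ 3 * (p.n : ℝ) ^ (-(1 / 2 : ℝ)))
  h3 : nt p * np p ^ 2 ≤ nE p
  h4 : 100 * (Λ * (nE p / (p.κ * p.ye ^ 2))) ≤ nY p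
  h5 : 10 * (Λ * nu p) ≤ nY p
  h6 : 10 * (Λ * nγ p ^ 2) ≤ nY p
  h7 : 10 * (Λ * (1 / (p.n : ℝ) ^ 2)) ≤ nY p
  h8 : 100 * (Λ * nE p) ≤ nY p
  h9 : 10 * (Λ * (1 / (p.n : ℝ) ^ 4)) ≤ nY p
  i1 : 10 * (C ^ 3 * (E * nt p)) ≤ 1
  i2 : 10 * (C ^ 3 * (E * p.ye)) ≤ 1
  i3 : 10 * (C ^ 3 * nE p) ≤ (np p / 10) ^ 2
  i4 : nG p ^ 3 ≤ nx p ^ 3
  i5 : 1 ≤ p.n * (p.n : ℝ) ^ (-(7 / 20) - p.c)
  i6 : (p.n : ℝ) ^ (-(2 : ℝ)) ≤ nu p
  i7 : 10 * (E * nj p) ≤ p.ye
  i8 : 10 * (E * nγ p) ≤ p.ye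

variable {β c0 C0 c η K₀ : ℝ} {A : ℕ} {p : Pm} (H : Reg β c0 C0 A c η K₀ p)
include H

theorem ps : Ps p := by
  have := H.s0
  have := H.N0
  refine ⟨?_, ?_, ?_, ?_, ?_, ?_, ?_, ?_, ?_, ?_, ?_, ?_, ?_, ?_, ?_, ?_, ?_, ?_, ?_, ?_, ?_, H.κ0,
    H.ye0, H.r0, H.N0⟩
  all_goals
    simp only [nx, nl0, nl, nL, nX2, nX3, nG, ne, nu, nj, nγ, nN, nt, nE, np, nω, nμ, nρ, nU, nb, nY]
    positivity

theorem lg1 (a : ℝ) : logb p.n (p.s * (p.n : ℝ) ^ a) = logb p.n p.s + a := by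
  rw [logb_mul H.s0.ne' (H.rp0 _).ne', H.lg_rp]

theorem lgk (k : ℕ) (a : ℝ) : logb p.n (p.s ^ k * (p.n : ℝ) ^ a) = k * logb p.n p.s + a := by
  rw [logb_mul (pow_pos H.s0 k).ne' (H.rp0 _).ne', H.lg_rp, logb_pow]

set_option maxHeartbeats 1000000 in
theorem nbd (hc : c ≤ 1 / 100000) (hη : 1000 * η ≤ c) {E C : ℝ} (E1 : 1 ≤ E)
    (E2 : E ≤ (p.n : ℝ) ^ (c / 100)) (C1 : 1 ≤ C) (C2 : C ≤ (p.n : ℝ) ^ η) :
    Nb E C ((p.n : ℝ) ^ η) p := by
  obtain ⟨_, _, _, _, _, _, _, _, _, _, _, _, _, _, _, _, _, _, _, _, _, _, _, _, _⟩ := ps H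
  have s0 := H.s0
  have E0 : 0 < E := by linarith
  have C0 : 0 < C := by linarith
  have e := H.hc
  have l1 : logb p.n (nx p) = _ := lg1 H _
  have l2 : logb p.n (nl0 p) = _ := lg1 H _
  have l3 : logb p.n (nl p) = _ := lg1 H _
  have l4 : logb p.n (nL p) = _ := H.lg_rp _
  have l5 : logb p.n (nX2 p) = _ := lgk H _ _
  have l6 : logb p.n (nX3 p) = _ := lgk H _ _
  have l7 : logb p.n (nG p) = _ := H.lg_rp _
  have l8 : logb p.n (ne p) = _ := lgk H _ _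
  have l9 : logb p.n (nu p) = _ := H.lg_rp _
  have l10 : logb p.n (nj p) = _ := H.lg_rp _
  have l11 : logb p.n (nγ p) = _ := H.lg_rp _
  have l12 : logb p.n (nN p) = _ := lgk H _ _
  have l13 : logb p.n (nt p) = _ := H.lg_rp _
  have l14 : logb p.n (nE p) = _ := lgk H _ _
  have l15 : logb p.n (np p) = _ := lgk H _ _
  have l16 : logb p.n (nω p) = _ := H.lg_rp _
  have l17 : logb p.n (nμ p) = _ := H.lg_rp _
  have l18 : logb p.n (nρ p) = _ := lg1 H _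
  have l19 : logb p.n (nU p) = _ := H.lg_rp _
  have l20 : logb p.n (nb p) = _ := lgk H _ _
  have l21 : logb p.n (nY p) = _ := lgk H _ _
  have k1 := H.lg_κ
  have k2 := H.lg_ye
  have k3 := H.lg_r
  have k4 := H.lg_n
  obtain ⟨k5, k6⟩ := H.lg_s
  obtain ⟨k7, k8⟩ := H.lg_cst C1 C2
  have k9 := H.lg_nn E1
  have k10 := (H.lg_mono E0 E2).trans_eq (H.lg_rp _)
  obtain ⟨k11, k12⟩ := H.lg_num (x := 10) (by norm_num) (by norm_num)
  have k13 := (H.lg_num (x := 100) (by norm_num) (by norm_num)).2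
  have k14 := (H.lg_num (x := 1000) (by norm_num) (by norm_num)).2
  have k15 := H.c_pos
  have k16 := H.η_pos
  push_cast at l5 l6 l8 l12 l14 l15 l20 l21
  constructor
  all_goals
    refine H.le_of_lg (by positivity) (by positivity) ?_
    try lg_norm
    simp only [l1, l2, l3, l4, l5, l6, l7, l8, l9, l10, l11, l12, l13, l14, l15, l16, l17, l18, l19,
      l20, l21, k1, k2, k3, k4, e]
    linarith

end Crest.Agent.T156.Alt.En91

end
end

-- ▼ part T156/EnFs_13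
section

/-!
# Row 156, R2 (helper13): `FeS`
-/

set_option autoImplicit false

noncomputable section

namespace Crest.Agent.T156.Alt

open Real

theorem Fe0.fe {K : ℝ} {p : Pm} {P : Pl} {S : Sc} {M : Md} (h : Fe0 K p P S M) :
    En91.Fe (8 * K ^ 2) p P S M := by
  have n1 : (1 : ℝ) ≤ p.n := by linarith [h.n2]
  have x0 : ∀ k, S.J ≤ k → p.xs ≤ M.z (k - 1) := fun k hk =>
    h.ex ▸ h.cl.leg.zm (Nat.sub_le_sub_right hk 1)
  refine ⟨h.cl, h.cei, h.eC, h.eA, h.en, h.ea, h.em, h.eF, h.e0, h.el, h.eJ, h.eP, h.HJ, h.sj, h.G,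
    h.mesh, h.ue.le, ⟨h.u1.1, h.u1.2.trans (rpow_le_rpow_of_exponent_le n1 (by norm_num))⟩,
    fun k a _ c => ?_, fun k a _ => ?_, h.rev, h.spr⟩
  · unfold L69.ds L69.dl
    rw [h.ex]
    exact h.d1' _ (x0 k a) c
  · unfold L69.du
    rcases (h.cl.leg.z1 (k - 1)).eq_or_lt with e | e
    · rw [e, sub_self, mul_zero, zero_add]; positivity
    · have u : 0 < 1 - M.z (k - 1) := sub_pos.2 e
      have := mul_le_mul_of_nonneg_right (h.d3 _ (x0 k a) e) u.le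
      rwa [add_mul, one_mul, div_mul_cancel₀ _ u.ne'] at this



end Crest.Agent.T156.Alt

end
end

-- ▼ part T156/EnFj_91
section

/-!
# Row 156 (helper91): the END model, facts with the junction
-/

set_option autoImplicit false

noncomputable section

namespace Crest.Agent.T156.Alt.En91

open Real Filter Plt13 Mem37 Fa59

/-- (facts with the junction) -/
def FeJ (β : ℝ) : Prop := Cst β fun K p => 5 ≤ p.A → ∀ P, p.SpOk (7 / 20) P →
  ∃ S, Fe K p P S (p.tst P p.ye) ∧ 1 ≤ S.C * S.den ((p.tst P p.ye).z (S.J - 1)) ∧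
    S.den ((p.tst P p.ye).z (S.J - 1)) ≤ S.C

theorem fe_dj {K : ℝ} {p : Pm} {P : Pl} {S : Sc} {M : Md} (h : Fe0 K p P S M) (K1 : 500 ≤ K)
    (x2 : p.xs ≤ 1 - 1 / K) : 1 ≤ S.C * S.den (M.z (S.J - 1)) ∧ S.den (M.z (S.J - 1)) ≤ S.C := by
  have K0 : 0 < K := by linarith
  have n2 := h.n2
  have xs1 : p.xs < 1 := by linarith [one_div_pos.2 K0]
  have g1 : (p.n : ℝ) ^ (-(7 / 20 : ℝ)) ≤ 1 :=
    rpow_le_one_of_one_le_of_nonpos (by linarith) (by norm_num)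
  have g2 : 1 / ((p.n : ℝ) + 1) ≤ (p.n : ℝ) ^ (-(7 / 20 : ℝ)) := by
    refine (one_div_le_one_div_of_le (by linarith) (by linarith : (p.n : ℝ) ≤ p.n + 1)).trans ?_
    rw [one_div, ← rpow_neg_one]
    exact rpow_le_rpow_of_exponent_le (by linarith) (by norm_num)
  rw [h.ex, h.eC]
  constructor
  · have a := ld_xs xs1 g2
    rw [← h.den] at a
    nlinarith [mul_le_mul_of_nonneg_left a (show 0 ≤ 8 * K ^ 2 by positivity)]
  · have a : (p.n : ℝ) ^ (-(7 / 20 : ℝ)) / (1 - p.xs) ≤ K := by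
      rw [div_le_iff₀ (by linarith)]
      rw [le_sub_comm, div_le_iff₀ K0] at x2
      linarith
    nlinarith [h.d3 _ le_rfl xs1]

theorem feJ {β : ℝ} (hβ : 1 < β) : FeJ β := by
  intro c0 C0 hc0 hC0
  obtain ⟨K, K1, H⟩ := memAl β hβ c0 C0 hc0 hC0
  refine ⟨8 * K ^ 2, by nlinarith, fun A hA c hc hc' => ?_⟩
  obtain ⟨K', H'⟩ := fin_ne hβ (show (1:ℝ) / 3 ≤ 7 / 20 by norm_num) (by norm_num) c0 C0 c hc0 hC0 hc
  filter_upwards [H K le_rfl A hA c hc hc', ev_Big K' one_pos,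
    ev_log 36 (show (0:ℝ) < 1 / 200 by norm_num), ev_log 36 hc]
    with n h hB hl hl' p e1 e2 e3 e4 hp A5 P hP
  obtain ⟨N, M⟩ := h p e1 e2 e3 e4 hp
  have E := H' p e4 A5 ⟨e1, hp, hc0, hC0, e3 ▸ hA, e4 ▸ hc, e4 ▸ hc', one_pos, e2 ▸ hB⟩
  rw [← e2] at hl hl'
  rw [← e4] at hl'
  have L := p.lL_le N.nm.n2
  have f := Fe13.fe_gen N hP (M _ _ (alD_spOk N hP)) (by omega) hp.s1 (e4 ▸ hc.le)
    (E.alOk_of_spOk hP).ms (le_trans (by linarith) hl') (le_trans (by linarith) hl)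
  exact ⟨_, f.fe, fe_dj f N.K1 N.x2⟩

end Crest.Agent.T156.Alt.En91

end
end

-- ▼ part T156/EnL_91
section

/-!
# Row 156 (helper91): location of the END model from `TL2x`
-/

set_option autoImplicit false
set_option linter.unusedSectionVars false

noncomputable section

namespace Crest.Agent.T156.Alt.En91

open Real Finset
open Crest.Agent.T156.Alt.L69 Crest.Agent.T156.Alt.L63
open Crest.Agent.T156.Alt.Lt11 (geo_le third four3)
open Crest.Agent.T156.Alt.Ps64 (cube3)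

/-- the context -/
structure Cx (E K Λ : ℝ) (p : Pm) (P : Pl) (S : Sc) (M : Md) : Prop where
  f : Fe K p P S M
  o : Ps p
  b : Nb E S.C Λ p
  E1 : 1 ≤ E
  Λ0 : 0 ≤ Λ
  ry : p.r ≤ p.ye
  y1 : p.ye ≤ 1
  κ1 : p.κ ≤ 1

namespace Cx

variable {E K Λ t : ℝ} {p : Pm} {P : Pl} {S : Sc} {M : Md} (h : Cx E K Λ p P S M)
include h

theorem ms_eq (t : ℝ) : S.ms t = p.κ * max p.r (min t p.ye) ^ 2 := by rw [h.f.em, Pm.ms, one_mul]

theorem mf_eq (t : ℝ) : mf S t = S.ms t := by rw [mf, h.f.eF, div_one]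

theorem ms_top (ht : p.ye ≤ t) : S.ms t = p.κ * p.ye ^ 2 := by
  rw [h.ms_eq, min_eq_right ht, max_eq_right h.ry]

theorem θ_eq : S.θ = p.κ * p.ye ^ 2 := h.ms_top h.y1

theorem ms_one (t : ℝ) : S.ms t ≤ 1 :=
  (h.f.cl.ms1 t).trans (h.θ_eq.trans_le (mul_le_one₀ h.κ1 (sq_nonneg _)
    (pow_le_one₀ h.o.y.le h.y1)))

theorem ms_up (ht : p.r ≤ t) : S.ms t ≤ p.κ * t ^ 2 := by
  rw [h.ms_eq]
  exact mul_le_mul_of_nonneg_left (pow_le_pow_left₀ (h.o.r.le.trans (le_max_left _ _))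
    (max_le ht (min_le_left _ _)) 2) h.o.κ.le

theorem ms_lo (h0 : 0 ≤ t) (h1 : t ≤ S.C) : (nμ p * t) ^ 2 ≤ S.ms t := by
  rcases le_total t p.ye with c | c
  · rw [h.ms_eq, min_eq_left c, mul_pow]
    exact mul_le_mul h.b.e4 (pow_le_pow_left₀ h0 (le_max_right _ _) 2) (sq_nonneg _) h.o.κ.le
  · rw [h.ms_top c, mul_pow]
    exact (mul_le_mul_of_nonneg_left (pow_le_pow_left₀ h0 h1 2) (sq_nonneg _)).trans h.b.e3

theorem l0l : nl0 p ≤ nl p := by linarith [h.b.a3, h.o.l0]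
theorem l1 : nl p ≤ 1 := by nlinarith [h.b.a4, h.o.l, h.E1]
theorem t1 : nt p ≤ 1 := by nlinarith [h.b.a6, h.o.t, h.E1]
theorem x1 : nx p ^ 3 ≤ 1 := by nlinarith [h.b.a9, pow_pos h.o.x 3, h.E1]
theorem L1 : 1 ≤ nL p := h.E1.trans h.b.b1

theorem ρ_ms (ht : nl p ≤ t) : nρ p ^ 2 ≤ S.ms t :=
  (pow_le_pow_left₀ h.o.ρ.le h.b.e1 2).trans
    ((h.ms_lo h.o.l.le (h.l1.trans h.f.cl.C1)).trans (h.f.cl.msm ht))

theorem cr_eq (ht : nl0 p ≤ t) : cr S t = 1 := by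
  have t0 := h.o.l0.trans_le ht
  have m0 := h.f.cl.ms_pos t0.le
  rw [cr, h.f.eF, one_mul]
  refine max_eq_left (rpow_le_one (by positivity) ((div_le_one (by positivity)).2 ?_) (by norm_num))
  exact (h.ms_up (h.b.a7.trans ht)).trans (mul_le_of_le_one_left (sq_nonneg _) h.κ1)

theorem cl_eq (ht : nl0 p ≤ t) : cl S (nx p) t = t + nx p := by rw [cl, h.cr_eq ht, one_mul]

theorem cl_bd (ht : nl0 p ≤ t) : 0 ≤ cl S (nx p) t ∧ cl S (nx p) t ≤ 2 * t := by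
  rw [h.cl_eq ht]
  constructor <;> linarith [h.o.l0, h.o.x, h.b.a8]

theorem gg_le (h0 : 0 < t) (h1 : t ≤ S.C) : 0 < gg S t ∧ gg S t ≤ nω p ^ 3 / t ^ 2 := by
  have n0 := h.f.cl.N0
  have m0 := h.f.cl.ms_pos h0.le
  have ω0 := h.o.ω
  rw [gg, h.f.eF]
  refine ⟨by positivity, ?_⟩
  rw [div_le_div_iff₀ (by positivity) (by positivity)]
  have a := mul_le_mul_of_nonneg_left (h.ms_lo h0.le h1) (mul_pos n0 (pow_pos ω0 3)).le
  have b := mul_le_mul_of_nonneg_right h.b.e2 (sq_nonneg t)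
  rw [← h.f.en] at b
  nlinarith

theorem w3_le (h0 : 0 < t) (h1 : t ≤ S.C) : 0 < S.w3 t ∧ S.w3 t ≤ (nω p / t) ^ 3 := by
  have e : S.w3 t = gg S t / t := by
    have n0 := h.f.cl.N0
    have m0 := h.f.cl.ms_pos h0.le
    rw [Sc.w3, gg]; field_simp
  obtain ⟨a, b⟩ := h.gg_le h0 h1
  rw [e]
  exact ⟨by positivity, (div_le_div_of_nonneg_right b h0.le).trans_eq (by field_simp)⟩

theorem w_le (h0 : 0 < t) (h1 : t ≤ S.C) :
    0 < S.w3 t ^ ((1 : ℝ) / 3) ∧ S.w3 t ^ ((1 : ℝ) / 3) ≤ nω p / t := by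
  obtain ⟨a, b⟩ := h.w3_le h0 h1
  have ω0 := h.o.ω
  exact ⟨rpow_pos_of_pos a _, le_of_pow_le_pow_left₀ (n := 3) (by norm_num) (by positivity)
    (by rw [cube3 a.le]; exact b)⟩

theorem ws_le (ht : nl0 p ≤ t) (h1 : t ≤ S.C) :
    0 ≤ ws S (nx p) t ∧ ws S (nx p) t ≤ 2 * (nω p / t) := by
  have t0 := h.o.l0.trans_le ht
  obtain ⟨a, b⟩ := h.w_le t0 h1
  obtain ⟨c, d⟩ := h.cl_bd ht
  rw [ws]
  exact ⟨by positivity, mul_le_mul ((div_le_iff₀ t0).2 d) b a.le zero_le_two⟩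

theorem uw_le (ht : nl0 p ≤ t) (h1 : t ≤ S.C) :
    0 ≤ uw S (nL p) t ∧ uw S (nL p) t ≤ nL p ^ 2 * (nω p / t) := by
  obtain ⟨a, b⟩ := h.w_le (h.o.l0.trans_le ht) h1
  rw [uw, h.cr_eq ht, mul_one]
  exact ⟨by positivity, mul_le_mul_of_nonneg_left b (sq_nonneg _)⟩

theorem uw_U (ht : nl p ≤ t) (h1 : t ≤ S.C) : uw S (nL p) t ≤ nU p :=
  (h.uw_le (h.l0l.trans ht) h1).2.trans ((mul_le_mul_of_nonneg_left
    (div_le_div_of_nonneg_left h.o.ω.le h.o.l ht) (sq_nonneg _)).trans h.b.c6)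

theorem mn_bd (ht : nl0 p ≤ t) : 0 ≤ min (nx p ^ 3) (cl S (nx p) t ^ 3) :=
  le_min (pow_pos h.o.x 3).le (pow_nonneg (h.cl_bd ht).1 3)

theorem cub (ht : nl0 p ≤ t) (h1 : t ≤ S.C) : t * ws S (nx p) t ^ 3 +
    (t * ws S (nx p) t ^ 3) ^ ((1 : ℝ) / 7) *
      (ws S (nx p) t * min (nx p ^ 3) (cl S (nx p) t ^ 3)) ^ ((6 : ℝ) / 7) ≤ nX3 p := by
  have t0 := h.o.l0.trans_le ht
  have l0 := h.o.l0
  have ω0 := h.o.ω
  have x0 := h.o.x
  obtain ⟨s0, s1⟩ := h.ws_le ht h1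
  have a : t * ws S (nx p) t ^ 3 ≤ nX3 p / 2 := by
    have a1 := mul_le_mul_of_nonneg_left (pow_le_pow_left₀ s0 s1 3) t0.le
    have a2 : t * (2 * (nω p / t)) ^ 3 = 8 * (nω p ^ 3 / t ^ 2) := by field_simp; ring
    have a3 : nω p ^ 3 / t ^ 2 ≤ nω p ^ 3 / nl0 p ^ 2 := by gcongr
    have a4 : 0 ≤ nω p ^ 3 / nl0 p ^ 2 := by positivity
    linarith [h.b.c2]
  have m0 := h.mn_bd ht
  have b : ws S (nx p) t * min (nx p ^ 3) (cl S (nx p) t ^ 3) ≤ nX3 p / 2 := by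
    have b1 : nω p / t ≤ nω p / nl0 p := by gcongr
    have b2 := mul_le_mul (s1.trans (by linarith : _ ≤ 2 * (nω p / nl0 p)))
      (min_le_left (nx p ^ 3) _) m0 (by positivity)
    have b3 : 0 ≤ nω p / nl0 p * nx p ^ 3 := by positivity
    linarith [h.b.c3]
  linarith [geo_le (p := 1 / 7) (q := 6 / 7) (by positivity) (mul_nonneg s0 m0) a b (by norm_num)
    (by norm_num) (by norm_num)]

/-- **the bulk numbers** -/
theorem ln : LN E S M (nl0 p) (nl p) (nx p) (nx p ^ 3) (nL p) (nX2 p) (nX3 p) (nG p)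
    fun _ => ne p := by
  have l0 := h.o.l0
  have l := h.o.l
  have x0 := h.o.x
  have ω0 := h.o.ω
  have E1 := h.E1
  have e0 := h.o.e
  have ρ0 := h.o.ρ
  have L1 := h.L1
  have C1 := h.f.cl.C1
  have l01 := h.l0l.trans h.l1
  obtain ⟨c0, c1⟩ := h.cl_bd le_rfl
  have q2 : nl0 p * cl S (nx p) (nl0 p) ^ 2 ≤ 4 * nl0 p ^ 3 :=
    (mul_le_mul_of_nonneg_left (pow_le_pow_left₀ c0 c1 2) l0.le).trans_eq (by ring)
  have q4 : nl0 p * cl S (nx p) (nl0 p) ^ 4 ≤ 16 * nl0 p ^ 5 :=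
    (mul_le_mul_of_nonneg_left (pow_le_pow_left₀ c0 c1 4) l0.le).trans_eq (by ring)
  refine ⟨h.f.HJ, ?_, (h.w3_le l0 (l01.trans C1)).2.trans (pow_le_pow_left₀ (by positivity)
      ((div_le_iff₀ l0).2 (h.b.a2.trans_eq (sq _))) 3), h.l0l, h.b.a4, fun t t' a b => ?_, x0.le,
    by positivity, h.b.a9, by rw [h.f.eF]; linarith [h.b.b1], h.f.en ▸ h.b.b2, ?_, ?_, ?_,
    by linarith [h.b.b7, pow_pos l0 3], fun t a b => ?_, by linarith [h.b.c1, pow_pos l0 5],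
    fun t a b => ?_, by linarith [h.b.c4, pow_pos l0 3], fun t a b => ?_, fun _ _ _ => le_rfl,
    fun _ _ => by linarith, fun t a b => ?_,
    fun t t' a b c => (h.cub (h.l0l.trans (a.trans b)) c).trans (by linarith [h.b.d4, h.o.X3]),
    fun t a b => ?_, fun t a b => ?_, ?_, fun t a b => ?_⟩
  · have a := mul_le_mul_of_nonneg_left h.f.sj (by linarith : 0 ≤ E)
    have b := h.b.a1
    have c : 0 ≤ 10 * (E * (p.s * (p.n : ℝ) ^ (p.c / 13 - 1 / 6))) → 0 ≤ nl0 p := fun _ => l0.le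
    linarith
  · rcases le_total t' p.r with c | c
    · exact (le_of_eq (by rw [h.ms_eq, h.ms_eq, max_eq_left ((min_le_left _ _).trans c),
        max_eq_left ((min_le_left _ _).trans (b.trans c))])).trans
        (le_add_of_nonneg_right (sq_nonneg _))
    · linarith [h.ms_up c, mul_le_of_le_one_left (sq_nonneg t') h.κ1, h.f.cl.ms_pos a]
  · rw [h.cr_eq h.l0l, one_mul]
    exact (h.b.b3.trans h.b.b4).trans (le_mul_of_one_le_left l.le L1)
  · rw [four3 x0.le, h.mf_eq]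
    exact h.b.b5.trans (h.ρ_ms le_rfl)
  · rw [h.mf_eq]
    exact h.b.b6.trans (pow_le_pow_left₀ (sq_nonneg _) (h.ρ_ms le_rfl) 3)
  · have t0 := l0.trans_le a
    obtain ⟨s0, s1⟩ := h.ws_le a b
    have u : t * ws S (nx p) t ^ 2 ≤ nX2 p / 2 := by
      have a1 := mul_le_mul_of_nonneg_left (pow_le_pow_left₀ s0 s1 2) t0.le
      have a2 : t * (2 * (nω p / t)) ^ 2 = 4 * (nω p ^ 2 / t) := by field_simp; ring
      have a3 : nω p ^ 2 / t ≤ nω p ^ 2 / nl0 p := by gcongr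
      have a4 : 0 ≤ nω p ^ 2 / nl0 p := by positivity
      linarith [h.b.b8]
    have := geo_le (p := 3 / 7) (q := 4 / 7) (by positivity) (h.mn_bd a) u
      ((min_le_left _ _).trans (by linarith [h.b.b9, pow_pos x0 3])) (by norm_num) (by norm_num)
      (by norm_num)
    exact (min_le_right _ _).trans (by linarith)
  · have t0 := l0.trans_le a
    have s0 := (h.ws_le a b).1
    have m1 := (h.cl_bd a).1
    have m2 := h.mn_bd a
    exact (mul_le_of_le_one_left (le_min (by positivity) (by positivity)) (min_le_left _ _)).trans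
      ((min_le_right _ _).trans (h.cub a b))
  · have t0 := l0.trans_le a
    obtain ⟨d0, d1⟩ := h.cl_bd a
    obtain ⟨g0, g1⟩ := h.gg_le t0 (b.trans (h.l1.trans C1))
    have a1 := mul_le_mul (div_le_div_of_nonneg_right (pow_le_pow_left₀ d0 d1 3) t0.le) g1 g0.le
      (by positivity)
    have a2 : (2 * t) ^ 3 / t * (nω p ^ 3 / t ^ 2) = 8 * nω p ^ 3 := by field_simp; ring
    linarith [h.b.c5, pow_pos ω0 3]
  · have t0 := l.trans_le a
    have G0 := h.o.G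
    have U0 := h.o.U
    obtain ⟨u0, u1⟩ := h.uw_le (h.l0l.trans a) b
    have u2 := h.uw_U a b
    have a1 := pow_le_pow_left₀ u0 u2 3
    have a2 : uw S (nL p) t ^ 2 * min (S.ms t / t) t ≤ nL p ^ 4 * (nω p ^ 2 / nl p) := by
      refine (mul_le_mul (pow_le_pow_left₀ u0 u1 2) (min_le_right _ _)
        (le_min (div_nonneg (h.f.cl.ms_pos t0.le).le t0.le) t0.le) (by positivity)).trans ?_
      rw [show (nL p ^ 2 * (nω p / t)) ^ 2 * t = nL p ^ 4 * (nω p ^ 2 / t) by field_simp]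
      gcongr
    have a3 : √(nL p * cr S t * gg S t) ≤ nG p := by
      rw [h.cr_eq (h.l0l.trans a), mul_one, sqrt_le_left G0.le]
      refine le_trans ?_ h.b.c9
      gcongr
      exact (h.gg_le t0 b).2.trans (by gcongr)
    have a4 : √(nX2 p) ≤ nU p := (sqrt_le_left U0.le).2 h.b.d2
    have a5 := mul_le_mul (show √(nL p * cr S t * gg S t) + nG p + nX2 p ≤ 3 * nG p by
      linarith [h.b.d1]) (show uw S (nL p) t + √(nX2 p) ≤ 2 * nU p by linarith) (by positivity)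
      (by positivity)
    have a6 := h.b.d5
    rw [← h.f.en] at a6
    linarith [h.b.c7, h.b.c8, h.b.d3, h.b.d4]
  · rw [h.mf_eq]
    refine h.b.d6.trans (le_of_eq_of_le ?_
      (rpow_le_rpow (sq_nonneg _) (h.ρ_ms a) (by norm_num : (0 : ℝ) ≤ 3 / 2)))
    rw [← rpow_natCast _ 2, ← rpow_mul ρ0.le, ← rpow_natCast]
    norm_num
  · rw [h.mf_eq]
    exact (mul_le_mul_of_nonneg_left (pow_le_pow_left₀ (h.uw_le (h.l0l.trans a) b).1 (h.uw_U a b) 2)
      (by linarith)).trans (h.b.d7.trans (h.ρ_ms a))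
  · rw [h.mf_eq]
    exact h.b.d8.trans (h.ρ_ms le_rfl)
  · rw [h.mf_eq]
    exact h.b.d9.trans (mul_le_mul (h.ρ_ms a) a l.le (h.f.cl.ms_pos (l.trans_le a).le).le)

theorem l4 : L4 S (nx p) (nx p ^ 3) (nt p / 2) S.C (nN p) := fun t a b => by
  have t0 := h.o.t
  have ω0 := h.o.ω
  have x0 := h.o.x
  have a' : nl0 p ≤ t := by linarith [h.l0l, h.b.a5, h.o.l]
  obtain ⟨s0, s1⟩ := h.ws_le a' b
  have s2 : ws S (nx p) t ≤ 4 * (nω p / nt p) := by
    have : nω p / t ≤ nω p / (nt p / 2) := by gcongr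
    rw [div_div_eq_mul_div, mul_div_right_comm] at this
    linarith
  have w0 : 0 < nω p / nt p := by positivity
  have a1 := mul_le_mul b (pow_le_pow_left₀ s0 s2 4) (by positivity) h.f.cl.C0.le
  have m0 := h.mn_bd a'
  have a2 := mul_le_mul ((rpow_le_self_of_le_one s0 (by linarith [h.b.f1])
    (by norm_num : (1 : ℝ) ≤ 3 / 2)).trans s2) ((rpow_le_self_of_le_one m0
      ((min_le_left _ _).trans h.x1) (by norm_num : (1 : ℝ) ≤ 7 / 6)).trans (min_le_left _ _))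
    (by positivity) (by positivity)
  have a3 : 0 ≤ S.C * (nω p / nt p) ^ 4 := mul_nonneg h.f.cl.C0.le (by positivity)
  nlinarith [h.b.f2, h.b.f3]

theorem bs_le (a : nl p ≤ t) (b : t ≤ S.C) : 0 ≤ bs S (nL p) (nX2 p) 0 (fun _ => ne p) t ∧
    bs S (nL p) (nX2 p) 0 (fun _ => ne p) t ≤ nb p / t ^ 2 := by
  have l := h.o.l
  have t0 := l.trans_le a
  have μ0 := h.o.μ
  have e0 := h.o.e
  have X0 := h.o.X2
  have ω0 := h.o.ω
  have L0 := h.o.L
  have m0 := h.f.cl.ms_pos t0.le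
  have m1 := h.ms_lo t0.le b
  obtain ⟨u0, u1⟩ := h.uw_le (h.l0l.trans a) b
  rw [bs, h.mf_eq, add_zero]
  refine ⟨by positivity, ?_⟩
  have a1 : ne p / S.ms t ≤ ne p / nμ p ^ 2 / t ^ 2 := by
    rw [div_div, ← mul_pow]; gcongr
  have a2 : (nX2 p + uw S (nL p) t ^ 2) / √(S.ms t) ≤
      (nX2 p * S.C / nμ p + nL p ^ 4 * nω p ^ 2 / (nμ p * nl p)) / t ^ 2 := by
    refine (div_le_div₀ (by positivity) (add_le_add le_rfl (pow_le_pow_left₀ u0 u1 2))
      (by positivity) (le_sqrt_of_sq_le m1)).trans ?_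
    rw [show (nX2 p + (nL p ^ 2 * (nω p / t)) ^ 2) / (nμ p * t) =
      (nX2 p * t / nμ p + nL p ^ 4 * nω p ^ 2 / (nμ p * t)) / t ^ 2 by field_simp]
    gcongr
  refine (add_le_add a1 a2).trans ?_
  rw [← add_div]
  exact div_le_div_of_nonneg_right (by linarith [h.b.f4, h.b.f5, h.b.f6, h.o.b]) (sq_nonneg _)

theorem GS0 (t t' : ℝ) : GS M S t t' = 0 := sum_eq_zero fun k hk => by
  rw [h.f.G0 k (mem_Ioo.1 (mem_filter.1 hk).1).1]; ring

theorem GP0 : GP M S = 0 := sum_eq_zero fun k hk => by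
  rw [h.f.G0 k (h.f.cl.jl_lt.trans_le (mem_Icc.1 hk).1)]; ring

theorem cB_le : cB M S (fun _ => ne p) (nt p / 2) S.C ≤ 4 * (ne p ^ 2 / (nμ p * nt p) ^ 2) := by
  have t0 := h.o.t
  have μ0 := h.o.μ
  have i3 := h.f.cl.i3
  refine (sum_le_sum (g := fun k => M.dx k * (4 * (ne p ^ 2 / (nμ p * nt p) ^ 2)))
    fun k hk => ?_).trans ?_
  · obtain ⟨a, b, c⟩ := mem_filter.1 hk
    refine mul_le_mul_of_nonneg_left ?_ (h.f.cl.dx_nn k)
    rw [h.cr_eq (by linarith [h.l0l, h.b.a5, h.o.l]), one_mul, h.f.G0 k (mem_Ioo.1 a).1, h.mf_eq]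
    have a1 : ne p ^ 2 / S.ms (M.s k) ≤ ne p ^ 2 / (nμ p * (nt p / 2)) ^ 2 :=
      div_le_div_of_nonneg_left (sq_nonneg _) (by positivity)
        (le_trans (by gcongr) (h.ms_lo (by linarith) c))
    have a2 : ne p ^ 2 / (nμ p * (nt p / 2)) ^ 2 = 4 * (ne p ^ 2 / (nμ p * nt p) ^ 2) := by
      field_simp; ring
    have a3 : min (|(0 : ℝ)| ^ ((4 : ℝ) / 3)) (0 ^ 2 / S.ms (M.s k)) ≤ 0 :=
      (min_le_right _ _).trans_eq (by simp)
    linarith
  · rw [← sum_mul]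
    refine mul_le_of_le_one_left (by positivity) (le_trans (sum_le_sum_of_subset_of_nonneg
      (fun k hk => ?_) fun k _ _ => h.f.cl.dx_nn k) h.f.cl.sum_dx)
    have := mem_Ioo.1 (mem_filter.1 hk).1
    exact mem_Ioc.2 ⟨this.1, by omega⟩

theorem sum_bs : ∑ k ∈ (Ioo S.jl S.J).filter fun k => nl p ≤ M.s k ∧ M.s k ≤ M.s S.J,
    dx M k * bs S (nL p) (nX2 p) 0 (fun _ => ne p) (M.s k) ≤ 4 * (nb p * (S.C ^ 2 / nl p)) := by
  have b0 := h.o.b
  refine (sum_le_sum (g := fun k => nb p * (M.dx k * (1 / max (nl p) (M.s k) ^ 2)))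
    fun k hk => ?_).trans ((sum_le_sum_of_subset_of_nonneg (filter_subset _ _) fun k _ _ =>
      mul_nonneg b0.le (mul_nonneg (h.f.cl.dx_nn k) (by positivity))).trans ?_)
  · obtain ⟨a, b, -⟩ := mem_filter.1 hk
    rw [max_eq_right b]
    exact (mul_le_mul_of_nonneg_left (h.bs_le b (h.f.cl.s_le_C
      ((mem_Ioo.1 a).2.le.trans h.f.cl.i3))).2 (h.f.cl.dx_nn k)).trans_eq (by ring)
  · rw [← mul_sum]
    exact (mul_le_mul_of_nonneg_left (h.f.cl.sum_inv h.o.l) b0.le).trans_eq (by ring)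

theorem sq_ms (ht : p.r ≤ t) : E * √(p.κ * t ^ 2) ≤ t := by
  have E0 : 0 < E := by linarith [h.E1]
  have t0 := h.o.r.trans_le ht
  rw [← le_div_iff₀' E0, sqrt_le_left (by positivity)]
  exact (mul_le_mul_of_nonneg_right h.b.e5 (sq_nonneg t)).trans_eq (by ring)


theorem sJ : 1 ≤ 3 * S.C ^ 3 * M.s S.J := by
  have c := h.f.cl
  have C0 := c.C0
  have a := c.atom.1
  have i0 := c.i0
  have i1 := c.i1
  have i2 := c.i2
  have b1 := (c.z_s (k := S.J - 1) (by omega) (by omega)).2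
  have b2 := (c.s_bds (k := S.J - 1) (by omega)).1
  have b3 : (1 : ℝ) ≤ ((S.J - 1 : ℕ) : ℝ) := by exact_mod_cast (by omega : 1 ≤ S.J - 1)
  have b4 := mul_le_mul_of_nonneg_right b3 (div_pos c.v0 C0).le
  have b5 : S.v ≤ S.C * M.s (S.J - 1) := by rw [← div_le_iff₀' C0]; linarith
  have b6 := mul_le_mul_of_nonneg_left b5 C0.le
  have b7 := mul_le_mul_of_nonneg_right c.C1 (mul_nonneg C0.le (c.s_nn (S.J - 1)))
  have b := (show M.z (S.J - 1) ≤ 3 * S.C ^ 2 * M.s (S.J - 1) by linarith).trans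
    (mul_le_mul_of_nonneg_left (c.sm (Nat.sub_le S.J 1)) (by positivity))
  rw [div_le_iff₀ C0] at a
  linarith [mul_le_mul_of_nonneg_right b C0.le]

theorem le_sJ {x : ℝ} (x0 : 0 ≤ x) (hx : 10 * (S.C ^ 3 * x) ≤ 1) : x ≤ M.s S.J := by
  have C0 := h.f.cl.C0
  refine le_of_mul_le_mul_left (a := 3 * S.C ^ 3) ?_ (by positivity)
  have := mul_nonneg (pow_pos C0 3).le x0
  linarith [h.sJ]

/-- **the numbers of the thick zone** -/
theorem lt : LT2 E S M (nl0 p) (nl p) (nx p ^ 3) (nx p ^ 3) (nL p) (nX2 p) (nN p) (fun _ => 0) (nt p)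
    (M.s S.J) p.ye (nN p) (nE p) (np p) fun _ => ne p := by
  have x0 := h.o.x
  have l := h.o.l
  have t0 := h.o.t
  have y0 := h.o.y
  have E0 : 0 ≤ E := by linarith [h.E1]
  have lt : nl p ≤ nt p := by linarith [h.b.a5]
  refine ⟨h.f.eF, by linarith [h.b.a3, h.o.l0], fun _ => le_rfl,
    fun _ k a _ _ _ _ => by rw [h.f.G0 k a, abs_zero], fun t a _ => ?_,
    by rw [h.GS0, mul_zero]; exact h.o.E.le, ?_, ?_, fun t a b => ?_, ?_,
    h.le_sJ (by positivity) h.b.i2, le_rfl, by linarith [h.b.a5], h.le_sJ (by positivity) h.b.i1,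
    h.b.e7, ?_, ?_, ?_, h.b.g6.trans h.b.b4, by linarith [h.b.g6, h.b.b4, h.b.e9]⟩
  · rw [mul_zero]; exact rpow_nonneg (h.f.cl.ms_pos (l.le.trans a)).le _
  · rw [third x0.le]; exact h.b.b3.trans h.b.b4
  · rw [third x0.le]
    exact (show E * nx p ≤ p.ye by linarith [h.b.b3, h.b.b4, h.b.e9]).trans
      (le_mul_of_one_le_left y0.le h.L1)
  · have c := h.b.a7.trans (h.l0l.trans a)
    exact (mul_le_mul_of_nonneg_left (sqrt_le_sqrt (h.ms_up c)) E0).trans (h.sq_ms c)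
  · rw [h.θ_eq]; exact h.sq_ms h.ry
  · rw [third x0.le]; exact h.l4
  · obtain ⟨b0, b1⟩ := h.bs_le lt (h.t1.trans h.f.cl.C1)
    have a := div_le_div_of_nonneg_right (pow_le_pow_left₀
      (mul_nonneg (h.f.cl.ms_pos t0.le).le b0)
      ((mul_le_of_le_one_left b0 (h.ms_one _)).trans b1) 2) t0.le
    linarith [h.cB_le, h.b.f7, h.b.f8, h.b.f9, h.b.g1, h.b.g2, h.o.E]
  · have p0 := h.o.p0
    have e0 := h.o.E
    have C0 := h.f.cl.C0
    have s0 : 0 < M.s S.J := by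
      by_contra c
      linarith [h.sJ, mul_nonneg (show 0 ≤ 3 * S.C ^ 3 by positivity) (neg_nonneg.2 (not_lt.1 c))]
    have a1 : √(nE p) ≤ np p / 10 := (sqrt_le_left (by positivity)).2 h.b.g3
    have a2 : √(nE p / M.s S.J) ≤ np p / 10 := by
      refine (sqrt_le_left (by positivity)).2 (le_trans ?_ h.b.i3)
      rw [div_le_iff₀ s0]
      nlinarith [mul_le_mul_of_nonneg_left h.sJ e0.le, mul_pos (mul_pos (pow_pos C0 3) e0) s0]
    have a3 : 0 ≤ nb p * (S.C ^ 2 / nl p) := by have := h.o.b; positivity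
    linarith [h.sum_bs, h.b.g5]

theorem jg : E * (nj p + nγ p) ≤ nL p * p.ye :=
  (show E * (nj p + nγ p) ≤ p.ye by linarith [h.b.i7, h.b.i8, h.o.y]).trans
    (le_mul_of_one_le_left h.o.y.le h.L1)

variable {m : ℕ} {a : ℝ}

theorem En_le (t t' : ℝ) : M.En S m a M.q 2 t t' ≤ p.ph2 P M m a := by
  rw [Md.En, Pm.ph2, ← h.f.e0, ← h.f.eP]
  simp only [sq_abs]
  exact sum_le_sum_of_subset_of_nonneg (filter_subset _ _) fun k _ _ =>
    mul_nonneg (h.f.cl.dx_nn k) (sq_nonneg _)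

theorem jn (d : 1 ≤ S.C * S.den (M.z (S.J - 1)) ∧ S.den (M.z (S.J - 1)) ≤ S.C) :
    Jn S M (nx p ^ 3) (nu p) := by
  refine ⟨d.1, d.2, le_trans (pow_le_pow_left₀ (le_trans (rpow_pos_of_pos h.o.n _).le h.f.u0.1)
    h.f.u0.2 3) h.b.i4, fun k a b c => h.b.i5.trans ?_⟩
  rw [h.f.en]
  exact mul_le_mul_of_nonneg_left (h.f.d1 k a b ((h.f.ue.trans h.b.i6).trans c)) h.o.n.le

theorem ap (d : 1 ≤ S.C * S.den (M.z (S.J - 1)) ∧ S.den (M.z (S.J - 1)) ≤ S.C) (hm : 0 < m)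
    (hΦ : p.ph2 P M m a ≤ nx p ^ 3) :
    Ap S M m a (nl0 p) (nx p ^ 3) (nx p ^ 3) 1 (nu p) (nj p) := by
  refine ⟨(h.En_le _ _).trans hΦ, (h.En_le _ _).trans hΦ, fun k _ b _ => ?_, ?_, h.jn d⟩
  · linarith [(Mp9.rb_mem (M := M) (a := a) hm k).2, h.f.cl.q_nn (b.trans h.f.cl.i4.le),
      show M.del m a k = M.rb m a k - M.q k from rfl]
  · have j0 := h.o.j
    have a1 : √(nx p ^ 3) ≤ nj p / 10 := (sqrt_le_left (by positivity)).2 h.b.g7
    rw [h.GS0, h.GP0, add_zero, sqrt_zero]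
    linarith [h.b.g8]

/-- **the output** -/
theorem out (h1 : ∀ k, 2 * nl p ≤ M.s k → M.s k + p.ye ≤ M.s S.J →
      |M.del m a k| ≤ Λ * (np p + bs S (nL p) (nX2 p) 0 (fun _ => ne p) (M.s k)))
    (h2 : LO Λ S M m a (2 * nt p) (nu p) (nE p + nt p * np p ^ 2)) : LocE p P M m a := by
  have Λ0 := h.Λ0
  have t0 := h.o.t
  have y0 := h.o.y
  have Y0 := h.o.Y
  have i3 := h.f.cl.i3
  have θ0 : 0 < p.κ * p.ye ^ 2 := mul_pos h.o.κ (pow_pos y0 2)
  have e2 : nE p + nt p * np p ^ 2 ≤ 2 * nE p := by linarith [h.b.h3]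
  have e3 : (nE p + nt p * np p ^ 2) / (p.κ * p.ye ^ 2) ≤ 2 * (nE p / (p.κ * p.ye ^ 2)) :=
    (div_le_div_of_nonneg_right e2 θ0.le).trans_eq (by ring)
  refine ⟨fun k a b => ?_, ?_, ?_⟩
  · rw [← h.f.eJ] at b
    have l := h.o.l
    have c := h.bs_le (t := M.s k) (by change 2 * nl p ≤ _ at a; linarith)
      (by linarith [h.f.cl.s_le_C i3])
    refine (h1 k a b).trans ((mul_le_mul_of_nonneg_left (add_le_add le_rfl c.2) Λ0).trans ?_)
    have d := div_le_div_of_nonneg_right h.b.h2 (sq_nonneg (M.s k))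
    rw [mul_div_assoc, mul_div_assoc] at d
    linarith [h.b.h1]
  · have a1 := h2.two p.ye S.C (by linarith [h.b.e9]) (h.y1.trans h.f.cl.C1)
    have a2 := h2.pla
    rw [h.GS0, add_zero, h.mf_eq, h.ms_top le_rfl, h.f.en] at a1
    rw [h.GP0, add_zero, h.θ_eq, h.f.en] at a2
    have a3 : (M.s S.Jp - M.s S.J) ^ 2 ≤ nγ p ^ 2 :=
      pow_le_pow_left₀ (sub_nonneg.2 (h.f.cl.sm i3)) h.f.spr 2
    have a4 := a1.trans (mul_le_mul_of_nonneg_left
      (add_le_add ((min_le_right _ _).trans e3) le_rfl) Λ0)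
    have a5 := a2.trans (mul_le_mul_of_nonneg_left (add_le_add (add_le_add (add_le_add
      ((min_le_right _ _).trans e3) le_rfl) a3) le_rfl) Λ0)
    have a6 : ∑ k ∈ (Ioc p.jf (p.Jp P)).filter fun k => p.ye ≤ M.s k,
        (M.z k - M.z (k - 1)) * M.del m a k ^ 2 ≤
        ∑ k ∈ (M.blk S p.ye S.C).filter (· < S.J), dx M k * M.del m a k ^ 2 + Pla M S m a 2 := by
      rw [Pla, ← h.f.e0, ← h.f.eP]
      simp only [sq_abs]
      rw [← sum_union (disjoint_left.2 fun k a b => by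
        have := (mem_filter.1 a).2; have := (mem_Icc.1 b).1; omega)]
      refine sum_le_sum_of_subset_of_nonneg (fun k hk => ?_) fun k _ _ =>
        mul_nonneg (h.f.cl.dx_nn k) (sq_nonneg _)
      obtain ⟨a, b⟩ := mem_filter.1 hk
      rcases lt_or_ge k S.J with c | c
      · exact mem_union_left _ (mem_filter.2 ⟨mem_filter.2
          ⟨a, b, h.f.cl.s_le_C (mem_Ioc.1 a).2⟩, c⟩)
      · exact mem_union_right _ (mem_Icc.2 ⟨c, (mem_Ioc.1 a).2⟩)
    change _ ≤ nY p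
    linarith [h.b.h4, h.b.h5, h.b.h6, h.b.h7]
  · have a1 := h2.four
    rw [sum_eq_zero (s := (M.blk S (2 * nt p) S.C).filter (· < S.J))
      (f := fun k => dx M k * M.G k ^ 4) fun k hk => by
        rw [h.f.G0 k (by
          have := (mem_Ioc.1 (mem_filter.1 (mem_filter.1 hk).1).1).1
          rwa [h.f.e0, ← h.f.el] at this)]
        ring, add_zero, h.f.en] at a1
    have a4 := a1.trans (mul_le_mul_of_nonneg_left (add_le_add e2 le_rfl) Λ0)
    have a6 : ∑ k ∈ (Ioo p.jf p.J).filter fun k => p.ye ≤ M.s k,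
        (M.z k - M.z (k - 1)) * M.del m a k ^ 4 ≤
        ∑ k ∈ (M.blk S (2 * nt p) S.C).filter (· < S.J), dx M k * M.del m a k ^ 4 := by
      rw [← h.f.e0, ← h.f.eJ]
      refine sum_le_sum_of_subset_of_nonneg (fun k hk => ?_) fun k _ _ =>
        mul_nonneg (h.f.cl.dx_nn k) (by positivity)
      obtain ⟨a, b⟩ := mem_filter.1 hk
      have c := mem_Ioo.1 a
      exact mem_filter.2 ⟨mem_filter.2 ⟨mem_Ioc.2 ⟨c.1, c.2.le.trans i3⟩,
        by linarith [h.b.e9], h.f.cl.s_le_C (c.2.le.trans i3)⟩, c.2⟩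
    change _ ≤ nY p
    linarith [h.b.h8, h.b.h9]

end Cx

/-- **location of the END model** -/
theorem locS_of {β : ℝ} (hβ : 1 < β) (hT : TL2x) (hP : LPS) (hS : SrE β) : LocS β := by
  refine Sml.glueCL hβ (feJ hβ) hS hT (fun K => K) (fun c => c / 100) (fun c hc => by positivity)
    fun K hK c0 C0 _ _ => ⟨5, fun A hA => ⟨1 / 100000, by norm_num, fun c hc c0' =>
      ⟨c / 1000, by positivity, fun η hη _ => ⟨K, fun p H hf hs L P hP' m a hm => ?_⟩⟩⟩⟩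
  obtain ⟨S, f, d⟩ := hf (H.hA ▸ hA) P hP'
  have hη' : 1000 * η ≤ c := by linarith
  have E1 : 1 ≤ (p.n : ℝ) ^ (p.c / 100) := one_le_rpow H.N1.le (by rw [H.hc]; positivity)
  have E2 : (p.n : ℝ) ^ (p.c / 100) ≤ (p.n : ℝ) ^ (c / 100) := by rw [H.hc]
  have h : Cx ((p.n : ℝ) ^ (p.c / 100)) K ((p.n : ℝ) ^ η) p P S (p.tst P p.ye) :=
    ⟨f, ps H, nbd H hc hη' E1 E2 f.cl.C1 (f.eC ▸ H.K_le), E1, H.Λ0.le, H.r_le_ye, H.ye1, H.κ1⟩
  have x0 := h.o.x
  obtain ⟨o1, o2⟩ := L S _ f.eC f.eA f.en f.cl m a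
    ⟨f.en ▸ hm.m1, f.en ▸ hm.m2, f.en ▸ hm.a1, f.ea ▸ hm.a2⟩ _ _ _ _ _ _ _ _ _ _ _ _ _ _ _ _ _ _ _ _ _ _ _
    _ _ _ _ ⟨f.cei.toG f.cl, by rw [third x0.le]; exact h.ln,
      hP β c0 C0 A c η K p H hc hη' K P S _ H.K_le f _ E1 E2,
      h.ap d (H.n0.trans_le hm.m1) ((hs P hP' m a hm).trans h.b.g9), h.lt, h.jg⟩ (Or.inl h.b.e8)
  exact h.out o1 o2

end Crest.Agent.T156.Alt.En91

end
end

-- ▼ part T156/EndP_88

/-!
# Row 156 (helper88): the plateau numbers `LP` on the END model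
-/

set_option autoImplicit false
set_option linter.unusedSectionVars false

noncomputable section

namespace Crest.Agent.T156.Alt.En88

open Real Finset
open Crest.Agent.T156.Alt.L69 Crest.Agent.T156.Alt.Ps64 Crest.Agent.T156.Alt.En91

theorem third {x : ℝ} (hx : 0 ≤ x) : (x ^ 3) ^ ((1 : ℝ) / 3) = x := by
  rw [← rpow_natCast, ← rpow_mul hx]; norm_num

/-- a plateau with a logarithmic clock -/
structure Cx (S : Sc) (M : Md) (h u x D lm Λ γ w a B : ℝ) : Prop where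
  P : PD S M h u (x ^ 3) D lm (lm * u) Λ
  x0 : 0 < x
  x1 : x ≤ 1
  γ0 : 0 ≤ γ
  γx : γ ≤ x
  uu : u ≤ S.u0
  l1 : lm ≤ 1
  d3 : ∀ k, S.J ≤ k → k ≤ S.Jp → S.den (M.z (k - 1)) * du M k ≤ du M k + γ
  w1 : S.w3 1 = w
  ea : w / lm = a
  au : a ≤ u
  B0 : 0 ≤ B
  B1 : 8 * w ^ 2 + 1312 * (a ^ 2 * x ^ 3) ≤ B ^ 3

namespace Cx

variable {S : Sc} {M : Md} {h u x D lm Λ γ w a B : ℝ} (C : Cx S M h u x D lm Λ γ w a B)
include C

theorem w0 : 0 < w := C.w1 ▸ C.P.w0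
theorem apos : 0 < a := C.ea ▸ div_pos C.w0 C.P.lm0

theorem du1 (k : ℕ) : du M k ≤ 1 := by rw [du]; linarith [C.P.cl.z_pos (k - 1)]

theorem ds_ge {k : ℕ} (hk : k ∈ nd S M u) : u ≤ ds M S k :=
  le_min (by have := C.P.xs_le hk; have := C.uu; rw [dl]; linarith) (C.P.lt hk).2.2

theorem dd {k : ℕ} (hk : k ∈ nd S M u) : S.den (M.z (k - 1)) * ds M S k ≤ 2 := by
  have a1 := C.d3 k (C.P.lt hk).1 (C.P.lt hk).2.1.le
  have a2 := mul_le_mul_of_nonneg_left (min_le_right (dl M S k) (du M k))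
    (C.P.cl.den0 (M.z (k - 1))).le
  rw [ds]; linarith [C.du1 k, C.γx, C.x1]

theorem T_le (k : ℕ) : √(x ^ 3 / max (dl M S k - S.u0) ((x ^ 3) ^ ((1 : ℝ) / 3))) ≤ x := by
  have x0 := C.x0
  rw [third x0.le]
  exact sqrt_le_iff.2 ⟨x0.le, (div_le_div_of_nonneg_left (by positivity) x0
    (le_max_right _ _)).trans (le_of_eq (by field_simp))⟩

theorem m_le {k : ℕ} (hk : k ∈ nd S M u) : min 1 √(x ^ 3 / du M k) ^ 2 * ds M S k ≤ x ^ 3 := by
  have x0 := C.x0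
  have y0 := C.P.u10.trans_le (C.P.lt hk).2.2
  have a1 : min 1 √(x ^ 3 / du M k) ^ 2 ≤ x ^ 3 / du M k :=
    (pow_le_pow_left₀ (le_min zero_le_one (sqrt_nonneg _)) (min_le_right _ _) 2).trans_eq
      (sq_sqrt (by positivity))
  exact (mul_le_mul a1 (min_le_right _ _) (C.P.ds0 hk).le (by positivity)).trans_eq (by field_simp)

theorem R_le (k : ℕ) : Rp M S (x ^ 3) 1 γ k ≤ 2 * x + min 1 √(x ^ 3 / du M k) := by
  rw [Rp]; linarith [C.T_le k, C.γx]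

theorem R4 {k : ℕ} (hk : k ∈ nd S M u) :
    (Rp M S (x ^ 3) 1 γ k + x) ^ 4 * ds M S k ≤ 656 * x ^ 3 := by
  have x0 := C.x0
  have s0 := C.P.ds0 hk
  have s1 : ds M S k ≤ 1 := (min_le_right _ _).trans (C.du1 k)
  have m1 := C.m_le hk
  have r0 := C.P.Rp0 (Vt := 1) zero_le_one C.γ0 k
  have r1 := C.R_le k
  set m := min 1 √(x ^ 3 / du M k)
  have m0 : 0 ≤ m := le_min zero_le_one (sqrt_nonneg _)
  have m2 : m ≤ 1 := min_le_left _ _
  have b1 : (Rp M S (x ^ 3) 1 γ k + x) ^ 4 ≤ (3 * x + m) ^ 4 :=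
    pow_le_pow_left₀ (by positivity) (by linarith) 4
  have b2 := add_pow_le (show 0 ≤ 3 * x by positivity) m0 4
  have b3 : m ^ 4 ≤ m ^ 2 := pow_le_pow_of_le_one m0 m2 (by norm_num)
  have b4 : x ^ 4 ≤ x ^ 3 := pow_le_pow_of_le_one x0.le C.x1 (by norm_num)
  have b5 : (Rp M S (x ^ 3) 1 γ k + x) ^ 4 ≤ 648 * x ^ 3 + 8 * m ^ 2 := by
    norm_num at b2; nlinarith
  have b6 := mul_le_mul_of_nonneg_right b5 s0.le
  nlinarith [mul_le_mul_of_nonneg_left s1 (show 0 ≤ x ^ 3 by positivity)]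

theorem Rds {k : ℕ} (hk : k ∈ nd S M u) : Rp M S (x ^ 3) 1 γ k * ds M S k ≤ 3 * x := by
  have x0 := C.x0
  have s0 := C.P.ds0 hk
  have s1 : ds M S k ≤ 1 := (min_le_right _ _).trans (C.du1 k)
  have m1 := C.m_le hk
  have r1 := mul_le_mul_of_nonneg_right (C.R_le k) s0.le
  set m := min 1 √(x ^ 3 / du M k)
  have m0 : 0 ≤ m := le_min zero_le_one (sqrt_nonneg _)
  have b : m * ds M S k ≤ x := by
    refine le_of_pow_le_pow_left₀ (n := 2) two_ne_zero x0.le ?_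
    have b4 : x ^ 3 ≤ x ^ 2 := pow_le_pow_of_le_one x0.le C.x1 (by norm_num)
    nlinarith [mul_le_mul_of_nonneg_left s1 (show 0 ≤ m ^ 2 * ds M S k by positivity)]
  nlinarith

theorem aB_le {k : ℕ} (hk : k ∈ nd S M u) : aB S M k ≤ a / ds M S k ∧ aB S M k ≤ 1 := by
  have b := (C.P.aB_le C.w1.le hk).2
  rw [C.ea] at b
  exact ⟨b, b.trans ((div_le_one (C.P.ds0 hk)).2 (C.au.trans (C.ds_ge hk)))⟩

theorem aC_le {k : ℕ} (hk : k ∈ nd S M u) : √(S.w3 1 / lsh M S k) ^ 2 ≤ a / ds M S k ∧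
    √(S.w3 1 / lsh M S k) ≤ 1 := by
  have s0 := C.P.ds0 hk
  have s1 : ds M S k ≤ 1 := (min_le_right _ _).trans (C.du1 k)
  have b := C.P.aC_le C.w1.le hk
  rw [C.ea] at b
  have a1 : a ≤ 1 := C.au.trans ((C.ds_ge hk).trans s1)
  exact ⟨((pow_le_pow_left₀ (sqrt_nonneg _) b 2).trans_eq (sq_sqrt C.apos.le)).trans
    (le_div_self C.apos.le s0 s1), b.trans (sqrt_le_one.2 a1)⟩

theorem aA_le {k : ℕ} (hk : k ∈ nd S M u) : a0 S M (x ^ 3) 1 γ k * ds M S k ≤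
    2 * w + a * (Rp M S (x ^ 3) 1 γ k + x) ^ 2 := by
  have s0 := C.P.ds0 hk
  have d0 := C.P.cl.den0 (M.z (k - 1))
  have l0 := C.P.lm0
  have w0 := C.w0
  have b1 := C.dd hk
  have b2 := div_le_div_of_nonneg_left (sq_nonneg (Rp M S (x ^ 3) 1 γ k + x)) l0 (C.P.lm1 k hk)
  rw [a0, third C.x0.le, C.w1, ← C.ea]
  calc _ = w * (S.den (M.z (k - 1)) * ds M S k +
        (Rp M S (x ^ 3) 1 γ k + x) ^ 2 / (S.den (M.z (k - 1)) * ds M S k)) := by field_simp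
    _ ≤ w * (2 + (Rp M S (x ^ 3) 1 γ k + x) ^ 2 / lm) := by gcongr
    _ = _ := by ring

theorem w_le : w ≤ a := by
  rw [← C.ea]; exact le_div_self C.w0.le C.P.lm0 C.l1

theorem ap2 : ∑ k ∈ nd S M u, dx M k * ap M S (x ^ 3) 1 γ k ^ 2 ≤ 3 * (B + 2 * a) * Λ := by
  have := C.B0
  have := C.apos
  refine le_trans ?_ (mul_le_mul_of_nonneg_left C.P.sum_ds (by positivity))
  rw [mul_sum]
  refine sum_le_sum fun k hk => ?_
  have s0 := C.P.ds0 hk
  have s1 : ds M S k ≤ 1 := (min_le_right _ _).trans (C.du1 k)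
  have A0 := C.P.a00 (Vt := 1) (γ := γ) k
  have b1 : (a0 S M (x ^ 3) 1 γ k ^ ((1 : ℝ) / 3)) ^ 2 ≤ B / ds M S k := by
    refine le_of_pow_le_pow_left₀ (n := 3) (by norm_num) (by positivity) ?_
    rw [← pow_mul, mul_comm 2 3, pow_mul, cube3 A0, div_pow, le_div_iff₀ (by positivity)]
    have c1 := pow_le_pow_left₀ (by positivity) (C.aA_le hk) 2
    have c2 := add_pow_le (show 0 ≤ 2 * w by have := C.w0; positivity)
      (show 0 ≤ a * (Rp M S (x ^ 3) 1 γ k + x) ^ 2 by positivity) 2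
    have c3 := mul_le_mul_of_nonneg_left (C.R4 hk) (sq_nonneg a)
    have c4 := mul_le_mul_of_nonneg_right (c1.trans c2) s0.le
    have c5 := mul_le_mul_of_nonneg_left s1 (sq_nonneg w)
    have := C.B1
    norm_num at c4
    nlinarith
  have b2 : aB S M k ^ 2 ≤ a / ds M S k := by
    nlinarith [(C.aB_le hk).1, (C.aB_le hk).2, C.P.aB0 k]
  have b3 : ap M S (x ^ 3) 1 γ k ^ 2 ≤ 3 * (B / ds M S k) + 6 * (a / ds M S k) := by
    have b4 := (C.aC_le hk).1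
    rw [ap_eq0]
    generalize a0 S M (x ^ 3) 1 γ k ^ ((1 : ℝ) / 3) = y1 at *
    generalize aB S M k = y2 at *
    generalize √(S.w3 1 / lsh M S k) = y3 at *
    nlinarith only [sq_nonneg (y1 - y2), sq_nonneg (y1 - y3), sq_nonneg (y2 - y3), b1, b2, b4]
  exact (mul_le_mul_of_nonneg_left b3 (C.P.dx0 k)).trans_eq (by ring)

theorem ap3 : ∑ k ∈ nd S M u, dx M k * ap M S (x ^ 3) 1 γ k ^ 3 ≤ 308 * a * Λ := by
  have := C.apos
  refine le_trans ?_ (mul_le_mul_of_nonneg_left C.P.sum_ds (by positivity))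
  rw [mul_sum]
  refine sum_le_sum fun k hk => ?_
  have s0 := C.P.ds0 hk
  have A0 := C.P.a00 (Vt := 1) (γ := γ) k
  have r0 := C.P.Rp0 (Vt := 1) zero_le_one C.γ0 k
  have r1 : Rp M S (x ^ 3) 1 γ k + x ≤ 4 := by
    linarith [C.R_le k, C.x1, min_le_left 1 √(x ^ 3 / du M k)]
  have b1 : a0 S M (x ^ 3) 1 γ k ≤ 18 * (a / ds M S k) := by
    rw [← mul_div_assoc, le_div_iff₀ s0]
    have c1 : (Rp M S (x ^ 3) 1 γ k + x) ^ 2 ≤ 4 ^ 2 :=
      pow_le_pow_left₀ (by have := C.x0; positivity) r1 2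
    nlinarith [C.aA_le hk, C.w_le]
  have b2 : aB S M k ^ 3 ≤ a / ds M S k :=
    (pow_le_of_le_one (C.P.aB0 k) (C.aB_le hk).2 (by norm_num)).trans (C.aB_le hk).1
  have b3 := add_pow_le (rpow_nonneg A0 ((1 : ℝ) / 3)) (C.P.aB0 k) 3
  have b5 := add_pow_le (add_nonneg (rpow_nonneg A0 ((1 : ℝ) / 3)) (C.P.aB0 k))
    (sqrt_nonneg (S.w3 1 / lsh M S k)) 3
  have b6 : √(S.w3 1 / lsh M S k) ^ 3 ≤ a / ds M S k :=
    (pow_le_pow_of_le_one (sqrt_nonneg _) (C.aC_le hk).2 (by norm_num)).trans (C.aC_le hk).1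
  rw [cube3 A0] at b3
  rw [← ap_eq0] at b5
  have b4 : ap M S (x ^ 3) 1 γ k ^ 3 ≤ 308 * (a / ds M S k) := by
    norm_num at b3 b5; linarith only [b1, b2, b3, b5, b6]
  exact (mul_le_mul_of_nonneg_left b4 (C.P.dx0 k)).trans_eq (by ring)

theorem pL {L : ℝ} (L0 : 0 ≤ L) (i : ℕ) : ((L ^ 3) ^ ((2 : ℝ) / 3)) ^ i = L ^ (2 * i) := by
  rw [← rpow_natCast L 3, ← rpow_mul L0, pow_mul, ← rpow_natCast L 2]; norm_num

theorem R2 : ∑ k ∈ nd S M u, dx M k * Rp M S (x ^ 3) 1 γ k ^ 2 ≤ 9 * x ^ 3 * Λ + 3 * γ ^ 2 :=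
  C.P.sum_Rp zero_le_one

theorem n2 {L : ℝ} (L1 : 1 ≤ L) : 0 ≤ Np M S (x ^ 3) 1 γ u (L ^ 3) 2 ∧
    Np M S (x ^ 3) 1 γ u (L ^ 3) 2 ≤
      u + (L ^ 4 * (3 * (B + 2 * a) * Λ) + (9 * x ^ 3 * Λ + 3 * γ ^ 2)) := by
  have L0 : 0 ≤ L := by linarith
  refine ⟨add_nonneg C.P.u10.le (sum_nonneg fun k _ => mul_nonneg (C.P.dx0 k) ?_),
    (C.P.Np_le _ _).trans ?_⟩
  · have := C.P.Rp0 (Vt := 1) zero_le_one C.γ0 k
    exact add_nonneg (sq_nonneg _) (le_min (by positivity) (by positivity))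
  · rw [C.pL L0]
    exact add_le_add le_rfl (add_le_add (mul_le_mul_of_nonneg_left C.ap2 (by positivity))
      ((div_le_self (sum_nonneg fun k _ => mul_nonneg (C.P.dx0 k) (sq_nonneg _))
        (one_le_pow₀ L1)).trans C.R2))

theorem n3 {L : ℝ} (L1 : 1 ≤ L) : Np M S (x ^ 3) 1 γ u (L ^ 3) 3 ≤
    u + (L ^ 6 * (308 * a * Λ) + 3 * (9 * x ^ 3 * Λ + 3 * γ ^ 2)) := by
  have L0 : 0 ≤ L := by linarith
  have := C.P.Λ0
  have := C.x0
  refine (C.P.Np_le _ _).trans ?_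
  rw [C.pL L0]
  refine add_le_add le_rfl (add_le_add (mul_le_mul_of_nonneg_left C.ap3 (by positivity))
    ((div_le_self (sum_nonneg fun k _ => mul_nonneg (C.P.dx0 k)
      (pow_nonneg (C.P.Rp0 zero_le_one C.γ0 k) 3)) (one_le_pow₀ L1)).trans
      ((C.P.sum_Rp3 zero_le_one C.γ0).trans (mul_le_mul_of_nonneg_right ?_ (by positivity)))))
  rw [third C.x0.le]; linarith [C.x1, C.γx]

theorem mem {k : ℕ} (a1 : S.J ≤ k) (a2 : k ≤ S.Jp) (a3 : u ≤ du M k) : k ∈ nd S M u :=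
  mem_filter.2 ⟨mem_Icc.2 ⟨a1, a2⟩, a3⟩

theorem far {Lp : ℝ} (h1 : γ ≤ Lp * lm) (h2 : w ≤ Lp * (x * lm ^ 2)) :
    Far M S (x ^ 3) 1 γ u Lp := by
  intro i k hi hik hk hu
  have hd : du M k ≤ du M i := by
    rw [du, du]; linarith [C.P.cl.leg.zm (show i - 1 ≤ k - 1 by omega)]
  have mk := C.mem (hi.trans hik) hk hu
  have yk := C.P.u10.trans_le hu
  have l0 := C.P.lm0
  have lk : lm ≤ lsh M S k := C.P.lm1 k mk
  have dk := C.P.cl.den0 (M.z (k - 1))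
  have di := C.P.cl.den0 (M.z (i - 1))
  have w0 := C.w0
  have x0 := C.x0
  have L0 : 0 ≤ Lp := by
    by_contra c
    nlinarith [mul_pos x0 (pow_pos l0 2)]
  have b1 : lm ≤ S.den (M.z (k - 1)) * du M i :=
    lk.trans (mul_le_mul_of_nonneg_left ((min_le_right _ _).trans hd) dk.le)
  have b2 : S.den (M.z (i - 1)) ≤ 1 + Lp * S.den (M.z (k - 1)) := by
    refine le_of_mul_le_mul_right ((C.d3 i hi (hik.trans hk)).trans ?_) (yk.trans_le hd)
    nlinarith [mul_le_mul_of_nonneg_left b1 L0]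
  have b3 : x * lm ^ 2 ≤ (lsh M S k + x) * lsh M S k ^ 2 :=
    mul_le_mul (by linarith) (pow_le_pow_left₀ l0.le lk 2) (by positivity) (by linarith)
  have s0 : 0 < lsh M S k := l0.trans_le lk
  rw [third x0.le, C.w1]
  refine le_trans ?_ (le_mul_of_one_le_right (by positivity) (one_le_pow₀ (le_max_left _ _)))
  nlinarith [mul_le_mul_of_nonneg_left b2 w0.le, mul_le_mul_of_nonneg_left b3 L0]

end Cx

set_option hygiene false in
local macro "lg" : tactic => `(tactic| ((try lg_norm); linarith only [σ0, σ1, c0', hc, η0, hη, lE,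
  ln, lx, lL, lX, lY, lG, le, lu, lj, lγ, lLc, lec, lτ, lN, ll, lh, lΛ, lB, lU, lθ, lw]))

set_option hygiene false in
local macro "lg'" : tactic => `(tactic| ((try lg_norm); linarith only [σ0, σ1, c0', hc, η0, hη, lE,
  ln, lx, lX, lG, lj, lLc, lec, lθ, lw, l1]))

set_option maxHeartbeats 1600000 in
/-- **the plateau numbers of the END model** -/
theorem lpS : LPS := by
  intro β c0 C0 A c η K₀ p H hc hη K P S M _ F E E1 E2
  have n0 := H.N0
  have s0 := H.s0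
  have c0' := H.c_pos
  have η0 := H.η_pos
  obtain ⟨σ0, σ1⟩ := H.lg_s
  have ln := H.lg_n
  have ec := H.hc
  have E0 : 0 < E := by linarith
  have lE : logb p.n E ≤ c / 100 := (H.lg_mono E0 E2).trans_eq (H.lg_rp _)
  have t : ∀ {y z : ℝ}, 0 < y → 0 < z → logb p.n y + η ≤ logb p.n z → 1000 * y ≤ z :=
    fun {y z} hy hz h => H.le_of_lg (by positivity) hz (by
      rw [logb_mul (by norm_num) hy.ne']
      linarith [(H.lg_num (x := 1000) (by norm_num) le_rfl).2])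
  have t' : ∀ {y z : ℝ}, 0 < y → 0 < z → logb p.n y ≤ logb p.n z → y ≤ z :=
    fun hy hz h => H.le_of_lg hy hz h
  have mo : ∀ (i : ℕ) (e : ℝ), 0 < p.s ^ i * (p.n : ℝ) ^ e ∧
      logb p.n (p.s ^ i * (p.n : ℝ) ^ e) = i * logb p.n p.s + e := fun i e =>
    ⟨by positivity, by rw [logb_mul (by positivity) (by positivity), logb_pow, H.lg_rp]⟩
  have m1 : ∀ e : ℝ, 0 < p.s * (p.n : ℝ) ^ e ∧
      logb p.n (p.s * (p.n : ℝ) ^ e) = logb p.n p.s + e := fun e => by simpa using mo 1 e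
  have m0 : ∀ e : ℝ, 0 < (p.n : ℝ) ^ e ∧ logb p.n ((p.n : ℝ) ^ e) = e := fun e =>
    ⟨by positivity, H.lg_rp e⟩
  obtain ⟨x0, lx⟩ : 0 < nx p ∧ logb p.n (nx p) = _ := m1 _
  obtain ⟨L0, lL⟩ : 0 < nL p ∧ logb p.n (nL p) = _ := m0 _
  obtain ⟨X0, lX⟩ : 0 < nX2 p ∧ logb p.n (nX2 p) = _ := mo _ _
  obtain ⟨Y0, lY⟩ : 0 < nX3 p ∧ logb p.n (nX3 p) = _ := mo _ _
  obtain ⟨G0, lG⟩ : 0 < nG p ∧ logb p.n (nG p) = _ := m0 _
  obtain ⟨e0, le⟩ : 0 < ne p ∧ logb p.n (ne p) = _ := mo _ _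
  obtain ⟨u0, lu⟩ : 0 < nu p ∧ logb p.n (nu p) = _ := m0 _
  obtain ⟨j0, lj⟩ : 0 < nj p ∧ logb p.n (nj p) = _ := m0 _
  obtain ⟨γ0, lγ⟩ : 0 < nγ p ∧ logb p.n (nγ p) = _ := m0 _
  obtain ⟨Lc0, lLc⟩ : 0 < nLc p ∧ logb p.n (nLc p) = _ := m0 _
  obtain ⟨ec0, lec⟩ : 0 < nη p ∧ logb p.n (nη p) = _ := mo _ _
  obtain ⟨τ0, lτ⟩ : 0 < nτ p ∧ logb p.n (nτ p) = _ := m1 _
  obtain ⟨N0, lN⟩ : 0 < nN p ∧ logb p.n (nN p) = _ := mo _ _
  obtain ⟨l0, ll⟩ := m0 (-(7 / 20) - p.c)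
  obtain ⟨h0, lh⟩ := m0 (-(2 : ℝ))
  obtain ⟨Λ0, lΛ⟩ := m0 (2 * η)
  obtain ⟨B0, lB⟩ := m1 (-(53 / 100))
  obtain ⟨U0, lU⟩ := m0 (-(1 / 3 : ℝ))
  have spr : M.s S.Jp - M.s S.J ≤ nγ p := F.spr
  have d3 : ∀ k, S.J ≤ k → k ≤ S.Jp → S.den (M.z (k - 1)) * du M k ≤ du M k + nγ p := F.d3
  have d1 := F.d1
  have me := F.mesh
  have ue := F.ue
  obtain ⟨uL, uU⟩ := F.u0
  have ΛL : 12 * log (p.n : ℝ) ≤ (p.n : ℝ) ^ (2 * η) := by
    rw [two_mul, rpow_add n0]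
    exact mul_le_mul (le_trans (by norm_num) H.num_le) H.log_le (by linarith only [H.log1]) H.Λ0.le
  have θ0 := F.cl.θ0
  have lθ : logb p.n S.θ = -(7 * c) := by
    have k0 := H.κ0
    have y0 := H.ye0
    rw [show S.θ = S.ms 1 from rfl, F.em, Pm.ms, min_eq_right H.ye1, max_eq_right H.r_le_ye]
    lg_norm
    rw [H.lg_κ, H.lg_ye]; ring
  have ew : S.w3 1 = 1 / (p.n * S.θ) := by rw [Sc.w3, F.eF, F.en, mul_one]; rfl
  have eg : gg S 1 = S.w3 1 := by rw [Sc.w3, gg, mul_one]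
  have mf1 : mf S 1 = S.θ := by rw [mf, F.eF, div_one]; rfl
  have w0 : 0 < S.w3 1 := by rw [ew]; positivity
  have lw : logb p.n (S.w3 1) = 7 * c - 1 := by
    rw [ew]; lg_norm; rw [ln, lθ]; ring
  have GP0 : GP M S = 0 := sum_eq_zero fun k hk => by
    rw [F.G0 k (F.cl.jl_lt.trans_le (mem_Icc.1 hk).1)]; ring
  have GS0 : ∀ a b, GS M S a b = 0 := fun a b => sum_eq_zero fun k hk => by
    rw [F.G0 k (mem_Ioo.1 (mem_filter.1 hk).1).1]; ring
  rw [ec] at lx lL lX lY le lu lN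
  generalize nx p = x at *
  generalize nL p = L at *
  generalize nX2 p = X2 at *
  generalize nX3 p = X3 at *
  generalize nG p = G at *
  generalize ne p = e at *
  generalize nu p = u at *
  generalize nj p = j at *
  generalize nγ p = γ at *
  generalize nLc p = Lc at *
  generalize nη p = ηc at *
  generalize nτ p = τ at *
  generalize nN p = N at *
  generalize (p.n : ℝ) ^ (-(7 / 20) - p.c) = lm at *
  generalize (p.n : ℝ) ^ (-(2 : ℝ)) = h at *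
  generalize (p.n : ℝ) ^ (2 * η) = Λ at *
  generalize p.s * (p.n : ℝ) ^ (-(53 / 100 : ℝ)) = B at *
  generalize (p.n : ℝ) ^ (-(1 / 3 : ℝ)) = U at *
  rw [ec] at ll
  push_cast at lX lY le lec lN
  set w := S.w3 1 with hw
  set θ := S.θ with hθ
  have x1 : x ≤ 1 := t' x0 one_pos (by rw [logb_one]; lg)
  have γx : γ ≤ x := t' γ0 x0 (by lg)
  have ux : u ≤ x := t' u0 x0 (by lg)
  have ul : u ≤ lm := t' u0 l0 (by lg)
  have hu : 1000 * h ≤ u := t h0 u0 (by lg)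
  have L1 : 1 ≤ L := t' one_pos L0 (by rw [logb_one]; lg)
  have U1 : U ≤ 1 := t' U0 one_pos (by rw [logb_one]; lg)
  have e3 := third x0.le
  have lgy : ∀ y, u ≤ y → log (1 + 1 / y) ≤ 2 * log (p.n : ℝ) := fun y hy => by
    have a1 : 1 / y ≤ 1 / u := one_div_le_one_div_of_le u0 hy
    have a2 : 1 / u ≤ p.n := t' (by positivity) n0 (by lg)
    have a3 : 0 < 1 / y := by have := u0.trans_le hy; positivity
    rw [show 2 * log (p.n : ℝ) = log ((p.n : ℝ) ^ 2) by rw [log_pow]; norm_num]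
    exact log_le_log (by linarith only [a3]) (by nlinarith only [H.N3, a1, a2])
  have lm1 : ∀ k, S.J ≤ k → k ≤ S.Jp → u ≤ du M k → lm ≤ S.den (M.z (k - 1)) * ds M S k :=
    fun k a b d => d1 k a b (by linarith only [d, ue, hu, h0])
  have ds1 : ∀ k ∈ nd S M u, u ≤ ds M S k := fun k hk => le_min (by
    have := F.cl.leg.zm (show S.J - 1 ≤ k - 1 by have := (mem_Icc.1 (mem_filter.1 hk).1).1; omega)
    rw [dl]; linarith only [this, ul, uL]) (mem_filter.1 hk).2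
  have C : Cx S M h u x (S.C ^ 2 * (M.ck S.Jp - M.ck S.J)) lm Λ γ w (w / lm) B := by
    refine ⟨⟨F.cl, h0, me, by linarith only [ue, hu, h0], by linarith only [hu, h0],
      by linarith only [hu, h0, ul, uL], by positivity,
      by rw [e3]; linarith only [hu, h0, ux], le_rfl, l0, fun k hk => ?_, by positivity, fun k hk => ?_, ?_, ?_⟩,
      x0, x1, γ0.le, γx, ul.trans uL, t' l0 one_pos (by rw [logb_one]; lg), d3, rfl, rfl,
      t' (by positivity) u0 (by lg), B0.le, ?_⟩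
    · obtain ⟨a, b⟩ := mem_filter.1 hk
      exact lm1 k (mem_Icc.1 a).1 (mem_Icc.1 a).2 b
    · obtain ⟨a, b⟩ := mem_filter.1 hk
      have b1 := lm1 k (mem_Icc.1 a).1 (mem_Icc.1 a).2 b
      exact (mul_le_mul b1 (ds1 k hk) u0.le (l0.le.trans b1)).trans_eq (by ring)
    · linarith only [lgy S.u0 (ul.trans uL), lgy u le_rfl, ΛL]
    · rw [e3]; linarith only [lgy x ux, lgy u le_rfl, ΛL]
    · have a1 : 1000 * w ^ 2 ≤ B ^ 3 := t (by positivity) (by positivity) (by lg)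
      have a2 : 1000 * (1000 * ((w / lm) ^ 2 * x ^ 3)) ≤ B ^ 3 :=
        t (by positivity) (by positivity) (by
          have l3 := (H.lg_num (x := 1000) (by norm_num) le_rfl).2
          lg_norm
          linarith only [l3, σ0, hc, c0', η0, hη, lw, ll, lx, lB])
      have : 0 < (w / lm) ^ 2 * x ^ 3 := by positivity
      linarith only [a1, a2, this, sq_nonneg w]
  have N2 : Np M S (x ^ 3) 1 γ u (L ^ 3) 2 ≤ X2 := by
    have a1 : 1000 * u ≤ X2 := t u0 X0 (by lg)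
    have a2 : 1000 * (L ^ 4 * (B * Λ)) ≤ X2 := t (by positivity) X0 (by lg)
    have a3 : 1000 * (L ^ 4 * (w / lm * Λ)) ≤ X2 := t (by positivity) X0 (by lg)
    have a4 : 1000 * (x ^ 3 * Λ) ≤ X2 := t (by positivity) X0 (by lg)
    have a5 : 1000 * γ ^ 2 ≤ X2 := t (by positivity) X0 (by lg)
    linarith only [(C.n2 L1).2, a1, a2, a3, a4, a5, X0]
  have gx : 1000 * (w * x) ≤ lm * G ^ 2 := t (by positivity) (by positivity) (by lg)
  have wx : 0 < w * x := by positivity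
  have sx : √(x ^ 3) ≤ x := sqrt_le_iff.2 ⟨x0.le, pow_le_pow_of_le_one x0.le x1 (by norm_num)⟩
  have A1 : θ + j + τ + γ ≤ 2 * θ := by
    have a1 : 1000 * j ≤ θ := t j0 θ0 (by lg)
    have a2 : 1000 * τ ≤ θ := t τ0 θ0 (by lg)
    have a3 : 1000 * γ ≤ θ := t γ0 θ0 (by lg)
    linarith only [a1, a2, a3, θ0]
  refine
    { u0 := l0.trans_le uL
      rev := F.rev
      Xp0 := ⟨by positivity, t' (by positivity) one_pos (by lg)⟩
      Vt0 := zero_le_one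
      u1a := by linarith only [ue, hu, h0]
      u1b := ⟨le_rfl, t' (by positivity) one_pos (by lg)⟩
      γ0 := spr
      γ1 := t' (by positivity) one_pos (by lg)
      Lp1 := ⟨one_le_pow₀ L1, by rw [F.en]; exact t' (by positivity) n0 (by lg)⟩
      Lp2 := le_rfl
      far := C.far (t' γ0 (by positivity) (by lg))
        (t' w0 (by positivity) (by lg))
      n2 := N2
      n3 := ?_
      g0p := ⟨t' u0 G0 (by lg), fun k a b d => ?_⟩
      g0c := ⟨lm, l0, lm1, ?_⟩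
      g0d := Or.inr ⟨lm, l0, fun k a b d => ?_, ?_⟩
      g0e := Or.inr ⟨ue.trans (t' h0 (by positivity) (by lg)), fun k a b d f => ?_⟩
      c1 := ?_
      c1' := fun e' he => ?_
      c2 := ?_
      c3 := ?_
      c4 := ?_
      c6 := t' (by positivity) N0 (by lg)
      c8 := (min_le_right _ _).trans (t' (by positivity) N0 (by lg))
      tw := t' w0 (by positivity) (by lg)
      c9 := ?_
      Lc1 := ⟨t' L0 Lc0 (by lg), by rw [F.en]; exact t' Lc0 n0 (by lg)⟩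
      ηc1 := fun u' hu' => ?_
      τ0 := ?_
      τ1 := by rw [e3]; exact t' τ0 x0 (by lg)
      j1 := ?_
      c5 := fun A' B' hA hB => ?_ }
  · have a1 : 1000 * u ≤ X3 := t u0 Y0 (by lg)
    have a3 : 1000 * (L ^ 6 * (w / lm * Λ)) ≤ X3 := t (by positivity) Y0 (by lg)
    have a4 : 1000 * (x ^ 3 * Λ) ≤ X3 := t (by positivity) Y0 (by lg)
    have a5 : 1000 * γ ^ 2 ≤ X3 := t (by positivity) Y0 (by lg)
    linarith only [C.n3 L1, a1, a3, a4, a5, Y0]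
  · have mk := C.mem a b d
    have d0 := F.cl.den0 (M.z (k - 1))
    have r0 := C.P.Rp0 (Vt := 1) zero_le_one γ0.le k
    have a1 : Rp M S (x ^ 3) 1 γ k / S.den (M.z (k - 1)) ≤ 3 * x / lm := by
      rw [div_le_div_iff₀ d0 l0]
      linarith only [mul_le_mul_of_nonneg_left (lm1 k a b d) r0,
        mul_le_mul_of_nonneg_right (C.Rds mk) d0.le]
    have a2 : ds M S k ≤ 1 := (min_le_right _ _).trans (C.du1 k)
    have a3 : 1000 * (w * (x / lm)) ≤ G ^ 2 := t (by positivity) (by positivity) (by lg)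
    have a4 : 1000 * w ≤ G ^ 2 := t w0 (by positivity) (by lg)
    have a5 := mul_le_mul_of_nonneg_left (add_le_add a1 a2) w0.le
    have a6 : w * (3 * x / lm + 1) = 3 * (w * (x / lm)) + w := by ring
    have : 0 < G ^ 2 := by positivity
    linarith only [a3, a4, a5, a6, this]
  · rw [e3]
    have a1 : S.u0 * x ≤ x := mul_le_of_le_one_left x0.le (uU.trans U1)
    linarith only [gx, wx, mul_le_mul_of_nonneg_left (show √(x ^ 3) + γ + u + S.u0 * x ≤ 4 * x by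
      linarith only [a1, sx, γx, ux]) w0.le]
  · exact (lm1 k a b d).trans (mul_le_of_le_one_right (F.cl.den0 _).le
      ((min_le_right _ _).trans (C.du1 k)))
  · rw [e3]
    linarith only [gx, wx,
      mul_le_mul_of_nonneg_left (show x + γ ≤ 2 * x by linarith only [γx]) w0.le]
  · have d0 := F.cl.den0 (M.z (k - 1))
    have a1 : lm ≤ S.den (M.z (k - 1)) * u :=
      (d1 k a b d).trans (mul_le_mul_of_nonneg_left ((min_le_right _ _).trans f.le) d0.le)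
    have a2 := mul_le_mul_of_nonneg_right a1 (sq_nonneg G)
    have a3 := mul_le_mul_of_nonneg_left ux w0.le
    exact le_of_mul_le_mul_right (by linarith only [a2, a3, gx, wx]) u0
  · have a3 : 1000 * (L ^ 6 * (w / lm * Λ)) ≤ N := t (by positivity) N0 (by lg)
    have a4 := mul_le_mul_of_nonneg_left C.ap3 (show 0 ≤ L ^ 6 by positivity)
    rw [mul_sum] at a4
    refine (sum_le_sum fun k _ => ?_).trans (a4.trans (by linarith only [a3, N0]))
    exact (mul_le_mul_of_nonneg_left (min_le_left _ _) (C.P.dx0 k)).trans_eq (by ring)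
  · have a1 : e ≤ X2 := t' e0 X0 (by lg)
    have a2 : G ^ 2 ≤ X2 := t' (by positivity) X0 (by lg)
    have a3 : 1000 * (X2 ^ 2 / θ) ≤ N := t (by positivity) N0 (by lg)
    have a4 := (C.n2 L1).1
    have a5 : e' ≤ 5 * X2 := by rw [he, e3]; linarith only [a1, a2, N2, mul_le_mul_of_nonneg_left x1 X0.le]
    have a6 : 0 ≤ e' := by rw [he, e3]; positivity
    have a7 : e' ^ 2 / θ ≤ (5 * X2) ^ 2 / θ := by gcongr
    have a8 : (5 * X2) ^ 2 / θ = 25 * (X2 ^ 2 / θ) := by ring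
    exact (min_le_right _ _).trans (by linarith only [a3, a7, a8, N0])
  · rw [GP0, GS0]
    simpa using t' (y := (θ * γ) ^ 2 / θ) (by positivity) N0 (by lg)
  · have a1 : 1000 * (θ * τ ^ 3) ≤ N := t (by positivity) N0 (by lg)
    have a2 : 1000 * (θ * U ^ 3) ≤ N := t (by positivity) N0 (by lg)
    have a3 := mul_le_mul_of_nonneg_left (pow_le_pow_left₀ (l0.trans_le uL).le uU 3) θ0.le
    linarith only [a1, a2, a3, N0]
  · rw [GP0]
    have a1 : 1000 * u ^ 2 ≤ N := t (by positivity) N0 (by lg)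
    have a2 : 1000 * (u * e) ≤ N := t (by positivity) N0 (by lg)
    have a3 : 1000 * (u * X2) ≤ N := t (by positivity) N0 (by lg)
    have a4 : 1000 * (u * (θ * γ)) ≤ N := t (by positivity) N0 (by lg)
    have a5 : 1000 * (u * θ) ^ ((3 : ℝ) / 2) ≤ N := t (by positivity) N0 (by lg)
    have a6 : 1000 * (γ * e) ≤ N := t (by positivity) N0 (by lg)
    have a7 : 1000 * (γ * X2) ≤ N := t (by positivity) N0 (by lg)
    have a8 : 1000 * γ ^ ((15 : ℝ) / 7) ≤ N := t (by positivity) N0 (by lg)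
    have a9 : √((0 + 0 ^ 2) / u) = 0 := by simp
    rw [a9]; linarith only [a1, a2, a3, a4, a5, a6, a7, a8, N0]
  · have a1 : 1000 * (w * x ^ 3) ^ ((3 : ℝ) / 4) ≤ N := t (by positivity) N0 (by lg)
    have a2 : 1000 * (θ * j ^ 9) ≤ N := t (by positivity) N0 (by lg)
    have a3 : 1000 * (θ * (x ^ 3) ^ 3) ≤ N := t (by positivity) N0 (by lg)
    linarith only [a1, a2, a3, N0]
  · have u1 : 0 < u' := by rw [hu']; positivity
    have l1 : logb p.n u' = 7 * c / 3 - 5 / 21 := by rw [hu']; lg_norm; linarith only [lLc, lw]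
    rw [e3, mf1, eg, F.en]
    refine ⟨?_, t' (by positivity) θ0 (by lg')⟩
    have a1 : 1000 * u' ^ 3 ≤ ηc := t (by positivity) ec0 (by lg')
    have a2 : 1000 * (u' ^ 2 * θ) ≤ ηc := t (by positivity) ec0 (by lg')
    have a3 : 1000 * (u' ^ 2 * j) ≤ ηc := t (by positivity) ec0 (by lg')
    have a4 : 1000 * (u' ^ 2 * x) ≤ ηc := t (by positivity) ec0 (by lg')
    have a5 : 1000 * (√(Lc * w) * u') ≤ ηc := t (by positivity) ec0 (by lg')
    have a6 : 1000 * (√(Lc * w) * √X2) ≤ ηc := t (by positivity) ec0 (by lg')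
    have a7 : 1000 * (G * u') ≤ ηc := t (by positivity) ec0 (by lg')
    have a8 : 1000 * (G * √X2) ≤ ηc := t (by positivity) ec0 (by lg')
    have a9 : 1000 * (X2 * u') ≤ ηc := t (by positivity) ec0 (by lg')
    have b1 : 1000 * (X2 * √X2) ≤ ηc := t (by positivity) ec0 (by lg')
    have b2 : 1000 * X3 ≤ ηc := t Y0 ec0 (by lg)
    have b3 : 1000 * (1 / (p.n : ℝ)) ≤ ηc := t (by positivity) ec0 (by lg)
    linarith only [a1, a2, a3, a4, a5, a6, a7, a8, a9, b1, b2, b3, ec0]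
  · rw [e3, mf1]
    have a1 : 1000 * (x / Lc) ≤ τ := t (by positivity) τ0 (by lg)
    have a2 : 1000 * (ηc / θ) ≤ τ := t (by positivity) τ0 (by lg)
    linarith only [a1, a2, τ0]
  · have a1 : 1000 * (E * j) ≤ 1 := t (by positivity) one_pos (by lg)
    have a2 : 1000 * (E * τ) ≤ 1 := t (by positivity) one_pos (by lg)
    linarith only [a1, a2]
  · rw [e3] at hB ⊢
    have A0 : 0 ≤ A' := by rw [hA]; positivity
    have A2 : A' ≤ 2 * θ := hA ▸ A1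
    have q0 : 0 ≤ min A' x := le_min A0 x0.le
    have q1 : min A' x ≤ x := min_le_right _ _
    have a1 : X2 * x ≤ θ * x ^ 2 := t' (by positivity) (by positivity) (by lg)
    have a2 : 1000 * ((θ * x ^ 2) ^ 2 / θ) ≤ N := t (by positivity) N0 (by lg)
    have a3 : A' * min A' x ^ 2 ≤ 2 * θ * x ^ 2 := by gcongr
    have a4 : B' ^ 2 / θ ≤ (3 * (θ * x ^ 2)) ^ 2 / θ := by
      have : 0 ≤ B' := by rw [hB]; positivity
      have : B' ≤ 3 * (θ * x ^ 2) := by rw [hB]; linarith only [a1, a3]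
      gcongr
    have a5 : (3 * (θ * x ^ 2)) ^ 2 / θ = 9 * ((θ * x ^ 2) ^ 2 / θ) := by ring
    have a6 : 1000 * (E * X2) ≤ θ := t (by positivity) θ0 (by lg)
    have a7 : 1000 * (E * (θ * x)) ≤ θ := t (by positivity) θ0 (by lg)
    have a8 : E * (A' * min A' x) ≤ E * (2 * θ * x) := by gcongr
    exact ⟨(min_le_right _ _).trans (by linarith only [a2, a4, a5, N0]),
      Or.inr (by linarith only [a6, a7, a8, θ0])⟩

end Crest.Agent.T156.Alt.En88

end
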