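import Crest.Agent.T156.Site_94
import Crest.Agent.T156.Ker_15

/-!
# Row 156 (helper97): regularity of the site factor `SF` under node moves

Any number of replicas, any family of edges; first and mixed second differences, with the parity
gain.
-/

set_option autoImplicit false
set_option linter.unusedSectionVars false

noncomputable section

namespace Crest.Agent.T156.Cas.SF97

open Finset
open Crest.Agent.T157.E Crest.Agent.T157.Casc Crest.Agent.T157.SL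
open Nu87 Ker15 One15
open Site94 (SF dg Crs OddAt SF_eq bdM bdM_dg)
open Crest.ProbabilityR.SpinGlassDynamics (spin)

variable {L : List (Lv Bool)} {r N : ℕ}

theorem um_of_rz {K : ℕ} {σ : SM r} (h : Rz K σ) : Um K σ := ⟨h.self, h.comm, h.ultra⟩

/-- the variance of the level `j` -/
def vv (L : List (Lv Bool)) (j : ℕ) : ℝ := tm L (j + 1) - tm L j

theorem vv0 (rL : R1 L) (j : ℕ) : 0 ≤ vv L j := sub_nonneg.2 (rL.tm_mono j.le_succ)

theorem abs_cv (rL : R1 L) (j : ℕ) (x y : Bool) : |cv L j x y| ≤ vv L j := by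
  rw [cv, rL.cacc, rL.cacc, ← sub_mul, abs_mul, abs_mul, One15.abs_spin, One15.abs_spin, mul_one,
    mul_one]
  exact (abs_of_nonneg (vv0 rL j)).le

theorem PB_mono {N N' : ℕ} (h : N ≤ N') {σ : ℝ} (h0 : 0 < σ) : PB N σ ≤ PB N' σ := by
  unfold PB; gcongr

/-! ### monomials -/

/-- a monomial on a split matrix -/
abbrev EM (L : List (Lv Bool)) (k : Fin r → ℕ) (σ : SM r) : ℝ := TM (fun _ => 1) L 0 σ (mo k)

theorem abs_TM {σ : SM r} (h : Um L.length σ) (z : Bool → ℝ) {F : (Fin r → Bool) → ℝ} {b : ℝ}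
    (hF : ∀ x, |F x| ≤ b) : |TM (fun _ => 1) L z σ F| ≤ b := by
  obtain ⟨s, e, -, he, rfl⟩ := h.lab
  rw [TM_sm w1 s L z he]
  exact One15.abs_TE_le w1 s L z fun x => hF _

theorem abs_EM {σ : SM r} (h : Um L.length σ) (k : Fin r → ℕ) : |EM L k σ| ≤ 1 :=
  abs_TM h 0 fun x => (abs_mo k x).le

section
variable (rL : R1 L) (hM : Mono 0 L) (h1 : 1 ≤ N) (hN : r ≤ N)
include rL hM h1 hN

/-- one move, any bounded function, any field -/
theorem mvF {j : ℕ} (hj : j < L.length) {σ σ' : SM r} (h : Um L.length σ) (h' : Um L.length σ')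
    (H : Mv j σ σ') (z : Bool → ℝ) {F : (Fin r → Bool) → ℝ} {b : ℝ} (hF : ∀ x, |F x| ≤ b) :
    |TM (fun _ => 1) L z σ' F - TM (fun _ => 1) L z σ F| ≤ 2 * N ^ 2 * (b * vv L j) := by
  choose s e _ he hs using fun b : Bool => (show Um L.length (bif b then σ' else σ) by
    cases b <;> assumption).lab
  have e0 : σ = sm _ (e false) L.length := (hs false).symm
  have e1 : σ' = sm _ (e true) L.length := (hs true).symm
  rw [e0, e1] at H
  rw [e0, e1, TM_sm w1 _ L z (he true), TM_sm w1 _ L z (he false)]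
  exact move1 w1 hM hj he H h1 (by simpa using hN) z hF (abs_cv rL j)

theorem mv1 {j : ℕ} (hj : j < L.length) {σ σ' : SM r} (h : Um L.length σ) (h' : Um L.length σ')
    (H : Mv j σ σ') (k : Fin r → ℕ) : |EM L k σ' - EM L k σ| ≤ 2 * N ^ 2 * vv L j := by
  simpa only [one_mul] using mvF rL hM h1 hN hj h h' H 0 fun x => (abs_mo k x).le

theorem mv1p {j : ℕ} (hj : j < L.length) {σ σ' : SM r} (h : Um L.length σ) (h' : Um L.length σ')
    (H : Mv j σ σ') {k : Fin r → ℕ} {a : Fin r} {i : ℕ} (hi : i ≤ j) (ha : Odd (bm σ' k a i))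
    {s : ℝ} (h0 : 0 < s) (hs : tm L i ≤ s) :
    |EM L k σ' - EM L k σ| ≤ min 1 (PB (N + 4) s) * (2 * N ^ 2 * vv L j) := by
  rcases le_total 1 (PB (N + 4) s) with h2 | h2
  · rw [min_eq_left h2, one_mul]; exact mv1 rL hM h1 hN hj h h' H k
  rw [min_eq_right h2]
  choose t e _ he ht using fun b : Bool => (show Um L.length (bif b then σ' else σ) by
    cases b <;> assumption).lab
  have e0 : σ = sm _ (e false) L.length := (ht false).symm
  have e1 : σ' = sm _ (e true) L.length := (ht true).symm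
  rw [e0, e1] at H
  rw [e1] at ha
  rw [EM, EM, e0, e1, TM_sm w1 _ L 0 (he true), TM_sm w1 _ L 0 (he false)]
  refine (move1_par rL hM hj he H h1 (by simpa using hN) hi ha h0 hs).trans ?_
  have := mul_le_mul_of_nonneg_left (mul_le_mul_of_nonneg_right
    (PB_mono (by omega : N + 2 ≤ N + 4) h0) (vv0 rL j)) (by positivity : (0 : ℝ) ≤ 2 * N ^ 2)
  rw [vv] at this ⊢
  linarith

/-- two moves, any bounded function, any field -/
theorem mvF2 {j j' : ℕ} (hjj : j < j') (hj : j' < L.length) {σ₀ σ₁ σ₂ σ₃ : SM r}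
    (h₀ : Um L.length σ₀) (h₁ : Um L.length σ₁) (h₂ : Um L.length σ₂) (h₃ : Um L.length σ₃)
    (H : Mv j σ₀ σ₁) (H' : Mv j' σ₀ σ₂) (H2 : ∀ a c, σ₃ a c + σ₀ a c = σ₁ a c + σ₂ a c)
    (z : Bool → ℝ) {F : (Fin r → Bool) → ℝ} {b : ℝ} (hF : ∀ x, |F x| ≤ b) :
    |TM (fun _ => 1) L z σ₃ F - TM (fun _ => 1) L z σ₁ F -
      (TM (fun _ => 1) L z σ₂ F - TM (fun _ => 1) L z σ₀ F)| ≤
      4 * N ^ 2 * (N + 2) ^ 2 * (b * vv L j * vv L j') := by
  choose s e _ he hs using fun b b' : Bool => (show Um L.length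
    (bif b then (bif b' then σ₃ else σ₁) else (bif b' then σ₂ else σ₀)) by
    cases b <;> cases b' <;> assumption).lab
  have e0 : σ₀ = sm _ (e false false) L.length := (hs false false).symm
  have e1 : σ₁ = sm _ (e true false) L.length := (hs true false).symm
  have e2 : σ₂ = sm _ (e false true) L.length := (hs false true).symm
  have e3 : σ₃ = sm _ (e true true) L.length := (hs true true).symm
  rw [e0, e1] at H
  rw [e0, e2] at H'
  rw [e0, e1, e2, e3] at H2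
  rw [e0, e1, e2, e3, TM_sm w1 _ L z (he true true), TM_sm w1 _ L z (he true false),
    TM_sm w1 _ L z (he false true), TM_sm w1 _ L z (he false false)]
  exact move2 w1 hM hjj hj he H H' H2 h1 (by simpa using hN) z hF (abs_cv rL j) (abs_cv rL j')

theorem mv2 {j j' : ℕ} (hjj : j < j') (hj : j' < L.length) {σ₀ σ₁ σ₂ σ₃ : SM r}
    (h₀ : Um L.length σ₀) (h₁ : Um L.length σ₁) (h₂ : Um L.length σ₂) (h₃ : Um L.length σ₃)
    (H : Mv j σ₀ σ₁) (H' : Mv j' σ₀ σ₂) (H2 : ∀ a c, σ₃ a c + σ₀ a c = σ₁ a c + σ₂ a c)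
    (k : Fin r → ℕ) : |EM L k σ₃ - EM L k σ₁ - (EM L k σ₂ - EM L k σ₀)| ≤
      4 * N ^ 2 * (N + 2) ^ 2 * (vv L j * vv L j') := by
  simpa only [one_mul] using mvF2 rL hM h1 hN hjj hj h₀ h₁ h₂ h₃ H H' H2 0
    fun x => (abs_mo k x).le


theorem par {σ : SM r} (h : Um L.length σ) {k : Fin r → ℕ} {a : Fin r} {i : ℕ}
    (ha : Odd (bm σ k a i)) {s : ℝ} (h0 : 0 < s) (hs : tm L i ≤ s) :
    |EM L k σ| ≤ min 1 (PB (N + 4) s) := by
  refine le_min (abs_EM h k) ?_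
  have hi : i < L.length := by
    by_contra hj
    rw [bm, Finset.sum_eq_zero fun c _ => if_neg (by have := h.le a c; omega)] at ha
    exact absurd ha (by decide)
  obtain ⟨t, e, -, he, rfl⟩ := h.lab
  rw [EM, TM_sm w1 t L 0 he]
  exact (par1_m rL hM he h1 (by simpa using hN) hi ha h0 hs).trans (PB_mono (by omega) h0)

end

/-! ### products -/

section prod
variable {ι : Type} [DecidableEq ι]

theorem abs_prod_le {S : Finset ι} {x : ι → ℝ} (h : ∀ e ∈ S, |x e| ≤ 1) : |∏ e ∈ S, x e| ≤ 1 := by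
  rw [Finset.abs_prod]
  exact Finset.prod_le_one (fun _ _ => abs_nonneg _) h

theorem amul {u v a b : ℝ} (hu : |u| ≤ a) (hv : |v| ≤ b) : |u * v| ≤ a * b := by
  rw [abs_mul]; exact mul_le_mul hu hv (abs_nonneg _) ((abs_nonneg _).trans hu)

theorem prod_d1 {x y : ι → ℝ} {d : ℝ} (S : Finset ι) (hx : ∀ e ∈ S, |x e| ≤ 1)
    (hy : ∀ e ∈ S, |y e| ≤ 1) (h : ∀ e ∈ S, |y e - x e| ≤ d) :
    |∏ e ∈ S, y e - ∏ e ∈ S, x e| ≤ S.card * d := by
  induction S using Finset.induction_on with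
  | empty => simp
  | insert a S ha ih =>
    have e1 := abs_le.1 (amul (hx a (mem_insert_self _ _)) (ih
      (fun e he => hx e (mem_insert_of_mem he)) (fun e he => hy e (mem_insert_of_mem he))
      fun e he => h e (mem_insert_of_mem he)))
    have e2 := abs_le.1 (amul (h a (mem_insert_self _ _))
      (abs_prod_le fun e he => hy e (mem_insert_of_mem he)))
    rw [prod_insert ha, prod_insert ha, card_insert_of_notMem ha, abs_le]
    push_cast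
    constructor <;> linarith [e1.1, e1.2, e2.1, e2.2]

theorem prod_d2 {x₀ x₁ x₂ x₃ : ι → ℝ} {d d' : ℝ} (d0 : 0 ≤ d) (d0' : 0 ≤ d') (S : Finset ι)
    (h₀ : ∀ e ∈ S, |x₀ e| ≤ 1) (h₁ : ∀ e ∈ S, |x₁ e| ≤ 1) (h₂ : ∀ e ∈ S, |x₂ e| ≤ 1)
    (h₃ : ∀ e ∈ S, |x₃ e| ≤ 1) (h : ∀ e ∈ S, |x₁ e - x₀ e| ≤ d) (h' : ∀ e ∈ S, |x₂ e - x₀ e| ≤ d')
    (hp : ∀ e ∈ S, x₃ e + x₀ e = x₁ e + x₂ e) :
    |∏ e ∈ S, x₃ e - ∏ e ∈ S, x₁ e - (∏ e ∈ S, x₂ e - ∏ e ∈ S, x₀ e)| ≤ S.card ^ 2 * (d * d') := by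
  induction S using Finset.induction_on with
  | empty => simp
  | insert a S ha ih =>
    have m := fun e (he : e ∈ S) => mem_insert_of_mem (b := a) he
    have e1 := abs_le.1 (amul (h₀ a (mem_insert_self _ _)) (ih (fun e he => h₀ e (m e he))
      (fun e he => h₁ e (m e he)) (fun e he => h₂ e (m e he)) (fun e he => h₃ e (m e he))
      (fun e he => h e (m e he)) (fun e he => h' e (m e he)) fun e he => hp e (m e he)))
    have e2 := abs_le.1 (amul (h a (mem_insert_self _ _)) (prod_d1 (d := d') S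
      (fun e he => h₁ e (m e he)) (fun e he => h₃ e (m e he)) fun e he => by
        rw [show x₃ e - x₁ e = x₂ e - x₀ e by linarith [hp e (m e he)]]; exact h' e (m e he)))
    have e3 := abs_le.1 (amul (h' a (mem_insert_self _ _)) (prod_d1 (d := d) S
      (fun e he => h₂ e (m e he)) (fun e he => h₃ e (m e he)) fun e he => by
        rw [show x₃ e - x₂ e = x₁ e - x₀ e by linarith [hp e (m e he)]]; exact h e (m e he)))
    have e4 : x₃ a = x₁ a + x₂ a - x₀ a := by linarith [hp a (mem_insert_self _ _)]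
    have e5 := mul_nonneg d0 d0'
    rw [prod_insert ha, prod_insert ha, prod_insert ha, prod_insert ha, card_insert_of_notMem ha,
      e4, abs_le]
    push_cast
    constructor <;> linarith [e1.1, e1.2, e2.1, e2.2, e3.1, e3.2]

end prod

/-! ### the site factor -/

section sf
variable {ι : Type} [DecidableEq ι] {q : ι → ℕ → ℝ} {p p' : ι → Fin r} {B : Finset ι}

/-- the reference factor -/
def Qp (q : ι → ℕ → ℝ) (p p' : ι → Fin r) (σ : SM r) (S : Finset ι) : ℝ :=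
  ∏ e ∈ S, -q e (σ (p e) (p' e))

theorem sum_le {f : Finset ι → ℝ} {c : ℝ} (h : ∀ A ⊆ B, |f A| ≤ c) :
    |∑ A ∈ B.powerset, f A| ≤ 2 ^ B.card * c :=
  (Finset.abs_sum_le_sum_abs _ _).trans ((Finset.sum_le_card_nsmul _ _ c fun A hA =>
    h A (Finset.mem_powerset.1 hA)).trans_eq (by simp))

theorem q_mv {j : ℕ} {σ σ' : SM r} (H : Mv j σ σ') {f : ℕ → ℝ} {d : ℝ} (hd : |f (j + 1) - f j| ≤ d)
    (a b : Fin r) : |-f (σ' a b) - -f (σ a b)| ≤ d := by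
  rcases H a b with e | ⟨e, e'⟩
  · rw [e, sub_self, abs_zero]; exact (abs_nonneg _).trans hd
  · rw [e, e', neg_sub_neg, abs_sub_comm]; exact hd

theorem t1 (hq : ∀ e ∈ B, ∀ j, |q e j| ≤ 1) {j : ℕ} {σ σ' : SM r} (H : Mv j σ σ') {d : ℝ}
    (d0 : 0 ≤ d) (hd : ∀ e ∈ B, |q e (j + 1) - q e j| ≤ d) {S : Finset ι} (hS : S ⊆ B)
    {M M' m₀ m₁ : ℝ} (h0 : |M'| ≤ m₀) (h1 : |M' - M| ≤ m₁) :
    |Qp q p p' σ' S * M' - Qp q p p' σ S * M| ≤ m₁ + B.card * d * m₀ := by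
  have b1 : ∀ τ : SM r, ∀ e ∈ S, |-q e (τ (p e) (p' e))| ≤ 1 := fun τ e he => by
    rw [abs_neg]; exact hq e (hS he) _
  have c : (S.card : ℝ) * d ≤ B.card * d :=
    mul_le_mul_of_nonneg_right (Nat.cast_le.2 (card_le_card hS)) d0
  have e1 := abs_le.1 (amul (abs_prod_le (b1 σ)) h1)
  have e2 := abs_le.1 (amul ((prod_d1 S (b1 σ) (b1 σ')
    fun e he => q_mv H (hd e (hS he)) _ _).trans c) h0)
  rw [Qp, Qp, abs_le]
  constructor <;> linarith [e1.1, e1.2, e2.1, e2.2]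

theorem mv_13 {j j' : ℕ} (hjj : j < j') {σ₀ σ₁ σ₂ σ₃ : SM r} (H : Mv j σ₀ σ₁) (H' : Mv j' σ₀ σ₂)
    (H2 : ∀ a c, σ₃ a c + σ₀ a c = σ₁ a c + σ₂ a c) : Mv j' σ₁ σ₃ ∧ Mv j σ₂ σ₃ := by
  refine ⟨fun a c => ?_, fun a c => ?_⟩ <;> have := H a c <;> have := H' a c <;>
    have := H2 a c <;> omega

theorem t2 (hq : ∀ e ∈ B, ∀ j, |q e j| ≤ 1) {j j' : ℕ} (hjj : j < j') {σ₀ σ₁ σ₂ σ₃ : SM r}
    (H : Mv j σ₀ σ₁) (H' : Mv j' σ₀ σ₂) (H2 : ∀ a c, σ₃ a c + σ₀ a c = σ₁ a c + σ₂ a c)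
    {d d' : ℝ} (d0 : 0 ≤ d) (d0' : 0 ≤ d') (hd : ∀ e ∈ B, |q e (j + 1) - q e j| ≤ d)
    (hd' : ∀ e ∈ B, |q e (j' + 1) - q e j'| ≤ d') {S : Finset ι} (hS : S ⊆ B)
    {M₀ M₁ M₂ M₃ m₀ m₁ m₁' m₂ : ℝ} (h0 : |M₃| ≤ m₀) (h1 : |M₃ - M₂| ≤ m₁) (h1' : |M₃ - M₁| ≤ m₁')
    (h2 : |M₃ - M₁ - (M₂ - M₀)| ≤ m₂) :
    |Qp q p p' σ₃ S * M₃ - Qp q p p' σ₁ S * M₁ - (Qp q p p' σ₂ S * M₂ - Qp q p p' σ₀ S * M₀)| ≤
      m₂ + B.card * d * m₁' + B.card * d' * m₁ + B.card ^ 2 * (d * d') * m₀ := by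
  have b1 : ∀ τ : SM r, ∀ e ∈ S, |-q e (τ (p e) (p' e))| ≤ 1 := fun τ e he => by
    rw [abs_neg]; exact hq e (hS he) _
  have c0 : (S.card : ℝ) ≤ B.card := Nat.cast_le.2 (card_le_card hS)
  have c : (S.card : ℝ) * d ≤ B.card * d := by gcongr
  have c' : (S.card : ℝ) * d' ≤ B.card * d' := by gcongr
  have c2 : (S.card : ℝ) ^ 2 * (d * d') ≤ B.card ^ 2 * (d * d') := by gcongr
  have e1 := abs_le.1 (amul (abs_prod_le (b1 σ₀)) h2)
  have e2 := abs_le.1 (amul ((prod_d1 S (b1 σ₀) (b1 σ₁)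
    fun e he => q_mv H (hd e (hS he)) _ _).trans c) h1')
  have e3 := abs_le.1 (amul ((prod_d1 S (b1 σ₀) (b1 σ₂)
    fun e he => q_mv H' (hd' e (hS he)) _ _).trans c') h1)
  have e4 := abs_le.1 (amul ((prod_d2 d0 d0' S (b1 σ₀) (b1 σ₁) (b1 σ₂) (b1 σ₃)
    (fun e he => q_mv H (hd e (hS he)) _ _) (fun e he => q_mv H' (hd' e (hS he)) _ _)
    fun e _ => by
      have := H2 (p e) (p' e)
      rcases H (p e) (p' e) with e1 | ⟨e1, e1'⟩
      · rw [e1, show σ₃ (p e) (p' e) = σ₂ (p e) (p' e) by omega, add_comm]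
      · have := H' (p e) (p' e)
        rw [show σ₃ (p e) (p' e) = σ₁ (p e) (p' e) by omega,
          show σ₂ (p e) (p' e) = σ₀ (p e) (p' e) by omega]).trans c2) h0)
  rw [Qp, Qp, Qp, Qp, abs_le]
  constructor <;> linarith [e1.1, e1.2, e2.1, e2.2, e3.1, e3.2, e4.1, e4.2]

theorem crs_le {K : ℕ} {σ : SM r} (hσ : Um K σ) {a b c : Fin r} {j : ℕ} (h : Crs σ a j b c) :
    σ b c ≤ j := by
  have h1 := hσ.ultra a b c
  have h2 := hσ.ultra a c b
  rw [hσ.comm c b] at h2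
  unfold Crs at h
  omega

/-- either a reference factor sits on a crossing edge, or the monomial has an odd cluster -/
theorem dich {K : ℕ} {σ : SM r} (hσ : Um K σ) {i : ℕ} (ho : OddAt σ p p' B i) {A : Finset ι}
    (hA : A ⊆ B) : (∃ e ∈ B \ A, σ (p e) (p' e) ≤ i) ∨ ∃ a, Odd (bm σ (dg p p' A) a i) := by
  obtain ⟨a, ha⟩ := ho
  by_cases hc : ∃ e ∈ B \ A, Crs σ a i (p e) (p' e)
  · obtain ⟨e, he, hc⟩ := hc
    exact .inl ⟨e, he, crs_le hσ hc⟩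
  · refine .inr ⟨a, ?_⟩
    show Odd (bdM σ (dg p p' A) a i)
    rw [Nat.odd_iff, bdM_dg, ← Nat.odd_iff]
    convert ha using 2
    ext e
    simp only [Finset.mem_filter]
    exact ⟨fun h => ⟨hA h.1, h.2⟩, fun h => ⟨by
      by_contra h'
      exact hc ⟨e, Finset.mem_sdiff.2 ⟨h.1, h'⟩, h.2⟩, h.2⟩⟩

theorem Qp_erase {S : Finset ι} {e : ι} (he : e ∈ S) (σ : SM r) :
    Qp q p p' σ S = -q e (σ (p e) (p' e)) * Qp q p p' σ (S.erase e) :=
  (Finset.mul_prod_erase _ _ he).symm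

theorem SF_eq' (σ : SM r) : SF L q p p' B σ =
    ∑ A ∈ B.powerset, Qp q p p' σ (B \ A) * EM L (dg p p' A) σ := SF_eq L q p p' B σ

/-- the parity size: `P` bounds `min 1 (PB s)` and the references up to the cut `i` -/
structure Pz (L : List (Lv Bool)) (N : ℕ) (q : ι → ℕ → ℝ) (B : Finset ι) (i : ℕ) (P : ℝ) :
    Prop where
  par : ∃ s, 0 < s ∧ tm L i ≤ s ∧ min 1 (PB (N + 4) s) ≤ P
  ref : ∀ e ∈ B, ∀ j ≤ i, |q e j| ≤ P

theorem Pz.nn {i : ℕ} {P : ℝ} (h : Pz L N q B i P) : 0 ≤ P :=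
  let ⟨_, h0, _, h2⟩ := h.par
  (le_min zero_le_one (PB_nonneg _ h0)).trans h2

variable (rL : R1 L) (hM : Mono 0 L) (h1 : 1 ≤ N) (hN : r ≤ N) (hq : ∀ e ∈ B, ∀ j, |q e j| ≤ 1)
include rL hM h1 hN hq

theorem sf_abs {σ : SM r} (h : Um L.length σ) : |SF L q p p' B σ| ≤ 2 ^ B.card := by
  rw [SF_eq']
  exact (sum_le (B := B) (c := 1) fun A _ => (amul (abs_prod_le fun e he => by
    rw [abs_neg]; exact hq e (mem_sdiff.1 he).1 _) (abs_EM h _)).trans_eq (mul_one _)).trans_eq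
    (mul_one _)

/-- **value with parity** -/
theorem sf_par {σ : SM r} (h : Um L.length σ) {i : ℕ} (ho : OddAt σ p p' B i) {P : ℝ}
    (hP : Pz L N q B i P) : |SF L q p p' B σ| ≤ 2 ^ B.card * P := by
  obtain ⟨s, h0, hs, hp⟩ := hP.par
  have b1 : ∀ S ⊆ B, |Qp q p p' σ S| ≤ 1 := fun S hS => abs_prod_le fun e he => by
    rw [abs_neg]; exact hq e (hS he) _
  rw [SF_eq']
  refine sum_le fun A hA => ?_
  rcases dich h ho hA with ⟨e, he, hi⟩ | ⟨a, ha⟩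
  · rw [Qp_erase he]
    exact (amul (amul ((abs_neg _).trans_le (hP.ref e (mem_sdiff.1 he).1 _ hi))
      (b1 _ ((erase_subset _ _).trans sdiff_subset))) (abs_EM h _)).trans_eq (by ring)
  · exact (amul (b1 _ sdiff_subset) ((par rL hM h1 hN h ha h0 hs).trans hp)).trans_eq (one_mul _)

/-- **one move** -/
theorem sf_mv1 {j : ℕ} (hj : j < L.length) {σ σ' : SM r} (h : Um L.length σ)
    (h' : Um L.length σ') (H : Mv j σ σ') {a : ℝ} (hv : vv L j ≤ a)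
    (hd : ∀ e ∈ B, |q e (j + 1) - q e j| ≤ a) :
    |SF L q p p' B σ' - SF L q p p' B σ| ≤ 2 ^ B.card * ((2 * N ^ 2 + B.card) * a) := by
  have a0 := (vv0 rL j).trans hv
  rw [SF_eq', SF_eq', ← sum_sub_distrib]
  refine sum_le fun A _ => (t1 hq H a0 hd sdiff_subset (abs_EM h' _)
    (mv1 rL hM h1 hN hj h h' H _)).trans ?_
  have : (2 : ℝ) * N ^ 2 * vv L j ≤ 2 * N ^ 2 * a := by gcongr
  linarith

/-- **one move with parity** (odd cluster above the cut `i ≤ j`, after the move) -/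
theorem sf_mv1p {j : ℕ} (hj : j < L.length) {σ σ' : SM r} (h : Um L.length σ)
    (h' : Um L.length σ') (H : Mv j σ σ') {a : ℝ} (hv : vv L j ≤ a)
    (hd : ∀ e ∈ B, |q e (j + 1) - q e j| ≤ a) {i : ℕ} (hi : i ≤ j) (ho : OddAt σ' p p' B i)
    {P : ℝ} (hP : Pz L N q B i P) :
    |SF L q p p' B σ' - SF L q p p' B σ| ≤ 2 ^ B.card * (P * ((2 * N ^ 2 + B.card) * a)) := by
  have v0 := vv0 rL j
  have a0 := v0.trans hv
  have P0 := hP.nn
  obtain ⟨s, h0, hs, hp⟩ := hP.par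
  have c1 : (2 : ℝ) * N ^ 2 * vv L j ≤ 2 * N ^ 2 * a := by gcongr
  rw [SF_eq', SF_eq', ← sum_sub_distrib]
  refine sum_le fun A hA => ?_
  rcases dich h' ho hA with ⟨e, he, hi'⟩ | ⟨c, hc⟩
  · have e0 : σ (p e) (p' e) = σ' (p e) (p' e) := by have := H (p e) (p' e); omega
    rw [Qp_erase he, Qp_erase he σ, e0, mul_assoc, mul_assoc, ← mul_sub]
    refine amul ((abs_neg _).trans_le (hP.ref e (mem_sdiff.1 he).1 _ hi')) ((t1 hq H a0 hd
      ((erase_subset _ _).trans sdiff_subset) (abs_EM h' _)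
      (mv1 rL hM h1 hN hj h h' H _)).trans (by linarith))
  · refine (t1 hq H a0 hd sdiff_subset ((par rL hM h1 hN h' hc h0 hs).trans hp)
      ((mv1p rL hM h1 hN hj h h' H hi hc h0 hs).trans
        (mul_le_mul hp c1 (by positivity) P0))).trans_eq (by ring)

theorem cst2 {n a a' v v' : ℝ} (n0 : 0 ≤ n) (v0 : 0 ≤ v) (v0' : 0 ≤ v') (hv : v ≤ a)
    (hv' : v' ≤ a') : 4 * (N : ℝ) ^ 2 * (N + 2) ^ 2 * (v * v') + n * a * (2 * N ^ 2 * v') +
      n * a' * (2 * N ^ 2 * v) + n ^ 2 * (a * a') * 1 ≤ (2 * N * (N + 2) + n) ^ 2 * (a * a') := by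
  have a0 := v0.trans hv
  have a0' := v0'.trans hv'
  have N0 : (0 : ℝ) ≤ N := Nat.cast_nonneg N
  have e1 : 4 * (N : ℝ) ^ 2 * (N + 2) ^ 2 * (v * v') ≤ 4 * N ^ 2 * (N + 2) ^ 2 * (a * a') := by
    gcongr
  have e2 : n * a * (2 * N ^ 2 * v') ≤ n * a * (2 * N ^ 2 * a') := by gcongr
  have e3 : n * a' * (2 * N ^ 2 * v) ≤ n * a' * (2 * N ^ 2 * a) := by gcongr
  have e4 : 0 ≤ n * N * (a * a') := by positivity
  nlinarith

/-- **two moves** -/
theorem sf_mv2 {j j' : ℕ} (hjj : j < j') (hj : j' < L.length) {σ₀ σ₁ σ₂ σ₃ : SM r}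
    (h₀ : Um L.length σ₀) (h₁ : Um L.length σ₁) (h₂ : Um L.length σ₂) (h₃ : Um L.length σ₃)
    (H : Mv j σ₀ σ₁) (H' : Mv j' σ₀ σ₂) (H2 : ∀ a c, σ₃ a c + σ₀ a c = σ₁ a c + σ₂ a c)
    {a a' : ℝ} (hv : vv L j ≤ a) (hv' : vv L j' ≤ a') (hd : ∀ e ∈ B, |q e (j + 1) - q e j| ≤ a)
    (hd' : ∀ e ∈ B, |q e (j' + 1) - q e j'| ≤ a') :
    |SF L q p p' B σ₃ - SF L q p p' B σ₁ - (SF L q p p' B σ₂ - SF L q p p' B σ₀)| ≤
      2 ^ B.card * ((2 * N * (N + 2) + B.card) ^ 2 * (a * a')) := by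
  have m := mv_13 hjj H H' H2
  rw [SF_eq', SF_eq', SF_eq', SF_eq', ← sum_sub_distrib, ← sum_sub_distrib, ← sum_sub_distrib]
  exact sum_le fun A _ => (t2 hq hjj H H' H2 ((vv0 rL j).trans hv) ((vv0 rL j').trans hv') hd hd'
    sdiff_subset (abs_EM h₃ _) (mv1 rL hM h1 hN (hjj.trans hj) h₂ h₃ m.2 _)
    (mv1 rL hM h1 hN hj h₁ h₃ m.1 _) (mv2 rL hM h1 hN hjj hj h₀ h₁ h₂ h₃ H H' H2 _)).trans
    (cst2 rL hM h1 hN hq (Nat.cast_nonneg _) (vv0 rL j) (vv0 rL j') hv hv')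


end sf

end Crest.Agent.T156.Cas.SF97

end
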