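import Crest.Agent.T156.C3D_94
import Crest.Agent.T156.CWk_55
import Crest.Agent.T156.SFReg_97
import Crest.Agent.T156.CGl_31
import Crest.Agent.T156.CL3_76
import Crest.Agent.T156.C3W_43

-- ▼ part T156/C3A_94
section

/-!
# Row 156, block C (helper94): a node that moves along a path, with the leaves grafted on it
-/

set_option autoImplicit false
set_option linter.all false

noncomputable section

namespace Crest.Agent.T156.Cas.C394

open Crest.Agent.T157.E Crest.Agent.T157.Casc Crest.Agent.T157.SL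
open Nu87 Wp52 Cw55
open Ker15 (Mv)

variable {Ω : Type} [Fintype Ω] {M : List (Lv Ω)} {r m : ℕ}

theorem Br_max (M : List (Lv Ω)) (g : ℕ → ℝ) {s : ℕ} (hs : s ≤ M.length) :
    ∑ i ∈ Finset.range (M.length - s + 1), dm (M.drop s) 0 i * g (i + s) =
      Br M fun k => g (max k s) := by
  have hex : ∀ i, ex (M.drop s) i = ex M (i + s) := fun i => by
    simp only [T157.Casc.ex, List.getElem?_drop, add_comm s]
  have h1 := sum_dm M 0 s
  have h2 : ∑ k ∈ Finset.range (s + 1), dm M 0 k * g (max k s) = (ex M s - 0) * g s := by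
    rw [← h1, Finset.sum_mul]
    exact Finset.sum_congr rfl fun k hk => by
      rw [max_eq_right (Nat.lt_succ_iff.1 (Finset.mem_range.1 hk))]
  rw [Finset.sum_range_succ', add_comm, Br, show M.length + 1 = s + 1 + (M.length - s) by omega,
    Finset.sum_range_add, h2]
  refine congrArg₂ (· + ·) (by simp [dm, exP, hex]) (Finset.sum_congr rfl fun i _ => ?_)
  rw [max_eq_left (by omega), show s + 1 + i = i + s + 1 by omega, show i + 1 + s = i + s + 1 by omega]
  simp only [dm, exP, hex, show i + 1 + s = i + s + 1 by omega]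

/-- a new leaf goes to the old tree or to the last branch -/
theorem Ws_gr' {σ : SM r} (h : Rz M.length σ) (a : Fin r) {s : ℕ} (hs : s ≤ M.length)
    {G : Fin (r + 1) → ℕ → ℝ} (hG : NCm (gr M.length σ a s) G) :
    Ws M (gr M.length σ a s) G = Ws M σ (fun b => G b.succ) + Br M fun k => G 0 (max k s) := by
  rw [Ws_gr M h a hs hG, Br_max M (G 0) hs]

/-- `t` is not a label on the path of `c` -/
def NO (σ : SM r) (c : Fin r) (t : ℕ) : Prop := ∀ y, y ≠ c → σ c y ≠ t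

instance (σ : SM r) (c : Fin r) (t : ℕ) : Decidable (NO σ c t) := by
  unfold NO; infer_instance

theorem Ws_lev (hM : Mono 0 M) {σ : SM r} (h : Rz M.length σ) {c : Fin r} {t : ℕ}
    (ht : t ≤ M.length) (hn : NO σ c t) {G : Fin r → ℕ → ℝ} (hG : NCm σ G) {B : ℝ}
    (hb : ∀ y i, |G y i| ≤ if min i (σ c y) = t then B else 0) : |Ws M σ G| ≤ B * dm M 0 t := by
  have nc : ∀ g : ℕ → ℝ, NCm σ fun y i => g (min i (σ c y)) := fun g a b j hj => by
    have h1 := h.ultra c a b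
    have h2 := h.ultra c b a
    rw [h.comm b a] at h2
    exact congrArg g (by omega)
  have e : ∀ B : ℝ, Ws M σ (fun y i => if min i (σ c y) = t then B else 0) = B * dm M 0 t :=
    fun B => by
      rw [Ws_gg M h c fun u => if u = t then B else 0, Finset.sum_eq_zero (s := Finset.univ.erase c)
        fun y hy => if_neg (hn y (Finset.ne_of_mem_erase hy)), add_zero]
      simp only [mul_ite, mul_zero, Finset.sum_ite_eq', Finset.mem_range, if_pos (Nat.lt_succ_of_le ht)]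
      exact mul_comm _ _
  rw [abs_le, ← neg_mul, ← e, ← e]
  refine ⟨Ws_mono hM h (nc fun u => if u = t then -B else 0) hG fun y i _ => ?_,
    Ws_mono hM h hG (nc fun u => if u = t then B else 0) fun y i _ => (abs_le.1 (hb y i)).2⟩
  have := (abs_le.1 (hb y i)).1
  split_ifs at this ⊢ <;> simpa using this

/-- a late leaf sits on the branch of the moving leaf, up to `dm t` -/
theorem step (hM : Mono 0 M) {σ : SM r} (h : Rz M.length σ) {c : Fin r} {t : ℕ}
    (ht : t ≤ M.length) (hn : NO σ c t) {G : Fin (r + 1) → ℕ → ℝ}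
    (hG : NCm (gr M.length σ c t) G) {B : ℝ}
    (hb : ∀ y i, |G y i| ≤ if min i (gr M.length σ c t c.succ y) = t then B else 0) :
    |Ws M (gr M.length σ c t) G - Br M fun k => G 0 (max k t)| ≤ B * dm M 0 t := by
  rw [Ws_gr' h c ht hG, add_sub_cancel_right]
  exact Ws_lev hM h ht hn (fun a b j hj => hG a.succ b.succ j hj) fun y i => hb y.succ i

theorem mv_gr {K t s s' : ℕ} {τ τ' : SM r} (H : Mv t τ τ') (y : Fin r)
    (hs : s' = s ∨ s = t ∧ s' = t + 1) : Mv t (gr K τ y s) (gr K τ' y s') := fun a b => by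
  refine Fin.cases ?_ (fun a => ?_) a <;> refine Fin.cases ?_ (fun b => ?_) b
  · exact .inl rfl
  · change min s' (τ' b y) = min s (τ b y) ∨ min s (τ b y) = t ∧ min s' (τ' b y) = t + 1
    have := H b y
    omega
  · change min s' (τ' a y) = min s (τ a y) ∨ min s (τ a y) = t ∧ min s' (τ' a y) = t + 1
    have := H a y
    omega
  · exact H a b

theorem abs_Br_le (hM : Mono 0 M) {g : ℕ → ℝ} {b : ℝ} (h : ∀ k, |g k| ≤ b) : |Br M g| ≤ b := by
  rw [abs_le, ← Site94.Br_const (M := M) b, ← neg_one_mul, ← Br_mul]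
  exact ⟨Br_mono hM fun k _ => by linarith [(abs_le.1 (h k)).1],
    Br_mono hM fun k _ => (abs_le.1 (h k)).2⟩

theorem Br_sub (g g' : ℕ → ℝ) : Br M g - Br M g' = Br M fun k => g k - g' k := by
  simp only [Br, mul_sub, Finset.sum_sub_distrib]

theorem abs_up1_le (hM : Mono 0 M) {τ : SM (r + 1)} (h : Rz M.length τ) {φ : SM (r + 2) → ℝ}
    {b : ℝ} (e : ∀ ρ, Rz M.length ρ → |φ ρ| ≤ b) : |up1 M φ τ| ≤ b := by
  have h1 := up1_mono hM h fun ρ hρ => (abs_le.1 (e ρ hρ)).2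
  have h2 := up1_mono hM h fun ρ hρ => (abs_le.1 (e ρ hρ)).1
  rw [up1_const] at h1 h2
  exact abs_le.2 ⟨h2, h1⟩

/-- bounded, and Lipschitz for node moves above `j` -/
structure Lip (K : ℕ) (d : ℕ → ℝ) (j : ℕ) (b : ℝ) (φ : SM r → ℝ) : Prop where
  bd : ∀ ρ, Rz K ρ → |φ ρ| ≤ b
  mv : ∀ t ρ ρ', j < t → t + 1 < K → Rz K ρ → Rz K ρ' → Mv t ρ ρ' → |φ ρ' - φ ρ| ≤ b * d (t + 1)

/-- families of matrices with one moving node -/
structure Fm (K : ℕ) (τ : ℕ → SM r) : Prop where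
  rz : ∀ t, Rz K (τ t)
  mv : ∀ t, Mv t (τ t) (τ (t + 1))

theorem fm_gr {K : ℕ} {σ : SM r} (h : Rz K σ) (c : Fin r) : Fm K fun t => gr K σ c t :=
  ⟨fun t => h.gr c t, fun _ => mv_gr (fun _ _ => .inl rfl) c (.inr ⟨rfl, rfl⟩)⟩

theorem Fm.gr {K : ℕ} {τ : ℕ → SM r} (h : Fm K τ) (y : Fin r) (k : ℕ) :
    Fm K fun t => gr K (τ t) y (max k t) :=
  ⟨fun t => (h.rz t).gr y _, fun t => mv_gr (h.mv t) y (by omega)⟩

variable {d : ℕ → ℝ} {j : ℕ} {b : ℝ}

theorem Fm.dv {K : ℕ} {τ : ℕ → SM r} (h : Fm K τ) {φ : SM r → ℝ} (H : Lip K d j b φ) :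
    DV d j K b 0 fun t => φ (τ t) :=
  ⟨(abs_nonneg _).trans (H.bd _ (h.rz 0)), fun t _ _ => H.bd _ (h.rz t), ∅, le_rfl,
    fun t h1 h2 _ => by
      obtain ⟨t, rfl⟩ : ∃ u, t = u + 1 := ⟨t - 1, by omega⟩
      exact H.mv t _ _ (by omega) h2 (h.rz t) (h.rz _) (h.mv t)⟩

theorem dv_Br (hM : Mono 0 M) {K : ℕ} {C : ℕ → ℕ → ℝ} (h : ∀ k, DV d j K b 0 (C k)) :
    DV d j K b 0 fun t => Br M fun k => C k t :=
  ⟨(h 0).nn, fun t h1 h2 => abs_Br_le hM fun k => (h k).bd t h1 h2, ∅, le_rfl, fun t h1 h2 _ => by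
    rw [Br_sub]
    refine abs_Br_le hM fun k => ?_
    obtain ⟨T, h3, h4⟩ := (h k).var
    exact h4 t h1 h2 (by simp [Finset.card_eq_zero.1 (Nat.le_zero.1 h3)])⟩

/-- along the path of `c`, `Φ` is a coefficient of bounded variation up to `dm` -/
def Lp (M : List (Lv Ω)) (σ : SM (m + 1)) (c : Fin (m + 1)) (d : ℕ → ℝ) (j : ℕ) (B : ℝ)
    (Φ : SM (m + 2) → ℝ) : Prop :=
  ∃ C, DV d j M.length B 0 C ∧ ∀ t, j < t → t < M.length → NO σ c t →
    |Φ (gr M.length σ c t) - C t| ≤ B * dm M 0 t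

variable {σ : SM (m + 1)} {c : Fin (m + 1)}

theorem lp0 (hM : Mono 0 M) (h : Rz M.length σ) {φ : SM (m + 2) → ℝ}
    (H : Lip M.length d j b φ) : Lp M σ c d j b φ :=
  ⟨_, (fm_gr h c).dv H, fun t _ _ _ => by
    rw [sub_self, abs_zero]
    exact mul_nonneg ((fm_gr h c).dv H).nn (dm_nonneg hM t)⟩

/-- the last leaf leaves the path of `c` at the same node as `e` -/
def lt1 (c e : Fin r) (φ : SM (r + 1) → ℝ) (ρ : SM (r + 1)) : ℝ :=
  if ρ c.succ 0 = ρ c.succ e.succ then φ ρ else 0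

theorem abs_lt1 {K : ℕ} {φ : SM (r + 1) → ℝ} (H : ∀ ρ, Rz K ρ → |φ ρ| ≤ b) (c e : Fin r)
    {ρ : SM (r + 1)} (h : Rz K ρ) :
    |lt1 c e φ ρ| ≤ if ρ c.succ 0 = ρ c.succ e.succ then b else 0 := by
  unfold lt1
  split_ifs
  exacts [H ρ h, abs_zero.le]

theorem gr_c0 {K : ℕ} (h : Rz K σ) {t : ℕ} (ht : t ≤ K) : gr K σ c t c.succ 0 = t := by
  change min t (σ c c) = t
  rw [h.self, min_eq_left ht]

theorem step1 (hM : Mono 0 M) (h : Rz M.length σ) {t : ℕ} (ht : t ≤ M.length) (hn : NO σ c t)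
    {φ : SM (m + 3) → ℝ} (H : ∀ ρ, Rz M.length ρ → |φ ρ| ≤ b) :
    |up1 M (lt1 c.succ 0 φ) (gr M.length σ c t) - (1 / (m + 2)) *
      Br M fun k => φ (gr M.length (gr M.length σ c t) 0 (max k t))| ≤ b * dm M 0 t := by
  have h1 := step hM h ht hn ((h.gr c t).ncm (lt1 c.succ 0 φ)) (B := b) fun y i =>
    (abs_lt1 H _ _ ((h.gr c t).gr y i)).trans_eq (if_congr (by
      change min i (gr M.length σ c t c.succ y) = gr M.length σ c t c.succ 0 ↔ _
      rw [gr_c0 h ht]) rfl rfl)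
  have e : ∀ k, lt1 c.succ 0 φ (gr M.length (gr M.length σ c t) 0 (max k t)) =
      φ (gr M.length (gr M.length σ c t) 0 (max k t)) := fun k => if_pos (by
    change min (max k t) (gr M.length σ c t c.succ 0) = gr M.length σ c t c.succ 0
    rw [gr_c0 h ht]
    omega)
  simp only [e] at h1
  have h2 : (0 : ℝ) < m + 2 := by positivity
  rw [up1, show ((m + 1 : ℕ) : ℝ) + 1 = m + 2 by push_cast; ring, one_div_mul_eq_div, ← sub_div,
    abs_div, abs_of_pos h2]
  exact (div_le_self (abs_nonneg _) (by linarith [(Nat.cast_nonneg m : (0 : ℝ) ≤ m)])).trans h1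

theorem dv_div {K : ℕ} (hd : ∀ t, j + 1 < t → t < K → 0 ≤ d t) {C : ℕ → ℝ} (h : DV d j K b 0 C)
    (n : ℕ) : DV d j K b 0 fun t => 1 / ((n : ℝ) + 2) * C t :=
  (h.smul _).mono hd (mul_le_of_le_one_left h.nn (by
    rw [abs_of_pos (by positivity), div_le_one (by positivity)]
    linarith [(Nat.cast_nonneg n : (0 : ℝ) ≤ n)])) le_rfl

theorem lp1 (hM : Mono 0 M) (hd : ∀ t, j + 1 < t → t < M.length → 0 ≤ d t) (h : Rz M.length σ)
    {φ : SM (m + 3) → ℝ} (H : Lip M.length d j b φ) : Lp M σ c d j b (up1 M (lt1 c.succ 0 φ)) :=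
  ⟨_, dv_div hd (dv_Br hM fun k => ((fm_gr h c).gr 0 k).dv H) m,
    fun t _ h2 hn => step1 hM h h2.le hn H.bd⟩

theorem lp2 (hM : Mono 0 M) (hd : ∀ t, j + 1 < t → t < M.length → 0 ≤ d t) (h : Rz M.length σ)
    {φ : SM (m + 4) → ℝ} (H : Lip M.length d j b φ) :
    Lp M σ c d j (b + b) (up1 M (lt1 c.succ 0 (up1 M (lt1 c.succ.succ (Fin.succ 0) φ)))) := by
  have b0 := ((((fm_gr h c).gr 0 0).gr 0 0).dv H).nn
  refine ⟨_, dv_div hd (dv_Br hM fun k => dv_div hd ((dv_Br hM fun k' =>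
    (((fm_gr h c).gr 0 k).gr (Fin.succ 0) k').dv H).add (dv_Br hM fun k' =>
      (((fm_gr h c).gr 0 k).gr 0 (max k' k)).dv H)) (m + 1)) m, fun t _ h2 hn => ?_⟩
  have h1 := step1 hM h h2.le hn (φ := up1 M (lt1 c.succ.succ (Fin.succ 0) φ)) (b := b)
    fun ρ hρ => abs_up1_le hM hρ fun ρ' h' => (abs_lt1 H.bd _ _ h').trans (by
      split_ifs
      exacts [le_rfl, b0])
  rw [add_mul]
  refine (abs_sub_le _ _ _).trans (add_le_add h1 ?_)
  rw [← mul_sub, Br_sub, abs_mul]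
  refine (mul_le_of_le_one_left (abs_nonneg _) (by
    rw [abs_of_pos (by positivity), div_le_one (by positivity)]
    linarith [(Nat.cast_nonneg m : (0 : ℝ) ≤ m)])).trans ?_
  rw [abs_le, ← Site94.Br_const (M := M) (b * _), ← neg_one_mul, ← Br_mul]
  suffices key : ∀ k ≤ M.length, |_| ≤ b * dm M 0 t from
    ⟨Br_mono hM fun k hk => by linarith [(abs_le.1 (key k hk)).1],
      Br_mono hM fun k hk => (abs_le.1 (key k hk)).2⟩
  intro k hk
  set τ := gr M.length σ c t with hτ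
  have r1 : Rz M.length τ := h.gr c t
  have c0 : τ c.succ 0 = t := gr_c0 h h2.le
  have nc := (r1.gr 0 (max k t)).ncm (lt1 c.succ.succ (Fin.succ 0) φ)
  have h3 := step hM h h2.le hn (fun a b j hj => nc a.succ b.succ j hj) (B := b) fun y i =>
    (abs_lt1 H.bd _ _ ((r1.gr 0 _).gr y.succ i)).trans_eq (if_congr (by
      change min i (τ c.succ y) = τ c.succ 0 ↔ _
      rw [c0]) rfl rfl)
  have e1 : ∀ k', lt1 c.succ.succ (Fin.succ 0) φ (gr M.length (gr M.length τ 0 (max k t))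
      (Fin.succ 0) (max k' t)) = φ _ := fun k' => if_pos (by
    change min (max k' t) (τ c.succ 0) = τ c.succ 0
    omega)
  have e2 : ∀ k', lt1 c.succ.succ (Fin.succ 0) φ (gr M.length (gr M.length τ 0 (max k t)) 0
      (max k' (max k t))) = φ (gr M.length (gr M.length τ 0 (max k t)) 0 (max (max k' k) t)) :=
    fun k' => by
      rw [max_assoc]
      exact if_pos (by
        change min (max k' (max k t)) (min (max k t) (τ c.succ 0)) = τ c.succ 0
        omega)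
  simp only [e1] at h3
  have h4 : (0 : ℝ) < (m + 1 : ℕ) + 2 := by positivity
  rw [up1, Ws_gr' r1 0 (max_le hk h2.le) nc, show ((m + 1 + 1 : ℕ) : ℝ) + 1 = (m + 1 : ℕ) + 2 by
    push_cast; ring, one_div_mul_eq_div, ← sub_div, abs_div, abs_of_pos h4]
  simp only [e2, add_sub_add_right_eq_sub]
  exact (div_le_self (abs_nonneg _) (by linarith [(Nat.cast_nonneg (m + 1) : (0 : ℝ) ≤ _)])).trans h3

/-- the last leaf leaves the path of `c` at a new node between `j` and `K` -/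
def N0 (K j : ℕ) (c : Fin r) (ρ : SM (r + 1)) : Prop :=
  j < ρ c.succ 0 ∧ ρ c.succ 0 < K ∧ ∀ y, y ≠ c → ρ c.succ y.succ ≠ ρ c.succ 0

instance (K j : ℕ) (c : Fin r) (ρ : SM (r + 1)) : Decidable (N0 K j c ρ) := by
  unfold N0; infer_instance

/-- the labels on the path of `c` -/
def oT (σ : SM r) (c : Fin r) : Finset ℕ := (Finset.univ.erase c).image (σ c)

theorem mem_oT {σ : SM r} {c : Fin r} {t : ℕ} : t ∉ oT σ c ↔ NO σ c t := by
  simp [oT, NO]

theorem Ws_N0 (h : Rz M.length σ) (P : SM (m + 2) → ℝ) :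
    Ws M σ (fun y i => if N0 M.length j c (gr M.length σ y i) then P (gr M.length σ y i) else 0) =
      ∑ t ∈ Finset.Ico (j + 1) M.length, off j (oT σ c) t * (dm M 0 t * P (gr M.length σ c t)) := by
  set g : ℕ → ℝ := fun t => if j < t ∧ t < M.length ∧ NO σ c t then P (gr M.length σ c t) else 0
  rw [Ws_congr M σ (G' := fun y i => g (min i (σ c y))) fun y i hi => ?_, Ws_gg M h c g,
    Finset.sum_eq_zero (s := Finset.univ.erase c) fun y hy =>
      if_neg fun e => e.2.2 y (Finset.ne_of_mem_erase hy) rfl, add_zero]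
  · symm
    refine (Finset.sum_congr rfl fun t ht => ?_).trans (Finset.sum_subset (fun t ht => ?_)
      fun t _ ht => ?_)
    · have := Finset.mem_Ico.1 ht
      simp only [g, off, mem_oT, show j < t from this.1, this.2, true_and]
      split_ifs <;> simp
    · simp only [Finset.mem_Ico, Finset.mem_range] at ht ⊢
      omega
    · rw [Finset.mem_Ico] at ht
      simp only [g]
      rw [if_neg (by omega), mul_zero]
  · refine if_ctx_congr Iff.rfl (fun e => congrArg P ?_) fun _ => rfl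
    have e1 : min i (σ c y) = i := by
      by_cases hy : y = c
      · rw [hy, h.self, min_eq_left hi]
      · have := e.2.2 y hy
        change σ c y ≠ min i (σ c y) at this
        omega
    rw [e1]
    exact (h.gr_eq (by omega)).symm

/-- **weak sum over the moving node** -/
theorem core (hM : Mono 0 M) (hd : ∀ t, j + 1 < t → t < M.length → 0 ≤ d t) (h : Rz M.length σ)
    {Φ H : SM (m + 2) → ℝ} {B Θ β : ℝ} (hΦ : Lp M σ c d j B Φ) (hΘ : 0 ≤ Θ)
    (hH : ∀ t, |H (gr M.length σ c t)| ≤ β)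
    (W : ∀ B r C, DV d j M.length B r C → |∑ t ∈ Finset.Ico (j + 1) M.length,
      C t * (dm M 0 t * H (gr M.length σ c t))| ≤ B * ((r + 1) * Θ)) :
    |Ws M σ fun y i => if N0 M.length j c (gr M.length σ y i) then
      H (gr M.length σ y i) * Φ (gr M.length σ y i) else 0| ≤
      B * (2 * (2 * (m + 1) + 1) * Θ +
        β * ∑ t ∈ Finset.Ico (j + 1) M.length, dm M 0 t * dm M 0 t) := by
  obtain ⟨C, h1, h2⟩ := hΦ
  have h3 := W _ _ _ ((dv_off hd (oT σ c)).mul h1)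
  have h4 : ((oT σ c).card : ℝ) ≤ m + 1 := by
    exact_mod_cast Finset.card_image_le.trans ((Finset.card_le_univ _).trans_eq (Fintype.card_fin _))
  rw [Ws_N0 h fun ρ => H ρ * Φ ρ, mul_add]
  refine ((congrArg abs (add_sub_cancel _ _).symm).trans_le (abs_add_le _ _)).trans
    (add_le_add (h3.trans ?_) ?_)
  · push_cast
    nlinarith [mul_nonneg h1.nn hΘ]
  · rw [← Finset.sum_sub_distrib, Finset.mul_sum, Finset.mul_sum]
    refine (Finset.abs_sum_le_sum_abs _ _).trans (Finset.sum_le_sum fun t ht => ?_)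
    have h5 := Finset.mem_Ico.1 ht
    have h6 := dm_nonneg hM t
    have h7 := (abs_nonneg _).trans (hH t)
    unfold off
    split_ifs with e
    · have := mul_le_mul (hH t) (h2 t e.1 h5.2 (mem_oT.1 e.2)) (abs_nonneg _) h7
      rw [← abs_mul] at this
      refine le_of_eq_of_le ?_ ((mul_le_mul_of_nonneg_left this h6).trans_eq (by ring))
      rw [← abs_of_nonneg h6, ← abs_mul, abs_of_nonneg h6]
      congr 1
      ring
    · simpa using mul_nonneg h1.nn (mul_nonneg h7 (mul_nonneg h6 h6))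

end Crest.Agent.T156.Cas.C394

end
end

-- ▼ part T156/C3E_94
section

/-!
# Row 156, block C (helper94): the exception of `[aU, aU, aU]`, replacement of late leaves
-/

set_option autoImplicit false
set_option linter.all false

noncomputable section

namespace Crest.Agent.T156.Cas.C394

open Crest.Agent.T157.E Crest.Agent.T157.Casc Crest.Agent.T157.SL
open C40 Nu87
open Ck32 (TB)

variable {r : ℕ}

/-- bulk factor, the first two edges at the level `j` -/
def Bj (D : CD) (σ : SM r) (j : ℕ) (a b a' b' c d : Fin r) : ℝ :=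
  TB D σ fun x => oU D.q j (x a) (x b) * oU D.q j (x a') (x b') * oU D.q (σ c d) (x c) (x d)

/-- a leaf that leaves the path of `c` at the node of `(c, d)` is replaced by `c` -/
def rp (σ : SM r) (c d x : Fin r) : Fin r := if σ c x = σ c d then c else x

/-- the cost of the replacement -/
def RepS : Prop := ∀ (r : ℕ) (a b a' b' c d : Fin (r + 1)), c ≠ d → Bd false fun D =>
  avm D.B r fun σ => if Xc D.J D.K σ a b a' b' c d then
    (Bk D σ a b a' b' c d - Bj D σ (σ c b) (rp σ c d a) b (rp σ c d a') b' c d) *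
      Sk D σ a b a' b' c d else 0

/-- the main part -/
def MaiS : Prop := ∀ (r : ℕ) (a b a' b' c d : Fin (r + 1)), c ≠ d → Bd false fun D =>
  avm D.B r fun σ => if Xc D.J D.K σ a b a' b' c d then
    Bj D σ (σ c b) (rp σ c d a) b (rp σ c d a') b' c d * Sk D σ a b a' b' c d else 0

end Crest.Agent.T156.Cas.C394

end
end

-- ▼ part T156/C3B_94
section

/-!
# Row 156, block C (helper94): the exception of `[aU, aU, aU]`, main part
-/

set_option autoImplicit false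
set_option linter.all false

noncomputable section

namespace Crest.Agent.T156.Cas.C394

open Crest.Agent.T157.E Crest.Agent.T157.Casc Crest.Agent.T157.SL
open Crest.ProbabilityR.SpinGlassDynamics (spin)
open C40 Nu87 Wp52 Cw55
open Ck32 (TB upF lenS)
open Ker15 (Mv)

variable {D : CD} {τ0 : ℝ} {r m N : ℕ}

/-- site factor, the first two edges at the level `j` -/
def Sj (D : CD) (σ : SM r) (j : ℕ) (a b a' b' c d : Fin r) : ℝ :=
  D.τ j ^ 2 * (D.τ (σ c d) *
    Ck32.TS D σ fun x => oE D.q j (x a) (x b) * oE D.q j (x a') (x b') * oE D.q (σ c d) (x c) (x d))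

/-- the constant of the site factor -/
def cS (τ0 : ℝ) (r : ℕ) : ℝ := τ0 ^ 2 * ((8 + 16 * (r + 1) ^ 2) * (τ0 + 1))

theorem lip_Sj (H : D.Ok τ0) {j : ℕ} (hJ : D.J ≤ j) (hj : j ≤ D.K) (a b a' b' c d : Fin r) :
    Lip D.B.length D.dv j (cS τ0 r) fun σ : SM r => Sj D σ j a b a' b' c d := by
  set ξ : (Fin r → Bool) → ℝ := fun x => oE D.q j (x a) (x b) * oE D.q j (x a') (x b') with hξ
  have x4 : ∀ x, |ξ x| ≤ 4 := fun x =>
    (SF97.amul (abs_oE_le H.ook hj _ _) (abs_oE_le H.ook hj _ _)).trans_eq (by norm_num)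
  have x4' : ∀ x, |ξ x * (spin (x c) * spin (x d))| ≤ 4 := fun x => by
    rw [abs_mul, OneP.abs_spin2, mul_one]; exact x4 x
  have e : ∀ σ : SM r, Sj D σ j a b a' b' c d = D.τ j ^ 2 *
      (D.τ (σ c d) * Ck32.TS D σ (fun x => ξ x * (spin (x c) * spin (x d))) -
        D.τ (σ c d) * D.q (σ c d) * Ck32.TS D σ ξ) := fun σ => by
    rw [Sj, mul_assoc (D.τ _), ← mul_sub, Ck32.TS, Ck32.TS, Ck32.TS, ← TM_mul (c := D.q _), ← TM_sub]
    congr 3
    funext x
    simp only [hξ, oE]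
    ring
  have t0 := H.tau0
  have um : ∀ {σ : SM r}, Rz D.B.length σ → Ker15.Um D.S.length σ := fun h =>
    SF97.um_of_rz (lenS (D := D) ▸ h)
  have t1 : ∀ i, |D.τ i| ≤ τ0 := fun i => (abs_of_nonneg (H.tau_mem i).1).trans_le (H.tau_mem i).2
  have t2 : ∀ i ≤ D.K, |D.τ i * D.q i| ≤ τ0 := fun i hi =>
    (SF97.amul (t1 i) (Ck32.abs_q_le H (D.B_len ▸ hi))).trans_eq (mul_one _)
  have t3 : |D.τ j ^ 2| ≤ τ0 ^ 2 := by
    rw [abs_pow]; exact pow_le_pow_left₀ (abs_nonneg _) (t1 j) 2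
  have r0 : (0 : ℝ) ≤ (r + 1) ^ 2 := by positivity
  refine ⟨fun ρ h => ?_, fun t ρ ρ' h1 h2 h h' mv => ?_⟩
  · rw [e]
    refine SF97.amul t3 ((abs_sub _ _).trans ((add_le_add
      (SF97.amul (t1 _) (SF97.abs_TM (um h) 0 x4'))
      (SF97.amul (t2 _ (D.B_len ▸ h.le c d)) (SF97.abs_TM (um h) 0 x4))).trans ?_))
    nlinarith [mul_nonneg r0 t0]
  · rw [D.B_len] at h2
    have dv := dv_dom H.ook H.mono (t := t + 1) (by omega) h2.le
    have d0 := H.dv0 h2.le
    have v1 : SF97.vv D.S t ≤ D.dv (t + 1) := by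
      rw [SF97.vv, tm_S H.ook h2.le, tm_S H.ook (by omega)]
      exact (le_abs_self _).trans dv.1
    have m1 : ∀ {F : (Fin r → Bool) → ℝ}, (∀ x, |F x| ≤ 4) →
        |Ck32.TS D ρ' F - Ck32.TS D ρ F| ≤ 8 * (r + 1) ^ 2 * D.dv (t + 1) := fun hF =>
      (SF97.mvF (N := r + 1) (r1_S H.ook) (monoS H.mono) (by omega) (by omega)
        (by rw [lenS, D.B_len]; omega) (um h) (um h') mv 0 hF).trans (by push_cast; nlinarith)
    have m2 : ∀ f : ℕ → ℝ, |f (t + 1) - f t| ≤ D.dv (t + 1) →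
        |f (ρ' c d) - f (ρ c d)| ≤ D.dv (t + 1) := fun f hf => by
      rcases mv c d with e | ⟨e, e'⟩
      · rw [e, sub_self, abs_zero]; exact d0
      · rw [e, e']; exact hf
    have k : ∀ {u u' v v' : ℝ}, |u| ≤ τ0 → |u' - u| ≤ D.dv (t + 1) → |v'| ≤ 4 →
        |v' - v| ≤ 8 * (r + 1) ^ 2 * D.dv (t + 1) →
        |u' * v' - u * v| ≤ D.dv (t + 1) * 4 + τ0 * (8 * (r + 1) ^ 2 * D.dv (t + 1)) :=
      fun {u u' v v'} h1 h2 h3 h4 => by
        rw [show u' * v' - u * v = (u' - u) * v' + u * (v' - v) by ring]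
        exact (abs_add_le _ _).trans (add_le_add (SF97.amul h2 h3) (SF97.amul h1 h4))
    rw [e, e, ← mul_sub, cS, mul_assoc (τ0 ^ 2), sub_sub_sub_comm]
    refine SF97.amul t3 ((abs_sub _ _).trans ((add_le_add
      (k (t1 _) (m2 D.τ dv.2.1) (SF97.abs_TM (um h') 0 x4') (m1 x4'))
      (k (t2 _ (D.B_len ▸ h.le c d)) (m2 (fun i => D.τ i * D.q i) dv.2.2.1)
        (SF97.abs_TM (um h') 0 x4) (m1 x4))).trans ?_))
    nlinarith [mul_nonneg t0 d0, mul_nonneg r0 d0]

theorem cS_nonneg (H : D.Ok τ0) (r : ℕ) : 0 ≤ cS τ0 r := by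
  have := H.tau0
  unfold cS
  positivity

theorem abs_Bj (H : D.Ok τ0) {σ : SM r} (h : Rz D.B.length σ) {j : ℕ} (hj : j ≤ D.K)
    (a b a' b' c d : Fin r) : |Bj D σ j a b a' b' c d| ≤ 8 :=
  (Ck32.abs_TB_le h (G := fun _ => 8) fun x => (SF97.amul (SF97.amul (abs_oU_le H.ook hj _ _)
    (abs_oU_le H.ook hj _ _)) (abs_oU_le H.ook ((h.le c d).trans_eq D.B_len) _ _)).trans_eq
      (by norm_num)).trans_eq (TM_const wt_one90 h 8)

theorem Bj_inj {σ : SM N} (h : Rz D.B.length σ) {ι : Fin r → Fin N} (hι : Function.Injective ι)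
    (j : ℕ) (a b a' b' c d : Fin r) : Bj D σ j (ι a) (ι b) (ι a') (ι b') (ι c) (ι d) =
      Bj D (fun x y => σ (ι x) (ι y)) j a b a' b' c d :=
  TM_inj wt_one90 h hι fun x =>
    oU D.q j (x a) (x b) * oU D.q j (x a') (x b') * oU D.q (σ (ι c) (ι d)) (x c) (x d)

theorem Sj_inj {σ : SM N} (h : Rz D.B.length σ) {ι : Fin r → Fin N} (hι : Function.Injective ι)
    (j : ℕ) (a b a' b' c d : Fin r) : Sj D σ j (ι a) (ι b) (ι a') (ι b') (ι c) (ι d) =
      Sj D (fun x y => σ (ι x) (ι y)) j a b a' b' c d :=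
  congrArg (fun u => D.τ j ^ 2 * (D.τ (σ (ι c) (ι d)) * u)) (TM_inj wt_one90 (lenS (D := D) ▸ h) hι
    fun x => oE D.q j (x a) (x b) * oE D.q j (x a') (x b') * oE D.q (σ (ι c) (ι d)) (x c) (x d))

/-- the conditions on the base -/
def X0 (J : ℕ) (σ : SM r) (c b b' h h' : Fin r) : Prop :=
  J < σ c b ∧ σ c b < σ b b' ∧ σ c b < σ c h ∧ σ c b < σ c h'

instance (J : ℕ) (σ : SM r) (c b b' h h' : Fin r) : Decidable (X0 J σ c b b' h h') := by
  unfold X0; infer_instance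

/-- the weak size at the level `j` -/
def Th (D : CD) (j : ℕ) : ℝ := 2 * (D.u 2 j * D.fs D.F0 j + (D.K + 1) * (4 * D.tl))

theorem Th_nonneg (H : D.Ok τ0) (j : ℕ) : 0 ≤ Th D j := by
  have := D.u0 2 j
  have := H.fs0 H.F00 j
  have := H.tl0
  unfold Th
  positivity

theorem weak (T : TlS) (H : D.Ok τ0) {σ : SM (m + 1)} (hσ : Rz D.B.length σ)
    {c b b' h h' : Fin (m + 1)} (X : X0 D.J σ c b b' h h') (B : ℝ) (k : ℕ) (C : ℕ → ℝ)
    (hC : DV D.dv (σ c b) D.B.length B k C) :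
    |∑ t ∈ Finset.Ico (σ c b + 1) D.B.length, C t * (dm D.B 0 t *
      Bj D (gr D.B.length σ c t) (σ c b) h.succ b.succ h'.succ b'.succ c.succ 0)| ≤
      B * ((k + 1) * Th D (σ c b)) := by
  obtain ⟨x1, x2, x3, x4⟩ := X
  set j := σ c b with hj
  have jK : j ≤ D.K := D.B_len ▸ hσ.le c b
  have e1 : σ h b = j := by
    have := hσ.ultra c h b; have := hσ.ultra h c b; have := hσ.comm h c
    omega
  have e2 : σ h' b' = j := by
    have := hσ.ultra c h' b'; have := hσ.ultra h' c b'; have := hσ.comm h' c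
    have := hσ.ultra c b b'; have := hσ.ultra c b' b; have := hσ.comm b' b
    omega
  have n1 : h ≠ b := fun e => by
    rw [e] at x3; omega
  have n2 : h' ≠ b' := fun e => by
    have := hσ.le c h
    rw [e, hσ.self] at e2; omega
  have A : TB D σ (fun x => |oU D.q j (x h) (x b) * oU D.q j (x h') (x b')|) ≤ D.u 2 j := by
    have p1 := Ck32.TB_pow (D := D) hσ n1 2
    have p2 := Ck32.TB_pow (D := D) hσ n2 2
    rw [e1] at p1
    rw [e2] at p2
    refine (TM_mono wt_one90 hσ (G := fun x => 1 / 2 * (|oU D.q j (x h) (x b)| ^ 2 +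
      |oU D.q j (x h') (x b')| ^ 2)) fun x => ?_).trans_eq ?_
    · rw [abs_mul]
      nlinarith [sq_nonneg (|oU D.q j (x h) (x b)| - |oU D.q j (x h') (x b')|)]
    · rw [TM_mul, TM_add]
      unfold Ck32.TB at p1 p2
      rw [p1, p2]
      ring
  have u0 := D.u0 2 j
  rw [D.B_len] at hC
  have key := abel (Y := fun t => dm D.B 0 t *
      Bj D (gr D.B.length σ c t) j h.succ b.succ h'.succ b'.succ c.succ 0)
    (F := fun i => D.u 2 j * D.F0 i) (ε := 4 * D.tl) (fun t _ ht => H.dv0 ht.le) hC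
    (by linarith [H.tl0]) (fun i => mul_nonneg u0 (H.F00 i))
    (fun i => mul_le_mul_of_nonneg_left (H.wk0.anti i).1 u0) (fun i h1 _ => by
      have := T τ0 D H _ _ _ H.wk0 _ σ hσ c
        (fun x => oU D.q j (x h) (x b) * oU D.q j (x h') (x b')) _ 4 (fun x =>
          (SF97.amul (abs_oU_le H.ook jK _ _) (abs_oU_le H.ook jK _ _)).trans_eq (by norm_num)) A i
      rw [tail_eq D (by omega)] at this
      refine le_of_eq_of_le (congrArg _ (Finset.sum_congr rfl fun t ht => ?_)) this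
      rw [Bj, gr_c0 hσ (D.B_len ▸ (Finset.mem_Ico.1 ht).2.le)]) le_rfl
  rw [fz_mul, ← fs_eq] at key
  rw [show Finset.Ico (j + 1) D.B.length = Finset.Ico (j + 1) D.K by rw [D.B_len]]
  refine key.trans ?_
  have := mul_nonneg hC.nn (mul_nonneg (Nat.cast_nonneg (α := ℝ) k)
    (mul_nonneg (show (0 : ℝ) ≤ D.K + 1 by positivity) H.tl0))
  unfold Th
  nlinarith

/-- the outer sum -/
theorem outer (T : TlS) (H : D.Ok τ0) {f : SM (m + 2) → ℝ} {c b b' h h' : Fin (m + 1)} {B : ℝ}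
    (hB : 0 ≤ B) (hf : ∀ σ, Rz D.B.length σ → ∃ Φ : SM (m + 2) → ℝ,
      (X0 D.J σ c b b' h h' → Lp D.B σ c D.dv (σ c b) B Φ) ∧ ∀ y i, f (gr D.B.length σ y i) =
        if X0 D.J σ c b b' h h' ∧ N0 D.B.length (σ c b) c (gr D.B.length σ y i) then
          Bj D (gr D.B.length σ y i) (σ c b) h.succ b.succ h'.succ b'.succ c.succ 0 *
            Φ (gr D.B.length σ y i) else 0) :
    |avm D.B (m + 1) f| ≤ B * (20 * (2 * (m + 1) + 1) + 8) * D.E0 := by
  set G : ℕ → ℝ := fun j => B * (2 * (2 * (m + 1) + 1) * Th D j + 8 * D.I D.dx) with hG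
  have I0 := H.I0 fun j _ => H.dx0 j
  have G0 : ∀ j, 0 ≤ G j := fun j => by
    have := Th_nonneg H j
    positivity
  have key : ∀ σ, Rz D.B.length σ → |Ws D.B σ (fun y i => f (gr D.B.length σ y i)) / (m + 1)| ≤
      if c = b then 0 else upF D G (σ c b) := fun σ hσ => by
    obtain ⟨Φ, h1, h2⟩ := hf σ hσ
    by_cases X : X0 D.J σ c b b' h h'
    · have cb : c ≠ b := fun e => by
        have := X.2.2.1
        have := hσ.le c h
        rw [← e, hσ.self] at *
        omega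
      simp only [h2, X, true_and, if_neg cb, upF, if_pos X.1]
      rw [abs_div, abs_of_pos (by positivity : (0 : ℝ) < m + 1)]
      refine (div_le_self (abs_nonneg _) (by linarith [(Nat.cast_nonneg m : (0 : ℝ) ≤ m)])).trans
        ((core H.mono (fun t _ ht => H.dv0 (D.B_len ▸ ht.le)) hσ (h1 X) (Th_nonneg H _)
          (H := fun ρ => Bj D ρ (σ c b) h.succ b.succ h'.succ b'.succ c.succ 0)
          (fun t => abs_Bj H (hσ.gr c t) (D.B_len ▸ hσ.le c b) _ _ _ _ _ _)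
          (weak T H hσ X)).trans (mul_le_mul_of_nonneg_left (add_le_add le_rfl
            (mul_le_mul_of_nonneg_left ?_ (by norm_num))) hB))
      refine Finset.sum_le_sum_of_subset_of_nonneg (fun t ht => ?_) fun t _ _ =>
        mul_nonneg (H.dx0 t) (H.dx0 t)
      rw [Finset.mem_Ico, D.B_len] at ht
      exact CD.mem_up.2 ⟨by have := X.1; omega, ht.2⟩
    · simp only [h2, X, false_and, if_false, Ws_const, mul_zero, zero_div, abs_zero]
      split_ifs
      exacts [le_rfl, Ck32.upF_nonneg G0 _]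
  refine (Site94.abs_avm_le H.mono key).trans ?_
  have E0 := H.E00
  split_ifs with e
  · rw [avm_const]
    positivity
  · rw [avm_pair _ _ _ e, ← Br, Ck32.Br_upF H, hG, D.I_mul, D.I_add, D.I_mul, mul_assoc B]
    refine mul_le_mul_of_nonneg_left ?_ hB
    have h1 : D.I (Th D) ≤ 10 * D.E0 := by
      unfold Th
      rw [D.I_mul, D.I_add]
      have := H.I_le (a := fun _ => (D.K + 1) * (4 * D.tl)) (by have := H.tl0; positivity)
        fun _ _ => le_rfl
      linarith [H.uF_le, H.K1tl_le]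
    have h2 := H.I_le (a := fun _ => 8 * D.I D.dx) (by positivity) fun _ _ => le_rfl
    nlinarith [H.dx_le, (Nat.cast_nonneg m : (0 : ℝ) ≤ m)]

/-- the term with base `o`, free leaf `d` and late leaves `l`, `l'` -/
def Sm (D : CD) (σ : SM N) (o : Fin (m + 1) → Fin N) (d l l' a a' : Fin N)
    (c b b' h h' : Fin (m + 1)) : ℝ :=
  if (X0 D.J (fun x y => σ (o x) (o y)) c b b' h h' ∧ σ (o c) (o b) < σ (o c) d ∧
      σ (o c) d < D.B.length ∧ ∀ y, y ≠ c → σ (o c) (o y) ≠ σ (o c) d) ∧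
      σ (o c) l = σ (o c) d ∧ σ (o c) l' = σ (o c) d then
    Bj D σ (σ (o c) (o b)) (o h) (o b) (o h') (o b') (o c) d *
      Sj D σ (σ (o c) (o b)) a (o b) a' (o b') (o c) d else 0

theorem Sm_inj {σ : SM N} (hσ : Rz D.B.length σ) {ι : Fin r → Fin N} (hι : Function.Injective ι)
    (o : Fin (m + 1) → Fin r) (d l l' a a' : Fin r) (c b b' h h' : Fin (m + 1)) :
    Sm D σ (fun x => ι (o x)) (ι d) (ι l) (ι l') (ι a) (ι a') c b b' h h' =
      Sm D (fun x y => σ (ι x) (ι y)) o d l l' a a' c b b' h h' := by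
  unfold Sm
  rw [Bj_inj hσ hι, Sj_inj hσ hι]

theorem up1_if {Ω : Type} {M : List (Lv Ω)} {ρ : SM (r + 1)} {f ψ : SM (r + 2) → ℝ} {P : Prop}
    [Decidable P] {A : ℝ} (h : ∀ y i, f (gr M.length ρ y i) =
      if P then A * ψ (gr M.length ρ y i) else 0) :
    up1 M f ρ = if P then A * up1 M ψ ρ else 0 := by
  simp only [up1, h]
  split_ifs
  · rw [Ws_mul, mul_div_assoc]
  · rw [Ws_const, mul_zero, zero_div]

variable {c b b' h h' : Fin (m + 1)}

theorem lipX (H : D.Ok τ0) {σ : SM (m + 1)} (hσ : Rz D.B.length σ) (X : X0 D.J σ c b b' h h')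
    (a b₁ a' b₂ c₁ d : Fin r) :
    Lip D.B.length D.dv (σ c b) (cS τ0 r) fun ρ : SM r => Sj D ρ (σ c b) a b₁ a' b₂ c₁ d :=
  lip_Sj H X.1.le (D.B_len ▸ hσ.le c b) _ _ _ _ _ _

theorem can0 (T : TlS) (H : D.Ok τ0) (a a' : Fin (m + 2)) :
    |avm D.B (m + 1) fun ρ => Sm D ρ Fin.succ 0 0 0 a a' c b b' h h'| ≤
      cS τ0 (m + 2) * (20 * (2 * (m + 1) + 1) + 8) * D.E0 :=
  outer T H (cS_nonneg H _) fun σ hσ => ⟨fun ρ => Sj D ρ (σ c b) a b.succ a' b'.succ c.succ 0,
    fun X => lp0 H.mono hσ (lipX H hσ X _ _ _ _ _ _), fun y i =>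
      if_congr (and_iff_left ⟨rfl, rfl⟩) rfl rfl⟩

theorem Bj_gr {ρ : SM r} (hρ : Rz D.B.length ρ) (y : Fin r) (i j : ℕ) (a b a' b' c d : Fin r) :
    Bj D (gr D.B.length ρ y i) j a.succ b.succ a'.succ b'.succ c.succ d.succ =
      Bj D ρ j a b a' b' c d :=
  Bj_inj (hρ.gr y i) (Fin.succ_injective r) j a b a' b' c d

theorem ite2 {P Q R : Prop} [Decidable P] [Decidable Q] [Decidable R] (e : R ↔ P ∧ Q)
    {A A' S : ℝ} (e' : A' = A) :
    (if R then A' * S else 0) = if P then A * (if Q then S else 0) else 0 := by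
  rw [if_congr e rfl rfl, ite_and, e', mul_ite, mul_zero]

theorem can1 (T : TlS) (H : D.Ok τ0) (a a' : Fin (m + 3)) :
    |avm D.B (m + 2) fun ρ => Sm D ρ (fun x => x.succ.succ) (Fin.succ 0) 0 0 a a' c b b' h h'| ≤
      cS τ0 (m + 3) * (20 * (2 * (m + 1) + 1) + 8) * D.E0 := by
  refine outer T H (f := up1 D.B fun ρ =>
    Sm D ρ (fun x => x.succ.succ) (Fin.succ 0) 0 0 a a' c b b' h h') (c := c) (b := b) (b' := b')
    (h := h) (h' := h') (cS_nonneg H _) fun σ hσ => ⟨up1 D.B (lt1 c.succ 0 fun ρ =>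
      Sj D ρ (σ c b) a b.succ.succ a' b'.succ.succ c.succ.succ (Fin.succ 0)), fun X => lp1 H.mono
    (fun t _ ht => H.dv0 (D.B_len ▸ ht.le)) hσ (lipX H hσ X _ _ _ _ _ _), fun y i =>
      up1_if fun y' i' => ?_⟩
  exact ite2 (and_congr_right fun _ => and_self_iff) (Bj_gr (hσ.gr y i) y' i' _ _ _ _ _ _ _)

theorem can2 (T : TlS) (H : D.Ok τ0) (a a' : Fin (m + 4)) :
    |avm D.B (m + 3) fun ρ => Sm D ρ (fun x => x.succ.succ.succ) (Fin.succ (Fin.succ 0))
      (Fin.succ 0) 0 a a' c b b' h h'| ≤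
      (cS τ0 (m + 4) + cS τ0 (m + 4)) * (20 * (2 * (m + 1) + 1) + 8) * D.E0 := by
  refine outer T H (f := up1 D.B (up1 D.B fun ρ => Sm D ρ (fun x => x.succ.succ.succ)
    (Fin.succ (Fin.succ 0)) (Fin.succ 0) 0 a a' c b b' h h')) (c := c) (b := b) (b' := b')
    (h := h) (h' := h') (add_nonneg (cS_nonneg H _) (cS_nonneg H _)) fun σ hσ =>
    ⟨up1 D.B (lt1 c.succ 0 (up1 D.B (lt1 c.succ.succ (Fin.succ 0) fun ρ => Sj D ρ (σ c b) a
      b.succ.succ.succ a' b'.succ.succ.succ c.succ.succ.succ (Fin.succ (Fin.succ 0))))),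
      fun X => lp2 H.mono (fun t _ ht => H.dv0 (D.B_len ▸ ht.le)) hσ (lipX H hσ X _ _ _ _ _ _),
      fun y i => up1_if fun y' i' => ?_⟩
  refine (up1_if (P := _ ∧ _) fun y'' i'' => ?_).trans (ite2 Iff.rfl rfl)
  exact ite2 and_assoc.symm ((Bj_gr ((hσ.gr y i).gr y' i') y'' i'' _ _ _ _ _ _ _).trans
    (Bj_gr (hσ.gr y i) y' i' _ _ _ _ _ _ _))

end Crest.Agent.T156.Cas.C394

end
end

-- ▼ part T156/C3C_94
section

/-!
# Row 156, block C (helper94): the exception of `[aU, aU, aU]`, all orders of the leaves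
-/

set_option autoImplicit false
set_option linter.all false

noncomputable section

namespace Crest.Agent.T156.Cas.C394

open Crest.Agent.T157.E Crest.Agent.T157.Casc Crest.Agent.T157.SL
open C40 Nu87 Function

variable {D : CD} {r m k : ℕ}

theorem avm_Sm {ι : Fin (k + 1) → Fin (r + 1)} (hι : Injective ι) (o : Fin (m + 1) → Fin (k + 1))
    (d l l' a a' : Fin (k + 1)) (c b b' h h' : Fin (m + 1)) :
    avm D.B r (fun σ => Sm D σ (fun x => ι (o x)) (ι d) (ι l) (ι l') (ι a) (ι a') c b b' h h') =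
      avm D.B k fun ρ => Sm D ρ o d l l' a a' c b b' h h' :=
  (avm_congr _ _ fun _ hσ => Sm_inj hσ hι o d l l' a a' c b b' h h').trans
    (avm_inj D.B k (fun ρ => Sm D ρ o d l l' a a' c b b' h h') r ι hι)

section gen

variable {o : Fin (m + 1) → Fin (r + 1)} {d l l' a a' : Fin (r + 1)} {c b b' h h' : Fin (m + 1)}

theorem gen1 (T : TlS) (ho : Injective o) (hd : d ∉ Set.range o) (hl : l ∉ Set.range o)
    (e : l ≠ d) (ha : a = l ∨ a = d ∨ a ∈ Set.range o) (ha' : a' = l ∨ a' = d ∨ a' ∈ Set.range o) :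
    Bd false fun D => avm D.B r fun σ => Sm D σ o d l l a a' c b b' h h' := by
  have hι : Injective (Fin.cons l (Fin.cons d o) : Fin (m + 3) → Fin (r + 1)) := by
    simp only [Fin.cons_injective_iff, Fin.range_cons, Set.mem_insert_iff, not_or]
    exact ⟨⟨e, hl⟩, hd, ho⟩
  simp only [← Set.mem_insert_iff, ← Fin.range_cons] at ha ha'
  obtain ⟨a, rfl⟩ := ha
  obtain ⟨a', rfl⟩ := ha'
  exact Bd.val fun τ0 => ⟨_, fun D H _ => (congrArg abs (avm_Sm hι (fun x => x.succ.succ)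
    (Fin.succ 0) 0 0 a a' c b b' h h')).trans_le (can1 T H a a')⟩

theorem gen (T : TlS) (ho : Injective o) (hd : d ∉ Set.range o) (hl : l ∉ Set.range o)
    (hl' : l' ∉ Set.range o) (ha : a = l ∨ a ∈ Set.range o) (ha' : a' = l' ∨ a' ∈ Set.range o) :
    Bd false fun D => avm D.B r fun σ => Sm D σ o d l l' a a' c b b' h h' := by
  by_cases e : l = d <;> by_cases e' : l' = d
  · subst e e'
    have hι : Injective (Fin.cons l' o : Fin (m + 2) → Fin (r + 1)) :=
      Fin.cons_injective_iff.2 ⟨hd, ho⟩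
    simp only [← Set.mem_insert_iff, ← Fin.range_cons] at ha ha'
    obtain ⟨a, rfl⟩ := ha
    obtain ⟨a', rfl⟩ := ha'
    exact Bd.val fun τ0 => ⟨_, fun D H _ => (congrArg abs (avm_Sm hι Fin.succ 0 0 0 a a'
      c b b' h h')).trans_le (can0 T H a a')⟩
  · subst e
    refine (gen1 T ho hd hl' e' (.inr ha) (ha'.imp_right .inr)).congr fun _ D _ _ =>
      congrArg _ (funext fun σ => if_congr (and_congr_right fun _ => ?_) rfl rfl)
    simp
  · subst e'
    refine (gen1 T ho hd hl e (ha.imp_right .inr) (.inr ha')).congr fun _ D _ _ =>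
      congrArg _ (funext fun σ => if_congr (and_congr_right fun _ => ?_) rfl rfl)
    simp
  by_cases e'' : l' = l
  · subst e''
    exact gen1 T ho hd hl e (ha.imp_right .inr) (ha'.imp_right .inr)
  have hι : Injective (Fin.cons l' (Fin.cons l (Fin.cons d o)) : Fin (m + 4) → Fin (r + 1)) := by
    simp only [Fin.cons_injective_iff, Fin.range_cons, Set.mem_insert_iff, not_or]
    exact ⟨⟨e'', e', hl'⟩, ⟨e, hl⟩, hd, ho⟩
  have h1 : a = l' ∨ a = l ∨ a = d ∨ a ∈ Set.range o := .inr (ha.imp_right .inr)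
  have h2 : a' = l' ∨ a' = l ∨ a' = d ∨ a' ∈ Set.range o := ha'.imp_right fun h => .inr (.inr h)
  simp only [← Set.mem_insert_iff, ← Fin.range_cons] at h1 h2
  obtain ⟨a, rfl⟩ := h1
  obtain ⟨a', rfl⟩ := h2
  exact Bd.val fun τ0 => ⟨_, fun D H _ => (congrArg abs (avm_Sm hι (fun x => x.succ.succ.succ)
    (Fin.succ (Fin.succ 0)) (Fin.succ 0) 0 a a' c b b' h h')).trans_le (can2 T H a a')⟩

end gen

/-- base `c, b, b', h, h'`, free leaf `d`, late leaves `l, l'` -/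
def Cx (J K : ℕ) (σ : SM r) (b b' c d h h' l l' : Fin r) : Prop :=
  (X0 J σ c b b' h h' ∧ σ c b < σ c d ∧ σ c d < K ∧
    ∀ y ∈ ({c, b, b', h, h'} : Finset (Fin r)), y ≠ c → σ c y ≠ σ c d) ∧
    σ c l = σ c d ∧ σ c l' = σ c d

instance (J K : ℕ) (σ : SM r) (b b' c d h h' l l' : Fin r) :
    Decidable (Cx J K σ b b' c d h h' l l') := by
  unfold Cx; infer_instance

theorem Cx.not_mem {J K : ℕ} {σ : SM r} {b b' c d h h' l l' x : Fin r} (hσ : Rz K σ)
    (H : Cx J K σ b b' c d h h' l l') (e : σ c x = σ c d) :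
    x ∉ ({c, b, b', h, h'} : Finset (Fin r)) := fun hx => H.1.2.2.2 x hx (fun e' => by
  have := H.1.2.2.1
  rw [e', hσ.self] at e
  omega) e

/-- one pattern -/
def Sx (D : CD) (σ : SM r) (a b a' b' c d h h' l l' : Fin r) : ℝ :=
  if Cx D.J D.B.length σ b b' c d h h' l l' then
    Bj D σ (σ c b) h b h' b' c d * Sj D σ (σ c b) a b a' b' c d else 0

theorem bd_Sx (T : TlS) {a b a' b' c d h h' l l' : Fin (r + 1)} (ha : a = l ∨ a = h)
    (ha' : a' = l' ∨ a' = h') :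
    Bd false fun D => avm D.B r fun σ => Sx D σ a b a' b' c d h h' l l' := by
  set Bs : Finset (Fin (r + 1)) := {c, b, b', h, h'} with hB
  by_cases e : d ∈ Bs ∨ l ∈ Bs ∨ l' ∈ Bs
  · refine (Bd.zero _).congr fun _ D _ _ => (avm_congr _ _ fun σ hσ => if_neg fun H => ?_).trans
      (avm_const _ 0 r)
    rcases e with e | e | e
    exacts [H.not_mem hσ rfl e, H.not_mem hσ H.2.1 e, H.not_mem hσ H.2.2 e]
  simp only [not_or] at e
  obtain ⟨m, hm⟩ : ∃ m, Bs.card = m + 1 :=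
    ⟨Bs.card - 1, by have := Finset.card_pos.2 (⟨c, by simp [hB]⟩ : Bs.Nonempty); omega⟩
  obtain ⟨o, ho, hr⟩ : ∃ o : Fin (m + 1) → Fin (r + 1), Injective o ∧
      ∀ x, x ∈ Set.range o ↔ x ∈ Bs := ⟨Bs.orderEmbOfFin hm, (Bs.orderEmbOfFin hm).injective,
    fun x => by rw [Finset.range_orderEmbOfFin, Finset.mem_coe]⟩
  obtain ⟨c, rfl⟩ := (hr c).2 (by simp [hB])
  obtain ⟨b, rfl⟩ := (hr b).2 (by simp [hB])
  obtain ⟨b', rfl⟩ := (hr b').2 (by simp [hB])
  obtain ⟨h, rfl⟩ := (hr h).2 (by simp [hB])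
  obtain ⟨h', rfl⟩ := (hr h').2 (by simp [hB])
  refine (gen (c := c) (b := b) (b' := b') (h := h) (h' := h') T ho (mt (hr _).1 e.1)
    (mt (hr _).1 e.2.1) (mt (hr _).1 e.2.2) (ha.imp_right fun e => ⟨_, e.symm⟩)
    (ha'.imp_right fun e => ⟨_, e.symm⟩)).congr fun _ D _ _ =>
      congrArg _ (funext fun σ => if_congr (and_congr_left fun _ => and_congr_right fun _ =>
        and_congr_right fun _ => and_congr_right fun _ => ⟨fun H y hy =>
          H _ ((hr _).1 ⟨y, rfl⟩) (ho.ne hy), fun H y hy e => ?_⟩) rfl rfl)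
  obtain ⟨y, rfl⟩ := (hr y).2 hy
  exact H y fun e' => e (congrArg o e')

section pt

variable {J K : ℕ} {σ : SM r} {a b a' b' c d h h' l l' : Fin r}

theorem Xc.lev (hσ : Rz K σ) (X : Xc J K σ a b a' b' c d) : σ a b = σ c b ∧ σ a' b' = σ c b := by
  obtain ⟨x1, x2, x3, x4, x5, x6⟩ := X
  have := hσ.ultra c a b; have := hσ.ultra a c b; have := hσ.comm a c
  have := hσ.ultra a' a b; have := hσ.ultra a a' b; have := hσ.comm a a'
  have := hσ.ultra a' b b'; have := hσ.ultra a' b' b; have := hσ.comm b b'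
  omega

theorem xc_iff (hσ : Rz K σ)
    (e : σ c a = σ c d ∧ h = c ∧ l = a ∨ σ c a ≠ σ c d ∧ h = a ∧ l = d)
    (e' : σ c a' = σ c d ∧ h' = c ∧ l' = a' ∨ σ c a' ≠ σ c d ∧ h' = a' ∧ l' = d) :
    Xc J K σ a b a' b' c d ↔ Cx J K σ b b' c d h h' l l' := by
  have k : ∀ {a h l : Fin r}, σ c a = σ c d ∧ h = c ∧ l = a ∨ σ c a ≠ σ c d ∧ h = a ∧ l = d →
      σ c l = σ c d ∧ (h ≠ c → σ c h ≠ σ c d) ∧ ∀ j, j < σ c d → σ c d < K →
        (j < σ c h ↔ j < σ c a) := fun e => by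
    have := hσ.self c
    rcases e with ⟨e, rfl, rfl⟩ | ⟨e, rfl, rfl⟩
    exacts [⟨e, fun e => (e rfl).elim, fun _ _ _ => by omega⟩, ⟨rfl, fun _ => e, fun _ _ _ => .rfl⟩]
  obtain ⟨k1, k2, k3⟩ := k e
  obtain ⟨k4, k5, k6⟩ := k e'
  have ac := hσ.comm a c
  simp only [Cx, X0, Finset.mem_insert, Finset.mem_singleton, forall_eq_or_imp, forall_eq]
  refine ⟨fun X => ?_, fun ⟨⟨⟨x1, x2, x3, x4⟩, x5, x6, _⟩, _⟩ => ?_⟩
  · have e1 := (X.lev hσ).1
    obtain ⟨x1, x2, x3, x4, x5, x6⟩ := X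
    have e2 : σ c b < σ c d := by have := hσ.ultra c a d; omega
    have e3 : σ c b < σ c a' := by have := hσ.ultra c a a'; omega
    have e4 : σ c b' ≤ σ c b := by have := hσ.ultra c b' b; have := hσ.comm b b'; omega
    exact ⟨⟨⟨e1 ▸ x1, e1 ▸ x3, (k3 _ e2 x6).2 (by omega), (k6 _ e2 x6).2 e3⟩, e2, x6,
      fun e => (e rfl).elim, fun _ => e2.ne, fun _ => (e4.trans_lt e2).ne, k2, k5⟩, k1, k4⟩
  · have y3 := (k3 _ x5 x6).1 x3
    have y4 := (k6 _ x5 x6).1 x4
    have e1 : σ a b = σ c b := by have := hσ.ultra c a b; have := hσ.ultra a c b; omega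
    exact ⟨e1 ▸ x1, by have := hσ.ultra a c a'; omega, e1 ▸ x2, by omega,
      by have := hσ.ultra a c d; omega, x6⟩

theorem Sk_eq (hσ : Rz K σ) (X : Xc J K σ a b a' b' c d) :
    Sk D σ a b a' b' c d = Sj D σ (σ c b) a b a' b' c d := by
  obtain ⟨e1, e2⟩ := X.lev hσ
  have : Site94.SF D.S (fun _ => D.q) ![a, a', c] ![b, b', d] Finset.univ σ = Ck32.TS D σ fun x =>
      oE D.q (σ a b) (x a) (x b) * oE D.q (σ a' b') (x a') (x b') * oE D.q (σ c d) (x c) (x d) :=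
    congrArg _ (funext fun x => Fin.prod_univ_three _)
  rw [Sk, Sj, this, e1, e2]
  ring

theorem split4 (hσ : Rz D.B.length σ) : (if Xc D.J D.K σ a b a' b' c d then
    Bj D σ (σ c b) (rp σ c d a) b (rp σ c d a') b' c d * Sk D σ a b a' b' c d else 0) =
    Sx D σ a b a' b' c d c c a a' + Sx D σ a b a' b' c d c a' a d +
      (Sx D σ a b a' b' c d a c d a' + Sx D σ a b a' b' c d a a' d d) := by
  rw [← D.B_len]
  have z : ∀ {h h' l l'}, ¬Cx D.J D.B.length σ b b' c d h h' l l' →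
      Sx D σ a b a' b' c d h h' l l' = 0 := fun H => if_neg H
  by_cases e : σ c a = σ c d <;> by_cases e' : σ c a' = σ c d
  · rw [z (h' := a') fun H => H.not_mem hσ e' (by simp), z (h := a) fun H => H.not_mem hσ e (by simp),
      z (h := a) fun H => H.not_mem hσ e (by simp), rp, rp, if_pos e, if_pos e', add_zero, add_zero,
      add_zero]
    exact if_ctx_congr (xc_iff hσ (.inl ⟨e, rfl, rfl⟩) (.inl ⟨e', rfl, rfl⟩)) (fun X => by
      rw [Sk_eq hσ ((xc_iff hσ (.inl ⟨e, rfl, rfl⟩) (.inl ⟨e', rfl, rfl⟩)).2 X)]) fun _ => rfl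
  · rw [z (l' := a') fun H => e' H.2.2, z (l' := a') fun H => e' H.2.2,
      z (h := a) fun H => H.not_mem hσ e (by simp), rp, rp, if_pos e, if_neg e', add_zero, add_zero,
      zero_add]
    exact if_ctx_congr (xc_iff hσ (.inl ⟨e, rfl, rfl⟩) (.inr ⟨e', rfl, rfl⟩)) (fun X => by
      rw [Sk_eq hσ ((xc_iff hσ (.inl ⟨e, rfl, rfl⟩) (.inr ⟨e', rfl, rfl⟩)).2 X)]) fun _ => rfl
  · rw [z (l := a) fun H => e H.2.1, z (l := a) fun H => e H.2.1,
      z (h' := a') fun H => H.not_mem hσ e' (by simp), rp, rp, if_neg e, if_pos e', add_zero,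
      add_zero, zero_add]
    exact if_ctx_congr (xc_iff hσ (.inr ⟨e, rfl, rfl⟩) (.inl ⟨e', rfl, rfl⟩)) (fun X => by
      rw [Sk_eq hσ ((xc_iff hσ (.inr ⟨e, rfl, rfl⟩) (.inl ⟨e', rfl, rfl⟩)).2 X)]) fun _ => rfl
  · rw [z (l := a) fun H => e H.2.1, z (l := a) fun H => e H.2.1, z (l' := a') fun H => e' H.2.2,
      rp, rp, if_neg e, if_neg e', add_zero, zero_add, zero_add]
    exact if_ctx_congr (xc_iff hσ (.inr ⟨e, rfl, rfl⟩) (.inr ⟨e', rfl, rfl⟩)) (fun X => by
      rw [Sk_eq hσ ((xc_iff hσ (.inr ⟨e, rfl, rfl⟩) (.inr ⟨e', rfl, rfl⟩)).2 X)]) fun _ => rfl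

end pt

/-- **the main part of the exception** -/
theorem maiS (T : TlS) : MaiS := fun r a b a' b' c d _ =>
  (((bd_Sx T (h := c) (h' := c) (.inl rfl) (.inl rfl)).add
    (bd_Sx T (h := c) (l' := d) (.inl rfl) (.inr rfl))).add
      ((bd_Sx T (h' := c) (l := d) (.inr rfl) (.inl rfl)).add
        (bd_Sx T (l := d) (l' := d) (.inr rfl) (.inr rfl)))).congr fun _ D _ _ => by
    rw [← avm_add, ← avm_add, ← avm_add]
    exact avm_congr _ _ fun σ hσ => split4 hσ

theorem excS_of (R : RepS) (M : MaiS) : ExcS := fun r a b a' b' c d e =>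
  ((R r a b a' b' c d e).add (M r a b a' b' c d e)).congr fun _ D _ _ => by
    rw [← avm_add]
    refine avm_congr _ _ fun σ _ => ?_
    split_ifs
    exacts [by ring, (add_zero _).symm]

end Crest.Agent.T156.Cas.C394

end
end

-- ▼ part T156/C3R_38
section

/-!
# Row 156, block C (helper38): the word `[aU, aU, aU]` outside the exception
-/

set_option autoImplicit false
set_option linter.all false

noncomputable section

namespace Crest.Agent.T156.Cas.C394

open Crest.Agent.T157.E Crest.Agent.T157.Casc Crest.Agent.T157.SL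
open Crest.Agent.T157.G1 (ov)
open Crest.ProbabilityR.SpinGlassDynamics (spin)
open Mul55 C40 Nu87 Ck32 G90 Site94 Wp52

namespace R38

variable {r K J : ℕ} {D : CD} {τ0 : ℝ}

/-! ### the four orientations -/

/-- the exception in any orientation of the double edge -/
def X4 (J K : ℕ) (σ : SM r) (a b a' b' c d : Fin r) : Prop :=
  Xc J K σ a b a' b' c d ∨ Xc J K σ a b b' a' c d ∨ Xc J K σ b a a' b' c d ∨ Xc J K σ b a b' a' c d

instance (J K : ℕ) (σ : SM r) (a b a' b' c d : Fin r) : Decidable (X4 J K σ a b a' b' c d) := by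
  unfold X4; infer_instance

theorem xc_lev {σ : SM r} {K' : ℕ} (hσ : Rz K' σ) {a b a' b' c d : Fin r}
    (h : Xc J K σ a b a' b' c d) :
    J < σ a b ∧ σ a' b' = σ a b ∧ σ a b < σ c d ∧ σ c d < K := by
  obtain ⟨h1, h2, h3, h4, h5, h6⟩ := h
  have := hσ.ultra a' a b'; have := hσ.ultra a b b'; have := hσ.ultra a a' b
  have := hσ.ultra a' b' b; have := hσ.ultra c a d
  have := hσ.comm a' a; have := hσ.comm b' b; have := hσ.comm c a
  omega

theorem x4_lev {σ : SM r} {K' : ℕ} (hσ : Rz K' σ) {a b a' b' c d : Fin r}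
    (h : X4 J K σ a b a' b' c d) :
    J < σ a b ∧ σ a' b' = σ a b ∧ σ a b < σ c d ∧ σ c d < K := by
  have := hσ.comm a b; have := hσ.comm a' b'
  rcases h with h | h | h | h <;> have := xc_lev hσ h <;> omega

theorem x4_of {σ : SM r} {K' : ℕ} (hσ : Rz K' σ) {a b a' b' c d : Fin r} (h1 : J < σ a b)
    (h2 : σ a' b' = σ a b) (h3 : σ a b < σ c d) (h4 : σ c d < K) (h5 : ¬Tri σ (σ a b)) :
    X4 J K σ a b a' b' c d := by
  have v : ∀ x, σ a b < σ a x ∨ σ a b < σ b x := fun x => by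
    by_contra h'
    exact h5 ⟨a, b, x, le_rfl, by omega, by omega⟩
  have u : ∀ a x y, min (σ a x) (σ a y) ≤ σ x y := fun a x y => hσ.comm x a ▸ hσ.ultra x a y
  have w : ∀ x y, σ a b < σ x y → (σ a b < σ a x ↔ σ a b < σ a y) ∧
      (σ a b < σ b x ↔ σ a b < σ b y) := fun x y h => by
    have := hσ.ultra a x y; have := hσ.ultra a y x; have := hσ.ultra b x y
    have := hσ.ultra b y x; have := hσ.comm x y
    omega
  have := v a'; have := v b'; have := v c; have := w c d h3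
  have := u a a' b'; have := u b a' b'; have := hσ.comm a b
  unfold X4 Xc
  omega

/-! ### the term -/

/-- bulk factor times site factor -/
def Tm (D : CD) (σ : SM r) (a b a' b' c d : Fin r) : ℝ :=
  Bk D σ a b a' b' c d * Sk D σ a b a' b' c d

theorem Tm_eq (σ : SM r) (a b a' b' c d : Fin r) : Tm D σ a b a' b' c d =
    TB D σ (fun x => ed (oU D.q) a b x σ * ed (oU D.q) a' b' x σ * ed (oU D.q) c d x σ) *
      (D.τ (σ a b) * D.τ (σ a' b') * D.τ (σ c d) * Ck32.TS D σ fun x =>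
        ed (et D.q) a b x σ * ed (et D.q) a' b' x σ * ed (et D.q) c d x σ) := by
  simp only [Tm, Bk, Sk, SF, Ck32.TS, Fin.prod_univ_three]
  rfl

theorem edU_comm {σ : SM r} {K' : ℕ} (hσ : Rz K' σ) (a b : Fin r) (x : Fin r → Cube D.n) :
    ed (oU D.q) b a x σ = ed (oU D.q) a b x σ := by
  simp only [ed, oU, hσ.comm b a, Crest.Agent.T157.G1.ov, dotProduct_comm (_ : Fin D.n → ℝ) (_ : Fin D.n → ℝ)]

theorem edE_comm {σ : SM r} {K' : ℕ} (hσ : Rz K' σ) (a b : Fin r) (x : Fin r → Bool) :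
    ed (et D.q) b a x σ = ed (et D.q) a b x σ := by
  simp only [ed, et, hσ.comm b a, mul_comm (spin (x b))]

theorem Tm_s1 {σ : SM r} {K' : ℕ} (hσ : Rz K' σ) (a b a' b' c d : Fin r) :
    Tm D σ b a a' b' c d = Tm D σ a b a' b' c d := by
  simp only [Tm_eq, edU_comm hσ a b, edE_comm hσ a b, hσ.comm b a]

theorem Tm_s2 {σ : SM r} {K' : ℕ} (hσ : Rz K' σ) (a b a' b' c d : Fin r) :
    Tm D σ a b b' a' c d = Tm D σ a b a' b' c d := by
  simp only [Tm_eq, edU_comm hσ a' b', edE_comm hσ a' b', hσ.comm b' a']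

theorem Tm_p1 (σ : SM r) (a b a' b' c d : Fin r) :
    Tm D σ a b c d a' b' = Tm D σ a b a' b' c d := by
  simp only [Tm_eq, mul_right_comm _ (ed _ c d _ σ), mul_right_comm _ (D.τ (σ c d))]

theorem Tm_p2 (σ : SM r) (a b a' b' c d : Fin r) :
    Tm D σ a' b' c d a b = Tm D σ a b a' b' c d := by
  simp only [Tm_eq, mul_comm _ (ed _ a b _ σ), mul_comm _ (D.τ (σ a b)), mul_assoc]

/-- one exceptional graph -/
def E1 (D : CD) (a b a' b' c d : Fin r) (σ : SM r) : ℝ :=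
  if Xc D.J D.K σ a b a' b' c d then Tm D σ a b a' b' c d else 0

/-- the four orientations -/
def E4 (D : CD) (a b a' b' c d : Fin r) (σ : SM r) : ℝ :=
  E1 D a b a' b' c d σ + E1 D a b b' a' c d σ + E1 D b a a' b' c d σ + E1 D b a b' a' c d σ

theorem E4_eq {σ : SM r} {K' : ℕ} (hσ : Rz K' σ) (a b a' b' c d : Fin r) :
    E4 D a b a' b' c d σ = if X4 D.J D.K σ a b a' b' c d then Tm D σ a b a' b' c d else 0 := by
  have := hσ.ultra a a' b; have := hσ.ultra a c b; have := hσ.comm a' b; have := hσ.comm c b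
  have := hσ.comm a b
  simp only [E4, E1, Tm_s1 hσ a b, Tm_s2 hσ a b a' b', X4]
  by_cases h1 : Xc D.J D.K σ a b a' b' c d <;> by_cases h2 : Xc D.J D.K σ a b b' a' c d <;>
    by_cases h3 : Xc D.J D.K σ b a a' b' c d <;> by_cases h4 : Xc D.J D.K σ b a b' a' c d <;>
    simp only [h1, h2, h3, h4, if_true, if_false, add_zero, zero_add, true_or, or_true, or_self] <;>
    (exfalso; unfold Xc at *; omega)

theorem bd_E4 (hE : ExcS) (r : ℕ) (a b a' b' c d : Fin (r + 1)) (h : c ≠ d) :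
    Bd false fun D => avm D.B r (E4 D a b a' b' c d) :=
  ((((hE r a b a' b' c d h).add (hE r a b b' a' c d h)).add (hE r b a a' b' c d h)).add
    (hE r b a b' a' c d h)).congr fun _ D _ _ => by
      rw [← avm_add, ← avm_add, ← avm_add]; rfl

/-! ### the good graphs -/

/-- the parity constant -/
def cE (r : ℕ) : ℝ := cP r (2 * (cP 2 2 + 1)) * (cP 2 2 + 1)

theorem cE_nonneg (r : ℕ) : 0 ≤ cE r :=
  mul_nonneg (cP_nonneg _ _) (by linarith [cP_nonneg 2 2])

/-- an odd cluster at a cut below the upper level `t` costs `e t` -/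
theorem sf_par (H : D.Ok τ0) (hW : D.W.isSome = false) {σ : SM r} (hσ : Rz D.B.length σ)
    {ι : Type} [DecidableEq ι] {p p' : ι → Fin r} {B : Finset ι} {j t : ℕ} (ht : t ∈ D.up)
    (hj : j ≤ t) (ho : OddAt σ p p' B j) :
    |SF D.S (fun _ => D.q) p p' B σ| ≤ 2 ^ B.card * cE r * D.e t := by
  refine le_of_eps76 (mul_nonneg (by positivity) (cE_nonneg r)) fun ε h0 h1 => ?_
  obtain ⟨s, s0, s1, s2, -, s4, s5⟩ := size76 H ht h0 h1
  refine (L376.SF_odd2 (L := D.S) (ℓ := opV D.n D.β D.M D.q) (C.forall₂_sl spin (opV_nn H.ook))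
    (Cav22.mono_tilt tilt_opS.symm H.mono) (lenS (D := D) ▸ hσ)
    (fun _ _ => abs_q_le H (hσ.le _ _)) ho s0 hj s4 fun _ _ h => s5 _ (h.trans hj)).trans ?_
  rw [mul_assoc]
  exact mul_le_mul_of_nonneg_left (cP_le76 r s0 s1 s2) (by positivity)

/-- the bound carried by one edge -/
def ph (D : CD) (a b : Fin r) (σ : SM r) : ℝ :=
  cE r * upF D (fun j => D.e j * D.u 3 j) (σ a b) +
    (if Out id σ a b then upF D (D.u 3) (σ a b) else 0) + 8 * if σ a b = D.K then 1 else 0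

theorem ph_parts (H : D.Ok τ0) (a b : Fin r) (σ : SM r) :
    0 ≤ cE r * upF D (fun j => D.e j * D.u 3 j) (σ a b) ∧
      0 ≤ (if Out id σ a b then upF D (D.u 3) (σ a b) else 0) ∧
      (0 : ℝ) ≤ 8 * if σ a b = D.K then 1 else 0 := by
  refine ⟨mul_nonneg (cE_nonneg r) (upF_nonneg (fun j => mul_nonneg (H.e0 j) (D.u0 3 j)) _), ?_,
    by positivity⟩
  split_ifs
  exacts [upF_nonneg (D.u0 3) _, le_rfl]

theorem ph_nonneg (H : D.Ok τ0) (a b : Fin r) (σ : SM r) : 0 ≤ ph D a b σ :=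
  let ⟨h1, h2, h3⟩ := ph_parts H a b σ
  add_nonneg (add_nonneg h1 h2) h3

theorem ex_le_e (H : D.Ok τ0) {j : ℕ} (hj : j ∈ D.up) : ex D.B j ≤ D.e j :=
  (le_min (Tay38.ex_le_one H.mono j)
    (le_add_of_nonneg_right (H.sig0 (CD.mem_up.1 hj).2.le))).trans (H.esc j hj)

theorem avm_ph (H : D.Ok τ0) {a b : Fin (r + 1)} (hab : a ≠ b) :
    avm D.B r (ph D a b) ≤ (cE (r + 1) + (r + 1)) * D.I fun j => D.e j * D.g j ^ 3 := by
  have h1 := avm_pair D.B (upF D fun j => D.e j * D.u 3 j) r hab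
  have h2 := avm_out H.mono id (upF_nonneg (D := D) (D.u0 3)) hab
  have h3 := avm_pair D.B (fun j => if j = D.K then (1 : ℝ) else 0) r hab
  have h4 : ∑ j ∈ Finset.range (D.B.length + 1), dm D.B 0 j * (ex D.B (id j) * upF D (D.u 3) j) ≤
      Br D.B (upF D fun j => D.e j * D.u 3 j) := Finset.sum_le_sum fun j hj => by
    have hj' : j ≤ D.K := lenB (D := D) ▸ Nat.lt_succ_iff.1 (Finset.mem_range.1 hj)
    rcases hj'.lt_or_eq with h | rfl
    · refine mul_le_mul_of_nonneg_left ?_ (H.dx0 j)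
      unfold upF
      split_ifs with h5
      · exact mul_le_mul_of_nonneg_right (ex_le_e H (CD.mem_up.2 ⟨h5, h⟩)) (D.u0 3 j)
      · exact (mul_zero _).le
    · rw [show dm D.B 0 D.K = 0 from H.top, zero_mul, zero_mul]
  have h5 : ∑ j ∈ Finset.range (D.B.length + 1), dm D.B 0 j * (if j = D.K then (1 : ℝ) else 0) = 0 :=
    Finset.sum_eq_zero fun j _ => by
      split_ifs with h
      · rw [h, show dm D.B 0 D.K = 0 from H.top, zero_mul]
      · exact mul_zero _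
  have h6 : Br D.B (upF D fun j => D.e j * D.u 3 j) = D.I fun j => D.e j * D.g j ^ 3 := by
    simp only [Br_upF H, D.g_cube]
  have h7 := h2.trans (mul_le_mul_of_nonneg_left h4 (by positivity))
  change _ = Br D.B _ at h1
  unfold ph
  rw [avm_add, avm_add, avm_mul, avm_mul, h1, h3, h5, ← h6]
  linarith

theorem amgm3 (x y z : ℝ) : |x * y * z| ≤ |x| ^ 3 + |y| ^ 3 + |z| ^ 3 := by
  simpa [Fin.prod_univ_three, Fin.sum_univ_three] using
    prod_le_sum_pow (B := (Finset.univ : Finset (Fin 3))) Finset.univ_nonempty ![x, y, z]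

theorem abs_Bk {σ : SM r} (hσ : Rz D.B.length σ) {a b a' b' c d : Fin r} (h1 : a ≠ b)
    (h2 : a' ≠ b') (h3 : c ≠ d) :
    |Bk D σ a b a' b' c d| ≤ D.u 3 (σ a b) + D.u 3 (σ a' b') + D.u 3 (σ c d) := by
  refine (abs_TB_le hσ fun x => amgm3 _ _ _).trans_eq ?_
  rw [← TB_pow hσ h1, ← TB_pow hσ h2, ← TB_pow hσ h3, TB, TM_add, TM_add]
  rfl

theorem abs_Bk' (H : D.Ok τ0) {σ : SM r} (hσ : Rz D.B.length σ) (a b a' b' c d : Fin r) :
    |Bk D σ a b a' b' c d| ≤ 8 := by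
  have u : ∀ (a b : Fin r) (x : Fin r → Cube D.n), |ed (oU D.q) a b x σ| ≤ 2 := fun a b x =>
    abs_oU_le H.ook ((hσ.le a b).trans_eq lenB) _ _
  refine (abs_TB_le hσ (G := fun _ => 8) fun x => ?_).trans_eq (TM_const wt_one90 hσ 8)
  rw [abs_mul, abs_mul]
  exact (mul_le_mul (mul_le_mul (u _ _ x) (u _ _ x) (abs_nonneg _) zero_le_two) (u _ _ x)
    (abs_nonneg _) (by norm_num)).trans_eq (by norm_num)

theorem abs_Sk (H : D.Ok τ0) (σ : SM r) (a b a' b' c d : Fin r) {s : ℝ}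
    (h : |SF D.S (fun _ => D.q) ![a, a', c] ![b, b', d] Finset.univ σ| ≤ s) :
    |Sk D σ a b a' b' c d| ≤ τ0 ^ 3 * s := by
  have t := H.tau_mem
  have t0 := H.tau0
  rw [Sk, abs_mul, abs_of_nonneg (mul_nonneg (mul_nonneg (t _).1 (t _).1) (t _).1)]
  refine mul_le_mul ?_ h (abs_nonneg _) (by positivity)
  rw [pow_succ, sq]
  exact mul_le_mul (mul_le_mul (t _).2 (t _).2 (t _).1 t0) (t _).2 (t _).1 (by positivity)

/-- all edges above the cut -/
def U3 (J : ℕ) (σ : SM r) (a b a' b' c d : Fin r) : Prop := J < σ a b ∧ J < σ a' b' ∧ J < σ c d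

instance (J : ℕ) (σ : SM r) (a b a' b' c d : Fin r) : Decidable (U3 J σ a b a' b' c d) := by
  unfold U3; infer_instance

theorem good_le (H : D.Ok τ0) (hW : D.W.isSome = false) {σ : SM r} (hσ : Rz D.B.length σ)
    {a b a' b' c d : Fin r} (h1 : a ≠ b) (h2 : a' ≠ b') (h3 : c ≠ d)
    (hU : U3 D.J σ a b a' b' c d) (x1 : ¬X4 D.J D.K σ a b a' b' c d)
    (x2 : ¬X4 D.J D.K σ a b c d a' b') (x3 : ¬X4 D.J D.K σ a' b' c d a b) :
    |Tm D σ a b a' b' c d| ≤ τ0 ^ 3 * 8 * (ph D a b σ + ph D a' b' σ + ph D c d σ) := by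
  have t0 := H.tau0
  have c8 : (2 : ℝ) ^ (Finset.univ : Finset (Fin 3)).card = 8 := by norm_num
  have hS : |SF D.S (fun _ => D.q) ![a, a', c] ![b, b', d] Finset.univ σ| ≤ 8 :=
    (abs_SF_le (lenS (D := D) ▸ hσ) fun _ _ => abs_q_le H (hσ.le _ _)).trans_eq c8
  obtain ⟨p1, p2, p3⟩ := ph_parts H a b σ
  obtain ⟨q1, q2, q3⟩ := ph_parts H a' b' σ
  obtain ⟨r1, r2, r3⟩ := ph_parts H c d σ
  obtain ⟨u1, u2, u3⟩ := hU
  rw [Tm, abs_mul]
  by_cases hK : σ a b = D.K ∨ σ a' b' = D.K ∨ σ c d = D.K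
  · refine (mul_le_mul (abs_Bk' H hσ _ _ _ _ _ _) (abs_Sk H σ _ _ _ _ _ _ hS) (abs_nonneg _)
      (by norm_num)).trans ?_
    rw [mul_comm]
    refine mul_le_mul_of_nonneg_left ?_ (by positivity)
    unfold ph
    rcases hK with h | h | h
    · rw [if_pos h]; linarith
    · rw [if_pos h]; linarith
    · rw [if_pos h]; linarith
  have l1 := lenB (D := D) ▸ hσ.le a b
  have l2 := lenB (D := D) ▸ hσ.le a' b'
  have l3 := lenB (D := D) ▸ hσ.le c d
  have k1 : σ a b < D.K := by omega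
  have k2 : σ a' b' < D.K := by omega
  have k3 : σ c d < D.K := by omega
  have hB := abs_Bk (D := D) hσ h1 h2 h3
  have n1 := D.u0 3 (σ a b)
  have n2 := D.u0 3 (σ a' b')
  have n3 := D.u0 3 (σ c d)
  have hx : ¬Exc id ![a, a', c] ![b, b', d] σ := by
    rintro ⟨i, i', i'', m1, m2, m3, e1, e2, e3⟩
    fin_cases i <;> fin_cases i' <;> fin_cases i'' <;>
      first
      | exact absurd rfl m1
      | exact absurd rfl m2
      | exact absurd rfl m3
      | skip
    · exact x1 (x4_of hσ u1 e1 e2 k3 e3)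
    · exact x2 (x4_of hσ u1 e1 e2 k2 e3)
    · exact x1 (x4_of hσ u1 e1.symm (e1.trans_lt e2) k3 (e1 ▸ e3))
    · exact x3 (x4_of hσ u2 e1 e2 k1 e3)
    · exact x2 (x4_of hσ u1 e1.symm (e1.trans_lt e2) k2 (e1 ▸ e3))
    · exact x3 (x4_of hσ u2 e1.symm (e1.trans_lt e2) k1 (e1 ▸ e3))
  rcases good_three hσ (c := id) monotone_id (fun _ => le_rfl) hx with ⟨j, ho, hj⟩ | ho
  · have key : ∀ t ∈ D.up, j ≤ t → D.u 3 t * |Sk D σ a b a' b' c d| ≤
        τ0 ^ 3 * 8 * (cE r * upF D (fun j => D.e j * D.u 3 j) t) := fun t ht hjt => by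
      have := abs_Sk H σ _ _ _ _ _ _ (sf_par H hW hσ ht hjt ho)
      rw [c8] at this
      refine (mul_le_mul_of_nonneg_left this (D.u0 3 t)).trans_eq ?_
      rw [upF, if_pos (CD.mem_up.1 ht).1]
      ring
    have a1 := key _ (CD.mem_up.2 ⟨u1, k1⟩) (hj 0 (Finset.mem_univ _))
    have a2 := key _ (CD.mem_up.2 ⟨u2, k2⟩) (hj 1 (Finset.mem_univ _))
    have a3 := key _ (CD.mem_up.2 ⟨u3, k3⟩) (hj 2 (Finset.mem_univ _))
    have a4 := mul_le_mul_of_nonneg_right hB (abs_nonneg (Sk D σ a b a' b' c d))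
    have a5 : 0 ≤ τ0 ^ 3 * 8 := by positivity
    unfold ph
    nlinarith [mul_nonneg a5 p2, mul_nonneg a5 p3, mul_nonneg a5 q2, mul_nonneg a5 q3,
      mul_nonneg a5 r2, mul_nonneg a5 r3]
  · refine (mul_le_mul hB (abs_Sk H σ _ _ _ _ _ _ hS) (abs_nonneg _) (by positivity)).trans ?_
    rw [mul_comm]
    refine mul_le_mul_of_nonneg_left ?_ (by positivity)
    have o1 : Out id σ a b := ho 0 (Finset.mem_univ _)
    have o2 : Out id σ a' b' := ho 1 (Finset.mem_univ _)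
    have o3 : Out id σ c d := ho 2 (Finset.mem_univ _)
    have e : ∀ t, D.J < t → upF D (D.u 3) t = D.u 3 t := fun t h => if_pos h
    unfold ph
    rw [if_pos o1, if_pos o2, if_pos o3, e _ u1, e _ u2, e _ u3]
    linarith

/-- one graph -/
def G3 (D : CD) (a b a' b' c d : Fin r) (σ : SM r) : ℝ :=
  if U3 D.J σ a b a' b' c d then Tm D σ a b a' b' c d else 0

theorem rm_le (H : D.Ok τ0) (hW : D.W.isSome = false) {σ : SM r} (hσ : Rz D.B.length σ)
    {a b a' b' c d : Fin r} (h1 : a ≠ b) (h2 : a' ≠ b') (h3 : c ≠ d) :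
    |G3 D a b a' b' c d σ - (E4 D a b a' b' c d σ + E4 D a b c d a' b' σ + E4 D a' b' c d a b σ)| ≤
      τ0 ^ 3 * 8 * (ph D a b σ + ph D a' b' σ + ph D c d σ) := by
  have h0 : 0 ≤ τ0 ^ 3 * 8 * (ph D a b σ + ph D a' b' σ + ph D c d σ) :=
    mul_nonneg (by have := H.tau0; positivity) (add_nonneg (add_nonneg (ph_nonneg H _ _ _)
      (ph_nonneg H _ _ _)) (ph_nonneg H _ _ _))
  rw [E4_eq hσ, E4_eq hσ, E4_eq hσ, Tm_p1 σ a b a' b' c d, Tm_p2 σ a b a' b' c d, G3]
  have y1 := fun h => x4_lev (J := D.J) (K := D.K) hσ (a := a) (b := b) (a' := a') (b' := b')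
    (c := c) (d := d) h
  have y2 := fun h => x4_lev (J := D.J) (K := D.K) hσ (a := a) (b := b) (a' := c) (b' := d)
    (c := a') (d := b') h
  have y3 := fun h => x4_lev (J := D.J) (K := D.K) hσ (a := a') (b := b') (a' := c) (b' := d)
    (c := a) (d := b) h
  by_cases x1 : X4 D.J D.K σ a b a' b' c d
  · have := y1 x1
    rw [if_pos x1, if_pos (show U3 D.J σ a b a' b' c d from ⟨by omega, by omega, by omega⟩),
      if_neg fun h => by have := y2 h; omega, if_neg fun h => by have := y3 h; omega]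
    simpa using h0
  by_cases x2 : X4 D.J D.K σ a b c d a' b'
  · have := y2 x2
    rw [if_neg x1, if_pos x2,
      if_pos (show U3 D.J σ a b a' b' c d from ⟨by omega, by omega, by omega⟩),
      if_neg fun h => by have := y3 h; omega]
    simpa using h0
  by_cases x3 : X4 D.J D.K σ a' b' c d a b
  · have := y3 x3
    rw [if_neg x1, if_neg x2, if_pos x3,
      if_pos (show U3 D.J σ a b a' b' c d from ⟨by omega, by omega, by omega⟩)]
    simpa using h0
  rw [if_neg x1, if_neg x2, if_neg x3, add_zero, add_zero, sub_zero]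
  split_ifs with hU
  · exact good_le H hW hσ h1 h2 h3 hU x1 x2 x3
  · rwa [abs_zero]

theorem bd_G3 (hE : ExcS) (r : ℕ) (a b a' b' c d : Fin (r + 1)) (h1 : a ≠ b) (h2 : a' ≠ b')
    (h3 : c ≠ d) : Bd false fun D => avm D.B r (G3 D a b a' b' c d) := by
  have k : Bd false fun D => avm D.B r fun σ => G3 D a b a' b' c d σ -
      (E4 D a b a' b' c d σ + E4 D a b c d a' b' σ + E4 D a' b' c d a b σ) := Bd.mk' fun τ0 =>
    ⟨τ0 ^ 3 * 8 * (3 * (cE (r + 1) + (r + 1))), fun D H hW => by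
      refine (abs_avm_le H.mono fun σ hσ => rm_le H hW hσ h1 h2 h3).trans ?_
      rw [avm_mul, avm_add, avm_add, mul_assoc (τ0 ^ 3 * 8)]
      refine mul_le_mul_of_nonneg_left ?_ (by have := H.tau0; positivity)
      have := mul_le_mul_of_nonneg_left (H.Ig3_le hW)
        (show 0 ≤ cE (r + 1) + (r + 1) from add_nonneg (cE_nonneg _) (by positivity))
      linarith [avm_ph H h1, avm_ph H h2, avm_ph H h3]⟩
  refine (k.add (((bd_E4 hE r a b a' b' c d h3).add (bd_E4 hE r a b c d a' b' h2)).add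
    (bd_E4 hE r a' b' c d a b h1))).congr fun _ D _ _ => ?_
  rw [avm_sub, avm_add, avm_add]
  ring

/-- a finite family has one constant -/
theorem unif {b : Bool} {α : Type*} (A : Finset α) {g : α → CD → ℝ} (h : ∀ i ∈ A, Bd b (g i))
    (τ0 : ℝ) : ∃ C : ℝ, ∀ i ∈ A, ∀ D : CD, D.Ok τ0 → D.W.isSome = b → |g i D| ≤ C * D.Err := by
  obtain ⟨C, -, hC⟩ := Bd.sum A (g := fun i D => |g i D|)
    (fun i hi => (h i hi).of_le fun _ _ _ _ => (abs_abs _).le) τ0
  exact ⟨C, fun i hi D H hW => (Finset.single_le_sum (f := fun i => |g i D|)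
    (fun _ _ => abs_nonneg _) hi).trans ((le_abs_self _).trans (hC D H hW))⟩

theorem lt_aU (j : ℕ) (x y : Cube D.n) : (lt D.n D.β D.M D.q D.cl C40.aU).1 j x y =
    if D.J < j then D.τ j / 2 * oU D.q j x y else 0 := by
  by_cases h : D.J < j <;> simp [lt, cut, CD.cl, oUb, h, not_le.2, not_lt.1]

theorem phi_eq {σ : SM r} (hσ : Rz D.B.length σ) (a b a' b' c d : Fin r) :
    TB D σ (eF [(lt D.n D.β D.M D.q D.cl C40.aU).1, (lt D.n D.β D.M D.q D.cl C40.aU).1,
        (lt D.n D.β D.M D.q D.cl C40.aU).1] σ [(c, d), (a', b'), (a, b)]) *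
      Ck32.TS D σ (eF [(lt D.n D.β D.M D.q D.cl C40.aU).2, (lt D.n D.β D.M D.q D.cl C40.aU).2,
        (lt D.n D.β D.M D.q D.cl C40.aU).2] σ [(c, d), (a', b'), (a, b)]) =
      1 / 8 * G3 D a b a' b' c d σ := by
  have e2 : eF [(lt D.n D.β D.M D.q D.cl C40.aU).2, (lt D.n D.β D.M D.q D.cl C40.aU).2,
      (lt D.n D.β D.M D.q D.cl C40.aU).2] σ [(c, d), (a', b'), (a, b)] = fun x =>
        ed (et D.q) a b x σ * ed (et D.q) a' b' x σ * ed (et D.q) c d x σ := funext fun x => by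
    simp only [eF, one_mul]
    rfl
  rw [e2, G3]
  split_ifs with h
  · have e1 : eF [(lt D.n D.β D.M D.q D.cl C40.aU).1, (lt D.n D.β D.M D.q D.cl C40.aU).1,
        (lt D.n D.β D.M D.q D.cl C40.aU).1] σ [(c, d), (a', b'), (a, b)] = fun x =>
        (D.τ (σ a b) * D.τ (σ a' b') * D.τ (σ c d) / 8) *
          (ed (oU D.q) a b x σ * ed (oU D.q) a' b' x σ * ed (oU D.q) c d x σ) := funext fun x => by
      simp only [eF, lt_aU, if_pos h.1, if_pos h.2.1, if_pos h.2.2, ed]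
      ring
    rw [e1, Tm_eq, TB, TM_mul, TB]
    ring
  · have e1 : eF [(lt D.n D.β D.M D.q D.cl C40.aU).1, (lt D.n D.β D.M D.q D.cl C40.aU).1,
        (lt D.n D.β D.M D.q D.cl C40.aU).1] σ [(c, d), (a', b'), (a, b)] = fun _ => 0 :=
      funext fun x => by
        simp only [eF, lt_aU]
        unfold U3 at h
        split_ifs <;> first | omega | simp
    rw [e1, TB, TM_const wt_one90 hσ, zero_mul, mul_zero]

/-- three edges -/
abbrev V3 (r : ℕ) : Type :=
  (Fin (r + 1) × Fin (r + 1)) × (Fin (r + 1) × Fin (r + 1)) × (Fin (r + 1) × Fin (r + 1))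

/-- without loops -/
def ok3 (r : ℕ) : Finset (V3 r) :=
  Finset.univ.filter fun v => v.1.1 ≠ v.1.2 ∧ v.2.1.1 ≠ v.2.1.2 ∧ v.2.2.1 ≠ v.2.2.2

end R38

open R38

/-- **everything but the exception is good** -/
theorem redS : RedS := fun hE => Bd.mk' fun τ0 => by
  obtain ⟨C, hC⟩ := unif (b := false) (α := Σ r : ℕ, V3 r) ((Finset.range 6).sigma ok3)
    (g := fun i D => avm D.B i.1 (G3 D i.2.1.1 i.2.1.2 i.2.2.1.1 i.2.2.1.2 i.2.2.2.1 i.2.2.2.2))
    (fun i hi => by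
      have := (Finset.mem_filter.1 (Finset.mem_sigma.1 hi).2).2
      exact bd_G3 hE _ _ _ _ _ _ _ this.1 this.2.1 this.2.2) τ0
  refine ⟨cG 2 * (1 / 8 * C), fun D H hW => ?_⟩
  have e : D.tw [C40.aU, C40.aU, C40.aU] = tm D.n D.β D.M D.q D.cl [C40.aU, C40.aU, C40.aU] :=
    CD.dd_val hW _ _
  rw [e, tm_eq H.pos H.ook, List.map_cons, lamB, frame, mul_assoc, mul_assoc]
  refine abs_LamG_dm _ _ fun r hr E hl hO => ?_
  obtain ⟨⟨c, d⟩, ⟨a', b'⟩, ⟨a, b⟩, rfl⟩ := List.length_eq_three.1 hl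
  have := hC ⟨r, (a, b), (a', b'), (c, d)⟩ (Finset.mem_sigma.2 ⟨Finset.mem_range.2
    (Nat.lt_succ_of_le hr), Finset.mem_filter.2 ⟨Finset.mem_univ _, hO (a, b) (by simp),
      hO (a', b') (by simp), hO (c, d) (by simp)⟩⟩) D H hW
  refine (congrArg abs ((avm_congr _ r fun σ hσ => phi_eq hσ a b a' b' c d).trans
    (avm_mul _ _ _ _))).trans_le ?_
  rw [abs_mul, abs_of_pos (by norm_num : (0 : ℝ) < 1 / 8)]
  exact mul_le_mul_of_nonneg_left this (by norm_num)

end Crest.Agent.T156.Cas.C394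

end
end

-- ▼ part T156/C3P_47

/-!
# Row 156, block C (helper47): the cost of the replacement of late leaves (`RepS`)
-/

set_option autoImplicit false
set_option linter.all false

noncomputable section

namespace Crest.Agent.T156.Cas.C394

open Crest.Agent.T157.E Crest.Agent.T157.Casc Crest.Agent.T157.SL
open C40 Nu87 Wp52 Site94
open Ck32 (TB lenB lenS upF Br_upF abs_q_le)

namespace P47

variable {Ω : Type} {M : List (Lv Ω)} {r : ℕ}

theorem Ey_P2 (hM : Mono 0 M) {F : ℕ → ℕ → ℝ} (hF : ∀ u v, 0 ≤ F u v) :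
    ∀ r : ℕ, Ey M r (P2 M F) ≤ 3 ^ r * Br M fun v => Br M (F v)
  | 0 => by simp [Ey, P2]
  | r + 1 => by
      refine (Ey_mono hM r fun y _ => P2_step hM hF y).trans ?_
      rw [Ey_mul, pow_succ', mul_assoc]
      exact mul_le_mul_of_nonneg_left (Ey_P2 hM hF r) (by norm_num)

/-- two edges at two different levels -/
theorem avm_two (hM : Mono 0 M) {F : ℕ → ℕ → ℝ} (hF : ∀ u v, 0 ≤ F u v) {a b c d : Fin (r + 1)}
    (h0 : ∀ u, F u u = 0) (hK : ∀ u, F M.length u = 0) (hcd : c ≠ d) :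
    avm M r (fun σ => F (σ a b) (σ c d)) ≤ r.factorial * (3 ^ r * Br M fun v => Br M (F v)) := by
  have nn : ∀ y : Fin r → ℕ, 0 ≤ P2 M F y := fun y =>
    let ⟨h1, h2, h3⟩ := P2_nonneg hM hF y
    add_nonneg (add_nonneg h1 h2) h3
  refine (avm_le_Ey hM r (Ψ := P2 M F) (fun y _ => nn y) fun σ y _ hc => ?_).trans
    (mul_le_mul_of_nonneg_left (Ey_P2 hM hF r) (by positivity))
  by_cases hab : a = b
  · rw [hab, hc.rz.self, hK]; exact nn y
  obtain ⟨i, hi⟩ := hc.mem a b hab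
  obtain ⟨i', hi'⟩ := hc.mem c d hcd
  rw [hi, hi']
  by_cases e : i = i'
  · rw [e, h0]; exact nn y
  · exact le_P2 hM hF y e

variable {D : CD} {τ0 : ℝ}

/-- the weight -/
def Fw (D : CD) (u v : ℕ) : ℝ :=
  if u ∈ Finset.Ioo D.J v then (if v < D.K then D.e v * (D.v u v + D.v v v) else 0) else 0

theorem Fw_nonneg (H : D.Ok τ0) (u v : ℕ) : 0 ≤ Fw D u v := by
  unfold Fw
  split_ifs
  · exact mul_nonneg (H.e0 v) (add_nonneg (D.v0 _ _) (D.v0 _ _))
  · exact le_rfl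
  · exact le_rfl

theorem BrBr (H : D.Ok τ0) : (Br D.B fun u => Br D.B (Fw D u)) ≤ D.Lad0 := by
  rw [← Br_comm]
  have h1 := H.Lad0_parts.1
  have h2 : Br D.B (upF D fun t => D.e t ^ 2 * D.v t t +
      D.e t * ∑ y ∈ Finset.Ico 1 t, D.dx y * D.v y t) ≤ D.Lad0 := by
    rw [Br_upF H, D.I_add, CD.Lad0]
    linarith
  refine (Br_mono H.mono fun v hv => ?_).trans h2
  have g0 : 0 ≤ D.e v ^ 2 * D.v v v + D.e v * ∑ y ∈ Finset.Ico 1 v, D.dx y * D.v y v :=
    add_nonneg (mul_nonneg (sq_nonneg _) (D.v0 _ _)) (mul_nonneg (H.e0 v) (H.sv_low0 _ _))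
  unfold Fw
  rw [C3W43.Br_ind _ fun u hu => (Finset.mem_Ioo.1 hu).2.le.trans hv]
  unfold upF
  by_cases hJ : D.J < v
  swap
  · rw [if_neg hJ, Finset.Ioo_eq_empty hJ, Finset.sum_empty]
  rw [if_pos hJ]
  by_cases hK : v < D.K
  swap
  · simpa only [if_neg hK, mul_zero, Finset.sum_const_zero] using g0
  simp only [if_pos hK]
  have e1 : ex D.B v ≤ D.e v :=
    (le_min ((H.sum_dx v).symm.trans_le (H.sum_dx_one fun i hi => by
        have := Finset.mem_range.1 hi; omega))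
      (le_add_of_nonneg_right (H.sig0 hK.le))).trans (H.esc v (CD.mem_up.2 ⟨hJ, hK⟩))
  have e2 : ∑ u ∈ Finset.Ioo D.J v, D.dx u ≤ D.e v :=
    (H.sum_dx_le fun i hi => (Finset.mem_Ioo.1 hi).2.le).trans e1
  have e3 : ∑ u ∈ Finset.Ioo D.J v, D.dx u * D.v u v ≤ ∑ y ∈ Finset.Ico 1 v, D.dx y * D.v y v :=
    Finset.sum_le_sum_of_subset_of_nonneg (fun i hi => by
      have := Finset.mem_Ioo.1 hi
      exact Finset.mem_Ico.2 ⟨by omega, this.2⟩) fun i _ _ => mul_nonneg (H.dx0 i) (D.v0 _ _)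
  have e4 : ∑ u ∈ Finset.Ioo D.J v, dm D.B 0 u * (D.e v * (D.v u v + D.v v v)) =
      D.e v * (∑ u ∈ Finset.Ioo D.J v, D.dx u * D.v u v) +
        D.e v * D.v v v * ∑ u ∈ Finset.Ioo D.J v, D.dx u := by
    rw [Finset.mul_sum, Finset.mul_sum, ← Finset.sum_add_distrib]
    exact Finset.sum_congr rfl fun u _ => by ring
  rw [e4]
  nlinarith [mul_le_mul_of_nonneg_left e3 (H.e0 v),
    mul_le_mul_of_nonneg_left e2 (mul_nonneg (H.e0 v) (D.v0 v v))]

theorem abs_Sk (H : D.Ok τ0) {σ : SM r} (hσ : Rz D.B.length σ) (a b a' b' c d : Fin r) :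
    |Sk D σ a b a' b' c d| ≤ τ0 ^ 3 * 8 := by
  have t := H.tau_mem
  have t0 := H.tau0
  have h := abs_SF_le (L := D.S) (q := fun _ : Fin 3 => D.q) (p := ![a, a', c]) (p' := ![b, b', d])
    (B := Finset.univ) (lenS (D := D) ▸ hσ) fun _ _ => abs_q_le H (hσ.le _ _)
  rw [Sk, abs_mul, abs_of_nonneg (mul_nonneg (mul_nonneg (t _).1 (t _).1) (t _).1)]
  refine mul_le_mul ?_ (h.trans_eq (by simp; norm_num)) (abs_nonneg _) (by positivity)
  rw [pow_succ, sq]
  exact mul_le_mul (mul_le_mul (t _).2 (t _).2 (t _).1 t0) (t _).2 (t _).1 (by positivity)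

/-- one replacement -/
theorem one {C : ℝ} (hC : 0 ≤ C) (H : D.Ok τ0) {σ : SM r} (hσ : Rz D.B.length σ)
    {x y z y' c d : Fin r} {j : ℕ}
    (h : σ c d ≤ σ z c → |TB D σ fun ω => oU D.q j (ω x) (ω y) *
      (oU D.q j (ω z) (ω y') - oU D.q j (ω c) (ω y')) * oU D.q (σ c d) (ω c) (ω d)| ≤
      C * (D.e (σ c d) * (D.v j (σ c d) + D.v (σ c d) (σ c d)) + D.tl)) :
    |TB D σ fun ω => oU D.q j (ω x) (ω y) *
      (oU D.q j (ω z) (ω y') - oU D.q j (ω (rp σ c d z)) (ω y')) * oU D.q (σ c d) (ω c) (ω d)| ≤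
      C * (D.e (σ c d) * (D.v j (σ c d) + D.v (σ c d) (σ c d)) + D.tl) := by
  unfold rp
  split_ifs with e
  · exact h (by rw [hσ.comm z c, e])
  · simp only [sub_self, mul_zero, zero_mul, TB, TM_const wt_one90 hσ, abs_zero]
    exact mul_nonneg hC (add_nonneg (mul_nonneg (H.e0 _) (add_nonneg (D.v0 _ _) (D.v0 _ _))) H.tl0)

end P47

open P47 in
/-- **`RepS`** from `RlS` -/
theorem repS_of (rlS : RlS) : RepS := fun r a b a' b' c d hcd => Bd.val fun τ0 => by
  obtain ⟨C, hC, hR⟩ := rlS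
  refine ⟨2 * C * (τ0 ^ 3 * 8) * (r.factorial * 3 ^ r + 1), fun D H _ => ?_⟩
  have t0 := H.tau0
  have hc : 0 ≤ 2 * C * (τ0 ^ 3 * 8) := by positivity
  refine (abs_avm_le H.mono (g := fun σ => 2 * C * (τ0 ^ 3 * 8) * (Fw D (σ c b) (σ c d) + D.tl))
    fun σ hσ => ?_).trans ?_
  · split_ifs with hX
    swap
    · rw [abs_zero]
      exact mul_nonneg hc (add_nonneg (Fw_nonneg H _ _) H.tl0)
    obtain ⟨h1, h2, h3, h4, h5, h6⟩ := hX
    have u1 := hσ.ultra a' a b'; have u2 := hσ.ultra a b b'; have u3 := hσ.ultra a a' b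
    have u4 := hσ.ultra a' b' b; have u5 := hσ.ultra c a d; have u6 := hσ.ultra c a b
    have u7 := hσ.ultra a c b; have u8 := hσ.ultra a' a c; have u9 := hσ.ultra c b b'
    have u10 := hσ.ultra c b' b
    have c1 := hσ.comm a' a; have c2 := hσ.comm b' b; have c3 := hσ.comm c a
    have c4 := hσ.self c
    have hl : D.B.length = D.K := lenB
    have e1 : σ a b = σ c b := by omega
    have e2 : σ a' b' = σ c b := by omega
    have e3 : σ c b' = σ c b := by omega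
    have e4 : D.J < σ c b := by omega
    have e5 : σ c b < σ c d := by omega
    have e6 : σ (rp σ c d a) b = σ c b ∧ σ c b < σ (rp σ c d a) c := by
      unfold rp
      split_ifs <;> omega
    have k1 := one hC H hσ (x := a') (y := b') (z := a) (y' := b) (c := c) (d := d) (j := σ c b)
      fun h => hR τ0 D H _ σ hσ a' b' a b c d _ _ e4 e5 h6 rfl h e2 (by omega) rfl
    have k2 := one hC H hσ (x := rp σ c d a) (y := b) (z := a') (y' := b') (c := c) (d := d)
      (j := σ c b) fun h => hR τ0 D H _ σ hσ _ b a' b' c d _ _ e4 e5 h6 rfl h e6.1 e6.2 e3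
    have k3 : Bk D σ a b a' b' c d - Bj D σ (σ c b) (rp σ c d a) b (rp σ c d a') b' c d =
        (TB D σ fun ω => oU D.q (σ c b) (ω a') (ω b') * (oU D.q (σ c b) (ω a) (ω b) -
          oU D.q (σ c b) (ω (rp σ c d a)) (ω b)) * oU D.q (σ c d) (ω c) (ω d)) +
        TB D σ fun ω => oU D.q (σ c b) (ω (rp σ c d a)) (ω b) * (oU D.q (σ c b) (ω a') (ω b') -
          oU D.q (σ c b) (ω (rp σ c d a')) (ω b')) * oU D.q (σ c d) (ω c) (ω d) := by
      rw [sub_eq_iff_eq_add]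
      simp only [Bk, Bj, TB, ← TM_add, ed, e1, e2]
      exact congrArg _ (funext fun ω => by ring)
    have k4 : Fw D (σ c b) (σ c d) = D.e (σ c d) * (D.v (σ c b) (σ c d) + D.v (σ c d) (σ c d)) := by
      rw [Fw, if_pos (Finset.mem_Ioo.2 ⟨e4, e5⟩), if_pos h6]
    rw [abs_mul, k3, k4]
    refine (mul_le_mul ((abs_add_le _ _).trans (add_le_add k1 k2)) (abs_Sk H hσ a b a' b' c d)
      (abs_nonneg _) ((abs_nonneg _).trans ((abs_add_le _ _).trans (add_le_add k1 k2)))).trans_eq ?_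
    ring
  · rw [avm_mul, avm_add, avm_const, mul_assoc _ _ D.E0]
    refine mul_le_mul_of_nonneg_left ?_ hc
    have h1 := avm_two H.mono (Fw_nonneg H) (a := c) (b := b) (fun u => by simp [Fw])
      (fun u => by
        unfold Fw
        split_ifs with p q
        · have := (Finset.mem_Ioo.1 p).2
          have : D.B.length = D.K := lenB
          omega
        · rfl
        · rfl) hcd
    have h2 := (BrBr H).trans H.Lad0_le
    have h3 := mul_le_mul_of_nonneg_left h2 (show (0 : ℝ) ≤ r.factorial * 3 ^ r by positivity)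
    have h4 := H.tl_le
    nlinarith

end Crest.Agent.T156.Cas.C394

end
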