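import Crest.Agent.T156.CDef_40

/-!
# Row 156, block C: words with a low letter in front, `Cr4 false` (helper6)

A low letter is put outermost: the outer sum has mass `≤ ex J ≤ X`; on each split the Young
form `Mul55.abs_twoF_word` applies with the two sizes `|U|` on LOW and `|U|` on UP.
-/

set_option autoImplicit false
set_option linter.all false

noncomputable section

namespace Crest.Agent.T156.Cas.C40.Cr6

open MeasureTheory Real Set Filter Topology
open Crest.Agent.T157.E Crest.Agent.T157.Casc Crest.Agent.T157.SL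
open Crest.Agent.T157.G1 (ov)
open Mul55 Tay38

/-- the cells without the root -/
def cel (J : ℕ) (c : Bool) (j : ℕ) : Prop := if c then 1 ≤ j ∧ j ≤ J else J < j

instance (J : ℕ) (c : Bool) : DecidablePred (cel J c) := fun j => by
  unfold cel; infer_instance

/-- the two sizes -/
def Tz (D : CD) (c : Bool) : ℕ → Cube D.n × Bool → Cube D.n × Bool → ℝ :=
  Mul55.aU D.n D.q (cel D.J c)

theorem Tz_nonneg (D : CD) (c : Bool) (j : ℕ) (x y : Cube D.n × Bool) : 0 ≤ Tz D c j x y :=
  aU_nonneg _ j x y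

variable {D : CD} {τ0 : ℝ}

theorem tau_nonneg (H : D.Ok τ0) : 0 ≤ D.τ D.K := (H.ook.oTau_le _ _ _).1

theorem X_nonneg (H : D.Ok τ0) : 0 ≤ D.X := by
  have h1 := sum_dm D.B 0 D.J
  have h2 : 0 ≤ ∑ i ∈ Finset.range (D.J + 1), dm D.B 0 i :=
    Finset.sum_nonneg fun i _ => dm_nonneg H.mono i
  linarith [H.x1]

theorem lo_mass (H : D.Ok τ0) : ∑ j ∈ D.lo, D.dx j ≤ D.X := by
  have h1 := sum_dm D.B 0 D.J
  have h2 : ∑ j ∈ D.lo, D.dx j ≤ ∑ i ∈ Finset.range (D.J + 1), dm D.B 0 i :=
    Finset.sum_le_sum_of_subset_of_nonneg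
      (fun j hj => Finset.mem_range.2 (Nat.lt_succ_of_le (Finset.mem_Icc.1 hj).2))
      fun i _ _ => dm_nonneg H.mono i
  linarith [H.x1]

theorem lt_le (H : D.Ok τ0) (a : Lt) {j : ℕ} (hj : j ≤ D.K) (x y : Cube D.n × Bool) :
    |ten (lt D.n D.β D.M D.q D.cl a) j x y| ≤ D.τ D.K * Tz D a.1 j x y ^ dg a := by
  rcases Nat.eq_zero_or_pos j with rfl | h0
  · have : ten (lt D.n D.β D.M D.q D.cl a) 0 = 0 := (lt_mem H.pos H.ook D.cl a).1
    rw [this]
    simpa using mul_nonneg (tau_nonneg H) (pow_nonneg (Tz_nonneg D a.1 0 x y) _)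
  · refine (abs_lt_le H.ook D.cl a (fun i => D.cl i = a.1) (fun _ h => h) hj x y).trans_eq ?_
    have : (D.cl j = a.1) ↔ cel D.J a.1 j := by
      obtain ⟨c, b⟩ := a
      cases c <;> simp [CD.cl, cel] <;> omega
    simp only [Tz, Mul55.aU, this]

theorem pw_le {t X : ℝ} (t0 : 0 ≤ t) (t1 : t ≤ 1) (X0 : 0 ≤ X) (X1 : X ≤ 1) :
    ∀ p : ℕ, t ^ p ≤ X ^ p + p * max (t - X) 0
  | 0 => by simp
  | p + 1 => by
      have ih := pw_le t0 t1 X0 X1 p
      have m0 : 0 ≤ max (t - X) 0 := le_max_right _ _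
      have m1 : t ≤ X + max (t - X) 0 := by linarith [le_max_left (t - X) 0]
      have h1 : t ^ p ≤ 1 := pow_le_one₀ t0 t1
      have h2 : 0 ≤ t ^ p := pow_nonneg t0 p
      have h3 : (0 : ℝ) ≤ p * max (t - X) 0 := by positivity
      have h4 : t ^ p * t ≤ t ^ p * X + max (t - X) 0 := by nlinarith
      have h5 : t ^ p * X ≤ X ^ p * X + p * max (t - X) 0 := by nlinarith
      rw [pow_succ, pow_succ]
      push_cast
      linarith

/-- low moments -/
theorem u_low (H : D.Ok τ0) (p : ℕ) {j : ℕ} (hj : j ∈ D.lo) : D.u p j ≤ D.X ^ p + p * D.tl := by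
  have hq := H.qlo j (Finset.mem_Icc.1 hj).2
  have h1 : D.u p j ≤ pi2 (fun _ => 1) D.B j
      (fun x y => D.X ^ p + p * max (|ov x y| - D.X) 0) 0 :=
    pi2_mono (Ω := Cube D.n) wt_one90 _ j (fun x y => by
      rw [oU, hq, sub_zero]
      exact pw_le (abs_nonneg _) (abs_ov_le x y) (X_nonneg H) H.X1 p) 0
  rw [pi2_add wt_one90, pi2_const wt_one90, pi2_const_mul] at h1
  have h2 := H.envL j hj
  rw [CD.E2] at h2
  have : (0 : ℝ) ≤ p := Nat.cast_nonneg p
  nlinarith

theorem u_nonneg (D : CD) (p j : ℕ) : 0 ≤ D.u p j :=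
  pi2_nonneg (Ω := Cube D.n) wt_one90 _ j (fun _ _ => pow_nonneg (abs_nonneg _) _) 0

theorem Iu_nonneg (H : D.Ok τ0) (p : ℕ) : 0 ≤ D.I (D.u p) :=
  Finset.sum_nonneg fun j _ => mul_nonneg (dm_nonneg H.mono j) (u_nonneg D p j)

theorem mU_up (H : D.Ok τ0) (p : ℕ) : mU D.n D.β D.M D.q (cel D.J false) p = D.I (D.u p) := by
  have := H.top
  rw [mU, Finset.sum_range_succ, ← Finset.sum_filter]
  have e : (Finset.range D.M.length).filter (cel D.J false) = D.up := by
    ext j
    simp [cel, and_comm]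
  rw [e]
  change _ + (if _ then D.dx D.K * _ else 0) = _
  rw [this, zero_mul, ite_self, add_zero]
  rfl

theorem mU_lo (H : D.Ok τ0) (p : ℕ) :
    mU D.n D.β D.M D.q (cel D.J true) p ≤ D.X * (D.X ^ p + p * D.tl) := by
  rw [mU, ← Finset.sum_filter]
  have e : (Finset.range (D.M.length + 1)).filter (cel D.J true) = D.lo := by
    ext j
    have : D.J < D.M.length := H.cut
    simp only [Finset.mem_filter, Finset.mem_range, cel, if_true, Finset.mem_Icc]
    omega
  rw [e]
  have h0 : 0 ≤ D.X ^ p + p * D.tl := by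
    have := X_nonneg H
    have := H.tl0
    positivity
  calc _ ≤ ∑ j ∈ D.lo, D.dx j * (D.X ^ p + p * D.tl) := Finset.sum_le_sum fun j hj =>
        mul_le_mul_of_nonneg_left (u_low H p hj) (dm_nonneg H.mono j)
    _ ≤ _ := by rw [← Finset.sum_mul]; exact mul_le_mul_of_nonneg_right (lo_mass H) h0

theorem pi2_Tz (H : D.Ok τ0) (c : Bool) (p j : ℕ) :
    pi2 (fun _ => 1) (op D.n D.β D.M D.q 0) j (fun x y => Tz D c j x y ^ (p + 1)) 0 =
      if cel D.J c j then D.u (p + 1) j else 0 := by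
  split_ifs with h
  · have := pi2_op_zero (β := D.β) H.pos H.ook 0 0 j (fun x y => |oU D.q j x y| ^ (p + 1))
      fun _ _ => 1
    rw [Law.ad_zero, pi2_const wt_one90] at this
    simp only [mul_one] at this
    simp only [Tz, Mul55.aU, h, if_true, this]
    rfl
  · simp only [Tz, Mul55.aU, h, if_false, zero_pow (Nat.succ_ne_zero p), pi2_const wt_one90]

/-- **a low letter in front**: any Young inequality between the two sizes, times the low mass -/
theorem abs_tm_low (H : D.Ok τ0) {a : Lt} (ha : a.1 = true) (f : List Lt) {p p' Q : ℕ}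
    (hp : p ≤ Q) (hp' : p' ≤ Q) {A BL BU : ℝ} (hA : 0 ≤ A) (hL : 0 ≤ BL) (hU : 0 ≤ BU)
    (hY : ∀ d : Bool → ℝ, (∀ c, 0 ≤ d c) → ((a :: f).map fun r => d r.1 ^ dg r).prod ≤
      A + BL * d true ^ (p + 1) + BU * d false ^ (p' + 1)) :
    |tm D.n D.β D.M D.q D.cl (a :: f)| ≤ cTay f.length Q 2 * D.τ D.K ^ (f.length + 1) * (D.X *
      (A + BL * (3 * (D.X ^ (p + 1) + (p + 1 : ℕ) * D.tl)) + BU * D.I (D.u (p' + 1)))) := by
  set τ := D.τ D.K with hτ
  have τ0' : 0 ≤ τ := tau_nonneg H
  have X0 := X_nonneg H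
  have X1 := H.X1
  have tl0 := H.tl0
  have hI := Iu_nonneg H (p' + 1)
  set S : Lt → ℕ → Cube D.n × Bool → Cube D.n × Bool → ℝ :=
    fun r => ten (lt D.n D.β D.M D.q D.cl r) with hS
  set Z := cTay f.length Q 2 * τ ^ (f.length + 1) *
    (A + BL * (3 * (D.X ^ (p + 1) + (p + 1 : ℕ) * D.tl)) + BU * D.I (D.u (p' + 1))) with hZ
  have hc := cTay_nonneg f.length Q 2
  have Z0 : 0 ≤ Z := by positivity
  have hM := mono_op (q := D.q) H.mono 0
  have key : ∀ j ∈ D.lo, |twoF j (S a j) (WdO (op D.n D.β D.M D.q 0) (f.map S)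
      (TEf (fun _ => 1) (op D.n D.β D.M D.q 0) 0))| ≤ Z := fun j hj => by
    have hjK : j ≤ (op D.n D.β D.M D.q 0).length := by
      rw [op_length]; exact (Finset.mem_Icc.1 hj).2.trans H.cut.le
    have h1 := abs_twoF_word (T := Tz D) wt_one90 hM (Tz_nonneg D) 0
      (fun c => if c then p else p') (Q := Q) (fun c => by cases c <;> simpa)
      (A := τ ^ (f.length + 1) * A) (B := fun c => τ ^ (f.length + 1) * if c then BL else BU)
      (by positivity) (fun c => by cases c <;> simp <;> positivity)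
      (p := (S a, fun d => τ * d a.1 ^ dg a)) (U := f.map fun r => (S r, fun d => τ * d r.1 ^ dg r))
      (fun r hr => by
        have : ∃ b : Lt, r = (S b, fun d => τ * d b.1 ^ dg b) := by
          rcases List.mem_cons.1 hr with rfl | hr
          · exact ⟨a, rfl⟩
          · obtain ⟨b, -, rfl⟩ := List.mem_map.1 hr
            exact ⟨b, rfl⟩
        obtain ⟨b, rfl⟩ := this
        exact fun i hi x y d hd => (lt_le H b (by rwa [op_length] at hi) x y).trans
          (mul_le_mul_of_nonneg_left (pow_le_pow_left₀ (Tz_nonneg _ _ _ _ _) (hd _) _) τ0'))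
      (fun d hd => by
        have h2 := mul_le_mul_of_nonneg_left (hY d hd) (pow_nonneg τ0' (f.length + 1))
        have h3 : (List.map (fun r : (ℕ → Cube D.n × Bool → Cube D.n × Bool → ℝ) × ((Bool → ℝ) → ℝ) =>
            r.2 d) ((S a, fun d => τ * d a.1 ^ dg a) ::
            f.map fun r => (S r, fun d => τ * d r.1 ^ dg r))).prod =
            τ ^ (f.length + 1) * ((a :: f).map fun r => d r.1 ^ dg r).prod := by
          rw [← List.length_cons, ← prod_const' (a :: f) τ, ← List.prod_map_mul]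
          simp [List.map_map, Function.comp_def]
        rw [h3]
        refine h2.trans_eq ?_
        simp only [Fintype.sum_bool, if_true, Bool.false_eq_true, if_false]
        ring) hjK
    have c1 : cel D.J true j := by simpa [cel] using Finset.mem_Icc.1 hj
    have c2 : ¬cel D.J false j := by simpa [cel] using (Finset.mem_Icc.1 hj).2
    have m1 : mom0 (fun _ => 1) (op D.n D.β D.M D.q 0) 0 (Tz D true) (p + 1) ≤
        D.X ^ (p + 1) + (p + 1 : ℕ) * D.tl := by
      rw [Tz, mom0_aU H.pos H.ook]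
      exact (mU_lo H _).trans (mul_le_of_le_one_left (by positivity) X1)
    have m2 : mom0 (fun _ => 1) (op D.n D.β D.M D.q 0) 0 (Tz D false) (p' + 1) =
        D.I (D.u (p' + 1)) := by rw [Tz, mom0_aU H.pos H.ook, mU_up H]
    have m3 := u_low H (p + 1) hj
    simp only [List.map_map, Function.comp_def, List.length_map, Fintype.sum_bool, if_true,
      Bool.false_eq_true, if_false, pi2_Tz H, c1, c2, m2] at h1
    refine h1.trans ?_
    rw [hZ, mul_assoc (cTay _ _ _)]
    refine mul_le_mul_of_nonneg_left ?_ hc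
    have h4 : τ ^ (f.length + 1) * BL * (2 * D.u (p + 1) j +
        mom0 (fun _ => 1) (op D.n D.β D.M D.q 0) 0 (Tz D true) (p + 1)) ≤
        τ ^ (f.length + 1) * BL * (3 * (D.X ^ (p + 1) + (p + 1 : ℕ) * D.tl)) :=
      mul_le_mul_of_nonneg_left (by linarith) (by positivity)
    linarith
  have e : tm D.n D.β D.M D.q D.cl (a :: f) = ∑ j ∈ D.lo, D.dx j * twoF j (S a j)
      (WdO (op D.n D.β D.M D.q 0) (f.map S) (TEf (fun _ => 1) (op D.n D.β D.M D.q 0) 0)) := by
    rw [tm, List.map_cons, oL, Lam_cons, pairF, op_length]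
    simp only [Cav22.dm_tilt (tilt_op (q := D.q) 0)]
    refine (Finset.sum_subset (fun j hj => Finset.mem_range.2
      (Nat.lt_succ_of_le ((Finset.mem_Icc.1 hj).2.trans H.cut.le))) fun j hj hj' => ?_).symm
    have h0 : S a j = 0 • S a j := by
      funext x y
      have := lt_le H a (Nat.lt_succ_iff.1 (Finset.mem_range.1 hj)) x y
      have c : ¬cel D.J a.1 j := by simpa [cel, ha] using hj'
      simp only [Tz, Mul55.aU, c, if_false, zero_pow (dg_pos a).ne', mul_zero] at this
      simpa using abs_nonpos_iff.1 this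
    have h1 := ((isLin_TEf wt_one90 (op D.n D.β D.M D.q 0) 0).wdO (op D.n D.β D.M D.q 0) (f.map S))
      (Sh.two j) 0 0 (fun _ => 0) (fun _ => 0)
    have h2 : twoF j (S a j) (WdO (op D.n D.β D.M D.q 0) (f.map S)
        (TEf (fun _ => 1) (op D.n D.β D.M D.q 0) 0)) = 0 := by
      rw [h0]
      simpa [twoF] using h1
    change _ * twoF j (S a j) _ = 0
    rw [h2, mul_zero]
  rw [e]
  calc _ ≤ ∑ j ∈ D.lo, D.dx j * Z := (Finset.abs_sum_le_sum_abs _ _).trans
        (Finset.sum_le_sum fun j hj => by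
          rw [abs_mul, abs_of_nonneg (dm_nonneg H.mono j)]
          exact mul_le_mul_of_nonneg_left (key j hj) (dm_nonneg H.mono j))
    _ ≤ D.X * Z := by rw [← Finset.sum_mul]; exact mul_le_mul_of_nonneg_right (lo_mass H) Z0
    _ = _ := by rw [hZ]; ring

/-- only upper letters -/
theorem abs_tm_up (H : D.Ok τ0) (f : List Lt) (hf : ∀ a ∈ f, a.1 = false) {p : ℕ}
    (hp : deg f = p + 1) : |tm D.n D.β D.M D.q D.cl f| ≤
      3 * cTay (f.length - 1) p 2 * D.τ D.K ^ f.length * D.I (D.u (p + 1)) := by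
  rw [← mU_up H]
  exact abs_tm_deg H.pos H.ook H.mono D.cl f _ (fun a ha j hj => by
    rw [hf a ha] at hj
    simpa [CD.cl, cel] using hj) hp

/-- low and upper degrees -/
def dL (f : List Lt) : ℕ := f.count aL + 2 * f.count bL
def dU (f : List Lt) : ℕ := f.count aU + 2 * f.count bU

theorem deg_eq : ∀ f : List Lt, deg f = dL f + dU f
  | [] => rfl
  | ⟨c, b⟩ :: f => by
      have := deg_eq f
      cases c <;> cases b <;> simp [deg, dL, dU, dg, List.count_cons] at this ⊢ <;> omega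

theorem prod_eq (d : Bool → ℝ) : ∀ f : List Lt,
    (f.map fun r => d r.1 ^ dg r).prod = d true ^ dL f * d false ^ dU f
  | [] => by simp [dL, dU]
  | ⟨c, b⟩ :: f => by
      rw [List.map_cons, List.prod_cons, prod_eq d f]
      cases c <;> cases b <;> simp [dL, dU, dg, List.count_cons] <;> ring


theorem dL_pos {f : List Lt} {a : Lt} (ha : a ∈ f) (h : a.1 = true) : 0 < dL f := by
  obtain ⟨c, b⟩ := a
  obtain rfl : c = true := h
  have := List.count_pos_iff.2 ha
  cases b <;> simp only [dL, aL, bL] <;> omega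

theorem dU_pos {f : List Lt} {a : Lt} (ha : a ∈ f) (h : a.1 = false) : 0 < dU f := by
  obtain ⟨c, b⟩ := a
  obtain rfl : c = false := h
  have := List.count_pos_iff.2 ha
  cases b <;> simp only [dU, C40.aU, bU] <;> omega

/-- low degree two, upper degree two -/
theorem abs_tm_22 (H : D.Ok τ0) {f : List Lt} (h1 : dL f = 2) (h2 : dU f = 2) :
    |tm D.n D.β D.M D.q D.cl f| ≤ cTay (f.length - 1) 3 2 * D.τ D.K ^ f.length *
      (3 * D.X ^ 6 + 12 * D.tl + D.I (D.u 4)) := by
  obtain ⟨a, ha, hl⟩ : ∃ a ∈ f, a.1 = true := by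
    by_contra h
    push Not at h
    have e1 : f.count aL = 0 := List.count_eq_zero.2 fun h' => h _ h' rfl
    have e2 : f.count bL = 0 := List.count_eq_zero.2 fun h' => h _ h' rfl
    simp [dL, e1, e2] at h1
  have pm := List.perm_cons_erase ha
  have hl' : f.length = (f.erase a).length + 1 := pm.length_eq
  have X0 := X_nonneg H
  have X1 := H.X1
  have tl0 := H.tl0
  have hI := Iu_nonneg H 4
  have τ0' := tau_nonneg H
  have hc := cTay_nonneg (f.erase a).length 3 2
  have pe : ∀ d : Bool → ℝ, ((a :: f.erase a).map fun r => d r.1 ^ dg r).prod =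
      d true ^ 2 * d false ^ 2 := fun d => by
    rw [← (pm.map _).prod_eq, prod_eq, h1, h2]
  rw [tm_perm H.pos H.ook D.cl pm, hl', Nat.add_sub_cancel]
  rcases X0.eq_or_lt with h0 | h0
  · have := abs_tm_low H hl (f.erase a) (p := 3) (p' := 3) le_rfl le_rfl (A := 0) (BL := 1) (BU := 1)
      le_rfl zero_le_one zero_le_one fun d _ => by
        rw [pe]
        norm_num
        nlinarith [sq_nonneg (d true ^ 2 - d false ^ 2), sq_nonneg (d true ^ 2),
          sq_nonneg (d false ^ 2)]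
    rw [← h0, zero_mul, mul_zero] at this
    exact this.trans (by positivity)
  · have := abs_tm_low H hl (f.erase a) (p := 3) (p' := 3) le_rfl le_rfl (A := 0) (BL := D.X)
      (BU := D.X⁻¹) le_rfl X0 (inv_nonneg.2 X0) fun d _ => by
        rw [pe]
        have e : D.X * D.X⁻¹ = 1 := mul_inv_cancel₀ h0.ne'
        have i0 : 0 < D.X⁻¹ := inv_pos.2 h0
        have := mul_nonneg i0.le (sq_nonneg (D.X * d true ^ 2 - d false ^ 2))
        have e2 : D.X⁻¹ * (D.X * d true ^ 2 - d false ^ 2) ^ 2 = D.X * d true ^ 4 -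
            2 * (d true ^ 2 * d false ^ 2) + D.X⁻¹ * d false ^ 4 := by
          field_simp
          ring
        have : 0 ≤ d true ^ 2 * d false ^ 2 := by positivity
        norm_num
        linarith
    refine this.trans (mul_le_mul_of_nonneg_left ?_ (by positivity))
    have e : D.X * (0 + D.X * (3 * (D.X ^ (3 + 1) + ((3 + 1 : ℕ) : ℝ) * D.tl)) +
        D.X⁻¹ * D.I (D.u (3 + 1))) = 3 * D.X ^ 6 + 12 * (D.X ^ 2 * D.tl) + D.I (D.u 4) := by
      push_cast
      field_simp
      ring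
    rw [e]
    have : D.X ^ 2 * D.tl ≤ D.tl := mul_le_of_le_one_left tl0 (pow_le_one₀ X0 X1)
    linarith

/-- **degree four, an even number of `aL`, an upper letter** -/
theorem abs_tm4 (f : List Lt) (h4 : deg f = 4) (he : Even (f.count aL)) (hu : aU ∈ f ∨ bU ∈ f)
    (τ0 : ℝ) : ∃ C : ℝ, 0 ≤ C ∧ ∀ D : CD, D.Ok τ0 →
      |tm D.n D.β D.M D.q D.cl f| ≤ C * (D.X ^ 6 + D.tl + D.I (D.u 4)) := by
  have hc := cTay_nonneg (f.length - 1) 3 2
  refine ⟨12 * (cTay (f.length - 1) 3 2 * |τ0| ^ f.length), by positivity, fun D H => ?_⟩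
  have X0 := X_nonneg H
  have tl0 := H.tl0
  have hI := Iu_nonneg H 4
  have τ0' := tau_nonneg H
  have ht : D.τ D.K ^ f.length ≤ |τ0| ^ f.length :=
    pow_le_pow_left₀ τ0' (H.tau.trans (le_abs_self _)) _
  have hX : 0 ≤ D.X ^ 6 := by positivity
  have hd := deg_eq f
  have hU : 0 < dU f := hu.elim (fun h => dU_pos h rfl) fun h => dU_pos h rfl
  by_cases hl : ∃ a ∈ f, a.1 = true
  · obtain ⟨a, ha, hl⟩ := hl
    have hL := dL_pos ha hl
    have h1 : dL f = 2 := by
      obtain ⟨k, hk⟩ := he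
      simp only [dL] at hd hL ⊢
      omega
    refine (abs_tm_22 H h1 (by omega)).trans ?_
    calc _ ≤ cTay (f.length - 1) 3 2 * |τ0| ^ f.length *
          (12 * (D.X ^ 6 + D.tl + D.I (D.u 4))) := by gcongr; linarith
      _ = _ := by ring
  · push Not at hl
    refine (abs_tm_up H f (fun a ha => by simpa using hl a ha) (p := 3) h4).trans ?_
    calc _ ≤ 3 * cTay (f.length - 1) 3 2 * |τ0| ^ f.length *
          (4 * (D.X ^ 6 + D.tl + D.I (D.u 4))) := by gcongr; linarith
      _ = _ := by ring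

end Crest.Agent.T156.Cas.C40.Cr6

end
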