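import Crest.Agent.T156.Eg_33
import Crest.Agent.T156.EDef_91

/-!
# Row 156, leaf E-g in the names of `EDef_91` (helper33)
-/

set_option autoImplicit false
set_option linter.unusedSectionVars false

noncomputable section

namespace Crest.Agent.T156.Cas.Eg33

open MeasureTheory Real Set Filter Topology
open Crest.Agent.T157.E Crest.Agent.T157.Casc Crest.Agent.T157.SL
open Crest.Agent.T156.Cas.Sy41 Crest.Agent.T156.Cas.Q33 Crest.Agent.T156.Cas.E91
open Crest.Agent.T156.Cas.Nu87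

variable {Ω : Type} [Fintype Ω] {w : Ω → ℝ}

theorem TE_twoLR (hw : Wt w) (K : Ω → Ω → ℝ) (j : ℕ) (L : List (Lv Ω)) (h : Ω → ℝ) :
    TE w (Sh.two j) L h (fun x => K (x (Sh.twoL j)) (x (Sh.twoR j))) = pi2 w L j K h := by
  have hne : Sh.twoL j ≠ Sh.twoR j := fun e => by
    have h1 := Wt87.shr_two j (j + 1)
    rw [e, Wt87.shr_self] at h1
    omega
  rw [TE_pair hw _ L h hne, Wt87.shr_two]
  rcases le_total j L.length with k | k
  · rw [min_eq_left k]
  · rw [min_eq_right k, pi2, pi2, List.drop_length, List.drop_eq_nil_of_le k,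
      ← node_tower L k, List.drop_length, node_nil]

/-- three leaves: one branch leaves at `y`, the other two split at `d + y` -/
theorem TE_three (hw : Wt w) (G : Ω → Ω → Ω → ℝ) (d : ℕ) : ∀ (y : ℕ) (L : List (Lv Ω)) (h : Ω → ℝ),
    TE w ((Sh.two y).graft (Sh.twoR y) (d + y)) L h (fun x =>
      G (x ((Sh.two y).emb (Sh.twoR y) (d + y) (Sh.twoL y)))
        (x ((Sh.two y).emb (Sh.twoR y) (d + y) (Sh.twoR y)))
        (x ((Sh.two y).nw (Sh.twoR y) (d + y)))) =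
      node w L y (fun z => ∑ x, P w (L.drop y) z x * pi2 w (L.drop y) d (G x) z) h
  | 0, L, h => by
    refine (Law.TE_split hw .one (Sh.two d) L h _).trans ((Law.TE_one hw L h _).trans ?_)
    rw [node_zero]
    exact Finset.sum_congr rfl fun x _ => congrArg _ (TE_twoLR hw (G x) d L h)
  | y + 1, [], h => by
    refine (Law.TE_step_nil w _ h _).trans ((TE_three hw G d y [] h).trans ?_)
    simp only [node_nil, List.drop_nil]
  | y + 1, l :: L, h => by
    refine (Law.TE_step hw _ l L h _).trans ?_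
    rw [node_cons]
    exact congrArg (fun F => tE l (X w L) F h) (funext fun z => TE_three hw G d y L z)

/-- the same for split matrices -/
theorem TM_three (hw : Wt w) (L : List (Lv Ω)) (h : Ω → ℝ) (G : Ω → Ω → Ω → ℝ) {y i : ℕ}
    (hi : y ≤ i) : TM w L h (gr L.length (tw L.length y) 0 i) (fun x => G (x 2) (x 1) (x 0)) =
      node w L y (fun z => ∑ x, P w (L.drop y) z x * pi2 w (L.drop y) (i - y) (G x) z) h := by
  obtain ⟨d, rfl⟩ : ∃ d, i = d + y := ⟨i - y, by omega⟩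
  let e₀ : Fin 1 ≃ Sh.one.Lf := (Equiv.ofUnique (Fin 1) Unit :)
  have h1 : tw L.length y = sm (Sh.one.graft (e₀ 0) y) (grE e₀ (e₀ 0) y) L.length :=
    (sm_gr e₀ 0 y).symm
  rw [h1, ← sm_gr, TM_sm hw _ L h (Equiv.injective _), Nat.add_sub_cancel]
  exact TE_three hw G d y L h

variable (D : Dat Ω)

theorem lam3_eq (hw : Wt D.w) {y i : ℕ} (hi : y ≤ i) :
    pi2 D.w D.L y (fun x x' => D.l0.cov x x' ^ 2) D.h - D.lam3 y i = vt D.w D.L D.l0 D.h y i := by
  have e := TM_three hw D.L D.h (fun c b a => D.l0.cov a c * D.l0.cov b c) hi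
  have g1 : ∀ f : Ω → ℝ, Eg fun u => Pf D.w (D.L.drop i) u f := Hess87.eg_Pf hw _
  rw [Dat.lam3, e, pi2, vt, ← congrFun (node_sub hw (eg_qf hw _ _) (Eg.sum _ fun x _ =>
    (eg_P hw _ x).mul (eg_pi2 hw _ _ _)) D.L y)]
  congr 1
  funext z
  simp only [vz, Cf_eq hw D.L hi, mul_sub, Finset.sum_sub_distrib]
  congr 1
  · simp only [qf, Pf, Finset.mul_sum]
    exact Finset.sum_comm.trans (Finset.sum_congr rfl fun _ _ => Finset.sum_congr rfl fun _ _ => by
      ring)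
  · refine Finset.sum_congr rfl fun x _ => ?_
    simp only [pi2, List.drop_drop, Nat.add_sub_cancel' hi, mul_comm (D.l0.cov _ x) (D.l0.cov _ x)]
    congr 2
    funext u
    exact qf_mul _ _ _

/-- the weights of the levels that carry a letter -/
def cw (y : ℕ) : ℝ := if D.t y = 0 then 0 else dm D.L 0 y

theorem cw_nonneg (hL : Mono 0 D.L) (y : ℕ) : 0 ≤ cw D y := by
  unfold cw
  split_ifs
  exacts [le_rfl, dm_nonneg hL y]

theorem cw_le (hL : Mono 0 D.L) (y : ℕ) : cw D y ≤ dm D.L 0 y := by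
  unfold cw
  split_ifs
  exacts [dm_nonneg hL y, le_rfl]

theorem VV_eq (hw : Wt D.w) (j : ℕ) :
    D.VV j = ∑ y ∈ Finset.Ico 0 j, cw D y * vt D.w D.L D.l0 D.h y j := by
  rw [Dat.VV, Finset.range_eq_Ico]
  refine Finset.sum_congr rfl fun y hy => ?_
  rw [lam3_eq D hw (Finset.mem_Ico.1 hy).2.le, cw, ite_mul, zero_mul]

theorem VV_nonneg (hw : Wt D.w) (hL : Mono 0 D.L) (j : ℕ) : 0 ≤ D.VV j := by
  rw [VV_eq D hw]
  exact Finset.sum_nonneg fun y _ => mul_nonneg (cw_nonneg D hL y) (vt_nonneg hw _ _ _ _ _)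

theorem V_eq' (hw : Wt D.w) (j : ℕ) :
    D.V j = tc D.w D.L D.l0 D.h j + 2 * vv D.w D.L D.l0 D.h j := V_eq hw D.L D.l0 D.h j (D.q j)

/-- **VV** -/
theorem VV_le {τ : ℕ → ℝ} {Λ : ℝ} (H : Dt D.w D.L D.l0 τ Λ) {t j : ℕ} (htj : t ≤ j) (hj : j ≤ D.K)
    {x S M : ℝ} (hx : 0 < x) (hx' : x ≤ ex D.L j) (hS : 0 < S)
    (hS' : S ≤ ∑ k ∈ Finset.Ico t j, ex D.L k * τ k) (hM : 0 < M)
    (hM' : M ≤ ∑ y ∈ Finset.Ico t j, cw D y) :
    D.VV j ≤ ex D.L t * (rho D.w D.L D.l0 D.h j / (x * S)) +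
      (1 + ex D.L t / M) * ∑ y ∈ Finset.Ico t j, dm D.L 0 y * tc D.w D.L D.l0 D.h y +
        ∑ y ∈ Finset.Ico t j, dm D.L 0 y * vv D.w D.L D.l0 D.h y := by
  have hX : ∑ y ∈ Finset.Ico 0 t, cw D y ≤ ex D.L t := by
    have := sum_dm D.L 0 t
    rw [Finset.sum_range_succ, sub_zero] at this
    have h2 := Finset.sum_le_sum (s := Finset.range t) fun y _ => cw_le D H.mono y
    rw [← Finset.range_eq_Ico]
    linarith [dm_nonneg H.mono t]
  rw [VV_eq D H.wt]
  refine (vv_sum H D.h (Nat.zero_le t) htj hj hx hx' hS hS' (cw_nonneg D H.mono) hX hM hM').trans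
    (add_le_add (add_le_add le_rfl (mul_le_mul_of_nonneg_left (Finset.sum_le_sum fun y _ => ?_) ?_))
      (Finset.sum_le_sum fun y _ => ?_))
  · exact mul_le_mul_of_nonneg_right (cw_le D H.mono y) (tc_nonneg _ _ _ _)
  · have := Q33.ex_nonneg H.mono t
    positivity
  · exact mul_le_mul_of_nonneg_right (cw_le D H.mono y) (vv_nonneg H.wt _ _ _ _)

/-- the levels that carry a letter -/
def Sl : Finset ℕ := (Finset.range D.K).filter fun y => D.t y ≠ 0

variable {D} {tb : ℝ} (H : D.Ok tb) (h0 : D.t 0 = 0) {T : Set (Equiv.Perm Ω)}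
  (hT : ∀ τ ∈ T, Sym D.w D.L D.h τ) (htr : ∀ x y, D.w x ≠ 0 → D.w y ≠ 0 → ∃ τ ∈ T, τ x = y)
  (h₀ : ∀ τ ∈ T, ∀ x y, D.l0.cov (τ x) (τ y) = D.l0.cov x y)
include H

theorem rho_eq_q {y : ℕ} (hy : y ∈ Sl D) : rho D.w D.L D.l0 D.h y = D.q y := by
  obtain ⟨h1, h2⟩ := Finset.mem_filter.1 hy
  have := H.cen y (Finset.mem_range.1 h1) h2
  have e : ∀ z, qf (P D.w (D.L.drop y) z) (D.U0 y) = rr D.w (D.L.drop y) D.l0 z - D.q y := fun z => by
    rw [rr_eq, ← qf_const (sum_P H.wt (D.L.drop y) z) (D.q y), ← qf_sub]; rfl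
  simp only [pi2, e] at this
  rw [node_sub H.wt (eg_rr H.wt _ _) (Eg.const _), node_const H.wt] at this
  exact sub_eq_zero.1 this

theorem I_eq {φ : ℕ → ℝ} (hφ : ∀ y, D.t y = 0 → φ y = 0) (F : ℕ → ℝ) :
    (D.I fun y => φ y * (F y - D.q y)) =
      ∑ y ∈ Sl D, dm D.L 0 y * φ y * (F y - rho D.w D.L D.l0 D.h y) := by
  rw [Dat.I, Finset.sum_range_succ, H.top, zero_mul, add_zero, Sl, Finset.sum_filter]
  refine Finset.sum_congr rfl fun y hy => ?_
  split_ifs with k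
  · rw [rho_eq_q H (Finset.mem_filter.2 ⟨hy, k⟩), mul_assoc]
  · rw [hφ y (not_not.1 k), zero_mul, mul_zero]

include h0 hT htr h₀



end Crest.Agent.T156.Cas.Eg33

end
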