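import Crest.Agent.T156.CaIso_87

/-!
# Row 156 (helper22): clusters of a replica tree at a cut

`s.cut j` is the skeleton of `s` below depth `j`; its leaves are the clusters `s.up j α`.  Given
the paths up to depth `j` the clusters are independent (`tF_cut`).
-/

set_option autoImplicit false
set_option linter.unusedSectionVars false

noncomputable section

namespace Crest.Agent.T156.Cas

open MeasureTheory Real Set Filter Topology
open Crest.Agent.T157.E Crest.Agent.T157.Casc Crest.Agent.T157.SL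

/-- the skeleton below depth `j` -/
def Sh.cut : Sh → ℕ → Sh
  | .one, _ => .one
  | .step _, 0 => .one
  | .step s, j + 1 => .step (s.cut j)
  | .split _ _, 0 => .one
  | .split s t, j + 1 => .split (s.cut (j + 1)) (t.cut (j + 1))

/-- the cluster above a leaf of the skeleton -/
def Sh.up : (s : Sh) → (j : ℕ) → (s.cut j).Lf → Sh
  | .one, _, _ => .one
  | .step s, 0, _ => .step s
  | .step s, j + 1, α => s.up j α
  | .split s t, 0, _ => .split s t
  | .split s _, j + 1, .inl α => s.up (j + 1) α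
  | .split _ t, j + 1, .inr α => t.up (j + 1) α

/-- the leaves of a cluster -/
def Sh.inj : (s : Sh) → (j : ℕ) → (α : (s.cut j).Lf) → (s.up j α).Lf → s.Lf
  | .one, _, _, a => a
  | .step _, 0, _, a => a
  | .step s, j + 1, α, a => s.inj j α a
  | .split _ _, 0, _, a => a
  | .split s _, j + 1, .inl α, a => .inl (s.inj (j + 1) α a)
  | .split _ t, j + 1, .inr α, a => .inr (t.inj (j + 1) α a)

/-- the cluster of a leaf -/
def Sh.cl : (s : Sh) → (j : ℕ) → s.Lf → (s.cut j).Lf
  | .one, _, _ => ()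
  | .step _, 0, _ => ()
  | .step s, j + 1, a => s.cl j a
  | .split _ _, 0, _ => ()
  | .split s _, j + 1, .inl a => .inl (s.cl (j + 1) a)
  | .split _ t, j + 1, .inr a => .inr (t.cl (j + 1) a)

/-- a leaf of each cluster -/
def Sh.rep (s : Sh) (j : ℕ) (α : (s.cut j).Lf) : s.Lf := s.inj j α (s.up j α).fst

namespace Clu22

theorem cl_inj : ∀ (s : Sh) (j : ℕ) (α : (s.cut j).Lf) (a : (s.up j α).Lf),
    s.cl j (s.inj j α a) = α
  | .one, _, _, _ => rfl
  | .step _, 0, _, _ => rfl
  | .step s, j + 1, α, a => cl_inj s j α a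
  | .split _ _, 0, _, _ => rfl
  | .split s _, j + 1, .inl α, a => congrArg Sum.inl (cl_inj s (j + 1) α a)
  | .split _ t, j + 1, .inr α, a => congrArg Sum.inr (cl_inj t (j + 1) α a)

theorem cl_rep (s : Sh) (j : ℕ) (α : (s.cut j).Lf) : s.cl j (s.rep j α) = α := cl_inj s j α _

theorem exists_inj : ∀ (s : Sh) (j : ℕ) (a : s.Lf), ∃ b, s.inj j (s.cl j a) b = a
  | .one, _, a => ⟨a, rfl⟩
  | .step _, 0, a => ⟨a, rfl⟩
  | .step s, j + 1, a => exists_inj s j a
  | .split _ _, 0, a => ⟨a, rfl⟩
  | .split s _, j + 1, .inl a => (exists_inj s (j + 1) a).imp fun _ h => congrArg Sum.inl h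
  | .split _ t, j + 1, .inr a => (exists_inj t (j + 1) a).imp fun _ h => congrArg Sum.inr h

/-- two leaves are in the same cluster iff they share `j` levels -/
theorem cl_eq_iff : ∀ (s : Sh) (j : ℕ) (a b : s.Lf), s.cl j a = s.cl j b ↔ s.shr a b j = j
  | .one, _, _, _ => iff_of_true rfl rfl
  | .step _, 0, _, _ => iff_of_true rfl rfl
  | .step s, j + 1, a, b => (cl_eq_iff s j a b).trans Nat.succ_inj.symm
  | .split _ _, 0, a, b => iff_of_true rfl (Wt87.shr_zero _ a b)
  | .split s _, j + 1, .inl a, .inl b => Sum.inl_injective.eq_iff.trans (cl_eq_iff s (j + 1) a b)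
  | .split _ t, j + 1, .inr a, .inr b => Sum.inr_injective.eq_iff.trans (cl_eq_iff t (j + 1) a b)
  | .split _ _, j + 1, .inl _, .inr _ => iff_of_false Sum.inl_ne_inr (Nat.succ_ne_zero j).symm
  | .split _ _, j + 1, .inr _, .inl _ => iff_of_false Sum.inr_ne_inl (Nat.succ_ne_zero j).symm

/-- splits between clusters are read on the skeleton -/
theorem shr_cl : ∀ (s : Sh) (j : ℕ) (a b : s.Lf) (k : ℕ), k ≤ j →
    (s.cut j).shr (s.cl j a) (s.cl j b) k = s.shr a b k
  | .one, _, _, _, _, _ => rfl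
  | .step _, 0, _, _, 0, _ => rfl
  | .step _, _ + 1, _, _, 0, _ => rfl
  | .step s, j + 1, a, b, k + 1, h => congrArg (· + 1) (shr_cl s j a b k (by omega))
  | .split _ _, 0, a, b, 0, _ => (Wt87.shr_zero _ a b).symm
  | .split s _, j + 1, .inl a, .inl b, k, h => shr_cl s (j + 1) a b k h
  | .split _ t, j + 1, .inr a, .inr b, k, h => shr_cl t (j + 1) a b k h
  | .split _ _, _ + 1, .inl _, .inr _, _, _ => rfl
  | .split _ _, _ + 1, .inr _, .inl _, _, _ => rfl

/-- splits inside a cluster -/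
theorem shr_inj : ∀ (s : Sh) (j : ℕ) (α : (s.cut j).Lf) (a b : (s.up j α).Lf) (k : ℕ),
    s.shr (s.inj j α a) (s.inj j α b) (k + j) = (s.up j α).shr a b k + j
  | .one, _, _, _, _, _ => rfl
  | .step _, 0, _, _, _, _ => rfl
  | .step s, j + 1, α, a, b, k => congrArg (· + 1) (shr_inj s j α a b k)
  | .split _ _, 0, _, _, _, _ => rfl
  | .split s _, j + 1, .inl α, a, b, k => shr_inj s (j + 1) α a b k
  | .split _ t, j + 1, .inr α, a, b, k => shr_inj t (j + 1) α a b k



end Clu22

variable {Ω : Type} [Fintype Ω] {w : Ω → ℝ}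

/-- expectation under independent clusters started at the states `z`, with levels `N` -/
def cE (w : Ω → ℝ) (N : List (Lv Ω)) : (s : Sh) → (j : ℕ) → ((s.cut j).Lf → Ω → ℝ) →
    ((s.Lf → Ω) → ℝ) → ℝ
  | .one, _, z, F => TE w .one N (z ()) F
  | .step s, 0, z, F => TE w (.step s) N (z ()) F
  | .step s, j + 1, z, F => cE w N s j z F
  | .split s t, 0, z, F => TE w (.split s t) N (z ()) F
  | .split s t, j + 1, z, F => cE w N s (j + 1) (fun α => z (.inl α)) fun x =>
      cE w N t (j + 1) (fun α => z (.inr α)) fun y => F (Sum.elim x y)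

/-- paths stopped at depth `j` -/
def trc {κ : Type} (j : ℕ) (p : Pa κ Ω) : Pa κ Ω := fun a i => p a (min i j)

namespace Clu22

theorem cE_eq (hw : Wt w) (N : List (Lv Ω)) : ∀ (s : Sh) (j : ℕ) (z : (s.cut j).Lf → Ω → ℝ)
    (F : (s.Lf → Ω) → ℝ), cE w N s j z F =
      ∑ x, (∏ α, PT w (s.up j α) N (z α) fun b => x (s.inj j α b)) * F x
  | .one, _, z, F => (Law.TE_eq hw _ N _ F).trans (Finset.sum_congr rfl fun x _ =>
      congrArg (· * F x) (Fintype.prod_unique (ι := Unit) fun α => PT w .one N (z α) x).symm)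
  | .step s, 0, z, F => (Law.TE_eq hw _ N _ F).trans (Finset.sum_congr rfl fun x _ =>
      congrArg (· * F x) (Fintype.prod_unique (ι := Unit) fun α => PT w (.step s) N (z α) x).symm)
  | .step s, j + 1, z, F => cE_eq hw N s j z F
  | .split s t, 0, z, F => (Law.TE_eq hw _ N _ F).trans (Finset.sum_congr rfl fun x _ =>
      congrArg (· * F x)
        (Fintype.prod_unique (ι := Unit) fun α => PT w (.split s t) N (z α) x).symm)
  | .split s t, j + 1, z, F => by
      rw [cE, cE_eq hw N s]
      simp only [cE_eq hw N t, Finset.mul_sum]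
      rw [← Fintype.sum_prod_type']
      refine Fintype.sum_equiv (Equiv.sumArrowEquivProdArrow s.Lf t.Lf Ω).symm _ _ fun p => ?_
      rw [← mul_assoc]
      exact congrArg (· * _) (Fintype.prod_sum_type
        (α₁ := (s.cut (j + 1)).Lf) (α₂ := (t.cut (j + 1)).Lf) fun α =>
          PT w ((Sh.split s t).up (j + 1) α) N (z α) fun b =>
            Sum.elim p.1 p.2 ((Sh.split s t).inj (j + 1) α b)).symm

theorem egP_prod {κ α : Type} (T : Finset α) {Φ : α → Pa κ Ω → ℝ} (h : ∀ k ∈ T, EgP (Φ k)) :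
    EgP fun p => ∏ k ∈ T, Φ k p := by
  classical
  induction T using Finset.induction_on with
  | empty => simpa using EgP.const (κ := κ) (Ω := Ω) 1
  | insert a T ha ih =>
    simp only [Finset.prod_insert ha]
    exact (h a (by simp)).mul (ih fun b hb => h b (by simp [hb]))

theorem egP_cE (hw : Wt w) (N : List (Lv Ω)) (s : Sh) (j : ℕ) {κ : Type} (e : (s.cut j).Lf → κ)
    (i : ℕ) {F : Pa κ Ω → (s.Lf → Ω) → ℝ} (hF : ∀ x, EgP fun p => F p x) :
    EgP fun p => cE w N s j (fun α => p (e α) i) (F p) := by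
  simp only [cE_eq hw]
  exact .sum _ fun x _ => (egP_prod _ fun α _ => .state (Law.eg_PT hw _ N _) (e α) i).mul (hF x)

theorem egP_trc {κ κ' : Type} {Φ : Pa κ Ω → ℝ} (hΦ : EgP Φ) (e : κ → κ') (j : ℕ) :
    EgP fun p : Pa κ' Ω => Φ (trc j fun a => p (e a)) := Tp.egP_re hΦ e fun i => min i j







theorem cE_const (hw : Wt w) (N : List (Lv Ω)) (c : ℝ) : ∀ (s : Sh) (j : ℕ)
    (z : (s.cut j).Lf → Ω → ℝ), cE w N s j z (fun _ => c) = c
  | .one, _, _ => Law.TE_const hw _ N _ c
  | .step _, 0, _ => Law.TE_const hw _ N _ c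
  | .step s, j + 1, z => cE_const hw N c s j z
  | .split _ _, 0, _ => Law.TE_const hw _ N _ c
  | .split s t, j + 1, z => by simp only [cE, cE_const hw N c s, cE_const hw N c t]


/-- `F` only reads the leaves in `T` -/
def Dep {κ : Type} (T : κ → Prop) (F : (κ → Ω) → ℝ) : Prop :=
  ∀ x y, (∀ a, T a → x a = y a) → F x = F y

theorem TE_dep (hw : Wt w) (N : List (Lv Ω)) (s : Sh) (z : Ω → ℝ) (p : Prop)
    {F G : (s.Lf → Ω) → ℝ} (hF : Dep (fun _ => p) F) (hG : Dep (fun _ => ¬p) G) :
    TE w s N z (fun x => F x * G x) = TE w s N z F * TE w s N z G := by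
  obtain ⟨y, -⟩ := Finset.exists_ne_zero_of_sum_ne_zero hw.pos.ne'
  by_cases h : p
  · rw [show G = fun _ => G fun _ => y from funext fun x => hG _ _ fun _ h' => absurd h h',
      Law.TE_mul_const hw, Law.TE_const hw]
  · rw [show F = fun _ => F fun _ => y from funext fun x => hF _ _ fun _ h' => absurd h' h,
      Law.TE_const_mul hw, Law.TE_const hw]

/-- **independence of disjoint families of clusters** -/
theorem cE_mul (hw : Wt w) (N : List (Lv Ω)) : ∀ (s : Sh) (j : ℕ) (z : (s.cut j).Lf → Ω → ℝ)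
    (T : (s.cut j).Lf → Prop) {F G : (s.Lf → Ω) → ℝ}, Dep (fun a => T (s.cl j a)) F →
    Dep (fun a => ¬T (s.cl j a)) G →
    cE w N s j z (fun x => F x * G x) = cE w N s j z F * cE w N s j z G
  | .one, _, _, T, _, _, hF, hG => TE_dep hw N _ _ (T ()) hF hG
  | .step _, 0, _, T, _, _, hF, hG => TE_dep hw N _ _ (T ()) hF hG
  | .step s, j + 1, z, T, _, _, hF, hG => cE_mul hw N s j z T hF hG
  | .split _ _, 0, _, T, _, _, hF, hG => TE_dep hw N _ _ (T ()) hF hG
  | .split s t, j + 1, z, T, F, G, hF, hG => by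
      have r : ∀ {T : s.Lf ⊕ t.Lf → Prop} {F : (s.Lf ⊕ t.Lf → Ω) → ℝ}, Dep T F → ∀ x,
          Dep (fun a => T (.inr a)) fun y => F (Sum.elim x y) := fun h x y y' e =>
        h _ _ fun a ha => by cases a with
          | inl a => rfl
          | inr a => exact e a ha
      have l : ∀ {T : s.Lf ⊕ t.Lf → Prop} {F : (s.Lf ⊕ t.Lf → Ω) → ℝ}, Dep T F →
          Dep (fun a => T (.inl a)) fun x => cE w N t (j + 1) (fun α => z (.inr α))
            fun y => F (Sum.elim x y) := fun h x x' e => by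
        refine congrArg (cE w N t (j + 1) _) (funext fun y => h _ _ fun a ha => ?_)
        cases a with
        | inl a => exact e a ha
        | inr a => rfl
      simp only [cE]
      simp only [fun x => cE_mul hw N t (j + 1) (fun α => z (.inr α)) (fun α => T (.inr α))
        (r hF x) (r hG x)]
      exact cE_mul hw N s (j + 1) _ (fun α => T (.inl α)) (l hF) (l hG)

/-- the law of one cluster -/
theorem cE_inj (hw : Wt w) (N : List (Lv Ω)) : ∀ (s : Sh) (j : ℕ) (z : (s.cut j).Lf → Ω → ℝ)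
    (α : (s.cut j).Lf) (F : ((s.up j α).Lf → Ω) → ℝ),
    cE w N s j z (fun x => F fun b => x (s.inj j α b)) = TE w (s.up j α) N (z α) F
  | .one, _, _, _, _ => rfl
  | .step _, 0, _, _, _ => rfl
  | .step s, j + 1, z, α, F => cE_inj hw N s j z α F
  | .split _ _, 0, _, _, _ => rfl
  | .split s t, j + 1, z, .inl α, F => by
      refine Eq.trans ?_ (cE_inj hw N s (j + 1) (fun α => z (.inl α)) α F)
      exact congrArg (cE w N s (j + 1) _) (funext fun x =>
        cE_const hw N (F fun b => x (s.inj (j + 1) α b)) t (j + 1) _)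
  | .split s t, j + 1, z, .inr α, F => by
      refine Eq.trans ?_ (cE_const hw N _ s (j + 1) fun α => z (.inl α))
      exact congrArg (cE w N s (j + 1) _)
        (funext fun _ => cE_inj hw N t (j + 1) (fun α => z (.inr α)) α F)



/-- the statement for one shape and one depth -/
def Cut (w : Ω → ℝ) (s : Sh) (j : ℕ) : Prop :=
  ∀ (L : List (Lv Ω)) (h : Ω → ℝ) (F : Pa (s.cut j).Lf Ω → (s.Lf → Ω) → ℝ),
    (∀ x, EgP fun p => F p x) →
    tF w s L h (fun p x => F (trc j fun α => p (s.rep j α)) x) =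
      tF w (s.cut j) L h fun p _ => cE w (L.drop j) s j (fun α => p α j) (F (trc j p))

theorem trc_zero (s : Sh) (L : List (Lv Ω)) (h : Ω → ℝ) (g : NT s L → ℝ) {κ : Type}
    (r : κ → s.Lf) : (trc 0 fun α => stT s L h g (r α)) = fun _ _ => h := by
  funext a i
  rw [trc, Nat.min_zero, Sd.stT_zero]

theorem tF_nil (s : Sh) (h : Ω → ℝ) (F : Pa s.Lf Ω → (s.Lf → Ω) → ℝ) :
    tF w s [] h F = TE w s [] h (F fun _ _ => h) :=
  congrArg (tX w s [] h) (funext fun g => congrArg F
    (funext fun a => funext fun j => Sd.stT_nil s h g a j))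

theorem cut_zero (hw : Wt w) (s : Sh) (L : List (Lv Ω)) (h : Ω → ℝ) (r : Unit → s.Lf)
    (F : Pa Unit Ω → (s.Lf → Ω) → ℝ) :
    tF w s L h (fun p x => F (trc 0 fun α => p (r α)) x) =
      tF w .one L h fun p _ => TE w s L (p () 0) (F (trc 0 p)) := by
  simp only [tF, trc_zero]
  refine (Law.TE_const hw .one L h _).symm.trans (congrArg (tX w .one L h) (funext fun g => ?_))
  exact funext fun _ => (congrArg₂ (fun z q => TE w s L z (F q)) (Sd.stT_zero .one L h g ())
    (trc_zero .one L h g id)).symm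

theorem trc_cons {κ : Type} (h : Ω → ℝ) (p : Pa κ Ω) (j : ℕ) :
    trc (j + 1) (fun a => Gf.cons h (p a)) = fun a => Gf.cons h (trc j p a) := by
  funext a i
  cases i with
  | zero => rfl
  | succ i => rw [trc, Nat.succ_min_succ]; rfl

theorem cut_step (hw : Wt w) {s : Sh} {j : ℕ} (H : Cut w s j) : Cut w (.step s) (j + 1)
  | [], h, F, hF => by
      refine (Tp.tF_step_nil w s h _).trans (Eq.trans ?_ (Tp.tF_step_nil w (s.cut j) h _).symm)
      have := H [] h (fun _ => F fun _ _ => h) fun x => .const _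
      rw [tF_nil, tF_nil, List.drop_nil] at this
      refine (tF_nil s h _).trans (Eq.trans ?_ (tF_nil (s.cut j) h _).symm)
      exact this
  | l :: L, h, F, hF => by
      refine (Tp.tF_step_cons hw s l L h fun x => egP_trc (hF x) _ _).trans
        (Eq.trans ?_ (Tp.tF_step_cons hw (s.cut j) l L h fun _ =>
          egP_cE hw (L.drop j) s j id (j + 1)
            fun x => egP_trc (hF x) id _).symm)
      congr 1
      funext z
      have := H L z (fun p => F fun a => Gf.cons h (p a)) fun x => Gf.egP_cons (hF x) h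
      refine Eq.trans (congrArg (tF w s L z) (funext fun p => funext fun x =>
        congrArg (F · x) (trc_cons h (fun α => p (s.rep j α)) j))) (this.trans ?_)
      exact congrArg (tF w (s.cut j) L z) (funext fun p => funext fun _ =>
        congrArg (fun q => cE w (L.drop j) s j (fun α => p α j) (F q)) (trc_cons h p j).symm)

theorem cut_one (hw : Wt w) : ∀ j, Cut w .one j
  | 0, L, h, F, _ => cut_zero hw .one L h _ F
  | _ + 1, [], h, _, _ => by
      refine (tF_nil .one h _).trans (Eq.trans ?_ (tF_nil .one h _).symm)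
      exact (Law.TE_const hw .one [] h _).symm
  | j + 1, l :: L, h, F, hF => (Tp.tF_one_cons w l L h _).trans
      ((cut_step hw (cut_one hw j) (l :: L) h F hF).trans (Tp.tF_one_cons w l L h _).symm)

theorem cE_tF (hw : Wt w) (N : List (Lv Ω)) (s : Sh) (j : ℕ) (z : (s.cut j).Lf → Ω → ℝ)
    (t : Sh) (L : List (Lv Ω)) (h : Ω → ℝ) {G : (s.Lf → Ω) → Pa t.Lf Ω → ℝ}
    (hG : ∀ x, EgP (G x)) : cE w N s j z (fun x => tF w t L h fun q _ => G x q) =
      tF w t L h fun q _ => cE w N s j z fun x => G x q := by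
  simp only [cE_eq hw, tF]
  rw [Sd.tX_sum hw t L h _ fun x _ _ => Eg.const_mul _ ((hG x).stT L h)]
  simp only [Sd.tX_const_mul]

theorem trc_elim {κ κ' : Type} (p : Pa κ Ω) (q : Pa κ' Ω) (j : ℕ) :
    trc j (Sum.elim p q) = Sum.elim (trc j p) (trc j q) := by
  funext a
  cases a <;> rfl

theorem cut_split (hw : Wt w) {s t : Sh} {j : ℕ} (Hs : Cut w s (j + 1)) (Ht : Cut w t (j + 1)) :
    Cut w (.split s t) (j + 1) := fun L h F hF => by
  refine (Tp.tF_split hw s t L h fun x => egP_trc (hF x) _ _).trans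
    (Eq.trans ?_ (Tp.tF_split hw (s.cut (j + 1)) (t.cut (j + 1)) L h fun _ =>
      egP_cE hw (L.drop (j + 1)) (.split s t) (j + 1) id (j + 1)
        fun x => egP_trc (hF x) id _).symm)
  have e : ∀ (p : Pa s.Lf Ω) (q : Pa t.Lf Ω),
      (trc (j + 1) fun α => Sum.elim p q ((Sh.split s t).rep (j + 1) α)) =
        Sum.elim (trc (j + 1) fun α => p (s.rep (j + 1) α))
          (trc (j + 1) fun α => q (t.rep (j + 1) α)) := fun p q => by
    funext a
    cases a <;> rfl
  have hK : ∀ x y, EgP fun r : Pa ((s.cut (j + 1)).Lf ⊕ (t.cut (j + 1)).Lf) Ω =>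
      F (Sum.elim (fun α => r (.inl α)) (trc (j + 1) fun β => r (.inr β))) (Sum.elim x y) :=
    fun x y => (hF (Sum.elim x y)).comp fun _ _ r hr a i u => by
      cases a with
      | inl a => exact hr (.inl a) i u
      | inr a => exact hr (.inr a) _ u
  have h1 := fun (p : Pa s.Lf Ω) (x : s.Lf → Ω) => Ht L h
    (fun q y => F (Sum.elim (trc (j + 1) fun α => p (s.rep (j + 1) α)) q) (Sum.elim x y))
    fun y => Gf.egP_inr (hF (Sum.elim x y)) _
  have h2 := Hs L h (fun p x => tF w (t.cut (j + 1)) L h fun q _ =>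
      cE w (L.drop (j + 1)) t (j + 1) (fun β => q β (j + 1))
        fun y => F (Sum.elim p (trc (j + 1) q)) (Sum.elim x y))
    fun x => Tp.egP_tF hw (t.cut (j + 1)) L h
      (F := fun r _ => cE w (L.drop (j + 1)) t (j + 1) (fun β => r (.inr β) (j + 1))
        fun y => F (Sum.elim (fun α => r (.inl α)) (trc (j + 1) fun β => r (.inr β)))
          (Sum.elim x y)) fun _ => egP_cE hw _ t (j + 1) .inr (j + 1) (hK x)
  refine Eq.trans (congrArg (tF w s L h) (funext fun p => funext fun x => Eq.trans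
    (congrArg (tF w t L h) (funext fun q => funext fun y =>
      congrArg (F · (Sum.elim x y)) (e p q))) (h1 p x))) (h2.trans ?_)
  refine congrArg (tF w (s.cut (j + 1)) L h) (funext fun p => funext fun _ => ?_)
  refine (cE_tF hw _ s (j + 1) _ (t.cut (j + 1)) L h fun x =>
    egP_cE hw _ t (j + 1) id (j + 1) fun y =>
      egP_trc (Gf.egP_inr (hF (Sum.elim x y)) _) id _).trans ?_
  refine congrArg (tF w (t.cut (j + 1)) L h) (funext fun q => funext fun _ => ?_)
  exact congrArg (fun r => cE w (L.drop (j + 1)) (.split s t) (j + 1)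
    (fun α => Sum.elim p q α (j + 1)) (F r)) (trc_elim p q (j + 1)).symm

end Clu22

open Clu22 in
/-- **cluster decomposition at depth `j`**: given the paths up to depth `j`, the clusters are
independent trees started at the states at depth `j`, with the remaining levels -/
theorem tF_cut (hw : Wt w) : ∀ (s : Sh) (j : ℕ), Cut w s j
  | .one, j => cut_one hw j
  | .step s, 0 => fun L h F _ => cut_zero hw (.step s) L h _ F
  | .step s, j + 1 => cut_step hw (tF_cut hw s j)
  | .split s t, 0 => fun L h F _ => cut_zero hw (.split s t) L h _ F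
  | .split s t, j + 1 => cut_split hw (tF_cut hw s (j + 1)) (tF_cut hw t (j + 1))


/-- leaf functions -/
theorem TE_cut (hw : Wt w) (s : Sh) (j : ℕ) (L : List (Lv Ω)) (h : Ω → ℝ) (F : (s.Lf → Ω) → ℝ) :
    TE w s L h F = tF w (s.cut j) L h fun p _ => cE w (L.drop j) s j (fun α => p α j) F :=
  tF_cut hw s j L h (fun _ => F) fun _ => .const _




end Crest.Agent.T156.Cas

end
private theorem rz_914e57d4d4 : type_of% @_root_.Crest.Agent.T156.Cas.Sh.cl.eq_def := @_root_.Crest.Agent.T156.Cas.Sh.cl.eq_def -- L47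
private theorem rz_15f20132ae : type_of% @_root_.Crest.Agent.T156.Cas.Sh.cl.eq_1 := @_root_.Crest.Agent.T156.Cas.Sh.cl.eq_1 -- L47
private theorem rz_4648f14a12 : type_of% @_root_.Crest.Agent.T156.Cas.Sh.cut.eq_def := @_root_.Crest.Agent.T156.Cas.Sh.cut.eq_def -- L21
private theorem rz_3755ebfade : type_of% @_root_.Crest.Agent.T156.Cas.Sh.cut.eq_1 := @_root_.Crest.Agent.T156.Cas.Sh.cut.eq_1 -- L21
private theorem rz_835620ee95 : type_of% @_root_.Crest.Agent.T156.Cas.cE.eq_def := @_root_.Crest.Agent.T156.Cas.cE.eq_def -- L139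
private theorem rz_78b9ab80d8 : type_of% @_root_.Crest.Agent.T156.Cas.cE.eq_1 := @_root_.Crest.Agent.T156.Cas.cE.eq_1 -- L139
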