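import Crest.Agent.T156.Cav_22
import Crest.Agent.T156.CaTayB_38
import Crest.Agent.T156.Com_6

/-!
# Row 156 (helper51): low edges are pairs of legs on clusters

Cut at depth `i`: a cluster is a class of leaves sharing `i + 1` levels.  `lg` is the signed sum
over the positions of one leg in a cluster, `sg_low` the factorisation of the graft sum `sg` for
terms that vanish above the cut, `LW_step` the step rule for words of pending legs.
-/

set_option autoImplicit false
set_option linter.unusedSectionVars false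

noncomputable section

namespace Crest.Agent.T156.Cas

open MeasureTheory Real Set Filter Topology
open Crest.Agent.T157.E Crest.Agent.T157.Casc Crest.Agent.T157.SL
open Wt87 (shr_emb shr_nw shr_nw' shr_self shr_comm shr_min shr_le shr_ultra shr_congr sum_graft
  fst_graft br_graft graft_cases)
open Tay38 (emb_ne emb_inj)

namespace Leg51

variable {Ω Θ ι : Type}

/-! ### two grafts at different depths commute -/

/-- a larger shape with two marked leaves -/
structure Q (s : Sh) where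
  sh : Sh
  e : s.Lf → sh.Lf
  p : sh.Lf
  q : sh.Lf

/-- first `(b, k)`, then `(a, j)`; `p` is the leaf at `(a, j)` -/
def QA (s : Sh) (a : s.Lf) (j : ℕ) (b : s.Lf) (k : ℕ) : Q s :=
  ⟨(s.graft b k).graft (s.emb b k a) j, fun c => (s.graft b k).emb (s.emb b k a) j (s.emb b k c),
    (s.graft b k).nw (s.emb b k a) j, (s.graft b k).emb (s.emb b k a) j (s.nw b k)⟩

/-- first `(a, j)`, then `(b, k)`; `p` is the leaf at `(a, j)` -/
def QB (s : Sh) (a : s.Lf) (j : ℕ) (b : s.Lf) (k : ℕ) : Q s :=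
  ⟨(s.graft a j).graft (s.emb a j b) k, fun c => (s.graft a j).emb (s.emb a j b) k (s.emb a j c),
    (s.graft a j).emb (s.emb a j b) k (s.nw a j), (s.graft a j).nw (s.emb a j b) k⟩

theorem QA_eq : ∀ (s : Sh) (a : s.Lf) (j : ℕ) (b : s.Lf) (k : ℕ), j < k →
    QA s a j b k = QB s a j b k
  | .one, _, 0, _, _ + 1, _ => rfl
  | .one, a, j + 1, b, k + 1, h => congrArg (fun τ : Q .one => (⟨.step τ.sh, τ.e, τ.p, τ.q⟩ : Q .one))
      (QA_eq .one a j b k (Nat.lt_of_succ_lt_succ h))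
  | .step _, _, 0, _, _ + 1, _ => rfl
  | .step s, a, j + 1, b, k + 1, h =>
      congrArg (fun τ : Q s => (⟨.step τ.sh, τ.e, τ.p, τ.q⟩ : Q (.step s)))
        (QA_eq s a j b k (Nat.lt_of_succ_lt_succ h))
  | .split s t, .inl a, j, .inl b, k, h => by
      have := congrArg (fun τ : Q s =>
        (⟨.split τ.sh t, Sum.map τ.e id, .inl τ.p, .inl τ.q⟩ : Q (.split s t))) (QA_eq s a j b k h)
      refine Eq.trans ?_ (this.trans ?_)
      · exact congrArg (fun e => Q.mk _ e _ _) (funext fun c => by cases c <;> rfl)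
      · exact congrArg (fun e => Q.mk _ e _ _) (funext fun c => by cases c <;> rfl)
  | .split s t, .inr a, j, .inr b, k, h => by
      have := congrArg (fun τ : Q t =>
        (⟨.split s τ.sh, Sum.map id τ.e, .inr τ.p, .inr τ.q⟩ : Q (.split s t))) (QA_eq t a j b k h)
      refine Eq.trans ?_ (this.trans ?_)
      · exact congrArg (fun e => Q.mk _ e _ _) (funext fun c => by cases c <;> rfl)
      · exact congrArg (fun e => Q.mk _ e _ _) (funext fun c => by cases c <;> rfl)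
  | .split s t, .inl a, j, .inr b, k, _ =>
      congrArg (fun e => Q.mk (s := .split s t) _ e _ _) (funext fun c => by cases c <;> rfl)
  | .split s t, .inr a, j, .inl b, k, _ =>
      congrArg (fun e => Q.mk (s := .split s t) _ e _ _) (funext fun c => by cases c <;> rfl)

/-! ### weights of a graft, pointwise -/

theorem cf_nil : ∀ (s : Sh) (a : s.Lf) (k : ℕ), cf s ([] : List (Lv Θ)) a (k + 1) = 0
  | .one, _, _ => sub_self (1 : ℝ)
  | .step s, a, k => by
      show cf s [] a (k + 1) + _ = 0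
      rw [cf_nil s a k, if_neg (by simp), add_zero]
  | .split s _, .inl a, k => cf_nil s a k
  | .split _ t, .inr a, k => cf_nil t a k

theorem cf_zero : ∀ (s : Sh) (l : Lv Θ) (L : List (Lv Θ)) (a : s.Lf), cf s (l :: L) a 0 = 0
  | .one, _, _, _ => rfl
  | .step _, _, _, _ => rfl
  | .split s _, l, L, .inl a => cf_zero s l L a
  | .split _ t, l, L, .inr a => cf_zero t l L a

theorem cf_step (s : Sh) (l : Lv Θ) (L : List (Lv Θ)) (a : s.Lf) (j : ℕ) :
    cf (.step s) (l :: L) a (j + 1) =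
      cf s L a j + if a = s.fst ∧ j = 0 then s.br * ex L 0 - l.m else 0 := rfl

theorem cf_one_step (l : Lv Θ) (L : List (Lv Θ)) (a : Sh.one.Lf) :
    ∀ k, cf .one (l :: L) a k = cf (.step .one) (l :: L) a k
  | 0 => rfl
  | 1 => by
      refine Eq.trans ?_ (cf_step .one l L a 0).symm
      rw [if_pos ⟨rfl, rfl⟩]
      show ex L 0 - l.m = 0 + (((1 : ℕ) : ℝ) * ex L 0 - l.m)
      simp
  | k + 2 => by
      refine Eq.trans ?_ (cf_step .one l L a (k + 1)).symm
      rw [if_neg (by simp), add_zero]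
      rfl

theorem ite_fst (s : Sh) (a : s.Lf) {j : ℕ} (b : s.Lf) {k : ℕ} (h' : ¬(k = j ∧ s.shr a b j = j))
    (g : ℕ → ℝ) : (if s.emb a j b = (s.graft a j).fst ∧ k = 0 then g (s.graft a j).br else 0) =
      if b = s.fst ∧ k = 0 then g s.br else 0 := by
  by_cases hk0 : k = 0
  · have hj : j ≠ 0 := fun e => h' ⟨hk0.trans e.symm, by rw [e]; exact Wt87.shr_zero s a b⟩
    have e1 := br_graft s a j
    rw [if_neg hj] at e1
    have e2 := fst_graft s a j
    exact if_congr (and_congr_left fun _ => ⟨fun e => emb_inj s a j (e.trans e2),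
      fun e => (congrArg (s.emb a j) e).trans e2.symm⟩) (congrArg g e1) rfl
  · rw [if_neg fun e => hk0 e.2, if_neg fun e => hk0 e.2]

theorem cf_emb : ∀ (s : Sh) (L : List (Lv Θ)) (a : s.Lf) (j : ℕ) (b : s.Lf) (k : ℕ),
    j ≤ L.length → ¬(k = j ∧ s.shr a b j = j) →
    cf (s.graft a j) L (s.emb a j b) k = cf s L b k
  | s, [], a, j, b, 0, h, h' => by
      obtain rfl : j = 0 := Nat.le_zero.1 h
      exact absurd ⟨rfl, Wt87.shr_zero s a b⟩ h'
  | s, [], a, j, b, k + 1, _, _ => (cf_nil _ _ k).trans (cf_nil _ _ k).symm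
  | s, l :: L, a, j, b, 0, _, _ => (cf_zero _ l L _).trans (cf_zero _ l L _).symm
  | .one, _ :: _, _, 0, _, _ + 1, _, _ => rfl
  | .one, l :: L, a, j + 1, b, k + 1, h, h' => by
      have hk : ¬(k = j ∧ Sh.one.shr a b j = j) := fun e => h' ⟨congrArg (· + 1) e.1, rfl⟩
      exact (cf_step (Sh.one.graft a j) l L (Sh.one.emb a j b) k).trans ((congrArg₂ (· + ·)
        (cf_emb .one L a j b k (Nat.le_of_succ_le_succ h) hk)
        (ite_fst .one a b hk fun r => r * ex L 0 - l.m)).trans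
        ((cf_step .one l L b k).symm.trans (cf_one_step l L b (k + 1)).symm))
  | .step _, _ :: _, _, 0, _, _ + 1, _, _ => rfl
  | .step s, l :: L, a, j + 1, b, k + 1, h, h' => by
      have hk : ¬(k = j ∧ s.shr a b j = j) :=
        fun e => h' ⟨congrArg (· + 1) e.1, congrArg (· + 1) e.2⟩
      exact (cf_step (s.graft a j) l L (s.emb a j b) k).trans ((congrArg₂ (· + ·)
        (cf_emb s L a j b k (Nat.le_of_succ_le_succ h) hk)
        (ite_fst s a b hk fun r => r * ex L 0 - l.m)).trans (cf_step s l L b k).symm)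
  | .split s _, l :: L, .inl a, j, .inl b, k + 1, h, h' => cf_emb s (l :: L) a j b (k + 1) h h'
  | .split _ t, l :: L, .inr a, j, .inr b, k + 1, h, h' => cf_emb t (l :: L) a j b (k + 1) h h'
  | .split _ _, _ :: _, .inl _, _, .inr _, _ + 1, _, _ => rfl
  | .split _ _, _ :: _, .inr _, _, .inl _, _ + 1, _, _ => rfl

theorem cf_nw : ∀ (s : Sh) (L : List (Lv Θ)) (a : s.Lf) (j k : ℕ), j ≤ L.length → k < j →
    cf (s.graft a j) L (s.nw a j) k = 0
  | _, [], _, j, k, h, h' => absurd h (by simp; omega)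
  | s, l :: L, a, j, 0, _, _ => cf_zero _ l L _
  | .one, l :: L, a, j + 1, k + 1, h, h' => by
      have ih := cf_nw .one L a j k (Nat.le_of_succ_le_succ h) (Nat.lt_of_succ_lt_succ h')
      refine (cf_step (Sh.one.graft a j) l L (Sh.one.nw a j) k).trans ?_
      rw [ih, if_neg fun e => emb_ne .one a j _ ((fst_graft .one a j).symm.trans e.1.symm), add_zero]
  | .step s, l :: L, a, j + 1, k + 1, h, h' => by
      have ih := cf_nw s L a j k (Nat.le_of_succ_le_succ h) (Nat.lt_of_succ_lt_succ h')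
      refine (cf_step (s.graft a j) l L (s.nw a j) k).trans ?_
      rw [ih, if_neg fun e => emb_ne s a j _ ((fst_graft s a j).symm.trans e.1.symm), add_zero]
  | .split s _, l :: L, .inl a, j, k + 1, h, h' => cf_nw s (l :: L) a j (k + 1) h h'
  | .split _ t, l :: L, .inr a, j, k + 1, h, h' => cf_nw t (l :: L) a j (k + 1) h h'

/-- old leaves keep their weights away from the node of the graft -/
theorem cw_emb (s : Sh) (L : List (Lv Θ)) (a : s.Lf) {j : ℕ} (b : s.Lf) {k : ℕ} (h : j ≤ L.length)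
    (h' : ¬(k = j ∧ s.shr a b j = j)) : cw (s.graft a j) L (s.emb a j b) k = cw s L b k := by
  rw [cw, cw, cf_emb s L a j b k h h', ite_fst s a b h' fun r => r * ex L 0]

/-- the new leaf has no weight below its graft -/
theorem cw_nw (s : Sh) (L : List (Lv Θ)) (a : s.Lf) {j k : ℕ} (h : j ≤ L.length) (h' : k < j) :
    cw (s.graft a j) L (s.nw a j) k = 0 := by
  rw [cw, cf_nw s L a j k h h',
    if_neg fun e => emb_ne s a j _ ((fst_graft s a j).symm.trans e.1.symm), add_zero]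

/-! ### clusters and legs -/

/-- the leaves in the cluster of `a` -/
def cls (i : ℕ) (s : Sh) (a : s.Lf) : Finset s.Lf :=
  Finset.univ.filter fun b => s.shr a b (i + 1) = i + 1

/-- the graft positions inside the cluster of `a` -/
def pos (i n : ℕ) (s : Sh) (a : s.Lf) : Finset (s.Lf × ℕ) := cls i s a ×ˢ Finset.Ioc i n

theorem mem_cls {i : ℕ} {s : Sh} {a b : s.Lf} : b ∈ cls i s a ↔ s.shr a b (i + 1) = i + 1 := by
  simp [cls]

theorem mem_pos {i n : ℕ} {s : Sh} {a : s.Lf} {p : s.Lf × ℕ} :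
    p ∈ pos i n s a ↔ s.shr a p.1 (i + 1) = i + 1 ∧ i < p.2 ∧ p.2 ≤ n := by
  simp [pos, mem_cls]

/-- **one leg in the cluster of `a`**: old leaves `+1`, new leaves `ε * cw` -/
def lg (ε : ℝ) (i : ℕ) (M : List (Lv Θ)) (s : Sh) (a : s.Lf)
    (Ψ : ∀ s' : Sh, (s.Lf → s'.Lf) → s'.Lf → ℝ) : ℝ :=
  ∑ b ∈ cls i s a, Ψ s id b + ε * ∑ p ∈ pos i M.length s a,
    cw s M p.1 p.2 * Ψ (s.graft p.1 p.2) (s.emb p.1 p.2) (s.nw p.1 p.2)

theorem shr_lt (s : Sh) (a b : s.Lf) {i k : ℕ} (h : s.shr a b k = k) (hk : i ≤ k) :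
    s.shr a b i = i := by
  have := shr_min s a b i k
  rw [min_eq_left hk, h, min_eq_left hk] at this
  exact this

theorem sum_cls_emb {i : ℕ} (s : Sh) (a : s.Lf) (j : ℕ) (b : s.Lf)
    (h : s.shr b a (min j (i + 1)) ≠ i + 1) (G : (s.graft a j).Lf → ℝ) :
    ∑ c ∈ cls i (s.graft a j) (s.emb a j b), G c = ∑ c ∈ cls i s b, G (s.emb a j c) := by
  simp only [cls, Finset.sum_filter]
  rw [sum_graft, shr_nw, if_neg h, add_zero]
  simp only [shr_emb]

/-- a leg in an old cluster that does not contain the new leaf -/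
theorem lg_graft (ε : ℝ) {i : ℕ} (M : List (Lv Θ)) (s : Sh) (a : s.Lf) {j : ℕ} (b : s.Lf)
    (hj : j ≤ M.length) (h : s.shr b a (min j (i + 1)) ≠ i + 1)
    (Ψ : ∀ s' : Sh, ((s.graft a j).Lf → s'.Lf) → s'.Lf → ℝ) :
    lg ε i M (s.graft a j) (s.emb a j b) Ψ = ∑ c ∈ cls i s b, Ψ _ id (s.emb a j c) +
      ε * ∑ p ∈ pos i M.length s b, cw s M p.1 p.2 *
        Ψ ((s.graft a j).graft (s.emb a j p.1) p.2) ((s.graft a j).emb (s.emb a j p.1) p.2)
          ((s.graft a j).nw (s.emb a j p.1) p.2) := by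
  rw [lg, sum_cls_emb s a j b h, pos, pos, Finset.sum_product, Finset.sum_product,
    sum_cls_emb s a j b h]
  congr 2
  refine Finset.sum_congr rfl fun c hc => Finset.sum_congr rfl fun k hk => ?_
  rw [cw_emb s M a c hj]
  rintro ⟨e', e⟩
  have h1 : i < j := (Finset.mem_Ioc.1 hk).1.trans_eq e'
  have h2 := shr_lt s a c e h1
  have h3 := shr_congr s (mem_cls.1 hc) a
  rw [min_eq_right h1, shr_comm] at h
  exact h (h3.trans h2)

/-- `s` has the clusters and the low weights of `t` -/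
structure Sk (i : ℕ) (M : List (Lv Θ)) (t s : Sh) (e : t.Lf → s.Lf) : Prop where
  shr : ∀ a b k, s.shr (e a) (e b) k = t.shr a b k
  sur : ∀ c, ∃ a, s.shr (e a) c (i + 1) = i + 1
  wt : ∀ j ≤ i, ∀ G : s.Lf → ℝ, ∑ c, cw s M c j * G c = ∑ a, cw t M a j * G (e a)

/-- every leaf is a cluster -/
def Sep (i : ℕ) (t : Sh) : Prop := ∀ a b : t.Lf, t.shr a b (i + 1) = i + 1 → a = b

variable {ε : ℝ} {i : ℕ} {M : List (Lv Θ)} {t s : Sh} {e : t.Lf → s.Lf}

theorem Sk.refl (i : ℕ) (M : List (Lv Θ)) (t : Sh) : Sk i M t t id :=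
  ⟨fun _ _ _ => rfl, fun c => ⟨c, shr_self t c _⟩, fun _ _ _ => rfl⟩

theorem Sk.graft (H : Sk i M t s e) (b : s.Lf) {k : ℕ} (hk : i < k) (hn : k ≤ M.length) :
    Sk i M t (s.graft b k) fun a => s.emb b k (e a) := by
  refine ⟨fun a a' r => (shr_emb s b k _ _ r).trans (H.shr a a' r), fun c => ?_, fun j hj G => ?_⟩
  · rcases graft_cases s b k c with ⟨d, rfl⟩ | rfl
    · exact (H.sur d).imp fun a ha => (shr_emb s b k _ _ _).trans ha
    · exact (H.sur b).imp fun a ha => by rw [shr_nw, min_eq_right hk]; exact ha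
  · rw [sum_graft, cw_nw s M b hn (hj.trans_lt hk), zero_mul, add_zero,
      ← H.wt j hj fun c => G (s.emb b k c)]
    exact Finset.sum_congr rfl fun c _ => by rw [cw_emb s M b c hn fun e => by omega]

theorem sep_one (i : ℕ) : Sep i .one := fun _ _ _ => rfl

theorem Sep.graft (H : Sep i t) (a : t.Lf) {j : ℕ} (hj : j ≤ i) : Sep i (t.graft a j) := by
  intro c d h
  rcases graft_cases t a j c with ⟨c, rfl⟩ | rfl <;> rcases graft_cases t a j d with ⟨d, rfl⟩ | rfl
  · rw [H c d ((shr_emb t a j _ _ _).symm.trans h)]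
  · rw [shr_nw] at h
    have := shr_le t c a (min j (i + 1))
    omega
  · rw [shr_nw'] at h
    have := shr_le t d a (min j (i + 1))
    omega
  · rfl

theorem sep_two {j : ℕ} (hj : j ≤ i) : Sep i (.two j) := (sep_one i).graft () hj

theorem Sk.uniq (H : Sk i M t s e) (hs : Sep i t) {a b : t.Lf} {c : s.Lf} (ha : c ∈ cls i s (e a))
    (hb : c ∈ cls i s (e b)) : a = b :=
  hs a b ((H.shr a b _).symm.trans ((shr_congr s (mem_cls.1 hb) (e a)).trans (mem_cls.1 ha)))

/-- the clusters partition the leaves -/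
theorem Sk.part (H : Sk i M t s e) (hs : Sep i t) (G : s.Lf → ℝ) :
    ∑ c, G c = ∑ a, ∑ c ∈ cls i s (e a), G c := by
  simp only [cls, Finset.sum_filter]
  rw [Finset.sum_comm]
  refine Finset.sum_congr rfl fun c _ => ?_
  obtain ⟨a, ha⟩ := H.sur c
  rw [Finset.sum_eq_single a (fun b _ hb => if_neg fun h =>
    hb (H.uniq hs (mem_cls.2 h) (mem_cls.2 ha))) (by simp), if_pos ha]

theorem sum_rng {n : ℕ} (h : i ≤ n) (G : ℕ → ℝ) : ∑ j ∈ Finset.range (n + 1), G j =
    ∑ j ∈ Finset.range (i + 1), G j + ∑ j ∈ Finset.Ioc i n, G j := by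
  rw [← Finset.sum_range_add_sum_Ico G (Nat.succ_le_succ h)]
  congr 1
  exact Finset.sum_congr (by ext; simp) fun _ _ => rfl

/-- all graft positions: new clusters and positions inside the clusters -/
theorem Sk.wsplit (H : Sk i M t s e) (hs : Sep i t) (hi : i ≤ M.length) (G : s.Lf → ℕ → ℝ) :
    ∑ c, ∑ j ∈ Finset.range (M.length + 1), cw s M c j * G c j =
      ∑ a, ∑ j ∈ Finset.range (i + 1), cw t M a j * G (e a) j +
        ∑ a, ∑ p ∈ pos i M.length s (e a), cw s M p.1 p.2 * G p.1 p.2 := by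
  simp only [sum_rng hi, Finset.sum_add_distrib, pos, Finset.sum_product]
  congr 1
  · rw [Finset.sum_comm, Finset.sum_comm (s := Finset.univ)]
    exact Finset.sum_congr rfl fun j hj =>
      H.wt j (Nat.lt_succ_iff.1 (Finset.mem_range.1 hj)) fun c => G c j
  · exact H.part hs _

theorem Sk.shr_lo (H : Sk i M t s e) (a b : t.Lf) {c : s.Lf} (hc : c ∈ cls i s (e b)) {j : ℕ}
    (hj : j ≤ i + 1) : s.shr (e a) c j = t.shr a b j :=
  (shr_congr s (shr_lt s _ _ (mem_cls.1 hc) hj) (e a)).symm.trans (H.shr a b j)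

theorem Sk.shr_hi (H : Sk i M t s e) (hs : Sep i t) {a b : t.Lf} (hab : a ≠ b) {c d : s.Lf}
    (hc : c ∈ cls i s (e a)) (hd : d ∈ cls i s (e b)) {k : ℕ} (hk : i < k) :
    s.shr c d k = t.shr a b (i + 1) ∧ t.shr a b (i + 1) ≤ i := by
  have h1 : t.shr a b (i + 1) ≠ i + 1 := fun h => hab (hs a b h)
  have h2 := shr_le t a b (i + 1)
  have h3 := H.shr_lo a b hd le_rfl
  have h4 := shr_congr s (mem_cls.1 hc) d
  have h5 := shr_min s c d (i + 1) k
  rw [min_eq_left hk] at h5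
  rw [shr_comm s d, shr_comm s d] at h4
  omega

/-- the coefficient of a pair of clusters -/
theorem Sk.coef (H : Sk i M t s e) (hs : Sep i t) (hi : i < M.length) {c : ℕ → ℝ}
    (hc : ∀ j, i < j → c j = 0) {a b : t.Lf} {a' b' : s.Lf} (ha : a' ∈ cls i s (e a))
    (hb : b' ∈ cls i s (e b)) {k : ℕ} (hk : i < k) :
    c (s.shr a' b' k) = if a = b then 0 else c (t.shr a b M.length) := by
  split_ifs with h
  · subst h
    have h1 := (shr_congr s (mem_cls.1 ha) b').symm.trans ((shr_comm s _ _ _).trans (mem_cls.1 hb))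
    have h2 := shr_min s b' a' (i + 1) k
    rw [min_eq_left hk] at h2
    exact hc _ (by rw [shr_comm]; omega)
  · rw [(H.shr_hi hs h ha hb hk).1, ← ((Sk.refl i M t).shr_hi hs h (mem_cls.2 (shr_self t a _))
      (mem_cls.2 (shr_self t b _)) hi).1]

/-! ### the factorisation -/

section alg
variable {α β γ : Type} [Fintype α]

theorem sw0 (C : α → Finset β) (D : α → Finset γ) (cc : α → α → ℝ) (w : β → ℝ) (X : β → γ → ℝ) :
    ∑ a, ∑ p ∈ C a, w p * ∑ b, cc a b * ∑ q ∈ D b, X p q =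
      ∑ a, ∑ b, cc a b * ∑ q ∈ D b, ∑ p ∈ C a, w p * X p q := by
  simp only [Finset.mul_sum]
  refine Finset.sum_congr rfl fun a _ => ?_
  rw [Finset.sum_comm]
  refine Finset.sum_congr rfl fun b _ => ?_
  rw [Finset.sum_comm]
  exact Finset.sum_congr rfl fun _ _ => Finset.sum_congr rfl fun _ _ => mul_left_comm _ _ _

theorem sw1 (C : α → Finset β) (cc : α → α → ℝ) (w : β → ℝ) (X : β → α → ℝ) :
    ∑ a, ∑ p ∈ C a, w p * ∑ b, cc b a * X p b = ∑ a, ∑ b, cc a b * ∑ p ∈ C b, w p * X p a := by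
  simp only [Finset.mul_sum]
  rw [Finset.sum_comm (s := Finset.univ) (t := Finset.univ)]
  refine Finset.sum_congr rfl fun a _ => ?_
  rw [Finset.sum_comm]
  exact Finset.sum_congr rfl fun _ _ => Finset.sum_congr rfl fun _ _ => mul_left_comm _ _ _

theorem sw2 (C : α → Finset β) (R : Finset γ) (cc : α → α → γ → ℝ) (w : β → ℝ) (v : α → γ → ℝ)
    (X : β → α → γ → ℝ) : ∑ b, ∑ p ∈ C b, w p * ∑ a, ∑ k ∈ R, v a k * (cc b a k * X p a k) =
      ∑ a, ∑ k ∈ R, v a k * ∑ b, cc b a k * ∑ p ∈ C b, w p * X p a k := by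
  simp only [Finset.mul_sum]
  rw [Finset.sum_congr rfl fun b _ => Finset.sum_comm, Finset.sum_comm]
  refine Finset.sum_congr rfl fun a _ => ?_
  rw [Finset.sum_congr rfl fun b _ => Finset.sum_comm, Finset.sum_comm]
  exact Finset.sum_congr rfl fun _ _ => Finset.sum_congr rfl fun _ _ =>
    Finset.sum_congr rfl fun _ _ => by ring

theorem sum_erase_ite [DecidableEq α] (a : α) (c X : α → ℝ) :
    ∑ b ∈ Finset.univ.erase a, c b * X b = ∑ b, (if a = b then 0 else c b) * X b := by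
  rw [← Finset.add_sum_erase _ _ (Finset.mem_univ a), if_pos rfl, zero_mul, zero_add]
  exact Finset.sum_congr rfl fun b hb => by rw [if_neg (Finset.ne_of_mem_erase hb).symm]

end alg

/-- two new leaves, the second one on the first one -/
def QC (s : Sh) (a : s.Lf) (j r : ℕ) : Q s :=
  ⟨(s.graft a j).graft (s.nw a j) (r + j),
    fun b => (s.graft a j).emb (s.nw a j) (r + j) (s.emb a j b),
    (s.graft a j).emb (s.nw a j) (r + j) (s.nw a j), (s.graft a j).nw (s.nw a j) (r + j)⟩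

/-- **a low edge is a pair of legs**: two old clusters, an old and a new one, two new ones -/
theorem sg_low (H : Sk i M t s e) (hs : Sep i t) (hi : i < M.length) (hε : ε * ε = 1) {c : ℕ → ℝ}
    (hc : ∀ j, i < j → c j = 0) (Φ : Q s → ℝ) :
    sg ε M s (fun τ => c τ.j * Φ ⟨τ.sh, τ.e, τ.p, τ.q⟩) =
      ∑ a, ∑ b ∈ Finset.univ.erase a, c (t.shr a b M.length) *
        lg ε i M s (e b) (fun s1 e1 q => lg ε i M s1 (e1 (e a)) fun s2 e2 p =>
          Φ ⟨s2, fun x => e2 (e1 x), p, e2 q⟩) +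
      ε * ∑ a, ∑ j ∈ Finset.range (i + 1), cw t M a j *
        (∑ b, c (t.shr b a j) * lg ε i M (s.graft (e a) j) (s.emb (e a) j (e b)) (fun s2 e2 p =>
            Φ ⟨s2, fun x => e2 (s.emb (e a) j x), p, e2 (s.nw (e a) j)⟩) +
          ∑ b, c (t.shr a b j) * lg ε i M (s.graft (e a) j) (s.emb (e a) j (e b)) fun s2 e2 q =>
            Φ ⟨s2, fun x => e2 (s.emb (e a) j x), e2 (s.nw (e a) j), q⟩) +
      ∑ a, ∑ j ∈ Finset.range (i + 1), cw t M a j *
        (∑ b, ∑ k ∈ Finset.range (i + 1), cw t M b k *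
            (c (t.shr a b (min j k)) * Φ (QA s (e a) j (e b) k)) +
          ∑ r ∈ Finset.range (i - j + 1), dm (M.drop j) 0 r * (c (r + j) * Φ (QC s (e a) j r))) := by
  have rg : ∀ {j}, j ∈ Finset.range (i + 1) → j ≤ i := fun h =>
    Nat.lt_succ_iff.1 (Finset.mem_range.1 h)
  set n := M.length with hn
  set C : t.Lf → Finset s.Lf := fun a => cls i s (e a) with hC
  set D : t.Lf → Finset (s.Lf × ℕ) := fun a => pos i n s (e a) with hD
  set cc : t.Lf → t.Lf → ℝ := fun a b => if a = b then 0 else c (t.shr a b n) with hcc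
  set w : s.Lf × ℕ → ℝ := fun p => cw s M p.1 p.2 with hw
  set P0 : s.Lf → s.Lf → ℝ := fun a b => Φ ⟨s, id, a, b⟩ with hP0
  set P1 : s.Lf → ℕ → s.Lf → ℝ := fun a j b => Φ ⟨_, s.emb a j, s.emb a j b, s.nw a j⟩ with hP1
  set P1' : s.Lf → ℕ → s.Lf → ℝ := fun a j b => Φ ⟨_, s.emb a j, s.nw a j, s.emb a j b⟩ with hP1'
  set P2 : s.Lf → ℕ → s.Lf → ℕ → ℝ := fun a j b k => Φ (QA s a j b k) with hP2
  have mD : ∀ {a p}, p ∈ D a → p.1 ∈ C a ∧ i < p.2 ∧ p.2 ≤ n := fun h =>
    ⟨mem_cls.2 (mem_pos.1 h).1, (mem_pos.1 h).2⟩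
  have lo : ∀ {j}, j ≤ i → ∀ x y : s.Lf, s.shr x y (min j (i + 1)) ≠ i + 1 := fun {j} hj x y => by
    have := shr_le s x y (min j (i + 1))
    omega
  have co : ∀ {a b a' b' k}, a' ∈ C a → b' ∈ C b → i < k → c (s.shr a' b' k) = cc a b :=
    fun ha hb hk => H.coef hs hi hc ha hb hk
  -- the right-hand side
  have hOO : ∑ a, ∑ b ∈ Finset.univ.erase a, c (t.shr a b n) *
      lg ε i M s (e b) (fun s1 e1 q => lg ε i M s1 (e1 (e a)) fun s2 e2 p =>
        Φ ⟨s2, fun x => e2 (e1 x), p, e2 q⟩) =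
      ∑ a, ∑ b, cc a b * ∑ y ∈ C b, ∑ x ∈ C a, 1 * P0 x y +
      ε * ∑ a, ∑ b, cc a b * ∑ y ∈ C b, ∑ p ∈ D a, w p * P1' p.1 p.2 y +
      ε * ∑ a, ∑ b, cc a b * ∑ q ∈ D b, w q * ∑ x ∈ C a, P1 q.1 q.2 x +
      ε * ε * ∑ a, ∑ b, cc a b * ∑ q ∈ D b, ∑ p ∈ D a, w p * (w q * P2 p.1 p.2 q.1 q.2) := by
    simp only [Finset.mul_sum (s := (Finset.univ : Finset t.Lf)), ← Finset.sum_add_distrib]
    refine Finset.sum_congr rfl fun a _ => ?_
    rw [sum_erase_ite]
    refine Finset.sum_congr rfl fun b _ => ?_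
    by_cases hab : a = b
    · simp only [hcc, if_pos hab, zero_mul, mul_zero, add_zero]
    have e1 : ∀ q ∈ D b, lg ε i M (s.graft q.1 q.2) (s.emb q.1 q.2 (e a)) (fun s2 e2 p =>
        Φ ⟨s2, fun x => e2 (s.emb q.1 q.2 x), p, e2 (s.nw q.1 q.2)⟩) =
        ∑ x ∈ C a, P1 q.1 q.2 x + ε * ∑ p ∈ D a, w p * P2 p.1 p.2 q.1 q.2 := fun q hq => by
      refine lg_graft ε M s q.1 (e a) (mD hq).2.2 ?_ _
      rw [min_eq_right (mD hq).2.1, H.shr_lo a b (mD hq).1 le_rfl]
      exact fun h => hab (hs a b h)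
    have e2 : lg ε i M s (e b) (fun s1 e1 q => lg ε i M s1 (e1 (e a)) fun s2 e2 p =>
        Φ ⟨s2, fun x => e2 (e1 x), p, e2 q⟩) =
        ∑ y ∈ C b, (∑ x ∈ C a, P0 x y + ε * ∑ p ∈ D a, w p * P1' p.1 p.2 y) +
        ε * ∑ q ∈ D b, w q * (∑ x ∈ C a, P1 q.1 q.2 x +
          ε * ∑ p ∈ D a, w p * P2 p.1 p.2 q.1 q.2) :=
      congrArg (_ + ε * ·) (Finset.sum_congr rfl fun q hq => congrArg (w q * ·) (e1 q hq))
    rw [e2]
    simp only [hcc, mul_add, Finset.sum_add_distrib, one_mul, mul_left_comm (w _) ε,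
      mul_left_comm (w _) (w _) (P2 _ _ _ _), ← Finset.mul_sum]
    ring
  have hON : ∑ a, ∑ j ∈ Finset.range (i + 1), cw t M a j *
      (∑ b, c (t.shr b a j) * lg ε i M (s.graft (e a) j) (s.emb (e a) j (e b)) (fun s2 e2 p =>
          Φ ⟨s2, fun x => e2 (s.emb (e a) j x), p, e2 (s.nw (e a) j)⟩) +
        ∑ b, c (t.shr a b j) * lg ε i M (s.graft (e a) j) (s.emb (e a) j (e b)) fun s2 e2 q =>
          Φ ⟨s2, fun x => e2 (s.emb (e a) j x), e2 (s.nw (e a) j), q⟩) =
      ∑ a, ∑ j ∈ Finset.range (i + 1), cw t M a j *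
        (∑ b, c (t.shr b a j) * ∑ y ∈ C b, P1 (e a) j y +
          ∑ b, c (t.shr a b j) * ∑ y ∈ C b, P1' (e a) j y) +
      ε * (∑ a, ∑ j ∈ Finset.range (i + 1), cw t M a j *
          ∑ b, c (t.shr b a j) * ∑ q ∈ D b, w q * P2 q.1 q.2 (e a) j +
        ∑ a, ∑ j ∈ Finset.range (i + 1), cw t M a j *
          ∑ b, c (t.shr a b j) * ∑ q ∈ D b, w q * P2 (e a) j q.1 q.2) := by
    simp only [mul_add ε, Finset.mul_sum (s := (Finset.univ : Finset t.Lf)) (a := ε),
      Finset.mul_sum (s := Finset.range (i + 1)), ← Finset.sum_add_distrib]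
    refine Finset.sum_congr rfl fun a _ => Finset.sum_congr rfl fun j hj => ?_
    have e1 : ∀ b, lg ε i M (s.graft (e a) j) (s.emb (e a) j (e b)) (fun s2 e2 p =>
        Φ ⟨s2, fun x => e2 (s.emb (e a) j x), p, e2 (s.nw (e a) j)⟩) =
        ∑ y ∈ C b, P1 (e a) j y + ε * ∑ q ∈ D b, w q * P2 q.1 q.2 (e a) j := fun b =>
      lg_graft ε M s (e a) (e b) ((rg hj).trans hi.le) (lo (rg hj) _ _) _
    have e2 : ∀ b, lg ε i M (s.graft (e a) j) (s.emb (e a) j (e b)) (fun s2 e2 q =>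
        Φ ⟨s2, fun x => e2 (s.emb (e a) j x), e2 (s.nw (e a) j), q⟩) =
        ∑ y ∈ C b, P1' (e a) j y + ε * ∑ q ∈ D b, w q * P2 (e a) j q.1 q.2 := fun b =>
      (lg_graft ε M s (e a) (e b) ((rg hj).trans hi.le) (lo (rg hj) _ _) _).trans
        (congrArg (_ + ε * ·) (Finset.sum_congr rfl fun q hq => congrArg (fun τ => w q * Φ τ)
          (QA_eq s (e a) j q.1 q.2 ((rg hj).trans_lt (mD hq).2.1)).symm))
    simp only [e1, e2, mul_add, Finset.sum_add_distrib, mul_left_comm _ ε, ← Finset.mul_sum]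
    ring
  -- the left-hand side
  have h0 : ∑ x, ∑ y ∈ Finset.univ.erase x, c (s.shr x y n) * P0 x y =
      ∑ a, ∑ b, cc a b * ∑ y ∈ C b, ∑ x ∈ C a, 1 * P0 x y := by
    rw [← sw0, H.part hs]
    refine Finset.sum_congr rfl fun a _ => Finset.sum_congr rfl fun x hx => ?_
    rw [Finset.sum_erase _ (by rw [shr_self, hc n hi, zero_mul]), H.part hs, one_mul]
    exact Finset.sum_congr rfl fun b _ => (Finset.sum_congr rfl fun y hy => by
      rw [co hx hy hi]).trans (Finset.mul_sum _ _ _).symm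
  have h1 : ∑ x, ∑ j ∈ Finset.range (n + 1), cw s M x j *
      (∑ y, c (s.shr y x j) * P1 x j y + ∑ y, c (s.shr x y j) * P1' x j y) =
      ∑ a, ∑ j ∈ Finset.range (i + 1), cw t M a j *
        (∑ b, c (t.shr b a j) * ∑ y ∈ C b, P1 (e a) j y +
          ∑ b, c (t.shr a b j) * ∑ y ∈ C b, P1' (e a) j y) +
      (∑ a, ∑ b, cc a b * ∑ q ∈ D b, w q * ∑ x ∈ C a, P1 q.1 q.2 x +
        ∑ a, ∑ b, cc a b * ∑ y ∈ C b, ∑ p ∈ D a, w p * P1' p.1 p.2 y) := by
    rw [H.wsplit hs hi.le, ← sw0, ← sw1]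
    simp only [← Finset.sum_add_distrib (s := (Finset.univ : Finset t.Lf)),
      ← Finset.sum_add_distrib (s := D _), ← mul_add]
    simp only [Finset.sum_add_distrib]
    congr 1
    · refine Finset.sum_congr rfl fun a _ => Finset.sum_congr rfl fun j hj => ?_
      rw [H.part hs, H.part hs]
      congr 2 <;> refine Finset.sum_congr rfl fun b _ => (Finset.sum_congr rfl fun y hy =>
        ?_).trans (Finset.mul_sum _ _ _).symm
      · rw [shr_comm, H.shr_lo a b hy ((rg hj).trans (Nat.le_succ i)), shr_comm]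
      · rw [H.shr_lo a b hy ((rg hj).trans (Nat.le_succ i))]
    · refine Finset.sum_congr rfl fun a _ => Finset.sum_congr rfl fun p hp => ?_
      rw [H.part hs, H.part hs]
      congr 2 <;> refine Finset.sum_congr rfl fun b _ => (Finset.sum_congr rfl fun y hy =>
        ?_).trans (Finset.mul_sum _ _ _).symm
      · rw [co hy (mD hp).1 (mD hp).2.1]
      · rw [co (mD hp).1 hy (mD hp).2.1]
  have h2 : ∑ x, ∑ j ∈ Finset.range (n + 1), cw s M x j *
      (∑ y, ∑ k ∈ Finset.range (n + 1), cw s M y k * (c (s.shr x y (min j k)) * P2 x j y k) +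
        ∑ r ∈ Finset.range (n - j + 1), dm (M.drop j) 0 r * (c (r + j) * Φ (QC s x j r))) =
      ∑ a, ∑ j ∈ Finset.range (i + 1), cw t M a j *
        (∑ b, ∑ k ∈ Finset.range (i + 1), cw t M b k *
            (c (t.shr a b (min j k)) * P2 (e a) j (e b) k) +
          ∑ r ∈ Finset.range (i - j + 1), dm (M.drop j) 0 r * (c (r + j) * Φ (QC s (e a) j r))) +
      ∑ a, ∑ j ∈ Finset.range (i + 1), cw t M a j *
          ∑ b, c (t.shr a b j) * ∑ q ∈ D b, w q * P2 (e a) j q.1 q.2 +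
      (∑ a, ∑ j ∈ Finset.range (i + 1), cw t M a j *
          ∑ b, c (t.shr b a j) * ∑ q ∈ D b, w q * P2 q.1 q.2 (e a) j +
        ∑ a, ∑ b, cc a b * ∑ q ∈ D b, ∑ p ∈ D a, w p * (w q * P2 p.1 p.2 q.1 q.2)) := by
    rw [H.wsplit hs hi.le, ← sw0, ← sw2 D (Finset.range (i + 1)) (fun b a k => c (t.shr b a k)) w
      (fun a k => cw t M a k) fun q a j => P2 q.1 q.2 (e a) j]
    congr 1
    · simp only [← Finset.sum_add_distrib (s := (Finset.univ : Finset t.Lf)),
        ← Finset.sum_add_distrib (s := Finset.range (i + 1)), ← mul_add]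
      refine Finset.sum_congr rfl fun a _ => Finset.sum_congr rfl fun j hj => ?_
      have hj' := rg hj
      rw [H.wsplit hs hi.le, Finset.sum_subset (s₁ := Finset.range (i - j + 1))
        (s₂ := Finset.range (n - j + 1)) (Finset.range_mono (by omega)) fun r _ hr => by
          rw [hc _ (by simp at hr; omega), zero_mul, mul_zero], add_right_comm]
      simp only [H.shr]
      congr 2
      refine Finset.sum_congr rfl fun b _ => (Finset.sum_congr rfl fun q hq =>
        ?_).trans (Finset.mul_sum _ _ _).symm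
      rw [min_eq_left (hj'.trans (mD hq).2.1.le), H.shr_lo a b (mD hq).1 (by omega), mul_left_comm]
    · simp only [← Finset.sum_add_distrib (s := (Finset.univ : Finset t.Lf)),
        ← Finset.sum_add_distrib (s := D _), ← mul_add]
      refine Finset.sum_congr rfl fun a _ => Finset.sum_congr rfl fun p hp => ?_
      obtain ⟨p1, p2, p3⟩ := mD hp
      rw [H.wsplit hs hi.le, Finset.sum_eq_zero (s := Finset.range (n - p.2 + 1)) fun r _ => by
        rw [hc _ (by omega), zero_mul, mul_zero], add_zero, Finset.sum_add_distrib]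
      congr 2
      · refine Finset.sum_congr rfl fun b _ => Finset.sum_congr rfl fun k hk => ?_
        rw [min_eq_right ((rg hk).trans p2.le), shr_comm,
          H.shr_lo b a p1 ((rg hk).trans (Nat.le_succ i)), shr_comm]
      · refine Finset.sum_congr rfl fun b _ => (Finset.sum_congr rfl fun q hq =>
          ?_).trans (Finset.mul_sum _ _ _).symm
        rw [co p1 (mD hq).1 (lt_min p2 (mD hq).2.1), mul_left_comm]
  rw [hOO, hON]
  refine (congrArg₂ (· + ·) (congrArg₂ (· + ·) h0 (congrArg (ε * ·) h1)) h2).trans ?_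
  rw [hε, mul_add ε _ (ε * _), ← mul_assoc ε ε, hε]
  ring

/-! ### words of pending legs -/

theorem mc {a b c : ℝ} (h : b = c) : a * b = a * c := congrArg (a * ·) h

theorem ac {a b c d : ℝ} (h : a = b) (h' : c = d) : a + c = b + d := congrArg₂ (· + ·) h h'

/-- functionals of a shape with marks -/
abbrev MF (ι Ω : Type) : Type := ∀ s : Sh, (ι → s.Lf) → ((s.Lf → Ω) → ℝ) → ℝ

/-- forget the marks -/
def cst (Λ : Fn Ω) : MF ι Ω := fun s _ F => Λ s F

/-- a leg with the function `f` in the cluster of the mark `a` -/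
def Lg (ε : ℝ) (i : ℕ) (M : List (Lv Θ)) (a : ι) (f : Ω → ℝ) (Ψ : MF ι Ω) : MF ι Ω :=
  fun s e F => lg ε i M s (e a) fun s' e' c =>
    Ψ s' (fun x => e' (e x)) fun x => F (fun b => x (e' b)) * f (x c)

/-- a word of legs -/
def LW (ε : ℝ) (i : ℕ) (M : List (Lv Θ)) (W : List (ι × (Ω → ℝ))) (Ψ : MF ι Ω) : MF ι Ω :=
  W.foldr (fun p => Lg ε i M p.1 p.2) Ψ


theorem LW_cons (p : ι × (Ω → ℝ)) (W : List (ι × (Ω → ℝ))) (Ψ : MF ι Ω) :
    LW ε i M (p :: W) Ψ = Lg ε i M p.1 p.2 (LW ε i M W Ψ) := rfl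










/-- the graft sum over the skeleton: the flags say whether the ends `p`, `q` are old clusters -/
def lsg (ε : ℝ) (i : ℕ) (M : List (Lv Θ)) (t : Sh) (Φ : GT t → Bool → Bool → ℝ) : ℝ :=
  ∑ a, ∑ b ∈ Finset.univ.erase a, Φ (.g0 t M.length a b) true true +
  ε * ∑ a, ∑ j ∈ Finset.range (i + 1), cw t M a j *
    (∑ b, Φ (.g1 t a j b) true false + ∑ b, Φ (.g1' t a j b) false true) +
  ∑ a, ∑ j ∈ Finset.range (i + 1), cw t M a j *
    (∑ b, ∑ k ∈ Finset.range (i + 1), cw t M b k * Φ (.g2 t a j b k) false false +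
      ∑ r ∈ Finset.range (i - j + 1), dm (M.drop j) 0 r * Φ (.g3 t a j r) false false)




/-! ### words of low letters -/

/-- the terms of `lsg` -/
inductive LM (i n : ℕ) (t : Sh) : GT t → Bool → Bool → Prop
  | g0 {a b : t.Lf} : b ≠ a → LM i n t (.g0 t n a b) true true
  | g1 (a : t.Lf) {j : ℕ} (b : t.Lf) : j ≤ i → LM i n t (.g1 t a j b) true false
  | g1' (a : t.Lf) {j : ℕ} (b : t.Lf) : j ≤ i → LM i n t (.g1' t a j b) false true
  | g2 (a : t.Lf) {j : ℕ} (b : t.Lf) {k : ℕ} : j ≤ i → k ≤ i → LM i n t (.g2 t a j b k) false false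
  | g3 (a : t.Lf) {j r : ℕ} : r + j ≤ i → LM i n t (.g3 t a j r) false false

theorem LM.sep {n : ℕ} {τ : GT t} {op oq : Bool} (H : LM i n t τ op oq) (hs : Sep i t) :
    Sep i τ.sh := by
  cases H with
  | g0 => exact hs
  | g1 a b h => exact hs.graft a h
  | g1' a b h => exact hs.graft a h
  | g2 a b h h' => exact (hs.graft b h').graft _ h
  | g3 a h => exact (hs.graft a (by omega)).graft _ h

theorem LM.mem {n : ℕ} {τ : GT t} {op oq : Bool} (H : LM i n t τ op oq) (hi : i ≤ n) :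
    τ.Mem t n := by
  cases H with
  | g0 h => exact .g0 h
  | g1 a b h => exact .g1 a b (h.trans hi)
  | g1' a b h => exact .g1' a b (h.trans hi)
  | g2 a b h h' => exact .g2 a b (h.trans hi) (h'.trans hi)
  | g3 a h => exact .g3 a (h.trans hi)

theorem lsg_congr {Φ Ψ : GT t → Bool → Bool → ℝ}
    (H : ∀ τ op oq, LM i M.length t τ op oq → Φ τ op oq = Ψ τ op oq) :
    lsg ε i M t Φ = lsg ε i M t Ψ := by
  have r : ∀ {j n}, j ∈ Finset.range (n + 1) → j ≤ n := fun h =>
    Nat.lt_succ_iff.1 (Finset.mem_range.1 h)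
  exact ac (ac (Finset.sum_congr rfl fun a _ => Finset.sum_congr rfl fun b hb =>
      H _ _ _ (.g0 (Finset.ne_of_mem_erase hb)))
    (mc (Finset.sum_congr rfl fun a _ => Finset.sum_congr rfl fun j hj => mc (ac
      (Finset.sum_congr rfl fun b _ => H _ _ _ (.g1 a b (r hj)))
      (Finset.sum_congr rfl fun b _ => H _ _ _ (.g1' a b (r hj)))))))
    (Finset.sum_congr rfl fun a _ => Finset.sum_congr rfl fun j hj => mc (ac
      (Finset.sum_congr rfl fun b _ => Finset.sum_congr rfl fun k hk =>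
        mc (H _ _ _ (.g2 a b (r hj) (r hk))))
      (Finset.sum_congr rfl fun k hk =>
        mc (H _ _ _ (.g3 a (by have := r hk; have := r hj; omega))))))

theorem lsg_add (Φ Ψ : GT t → Bool → Bool → ℝ) :
    lsg ε i M t (fun τ p q => Φ τ p q + Ψ τ p q) = lsg ε i M t Φ + lsg ε i M t Ψ := by
  simp only [lsg, mul_add, Finset.sum_add_distrib]
  ring

theorem lsg_mul (c : ℝ) (Φ : GT t → Bool → Bool → ℝ) :
    lsg ε i M t (fun τ p q => c * Φ τ p q) = c * lsg ε i M t Φ := by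
  simp only [lsg, mul_add, Finset.mul_sum, mul_left_comm c]


/-- a letter `c j * ∑ α, u α x * v α y` -/
structure LL (Ω : Type) where
  A : Type
  fin : Fintype A
  c : ℕ → ℝ
  u : A → Ω → ℝ
  v : A → Ω → ℝ

instance (l : LL Ω) : Fintype l.A := l.fin

/-- the kernel of a letter -/
def LL.K (l : LL Ω) : ℕ → Ω → Ω → ℝ := fun j x y => l.c j * ∑ α, l.u α x * l.v α y







end Leg51

end Crest.Agent.T156.Cas
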