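import Crest.Agent.T156.CY3A_20
import Crest.Agent.T156.Eg_33
import Crest.Agent.T156.Low_51
import Crest.Agent.T156.Lsg_89
import Crest.Agent.T156.CLowD_90
import Crest.Agent.T156.CErr_54
import Crest.Agent.T156.LowB_51
import Crest.Agent.T156.CY4A_89
import Crest.Agent.T156.CY2B_44
import Crest.Agent.T156.CYh_14
import Crest.Agent.T156.CGl_31
import Crest.Agent.T156.CLow_90
import Crest.Agent.T156.Rp_90
import Crest.Agent.T156.SiteC_94
import Crest.Agent.T156.EgB_33
import Crest.Agent.T156.RpB_90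
import Crest.Agent.T156.CKit_32
import Crest.Agent.T156.CEx_23

-- ▼ part T156/CY3B_20
section

/-!
# Row 156 (helper20): parity on skeletons

Odd clusters come in pairs and cost the variance of the incoming field.
-/

set_option autoImplicit false
set_option linter.all false

noncomputable section

namespace Crest.Agent.T156.Cas.Y20

open MeasureTheory Real Set Filter Topology
open Crest.Agent.T157.E Crest.Agent.T157.Casc Crest.Agent.T157.SL
open Wt87 Leg51

section gen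
variable {Ω : Type} [Fintype Ω] {w : Ω → ℝ}

theorem card_split (s t : Sh) :
    Fintype.card (Sh.split s t).Lf = Fintype.card s.Lf + Fintype.card t.Lf :=
  Fintype.card_sum (α := s.Lf) (β := t.Lf)

/-- one small cluster -/
theorem abs_SK_one (hw : Wt w) {β : ℝ} (hβ : 1 ≤ β) {D : (Ω → ℝ) → ℝ} (hD : Eg D) :
    ∀ (t : Sh) (M : List (Lv Ω)) (i : ℕ), t.dep ≤ i → i ≤ M.length →
    ∀ (Ψ : t.Lf → (Ω → ℝ) → ℝ), (∀ a, Eg (Ψ a)) → (∀ a z, |Ψ a z| ≤ β) → ∀ a,
    (∀ z, |Ψ a z| ≤ D z) → ∀ z, |SK w t M i Ψ z| ≤ β ^ Fintype.card t.Lf * node w M i D z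
  | .one, M, i, _, _, Ψ, h, _, _, hd, z => by
      have h1 := One15.abs_node_le hw (h ()) hD hd M i z
      exact h1.trans (le_mul_of_one_le_left ((abs_nonneg _).trans h1) (one_le_pow₀ hβ))
  | .step _, _, 0, hd, _, _, _, _, _, _, _ => absurd hd (Nat.not_succ_le_zero _)
  | .step _, [], _ + 1, _, hi, _, _, _, _, _, _ => absurd hi (Nat.not_succ_le_zero _)
  | .step t, l :: M, i + 1, ht, hi, Ψ, h, hb, a, hd, z => by
      have h1 := abs_tE_le hw l M (eg_SK hw t M i Ψ h) ((hD.node hw M i).const_mul _)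
        (abs_SK_one hw hβ hD t M i (Nat.le_of_succ_le_succ ht) (Nat.le_of_succ_le_succ hi) Ψ h hb
          a hd) z
      rwa [tE_const_mul] at h1
  | .split s t, M, i, ht, hi, Ψ, h, hb, .inl a, hd, z => by
      have h1 := abs_SK_one hw hβ hD s M i ((le_max_left _ _).trans ht) hi _
        (fun a => h (.inl a)) (fun a => hb (.inl a)) a hd z
      have h3 := abs_SK_le hw hβ t M i _ (fun a => h (.inr a)) (fun a => hb (.inr a)) z
      rw [card_split, SK, abs_mul]
      exact (mul_le_mul h1 h3 (abs_nonneg _) ((abs_nonneg _).trans h1)).trans_eq (by ring)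
  | .split s t, M, i, ht, hi, Ψ, h, hb, .inr a, hd, z => by
      have h1 := abs_SK_one hw hβ hD t M i ((le_max_right _ _).trans ht) hi _
        (fun a => h (.inr a)) (fun a => hb (.inr a)) a hd z
      have h3 := abs_SK_le hw hβ s M i _ (fun a => h (.inl a)) (fun a => hb (.inl a)) z
      rw [card_split, SK, abs_mul]
      exact (mul_le_mul h3 h1 (abs_nonneg _) (by positivity)).trans_eq (by ring)

/-- two small clusters -/
theorem abs_SK_two (hw : Wt w) {β : ℝ} (hβ : 1 ≤ β) {D : (Ω → ℝ) → ℝ} (hD : Eg D) :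
    ∀ (t : Sh) (M : List (Lv Ω)) (i : ℕ), t.dep ≤ i → i ≤ M.length →
    ∀ (Ψ : t.Lf → (Ω → ℝ) → ℝ), (∀ a, Eg (Ψ a)) → (∀ a z, |Ψ a z| ≤ β) → ∀ a b, a ≠ b →
    (∀ z, |Ψ a z| ≤ D z) → (∀ z, |Ψ b z| ≤ D z) → ∀ z,
    |SK w t M i Ψ z| ≤ β ^ Fintype.card t.Lf * node w M i (fun z => D z ^ 2) z
  | .one, _, _, _, _, _, _, _, _, _, hab, _, _, _ => absurd rfl hab
  | .step _, _, 0, hd, _, _, _, _, _, _, _, _, _, _ => absurd hd (Nat.not_succ_le_zero _)
  | .step _, [], _ + 1, _, hi, _, _, _, _, _, _, _, _, _ => absurd hi (Nat.not_succ_le_zero _)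
  | .step t, l :: M, i + 1, ht, hi, Ψ, h, hb, a, b, hab, ha, hb', z => by
      have h1 := abs_tE_le hw l M (eg_SK hw t M i Ψ h) (((hD.pow 2).node hw M i).const_mul _)
        (abs_SK_two hw hβ hD t M i (Nat.le_of_succ_le_succ ht) (Nat.le_of_succ_le_succ hi) Ψ h hb
          a b hab ha hb') z
      rwa [tE_const_mul] at h1
  | .split s t, M, i, ht, hi, Ψ, h, hb, .inl a, .inl b, hab, ha, hb', z => by
      have h1 := abs_SK_two hw hβ hD s M i ((le_max_left _ _).trans ht) hi _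
        (fun a => h (.inl a)) (fun a => hb (.inl a)) a b (fun e => hab (congrArg _ e)) ha hb' z
      have h3 := abs_SK_le hw hβ t M i _ (fun a => h (.inr a)) (fun a => hb (.inr a)) z
      rw [card_split, SK, abs_mul]
      exact (mul_le_mul h1 h3 (abs_nonneg _) ((abs_nonneg _).trans h1)).trans_eq (by ring)
  | .split s t, M, i, ht, hi, Ψ, h, hb, .inr a, .inr b, hab, ha, hb', z => by
      have h1 := abs_SK_two hw hβ hD t M i ((le_max_right _ _).trans ht) hi _
        (fun a => h (.inr a)) (fun a => hb (.inr a)) a b (fun e => hab (congrArg _ e)) ha hb' z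
      have h3 := abs_SK_le hw hβ s M i _ (fun a => h (.inl a)) (fun a => hb (.inl a)) z
      rw [card_split, SK, abs_mul]
      exact (mul_le_mul h3 h1 (abs_nonneg _) (by positivity)).trans_eq (by ring)
  | .split s t, M, i, ht, hi, Ψ, h, hb, .inl a, .inr b, _, ha, hb', z => by
      have h1 := abs_SK_one hw hβ hD s M i ((le_max_left _ _).trans ht) hi _
        (fun a => h (.inl a)) (fun a => hb (.inl a)) a ha z
      have h2 := abs_SK_one hw hβ hD t M i ((le_max_right _ _).trans ht) hi _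
        (fun a => h (.inr a)) (fun a => hb (.inr a)) b hb' z
      rw [card_split, SK, abs_mul]
      refine (mul_le_mul h1 h2 (abs_nonneg _) ((abs_nonneg _).trans h1)).trans ?_
      refine le_trans (le_of_eq (by ring)) (mul_le_mul_of_nonneg_left
        (Eg33.sq_node hw hD M i z) (by positivity))
  | .split s t, M, i, ht, hi, Ψ, h, hb, .inr a, .inl b, _, ha, hb', z => by
      have h1 := abs_SK_one hw hβ hD s M i ((le_max_left _ _).trans ht) hi _
        (fun a => h (.inl a)) (fun a => hb (.inl a)) b hb' z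
      have h2 := abs_SK_one hw hβ hD t M i ((le_max_right _ _).trans ht) hi _
        (fun a => h (.inr a)) (fun a => hb (.inr a)) a ha z
      rw [card_split, SK, abs_mul]
      refine (mul_le_mul h1 h2 (abs_nonneg _) ((abs_nonneg _).trans h1)).trans ?_
      refine le_trans (le_of_eq (by ring)) (mul_le_mul_of_nonneg_left
        (Eg33.sq_node hw hD M i z) (by positivity))

end gen

/-- handshake -/
theorem sum_dgE {α : Type} [Fintype α] [DecidableEq α] : ∀ E : List (α × α),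
    ∑ x, dgE E x = 2 * E.length
  | [] => by simp [dgE_nil]
  | (a, b) :: E => by
      simp only [dgE_cons, Finset.sum_add_distrib, sum_dgE E, Finset.sum_ite_eq, Finset.mem_univ,
        if_true, List.length_cons]
      ring

theorem odd_pair {α : Type} [Fintype α] [DecidableEq α] (E : List (α × α)) {x : α}
    (h : Odd (dgE E x)) : ∃ y, x ≠ y ∧ Odd (dgE E y) := by
  by_contra hc
  push Not at hc
  have h1 : Even (∑ y ∈ Finset.univ.erase x, dgE E y) :=
    Finset.even_sum _ fun y hy => Nat.not_odd_iff_even.1 (hc y (Finset.ne_of_mem_erase hy).symm)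
  have h2 := sum_dgE E
  rw [← Finset.add_sum_erase _ _ (Finset.mem_univ x)] at h2
  exact Nat.not_even_iff_odd.2 (h.add_even h1) (h2 ▸ even_two_mul _)

theorem dgE_le {α : Type} [Fintype α] [DecidableEq α] (E : List (α × α)) (x : α) :
    dgE E x ≤ 2 * E.length :=
  (Finset.single_le_sum (f := dgE E) (fun _ _ => Nat.zero_le _) (Finset.mem_univ x)).trans_eq
    (sum_dgE E)

section site
open Crest.ProbabilityR.SpinGlassDynamics (spin)
open Crest.Agent.T157.Casc.C One15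

variable {L : List (Lv Bool)} {ℓ : List (ℝ × ℝ)}

/-- second moment of the site field -/
theorem node_xs_sq (H : List.Forall₂ (Rk1 spin) L ℓ) (hM : Mono 0 L) (j : ℕ) {σ : ℝ} (h0 : 0 ≤ σ)
    (h1 : σ ≤ 1) (hσ : R339.Var.TT (ℓ.take j) ≤ σ) :
    node (fun _ => 1) L j (fun z => xs z ^ 2) 0 ≤ 40 * σ := by
  refine le_of_forall_pos_le_add fun ε hε => ?_
  have hd : 0 < min 1 (ε / 40) := lt_min one_pos (by positivity)
  have h2 := node_pow H hM j 2 (σ := σ + min 1 (ε / 40)) (by linarith) (by linarith)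
  simp only [sq_abs] at h2
  rw [sq_sqrt (by linarith)] at h2
  have h3 : √(σ + min 1 (ε / 40)) ≤ 3 / 2 :=
    sqrt_le_iff.2 ⟨by norm_num, by linarith [min_le_left 1 (ε / 40)]⟩
  have h4 : exp (1 / 2 + √(σ + min 1 (ε / 40))) ≤ 10 := by
    refine (exp_le_exp.2 (show _ ≤ 1 + 1 by linarith)).trans ?_
    rw [exp_add]
    nlinarith [exp_one_lt_d9, exp_pos 1]
  have h5 := min_le_right 1 (ε / 40)
  refine h2.trans ?_
  have h6 : ((Nat.factorial 2 : ℕ) : ℝ) = 2 := by norm_num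
  rw [h6]
  nlinarith [mul_le_mul_of_nonneg_right h4 (show 0 ≤ σ + min 1 (ε / 40) by linarith)]

/-- **parity on a skeleton**: the cluster values are frozen at zero field, for any degrees -/
theorem SK_par (H : List.Forall₂ (Rk1 spin) L ℓ) (hM : Mono 0 L) {i : ℕ} (hi : i ≤ L.length)
    {σ : ℝ} (h0 : 0 ≤ σ) (h1 : σ ≤ 1) (hσ : R339.Var.TT (ℓ.take i) ≤ σ) {t : Sh} (ht : t.dep ≤ i)
    (E : Ed t) {β : ℝ} (hβ : 1 ≤ β) {g : t.Lf → ℝ → ℝ} (he : ∀ a, Eg fun z => g a (xs z))
    (hb : ∀ a y, |g a y| ≤ β) (ho : ∀ a, Odd (dgE E a) → ∀ y, |g a y| ≤ β * |y|)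
    (hv : ∀ a, Even (dgE E a) → ∀ y, |g a y - g a 0| ≤ β * y ^ 2) :
    |SK (fun _ => 1) t L i (fun a z => g a (xs z)) 0 - ∏ a, g a 0| ≤
      Fintype.card t.Lf * β ^ (Fintype.card t.Lf + 2) * (40 * σ) := by
  have hx := node_xs_sq H hM i h0 h1 hσ
  have hc : (1 : ℝ) ≤ Fintype.card t.Lf := Nat.one_le_cast.2 (Fintype.card_pos_iff.2 ⟨t.fst⟩)
  by_cases h : ∃ a, Odd (dgE E a)
  · obtain ⟨a, ha⟩ := h
    obtain ⟨b, hab, hb'⟩ := odd_pair E ha
    have h2 := abs_SK_two w1 hβ (lg_xs.eg.abs.const_mul β) t L i ht hi _ he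
      (fun a z => hb a _) a b hab (fun z => ho a ha _) (fun z => ho b hb' _) 0
    have h3 : g a 0 = 0 := by simpa using ho a ha 0
    rw [Finset.prod_eq_zero (Finset.mem_univ a) h3, sub_zero]
    simp only [mul_pow, sq_abs, node_const_mul] at h2
    refine h2.trans ?_
    rw [← mul_assoc, ← pow_add]
    exact mul_le_mul (le_mul_of_one_le_left (by positivity) hc) hx
      (node_nonneg _ (fun z => sq_nonneg _) _ _ _) (by positivity)
  · push Not at h
    have h2 := abs_SK_sub w1 hβ ((lg_xs.eg.pow 2).const_mul β) t L i ht hi _ (fun a => g a 0) he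
      (fun a z => hb a _) (fun a => hb a 0)
      (fun a z => hv a (Nat.not_odd_iff_even.1 (h a)) _) 0
    simp only [node_const_mul] at h2
    refine h2.trans ?_
    rw [← mul_assoc, mul_assoc _ _ β, ← pow_succ]
    exact mul_le_mul (mul_le_mul_of_nonneg_left (pow_le_pow_right₀ hβ (by omega)) (by positivity))
      hx (node_nonneg _ (fun z => sq_nonneg _) _ _ _) (by positivity)

end site

end Crest.Agent.T156.Cas.Y20

end
end

-- ▼ part T156/CY3C_20
section

/-!
# Row 156 (helper20): the frozen word of three low edges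

With the cluster values frozen, the skeleton sum is a multiple of the triangle sum `C3`.
-/

set_option autoImplicit false
set_option linter.all false

noncomputable section

namespace Crest.Agent.T156.Cas.Y20

open MeasureTheory Real Set Filter Topology
open Crest.Agent.T157.E Crest.Agent.T157.Casc Crest.Agent.T157.SL
open Wt87 Leg51 Lsg89
open Low51 (prE prE_cons prE_nil)
open Tay38 (emb_ne emb_inj two_ne)

variable {Ω : Type} [Fintype Ω] {w : Ω → ℝ} {L : List (Lv Ω)} {h : Ω → ℝ} {U : ℕ → Ω → Ω → ℝ}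
  {i : ℕ} {t : Sh} {c G : ℕ → ℝ}

/-- the triangle -/
def T3 (w : Ω → ℝ) (L : List (Lv Ω)) (h : Ω → ℝ) (U : ℕ → Ω → Ω → ℝ) (t : Sh) (u v x : t.Lf) : ℝ :=
  TE w t L h fun y => U (t.shr u v L.length) (y u) (y v) *
    (U (t.shr u x L.length) (y u) (y x) * U (t.shr v x L.length) (y v) (y x))

/-- the bulk factor of three edges -/
def Bk (w : Ω → ℝ) (L : List (Lv Ω)) (h : Ω → ℝ) (U : ℕ → Ω → Ω → ℝ) (t : Sh) (E : Ed t) : ℝ :=
  TE w t L h (prE L.length [U, U, U] E)

/-- the frozen site factor: `G` on the marked cluster, `c` on the others -/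
def S0 (c G : ℕ → ℝ) (t : Sh) (m : t.Lf) (E : Ed t) : ℝ :=
  ∏ a, if a = m then G (dgE E a) else c (dgE E a)

/-- the frozen functional -/
def V0 (w : Ω → ℝ) (L : List (Lv Ω)) (h : Ω → ℝ) (U : ℕ → Ω → Ω → ℝ) (c G : ℕ → ℝ) : VF :=
  fun t m E => Bk w L h U t E * S0 c G t m E

/-- the triangle on a pair split at `j` and a third leaf -/
def Tg (w : Ω → ℝ) (L : List (Lv Ω)) (h : Ω → ℝ) (U : ℕ → Ω → Ω → ℝ) (j : ℕ) (a : (Sh.two j).Lf)
    (k : ℕ) : ℝ := T3 w L h U ((Sh.two j).graft a k) ((Sh.two j).emb a k (Sh.twoL j))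
      ((Sh.two j).emb a k (Sh.twoR j)) ((Sh.two j).nw a k)

/-- third leaf low -/
def C2 (w : Ω → ℝ) (L : List (Lv Ω)) (h : Ω → ℝ) (U : ℕ → Ω → Ω → ℝ) (i j : ℕ) : ℝ :=
  ∑ a, ∑ k ∈ Finset.range (i + 1), cw (Sh.two j) L a k * Tg w L h U j a k

/-- the triangle sum -/
def C3 (w : Ω → ℝ) (L : List (Lv Ω)) (h : Ω → ℝ) (U : ℕ → Ω → Ω → ℝ) (i : ℕ) : ℝ :=
  ∑ j ∈ Finset.range (i + 1), dm L 0 j * C2 w L h U i j

theorem ev_V0 (hc : ∀ d, Odd d → c d = 0) (hG : ∀ d, Odd d → G d = 0) : Ev (V0 w L h U c G) :=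
  fun t m E x hx => mul_eq_zero_of_right _ (Finset.prod_eq_zero (Finset.mem_univ x) (by
    split_ifs
    exacts [hG _ hx, hc _ hx]))

theorem T3_swap (hU : ∀ j x y, U j x y = U j y x) (u v x : t.Lf) :
    T3 w L h U t v u x = T3 w L h U t u v x :=
  congrArg (TE w t L h) (funext fun y => by rw [shr_comm t v u, hU _ (y v) (y u)]; ring)

theorem T3_rot (hU : ∀ j x y, U j x y = U j y x) (u v x : t.Lf) :
    T3 w L h U t v x u = T3 w L h U t u v x :=
  congrArg (TE w t L h) (funext fun y => by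
    rw [shr_comm t v u, hU _ (y v) (y u), shr_comm t x u, hU _ (y x) (y u)]; ring)

theorem T3_lab (hw : Wt w) {t' : Sh} {u v x : t.Lf} {u' v' x' : t'.Lf} (h1 : u ≠ v) (h2 : u ≠ x)
    (h3 : v ≠ x) (k1 : u' ≠ v') (k2 : u' ≠ x') (k3 : v' ≠ x')
    (e1 : t.shr u v L.length = t'.shr u' v' L.length)
    (e2 : t.shr u x L.length = t'.shr u' x' L.length)
    (e3 : t.shr v x L.length = t'.shr v' x' L.length) :
    T3 w L h U t u v x = T3 w L h U t' u' v' x' := by
  have inj : ∀ {α : Type} {u v x : α}, u ≠ v → u ≠ x → v ≠ x →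
      Function.Injective (![u, v, x] : Fin 3 → α) := fun h1 h2 h3 a b e => by
    fin_cases a <;> fin_cases b <;> simp_all
  have := TE_lab hw t t' L h (inj h1 h2 h3) (inj k1 k2 k3) (fun a b e => by
      fin_cases a <;> fin_cases b <;>
        first | exact absurd rfl e | simp [e1, e2, e3, shr_comm t v u, shr_comm t x u, shr_comm t x v, shr_comm t' v' u', shr_comm t' x' u', shr_comm t' x' v'])
    fun y => U (t.shr u v L.length) (y 0) (y 1) *
      (U (t.shr u x L.length) (y 0) (y 2) * U (t.shr v x L.length) (y 1) (y 2))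
  rw [T3, T3, ← e1, ← e2, ← e3]
  exact this

theorem tri_V0 (hU : ∀ j x y, U j x y = U j y x) : Tri (V0 w L h U c G) fun t m u v x =>
    T3 w L h U t u v x * S0 c G t m [(u, v), (u, x), (v, x)] := by
  intro t m u v x _ _ _ e e' he he'
  constructor
  all_goals
    refine congrArg₂ (· * ·) (congrArg (TE w t L h) (funext fun y => ?_))
      (Finset.prod_congr rfl fun a _ => ?_)
    · rcases he with rfl | rfl <;> rcases he' with rfl | rfl <;>
        simp only [prE_cons, prE_nil, shr_comm t x u, shr_comm t x v, hU _ (y x) (y u),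
          hU _ (y x) (y v)] <;> ring
    · have : ∀ E : Ed t, dgE E a = dgE [(u, v), (u, x), (v, x)] a →
          (if a = m then G (dgE E a) else c (dgE E a)) = if a = m then
            G (dgE [(u, v), (u, x), (v, x)] a) else c (dgE [(u, v), (u, x), (v, x)] a) :=
        fun E e => by rw [e]
      refine this _ ?_
      rcases he with rfl | rfl <;> rcases he' with rfl | rfl <;> simp only [dgE_cons] <;> omega

theorem prod_three {α : Type} [Fintype α] [DecidableEq α] {u v x : α} (h1 : u ≠ v) (h2 : u ≠ x)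
    (h3 : v ≠ x) (hc : ∀ a, a = u ∨ a = v ∨ a = x) (F : α → ℝ) : ∏ a, F a = F u * F v * F x := by
  have e : (Finset.univ : Finset α) = {u, v, x} := by
    ext a
    simpa using hc a
  rw [e, Finset.prod_insert (by simp [h1, h2]), Finset.prod_pair h3, mul_assoc]

theorem S0_three {u v x m : t.Lf} (h1 : u ≠ v) (h2 : u ≠ x) (h3 : v ≠ x)
    (hc : ∀ a, a = u ∨ a = v ∨ a = x) : S0 c G t m [(u, v), (u, x), (v, x)] = G 2 * c 2 ^ 2 := by
  have := h1.symm
  have := h2.symm
  have := h3.symm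
  rw [S0, prod_three h1 h2 h3 hc]
  rcases hc m with rfl | rfl | rfl <;> simp [dgE_cons, dgE_nil, *] <;> ring

theorem gr_cases (j : ℕ) (a : (Sh.two j).Lf) (k : ℕ) (b : ((Sh.two j).graft a k).Lf) :
    b = (Sh.two j).emb a k (Sh.twoL j) ∨ b = (Sh.two j).emb a k (Sh.twoR j) ∨
      b = (Sh.two j).nw a k := by
  rcases graft_cases _ a k b with ⟨b, rfl⟩ | rfl
  · rcases two_cases j b with rfl | rfl <;> simp
  · simp

theorem erase_two {j : ℕ} {u v : (Sh.two j).Lf} (h : u ≠ v) :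
    (Finset.univ.erase u).erase v = ∅ := by
  ext a
  rcases two_cases j a with rfl | rfl <;> rcases two_cases j u with rfl | rfl <;>
    rcases two_cases j v with rfl | rfl <;> simp_all

variable {ε : ℝ}

/-- two more edges on a low pair -/
theorem val3 (hU : ∀ j x y, U j x y = U j y x) (hc : ∀ d, Odd d → c d = 0)
    (hG : ∀ d, Odd d → G d = 0) (j : ℕ) (m : (Sh.two j).Lf) {e : (Sh.two j).Lf × (Sh.two j).Lf}
    (he : e = (Sh.twoL j, Sh.twoR j) ∨ e = (Sh.twoR j, Sh.twoL j)) :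
    stp ε i L (stp ε i L (V0 w L h U c G)) (Sh.two j) m [e] =
      ε * (8 * (G 2 * c 2 ^ 2) * C2 w L h U i j) := by
  have hn := two_ne j
  rcases he with rfl | rfl
  · rw [stp_stp (ev_V0 hc hG) (tri_V0 hU) m hn, erase_two hn, Finset.sum_empty, mul_zero, zero_add,
      C2, Finset.mul_sum _ _ (8 * _)]
    refine mc (Finset.sum_congr rfl fun a _ => ?_)
    rw [Finset.mul_sum]
    refine Finset.sum_congr rfl fun k _ => ?_
    rw [S0_three ((emb_inj _ a k).ne hn) (emb_ne _ a k _) (emb_ne _ a k _) (gr_cases j a k), Tg]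
    ring
  · rw [stp_stp (ev_V0 hc hG) (tri_V0 hU) m hn.symm, erase_two hn.symm, Finset.sum_empty, mul_zero,
      zero_add, C2, Finset.mul_sum _ _ (8 * _)]
    refine mc (Finset.sum_congr rfl fun a _ => ?_)
    rw [Finset.mul_sum]
    refine Finset.sum_congr rfl fun k _ => ?_
    rw [S0_three ((emb_inj _ a k).ne hn.symm) (emb_ne _ a k _) (emb_ne _ a k _)
      fun b => by have := gr_cases j a k b; tauto, T3_swap hU, Tg]
    ring

theorem sum_lo {n : ℕ} (hi : i ≤ n) (F : ℕ → ℝ) :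
    ∑ k ∈ Finset.range (n + 1), (if k ≤ i then F k else 0) = ∑ k ∈ Finset.range (i + 1), F k := by
  rw [← Finset.sum_filter]
  exact Finset.sum_congr (by ext k; simp only [Finset.mem_filter, Finset.mem_range]; omega)
    fun _ _ => rfl

/-- the third leaf on the left path or on the right one -/
theorem C2_eq (hw : Wt w) (hi : i ≤ L.length) {j : ℕ} (hj : j ≤ i) :
    C2 w L h U i j = ∑ k ∈ Finset.range (i + 1), dm L 0 k * Tg w L h U j (Sh.twoL j) k +
      ∑ r ∈ Finset.range (i - j + 1), dm (L.drop j) 0 r * Tg w L h U j (Sh.twoR j) (r + j) := by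
  have hn := two_ne j
  have nc : NC (Sh.two j) fun a k => if k ≤ i then Tg w L h U j a k else 0 := fun a b k e => by
    refine if_congr Iff.rfl (T3_lab hw ((emb_inj _ a k).ne hn) (emb_ne _ a k _) (emb_ne _ a k _)
      ((emb_inj _ b k).ne hn) (emb_ne _ b k _) (emb_ne _ b k _) (by rw [shr_emb, shr_emb]) ?_ ?_) rfl
    all_goals
      rw [shr_nw, shr_nw]
      exact shr_congr _ (shr_lt _ a b e (min_le_left _ _)) _
  have h1 := (sum_cw_eq (Sh.two j) L _).trans ((Wn_graft' L .one () (hj.trans hi) nc).trans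
    (ac (Wn_one L fun _ k => if k ≤ i then Tg w L h U j (Sh.twoL j) k else 0) rfl))
  simp only [mul_ite, mul_zero, sum_lo hi] at h1
  refine h1.trans (ac rfl ?_)
  rw [← sum_lo (i := i - j) (n := L.length - j) (by omega)]
  exact Finset.sum_congr rfl fun r _ => if_congr (by omega) rfl rfl

theorem two_T3 (hw : Wt w) (hU : ∀ j x y, U j x y = U j y x) (hi : i ≤ L.length) :
    two i L .one (fun τ _ _ => T3 w L h U τ.sh τ.p τ.q (τ.e ())) = C3 w L h U i := by
  have e : two i L .one (fun τ _ _ => T3 w L h U τ.sh τ.p τ.q (τ.e ())) =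
      ∑ j ∈ Finset.range (i + 1), dm L 0 j *
        (∑ k ∈ Finset.range (i + 1), dm L 0 k * Tg w L h U k (Sh.twoL k) j +
        ∑ r ∈ Finset.range (i - j + 1), dm (L.drop j) 0 r * Tg w L h U j (Sh.twoR j) (r + j)) := by
    simp only [two, Wt87.sum_one, cw_one]
    refine Finset.sum_congr rfl fun j _ => mc (ac (Finset.sum_congr rfl fun k _ => mc ?_)
      (Finset.sum_congr rfl fun r _ => mc ?_))
    · exact (T3_swap hU _ _ _).trans (T3_rot hU _ _ _)
    · exact T3_rot hU _ _ _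
  rw [e, C3, Finset.sum_congr rfl fun j hj => mc (a := dm L 0 j)
    (C2_eq hw hi (Nat.lt_succ_iff.1 (Finset.mem_range.1 hj)))]
  simp only [mul_add, Finset.sum_add_distrib, Finset.mul_sum]
  rw [Finset.sum_comm]
  exact ac (Finset.sum_congr rfl fun _ _ => Finset.sum_congr rfl fun _ _ => mul_left_comm _ _ _) rfl

theorem two_sub (Φ Ψ : GT t → Bool → Bool → ℝ) (r : ℝ) :
    two i L t Φ - r * two i L t Ψ = two i L t fun τ p q => Φ τ p q - r * Ψ τ p q := by
  simp only [two, mul_sub, mul_add, Finset.sum_sub_distrib, Finset.sum_add_distrib, Finset.mul_sum,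
    mul_left_comm r]
  ring

theorem abs_S0_le {β : ℝ} (hβ : 1 ≤ β) {N : ℕ} (hc : ∀ d ≤ N, |c d| ≤ β) (hG : ∀ d ≤ N, |G d| ≤ β)
    (m : t.Lf) {E : Ed t} (hE : 2 * E.length ≤ N) {r : ℕ} (hr : Fintype.card t.Lf ≤ r) :
    |S0 c G t m E| ≤ β ^ r := by
  rw [S0, Finset.abs_prod]
  refine (Finset.prod_le_prod (fun _ _ => abs_nonneg _) fun a _ => (?_ : _ ≤ β)).trans
    ((Finset.prod_const β).trans_le (pow_le_pow_right₀ hβ hr))
  split_ifs
  exacts [hG _ ((dgE_le E a).trans hE), hc _ ((dgE_le E a).trans hE)]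

/-- three edges on a marked cluster -/
theorem test3 (hw : Wt w) (hL : Mono 0 L) (hi : i ≤ L.length) (hU : ∀ j x y, U j x y = U j y x)
    (hc : ∀ d, Odd d → c d = 0) (hG : ∀ d, Odd d → G d = 0) {β b : ℝ} (hβ : 1 ≤ β)
    (hc' : ∀ d ≤ 6, |c d| ≤ β) (hG' : ∀ d ≤ 6, |G d| ≤ β) (hb : 0 ≤ b)
    (hT : ∀ t (u v x : t.Lf), u ≠ v → u ≠ x → v ≠ x → |T3 w L h U t u v x| ≤ b) :
    |stp (-1) i L (stp (-1) i L (stp (-1) i L (V0 w L h U c G))) .one () [] -
      24 * (G 2 * c 2 ^ 2) * C3 w L h U i| ≤ 48 * ex L i ^ 3 * (b * β ^ 4) := by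
  have hx := ex_nn hL i
  rw [show ∀ V, stp (-1) i L V .one () [] =
    lsg (-1) i L .one fun τ _ _ => V τ.sh (τ.e ()) (nx τ []) from fun _ => rfl, lsg_eq, old_one, one_one]
  have e1 : ∑ j ∈ Finset.range (i + 1), dm L 0 j *
      (stp (-1) i L (stp (-1) i L (V0 w L h U c G)) (GT.g1 .one () j ()).sh
          ((GT.g1 .one () j ()).e ()) (nx (GT.g1 .one () j ()) []) +
        stp (-1) i L (stp (-1) i L (V0 w L h U c G)) (GT.g1' .one () j ()).sh
          ((GT.g1' .one () j ()).e ()) (nx (GT.g1' .one () j ()) [])) =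
      -(16 * (G 2 * c 2 ^ 2) * C3 w L h U i) := by
    rw [C3, Finset.mul_sum, ← Finset.sum_neg_distrib]
    refine Finset.sum_congr rfl fun j _ => (mc (ac (val3 hU hc hG j _ (.inl rfl))
      (val3 hU hc hG j _ (.inr rfl)))).trans (by ring)
  rw [e1, show ∀ A T : ℝ, 0 + -1 * -(16 * A * C3 w L h U i) + T - 24 * A * C3 w L h U i =
    T - 8 * A * C3 w L h U i from fun A T => by ring, ← two_T3 hw hU hi, two_sub]
  refine (abs_two_le hL (β := 24 * ex L i * (b * β ^ 4)) (by positivity) fun τ hτ => ?_).trans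
    (le_of_eq (by rw [show Fintype.card Sh.one.Lf = 1 from rfl]; push_cast; ring))
  have n1 := LM.ne hτ
  have n2 := (LM.newp hτ ()).symm
  have n3 := (LM.newq hτ ()).symm
  have hk : ∀ a, a = τ.p ∨ a = τ.q ∨ a = τ.e () := by
    cases hτ with
    | g2 a b => exact fun x => by have := gr_cases _ _ _ x; tauto
    | g3 a => exact fun x => by have := gr_cases _ _ _ x; tauto
  have hcard : Fintype.card τ.sh.Lf = 3 := by
    cases hτ with
    | g2 a b => exact (card_graft _ _ _).trans (congrArg (· + 1) (card_two _))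
    | g3 a => exact (card_graft _ _ _).trans (congrArg (· + 1) (card_two _))
  have e2 : (Finset.univ.erase τ.p).erase τ.q = {τ.e ()} := by
    ext a
    rcases hk a with rfl | rfl | rfl <;> simp [n1, n2, n3, n1.symm, n2.symm, n3.symm]
  rw [show nx τ [] = [(τ.p, τ.q)] from rfl, stp_stp (ev_V0 hc hG) (tri_V0 hU) _ n1, e2,
    Finset.sum_singleton, S0_three n1 n2 n3 hk,
    show ∀ A T R : ℝ, 8 * (T * A) + -1 * R - 8 * A * T = -R from fun A T R => by ring, abs_neg]
  refine (abs_cw_lo hL τ.sh i (β := 8 * (b * β ^ 4)) (by positivity) fun a k _ => ?_).trans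
    (le_of_eq (by rw [hcard]; push_cast; ring))
  rw [abs_mul, abs_mul, abs_of_pos (by norm_num : (0 : ℝ) < 8)]
  exact mul_le_mul_of_nonneg_left (mul_le_mul
    (hT _ _ _ _ ((emb_inj _ a k).ne n1) (emb_ne _ a k _) (emb_ne _ a k _))
    (abs_S0_le hβ hc' hG' _ le_rfl (by rw [card_graft, hcard])) (abs_nonneg _) hb) (by norm_num)

end Crest.Agent.T156.Cas.Y20

end
end

-- ▼ part T156/CY3D_20
section

/-!
# Row 156 (helper20): transfer from the cluster form, marked clusters, dictionary on `CD`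
-/

set_option autoImplicit false
set_option linter.all false

noncomputable section

namespace Crest.Agent.T156.Cas.Y20

open MeasureTheory Real Set Filter Topology
open Crest.Agent.T157.E Crest.Agent.T157.Casc Crest.Agent.T157.SL
open Wt87 Leg51 Lsg89
open Low51 (prE prE_cons prE_nil CW LE cs' lo EF)
open Tay38 (emb_ne emb_inj two_ne)

section transfer
variable {Θ : Type} {i : ℕ} {M : List (Lv Θ)} {t : Sh} {ε : ℝ}

theorem lsg_sub (Φ Ψ : GT t → Bool → Bool → ℝ) :
    lsg ε i M t Φ - lsg ε i M t Ψ = lsg ε i M t fun τ p q => Φ τ p q - Ψ τ p q := by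
  have h1 := lsg_add (ε := ε) (i := i) (M := M) Φ fun τ p q => -1 * Ψ τ p q
  rw [lsg_mul] at h1
  simpa only [neg_one_mul, ← sub_eq_add_neg] using h1.symm


end transfer

theorem iter_sum {α : Type} (A : Finset α) (c : α → ℝ) {C : ℝ} : ∀ (n : ℕ) (F : α → ℝ → ℝ),
    (∀ a ∈ A, Sm n C (F a)) → iteratedDeriv n (fun y => ∑ a ∈ A, c a * F a y) =
      fun y => ∑ a ∈ A, c a * iteratedDeriv n (F a) y
  | 0, _, _ => by simp
  | n + 1, F, h => by
      have e : deriv (fun y => ∑ a ∈ A, c a * F a y) = fun y => ∑ a ∈ A, c a * deriv (F a) y :=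
        funext fun y => (HasDerivAt.fun_sum fun a ha => ((h a ha).der.1 y).const_mul (c a)).deriv
      simp only [iteratedDeriv_succ']
      rw [e, iter_sum A c n _ fun a ha => (h a ha).der.2]

section site
open Crest.ProbabilityR.SpinGlassDynamics (spin)
open Crest.Agent.T157.Casc.C One15

variable {l : Lv Bool} {L : List (Lv Bool)} {s : Sh} {F : (s.Lf → Bool) → ℝ}

/-- parity of a marked cluster in the incoming field -/
theorem MG_neg (hL : Fl (l :: L)) (hs : s.br = 1) (hF : ∀ x, F (fun a => !x a) = F x) :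
    ∀ (k : ℕ) (y : ℝ), MG (l :: L) s F k ((-y) • spin) = (-1) ^ k * MG (l :: L) s F k (y • spin)
  | 0, y => by
      have := TE_flip hL s F y
      simp only [hF] at this
      rw [pow_zero, one_mul]
      exact this
  | k + 1, y => by
      have h1 := (lad_MG l L hs F k (-y)).comp y (hasDerivAt_neg y)
      have h2 := (lad_MG l L hs F k y).const_mul ((-1) ^ k)
      have e : (fun y : ℝ => MG (l :: L) s F k (y • spin)) ∘ Neg.neg =
          fun y : ℝ => (-1) ^ k * MG (l :: L) s F k (y • spin) := funext (MG_neg hL hs hF k)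
      rw [e] at h1
      have h3 := h1.unique h2
      simp only [MG_neg hL hs hF k, gs_neg hL 0] at h3
      linear_combination -h3

theorem MG_odd_zero (hL : Fl (l :: L)) (hs : s.br = 1) (hF : ∀ x, F (fun a => !x a) = F x) {k : ℕ}
    (hk : Odd k) : MG (l :: L) s F k ((0 : ℝ) • spin) = 0 := by
  have := MG_neg hL hs hF k 0
  rw [neg_zero, hk.neg_one_pow] at this
  linarith

variable {j : ℕ} {F : ((Sh.two (j + 1)).Lf → Bool) → ℝ}

theorem abs_MG_odd (hL : Fl (l :: L)) (hB : Mono 0 (l :: L)) (hF : ∀ x, F (fun a => !x a) = F x)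
    (hF' : ∀ x, |F x| ≤ 2) {k : ℕ} (hk : Odd k) (y : ℝ) :
    |MG (l :: L) (.two (j + 1)) F k (y • spin)| ≤ cS bM 1 k * |y| := by
  have := Lad.lip (abs_m_le hB) bM_nn (lad_gs l L) (lad_MG l L (s := .two (j + 1)) rfl F)
    (abs_gs_bM hB) (fun k y => abs_MG_two hB hF' k _) k y
  simpa only [MG_odd_zero hL (s := .two (j + 1)) rfl hF hk, sub_zero] using this

theorem abs_MG_even (hL : Fl (l :: L)) (hB : Mono 0 (l :: L)) (hF : ∀ x, F (fun a => !x a) = F x)
    (hF' : ∀ x, |F x| ≤ 2) {k : ℕ} (hk : Even k) (y : ℝ) :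
    |MG (l :: L) (.two (j + 1)) F k (y • spin) - MG (l :: L) (.two (j + 1)) F k ((0 : ℝ) • spin)| ≤
      (cS bM 1 (k + 1) + 8 * bM k) * y ^ 2 := by
  have c0 := cS_nn bM_nn 1 (k + 1)
  have c1 := bM_nn k
  refine (abs_le_of_deriv (lad_MG l L (s := .two (j + 1)) rfl F k) y
    (C := (cS bM 1 (k + 1) + 8 * bM k) * |y|) fun u hu => ?_).trans_eq
      (by rw [mul_assoc, abs_mul_abs_self, sq])
  have h1 := abs_MG_odd hL hB hF hF' hk.add_one u
  have h2 := abs_MG_two hB hF' k (u • spin)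
  have h3 := abs_gs_odd hL hB Even.zero u
  have h4 : cg (0 + 1) = 4 := by norm_num [cg]
  rw [h4] at h3
  refine (abs_sub _ _).trans ?_
  rw [abs_mul, abs_mul]
  have := mul_le_mul (mul_le_mul (abs_m_le hB) h3 (abs_nonneg _) zero_le_one) h2 (abs_nonneg _)
    (by positivity)
  have h6 := mul_le_mul_of_nonneg_left hu c0
  have h7 := mul_le_mul_of_nonneg_left hu c1
  nlinarith

/-- one constant for all cluster values with at most six legs -/
def cB6 : ℝ := 1 + ∑ k ∈ Finset.range 7,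
  (cg k + 2 * cg (k + 1) + 10 * cg (k + 2) + bM k + cS bM 1 k + (cS bM 1 (k + 1) + 8 * bM k))

theorem cB6_parts (k : ℕ) : 0 ≤ cg k ∧ 0 ≤ 2 * cg (k + 1) ∧ 0 ≤ 10 * cg (k + 2) ∧ 0 ≤ bM k ∧
    0 ≤ cS bM 1 k ∧ 0 ≤ cS bM 1 (k + 1) + 8 * bM k := by
  have := one_le_cg k
  have := one_le_cg (k + 1)
  have := one_le_cg (k + 2)
  have := bM_nn k
  have := cS_nn bM_nn 1 (k + 1)
  exact ⟨by linarith, by linarith, by linarith, by linarith, cS_nn bM_nn 1 k, by linarith⟩

theorem le_cB6 {k : ℕ} (hk : k ≤ 6) : cg k ≤ cB6 ∧ 2 * cg (k + 1) ≤ cB6 ∧ 10 * cg (k + 2) ≤ cB6 ∧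
    bM k ≤ cB6 ∧ cS bM 1 k ≤ cB6 ∧ cS bM 1 (k + 1) + 8 * bM k ≤ cB6 := by
  have h := Finset.single_le_sum (f := fun k => cg k + 2 * cg (k + 1) + 10 * cg (k + 2) + bM k +
    cS bM 1 k + (cS bM 1 (k + 1) + 8 * bM k)) (fun k _ => by
      obtain ⟨a, b, c, d, e, f⟩ := cB6_parts k
      linarith) (Finset.mem_range.2 (Nat.lt_succ_of_le hk))
  obtain ⟨a, b, c, d, e, f⟩ := cB6_parts k
  unfold cB6
  refine ⟨?_, ?_, ?_, ?_, ?_, ?_⟩ <;> linarith

theorem one_le_cB6 : 1 ≤ cB6 := (one_le_cg 0).trans (le_cB6 (Nat.zero_le 6)).1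

/-- the value of a plain cluster of degree `d` -/
def gd (B : List (Lv Bool)) (d : ℕ) (y : ℝ) : ℝ := gs B (d - 1) y

theorem gd_facts (hL : Fl (l :: L)) (hB : Mono 0 (l :: L)) {d : ℕ} (h1 : 1 ≤ d) (hd : d ≤ 6)
    (y : ℝ) : |gd (l :: L) d y| ≤ cB6 ∧ (Odd d → |gd (l :: L) d y| ≤ cB6 * |y|) ∧
      (Even d → |gd (l :: L) d y - gd (l :: L) d 0| ≤ cB6 * y ^ 2) := by
  obtain ⟨k, rfl⟩ := Nat.exists_eq_add_of_le' h1
  obtain ⟨a, b, c, -⟩ := le_cB6 (show k ≤ 6 by omega)
  refine ⟨(abs_gs_le hB k y).trans a, fun h => (abs_gs_odd hL hB (by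
    simpa [Nat.odd_add_one] using h) y).trans (mul_le_mul_of_nonneg_right b (abs_nonneg _)),
    fun h => (abs_gs_even hL hB (by simpa [Nat.even_add_one] using h) y).trans
      (mul_le_mul_of_nonneg_right c (sq_nonneg _))⟩

theorem MG_facts (hL : Fl (l :: L)) (hB : Mono 0 (l :: L)) (hF : ∀ x, F (fun a => !x a) = F x)
    (hF' : ∀ x, |F x| ≤ 2) {d : ℕ} (hd : d ≤ 6) (y : ℝ) :
    |MG (l :: L) (.two (j + 1)) F d (y • spin)| ≤ cB6 ∧
      (Odd d → |MG (l :: L) (.two (j + 1)) F d (y • spin)| ≤ cB6 * |y|) ∧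
      (Even d → |MG (l :: L) (.two (j + 1)) F d (y • spin) -
        MG (l :: L) (.two (j + 1)) F d ((0 : ℝ) • spin)| ≤ cB6 * y ^ 2) := by
  obtain ⟨-, -, -, a, b, c⟩ := le_cB6 hd
  exact ⟨(abs_MG_two hB hF' d _).trans a, fun h => (abs_MG_odd hL hB hF hF' h y).trans (by gcongr),
    fun h => (abs_MG_even hL hB hF hF' h y).trans (by gcongr)⟩

end site

/-! ### dictionary on `CD` -/

section cd
open Crest.ProbabilityR.SpinGlassDynamics (spin)
open Crest.Agent.T157.G1 (ov)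
open C40 Mul55 One15

variable {D : CD} {τ0 : ℝ}

/-- the bulk kernel of `aL` -/
def UL (D : CD) : ℕ → Cube D.n → Cube D.n → ℝ := (lt D.n D.β D.M D.q D.cl aL).1

theorem UL_eq (h : D.Ok τ0) (j : ℕ) (x y : Cube D.n) : UL D j x y = D.KR j x y / 2 := by
  by_cases hj : j ≤ D.J
  · have e : UL D j = oUb D.n D.β D.M D.q true j := if_pos (decide_eq_true hj)
    simp only [e, CD.KR, hj, if_true, oUb, oU, h.qlo j hj]
    ring
  · simp [UL, lt, cut, CD.cl, CD.KR, hj]

theorem ov_comm20 {n : ℕ} (x y : Cube n) : ov x y = ov y x := by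
  simp only [ov]
  rw [dotProduct_comm]

theorem UL_symm (h : D.Ok τ0) (j : ℕ) (x y : Cube D.n) : UL D j x y = UL D j y x := by
  simp only [UL_eq h, CD.KR, ov_comm20 x y]

theorem UL_hi (h : D.Ok τ0) {j : ℕ} (hj : D.J < j) : UL D j = 0 := by
  funext x y
  simp [UL_eq h, CD.KR, hj.not_ge]

theorem UL_zero (h : D.Ok τ0) : UL D 0 = 0 := by
  funext x y
  simp [UL_eq h, CD.KR, CD.τ, oTau, OneP.dAcc_zero]

theorem pi2_UL (h : D.Ok τ0) (j : ℕ) :
    pi2 (fun _ => 1) D.B j (fun x y => |UL D j x y| ^ 3) 0 ≤ τ0 ^ 3 * (D.X ^ 3 + 3 * D.tl) := by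
  have h0 : 0 ≤ τ0 ^ 3 * (D.X ^ 3 + 3 * D.tl) := by
    have := h.tau0; have := h.X0; have := h.tl0; positivity
  by_cases hj : j ∈ D.lo
  · have h1 := h.u_lo hj 2
    have h2 := pi2_mono (Ω := Cube D.n) wt_one90 D.B j (K := fun x y => |UL D j x y| ^ 3)
      (K' := fun x y => τ0 ^ 3 * |oU D.q j x y| ^ 3) (fun x y => by
        have := h.tau_mem j
        rw [← mul_pow, UL_eq h, CD.KR, if_pos (CD.mem_lo.1 hj).2, oU, h.qlo j (CD.mem_lo.1 hj).2,
          sub_zero, abs_div, abs_mul, abs_of_nonneg this.1, abs_two]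
        refine pow_le_pow_left₀ (by have := this.1; positivity) ?_ 3
        nlinarith [abs_nonneg (ov x y)]) 0
    rw [pi2_const_mul] at h2
    refine h2.trans (mul_le_mul_of_nonneg_left (h1.trans_eq (by norm_num)) (pow_nonneg h.tau0 3))
  · have : UL D j = 0 := by
      rw [CD.mem_lo] at hj
      rcases Nat.eq_zero_or_pos j with rfl | h1
      exacts [UL_zero h, UL_hi h (by omega)]
    simpa [this, pi2_const wt_one90] using h0

theorem abs_three (a b c : ℝ) : |a * (b * c)| ≤ (|a| ^ 3 + |b| ^ 3 + |c| ^ 3) / 3 := by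
  rw [abs_mul, abs_mul]
  have := abs_nonneg a
  have := abs_nonneg b
  have := abs_nonneg c
  nlinarith [mul_nonneg (add_nonneg (add_nonneg (abs_nonneg a) (abs_nonneg b)) (abs_nonneg c))
    (add_nonneg (add_nonneg (sq_nonneg (|a| - |b|)) (sq_nonneg (|a| - |c|))) (sq_nonneg (|b| - |c|)))]

theorem abs_TE3 (h : D.Ok τ0) (t : Sh) {p q p' q' p'' q'' : t.Lf} (h1 : p ≠ q) (h2 : p' ≠ q')
    (h3 : p'' ≠ q'') : |TE (fun _ => 1) t D.B 0 fun y => UL D (t.shr p q D.B.length) (y p) (y q) *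
      (UL D (t.shr p' q' D.B.length) (y p') (y q') *
        UL D (t.shr p'' q'' D.B.length) (y p'') (y q''))| ≤ τ0 ^ 3 * (D.X ^ 3 + 3 * D.tl) := by
  refine (abs_TE_le' wt_one90 t D.B 0 fun y => (abs_three _ _ _).trans_eq
    (div_eq_inv_mul _ _)).trans ?_
  rw [Law.TE_const_mul wt_one90, Law.TE_add wt_one90, Law.TE_add wt_one90,
    TE_pair wt_one90 t D.B 0 h1 fun x y => |UL D (t.shr p q D.B.length) x y| ^ 3,
    TE_pair wt_one90 t D.B 0 h2 fun x y => |UL D (t.shr p' q' D.B.length) x y| ^ 3,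
    TE_pair wt_one90 t D.B 0 h3 fun x y => |UL D (t.shr p'' q'' D.B.length) x y| ^ 3]
  linarith [pi2_UL h (t.shr p q D.B.length), pi2_UL h (t.shr p' q' D.B.length),
    pi2_UL h (t.shr p'' q'' D.B.length)]

theorem abs_T3_le (h : D.Ok τ0) (t : Sh) (u v x : t.Lf) (h1 : u ≠ v) (h2 : u ≠ x) (h3 : v ≠ x) :
    |T3 (fun _ => 1) D.B 0 (UL D) t u v x| ≤ τ0 ^ 3 * (D.X ^ 3 + 3 * D.tl) := abs_TE3 h t h1 h2 h3

theorem abs_Bk_le (h : D.Ok τ0) (t : Sh) {E : Ed t} (hE : E.length = 3) (hn : ∀ e ∈ E, e.1 ≠ e.2) :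
    |Bk (fun _ => 1) D.B 0 (UL D) t E| ≤ τ0 ^ 3 * (D.X ^ 3 + 3 * D.tl) := by
  match E, hE with
  | [a, b, c], _ =>
    have := abs_TE3 h t (hn a (by simp)) (hn b (by simp)) (hn c (by simp))
    refine le_trans (le_of_eq (congrArg (fun F => |TE (fun _ => 1) t D.B 0 F|) (funext fun y => ?_)))
      this
    simp only [prE_cons, prE_nil, mul_one]

theorem S3_eq (h : D.Ok τ0) : D.S3 = 8 * C3 (fun _ => 1) D.B 0 (UL D) D.J := by
  have hK : D.J < D.B.length := D.B_len ▸ h.cut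
  have e0 : C2 (fun _ => 1) D.B 0 (UL D) D.J 0 = 0 :=
    Finset.sum_eq_zero fun a _ => Finset.sum_eq_zero fun k _ => mul_eq_zero_of_right _ (by
      rw [Tg, T3, shr_emb, shr_two, Nat.zero_min, UL_zero h]
      simpa using Law.TE_const wt_one90 _ D.B 0 0)
  rw [C3, Finset.range_eq_Ico, Finset.sum_eq_sum_Ico_succ_bot (Nat.succ_pos _), e0, mul_zero,
    zero_add, Finset.mul_sum, CD.S3]
  refine Finset.sum_congr (by ext; simp [Nat.lt_succ_iff]) fun j hj => ?_
  have hj' : j ≤ D.J := Nat.lt_succ_iff.1 (Finset.mem_Ico.1 hj).2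
  refine Eq.trans (mc ?_) (mul_left_comm _ _ _)
  rw [C2, Finset.mul_sum _ _ (8 : ℝ)]
  refine Finset.sum_congr rfl fun a _ => ?_
  rw [Finset.mul_sum _ _ (8 : ℝ)]
  refine Finset.sum_congr rfl fun k hk => ?_
  have hk' : k ≤ D.B.length := by have := Finset.mem_range.1 hk; omega
  refine Eq.trans (mc ?_) (mul_left_comm _ _ _)
  rw [Tg, T3, ← Law.TE_const_mul wt_one90, shr_emb, shr_two, shr_nw, shr_nw,
    min_eq_left hk', min_eq_left (hj'.trans hK.le)]
  refine congrArg _ (funext fun y => ?_)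
  simp only [UL_eq h]
  ring

theorem abs_C3_le (h : D.Ok τ0) :
    |C3 (fun _ => 1) D.B 0 (UL D) D.J| ≤ 2 * D.X ^ 2 * (τ0 ^ 3 * (D.X ^ 3 + 3 * D.tl)) := by
  have h0 : 0 ≤ τ0 ^ 3 * (D.X ^ 3 + 3 * D.tl) := by
    have := h.tau0; have := h.X0; have := h.tl0; positivity
  have hx := h.ex0 D.J
  have h1 := abs_cw_lo h.mono .one D.J (G := fun _ j => C2 (fun _ => 1) D.B 0 (UL D) D.J j)
    (β := 2 * ex D.B D.J * (τ0 ^ 3 * (D.X ^ 3 + 3 * D.tl))) (by positivity) fun _ j _ =>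
      (abs_cw_lo h.mono _ D.J h0 fun a k _ => abs_T3_le h _ _ _ _ ((emb_inj _ a k).ne (two_ne j))
        (emb_ne _ a k _) (emb_ne _ a k _)).trans_eq (by rw [card_two]; push_cast; ring)
  simp only [Wt87.sum_one, cw_one] at h1
  refine h1.trans ?_
  rw [show Fintype.card Sh.one.Lf = 1 from rfl, Nat.cast_one, one_mul, ← mul_assoc]
  refine mul_le_mul_of_nonneg_right ?_ h0
  nlinarith [h.x1]

/-- the site cascade above the cut -/
theorem site_cons (h : D.Ok τ0) : ∃ l L, D.S.drop D.J = l :: L ∧ l.m = ex D.B D.J ∧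
    List.Forall₂ (C.Rk1 spin) (l :: L) ((opV D.n D.β D.M D.q).drop D.J) ∧ Mono 0 (l :: L) := by
  have hK : D.J < D.S.length := opS_length ▸ h.cut
  have r : List.Forall₂ (C.Rk1 spin) D.S (opV D.n D.β D.M D.q) :=
    C.forall₂_sl spin (opV_nn h.ook)
  have e := List.drop_eq_getElem_cons hK
  refine ⟨_, _, e, ?_, e ▸ List.forall₂_drop _ r,
    e ▸ mono_drop _ (Cav22.mono_tilt tilt_opS.symm h.mono)⟩
  rw [← Cav22.ex_tilt (tilt_opS (q := D.q))]
  simp [Crest.Agent.T157.Casc.ex, hK]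

theorem lam_eq (h : D.Ok τ0) : D.lam = gd (D.S.drop D.J) 2 0 := by
  obtain ⟨l, L, e, -, r, -⟩ := site_cons h
  have e1 : D.Ph = Crest.Agent.R339.B.PhiL 1 ((opV D.n D.β D.M D.q).drop D.J) :=
    funext fun y => by rw [CD.Ph, e, ← C.X_spin r]; rfl
  rw [CD.lam, e1, gd, e, (gs_at_zero r).1, iteratedDeriv_succ']

/-- the marked pair at the node `j` -/
def Gm (D : CD) (j d : ℕ) (y : ℝ) : ℝ :=
  MG (D.S.drop D.J) (.two (j - D.J)) (pr2 (j - D.J) (oE D.q j)) d (y • spin)

theorem Gm_facts (h : D.Ok τ0) {j : ℕ} (hj : j ∈ D.up) {d : ℕ} (hd : d ≤ 6) (y : ℝ) :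
    (|Gm D j d y| ≤ cB6 ∧ (Odd d → |Gm D j d y| ≤ cB6 * |y|) ∧
      (Even d → |Gm D j d y - Gm D j d 0| ≤ cB6 * y ^ 2)) ∧ Sm 2 (cS bM 2 0) (Gm D j 0) ∧
      |iteratedDeriv 2 (Gm D j 0) 0 - Gm D j 2 0| ≤ cD bM 2 0 * D.X := by
  obtain ⟨l, L, e, e', r, hm⟩ := site_cons h
  obtain ⟨k, hk⟩ := Nat.exists_eq_succ_of_ne_zero
    (show j - D.J ≠ 0 by have := (CD.mem_up.1 hj).1; omega)
  have hF : ∀ x, pr2 (k + 1) (oE D.q j) (fun a => !x a) = pr2 (k + 1) (oE D.q j) x := fun x => by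
    simp [pr2, oE, One15.spin_not]
  have hF' : ∀ x, |pr2 (k + 1) (oE D.q j) x| ≤ 2 := fun x =>
    abs_oE_le h.ook (CD.mem_up.1 hj).2.le _ _
  unfold Gm
  rw [e, hk]
  exact ⟨MG_facts (fl_of r) hm hF hF' hd y, (Lad.sm (abs_m_le hm) bM_nn (lad_gs l L)
    (lad_MG l L (s := .two (k + 1)) rfl _) (abs_gs_bM hm) (fun k y => abs_MG_two hm hF' k _) 2 0).2,
    (MG_iter hm hF' 2 0).trans (mul_le_mul_of_nonneg_left (e'.trans_le h.x1) (cD_nn bM_nn 2 0))⟩

theorem dP_two (h : D.Ok τ0) (hW : D.W.isSome = true) :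
    |D.dP 2 [] + ∑ j ∈ D.up, D.om j * Gm D j 2 0| ≤ cD bM 2 0 * D.X * D.wt := by
  have e : (fun y => D.sH D.J y []) = fun y => ∑ j ∈ D.up, D.om j * Gm D j 0 y :=
    funext fun y => by rw [CD.sH, CD.dd_test hW]; rfl
  rw [CD.dP, e, iter_sum _ _ 2 _ fun j hj => (Gm_facts h hj (Nat.zero_le 6) 0).2.1, add_comm,
    ← sub_eq_add_neg, abs_sub_comm, ← Finset.sum_sub_distrib, CD.wt_test hW, ← D.Iw_const]
  simp only [← mul_sub]
  exact D.abs_sum_om fun j hj => (Gm_facts h hj (Nat.zero_le 6) 0).2.2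

end cd

end Crest.Agent.T156.Cas.Y20

end
end

-- ▼ part T156/CY2C_44
section

/-!
# Row 156, block C (helper44): two low edges with deterministic coefficients, frozen site values
-/

set_option autoImplicit false
set_option linter.unusedSectionVars false
set_option linter.unusedVariables false

noncomputable section

namespace Crest.Agent.T156.Cas.Y44

open Crest.Agent.T157.E Crest.Agent.T157.Casc Crest.Agent.T157.SL
open Wt87 Leg51 Lsg89 Y20
open Low51 (prE prE_cons prE_nil)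
open Tay38 (two_ne)

variable {Θ Ω : Type} {i : ℕ} {M : List (Lv Θ)} {t : Sh}

/-- **the weight of two new clusters** -/
theorem two_id (M : List (Lv Θ)) (φ : ℕ → ℝ) (i : ℕ) : two i M .one (fun τ _ _ => φ τ.j) =
    2 * ex M i * ∑ y ∈ Finset.range (i + 1), dm M 0 y * φ y := by
  have e : ∀ i, two i M .one (fun τ _ _ => φ τ.j) = ∑ j ∈ Finset.range (i + 1), dm M 0 j *
      (∑ k ∈ Finset.range (i + 1), dm M 0 k * φ (min j k) +
        ∑ r ∈ Finset.range (i - j + 1), dm (M.drop j) 0 r * φ (r + j)) := fun i => by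
    simp only [two, Wt87.sum_one, cw_one]
    rfl
  have d0 : ∀ y, dm (M.drop y) 0 0 = ex M y := fun y => by simp [dm, exP, T157.Casc.ex]
  have d1 : ∀ y r, dm (M.drop y) 0 (r + 1) = dm M 0 (r + y + 1) := fun y r => by
    simp only [dm, exP, T157.Casc.ex, List.getElem?_drop, add_comm y, Nat.add_right_comm r 1 y]
  rw [e]
  induction i with
  | zero =>
    have := d0 0
    simp only [List.drop_zero] at this
    simp only [zero_add, Finset.range_one, Finset.sum_singleton, min_self, Nat.sub_self,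
      List.drop_zero, this]
    ring
  | succ i ih =>
    have s1 := sum_dm M 0 i
    have s2 : dm M 0 (i + 1) = ex M (i + 1) - ex M i := rfl
    have k1 : ∑ j ∈ Finset.range (i + 1), dm M 0 j *
        (∑ k ∈ Finset.range (i + 1 + 1), dm M 0 k * φ (min j k) +
          ∑ r ∈ Finset.range (i + 1 - j + 1), dm (M.drop j) 0 r * φ (r + j)) =
        ∑ j ∈ Finset.range (i + 1), (dm M 0 j *
        (∑ k ∈ Finset.range (i + 1), dm M 0 k * φ (min j k) +
          ∑ r ∈ Finset.range (i - j + 1), dm (M.drop j) 0 r * φ (r + j)) +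
          (dm M 0 (i + 1) * (dm M 0 j * φ j) + dm M 0 j * (dm M 0 (i + 1) * φ (i + 1)))) := by
      refine Finset.sum_congr rfl fun j hj => ?_
      have hj := Finset.mem_range.1 hj
      rw [Finset.sum_range_succ _ (i + 1), show i + 1 - j = i - j + 1 by omega,
        Finset.sum_range_succ _ (i - j + 1), d1, min_eq_left (by omega : j ≤ i + 1),
        show i - j + j = i by omega, show i - j + 1 + j = i + 1 by omega]
      ring
    have k2 : ∑ k ∈ Finset.range (i + 1), dm M 0 k * φ (min (i + 1) k) =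
        ∑ k ∈ Finset.range (i + 1), dm M 0 k * φ k := Finset.sum_congr rfl fun k hk => by
      rw [min_eq_right (Finset.mem_range.1 hk).le]
    rw [Finset.sum_range_succ _ (i + 1), k1, Finset.sum_add_distrib, ih, Finset.sum_add_distrib,
      ← Finset.mul_sum, ← Finset.sum_mul, s1, Finset.sum_range_succ _ (i + 1), k2,
      Finset.sum_range_succ (fun y => dm M 0 y * φ y) (i + 1), Nat.sub_self, min_self]
    simp only [zero_add, Finset.range_one, Finset.sum_singleton, d0, s2]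
    ring

theorem two_congr (hM : Mono 0 M) {Φ Ψ : GT t → Bool → Bool → ℝ}
    (h : ∀ τ, LM i M.length t τ false false → Φ τ false false = Ψ τ false false) :
    two i M t Φ = two i M t Ψ := by
  have r : ∀ {j n}, j ∈ Finset.range (n + 1) → j ≤ n := fun h =>
    Nat.lt_succ_iff.1 (Finset.mem_range.1 h)
  unfold two
  refine Finset.sum_congr rfl fun a _ => Finset.sum_congr rfl fun j hj => congrArg _ ?_
  congr 1
  · exact Finset.sum_congr rfl fun b _ => Finset.sum_congr rfl fun k hk =>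
      congrArg _ (h _ (.g2 a b (r hj) (r hk)))
  · exact Finset.sum_congr rfl fun k hk =>
      congrArg _ (h _ (.g3 a (by have := r hj; have := r hk; omega)))

theorem two_mul' (c : ℝ) (Φ : GT t → Bool → Bool → ℝ) :
    two i M t (fun τ p q => c * Φ τ p q) = c * two i M t Φ := by
  simp only [two, mul_add, Finset.mul_sum, mul_left_comm c]

/-! ### degrees -/

variable {n : ℕ} {τ : GT t} {op oq : Bool}

theorem dg_mono (H : LM i n t τ op oq) (E : Ed t) (x : t.Lf) : dgE E x ≤ dgE (nx τ E) (τ.e x) := by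
  rw [nx, dgE_snoc, dgE_map (Y20.LM.inj H)]
  omega

theorem dg_step (H : LM i n t τ op oq) {E : Ed t} {m : t.Lf} (h : ∀ a, a ≠ m → 1 ≤ dgE E a)
    (y : τ.sh.Lf) (hy : y ≠ τ.e m) : 1 ≤ dgE (nx τ E) y := by
  rcases Low51.LM.cov H y with ⟨x, rfl⟩ | ⟨-, rfl⟩ | ⟨-, rfl⟩
  · exact (h x fun e => hy (e ▸ rfl)).trans (dg_mono H E x)
  · rw [nx, dgE_snoc, if_pos rfl]; omega
  · rw [nx, dgE_snoc, if_pos rfl]; omega

theorem dg2 {α : Type} [DecidableEq α] {u v : α} (h : u ≠ v) (a : α) :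
    dgE [(u, v), (u, v)] a = (if a = u ∨ a = v then 2 else 0) ∧
      dgE [(u, v), (v, u)] a = if a = u ∨ a = v then 2 else 0 := by
  simp only [dgE_cons, dgE_nil, eq_comm (a := a)]
  by_cases h1 : u = a <;> by_cases h2 : v = a <;> simp [h1, h2]
  exact h (h1.trans h2.symm)

/-- the deterministic bulk factor of two edges -/
def bk (x0 : Ω) (n : ℕ) (b : ℕ → ℝ) (t : Sh) (E : Ed t) : ℝ :=
  prE n [fun j _ _ => b j, fun j _ _ => b j] E fun _ => x0

/-- the frozen functional -/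
def W0 (x0 : Ω) (n : ℕ) (b c G : ℕ → ℝ) : VF := fun t m E => bk x0 n b t E * S0 c G t m E

variable {x0 : Ω} {b c G : ℕ → ℝ} {ε : ℝ}

theorem bk_two (e e' : t.Lf × t.Lf) :
    bk x0 n b t [e, e'] = b (t.shr e.1 e.2 n) * b (t.shr e'.1 e'.2 n) := by
  simp only [bk, prE_cons, prE_nil, mul_one]

theorem abs_bk {β : ℝ} (hb : ∀ y, |b y| ≤ β) {E : Ed t} (hE : E.length = 2) :
    |bk x0 n b t E| ≤ β * β := by
  match E, hE with
  | [e, e'], _ =>
    rw [bk_two, abs_mul]
    exact mul_le_mul (hb _) (hb _) (abs_nonneg _) ((abs_nonneg _).trans (hb 0))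

theorem ev_W0 (hc : ∀ d, Odd d → c d = 0) (hG : ∀ d, Odd d → G d = 0) : Ev (W0 x0 n b c G) :=
  fun t m E x hx => mul_eq_zero_of_right _ (Finset.prod_eq_zero (Finset.mem_univ x) (by
    split_ifs
    exacts [hG _ hx, hc _ hx]))

/-- the second edge doubles the first one -/
theorem stp_W0 (hc : ∀ d, Odd d → c d = 0) (hG : ∀ d, Odd d → G d = 0) (m : t.Lf) {u v : t.Lf}
    (h : u ≠ v) : stp ε i M (W0 x0 n b c G) t m [(u, v)] = 2 * b (t.shr u v n) ^ 2 *
      ∏ a, if a = u ∨ a = v then (if a = m then G 2 else c 2) else if a = m then G 0 else c 0 := by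
  rw [stp_close (ev_W0 hc hG) m h (by simp [dgE, h.symm]) (by simp [dgE, h])]
  simp only [W0, S0, List.cons_append, List.nil_append, bk_two, (dg2 h _).1, (dg2 h _).2,
    shr_comm t v u]
  have : ∀ a, (if a = m then G (if a = u ∨ a = v then 2 else 0)
      else c (if a = u ∨ a = v then 2 else 0)) =
      if a = u ∨ a = v then (if a = m then G 2 else c 2) else if a = m then G 0 else c 0 :=
    fun a => by split_ifs <;> rfl
  simp only [this]
  ring

theorem stp_two (hc : ∀ d, Odd d → c d = 0) (hG : ∀ d, Odd d → G d = 0) {j : ℕ} (hj : j ≤ n)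
    {u v : (Sh.two j).Lf} (h : (u = Sh.twoL j ∧ v = Sh.twoR j) ∨ (u = Sh.twoR j ∧ v = Sh.twoL j)) :
    stp ε i M (W0 x0 n b c G) (.two j) (Sh.twoL j) [(u, v)] = 2 * b j ^ 2 * (G 2 * c 2) := by
  have ne := two_ne j
  rcases h with ⟨rfl, rfl⟩ | ⟨rfl, rfl⟩
  · rw [stp_W0 hc hG _ ne, Y89.prod_two, shr_two, min_eq_left hj]
    simp [ne.symm]
  · rw [stp_W0 hc hG _ ne.symm, Y89.prod_two, shr_comm, shr_two, min_eq_left hj]
    simp [ne.symm]

/-- **two edges on a marked cluster**: exact value -/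
theorem test2 (hM : Mono 0 M) (hi : i ≤ M.length) (hc : ∀ d, Odd d → c d = 0)
    (hG : ∀ d, Odd d → G d = 0) :
    stp (-1) i M (stp (-1) i M (W0 x0 M.length b c G)) .one () [] =
      -4 * c 2 * (G 2 - ex M i * c 2 * G 0) * ∑ y ∈ Finset.range (i + 1), dm M 0 y * b y ^ 2 := by
  refine (lsg_eq _).trans ?_
  rw [old_one, one_one, two_congr hM
    (Ψ := fun τ _ _ => 2 * (G 0 * c 2 * c 2) * b τ.j ^ 2) fun τ H => ?_, two_mul',
    two_id M fun y => b y ^ 2,
    Finset.sum_congr (g := fun y => 4 * (G 2 * c 2) * (dm M 0 y * b y ^ 2)) rfl fun y hy => ?_,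
    ← Finset.mul_sum]
  · ring
  · have hy' : y ≤ M.length := (Nat.lt_succ_iff.1 (Finset.mem_range.1 hy)).trans hi
    have e1 := stp_two (ε := -1) (i := i) (M := M) (x0 := x0) (b := b) hc hG hy' (Or.inl ⟨rfl, rfl⟩)
    have e2 := stp_two (ε := -1) (i := i) (M := M) (x0 := x0) (b := b) hc hG hy' (Or.inr ⟨rfl, rfl⟩)
    refine (congrArg _ (congrArg₂ (· + ·) e1 e2)).trans ?_
    ring
  · have n1 := Y20.LM.newp H ()
    have n2 := Y20.LM.newq H ()
    have n3 := Y20.LM.ne H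
    refine (stp_W0 hc hG _ n3).trans ?_
    rw [(H.mem hi).shr, prod_three n1 n2 n3 fun a => ?_]
    · simp only [n1, n2, n1.symm, n2.symm, or_self, if_true, if_false, true_or, or_true]
      ring
    · rcases Low51.LM.cov H a with ⟨x, rfl⟩ | ⟨-, rfl⟩ | ⟨-, rfl⟩
      exacts [Or.inl rfl, Or.inr (Or.inl rfl), Or.inr (Or.inr rfl)]

end Crest.Agent.T156.Cas.Y44

end
end

-- ▼ part T156/CY2_44
section

/-!
# Row 156, block C (helper44): the leaf `Y2S`
-/

set_option autoImplicit false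
set_option linter.unusedSectionVars false
set_option linter.unusedVariables false

noncomputable section

namespace Crest.Agent.T156.Cas.Y44

open MeasureTheory Real Set Filter Topology
open Crest.Agent.T157.E Crest.Agent.T157.Casc Crest.Agent.T157.SL
open Crest.ProbabilityR.SpinGlassDynamics (spin)
open Mul55 C40 C40.CD Leg51 Lsg89 Y20
open One15 (xs w1)

variable {D : CD} {τ0 : ℝ} {t : Sh} {j : ℕ}

/-- a fixed configuration -/
def x0 (D : CD) : Cube D.n := fun _ => true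

/-- evaluation at the fixed configuration -/
def L0 (D : CD) : Fn (Cube D.n) := fun _ G => G fun _ => x0 D

theorem cl_L0 (D : CD) (i : ℕ) : Low51.Cl i (L0 D) := fun _ _ _ _ _ => rfl

/-- the base without bulk expectation -/
def B0 (D : CD) : (s : Sh) → ((s.Lf → Cube D.n) → ℝ) → ((s.Lf → Bool) → ℝ) → ℝ :=
  fun s G ξ => L0 D s G * TEf (fun _ => 1) D.S 0 s ξ

theorem oB_const (s : Sh) (c : ℝ) (ξ : (s.Lf → Bool) → ℝ) :
    oB D.n D.β D.M D.q [] s (fun _ => c) ξ = B0 D s (fun _ => c) ξ :=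
  congrArg (· * _) (Law.TE_const wt_one90 s _ 0 c)

theorem B0_zero (s : Sh) (ξ : (s.Lf → Bool) → ℝ) : B0 D s (fun _ => 0) ξ = 0 := zero_mul _

theorem pb_hi : ∀ p ∈ [pb D, pb D], ∀ j, D.J < j → p.1 j = 0 := fun p hp j hj => by
  have : p = pb D := by simpa using hp
  subst this
  funext x y
  exact if_neg hj.not_ge

theorem cutB (h : D.Ok τ0) : D.J < D.B.length := h.cut.trans_eq D.B_len.symm

theorem tiltBS (D : CD) : D.B.map Lv.m = D.S.map Lv.m := (tilt_opS (q := D.q)).symm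

theorem sq2 (h : D.Ok τ0) : Low51.Sq D.J [oE D.q, oE D.q] (List.replicate 2 spin) := by
  have : ∀ j ≤ D.J, ∀ a b, oE D.q j a b = spin a * spin b := fun j hj a b => by
    rw [oE, h.qlo j hj, sub_zero]
  exact .cons this (.cons this .nil)

/-- the cluster values -/
def gg (D : CD) (G : ℕ → ℝ → ℝ) {t : Sh} (E : Ed t) (m a : t.Lf) (y : ℝ) : ℝ :=
  if a = m then G (dgE E a) y else gd (D.S.drop D.J) (dgE E a) y

/-- the skeleton value -/
def VV (D : CD) (G : ℕ → ℝ → ℝ) : VF := fun t m E => bk (x0 D) D.B.length (bet D) t E *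
  Leg51.SK (fun _ => 1) t D.S D.J (fun a z => gg D G E m a (xs z)) 0

/-- the frozen skeleton value -/
abbrev V0 (D : CD) (G : ℕ → ℝ → ℝ) : VF :=
  W0 (x0 D) D.B.length (bet D) (fun d => gd (D.S.drop D.J) d 0) fun d => G d 0

theorem tv_pl {Ω ι : Type} (R : List (ℕ → Ω → Ω → ℝ)) {E : List (Low51.Ed ι)} (h : Low51.Pl E) :
    Low51.Tv R E := fun p hp e => absurd e (h _ (List.of_mem_zip hp).2).2

theorem val_eq (h : D.Ok τ0) : lamB D.B (oB D.n D.β D.M D.q []) [pb D, pb D] =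
    ∑ j ∈ Finset.range (D.J + 1), D.dx j * stp (-1) D.J D.B (VV D (gd (D.S.drop D.J))) (.two j)
      (Sh.twoL j) [(Sh.twoL j, Sh.twoR j)] := by
  have e : lamB D.B (oB D.n D.β D.M D.q []) [pb D, pb D] = lamB D.B (B0 D) [pb D, pb D] :=
    Finset.sum_congr rfl fun y _ => congrArg _ (congrArg (sg (-1) D.B _) (funext fun τ =>
      oB_const _ (bet D y * bet D τ.j) _))
  rw [e, Low51.lamB_low (cutB h) B0_zero pb_hi]
  refine Finset.sum_congr rfl fun j hj => congrArg _ (Low51.CW_stp (N := 2) (cutB h)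
    (V := VV D (gd (D.S.drop D.J))) (fun t m E hE hN => ?_) 1 _ _ _
      (Low51.inv_two (Nat.lt_succ_iff.1 (Finset.mem_range.1 hj))) rfl)
  refine (Low51.LE_PhiB (cl_L0 D _) _ hE.sep (cutB h) (hE.pl.hi _ _) (tv_pl _ hE.pl) _).trans ?_
  refine (congrArg _ (Low51.site_val (tiltBS D) (cutB h) hE (hN ▸ sq2 h) 0)).trans ?_
  simp only [VV, gg, ite_self]
  rfl

theorem test_eq (h : D.Ok τ0) (hj : j ∈ D.up) :
    wB (-1) D.B (oB D.n D.β D.M D.q []) [pb D, pb D] (Sh.two j) (fun _ => 1) (pr2 j (oE D.q j)) =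
      stp (-1) D.J D.B (stp (-1) D.J D.B (VV D (Gm D j))) .one () [] := by
  obtain ⟨j1, j2⟩ := mem_up.1 hj
  have j3 : j ≤ D.B.length := j2.le.trans_eq D.B_len.symm
  have e : wB (-1) D.B (oB D.n D.β D.M D.q []) [pb D, pb D] (Sh.two j) (fun _ => 1)
      (pr2 j (oE D.q j)) = wB (-1) D.B (B0 D) [pb D, pb D] (Sh.two j) (fun _ => 1)
        (pr2 j (oE D.q j)) :=
    congrArg (sg (-1) D.B _) (funext fun τ => congrArg (sg (-1) D.B _) (funext fun τ' =>
      oB_const _ (1 * bet D τ.j * bet D τ'.j) _))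
  refine e.trans ((Low51.wB_mark (cutB h) B0_zero pb_hi j1 j3 (fun _ _ _ => 1) (oE D.q)).trans
    (Low51.CW_stpM (N := 2) (cutB h) (V := VV D (Gm D j)) (fun t m E hE hN => ?_) 2 .one () []
      (Low51.inv_one _) rfl))
  have e' := Nat.sub_add_cancel j1.le
  have k := Low51.site_mark (tiltBS D) (Nat.sub_pos_of_lt j1) (e'.trans_le j3) hE (oE D.q)
    (hN ▸ sq2 h) 0
  rw [e'] at k
  refine (Low51.LE_PhiB (cl_L0 D _) _ hE.sep (cutB h) (fun d hd => (List.mem_cons.1 hd).elim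
    (fun u => by rw [u]; exact ⟨trivial, j1, j3⟩) (hE.pl.hi _ _ d)) (fun p hp u =>
      (List.mem_cons.1 hp).elim (fun v => by rw [v]) fun v => tv_pl _ hE.pl p v u) _).trans ?_
  refine (congrArg _ k).trans (congrArg (· * _) ?_)
  exact (Low51.prE_cons _ _ _ (m, m) (Low51.sk E) _).trans (one_mul _)

/-- admissible cluster value of degree `d` -/
def Fa (d : ℕ) (g : ℝ → ℝ) : Prop := (Eg fun z => g (xs z)) ∧ ∀ y, |g y| ≤ cB6 ∧
  (Odd d → |g y| ≤ cB6 * |y|) ∧ (Even d → |g y - g 0| ≤ cB6 * y ^ 2)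

theorem fa_gd (h : D.Ok τ0) {d : ℕ} (h1 : 1 ≤ d) (hd : d ≤ 6) : Fa d (gd (D.S.drop D.J) d) := by
  obtain ⟨l, L, e, -, r, hm⟩ := site_cons h
  refine ⟨?_, fun y => e ▸ gd_facts (One15.fl_of r) hm h1 hd y⟩
  simp only [gd, ← GC_spin]
  exact eg_GC w1 _ _ _

theorem fa_Gm (h : D.Ok τ0) (hj : j ∈ D.up) {d : ℕ} (hd : d ≤ 6) : Fa d (Gm D j d) := by
  refine ⟨?_, fun y => (Gm_facts h hj hd y).1⟩
  simp only [Gm, ← MG_xs]
  exact eg_LW w1 _ _ _ _ _ _

theorem gd_odd (h : D.Ok τ0) (d : ℕ) (hd : Odd d) : gd (D.S.drop D.J) d 0 = 0 := by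
  obtain ⟨l, L, e, -, r, -⟩ := site_cons h
  rw [gd, e]
  exact gs_even_zero (One15.fl_of r) (Nat.Odd.sub_odd hd odd_one)

theorem Gm_odd (h : D.Ok τ0) (hj : j ∈ D.up) (d : ℕ) (hd : Odd d) : Gm D j d 0 = 0 := by
  obtain ⟨l, L, e, -, r, -⟩ := site_cons h
  obtain ⟨k, hk⟩ := Nat.exists_eq_succ_of_ne_zero
    (show j - D.J ≠ 0 by have := (CD.mem_up.1 hj).1; omega)
  unfold Gm
  rw [e, hk]
  exact MG_odd_zero (One15.fl_of r) (s := .two (k + 1)) rfl
    (fun x => by simp [pr2, oE, One15.spin_not]) hd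

theorem abs_bet (h : D.Ok τ0) (y : ℕ) : |bet D y| ≤ τ0 * √(D.X ^ 2 + 2 * D.tl) := by
  have t0 := h.tau0
  by_cases e : y ∈ D.lo
  · have t1 := h.tau_mem y
    rw [bet_lo e, abs_of_nonneg (by have := t1.1; positivity)]
    exact mul_le_mul (by linarith [t1.2]) (sqrt_le_sqrt (r2_le h e)) (sqrt_nonneg _) t0
  · rw [bet_out e, abs_zero]
    positivity

/-- the constant of the freezing step -/
def cF : ℝ := 5 * cB6 ^ 7 * 40

theorem cF_nn : 0 ≤ cF := by have := one_le_cB6; unfold cF; positivity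

/-- **freezing** -/
theorem frz (h : D.Ok τ0) {G : ℕ → ℝ → ℝ} (ht : t.dep ≤ D.J) (hN : Fintype.card t.Lf ≤ 5)
    {m : t.Lf} {E : Ed t} (hE : E.length = 2) (h1 : ∀ a, a ≠ m → 1 ≤ dgE E a)
    (hG : Fa (dgE E m) (G (dgE E m))) : |VV D G t m E - V0 D G t m E| ≤ τ0 ^ 2 * cF * A0 D := by
  have b1 := one_le_cB6
  have X0 := h.X0
  have t0 := h.tl0
  have fa : ∀ a, Fa (dgE E a) (gg D G E m a) := fun a => by
    unfold gg
    split_ifs with e
    · exact e ▸ hG
    · exact fa_gd h (h1 a e) ((dgE_le E a).trans (by omega))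
  have k := SK_par (rk_opS (n := D.n) (β := D.β) h.ook) (mono_S h) (i := D.J)
    (h.cut.le.trans_eq (S_len D).symm) (σ := D.X ^ 3) (by positivity) (pow_le_one₀ X0 h.X1)
    (by rw [TT_opV h.cut.le, h.qlo _ le_rfl, mul_zero, zero_add]; exact h.h1) ht E b1
    (g := gg D G E m) (fun a => (fa a).1) (fun a y => ((fa a).2 y).1)
    (fun a o y => ((fa a).2 y).2.1 o) fun a o y => ((fa a).2 y).2.2 o
  have k1 : (Fintype.card t.Lf : ℝ) * cB6 ^ (Fintype.card t.Lf + 2) * (40 * D.X ^ 3) ≤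
      5 * cB6 ^ 7 * (40 * D.X ^ 3) := mul_le_mul_of_nonneg_right (mul_le_mul (by exact_mod_cast hN)
        (pow_le_pow_right₀ b1 (by omega)) (by positivity) (by norm_num)) (by positivity)
  have k2 := abs_bk (x0 := x0 D) (n := D.B.length) (abs_bet h) hE
  refine le_trans (le_of_eq ?_) ((mul_le_mul k2 (k.trans k1) (abs_nonneg _)
    ((abs_nonneg _).trans k2)).trans (le_of_eq ?_))
  · rw [← abs_mul, mul_sub]
    rfl
  · have := mul_self_sqrt (show 0 ≤ D.X ^ 2 + 2 * D.tl by positivity)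
    unfold cF A0
    linear_combination (τ0 ^ 2 * (5 * cB6 ^ 7 * 40) * D.X ^ 3) * this

theorem XA0 (h : D.Ok τ0) : D.X * A0 D ≤ D.X ^ 6 + 2 * D.tl := by
  have : D.X ^ 4 * D.tl ≤ 1 * D.tl := mul_le_mul_of_nonneg_right (pow_le_one₀ h.X0 h.X1) h.tl0
  unfold A0
  nlinarith

theorem S2_eq (D : CD) : ∑ y ∈ Finset.range (D.J + 1), D.dx y * bet D y ^ 2 = D.S2 / 4 := by
  rw [Finset.range_eq_Ico, Finset.sum_eq_sum_Ico_succ_bot (Nat.succ_pos _),
    bet_out (y := 0) (by simp), S2, Finset.sum_div]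
  simp only [ne_eq, OfNat.ofNat_ne_zero, not_false_eq_true, zero_pow, mul_zero, zero_add]
  refine Finset.sum_congr (by ext; simp [Nat.lt_succ_iff]) fun y hy => ?_
  rw [bet_lo hy, mul_pow, sq_sqrt (r2_nn D y), r2]
  ring

/-- **site evaluation, value** -/
theorem valB (h : D.Ok τ0) : |lamB D.B (oB D.n D.β D.M D.q []) [pb D, pb D] -
    D.lam ^ 2 * D.S2 / 2| ≤ 20 * (τ0 ^ 2 * cF) * (D.X ^ 6 + 2 * D.tl) := by
  have c0 : 0 ≤ τ0 ^ 2 * cF := mul_nonneg (sq_nonneg _) cF_nn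
  have a0 := A0_nn h
  have e : D.lam ^ 2 * D.S2 / 2 = ∑ j ∈ Finset.range (D.J + 1), D.dx j * stp (-1) D.J D.B
      (V0 D (gd (D.S.drop D.J))) (.two j) (Sh.twoL j) [(Sh.twoL j, Sh.twoR j)] := by
    rw [Finset.sum_congr (g := fun y => 2 * D.lam ^ 2 * (D.dx y * bet D y ^ 2)) rfl fun y hy => ?_,
      ← Finset.mul_sum, S2_eq]
    · ring
    · rw [stp_two (gd_odd h) (gd_odd h) ((Nat.lt_succ_iff.1 (Finset.mem_range.1 hy)).trans
        (cutB h).le) (Or.inl ⟨rfl, rfl⟩), ← Y20.lam_eq h]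
      ring
  rw [val_eq h, e, ← Finset.sum_sub_distrib]
  refine (Finset.abs_sum_le_sum_abs _ _).trans ((Finset.sum_le_sum
    (g := fun y => D.dx y * (20 * (τ0 ^ 2 * cF * A0 D))) fun y hy => ?_).trans ?_)
  · have hy' := Nat.lt_succ_iff.1 (Finset.mem_range.1 hy)
    have c2 := Wt87.card_two y
    have ne := Tay38.two_ne y
    have d1 : ∀ a, 1 ≤ dgE [(Sh.twoL y, Sh.twoR y)] a := fun a => by
      rcases Wt87.two_cases y a with rfl | rfl <;> simp [dgE, ne, ne.symm]
    rw [← mul_sub, abs_mul, abs_of_nonneg (h.dx0 y)]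
    refine mul_le_mul_of_nonneg_left ?_ (h.dx0 y)
    refine (congrArg abs (lsg_sub _ _)).trans_le ((abs_lsg_le (by simp) h.mono
      (mul_nonneg c0 a0) fun τ op oq H => frz h (H.dep (dep_two hy'))
        ((LM.card H (cutB h).le).trans (by omega)) (by simp [nx])
        (dg_step H fun a _ => d1 a) (fa_gd h ((d1 _).trans (dg_mono H _ _))
          ((dgE_le _ _).trans (by simp [nx])))).trans (le_of_eq ?_))
    rw [c2]
    norm_num
  · rw [← Finset.sum_mul, h.sum_dx]
    refine (mul_le_mul_of_nonneg_right h.x1 (by positivity)).trans ?_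
    nlinarith [mul_le_mul_of_nonneg_left (XA0 h) c0]

/-- **site evaluation, test** -/
theorem testB (h : D.Ok τ0) (hj : j ∈ D.up) :
    |wB (-1) D.B (oB D.n D.β D.M D.q []) [pb D, pb D] (Sh.two j) (fun _ => 1) (pr2 j (oE D.q j)) +
      D.lam * (Gm D j 2 0 - ex D.S D.J * D.lam * Gm D j 0 0) * D.S2| ≤
      180 * (τ0 ^ 2 * cF) * (D.X ^ 6 + 2 * D.tl) := by
  have c0 : 0 ≤ τ0 ^ 2 * cF := mul_nonneg (sq_nonneg _) cF_nn
  have a0 := A0_nn h
  have e : D.lam * (Gm D j 2 0 - ex D.S D.J * D.lam * Gm D j 0 0) * D.S2 =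
      -stp (-1) D.J D.B (stp (-1) D.J D.B (V0 D (Gm D j))) .one () [] := by
    rw [test2 h.mono (cutB h).le (gd_odd h) (Gm_odd h hj), S2_eq, ← Y20.lam_eq h,
      Cav22.ex_tilt (tilt_opS (q := D.q))]
    ring
  rw [test_eq h hj, e, ← sub_eq_add_neg]
  have k := abs_lsg_sub_old (ε := -1) (i := D.J) (M := D.B) (t := .one) (Φ := fun τ _ _ =>
    stp (-1) D.J D.B (VV D (Gm D j)) τ.sh (τ.e ()) (nx τ []) -
      stp (-1) D.J D.B (V0 D (Gm D j)) τ.sh (τ.e ()) (nx τ [])) (by simp) h.mono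
    (β := 45 * (τ0 ^ 2 * cF * A0 D)) (by positivity) fun τ op oq H => by
      have c3 : Fintype.card τ.sh.Lf ≤ 3 := LM.card H (cutB h).le
      refine (congrArg abs (lsg_sub _ _)).trans_le ((abs_lsg_le (by simp) h.mono
        (mul_nonneg c0 a0) fun τ' op' oq' H' => frz h (H'.dep (H.dep (Nat.zero_le _)))
          ((LM.card H' (cutB h).le).trans (by omega)) (by simp [nx])
          (dg_step H' (dg_step H fun a e => absurd rfl e))
          (fa_Gm h hj ((dgE_le _ _).trans (by simp [nx])))).trans ?_)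
      have : (Fintype.card τ.sh.Lf : ℝ) ^ 2 ≤ 3 ^ 2 :=
        pow_le_pow_left₀ (Nat.cast_nonneg _) (by exact_mod_cast c3) 2
      exact mul_le_mul_of_nonneg_right (by linarith) (mul_nonneg c0 a0)
  rw [old_one, sub_zero, show Fintype.card Sh.one.Lf = 1 from rfl] at k
  refine (congrArg abs (lsg_sub _ _)).trans_le (k.trans ?_)
  have := mul_le_mul_of_nonneg_right h.x1 (mul_nonneg c0 a0)
  push_cast
  nlinarith [mul_le_mul_of_nonneg_left (XA0 h) c0]

theorem stepB (b : Bool) : Bd b fun D => bw D - D.lam2 * D.S2 / 2 := by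
  have c0 := cF_nn
  cases b
  · refine Bd.val fun τ0 => ⟨20 * (τ0 ^ 2 * cF) * 3, fun D h hW => ?_⟩
    unfold bw CD.lam2
    rw [dd_val hW, dd_val hW, mul_assoc (20 * (τ0 ^ 2 * cF))]
    exact (valB h).trans (mul_le_mul_of_nonneg_left (by linarith [h.X6_le, h.tl_le])
      (by positivity))
  · refine Bd.mk' fun τ0 => ⟨180 * (τ0 ^ 2 * cF) * 3, fun D h hW => ?_⟩
    have e : bw D - D.lam2 * D.S2 / 2 = ∑ j ∈ D.up, D.om j *
        (wB (-1) D.B (oB D.n D.β D.M D.q []) [pb D, pb D] (Sh.two j) (fun _ => 1)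
          (pr2 j (oE D.q j)) + D.lam * (Gm D j 2 0 - ex D.S D.J * D.lam * Gm D j 0 0) * D.S2) := by
      unfold bw CD.lam2
      rw [dd_test hW, dd_test hW, Y14.dP_eq h hW]
      simp only [mul_add, Finset.sum_add_distrib]
      rw [sub_eq_add_neg, mul_neg, neg_mul, neg_div, neg_neg, Finset.mul_sum, Finset.sum_mul,
        Finset.sum_div]
      exact congrArg _ (Finset.sum_congr rfl fun j _ => by unfold Y14.mg Gm; ring)
    rw [e]
    refine (D.abs_sum_om fun j hj => testB h hj).trans ?_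
    rw [Iw_const, ← wt_test hW, mul_assoc (180 * (τ0 ^ 2 * cF)), mul_assoc (180 * (τ0 ^ 2 * cF))]
    refine mul_le_mul_of_nonneg_left ?_ (by positivity)
    have := mul_le_mul_of_nonneg_right (show D.X ^ 6 + 2 * D.tl ≤ 3 * D.E0 by
      linarith [h.X6_le, h.tl_le]) D.wt0
    linarith [h.wtE0_le]

end Crest.Agent.T156.Cas.Y44

namespace Crest.Agent.T156.Cas.C40

/-- **the leaf `Y2S`** -/
theorem y2S (b : Bool) : Y2S b :=
  ((Y44.stepA b).add (Y44.stepB b)).congr fun _ _ _ _ => by ring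

end Crest.Agent.T156.Cas.C40

end
end

-- ▼ part T156/LowC_51
section

/-!
# Row 156 (helper51): the cluster word `L90.cw` in skeleton form
-/

set_option autoImplicit false
set_option linter.unusedSectionVars false
set_option linter.unusedVariables false

noncomputable section

namespace Crest.Agent.T156.Cas.C40.L51

open Crest.Agent.T157.E Crest.Agent.T157.Casc Crest.Agent.T157.SL
open Crest.Agent.T157.G1 (ov)
open Crest.ProbabilityR.SpinGlassDynamics (spin)
open One15 (xs w1)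
open Leg51 Low51 L90

variable {D : CD} {τ0 : ℝ}

/-- bulk kernels of a word -/
def Rb (D : CD) (f : List Lt) : List (ℕ → (Unit → Cube D.n) → (Unit → Cube D.n) → ℝ) :=
  (f.map (c1 D)).map Prod.fst
/-- site kernels of a word -/
def Zs (D : CD) (f : List Lt) : List (ℕ → Bool → Bool → ℝ) := (f.map (c1 D)).map Prod.snd
/-- the function carried by the ends of a low letter -/
def fL (a : Lt) : Bool → ℝ := if a.2 then spin else fun _ => 1
/-- the bulk functional -/
abbrev LC (D : CD) : Fn (Unit → Cube D.n) := R90.Lc (fun _ => 1) D.B 0 D.J Unit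

theorem len_B (D : CD) : D.B.length = D.K := List.length_map _

theorem tilt_BS (D : CD) : D.B.map Lv.m = D.S.map Lv.m := (tilt_opS (q := D.q)).symm

theorem cB_zero (D : CD) (s : Sh) (ξ : (s.Lf → Bool) → ℝ) : cB D s (fun _ => 0) ξ = 0 := by
  rw [cB, R90.Lc_const wt_one90, zero_mul]

theorem c1_hi {a : Lt} (ha : a.1 = true) {j : ℕ} (hj : D.J < j) : (c1 D a).1 j = 0 := by
  funext x y
  simp [c1, R90.cp, Mul55.lt, Mul55.cut, ha, CD.cl, not_le.2 hj]



theorem sq_Zs (H : D.Ok τ0) : ∀ f : List Lt, Sq D.J (Zs D f) (f.map fL)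
  | [] => .nil
  | (c, true) :: f => .cons (fun j hj a b => by
      simp [c1, Mul55.lt, oZs, oE, H.qlo j hj, fL]) (sq_Zs H f)
  | (c, false) :: f => .cons (fun j hj a b => by simp [c1, Mul55.lt, oZs, fL]) (sq_Zs H f)

theorem hV {f : List Lt} (hf : ∀ a ∈ f, a.1 = true) :
    ∀ p ∈ f.map (c1 D), ∀ j, D.J < j → p.1 j = 0 := fun p hp j hj => by
  obtain ⟨a, ha, rfl⟩ := List.mem_map.1 hp
  exact c1_hi (hf a ha) hj

theorem cut_B (H : D.Ok τ0) : D.J < D.B.length := H.cut.trans_eq (len_B D).symm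

/-- **value**: exact cluster form of any low word -/
theorem cw_val (H : D.Ok τ0) (hW : D.W = none) {a : Lt} {f : List Lt}
    (hf : ∀ b ∈ a :: f, b.1 = true) : L90.cw D (a :: f) = ∑ j ∈ Finset.range (D.J + 1), D.dx j *
      CW (-1) D.J D.B (PhiB D.B.length (cB D) (Rb D (a :: f)) (Zs D (a :: f)))
        (List.replicate f.length (lo D.J)) (Sh.two j) [e2 j] := by
  rw [L90.cw, CD.dd, hW, List.map_cons, lamB_low (cut_B H) (cB_zero D) (hV hf),
    List.length_map (f := c1 D)]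
  rfl

/-- **test**: exact cluster form of any low word -/
theorem cw_test (H : D.Ok τ0) (hW : D.W.isSome = true) {f : List Lt} (hf : ∀ b ∈ f, b.1 = true) :
    L90.cw D f = ∑ j ∈ D.up, D.om j *
      CW (-1) D.J D.B (PhiB D.B.length (cB D) ((fun _ _ _ => 1) :: Rb D f) (oE D.q :: Zs D f))
        (List.replicate f.length (lo D.J)) .one [em () j] := by
  obtain ⟨ω, hω⟩ := Option.isSome_iff_exists.1 hW
  rw [L90.cw, CD.dd, hω]
  refine Finset.sum_congr rfl fun j hj => mc ?_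
  have h := Finset.mem_Ioo.1 hj
  have := wB_mark (cut_B H) (cB_zero D) (hV (D := D) hf) h.1 (h.2.le.trans_eq (len_B D).symm)
    (fun _ _ _ => 1) (oE D.q)
  rw [List.length_map (f := c1 D)] at this
  exact this

variable {t : Sh}

theorem tv_pl {Ω ι : Type} (R : List (ℕ → Ω → Ω → ℝ)) {E : List (Ed ι)} (h : Pl E) : Tv R E :=
  fun p hp e => absurd e (h _ (List.of_mem_zip hp).2).2

theorem tv_em {Ω ι : Type} (R : List (ℕ → Ω → Ω → ℝ)) {E : List (Ed ι)} (h : Pl E) (m : ι) (k : ℕ) :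
    Tv ((fun _ _ _ => 1) :: R) (em m k :: E) := fun p hp e =>
  (List.mem_cons.1 hp).elim (fun u => by rw [u]) fun u => tv_pl R h p u e


theorem hi_em (H : D.Ok τ0) {j : ℕ} (hj : j ∈ D.up) (m : t.Lf) {E : List (Ed t.Lf)} (hE : Pl E) :
    ∀ d ∈ em m j :: E, d.Hi D.J D.B.length := fun d hd => (List.mem_cons.1 hd).elim (fun e => by
  rw [e]
  exact ⟨trivial, (Finset.mem_Ioo.1 hj).1, (Finset.mem_Ioo.1 hj).2.le.trans_eq (len_B D).symm⟩)
    (hE.hi _ _ d)

theorem LE_em (H : D.Ok τ0) {j : ℕ} (hj : j ∈ D.up) (m : t.Lf) {o : Option t.Lf}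
    {E : List (Ed t.Lf)} (hE : Inv D.J t o E) (f : List Lt) :
    LE (-1) D.J D.B (em m j :: E) (cs' (PhiB D.B.length (cB D) ((fun _ _ _ => 1) :: Rb D f)
      (oE D.q :: Zs D f))) t id [] = LC D t (prE D.B.length (Rb D f) (sk E)) *
        LE (-1) D.J D.B (em m j :: E) (cs' (PhiS D.B.length (TEf (fun _ => 1) D.S 0)
          (oE D.q :: Zs D f))) t id [] :=
  (LE_PhiB (cl_Lc wt_one90 0 (cut_B H) Unit) _ hE.sep (cut_B H) (hi_em H hj m hE.pl)
    (tv_em _ hE.pl m j) _).trans (congrArg (fun G => LC D t G * _) (funext fun x =>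
      (prE_cons _ _ _ (m, m) (sk E) x).trans (one_mul _)))


/-- the bulk factor of `k` letters `aL` on a skeleton graph -/
def Bk (D : CD) (k : ℕ) (t : Sh) (E : EL t) : ℝ :=
  LC D t (prE D.B.length (List.replicate k (c1 D aL).1) E)

/-- skeleton value of `aL ^ k`, value direction -/
def Vv (D : CD) (k : ℕ) : Y20.VF := fun t _ E => Bk D k t E *
  Leg51.SK (fun _ => 1) t D.S D.J (fun a z => gs (D.S.drop D.J) (Y20.dgE E a - 1) (xs z)) 0

/-- skeleton value of `aL ^ k`, marked pair at the level `j` in the cluster `m` -/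
def Vm (D : CD) (k j : ℕ) : Y20.VF := fun t m E => Bk D k t E *
  Leg51.SK (fun _ => 1) t D.S D.J (fun a z => if a = m then Lsg89.MG (D.S.drop D.J) (.two (j - D.J))
    (pr2 (j - D.J) (oE D.q j)) (Y20.dgE E a) (xs z • spin)
    else gs (D.S.drop D.J) (Y20.dgE E a - 1) (xs z)) 0

theorem Rb_rep (k : ℕ) : Rb D (List.replicate k aL) = List.replicate k (c1 D aL).1 := by
  simp only [Rb, List.map_replicate]

theorem sq_rep (H : D.Ok τ0) (k : ℕ) :
    Sq D.J (Zs D (List.replicate k aL)) (List.replicate k spin) := by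
  have := sq_Zs H (List.replicate k aL)
  rwa [List.map_replicate] at this

/-- **`aL ^ (k + 1)`, value** -/
theorem cw_rep_val (H : D.Ok τ0) (hW : D.W = none) (k : ℕ) :
    L90.cw D (List.replicate (k + 1) aL) = ∑ j ∈ Finset.range (D.J + 1), D.dx j *
      (Y20.stp (-1) D.J D.B)^[k] (Vv D (k + 1)) (.two j) (Sh.twoL j) [(Sh.twoL j, Sh.twoR j)] := by
  rw [List.replicate_succ, cw_val H hW fun b hb => by
    rw [List.eq_of_mem_replicate (n := k + 1) hb], List.length_replicate]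
  refine Finset.sum_congr rfl fun j hj => mc (CW_stp (N := k + 1) (cut_B H) (fun t m E hE hN => ?_)
    k _ _ _ (inv_two (Nat.lt_succ_iff.1 (Finset.mem_range.1 hj))) (add_comm _ _))
  refine (LE_PhiB (cl_Lc wt_one90 0 (cut_B H) Unit) _ hE.sep (cut_B H) (hE.pl.hi _ _)
    (tv_pl _ hE.pl) _).trans ?_
  rw [← List.replicate_succ, site_val (tilt_BS D) (cut_B H) hE (hN ▸ sq_rep H _), Rb_rep]
  rfl

/-- **`aL ^ k`, test** -/
theorem cw_rep_test (H : D.Ok τ0) (hW : D.W.isSome = true) (k : ℕ) :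
    L90.cw D (List.replicate k aL) = ∑ j ∈ D.up, D.om j *
      (Y20.stp (-1) D.J D.B)^[k] (Vm D k j) .one () [] := by
  rw [cw_test H hW fun b hb => by rw [List.eq_of_mem_replicate hb], List.length_replicate]
  refine Finset.sum_congr rfl fun j hj => mc (CW_stpM (N := k) (cut_B H) (fun t m E hE hN => ?_)
    k .one () [] (inv_one _) (zero_add _))
  have h := Finset.mem_Ioo.1 hj
  have e := Nat.sub_add_cancel h.1.le
  have := site_mark (tilt_BS D) (Nat.sub_pos_of_lt h.1)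
    (e.trans_le (h.2.le.trans_eq (len_B D).symm)) hE (oE D.q) (sq_rep H _) 0
  rw [e, hN] at this
  rw [LE_em H hj m hE, this, Rb_rep]
  rfl

end Crest.Agent.T156.Cas.C40.L51

end
end

-- ▼ part T156/CY3_20
section

/-!
# Row 156, block C (helper20): the leaf `Y3S`
-/

set_option autoImplicit false
set_option linter.all false

noncomputable section

namespace Crest.Agent.T156.Cas.Y20

open MeasureTheory Real Set Filter Topology
open Crest.Agent.T157.E Crest.Agent.T157.Casc Crest.Agent.T157.SL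
open Wt87 Leg51 Lsg89
open Low51 (prE)
open Tay38 (two_ne)

section inv
variable {Θ : Type} {i : ℕ} {M : List (Lv Θ)} {t : Sh}

/-- skeleton graphs: no loop, no isolated cluster but (if `b`) the marked one -/
structure Iv (i : ℕ) (b : Prop) (t : Sh) (m : t.Lf) (E : Ed t) : Prop where
  sep : Sep i t
  dep : t.dep ≤ i
  ne : ∀ e ∈ E, e.1 ≠ e.2
  dg : ∀ a, (b ∧ a = m) ∨ 1 ≤ dgE E a

theorem Iv.step {b : Prop} {m : t.Lf} {E : Ed t} (h : Iv i b t m E) {n : ℕ} {τ : GT t}
    {op oq : Bool} (H : LM i n t τ op oq) : Iv i b τ.sh (τ.e m) (nx τ E) := by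
  refine ⟨H.sep h.sep, H.dep h.dep, fun e he => ?_, fun y => ?_⟩
  · rcases List.mem_append.1 he with he | he
    · obtain ⟨d, hd, rfl⟩ := List.mem_map.1 he
      exact (LM.inj H).ne (h.ne d hd)
    · rw [List.mem_singleton.1 he]
      exact LM.ne H
  · rw [nx, dgE_snoc]
    rcases Low51.LM.cov H y with ⟨x, rfl⟩ | ⟨-, rfl⟩ | ⟨-, rfl⟩
    · rw [dgE_map (LM.inj H)]
      exact (h.dg x).imp (fun u => ⟨u.1, congrArg _ u.2⟩) fun u => by omega
    · rw [if_pos rfl]
      exact .inr (by omega)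
    · rw [if_pos (rfl : τ.q = τ.q)]
      exact .inr (by omega)

theorem iv_two {j : ℕ} (hj : j ≤ i) (m : (Sh.two j).Lf) :
    Iv i False (.two j) m [(Sh.twoL j, Sh.twoR j)] :=
  ⟨sep_two hj, dep_two hj, fun e he => by rw [List.mem_singleton.1 he]; exact two_ne j,
    fun a => .inr (by rcases two_cases j a with rfl | rfl <;> simp [dgE_cons] <;> omega)⟩

theorem iv_one (i : ℕ) : Iv i True .one () [] :=
  ⟨sep_one i, Nat.zero_le _, fun _ h => absurd h List.not_mem_nil, fun _ => .inl ⟨trivial, rfl⟩⟩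

/-- graph-wise comparison of two skeleton sums -/
theorem stp_sub (hM : Mono 0 M) (hi : i ≤ M.length) {V V' : VF} {β : ℝ} (hβ : 0 ≤ β) {N n : ℕ}
    {b : Prop} (h0 : ∀ t m E, Iv i b t m E → E.length = n → Fintype.card t.Lf ≤ N →
      |V t m E - V' t m E| ≤ β) :
    ∀ k t m E, Iv i b t m E → E.length + k = n → Fintype.card t.Lf + 2 * k ≤ N →
      |(stp (-1) i M)^[k] V t m E - (stp (-1) i M)^[k] V' t m E| ≤ (5 * (N : ℝ) ^ 2) ^ k * β
  | 0, t, m, E, h, hn, hN => (h0 t m E h hn hN).trans_eq (by simp)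
  | k + 1, t, m, E, h, hn, hN => by
      rw [Function.iterate_succ_apply', Function.iterate_succ_apply', stp, stp, lsg_sub]
      refine (abs_lsg_le (by simp) hM (β := (5 * (N : ℝ) ^ 2) ^ k * β) (by positivity)
        fun τ op oq H => stp_sub hM hi hβ h0 k _ _ _ (h.step H) (by simp [nx]; omega)
          (by have := LM.card H hi; omega)).trans ?_
      have : (Fintype.card t.Lf : ℝ) ≤ N := Nat.cast_le.2 (by omega)
      rw [pow_succ' (5 * (N : ℝ) ^ 2), mul_assoc (5 * (N : ℝ) ^ 2)]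
      gcongr

end inv

section cd
open Crest.ProbabilityR.SpinGlassDynamics (spin)
open C40 One15

variable {D : CD} {τ0 : ℝ} {t : Sh}

/-- on a skeleton every leaf is a cluster -/
theorem Lc_sep {Ω : Type} [Fintype Ω] {w : Ω → ℝ} (hw : Wt w) {L : List (Lv Ω)} {i : ℕ}
    (hi : i < L.length) (hs : Sep i t) (h : Ω → ℝ) (F : (t.Lf → Ω) → ℝ) :
    R90.Lc w L h i Unit t (fun y => F fun a => y a ()) = TE w t L h F :=
  (R90.Lc_eq (h := h) hw hi t id (fun _ => ()) (Ker15.um_sm t id L.length) id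
    (fun a b => ⟨fun u => hs a b u.1, fun u => ⟨by rw [show a = b from u]; exact shr_self _ _ _, rfl⟩⟩)
    (fun a b u => by
      have h1 := R90.shr_cut hi t a b
      have h2 : t.shr a b (i + 1) ≠ i + 1 := fun e => u (hs a b e)
      change t.shr a b (i + 1) = t.shr a b L.length
      omega) F).trans (R90.TK_sm hw t Function.injective_id F)

theorem Bk_eq (h : D.Ok τ0) (hs : Sep D.J t) (E : Ed t) :
    L51.Bk D 3 t E = Bk (fun _ => 1) D.B 0 (UL D) t E :=
  Eq.trans (congrArg (L51.LC D t) (funext fun y => congrArg List.prod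
    (List.zipWith_map_left (l₁ := [UL D, UL D, UL D]) (f := R90.cp ()))))
    (Lc_sep wt_one90 (L51.cut_B h) hs 0 (prE D.B.length [UL D, UL D, UL D] E))

theorem gd_cd (h : D.Ok τ0) : (∀ d, Odd d → gd (D.S.drop D.J) d 0 = 0) ∧
    (∀ d ≤ 6, |gd (D.S.drop D.J) d 0| ≤ cB6) ∧ ∀ d ≤ 6, 1 ≤ d → ∀ y,
      |gd (D.S.drop D.J) d y| ≤ cB6 ∧ (Odd d → |gd (D.S.drop D.J) d y| ≤ cB6 * |y|) ∧
        (Even d → |gd (D.S.drop D.J) d y - gd (D.S.drop D.J) d 0| ≤ cB6 * y ^ 2) := by
  obtain ⟨l, L, e, -, r, hm⟩ := site_cons h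
  rw [e]
  exact ⟨fun d hd => gs_even_zero (fl_of r) (Nat.Odd.sub_odd hd odd_one),
    fun d hd => (abs_gs_le hm _ _).trans (le_cB6 (by omega)).1,
    fun d hd h1 => gd_facts (fl_of r) hm h1 hd⟩

theorem Gm_odd (h : D.Ok τ0) {j : ℕ} (hj : j ∈ D.up) (d : ℕ) (hd : Odd d) : Gm D j d 0 = 0 := by
  obtain ⟨l, L, e, -, r, -⟩ := site_cons h
  obtain ⟨k, hk⟩ := Nat.exists_eq_succ_of_ne_zero
    (show j - D.J ≠ 0 by have := (CD.mem_up.1 hj).1; omega)
  unfold Gm
  rw [e, hk]
  exact MG_odd_zero (fl_of r) (s := .two (k + 1)) rfl (fun x => by simp [pr2, oE, One15.spin_not]) hd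

theorem eg_gd (B : List (Lv Bool)) (d : ℕ) : Eg fun z => gd B d (xs z) :=
  (funext (GC_spin B (d - 1)) :) ▸ eg_GC w1 B _ _

theorem eg_Gm (D : CD) (j d : ℕ) : Eg fun z => Gm D j d (xs z) :=
  (funext (MG_xs _ _ _ d) :) ▸ eg_LW w1 _ _ _ _ _ _

/-- one graph: the cluster values are frozen -/
theorem frz (h : D.Ok τ0) {b : Prop} {G : ℕ → ℝ → ℝ} (he : ∀ d, Eg fun z => G d (xs z))
    (hG : ∀ d ≤ 6, b ∨ 1 ≤ d → ∀ y, |G d y| ≤ cB6 ∧ (Odd d → |G d y| ≤ cB6 * |y|) ∧
      (Even d → |G d y - G d 0| ≤ cB6 * y ^ 2)) (t : Sh) (m : t.Lf) (E : Ed t)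
    (H : Iv D.J b t m E) (hE : E.length = 3) (hc : Fintype.card t.Lf ≤ 7) :
    |L51.Bk D 3 t E * Leg51.SK (fun _ => 1) t D.S D.J (fun a z =>
        if a = m then G (dgE E a) (xs z) else gd (D.S.drop D.J) (dgE E a) (xs z)) 0 -
      V0 (fun _ => 1) D.B 0 (UL D) (fun d => gd (D.S.drop D.J) d 0) (fun d => G d 0) t m E| ≤
      τ0 ^ 3 * (D.X ^ 3 + 3 * D.tl) * (7 * cB6 ^ 9 * (40 * D.X ^ 3)) := by
  have hd : ∀ a, dgE E a ≤ 6 := fun a => (dgE_le E a).trans_eq (by rw [hE])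
  have k : ∀ a y, |(if a = m then G (dgE E a) y else gd (D.S.drop D.J) (dgE E a) y)| ≤ cB6 ∧
      (Odd (dgE E a) → |(if a = m then G (dgE E a) y else gd (D.S.drop D.J) (dgE E a) y)| ≤
        cB6 * |y|) ∧ (Even (dgE E a) →
        |(if a = m then G (dgE E a) y else gd (D.S.drop D.J) (dgE E a) y) -
          if a = m then G (dgE E a) 0 else gd (D.S.drop D.J) (dgE E a) 0| ≤ cB6 * y ^ 2) :=
    fun a y => by
      split_ifs with e
      · exact hG _ (hd a) ((H.dg a).imp_left And.left) y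
      · exact (gd_cd h).2.2 _ (hd a) ((H.dg a).resolve_left fun u => e u.2) y
  have hX := h.X0
  have h1 := SK_par (C.forall₂_sl spin (opV_nn (n := D.n) (β := D.β) h.ook))
    (Cav22.mono_tilt tilt_opS.symm h.mono) (i := D.J) (h.cut.le.trans_eq opS_length.symm)
    (σ := D.X ^ 3) (by positivity) (pow_le_one₀ hX h.X1)
    ((opV_acc h.cut.le).trans_le (by rw [h.qlo _ le_rfl, mul_zero, zero_add]; exact h.h1)) H.dep E
    one_le_cB6 (g := fun a y => if a = m then G (dgE E a) y else gd (D.S.drop D.J) (dgE E a) y)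
    (fun a => by
      split_ifs
      exacts [he _, eg_gd _ _])
    (fun a y => (k a y).1) (fun a u y => (k a y).2.1 u) fun a u y => (k a y).2.2 u
  rw [Bk_eq h H.sep, V0, ← mul_sub, abs_mul]
  refine mul_le_mul (abs_Bk_le h t hE H.ne) (h1.trans ?_) (abs_nonneg _)
    (by have := h.tau0; have := h.tl0; positivity)
  have : (Fintype.card t.Lf : ℝ) ≤ 7 := by exact_mod_cast hc
  have := one_le_cB6
  gcongr
  omega

theorem bX_le (h : D.Ok τ0) : τ0 ^ 3 * (D.X ^ 3 + 3 * D.tl) * D.X ^ 3 ≤ 4 * τ0 ^ 3 * D.E0 := by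
  have h1 := mul_le_of_le_one_right h.tl0 (pow_le_one₀ (n := 3) h.X0 h.X1)
  have := mul_le_mul_of_nonneg_left (show (D.X ^ 3 + 3 * D.tl) * D.X ^ 3 ≤ 4 * D.E0 by
    nlinarith [h.X6_le, h.tl_le]) (pow_nonneg h.tau0 3)
  linarith

theorem y3_val : Bd false fun D => L90.cw D [aL, aL, aL] - -(D.lam3 * D.S3) :=
  Bd.val fun τ0 => ⟨(5 * 7 ^ 2) ^ 2 * (280 * cB6 ^ 9) * (4 * τ0 ^ 3), fun D h hW => by
    have hb : 0 ≤ τ0 ^ 3 * (D.X ^ 3 + 3 * D.tl) * (7 * cB6 ^ 9 * (40 * D.X ^ 3)) := by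
      have := h.tau0; have := h.tl0; have := h.X0; have := one_le_cB6; positivity
    have k : ∀ j ∈ Finset.range (D.J + 1),
        |(stp (-1) D.J D.B)^[2] (L51.Vv D 3) (.two j) (Sh.twoL j) [(Sh.twoL j, Sh.twoR j)] +
          8 * D.lam ^ 3 * C2 (fun _ => 1) D.B 0 (UL D) D.J j| ≤ (5 * 7 ^ 2) ^ 2 *
          (τ0 ^ 3 * (D.X ^ 3 + 3 * D.tl) * (7 * cB6 ^ 9 * (40 * D.X ^ 3))) := fun j hj => by
      have h1 := stp_sub h.mono (L51.cut_B h).le (V := L51.Vv D 3) (N := 7) hb
        (fun t m E H hE hc => by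
          have := frz h (eg_gd _)
            (fun d hd u => (gd_cd h).2.2 d hd (u.resolve_left id)) t m E H hE hc
          simp only [ite_self] at this
          exact this)
        2 _ (Sh.twoL j) _ (iv_two (Nat.lt_succ_iff.1 (Finset.mem_range.1 hj)) _) rfl
        (by rw [card_two]; norm_num)
      have h2 := val3 (w := fun _ => 1) (L := D.B) (h := 0) (i := D.J) (ε := -1) (UL_symm h)
        (gd_cd h).1 (gd_cd h).1 j (Sh.twoL j) (.inl rfl)
      rw [show ∀ V, (stp (-1) D.J D.B)^[2] V = stp (-1) D.J D.B (stp (-1) D.J D.B V) from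
        fun _ => rfl] at h1 ⊢
      rw [show ∀ V, (stp (-1) D.J D.B)^[2] V = stp (-1) D.J D.B (stp (-1) D.J D.B V) from
        fun _ => rfl, h2, ← lam_eq h] at h1
      convert h1 using 2
      · ring
      · norm_num
    rw [show [aL, aL, aL] = List.replicate (2 + 1) aL from rfl,
      L51.cw_rep_val h (Option.isSome_eq_false_iff.1 hW |> Option.isNone_iff_eq_none.1), CD.lam3,
      CD.dd_val hW, S3_eq h, C3, sub_neg_eq_add, ← mul_assoc, Finset.mul_sum,
      ← Finset.sum_add_distrib]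
    refine (Finset.abs_sum_le_sum_abs _ _).trans ((Finset.sum_le_sum fun j hj =>
      (?_ : _ ≤ D.dx j * _)).trans ((Finset.sum_mul _ _ _).symm.trans_le
        ((mul_le_of_le_one_left (mul_nonneg (by positivity : (0 : ℝ) ≤ (5 * 7 ^ 2) ^ 2) hb)
          ((h.sum_dx _).trans_le (h.x1.trans h.X1))).trans ?_)))
    · rw [mul_left_comm, ← mul_add, abs_mul, abs_of_nonneg (h.dx0 j), mul_comm _ (8 : ℝ)]
      exact mul_le_mul_of_nonneg_left (k j hj) (h.dx0 j)
    · have := mul_le_mul_of_nonneg_left (bX_le h) (show 0 ≤ (5 * 7 ^ 2) ^ 2 * (280 * cB6 ^ 9) by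
        have := one_le_cB6; positivity)
      linarith⟩

theorem y3_test : Bd true fun D => L90.cw D [aL, aL, aL] - -(D.lam3 * D.S3) :=
  Bd.mk' fun τ0 => ⟨((5 * 7 ^ 2) ^ 3 * (280 * cB6 ^ 9) + 48 * cB6 ^ 4 +
      48 * cB6 ^ 2 * cD bM 2 0) * (4 * τ0 ^ 3), fun D h hW => by
    have c1 := one_le_cB6
    have c2 := cD_nn bM_nn 2 0
    have hX := h.X0
    have b0 : 0 ≤ τ0 ^ 3 * (D.X ^ 3 + 3 * D.tl) := by
      have := h.tau0; have := h.tl0; positivity
    have k : ∀ j ∈ D.up, |(stp (-1) D.J D.B)^[3] (L51.Vm D 3 j) .one () [] -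
        24 * (Gm D j 2 0 * D.lam ^ 2) * C3 (fun _ => 1) D.B 0 (UL D) D.J| ≤
          ((5 * 7 ^ 2) ^ 3 * (280 * cB6 ^ 9) + 48 * cB6 ^ 4) *
            (τ0 ^ 3 * (D.X ^ 3 + 3 * D.tl) * D.X ^ 3) := fun j hj => by
      have h1 := stp_sub h.mono (L51.cut_B h).le (V := L51.Vm D 3 j) (N := 7) (by positivity)
        (frz h (eg_Gm D j) fun d hd _ y => (Gm_facts h hj hd y).1) 3 _ _ _ (iv_one _) rfl le_rfl
      have h2 := test3 (h := 0) wt_one90 h.mono (L51.cut_B h).le (UL_symm h) (gd_cd h).1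
        (Gm_odd h hj) c1 (gd_cd h).2.1 (fun d hd => (Gm_facts h hj hd 0).1.1) b0 (abs_T3_le h)
      rw [← lam_eq h] at h2
      have h3 : ex D.B D.J ^ 3 * (τ0 ^ 3 * (D.X ^ 3 + 3 * D.tl) * cB6 ^ 4) ≤
          D.X ^ 3 * (τ0 ^ 3 * (D.X ^ 3 + 3 * D.tl) * cB6 ^ 4) :=
        mul_le_mul_of_nonneg_right (pow_le_pow_left₀ (h.ex0 _) h.x1 3) (by positivity)
      refine (abs_sub_le _ _ _).trans ((add_le_add h1 h2).trans ?_)
      push_cast
      linarith
    have h1 := D.abs_sum_om k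
    rw [D.Iw_const, ← CD.wt_test hW] at h1
    have hl : |D.lam| ≤ cB6 := lam_eq h ▸ (gd_cd h).2.1 2 (by norm_num)
    have h2 : |24 * D.lam ^ 2 * C3 (fun _ => 1) D.B 0 (UL D) D.J *
        (D.dP 2 [] + ∑ j ∈ D.up, D.om j * Gm D j 2 0)| ≤ 24 * cB6 ^ 2 *
          (2 * D.X ^ 2 * (τ0 ^ 3 * (D.X ^ 3 + 3 * D.tl))) * (cD bM 2 0 * D.X * D.wt) := by
      rw [abs_mul, abs_mul, abs_mul, abs_pow, abs_of_pos (by norm_num : (0 : ℝ) < 24)]
      have := abs_C3_le h
      have := dP_two h hW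
      gcongr
    have e : L90.cw D [aL, aL, aL] - -(D.lam3 * D.S3) = ∑ j ∈ D.up, D.om j *
        ((stp (-1) D.J D.B)^[3] (L51.Vm D 3 j) .one () [] -
          24 * (Gm D j 2 0 * D.lam ^ 2) * C3 (fun _ => 1) D.B 0 (UL D) D.J) +
        24 * D.lam ^ 2 * C3 (fun _ => 1) D.B 0 (UL D) D.J *
          (D.dP 2 [] + ∑ j ∈ D.up, D.om j * Gm D j 2 0) := by
      rw [show [aL, aL, aL] = List.replicate 3 aL from rfl, L51.cw_rep_test h hW, CD.lam3,
        CD.dd_test hW, S3_eq h, mul_add, Finset.mul_sum, add_left_comm, ← Finset.sum_add_distrib,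
        sub_neg_eq_add, add_comm]
      exact ac (by ring) (Finset.sum_congr rfl fun j _ => by ring)
    have h3 := mul_le_mul_of_nonneg_left ((mul_le_mul_of_nonneg_left (bX_le h) D.wt0).trans
      ((mul_left_comm _ _ _).trans_le (mul_le_mul_of_nonneg_left h.wtE0_le
        (mul_nonneg (by norm_num : (0 : ℝ) ≤ 4) (pow_nonneg h.tau0 3)))))
      (show 0 ≤ (5 * 7 ^ 2) ^ 3 * (280 * cB6 ^ 9) + 48 * cB6 ^ 4 + 48 * cB6 ^ 2 * cD bM 2 0 by
        positivity)
    rw [e]
    refine (abs_add_le _ _).trans ?_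
    linarith⟩

end cd

end Crest.Agent.T156.Cas.Y20

namespace Crest.Agent.T156.Cas.C40

/-- **the leaf `Y3`** -/
theorem y3S : ∀ b, Y3S b := fun b => by
  have := (L90.red_a3 b).bd (g := fun D => -(D.lam3 * D.S3)) (by
    cases b
    exacts [Y20.y3_val, Y20.y3_test])
  simp only [sub_neg_eq_add] at this
  exact this

end Crest.Agent.T156.Cas.C40

end
end

-- ▼ part T156/CLbA_15
section

/-!
# Row 156, block C: a spin-free low edge (helper15)

If the newest edge is read on clusters only, its graft sum is `O (ex i)` (`DG_free`).  `core` is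
the bound for a word of low letters whose innermost letter has no site factor, for any measure
of the first pair.
-/

set_option autoImplicit false
set_option linter.unusedSectionVars false

noncomputable section

namespace Crest.Agent.T156.Cas.Lb15

open MeasureTheory Real Set Filter Topology
open Crest.Agent.T157.E Crest.Agent.T157.Casc Crest.Agent.T157.SL
open Wt87 Nu87 W90 G90 R90 Mul55 Ker15 Law Wp52

section ws
variable {Θ : Type} {M : List (Lv Θ)} {r : ℕ} {σ : SM r}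

theorem abs_Ws_le (hM : Mono 0 M) (hσ : Rz M.length σ) {G H : Fin r → ℕ → ℝ} (hG : NCm σ G)
    (hH : NCm σ H) (e : ∀ a j, j ≤ M.length → |G a j| ≤ H a j) : |Ws M σ G| ≤ Ws M σ H := by
  have h1 := Ws_mono hM hσ hG hH fun a j hj => (abs_le.1 (e a j hj)).2
  have h2 := Ws_mono hM hσ (G := fun a j => -1 * H a j) (G' := G)
    (fun a b j h => congrArg (-1 * ·) (hH a b j h)) hG fun a j hj => by linarith [(abs_le.1 (e a j hj)).1]
  rw [Ws_mul] at h2
  rw [abs_le]
  constructor <;> linarith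

theorem abs_sum_le' {f : Fin r → ℝ} {c : ℝ} (h : ∀ a, |f a| ≤ c) : |∑ a, f a| ≤ r * c :=
  (Finset.abs_sum_le_sum_abs _ _).trans ((Finset.sum_le_card_nsmul _ _ c fun a _ => h a).trans_eq
    (by simp))

/-- a graft above the cut is an old leaf, up to the weight of the cut -/
theorem Ws_hi (hM : Mono 0 M) (hσ : Rz M.length σ) {i : ℕ} (hi : i < M.length)
    {G : Fin r → ℕ → ℝ} (hG : NCm σ G) {g : Fin r → ℝ} {β : ℝ} (hβ : 0 ≤ β)
    (h1 : ∀ a j, i < j → j ≤ M.length → G a j = g a) (h2 : ∀ a j, j ≤ M.length → |G a j| ≤ β) :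
    |Ws M σ G - ∑ a, g a| ≤ 2 * r * (ex M i * β) := by
  have e0 := ex_nonneg hM i
  have hg : ∀ a, |g a| ≤ β := fun a => h1 a _ hi le_rfl ▸ h2 a _ le_rfl
  have e1 : Ws M σ G = Ws M σ (fun a j => if j ≤ i then G a j else 0) +
      Ws M σ fun a j => if j ≤ i then 0 else g a := by
    rw [← Ws_add]
    refine Ws_congr M σ fun a j hj => ?_
    split_ifs with h
    exacts [(add_zero _).symm, (h1 a j (not_le.1 h) hj).trans (zero_add _).symm]
  have e2 : Ws M σ (fun a j => if j ≤ i then 0 else g a) =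
      ∑ a, g a + ex M i * ∑ a, (0 - g a) / Cas.cls σ a (i + 1) := by
    rw [Ws, Finset.sum_eq_single i (fun j _ hj => by
      rcases lt_or_gt_of_ne hj with h' | h'
      · simp [h'.le, Nat.succ_le_of_lt h']
      · simp [not_le.2 h', not_le.2 (h'.trans j.lt_succ_self)])
      fun h => absurd (Finset.mem_range.2 hi) h]
    simp [not_le.2 hi]
  have b1 := abs_Ws_le hM hσ (G := fun a j => if j ≤ i then G a j else 0)
    (H := fun _ j => β * if j ≤ i then 1 else 0) (fun a b j h => by simp only [hG a b j h])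
    (fun _ _ _ _ => rfl) fun a j hj => by
      split_ifs
      exacts [(h2 a j hj).trans_eq (mul_one β).symm, by simp]
  rw [Ws_mul] at b1
  have b2 := mul_le_mul_of_nonneg_left (Ws_low hM σ i) hβ
  have b3 : |∑ a, (0 - g a) / (Cas.cls σ a (i + 1) : ℝ)| ≤ r * β := abs_sum_le' fun a => by
    rw [abs_div, zero_sub, abs_neg, Nat.abs_cast]
    rcases Nat.eq_zero_or_pos (Cas.cls σ a (i + 1)) with h | h
    · rw [h]; simpa using hβ
    · exact (div_le_self (abs_nonneg _) (Nat.one_le_cast.2 h)).trans (hg a)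
  rw [e1, e2, show ∀ x y z : ℝ, x + (y + z) - y = x + z from fun x y z => by ring]
  refine (abs_add_le _ _).trans ?_
  rw [abs_mul, abs_of_nonneg e0]
  nlinarith [mul_le_mul_of_nonneg_left b3 e0]

/-- **a spin-free edge**: the ends are read on the clusters only -/
theorem DG_free (hM : Mono 0 M) {i : ℕ} (hi : i < M.length) {Ψ : GF}
    (inv : ∀ r (σ : SM r) (E : EL r) a b j, Rz M.length σ → i < j →
      Ψ (r + 1) (gr M.length σ a j) ((0, b.succ) :: E.re Fin.succ) = Ψ r σ ((a, b) :: E))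
    (diag : ∀ r (σ : SM r) (E : EL r) a, Rz M.length σ → Ψ r σ ((a, a) :: E) = 0)
    (hσ : Rz M.length σ) (E : EL r) {β : ℝ} (hβ : 0 ≤ β)
    (bd : ∀ r' (σ' : SM r') (ι : Fin r → Fin r') p, Rz M.length σ' →
      (∀ a b, σ' (ι a) (ι b) = σ a b) → |Ψ r' σ' (p :: E.re ι)| ≤ β) :
    |DG (-1) M Ψ r σ E| ≤ 4 * (r + 1) ^ 2 * (ex M i * β) := by
  have e0 := mul_nonneg (ex_nonneg hM i) hβ
  have e1 : ∑ a, ∑ b ∈ Finset.univ.erase a, Ψ r σ ((a, b) :: E) = ∑ a, ∑ b, Ψ r σ ((a, b) :: E) :=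
    Finset.sum_congr rfl fun a _ => Finset.sum_erase _ (diag r σ E a hσ)
  have b1 := Ws_hi hM hσ hi (hσ.ncm fun σ' => ∑ b : Fin r, Ψ (r + 1) σ' ((0, b.succ) :: E.re Fin.succ))
    (g := fun a => ∑ b, Ψ r σ ((a, b) :: E)) (β := r * β) (by positivity)
    (fun a j h _ => Finset.sum_congr rfl fun b _ => inv r σ E a b j hσ h)
    fun a j _ => abs_sum_le' fun b => bd _ _ _ _ (hσ.gr a j) fun _ _ => rfl
  have b2 := abs_Ws_le hM hσ (hσ.ncm fun σ' => Ws M σ' (fun c k => Ψ (r + 2) (gr M.length σ' c k)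
      ((0, 1) :: E.re fun b => b.succ.succ)) -
      ∑ b : Fin r, Ψ (r + 1) σ' ((b.succ, 0) :: E.re Fin.succ))
    (H := fun _ _ => 2 * (r + 1 : ℕ) * (ex M i * β)) (fun _ _ _ _ => rfl) fun a j _ => by
      have h := hσ.gr a j
      have := Ws_hi hM h hi (h.ncm fun σ' => Ψ (r + 2) σ' ((0, 1) :: E.re fun b => b.succ.succ))
        (g := fun c => Ψ (r + 1) (gr M.length σ a j) ((c, 0) :: E.re Fin.succ)) hβ
        (fun c k hk _ => by
          have := inv (r + 1) _ (E.re Fin.succ) c 0 k h hk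
          rwa [re_re] at this)
        fun c k _ => bd _ _ _ _ (h.gr c k) fun _ _ => rfl
      rwa [Fin.sum_univ_succ, diag _ _ _ _ h, zero_add] at this
  rw [Ws_sub, Ws_const, Fintype.card_fin] at b2
  rw [DG, e1, Ws_add]
  have hr : (0 : ℝ) ≤ r := by positivity
  push_cast at b2
  rw [abs_le] at b1 b2 ⊢
  constructor <;> nlinarith [mul_nonneg hr e0, mul_nonneg hr (mul_nonneg hr e0)]

/-- admissible measures of the first pair -/
structure Mu (M : List (Lv Θ)) (i : ℕ) (μ : ℕ → ℝ) (W : ℝ) : Prop where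
  tot : ∑ j ∈ Finset.range (M.length + 1), |μ j| ≤ W
  low : ∀ D : ℕ → ℝ, (∀ j, 0 ≤ D j) → (∀ j, i < j → D j = 0) →
    ∑ j ∈ Finset.range (M.length + 1), |μ j| * D j ≤ W * Br M D

theorem mu_dm (hM : Mono 0 M) (i : ℕ) : Mu M i (dm M 0) 1 := by
  refine ⟨?_, fun D _ _ => ?_⟩ <;> simp only [abs_of_nonneg (dm_nonneg hM _)]
  · rw [sum_dm, ex_length, sub_zero]
  · rw [one_mul, Br]

theorem mu_up (hM : Mono 0 M) (i : ℕ) (ω : ℕ → ℝ) :
    Mu M i (fun j => if j ∈ Finset.Ioo i M.length then ω j else 0)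
      (∑ j ∈ Finset.Ioo i M.length, |ω j|) := by
  refine ⟨le_of_eq ?_, fun D h0 h1 => ?_⟩
  · simp only [apply_ite abs, abs_zero]
    rw [← Finset.sum_filter]
    refine Finset.sum_congr ?_ fun _ _ => rfl
    ext j
    simp only [Finset.mem_filter, Finset.mem_range, Finset.mem_Ioo]
    omega
  · refine (Finset.sum_eq_zero fun j _ => ?_).trans_le (mul_nonneg
      (Finset.sum_nonneg fun _ _ => abs_nonneg _) (Br_nonneg hM fun j _ => h0 j))
    split_ifs with h
    · rw [h1 j (Finset.mem_Ioo.1 h).1, mul_zero]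
    · rw [abs_zero, zero_mul]

/-- marked low edges -/
theorem avt_edge [Fintype Θ] (hM : Mono 0 M) {i : ℕ} {μ : ℕ → ℝ} {W : ℝ} (H : Mu M i μ W)
    {k N : ℕ} (hk : k ≤ N) {α : Type} [Fintype α] {p q : α → Fin (1 + k + 1)}
    (hpq : ∀ t, p t ≠ q t) {D : α → ℕ → ℝ} (h0 : ∀ t j, 0 ≤ D t j) (h1 : ∀ t j, i < j → D t j = 0)
    {φ : SM (1 + k + 1) → ℝ} (hφ : ∀ σ, Rz M.length σ → |φ σ| ≤ ∑ t, D t (σ (p t) (q t))) :
    |avt M μ k φ| ≤ (3 * (1 + N)) ^ N * (3 * W * ∑ t, Br M (D t)) := by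
  have hB : ∀ t, 0 ≤ Br M (D t) := fun t => Br_nonneg hM fun j _ => h0 t j
  have hW : 0 ≤ W := (Finset.sum_nonneg fun _ _ => abs_nonneg _).trans H.tot
  have hc : (3 * (1 + k : ℝ)) ^ k ≤ (3 * (1 + N)) ^ N :=
    (pow_le_pow_left₀ (by positivity) (by have : (k : ℝ) ≤ N := Nat.cast_le.2 hk; linarith) k).trans
      (pow_le_pow_right₀ (by have : (0 : ℝ) ≤ N := by positivity
                             linarith) hk)
  refine (Finset.abs_sum_le_sum_abs _ _).trans ((Finset.sum_le_sum (g := fun j =>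
    (3 * (1 + k : ℝ)) ^ k * ∑ t, (|μ j| * D t j + 2 * Br M (D t) * |μ j|)) fun j hj => ?_).trans ?_)
  · have hj' := Nat.lt_succ_iff.1 (Finset.mem_range.1 hj)
    rw [abs_mul]
    refine (mul_le_mul_of_nonneg_left ((Site94.abs_avc_le hM (rz_tw _ j) k fun σ hσ _ =>
      hφ σ hσ).trans ((avc_sum k _ _).trans_le (Finset.sum_le_sum fun t _ =>
        Site94.avc_pair_le hM hj' k (h0 t) (hpq t)))) (abs_nonneg _)).trans_eq ?_
    simp only [Finset.mul_sum]
    exact Finset.sum_congr rfl fun t _ => by ring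
  · rw [← Finset.mul_sum, Finset.sum_comm]
    refine mul_le_mul hc ?_ (Finset.sum_nonneg fun t _ => Finset.sum_nonneg fun j _ =>
      add_nonneg (mul_nonneg (abs_nonneg _) (h0 t j))
        (mul_nonneg (mul_nonneg zero_le_two (hB t)) (abs_nonneg _))) (by positivity)
    rw [Finset.mul_sum]
    refine Finset.sum_le_sum fun t _ => ?_
    rw [Finset.sum_add_distrib, ← Finset.mul_sum]
    nlinarith [H.low (D t) (h0 t) (h1 t), mul_le_mul_of_nonneg_left H.tot (hB t)]

end ws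

variable {Ω : Type} [Fintype Ω] {w : Ω → ℝ} {L : List (Lv Ω)} {h : Ω → ℝ} {r n i : ℕ}

/-- the edge number `t` -/
def ed (E : EL r) (H : n ≤ E.length) (t : Fin n) : Fin r × Fin r := E[t.1]'(t.2.trans_le H)

theorem eF_ed {A : Type} (σ : SM r) (x : Fin r → A) : ∀ {n : ℕ} (U : Fin n → ℕ → A → A → ℝ)
    (E : EL r) (H : n ≤ E.length), eF (List.ofFn U) σ E x =
      ∏ t, U t (σ (ed E H t).1 (ed E H t).2) (x (ed E H t).1) (x (ed E H t).2)
  | 0, _, _, _ => by simp [eF]
  | n + 1, U, e :: E, H => by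
      rw [List.ofFn_succ, eF, eF_ed σ x _ E (Nat.le_of_succ_le_succ H), Fin.prod_univ_succ, mul_comm]
      rfl

/-- the first `n` edges, read on the clusters -/
def BE (w : Ω → ℝ) (L : List (Lv Ω)) (h : Ω → ℝ) (i : ℕ) (V : Fin n → ℕ → Ω → Ω → ℝ) : GF :=
  fun _ σ E => if H : n ≤ E.length then BC w L h i σ (fun t => (ed E H t).1) (fun t => (ed E H t).2)
    fun t => V t (σ (ed E H t).1 (ed E H t).2) else 0

variable {V U : Fin n → ℕ → Ω → Ω → ℝ}

theorem BE_re (h0 : ∀ t j, i < j → V t j = 0) {r' : ℕ} {σ : SM r} {σ' : SM r'} (ψ : Fin r' → Fin r)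
    (H : ∀ u v, min (σ' u v) (i + 1) = min (σ (ψ u) (ψ v)) (i + 1)) (E : EL r') :
    BE w L h i V r' σ' E = BE w L h i V r σ (E.re ψ) := by
  by_cases hE : n ≤ E.length
  · have hE' : n ≤ (E.re ψ).length := (re_length E ψ).symm ▸ hE
    have e : ∀ t, ed (E.re ψ) hE' t = (ψ (ed E hE t).1, ψ (ed E hE t).2) := fun t =>
      List.getElem_map _
    rw [BE, BE, dif_pos hE, dif_pos hE', BC, BC]
    simp only [e]
    congr 1
    · funext u v
      by_cases huv : u = v
      · simp [lf, huv]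
      · rw [lf_ne _ _ huv, lf_ne _ _ huv, min_self, H]
        obtain ⟨t, c⟩ := u
        obtain ⟨s, d⟩ := v
        cases c <;> cases d <;> rfl
    · funext y
      refine Finset.prod_congr rfl fun t _ => ?_
      have := H (ed E hE t).1 (ed E hE t).2
      by_cases h1 : σ' (ed E hE t).1 (ed E hE t).2 ≤ i
      · rw [show σ' (ed E hE t).1 (ed E hE t).2 = σ (ψ (ed E hE t).1) (ψ (ed E hE t).2) by omega]
      · rw [h0 t _ (not_le.1 h1), h0 t _ (by omega)]
  · rw [BE, BE, dif_neg hE, dif_neg (re_length E ψ ▸ hE)]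

theorem BE_zero {σ : SM r} {E : EL r} (H : n ≤ E.length) {t : Fin n}
    (ht : V t (σ (ed E H t).1 (ed E H t).2) = 0) : BE w L h i V r σ E = 0 := by
  rw [BE, dif_pos H, BC]
  refine Eq.trans (congrArg _ (funext fun y => ?_)) ((TK_mul 0 fun _ => 0).trans (zero_mul _))
  rw [zero_mul]
  exact Finset.prod_eq_zero (Finset.mem_univ t) (by rw [ht]; rfl)

theorem abs_BE_le (hw : Wt w) {a : Fin n → ℝ} (hV : ∀ t j x y, |V t j x y| ≤ a t)
    (ha : ∀ t, 0 ≤ a t) {σ : SM r} (hσ : Rz L.length σ) (E : EL r) :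
    |BE w L h i V r σ E| ≤ ∏ t, a t := by
  unfold BE
  split_ifs with H
  · refine (abs_TK_le hw (um_lf (um_rz hσ) _ _) (G := fun _ => ∏ t, a t) fun y => ?_).trans_eq
      (TK_const hw (um_lf (um_rz hσ) _ _) _)
    rw [Finset.abs_prod]
    exact Finset.prod_le_prod (fun _ _ => abs_nonneg _) fun t _ => hV _ _ _ _
  · rw [abs_zero]
    exact Finset.prod_nonneg fun t _ => ha t

theorem prod_sub_le {ι : Type} [DecidableEq ι] {x y : ι → ℝ} {b : ℝ} (hb : 1 ≤ b)
    (hx : ∀ t, |x t| ≤ b) (hy : ∀ t, |y t| ≤ b) (T : Finset ι) :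
    |∏ t ∈ T, x t - ∏ t ∈ T, y t| ≤ b ^ T.card * ∑ t ∈ T, |x t - y t| := by
  induction T using Finset.induction_on with
  | empty => simp
  | insert s T hs ih =>
    have h1 : |∏ t ∈ T, y t| ≤ b ^ T.card := by
      rw [Finset.abs_prod, ← Finset.prod_const]
      exact Finset.prod_le_prod (fun _ _ => abs_nonneg _) fun t _ => hy t
    have h2 : 0 ≤ b ^ T.card := by positivity
    rw [Finset.prod_insert hs, Finset.prod_insert hs, Finset.sum_insert hs,
      Finset.card_insert_of_notMem hs, show x s * ∏ t ∈ T, x t - y s * ∏ t ∈ T, y t =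
        x s * (∏ t ∈ T, x t - ∏ t ∈ T, y t) + (x s - y s) * ∏ t ∈ T, y t by ring, pow_succ']
    refine (abs_add_le _ _).trans ?_
    rw [abs_mul, abs_mul]
    have h3 := mul_le_mul (hx s) ih (abs_nonneg _) (zero_le_one.trans hb)
    have h4 := mul_le_mul_of_nonneg_left h1 (abs_nonneg (x s - y s))
    nlinarith [mul_le_mul_of_nonneg_right hb (mul_nonneg h2 (abs_nonneg (x s - y s)))]

/-- the error of the letter `t` at the level `j` -/
def De (w : Ω → ℝ) (L : List (Lv Ω)) (h : Ω → ℝ) (i : ℕ) (U V : Fin n → ℕ → Ω → Ω → ℝ)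
    (a : Fin n → ℝ) (b : ℝ) (t : Fin n) (j : ℕ) : ℝ :=
  if j ≤ i then b ^ n * pi2 w L j (fun x y => |U t j x y - V t j x y|) h +
    (∏ s, a s) * (n ^ 2 * (VV w L h i j (V t j) / a t ^ 2)) else 0

theorem De_nonneg (hw : Wt w) (hi : i < L.length) {a : Fin n → ℝ} (ha : ∀ t, 0 < a t) {b : ℝ}
    (hb : 1 ≤ b) (t : Fin n) (j : ℕ) : 0 ≤ De w L h i U V a b t j := by
  unfold De
  split_ifs with hj
  · exact add_nonneg (mul_nonneg (by positivity) (pi2_nonneg hw _ _ (fun _ _ => abs_nonneg _) _))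
      (mul_nonneg (Finset.prod_pos fun t _ => ha t).le (mul_nonneg (by positivity)
        (div_nonneg (VV_nonneg hw i (hj.trans hi.le) _) (sq_nonneg _))))
  · exact le_rfl

theorem repl_one (hw : Wt w) (hi : i < L.length) (U0 : ∀ t j, i < j → U t j = 0)
    (V0 : ∀ t j, i < j → V t j = 0) {a : Fin n → ℝ} (ha : ∀ t, 0 < a t)
    (hV : ∀ t j x y, |V t j x y| ≤ a t) {b : ℝ} (hb : 1 ≤ b) (hU : ∀ t j x y, |U t j x y| ≤ b)
    (hab : ∀ t, a t ≤ b) {σ : SM r} (hσ : Rz L.length σ) {E : EL r} (H : n ≤ E.length) :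
    |tmG w L h (List.ofFn U) r σ E - BE w L h i V r σ E| ≤
      ∑ t, De w L h i U V a b t (σ (ed E H t).1 (ed E H t).2) := by
  classical
  have e : tmG w L h (List.ofFn U) r σ E = TM w L h σ fun x =>
      ∏ t, U t (σ (ed E H t).1 (ed E H t).2) (x (ed E H t).1) (x (ed E H t).2) :=
    congrArg (TM w L h σ) (funext fun x => eF_ed σ x U E H)
  by_cases hl : ∀ t, σ (ed E H t).1 (ed E H t).2 ≤ i
  · have h1 := repl_TK (h := h) hw (um_rz hσ) hi (p := fun t => (ed E H t).1)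
      (q := fun t => (ed E H t).2) hl (U := fun t => V t (σ (ed E H t).1 (ed E H t).2)) ha le_rfl
      fun t x y => (hV t _ x y).trans_eq (one_mul _).symm
    have ne : ∀ t, (ed E H t).1 ≠ (ed E H t).2 := fun t e => by
      have := hl t
      rw [e, hσ.self] at this
      omega
    have h2 := abs_TK_le (L := L) (h := h) hw (um_rz hσ) fun x => prod_sub_le hb
      (x := fun t => U t (σ (ed E H t).1 (ed E H t).2) (x (ed E H t).1) (x (ed E H t).2))
      (y := fun t => V t (σ (ed E H t).1 (ed E H t).2) (x (ed E H t).1) (x (ed E H t).2))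
      (fun t => hU _ _ _ _) (fun t => (hV _ _ _ _).trans (hab t)) Finset.univ
    rw [TK_sub, TK_mul, TK_sum, Finset.card_univ, Fintype.card_fin] at h2
    rw [e, TM_eq hw hσ, BE, dif_pos H]
    refine (abs_sub_le _ _ _).trans ((add_le_add h2 h1).trans_eq ?_)
    rw [Finset.mul_sum, Finset.mul_sum, ← Finset.sum_add_distrib]
    refine Finset.sum_congr rfl fun t _ => ?_
    rw [De, if_pos (hl t), Er, Fintype.card_fin, TK_pair hw (um_rz hσ) (ne t)
      fun x y => |U t (σ (ed E H t).1 (ed E H t).2) x y - V t (σ (ed E H t).1 (ed E H t).2) x y|]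
    simp only [if_neg (not_lt.2 (hV t _ _ _)), pi2_const hw, mul_zero, add_zero]
  · obtain ⟨t, ht⟩ := not_forall.1 hl
    rw [BE_zero H (V0 t _ (not_le.1 ht)), e, show (fun x : Fin r → Ω =>
      ∏ t, U t (σ (ed E H t).1 (ed E H t).2) (x (ed E H t).1) (x (ed E H t).2)) = fun _ => 0 from
        funext fun x => Finset.prod_eq_zero (Finset.mem_univ t)
          (by rw [U0 t _ (not_le.1 ht)]; rfl), TM_const hw hσ, sub_zero, abs_zero]
    exact Finset.sum_nonneg fun t _ => De_nonneg hw hi ha hb t _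

theorem ok_app {k : ℕ} {N : EL (1 + k + 1)} (hO : N.Ok) : EL.Ok (N ++ [(old k 1, old k 0)]) :=
  fun e he => by
    rcases List.mem_append.1 he with he | he
    · exact hO e he
    · rw [List.mem_singleton.1 he]
      exact fun h => by simpa [old] using congrArg Fin.val h

/-- the constant of `core` -/
def cL (k : ℕ) : ℝ := cG (k + 1) * (3 * (1 + (2 * (k + 1) : ℕ))) ^ (2 * (k + 1)) * 3 +
  cG k * (3 * (1 + (2 * k : ℕ))) ^ (2 * k) * 3 * (4 * (2 * k + 3) ^ 2)

theorem cL_nonneg (k : ℕ) : 0 ≤ cL k := by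
  have := cG_pos k
  have := cG_pos (k + 1)
  unfold cL
  positivity

/-- **a word of low letters whose innermost letter is spin-free** -/
theorem core (hw : Wt w) (hL : Mono 0 L) (hi : i < L.length) {μ : ℕ → ℝ} {W : ℝ}
    (Hμ : Mu L i μ W) {U V : Fin (n + 2) → ℕ → Ω → Ω → ℝ} (U0 : ∀ t j, i < j → U t j = 0)
    (V0 : ∀ t j, i < j → V t j = 0) {a : Fin (n + 2) → ℝ} (ha : ∀ t, 0 < a t)
    (hV : ∀ t j x y, |V t j x y| ≤ a t) {b : ℝ} (hb : 1 ≤ b) (hU : ∀ t j x y, |U t j x y| ≤ b)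
    (hab : ∀ t, a t ≤ b) {c : GF} {z : ℝ} (hz : 0 ≤ z)
    (hc : ∀ r σ E, Rz L.length σ → |c r σ E| ≤ z)
    (hc' : ∀ r σ E a j, Rz L.length σ → c (r + 1) (gr L.length σ a j) (E.re Fin.succ) = c r σ E)
    {k : ℕ} (hk : n ≤ k) :
    |LamG L μ (k + 1) fun r σ E => tmG w L h (List.ofFn U) r σ E * c r σ E.tail| ≤
      cL k * (W * z * (∑ t, Br L (De w L h i U V a b t) + ex L i ^ 2 * ∏ t, a t)) := by
  have hW : 0 ≤ W := (Finset.sum_nonneg fun _ _ => abs_nonneg _).trans Hμ.tot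
  have hA : 0 < ∏ t, a t := Finset.prod_pos fun t _ => ha t
  have hx := ex_nonneg hL i
  have D0 := De_nonneg (h := h) (U := U) (V := V) hw hi ha hb
  have hS : 0 ≤ ∑ t, Br L (De w L h i U V a b t) :=
    Finset.sum_nonneg fun t _ => Br_nonneg hL fun j _ => D0 t j
  set Ψ : GF := fun r σ E => BE w L h i V r σ E * c r σ E.tail with hΨ
  have b1 := abs_LamG_le (M := L) μ (k + 1)
    (fun r σ E => tmG w L h (List.ofFn U) r σ E * c r σ E.tail - Ψ r σ E) fun k' hk' N hN hO => by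
      have H : n + 2 ≤ (N ++ [(old k' 1, old k' 0)]).length := by simp [hN, hk]
      refine avt_edge hL Hμ hk' (p := fun t => (ed _ H t).1) (q := fun t => (ed _ H t).2)
        (fun t => ok_app hO _ (List.getElem_mem _))
        (D := fun t j => z * De w L h i U V a b t j) (fun t j => mul_nonneg hz (D0 t j))
        (fun t j hj => by rw [De, if_neg (not_le.2 hj), mul_zero]) fun σ hσ => ?_
      rw [hΨ, ← sub_mul, abs_mul, ← Finset.mul_sum, mul_comm z]
      exact mul_le_mul (repl_one hw hi U0 V0 ha hV hb hU hab hσ H) (hc _ _ _ hσ) (abs_nonneg _)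
        (Finset.sum_nonneg fun t _ => D0 t _)
  have b2 := abs_LamG_le (M := L) μ k (DG (-1) L Ψ) fun k' hk' N hN hO => by
      have H : 1 ≤ (N ++ [(old k' 1, old k' 0)]).length := by simp
      refine avt_edge hL Hμ hk' (p := fun _ : Unit => (ed _ H 0).1) (q := fun _ => (ed _ H 0).2)
        (fun t => ok_app hO _ (List.getElem_mem _))
        (D := fun _ j => 4 * (2 * k + 3) ^ 2 * (ex L i * (z * ∏ t, a t)) * if j ≤ i then 1 else 0)
        (fun t j => by positivity) (fun t j hj => by rw [if_neg (not_le.2 hj), mul_zero])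
        fun σ hσ => ?_
      set E := N ++ [(old k' 1, old k' 0)] with hE
      have hn : n + 1 ≤ E.length := by simp [hE, hN, hk]
      refine (DG_free hL hi (fun r σ E a b j hσ hj => ?_) (fun r σ E a hσ => ?_) hσ E
        (β := (z * ∏ t, a t) * if σ (ed E H 0).1 (ed E H 0).2 ≤ i then 1 else 0) (by positivity)
        fun r' σ' ι p hσ' hι => ?_).trans ?_
      · refine congrArg₂ (· * ·) ((BE_re V0 (σ := σ) (Fin.cons a id) (fun u v => ?_) _).trans ?_)
          (hc' r σ E a j hσ)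
        · have := hσ.self a
          refine Fin.cases ?_ (fun u => ?_) u <;> refine Fin.cases ?_ (fun v => ?_) v <;>
            simp only [gr_00, gr_0s, gr_s0, gr_ss, Fin.cons_zero, Fin.cons_succ, id]
          · rw [this]
          · rw [hσ.comm a]; omega
          · omega
        · rw [re_cons, re_re]
          simp only [Fin.cons_zero, Fin.cons_succ, id]
          exact congrArg (fun E' => BE w L h i V r σ ((a, b) :: E')) (re_id E)
      · by_cases hE : n + 2 ≤ ((a, a) :: E).length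
        · exact mul_eq_zero_of_left (BE_zero hE (t := 0) (V0 _ _ (hi.trans_eq (hσ.self a).symm))) _
        · exact mul_eq_zero_of_left (dif_neg hE) _
      · split_ifs with hl
        · rw [mul_one, hΨ, abs_mul, mul_comm z]
          exact mul_le_mul (abs_BE_le hw hV (fun t => (ha t).le) hσ' _) (hc _ _ _ hσ')
            (abs_nonneg _) hA.le
        · have hE' : n + 2 ≤ (p :: E.re ι).length := by simpa [re_length] using hn
          have e : ed (p :: E.re ι) hE' 1 = (ι (ed E H 0).1, ι (ed E H 0).2) := List.getElem_map _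
          rw [mul_zero, hΨ]
          exact (abs_eq_zero.2 (mul_eq_zero_of_left (BE_zero hE' (t := 1)
            (V0 _ _ (by rw [e, hι]; exact not_le.1 hl))) _)).le
      · rw [Finset.sum_const, Finset.card_univ, Fintype.card_unit, one_nsmul, mul_assoc _ (_ * _),
          mul_assoc (ex L i)]
        refine mul_le_mul_of_nonneg_right (mul_le_mul_of_nonneg_left
          (pow_le_pow_left₀ (by positivity) ?_ 2) (by norm_num)) (by positivity)
        have : (k' : ℝ) ≤ (2 * k : ℕ) := Nat.cast_le.2 hk'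
        push_cast at this ⊢
        linarith
  rw [LamG_sub] at b1
  replace b2 : |LamG L μ (k + 1) Ψ| ≤ _ := b2
  simp only [Br_mul, ← Finset.mul_sum, Finset.sum_const, Finset.card_univ, Fintype.card_unit,
    one_nsmul] at b1 b2
  have g1 := cG_pos k
  have g2 := cG_pos (k + 1)
  have b3 := b2.trans (mul_le_mul_of_nonneg_left (mul_le_mul_of_nonneg_left
    (mul_le_mul_of_nonneg_left (mul_le_mul_of_nonneg_left (Br_le hL i) (by positivity))
      (by positivity)) (by positivity)) g1.le)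
  refine (abs_sub_abs_le_abs_sub _ _ |> sub_le_iff_le_add.1).trans ((add_le_add b1 b3).trans ?_)
  rw [cL, add_mul]
  refine add_le_add (le_trans (le_of_eq (by ring)) (mul_le_mul_of_nonneg_left
    (mul_le_mul_of_nonneg_left (le_add_of_nonneg_right (by positivity)) (mul_nonneg hW hz))
    (by positivity))) (le_trans (le_of_eq (by ring)) (mul_le_mul_of_nonneg_left
    (mul_le_mul_of_nonneg_left (le_add_of_nonneg_left hS) (mul_nonneg hW hz)) (by positivity)))

end Crest.Agent.T156.Cas.Lb15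

end
end

-- ▼ part T156/CLb_15
section

/-!
# Row 156, block C: the low words with a letter `bL` (helper15)
-/

set_option autoImplicit false
set_option linter.unusedSectionVars false
set_option maxHeartbeats 400000

noncomputable section

namespace Crest.Agent.T156.Cas.C40

open MeasureTheory Real Set Filter Topology
open Crest.Agent.T157.E Crest.Agent.T157.Casc Crest.Agent.T157.SL
open Crest.Agent.T157.G1 (ov)
open Crest.ProbabilityR.SpinGlassDynamics (spin)
open Mul55 G90 Nu87 R90 Wp52 Cas.Lb15 OneP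

namespace LbI15

variable {D : CD} {τ0 A T : ℝ}

/-- the bulk kernel of a low letter -/
def Uk (D : CD) (s : Bool) : ℕ → Cube D.n → Cube D.n → ℝ := (lt D.n D.β D.M D.q D.cl (true, s)).1

/-- the same with the overlap clamped at `A` -/
def Vk (D : CD) (A : ℝ) (s : Bool) : ℕ → Cube D.n → Cube D.n → ℝ := fun j x y =>
  if j ≤ D.J then cond s (D.τ j / 2 * clp A (ov x y)) (-(D.τ j / 4) * clp A (ov x y) ^ 2) else 0

theorem Uk_hi (s : Bool) {j : ℕ} (hj : D.J < j) : Uk D s j = 0 :=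
  if_neg (by simpa [CD.cl] using hj)

theorem Vk_hi (s : Bool) {j : ℕ} (hj : D.J < j) : Vk D A s j = 0 := by
  funext x y
  exact if_neg (not_le.2 hj)

theorem Uk_lo (H : D.Ok τ0) (s : Bool) {j : ℕ} (hj : j ≤ D.J) (x y : Cube D.n) :
    Uk D s j x y = cond s (D.τ j / 2 * ov x y) (-(D.τ j / 4) * ov x y ^ 2) := by
  have : Uk D s j = oUb D.n D.β D.M D.q s j := if_pos (by simpa [CD.cl] using hj)
  rw [this]
  cases s <;> simp [oUb, oU, H.qlo j hj]

theorem abs_Uk (H : D.Ok τ0) (hT : τ0 ≤ T) (s : Bool) (j : ℕ) (x y : Cube D.n) :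
    |Uk D s j x y| ≤ T := by
  obtain ⟨h0, h1⟩ := H.tau_mem j
  rcases le_or_gt j D.J with hj | hj
  · have h2 := abs_ov_le x y
    have h3 := abs_nonneg (ov x y)
    rw [Uk_lo H s hj]
    cases s
    · rw [cond_false, abs_mul, abs_neg, abs_pow, abs_of_nonneg (by positivity : 0 ≤ D.τ j / 4)]
      nlinarith [pow_le_one₀ h3 h2 (n := 2)]
    · rw [cond_true, abs_mul, abs_of_nonneg (by positivity : 0 ≤ D.τ j / 2)]
      nlinarith
  · rw [Uk_hi s hj]
    simpa using h0.trans (h1.trans hT)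

theorem abs_Vk (H : D.Ok τ0) (hT : τ0 ≤ T) (hA : 0 < A) (s : Bool) (j : ℕ) (x y : Cube D.n) :
    |Vk D A s j x y| ≤ T * cond s A (A ^ 2) := by
  obtain ⟨h0, h1⟩ := H.tau_mem j
  have h2 := (clp_le hA.le (ov x y)).1
  have h3 := abs_nonneg (clp A (ov x y))
  have h4 : 0 ≤ T := h0.trans (h1.trans hT)
  unfold Vk
  split_ifs
  · cases s
    · rw [cond_false, cond_false, abs_mul, abs_neg, abs_pow,
        abs_of_nonneg (by positivity : 0 ≤ D.τ j / 4)]
      exact mul_le_mul (by linarith) (pow_le_pow_left₀ h3 h2 2) (by positivity) h4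
    · rw [cond_true, cond_true, abs_mul, abs_of_nonneg (by positivity : 0 ≤ D.τ j / 2)]
      exact mul_le_mul (by linarith) h2 h3 h4
  · cases s <;> simp only [abs_zero, cond_true, cond_false] <;> positivity

theorem sub_Vk (H : D.Ok τ0) (hA : 0 < A) (hX : D.X ≤ A) (s : Bool) {j : ℕ} (hj : j ≤ D.J)
    (x y : Cube D.n) : |Uk D s j x y - Vk D A s j x y| ≤ D.τ j * max (|ov x y| - D.X) 0 := by
  have h0 := (H.tau_mem j).1
  obtain ⟨-, h1, h2⟩ := clp_le hA.le (ov x y)
  have h3 : |ov x y - clp A (ov x y)| ≤ max (|ov x y| - D.X) 0 :=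
    h2.trans (max_le_max_right _ (by linarith))
  have h4 := abs_ov_le x y
  have h5 := abs_nonneg (ov x y - clp A (ov x y))
  rw [Uk_lo H s hj, Vk, if_pos hj]
  cases s
  · have h6 := (abs_add_le (ov x y) (clp A (ov x y))).trans (add_le_add h4 (h1.trans h4))
    rw [cond_false, cond_false, ← mul_sub, sq_sub_sq, abs_mul, abs_mul, abs_neg,
      abs_of_nonneg (by positivity : 0 ≤ D.τ j / 4)]
    have h7 := mul_le_mul h6 h3 h5 (by norm_num)
    nlinarith [mul_le_mul_of_nonneg_left h7 h0, mul_nonneg h0 (h5.trans h3)]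
  · rw [cond_true, cond_true, ← mul_sub, abs_mul, abs_of_nonneg (by positivity : 0 ≤ D.τ j / 2)]
    nlinarith [mul_le_mul_of_nonneg_left h3 h0, mul_nonneg h0 h5]

theorem lip_Vk (hA : 0 < A) (s : Bool) {j : ℕ} (hj : j ≤ D.J) (x y x' y' : Cube D.n) :
    (Vk D A s j x y - Vk D A s j x' y') ^ 2 ≤
      D.τ j ^ 2 * cond s 1 (A ^ 2) * (ov x y - ov x' y') ^ 2 := by
  have h1 := clp_lip A (ov x y) (ov x' y')
  have h2 := sq_nonneg (D.τ j)
  have h3 := sq_nonneg (clp A (ov x y) - clp A (ov x' y'))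
  rw [Vk, Vk, if_pos hj, if_pos hj]
  cases s
  · have h4 : (clp A (ov x y) + clp A (ov x' y')) ^ 2 ≤ (A + A) ^ 2 := sq_le_sq' (abs_le.1
      ((abs_add_le _ _).trans (add_le_add (clp_le hA.le _).1 (clp_le hA.le _).1))).1 (abs_le.1
      ((abs_add_le _ _).trans (add_le_add (clp_le hA.le _).1 (clp_le hA.le _).1))).2
    have h5 := mul_le_mul_of_nonneg_left (mul_le_mul h4 h1 h3 (sq_nonneg _)) h2
    simp only [cond_false]
    rw [← mul_sub, sq_sub_sq, mul_pow, mul_pow]
    nlinarith [mul_nonneg h2 (mul_nonneg (sq_nonneg A) (sq_nonneg (ov x y - ov x' y')))]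
  · simp only [cond_true]
    rw [← mul_sub, mul_pow]
    nlinarith [mul_le_mul_of_nonneg_left h1 h2, mul_nonneg h2 h3]

theorem De_le (H : D.Ok τ0) (hT : τ0 ≤ T) (hT1 : 1 ≤ T) (hA : 0 < A) (hX : D.X ≤ A) {n : ℕ}
    (s : Fin n → Bool) (hs : ∏ t, cond (s t) A (A ^ 2) = A ^ 4) (t : Fin n) :
    Br D.B (De (fun _ => 1) D.B 0 D.J (fun t => Uk D (s t)) (fun t => Vk D A (s t))
      (fun t => T * cond (s t) A (A ^ 2)) T t) ≤
      T ^ (n + 1) * D.tl + 8 * n ^ 2 * T ^ n * (A ^ 2 * D.Lv1) := by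
  have hi : D.J < D.B.length := H.cut.trans_eq D.B_len.symm
  have tl := H.tl0
  have hT0 : 0 < T := one_pos.trans_le hT1
  refine (Br_mono H.mono (g' := fun j => if j ∈ D.lo then T ^ (n + 1) * D.tl +
    8 * n ^ 2 * T ^ n * (A ^ 2 * D.v j (D.J + 1)) else 0) fun j _ => ?_).trans ?_
  · obtain ⟨h0, h1⟩ := H.tau_mem j
    have hv := D.v0 j (D.J + 1)
    unfold De
    by_cases hj : j ≤ D.J
    · have b1 := (pi2_mono wt_one90 D.B j (sub_Vk H hA hX (s t) hj) 0).trans_eq
        (pi2_const_mul _ _ _ _ _ _)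
      have b2 : VV (fun _ => 1) D.B 0 D.J j (Vk D A (s t) j) ≤
          D.τ j ^ 2 * cond (s t) 1 (A ^ 2) * (8 * D.v j (D.J + 1)) :=
        ((TK_mono wt_one90 (um_q4 _ (hj.trans hi.le)) fun y => lip_Vk hA (s t) hj _ _ _ _).trans_eq
          (TK_mul _ _)).trans (mul_le_mul_of_nonneg_left (VV_le wt_one90 hi hj
            fun x z => by rw [ov, ov, dotProduct_comm]) (by cases s t <;> simp <;> positivity))
      have b3 : VV (fun _ => 1) D.B 0 D.J j (Vk D A (s t) j) / (T * cond (s t) A (A ^ 2)) ^ 2 ≤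
          (D.τ j / T) ^ 2 * (8 * D.v j (D.J + 1)) / A ^ 2 :=
        (div_le_div_of_nonneg_right b2 (sq_nonneg _)).trans_eq (by
          cases s t <;> simp only [cond_true, cond_false] <;> field_simp)
      rw [if_pos hj, Finset.prod_mul_distrib, hs, Finset.prod_const, Finset.card_univ,
        Fintype.card_fin]
      refine (add_le_add (mul_le_mul_of_nonneg_left b1 (by positivity)) (mul_le_mul_of_nonneg_left
        (mul_le_mul_of_nonneg_left b3 (by positivity)) (by positivity))).trans ?_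
      split_ifs with hl
      · refine add_le_add ?_ ?_
        · rw [pow_succ, mul_assoc]
          exact mul_le_mul_of_nonneg_left (mul_le_mul (h1.trans hT) (H.envL j hl)
            (pi2_nonneg wt_one90 _ _ (fun _ _ => le_max_right _ _) _) hT0.le) (by positivity)
        · have h2 : (D.τ j / T) ^ 2 ≤ 1 :=
            pow_le_one₀ (by positivity) ((div_le_one hT0).2 (h1.trans hT))
          refine (mul_le_mul_of_nonneg_left (mul_le_mul_of_nonneg_left (div_le_div_of_nonneg_right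
            (mul_le_of_le_one_left (by positivity) h2) (sq_nonneg _)) (by positivity))
            (by positivity)).trans_eq ?_
          field_simp
      · have : j = 0 := by
          rw [CD.mem_lo] at hl
          omega
        have e : D.τ j = 0 := by simp [this, oTau, OneP.dAcc_zero]
        simp [e]
    · rw [if_neg hj, if_neg fun h => hj (CD.mem_lo.1 h).2]
  · simp only [Br, mul_ite, mul_zero]
    rw [Finset.sum_ite_mem, Finset.inter_eq_right.2 fun j hj => Finset.mem_range.2 (by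
      have := (CD.mem_lo.1 hj).2
      omega)]
    simp only [mul_add, Finset.sum_add_distrib, ← Finset.sum_mul]
    refine add_le_add (mul_le_of_le_one_left (by positivity) (H.sum_lo.trans H.X1)) (le_of_eq ?_)
    simp only [CD.Lv1, Finset.mul_sum]
    exact Finset.sum_congr rfl fun j _ => by ring

theorem exists_A (H : D.Ok τ0) : ∃ A : ℝ, 0 < A ∧ A ≤ 1 ∧ D.X ≤ A ∧
    A ^ 2 * D.Lv1 ≤ D.E0 ∧ ex D.B D.J ^ 2 * A ^ 4 ≤ D.E0 := by
  rcases H.X0.eq_or_lt with h | h
  · have h1 : ex D.B D.J = 0 := le_antisymm (H.x1.trans_eq h.symm) (H.ex0 _)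
    have h2 : D.Lv1 = 0 := Finset.sum_eq_zero fun j hj => mul_eq_zero_of_left (le_antisymm
      ((Finset.single_le_sum (fun i _ => H.dx0 i) hj).trans (H.sum_lo.trans_eq h.symm)) (H.dx0 j)) _
    exact ⟨1, one_pos, le_rfl, H.X1, by simpa [h2] using H.E00, by simpa [h1] using H.E00⟩
  · refine ⟨D.X, h, H.X1, le_rfl, le_trans ?_ H.Lad0_le, le_trans ?_ H.X6_le⟩
    · obtain ⟨-, h1, h2⟩ := H.Lad0_parts
      unfold CD.Lad0
      linarith
    · exact (mul_le_mul_of_nonneg_right (pow_le_pow_left₀ (H.ex0 _) H.x1 2)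
        (by positivity)).trans_eq (by ring)

theorem abs_eF {Ω : Type} {r K : ℕ} {σ : SM r} (hσ : Rz K σ) (x : Fin r → Ω) :
    ∀ (Z : List (ℕ → Ω → Ω → ℝ)), (∀ z ∈ Z, ∀ j ≤ K, ∀ a b, |z j a b| ≤ 2) → ∀ E : EL r,
      |eF Z σ E x| ≤ 2 ^ Z.length
  | [], _, _ => by simp [eF]
  | _ :: _, _, [] => by simpa [eF] using one_le_pow₀ one_le_two
  | z :: Z, h, e :: E => by
      rw [eF, abs_mul, List.length_cons, pow_succ]
      exact mul_le_mul (abs_eF hσ x Z (fun z hz => h z (List.mem_cons_of_mem _ hz)) E)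
        (h z List.mem_cons_self _ ((um_rz hσ).le _ _) _ _) (abs_nonneg _) (by positivity)

/-- the constant -/
def cW (τ0 : ℝ) (n k m : ℕ) : ℝ := cL k * 2 ^ m *
  ((n + 2) * (max τ0 1 ^ (n + 3) + 8 * (n + 2) ^ 2 * max τ0 1 ^ (n + 2)) + max τ0 1 ^ (n + 2))

theorem cW_nonneg (τ0 : ℝ) (n k m : ℕ) : 0 ≤ cW τ0 n k m := by
  have := cL_nonneg k
  unfold cW
  positivity

theorem word (H : D.Ok τ0) {μ : ℕ → ℝ} {W : ℝ} (Hμ : Mu D.B D.J μ W) {n k : ℕ} (hk : n ≤ k)
    (s : Fin (n + 2) → Bool) (hs : ∀ A : ℝ, ∏ t, cond (s t) A (A ^ 2) = A ^ 4)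
    (Z : List (ℕ → Bool → Bool → ℝ)) (hZ : ∀ z ∈ Z, ∀ j ≤ D.K, ∀ a b, |z j a b| ≤ 2) :
    |LamG D.B μ (k + 1) fun r σ E => tmG (fun _ => 1) D.B 0 (List.ofFn fun t => Uk D (s t)) r σ E *
      tmG (fun _ => 1) D.S 0 Z r σ E.tail| ≤ cW τ0 n k Z.length * (W * D.E0) := by
  obtain ⟨A, hA, hA1, hX, h1, h2⟩ := exists_A H
  have hW : 0 ≤ W := (Finset.sum_nonneg fun _ _ => abs_nonneg _).trans Hμ.tot
  have hT := le_max_left τ0 1
  have hT1 := le_max_right τ0 1
  set T := max τ0 1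
  have hT0 : 0 < T := one_pos.trans_le hT1
  have rS : ∀ {r} {σ : SM r}, Rz D.B.length σ → Rz D.S.length σ := fun h => Ck32.lenS ▸ h
  refine (core wt_one90 H.mono (H.cut.trans_eq D.B_len.symm) Hμ (U := fun t => Uk D (s t))
    (V := fun t => Vk D A (s t)) (c := tmG (fun _ => 1) D.S 0 Z)
    (fun t j => Uk_hi _) (fun t j => Vk_hi _) (a := fun t => T * cond (s t) A (A ^ 2))
    (fun t => by cases s t <;> simp only [cond_true, cond_false] <;> positivity)
    (fun t => abs_Vk H hT hA _) hT1 (fun t => abs_Uk H hT _)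
    (fun t => mul_le_of_le_one_right hT0.le (by
      cases s t
      exacts [pow_le_one₀ hA.le hA1, hA1])) (z := 2 ^ Z.length) (by positivity)
    (fun r σ E hσ => ?_) (fun r σ E a j hσ => ?_) hk).trans ?_
  · rw [tmG, TM_eq wt_one90 (rS hσ)]
    exact (abs_TK_le wt_one90 (um_rz (rS hσ)) fun x => abs_eF hσ x Z (D.B_len ▸ hZ) E).trans_eq
      (TK_const wt_one90 (um_rz (rS hσ)) _)
  · exact (congrArg _ (funext fun x => eF_re Fin.succ _ x Z E)).trans
      (TM_inj wt_one90 (rS (hσ.gr a j)) (Fin.succ_injective r) _)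
  · have b := Finset.sum_le_card_nsmul Finset.univ _ _ fun t _ => De_le H hT hT1 hA hX s (hs A) t
    rw [Finset.card_univ, Fintype.card_fin, nsmul_eq_mul] at b
    rw [Finset.prod_mul_distrib, hs, Finset.prod_const, Finset.card_univ, Fintype.card_fin, cW]
    have c := cL_nonneg k
    have b2 := b.trans (mul_le_mul_of_nonneg_left (add_le_add
      (mul_le_mul_of_nonneg_left H.tl_le (by positivity))
      (mul_le_mul_of_nonneg_left h1 (by positivity))) (by positivity))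
    have b3 := mul_le_mul_of_nonneg_left h2 (pow_pos hT0 (n + 2)).le
    refine (mul_le_mul_of_nonneg_left (mul_le_mul_of_nonneg_left (add_le_add b2
      ((le_of_eq (by ring)).trans b3)) (by positivity)) c).trans_eq ?_
    push_cast
    ring

theorem eF_one {Ω : Type} {r : ℕ} (σ : SM r) (Z : List (ℕ → Ω → Ω → ℝ)) :
    ∀ E : EL r, eF ((fun _ _ _ => 1) :: Z) σ E = eF Z σ E.tail
  | [] => by funext x; cases Z <;> rfl
  | _ :: _ => funext fun _ => mul_one _

theorem eF_snoc_one {Ω : Type} {r : ℕ} (σ : SM r) (x : Fin r → Ω) :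
    ∀ (Z : List (ℕ → Ω → Ω → ℝ)) (E : EL r), eF (Z ++ [fun _ _ _ => 1]) σ E x = eF Z σ E x
  | [], [] => rfl
  | [], _ :: _ => mul_one _
  | _ :: _, [] => rfl
  | _ :: Z, _ :: E => congrArg (· * _) (eF_snoc_one σ x Z E)

theorem tw_val (H : D.Ok τ0) (hW : D.W.isSome = false) (a : Lt) (f : List Lt) :
    D.tw (a :: f) = LamG D.B (dm D.B 0) f.length fun r σ E =>
      tmG (fun _ => 1) D.B 0 (((a :: f).reverse.map (lt D.n D.β D.M D.q D.cl)).map Prod.fst) r σ E *
      tmG (fun _ => 1) D.S 0 (((a :: f).reverse.map (lt D.n D.β D.M D.q D.cl)).map Prod.snd) r σ E := by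
  rw [CD.tw, CD.dd_val hW, tm_eq H.pos H.ook, List.map_cons, lamB, Ck32.frame, List.length_map,
    List.map_reverse, List.map_cons, List.reverse_cons]
  rfl

theorem tw_test (hW : D.W.isSome = true) (f : List Lt) :
    D.tw f = LamG D.B (fun j => if j ∈ Finset.Ioo D.J D.B.length then D.om j else 0) f.length
      fun r σ E =>
      tmG (fun _ => 1) D.B 0 ((f.reverse.map (lt D.n D.β D.M D.q D.cl)).map Prod.fst) r σ E *
      tmG (fun _ => 1) D.S 0 ((f.reverse.map (lt D.n D.β D.M D.q D.cl)).map Prod.snd ++ [oE D.q])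
        r σ E := by
  have := Ck32.frame (D := D) (fun j => if j ∈ Finset.Ioo D.J D.B.length then D.om j else 0)
    (fun _ _ _ => 1, oE D.q) (f.map (lt D.n D.β D.M D.q D.cl))
  simp only [ite_mul, zero_mul] at this
  rw [Finset.sum_ite_mem, Finset.inter_eq_right.2 fun j hj => Finset.mem_range.2 (by
      have := (Finset.mem_Ioo.1 hj).2
      omega), List.length_map (as := f), D.B_len] at this
  rw [CD.tw, CD.dd_test hW, D.B_len]
  refine this.trans (congrArg _ ?_)
  funext r σ E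
  rw [List.map_append, List.map_append, ← List.map_reverse]
  exact congrArg (· * _) (congrArg _ (funext fun x => eF_snoc_one σ x _ E))

theorem mu_test (H : D.Ok τ0) (hW : D.W.isSome = true) :
    Mu D.B D.J (fun j => if j ∈ Finset.Ioo D.J D.B.length then D.om j else 0) D.wt := by
  have := mu_up H.mono D.J D.om
  rwa [show ∑ j ∈ Finset.Ioo D.J D.B.length, |D.om j| = D.wt by
    rw [CD.wt_test hW, D.B_len]
    simp only [CD.Iw, mul_one]] at this

theorem site (D : CD) {r : ℕ} (σ : SM r) (Z : List (ℕ → Bool → Bool → ℝ)) (E : EL r) :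
    tmG (fun _ => 1) D.S 0 ((fun _ _ _ => 1) :: Z) r σ E = tmG (fun _ => 1) D.S 0 Z r σ E.tail :=
  congrArg _ (eF_one σ Z E)

theorem zb (H : D.Ok τ0) {Z : List (ℕ → Bool → Bool → ℝ)}
    (h : ∀ z ∈ Z, z = oE D.q ∨ z = fun _ _ _ => 1) :
    ∀ z ∈ Z, ∀ j ≤ D.K, ∀ a b, |z j a b| ≤ 2 := fun z hz j hj a b => by
  rcases h z hz with rfl | rfl
  exacts [abs_oE_le H.ook hj a b, by norm_num]

theorem s3 (A : ℝ) : ∏ t, cond ((![false, true, true] : Fin 3 → Bool) t) A (A ^ 2) = A ^ 4 := by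
  simp [Fin.prod_univ_succ]
  ring

theorem s2 (A : ℝ) : ∏ t, cond ((![false, false] : Fin 2 → Bool) t) A (A ^ 2) = A ^ 4 := by
  simp [Fin.prod_univ_succ]
  ring

end LbI15

open LbI15

theorem lbF : LbS false := by
  refine ⟨fun τ0 => ⟨cW τ0 1 1 2, cW_nonneg _ _ _ _, fun D H hW => ?_⟩,
    fun τ0 => ⟨cW τ0 0 0 1, cW_nonneg _ _ _ _, fun D H hW => ?_⟩⟩
  · have := word H (mu_dm H.mono D.J) (n := 1) (k := 1) le_rfl _ s3 [oE D.q, oE D.q]
      (zb H (by simp))
    simp only [← site] at this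
    rw [one_mul] at this
    beta_reduce
    rw [tw_val H hW]
    exact this.trans (mul_le_mul_of_nonneg_left (H.E0_le hW) (cW_nonneg _ _ _ _))
  · have := word H (mu_dm H.mono D.J) (n := 0) (k := 0) le_rfl _ s2 [fun _ _ _ => 1]
      (zb H (by simp))
    simp only [← site] at this
    rw [one_mul] at this
    beta_reduce
    rw [tw_val H hW]
    exact this.trans (mul_le_mul_of_nonneg_left (H.E0_le hW) (cW_nonneg _ _ _ _))

theorem lbT : LbS true := by
  refine ⟨fun τ0 => ⟨cW τ0 1 2 3, cW_nonneg _ _ _ _, fun D H hW => ?_⟩,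
    fun τ0 => ⟨cW τ0 0 1 2, cW_nonneg _ _ _ _, fun D H hW => ?_⟩⟩
  · have := word H (mu_test H hW) (n := 1) (k := 2) one_le_two _ s3 [oE D.q, oE D.q, oE D.q]
      (zb H (by simp))
    simp only [← site] at this
    beta_reduce
    rw [tw_test hW]
    exact this.trans (mul_le_mul_of_nonneg_left H.wtE0_le (cW_nonneg _ _ _ _))
  · have := word H (mu_test H hW) (n := 0) (k := 1) zero_le_one _ s2 [fun _ _ _ => 1, oE D.q]
      (zb H (by simp))
    simp only [← site] at this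
    beta_reduce
    rw [tw_test hW]
    exact this.trans (mul_le_mul_of_nonneg_left H.wtE0_le (cW_nonneg _ _ _ _))

/-- **the low words with a letter `bL`** -/
theorem lbS : ∀ b, LbS b
  | false => lbF
  | true => lbT

end Crest.Agent.T156.Cas.C40

end
end

-- ▼ part T156/CCrO_32
section

/-!
# Row 156, block C: the words with an odd number of letters `aL` (helper32)
-/

set_option autoImplicit false
set_option linter.all false

noncomputable section

namespace Crest.Agent.T156.Cas.Ck32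

open MeasureTheory Real Set Filter Topology
open Crest.Agent.T157.E Crest.Agent.T157.Casc Crest.Agent.T157.SL
open Mul55 C40 G90 Nu87

variable {D : CD} {τ0 : ℝ} {r k : ℕ}

theorem dl_eq : ∀ f : List Lt, dl f = f.count aL + 2 * f.count bL
  | [] => rfl
  | (c, b) :: f => by
      have ih := dl_eq f
      have e : dl ((c, b) :: f) = (if c = true then dg (c, b) else 0) + dl f := rfl
      rw [e, ih, List.count_cons, List.count_cons]
      cases c <;> cases b <;> simp [dg] <;> omega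

theorem len_eq : ∀ f : List Lt, f.length = f.count aL + f.count bL + f.count C40.aU + f.count C40.bU
  | [] => rfl
  | (c, b) :: f => by
      have ih := len_eq f
      simp only [List.length_cons, List.count_cons] at ih ⊢
      cases c <;> cases b <;> simp [ih] <;> omega

theorem exists_edge {Z : ZL r} {f : List Lt} (h : (Z.map Prod.fst).Perm f) {a : Lt} (ha : a ∈ f) :
    ∃ e, (a, e) ∈ Z := by
  obtain ⟨⟨b, e⟩, hz, rfl⟩ := List.mem_map.1 (h.mem_iff.2 ha)
  exact ⟨e, hz⟩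

theorem ae_length (Z : ZL r) : (ae Z).length ≤ Z.length := by
  rw [ae, List.length_map]
  exact List.length_filter_le _ _

theorem sa_length (Z : ZL (1 + k + 1)) : (sa D k Z).length ≤ Z.length + 1 := by
  have := ae_length Z
  unfold sa
  cases D.W with
  | none => exact this.trans (Nat.le_succ _)
  | some ω => exact Nat.succ_le_succ this

/-- the constant of the site factor -/
def cS (n : ℕ) : ℝ := 2 ^ (n + 1) * Site94.cP (2 * n + 2) 2

theorem le_cS {n m : ℕ} (hm : m ≤ n + 1) (hk : k ≤ 2 * n) :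
    (2 : ℝ) ^ m ≤ cS n ∧ 2 ^ m * Site94.cP (1 + k + 1) 2 ≤ cS n := by
  have h1 : (2 : ℝ) ^ m ≤ 2 ^ (n + 1) := pow_le_pow_right₀ one_le_two hm
  refine ⟨h1.trans (le_mul_of_one_le_right (by positivity)
    (Site94.one_le_cP (0 : Fin (2 * n + 2)) 2)),
    mul_le_mul h1 ?_ (Site94.cP_nonneg _ _) (by positivity)⟩
  have h2 : ((1 + k + 1 : ℕ) : ℝ) ≤ (2 * n + 2 : ℕ) := by exact_mod_cast (by omega)
  unfold Site94.cP
  gcongr

theorem cS_nonneg (n : ℕ) : 0 ≤ cS n := mul_nonneg (by positivity) (Site94.cP_nonneg _ _)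

/-- a single letter `aL`: its edge is the only low site edge -/
theorem ae_one {Z : ZL r} {σ : SM r} (hc : Cel D Z σ) (h1 : (Z.map Prod.fst).count aL = 1) :
    ∃ e A', (ae Z).Perm (e :: A') ∧ σ e.1 e.2 ≤ D.J ∧ ∀ e' ∈ A', D.J < σ e'.1 e'.2 := by
  obtain ⟨e, he⟩ := exists_edge (List.Perm.refl _) (List.count_pos_iff.1 (h1 ▸ one_pos))
  have p := List.perm_cons_erase he
  refine ⟨e, ae (Z.erase (aL, e)), (p.filter _).map _, (Finset.mem_Icc.1 (hc _ he)).2,
    fun e' he' => ?_⟩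
  obtain ⟨⟨⟨c, b⟩, e''⟩, hz, rfl⟩ := List.mem_map.1 he'
  obtain ⟨hz, hb⟩ := List.mem_filter.1 hz
  obtain rfl : b = true := hb
  cases c
  · exact hc _ (List.mem_of_mem_erase hz)
  · rw [(p.map _).count_eq, List.map_cons, List.count_cons_self] at h1
    have h2 : 0 < ((Z.erase (aL, e)).map Prod.fst).count aL :=
      List.count_pos_iff.2 (List.mem_map.2 ⟨_, hz, rfl⟩)
    omega

theorem site_sa (H : D.Ok τ0) {Z : ZL (1 + k + 1)} (hk : k ≤ 2 * Z.length) {σ : SM (1 + k + 1)}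
    (hσ : Sup D k σ) (hc : Cel D Z σ) : |TS D σ (se D (sa D k Z) σ)| ≤
      cS Z.length * D.X ^ if (Z.map Prod.fst).count aL = 1 then 3 else 0 := by
  obtain ⟨c1, c2⟩ := le_cS (sa_length (D := D) Z) hk
  split_ifs with h1
  · obtain ⟨e, A', p, he, hA⟩ := ae_one hc h1
    refine le_trans ?_ (mul_le_mul_of_nonneg_right c2 (pow_nonneg (X_nonneg H) 3))
    unfold sa
    cases hD : D.W with
    | none => exact site_one H hσ.1 p he hA
    | some ω =>
      exact site_one H hσ.1 ((p.cons _).trans (List.Perm.swap _ _ _)) he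
        (List.forall_mem_cons.2 ⟨(Finset.mem_Ioo.1 (hσ.2 (by simp [hD]))).1, hA⟩)
  · rw [pow_zero, mul_one]
    exact (site_le H hσ.1 _).trans c1

theorem Jw_le (H : D.Ok τ0) {c : ℝ} {a : ℕ → ℝ} (h : D.Iw (fun j => c * a j) ≤ D.E1) :
    c * Jw D a ≤ D.Err := by
  cases hW : D.W.isSome
  · rw [Jw, CD.dd_val hW, mul_zero]
    exact H.Err0
  · rw [Jw, CD.dd_test hW, ← Iw_mul]
    exact h.trans (H.E1_le hW)

theorem wt_le (H : D.Ok τ0) {c : ℝ} (h : c ≤ D.E0) : D.wt * c ≤ D.Err :=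
  (mul_le_mul_of_nonneg_left h wt_nonneg).trans H.wtE0_le

/-- reduction to a function `G` of the split matrix -/
theorem tw_of (H : D.Ok τ0) {f : List Lt} (hf : f ≠ []) {m : ℕ} {c : ℝ} (hc : 0 ≤ c)
    (hm : m ≤ (if f.count aL = 1 then 3 else 0) + dl f)
    (h : ∀ k ≤ 2 * f.length, ∀ Z : ZL (1 + k + 1), (Z.map Prod.fst).Perm f → Lf Z →
      ∃ (Y : SM (1 + k + 1) → (Fin (1 + k + 1) → Cube D.n) → ℝ) (G : SM (1 + k + 1) → ℝ),
        D.X ^ m * av D k G ≤ c * D.Err ∧ ∀ σ, Sup D k σ → 0 ≤ G σ ∧ (Cel D Z σ →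
          (∀ x, upP D Z σ x ≤ Y σ x) ∧ TB D σ (Y σ) ≤ G σ)) :
    |D.tw f| ≤ cG f.length * (|τ0| ^ f.length * cS f.length *
      (c + 2 * 4 ^ f.length * f.length)) * D.Err := by
  have hE := H.Err0
  have hS := cS_nonneg f.length
  have hX := X_nonneg H
  have ht := H.tl0
  rw [mul_assoc]
  refine tw_le H hf (by positivity) fun k hk Z hZ hL => ?_
  obtain ⟨Y, G, h1, h2⟩ := h k hk Z hZ hL
  have hl : Z.length = f.length := by simpa using hZ.length_eq
  refine ⟨fun σ => |τ0| ^ f.length * cS f.length *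
    (D.X ^ m * G σ + 2 * 4 ^ f.length * f.length * D.tl), ?_, fun σ hσ => ⟨?_, fun hc => ?_⟩⟩
  · rw [av_mul, av_add, av_mul, w_const H, mul_assoc (|τ0| ^ f.length * cS f.length), add_mul,
      mul_left_comm D.wt]
    exact mul_le_mul_of_nonneg_left (add_le_add h1 (mul_le_mul_of_nonneg_left (wt_le H H.tl_le)
      (by positivity))) (by positivity)
  · have := (h2 σ hσ).1
    positivity
  · obtain ⟨h3, h4⟩ := (h2 σ hσ).2 hc
    have hG := (h2 σ hσ).1
    have b1 := bulk_le H hσ.1 hc hL (F := fun _ => 1) (Y := Y σ) (y₀ := 4 ^ Z.length)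
      (by positivity) (by simpa using h3) (by simpa using upP_le H hσ.1 · Z)
    have b2 := site_sa H (hl ▸ hk) hσ hc
    have e : dl (Z.map Prod.fst) = dl f := (hZ.map _).sum_eq
    simp only [one_mul, hl, e, hZ.count_eq] at b1 b2
    set s := if f.count aL = 1 then 3 else 0
    have b3 : D.X ^ dl f * D.X ^ s ≤ D.X ^ m := by
      rw [← pow_add]
      exact pow_le_pow_of_le_one hX H.X1 (by omega)
    have b4 : D.X ^ s ≤ 1 := pow_le_one₀ hX H.X1
    refine (mul_le_mul (b1.trans (mul_le_mul_of_nonneg_left (add_le_add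
      (mul_le_mul_of_nonneg_left h4 (by positivity)) le_rfl) (by positivity))) b2 (abs_nonneg _)
      (by positivity)).trans ?_
    rw [mul_mul_mul_comm]
    refine mul_le_mul_of_nonneg_left ?_ (by positivity)
    nlinarith [mul_le_mul_of_nonneg_right b3 hG, mul_le_mul_of_nonneg_left b4
      (show 0 ≤ 2 * 4 ^ f.length * (f.length * D.tl) by positivity)]

theorem lo1_eq {Z : ZL r} {σ : SM r} (hc : Cel D Z σ) {b : Bool} {e : Fin r × Fin r}
    (he : ((true, b), e) ∈ Z) : lo1 D (σ e.1 e.2) = 1 := if_pos (Finset.mem_Icc.1 (hc _ he)).2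

theorem upF_eq {Z : ZL r} {σ : SM r} (hc : Cel D Z σ) {b : Bool} {e : Fin r × Fin r}
    (he : ((false, b), e) ∈ Z) (G : ℕ → ℝ) : upF D G (σ e.1 e.2) = G (σ e.1 e.2) :=
  if_pos (hc _ he)

/-- a low letter, an upper letter, three more powers of `X` -/
theorem bd_lo_up (b : Bool) {f : List Lt} {b₀ b₁ : Bool} (h0 : (true, b₀) ∈ f)
    (h1 : (false, b₁) ∈ f) (hm : 3 ≤ (if f.count aL = 1 then 3 else 0) + dl f) :
    Bd b fun D => D.tw f := Bd.mk' fun τ0 => ⟨_, fun D H _ => by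
  have hw := (cw_pos (2 * f.length)).le
  refine tw_of H (List.ne_nil_of_mem h0) (c := 4 ^ f.length * 2 * (cw (2 * f.length) * 2))
    (by positivity) hm fun k hk Z hZ hL => ?_
  obtain ⟨e0, he0⟩ := exists_edge hZ h0
  obtain ⟨e1, he1⟩ := exists_edge hZ h1
  have hl : Z.length = f.length := by simpa using hZ.length_eq
  refine ⟨fun σ x => 4 ^ f.length * |oU D.q (σ e1.1 e1.2) (x e1.1) (x e1.2)| ^ 1,
    fun σ => 4 ^ f.length * 2 * (lo1 D (σ e0.1 e0.2) * upF D D.g (σ e1.1 e1.2)), ?_,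
    fun σ hσ => ⟨?_, fun hc => ⟨fun x => ?_, ?_⟩⟩⟩
  · have hX := X_nonneg H
    have a1 := wt_le H H.XN1_le
    have a2 := Jw_le H H.IwXg_le
    have a3 : 0 ≤ D.X * (D.wt * D.I D.g + Jw D D.g) := mul_nonneg hX (add_nonneg
      (mul_nonneg wt_nonneg (I_nonneg H g_nonneg)) (Jw_nonneg g_nonneg))
    rw [av_mul, mul_left_comm, mul_assoc (_ * _)]
    refine mul_le_mul_of_nonneg_left ((mul_le_mul_of_nonneg_left
      ((w_lo_up H g_nonneg (hL _ he0) (hL _ he1)).trans
        (mul_le_mul_of_nonneg_right (cw_mono hk) a3)) (by positivity)).trans ?_) (by positivity)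
    rw [mul_left_comm, mul_assoc]
    refine mul_le_mul_of_nonneg_left ?_ hw
    rw [CD.N1] at a1
    nlinarith
  · exact mul_nonneg (by positivity) (mul_nonneg (lo1_nonneg _) (upF_nonneg g_nonneg _))
  · beta_reduce
    rw [pow_one, ← hl]
    exact upP_one H hσ.1 he1 x
  · beta_reduce
    rw [lo1_eq hc he0, upF_eq hc he1, one_mul, TB, TM_mul, mul_assoc]
    refine mul_le_mul_of_nonneg_left ((TB_pow hσ.1 (hL _ he1) 1).trans_le ?_) (by positivity)
    simpa using u_le_g (D := D) (p := 1) (by norm_num) (σ e1.1 e1.2)⟩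

/-- a low letter and five more powers of `X` -/
theorem bd_lo (b : Bool) {f : List Lt} {b₀ : Bool} (h0 : (true, b₀) ∈ f)
    (hm : 5 ≤ (if f.count aL = 1 then 3 else 0) + dl f) :
    Bd b fun D => D.tw f := Bd.mk' fun τ0 => ⟨_, fun D H _ => by
  have hw := (cw_pos (2 * f.length)).le
  refine tw_of H (List.ne_nil_of_mem h0) (c := 4 ^ f.length * cw (2 * f.length))
    (by positivity) hm fun k hk Z hZ hL => ?_
  obtain ⟨e0, he0⟩ := exists_edge hZ h0
  have hl : Z.length = f.length := by simpa using hZ.length_eq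
  refine ⟨fun σ x => 4 ^ f.length, fun σ => 4 ^ f.length * lo1 D (σ e0.1 e0.2), ?_,
    fun σ hσ => ⟨?_, fun hc => ⟨fun x => hl ▸ upP_le H hσ.1 x Z, ?_⟩⟩⟩
  · have hX := X_nonneg H
    have a1 := wt_le H H.X6_le
    rw [av_mul, mul_left_comm, mul_assoc]
    refine mul_le_mul_of_nonneg_left ((mul_le_mul_of_nonneg_left
      ((w_lo H (hL _ he0)).trans (mul_le_mul_of_nonneg_right (cw_mono hk)
        (mul_nonneg wt_nonneg hX))) (by positivity)).trans ?_) (by positivity)
    rw [mul_left_comm]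
    exact mul_le_mul_of_nonneg_left (le_of_eq_of_le (by ring) a1) hw
  · exact mul_nonneg (by positivity) (lo1_nonneg _)
  · beta_reduce
    rw [lo1_eq hc he0, mul_one]
    exact (TM_const wt_one90 hσ.1 _).le⟩

/-- **leaf `CrO`** -/
theorem crO (b : Bool) : CrO b := fun f _ ho hl => by
  have h1 : 0 < f.count aL := ho.pos
  have h0 := List.count_pos_iff.1 h1
  have e1 := dl_eq f
  have e2 := len_eq f
  have h3 : f.count aL = 1 ∨ 3 ≤ f.count aL := by
    obtain ⟨m, hm⟩ := ho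
    omega
  by_cases ha : C40.aU ∈ f
  · exact bd_lo_up b h0 ha (by split_ifs <;> omega)
  by_cases hb : C40.bU ∈ f
  · exact bd_lo_up b h0 hb (by split_ifs <;> omega)
  rw [List.count_eq_zero_of_not_mem ha, List.count_eq_zero_of_not_mem hb] at e2
  exact bd_lo b h0 (by split_ifs <;> omega)

end Crest.Agent.T156.Cas.Ck32

end
end

-- ▼ part T156/CCr5_54

/-!
# Row 156, block C: words of degree at least five (helper54)
-/

set_option autoImplicit false
set_option linter.unusedSectionVars false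

noncomputable section

namespace Crest.Agent.T156.Cas.C40

open MeasureTheory Real Set Filter Topology
open Crest.Agent.T157.E Crest.Agent.T157.Casc Crest.Agent.T157.SL
open Crest.Agent.T157.G1 (ov)
open Mul55 Tay38

namespace Cr54

variable {D : CD} {τ0 : ℝ}

/-- `|U|` off the root -/
abbrev Tn (D : CD) : ℕ → Cube D.n × Bool → Cube D.n × Bool → ℝ :=
  Mul55.aU D.n D.q fun j => j ≠ 0

/-- the moments off the root -/
abbrev mN (D : CD) (p : ℕ) : ℝ := mU D.n D.β D.M D.q (fun j => j ≠ 0) p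

theorem tK0 (H : D.Ok τ0) : 0 ≤ D.τ D.K := (H.ook.oTau_le _ _ _).1

theorem lt_le (H : D.Ok τ0) (a : Lt) {j : ℕ} (hj : j ≤ D.K) (x y : Cube D.n × Bool) :
    |ten (lt D.n D.β D.M D.q D.cl a) j x y| ≤ D.τ D.K * Tn D j x y ^ dg a := by
  rcases eq_or_ne j 0 with rfl | h0
  · have : ten (lt D.n D.β D.M D.q D.cl a) 0 = 0 := (lt_mem H.pos H.ook D.cl a).1
    rw [this]
    simpa using mul_nonneg (tK0 H) (pow_nonneg (aU_nonneg (fun j => j ≠ 0) 0 x y) _)
  · refine (abs_lt_le H.ook D.cl a (fun _ => True) (fun _ _ => trivial) hj x y).trans_eq ?_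
    simp only [Tn, Mul55.aU, h0, ne_eq, not_false_eq_true, if_true]

theorem mN_five (H : D.Ok τ0) : mN D 5 ≤ 7 * D.E0 := by
  have h1 : mN D 5 = _ := H.sum_split (a := D.u 5)
  have h2 := H.sum_u_lo 4
  norm_num at h2
  linarith [H.X6_le, H.tl_le, H.Iu5_le]

theorem mN_le (H : D.Ok τ0) (k : ℕ) : mN D (5 + k) ≤ 2 ^ k * (7 * D.E0) :=
  (mU_succ_le H.ook H.mono _ 5 k).trans (mul_le_mul_of_nonneg_left (mN_five H) (by positivity))

/-- the value of a word -/
theorem abs_tm (H : D.Ok τ0) (f : List Lt) {p : ℕ} (hp : deg f = p + 1) :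
    |tm D.n D.β D.M D.q D.cl f| ≤
      3 * cTay (f.length - 1) p 2 * D.τ D.K ^ f.length * mN D (p + 1) := by
  have := abs_Lam_deg wt_one90 (mono_op (q := D.q) H.mono 0) (aU_nonneg (n := D.n) (q := D.q)
    fun j => j ≠ 0) 0 (fun a => ten (lt D.n D.β D.M D.q D.cl a)) (fun _ => D.τ D.K) dg f
    (fun _ _ => tK0 H) (fun a _ j hj => lt_le H a (by rwa [op_length] at hj)) hp
  rwa [prod_const', mom0_aU H.pos H.ook] at this

/-- a marked pair with a test of degree `m` in front of a word -/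
theorem abs_wB (H : D.Ok τ0) (f : List Lt) {m p j : ℕ} (hp : m + deg f = p + 1) (h0 : j ≠ 0)
    (hj : j ≤ D.K) {G : Cube D.n → Cube D.n → ℝ} {ξ : Bool → Bool → ℝ} {A : ℝ} (hA : 0 ≤ A)
    (hG : ∀ x y a b, |G x y * ξ a b| ≤ A * |oU D.q j x y| ^ m) :
    |wB (-1) D.B (oB D.n D.β D.M D.q []) (f.map (lt D.n D.β D.M D.q D.cl)) (Sh.two j) (pr2 j G)
      (pr2 j ξ)| ≤ cTay f.length p 2 * (A * D.τ D.K ^ f.length) *
        (2 * D.u (p + 1) j + mN D (p + 1)) := by
  have t0 := tK0 H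
  have h1 := abs_twoF_word (ι := Unit) (T := fun _ => Tn D) wt_one90 (mono_op (q := D.q) H.mono 0)
    (fun _ => aU_nonneg _) 0 (fun _ => p) (Q := p) (fun _ => le_rfl) (A := 0)
    (B := fun _ => A * D.τ D.K ^ f.length) le_rfl (fun _ => by positivity)
    (p := (fun i x y => if i = j then G x.1 y.1 * ξ x.2 y.2 else 0, fun d => A * d () ^ m))
    (U := f.map fun r => (ten (lt D.n D.β D.M D.q D.cl r), fun d => D.τ D.K * d () ^ dg r))
    (fun r hr => by
      rcases List.mem_cons.1 hr with rfl | hr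
      · intro i _ x y d hd
        have h2 := hd ()
        have h3 := (aU_nonneg _ i x y).trans h2
        by_cases hi : i = j
        · subst hi
          simp only [Tn, Mul55.aU, h0, ne_eq, not_false_eq_true, if_true] at h2 ⊢
          exact (hG _ _ _ _).trans (by gcongr)
        · simp only [hi, if_false, abs_zero]
          positivity
      · obtain ⟨b, -, rfl⟩ := List.mem_map.1 hr
        exact fun i hi x y d hd => (lt_le H b (by rwa [op_length] at hi) x y).trans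
          (mul_le_mul_of_nonneg_left (pow_le_pow_left₀ (aU_nonneg _ _ _ _) (hd ()) _) t0))
    (fun d hd => by
      have h2 : (f.map fun r => d () ^ dg r).prod ≤ d () ^ deg f :=
        prod_pow_le (ι := Unit) (fun _ => ()) dg hd (fun _ => le_rfl) f
      have h3 := hd ()
      simp only [List.map_cons, List.map_map, Function.comp_def, List.prod_cons,
        List.prod_map_mul, prod_const', Finset.univ_unique, Finset.sum_singleton, zero_add, ← hp]
      calc _ ≤ A * d () ^ m * (D.τ D.K ^ f.length * d () ^ deg f) := by gcongr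
        _ = _ := by rw [pow_add]; ring)
    (j := j) (by rwa [op_length])
  have e : pi2 (fun _ => 1) (op D.n D.β D.M D.q 0) j (fun x y => Tn D j x y ^ (p + 1)) 0 =
      D.u (p + 1) j := by
    have := pi2_op_zero (β := D.β) H.pos H.ook 0 0 j (fun x y => |oU D.q j x y| ^ (p + 1))
      fun _ _ => 1
    rw [Law.ad_zero, pi2_const wt_one90] at this
    simp only [mul_one] at this
    simp only [Tn, Mul55.aU, h0, ne_eq, not_false_eq_true, if_true, this]
    rfl
  simp only [List.map_map, Function.comp_def, List.length_map, Finset.univ_unique,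
    Finset.sum_singleton, zero_add, if_true, e, mom0_aU H.pos H.ook] at h1
  rw [Ex23.wB_eq H.pos H.ook, List.map_map, mul_assoc]
  exact h1

theorem pow_tau (H : D.Ok τ0) (k : ℕ) : D.τ D.K ^ k ≤ |τ0| ^ k :=
  pow_le_pow_left₀ (tK0 H) (H.tau.trans (le_abs_self _)) k

/-- the sum over the marked pair, total degree `5 + k` -/
theorem abs_test (H : D.Ok τ0) (hW : D.W.isSome = true) (f : List Lt) {m k : ℕ}
    (hp : m + deg f = 5 + k) {G : ℕ → Cube D.n → Cube D.n → ℝ} {ξ : ℕ → Bool → Bool → ℝ} {A : ℝ}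
    (hA : 0 ≤ A) (hG : ∀ j ∈ D.up, ∀ x y a b, |G j x y * ξ j a b| ≤ A * |oU D.q j x y| ^ m) :
    |∑ j ∈ D.up, D.om j * wB (-1) D.B (oB D.n D.β D.M D.q []) (f.map (lt D.n D.β D.M D.q D.cl))
      (Sh.two j) (pr2 j (G j)) (pr2 j (ξ j))| ≤
      cTay f.length (4 + k) 2 * (A * |τ0| ^ f.length) * 2 ^ k * 9 * D.Err := by
  set c := cTay f.length (4 + k) 2 * (A * |τ0| ^ f.length) * 2 ^ k with hc
  have h1 := cTay_nonneg f.length (4 + k) 2
  have c0 : 0 ≤ c := by positivity
  refine (D.abs_sum_om (b := fun j => c * (2 * D.u 5 j + 7 * D.E0)) fun j hj => ?_).trans ?_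
  · have hj' := Finset.mem_Ioo.1 hj
    refine (abs_wB H f (p := 4 + k) (by omega) (by omega) hj'.2.le hA (hG j hj)).trans ?_
    rw [show 4 + k + 1 = 5 + k by omega]
    have h2 : D.u (5 + k) j ≤ 2 ^ k * D.u 5 j := Wrd23.uM_succ_le H.ook hj'.2.le 5 k
    have h3 := mN_le H k
    have h4 := pow_tau H f.length
    have h5 := D.u0 (5 + k) j
    have h6 : 0 ≤ mN D (5 + k) := mU_nonneg H.mono _ _
    calc _ ≤ cTay f.length (4 + k) 2 * (A * |τ0| ^ f.length) *
          (2 ^ k * (2 * D.u 5 j + 7 * D.E0)) := by gcongr; linarith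
      _ = _ := by rw [hc]; ring
  · rw [D.Iw_mul, mul_assoc c]
    refine mul_le_mul_of_nonneg_left ?_ c0
    have := H.Iw_split hW (a := fun j => 2 * D.u 5 j) (A := 7 * D.E0) (c := 7) (c' := 2)
      (by norm_num) zero_le_two le_rfl (by rw [D.Iw_mul]; linarith [H.Iwu5_le])
    norm_num at this
    exact this

end Cr54

open Cr54

theorem cr5_false : Cr5 false := fun f _ h5 => Bd.val fun τ0 => by
  obtain ⟨k, hk⟩ := Nat.exists_eq_add_of_le h5
  refine ⟨3 * cTay (f.length - 1) (4 + k) 2 * |τ0| ^ f.length * (2 ^ k * 7), fun D H hW => ?_⟩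
  rw [CD.tw, CD.dd_val hW]
  refine (abs_tm H f (p := 4 + k) (by omega)).trans ?_
  rw [show 4 + k + 1 = 5 + k by omega]
  have h1 := cTay_nonneg (f.length - 1) (4 + k) 2
  have h3 := mN_le H k
  have h4 := pow_tau H f.length
  have h6 : 0 ≤ mN D (5 + k) := mU_nonneg H.mono _ _
  calc _ ≤ 3 * cTay (f.length - 1) (4 + k) 2 * |τ0| ^ f.length * (2 ^ k * (7 * D.E0)) := by gcongr
    _ = _ := by ring

theorem cr5_true : Cr5 true := fun f _ h5 => Bd.mk' fun τ0 => by
  obtain ⟨k, hk⟩ := Nat.exists_eq_add_of_le h5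
  refine ⟨cTay f.length (4 + k) 2 * (2 * |τ0| ^ f.length) * 2 ^ k * 9, fun D H hW => ?_⟩
  rw [CD.tw, CD.dd_test hW]
  exact abs_test H hW f (m := 0) (k := k) (by omega) (G := fun _ _ _ => 1) (ξ := oE D.q)
    zero_le_two fun j hj x y a b => by
      simpa using abs_oE_le H.ook (Finset.mem_Ioo.1 hj).2.le a b

/-- **degree at least five** -/
theorem cr5 : ∀ b, Cr5 b
  | false => cr5_false
  | true => cr5_true


end Crest.Agent.T156.Cas.C40

end
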