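import Crest.Agent.T156.RpB_90
import Crest.Agent.T156.C3nB_47
import Crest.Agent.T156.CWk_55

-- ▼ part T156/CMxT_84
section

/-!
# Row 156: transport of the low split of two clusters (helper84)
-/

set_option autoImplicit false
set_option linter.unusedSectionVars false

noncomputable section

namespace Crest.Agent.T156.Cas.Tr84

open MeasureTheory Real Set Filter Topology
open Crest.Agent.T157.E Crest.Agent.T157.Casc Crest.Agent.T157.SL
open Nu87

variable {Θ : Type} [Fintype Θ] {L : List (Lv Θ)} {r K J y : ℕ}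

/-- all low splits are moved to `J` -/
def sy (J : ℕ) (σ : SM r) : SM r := fun a b => if σ a b ≤ J then J else σ a b

/-- three clusters -/
def Tr (J : ℕ) (σ : SM r) : Prop := ∃ u v w, σ u v ≤ J ∧ σ u w ≤ J ∧ σ v w ≤ J

/-- two clusters, split at `y` -/
def Two (J y : ℕ) (σ : SM r) : Prop := ¬Tr J σ ∧ ∃ a b, σ a b = y

/-- one cluster -/
def One (J : ℕ) (σ : SM r) : Prop := ∀ a b, J < σ a b

open Classical in
/-- a functional of the upper part of two clusters split at `y` -/
def Ph (J y : ℕ) (T : SM r → ℝ) (σ : SM r) : ℝ := if Two J y σ then T (sy J σ) else 0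

theorem cl_iff {σ : SM r} (h : Rz K σ) (hJ : J < K) : W90.Cl σ J 3 ↔ Tr J σ := by
  constructor
  · rintro ⟨A, h1, h2⟩
    obtain ⟨u, hu, v, hv, w, hw, e1, e2, e3⟩ := Finset.two_lt_card.1 h1
    exact ⟨u, v, w, h2 u hu v hv e1, h2 u hu w hw e2, h2 v hv w hw e3⟩
  · rintro ⟨u, v, w, h1, h2, h3⟩
    exact W90.cl_three h (fun e => by rw [e, h.self] at h1; omega)
      (fun e => by rw [e, h.self] at h2; omega) (fun e => by rw [e, h.self] at h3; omega) h1 h2 h3

theorem sy_gr (hJ : J < K) (τ : SM r) (a : Fin r) {j : ℕ} (hj : J < j) :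
    sy J (gr K τ a j) = gr K (sy J τ) a j := by
  funext b c
  refine Fin.cases ?_ (fun b => ?_) b <;> refine Fin.cases ?_ (fun c => ?_) c <;>
    simp only [sy, gr_00, gr_0s, gr_s0, gr_ss]
  all_goals split_ifs <;> omega

theorem sy_gr_one (hJ : J < K) {τ : SM r} (h1 : One J τ) (a : Fin r) {j : ℕ} (hj : j ≤ J) :
    sy J (gr K τ a j) = gr K τ a J := by
  funext b c
  refine Fin.cases ?_ (fun b => ?_) b <;> refine Fin.cases ?_ (fun c => ?_) c <;>
    simp only [sy, gr_00, gr_0s, gr_s0, gr_ss]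
  · rw [if_neg (by omega)]
  · have := h1 c a; split_ifs <;> omega
  · have := h1 b a; split_ifs <;> omega
  · have := h1 b c; split_ifs <;> omega

theorem two_gr_one (hJ : J < K) (hy : y ≤ J) {τ : SM r} (h1 : One J τ) (a : Fin r) (j : ℕ) :
    Two J y (gr K τ a j) ↔ j = y := by
  constructor
  · rintro ⟨-, b, c, h⟩
    revert h
    refine Fin.cases ?_ (fun b => ?_) b <;> refine Fin.cases ?_ (fun c => ?_) c <;>
      simp only [gr_00, gr_0s, gr_s0, gr_ss] <;> intro h
    · omega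
    · have := h1 c a; omega
    · have := h1 b a; omega
    · have := h1 b c; omega
  · rintro rfl
    refine ⟨fun ⟨u, v, w, h⟩ => ?_, 0, a.succ, ?_⟩
    · revert h
      refine Fin.cases ?_ (fun u => ?_) u <;> refine Fin.cases ?_ (fun v => ?_) v <;>
        refine Fin.cases ?_ (fun w => ?_) w <;> simp only [gr_00, gr_0s, gr_s0, gr_ss] <;>
        rintro ⟨e1, e2, e3⟩ <;>
        first | omega | exact absurd e1 (h1 _ _).not_ge | exact absurd e2 (h1 _ _).not_ge |
          exact absurd e3 (h1 _ _).not_ge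
    · have := h1 a a
      rw [gr_0s]
      omega

theorem two_gr (hJ : J < K) (hy : y ≤ J) {τ : SM r} (h : Rz K τ) (h1 : ¬One J τ) (a : Fin r)
    (j : ℕ) : Two J y (gr K τ a j) ↔ Two J y τ ∧ J < j := by
  have cm := h.comm
  constructor
  · rintro ⟨h2, b, c, h3⟩
    have hj : J < j := by
      by_contra hj
      obtain ⟨u, hu⟩ := not_forall.1 h1
      obtain ⟨v, hv⟩ := not_forall.1 hu
      exact h2 ⟨0, u.succ, v.succ, by rw [gr_0s]; omega, by rw [gr_0s]; omega, by
        rw [gr_ss]; omega⟩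
    refine ⟨⟨fun ⟨u, v, w, e⟩ => h2 ⟨u.succ, v.succ, w.succ, e⟩, ?_⟩, hj⟩
    revert h3
    refine Fin.cases ?_ (fun b => ?_) b <;> refine Fin.cases ?_ (fun c => ?_) c <;>
      simp only [gr_00, gr_0s, gr_s0, gr_ss] <;> intro h3
    · omega
    · exact ⟨c, a, by omega⟩
    · exact ⟨b, a, by omega⟩
    · exact ⟨b, c, h3⟩
  · rintro ⟨⟨h2, b, c, h3⟩, hj⟩
    refine ⟨fun ⟨u, v, w, e⟩ => h2 ?_, b.succ, c.succ, h3⟩
    revert e
    refine Fin.cases ?_ (fun u => ?_) u <;> refine Fin.cases ?_ (fun v => ?_) v <;>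
      refine Fin.cases ?_ (fun w => ?_) w <;> simp only [gr_00, gr_0s, gr_s0, gr_ss] <;>
      rintro ⟨e1, e2, e3⟩
    · omega
    · omega
    · omega
    · exact ⟨a, v, w, by rw [cm]; omega, by rw [cm]; omega, e3⟩
    · omega
    · exact ⟨u, a, w, by omega, e2, by rw [cm]; omega⟩
    · exact ⟨u, v, a, e1, by omega, by omega⟩
    · exact ⟨u, v, w, e1, e2, e3⟩

theorem Ws_sy (τ : SM r) {G : Fin r → ℕ → ℝ} (hG : ∀ a, ∀ j ≤ J, G a j = 0) :
    Ws L τ G = Ws L (sy J τ) G := by
  unfold Ws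
  congr 1
  refine Finset.sum_congr rfl fun j _ => congrArg _ (Finset.sum_congr rfl fun a _ => ?_)
  rcases lt_or_ge j J with h | h
  · rw [hG a j h.le, hG a (j + 1) h, sub_self, zero_div, zero_div]
  · congr 2
    exact congrArg Finset.card (Finset.filter_congr fun b _ => by
      simp only [sy]; split_ifs <;> omega)

theorem Ws_one (hJ : J < L.length) (hy : y ≤ J) {τ : SM (r + 1)} (h1 : One J τ) (θ : ℝ) :
    Ws L τ (fun _ j => if j = y then θ else 0) = dm L 0 y * θ := by
  have c : ∀ a, ∀ j ≤ J, cls τ a (j + 1) = r + 1 := fun a j hj => by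
    rw [cls, Finset.filter_true_of_mem fun b _ => by have := h1 a b; omega, Finset.card_univ,
      Fintype.card_fin]
  have hr : ((r : ℝ) + 1) ≠ 0 := by positivity
  have key : ∀ j, ∑ a, ((if j = y then θ else 0) - if j + 1 = y then θ else 0) /
      (cls τ a (j + 1) : ℝ) = (if j = y then θ else 0) - if j + 1 = y then θ else 0 := fun j => by
    rcases le_or_gt j J with h | h
    · simp only [fun a => c a j h, Finset.sum_const, Finset.card_univ, Fintype.card_fin,
        nsmul_eq_mul]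
      push_cast
      exact mul_div_cancel₀ _ hr
    · rw [if_neg (by omega), if_neg (by omega)]
      simp
  have e2 : ∑ m ∈ Finset.range L.length, ex L m * (if m + 1 = y then θ else 0) = exP L 0 y * θ := by
    cases y with
    | zero => simp [exP]
    | succ i =>
      simp only [Nat.add_right_cancel_iff, mul_ite, mul_zero, Finset.sum_ite_eq', exP]
      exact if_pos (Finset.mem_range.2 (by omega))
  simp only [Ws, key, mul_sub, Finset.sum_sub_distrib, e2, if_neg (show ¬L.length = y by omega)]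
  simp only [mul_ite, mul_zero, Finset.sum_ite_eq',
    if_pos (Finset.mem_range.2 (hy.trans_lt hJ)), dm]
  simp
  ring

open Classical in
theorem up1_Ph (hJ : J < L.length) (hy : y ≤ J) (T : SM (r + 2) → ℝ) {τ : SM (r + 1)}
    (h : Rz L.length τ) : up1 L (Ph J y T) τ =
      Ph J y (fun σ => Ws L σ (fun a j => if J < j then T (gr L.length σ a j) else 0) / (r + 1)) τ +
        dm L 0 y * if One J τ then T (gr L.length τ 0 J) / (r + 1) else 0 := by
  rw [up1]
  by_cases h1 : One J τ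
  · rw [if_pos h1, Ph, if_neg fun ⟨_, a, b, e⟩ => by have := h1 a b; omega, zero_add,
      ← mul_div_assoc, ← Ws_one hJ hy h1]
    congr 2
    funext a j
    rw [Ph]
    refine if_congr (two_gr_one hJ hy h1 a j) rfl rfl |>.trans ?_
    split_ifs with e
    · rw [sy_gr_one hJ h1 a (e.trans_le hy), h.gr_eq (b := 0) (h1 _ _).le]
    · rfl
  · rw [if_neg h1, mul_zero, add_zero, Ph]
    split_ifs with h2
    · rw [← Ws_sy τ fun a j hj => if_neg (not_lt.2 hj)]
      congr 2
      funext a j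
      rw [Ph]
      refine if_congr ((two_gr hJ hy h h1 a j).trans (and_iff_right h2)) rfl rfl |>.trans ?_
      split_ifs with e
      · rw [sy_gr hJ τ a e]
      · rfl
    · rw [show (fun a j => Ph J y T (gr L.length τ a j)) = fun _ _ => 0 from funext₂ fun a j =>
        if_neg fun e => h2 ((two_gr hJ hy h h1 a j).1 e).1, Ws_const, mul_zero, zero_div]

/-- **transport** -/
theorem avc_Ph (hJ : J < L.length) {σ : SM (r + 1)} (h : Rz L.length σ) (h1 : One J σ) :
    ∀ (k : ℕ) (T : SM (r + k + 1) → ℝ), ∃ c, ∀ y ≤ J, avc L σ k (Ph J y T) = dm L 0 y * c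
  | 0, T => ⟨0, fun y hy => by
      rw [avc, mul_zero]
      exact if_neg fun ⟨_, a, b, e⟩ => by have := h1 a b; omega⟩
  | k + 1, T => by
      classical
      obtain ⟨c, hc⟩ := avc_Ph hJ h h1 k fun σ =>
        Ws L σ (fun a j => if J < j then T (gr L.length σ a j) else 0) / ((r + k : ℕ) + 1)
      refine ⟨c + avc L σ k fun τ => if One J τ then T (gr L.length τ 0 J) / ((r + k : ℕ) + 1)
        else 0, fun y hy => ?_⟩
      rw [avc, avc_congr h k fun τ hτ => up1_Ph (r := r + k) hJ hy T hτ, avc_add, avc_mul,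
        hc y hy, mul_add]

/-- transport with a bound -/
theorem avc_Ph' (hL : Mono 0 L) (hJ : J < L.length) {σ : SM (r + 1)} (h : Rz L.length σ)
    (h1 : One J σ) (k : ℕ) (T : SM (r + k + 1) → ℝ) {A : Finset ℕ} (hA : ∀ y ∈ A, y ≤ J) {β : ℝ}
    (h0 : 0 ≤ β) (hβ : ∀ y ∈ A, |avc L σ k (Ph J y T)| ≤ dm L 0 y * β) :
    ∃ c, |c| ≤ β ∧ ∀ y ∈ A, avc L σ k (Ph J y T) = dm L 0 y * c := by
  obtain ⟨c, hc⟩ := avc_Ph hJ h h1 k T
  by_cases e : ∃ y ∈ A, dm L 0 y ≠ 0
  · obtain ⟨y, hy, e⟩ := e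
    have hp := (dm_nonneg hL y).lt_of_ne' e
    refine ⟨c, le_of_mul_le_mul_left ?_ hp, fun y hy => hc y (hA y hy)⟩
    have := hβ y hy
    rwa [hc y (hA y hy), abs_mul, abs_of_pos hp] at this
  · refine ⟨0, by rwa [abs_zero], fun y hy => ?_⟩
    have e1 : dm L 0 y = 0 := by
      by_contra e1
      exact e ⟨y, hy, e1⟩
    rw [hc y (hA y hy), e1, zero_mul, zero_mul]

end Crest.Agent.T156.Cas.Tr84

end
end

-- ▼ part T156/CMxB_55

/-!
# Row 156, block C (helper55): two low edges and one upper edge, bulk side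

`NY` = the upper edge read on a fresh pair at its node; `node_le`, `swap_le` = termwise
replacements; `dev_cs`, `beta_Ql` = the two Cauchy-Schwarz steps.
-/

set_option autoImplicit false
set_option linter.all false

noncomputable section

namespace Crest.Agent.T156.Cas.Mb55

open MeasureTheory Real Set Filter Topology
open Crest.Agent.T157.E Crest.Agent.T157.Casc Crest.Agent.T157.SL
open Crest.Agent.T157.G1 (ov)
open Wt87 Nu87 Ker15 R90

variable {Ω : Type} [Fintype Ω] {w : Ω → ℝ} {L : List (Lv Ω)} {h : Ω → ℝ} {R : Ω → Ω → ℝ}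
  {κ κ' ι : Type} [Fintype κ] [Fintype κ'] [Fintype ι] {σ : κ → κ → ℕ}

/-- fresh leaves at depth `t` on the paths of `β` -/
def fT (K : ℕ) (σ : κ → κ → ℕ) (β : ι → κ) (t : ℕ) : κ ⊕ ι → κ ⊕ ι → ℕ :=
  lf K σ (Sum.elim id β) (Sum.elim (fun _ => K) fun _ => t)

section fT
variable {K t : ℕ} {β : ι → κ}

theorem um_fT (H : Um K σ) (β : ι → κ) (t : ℕ) : Um K (fT K σ β t) := um_lf H _ _

theorem fT_ll (H : Um K σ) (a b : κ) : fT K σ β t (.inl a) (.inl b) = σ a b := by
  by_cases e : a = b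
  · rw [e, (um_fT H β t).self, H.self]
  · rw [fT, lf_ne _ _ fun h => e (Sum.inl_injective h)]
    simp [H.le]

theorem fT_lr (H : Um K σ) (a : κ) (v : ι) :
    fT K σ β t (.inl a) (.inr v) = min (σ a (β v)) t := by
  rw [fT, lf_ne _ _ Sum.inl_ne_inr]
  have := H.le a (β v)
  simp only [Sum.elim_inl, Sum.elim_inr, id]
  omega

theorem fT_rl (H : Um K σ) (a : κ) (v : ι) :
    fT K σ β t (.inr v) (.inl a) = min (σ a (β v)) t := by
  rw [(um_fT H β t).comm, fT_lr H]

theorem fT_rr {u v : ι} (e : u ≠ v) :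
    fT K σ β t (.inr u) (.inr v) = min (σ (β u) (β v)) t := by
  rw [fT, lf_ne _ _ fun h => e (Sum.inr_injective h)]
  simp

end fT

/-- a fresh pair at the node of depth `t` on the path of `p` -/
abbrev nT (K : ℕ) (σ : κ → κ → ℕ) (p : κ) (t : ℕ) : κ ⊕ Bool → κ ⊕ Bool → ℕ :=
  fT K σ (fun _ => p) t

/-- `E [G · Q (fresh pair at the node of depth `t` on the path of `p`)]` -/
def NY (w : Ω → ℝ) (L : List (Lv Ω)) (h : Ω → ℝ) (σ : κ → κ → ℕ) (p : κ) (t : ℕ)
    (G : (κ → Ω) → ℝ) (Q : Ω → Ω → ℝ) : ℝ :=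
  TK w L h (nT L.length σ p t) fun x =>
    G (fun a => x (.inl a)) * Q (x (.inr true)) (x (.inr false))

theorem NY_sub (p : κ) (t : ℕ) (G G' : (κ → Ω) → ℝ) (Q : Ω → Ω → ℝ) :
    NY w L h σ p t (fun x => G x - G' x) Q = NY w L h σ p t G Q - NY w L h σ p t G' Q := by
  simp only [NY, sub_mul, TK_sub]


/-- path form -/
theorem NY_tX (hw : Wt w) (s : Sh) {e : κ → s.Lf} (he : Function.Injective e) (p : κ) (t : ℕ)
    (G : (κ → Ω) → ℝ) (Q : Ω → Ω → ℝ) :
    NY w L h (sm s e L.length) p t G Q = tX w s L h fun g x =>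
      G (fun a => x (e a)) * qf (P w (L.drop t) (stT s L h g (e p) t)) Q := by
  have i1 := Tay38.emb_inj s (e p) t
  have i2 := Tay38.emb_inj (s.graft (e p) t) (s.nw (e p) t) t
  have n1 := Tay38.emb_ne s (e p) t
  have n2 := Tay38.emb_ne (s.graft (e p) t) (s.nw (e p) t) t
  let τ := Wf99.gq s (e p) t t
  let e' : κ ⊕ Bool → τ.sh.Lf := Sum.elim (fun a => τ.e (e a)) fun b => cond b τ.p τ.q
  have he' : Function.Injective e' := by
    rintro (a | _ | _) (b | _ | _) x
    exacts [congrArg _ (he (i1 (i2 x))), absurd x (n2 _), absurd (i2 x) (n1 _),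
      absurd x.symm (n2 _), rfl, absurd x.symm (n2 _), absurd (i2 x).symm (n1 _),
      absurd x (n2 _), rfl]
  have H := um_sm s e L.length
  have l1 : ∀ a, sm τ.sh e' L.length (.inl a) (.inr true) = min (sm s e L.length a p) t :=
    fun a => (shr_emb _ _ _ _ _ _).trans ((shr_nw _ _ _ _ _).trans (by
      rw [shr_min, min_comm]; rfl))
  have l2 : ∀ a, sm τ.sh e' L.length (.inl a) (.inr false) = min (sm s e L.length a p) t :=
    fun a => (shr_nw _ _ _ _ _).trans ((shr_nw _ _ _ _ _).trans (by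
      rw [← min_assoc, min_self, shr_min, min_comm]; rfl))
  have l3 : sm τ.sh e' L.length (.inr true) (.inr false) = min (sm s e L.length p p) t :=
    (shr_nw _ _ _ _ _).trans (by rw [shr_self, H.self, min_comm])
  have H' := um_sm τ.sh e' L.length
  have E : nT L.length (sm s e L.length) p t = sm τ.sh e' L.length := by
    funext u v
    show fT _ _ (fun _ => p) t u v = _
    rcases u with a | _ | _ <;> rcases v with b | _ | _
    · exact (fT_ll H a b).trans ((shr_emb _ _ _ _ _ _).trans (shr_emb _ _ _ _ _ _)).symm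
    · rw [fT_lr H, l2]
    · rw [fT_lr H, l1]
    · rw [fT_rl H, H'.comm, l2]
    · rw [(um_fT H _ _).self, H'.self]
    · rw [fT_rr (by decide), H'.comm, l3]
    · rw [fT_rl H, H'.comm, l1]
    · rw [fT_rr (by decide), l3]
    · rw [(um_fT H _ _).self, H'.self]
  rw [NY, E, TK_sm hw _ he']
  exact (Cw55.three hw s L h (fun _ => Q) (fun x => G fun a => x (e a)) (e p)).2.2 t

/-- only the labels that are read and their depths below the node count -/
theorem NY_map (hw : Wt w) {σ' : κ' → κ' → ℕ} (H : Um L.length σ) (H' : Um L.length σ')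
    {φ : ι → κ} {φ' : ι → κ'} {p : κ} {p' : κ'} {t : ℕ} (hk : ∀ a b, φ a = φ b ↔ φ' a = φ' b)
    (hs : ∀ a b, φ a ≠ φ b → σ (φ a) (φ b) = σ' (φ' a) (φ' b))
    (hp : ∀ a, min (σ (φ a) p) t = min (σ' (φ' a) p') t) (G : (ι → Ω) → ℝ) (Q : Ω → Ω → ℝ) :
    NY w L h σ p t (fun y => G fun a => y (φ a)) Q =
      NY w L h σ' p' t (fun y => G fun a => y (φ' a)) Q :=
  TK_map hw (um_fT H _ t) (um_fT H' _ t) (φ := Sum.map φ id) (φ' := Sum.map φ' id)
    (by rintro (a | a) (b | b) <;> simp [hk])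
    (by
      rintro (a | a) (b | b) e
      · simp only [Sum.map_inl, fT_ll H, fT_ll H']
        exact hs a b fun x => e (congrArg Sum.inl x)
      · simp only [Sum.map_inl, Sum.map_inr, fT_lr H, fT_lr H', hp]
      · simp only [Sum.map_inl, Sum.map_inr, fT_rl H, fT_rl H', hp]
      · have e' : a ≠ b := fun x => e (congrArg Sum.inr x)
        simp only [Sum.map_inr, id, fT_rr e', H.self, H'.self])
    fun x => G (fun a => x (.inl a)) * Q (x (.inr true)) (x (.inr false))


/-- the functional `∑ μ_t Q_t (node t)` along a path -/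
abbrev Yp (w : Ω → ℝ) (L : List (Lv Ω)) (h : Ω → ℝ) (S : Finset ℕ) (μ : ℕ → ℝ)
    (Q : ℕ → Ω → Ω → ℝ) (g : NI L → ℝ) : ℝ := ∑ t ∈ S, μ t * qf (P w (L.drop t) (st L t h g)) (Q t)

/-- **Cauchy-Schwarz along the path** -/
theorem NY_cs (hw : Wt w) (H : Um L.length σ) (p : κ) (G : (κ → Ω) → ℝ) (S : Finset ℕ) (μ : ℕ → ℝ)
    (Q : ℕ → Ω → Ω → ℝ) {A Γ : ℝ} (hA : 0 ≤ A) (hΓ : 0 ≤ Γ)
    (HA : TK w L h σ (fun x => G x ^ 2) ≤ A ^ 2)
    (HΓ : pE w L h (fun g _ => Yp w L h S μ Q g ^ 2) ≤ Γ ^ 2) :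
    |∑ t ∈ S, μ t * NY w L h σ p t G (Q t)| ≤ A * Γ := by
  obtain ⟨s, e, -, he, rfl⟩ := H.lab
  rw [TK_sm hw s he] at HA
  simp only [NY_tX hw s he]
  exact Cw55.tail_cen hw s (e p) L h (G := fun _ x => G fun a => x (e a)) (fun _ => Eg.const _) S μ
    (Y := fun t _ z => qf (P w (L.drop t) z) (Q t)) (fun _ _ => eg_qf hw _ _) hA hΓ HA HΓ

/-- **envelope along the path** -/
theorem NY_env (hw : Wt w) (H : Um L.length σ) (p : κ) (G : (κ → Ω) → ℝ) (S : Finset ℕ) (μ : ℕ → ℝ)
    (Q : ℕ → Ω → Ω → ℝ) {A A' F ε : ℝ} (hF : 0 ≤ F) (hA' : 0 ≤ A')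
    (HA : TK w L h σ (fun x => |G x|) ≤ A) (HA' : ∀ x, |G x| ≤ A')
    (HF : pE w L h (fun g _ => max (|Yp w L h S μ Q g| - F) 0) ≤ ε) :
    |∑ t ∈ S, μ t * NY w L h σ p t G (Q t)| ≤ A * F + A' * ε := by
  obtain ⟨s, e, -, he, rfl⟩ := H.lab
  rw [TK_sm hw s he] at HA
  simp only [NY_tX hw s he]
  exact Cw55.tail_env hw s (e p) L h (G := fun _ x => G fun a => x (e a)) (fun _ => Eg.const _) S μ
    (Y := fun t _ z => qf (P w (L.drop t) z) (Q t)) (fun _ _ => eg_qf hw _ _) hF hA' HA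
    (fun _ _ => HA' _) HF

/-! ### termwise replacements -/

theorem mv_le (hw : Wt w) (H : Um L.length σ) {u u' z : κ} {y t : ℕ} (hK : y < L.length)
    (hy : σ u z = y) (hy' : σ u' z = y) (hyt : y ≤ t) (ht : t ≤ σ u u') (V : Ω → Ω → ℝ) :
    TK w L h σ (fun x => (V (x u) (x z) - V (x u') (x z)) ^ 2) ≤ 2 * vU w L h V y t :=
  C3n47.tri_le hw H hK hy hy' hyt ht V

/-- both ends of an edge move -/
theorem par_le (hw : Wt w) (hR : ∀ x y, R x y = R y x) (H : Um L.length σ) {a b a' b' : κ}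
    {y t : ℕ} (hK : y < L.length) (h1 : σ a b = y) (h2 : σ a' b = y) (h3 : σ b' a' = y)
    (hyt : y ≤ t) (ha : t ≤ σ a a') (hb : t ≤ σ b b') :
    TK w L h σ (fun x => (R (x a) (x b) - R (x a') (x b')) ^ 2) ≤ 8 * vU w L h R y t := by
  have e1 := mv_le (h := h) hw H hK h1 h2 hyt ha R
  have e2 := mv_le (h := h) hw H hK ((H.comm _ _).trans h2) h3 hyt hb R
  have e3 := TK_mono (h := h) hw H (F := fun x => (R (x a) (x b) - R (x a') (x b')) ^ 2)
    (G := fun x => 2 * (R (x a) (x b) - R (x a') (x b)) ^ 2 +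
      2 * (R (x b) (x a') - R (x b') (x a')) ^ 2) fun x => by
      rw [hR (x b) (x a'), hR (x b') (x a')]
      nlinarith [sq_nonneg (R (x a) (x b) - 2 * R (x a') (x b) + R (x a') (x b'))]
  rw [TK_add, TK_mul, TK_mul] at e3
  linarith


theorem sub_two (hR1 : ∀ x y, |R x y| ≤ 1) (a b c d : Ω) : |R a b - R c d| ≤ 2 :=
  (abs_sub _ _).trans (by linarith [hR1 a b, hR1 c d])

theorem ne_of_lt (H : Um L.length σ) {a b : κ} (e : σ a b < L.length) : a ≠ b := fun x => by
  rw [x, H.self] at e; omega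



/-! ### the canonical term -/

/-- `E [(m_i · σ)² | node y]` as a function of the states along the path -/
def Ps (w : Ω → ℝ) (L : List (Lv Ω)) (R : Ω → Ω → ℝ) (y i : ℕ) (p : ℕ → Ω → ℝ) : ℝ :=
  Pf w (L.drop y) (p y) fun x => Pf w (L.drop i) (p i) (fun z => R z x) ^ 2

theorem egP_Ps (hw : Wt w) (y i : ℕ) {α : Type} (a : α) :
    EgP fun p : Pa α Ω => Ps w L R y i (p a) :=
  Gf.egP_new hw (F := fun p x => Pf w (L.drop i) (p a i) (fun z => R z x) ^ 2) (fun x => by
    simpa only [sq] using (EgP.state (eg_Pf hw (L.drop i) fun z => R z x) a i).mul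
      (EgP.state (eg_Pf hw (L.drop i) fun z => R z x) a i)) _ a y

/-- the canonical term -/
def bt (w : Ω → ℝ) (L : List (Lv Ω)) (h : Ω → ℝ) (R : Ω → Ω → ℝ) (y i t : ℕ) (Q : Ω → Ω → ℝ) : ℝ :=
  pE w L h fun g _ => qf (P w (L.drop t) (st L t h g)) Q * Ps w L R y i fun j => st L j h g

/-- two fresh legs at depth `i`, one leaf `b` in the other cluster -/
theorem bt_eq (hw : Wt w) (H : Um L.length σ) {p b : κ} {y i : ℕ} (t : ℕ) (hy : σ b p = y)
    (hi : y ≤ i) (hK : y < L.length) (Q : Ω → Ω → ℝ) :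
    NY w L h (nT L.length σ p i) (.inl p) t
      (fun x => R (x (.inr true)) (x (.inl b)) * R (x (.inr false)) (x (.inl b))) Q =
      bt w L h R y i t Q := by
  have nb := ne_of_lt H (hy ▸ hK : σ b p < _)
  let s0 := Sh.one.graft () y
  let p0 : s0.Lf := Sh.one.emb () y ()
  let b0 : s0.Lf := Sh.one.nw () y
  let s1 := s0.graft p0 i
  let p1 : s1.Lf := s0.emb p0 i p0
  let s2 := s1.graft p1 i
  let e : Fin 4 → s2.Lf := ![s1.emb p1 i p1, s1.emb p1 i (s0.emb p0 i b0),
    s1.emb p1 i (s0.nw p0 i), s1.nw p1 i]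
  have n0 : p0 ≠ b0 := Tay38.emb_ne .one () y ()
  have i1 := Tay38.emb_inj s0 p0 i
  have i2 := Tay38.emb_inj s1 p1 i
  have n1 := Tay38.emb_ne s0 p0 i
  have n2 := Tay38.emb_ne s1 p1 i
  have he : Function.Injective e := fun u v x => by
    fin_cases u <;> fin_cases v
    exacts [rfl, absurd (i1 (i2 x)) n0, absurd (i2 x) (n1 _), absurd x (n2 _),
      absurd (i1 (i2 x)).symm n0, rfl, absurd (i2 x) (n1 _), absurd x (n2 _),
      absurd (i2 x).symm (n1 _), absurd (i2 x).symm (n1 _), rfl, absurd x (n2 _),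
      absurd x.symm (n2 _), absurd x.symm (n2 _), absurd x.symm (n2 _), rfl]
  have H' := um_sm s2 e L.length
  have HT := um_fT H (fun _ : Bool => p) i
  have r0 : ∀ k, s0.shr b0 p0 k = min y k := fun k => shr_nw' .one () y () k
  have m01 : sm s2 e L.length 1 0 = y :=
    (shr_emb _ _ _ _ _ _).trans ((shr_emb _ _ _ _ _ _).trans ((r0 _).trans (by omega)))
  have m02 : sm s2 e L.length 0 2 = min L.length i :=
    (shr_emb _ _ _ _ _ _).trans ((shr_nw _ _ _ _ _).trans ((shr_self _ _ _).trans (min_comm _ _)))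
  have m03 : sm s2 e L.length 0 3 = min L.length i :=
    (shr_nw _ _ _ _ _).trans ((shr_self _ _ _).trans (min_comm _ _))
  have m12 : sm s2 e L.length 1 2 = y :=
    (shr_emb _ _ _ _ _ _).trans ((shr_nw _ _ _ _ _).trans ((r0 _).trans (by omega)))
  have m13 : sm s2 e L.length 1 3 = y :=
    (shr_nw _ _ _ _ _).trans ((shr_emb _ _ _ _ _ _).trans ((r0 _).trans (by omega)))
  have m23 : sm s2 e L.length 2 3 = min L.length i :=
    (shr_nw _ _ _ _ _).trans ((shr_nw' _ _ _ _ _).trans ((shr_self _ _ _).trans (by omega)))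
  have E : ∀ u v : Fin 4, nT L.length σ p i
      (![.inl p, .inl b, .inr true, .inr false] u) (![.inl p, .inl b, .inr true, .inr false] v) =
      sm s2 e L.length u v := fun u v => by
    have c := H'.comm
    have l := fun a v => (fT_lr (β := fun _ : Bool => p) (t := i) H a v)
    have l' := fun a v => (fT_rl (β := fun _ : Bool => p) (t := i) H a v)
    have hb : min (σ b p) i = y := by omega
    fin_cases u <;> fin_cases v
    exacts [(HT.self _).trans (H'.self _).symm,
      (fT_ll H _ _).trans (((H.comm _ _).trans hy).trans (m01.symm.trans (c _ _))),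
      (l _ _).trans (by rw [H.self]; exact m02.symm), (l _ _).trans (by rw [H.self]; exact m03.symm),
      (fT_ll H _ _).trans (hy.trans m01.symm), (HT.self _).trans (H'.self _).symm,
      (l _ _).trans (hb.trans m12.symm), (l _ _).trans (hb.trans m13.symm),
      (l' _ _).trans (by rw [H.self]; exact m02.symm.trans (c _ _)),
      (l' _ _).trans (hb.trans (m12.symm.trans (c _ _))), (HT.self _).trans (H'.self _).symm,
      (fT_rr (by decide)).trans (by rw [H.self]; exact m23.symm),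
      (l' _ _).trans (by rw [H.self]; exact m03.symm.trans (c _ _)),
      (l' _ _).trans (hb.trans (m13.symm.trans (c _ _))),
      (fT_rr (by decide)).trans (by rw [H.self]; exact m23.symm.trans (c _ _)),
      (HT.self _).trans (H'.self _).symm]
  refine (NY_map hw HT H' (φ := ![.inl p, .inl b, .inr true, .inr false]) (φ' := id) (p' := 0)
    (fun u v => by fin_cases u <;> fin_cases v <;> simp [nb, nb.symm]) (fun u v _ => E u v)
    (fun u => congrArg (min · t) (E u 0)) (fun x => R (x 2) (x 1) * R (x 3) (x 1)) Q).trans ?_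
  rw [NY_tX hw s2 he]
  have q0 : ∀ {α : Type} (a : α), EgP fun p : Pa α Ω => qf (P w (L.drop t) (p a t)) Q :=
    fun a => .state (eg_qf hw _ _) a t
  have q1 : ∀ {α : Type} (a : α) (x : Ω), EgP fun p : Pa α Ω =>
      Pf w (L.drop i) (p a i) fun z => R z x := fun a x => .state (eg_Pf hw _ _) a i
  refine (tX_graft hw s1 p1 i L h (fun P' x z => R (x (s0.nw p0 i)) (x (s0.emb p0 i b0)) *
    R z (x (s0.emb p0 i b0)) * qf (P w (L.drop t) (P' p1 t)) Q)
    fun _ _ => (EgP.const _).mul (q0 _)).trans ?_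
  refine Eq.trans (congrArg _ ?_) ((tX_graft hw s0 p0 i L h (fun P' x z => R z (x b0) *
    (Pf w (L.drop i) (P' p0 i) (fun z => R z (x b0)) * qf (P w (L.drop t) (P' p0 t)) Q))
    fun _ _ => (EgP.const _).mul ((q1 _ _).mul (q0 _))).trans ?_)
  · funext g x
    simp only [Pf, Finset.sum_mul, Finset.mul_sum]
    exact Finset.sum_congr rfl fun z _ => by ring
  refine Eq.trans (congrArg _ ?_) ((tX_graft hw .one () y L h (fun P' _ z =>
    Pf w (L.drop i) (P' () i) (fun z' => R z' z) ^ 2 * qf (P w (L.drop t) (P' () t)) Q)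
    fun _ _ => by simpa only [sq] using ((q1 _ _).mul (q1 _ _)).mul (q0 _)).trans ?_)
  · funext g x
    simp only [← mul_assoc, ← Finset.sum_mul]
    rw [sq]
    rfl
  refine (Tr.tX_one w L h _).trans (congrArg _ (funext fun g => funext fun x => ?_))
  exact ((Finset.sum_congr rfl fun z _ => (mul_assoc _ _ _).symm).trans
    (Finset.sum_mul _ _ _).symm).trans (mul_comm _ _)



end Crest.Agent.T156.Cas.Mb55

end
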