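import Crest.Agent.T156.CL3_76
import Crest.Agent.T156.CStC_22
import Crest.Agent.T156.Cub_94
import Crest.Agent.T156.CEx_23

/-!
# Row 156, block C: tools for `tU [aU, aU]` (helper54)

Parity at an upper node, Hölder on three edges, two nodes at the marked depth, words on constants.
-/

set_option autoImplicit false
set_option linter.unusedSectionVars false

noncomputable section

namespace Crest.Agent.T156.Cas.C40.StA54

open MeasureTheory Real Set Filter Topology
open Crest.Agent.T157.E Crest.Agent.T157.Casc Crest.Agent.T157.SL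
open Crest.Agent.T157.G1 (ov)
open Crest.ProbabilityR.SpinGlassDynamics (spin)
open Mul55 Nu87 G90 Ck32
open Wp52 (Br Br_nonneg Ws_le)

section gen
variable {Ω : Type} [Fintype Ω] {w : Ω → ℝ}

/-- **a nonempty word kills the constants** -/
theorem WdO_cst (hw : Wt w) (M : List (Lv Ω)) (h : Ω → ℝ) {S : ℕ → Ω → Ω → ℝ}
    {l : List (ℕ → Ω → Ω → ℝ)} (hS : S ∈ Mul55.Ok Ω M.length) (hl : ∀ T ∈ l, T ∈ Mul55.Ok Ω M.length)
    (s : Sh) (c : ℝ) : WdO M (S :: l) (TEf w M h) s (fun _ => c) = 0 := by
  refine pd_wordO hw h M ((FL.ev s fun _ => c).dop M S) (fun M' hM' => ?_) hl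
  obtain ⟨h0, v, hv⟩ := hS
  have h1 := dT_const' hw s M' h h0 c
  rw [dT_eq_sg hw s M' h (c := v) (by rwa [Cav22.len_tilt hM'])] at h1
  rw [← Dop_tilt hM', Dop_eq_sg]
  exact h1



end gen

variable {D : CD} {τ0 : ℝ} {r : ℕ}





/-- two edges between the same two clusters -/
def Db (σ : SM r) (a b c d : Fin r) : Prop :=
  σ a b = σ c d ∧ ((σ a b < σ a c ∧ σ a b < σ b d) ∨ (σ a b < σ a d ∧ σ a b < σ b c))

instance (σ : SM r) (a b c d : Fin r) : Decidable (Db σ a b c d) := by unfold Db; infer_instance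


/-- the bulk factor of three upper edges -/
def Bk (D : CD) (σ : SM r) (l l' a b c d : Fin r) : ℝ :=
  TB D σ fun x => oU D.q (σ l l') (x l) (x l') * oU D.q (σ a b) (x a) (x b) *
    oU D.q (σ c d) (x c) (x d)





end Crest.Agent.T156.Cas.C40.StA54

end
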