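import Crest.Agent.T156.CMxE_84
import Crest.Agent.T156.CMxB_55_Mg
import Crest.Agent.T156.C3L_97
import Crest.Agent.T156.CStA_54
import Crest.Agent.T156.SFReg_97

-- ▼ part T156/CMx1_84
section

/-!
# Row 156, block C: the canonical part of the centred mixed word, and the glue (helper84)
-/

set_option autoImplicit false
set_option linter.unusedSectionVars false

noncomputable section

namespace Crest.Agent.T156.Cas.C40.Mx84

open MeasureTheory Real Set Filter Topology
open Crest.Agent.T157.E Crest.Agent.T157.Casc Crest.Agent.T157.SL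
open Crest.Agent.T157.G1 (ov)
open Mul55 G90 Nu87 Ck32 Tr84
open Cw55 (Uc)

variable {D : CD} {τ0 : ℝ} {r k : ℕ}

/-! ### labels -/

/-- weight of a label that may be the base label -/
def mw (D : CD) (j u : ℕ) : ℝ := if u = j then 1 else D.dx u

/-- weight of a label that may also be absent -/
def nw (D : CD) (j s : ℕ) : ℝ := if s = j ∨ s = D.K then 1 else D.dx s

theorem mw0 (H : D.Ok τ0) (j u : ℕ) : 0 ≤ mw D j u := by
  unfold mw; split_ifs; exacts [zero_le_one, H.dx0 u]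

theorem nw0 (H : D.Ok τ0) (j s : ℕ) : 0 ≤ nw D j s := by
  unfold nw; split_ifs; exacts [zero_le_one, H.dx0 s]

theorem sum_nw (H : D.Ok τ0) (j : ℕ) : ∑ s ∈ Finset.Ioc D.J D.K, nw D j s ≤ 3 := by
  have h1 : ∀ i, ∑ s ∈ Finset.Ioc D.J D.K, (if s = i then (1 : ℝ) else 0) ≤ 1 := fun i => by
    rw [Finset.sum_ite_eq']
    split_ifs <;> norm_num
  refine (Finset.sum_le_sum (g := fun s => (if s = j then 1 else 0) + (if s = D.K then 1 else 0) +
    D.dx s) fun s _ => ?_).trans ?_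
  · have := H.dx0 s
    unfold nw
    split_ifs <;> first | linarith | tauto
  · rw [Finset.sum_add_distrib, Finset.sum_add_distrib]
    linarith [h1 j, h1 D.K, H.sum_dx_one (A := Finset.Ioc D.J D.K) fun i hi =>
      (Finset.mem_Ioc.1 hi).2]

theorem lab_bd (H : D.Ok τ0) {j c : ℕ} {P : SM r → Prop} {A : (SM r → ℝ) → ℝ}
    (W : R90.WB D.B D.J j c P A) {y s u : ℕ} (hy : y ≤ D.J) (hs : D.J < s) (hu : D.J < u)
    (hsu : s ≠ u) {B : ℝ} (hB : 0 ≤ B) {φ : SM r → ℝ} (h : ∀ σ, P σ → φ σ ≠ 0 → |φ σ| ≤ B ∧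
      W90.Lab σ y ∧ W90.Lab σ u ∧ (s ≠ D.K → W90.Lab σ s)) :
    |A φ| ≤ D.dx y * (B * 5 ^ c * (nw D j s * mw D j u)) := by
  classical
  have hj := W.lt
  set S : Finset ℕ := if s = j ∨ s = D.K then ∅ else {s} with hS
  set U : Finset ℕ := if u = j then ∅ else {u} with hU
  have mS : ∀ v ∈ S, v = s ∧ s ≠ j ∧ s ≠ D.K := fun v hv => by
    rw [hS] at hv
    split_ifs at hv with e
    · simp at hv
    · exact ⟨Finset.mem_singleton.1 hv, not_or.1 e⟩
  have mU : ∀ v ∈ U, v = u ∧ u ≠ j := fun v hv => by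
    rw [hU] at hv
    split_ifs at hv with e
    · simp at hv
    · exact ⟨Finset.mem_singleton.1 hv, e⟩
  have pS : ∏ v ∈ S, dm D.B 0 v = nw D j s := by
    rw [hS, nw]; split_ifs <;> simp
  have pU : ∏ v ∈ U, dm D.B 0 v = mw D j u := by
    rw [hU, mw]; split_ifs <;> simp
  have cS : S.card ≤ 1 := by rw [hS]; split_ifs <;> simp
  have cU : U.card ≤ 1 := by rw [hU]; split_ifs <;> simp
  have dj : Disjoint S U := Finset.disjoint_left.2 fun v h1 h2 =>
    hsu ((mS v h1).1.symm.trans (mU v h2).1)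
  have ny : y ∉ S ∪ U := fun e => by
    rcases Finset.mem_union.1 e with e | e
    · have := (mS y e).1; omega
    · have := (mU y e).1; omega
  have h1 := W.ind (insert y (S ∪ U)) 0 fun e => by
    rcases Finset.mem_insert.1 e with e | e
    · omega
    rcases Finset.mem_union.1 e with e | e
    · exact (mS j e).2.1 (mS j e).1.symm
    · exact (mU j e).2 (mU j e).1.symm
  rw [Finset.prod_insert ny, Finset.prod_union dj, pS, pU, Nat.zero_sub, pow_zero,
    mul_one] at h1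
  have c5 : (2 + (insert y (S ∪ U)).card : ℝ) ≤ 5 := by
    have : (insert y (S ∪ U)).card ≤ 3 :=
      (Finset.card_insert_le _ _).trans (by have := Finset.card_union_le S U; omega)
    have : ((insert y (S ∪ U)).card : ℝ) ≤ 3 := by exact_mod_cast this
    linarith
  refine (W.abs_le' (ψ := fun σ => B * W90.ind D.J (insert y (S ∪ U)) 0 σ) fun σ hσ => ?_).trans ?_
  · by_cases e : φ σ = 0
    · rw [e, abs_zero]
      exact mul_nonneg hB (W90.ind_nonneg _ _ _ _)
    · obtain ⟨h2, h3, h4, h5⟩ := h σ hσ e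
      have h6 : ∀ v ∈ insert y (S ∪ U), W90.Lab σ v := fun v hv => by
        rcases Finset.mem_insert.1 hv with e | e
        · exact e ▸ h3
        rcases Finset.mem_union.1 e with e | e
        · exact (mS v e).1 ▸ h5 (mS v e).2.2
        · exact (mU v e).1 ▸ h4
      rw [W90.ind, if_pos ⟨h6, W90.cl_zero σ _⟩, mul_one]
      exact h2
  · rw [W.mul]
    refine (mul_le_mul_of_nonneg_left (h1.trans (mul_le_mul_of_nonneg_right
      (pow_le_pow_left₀ (by positivity) c5 c) (mul_nonneg (H.dx0 y)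
        (mul_nonneg (nw0 H j s) (mw0 H j u))))) hB).trans (le_of_eq (by ring))

/-! ### the canonical form as a sum over labels -/

theorem two_lab {K J : ℕ} {σ : SM r} (h : Rz K σ) (h3 : ¬Tr J σ) {a c a' c' : Fin r}
    (h1 : σ a c ≤ J) (h2 : σ a' c' ≤ J) : σ a' c' = σ a c := by
  have v : ∀ z, J < σ a z ∨ J < σ c z := fun z => by
    by_contra e
    exact h3 ⟨a, c, z, h1, by omega, by omega⟩
  have u := h.ultra
  have m := h.comm
  have := v a'; have := v c'
  have := u a' a c'; have := u a' c c'; have := u a a' c'; have := u c a' c'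
  have := u a c' c; have := u a a' c; have := u a c c'; have := u a c a'; have := u c a c'
  have := u c a a'; have := u a c' a'; have := u c c' a'
  have := m a a'; have := m c a'; have := m c c'; have := m a c; have := m a' c'; have := m a c'
  omega

theorem cat_norm {K y s u : ℕ} (hy : y ≤ u) (hs : u ≤ s) (hu : u ≤ K) :
    cat K y s u = cat K y K u := by
  funext i j
  fin_cases i <;> fin_cases j <;> simp [cat, R90.lf] <;> omega

theorem Bk_norm (D : CD) {y s u : ℕ} (hy : y ≤ u) (hs : u ≤ s) (hu : u ≤ D.K) :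
    Bk D y s u = Bk D y D.K u := by
  rw [Bk, Bk, lenB, cat_norm hy hs hu]

section graph
variable (D) (k) (a c b d p q : Fin (1 + k + 1))

/-- the normalised split of the leg -/
def sn (σ : SM (1 + k + 1)) : ℕ :=
  if max (σ a p) (σ c p) < σ p q then max (σ a p) (σ c p) else D.K

/-- the site coefficient with prescribed upper labels -/
def Th (s u : ℕ) (σ : SM (1 + k + 1)) : ℝ :=
  if σ a c ≤ D.J ∧ σ b d ≤ D.J ∧ sn D k a c p q σ = s ∧ σ p q = u then
    D.τ u / 8 * Ck32.TS D σ (se D (sA D k a c b d p q) σ) else 0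

variable {D k a c b d p q}

open Classical in
theorem Ph_Th (_H : D.Ok τ0) {σ : SM (1 + k + 1)} (hσ : Rz D.B.length σ) {y s u : ℕ} (hy : y ≤ D.J)
    (hu : D.J < u) : Tr84.Ph D.J y (Th D k a c b d p q s u) σ =
      if ¬Tr D.J σ ∧ σ a c = y ∧ σ b d ≤ D.J ∧ sn D k a c p q σ = s ∧ σ p q = u then
        D.τ u / 8 * Ck32.TS D (sety D.J σ) (se D (sA D k a c b d p q) (sety D.J σ)) else 0 := by
  have e1 : ∀ x z, sy D.J σ x z ≤ D.J ↔ σ x z ≤ D.J := fun x z => by
    simp only [sy]; split_ifs <;> omega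
  have e2 : sy D.J σ p q = u ↔ σ p q = u := by simp only [sy]; split_ifs <;> omega
  have e3 : ¬Tr D.J σ → σ a c ≤ D.J → σ p q = u →
      sn D k a c p q (sy D.J σ) = sn D k a c p q σ := fun h1 h2 h3 => by
    have : D.J < σ a p ∨ D.J < σ c p := by
      by_contra e
      exact h1 ⟨a, c, p, h2, by omega, by omega⟩
    have e4 : max (sy D.J σ a p) (sy D.J σ c p) = max (σ a p) (σ c p) := by
      simp only [sy]; split_ifs <;> omega
    rw [sn, sn, e4, e2.2 h3, h3]
  rw [Tr84.Ph, Th]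
  split_ifs with h1 h2 h3 h3 h3
  · rfl
  · obtain ⟨h4, x, z, h5⟩ := h1
    have h6 := (e1 _ _).1 h2.1
    exact absurd ⟨h4, (two_lab hσ h4 h6 (h5.trans_le hy)).symm.trans h5, (e1 _ _).1 h2.2.1,
      (e3 h4 h6 (e2.1 h2.2.2.2)).symm.trans h2.2.2.1, e2.1 h2.2.2.2⟩ h3
  · exact absurd ⟨(e1 _ _).2 (h3.2.1.trans_le hy), (e1 _ _).2 h3.2.2.1,
      (e3 h3.1 (h3.2.1.trans_le hy) h3.2.2.2.2).trans h3.2.2.2.1, e2.2 h3.2.2.2.2⟩ h2
  · rfl
  · exact absurd ⟨h3.1, a, c, h3.2.1⟩ h1
  · rfl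

theorem FC_eq (H : D.Ok τ0) {σ : SM (1 + k + 1)} (hσ : Rz D.B.length σ) :
    FC D k a c b d p q σ = ∑ s ∈ Finset.Ioc D.J D.K, ∑ u ∈ D.up, ∑ y ∈ D.lo,
      D.τ y ^ 2 * Bk D y s u * Tr84.Ph D.J y (Th D k a c b d p q s u) σ := by
  have hP : ∀ s, ∀ u ∈ D.up, ∀ y ∈ D.lo, _ := fun s u hu y hy =>
    Ph_Th (a := a) (c := c) (b := b) (d := d) (p := p) (q := q) (s := s) H hσ
      (CD.mem_lo.1 hy).2 (CD.mem_up.1 hu).1
  rw [FC, cl_iff hσ (L90.cutB H)]
  split_ifs with h
  · obtain ⟨h1, h2, h3, h4⟩ := h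
    have l2 := (CD.mem_lo.1 h2).2
    have l4 := CD.mem_up.1 h4
    have : D.J < σ a p ∨ D.J < σ c p := by
      by_contra e
      exact h1 ⟨a, c, p, l2, by omega, by omega⟩
    have hs : sn D k a c p q σ ∈ Finset.Ioc D.J D.K := by
      rw [Finset.mem_Ioc, sn]
      split_ifs <;> omega
    rw [Finset.sum_eq_single_of_mem _ hs fun s _ e => Finset.sum_eq_zero fun u hu =>
        Finset.sum_eq_zero fun y hy => by
          rw [hP s u hu y hy, if_neg fun h => e h.2.2.2.1.symm, mul_zero],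
      Finset.sum_eq_single_of_mem _ h4 fun u hu e => Finset.sum_eq_zero fun y hy => by
          rw [hP _ u hu y hy, if_neg fun h => e h.2.2.2.2.symm, mul_zero],
      Finset.sum_eq_single_of_mem _ h2 fun y hy e => by
          rw [hP _ _ h4 y hy, if_neg fun h => e h.2.1.symm, mul_zero],
      hP _ _ h4 _ h2, if_pos ⟨h1, rfl, h3, rfl, rfl⟩, sn]
    split_ifs with e
    · rfl
    · rw [Bk_norm D (by omega) (not_lt.1 e) l4.2.le]
  · refine (Finset.sum_eq_zero fun s _ => Finset.sum_eq_zero fun u hu => Finset.sum_eq_zero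
      fun y hy => ?_).symm
    rw [hP s u hu y hy, if_neg, mul_zero]
    exact fun e => h ⟨e.1, e.2.1 ▸ hy, e.2.2.1, e.2.2.2.2 ▸ hu⟩

theorem sA_len : (sA D k a c b d p q).length ≤ 4 := by
  unfold sA L90.mA
  cases D.W <;> simp

theorem rz_sety (H : D.Ok τ0) {σ : SM (r + 1)} (hσ : Rz D.B.length σ) :
    Rz D.B.length (sety D.J σ) := by
  have hJ := L90.cutB H
  suffices h : Ker15.Um D.B.length (sety D.J σ) by
    obtain ⟨s, e, h1, h2, h3⟩ := h.lab
    exact ⟨s, Equiv.ofBijective e ((Fintype.bijective_iff_injective_and_card e).2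
      ⟨h2, le_antisymm (Fintype.card_le_of_injective e h2) (by simpa using h1)⟩), h3.symm⟩
  refine ⟨fun a => ?_, fun a b => ?_, fun a b c => ?_⟩
  · rw [sety, hσ.self, if_neg (by omega)]
  · rw [sety, sety, hσ.comm]
  · have := hσ.ultra a b c
    simp only [sety]
    split_ifs <;> omega

/-- the coefficients on a base pair split at `j` -/
theorem coef (H : D.Ok τ0) (hk : k ≤ 6) (hac : a ≠ c) (hpq : p ≠ q) {j : ℕ} (hj : j ∈ D.up)
    {s u : ℕ} (hs : s ∈ Finset.Ioc D.J D.K) (hu : u ∈ D.up) :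
    ∃ z : ℝ, |z| ≤ (if s = u then 0 else 2 * τ0 * 5 ^ 6 * (nw D j s * mw D j u)) ∧ ∀ y ∈ D.lo,
      avc D.B (Cas.tw D.B.length j) k (Tr84.Ph D.J y (Th D k a c b d p q s u)) = D.dx y * z := by
  have l1 := CD.mem_up.1 hj
  have l2 := Finset.mem_Ioc.1 hs
  have l3 := CD.mem_up.1 hu
  have hK : j ≤ D.B.length := lenB (D := D) ▸ l1.2.le
  have W := R90.wb_avc H.mono l1.1 hK k
  have t0 := H.tau0
  refine avc_Ph' (r := 1) H.mono (L90.cutB H) (rz_tw _ j) (fun x z => ?_) k _
    (fun y hy => (CD.mem_lo.1 hy).2) ?_ fun y hy => ?_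
  · have t1 := tw_01 hK
    have t2 := (rz_tw D.B.length j).comm 1 0
    have t3 := (rz_tw D.B.length j).self
    have := t3 0
    have := t3 1
    fin_cases x <;> fin_cases z <;> simp only [Fin.zero_eta, Fin.mk_one, Fin.isValue] <;> omega
  · split_ifs
    exacts [le_rfl, mul_nonneg (by positivity) (mul_nonneg (nw0 H j s) (mw0 H j u))]
  have hy' := (CD.mem_lo.1 hy).2
  split_ifs with e
  · have := W.mul 0 fun _ => 0
    simp only [zero_mul] at this
    rw [mul_zero]
    refine (W.abs_le' (ψ := fun _ => 0) fun σ hσ => ?_).trans this.le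
    rw [Ph_Th H hσ.1 hy' l3.1, if_neg, abs_zero]
    rintro ⟨-, -, -, h1, h2⟩
    rw [sn] at h1
    split_ifs at h1 <;> omega
  refine (lab_bd H W hy' l2.1 l3.1 e (B := 2 * τ0) (by positivity) fun σ hσ h0 => ?_).trans
    (mul_le_mul_of_nonneg_left (mul_le_mul_of_nonneg_right (mul_le_mul_of_nonneg_left
      (pow_le_pow_right₀ (by norm_num) hk) (by positivity))
        (mul_nonneg (nw0 H j s) (mw0 H j u))) (H.dx0 y))
  rw [Ph_Th H hσ.1 hy' l3.1] at h0 ⊢
  split_ifs at h0 ⊢ with h1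
  · obtain ⟨-, h2, -, h3, h4⟩ := h1
    refine ⟨?_, ⟨a, c, hac, h2⟩, ⟨p, q, hpq, h4⟩, fun h5 => ?_⟩
    · have h6 := (site_le H (rz_sety H hσ.1) (sA D k a c b d p q)).trans
        (pow_le_pow_right₀ one_le_two sA_len)
      have h7 := H.tau_mem u
      rw [abs_mul, abs_of_nonneg (by linarith [h7.1])]
      exact (mul_le_mul (div_le_div_of_nonneg_right h7.2 (by norm_num)) h6 (abs_nonneg _)
        (by positivity)).trans (le_of_eq (by ring))
    · rw [sn] at h3
      have h6 := hσ.1.self p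
      rw [lenB] at h6
      split_ifs at h3
      · rcases le_total (σ a p) (σ c p) with h7 | h7
        · exact ⟨c, p, fun e => by rw [e] at h3; omega, by omega⟩
        · exact ⟨a, p, fun e => by rw [e] at h3; omega, by omega⟩
      · exact absurd h3.symm h5
  · exact absurd rfl h0

end graph

/-! ### the weak bound -/

theorem nrm_le {m N : ℕ → ℝ} {f κ : ℝ} (hκ : 0 ≤ κ)
    (h : ∀ φ : ℕ → ℝ, (∀ t, |φ t| ≤ 1) → nrm D (fun t => m t * φ t) ≤ f ^ 2)
    (hN : ∀ u ∈ D.up, |N u| ≤ κ * |m u|) : nrm D N ≤ (κ * f) ^ 2 := by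
  have h1 := h (fun t => if t ∈ D.up then N t / (κ * m t) else 0) fun t => by
    split_ifs with e
    · rw [abs_div, abs_mul, abs_of_nonneg hκ]
      exact div_le_one_of_le₀ (hN t e) (by positivity)
    · simp
  rw [mul_pow]
  refine le_trans (le_of_eq ?_) (mul_le_mul_of_nonneg_left h1 (sq_nonneg κ))
  rw [nrm, nrm, ← Pe.pE_const_mul]
  congr 1
  funext g _
  rw [← mul_pow, Finset.mul_sum]
  congr 1
  refine Finset.sum_congr rfl fun t ht => ?_
  rw [if_pos ht, ← mul_assoc, ← mul_assoc]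
  congr 1
  by_cases e : κ * m t = 0
  · have := hN t ht
    rw [← abs_of_nonneg hκ, ← abs_mul, e, abs_zero, abs_nonpos_iff] at this
    rw [e, this, zero_mul]
  · exact (mul_div_cancel₀ _ e).symm

/-- the signed measure on the upper levels -/
def m1 (D : CD) (j : ℕ) : ℝ := D.dd (D.dx j) (D.om j)

theorem sum_m1 (H : D.Ok τ0) : ∑ j ∈ D.up, |m1 D j| ≤ D.wt := by
  cases hD : D.W.isSome with
  | false =>
    simp only [m1, CD.dd_val hD, CD.wt_val hD, abs_of_nonneg (H.dx0 _)]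
    exact H.sum_dx_one fun i hi => (CD.mem_up.1 hi).2.le
  | true => simp only [m1, CD.dd_test hD, CD.wt_test hD, CD.Iw, mul_one, le_refl]

theorem mainS_of (hW : WkS) : MainS := fun τ0 => by
  obtain ⟨C, C0, hC⟩ := hW τ0
  refine ⟨C * (2 * |τ0| * 5 ^ 6) * 12, by positivity, fun D H G k hk a c b d p q hac _ hpq => ?_⟩
  have t0 := H.tau0
  rw [abs_of_nonneg t0]
  set κ : ℝ := 2 * τ0 * 5 ^ 6 with hκ
  have k0 : 0 ≤ κ := by positivity
  choose! z hz hz' using fun j (hj : j ∈ D.up) s (hs : s ∈ Finset.Ioc D.J D.K) u (hu : u ∈ D.up) =>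
    coef (b := b) (d := d) H hk hac hpq hj hs hu
  have e1 : avt D.B (ms D) k (FC D k a c b d p q) =
      ∑ j ∈ D.up, m1 D j * ∑ s ∈ Finset.Ioc D.J D.K, ∑ u ∈ D.up,
        (if u = j then 0 else z j s u) * GG D s u +
      ∑ s ∈ Finset.Ioc D.J D.K, ∑ j ∈ D.up, m1 D j * z j s j * GG D s j := by
    rw [Finset.sum_comm (s := Finset.Ioc D.J D.K), ← Finset.sum_add_distrib, sum_up H, avt]
    refine Finset.sum_congr rfl fun j _ => ?_
    rw [ms]
    split_ifs with hj
    · simp only [mul_assoc, ← Finset.mul_sum, ← mul_add, ← Finset.sum_add_distrib]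
      rw [avc_congr (rz_tw _ j) k fun σ hσ => FC_eq H hσ, avc_sum]
      refine congrArg _ (Finset.sum_congr rfl fun s hs => ?_)
      rw [avc_sum, ← Finset.add_sum_erase _ _ hj, ← Finset.add_sum_erase _ _ hj, if_pos rfl,
        zero_mul, zero_add, add_comm]
      have e : ∀ u ∈ D.up, (avc D.B (Cas.tw D.B.length j) k fun σ => ∑ y ∈ D.lo,
          D.τ y ^ 2 * Bk D y s u * Tr84.Ph D.J y (Th D k a c b d p q s u) σ) =
          z j s u * GG D s u := fun u hu => by
        rw [avc_sum, GG, Finset.mul_sum]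
        exact Finset.sum_congr rfl fun y hy => by
          rw [avc_mul, hz' j hj s hs u hu y hy]
          ring
      rw [e j hj]
      exact congrArg (· + _) (Finset.sum_congr rfl fun u hu => by
        rw [e u (Finset.mem_of_mem_erase hu), if_neg (Finset.ne_of_mem_erase hu)])
    · exact zero_mul _
  set f : ℝ := D.f0 (D.J + 1)
  set f' : ℝ := D.dd (D.f0 (D.J + 1)) (D.f1 (D.J + 1)) with hf'
  have f0 : 0 ≤ f := H.f00 _
  have f0' : 0 ≤ f' := by
    rw [hf', CD.dd]
    split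
    exacts [H.f00 _, H.f10 _]
  have L0 := H.Lv20
  have l0 := H.tl0
  have w0 := D.wt0
  have hA : ∀ j ∈ D.up, ∀ s ∈ Finset.Ioc D.J D.K, |∑ u ∈ D.up,
      (if u = j then 0 else z j s u) * GG D s u| ≤ C * κ * (D.Lv2 * f + D.tl) * nw D j s :=
    fun j hj s hs => by
      have n0 := nw0 H j s
      have h1 : ∀ u ∈ D.up, |if u = j then 0 else z j s u| ≤ κ * nw D j s * |D.dx u| :=
        fun u hu => by
          have := H.dx0 u
          rw [abs_of_nonneg this]
          split_ifs with e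
          · rw [abs_zero]; positivity
          · refine (hz j hj s hs u hu).trans ?_
            rw [mw, if_neg e]
            split_ifs
            · positivity
            · exact le_of_eq (by ring)
      refine (hC D H s (Finset.mem_Ioc.1 hs).1 _ _ (by positivity)
        (nrm_le (by positivity) (fun φ hφ => (G φ hφ).1) h1)).trans ?_
      have h2 : ∑ u ∈ D.up, |if u = j then 0 else z j s u| ≤ κ * nw D j s := by
        refine (Finset.sum_le_sum h1).trans ?_
        simp only [← Finset.mul_sum, abs_of_nonneg (H.dx0 _)]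
        exact mul_le_of_le_one_right (by positivity)
          (H.sum_dx_one fun i hi => (CD.mem_up.1 hi).2.le)
      refine (mul_le_mul_of_nonneg_left (add_le_add le_rfl
        (mul_le_mul_of_nonneg_right h2 l0)) C0).trans (le_of_eq (by ring))
  have hB : ∀ s ∈ Finset.Ioc D.J D.K, |∑ j ∈ D.up, m1 D j * z j s j * GG D s j| ≤
      C * κ * (D.Lv2 * f' + D.wt * D.tl) * nw D D.K s := fun s hs => by
    have n0 := nw0 H D.K s
    have h1 : ∀ j ∈ D.up, |m1 D j * z j s j| ≤ κ * nw D D.K s * |m1 D j| := fun j hj => by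
      rw [abs_mul, mul_comm]
      refine mul_le_mul_of_nonneg_right ((hz j hj s hs j hj).trans ?_) (abs_nonneg _)
      split_ifs with e
      · positivity
      · simp only [mw, nw, e, if_true, false_or, or_self, mul_one, hκ, le_refl]
    refine (hC D H s (Finset.mem_Ioc.1 hs).1 _ (κ * nw D D.K s * f') (by positivity)
      (nrm_le (by positivity) (fun φ hφ => ?_) h1)).trans ?_
    · cases hD : D.W.isSome with
      | false => simpa only [m1, hf', CD.dd_val hD] using (G φ hφ).1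
      | true => simpa only [m1, hf', CD.dd_test hD] using (G φ hφ).2
    have h2 : ∑ j ∈ D.up, |m1 D j * z j s j| ≤ κ * nw D D.K s * D.wt := by
      refine (Finset.sum_le_sum h1).trans ?_
      rw [← Finset.mul_sum]
      exact mul_le_mul_of_nonneg_left (sum_m1 H) (by positivity)
    refine (mul_le_mul_of_nonneg_left (add_le_add le_rfl
      (mul_le_mul_of_nonneg_right h2 l0)) C0).trans (le_of_eq (by ring))
  have b1 : |∑ j ∈ D.up, m1 D j * ∑ s ∈ Finset.Ioc D.J D.K, ∑ u ∈ D.up,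
      (if u = j then 0 else z j s u) * GG D s u| ≤ D.wt * (C * κ * (D.Lv2 * f + D.tl) * 3) := by
    refine (Finset.abs_sum_le_sum_abs _ _).trans ((Finset.sum_le_sum
      (g := fun j => |m1 D j| * (C * κ * (D.Lv2 * f + D.tl) * 3)) fun j hj => ?_).trans ?_)
    · rw [abs_mul]
      refine mul_le_mul_of_nonneg_left ((Finset.abs_sum_le_sum_abs _ _).trans
        ((Finset.sum_le_sum (hA j hj)).trans ?_)) (abs_nonneg _)
      rw [← Finset.mul_sum]
      exact mul_le_mul_of_nonneg_left (sum_nw H j) (by positivity)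
    · rw [← Finset.sum_mul]
      exact mul_le_mul_of_nonneg_right (sum_m1 H) (by positivity)
  have b2 : |∑ s ∈ Finset.Ioc D.J D.K, ∑ j ∈ D.up, m1 D j * z j s j * GG D s j| ≤
      C * κ * (D.Lv2 * f' + D.wt * D.tl) * 3 := by
    refine (Finset.abs_sum_le_sum_abs _ _).trans ((Finset.sum_le_sum hB).trans ?_)
    rw [← Finset.mul_sum]
    exact mul_le_mul_of_nonneg_left (sum_nw H _) (by positivity)
  have g0 : D.Lv2 * f ≤ D.E0 := (mul_le_mul_of_nonneg_left
    (le_add_of_nonneg_right (H.sv0 H.f00 _)) L0).trans H.Lvf_le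
  have g1 : D.wt * (D.Lv2 * f) ≤ D.Err := (mul_le_mul_of_nonneg_left g0 w0).trans H.wtE0_le
  have g2 : D.wt * D.tl ≤ D.Err := (mul_le_mul_of_nonneg_left H.tl_le w0).trans H.wtE0_le
  have g3 : D.Lv2 * f' ≤ D.Err := by
    cases hD : D.W.isSome with
    | false => rw [hf', CD.dd_val hD]; exact g0.trans (H.E0_le hD)
    | true =>
      rw [hf', CD.dd_test hD]
      exact ((mul_le_mul_of_nonneg_left (le_add_of_nonneg_right (H.sv0 H.f10 _)) L0).trans
        H.Lvf1_le).trans (H.E1_le hD)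
  rw [e1]
  refine (abs_add_le _ _).trans ((add_le_add b1 b2).trans ?_)
  have := mul_le_mul_of_nonneg_left (show D.wt * (D.Lv2 * f) + D.wt * D.tl +
    (D.Lv2 * f' + D.wt * D.tl) ≤ 4 * D.Err by linarith) (show 0 ≤ C * κ * 3 by positivity)
  linarith

/-! ### the frame -/

theorem abs_ms (H : D.Ok τ0) (j : ℕ) : |ms D j| ≤ mu D j := by
  unfold ms
  split_ifs with h
  · unfold mu CD.dd
    cases D.W with
    | none => exact (abs_of_nonneg (H.dx0 j)).le
    | some ω => exact (if_pos h).ge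
  · exact abs_zero.trans_le (mu_nonneg H j)

theorem avt_sub {Θ : Type} [Fintype Θ] (M : List (Lv Θ)) (μ : ℕ → ℝ)
    (φ ψ : SM (1 + k + 1) → ℝ) : avt M μ k (fun σ => φ σ - ψ σ) = avt M μ k φ - avt M μ k ψ := by
  have h1 := (fam_avt (M := M) μ).add k φ fun σ => -1 * ψ σ
  have h2 := (fam_avt (M := M) μ).mul k (-1) ψ
  simp only [neg_one_mul, ← sub_eq_add_neg] at h1 h2
  exact h1.trans (by rw [h2, ← sub_eq_add_neg])

open Mx23 in
/-- **the word, graph by graph** -/
theorem hw_le (H : D.Ok τ0) {B : ℝ} (hB : 0 ≤ B) (h : ∀ k ≤ 6, ∀ a c b d p q : Fin (1 + k + 1),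
    a ≠ c → b ≠ d → p ≠ q → |avt D.B (ms D) k (FF D k a c b d p q)| ≤ B) :
    |hw D [pC D, pL D, pL D]| ≤ cG 3 * B := by
  cases hD : D.W with
  | none =>
    have hW : D.W.isSome = false := by simp [hD]
    rw [hw, CD.dd_val hW, lamB, frame]
    refine (abs_LamG_le _ _ _ fun k hk N hN hO => ?_).trans
      (mul_le_mul_of_nonneg_right (cG_mono (by simp)) hB)
    obtain ⟨⟨a, c⟩, ⟨b, d⟩, rfl⟩ := List.length_eq_two.1 hN
    refine le_trans (le_of_eq (congrArg _ ?_)) (h k (hk.trans (by simp)) a c b d (old k 1) (old k 0)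
      (hO (a, c) (by simp)) (hO (b, d) (by simp)) (mk_ne k))
    have e : ∀ σ, TB D σ (eF (([pL D, pL D].reverse ++ [pC D]).map Prod.fst) σ
        ([(a, c), (b, d)] ++ [(old k 1, old k 0)])) * Ck32.TS D σ
          (eF (([pL D, pL D].reverse ++ [pC D]).map Prod.snd) σ
            ([(a, c), (b, d)] ++ [(old k 1, old k 0)])) =
        FF D k a c b d (old k 1) (old k 0) σ := fun σ => by
      rw [FF]
      congr 2 <;> funext x
      · simp only [List.reverse_cons, List.reverse_nil, List.nil_append, List.cons_append,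
          List.map_cons, List.map_nil, eF]
        ring
      · simp only [List.reverse_cons, List.reverse_nil, List.nil_append, List.cons_append,
          List.map_cons, List.map_nil, eF, se, sA, L90.mA, hD, List.prod_cons, List.prod_nil, lt,
          phC, oZs]
        ring
    simp only [e, avt]
    refine Finset.sum_congr rfl fun j hj => ?_
    have hj' := Nat.lt_succ_iff.1 (Finset.mem_range.1 hj)
    rw [ms, CD.dd_val hW]
    split_ifs with h1
    · rfl
    rw [zero_mul]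
    rcases le_or_gt j D.J with h2 | h2
    · rw [avc_congr' (rz_tw _ j) k (ψ := fun _ => 0) fun σ hσ e => ?_, avc_const, mul_zero]
      have e1 : σ (old k 1) (old k 0) = j := (e 1 0).trans (tw_old _ j hj')
      simp only [FF, e1, phC, Cw55.off, if_neg (show ¬(D.J < j ∧ j ∉ (∅ : Finset ℕ)) by omega),
        zero_mul, mul_zero, TB, TM_const wt_one90 hσ]
    · rw [show j = D.K by rw [lenB] at hj'; rw [CD.mem_up] at h1; omega,
        show dm D.B 0 D.K = 0 from H.top, zero_mul]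
  | some ω =>
    have hW : D.W.isSome = true := by simp [hD]
    rw [hw, CD.dd_test hW, sum_up H]
    simp only [← ite_zero_mul]
    refine (le_of_eq (congrArg _ (frame _ (fun _ _ _ => 1, oE D.q) _))).trans
      (abs_LamG_le _ _ _ fun k hk N hN hO => ?_)
    obtain ⟨⟨a, c⟩, ⟨b, d⟩, ⟨p, q⟩, rfl⟩ := List.length_eq_three.1 hN
    refine le_trans (le_of_eq (congrArg _ ?_)) (h k (hk.trans (by simp)) a c b d p q
      (hO (a, c) (by simp)) (hO (b, d) (by simp)) (hO (p, q) (by simp)))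
    congr 1
    · funext j
      rw [ms, CD.dd_test hW]
    · funext σ
      rw [FF]
      congr 2 <;> funext x
      · simp only [List.reverse_cons, List.reverse_nil, List.nil_append, List.cons_append,
          List.map_cons, List.map_nil, eF]
        ring
      · simp only [List.reverse_cons, List.reverse_nil, List.nil_append, List.cons_append,
          List.map_cons, List.map_nil, eF, se, sA, L90.mA, hD, List.prod_cons, List.prod_nil, lt,
          phC, oZs, Ck32.mk]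
        ring

theorem gm (H : D.Ok τ0) : Gm D := fun φ hφ => by
  have h1 := (H.wkp.1 φ hφ (D.J + 1)).1
  have h2 := (H.wkp.2 φ hφ (D.J + 1)).1
  simp only [CD.tail, max_self, Finset.Ico_add_one_left_eq_Ioo] at h1 h2
  exact ⟨h1, h2⟩

/-- **the centred mixed word** -/
theorem mxC_of (hR : RedS) (hW : WkS) (b : Bool) : Mx23.MxC b := Bd.mk' fun τ0 => by
  obtain ⟨C, C0, hC⟩ := hR τ0
  obtain ⟨C', C0', hC'⟩ := mainS_of hW τ0
  refine ⟨cG 3 * (C + C'), fun D H _ => ?_⟩
  rw [mul_assoc]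
  refine hw_le H (mul_nonneg (add_nonneg C0 C0') H.Err0) fun k hk a c b d p q h1 h2 h3 => ?_
  obtain ⟨ψ, h4, h5⟩ := hC D H k hk a c b d p q h1 h2 h3
  have h6 := (abs_avt_le H (abs_ms H) h5).trans h4
  rw [avt_sub] at h6
  have h7 := hC' D H (gm H) k hk a c b d p q h1 h2 h3
  rw [add_mul]
  exact (abs_sub_abs_le_abs_sub _ _ |> sub_le_iff_le_add.1).trans (add_le_add h6 h7)

end Crest.Agent.T156.Cas.C40.Mx84

end
end

-- ▼ part T156/CMxW_55
section

/-!
# Row 156, block C (helper55): the weak bound `Mx84.WkS`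
-/

set_option autoImplicit false
set_option linter.all false

noncomputable section

namespace Crest.Agent.T156.Cas.Mb55

open MeasureTheory Real Set Filter Topology
open Crest.Agent.T157.E Crest.Agent.T157.Casc Crest.Agent.T157.SL
open Crest.Agent.T157.G1 (ov abs_ov_le)
open Wt87 Nu87 Ker15 R90

section gen
variable {Ω : Type} [Fintype Ω] {w : Ω → ℝ} {L : List (Lv Ω)} {h : Ω → ℝ} {R : Ω → Ω → ℝ}
  {κ : Type} [Fintype κ] {σ : κ → κ → ℕ}

theorem NY_add (p : κ) (t : ℕ) (G G' : (κ → Ω) → ℝ) (Q : Ω → Ω → ℝ) :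
    NY w L h σ p t (fun x => G x + G' x) Q = NY w L h σ p t G Q + NY w L h σ p t G' Q := by
  simp only [NY, add_mul, TK_add]

theorem pE_zero (w : Ω → ℝ) (L : List (Lv Ω)) (h : Ω → ℝ) : pE w L h (fun _ _ => 0) = 0 := by
  simpa using Pe.pE_const_mul w L h 0 fun _ _ => 0

/-- **one base tree against the canonical term**, tails in first order -/
theorem dev_cs2 (hw : Wt w) (hR : ∀ x y, R x y = R y x) (hR1 : ∀ x y, |R x y| ≤ 1)
    (H : Um L.length σ) {a b c d p : κ} {y i : ℕ} (hK : i ≤ L.length) (hy : y < i)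
    (h1 : σ b p = y) (ha : i ≤ σ a p) (hc : i ≤ σ c p) (hd : i ≤ σ d b) {X τ Γ F : ℝ} (hX : 0 ≤ X)
    (hτ : exc w L h R X y ≤ τ) (S : Finset ℕ) (μ : ℕ → ℝ) (Q : ℕ → Ω → Ω → ℝ) (hΓ : 0 ≤ Γ)
    (HΓ : pE w L h (fun g _ => Yp w L h S μ Q g ^ 2) ≤ Γ ^ 2)
    (HF : ∀ g, |Yp w L h S μ Q g| ≤ F) :
    |∑ t ∈ S, μ t * (NY w L h σ p t (fun x => R (x a) (x b) * R (x c) (x d)) (Q t) -
      bt w L h R y i t (Q t))| ≤ 5 * (X * √(vU w L h R y i)) * Γ + 4 * τ * F := by
  have HT := um_fT H (fun _ : Bool => p) i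
  have t1 := fun a b => fT_ll (β := fun _ : Bool => p) (t := i) H a b
  have t3 := fun a v => fT_lr (β := fun _ : Bool => p) (t := i) H a v
  have t4 := fun a v => fT_rl (β := fun _ : Bool => p) (t := i) H a v
  have c1 := H.comm b p
  have hab : σ a b = y := by
    have := H.ultra a p b; have := H.ultra p a b; have := H.comm a p
    omega
  have hdp : σ d p = y := by
    have := H.ultra d b p; have := H.ultra b d p; have := H.comm b d
    omega
  have hcd : σ c d = y := by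
    have := H.ultra c p d; have := H.ultra p c d; have := H.comm c p; have := H.comm d p
    omega
  have hK' := hy.trans_le hK
  have v0 := vU_nonneg (L := L) (h := h) hw R y i
  let r1 : (κ ⊕ Bool → Ω) → ℝ := fun x => R (x (.inl c)) (x (.inl d))
  let r2 : (κ ⊕ Bool → Ω) → ℝ := fun x => R (x (.inr true)) (x (.inl b))
  let α : (κ ⊕ Bool → Ω) → ℝ := fun x => R (x (.inl a)) (x (.inl b)) - r2 x
  let γ : (κ ⊕ Bool → Ω) → ℝ := fun x => r1 x - R (x (.inr false)) (x (.inl b))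
  have e0 : ∀ t, NY w L h σ p t (fun x => R (x a) (x b) * R (x c) (x d)) (Q t) -
      bt w L h R y i t (Q t) = NY w L h (nT L.length σ p i) (.inl p) t
        (fun x => α x * clp X (r1 x) + γ x * clp X (r2 x)) (Q t) +
      NY w L h (nT L.length σ p i) (.inl p) t
        (fun x => α x * (r1 x - clp X (r1 x)) + γ x * (r2 x - clp X (r2 x))) (Q t) := fun t => by
    have e1 : NY w L h σ p t (fun x => R (x a) (x b) * R (x c) (x d)) (Q t) =
        NY w L h (nT L.length σ p i) (.inl p) t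
          (fun x => R (x (.inl a)) (x (.inl b)) * R (x (.inl c)) (x (.inl d))) (Q t) :=
      NY_map hw H HT (φ := id) (φ' := Sum.inl) (by simp)
        (fun a b _ => (t1 a b).symm) (fun a => congrArg (min · t) (t1 a p).symm)
        (fun x => R (x a) (x b) * R (x c) (x d)) (Q t)
    rw [← bt_eq hw H t h1 hy.le hK', ← NY_add, e1, ← NY_sub]
    congr 1
    funext x
    simp only [α, γ, r1, r2]
    ring
  simp only [e0, mul_add, Finset.sum_add_distrib]
  have s1 := mv_le (h := h) hw HT (u := .inl a) (u' := .inr true) (z := .inl b) (t := i) hK'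
    ((t1 _ _).trans hab) (by rw [t4]; omega) hy.le (by rw [t3]; omega) R
  have s2 := par_le (h := h) hw hR HT (a := .inl c) (b := .inl d) (a' := .inr false)
    (b' := .inl b) (t := i) hK' ((t1 _ _).trans hcd) (by rw [t4]; omega) (by rw [t3]; omega) hy.le
    (by rw [t3]; omega) (hd.trans_eq (t1 _ _).symm)
  have p1 := TK_pair (h := h) hw HT (a := .inl c) (b := .inl d)
    (fun e => ne_of_lt H (hcd ▸ hK' : σ c d < _) (Sum.inl_injective e))
    fun a b => max (|R a b| - X) 0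
  have p2 := TK_pair (h := h) hw HT (a := .inr true) (b := .inl b) (by simp)
    fun a b => max (|R a b| - X) 0
  rw [t1, hcd] at p1
  rw [t4, h1, min_eq_left hy.le] at p2
  have a2 : ∀ x, |α x| ≤ 2 := fun x => sub_two hR1 _ _ _ _
  have g2 : ∀ x, |γ x| ≤ 2 := fun x => sub_two hR1 _ _ _ _
  have k2 : ∀ x, |α x * (r1 x - clp X (r1 x)) + γ x * (r2 x - clp X (r2 x))| ≤
      2 * max (|r1 x| - X) 0 + 2 * max (|r2 x| - X) 0 := fun x =>
    (abs_add_le _ _).trans (by
      rw [abs_mul, abs_mul]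
      exact add_le_add (mul_le_mul (a2 x) (clp_le hX _).2.2 (abs_nonneg _) zero_le_two)
        (mul_le_mul (g2 x) (clp_le hX _).2.2 (abs_nonneg _) zero_le_two))
  have F0 : 0 ≤ F := (abs_nonneg _).trans (HF 0)
  refine (abs_add_le _ _).trans (add_le_add (NY_cs hw HT _ _ S μ Q (by positivity) hΓ ?_ HΓ)
    ((NY_env hw HT _ _ S μ Q (A := 4 * τ) (A' := 4) (ε := 0) F0 (by norm_num) ?_ (fun x => ?_)
      ?_).trans_eq (by ring)))
  · refine (TK_mono hw HT (G := fun x => 2 * X ^ 2 * α x ^ 2 + 2 * X ^ 2 * γ x ^ 2)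
      fun x => ?_).trans ?_
    · have k1 : clp X (r1 x) ^ 2 ≤ X ^ 2 := sq_le_sq' (abs_le.1 (clp_le hX _).1).1
        (abs_le.1 (clp_le hX _).1).2
      have k3 : clp X (r2 x) ^ 2 ≤ X ^ 2 := sq_le_sq' (abs_le.1 (clp_le hX _).1).1
        (abs_le.1 (clp_le hX _).1).2
      nlinarith [sq_nonneg (α x * clp X (r1 x) - γ x * clp X (r2 x)),
        mul_le_mul_of_nonneg_left k1 (sq_nonneg (α x)), mul_le_mul_of_nonneg_left k3 (sq_nonneg (γ x))]
    · rw [TK_add, TK_mul, TK_mul, mul_pow, mul_pow, sq_sqrt v0]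
      nlinarith [mul_le_mul_of_nonneg_left s1 (sq_nonneg X),
        mul_le_mul_of_nonneg_left s2 (sq_nonneg X), mul_nonneg (sq_nonneg X) v0]
  · refine (TK_mono hw HT k2).trans ?_
    rw [TK_add, TK_mul, TK_mul]
    unfold exc at hτ
    linarith [p1.trans_le hτ, p2.trans_le hτ]
  · refine (k2 x).trans ?_
    have b1 : max (|r1 x| - X) 0 ≤ 1 := max_le (by linarith [hR1 (x (.inl c)) (x (.inl d))]) zero_le_one
    have b2 : max (|r2 x| - X) 0 ≤ 1 :=
      max_le (by linarith [hR1 (x (.inr true)) (x (.inl b))]) zero_le_one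
    linarith
  · simp only [fun g => max_eq_right (sub_nonpos.2 (HF g)), pE_zero, le_refl]

theorem abs_qf (hw : Wt w) (L : List (Lv Ω)) (z : Ω → ℝ) {Q : Ω → Ω → ℝ} {c : ℝ}
    (hQ : ∀ x y, |Q x y| ≤ c) : |qf (P w L z) Q| ≤ c := by
  have h1 := qf_mono (P_nonneg hw L z) (K := Q) (K' := fun _ _ => c) fun x y => (abs_le.1 (hQ x y)).2
  have h2 := qf_mono (P_nonneg hw L z) (K := fun _ _ => -c) (K' := Q)
    fun x y => (abs_le.1 (hQ x y)).1
  rw [qf_const (sum_P hw _ _)] at h1 h2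
  exact abs_le.2 ⟨h2, h1⟩

/-- the canonical terms, summed -/
theorem sum_bt (hw : Wt w) (T : Finset ℕ) (ν : ℕ → ℝ) (i : ℕ) (S : Finset ℕ) (μ : ℕ → ℝ)
    (Q : ℕ → Ω → Ω → ℝ) (h0 : ∀ t ∈ S, pi2 w L t (Q t) h = 0) {Γ : ℝ} (hΓ : 0 ≤ Γ)
    (HΓ : pE w L h (fun g _ => Yp w L h S μ Q g ^ 2) ≤ Γ ^ 2) (m : ℝ) :
    |∑ y ∈ T, ν y * ∑ t ∈ S, μ t * bt w L h R y i t (Q t)| ≤
      √(pE w L h fun g _ => (∑ y ∈ T, ν y * Ps w L R y i (fun j => st L j h g) - m) ^ 2) * Γ := by
  have eP : ∀ y, Eg fun g => Ps w L R y i (stT .one L h g ()) := fun y =>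
    (egP_Ps (R := R) (L := L) hw y i ()).stT (s := .one) L h
  have eS : Eg fun g => ∑ y ∈ T, ν y * Ps w L R y i (stT .one L h g ()) - m :=
    (Eg.sum _ fun y _ => (eP y).const_mul _).sub (Eg.const _)
  have eQ : ∀ t, Eg fun g => qf (P w (L.drop t) (stT .one L h g () t)) (Q t) := fun t =>
    Sp38.eg_node .one L h (eg_qf hw _ _) () t
  have o := fun F : (NI L → ℝ) → ℝ => Tr.tX_one w L h fun g _ => F g
  have n0 : 0 ≤ pE w L h fun g _ =>
      (∑ y ∈ T, ν y * Ps w L R y i (fun j => st L j h g) - m) ^ 2 :=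
    (o _).symm ▸ Sd.tX_nonneg hw .one L h fun _ _ => sq_nonneg _
  refine le_of_eq_of_le (congrArg _ ?_) (Cw55.tail_cen hw .one () L h
    (G := fun g _ => ∑ y ∈ T, ν y * Ps w L R y i (stT .one L h g ()) - m) (fun _ => eS) S μ
    (Y := fun t _ z => qf (P w (L.drop t) z) (Q t)) (fun _ _ => eg_qf hw _ _) (sqrt_nonneg _) hΓ
    ((o _).trans (sq_sqrt n0).symm).le HΓ)
  simp only [Finset.mul_sum, mul_left_comm (ν _)]
  rw [Finset.sum_comm]
  refine Finset.sum_congr rfl fun t ht => ?_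
  rw [← Finset.mul_sum]
  congr 1
  simp only [sub_mul, Finset.sum_mul, mul_assoc]
  rw [Sd.tX_sub hw .one L h (fun _ => Eg.sum _ fun y _ => ((eP y).mul (eQ t)).const_mul _)
    (fun _ => (eQ t).const_mul _), Sd.tX_sum hw .one L h T
      fun y _ _ => ((eP y).mul (eQ t)).const_mul _, Sd.tX_const_mul,
    show tX w .one L h (fun g _ => qf (P w (L.drop t) (stT .one L h g () t)) (Q t)) = 0 from
      (o _).trans ((Pe.pE_node1 hw (eg_qf hw (L.drop t) (Q t)) L t h).trans (h0 t ht)),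
    mul_zero, sub_zero]
  refine Finset.sum_congr rfl fun y _ => ?_
  rw [Sd.tX_const_mul]
  exact congrArg _ (Eq.trans (congrArg (pE w L h) (funext fun g => funext fun _ => mul_comm _ _))
    (o _).symm)

end gen

open C40 C40.Mx84 Cw55

variable {D : CD} {τ0 : ℝ}

theorem pi2_Uc (D : CD) (t : ℕ) : pi2 (fun _ => 1) D.B t (Uc D t) 0 = 0 := by
  rw [← sub_self (D.del t), ← pi2_const wt_one90 D.B t (D.del t) 0]
  nth_rewrite 1 [pi2_const wt_one90, ← Ex23.E2_oU]
  exact pi2_sub wt_one90 _ _ _ _ _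

theorem Uc_eq (D : CD) (t : ℕ) : Uc D t = fun x y => ov x y - D.rb t := by
  funext x y
  simp only [Uc, oU, CD.del]
  ring

theorem abs_rb1 (D : CD) (t : ℕ) : |D.rb t| ≤ 1 := by
  have h1 := pi2_mono wt_one90 D.B t (K := ov) (K' := fun _ _ => 1)
    (fun x y => (abs_le.1 (abs_ov_le x y)).2) 0
  have h2 := pi2_mono wt_one90 D.B t (K := fun _ _ => -1) (K' := ov)
    (fun x y => (abs_le.1 (abs_ov_le x y)).1) 0
  rw [pi2_const wt_one90] at h1 h2
  exact abs_le.2 ⟨h2, h1⟩

theorem abs_Uc (D : CD) (t : ℕ) (x y : Cube D.n) : |Uc D t x y| ≤ 2 := by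
  rw [Uc_eq]
  exact (abs_sub _ _).trans (by linarith [abs_ov_le x y, abs_rb1 D t])

theorem Yp_eq (D : CD) (S : Finset ℕ) (μ : ℕ → ℝ) (g : NI D.B → ℝ) :
    Yp (fun _ => 1) D.B 0 S μ (Uc D) g = ∑ t ∈ S, μ t * (D.nd t g - D.del t) := by
  simp only [Yp, qf_Uc, CD.nd]

/-- the base tree of `Bk` -/
def bs (K y s : ℕ) : Fin 3 → Fin 3 → ℕ := lf K (fun _ _ : Unit => K) (fun _ => ()) ![y, s, K]

theorem um_unit (K : ℕ) : Um K fun _ _ : Unit => K :=
  ⟨fun _ => rfl, fun _ _ => rfl, fun _ _ _ => (min_self _).le⟩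

theorem cat_eq {K y s u : ℕ} (hu : u ≤ K) (a b : Fin 4) (e : a ≠ b) : cat K y s u a b =
    nT K (bs K y s) 2 u (![.inl 0, .inl 1, .inr true, .inr false] a)
      (![.inl 0, .inl 1, .inr true, .inr false] b) := by
  fin_cases a <;> fin_cases b <;> first
    | exact absurd rfl e
    | (simp [cat, nT, fT, bs, lf]; try omega)

theorem Bk_eq (D : CD) (y s u : ℕ) (hu : u ≤ D.B.length) : Bk D y s u =
    NY (fun _ => 1) D.B 0 (bs D.B.length y s) 2 u (fun x => ov (x 1) (x 0) * ov (x 1) (x 0))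
      (Uc D u) := by
  have H : Um _ (bs D.B.length y s) := um_lf (um_unit _) _ _
  have H' : Um _ (cat D.B.length y s u) := um_lf (um_unit _) _ _
  refine Eq.trans (congrArg (TK _ _ _ _) (funext fun x => ?_)) (TK_map (h := 0) wt_one90 H' (um_fT H (fun _ : Bool => 2) u)
    (φ := id) (φ' := ![.inl 0, .inl 1, .inr true, .inr false])
    (fun a b => by fin_cases a <;> fin_cases b <;> simp) (fun a b e => ?_)
    fun x => ov (x 1) (x 0) * ov (x 1) (x 0) * Uc D u (x 2) (x 3))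
  · rw [sq, C3n47.ov_comm (x 0)]
    rfl
  · exact cat_eq hu a b e

theorem _root_.Crest.Agent.T156.Cas.C40.Mx84.wkS : WkS := fun τ0 =>
  ⟨8 * τ0 ^ 2 + 1, by positivity, fun D H s hs N f hf hN => by
  have l : D.B.length = D.M.length := lenB D
  have hc : D.J < D.M.length := H.cut
  have HΓ : pE (fun _ => 1) D.B 0 (fun g _ => Yp (fun _ => 1) D.B 0 D.up N (Uc D) g ^ 2) ≤ f ^ 2 := by
    simp only [Yp_eq]
    exact hN
  set Z := ∑ u ∈ D.up, |N u| with hZ
  have Z0 : 0 ≤ Z := Finset.sum_nonneg fun _ _ => abs_nonneg _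
  have HF : ∀ g, |Yp (fun _ => 1) D.B 0 D.up N (Uc D) g| ≤ 2 * Z := fun g =>
    (Finset.abs_sum_le_sum_abs _ _).trans (by
      rw [hZ, Finset.mul_sum]
      refine Finset.sum_le_sum fun t _ => ?_
      rw [abs_mul, mul_comm]
      exact mul_le_mul_of_nonneg_right (abs_qf wt_one90 _ _ (abs_Uc D t)) (abs_nonneg _))
  have k1 := sum_bt (R := ov) wt_one90 D.lo (fun y => D.dx y * D.τ y ^ 2) (D.J + 1) D.up N (Uc D)
    (fun t _ => pi2_Uc D t) hf HΓ (pE (fun _ => 1) D.B 0 fun p' _ => D.Ql p')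
  have k1' : |∑ y ∈ D.lo, D.dx y * D.τ y ^ 2 *
      ∑ t ∈ D.up, N t * bt (fun _ => 1) D.B 0 ov y (D.J + 1) t (Uc D t)| ≤ √D.vL * f := by
    simpa only [CD.vL, CD.Ql, Ps, mul_assoc] using k1
  have k2 : ∀ y ∈ D.lo, |D.dx y * D.τ y ^ 2 * ∑ t ∈ D.up, N t * (Bk D y s t -
      bt (fun _ => 1) D.B 0 ov y (D.J + 1) t (Uc D t))| ≤ D.dx y * (τ0 ^ 2 *
        (5 * (D.X * √(D.v y (D.J + 1))) * f + 4 * D.tl * (2 * Z))) := fun y hy => by
    have hy' := (CD.mem_lo.1 hy).2
    have H0 : Um _ (bs D.B.length y s) := um_lf (um_unit _) _ _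
    have := dev_cs2 (h := 0) wt_one90 C3n47.ov_comm abs_ov_le H0 (a := 1) (b := 0) (c := 1) (d := 0)
      (p := 2) (y := y) (i := D.J + 1) (by omega) (by omega) (by simp [bs, lf]; omega)
      (by simp [bs, lf]; omega) (by simp [bs, lf]; omega) (by rw [H0.self]; omega) H.X0
      (H.envL y hy) D.up N (Uc D) hf HΓ HF
    rw [Finset.sum_congr rfl fun t ht => by
      rw [Bk_eq D y s t ((CD.mem_up.1 ht).2.le.trans l.ge)], abs_mul,
      abs_of_nonneg (mul_nonneg (H.dx0 y) (sq_nonneg _)), mul_assoc]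
    exact mul_le_mul_of_nonneg_left (mul_le_mul (pow_le_pow_left₀ (H.tau_mem y).1 (H.tau_mem y).2 2)
      this (abs_nonneg _) (sq_nonneg _)) (H.dx0 y)
  have e : ∑ u ∈ D.up, N u * GG D s u = ∑ y ∈ D.lo, D.dx y * D.τ y ^ 2 *
      ∑ t ∈ D.up, N t * bt (fun _ => 1) D.B 0 ov y (D.J + 1) t (Uc D t) +
      ∑ y ∈ D.lo, D.dx y * D.τ y ^ 2 * ∑ t ∈ D.up, N t * (Bk D y s t -
        bt (fun _ => 1) D.B 0 ov y (D.J + 1) t (Uc D t)) := by
    simp only [GG, Finset.mul_sum, ← Finset.sum_add_distrib]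
    rw [Finset.sum_comm]
    exact Finset.sum_congr rfl fun y _ => Finset.sum_congr rfl fun t _ => by ring
  have k3 := (Finset.abs_sum_le_sum_abs _ _).trans (Finset.sum_le_sum k2)
  have e3 : ∑ y ∈ D.lo, D.dx y * (τ0 ^ 2 *
      (5 * (D.X * √(D.v y (D.J + 1))) * f + 4 * D.tl * (2 * Z))) =
      5 * τ0 ^ 2 * ((D.X * ∑ y ∈ D.lo, D.dx y * √(D.v y (D.J + 1))) * f) +
        8 * τ0 ^ 2 * (Z * D.tl) * ∑ y ∈ D.lo, D.dx y := by
    simp only [Finset.mul_sum, Finset.sum_mul, ← Finset.sum_add_distrib]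
    exact Finset.sum_congr rfl fun y _ => by ring
  have n1 : 0 ≤ (D.X * ∑ y ∈ D.lo, D.dx y * √(D.v y (D.J + 1))) * f :=
    mul_nonneg (mul_nonneg H.X0 (Finset.sum_nonneg fun y _ =>
      mul_nonneg (H.dx0 y) (sqrt_nonneg _))) hf
  have n2 : 0 ≤ √D.vL * f := mul_nonneg (sqrt_nonneg _) hf
  have n3 := mul_nonneg Z0 H.tl0
  have n4 := mul_le_mul_of_nonneg_left (H.sum_lo.trans H.X1)
    (mul_nonneg (mul_nonneg (by norm_num : (0 : ℝ) ≤ 8) (sq_nonneg τ0)) n3)
  rw [e, CD.Lv2, add_mul]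
  refine (abs_add_le _ _).trans ?_
  nlinarith [mul_nonneg (sq_nonneg τ0) n1, mul_nonneg (sq_nonneg τ0) n2]⟩

end Crest.Agent.T156.Cas.Mb55

end
end

-- ▼ part T156/CMxK_47
section

/-!
# Row 156, block C (helper47): the bulk factor of the centred mixed word (`BkS`)
-/

set_option autoImplicit false
set_option linter.all false

noncomputable section

namespace Crest.Agent.T156.Cas.K47

open Crest.Agent.T157.E Crest.Agent.T157.Casc Crest.Agent.T157.SL
open Ker15 R90 Y44 L97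

variable {Ω : Type} [Fintype Ω] {w : Ω → ℝ} {L : List (Lv Ω)} {h : Ω → ℝ} {R : Ω → Ω → ℝ}
  {κ κ' : Type} [Fintype κ] [Fintype κ'] {σ : κ → κ → ℕ} {σ' : κ' → κ' → ℕ}

/-- two pairs of different leaves with the same split -/
def Pr (σ : κ → κ → ℕ) (σ' : κ' → κ' → ℕ) (a b : κ) (a' b' : κ') : Prop :=
  a ≠ b ∧ a' ≠ b' ∧ σ a b = σ' a' b'

theorem Pr.of_lt {K : ℕ} (H : Um K σ) (H' : Um K σ') {a b : κ} {a' b' : κ'} {t : ℕ}
    (h1 : σ a b = t) (h2 : σ' a' b' = t) (ht : t < K) : Pr σ σ' a b a' b' :=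
  ⟨fun e => by rw [e, H.self] at h1; omega, fun e => by rw [e, H'.self] at h2; omega,
    h1.trans h2.symm⟩

theorem TK_inj (hw : Wt w) (H : Um L.length σ) (H' : Um L.length σ') {n : ℕ} {φ : Fin n → κ}
    {φ' : Fin n → κ'} (e : ∀ i j, i < j → Pr σ σ' (φ i) (φ j) (φ' i) (φ' j))
    (F : (Fin n → Ω) → ℝ) :
    TK w L h σ (fun y => F fun a => y (φ a)) = TK w L h σ' fun y => F fun a => y (φ' a) := by
  refine TK_map hw H H' (fun i j => ?_) (fun i j hij => ?_) F
  · rcases lt_trichotomy i j with h1 | rfl | h1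
    · exact iff_of_false (e i j h1).1 (e i j h1).2.1
    · exact iff_of_true rfl rfl
    · exact iff_of_false (e j i h1).1.symm (e j i h1).2.1.symm
  · rcases lt_trichotomy i j with h1 | rfl | h1
    · exact (e i j h1).2.2
    · exact absurd rfl hij
    · rw [H.comm, H'.comm]; exact (e j i h1).2.2

theorem TK4 (hw : Wt w) (H : Um L.length σ) (H' : Um L.length σ') {a b c d : κ}
    {a' b' c' d' : κ'} (h1 : Pr σ σ' a b a' b') (h2 : Pr σ σ' a c a' c') (h3 : Pr σ σ' a d a' d')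
    (h4 : Pr σ σ' b c b' c') (h5 : Pr σ σ' b d b' d') (h6 : Pr σ σ' c d c' d')
    (F : Ω → Ω → Ω → Ω → ℝ) : TK w L h σ (fun y => F (y a) (y b) (y c) (y d)) =
      TK w L h σ' fun y => F (y a') (y b') (y c') (y d') :=
  TK_inj (h := h) hw H H' (φ := ![a, b, c, d]) (φ' := ![a', b', c', d']) (fun i j hij => by
    fin_cases i <;> fin_cases j <;>
      first | exact absurd hij (by decide) | exact h1 | exact h2 | exact h3 | exact h4 | exact h5 |
        exact h6) fun y => F (y 0) (y 1) (y 2) (y 3)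

theorem TK5 (hw : Wt w) (H : Um L.length σ) (H' : Um L.length σ') {a b c d e : κ}
    {a' b' c' d' e' : κ'} (h1 : Pr σ σ' a b a' b') (h2 : Pr σ σ' a c a' c')
    (h3 : Pr σ σ' a d a' d') (h4 : Pr σ σ' a e a' e') (h5 : Pr σ σ' b c b' c')
    (h6 : Pr σ σ' b d b' d') (h7 : Pr σ σ' b e b' e') (h8 : Pr σ σ' c d c' d')
    (h9 : Pr σ σ' c e c' e') (h10 : Pr σ σ' d e d' e') (F : Ω → Ω → Ω → Ω → Ω → ℝ) :
    TK w L h σ (fun y => F (y a) (y b) (y c) (y d) (y e)) =
      TK w L h σ' fun y => F (y a') (y b') (y c') (y d') (y e') :=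
  TK_inj (h := h) hw H H' (φ := ![a, b, c, d, e]) (φ' := ![a', b', c', d', e']) (fun i j hij => by
    fin_cases i <;> fin_cases j <;>
      first | exact absurd hij (by decide) | exact h1 | exact h2 | exact h3 | exact h4 | exact h5 |
        exact h6 | exact h7 | exact h8 | exact h9 | exact h10)
    fun y => F (y 0) (y 1) (y 2) (y 3) (y 4)

theorem env_le' {u a b e : ℝ} (he : 0 ≤ e) (ha : |a| ≤ 2) (hb : |b| ≤ 2) :
    |u * a * b| ≤ 1 / 2 * a ^ 2 + e ^ 2 / 2 * b ^ 2 + 4 * max (|u| - e) 0 := by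
  have h1 : |u| ≤ e + max (|u| - e) 0 := by linarith [le_max_left (|u| - e) 0]
  have h2 : 0 ≤ max (|u| - e) 0 := le_max_right _ _
  have h3 : e * (|a| * |b|) ≤ (a ^ 2 + e ^ 2 * b ^ 2) / 2 := by
    nlinarith [sq_abs a, sq_abs b, sq_nonneg (|a| - e * |b|)]
  have h4 : |a| * |b| ≤ 4 := by nlinarith [abs_nonneg a, abs_nonneg b]
  have h5 : 0 ≤ |a| * |b| := by positivity
  rw [mul_assoc, abs_mul, abs_mul]
  nlinarith [mul_le_mul_of_nonneg_right h1 h5, mul_le_mul_of_nonneg_left h4 h2]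

set_option maxHeartbeats 1600000 in
/-- **the bulk factor against the canonical one** -/
theorem bk [DecidableEq κ] (hw : Wt w) (hR : ∀ x y, R x y = R y x) (hR1 : ∀ x y, |R x y| ≤ 1)
    (H : Um L.length σ) {a b c d p q : κ} {y u : ℕ} (hac : σ a c = y) (hab : y < σ a b)
    (hcd : y < σ c d) (hcp : y < σ c p) (hu : σ p q = u) (hyu : y < u) (hK : u < L.length)
    {ρ X m τ V : ℝ} (hX : 0 ≤ X) (hm : 0 ≤ m) (hρ : |ρ| ≤ 1)
    (h1 : pi2 w L y (fun a b => max (|R a b| - X) 0) h ≤ τ)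
    (h2 : pi2 w L u (fun a b => max (|R a b - ρ| - m) 0) h ≤ τ)
    (h3 : pi2 w L u (fun a b => (R a b - ρ) ^ 2) h ≤ V) :
    |TK w L h σ (fun x => R (x a) (x c) * R (x b) (x d) * (R (x p) (x q) - ρ)) -
      TK w L h (C40.Mx84.cat L.length y (σ c p) u)
        fun x => R (x 0) (x 1) ^ 2 * (R (x 2) (x 3) - ρ)| ≤
      (if a = b then 0 else vK w L h R y (σ a b) + X ^ 2 / 2 * V) +
        (if c = d then 0 else if u ≤ σ c d then m * vK w L h R y (σ c d)
          else vK w L h R y (σ c d) + X ^ 2 / 2 * V) +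
        X * (3 * vK w L h R y u + 12 * vK w L h R u u) + 18 * τ := by
  set β : Fin 3 → κ := ![p, p, c] with hβ
  set T := lf L.length σ (Sum.elim id β) (Sum.elim (fun _ => L.length) fun _ => u) with hT
  have HT : Um L.length T := um_lf H _ _
  have HC : Um L.length (C40.Mx84.cat L.length y (σ c p) u) :=
    um_lf ⟨fun _ => rfl, fun _ _ => rfl, fun _ _ _ => min_le_left _ _⟩ _ _
  have t1 : ∀ a b, T (.inl a) (.inl b) = σ a b := fun a b => by
    by_cases e : a = b
    · rw [e, HT.self, H.self]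
    · rw [hT, lf_ne _ _ fun h => e (Sum.inl_injective h)]
      simp [H.le]
  have t2 : ∀ i v, i ≠ v → T (.inr i) (.inr v) = min (σ (β i) (β v)) u := fun i v e => by
    rw [hT, lf_ne _ _ fun h => e (Sum.inr_injective h)]
    simp
  have t3 : ∀ a v, T (.inl a) (.inr v) = min (σ a (β v)) u := fun a v => by
    rw [hT, lf_ne _ _ Sum.inl_ne_inr]
    simp only [Sum.elim_inl, Sum.elim_inr, id]
    omega
  have t4 : ∀ a v, T (.inr v) (.inl a) = min (σ a (β v)) u := fun a v => by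
    rw [HT.comm, t3]
  have b0 : β 0 = p := rfl
  have b1 : β 1 = p := rfl
  have b2 : β 2 = c := rfl
  have scc := H.self c
  have spp := H.self p
  have lcp := H.le c p
  have cpc := H.comm p c
  have cqp := H.comm q p
  have cqc := H.comm q c
  have sad : σ a d = y := by
    have := H.ultra a c d; have := H.ultra a d c; have := H.comm d c; omega
  have sap : σ a p = y := by
    have := H.ultra a c p; have := H.ultra a p c; omega
  have saq : σ a q = y := by
    have := H.ultra a p q; have := H.ultra a q p; omega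
  have sbd : σ b d = y := by
    have := H.ultra b a d; have := H.ultra a b d; have := H.comm b a; omega
  have scq : min (σ q c) u = min (σ c p) u := by
    have := H.ultra c p q; have := H.ultra c q p; omega
  have hyK : y < L.length := hyu.trans hK
  have hs : min (σ c p) u < L.length := by omega
  have pr : ∀ {a b a' b' : κ ⊕ Fin 3} {t : ℕ}, T a b = t → T a' b' = t → t < L.length →
      Pr T T a b a' b' := fun h1 h2 h3 => Pr.of_lt HT HT h1 h2 h3
  have aP : T (.inl a) (.inr 0) = y := by rw [t3, b0]; omega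
  have aQ : T (.inl a) (.inr 1) = y := by rw [t3, b1]; omega
  have aC : T (.inl a) (.inr 2) = y := by rw [t3, b2]; omega
  have cP : T (.inl c) (.inr 0) = min (σ c p) u := by rw [t3, b0]
  have cQ : T (.inl c) (.inr 1) = min (σ c p) u := by rw [t3, b1]
  have PQ : T (.inr 0) (.inr 1) = u := by rw [t2 _ _ (by decide), b0, b1]; omega
  have CP : T (.inr 2) (.inr 0) = min (σ c p) u := by rw [t2 _ _ (by decide), b0, b2]
  have CQ : T (.inr 2) (.inr 1) = min (σ c p) u := by rw [t2 _ _ (by decide), b1, b2]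
  have Cp : T (.inr 2) (.inl p) = min (σ c p) u := by rw [t4, b2, cpc]
  have Cq : T (.inr 2) (.inl q) = min (σ c p) u := by rw [t4, b2, scq]
  have npq : p ≠ q := fun e => by rw [e, H.self] at hu; omega
  have nac : a ≠ c := fun e => by rw [e, H.self] at hac; omega
  have nad : a ≠ d := fun e => by rw [e, H.self] at sad; omega
  have nbd : b ≠ d := fun e => by rw [e, H.self] at sbd; omega
  have inl : ∀ {a b : κ}, a ≠ b → (Sum.inl a : κ ⊕ Fin 3) ≠ .inl b := fun h e =>
    h (Sum.inl_injective e)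
  -- transport to the extended tree
  have e0 := TK_map (h := h) hw H HT (φ := id) (φ' := Sum.inl) (by simp)
    (fun a b _ => (t1 a b).symm) fun x => R (x a) (x c) * R (x b) (x d) * (R (x p) (x q) - ρ)
  have e1 := TK4 (h := h) hw HC HT (a := 0) (b := 1) (c := 2) (d := 3) (a' := .inl a)
    (b' := .inl c) (c' := .inr 0) (d' := .inr 1)
    (Pr.of_lt HC HT (t := y) (by simp [C40.Mx84.cat, lf]; omega) (by rw [t1, hac]) hyK)
    (Pr.of_lt HC HT (t := y) (by simp [C40.Mx84.cat, lf]; omega) aP hyK)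
    (Pr.of_lt HC HT (t := y) (by simp [C40.Mx84.cat, lf]; omega) aQ hyK)
    (Pr.of_lt HC HT (by simp [C40.Mx84.cat, lf]; omega) cP hs)
    (Pr.of_lt HC HT (by simp [C40.Mx84.cat, lf]; omega) cQ hs)
    (Pr.of_lt HC HT (t := u) (by simp [C40.Mx84.cat, lf]; omega) PQ hK)
    fun x₀ x₁ x₂ x₃ => R x₀ x₁ ^ 2 * (R x₂ x₃ - ρ)
  have e2 := TK4 (h := h) hw HT HT (a := .inl a) (b := .inr 2) (c := .inl p) (d := .inl q)
    (a' := .inl a) (b' := .inr 2) (c' := .inr 0) (d' := .inr 1) (pr aC aC hyK)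
    (pr (by rw [t1, sap]) aP hyK) (pr (by rw [t1, saq]) aQ hyK) (pr Cp CP hs) (pr Cq CQ hs)
    (pr (by rw [t1, hu]) PQ hK) fun x₀ x₁ x₂ x₃ => R x₀ x₁ ^ 2 * R x₂ x₃
  -- square norms
  have s1 := sqK (h := h) hw hR HT (a := .inl p) (b := .inr 0) (c := .inl q) (y := u) (t := u)
    Sum.inl_ne_inr (inl npq) Sum.inr_ne_inl (by rw [t3, b0]; omega) (by rw [t1, hu])
    (by rw [t4, b0]; omega) le_rfl
  have s2 := sqK (h := h) hw hR HT (a := .inl q) (b := .inr 1) (c := .inr 0) (y := u) (t := u)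
    Sum.inl_ne_inr Sum.inl_ne_inr (by simp) (by rw [t3, b1]; omega) (by rw [t3, b0]; omega)
    (by rw [HT.comm, PQ]) le_rfl
  have s3 := TK_mono (h := h) hw HT
    (F := fun ω => (R (ω (.inl p)) (ω (.inl q)) - R (ω (.inr 0)) (ω (.inr 1))) ^ 2)
    (G := fun ω => 2 * (R (ω (.inl p)) (ω (.inl q)) - R (ω (.inr 0)) (ω (.inl q))) ^ 2 +
      2 * (R (ω (.inl q)) (ω (.inr 0)) - R (ω (.inr 1)) (ω (.inr 0))) ^ 2) fun ω => by
      rw [hR (ω (.inl q)) (ω (.inr 0)), hR (ω (.inr 1)) (ω (.inr 0))]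
      nlinarith [sq_nonneg (R (ω (.inl p)) (ω (.inl q)) - 2 * R (ω (.inr 0)) (ω (.inl q)) +
        R (ω (.inr 0)) (ω (.inr 1)))]
  rw [TK_add, TK_mul, TK_mul, s1, s2] at s3
  have s4 := sqK (h := h) hw hR HT (a := .inl c) (b := .inr 2) (c := .inl a) (y := y) (t := u)
    Sum.inl_ne_inr (inl nac.symm) Sum.inr_ne_inl (by rw [t3, b2]; omega)
    (by rw [t1, H.comm, hac]) (by rw [HT.comm, aC]) hyu.le
  have p1 := TK_pair (h := h) hw HT (inl nac) fun a b => max (|R a b| - X) 0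
  have p2 := TK_pair (h := h) hw HT (a := .inl a) (b := .inr 2) Sum.inl_ne_inr
    fun a b => max (|R a b| - X) 0
  have p3 := TK_pair (h := h) hw HT (inl npq) fun a b => (R a b - ρ) ^ 2
  have p4 := TK_pair (h := h) hw HT (a := .inr 0) (b := .inr 1) (by simp)
    fun a b => max (|R a b - ρ| - m) 0
  rw [t1, hac] at p1
  rw [aC] at p2
  rw [t1, hu] at p3
  rw [PQ] at p4
  have hW : ∀ x z, |R x z - ρ| ≤ 2 := fun x z => (abs_sub _ _).trans (by linarith [hR1 x z])
  have τ0 : 0 ≤ τ := (pi2_nn hw hyK.le fun _ _ => le_max_right _ _).trans h1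
  have v1 := vK_nonneg (L := L) (h := h) (R := R) hw y u
  have v2 := vK_nonneg (L := L) (h := h) (R := R) hw u u
  have hX2 : 0 ≤ X ^ 2 / 2 := by positivity
  -- the first replacement
  have A1 : |TK w L h T fun x => R (x (.inl a)) (x (.inl c)) *
      (R (x (.inl b)) (x (.inl d)) - R (x (.inl a)) (x (.inl d))) *
      (R (x (.inl p)) (x (.inl q)) - ρ)| ≤
      (if a = b then 0 else vK w L h R y (σ a b) + X ^ 2 / 2 * V) + 4 * τ := by
    split_ifs with e
    · simp only [e, sub_self, mul_zero, zero_mul, TK_const hw HT, abs_zero]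
      linarith
    · have k := abs_TK_le (h := h) hw HT fun ω => env_le' (u := R (ω (.inl a)) (ω (.inl c))) hX
        (abs_sub_two hR1 (ω (.inl b)) (ω (.inl d)) (ω (.inl a)) (ω (.inl d)))
        (hW (ω (.inl p)) (ω (.inl q)))
      have s := sqK (h := h) hw hR HT (a := .inl b) (b := .inl a) (c := .inl d) (y := y)
        (t := σ a b) (inl (Ne.symm e)) (inl nbd) (inl nad) (by rw [t1, H.comm])
        (by rw [t1, sbd]) (by rw [t1, sad]) hab.le
      rw [TK_add, TK_add, TK_mul, TK_mul, TK_mul, p1, p3, s] at k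
      linarith [mul_le_mul_of_nonneg_left h3 hX2]
  -- the second replacement
  have A2 : |TK w L h T fun x => R (x (.inl a)) (x (.inl c)) *
      (R (x (.inl d)) (x (.inl a)) - R (x (.inl c)) (x (.inl a))) *
      (R (x (.inl p)) (x (.inl q)) - ρ)| ≤
      (if c = d then 0 else if u ≤ σ c d then m * vK w L h R y (σ c d)
        else vK w L h R y (σ c d) + X ^ 2 / 2 * V) +
      X * (vK w L h R y u + 4 * vK w L h R u u) + 6 * τ := by
    have z0 : 0 ≤ X * (vK w L h R y u + 4 * vK w L h R u u) := by positivity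
    by_cases e : c = d
    · simp only [e, sub_self, mul_zero, zero_mul, TK_const hw HT, abs_zero, if_true]
      linarith
    rw [if_neg e]
    have s := sqK (h := h) hw hR HT (a := .inl d) (b := .inl c) (c := .inl a) (y := y)
      (t := σ c d) (inl (Ne.symm e)) (inl nad.symm) (inl nac.symm) (by rw [t1, H.comm])
      (by rw [t1, H.comm, sad]) (by rw [t1, H.comm, hac]) hcd.le
    split_ifs with f
    swap
    · have k := abs_TK_le (h := h) hw HT fun ω => env_le' (u := R (ω (.inl a)) (ω (.inl c))) hX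
        (abs_sub_two hR1 (ω (.inl d)) (ω (.inl a)) (ω (.inl c)) (ω (.inl a)))
        (hW (ω (.inl p)) (ω (.inl q)))
      rw [TK_add, TK_add, TK_mul, TK_mul, TK_mul, p1, p3, s] at k
      linarith [mul_le_mul_of_nonneg_left h3 hX2]
    have sdp : min (σ d p) u = min (σ c p) u := by
      have := H.ultra c d p; have := H.ultra d c p; have := H.comm d c; omega
    have dP : T (.inl d) (.inr 0) = min (σ c p) u := by rw [t3, b0, sdp]
    have dQ : T (.inl d) (.inr 1) = min (σ c p) u := by rw [t3, b1, sdp]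
    have e3 := TK5 (h := h) hw HT HT (a := .inl a) (b := .inl c) (c := .inl d) (d := .inr 0)
      (e := .inr 1) (a' := .inl a) (b' := .inl d) (c' := .inl c) (d' := .inr 0) (e' := .inr 1)
      (pr (by rw [t1, hac]) (by rw [t1, sad]) hyK) (pr (by rw [t1, sad]) (by rw [t1, hac]) hyK)
      (pr aP aP hyK) (pr aQ aQ hyK) ⟨inl e, inl (Ne.symm e), HT.comm _ _⟩ (pr cP dP hs)
      (pr cQ dQ hs) (pr dP cP hs) (pr dQ cQ hs) (pr PQ PQ hK)
      fun x₀ x₁ x₂ x₃ x₄ => R x₁ x₀ * (R x₂ x₀ - R x₁ x₀) * (R x₃ x₄ - ρ)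
    have k1 := abs_TK_le (h := h) hw HT fun ω => env_le (u := R (ω (.inl a)) (ω (.inl c))) hX
      (abs_sub_two hR1 (ω (.inl d)) (ω (.inl a)) (ω (.inl c)) (ω (.inl a)))
      (abs_sub_two hR1 (ω (.inl p)) (ω (.inl q)) (ω (.inr 0)) (ω (.inr 1)))
    have k2 := abs_TK_le (h := h) hw HT fun ω => env_le (u := R (ω (.inr 0)) (ω (.inr 1)) - ρ) hm
      (abs_sub_two hR1 (ω (.inl d)) (ω (.inl a)) (ω (.inl c)) (ω (.inl a)))
      (abs_sub_two hR1 (ω (.inl d)) (ω (.inl a)) (ω (.inl c)) (ω (.inl a)))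
    rw [TK_add, TK_add, TK_mul, TK_mul, TK_mul, p1, s] at k1
    rw [TK_add, TK_add, TK_mul, TK_mul, p4, s] at k2
    have d1 : TK w L h T (fun ω => (R (ω (.inr 0)) (ω (.inr 1)) - ρ) *
        (R (ω (.inl d)) (ω (.inl a)) - R (ω (.inl c)) (ω (.inl a))) *
        (R (ω (.inl d)) (ω (.inl a)) - R (ω (.inl c)) (ω (.inl a)))) =
        -2 * TK w L h T fun x => R (x (.inl c)) (x (.inl a)) *
          (R (x (.inl d)) (x (.inl a)) - R (x (.inl c)) (x (.inl a))) *
          (R (x (.inr 0)) (x (.inr 1)) - ρ) := by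
      rw [show ∀ t : ℝ, -2 * t = -1 * t + -1 * t from fun t => by ring]
      nth_rewrite 2 [e3]
      rw [← TK_lin]
      exact congrArg _ (funext fun ω => by ring)
    have d2 : TK w L h T (fun x => R (x (.inl a)) (x (.inl c)) *
        (R (x (.inl d)) (x (.inl a)) - R (x (.inl c)) (x (.inl a))) *
        (R (x (.inl p)) (x (.inl q)) - ρ)) =
        TK w L h T (fun x => R (x (.inl a)) (x (.inl c)) *
          (R (x (.inl d)) (x (.inl a)) - R (x (.inl c)) (x (.inl a))) *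
          (R (x (.inl p)) (x (.inl q)) - R (x (.inr 0)) (x (.inr 1)))) +
        TK w L h T fun x => R (x (.inl c)) (x (.inl a)) *
          (R (x (.inl d)) (x (.inl a)) - R (x (.inl c)) (x (.inl a))) *
          (R (x (.inr 0)) (x (.inr 1)) - ρ) := by
      rw [← TK_add]
      exact congrArg _ (funext fun ω => by rw [hR (ω (.inl a)) (ω (.inl c))]; ring)
    rw [d1, abs_mul, abs_neg, abs_two] at k2
    rw [d2]
    refine (abs_add_le _ _).trans ?_
    have a1 := vK_anti (L := L) (h := h) (R := R) hw hyu.le f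
    linarith [mul_le_mul_of_nonneg_left s3 hX, mul_le_mul_of_nonneg_left a1 hX,
      mul_le_mul_of_nonneg_left h1 zero_le_two]
  -- fresh upper pair
  have k1 := abs_TK_le (h := h) hw HT fun ω => env_le (u := R (ω (.inl a)) (ω (.inl c))) hX
    (abs_sub_two hR1 (ω (.inl c)) (ω (.inl a)) (ω (.inr 2)) (ω (.inl a)))
    (abs_sub_two hR1 (ω (.inl p)) (ω (.inl q)) (ω (.inr 0)) (ω (.inr 1)))
  have k2 := abs_TK_le (h := h) hw HT fun ω => env_le (u := R (ω (.inl a)) (ω (.inr 2))) hX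
    (abs_sub_two hR1 (ω (.inl c)) (ω (.inl a)) (ω (.inr 2)) (ω (.inl a)))
    (abs_sub_two hR1 (ω (.inl p)) (ω (.inl q)) (ω (.inr 0)) (ω (.inr 1)))
  rw [TK_add, TK_add, TK_mul, TK_mul, TK_mul, p1, s4] at k1
  rw [TK_add, TK_add, TK_mul, TK_mul, TK_mul, p2, s4] at k2
  have dec : TK w L h T (fun x => R (x (.inl a)) (x (.inl c)) * R (x (.inl b)) (x (.inl d)) *
      (R (x (.inl p)) (x (.inl q)) - ρ)) - TK w L h T (fun x => R (x (.inl a)) (x (.inl c)) ^ 2 *
        (R (x (.inr 0)) (x (.inr 1)) - ρ)) =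
      TK w L h T (fun x => R (x (.inl a)) (x (.inl c)) *
        (R (x (.inl b)) (x (.inl d)) - R (x (.inl a)) (x (.inl d))) *
        (R (x (.inl p)) (x (.inl q)) - ρ)) +
      TK w L h T (fun x => R (x (.inl a)) (x (.inl c)) *
        (R (x (.inl d)) (x (.inl a)) - R (x (.inl c)) (x (.inl a))) *
        (R (x (.inl p)) (x (.inl q)) - ρ)) +
      TK w L h T (fun ω => R (ω (.inl a)) (ω (.inl c)) *
        (R (ω (.inl c)) (ω (.inl a)) - R (ω (.inr 2)) (ω (.inl a))) *
        (R (ω (.inl p)) (ω (.inl q)) - R (ω (.inr 0)) (ω (.inr 1)))) +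
      TK w L h T (fun ω => R (ω (.inl a)) (ω (.inr 2)) *
        (R (ω (.inl c)) (ω (.inl a)) - R (ω (.inr 2)) (ω (.inl a))) *
        (R (ω (.inl p)) (ω (.inl q)) - R (ω (.inr 0)) (ω (.inr 1)))) +
      (TK w L h T (fun y => R (y (.inl a)) (y (.inr 2)) ^ 2 * R (y (.inl p)) (y (.inl q))) -
        TK w L h T fun y => R (y (.inl a)) (y (.inr 2)) ^ 2 * R (y (.inr 0)) (y (.inr 1))) := by
    rw [← TK_sub, ← TK_sub, ← TK_add, ← TK_add, ← TK_add, ← TK_add]
    refine congrArg _ (funext fun ω => ?_)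
    rw [hR (ω (.inl d)) (ω (.inl a)), hR (ω (.inl c)) (ω (.inl a)), hR (ω (.inr 2)) (ω (.inl a))]
    ring
  rw [e2, sub_self, add_zero] at dec
  rw [e1, show TK w L h σ (fun x => R (x a) (x c) * R (x b) (x d) * (R (x p) (x q) - ρ)) = _
    from e0, dec]
  refine (abs_add_le _ _).trans ((add_le_add ((abs_add_le _ _).trans
    (add_le_add ((abs_add_le _ _).trans (add_le_add A1 A2)) k1)) k2).trans ?_)
  linarith [mul_le_mul_of_nonneg_left s3 hX]

end Crest.Agent.T156.Cas.K47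

namespace Crest.Agent.T156.Cas.C40.Mx84

open Crest.Agent.T157.E Crest.Agent.T157.Casc Crest.Agent.T157.SL
open Crest.Agent.T157.G1 (ov)
open Nu87 Ck32
open Cw55 (Uc)

theorem Uc_eq47 (D : CD) (u : ℕ) (x y : Cube D.n) : Uc D u x y = ov x y - D.rb u := by
  simp only [Uc, oU, CD.del]
  ring

/-- **`BkS`** -/
theorem bkS : BkS := by
  refine ⟨36, by norm_num, fun τ0 D H r σ hσ a b c d p q y u hac hy hab hcd hcp _ hu hup => ?_⟩
  obtain ⟨hJ, hK⟩ := CD.mem_up.1 hup
  have hyJ := (CD.mem_lo.1 hy).2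
  have w1 : Wt fun _ : Cube D.n => (1 : ℝ) := wt_one90
  have m0 : 0 ≤ mm D u := le_min zero_le_one (H.e0 u)
  have mean : pi2 (fun _ => 1) D.B u (oU D.q u) 0 = D.del u := by
    have := pi2_sub w1 D.B u ov (fun _ _ => D.q u) 0
    rw [pi2_const w1] at this
    exact this
  have dom : ∀ {g : Cube D.n → Cube D.n → ℝ} {f : Cube D.n → Cube D.n → ℝ},
      (∀ x y, |f x y| ≤ g x y) →
      |pi2 (fun _ => 1) D.B u f 0| ≤ pi2 (fun _ => 1) D.B u g 0 := fun {g f} e => by
    have h1 := Crest.Agent.T157.Casc.pi2_mono w1 D.B u (fun x y => (abs_le.1 (e x y)).2) 0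
    have h2 := Crest.Agent.T157.Casc.pi2_mono w1 D.B u (K := fun x y => -1 * g x y) (K' := f)
      (fun x y => by linarith [(abs_le.1 (e x y)).1]) 0
    rw [pi2_const_mul] at h2
    rw [abs_le]
    constructor <;> linarith
  have hρ : |D.rb u| ≤ 1 := (dom (g := fun _ _ => 1) abs_ov_le).trans_eq (pi2_const w1 _ _ _ _)
  have hd : |D.del u| ≤ D.e u + D.tl := by
    have := dom (f := oU D.q u) (g := fun x y => D.e u + max (|oU D.q u x y| - D.e u) 0)
      fun x y => by linarith [le_max_left (|oU D.q u x y| - D.e u) 0]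
    rw [mean, pi2_add w1, pi2_const w1] at this
    exact this.trans (add_le_add le_rfl (H.envU u hup))
  have h1 : pi2 (fun _ => 1) D.B y (fun a b => max (|ov a b| - D.X) 0) 0 ≤ 2 * D.tl :=
    (H.envL y hy).trans (by linarith [H.tl0])
  have h2 : pi2 (fun _ => 1) D.B u (fun a b => max (|ov a b - D.rb u| - 2 * mm D u) 0) 0 ≤
      2 * D.tl := by
    have k := Crest.Agent.T157.Casc.pi2_mono w1 D.B u
      (K := fun a b => max (|ov a b - D.rb u| - 2 * mm D u) 0)
      (K' := fun a b => max (|oU D.q u a b| - D.e u) 0 + D.tl) (fun a b => by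
        have z0 := le_max_right (|oU D.q u a b| - D.e u) 0
        have z1 := le_max_left (|oU D.q u a b| - D.e u) 0
        refine max_le ?_ (add_nonneg z0 H.tl0)
        unfold mm
        rcases le_total 1 (D.e u) with h | h
        · rw [min_eq_left h]
          linarith [abs_sub (ov a b) (D.rb u), abs_ov_le a b, H.tl0]
        · rw [min_eq_right h, ← Uc_eq47, Uc]
          linarith [abs_sub (oU D.q u a b) (D.del u)]) 0
    rw [pi2_add w1, pi2_const w1] at k
    exact k.trans ((add_le_add (H.envU u hup) le_rfl).trans_eq (two_mul _).symm)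
  have h3 : pi2 (fun _ => 1) D.B u (fun a b => (ov a b - D.rb u) ^ 2) 0 ≤ 2 * D.g u ^ 2 := by
    have k : (fun a b : Cube D.n => (ov a b - D.rb u) ^ 2) = fun a b =>
        |oU D.q u a b| ^ 2 + (-2 * D.del u * oU D.q u a b + D.del u ^ 2) :=
      funext fun a => funext fun b => by rw [← Uc_eq47, Uc, sq_abs]; ring
    rw [k, pi2_add w1, pi2_add w1, pi2_const w1, pi2_const_mul, mean]
    have := u_le_g (D := D) (p := 2) (by norm_num) u
    change pi2 _ _ _ _ _ ≤ _ at this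
    nlinarith [sq_nonneg (D.del u)]
  have k := K47.bk (h := 0) w1 C394.ov_comm_97 abs_ov_le (R90.um_rz hσ) hac (hyJ.trans_lt hab)
    (hyJ.trans_lt hcd) (hyJ.trans_lt hcp) hu (hyJ.trans_lt hJ) (lenB (D := D) ▸ hK) H.X0
    (mul_nonneg zero_le_two m0) hρ h1 h2 h3
  unfold TB Bk
  rw [R90.TM_eq w1 hσ]
  simp only [Uc_eq47]
  refine k.trans ?_
  have ev : ∀ i j, Y44.vK (fun _ => 1) D.B 0 ov i j = D.v i j := fun _ _ => rfl
  simp only [ev]
  have v1 := D.v0 y (σ a b)
  have v2 := D.v0 y (σ c d)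
  have v3 := mul_nonneg H.X0 (D.v0 y u)
  have v4 := mul_nonneg H.X0 (D.v0 u u)
  have v5 : 0 ≤ D.X ^ 2 * D.g u ^ 2 := by positivity
  have v6 := mul_nonneg m0 v2
  have v7 := H.tl0
  split_ifs <;> nlinarith

end Crest.Agent.T156.Cas.C40.Mx84

end
end

-- ▼ part T156/CMxS_22
section

/-!
# Row 156, block C: the site factor of the centred mixed word (helper22)
-/

set_option autoImplicit false
set_option linter.all false

noncomputable section

namespace Crest.Agent.T156.Cas.C40.Mx84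

open MeasureTheory Real Set Filter Topology
open Crest.Agent.T157.E Crest.Agent.T157.Casc Crest.Agent.T157.SL
open Mul55 G90 Nu87 Ck32 OneP

namespace S22

variable {D : CD} {τ0 : ℝ} {r : ℕ}

theorem abs_se (H : D.Ok τ0) {σ : SM r} (hσ : ∀ a b, σ a b ≤ D.K) (x : Fin r → Bool) :
    ∀ A : EL r, |se D A σ x| ≤ 2 ^ A.length
  | [] => by simp [se]
  | e :: A => by
      have := abs_se H hσ x A
      rw [se, List.map_cons, List.prod_cons, abs_mul, List.length_cons, pow_succ']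
      exact mul_le_mul (abs_oE_le H.ook (hσ _ _) _ _) this (abs_nonneg _) zero_le_two

theorem pow_len {A : EL r} (hA : A.length ≤ 4) : (2 : ℝ) ^ A.length ≤ 16 :=
  (pow_le_pow_right₀ one_le_two hA).trans_eq (by norm_num)

theorem se_sety (H : D.Ok τ0) (A : EL r) (σ : SM r) : se D A (sety D.J σ) = se D A σ := by
  funext x
  refine congrArg List.prod (List.map_congr_left fun e _ => ?_)
  simp only [oE, sety]
  split_ifs with h
  · rw [H.qlo _ le_rfl, H.qlo _ h]
  · rfl

/-- all splits below `i` are moved to `i` -/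
theorem um_max {K i : ℕ} {σ : SM r} (h : Ker15.Um K σ) (hi : i ≤ K) :
    Ker15.Um K fun a b => max (σ a b) i :=
  ⟨fun a => by rw [h.self]; omega, fun a b => by rw [h.comm a b], fun a b c => by
    have := h.ultra a b c
    omega⟩

/-- moving the low splits up to `i` costs the clock -/
theorem mv_max (H : D.Ok τ0) (hr : r ≤ 8) {σ : SM r} (hσ : Rz D.B.length σ)
    {F : (Fin r → Bool) → ℝ} {b : ℝ} (hF : ∀ x, |F x| ≤ b) : ∀ i ≤ D.K,
    |Ck32.TS D σ F - Ck32.TS D (fun a c => max (σ a c) i) F| ≤ 128 * (b * (D.sig i - D.sig 0))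
  | 0, _ => by simp
  | i + 1, hi => by
      have l : D.S.length = D.K := opS_length
      have u : Ker15.Um D.S.length σ := SF97.um_of_rz (lenS (D := D) ▸ hσ)
      have h1 := mv_max H hr hσ hF i (by omega)
      have h2 := SF97.mvF (Cw55.r1_S H.ook) (Cw55.monoS H.mono) (N := 8) (by norm_num) hr
        (by omega : i < D.S.length) (um_max u (i := i) (by omega))
        (um_max u (i := i + 1) (by omega)) (fun a c => by beta_reduce; omega) 0 hF
      rw [SF97.vv, Cw55.tm_S H.ook hi, Cw55.tm_S H.ook (by omega), abs_sub_comm] at h2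
      refine (abs_sub_le _ _ _).trans ((add_le_add h1 h2).trans_eq ?_)
      push_cast
      ring

end S22

open S22


/-- **the site factor does not see the low splits** -/
theorem smS : SmS := ⟨128 * 16, by norm_num, fun τ0 D H r hr σ hσ A hA => by
  have e : sety D.J σ = fun a c => max (σ a c) D.J := by
    funext a c
    simp only [sety]
    split_ifs <;> omega
  rw [se_sety H, e]
  refine (mv_max H hr hσ (fun x => (abs_se H (fun a b => (hσ.le a b).trans_eq lenB) x A).trans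
    (pow_len hA)) _ H.cut.le).trans ?_
  have h1 := H.sig0 (Nat.zero_le D.K)
  have h2 := H.h1
  rw [CD.sig, H.qlo _ le_rfl]
  linarith⟩

end Crest.Agent.T156.Cas.C40.Mx84

end
end

-- ▼ part T156/CMxR_90

/-!
# Row 156, block C: the centred mixed word, reduction to the canonical form (helper90)
-/

set_option autoImplicit false
set_option linter.unusedSectionVars false

noncomputable section

namespace Crest.Agent.T156.Cas.C40.Mx84.Rd90

open MeasureTheory Real Set Filter Topology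
open Crest.Agent.T157.E Crest.Agent.T157.Casc Crest.Agent.T157.SL
open Crest.Agent.T157.G1 (ov)
open Mul55 G90 Nu87 R90 W90 Ck32 Ker15 Mx23
open L90 (mA mj gl mkd mem_mA mA_length TS_par av_wb w_lad w_mkd TB_eq)
open Cw55 (Uc off)

variable {D : CD} {τ0 : ℝ} {r k : ℕ}

/-! ### crude bulk bounds -/

theorem abs_Uc (H : D.Ok τ0) {j : ℕ} (hj : j ≤ D.K) (x y : Cube D.n) : |Uc D j x y| ≤ 4 := by
  have h1 := (L90.abs_del D (abs_oU_le H.ook hj)).trans_eq (pi2_const wt_one90 _ _ 2 0)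
  unfold Uc
  linarith [abs_sub (oU D.q j x y) (D.del j), abs_oU_le H.ook hj x y]

theorem E2_Uc (D : CD) (j : ℕ) : D.E2 j (fun x y => |Uc D j x y|) ≤ 4 * D.g j := by
  have h1 : D.E2 j (fun x y => |oU D.q j x y|) ≤ 2 * D.g j := by
    have := u_le_g (D := D) (p := 1) (by norm_num) j
    simp only [CD.u, uM, pow_one] at this
    exact this
  have h2 := (L90.abs_del D (j := j) (g := fun x y => |oU D.q j x y|) fun _ _ => le_rfl).trans h1
  have h3 := T157.Casc.pi2_mono wt_one90 D.B j (K := fun x y => |Uc D j x y|)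
    (K' := fun x y => |oU D.q j x y| + |D.del j|) (fun x y => abs_sub _ _) 0
  rw [pi2_add wt_one90, pi2_const wt_one90] at h3
  unfold CD.E2 at h1 ⊢
  linarith

theorem crude {κ : Type} [Fintype κ] (H : D.Ok τ0) {σ : κ → κ → ℕ} (hσ : Um D.B.length σ)
    {a c b d p q : κ} (hac : a ≠ c) (hbd : b ≠ d) (hpq : p ≠ q) (h1 : σ a c ∈ D.lo)
    (h2 : σ b d ∈ D.lo) {u : ℕ} (hu : σ p q = u) (hK : u ≤ D.K) {m : ℝ}
    (hm : D.E2 u (fun x y => |Uc D u x y|) ≤ m) :
    |TK (fun _ => 1) D.B 0 σ fun x => ov (x a) (x c) * ov (x b) (x d) * Uc D u (x p) (x q)| ≤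
      D.X ^ 2 * m + 8 * D.tl := by
  have x0 := H.X0
  refine (abs_TK_le wt_one90 hσ (G := fun x => D.X ^ 2 * |Uc D u (x p) (x q)| +
    (4 * max (|ov (x a) (x c)| - D.X) 0 + 4 * max (|ov (x b) (x d)| - D.X) 0)) fun x => ?_).trans ?_
  · rw [abs_mul, abs_mul]
    have k1 := T157.G1.abs_ov_le (x b) (x d)
    have k2 := le_max_left (|ov (x a) (x c)| - D.X) 0
    have k3 := le_max_right (|ov (x a) (x c)| - D.X) 0
    have k4 := le_max_left (|ov (x b) (x d)| - D.X) 0
    have k5 := le_max_right (|ov (x b) (x d)| - D.X) 0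
    have k6 := abs_nonneg (ov (x b) (x d))
    have k7 : |ov (x a) (x c)| * |ov (x b) (x d)| ≤ D.X ^ 2 +
        (max (|ov (x a) (x c)| - D.X) 0 + max (|ov (x b) (x d)| - D.X) 0) := by
      nlinarith [mul_le_mul_of_nonneg_right k2 k6, mul_le_mul_of_nonneg_left k1 k3,
        mul_le_mul_of_nonneg_left k4 x0, mul_le_mul_of_nonneg_right H.X1 k5]
    nlinarith [mul_le_mul_of_nonneg_right k7 (abs_nonneg (Uc D u (x p) (x q))),
      mul_le_mul_of_nonneg_left (abs_Uc H hK (x p) (x q)) (add_nonneg k3 k5)]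
  · rw [TK_add, TK_add, TK_mul, TK_mul, TK_mul,
      TK_pair wt_one90 hσ hpq fun x y => |Uc D u x y|,
      TK_pair wt_one90 hσ hac fun x y => max (|ov x y| - D.X) 0,
      TK_pair wt_one90 hσ hbd fun x y => max (|ov x y| - D.X) 0, hu]
    have k1 := H.envL _ h1
    have k2 := H.envL _ h2
    unfold CD.E2 at hm k1 k2
    linarith [mul_le_mul_of_nonneg_left hm (sq_nonneg D.X)]

theorem abs_Bk (H : D.Ok τ0) {y s u : ℕ} (hy : y ∈ D.lo) (hs : D.J < s) (hu : u ≤ D.K) :
    |Bk D y s u| ≤ D.X ^ 2 * 4 + 8 * D.tl := by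
  have h1 := (CD.mem_lo.1 hy).2
  have h2 := H.cut
  have h3 := lenB (D := D)
  have e1 : cat D.B.length y s u 0 1 = y := by
    rw [cat, lf_ne _ _ (by decide)]
    simp only [Matrix.cons_val_zero, Matrix.cons_val_one]
    omega
  have e2 : cat D.B.length y s u 2 3 = u := by
    rw [cat, lf_ne _ _ (by decide)]
    simp only [Matrix.cons_val]
    omega
  have := crude H (σ := cat D.B.length y s u) (um_lf ⟨fun _ => rfl, fun _ _ => rfl,
    fun _ _ _ => min_le_left _ _⟩ _ _) (a := 0) (c := 1) (b := 0) (d := 1) (p := 2) (q := 3)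
    (by decide) (by decide) (by decide) (e1.symm ▸ hy) (e1.symm ▸ hy) e2 hu (m := 4)
    ((T157.Casc.pi2_mono wt_one90 D.B u (abs_Uc H hu) 0).trans_eq (pi2_const wt_one90 _ _ 4 0))
  simpa only [Bk, sq] using this

/-! ### weights -/

open Classical in
theorem wb_up {Θ : Type} [Fintype Θ] {L : List (Lv Θ)} {i j c : ℕ} {P : SM r → Prop}
    {A : (SM r → ℝ) → ℝ} (W : WB L i j c P A) (hL : Mono 0 L) {p q : Fin r} (hpq : p ≠ q) (V : ℕ)
    {T : Finset ℕ} (hT : ∀ t ∈ T, i < t) {G : ℕ → ℝ} (hG : ∀ t, 0 ≤ G t) :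
    A (fun σ => if σ p q ∈ T ∧ Cl σ i V then G (σ p q) else 0) ≤
      3 ^ c * (ex L i ^ (V - 1) * (∑ t ∈ T, dm L 0 t * G t + if j ∈ T then G j else 0)) := by
  have g0 : 0 ≤ if j ∈ T then G j else 0 := by split_ifs; exacts [hG j, le_rfl]
  have x0 := pow_nonneg (ex_nonneg hL i) (V - 1)
  refine (W.mono (ψ := fun σ => ∑ t ∈ T.erase j, G t * W90.ind i {t} V σ +
    (if j ∈ T then G j else 0) * W90.ind i ∅ V σ) fun σ _ => ?_).trans ?_
  · have n : ∀ t ∈ T.erase j, 0 ≤ G t * W90.ind i {t} V σ := fun t _ =>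
      mul_nonneg (hG t) (ind_nonneg _ _ _ _)
    have n2 := mul_nonneg g0 (ind_nonneg i ∅ V σ)
    by_cases h : σ p q ∈ T ∧ Cl σ i V
    · rw [if_pos h]
      by_cases e : σ p q = j
      · refine le_add_of_nonneg_of_le (Finset.sum_nonneg n) (le_of_eq ?_)
        rw [if_pos (e ▸ h.1), W90.ind, if_pos ⟨by simp, h.2⟩, mul_one, e]
      · refine le_add_of_le_of_nonneg (le_trans (le_of_eq ?_)
          (Finset.single_le_sum n (Finset.mem_erase.2 ⟨e, h.1⟩))) n2
        rw [W90.ind, if_pos ⟨fun v hv => ⟨p, q, hpq, (Finset.mem_singleton.1 hv).symm⟩, h.2⟩, mul_one]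
    · rw [if_neg h]
      exact add_nonneg (Finset.sum_nonneg n) n2
  · rw [W.add, W.sum, W.mul, mul_add, mul_add, Finset.mul_sum, Finset.mul_sum]
    refine add_le_add ((Finset.sum_le_sum fun t ht => ?_).trans
      (Finset.sum_le_sum_of_subset_of_nonneg (Finset.erase_subset j T) fun t _ _ =>
        mul_nonneg (by positivity) (mul_nonneg x0 (mul_nonneg (dm_nonneg hL t) (hG t))))) ?_
    · have h2 := hT t (Finset.mem_of_mem_erase ht)
      have h1 := W.ind {t} V fun e => Finset.ne_of_mem_erase ht (Finset.mem_singleton.1 e).symm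
      rw [Finset.filter_false_of_mem fun v hv => by rw [Finset.mem_singleton.1 hv]; omega,
        Finset.card_singleton, Finset.prod_singleton, Finset.card_empty, Nat.sub_zero] at h1
      rw [W.mul]
      refine (mul_le_mul_of_nonneg_left h1 (hG t)).trans (le_of_eq ?_)
      norm_num
      ring
    · have h1 := W.ind ∅ V (Finset.notMem_empty j)
      simp only [Finset.filter_empty, Finset.card_empty, Finset.prod_empty, Nat.cast_zero, add_zero,
        Nat.sub_zero, mul_one] at h1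
      refine (mul_le_mul_of_nonneg_left h1 g0).trans ?_
      rw [mul_comm, mul_assoc]
      exact mul_le_mul_of_nonneg_right (pow_le_pow_left₀ (by norm_num) (by norm_num) c)
        (mul_nonneg x0 g0)

theorem Jw_le (H : D.Ok τ0) {a : ℕ → ℝ} (h : D.Iw a ≤ D.E1) : Jw D a ≤ D.Err := by
  cases hD : D.W.isSome with
  | false => rw [Jw, CD.dd_val hD]; exact H.Err0
  | true => rw [Jw, CD.dd_test hD]; exact h.trans (H.E1_le hD)

theorem Jw_mul (c : ℝ) (a : ℕ → ℝ) : c * Jw D a = Jw D fun j => c * a j := by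
  unfold Jw CD.dd
  cases D.W with
  | none => exact mul_zero c
  | some ω => exact (D.Iw_mul c a).symm

open Classical in
/-- three clusters -/
def c3 (D : CD) (p q : Fin r) (σ : SM r) : ℝ :=
  if σ p q ∈ D.up ∧ Cl σ D.J 3 then D.X ^ 2 * D.g (σ p q) else 0

theorem w_c3 (H : D.Ok τ0) {p q : Fin (1 + k + 1)} (hpq : p ≠ q) :
    av D k (c3 D p q) ≤ 3 ^ (1 + k) * (2 * D.Err) := by
  have g0 : ∀ t, 0 ≤ D.X ^ 2 * D.g t := fun t => mul_nonneg (sq_nonneg _) (D.g0 t)
  have n0 := H.N10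
  refine (av_wb H (a := fun j => 3 ^ (1 + k) * (D.X ^ 4 * D.N1 +
    if j ∈ D.up then D.X ^ 4 * D.g j else 0)) fun j c P A hc W _ => ?_).trans ?_
  · refine (wb_up W H.mono hpq 3 (fun t ht => (CD.mem_up.1 ht).1) g0).trans ?_
    have g1 : 0 ≤ D.I (fun t => D.X ^ 2 * D.g t) + if j ∈ D.up then D.X ^ 2 * D.g j else 0 :=
      add_nonneg (H.I0 fun t _ => g0 t) (by split_ifs; exacts [g0 j, le_rfl])
    refine mul_le_mul (pow_le_pow_right₀ (by norm_num) hc) ((mul_le_mul_of_nonneg_right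
      (pow_le_pow_left₀ (H.ex0 _) H.x1 2) g1).trans_eq ?_)
      (mul_nonneg (pow_nonneg (H.ex0 _) _) g1) (by positivity)
    rw [D.I_mul, CD.N1]
    split_ifs <;> ring
  · have h1 := (mul_le_mul_of_nonneg_left H.XN1_le D.wt0).trans H.wtE0_le
    cases hD : D.W.isSome with
    | false =>
      rw [CD.dd_val hD, if_neg fun h => absurd (CD.mem_up.1 h).2 (by omega)]
      rw [CD.wt_val hD] at h1
      exact mul_le_mul_of_nonneg_left (by linarith [H.Err0]) (by positivity)
    | true =>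
      rw [CD.dd_test hD, D.Iw_mul, D.Iw_add, D.Iw_const, ← CD.wt_test hD]
      have h2 := (D.Iw_mono (a := fun j => if j ∈ D.up then D.X ^ 4 * D.g j else 0)
        fun j hj => (if_pos hj).le).trans (H.IwXg_le.trans (H.E1_le hD))
      exact mul_le_mul_of_nonneg_left (by linarith) (by positivity)

/-- a pair at the top level has no weight -/
theorem w_top (H : D.Ok τ0) {p q : Fin (1 + k + 1)} (hpq : p ≠ q) :
    av D k (fun σ => upF D (fun j => if j = D.K then 1 else 0) (σ p q)) ≤ 0 := by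
  refine (w_up H (fun j => by split_ifs <;> norm_num) hpq).trans (le_of_eq ?_)
  have h : ∀ j ∈ D.up, (if j = D.K then (1 : ℝ) else 0) = 0 := fun j hj =>
    if_neg (CD.mem_up.1 hj).2.ne
  have h1 : D.I (fun j => if j = D.K then (1 : ℝ) else 0) = 0 :=
    Finset.sum_eq_zero fun j hj => mul_eq_zero_of_right _ (h j hj)
  have h2 : D.Iw (fun j => if j = D.K then (1 : ℝ) else 0) = 0 :=
    Finset.sum_eq_zero fun j hj => mul_eq_zero_of_right _ (h j hj)
  rw [h1, Jw, h2]
  unfold CD.dd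
  cases D.W <;> simp

/-- the local second order terms -/
def G1 (D : CD) (t : ℕ) : ℝ := D.X ^ 2 * D.g t ^ 2 + D.X * D.v t t

theorem G10 (H : D.Ok τ0) (t : ℕ) : 0 ≤ G1 D t :=
  add_nonneg (by positivity) (mul_nonneg H.X0 (D.v0 t t))

theorem w_G1 (H : D.Ok τ0) {a c p q : Fin (1 + k + 1)} (hac : a ≠ c) (hpq : p ≠ q) :
    av D k (fun σ => lo1 D (σ a c) * upF D (G1 D) (σ p q)) ≤ Ck32.cw k * (4 * D.Err) := by
  refine (w_lo_up H (G10 H) hac hpq).trans (mul_le_mul_of_nonneg_left ?_ (cw_pos k).le)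
  have x0 := H.X0
  have h1 : D.X * D.I (G1 D) ≤ 2 * D.E0 := by
    have h2 := H.XN2_le
    have h3 := H.Lad0_le
    have h4 := H.Lad0_parts
    have h5 := H.I_mono (a := fun t => D.X * G1 D t)
      (b := fun t => D.X ^ 3 * D.g t ^ 2 + D.e t ^ 2 * D.v t t) fun t _ => by
        have := mul_le_mul_of_nonneg_right (pow_le_pow_left₀ x0 (H.eX t) 2) (D.v0 t t)
        unfold G1
        nlinarith
    rw [D.I_mul, D.I_add, D.I_mul] at h5
    rw [CD.Lad0] at h3
    rw [CD.N2] at h2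
    nlinarith [h4.1, h4.2.2, mul_nonneg (pow_nonneg x0 3) (sq_nonneg D.N1)]
  have h2 : D.X * Jw D (G1 D) ≤ 2 * D.Err := by
    have k1 := Jw_le H H.IwXg2_le
    have k2 := Jw_le H H.Lad1_le
    rw [Jw_mul]
    refine le_trans ?_ ((add_le_add k1 k2).trans_eq (two_mul _).symm)
    unfold Jw CD.dd
    cases D.W with
    | none => simp
    | some ω =>
      dsimp only
      rw [← D.Iw_add]
      refine D.Iw_mono fun t _ => ?_
      have := mul_le_mul_of_nonneg_right ((mul_le_of_le_one_left x0 H.X1).trans (H.eX t)) (D.v0 t t)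
      have := H.sv_low0 (Finset.Ico 1 t) t
      have := mul_nonneg (pow_nonneg x0 3) (mul_nonneg (D.g0 t) H.N10)
      unfold G1
      nlinarith
  nlinarith [mul_le_mul_of_nonneg_left h1 D.wt0, H.wtE0_le]

/-- all ladder terms of a low edge -/
def LL (D : CD) (k : ℕ) (a c : Fin (1 + k + 1)) (σ : SM (1 + k + 1)) : ℝ :=
  ∑ u, ∑ u', L90.lad D k a c u u' σ + mkd D k a c σ

theorem LL0 (H : D.Ok τ0) (a c : Fin (1 + k + 1)) (σ : SM (1 + k + 1)) : 0 ≤ LL D k a c σ :=
  add_nonneg (Finset.sum_nonneg fun u _ => Finset.sum_nonneg fun u' _ => L90.lad0 H a c u u' σ)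
    (L90.mkd0 a c σ)

theorem av_sum {α : Type} (φ : α → SM (1 + k + 1) → ℝ) (T : Finset α) :
    av D k (fun σ => ∑ u ∈ T, φ u σ) = ∑ u ∈ T, av D k (φ u) := by
  classical
  induction T using Finset.induction_on with
  | empty => simpa using av_mul (D := D) (k := k) 0 fun _ => 0
  | insert a T ha ih => simp only [Finset.sum_insert ha, av_add, ih]

theorem w_LL (H : D.Ok τ0) (hk : k ≤ 6) {a c : Fin (1 + k + 1)} (hac : a ≠ c) :
    av D k (LL D k a c) ≤ 65 * 4 ^ 7 * D.Err := by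
  have e0 := H.Err0
  have h2 : (4 : ℝ) ^ (1 + k) * D.Err ≤ 4 ^ 7 * D.Err :=
    mul_le_mul_of_nonneg_right (pow_le_pow_right₀ (by norm_num) (by omega)) e0
  have h3 : (3 : ℝ) ^ (1 + k) * D.Err ≤ 4 ^ (1 + k) * D.Err :=
    mul_le_mul_of_nonneg_right (pow_le_pow_left₀ (by norm_num) (by norm_num) _) e0
  have h4 : ((1 + k + 1 : ℕ) : ℝ) ≤ 8 := by exact_mod_cast (by omega)
  have h5 : av D k (fun σ => ∑ u, ∑ u', L90.lad D k a c u u' σ) ≤ 8 * (8 * (4 ^ 7 * D.Err)) := by
    rw [av_sum]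
    refine (Finset.sum_le_card_nsmul _ _ (8 * (4 ^ 7 * D.Err)) fun u _ => ?_).trans ?_
    · rw [av_sum]
      refine (Finset.sum_le_card_nsmul _ _ (4 ^ 7 * D.Err) fun u' _ =>
        (w_lad H hac u u').trans h2).trans ?_
      rw [Finset.card_univ, Fintype.card_fin, nsmul_eq_mul]
      exact mul_le_mul_of_nonneg_right h4 (by positivity)
    · rw [Finset.card_univ, Fintype.card_fin, nsmul_eq_mul]
      exact mul_le_mul_of_nonneg_right h4 (by positivity)
  have h6 := w_mkd H hac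
  unfold LL
  rw [av_add]
  linarith

section pw
variable (H : D.Ok τ0) {σ : SM (1 + k + 1)} (hσ : Sup D k σ)
include H hσ

theorem lm_le {a c u u' : Fin (1 + k + 1)} (h1 : σ a c ∈ D.lo) (hu : u ≠ u') (hJ : D.J < σ u u')
    {g C : ℝ} (C0 : 0 ≤ C) (g1 : g ≤ C) (g2 : σ u u' ≠ mj D k σ → σ u u' < D.K → g ≤ C * D.e (σ u u')) :
    D.v (σ a c) (σ u u') * g ≤ C * LL D k a c σ := by
  have hK : σ u u' ≤ D.K := lenB (D := D) ▸ hσ.1.le _ _
  have v0 := D.v0 (σ a c) (σ u u')
  have n := fun u u' => L90.lad0 H a c u u' σ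
  by_cases hj : σ u u' = mj D k σ
  · rw [mul_comm]
    refine mul_le_mul g1 (le_add_of_nonneg_of_le (Finset.sum_nonneg fun u _ =>
      Finset.sum_nonneg fun u' _ => n u u') ?_) v0 C0
    rw [mkd, if_pos ⟨h1, hj ▸ hK⟩, hj]
  · have e1 : gl D (σ u u') * D.v (σ a c) (σ u u') ≤ LL D k a c σ := by
      refine le_add_of_le_of_nonneg (le_trans (le_trans (le_of_eq ?_)
        (Finset.single_le_sum (fun u' _ => n u u') (Finset.mem_univ u')))
        (Finset.single_le_sum (f := fun u => ∑ u', L90.lad D k a c u u' σ)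
          (fun u _ => Finset.sum_nonneg fun u' _ => n u u') (Finset.mem_univ u))) (L90.mkd0 a c σ)
      rw [L90.lad, if_neg hu, if_pos ⟨h1, Finset.mem_Ioc.2 ⟨hJ, hK⟩, hj⟩]
    refine le_trans ?_ (mul_le_mul_of_nonneg_left e1 C0)
    rw [← mul_assoc, mul_comm]
    refine mul_le_mul_of_nonneg_right ?_ v0
    unfold gl
    split_ifs with h
    exacts [g2 hj h, g1.trans_eq (mul_one C).symm]

variable {A : EL (1 + k + 1)} {e e' : Fin (1 + k + 1) × Fin (1 + k + 1)}
  {a b c d p q : Fin (1 + k + 1)}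

theorem len4 (hA : A.Perm (e :: e' :: (p, q) :: mA D k)) : (2 : ℝ) ^ A.length ≤ 16 := by
  have := mA_length (D := D) k
  refine (pow_le_pow_right₀ one_le_two (?_ : _ ≤ 4)).trans (by norm_num)
  rw [hA.length_eq]
  simp only [List.length_cons]
  omega

/-- parity at the split of two legs -/
theorem par2 (hA : A.Perm (e :: e' :: (p, q) :: mA D k))
    (hp : ∀ o t, Site94.Crs σ o t e.1 e.2 ↔ Site94.Crs σ o t a c)
    (hp' : ∀ o t, Site94.Crs σ o t e'.1 e'.2 ↔ Site94.Crs σ o t b d)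
    (l1 : σ e.1 e.2 ≤ D.J) (l2 : σ e'.1 e'.2 ≤ D.J) (h1 : σ a c ≤ D.J) (h2 : D.J < σ a b)
    (h3 : D.J < σ c d) (f1 : ¬Site94.Crs σ a (σ a b) p q) (f2 : ¬Site94.Crs σ b (σ a b) p q)
    (hj : σ a b ≠ mj D k σ) (hK : σ a b < D.K) :
    |Ck32.TS D σ (se D A σ)| ≤ 16 * Site94.cP (1 + k + 1) 2 * D.e (σ a b) := by
  have u : ∀ a x y, min (σ a x) (σ a y) ≤ σ x y := fun a x y => hσ.1.comm x a ▸ hσ.1.ultra x a y
  have hg : min 1 (D.sig (σ a b)) ≤ D.e (σ a b) := (min_le_min le_rfl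
    (le_add_of_nonneg_left (H.ex0 _))).trans (H.esc _ (CD.mem_up.2 ⟨h2, hK⟩))
  have s1 := hσ.1.self a; have s2 := hσ.1.self b; have s3 := hσ.1.comm b a
  have s4 := u d a c; have s5 := hσ.1.comm d a; have s6 := hσ.1.comm d c
  have s7 := u b a c; have s8 := u b a d; have s9 := lenB (D := D)
  rw [mul_assoc]
  refine le_trans ?_ (mul_le_mul_of_nonneg_right (len4 H hσ hA)
    (mul_nonneg (Site94.cP_nonneg _ _) (H.e0 _)))
  by_cases hm : ∀ w ∈ mA D k, ¬Site94.Crs σ a (σ a b) w.1 w.2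
  · refine TS_par H hσ.1 hA l1 hK.le (o := a) ((hp _ _).2 ?_) (List.forall_mem_cons.2
      ⟨fun h => absurd ((hp' _ _).1 h) ?_, List.forall_mem_cons.2 ⟨f1, hm⟩⟩) hg <;>
      unfold Site94.Crs <;> omega
  · refine TS_par H hσ.1 (hA.trans (.swap _ _ _)) l2 hK.le (o := b) ((hp' _ _).2 ?_)
      (List.forall_mem_cons.2 ⟨fun h => absurd ((hp _ _).1 h) ?_, List.forall_mem_cons.2
        ⟨f2, fun w hw hc => hm fun w' hw' hc' => ?_⟩⟩) hg
    · unfold Site94.Crs; omega
    · unfold Site94.Crs; omega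
    · obtain ⟨rfl, m1, -⟩ := mem_mA hσ hw
      obtain ⟨rfl, -, -⟩ := mem_mA hσ hw'
      set p := (Ck32.mk k).1
      set q := (Ck32.mk k).2
      have := u p a b; have := u q a b; have := hσ.1.comm p a; have := hσ.1.comm p b
      have := hσ.1.comm q a; have := hσ.1.comm q b; have := u a p q; have := u b p q
      have := u p a q; have := u q a p; have := u p b q; have := u q b p
      have := u a b p; have := u a b q; have := u b a p; have := u b a q
      have := hσ.1.comm q p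
      unfold Site94.Crs at hc hc'
      omega

/-- the errors of the bulk factor against the site factor -/
theorem core (hA : A.Perm (e :: e' :: (p, q) :: mA D k))
    (hp : ∀ o t, Site94.Crs σ o t e.1 e.2 ↔ Site94.Crs σ o t a c)
    (hp' : ∀ o t, Site94.Crs σ o t e'.1 e'.2 ↔ Site94.Crs σ o t b d)
    (l1 : σ e.1 e.2 ∈ D.lo) (l2 : σ e'.1 e'.2 ≤ D.J) (h1 : σ a c ≤ D.J) (h2 : D.J < σ a b)
    (h3 : D.J < σ c d) (h4 : D.J < σ c p) (hpq : p ≠ q) (hu : σ p q ∈ D.up) :
    ((if a = b then 0 else D.v (σ e.1 e.2) (σ a b) + D.X ^ 2 * D.g (σ p q) ^ 2) +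
        (if c = d then 0 else if σ p q ≤ σ c d then mm D (σ p q) * D.v (σ e.1 e.2) (σ c d)
          else D.v (σ e.1 e.2) (σ c d) + D.X ^ 2 * D.g (σ p q) ^ 2) +
        D.X * (D.v (σ e.1 e.2) (σ p q) + D.v (σ p q) (σ p q)) + D.tl) * |Ck32.TS D σ (se D A σ)| ≤
      16 * Site94.cP (1 + k + 1) 2 * (3 * LL D k e.1 e.2 σ + 2 * G1 D (σ p q) + D.tl) := by
  have u : ∀ a x y, min (σ a x) (σ a y) ≤ σ x y := fun a x y => hσ.1.comm x a ▸ hσ.1.ultra x a y
  have sy : ∀ x y o t, Site94.Crs σ o t x y ↔ Site94.Crs σ o t y x := fun _ _ _ _ =>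
    not_congr Iff.comm
  have c1 := Site94.one_le_cP a 2
  have u1 := (CD.mem_up.1 hu).1
  have l3 := (CD.mem_lo.1 l1).2
  set S := |Ck32.TS D σ (se D A σ)| with hS
  set C := 16 * Site94.cP (1 + k + 1) 2 with hC
  have S0 : 0 ≤ S := abs_nonneg _
  have SC : S ≤ C := ((site_le H hσ.1 A).trans (len4 H hσ hA)).trans (by linarith)
  have C0 := S0.trans SC
  have L0 := mul_nonneg C0 (LL0 H e.1 e.2 σ)
  have x0 := H.X0
  have g0 : 0 ≤ D.X ^ 2 * D.g (σ p q) ^ 2 := by positivity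
  have g1 := mul_le_mul_of_nonneg_left SC g0
  have g2 := mul_nonneg g0 C0
  have k1 : (if a = b then 0 else D.v (σ e.1 e.2) (σ a b) + D.X ^ 2 * D.g (σ p q) ^ 2) * S ≤
      C * LL D k e.1 e.2 σ + D.X ^ 2 * D.g (σ p q) ^ 2 * C := by
    split_ifs with h
    · linarith
    have := u c p q; have := u p a c; have := u q a c; have := u p b a; have := u q b a
    have := hσ.1.comm p a; have := hσ.1.comm p c; have := hσ.1.comm q a; have := hσ.1.comm q c
    have := hσ.1.comm p b; have := hσ.1.comm q b; have := u p c q; have := u b a p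
    have := u b a q; have := hσ.1.comm b a
    have := lm_le H hσ l1 h h2 C0 SC (par2 H hσ hA hp hp' l3 l2 h1 h2 h3
      (by unfold Site94.Crs; omega) (by unfold Site94.Crs; omega))
    linarith
  have k2 : (if c = d then 0 else if σ p q ≤ σ c d then mm D (σ p q) * D.v (σ e.1 e.2) (σ c d)
      else D.v (σ e.1 e.2) (σ c d) + D.X ^ 2 * D.g (σ p q) ^ 2) * S ≤
      C * LL D k e.1 e.2 σ + D.X ^ 2 * D.g (σ p q) ^ 2 * C := by
    split_ifs with h h'
    · linarith
    · have m0 : 0 ≤ mm D (σ p q) := le_min zero_le_one (H.e0 _)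
      have := lm_le H hσ l1 h h3 C0 (g := S * mm D (σ p q))
        ((mul_le_of_le_one_right S0 (min_le_left _ _)).trans SC) fun _ _ =>
          mul_le_mul SC ((min_le_right _ _).trans (H.e_mono h')) m0 C0
      linarith
    · have := lm_le H hσ l1 h h3 C0 SC (par2 H hσ hA (fun o t => (hp o t).trans (sy _ _ _ _))
        (fun o t => (hp' o t).trans (sy _ _ _ _)) l3 l2 (hσ.1.comm _ _ ▸ h1) h3 h2
        (fun hc => h' (hc.le hσ.1)) fun hc => h' (hc.le hσ.1))
      linarith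
  have k3 := lm_le H hσ l1 hpq u1 C0 (g := S * D.X) ((mul_le_of_le_one_right S0 H.X1).trans SC)
    fun _ _ => mul_le_mul SC (H.eX _) x0 C0
  have k4 := mul_le_mul_of_nonneg_left SC (mul_nonneg x0 (D.v0 (σ p q) (σ p q)))
  have k5 := mul_le_mul_of_nonneg_left SC H.tl0
  have k6 := mul_nonneg (mul_nonneg x0 (D.v0 (σ p q) (σ p q))) C0
  unfold G1
  linarith

end pw

theorem pL_lo (H : D.Ok τ0) {j : ℕ} (hj : j ≤ D.J) (x y : Cube D.n) :
    (pL D).1 j x y = D.τ j / 2 * ov x y := by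
  simp only [lt, cut, CD.cl, decide_eq_true hj, if_true, oUb, oU, H.qlo _ hj, sub_zero]

theorem pL_off {j : ℕ} (hj : j ∉ D.lo) (x y : Cube D.n) : (pL D).1 j x y = 0 := by
  simp only [lt, cut, CD.cl, decide_eq_true_eq]
  split_ifs with h
  · obtain rfl : j = 0 := by rw [CD.mem_lo] at hj; omega
    rw [oUb_zero]; rfl
  · rfl

theorem FF_eq (H : D.Ok τ0) {a c b d p q : Fin (1 + k + 1)} {σ : SM (1 + k + 1)}
    (h1 : σ a c ≤ D.J) (h2 : σ b d ≤ D.J) (h3 : D.J < σ p q) :
    FF D k a c b d p q σ = D.τ (σ a c) * D.τ (σ b d) * D.τ (σ p q) / 8 *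
      (TB D σ (fun x => ov (x a) (x c) * ov (x b) (x d) * Uc D (σ p q) (x p) (x q)) *
        Ck32.TS D σ (se D (sA D k a c b d p q) σ)) := by
  rw [FF, ← mul_assoc, TB, TB, ← TM_mul]
  refine congrArg (fun F => TM _ _ _ σ F * _) (funext fun x => ?_)
  rw [pL_lo H h1, pL_lo H h2]
  simp only [phC, off, h3, Finset.notMem_empty, not_false_eq_true, and_self, if_true]
  ring

theorem FF_zero {a c b d p q : Fin (1 + k + 1)} {σ : SM (1 + k + 1)} (hσ : Rz D.B.length σ)
    (h : ¬(σ a c ∈ D.lo ∧ σ b d ∈ D.lo ∧ D.J < σ p q)) : FF D k a c b d p q σ = 0 := by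
  refine mul_eq_zero_of_left ((congrArg (TB D σ) (funext fun x => ?_)).trans
    (TM_const wt_one90 hσ 0)) _
  by_cases h1 : σ a c ∈ D.lo
  · by_cases h2 : σ b d ∈ D.lo
    · have h3 : ¬D.J < σ p q := fun h3 => h ⟨h1, h2, h3⟩
      simp only [phC, off, h3, false_and, if_false, zero_mul, mul_zero]
    · rw [pL_off h2, mul_zero, zero_mul]
  · rw [pL_off h1, zero_mul, zero_mul]

theorem tau3 (H : D.Ok τ0) (i j l : ℕ) : |D.τ i * D.τ j * D.τ l / 8| ≤ τ0 ^ 3 := by
  obtain ⟨a1, a2⟩ := H.tau_mem i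
  obtain ⟨b1, b2⟩ := H.tau_mem j
  obtain ⟨c1, c2⟩ := H.tau_mem l
  have t0 := H.tau0
  rw [abs_of_nonneg (by positivity)]
  have : D.τ i * D.τ j * D.τ l ≤ τ0 * τ0 * τ0 := by gcongr
  nlinarith [pow_nonneg t0 3]

end Crest.Agent.T156.Cas.C40.Mx84.Rd90

namespace Crest.Agent.T156.Cas.C40.Mx84

open Crest.Agent.T157.E Crest.Agent.T157.Casc Crest.Agent.T157.SL
open Crest.Agent.T157.G1 (ov)
open Mul55 G90 Nu87 R90 W90 Ck32 Ker15 Mx23 Rd90
open Cw55 (Uc)

/-- **reduction to the canonical form** -/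
theorem redS_of (hB : BkS) : RedS := fun τ0 => by
  obtain ⟨CB, B0, hB⟩ := hB
  obtain ⟨CS, S0, hS⟩ := smS
  set C : ℝ := (CB + 1) * (16 * Site94.cP 8 2) + 8 * CS + 128 with hC
  have c0 := Site94.cP_nonneg 8 2
  have C0 : 0 ≤ C := by positivity
  refine ⟨|τ0| ^ 3 * C * (3 * (65 * 4 ^ 7) + 9 * Ck32.cw 6 + 2 * 3 ^ 7 + 1),
    by have := cw_pos 6; positivity, fun D H k hk a c b d p q hac hbd hpq => ?_⟩
  have t0 := H.tau0
  have e0 := H.Err0
  have x0 := H.X0
  have l0 := H.tl0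
  rw [abs_of_nonneg t0]
  refine ⟨fun σ => τ0 ^ 3 * C * (3 * LL D k a c σ + 2 * (lo1 D (σ a c) * upF D (G1 D) (σ p q)) +
    D.X ^ 5 * lo1 D (σ a c) + c3 D p q σ + upF D (fun j => if j = D.K then 1 else 0) (σ p q) +
    D.tl), ?_, fun σ hσ => ?_⟩
  · simp only [av_mul, av_add, w_const H]
    rw [mul_assoc _ _ D.Err]
    refine mul_le_mul_of_nonneg_left ?_ (by positivity)
    have h1 := mul_le_mul_of_nonneg_right (cw_mono hk) e0
    have h2 : (3 : ℝ) ^ (1 + k) * D.Err ≤ 3 ^ 7 * D.Err :=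
      mul_le_mul_of_nonneg_right (pow_le_pow_right₀ (by norm_num) (by omega)) e0
    have h3 := (mul_le_mul_of_nonneg_left H.tl_le D.wt0).trans H.wtE0_le
    have h4 := mul_le_mul_of_nonneg_left ((mul_le_mul_of_nonneg_left H.X6_le D.wt0).trans H.wtE0_le)
      (cw_pos k).le
    have h5 := mul_le_mul_of_nonneg_left (w_lo H hac) (pow_nonneg x0 5)
    linarith [w_LL H hk hac, w_G1 H hac hpq, w_c3 H hpq, w_top H hpq]
  have n1 := LL0 H a c σ
  have n2 := mul_nonneg (lo1_nonneg (D := D) (σ a c)) (upF_nonneg (D := D) (G10 H) (σ p q))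
  have n3 := mul_nonneg (pow_nonneg x0 5) (lo1_nonneg (D := D) (σ a c))
  have n4 : 0 ≤ c3 D p q σ := by
    unfold c3; split_ifs; exacts [mul_nonneg (sq_nonneg _) (D.g0 _), le_rfl]
  have n5 := upF_nonneg (D := D) (G := fun j => if j = D.K then (1 : ℝ) else 0)
    (fun j => by split_ifs <;> norm_num) (σ p q)
  have u : ∀ a x y, min (σ a x) (σ a y) ≤ σ x y := fun a x y => hσ.1.comm x a ▸ hσ.1.ultra x a y
  have hJ := L90.cutB H
  have two : ¬Cl σ D.J 3 → σ a c ≤ D.J → ∀ x, D.J < σ a x ∨ D.J < σ c x := fun h h1 x => by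
    by_contra h2
    have := hσ.1.self a; have := hσ.1.self c
    exact h (cl_three (c := x) hσ.1 hac (fun e => by rw [← e] at h2; omega)
      (fun e => by rw [← e] at h2; omega) h1 (by omega) (by omega))
  have hA : (sA D k a c b d p q).Perm ((a, c) :: (b, d) :: (p, q) :: L90.mA D k) :=
    List.perm_append_comm
  have hK : σ p q ≤ D.K := lenB (D := D) ▸ hσ.1.le _ _
  by_cases h : σ a c ∈ D.lo ∧ σ b d ∈ D.lo ∧ D.J < σ p q
  swap
  · rw [FF_zero hσ.1 h, FC, if_neg, sub_zero, abs_zero]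
    · positivity
    · refine fun ⟨g1, g2, g3, g4⟩ => h ⟨g2, ?_, (CD.mem_up.1 g4).1⟩
      have := CD.mem_lo.1 g2
      have := two g1 this.2 b; have := two g1 (CD.mem_lo.1 g2).2 d
      have := u a b d; have := u c b d; have := u a b c; have := u a d c; have := u c b a
      have := u c d a; have := hσ.1.comm b c; have := hσ.1.comm d c; have := hσ.1.comm b a
      have := hσ.1.comm d a; have := hσ.1.comm c a
      rw [CD.mem_lo]
      omega
  obtain ⟨h1, h2, h3⟩ := h
  have l1 := (CD.mem_lo.1 h1).2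
  have l2 := (CD.mem_lo.1 h2).2
  have S16 := (site_le H hσ.1 _).trans (len4 H hσ hA)
  have C128 : 128 ≤ C := le_add_of_nonneg_left (by positivity)
  beta_reduce
  rw [FF_eq H l1 l2 h3, mul_assoc (τ0 ^ 3)]
  by_cases g : Cl σ D.J 3 ∨ σ p q = D.K
  · rw [FC, if_neg fun ⟨g1, _, _, g4⟩ => g.elim g1 (CD.mem_up.1 g4).2.ne, sub_zero]
    refine SF97.amul (tau3 H _ _ _) ?_
    rw [L90.TB_eq hσ.1]
    rcases hK.lt_or_eq with hK' | hK'
    · have k1 := SF97.amul (crude H (um_rz hσ.1) hac hbd hpq h1 h2 rfl hK (E2_Uc D _)) S16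
      have k2 : c3 D p q σ = _ := if_pos ⟨CD.mem_up.2 ⟨h3, hK'⟩, g.resolve_right hK'.ne⟩
      refine k1.trans (le_trans ?_ (mul_le_mul_of_nonneg_right C128 (by positivity)))
      linarith
    · have k1 := SF97.amul (crude H (um_rz hσ.1) hac hbd hpq h1 h2 rfl hK (m := 4)
        ((T157.Casc.pi2_mono wt_one90 D.B _ (abs_Uc H hK) 0).trans_eq
          (pi2_const wt_one90 _ _ 4 0))) S16
      refine k1.trans (le_trans ?_ (mul_le_mul_of_nonneg_right C128 (by positivity)))
      rw [upF, upF, if_pos h3, if_pos h3, if_pos hK']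
      rw [upF, if_pos h3] at n2
      linarith [pow_le_one₀ x0 H.X1 (n := 2)]
  obtain ⟨g1, g2⟩ := not_or.1 g
  have hu : σ p q ∈ D.up := CD.mem_up.2 ⟨h3, hK.lt_of_ne g2⟩
  have t1 := two g1 l1 b; have t2 := two g1 l1 d; have t3 := two g1 l1 p
  have := u a b d; have := u c b d; have := u a b c; have := u a d c; have := u c b a
  have := u c d a; have s1 := hσ.1.comm b c; have s2 := hσ.1.comm d c; have := hσ.1.comm b a
  have := hσ.1.comm d a; have s3 := hσ.1.comm c a; have := u b a d; have := u b c d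
  have := u d a b; have := u d c b; have s4 := hσ.1.comm d b; have := u p a c
  have := hσ.1.comm p a; have := hσ.1.comm p c; have := u b a c; have := u d a c
  have e1 : σ b d = σ a c := by omega
  have sy : ∀ x y o t, Site94.Crs σ o t x y ↔ Site94.Crs σ o t y x := fun _ _ _ _ =>
    not_congr Iff.comm
  have key : |TB D σ (fun x => ov (x a) (x c) * ov (x b) (x d) * Uc D (σ p q) (x p) (x q)) -
      Bk D (σ a c) (max (σ a p) (σ c p)) (σ p q)| * |Ck32.TS D σ (se D (sA D k a c b d p q) σ)| ≤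
      CB * (16 * Site94.cP (1 + k + 1) 2 * (3 * LL D k a c σ + 2 * G1 D (σ p q) + D.tl)) := by
    have fin : ∀ a' b' c' d' : Fin (1 + k + 1), σ a' c' = σ a c → D.J < σ a' b' → D.J < σ c' d' →
        D.J < σ c' p → max (σ a p) (σ c p) = σ c' p →
        (∀ o t, Site94.Crs σ o t a c ↔ Site94.Crs σ o t a' c') →
        (∀ o t, Site94.Crs σ o t b d ↔ Site94.Crs σ o t b' d') →
        (∀ x : Fin (1 + k + 1) → Cube D.n, ov (x a) (x c) = ov (x a') (x c')) →
        (∀ x : Fin (1 + k + 1) → Cube D.n, ov (x b) (x d) = ov (x b') (x d')) → _ :=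
      fun a' b' c' d' f1 f2 f3 f4 f5 f6 f7 f8 f9 => by
        have k1 := hB τ0 D H _ σ hσ.1 a' b' c' d' p q _ _ f1 h1 f2 f3 f4 hpq rfl hu
        simp only [← f5, ← f8, ← f9] at k1
        exact (mul_le_mul_of_nonneg_right k1 (abs_nonneg _)).trans ((mul_assoc _ _ _).trans_le
          (mul_le_mul_of_nonneg_left (core H hσ hA f6 f7 h1 l2 (f1.trans_le l1) f2 f3 f4 hpq hu) B0))
    rcases t1 with t1 | t1 <;> rcases t3 with t3 | t3
    · exact fin c d a b s3 (by omega) t1 t3 (by omega) (sy _ _) (sy _ _)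
        (fun _ => T157.G1.ov_comm _ _) fun _ => T157.G1.ov_comm _ _
    · exact fin a b c d rfl t1 (by omega) t3 (by omega) (fun _ _ => .rfl) (fun _ _ => .rfl)
        (fun _ => rfl) fun _ => rfl
    · exact fin c b a d s3 t1 (by omega) t3 (by omega) (sy _ _) (fun _ _ => .rfl)
        (fun _ => T157.G1.ov_comm _ _) fun _ => rfl
    · exact fin a d c b rfl (by omega) t1 t3 (by omega) (fun _ _ => .rfl) (sy _ _)
        (fun _ => rfl) fun _ => T157.G1.ov_comm _ _
  have k2 := SF97.amul (abs_Bk H h1 (s := max (σ a p) (σ c p)) (by omega) hK)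
    (hS τ0 D H _ (by omega) σ hσ.1 (sA D k a c b d p q) (by
      have := L90.mA_length (D := D) k
      rw [hA.length_eq]; simp only [List.length_cons]; omega))
  rw [FC, if_pos ⟨g1, h1, l2, hu⟩, e1]
  set T := TB D σ fun x => ov (x a) (x c) * ov (x b) (x d) * Uc D (σ p q) (x p) (x q)
  set B := Bk D (σ a c) (max (σ a p) (σ c p)) (σ p q)
  set S := Ck32.TS D σ (se D (sA D k a c b d p q) σ)
  set S' := Ck32.TS D (sety D.J σ) (se D (sA D k a c b d p q) (sety D.J σ))
  rw [show D.τ (σ a c) * D.τ (σ a c) * D.τ (σ p q) / 8 * (T * S) -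
      D.τ (σ a c) ^ 2 * B * (D.τ (σ p q) / 8 * S') =
      D.τ (σ a c) * D.τ (σ a c) * D.τ (σ p q) / 8 * ((T - B) * S + B * (S - S')) by ring]
  refine SF97.amul (tau3 H _ _ _) ((abs_add_le _ _).trans ?_)
  rw [← abs_mul] at key
  have k3 : Site94.cP (1 + k + 1) 2 ≤ Site94.cP 8 2 := by
    have : ((1 + k + 1 : ℕ) : ℝ) ≤ (8 : ℕ) := by exact_mod_cast (by omega)
    unfold Site94.cP
    gcongr
  have g0 := G10 H (σ p q)
  have k4 : CB * (16 * Site94.cP (1 + k + 1) 2 * (3 * LL D k a c σ + 2 * G1 D (σ p q) + D.tl)) ≤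
      CB * (16 * Site94.cP 8 2 * (3 * LL D k a c σ + 2 * G1 D (σ p q) + D.tl)) := by gcongr
  have k5 : (D.X ^ 2 * 4 + 8 * D.tl) * (CS * D.X ^ 3) ≤ 8 * CS * (D.X ^ 5 + D.tl) := by
    nlinarith [mul_nonneg S0 (pow_nonneg x0 5),
      mul_le_mul_of_nonneg_left (pow_le_one₀ x0 H.X1 (n := 3)) (mul_nonneg S0 l0)]
  rw [lo1, if_pos l1, upF, if_pos h3, one_mul, mul_one]
  set Y := upF D (fun j => if j = D.K then (1 : ℝ) else 0) (σ p q)
  have x5 := pow_nonneg x0 5
  have p1 : 0 ≤ CB * (16 * Site94.cP 8 2) * (D.X ^ 5 + c3 D p q σ + Y) := by positivity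
  have p2 : 0 ≤ 8 * CS * (3 * LL D k a c σ + 2 * G1 D (σ p q) + c3 D p q σ + Y) := by positivity
  have p3 : 0 ≤ (16 * Site94.cP 8 2 + 128) * (3 * LL D k a c σ + 2 * G1 D (σ p q) + D.X ^ 5 +
    c3 D p q σ + Y + D.tl) := by positivity
  rw [hC]
  linarith

end Crest.Agent.T156.Cas.C40.Mx84

end
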