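import Crest.Agent.T156.QOne_33
import Crest.Agent.T156.CaIso_87

/-!
# Row 156: the ladder of conditional second moments (helper79)

At the node `x`, `Nm x y = E_x [m_y m_yᵀ]` (`y ≤ K`), and the leaf second moment for `y = K + 1`.
The increments in `y` are positive semidefinite, the Riccati bound controls what is born above `y`,
and signed double sums over two branches are bounded by their tails (Abel summation).
-/

set_option autoImplicit false
set_option linter.unusedSectionVars false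

noncomputable section

namespace Crest.Agent.T156.Cas.Lad79

open MeasureTheory Real Set Filter Topology
open Crest.Agent.T157.E Crest.Agent.T157.Casc Crest.Agent.T157.SL
open Crest.Agent.T156.Cas.Sy41 Crest.Agent.T156.Cas.Q33

/-! ### positive semidefinite kernels -/

section psd
variable {ι : Type} [Fintype ι]

/-- symmetric kernel with nonnegative form -/
structure Psd (P : ι → ι → ℝ) : Prop where
  symm : ∀ i k, P i k = P k i
  nn : ∀ v : ι → ℝ, 0 ≤ ∑ i, ∑ k, v i * v k * P i k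

/-- `tr (P Q)` for symmetric kernels -/
def tr (P Q : ι → ι → ℝ) : ℝ := ∑ i, ∑ k, P i k * Q i k

theorem tr_comm (P Q : ι → ι → ℝ) : tr P Q = tr Q P := by simp only [tr, mul_comm]

theorem Psd.mat {P : ι → ι → ℝ} (h : Psd P) : (Matrix.of P).PosSemidef := by
  refine .of_dotProduct_mulVec_nonneg ?_ fun v => ?_
  · ext i k
    simp [h.symm k i]
  · refine (h.nn v).trans_eq ?_
    simp only [dotProduct, Matrix.mulVec, Matrix.of_apply, star_trivial, Finset.mul_sum]
    exact Finset.sum_congr rfl fun _ _ => Finset.sum_congr rfl fun _ _ => by ring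

theorem Psd.tr_nonneg {P Q : ι → ι → ℝ} (hP : Psd P) (hQ : Psd Q) : 0 ≤ tr P Q := by
  have := (hP.mat.hadamard hQ.mat).dotProduct_mulVec_nonneg fun _ => 1
  simpa [dotProduct, Matrix.mulVec, tr] using this



end psd

/-! ### Abel summation, frame-free -/

theorem tele (F : ℕ → ℝ) {a b : ℕ} (h : a ≤ b) :
    ∑ i ∈ Finset.Ioc a b, (F i - F (i - 1)) = F b - F a := by
  induction b, h using Nat.le_induction with
  | base => simp
  | succ b h ih => rw [Finset.sum_Ioc_succ_top h, ih, Nat.add_sub_cancel]; ring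

theorem abel1 (c F : ℕ → ℝ) (x N : ℕ) :
    ∑ y ∈ Finset.Icc x N, c y * F y = (∑ y ∈ Finset.Icc x N, c y) * F x +
      ∑ i ∈ Finset.Ioc x N, (∑ y ∈ Finset.Icc i N, c y) * (F i - F (i - 1)) := by
  have e : ∀ y ∈ Finset.Icc x N, c y * F y =
      c y * F x + ∑ i ∈ Finset.Ioc x y, c y * (F i - F (i - 1)) := fun y hy => by
    rw [← Finset.mul_sum, tele F (Finset.mem_Icc.1 hy).1]; ring
  rw [Finset.sum_congr rfl e, Finset.sum_add_distrib, Finset.sum_mul]
  simp only [Finset.sum_mul]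
  congr 1
  exact Finset.sum_comm' fun y i => by simp only [Finset.mem_Icc, Finset.mem_Ioc]; omega

/-- the tail of a weight on pairs -/
def tail (c : ℕ → ℕ → ℝ) (N i i' : ℕ) : ℝ := ∑ y ∈ Finset.Icc i N, ∑ y' ∈ Finset.Icc i' N, c y y'





/-! ### the ladder -/

variable {Ω : Type} [Fintype Ω] {w : Ω → ℝ}

/-- `E_x [f g]` for two leaves that meet at `y ≤ K`, one leaf for `y > K` -/
def Nf (w : Ω → ℝ) (L : List (Lv Ω)) (x y : ℕ) (z f g : Ω → ℝ) : ℝ :=
  if y ≤ L.length then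
    node w (L.drop x) (y - x) (fun z' => Pf w (L.drop y) z' f * Pf w (L.drop y) z' g) z
  else Pf w (L.drop x) z fun u => f u * g u

/-- the matrix of `Nf` on the coordinates of `l₀` -/
def Nm (w : Ω → ℝ) (L : List (Lv Ω)) (l₀ : Lv Ω) (x y : ℕ) (z : Ω → ℝ) (i k : l₀.ι) : ℝ :=
  Nf w L x y z (fun u => l₀.A u i) fun u => l₀.A u k

section nf
variable (hw : Wt w) (L : List (Lv Ω))

theorem Nf_le {x y : ℕ} (hy : y ≤ L.length) (z f g : Ω → ℝ) : Nf w L x y z f g =
    node w (L.drop x) (y - x) (fun z' => Pf w (L.drop y) z' f * Pf w (L.drop y) z' g) z := if_pos hy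

theorem Nf_leaf {x y : ℕ} (hy : L.length < y) (z f g : Ω → ℝ) :
    Nf w L x y z f g = Pf w (L.drop x) z fun u => f u * g u := if_neg hy.not_ge

theorem Nf_self {x : ℕ} (hx : x ≤ L.length) (z f g : Ω → ℝ) :
    Nf w L x x z f g = Pf w (L.drop x) z f * Pf w (L.drop x) z g := by
  rw [Nf_le L hx, Nat.sub_self]
  simp

theorem Nf_symm (x y : ℕ) (z f g : Ω → ℝ) : Nf w L x y z f g = Nf w L x y z g f := by
  simp only [Nf, mul_comm]

include hw

theorem eg_Nf (x y : ℕ) (f g : Ω → ℝ) : Eg fun z => Nf w L x y z f g := by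
  by_cases hy : y ≤ L.length
  · simp only [Nf_le L hy]
    exact ((Hess87.eg_Pf hw _ f).mul (Hess87.eg_Pf hw _ g)).node hw _ _
  · simp only [Nf_leaf L (not_le.1 hy)]
    exact Hess87.eg_Pf hw _ _

theorem node_Pf {x y : ℕ} (h : x ≤ y) (z f : Ω → ℝ) :
    node w (L.drop x) (y - x) (fun z' => Pf w (L.drop y) z' f) z = Pf w (L.drop x) z f := by
  have := node_sum_P hw f (L.drop x) (y - x) z
  rwa [List.drop_drop, Nat.add_sub_cancel' h] at this

/-- tower property -/
theorem node_Nf {x x' y : ℕ} (h : x ≤ x') (h' : x' ≤ y) (z f g : Ω → ℝ) :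
    node w (L.drop x) (x' - x) (fun z' => Nf w L x' y z' f g) z = Nf w L x y z f g := by
  by_cases hy : y ≤ L.length
  · simp only [Nf_le L hy]
    exact congrFun (node_tower' L h h' _) z
  · simp only [Nf_leaf L (not_le.1 hy)]
    exact node_Pf hw L h z _

/-- what is born above `y` is the mean of the covariance at `y` -/
theorem Nf_leaf_sub {x y y' : ℕ} (h : x ≤ y) (hy : y ≤ L.length) (hy' : L.length < y')
    (z f g : Ω → ℝ) : Nf w L x y' z f g - Nf w L x y z f g =
      node w (L.drop x) (y - x) (fun z' => Cb w (L.drop y) z' f g) z := by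
  simp only [Cb]
  rw [node_sub hw (Hess87.eg_Pf hw _ _) ((Hess87.eg_Pf hw _ f).mul (Hess87.eg_Pf hw _ g)),
    Nf_le L hy, Nf_leaf L hy']
  simp only [node_Pf hw L h]

theorem node_sq {Φ : (Ω → ℝ) → ℝ} (hΦ : Eg Φ) (j : ℕ) (z : Ω → ℝ) :
    node w L j Φ z * node w L j Φ z ≤ node w L j (fun y => Φ y * Φ y) z := by
  set c := node w L j Φ z with hc
  have h1 := node_mono hw ((hΦ.const_mul (2 * c)).sub (Eg.const (c * c))) (hΦ.mul hΦ)
    (fun y => by nlinarith [sq_nonneg (Φ y - c)]) L j z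
  rw [node_sub hw (hΦ.const_mul _) (Eg.const _), node_const_mul, node_const hw] at h1
  simp only [← hc] at h1
  linarith

/-- the ladder increases -/
theorem Nf_mono {x y y' : ℕ} (h : x ≤ y) (h' : y ≤ y') (z f : Ω → ℝ) :
    Nf w L x y z f f ≤ Nf w L x y' z f f := by
  rcases le_or_gt y L.length with hy | hy
  · rcases le_or_gt y' L.length with hy' | hy'
    · rw [← node_Nf hw L h h', ← node_Nf hw L h le_rfl]
      refine node_mono hw (eg_Nf hw L _ _ f f) (eg_Nf hw L _ _ f f) (fun z' => ?_) _ _ z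
      rw [Nf_self L hy, Nf_le L hy', ← node_Pf hw L h']
      exact node_sq hw _ (Hess87.eg_Pf hw _ f) _ _
    · rw [← sub_nonneg, Nf_leaf_sub hw L h hy hy']
      exact node_nonneg w (fun z' => Hess87.Cb_nonneg hw _ z' f) _ _ z
  · rw [Nf_leaf L hy, Nf_leaf L (hy.trans_le h')]

theorem Nf_fld (l₀ : Lv Ω) (x y : ℕ) (z : Ω → ℝ) (v v' : l₀.ι → ℝ) :
    Nf w L x y z (l₀.fld v) (l₀.fld v') = ∑ i, ∑ k, v i * v' k * Nm w L l₀ x y z i k := by
  by_cases hy : y ≤ L.length
  · simp only [Nm, Nf_le L hy, Pf_fld, Finset.sum_mul_sum]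
    have hm := eg_mv hw (L.drop y) l₀
    rw [node_sum hw _ fun i _ => Eg.sum _ fun k _ => ((hm i).mul_const _).mul ((hm k).mul_const _)]
    refine Finset.sum_congr rfl fun i _ => ?_
    rw [node_sum hw _ fun k _ => ((hm i).mul_const _).mul ((hm k).mul_const _)]
    refine Finset.sum_congr rfl fun k _ => ?_
    rw [← congrFun (node_const_mul w _ _ _ _) z]
    exact congrArg (fun F => node w (L.drop x) (y - x) F z) (funext fun z' => by
      simp only [mv]; ring)
  · simp only [Nm, Nf_leaf L (not_le.1 hy), Pf_fld2]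

theorem eg_Nm (l₀ : Lv Ω) (x y : ℕ) (i k : l₀.ι) : Eg fun z => Nm w L l₀ x y z i k :=
  eg_Nf hw L x y _ _

/-- increments of the ladder are positive semidefinite -/
theorem psd_incr (l₀ : Lv Ω) {x y y' : ℕ} (h : x ≤ y) (h' : y ≤ y') (z : Ω → ℝ) :
    Psd (Nm w L l₀ x y' z - Nm w L l₀ x y z) := by
  refine ⟨fun i k => by simp only [Pi.sub_apply, Nm, Nf_symm L x _ z (fun u => l₀.A u i)],
    fun v => ?_⟩
  simp only [Pi.sub_apply, mul_sub, Finset.sum_sub_distrib, ← Nf_fld hw]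
  exact sub_nonneg.2 (Nf_mono hw L h h' z _)

omit hw in
theorem Nm_self (l₀ : Lv Ω) {x : ℕ} (hx : x ≤ L.length) (z : Ω → ℝ) (i k : l₀.ι) :
    Nm w L l₀ x x z i k = mv w (L.drop x) l₀ z i * mv w (L.drop x) l₀ z k := Nf_self L hx z _ _

omit hw in
theorem psd_self (l₀ : Lv Ω) {x : ℕ} (hx : x ≤ L.length) (z : Ω → ℝ) :
    Psd (Nm w L l₀ x x z) := by
  refine ⟨fun i k => Nf_symm L x x z _ _, fun v => ?_⟩
  simp only [Nm_self L l₀ hx]
  refine (mul_self_nonneg (∑ i, v i * mv w (L.drop x) l₀ z i)).trans_eq ?_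
  rw [Finset.sum_mul_sum]
  exact Finset.sum_congr rfl fun _ _ => Finset.sum_congr rfl fun _ _ => by ring


end nf


/-- `E tr (N_y N_y')`: two branches split at `x`, inner meeting levels `y`, `y'` -/
def T2 (w : Ω → ℝ) (L : List (Lv Ω)) (l₀ : Lv Ω) (h : Ω → ℝ) (x y y' : ℕ) : ℝ :=
  node w L x (fun z => tr (Nm w L l₀ x y z) (Nm w L l₀ x y' z)) h

/-- `E mᵀ (N_b - N_a) m` -/
def MD (w : Ω → ℝ) (L : List (Lv Ω)) (l₀ : Lv Ω) (h : Ω → ℝ) (x a b : ℕ) : ℝ :=
  T2 w L l₀ h x x b - T2 w L l₀ h x x a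

/-- `E tr ((N_b - N_a) (N_b' - N_a'))` -/
def DD (w : Ω → ℝ) (L : List (Lv Ω)) (l₀ : Lv Ω) (h : Ω → ℝ) (x a b a' b' : ℕ) : ℝ :=
  T2 w L l₀ h x b b' - T2 w L l₀ h x a b' - T2 w L l₀ h x b a' + T2 w L l₀ h x a a'

/-- centred form -/
def Tc (w : Ω → ℝ) (L : List (Lv Ω)) (l₀ : Lv Ω) (h : Ω → ℝ) (q : ℝ) (x y y' : ℕ) : ℝ :=
  T2 w L l₀ h x y y' - 2 * q * rho w L l₀ h x + q ^ 2

section t2
variable (hw : Wt w) (L : List (Lv Ω)) (l₀ : Lv Ω) (h : Ω → ℝ)

theorem T2_symm (x y y' : ℕ) : T2 w L l₀ h x y y' = T2 w L l₀ h x y' y := by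
  simp only [T2, tr_comm (Nm w L l₀ x y _)]





include hw

theorem eg_tr {P Q : (Ω → ℝ) → l₀.ι → l₀.ι → ℝ} (hP : ∀ i k, Eg fun z => P z i k)
    (hQ : ∀ i k, Eg fun z => Q z i k) : Eg fun z => tr (P z) (Q z) :=
  Eg.sum _ fun i _ => Eg.sum _ fun k _ => (hP i k).mul (hQ i k)


theorem MD_eq (x a b : ℕ) : MD w L l₀ h x a b =
    node w L x (fun z => tr (Nm w L l₀ x b z - Nm w L l₀ x a z) (Nm w L l₀ x x z)) h := by
  have e := fun y y' => eg_tr hw l₀ (eg_Nm hw L l₀ x y) (eg_Nm hw L l₀ x y')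
  rw [MD, T2, T2, ← congrFun (node_sub hw (e x b) (e x a) L x) h]
  refine congrArg (fun F => node w L x F h) (funext fun z => ?_)
  simp only [tr, Pi.sub_apply, ← Finset.sum_sub_distrib]
  exact Finset.sum_congr rfl fun _ _ => Finset.sum_congr rfl fun _ _ => by ring

theorem DD_eq (x a b a' b' : ℕ) : DD w L l₀ h x a b a' b' = node w L x (fun z =>
    tr (Nm w L l₀ x b z - Nm w L l₀ x a z) (Nm w L l₀ x b' z - Nm w L l₀ x a' z)) h := by
  have e := fun y y' => eg_tr hw l₀ (eg_Nm hw L l₀ x y) (eg_Nm hw L l₀ x y')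
  rw [DD, T2, T2, T2, T2, ← congrFun (node_sub hw (e b b') (e a b') L x) h,
    ← congrFun (node_sub hw ((e b b').sub (e a b')) (e b a') L x) h,
    ← congrFun (node_add hw (((e b b').sub (e a b')).sub (e b a')) (e a a') L x) h]
  refine congrArg (fun F => node w L x F h) (funext fun z => ?_)
  simp only [tr, Pi.sub_apply, ← Finset.sum_sub_distrib, ← Finset.sum_add_distrib]
  exact Finset.sum_congr rfl fun _ _ => Finset.sum_congr rfl fun _ _ => by ring

theorem MD_nonneg {x a b : ℕ} (hx : x ≤ L.length) (ha : x ≤ a) (hab : a ≤ b) :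
    0 ≤ MD w L l₀ h x a b := by
  rw [MD_eq hw]
  exact node_nonneg w (fun z => (psd_incr hw L l₀ ha hab z).tr_nonneg (psd_self L l₀ hx z)) L x h

theorem DD_nonneg {x a b a' b' : ℕ} (ha : x ≤ a) (hab : a ≤ b) (ha' : x ≤ a') (hab' : a' ≤ b') :
    0 ≤ DD w L l₀ h x a b a' b' := by
  rw [DD_eq hw]
  exact node_nonneg w
    (fun z => (psd_incr hw L l₀ ha hab z).tr_nonneg (psd_incr hw L l₀ ha' hab' z)) L x h


















end t2

/-! ### the Riccati input -/


section ric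
variable {L : List (Lv Ω)} {l₀ : Lv Ω} {τ : ℕ → ℝ} {Λ : ℝ}




/-- blocks of levels above `x`, the last one ends at the leaf -/
structure Bl (L : List (Lv Ω)) (τ : ℕ → ℝ) (t : ℕ → ℕ) (B : ℕ) : Prop where
  mono : Monotone t
  le : t B ≤ L.length
  ex : ∀ b < B, 0 < ex L (t (b + 1))
  mass : ∀ b < B, 0 < ∑ k ∈ Finset.Ico (t b) (t (b + 1)), T157.Casc.ex L k * τ k





end ric

/-! ### replica form -/

/-- `j` shared levels, then `s` -/
def stp : ℕ → Sh → Sh
  | 0, s => s
  | j + 1, s => .step (stp j s)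

/-- the leaves of `stp j s` -/
def stpL : (j : ℕ) → (s : Sh) → s.Lf → (stp j s).Lf
  | 0, _, a => a
  | j + 1, s, a => stpL j s a

theorem stpL_inj : ∀ (j : ℕ) (s : Sh), Function.Injective (stpL j s)
  | 0, _ => Function.injective_id
  | j + 1, s => stpL_inj j s

theorem shr_stp : ∀ (j : ℕ) (s : Sh) (a b : s.Lf) (k : ℕ),
    (stp j s).shr (stpL j s a) (stpL j s b) (k + j) = s.shr a b k + j
  | 0, _, _, _, _ => rfl
  | j + 1, s, a, b, k => congrArg (· + 1) (shr_stp j s a b k)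

theorem TE_stp (hw : Wt w) (s : Sh) (F : (s.Lf → Ω) → ℝ) : ∀ (j : ℕ) (L : List (Lv Ω)) (h : Ω → ℝ),
    TE w (stp j s) L h (fun u => F fun a => u (stpL j s a)) =
      node w L j (fun z => TE w s (L.drop j) z F) h
  | 0, _, _ => by simp [stp, stpL]
  | j + 1, [], h => (Law.TE_step_nil w _ h _).trans ((TE_stp hw s F j [] h).trans (by simp))
  | j + 1, l :: L, h => (Law.TE_step hw _ l L h _).trans
      (congrArg (fun G => tE l (X w L) G h) (funext (TE_stp hw s F j L)))

/-- meeting level of two leaves, `K + 1` for one leaf -/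
def lev (s : Sh) (K : ℕ) (a b : s.Lf) : ℕ := by
  classical exact if a = b then K + 1 else s.shr a b K

theorem lev_self (s : Sh) (K : ℕ) (a : s.Lf) : lev s K a a = K + 1 := if_pos rfl

theorem lev_ne (s : Sh) (K : ℕ) {a b : s.Lf} (h : a ≠ b) : lev s K a b = s.shr a b K := if_neg h

theorem branch (hw : Wt w) (s : Sh) (L : List (Lv Ω)) {x : ℕ} (hx : x ≤ L.length) (a b : s.Lf)
    (hab : x ≤ s.shr a b L.length) : ∃ (κ : Type) (_ : Finite κ) (e : κ → s.Lf) (s₁ : Sh)
      (d : κ → s₁.Lf) (i j : κ), Function.Injective e ∧ Function.Injective d ∧ e i = a ∧ e j = b ∧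
      (∀ k, e k = a ∨ e k = b) ∧
      (∀ k k', k ≠ k' → s.shr (e k) (e k') L.length = s₁.shr (d k) (d k') (L.length - x) + x) ∧
      ∀ z f g, TE w s₁ (L.drop x) z (fun u => f (u (d i)) * g (u (d j))) =
        Nf w L x (lev s L.length a b) z f g := by
  rcases eq_or_ne a b with rfl | h
  · refine ⟨Unit, inferInstance, fun _ => a, .one, id, (), (), fun _ _ _ => rfl,
      Function.injective_id, rfl, rfl, fun _ => .inl rfl, fun _ _ e => absurd rfl e, fun z f g => ?_⟩
    rw [lev_self, Nf_leaf L (Nat.lt_succ_self _)]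
    exact Law.TE_one hw _ z _
  · have hy := Wt87.shr_le s a b L.length
    set y := s.shr a b L.length with hyd
    have hne : Sh.twoL (y - x) ≠ Sh.twoR (y - x) := fun e => by
      have h1 := Wt87.shr_two (y - x) (y - x + 1)
      rw [← e, Wt87.shr_self] at h1
      omega
    have h2 : (Sh.two (y - x)).shr (Sh.twoL _) (Sh.twoR _) (L.length - x) = y - x := by
      rw [Wt87.shr_two]; omega
    refine ⟨Bool, inferInstance, fun k => bif k then a else b, Sh.two (y - x),
      fun k => bif k then Sh.twoL _ else Sh.twoR _, true, false, ?_, ?_, rfl, rfl, ?_, ?_,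
      fun z f g => ?_⟩
    · rintro (_ | _) (_ | _) e
      exacts [rfl, absurd e.symm h, absurd e h, rfl]
    · rintro (_ | _) (_ | _) e
      exacts [rfl, absurd e.symm hne, absurd e hne, rfl]
    · rintro (_ | _)
      exacts [.inr rfl, .inl rfl]
    · rintro (_ | _) (_ | _) e
      · exact absurd rfl e
      · refine (Wt87.shr_comm s b a _).trans (Eq.trans ?_
          (congrArg (· + x) (Wt87.shr_comm _ (Sh.twoL (y - x)) (Sh.twoR (y - x)) _)))
        simp only [h2]; omega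
      · exact (show y = y - x + x by omega).trans (congrArg (· + x) h2.symm)
      · exact absurd rfl e
    · refine (TE_pair hw _ _ z hne fun u u' => f u * g u').trans ?_
      rw [List.length_drop, h2, lev_ne s _ h, Nf_le L hy, pi2, List.drop_drop,
        Nat.add_sub_cancel' hab]
      simp only [qf_mul, Pf]

/-- **(L4)** two branches `{a, b}`, `{a', b'}` split at `x` (leaves in a branch may coincide) -/
theorem TE_branch (hw : Wt w) (s : Sh) (L : List (Lv Ω)) (h : Ω → ℝ) {x : ℕ} {a b a' b' : s.Lf}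
    (hne : ∀ p, p = a ∨ p = b → ∀ p', p' = a' ∨ p' = b' → p ≠ p')
    (hx : ∀ p, p = a ∨ p = b → ∀ p', p' = a' ∨ p' = b' → s.shr p p' L.length = x)
    (f g f' g' : Ω → ℝ) :
    TE w s L h (fun u => f (u a) * g (u b) * (f' (u a') * g' (u b'))) = node w L x (fun z =>
      Nf w L x (lev s L.length a b) z f g * Nf w L x (lev s L.length a' b') z f' g') h := by
  have h1 := hx a (.inl rfl) a' (.inl rfl)
  have hK : x ≤ L.length := h1 ▸ Wt87.shr_le s a a' _
  have u1 : x ≤ s.shr a b L.length := by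
    have := Wt87.shr_ultra s a a' b L.length
    rw [Wt87.shr_comm s a' b, h1, hx b (.inr rfl) a' (.inl rfl)] at this
    omega
  have u2 : x ≤ s.shr a' b' L.length := by
    have := Wt87.shr_ultra s a' a b' L.length
    rw [Wt87.shr_comm s a' a, h1, hx a (.inl rfl) b' (.inr rfl)] at this
    omega
  obtain ⟨κ, _, e, s₁, d, i, j, he, hd, rfl, rfl, hc, hs, hT⟩ := branch hw s L hK a b u1
  obtain ⟨κ', _, e', s₂, d', i', j', he', hd', rfl, rfl, hc', hs', hT'⟩ :=
    branch hw s L hK a' b' u2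
  have hE : Function.Injective (Sum.elim e e') :=
    he.sumElim he' fun k k' => hne _ (hc k) _ (hc' k')
  have hD : Function.Injective fun k : κ ⊕ κ' => stpL x (.split s₁ s₂) (Sum.map d d' k) :=
    (stpL_inj x _).comp (hd.sumMap hd')
  have key := TE_lab hw s (stp x (.split s₁ s₂)) L h hE hD (fun p q hpq => by
    rw [← Nat.sub_add_cancel hK, shr_stp, Nat.sub_add_cancel hK]
    rcases p with p | p <;> rcases q with q | q
    · exact hs p q fun e => hpq (congrArg _ e)
    · exact (hx _ (hc p) _ (hc' q)).trans (zero_add x).symm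
    · exact (Wt87.shr_comm _ _ _ _).trans ((hx _ (hc q) _ (hc' p)).trans (zero_add x).symm)
    · exact hs' p q fun e => hpq (congrArg _ e))
    fun y => f (y (.inl i)) * g (y (.inl j)) * (f' (y (.inr i')) * g' (y (.inr j')))
  refine key.trans ((TE_stp hw (.split s₁ s₂) (fun u => f (u (.inl (d i))) * g (u (.inl (d j))) *
    (f' (u (.inr (d' i'))) * g' (u (.inr (d' j'))))) x L h).trans ?_)
  refine congrArg (fun F => node w L x F h) (funext fun z => ?_)
  rw [Law.TE_split hw, ← hT, ← hT']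
  simp only [Sum.elim_inl, Sum.elim_inr, Law.TE_const_mul hw, Law.TE_mul_const hw]

/-- `E ⟨R_{a a'} R_{b b'}⟩ = T2` -/
theorem TE_T2 (hw : Wt w) (s : Sh) (L : List (Lv Ω)) (l₀ : Lv Ω) (h : Ω → ℝ) {x : ℕ}
    {a b a' b' : s.Lf} (hne : ∀ p, p = a ∨ p = b → ∀ p', p' = a' ∨ p' = b' → p ≠ p')
    (hx : ∀ p, p = a ∨ p = b → ∀ p', p' = a' ∨ p' = b' → s.shr p p' L.length = x) :
    TE w s L h (fun u => l₀.cov (u a) (u a') * l₀.cov (u b) (u b')) =
      T2 w L l₀ h x (lev s L.length a b) (lev s L.length a' b') := by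
  have e : ∀ u : s.Lf → Ω, l₀.cov (u a) (u a') * l₀.cov (u b) (u b') =
      ∑ i, ∑ k, l₀.A (u a) i * l₀.A (u b) k * (l₀.A (u a') i * l₀.A (u b') k) := fun u => by
    simp only [Lv.cov, Finset.sum_mul_sum]
    exact Finset.sum_congr rfl fun _ _ => Finset.sum_congr rfl fun _ _ => by ring
  have hN := fun y => eg_Nm hw L l₀ x y
  simp only [e, Law.TE_sum hw, T2, tr]
  rw [node_sum hw _ fun i _ => Eg.sum _ fun k _ => (hN _ i k).mul (hN _ i k)]
  refine Finset.sum_congr rfl fun i _ => ?_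
  rw [node_sum hw _ fun k _ => (hN _ i k).mul (hN _ i k)]
  exact Finset.sum_congr rfl fun k _ => TE_branch hw s L h hne hx (fun u => l₀.A u i)
    (fun u => l₀.A u k) (fun u => l₀.A u i) fun u => l₀.A u k

/-- centred replica form -/
theorem TE_Tc (hw : Wt w) (s : Sh) (L : List (Lv Ω)) (l₀ : Lv Ω) (h : Ω → ℝ) (q : ℝ) {x : ℕ}
    {a b a' b' : s.Lf} (hne : ∀ p, p = a ∨ p = b → ∀ p', p' = a' ∨ p' = b' → p ≠ p')
    (hx : ∀ p, p = a ∨ p = b → ∀ p', p' = a' ∨ p' = b' → s.shr p p' L.length = x) :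
    TE w s L h (fun u => (l₀.cov (u a) (u a') - q) * (l₀.cov (u b) (u b') - q)) =
      Tc w L l₀ h q x (lev s L.length a b) (lev s L.length a' b') := by
  have e : ∀ u : s.Lf → Ω, (l₀.cov (u a) (u a') - q) * (l₀.cov (u b) (u b') - q) =
      l₀.cov (u a) (u a') * l₀.cov (u b) (u b') - q * l₀.cov (u a) (u a') -
        q * l₀.cov (u b) (u b') + q ^ 2 := fun u => by ring
  simp only [e, Law.TE_add hw, Law.TE_sub hw, Law.TE_const_mul hw, Law.TE_const hw]
  rw [TE_T2 hw s L l₀ h hne hx, TE_pair hw s L h (hne a (.inl rfl) a' (.inl rfl)),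
    TE_pair hw s L h (hne b (.inr rfl) b' (.inr rfl)), hx a (.inl rfl) a' (.inl rfl),
    hx b (.inr rfl) b' (.inr rfl), ← rho_eq, Tc]
  ring

end Crest.Agent.T156.Cas.Lad79
end
namespace Crest.Agent.T156.Cas.Lad79.Dt
end Crest.Agent.T156.Cas.Lad79.Dt
private theorem rz_c01e367139 : type_of% @_root_.Crest.Agent.T156.Cas.Lad79.stp.eq_def := @_root_.Crest.Agent.T156.Cas.Lad79.stp.eq_def -- L673
private theorem rz_acd4b9e5e6 : type_of% @_root_.Crest.Agent.T156.Cas.Lad79.stp.eq_1 := @_root_.Crest.Agent.T156.Cas.Lad79.stp.eq_1 -- L673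
private theorem rz_31d259bcaa : type_of% @_root_.Crest.Agent.T156.Cas.Lad79.stpL.eq_def := @_root_.Crest.Agent.T156.Cas.Lad79.stpL.eq_def -- L678
private theorem rz_ba055bcc2e : type_of% @_root_.Crest.Agent.T156.Cas.Lad79.stpL.eq_1 := @_root_.Crest.Agent.T156.Cas.Lad79.stpL.eq_1 -- L678
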