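import Crest.Agent.T156.Q2A_75
import Crest.Agent.T156.Q2Def_75
import Crest.Agent.T156.Lad_79
import Crest.Agent.T156.Q2M_75
import Crest.Agent.T156.Eg_33
import Crest.Agent.T156.CQ2D_10
import Crest.Agent.T156.Q2Site_97
import Crest.Agent.T156.CErr_54
import Crest.Agent.T156.AltOne_23
import Crest.Agent.T156.QCube_33
import Crest.Agent.T156.CQ2A_10
import Crest.Agent.T156.Dn_41

-- ▼ part T156/Q2B_75
section

/-!
# Row 156 (helper75): the non-local part of the two-edge term is small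
-/

set_option autoImplicit false

noncomputable section

namespace Crest.Agent.T156.Cas.Q75

open Finset
open Crest.Agent.T157.E Crest.Agent.T157.Casc Crest.Agent.T157.SL
open Crest.Agent.T156.Rect52
open Nu87 Wt87

/-! ### double Abel summation on a square -/

theorem sq_bd (c B : ℕ → ℕ → ℝ) {j₁ a K : ℕ} (ha : j₁ ≤ a) {f f' s : ℕ → ℝ} {k0 k1 : ℝ}
    (hf : ∀ y, 0 ≤ f y) (hf' : ∀ y, 0 ≤ f' y) (hs : ∀ i, 0 ≤ s i) (hk : 0 ≤ k1)
    (hG : ∀ x, a ≤ x → ∀ y, a ≤ y → |G2 B (K + 1) (K + 1) x y| ≤ f x * f' y) (h0 : |c a a| ≤ k0)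
    (h1 : ∀ i, a ≤ i → i < K → |c (i + 1) a - c i a| ≤ k1 * s i ∧ |c a (i + 1) - c a i| ≤ k1 * s i)
    (hd : ∀ i, a ≤ i → i < K → |mx c i i| ≤ 2 * s i)
    (h2 : ∀ i j, a ≤ i → i < K → a ≤ j → j < K → i ≠ j → |mx c i j| ≤ s i * s j) :
    |∑ i ∈ Ico a (K + 1), ∑ j ∈ Ico a (K + 1), c i j * B i j| ≤ k0 * (f a * f' a) +
      k1 * ((∑ i ∈ Ico j₁ K, s i * f (i + 1)) * f' a + f a * ∑ i ∈ Ico j₁ K, s i * f' (i + 1)) +
      (∑ i ∈ Ico j₁ K, s i * f (i + 1)) * (∑ i ∈ Ico j₁ K, s i * f' (i + 1)) +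
      2 * ∑ i ∈ Ico j₁ K, s i * (f (i + 1) * f' (i + 1)) := by
  have H := abel2_le c B a (K + 1) a (K + 1) f f' (fun i => k1 * s i) (fun i => k1 * s i)
    (fun i j => s i * s j + if i = j then 2 * s i else 0) hG h0
    (fun i hi => (h1 i (mem_Ico.1 hi).1 (mem_Ico.1 hi).2).1)
    (fun i hi => (h1 i (mem_Ico.1 hi).1 (mem_Ico.1 hi).2).2) fun i hi j hj => by
      by_cases e : i = j
      · subst e
        rw [if_pos rfl]
        exact (hd i (mem_Ico.1 hi).1 (mem_Ico.1 hi).2).trans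
          (le_add_of_nonneg_left (mul_self_nonneg _))
      · rw [if_neg e, add_zero]
        exact h2 i j (mem_Ico.1 hi).1 (mem_Ico.1 hi).2 (mem_Ico.1 hj).1 (mem_Ico.1 hj).2 e
  rw [Nat.add_sub_cancel] at H
  have e3 : ∑ i ∈ Ico a K, ∑ j ∈ Ico a K,
        (s i * s j + if i = j then 2 * s i else 0) * (f (i + 1) * f' (j + 1))
      = (∑ i ∈ Ico a K, s i * f (i + 1)) * (∑ i ∈ Ico a K, s i * f' (i + 1))
        + 2 * ∑ i ∈ Ico a K, s i * (f (i + 1) * f' (i + 1)) := by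
    rw [sum_mul_sum, mul_sum, ← sum_add_distrib]
    refine sum_congr rfl fun i hi => ?_
    simp only [add_mul, sum_add_distrib, ite_mul, zero_mul, sum_ite_eq, hi, if_true]
    congr 1
    · exact sum_congr rfl fun j _ => by ring
    · ring
  simp only [mul_assoc k1, ← mul_sum] at H
  rw [e3] at H
  have sub : ∀ g : ℕ → ℝ, (∀ i, 0 ≤ g i) →
      ∑ i ∈ Ico a K, s i * g i ≤ ∑ i ∈ Ico j₁ K, s i * g i := fun g hg =>
    sum_le_sum_of_subset_of_nonneg (Ico_subset_Ico_left ha) fun i _ _ => mul_nonneg (hs i) (hg i)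
  have s1 := sub _ fun i => hf (i + 1)
  have s2 := sub _ fun i => hf' (i + 1)
  have s3 := sub _ fun i => mul_nonneg (hf (i + 1)) (hf' (i + 1))
  have n1 : 0 ≤ ∑ i ∈ Ico a K, s i * f (i + 1) := sum_nonneg fun i _ => mul_nonneg (hs i) (hf _)
  have n2 : 0 ≤ ∑ i ∈ Ico a K, s i * f' (i + 1) := sum_nonneg fun i _ => mul_nonneg (hs i) (hf' _)
  have p1 := mul_le_mul_of_nonneg_left (mul_le_mul_of_nonneg_right s1 (hf' a)) hk
  have p2 := mul_le_mul_of_nonneg_left (mul_le_mul_of_nonneg_left s2 (hf a)) hk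
  have p3 := mul_le_mul s1 s2 n2 (n1.trans s1)
  nlinarith

/-! ### legs -/

section legs
variable {Θ : Type} {L : List (Lv Θ)}

theorem sum_Ioc_dm {x : ℕ} (hx : x ≤ L.length) : ∑ t ∈ Ioc x L.length, dm L 0 t = 1 - ex L x := by
  have h1 := sum_dm L 0 L.length
  have h2 := sum_dm L 0 x
  rw [ex_length] at h1
  rw [range_eq_Ico] at h1 h2
  rw [← Finset.Ico_add_one_add_one_eq_Ioc, eq_sub_iff_add_eq, ← sub_zero (ex L x), ← h2, add_comm,
    sum_Ico_consecutive _ (by omega) (by omega), h1, sub_zero]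

theorem abs_Sm_le (hL : Mono 0 L) {A : Finset ℕ} {g : ℕ → ℝ} {b : ℝ} (h : ∀ t ∈ A, |g t| ≤ b) :
    |Sm L A g| ≤ (∑ t ∈ A, dm L 0 t) * b := by
  rw [sum_mul]
  refine (abs_sum_le_sum_abs _ _).trans (sum_le_sum fun t ht => ?_)
  rw [abs_mul, abs_of_nonneg (dm_nonneg hL t)]
  exact mul_le_mul_of_nonneg_left (h t ht) (dm_nonneg hL t)

theorem abs_Lg_le (hL : Mono 0 L) {x : ℕ} (hx : x ≤ L.length) {g : ℕ → ℝ} {b : ℝ}
    (h : ∀ t, x < t → t ≤ L.length + 1 → |g t| ≤ b) : |Lg L x g| ≤ (2 - ex L x) * b := by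
  have h1 := abs_Sm_le hL (A := Ioc x L.length) (g := g) fun t ht =>
    h t (mem_Ioc.1 ht).1 ((mem_Ioc.1 ht).2.trans (Nat.le_succ _))
  rw [sum_Ioc_dm hx] at h1
  have h2 := h _ (Nat.lt_succ_of_le hx) le_rfl
  rw [Lg_eq]
  exact (abs_sub _ _).trans (by linarith)

theorem abs_Lx_le (hL : Mono 0 L) {x : ℕ} (hx : x ≤ L.length) {g : ℕ → ℝ} {b : ℝ}
    (h : ∀ t, x ≤ t → t ≤ L.length + 1 → |g t| ≤ b) : |Lx L x g| ≤ 2 * b := by
  have h1 := abs_Lg_le hL hx fun t h1 h2 => h t h1.le h2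
  have h2 := mul_le_mul_of_nonneg_left (h x le_rfl (hx.trans (Nat.le_succ _))) (ex_nonneg hL x)
  rw [Lx]
  refine (abs_sub _ _).trans ?_
  rw [abs_mul, abs_of_nonneg (ex_nonneg hL x)]
  linarith

theorem abs_LL_le (hL : Mono 0 L) {u x : ℕ} (hu : u ≤ x) (hx : x ≤ L.length) {g : ℕ → ℝ} {b : ℝ}
    (h : ∀ t, u ≤ t → t ≤ L.length + 1 → |g t| ≤ b) : |Lg L u g + Lx L x g| ≤ 4 * b := by
  have h1 := abs_Lg_le hL (hu.trans hx) fun t h1 h2 => h t h1.le h2
  have h2 := abs_Lx_le hL hx fun t h1 h2 => h t (hu.trans h1) h2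
  have h3 := mul_nonneg (ex_nonneg hL u) ((abs_nonneg _).trans (h u le_rfl (by omega)))
  exact (abs_add_le _ _).trans (by linarith)

theorem Lg_congr {x : ℕ} (hx : x ≤ L.length) {g g' : ℕ → ℝ}
    (h : ∀ t, x < t → t ≤ L.length + 1 → g t = g' t) : Lg L x g = Lg L x g' := by
  rw [Lg_eq, Lg_eq, h _ (Nat.lt_succ_of_le hx) le_rfl,
    Sm_congr L fun t ht => h t (mem_Ioc.1 ht).1 ((mem_Ioc.1 ht).2.trans (Nat.le_succ _))]

theorem Lx_congr {x : ℕ} (hx : x ≤ L.length) {g g' : ℕ → ℝ}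
    (h : ∀ t, x ≤ t → t ≤ L.length + 1 → g t = g' t) : Lx L x g = Lx L x g' := by
  rw [Lx, Lx, Lg_congr hx fun t h1 h2 => h t h1.le h2, h x le_rfl (hx.trans (Nat.le_succ _))]

theorem Lg_add (x : ℕ) (g g' : ℕ → ℝ) :
    Lg L x (fun t => g t + g' t) = Lg L x g + Lg L x g' := by simp only [Lg_eq, Sm_add]; ring

theorem Lx_add (x : ℕ) (g g' : ℕ → ℝ) :
    Lx L x (fun t => g t + g' t) = Lx L x g + Lx L x g' := by simp only [Lx, Lg_add]; ring

theorem Lg_mul (x : ℕ) (c : ℝ) (g : ℕ → ℝ) : Lg L x (fun t => c * g t) = c * Lg L x g := by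
  simp only [Lg_eq, Sm_mul]; ring

theorem Lx_mul (x : ℕ) (c : ℝ) (g : ℕ → ℝ) : Lx L x (fun t => c * g t) = c * Lx L x g := by
  simp only [Lx, Lg_mul]; ring

theorem Lg_sum (x : ℕ) (A : Finset ℕ) (g : ℕ → ℕ → ℝ) :
    Lg L x (fun t => ∑ u ∈ A, g u t) = ∑ u ∈ A, Lg L x (g u) := by
  simp only [Lg, sum_sub_distrib, mul_sum]; rw [sum_comm]

theorem Lx_sum (x : ℕ) (A : Finset ℕ) (g : ℕ → ℕ → ℝ) :
    Lx L x (fun t => ∑ u ∈ A, g u t) = ∑ u ∈ A, Lx L x (g u) := by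
  simp only [Lx, Lg_sum, sum_sub_distrib, mul_sum]

theorem Lg_cut {y u : ℕ} (hy : y ≤ u) (hu : u ≤ L.length) (g : ℕ → ℝ) :
    Lg L y (fun t => if u < t then g t else 0) = Lg L u g := by
  rw [Lg, Lg, if_pos (by omega)]
  congr 1
  simp only [mul_ite, mul_zero]
  rw [← sum_filter]
  refine sum_congr ?_ fun _ _ => rfl
  ext t
  simp only [mem_filter, mem_Ioc]
  omega

theorem LO_congr {T T' : Tw} {y x y' x' : ℕ} {κ : ℝ} (hy : y ≤ x) (hx : x ≤ L.length)
    (h : ∀ t, y ≤ t → t ≤ L.length + 1 → T.lo L.length y x t = κ * T'.lo L.length y' x' t)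
    (e : y' = y) (e' : x' = x) : LO L T y x = κ * LO L T' y x := by
  subst e e'
  rw [LO, LO, cP, cP, Lg_congr (hy.trans hx) fun t h1 h2 => h t h1.le h2,
    Lx_congr hx fun t h1 h2 => h t (hy.trans h1) h2, h _ le_rfl (by omega), Lg_mul, Lx_mul]
  ring

theorem Tw.Eqv.lo {T T' : Tw} {K y x t : ℕ} (H : T.Eqv T' K) (hy : y ≤ x) (hx : x ≤ K)
    (h1 : y ≤ t) (h2 : t ≤ K + 1) : T.lo K y x t = T'.lo K y x t := by
  unfold Tw.lo
  split_ifs with h
  · exact H.2.1 _ (rz_lo3 hx hy)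
  · exact H.2.2 _ (rz_lo4 hx hy h1 (by omega))

theorem wt_lo (φ ψ : ℕ → ℝ) (K y x t : ℕ) : (wt φ ψ).lo K y x t = φ x * ψ y := by
  unfold Tw.lo; split_ifs <;> rfl

theorem wt_tr_lo (φ ψ : ℕ → ℝ) (K y x t : ℕ) : (wt φ ψ).tr.lo K x y t = φ x * ψ y := by
  rw [tr_lo]; split_ifs <;> rfl

end legs

/-! ### martingale transforms -/

section mart
variable {K : ℕ} {B : Tw} {V : Type} [AddCommGroup V] [Module ℝ V]
  {ip : LinearMap.BilinForm ℝ V} {δ : ℕ → V} {π : ℕ → ℕ → V} {P : ℕ → V →ₗ[ℝ] V} {a : ℕ → ℝ}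

theorem Bs.cs (H : Bs K B ip δ π P a) {u v : V} {α β : ℝ} (hα : 0 ≤ α) (hβ : 0 ≤ β)
    (hu : ip u u ≤ α ^ 2) (hv : ip v v ≤ β ^ 2) : |ip u v| ≤ α * β := by
  have := LinearMap.BilinForm.apply_sq_le_of_symm ip H.pos ⟨fun x y => H.sym x y⟩ u v
  refine abs_le_of_sq_le_sq' ?_ (mul_nonneg hα hβ) |> abs_le.2
  rw [mul_pow]
  exact this.trans (mul_le_mul hu hv (H.pos v) (sq_nonneg _))

theorem Bs.step (H : Bs K B ip δ π P a) {y n : ℕ} (hy : y ≤ n) (hn : n < K) :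
    ip (π y (n + 1)) (π y (n + 1)) =
      ip (π y n) (π y n) + ip (π y (n + 1) - π y n) (π y (n + 1) - π y n) := by
  have h := H.or2 y n n hy le_rfl hn
  have h2 := H.sym (π y (n + 1)) (π y n)
  simp only [map_sub, LinearMap.sub_apply] at h ⊢
  linarith

theorem Bs.pi_le (H : Bs K B ip δ π P a) {y n : ℕ} (hy : y ≤ n) (hn : n ≤ K) :
    ip (π y n) (π y n) ≤ a y ^ 2 := by
  have : ∀ m, n ≤ m → m ≤ K → ip (π y n) (π y n) ≤ ip (π y m) (π y m) := fun m hm => by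
    induction m, hm using Nat.le_induction with
    | base => exact fun _ => le_rfl
    | succ m hm ih =>
      intro h
      rw [H.step (hy.trans hm) h]
      exact (ih (by omega)).trans (le_add_of_nonneg_right (H.pos _))
  exact (this K hn le_rfl).trans (H.pia y (hy.trans hn))

theorem Bs.mart (H : Bs K B ip δ π P a) {y n : ℕ} (hy : y ≤ n) (hn : n ≤ K) {c : ℕ → ℝ} {κ : ℝ}
    (hc : ∀ u, y ≤ u → u < n → |c u| ≤ κ) :
    ip (∑ u ∈ Ico y n, c u • (π y (u + 1) - π y u)) (∑ u ∈ Ico y n, c u • (π y (u + 1) - π y u)) ≤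
      (κ * a y) ^ 2 := by
  have : ip (∑ u ∈ Ico y n, c u • (π y (u + 1) - π y u))
      (∑ u ∈ Ico y n, c u • (π y (u + 1) - π y u)) ≤ κ ^ 2 * ip (π y n) (π y n) := by
    induction n, hy using Nat.le_induction with
    | base => simpa using mul_nonneg (sq_nonneg κ) (H.pos _)
    | succ n hy ih =>
      have h0 : ip (∑ u ∈ Ico y n, c u • (π y (u + 1) - π y u)) (π y (n + 1) - π y n) = 0 := by
        rw [map_sum, LinearMap.sum_apply]
        refine sum_eq_zero fun u hu => ?_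
        have := mem_Ico.1 hu
        rw [map_smul, LinearMap.smul_apply, map_sub ip, LinearMap.sub_apply,
          H.or2 y n (u + 1) (by omega) (by omega) hn, H.or2 y n u this.1 this.2.le hn, sub_self,
          smul_zero]
      have h1 := ih (by omega) fun u h1 h2 => hc u h1 (by omega)
      have h2 : c n ^ 2 ≤ κ ^ 2 := sq_le_sq' (abs_le.1 (hc n hy (by omega))).1
        (abs_le.1 (hc n hy (by omega))).2
      have h3 := mul_le_mul_of_nonneg_right h2 (H.pos (π y (n + 1) - π y n))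
      rw [sum_Ico_succ_top hy, H.step hy hn]
      generalize ∑ u ∈ Ico y n, c u • (π y (u + 1) - π y u) = S at *
      generalize π y (n + 1) - π y n = d at *
      have h4 := H.sym d S
      simp only [map_add, map_smul, LinearMap.add_apply, LinearMap.smul_apply, smul_eq_mul, h0, h4]
      nlinarith
  rw [mul_pow]
  exact this.trans (mul_le_mul_of_nonneg_left (H.pi_le hy hn) (sq_nonneg _))

end mart

/-! ### the bound -/

/-- the hypotheses of the non-local bound -/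
structure NH {Θ : Type} (L : List (Lv Θ)) (c B : Tw) (j₁ : ℕ) (c₀ : ℝ) (p s a : ℕ → ℝ)
    (b : ℕ → ℕ → ℝ) {V : Type} [AddCommGroup V] [Module ℝ V] (ip : LinearMap.BilinForm ℝ V)
    (δ : ℕ → V) (π : ℕ → ℕ → V) (P : ℕ → V →ₗ[ℝ] V) : Prop where
  mono : Mono 0 L
  ctr : c.tr.Eqv c L.length
  btr : B.tr.Eqv B L.length
  reg : Reg L c j₁ c₀ p s
  bs : Bs L.length B ip δ π P a
  lo3 : ∀ y x t, y ≤ x → x < t → t ≤ L.length + 1 → x ≤ L.length →
    |B.lo L.length y x t - (ip (δ x) (δ y) + ip (δ x) (π y x))| ≤ b y x * a x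
  b0 : ∀ y x, 0 ≤ b y x
  c1 : 1 ≤ c₀
  pc : p j₁ ≤ c₀
  p0 : ∀ y, 0 ≤ p y
  ds : ∀ i, dm L 0 i ≤ s i
  low : ∑ z ∈ range j₁, dm L 0 z ≤ p j₁

/-- a weight on the labels above the cut with the norms `f` of its tails -/
structure Wf {Θ : Type} (L : List (Lv Θ)) (j₁ : ℕ) {V : Type} [AddCommGroup V] [Module ℝ V]
    (ip : LinearMap.BilinForm ℝ V) (δ : ℕ → V) (φ f : ℕ → ℝ) : Prop where
  le : ∀ x, |φ x| ≤ 1
  lw : ∀ x < j₁, φ x = 0
  nn : ∀ y, 0 ≤ f y
  tl : ∀ y, j₁ ≤ y → ip (∑ x ∈ Ico y (L.length + 1), (dm L 0 x * φ x) • δ x)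
    (∑ x ∈ Ico y (L.length + 1), (dm L 0 x * φ x) • δ x) ≤ f y ^ 2

/-- the error of the non-local part -/
def Er2 {Θ : Type} (L : List (Lv Θ)) (j₁ : ℕ) (p s a : ℕ → ℝ) (b : ℕ → ℕ → ℝ) (f f' : ℕ → ℝ) : ℝ :=
  p j₁ * (f j₁ ^ 2 + f' j₁ ^ 2) + ((∑ i ∈ Ico j₁ L.length, s i * f (i + 1)) ^ 2 +
    (∑ i ∈ Ico j₁ L.length, s i * f' (i + 1)) ^ 2) +
    ∑ i ∈ Ico j₁ L.length, s i * (f (i + 1) ^ 2 + f' (i + 1) ^ 2) +
    ∑ y ∈ Ico j₁ (L.length + 1), dm L 0 y * (p y * a y) ^ 2 +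
    ∑ x ∈ Ico j₁ (L.length + 1), ∑ y ∈ Ico j₁ (x + 1), dm L 0 x * dm L 0 y * (p y * (b y x * a x))

section main
variable {Θ : Type} {L : List (Lv Θ)} {c B : Tw} {j₁ : ℕ} {c₀ : ℝ} {p s a φ ψ f f' : ℕ → ℝ}
  {b : ℕ → ℕ → ℝ} {V : Type} [AddCommGroup V] [Module ℝ V] {ip : LinearMap.BilinForm ℝ V}
  {δ : ℕ → V} {π : ℕ → ℕ → V} {P : ℕ → V →ₗ[ℝ] V}

theorem NH.s0 (H : NH L c B j₁ c₀ p s a b ip δ π P) (i : ℕ) : 0 ≤ s i :=
  (dm_nonneg H.mono i).trans (H.ds i)

/-- the martingale part -/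
def Pt (L : List (Lv Θ)) (c : Tw) (ip : LinearMap.BilinForm ℝ V) (δ : ℕ → V) (π : ℕ → ℕ → V)
    (y x : ℕ) : ℝ := ∑ u ∈ Ico y x, cP L c y u x * ip (δ x) (π y (u + 1) - π y u)

theorem NH.lo_dec (H : NH L c B j₁ c₀ p s a b ip δ π P) {y x : ℕ} (h1 : j₁ ≤ y) (hy : y ≤ x)
    (hx : x ≤ L.length) : |LO L (c.mul B) y x - (LO L c y x * ip (δ x) (δ y) -
      2 * Pt L c ip δ π y x)| ≤ 8 * (p y * (b y x * a x)) := by
  set Y : ℕ → ℝ := fun t => B.lo L.length y x t - (ip (δ x) (δ y) + ip (δ x) (π y (min t x)))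
  have hY : ∀ t, y ≤ t → t ≤ L.length + 1 → |c.lo L.length y x t * Y t| ≤ p y * (b y x * a x) :=
    fun t h2 h3 => by
      rw [abs_mul]
      refine mul_le_mul (H.reg.l0 y x t h1 hy hx h2 h3) ?_ (abs_nonneg _) (H.p0 y)
      rcases le_or_gt t x with h | h
      · simp only [Y, min_eq_left h, H.bs.lo1 y x t h2 h hx, sub_self, abs_zero]
        exact mul_nonneg (H.b0 y x) (H.bs.a0 x)
      · simp only [Y, min_eq_right h.le]
        exact H.lo3 y x t hy h h3 hx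
  have e : ∀ t, y ≤ t → (c.mul B).lo L.length y x t =
      ip (δ x) (δ y) * c.lo L.length y x t + ∑ u ∈ Ico y x, ip (δ x) (π y (u + 1) - π y u) *
        (if u < t then c.lo L.length y x t else 0) + c.lo L.length y x t * Y t := fun t ht => by
    have : ∑ u ∈ Ico y x, ip (δ x) (π y (u + 1) - π y u) *
        (if u < t then c.lo L.length y x t else 0) =
        ip (δ x) (π y (min t x)) * c.lo L.length y x t := by
      simp only [mul_ite, mul_zero]
      rw [← sum_filter, ← sum_mul, ← map_sum, show filter (· < t) (Ico y x) = Ico y (min t x) by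
        ext u; simp only [mem_filter, mem_Ico]; omega,
        sum_Ico_sub (π y) (le_min ht hy), H.bs.pi0, sub_zero]
    rw [lo_mul, this]
    simp only [Y]
    ring
  have e1 : cP L (c.mul B) y y x = ip (δ x) (δ y) * cP L c y y x + Pt L c ip δ π y x +
      (Lg L y (fun t => c.lo L.length y x t * Y t) + Lx L x fun t => c.lo L.length y x t * Y t) := by
    rw [cP, Lg_congr (hy.trans hx) fun t h _ => e t h.le, Lx_congr hx fun t h _ => e t (hy.trans h),
      Lg_add, Lg_add, Lx_add, Lx_add, Lg_mul, Lx_mul, Lg_sum, Lx_sum, Pt, cP,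
      sum_congr rfl (g := fun u => ip (δ x) (π y (u + 1) - π y u) * Lg L u (c.lo L.length y x))
        fun u hu => by
          rw [Lg_mul, Lg_cut (mem_Ico.1 hu).1 ((mem_Ico.1 hu).2.le.trans hx)],
      sum_congr rfl (f := fun u => Lx L x _)
        (g := fun u => ip (δ x) (π y (u + 1) - π y u) * Lx L x (c.lo L.length y x)) fun u hu => by
          rw [Lx_mul, Lx_congr hx fun t h _ => if_pos ((mem_Ico.1 hu).2.trans_le h)]]
    simp only [cP, add_mul, sum_add_distrib, mul_comm (ip (δ x) (π y _ - π y _))]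
    ring
  have e2 : (c.mul B).lo L.length y x y = c.lo L.length y x y * ip (δ x) (δ y) := by
    rw [lo_mul, H.bs.lo1 y x y le_rfl hy hx, H.bs.pi0, map_zero, add_zero]
  have h := abs_LL_le H.mono hy hx hY
  rw [LO, LO, e1, e2]
  rw [abs_le] at h ⊢
  constructor <;> nlinarith [h.1, h.2]

theorem NH.pi_bd (H : NH L c B j₁ c₀ p s a b ip δ π P) (W : Wf L j₁ ip δ φ f) {y : ℕ}
    (h1 : j₁ ≤ y) (hy : y ≤ L.length) :
    |∑ x ∈ Ico y (L.length + 1), dm L 0 x * φ x * Pt L c ip δ π y x| ≤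
      p y * a y * (4 * f (y + 1) + ∑ i ∈ Ico j₁ L.length, s i * f (i + 1)) := by
  set F : ℕ → V := fun y => ∑ x ∈ Ico y (L.length + 1), (dm L 0 x * φ x) • δ x with hF
  set d : ℕ → V := fun u => π y (u + 1) - π y u with hd
  have e0 : ∀ u v, ∑ x ∈ Ico v (L.length + 1), dm L 0 x * φ x * ip (δ x) (d u) = ip (F v) (d u) :=
    fun u v => by simp only [hF, map_sum, LinearMap.sum_apply, map_smul, LinearMap.smul_apply,
      smul_eq_mul]
  have e1 : ∑ x ∈ Ico y (L.length + 1), dm L 0 x * φ x * Pt L c ip δ π y x =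
      ∑ u ∈ Ico y L.length, (cP L c y u (u + 1) * ip (F (u + 1)) (d u) +
        ∑ j ∈ Ico (u + 1) L.length, (cP L c y u (j + 1) - cP L c y u j) * ip (F (j + 1)) (d u)) := by
    simp only [Pt, mul_sum]
    rw [← sum_Ico_Ico_comm', sum_Ico_succ_top hy, Ico_self, sum_empty, add_zero]
    refine sum_congr rfl fun u _ => ?_
    have := abel_id' (cP L c y u) (fun x => dm L 0 x * φ x * ip (δ x) (d u)) (u + 1) (L.length + 1)
    simp only [e0, Nat.add_sub_cancel] at this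
    rw [← this]
    exact sum_congr rfl fun x _ => by ring
  have e2 : ∀ u ∈ Ico y L.length, ip (F (u + 1)) (d u) = ip (F (y + 1)) (d u) := fun u hu => by
    have hu' := mem_Ico.1 hu
    rw [← e0, ← e0, ← sum_Ico_consecutive _ (show y + 1 ≤ u + 1 by omega)
      (show u + 1 ≤ L.length + 1 by omega), sum_eq_zero (s := Ico (y + 1) (u + 1)) fun v hv => by
        rw [H.bs.or1 y u v hu'.1 hu'.2 (by have := mem_Ico.1 hv; omega), mul_zero], zero_add]
  have pa := mul_nonneg (H.p0 y) (H.bs.a0 y)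
  have b1 : |∑ u ∈ Ico y L.length, cP L c y u (u + 1) * ip (F (u + 1)) (d u)| ≤
      f (y + 1) * (4 * p y * a y) := by
    rw [sum_congr rfl fun u hu => by rw [e2 u hu, ← smul_eq_mul, ← map_smul], ← map_sum]
    refine H.bs.cs (W.nn _) (by linarith) (W.tl _ (by omega)) (H.bs.mart hy le_rfl fun u h2 h3 => ?_)
    have g := fun t h4 h5 => H.reg.l0 y (u + 1) t h1 (by omega) h3 h4 h5
    exact abs_LL_le H.mono (Nat.le_succ u) h3 fun t h4 h5 => g t (h2.trans h4) h5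
  have b2 : |∑ u ∈ Ico y L.length, ∑ j ∈ Ico (u + 1) L.length,
      (cP L c y u (j + 1) - cP L c y u j) * ip (F (j + 1)) (d u)| ≤
      p y * a y * ∑ i ∈ Ico j₁ L.length, s i * f (i + 1) := by
    rw [sum_Ico_Ico_comm', mul_sum]
    refine (abs_sum_le_sum_abs _ _).trans ((sum_le_sum fun j hj => ?_).trans
      (sum_le_sum_of_subset_of_nonneg (Ico_subset_Ico_left h1) fun i _ _ =>
        mul_nonneg pa (mul_nonneg (H.s0 i) (W.nn _))))
    have hj' := mem_Ico.1 hj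
    rw [sum_congr rfl fun u _ => by rw [← smul_eq_mul, ← map_smul], ← map_sum]
    refine (H.bs.cs (W.nn _) (mul_nonneg (mul_nonneg (H.p0 y) (H.s0 j)) (H.bs.a0 y))
      (W.tl _ (by omega)) (H.bs.mart hj'.1 hj'.2.le fun u h2 h3 =>
        H.reg.p1 y u j h1 h2 h3 hj'.2)).trans_eq (by ring)
  rw [e1, sum_add_distrib]
  exact (abs_add_le _ _).trans (by linarith)

theorem sum_cut {g : ℕ → ℝ} {j : ℕ} (h : ∀ x < j, g x = 0) (u n : ℕ) :
    ∑ x ∈ Ico u n, g x = ∑ x ∈ Ico (max u j) n, g x :=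
  (sum_subset (Ico_subset_Ico_left (le_max_left _ _)) fun x h1 h2 => h x (by
    rw [mem_Ico] at h1 h2; omega)).symm

theorem Wf.abs_le (W : Wf L j₁ ip δ φ f) (hL : Mono 0 L) (x : ℕ) : |dm L 0 x * φ x| ≤ dm L 0 x := by
  rw [abs_mul, abs_of_nonneg (dm_nonneg hL x)]
  exact mul_le_of_le_one_right (dm_nonneg hL x) (W.le x)

theorem sum_dm_le_one (hL : Mono 0 L) {A : Finset ℕ} (hA : A ⊆ range (L.length + 1)) :
    ∑ t ∈ A, dm L 0 t ≤ 1 := by
  have h1 := sum_dm L 0 L.length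
  rw [ex_length, sub_zero] at h1
  exact h1 ▸ sum_le_sum_of_subset_of_nonneg hA fun i _ _ => dm_nonneg hL i

theorem NH.pi_sum (H : NH L c B j₁ c₀ p s a b ip δ π P) (W : Wf L j₁ ip δ φ f)
    (W' : Wf L j₁ ip δ ψ f') :
    2 * |∑ y ∈ Ico j₁ (L.length + 1), dm L 0 y * ψ y *
      ∑ x ∈ Ico y (L.length + 1), dm L 0 x * φ x * Pt L c ip δ π y x| ≤
      5 * ∑ y ∈ Ico j₁ (L.length + 1), dm L 0 y * (p y * a y) ^ 2 +
      4 * ∑ i ∈ Ico j₁ L.length, s i * f (i + 1) ^ 2 +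
      (∑ i ∈ Ico j₁ L.length, s i * f (i + 1)) ^ 2 := by
  set A := ∑ i ∈ Ico j₁ L.length, s i * f (i + 1)
  have d0 := dm_nonneg H.mono
  rw [← sum_subset (Ico_subset_Ico_right (Nat.le_succ L.length)) fun y h1 h2 => by
    rw [mem_Ico] at h1 h2
    rw [show y = L.length by omega, sum_Ico_succ_top le_rfl, Pt, Ico_self, sum_empty, sum_empty]
    ring]
  have h1 : ∑ y ∈ Ico j₁ L.length, dm L 0 y * (p y * a y) ^ 2 ≤
      ∑ y ∈ Ico j₁ (L.length + 1), dm L 0 y * (p y * a y) ^ 2 :=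
    sum_le_sum_of_subset_of_nonneg (Ico_subset_Ico_right (Nat.le_succ _))
      fun i _ _ => mul_nonneg (d0 i) (sq_nonneg _)
  have h2 := mul_le_mul_of_nonneg_right (sum_dm_le_one H.mono (A := Ico j₁ L.length)
    fun i hi => mem_range.2 ((mem_Ico.1 hi).2.trans (Nat.lt_succ_self _))) (sq_nonneg A)
  have h3 : 2 * |∑ y ∈ Ico j₁ L.length, dm L 0 y * ψ y *
      ∑ x ∈ Ico y (L.length + 1), dm L 0 x * φ x * Pt L c ip δ π y x| ≤
      ∑ y ∈ Ico j₁ L.length, (5 * (dm L 0 y * (p y * a y) ^ 2) + 4 * (s y * f (y + 1) ^ 2) +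
        dm L 0 y * A ^ 2) := by
    refine (mul_le_mul_of_nonneg_left (abs_sum_le_sum_abs _ _) zero_le_two).trans ?_
    rw [mul_sum]
    refine sum_le_sum fun y hy => ?_
    have k1 := mul_le_mul (W'.abs_le H.mono y) (H.pi_bd W (mem_Ico.1 hy).1 (mem_Ico.1 hy).2.le)
      (abs_nonneg _) (d0 y)
    have k2 := mul_le_mul_of_nonneg_right (H.ds y) (sq_nonneg (f (y + 1)))
    have k3 := mul_nonneg (d0 y) (sq_nonneg (p y * a y - f (y + 1)))
    have k4 := mul_nonneg (d0 y) (sq_nonneg (p y * a y - A))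
    rw [abs_mul]
    nlinarith
  simp only [sum_add_distrib, ← mul_sum, ← sum_mul] at h3
  linarith

theorem G2_ip {ip' : LinearMap.BilinForm ℝ V} (u v : ℕ → V) (α β : ℕ → ℝ) (n x y : ℕ) :
    G2 (fun i j => α i * β j * ip' (u i) (v j)) n n x y =
      ip' (∑ i ∈ Ico x n, α i • u i) (∑ j ∈ Ico y n, β j • v j) := by
  simp only [G2, map_sum, LinearMap.sum_apply, map_smul, LinearMap.smul_apply, smul_eq_mul,
    mul_sum]
  rw [sum_comm]
  exact sum_congr rfl fun _ _ => sum_congr rfl fun _ _ => by ring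

theorem NH.off_bd (H : NH L c B j₁ c₀ p s a b ip δ π P) (W : Wf L j₁ ip δ φ f)
    (W' : Wf L j₁ ip δ ψ f') (z : ℕ) :
    |∑ x ∈ Ico (z + 1) (L.length + 1), ∑ k ∈ Ico (z + 1) (L.length + 1),
      dm L 0 x * φ x * (dm L 0 k * ψ k) * (c.off L.length z x k * B.off L.length z x k)| ≤
      c₀ * (f (max (z + 1) j₁) ^ 2 + f' (max (z + 1) j₁) ^ 2) +
      ((∑ i ∈ Ico j₁ L.length, s i * f (i + 1)) ^ 2 + (∑ i ∈ Ico j₁ L.length, s i * f' (i + 1)) ^ 2) +
      ∑ i ∈ Ico j₁ L.length, s i * (f (i + 1) ^ 2 + f' (i + 1) ^ 2) := by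
  have m1 := le_max_left (z + 1) j₁
  have m2 := le_max_right (z + 1) j₁
  rw [sum_cut (j := j₁) fun x hx => by simp [W.lw x hx],
    sum_congr rfl fun x _ => sum_cut (j := j₁) (fun k hk => by simp [W'.lw k hk]) _ _]
  have A3 : 2 * ∑ i ∈ Ico j₁ L.length, s i * (f (i + 1) * f' (i + 1)) ≤
      ∑ i ∈ Ico j₁ L.length, s i * (f (i + 1) ^ 2 + f' (i + 1) ^ 2) := by
    rw [mul_sum]
    exact sum_le_sum fun i _ => by
      nlinarith [mul_nonneg (H.s0 i) (sq_nonneg (f (i + 1) - f' (i + 1)))]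
  generalize max (z + 1) j₁ = m at *
  rcases le_or_gt m L.length with hm | hm
  swap
  · rw [Ico_eq_empty (by omega), sum_empty, abs_zero]
    have := H.c1
    have : 0 ≤ ∑ i ∈ Ico j₁ L.length, s i * (f (i + 1) ^ 2 + f' (i + 1) ^ 2) :=
      sum_nonneg fun i _ => mul_nonneg (H.s0 i) (by positivity)
    positivity
  have h := sq_bd (c.off L.length z) (fun i j => dm L 0 i * φ i * (dm L 0 j * ψ j) *
      ip (P z (δ i)) (P z (δ j))) m2 W.nn W'.nn H.s0 zero_le_one (K := L.length) (k0 := c₀)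
    (fun x hx y hy => by
      rw [G2_ip]
      simp only [← map_smul (P z), ← map_sum (P z)]
      exact H.bs.cs (W.nn _) (W'.nn _) ((H.bs.con _ _).trans (W.tl x (m2.trans hx)))
        ((H.bs.con _ _).trans (W'.tl y (m2.trans hy))))
    (H.reg.o0 z m m m1 m1 m2 m2 hm hm)
    (fun i h1 h2 => by
      rw [one_mul]; exact H.reg.o1 z i m (by omega) m1 (by omega) m2 h2 hm)
    (fun i h1 h2 => by
      have k1 := (H.reg.o1 z i (i + 1) (by omega) (by omega) (by omega) (by omega) h2 h2).1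
      have k2 := (H.reg.o1 z i i (by omega) (by omega) (by omega) (by omega) h2 h2.le).1
      rw [mx, abs_le] at *
      constructor <;> linarith [k1.1, k1.2, k2.1, k2.2])
    fun i j h1 h2 h3 h4 h5 => H.reg.o2 z i j (by omega) (by omega) (by omega) (by omega) h2 h4 h5
  rw [sum_congr rfl fun x hx => sum_congr rfl fun k hk => by
    rw [H.bs.off z x k (by have := mem_Ico.1 hx; omega) (by have := mem_Ico.1 hk; omega)
      (by have := mem_Ico.1 hx; omega) (by have := mem_Ico.1 hk; omega), mul_left_comm]]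
  refine h.trans ?_
  have c1 := H.c1
  have k1 := mul_nonneg (sub_nonneg.2 c1) (sq_nonneg (f m))
  have k2 := mul_nonneg (sub_nonneg.2 c1) (sq_nonneg (f' m))
  have k3 := mul_nonneg (zero_le_one.trans c1) (sq_nonneg (f m - f' m))
  generalize ∑ i ∈ Ico j₁ L.length, s i * f (i + 1) = A1 at *
  generalize ∑ i ∈ Ico j₁ L.length, s i * f' (i + 1) = A2 at *
  nlinarith [sq_nonneg (A1 - f' m), sq_nonneg (A2 - f m), sq_nonneg (A1 - A2)]

theorem NH.off_sum (H : NH L c B j₁ c₀ p s a b ip δ π P) (W : Wf L j₁ ip δ φ f)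
    (W' : Wf L j₁ ip δ ψ f') :
    |∑ z ∈ range L.length, dm L 0 z * ∑ x ∈ Ico (z + 1) (L.length + 1),
      ∑ k ∈ Ico (z + 1) (L.length + 1),
      dm L 0 x * φ x * (dm L 0 k * ψ k) * (c.off L.length z x k * B.off L.length z x k)| ≤
      c₀ * (p j₁ * (f j₁ ^ 2 + f' j₁ ^ 2)) +
      ((∑ i ∈ Ico j₁ L.length, s i * f (i + 1)) ^ 2 + (∑ i ∈ Ico j₁ L.length, s i * f' (i + 1)) ^ 2) +
      2 * c₀ * ∑ i ∈ Ico j₁ L.length, s i * (f (i + 1) ^ 2 + f' (i + 1) ^ 2) := by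
  have d0 := dm_nonneg H.mono
  have c1 := H.c1
  set g : ℕ → ℝ := fun y => f y ^ 2 + f' y ^ 2 with hg
  have g0 : ∀ y, 0 ≤ g y := fun y => by positivity
  have E0 : 0 ≤ ∑ i ∈ Ico j₁ L.length, s i * g (i + 1) :=
    sum_nonneg fun i _ => mul_nonneg (H.s0 i) (g0 _)
  have h1 : ∑ z ∈ range L.length, dm L 0 z * g (max (z + 1) j₁) ≤
      p j₁ * g j₁ + ∑ i ∈ Ico j₁ L.length, s i * g (i + 1) := by
    have : range L.length ⊆ range j₁ ∪ Ico j₁ L.length := fun i hi => by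
      simp only [mem_union, mem_range, mem_Ico] at hi ⊢; omega
    refine (sum_le_sum_of_subset_of_nonneg this fun i _ _ => mul_nonneg (d0 i) (g0 _)).trans ?_
    rw [sum_union (disjoint_left.2 fun i h1 h2 => by
      rw [mem_range] at h1; rw [mem_Ico] at h2; omega)]
    refine add_le_add ?_ (sum_le_sum fun i hi => ?_)
    · rw [sum_congr rfl fun z hz => by rw [max_eq_right (mem_range.1 hz)], ← sum_mul]
      exact mul_le_mul_of_nonneg_right H.low (g0 _)
    · rw [max_eq_left ((mem_Ico.1 hi).1.trans (Nat.le_succ i))]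
      exact mul_le_mul_of_nonneg_right (H.ds i) (g0 _)
  refine (abs_sum_le_sum_abs _ _).trans ((sum_le_sum fun z _ => (abs_mul _ _).trans_le
    (mul_le_mul (abs_of_nonneg (d0 z)).le (H.off_bd W W' z) (abs_nonneg _)
      (d0 z))).trans ?_)
  have h2 := sum_dm_le_one H.mono (A := range L.length) (range_subset_range.2 (Nat.le_succ _))
  simp only [mul_add (dm L 0 _), sum_add_distrib, ← sum_mul, mul_left_comm (dm L 0 _) c₀, ← mul_sum]
  simp only [hg, mul_add (dm L 0 _), sum_add_distrib] at h1 E0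
  have h3 := mul_le_mul_of_nonneg_left h1 (zero_le_one.trans c1)
  have h4 := mul_le_mul_of_nonneg_right (h2.trans c1) E0
  have h5 := mul_le_mul_of_nonneg_right h2 (sq_nonneg (∑ i ∈ Ico j₁ L.length, s i * f (i + 1)))
  have h6 := mul_le_mul_of_nonneg_right h2 (sq_nonneg (∑ i ∈ Ico j₁ L.length, s i * f' (i + 1)))
  linarith

theorem NH.main_bd (H : NH L c B j₁ c₀ p s a b ip δ π P) (W : Wf L j₁ ip δ φ f)
    (W' : Wf L j₁ ip δ ψ f') (hj : j₁ ≤ L.length) :
    |∑ x ∈ Ico j₁ (L.length + 1), ∑ y ∈ Ico j₁ (L.length + 1), sy (LO L c) x y *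
      (dm L 0 x * φ x * (dm L 0 y * ψ y) * ip (δ x) (δ y))| ≤
      7 * (p j₁ * (f j₁ ^ 2 + f' j₁ ^ 2)) + c₀ *
      ((∑ i ∈ Ico j₁ L.length, s i * f (i + 1)) ^ 2 + (∑ i ∈ Ico j₁ L.length, s i * f' (i + 1)) ^ 2) +
      ∑ i ∈ Ico j₁ L.length, s i * (f (i + 1) ^ 2 + f' (i + 1) ^ 2) := by
  have A3 : 2 * ∑ i ∈ Ico j₁ L.length, s i * (f (i + 1) * f' (i + 1)) ≤
      ∑ i ∈ Ico j₁ L.length, s i * (f (i + 1) ^ 2 + f' (i + 1) ^ 2) := by
    rw [mul_sum]
    exact sum_le_sum fun i _ => by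
      nlinarith [mul_nonneg (H.s0 i) (sq_nonneg (f (i + 1) - f' (i + 1)))]
  have p0 := H.p0 j₁
  have h := sq_bd (sy (LO L c)) (fun i j => dm L 0 i * φ i * (dm L 0 j * ψ j) * ip (δ i) (δ j))
    (le_refl j₁) W.nn W'.nn H.s0 p0 (K := L.length) (k0 := 12 * p j₁)
    (fun x hx y hy => by
      rw [G2_ip]; exact H.bs.cs (W.nn _) (W'.nn _) (W.tl x hx) (W'.tl y hy))
    (by
      have g := fun t h4 h5 => H.reg.l0 j₁ j₁ t le_rfl le_rfl hj h4 h5
      have k1 := abs_LL_le H.mono le_rfl hj g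
      have k2 : |dm L 0 j₁ + ex L j₁| ≤ 2 := by
        have := sum_dm_le_one H.mono (A := {j₁}) (by simpa using Nat.lt_succ_of_le hj)
        rw [sum_singleton] at this
        rw [abs_of_nonneg (add_nonneg (dm_nonneg H.mono _) (ex_nonneg H.mono _))]
        have h5 := sum_Ioc_dm hj
        linarith [sum_nonneg fun t (_ : t ∈ Ioc j₁ L.length) => dm_nonneg H.mono t]
      have k3 := mul_le_mul k2 (g j₁ le_rfl (by omega)) (abs_nonneg _) zero_le_two
      rw [sy_le _ le_rfl, LO, cP]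
      refine (abs_add_le _ _).trans ?_
      rw [abs_mul, abs_mul, abs_neg, abs_two]
      linarith)
    (fun i h1 h2 => by
      rw [sy_ge _ (h1.trans (Nat.le_succ i)), sy_ge _ h1, sy_le _ (h1.trans (Nat.le_succ i)),
        sy_le _ h1]
      exact ⟨H.reg.m1 i h1 h2, H.reg.m1 i h1 h2⟩)
    (fun i h1 h2 => by
      have k := H.reg.md i h1 h2
      rw [mx, sy_le _ le_rfl, sy_ge _ (Nat.le_succ i), sy_le _ (Nat.le_succ i), sy_le _ le_rfl]
      rw [abs_le, abs_le] at k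
      rw [abs_le]
      constructor <;> linarith [k.1.1, k.1.2, k.2.1, k.2.2])
    fun i j h1 h2 h3 h4 h5 => by
      rcases lt_or_gt_of_ne h5 with h | h
      · rw [mx, sy_le _ (by omega), sy_le _ (by omega), sy_le _ (by omega), sy_le _ h.le]
        exact H.reg.m2 i j h1 h h4
      · have := H.reg.m2 j i h3 h h2
        rw [mx] at this
        rw [mx, sy_ge _ (by omega), sy_ge _ (by omega), sy_ge _ (by omega), sy_ge _ h.le, mul_comm]
        refine le_of_eq_of_le (congrArg _ (by ring)) this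
  refine h.trans ?_
  have c1 := H.c1
  generalize ∑ i ∈ Ico j₁ L.length, s i * f (i + 1) = A1 at *
  generalize ∑ i ∈ Ico j₁ L.length, s i * f' (i + 1) = A2 at *
  have k1 := mul_le_mul_of_nonneg_right H.pc (add_nonneg (sq_nonneg A1) (sq_nonneg A2))
  have k2 := mul_le_mul_of_nonneg_right c1 (add_nonneg (sq_nonneg A1) (sq_nonneg A2))
  nlinarith [mul_nonneg p0 (sq_nonneg (A1 - f' j₁)), mul_nonneg p0 (sq_nonneg (A2 - f j₁)),
    sq_nonneg (A1 - A2), mul_nonneg p0 (sq_nonneg (f j₁ - f' j₁))]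

theorem NL_eq (hc : c.tr.Eqv c L.length) (hB : B.tr.Eqv B L.length) (hφ : ∀ x < j₁, φ x = 0)
    (hψ : ∀ x < j₁, ψ x = 0) : NL L (((wt φ ψ).mul c).mul B) =
      ∑ x ∈ Ico j₁ (L.length + 1), ∑ y ∈ Ico j₁ (x + 1),
        dm L 0 x * φ x * (dm L 0 y * ψ y) * LO L (c.mul B) y x +
      ∑ y ∈ Ico j₁ (L.length + 1), ∑ x ∈ Ico j₁ y,
        dm L 0 x * φ x * (dm L 0 y * ψ y) * LO L (c.mul B) x y +
      ∑ z ∈ range L.length, dm L 0 z * ∑ x ∈ Ico (z + 1) (L.length + 1),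
        ∑ k ∈ Ico (z + 1) (L.length + 1),
        dm L 0 x * φ x * (dm L 0 k * ψ k) * (c.off L.length z x k * B.off L.length z x k) := by
  simp only [NL, NLx, mul_add, sum_add_distrib, range_eq_Ico, ← Finset.Ico_add_one_add_one_eq_Ioc]
  have z0 : ∀ (g : ℕ → ℝ) (n : ℕ), (∀ x < j₁, g x = 0) → ∑ x ∈ Ico j₁ n, g x = ∑ x ∈ Ico 0 n, g x :=
    fun g n h => by rw [sum_cut h 0, max_eq_right (Nat.zero_le _)]
  congr 1
  · congr 1
    · rw [z0 _ _ fun x hx => by simp [hφ x hx]]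
      refine sum_congr rfl fun x hx => ?_
      rw [z0 _ _ fun y hy => by simp [hψ y hy], mul_sum]
      refine sum_congr rfl fun y hy => ?_
      rw [LO_congr (T' := c.mul B) (κ := φ x * ψ y) (by have := mem_Ico.1 hy; omega)
        (by have := mem_Ico.1 hx; omega)
        (fun t _ _ => by rw [lo_mul, lo_mul, lo_mul, wt_lo, mul_assoc]) rfl rfl]
      ring
    · rw [z0 _ _ fun y hy => by simp [hψ y hy],
        sum_congr rfl fun y _ => z0 _ y fun x hx => by simp [hφ x hx], ← sum_Ico_Ico_comm']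
      refine sum_congr rfl fun x _ => ?_
      rw [mul_sum]
      refine sum_congr rfl fun y hy => ?_
      have h1 : x ≤ y := by have := mem_Ico.1 hy; omega
      have h2 : y ≤ L.length := by have := mem_Ico.1 hy; omega
      rw [LO_congr (T' := c.mul B) (κ := φ x * ψ y) h1 h2 (fun t h3 h4 => by
        rw [show (((wt φ ψ).mul c).mul B).tr = ((wt φ ψ).tr.mul c.tr).mul B.tr from rfl, lo_mul,
          lo_mul, lo_mul, wt_tr_lo, hc.lo h1 h2 h3 h4, hB.lo h1 h2 h3 h4, mul_assoc]) rfl rfl]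
      ring
  · simp only [mul_sum]
    rw [← sum_Ico_Ico_comm', sum_Ico_succ_top (Nat.zero_le _), Ico_self, sum_empty, add_zero]
    refine sum_congr rfl fun z _ => sum_congr rfl fun x _ => sum_congr rfl fun k _ => ?_
    rw [show (((wt φ ψ).mul c).mul B).off L.length z x k =
      φ x * ψ k * c.off L.length z x k * B.off L.length z x k from rfl]
    ring

/-- **(B) the non-local part is small** -/
theorem NH.bd (H : NH L c B j₁ c₀ p s a b ip δ π P) (W : Wf L j₁ ip δ φ f)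
    (W' : Wf L j₁ ip δ ψ f') (hj : j₁ ≤ L.length) :
    |NL L (((wt φ ψ).mul c).mul B)| ≤ 20 * c₀ * Er2 L j₁ p s a b f f' := by
  have d0 := dm_nonneg H.mono
  set ρ : ℕ → ℕ → ℝ := fun y x => LO L (c.mul B) y x - (LO L c y x * ip (δ x) (δ y) -
    2 * Pt L c ip δ π y x) with hρ
  have r0 : ∀ y x, 0 ≤ dm L 0 x * dm L 0 y * (p y * (b y x * a x)) := fun y x =>
    mul_nonneg (mul_nonneg (d0 x) (d0 y)) (mul_nonneg (H.p0 y) (mul_nonneg (H.b0 y x) (H.bs.a0 x)))
  have r1 : ∀ {φ ψ f f' : ℕ → ℝ}, Wf L j₁ ip δ φ f → Wf L j₁ ip δ ψ f' → ∀ n : ℕ → ℕ,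
      (∀ x, n x ≤ x + 1) → |∑ x ∈ Ico j₁ (L.length + 1), ∑ y ∈ Ico j₁ (n x),
        dm L 0 x * φ x * (dm L 0 y * ψ y) * ρ y x| ≤ 8 * ∑ x ∈ Ico j₁ (L.length + 1),
          ∑ y ∈ Ico j₁ (x + 1), dm L 0 x * dm L 0 y * (p y * (b y x * a x)) :=
    fun W W' n hn => by
      rw [mul_sum]
      refine (abs_sum_le_sum_abs _ _).trans (sum_le_sum fun x hx => ?_)
      rw [mul_sum]
      refine (abs_sum_le_sum_abs _ _).trans ((sum_le_sum fun y hy => ?_).trans
        (sum_le_sum_of_subset_of_nonneg (Ico_subset_Ico_right (hn x))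
          fun y _ _ => mul_nonneg (by norm_num) (r0 y x)))
      rw [abs_mul, abs_mul]
      have := hn x
      refine (mul_le_mul (mul_le_mul (W.abs_le H.mono x) (W'.abs_le H.mono y) (abs_nonneg _) (d0 x))
        (H.lo_dec (mem_Ico.1 hy).1 (by have := mem_Ico.1 hy; omega)
          (by have := mem_Ico.1 hx; omega)) (abs_nonneg _) (mul_nonneg (d0 x) (d0 y))).trans_eq
        (by ring)
  have k1 := r1 W W' (· + 1) fun _ => le_rfl
  have k2 := r1 W' W id Nat.le_succ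
  have k3 := H.pi_sum W W'
  have k4 := H.pi_sum W' W
  have k5 := H.main_bd W W' hj
  have k6 := H.off_sum W W'
  have e1 : ∑ x ∈ Ico j₁ (L.length + 1), ∑ y ∈ Ico j₁ (L.length + 1), sy (LO L c) x y *
      (dm L 0 x * φ x * (dm L 0 y * ψ y) * ip (δ x) (δ y)) =
      ∑ x ∈ Ico j₁ (L.length + 1), ∑ y ∈ Ico j₁ (x + 1),
        dm L 0 x * φ x * (dm L 0 y * ψ y) * (LO L c y x * ip (δ x) (δ y)) +
      ∑ y ∈ Ico j₁ (L.length + 1), ∑ x ∈ Ico j₁ y,
        dm L 0 x * φ x * (dm L 0 y * ψ y) * (LO L c x y * ip (δ y) (δ x)) := by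
    rw [← sum_Ico_Ico_comm', ← sum_add_distrib]
    refine sum_congr rfl fun x hx => ?_
    have := mem_Ico.1 hx
    rw [← sum_Ico_consecutive _ (show j₁ ≤ x + 1 by omega) (show x + 1 ≤ L.length + 1 by omega)]
    congr 1
    · exact sum_congr rfl fun y hy => by
        rw [sy_ge _ (by have := mem_Ico.1 hy; omega)]; ring
    · exact sum_congr rfl fun y hy => by
        rw [sy_le _ (by have := mem_Ico.1 hy; omega), H.bs.sym (δ y)]; ring
  have e2 : ∑ y ∈ Ico j₁ (L.length + 1), dm L 0 y * ψ y *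
      ∑ x ∈ Ico y (L.length + 1), dm L 0 x * φ x * Pt L c ip δ π y x =
      ∑ x ∈ Ico j₁ (L.length + 1), ∑ y ∈ Ico j₁ (x + 1),
        dm L 0 x * φ x * (dm L 0 y * ψ y) * Pt L c ip δ π y x := by
    rw [← sum_Ico_Ico_comm]
    exact sum_congr rfl fun y _ => by rw [mul_sum]; exact sum_congr rfl fun x _ => by ring
  have e3 : ∑ x ∈ Ico j₁ (L.length + 1), dm L 0 x * φ x *
      ∑ y ∈ Ico x (L.length + 1), dm L 0 y * ψ y * Pt L c ip δ π x y =
      ∑ y ∈ Ico j₁ (L.length + 1), ∑ x ∈ Ico j₁ y,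
        dm L 0 x * φ x * (dm L 0 y * ψ y) * Pt L c ip δ π x y := by
    rw [← sum_Ico_Ico_comm']
    refine sum_congr rfl fun x hx => ?_
    rw [sum_eq_sum_Ico_succ_bot (mem_Ico.1 hx).2, Pt, Ico_self, sum_empty, mul_zero, zero_add,
      mul_sum]
    exact sum_congr rfl fun y _ => by ring
  have e4 : ∀ y x, LO L (c.mul B) y x = LO L c y x * ip (δ x) (δ y) - 2 * Pt L c ip δ π y x +
    ρ y x := fun y x => by simp only [hρ]; ring
  rw [e1] at k5
  rw [e2] at k3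
  rw [e3] at k4
  simp only [id, mul_comm (dm L 0 _ * ψ _) (dm L 0 _ * φ _)] at k2
  rw [NL_eq H.ctr H.btr W.lw W'.lw, Er2]
  simp only [e4, mul_add (dm L 0 _ * φ _ * _), mul_sub (dm L 0 _ * φ _ * _), sum_add_distrib,
    sum_sub_distrib, mul_left_comm _ (2 : ℝ), ← mul_sum _ _ (2 : ℝ)]
  have c1 := H.c1
  have n1 : 0 ≤ p j₁ * (f j₁ ^ 2 + f' j₁ ^ 2) := mul_nonneg (H.p0 _) (by positivity)
  have n2 : 0 ≤ ∑ i ∈ Ico j₁ L.length, s i * (f (i + 1) ^ 2 + f' (i + 1) ^ 2) :=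
    sum_nonneg fun i _ => mul_nonneg (H.s0 i) (by positivity)
  have n3 : 0 ≤ ∑ y ∈ Ico j₁ (L.length + 1), dm L 0 y * (p y * a y) ^ 2 :=
    sum_nonneg fun i _ => mul_nonneg (d0 i) (sq_nonneg _)
  have n4 : 0 ≤ ∑ x ∈ Ico j₁ (L.length + 1), ∑ y ∈ Ico j₁ (x + 1),
      dm L 0 x * dm L 0 y * (p y * (b y x * a x)) :=
    sum_nonneg fun x _ => sum_nonneg fun y _ => r0 y x
  have n5 : ∑ i ∈ Ico j₁ L.length, s i * (f (i + 1) ^ 2 + f' (i + 1) ^ 2) =
      ∑ i ∈ Ico j₁ L.length, s i * f (i + 1) ^ 2 + ∑ i ∈ Ico j₁ L.length, s i * f' (i + 1) ^ 2 := by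
    simp only [mul_add, sum_add_distrib]
  have m1 := mul_le_mul_of_nonneg_right c1 n1
  have m2 := mul_le_mul_of_nonneg_right c1 n2
  have m3 := mul_le_mul_of_nonneg_right c1 n3
  have m4 := mul_le_mul_of_nonneg_right c1 n4
  have n6 := add_nonneg (sq_nonneg (∑ i ∈ Ico j₁ L.length, s i * f (i + 1)))
    (sq_nonneg (∑ i ∈ Ico j₁ L.length, s i * f' (i + 1)))
  have m5 := mul_le_mul_of_nonneg_right c1 n6
  rw [abs_le] at k1 k2 k5 k6 ⊢
  have k3' := abs_le.1 ((le_div_iff₀' two_pos).2 k3)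
  have k4' := abs_le.1 ((le_div_iff₀' two_pos).2 k4)
  constructor <;> linarith [k1.1, k1.2, k2.1, k2.2, k5.1, k5.2, k6.1, k6.2, k3'.1, k3'.2, k4'.1,
    k4'.2]

end main

end Crest.Agent.T156.Cas.Q75

end
end

-- ▼ part T156/Q2Base_53
section

/-!
# Row 156 (helper53): the martingale structure of the base factor of the two-edge term

`TM_cat`: replicas that all leave one trunk are independent given the path of the trunk.
`baseS`: leaf (C) of `Q2Def_75`.
-/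

set_option autoImplicit false
set_option linter.unusedSectionVars false

noncomputable section

namespace Crest.Agent.T156.Cas.Base53

open Crest.Agent.T157.E Crest.Agent.T157.Casc Crest.Agent.T157.SL
open Nu87 Wt87 Lp12 Sy41 Lad79

variable {Ω : Type} [Fintype Ω] {w : Ω → ℝ}

/-! ### caterpillars -/

/-- independent samples from the node laws along a path -/
def itE (w : Ω → ℝ) (L : List (Lv Ω)) (p : Pth Ω) :
    (r : ℕ) → (Fin r → ℕ) → ((Fin r → Ω) → ℝ) → ℝ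
  | 0, _, F => F Fin.elim0
  | r + 1, j, F => itE w L p r (fun a => j a.succ) fun x =>
      ∑ y, P w (L.drop (j 0)) (p (j 0)) y * F (Fin.cons y x)

theorem cat_ex (hw : Wt w) (L : List (Lv Ω)) (h : Ω → ℝ) : ∀ (r : ℕ) (j : Fin r → ℕ),
    (∀ a, j a ≤ L.length) → ∃ (s : Sh) (a₀ : s.Lf) (e : Fin r → s.Lf), Function.Injective e ∧
      (∀ a, s.shr (e a) a₀ L.length = j a) ∧
      (∀ a b, a ≠ b → s.shr (e a) (e b) L.length = min (j a) (j b)) ∧
      ∀ F : Pth Ω → (Fin r → Ω) → ℝ, (∀ x, EP fun p => F p x) →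
        tF w s L h (fun p x => F (p a₀) fun a => x (e a)) = EE w L h fun p => itE w L p r j (F p)
  | 0, _, _ => ⟨.one, (), Fin.elim0, fun a => a.elim0, fun a => a.elim0, fun a => a.elim0,
      fun F hF => by
        refine Eq.trans ?_ (EE_tF hw L h (hF Fin.elim0)).symm
        congr 1
        funext p x
        congr 1
        funext a
        exact a.elim0⟩
  | r + 1, j, hj => by
      obtain ⟨s, a₀, e, he, h1, h2, h3⟩ := cat_ex hw L h r (fun a => j a.succ) fun a => hj _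
      have k0 : ∀ a, s.shr (e a) a₀ (min (j 0) L.length) = min (j 0) (j a.succ) := fun a => by
        rw [shr_min, h1]
      refine ⟨s.graft a₀ (j 0), s.emb a₀ (j 0) a₀,
        Fin.cons (s.nw a₀ (j 0)) fun a => s.emb a₀ (j 0) (e a), ?_, ?_, ?_, fun F hF => ?_⟩
      · refine Fin.cons_injective_iff.2 ⟨?_, (Tay38.emb_inj s a₀ _).comp he⟩
        rintro ⟨a, ha⟩
        exact Tay38.emb_ne s a₀ _ _ ha
      · refine Fin.cases ?_ fun a => ?_
        · exact (shr_nw' s a₀ _ a₀ _).trans ((shr_self _ _ _).trans (min_eq_left (hj 0)))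
        · exact (shr_emb s a₀ _ _ _ _).trans (h1 a)
      · refine Fin.cases (Fin.cases (fun hh => absurd rfl hh) fun b _ => ?_) fun a =>
          Fin.cases (fun _ => ?_) fun b hh => ?_
        · exact (shr_nw' s a₀ _ _ _).trans (k0 b)
        · exact (shr_nw s a₀ _ _ _).trans ((k0 a).trans (min_comm _ _))
        · exact (shr_emb s a₀ _ _ _ _).trans (h2 a b fun e' => hh (congrArg _ e'))
      · have g := tX_graft hw s a₀ (j 0) L h
          (fun p x y => F (p a₀) (Fin.cons y fun a => x (e a)))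
          fun x y => fun ι _ _ hp => hF _ ι _ (hp a₀)
        have i := h3 (fun p x => ∑ y, P w (L.drop (j 0)) (p (j 0)) y * F p (Fin.cons y x))
          fun x => EP.sum _ fun y _ => (EP.state (eg_P hw _ y) _).mul (hF _)
        refine Eq.trans ?_ (g.trans i)
        refine congrArg (tX w _ L h) (funext fun g => funext fun x => congrArg (F _) ?_)
        funext a
        exact Fin.cases rfl (fun _ => rfl) a

/-- **caterpillar trees** -/
theorem TM_cat (hw : Wt w) (L : List (Lv Ω)) (h : Ω → ℝ) {r : ℕ} (j : Fin r → ℕ)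
    (hj : ∀ a, j a ≤ L.length) {σ : SM r} (h0 : ∀ a, σ a a = L.length)
    (h1 : ∀ a b, a ≠ b → σ a b = min (j a) (j b)) (F : (Fin r → Ω) → ℝ) :
    TM w L h σ F = EE w L h fun p => itE w L p r j F := by
  obtain ⟨s, a₀, e, he, -, h2, h3⟩ := cat_ex hw L h r j hj
  have : σ = sm s e L.length := funext fun a => funext fun b => by
    rcases eq_or_ne a b with rfl | hab
    · exact (h0 a).trans (shr_self _ _ _).symm
    · exact (h1 a b hab).trans (h2 a b hab).symm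
  rw [this, TM_sm hw s L h he]
  exact h3 (fun _ => F) fun _ => EP.const _

/-! ### path functionals -/

section path
variable (w) (L : List (Lv Ω)) (l₀ : Lv Ω)

/-- the mean vector at the node `y` -/
def mP (y : ℕ) (p : Pth Ω) : l₀.ι → ℝ := mv w (L.drop y) l₀ (p y)

/-- `m_y · A - c` -/
def fP (y : ℕ) (c : ℝ) (p : Pth Ω) : Ω → ℝ := fun u => l₀.fld (mP w L l₀ y p) u - c

/-- `m_y · m_t` -/
def MM (y t : ℕ) (p : Pth Ω) : ℝ := Pf w (L.drop t) (p t) (l₀.fld (mP w L l₀ y p))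

variable {w}

theorem MM_eq (y t : ℕ) (p : Pth Ω) :
    MM w L l₀ y t p = ∑ i, mP w L l₀ t p i * mP w L l₀ y p i := Pf_fld _ _ _ _

theorem MM_self (y : ℕ) (p : Pth Ω) : MM w L l₀ y y p = rr w (L.drop y) l₀ (p y) := by
  simp only [MM_eq, rr, sq, mP]

theorem MM_comm (y t : ℕ) (p : Pth Ω) : MM w L l₀ y t p = MM w L l₀ t y p := by
  simp only [MM_eq, mul_comm]

theorem ad_mP {y t : ℕ} (e : y ≤ t) : Ad t (mP w L l₀ y) := Ad.state e (mv w (L.drop y) l₀)

theorem ad_MM {y t u : ℕ} (e : y ≤ u) (e' : t ≤ u) : Ad u (MM w L l₀ y t) :=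
  (Ad.state e' fun z => z).comp₂ (ad_mP L l₀ e) fun z v => Pf w (L.drop t) z (l₀.fld v)

variable (hw : Wt w)
include hw

theorem ep_mP (y : ℕ) (i : l₀.ι) : EP fun p => mP w L l₀ y p i := EP.state (eg_mv hw _ l₀ i) y

theorem ep_MM (y t : ℕ) : EP (MM w L l₀ y t) := by
  have : MM w L l₀ y t = _ := funext (MM_eq L l₀ y t)
  rw [this]
  exact EP.sum _ fun i _ => (ep_mP L l₀ hw t i).mul (ep_mP L l₀ hw y i)

theorem Pf_subc (N : List (Lv Ω)) (z f : Ω → ℝ) (c : ℝ) :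
    Pf w N z (fun u => f u - c) = Pf w N z f - c := by
  simp only [Pf, mul_sub, Finset.sum_sub_distrib, ← Finset.sum_mul, sum_P hw, one_mul]

theorem Pf_fP (y t : ℕ) (c : ℝ) (p : Pth Ω) :
    Pf w (L.drop t) (p t) (fP w L l₀ y c p) = MM w L l₀ y t p - c := Pf_subc hw _ _ _ c

theorem sum_cov (y : ℕ) (c : ℝ) (p : Pth Ω) (u : Ω) :
    ∑ v, P w (L.drop y) (p y) v * (l₀.cov v u - c) = fP w L l₀ y c p u := by
  refine (Pf_subc hw _ _ (fun v => l₀.cov v u) c).trans (congrArg (· - c) ?_)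
  refine (Pf_fld (w := w) (L.drop y) l₀ (p y) (l₀.A u)).trans ?_
  simp only [Lv.fld, mP, mul_comm]

theorem sum_cov' (y : ℕ) (c : ℝ) (p : Pth Ω) (u : Ω) :
    ∑ v, P w (L.drop y) (p y) v * (l₀.cov u v - c) = fP w L l₀ y c p u := by
  rw [← sum_cov L l₀ hw]
  simp only [Lv.cov, mul_comm]

theorem it4 (p : Pth Ω) (a b c d : ℕ) (q q' : ℝ) :
    itE w L p 4 ![a, b, c, d] (fun x => (l₀.cov (x 2) (x 3) - q) * (l₀.cov (x 0) (x 1) - q')) =
      (MM w L l₀ c d p - q) * (MM w L l₀ a b p - q') := by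
  have e : itE w L p 4 ![a, b, c, d]
      (fun x => (l₀.cov (x 2) (x 3) - q) * (l₀.cov (x 0) (x 1) - q')) =
      ∑ y3, P w (L.drop d) (p d) y3 * ∑ y2, P w (L.drop c) (p c) y2 *
        ∑ y1, P w (L.drop b) (p b) y1 * ∑ y0, P w (L.drop a) (p a) y0 *
          ((l₀.cov y2 y3 - q) * (l₀.cov y0 y1 - q')) := rfl
  have e1 : ∀ k : ℝ, ∑ y1, P w (L.drop b) (p b) y1 * ∑ y0, P w (L.drop a) (p a) y0 *
      (k * (l₀.cov y0 y1 - q')) = k * (MM w L l₀ a b p - q') := fun k => by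
    simp only [mul_left_comm _ k, ← Finset.mul_sum, sum_cov L l₀ hw]
    exact congrArg (k * ·) (Pf_fP L l₀ hw a b q' p)
  simp only [e, e1]
  simp only [← mul_assoc, ← Finset.sum_mul, sum_cov L l₀ hw]
  exact congrArg (· * (MM w L l₀ a b p - q')) (Pf_fP L l₀ hw c d q p)

theorem it3 (p : Pth Ω) (a b c : ℕ) (q q' : ℝ) :
    itE w L p 3 ![a, b, c] (fun x => (l₀.cov (x 1) (x 2) - q) * (l₀.cov (x 0) (x 1) - q')) =
      Pf w (L.drop b) (p b) fun u => fP w L l₀ c q p u * fP w L l₀ a q' p u := by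
  have e : itE w L p 3 ![a, b, c]
      (fun x => (l₀.cov (x 1) (x 2) - q) * (l₀.cov (x 0) (x 1) - q')) =
      ∑ y2, P w (L.drop c) (p c) y2 * ∑ y1, P w (L.drop b) (p b) y1 *
        ∑ y0, P w (L.drop a) (p a) y0 * ((l₀.cov y1 y2 - q) * (l₀.cov y0 y1 - q')) := rfl
  have e1 : ∀ (k : ℝ) y1, ∑ y0, P w (L.drop a) (p a) y0 * (k * (l₀.cov y0 y1 - q')) =
      k * fP w L l₀ a q' p y1 := fun k y1 => by
    simp only [mul_left_comm _ k, ← Finset.mul_sum, sum_cov L l₀ hw]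
  simp only [e, e1, Finset.mul_sum]
  rw [Finset.sum_comm, Pf]
  refine Finset.sum_congr rfl fun u _ => ?_
  rw [← sum_cov' L l₀ hw c, Finset.sum_mul, Finset.mul_sum]
  exact Finset.sum_congr rfl fun _ _ => by ring

/-- the martingale property of `t ↦ m_y · m_t` -/
theorem CE_MM {y t t' : ℕ} (e : y ≤ t) (e' : t ≤ t') (p : Pth Ω) :
    CE w L t (MM w L l₀ y t') p = MM w L l₀ y t p :=
  (CE_node hw L e' (ad_mP L l₀ e) (fun v z => Pf w (L.drop t') z (l₀.fld v)) p).trans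
    (node_Pf hw L e' _ _)

theorem orth (h : Ω → ℝ) {y t t' : ℕ} (e : y ≤ t) (e' : t ≤ t') {H : Pth Ω → ℝ} (aH : Ad t H) :
    EE w L h (fun p => H p * (MM w L l₀ y t' p - MM w L l₀ y t p)) = 0 := by
  rw [EE_tower hw t, funext (CE_mul L aH _)]
  simp only [CE_sub hw L t (ep_MM L l₀ hw y t') (ep_MM L l₀ hw y t), CE_MM L l₀ hw e e',
    CE_MM L l₀ hw e le_rfl, sub_self, mul_zero, EE_const hw]

/-! ### conditional second moments -/

theorem Nf_cen {x t : ℕ} (e : x ≤ t) (z f g : Ω → ℝ) (c d : ℝ) :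
    Nf w L x t z (fun u => f u - c) (fun u => g u - d) =
      Nf w L x t z f g - d * Pf w (L.drop x) z f - c * Pf w (L.drop x) z g + c * d := by
  by_cases ht : t ≤ L.length
  · have ef := Hess87.eg_Pf hw (L.drop t) f
    have eg := Hess87.eg_Pf hw (L.drop t) g
    have e1 : (fun z' => Pf w (L.drop t) z' (fun u => f u - c) * Pf w (L.drop t) z' fun u => g u - d) =
        fun z' => Pf w (L.drop t) z' f * Pf w (L.drop t) z' g - d * Pf w (L.drop t) z' f -
          c * Pf w (L.drop t) z' g + c * d := funext fun z' => by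
      rw [Pf_subc hw, Pf_subc hw]; ring
    rw [Nf_le L ht, Nf_le L ht, e1,
      node_add hw (((ef.mul eg).sub (ef.const_mul d)).sub (eg.const_mul c)) (Eg.const _),
      node_sub hw ((ef.mul eg).sub (ef.const_mul d)) (eg.const_mul c),
      node_sub hw (ef.mul eg) (ef.const_mul d), node_const_mul, node_const_mul, node_const hw]
    simp only [node_Pf hw L e]
  · have e1 : ∀ u, P w (L.drop x) z u * ((f u - c) * (g u - d)) =
        P w (L.drop x) z u * (f u * g u) - d * (P w (L.drop x) z u * f u) -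
          c * (P w (L.drop x) z u * g u) + c * d * P w (L.drop x) z u := fun u => by ring
    simp only [Nf_leaf L (not_le.1 ht), Pf, e1, Finset.sum_add_distrib, Finset.sum_sub_distrib,
      ← Finset.mul_sum, sum_P hw, mul_one]

/-- tower property along the path -/
theorem EE_Nf (h : Ω → ℝ) {y x t : ℕ} (e : y ≤ x) (e' : x ≤ t) {f g : Pth Ω → Ω → ℝ}
    (hf : Ad y f) (hg : Ad y g) :
    EE w L h (fun p => Nf w L x t (p x) (f p) (g p)) =
      EE w L h fun p => Nf w L y t (p y) (f p) (g p) := by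
  have := EE_tw hw L h e (hf.comp₂ hg Prod.mk) fun v z => Nf w L x t z v.1 v.2
  simpa only [node_Nf hw L e e'] using this

end path

/-- `E_x [(m_a · A)(m_b · A)]`, meeting level `t` -/
def NN (w : Ω → ℝ) (L : List (Lv Ω)) (l₀ : Lv Ω) (x t a b : ℕ) (p : Pth Ω) : ℝ :=
  Nf w L x t (p x) (l₀.fld (mP w L l₀ a p)) (l₀.fld (mP w L l₀ b p))

section nn
variable (L : List (Lv Ω)) (l₀ : Lv Ω) (hw : Wt w) (h : Ω → ℝ)
include hw

theorem ep_NN (x t a b : ℕ) : EP (NN w L l₀ x t a b) := by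
  have : NN w L l₀ x t a b = _ := funext fun p => Nf_fld hw L l₀ x t (p x) _ _
  rw [this]
  exact EP.sum _ fun i _ => EP.sum _ fun k _ => ((ep_mP L l₀ hw a i).mul (ep_mP L l₀ hw b k)).mul
    (EP.state (eg_Nm hw L l₀ x t i k) x)

theorem NN_le {y x t : ℕ} (e : y ≤ x) (e' : x ≤ t) (hx : x ≤ L.length) :
    EE w L h (fun p => NN w L l₀ x t y y p - NN w L l₀ x x y y p) ≤ Q33.vv w L l₀ h y := by
  have a : Ad y fun p => l₀.fld (mP w L l₀ y p) := (ad_mP L l₀ le_rfl).comp l₀.fld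
  have h1 : EE w L h (NN w L l₀ x t y y) = EE w L h (NN w L l₀ y t y y) := EE_Nf L hw h e e' a a
  have h2 : EE w L h (NN w L l₀ x x y y) = EE w L h (NN w L l₀ y x y y) :=
    EE_Nf L hw h e le_rfl a a
  rw [EE_sub hw L h (ep_NN L l₀ hw _ _ _ _) (ep_NN L l₀ hw _ _ _ _), h1, h2,
    ← EE_sub hw L h (ep_NN L l₀ hw _ _ _ _) (ep_NN L l₀ hw _ _ _ _), Q33.vv, ← EE_node hw]
  refine EE_mono hw L h ((ep_NN L l₀ hw _ _ _ _).sub (ep_NN L l₀ hw _ _ _ _))
    (EP.state (eg_Vq hw _ l₀) y) fun p => ?_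
  have k1 := Nf_mono hw L (e.trans e') (le_max_left t (L.length + 1)) (p y) (l₀.fld (mP w L l₀ y p))
  have k2 := Nf_mono hw L le_rfl e (p y) (l₀.fld (mP w L l₀ y p))
  rw [Nf_leaf L (Nat.lt_of_succ_le (le_max_right _ _))] at k1
  rw [Nf_self L (e.trans hx)] at k2
  simp only [NN, Vq, Cb, mP] at k1 k2 ⊢
  linarith

theorem NN_psd {x t : ℕ} (e' : x ≤ t) (a b : ℕ) (s : ℝ) (p : Pth Ω) :
    0 ≤ (NN w L l₀ x t a a p - NN w L l₀ x x a a p) * (s * s) +
      2 * (NN w L l₀ x t a b p - NN w L l₀ x x a b p) * s +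
      (NN w L l₀ x t b b p - NN w L l₀ x x b b p) := by
  have H := psd_incr hw L l₀ le_rfl e' (p x)
  refine (H.nn fun i => s * mP w L l₀ a p i + mP w L l₀ b p i).trans_eq ?_
  have sy : ∑ i, ∑ k, mP w L l₀ b p i * mP w L l₀ a p k *
      (Nm w L l₀ x t (p x) - Nm w L l₀ x x (p x)) i k = ∑ i, ∑ k, mP w L l₀ a p i * mP w L l₀ b p k *
      (Nm w L l₀ x t (p x) - Nm w L l₀ x x (p x)) i k := by
    rw [Finset.sum_comm]
    exact Finset.sum_congr rfl fun i _ => Finset.sum_congr rfl fun k _ => by rw [H.symm k i]; ring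
  have ex : ∀ c d, NN w L l₀ x t c d p - NN w L l₀ x x c d p = ∑ i, ∑ k,
      mP w L l₀ c p i * mP w L l₀ d p k * (Nm w L l₀ x t (p x) - Nm w L l₀ x x (p x)) i k :=
    fun c d => by simp only [NN, Nf_fld hw, Pi.sub_apply, mul_sub, Finset.sum_sub_distrib]
  rw [ex, ex, ex, two_mul, add_mul]
  nth_rw 2 [← sy]
  simp only [Finset.sum_mul, ← Finset.sum_add_distrib]
  exact Finset.sum_congr rfl fun i _ => Finset.sum_congr rfl fun k _ => by ring


theorem cen_sub {x t : ℕ} (e' : x ≤ t) (a b : ℕ) (c d : ℝ) (p : Pth Ω) :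
    Nf w L x t (p x) (fP w L l₀ a c p) (fP w L l₀ b d p) =
      Nf w L x x (p x) (fP w L l₀ a c p) (fP w L l₀ b d p) +
        (NN w L l₀ x t a b p - NN w L l₀ x x a b p) := by
  unfold fP NN
  rw [Nf_cen L hw e', Nf_cen L hw le_rfl]
  ring

theorem cen_self {x : ℕ} (hx : x ≤ L.length) (a b : ℕ) (c d : ℝ) (p : Pth Ω) :
    Nf w L x x (p x) (fP w L l₀ a c p) (fP w L l₀ b d p) =
      (MM w L l₀ a x p - c) * (MM w L l₀ b x p - d) := by
  rw [Nf_self L hx, Pf_fP L l₀ hw, Pf_fP L l₀ hw]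

omit hw in
theorem ad_fP {y t : ℕ} (e : y ≤ t) {c : Pth Ω → ℝ} (hc : Ad t c) :
    Ad t fun p => fP w L l₀ y (c p) p :=
  (ad_mP L l₀ e).comp₂ hc fun v c u => l₀.fld v u - c

/-! ### the entries of the base factor -/

open Q75

theorem lo_four (q : ℕ → ℝ) {y x t : ℕ} (e : y ≤ x) (e' : y ≤ t) (hx : x ≤ L.length)
    (ht : t ≤ L.length) : (ee w L h (uK l₀ q) (uK l₀ q)).lo L.length y x t =
      EE w L h fun p => (MM w L l₀ (max t x) x p - q x) * (MM w L l₀ t y p - q y) := by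
  rw [Tw.lo, if_neg (by omega)]
  refine (TM_cat hw L h ![t, y, max t x, x] (fun a => ?_) (fun a => ?_) (fun a b hab => ?_) _).trans
    (congrArg (EE w L h) (funext fun p => it4 L l₀ hw p _ _ _ _ _ _))
  · fin_cases a <;> simp <;> omega
  · fin_cases a <;> rfl
  · fin_cases a <;> fin_cases b <;> simp [m4] at hab ⊢ <;> omega

theorem lo_three (q : ℕ → ℝ) {y x : ℕ} (e : y ≤ x) (hx : x ≤ L.length) :
    (ee w L h (uK l₀ q) (uK l₀ q)).lo L.length y x (L.length + 1) =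
      EE w L h fun p => Pf w (L.drop L.length) (p L.length)
        fun u => fP w L l₀ x (q x) p u * fP w L l₀ y (q y) p u := by
  rw [Tw.lo, if_pos rfl]
  refine (TM_cat hw L h ![y, L.length, x] (fun a => ?_) (fun a => ?_) (fun a b hab => ?_) _).trans
    (congrArg (EE w L h) (funext fun p => it3 L l₀ hw p _ _ _ _ _))
  · fin_cases a <;> simp <;> omega
  · fin_cases a <;> rfl
  · fin_cases a <;> fin_cases b <;> simp [m3] at hab ⊢ <;> omega

theorem lo_high (q : ℕ → ℝ) {y x t : ℕ} (e : y ≤ x) (e' : x < t) (hx : x ≤ L.length)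
    (ht : t ≤ L.length + 1) : (ee w L h (uK l₀ q) (uK l₀ q)).lo L.length y x t =
      EE w L h fun p => Nf w L x t (p x) (fP w L l₀ x (q x) p) (fP w L l₀ y (q y) p) := by
  have a1 := ad_fP (w := w) L l₀ (le_refl x) (Ad.const x (q x))
  have a2 := ad_fP (w := w) L l₀ e (Ad.const x (q y))
  rcases ht.eq_or_lt with rfl | ht
  · rw [lo_three L l₀ hw h q e hx, ← EE_Nf L hw h hx (Nat.le_succ _) a1 a2]
    simp only [Nf_leaf L (Nat.lt_succ_self _)]
  · have ht' : t ≤ L.length := by omega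
    rw [lo_four L l₀ hw h q e (by omega) hx ht', ← EE_Nf L hw h e'.le le_rfl a1 a2]
    simp only [cen_self L l₀ hw ht', max_eq_left e'.le, MM_comm L l₀ t]

theorem CE_del (c : ℝ) {z x : ℕ} (e : z ≤ x) (p : Pth Ω) :
    CE w L z (fun p => MM w L l₀ x x p - c) p =
      pi2 w (L.drop z) (x - z) (fun u v => l₀.cov u v - c) (p z) := by
  have := CE_node hw L e (Ad.const z ()) (fun _ s => rr w (L.drop x) l₀ s - c) p
  simp only [MM_self]
  rw [this, pi2, List.drop_drop, Nat.add_sub_cancel' e]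
  refine congrArg (fun F => node w (L.drop z) (x - z) F (p z)) (funext fun s => ?_)
  have h1 := MM_self (w := w) L l₀ x fun _ => s
  have h2 := Pf_fP L l₀ hw x x c fun _ => s
  have h3 := sum_cov' L l₀ hw x c fun _ => s
  rw [← h1, ← h2]
  simp only [qf, Pf, ← h3, Finset.mul_sum, mul_assoc]

theorem off_eq (q : ℕ → ℝ) {z x k : ℕ} (e : z < x) (e' : z < k) (hx : x ≤ L.length)
    (hk : k ≤ L.length) : (ee w L h (uK l₀ q) (uK l₀ q)).off L.length z x k =
      EE w L h fun p => CE w L z (fun p => MM w L l₀ x x p - q x) p *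
        CE w L z (fun p => MM w L l₀ k k p - q k) p := by
  simp only [CE_del L l₀ hw _ e.le, CE_del L l₀ hw _ e'.le]
  rw [EE_node hw fun s => pi2 w (L.drop z) (x - z) (fun u v => l₀.cov u v - q x) s *
    pi2 w (L.drop z) (k - z) (fun u v => l₀.cov u v - q k) s]
  set s : Sh := .split (Sh.two (k - z)) (Sh.two (x - z)) with hs
  let d : Fin 4 → s.Lf := ![.inl (Sh.twoL _), .inl (Sh.twoR _), .inr (Sh.twoL _), .inr (Sh.twoR _)]
  have ne : ∀ j, Sh.twoL j ≠ Sh.twoR j := fun j => Tay38.emb_ne .one () j ()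
  have t1 : ∀ j, z < j → j ≤ L.length →
      (Sh.two (j - z)).shr (Sh.twoL _) (Sh.twoR _) (L.length - z) = j - z := fun j h1 h2 => by
    rw [shr_two]; omega
  have hd : Function.Injective d := by
    intro a b hab
    fin_cases a <;> fin_cases b <;> first
      | rfl
      | exact absurd hab Sum.inl_ne_inr
      | exact absurd hab Sum.inr_ne_inl
      | exact absurd (Sum.inl_injective hab) (ne _)
      | exact absurd (Sum.inl_injective hab) (ne _).symm
      | exact absurd (Sum.inr_injective hab) (ne _)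
      | exact absurd (Sum.inr_injective hab) (ne _).symm
  have hσ : m4 L.length k x z z z z = sm (stp z s) (fun a => stpL z s (d a)) L.length := by
    funext a b
    have e0 : L.length = L.length - z + z := by omega
    have k1 := t1 k e' hk
    have k2 := (shr_comm _ _ _ _).trans (t1 k e' hk)
    have k3 := t1 x e hx
    have k4 := (shr_comm _ _ _ _).trans (t1 x e hx)
    rw [sm, e0, shr_stp, ← e0]
    fin_cases a <;> fin_cases b <;> first
      | exact e0.trans (congrArg (· + z) (shr_self _ _ _).symm)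
      | exact (zero_add z).symm
      | exact (Nat.sub_add_cancel e'.le).symm.trans (congrArg (· + z) k1.symm)
      | exact (Nat.sub_add_cancel e'.le).symm.trans (congrArg (· + z) k2.symm)
      | exact (Nat.sub_add_cancel e.le).symm.trans (congrArg (· + z) k3.symm)
      | exact (Nat.sub_add_cancel e.le).symm.trans (congrArg (· + z) k4.symm)
  have e1 : (ee w L h (uK l₀ q) (uK l₀ q)).off L.length z x k = TM w L h (m4 L.length k x z z z z)
      fun u => (l₀.cov (u 2) (u 3) - q x) * (l₀.cov (u 0) (u 1) - q k) := rfl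
  rw [e1, hσ, TM_sm hw _ L h (e := fun a => stpL z s (d a)) ((stpL_inj z s).comp hd)]
  refine (TE_stp hw s (fun u => (l₀.cov (u (d 2)) (u (d 3)) - q x) *
    (l₀.cov (u (d 0)) (u (d 1)) - q k)) z L h).trans ?_
  refine congrArg (fun F => node w L z F h) (funext fun y => ?_)
  have p1 := TE_pair hw (Sh.two (x - z)) (L.drop z) y (ne _) fun u v => l₀.cov u v - q x
  have p2 := TE_pair hw (Sh.two (k - z)) (L.drop z) y (ne _) fun u v => l₀.cov u v - q k
  rw [List.length_drop, t1 x e hx] at p1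
  rw [List.length_drop, t1 k e' hk] at p2
  rw [← p1, ← p2, ← Law.TE_const_mul hw]
  refine (Law.TE_split hw _ _ _ y _).trans (congrArg (TE w _ _ y) (funext fun u => ?_))
  exact Law.TE_mul_const hw (Sh.two (x - z)) _ y
    (l₀.cov (u (Sh.twoL _)) (u (Sh.twoR _)) - q k)
    fun v => l₀.cov (v (Sh.twoL _)) (v (Sh.twoR _)) - q x

theorem CE_sq_le {F : Pth Ω → ℝ} (hF : EP F) (z : ℕ) :
    EE w L h (fun p => CE w L z F p * CE w L z F p) ≤ EE w L h fun p => F p * F p := by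
  have c := ep_CE hw L z hF
  have h1 : EE w L h (fun p => CE w L z F p * F p) =
      EE w L h fun p => CE w L z F p * CE w L z F p := by
    rw [EE_tower hw z, funext (CE_mul L (ad_CE L z F) F)]
  have h2 := EE_le2 hw L h (c.mul hF) (c.mul c) (hF.mul hF) (a := 1 / 2) (b := 1 / 2)
    fun p => by nlinarith [sq_nonneg (CE w L z F p - F p)]
  linarith

theorem pi_sq_le {y : ℕ} (hy : y ≤ L.length) :
    EE w L h (fun p => (MM w L l₀ y L.length p - MM w L l₀ y y p) *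
      (MM w L l₀ y L.length p - MM w L l₀ y y p)) ≤ Q33.vv w L l₀ h y := by
  have a := ad_fP (w := w) L l₀ (le_refl y) (ad_MM (w := w) L l₀ (le_refl y) le_rfl)
  have h1 := EE_Nf L hw h hy le_rfl a a
  simp only [cen_self L l₀ hw le_rfl, cen_sub L l₀ hw hy, cen_self L l₀ hw hy, sub_self, mul_zero,
    zero_add] at h1
  rw [h1]
  exact NN_le L l₀ hw h le_rfl hy hy

end nn

/-! ### the space -/

/-- admissible path functionals -/
def VV (Ω : Type) [Fintype Ω] : Submodule ℝ (Pth Ω → ℝ) where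
  carrier := {F | EP F}
  add_mem' := fun h h' => EP.add h h'
  zero_mem' := EP.const 0
  smul_mem' := fun c _ h => EP.const_mul c h

/-- `E F G` -/
def ipE (hw : Wt w) (L : List (Lv Ω)) (h : Ω → ℝ) : LinearMap.BilinForm ℝ (VV Ω) :=
  LinearMap.mk₂ ℝ (fun F G => EE w L h fun p => F.1 p * G.1 p)
    (fun F F' G => by
      rw [← EE_add hw L h (EP.mul F.2 G.2) (EP.mul F'.2 G.2)]
      simp only [Submodule.coe_add, Pi.add_apply, add_mul])
    (fun c F G => by
      simp only [Submodule.coe_smul, Pi.smul_apply, smul_eq_mul, mul_assoc, EE_const_mul])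
    (fun F G G' => by
      rw [← EE_add hw L h (EP.mul F.2 G.2) (EP.mul F.2 G'.2)]
      simp only [Submodule.coe_add, Pi.add_apply, mul_add])
    fun c F G => by
      simp only [Submodule.coe_smul, Pi.smul_apply, smul_eq_mul, mul_left_comm _ c, EE_const_mul]

theorem ipE_eq (hw : Wt w) (L : List (Lv Ω)) (h : Ω → ℝ) (F G : VV Ω) :
    ipE hw L h F G = EE w L h fun p => F.1 p * G.1 p := rfl

/-- conditional expectation -/
def PE (hw : Wt w) (L : List (Lv Ω)) (z : ℕ) : VV Ω →ₗ[ℝ] VV Ω where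
  toFun F := ⟨CE w L z F.1, ep_CE hw L z F.2⟩
  map_add' F G := Subtype.ext (funext fun p => CE_add hw L z F.2 G.2 p)
  map_smul' c F := Subtype.ext (funext fun p => CE_const_mul L z c F.1 p)

end Crest.Agent.T156.Cas.Base53

namespace Crest.Agent.T156.Cas.Q75

open Crest.Agent.T157.E Crest.Agent.T157.Casc Crest.Agent.T157.SL
open Lp12 Base53


end Crest.Agent.T156.Cas.Q75

end
end

-- ▼ part T156/Q2BaseB_53
section

/-!
# Row 156 (helper53): the base factor of the two-edge term, refined form (`Eg33.vt`)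
-/

set_option autoImplicit false
set_option linter.unusedSectionVars false

noncomputable section

namespace Crest.Agent.T156.Cas.Base53

open Crest.Agent.T157.E Crest.Agent.T157.Casc Crest.Agent.T157.SL
open Nu87 Wt87 Lp12 Sy41 Lad79 Q75
open Eg33 (vt vz Cf Cc)

variable {Ω : Type} [Fintype Ω] {w : Ω → ℝ}
variable (L : List (Lv Ω)) (l₀ : Lv Ω) (hw : Wt w) (h : Ω → ℝ)
include hw

theorem vt_anti {y i j : ℕ} (hi : y ≤ i) (hj : i ≤ j) : vt w L l₀ h y j ≤ vt w L l₀ h y i :=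
  node_mono hw (Eg33.eg_vz hw L l₀ y j) (Eg33.eg_vz hw L l₀ y i) (Eg33.vz_anti hw L l₀ hi hj) L y h

theorem Cf_le_vz (y x : ℕ) (z : Ω → ℝ) :
    Cf w L y x (l₀.fld (mv w (L.drop y) l₀ z)) (l₀.fld (mv w (L.drop y) l₀ z)) z ≤
      vz w L l₀ y x z := by
  have := Eg33.tr_Cc_nonneg hw L l₀ y x z
    (M := fun i k => Cb w (L.drop y) z (fun u => l₀.A u i) fun u => l₀.A u k) fun v => by
      rw [← Cb_fld]; exact Hess87.Cb_nonneg hw _ z _
  rw [Eg33.vz_eq hw, Eg33.Cf_fld hw]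
  simp only [Cb_A, sub_mul, Finset.sum_sub_distrib] at this
  linarith

theorem NN_le' {y x t : ℕ} (e : y ≤ x) (e' : x ≤ t) (hx : x ≤ L.length) :
    EE w L h (fun p => NN w L l₀ x t y y p - NN w L l₀ x x y y p) ≤ vt w L l₀ h y x := by
  have a : Ad y fun p => l₀.fld (mP w L l₀ y p) := (ad_mP L l₀ le_rfl).comp l₀.fld
  have h1 : EE w L h (NN w L l₀ x t y y) = EE w L h (NN w L l₀ y t y y) := EE_Nf L hw h e e' a a
  have h2 : EE w L h (NN w L l₀ x x y y) = EE w L h (NN w L l₀ y x y y) :=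
    EE_Nf L hw h e le_rfl a a
  rw [EE_sub hw L h (ep_NN L l₀ hw _ _ _ _) (ep_NN L l₀ hw _ _ _ _), h1, h2,
    ← EE_sub hw L h (ep_NN L l₀ hw _ _ _ _) (ep_NN L l₀ hw _ _ _ _), vt, ← EE_node hw]
  refine EE_mono hw L h ((ep_NN L l₀ hw _ _ _ _).sub (ep_NN L l₀ hw _ _ _ _))
    (EP.state (Eg33.eg_vz hw L l₀ y x) y) fun p => ?_
  have k1 := Nf_mono hw L (e.trans e') (le_max_left t (L.length + 1)) (p y) (l₀.fld (mP w L l₀ y p))
  have k2 := Nf_leaf_sub hw L e hx (Nat.lt_of_succ_le (le_max_right t (L.length + 1))) (p y)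
    (l₀.fld (mP w L l₀ y p)) (l₀.fld (mP w L l₀ y p))
  have k3 := Cf_le_vz L l₀ hw y x (p y)
  simp only [NN, Cf, mP] at k1 k2 k3 ⊢
  linarith

theorem abs_NN_gen {y x t : ℕ} (e' : x ≤ t) {A B : ℝ}
    (h1 : EE w L h (fun p => NN w L l₀ x t x x p - NN w L l₀ x x x x p) ≤ A)
    (h2 : EE w L h (fun p => NN w L l₀ x t y y p - NN w L l₀ x x y y p) ≤ B) :
    |EE w L h (fun p => NN w L l₀ x t x y p - NN w L l₀ x x x y p)| ≤ √B * √A := by
  have d := fun a b => (ep_NN L l₀ hw x t a b).sub (ep_NN L l₀ hw x x a b)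
  have key : ∀ s : ℝ, 0 ≤ A * (s * s) +
      2 * EE w L h (fun p => NN w L l₀ x t x y p - NN w L l₀ x x x y p) * s + B := fun s => by
    have k := EE_nonneg (w := w) L h (NN_psd L l₀ hw e' x y s)
    simp only [mul_comm _ (s * s), mul_comm _ s, ← mul_assoc s 2] at k
    rw [EE_add hw L h (((d x x).const_mul _).add ((d x y).const_mul _)) (d y y),
      EE_add hw L h ((d x x).const_mul _) ((d x y).const_mul _), EE_const_mul, EE_const_mul] at k
    nlinarith [mul_le_mul_of_nonneg_left h1 (mul_self_nonneg s)]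
  have k := discrim_le_zero key
  have k0 := key 0
  rw [discrim] at k
  rw [← Real.sqrt_mul (by linarith)]
  exact Real.abs_le_sqrt (by nlinarith)

theorem vv_le_vt (y : ℕ) : Q33.vv w L l₀ h y ≤ vt w L l₀ h y y :=
  node_mono hw (eg_Vq hw _ l₀) (Eg33.eg_vz hw L l₀ y y) (fun z => by
    rw [Eg33.vz_self hw]
    exact le_add_of_nonneg_left (Finset.sum_nonneg fun _ _ => Finset.sum_nonneg fun _ _ =>
      sq_nonneg _)) L y h

/-- `δ_x = ρ_x - q_x` -/
def dV (q : ℕ → ℝ) (x : ℕ) : VV Ω :=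
  ⟨fun p => MM w L l₀ x x p - q x, (ep_MM L l₀ hw x x).sub (EP.const _)⟩

/-- `π_{y,t} = m_y · (m_t - m_y)` -/
def pV (y t : ℕ) : VV Ω :=
  ⟨fun p => MM w L l₀ y t p - MM w L l₀ y y p, (ep_MM L l₀ hw y t).sub (ep_MM L l₀ hw y y)⟩

theorem ip_sp (q : ℕ → ℝ) (x y t : ℕ) : ipE hw L h (dV L l₀ hw q x) (dV L l₀ hw q y) +
    ipE hw L h (dV L l₀ hw q x) (pV L l₀ hw y t) =
    EE w L h fun p => (MM w L l₀ x x p - q x) * (MM w L l₀ y t p - q y) := by
  rw [← map_add, ipE_eq]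
  exact congrArg (EE w L h) (funext fun p => by simp [dV, pV])

/-- (lo3) -/
theorem lo3 (q : ℕ → ℝ) {y x t : ℕ} (h1 : y ≤ x) (h2 : x < t) (h3 : t ≤ L.length + 1)
    (h4 : x ≤ L.length) : |(ee w L h (uK l₀ q) (uK l₀ q)).lo L.length y x t -
      (ipE hw L h (dV L l₀ hw q x) (dV L l₀ hw q y) +
        ipE hw L h (dV L l₀ hw q x) (pV L l₀ hw y x))| ≤
      √(vt w L l₀ h y x) * √(vt w L l₀ h x x) := by
  have d := (ep_NN L l₀ hw x t x y).sub (ep_NN L l₀ hw x x x y)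
  have eM := ep_MM L l₀ hw
  rw [lo_high L l₀ hw h q h1 h2 h4 h3, ip_sp]
  simp only [cen_sub L l₀ hw h2.le, cen_self L l₀ hw h4]
  rw [EE_add hw L h (((eM x x).sub (EP.const _)).mul ((eM y x).sub (EP.const _))) d,
    add_sub_cancel_left]
  exact abs_NN_gen L l₀ hw h h2.le (NN_le' L l₀ hw h le_rfl h2.le h4) (NN_le' L l₀ hw h h1 h2.le h4)

/-- the martingale structure with `a² = vt y y` -/
theorem bs (q : ℕ → ℝ) : Bs L.length (ee w L h (uK l₀ q) (uK l₀ q)) (ipE hw L h) (dV L l₀ hw q)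
    (pV L l₀ hw) (PE hw L) fun y => √(vt w L l₀ h y y) := by
  refine ⟨fun u v => ?_, fun u => ?_, fun y => Real.sqrt_nonneg _,
    fun y x t h1 h2 h3 => ?_, fun y x t h1 h2 h3 h4 => ?_, fun y => ?_, fun y t v h1 _ h3 => ?_,
    fun y t u h1 h2 _ => ?_, fun y hy => ?_, fun z x k h1 h2 h3 h4 => ?_, fun z u => ?_⟩
  · simp only [ipE_eq, mul_comm]
  · exact EE_nonneg L h fun p => mul_self_nonneg _
  · rw [lo_four L l₀ hw h q (h1.trans h2) h1 h3 (h2.trans h3), max_eq_right h2, ip_sp]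
    simp only [MM_comm L l₀ t]
  · exact (lo3 L l₀ hw h q h1 h2 h3 h4).trans (mul_le_mul_of_nonneg_right
      (Real.sqrt_le_sqrt (vt_anti L l₀ hw h le_rfl h1)) (Real.sqrt_nonneg _))
  · exact Subtype.ext (funext fun p => sub_self _)
  · refine Eq.trans ?_ (orth L l₀ hw h h1 (Nat.le_succ t)
      ((ad_MM (w := w) L l₀ h3 h3).comp (· - q v)))
    exact congrArg (EE w L h) (funext fun p => by simp [dV, pV])
  · refine Eq.trans ?_ (orth L l₀ hw h (h1.trans h2) (Nat.le_succ t)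
      ((ad_MM (w := w) L l₀ (h1.trans h2) h2).comp₂
        (ad_MM (w := w) L l₀ (h1.trans h2) (h1.trans h2)) (· - ·)))
    exact congrArg (EE w L h) (funext fun p => by simp [pV])
  · rw [Real.sq_sqrt (Eg33.vt_nonneg hw L l₀ h y y)]
    exact (pi_sq_le L l₀ hw h hy).trans (vv_le_vt L l₀ hw h y)
  · exact off_eq L l₀ hw h q h1 h2 h3 h4
  · exact CE_sq_le L hw h u.2 z

/-- norms of linear combinations, any index set -/
theorem ip_sum (q c : ℕ → ℝ) (S : Finset ℕ) :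
    ipE hw L h (∑ x ∈ S, c x • dV L l₀ hw q x) (∑ x ∈ S, c x • dV L l₀ hw q x) =
      EE w L h fun p => (∑ x ∈ S, c x * (rr w (L.drop x) l₀ (p x) - q x)) ^ 2 := by
  rw [ipE_eq]
  refine congrArg (EE w L h) (funext fun p => ?_)
  simp only [Submodule.coe_sum, Finset.sum_apply, Submodule.coe_smul, Pi.smul_apply, smul_eq_mul,
    MM_self, dV, sq]

theorem qf_uK (q : ℕ → ℝ) (x : ℕ) (z : Ω → ℝ) :
    qf (P w (L.drop x) z) (uK l₀ q x) = rr w (L.drop x) l₀ z - q x := by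
  have h1 := MM_self (w := w) L l₀ x fun _ => z
  have h2 := Pf_fP L l₀ hw x x (q x) fun _ => z
  have h3 := sum_cov' L l₀ hw x (q x) fun _ => z
  rw [← h1, ← h2]
  simp only [qf, Pf, ← h3, Finset.mul_sum, mul_assoc, uK]

theorem ip_sum_pE (q c : ℕ → ℝ) (S : Finset ℕ) :
    ipE hw L h (∑ x ∈ S, c x • dV L l₀ hw q x) (∑ x ∈ S, c x • dV L l₀ hw q x) =
      pE w L h fun g _ => (∑ x ∈ S, c x * qf (P w (L.drop x) (st L x h g)) (uK l₀ q x)) ^ 2 := by
  rw [ip_sum, EE_eq hw L h ((EP.sum _ fun x _ => ((EP.state (eg_rr hw _ l₀) x).sub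
    (EP.const _)).const_mul _).pow 2)]
  simp only [qf_uK L l₀ hw]

/-! ### both edges at one node -/

theorem TM_Tc {r : ℕ} {σ : SM r} (hσ : Rz L.length σ) (q : ℝ) {x : ℕ} {a b a' b' : Fin r}
    (hne : ∀ p, p = a ∨ p = b → ∀ p', p' = a' ∨ p' = b' → p ≠ p')
    (hx : ∀ p, p = a ∨ p = b → ∀ p', p' = a' ∨ p' = b' → σ p p' = x) :
    TM w L h σ (fun u => (l₀.cov (u a) (u a') - q) * (l₀.cov (u b) (u b') - q)) =
      Tc w L l₀ h q x (if a = b then L.length + 1 else σ a b)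
        (if a' = b' then L.length + 1 else σ a' b') := by
  obtain ⟨s, e, rfl⟩ := hσ
  have lv : ∀ c d : Fin r, lev s L.length (e c) (e d) =
      if c = d then L.length + 1 else sm s e L.length c d := fun c d => by
    split_ifs with k
    · rw [k, lev_self]
    · exact lev_ne s _ fun k' => k (e.injective k')
  rw [TM_sm hw s L h e.injective, ← lv, ← lv]
  refine TE_Tc hw s L l₀ h q ?_ ?_
  · rintro p (rfl | rfl) p' (rfl | rfl) k
    exacts [hne _ (.inl rfl) _ (.inl rfl) (e.injective k), hne _ (.inl rfl) _ (.inr rfl) (e.injective k),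
      hne _ (.inr rfl) _ (.inl rfl) (e.injective k), hne _ (.inr rfl) _ (.inr rfl) (e.injective k)]
  · rintro p (rfl | rfl) p' (rfl | rfl)
    exacts [hx _ (.inl rfl) _ (.inl rfl), hx _ (.inl rfl) _ (.inr rfl),
      hx _ (.inr rfl) _ (.inl rfl), hx _ (.inr rfl) _ (.inr rfl)]

omit hw in
theorem Tc_symm (q : ℝ) (x t t' : ℕ) : Tc w L l₀ h q x t t' = Tc w L l₀ h q x t' t := by
  simp only [Tc, T2_symm L l₀ h x t]

theorem sn3 (q : ℕ → ℝ) {x t : ℕ} (h1 : x ≤ t) (h2 : t ≤ L.length) :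
    (ee w L h (uK l₀ q) (uK l₀ q)).f3 (m3 L.length x t x) =
      Tc w L l₀ h (q x) x (L.length + 1) t := by
  have := TM_Tc L l₀ hw h (rz_sn3 h1 h2) (q x) (x := x) (a := 1) (b := 1) (a' := 2) (b' := 0)
    (by rintro p (rfl | rfl) p' (rfl | rfl) <;> decide)
    (by rintro p (rfl | rfl) p' (rfl | rfl) <;> rfl)
  rw [if_pos rfl, if_neg (by decide)] at this
  refine Eq.trans (congrArg (TM w L h _) (funext fun u => ?_)) this
  show (l₀.cov (u 1) (u 2) - q x) * (l₀.cov (u 0) (u 1) - q x) = _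
  simp only [Lv.cov, mul_comm]

theorem sN_Tc (q : ℕ → ℝ) {x t t' : ℕ} (h1 : x ≤ t) (h2 : t ≤ L.length + 1) (h3 : x ≤ t')
    (h4 : t' ≤ L.length + 1) (hx : x ≤ L.length) :
    (ee w L h (uK l₀ q) (uK l₀ q)).sN L.length x t t' = Tc w L l₀ h (q x) x t t' := by
  rw [Tw.sN]
  split_ifs with k k' k'
  · have := TM_Tc L l₀ hw h (rz_tw L.length x) (q x) (x := x) (a := 0) (b := 0) (a' := 1) (b' := 1)
      (by rintro p (rfl | rfl) p' (rfl | rfl) <;> decide)
      (by rintro p (rfl | rfl) p' (rfl | rfl) <;> exact tw_01 hx)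
    rw [if_pos rfl, if_pos rfl] at this
    rw [k, k', ← this]
    refine congrArg (TM w L h _) (funext fun u => ?_)
    simp only [ed, uK, tw_01 hx]
  · rw [k, sn3 L l₀ hw h q h3 (by omega)]
  · rw [k', sn3 L l₀ hw h q h1 (by omega), Tc_symm]
  · have := TM_Tc L l₀ hw h (rz_sn4 h1 (show t ≤ L.length by omega) h3 (show t' ≤ L.length by omega))
      (q x) (x := x) (a := 2) (b := 0) (a' := 3) (b' := 1)
      (by rintro p (rfl | rfl) p' (rfl | rfl) <;> decide)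
      (by rintro p (rfl | rfl) p' (rfl | rfl) <;> rfl)
    rw [if_neg (by decide), if_neg (by decide)] at this
    exact this

theorem vt_eq {x t : ℕ} (h1 : x ≤ t) (h2 : t ≤ L.length) : vt w L l₀ h x t =
    T2 w L l₀ h x (L.length + 1) (L.length + 1) - T2 w L l₀ h x (L.length + 1) t := by
  have e := fun y y' => eg_tr hw l₀ (eg_Nm hw L l₀ x y) (eg_Nm hw L l₀ x y')
  rw [T2, T2, ← congrFun (node_sub hw (e _ _) (e _ _) L x) h]
  refine congrArg (fun F => node w L x F h) (funext fun z => ?_)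
  rw [Eg33.vz_eq hw]
  simp only [tr, ← Finset.sum_sub_distrib, ← mul_sub, Nm,
    Nf_leaf_sub hw L h1 h2 (Nat.lt_succ_self _)]
  simp only [Nf_leaf L (Nat.lt_succ_self _)]
  rfl

/-- (sn) -/
theorem sn_bds (q : ℕ → ℝ) {x t t' : ℕ} (h1 : x ≤ t) (h2 : t ≤ L.length + 1) (h3 : x ≤ t')
    (h4 : t' ≤ L.length + 1) (hx : x ≤ L.length) :
    0 ≤ (ee w L h (uK l₀ q) (uK l₀ q)).sN L.length x (L.length + 1) (L.length + 1) -
        (ee w L h (uK l₀ q) (uK l₀ q)).sN L.length x t t' ∧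
      (ee w L h (uK l₀ q) (uK l₀ q)).sN L.length x (L.length + 1) (L.length + 1) -
        (ee w L h (uK l₀ q) (uK l₀ q)).sN L.length x t t' ≤
        (if t ≤ L.length then vt w L l₀ h x t else 0) +
          if t' ≤ L.length then vt w L l₀ h x t' else 0 := by
  have hK : x ≤ L.length + 1 := by omega
  have v : ∀ u, x ≤ u → u ≤ L.length + 1 → (if u ≤ L.length then vt w L l₀ h x u else 0) =
      T2 w L l₀ h x (L.length + 1) (L.length + 1) - T2 w L l₀ h x (L.length + 1) u :=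
    fun u k1 k2 => by
      split_ifs with k
      · exact vt_eq L l₀ hw h k1 k
      · rw [show u = L.length + 1 by omega, sub_self]
  have a1 := DD_nonneg hw L l₀ h h1 h2 h3 h4
  have a2 := DD_nonneg hw L l₀ h h1 h2 le_rfl hK
  have a3 := DD_nonneg hw L l₀ h le_rfl h1 h3 h4
  have a4 := MD_nonneg hw L l₀ h hx h1 h2
  have a5 := MD_nonneg hw L l₀ h hx h3 h4
  rw [sN_Tc L l₀ hw h q hK le_rfl hK le_rfl hx, sN_Tc L l₀ hw h q h1 h2 h3 h4 hx, v t h1 h2,
    v t' h3 h4]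
  have s1 := T2_symm (w := w) L l₀ h x t (L.length + 1)
  have s2 := T2_symm (w := w) L l₀ h x t x
  have s3 := T2_symm (w := w) L l₀ h x (L.length + 1) x
  simp only [Tc, Lad79.DD, MD] at a1 a2 a3 a4 a5 ⊢
  constructor <;> linarith


end Crest.Agent.T156.Cas.Base53

namespace Crest.Agent.T156.Cas.Q75

open Crest.Agent.T157.E Crest.Agent.T157.Casc Crest.Agent.T157.SL
open Finset Base53
open Eg33 (vt)



end Crest.Agent.T156.Cas.Q75

end
end

-- ▼ part T156/Q2N_75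
section

/-!
# Row 156 (helper75): the non-local part of the word `[aU, aU]` is an error (`NLS`)
-/

set_option autoImplicit false
set_option linter.unusedSectionVars false

noncomputable section

namespace Crest.Agent.T156.Cas.Q75

open Finset
open Crest.Agent.T157.E Crest.Agent.T157.Casc Crest.Agent.T157.SL
open Crest.Agent.T156.Rect52
open Nu87 Wt87

/-! ### general tools -/

section gen
variable {Θ Θ' : Type} {L : List (Lv Θ)} {L' : List (Lv Θ')} {T c c' B : Tw} {j : ℕ} {c₀ : ℝ}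
  {p s φ φ' : ℕ → ℝ}

theorem Reg.tilt (e : L.map Lv.m = L'.map Lv.m) (H : Reg L T j c₀ p s) : Reg L' T j c₀ p s := by
  have e1 := Cav22.len_tilt e
  have e2 : dm L 0 = dm L' 0 := funext (Cav22.dm_tilt e 0)
  have e3 : ex L = ex L' := funext (Cav22.ex_tilt e)
  have e4 : cP L T = cP L' T := by
    funext y u x; simp only [cP, Lx, Lg, e1, e2, e3]
  have e5 : LO L T = LO L' T := by
    funext y x; simp only [LO, e1, e2, e3, e4]
  obtain ⟨h1, h2, h3, h4, h5, h6, h7, h8⟩ := H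
  simp only [e1, e4, e5] at h1 h2 h3 h4 h5 h6 h7 h8
  exact ⟨h1, h2, h3, h4, h5, h6, h7, h8⟩

theorem le_mul_lim {a p s : ℝ} (h : ∀ ε, 0 < ε → a ≤ (p + ε) * s) : a ≤ p * s := by
  refine le_of_forall_pos_le_add fun ε hε => ?_
  have h0 : 0 < |s| + 1 := by positivity
  refine (h _ (div_pos hε h0)).trans ?_
  rw [add_mul, add_le_add_iff_left, div_mul_eq_mul_div, div_le_iff₀ h0]
  exact mul_le_mul_of_nonneg_left ((le_abs_self s).trans (by linarith)) hε.le

theorem Reg.lim {c₁ : ℝ} (hc : c₀ ≤ c₁) (H : ∀ ε, 0 < ε → Reg L T j c₀ (fun y => p y + ε) s) :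
    Reg L T j c₁ p s :=
  have G := H 1 one_pos
  ⟨fun y x t h1 h2 h3 h4 h5 => le_of_forall_pos_le_add fun ε hε => (H ε hε).l0 y x t h1 h2 h3 h4 h5,
    fun x h1 h2 => le_mul_lim fun ε hε => (H ε hε).m1 x h1 h2, G.md, G.m2,
    fun y u x h1 h2 h3 h4 => le_mul_lim fun ε hε => (H ε hε).p1 y u x h1 h2 h3 h4,
    fun z x k h1 h2 h3 h4 h5 h6 => (G.o0 z x k h1 h2 h3 h4 h5 h6).trans hc, G.o1, G.o2⟩

theorem NL_scale (hc : c.tr.Eqv c L.length) (hB : B.tr.Eqv B L.length) {κ : ℝ}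
    (e : ∀ x, dm L 0 x * φ' x = κ * (dm L 0 x * φ x)) :
    NL L (((wt φ' φ').mul c).mul B) = κ ^ 2 * NL L (((wt φ φ).mul c).mul B) := by
  rw [NL_eq (j₁ := 0) hc hB (by simp) (by simp), NL_eq (j₁ := 0) hc hB (by simp) (by simp)]
  simp only [e, mul_add, mul_sum]
  congr 1
  · congr 1 <;> exact sum_congr rfl fun _ _ => sum_congr rfl fun _ _ => by ring
  · exact sum_congr rfl fun _ _ => sum_congr rfl fun _ _ => sum_congr rfl fun _ _ => by ring

theorem abs_LO_sub (hL : Mono 0 L) {y x : ℕ} (hy : y ≤ x) (hx : x ≤ L.length) {b : ℝ}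
    (h : ∀ t, y ≤ t → t ≤ L.length + 1 → |c'.lo L.length y x t - c.lo L.length y x t| ≤ b) :
    |LO L c' y x - LO L c y x| ≤ 10 * b := by
  have h1 := abs_le.1 (abs_LL_le hL hy hx h)
  have h2 := abs_le.1 (S97.abs_mul_le' (S97.kap_abs hL y) (h y le_rfl (by omega)))
  rw [S97.Lg_sub, S97.Lx_sub] at h1
  rw [LO, LO, cP, cP, abs_le]
  constructor <;> linarith [h1.1, h1.2, h2.1, h2.2]

theorem dbl_bd (hL : Mono 0 L) (hφ : ∀ x, |φ x| ≤ 1) {A : Finset ℕ} {n : ℕ → Finset ℕ}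
    (hA : A ⊆ range (L.length + 1)) (hn : ∀ x ∈ A, n x ⊆ range (L.length + 1)) {g : ℕ → ℕ → ℝ}
    {b : ℝ} (hb : 0 ≤ b) (h : ∀ x ∈ A, ∀ y ∈ n x, φ x ≠ 0 → φ y ≠ 0 → |g x y| ≤ b) :
    |∑ x ∈ A, ∑ y ∈ n x, dm L 0 x * φ x * (dm L 0 y * φ y) * g x y| ≤ b := by
  have d0 := dm_nonneg hL
  have k : ∀ x, |dm L 0 x * φ x| ≤ dm L 0 x := fun x => by
    rw [abs_mul, abs_of_nonneg (d0 x)]; exact mul_le_of_le_one_right (d0 x) (hφ x)
  refine (abs_sum_le_sum_abs _ _).trans ((sum_le_sum (g := fun x => dm L 0 x * b)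
    fun x hx => ?_).trans ?_)
  · refine (abs_sum_le_sum_abs _ _).trans ((sum_le_sum (g := fun y => dm L 0 y * (dm L 0 x * b))
      fun y hy => ?_).trans ?_)
    · by_cases h1 : φ x = 0
      · simpa [h1] using mul_nonneg (d0 y) (mul_nonneg (d0 x) hb)
      by_cases h2 : φ y = 0
      · simpa [h2] using mul_nonneg (d0 y) (mul_nonneg (d0 x) hb)
      exact (S97.abs_mul_le' (S97.abs_mul_le' (k x) (k y)) (h x hx y hy h1 h2)).trans_eq (by ring)
    · rw [← sum_mul]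
      exact mul_le_of_le_one_left (mul_nonneg (d0 x) hb) (sum_dm_le_one hL (hn x hx))
  · rw [← sum_mul]
    exact mul_le_of_le_one_left hb (sum_dm_le_one hL hA)

theorem NL_sub (hL : Mono 0 L) (hc : c.tr.Eqv c L.length) (hc' : c'.tr.Eqv c' L.length)
    (hB : B.tr.Eqv B L.length) (hφ : ∀ x, |φ x| ≤ 1) {η : ℝ} (hη : 0 ≤ η)
    (h1 : ∀ y x t, φ y ≠ 0 → φ x ≠ 0 → y ≤ x → x ≤ L.length → y ≤ t → t ≤ L.length + 1 →
      |(c'.mul B).lo L.length y x t - (c.mul B).lo L.length y x t| ≤ η)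
    (h2 : ∀ z x k, φ x ≠ 0 → φ k ≠ 0 → z < x → z < k → x ≤ L.length → k ≤ L.length →
      |c'.off L.length z x k * B.off L.length z x k - c.off L.length z x k * B.off L.length z x k|
        ≤ η) :
    |NL L (((wt φ φ).mul c').mul B) - NL L (((wt φ φ).mul c).mul B)| ≤ 21 * η := by
  have sb : ∀ {a b : ℕ}, b ≤ L.length + 1 → Ico a b ⊆ range (L.length + 1) := fun h i hi => by
    have := mem_Ico.1 hi; exact mem_range.2 (by omega)
  have k1 := dbl_bd hL hφ (A := Ico 0 (L.length + 1)) (n := fun x => Ico 0 (x + 1)) (sb le_rfl)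
    (fun x hx => sb (mem_Ico.1 hx).2) (g := fun x y => LO L (c'.mul B) y x - LO L (c.mul B) y x)
    (b := 10 * η) (by positivity) fun x hx y hy a b => by
      have := mem_Ico.1 hx; have := mem_Ico.1 hy
      exact abs_LO_sub hL (by omega) (by omega) fun t => h1 y x t b a (by omega) (by omega)
  have k2 := dbl_bd hL hφ (A := Ico 0 (L.length + 1)) (n := fun x => Ico 0 x) (sb le_rfl)
    (fun x hx => sb (mem_Ico.1 hx).2.le) (g := fun x y => LO L (c'.mul B) y x - LO L (c.mul B) y x)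
    (b := 10 * η) (by positivity) fun x hx y hy a b => by
      have := mem_Ico.1 hx; have := mem_Ico.1 hy
      exact abs_LO_sub hL (by omega) (by omega) fun t => h1 y x t b a (by omega) (by omega)
  have k3 := abs_Sm_le hL (A := range L.length) (b := η) (g := fun z =>
    ∑ x ∈ Ico (z + 1) (L.length + 1), ∑ k ∈ Ico (z + 1) (L.length + 1),
      dm L 0 x * φ x * (dm L 0 k * φ k) * (c'.off L.length z x k * B.off L.length z x k -
        c.off L.length z x k * B.off L.length z x k)) fun z _ =>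
    dbl_bd hL hφ (sb le_rfl) (fun _ _ => sb le_rfl) hη fun x hx k hk a b => by
      have := mem_Ico.1 hx; have := mem_Ico.1 hk
      exact h2 z x k a b (by omega) (by omega) (by omega) (by omega)
  have k4 := mul_le_of_le_one_left hη
    (sum_dm_le_one hL (A := range L.length) (range_subset_range.2 (Nat.le_succ _)))
  rw [NL_eq (j₁ := 0) hc hB (by simp) (by simp), NL_eq (j₁ := 0) hc' hB (by simp) (by simp)]
  simp only [Sm, mul_sub, sum_sub_distrib] at k1 k2 k3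
  simp only [mul_comm (dm L 0 _ * φ _) (dm L 0 _ * φ _)] at k1 k2 k3 ⊢
  rw [abs_le] at k1 k2 k3 ⊢
  constructor <;> linarith [k1.1, k1.2, k2.1, k2.2, k3.1, k3.2]

end gen

section ee
variable {Ω : Type} [Fintype Ω] {w h : Ω → ℝ} {L : List (Lv Ω)} {S : ℕ → Ω → Ω → ℝ}

theorem ee_tr (hw : Wt w) (hS : ∀ j x y, S j x y = S j y x) :
    (ee w L h S S).tr.Eqv (ee w L h S S) L.length := by
  refine ⟨fun _ _ => rfl, fun σ hσ => ?_, fun σ hσ => ?_⟩
  · refine (TM_inj hw hσ (ι := ![2, 1, 0]) (by decide) _).symm.trans (congrArg _ (funext fun x => ?_))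
    show S (σ 1 0) (x 1) (x 0) * S (σ 2 1) (x 2) (x 1) = S (σ 1 2) (x 1) (x 2) * S (σ 0 1) (x 0) (x 1)
    rw [hσ.comm 1 0, hσ.comm 2 1, hS _ (x 1) (x 0), hS _ (x 2) (x 1), mul_comm]
  · refine (TM_inj hw hσ (ι := ![2, 3, 0, 1]) (by decide) _).symm.trans
      (congrArg _ (funext fun x => ?_))
    exact mul_comm _ _

theorem abs_TM75 (hw : Wt w) {r : ℕ} {σ : SM r} (hσ : Rz L.length σ) {F : (Fin r → Ω) → ℝ} {b : ℝ}
    (hF : ∀ x, |F x| ≤ b) : |TM w L h σ F| ≤ b := by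
  obtain ⟨s, e, rfl⟩ := hσ
  rw [TM_sm hw s L h e.injective]
  exact One15.abs_TE_le hw s L h fun x => hF _

theorem ee_lo (hw : Wt w) {b : ℝ} (hS : ∀ j x y, |S j x y| ≤ b) {y x t : ℕ} (hy : y ≤ x)
    (hx : x ≤ L.length) (h1 : y ≤ t) (h2 : t ≤ L.length + 1) :
    |(ee w L h S S).lo L.length y x t| ≤ b * b := by
  unfold Tw.lo
  split_ifs with e
  · exact abs_TM75 hw (rz_lo3 hx hy) fun _ => S97.abs_mul_le' (hS _ _ _) (hS _ _ _)
  · exact abs_TM75 hw (rz_lo4 hx hy h1 (by omega)) fun _ => S97.abs_mul_le' (hS _ _ _) (hS _ _ _)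

theorem ee_off (hw : Wt w) {b : ℝ} (hS : ∀ j x y, |S j x y| ≤ b) {z x k : ℕ} (hz : z ≤ x)
    (hx : x ≤ L.length) (h1 : z ≤ k) (h2 : k ≤ L.length) :
    |(ee w L h S S).off L.length z x k| ≤ b * b :=
  abs_TM75 hw (rz_off hx hz h1 h2) fun _ => S97.abs_mul_le' (hS _ _ _) (hS _ _ _)

end ee

section abel
variable {K : ℕ} {B : Tw} {V : Type} [AddCommGroup V] [Module ℝ V]
  {ip : LinearMap.BilinForm ℝ V} {δ : ℕ → V} {π : ℕ → ℕ → V} {P : ℕ → V →ₗ[ℝ] V} {a : ℕ → ℝ}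

theorem Bs.tri (H : Bs K B ip δ π P a) {u v : V} {α β : ℝ} (hα : 0 ≤ α) (hβ : 0 ≤ β)
    (hu : ip u u ≤ α ^ 2) (hv : ip v v ≤ β ^ 2) : ip (u + v) (u + v) ≤ (α + β) ^ 2 := by
  have h := (abs_le.1 (H.cs hα hβ hu hv)).2
  have h' := H.sym v u
  simp only [map_add, LinearMap.add_apply]
  nlinarith

/-- monotone multipliers do not increase the norms of the tails -/
theorem Bs.mono_mul (H : Bs K B ip δ π P a) {d : ℕ → V} {θ f : ℕ → ℝ} {j n : ℕ}
    (hθ : Monotone θ) (h1 : ∀ x, θ x ≤ 1) (f0 : ∀ y, 0 ≤ f y) (hf : Antitone f)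
    (h : ∀ y, j ≤ y → ip (∑ x ∈ Ico y n, d x) (∑ x ∈ Ico y n, d x) ≤ f y ^ 2) {y : ℕ} (hj : j ≤ y)
    (hy : y ≤ n) : ∀ t, t ≤ θ y → ip (∑ x ∈ Ico y n, θ x • d x - t • ∑ x ∈ Ico y n, d x)
      (∑ x ∈ Ico y n, θ x • d x - t • ∑ x ∈ Ico y n, d x) ≤ ((1 - t) * f y) ^ 2 := by
  induction hy using Nat.decreasingInduction with
  | self => intro t _; simpa using sq_nonneg _
  | of_succ y hy ih =>
    intro t ht
    have k := ih (by omega) (θ y) (hθ y.le_succ)
    have k1 : ip ((θ y - t) • ∑ x ∈ Ico y n, d x) ((θ y - t) • ∑ x ∈ Ico y n, d x) ≤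
        ((θ y - t) * f y) ^ 2 := by
      simp only [map_smul, LinearMap.smul_apply, smul_eq_mul]
      nlinarith [mul_le_mul_of_nonneg_left (h y hj) (sq_nonneg (θ y - t))]
    have k2 := H.tri (mul_nonneg (sub_nonneg.2 ht) (f0 y)) (mul_nonneg (sub_nonneg.2 (h1 y)) (f0 _))
      k1 k
    have e : (θ y - t) • ∑ x ∈ Ico y n, d x + (∑ x ∈ Ico (y + 1) n, θ x • d x -
        θ y • ∑ x ∈ Ico (y + 1) n, d x) = ∑ x ∈ Ico y n, θ x • d x - t • ∑ x ∈ Ico y n, d x := by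
      rw [sum_eq_sum_Ico_succ_bot hy, sum_eq_sum_Ico_succ_bot hy]
      module
    rw [e] at k2
    refine k2.trans (pow_le_pow_left₀ (add_nonneg (mul_nonneg (sub_nonneg.2 ht) (f0 y))
      (mul_nonneg (sub_nonneg.2 (h1 y)) (f0 _))) ?_ 2)
    nlinarith [mul_le_mul_of_nonneg_left (hf y.le_succ) (sub_nonneg.2 (h1 y))]

end abel

end Crest.Agent.T156.Cas.Q75

namespace Crest.Agent.T156.Cas.C40.N75

open Finset
open Crest.Agent.T157.E Crest.Agent.T157.Casc Crest.Agent.T157.SL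
open Crest.Agent.T157.G1 (ov)
open Q75 Q10 CD
open Q33 (sl sl_cov)

variable {D : CD} {τ0 : ℝ}

/-- the site overlaps, cut at `K` -/
def Gm (D : CD) (j : ℕ) : ℝ := if j ≤ D.K then S97.Ga D.S j else 0

/-- the site factor centred at `Γ` -/
def cG (D : CD) : Tw := ee (fun _ => 1) D.S 0 (eK (Gm D)) (eK (Gm D))

/-- the normalised weight -/
def phi (D : CD) (a : ℝ) (j : ℕ) : ℝ := if j ∈ D.up then D.τ j / a else 0

/-- cut at `K` -/
def fz (D : CD) (g : ℕ → ℝ) (y : ℕ) : ℝ := if y < D.K then g y else 0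

/-- the parity size -/
def mm (D : CD) (y : ℕ) : ℝ := if y ∈ D.up then min 1 (D.e y) else 1

theorem S_len (D : CD) : D.S.length = D.K := (Cav22.len_tilt tilt_opS).trans D.B_len

theorem S_dm (D : CD) (j : ℕ) : dm D.S 0 j = D.dx j := Cav22.dm_tilt tilt_opS 0 j

theorem Gm_one (D : CD) (j : ℕ) : |Gm D j| ≤ 1 := by
  unfold Gm
  split_ifs with hj
  · exact S97.Ga_one (hj.trans_eq (S_len D).symm)
  · simp

theorem eK_tr (D : CD) (q : ℕ → ℝ) : (ee (fun _ => 1) D.S 0 (eK q) (eK q)).tr.Eqv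
    (ee (fun _ => 1) D.S 0 (eK q) (eK q)) D.B.length := by
  rw [D.B_len, ← S_len]
  exact ee_tr wt_one90 fun j x y => by simp only [eK, mul_comm]

theorem Bt_tr (D : CD) : (Bt D).tr.Eqv (Bt D) D.B.length :=
  ee_tr wt_one90 fun j x y => by rw [oU, oU, ov, ov, dotProduct_comm]

theorem abs_oU_rb (D : CD) (j : ℕ) (x y : Cube D.n) : |oU D.rb j x y| ≤ 2 := by
  have h1 := abs_le.1 (abs_ov_le x y)
  have h2 := pi2_mono (Ω := Cube D.n) wt_one90 D.B j (K := ov) (K' := fun _ _ => 1)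
    (fun x y => (abs_le.1 (abs_ov_le x y)).2) 0
  have h3 := pi2_mono (Ω := Cube D.n) wt_one90 D.B j (K' := ov) (K := fun _ _ => -1)
    (fun x y => (abs_le.1 (abs_ov_le x y)).1) 0
  rw [pi2_const wt_one90] at h2 h3
  rw [oU, CD.rb, CD.E2, abs_le]
  constructor <;> linarith [h1.1, h1.2]

section ok
variable (h : D.Ok τ0)
include h

theorem uK_eq (q : ℕ → ℝ) : uK (sl D.n) q = oU q := by
  funext j x y; rw [uK, sl_cov h.pos, oU]

theorem vt_eq (y t : ℕ) : Eg33.vt (fun _ => 1) D.B (sl D.n) 0 y t = D.v y t := by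
  unfold Eg33.vt Eg33.vz CD.v
  simp only [sl_cov h.pos]

theorem r1 : Ker15.R1 D.S := Ker15.r1_of (rk_opS h.ook)

theorem mS : Mono 0 D.S := mono_opS h.mono

theorem tm_eq {j : ℕ} (hj : j ≤ D.K) : Ker15.tm D.S j = D.sig j :=
  (Ker15.tm_eq (rk_opS h.ook) j).trans (TT_opV hj)

theorem ex_le {j : ℕ} (hj : j ∈ D.up) : ex D.B j ≤ D.e j :=
  (le_min (Tay38.ex_le_one h.mono j)
    (le_add_of_nonneg_right (h.sig0 (mem_up.1 hj).2.le))).trans (h.esc j hj)

theorem mm_mem (y : ℕ) : D.X ≤ mm D y ∧ mm D y ≤ 1 := by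
  unfold mm
  split_ifs
  exacts [⟨le_min h.X1 (h.eX y), min_le_left _ _⟩, ⟨h.X1, le_rfl⟩]

theorem mm_le {y : ℕ} (hy : y ∈ D.up) : mm D y ≤ D.e y := by
  rw [mm, if_pos hy]; exact min_le_right _ _

theorem par (y : ℕ) {ε : ℝ} (hε : 0 < ε) : ∃ σ, 0 < σ ∧ Ker15.tm D.S y ≤ σ ∧
    min 1 (Ker15.PB 8 σ) ≤ 1024 * Real.exp (3 / 2) * (mm D y + ε) := by
  have e1 : 1 ≤ Real.exp (3 / 2) := Real.one_le_exp (by norm_num)
  rcases le_or_gt 1 (mm D y) with h1 | h1
  · exact ⟨|Ker15.tm D.S y| + 1, by positivity, (le_abs_self _).trans (by linarith),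
      (min_le_left _ _).trans (by nlinarith)⟩
  have hy : y ∈ D.up := by by_contra hy; rw [mm, if_neg hy] at h1; exact h1.false
  have h2 : D.e y < 1 := by
    rw [mm, if_pos hy] at h1
    exact (min_lt_iff.1 h1).resolve_left (lt_irrefl _)
  have h3 : D.sig y ≤ D.e y := by
    have := (min_le_iff.1 (h.esc y hy)).resolve_left h2.not_ge
    linarith [h.ex0 y]
  have h0 : 0 < min 1 (D.e y + ε) := lt_min one_pos (by linarith [h.e0 y])
  refine ⟨_, h0, ?_, (min_le_right _ _).trans ?_⟩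
  · rw [tm_eq h (mem_up.1 hy).2.le]
    exact le_min (by linarith) (by linarith)
  · have h4 : Real.exp (1 / 2 + √(min 1 (D.e y + ε))) ≤ Real.exp (3 / 2) :=
      Real.exp_le_exp.2 (by linarith [Real.sqrt_le_one.2 (min_le_left 1 (D.e y + ε))])
    rw [mm, if_pos hy, min_eq_right h2.le, Ker15.PB]
    have h5 := mul_le_mul h4 (min_le_right 1 (D.e y + ε)) h0.le (Real.exp_pos _).le
    push_cast
    nlinarith

theorem reg {C : ℝ} (hC : 1 ≤ C) (H : ∀ (L : List (Lv Bool)) (q p s : ℕ → ℝ) (j₁ : ℕ),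
    Ker15.R1 L → Mono 0 L → (∀ j, |q j| ≤ 1) →
    (∀ y ≤ L.length, ∃ σ, 0 < σ ∧ Ker15.tm L y ≤ σ ∧ C * (min 1 (Ker15.PB 8 σ) + |q y|) ≤ p y) →
    (∀ i < L.length, C * (Ker15.tm L (i + 1) - Ker15.tm L i + |q (i + 1) - q i| + dm L 0 i +
      dm L 0 (i + 1)) ≤ s i) → Reg L (ee (fun _ => 1) L 0 (eK q) (eK q)) j₁ 4 p s) {A : ℝ}
    (hA : A = 2 * C * (1024 * Real.exp (3 / 2))) :
    Reg D.B (cG D) (D.J + 1) (A + 4) (fun y => A * mm D y) fun i => C * S97.st D.S (Gm D) i := by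
  have A0 : 0 < A := by rw [hA]; positivity
  refine Reg.tilt tilt_opS (Reg.lim (c₀ := 4) (by linarith) fun ε hε =>
    H _ _ _ _ _ (r1 h) (mS h) (Gm_one D) (fun y hy => ?_) fun i _ => le_rfl)
  obtain ⟨σ, h1, h2, h3⟩ := par h y (div_pos hε A0)
  refine ⟨σ, h1, h2, ?_⟩
  have h4 := S97.Ga_par (r1 h) (mS h) hy h1 h2
  rw [Gm, if_pos (hy.trans_eq (S_len D))]
  have h5 : A * mm D y + ε = 2 * C * (1024 * Real.exp (3 / 2) * (mm D y + ε / A)) := by
    rw [← mul_assoc, ← hA]; field_simp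
  rw [h5]
  nlinarith

theorem st_le {i : ℕ} (h1 : D.J < i) (h2 : i < D.K) : S97.st D.S (Gm D) i ≤ 33 * D.dv (i + 1) := by
  have h3 := S97.Ga_step (r1 h) (mS h) (h2.trans_eq (S_len D).symm)
  have h4 := h.tau_mono i.le_succ
  have h5 := h.sig_le i.le_succ h2
  rw [S97.vv] at h3
  rw [S97.st, CD.dv, if_neg (by omega), Gm, Gm, if_pos (by omega), if_pos h2.le, S_dm, S_dm,
    Nat.add_sub_cancel]
  rw [tm_eq h h2, tm_eq h h2.le] at h3 ⊢
  linarith [h.dx0 i, h.dx0 (i + 1)]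

theorem sum_st {g : ℕ → ℝ} (hg : ∀ y, 0 ≤ g y) {C : ℝ} (hC : 0 ≤ C) :
    ∑ i ∈ Ico (D.J + 1) D.K, C * S97.st D.S (Gm D) i * fz D g (i + 1) ≤ 33 * C * D.sv g D.J := by
  have h1 : ∑ i ∈ Ico (D.J + 1) D.K, D.dv (i + 1) * fz D g (i + 1) ≤ D.sv g D.J := by
    rw [sum_Ico_add' (fun j => D.dv j * fz D g j)]
    simp only [fz, mul_ite, mul_zero]
    rw [← sum_filter]
    refine sum_le_sum_of_subset_of_nonneg (fun j hj => ?_)
      fun j hj _ => mul_nonneg (h.dv0 (mem_Ioo.1 hj).2.le) (hg j)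
    simp only [mem_filter, mem_Ico, mem_Ioo] at hj ⊢
    omega
  refine le_trans ?_ (mul_le_mul_of_nonneg_left h1 (by positivity))
  rw [mul_sum]
  refine sum_le_sum fun i hi => ?_
  have h2 : 0 ≤ fz D g (i + 1) := by unfold fz; split_ifs; exacts [hg _, le_rfl]
  have h3 := mul_le_mul_of_nonneg_right (mul_le_mul_of_nonneg_left
    (st_le h (mem_Ico.1 hi).1 (mem_Ico.1 hi).2) hC) h2
  linarith

theorem wf {a : ℝ} (ha : 0 < a) (h1 : τ0 ≤ a) :
    Wf D.B (D.J + 1) (Base53.ipE wt_one90 D.B 0) (Base53.dV D.B (sl D.n) wt_one90 D.rb)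
      (phi D a) (fz D D.f0) := by
  have t1 : ∀ x, D.τ x / a ≤ 1 := fun x => (div_le_one ha).2 ((h.tau_mem x).2.trans h1)
  have t0 : ∀ x, 0 ≤ D.τ x / a := fun x => div_nonneg (h.tau_mem x).1 ha.le
  refine ⟨fun x => ?_, fun x hx => if_neg fun e => by have := mem_up.1 e; omega, fun y => ?_,
    fun y hy => ?_⟩
  · unfold phi
    split_ifs
    exacts [(abs_of_nonneg (t0 x)).trans_le (t1 x), by simp]
  · unfold fz
    split_ifs
    exacts [h.f00 y, le_rfl]
  rw [D.B_len]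
  rcases le_or_gt D.K y with hK | hK
  · rw [sum_eq_zero fun x hx => by
      rw [phi, if_neg fun e => by have := mem_up.1 e; have := mem_Ico.1 hx; omega, mul_zero,
        zero_smul]]
    simpa using sq_nonneg _
  have H := (Base53.bs D.B (sl D.n) wt_one90 0 D.rb).mono_mul (θ := fun x => D.τ x / a)
    (d := fun x => D.dx x • Base53.dV D.B (sl D.n) wt_one90 D.rb x) (j := D.J + 1) (n := D.K)
    (fun _ _ e => div_le_div_of_nonneg_right (h.tau_mono e) ha.le) t1 h.f00 h.wk0.f_anti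
    (fun y hy => by
      have := h.wk0.varN y
      rw [CD.tail, max_eq_left hy] at this
      rw [Base53.ip_sum_pE]
      refine le_of_eq_of_le ?_ this
      simp only [CD.nd, CD.del, ← uK_eq h, Base53.qf_uK D.B (sl D.n) wt_one90, sub_sub_sub_cancel_right])
    hy hK.le 0 (t0 y)
  rw [zero_smul, sub_zero, sub_zero, one_mul] at H
  rw [sum_Ico_succ_top hK.le, phi, if_neg (by simp), mul_zero, zero_smul, add_zero, fz, if_pos hK,
    sum_congr rfl fun x hx => by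
      rw [phi, if_pos (by have := mem_Ico.1 hx; exact mem_up.2 (by omega)), mul_comm, mul_smul]]
  exact H

theorem nh {C A : ℝ} (hC : 1 ≤ C) (hA : 1 ≤ A)
    (R : Reg D.B (cG D) (D.J + 1) (A + 4) (fun y => A * mm D y) fun i => C * S97.st D.S (Gm D) i) :
    NH D.B (cG D) (Bt D) (D.J + 1) (A + 4) (fun y => A * mm D y) (fun i => C * S97.st D.S (Gm D) i)
      (fun y => √(D.v y y)) (fun y x => √(D.v y x)) (Base53.ipE wt_one90 D.B 0)
      (Base53.dV D.B (sl D.n) wt_one90 D.rb) (Base53.pV D.B (sl D.n) wt_one90)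
      (Base53.PE wt_one90 D.B) := by
  have b1 := Base53.bs D.B (sl D.n) wt_one90 0 D.rb
  have b2 := fun y x t => Base53.lo3 D.B (sl D.n) wt_one90 0 D.rb (y := y) (x := x) (t := t)
  simp only [uK_eq h, vt_eq h] at b1 b2
  have m := mm_mem h
  refine ⟨h.mono, eK_tr D _, Bt_tr D, R, b1, b2, fun _ _ => Real.sqrt_nonneg _, by linarith,
    by nlinarith [(m (D.J + 1)).2], fun y => mul_nonneg (by linarith) (h.X0.trans (m y).1),
    fun i => ?_, ?_⟩
  · have := S97.st_bds (r1 h) (mS h) (Gm D) i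
    rw [S_dm] at this
    exact this.2.2.2.1.trans (le_mul_of_one_le_left this.1 hC)
  · exact (h.sum_dx D.J).trans_le (h.x1.trans ((m _).1.trans
      (le_mul_of_one_le_left (h.X0.trans (m _).1) hA)))

theorem sum_up {g : ℕ → ℝ} : ∑ y ∈ Ico (D.J + 1) (D.K + 1), D.dx y * g y = D.I g := by
  rw [sum_Ico_succ_top (show D.J + 1 ≤ D.K from h.cut), h.top, zero_mul, add_zero,
    Finset.Ico_add_one_left_eq_Ioo]
  rfl

theorem er2 {C A : ℝ} (hC : 0 ≤ C) (hA : 0 ≤ A) :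
    Er2 D.B (D.J + 1) (fun y => A * mm D y) (fun i => C * S97.st D.S (Gm D) i)
      (fun y => √(D.v y y)) (fun y x => √(D.v y x)) (fz D D.f0) (fz D D.f0) ≤
      (2 * A + 2 * (33 * C) ^ 2 + 66 * C + A ^ 2 + A) * D.E0 := by
  have m0 : ∀ y, 0 ≤ mm D y := fun y => h.X0.trans (mm_mem h y).1
  have sq : ∀ y, fz D D.f0 y ^ 2 = fz D (fun j => D.f0 j ^ 2) y := fun y => by
    unfold fz; split_ifs <;> simp
  have s0 := h.sv0 (F := fun j => D.f0 j ^ 2) (fun _ => sq_nonneg _) D.J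
  have t1 : mm D (D.J + 1) * fz D D.f0 (D.J + 1) ^ 2 ≤ D.sv (fun j => D.f0 j ^ 2) D.J := by
    rw [sq, fz]
    split_ifs with e
    · have hm : D.J + 1 ∈ D.up := mem_up.2 ⟨Nat.lt_succ_self _, e⟩
      refine le_trans ?_ (single_le_sum (f := fun t => D.dv t * D.f0 t ^ 2)
        (fun t ht => mul_nonneg (h.dv0 (mem_up.1 ht).2.le) (sq_nonneg _)) hm)
      rw [CD.dv, if_pos le_rfl]
      exact mul_le_mul_of_nonneg_right (mm_le h hm) (sq_nonneg _)
    · rwa [mul_zero]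
  have t2 := pow_le_pow_left₀ (sum_nonneg fun i _ => mul_nonneg
    (mul_nonneg hC (S97.st_bds (r1 h) (mS h) (Gm D) i).1)
    (show 0 ≤ fz D D.f0 (i + 1) by unfold fz; split_ifs; exacts [h.f00 _, le_rfl]))
    (sum_st h h.f00 hC) 2
  have t3 := sum_st h (g := fun j => D.f0 j ^ 2) (fun _ => sq_nonneg _) hC
  have t4 : ∑ y ∈ Ico (D.J + 1) (D.K + 1), D.dx y * (A * mm D y * √(D.v y y)) ^ 2 ≤
      A ^ 2 * D.I fun t => D.e t ^ 2 * D.v t t := by
    rw [sum_up h, ← D.I_mul]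
    refine h.I_mono fun t ht => ?_
    rw [mul_pow, mul_pow, Real.sq_sqrt (D.v0 t t), mul_assoc]
    exact mul_le_mul_of_nonneg_left (mul_le_mul_of_nonneg_right
      (pow_le_pow_left₀ (m0 t) (mm_le h ht) 2) (D.v0 t t)) (sq_nonneg _)
  have t5 : ∑ x ∈ Ico (D.J + 1) (D.K + 1), ∑ y ∈ Ico (D.J + 1) (x + 1),
      D.dx x * D.dx y * (A * mm D y * (√(D.v y x) * √(D.v x x))) ≤
      A * (D.I (fun t => D.e t ^ 2 * D.v t t) +
        D.I fun t => D.e t * ∑ y ∈ Ico 1 t, D.dx y * D.v y t) := by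
    simp only [mul_assoc (D.dx _), ← mul_sum]
    rw [sum_up h, ← D.I_add, ← D.I_mul]
    refine h.I_mono fun x hx => ?_
    have hx' := mem_up.1 hx
    have e0 := h.e0 x
    have v0 := D.v0 x x
    have k1 : ∑ y ∈ Ico (D.J + 1) (x + 1), D.dx y ≤ D.e x :=
      (h.sum_dx_le fun i hi => Nat.lt_succ_iff.1 (mem_Ico.1 hi).2).trans (ex_le h hx)
    have k2 : D.dx x ≤ D.e x := by
      simpa using (h.sum_dx_le (A := {x}) (by simp)).trans (ex_le h hx)
    have k3 : ∑ y ∈ Ico (D.J + 1) x, D.dx y * D.v y x ≤ ∑ y ∈ Ico 1 x, D.dx y * D.v y x :=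
      sum_le_sum_of_subset_of_nonneg (Ico_subset_Ico_left (by omega))
        fun y _ _ => mul_nonneg (h.dx0 y) (D.v0 y x)
    have k4 := h.sv_low0 (Ico 1 x) x
    refine (sum_le_sum (g := fun y => A * D.e x / 2 * (D.dx y * D.v y x + D.dx y * D.v x x))
      fun y hy => ?_).trans ?_
    · have hy' := mem_Ico.1 hy
      have k5 : mm D y ≤ D.e x := (mm_le h (mem_up.2 (by omega))).trans (h.e_mono (by omega))
      have k6 : √(D.v y x) * √(D.v x x) ≤ (D.v y x + D.v x x) / 2 := by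
        nlinarith [sq_nonneg (√(D.v y x) - √(D.v x x)), Real.sq_sqrt (D.v0 y x), Real.sq_sqrt v0]
      exact (mul_le_mul_of_nonneg_left (mul_le_mul (mul_le_mul_of_nonneg_left k5 hA) k6
        (by positivity) (by positivity)) (h.dx0 y)).trans_eq (by ring)
    · rw [← mul_sum, sum_add_distrib, ← sum_mul, sum_Ico_succ_top hx'.1]
      have k7 := mul_le_mul_of_nonneg_right k1 v0
      have k8 := mul_le_mul_of_nonneg_right k2 v0
      have k9 := mul_le_mul_of_nonneg_left (add_le_add (add_le_add k3 k8) k7)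
        (show 0 ≤ A * D.e x / 2 by positivity)
      nlinarith [mul_nonneg (mul_nonneg hA e0) k4]
  obtain ⟨l1, l2, l3⟩ := h.Lad0_parts
  have l4 := h.Lad0_le
  have l5 := h.VF_le
  rw [CD.Lad0] at l4
  rw [CD.VF] at l5
  have l6 := sq_nonneg (D.sv D.f0 D.J)
  rw [Er2, D.B_len]
  simp only [← two_mul, mul_left_comm _ (2 : ℝ), ← mul_sum, sq] at t1 ⊢
  rw [mul_pow] at t2
  have u1 := mul_le_mul_of_nonneg_left (t1.trans (by linarith : _ ≤ D.E0)) hA
  have u2 := mul_le_mul_of_nonneg_left (by linarith : D.sv D.f0 D.J ^ 2 ≤ D.E0) (sq_nonneg (33 * C))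
  have u3 := mul_le_mul_of_nonneg_left (by linarith : D.sv (fun j => D.f0 j ^ 2) D.J ≤ D.E0) hC
  have u4 := mul_le_mul_of_nonneg_left
    (by linarith : D.I (fun t => D.e t ^ 2 * D.v t t) ≤ D.E0) (sq_nonneg A)
  have u5 := mul_le_mul_of_nonneg_left (by linarith : D.I (fun t => D.e t ^ 2 * D.v t t) +
    D.I (fun t => D.e t * ∑ y ∈ Ico 1 t, D.dx y * D.v y t) ≤ D.E0) hA
  linarith

theorem crude (hW : D.W = none) {φ : ℕ → ℝ} (h1 : ∀ x, |φ x| ≤ 1) (h2 : ∀ x, φ x ≠ 0 → x ∈ D.up) :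
    |NL D.B (((wt φ φ).mul (cS D)).mul (Bt D)) - NL D.B (((wt φ φ).mul (cG D)).mul (Bt D))| ≤
      21 * (D.X ^ 3 * D.X ^ 3 * (2 * 2)) := by
  have k : ∀ y x, φ y ≠ 0 → φ x ≠ 0 →
      |S97.Bq D.S D.q y x - S97.Bq D.S (Gm D) y x| ≤ D.X ^ 3 * D.X ^ 3 := fun y x a b => by
    refine le_of_eq_of_le (congrArg _ ?_) (S97.abs_mul_le' (h.stt hW y (h2 y a)) (h.stt hW x (h2 x b)))
    rw [S97.Bq, S97.Bq, Gm, Gm, if_pos (mem_up.1 (h2 y a)).2.le, if_pos (mem_up.1 (h2 x b)).2.le]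
    show _ = (S97.Ga D.S y - D.q y) * (S97.Ga D.S x - D.q x)
    ring
  have e : D.B.length = D.S.length := D.B_len.trans (S_len D).symm
  have := h.X0
  rw [cS, cG]
  refine NL_sub h.mono (eK_tr D _) (eK_tr D _) (Bt_tr D) h1 (by positivity)
    (fun y x t a b c1 c2 c3 c4 => ?_) fun z x j a b c1 c2 c3 c4 => ?_
  · rw [lo_mul, lo_mul, ← sub_mul]
    refine S97.abs_mul_le' ?_ (ee_lo wt_one90 (abs_oU_rb D) c1 c2 c3 c4)
    rw [e] at c2 c4 ⊢
    rw [S97.lo_eq _ c1 c2 c3 c4, S97.lo_eq _ c1 c2 c3 c4, add_sub_add_left_eq_sub]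
    exact k y x a b
  · rw [← sub_mul]
    refine S97.abs_mul_le' ?_ (ee_off wt_one90 (abs_oU_rb D) c1.le c3 c2.le c4)
    rw [e] at c3 c4 ⊢
    rw [S97.off_eq _ c1.le c3 c2.le c4, S97.off_eq _ c1.le c3 c2.le c4,
      add_sub_add_left_eq_sub]
    exact k j x b a

end ok

/-- **the non-local part of `[aU, aU]` is an error** -/
theorem nlS : NLS := by
  obtain ⟨C, hC, H⟩ := S97.siteS
  set A := 2 * C * (1024 * Real.exp (3 / 2)) with hA
  have A1 : 1 ≤ A := by nlinarith [Real.one_le_exp (show (0 : ℝ) ≤ 3 / 2 by norm_num)]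
  refine Bd.val fun τ0 => ⟨(max τ0 1 / 2) ^ 2 *
    (20 * (A + 4) * (2 * A + 2 * (33 * C) ^ 2 + 66 * C + A ^ 2 + A) + 84), fun D h hW => ?_⟩
  have ha : 0 < max τ0 1 := lt_max_of_lt_right one_pos
  have W := wf h ha (le_max_left _ _)
  have k1 := (nh h hC A1 (reg h hC H hA)).bd W W (h.cut.trans_eq D.B_len.symm)
  have k2 := mul_le_mul_of_nonneg_left (er2 h (C := C) (A := A) (by linarith) (by linarith))
    (show 0 ≤ 20 * (A + 4) by linarith)
  have k3 := crude h (Option.isNone_iff_eq_none.1 (by simpa using hW)) W.le fun x hx => by_contra fun e => hx (if_neg e)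
  have k4 := h.X6_le
  rw [Tc, NL_scale (c := cS D) (φ := phi D (max τ0 1)) (κ := max τ0 1 / 2) (eK_tr D _) (Bt_tr D)
    fun x => ?_,
    abs_mul, abs_of_nonneg (sq_nonneg _), mul_assoc]
  · refine mul_le_mul_of_nonneg_left ?_ (sq_nonneg _)
    have k5 := abs_sub_abs_le_abs_sub (NL D.B (((wt (phi D (max τ0 1)) (phi D (max τ0 1))).mul
      (cS D)).mul (Bt D))) (NL D.B (((wt (phi D (max τ0 1)) (phi D (max τ0 1))).mul
      (cG D)).mul (Bt D)))
    linarith
  · rw [ph, phi]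
    rcases lt_or_ge x D.K with e | e
    · by_cases e' : D.J < x
      · rw [if_pos e', if_pos (mem_up.2 ⟨e', e⟩)]
        field_simp
      · rw [if_neg e', if_neg fun a => e' (mem_up.1 a).1]
        simp
    · have : dm D.B 0 x = 0 := by
        rcases e.eq_or_lt with rfl | e
        · exact h.top
        · obtain ⟨x, rfl⟩ : ∃ y, x = y + 1 := ⟨x - 1, by omega⟩
          rw [S97.dm_succ]
          unfold Crest.Agent.T157.Casc.ex
          rw [List.getElem?_eq_none (by rw [D.B_len]; omega),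
            List.getElem?_eq_none (by rw [D.B_len]; omega), sub_self]
      simp [this]

end Crest.Agent.T156.Cas.C40.N75

end
end

-- ▼ part T156/CQ2_10

/-!
# Row 156 (helper10): the word `[aU, aU]`, value direction, glue
-/

set_option autoImplicit false
set_option linter.all false

noncomputable section

namespace Crest.Agent.T156.Cas.C40.Q10

open Finset Real
open Crest.Agent.T157.E Crest.Agent.T157.Casc Crest.Agent.T157.SL
open Crest.Agent.T157.G1 (ov)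
open Crest.ProbabilityR.SpinGlassDynamics (spin)
open Crest.Agent.T156.Cas.Q75 Crest.Agent.T156.Cas.Q75.A10 Nu87

variable {D : CD} {τ0 : ℝ}

theorem S_len (D : CD) : D.S.length = D.B.length := opS_length.trans D.B_len.symm

theorem rzS {r : ℕ} {σ : SM r} (h : Rz D.B.length σ) : Rz D.S.length σ := (S_len D).symm ▸ h

theorem ov_comm {n : ℕ} (x y : Cube n) : ov x y = ov y x := by rw [ov, ov, dotProduct_comm]

theorem r1S (h : D.Ok τ0) : Ker15.R1 D.S := Ker15.r1_of (C.forall₂_sl spin (opV_nn h.ook))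

theorem monoS (h : D.Ok τ0) : Mono 0 D.S := Cav22.mono_tilt tilt_opS.symm h.mono

theorem tm_S (h : D.Ok τ0) {j : ℕ} (hj : j ≤ D.K) : Ker15.tm D.S j = D.sig j :=
  (Ker15.tm_eq (C.forall₂_sl spin (opV_nn h.ook)) j).trans (opV_acc hj)

/-- `Γ_t ≤ 80 e_t` on UP -/
theorem Gam_le (h : D.Ok τ0) {t : ℕ} (ht : t ∈ D.up) : D.Gam t ≤ 80 * D.e t := by
  have m := CD.mem_up.1 ht
  have h1 := (Ga_bd (r1S h) (monoS h) (t := t) (by rw [opS_length]; exact m.2.le)).2.2
  rw [tm_S h m.2.le] at h1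
  have h2 : min 1 (D.sig t) ≤ min 1 (ex D.B t + D.sig t) :=
    min_le_min le_rfl (le_add_of_nonneg_left (h.ex0 t))
  exact h1.trans (by linarith [h.esc t ht])

/-- `q_t ≤ 81 e_t` on UP -/
theorem q_le (h : D.Ok τ0) {t : ℕ} (ht : t ∈ D.up) : D.q t ≤ 81 * D.e t := by
  linarith [h.qe t ht, h.eX t, h.X0]

theorem ex_le (h : D.Ok τ0) {t : ℕ} (ht : t ∈ D.up) : ex D.B t ≤ D.e t := by
  have m := CD.mem_up.1 ht
  have h1 : ex D.B t ≤ 1 := (h.sum_dx t).symm.trans_le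
    (h.sum_dx_one fun i hi => by have := mem_range.1 hi; omega)
  exact (le_min h1 (le_add_of_nonneg_right (h.sig0 m.2.le))).trans (h.esc t ht)


theorem abs_rb (D : CD) (j : ℕ) : |D.rb j| ≤ 1 := by
  have h1 := pi2_mono (Ω := Cube D.n) wt_one90 D.B j (K := fun _ _ => -1) (K' := ov)
    (fun x y => (abs_le.1 (abs_ov_le x y)).1) 0
  have h2 := pi2_mono (Ω := Cube D.n) wt_one90 D.B j (K := ov) (K' := fun _ _ => 1)
    (fun x y => (abs_le.1 (abs_ov_le x y)).2) 0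
  rw [pi2_const wt_one90] at h1 h2
  exact abs_le.2 ⟨h1, h2⟩

theorem Sd_ph (D : CD) (j : ℕ) (a b : Bool) : D.Sd j a b = ph D j * D.del j * eK D.q j a b := by
  unfold CD.Sd ph
  split_ifs
  · rfl
  · ring

theorem lev_ind (D : CD) (t j : ℕ) (a b : Bool) : D.lev t j a b = ind t j * eK D.q j a b := by
  unfold CD.lev ind
  split_ifs
  · rw [one_mul]; rfl
  · ring

theorem Sy_cS (D : CD) : (cS D).Sy D.B.length := by
  rw [← S_len]
  exact Sy_ee wt_one90 0 (fun j a b => by rw [eK, eK, mul_comm]) fun j a b => by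
    rw [eK, eK, mul_comm]

theorem Sy_Bt (D : CD) : (Bt D).Sy D.B.length :=
  Sy_ee wt_one90 0 (fun j a b => by rw [oU, oU, ov_comm]) fun j a b => by rw [oU, oU, ov_comm]

theorem Sy_Tc (D : CD) : (Tc D).Sy D.B.length := Sy_mul (Sy_mul (Sy_wt _ _) (Sy_cS D)) (Sy_Bt D)

theorem cen_pt (D : CD) {r : ℕ} {σ : SM r} (hσ : Rz D.B.length σ) {a b c d : Fin r} (hab : a ≠ b)
    (hcd : c ≠ d) :
    ph D (σ a b) * ph D (σ c d) *
        TM (fun _ => 1) D.S 0 σ (fun x => ed (eK D.q) a b x σ * ed (eK D.q) c d x σ) *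
        TM (fun _ => 1) D.B 0 σ (fun x => ed (oU D.q) a b x σ * ed (oU D.q) c d x σ) -
      TM (fun _ => 1) D.S 0 σ (fun x => ed D.Sd a b x σ * ed D.Sd c d x σ) =
    ph D (σ a b) * ph D (σ c d) *
        TM (fun _ => 1) D.S 0 σ (fun x => ed (eK D.q) a b x σ * ed (eK D.q) c d x σ) *
        TM (fun _ => 1) D.B 0 σ (fun x => ed (oU D.rb) a b x σ * ed (oU D.rb) c d x σ) := by
  have h1 := TM_cen wt_one90 (L := D.B) 0 hσ hab hcd ov D.q
  have h2 : TM (fun _ => 1) D.S 0 σ (fun x => ed D.Sd a b x σ * ed D.Sd c d x σ) =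
      ph D (σ a b) * D.del (σ a b) * (ph D (σ c d) * D.del (σ c d)) *
        TM (fun _ => 1) D.S 0 σ (fun x => ed (eK D.q) a b x σ * ed (eK D.q) c d x σ) := by
    rw [← TM_mul]
    exact congrArg _ (funext fun x => by simp only [ed, Sd_ph]; ring)
  have h3 : TM (fun _ => 1) D.B 0 σ (fun x => ed (oU D.q) a b x σ * ed (oU D.q) c d x σ) =
      TM (fun _ => 1) D.B 0 σ (fun x => ed (oU D.rb) a b x σ * ed (oU D.rb) c d x σ) +
        D.del (σ a b) * D.del (σ c d) := h1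
  rw [h2, h3]; ring

/-- **centring** -/
theorem cen (D : CD) : Ful D.B (((wt (ph D) (ph D)).mul (cS D)).mul (BU D)) -
    Ful D.B (ee (fun _ => 1) D.S 0 D.Sd D.Sd) = Ful D.B (Tc D) :=
  Ful_sub (fun _ hσ => cen_pt D hσ (a := 0) (b := 1) (c := 0) (d := 1) (by decide) (by decide))
    (fun _ hσ => cen_pt D hσ (a := 1) (b := 2) (c := 0) (d := 1) (by decide) (by decide))
    fun _ hσ => cen_pt D hσ (a := 2) (b := 3) (c := 0) (d := 1) (by decide) (by decide)

theorem lev_pt (D : CD) (t : ℕ) {r : ℕ} (σ : SM r) (a b c d : Fin r) :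
    TM (fun _ => 1) D.S 0 σ (fun x => ed (D.lev t) a b x σ * ed (D.lev t) c d x σ) =
      ind t (σ a b) * ind t (σ c d) *
        TM (fun _ => 1) D.S 0 σ (fun x => ed (eK D.q) a b x σ * ed (eK D.q) c d x σ) := by
  rw [← TM_mul]
  exact congrArg _ (funext fun x => by simp only [ed, lev_ind]; ring)

theorem Ful_lev (D : CD) {t : ℕ} (ht : t ≤ D.B.length) :
    2 * Ful D.B (ee (fun _ => 1) D.S 0 (D.lev t) (D.lev t)) =
      2 * (D.dx t * SN D.B (cS D) t) + NL D.B ((wt (ind t) (ind t)).mul (cS D)) := by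
  rw [Ful_congr (T' := (wt (ind t) (ind t)).mul (cS D)) ⟨fun σ _ => lev_pt D t σ 0 1 0 1,
    fun σ _ => lev_pt D t σ 1 2 0 1, fun σ _ => lev_pt D t σ 2 3 0 1⟩,
    Ful_exp _ (Sy_mul (Sy_wt _ _) (Sy_cS D)), Q75.Sm, sum_eq_single t (fun x hx h => by
      rw [SN_wt _ _ (Nat.lt_succ_iff.1 (mem_range.1 hx)), ind, if_neg h]; ring)
      (fun h => absurd (mem_range.2 (Nat.lt_succ_of_le ht)) h), SN_wt _ _ ht, ind, if_pos rfl]
  ring

/-- the variance of the overlap -/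
theorem var_eq (D : CD) {t : ℕ} (ht : t ≤ D.B.length) :
    (Bt D).sN D.B.length t (D.B.length + 1) (D.B.length + 1) = D.u 2 t - D.del t ^ 2 := by
  have h1 := TM_cen wt_one90 (L := D.B) 0 (rz_tw D.B.length t) (a := 0) (b := 1) (c := 0) (d := 1)
    (by decide) (by decide) ov D.q
  have h2 : (BU D).sN D.B.length t (D.B.length + 1) (D.B.length + 1) = D.u 2 t := by
    rw [BU, A10.sN_top wt_one90 0 ht]
    simp only [CD.u, uM, sq, abs_mul_abs_self]
  rw [← h2, Tw.sN, Tw.sN, if_pos rfl, if_pos rfl, if_pos rfl, if_pos rfl]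
  have h3 : (BU D).f2 (tw D.B.length t) = (Bt D).f2 (tw D.B.length t) +
    D.del (tw D.B.length t 0 1) * D.del (tw D.B.length t 0 1) := h1
  rw [h3, tw_01 ht]; ring

theorem abs_var (D : CD) (t : ℕ) :
    |(Bt D).sN D.B.length t (D.B.length + 1) (D.B.length + 1)| ≤ 4 := by
  have e : ∀ (j : ℕ) (x y : Cube D.n), |oU D.rb j x y| ≤ 2 := fun j x y =>
    (abs_sub _ _).trans (by linarith [abs_ov_le x y, abs_rb D j])
  rw [Tw.sN, if_pos rfl, if_pos rfl]
  refine abs_TM wt_one90 0 (rz_tw _ _) fun u => ?_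
  rw [abs_mul]
  exact (mul_le_mul (e _ _ _) (e _ _ _) (abs_nonneg _) zero_le_two).trans_eq (by norm_num)

theorem abs_cS (h : D.Ok τ0) {r : ℕ} {σ : SM r} (hσ : Rz D.B.length σ) (a b c d : Fin r) :
    |TM (fun _ => 1) D.S 0 σ (fun x => ed (eK D.q) a b x σ * ed (eK D.q) c d x σ)| ≤ 4 := by
  refine abs_TM wt_one90 0 (rzS hσ) fun u => ?_
  rw [abs_mul]
  exact (mul_le_mul (abs_oE_le h.ook ((hσ.le a b).trans_eq D.B_len) _ _)
    (abs_oE_le h.ook ((hσ.le c d).trans_eq D.B_len) _ _) (abs_nonneg _) zero_le_two).trans_eq (by norm_num)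

theorem abs_NL_lev (h : D.Ok τ0) {t : ℕ} (ht : t ≤ D.B.length) :
    |NL D.B ((wt (ind t) (ind t)).mul (cS D))| ≤ 44 * D.dx t ^ 2 :=
  (NL_ind h.mono ht (fun _ hσ => abs_cS h hσ 1 2 0 1) fun _ hσ => abs_cS h hσ 2 3 0 1).trans_eq
    (by norm_num)

/-- **the same-node part** at one node -/
theorem SN_le (h : D.Ok τ0) {x : ℕ} (hx : x ∈ D.up) :
    |SN D.B ((cS D).mul (Bt D)) x -
        SN D.B (cS D) x * (Bt D).sN D.B.length x (D.B.length + 1) (D.B.length + 1)| ≤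
      968 * (D.e x ^ 2 * D.v x x + ∑ t ∈ Ioo x D.K, D.dx t * (D.e t * D.v x t)) := by
  have m := CD.mem_up.1 hx
  have hK := D.B_len
  have hx' : x ≤ D.B.length := by omega
  have hc : (Sy41.ovL D.n).cov = ov := funext fun a => funext (Sy41.cov_ovL h.pos a)
  have eB : Bt D = ee (fun _ => 1) D.B 0 (uK (Sy41.ovL D.n) D.rb) (uK (Sy41.ovL D.n) D.rb) := by
    unfold uK; rw [hc]; rfl
  set V := A10.vv (fun _ => 1) D.B (Sy41.ovL D.n) 0 x with hV
  have eV : ∀ t ≤ D.B.length, V t = D.v x t := fun t ht => by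
    rw [hV, A10.vv, if_pos ht]
    unfold Eg33.vt Eg33.vz
    rw [hc]; rfl
  have V0 : V (D.B.length + 1) = 0 := if_neg (by omega)
  have q01 := h.ook.mem m.2.le
  have key := SN_diff (c := cS D) (B := Bt D) h.mono hx' (v := V)
    (a := fun t => (D.Gam t + 2 * D.q x) * V t) (fun t t' a1 a2 a3 a4 => by
      have := abs_cN (r1S h) (monoS h) (q := D.q) (t := t) (t' := t') (S_len D ▸ hx') q01.1 q01.2 a1
        (S_len D ▸ a2) a3 (S_len D ▸ a4)
      rw [S_len] at this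
      constructor
      · rcases a2.lt_or_eq with c | c
        · exact mul_le_mul_of_nonneg_right (this.1 (by omega))
            (by rw [eV t (by omega)]; exact D.v0 _ _)
        · rw [c, V0, mul_zero, mul_zero]
      · rcases a4.lt_or_eq with c | c
        · exact mul_le_mul_of_nonneg_right (this.2 (by omega))
            (by rw [eV t' (by omega)]; exact D.v0 _ _)
        · rw [c, V0, mul_zero, mul_zero])
    (fun t t' a1 a2 a3 a4 => by rw [eB]; exact sN_leg wt_one90 0 _ D.rb hx' a1 a2 a3 a4)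
  refine key.trans ?_
  have b1 : ∀ t ∈ D.up, x ≤ t → (D.Gam t + 2 * D.q x) * V t ≤ 242 * (D.e t * D.v x t) :=
    fun t ht hxt => by
      rw [eV t (by have := CD.mem_up.1 ht; omega), ← mul_assoc]
      exact mul_le_mul_of_nonneg_right
        (by linarith [Gam_le h ht, q_le h hx, h.e_mono hxt]) (D.v0 _ _)
  have b2 : ex D.B x * ((D.Gam x + 2 * D.q x) * V x) ≤ 242 * (D.e x ^ 2 * D.v x x) := by
    have h1 := mul_le_mul_of_nonneg_left (b1 x hx le_rfl) (h.ex0 x)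
    have h2 := mul_le_mul_of_nonneg_right (ex_le h hx) (mul_nonneg (h.e0 x) (D.v0 x x))
    nlinarith
  have b3 : ∑ t ∈ Ioc x D.B.length, dm D.B 0 t * ((D.Gam t + 2 * D.q x) * V t) ≤
      242 * ∑ t ∈ Ioo x D.K, D.dx t * (D.e t * D.v x t) := by
    rw [hK, ← Finset.Ioo_insert_right m.2, sum_insert (by simp), show dm D.B 0 D.K = 0 from h.top,
      zero_mul, zero_add, mul_sum]
    refine sum_le_sum fun t ht => ?_
    have m' := mem_Ioo.1 ht
    exact (mul_le_mul_of_nonneg_left (b1 t (CD.mem_up.2 ⟨by omega, m'.2⟩) m'.1.le)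
      (h.dx0 t)).trans_eq (by ring)
  simp only [V0, mul_zero, zero_add]
  linarith

theorem sum_lad (h : D.Ok τ0) :
    D.I (fun x => D.e x ^ 2 * D.v x x + ∑ t ∈ Ioo x D.K, D.dx t * (D.e t * D.v x t)) ≤ D.E0 := by
  refine le_trans ?_ h.Lad0_le
  rw [D.I_add, CD.Lad0, add_assoc]
  refine le_add_of_nonneg_of_le h.Lad0_parts.1 (add_le_add le_rfl ?_)
  simp only [CD.I, mul_sum]
  rw [sum_comm' (t' := D.up) (s' := fun t => Ioo D.J t) fun x t => by
    simp only [mem_Ioo]; omega]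
  refine sum_le_sum fun t _ => ?_
  refine (sum_congr rfl fun x _ => (by ring : _ = D.dx t * (D.e t * (D.dx x * D.v x t)))).trans_le
    (sum_le_sum_of_subset_of_nonneg (fun x hx => ?_) fun x _ _ =>
      mul_nonneg (h.dx0 t) (mul_nonneg (h.e0 t) (mul_nonneg (h.dx0 x) (D.v0 x t))))
  have := mem_Ioo.1 hx
  exact mem_Ico.2 ⟨by omega, this.2⟩

/-- the local remainder -/
def Rl (D : CD) : ℝ := ∑ x ∈ D.up, D.τ x ^ 2 / 4 *
  (2 * (D.dx x * (SN D.B ((cS D).mul (Bt D)) x -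
      SN D.B (cS D) x * (Bt D).sN D.B.length x (D.B.length + 1) (D.B.length + 1))) -
    (Bt D).sN D.B.length x (D.B.length + 1) (D.B.length + 1) *
      NL D.B ((wt (ind x) (ind x)).mul (cS D)))

theorem bd_Rl : Bd false Rl := Bd.val fun τ0 => ⟨τ0 ^ 2 / 4 * (1936 + 176), fun D h _ => by
  have h1 := sum_lad h
  have h2 := h.dx_le
  have h3 : |Rl D| ≤ τ0 ^ 2 / 4 * (1936 * D.I (fun x => D.e x ^ 2 * D.v x x +
      ∑ t ∈ Ioo x D.K, D.dx t * (D.e t * D.v x t)) + 176 * D.I D.dx) := by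
    rw [CD.I, CD.I, mul_sum, mul_sum, ← sum_add_distrib, mul_sum]
    refine (abs_sum_le_sum_abs _ _).trans (sum_le_sum fun x hx => ?_)
    have m := CD.mem_up.1 hx
    have a1 := mul_le_mul_of_nonneg_left (SN_le h hx) (h.dx0 x)
    have a2 := mul_le_mul (abs_var D x) (abs_NL_lev h (t := x) (by rw [D.B_len]; exact m.2.le))
      (abs_nonneg _) (by norm_num)
    have a3 := h.tau_mem x
    rw [abs_mul, abs_of_nonneg (by positivity : 0 ≤ D.τ x ^ 2 / 4)]
    refine mul_le_mul (by nlinarith [a3.1, a3.2]) ((abs_sub _ _).trans ?_) (abs_nonneg _)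
      (by positivity)
    rw [abs_mul, abs_mul, abs_mul, abs_two, abs_of_nonneg (h.dx0 x)]
    nlinarith
  refine h3.trans ?_
  rw [mul_assoc]
  exact mul_le_mul_of_nonneg_left (by linarith) (by positivity)⟩

theorem q2_eq (HL : LinkS) (h : D.Ok τ0) (hW : D.W.isSome = false) :
    D.tw [aU, aU] - (D.QM + D.LOC) = NL D.B (Tc D) + Rl D := by
  obtain ⟨l1, l2, l3⟩ := HL τ0 D h hW
  have hK := D.B_len
  have e1 := cen D
  have e2 := Ful_exp D.B (Sy_Tc D)
  have e3 : Q75.Sm D.B (range (D.B.length + 1)) (SN D.B (Tc D)) =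
      ∑ x ∈ D.up, D.τ x ^ 2 / 4 * (D.dx x * SN D.B ((cS D).mul (Bt D)) x) := by
    refine (sum_subset (fun x hx => ?_) fun x hx hx' => ?_).symm.trans (sum_congr rfl fun x hx => ?_)
    · have := CD.mem_up.1 hx
      exact mem_range.2 (by omega)
    · have h1 := mem_range.1 hx
      rw [Tc, mul_assoc', SN_wt _ _ (by omega)]
      by_cases c : D.J < x
      · rw [show x = D.K by rw [CD.mem_up] at hx'; omega, show dm D.B 0 D.K = 0 from h.top, zero_mul]
      · rw [ph, if_neg c]; ring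
    · have := CD.mem_up.1 hx
      rw [Tc, mul_assoc', SN_wt _ _ (by omega), ph, if_pos this.1]
      ring
  have e4 : D.LOC = ∑ x ∈ D.up, D.τ x ^ 2 / 4 *
      ((Bt D).sN D.B.length x (D.B.length + 1) (D.B.length + 1) *
        (2 * (D.dx x * SN D.B (cS D) x) + NL D.B ((wt (ind x) (ind x)).mul (cS D)))) :=
    sum_congr rfl fun x hx => by
      have : x ≤ D.B.length := by have := CD.mem_up.1 hx; omega
      rw [l3 x hx, Ful_lev D this, var_eq D this, mul_assoc]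
  have e5 : Rl D = 2 * Q75.Sm D.B (range (D.B.length + 1)) (SN D.B (Tc D)) - D.LOC := by
    rw [e3, e4, mul_sum, ← sum_sub_distrib]
    exact sum_congr rfl fun x _ => by ring
  rw [l1, CD.QM, l2, e5]
  linarith

/-- **the word `[aU, aU]`, value direction** -/
theorem q2_of (HL : LinkS) (HN : NLS) : Q2S false :=
  (Bd.add HN bd_Rl).congr fun _ _ h hW => q2_eq HL h hW

end Crest.Agent.T156.Cas.C40.Q10

end
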