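import Crest.Agent.T156.CY4B_89
import Crest.Agent.T156.CLow_90
import Crest.Agent.T156.CMxR_90_Mg
import Crest.Agent.T156.CMxM_23
import Crest.Agent.T156.CQ2_10_Mg
import Crest.Agent.T156.CLink_87
import Crest.Agent.T156.C3D_94
import Crest.Agent.T156.CWk_55
import Crest.Agent.T156.C3P_47_Mg
import Crest.Agent.T156.C3L_97
import Crest.Agent.T156.CL3_76
import Crest.Agent.T156.CCr4_6
import Crest.Agent.T156.CErr_54
import Crest.Agent.T156.CGl_31
import Crest.Agent.T156.CEx_23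
import Crest.Agent.T156.CRem_23
import Crest.Agent.T156.CYh_14
import Crest.Agent.T156.CCr5_54_Mg
import Crest.Agent.T156.CAbF_22
import Crest.Agent.T156.Swp_99
import Crest.Agent.T156.Mv_7
import Crest.Agent.T156.CKit_32
import Crest.Agent.T156.Ec_52
import Crest.Agent.T156.CStA_54
import Crest.Agent.T156.Cub_94
import Crest.Agent.T156.C3n_47
import Crest.Agent.T156.Eb_31
import Crest.Agent.T156.EcB_52
import Crest.Agent.T156.CWk2_40
import Crest.Agent.T156.C3nB_47
import Crest.Agent.T156.SFReg_97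
import Crest.Agent.T156.CY2A_44
import Crest.Agent.T156.CStUb_4

-- ▼ part T156/CY4_89
section

/-!
# Row 156, block C (helper89): the leaf `Y4S`
-/

namespace Crest.Agent.T156.Cas.C40

/-- **leaf `Y4S`**, both directions -/
theorem y4S (b : Bool) : Y4S b := Y4.y4S_of b (L90.red_a4 b)

end Crest.Agent.T156.Cas.C40
end

-- ▼ part T156/CMxZ_84
section

/-!
# Row 156, block C: the centred mixed word, and the mixed word (helper84)
-/

set_option autoImplicit false

namespace Crest.Agent.T156.Cas.C40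

theorem mxC (b : Bool) : Mx23.MxC b := Mx84.mxC_of (Mx84.redS_of Mx84.bkS) Mx84.wkS b

theorem mxS_false : MxS false := Mx23.mxS_of Mx23.mxM_false (mxC false)

theorem mxS_true_of (h : Mx23.MxM true) : MxS true := Mx23.mxS_of h (mxC true)

end Crest.Agent.T156.Cas.C40
end

-- ▼ part T156/CQ2F_75
section

/-!
# Row 156 (helper75): the leaf `Q2S false`
-/

namespace Crest.Agent.T156.Cas.C40

theorem q2S_false : Q2S false := Q10.q2_of Q10.linkS N75.nlS

end Crest.Agent.T156.Cas.C40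
end

-- ▼ part T156/C3T_87
section

/-!
# Row 156, block C (helper87): `TlS` of `C3D_94`

A free leaf grafted on the path of `c` after `t` levels is integrated out (`Wf99.g1_eq`), which
leaves a functional of one path; `Cw55.tail_env` bounds its tail sums.
-/

set_option autoImplicit false
set_option linter.all false

noncomputable section

namespace Crest.Agent.T156.Cas.C394

open Crest.Agent.T157.E Crest.Agent.T157.Casc Crest.Agent.T157.SL
open C40 Nu87 Ck32

/-- a free leaf grafted on the path of `c` is integrated out -/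
theorem TM_leaf {Ω : Type} [Fintype Ω] {w : Ω → ℝ} (hw : Wt w) (L : List (Lv Ω)) (h : Ω → ℝ)
    {r : ℕ} {s : Sh} (e : Fin r ≃ s.Lf) (c : Fin r) (t : ℕ) (G : (Fin r → Ω) → ℝ)
    (K : Ω → Ω → ℝ) :
    TM w L h (gr L.length (sm s e L.length) c t)
      (fun ω => G (fun a => ω a.succ) * K (ω c.succ) (ω 0)) = tX w s L h fun g x =>
        G (fun a => x (e a)) * Pf w (L.drop t) (stT s L h g (e c) t) (K (x (e c))) := by
  rw [← sm_gr, TM_sm hw _ L h (grE e (e c) t).injective]
  exact Wf99.g1_eq hw s (e c) t (e c) L h (fun _ => K) fun x => G fun a => x (e a)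

/-- **`TlS`** -/
theorem tlS : TlS := by
  intro τ0 D H μ F f W r σ hσ c G A b hb hA m
  obtain ⟨s, e, rfl⟩ := hσ
  have hb0 : 0 ≤ b := (abs_nonneg _).trans (hb fun _ _ => true)
  simp only [TB] at hA ⊢
  rw [TM_sm wt_one90 s D.B 0 e.injective] at hA
  simp only [TM_leaf wt_one90 D.B 0 e c _ G]
  exact Cw55.tail_env wt_one90 s (e c) D.B 0 (G := fun _ x => G fun a => x (e a))
    (fun _ => Eg.const _) _ μ (Y := Cw55.Yl D) (Cw55.eg_Yl D) (W.nn m).1 hb0 hA
    (fun _ _ => hb _) (W.envL m)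

end Crest.Agent.T156.Cas.C394

end
end

-- ▼ part T156/C3_94
section

/-!
# Row 156, block C (helper94): the leaf `C3S false`
-/

set_option autoImplicit false

namespace Crest.Agent.T156.Cas.C40

open C394

/-- **leaf `C3S false`** -/
theorem c3F : C3S false := (redS (excS_of (repS_of rlS) (maiS tlS))).sub l3S

end Crest.Agent.T156.Cas.C40
end

-- ▼ part T156/CCr4F_6
section

/-!
# Row 156, block C: `Cr4 false` (helper6)
-/

set_option autoImplicit false
set_option linter.all false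

namespace Crest.Agent.T156.Cas.C40

/-- degree four with an upper letter, value direction -/
theorem cr4F : Cr4 false := fun f h4 he hu τ0 => by
  obtain ⟨C, hC, H⟩ := Cr6.abs_tm4 f h4 he hu τ0
  refine ⟨C * 3, by positivity, fun D hD hW => ?_⟩
  have h1 := hD.X6_le
  have h2 := hD.tl_le
  have h3 := hD.Iu4_le
  have h5 := hD.E0_le hW
  show |D.tw f| ≤ _
  rw [CD.tw, CD.dd_val hW, mul_assoc]
  exact (H D hD).trans (mul_le_mul_of_nonneg_left (by linarith) hC)

end Crest.Agent.T156.Cas.C40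
end

-- ▼ part T156/CVal_54
section

/-!
# Row 156, block C: the three value heads (helper54)
-/

set_option autoImplicit false

namespace Crest.Agent.T156.Cas.C40

theorem heads : HV ∧ HL ∧ HU :=
  glueV exS remS ⟨yhS _, y2S _, y3S _, y4S _, lbS _, mxS_false, q2S_false, c3F,
    abS_false, Ck32.crO _, cr4F, cr5 _⟩ l3S

/-- (val) -/
theorem hV : HV := heads.1

/-- (amp LOW) -/
theorem hL : HL := heads.2.1

/-- (amp UP) -/
theorem hU : HU := heads.2.2

end Crest.Agent.T156.Cas.C40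
end

-- ▼ part T156/SwpB_99
section

/-!
# Row 156: a spin-free marked pair against low letters (helper99)
-/

set_option autoImplicit false
set_option linter.all false

noncomputable section

namespace Crest.Agent.T156.Cas.Swp99

open MeasureTheory Real Set Filter Topology
open Crest.Agent.T157.E Crest.Agent.T157.Casc Crest.Agent.T157.SL
open Wt87 Nu87 R90 Mul55

variable {Ω S : Type} [Fintype Ω] [Fintype S]

/-- the low levels -/
def lo (J y : ℕ) : ℝ := if 1 ≤ y ∧ y ≤ J then 1 else 0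

theorem lo_nn (J y : ℕ) : 0 ≤ lo J y := by unfold lo; split_ifs <;> norm_num


theorem sum_lo {Θ : Type} (L : List (Lv Θ)) {J : ℕ} (hJ : J ≤ L.length) (g : ℕ → ℝ) :
    ∑ y ∈ Finset.range (L.length + 1), dm L 0 y * (lo J y * g y) =
      ∑ y ∈ Finset.Icc 1 J, dm L 0 y * g y := by
  simp only [lo, ite_mul, one_mul, zero_mul, mul_ite, mul_zero]
  rw [← Finset.sum_filter]
  refine Finset.sum_congr (Finset.ext fun y => ?_) fun _ _ => rfl
  simp only [Finset.mem_filter, Finset.mem_range, Finset.mem_Icc]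
  omega

theorem minj {s : Sh} {n : ℕ} {τ : GT s} (H : τ.Mem s n) : Function.Injective τ.e := by
  cases H with
  | g0 => exact Function.injective_id
  | g1 => exact Tay38.emb_inj _ _ _
  | g1' => exact Tay38.emb_inj _ _ _
  | g2 => exact (Tay38.emb_inj _ _ _).comp (Tay38.emb_inj _ _ _)
  | g3 => exact (Tay38.emb_inj _ _ _).comp (Tay38.emb_inj _ _ _)

theorem twoR_ne (j : ℕ) : Sh.twoR j ≠ Sh.twoL j := (Tay38.emb_ne .one () j ()).symm

/-- the data of the bulk -/
structure Hy (w : Ω → ℝ) (L : List (Lv Ω)) (h : Ω → ℝ) (R : Ω → Ω → ℝ) (q ω c : ℕ → ℝ)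
    (A : Finset ℕ) (J : ℕ) (c₀ X tl Fm x₁ : ℝ) : Prop where
  wt : Wt w
  mono : Mono 0 L
  sy : ∀ x y, R x y = R y x
  r1 : ∀ x y, |R x y| ≤ 1
  q1 : ∀ j ∈ A, |q j| ≤ 1
  lt : J < L.length
  up : ∀ j ∈ A, J < j ∧ j ≤ L.length
  c0 : 0 ≤ c₀
  cl : ∀ y, |c y| ≤ c₀ * lo J y
  X0 : 0 ≤ X
  X1 : X ≤ 1
  t0 : 0 ≤ tl
  env : ∀ y, 1 ≤ y → y ≤ J → pi2 w L y (fun x z => max (|R x z| - X) 0) h ≤ tl
  fm0 : 0 ≤ Fm
  fm : pE w L h (fun g x =>
    (∑ j ∈ A, ω j * Pf w (L.drop j) (st L j h g) fun z => R z x - q j) ^ 2) ≤ Fm ^ 2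
  x1 : ∑ y ∈ Finset.Icc 1 J, dm L 0 y ≤ x₁

variable {w : Ω → ℝ} {L : List (Lv Ω)} {h : Ω → ℝ} {R : Ω → Ω → ℝ} {q ω c : ℕ → ℝ}
  {A : Finset ℕ} {J : ℕ} {c₀ X tl Fm x₁ : ℝ}

/-- the marked pair with a fresh partner -/
def Fr (w : Ω → ℝ) (L : List (Lv Ω)) (h : Ω → ℝ) (R : Ω → Ω → ℝ) (q : ℕ → ℝ) (j : ℕ) (s : Sh)
    (a : s.Lf) (G : (s.Lf → Ω) → ℝ) : ℝ :=
  TE w (s.graft a j) L h fun x =>
    (R (x (s.nw a j)) (x (s.emb a j a)) - q j) * G fun b => x (s.emb a j b)

namespace Hy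
variable (H : Hy w L h R q ω c A J c₀ X tl Fm x₁)
include H

theorem x0 : 0 ≤ x₁ := (Finset.sum_nonneg fun y _ => dm_nonneg H.mono y).trans H.x1

theorem low {y : ℕ} (e : c y ≠ 0) : 1 ≤ y ∧ y ≤ J ∧ lo J y = 1 := by
  have := H.cl y
  unfold lo at this ⊢
  split_ifs at this ⊢ with h1
  · exact ⟨h1.1, h1.2, rfl⟩
  · exact absurd (abs_nonpos_iff.1 (by simpa using this)) e

/-- one tail -/
theorem tail (s : Sh) (a : s.Lf) {G : (s.Lf → Ω) → ℝ} (hG : ∀ x, |G x| ≤ 1) {ε : ℝ}
    (hε : TE w s L h (fun x => max (|G x| - X ^ 2) 0) ≤ ε) :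
    |∑ j ∈ A, ω j * Fr w L h R q j s a G| ≤ X ^ 2 * Fm + ε * (2 * ∑ j ∈ A, |ω j|) := by
  have hw := H.wt
  have X2 := sq_nonneg X
  have e1 : ∀ j (G : (s.Lf → Ω) → ℝ), Fr w L h R q j s a G = tX w s L h fun g x =>
      G x * Pf w (L.drop j) (stT s L h g a j) fun z => R z (x a) - q j := fun j G => by
    rw [← (Cw55.three hw s L h (fun _ x z => R z x - q j) G a).1 j]
    exact congrArg _ (funext fun x => mul_comm _ _)
  have e2 : ∀ j, Fr w L h R q j s a G = Fr w L h R q j s a (fun x => clp (X ^ 2) (G x)) +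
      Fr w L h R q j s a fun x => G x - clp (X ^ 2) (G x) := fun j => by
    rw [Fr, Fr, Fr, ← Law.TE_add hw]
    exact congrArg _ (funext fun x => by ring)
  have eg : ∀ j x, Eg fun z => Pf w (L.drop j) z fun z => R z x - q j := fun j x =>
    Eg.sum _ fun x _ => (eg_P hw _ x).mul_const _
  have b1 := Cw55.tail_cen hw s a L h (G := fun _ x => clp (X ^ 2) (G x)) (fun _ => Eg.const _) A ω
    (Y := fun j x z => Pf w (L.drop j) z fun z => R z x - q j) eg X2 H.fm0
    ((Law.TE_mono hw s L h fun x => sq_le_sq' (neg_le_of_abs_le (clp_le X2 (G x)).1)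
      (le_of_abs_le (clp_le X2 (G x)).1)).trans (Law.TE_const hw s L h _).le) H.fm
  have b2 := Cw55.tail_env hw s a L h (G := fun _ x => G x - clp (X ^ 2) (G x)) (fun _ => Eg.const _)
    A ω (Y := fun j x z => Pf w (L.drop j) z fun z => R z x - q j) eg (A := ε) (A' := 1)
    (F := 2 * ∑ j ∈ A, |ω j|) (ε := 0) (by positivity) zero_le_one
    ((Law.TE_mono hw s L h fun x => (clp_le X2 (G x)).2.2).trans hε)
    (fun _ x => (clp_le X2 (G x)).2.2.trans (max_le (by linarith [hG x]) zero_le_one))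
    (by
      refine le_of_eq ((congrArg _ (funext fun g => funext fun x => max_eq_right ?_)).trans
        (show pE w L h (fun _ _ => 0) = 0 by simp [pE]))
      rw [sub_nonpos, Finset.mul_sum]
      refine (Finset.abs_sum_le_sum_abs _ _).trans (Finset.sum_le_sum fun j hj => ?_)
      rw [abs_mul, mul_comm]
      refine mul_le_mul_of_nonneg_right ((Finset.abs_sum_le_sum_abs _ _).trans
        ((Finset.sum_le_sum (g := fun y => P w (L.drop j) (st L j h g) y * 2) fun z _ => ?_).trans_eq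
          (by rw [← Finset.sum_mul, sum_P hw, one_mul]))) (abs_nonneg _)
      rw [abs_mul, abs_of_nonneg (P_nonneg hw _ _ z)]
      exact mul_le_mul_of_nonneg_left (by linarith [abs_sub (R z x) (q j), H.r1 z x, H.q1 j hj])
        (P_nonneg hw _ _ z))
  simp only [e2, mul_add, Finset.sum_add_distrib]
  simp only [e1]
  linarith [abs_add_le (∑ j ∈ A, ω j * tX w s L h fun g x => clp (X ^ 2) (G x) *
    Pf w (L.drop j) (stT s L h g a j) fun z => R z (x a) - q j) (∑ j ∈ A, ω j * tX w s L h fun g x =>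
      (G x - clp (X ^ 2) (G x)) * Pf w (L.drop j) (stT s L h g a j) fun z => R z (x a) - q j)]

/-- two low edges: the excess -/
theorem exc2 (s : Sh) {p₁ q₁ p₂ q₂ : s.Lf} (n₁ : p₁ ≠ q₁) (n₂ : p₂ ≠ q₂)
    (c₁ : c (s.shr p₁ q₁ L.length) ≠ 0) (c₂ : c (s.shr p₂ q₂ L.length) ≠ 0) :
    TE w s L h (fun x => max (|R (x p₁) (x q₁) * R (x p₂) (x q₂)| - X ^ 2) 0) ≤ 2 * tl := by
  have a1 := H.env _ (H.low c₁).1 (H.low c₁).2.1
  have a2 := H.env _ (H.low c₂).1 (H.low c₂).2.1
  rw [← TE_pair H.wt s L h n₁] at a1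
  rw [← TE_pair H.wt s L h n₂] at a2
  refine (Law.TE_mono H.wt s L h (G := fun x => max (|R (x p₁) (x q₁)| - X) 0 +
    max (|R (x p₂) (x q₂)| - X) 0) fun x => ?_).trans (by rw [Law.TE_add H.wt]; linarith)
  have h1 := H.r1 (x p₂) (x q₂)
  have h2 := abs_nonneg (R (x p₂) (x q₂))
  have h3 := le_max_left (|R (x p₁) (x q₁)| - X) 0
  have h4 := le_max_right (|R (x p₁) (x q₁)| - X) 0
  have h5 := le_max_left (|R (x p₂) (x q₂)| - X) 0
  have h6 := le_max_right (|R (x p₂) (x q₂)| - X) 0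
  rw [abs_mul]
  refine max_le ?_ (by linarith)
  nlinarith [mul_le_mul_of_nonneg_right h3 h2, mul_le_mul_of_nonneg_left h5 H.X0,
    mul_le_mul_of_nonneg_left h1 h4, mul_le_mul_of_nonneg_right H.X1 h6]

/-- two low edges: the replacement -/
theorem rep2 (s : Sh) {a b p₁ q₁ p₂ q₂ : s.Lf} {j : ℕ} (hJ : J < j) (hab : a ≠ b)
    (e : s.shr a b L.length = j) (n₁ : p₁ ≠ q₁) (n₂ : p₂ ≠ q₂)
    (c₁ : c (s.shr p₁ q₁ L.length) ≠ 0) (c₂ : c (s.shr p₂ q₂ L.length) ≠ 0) :
    |TE w s L h (fun x => (R (x b) (x a) - q j) * (R (x p₁) (x q₁) * R (x p₂) (x q₂))) -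
      Fr w L h R q j s a fun x => R (x p₁) (x q₁) * R (x p₂) (x q₂)| ≤ 4 * vU w L h R j j +
        2 * vU w L h R (s.shr p₁ q₁ L.length) j + 2 * vU w L h R (s.shr p₂ q₂ L.length) j := by
  have l₁ := (H.low c₁).2.1
  have l₂ := (H.low c₂).2.1
  have := rep (L := L) (h := h) H.wt R R (pt := fun i : Bool × Bool => (i.1, !i.2))
    (fun i => by rcases i with ⟨_ | _, _ | _⟩ <;> decide)
    (G := fun y => R (y (false, false)) (y (false, true)) * R (y (true, false)) (y (true, true)))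
    (c := 1) one_pos (fun y i z => by
      have k : ∀ u v t : ℝ, |t| ≤ 1 → |u * t - v * t| ≤ 1 * |u - v| ∧ |t * u - t * v| ≤ 1 * |u - v| :=
        fun u v t ht => by
          rw [← sub_mul, ← mul_sub, abs_mul, abs_mul, mul_comm |t|, one_mul, and_self]
          exact mul_le_of_le_one_right (abs_nonneg _) ht
      rcases i with ⟨_ | _, _ | _⟩
      · simpa using (k _ _ _ (H.r1 _ _)).1
      · simpa [H.sy (y (false, false))] using (k _ _ _ (H.r1 _ _)).1
      · simpa using (k _ _ _ (H.r1 _ _)).2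
      · simpa [H.sy (y (true, false))] using (k _ _ _ (H.r1 _ _)).2) s hab e
    (mk := fun i => cond i.1 (cond i.2 q₂ p₂) (cond i.2 q₁ p₁))
    (fun i => by
      rcases i with ⟨_ | _, _ | _⟩
      exacts [n₁, n₁.symm, n₂, n₂.symm])
    fun i => by
      rcases i with ⟨_ | _, _ | _⟩ <;> simp only [cond, Bool.not_true, Bool.not_false, shr_comm s q₁,
        shr_comm s q₂] <;> omega
  simp only [Fintype.sum_prod_type, Fintype.sum_bool, cond, Bool.not_true, Bool.not_false,
    shr_comm s q₁ p₁, shr_comm s q₂ p₂] at this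
  simp only [Fr, sub_mul, Law.TE_sub H.wt, Law.TE_const_mul H.wt]
  rw [TE_emb H.wt s a j L h fun x => R (x p₁) (x q₁) * R (x p₂) (x q₂), sub_sub_sub_cancel_right]
  linarith

/-- weights of one low edge -/
theorem w1 (s : Sh) (hs : ∀ a b : s.Lf, a ≠ b → J < s.shr a b L.length) (hc : Fintype.card s.Lf ≤ 2)
    {g : ℕ → ℝ} (hg : ∀ y, 0 ≤ g y) : Nv L (fun y => lo J y * g y) s =
      ∑ y ∈ Finset.Icc 1 J, dm L 0 y * g y := by
  rw [Nv, sum_lo L H.lt.le, prs, Finset.sum_eq_zero fun a _ => Finset.sum_eq_zero fun b _ => ?_,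
    zero_add]
  split_ifs with e
  · rfl
  · have := hs a b e
    rw [lo, if_neg (by omega), zero_mul]

theorem two_hi {j : ℕ} (hj : j ∈ A) (a b : (Sh.two j).Lf) (e : a ≠ b) :
    J < (Sh.two j).shr a b L.length := by
  have := H.up j hj
  rcases two_cases j a with rfl | rfl <;> rcases two_cases j b with rfl | rfl
  · exact absurd rfl e
  · rw [shr_two]; omega
  · rw [shr_comm, shr_two]; omega
  · exact absurd rfl e

end Hy

/-- the valuation of two low letters -/
def V2 (w : Ω → ℝ) (L : List (Lv Ω)) (h : Ω → ℝ) (R : Ω → Ω → ℝ) (q c : ℕ → ℝ) (w₂ : S → ℝ)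
    (T : List (Lv S)) (h₂ : S → ℝ) (Z : ℕ → S → S → ℝ) (j : ℕ) :
    Val (Option (Option (Option (Option Unit)))) := fun s m =>
  c (s.shr (m (some (some (some none)))) (m (some (some none))) L.length) *
    c (s.shr (m (some none)) (m none) L.length) *
  Fr w L h R q j s (m (some (some (some (some ())))))
    (fun x => R (x (m (some (some (some none))))) (x (m (some (some none)))) *
      R (x (m (some none))) (x (m none))) *
  TE w₂ s T h₂ fun x => Z (s.shr (m (some (some (some none)))) (m (some (some none))) T.length)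
    (x (m (some (some (some none))))) (x (m (some (some none)))) *
      Z (s.shr (m (some none)) (m none) T.length) (x (m (some none))) (x (m none))

variable {w₂ : S → ℝ} {T : List (Lv S)} {h₂ : S → ℝ} {Z : ℕ → S → S → ℝ} {z : ℝ}

theorem inv_V2 (hw : Wt w) (hw₂ : Wt w₂) (hT : T.length = L.length) (j : ℕ) :
    Inv L.length (V2 w L h R q c w₂ T h₂ Z j) :=
  (((inv_lev _ _ _ c).mul (inv_lev _ _ _ c)).mul (inv_gr hw (some (some (some (some ())))) j
    fun _ y => (R (y none) (y (some (some (some (some (some ())))))) - q j) *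
      (R (y (some (some (some (some none))))) (y (some (some (some none)))) *
        R (y (some (some none))) (y (some none))))).mul (hT ▸ inv_TE hw₂ fun σ y =>
          Z (σ (some (some (some none))) (some (some none))) (y (some (some (some none))))
            (y (some (some none))) * Z (σ (some none) none) (y (some none)) (y none))

theorem abs_site (hw₂ : Wt w₂) (hZ : ∀ y, c y ≠ 0 → ∀ a b, |Z y a b| ≤ z) (s : Sh) {y y' : ℕ}
    (hy : c y ≠ 0) (hy' : c y' ≠ 0) (a b a' b' : s.Lf) :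
    |TE w₂ s T h₂ fun x => Z y (x a) (x b) * Z y' (x a') (x b')| ≤ z ^ 2 :=
  (abs_TE_le' hw₂ s T h₂ fun x => by
    rw [abs_mul, sq]
    exact mul_le_mul (hZ _ hy _ _) (hZ _ hy' _ _) (abs_nonneg _)
      ((abs_nonneg _).trans (hZ y hy (x a) (x b)))).trans (Law.TE_const hw₂ s T h₂ _).le

/-- **a spin-free marked pair against two low letters** -/
theorem Hy.two_le (H : Hy w L h R q ω c A J c₀ X tl Fm x₁) (hw₂ : Wt w₂) (hT : T.length = L.length)
    (hZ : ∀ y, c y ≠ 0 → ∀ a b, |Z y a b| ≤ z) :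
    |∑ j ∈ A, ω j * wB (-1) L (fun s G ξ => TE w s L h G * TE w₂ s T h₂ ξ)
      [(fun y x x' => c y * R x x', Z), (fun y x x' => c y * R x x', Z)] (Sh.two j)
        (pr2 j fun x x' => R x x' - q j) fun _ => 1| ≤ 10 ^ 5 * (c₀ ^ 2 * z ^ 2) *
      (x₁ * (X ^ 2 * Fm + tl * ∑ j ∈ A, |ω j|) + ∑ j ∈ A, |ω j| * (x₁ * vU w L h R j j +
        ∑ y ∈ Finset.Icc 1 J, dm L 0 y * vU w L h R y j)) := by
  have hw := H.wt
  have cK : c L.length = 0 := by_contra fun e => by have := (H.low e).2.1; have := H.lt; omega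
  have cz : 0 ≤ c₀ ^ 2 * z ^ 2 := by positivity
  have cc : ∀ y y', |c y * c y'| ≤ c₀ ^ 2 * (lo J y * lo J y') := fun y y' => by
    rw [abs_mul, sq, mul_mul_mul_comm]
    exact mul_le_mul (H.cl y) (H.cl y') (abs_nonneg _) (mul_nonneg H.c0 (lo_nn J y))
  have d2 : ∀ j s m, m none = m (some none) → V2 w L h R q c w₂ T h₂ Z j s m = 0 := fun j s m e => by
    simp only [V2, e, shr_self, cK, mul_zero, zero_mul]
  have d1 : ∀ j s m, m (some (some none)) = m (some (some (some none))) →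
      V2 w L h R q c w₂ T h₂ Z j s m = 0 := fun j s m e => by
    simp only [V2, e, shr_self, cK, zero_mul]
  have I : ∀ j, Inv L.length (SG L (SG L (V2 w L h R q c w₂ T h₂ Z j))) := fun j =>
    ((inv_V2 hw hw₂ hT j).sg (d2 j)).sg (SG_zero (d1 j))
  have v0 := fun y t => vU_nonneg (L := L) (h := h) hw R y t
  -- the replacement
  have E : ∀ j ∈ A, |wB (-1) L (fun s G ξ => TE w s L h G * TE w₂ s T h₂ ξ)
      [(fun y x x' => c y * R x x', Z), (fun y x x' => c y * R x x', Z)] (Sh.two j)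
        (pr2 j fun x x' => R x x' - q j) (fun _ => 1) -
      SG L (SG L (V2 w L h R q c w₂ T h₂ Z j)) .one fun _ => ()| ≤ 10 ^ 5 * (c₀ ^ 2 * z ^ 2) *
        (x₁ * vU w L h R j j + ∑ y ∈ Finset.Icc 1 J, dm L 0 y * vU w L h R y j) := fun j hj => by
    have hj' := H.up j hj
    rw [← I j (Sh.two j) (fun _ => Sh.twoR j) .one (fun _ => ())
      ⟨fun _ _ => iff_of_true rfl rfl, fun _ _ => (shr_self _ _ _).trans (shr_self _ _ _).symm⟩,
      wB, SG, ← sg_sub]
    have g1 : ∀ y, 0 ≤ lo J y * (4 * vU w L h R j j + 2 * vU w L h R y j) := fun y =>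
      mul_nonneg (lo_nn J y) (by linarith [v0 j j, v0 y j])
    have g2 : ∀ y, 0 ≤ lo J y * (2 * vU w L h R y j) := fun y =>
      mul_nonneg (lo_nn J y) (by linarith [v0 y j])
    refine (abs_sg_le H.mono _ (Ψ := fun τ => c₀ ^ 2 * z ^ 2 *
      (64 * (lo J τ.j * (4 * vU w L h R j j + 2 * vU w L h R τ.j j)) +
        160 * Nv L (fun y => lo J y * (2 * vU w L h R y j)) τ.sh)) fun τ hτ => ?_).trans ?_
    · have cd : Fintype.card τ.sh.Lf ≤ 4 := hτ.card.trans (by rw [card_two])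
      rw [wB, SG, ← sg_sub]
      refine (abs_sg_le H.mono _ (Ψ := fun τ' => c₀ ^ 2 * z ^ 2 *
        (lo J τ.j * (4 * vU w L h R j j + 2 * vU w L h R τ.j j) +
          lo J τ'.j * (2 * vU w L h R τ'.j j))) fun τ' hτ' => ?_).trans ?_
      · have s1 : τ'.sh.shr (τ'.e τ.p) (τ'.e τ.q) L.length = τ.j := (hτ'.shr_e _ _ _).trans hτ.shr
        have s2 := hτ'.shr
        have e1 : TE w τ'.sh L h (τ'.ev (fun y x x' => c y * R x x') (τ.ev (fun y x x' => c y * R x x')
            (pr2 j fun x x' => R x x' - q j))) = c τ.j * c τ'.j * TE w τ'.sh L h fun x =>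
              (R (x (τ'.e (τ.e (Sh.twoL j)))) (x (τ'.e (τ.e (Sh.twoR j)))) - q j) *
                (R (x (τ'.e τ.p)) (x (τ'.e τ.q)) * R (x τ'.p) (x τ'.q)) := by
          rw [← Law.TE_const_mul hw]
          exact congrArg _ (funext fun x => by simp only [GT.ev, pr2]; ring)
        have e2 : TE w₂ τ'.sh T h₂ (τ'.ev Z (τ.ev Z fun _ => 1)) = TE w₂ τ'.sh T h₂ fun x =>
            Z τ.j (x (τ'.e τ.p)) (x (τ'.e τ.q)) * Z τ'.j (x τ'.p) (x τ'.q) :=
          congrArg _ (funext fun x => by simp only [GT.ev, one_mul])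
        simp only [wB, V2, tmk, ad_none, ad_some, hT, s1, s2, e1, e2]
        rw [← sub_mul, ← mul_sub, abs_mul, abs_mul]
        by_cases c1 : c τ.j = 0
        · rw [c1, zero_mul, abs_zero, zero_mul, zero_mul]
          exact mul_nonneg cz (add_nonneg (g1 _) (g2 _))
        by_cases c2 : c τ'.j = 0
        · rw [c2, mul_zero, abs_zero, zero_mul, zero_mul]
          exact mul_nonneg cz (add_nonneg (g1 _) (g2 _))
        have r := H.rep2 τ'.sh (a := τ'.e (τ.e (Sh.twoR j))) (b := τ'.e (τ.e (Sh.twoL j)))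
          (p₁ := τ'.e τ.p) (q₁ := τ'.e τ.q) hj'.1 ((minj hτ').ne ((minj hτ).ne (twoR_ne j)))
          (by rw [hτ'.shr_e, hτ.shr_e, shr_comm, shr_two, min_eq_left hj'.2])
          ((minj hτ').ne hτ.ne) hτ'.ne (s1 ▸ c1) (s2 ▸ c2)
        rw [s1, s2] at r
        have k := cc τ.j τ'.j
        rw [(H.low c1).2.2, (H.low c2).2.2] at k ⊢
        refine (mul_le_mul (mul_le_mul k r (abs_nonneg _) (by positivity))
          (abs_site hw₂ hZ _ c1 c2 _ _ _ _) (abs_nonneg _)
          (mul_nonneg (by positivity) ((abs_nonneg _).trans r))).trans_eq (by ring)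
      · rw [sg_const_mul, sg_add]
        refine mul_le_mul_of_nonneg_left (add_le_add ((Ker15.sg_le L _ cd (g1 _)).trans_eq
          (by norm_num)) ((Ker15.sg_lvl H.mono _ g2).trans (mul_le_mul_of_nonneg_right ?_
            (Tay38.Nv_nonneg H.mono g2 _)))) cz
        have : (Fintype.card τ.sh.Lf : ℝ) ≤ 4 := by exact_mod_cast cd
        nlinarith [(Nat.cast_nonneg (Fintype.card τ.sh.Lf) : (0 : ℝ) ≤ _)]
    · have a1 := Ker15.sg_lvl H.mono (Sh.two j) g1
      have a2 := Apt7.sg_Nv H.mono j g2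
      rw [H.w1 _ (H.two_hi hj) (card_two j).le fun y => by linarith [v0 j j, v0 y j], card_two] at a1
      rw [H.w1 _ (H.two_hi hj) (card_two j).le fun y => by linarith [v0 y j]] at a2
      simp only [mul_add, mul_left_comm (dm L 0 _), Finset.sum_add_distrib, ← Finset.mul_sum,
        ← Finset.sum_mul] at a1 a2
      have a3 := mul_le_mul_of_nonneg_right H.x1 (v0 j j)
      have a4 : 0 ≤ ∑ y ∈ Finset.Icc 1 J, dm L 0 y * vU w L h R y j :=
        Finset.sum_nonneg fun y _ => mul_nonneg (dm_nonneg H.mono y) (v0 y j)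
      have a5 := mul_nonneg H.x0 (v0 j j)
      rw [sg_const_mul, sg_add, sg_const_mul, sg_const_mul, mul_comm (10 ^ 5 : ℝ),
        mul_assoc (c₀ ^ 2 * z ^ 2)]
      refine mul_le_mul_of_nonneg_left ?_ cz
      simp only [mul_add]
      push_cast at a1
      linarith
  -- the main part
  have M : |∑ j ∈ A, ω j * SG L (SG L (V2 w L h R q c w₂ T h₂ Z j)) .one fun _ => ()| ≤
      10 ^ 5 * (c₀ ^ 2 * z ^ 2) * (x₁ * (X ^ 2 * Fm + tl * ∑ j ∈ A, |ω j|)) := by
    have sw : 0 ≤ ∑ j ∈ A, |ω j| := Finset.sum_nonneg fun _ _ => abs_nonneg _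
    have B0 : 0 ≤ X ^ 2 * Fm + 2 * tl * (2 * ∑ j ∈ A, |ω j|) :=
      add_nonneg (mul_nonneg (sq_nonneg _) H.fm0) (mul_nonneg (by linarith [H.t0]) (by linarith))
    generalize hB : X ^ 2 * Fm + 2 * tl * (2 * ∑ j ∈ A, |ω j|) = B at B0
    have g1 : ∀ y, 0 ≤ lo J y * B := fun y => mul_nonneg (lo_nn J y) B0
    refine (congrArg abs (SG_sum L A ω _ .one _)).trans_le ?_
    simp only [SG_sum]
    refine (abs_sg_le H.mono _ (Ψ := fun τ => c₀ ^ 2 * z ^ 2 * 36 * (lo J τ.j * B))
      fun τ hτ => ?_).trans ?_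
    · have cd : Fintype.card τ.sh.Lf ≤ 3 := hτ.card
      refine (abs_sg_le H.mono _ (Ψ := fun _ => c₀ ^ 2 * z ^ 2 * (lo J τ.j * B))
        fun τ' hτ' => ?_).trans ((Ker15.sg_le L _ cd (mul_nonneg cz (g1 _))).trans_eq (by ring))
      have s1 : τ'.sh.shr (τ'.e τ.p) (τ'.e τ.q) L.length = τ.j := (hτ'.shr_e _ _ _).trans hτ.shr
      have s2 := hτ'.shr
      simp only [V2, tmk, ad_none, ad_some, hT, s1, s2]
      rw [show ∀ (u v : ℝ) (F : ℕ → ℝ), ∑ j ∈ A, ω j * (u * F j * v) = u * (∑ j ∈ A, ω j * F j) * v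
        from fun u v F => by
          rw [Finset.mul_sum, Finset.sum_mul]
          exact Finset.sum_congr rfl fun _ _ => by ring]
      by_cases c1 : c τ.j = 0
      · rw [c1, zero_mul, zero_mul, zero_mul, abs_zero]
        exact mul_nonneg cz (g1 _)
      by_cases c2 : c τ'.j = 0
      · rw [c2, mul_zero, zero_mul, zero_mul, abs_zero]
        exact mul_nonneg cz (g1 _)
      have r := H.tail τ'.sh (τ'.e (τ.e ())) (fun x => by
        rw [abs_mul]; exact mul_le_one₀ (H.r1 _ _) (abs_nonneg _) (H.r1 _ _))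
        (H.exc2 τ'.sh ((minj hτ').ne hτ.ne) hτ'.ne (s1 ▸ c1) (s2 ▸ c2))
      have k := cc τ.j τ'.j
      rw [(H.low c1).2.2, (H.low c2).2.2] at k
      rw [hB] at r
      rw [(H.low c1).2.2, abs_mul, abs_mul]
      exact (mul_le_mul (mul_le_mul k r (abs_nonneg _) (by positivity))
        (abs_site hw₂ hZ _ c1 c2 _ _ _ _) (abs_nonneg _) (by positivity)).trans_eq (by ring)
    · have a1 := Ker15.sg_lvl H.mono .one g1
      rw [H.w1 _ (fun a b e => absurd rfl e) (by decide) fun _ => B0, ← Finset.sum_mul] at a1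
      have a2 := mul_le_mul_of_nonneg_right H.x1 B0
      have a3 : x₁ * B ≤ 4 * (x₁ * (X ^ 2 * Fm + tl * ∑ j ∈ A, |ω j|)) := by
        have := mul_nonneg H.x0 (mul_nonneg (sq_nonneg X) H.fm0)
        rw [← hB]
        linarith
      have a4 := mul_nonneg H.x0 B0
      rw [sg_const_mul, mul_comm (10 ^ 5 : ℝ), mul_assoc (c₀ ^ 2 * z ^ 2), mul_assoc (c₀ ^ 2 * z ^ 2)]
      refine mul_le_mul_of_nonneg_left ?_ cz
      rw [show (Fintype.card Sh.one.Lf : ℝ) = 1 from Nat.cast_one] at a1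
      linarith
  calc _ = |∑ j ∈ A, ω j * SG L (SG L (V2 w L h R q c w₂ T h₂ Z j)) .one (fun _ => ()) +
        ∑ j ∈ A, ω j * (wB (-1) L (fun s G ξ => TE w s L h G * TE w₂ s T h₂ ξ)
      [(fun y x x' => c y * R x x', Z), (fun y x x' => c y * R x x', Z)] (Sh.two j)
        (pr2 j fun x x' => R x x' - q j) (fun _ => 1) -
          SG L (SG L (V2 w L h R q c w₂ T h₂ Z j)) .one fun _ => ())| := by
        rw [← Finset.sum_add_distrib]
        exact congrArg _ (Finset.sum_congr rfl fun j _ => by ring)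
    _ ≤ _ := by
        rw [mul_add, Finset.mul_sum A _ (10 ^ 5 * (c₀ ^ 2 * z ^ 2))]
        refine (abs_add_le _ _).trans (add_le_add M ((Finset.abs_sum_le_sum_abs _ _).trans
          (Finset.sum_le_sum fun j hj => ?_)))
        rw [abs_mul, mul_left_comm]
        exact mul_le_mul_of_nonneg_left (E j hj) (abs_nonneg _)

/-- the valuation of one low letter of degree two -/
def V1 (w : Ω → ℝ) (L : List (Lv Ω)) (h : Ω → ℝ) (R : Ω → Ω → ℝ) (q c : ℕ → ℝ) (j : ℕ) :
    Val (Option (Option Unit)) := fun s m => c (s.shr (m (some none)) (m none) L.length) *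
  Fr w L h R q j s (m (some (some ())))
    fun x => R (x (m (some none))) (x (m none)) * R (x (m (some none))) (x (m none))

theorem inv_V1 (hw : Wt w) (j : ℕ) : Inv L.length (V1 w L h R q c j) :=
  (inv_lev _ _ _ c).mul (inv_gr hw (some (some ())) j fun _ y =>
    (R (y none) (y (some (some (some ())))) - q j) *
      (R (y (some (some none))) (y (some none)) * R (y (some (some none))) (y (some none))))

/-- **a spin-free marked pair against one low letter of degree two** -/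
theorem Hy.one_le (H : Hy w L h R q ω c A J c₀ X tl Fm x₁) :
    |∑ j ∈ A, ω j * sg (-1) L (Sh.two j) fun τ => TE w τ.sh L h
      (τ.ev (fun y x x' => c y * R x x' ^ 2) (pr2 j fun x x' => R x x' - q j))| ≤ 200 * c₀ *
      (x₁ * (X ^ 2 * Fm + tl * ∑ j ∈ A, |ω j|) + ∑ j ∈ A, |ω j| * (x₁ * vU w L h R j j +
        ∑ y ∈ Finset.Icc 1 J, dm L 0 y * vU w L h R y j)) := by
  have hw := H.wt
  have cK : c L.length = 0 := by_contra fun e => by have := (H.low e).2.1; have := H.lt; omega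
  have cz := H.c0
  have I : ∀ j, Inv L.length (SG L (V1 w L h R q c j)) := fun j =>
    (inv_V1 hw j).sg fun s m e => by simp only [V1, e, shr_self, cK, zero_mul]
  have v0 := fun y t => vU_nonneg (L := L) (h := h) hw R y t
  have E : ∀ j ∈ A, |(sg (-1) L (Sh.two j) fun τ => TE w τ.sh L h
      (τ.ev (fun y x x' => c y * R x x' ^ 2) (pr2 j fun x x' => R x x' - q j))) -
      SG L (V1 w L h R q c j) .one fun _ => ()| ≤ 200 * c₀ *
        (x₁ * vU w L h R j j + ∑ y ∈ Finset.Icc 1 J, dm L 0 y * vU w L h R y j) := fun j hj => by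
    have hj' := H.up j hj
    rw [← I j (Sh.two j) (fun _ => Sh.twoR j) .one (fun _ => ())
      ⟨fun _ _ => iff_of_true rfl rfl, fun _ _ => (shr_self _ _ _).trans (shr_self _ _ _).symm⟩,
      SG, ← sg_sub]
    have g1 : ∀ y, 0 ≤ lo J y * (4 * vU w L h R j j + 4 * vU w L h R y j) := fun y =>
      mul_nonneg (lo_nn J y) (by linarith [v0 j j, v0 y j])
    refine (abs_sg_le H.mono _ (Ψ := fun τ => c₀ *
      (lo J τ.j * (4 * vU w L h R j j + 4 * vU w L h R τ.j j))) fun τ hτ => ?_).trans ?_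
    · have s1 := hτ.shr
      have e1 : TE w τ.sh L h (τ.ev (fun y x x' => c y * R x x' ^ 2)
          (pr2 j fun x x' => R x x' - q j)) = c τ.j * TE w τ.sh L h fun x =>
            (R (x (τ.e (Sh.twoL j))) (x (τ.e (Sh.twoR j))) - q j) *
              (R (x τ.p) (x τ.q) * R (x τ.p) (x τ.q)) := by
        rw [← Law.TE_const_mul hw]
        exact congrArg _ (funext fun x => by simp only [GT.ev, pr2]; ring)
      simp only [V1, tmk, ad_none, ad_some, s1, e1]
      rw [← mul_sub, abs_mul]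
      by_cases c1 : c τ.j = 0
      · rw [c1, abs_zero, zero_mul]
        exact mul_nonneg cz (g1 _)
      have r := H.rep2 τ.sh (a := τ.e (Sh.twoR j)) (b := τ.e (Sh.twoL j)) hj'.1
        ((minj hτ).ne (twoR_ne j)) (by rw [hτ.shr_e, shr_comm, shr_two, min_eq_left hj'.2])
        hτ.ne hτ.ne (s1 ▸ c1) (s1 ▸ c1)
      rw [s1] at r
      have k := H.cl τ.j
      rw [(H.low c1).2.2] at k ⊢
      exact (mul_le_mul k r (abs_nonneg _) (by positivity)).trans_eq (by ring)
    · have a1 := Ker15.sg_lvl H.mono (Sh.two j) g1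
      rw [H.w1 _ (H.two_hi hj) (card_two j).le fun y => by linarith [v0 j j, v0 y j], card_two] at a1
      simp only [mul_add, mul_left_comm (dm L 0 _), Finset.sum_add_distrib, ← Finset.mul_sum,
        ← Finset.sum_mul] at a1
      have a3 := mul_le_mul_of_nonneg_right H.x1 (v0 j j)
      have a4 : 0 ≤ ∑ y ∈ Finset.Icc 1 J, dm L 0 y * vU w L h R y j :=
        Finset.sum_nonneg fun y _ => mul_nonneg (dm_nonneg H.mono y) (v0 y j)
      have a5 := mul_nonneg H.x0 (v0 j j)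
      rw [sg_const_mul, mul_comm (200 : ℝ), mul_assoc c₀]
      refine mul_le_mul_of_nonneg_left ?_ cz
      simp only [mul_add]
      push_cast at a1
      linarith
  have M : |∑ j ∈ A, ω j * SG L (V1 w L h R q c j) .one fun _ => ()| ≤
      200 * c₀ * (x₁ * (X ^ 2 * Fm + tl * ∑ j ∈ A, |ω j|)) := by
    have sw : 0 ≤ ∑ j ∈ A, |ω j| := Finset.sum_nonneg fun _ _ => abs_nonneg _
    have B0 : 0 ≤ X ^ 2 * Fm + 2 * tl * (2 * ∑ j ∈ A, |ω j|) :=
      add_nonneg (mul_nonneg (sq_nonneg _) H.fm0) (mul_nonneg (by linarith [H.t0]) (by linarith))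
    generalize hB : X ^ 2 * Fm + 2 * tl * (2 * ∑ j ∈ A, |ω j|) = B at B0
    have g1 : ∀ y, 0 ≤ lo J y * B := fun y => mul_nonneg (lo_nn J y) B0
    refine (congrArg abs (SG_sum L A ω _ .one _)).trans_le ?_
    refine (abs_sg_le H.mono _ (Ψ := fun τ => c₀ * (lo J τ.j * B)) fun τ hτ => ?_).trans ?_
    · have s1 := hτ.shr
      simp only [V1, tmk, ad_none, ad_some, s1, mul_left_comm (ω _), ← Finset.mul_sum]
      by_cases c1 : c τ.j = 0
      · rw [c1, zero_mul, abs_zero]
        exact mul_nonneg cz (g1 _)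
      have r := H.tail τ.sh (τ.e ()) (fun x => by
        rw [abs_mul]; exact mul_le_one₀ (H.r1 _ _) (abs_nonneg _) (H.r1 _ _))
        (H.exc2 τ.sh hτ.ne hτ.ne (s1 ▸ c1) (s1 ▸ c1))
      have k := H.cl τ.j
      rw [hB] at r
      rw [(H.low c1).2.2] at k ⊢
      rw [abs_mul]
      exact (mul_le_mul k r (abs_nonneg _) (by positivity)).trans_eq (by ring)
    · have a1 := Ker15.sg_lvl H.mono .one g1
      rw [H.w1 _ (fun a b e => absurd rfl e) (by decide) fun _ => B0, ← Finset.sum_mul] at a1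
      have a2 := mul_le_mul_of_nonneg_right H.x1 B0
      have a3 : x₁ * B ≤ 4 * (x₁ * (X ^ 2 * Fm + tl * ∑ j ∈ A, |ω j|)) := by
        have := mul_nonneg H.x0 (mul_nonneg (sq_nonneg X) H.fm0)
        rw [← hB]
        linarith
      have a4 := mul_nonneg H.x0 B0
      rw [sg_const_mul, mul_comm (200 : ℝ), mul_assoc c₀]
      refine mul_le_mul_of_nonneg_left ?_ cz
      rw [show (Fintype.card Sh.one.Lf : ℝ) = 1 from Nat.cast_one] at a1
      linarith
  calc _ = |∑ j ∈ A, ω j * SG L (V1 w L h R q c j) .one (fun _ => ()) +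
        ∑ j ∈ A, ω j * ((sg (-1) L (Sh.two j) fun τ => TE w τ.sh L h
      (τ.ev (fun y x x' => c y * R x x' ^ 2) (pr2 j fun x x' => R x x' - q j))) -
          SG L (V1 w L h R q c j) .one fun _ => ())| := by
        rw [← Finset.sum_add_distrib]
        exact congrArg _ (Finset.sum_congr rfl fun j _ => by ring)
    _ ≤ _ := by
        rw [mul_add, Finset.mul_sum A _ (200 * c₀)]
        refine (abs_add_le _ _).trans (add_le_add M ((Finset.abs_sum_le_sum_abs _ _).trans
          (Finset.sum_le_sum fun j hj => ?_)))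
        rw [abs_mul, mul_left_comm]
        exact mul_le_mul_of_nonneg_left (E j hj) (abs_nonneg _)

end Crest.Agent.T156.Cas.Swp99

end
end

-- ▼ part T156/CStL_99
section

/-!
# Row 156, block C: the leaf `StL` (helper99)
-/

set_option autoImplicit false
set_option linter.all false

noncomputable section

namespace Crest.Agent.T156.Cas.C40

open MeasureTheory Real Set Filter Topology
open Crest.Agent.T157.E Crest.Agent.T157.Casc Crest.Agent.T157.SL
open Crest.Agent.T157.G1 (ov abs_ov_le)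
open Crest.ProbabilityR.SpinGlassDynamics (spin)
open Mul55 Swp99

namespace St99

variable {D : CD} {τ0 : ℝ}

theorem ov_sy {n : ℕ} (x y : Cube n) : ov x y = ov y x := by rw [ov, ov, dotProduct_comm]

/-- the coefficient of a low letter -/
def cf (D : CD) (r : ℝ) (y : ℕ) : ℝ := if y ≤ D.J then r * D.τ y else 0

theorem hy (H : D.Ok τ0) {r : ℝ} (hr : |r| ≤ 1) : Hy (fun _ => 1) D.B 0 ov D.q D.om (cf D r) D.up
    D.J τ0 D.X D.tl (D.F1 (D.J + 1)) D.X where
  wt := wt_one90
  mono := H.mono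
  sy := ov_sy
  r1 := abs_ov_le
  q1 j hj := by
    have := H.ook.mem (CD.mem_up.1 hj).2.le
    exact abs_le.2 ⟨by linarith [this.1], this.2⟩
  lt := D.B_len ▸ H.cut
  up j hj := ⟨(CD.mem_up.1 hj).1, D.B_len ▸ (CD.mem_up.1 hj).2.le⟩
  c0 := H.tau0
  cl y := by
    unfold cf lo
    by_cases h1 : y ≤ D.J
    · rw [if_pos h1, abs_mul, abs_of_nonneg (H.tau_mem y).1]
      rcases Nat.eq_zero_or_pos y with rfl | h2
      · simp [oTau, dAcc]
      · rw [if_pos ⟨h2, h1⟩, mul_one]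
        exact (mul_le_of_le_one_left (H.tau_mem y).1 hr).trans (H.tau_mem y).2
    · rw [if_neg h1, if_neg fun h => h1 h.2, abs_zero, mul_zero]
  X0 := H.X0
  X1 := H.X1
  t0 := H.tl0
  env y h1 h2 := H.envL y (CD.mem_lo.2 ⟨h1, h2⟩)
  fm0 := H.F10 _
  fm := by
    have := H.wk1.sqL (D.J + 1)
    rw [CD.tail, max_self] at this
    simp only [ov_sy _ (_ : Cube D.n)]
    exact this
  x1 := H.sum_lo

theorem err (H : D.Ok τ0) (hW : D.W.isSome = true) :
    D.X * (D.X ^ 2 * D.F1 (D.J + 1) + D.tl * ∑ j ∈ D.up, |D.om j|) + ∑ j ∈ D.up, |D.om j| *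
      (D.X * R90.vU (fun _ => 1) D.B 0 ov j j +
        ∑ y ∈ Finset.Icc 1 D.J, dm D.B 0 y * R90.vU (fun _ => 1) D.B 0 ov y j) ≤ 3 * D.Err := by
  have a1 : D.X ^ 3 * D.F1 (D.J + 1) ≤ D.E1 :=
    (mul_le_mul (le_add_of_nonneg_left H.Lv10) (le_add_of_nonneg_right (H.sv0 H.F10 _)) (H.F10 _)
      (add_nonneg H.Lv10 (pow_nonneg H.X0 _))).trans H.LvF1_le
  have a2 : ∑ j ∈ D.up, |D.om j| = D.wt := by simp only [CD.wt_test hW, CD.Iw, mul_one]
  have a3 : D.X * (D.tl * D.wt) ≤ D.Err :=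
    ((mul_le_of_le_one_left (mul_nonneg H.tl0 D.wt0) H.X1).trans_eq (mul_comm _ _)).trans
      ((mul_le_mul_of_nonneg_left H.tl_le D.wt0).trans H.wtE0_le)
  have a4 : ∑ j ∈ D.up, |D.om j| * (D.X * R90.vU (fun _ => 1) D.B 0 ov j j +
      ∑ y ∈ Finset.Icc 1 D.J, dm D.B 0 y * R90.vU (fun _ => 1) D.B 0 ov y j) ≤ D.Lad1 :=
    D.Iw_mono fun j hj => add_le_add (mul_le_mul_of_nonneg_right (H.eX j) (D.v0 j j))
      (Finset.sum_le_sum_of_subset_of_nonneg (fun y hy => by
        have := (CD.mem_up.1 hj).1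
        simp only [Finset.mem_Icc, Finset.mem_Ico] at hy ⊢
        omega) fun y _ _ => mul_nonneg (H.dx0 y) (D.v0 y j))
  rw [a2]
  linarith [H.Lad1_le, H.E1_le hW]

theorem lt_aL (H : D.Ok τ0) : lt D.n D.β D.M D.q D.cl aL =
    (fun y x x' => cf D (1 / 2) y * ov x x', oE D.q) := by
  refine Prod.ext (funext fun y => funext fun x => funext fun x' => ?_) rfl
  by_cases h : y ≤ D.J
  · simp [lt, cut, CD.cl, cf, h, oUb, oU, H.qlo y h]
    ring_nf
    simp
  · simp [lt, cut, CD.cl, cf, h]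

theorem lt_bL (H : D.Ok τ0) : lt D.n D.β D.M D.q D.cl bL =
    (fun y x x' => cf D (-(1 / 4)) y * ov x x' ^ 2, fun _ _ _ => 1) := by
  refine Prod.ext (funext fun y => funext fun x => funext fun x' => ?_) rfl
  by_cases h : y ≤ D.J
  · simp [lt, cut, CD.cl, cf, h, oUb, oU, H.qlo y h]
    ring_nf
    simp
  · simp [lt, cut, CD.cl, cf, h]

theorem stL_b : Bd true fun D => D.tU [bL] := fun τ0 =>
  ⟨200 * |τ0| * 3, by positivity, fun D H hW => by
    have := (hy H (r := -(1 / 4)) (by norm_num [abs_le])).one_le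
    rw [abs_of_nonneg H.tau0, mul_assoc _ 3]
    refine le_trans (le_of_eq (congrArg _ (Finset.sum_congr rfl fun j _ => congrArg _ ?_)))
      (this.trans (mul_le_mul_of_nonneg_left (err H hW) (by linarith [H.tau0])))
    rw [List.map_singleton, lt_bL H, wB]
    refine congrArg _ (funext fun τ => ?_)
    exact (congrArg _ ((congrArg _ (funext fun _ => mul_one (1 : ℝ))).trans
      (Law.TE_const wt_one90 _ _ _ _))).trans (mul_one _)⟩

theorem stL_a : Bd true fun D => D.tU [aL, aL] := fun τ0 =>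
  ⟨10 ^ 5 * (τ0 ^ 2 * 1 ^ 2) * 3, by positivity, fun D H hW => by
    have := (hy H (r := 1 / 2) (by norm_num [abs_le])).two_le (w₂ := fun _ => 1) (T := D.S) (h₂ := 0)
      (Z := oE D.q) (z := 1) wt_one90 (opS_length.trans D.B_len.symm) fun y hy a b => by
        have : y ≤ D.J := by_contra fun h => hy (if_neg h)
        rw [oE, H.qlo y this, sub_zero, abs_mul]
        cases a <;> cases b <;> simp [spin]
    rw [mul_assoc _ 3]
    refine le_trans (le_of_eq (congrArg _ (Finset.sum_congr rfl fun j _ => congrArg _ ?_)))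
      (this.trans (mul_le_mul_of_nonneg_left (err H hW) (by positivity)))
    rw [List.map_cons, List.map_singleton, lt_aL H]
    rfl⟩

end St99

/-- **the leaf `StL`** -/
theorem stL : StL := ⟨St99.stL_b, St99.stL_a⟩

end Crest.Agent.T156.Cas.C40

end
end

-- ▼ part T156/StUD_67
section

/-!
# Row 156, block C: `tU [aU, aU]`, objects and pieces (helper67)

The marked pair is `(a, b) = (old k 1, old k 0)`, split at `j`; the two edges are `(p, q)` and
`(p', q')`.  `Ex` is the exception: a double edge at a level `t < j` between two clusters, one of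
which carries the marked pair.
-/

set_option autoImplicit false
set_option linter.all false

noncomputable section

namespace Crest.Agent.T156.Cas.Su67

open MeasureTheory Real Set Filter Topology
open Crest.Agent.T157.E Crest.Agent.T157.Casc Crest.Agent.T157.SL
open Mul55 C40 G90 Nu87

section defs
variable (D : CD) {r : ℕ}

/-- `τ / 2` on UP -/
def tu (t : ℕ) : ℝ := if D.J < t then D.τ t / 2 else 0

/-- the site coefficient of two edges -/
def cf (σ : SM r) (p q p' q' : Fin r) : ℝ := tu D (σ p q) * tu D (σ p' q') *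
  Ck32.TS D σ fun x => oE D.q (σ p q) (x p) (x q) * oE D.q (σ p' q') (x p') (x q')

/-- the bulk factor: marked pair and two edges -/
def T3 (σ : SM r) (a b p q p' q' : Fin r) : ℝ := Ck32.TB D σ fun x =>
  oU D.q (σ a b) (x a) (x b) * (oU D.q (σ p q) (x p) (x q) * oU D.q (σ p' q') (x p') (x q'))

/-- the compensator (its graph sum is exactly zero) -/
def kp (σ : SM r) (a b p q p' q' : Fin r) : ℝ :=
  if σ p q = σ a b ∧ σ p' q' = σ a b then D.u3 (σ a b) else 0

/-- the compensated term -/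
def Ph (σ : SM r) (a b p q p' q' : Fin r) : ℝ :=
  cf D σ p q p' q' * (T3 D σ a b p q p' q' - kp D σ a b p q p' q')

/-- the exception, oriented: `p, p'` in the cluster of the marked pair, `q, q'` in another one -/
def Ex (σ : SM r) (a b p q p' q' : Fin r) : Prop :=
  σ p' q' = σ p q ∧ σ p q < σ a b ∧ σ p q < σ a p ∧ σ p q < σ a p' ∧ σ p q < σ q q'

instance (σ : SM r) (a b p q p' q' : Fin r) : Decidable (Ex σ a b p q p' q') := by
  unfold Ex; infer_instance

/-- the four orientations -/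
def Ex4 (σ : SM r) (a b p q p' q' : Fin r) : Prop :=
  Ex σ a b p q p' q' ∨ Ex σ a b q p p' q' ∨ Ex σ a b p q q' p' ∨ Ex σ a b q p q' p'

instance (σ : SM r) (a b p q p' q' : Fin r) : Decidable (Ex4 σ a b p q p' q') := by
  unfold Ex4; infer_instance

/-- the exceptional term -/
def EE (σ : SM r) (a b p q p' q' : Fin r) : ℝ :=
  if Ex σ a b p q p' q' then cf D σ p q p' q' * T3 D σ a b p q p' q' else 0

/-- the test measure on the upper nodes -/
def mo (j : ℕ) : ℝ := if j ∈ D.up then D.om j else 0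

/-- the signed law of the split matrix -/
def aw (k : ℕ) (φ : SM (1 + k + 1) → ℝ) : ℝ := avt D.B (mo D) k φ

end defs

/-- the marked pair -/
abbrev ma (k : ℕ) : Fin (1 + k + 1) := old k 1
abbrev mb (k : ℕ) : Fin (1 + k + 1) := old k 0

/-- the frame: the word is bounded by its compensated graphs -/
def FrameS : Prop := ∀ (τ0 : ℝ) (D : CD), D.Ok τ0 → D.W.isSome = true → ∀ B : ℝ,
  (∀ k ≤ 4, ∀ p q p' q' : Fin (1 + k + 1), p ≠ q → p' ≠ q' →
    |aw D k fun σ => Ph D σ (ma k) (mb k) p q p' q'| ≤ B) → |D.tU [C40.aU, C40.aU]| ≤ cG 2 * B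

/-- both edges at or above the marked node -/
def RegHi : Prop := ∀ (k : ℕ) (p q p' q' : Fin (1 + k + 1)), p ≠ q → p' ≠ q' →
  Bd true fun D => aw D k fun σ =>
    if σ (ma k) (mb k) ≤ σ p q ∧ σ (ma k) (mb k) ≤ σ p' q' then Ph D σ (ma k) (mb k) p q p' q'
    else 0

/-- an edge below the marked node, not the exception -/
def RegLo : Prop := ∀ (k : ℕ) (p q p' q' : Fin (1 + k + 1)), p ≠ q → p' ≠ q' →
  Bd true fun D => aw D k fun σ =>
    if ¬(σ (ma k) (mb k) ≤ σ p q ∧ σ (ma k) (mb k) ≤ σ p' q') ∧ ¬Ex4 σ (ma k) (mb k) p q p' q'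
    then cf D σ p q p' q' * T3 D σ (ma k) (mb k) p q p' q' else 0

/-- the exception -/
def ExcS : Prop := ∀ (k : ℕ) (p q p' q' : Fin (1 + k + 1)), p ≠ q → p' ≠ q' →
  Bd true fun D => aw D k fun σ => EE D σ (ma k) (mb k) p q p' q'

/-- glue -/
def GlueS : Prop := FrameS → RegHi → RegLo → ExcS → Bd true fun D => D.tU [C40.aU, C40.aU]

/-! ### the pieces of the exception -/

/-- **Ghirlanda–Guerra given the marked node**: forget `b` -/
def GGS : Prop := ∀ k : ℕ, ∃ (ι : Fin (1 + k + 1) → Fin (1 + (k + 1) + 1))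
  (pm : Fin (k + 1) → Equiv.Perm (Fin (1 + k + 1))), Function.Injective ι ∧
    (∀ c, ι c ≠ mb (k + 1)) ∧ ι (ma k) = ma (k + 1) ∧ (∀ c, pm c (ma k) = ma k) ∧
    ∀ (Θ : Type) [Fintype Θ] (L : List (Lv Θ)), ∀ j ≤ L.length, ∀ φ : SM (1 + k + 1) → ℝ,
      (k + 2 : ℝ) * avc L (tw L.length j) (k + 1) (fun σ => φ fun a b => σ (ι a) (ι b)) =
        avm L (1 + k) φ +
          ∑ c, avc L (tw L.length j) k fun σ => φ fun a b => σ (pm c a) (pm c b)

/-- the marked pair is symmetric -/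
def SwS : Prop := ∀ k : ℕ, ∃ μ : Equiv.Perm (Fin (1 + k + 1)), μ (ma k) = mb k ∧ μ (mb k) = ma k ∧
  ∀ (Θ : Type) [Fintype Θ] (L : List (Lv Θ)) (j : ℕ) (φ : SM (1 + k + 1) → ℝ),
    avc L (tw L.length j) k (fun σ => φ fun a b => σ (μ a) (μ b)) = avc L (tw L.length j) k φ

/-- a fresh partner of `a` at the marked node -/
def FreshS : Prop := ∀ (k : ℕ) (p q p' q' : Fin (1 + k + 1)), p ≠ q → p' ≠ q' →
  Bd true fun D => aw D k fun σ => EE D σ (ma k) (mb k) p q p' q' -
    EE D (gr D.B.length σ (ma k) (σ (ma k) (mb k))) (ma k).succ 0 p.succ q.succ p'.succ q'.succ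

/-- the free part, `b` carries no edge -/
def Free1 : Prop := ∀ (k : ℕ) (a p q p' q' : Fin (k + 1)), p ≠ q → p' ≠ q' →
  Bd true fun D => ∑ j ∈ Finset.range (D.B.length + 1), mo D j * avm D.B k fun ρ =>
    EE D (gr D.B.length ρ a j) a.succ 0 p.succ q.succ p'.succ q'.succ

/-- the free part, edges `(a, q)` and `(b, q')` -/
def Free3 : Prop := ∀ (k : ℕ) (a q q' : Fin (k + 1)), a ≠ q →
  Bd true fun D => ∑ j ∈ Finset.range (D.B.length + 1), mo D j * avm D.B k fun ρ =>
    EE D (gr D.B.length ρ a j) a.succ 0 a.succ q.succ 0 q'.succ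

/-- induction on the number of replicas -/
def IndS : Prop := GGS → SwS → FreshS → Free1 → Free3 → ExcS

end Crest.Agent.T156.Cas.Su67

end
end

-- ▼ part T156/StUI_67
section

/-!
# Row 156, block C: `tU [aU, aU]`, the exception by induction on the replicas (helper67)
-/

set_option autoImplicit false
set_option linter.all false

noncomputable section

namespace Crest.Agent.T156.Cas.Su67

open MeasureTheory Real Set Filter Topology
open Crest.Agent.T157.E Crest.Agent.T157.Casc Crest.Agent.T157.SL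
open Mul55 C40 G90 Nu87

/-- the law of some replicas only depends on their pattern and their split matrix -/
theorem TM_ker {Ω : Type} [Fintype Ω] {w : Ω → ℝ} (hw : Wt w) {L : List (Lv Ω)} {h : Ω → ℝ}
    {r r' m : ℕ} {σ : SM r} {σ' : SM r'} (hσ : Rz L.length σ) (hσ' : Rz L.length σ')
    {v : Fin m → Fin r} {v' : Fin m → Fin r'} (hk : ∀ i i', v i = v i' ↔ v' i = v' i')
    (hm : ∀ i i', σ (v i) (v i') = σ' (v' i) (v' i')) (F : (Fin m → Ω) → ℝ) :
    TM w L h σ (fun x => F fun i => x (v i)) = TM w L h σ' fun x => F fun i => x (v' i) := by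
  classical
  set S : Finset (Fin r) := Finset.univ.image v with hS
  have ex : ∀ s : S, ∃ i, v i = s.1 := fun s => by
    obtain ⟨i, -, hi⟩ := Finset.mem_image.1 s.2
    exact ⟨i, hi⟩
  choose g hg using ex
  set e := S.equivFin.symm
  set c : Fin m → Fin S.card := fun i => e.symm ⟨v i, Finset.mem_image_of_mem _ (Finset.mem_univ i)⟩
  have h1 : ∀ i, v (g (e (c i))) = v i := fun i => by
    rw [hg]; simp only [c, Equiv.apply_symm_apply]
  have h2 : ∀ i, v' (g (e (c i))) = v' i := fun i => (hk _ _).1 (h1 i)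
  have i1 : Function.Injective fun t => v (g (e t)) := fun t t' ht =>
    e.injective (Subtype.ext (by simpa only [hg] using ht))
  have i2 : Function.Injective fun t => v' (g (e t)) := fun t t' ht => i1 ((hk _ _).2 ht)
  have e1 := TM_inj (h := h) hw hσ i1 fun y => F fun i => y (c i)
  have e2 := TM_inj (h := h) hw hσ' i2 fun y => F fun i => y (c i)
  simp only [h1, h2] at e1 e2
  rw [e1, e2]
  simp only [hm]

variable {D : CD} {r r' : ℕ}

theorem EE_ker {σ : SM r} {σ' : SM r'} (hσ : Rz D.B.length σ) (hσ' : Rz D.B.length σ')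
    (v : Fin 6 → Fin r) (v' : Fin 6 → Fin r') (hk : ∀ i i', v i = v i' ↔ v' i = v' i')
    (hm : ∀ i i', σ (v i) (v i') = σ' (v' i) (v' i')) :
    EE D σ (v 0) (v 1) (v 2) (v 3) (v 4) (v 5) =
      EE D σ' (v' 0) (v' 1) (v' 2) (v' 3) (v' 4) (v' 5) := by
  have e1 := TM_ker (h := 0) wt_one90 hσ hσ' hk hm fun y : Fin 6 → Cube D.n =>
    oU D.q (σ' (v' 0) (v' 1)) (y 0) (y 1) * (oU D.q (σ' (v' 2) (v' 3)) (y 2) (y 3) *
      oU D.q (σ' (v' 4) (v' 5)) (y 4) (y 5))
  have e2 := TM_ker (h := 0) wt_one90 (Ck32.lenS (D := D) ▸ hσ) (Ck32.lenS (D := D) ▸ hσ') hk hm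
    fun y : Fin 6 → Bool =>
      oE D.q (σ' (v' 2) (v' 3)) (y 2) (y 3) * oE D.q (σ' (v' 4) (v' 5)) (y 4) (y 5)
  simp only [EE, Ex, cf, T3, Ck32.TB, Ck32.TS, hm, e1, e2]

theorem EE_inj {σ : SM r} (hσ : Rz D.B.length σ) {ι : Fin (r' + 1) → Fin r}
    (hι : Function.Injective ι) (a b p q p' q' : Fin (r' + 1)) :
    EE D (fun c d => σ (ι c) (ι d)) a b p q p' q' =
      EE D σ (ι a) (ι b) (ι p) (ι q) (ι p') (ι q') :=
  EE_ker (Ec52.rz_res hσ ι) hσ ![a, b, p, q, p', q'] (fun i => ι (![a, b, p, q, p', q'] i))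
    (fun _ _ => hι.eq_iff.symm) fun _ _ => rfl

/-- an injection, extended to the fresh replica -/
def lf (ι : Fin r' → Fin r) : Fin (r' + 1) → Fin (r + 1) := Fin.cons 0 fun c => (ι c).succ

theorem lf_inj {ι : Fin r' → Fin r} (hι : Function.Injective ι) : Function.Injective (lf ι) :=
  Fin.cons_injective_iff.2 ⟨fun ⟨c, hc⟩ => Fin.succ_ne_zero _ hc,
    (Fin.succ_injective _).comp hι⟩

theorem gr_lf (K : ℕ) (σ : SM r) (ι : Fin r' → Fin r) (a : Fin r') (j : ℕ) :
    gr K (fun c d => σ (ι c) (ι d)) a j = fun c d => gr K σ (ι a) j (lf ι c) (lf ι d) := by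
  funext c d
  refine Fin.cases ?_ (fun c => ?_) c <;> refine Fin.cases ?_ (fun d => ?_) d <;> rfl

theorem EE_gr {σ : SM r} (hσ : Rz D.B.length σ) {ι : Fin r' → Fin r} (hι : Function.Injective ι)
    (c : Fin r') (j : ℕ) (a b p q p' q' : Fin (r' + 1)) :
    EE D (gr D.B.length (fun c d => σ (ι c) (ι d)) c j) a b p q p' q' =
      EE D (gr D.B.length σ (ι c) j) (lf ι a) (lf ι b) (lf ι p) (lf ι q) (lf ι p') (lf ι q') := by
  rw [gr_lf, EE_inj (hσ.gr _ _) (lf_inj hι)]

theorem oU_comm' (q : ℕ → ℝ) {n : ℕ} (t : ℕ) (x y : Cube n) : oU q t x y = oU q t y x := by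
  simp only [oU, Crest.Agent.T157.G1.ov, dotProduct_comm]

variable {K : ℕ} {σ : SM r} {a b p q p' q' : Fin r}

theorem Ex.sw (hσ : Rz K σ) (h : Ex σ a b p q p' q') : Ex σ b a p q p' q' := by
  obtain ⟨h1, h2, h3, h4, h5⟩ := h
  have u1 := hσ.ultra b a p
  have u2 := hσ.ultra b a p'
  rw [hσ.comm b a] at u1 u2
  exact ⟨h1, hσ.comm a b ▸ h2, by omega, by omega, h5⟩

theorem Ex.ex (hσ : Rz K σ) (h : Ex σ a b p q p' q') : Ex σ a b p' q' p q := by
  obtain ⟨h1, h2, h3, h4, h5⟩ := h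
  rw [← h1] at h2 h3 h4 h5
  exact ⟨h1.symm, h2, h4, h3, hσ.comm q q' ▸ h5⟩

theorem Ex.ne (hσ : Rz K σ) (h : Ex σ a b p q p' q') : p ≠ q ∧ p' ≠ q' ∧ q ≠ b ∧ q' ≠ b := by
  obtain ⟨h1, h2, h3, h4, h5⟩ := h
  have := hσ.le a b
  refine ⟨?_, ?_, ?_, ?_⟩
  · rintro rfl
    rw [hσ.self] at h2
    omega
  · rintro rfl
    rw [hσ.self] at h1
    omega
  · rintro rfl
    have u := hσ.ultra p a q
    rw [hσ.comm p a] at u
    omega
  · rintro rfl
    have u := hσ.ultra p' a q'
    rw [hσ.comm p' a] at u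
    omega

theorem EE_sw (hσ : Rz K σ) : EE D σ a b p q p' q' = EE D σ b a p q p' q' := by
  unfold EE
  rw [if_congr (⟨Ex.sw hσ, Ex.sw hσ⟩ : _ ↔ Ex σ b a p q p' q') rfl rfl]
  simp only [T3, hσ.comm a b, fun x : Fin r → Cube D.n => oU_comm' D.q (σ b a) (x a) (x b)]

theorem EE_ex (hσ : Rz K σ) : EE D σ a b p q p' q' = EE D σ a b p' q' p q := by
  unfold EE
  rw [if_congr (⟨Ex.ex hσ, Ex.ex hσ⟩ : _ ↔ Ex σ a b p' q' p q) rfl rfl]
  simp only [T3, cf, mul_comm (tu D (σ p q)), mul_comm (oE D.q (σ p q) _ _),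
    mul_comm (oU D.q (σ p q) _ _)]

theorem EE_zero (h : ¬Ex σ a b p q p' q') : EE D σ a b p q p' q' = 0 := if_neg h

/-- edges `(a, q)` and `(b, q')`: the partner `b` may be replaced exactly -/
theorem EE_three (hσ : Rz D.B.length σ) (hab : a ≠ b) : EE D σ a b a q b q' =
    EE D (gr D.B.length σ a (σ a b)) a.succ 0 a.succ q.succ 0 q'.succ := by
  have u1 := hσ.ultra a b q'
  have u2 := hσ.ultra b a q'
  have u3 := hσ.ultra a b q
  have u4 := hσ.ultra b a q
  have hK := hσ.le a b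
  rw [hσ.comm b a] at u2 u4
  by_cases h : σ a q < σ a b ∧ σ a q' < σ a b
  · have n1 : q ≠ b := fun e => by rw [e] at h; omega
    have n2 : q' ≠ b := fun e => by rw [e] at h; omega
    have z : ∀ c : Fin r, c.succ ≠ 0 := Fin.succ_ne_zero
    have e1 : σ b q = min (σ a b) (σ q a) := by rw [hσ.comm q a]; omega
    have e2 : σ b q' = min (σ a b) (σ q' a) := by rw [hσ.comm q' a]; omega
    have e3 : σ b a = min (σ a b) (σ a a) := by rw [hσ.self, hσ.comm b a]; omega
    refine EE_ker hσ (hσ.gr a _) ![a, b, a, q, b, q'] ![a.succ, 0, a.succ, q.succ, 0, q'.succ]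
      (fun i i' => ?_) fun i i' => ?_
    · fin_cases i <;> fin_cases i' <;>
        simp [hab, hab.symm, n1, n1.symm, n2, n2.symm, z, fun c => (z c).symm]
    · fin_cases i <;> fin_cases i' <;>
        simp only [Fin.zero_eta, Fin.mk_one, Fin.reduceFinMk, Matrix.cons_val, gr_00, gr_0s, gr_s0,
          gr_ss] <;>
        first | exact hσ.self _ | exact e1 | exact e2 | exact e3 | exact (hσ.comm _ _).trans e1 |
          exact (hσ.comm _ _).trans e2 | exact (hσ.comm _ _).trans e3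
  · rw [EE_zero, EE_zero]
    · simp only [Ex, gr_0s, gr_s0, gr_ss, hσ.self, hσ.comm q' a]
      omega
    · unfold Ex
      omega

/-! ### the averages -/

/-- the signed law, with a function that reads the marked level -/
def aj (D : CD) (k : ℕ) (φ : ℕ → SM (1 + k + 1) → ℝ) : ℝ :=
  ∑ j ∈ Finset.range (D.B.length + 1), mo D j * avc D.B (tw D.B.length j) k (φ j)

theorem aj_congr {k : ℕ} {φ ψ : ℕ → SM (1 + k + 1) → ℝ}
    (e : ∀ j σ, Rz D.B.length σ → σ (ma k) (mb k) = j → φ j σ = ψ j σ) : aj D k φ = aj D k ψ :=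
  Finset.sum_congr rfl fun j hj => congrArg _ (avc_congr' (rz_tw _ j) k fun σ hσ h =>
    e j σ hσ ((h 1 0).trans (Ck32.tw_old _ j (Nat.lt_succ_iff.1 (Finset.mem_range.1 hj)))))

theorem aw_aj {k : ℕ} (φ : SM (1 + k + 1) → ℝ) : aw D k φ = aj D k fun _ => φ := rfl

theorem aw_sub {k : ℕ} (φ ψ : SM (1 + k + 1) → ℝ) :
    aw D k (fun σ => φ σ - ψ σ) = aw D k φ - aw D k ψ := by
  simp only [aw, avt, avc_sub, mul_sub, Finset.sum_sub_distrib]

theorem ma_ne (k : ℕ) : ma k ≠ mb k := Ck32.mk_ne k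

theorem bd_zero {k : ℕ} {p q p' q' : Fin (1 + k + 1)}
    (h : ∀ K σ, Rz K σ → ¬Ex σ (ma k) (mb k) p q p' q') :
    Bd true fun D => aw D k fun σ => EE D σ (ma k) (mb k) p q p' q' :=
  (Bd.zero true).congr fun _ D _ _ => by
    rw [aw_aj, aj_congr (ψ := fun _ _ => 0) fun j σ hσ _ => EE_zero (h _ σ hσ)]
    simp [aj, avc_const]

/-- **one step**: free part and one replica less -/
theorem bd_step {k : ℕ} {ι : Fin (1 + k + 1) → Fin (1 + (k + 1) + 1)}
    {pm : Fin (k + 1) → Equiv.Perm (Fin (1 + k + 1))}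
    (G : ∀ (Θ : Type) [Fintype Θ] (L : List (Lv Θ)), ∀ j ≤ L.length, ∀ φ : SM (1 + k + 1) → ℝ,
      (k + 2 : ℝ) * avc L (tw L.length j) (k + 1) (fun σ => φ fun a b => σ (ι a) (ι b)) =
        avm L (1 + k) φ +
          ∑ c, avc L (tw L.length j) k fun σ => φ fun a b => σ (pm c a) (pm c b))
    {φ : CD → ℕ → SM (1 + k + 1) → ℝ}
    (h1 : Bd true fun D => ∑ j ∈ Finset.range (D.B.length + 1), mo D j * avm D.B (1 + k) (φ D j))
    (h2 : ∀ c, Bd true fun D => aj D k fun j σ => φ D j fun a b => σ (pm c a) (pm c b)) :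
    Bd true fun D => aj D (k + 1) fun j σ => φ D j fun a b => σ (ι a) (ι b) :=
  ((h1.add (Bd.sum Finset.univ fun c _ => h2 c)).div_const (k + 2)).congr fun _ D _ _ => by
    rw [eq_div_iff (by positivity), mul_comm, aj, Finset.mul_sum]
    simp only [aj]
    rw [Finset.sum_comm, ← Finset.sum_add_distrib]
    refine Finset.sum_congr rfl fun j hj => ?_
    rw [mul_left_comm, G _ D.B j (Nat.lt_succ_iff.1 (Finset.mem_range.1 hj)), mul_add,
      Finset.mul_sum]

theorem pre {n : ℕ} {ι : Fin n → Fin (n + 1)} (hι : Function.Injective ι) {b : Fin (n + 1)}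
    (hb : ∀ c, ι c ≠ b) {x : Fin (n + 1)} (hx : x ≠ b) : ∃ c, ι c = x := by
  have : Function.Injective (Fin.cons b ι : Fin (n + 1) → Fin (n + 1)) :=
    Fin.cons_injective_iff.2 ⟨fun ⟨c, hc⟩ => hb c hc, hι⟩
  obtain ⟨c, hc⟩ := Finite.injective_iff_surjective.1 this x
  revert hc
  refine Fin.cases (fun hc => absurd hc.symm hx) (fun c hc => ⟨c, hc⟩) c

/-- **the exception** -/
theorem indS : IndS := fun GG Sw Fr F1 F3 k => by
  suffices H : ∀ p q p' q' : Fin (1 + k + 1),
      Bd true fun D => aw D k fun σ => EE D σ (ma k) (mb k) p q p' q' from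
    fun p q p' q' _ _ => H p q p' q'
  induction k with
  | zero =>
    intro p q p' q'
    refine bd_zero fun K σ hσ h => ?_
    have h1 := (h.ne hσ).2.2.1
    have h2 := ((h.sw hσ).ne hσ).2.2.1
    have h3 := q.2
    rw [Ne, Fin.ext_iff] at h1 h2
    change ¬(q : ℕ) = 0 at h1
    change ¬(q : ℕ) = 1 at h2
    omega
  | succ k ih =>
    obtain ⟨ι, pm, hι, hb, ha, hp, G⟩ := GG k
    -- `b` carries no edge
    have c1 : ∀ p q p' q' : Fin (1 + (k + 1) + 1), p ≠ mb (k + 1) → p' ≠ mb (k + 1) →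
        Bd true fun D => aw D (k + 1) fun σ => EE D σ (ma (k + 1)) (mb (k + 1)) p q p' q' := by
      intro p q p' q' h1 h2
      by_cases h : p ≠ q ∧ p' ≠ q' ∧ q ≠ mb (k + 1) ∧ q' ≠ mb (k + 1)
      swap
      · exact bd_zero fun K σ hσ e => h (e.ne hσ)
      obtain ⟨p, rfl⟩ := pre hι hb h1
      obtain ⟨p', rfl⟩ := pre hι hb h2
      obtain ⟨q, rfl⟩ := pre hι hb h.2.2.1
      obtain ⟨q', rfl⟩ := pre hι hb h.2.2.2
      have n1 : p ≠ q := fun e => h.1 (congrArg ι e)
      have n2 : p' ≠ q' := fun e => h.2.1 (congrArg ι e)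
      have s := bd_step G (φ := fun D j ρ =>
        EE D (gr D.B.length ρ (ma k) j) (ma k).succ 0 p.succ q.succ p'.succ q'.succ)
        (F1 (1 + k) (ma k) p q p' q' n1 n2) fun c =>
          ((ih (pm c p) (pm c q) (pm c p') (pm c q')).sub (Fr k (pm c p) (pm c q) (pm c p')
            (pm c q') ((pm c).injective.ne n1) ((pm c).injective.ne n2))).congr fun _ D _ _ => by
            rw [aw_sub, sub_sub_cancel, aw_aj]
            refine aj_congr fun j σ hσ hj => ?_
            rw [EE_gr hσ (pm c).injective, hj]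
            change EE D _ (pm c (ma k)).succ 0 _ _ _ _ = _
            rw [hp]
            rfl
      refine ((Fr (k + 1) _ _ _ _ h.1 h.2.1).add s).congr fun _ D _ _ => ?_
      rw [aw_sub, aw_aj fun σ => EE D (gr _ _ _ _) _ _ _ _ _ _, aj_congr (ψ := fun j σ =>
        EE D (gr D.B.length (fun a b => σ (ι a) (ι b)) (ma k) j) (ma k).succ 0 p.succ q.succ
          p'.succ q'.succ) fun j σ hσ hj => ?_, sub_add_cancel]
      rw [EE_gr hσ hι, hj]
      change _ = EE D _ (ι (ma k)).succ 0 _ _ _ _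
      rw [ha]
      rfl
    -- edges `(a, q)` and `(b, q')`
    have c3 : ∀ q q' : Fin (1 + (k + 1) + 1), Bd true fun D => aw D (k + 1) fun σ =>
        EE D σ (ma (k + 1)) (mb (k + 1)) (ma (k + 1)) q (mb (k + 1)) q' := by
      intro q q'
      by_cases h : ma (k + 1) ≠ q ∧ mb (k + 1) ≠ q' ∧ q ≠ mb (k + 1) ∧ q' ≠ mb (k + 1)
      swap
      · exact bd_zero fun K σ hσ e => h (e.ne hσ)
      obtain ⟨q, rfl⟩ := pre hι hb h.2.2.1
      obtain ⟨q', rfl⟩ := pre hι hb h.2.2.2
      have n1 : ma k ≠ q := fun e => h.1 (ha.symm.trans (congrArg ι e))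
      have s := bd_step G (φ := fun D j ρ =>
        EE D (gr D.B.length ρ (ma k) j) (ma k).succ 0 (ma k).succ q.succ 0 q'.succ)
        (F3 (1 + k) (ma k) q q' n1) fun c =>
          (ih (ma k) (pm c q) (mb k) (pm c q')).congr fun _ D _ _ => by
            rw [aw_aj]
            refine aj_congr fun j σ hσ hj => ?_
            rw [EE_gr hσ (pm c).injective, EE_three hσ (ma_ne k), hj]
            change EE D _ (pm c (ma k)).succ 0 (pm c (ma k)).succ _ _ _ = _
            rw [hp]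
            rfl
      refine s.congr fun _ D _ _ => ?_
      rw [aw_aj]
      refine aj_congr fun j σ hσ hj => ?_
      rw [EE_gr hσ hι, EE_three hσ (ma_ne _), hj]
      change _ = EE D _ (ι (ma k)).succ 0 (ι (ma k)).succ _ _ _
      rw [ha]
      rfl
    intro p q p' q'
    by_cases h1 : p ≠ mb (k + 1) ∧ p' ≠ mb (k + 1)
    · exact c1 p q p' q' h1.1 h1.2
    by_cases h2 : p ≠ ma (k + 1) ∧ p' ≠ ma (k + 1)
    · obtain ⟨μ, m1, m2, S⟩ := Sw (k + 1)
      refine (c1 (μ p) (μ q) (μ p') (μ q') (fun e => h2.1 (μ.injective (e.trans m1.symm)))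
        fun e => h2.2 (μ.injective (e.trans m1.symm))).congr fun _ D _ _ => ?_
      simp only [aw, avt]
      refine Finset.sum_congr rfl fun j _ => congrArg _ ?_
      rw [← S _ D.B j]
      refine avc_congr (rz_tw _ j) _ fun σ hσ => ?_
      rw [EE_inj hσ μ.injective, m1, m2, EE_sw hσ]
    have n := ma_ne (k + 1)
    rcases not_and_or.1 h1 with e | e <;> rcases not_and_or.1 h2 with e' | e' <;>
      rw [not_not] at e e'
    · exact absurd (e'.symm.trans e) n
    · subst e e'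
      exact (c3 q' q).congr fun _ D _ _ => by
        rw [aw_aj, aw_aj]
        exact aj_congr fun j σ hσ _ => EE_ex hσ
    · subst e e'
      exact c3 q q'
    · exact absurd (e'.symm.trans e) n

end Crest.Agent.T156.Cas.Su67

end
end

-- ▼ part T156/StUG_91
section

/-!
# Row 156, block C: Ghirlanda–Guerra given the marked node, symmetry of the marked pair (helper91)
-/

set_option autoImplicit false
set_option linter.all false

noncomputable section

namespace Crest.Agent.T156.Cas.Su67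

open MeasureTheory Real Set Filter Topology
open Crest.Agent.T157.E Crest.Agent.T157.Casc Crest.Agent.T157.SL
open Mul55 C40 G90 Nu87

namespace G91

/-- a permutation of the old labels, fixing the new one -/
def lift {n : ℕ} (ρ : Equiv.Perm (Fin n)) : Equiv.Perm (Fin (n + 1)) :=
  Equiv.Perm.decomposeFin.symm (0, ρ)

theorem lift_0 {n : ℕ} (ρ : Equiv.Perm (Fin n)) : lift ρ 0 = 0 := by simp [lift]

theorem lift_s {n : ℕ} (ρ : Equiv.Perm (Fin n)) (a : Fin n) : lift ρ a.succ = (ρ a).succ := by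
  simp [lift]

variable {Θ : Type} [Fintype Θ] {L : List (Lv Θ)} {r : ℕ}

theorem up1_lift (ρ : Equiv.Perm (Fin (r + 1))) (φ : SM (r + 2) → ℝ) :
    up1 L (fun σ => φ fun a b => σ (lift ρ a) (lift ρ b)) =
      fun τ => up1 L φ fun a b => τ (ρ a) (ρ b) := by
  funext τ
  rw [← up1_perm ρ φ]
  have e : ∀ a, lift ρ a = (Fin.cons 0 fun a => (ρ a).succ : Fin (r + 2) → Fin (r + 2)) a :=
    fun a => Fin.cases (lift_0 ρ) (lift_s ρ) a
  simp only [e]

/-- every realisable matrix is a graft on its tail -/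
theorem eq_gr {K : ℕ} {σ : SM (r + 2)} (h : Rz K σ) :
    ∃ a, ∃ j ≤ K, σ = gr K (fun b c => σ b.succ c.succ) a j := by
  obtain ⟨a, -, ha⟩ := Finset.exists_max_image Finset.univ (fun b : Fin (r + 1) => σ 0 b.succ)
    Finset.univ_nonempty
  refine ⟨a, σ 0 a.succ, h.le _ _, ?_⟩
  have key : ∀ b : Fin (r + 1), σ 0 b.succ = min (σ 0 a.succ) (σ b.succ a.succ) := fun b => by
    have h1 := h.ultra 0 a.succ b.succ
    have h2 := h.ultra a.succ 0 b.succ
    have h3 := ha b (Finset.mem_univ _)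
    rw [h.comm a.succ b.succ] at h1 h2
    rw [h.comm a.succ 0] at h2
    omega
  funext b c
  refine Fin.cases ?_ (fun b => ?_) b <;> refine Fin.cases ?_ (fun c => ?_) c
  · exact h.self 0
  · exact key c
  · exact (h.comm _ _).trans (key b)
  · rfl

/-- forgetting the replica `0` after a graft -/
theorem forget0 {σ : SM (r + 2)} (h : Rz L.length σ) (φ : SM (r + 2) → ℝ) :
    Ws L σ (fun c i => φ fun a b => gr L.length σ c i (Equiv.swap (0 : Fin (r + 3)) 1 a.succ)
      (Equiv.swap (0 : Fin (r + 3)) 1 b.succ)) =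
      Ws L (fun b c : Fin (r + 1) => σ b.succ c.succ)
        (fun c i => φ (gr L.length (fun b c : Fin (r + 1) => σ b.succ c.succ) c i)) + φ σ := by
  have hn := h.ncm fun τ => φ fun a b => τ (Equiv.swap (0 : Fin (r + 3)) 1 a.succ)
      (Equiv.swap (0 : Fin (r + 3)) 1 b.succ)
  have hρ : Rz L.length fun b c : Fin (r + 1) => σ b.succ c.succ := Ec52.rz_res h _
  obtain ⟨a, j, hj, e⟩ := eq_gr h
  generalize (fun b c : Fin (r + 1) => σ b.succ c.succ) = ρ at hρ e ⊢
  subst e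
  rw [Ws_gr L hρ a hj hn]
  congr 1
  · congr 1
    funext c i
    refine congrArg φ (funext fun x => funext fun y => ?_)
    refine Fin.cases ?_ (fun x => ?_) x <;> refine Fin.cases ?_ (fun y => ?_) y <;>
      simp only [swap_1, swap_2, gr_00, gr_0s, gr_s0, gr_ss]
  · rw [Finset.sum_congr rfl (g := fun i => dm (L.drop j) 0 i * φ (gr L.length ρ a j))
      fun i _ => ?_, ← Finset.sum_mul, sum_dm, ← List.length_drop, ex_length, sub_zero, one_mul]
    congr 1
    refine congrArg φ (funext fun x => funext fun y => ?_)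
    refine Fin.cases ?_ (fun x => ?_) x <;> refine Fin.cases ?_ (fun y => ?_) y <;>
      simp only [swap_1, swap_2, gr_00, gr_0s, gr_s0, gr_ss]
    all_goals omega

/-- the next relabelling: the forgotten replica first -/
def nx {n : ℕ} (e : Equiv.Perm (Fin (n + 1))) : Equiv.Perm (Fin (n + 2)) :=
  (Equiv.swap 0 1).trans (lift e)

theorem forget (e : Equiv.Perm (Fin (r + 2))) {σ : SM (r + 2)} (h : Rz L.length σ)
    (φ : SM (r + 2) → ℝ) :
    (r + 2 : ℝ) * up1 L (fun τ => φ fun a b => τ (nx e a.succ) (nx e b.succ)) σ =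
      (r + 1) * up1 L φ (fun a b => σ (e a.succ) (e b.succ)) + φ fun a b => σ (e a) (e b) := by
  have h1 := congrFun (up1_lift (L := L) e fun τ => φ fun a b =>
    τ (Equiv.swap (0 : Fin (r + 3)) 1 a.succ) (Equiv.swap (0 : Fin (r + 3)) 1 b.succ)) σ
  have h2 := forget0 (h.perm e) φ
  rw [Ws_eq_up1 (τ := fun a b => σ (e a) (e b)) fun τ => φ fun a b =>
    τ (Equiv.swap (0 : Fin (r + 3)) 1 a.succ) (Equiv.swap (0 : Fin (r + 3)) 1 b.succ),
    Ws_eq_up1, ← h1] at h2
  exact (congrArg₂ (· * ·) (by push_cast; ring) rfl).trans h2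

theorem gg_aux : ∀ k : ℕ, ∃ (e : Equiv.Perm (Fin (1 + (k + 1) + 1)))
    (pm : Fin (k + 1) → Equiv.Perm (Fin (1 + k + 1))), e 0 = mb (k + 1) ∧
    e (Fin.succ (ma k)) = ma (k + 1) ∧ (∀ c, pm c (ma k) = ma k) ∧
    ∀ (Θ : Type) [Fintype Θ] (L : List (Lv Θ)), ∀ j ≤ L.length, ∀ φ : SM (1 + k + 1) → ℝ,
      (k + 2 : ℝ) * avc L (tw L.length j) (k + 1)
          (fun σ => φ fun a b => σ (e (Fin.succ a)) (e (Fin.succ b))) =
        avm L (1 + k) φ +
          ∑ c, avc L (tw L.length j) k fun σ => φ fun a b => σ (pm c a) (pm c b)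
  | 0 => by
      refine ⟨nx (n := 1) (Equiv.refl _), fun _ => Equiv.refl _, by decide, by decide,
        fun _ => rfl, fun Θ _ L j hj φ => ?_⟩
      have h := forget (L := L) (r := 0) (Equiv.refl _) (rz_tw L.length j) φ
      rw [Fin.sum_univ_one]
      refine h.trans (congrArg₂ (· + ·) ?_ rfl)
      rw [Nat.cast_zero, zero_add, one_mul]
      refine congrArg (up1 L φ) (funext fun a => funext fun b => ?_)
      fin_cases a; fin_cases b
      exact (rz_tw L.length j).self _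
  | k + 1 => by
      obtain ⟨e, pm, h0, ha, hp, H⟩ := gg_aux k
      refine ⟨nx (n := 1 + (k + 1)) e, Fin.cons e (fun c => lift (n := 1 + k + 1) (pm c)), ?_, ?_,
        fun c => ?_, fun Θ _ L j hj φ => ?_⟩
      · exact ((congrArg (lift e) (swap_0 (r := 1 + (k + 1)))).trans (lift_s e 0)).trans
          (congrArg Fin.succ h0)
      · exact ((congrArg (lift e) (swap_2 (r := 1 + k + 1) (ma k))).trans (lift_s e _)).trans
          (congrArg Fin.succ ha)
      · refine Fin.cases ha (fun c => ?_) c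
        exact (lift_s (pm c) (ma k)).trans (congrArg Fin.succ (hp c))
      · have h1 := avc_congr (L := L) (rz_tw L.length j) (k + 1)
          fun σ hσ => forget (r := 1 + k) e hσ φ
        rw [avc_mul, avc_add, avc_mul] at h1
        have h2 := H Θ L j hj (up1 (r := 1 + k) L φ)
        have h3 : ∀ c, avc L (tw L.length j) k (fun σ => up1 (r := 1 + k) L φ
            fun a b => σ (pm c a) (pm c b)) = avc L (tw L.length j) (k + 1) fun σ =>
            φ fun a b => σ (lift (n := 1 + k + 1) (pm c) a) (lift (n := 1 + k + 1) (pm c) b) :=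
          fun c => (congrArg (avc L (tw L.length j) k) (up1_lift (r := 1 + k) (pm c) φ)).symm
        rw [Fin.sum_univ_succ]
        refine (congrArg₂ (· * ·) (by push_cast; ring) rfl).trans (h1.trans ?_)
        refine (congrArg₂ (· + ·) ((congrArg₂ (· * ·) (by push_cast; ring) rfl).trans h2)
          rfl).trans ?_
        simp only [h3]
        rw [add_assoc, add_comm (∑ _, _)]
        rfl

theorem sw_aux : ∀ k : ℕ, ∃ μ : Equiv.Perm (Fin (1 + k + 1)), μ (ma k) = mb k ∧ μ (mb k) = ma k ∧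
    ∀ (Θ : Type) [Fintype Θ] (L : List (Lv Θ)) (j : ℕ) (φ : SM (1 + k + 1) → ℝ),
      avc L (tw L.length j) k (fun σ => φ fun a b => σ (μ a) (μ b)) = avc L (tw L.length j) k φ
  | 0 => ⟨Equiv.swap (0 : Fin 2) 1, by decide, by decide, fun Θ _ L j φ =>
      congrArg φ (funext fun a => funext fun b => by fin_cases a <;> fin_cases b <;> rfl)⟩
  | k + 1 => by
      obtain ⟨μ, ha, hb, H⟩ := sw_aux k
      exact ⟨lift (n := 1 + k + 1) μ, (lift_s μ (ma k)).trans (congrArg Fin.succ ha),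
        (lift_s μ (mb k)).trans (congrArg Fin.succ hb), fun Θ _ L j φ =>
        (congrArg (avc L (tw L.length j) k) (up1_lift (r := 1 + k) μ φ)).trans
          (H Θ L j (up1 (r := 1 + k) L φ))⟩

end G91

/-- **Ghirlanda–Guerra given the marked node** -/
theorem ggS : GGS := fun k => by
  obtain ⟨e, pm, h0, ha, hp, H⟩ := G91.gg_aux k
  exact ⟨fun a => e (Fin.succ a), pm, e.injective.comp (Fin.succ_injective _),
    fun c h => Fin.succ_ne_zero c (e.injective (h.trans h0.symm)), ha, hp, H⟩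


/-- **the marked pair is symmetric** -/
theorem swS : SwS := G91.sw_aux

end Crest.Agent.T156.Cas.Su67

end
end

-- ▼ part T156/StUFr_54
section

/-!
# Row 156, block C: frame and glue of `tU [aU, aU]` (helper54)
-/

set_option autoImplicit false
set_option linter.unusedSectionVars false

noncomputable section

namespace Crest.Agent.T156.Cas.Su67

open MeasureTheory Real Set Filter Topology
open Crest.Agent.T157.E Crest.Agent.T157.Casc Crest.Agent.T157.SL
open Mul55 C40 G90 Nu87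

namespace Fr54

variable {D : CD} {τ0 : ℝ} {r : ℕ}

/-- a function of three edges -/
def g3 (Φ : (r : ℕ) → SM r → Fin r → Fin r → Fin r → Fin r → Fin r → Fin r → ℝ) : GF :=
  fun r σ E => match E with
    | [e, e', m] => Φ r σ m.1 m.2 e.1 e.2 e'.1 e'.2
    | _ => 0

theorem len3 {α : Type} {E : List α} (h : E.length = 3) : ∃ a b c, E = [a, b, c] :=
  List.length_eq_three.1 h

/-- the word as a graph sum -/
theorem tU_eq (H : D.Ok τ0) : D.tU [C40.aU, C40.aU] = LamG D.B (mo D) 2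
    (g3 fun _ σ a b p q p' q' => cf D σ p q p' q' * T3 D σ a b p q p' q') := by
  have e := Ck32.frame (D := D) (mo D) (oU D.q, fun _ _ _ => 1)
    ([C40.aU, C40.aU].map (lt D.n D.β D.M D.q D.cl))
  rw [CD.tU, Ck32.sum_up H]
  refine (Finset.sum_congr rfl fun j _ => ?_).trans (e.trans ?_)
  · rw [mo]
    split_ifs
    · rfl
    · rw [zero_mul]
  · refine LamG_congr _ _ _ fun r σ E _ _ hE => ?_
    obtain ⟨e, e', m, rfl⟩ := len3 hE
    have e1 : Ck32.TB D σ (eF [(lt D.n D.β D.M D.q D.cl C40.aU).1,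
        (lt D.n D.β D.M D.q D.cl C40.aU).1, oU D.q] σ [e, e', m]) =
        tu D (σ e.1 e.2) * tu D (σ e'.1 e'.2) * T3 D σ m.1 m.2 e.1 e.2 e'.1 e'.2 := by
      rw [T3, Ck32.TB, Ck32.TB, ← TM_mul]
      refine congrArg _ (funext fun x => ?_)
      by_cases h1 : D.J < σ e.1 e.2 <;> by_cases h2 : D.J < σ e'.1 e'.2 <;>
        simp [eF, lt, cut, CD.cl, oUb, tu, h1, h2]
      ring
    have e2 : Ck32.TS D σ (eF [oE D.q, oE D.q, fun _ _ _ => 1] σ [e, e', m]) = Ck32.TS D σ fun x =>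
        oE D.q (σ e.1 e.2) (x e.1) (x e.2) * oE D.q (σ e'.1 e'.2) (x e'.1) (x e'.2) :=
      congrArg _ (funext fun x => by simp [eF, mul_comm])
    refine (congrArg₂ (· * ·) e1 e2).trans ?_
    simp only [g3, cf]
    ring

theorem inv_last (K j : ℕ) : Inv K fun _ σ E => Rz K σ ∧ ∃ m ∈ E.getLast?, σ m.1 m.2 = j where
  old := fun {r σ E} a b ⟨h, m, hm, e⟩ _ => ⟨h, m, by
    cases E with
    | nil => simp at hm
    | cons x E => simpa [List.getLast?_cons_cons] using hm, e⟩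
  new := fun {r σ E} a i ⟨h, m, hm, e⟩ _ => ⟨h.gr a i, Prod.map Fin.succ Fin.succ m, by
    rw [EL.re, List.getLast?_map]
    exact Option.mem_map_of_mem _ hm, e⟩

/-- **the compensator has graph sum zero** -/
theorem kp_zero (H : D.Ok τ0) : LamG D.B (mo D) 2
    (g3 fun _ σ a b p q p' q' => cf D σ p q p' q' * kp D σ a b p q p' q') = 0 := by
  refine Finset.sum_eq_zero fun j hj' => ?_
  rw [mo]
  split_ifs with hj
  swap
  · rw [zero_mul]
  obtain ⟨hJ, hK⟩ := Finset.mem_Ioo.1 hj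
  have hK' : j ≤ D.B.length := by rw [Ck32.lenB]; exact hK.le
  set P : (ℕ → Cube D.n → Cube D.n → ℝ) × SK := (fun _ _ _ => 1, D.lev j) with hP
  have hS := rep_TE wt_one90 D.S 0 [D.lev j, D.lev j, fun _ _ _ => 1]
  rw [Ck32.lenS] at hS
  have e := (rep_wB (-1) D.B _ _ [P, P] [(fun _ _ _ => 1, fun _ _ _ => 1)]
    (repB_mul (rep_TE wt_one90 D.B 0 _) hS)).two hK'
  have mem : ten P ∈ Mul55.Ok (Cube D.n × Bool) (op D.n D.β D.M D.q 0).length := by
    rw [op_length]
    refine ⟨?_, 0, fun y => ?_⟩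
    · funext x y
      simp [ten, hP, CD.lev, (show 0 ≠ j by omega)]
    · simp [ten, hP, CD.lev, (show D.M.length ≠ j from hK.ne')]
  have z : wB (-1) D.B (oB D.n D.β D.M D.q []) [P, P] (Sh.two j) (pr2 j fun _ _ => 1)
      (pr2 j fun _ _ => 1) = 0 := by
    rw [Ex23.wB_eq H.pos H.ook]
    exact StA54.WdO_cst wt_one90 _ 0 mem (fun T hT => List.mem_singleton.1 hT ▸ mem) _ (1 * 1)
  have e' := DG_iter_mul (-1) D.B (tu D j ^ 2 * D.u3 j) (fun r σ E =>
    tmG (fun _ => 1) D.B 0 [fun _ _ _ => 1, fun _ _ _ => 1, fun _ _ _ => 1] r σ E *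
      tmG (fun _ => 1) D.S 0 [D.lev j, D.lev j, fun _ _ _ => 1] r σ E) 2
  rw [DG_iter_congr (-1) D.B (inv_last D.B.length j) 2 (n := 1) (Ψ := fun r σ E =>
    tu D j ^ 2 * D.u3 j *
      (tmG (fun _ => 1) D.B 0 [fun _ _ _ => 1, fun _ _ _ => 1, fun _ _ _ => 1] r σ E *
        tmG (fun _ => 1) D.S 0 [D.lev j, D.lev j, fun _ _ _ => 1] r σ E)) ?_ _ _ _
    ⟨rz_tw _ _, (1, 0), rfl, Ck32.tw_old _ _ hK'⟩ rfl, e']
  · exact mul_eq_zero_of_right _ (mul_eq_zero_of_right _ (e.symm.trans z))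
  · rintro r σ E ⟨hσ, m', hm, hj⟩ hE
    obtain ⟨e, e', m, rfl⟩ := len3 hE
    obtain rfl : m = m' := by simpa using hm
    have e1 : tmG (fun _ => 1) D.B 0 [fun _ _ _ => 1, fun _ _ _ => 1, fun _ _ _ => 1] r σ
        [e, e', m] = 1 :=
      (congrArg _ (funext fun x => by simp [eF])).trans (TM_const wt_one90 hσ 1)
    simp only [g3, e1, one_mul, kp, cf, hj]
    split_ifs with h
    · have e2 : tmG (fun _ => 1) D.S 0 [D.lev j, D.lev j, fun _ _ _ => 1] r σ [e, e', m] =
          Ck32.TS D σ fun x => oE D.q j (x e.1) (x e.2) * oE D.q j (x e'.1) (x e'.2) :=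
        congrArg _ (funext fun x => by simp [eF, CD.lev, h.1, h.2, mul_comm])
      rw [e2, h.1, h.2]
      ring
    · have e2 : tmG (fun _ => 1) D.S 0 [D.lev j, D.lev j, fun _ _ _ => 1] r σ [e, e', m] = 0 :=
        (congrArg _ (funext fun x => by
          rcases not_and_or.1 h with h | h <;> simp [eF, CD.lev, h])).trans
          (TM_const wt_one90 (Ck32.lenS (D := D) ▸ hσ) 0)
      rw [e2]
      ring

theorem cf_sw {σ : SM r} {K : ℕ} (hσ : Rz K σ) (p q p' q' : Fin r) :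
    cf D σ q p p' q' = cf D σ p q p' q' ∧ cf D σ p q q' p' = cf D σ p q p' q' := by
  constructor <;> simp only [cf, oE, hσ.comm q p, hσ.comm q' p', mul_comm]

theorem T3_sw {σ : SM r} {K : ℕ} (hσ : Rz K σ) (a b p q p' q' : Fin r) :
    T3 D σ a b q p p' q' = T3 D σ a b p q p' q' ∧ T3 D σ a b p q q' p' = T3 D σ a b p q p' q' := by
  constructor
  · simp only [T3, hσ.comm q p, oU_comm' D.q _ (_ : Cube D.n) (_ : Cube D.n)]
  · simp only [T3, hσ.comm q' p', oU_comm' D.q _ (_ : Cube D.n) (_ : Cube D.n)]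

/-- the partition into classes -/
theorem Ph_eq {σ : SM r} {K : ℕ} (hσ : Rz K σ) (a b p q p' q' : Fin r) :
    Ph D σ a b p q p' q' =
      (if σ a b ≤ σ p q ∧ σ a b ≤ σ p' q' then Ph D σ a b p q p' q' else 0) +
      (if ¬(σ a b ≤ σ p q ∧ σ a b ≤ σ p' q') ∧ ¬Ex4 σ a b p q p' q' then
        cf D σ p q p' q' * T3 D σ a b p q p' q' else 0) +
      (EE D σ a b p q p' q' + EE D σ a b q p p' q' + EE D σ a b p q q' p' +
        EE D σ a b q p q' p') := by
  have u1 := hσ.ultra p a q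
  have u2 := hσ.ultra p' a q'
  have c1 := hσ.comm p a
  have c2 := hσ.comm p' a
  have c3 := hσ.comm q p
  have c4 := hσ.comm q' p'
  have k0 : ¬(σ a b ≤ σ p q ∧ σ a b ≤ σ p' q') →
      Ph D σ a b p q p' q' = cf D σ p q p' q' * T3 D σ a b p q p' q' := fun h => by
    rw [Ph, kp, if_neg (by omega), sub_zero]
  have f1 := (cf_sw (D := D) hσ p q p' q').1
  have f2 := (cf_sw (D := D) hσ p q p' q').2
  have f3 : cf D σ q p q' p' = cf D σ p q p' q' := (cf_sw hσ q p p' q').2.trans f1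
  have t1 := (T3_sw (D := D) hσ a b p q p' q').1
  have t2 := (T3_sw (D := D) hσ a b p q p' q').2
  have t3 : T3 D σ a b q p q' p' = T3 D σ a b p q p' q' := (T3_sw hσ a b q p p' q').2.trans t1
  simp only [EE, f1, f2, f3, t1, t2, t3, Ex4]
  by_cases h1 : Ex σ a b p q p' q' <;> by_cases h2 : Ex σ a b q p p' q' <;>
    by_cases h3 : Ex σ a b p q q' p' <;> by_cases h4 : Ex σ a b q p q' p' <;>
    by_cases h0 : σ a b ≤ σ p q ∧ σ a b ≤ σ p' q' <;>
    first
      | (exfalso; unfold Ex at *; omega)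
      | simp [h0, h1, h2, h3, h4, k0]

theorem aw_add {k : ℕ} (φ ψ : SM (1 + k + 1) → ℝ) :
    aw D k (fun σ => φ σ + ψ σ) = aw D k φ + aw D k ψ := (fam_avt _).add k φ ψ

end Fr54

open Fr54

/-- **the frame** -/
theorem frameS : FrameS := fun τ0 D H _ B hB => by
  have e : D.tU [C40.aU, C40.aU] = LamG D.B (mo D) 2
      (g3 fun _ σ a b p q p' q' => Ph D σ a b p q p' q') := by
    rw [tU_eq H, ← sub_zero (LamG _ _ _ _), ← kp_zero H, ← LamG_sub]
    refine LamG_congr _ _ _ fun r σ E _ _ hE => ?_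
    obtain ⟨e, e', m, rfl⟩ := len3 hE
    simp only [g3, Ph, mul_sub]
  rw [e]
  refine abs_LamG_le _ 2 _ fun k hk N hN hO => ?_
  obtain ⟨e, e', rfl⟩ := List.length_eq_two.1 hN
  exact hB k hk _ _ _ _ (hO e (by simp)) (hO e' (by simp))

/-- **the glue** -/
theorem glueS : GlueS := fun hF hH hL hE => by
  have key : ∀ (k : ℕ) (p q p' q' : Fin (1 + k + 1)), p ≠ q → p' ≠ q' →
      Bd true fun D => aw D k fun σ => Ph D σ (ma k) (mb k) p q p' q' := fun k p q p' q' h h' =>
    (((hH k p q p' q' h h').add (hL k p q p' q' h h')).add ((((hE k p q p' q' h h').add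
      (hE k q p p' q' h.symm h')).add (hE k p q q' p' h h'.symm)).add
        (hE k q p q' p' h.symm h'.symm))).congr fun τ0 D _ _ => by
      simp only [← aw_add]
      rw [aw_aj, aw_aj]
      exact aj_congr fun j σ hσ _ => Ph_eq hσ _ _ _ _ _ _
  set T : CD → (k : ℕ) → (Fin (1 + k + 1) × Fin (1 + k + 1)) × Fin (1 + k + 1) × Fin (1 + k + 1) → ℝ :=
    fun D k z => if z.1.1 ≠ z.1.2 ∧ z.2.1 ≠ z.2.2 then
      |aw D k fun σ => Ph D σ (ma k) (mb k) z.1.1 z.1.2 z.2.1 z.2.2| else 0 with hT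
  have T0 : ∀ D k z, 0 ≤ T D k z := fun D k z => by simp only [hT]; positivity
  have h1 : Bd true fun D => ∑ k ∈ Finset.range 5, ∑ z, T D k z :=
    Bd.sum _ fun k _ => Bd.sum _ fun z _ => by
      simp only [hT]
      split_ifs with h
      · exact (key k _ _ _ _ h.1 h.2).of_le fun _ _ _ _ => (abs_abs _).le
      · exact Bd.zero true
  refine (h1.smul (cG 2)).of_le fun τ0 D H hW => (hF τ0 D H hW _ fun k hk p q p' q' h h' => ?_).trans
    (le_abs_self _)
  refine le_trans ?_ (Finset.single_le_sum (f := fun k => ∑ z, T D k z)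
    (fun k _ => Finset.sum_nonneg fun z _ => T0 D k z) (Finset.mem_range.2 (Nat.lt_succ_of_le hk)))
  refine le_trans ?_ (Finset.single_le_sum (f := T D k) (fun z _ => T0 D k z)
    (Finset.mem_univ ((p, q), p', q')))
  simp only [hT]
  rw [if_pos ⟨h, h'⟩]

end Crest.Agent.T156.Cas.Su67

end
private theorem rz_13c193eb40 : type_of% @_root_.Crest.Agent.T156.Cas.Su67.Fr54.g3.eq_1 := @_root_.Crest.Agent.T156.Cas.Su67.Fr54.g3.eq_1 -- L24
end

-- ▼ part T156/StUH_10
section

/-!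
# Row 156, block C: `RegHi` of `StUD_67` (helper10)

Both edges at or above the marked node `j`: Hölder when both are above, site parity when one is
at depth `j`, the compensator when both sit at the marked node, the weight of a second node of
depth `j` otherwise.
-/

set_option autoImplicit false
set_option linter.all false

noncomputable section

namespace Crest.Agent.T156.Cas.Su67.H10

open MeasureTheory Real Set Filter Topology
open Crest.Agent.T157.E Crest.Agent.T157.Casc Crest.Agent.T157.SL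
open Crest.ProbabilityR.SpinGlassDynamics (spin)
open Mul55 C40 G90 Nu87
open Ck32 (TB lenB lenS)
open Wp52 (Br Br_one Br_nonneg Br_mul Br_add)

variable {D : CD} {τ0 : ℝ} {r : ℕ} {σ : SM r}

theorem abs_tu (h : D.Ok τ0) (t : ℕ) : |tu D t| ≤ τ0 / 2 := by
  have := h.tau_mem t
  unfold tu
  split_ifs
  · rw [abs_of_nonneg (by linarith)]; linarith
  · rw [abs_zero]; linarith

theorem TS_two (u u' : ℕ → ℝ) (p q p' q' : Fin r) :
    Ck32.TS D σ (fun x => oE u (σ p q) (x p) (x q) * oE u' (σ p' q') (x p') (x q')) =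
      Site94.SF D.S ![u, u'] ![p, p'] ![q, q'] Finset.univ σ :=
  congrArg (TM (fun _ => 1) D.S 0 σ) (funext fun x => by rw [Fin.prod_univ_two]; rfl)

theorem abs_cf (h : D.Ok τ0) (hσ : Rz D.B.length σ) (p q p' q' : Fin r) :
    |cf D σ p q p' q'| ≤ τ0 ^ 2 := by
  have h0 := h.tau0
  have h1 := Site94.abs_SF_le (L := D.S) (B := Finset.univ) (q := ![D.q, D.q]) (p := ![p, p'])
    (p' := ![q, q']) (lenS (D := D) ▸ hσ) fun e _ => by
      revert e
      exact Fin.forall_fin_two.2 ⟨fun _ => Ck32.abs_q_le h (hσ.le _ _),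
        fun _ => Ck32.abs_q_le h (hσ.le _ _)⟩
  rw [← TS_two, Finset.card_univ, Fintype.card_fin] at h1
  rw [cf, abs_mul, abs_mul]
  exact (mul_le_mul (mul_le_mul (abs_tu h _) (abs_tu h _) (abs_nonneg _) (by positivity)) h1
    (abs_nonneg _) (by positivity)).trans_eq (by ring)

theorem cf_comm (p q p' q' : Fin r) : cf D σ p q p' q' = cf D σ p' q' p q := by
  simp only [cf, mul_comm (tu D (σ p q)), mul_comm (oE D.q (σ p q) _ _)]

/-- the constant of the parity bound -/
def cq (r : ℕ) (τ0 : ℝ) : ℝ := τ0 ^ 2 * (Site94.cP r 2 + 1) + τ0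

theorem cq0 (h : 0 ≤ τ0) (r : ℕ) : 0 ≤ cq r τ0 := by
  have := Site94.cP_nonneg r 2
  unfold cq
  positivity

/-- **one edge at depth `j`, the other one above** -/
theorem cf_par (h : D.Ok τ0) (hσ : Rz D.B.length σ) {p q p' q' : Fin r} {j : ℕ} (hj : j ∈ D.up)
    (h1 : σ p q = j) (h2 : j < σ p' q') : |cf D σ p q p' q'| ≤ cq r τ0 * D.e j := by
  have h0 := h.tau0
  have he := h.e0 j
  have hc := Site94.cP_nonneg r 2
  obtain ⟨hJ, hK⟩ := CD.mem_up.1 hj
  have hs := h.sig0 hK.le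
  have hes : min 1 (D.sig j) ≤ D.e j :=
    (min_le_min le_rfl (le_add_of_nonneg_left (h.ex0 j))).trans (h.esc j hj)
  rcases le_total 1 (D.sig j) with h3 | h3
  · rw [min_eq_left h3] at hes
    refine (abs_cf h hσ _ _ _ _).trans ?_
    unfold cq
    nlinarith [mul_le_mul_of_nonneg_left hes (sq_nonneg τ0), mul_nonneg (mul_nonneg (sq_nonneg τ0) hc) he,
      mul_nonneg h0 he]
  rw [min_eq_right h3] at hes
  have key : ∀ ε : ℝ, 0 < ε → ε ≤ 1 →
      |Ck32.TS D σ fun x => oE (fun _ => 0) (σ p q) (x p) (x q) * oE D.q (σ p' q') (x p') (x q')| ≤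
        4 * Site94.cP r 2 * (D.sig j + ε) := fun ε e0 e1 => by
    have hp : 0 < D.sig j + ε := by positivity
    have := Site94.SF_odd (L := D.S) (ℓ := opV D.n D.β D.M D.q) (B := Finset.univ)
      (q := ![fun _ => 0, D.q]) (p := ![p, p']) (p' := ![q, q'])
      (C.forall₂_sl spin (opV_nn h.ook)) (Cav22.mono_tilt tilt_opS.symm h.mono)
      (lenS (D := D) ▸ hσ) (fun e _ => by
        revert e
        exact Fin.forall_fin_two.2 ⟨fun _ => abs_zero.trans_le zero_le_one,
          fun _ => Ck32.abs_q_le h (hσ.le _ _)⟩) (j := j)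
      ⟨p, by
        rw [Finset.card_filter, Fin.sum_univ_two, if_pos, if_neg]
        · exact odd_one
        · exact fun hc => absurd (hc.le hσ) (not_le.2 h2)
        · show ¬(j < σ p p ↔ j < σ p q)
          rw [hσ.self, lenB, h1]
          exact fun hc => lt_irrefl _ (hc.1 hK)⟩ hp
      ((opV_acc hK.le).trans_le (le_add_of_nonneg_right e0.le)) (fun e _ => by
        revert e
        exact Fin.forall_fin_two.2 ⟨fun _ _ => abs_zero.trans_le hp.le,
          fun _ hc => absurd hc (not_le.2 h2)⟩)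
    rw [← TS_two, Finset.card_univ, Fintype.card_fin] at this
    have h5 := mul_le_mul_of_nonneg_right (Site94.cP_mono r (show D.sig j + ε ≤ 2 by linarith)) hp.le
    linarith
  have hcont : Continuous fun ε : ℝ => 4 * Site94.cP r 2 * (D.sig j + ε) := by fun_prop
  have h4 := (hcont.tendsto 0).mono_left (nhdsWithin_le_nhds (s := Ioi 0))
  simp only [add_zero] at h4
  have h5 := ge_of_tendsto h4 (by
    filter_upwards [Ioc_mem_nhdsGT (zero_lt_one' ℝ)] with ε h using key ε h.1 h.2)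
  have h6 : |Ck32.TS D σ fun x => oE D.q (σ p' q') (x p') (x q')| ≤ 2 := by
    refine (Cub94.abs_TM_le wt_one90 (lenS (D := D) ▸ hσ) (G := fun _ => 2) fun x => ?_).trans_eq
      (TM_const wt_one90 (lenS (D := D) ▸ hσ) 2)
    exact abs_oE_le h.ook ((hσ.le _ _).trans_eq lenB) _ _
  have e1 : Ck32.TS D σ (fun x => oE D.q (σ p q) (x p) (x q) * oE D.q (σ p' q') (x p') (x q')) =
      Ck32.TS D σ (fun x => oE (fun _ => 0) (σ p q) (x p) (x q) * oE D.q (σ p' q') (x p') (x q')) +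
        -D.q j * Ck32.TS D σ fun x => oE D.q (σ p' q') (x p') (x q') := by
    simp only [Ck32.TS, ← TM_mul, ← TM_add]
    refine congrArg _ (funext fun x => ?_)
    simp only [oE, h1]
    ring
  have h7 : |tu D j| * |D.q j| ≤ D.e j / 2 := by
    rw [tu, if_pos hJ, abs_of_nonneg (by linarith [(h.tau_mem j).1]),
      abs_of_nonneg (h.ook.mem hK.le).1]
    have := h.fAcc0 j
    unfold CD.sig at hes
    linarith
  have h8 := abs_tu h j
  have h9 := abs_tu h (σ p' q')
  rw [cf, e1, h1, mul_comm (tu D j), mul_assoc, abs_mul]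
  refine (mul_le_mul h9 (b := τ0 / 2) (d := 2 * τ0 * Site94.cP r 2 * D.e j + D.e j) ?_ (abs_nonneg _)
    (by positivity)).trans ?_
  · rw [mul_add]
    refine (abs_add_le _ _).trans (add_le_add ?_ ?_)
    · rw [abs_mul]
      refine (mul_le_mul h8 (h5.trans (mul_le_mul_of_nonneg_left hes (by positivity)))
        (abs_nonneg _) (by positivity)).trans_eq (by ring)
    · rw [← mul_assoc, abs_mul, abs_mul, abs_neg]
      exact (mul_le_mul h7 h6 (abs_nonneg _) (by positivity)).trans_eq (by ring)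
  · unfold cq
    nlinarith [mul_nonneg (sq_nonneg τ0) he, mul_nonneg h0 he]

theorem T3_eq (a b p q p' q' : Fin r) : T3 D σ a b p q p' q' = TB D σ fun x =>
    ∏ i : Fin 3, oU D.q (σ (![a, p, p'] i) (![b, q, q'] i)) (x (![a, p, p'] i)) (x (![b, q, q'] i)) :=
  congrArg (TB D σ) (funext fun x => by rw [Fin.prod_univ_three, mul_assoc]; rfl)

/-- Hölder -/
theorem T3_le (hσ : Rz D.B.length σ) {a b p q p' q' : Fin r} (h1 : a ≠ b) (h2 : p ≠ q)
    (h3 : p' ≠ q') : |T3 D σ a b p q p' q'| ≤ 4 * (D.g (σ a b) * (D.g (σ p q) * D.g (σ p' q'))) := by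
  rw [T3_eq]
  refine (Cub94.TM_holder (B := Finset.univ) wt_one90 hσ (n := 3) (by simp)
    (u := fun i => D.g (σ (![a, p, p'] i) (![b, q, q'] i))) (fun _ _ => D.g0 _) fun i _ => ?_).trans_eq ?_
  · rw [D.g_cube]
    refine (Ck32.TB_pow hσ ?_ 3).le
    fin_cases i
    exacts [h1, h2, h3]
  · rw [Fin.prod_univ_three, Finset.card_univ, Fintype.card_fin, mul_assoc (D.g _)]
    exact congrArg₂ _ (by norm_num) rfl

theorem T3_crude (h : D.Ok τ0) (hσ : Rz D.B.length σ) (a b p q p' q' : Fin r) :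
    |T3 D σ a b p q p' q'| ≤ 8 := by
  refine (Ck32.abs_TB_le hσ (G := fun _ => 8) fun x => ?_).trans_eq (TM_const wt_one90 hσ 8)
  have k := fun u v : Fin r => abs_oU_le h.ook (lenB (D := D) ▸ hσ.le u v) (x u) (x v)
  rw [abs_mul, abs_mul]
  exact (mul_le_mul (k a b) (mul_le_mul (k p q) (k p' q') (abs_nonneg _) zero_le_two)
    (by positivity) zero_le_two).trans_eq (by norm_num)

theorem u3_crude (h : D.Ok τ0) (hσ : Rz D.B.length σ) {a b : Fin r} (hab : a ≠ b) :
    |D.u3 (σ a b)| ≤ 8 := by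
  have := T3_crude h hσ a b a b a b
  rwa [show T3 D σ a b a b a b = D.u3 (σ a b) from
    (congrArg (TB D σ) (funext fun x => by ring)).trans
      (TM_pair (h := 0) wt_one90 hσ hab fun x y => oU D.q (σ a b) x y ^ 3)] at this

/-- `g` above `j` -/
def GH (D : CD) (j t : ℕ) : ℝ := if j < t then D.g t else 0

theorem GH0 (j t : ℕ) : 0 ≤ GH D j t := by
  unfold GH
  split_ifs
  exacts [D.g0 t, le_rfl]

/-- a second node of depth `j` -/
def far (σ : SM r) (j : ℕ) (b p q : Fin r) : ℝ := if σ p q = j ∧ σ p b < j then 1 else 0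

theorem far0 (j : ℕ) (b p q : Fin r) : 0 ≤ far σ j b p q := by
  unfold far
  split_ifs <;> norm_num

/-- **pointwise bound** -/
theorem pt (h : D.Ok τ0) (hσ : Rz D.B.length σ) {a b p q p' q' : Fin r} (h1 : a ≠ b) (h2 : p ≠ q)
    (h3 : p' ≠ q') {j : ℕ} (hj : j ∈ D.up) (e : σ a b = j) :
    |if σ a b ≤ σ p q ∧ σ a b ≤ σ p' q' then Ph D σ a b p q p' q' else 0| ≤
      4 * τ0 ^ 2 * D.g j * (GH D j (σ p q) * GH D j (σ p' q')) +
      4 * cq r τ0 * (D.e j * D.g j ^ 2) * (GH D j (σ p q) + GH D j (σ p' q')) +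
      16 * τ0 ^ 2 * (far σ j b p q + far σ j b p' q') +
      τ0 ^ 2 * (48 * (D.e j * D.v j j) + 96 * D.tl) := by
  have n1 : 0 ≤ 4 * τ0 ^ 2 * D.g j * (GH D j (σ p q) * GH D j (σ p' q')) := by
    have := D.g0 j; have := GH0 (D := D) j (σ p q); have := GH0 (D := D) j (σ p' q'); positivity
  have c0 : 0 ≤ 4 * cq r τ0 * (D.e j * D.g j ^ 2) := by
    have := cq0 h.tau0 r; have := h.e0 j; positivity
  have n2 := mul_nonneg c0 (GH0 (D := D) j (σ p q))
  have n2' := mul_nonneg c0 (GH0 (D := D) j (σ p' q'))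
  have n3 := mul_nonneg (show 0 ≤ 16 * τ0 ^ 2 by positivity) (far0 (σ := σ) j b p q)
  have n3' := mul_nonneg (show 0 ≤ 16 * τ0 ^ 2 by positivity) (far0 (σ := σ) j b p' q')
  have n4 : 0 ≤ τ0 ^ 2 * (48 * (D.e j * D.v j j) + 96 * D.tl) := by
    have := h.e0 j; have := D.v0 j j; have := h.tl0; positivity
  rw [mul_add (4 * cq r τ0 * _), mul_add (16 * τ0 ^ 2)]
  split_ifs with hc
  swap
  · rw [abs_zero]; linarith
  have hT := T3_le (D := D) hσ h1 h2 h3
  have hf := abs_cf h hσ p q p' q'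
  rw [e] at hc hT
  rw [Ph, abs_mul, kp, e]
  rcases hc.1.lt_or_eq with l1 | l1 <;> rcases hc.2.lt_or_eq with l2 | l2
  · rw [if_neg fun hh => l1.ne' hh.1, sub_zero]
    have := mul_le_mul hf hT (abs_nonneg _) (sq_nonneg _)
    rw [← show GH D j (σ p q) = D.g (σ p q) from if_pos l1,
      ← show GH D j (σ p' q') = D.g (σ p' q') from if_pos l2] at this
    linarith
  · rw [if_neg fun hh => l1.ne' hh.1, sub_zero, cf_comm]
    have := mul_le_mul (cf_par h hσ hj l2.symm l1) hT (abs_nonneg _)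
      (mul_nonneg (cq0 h.tau0 r) (h.e0 j))
    rw [show D.g (σ p' q') = D.g j from congrArg _ l2.symm,
      ← show GH D j (σ p q) = D.g (σ p q) from if_pos l1] at this
    linarith
  · rw [if_neg fun hh => l2.ne' hh.2, sub_zero]
    have := mul_le_mul (cf_par h hσ hj l1.symm l2) hT (abs_nonneg _)
      (mul_nonneg (cq0 h.tau0 r) (h.e0 j))
    rw [show D.g (σ p q) = D.g j from congrArg _ l1.symm,
      ← show GH D j (σ p' q') = D.g (σ p' q') from if_pos l2] at this
    linarith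
  · rw [if_pos ⟨l1.symm, l2.symm⟩]
    have cr : |cf D σ p q p' q'| * |T3 D σ a b p q p' q' - D.u3 j| ≤ 16 * τ0 ^ 2 :=
      (mul_le_mul hf ((abs_sub _ _).trans (add_le_add (T3_crude h hσ _ _ _ _ _ _)
        (e ▸ u3_crude h hσ h1))) (abs_nonneg _) (sq_nonneg _)).trans_eq (by ring)
    by_cases f1 : σ p b < j
    · rw [show far σ j b p q = 1 from if_pos ⟨l1.symm, f1⟩]; linarith
    by_cases f2 : σ p' b < j
    · rw [show far σ j b p' q' = 1 from if_pos ⟨l2.symm, f2⟩]; linarith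
    have hab : ∀ i : Fin 3, σ (![a, p, p'] i) (![b, q, q'] i) = j := fun i => by
      fin_cases i
      exacts [e, l1.symm, l2.symm]
    have k : ∀ c, ¬σ c b < j → j ≤ σ a c := fun c hc => by
      have := hσ.ultra a b c
      rw [hσ.comm b c] at this
      omega
    have := C3n47.cd3 h hσ (a := ![a, p, p']) (b := ![b, q, q']) hj hab fun i => by
      fin_cases i
      · exact e ▸ (hσ.le a b).trans_eq (hσ.self a).symm
      · exact k p f1
      · exact k p' f2
    rw [show (TB D σ fun x => ∏ i : Fin 3, oU D.q j (x (![a, p, p'] i)) (x (![b, q, q'] i))) =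
      T3 D σ a b p q p' q' by simp only [T3_eq, hab]] at this
    linarith [mul_le_mul hf this (abs_nonneg _) (sq_nonneg _)]

theorem Br_hi (h : D.Ok τ0) (a : ℕ → ℝ) (j : ℕ) :
    Br D.B (fun t => if j < t then a t else 0) = D.hi a j := by
  rw [Br, lenB, Finset.sum_range_succ, show dm D.B 0 D.K = 0 from h.top, zero_mul, add_zero]
  simp only [mul_ite, mul_zero]
  rw [← Finset.sum_filter, CD.hi]
  refine Finset.sum_congr (Finset.ext fun t => ?_) fun _ _ => rfl
  simp only [Finset.mem_filter, Finset.mem_range, Finset.mem_Ioo]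
  exact and_comm

theorem Br_sq (h : D.Ok τ0) (G : ℕ → ℝ) : Br D.B G * Br D.B G ≤ Br D.B fun v => G v * G v := by
  have := Br_nonneg h.mono (g := fun v => G v * G v + (-2 * Br D.B G * G v + Br D.B G ^ 2))
    fun v _ => by nlinarith [sq_nonneg (G v - Br D.B G)]
  rw [Br_add, Br_add, Br_mul, Site94.Br_const] at this
  nlinarith

variable {k j : ℕ}

theorem w2 (h : D.Ok τ0) (hj : j ≤ D.B.length) {p q p' q' : Fin (1 + k + 1)} (h2 : p ≠ q)
    (h3 : p' ≠ q') : avc D.B (tw D.B.length j) k (fun σ => GH D j (σ p q) * GH D j (σ p' q')) ≤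
      (3 * (1 + k)) ^ k * (3 * D.hi (fun t => D.g t ^ 2) j) := by
  refine (Ck32.avc_w2 h.mono hj k (GH0 j) (GH0 j) h2 h3).trans
    (mul_le_mul_of_nonneg_left ?_ (by positivity))
  have h1 := Br_sq h (GH D j)
  have e : (Br D.B fun v => GH D j v * GH D j v) = D.hi (fun t => D.g t ^ 2) j := by
    rw [← Br_hi h]
    refine congrArg _ (funext fun v => ?_)
    unfold GH
    split_ifs <;> ring
  rw [show GH D j j = 0 from if_neg (lt_irrefl j), zero_add]
  linarith

theorem w1 (h : D.Ok τ0) (hj : j ≤ D.B.length) {p q : Fin (1 + k + 1)} (h2 : p ≠ q) :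
    avc D.B (tw D.B.length j) k (fun σ => GH D j (σ p q)) ≤ (3 * (1 + k)) ^ k * (4 * D.hi D.g j) := by
  have := Ck32.avc_w2 h.mono hj k (g := fun _ => 1) (fun _ => zero_le_one) (GH0 (D := D) j) h2 h2
  simp only [one_mul, Br_one] at this
  rw [show GH D j j = 0 from if_neg (lt_irrefl j), show Br D.B (GH D j) = D.hi D.g j from
    Br_hi h D.g j] at this
  exact this.trans_eq (by ring)

theorem w0 (h : D.Ok τ0) (hj : j ≤ D.B.length) {p q : Fin (1 + k + 1)} (h2 : p ≠ q) :
    avc D.B (tw D.B.length j) k (fun σ => far σ j (mb k) p q) ≤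
      (1 + 1).ascFactorial k * (k * D.dx j) :=
  Eb31.avc_far h.mono (rz_tw D.B.length j) hj (Fin.forall_fin_two.2
    ⟨hj.trans_eq ((rz_tw D.B.length j).self 0).symm, (Ck32.tw_old _ j hj).ge⟩) k h2

theorem aw_le (h : D.Ok τ0) {φ : SM (1 + k + 1) → ℝ} {a : ℕ → ℝ}
    (H : ∀ j ∈ D.up, |avc D.B (tw D.B.length j) k φ| ≤ a j) : |aw D k φ| ≤ D.Iw a := by
  have : aw D k φ = ∑ j ∈ D.up, D.om j * avc D.B (tw D.B.length j) k φ := by
    rw [Ck32.sum_up h]
    simp only [aw, avt, mo, ite_mul, zero_mul]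
  rw [this]
  exact D.abs_sum_om H

end Crest.Agent.T156.Cas.Su67.H10

namespace Crest.Agent.T156.Cas.Su67

open Crest.Agent.T157.E Crest.Agent.T157.Casc Crest.Agent.T157.SL
open Mul55 C40 G90 Nu87 H10

/-- **both edges at or above the marked node** -/
theorem regHi : RegHi := fun k p q p' q' h2 h3 => Bd.mk' fun τ0 => by
  set W : ℝ := (3 * (1 + k)) ^ k with hW'
  set A : ℝ := ((1 + 1).ascFactorial k : ℕ) * k with hA
  have W0 : 0 ≤ W := by positivity
  have A0 : 0 ≤ A := by positivity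
  refine ⟨96 * τ0 ^ 2 + (W * (12 * τ0 ^ 2 + 32 * cq (1 + k + 1) τ0) + 48 * τ0 ^ 2 + 32 * τ0 ^ 2 * A),
    fun D h hW => ?_⟩
  have c0 := cq0 h.tau0 (1 + k + 1)
  have c1 : 0 ≤ W * (12 * τ0 ^ 2 + 32 * cq (1 + k + 1) τ0) := by positivity
  refine (aw_le h (a := fun j => W * (12 * τ0 ^ 2 + 32 * cq (1 + k + 1) τ0) *
      (D.e j * D.g j ^ 2 * D.hi D.g j + D.g j * D.hi (fun t => D.g t ^ 2) j) +
      48 * τ0 ^ 2 * (D.e j * D.v j j) + 32 * τ0 ^ 2 * A * D.dx j + 96 * τ0 ^ 2 * D.tl)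
    fun j hj => ?_).trans (h.Iw_split hW (by positivity) (by positivity)
      (mul_le_mul_of_nonneg_left h.tl_le (by positivity)) ?_)
  · have hK : j ≤ D.B.length := D.B_len ▸ (CD.mem_up.1 hj).2.le
    refine (Site94.abs_avc_le h.mono (rz_tw D.B.length j) k fun σ hσ ho =>
      pt h hσ (a := ma k) (b := mb k) (Ck32.mk_ne k) h2 h3 hj ((ho 1 0).trans (Ck32.tw_old _ j hK))).trans ?_
    simp only [avc_add, avc_mul, avc_const]
    have g0 := D.g0 j
    have e0 := h.e0 j
    have a1 := mul_le_mul_of_nonneg_left (w2 h hK h2 h3) (show 0 ≤ 4 * τ0 ^ 2 * D.g j by positivity)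
    have a2 := mul_le_mul_of_nonneg_left (add_le_add (w1 h hK h2) (w1 h hK h3))
      (show 0 ≤ 4 * cq (1 + k + 1) τ0 * (D.e j * D.g j ^ 2) by positivity)
    have a3 := mul_le_mul_of_nonneg_left (add_le_add (w0 h hK h2) (w0 h hK h3))
      (show 0 ≤ 16 * τ0 ^ 2 by positivity)
    obtain ⟨b1, -, b2, -⟩ := h.Cub_parts j
    have b3 : 0 ≤ W * (12 * τ0 ^ 2) * (D.e j * D.g j ^ 2 * D.hi D.g j) := by positivity
    have b4 : 0 ≤ W * (32 * cq (1 + k + 1) τ0) * (D.g j * D.hi (fun t => D.g t ^ 2) j) := by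
      positivity
    rw [← hW'] at a1 a2
    rw [← mul_assoc _ (k : ℝ), ← hA] at a3
    linarith
  · rw [D.Iw_add, D.Iw_add, D.Iw_mul, D.Iw_mul, D.Iw_mul, add_mul, add_mul]
    refine add_le_add (add_le_add (mul_le_mul_of_nonneg_left (le_trans (D.Iw_mono fun j _ => ?_)
      h.Cub_le) c1) (mul_le_mul_of_nonneg_left (le_trans (D.Iw_mono fun j _ => ?_) h.Lad1_le)
      (by positivity))) (mul_le_mul_of_nonneg_left h.Iwdx_le (by positivity))
    · obtain ⟨-, -, -, b1, b2⟩ := h.Cub_parts j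
      exact add_le_add le_rfl (mul_le_mul_of_nonneg_left (by linarith) (D.g0 j))
    · exact le_add_of_nonneg_right (h.sv_low0 _ _)

end Crest.Agent.T156.Cas.Su67

end
end

-- ▼ part T156/StUL_32
section

/-!
# Row 156, block C: `tU [aU, aU]`, an edge below the marked node (helper32)
-/

set_option autoImplicit false
set_option linter.all false

noncomputable section

namespace Crest.Agent.T156.Cas.Su67

open MeasureTheory Real Set Filter Topology
open Crest.Agent.T157.E Crest.Agent.T157.Casc Crest.Agent.T157.SL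
open Crest.ProbabilityR.SpinGlassDynamics (spin)
open Mul55 C40 G90 Nu87 Ck32
open Wp52 (Br Br_one Br_nonneg Br_mul Br_add Br_le Br_mono)

variable {D : CD} {τ0 : ℝ} {r k : ℕ}

namespace L32

/-- parity at any cut `t`, references vanishing on the crossing edges -/
theorem SF_min (H : D.Ok τ0) {σ : SM r} (hσ : Rz D.B.length σ) {ι : Type} [DecidableEq ι]
    {q : ι → ℕ → ℝ} {p p' : ι → Fin r} {B : Finset ι}
    (h1 : ∀ e ∈ B, |q e (σ (p e) (p' e))| ≤ 1) {t : ℕ} (ht : t ≤ D.K)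
    (ho : Site94.OddAt σ p p' B t)
    (hq : ∀ e ∈ B, σ (p e) (p' e) ≤ t → q e (σ (p e) (p' e)) = 0) :
    |Site94.SF D.S q p p' B σ| ≤ 2 ^ B.card * Site94.cP r 2 * min 1 (D.sig t) := by
  have hc := Site94.cP_nonneg r 2
  have h0 := H.sig0 ht
  rcases le_total 1 (D.sig t) with h | h
  · rw [min_eq_left h, mul_one]
    exact (Site94.abs_SF_le (lenS (D := D) ▸ hσ) h1).trans (le_mul_of_one_le_right (by positivity)
      (Site94.one_le_cP ho.choose 2))
  rw [min_eq_right h]
  have key : ∀ ε : ℝ, 0 < ε → ε ≤ 1 →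
      |Site94.SF D.S q p p' B σ| ≤ 2 ^ B.card * Site94.cP r 2 * (D.sig t + ε) := fun ε e0 e1 => by
    have hp : 0 < D.sig t + ε := by positivity
    have := Site94.SF_odd (L := D.S) (ℓ := opV D.n D.β D.M D.q)
      (C.forall₂_sl spin (opV_nn H.ook)) (Cav22.mono_tilt tilt_opS.symm H.mono)
      (lenS (D := D) ▸ hσ) h1 ho hp ((opV_acc ht).trans_le (le_add_of_nonneg_right e0.le))
      fun e he hj => by rw [hq e he hj, abs_zero]; exact hp.le
    rw [mul_assoc]
    exact this.trans (mul_le_mul_of_nonneg_left (mul_le_mul_of_nonneg_right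
      (Site94.cP_mono r (by linarith)) hp.le) (by positivity))
  have hc : Continuous fun ε : ℝ => 2 ^ B.card * Site94.cP r 2 * (D.sig t + ε) := by fun_prop
  have := (hc.tendsto 0).mono_left (nhdsWithin_le_nhds (s := Ioi 0))
  simp only [add_zero] at this
  exact ge_of_tendsto this (by
    filter_upwards [Ioc_mem_nhdsGT (zero_lt_one' ℝ)] with ε h using key ε h.1 h.2)

theorem min_sig (H : D.Ok τ0) {t : ℕ} (ht : t ∈ D.up) : min 1 (D.sig t) ≤ D.e t :=
  (min_le_min le_rfl (le_add_of_nonneg_left (H.ex0 t))).trans (H.esc t ht)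

theorem ex_e (H : D.Ok τ0) {t : ℕ} (ht : t ∈ D.up) : ex D.B t ≤ D.e t := by
  have h1 : ex D.B t ≤ 1 := by
    rw [← H.sum_dx]
    exact H.sum_dx_one fun i hi => (Nat.lt_succ_iff.1 (Finset.mem_range.1 hi)).trans
      (Finset.mem_Ioo.1 ht).2.le
  exact (le_min h1 (le_add_of_nonneg_right (H.sig0 (Finset.mem_Ioo.1 ht).2.le))).trans
    (H.esc t ht)

theorem tu_mem (H : D.Ok τ0) (t : ℕ) : 0 ≤ tu D t ∧ tu D t ≤ |τ0| := by
  obtain ⟨h0, h1⟩ := tau_le H t
  unfold tu
  split_ifs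
  · constructor <;> linarith
  · exact ⟨le_rfl, abs_nonneg _⟩

/-- the reference times `τ` is at most the scale -/
theorem tu_q (H : D.Ok τ0) {t : ℕ} (ht : t ∈ D.up) : tu D t * D.q t ≤ (1 + |τ0|) * D.e t := by
  obtain ⟨h0, h1⟩ := tau_le H t
  have hq := H.ook.mem (Finset.mem_Ioo.1 ht).2.le
  have h2 : D.τ t * D.q t ≤ D.sig t := le_add_of_nonneg_right (H.fAcc0 t)
  have h3 := mul_le_mul h1 hq.2 hq.1 (abs_nonneg _)
  have h4 := mul_nonneg h0 hq.1
  refine le_trans ?_ (mul_le_mul_of_nonneg_left (min_sig H ht) (by positivity))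
  rw [tu, if_pos (Finset.mem_Ioo.1 ht).1]
  rcases le_total 1 (D.sig t) with h | h
  · rw [min_eq_left h]; linarith
  · rw [min_eq_right h]; nlinarith [abs_nonneg τ0]

theorem abs_TS_le {σ : SM r} (hσ : Rz D.B.length σ) {F : (Fin r → Bool) → ℝ} {c : ℝ}
    (e : ∀ x, |F x| ≤ c) : |Ck32.TS D σ F| ≤ c :=
  (Cub94.abs_TM_le wt_one90 (lenS (D := D) ▸ hσ) e).trans_eq
    (TM_const wt_one90 (lenS (D := D) ▸ hσ) c)

theorem abs_et {q : ℝ} (h : |q| ≤ 1) (a b : Bool) : |spin a * spin b - q| ≤ 2 := by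
  have := OneP.abs_spin2 a b
  exact (abs_sub _ _).trans (by linarith)

end L32

open L32

/-- crude bound of the site coefficient -/
theorem cf_le (H : D.Ok τ0) {σ : SM r} (hσ : Rz D.B.length σ) (p q p' q' : Fin r) :
    |cf D σ p q p' q'| ≤ 4 * |τ0| ^ 2 := by
  have h1 := tu_mem H (σ p q)
  have h2 := tu_mem H (σ p' q')
  have h3 := abs_TS_le (D := D) hσ (c := 2 * 2) (F := fun x =>
    oE D.q (σ p q) (x p) (x q) * oE D.q (σ p' q') (x p') (x q')) fun x => by
      rw [abs_mul]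
      exact mul_le_mul (abs_et (abs_q_le H (hσ.le _ _)) _ _) (abs_et (abs_q_le H (hσ.le _ _)) _ _)
        (abs_nonneg _) zero_le_two
  rw [cf, abs_mul, abs_of_nonneg (mul_nonneg h1.1 h2.1)]
  refine (mul_le_mul (mul_le_mul h1.2 h2.2 h2.1 (abs_nonneg _)) h3 (abs_nonneg _)
    (by positivity)).trans_eq (by ring)

/-- the constant of the parity bound -/
def cPar (τ0 : ℝ) (r : ℕ) : ℝ := 4 * Site94.cP r 2 * |τ0| ^ 2 + 4 * |τ0| * (1 + |τ0|)

theorem cPar_nonneg (τ0 : ℝ) (r : ℕ) : 0 ≤ cPar τ0 r := by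
  have := Site94.cP_nonneg r 2
  unfold cPar
  positivity

/-- **parity**: a cluster above the cut `t` is crossed by exactly one of the two edges -/
theorem cf_par (H : D.Ok τ0) {σ : SM r} (hσ : Rz D.B.length σ) {p q p' q' : Fin r} {t : ℕ}
    (ht : t ∈ D.up) (h1 : t ≤ σ p q) (h2 : t ≤ σ p' q') {a : Fin r}
    (ho : ¬(Site94.Crs σ a t p q ↔ Site94.Crs σ a t p' q')) :
    |cf D σ p q p' q'| ≤ cPar τ0 r * D.e t := by
  set Q : ℕ → ℝ := fun v => if v ≤ t then 0 else D.q v with hQ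
  set d : ℕ → ℝ := fun v => if v ≤ t then D.q v else 0 with hd
  have hQ1 : ∀ b c, |Q (σ b c)| ≤ 1 := fun b c => by
    simp only [hQ]
    split_ifs
    exacts [by simp, abs_q_le H (hσ.le _ _)]
  have he := H.e0 t
  have hdu : ∀ v, t ≤ v → |tu D v * d v| ≤ (1 + |τ0|) * D.e t := fun v hv => by
    simp only [hd]
    split_ifs with h
    · rw [le_antisymm h hv, abs_of_nonneg (mul_nonneg (tu_mem H t).1
        (H.ook.mem (Finset.mem_Ioo.1 ht).2.le).1)]
      exact tu_q H ht
    · rw [mul_zero, abs_zero]; positivity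
  have hs := SF_min H hσ (ι := Fin 2) (q := fun _ => Q) (p := ![p, p']) (p' := ![q, q'])
    (B := Finset.univ) (fun e _ => hQ1 _ _) (Finset.mem_Ioo.1 ht).2.le
    ⟨a, by
      rw [Finset.card_filter, Fin.sum_univ_two]
      simp only [Matrix.cons_val_zero, Matrix.cons_val_one]
      split_ifs with a1 a2 a2
      exacts [absurd (iff_of_true a1 a2) ho, odd_one, odd_one, absurd (iff_of_false a1 a2) ho]⟩
    fun e _ h => if_pos h
  have e1 : ∀ (v : ℕ) (x y : Bool), oE D.q v x y = Site94.et Q v x y - d v := fun v x y => by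
    simp only [oE, Site94.et, hQ, hd]
    split_ifs <;> ring
  have e2 : cf D σ p q p' q' = tu D (σ p q) * tu D (σ p' q') *
      Site94.SF D.S (fun _ : Fin 2 => Q) ![p, p'] ![q, q'] Finset.univ σ -
      tu D (σ p q) * d (σ p q) * (tu D (σ p' q') *
        Ck32.TS D σ fun x => Site94.et Q (σ p' q') (x p') (x q')) -
      tu D (σ p' q') * d (σ p' q') * (tu D (σ p q) *
        Ck32.TS D σ fun x => oE D.q (σ p q) (x p) (x q)) := by
    simp only [cf, Site94.SF, Ck32.TS, ← TM_mul, ← TM_sub, Fin.prod_univ_two, ed, Matrix.cons_val_zero,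
      Matrix.cons_val_one]
    congr 1
    funext x
    rw [e1 (σ p' q'), e1 (σ p q)]
    ring
  have u1 := tu_mem H (σ p q)
  have u2 := tu_mem H (σ p' q')
  have b1 := abs_TS_le (D := D) hσ (c := 2) (F := fun x => Site94.et Q (σ p' q') (x p') (x q'))
    fun x => abs_et (hQ1 _ _) _ _
  have b2 := abs_TS_le (D := D) hσ (c := 2) (F := fun x => oE D.q (σ p q) (x p) (x q))
    fun x => abs_et (abs_q_le H (hσ.le _ _)) _ _
  have hc := Site94.cP_nonneg r 2
  rw [Finset.card_univ, Fintype.card_fin] at hs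
  have c1 := mul_le_mul (mul_le_mul u1.2 u2.2 u2.1 (abs_nonneg _))
    (hs.trans (mul_le_mul_of_nonneg_left (min_sig H ht) (by positivity))) (abs_nonneg _)
    (by positivity)
  have c2 := mul_le_mul (hdu _ h1) (mul_le_mul u2.2 b1 (abs_nonneg _) (abs_nonneg _))
    (mul_nonneg u2.1 (abs_nonneg _)) (by positivity)
  have c3 := mul_le_mul (hdu _ h2) (mul_le_mul u1.2 b2 (abs_nonneg _) (abs_nonneg _))
    (mul_nonneg u1.1 (abs_nonneg _)) (by positivity)
  rw [e2]
  refine (abs_sub _ _).trans ((add_le_add (abs_sub _ _) le_rfl).trans ?_)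
  rw [abs_mul (_ * _), abs_mul (_ * _), abs_mul (_ * _), abs_mul (tu D _) (Ck32.TS D _ _),
    abs_mul (tu D _) (Ck32.TS D _ _), abs_of_nonneg (mul_nonneg u1.1 u2.1), abs_of_nonneg u1.1,
    abs_of_nonneg u2.1, cPar]
  linarith

/-- Hölder for three edges -/
theorem abs_T3 {σ : SM r} (hσ : Rz D.B.length σ) {a b p q p' q' : Fin r} (h0 : a ≠ b) (h1 : p ≠ q)
    (h2 : p' ≠ q') : |T3 D σ a b p q p' q'| ≤ 4 * (D.g (σ a b) * (D.g (σ p q) * D.g (σ p' q'))) := by
  have := Cub94.TM_holder (w := fun _ => 1) (Lb := D.B) (h := 0) wt_one90 hσ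
    (B := (Finset.univ : Finset (Fin 3))) (n := 3) (by simp)
    (f := fun i x => oU D.q (σ (![a, p, p'] i) (![b, q, q'] i)) (x (![a, p, p'] i))
      (x (![b, q, q'] i))) (u := fun i => D.g (σ (![a, p, p'] i) (![b, q, q'] i)))
    (fun _ _ => g_nonneg _) fun i _ => ((TB_pow hσ (by
      fin_cases i
      exacts [h0, h1, h2]) 3).trans (g_cube _).symm).le
  simp only [Fin.prod_univ_three, Finset.card_univ, Fintype.card_fin, mul_assoc] at this
  norm_num at this
  exact this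

/-- same two clusters, not the exception: the marked pair is a third branch -/
theorem out_of {K : ℕ} {σ : SM r} (hσ : Rz K σ) {a b p q p' q' : Fin r} (e : σ p' q' = σ p q)
    (hj : σ p q < σ a b) (hE : ¬Ex4 σ a b p q p' q')
    (h : ∀ x, Site94.Crs σ x (σ p q) p q ↔ Site94.Crs σ x (σ p q) p' q') :
    Site94.Out id σ p q := by
  have hK := hσ.le a b
  have hP := (h p).1 (by rw [Site94.Crs, hσ.self]; omega)
  have hQ := (h q).1 (by rw [Site94.Crs, hσ.self, hσ.comm q p]; omega)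
  refine ⟨a, ?_⟩
  have u1 := hσ.ultra a p p'
  have u2 := hσ.ultra a p q'
  have u3 := hσ.ultra a q p'
  have u4 := hσ.ultra a q q'
  have u5 := hσ.ultra p p' q
  have u6 := hσ.ultra p q' q
  rw [hσ.comm p' q] at u5
  rw [hσ.comm q' q] at u6
  simp only [Ex4, Ex, hσ.comm q p, hσ.comm q' p', Site94.Crs] at hE hP hQ
  rw [hσ.comm p a, hσ.comm q a, id]
  omega

namespace L32

/-- a function on the nodes between the cut and `j` -/
def mid (D : CD) (F : ℕ → ℝ) (j v : ℕ) : ℝ := if D.J < v ∧ v < j then F v else 0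

theorem mid_nonneg {F : ℕ → ℝ} (h : ∀ v, 0 ≤ F v) (j v : ℕ) : 0 ≤ mid D F j v := by
  unfold mid; split_ifs; exacts [h v, le_rfl]

theorem mid_self (F : ℕ → ℝ) (j : ℕ) : mid D F j j = 0 := if_neg fun h => lt_irrefl _ h.2

theorem Br_mid (F : ℕ → ℝ) {j : ℕ} (hj : j ≤ D.K) : Br D.B (mid D F j) = D.lw F j := by
  simp only [Br, mid, mul_ite, mul_zero]
  rw [← Finset.sum_filter, CD.lw]
  refine Finset.sum_congr (Finset.ext fun v => ?_) fun _ _ => rfl
  simp only [Finset.mem_filter, Finset.mem_range, lenB, Finset.mem_Ioo]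
  omega

theorem aw_le (H : D.Ok τ0) {φ : SM (1 + k + 1) → ℝ} {c : ℝ} {a : ℕ → ℝ}
    (h : ∀ j ∈ D.up, |avc D.B (tw D.B.length j) k φ| ≤ c * a j) : |aw D k φ| ≤ c * D.Iw a := by
  have e : aw D k φ = ∑ j ∈ D.up, D.om j * avc D.B (tw D.B.length j) k φ := by
    rw [sum_up H, aw, avt]
    simp only [mo, ite_mul, zero_mul]
  rw [e, ← Iw_mul]
  exact D.abs_sum_om h

/-- the pointwise bound -/
theorem pt (H : D.Ok τ0) {σ : SM r} (hσ : Rz D.B.length σ) {a b p q p' q' : Fin r} (h0 : a ≠ b)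
    (h1 : p ≠ q) (h2 : p' ≠ q') {j : ℕ} (hj : j ∈ D.up) (e : σ a b = j) :
    |if ¬(σ a b ≤ σ p q ∧ σ a b ≤ σ p' q') ∧ ¬Ex4 σ a b p q p' q'
      then cf D σ p q p' q' * T3 D σ a b p q p' q' else 0| ≤
      4 * (cPar τ0 r + 4 * |τ0| ^ 2) * D.g j *
        (mid D (fun v => D.e v * D.g v) j (σ p q) * upF D D.g (σ p' q') +
          mid D (fun v => D.e v * D.g v) j (σ p' q') * upF D D.g (σ p q) +
          if Site94.Out id σ p q then mid D (fun v => D.g v ^ 2) j (σ p q) else 0) := by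
  have heg : ∀ v, 0 ≤ D.e v * D.g v := fun v => mul_nonneg (H.e0 v) (g_nonneg v)
  have n1 := mul_nonneg (mid_nonneg (D := D) heg j (σ p q)) (upF_nonneg (D := D) (g_nonneg (D := D)) (σ p' q'))
  have n2 := mul_nonneg (mid_nonneg (D := D) heg j (σ p' q')) (upF_nonneg (D := D) (g_nonneg (D := D)) (σ p q))
  have n3 : 0 ≤ if Site94.Out id σ p q then mid D (fun v => D.g v ^ 2) j (σ p q) else 0 := by
    split_ifs
    exacts [mid_nonneg (fun _ => sq_nonneg _) _ _, le_rfl]
  have hc := cPar_nonneg τ0 r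
  have gj := g_nonneg (D := D) j
  have g1 := g_nonneg (D := D) (σ p q)
  have g2 := g_nonneg (D := D) (σ p' q')
  have n0 := mul_nonneg (show 0 ≤ 4 * (cPar τ0 r + 4 * |τ0| ^ 2) * D.g j by positivity)
    (add_nonneg (add_nonneg n1 n2) n3)
  by_cases hc1 : ¬(σ a b ≤ σ p q ∧ σ a b ≤ σ p' q') ∧ ¬Ex4 σ a b p q p' q'
  swap
  · rwa [if_neg hc1, abs_zero]
  rw [if_pos hc1]
  by_cases j1 : D.J < σ p q
  swap
  · rwa [cf, tu, if_neg j1, zero_mul, zero_mul, zero_mul, abs_zero]
  by_cases j2 : D.J < σ p' q'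
  swap
  · rwa [cf, tu.eq_1 D (σ p' q'), if_neg j2, mul_zero, zero_mul, zero_mul, abs_zero]
  have hT := abs_T3 (D := D) hσ h0 h1 h2
  obtain ⟨hc1, hE⟩ := hc1
  rw [e] at hT hc1
  have hjK := (Finset.mem_Ioo.1 hj).2
  have fin : ∀ {c y : ℝ}, 0 ≤ c → |cf D σ p q p' q'| ≤ c →
      c * (D.g (σ p q) * D.g (σ p' q')) ≤ (cPar τ0 r + 4 * |τ0| ^ 2) * y →
      |cf D σ p q p' q' * T3 D σ a b p q p' q'| ≤ 4 * (cPar τ0 r + 4 * |τ0| ^ 2) * D.g j * y :=
    fun {c y} c0 c1 c2 => by
      rw [abs_mul]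
      refine (mul_le_mul c1 hT (abs_nonneg _) c0).trans ?_
      nlinarith [mul_le_mul_of_nonneg_left c2 gj]
  have par1 : ∀ x, σ p q ≤ σ p' q' → σ p q < j →
      ¬(Site94.Crs σ x (σ p q) p q ↔ Site94.Crs σ x (σ p q) p' q') → _ := fun x l1 l2 ho =>
    fin (mul_nonneg hc (H.e0 _)) (cf_par H hσ (Finset.mem_Ioo.2 ⟨j1, l2.trans hjK⟩) le_rfl l1 ho)
      (y := mid D (fun v => D.e v * D.g v) j (σ p q) * upF D D.g (σ p' q')) (by
        rw [mid, if_pos ⟨j1, l2⟩, upF, if_pos j2]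
        nlinarith [mul_nonneg (mul_nonneg (heg (σ p q)) g2) (sq_nonneg |τ0|)])
  have mono : ∀ {y y' : ℝ}, y ≤ y' → 4 * (cPar τ0 r + 4 * |τ0| ^ 2) * D.g j * y ≤
      4 * (cPar τ0 r + 4 * |τ0| ^ 2) * D.g j * y' := fun h =>
    mul_le_mul_of_nonneg_left h (by positivity)
  have hK : ∀ x, σ x x = D.K := fun x => (hσ.self x).trans lenB
  rcases lt_trichotomy (σ p q) (σ p' q') with l | l | l
  · refine (par1 p l.le (by omega) fun h => ?_).trans (mono (by linarith))
    exact absurd ((h.1 (by rw [Site94.Crs, hK]; omega)).le hσ) (not_le.2 l)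
  · by_cases ho : ∀ x, Site94.Crs σ x (σ p q) p q ↔ Site94.Crs σ x (σ p q) p' q'
    · refine (fin (by positivity) (cf_le H hσ p q p' q')
        (y := mid D (fun v => D.g v ^ 2) j (σ p q)) ?_).trans (mono ?_)
      · rw [mid, if_pos ⟨j1, by omega⟩, ← l]
        nlinarith [mul_nonneg hc (sq_nonneg (D.g (σ p q)))]
      · rw [if_pos (out_of hσ l.symm (by omega) hE ho)]
        linarith
    · obtain ⟨x, hx⟩ := not_forall.1 ho
      exact (par1 x l.le (by omega) hx).trans (mono (by linarith))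
  · have l2 : σ p' q' < j := by omega
    refine (fin (mul_nonneg hc (H.e0 _)) (cf_par H hσ (Finset.mem_Ioo.2 ⟨j2, l2.trans hjK⟩) l.le
      le_rfl (a := p') fun h => ?_)
      (y := mid D (fun v => D.e v * D.g v) j (σ p' q') * upF D D.g (σ p q)) ?_).trans
      (mono (by linarith))
    · exact absurd ((h.2 (by rw [Site94.Crs, hK]; omega)).le hσ) (not_le.2 l)
    · rw [mid, if_pos ⟨j2, l2⟩, upF, if_pos j1]
      nlinarith [mul_nonneg (mul_nonneg (heg (σ p' q')) g1) (sq_nonneg |τ0|)]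

/-- an edge between the cut and the marked node, and another edge -/
theorem w_mid (H : D.Ok τ0) {j : ℕ} (hj : j ∈ D.up) {p q p' q' : Fin (1 + k + 1)} (h1 : p ≠ q)
    (h2 : p' ≠ q') : avc D.B (tw D.B.length j) k (fun σ =>
      mid D (fun v => D.e v * D.g v) j (σ p q) * upF D D.g (σ p' q')) ≤ (3 * (1 + k)) ^ k *
      ((D.g j + D.N1) * D.lw (fun v => D.e v * D.g v) j +
        2 * D.lw (fun v => D.e v * D.g v ^ 2) j) := by
  obtain ⟨j1, j2⟩ := Finset.mem_Ioo.1 hj
  refine (avc_w2 H.mono (j2.le.trans_eq lenB.symm) k (mid_nonneg (D := D)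
    (fun v => mul_nonneg (H.e0 v) (g_nonneg v)) j) (upF_nonneg (D := D) (g_nonneg (D := D)))
    h1 h2).trans_eq ?_
  have e : (fun v => mid D (fun v => D.e v * D.g v) j v * upF D D.g v) =
      mid D (fun v => D.e v * D.g v ^ 2) j := funext fun v => by
    unfold mid upF
    split_ifs with a1 a2
    · ring
    · exact absurd a1.1 a2
    · simp
    · simp
  rw [e, mid_self, zero_add, Br_mid _ j2.le, Br_mid _ j2.le, Br_upF H, upF, if_pos j1, CD.N1,
    mul_comm (D.lw _ _)]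

/-- a third branch -/
theorem w_out (H : D.Ok τ0) {j : ℕ} (hj : j ∈ D.up) {p q : Fin (1 + k + 1)} (h1 : p ≠ q) :
    avc D.B (tw D.B.length j) k (fun σ =>
      if Site94.Out id σ p q then mid D (fun v => D.g v ^ 2) j (σ p q) else 0) ≤
      (3 * (1 + k)) ^ k * D.lw (fun v => D.e v * D.g v ^ 2) j := by
  obtain ⟨j1, j2⟩ := Finset.mem_Ioo.1 hj
  refine (Site94.avc_out H.mono (j2.le.trans_eq lenB.symm) k (c := id) (fun _ => le_rfl)
    (mid_nonneg (D := D) (fun _ => sq_nonneg _) j) h1).trans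
    (mul_le_mul_of_nonneg_left ?_ (by positivity))
  have e : (fun v => if j ≤ id v then mid D (fun v => D.g v ^ 2) j v else 0) = fun _ => 0 :=
    funext fun v => by
      split_ifs with a
      exacts [if_neg fun h => absurd h.2 (not_lt.2 a), rfl]
  rw [e, mid_self, mul_zero, zero_add, Site94.Br_const, zero_add, ← Br_mid _ j2.le]
  refine Br_mono H.mono fun v _ => ?_
  unfold mid
  split_ifs with a
  · exact mul_le_mul_of_nonneg_right (ex_e H (Finset.mem_Ioo.2 ⟨a.1, a.2.trans j2⟩)) (sq_nonneg _)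
  · exact (mul_zero _).le

end L32

/-- **`RegLo`** -/
theorem regLo : RegLo := fun k p q p' q' h1 h2 => Bd.mk' fun τ0 =>
  ⟨4 * (cPar τ0 (1 + k + 1) + 4 * |τ0| ^ 2) * ((3 * (1 + k)) ^ k * 5), fun D H hW => by
    have hc := cPar_nonneg τ0 (1 + k + 1)
    refine (aw_le H (a := fun j => D.e j * D.g j ^ 2 * D.hi D.g j +
      D.g j * (D.hi (fun t => D.g t ^ 2) j + D.lw (fun t => D.e t * D.g t ^ 2) j +
        (D.g j + D.N1) * D.lw (fun t => D.e t * D.g t) j)) fun j hj => ?_).trans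
      (mul_le_mul_of_nonneg_left (H.Cub_le.trans (H.E1_le hW)) (by positivity))
    have hjK : j ≤ D.B.length := (Finset.mem_Ioo.1 hj).2.le.trans_eq lenB.symm
    refine (Site94.abs_avc_le H.mono (rz_tw D.B.length j) k fun σ hσ h =>
      pt H hσ (mk_ne k) h1 h2 hj ((h 1 0).trans (tw_old _ j hjK))).trans ?_
    rw [avc_mul, avc_add, avc_add, mul_assoc (4 * _), mul_assoc (4 * _)]
    refine mul_le_mul_of_nonneg_left ?_ (by positivity)
    have gj := g_nonneg (D := D) j
    obtain ⟨p1, -, p3, p4, p5⟩ := H.Cub_parts j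
    have p0 := mul_nonneg (mul_nonneg (H.e0 j) (sq_nonneg (D.g j))) p1
    refine (mul_le_mul_of_nonneg_left (add_le_add (add_le_add (w_mid H hj h1 h2)
      (w_mid H hj h2 h1)) (w_out H hj h1)) gj).trans ?_
    rw [← mul_add, ← mul_add, mul_left_comm, mul_assoc]
    refine mul_le_mul_of_nonneg_left ?_ (by positivity)
    nlinarith [mul_nonneg gj p3, mul_nonneg gj p4, mul_nonneg gj p5]⟩

end Crest.Agent.T156.Cas.Su67

end
end

-- ▼ part T156/StUT_67
section

/-!
# Row 156, block C: `tU [aU, aU]`, the free parts of the exception (helper67)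
-/

set_option autoImplicit false
set_option linter.all false

noncomputable section

namespace Crest.Agent.T156.Cas.Su67

open MeasureTheory Real Set Filter Topology
open Crest.Agent.T157.E Crest.Agent.T157.Casc Crest.Agent.T157.SL
open Mul55 C40 G90 Nu87
open Cw55 (DV)

variable {D : CD} {τ0 : ℝ} {k : ℕ}

theorem tu_le (H : D.Ok τ0) (t : ℕ) : |tu D t| ≤ τ0 := by
  have := H.tau_mem t
  unfold tu
  split_ifs
  · rw [abs_of_nonneg (by linarith)]; linarith
  · rw [abs_zero]; linarith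

theorem abs_oE_le' (H : D.Ok τ0) {t : ℕ} (ht : t ≤ D.B.length) (a b : Bool) : |oE D.q t a b| ≤ 2 := by
  have h1 := Ck32.abs_q_le H ht
  have h2 : |Crest.ProbabilityR.SpinGlassDynamics.spin a *
      Crest.ProbabilityR.SpinGlassDynamics.spin b| = 1 := by
    cases a <;> cases b <;> simp [Crest.ProbabilityR.SpinGlassDynamics.spin]
  exact (abs_sub _ _).trans (by linarith)


/-- **the weak form on a fixed tree** -/
theorem weak1 (H : D.Ok τ0) {ρ : SM (k + 1)} (hρ : Rz D.B.length ρ) (a : Fin (k + 1)) {t : ℕ}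
    (ht : D.J ≤ t) {G : (Fin (k + 1) → Cube D.n) → ℝ} {A B : ℝ} (hA0 : 0 ≤ A)
    (hA : Ck32.TB D ρ (fun x => G x ^ 2) ≤ A ^ 2) {c : ℕ → ℝ} (hc : DV D.dv t D.K B 0 c) :
    |∑ j ∈ Finset.Ico (t + 1) D.K, c j * (D.om j * Ck32.TB D (gr D.B.length ρ a j) fun x =>
      G (fun b => x b.succ) * oU D.q j (x a.succ) (x 0))| ≤ 2 * B * (A * D.fs D.F1 t) := by
  obtain ⟨s, e, rfl⟩ := hρ
  rw [Ck32.TB, TM_sm wt_one90 s D.B 0 e.injective] at hA
  have := (Cw55.path_sq (G := fun _ x => G fun b => x (e b)) H H.wk1 ht (e a)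
    (fun _ => Eg.const _) hc le_rfl hA0 hA).2
  simp only [Ck32.TB, Ec52.tm_leaf wt_one90 e a]
  simpa only [Nat.cast_zero, zero_add, one_mul, Cw55.Yl] using this

/-- the error of a fixed tree, `t` the level of the double edge -/
def eT (D : CD) (c : ℝ) (t : ℕ) : ℝ := if t ∈ D.up then
  c * (√(D.u 4 t) * D.fs D.F1 t + ∑ j ∈ D.up, |D.om j| *
    if t < j then D.u 4 j + D.u 4 t + D.v t j else 0) else 0


theorem sum_eT (H : D.Ok τ0) (hW : D.W.isSome = true) {c : ℝ} (hc : 0 ≤ c) :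
    ∑ t ∈ Finset.range (D.B.length + 1), dm D.B 0 t * eT D c t ≤ 8 * c * D.Err := by
  have e1 : ∑ t ∈ Finset.range (D.B.length + 1), dm D.B 0 t * eT D c t =
      c * (D.I (fun t => √(D.u 4 t) * D.fs D.F1 t) +
        D.Iw fun j => D.I fun t => if t < j then D.u 4 j + D.u 4 t + D.v t j else 0) := by
    simp only [eT, mul_ite, mul_zero]
    rw [← Ck32.sum_up H]
    simp only [CD.I, CD.Iw, mul_add, Finset.mul_sum, Finset.sum_add_distrib, mul_ite, mul_zero]
    rw [Finset.sum_comm (s := D.up) (t := D.up)]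
    simp only [mul_left_comm c, mul_left_comm (dm D.B 0 _) |D.om _|]
  have h3 : D.Iw (fun j => D.I fun t => if t < j then D.u 4 j + D.u 4 t + D.v t j else 0) ≤
      D.Iw fun j => (D.u 4 j + (D.e j * D.v j j + ∑ y ∈ Finset.Ico 1 j, D.dx y * D.v y j)) +
        D.I (D.u 4) := D.Iw_mono fun j hj => by
    have a1 : D.I (fun t => if t < j then D.u 4 j + D.u 4 t + D.v t j else 0) ≤
        D.I fun t => D.u 4 j + (D.u 4 t + if t < j then D.v t j else 0) := H.I_mono fun t _ => by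
      have := D.u0 4 j
      have := D.u0 4 t
      split_ifs <;> linarith
    rw [D.I_add, D.I_add] at a1
    have a2 : D.I (fun _ => D.u 4 j) ≤ D.u 4 j := H.I_le (D.u0 4 j) fun _ _ => le_rfl
    have a3 : D.I (fun t => if t < j then D.v t j else 0) ≤
        ∑ y ∈ Finset.Ico 1 j, D.dx y * D.v y j := by
      simp only [CD.I, mul_ite, mul_zero]
      rw [← Finset.sum_filter]
      refine Finset.sum_le_sum_of_subset_of_nonneg (fun y hy => ?_) fun y _ _ =>
        mul_nonneg (H.dx0 y) (D.v0 y j)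
      simp only [Finset.mem_filter, Finset.mem_Ioo, Finset.mem_Ico] at hy ⊢
      omega
    have a4 := mul_nonneg (H.e0 j) (D.v0 j j)
    change _ ≤ _ + D.I fun t => D.u 4 t
    linarith
  have h4 := H.Iw_split hW (A := D.I (D.u 4)) (c := 1) (c' := 2)
    (a := fun j => D.u 4 j + (D.e j * D.v j j + ∑ y ∈ Finset.Ico 1 j, D.dx y * D.v y j))
    zero_le_one zero_le_two (by linarith [H.Iu4_le]) (by
      rw [D.Iw_add]
      have := H.Lad1_le
      rw [CD.Lad1] at this
      linarith [H.Iwu4_le])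
  have h5 := H.E1_le hW
  rw [e1, mul_comm 8 c, mul_assoc]
  refine mul_le_mul_of_nonneg_left ?_ hc
  linarith [H.u4F_Z, H.Z_le, H.E10]

/-- from fixed trees to the average -/
theorem bd_free {a q : Fin (k + 1)} (haq : a ≠ q) {φ : CD → ℕ → SM (k + 1) → ℝ} {c : ℝ → ℝ}
    (hc : ∀ τ0, 0 ≤ c τ0) (h : ∀ τ0 D, CD.Ok D τ0 → ∀ ρ, Rz D.B.length ρ →
      |∑ j ∈ Finset.range (D.B.length + 1), mo D j * φ D j ρ| ≤ eT D (c τ0) (ρ a q)) :
    Bd true fun D => ∑ j ∈ Finset.range (D.B.length + 1), mo D j * avm D.B k (φ D j) :=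
  Bd.mk' fun τ0 => ⟨8 * c τ0, fun D H hW => by
    simp only [← avm_mul]
    rw [← avm_sum]
    refine (Site94.abs_avm_le H.mono (h τ0 D H)).trans ?_
    rw [avm_pair D.B (eT D (c τ0)) k haq]
    exact sum_eT H hW (hc τ0)⟩

theorem eT_nonneg (H : D.Ok τ0) {c : ℝ} (hc : 0 ≤ c) (t : ℕ) : 0 ≤ eT D c t := by
  unfold eT
  split_ifs
  · refine mul_nonneg hc (add_nonneg (mul_nonneg (sqrt_nonneg _) (H.fs0 H.F10 t))
      (Finset.sum_nonneg fun j _ => mul_nonneg (abs_nonneg _) ?_))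
    split_ifs
    exacts [add_nonneg (add_nonneg (D.u0 4 j) (D.u0 4 t)) (D.v0 t j), le_rfl]
  · exact le_rfl

/-- a fixed tree: coefficient `c j`, bulk factor `T j` close to the weak form -/
theorem tree_le (H : D.Ok τ0) {ρ : SM (k + 1)} (hρ : Rz D.B.length ρ) (a : Fin (k + 1)) {t : ℕ}
    (ht : t ∈ D.up) {G : (Fin (k + 1) → Cube D.n) → ℝ} {B : ℝ}
    (hA : Ck32.TB D ρ (fun x => G x ^ 2) ≤ D.u 4 t) {c T φ : ℕ → ℝ} (hc : DV D.dv t D.K B 0 c)
    (hT : ∀ j, t < j → j < D.K → |T j - Ck32.TB D (gr D.B.length ρ a j) fun x =>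
      G (fun b => x b.succ) * oU D.q j (x a.succ) (x 0)| ≤ D.u 4 j + D.u 4 t + D.v t j)
    (hφ : ∀ j < D.K, φ j = if t < j then c j * T j else 0) :
    |∑ j ∈ Finset.range (D.B.length + 1), mo D j * φ j| ≤ eT D (2 * B) t := by
  obtain ⟨h1, h2⟩ := CD.mem_up.1 ht
  set Y := fun j => Ck32.TB D (gr D.B.length ρ a j) fun x =>
    G (fun b => x b.succ) * oU D.q j (x a.succ) (x 0) with hY
  have e1 : ∑ j ∈ Finset.range (D.B.length + 1), mo D j * φ j =
      ∑ j ∈ Finset.Ico (t + 1) D.K, c j * (D.om j * Y j) +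
        ∑ j ∈ D.up, D.om j * if t < j then c j * (T j - Y j) else 0 := by
    simp only [mo, ite_mul, zero_mul]
    rw [← Ck32.sum_up H, show Finset.Ico (t + 1) D.K = D.up.filter (t < ·) from
      Finset.ext fun j => by
        simp only [Finset.mem_filter, Finset.mem_Ioo, Finset.mem_Ico]; omega,
      Finset.sum_filter, ← Finset.sum_add_distrib]
    refine Finset.sum_congr rfl fun j hj => ?_
    rw [hφ j (CD.mem_up.1 hj).2]
    split_ifs <;> ring
  have h3 := weak1 H hρ a h1.le (sqrt_nonneg _) (hA.trans_eq (sq_sqrt (D.u0 4 t)).symm) hc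
  have h6 := mul_nonneg hc.nn (mul_nonneg (sqrt_nonneg (D.u 4 t)) (H.fs0 H.F10 t))
  have h4 := D.abs_sum_om (a := fun j => if t < j then c j * (T j - Y j) else 0)
    (b := fun j => B * if t < j then D.u 4 j + D.u 4 t + D.v t j else 0) fun j hj => by
      split_ifs with h
      · rw [abs_mul]
        exact mul_le_mul (hc.bd j h (CD.mem_up.1 hj).2) (hT j h (CD.mem_up.1 hj).2) (abs_nonneg _)
          hc.nn
      · simp
  rw [D.Iw_mul] at h4
  have h5 : 0 ≤ D.Iw fun j => if t < j then D.u 4 j + D.u 4 t + D.v t j else 0 :=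
    D.Iw0 fun j _ => by
      split_ifs
      exacts [add_nonneg (add_nonneg (D.u0 4 j) (D.u0 4 t)) (D.v0 t j), le_rfl]
  rw [e1, eT, if_pos ht]
  refine (abs_add_le _ _).trans ((add_le_add h3 h4).trans ?_)
  rw [CD.Iw] at h5 ⊢
  nlinarith [mul_nonneg hc.nn h5]

theorem TB_two (H : D.Ok τ0) {r : ℕ} {ρ : SM r} (hρ : Rz D.B.length ρ) {p q p' q' : Fin r}
    (h1 : p ≠ q) (h2 : p' ≠ q') (e : ρ p' q' = ρ p q) : Ck32.TB D ρ (fun x =>
      (oU D.q (ρ p q) (x p) (x q) * oU D.q (ρ p q) (x p') (x q')) ^ 2) ≤ D.u 4 (ρ p q) := by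
  have a1 := Ck32.TB_pow (D := D) hρ h1 4
  have a2 := Ck32.TB_pow (D := D) hρ h2 4
  rw [e] at a2
  have := TM_mono (h := 0) wt_one90 hρ (F := fun x =>
    (oU D.q (ρ p q) (x p) (x q) * oU D.q (ρ p q) (x p') (x q')) ^ 2) (G := fun x =>
      1 / 2 * |oU D.q (ρ p q) (x p) (x q)| ^ 4 + 1 / 2 * |oU D.q (ρ p q) (x p') (x q')| ^ 4)
    fun x => by
      rw [Even.pow_abs (by norm_num), Even.pow_abs (by norm_num)]
      nlinarith [sq_nonneg (oU D.q (ρ p q) (x p) (x q) ^ 2 - oU D.q (ρ p q) (x p') (x q') ^ 2)]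
  rw [TM_add, TM_mul, TM_mul] at this
  unfold Ck32.TB at a1 a2 ⊢
  rw [a1, a2] at this
  linarith

theorem abs_two {u v : ℝ} (h1 : |u| ≤ 2) (h2 : |v| ≤ 2) : |u * v| ≤ 4 := by
  rw [abs_mul]
  nlinarith [abs_nonneg u, abs_nonneg v]

theorem abs_TS_le (H : D.Ok τ0) {r : ℕ} {σ : SM r} (hσ : Rz D.B.length σ)
    {F : (Fin r → Bool) → ℝ} {b : ℝ} (hF : ∀ x, |F x| ≤ b) : |Ck32.TS D σ F| ≤ b :=
  SF97.abs_TM (SF97.um_of_rz (Ck32.lenS (D := D) ▸ hσ)) 0 hF

theorem rzS {r : ℕ} {σ : SM r} (hσ : Rz D.B.length σ) : Rz D.S.length σ := by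
  rw [Ck32.lenS]; exact hσ

theorem zero_le_eT (H : D.Ok τ0) {c : ℝ} (hc : 0 ≤ c) {t : ℕ} {φ : ℕ → ℝ}
    (h : ∀ j ∈ D.up, φ j = 0) : |∑ j ∈ Finset.range (D.B.length + 1), mo D j * φ j| ≤ eT D c t := by
  rw [Finset.sum_eq_zero fun j _ => ?_, abs_zero]
  · exact eT_nonneg H hc t
  · unfold mo
    split_ifs with hj
    · rw [h j hj, mul_zero]
    · exact zero_mul _

theorem free1' : Free1 := fun k a p q p' q' h1 h2 =>
  bd_free h1 (c := fun τ0 => 2 * |4 * τ0 ^ 2|) (fun _ => by positivity) fun τ0 D H ρ hρ => by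
    have hK : ∀ j < D.K, min j (ρ a a) = j := fun j hj => by
      rw [hρ.self, Ck32.lenB]; omega
    by_cases h : D.J < ρ p q ∧ ρ p q < D.K ∧ ρ p' q' = ρ p q ∧ ρ p q < ρ a p ∧ ρ p q < ρ a p' ∧
      ρ p q < ρ q q'
    swap
    · refine zero_le_eT H (by positivity) fun j hj => ?_
      obtain ⟨j1, j2⟩ := CD.mem_up.1 hj
      unfold EE
      split_ifs with e
      · simp only [Ex, gr_ss, gr_s0, hK j j2] at e
        rw [cf, gr_ss, tu, if_neg (by omega), zero_mul, zero_mul, zero_mul]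
      · rfl
    obtain ⟨a1, a2, a3, a4, a5, a6⟩ := h
    have hc : |cf D ρ p q p' q'| ≤ |4 * τ0 ^ 2| := by
      rw [cf, abs_mul, abs_mul, abs_of_nonneg (by positivity : 0 ≤ 4 * τ0 ^ 2)]
      have := mul_le_mul (mul_le_mul (tu_le H (ρ p q)) (tu_le H (ρ p' q')) (abs_nonneg _) H.tau0)
        (abs_TS_le H hρ fun x => abs_two (abs_oE_le' H (hρ.le p q) (x p) (x q))
          (abs_oE_le' H (hρ.le p' q') (x p') (x q'))) (abs_nonneg _) (mul_nonneg H.tau0 H.tau0)
      linarith
    refine tree_le H hρ a (CD.mem_up.2 ⟨a1, a2⟩)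
      (G := fun x => oU D.q (ρ p q) (x p) (x q) * oU D.q (ρ p q) (x p') (x q'))
      (TB_two H hρ h1 h2 a3) (c := fun _ => cf D ρ p q p' q')
      ((Cw55.dv_const (fun t _ b => H.dv0 b.le) _).mono (fun t _ b => H.dv0 b.le) hc le_rfl)
      (T := fun j => Ck32.TB D (gr D.B.length ρ a j) fun x =>
        oU D.q (ρ p q) (x p.succ) (x q.succ) * oU D.q (ρ p q) (x p'.succ) (x q'.succ) *
          oU D.q j (x a.succ) (x 0)) (fun j j1 _ => ?_) fun j hj => ?_
    · rw [sub_self, abs_zero]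
      exact add_nonneg (add_nonneg (D.u0 4 j) (D.u0 4 _)) (D.v0 _ j)
    · have e := TM_inj (h := 0) wt_one90 (rzS (hρ.gr a j)) (Fin.succ_injective _)
        fun x : Fin (k + 1) → Bool =>
          oE D.q (ρ p q) (x p) (x q) * oE D.q (ρ p' q') (x p') (x q')
      simp only [EE, Ex, cf, T3, gr_ss, gr_s0, hK j hj, a3, a4, a5, a6, true_and, and_true,
        mul_comm (oU D.q j _ _)] at e ⊢
      split_ifs
      · rw [Ck32.TS, e]
        rfl
      · rfl

theorem free3' : Free3 := fun k a q q' h1 =>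
  bd_free h1 (c := fun τ0 => 2 * (τ0 ^ 2 * (8 * (k + 2) ^ 2))) (fun _ => by positivity)
    fun τ0 D H ρ hρ => by
    have hK : ∀ j < D.K, min j (ρ a a) = j := fun j hj => by
      rw [hρ.self, Ck32.lenB]; omega
    by_cases h : D.J < ρ a q ∧ ρ a q < D.K ∧ ρ q' a = ρ a q ∧ ρ a q < ρ q q'
    swap
    · refine zero_le_eT H (by positivity) fun j hj => ?_
      obtain ⟨j1, j2⟩ := CD.mem_up.1 hj
      unfold EE
      split_ifs with e
      · simp only [Ex, gr_ss, gr_s0, gr_0s, hK j j2] at e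
        rw [cf, gr_ss, tu, if_neg (by omega), zero_mul, zero_mul, zero_mul]
      · rfl
    obtain ⟨a1, a2, a3, a4⟩ := h
    have h2 : a ≠ q' := fun e => by
      rw [← e, hρ.self, Ck32.lenB] at a3
      omega
    have a5 : ρ a q' = ρ a q := (hρ.comm a q').trans a3
    set t := ρ a q with ht
    have hF : ∀ x : Fin (k + 2) → Bool,
        |oE D.q t (x a.succ) (x q.succ) * oE D.q t (x 0) (x q'.succ)| ≤ 4 := fun x =>
      abs_two (abs_oE_le' H (hρ.le a q) _ _) (abs_oE_le' H (hρ.le a q) _ _)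
    have k2 : (1 : ℝ) ≤ (k + 2) ^ 2 := by nlinarith [(Nat.cast_nonneg k : (0 : ℝ) ≤ k)]
    have hS : DV D.dv t D.K (8 * (k + 2) ^ 2) 0 fun j => Ck32.TS D (gr D.B.length ρ a j) fun x =>
        oE D.q t (x a.succ) (x q.succ) * oE D.q t (x 0) (x q'.succ) := by
      refine ⟨by positivity, fun j _ _ => (abs_TS_le H (hρ.gr a j) hF).trans (by linarith), ∅,
        le_rfl, fun j j1 j2 _ => ?_⟩
      have := SF97.mvF (N := k + 2) (Cw55.r1_S H.ook) (Cw55.monoS H.mono) (by omega) le_rfl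
        (j := j - 1) (by rw [Ck32.lenS, Ck32.lenB]; omega)
        (SF97.um_of_rz (rzS (hρ.gr a (j - 1)))) (SF97.um_of_rz (rzS (hρ.gr a j))) (fun c d => by
          refine Fin.cases ?_ (fun c => ?_) c <;> refine Fin.cases ?_ (fun d => ?_) d <;>
            simp only [gr_00, gr_0s, gr_s0, gr_ss, true_or] <;> omega) 0 hF
      rw [SF97.vv, show j - 1 + 1 = j by omega, Cw55.tm_S H.ook j2.le,
        Cw55.tm_S H.ook (by omega)] at this
      have h3 := (le_abs_self _).trans (Cw55.dv_dom H.ook H.mono (by omega) j2.le).1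
      push_cast at this
      refine this.trans ?_
      nlinarith
    refine tree_le H hρ a (CD.mem_up.2 ⟨a1, a2⟩)
      (G := fun x => oU D.q t (x a) (x q) * oU D.q t (x a) (x q'))
      (TB_two H hρ h1 h2 a5) ((hS.smul (tu D t * tu D t)).mono (fun t _ b => H.dv0 b.le) ?_ le_rfl)
      (T := fun j => Ck32.TB D (gr D.B.length ρ a j) fun x => oU D.q j (x a.succ) (x 0) *
        (oU D.q t (x a.succ) (x q.succ) * oU D.q t (x 0) (x q'.succ))) (fun j j1 j2 => ?_)
      fun j hj => ?_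
    · rw [abs_mul, sq τ0]
      exact mul_le_mul_of_nonneg_right (mul_le_mul (tu_le H t) (tu_le H t) (abs_nonneg _) H.tau0)
        (by positivity)
    · have g := hρ.gr a j
      have b1 := Ck32.TB_pow (D := D) g (Fin.succ_ne_zero a) 4
      have b2 := Ck32.TB_pow (D := D) g ((Fin.succ_injective _).ne h1) 4
      have b3 := C3n47.tri_U D g (u := 0) (u' := a.succ) (z := q'.succ) (y := t) (t := j)
        (by rw [Ck32.lenB]; exact a2) (by rw [gr_0s]; omega) a5 j1.le (by rw [gr_0s, hK j j2]) t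
      rw [gr_s0, hK j j2] at b1
      rw [gr_ss, ← ht] at b2
      rw [Ck32.TB, Ck32.TB, ← TM_sub]
      refine (Ck32.abs_TB_le g (G := fun x => 1 / 4 * |oU D.q j (x a.succ) (x 0)| ^ 4 +
        1 / 4 * |oU D.q t (x a.succ) (x q.succ)| ^ 4 + 1 / 2 *
          (oU D.q t (x 0) (x q'.succ) - oU D.q t (x a.succ) (x q'.succ)) ^ 2) fun x => ?_).trans ?_
      · set A := oU D.q j (x a.succ) (x 0)
        set B := oU D.q t (x a.succ) (x q.succ)
        set C := oU D.q t (x 0) (x q'.succ)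
        set C' := oU D.q t (x a.succ) (x q'.succ)
        rw [show A * (B * C) - B * C' * A = A * B * (C - C') by ring, abs_mul, abs_mul,
          ← sq_abs (C - C')]
        nlinarith [sq_nonneg (|A| * |B| - |C - C'|), sq_nonneg (|A| ^ 2 - |B| ^ 2)]
      · unfold Ck32.TB at b1 b2 b3 ⊢
        rw [TM_add, TM_add, TM_mul, TM_mul, TM_mul, b1, b2]
        linarith [D.u0 4 j, D.u0 4 t]
    · have hKt : t < ρ a a := by rw [hρ.self, Ck32.lenB]; exact a2
      by_cases e : t < j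
      · simp only [EE, Ex, cf, T3, gr_ss, gr_s0, gr_0s, hK j hj, a3, ← ht, min_eq_right e.le, e, a4,
          hKt, and_self, if_true]
      · rw [if_neg e, EE_zero]
        simp only [Ex, gr_ss, gr_s0, gr_0s, hK j hj, ← ht]
        omega

end Crest.Agent.T156.Cas.Su67

end
end

-- ▼ part T156/StUF_87
section

/-!
# Row 156, block C (helper87): `FreshS` of `StUD_67`

The partner `b` of the marked leaf `a` is replaced by a fresh leaf grafted at the marked node.
The site coefficient does not move; the bulk factor moves by at most `v j j + u 4 t`.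
-/

set_option autoImplicit false
set_option linter.all false

noncomputable section

namespace Crest.Agent.T156.Cas.Su67

open MeasureTheory Real Set Filter Topology
open Crest.Agent.T157.E Crest.Agent.T157.Casc Crest.Agent.T157.SL
open Crest.Agent.T157.G1 (ov)
open Mul55 C40 G90 Nu87 Ck32
open Wp52 (Br Br_mono Br_le Br_add Br_mul)

namespace F87

variable {D : CD} {τ0 : ℝ} {r : ℕ} {σ : SM r}

theorem TB_gr (hσ : Rz D.B.length σ) (a : Fin r) (j : ℕ) (F : (Fin r → Cube D.n) → ℝ) :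
    TB D (gr D.B.length σ a j) (fun x => F fun c => x c.succ) = TB D σ F :=
  TM_inj wt_one90 (hσ.gr a j) (Fin.succ_injective _) F

theorem TS_gr (hσ : Rz D.B.length σ) (a : Fin r) (j : ℕ) (F : (Fin r → Bool) → ℝ) :
    Ck32.TS D (gr D.B.length σ a j) (fun x => F fun c => x c.succ) = Ck32.TS D σ F :=
  TM_inj wt_one90 ((lenS (D := D)).symm ▸ hσ.gr a j) (Fin.succ_injective _) F

/-- the site coefficient does not see a grafted leaf -/
theorem cf_gr (hσ : Rz D.B.length σ) (a : Fin r) (j : ℕ) (p q p' q' : Fin r) :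
    cf D (gr D.B.length σ a j) p.succ q.succ p'.succ q'.succ = cf D σ p q p' q' :=
  congrArg (tu D (σ p q) * tu D (σ p' q') * ·) (TS_gr hσ a j fun x =>
    oE D.q (σ p q) (x p) (x q) * oE D.q (σ p' q') (x p') (x q'))

theorem tu_mem (H : D.Ok τ0) (t : ℕ) : 0 ≤ tu D t ∧ tu D t ≤ τ0 / 2 := by
  have := H.tau_mem t
  have := H.tau0
  unfold tu
  split_ifs <;> constructor <;> linarith

theorem abs_cf_le (H : D.Ok τ0) (hσ : Rz D.B.length σ) (p q p' q' : Fin r) :
    |cf D σ p q p' q'| ≤ τ0 ^ 2 := by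
  have h1 := site_le H hσ [(p, q), (p', q')]
  have e : se D [(p, q), (p', q')] σ = fun x =>
      oE D.q (σ p q) (x p) (x q) * oE D.q (σ p' q') (x p') (x q') := funext fun x => by simp [se]
  rw [e] at h1
  have a := tu_mem H (σ p q)
  have b := tu_mem H (σ p' q')
  rw [cf, abs_mul, abs_of_nonneg (mul_nonneg a.1 b.1)]
  refine (mul_le_mul (mul_le_mul a.2 b.2 b.1 (a.1.trans a.2)) h1 (abs_nonneg _)
    (mul_nonneg (a.1.trans a.2) (a.1.trans a.2))).trans_eq ?_
  simp only [List.length_cons, List.length_nil]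
  ring

theorem cf_zero {p q : Fin r} (h : ¬D.J < σ p q) (p' q' : Fin r) : cf D σ p q p' q' = 0 := by
  rw [cf, tu, if_neg h, zero_mul, zero_mul]

/-- two leaves `a`, `b` split at `t`, both split from `c` at `y ≤ t` -/
theorem tri (hσ : Rz D.B.length σ) {a b c : Fin r} (hab : a ≠ b) (hac : a ≠ c) (hbc : b ≠ c)
    {y t : ℕ} (ht : σ a b = t) (h1 : σ a c = y) (h2 : σ b c = y) (hy : y ≤ t) :
    TB D σ (fun x => (ov (x a) (x c) - ov (x b) (x c)) ^ 2) = 2 * D.v y t := by
  have e2 := TM_pair (h := 0) wt_one90 hσ hac fun x y => ov x y ^ 2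
  have e3 := TM_pair (h := 0) wt_one90 hσ hbc fun x y => ov x y ^ 2
  have e1 : TB D σ (fun x => ov (x a) (x c) * ov (x b) (x c)) =
      pi2 (fun _ => 1) D.B y (fun x x' => ov x x' ^ 2) 0 - D.v y t := by
    obtain ⟨s, e, rfl⟩ := hσ
    rw [TB, TM_sm wt_one90 s D.B 0 e.injective]
    exact Y44.three wt_one90 (fun x y => by rw [ov, ov, dotProduct_comm]) s (e.injective.ne hab)
      (e.injective.ne hac) (e.injective.ne hbc) ht h1 h2 hy
  have e4 : (fun x : Fin r → Cube D.n => (ov (x a) (x c) - ov (x b) (x c)) ^ 2) = fun x =>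
      ov (x a) (x c) ^ 2 + ov (x b) (x c) ^ 2 - 2 * (ov (x a) (x c) * ov (x b) (x c)) :=
    funext fun x => by ring
  rw [h1] at e2
  rw [h2] at e3
  unfold TB at e1 ⊢
  rw [e4, TM_sub, TM_add, TM_mul, e1, e2, e3]
  ring

/-- the bulk factor with a fresh partner -/
theorem T3_gr (hσ : Rz D.B.length σ) {a b p q p' q' : Fin r} (hab : a ≠ b) (hp : p ≠ q)
    (hp' : p' ≠ q') : |T3 D σ a b p q p' q' -
      T3 D (gr D.B.length σ a (σ a b)) a.succ 0 p.succ q.succ p'.succ q'.succ| ≤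
      D.v (σ a b) (σ a b) + 1 / 4 * D.u 4 (σ p q) + 1 / 4 * D.u 4 (σ p' q') := by
  have hσ' := hσ.gr a (σ a b)
  have m : gr D.B.length σ a (σ a b) a.succ 0 = σ a b := by
    rw [gr_s0, hσ.self]; exact min_eq_left (hσ.le a b)
  have t := tri hσ' (a := b.succ) (b := 0) (c := a.succ) (Fin.succ_ne_zero _)
    (fun e => hab (Fin.succ_injective _ e).symm) (Fin.succ_ne_zero _).symm (y := σ a b) (t := σ a b)
    (by rw [gr_s0, hσ.comm b a, min_self]) (hσ.comm b a) ((hσ'.comm _ _).trans m) le_rfl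
  have u := TB_pow hσ' (a := p.succ) (b := q.succ) (fun e => hp (Fin.succ_injective _ e)) 4
  have u' := TB_pow hσ' (a := p'.succ) (b := q'.succ) (fun e => hp' (Fin.succ_injective _ e)) 4
  simp only [gr_ss] at u u'
  rw [T3, ← TB_gr hσ a (σ a b), T3, m]
  simp only [gr_ss]
  unfold TB at *
  rw [← TM_sub]
  refine (abs_TB_le hσ' (G := fun x => 1 / 2 * (ov (x b.succ) (x a.succ) - ov (x 0) (x a.succ)) ^ 2 +
    1 / 4 * |oU D.q (σ p q) (x p.succ) (x q.succ)| ^ 4 +
    1 / 4 * |oU D.q (σ p' q') (x p'.succ) (x q'.succ)| ^ 4) fun x => ?_).trans_eq ?_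
  · have c : ∀ y z : Cube D.n, ov y z = ov z y := fun y z => by rw [ov, ov, dotProduct_comm]
    rw [← sub_mul, oU, oU, sub_sub_sub_cancel_right, c (x a.succ), c (x a.succ), abs_mul, abs_mul,
      ← sq_abs (_ - _)]
    generalize |ov (x b.succ) (x a.succ) - ov (x 0) (x a.succ)| = d
    generalize |oU D.q (σ p q) (x p.succ) (x q.succ)| = y
    generalize |oU D.q (σ p' q') (x p'.succ) (x q'.succ)| = z
    nlinarith [sq_nonneg (d - y * z), sq_nonneg (y ^ 2 - z ^ 2)]
  · unfold TB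
    rw [TM_add, TM_add, TM_mul, TM_mul, TM_mul, t, u, u']
    ring

/-- the majorant -/
def G (D : CD) (j t : ℕ) : ℝ := if D.J < t ∧ t < j then D.v j j + D.u 4 t else 0

theorem G0 (j t : ℕ) : 0 ≤ G D j t := by
  unfold G
  split_ifs
  exacts [add_nonneg (D.v0 _ _) (D.u0 _ _), le_rfl]

theorem pt (H : D.Ok τ0) (hσ : Rz D.B.length σ) {a b p q p' q' : Fin r} (hab : a ≠ b) (hp : p ≠ q)
    (hp' : p' ≠ q') : |EE D σ a b p q p' q' -
      EE D (gr D.B.length σ a (σ a b)) a.succ 0 p.succ q.succ p'.succ q'.succ| ≤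
      τ0 ^ 2 * G D (σ a b) (σ p q) := by
  have m : gr D.B.length σ a (σ a b) a.succ 0 = σ a b := by
    rw [gr_s0, hσ.self]; exact min_eq_left (hσ.le a b)
  have e : Ex (gr D.B.length σ a (σ a b)) a.succ 0 p.succ q.succ p'.succ q'.succ ↔
      Ex σ a b p q p' q' := by simp only [Ex, m, gr_ss]
  have z := mul_nonneg (sq_nonneg τ0) (G0 (D := D) (σ a b) (σ p q))
  simp only [EE, e, cf_gr hσ]
  split_ifs with h
  · by_cases hJ : D.J < σ p q
    · have h3 := T3_gr hσ hab hp hp'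
      rw [h.1] at h3
      rw [← mul_sub, abs_mul, G, if_pos ⟨hJ, h.2.1⟩]
      exact mul_le_mul (abs_cf_le H hσ _ _ _ _) (h3.trans (by linarith [D.u0 4 (σ p q)]))
        (abs_nonneg _) (sq_nonneg _)
    · simpa only [cf_zero hJ, zero_mul, sub_self, abs_zero] using z
  · simpa only [sub_self, abs_zero] using z

theorem Br_G (H : D.Ok τ0) {j : ℕ} (hj : j ∈ D.up) :
    Br D.B (G D j) ≤ D.e j * D.v j j + D.I (D.u 4) := by
  have h1 : ex D.B j ≤ D.e j := by
    refine le_trans (le_min (Tay38.ex_le_one H.mono j) ?_) (H.esc j hj)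
    linarith [H.sig0 (CD.mem_up.1 hj).2.le]
  refine (Br_mono H.mono (g' := fun t => D.v j j * (if t ≤ j then 1 else 0) + upF D (D.u 4) t)
    fun t _ => ?_).trans ?_
  · unfold G
    split_ifs with a b b
    · rw [upF, if_pos a.1, mul_one]
    · omega
    · exact add_nonneg (mul_nonneg (D.v0 _ _) zero_le_one) (upF_nonneg (D.u0 4) t)
    · exact add_nonneg (mul_nonneg (D.v0 _ _) le_rfl) (upF_nonneg (D.u0 4) t)
  · rw [Br_add, Br_mul, Br_upF H, mul_comm (D.e j)]
    exact add_le_add (mul_le_mul_of_nonneg_left ((Br_le H.mono j).trans h1) (D.v0 _ _)) le_rfl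

end F87

open F87

/-- **`FreshS`** -/
theorem freshS : FreshS := fun k p q p' q' hp hp' => Bd.mk' fun τ0 =>
  ⟨τ0 ^ 2 * ((3 * (1 + k)) ^ k * 2) * (1 + 1), fun D H hW => by
    have h1 := H.Iw_split hW (A := D.I (D.u 4)) (a := fun j => D.e j * D.v j j) zero_le_one
      zero_le_one (by rw [one_mul]; exact H.Iu4_le) (by
        rw [one_mul]
        exact (D.Iw_mono fun j _ => le_add_of_nonneg_right (H.sv_low0 _ _)).trans H.Lad1_le)
    rw [mul_assoc]
    refine le_trans ?_ (mul_le_mul_of_nonneg_left h1 (by positivity))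
    rw [← D.Iw_mul, CD.Iw, sum_up H, aw, avt]
    refine (Finset.abs_sum_le_sum_abs _ _).trans (Finset.sum_le_sum fun j hj => ?_)
    have hj' := Nat.lt_succ_iff.1 (Finset.mem_range.1 hj)
    rw [abs_mul, mo]
    split_ifs with hu
    · refine mul_le_mul_of_nonneg_left ?_ (abs_nonneg _)
      refine (Site94.abs_avc_le H.mono (rz_tw D.B.length j) k
        (g := fun σ => τ0 ^ 2 * G D j (σ p q)) fun σ hσ h => ?_).trans ?_
      · have e : σ (ma k) (mb k) = j := (h 1 0).trans (tw_old _ j hj')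
        exact (pt H hσ (a := ma k) (b := mb k) (mk_ne k) hp hp').trans_eq (by rw [e])
      · rw [avc_mul, mul_assoc]
        refine mul_le_mul_of_nonneg_left ((Site94.avc_pair_le H.mono hj' k (G0 j) hp).trans ?_)
          (sq_nonneg _)
        rw [mul_assoc, G, if_neg (by omega), zero_add]
        exact mul_le_mul_of_nonneg_left (mul_le_mul_of_nonneg_left (Br_G H hu) zero_le_two)
          (by positivity)
    · rw [abs_zero, zero_mul]⟩

end Crest.Agent.T156.Cas.Su67

end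
end

-- ▼ part T156/StU_67

/-!
# Row 156, block C: the leaf `StU` (helper67)
-/

set_option autoImplicit false

namespace Crest.Agent.T156.Cas

theorem Su67.excS : Su67.ExcS :=
  Su67.indS Su67.ggS Su67.swS Su67.freshS Su67.free1' Su67.free3'

/-- the `U` part of the test, upper words of degree two -/
theorem C40.stU : C40.StU :=
  ⟨C40.stUb, Su67.glueS Su67.frameS Su67.regHi Su67.regLo Su67.excS⟩

end Crest.Agent.T156.Cas
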