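import Crest.Agent.T156.R2Mw_55_Mg
import Crest.Agent.T156.EndP_88_Mg
import Crest.Agent.T156.R2Mv_55_Mg
import Crest.Agent.T156.R2Lw_30_Mg
import Crest.Agent.T156.R2Th_26
import Crest.Agent.T156.EnR_78_Mg
import Crest.Agent.T156.StU_67_Mg

/-!
# Row 156, R2: assembly (helper42)
-/

set_option autoImplicit false

noncomputable section

namespace Crest.Agent.T156.Alt.R2

open Crest.Agent.T156.Cas Crest.Agent.T156.Cas.C40

variable {β : ℝ} (hβ : 1 < β)
include hβ

/-- **R2** from the location and the value record -/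
theorem flwS_val (hS : Sr.SrS2) (Lo : En91.LocS β) (V : ValX β) : Gain β (FlwS (7 / 20)) :=
  have s : J90.SrF β := Sp41.srE hβ hS
  flwS_of hβ hV hL hU E42.he V.valS (jS_end hβ s Lo) (hmS hβ) (thS_sr hβ s) (pzS hβ) (twS hβ)
    (mvS hβ) (teS_of hβ hT V (pzS hβ)) (lwS_of hβ (rbS_of hβ s) (lwIn_of hβ s))

omit hβ in
theorem locT (h : En91.LocS β) : LocT β :=
  Sml.mono h fun _ _ h P m a sp hi => (h P sp m a ⟨hi.m1, hi.m2, hi.a1, hi.a2⟩).top

/-- the value record from its open pieces -/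
theorem valX_end (hS : Sr.SrS2) (Lo : En91.LocS β) (G : GhX β) : ValX β :=
  have s : J90.SrF β := Sp41.srE hβ hS
  have c : CrE β := crE_of hβ (En91.srE hβ hS)
  valX_rc hβ (rcS_of hβ c (glS_end hβ s Lo) G.ghA (tpS_of hβ (locT Lo))) (glS_end hβ s Lo)
    (glE_end hβ s Lo) G.ghA (ghB_of hβ G (topL hβ)) (lvS_of hβ c)

theorem locS_end (hS : Sr.SrS2) (hT : L63.TL2x) : En91.LocS β :=
  En91.locS_of hβ hT En88.lpS (En91.srE hβ hS)

/-- **R2** from the open leaves -/
theorem flwS_end (hS : Sr.SrS2) (hT : L63.TL2x) : Gain β (FlwS (7 / 20)) :=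
  have L := locS_end hβ hS hT
  flwS_val hβ hS L (valX_end hβ hS L (J90.ghX90 hβ L R62.Eq78.eqS))

end Crest.Agent.T156.Alt.R2

end
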