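import Crest.Agent.T156.AltDef_88
import Crest.Agent.T156.LpB_12
import Crest.Agent.T156.QCube_33
import Crest.Agent.T156.CaLin_22
import Crest.Agent.T156.ChainQ_26

-- ▼ part T156/AltSd_56
section

/-!
# Row 156, ALT route: (SD) in class form (helper56)

`|E_{a'} F - E_a F| ≤ Q · sup_t ‖F - c t‖₂` for path functionals of the models `p.L τ y m t`.
-/

set_option autoImplicit false
set_option linter.unusedSectionVars false

noncomputable section

namespace Crest.Agent.T156.Alt.Sd56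

open MeasureTheory Real Set Filter Topology
open Crest.Agent.T157.E Crest.Agent.T157.Casc Crest.Agent.T157.SL
open Crest.Agent.T157.G1 (ov fl FL)
open Crest.Agent.T156.Cas Crest.Agent.T156.Cas.Lp12

/-! ### any model -/

section Gen

variable {Ω : Type} [Fintype Ω] {w : Ω → ℝ} {F G : Pth Ω → ℝ}

theorem EE_sq_sub (hw : Wt w) (L : List (Lv Ω)) (h : Ω → ℝ) (hF : EP F) (c : ℝ) :
    EE w L h (fun ω => (F ω - c) ^ 2) =
      EE w L h (fun ω => F ω ^ 2) - 2 * c * EE w L h F + c ^ 2 := by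
  have e : (fun ω => (F ω - c) ^ 2) = fun ω => F ω ^ 2 - 2 * c * F ω + c ^ 2 := by
    funext ω; ring
  rw [e, EE_add hw L h ((hF.pow 2).sub (hF.const_mul _)) (EP.const _),
    EE_sub hw L h (hF.pow 2) (hF.const_mul _), EE_const_mul, EE_const hw]

/-- Jensen -/
theorem sq_EE_sub (hw : Wt w) (L : List (Lv Ω)) (h : Ω → ℝ) (hF : EP F) (c : ℝ) :
    (EE w L h F - c) ^ 2 ≤ EE w L h fun ω => (F ω - c) ^ 2 := by
  have p : 0 ≤ EE w L h fun ω => (F ω - EE w L h F) ^ 2 := EE_nonneg L h fun _ => sq_nonneg _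
  rw [EE_sq_sub hw L h hF] at p ⊢
  nlinarith

/-- the mean is the best centring -/
theorem var_le (hw : Wt w) (L : List (Lv Ω)) (h : Ω → ℝ) (hF : EP F) (c : ℝ) :
    EE w L h (fun ω => (F ω - EE w L h F) ^ 2) ≤ EE w L h fun ω => (F ω - c) ^ 2 := by
  rw [EE_sq_sub hw L h hF, EE_sq_sub hw L h hF]
  nlinarith [sq_nonneg (EE w L h F - c)]

theorem cT_le (hw : Wt w) (l : Lv Ω) (L : List (Lv Ω)) (h : Ω → ℝ) (hF : EP F) (c : ℝ) :
    cT l (X w L) (fun z => EE w L z fun ω => F (Gf.cons h ω))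
        (fun z => EE w L z fun ω => F (Gf.cons h ω)) h ≤
      EE w (l :: L) h fun ω => (F ω - c) ^ 2 := by
  have g := lg_X hw L
  have e1 := eg_EE hw L (hF.cons h)
  have e2 := eg_EE hw L (((hF.sub (EP.const c)).pow 2).cons h)
  set φ := fun z => EE w L z fun ω => F (Gf.cons h ω) with hφ
  have a1 : tE l (X w L) (fun z => (φ z - c) ^ 2) h ≤ EE w (l :: L) h fun ω => (F ω - c) ^ 2 :=
    tE_mono g ((e1.sub (Eg.const c)).pow 2) e2 (fun z => sq_EE_sub hw L z (hF.cons h) c) l h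
  have e : (fun z => (φ z - c) ^ 2) = fun z => φ z * φ z - 2 * c * φ z + c ^ 2 := by
    funext z; ring
  rw [e, tE_add g ((e1.mul e1).sub (e1.const_mul _)) (Eg.const _),
    tE_sub g (e1.mul e1) (e1.const_mul _), tE_const_mul, tE_const g] at a1
  rw [cT]
  nlinarith [sq_nonneg (tE l (X w L) φ h - c)]

/-- (SD), squared form -/
theorem delta_EE (hw : Wt w) (l : Lv Ω) (L : List (Lv Ω)) (h : Ω → ℝ) (hF : EP F) {a a' V : ℝ}
    {c : ℝ → ℝ} (haa : a ≤ a')
    (hV : ∀ t ∈ Icc a a', EE w (rt l t :: L) h (fun ω => (F ω - c t) ^ 2) ≤ V) :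
    (EE w (rt l a' :: L) h F - EE w (rt l a :: L) h F) ^ 2 ≤ Wd w l L h a a' * ((a' - a) * V) :=
  Crv.delta_sup (lg_X hw L) (eg_EE hw L (hF.cons h)) l h haa fun t ht =>
    (cT_le hw (rt l t) L h hF (c t)).trans (hV t ht)

theorem abs_le_of_sq {x W d Q B : ℝ} (hQ : 0 ≤ Q) (hB : 0 ≤ B) (hW : d * W ≤ Q ^ 2)
    (h : x ^ 2 ≤ W * (d * B ^ 2)) : |x| ≤ Q * B :=
  abs_le_of_sq_le_sq (h.trans (by
    nlinarith [mul_le_mul_of_nonneg_right hW (sq_nonneg B)])) (mul_nonneg hQ hB)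

/-- (SD) with `L²` bounds -/
theorem delta_Mo (hw : Wt w) (l : Lv Ω) (L : List (Lv Ω)) (h : Ω → ℝ) (hF : EP F) {a a' Q B : ℝ}
    {c : ℝ → ℝ} (haa : a ≤ a') (hQ : 0 ≤ Q) (hW : (a' - a) * Wd w l L h a a' ≤ Q ^ 2)
    (hV : ∀ t ∈ Icc a a', Mo w (rt l t :: L) h 2 (fun ω => F ω - c t) B) :
    |EE w (rt l a' :: L) h F - EE w (rt l a :: L) h F| ≤ Q * B :=
  abs_le_of_sq hQ (hV a ⟨le_rfl, haa⟩).nn hW (delta_EE hw l L h hF (c := c) haa fun t ht => by
    simpa only [sq_abs] using (hV t ht).le)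


theorem eg_qf (hw : Wt w) (L : List (Lv Ω)) (K : Ω → Ω → ℝ) : Eg fun z => qf (P w L z) K := by
  unfold qf
  exact Eg.sum _ fun x _ => Eg.sum _ fun y _ =>
    ((eg_P hw L x).mul (eg_P hw L y)).mul (Eg.const _)

end Gen

/-! ### the class -/

variable {p : Pm} {τ y a a' b b' Q B : ℝ} {m : ℕ}

/-- path law of the model -/
abbrev E (p : Pm) (τ y : ℝ) (m : ℕ) (a : ℝ) (F : Pth (Cube m) → ℝ) : ℝ :=
  EE (fun _ => 1) (p.L τ y m a) 0 F

/-- `‖F‖_k ≤ B` under the path law of the model -/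
abbrev M (p : Pm) (τ y : ℝ) (m : ℕ) (a : ℝ) (k : ℕ) (F : Pth (Cube m) → ℝ) (B : ℝ) : Prop :=
  Mo (fun _ => 1) (p.L τ y m a) 0 k F B

/-- `E[f(R) | state at the node k]` for two replicas split at the node `k` -/
def cE (p : Pm) (τ y : ℝ) (m : ℕ) (f : ℝ → ℝ) (k : ℕ) (ω : Pth (Cube m)) : ℝ :=
  qf (P (fun _ => 1) ((p.up τ y m).drop k) (ω (k + 1))) fun x x' => f (ov x x')

/-- the path overlap at the node `k` (free of the root tilt) -/
def ρ (p : Pm) (τ y : ℝ) (m : ℕ) (k : ℕ) (ω : Pth (Cube m)) : ℝ := cE p τ y m id k ω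

theorem wt1 (m : ℕ) : Wt (fun _ : Cube m => (1 : ℝ)) := Link33.wt1

theorem L_eq (p : Pm) (τ y : ℝ) (m : ℕ) (t : ℝ) :
    p.L τ y m t = rt (p.root τ y m 0) t :: p.up τ y m := rfl

theorem rh_eq (p : Pm) (τ y : ℝ) (m : ℕ) (t : ℝ) (k : ℕ) (ω : Pth (Cube m)) :
    p.rh τ y m t k (ω (k + 1)) = ρ p τ y m k ω := rfl








/-- the label weights above the root node do not depend on the root tilt -/
theorem dz_succ (t t' : ℝ) (k : ℕ) : p.dz τ y m t (k + 1) = p.dz τ y m t' (k + 1) := rfl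

theorem dz_eq (t t' : ℝ) {k : ℕ} (hk : 1 ≤ k) : p.dz τ y m t k = p.dz τ y m t' k := by
  obtain ⟨k, rfl⟩ := Nat.exists_eq_add_of_le' hk
  rfl

theorem dz_zero (t : ℝ) : p.dz τ y m t 0 = p.dz τ y m 0 0 - t := by
  show ex (p.up τ y m) 0 - t = ex (p.up τ y m) 0 - 0 - t
  ring



/-- the data of one application of (SD) -/
structure At (p : Pm) (τ y : ℝ) (m : ℕ) (a a' Q : ℝ) : Prop where
  a1 : p.amin ≤ a
  le : a ≤ a'
  a2 : a' ≤ p.amax
  Q0 : 0 ≤ Q
  mem : p.Mem τ y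
  m1 : p.n ≤ m
  m2 : m ≤ 2 * p.n
  wb : p.WB a a' Q

namespace At

theorem inn (H : At p τ y m a a' Q) {t : ℝ} (ht : t ∈ Icc a a') : p.In τ y m t :=
  ⟨H.mem, H.m1, H.m2, H.a1.trans ht.1, ht.2.trans H.a2⟩

theorem left (H : At p τ y m a a' Q) : p.In τ y m a := H.inn ⟨le_rfl, H.le⟩
theorem right (H : At p τ y m a a' Q) : p.In τ y m a' := H.inn ⟨H.le, le_rfl⟩

/-- **(SD)** for path functionals; the centring may depend on the root tilt -/
theorem sd (H : At p τ y m a a' Q) {F : Pth (Cube m) → ℝ} (hF : EP F) {c : ℝ → ℝ}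
    (hV : ∀ t, p.In τ y m t → M p τ y m t 2 (fun ω => F ω - c t) B) :
    |E p τ y m a' F - E p τ y m a F| ≤ Q * B :=
  delta_Mo (wt1 m) (p.root τ y m 0) (p.up τ y m) 0 hF (c := c) H.le H.Q0
    (H.wb τ y H.mem m H.m1 H.m2) fun t ht => hV t (H.inn ht)

/-- (SD) with a second moment -/
theorem sd_sq (H : At p τ y m a a' Q) {F : Pth (Cube m) → ℝ} (hF : EP F) {c : ℝ → ℝ} {V : ℝ}
    (hV : ∀ t, p.In τ y m t → E p τ y m t (fun ω => (F ω - c t) ^ 2) ≤ V) :
    |E p τ y m a' F - E p τ y m a F| ≤ Q * √V := by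
  have h0 : 0 ≤ V := (EE_nonneg _ _ fun _ => sq_nonneg _).trans (hV a H.left)
  refine H.sd hF (c := c) fun t ht => ⟨hF.sub (EP.const _), sqrt_nonneg _, ?_⟩
  rw [sq_sqrt h0]
  simpa only [sq_abs] using hV t ht








end At

end Crest.Agent.T156.Alt.Sd56

end
end

-- ▼ part T156/Seg_56

/-!
# Row 156: segments of models with a fixed root (helper56)

The upper levels move on a segment of covariances.  The derivative of `V (a') - V (a)` is exact
and is bounded by (SD) + Brascamp–Lieb on a set `S` of nodes and absolutely on the other nodes.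
-/

set_option autoImplicit false
set_option linter.unusedSectionVars false

noncomputable section

namespace Crest.Agent.T156.Cas.Seg56

open MeasureTheory Real Set Filter Topology
open Crest.Agent.T157.E Crest.Agent.T157.Casc Crest.Agent.T157.SL
open Crest.Agent.T157.Casc.C (Same X_same pi2_same)
open Crest.Agent.T157.G1 (ov fl FL)
open Crest.Agent.T156.Cas.Lp12 Crest.Agent.T156.Cas.Sy41 Crest.Agent.T156.Cas.Q33
open Crest.Agent.T156.Alt.Sd56

variable {Ω : Type}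

/-- the level of variance zero -/
def zl (Ω : Type) : Lv Ω := ⟨Empty, fun _ => Empty.elim, 0⟩

theorem zl_cov (x y : Ω) : (zl Ω).cov x y = 0 := Finset.sum_eq_zero fun i _ => Empty.elim i

/-- `L t`, `t ∈ [0, 1]`, has `N` levels with fixed tilts, and the covariance accumulated by the
first `j` levels moves with the constant velocity `D j` -/
def Seg (L : ℝ → List (Lv Ω)) (N : ℕ) (D : ℕ → Ω → Ω → ℝ) : Prop :=
  ∃ S : List (IL Ω), S.length = N ∧ (∀ j ≤ N, iD S j = D j) ∧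
    ∀ t ∈ Icc (0 : ℝ) 1, List.Forall₂ Same (ipl S t) (L t)

theorem ex_same {L L' : List (Lv Ω)} (H : List.Forall₂ Same L L') (j : ℕ) : ex L j = ex L' j := by
  induction H generalizing j with
  | nil => rfl
  | cons h1 _ ih => cases j with
    | zero => exact h1.1
    | succ j => exact ih j

theorem dm_same {L L' : List (Lv Ω)} (H : List.Forall₂ Same L L') (m0 : ℝ) (j : ℕ) :
    dm L m0 j = dm L' m0 j := by cases j <;> simp only [dm, exP, ex_same H]

theorem iD_ofFn {N : ℕ} (c : Fin N → IL Ω) (κ : ℕ → Ω → Ω → ℝ)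
    (h : ∀ k : Fin N, (c k).D = κ k) {j : ℕ} (hj : j ≤ N) (x y : Ω) :
    iD (List.ofFn c) j x y = ∑ k ∈ Finset.range j, κ k x y := by
  induction j with
  | zero => simp [iD]
  | succ j ih =>
    have hl : j < (List.ofFn c).length := by simpa using hj
    rw [Finset.sum_range_succ, ← ih (by omega), iD, iD, List.take_add_one, List.map_append,
      List.sum_append, List.getElem?_eq_getElem hl]
    simp [h ⟨j, hj⟩]

variable {L : ℝ → List (Lv Ω)} {N : ℕ} {D : ℕ → Ω → Ω → ℝ}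

/-- **constructor**: read the segment off the covariances, level by level -/
theorem Seg.of_cov {κ : ℕ → Ω → Ω → ℝ} (hl : ∀ t ∈ Icc (0 : ℝ) 1, (L t).length = N)
    (hc : ∀ t ∈ Icc (0 : ℝ) 1, ∀ k (h1 : k < (L t).length) (h0 : k < (L 0).length),
      (L t)[k].m = (L 0)[k].m ∧ ∀ x y, (L t)[k].cov x y = (L 0)[k].cov x y + t * κ k x y) :
    Seg L N fun j x y => ∑ k ∈ Finset.range j, κ k x y := by
  have i0 : (0 : ℝ) ∈ Icc (0 : ℝ) 1 := ⟨le_rfl, zero_le_one⟩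
  have i1 : (1 : ℝ) ∈ Icc (0 : ℝ) 1 := ⟨zero_le_one, le_rfl⟩
  have l0 : ∀ k : Fin N, (k : ℕ) < (L 0).length := fun k => by rw [hl 0 i0]; exact k.2
  have l1 : ∀ k : Fin N, (k : ℕ) < (L 1).length := fun k => by rw [hl 1 i1]; exact k.2
  refine ⟨List.ofFn fun k : Fin N => ⟨rt (zl Ω) ((L 0)[(k : ℕ)]'(l0 k)).m, (L 1)[(k : ℕ)]'(l1 k),
    (L 0)[(k : ℕ)]'(l0 k)⟩, by simp, fun j hj => ?_, fun t ht => ?_⟩
  · funext x y
    refine iD_ofFn _ κ (fun k => ?_) hj x y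
    funext x y
    rw [IL.D, (hc 1 i1 k (l1 k) (l0 k)).2]
    ring
  · rw [ipl_eq, List.map_ofFn, List.forall₂_iff_get]
    refine ⟨by simp [hl t ht], fun k h1 h2 => ?_⟩
    have hk : k < N := by simpa using h1
    have e1 := hc t ht k h2 (l0 ⟨k, hk⟩)
    have e2 := hc 1 i1 k (l1 ⟨k, hk⟩) (l0 ⟨k, hk⟩)
    simp only [List.get_eq_getElem, List.getElem_ofFn, Function.comp]
    refine ⟨e1.1.symm, ?_⟩
    funext x y
    rw [IL.cov_at _ ht, e1.2, e2.2]
    have : (rt (zl Ω) ((L 0)[k]'(l0 ⟨k, hk⟩)).m).cov x y = 0 := zl_cov x y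
    simp only [this]
    ring

theorem Seg.congr (H : Seg L N D) {D' : ℕ → Ω → Ω → ℝ} (e : ∀ j ≤ N, D j = D' j) : Seg L N D' := by
  obtain ⟨S, h1, h2, h3⟩ := H
  exact ⟨S, h1, fun j hj => (h2 j hj).trans (e j hj), h3⟩

theorem Seg.len (H : Seg L N D) {t : ℝ} (ht : t ∈ Icc (0 : ℝ) 1) : (L t).length = N := by
  obtain ⟨S, h1, -, h3⟩ := H
  rw [← (h3 t ht).length_eq, ipl_length, h1]

theorem Seg.zero (H : Seg L N D) (x y : Ω) : D 0 x y = 0 := by
  obtain ⟨S, -, h2, -⟩ := H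
  rw [← h2 0 (Nat.zero_le N), iD_zero]

/-- a fixed level in front -/
theorem Seg.cons (H : Seg L N D) (l : Lv Ω) :
    Seg (fun t => l :: L t) (N + 1) fun j => D (j - 1) := by
  have h0 := H.zero
  obtain ⟨S, h1, h2, h3⟩ := H
  refine ⟨⟨l, zl Ω, zl Ω⟩ :: S, by simp [h1], fun j hj => ?_, fun t ht => ?_⟩
  · funext x y
    cases j with
    | zero => rw [iD_zero]; exact (h0 x y).symm
    | succ j => rw [iD_cons, h2 j (by omega), IL.D, sub_self, zero_add]; rfl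
  · refine List.Forall₂.cons ⟨rfl, ?_⟩ (h3 t ht)
    funext x y
    rw [IL.cov_at _ ht, zl_cov]
    ring

variable [Fintype Ω] {w : Ω → ℝ}

theorem Seg.cont (hw : Wt w) (H : Seg L N D) (h : Ω → ℝ) :
    ContinuousOn (fun t => X w (L t) h) (Icc 0 1) := by
  obtain ⟨S, -, -, h3⟩ := H
  exact (continuousOn_X_ipl hw S h).congr fun t ht => by
    simp only [X_same hw (h3 t ht)]

/-- the exact derivative of the value -/
theorem Seg.der (hw : Wt w) (H : Seg L N D) {c : ℝ} (hc : ∀ x, D N x x = c) (h : Ω → ℝ) {t : ℝ}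
    (ht : t ∈ Ioo (0 : ℝ) 1) : HasDerivAt (fun t => X w (L t) h)
      ((c - ∑ j ∈ Finset.range (N + 1), dm (L t) 0 j * pi2 w (L t) j (D j) h) / 2) t := by
  obtain ⟨S, h1, h2, h3⟩ := H
  have ht' := Ioo_subset_Icc_self ht
  refine ((hasDerivAt_X_ipl hw S h ht).congr_of_eventuallyEq ?_).congr_deriv ?_
  · filter_upwards [Icc_mem_nhds ht.1 ht.2] with s hs
    rw [X_same hw (h3 s hs)]
  · rw [iX, h1, h2 N le_rfl]
    congr 2
    · simp only [hc, Pf, ← Finset.sum_mul, sum_P hw, one_mul]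
    · refine Finset.sum_congr rfl fun j hj => ?_
      rw [← dm_ipl S t, dm_same (h3 t ht'), h2 j (by simpa [Nat.lt_succ_iff] using hj),
        pi2_same hw (h3 t ht')]

/-- `V (a') - V (a)` -/
def DV (w : Ω → ℝ) (l : Lv Ω) (U : List (Lv Ω)) (h : Ω → ℝ) (a a' : ℝ) : ℝ :=
  X w (rt l a' :: U) h - X w (rt l a :: U) h

/-- `∑ dm_j E_j K_j` over the nodes `j ∈ S` of `rt l s :: U` -/
def PS (w : Ω → ℝ) (l : Lv Ω) (U : List (Lv Ω)) (h : Ω → ℝ) (S : Finset ℕ)
    (K : ℕ → Ω → Ω → ℝ) (s : ℝ) : ℝ :=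
  ∑ j ∈ S, dm (rt l s :: U) 0 j * pi2 w (rt l s :: U) j (K j) h

omit [Fintype Ω] in
theorem dm_root (l : Lv Ω) (U : List (Lv Ω)) (s s' : ℝ) {j : ℕ} (hj : 2 ≤ j) :
    dm (rt l s :: U) 0 j = dm (rt l s' :: U) 0 j := by
  obtain ⟨j, rfl⟩ := Nat.exists_eq_add_of_le' hj
  rfl

theorem Seg.contD (hw : Wt w) (H : Seg L N D) (l : Lv Ω) (h : Ω → ℝ) (a a' : ℝ) :
    ContinuousOn (fun t => DV w l (L t) h a a') (Icc 0 1) :=
  ((H.cons (rt l a')).cont hw h).sub ((H.cons (rt l a)).cont hw h)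

/-- **exact derivative of `V (a') - V (a)`**: only the nodes `2, …, N + 1` appear -/
theorem Seg.derD (hw : Wt w) (H : Seg L N D) {c : ℝ} (hc : ∀ x, D N x x = c) (l : Lv Ω)
    (h : Ω → ℝ) (a a' : ℝ) {t : ℝ} (ht : t ∈ Ioo (0 : ℝ) 1) :
    HasDerivAt (fun t => DV w l (L t) h a a')
      (-(PS w l (L t) h (Finset.Icc 2 (N + 1)) (fun j => D (j - 1)) a' -
        PS w l (L t) h (Finset.Icc 2 (N + 1)) (fun j => D (j - 1)) a) / 2) t := by
  have z : D 0 = fun _ _ => 0 := by funext x y; exact H.zero x y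
  have e : ∀ s, ∑ j ∈ Finset.range (N + 1 + 1), dm (rt l s :: L t) 0 j *
      pi2 w (rt l s :: L t) j (D (j - 1)) h =
      PS w l (L t) h (Finset.Icc 2 (N + 1)) (fun j => D (j - 1)) s := fun s => by
    refine (Finset.sum_subset (fun j hj => ?_) fun j hj hj' => ?_).symm
    · simp only [Finset.mem_Icc, Finset.mem_range] at *; omega
    · simp only [Finset.mem_Icc, Finset.mem_range] at *
      rw [show j - 1 = 0 by omega, z, pi2_const hw, mul_zero]
  have d1 := (H.cons (rt l a')).der hw (c := c) hc h ht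
  have d2 := (H.cons (rt l a)).der hw (c := c) hc h ht
  refine (d1.sub d2).congr_deriv ?_
  rw [e, e]
  ring

/-! ### (SD) + Brascamp–Lieb -/

/-- symmetric data -/
structure Sy (w : Ω → ℝ) (M : List (Lv Ω)) (h : Ω → ℝ) (l₀ : Lv Ω) : Prop where
  mono : Mono 0 M
  ex : ∃ T : Set (Equiv.Perm Ω), (∀ τ ∈ T, Sym w M h τ) ∧
    (∀ x y, w x ≠ 0 → w y ≠ 0 → ∃ τ ∈ T, τ x = y) ∧
    ∀ τ ∈ T, ∀ x y, l₀.cov (τ x) (τ y) = l₀.cov x y

/-- Brascamp–Lieb for `∑_{j ∈ S} dm_j G_j (ρ_j)` under the path law -/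
theorem var_G (hw : Wt w) {M : List (Lv Ω)} {h : Ω → ℝ} {l₀ : Lv Ω} (H : Sy w M h l₀)
    {S : Finset ℕ} (hS : ∀ j ∈ S, 1 ≤ j ∧ j ≤ M.length) {G G' : ℕ → ℝ → ℝ}
    (hG : ∀ j t, HasDerivAt (G j) (G' j t) t) (hG' : ∀ j, Continuous (G' j)) :
    EE w M h (fun p => (∑ j ∈ S, dm M 0 j * G j (rr w (M.drop j) l₀ (p j)) -
        EE w M h fun p => ∑ j ∈ S, dm M 0 j * G j (rr w (M.drop j) l₀ (p j))) ^ 2) ≤
      4 * ∑ j ∈ S, dm M 0 j *
        node w M j (fun z => G' j (rr w (M.drop j) l₀ z) ^ 2 * mAm w (M.drop j) l₀ z) h := by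
  classical
  obtain ⟨T, hT, htr, h₀⟩ := H.ex
  have cG : ∀ j, Continuous (G j) := fun j =>
    continuous_iff_continuousAt.2 fun t => (hG j t).continuousAt
  have ep : EP fun p : Pth Ω => ∑ j ∈ S, dm M 0 j * G j (rr w (M.drop j) l₀ (p j)) :=
    EP.sum S fun j _ => (EP.state (eg_comp_rr hw (M.drop j) l₀ (cG j)) j).const_mul _
  have key := sync_G hw H.mono h hT htr l₀ h₀ (G := fun j t => if j ∈ S then G j t else 0)
    (G' := fun j t => if j ∈ S then G' j t else 0)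
    (fun j t => by
      by_cases k : j ∈ S
      · simpa only [k, if_true] using hG j t
      · simpa only [k, if_false] using hasDerivAt_const t (0 : ℝ))
    fun j => by
      by_cases k : j ∈ S
      · simpa only [k, if_true] using hG' j
      · simpa only [k, if_false] using continuous_const
  have sS : ∀ f : ℕ → ℝ, (∀ j, j ∉ S → f j = 0) →
      ∑ j ∈ Finset.range M.length, f (j + 1) = ∑ j ∈ S, f j := fun f hf => by
    rw [Finset.range_eq_Ico, Finset.sum_Ico_add' f 0 M.length 1]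
    refine (Finset.sum_subset (fun j hj => ?_) fun j _ hj => hf j hj).symm
    have := hS j hj
    simp only [Finset.mem_Ico]
    omega
  have e1 : ∀ g, nsum M h (dm M 0)
      (fun j z => if j ∈ S then G j (rr w (M.drop j) l₀ z) else 0) g =
      ∑ j ∈ S, dm M 0 j * G j (rr w (M.drop j) l₀ (st M j h g)) := fun g => by
    rw [nsum, sS (fun j => dm M 0 j * if j ∈ S then G j (rr w (M.drop j) l₀ (st M j h g)) else 0)
      fun j hj => by simp [hj]]
    exact Finset.sum_congr rfl fun j hj => by simp [hj]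
  rw [sS (fun j => dm M 0 j * node w M j (fun z => (if j ∈ S then G' j (rr w (M.drop j) l₀ z)
    else 0) ^ 2 * mAm w (M.drop j) l₀ z) h) fun j hj => by simp [hj, node_const hw]] at key
  simp only [e1] at key
  rw [EE_sq_sub hw M h ep, EE_eq hw M h (ep.pow 2), EE_eq hw M h ep]
  refine le_trans (le_of_eq (by ring)) (key.trans (le_of_eq ?_))
  exact congrArg _ (Finset.sum_congr rfl fun j hj => by simp [hj])

/-- **(SD) + BL**: `|Δ_a ∑_{j ∈ S} dm_j E G_j (ρ_j)| ≤ 2 Q V` -/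
theorem sd_G (hw : Wt w) (l : Lv Ω) (U : List (Lv Ω)) (h : Ω → ℝ) (l₀ : Lv Ω) {a a' Q V : ℝ}
    (haa : a ≤ a') (hQ : 0 ≤ Q) (hW : (a' - a) * Wd w l U h a a' ≤ Q ^ 2) (hV0 : 0 ≤ V)
    (H : ∀ s ∈ Icc a a', Sy w (rt l s :: U) h l₀) {S : Finset ℕ}
    (hS : ∀ j ∈ S, 2 ≤ j ∧ j ≤ U.length + 1) {G G' : ℕ → ℝ → ℝ}
    (hG : ∀ j t, HasDerivAt (G j) (G' j t) t) (hG' : ∀ j, Continuous (G' j))
    (hV : ∀ s ∈ Icc a a', ∑ j ∈ S, dm (rt l s :: U) 0 j * node w (rt l s :: U) j (fun z =>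
      G' j (rr w ((rt l s :: U).drop j) l₀ z) ^ 2 * mAm w ((rt l s :: U).drop j) l₀ z) h ≤ V ^ 2) :
    |∑ j ∈ S, dm (rt l a' :: U) 0 j *
        node w (rt l a' :: U) j (fun z => G j (rr w ((rt l a' :: U).drop j) l₀ z)) h -
      ∑ j ∈ S, dm (rt l a :: U) 0 j *
        node w (rt l a :: U) j (fun z => G j (rr w ((rt l a :: U).drop j) l₀ z)) h| ≤
      Q * (2 * V) := by
  have cG : ∀ j, Continuous (G j) := fun j =>
    continuous_iff_continuousAt.2 fun t => (hG j t).continuousAt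
  set F : Pth Ω → ℝ := fun p => ∑ j ∈ S, dm (rt l 0 :: U) 0 j * G j (rr w (U.drop (j - 1)) l₀ (p j))
    with hF
  have eF : ∀ s, (fun p : Pth Ω => ∑ j ∈ S, dm (rt l s :: U) 0 j *
      G j (rr w ((rt l s :: U).drop j) l₀ (p j))) = F := fun s => by
    funext p
    refine Finset.sum_congr rfl fun j hj => ?_
    obtain ⟨i, rfl⟩ := Nat.exists_eq_add_of_le' (hS j hj).1
    rfl
  have ep : EP F := EP.sum S fun j _ => (EP.state (eg_comp_rr hw _ l₀ (cG j)) j).const_mul _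
  have eE : ∀ s, ∑ j ∈ S, dm (rt l s :: U) 0 j *
      node w (rt l s :: U) j (fun z => G j (rr w ((rt l s :: U).drop j) l₀ z)) h =
      EE w (rt l s :: U) h F := fun s => by
    rw [← eF s, EE_sum hw _ _ S fun j _ => (EP.state (eg_comp_rr hw _ l₀ (cG j)) j).const_mul _]
    exact Finset.sum_congr rfl fun j _ => by
      rw [EE_const_mul, EE_node hw fun z => G j (rr w ((rt l s :: U).drop j) l₀ z)]
  rw [eE, eE]
  refine abs_le_of_sq hQ (by positivity) hW (delta_EE hw l U h ep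
    (c := fun s => EE w (rt l s :: U) h F) haa fun s hs => ?_)
  have := var_G hw (H s hs) (S := S) (fun j hj => ⟨by have := (hS j hj).1; omega,
    by simpa using (hS j hj).2⟩) hG hG'
  rw [eF s] at this
  simp only [fun p => congrFun (eF s) p] at this
  exact this.trans (by nlinarith [hV s hs])

theorem pi2_quad (hw : Wt w) (M : List (Lv Ω)) (l₀ : Lv Ω) (h : Ω → ℝ) (j : ℕ) (α φ : ℝ) :
    pi2 w M j (fun x y => α / 2 * l₀.cov x y ^ 2 + φ * l₀.cov x y) h =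
      node w M j (fun z => α / 2 * rr w (M.drop j) l₀ z ^ 2 + φ * rr w (M.drop j) l₀ z) h +
        α / 2 * (tc w M l₀ h j + 2 * vv w M l₀ h j) := by
  have e := pi2_sq hw M l₀ h j 0
  simp only [sub_zero] at e
  have r := eg_rr hw (M.drop j) l₀
  rw [pi2_add hw, pi2_const_mul, pi2_const_mul, e, node_add hw ((r.pow 2).const_mul _)
    (r.const_mul _), node_const_mul, node_const_mul, ← rho_eq]
  simp only [tc, vv, rho]
  ring

/-- the three budgets of one model `U` (nodes in the index of `rt l s :: U`): `V` for the nodes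
of `S` (standard deviation), `B` for their pair fluctuations, `A` for the other nodes -/
structure Bud (w : Ω → ℝ) (l : Lv Ω) (U : List (Lv Ω)) (h : Ω → ℝ) (l₀ : Lv Ω) (a a' : ℝ)
    (α φ : ℕ → ℝ) (Q V B A : ℝ) : Prop where
  W : (a' - a) * Wd w l U h a a' ≤ Q ^ 2
  V0 : 0 ≤ V
  sy : ∀ s ∈ Icc a a', Sy w (rt l s :: U) h l₀
  ex : ∃ (S : Finset ℕ) (c : ℕ → ℝ), S ⊆ Finset.Icc 2 (U.length + 1) ∧ ∀ s ∈ Icc a a',
    (∑ j ∈ S, dm (rt l s :: U) 0 j * node w (rt l s :: U) j (fun z =>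
      (α j * rr w ((rt l s :: U).drop j) l₀ z + φ j) ^ 2 *
        mAm w ((rt l s :: U).drop j) l₀ z) h ≤ V ^ 2) ∧
    (∑ j ∈ S, dm (rt l s :: U) 0 j * (|α j| / 2 *
      (tc w (rt l s :: U) l₀ h j + 2 * vv w (rt l s :: U) l₀ h j)) ≤ B) ∧
    ∑ j ∈ Finset.Icc 2 (U.length + 1) \ S, dm (rt l s :: U) 0 j * |pi2 w (rt l s :: U) j
      (fun x y => α j / 2 * l₀.cov x y ^ 2 + φ j * l₀.cov x y) h - c j| ≤ A

/-- the bound for one model -/
theorem Bud.le (hw : Wt w) {l l₀ : Lv Ω} {U : List (Lv Ω)} {h : Ω → ℝ} {a a' Q V B A : ℝ}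
    {α φ : ℕ → ℝ} (H : Bud w l U h l₀ a a' α φ Q V B A) (haa : a ≤ a') (hQ : 0 ≤ Q) :
    |PS w l U h (Finset.Icc 2 (U.length + 1))
        (fun j x y => α j / 2 * l₀.cov x y ^ 2 + φ j * l₀.cov x y) a' -
      PS w l U h (Finset.Icc 2 (U.length + 1))
        (fun j x y => α j / 2 * l₀.cov x y ^ 2 + φ j * l₀.cov x y) a| ≤ 2 * (Q * V + B + A) := by
  obtain ⟨S, c, hS, hb⟩ := H.ex
  have ia : a ∈ Icc a a' := ⟨le_rfl, haa⟩
  have ia' : a' ∈ Icc a a' := ⟨haa, le_rfl⟩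
  have k1 := sd_G hw l U h l₀ haa hQ H.W H.V0 H.sy (S := S)
    (fun j hj => Finset.mem_Icc.1 (hS hj)) (G := fun j r => α j / 2 * r ^ 2 + φ j * r)
    (G' := fun j r => α j * r + φ j) (fun j r => by
      have := (((hasDerivAt_id r).pow 2).const_mul (α j / 2)).add ((hasDerivAt_id r).const_mul (φ j))
      exact this.congr_deriv (by simp; ring)) (fun j => by fun_prop) fun s hs => (hb s hs).1
  have k2 : ∀ s ∈ Icc a a', |∑ j ∈ S, dm (rt l s :: U) 0 j * (α j / 2 *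
      (tc w (rt l s :: U) l₀ h j + 2 * vv w (rt l s :: U) l₀ h j))| ≤ B := fun s hs => by
    refine (Finset.abs_sum_le_sum_abs _ _).trans (le_trans (le_of_eq ?_) (hb s hs).2.1)
    refine Finset.sum_congr rfl fun j _ => ?_
    have h1 := tc_nonneg (w := w) l₀ h (rt l s :: U) j
    have h2 := vv_nonneg hw l₀ h (rt l s :: U) j
    rw [abs_mul, abs_mul, abs_of_nonneg (dm_nonneg (H.sy s hs).mono j), abs_div, abs_two,
      abs_of_nonneg (a := _ + _) (by positivity)]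
  have k3 : ∀ s ∈ Icc a a', |∑ j ∈ Finset.Icc 2 (U.length + 1) \ S, dm (rt l s :: U) 0 j *
      pi2 w (rt l s :: U) j (fun x y => α j / 2 * l₀.cov x y ^ 2 + φ j * l₀.cov x y) h -
      ∑ j ∈ Finset.Icc 2 (U.length + 1) \ S, dm (rt l 0 :: U) 0 j * c j| ≤ A := fun s hs => by
    rw [← Finset.sum_sub_distrib]
    refine (Finset.abs_sum_le_sum_abs _ _).trans (le_trans (le_of_eq ?_) (hb s hs).2.2)
    refine Finset.sum_congr rfl fun j hj => ?_
    rw [dm_root l U 0 s (Finset.mem_Icc.1 (Finset.mem_sdiff.1 hj).1).1, ← mul_sub, abs_mul,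
      abs_of_nonneg (dm_nonneg (H.sy s hs).mono j)]
  simp only [PS, ← Finset.sum_sdiff hS]
  have e : ∀ s, ∑ j ∈ S, dm (rt l s :: U) 0 j *
      pi2 w (rt l s :: U) j (fun x y => α j / 2 * l₀.cov x y ^ 2 + φ j * l₀.cov x y) h =
      ∑ j ∈ S, dm (rt l s :: U) 0 j * node w (rt l s :: U) j (fun z =>
        α j / 2 * rr w ((rt l s :: U).drop j) l₀ z ^ 2 + φ j * rr w ((rt l s :: U).drop j) l₀ z) h +
      ∑ j ∈ S, dm (rt l s :: U) 0 j * (α j / 2 *
        (tc w (rt l s :: U) l₀ h j + 2 * vv w (rt l s :: U) l₀ h j)) := fun s => by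
    rw [← Finset.sum_add_distrib]
    exact Finset.sum_congr rfl fun j _ => by rw [pi2_quad hw, mul_add]
  rw [e, e]
  have := abs_le.1 k1
  have := abs_le.1 (k2 a ia)
  have := abs_le.1 (k2 a' ia')
  have := abs_le.1 (k3 a ia)
  have := abs_le.1 (k3 a' ia')
  exact abs_le.2 ⟨by linarith, by linarith⟩



/-! ### the cube -/

variable {n : ℕ}

theorem sy_cube {M : List (Lv (Cube n))} {dh : ℕ → ℝ} (H : Cm M dh) {l₀ : Lv (Cube n)}
    (h₀ : ∀ x y, l₀.cov x y = ov x y) : Sy (fun _ => 1) M 0 l₀ :=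
  ⟨H.mono, TS n, H.sym, ts_trans, ts_cov h₀⟩


end Crest.Agent.T156.Cas.Seg56

end
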