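import Crest.Agent.T156.AltDef_88
import Crest.Agent.T156.OneP_23
import Crest.Agent.T156.AltCl_88
import Crest.Agent.T156.Seg_56

-- ▼ part T156/AltDic_77
section

/-!
# Row 156, ALT route: dictionary of the class (helper77)

Accumulated covariances, continuity, and the exact derivative of `V`
along any path of members (only derivatives at the point are assumed).
-/

set_option autoImplicit false
set_option linter.unusedSectionVars false

noncomputable section

namespace Crest.Agent.T156.Alt.Dic77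

open MeasureTheory Real Set Filter Topology
open Crest.Agent.T157.E Crest.Agent.T157.Casc Crest.Agent.T157.SL
open Crest.Agent.T157.Casc.C (Same)
open Crest.Agent.T157.G1 (ov fl FL Jw)
open Crest.Agent.T156.Cas

/-! ### continuity from curves -/

theorem cont_of_curves {E : Type} [TopologicalSpace E] [FirstCountableTopology E] (F : E → ℝ)
    (hF : ∀ (γ : ℝ → E) (K : Set ℝ), IsCompact K → ContinuousOn γ K →
      ContinuousOn (fun t => F (γ t)) K) : Continuous F := by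
  rw [continuous_iff_seqContinuous]
  intro x x0 hx
  set r : ℕ → ℝ := fun n => ((n : ℝ) + 1 / 2)⁻¹ with hr
  have hr0 : Tendsto r atTop (𝓝 0) :=
    tendsto_inv_atTop_zero.comp (tendsto_atTop_add_const_right _ _ tendsto_natCast_atTop_atTop)
  have hrp : ∀ n, 0 < r n := fun n => by positivity
  set γ : ℝ → E := fun t => if t ≤ 0 then x0 else x ⌊t⁻¹⌋₊ with hγ
  have hloc : ∀ n, ∀ᶠ t in 𝓝 (r n), γ t = x n := fun n => by
    have h1 : ∀ᶠ t in 𝓝 (r n), 0 < t := Ioi_mem_nhds (hrp n)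
    have h2 : ∀ᶠ t in 𝓝 (r n), t⁻¹ ∈ Ioo (n : ℝ) (n + 1) :=
      (continuousAt_inv₀ (hrp n).ne').eventually_mem (Ioo_mem_nhds
        (by simp only [hr, inv_inv]; linarith) (by simp only [hr, inv_inv]; linarith))
    filter_upwards [h1, h2] with t t0 ht
    simp only [hγ, if_neg (not_le.2 t0)]
    rw [(Nat.floor_eq_iff (inv_pos.2 t0).le).2 ⟨ht.1.le, ht.2⟩]
  have h0 : γ 0 = x0 := by simp [hγ]
  have hK := hr0.isCompact_insert_range
  have hc : ContinuousOn γ (insert 0 (range r)) := by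
    rintro t (rfl | ⟨n, rfl⟩)
    · refine ContinuousWithinAt.mono (t := insert 0 (Ioi 0)) ?_
        (insert_subset_insert (by rintro _ ⟨n, rfl⟩; exact hrp n))
      rw [continuousWithinAt_insert_self, ContinuousWithinAt, h0]
      refine ((hx.comp tendsto_nat_floor_atTop).comp tendsto_inv_nhdsGT_zero).congr' ?_
      filter_upwards [self_mem_nhdsWithin] with t ht
      simp only [hγ, if_neg (not_le.2 (show (0 : ℝ) < t from ht)), Function.comp]
    · exact ((continuousAt_const (y := x n)).congr (EventuallyEq.symm (hloc n))).continuousWithinAt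
  have h1 := (hF γ _ hK hc 0 (mem_insert _ _)).tendsto.comp
    (tendsto_nhdsWithin_iff.2 ⟨hr0, Eventually.of_forall fun n => Or.inr ⟨n, rfl⟩⟩)
  rw [h0] at h1
  refine h1.congr fun n => ?_
  simp only [Function.comp, (hloc n).self_of_nhds]

/-! ### a root and `N` fields with accumulated variances `G` -/

section gen
variable (m : ℕ) (β a : ℝ) (N : ℕ) (T : ℕ → ℝ)

/-- the cascade -/
def GC (d : ℝ) (G : ℕ → ℝ) : List (Lv (Cube m)) :=
  wl m β d a :: FL m 1 (List.ofFn fun k : Fin N => (T k, G (k + 1) - G k))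

/-- the moving cascade -/
def GM (d d' : ℝ → ℝ) (G G' : ℝ → ℕ → ℝ) : List (ML (Cube m)) :=
  ⟨⟨(Jw m β).ι, (Jw m β).A, a⟩, d, d'⟩ :: List.ofFn fun k : Fin N =>
    ⟨⟨Fin m, fun x i => sv x i, T k⟩, fun t => G t (k + 1) - G t k, fun t => G' t (k + 1) - G' t k⟩


theorem GM_length (d d' : ℝ → ℝ) (G G' : ℝ → ℕ → ℝ) : (GM m β a N T d d' G G').length = N + 1 := by
  simp [GM]

theorem mat_GM (d d' : ℝ → ℝ) (G G' : ℝ → ℕ → ℝ) (t : ℝ) :
    mat (GM m β a N T d d' G G') t = GC m β a N T (d t) (G t) := by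
  simp only [GM, GC, FL, mat, List.map_ofFn, List.map_cons]
  congr 2
  funext k
  simp only [Function.comp, ML.at, lv, fl, one_mul]

theorem GC_min (d : ℝ) (G : ℕ → ℝ) :
    GC m β a N T d (fun k => G (min k N)) = GC m β a N T d G := by
  simp only [GC]
  congr 3
  funext k
  rw [min_eq_left k.2.le, min_eq_left (Nat.succ_le_of_lt k.2)]

theorem tilt_GC (d d' : ℝ) (G G' : ℕ → ℝ) :
    (GC m β a N T d G).map Lv.m = (GC m β a N T d' G').map Lv.m := by
  simp only [GC, FL, List.map_cons, List.map_ofFn]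
  rfl

theorem sum_take_ofFn (f : ℕ → ℝ) (j : ℕ) :
    ((List.ofFn fun k : Fin N => f (k + 1) - f k).take j).sum = f (min j N) - f 0 := by
  induction j with
  | zero => simp
  | succ j ih =>
    rw [List.take_add_one, List.sum_append, ih]
    rcases lt_or_ge j N with h | h
    · rw [List.getElem?_eq_getElem (by simpa using h), List.getElem_ofFn, min_eq_left h.le,
        min_eq_left (Nat.succ_le_of_lt h)]
      simp
    · rw [List.getElem?_eq_none (by simpa using h), min_eq_right h, min_eq_right (by omega)]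
      simp

variable {m}

theorem cov_sv (hm : 0 < m) (t : ℝ) (x y : Cube m) :
    (⟨Fin m, fun x i => sv x i, t⟩ : Lv (Cube m)).cov x y = m * ov x y := by
  have : (m : ℝ) ≠ 0 := by positivity
  rw [ov, mul_div_cancel₀ _ this]
  rfl

theorem dcov_GM (hm : 0 < m) (d d' : ℝ → ℝ) (G G' : ℝ → ℕ → ℝ) (t : ℝ) (j : ℕ) (x y : Cube m) :
    dcov (GM m β a N T d d' G G') t (j + 1) x y =
      d' t * (β ^ 2 * m / 2) * ov x y ^ 2 + m * (G' t (min j N) - G' t 0) * ov x y := by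
  rw [GM, dcov_cons, dcov, List.map_take, List.map_ofFn]
  have e : ((fun p : ML (Cube m) => p.v' t * p.l.cov x y) ∘ fun k : Fin N =>
      (⟨⟨Fin m, fun x i => sv x i, T k⟩, fun t => G t (k + 1) - G t k,
        fun t => G' t (k + 1) - G' t k⟩ : ML (Cube m))) =
      fun k : Fin N => G' t (k + 1) * (m * ov x y) - G' t k * (m * ov x y) := by
    funext k
    simp only [Function.comp, cov_sv hm]
    ring
  rw [e, sum_take_ofFn N (fun k => G' t k * (m * ov x y))]
  have e2 : (⟨(Jw m β).ι, (Jw m β).A, a⟩ : Lv (Cube m)).cov x y = β ^ 2 * m / 2 * ov x y ^ 2 :=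
    cov_Jw hm β x y
  simp only [e2]
  ring

variable (m)

/-- the derivative at `(d, G)` in the direction `(d', G')` -/
def GD (u u' : ℝ × (ℕ → ℝ)) : ℝ :=
  m * (u'.1 * β ^ 2 / 4 * (1 - ∑ k ∈ Finset.range (N + 1), dm (GC m β a N T u.1 u.2) 0 (k + 1) *
      pi2 (fun _ => 1) (GC m β a N T u.1 u.2) (k + 1) (fun x y => ov x y ^ 2) 0) +
    (u'.2 N - u'.2 0 - ∑ k ∈ Finset.range (N + 1), dm (GC m β a N T u.1 u.2) 0 (k + 1) *
      ((u'.2 k - u'.2 0) * pi2 (fun _ => 1) (GC m β a N T u.1 u.2) (k + 1) ov 0)) / 2)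

variable {m}

theorem mD_GM (hm : 0 < m) (d d' : ℝ → ℝ) (G G' : ℝ → ℕ → ℝ) (t : ℝ) :
    mD (fun _ => 1) (GM m β a N T d d' G G') 0 t = GD m β a N T (d t, G t) (d' t, G' t) := by
  rw [mD_sk Link33.wt1 _ 0 t ov (ov_self hm)
    (fun j => if j = 0 then 0 else d' t * (β ^ 2 * m / 2))
    (fun j => if j = 0 then 0 else m * (G' t (min (j - 1) N) - G' t 0)) (fun _ => 0)
    (fun j _ x y => by
      cases j with
      | zero => simp [dcov_zero]
      | succ j => simp [dcov_GM β a N T hm]), GM_length, mat_GM, Finset.sum_range_succ' _ (N + 1), GD]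
  simp only [Nat.add_one_ne_zero, if_false, if_true, Nat.add_sub_cancel, min_self, zero_mul,
    add_zero, mul_zero]
  rw [Finset.sum_congr rfl fun k hk => by
    rw [min_eq_left (Nat.lt_succ_iff.1 (Finset.mem_range.1 hk))]]
  have e : ∀ (D p2 p1 g : ℕ → ℝ) (A : ℝ), ∑ k ∈ Finset.range (N + 1), D k * (A * p2 k + m * g k * p1 k) =
      A * ∑ k ∈ Finset.range (N + 1), D k * p2 k + m * ∑ k ∈ Finset.range (N + 1), D k * (g k * p1 k) :=
    fun D p2 p1 g A => by
      rw [Finset.mul_sum, Finset.mul_sum, ← Finset.sum_add_distrib]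
      exact Finset.sum_congr rfl fun _ _ => by ring
  rw [e]
  ring

theorem cont_pi2 (j : ℕ) (Q : Cube m → Cube m → ℝ) :
    Continuous fun u : ℝ × (ℕ → ℝ) => pi2 (fun _ => 1) (GC m β a N T u.1 u.2) j Q 0 := by
  refine cont_of_curves _ fun γ K hK hγ => ?_
  have := mov_cont_pi2 Link33.wt1 (L := GM m β a N T (fun t => (γ t).1) 0 (fun t => (γ t).2) 0) hK
    (fun p hp => by
      rcases List.mem_cons.1 hp with rfl | hp
      · exact hγ.fst
      · obtain ⟨k, rfl⟩ := List.mem_ofFn.1 hp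
        exact ((continuous_apply _).comp_continuousOn hγ.snd).sub
          ((continuous_apply _).comp_continuousOn hγ.snd)) j Q 0
  simpa only [mat_GM] using this

theorem cont_X : Continuous fun u : ℝ × (ℕ → ℝ) => X (fun _ => 1) (GC m β a N T u.1 u.2) 0 := by
  refine cont_of_curves _ fun γ K hK hγ => ?_
  have := mov_cont Link33.wt1 (L := GM m β a N T (fun t => (γ t).1) 0 (fun t => (γ t).2) 0) hK
    (fun p hp => by
      rcases List.mem_cons.1 hp with rfl | hp
      · exact hγ.fst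
      · obtain ⟨k, rfl⟩ := List.mem_ofFn.1 hp
        exact ((continuous_apply _).comp_continuousOn hγ.snd).sub
          ((continuous_apply _).comp_continuousOn hγ.snd)) 0
  simpa only [mat_GM] using this

theorem cont_GD : Continuous fun z : (ℝ × (ℕ → ℝ)) × ℝ × (ℕ → ℝ) => GD m β a N T z.1 z.2 := by
  have e : ∀ (u : ℝ × (ℕ → ℝ)) j, dm (GC m β a N T u.1 u.2) 0 j = dm (GC m β a N T 0 0) 0 j :=
    fun u j => Cav22.dm_tilt (tilt_GC m β a N T _ _ _ _) 0 j
  have h1 := fun j Q => (cont_pi2 (m := m) β a N T j Q).comp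
    (continuous_fst (X := ℝ × (ℕ → ℝ)) (Y := ℝ × (ℕ → ℝ)))
  simp only [GD, e]
  simp only [Function.comp_def] at h1
  fun_prop

theorem GD_smul (u : ℝ × (ℕ → ℝ)) (c : ℝ) (u' : ℝ × (ℕ → ℝ)) :
    GD m β a N T u (c • u') = c * GD m β a N T u u' := by
  simp only [GD, Prod.smul_fst, Prod.smul_snd, Pi.smul_apply, smul_eq_mul, ← mul_sub]
  rw [Finset.sum_congr rfl fun k _ => (show dm (GC m β a N T u.1 u.2) 0 (k + 1) *
      (c * (u'.2 k - u'.2 0) * pi2 (fun _ => 1) (GC m β a N T u.1 u.2) (k + 1) ov 0) =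
      c * (dm (GC m β a N T u.1 u.2) 0 (k + 1) *
      ((u'.2 k - u'.2 0) * pi2 (fun _ => 1) (GC m β a N T u.1 u.2) (k + 1) ov 0)) by ring),
    ← Finset.mul_sum]
  ring

/-- mean value form between two points -/
theorem GC_mvt (hm : 0 < m) {u u' : ℝ × (ℕ → ℝ)} (h0 : 0 < u.1) (h0' : 0 < u'.1)
    (h : ∀ k < N, (u.2 k < u.2 (k + 1) ∧ u'.2 k < u'.2 (k + 1)) ∨
      (u.2 (k + 1) = u.2 k ∧ u'.2 (k + 1) = u'.2 k)) :
    ∃ θ ∈ Ioo (0 : ℝ) 1, X (fun _ => 1) (GC m β a N T u'.1 u'.2) 0 -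
      X (fun _ => 1) (GC m β a N T u.1 u.2) 0 = GD m β a N T (u + θ • (u' - u)) (u' - u) := by
  obtain ⟨θ, hθ, e⟩ := mov_mvt Link33.wt1 (L := GM m β a N T (fun θ => u.1 + θ * (u'.1 - u.1))
    (fun _ => u'.1 - u.1) (fun θ k => u.2 k + θ * (u'.2 k - u.2 k)) fun _ k => u'.2 k - u.2 k)
    zero_lt_one (fun p hp => by
      rcases List.mem_cons.1 hp with rfl | hp
      · fun_prop
      · obtain ⟨k, rfl⟩ := List.mem_ofFn.1 hp
        fun_prop) (fun p hp => by
      rcases List.mem_cons.1 hp with rfl | hp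
      · refine Or.inl ⟨fun t ht => ⟨?_, by nlinarith [ht.1, ht.2]⟩, continuousOn_const⟩
        simpa using ((hasDerivAt_id t).mul_const (u'.1 - u.1)).const_add u.1
      · obtain ⟨k, rfl⟩ := List.mem_ofFn.1 hp
        rcases h k k.2 with h1 | h1
        · refine Or.inl ⟨fun t ht => ⟨?_, by nlinarith [ht.1, ht.2, h1.1, h1.2]⟩, continuousOn_const⟩
          have := (((hasDerivAt_id' t).mul_const (u'.2 (k + 1) - u.2 (k + 1))).const_add
            (u.2 (k + 1))).fun_sub (((hasDerivAt_id' t).mul_const (u'.2 k - u.2 k)).const_add (u.2 k))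
          simpa only [one_mul] using this
        · exact Or.inr fun t => by simp [h1.1, h1.2]) 0
  refine ⟨θ, hθ, ?_⟩
  rw [mat_GM, mat_GM, mD_GM β a N T hm] at e
  simp only [one_mul, zero_mul, add_zero, add_sub_cancel, sub_zero] at e
  exact e

/-- **derivative along a curve; only derivatives at the point are used** -/
theorem GC_der (hm : 0 < m) {u : ℝ → ℝ × (ℕ → ℝ)} {u' : ℝ × (ℕ → ℝ)} {S : Set ℝ} {t : ℝ}
    (hd : HasDerivWithinAt (fun t => (u t).1) u'.1 S t)
    (hG : ∀ k, HasDerivWithinAt (fun t => (u t).2 k) (u'.2 k) S t) (h0 : 0 < (u t).1)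
    (h : ∀ k < N, (u t).2 k < (u t).2 (k + 1) ∨ ∀ t', (u t').2 (k + 1) = (u t').2 k) :
    HasDerivWithinAt (fun t => X (fun _ => 1) (GC m β a N T (u t).1 (u t).2) 0)
      (GD m β a N T (u t) u') S t := by
  have hc : Tendsto u (𝓝[S \ {t}] t) (𝓝 (u t)) :=
    (hd.continuousWithinAt.prodMk (continuousWithinAt_pi.2 fun k =>
      (hG k).continuousWithinAt)).tendsto.mono_left (nhdsWithin_mono _ sdiff_subset)
  have hs : Tendsto (fun t' => (t' - t)⁻¹ • (u t' - u t)) (𝓝[S \ {t}] t) (𝓝 u') := by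
    refine (Prod.tendsto_iff _ _).2 ⟨?_, tendsto_pi_nhds.2 fun k => ?_⟩
    · simpa [slope_fun_def] using hasDerivWithinAt_iff_tendsto_slope.1 hd
    · simpa [slope_fun_def] using hasDerivWithinAt_iff_tendsto_slope.1 (hG k)
  have hp : ∀ᶠ t' in 𝓝[S \ {t}] t, 0 < (u t').1 ∧ ∀ k ∈ Finset.range N,
      (u t).2 k < (u t).2 (k + 1) → (u t').2 k < (u t').2 (k + 1) := by
    refine ((continuous_fst.tendsto _ |>.comp hc).eventually (Ioi_mem_nhds h0)).and
      ((Finset.eventually_all _).2 fun k _ => ?_)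
    by_cases h1 : (u t).2 k < (u t).2 (k + 1)
    · have h2 := fun k => ((continuous_apply k).comp continuous_snd).tendsto _ |>.comp hc
      exact ((h2 k).eventually_lt (h2 (k + 1)) h1).mono fun _ h _ => h
    · exact Eventually.of_forall fun _ h => absurd h h1
  have key : ∀ t', ∃ θ ∈ Icc (0 : ℝ) 1, (0 < (u t').1 ∧ ∀ k ∈ Finset.range N,
      (u t).2 k < (u t).2 (k + 1) → (u t').2 k < (u t').2 (k + 1)) →
      X (fun _ => 1) (GC m β a N T (u t').1 (u t').2) 0 -
        X (fun _ => 1) (GC m β a N T (u t).1 (u t).2) 0 =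
        GD m β a N T (u t + θ • (u t' - u t)) (u t' - u t) := fun t' => by
    by_cases H : 0 < (u t').1 ∧ ∀ k ∈ Finset.range N,
      (u t).2 k < (u t).2 (k + 1) → (u t').2 k < (u t').2 (k + 1)
    · obtain ⟨θ, hθ, e⟩ := GC_mvt β a N T hm h0 H.1 fun k hk => (h k hk).imp
        (fun h1 => ⟨h1, H.2 k (Finset.mem_range.2 hk) h1⟩) fun h1 => ⟨h1 t, h1 t'⟩
      exact ⟨θ, Ioo_subset_Icc_self hθ, fun _ => e⟩
    · exact ⟨0, ⟨le_rfl, zero_le_one⟩, fun H' => absurd H' H⟩
  choose θ hθ e using key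
  have hz : Tendsto (fun t' => u t' - u t) (𝓝[S \ {t}] t) (𝓝 0) := by
    simpa using hc.sub_const (u t)
  have hb : ∀ f : ℝ → ℝ, Tendsto f (𝓝[S \ {t}] t) (𝓝 0) →
      Tendsto (fun t' => θ t' * f t') (𝓝[S \ {t}] t) (𝓝 0) := fun f hf =>
    squeeze_zero_norm (a := fun t' => ‖f t'‖) (fun t' => by
      rw [norm_mul]
      exact mul_le_of_le_one_left (norm_nonneg _) (by
        rw [Real.norm_of_nonneg (hθ t').1]; exact (hθ t').2)) (by simpa using hf.norm)
  have hm' : Tendsto (fun t' => u t + θ t' • (u t' - u t)) (𝓝[S \ {t}] t) (𝓝 (u t)) := by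
    have : Tendsto (fun t' => θ t' • (u t' - u t)) (𝓝[S \ {t}] t) (𝓝 0) :=
      (Prod.tendsto_iff _ _).2 ⟨hb _ ((continuous_fst.tendsto _).comp hz),
        tendsto_pi_nhds.2 fun k => hb _ ((((continuous_apply k).comp continuous_snd).tendsto _).comp hz)⟩
    simpa using this.const_add (u t)
  rw [hasDerivWithinAt_iff_tendsto_slope]
  refine (((cont_GD (m := m) β a N T).tendsto (u t, u')).comp (hm'.prodMk_nhds hs)).congr' ?_
  filter_upwards [hp] with t' ht'
  simp only [Function.comp, GD_smul, slope_def_field, ← e t' ht', div_eq_inv_mul]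

/-- the same with hypotheses only for `k ≤ N` -/
theorem GC_der' (hm : 0 < m) {d : ℝ → ℝ} {G : ℝ → ℕ → ℝ} {d' : ℝ} {G' : ℕ → ℝ} {S : Set ℝ} {t : ℝ}
    (hd : HasDerivWithinAt d d' S t) (hG : ∀ k ≤ N, HasDerivWithinAt (fun t => G t k) (G' k) S t)
    (h0 : 0 < d t) (h : ∀ k < N, G t k < G t (k + 1) ∨ ∀ t', G t' (k + 1) = G t' k) :
    HasDerivWithinAt (fun t => X (fun _ => 1) (GC m β a N T (d t) (G t)) 0)
      (GD m β a N T (d t, G t) (d', G')) S t := by
  have := GC_der β a N T hm (u := fun t => (d t, fun k => G t (min k N)))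
    (u' := (d', fun k => G' (min k N))) hd (fun k => hG _ (min_le_right _ _)) h0 fun k hk => by
      simpa only [min_eq_left hk.le, min_eq_left (Nat.succ_le_of_lt hk)] using h k hk
  simp only [GC_min] at this
  convert this using 1
  simp only [GD, GC_min, min_self, Nat.zero_min]
  congr 4
  exact Finset.sum_congr rfl fun k hk => by
    rw [min_eq_left (Nat.lt_succ_iff.1 (Finset.mem_range.1 hk))]

theorem contOn_min {E : Type} [TopologicalSpace E] {d : E → ℝ} {G : E → ℕ → ℝ} {S : Set E}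
    (hd : ContinuousOn d S) (hG : ∀ k ≤ N, ContinuousOn (fun t => G t k) S) :
    ContinuousOn (fun t => ((d t, fun k => G t (min k N)) : ℝ × (ℕ → ℝ))) S :=
  hd.prodMk (continuousOn_pi.2 fun _ => hG _ (min_le_right _ _))

theorem GC_cont {E : Type} [TopologicalSpace E] {d : E → ℝ} {G : E → ℕ → ℝ} {S : Set E}
    (hd : ContinuousOn d S) (hG : ∀ k ≤ N, ContinuousOn (fun t => G t k) S) :
    ContinuousOn (fun t => X (fun _ => 1) (GC m β a N T (d t) (G t)) 0) S := by
  simpa only [Function.comp_def, GC_min] using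
    (cont_X (m := m) β a N T).comp_continuousOn (contOn_min N hd hG)



end gen

/-! ### the class -/

section cls
variable (p : Pm) {m : ℕ} {a : ℝ}

theorem L_eq (τ y : ℝ) (m : ℕ) (a : ℝ) : p.L τ y m a =
    GC m p.β a p.N (fun k => p.zz (max k p.j0)) (p.b τ y / p.β ^ 2) (p.H τ y) := rfl

theorem H_low (τ y : ℝ) {k : ℕ} (hk : k ≤ p.j0) : p.H τ y k = 0 := if_pos hk

/-- **exact derivative of `V` along any path of parameters** -/
theorem V_der (hβ : p.β ≠ 0) (hm : 0 < m) {τ y : ℝ → ℝ} {S : Set ℝ} {t b' : ℝ} {H' : ℕ → ℝ}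
    (hb : HasDerivWithinAt (fun t => p.b (τ t) (y t)) b' S t)
    (hH : ∀ k, p.j0 < k → k ≤ p.N → HasDerivWithinAt (fun t => p.H (τ t) (y t) k) (H' k) S t)
    (hH0 : ∀ k ≤ p.j0, H' k = 0) (h0 : 0 < p.b (τ t) (y t))
    (h : ∀ k, p.j0 ≤ k → k < p.N → p.H (τ t) (y t) k < p.H (τ t) (y t) (k + 1)) :
    HasDerivWithinAt (fun t => p.V (τ t) (y t) m a)
      (m * (b' / 4 * (1 - ∑ k ∈ Finset.range (p.N + 1),
          p.dz (τ t) (y t) m a k * p.E2 (τ t) (y t) m a (fun r => r ^ 2) k) +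
        (H' p.N - ∑ k ∈ Finset.range (p.N + 1),
          p.dz (τ t) (y t) m a k * (H' k * p.rb (τ t) (y t) m a k)) / 2)) S t := by
  have := GC_der' p.β a p.N (fun k => p.zz (max k p.j0)) hm (d := fun t => p.b (τ t) (y t) / p.β ^ 2)
    (G := fun t => p.H (τ t) (y t)) (G' := H') (hb.div_const _) (fun k hk => by
      rcases le_or_gt k p.j0 with h1 | h1
      · simp only [H_low p _ _ h1, hH0 k h1]
        exact hasDerivWithinAt_const _ _ _
      · exact hH k h1 hk) (by positivity) fun k hk => by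
      rcases le_or_gt p.j0 k with h1 | h1
      · exact Or.inl (h k h1 hk)
      · exact Or.inr fun t' => by rw [H_low p _ _ h1.le, H_low p _ _ (Nat.succ_le_of_lt h1)]
  refine this.congr_deriv ?_
  simp only [GD, hH0 0 (Nat.zero_le _), sub_zero, div_mul_cancel₀ b' (pow_ne_zero 2 hβ)]
  rfl

theorem V_cont {E : Type} [TopologicalSpace E] {τ y : E → ℝ} {S : Set E}
    (hb : ContinuousOn (fun t => p.b (τ t) (y t)) S)
    (hH : ∀ k, p.j0 < k → k ≤ p.N → ContinuousOn (fun t => p.H (τ t) (y t) k) S) :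
    ContinuousOn (fun t => p.V (τ t) (y t) m a) S :=
  GC_cont p.β a p.N (fun k => p.zz (max k p.j0)) (hb.div_const _) fun k hk => by
    rcases le_or_gt k p.j0 with h1 | h1
    · simp only [H_low p _ _ h1]
      exact continuousOn_const
    · exact hH k h1 hk


/-- `dz` does not depend on the member nor on the size -/
theorem dz_free (τ y τ' y' : ℝ) (k : ℕ) : p.dz τ y m a k = p.dz τ' y' m a k :=
  Cav22.dm_tilt (tilt_GC m p.β a p.N (fun k => p.zz (max k p.j0)) _ _ _ _) 0 _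

/-- `E R² = E (R - g)² + 2 g E R - g²` -/
theorem E2_sq (τ y g : ℝ) (k : ℕ) : p.E2 τ y m a (fun r => r ^ 2) k =
    p.E2 τ y m a (fun r => (r - g) ^ 2) k + 2 * g * p.rb τ y m a k - g ^ 2 := by
  simp only [Pm.E2, Pm.rb, id]
  rw [← pi2_const_mul, ← pi2_add Link33.wt1, ← pi2_const Link33.wt1 (p.L τ y m a) (k + 1) (g ^ 2) 0,
    ← pi2_sub Link33.wt1]
  congr 1
  funext x x'
  ring

/-- **the derivative around a reference `g`** -/
theorem der_ref (τ y b' : ℝ) (H' g : ℕ → ℝ) :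
    b' / 4 * (1 - ∑ k ∈ Finset.range (p.N + 1), p.dz τ y m a k * p.E2 τ y m a (fun r => r ^ 2) k) +
      (H' p.N - ∑ k ∈ Finset.range (p.N + 1), p.dz τ y m a k * (H' k * p.rb τ y m a k)) / 2 =
    (b' / 4 * (1 - ∑ k ∈ Finset.range (p.N + 1), p.dz τ y m a k * g k ^ 2) +
      (H' p.N - ∑ k ∈ Finset.range (p.N + 1), p.dz τ y m a k * (H' k * g k)) / 2) -
    b' / 4 * ∑ k ∈ Finset.range (p.N + 1), p.dz τ y m a k * p.E2 τ y m a (fun r => (r - g k) ^ 2) k -
    (∑ k ∈ Finset.range (p.N + 1),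
      p.dz τ y m a k * ((b' * g k + H' k) * (p.rb τ y m a k - g k))) / 2 := by
  have e : ∑ k ∈ Finset.range (p.N + 1), (b' / 4 * (p.dz τ y m a k *
      p.E2 τ y m a (fun r => r ^ 2) k) + p.dz τ y m a k * (H' k * p.rb τ y m a k) / 2) =
      ∑ k ∈ Finset.range (p.N + 1), (b' / 4 * (p.dz τ y m a k * g k ^ 2) +
        p.dz τ y m a k * (H' k * g k) / 2 +
        b' / 4 * (p.dz τ y m a k * p.E2 τ y m a (fun r => (r - g k) ^ 2) k) +
        p.dz τ y m a k * ((b' * g k + H' k) * (p.rb τ y m a k - g k)) / 2) :=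
    Finset.sum_congr rfl fun k _ => by
      rw [E2_sq p τ y (g k) k]
      ring
  simp only [Finset.sum_add_distrib, ← Finset.mul_sum, ← Finset.sum_div] at e
  linarith


/-- the derivative of `V` in the direction `(b', H')` -/
def DV (τ y : ℝ) (m : ℕ) (a b' : ℝ) (H' : ℕ → ℝ) : ℝ :=
  m * (b' / 4 * (1 - ∑ k ∈ Finset.range (p.N + 1),
      p.dz τ y m a k * p.E2 τ y m a (fun r => r ^ 2) k) +
    (H' p.N - ∑ k ∈ Finset.range (p.N + 1), p.dz τ y m a k * (H' k * p.rb τ y m a k)) / 2)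

/-- **mean value form for the difference of two root tilts** -/
theorem V_mvt (hβ : p.β ≠ 0) (hm : 0 < m) {τ y b' : ℝ → ℝ} {H' : ℝ → ℕ → ℝ} {t0 t1 : ℝ}
    (h01 : t0 < t1) (a a' : ℝ) (cb : ContinuousOn (fun t => p.b (τ t) (y t)) (Icc t0 t1))
    (cH : ∀ k, p.j0 < k → k ≤ p.N → ContinuousOn (fun t => p.H (τ t) (y t) k) (Icc t0 t1))
    (hb : ∀ t ∈ Ioo t0 t1, HasDerivAt (fun t => p.b (τ t) (y t)) (b' t) t)
    (hH : ∀ t ∈ Ioo t0 t1, ∀ k, p.j0 < k → k ≤ p.N →
      HasDerivAt (fun t => p.H (τ t) (y t) k) (H' t k) t)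
    (hH0 : ∀ t, ∀ k ≤ p.j0, H' t k = 0) (h0 : ∀ t ∈ Ioo t0 t1, 0 < p.b (τ t) (y t))
    (h : ∀ t ∈ Ioo t0 t1, ∀ k, p.j0 ≤ k → k < p.N → p.H (τ t) (y t) k < p.H (τ t) (y t) (k + 1)) :
    ∃ t ∈ Ioo t0 t1, p.V (τ t1) (y t1) m a' - p.V (τ t1) (y t1) m a -
      (p.V (τ t0) (y t0) m a' - p.V (τ t0) (y t0) m a) =
      (t1 - t0) * (DV p (τ t) (y t) m a' (b' t) (H' t) - DV p (τ t) (y t) m a (b' t) (H' t)) := by
  have hd : ∀ a, ∀ t ∈ Ioo t0 t1, HasDerivAt (fun t => p.V (τ t) (y t) m a)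
      (DV p (τ t) (y t) m a (b' t) (H' t)) t := fun a t ht =>
    hasDerivWithinAt_univ.1 (V_der p hβ hm (hb t ht).hasDerivWithinAt
      (fun k h1 h2 => (hH t ht k h1 h2).hasDerivWithinAt) (hH0 t) (h0 t ht) (h t ht))
  obtain ⟨t, ht, e⟩ := exists_hasDerivAt_eq_slope
    (fun t => p.V (τ t) (y t) m a' - p.V (τ t) (y t) m a) _ h01
    ((V_cont p cb cH).sub (V_cont p cb cH)) fun t ht => (hd a' t ht).fun_sub (hd a t ht)
  refine ⟨t, ht, ?_⟩
  rw [e, mul_div_cancel₀ _ (sub_pos.2 h01).ne']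

/-- the part of `DV` that depends on the root tilt, around a reference `g` with `g 0 = 0` -/
theorem DV_sub (τ y a a' b' : ℝ) {H' g : ℕ → ℝ} (hH : H' 0 = 0) (hg : g 0 = 0) :
    DV p τ y m a' b' H' - DV p τ y m a b' H' = -(m * (b' / 4 * (∑ k ∈ Finset.range (p.N + 1),
        p.dz τ y m a' k * p.E2 τ y m a' (fun r => (r - g k) ^ 2) k -
      ∑ k ∈ Finset.range (p.N + 1), p.dz τ y m a k * p.E2 τ y m a (fun r => (r - g k) ^ 2) k) +
      (∑ k ∈ Finset.range p.N, p.dz τ y m a (k + 1) * ((b' * g (k + 1) + H' (k + 1)) *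
        (p.rb τ y m a' (k + 1) - p.rb τ y m a (k + 1)))) / 2)) := by
  have hz : ∀ k, p.dz τ y m a' (k + 1) = p.dz τ y m a (k + 1) := fun k => rfl
  rw [DV, DV, der_ref p τ y b' H' g, der_ref p τ y b' H' g]
  have e : ∀ (F : ℕ → ℝ), F 0 = 0 → ∀ a, ∑ k ∈ Finset.range (p.N + 1), p.dz τ y m a k * F k =
      ∑ k ∈ Finset.range p.N, p.dz τ y m a (k + 1) * F (k + 1) := fun F hF a => by
    rw [Finset.sum_range_succ', hF, mul_zero, add_zero]
  rw [e (fun k => g k ^ 2) (by simp [hg]), e (fun k => g k ^ 2) (by simp [hg]),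
    e (fun k => H' k * g k) (by simp [hg]), e (fun k => H' k * g k) (by simp [hg]),
    e (fun k => (b' * g k + H' k) * (p.rb τ y m a' k - g k)) (by simp [hg, hH]),
    e (fun k => (b' * g k + H' k) * (p.rb τ y m a k - g k)) (by simp [hg, hH])]
  simp only [hz]
  have e2 : ∑ k ∈ Finset.range p.N, p.dz τ y m a (k + 1) * ((b' * g (k + 1) + H' (k + 1)) *
      (p.rb τ y m a' (k + 1) - p.rb τ y m a (k + 1))) =
      ∑ k ∈ Finset.range p.N, p.dz τ y m a (k + 1) * ((b' * g (k + 1) + H' (k + 1)) *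
        (p.rb τ y m a' (k + 1) - g (k + 1))) -
      ∑ k ∈ Finset.range p.N, p.dz τ y m a (k + 1) * ((b' * g (k + 1) + H' (k + 1)) *
        (p.rb τ y m a (k + 1) - g (k + 1))) := by
    rw [← Finset.sum_sub_distrib]
    exact Finset.sum_congr rfl fun _ _ => by ring
  rw [e2]
  ring

end cls

end Crest.Agent.T156.Alt.Dic77

end
end

-- ▼ part T156/MdDer_77

/-!
# Row 156, ALT route: exact derivative of `V` along any family of abstract models (helper77)

Only derivatives at the point are used; increments may vanish.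
-/

set_option autoImplicit false
set_option linter.unusedSectionVars false

noncomputable section

namespace Crest.Agent.T156.Alt.Md77

open MeasureTheory Real Set Filter Topology
open Crest.Agent.T157.E Crest.Agent.T157.Casc Crest.Agent.T157.SL
open Crest.Agent.T157.G1 (ov fl FL Jw)
open Crest.Agent.T156.Cas Crest.Agent.T156.Cas.Seg56

/-- variances of the W parts and of the field parts -/
abbrev Dt := (ℕ → ℝ) × (ℕ → ℝ)

section gen
variable (m : ℕ) (T : ℕ → ℝ) (K : ℕ)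

/-- `K` mixed levels -/
def MC (u : Dt) : List (Lv (Cube m)) := List.ofFn fun k : Fin K => mxL m 1 (T k, u.1 k, u.2 k)

/-- the cone of legal variances -/
def Cone (u : Dt) : Prop := ∀ k < K, 0 ≤ u.1 k ∧ 0 ≤ u.2 k

theorem MC_length (u : Dt) : (MC m T K u).length = K := by simp [MC]

theorem tilt_MC (u u' : Dt) : (MC m T K u).map Lv.m = (MC m T K u').map Lv.m := by
  simp only [MC, List.map_ofFn]
  rfl

/-- a mixed level along a curve -/
def mT (z : ℝ) (d f : ℝ → ℝ) : TL (Cube m) :=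
  ⟨(mxL m 1 (z, 0, 0)).ι, fun t => (mxL m 1 (z, d t, f t)).A, fun _ _ _ => 0, z⟩

theorem mT_okC (z : ℝ) {d f : ℝ → ℝ} {I : Set ℝ} (hI : IsCompact I) (hd : ContinuousOn d I)
    (hf : ContinuousOn f I) : (mT m z d f).OkC I :=
  TL.okC_of_compact hI fun x i => by
    rcases i with i | i
    · exact hd.sqrt.mul continuousOn_const
    · exact (continuousOn_const.mul hf.sqrt).mul continuousOn_const

theorem atL_MC (γ : ℝ → Dt) (t : ℝ) : atL (List.ofFn fun k : Fin K =>
    mT m (T k) (fun t => (γ t).1 k) fun t => (γ t).2 k) t = MC m T K (γ t) := by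
  simp only [atL, MC, List.map_ofFn]
  rfl

theorem okC_MC {γ : ℝ → Dt} {I : Set ℝ} (hI : IsCompact I) (hγ : ContinuousOn γ I) :
    ∀ l ∈ List.ofFn fun k : Fin K => mT m (T k) (fun t => (γ t).1 k) fun t => (γ t).2 k,
      l.OkC I := fun l hl => by
  obtain ⟨k, rfl⟩ := List.mem_ofFn.1 hl
  exact mT_okC m _ hI ((continuous_apply _).comp_continuousOn hγ.fst)
    ((continuous_apply _).comp_continuousOn hγ.snd)

theorem cont_X : Continuous fun u : Dt => X (fun _ => 1) (MC m T K u) 0 := by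
  refine Dic77.cont_of_curves _ fun γ I hI hγ => ?_
  have := continuousOn_X Link33.wt1 (okC_MC m T K hI hγ) (b := fun _ => 0)
    fun _ => continuousOn_const
  simpa only [atL_MC] using this

theorem cont_pi2 (j : ℕ) (Q : Cube m → Cube m → ℝ) :
    Continuous fun u : Dt => pi2 (fun _ => 1) (MC m T K u) j Q 0 := by
  refine Dic77.cont_of_curves _ fun γ I hI hγ => ?_
  have := (Var6.eg_pi2P Link33.wt1 Q _ (okC_MC m T K hI hγ) j).cont.comp
    (f := fun ρ : ℝ => ((ρ, 0) : Pt (Cube m))) (s := I) (by fun_prop) fun _ ht => ⟨ht, trivial⟩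
  simpa only [Function.comp_def, atL_MC] using this

/-- the derivative at `u` in the direction `u'` -/
def GD (u u' : Dt) : ℝ :=
  m * ((∑ k ∈ Finset.range K, u'.1 k) / 4 + (∑ k ∈ Finset.range K, u'.2 k) / 2 -
    ∑ j ∈ Finset.range (K + 1), dm (MC m T K u) 0 j *
      ((∑ k ∈ Finset.range j, u'.1 k) / 4 * pi2 (fun _ => 1) (MC m T K u) j (fun x y => ov x y ^ 2) 0 +
        (∑ k ∈ Finset.range j, u'.2 k) / 2 * pi2 (fun _ => 1) (MC m T K u) j ov 0))

theorem cont_GD : Continuous fun z : Dt × Dt => GD m T K z.1 z.2 := by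
  have e : ∀ (u : Dt) j, dm (MC m T K u) 0 j = dm (MC m T K 0) 0 j :=
    fun u j => Cav22.dm_tilt (tilt_MC m T K _ _) 0 j
  have h1 := fun j Q => (cont_pi2 m T K j Q).comp (continuous_fst (X := Dt) (Y := Dt))
  simp only [GD, e]
  simp only [Function.comp_def] at h1
  fun_prop

theorem GD_smul (u : Dt) (c : ℝ) (u' : Dt) : GD m T K u (c • u') = c * GD m T K u u' := by
  simp only [GD, Prod.smul_fst, Prod.smul_snd, Pi.smul_apply, smul_eq_mul, ← Finset.mul_sum]
  rw [Finset.sum_congr rfl fun j _ => (show dm (MC m T K u) 0 j *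
      (c * (∑ k ∈ Finset.range j, u'.1 k) / 4 * pi2 (fun _ => 1) (MC m T K u) j (fun x y => ov x y ^ 2) 0 +
        c * (∑ k ∈ Finset.range j, u'.2 k) / 2 * pi2 (fun _ => 1) (MC m T K u) j ov 0) =
      c * (dm (MC m T K u) 0 j *
      ((∑ k ∈ Finset.range j, u'.1 k) / 4 * pi2 (fun _ => 1) (MC m T K u) j (fun x y => ov x y ^ 2) 0 +
        (∑ k ∈ Finset.range j, u'.2 k) / 2 * pi2 (fun _ => 1) (MC m T K u) j ov 0)) by ring),
    ← Finset.mul_sum]
  ring

variable {m K}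

theorem Cone.seg {u u' : Dt} (h : Cone K u) (h' : Cone K u') {t : ℝ} (ht : t ∈ Icc (0 : ℝ) 1) :
    Cone K (u + t • (u' - u)) := fun k hk => by
  simp only [Prod.fst_add, Prod.snd_add, Prod.smul_fst, Prod.smul_snd, Prod.fst_sub, Prod.snd_sub,
    Pi.add_apply, Pi.smul_apply, Pi.sub_apply, smul_eq_mul]
  constructor <;> nlinarith [(h k hk).1, (h k hk).2, (h' k hk).1, (h' k hk).2, ht.1, ht.2]

theorem seg_MC (hm : 0 < m) {u u' : Dt} (h : Cone K u) (h' : Cone K u') :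
    Seg (fun t => MC m T K (u + t • (u' - u))) K fun j x y => ∑ k ∈ Finset.range j,
      ((u' - u).1 k * (m / 2 * ov x y ^ 2) + (u' - u).2 k * m * ov x y) := by
  refine Seg.of_cov (fun t _ => MC_length _ _ _ _) fun t ht k h1 h0 => ?_
  have hk : k < K := by simpa [MC_length] using h1
  simp only [MC, List.getElem_ofFn]
  refine ⟨rfl, fun x y => ?_⟩
  rw [mxL_cov hm 1 (h.seg h' ht k hk).1 (h.seg h' ht k hk).2,
    mxL_cov hm 1 (h.seg h' ⟨le_rfl, zero_le_one⟩ k hk).1 (h.seg h' ⟨le_rfl, zero_le_one⟩ k hk).2]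
  simp only [Prod.fst_add, Prod.snd_add, Prod.smul_fst, Prod.smul_snd, Pi.add_apply, Pi.smul_apply,
    smul_eq_mul]
  ring

theorem seg_der (hm : 0 < m) {u u' : Dt} (h : Cone K u) (h' : Cone K u') {t : ℝ}
    (ht : t ∈ Ioo (0 : ℝ) 1) :
    HasDerivAt (fun t : ℝ => X (fun _ => 1) (MC m T K (u + t • (u' - u))) 0)
      (GD m T K (u + t • (u' - u)) (u' - u)) t := by
  refine ((seg_MC T hm h h').der Link33.wt1 (c := ∑ k ∈ Finset.range K,
    ((u' - u).1 k * (m / 2) + (u' - u).2 k * m)) (fun x => by simp [ov_self hm]) 0 ht).congr_deriv ?_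
  have e : ∀ j, pi2 (fun _ => 1) (MC m T K (u + t • (u' - u))) j (fun x y => ∑ k ∈ Finset.range j,
      ((u' - u).1 k * (m / 2 * ov x y ^ 2) + (u' - u).2 k * m * ov x y)) 0 =
      2 * m * ((∑ k ∈ Finset.range j, (u' - u).1 k) / 4 *
        pi2 (fun _ => 1) (MC m T K (u + t • (u' - u))) j (fun x y => ov x y ^ 2) 0 +
        (∑ k ∈ Finset.range j, (u' - u).2 k) / 2 *
        pi2 (fun _ => 1) (MC m T K (u + t • (u' - u))) j ov 0) := fun j => by
    rw [← pi2_const_mul, ← pi2_const_mul (K := ov), ← pi2_add Link33.wt1, ← pi2_const_mul]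
    congr 1
    funext x y
    rw [Finset.sum_add_distrib, ← Finset.sum_mul, ← Finset.sum_mul, ← Finset.sum_mul]
    ring
  simp only [e, mul_left_comm _ (2 * (m : ℝ)), ← Finset.mul_sum]
  rw [GD, Finset.sum_add_distrib, ← Finset.sum_mul, ← Finset.sum_mul]
  ring

/-- mean value form between two legal points -/
theorem MC_mvt (hm : 0 < m) {u u' : Dt} (h : Cone K u) (h' : Cone K u') :
    ∃ θ ∈ Ioo (0 : ℝ) 1, X (fun _ => 1) (MC m T K u') 0 - X (fun _ => 1) (MC m T K u) 0 =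
      GD m T K (u + θ • (u' - u)) (u' - u) := by
  obtain ⟨θ, hθ, e⟩ := exists_hasDerivAt_eq_slope
    (fun t : ℝ => X (fun _ => 1) (MC m T K (u + t • (u' - u))) 0) _ zero_lt_one
    ((seg_MC T hm h h').cont Link33.wt1 0) fun t ht => seg_der T hm h h' ht
  refine ⟨θ, hθ, ?_⟩
  rw [e]
  simp

/-- **derivative along a curve of legal points** -/
theorem MC_der (hm : 0 < m) {u : ℝ → Dt} {u' : Dt} {S : Set ℝ} {t : ℝ}
    (hd : ∀ k, HasDerivWithinAt (fun t => (u t).1 k) (u'.1 k) S t)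
    (hG : ∀ k, HasDerivWithinAt (fun t => (u t).2 k) (u'.2 k) S t) (h0 : Cone K (u t))
    (h : ∀ᶠ t' in 𝓝[S] t, Cone K (u t')) :
    HasDerivWithinAt (fun t => X (fun _ => 1) (MC m T K (u t)) 0) (GD m T K (u t) u') S t := by
  have hc : Tendsto u (𝓝[S \ {t}] t) (𝓝 (u t)) :=
    ((continuousWithinAt_pi.2 fun k => (hd k).continuousWithinAt).prodMk
      (continuousWithinAt_pi.2 fun k => (hG k).continuousWithinAt)).tendsto.mono_left
        (nhdsWithin_mono _ sdiff_subset)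
  have hs : Tendsto (fun t' => (t' - t)⁻¹ • (u t' - u t)) (𝓝[S \ {t}] t) (𝓝 u') := by
    refine (Prod.tendsto_iff _ _).2 ⟨tendsto_pi_nhds.2 fun k => ?_, tendsto_pi_nhds.2 fun k => ?_⟩
    · simpa [slope_fun_def] using hasDerivWithinAt_iff_tendsto_slope.1 (hd k)
    · simpa [slope_fun_def] using hasDerivWithinAt_iff_tendsto_slope.1 (hG k)
  have key : ∀ t', ∃ θ ∈ Icc (0 : ℝ) 1, Cone K (u t') →
      X (fun _ => 1) (MC m T K (u t')) 0 - X (fun _ => 1) (MC m T K (u t)) 0 =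
        GD m T K (u t + θ • (u t' - u t)) (u t' - u t) := fun t' => by
    by_cases H : Cone K (u t')
    · obtain ⟨θ, hθ, e⟩ := MC_mvt T hm h0 H
      exact ⟨θ, Ioo_subset_Icc_self hθ, fun _ => e⟩
    · exact ⟨0, ⟨le_rfl, zero_le_one⟩, fun H' => absurd H' H⟩
  choose θ hθ e using key
  have hz : Tendsto (fun t' => u t' - u t) (𝓝[S \ {t}] t) (𝓝 0) := by
    simpa using hc.sub_const (u t)
  have hb : ∀ f : ℝ → ℝ, Tendsto f (𝓝[S \ {t}] t) (𝓝 0) →
      Tendsto (fun t' => θ t' * f t') (𝓝[S \ {t}] t) (𝓝 0) := fun f hf =>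
    squeeze_zero_norm (a := fun t' => ‖f t'‖) (fun t' => by
      rw [norm_mul]
      exact mul_le_of_le_one_left (norm_nonneg _) (by
        rw [Real.norm_of_nonneg (hθ t').1]; exact (hθ t').2)) (by simpa using hf.norm)
  have hm' : Tendsto (fun t' => u t + θ t' • (u t' - u t)) (𝓝[S \ {t}] t) (𝓝 (u t)) := by
    have : Tendsto (fun t' => θ t' • (u t' - u t)) (𝓝[S \ {t}] t) (𝓝 0) :=
      (Prod.tendsto_iff _ _).2
        ⟨tendsto_pi_nhds.2 fun k => hb _ ((((continuous_apply k).comp continuous_fst).tendsto _).comp hz),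
        tendsto_pi_nhds.2 fun k => hb _ ((((continuous_apply k).comp continuous_snd).tendsto _).comp hz)⟩
    simpa using this.const_add (u t)
  rw [hasDerivWithinAt_iff_tendsto_slope]
  refine (((cont_GD m T K).tendsto (u t, u')).comp (hm'.prodMk_nhds hs)).congr' ?_
  filter_upwards [nhdsWithin_mono _ sdiff_subset h] with t' ht'
  simp only [Function.comp, GD_smul, slope_def_field, ← e t' ht', div_eq_inv_mul]

end gen

/-! ### abstract models -/

/-- value at the root, increments above -/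
def inc (g0 : ℝ) (g : ℕ → ℝ) (N : ℕ) : ℕ → ℝ
  | 0 => g0
  | k + 1 => g (min (k + 1) N) - g (min k N)

theorem sum_inc (g0 : ℝ) (g : ℕ → ℝ) {N j : ℕ} (hj : j ≤ N) :
    ∑ k ∈ Finset.range (j + 1), inc g0 g N k = g0 + g j - g 0 := by
  induction j with
  | zero => simp [inc]
  | succ j ih =>
    rw [Finset.sum_range_succ, ih (by omega), inc, min_eq_left hj, min_eq_left (by omega)]
    ring

/-- tilts of the cascade -/
def tz (a : ℝ) (z : ℕ → ℝ) : ℕ → ℝ
  | 0 => a
  | k + 1 => z k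

/-- the variances of a model -/
def dat (M : Md) : Dt := (inc (M.d 0) M.d M.N, inc 0 M.H M.N)

theorem L_eq (M : Md) (m : ℕ) (a : ℝ) : M.L m a = MC m (tz a M.z) (M.N + 1) (dat M) := by
  rw [MC, List.ofFn_succ, Md.L, Md.Mx, List.map_cons, Md.Mu, List.map_ofFn]
  congr 2
  funext k
  simp only [Function.comp, Fin.val_succ, tz, dat, inc, min_eq_left k.2.le,
    min_eq_left (Nat.succ_le_of_lt k.2)]

/-- the increments are nonnegative -/
def Inc (M : Md) : Prop :=
  0 ≤ M.d 0 ∧ ∀ k < M.N, M.d k ≤ M.d (k + 1) ∧ M.H k ≤ M.H (k + 1)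

theorem inc_of_leg {M : Md} {x : ℝ} (h : M.Leg x) : Inc M :=
  ⟨h.d0, fun k _ => ⟨h.dm k.le_succ, h.Hm k.le_succ⟩⟩

theorem Inc.cone {M : Md} (h : Inc M) : Cone (M.N + 1) (dat M) := fun k hk => by
  cases k with
  | zero => exact ⟨h.1, le_rfl⟩
  | succ k =>
    have hk' : k < M.N := by omega
    simp only [dat, inc, min_eq_left hk'.le, min_eq_left (Nat.succ_le_of_lt hk'), sub_nonneg]
    exact h.2 k hk'

/-- the derivative of `V` in the direction `(d', H')` -/
def DV (M : Md) (m : ℕ) (a : ℝ) (d' H' : ℕ → ℝ) : ℝ :=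
  m * (d' M.N / 4 + H' M.N / 2 - ∑ k ∈ Finset.range (M.N + 1),
    M.dz m a k * (d' k / 4 * M.E2 m a (fun r => r ^ 2) k + H' k / 2 * M.rb m a k))

theorem GD_eq (M : Md) (m : ℕ) (a : ℝ) {d' H' : ℕ → ℝ} (h0 : H' 0 = 0) :
    GD m (tz a M.z) (M.N + 1) (dat M) (inc (d' 0) d' M.N, inc 0 H' M.N) = DV M m a d' H' := by
  rw [GD, DV, Finset.sum_range_succ' _ (M.N + 1), ← L_eq]
  simp only [sum_inc _ _ le_rfl, h0, Finset.range_zero, Finset.sum_empty, zero_div, zero_mul,
    add_zero, mul_zero, zero_add, sub_zero, add_sub_cancel_left]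
  congr 2
  refine Finset.sum_congr rfl fun k hk => ?_
  rw [sum_inc _ _ (Nat.lt_succ_iff.1 (Finset.mem_range.1 hk)),
    sum_inc _ _ (Nat.lt_succ_iff.1 (Finset.mem_range.1 hk)), h0, add_sub_cancel_left, zero_add,
    sub_zero]
  rfl

section fam
variable {N : ℕ} {z : ℕ → ℝ} {m : ℕ} {a : ℝ}

theorem L_fam {E : Type} {M : E → Md} (hN : ∀ t, (M t).N = N) (hz : ∀ t, (M t).z = z) (t : E) :
    (M t).L m a = MC m (tz a z) (N + 1) (inc ((M t).d 0) (M t).d N, inc 0 (M t).H N) := by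
  rw [L_eq, dat, hN, hz]

theorem inc_der {g : ℝ → ℕ → ℝ} {g0 : ℝ → ℝ} {g' : ℕ → ℝ} {g0' : ℝ} {S : Set ℝ} {t : ℝ}
    (h0 : HasDerivWithinAt g0 g0' S t) (h : ∀ k ≤ N, HasDerivWithinAt (fun t => g t k) (g' k) S t)
    (k : ℕ) : HasDerivWithinAt (fun t => inc (g0 t) (g t) N k) (inc g0' g' N k) S t := by
  cases k with
  | zero => exact h0
  | succ k => exact (h _ (min_le_right _ _)).fun_sub (h _ (min_le_right _ _))

theorem inc_cont {E : Type} [TopologicalSpace E] {g : E → ℕ → ℝ} {g0 : E → ℝ} {S : Set E}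
    (h0 : ContinuousOn g0 S) (h : ∀ k ≤ N, ContinuousOn (fun t => g t k) S) :
    ContinuousOn (fun t => inc (g0 t) (g t) N) S := continuousOn_pi.2 fun k => by
  cases k with
  | zero => exact h0
  | succ k => exact (h _ (min_le_right _ _)).sub (h _ (min_le_right _ _))

/-- **exact derivative of `V` along a family with fixed tilts** -/
theorem V_der (hm : 0 < m) {M : ℝ → Md} (hN : ∀ t, (M t).N = N) (hz : ∀ t, (M t).z = z)
    {S : Set ℝ} {t : ℝ} {d' H' : ℕ → ℝ}
    (hd : ∀ k ≤ N, HasDerivWithinAt (fun t => (M t).d k) (d' k) S t)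
    (hH : ∀ k ≤ N, HasDerivWithinAt (fun t => (M t).H k) (H' k) S t) (h0 : H' 0 = 0)
    (hi : Inc (M t)) (hI : ∀ᶠ t' in 𝓝[S] t, Inc (M t')) :
    HasDerivWithinAt (fun t => (M t).V m a) (DV (M t) m a d' H') S t := by
  have := MC_der (tz a z) (K := N + 1) hm
    (u := fun t => (inc ((M t).d 0) (M t).d N, inc 0 (M t).H N))
    (u' := (inc (d' 0) d' N, inc 0 H' N)) (inc_der (hd 0 N.zero_le) hd)
    (inc_der (hasDerivWithinAt_const _ _ _) hH) (by simpa only [dat, hN] using hi.cone)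
    (hI.mono fun t' h => by simpa only [dat, hN] using h.cone)
  simp only [← L_fam hN hz] at this
  refine this.congr_deriv ?_
  rw [← GD_eq _ _ _ h0, dat, hN, hz]

theorem V_cont {E : Type} [TopologicalSpace E] {M : E → Md} (hN : ∀ t, (M t).N = N)
    (hz : ∀ t, (M t).z = z) {S : Set E} (hd : ∀ k ≤ N, ContinuousOn (fun t => (M t).d k) S)
    (hH : ∀ k ≤ N, ContinuousOn (fun t => (M t).H k) S) :
    ContinuousOn (fun t => (M t).V m a) S := by
  simpa only [Function.comp_def, ← L_fam hN hz, Md.V] using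
    (cont_X m (tz a z) (N + 1)).comp_continuousOn
      ((inc_cont (hd 0 N.zero_le) hd).prodMk (inc_cont (g0 := fun _ => 0) continuousOn_const hH))



/-- `dz` depends only on the tilts -/
theorem dz_free {M M' : Md} (hN : M.N = M'.N) (hz : M.z = M'.z) (k : ℕ) :
    M.dz m a k = M'.dz m a k := by
  rw [Md.dz, Md.dz, L_eq, L_eq, hN, hz]
  exact Cav22.dm_tilt (tilt_MC _ _ _ _ _) 0 _

theorem dz_root (M : Md) (a a' : ℝ) (k : ℕ) : M.dz m a' (k + 1) = M.dz m a (k + 1) := rfl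

/-- **mean value form for the difference of two root tilts** -/
theorem V_mvt (hm : 0 < m) {M : ℝ → Md} (hN : ∀ t, (M t).N = N) (hz : ∀ t, (M t).z = z)
    {d' H' : ℝ → ℕ → ℝ} {t0 t1 : ℝ} (h01 : t0 < t1) (a a' : ℝ)
    (cd : ∀ k ≤ N, ContinuousOn (fun t => (M t).d k) (Icc t0 t1))
    (cH : ∀ k ≤ N, ContinuousOn (fun t => (M t).H k) (Icc t0 t1))
    (hd : ∀ t ∈ Ioo t0 t1, ∀ k ≤ N, HasDerivAt (fun t => (M t).d k) (d' t k) t)
    (hH : ∀ t ∈ Ioo t0 t1, ∀ k ≤ N, HasDerivAt (fun t => (M t).H k) (H' t k) t)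
    (h0 : ∀ t, H' t 0 = 0) (hI : ∀ t ∈ Ioo t0 t1, Inc (M t)) :
    ∃ t ∈ Ioo t0 t1, (M t1).V m a' - (M t1).V m a - ((M t0).V m a' - (M t0).V m a) =
      (t1 - t0) * (DV (M t) m a' (d' t) (H' t) - DV (M t) m a (d' t) (H' t)) := by
  have hD : ∀ a, ∀ t ∈ Ioo t0 t1, HasDerivAt (fun t => (M t).V m a)
      (DV (M t) m a (d' t) (H' t)) t := fun a t ht =>
    hasDerivWithinAt_univ.1 (V_der hm hN hz (fun k hk => (hd t ht k hk).hasDerivWithinAt)
      (fun k hk => (hH t ht k hk).hasDerivWithinAt) (h0 t) (hI t ht)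
      (nhdsWithin_le_nhds (Ioo_mem_nhds ht.1 ht.2) |> fun h => eventually_of_mem h hI))
  obtain ⟨t, ht, e⟩ := exists_hasDerivAt_eq_slope (fun t => (M t).V m a' - (M t).V m a) _ h01
    ((V_cont hN hz cd cH).sub (V_cont hN hz cd cH)) fun t ht => (hD a' t ht).fun_sub (hD a t ht)
  refine ⟨t, ht, ?_⟩
  rw [e, mul_div_cancel₀ _ (sub_pos.2 h01).ne']

end fam

section ref
variable (M : Md) {m : ℕ}

/-- `E R² = E (R - g)² + 2 g E R - g²` -/
theorem E2_sq (a g : ℝ) (k : ℕ) : M.E2 m a (fun r => r ^ 2) k =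
    M.E2 m a (fun r => (r - g) ^ 2) k + 2 * g * M.rb m a k - g ^ 2 := by
  simp only [Md.E2, Md.rb, id]
  rw [← pi2_const_mul, ← pi2_add Link33.wt1, ← pi2_const Link33.wt1 (M.L m a) (k + 1) (g ^ 2) 0,
    ← pi2_sub Link33.wt1]
  congr 1
  funext x x'
  ring

/-- `DV` around any reference `g` -/
theorem DV_ref (a : ℝ) (d' H' g : ℕ → ℝ) : DV M m a d' H' =
    m * (d' M.N / 4 + H' M.N / 2 - ∑ k ∈ Finset.range (M.N + 1), M.dz m a k *
      (d' k / 4 * M.E2 m a (fun r => (r - g k) ^ 2) k + (d' k * g k + H' k) / 2 * (M.rb m a k - g k) +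
        (d' k / 4 * g k ^ 2 + H' k / 2 * g k))) := by
  rw [DV]
  congr 2
  exact Finset.sum_congr rfl fun k _ => by
    rw [E2_sq M a (g k) k]
    ring

/-- **the part of `DV` that depends on the root tilt** (`g` any reference; the root term is
`dz 0 d' 0 E R² / 4`) -/
theorem DV_sub (a a' : ℝ) {d' H' : ℕ → ℝ} (g : ℕ → ℝ) (hH : H' 0 = 0) :
    DV M m a' d' H' - DV M m a d' H' = -(m * (d' 0 / 4 *
      (M.dz m a' 0 * M.E2 m a' (fun r => r ^ 2) 0 - M.dz m a 0 * M.E2 m a (fun r => r ^ 2) 0) +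
      ∑ k ∈ Finset.range M.N, M.dz m a (k + 1) * (d' (k + 1) / 4 *
        (M.E2 m a' (fun r => (r - g (k + 1)) ^ 2) (k + 1) -
          M.E2 m a (fun r => (r - g (k + 1)) ^ 2) (k + 1)) +
        (d' (k + 1) * g (k + 1) + H' (k + 1)) / 2 * (M.rb m a' (k + 1) - M.rb m a (k + 1))))) := by
  rw [DV, DV, Finset.sum_range_succ', Finset.sum_range_succ', hH]
  have e : ∑ k ∈ Finset.range M.N, M.dz m a (k + 1) * (d' (k + 1) / 4 *
        (M.E2 m a' (fun r => (r - g (k + 1)) ^ 2) (k + 1) -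
          M.E2 m a (fun r => (r - g (k + 1)) ^ 2) (k + 1)) +
        (d' (k + 1) * g (k + 1) + H' (k + 1)) / 2 * (M.rb m a' (k + 1) - M.rb m a (k + 1))) =
      ∑ k ∈ Finset.range M.N, M.dz m a' (k + 1) * (d' (k + 1) / 4 *
        M.E2 m a' (fun r => r ^ 2) (k + 1) + H' (k + 1) / 2 * M.rb m a' (k + 1)) -
      ∑ k ∈ Finset.range M.N, M.dz m a (k + 1) * (d' (k + 1) / 4 *
        M.E2 m a (fun r => r ^ 2) (k + 1) + H' (k + 1) / 2 * M.rb m a (k + 1)) := by
    rw [← Finset.sum_sub_distrib]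
    refine Finset.sum_congr rfl fun k _ => ?_
    rw [E2_sq M a (g (k + 1)), E2_sq M a' (g (k + 1)), dz_root M a a']
    ring
  rw [e]
  ring


end ref

end Crest.Agent.T156.Alt.Md77

end
private theorem rz_496febfd63 : type_of% @_root_.Crest.Agent.T156.Alt.Md77.inc.eq_1 := @_root_.Crest.Agent.T156.Alt.Md77.inc.eq_1 -- L202
private theorem rz_7a6cdafd73 : type_of% @_root_.Crest.Agent.T156.Alt.Md77.tz.eq_1 := @_root_.Crest.Agent.T156.Alt.Md77.tz.eq_1 -- L215
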