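import Crest.Agent.T156.Top_31
import Crest.Agent.T156.PlatS_10
import Crest.Agent.T156.PCmp_3
import Crest.Agent.T156.AltFam_88

-- ▼ part T156/Spr_41
section

/-!
Row 156, stage C (helper41): spreading the top atom over a time `g` is a perturbation of size `g`.
-/

set_option autoImplicit false

namespace Crest.Agent.T156.Pr.Spr41

open MeasureTheory Set
open Crest.Agent.R164.GC Crest.Agent.R339.B Crest.Agent.R339.Var Crest.Agent.T157.Pf
open Crest.Agent.T156.Pp Crest.Agent.T156.Ker Crest.Agent.T156.Pp.Ode3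

noncomputable section

variable {l l2 : List (ℝ × ℝ)} {T g : ℝ}

/-- `l2` has the tilts of `l` before `T`; both have tilt `1` from `T + g` on -/
structure Spr (T g : ℝ) (l l2 : List (ℝ × ℝ)) : Prop where
  t0 : 0 ≤ T
  g0 : 0 ≤ g
  tp : Tp (T + g) l
  tp2 : Tp (T + g) l2
  eq : ∀ s, 0 < s → s < T → lvr 1 l2 s = lvr 1 l s

theorem Spr.symm (h : Spr T g l l2) : Spr T g l2 l :=
  ⟨h.t0, h.g0, h.tp2, h.tp, fun s a b => (h.eq s a b).symm⟩

theorem Nf_le_len (h : Adm 1 l) (h2 : Adm 1 l2) {a b : ℝ} (hab : a ≤ b) : Nf l l2 a b ≤ b - a := by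
  have := intervalIntegral.integral_mono_on hab (et_ii l l2 a b)
    (intervalIntegrable_const (c := (1:ℝ))) fun s _ => Sc48.lvr_sub_le h h2 s
  simpa [Nf, et] using this

theorem Spr.Nf_le (h : Spr T g l l2) {a b : ℝ} (ha : 0 ≤ a) (_hab : a ≤ b) (hb : b ≤ T + g) :
    Nf l l2 a b ≤ g := by
  have e1 := Nf_add l l2 0 a b
  have e2 := Nf_add l l2 0 b (T + g)
  have e3 := Nf_add l l2 0 T (T + g)
  have e4 := Nf_zero h.t0 h.eq
  have e5 := Nf_le_len h.tp.adm h.tp2.adm (show T ≤ T + g by linarith [h.g0])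
  have := Nf_nonneg l l2 ha
  have := Nf_nonneg l l2 hb
  linarith

theorem Spr.Wf_le (h : Spr T g l l2) {t : ℝ} (ht : 0 ≤ t) (ht' : t ≤ T + g) :
    Wf l l2 t ≤ t * g := by
  have : Wf l l2 t ≤ t * Nf l l2 0 t := by
    rw [Nf, ← intervalIntegral.integral_const_mul]
    exact intervalIntegral.integral_mono_on ht (wet_ii l l2 0 t) ((et_ii l l2 0 t).const_mul t)
      fun s hs => mul_le_mul_of_nonneg_right hs.2 (abs_nonneg _)
  exact this.trans (mul_le_mul_of_nonneg_left (h.Nf_le le_rfl ht ht') ht)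

/-- the size of the perturbation -/
structure Near (C g : ℝ) (l l2 : List (ℝ × ℝ)) : Prop where
  dk : ∀ t, 0 ≤ t → ∀ j ≤ 6, ∀ x, |Dk j l2 t x - Dk j l t x| ≤ C * g
  chi : |Pr.chi l2 - Pr.chi l| ≤ C * g
  k4 : |Pr.k4 l2 - Pr.k4 l| ≤ C * g
  gam : ∀ t, 0 ≤ t → t ≤ TT l → t ≤ TT l2 → |Pr.Gam l2 t - Pr.Gam l t| ≤ C * min t 1 * g
  gg : ∀ t, 0 ≤ t → t ≤ TT l → t ≤ TT l2 → |Pr.GG l2 t - Pr.GG l t| ≤ C * g
  aa : ∀ t, 0 ≤ t → t ≤ TT l → t ≤ TT l2 → |Pr.AA l2 t - Pr.AA l t| ≤ C * g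
  nn : ∀ t, 0 ≤ t → t ≤ TT l → t ≤ TT l2 → |Pr.NN l2 t - Pr.NN l t| ≤ C * min t 1 * g
  n4 : ∀ t, 0 ≤ t → t ≤ TT l → t ≤ TT l2 → |Pr.N4 l2 t - Pr.N4 l t| ≤ C * g
  bb : ∀ t, 0 ≤ t → t ≤ TT l → t ≤ TT l2 → |Pr.BB l2 t - Pr.BB l t| ≤ C * min t 1 * g

/-- **the spread is a perturbation of size `g`**, uniformly in the length of the reveal -/
theorem near (T0 : ℝ) : ∃ C : ℝ, 1 ≤ C ∧ ∀ T g l l2, Spr T g l l2 → T + g ≤ T0 →
    Near C g l l2 := by
  obtain ⟨C1, h1, H1⟩ := Dn_lip' T0 6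
  obtain ⟨C2, h2, H2⟩ := fun_lip' T0
  refine ⟨C1 + C2 * (2 * (1 + |T0|)), by nlinarith [abs_nonneg T0], fun T g l l2 h hT => ?_⟩
  have g0 := h.g0
  have t1 : 0 ≤ T + g := h.tp.mem.1
  have a0 : T0 ≤ |T0| := le_abs_self _
  have c2 : 0 ≤ C2 * (2 * (1 + |T0|)) := by positivity
  have hd : ∀ t, 0 ≤ t → ∀ j ≤ 6, ∀ x,
      |Dk j l2 t x - Dk j l t x| ≤ (C1 + C2 * (2 * (1 + |T0|))) * g := fun t ht j hj x => by
    have := H1 _ l l2 h.tp h.tp2 hT t ht j hj x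
    have e := h.Nf_le (le_min ht t1) (min_le_right t _) le_rfl
    have := mul_le_mul_of_nonneg_left e (by linarith : 0 ≤ C1)
    unfold Dk
    nlinarith [mul_nonneg c2 g0]
  have key : ∀ t, 0 ≤ t → t ≤ TT l → t ≤ TT l2 → ∃ W N, 0 ≤ W ∧ 0 ≤ N ∧
      W = Wf l l2 (min t (T + g)) ∧ N = Nf l l2 (min t (T + g)) (T + g) ∧
      C2 * (W + t * N) ≤ (C1 + C2 * (2 * (1 + |T0|))) * min t 1 * g ∧
      C2 * (W + N) ≤ (C1 + C2 * (2 * (1 + |T0|))) * g := fun t ht _ _ => by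
    have m0 : 0 ≤ min t (T + g) := le_min ht t1
    have hW := h.Wf_le m0 (min_le_right _ _)
    have hN := h.Nf_le m0 (min_le_right _ _) le_rfl
    have W0 := Wf_nonneg l l2 m0
    have N0 := Nf_nonneg l l2 (min_le_right t (T + g))
    have hm : min t (T + g) ≤ (1 + |T0|) * min t 1 := by
      rcases le_total t 1 with a | a
      · rw [min_eq_left a]; nlinarith [min_le_left t (T + g), abs_nonneg T0]
      · rw [min_eq_right a]; nlinarith [min_le_right t (T + g)]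
    have hN' : t * Nf l l2 (min t (T + g)) (T + g) ≤ min t (T + g) * g := by
      rcases le_total t (T + g) with a | a
      · rw [min_eq_left a] at hN ⊢; exact mul_le_mul_of_nonneg_left hN ht
      · rw [min_eq_right a]; simp only [Nf, intervalIntegral.integral_same, mul_zero]; positivity
    have m1 : 0 ≤ min t 1 := le_min ht zero_le_one
    have m2 : min t 1 ≤ 1 := min_le_right _ _
    have e1 := mul_le_mul_of_nonneg_right hm g0
    have e2 : min t 1 * g ≤ g := mul_le_of_le_one_left g0 m2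
    have e3 : (1 + |T0|) * (min t 1 * g) ≤ (1 + |T0|) * g :=
      mul_le_mul_of_nonneg_left e2 (by positivity)
    have e4 : 0 ≤ C1 * (min t 1 * g) := by positivity
    refine ⟨_, _, W0, N0, rfl, rfl, ?_, ?_⟩
    · have := mul_le_mul_of_nonneg_left (show Wf l l2 (min t (T + g)) +
        t * Nf l l2 (min t (T + g)) (T + g) ≤ 2 * (1 + |T0|) * (min t 1 * g) by nlinarith)
        (by linarith : 0 ≤ C2)
      nlinarith
    · have := mul_le_mul_of_nonneg_left (show Wf l l2 (min t (T + g)) +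
        Nf l l2 (min t (T + g)) (T + g) ≤ 2 * (1 + |T0|) * g by nlinarith [abs_nonneg T0])
        (by linarith : 0 ≤ C2)
      nlinarith
  refine ⟨hd, hd 0 le_rfl 1 (by norm_num) 0, hd 0 le_rfl 3 (by norm_num) 0, ?_, ?_, ?_, ?_, ?_, ?_⟩ <;>
  · intro t a b c
    obtain ⟨W, N, -, -, eW, eN, k1, k2⟩ := key t a b c
    obtain ⟨i1, i2, i3, i4, i5, i6⟩ := H2 _ l l2 h.tp h.tp2 hT t a b c W N eW eN
    linarith

/-! ### marks and replicon coefficient at a fixed `b` -/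

/-- `σ - b Γ` -/
def mk (b : ℝ) (l : List (ℝ × ℝ)) (t : ℝ) : ℝ := t - b * Pr.Gam l t
/-- `1 - b G` -/
def ec (b : ℝ) (l : List (ℝ × ℝ)) (t : ℝ) : ℝ := 1 - b * Pr.GG l t


theorem Gam_inc (h : Ok l) {s t lo hi : ℝ} (hs : 0 ≤ s) (hst : s ≤ t) (ht : t ≤ TT l)
    (H : ∀ r ∈ Icc s t, lo ≤ Pr.GG l r ∧ Pr.GG l r ≤ hi) :
    lo * (t - s) ≤ Pr.Gam l t - Pr.Gam l s ∧ Pr.Gam l t - Pr.Gam l s ≤ hi * (t - s) := by
  rw [Gam_eq, Gam_int (AP.of_ok h) hs hst ht]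
  exact int_bds (Gp_cont (AP.of_ok h)) hs hst ht H

theorem mk_inc (h : Ok l) (b : ℝ) {s t lo hi : ℝ} (hs : 0 ≤ s) (hst : s ≤ t) (ht : t ≤ TT l)
    (H : ∀ r ∈ Icc s t, lo ≤ ec b l r ∧ ec b l r ≤ hi) :
    lo * (t - s) ≤ mk b l t - mk b l s ∧ mk b l t - mk b l s ≤ hi * (t - s) := by
  have hc : ContinuousOn (ec b l) (Icc 0 (TT l)) :=
    continuousOn_const.sub (continuousOn_const.mul (Gp_cont (AP.of_ok h)))
  have e : ∫ r in s..t, ec b l r = mk b l t - mk b l s := by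
    have hi := ii_of_cont (Gp_cont (AP.of_ok h)) ⟨hs, hst.trans ht⟩ ⟨hs.trans hst, ht⟩
    have := Gam_int (AP.of_ok h) hs hst ht
    simp only [ec, mk, GG_eq, Gam_eq]
    rw [intervalIntegral.integral_sub intervalIntegrable_const (hi.const_mul b),
      intervalIntegral.integral_const_mul, ← this]
    simp only [intervalIntegral.integral_const, smul_eq_mul]
    ring
  rw [← e]
  exact int_bds hc hs hst ht H


theorem ec_le_one (l : List (ℝ × ℝ)) {b : ℝ} (hb : 0 ≤ b) (t : ℝ) : ec b l t ≤ 1 := by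
  have := mul_nonneg hb (Gp_nonneg l t)
  simp only [ec, GG_eq]; linarith

theorem ec_top (h : Ok l) {b : ℝ} (hb : 0 ≤ b) {T1 t : ℝ} (tp : Tp T1 l) (h1 : T1 ≤ t)
    (ht : t ≤ TT l) : 1 - Real.exp (-((t - T1) / 2)) * (1 - ec b l T1) ≤ ec b l t := by
  have := mul_le_mul_of_nonneg_left (platS l h T1 t tp.mem.1 h1 ht tp.top).1 hb
  simp only [ec]; linarith

variable {C b : ℝ}

theorem Near.ec (h : Near C g l l2) (hb : 0 ≤ b) {t : ℝ} (h0 : 0 ≤ t) (h1 : t ≤ TT l)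
    (h2 : t ≤ TT l2) : |Spr41.ec b l2 t - Spr41.ec b l t| ≤ b * (C * g) := by
  rw [show Spr41.ec b l2 t - Spr41.ec b l t = -(b * (Pr.GG l2 t - Pr.GG l t)) by
    simp only [Spr41.ec]; ring, abs_neg, abs_mul, abs_of_nonneg hb]
  exact mul_le_mul_of_nonneg_left (h.gg t h0 h1 h2) hb

theorem Near.mk' (h : Near C g l l2) (hb : 0 ≤ b) {t : ℝ} (h0 : 0 ≤ t) (h1 : t ≤ TT l)
    (h2 : t ≤ TT l2) : |Spr41.mk b l2 t - Spr41.mk b l t| ≤ b * (C * min t 1 * g) := by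
  rw [show Spr41.mk b l2 t - Spr41.mk b l t = -(b * (Pr.Gam l2 t - Pr.Gam l t)) by
    simp only [Spr41.mk]; ring, abs_neg, abs_mul, abs_of_nonneg hb]
  exact mul_le_mul_of_nonneg_left (h.gam t h0 h1 h2) hb

/-- on the spread `[T, T + g]` everything is within `O(g)` of its value at `T` -/
theorem Near.plat (h : Near C g l l2) (S : Spr T g l l2) (ok : Ok l2) (hb : 0 ≤ b) {t : ℝ}
    (h0 : T ≤ t) (h1 : t ≤ T + g) :
    |Spr41.ec b l2 t - Spr41.ec b l T| ≤ b * ((C + 4) * g) ∧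
    |Pr.GG l2 t - Pr.GG l T| ≤ (C + 4) * g ∧
    |Pr.Gam l2 t - Pr.Gam l T| ≤ C * min T 1 * g + (t - T) ∧
    |Spr41.mk b l2 t - Spr41.mk b l T| ≤ b * (C * min T 1 * g) + (1 + b) * (t - T) := by
  have T1 : T ≤ TT l := by linarith [S.tp.mem.2, S.g0]
  have T2 : T ≤ TT l2 := by linarith [S.tp2.mem.2, S.g0]
  have t2 : t ∈ Icc 0 (TT l2) := ⟨S.t0.trans h0, h1.trans S.tp2.mem.2⟩
  have a1 := Gp_lip (AP.of_ok ok) ⟨S.t0, T2⟩ t2
  have a2 := Gam_lip (AP.of_ok ok) ⟨S.t0, T2⟩ t2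
  rw [abs_of_nonneg (sub_nonneg.2 h0)] at a1 a2
  have a3 := h.gg T S.t0 T1 T2
  have a4 := h.gam T S.t0 T1 T2
  rw [GG_eq] at a3
  rw [Gam_eq] at a4
  have b1 : |Pr.GG l2 t - Pr.GG l T| ≤ (C + 4) * g := by
    rw [GG_eq]
    have := abs_sub_le (Gp l2 t) (Gp l2 T) (Gp l T)
    linarith
  have b2 : |Pr.Gam l2 t - Pr.Gam l T| ≤ C * min T 1 * g + (t - T) := by
    rw [Gam_eq]
    have := abs_sub_le (Ode3.Gam l2 t) (Ode3.Gam l2 T) (Ode3.Gam l T)
    linarith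
  refine ⟨?_, b1, b2, ?_⟩
  · rw [show Spr41.ec b l2 t - Spr41.ec b l T = -(b * (Pr.GG l2 t - Pr.GG l T)) by
      simp only [Spr41.ec]; ring, abs_neg, abs_mul, abs_of_nonneg hb]
    exact mul_le_mul_of_nonneg_left b1 hb
  · rw [show Spr41.mk b l2 t - Spr41.mk b l T = (t - T) - b * (Pr.Gam l2 t - Pr.Gam l T) by
      simp only [Spr41.mk]; ring]
    refine (abs_sub _ _).trans ?_
    rw [abs_mul, abs_of_nonneg hb, abs_of_nonneg (sub_nonneg.2 h0)]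
    nlinarith [mul_le_mul_of_nonneg_left b2 hb]

/-- above the spread -/
theorem Near.top (h : Near C g l l2) (S : Spr T g l l2) (ok : Ok l2) (hb : 0 ≤ b) {t : ℝ}
    (h0 : T + g ≤ t) (h1 : t ≤ TT l2) :
    1 - Real.exp (-((t - (T + g)) / 2)) * (1 - (Spr41.ec b l T - b * ((C + 4) * g))) ≤
      Spr41.ec b l2 t := by
  have a := ec_top ok hb S.tp2 h0 h1
  have c := (abs_le.1 (h.plat S ok hb (t := T + g) (by linarith [S.g0]) le_rfl).1).1
  have := mul_le_mul_of_nonneg_left (show 1 - Spr41.ec b l2 (T + g) ≤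
    1 - (Spr41.ec b l T - b * ((C + 4) * g)) by linarith) (Real.exp_pos (-((t - (T + g)) / 2))).le
  linarith

/-! ### lists given by labels and node times -/

theorem tp_lst {z s : ℕ → ℝ} {J N : ℕ} (hz : Lab z J) (hN : J ≤ N) (h0 : s 0 = 0)
    (hs : StrictMono s) {T1 : ℝ} (h1 : s J ≤ T1) (h2 : T1 ≤ s N) : Tp T1 (lst z s N) := by
  obtain ⟨⟨ok, tt, hl, ht, -⟩, -⟩ := areaS z s N (hz.up hN) h0 hs
  have s0 : 0 ≤ s J := h0 ▸ hs.monotone (Nat.zero_le J)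
  refine ⟨ok.1, ⟨s0.trans h1, tt ▸ h2⟩, fun t h => ?_⟩
  rcases lt_or_ge t (s N) with a | a
  · obtain ⟨j, -, b, c⟩ := exists_cell (s := s) (t := t) (by linarith) N a
    rw [hl j t b c]
    refine hz.top j (Nat.lt_succ_iff.1 (hs.lt_iff_lt.1 (by linarith)))
  · exact ht t a


end

end Crest.Agent.T156.Pr.Spr41
end

-- ▼ part T156/AltMemA_37

/-!
# Row 156, ALT route: geometry of the concrete family (helper37)
-/

set_option autoImplicit false

noncomputable section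

namespace Crest.Agent.T156.Alt.Pm

variable (p : Pm) (P : Pl) (om : ℕ → ℝ)

/-- reference times for ANY displacement `om` -/
def sO (k : ℕ) : ℝ :=
  if k ≤ p.J then Pr.sig p.v om k
  else p.J * p.v + P.γ * p.lsp P.γ (p.xP P k) + ((k - p.Jp P : ℕ) : ℝ) * p.v
/-- reference list -/
def lO : List (ℝ × ℝ) :=
  if P.γ = 0 then Pr.lo p.z p.v om (p.J + p.Nr) else Pr.lst (p.zP P) (p.sO P om) (p.NP P)
def qO (k : ℕ) : ℝ := Pr.Gam (p.lO P om) (p.sO P om k)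
def HO (b : ℝ) (k : ℕ) : ℝ :=
  if k ≤ p.jf then 0 else p.sO P om k - b * p.qO P om k + P.hs (p.xP P k)

/-- the family of `AltFam_88` for ANY displacement `om` -/
def famO (jl : ℕ) (b₁ be : ℝ) (g : ℕ → ℝ) : Md where
  N := p.NP P
  z k := p.zP P (max k jl)
  d k := if k ≤ jl then b₁ else b₁ + be
  H k := p.HO P om (b₁ + be) k + g k
  lr := p.lO P om
  s := p.sO P om
  ck k := p.qO P om k + P.rs (p.xP P k)

theorem fam_eq (τ y : ℝ) (jl : ℕ) (b₁ be : ℝ) (g : ℕ → ℝ) :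
    p.fam P τ y jl b₁ be g = p.famO P (p.om τ y) jl b₁ be g := rfl

theorem tst_eq (y : ℝ) : p.tst P y = p.famO P (p.om 1 y) p.jf (p.b 1 y) 0 0 := rfl

end Crest.Agent.T156.Alt.Pm

namespace Crest.Agent.T156.Alt.Mem37

open Real Set Filter Topology
open Crest.Agent.R164.GC Crest.Agent.R339.B Crest.Agent.R339.Var Crest.Agent.T157.Pf
open Crest.Agent.T156.Pr.Spr41 (mk ec)

theorem end_T : ∀ {l : List (ℝ × ℝ)}, Adm 1 l → ∀ {t : ℝ}, TT l ≤ t →
    PhiT 1 l t = PhiT 1 l (TT l) ∧ ∀ F, EX 1 l t F = EX 1 l (TT l) F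
  | [], _, _, _ => ⟨rfl, fun _ => rfl⟩
  | p :: l, h, t, ht => by
    have nn : ∀ q ∈ l, 0 ≤ q.2 := Ker.nn_of_adm h.2.2.2
    have T0 := TT_nonneg nn
    rw [TT_cons] at ht
    obtain ⟨a, b⟩ := end_T h.2.2.2 (t := t - p.2) (by linarith)
    rw [TT_cons, PhiT_next h.1.ne' nn (by linarith), PhiT_next h.1.ne' nn (by linarith), a,
      add_sub_cancel_left]
    refine ⟨rfl, fun F => ?_⟩
    rw [EX_next h.1.ne' nn (by linarith), EX_next h.1.ne' nn (by linarith), b, add_sub_cancel_left]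

/-- `Γ` is frozen after the end of the list -/
theorem Gam_end {l : List (ℝ × ℝ)} (h : Pr.Ok l) {t : ℝ} (ht : TT l ≤ t) :
    Pr.Gam l t = Pr.Gam l (TT l) := by
  obtain ⟨a, b⟩ := end_T h.1 ht
  unfold Pr.Gam Pr.Et Pr.Dk
  rw [a, b]

theorem Gam_nn (l : List (ℝ × ℝ)) (t : ℝ) : 0 ≤ Pr.Gam l t := Pp.Ode3.Gam_nonneg l t
theorem GG_nn (l : List (ℝ × ℝ)) (t : ℝ) : 0 ≤ Pr.GG l t := Pp.Ode3.Gp_nonneg l t
theorem Gam_zero {l : List (ℝ × ℝ)} (h : Pr.Ok l) : Pr.Gam l 0 = 0 :=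
  Pp.Ode3.Gam_zero (Pp.Ode3.AP.of_ok h)

/-- geometric data: base labels, displacement, plateau labels -/
structure Geo (c0 C0 η Y : ℝ) (p : Pm) (P : Pl) (om : ℕ → ℝ) : Prop where
  base : Pr.Base (p.β ^ 2) c0 C0 η p.v p.J p.z
  hom : Pr.Om p.v Y (1 / 2) om
  hY : Y ≤ p.J * p.v
  J0 : 0 < p.J
  g0 : 0 ≤ P.γ
  x0 : P.x 0 = p.xs
  xm : ∀ i < P.I, P.x i < P.x (i + 1)
  x1 : P.x P.I ≤ 1

variable {c0 C0 η Y : ℝ} {p : Pm} {P : Pl} {om : ℕ → ℝ}

theorem J_le : p.J ≤ p.Jp P := Nat.le_add_right _ _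
theorem NP_eq : p.NP P = p.Jp P + p.Nr := rfl

theorem zP_lo {k : ℕ} (h : k < p.J) : p.zP P k = p.z k := if_pos h

theorem zP_mid {k : ℕ} (h1 : p.J ≤ k) (h2 : k < p.Jp P) : p.zP P k = P.x (k + 1 - p.J) := by
  unfold Pm.zP; rw [if_neg (by omega), if_pos h2]

theorem zP_hi {k : ℕ} (h : p.Jp P ≤ k) : p.zP P k = 1 := by
  have := J_le (p := p) (P := P)
  unfold Pm.zP; rw [if_neg (by omega), if_neg (by omega)]

theorem xP_lo {k : ℕ} (h : k ≤ p.Jp P) : p.xP P k = p.zP P (k - 1) := by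
  unfold Pm.xP; rw [min_eq_left h]

theorem xP_hi {k : ℕ} (h : p.Jp P ≤ k) : p.xP P k = p.zP P (p.Jp P - 1) := by
  unfold Pm.xP; rw [min_eq_right h]

theorem sP_lo {k : ℕ} (h : k ≤ p.J) : p.sO P om k = Pr.sig p.v om k := if_pos h

namespace Geo

variable (h : Geo c0 C0 η Y p P om)
include h

theorem v0 : 0 < p.v := h.base.v_pos

theorem z_le (k : ℕ) : p.z k ≤ 1 :=
  (h.base.lab.mono (le_max_left k p.J)).trans (h.base.lab.top _ (le_max_right _ _)).le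

/-- from the last sloped node on, the tilts are the plateau labels -/
theorem zP_x {i : ℕ} (hi : i ≤ P.I) : p.zP P (p.J + i - 1) = P.x i := by
  have := h.J0
  rcases Nat.eq_zero_or_pos i with e | e
  · rw [e, add_zero, zP_lo (by omega), h.x0]; rfl
  · rw [zP_mid (by omega) (by unfold Pm.Jp; omega)]
    congr 1; omega

theorem xP_x {i : ℕ} (hi : i ≤ P.I) : p.xP P (p.J + i) = P.x i := by
  rw [xP_lo (by unfold Pm.Jp; omega), h.zP_x hi]

theorem xP_top {k : ℕ} (hk : p.Jp P ≤ k) : p.xP P k = P.x P.I := by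
  rw [xP_hi hk]; exact h.zP_x le_rfl

theorem x_le {i j : ℕ} (hij : i ≤ j) (hj : j ≤ P.I) : P.x i ≤ P.x j := by
  induction j, hij using Nat.le_induction with
  | base => exact le_rfl
  | succ j _ ih => exact (ih (by omega)).trans (h.xm j (by omega)).le

theorem zP_le (k : ℕ) : p.zP P k ≤ 1 := by
  rcases lt_or_ge k p.J with a | a
  · rw [zP_lo a]; exact h.z_le k
  · rcases lt_or_ge k (p.Jp P) with b | b
    · rw [zP_mid a b]; exact (h.x_le (by unfold Pm.Jp at b; omega) le_rfl).trans h.x1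
    · rw [zP_hi b]

theorem zP_mono : Monotone (p.zP P) := by
  have := h.J0
  refine monotone_nat_of_le_succ fun k => ?_
  rcases lt_or_ge (k + 1) p.J with a | a
  · rw [zP_lo a, zP_lo (by omega)]; exact h.base.lab.mono (Nat.le_succ k)
  · rcases lt_or_ge (k + 1) (p.Jp P) with b | b
    · obtain ⟨i, e⟩ : ∃ i, k + 1 = p.J + i := ⟨k + 1 - p.J, by omega⟩
      have hi : i < P.I := by unfold Pm.Jp at b; omega
      rw [show k = p.J + i - 1 by omega, show p.J + i - 1 + 1 = p.J + (i + 1) - 1 by omega,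
        h.zP_x hi.le, h.zP_x hi]
      exact (h.xm i hi).le
    · rw [zP_hi b]; exact h.zP_le k

theorem xP_le (k : ℕ) : p.xP P k ≤ p.zP P k :=
  h.zP_mono ((Nat.sub_le _ _).trans (min_le_left _ _))

theorem lab : Pr.Lab (p.zP P) (p.NP P) :=
  ⟨h.zP_mono, by rw [zP_lo h.J0]; exact h.base.lab.pos,
    fun _ hk => zP_hi ((Nat.le_add_right _ _).trans hk)⟩

theorem sigJ : Pr.sig p.v om p.J = p.J * p.v := h.hom.sig_eq h.hY

theorem sP_hi {k : ℕ} (hk : p.J ≤ k) : p.sO P om k =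
    p.J * p.v + P.γ * p.lsp P.γ (p.xP P k) + ((k - p.Jp P : ℕ) : ℝ) * p.v := by
  rcases hk.eq_or_lt with e | e
  · have a := h.xP_x (Nat.zero_le _)
    rw [add_zero, h.x0] at a
    rw [← e, sP_lo le_rfl, h.sigJ, a, Nat.sub_eq_zero_of_le J_le]
    simp
  · unfold Pm.sO; rw [if_neg (by omega)]

theorem sP_J : p.sO P om p.J = p.J * p.v := by rw [sP_lo le_rfl, h.sigJ]

theorem sP_zero : p.sO P om 0 = 0 := by rw [sP_lo (Nat.zero_le _), h.hom.sig0]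

theorem ds_lo {k : ℕ} (hk : k < p.J) : p.v / 2 ≤ p.sO P om (k + 1) - p.sO P om k ∧
    p.sO P om (k + 1) - p.sO P om k ≤ 3 / 2 * p.v := by
  rw [sP_lo hk, sP_lo hk.le]
  have := abs_le.1 (h.hom.lip k)
  unfold Pr.sig
  push_cast
  constructor <;> linarith [this.1, this.2]

theorem ds_mid {i : ℕ} (hi : i < P.I) : p.sO P om (p.J + (i + 1)) - p.sO P om (p.J + i) =
    P.γ * (p.lsp P.γ (P.x (i + 1)) - p.lsp P.γ (P.x i)) := by
  rw [h.sP_hi (Nat.le_add_right _ _), h.sP_hi (Nat.le_add_right _ _), h.xP_x hi, h.xP_x hi.le,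
    Nat.sub_eq_zero_of_le (by unfold Pm.Jp; omega), Nat.sub_eq_zero_of_le (by unfold Pm.Jp; omega)]
  ring

theorem xs_le {i : ℕ} (hi : i ≤ P.I) : p.xs ≤ P.x i := h.x0 ▸ h.x_le (Nat.zero_le _) hi
theorem x_le1 {i : ℕ} (hi : i ≤ P.I) : P.x i ≤ 1 := (h.x_le hi le_rfl).trans h.x1
theorem xs_nn : 0 ≤ p.xs := h.base.lab.pos.le.trans (h.base.lab.mono (Nat.zero_le _))
theorem lsp_lt {i : ℕ} (hi : i < P.I) : p.lsp P.γ (P.x i) < p.lsp P.γ (P.x (i + 1)) :=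
  p.lsp_lt _ (h.xs_le hi.le) (h.xm i hi) (h.x_le1 hi)
theorem lsp_mem {i : ℕ} (hi : i ≤ P.I) : 0 ≤ p.lsp P.γ (P.x i) ∧ p.lsp P.γ (P.x i) ≤ 1 :=
  ⟨p.lsp_nonneg _ (h.xs_le hi) (h.x_le1 hi), p.lsp_le_one _ h.xs_nn (h.xs_le hi) (h.x_le1 hi)⟩

theorem ds_hi {k : ℕ} (hk : p.Jp P ≤ k) : p.sO P om (k + 1) - p.sO P om k = p.v := by
  rw [h.sP_hi (J_le.trans (hk.trans (Nat.le_succ k))), h.sP_hi (J_le.trans hk), h.xP_top hk,
    h.xP_top (hk.trans (Nat.le_succ k)), show k + 1 - p.Jp P = k - p.Jp P + 1 by omega]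
  push_cast; ring

/-- the three kinds of steps -/
theorem cases (k : ℕ) : k < p.J ∨ (∃ i < P.I, k = p.J + i) ∨ p.Jp P ≤ k := by
  rcases lt_or_ge k p.J with a | a
  · exact Or.inl a
  · rcases lt_or_ge k (p.Jp P) with b | b
    · exact Or.inr (Or.inl ⟨k - p.J, by unfold Pm.Jp at b; omega, by omega⟩)
    · exact Or.inr (Or.inr b)

theorem sP_mono : Monotone (p.sO P om) := by
  have v := h.v0
  refine monotone_nat_of_le_succ fun k => ?_
  rcases h.cases k with a | ⟨i, a, rfl⟩ | a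
  · linarith [(h.ds_lo a).1]
  · have := mul_nonneg h.g0 (sub_nonneg.2 (h.lsp_lt a).le)
    linarith [h.ds_mid a, show p.sO P om (p.J + i + 1) = p.sO P om (p.J + (i + 1)) from rfl]
  · linarith [h.ds_hi a]

theorem sP_sm (hg : P.γ ≠ 0) : StrictMono (p.sO P om) := by
  have v := h.v0
  refine strictMono_nat_of_lt_succ fun k => ?_
  rcases h.cases k with a | ⟨i, a, rfl⟩ | a
  · linarith [(h.ds_lo a).1]
  · have := mul_pos (lt_of_le_of_ne h.g0 hg.symm) (sub_pos.2 (h.lsp_lt a))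
    linarith [h.ds_mid a, show p.sO P om (p.J + i + 1) = p.sO P om (p.J + (i + 1)) from rfl]
  · linarith [h.ds_hi a]

theorem sP_nn (k : ℕ) : 0 ≤ p.sO P om k := h.sP_zero ▸ h.sP_mono (Nat.zero_le k)

theorem sP_Jp : p.sO P om (p.Jp P) = p.J * p.v + P.γ * p.lsp P.γ (P.x P.I) := by
  rw [h.sP_hi J_le, h.xP_top le_rfl, Nat.sub_self]; simp

theorem sP_N : p.sO P om (p.NP P) = p.sO P om (p.Jp P) + p.Nr * p.v := by
  rw [h.sP_Jp, NP_eq, h.sP_hi (J_le.trans (Nat.le_add_right _ _)),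
    h.xP_top (Nat.le_add_right _ _), Nat.add_sub_cancel_left]

/-- the reference list -/
theorem ref : Pr.Ok (p.lO P om) ∧ TT (p.lO P om) = p.sO P om (p.NP P) ∧
    (∀ k t, p.sO P om k ≤ t → t < p.sO P om (k + 1) → lvr 1 (p.lO P om) t = p.zP P k) ∧
    ∀ t, p.sO P om (p.Jp P) ≤ t → lvr 1 (p.lO P om) t = 1 := by
  have v := h.v0
  by_cases hg : P.γ = 0
  · obtain ⟨⟨a1, a2, a3, -⟩, -⟩ := Pr.areaS p.z (Pr.sig p.v om) (p.J + p.Nr)
      (h.base.lab.up (Nat.le_add_right _ _)) h.hom.sig0 (h.hom.sm v le_rfl)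
    have e : p.lO P om = Pr.lst p.z (Pr.sig p.v om) (p.J + p.Nr) := if_pos hg
    have eJ : p.sO P om (p.Jp P) = p.J * p.v := by rw [h.sP_Jp, hg]; ring
    have top : ∀ t, p.sO P om (p.Jp P) ≤ t → lvr 1 (p.lO P om) t = 1 := fun t ht => by
      rw [e]
      refine le_antisymm (Pp.Ode3.lvr_le_one a1.1 t) (le_trans ?_ (Pp.Ode3.lvr_mono a1.1 ht))
      rw [a3 p.J _ (by rw [eJ, h.sigJ]) (by
        rw [eJ, ← h.sigJ]; exact h.hom.sm v le_rfl (Nat.lt_succ_self _)),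
        h.base.lab.top _ le_rfl]
    refine ⟨e ▸ a1, ?_, fun k t h1 h2 => ?_, top⟩
    · rw [e, a2, h.sP_N, eJ, h.hom.sig_eq (h.hY.trans (mul_le_mul_of_nonneg_right
        (Nat.cast_le.2 (Nat.le_add_right _ _)) v.le))]
      push_cast; ring
    · rcases h.cases k with a | ⟨i, a, rfl⟩ | a
      · rw [sP_lo a] at h2
        rw [sP_lo a.le] at h1
        rw [e, a3 k t h1 h2, zP_lo a]
      · have := h.ds_mid a
        rw [hg, zero_mul] at this
        have e' : p.sO P om (p.J + i + 1) = p.sO P om (p.J + (i + 1)) := rfl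
        linarith
      · rw [zP_hi a]; exact top t ((h.sP_mono a).trans h1)
  · obtain ⟨⟨a1, a2, a3, -⟩, -⟩ := Pr.areaS (p.zP P) (p.sO P om) (p.NP P) h.lab h.sP_zero
      (h.sP_sm hg)
    have e : p.lO P om = Pr.lst (p.zP P) (p.sO P om) (p.NP P) := if_neg hg
    rw [e]
    refine ⟨a1, a2, a3, fun t ht => ?_⟩
    refine le_antisymm (Pp.Ode3.lvr_le_one a1.1 t) (le_trans ?_ (Pp.Ode3.lvr_mono a1.1 ht))
    rw [a3 (p.Jp P) _ le_rfl (h.sP_sm hg (Nat.lt_succ_self _)), zP_hi le_rfl]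

theorem ok : Pr.Ok (p.lO P om) := h.ref.1
theorem tt : TT (p.lO P om) = p.sO P om (p.NP P) := h.ref.2.1
theorem sP_le_tt {k : ℕ} (hk : k ≤ p.NP P) : p.sO P om k ≤ TT (p.lO P om) :=
  h.tt ▸ h.sP_mono hk

theorem z_inc {i j : ℕ} (hij : i ≤ j) (hj : j < p.J) :
    c0 * p.v * ((j : ℝ) - i) ≤ p.z j - p.z i ∧ p.z j - p.z i ≤ C0 * p.v * ((j : ℝ) - i) := by
  induction j, hij using Nat.le_induction with
  | base => simp
  | succ j _ ih =>
    obtain ⟨a, b⟩ := ih (by omega)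
    obtain ⟨c, d⟩ := h.base.slo j hj
    unfold Pr.dm at c d
    push_cast
    constructor <;> nlinarith

theorem s_inc {i j : ℕ} (hij : i ≤ j) (hj : j ≤ p.J) :
    p.v / 2 * ((j : ℝ) - i) ≤ p.sO P om j - p.sO P om i ∧
      p.sO P om j - p.sO P om i ≤ 3 / 2 * p.v * ((j : ℝ) - i) := by
  induction j, hij using Nat.le_induction with
  | base => simp
  | succ j _ ih =>
    obtain ⟨a, b⟩ := ih (by omega)
    obtain ⟨c, d⟩ := h.ds_lo (k := j) hj
    push_cast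
    constructor <;> nlinarith

/-- the tilt function is bi-Lipschitz on the sloped part -/
theorem lip (hc : 0 ≤ c0) (hC : 0 ≤ C0) {t t' : ℝ} (h0 : 0 ≤ t) (h1 : t ≤ t')
    (h2 : t' < p.sO P om p.J) :
    c0 * (2 / 3 * (t' - t) - p.v) ≤ lvr 1 (p.lO P om) t' - lvr 1 (p.lO P om) t ∧
      lvr 1 (p.lO P om) t' - lvr 1 (p.lO P om) t ≤ C0 * (2 * (t' - t) + p.v) := by
  have v := h.v0
  obtain ⟨i, hi, a1, a2⟩ := Pr.exists_cell (s := p.sO P om) (h.sP_zero ▸ h0) p.J (h1.trans_lt h2)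
  obtain ⟨j, hj, b1, b2⟩ := Pr.exists_cell (s := p.sO P om) (h.sP_zero ▸ h0.trans h1) p.J h2
  have hij : i ≤ j := by
    by_contra hc
    have := h.sP_mono (show j + 1 ≤ i by omega)
    linarith
  rw [h.ref.2.2.1 i t a1 a2, h.ref.2.2.1 j t' b1 b2, zP_lo hi, zP_lo hj]
  obtain ⟨c1, c2⟩ := h.z_inc hij hj
  have d1 := (h.s_inc (show i ≤ j + 1 by omega) hj).2
  push_cast at d1
  constructor
  · refine le_trans ?_ c1
    rw [mul_assoc]
    exact mul_le_mul_of_nonneg_left (by nlinarith) hc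
  · refine c2.trans ?_
    rw [mul_assoc]
    refine mul_le_mul_of_nonneg_left ?_ hC
    rcases hij.eq_or_lt with e | e
    · rw [e, sub_self]; nlinarith
    · have d2 := (h.s_inc (show i + 1 ≤ j from e) hj.le).1
      push_cast at d2
      nlinarith

theorem lv0 : lvr 1 (p.lO P om) 0 = p.z 0 := by
  have := (h.ds_lo h.J0).1
  rw [h.ref.2.2.1 0 0 h.sP_zero.le (by linarith [h.sP_zero, h.v0]), zP_lo h.J0]

end Geo

end Crest.Agent.T156.Alt.Mem37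

end
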