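import Crest.Agent.T156.Lift_72
import Crest.Agent.T156.ChainQ_26
import Crest.Agent.T156.SegC_56
import Crest.Agent.T156.AltFam_88
import Crest.Agent.T156.AltReg_29
import Crest.Agent.T156.GrDef_62
import Crest.Agent.T156.AltMemA_37
import Crest.Agent.T156.AltP1_3
import Crest.Agent.T156.PlEx_13
import Crest.Agent.T156.AltPG_3
import Crest.Agent.T156.GrReg_29

-- ▼ part T156/LiftB_72
section

/-!
# Row 156: finite lifts on the cube, `Q`-form (helper72)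
-/

set_option autoImplicit false
set_option linter.unusedSectionVars false

noncomputable section

namespace Crest.Agent.T156.Cas.Lift72

open MeasureTheory Real Set Filter Topology
open Crest.Agent.T157.E Crest.Agent.T157.Casc Crest.Agent.T157.SL
open Trf

section
variable {Ω : Type} [Fintype Ω] {w : Ω → ℝ}

/-- a summand `k` of the root level `l = l₁ + k` is lifted to the tilt `β` -/
theorem lift_split (hw : Wt w) {l l₁ k : Lv Ω} {N : List (Lv Ω)} {h : Ω → ℝ}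
    {T : Set (Equiv.Perm Ω)} {x₀ : Ω} {a a' x β W S : ℝ} {J : ℕ}
    (hc : ∀ y y', l.cov y y' = l₁.cov y y' + k.cov y y')
    (hT : ∀ σ ∈ T, Sym w (l₁ :: k :: N) h σ) (htr : ∀ y, w y ≠ 0 → ∃ σ ∈ T, σ x₀ = y)
    (ha : 0 < a) (haa : a ≤ a') (hx : a' < x) (hxβ : x ≤ β)
    (hJ : β - a' ≤ 2 ^ J * (x - a')) (hN : Mono β N)
    (hW : ∀ t ∈ Icc x β, Wd w l₁ (rt k t :: N) h a a' ≤ W)
    (hS : ∀ s ∈ Icc a a', pi2 w (rt l₁ s :: rt k β :: N) 2 k.cov h ≤ 2 * S) :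
    |X w (rt l₁ a' :: rt k β :: N) h - X w (rt l₁ a :: rt k β :: N) h -
      (X w (rt l a' :: N) h - X w (rt l a :: N) h)| ≤ x * S + J * √(6 * (a' - a) * W * S) := by
  have k1 := lift_one hw (l := l₁) (k := k) (M := []) (N := N) (h := h) (T := T)
    (x₀ := x₀) (W := W) (S := S) hT htr ha haa hx hxβ hJ ⟨hx.le, Trf.mono_le hN hxβ⟩ hN hW hS
  have key : ∀ s ∈ Icc a a', X w (rt l s :: N) h ≤ X w (rt l₁ s :: rt k x :: N) h ∧
      X w (rt l₁ s :: rt k x :: N) h - X w (rt l s :: N) h ≤ x * S := by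
    intro s hs
    have s0 : 0 < s := ha.trans_le hs.1
    have sx : s ≤ x := hs.2.trans hx.le
    have e : X w (rt l s :: N) = X w (rt l₁ s :: rt k s :: N) :=
      C.X_split hw (l := rt l s) (l1 := rt l₁ s) (l2 := rt k s) rfl rfl hc N
    have b := slope_le hw (α := s) (β := β) s0 (M := [rt l₁ s]) (L := one k N)
      (fun k hk => by rw [List.mem_singleton.1 hk]; exact s0.le) (fun p hp => by
        rcases List.mem_cons.1 hp with rfl | hp
        · exact ⟨le_rfl, zero_le_one, by simpa using s0⟩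
        · obtain ⟨j, hj, rfl⟩ := List.mem_map.1 hp
          have := (Ann56.mono_mem hN j hj).1
          exact ⟨by linarith, le_rfl, by simp; linarith⟩) h (t := s) (t' := x)
      ⟨le_rfl, sx.trans hxβ⟩ ⟨sx, hxβ⟩ sx
    rw [Es_one, tl_one, tl_one] at b
    have p0 := Kkt28.pi2_cov_nonneg (w := w) (rt l₁ s :: rt k β :: N) 2 k h
    have p1 := hS s hs
    rw [e]
    refine ⟨b.1, b.2.trans ?_⟩
    show pi2 w (rt l₁ s :: rt k β :: N) 2 k.cov h / 2 * (x - s) ≤ x * S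
    nlinarith
  have k2 := key a ⟨le_rfl, haa⟩
  have k3 := key a' ⟨haa, le_rfl⟩
  have k4 := abs_le.1 k1
  simp only [List.nil_append, List.cons_append] at k4
  rw [abs_le]
  constructor <;> linarith [k2.1, k2.2, k3.1, k3.2, k4.1, k4.2]

theorem sqrt_Q {a a' Q S : ℝ} (haa : a < a') (hQ : 0 ≤ Q) :
    √(6 * (a' - a) * (Q ^ 2 / (a' - a)) * S) = Q * √(6 * S) := by
  have : a' - a ≠ 0 := (sub_pos.2 haa).ne'
  rw [show 6 * (a' - a) * (Q ^ 2 / (a' - a)) * S = Q ^ 2 * (6 * S) by field_simp,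
    sqrt_mul (sq_nonneg Q), sqrt_sq hQ]

end

open Chain26 Flow26

variable {n : ℕ}




end Crest.Agent.T156.Cas.Lift72

end
end

-- ▼ part T156/StartM_56
section

/-!
# Row 156: START and segments as stages (helper56)
-/

set_option autoImplicit false
set_option linter.unusedSectionVars false

noncomputable section

namespace Crest.Agent.T156.Alt.St56

open MeasureTheory Real Set Filter Topology
open Crest.Agent.T157.E Crest.Agent.T157.Casc Crest.Agent.T157.SL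
open Crest.Agent.T157.G1 (ov fl FL)
open Crest.Agent.T156.Cas Crest.Agent.T156.Cas.Ann56 Crest.Agent.T156.Alt.Sg56

variable {M : Md} {m n : ℕ} {a a' x u Q s γ C δ : ℝ}

theorem Leg.le (H : M.Leg x) {x' : ℝ} (h : x' ≤ x) : M.Leg x' :=
  ⟨H.zm, h.trans H.z0, H.z1, H.zN, H.d0, H.dm, H.H0, H.Hm⟩

theorem ov_mx (hm : 0 < m) {p : ℝ × ℝ × ℝ} (hd : 0 ≤ p.2.1) (hf : 0 ≤ p.2.2) :
    OvLv (mxL m 1 p) :=
  ⟨fun r => p.2.1 * (1 ^ 2 * m / 2 * r ^ 2) + p.2.2 * m * r, mxL_cov hm 1 hd hf⟩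

theorem ov_sq (x y : Cube m) : ov x y ^ 2 ≤ 1 := by
  rcases Nat.eq_zero_or_pos m with rfl | hm
  · simp [ov]
  have h := Finset.sum_mul_sq_le_sq_mul_sq Finset.univ ((Q33.sl m).A x) ((Q33.sl m).A y)
  have e1 := Q33.sl_cov hm x x
  have e2 := Q33.sl_cov hm y y
  have e3 := Q33.sl_cov hm x y
  rw [Q33.ov_self hm] at e1 e2
  simp only [Lv.cov, ← sq] at e1 e2 e3
  rwa [e1, e2, e3, mul_one] at h

theorem ov_root (H : M.Leg x) (hm : 0 < m) (a : ℝ) : OvLv (M.root m a) := ov_mx hm H.d0 le_rfl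

theorem ov_up (H : M.Leg x) (hm : 0 < m) : ∀ k ∈ M.up m, OvLv k := fun k hk => by
  obtain ⟨i, hi, rfl⟩ := List.getElem_of_mem hk
  rw [up_get]
  exact ov_mx hm (sub_nonneg.2 (H.dm i.le_succ)) (sub_nonneg.2 (H.Hm i.le_succ))

theorem mono_up' (H : M.Leg x) (m : ℕ) : Mono x (M.up m) :=
  mono_aux (M.up m) M.z x H.zm H.z1 H.z0 fun k hk => by rw [up_get]; rfl

theorem sum_up (M : Md) (m : ℕ) (F : Lv (Cube m) → ℝ) : ((M.up m).map F).sum =
    ∑ k ∈ Finset.range M.N, F (mxL m 1 (M.z k, M.d (k + 1) - M.d k, M.H (k + 1) - M.H k)) := by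
  rw [Md.up, Md.Mu, List.map_map, List.map_ofFn, List.sum_ofFn]
  exact Fin.sum_univ_eq_sum_range
    (fun k => F (mxL m 1 (M.z k, M.d (k + 1) - M.d k, M.H (k + 1) - M.H k))) M.N

/-- all tilts move affinely to `1` -/
def tz (M : Md) (x u : ℝ) : Md := { M with z := fun k => upm x (M.z k) u }

theorem tz_self (M : Md) (hx : x < 1) : tz M x x = M := by
  cases M
  simp only [tz, upm_self hx]

theorem tz_up (M : Md) (m : ℕ) (x u : ℝ) : (tz M x u).up m = upT (M.up m) x u := by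
  simp only [Md.up, Md.Mu, upT, List.map_ofFn]
  rfl

theorem tz_leg (H : M.Leg x) (hx : x < 1) (hu : u ∈ Icc x 1) : (tz M x u).Leg x :=
  ⟨fun _ _ h => upm_mono hx hu.2 (H.zm h), H.z0.trans (le_upm hx hu.1 (H.z1 0)),
    fun k => (upm_mono hx hu.2 (H.z1 k)).trans_eq (upm_top hx),
    (congrArg (upm x · u) H.zN).trans (upm_top hx), H.d0, H.dm, H.H0, H.Hm⟩

/-- the variance below the tilt `1` -/
def low (M : Md) : ℝ :=
  ∑ k ∈ Finset.range M.N, (1 - M.z k) * ((M.d (k + 1) - M.d k) / 2 + (M.H (k + 1) - M.H k))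

/-- small marks are free -/
theorem ann (H : M.Leg x) (hm : 0 < m) (ha : 0 < a) (haa : a ≤ a') (hx : a' < x) (hx1 : x ≤ 1 / 2)
    (hu : u ∈ Icc x 1) {J : ℕ} (hJ : 1 - a' ≤ 2 ^ J * (x - a')) {S : ℝ} (hS : m * low M ≤ S)
    (hS0 : 0 ≤ S) (hQ : 0 ≤ Q) (hW : ∀ v ∈ Icc x 1, (a' - a) * (tz M x v).W m a a' ≤ Q ^ 2) :
    |(tz M x u).DV m a a' - Seg56.DV (fun _ => 1) (M.root m 0) [] 0 a a'| ≤ J * Q * √(6 * S) := by
  rcases haa.eq_or_lt with rfl | hlt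
  · simp only [Md.DV, Seg56.DV, sub_self, abs_zero]; positivity
  have hO : ∀ k ∈ M.root m 0 :: [] ++ M.up m, OvLv k := fun k hk => by
    rcases List.mem_cons.1 hk with rfl | hk
    exacts [ov_root H hm 0, ov_up H hm k hk]
  have := anneal Link33.wt1 (l := M.root m 0) (M := []) (N := M.up m) (h := 0)
    (x₀ := fun _ => true) (u := u) (W := Q ^ 2 / (a' - a)) (S := S) (J := J) (sym_act₀ hO)
    (fun y _ => TS_trans _ y) (fun k hk y => ov_diag (ov_up H hm k hk) _ y) ha haa hx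
    (by linarith) hu (Trf.mono_le (mono_up' H m) hx.le) (mono_up' H m) hJ ?_ fun v hv => ?_
  · rw [Lift72.sqrt_Q hlt hQ, ← mul_assoc, ← tz_up] at this
    exact this
  · rw [sum_up]
    refine le_trans (le_of_eq ?_) (hS.trans (by nlinarith))
    rw [low, Finset.mul_sum]
    refine Finset.sum_congr rfl fun k _ => ?_
    rw [mxL_cov hm 1 (sub_nonneg.2 (H.dm k.le_succ)) (sub_nonneg.2 (H.Hm k.le_succ)),
      Q33.ov_self hm, mxL_m]
    ring
  · rw [le_div_iff₀ (sub_pos.2 hlt), mul_comm, List.nil_append, ← tz_up]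
    exact hW v hv

/-- root variance `d₀` and one slice `d₁ - d₀` at the tilt `x` -/
def sl1 (d₀ d₁ x : ℝ) : Md :=
  ⟨1, fun k => if k = 0 then x else 1, fun k => if k = 0 then d₀ else d₁, 0, [], 0, 0⟩

theorem ite_mono {c c' : ℝ} (h : c ≤ c') : Monotone fun k : ℕ => if k = 0 then c else c' :=
  monotone_nat_of_le_succ fun k => by cases k <;> simp [h]

theorem sl1_leg {d₀ d₁ : ℝ} (h0 : 0 ≤ d₀) (h1 : d₀ ≤ d₁) (hx : x ≤ 1) : (sl1 d₀ d₁ x).Leg x :=
  ⟨ite_mono hx, le_rfl, fun k => by cases k <;> simp [sl1, hx], rfl, h0, ite_mono h1, rfl,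
    monotone_const⟩

theorem sk_leg (β : ℝ) (hx : x ≤ 1) : (Md.sk β).Leg x :=
  ⟨monotone_const, hx, fun _ => le_rfl, rfl, sq_nonneg β, monotone_const, rfl, monotone_const⟩

theorem sl1_sk {β d₀ : ℝ} (hm : 0 < m) (h0 : 0 ≤ d₀) (h1 : d₀ ≤ β ^ 2) (ha : 0 < a) (haa : a ≤ a')
    (hx : a' < x) (hx1 : x ≤ 1) {S : ℝ} (hS : m * (β ^ 2 - d₀) ≤ 4 * S) :
    |(sl1 d₀ (β ^ 2) x).DV m a a' - (Md.sk β).DV m a a'| ≤ x * S := by
  have h2 : 0 ≤ β ^ 2 - d₀ := sub_nonneg.2 h1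
  set k := mxL m 1 (x, β ^ 2 - d₀, 0 - 0) with hk
  have ck : ∀ y y', k.cov y y' = (β ^ 2 - d₀) * (1 ^ 2 * m / 2 * ov y y' ^ 2) + (0 - 0) * m * ov y y' :=
    mxL_cov hm 1 h2 (by simp)
  have hO : ∀ j ∈ [mxL m 1 (0, d₀, 0), k], OvLv j := fun j hj => by
    simp only [List.mem_cons, List.not_mem_nil, or_false] at hj
    rcases hj with rfl | rfl
    exacts [ov_mx hm h0 le_rfl, ov_mx hm h2 (by simp)]
  have := Lift72.lift_split Link33.wt1 (l := mxL m 1 (0, β ^ 2, 0)) (l₁ := mxL m 1 (0, d₀, 0))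
    (k := k) (N := []) (h := 0) (x₀ := fun _ => true) (a := a) (a' := a') (x := x) (β := x)
    (W := Wd (fun _ => 1) (mxL m 1 (0, d₀, 0)) [rt k x] 0 a a') (S := S) (J := 0)
    (fun y y' => by
      rw [ck, mxL_cov hm 1 (sq_nonneg β) le_rfl, mxL_cov hm 1 h0 le_rfl]; ring)
    (sym_act₀ hO) (fun y _ => TS_trans _ y) ha haa hx le_rfl (by simp) hx1
    (fun t ht => by rw [le_antisymm ht.2 ht.1]) fun s _ => by
      refine (pi2_mono Link33.wt1 _ _ (K' := fun _ _ => 2 * S) (fun y y' => ?_) _).trans_eq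
        (pi2_const Link33.wt1 _ _ _ _)
      have e1 := ov_sq y y'
      have e2 : (0 : ℝ) ≤ m := Nat.cast_nonneg m
      rw [ck]
      nlinarith [mul_le_mul_of_nonneg_left e1 (mul_nonneg h2 e2)]
  simp only [Nat.cast_zero, zero_mul, add_zero] at this
  exact this

theorem win_pos (hn : 1 ≤ n) (H : Win n s γ a a') : 0 < a :=
  lt_of_lt_of_le (by have : (0 : ℝ) < n := by exact_mod_cast hn
                     positivity) H.lo

/-- **START**: a legal model with small marks below the tilt `1` is reached from SK -/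
theorem start {β e am : ℝ} {J : ℕ} (hn : 1 ≤ n) (ham : am = s * (n : ℝ) ^ (γ - 1 / 6))
    (h0 : 0 < am) (h1 : am ≤ 1 / 4) (hM : M.Leg (2 * am)) (hd : M.d 0 ≤ β ^ 2) (hC : β ^ 2 ≤ C)
    (he1 : β ^ 2 - M.d 0 ≤ e) (he2 : low M ≤ e) (hJ : 1 ≤ 2 ^ J * am)
    (c1 : 2 * am * (2 * n * e) ≤ δ * (n : ℝ) ^ ((1 : ℝ) / 6) * s ^ 5)
    (c2 : 2 * J * √(6 * (2 * n * e)) ≤ δ * (n : ℝ) ^ ((1 : ℝ) / 6) * s ^ 2) :
    ∃ T, Stage n s γ C δ (Md.sk β) T ∧ M ∈ T := by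
  have x1 : 2 * am < 1 := by linarith
  have xx : 2 * am ∈ Icc (2 * am) 1 := ⟨le_rfl, x1.le⟩
  have hL := sl1_leg hM.d0 hd x1.le
  have e0 : 0 ≤ e := (sub_nonneg.2 hd).trans he1
  refine ⟨{M' | M' = Md.sk β ∨ ∃ u ∈ Icc (2 * am) 1, M' = tz M (2 * am) u ∨
    M' = tz (sl1 (M.d 0) (β ^ 2) (2 * am)) (2 * am) u}, ⟨.inl rfl, ?_, ?_⟩,
    .inr ⟨_, xx, .inl (tz_self M x1).symm⟩⟩
  · rw [← ham]
    rintro M' (rfl | ⟨u, hu, rfl | rfl⟩)
    · exact ⟨sk_leg β (by linarith), hC⟩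
    · exact ⟨Leg.le (tz_leg hM x1 hu) (by linarith), hd.trans hC⟩
    · exact ⟨Leg.le (tz_leg hL x1 hu) (by linarith), hd.trans hC⟩
  intro a a' Q hw hQ hT m m1 m2 M' hM'
  have ha := win_pos hn hw
  have a2 : a' ≤ am := ham ▸ hw.hi
  have hx : a' < 2 * am := by linarith
  have hm : 0 < m := by omega
  have mn : (m : ℝ) ≤ 2 * n := by exact_mod_cast m2
  have S0 : 0 ≤ 2 * (n : ℝ) * e := by positivity
  have hJ' : 1 - a' ≤ 2 ^ J * (2 * am - a') := by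
    have : (0 : ℝ) < 2 ^ J := by positivity
    nlinarith [hw.le]
  have mS : ∀ t, t ≤ e → m * t ≤ 2 * n * e := fun t ht =>
    (mul_le_mul_of_nonneg_left ht (Nat.cast_nonneg m)).trans (mul_le_mul_of_nonneg_right mn e0)
  have k1 : ∀ u ∈ Icc (2 * am) 1, _ := fun u hu => ann hM hm ha hw.le hx (by linarith) hu hJ'
    (mS _ he2) S0 hQ fun v hv => hT _ (.inr ⟨v, hv, .inl rfl⟩) m m1 m2
  have k2 : ∀ u ∈ Icc (2 * am) 1, _ := fun u hu => ann hL hm ha hw.le hx (by linarith) hu hJ'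
    (mS _ (by
      have : 0 ≤ β ^ 2 - M.d 0 := sub_nonneg.2 hd
      simp [low, sl1]
      nlinarith)) S0 hQ fun v hv => hT _ (.inr ⟨v, hv, .inr rfl⟩) m m1 m2
  have k3 := sl1_sk hm hM.d0 hd ha hw.le hx x1.le (S := 2 * n * e) (by linarith [mS _ he1])
  have k4 := k2 _ xx
  rw [tz_self _ x1] at k4
  have c3 := mul_le_mul_of_nonneg_left c2 hQ
  have p : 0 ≤ J * Q * √(6 * (2 * n * e)) := by positivity
  have p' : 0 ≤ 2 * am * (2 * n * e) := by positivity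
  have er : (sl1 (M.d 0) (β ^ 2) (2 * am)).root m 0 = M.root m 0 := rfl
  simp only [er] at k2 k4
  have b3 := abs_le.1 k3
  have b4 := abs_le.1 k4
  show |M'.DV m a a' - (Md.sk β).DV m a a'| ≤ _
  have fin : 2 * (J * Q * √(6 * (2 * n * e))) + 2 * am * (2 * n * e) ≤
      δ * (n : ℝ) ^ ((1 : ℝ) / 6) * (Q * s ^ 2 + s ^ 5) := by linarith
  refine le_trans ?_ fin
  rcases hM' with rfl | ⟨u, hu, rfl | rfl⟩
  · rw [sub_self, abs_zero]; linarith
  · have b := abs_le.1 (k1 u hu)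
    exact abs_le.2 ⟨by linarith, by linarith⟩
  · have b := abs_le.1 (k2 u hu)
    exact abs_le.2 ⟨by linarith, by linarith⟩


end Crest.Agent.T156.Alt.St56

end
end

-- ▼ part T156/StartG_56
section

/-!
# Row 156, ALT route: the START stage in gain form (helper56)
-/

set_option autoImplicit false

noncomputable section

namespace Crest.Agent.T156.Alt.St56

open Real Set Filter Topology

variable {β c0 C0 c η K : ℝ} {A : ℕ} {p : Pm} {M : Md}

theorem am0 (H : Reg β c0 C0 A c η K p) : 0 < p.am := mul_pos H.s0 (Pre29.rp_pos H.n1 _)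

theorem lg_am (H : Reg β c0 C0 A c η K p) :
    logb p.n p.am = logb p.n p.s + c / 100 - 1 / 6 := by
  rw [Pm.am, logb_mul H.s0.ne' (Pre29.rp_pos H.n1 _).ne', H.lg_rp, Pm.ga, H.hc]
  ring

/-- **START for one `p`**: mass at most `μ0 / κ` below the tilt `1` -/
theorem go_sk (H : Reg β c0 C0 A c η K p) (hη : 10 * η ≤ c) (hM : M.Leg (2 * p.am))
    (hd : M.d 0 ≤ p.β ^ 2) (h1 : p.β ^ 2 - M.d 0 ≤ p.μ0 / p.κ) (h2 : low M ≤ p.μ0 / p.κ) :
    Go ((p.n : ℝ) ^ η)⁻¹ p (Md.sk p.β) M := by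
  have a0 := am0 H
  have s0 := H.s0
  have n0 := H.N0
  have m0 := H.μ00
  have k0 := H.κ0
  have L0 := H.Λ0
  have l2 := H.lg_num (x := 2) (by norm_num) (by norm_num)
  have l4 := H.lg_num (x := 4) (by norm_num) (by norm_num)
  have l6 := H.lg_num (x := 6) (by norm_num) (by norm_num)
  have a1 : p.am ≤ 1 / 4 := H.le_of_lg a0 (by norm_num) (by
    lg_norm
    linarith [lg_am H, H.lg_s.2, H.c_le, H.η_le])
  obtain ⟨J, hJ, hJ'⟩ := Cas.exists_J a0 (by linarith)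
  have a2 : log p.am⁻¹ ≤ log p.n := log_le_log (inv_pos.2 a0) (H.le_of_lg (inv_pos.2 a0) n0 (by
    lg_norm
    linarith [lg_am H, H.lg_s.1, H.c_pos, H.lg_n]))
  have a3 : (J : ℝ) ≤ 3 * (p.n : ℝ) ^ η := by linarith [H.log1, H.log_le]
  refine start H.n1 rfl a0 a1 hM hd le_rfl h1 h2 hJ (H.le_of_lg (by positivity) (by positivity) ?_)
    (le_trans (b := 6 * (p.n : ℝ) ^ η * √(6 * (2 * p.n * (p.μ0 / p.κ)))) ?_
      (H.le_of_lg (by positivity) (by positivity) ?_))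
  · lg_norm
    rw [H.lg_n, Pm.ga, H.hc]
    linarith [H.lg_s.1, H.lg_μ0, H.lg_κ, H.η_pos]
  · exact mul_le_mul_of_nonneg_right (by linarith) (sqrt_nonneg _)
  · lg_norm
    rw [H.lg_n]
    linarith [H.lg_s.1, H.lg_μ0, H.lg_κ, H.η_pos]

end Crest.Agent.T156.Alt.St56

end
end

-- ▼ part T156/LegG_56
section

/-!
# Row 156, ALT route: legality of the family with static marks (helper56)
-/

set_option autoImplicit false
set_option linter.unusedSectionVars false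

noncomputable section

namespace Crest.Agent.T156.Alt.St56

open Real Set Filter Topology
open Crest.Agent.R164.GC Crest.Agent.R339.B Crest.Agent.R339.Var Crest.Agent.T157.Pf
open Crest.Agent.T156.Pr.Spr41 (ec mk_inc)
open Mem37 Plt13

theorem ec_le_one {b : ℝ} (hb : 0 ≤ b) (l : List (ℝ × ℝ)) (t : ℝ) : ec b l t ≤ 1 :=
  sub_le_self _ (mul_nonneg hb (GG_nn l t))

/-- `t - b Γ` increases on the whole half line -/
theorem mk_mono {l : List (ℝ × ℝ)} (h : Pr.Ok l) {b : ℝ} (hb : 0 ≤ b)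
    (he : ∀ t ∈ Icc 0 (TT l), 0 ≤ ec b l t) {s t : ℝ} (hs : 0 ≤ s) (hst : s ≤ t) :
    Pr.Spr41.mk b l s ≤ Pr.Spr41.mk b l t := by
  have k : ∀ s t, 0 ≤ s → s ≤ t → t ≤ TT l → Pr.Spr41.mk b l s ≤ Pr.Spr41.mk b l t := fun s t h0 h1 h2 => by
    have := (mk_inc h b (lo := 0) (hi := 1) h0 h1 h2 fun r hr =>
      ⟨he r ⟨h0.trans hr.1, hr.2.trans h2⟩, ec_le_one hb l r⟩).1
    linarith
  have k' : ∀ s t, TT l ≤ s → s ≤ t → Pr.Spr41.mk b l s ≤ Pr.Spr41.mk b l t := fun s t h0 h1 => by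
    unfold Pr.Spr41.mk
    rw [Gam_end h h0, Gam_end h (h0.trans h1)]
    linarith
  rcases le_total t (TT l) with a | a
  · exact k s t hs hst a
  · rcases le_total s (TT l) with c | c
    · exact (k s _ hs c le_rfl).trans (k' _ t le_rfl a)
    · exact k' s t c hst

theorem mk_zero {l : List (ℝ × ℝ)} (h : Pr.Ok l) (b : ℝ) : Pr.Spr41.mk b l 0 = 0 := by
  rw [Pr.Spr41.mk, Gam_zero h]; ring

/-- the variance below the tilt `1` is at most the marks at the last node below `1` -/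
theorem low_le {M : Md} {x : ℝ} (H : M.Leg x) (hx : 0 ≤ x) (hd : ∀ k, M.d k = M.d 0) {K : ℕ}
    (hK : ∀ k, K ≤ k → M.z k = 1) : low M ≤ M.H K := by
  have k : ∀ N : ℕ, ∑ k ∈ Finset.range N,
      (1 - M.z k) * ((M.d (k + 1) - M.d k) / 2 + (M.H (k + 1) - M.H k)) ≤ M.H (min N K) := by
    intro N
    induction N with
    | zero => simp [H.H0]
    | succ N ih =>
      rw [Finset.sum_range_succ, hd (N + 1), hd N, sub_self, zero_div, zero_add]
      rcases lt_or_ge N K with a | a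
      · rw [min_eq_left a.le] at ih
        rw [min_eq_left a]
        have z0 : 0 ≤ M.z N := hx.trans (H.z0.trans (H.zm (Nat.zero_le N)))
        have := mul_nonneg z0 (sub_nonneg.2 (H.Hm N.le_succ))
        linarith
      · rw [min_eq_right a] at ih
        rw [min_eq_right (a.trans N.le_succ), hK N a]
        linarith
  exact (k M.N).trans (H.Hm (min_le_right _ _))

/-- data for the legality of `famO P om jf b 0 0` with the static field `μ * rF ν` -/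
structure LD (c0 C0 η Y μ ν y lo hi : ℝ) (p : Pm) (P : Pl) (om : ℕ → ℝ) (b : ℝ) : Prop where
  geo : Geo c0 C0 η Y p P om
  nm : Nm p ν
  hs : P.hs = fun x => μ * p.rF ν x
  xe : (p.n : ℝ) ^ (-(3 : ℝ)) ≤ 1 - P.x P.I
  C00 : 0 ≤ C0
  μ0 : 0 ≤ μ
  b0 : 0 ≤ b
  e0 : ∀ t ∈ Icc 0 (TT (p.lO P om)), 0 ≤ ec b (p.lO P om) t
  e1 : ∀ t ∈ Icc y (p.J * p.v), lo ≤ ec b (p.lO P om) t
  e2 : ∀ t ∈ Icc 0 (p.sO P om (p.Jp P)), ec b (p.lO P om) t ≤ hi
  n1 : 3 * C0 * μ ≤ lo * log p.n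
  n2 : C0 * (p.v + 2 * y) ≤ 1 / 2
  n3 : C0 * (p.v + 2 * y) + log p.n * u0 p ν ≤ p.xs
  jf : p.jf * p.v ≤ 2 * y
  jJ : p.jf < p.J

namespace LD

variable {c0 C0 η Y μ ν y lo hi b : ℝ} {p : Pm} {P : Pl} {om : ℕ → ℝ}
  (h : LD c0 C0 η Y μ ν y lo hi p P om b)
include h

theorem H_eq {k : ℕ} (hk : p.jf < k) :
    p.HO P om b k = Pr.Spr41.mk b (p.lO P om) (p.sO P om k) + μ * p.rF ν (p.xP P k) := by
  rw [Pm.HO, if_neg (by omega), h.hs]; rfl

theorem rF0 {k : ℕ} (hk : k < p.J) (h2 : k * p.v ≤ 2 * y) : p.rF ν (p.z k) = 0 := by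
  have a := (PP3.z_bds h.geo.base k hk).2
  have c := mul_le_mul_of_nonneg_left h2 h.C00
  exact h.nm.rF_zero (by linarith [h.n2]) (by linarith [h.n3])

theorem xP_succ {k : ℕ} (hk : k < p.J) : p.xP P (k + 1) = p.z k := by
  rw [xP_lo (k := k + 1) (hk.trans_le J_le), Nat.add_sub_cancel, zP_lo hk]

theorem mono {s t : ℝ} (hs : 0 ≤ s) (hst : s ≤ t) :
    Pr.Spr41.mk b (p.lO P om) s ≤ Pr.Spr41.mk b (p.lO P om) t := mk_mono h.geo.ok h.b0 h.e0 hs hst

theorem H_step (k : ℕ) : p.HO P om b k ≤ p.HO P om b (k + 1) := by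
  have g := h.geo
  have v := g.v0
  have m := h.mono (g.sP_nn k) (g.sP_mono k.le_succ)
  rcases lt_trichotomy k p.jf with a | a | a
  · rw [Pm.HO, Pm.HO, if_pos a.le, if_pos (Nat.succ_le_of_lt a)]
  · rw [Pm.HO, if_pos a.le, h.H_eq (by omega), a, h.xP_succ h.jJ, h.rF0 h.jJ h.jf]
    linarith [h.mono le_rfl (g.sP_nn (p.jf + 1)), mk_zero g.ok b]
  rw [h.H_eq a, h.H_eq (a.trans k.lt_succ_self)]
  rcases g.cases k with c | ⟨i, c, rfl⟩ | c
  · obtain ⟨j, rfl⟩ : ∃ j, k = j + 1 := ⟨k - 1, by omega⟩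
    rw [h.xP_succ c, h.xP_succ (by omega : j < p.J)]
    rcases le_total (((j + 1 : ℕ) : ℝ) * p.v) (2 * y) with d | d
    · rw [h.rF0 c d, h.rF0 (by omega : j < p.J) (by push_cast at d; linarith)]
      linarith
    · have s1 := (g.s_inc (Nat.zero_le (j + 1)) c.le).1
      have s2 : p.sO P om (j + 1 + 1) ≤ p.J * p.v := g.sP_J ▸ g.sP_mono c
      rw [g.sP_zero] at s1
      have a1 := (mk_inc g.ok b (lo := lo) (hi := 1) (g.sP_nn (j + 1)) (g.sP_mono (j + 1).le_succ)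
        (g.sP_le_tt (Nat.succ_le_of_lt (c.trans_le (J_le.trans (Nat.le_add_right _ _)))))
        fun r hr => ⟨h.e1 r ⟨by
          simp only [Nat.cast_zero, sub_zero] at s1
          linarith [hr.1], hr.2.trans s2⟩, ec_le_one h.b0 _ r⟩).1
      have lg : 0 < log (p.n : ℝ) := by linarith [h.nm.l1]
      have l0 : 0 ≤ lo := by
        refine le_of_mul_le_mul_right (le_trans ?_ h.n1) lg
        rw [zero_mul]
        exact mul_nonneg (mul_nonneg (by norm_num) h.C00) h.μ0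
      have a2 := mul_le_mul_of_nonneg_left (g.ds_lo c).1 l0
      have a3 := (h.nm.rF_sub_lo (g.base.lab.mono j.le_succ)
        (g.base.lab.mono (by omega : j + 1 ≤ p.J - 1))).1
      have a4 : p.z (j + 1) - p.z j ≤ C0 * p.v := (g.base.slo j c).2
      have a5 : μ * (3 / (2 * log p.n) * (p.z (j + 1) - p.z j)) ≤ lo * (p.v / 2) := by
        have e : μ * (3 / (2 * log p.n) * (p.z (j + 1) - p.z j)) =
            3 * μ * (p.z (j + 1) - p.z j) / 2 / log p.n := by field_simp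
        rw [e, div_le_iff₀ lg]
        nlinarith [mul_le_mul_of_nonneg_left a4 h.μ0, mul_le_mul_of_nonneg_right h.n1 v.le]
      have a6 := mul_le_mul_of_nonneg_left a3 h.μ0
      simp only [Nat.succ_eq_add_one] at *
      linarith
  · have r := h.nm.clw.lt _ _ (g.x0 ▸ g.x_le (Nat.zero_le i) c.le) (g.xm i c) (by
      linarith [g.x_le (show i + 1 ≤ P.I from c) le_rfl, h.xe,
        rpow_pos_of_pos h.nm.np (-(3 : ℝ))])
    rw [g.xP_x c.le, show p.xP P (p.J + i).succ = P.x (i + 1) from g.xP_x (i := i + 1) c]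
    have := mul_nonneg h.μ0 (show 0 ≤ p.rF ν (P.x (i + 1)) - p.rF ν (P.x i) by linarith)
    linarith
  · rw [g.xP_top c, g.xP_top (c.trans k.le_succ)]
    linarith

/-- **legality** -/
theorem leg {x : ℝ} (hx : x ≤ p.z p.jf) : (p.famO P om p.jf b 0 0).Leg x := by
  have g := h.geo
  refine ⟨fun i j hij => g.zP_mono (max_le_max hij le_rfl), ?_, fun k => g.zP_le _,
    zP_hi ((Nat.le_add_right _ _).trans (le_max_left _ _)), ?_, fun i j _ => ?_, ?_,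
    monotone_nat_of_le_succ fun k => ?_⟩
  · change x ≤ p.zP P (max 0 p.jf)
    rwa [max_eq_right (Nat.zero_le _), zP_lo h.jJ]
  · simpa [Pm.famO] using h.b0
  · simp [Pm.famO]
  · simp [Pm.famO, Pm.HO]
  · simpa [Pm.famO] using h.H_step k

/-- the marks below the tilt `1` -/
theorem H_Jp : p.HO P om b (p.Jp P) ≤ hi * p.sO P om (p.Jp P) + 6 * μ * log p.n := by
  have g := h.geo
  have e : p.sO P om (p.Jp P) ≤ TT (p.lO P om) := g.sP_le_tt (Nat.le_add_right _ _)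
  have a := (mk_inc g.ok b (lo := 0) (hi := hi) le_rfl (g.sP_nn _) e fun r hr =>
    ⟨h.e0 r ⟨hr.1, hr.2.trans e⟩, h.e2 r hr⟩).2
  have c := mul_le_mul_of_nonneg_left (abs_le.1 (h.nm.abs_rF_log h.xe)).2 h.μ0
  rw [h.H_eq (h.jJ.trans_le J_le), g.xP_top le_rfl]
  linarith [mk_zero g.ok b]

/-- all marks -/
theorem H_N : p.HO P om b (p.NP P) ≤ p.sO P om (p.NP P) + 6 * μ * log p.n := by
  have g := h.geo
  have c := mul_le_mul_of_nonneg_left (abs_le.1 (h.nm.abs_rF_log h.xe)).2 h.μ0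
  have e : p.Jp P ≤ p.NP P := Nat.le_add_right _ _
  rw [h.H_eq (h.jJ.trans_le (J_le.trans e)), g.xP_top e, Pr.Spr41.mk]
  linarith [mul_nonneg h.b0 (Gam_nn (p.lO P om) (p.sO P om (p.NP P)))]

theorem low_bd :
    low (p.famO P om p.jf b 0 0) ≤ hi * p.sO P om (p.Jp P) + 6 * μ * log p.n := by
  have z0 : 0 ≤ p.z p.jf := h.geo.base.lab.pos.le.trans (h.geo.base.lab.mono (Nat.zero_le _))
  refine (low_le (h.leg le_rfl) z0 (fun k => by simp [Pm.famO]) (K := p.Jp P)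
    fun k hk => zP_hi (hk.trans (le_max_left _ _))).trans ?_
  simpa [Pm.famO] using h.H_Jp

end LD

end Crest.Agent.T156.Alt.St56

end
end

-- ▼ part T156/StartGB_56

/-!
# Row 156, ALT route: legality of the graded family and `StartG` (helper56)
-/

set_option autoImplicit false

noncomputable section

namespace Crest.Agent.T156.Alt

open Real Set Filter Topology Pre29
open Crest.Agent.R164.GC Crest.Agent.R339.B Crest.Agent.R339.Var Crest.Agent.T157.Pf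
open Crest.Agent.T156.Pr.Spr41 (ec)
open Mem37 Plt13

namespace St56

variable {β c0 C0 c η K C μ ν σ : ℝ} {A : ℕ} {p : Pm} {P : Pl}

/-- the numeric facts on the static marks, for all masses -/
theorem nm_sml (hβ : 1 < β) : Sml β fun _ p => ∀ μ, p.μ0 ≤ μ → μ ≤ p.κ → Nm p μ := by
  intro c0 C0 h0 h1
  obtain ⟨K, c2, -, H⟩ := fin_nm hβ c0 C0 h0 h1
  filter_upwards [eventually_ge_atTop 2] with A hA
  filter_upwards [ev_pos, ev_le (by norm_num : (0 : ℝ) < 1 / 200)] with c hc hc'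
  refine .of_forall fun η => ?_
  filter_upwards [ev_Big K one_pos] with n hn p b1 b2 b3 b4 b5
  exact (H p ⟨b1, b5, h0, h1, b3 ▸ hA, b4 ▸ hc, b4 ▸ hc', one_pos, b2 ▸ hn⟩).2

theorem lg_c0 (H : Reg β c0 C0 A c η K p) : -η ≤ logb p.n c0 := by
  have := H.lg_le (x := 1 / c0) (one_div_pos.2 H.c00) H.c0_le
  rw [one_div, logb_inv] at this
  linarith

theorem jf_le (H : Reg β c0 C0 A c η K p) (hη : 40 * η ≤ c) : p.jf * p.v ≤ p.r :=
  H.le_of_lg H.jfv0 H.r0 (by linarith [H.lg_jf.2, H.lg_r, H.η_pos])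

theorem am_le (H : Reg β c0 C0 A c η K p) (hη : 40 * η ≤ c) (hj : p.jf < p.J) :
    2 * p.am ≤ p.z p.jf := by
  have a := H.am0
  have b := H.jfv0
  have d := H.c00
  refine le_trans (H.le_of_lg (by positivity) (mul_pos d b) ?_) (PP3.z_bds H.ok.base _ hj).1
  rw [logb_mul d.ne' b.ne', logb_mul two_ne_zero a.ne']
  linarith [H.lg_jf.1, H.lg_am, H.lg_two.2, lg_c0 H, H.η_pos]

/-- the data of `LegG_56` for the graded family -/
theorem ld_gst (H : Reg β c0 C0 A c η K p) (hη : 40 * η ≤ c) (hC : 1 ≤ C)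
    (hK : exp (3 * C0 * C) ≤ K) (G : P1G C p) (M : p.MemG σ) (N : Nm p ν) (h0 : p.μ0 ≤ ν)
    (μp : 0 ≤ μ) (h1 : μ ≤ p.muG σ) (hP : p.PlOk ν { P with hs := fun x => ν * p.rF ν x })
    (hs : P.hs = fun x => μ * p.rF ν x) :
    LD c0 C0 (C0 / (p.n : ℝ) ^ p.A) (2 * p.ye) μ ν p.ye (p.muG σ / C) (C * p.muG σ) p P (p.omG σ)
      (p.bG σ) := by
  obtain ⟨⟨s0, -, -, -, k4, yJ⟩, ⟨om, -, tt, -⟩, ⟨b0, -⟩, e1, e2, -⟩ := G σ M
  have B := H.ok.base
  have v0 := H.v0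
  have y0 := H.ye0
  have d0 := H.c00
  have C1 := H.C01
  have νp := H.μ00.trans_le h0
  have mp := H.muG0 s0
  have vy := H.v_le_r.trans H.r_le_ye
  have el : p.lO P (p.omG σ) = p.lG σ := if_pos hP.g
  have jy := (jf_le H hη).trans H.r_le_ye
  have jJ : p.jf < p.J := by
    have : (p.jf : ℝ) < p.J := lt_of_mul_lt_mul_right (by linarith) v0.le
    exact_mod_cast this
  have lC := H.lg_cst C1 H.C0_le
  have l3 := H.lg_num (x := 3) (by norm_num) (by norm_num)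
  have l4 := H.lg_num (x := 4) (by norm_num) (by norm_num)
  have lc := lg_c0 H
  have C0p : 0 < C0 := by linarith
  have a0 : C0 * (p.v + 2 * p.ye) ≤ C0 * (3 * p.ye) :=
    mul_le_mul_of_nonneg_left (by linarith) C0p.le
  have a1 : C0 * (3 * p.ye) ≤ 1 / 2 := H.le_of_lg (by positivity) (by norm_num) (by
    lg_norm
    linarith [H.lg_ye, H.lg_two.2, H.η_pos])
  have a2 : C0 * (3 * p.ye) ≤ c0 ^ 2 / 4 := H.le_of_lg (by positivity) (by positivity) (by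
    lg_norm
    linarith [H.lg_ye, H.η_pos])
  have a3 : p.ye ≤ c0 / 2 := H.le_of_lg y0 (by positivity) (by
    lg_norm
    linarith [H.lg_ye, H.lg_two.2, H.η_pos])
  have a4 : log p.n * u0 p ν ≤ c0 ^ 2 / 4 := by
    have l0 := H.la0 νp
    have lg0 : 0 < log (p.n : ℝ) := by linarith [H.log1]
    refine H.le_of_lg (mul_pos lg0 N.u0p) (by positivity) ?_
    rw [u0]
    lg_norm
    rw [H.lg_la νp]
    linarith [min_le_left (-(logb p.n ν + 1 / 3) / 3) (-(logb p.n ν + 1 / 3) / 2), H.lg_log.2,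
      H.lg_mono H.μ00 h0, H.lg_μ0, H.η_pos, H.c_le]
  have a5 : c0 ^ 2 / 2 ≤ p.xs := by
    have g := (PP3.z_bds B (p.J - 1) (by omega)).1
    rw [Nat.cast_sub (by omega), Nat.cast_one] at g
    have := mul_le_mul_of_nonneg_left (show c0 / 2 ≤ (p.J - 1) * p.v by linarith [B.lo]) d0.le
    unfold Pm.xs
    linarith
  have a6 : 3 * C0 * C ≤ log p.n := by
    have := log_le_log (exp_pos _) (hK.trans H.K_le)
    rw [log_exp, log_rpow H.N0] at this
    nlinarith [H.η_le, H.c_le, H.log1]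
  have Cp : 0 < C := by linarith
  have g : Geo c0 C0 (C0 / (p.n : ℝ) ^ p.A) (2 * p.ye) p P (p.omG σ) :=
    ⟨B, ⟨om.zero, om.nn, om.supp, fun j => (om.lip j).trans
      (mul_le_mul_of_nonneg_right k4 v0.le)⟩, yJ, by omega, hP.g.ge, hP.x0,
      fun i _ => hP.xm i.lt_succ_self, (x_lt N hP le_rfl).le⟩
  refine ⟨g, N, hs, hP.e1, C0p.le, μp, by linarith,
    fun t ht => ?_, fun t ht => ?_, fun t ht => ?_, ?_, a0.trans a1, by linarith, by linarith, jJ⟩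
  · rw [el] at ht ⊢
    rcases le_total t (p.J * p.v) with a | a
    · exact (div_pos (H.msG0 s0 t) Cp).le.trans (e1 t ⟨ht.1, a⟩).1
    · exact (div_pos mp Cp).le.trans (e2 t ⟨a, tt ▸ ht.2⟩).2.1
  · rw [el, ← H.msG_hi σ ht.1]
    exact (e1 t ⟨y0.le.trans ht.1, ht.2⟩).1
  · rw [g.sP_Jp, show P.γ = 0 from hP.g, zero_mul, add_zero] at ht
    rw [el]
    exact (e1 t ht).2.1.trans (mul_le_mul_of_nonneg_left (H.msG_le s0 t) Cp.le)
  · rw [div_mul_eq_mul_div, le_div_iff₀ Cp]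
    nlinarith [mul_le_mul h1 a6 (by positivity) mp.le]

end St56

open St56

/-- legality of the members of the graded path: grid of the mass `ν`, field `μ * rF ν` -/
def LegW (Λ : ℝ) (p : Pm) : Prop := ∀ (σ μ ν : ℝ) (P : Pl), p.MemG σ → 0 ≤ μ → μ ≤ p.muG σ →
  p.μ0 ≤ ν → ν ≤ p.κ → p.PlOk ν { P with hs := fun x => ν * p.rF ν x } →
  (P.hs = fun x => μ * p.rF ν x) →
  (p.gst P σ).Leg (2 * p.am) ∧ (p.gst P σ).Leg (p.z p.jf) ∧ p.bG σ ≤ p.β ^ 2 ∧
    p.β ^ 2 - p.bG σ ≤ Λ ^ 2 * p.muG σ ∧ (p.gst P σ).H (p.Jp P) ≤ 2 * Λ ^ 2 * p.muG σ ∧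
    low (p.gst P σ) ≤ 2 * Λ ^ 2 * p.muG σ ∧ (p.gst P σ).H (p.NP P) ≤ 3 * Λ ^ 2

theorem legW {β : ℝ} (hβ : 1 < β) : Sml β LegW := by
  refine Sml.glueC hβ (p1G β hβ) (nm_sml hβ) fun C hC c0 C0 h0 h1 =>
    ⟨0, fun A _ => ⟨1, one_pos, fun c _ hc => ⟨c / 40, by positivity, fun η hη _ =>
      ⟨max C (exp (3 * C0 * C)), fun p H G N σ μ ν P M m0 m1 n0 n1 hP hs => ?_⟩⟩⟩⟩
  have hη' : 40 * η ≤ c := by linarith
  have L := ld_gst H hη' hC (le_max_right _ _) G M (N ν n0 n1) n0 m0 m1 hP hs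
  obtain ⟨⟨s0, -⟩, -, ⟨-, b1, -, b2⟩, -⟩ := G σ M
  have mp := H.muG0 s0
  have L0 := H.Λ0
  have CL : C ≤ (p.n : ℝ) ^ η := (le_max_left _ _).trans H.K_le
  have βL : p.β ^ 2 ≤ (p.n : ℝ) ^ η := H.hβ ▸ H.β_le
  have β0 : 0 < p.β ^ 2 := pow_pos H.β0 2
  have e : p.sO P (p.omG σ) (p.Jp P) = p.J * p.v := by
    rw [L.geo.sP_Jp, show P.γ = 0 from hP.g, zero_mul, add_zero]
  have a1 : C * p.β ^ 2 ≤ ((p.n : ℝ) ^ η) ^ 2 := by
    rw [sq ((p.n : ℝ) ^ η)]; exact mul_le_mul CL βL β0.le L0.le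
  have u3 := mul_le_mul m1 H.log_le (by linarith [H.log1]) mp.le
  have a2 : C * p.muG σ * p.sO P (p.omG σ) (p.Jp P) + 6 * μ * log p.n ≤
      2 * ((p.n : ℝ) ^ η) ^ 2 * p.muG σ := by
    have u1 := mul_le_mul_of_nonneg_left H.ok.base.hi (show 0 ≤ C * p.muG σ by positivity)
    have u2 := mul_le_mul_of_nonneg_right a1 mp.le
    have u4 := mul_le_mul_of_nonneg_right H.num_le (mul_pos mp L0).le
    rw [e]
    nlinarith [mul_pos mp L0]
  refine ⟨L.leg (am_le H hη' L.jJ), L.leg le_rfl, b1, ?_, ?_, L.low_bd.trans a2, ?_⟩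
  · rw [sub_le_iff_le_add, ← sub_le_iff_le_add', ← sub_nonneg] at b2
    have := mul_nonneg b2 β0.le
    rw [sub_mul, div_mul_cancel₀ _ β0.ne'] at this
    nlinarith [mul_le_mul_of_nonneg_right a1 mp.le]
  · simpa [Pm.gst, Pm.famO] using L.H_Jp.trans a2
  · have u := L.H_N
    rw [L.geo.sP_N, e] at u
    have u1 := mul_le_mul H.A_le H.log_le (by linarith [H.log1]) L0.le
    have u2 := mul_le_mul_of_nonneg_right (m1.trans ((H.muG_le_κ σ).trans H.κ1))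
      (show 0 ≤ log (p.n : ℝ) by linarith [H.log1])
    have u4 := mul_le_mul_of_nonneg_right H.num_le L0.le
    have u5 : p.v ≤ 1 := H.v_le_r.trans (H.r_le_ye.trans H.ye1)
    have : p.HO P (p.omG σ) (p.bG σ) (p.NP P) ≤ 3 * ((p.n : ℝ) ^ η) ^ 2 := by
      nlinarith [H.Nr_bds.2, H.ok.base.hi, H.log_le, H.Λ1]
    simpa [Pm.gst, Pm.famO] using this

/-- the same for the plateau data `PlG` of any smaller mass -/
def LegG56 (Λ : ℝ) (p : Pm) : Prop := ∀ σ μ P, p.MemG σ → p.μ0 ≤ μ → μ ≤ p.muG σ → p.PlG μ P →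
  (p.gst P σ).Leg (2 * p.am) ∧ (p.gst P σ).Leg (p.z p.jf) ∧ p.bG σ ≤ p.β ^ 2 ∧
    p.β ^ 2 - p.bG σ ≤ Λ ^ 2 * p.muG σ ∧ (p.gst P σ).H (p.Jp P) ≤ 2 * Λ ^ 2 * p.muG σ ∧
    low (p.gst P σ) ≤ 2 * Λ ^ 2 * p.muG σ ∧ (p.gst P σ).H (p.NP P) ≤ 3 * Λ ^ 2

theorem St56.mt_bds {β c0 C0 c η K μ : ℝ} {A : ℕ} {p : Pm} (H : Reg β c0 C0 A c η K p)
    (h0 : p.μ0 ≤ μ) (h1 : μ ≤ p.κ) : p.μ0 ≤ p.mt μ ∧ p.mt μ ≤ p.κ :=
  ⟨h0.trans (Pm.le_mt H.κ0 H.κ1 (H.μ00.le.trans h0)), (Pm.mt_le' μ).trans (max_le h1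
    (mul_le_of_le_one_right H.κ0.le (rpow_le_one_of_one_le_of_nonpos H.N1.le (by norm_num))))⟩

theorem legG {β : ℝ} (hβ : 1 < β) : Sml β LegG56 :=
  (legW hβ).glue' hβ 0 one_pos 0 fun _ _ _ _ _ _ _ _ _ =>
    ⟨0, fun _ H _ _ _ G σ μ P M m0 m1 hP =>
      have a := mt_bds H m0 (m1.trans (H.muG_le_κ σ))
      G σ μ _ P M (H.μ00.le.trans m0) m1 a.1 a.2 hP.ok hP.hs⟩

/-- **START of the graded path** -/
theorem startG {β : ℝ} (hβ : 1 < β) : Gain β StartG := by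
  refine Sml.gain ((legG hβ).glue' hβ 0 one_pos 10 fun c0 C0 A c η _ _ _ _ =>
    ⟨0, fun p H _ _ hη G P hP => ?_⟩)
  have hη' : 10 * η ≤ c := by exact_mod_cast hη
  obtain ⟨g1, -, g2, g3, -, g4, -⟩ := G _ _ P H.memG0 (H.μ0_le_muG H.memG0) le_rfl hP
  have L0 := H.Λ0
  have m0 := H.μ00
  have k0 := H.κ0
  have a : 4 * ((p.n : ℝ) ^ η) ^ 2 * p.μ0 ≤ p.μ0 / p.κ :=
    H.le_of_lg (by positivity) (by positivity) (by
      have := H.N0
      lg_norm
      rw [H.lg_n]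
      linarith [H.lg_κ, (H.lg_num (x := 4) (by norm_num) (by norm_num)).2, H.η_pos])
  have b := mul_le_mul_of_nonneg_left H.muG_sg0 (sq_nonneg ((p.n : ℝ) ^ η))
  have d : (p.gst P p.sg0).d 0 = p.bG p.sg0 := by simp [Pm.gst, Pm.famO]
  exact go_sk H hη' g1 (d ▸ g2) (by rw [d]; nlinarith [mul_pos (pow_pos L0 2) m0]) (by linarith)

end Crest.Agent.T156.Alt

end
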