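import Crest.Agent.T156.SprLeg_59
import Crest.Agent.T156.Snap_59
import Crest.Agent.T156.SprLgD_59
import Crest.Agent.T156.MdDer_77
import Crest.Agent.T156.MdDic_67
import Crest.Agent.T156.PlEx_13
import Crest.Agent.T156.CostP_41
import Crest.Agent.T156.FamSr_28
import Crest.Agent.T156.StartGB_56
import Crest.Agent.T156.AlEx_13

-- ▼ part T156/SprT_59
section

/-!
# Row 156 (helper59): the switch of the grid in stage C is a snap
-/

set_option autoImplicit false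
set_option linter.unusedSectionVars false

noncomputable section

namespace Crest.Agent.T156.Alt.Spr59

open Real Set Filter Topology Pre29 MeasureTheory
open Crest.Agent.R164.GC Crest.Agent.R339.B Crest.Agent.R339.Var Crest.Agent.T157.Pf
open Crest.Agent.T156.Ker
open Mem37 Plt13

/-- `Γ` is Lipschitz in the sup norm of the tilts -/
theorem gam_fine (T0 : ℝ) : ∃ C : ℝ, 1 ≤ C ∧ ∀ (T1 e : ℝ) (l l' : List (ℝ × ℝ)), Tp T1 l →
    Tp T1 l' → T1 ≤ T0 → 0 ≤ e → (∀ s ∈ Icc 0 T1, |lvr 1 l' s - lvr 1 l s| ≤ e) →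
    ∀ t ∈ Icc 0 T1, |Pr.Gam l' t - Pr.Gam l t| ≤ C * e := by
  obtain ⟨C, h1, H⟩ := fun_lip' T0
  refine ⟨C * (1 + T0 ^ 2), by nlinarith [sq_nonneg T0], fun T1 e l l' h h' hT e0 he t ht => ?_⟩
  have a := (H T1 l l' h h' hT t ht.1 (ht.2.trans h.mem.2) (ht.2.trans h'.mem.2) _ _ rfl rfl).1
  rw [min_eq_left ht.2] at a
  have b : Nf l l' t T1 ≤ (T1 - t) * e := by
    have := intervalIntegral.integral_mono_on ht.2 (et_ii l l' t T1)
      (intervalIntegrable_const (c := e)) fun s hs => he s ⟨ht.1.trans hs.1, hs.2⟩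
    simpa [Nf, et] using this
  have c : Wf l l' t ≤ t * (t * e) := by
    have := intervalIntegral.integral_mono_on ht.1 (wet_ii l l' 0 t)
      (intervalIntegrable_const (c := t * e)) fun s hs =>
        mul_le_mul hs.2 (he s ⟨hs.1, hs.2.trans ht.2⟩) (abs_nonneg _) ht.1
    simpa [Wf, et] using this
  have d : t * T1 ≤ T0 ^ 2 := by
    nlinarith [mul_le_mul (ht.2.trans hT) hT (ht.1.trans ht.2) (ht.1.trans (ht.2.trans hT))]
  refine a.trans ?_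
  rw [mul_assoc]
  refine mul_le_mul_of_nonneg_left ?_ (by linarith)
  nlinarith [mul_le_mul_of_nonneg_left b ht.1, mul_le_mul_of_nonneg_right d e0]

variable {c0 C0 η Y μ m y lo b e δ : ℝ} {p : Pm} {P P' : Pl} {om : ℕ → ℝ}

theorem sO_mid (g : Geo c0 C0 η Y p P om) {i : ℕ} (hi : i ≤ P.I) :
    p.sO P om (p.J + i) = p.J * p.v + P.γ * p.lsp P.γ (P.x i) := by
  rw [g.sP_hi (Nat.le_add_right _ _), g.xP_x hi, Nat.sub_eq_zero_of_le (by unfold Pm.Jp; omega)]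
  simp

/-- on the spread the tilt follows the inverse of the spread up to the mesh -/
theorem lvr_mid (g : Geo c0 C0 η Y p P om) (ms : ∀ i < P.I, P.x (i + 1) - P.x i ≤ e)
    (e2 : 1 - P.x P.I ≤ e) {t : ℝ} (ht : p.J * p.v ≤ t) :
    (∃ a ∈ Icc p.xs 1, p.J * p.v + P.γ * p.lsp P.γ a ≤ t ∧ lvr 1 (p.lO P om) t ≤ a + e) ∧
      (lvr 1 (p.lO P om) t = 1 ∨ lvr 1 (p.lO P om) t ∈ Icc p.xs 1 ∧
        t < p.J * p.v + P.γ * p.lsp P.γ (lvr 1 (p.lO P om) t)) := by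
  rcases lt_or_ge t (p.sO P om (p.J + P.I)) with a | a
  · obtain ⟨i, hi, b, c⟩ := Pr.exists_cell (s := fun i => p.sO P om (p.J + i))
      (g.sP_J.le.trans ht) P.I a
    rw [g.ref.2.2.1 (p.J + i) _ b c, show p.J + i = p.J + (i + 1) - 1 from rfl, g.zP_x hi]
    rw [sO_mid g hi.le] at b
    rw [sO_mid g hi] at c
    exact ⟨⟨_, ⟨g.xs_le hi.le, g.x_le1 hi.le⟩, b, by linarith [ms i hi]⟩,
      Or.inr ⟨⟨g.xs_le hi, g.x_le1 hi⟩, c⟩⟩
  · rw [g.ref.2.2.2 _ a]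
    rw [sO_mid g le_rfl] at a
    exact ⟨⟨_, ⟨g.xs_le le_rfl, g.x1⟩, a, by linarith⟩, Or.inl rfl⟩

theorem lvr_le (g : Geo c0 C0 η Y p P om) (g' : Geo c0 C0 η Y p P' om) (eγ : P'.γ = P.γ)
    (ms : ∀ i < P.I, P.x (i + 1) - P.x i ≤ e) (e2 : 1 - P.x P.I ≤ e)
    (ms' : ∀ i < P'.I, P'.x (i + 1) - P'.x i ≤ e) (e2' : 1 - P'.x P'.I ≤ e) {t : ℝ}
    (ht : p.J * p.v ≤ t) : lvr 1 (p.lO P' om) t ≤ lvr 1 (p.lO P om) t + e := by
  obtain ⟨a, a1, a2, a3⟩ := (lvr_mid g' ms' e2' ht).1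
  rw [eγ] at a2
  rcases (lvr_mid g ms e2 ht).2 with u | ⟨u1, u2⟩
  · linarith [a1.2]
  · refine a3.trans (add_le_add_left (le_of_not_gt fun h => ?_) e)
    linarith [mul_le_mul_of_nonneg_left (p.lsp_le P.γ u1.1 h.le a1.2) g.g0]

theorem lvr_near (g : Geo c0 C0 η Y p P om) (g' : Geo c0 C0 η Y p P' om)
    (eγ : P'.γ = P.γ) (ms : ∀ i < P.I, P.x (i + 1) - P.x i ≤ e) (e2 : 1 - P.x P.I ≤ e)
    (ms' : ∀ i < P'.I, P'.x (i + 1) - P'.x i ≤ e) (e2' : 1 - P'.x P'.I ≤ e) (e0 : 0 ≤ e) {t : ℝ}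
    (ht : 0 ≤ t) : |lvr 1 (p.lO P' om) t - lvr 1 (p.lO P om) t| ≤ e := by
  rcases lt_or_ge t (p.J * p.v) with a | a
  · rw [g.lv_lo ht a, g'.lv_lo ht a, sub_self, abs_zero]; exact e0
  · exact abs_le.2 ⟨by linarith [lvr_le g' g eγ.symm ms' e2' ms e2 a],
      by linarith [lvr_le g g' eγ ms e2 ms' e2' a]⟩

theorem LS.H_mid (h : LS c0 C0 η Y μ m y lo p P om b) {i : ℕ} (hi : i ≤ P.I) :
    p.HO P om b (p.J + i) = Pr.Spr41.mk b (p.lO P om) (p.J * p.v + P.γ * p.lsp P.γ (P.x i)) +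
      m * p.rF μ (P.x i) := by
  rw [h.H_eq (h.jJ.trans_le (Nat.le_add_right _ _)), sO_mid h.geo hi, h.geo.xP_x hi]

/-- **label-form comparison of two grids** -/
theorem fle (h : LS c0 C0 η Y μ m y lo p P om b) (h' : LS c0 C0 η Y μ m y lo p P' om b)
    (eγ : P'.γ = P.γ) (ms' : ∀ i < P'.I, P'.x (i + 1) - P'.x i ≤ e) (e2' : 1 - P'.x P'.I ≤ e)
    (e0 : 0 ≤ e) (d0 : 0 ≤ δ) (hk : ∀ t ∈ Icc 0 (p.J * p.v + P.γ),
      Pr.Spr41.mk b (p.lO P om) t ≤ Pr.Spr41.mk b (p.lO P' om) t + δ) :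
    FLe 0 δ e (p.famO P om p.jf b 0 0) (p.famO P' om p.jf b 0 0) := by
  intro k k' _ _ _ _ E
  have g := h.geo
  have g' := h'.geo
  have L' := h'.leg le_rfl
  have jJ := h.jJ
  have γ0 := g.g0
  have J0 : 0 ≤ p.J * p.v := mul_nonneg p.J.cast_nonneg g.v0.le
  change p.zP P (max k p.jf) + e < p.zP P' (max k' p.jf) at E
  rcases g.cases k with c | ⟨i, c, rfl⟩ | c
  · have c' : max k p.jf < p.J := max_lt c jJ
    have u : k < k' := L'.zm.reflect_lt (show p.zP P' (max k p.jf) < p.zP P' (max k' p.jf) by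
      rw [zP_lo c'] at E ⊢; linarith)
    refine le_trans ?_ (add_le_add_left (L'.Hm (Nat.succ_le_of_lt u)) δ)
    rw [h.H_fam, h'.H_fam, Nat.succ_eq_add_one]
    rcases le_or_gt (k + 1) p.jf with a | a
    · rw [Pm.HO, Pm.HO, if_pos a, if_pos a]; linarith
    · rw [h.H_eq a, h'.H_eq a, h.xP_succ c, h'.xP_succ c, sP_lo (P := P') c, ← sP_lo (P := P) c]
      have := hk _ ⟨g.sP_nn (k + 1), ((g.sP_mono c).trans g.sP_J.le).trans (by linarith)⟩
      linarith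
  · rw [max_eq_left (by omega), show p.J + i = p.J + (i + 1) - 1 from rfl, g.zP_x c] at E
    have x1 := h.x_mem c
    obtain ⟨i', a1, a2, a3⟩ : ∃ i' ≤ P'.I, p.J + i' ≤ k' ∧ P.x (i + 1) ≤ P'.x i' := by
      rcases g'.cases k' with c' | ⟨i', c', rfl⟩ | c'
      · have c'' : max k' p.jf < p.J := max_lt c' jJ
        rw [zP_lo c''] at E
        have : p.z (max k' p.jf) ≤ p.xs := g.base.lab.mono (by omega)
        linarith [x1.1]
      · rw [max_eq_left (by omega), show p.J + i' = p.J + (i' + 1) - 1 from rfl, g'.zP_x c'] at E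
        exact ⟨i', c'.le, le_rfl, by linarith [ms' i' c']⟩
      · exact ⟨P'.I, le_rfl, c', by linarith [g'.zP_le (max k' p.jf)]⟩
    refine le_trans ?_ (add_le_add_left (L'.Hm a2) δ)
    rw [h.H_fam, h'.H_fam, add_assoc, h.H_mid c, h'.H_mid a1, eγ]
    have w := g.lsp_mem c
    have t0 : 0 ≤ p.J * p.v + P.γ * p.lsp P.γ (P.x (i + 1)) := by
      have := mul_nonneg γ0 w.1; linarith
    have u1 := hk _ ⟨t0, add_le_add_right (mul_le_of_le_one_right γ0 w.2) _⟩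
    have u2 := h'.mono (t := p.J * p.v + P.γ * p.lsp P.γ (P'.x i')) t0 (add_le_add_right
      (mul_le_mul_of_nonneg_left (p.lsp_le P.γ x1.1 a3 (g'.x_le1 a1)) γ0) _)
    have u3 := mul_le_mul_of_nonneg_left (h.nm.monoOn x1 (h'.x_mem a1) a3) h.m0
    linarith
  · rw [zP_hi (c.trans (le_max_left _ _))] at E
    linarith [g'.zP_le (max k' p.jf)]

end Spr59

open Spr59 Mem37 Plt13 Real Set

/-- **the switch of the grid** -/
theorem c2T {β g : ℝ} (hβ : 1 < β) (hg : 7 / 20 ≤ g) : Gain β (C2T g) := by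
  obtain ⟨C2, c2, G2⟩ := gam_fine (β ^ 2 + 1)
  refine Sml.gain (Sml.glueC hβ (crS β hβ) ((nm_sml hβ).and (legA hβ hg))
    fun C hC c0 C0 h0 h1 => ⟨0, fun A _ => ⟨1, one_pos, fun c _ hc => ⟨c / 40, by positivity,
      fun η hη _ => ⟨max C2 (Real.exp (3 * C0 * C)), fun p H G ⟨N, Lg⟩ α α' P P' a0 a1 a2 hP hP' =>
        ?_⟩⟩⟩⟩)
  have hη' : 40 * η ≤ c := by linarith
  have a3 := a1.trans a2
  have F : p.Fine P := hP.toFine
  have F' : p.Fine P' := hP'.elim (·.toFine) (·.2)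
  obtain ⟨L, R⟩ := ls_al hg H hη' hC (le_max_right _ _) G N F.x0 F.xm F.e1 a0 a3
  obtain ⟨L', R'⟩ := ls_al hg H hη' hC (le_max_right _ _) G N F'.x0 F'.xm F'.e1 a0 a3
  obtain ⟨l, t⟩ := Lg.2.1 α' P a0 a3 F
  obtain ⟨l', t'⟩ := Lg.2.1 α' P' a0 a3 F'
  have N0 := H.N0
  have am := H.am0
  set e := (p.n : ℝ) ^ (-(2 : ℝ)) with he
  have e0 : 0 < e := H.rp0 _
  have γ1 : (p.alP g P α').γ ≤ 1 := rpow_le_one_of_one_le_of_nonpos H.N1.le (by linarith)
  have b0 := L.b0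
  have hi : p.J * p.v ≤ β ^ 2 := H.ok.base.hi.trans_eq (by rw [H.hβ])
  have k : ∀ t ∈ Icc 0 (p.J * p.v + (p.alP g P α').γ),
      |Pr.Spr41.mk (p.b 1 p.ye) (p.lO (p.alP g P' α') (p.om 1 p.ye)) t -
        Pr.Spr41.mk (p.b 1 p.ye) (p.lO (p.alP g P α') (p.om 1 p.ye)) t| ≤
        p.b 1 p.ye * (C2 * e) := fun t ht => by
    have := G2 _ e _ _ (L.geo.spr R.γN).tp2 (L'.geo.spr R'.γN).tp2 (by linarith) e0.le
      (fun s hs => lvr_near L.geo L'.geo rfl F.ms F.e2 F'.ms F'.e2 e0.le hs.1) t ht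
    unfold Pr.Spr41.mk
    rw [show ∀ x y : ℝ, t - p.b 1 p.ye * x - (t - p.b 1 p.ye * y) = -(p.b 1 p.ye * (x - y)) from
      fun x y => by ring, abs_neg, abs_mul, abs_of_nonneg b0]
    exact mul_le_mul_of_nonneg_left this b0
  have d0 : 0 ≤ p.b 1 p.ye * (C2 * e) := by positivity
  have S : Snp 0 (p.b 1 p.ye * (C2 * e)) e p.n (p.alM g P α') (p.alM g P' α') :=
    ⟨Nat.zero_le _, Nat.zero_le _, fun _ h => absurd h (Nat.not_lt_zero _),
      fun k _ => rfl, fun k h => by rw [Nat.le_zero.1 h, l.H0, l'.H0],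
      fun k _ => by simp [Pm.alM, Pm.tst, Pm.fam], fun k _ => by simp [Pm.alM, Pm.tst, Pm.fam],
      d0, e0.le, t (Or.inr hP.e3), t' (hP'.elim (fun h => Or.inr h.e3) fun h => Or.inl h.1),
      fle L L' rfl F'.ms F'.e2 e0.le d0 fun t ht => by linarith [(abs_le.1 (k t ht)).1],
      fle L' L rfl F.ms F.e2 e0.le d0 fun t ht => by linarith [(abs_le.1 (k t ht)).2]⟩
  have w : ∀ {M : Md}, M.Leg (2 * p.am) → M.Leg p.am := fun l =>
    ⟨l.zm, le_trans (by linarith) l.z0, l.z1, l.zN, l.d0, l.dm, l.H0, l.Hm⟩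
  refine ⟨_, stage_snap (γ := p.ga) S H.n0 H.ok.s1 (w l) (w l') ?_ ?_, by simp⟩
  · simpa [Pm.alM, Pm.tst, Pm.fam] using R.b2
  · have L0 := H.Λ0
    have u1 : p.b 1 p.ye ≤ (p.n : ℝ) ^ η := R.b2.trans (H.hβ ▸ H.β_le)
    have u2 : C2 ≤ (p.n : ℝ) ^ η := (le_max_left _ _).trans H.K_le
    have u3 : 2 * ((p.n : ℝ) ^ η * (p.n : ℝ) ^ η) ≤ p.n := H.le_of_lg (by positivity) N0 (by
      lg_norm
      rw [H.lg_n]
      linarith [H.lg_two.2, H.η_le, H.c_le])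
    have u4 : 2 * (p.b 1 p.ye * (C2 * e)) ≤ e * p.n := by
      nlinarith [mul_le_mul_of_nonneg_right ((mul_le_mul_of_nonneg_left
        (mul_le_mul u1 u2 (by linarith) L0.le) zero_le_two).trans u3) e0.le]
    have u5 : 2 * p.n * (2 * (e * p.n)) ≤ ((p.n : ℝ) ^ η)⁻¹ * (p.n : ℝ) ^ ((1 : ℝ) / 6) :=
      H.le_of_lg (by positivity) (by positivity) (by
        rw [he]
        lg_norm
        rw [H.lg_n]
        linarith [H.lg_two.2, H.η_le, H.c_le])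
    refine le_trans (mul_le_mul_of_nonneg_left (by linarith) (by positivity)) u5

end Crest.Agent.T156.Alt

end
end

-- ▼ part T156/SprC_16
section

/-!
# Row 156 (helper16): the absolute steps `C1T`, `C3S` of stage C
-/

set_option autoImplicit false

noncomputable section

namespace Crest.Agent.T156.Alt

open Real Set Filter Topology

namespace SprC16

/-- segment in the field -/
def sg (M M' : Md) (t : ℝ) : Md := { M with H := fun k => M.H k + t * (M'.H k - M.H k) }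

theorem V_congr {M M' : Md} (hN : M'.N = M.N) (hz : M'.z = M.z) (hd : M'.d = M.d)
    (hH : M'.H = M.H) (m : ℕ) (a : ℝ) : M'.V m a = M.V m a := by
  obtain ⟨N, z, d, H, l, s, c⟩ := M
  obtain ⟨N', z', d', H', l', s', c'⟩ := M'
  simp only at hN hz hd hH
  subst hN hz hd hH
  rfl

theorem leg_sg {M M' : Md} {x t : ℝ} (h : M.Leg x) (h' : M'.Leg x) (ht : t ∈ Icc (0 : ℝ) 1) :
    (sg M M' t).Leg x :=
  ⟨h.zm, h.z0, h.z1, h.zN, h.d0, h.dm, by simp [sg, h.H0, h'.H0], fun i j hij => by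
    have a := h.Hm hij
    have b := h'.Hm hij
    simp only [sg]
    nlinarith [ht.1, ht.2]⟩

/-- **the link between two models with the same tilts and `W` variances, absolute form** -/
theorem lnk_H {M M' : Md} {x : ℝ} (h : M.Leg x) (h' : M'.Leg x) (hN : M'.N = M.N)
    (hz : M'.z = M.z) (hd : M'.d = M.d) {m : ℕ} (hm : 0 < m) (a a' : ℝ) :
    |M'.V m a' - M'.V m a - (M.V m a' - M.V m a)| ≤
      m / 2 * ∑ k ∈ Finset.range M.N, (M.z (k + 1) - M.z k) * |M'.H (k + 1) - M.H (k + 1)| := by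
  obtain ⟨t, ht, e⟩ := Md77.V_mvt (M := sg M M') (N := M.N) (z := M.z) hm (fun _ => rfl)
    (fun _ => rfl) (d' := fun _ _ => 0) (H' := fun _ k => M'.H k - M.H k) one_pos a a'
    (fun k _ => continuousOn_const) (fun k _ => by simp only [sg]; fun_prop)
    (fun t _ k _ => hasDerivAt_const _ _)
    (fun t _ k _ => by
      simpa [sg] using ((hasDerivAt_id t).mul_const (M'.H k - M.H k)).const_add (M.H k))
    (fun _ => by rw [h.H0, h'.H0, sub_self])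
    fun t ht => Md77.inc_of_leg (leg_sg h h' (Ioo_subset_Icc_self ht))
  have e1 : ∀ b, (sg M M' 1).V m b = M'.V m b := fun b =>
    V_congr (M := M') (M' := sg M M' 1) hN.symm hz.symm hd.symm (by funext k; simp [sg]) m b
  have e0 : ∀ b, (sg M M' 0).V m b = M.V m b := fun b =>
    V_congr (M := M) (M' := sg M M' 0) rfl rfl rfl (by funext k; simp [sg]) m b
  have L := leg_sg h h' (Ioo_subset_Icc_self ht)
  rw [e1, e1, e0, e0, Md77.DV_sub _ a a' (fun _ => 0) (by rw [h.H0, h'.H0, sub_self])] at e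
  rw [e, sub_zero, one_mul, abs_neg, abs_mul, Nat.abs_cast, zero_div, zero_mul, zero_add,
    div_eq_mul_inv (m : ℝ), mul_assoc, Finset.mul_sum]
  refine mul_le_mul_of_nonneg_left ((Finset.abs_sum_le_sum_abs _ _).trans
    (Finset.sum_le_sum fun k _ => ?_)) m.cast_nonneg
  have z0 : 0 ≤ M.z (k + 1) - M.z k := sub_nonneg.2 (h.zm k.le_succ)
  rw [Md67.dz_succ L, abs_mul]
  simp only [zero_mul, zero_add]
  rw [show (sg M M' t).z = M.z from rfl, abs_of_nonneg z0, abs_mul, abs_div, abs_two]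
  have r : |(sg M M' t).rb m a' (k + 1) - (sg M M' t).rb m a (k + 1)| ≤ 1 :=
    abs_le.2 ⟨by linarith [Md67.rb_nonneg (M := sg M M' t) (a := a') hm (k + 1),
      Md67.rb_le_one (M := sg M M' t) (a := a) hm (k + 1)],
      by linarith [Md67.rb_nonneg (M := sg M M' t) (a := a) hm (k + 1),
      Md67.rb_le_one (M := sg M M' t) (a := a') hm (k + 1)]⟩
  have := mul_le_mul_of_nonneg_left r (mul_nonneg z0 (abs_nonneg (M'.H (k + 1) - M.H (k + 1))))
  linarith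

/-- a two point stage -/
theorem go_H {δ : ℝ} {p : Pm} {M M' : Md} (h : M.Leg p.am) (h' : M'.Leg p.am) (hN : M'.N = M.N)
    (hz : M'.z = M.z) (hd : M'.d = M.d) (hb : M.d 0 ≤ p.β ^ 2) (hn : 0 < p.n) (hs : 0 ≤ p.s)
    (hδ : 0 ≤ δ)
    (hB : p.n * ∑ k ∈ Finset.range M.N, (M.z (k + 1) - M.z k) * |M'.H (k + 1) - M.H (k + 1)| ≤
      δ * (p.n : ℝ) ^ ((1 : ℝ) / 6) * p.s ^ 5) : Go δ p M M' := by
  refine ⟨{M, M'}, ⟨by simp, fun K hK => ?_, fun a a' Q _ hQ _ m m1 m2 K hK => ?_⟩, by simp⟩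
  · rcases hK with rfl | rfl
    exacts [⟨h, hb⟩, ⟨h', hd ▸ hb⟩]
  · rcases hK with rfl | rfl
    · rw [sub_self, abs_zero]; positivity
    · refine (lnk_H h h' hN hz hd (hn.trans_le m1) a a').trans ?_
      have s0 : 0 ≤ ∑ k ∈ Finset.range M.N,
          (M.z (k + 1) - M.z k) * |K.H (k + 1) - M.H (k + 1)| := Finset.sum_nonneg fun k _ =>
        mul_nonneg (sub_nonneg.2 (h.zm k.le_succ)) (abs_nonneg _)
      have m3 : (m : ℝ) / 2 ≤ p.n := by
        have : (m : ℝ) ≤ 2 * p.n := by exact_mod_cast m2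
        linarith
      refine ((mul_le_mul_of_nonneg_right m3 s0).trans hB).trans ?_
      have : 0 ≤ Q * p.s ^ 2 := by positivity
      exact mul_le_mul_of_nonneg_left (by linarith) (by positivity)

/-- sup form -/
theorem sum_le {M : Md} {x B : ℝ} (h : M.Leg x) (hx : 0 ≤ x) (hB : 0 ≤ B) {g : ℕ → ℝ}
    (hg : ∀ k < M.N, M.z k < M.z (k + 1) → g (k + 1) ≤ B) :
    ∑ k ∈ Finset.range M.N, (M.z (k + 1) - M.z k) * g (k + 1) ≤ B := by
  refine (Finset.sum_le_sum (g := fun k => (M.z (k + 1) - M.z k) * B) fun k hk => ?_).trans ?_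
  · rcases (h.zm k.le_succ).eq_or_lt with e | e
    · rw [show M.z (k + 1) = M.z k from e.symm, sub_self, zero_mul, zero_mul]
    · exact mul_le_mul_of_nonneg_left (hg k (Finset.mem_range.1 hk) e) (sub_nonneg.2 e.le)
  · rw [← Finset.sum_mul, Finset.sum_range_sub, h.zN]
    nlinarith [h.z0]

theorem zP_top (p : Pm) (P : Pl) {k : ℕ} (hk : p.Jp P ≤ k) : p.zP P k = 1 := by
  unfold Pm.zP
  rw [if_neg (by unfold Pm.Jp at hk; omega), if_neg (by omega)]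

theorem lt_Jp {p : Pm} {P : Pl} {jl k : ℕ}
    (h : p.zP P (max k jl) < p.zP P (max (k + 1) jl)) : jl ≤ k ∧ k < p.Jp P := by
  constructor
  · by_contra hk
    rw [max_eq_right (by omega), max_eq_right (by omega)] at h
    exact lt_irrefl _ h
  · by_contra hk
    rw [zP_top p P (by omega), zP_top p P (by omega)] at h
    exact lt_irrefl _ h

end SprC16

open SprC16

/-- legality of the models of stage C -/
def LegC (g : ℝ) (_δ : ℝ) (p : Pm) : Prop :=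
  p.b 1 p.ye ≤ p.β ^ 2 ∧
  (∀ α P, 0 < α → α ≤ 1 → p.AlOk g α P → (p.alM g P α).Leg p.am ∧ (p.alM g P 0).Leg p.am) ∧
  ∀ P, p.PlOk p.μe P → p.AlOk g 1 P → (p.c1M g P 1).Leg p.am

theorem c1T_at {g δ d : ℝ} {p : Pm} (L : LegC g d p) (hn : 0 < p.n) (hs : 0 ≤ p.s) (hδ : 0 ≤ δ) :
    C1T g δ p := fun P hP hA => by
  refine go_H (L.2.2 P hP hA) (L.2.1 1 P one_pos le_rfl hA).1 rfl rfl rfl
    (by simpa [Pm.c1M, Pm.fam] using L.1) hn hs hδ ?_
  rw [Finset.sum_eq_zero, mul_zero]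
  · positivity
  intro k _
  rcases ((L.2.2 P hP hA).zm k.le_succ).eq_or_lt with e | e
  · rw [show (p.c1M g P 1).z (k + 1) = (p.c1M g P 1).z k from e.symm, sub_self, zero_mul]
  · have := (lt_Jp e).2
    have e2 : (p.c1M g P 1).H (k + 1) = (p.alM g P 1).H (k + 1) := by
      show p.HP P 1 p.ye (p.b 1 p.ye + 0) (k + 1) + 1 * ((p.alM g P 1).H (min (k + 1) (p.Jp P)) -
        (p.tst P p.ye).H (min (k + 1) (p.Jp P))) = _
      rw [min_eq_left (by omega)]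
      have : (p.tst P p.ye).H (k + 1) = p.HP P 1 p.ye (p.b 1 p.ye + 0) (k + 1) + 0 := rfl
      rw [this]
      ring
    rw [e2, sub_self, abs_zero, mul_zero]

theorem c3S_at {g δ d : ℝ} {p : Pm} (L : LegC g d p) (N : Plt13.Nm p p.μe) (hn : 1 ≤ p.n)
    (hs : 1 ≤ p.s) (m0 : 0 ≤ p.μe) (m1 : p.μe ≤ 1) (hδ0 : 0 ≤ δ)
    (hδ : 6 * log p.n ≤ δ * (p.n : ℝ) ^ ((1 : ℝ) / 6)) : C3S g δ p := fun α P a0 a1 hA => by
  have n1 : (1 : ℝ) ≤ p.n := by exact_mod_cast hn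
  have a2 : α ≤ 1 := a1.trans (inv_le_one_of_one_le₀ n1)
  obtain ⟨l1, l0⟩ := L.2.1 α P a0 a2 hA
  have lg : 0 ≤ log (p.n : ℝ) := log_nonneg n1
  have am0 : 0 ≤ p.am := mul_nonneg (by linarith) (rpow_nonneg (by linarith) _)
  refine go_H l1 l0 rfl rfl rfl (by simpa [Pm.alM, Pm.tst, Pm.fam] using L.1) hn (by linarith) hδ0 ?_
  have b := sum_le l1 am0 (B := α * (6 * log p.n)) (by positivity)
    (g := fun k => |(p.alM g P 0).H k - (p.alM g P α).H k|) fun k _ e => by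
      obtain ⟨k1, k2⟩ := lt_Jp e
      have k3 : k < p.Jp P := k2
      have e1 : (p.alM g P 0).H (k + 1) - (p.alM g P α).H (k + 1) =
          -(α * (p.μe * p.rF p.μe (p.xP P (k + 1)))) := by
        have : ∀ β, (p.alM g P β).H (k + 1) = p.sP (p.alP g P 0) 1 p.ye (k + 1) -
            (p.b 1 p.ye + 0) * p.qP (p.alP g P 0) 1 p.ye (k + 1) +
            β * (p.μe * p.rF p.μe (p.xP P (k + 1))) + 0 := fun β => by
          show p.HP (p.alP g P β) 1 p.ye (p.b 1 p.ye + 0) (k + 1) + 0 = _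
          rw [Pm.HP, if_neg (by omega)]
          rfl
        rw [this, this]
        ring
      have x1 : p.xP P (k + 1) ≤ P.x P.I := by
        have h1 : p.xP P (k + 1) = (p.alM g P α).z k := by
          show p.zP P (min (k + 1) (p.Jp P) - 1) = p.zP P (max k p.jf)
          rw [min_eq_left (by omega), max_eq_left k1, Nat.add_sub_cancel]
        have h2 : (p.alM g P α).z (p.Jp P - 1) = p.zP P (p.Jp P - 1) := by
          show p.zP P (max (p.Jp P - 1) p.jf) = _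
          rw [max_eq_left (by omega)]
        rw [h1]
        refine (l1.zm (by omega : k ≤ p.Jp P - 1)).trans ?_
        rw [h2, Pm.zP]
        unfold Pm.Jp at k3 ⊢
        split_ifs with c1 c2
        · have : P.I = 0 := by omega
          rw [this, hA.x0, add_zero]
          rfl
        · rw [show p.J + P.I - 1 + 1 - p.J = P.I by omega]
        · omega
      have r := N.abs_rF_log (x := p.xP P (k + 1)) (by linarith [hA.e3])
      simp only [e1]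
      rw [abs_neg, abs_mul, abs_mul, abs_of_pos a0, abs_of_nonneg m0]
      refine mul_le_mul_of_nonneg_left ?_ a0.le
      nlinarith [abs_nonneg (p.rF p.μe (p.xP P (k + 1)))]
  refine (mul_le_mul_of_nonneg_left b (by linarith)).trans ?_
  have c1 : (p.n : ℝ) * α ≤ 1 := by
    have := mul_le_mul_of_nonneg_left a1 (by linarith : (0 : ℝ) ≤ p.n)
    rwa [mul_inv_cancel₀ (by linarith)] at this
  have c2 : 1 ≤ p.s ^ 5 := one_le_pow₀ hs
  have c3 : 0 ≤ δ * (p.n : ℝ) ^ ((1 : ℝ) / 6) := by positivity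
  nlinarith

theorem nmE {β : ℝ} (hβ : 1 < β) : Gain β fun _ p => Plt13.Nm p p.μe :=
  Gain.introF (Par.intro' 2 one_pos fun c0 C0 _ _ h0 h1 _ _ _ => by
    obtain ⟨K, c2, hc, H⟩ := Plt13.fin_nm hβ c0 C0 h0 h1
    refine ⟨1, one_pos, 1, one_pos, K, fun p _ _ h => (H p h).2 _ ?_ ?_⟩
    · obtain ⟨a, b, c⟩ := Plt13.y1_facts h
      refine a.trans ?_
      unfold Pm.μe Pm.μ
      exact mul_le_mul_of_nonneg_left (pow_le_pow_left₀ (h.r_pos.le.trans c) b 2)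
        (by rw [one_mul]; exact h.κ_pos.le)
    · unfold Pm.μe Pm.μ Pm.ye
      have k0 := h.κ_pos
      have k1 : p.κ ≤ 1 := h.κ_le_one
      rw [one_mul]
      exact mul_le_of_le_one_right k0.le (pow_le_one₀ (by positivity) (pow_le_one₀ k0.le k1)))

theorem LegA.legC {g d : ℝ} {p : Pm} (L : LegA g d p) (hs : 0 < p.s) : LegC g d p := by
  have a : p.am ≤ 2 * p.am := by
    have : 0 ≤ p.am := mul_nonneg hs.le (rpow_nonneg p.n.cast_nonneg _)
    linarith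
  exact ⟨L.1.2, fun α P a0 a1 h => ⟨Md67.Leg_mono (L.2.1 α P a0.le a1 h.toFine).1 a,
    Md67.Leg_mono (L.2.1 0 P le_rfl zero_le_one h.toFine).1 a⟩,
    fun P h _ => Md67.Leg_mono ((L.2.2 P h).2.2 1 ⟨zero_le_one, le_rfl⟩).1 a⟩

/-- **`C1T` from legality** -/
theorem c1T_of {β g : ℝ} (hβ : 1 < β) (hL : Sml β (LegA g)) : Gain β (C1T g) := by
  refine Sml.gain (Sml.glue' hβ hL 2 one_pos 1 ?_)
  intro c0 C0 A c η _ _ _ _
  exact ⟨1, fun p H _ _ _ L => c1T_at (L.legC H.s0) H.n0 H.s0.le (inv_nonneg.2 H.Λ0.le)⟩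

/-- **`C3S` from legality** -/
theorem c3S_of {β g : ℝ} (hβ : 1 < β) (hL : Sml β (LegA g)) : Gain β (C3S g) := by
  refine Sml.gain (Sml.glue' hβ (hL.and
    ((nmE hβ).sml 1 fun _ _ _ _ _ H => H)) 2 one_pos 1 ?_)
  intro c0 C0 A c η _ _ _ _
  refine ⟨1, fun p H _ _ _ ⟨L, N⟩ => c3S_at (L.legC H.s0) N H.n1 H.ok.s1 ?_ ?_ (inv_nonneg.2 H.Λ0.le) ?_⟩
  · exact mul_nonneg (mul_nonneg zero_le_one H.κ0.le) (sq_nonneg _)
  · unfold Pm.μe Pm.μ
    rw [one_mul]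
    exact mul_le_one₀ H.κ1 (sq_nonneg _) (pow_le_one₀ H.ye0.le H.ye1)
  · rw [← div_eq_inv_mul, le_div_iff₀ H.Λ0]
    have a : 6 * log (p.n : ℝ) ≤ (p.n : ℝ) ^ η * (p.n : ℝ) ^ η :=
      mul_le_mul (by linarith [H.num_le]) H.log_le (by linarith [H.log1]) H.Λ0.le
    refine (mul_le_mul_of_nonneg_right a H.Λ0.le).trans ?_
    rw [← rpow_add H.N0, ← rpow_add H.N0]
    exact Pre29.rp_le H.n1 (by linarith [H.η_le, H.c_le])

end Crest.Agent.T156.Alt

end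
end

-- ▼ part T156/SprC2_11
section

/-!
# Row 156, stage C2: the static marks are halved (helper11)
-/

set_option autoImplicit false
set_option linter.unusedSectionVars false

noncomputable section

namespace Crest.Agent.T156.Alt.C2s11

open Real Set Filter Topology
open Crest.Agent.R164.GC Crest.Agent.R339.B Crest.Agent.R339.Var Crest.Agent.T157.Pf
open Crest.Agent.T156.Pr.Spr41 (ec mk_inc Gam_inc)
open Mem37 Plt13 Cost41 Md67

/-- the data of one halving -/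
structure AD (c0 C0 η Y K g α : ℝ) (p : Pm) (P : Pl) : Prop where
  geo : Geo c0 C0 η Y p (p.alP g P 0) (p.om 1 p.ye)
  nm : Nm p p.μe
  al : p.AlOk g α P
  α0 : 0 < α
  α1 : α ≤ 1
  K1 : 1 ≤ K
  μ0 : 0 < p.μe
  μ1 : p.μe ≤ 1
  CK : C0 ≤ K
  cK : 1 ≤ c0 * K
  b0 : 0 ≤ p.b 1 p.ye
  y0 : 0 ≤ p.ye
  crit : ∀ t ∈ Icc p.ye (p.sO (p.alP g P 0) (p.om 1 p.ye) (p.Jp P)),
    p.μe / K ≤ ec (p.b 1 p.ye) (p.lO (p.alP g P 0) (p.om 1 p.ye)) t
  sT : p.sO (p.alP g P 0) (p.om 1 p.ye) (p.Jp P) ≤ K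
  xs0 : 4 / K ≤ p.xs
  xs1 : 1 / K ≤ 1 - p.xs
  jJ : p.jf < p.J
  jx : p.z p.jf < p.xs / 2
  n1 : 6 * K ^ 2 ≤ log p.n
  n2 : log p.n * u0 p p.μe ≤ 2 / K
  n3 : 6 * (K * p.v) ≤ p.la p.μe
  n4 : K ^ 2 * (2 * p.ye + p.v) ≤ 1
  n5 : 2 * p.lL * (3 * p.v) ≤ (p.n : ℝ) ^ (-g) * (p.n : ℝ) ^ (-(3 : ℝ))
  n6 : (p.n : ℝ) ^ (-g) ≤ p.la p.μe
  n7 : (p.n : ℝ) ^ (-(2 : ℝ)) ≤ p.la p.μe ^ 2
  n8 : K * p.v ≤ (p.n : ℝ) ^ (-(3 : ℝ))
  leg : ∀ a, α / 2 ≤ a → a ≤ α → (p.alM g P a).Leg p.am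

/-- the velocity -/
def ph (p : Pm) (g α : ℝ) (P : Pl) (k : ℕ) : ℝ :=
  if k ≤ p.jf then 0 else -(α / 2) * (p.μe * p.rF p.μe (p.xP (p.alP g P 0) k))

theorem z_eq (p : Pm) (g a : ℝ) (P : Pl) (k : ℕ) :
    (p.alM g P a).z k = p.zP (p.alP g P 0) (max k p.jf) := rfl


theorem H_eq (p : Pm) (g a : ℝ) (P : Pl) (k : ℕ) : (p.alM g P a).H k = if k ≤ p.jf then 0 else
    Pr.Spr41.mk (p.b 1 p.ye) (p.lO (p.alP g P 0) (p.om 1 p.ye))
      (p.sO (p.alP g P 0) (p.om 1 p.ye) k) + a * (p.μe * p.rF p.μe (p.xP (p.alP g P 0) k)) := by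
  change (if k ≤ p.jf then 0 else p.sO (p.alP g P 0) (p.om 1 p.ye) k - (p.b 1 p.ye + 0) *
    Pr.Gam (p.lO (p.alP g P 0) (p.om 1 p.ye)) (p.sO (p.alP g P 0) (p.om 1 p.ye) k) +
      a * (p.μe * p.rF p.μe (p.xP (p.alP g P 0) k))) + 0 = _
  rw [add_zero, add_zero]; rfl

theorem fs (p : Pm) (g α : ℝ) (P : Pl) :
    FS (fun t => p.alM g P (α - t * (α / 2))) (ph p g α P) := by
  refine ⟨fun _ => rfl, fun _ => rfl, fun _ => rfl, fun t k => ?_, if_pos (Nat.zero_le _)⟩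
  simp only [H_eq, ph]
  split_ifs <;> ring

namespace AD

variable {c0 C0 η Y K g α : ℝ} {p : Pm} {P : Pl} (h : AD c0 C0 η Y K g α p P)
include h

theorem K0 : 0 < K := by linarith [h.K1]
theorem v0 : 0 < p.v := h.geo.v0
theorem γ0 : 0 < (p.n : ℝ) ^ (-g) := rpow_pos_of_pos h.nm.np _
theorem iK : 0 < 1 / K := one_div_pos.2 h.K0
theorem e4 : 4 / K = 4 * (1 / K) := by ring
theorem e2 : 2 / K = 2 * (1 / K) := by ring
theorem c00 : 0 < c0 := by
  by_contra c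
  nlinarith [h.cK, h.K0, not_lt.1 c]
theorem vK : K * p.v ≤ 1 / K := by
  rw [le_div_iff₀ h.K0]; nlinarith [h.n4, mul_nonneg (sq_nonneg K) h.y0]

theorem ex : ∃ k, p.xs / 2 ≤ p.z k :=
  ⟨p.J - 1, by change p.xs / 2 ≤ p.xs; linarith [h.nm.x0]⟩

open Classical in
/-- the first node of the top window -/
def j1 : ℕ := Nat.find h.ex

theorem j1_ge : p.xs / 2 ≤ p.z h.j1 := by classical exact Nat.find_spec h.ex
theorem j1_lt {k : ℕ} (hk : k < h.j1) : p.z k < p.xs / 2 := by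
  classical exact not_le.1 (Nat.find_min h.ex hk)
theorem j1_le : h.j1 ≤ p.J - 1 := by
  classical exact Nat.find_min' h.ex (by change p.xs / 2 ≤ p.xs; linarith [h.nm.x0])
theorem jf_lt : p.jf < h.j1 := not_le.1 fun c =>
  absurd (h.j1_ge.trans (h.geo.base.lab.mono c)) (not_le.2 h.jx)

theorem dz_lo {k : ℕ} (hk : k + 1 < p.J) :
    p.v / K ≤ p.z (k + 1) - p.z k ∧ p.z (k + 1) - p.z k ≤ K * p.v := by
  obtain ⟨a, b⟩ := h.geo.base.slo k hk
  have v := h.v0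
  refine ⟨le_trans ?_ a, b.trans (mul_le_mul_of_nonneg_right h.CK v.le)⟩
  rw [div_le_iff₀ h.K0]; nlinarith [h.cK]

theorem z_lo (a : ℝ) {k : ℕ} (h1 : p.jf ≤ k) (h2 : k < p.J) : (p.alM g P a).z k = p.z k := by
  rw [z_eq, max_eq_left h1, zP_lo h2]

theorem z_hi (a : ℝ) {i : ℕ} (hi : i ≤ P.I) : (p.alM g P a).z (p.J - 1 + i) = P.x i := by
  have := h.jJ
  rw [z_eq, max_eq_left (by omega), show p.J - 1 + i = p.J + i - 1 by omega]
  exact h.geo.zP_x hi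

theorem xP_eq (a : ℝ) {k : ℕ} (h1 : p.jf < k) (h2 : k ≤ p.Jp P) :
    p.xP (p.alP g P 0) k = (p.alM g P a).z (k - 1) := by
  rw [z_eq, max_eq_left (by omega)]; exact xP_lo h2

theorem x_ge (i : ℕ) : p.xs ≤ P.x i := h.al.x0 ▸ h.al.xm.monotone (Nat.zero_le i)
theorem x_top {i : ℕ} (hi : i ≤ P.I) : (p.n : ℝ) ^ (-(3 : ℝ)) ≤ 1 - P.x i := by
  linarith [h.al.e3, h.al.xm.monotone hi]
theorem x_lt {i : ℕ} (hi : i ≤ P.I) : P.x i < 1 := by
  linarith [h.x_top hi, rpow_pos_of_pos h.nm.np (-(3 : ℝ))]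
theorem dr_nn {i : ℕ} (hi : i < P.I) : 0 ≤ p.rF p.μe (P.x (i + 1)) - p.rF p.μe (P.x i) :=
  sub_nonneg.2 (h.nm.clw.le (h.x_ge i) (h.al.xm.monotone i.le_succ) (h.x_lt hi))
theorem dx_nn (i : ℕ) : 0 ≤ P.x (i + 1) - P.x i := sub_nonneg.2 (h.al.xm.monotone i.le_succ)
theorem dl_ge {i : ℕ} (hi : i < P.I) : (P.x (i + 1) - P.x i) / (2 * p.lL) ≤
    p.lsp ((p.n : ℝ) ^ (-g)) (P.x (i + 1)) - p.lsp ((p.n : ℝ) ^ (-g)) (P.x i) :=
  p.lsp_inc _ h.nm.x0.le (h.x_ge i) (h.al.xm.monotone i.le_succ) (h.x_lt hi).le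
theorem dl_nn {i : ℕ} (hi : i < P.I) : 0 ≤ (p.n : ℝ) ^ (-g) *
    (p.lsp ((p.n : ℝ) ^ (-g)) (P.x (i + 1)) - p.lsp ((p.n : ℝ) ^ (-g)) (P.x i)) :=
  mul_nonneg h.γ0.le ((div_nonneg (h.dx_nn i) (by linarith [p.lL_pos])).trans (h.dl_ge hi))
theorem dx_le {i : ℕ} (hi : i < P.I) : P.x (i + 1) - P.x i ≤ (p.n : ℝ) ^ (-(3 : ℝ)) := by
  have L : 0 < 2 * p.lL := by linarith [p.lL_pos]
  have a := mul_le_mul_of_nonneg_left (h.dl_ge hi) h.γ0.le
  have b : (p.n : ℝ) ^ (-g) * ((P.x (i + 1) - P.x i) / (2 * p.lL)) ≤ 3 * p.v := by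
    linarith [(h.al.st i hi).2, mul_nonneg h.α0.le (h.dr_nn hi)]
  rw [← mul_div_assoc, div_le_iff₀' L] at b
  exact le_of_mul_le_mul_left (b.trans h.n5) h.γ0
theorem n3_le : (p.n : ℝ) ^ (-(3 : ℝ)) ≤ u0 p p.μe := by
  have a : (p.n : ℝ) ^ (-(3 : ℝ)) ≤ (p.n : ℝ) ^ (-(1 : ℝ)) :=
    rpow_le_rpow_of_exponent_le (by linarith [h.nm.n2]) (by norm_num)
  rw [rpow_neg_one, ← one_div] at a
  exact a.trans (h.nm.nl.trans h.nm.l_le_u0)

theorem s_j1 : p.ye ≤ p.sO (p.alP g P 0) (p.om 1 p.ye) h.j1 := by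
  have J1 := h.j1_le
  have := h.jJ
  have a := (h.geo.s_inc (Nat.zero_le h.j1) (by omega)).1
  have b := (PP3.z_bds h.geo.base h.j1 (by omega)).2
  have v := h.v0
  have K0 := h.K0
  rw [h.geo.sP_zero] at a
  simp only [Nat.cast_zero, sub_zero] at a
  have c : C0 * p.v + C0 * (h.j1 * p.v) ≤ K * (p.v + h.j1 * p.v) := by
    rw [← mul_add]; exact mul_le_mul_of_nonneg_right h.CK (by positivity)
  have d : 2 / K ≤ K * (p.v + h.j1 * p.v) := by linarith [h.j1_ge, h.xs0, h.e4, h.e2]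
  rw [div_le_iff₀ K0] at d
  have e : K ^ 2 * (2 * p.ye) ≤ K ^ 2 * (h.j1 * p.v) := by nlinarith [h.n4]
  linarith [le_of_mul_le_mul_left e (by positivity)]

theorem mk_ge {k : ℕ} (h1 : h.j1 ≤ k) (h2 : k < p.Jp P) :
    p.μe / K * (p.sO (p.alP g P 0) (p.om 1 p.ye) (k + 1) - p.sO (p.alP g P 0) (p.om 1 p.ye) k) ≤
      Pr.Spr41.mk (p.b 1 p.ye) (p.lO (p.alP g P 0) (p.om 1 p.ye))
        (p.sO (p.alP g P 0) (p.om 1 p.ye) (k + 1)) -
      Pr.Spr41.mk (p.b 1 p.ye) (p.lO (p.alP g P 0) (p.om 1 p.ye))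
        (p.sO (p.alP g P 0) (p.om 1 p.ye) k) :=
  (mk_inc h.geo.ok _ (hi := 1) (h.geo.sP_nn k) (h.geo.sP_mono k.le_succ)
    (h.geo.sP_le_tt (le_trans h2 (Nat.le_add_right _ _))) fun r hr =>
    ⟨h.crit r ⟨(h.s_j1.trans (h.geo.sP_mono h1)).trans hr.1, hr.2.trans (h.geo.sP_mono h2)⟩,
      St56.ec_le_one h.b0 _ r⟩).1

/-- **the floor on the top window** -/
theorem flr {a : ℝ} (a0 : α / 2 ≤ a) (a1 : a ≤ α) {k : ℕ} (h1 : h.j1 ≤ k) (h2 : k < p.Jp P) :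
    p.μe * p.v / (4 * K) ≤ (p.alM g P a).H (k + 1) - (p.alM g P a).H k := by
  have jf := h.jf_lt
  have m := h.mk_ge h1 h2
  have K0 := h.K0
  have μ0 := h.μ0
  have v := h.v0
  have ap : 0 < a := by linarith [h.α0]
  have mK : 0 < p.μe / K := by positivity
  rw [H_eq, H_eq, if_neg (by omega), if_neg (by omega)]
  rcases h.geo.cases k with c | ⟨i, c, rfl⟩ | c
  · obtain ⟨j, rfl⟩ : ∃ j, k = j + 1 := ⟨k - 1, by omega⟩
    rw [h.xP_eq a (k := j + 1 + 1) (by omega) h2, h.xP_eq a (k := j + 1) (by omega) h2.le,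
      Nat.add_sub_cancel,
      Nat.add_sub_cancel, h.z_lo a (by omega) c, h.z_lo a (by omega) (by omega)]
    have a2 := mul_le_mul_of_nonneg_left (h.geo.ds_lo c).1 mK.le
    have a3 := (h.nm.rF_sub_lo (h.geo.base.lab.mono j.le_succ)
      (h.geo.base.lab.mono (by omega : j + 1 ≤ p.J - 1))).1
    have lg : 0 < log (p.n : ℝ) := by linarith [h.nm.l1]
    have a4 : 3 / (2 * log p.n) * (p.z (j + 1) - p.z j) ≤ p.v / (4 * K) := by
      refine (mul_le_mul_of_nonneg_left (h.dz_lo c).2 (by positivity)).trans ?_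
      rw [div_mul_eq_mul_div, div_le_div_iff₀ (by positivity) (by positivity)]
      nlinarith [mul_le_mul_of_nonneg_right h.n1 v.le]
    have a5 : -(p.μe * (p.v / (4 * K))) ≤
        a * (p.μe * (p.rF p.μe (p.z (j + 1)) - p.rF p.μe (p.z j))) := by
      have b1 : -(p.v / (4 * K)) ≤ p.rF p.μe (p.z (j + 1)) - p.rF p.μe (p.z j) := by
        simp only [Nat.succ_eq_add_one] at a3; linarith
      have b2 := mul_le_mul_of_nonneg_left (mul_le_mul_of_nonneg_left b1 μ0.le) ap.le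
      have b3 := mul_le_mul_of_nonneg_right (a1.trans h.α1)
        (show 0 ≤ p.μe * (p.v / (4 * K)) by positivity)
      linarith
    have e1 : p.μe * p.v / (4 * K) = p.μe * (p.v / (4 * K)) := by ring
    have e2 : p.μe / K * (p.v / 2) = 2 * (p.μe * (p.v / (4 * K))) := by field_simp; ring
    linarith
  · have d := h.geo.ds_mid (i := i) c
    have r := (h.al.st i c).1
    have x1 : p.xP (p.alP g P 0) (p.J + i + 1) = P.x (i + 1) := h.geo.xP_x (i := i + 1) c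
    have x0 : p.xP (p.alP g P 0) (p.J + i) = P.x i := h.geo.xP_x c.le
    rw [x1, x0]
    rw [show p.J + i + 1 = p.J + (i + 1) from rfl, d] at m
    change p.μe / K * ((p.n : ℝ) ^ (-g) * (p.lsp ((p.n : ℝ) ^ (-g)) (P.x (i + 1)) -
      p.lsp ((p.n : ℝ) ^ (-g)) (P.x i))) ≤ _ at m
    have R := h.dr_nn c
    have X := h.dl_nn c
    have b1 := mul_le_mul_of_nonneg_left r (show 0 ≤ p.μe / K / 2 by positivity)
    have b2 : p.μe / K / 2 * (α * (p.rF p.μe (P.x (i + 1)) - p.rF p.μe (P.x i))) ≤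
        a * (p.μe * (p.rF p.μe (P.x (i + 1)) - p.rF p.μe (P.x i))) := by
      have c1 : p.μe / K ≤ p.μe := div_le_self μ0.le h.K1
      have c2 := mul_le_mul c1 a0 (by linarith [h.α0]) μ0.le
      nlinarith [mul_le_mul_of_nonneg_right c2 R]
    have b3 := mul_nonneg mK.le X
    have e1 : p.μe * p.v / (4 * K) = p.μe / K / 2 * (p.v / 2) := by field_simp; ring
    rw [show p.J + i + 1 = p.J + (i + 1) from rfl]
    linarith
  · exact absurd h2 (not_lt.2 c)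

theorem N_eq : p.Jp P - 1 = p.J - 1 + P.I := by have := h.jJ; unfold Pm.Jp; omega

theorem flr' {a : ℝ} (a0 : α / 2 ≤ a) (a1 : a ≤ α) {k : ℕ} (h1 : h.j1 ≤ k) (h2 : k < p.Jp P) :
    p.μe * p.v / (2 * K ^ 2) ≤ (p.alM g P a).z k * ((p.alM g P a).H (k + 1) - (p.alM g P a).H k) := by
  have K0 := h.K0
  have μ0 := h.μ0
  have v := h.v0
  have J1 := h.j1_le
  have := h.jJ
  have z1 : 2 / K ≤ (p.alM g P a).z k := by
    have := (h.leg a a0 a1).zm h1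
    rw [h.z_lo a h.jf_lt.le (by omega)] at this
    linarith [h.j1_ge, h.xs0, h.e4, h.e2]
  refine le_trans (le_of_eq ?_) (mul_le_mul z1 (h.flr a0 a1 h1 h2) (by positivity)
    (le_trans (by positivity) z1))
  field_simp; ring

theorem z_j1 : p.z h.j1 ≤ p.xs / 2 + K * p.v := by
  have J1 := h.j1_le
  have jf := h.jf_lt
  have := h.jJ
  have a := (h.dz_lo (k := h.j1 - 1) (by omega)).2
  rw [Nat.sub_add_cancel (by omega)] at a
  linarith [h.j1_lt (k := h.j1 - 1) (by omega)]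

theorem tw {a : ℝ} (a0 : α / 2 ≤ a) (a1 : a ≤ α) :
    Tw p p.μe (2 * K) α (p.μe / (6 * K ^ 3)) (p.alM g P a).z (Phi (p.alM g P a)) h.j1 (p.J - 1)
      (p.J - 1 + P.I) := by
  have K0 := h.K0
  have μ0 := h.μ0
  have v := h.v0
  have J1 := h.j1_le
  have jf := h.jf_lt
  have jJ := h.jJ
  have L := h.leg a a0 a1
  have i2 : 1 / (2 * K) ≤ 1 / K := one_div_le_one_div_of_le K0 (by linarith)
  have NN := h.N_eq
  have JJ : p.Jp P = p.J + P.I := rfl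
  refine ⟨h.nm, by linarith [h.K1], h.α0, h.α1, by positivity, J1, Nat.le_add_right _ _, ?_, L.zm,
    ?_, fun i b c => ?_, ⟨?_, fun i _ => L.zm (by omega), ?_, fun i hi => ?_⟩, ?_, i2.trans h.xs1,
    ?_, fun i b c => ?_, fun i b c => ?_⟩
  · exact h.z_lo a (by omega) (by omega)
  · rw [z_eq, max_eq_right (Nat.zero_le _), zP_lo jJ]
    exact h.geo.base.lab.pos.le.trans (h.geo.base.lab.mono (Nat.zero_le _))
  · obtain ⟨j, rfl⟩ : ∃ j, i = j + 1 := ⟨i - 1, by omega⟩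
    rw [Nat.add_sub_cancel, h.z_lo a (by omega) (by omega), h.z_lo a (by omega) (by omega)]
    have := (h.dz_lo (k := j) (by omega)).2
    linarith [h.n3, h.nm.l_le_u0, mul_pos K0 v]
  · simp only [h.z_hi a (Nat.zero_le _)]; exact h.x_ge 0
  · simp only [Nat.add_sub_cancel_left, h.z_hi a le_rfl]; exact h.al.e3
  · rw [Nat.add_sub_cancel_left] at hi
    simp only [h.z_hi a hi.le, h.z_hi a (i := i + 1) hi]
    exact le_min (by linarith [h.dx_le hi, h.x_ge i, h.n3_le])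
      ((h.dx_le hi).trans (h.x_top (i := i + 1) hi))
  · rw [h.z_hi a le_rfl]; exact h.al.e2.trans h.n7
  · rw [h.z_lo a jf.le (by omega)]
    linarith [h.z_j1, h.vK, h.xs0, h.e4]
  · rw [Phi_succ]
    refine le_trans ?_ (h.flr' a0 a1 b (by omega))
    rw [h.z_lo a (by omega) (by omega), h.z_lo a (by omega) (by omega)]
    refine (mul_le_mul_of_nonneg_left (h.dz_lo (by omega)).2 (by positivity)).trans ?_
    rw [div_mul_eq_mul_div, div_le_div_iff₀ (by positivity) (by positivity)]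
    nlinarith [show 0 < p.μe * p.v * K ^ 3 by positivity]
  · rw [Phi_succ]
    refine le_trans ?_ (h.flr' a0 a1 (by omega) (by omega))
    obtain ⟨l, rfl⟩ := Nat.exists_eq_add_of_le b
    have hl : l < P.I := by omega
    rw [show p.J - 1 + l + 1 = p.J - 1 + (l + 1) from rfl, h.z_hi a (i := l + 1) hl, h.z_hi a hl.le,
      mul_assoc]
    have r : α * (p.rF p.μe (P.x (l + 1)) - p.rF p.μe (P.x l)) ≤ 3 * p.v := by
      linarith [(h.al.st l hl).2, h.dl_nn hl]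
    refine (mul_le_mul_of_nonneg_left r (by positivity)).trans ?_
    rw [div_mul_eq_mul_div, div_le_div_iff₀ (by positivity) (by positivity)]
    nlinarith [mul_le_mul_of_nonneg_left h.K1 (show 0 ≤ p.μe * p.v * K ^ 2 by positivity)]

theorem top_le {x : ℝ} (hx : x ≤ p.xs) : 2 * (p.la p.μe / √(1 - x)) ≤ 2 * K * p.la p.μe := by
  have K0 := h.K0
  have l := h.nm.lp
  have a : 1 / K ≤ √(1 - x) := le_sqrt_of_sq_le (by
    have : 1 / K ≤ 1 := (div_le_one K0).2 h.K1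
    nlinarith [h.xs1, h.iK])
  have b := div_le_div_of_nonneg_left l.le h.iK a
  rw [div_div_eq_mul_div, div_one] at b
  linarith

theorem abs_ph {k : ℕ} (hk : p.jf < k) {B : ℝ} (hB : |p.rF p.μe (p.xP (p.alP g P 0) k)| ≤ B) :
    |ph p g α P k| ≤ α * p.μe / 2 * B := by
  have := h.α0
  have := h.μ0
  rw [ph, if_neg (by omega), abs_mul, abs_mul, abs_neg, abs_of_pos (by positivity : 0 < α / 2),
    abs_of_pos h.μ0]
  nlinarith [mul_le_mul_of_nonneg_left hB (show 0 ≤ α * p.μe / 2 by positivity)]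

theorem mv (a : ℝ) : Mv p p.μe (K * α * p.μe) (p.alM g P a).z (ph p g α P) h.j1 (p.J - 1)
    (p.J - 1 + P.I) := by
  have J1 := h.j1_le
  have jf := h.jf_lt
  have jJ := h.jJ
  have JJ : p.Jp P = p.J + P.I := rfl
  have K1 := h.K1
  have αμ := mul_pos h.α0 h.μ0
  have l := h.nm.lp
  have lu := h.nm.l_le_u0
  have lo : ∀ i, h.j1 < i → i ≤ p.J - 1 → (p.alM g P a).z (i - 1) ≤ p.xs := fun i b c => by
    rw [h.z_lo a (by omega) (by omega)]; exact h.geo.base.lab.mono (by omega)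
  refine ⟨fun i b c => ?_, fun i b c d => ?_, fun i b c => ?_⟩
  · have x := lo i b c
    have r := h.nm.rF_bd (x.trans_lt h.nm.xs1)
    refine (h.abs_ph (B := 2 * K * u0 p p.μe) (by omega) ?_).trans (le_of_eq (by ring))
    rw [h.xP_eq a (by omega) (by omega)]
    exact abs_le.2 ⟨by nlinarith [r.1], by nlinarith [r.2.2, h.top_le x]⟩
  · have x := lo i b c
    have r := h.nm.rF_bd (x.trans_lt h.nm.xs1)
    refine (h.abs_ph (B := 2 * K * p.la p.μe) (by omega) ?_).trans (le_of_eq (by ring))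
    rw [h.xP_eq a (by omega) (by omega)]
    refine abs_le.2 ⟨?_, r.2.2.trans (h.top_le x)⟩
    have t := (h.nm.top_bd (x.trans_lt h.nm.xs1)).1
    have u : p.rB p.μe ((p.alM g P a).z (i - 1)) = 0 := by
      rw [rB_eq]
      exact Rs13.r1_zero l (by linarith [h.nm.l1]) (by unfold u0 at d; linarith)
    unfold Pm.rF
    nlinarith
  · obtain ⟨j, rfl⟩ : ∃ j, i = p.J - 1 + j + 1 := ⟨i - p.J, by omega⟩
    have hj : j ≤ P.I := by omega
    refine (h.abs_ph (B := env p p.μe (P.x j)) (by omega) ?_).trans ?_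
    · rw [h.xP_eq a (by omega) (by omega), Nat.add_sub_cancel, h.z_hi a hj]
      exact h.nm.abs_rF_env (h.x_ge j) (h.x_lt hj)
    · rw [Nat.add_sub_cancel, h.z_hi a hj]
      exact mul_le_mul_of_nonneg_right (by nlinarith) (h.nm.env_nn _)

theorem q_inc (a : ℝ) {i j : ℕ} (hij : i ≤ j) (hj : j ≤ p.Jp P) :
    0 ≤ (p.alM g P a).q j - (p.alM g P a).q i ∧ (p.alM g P a).q j - (p.alM g P a).q i ≤
      p.sO (p.alP g P 0) (p.om 1 p.ye) j - p.sO (p.alP g P 0) (p.om 1 p.ye) i := by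
  have := Gam_inc h.geo.ok (lo := 0) (hi := 1) (h.geo.sP_nn i) (h.geo.sP_mono hij)
    (h.geo.sP_le_tt (hj.trans (Nat.le_add_right _ _))) fun r _ =>
      ⟨GG_nn _ r, Pp.Ode3.Gp_le_one h.geo.ok.1 r⟩
  rw [zero_mul, one_mul] at this
  exact this

theorem lc {a V a0 : ℝ} {m : ℕ} (hm : 0 < m) (b0 : α / 2 ≤ a) (b1 : a ≤ α) (V0 : 0 ≤ V)
    (hV : p.tw P (p.alM g P a) m a0 ≤ V ^ 2) :
    Lc p p.μe (2 * K) 1 V (p.alM g P a).z (fun _ => 1) (p.alM g P a).q ((p.alM g P a).rb m a0)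
      h.j1 h.j1 (p.J - 1) (p.J - 1 + P.I) := by
  have J1 := h.j1_le
  have jf := h.jf_lt
  have jJ := h.jJ
  have JJ : p.Jp P = p.J + P.I := rfl
  have K0 := h.K0
  have v := h.v0
  have L := h.leg a b0 b1
  refine ⟨zero_le_one, V0, one_pos, monotone_const, fun j _ _ => by simpa using rb_le_one hm j,
    Gam_nn _ _, Pp.Ode3.Gam_le_one _ _,
    fun i j _ b c => sub_nonneg.1 (h.q_inc a b (by omega)).1, fun j b c => ?_, ?_,
    le_trans ?_ hV⟩
  · obtain ⟨j, rfl⟩ : ∃ i, j = i + 1 := ⟨j - 1, by omega⟩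
    rw [Nat.add_sub_cancel, h.z_lo a (by omega) (by omega), h.z_lo a (by omega) (by omega)]
    have a1 := (h.dz_lo (k := j) (by omega)).1
    rw [div_le_iff₀ K0] at a1
    linarith [(h.q_inc a j.le_succ (by omega)).2, (h.geo.ds_lo (k := j) (by omega)).2]
  · have a1 := (h.q_inc a (i := p.J - 1) (j := p.J - 1 + P.I) (Nat.le_add_right _ _) (by omega)).2
    have a2 := h.geo.sP_mono (show p.J - 1 + P.I ≤ p.Jp (p.alP g P 0) by
      change _ ≤ p.Jp P; omega)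
    have a3 := (h.geo.ds_lo (k := p.J - 1) (by omega)).2
    rw [Nat.sub_add_cancel (by omega), h.geo.sP_J] at a3
    rw [h.geo.sP_Jp] at a2
    change _ ≤ p.J * p.v + (p.n : ℝ) ^ (-g) * p.lsp ((p.n : ℝ) ^ (-g)) (P.x P.I) at a2
    have a4 := mul_le_mul_of_nonneg_left (p.lsp_le_one ((p.n : ℝ) ^ (-g)) h.nm.x0.le (h.x_ge P.I)
      (h.x_lt le_rfl).le) h.γ0.le
    have l := h.nm.lp
    have a5 : p.v ≤ K * p.v := le_mul_of_one_le_left v.le h.K1
    have a6 : p.la p.μe ≤ K * p.la p.μe := le_mul_of_one_le_left l.le h.K1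
    linarith [h.n6, h.n3]
  · simp only [sq_abs]
    refine Finset.sum_le_sum_of_subset_of_nonneg (fun k hk => ?_) fun k _ _ =>
      mul_nonneg (sub_nonneg.2 (L.zm (by omega))) (sq_nonneg _)
    obtain ⟨c, d⟩ := Finset.mem_Ioc.1 hk
    refine Finset.mem_filter.2 ⟨Finset.mem_Ioc.2 ⟨by omega, by omega⟩, ?_⟩
    have := L.zm (show h.j1 ≤ k - 1 by omega)
    rw [h.z_lo a jf.le (by omega)] at this
    exact h.j1_ge.trans this

theorem xP_le (k : ℕ) : p.xP (p.alP g P 0) k ≤ P.x P.I := by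
  refine le_trans ?_ (h.geo.xP_top (k := p.Jp (p.alP g P 0)) le_rfl).le
  exact h.geo.zP_mono (by unfold Pm.Jp; omega)

theorem ph_le (k : ℕ) : |ph p g α P k| ≤ 3 * log p.n := by
  have L := h.nm.l1
  rcases le_or_gt k p.jf with c | c
  · rw [ph, if_pos c, abs_zero]; linarith
  · refine (h.abs_ph c (h.nm.abs_rF_log (by linarith [h.xP_le k, h.al.e3]))).trans ?_
    nlinarith [mul_le_one₀ h.α1 h.μ0.le h.μ1]

theorem dz_le (a : ℝ) {k : ℕ} (h1 : h.j1 < k) (h2 : k ≤ p.J - 1 + P.I) :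
    (p.alM g P a).z k - (p.alM g P a).z (k - 1) ≤ (p.n : ℝ) ^ (-(3 : ℝ)) := by
  have jf := h.jf_lt
  have jJ := h.jJ
  obtain ⟨j, rfl⟩ : ∃ i, k = i + 1 := ⟨k - 1, by omega⟩
  rw [Nat.add_sub_cancel]
  rcases lt_or_ge (j + 1) p.J with c | c
  · rw [h.z_lo a (by omega) c, h.z_lo a (by omega) (by omega)]
    exact (h.dz_lo c).2.trans h.n8
  · obtain ⟨l, rfl⟩ : ∃ l, j = p.J - 1 + l := ⟨j - (p.J - 1), by omega⟩
    rw [show p.J - 1 + l + 1 = p.J - 1 + (l + 1) from rfl, h.z_hi a (i := l + 1) (by omega),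
      h.z_hi a (by omega)]
    exact h.dx_le (by omega)

theorem Phi_le {a : ℝ} (a0 : α / 2 ≤ a) (a1 : a ≤ α) :
    Phi (p.alM g P a) (p.J - 1 + P.I) - Phi (p.alM g P a) h.j1 ≤ K + 6 * log p.n := by
  have L := h.leg a a0 a1
  have J1 := h.j1_le
  have jf := h.jf_lt
  have JJ : p.Jp P = p.J + P.I := rfl
  have t := tel_le (f := Phi (p.alM g P a)) (g := (p.alM g P a).H)
    (show h.j1 ≤ p.J - 1 + P.I by omega) fun i _ _ => by
      rw [Phi_succ]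
      exact mul_le_of_le_one_left (sub_nonneg.2 (L.Hm i.le_succ)) (L.z1 i)
  have a2 := L.Hm (Nat.zero_le h.j1)
  rw [L.H0] at a2
  have a3 := L.Hm (show p.J - 1 + P.I ≤ p.Jp P by omega)
  rw [H_eq p g a P (p.Jp P), if_neg (by omega)] at a3
  have a4 := abs_le.1 (h.nm.abs_rF_log (x := p.xP (p.alP g P 0) (p.Jp P))
    (by linarith [h.xP_le (p.Jp P), h.al.e3]))
  have a5 := mul_nonneg h.b0 (Gam_nn (p.lO (p.alP g P 0) (p.om 1 p.ye))
    (p.sO (p.alP g P 0) (p.om 1 p.ye) (p.Jp P)))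
  have ap : 0 ≤ a := by linarith [h.α0]
  have a6 := mul_le_mul_of_nonneg_left a4.2 (mul_nonneg ap h.μ0.le)
  have a7 := mul_le_mul_of_nonneg_right (mul_le_one₀ (a1.trans h.α1) h.μ0.le h.μ1)
    (show 0 ≤ 6 * log (p.n : ℝ) by linarith [h.nm.l1])
  unfold Pr.Spr41.mk at a3
  linarith [h.sT]

/-- **the cost** -/
theorem cost {a V a0 : ℝ} {m D : ℕ} (hm : 0 < m) (b0 : α / 2 ≤ a) (b1 : a ≤ α) (V0 : 0 ≤ V)
    (c0' : 0 ≤ a0) (c1 : a0 ≤ p.am) (hV : p.tw P (p.alM g P a) m a0 ≤ V ^ 2)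
    (hD : K + 6 * log p.n ≤ 2 ^ D * (p.μe * p.v / (2 * K ^ 2))) :
    ∑ k ∈ Finset.Ioc h.j1 (p.J - 1 + P.I), ((p.alM g P a).z k - (p.alM g P a).z (k - 1)) *
      ph p g α P k ^ 2 * aM (p.alM g P a) m a0 k ≤ (D + 2) * (2 / m * ((1 + D) *
        (48 * 10 ^ 6 * K ^ 8 * log p.n ^ 2 * (α * p.μe) * (p.la p.μe * (p.la p.μe + V)))) +
        (p.n : ℝ) ^ (-(3 : ℝ)) * (3 * log p.n) ^ 2) := by
  have K0 := h.K0
  have μ0 := h.μ0
  have α0 := h.α0
  have v := h.v0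
  have J1 := h.j1_le
  have jf := h.jf_lt
  have JJ : p.Jp P = p.J + P.I := rfl
  have n3 := rpow_pos_of_pos h.nm.np (-(3 : ℝ))
  refine (costP (B0 := 0) (σ := p.μe * p.v / (2 * K ^ 2)) (D := D)
    (cm := (p.n : ℝ) ^ (-(3 : ℝ)) * (3 * log p.n) ^ 2) (lg_of (h.leg a b0 b1) hm c0' c1)
    (h.tw b0 b1) (h.mv a) (h.lc hm b0 b1 V0 hV) (by positivity) le_rfl
    (by change _ ≤ p.J + P.I + p.Nr; omega) (fun i b c => h.flr' b0 b1 b (by omega))
    ((h.Phi_le b0 b1).trans hD) (by positivity) (fun k b c => ?_) le_rfl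
    fun i b c => absurd b (not_le.2 c)).trans (le_of_eq ?_)
  · have := pow_le_pow_left₀ (abs_nonneg _) (h.ph_le k) 2
    rw [sq_abs] at this
    exact mul_le_mul (h.dz_le a b c) this (sq_nonneg _) n3.le
  · field_simp; ring

theorem abs_part (a : ℝ) (L : (p.alM g P a).Leg p.am) :
    ∑ k ∈ Finset.Ioc 0 h.j1, ((p.alM g P a).z k - (p.alM g P a).z (k - 1)) * |ph p g α P k| +
      ∑ k ∈ Finset.Ioc (p.J - 1 + P.I) (p.alM g P a).N,
        ((p.alM g P a).z k - (p.alM g P a).z (k - 1)) * |ph p g α P k| ≤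
      (p.n : ℝ) ^ (-(2 : ℝ)) * (3 * log p.n) := by
  have J1 := h.j1_le
  have jJ := h.jJ
  have JJ : p.Jp P = p.J + P.I := rfl
  rw [Finset.sum_eq_zero fun k hk => ?_, zero_add]
  · refine (Finset.sum_le_sum fun k _ => mul_le_mul_of_nonneg_left (h.ph_le k)
      (sub_nonneg.2 (L.zm (by omega)))).trans ?_
    rw [← Finset.sum_mul, tele _ (by change _ ≤ p.J + P.I + p.Nr; omega), L.zN, h.z_hi a le_rfl]
    exact mul_le_mul_of_nonneg_right h.al.e2 (by linarith [h.nm.l1])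
  · obtain ⟨c, d⟩ := Finset.mem_Ioc.1 hk
    rw [ph]
    split_ifs with e
    · simp
    · have x := h.j1_lt (k := k - 1) (by omega)
      rw [h.xP_eq a (by omega) (by omega), h.z_lo a (k := k - 1) (by omega) (by omega),
        h.nm.rF_zero (by linarith [h.nm.xs1]) (by linarith [h.n2, h.xs0, h.e4, h.e2])]
      simp

/-- **one halving** -/
theorem go {δ V W : ℝ} {D : ℕ} (hn : 0 < p.n) (hb : p.b 1 p.ye ≤ p.β ^ 2) (V0 : 0 ≤ V) (W0 : 0 ≤ W)
    (hV : ∀ a, α / 2 ≤ a → a ≤ α → ∀ m a0, p.InW m a0 → p.tw P (p.alM g P a) m a0 ≤ V ^ 2)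
    (hD : K + 6 * log p.n ≤ 2 ^ D * (p.μe * p.v / (2 * K ^ 2)))
    (hW : (D + 2) * (2 / p.n * ((1 + D) *
        (48 * 10 ^ 6 * K ^ 8 * log p.n ^ 2 * (α * p.μe) * (p.la p.μe * (p.la p.μe + V)))) +
        (p.n : ℝ) ^ (-(3 : ℝ)) * (3 * log p.n) ^ 2) ≤ W ^ 2)
    (h1 : 2 * p.n * W ≤ δ * (p.n : ℝ) ^ ((1 : ℝ) / 6) * p.s ^ 2)
    (h2 : 2 * p.n * ((p.n : ℝ) ^ (-(2 : ℝ)) * (3 * log p.n)) ≤
      δ * (p.n : ℝ) ^ ((1 : ℝ) / 6) * p.s ^ 5) :
    Go δ p (p.alM g P α) (p.alM g P (α / 2)) := by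
  have α0 := h.α0
  have J1 := h.j1_le
  have K0 := h.K0
  have μ0 := h.μ0
  have l0 := h.nm.lp
  have np := h.nm.np
  have L1 := h.nm.l1
  have r : ∀ t ∈ Icc (0 : ℝ) 1, α / 2 ≤ α - t * (α / 2) ∧ α - t * (α / 2) ≤ α := fun t ht =>
    ⟨by nlinarith [ht.2], by nlinarith [ht.1]⟩
  have r0 := r 0 ⟨le_rfl, zero_le_one⟩
  have S := (fs p g α P).stage (n := p.n) (s := p.s) (γ := p.ga) (C := p.β ^ 2) (δ := δ) hn W0
    (fun t ht => h.leg _ (r t ht).1 (r t ht).2) (by simpa [Pm.alM, Pm.tst, Pm.fam] using hb)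
    (j0 := h.j1) (N := p.J - 1 + P.I) (by omega) (by change _ ≤ p.J + P.I + p.Nr; omega)
    (fun t ht m m1 m2 a0 c1 c2 => by
      have mp : (p.n : ℝ) ≤ m := Nat.cast_le.2 m1
      refine ((h.cost (hn.trans_le m1) (r t ht).1 (r t ht).2 V0 (le_trans (by positivity) c1) c2
        (hV _ (r t ht).1 (r t ht).2 m a0 ⟨m1, m2, c1, c2⟩) hD).trans ?_).trans hW
      gcongr)
    (h.abs_part _ (h.leg _ r0.1 r0.2)) (by positivity) h1 h2
  refine ⟨(fun t => p.alM g P (α - t * (α / 2))) '' Icc 0 1,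
    by simpa only [zero_mul, sub_zero] using S, 1, ⟨zero_le_one, le_rfl⟩, ?_⟩
  change p.alM g P (α - 1 * (α / 2)) = _
  congr 1; ring

end AD

section num

variable {β c0 C0 c η K' : ℝ} {A : ℕ} {p : Pm} (H : Reg β c0 C0 A c η K' p)
include H

theorem μe0 : 0 < p.μe := H.μ_pos H.mem_end

theorem lg_μe : logb p.n p.μe = -(7 * c) := by
  rw [Pm.μe, H.lg_μ_eq H.mem_end, logb_one, H.lg_ye]; ring

theorem lg_lae : logb p.n (p.la p.μe) = -(1 / 3) + 3 * c := by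
  rw [H.lg_la (μe0 H), lg_μe H, min_eq_right (by linarith [H.c_le])]; ring

theorem μe_mem : p.μ0 ≤ p.μe ∧ p.μe ≤ p.κ :=
  ⟨H.μ0_le_μ H.mem_end, H.le_of_lg (μe0 H) H.κ0 (by rw [lg_μe H, H.lg_κ]; linarith [H.c_pos])⟩

set_option maxHeartbeats 1000000 in
/-- the data -/
theorem ad {C C' C'' K α : ℝ} {P : Pl} (hA : 4 ≤ A) (hη : 100 * η ≤ c) (Cp : 0 < C)
    (C1' : 0 < C') (K1 : 1 ≤ K) (k0 : C' ≤ K) (k1 : 4 * C ≤ K)
    (k2 : C0 ≤ K) (k3 : 1 / c0 ≤ K) (k4 : exp (6 * K ^ 2) ≤ K') (G1 : CrS C' p) (G2 : GpO C p)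
    (G3 : P1G C'' p) (N : Nm p p.μe) (L : LegA (7 / 20) 1 p) (α0 : 0 < α) (α1 : α ≤ 1)
    (hP : p.AlOk (7 / 20) α P) :
    AD c0 C0 (C0 / (p.n : ℝ) ^ p.A) (2 * p.ye) K (7 / 20) α p P := by
  obtain ⟨⟨-, -, -, -, k5, yJ⟩, ⟨om, -⟩, -⟩ := G3 p.sg1 H.memG1
  obtain ⟨⟨-, jr, J1, x0, x1, -⟩, -⟩ := G2
  rw [Pm.omG_one H.ye0] at om
  have v0 := H.v0
  have y0 := H.ye0
  have d0 := H.c00
  have μ0 := μe0 H
  have l0 := N.lp
  have K0 : 0 < K := by linarith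
  have a6 : 6 * K ^ 2 ≤ η * log p.n := by
    have := log_le_log (exp_pos _) (k4.trans H.K_le)
    rwa [log_exp, log_rpow H.N0] at this
  have a7 : η * log p.n ≤ log p.n := by nlinarith [H.η_le, H.c_le, H.log1]
  have KΛ : K ≤ (p.n : ℝ) ^ η := by nlinarith [H.log_le]
  have lK := H.lg_cst K1 KΛ
  have A4 : (4 : ℝ) ≤ A := by exact_mod_cast hA
  have lv := H.lg_v_le
  have l3 := H.lg_num (x := 3) (by norm_num) (by norm_num)
  have l6 := H.lg_num (x := 6) (by norm_num) (by norm_num)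
  have η0 := H.η_pos
  have cl := H.c_le
  have vy := H.v_le_r.trans H.r_le_ye
  have jy := jr.trans H.r_le_ye
  have jJ : p.jf < p.J := by
    have : (p.jf : ℝ) < p.J := lt_of_mul_lt_mul_right (by linarith) v0.le
    exact_mod_cast this
  have geo : Geo c0 C0 (C0 / (p.n : ℝ) ^ p.A) (2 * p.ye) p (p.alP (7 / 20) P 0) (p.om 1 p.ye) :=
    ⟨H.ok.base, ⟨om.zero, om.nn, om.supp, fun j => (om.lip j).trans
      (mul_le_mul_of_nonneg_right k5 v0.le)⟩, yJ, by omega, (H.rp0 _).le, hP.x0,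
      fun i _ => hP.xm i.lt_succ_self, hP.e1.le⟩
  have F := G1 _ _ _ _ _ _ H.r_le_ye le_rfl geo le_rfl
  have n4 : K ^ 2 * (3 * p.ye) ≤ 1 := H.le_of_lg (by positivity) one_pos (by
    lg_norm
    linarith [H.lg_ye])
  have iK : 1 / K ≤ 1 / (4 * C) := one_div_le_one_div_of_le (by positivity) k1
  have e4 : 4 / K = 4 * (1 / K) := by ring
  have eC : 1 / C = 4 * (1 / (4 * C)) := by field_simp
  have iK0 : 0 < 1 / K := by positivity
  refine ⟨geo, N, hP, α0, α1, K1, μ0, (μe_mem H).2.trans H.κ1, k2, ?_, by linarith [F.b1], y0.le,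
    fun t ht => ?_, F.sT.trans k0, by linarith, by linarith, jJ, ?_, a6.trans a7, ?_, ?_,
    by nlinarith, ?_, ?_, ?_, ?_, fun a b d => Leg_mono
      (L.2.1 a P (by linarith) (d.trans α1) hP.toFine).1 (by linarith [H.am0])⟩
  · rw [div_le_iff₀ d0] at k3; linarith
  · have := (F.crit t ⟨y0.le.trans ht.1, ht.2⟩).1
    rw [H.ms_top H.mem_end ht.1] at this
    exact (div_le_div_of_nonneg_left μ0.le C1' k0).trans this
  · have a := (PP3.z_bds H.ok.base p.jf jJ).2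
    have b : C0 * p.v + C0 * (p.jf * p.v) ≤ K * (2 * p.ye) := by
      rw [← mul_add]
      exact mul_le_mul k2 (by linarith) (by have := H.jfv0; positivity) K0.le
    have d : K * (2 * p.ye) ≤ 1 / K := by rw [le_div_iff₀ K0]; nlinarith
    linarith
  · have lg0 : 0 < log (p.n : ℝ) := by linarith [H.log1]
    refine H.le_of_lg (mul_pos lg0 N.u0p) (by positivity) ?_
    rw [u0]
    lg_norm
    linarith [lg_lae H, H.lg_log.2, H.lg_two.1]
  · refine H.le_of_lg (by positivity) l0 ?_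
    lg_norm
    linarith [lg_lae H]
  · have := H.N0
    have lg0 : 0 < log (p.n : ℝ) := by linarith [H.log1]
    have a : p.lL ≤ 12 * log p.n := by
      have := log_le_log (by positivity) (show (p.n : ℝ) + 3 ≤ p.n ^ 2 by nlinarith [H.N3])
      rw [log_pow] at this
      unfold Pm.lL
      push_cast at this
      linarith
    refine (show _ ≤ 72 * log p.n * p.v by
      linarith only [mul_le_mul_of_nonneg_right a v0.le]).trans
      (H.le_of_lg (by positivity) (by positivity) ?_)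
    lg_norm
    rw [H.lg_n]
    linarith [H.lg_log.2, (H.lg_num (x := 72) (by norm_num) (by norm_num)).2]
  · exact H.le_of_lg (H.rp0 _) l0 (by rw [H.lg_rp, lg_lae H]; linarith)
  · refine H.le_of_lg (H.rp0 _) (by positivity) ?_
    rw [H.lg_rp]
    lg_norm
    linarith [lg_lae H]
  · refine H.le_of_lg (by positivity) (H.rp0 _) ?_
    rw [H.lg_rp]
    lg_norm
    linarith

set_option maxHeartbeats 1000000 in
/-- the numbers -/
theorem go' {K α : ℝ} {P : Pl} {Y η' : ℝ} (hη : 100 * η ≤ c) (KΛ : K ≤ (p.n : ℝ) ^ η)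
    (h : AD c0 C0 η' Y K (7 / 20) α p P) (hb : p.b 1 p.ye ≤ p.β ^ 2)
    (hL : SprL2 (7 / 20) ((p.n : ℝ) ^ η) p) :
    Go ((p.n : ℝ) ^ η)⁻¹ p (p.alM (7 / 20) P α) (p.alM (7 / 20) P (α / 2)) := by
  have N0 := H.N0
  have μ0 := h.μ0
  have l0 := h.nm.lp
  have α0 := h.α0
  have K0 := h.K0
  have s0 := H.s0
  have v0 := H.v0
  have L1 := H.log1
  have L0 : 0 < log (p.n : ℝ) := by linarith
  have Λ0 := H.Λ0
  have Λ1 := H.Λ1
  have h6 := H.num_le
  have lK := H.lg_cst h.K1 KΛ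
  have lΛ := H.lg_rp η
  have η0 := H.η_pos
  have cl := H.c_le
  have ls := H.lg_s
  have l2 := H.lg_two
  have lL := H.lg_log
  have lm := lg_μe H
  have ll := lg_lae H
  have ln := H.lg_n
  have LΛ := H.log_le
  have AΛ := H.A_le
  set Λ := (p.n : ℝ) ^ η with hΛ
  set D := ⌈(A + 2) * (2 * log (p.n : ℝ))⌉₊ with hD
  have A0 : (0 : ℝ) ≤ A := Nat.cast_nonneg A
  have D1 : (A + 2) * (2 * log (p.n : ℝ)) ≤ D := Nat.le_ceil _
  have D2 : (D : ℝ) + 2 ≤ Λ ^ 3 := by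
    have := (Nat.ceil_lt_add_one (show 0 ≤ (A + 2) * (2 * log (p.n : ℝ)) by positivity)).le
    have b : (A + 2) * (2 * log (p.n : ℝ)) ≤ (Λ + 2) * (2 * Λ) := by gcongr
    nlinarith [mul_le_mul_of_nonneg_right h6 (sq_nonneg Λ)]
  have D0 : (0 : ℝ) ≤ D := Nat.cast_nonneg D
  have e2 : (p.n : ℝ) ^ ((A : ℝ) + 2) ≤ 2 ^ D := by
    have h3 : (1 : ℝ) / 2 ≤ log 2 := by linarith [log_two_gt_d9]
    rw [← log_le_log_iff (by positivity) (by positivity), log_pow, log_rpow N0]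
    nlinarith
  set T := Λ * p.s ^ 4 * (p.n : ℝ) ^ (-(2 / 3) - c / 2) with hT
  have T0 : 0 < T := by positivity
  refine h.go (V := Λ * p.s ^ 4 * (p.n : ℝ) ^ (-(1 : ℝ) / 3) / (α * √p.μe)) (D := D)
    (W := Λ ^ 12 * p.s ^ 2 * (p.n : ℝ) ^ (-(5 / 6) - c / 4)) H.n0 hb (by positivity)
    (by positivity) (fun a b d m a0 w => (hL α a P α0 h.α1 b d h.al m a0 w).trans ?_) ?_ ?_ ?_ ?_
  · refine H.le_of_lg (by positivity) (by positivity) ?_
    lg_norm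
    rw [ln]
    linarith
  · refine le_trans ?_ (mul_le_mul_of_nonneg_right e2 (by positivity))
    refine (show _ ≤ Λ ^ 2 by nlinarith).trans (H.le_of_lg (by positivity) (by positivity) ?_)
    lg_norm
    rw [ln]
    linarith [H.lg_v, H.lg_β.1]
  · have t1 : α * p.μe * p.la p.μe ^ 2 ≤ T := H.le_of_lg (by positivity) T0 (by
      rw [hT]
      lg_norm
      rw [ln]
      linarith [H.lg_np α0 h.α1])
    have t2 : α * p.μe * p.la p.μe * (Λ * p.s ^ 4 * (p.n : ℝ) ^ (-(1 : ℝ) / 3) / (α * √p.μe)) ≤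
        T := H.le_of_lg (by positivity) T0 (by
      rw [hT]
      lg_norm
      rw [ln]
      linarith)
    have t3 : 48 * 10 ^ 6 * K ^ 8 * log p.n ^ 2 ≤ Λ ^ 3 * Λ ^ 8 * Λ ^ 2 := by
      gcongr
      exact le_trans (by norm_num) (pow_le_pow_left₀ (by norm_num) h6 3)
    have t4 : 48 * 10 ^ 6 * K ^ 8 * log p.n ^ 2 * (α * p.μe) * (p.la p.μe * (p.la p.μe +
        Λ * p.s ^ 4 * (p.n : ℝ) ^ (-(1 : ℝ) / 3) / (α * √p.μe))) ≤ Λ ^ 3 * Λ ^ 8 * Λ ^ 2 * (2 * T) := by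
      rw [mul_assoc (48 * 10 ^ 6 * K ^ 8 * log p.n ^ 2)]
      exact mul_le_mul t3 (by linarith) (by positivity) (by positivity)
    have t5 : Λ ^ 3 * (2 / p.n * (Λ ^ 3 * (Λ ^ 3 * Λ ^ 8 * Λ ^ 2 * (2 * T)))) ≤
        (Λ ^ 12 * p.s ^ 2 * (p.n : ℝ) ^ (-(5 / 6) - c / 4)) ^ 2 / 2 :=
      H.le_of_lg (by positivity) (by positivity) (by
        rw [hT]
        lg_norm
        rw [ln]
        linarith)
    have t6 : Λ ^ 3 * ((p.n : ℝ) ^ (-(3 : ℝ)) * (3 * log p.n) ^ 2) ≤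
        (Λ ^ 12 * p.s ^ 2 * (p.n : ℝ) ^ (-(5 / 6) - c / 4)) ^ 2 / 2 :=
      H.le_of_lg (by positivity) (by positivity) (by
        lg_norm
        rw [ln]
        linarith [(H.lg_num (x := 3) (by norm_num) (by norm_num)).2])
    refine le_trans ?_ (show Λ ^ 3 * (2 / p.n * (Λ ^ 3 * (Λ ^ 3 * Λ ^ 8 * Λ ^ 2 * (2 * T))) +
      (p.n : ℝ) ^ (-(3 : ℝ)) * (3 * log p.n) ^ 2) ≤ _ by linarith)
    gcongr
    linarith
  · refine H.le_of_lg (by positivity) (by positivity) ?_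
    lg_norm
    rw [ln]
    linarith
  · refine H.le_of_lg (by positivity) (by positivity) ?_
    lg_norm
    rw [ln]
    linarith [(H.lg_num (x := 3) (by norm_num) (by norm_num)).2]

end num

/-- **`C2S`** from the location input and the legality -/
theorem c2S_of {β : ℝ} (hβ : 1 < β) (hL : Sml β (LegA (7 / 20))) (h2 : Loss β (SprL2 (7 / 20))) :
    Gain β (C2S (7 / 20)) := by
  refine Sml.gain (Sml.glueC hβ (((crS β hβ).and_sub (gpO β hβ)).and_sub (p1G β hβ))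
    ((hL.and h2.sml).and (St56.nm_sml hβ)) fun C hC c0 C0 h0 h1 => ⟨4, fun A hA =>
      ⟨1, one_pos, fun c _ hc => ⟨c / 100, by positivity, fun η hη _ =>
        ⟨exp (6 * (4 * C + C0 + 1 / c0) ^ 2), fun p H G ⟨⟨L, S⟩, N⟩ α P a0 a1 hP => ?_⟩⟩⟩⟩)
  obtain ⟨⟨x, x1, x2, ⟨y, y1, y2, G1⟩, z, z1, z2, G2⟩, w, -, -, G3⟩ := G
  have i0 : 0 < 1 / c0 := by positivity
  have η1 : 100 * η ≤ c := by linarith
  have K1 : 1 ≤ 4 * C + C0 + 1 / c0 := by linarith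
  have KΛ : 4 * C + C0 + 1 / c0 ≤ (p.n : ℝ) ^ η := by
    have := add_one_le_exp (6 * (4 * C + C0 + 1 / c0) ^ 2)
    nlinarith [H.K_le]
  exact go' H η1 KΛ (ad H hA η1 z1 y1 K1 (by linarith) (by linarith) (by linarith) (by linarith)
    le_rfl G1 G2 G3 (N _ (μe_mem H).1 (μe_mem H).2) L a0 a1 hP) L.1.2 S

end Crest.Agent.T156.Alt.C2s11


end
end

-- ▼ part T156/SprR_59

/-!
# Row 156 (helper59): stage C from the first segment and one location input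
-/

set_option autoImplicit false

noncomputable section

namespace Crest.Agent.T156.Alt

theorem sprS_red {β : ℝ} (hβ : 1 < β) (h1 : Gain β (C1S (7 / 20)))
    (h2 : Loss β (SprL2 (7 / 20))) : Gain β (SprS (7 / 20)) :=
  have L := legA hβ (le_refl (7 / 20 : ℝ))
  sprS_of hβ (alEx hβ (by norm_num) (by norm_num)) h1 (c1T_of hβ L) (C2s11.c2S_of hβ L h2)
    (c3S_of hβ L) (c2T hβ le_rfl)

end Crest.Agent.T156.Alt

end
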