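import Crest.Agent.T156.Gu_71

/-!
# Row 156, soft recursion: the light class, its closure and the closing induction (helper46)

States are pairs `(u, F)`, the model is `Gu71.sh M u F`.
-/

set_option autoImplicit false
set_option linter.unusedSectionVars false

noncomputable section

namespace Crest.Agent.T156.Alt.Sr46

open Real Finset
open Crest.Agent.T156.Alt.Md67 (Lg)
open Crest.Agent.T156.Alt.Gu71

/-! ### the closing, frame-free -/

/-- **one backward induction, three regimes** -/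
theorem close3 {X : Type*} {Cs : ℝ → X → Prop} {Φ : X → ℝ} {t d uE K h C T P : ℝ} {J : ℕ}
    (ht : 0 ≤ t) (hK : 1 ≤ K) (hh : 0 < h) (hC : 1 ≤ C) (hT : 0 ≤ T) (hJ : d ≤ K ^ J * t)
    (hP : (J + 1) * C ^ J * T ≤ P)
    (start : ∀ u x, uE ≤ u → u ≤ uE + h → Cs u x → Φ x ≤ T)
    (cont : ∀ u x, t ≤ u → u < uE → Cs u x → ∃ y, Cs (u + h) y ∧ Φ x ≤ 2 * Φ y + P)
    (term : ∀ u x, d ≤ u → u < uE → Cs u x → Φ x ≤ 3 * P → Φ x ≤ T)
    (step : ∀ u x, t ≤ u → u < d → u < uE → Cs u x →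
      (∀ v y, u ≤ v → v ≤ uE + h → Cs v y → Φ y ≤ 3 * P) →
      ∃ u', K * u ≤ u' ∧ u' ≤ uE + h ∧ ∀ B, T ≤ B → (∀ y, Cs u' y → Φ y ≤ B) → Φ x ≤ C * B + T) :
    ∀ u x, t ≤ u → u ≤ uE + h → Cs u x → Φ x ≤ (J + 1) * C ^ J * T := by
  have C0 : 0 ≤ C := zero_le_one.trans hC
  have one : ∀ j : ℕ, T ≤ ((j : ℝ) + 1) * C ^ j * T := fun j => le_mul_of_one_le_left hT
    (one_le_mul_of_one_le_of_one_le (by linarith [Nat.cast_nonneg (α := ℝ) j]) (one_le_pow₀ hC))
  have P0 : 0 ≤ P := (hT.trans (one J)).trans hP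
  have A : ∀ a, t ≤ a → (∀ v y, a ≤ v → v ≤ uE + h → Cs v y → Φ y ≤ 3 * P) → ∀ j : ℕ,
      ∀ u x, a ≤ u → u ≤ uE + h → d ≤ K ^ j * u → Cs u x → Φ x ≤ (j + 1) * C ^ j * T := by
    intro a ha hW
    have T0 : ∀ u x, a ≤ u → u ≤ uE + h → (d ≤ u ∨ uE ≤ u) → Cs u x → Φ x ≤ T := by
      intro u x h1 h2 h3 hx
      rcases le_or_gt uE u with c | c
      · exact start u x c h2 hx
      · exact term u x (h3.resolve_right c.not_ge) c hx (hW u x h1 h2 hx)
    intro j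
    induction j with
    | zero => exact fun u x h1 h2 h3 hx => (T0 u x h1 h2 (.inl (by simpa using h3)) hx).trans (one 0)
    | succ j ih =>
      intro u x h1 h2 h3 hx
      have u0 : 0 ≤ u := (ht.trans ha).trans h1
      by_cases c : d ≤ u ∨ uE ≤ u
      · exact (T0 u x h1 h2 c hx).trans (one _)
      push Not at c
      obtain ⟨u', b1, b2, b3⟩ := step u x (ha.trans h1) c.1 c.2 hx fun v y e => hW v y (h1.trans e)
      have uu : u ≤ u' := (le_mul_of_one_le_left u0 hK).trans b1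
      have := b3 _ (one j) fun y hy => ih u' y (h1.trans uu) b2 (h3.trans (by
        rw [pow_succ, mul_assoc]
        exact mul_le_mul_of_nonneg_left b1 (by positivity))) hy
      have h4 : T ≤ C ^ (j + 1) * T := le_mul_of_one_le_left hT (one_le_pow₀ hC)
      push_cast
      rw [pow_succ] at *
      nlinarith
  have fin : ∀ a, t ≤ a → (∀ v y, a ≤ v → v ≤ uE + h → Cs v y → Φ y ≤ 3 * P) →
      ∀ u x, a ≤ u → u ≤ uE + h → Cs u x → Φ x ≤ (J + 1) * C ^ J * T := fun a ha hW u x h1 h2 hx =>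
    A a ha hW J u x h1 h2 (hJ.trans (mul_le_mul_of_nonneg_left (ha.trans h1) (by positivity))) hx
  have B : ∀ n : ℕ, ∀ v y, max t (uE - n * h) ≤ v → v ≤ uE + h → Cs v y → Φ y ≤ 3 * P := by
    intro n
    induction n with
    | zero =>
      intro v y h1 h2 hy
      have := start v y (by simpa using (le_max_right _ _).trans h1) h2 hy
      linarith [one J]
    | succ n ih =>
      intro v y h1 h2 hy
      rcases le_or_gt uE v with c | c
      · linarith [start v y c h2 hy, one J]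
      have tv : t ≤ v := (le_max_left _ _).trans h1
      obtain ⟨y', e1, e2⟩ := cont v y tv c hy
      have := fin _ (le_max_left _ _) ih (v + h) y' (max_le (by linarith) (by
        have := (le_max_right _ _).trans h1
        push_cast at this
        linarith)) (by linarith) e1
      linarith
  intro u x h1 h2 hx
  obtain ⟨n, hn⟩ := exists_nat_ge ((uE - t) / h)
  rw [div_le_iff₀ hh] at hn
  exact fin t le_rfl (fun v y a => B n v y (max_le a (by linarith))) u x h1 h2 hx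

/-- Minkowski, squared form -/
theorem mink {S : Finset ℕ} {ω f g : ℕ → ℝ} {A B : ℝ} (hω : ∀ k ∈ S, 0 ≤ ω k) (hA : 0 ≤ A)
    (hB : 0 ≤ B) (hf : ∑ k ∈ S, ω k * f k ^ 2 ≤ A ^ 2) (hg : ∑ k ∈ S, ω k * g k ^ 2 ≤ B ^ 2) :
    ∑ k ∈ S, ω k * (f k + g k) ^ 2 ≤ (A + B) ^ 2 := by
  have cs := sum_sq_le_sum_mul_sum_of_sq_le_mul S (r := fun k => ω k * (f k * g k))
    (f := fun k => ω k * f k ^ 2) (g := fun k => ω k * g k ^ 2)
    (fun k hk => mul_nonneg (hω k hk) (sq_nonneg _)) (fun k hk => mul_nonneg (hω k hk) (sq_nonneg _))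
    fun k _ => le_of_eq (by ring)
  have f0 : 0 ≤ ∑ k ∈ S, ω k * g k ^ 2 := sum_nonneg fun k hk => mul_nonneg (hω k hk) (sq_nonneg _)
  have c2 : ∑ k ∈ S, ω k * (f k * g k) ≤ A * B :=
    le_of_sq_le_sq' (cs.trans ((mul_le_mul hf hg f0 (sq_nonneg _)).trans_eq (by ring)))
      (mul_nonneg hA hB)
  have e : ∑ k ∈ S, ω k * (f k + g k) ^ 2 = ∑ k ∈ S, ω k * f k ^ 2 +
      2 * ∑ k ∈ S, ω k * (f k * g k) + ∑ k ∈ S, ω k * g k ^ 2 := by
    rw [mul_sum, ← sum_add_distrib, ← sum_add_distrib]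
    exact sum_congr rfl fun k _ => by ring
  rw [e]
  nlinarith
where le_of_sq_le_sq' {x y : ℝ} (h : x ^ 2 ≤ y ^ 2) (hy : 0 ≤ y) : x ≤ y := abs_le_of_sq_le_sq' h hy |>.2

/-! ### the class -/

/-- data of the class: first mark `j0`, end `Jp` of the plateau, deposit clock `c`, ceiling `ce` of
one deposit, landing slack `sl`, share `θ`, end `U` of the adaptive phase, residual rate `g`; plain
clock `c2` with residual rate `g2` after the time `U` -/
structure Kd where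
  j0 : ℕ
  Jp : ℕ
  c : ℕ → ℝ
  ce : ℕ → ℝ
  sl : ℕ → ℝ
  θ : ℝ
  U : ℝ
  g : ℝ
  c2 : ℕ → ℝ
  g2 : ℝ

/-- the reference, `0` on the merged zone, frozen from `N` on -/
def qz (M : Md) (j0 k : ℕ) : ℝ := if k ≤ j0 then 0 else M.q (min k M.N)

/-- increments -/
def dl (f : ℕ → ℝ) (k : ℕ) : ℝ := f (k + 1) - f k

variable (D : Kd) (M : Md) (m : ℕ) (a : ℝ)

/-- the nodes above the merged zone -/
def Kd.S : Finset ℕ := Ioc D.j0 D.Jp

/-- `Φ = ∑ dz (rb - q)²` of the model `sh M u F` -/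
def Kd.Φ (x : ℝ × (ℕ → ℝ)) : ℝ := Ph (sh M x.1 x.2) m a M.q (M.dz m a) D.S

/-- standing hypotheses -/
structure Ok (R : ℝ) : Prop where
  lg : Lg M m a
  i0 : D.j0 < D.Jp
  i1 : D.Jp ≤ M.N
  θ0 : 0 ≤ D.θ
  θ1 : D.θ ≤ 1
  U0 : 0 ≤ D.U
  g0 : 0 ≤ D.g
  qm : Monotone (qz M D.j0)
  qR : ∀ k, qz M D.j0 k ≤ R
  c0 : ∀ k ≤ D.j0, D.c k = 0
  cm : Monotone D.c
  cR : ∀ k, D.c k ≤ R
  chi : ∀ k, D.Jp ≤ k → dl D.c k = dl (qz M D.j0) k
  cce : ∀ k, D.j0 ≤ k → k < D.Jp → D.θ * dl D.c k + (1 - D.θ) * dl (qz M D.j0) k ≤ D.ce k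
  sl0 : ∀ k, 0 ≤ D.sl k
  crs : D.θ ^ 2 * ∑ k ∈ D.S, M.dz m a k * (D.c k - M.q k) ^ 2 ≤ (2 * D.g) ^ 2
  p0 : ∀ k ≤ D.j0, D.c2 k = 0
  pm : Monotone D.c2
  pR : ∀ k, D.c2 k ≤ R
  phi : ∀ k, D.Jp ≤ k → dl D.c2 k = dl (qz M D.j0) k
  g20 : 0 ≤ D.g2
  prs : ∑ k ∈ D.S, M.dz m a k * (D.c2 k - M.q k) ^ 2 ≤ D.g2 ^ 2

/-- a deposit accumulated during the time `t` of the adaptive phase -/
structure Ac (t : ℝ) (A : ℕ → ℝ) : Prop where
  lo : ∀ k ≤ D.j0, A k = 0
  fl : ∀ k, D.j0 ≤ k → k < D.Jp → D.θ * t * dl D.c k ≤ dl A k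
  ce : ∀ k, D.j0 ≤ k → k < D.Jp → dl A k ≤ t * D.ce k
  hi : ∀ k, D.Jp ≤ k → dl A k = t * dl (qz M D.j0) k
  res : ∑ k ∈ D.S, M.dz m a k * (A k - t * M.q k) ^ 2 ≤ (2 * t * D.g) ^ 2

/-- an admissible move at the time `u` -/
structure Adm (u : ℝ) (G : ℕ → ℝ) : Prop where
  lo : ∀ k ≤ D.j0, G k = 0
  hi : ∀ k, D.Jp ≤ k → G k = 0
  fl : ∀ k, D.j0 ≤ k → k < D.Jp → -(D.θ * u * dl D.c k / 2) ≤ dl G k
  ce : ∀ k, D.j0 ≤ k → k < D.Jp → dl G k ≤ u * D.sl k
  res : ∑ k ∈ D.S, M.dz m a k * G k ^ 2 ≤ (u * D.g) ^ 2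

/-- **the class** -/
structure KK (u : ℝ) (F : ℕ → ℝ) : Prop where
  u0 : 0 ≤ u
  lo : ∀ k ≤ D.j0, F k = 0
  fl : ∀ k, D.j0 ≤ k → k < D.Jp →
    D.θ * min u D.U * dl D.c k / 2 + (u - min u D.U) * dl D.c2 k ≤ dl F k
  ce : ∀ k, D.j0 ≤ k → k < D.Jp →
    dl F k ≤ min u D.U * (D.ce k + D.sl k) + (u - min u D.U) * dl D.c2 k
  hi : ∀ k, D.Jp ≤ k → dl F k = u * dl (qz M D.j0) k
  res : ∑ k ∈ D.S, M.dz m a k * (F k - u * M.q k) ^ 2 ≤
    (4 * min u D.U * D.g + (u - min u D.U) * D.g2) ^ 2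

variable {D M m a} {R u t h : ℝ} {F A G r : ℕ → ℝ}

theorem dl_nonneg {f : ℕ → ℝ} (hf : Monotone f) (k : ℕ) : 0 ≤ dl f k := sub_nonneg.2 (hf k.le_succ)

theorem qz_lo {k : ℕ} (hk : k ≤ D.j0) : qz M D.j0 k = 0 := if_pos hk

theorem qz_S (H : Ok D M m a R) {k : ℕ} (hk : k ∈ D.S) : qz M D.j0 k = M.q k := by
  have := mem_Ioc.1 hk
  rw [qz, if_neg (by omega), min_eq_left (this.2.trans H.i1)]

theorem Ok.dz0 (H : Ok D M m a R) : ∀ k ∈ D.S, 0 ≤ M.dz m a k := fun k _ => H.lg.dz_nonneg k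

theorem kk_zero (H : Ok D M m a R) : KK D M m a 0 fun _ => 0 :=
  ⟨le_rfl, fun _ _ => rfl, fun k _ _ => by simp [dl, min_eq_left H.U0],
    fun k _ _ => by simp [dl, min_eq_left H.U0], fun k _ => by simp [dl],
    by simp [min_eq_left H.U0]⟩

theorem mono_of {f : ℕ → ℝ} (lo : ∀ k ≤ D.j0, f k = 0) (h1 : ∀ k, D.j0 ≤ k → 0 ≤ dl f k) :
    Monotone f := monotone_nat_of_le_succ fun k => by
  rcases lt_or_ge k D.j0 with c | c
  · rw [lo k c.le, lo (k + 1) c]
  · exact sub_nonneg.1 (h1 k c)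

theorem KK.mono (H : Ok D M m a R) (K : KK D M m a u F) : Monotone F :=
  mono_of K.lo fun k hk => by
    have m0 : 0 ≤ min u D.U := le_min K.u0 H.U0
    have m1 : 0 ≤ u - min u D.U := sub_nonneg.2 (min_le_left _ _)
    have := dl_nonneg H.cm k
    have := dl_nonneg H.qm k
    have := dl_nonneg H.pm k
    have := H.θ0
    have := K.u0
    rcases lt_or_ge k D.Jp with c | c
    · exact le_trans (by positivity) (K.fl k hk c)
    · rw [K.hi k c]; positivity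

theorem KK.lg (H : Ok D M m a R) (K : KK D M m a u F) (hu : u ≤ M.d 0) : Lg (sh M u F) m a :=
  sh_lg H.lg hu (K.lo 0 (Nat.zero_le _)) (K.mono H)

theorem ac_zero : Ac D M m a 0 fun _ => 0 :=
  ⟨fun _ _ => rfl, fun k _ _ => by simp [dl], fun k _ _ => by simp [dl], fun k _ => by simp [dl],
    by simp⟩

theorem Ac.mono (H : Ok D M m a R) (ht : 0 ≤ t) (K : Ac D M m a t A) : Monotone A :=
  mono_of K.lo fun k hk => by
    have := dl_nonneg H.cm k
    have := dl_nonneg H.qm k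
    have := H.θ0
    rcases lt_or_ge k D.Jp with c | c
    · exact le_trans (by positivity) (K.fl k hk c)
    · rw [K.hi k c]; positivity

theorem Ac.add (H : Ok D M m a R) (ht : 0 ≤ t) (hh : 0 ≤ h) (K : Ac D M m a t A)
    (K' : Ac D M m a 1 r) : Ac D M m a (t + h) fun k => A k + h * r k := by
  have e : ∀ k, dl (fun k => A k + h * r k) k = dl A k + h * dl r k := fun k => by
    simp only [dl]; ring
  have g0 := H.g0
  refine ⟨fun k hk => by rw [K.lo k hk, K'.lo k hk]; ring, fun k h1 h2 => ?_, fun k h1 h2 => ?_,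
    fun k h1 => by rw [e, K.hi k h1, K'.hi k h1]; ring, ?_⟩
  · have := mul_le_mul_of_nonneg_left (K'.fl k h1 h2) hh
    rw [e]; linarith [K.fl k h1 h2]
  · have := mul_le_mul_of_nonneg_left (K'.ce k h1 h2) hh
    rw [e]; linarith [K.ce k h1 h2]
  · have b : ∑ k ∈ D.S, M.dz m a k * (h * (r k - 1 * M.q k)) ^ 2 ≤ (h * (2 * 1 * D.g)) ^ 2 := by
      rw [mul_pow h]
      refine le_of_eq_of_le ?_ (mul_le_mul_of_nonneg_left K'.res (sq_nonneg h))
      rw [mul_sum]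
      exact sum_congr rfl fun k _ => by ring
    refine le_of_eq_of_le (sum_congr rfl fun k _ => by ring)
      ((mink H.dz0 (by positivity) (by positivity) K.res b).trans_eq (by ring))

/-- the non-adaptive deposit -/
theorem ac_fix (H : Ok D M m a R) :
    Ac D M m a 1 fun k => D.θ * D.c k + (1 - D.θ) * qz M D.j0 k := by
  have e : ∀ k, dl (fun k => D.θ * D.c k + (1 - D.θ) * qz M D.j0 k) k =
      D.θ * dl D.c k + (1 - D.θ) * dl (qz M D.j0) k := fun k => by simp only [dl]; ring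
  refine ⟨fun k hk => by rw [H.c0 k hk, qz_lo hk]; ring, fun k _ _ => ?_, fun k h1 h2 => ?_,
    fun k h1 => by rw [e, H.chi k h1]; ring, ?_⟩
  · have := mul_nonneg (sub_nonneg.2 H.θ1) (dl_nonneg H.qm k)
    rw [e]; linarith
  · rw [e, one_mul]; exact H.cce k h1 h2
  · refine le_of_eq_of_le ?_ (H.crs.trans_eq (by ring))
    rw [mul_sum]
    exact sum_congr rfl fun k hk => by rw [qz_S H hk]; ring


/-- **closure under deposits**: adaptive time `t`, plain time `h` -/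
theorem KK.add (H : Ok D M m a R) (K : KK D M m a u F) (ht : 0 ≤ t) (hh : 0 ≤ h)
    (hA : Ac D M m a t A) (hU : min (u + (t + h)) D.U = min u D.U + t) :
    KK D M m a (u + (t + h)) fun k => F k + (A k + h * D.c2 k) := by
  have e : ∀ k, dl (fun k => F k + (A k + h * D.c2 k)) k =
      dl F k + dl A k + h * dl D.c2 k := fun k => by simp only [dl]; ring
  have g0 := H.g0
  have g2 := H.g20
  have m0 : 0 ≤ min u D.U := le_min K.u0 H.U0
  have m1 : 0 ≤ u - min u D.U := sub_nonneg.2 (min_le_left _ _)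
  refine ⟨by linarith [K.u0], fun k hk => by rw [K.lo k hk, hA.lo k hk, H.p0 k hk]; ring,
    fun k h1 h2 => ?_, fun k h1 h2 => ?_,
    fun k h1 => by rw [e, K.hi k h1, hA.hi k h1, H.phi k h1]; ring, ?_⟩
  · have := mul_nonneg (mul_nonneg H.θ0 ht) (dl_nonneg H.cm k)
    rw [e, hU]; linarith [K.fl k h1 h2, hA.fl k h1 h2]
  · have := mul_nonneg ht (H.sl0 k)
    rw [e, hU]; linarith [K.ce k h1 h2, hA.ce k h1 h2]
  · have b0 : ∑ k ∈ D.S, M.dz m a k * (h * (D.c2 k - M.q k)) ^ 2 ≤ (h * D.g2) ^ 2 := by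
      rw [mul_pow h]
      refine le_of_eq_of_le ?_ (mul_le_mul_of_nonneg_left H.prs (sq_nonneg h))
      rw [mul_sum]
      exact sum_congr rfl fun k _ => by ring
    have b := mink H.dz0 (by positivity) (by positivity)
      (mink H.dz0 (by positivity) (by positivity) K.res hA.res) b0
    refine le_of_eq_of_le (sum_congr rfl fun k hk => by ring) (b.trans ?_)
    rw [hU]
    exact pow_le_pow_left₀ (by positivity) (by nlinarith [mul_nonneg ht g0]) 2

theorem KK.ac (H : Ok D M m a R) (K : KK D M m a u F) (ht : 0 ≤ t) (hA : Ac D M m a t A)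
    (hU : u + t ≤ D.U) : KK D M m a (u + t) fun k => F k + A k := by
  simpa using K.add H ht le_rfl hA
    (by rw [add_zero, min_eq_left hU, min_eq_left (by linarith)])

/-- **closure under a move followed by deposits** -/
theorem KK.move (H : Ok D M m a R) (K : KK D M m a u F) (ht : u ≤ t) (hA : Ac D M m a t A)
    (hG : Adm D M m a u G) (hU : u + t ≤ D.U) :
    KK D M m a (u + t) fun k => F k + G k + A k := by
  have e : ∀ k, dl (fun k => F k + G k + A k) k = dl F k + dl G k + dl A k := fun k => by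
    simp only [dl]; ring
  have g0 := H.g0
  have u0 := K.u0
  have t0 : 0 ≤ t := u0.trans ht
  have m1 : min u D.U = u := min_eq_left (by linarith)
  have m2 : min (u + t) D.U = u + t := min_eq_left hU
  refine ⟨by linarith, fun k hk => by rw [K.lo k hk, hA.lo k hk, hG.lo k hk]; ring,
    fun k h1 h2 => ?_, fun k h1 h2 => ?_, fun k h1 => ?_, ?_⟩
  · have b := K.fl k h1 h2
    have := mul_le_mul_of_nonneg_right ht (mul_nonneg H.θ0 (dl_nonneg H.cm k))
    rw [m1] at b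
    rw [e, m2]; linarith [hA.fl k h1 h2, hG.fl k h1 h2]
  · have b := K.ce k h1 h2
    have := mul_le_mul_of_nonneg_right ht (H.sl0 k)
    rw [m1] at b
    rw [e, m2]; linarith [hA.ce k h1 h2, hG.ce k h1 h2]
  · have : dl G k = 0 := by rw [dl, hG.hi k h1, hG.hi (k + 1) (by omega), sub_self]
    rw [e, K.hi k h1, hA.hi k h1, this]; ring
  · have b := K.res
    rw [m1, sub_self, zero_mul, add_zero] at b
    have b2 := mink H.dz0 (by positivity) (by positivity)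
      (mink H.dz0 (by positivity) (by positivity) b hG.res) hA.res
    refine le_of_eq_of_le (sum_congr rfl fun k hk => by ring) (b2.trans ?_)
    rw [m2, sub_self, zero_mul, add_zero]
    exact pow_le_pow_left₀ (by positivity) (by nlinarith [mul_le_mul_of_nonneg_right ht g0]) 2

theorem Adm.mono (H : Ok D M m a R) (K : KK D M m a u F) (hG : Adm D M m a u G) (hU : u ≤ D.U) :
    Monotone fun k => F k + G k :=
  mono_of (D := D) (fun k hk => by rw [K.lo k hk, hG.lo k hk, add_zero]) fun k hk => by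
    have e : dl (fun k => F k + G k) k = dl F k + dl G k := by simp only [dl]; ring
    rcases lt_or_ge k D.Jp with c | c
    · have b := K.fl k hk c
      rw [min_eq_left hU] at b
      rw [e]; linarith [hG.fl k hk c]
    · rw [e, dl, dl, hG.hi k c, hG.hi (k + 1) (by omega)]
      linarith [K.mono H k.le_succ]

/-! ### the continuity step -/

theorem Φ_lip (H : Ok D M m a R) {x y : ℝ × (ℕ → ℝ)} {η : ℝ}
    (hη : ∀ k, |(sh M x.1 x.2).rb m a k - (sh M y.1 y.2).rb m a k| ≤ η) :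
    D.Φ M m a x ≤ 2 * D.Φ M m a y + 2 * η ^ 2 := by
  have s1 := (H.lg.sum_dz_le D.S).trans (sub_le_self 1 H.lg.a0)
  have b : D.Φ M m a x ≤ ∑ k ∈ D.S, (2 * (M.dz m a k *
      ((sh M y.1 y.2).rb m a k - M.q k) ^ 2) + 2 * η ^ 2 * M.dz m a k) :=
    sum_le_sum fun k hk => by
      have h1 := sq_le_sq' (abs_le.1 (hη k)).1 (abs_le.1 (hη k)).2
      have h2 : ((sh M x.1 x.2).rb m a k - M.q k) ^ 2 ≤
          2 * ((sh M y.1 y.2).rb m a k - M.q k) ^ 2 + 2 * η ^ 2 := by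
        nlinarith [sq_nonneg ((sh M x.1 x.2).rb m a k - (sh M y.1 y.2).rb m a k -
          ((sh M y.1 y.2).rb m a k - M.q k))]
      have h3 := mul_le_mul_of_nonneg_left h2 (H.dz0 k hk)
      show M.dz m a k * ((sh M x.1 x.2).rb m a k - M.q k) ^ 2 ≤
        2 * (M.dz m a k * ((sh M y.1 y.2).rb m a k - M.q k) ^ 2) + 2 * η ^ 2 * M.dz m a k
      linarith
  rw [sum_add_distrib, ← mul_sum, ← mul_sum] at b
  have := mul_le_of_le_one_right (show 0 ≤ 2 * η ^ 2 by positivity) s1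
  exact b.trans (by rw [Kd.Φ, Ph]; linarith)

/-- **the non-adaptive first step** -/
theorem KK.cont (H : Ok D M m a R) (K : KK D M m a u F) (hh : 0 ≤ h) (hu : u + h ≤ M.d 0)
    (hs : m * h * (5 + 10 * R) ≤ 1) : ∃ F', KK D M m a (u + h) F' ∧
      D.Φ M m a (u, F) ≤ 2 * D.Φ M m a (u + h, F') + 2 * (4 * (m * h * (5 + 10 * R))) ^ 2 := by
  set t := min (u + h) D.U - min u D.U with ht
  have t0 : 0 ≤ t := sub_nonneg.2 (min_le_min (by linarith) le_rfl)
  have t1 : t ≤ h := by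
    rcases le_total u D.U with c | c
    · rw [ht, min_eq_left c]; linarith [min_le_left (u + h) D.U]
    · rw [ht, min_eq_right c]; linarith [min_le_right (u + h) D.U]
  have A := (ac_zero (D := D) (M := M) (m := m) (a := a)).add H le_rfl t0 (ac_fix H)
  simp only [zero_add] at A
  have K' := K.add H t0 (sub_nonneg.2 t1) A (by rw [add_sub_cancel, ht]; ring)
  rw [add_sub_cancel] at K'
  refine ⟨_, K', Φ_lip H fun k => ?_⟩
  have c0 : ∀ k, 0 ≤ D.c k := fun k => (H.c0 0 (Nat.zero_le _)).ge.trans (H.cm (Nat.zero_le k))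
  have q0 : ∀ k, 0 ≤ qz M D.j0 k := fun k =>
    (qz_lo (M := M) (Nat.zero_le D.j0)).ge.trans (H.qm (Nat.zero_le k))
  refine (rb_lip (K'.lg H hu) (K.lg H (by linarith)) (ε₁ := h) (ε₂ := h * R)
    ⟨rfl, rfl, fun k _ => ?_, fun k _ => ?_⟩ (by linarith) k).trans_eq (by ring)
  · simp only [sh]; rw [show M.d k - u - (M.d k - (u + h)) = h by ring, abs_of_nonneg hh]
  · simp only [sh]
    have b1 := mul_le_mul_of_nonneg_left (H.cR k) H.θ0
    have b2 := mul_le_mul_of_nonneg_left (H.qR k) (sub_nonneg.2 H.θ1)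
    have b3 := mul_le_mul_of_nonneg_left (H.pR k) (sub_nonneg.2 t1)
    have b4 := mul_le_mul_of_nonneg_left
      (show D.θ * D.c k + (1 - D.θ) * qz M D.j0 k ≤ R by linarith) t0
    have b5 := mul_nonneg t0 (add_nonneg (mul_nonneg H.θ0 (c0 k))
      (mul_nonneg (sub_nonneg.2 H.θ1) (q0 k)))
    have b6 := mul_nonneg (sub_nonneg.2 t1)
      ((H.p0 0 (Nat.zero_le _)).ge.trans (H.pm (Nat.zero_le k)))
    rw [abs_le]
    constructor <;> linarith

/-! ### the adaptive path -/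

variable {ρ : Md → ℕ → ℝ} {W Fs : ℝ}

theorem eu_sh (i : ℕ) : eu ρ h (sh M u F) i =
    sh M (u + i * h) fun k => F k + acc ρ h (sh M u F) i k := by rw [eu_eq, co, sh_sh]

theorem co_sh (i : ℕ) : co ρ h (sh M u F) (sh (sh M u F) 0 G) i =
    sh M (u + i * h) fun k => F k + G k + acc ρ h (sh M u F) i k := by
  rw [co, sh_sh, sh_sh, zero_add]
  simp only [add_assoc]

/-- what the rule gives on located members -/
def RuS (D : Kd) (M : Md) (m : ℕ) (a : ℝ) (ρ : Md → ℕ → ℝ) (t₀ W Fs : ℝ) : Prop :=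
  ∀ u F, t₀ ≤ u → u ≤ D.U → KK D M m a u F → D.Φ M m a (u, F) ≤ W →
    Ac D M m a 1 (ρ (sh M u F)) ∧ Rem (sh M u F) m a (ρ (sh M u F)) ≤ Fs

/-- **the path stays in the class** -/
theorem path (H : Ok D M m a R) {t₀ : ℝ} (hρ : RuS D M m a ρ t₀ W Fs) (K : KK D M m a u F)
    (hu : t₀ ≤ u) (hh : 0 ≤ h)
    (hW : ∀ v F', u ≤ v → v ≤ D.U → KK D M m a v F' → D.Φ M m a (v, F') ≤ W) :
    ∀ i : ℕ, u + i * h ≤ D.U → Ac D M m a (i * h) (acc ρ h (sh M u F) i) ∧
      ∑ l ∈ range i, h * Rem (eu ρ h (sh M u F) l) m a (ρ (eu ρ h (sh M u F) l)) ≤ i * h * Fs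
  | 0, _ => by
    rw [show acc ρ h (sh M u F) 0 = fun _ => 0 from funext fun _ => sum_range_zero _]
    simpa using ac_zero
  | i + 1, hi => by
    push_cast at hi ⊢
    have i0 : 0 ≤ i * h := by positivity
    obtain ⟨b1, b2⟩ := path H hρ K hu hh hW i (by linarith)
    have K1 := K.ac H i0 b1 (by linarith)
    obtain ⟨c1, c2⟩ := hρ _ _ (by linarith) (by linarith) K1
      (hW _ _ (by linarith) (by linarith) K1)
    rw [← eu_sh] at c1 c2
    refine ⟨?_, ?_⟩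
    · have := b1.add H i0 hh c1
      rw [show (i : ℝ) * h + h = (i + 1) * h by ring] at this
      convert this using 1
      funext k
      exact sum_range_succ _ _
    · rw [sum_range_succ]
      linarith [mul_le_mul_of_nonneg_left c2 hh]

/-- **the step on the models** (base and plateau moves): from a bound `B` of the moved companions
and a bound `Y` of the cost of the path -/
def StS (D : Kd) (M : Md) (m : ℕ) (a : ℝ) (ρ : Md → ℕ → ℝ) (h t₀ d W Y C T : ℝ) : Prop :=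
  ∀ u F, t₀ ≤ u → u < d → KK D M m a u F → D.Φ M m a (u, F) ≤ W → ∀ (i : ℕ) (B : ℝ), T ≤ B →
    u + i * h ≤ D.U → Ac D M m a (i * h) (acc ρ h (sh M u F) i) →
    ∑ l ∈ range i, h * Rem (eu ρ h (sh M u F) l) m a (ρ (eu ρ h (sh M u F) l)) ≤ u * Y →
    (∀ G, Adm D M m a u G →
      Ph (co ρ h (sh M u F) (sh (sh M u F) 0 G) i) m a M.q (M.dz m a) D.S ≤ B) →
    D.Φ M m a (u, F) ≤ C * B + T

/-- **SR assembled** -/
theorem main (H : Ok D M m a R) {d uE K C T P : ℝ} {J : ℕ} (hh : 0 < h) (hK : 2 ≤ K) (hC : 1 ≤ C)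
    (hT : 0 ≤ T) (hJ : d ≤ K ^ J * h) (hP : (J + 1) * C ^ J * T ≤ P) (hU : K * d + h ≤ D.U)
    (hUE : D.U ≤ uE) (hE : uE + h ≤ M.d 0) (hs : m * h * (5 + 10 * R) ≤ 1)
    (hη : 2 * (4 * (m * h * (5 + 10 * R))) ^ 2 ≤ P) (F0 : 0 ≤ Fs)
    (hρ : RuS D M m a ρ h (3 * P) Fs) (hS : StS D M m a ρ h h d (3 * P) (K * Fs) C T)
    (term : ∀ u F, d ≤ u → u < uE → KK D M m a u F → D.Φ M m a (u, F) ≤ 3 * P →
      D.Φ M m a (u, F) ≤ T)
    (start : ∀ u F, uE ≤ u → u ≤ uE + h → KK D M m a u F → D.Φ M m a (u, F) ≤ T) :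
    Ph M m a M.q (M.dz m a) D.S ≤ 3 * P := by
  have cont : ∀ u (x : ℝ × (ℕ → ℝ)), 0 ≤ u → u < uE → (x.1 = u ∧ KK D M m a x.1 x.2) →
      ∃ y : ℝ × (ℕ → ℝ), (y.1 = u + h ∧ KK D M m a y.1 y.2) ∧
        D.Φ M m a x ≤ 2 * D.Φ M m a y + P := by
    rintro _ ⟨u, F⟩ _ h2 ⟨rfl, hx⟩
    obtain ⟨F', b1, b2⟩ := hx.cont H hh.le (by simp only at h2 ⊢; linarith) hs
    exact ⟨(u + h, F'), ⟨rfl, b1⟩, by linarith⟩
  have key := close3 (Cs := fun u (x : ℝ × (ℕ → ℝ)) => x.1 = u ∧ KK D M m a x.1 x.2)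
    (Φ := D.Φ M m a) (uE := uE) hh.le (by linarith : 1 ≤ K) hh hC hT hJ hP
    (by rintro _ ⟨u, F⟩ h1 h2 ⟨rfl, hx⟩; exact start u F h1 h2 hx)
    (fun u x h1 => cont u x (hh.le.trans h1))
    (by rintro _ ⟨u, F⟩ h1 h2 ⟨rfl, hx⟩; exact term u F h1 h2 hx) ?_
  · have d0 : 0 < d ∨ d ≤ 0 := lt_or_ge 0 d
    have E0 : 0 ≤ uE := H.U0.trans hUE
    rcases E0.eq_or_lt with e | e
    · have := start 0 _ e.ge (by linarith) (kk_zero H)
      rw [Kd.Φ, sh_zero] at this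
      have one : T ≤ ((J : ℝ) + 1) * C ^ J * T := le_mul_of_one_le_left hT
        (one_le_mul_of_one_le_of_one_le (by linarith [Nat.cast_nonneg (α := ℝ) J]) (one_le_pow₀ hC))
      linarith
    obtain ⟨y, b1, b2⟩ := cont 0 (0, fun _ => 0) le_rfl e ⟨rfl, kk_zero H⟩
    have := key _ y (by linarith) (by linarith) b1
    rw [Kd.Φ, sh_zero] at b2
    linarith
  rintro _ ⟨u, F⟩ h1 h2 _ ⟨rfl, hx⟩ hW
  simp only at h1 h2 hx hW ⊢
  have u0 := hx.u0
  set i := ⌈(K - 1) * u / h⌉₊ with hi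
  have i1 : (K - 1) * u ≤ i * h := (div_le_iff₀ hh).1 (Nat.le_ceil _)
  have i2 : i * h ≤ (K - 1) * u + h := by
    have := Nat.ceil_lt_add_one (show 0 ≤ (K - 1) * u / h from
      div_nonneg (mul_nonneg (by linarith) u0) hh.le)
    have := mul_le_mul_of_nonneg_right this.le hh.le
    rwa [add_mul, div_mul_cancel₀ _ hh.ne', one_mul] at this
  have Ku : K * u ≤ K * d := mul_le_mul_of_nonneg_left h2.le (by linarith)
  have iU : u + i * h ≤ D.U := by linarith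
  have hW' : ∀ v F', u ≤ v → v ≤ D.U → KK D M m a v F' → D.Φ M m a (v, F') ≤ 3 * P :=
    fun v F' a1 a2 a3 => hW v (v, F') a1 (by linarith) ⟨rfl, a3⟩
  obtain ⟨b1, b2⟩ := path H hρ hx h1 hh.le hW' i iU
  refine ⟨u + i * h, by linarith, by linarith, fun B hB hy => ?_⟩
  refine hS u F h1 h2 hx (hW' u F le_rfl (by nlinarith) hx) i B hB iU b1
    (b2.trans ?_) fun G hG => ?_
  · rw [← mul_assoc]
    exact mul_le_mul_of_nonneg_right (by linarith) F0
  · rw [co_sh]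
    exact hy (u + i * h, _) ⟨rfl, hx.move H (by nlinarith) b1 hG iU⟩

end Crest.Agent.T156.Alt.Sr46

end
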