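import Crest.Agent.T156.SRDef2_19
import Crest.Agent.T156.SrK_46
import Crest.Agent.T156.ClReg_29
import Crest.Agent.T156.SRDef_19
import Crest.Agent.T156.SrP_26

-- ▼ part T156/SrGl_46
section

/-!
# Row 156, soft recursion: the glue `SrG2` (helper46)
-/

set_option autoImplicit false
set_option linter.unusedSectionVars false

noncomputable section

namespace Crest.Agent.T156.Alt.Sr

open Real Finset
open Crest.Agent.T156.Alt.Md67 (Lg)
open Crest.Agent.T156.Alt.Gu71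

variable {E Y D u h t R η : ℝ} {S : Sc} {M N N' : Md} {c r : ℕ → ℝ} {m : ℕ} {a : ℝ}

theorem KC.eqs (K : KC E S M Y c D u N) : N.N = M.N ∧ N.z = M.z ∧ N.q = M.q := by
  obtain ⟨-, -, F, -, rfl⟩ := K
  exact ⟨rfl, rfl, rfl⟩

theorem phi_lip46 (G : Lg N m a) (hz : N'.z = N.z) (hq : N'.q = N.q)
    (hη : ∀ k, |N'.rb m a k - N.rb m a k| ≤ η) : N.Phi S m a ≤ 2 * N'.Phi S m a + 2 * η ^ 2 := by
  have e : ∀ k ∈ Ioc S.jl S.Jp, N.dx k = N.dz m a k := fun k hk =>
    (Md67.dz_up G.toLeg (by have := (mem_Ioc.1 hk).1; omega)).symm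
  have s1 : ∑ k ∈ Ioc S.jl S.Jp, N.dx k ≤ 1 := by
    rw [sum_congr rfl e]; exact (G.sum_dz_le _).trans (sub_le_self 1 G.a0)
  have b : N.Phi S m a ≤ ∑ k ∈ Ioc S.jl S.Jp, (2 * (N'.dx k * N'.del m a k ^ 2) +
      2 * η ^ 2 * N.dx k) := sum_le_sum fun k hk => by
    have h1 := sq_le_sq' (abs_le.1 (hη k)).1 (abs_le.1 (hη k)).2
    have h2 : (N.rb m a k - N.q k) ^ 2 ≤ 2 * (N'.rb m a k - N.q k) ^ 2 + 2 * η ^ 2 := by
      nlinarith [sq_nonneg (N'.rb m a k - N.rb m a k + (N'.rb m a k - N.q k))]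
    have h3 := mul_le_mul_of_nonneg_left h2 ((G.dz_nonneg k).trans_eq (e k hk).symm)
    show N.dx k * (N.rb m a k - N.q k) ^ 2 ≤
      2 * ((N'.z k - N'.z (k - 1)) * (N'.rb m a k - N'.q k) ^ 2) + 2 * η ^ 2 * N.dx k
    rw [hz, hq]
    change _ ≤ 2 * (N.dx k * _) + _
    linarith
  rw [sum_add_distrib, ← mul_sum, ← mul_sum] at b
  have := mul_le_of_le_one_right (show 0 ≤ 2 * η ^ 2 by positivity) s1
  exact b.trans (by rw [Md.Phi, Md.sq]; linarith)

theorem dep_lip46 (G : Lg N m a) (G' : Lg (dep N r t) m a) (hr : Dp r R) (h0 : 0 ≤ t) (h1 : t ≤ h)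
    (hs : m * h * (5 + 10 * R) ≤ 1) (k : ℕ) :
    |(dep N r t).rb m a k - N.rb m a k| ≤ 4 * (m * h * (5 + 10 * R)) := by
  have R0 : 0 ≤ R := (hr.nn 0).trans (hr.le 0)
  have b : m * t * (5 + 10 * R) ≤ m * h * (5 + 10 * R) := by gcongr
  exact (rb_lip G G' (nr_dep N hr h0) (by linarith) k).trans (by linarith)

theorem num46 {n : ℕ} (n1 : (1 : ℝ) ≤ n) (hE : 2 ≤ E) (Y0 : (n : ℝ) ^ (-(1 : ℝ) / 2) ≤ Y)
    (Y1 : E ^ 200 * Y ≤ (n : ℝ) ^ (-(1 : ℝ) / 10)) :
    1 / (n : ℝ) ≤ Y ∧ E ^ 51 ≤ n ∧ E ^ 100 * (2 * E ^ 10 * max ((n : ℝ) ^ (-(1 : ℝ) / 3)) Y) ≤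
      (n : ℝ) ^ (-(1 : ℝ) / 20) := by
  have n0 : (0 : ℝ) < n := by linarith
  have E1 : 1 ≤ E := by linarith
  have Y0' : 0 < Y := lt_of_lt_of_le (by positivity) Y0
  have b : E ^ 200 ≤ (n : ℝ) ^ ((2 : ℝ) / 5) := by
    have := (mul_le_mul_of_nonneg_left Y0 (by positivity : 0 ≤ E ^ 200)).trans Y1
    rw [← le_div_iff₀ (by positivity), ← rpow_sub n0] at this
    exact this.trans_eq (by norm_num)
  refine ⟨le_trans ?_ Y0, ?_, ?_⟩
  · rw [one_div, ← rpow_neg_one]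
    exact rpow_le_rpow_of_exponent_le n1 (by norm_num)
  · refine ((pow_le_pow_right₀ E1 (by norm_num)).trans b).trans ?_
    simpa using rpow_le_rpow_of_exponent_le n1 (show (2 : ℝ) / 5 ≤ 1 by norm_num)
  have c : E ^ 125 ≤ (n : ℝ) ^ ((1 : ℝ) / 4) := by
    refine le_of_pow_le_pow_left₀ (n := 8) (by norm_num) (by positivity) ?_
    rw [← pow_mul, show 125 * 8 = 200 * 5 by norm_num, pow_mul]
    refine (pow_le_pow_left₀ (by positivity) b 5).trans_eq ?_
    rw [← rpow_natCast, ← rpow_natCast, ← rpow_mul n0.le, ← rpow_mul n0.le]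
    norm_num
  have d : E ^ 100 * (2 * E ^ 10) ≤ E ^ 125 :=
    (show E ^ 100 * (2 * E ^ 10) ≤ E ^ 100 * (E * E ^ 10) by gcongr).trans
      ((show _ = E ^ 111 by ring).trans_le (pow_le_pow_right₀ E1 (by norm_num)))
  rw [← mul_assoc]
  rcases le_total ((n : ℝ) ^ (-(1 : ℝ) / 3)) Y with p | p
  · rw [max_eq_right p]
    exact (mul_le_mul_of_nonneg_right (d.trans (pow_le_pow_right₀ E1 (by norm_num))) Y0'.le).trans
      (Y1.trans (rpow_le_rpow_of_exponent_le n1 (by norm_num)))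
  · rw [max_eq_left p]
    refine (mul_le_mul_of_nonneg_right (d.trans c) (by positivity)).trans ?_
    rw [← rpow_add n0]
    exact rpow_le_rpow_of_exponent_le n1 (by norm_num)

/-- the terminal statement at one member, with the unit `ν` -/
def TermAt (E : ℝ) (S : Sc) (M : Md) (m : ℕ) (a Y ν : ℝ) : Prop :=
  ∀ c D, Ax E S M Y c → 2 * E ^ 10 * ν ≤ D → D ≤ 3 * E ^ 10 * ν → ∀ u N, E ^ 8 * ν ≤ u →
    u ≤ 1 / E → KC E S M Y c D u N → N.Phi S m a ≤ 2 * (E ^ 100 * Y) → N.Phi S m a ≤ E ^ 99 * Y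

/-- SR, member by member -/
def SrAt : Prop := CL fun E _ S M m a => ∀ l Ys Y ν, SH E S M l Ys Y → VarH E S M m a Y →
  E * S.θ ≤ 1 → nu S ≤ ν → ν ≤ max (nu S) Y → TermAt E S M m a Y ν →
  M.Phi S m a ≤ 2 * (E ^ 100 * Y)

set_option maxHeartbeats 1600000 in
theorem srAt (hc : ClkS) (hi : InvS) (hd : DblS) (hm : MovS) (hl : LinS2) : SrAt := by
  unfold ClkS at hc
  unfold InvS SR at hi
  unfold DblS SR at hd
  unfold MovS SR at hm
  unfold LinS2 SR at hl
  unfold SrAt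
  refine ((((hc.and hi).and hd).and hm).and hl).glue fun C => ⟨0, fun A _ ε _ hε _ => ?_⟩
  clear hc hi hd hm hl
  obtain ⟨j, hj⟩ := exists_nat_ge (6 / ε)
  rw [div_le_iff₀ hε] at hj
  refine ⟨ε, ε / (j + 4 + 1 : ℕ), max 1000 (2 * (j + 4 + 1 : ℕ)), hε, by positivity, ?_⟩
  rintro S M m a G H I ⟨⟨⟨⟨hc, hi⟩, hd⟩, hm⟩, hl⟩ l Ys Y ν s v θ1 νa νb ht
  obtain ⟨c, hc⟩ := hc l Ys Y s
  have n0 := G.N0
  have eE : (S.n : ℝ) ^ ε = ((S.n : ℝ) ^ (ε / (j + 4 + 1 : ℕ))) ^ (j + 4 + 1) := by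
    rw [← rpow_natCast, ← rpow_mul n0.le, div_mul_cancel₀ _ (by positivity)]
  have E6 : (S.n : ℝ) ^ 6 ≤ ((S.n : ℝ) ^ ε) ^ j := by
    rw [← rpow_natCast, ← rpow_natCast _ j, ← rpow_mul n0.le]
    exact rpow_le_rpow_of_exponent_le G.N1.le (by push_cast; linarith)
  have x1 := G.num_le
  have x2 := (le_max_right _ _).trans G.K_le
  have n3 : 1000 ≤ (S.n : ℝ) :=
    ((le_max_left _ _).trans G.K_log).trans ((log_le_sub_one_of_pos n0).trans (by linarith))
  have n1 := G.N1.le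
  have n2 := G.n3
  generalize (S.n : ℝ) ^ (ε / (j + 4 + 1 : ℕ)) = x at x1 x2 eE hi hd hm hl
  generalize (S.n : ℝ) ^ ε = E at *
  clear G
  have E3 : 1000 ≤ E := x1.trans (eE ▸ le_self_pow₀ (by linarith) (by omega))
  have E1 : 1 ≤ E := by linarith
  have E0 : 0 < E := by linarith
  obtain ⟨y1, y2, y3⟩ := num46 n1 (by linarith) s.Y0 s.Y1
  have Y0 : 0 < Y := lt_of_lt_of_le (by positivity) y1
  have ν0 : 0 < nu S := by unfold nu; positivity
  have hD : Dr E S (2 * E ^ 10 * ν) := ⟨by gcongr, le_trans (by gcongr; exact νb) y3⟩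
  have D1 : E ^ 100 * (2 * E ^ 10 * ν) ≤ 1 :=
    hD.2.trans (rpow_le_one_of_one_le_of_nonpos n1 (by norm_num))
  obtain ⟨i1, i2, i3, i4, i5, -⟩ := hi l Ys Y c _ s v hc hD
  replace hd := hd l Ys Y c _ s v hc hD
  replace hm := hm l Ys Y c _ s v hc hD
  have ν2 : 0 < ν := ν0.trans_le νa
  replace ht := ht c _ hc le_rfl (by gcongr; norm_num)
  replace hl := hl l Ys Y c _ s v hc hD θ1
  beta_reduce at hd hm hl
  clear hi y3 νb
  have D0 : 0 ≤ 2 * E ^ 10 * ν := by positivity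
  have D2 : 2 * E ^ 10 * ν ≤ 1 / E := by
    rw [le_div_iff₀ E0, mul_comm]
    exact (mul_le_mul_of_nonneg_right (le_self_pow₀ E1 (by norm_num)) D0).trans D1
  have b3 : 0 < 1 / E := by positivity
  have b4 : 1 / E ≤ 1 / 1000 := one_div_le_one_div_of_le (by norm_num) E3
  have b2 : 2 / E = 2 * (1 / E) := by ring
  have ν1 : ν ≤ 1 := by
    have := le_mul_of_one_le_left ν2.le (one_le_pow₀ (n := 10) E1)
    linarith
  set D := 2 * E ^ 10 * ν with hDe
  set h : ℝ := 1 / (S.n : ℝ) ^ 6 with hh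
  have h0 : 0 < h := by positivity
  have m2 : (m : ℝ) ≤ 2 * S.n := by exact_mod_cast I.m2
  have m0 : 0 < m := lt_of_lt_of_le (by omega) I.m1
  have he1 : h ≤ 1 / E := one_div_le_one_div_of_le E0
    (((le_self_pow₀ E1 (by norm_num)).trans y2).trans (le_self_pow₀ n1 (by norm_num)))
  have hs : m * h * (5 + 10 * E ^ 51) ≤ 30 / (S.n : ℝ) ^ 4 := by
    have : (m : ℝ) * h * (5 + 10 * E ^ 51) ≤ 2 * S.n * h * (15 * S.n) := by
      gcongr; linarith
    exact this.trans_eq (by rw [hh]; field_simp; norm_num)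
  have n5 : (1000 : ℝ) ^ 3 ≤ (S.n : ℝ) ^ 3 := by gcongr
  have hs0 : 30 / (S.n : ℝ) ^ 4 ≤ 1 / (1000 * S.n) := by
    rw [div_le_div_iff₀ (by positivity) (by positivity)]
    have := mul_le_mul_of_nonneg_right n5 n0.le
    linarith only [this, n0]
  have hs2 : 1 / (1000 * (S.n : ℝ)) ≤ 1 / 1000 :=
    one_div_le_one_div_of_le (by norm_num) (by linarith)
  have hs3 : 1 / (1000 * (S.n : ℝ)) ≤ Y / 1000 := by
    rw [mul_comm, ← div_div]; gcongr
  have hs1 : m * h * (5 + 10 * E ^ 51) ≤ 1 := by linarith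
  have s0 : 0 ≤ m * h * (5 + 10 * E ^ 51) := by positivity
  have EY : Y ≤ E ^ 100 * Y := le_mul_of_one_le_left Y0.le (one_le_pow₀ E1)
  have b1 := H.b0
  have sA : ∀ u t N, 0 ≤ t → t ≤ h → u + t ≤ D → KC E S M Y c D u N → ∃ N',
      KC E S M Y c D (u + t) N' ∧ ∀ k, |N'.rb m a k - N.rb m a k| ≤
        4 * (m * h * (5 + 10 * E ^ 51)) := fun u t N a1 a2 a3 K => by
    have K' := i4 u t N a1 a3 K
    refine ⟨_, K', dep_lip46 (i2 _ _ K) (i2 _ _ K') ?_ a1 a2 hs1⟩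
    have L := i2 _ _ K
    obtain ⟨-, -, F, -, rfl⟩ := K
    exact i1 _ _ L
  have sB : ∀ u t N, 0 ≤ t → t ≤ h → D ≤ u → u + t ≤ M.d 0 → KC E S M Y c D u N → ∃ N',
      KC E S M Y c D (u + t) N' ∧ ∀ k, |N'.rb m a k - N.rb m a k| ≤
        4 * (m * h * (5 + 10 * E ^ 51)) := fun u t N a1 a2 a3 a4 K => by
    obtain ⟨p, K'⟩ := i5 u t N a1 a3 a4 K
    exact ⟨_, K', dep_lip46 (i2 _ _ K) (i2 _ _ K') p a1 a2 hs1⟩
  have hP0 : 2 * (8 * (m * h * (5 + 10 * E ^ 51))) ^ 2 ≤ 2 / 3 * (E ^ 100 * Y) := by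
    have := mul_le_mul (hs.trans (hs0.trans hs2)) (hs.trans (hs0.trans hs3)) s0 (by norm_num)
    have e : (8 * (m * h * (5 + 10 * E ^ 51))) ^ 2 =
      64 * (m * h * (5 + 10 * E ^ 51) * (m * h * (5 + 10 * E ^ 51))) := by ring
    rw [e]
    generalize m * h * (5 + 10 * E ^ 51) * (m * h * (5 + 10 * E ^ 51)) = w at this ⊢
    linarith only [this, EY, Y0]
  generalize m * h * (5 + 10 * E ^ 51) = σ at *
  have cont : ∀ u N, u < 1 / E → KC E S M Y c D u N → ∃ N', KC E S M Y c D (u + h) N' ∧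
      N.Phi S m a ≤ 2 * N'.Phi S m a + 2 / 3 * (E ^ 100 * Y) := fun u N a1 K => by
    have key : ∃ N', KC E S M Y c D (u + h) N' ∧ ∀ k, |N'.rb m a k - N.rb m a k| ≤ 8 * σ := by
      rcases le_total (u + h) D with p | p
      · obtain ⟨N', q1, q2⟩ := sA u h N h0.le le_rfl p K
        exact ⟨N', q1, fun k => (q2 k).trans (by linarith only [s0])⟩
      rcases le_total D u with p' | p'
      · obtain ⟨N', q1, q2⟩ := sB u h N h0.le le_rfl p' (by linarith only [a1, he1, b4, b1]) K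
        exact ⟨N', q1, fun k => (q2 k).trans (by linarith only [s0])⟩
      obtain ⟨N₁, q1, q2⟩ := sA u (D - u) N (by linarith only [p']) (by linarith only [p])
        (by linarith only []) K
      obtain ⟨N', q3, q4⟩ := sB _ (u + h - D) N₁ (by linarith only [p]) (by linarith only [p'])
        (by linarith only []) (by linarith only [a1, he1, b4, b1]) q1
      rw [show u + (D - u) + (u + h - D) = u + h by ring] at q3
      exact ⟨N', q3, fun k => (abs_sub_le _ (N₁.rb m a k) _).trans (by linarith only [q2 k, q4 k])⟩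
    obtain ⟨N', q1, q2⟩ := key
    exact ⟨N', q1, (phi_lip46 (i2 _ _ K) (q1.eqs.2.1.trans K.eqs.2.1.symm)
      (q1.eqs.2.2.trans K.eqs.2.2.symm) q2).trans (add_le_add le_rfl hP0)⟩
  have hP : ((j + 4 : ℕ) + 1) * x ^ (j + 4) * (E ^ 99 * Y) ≤ 2 / 3 * (E ^ 100 * Y) := by
    have p : (((j + 4 : ℕ) : ℝ) + 1) * x ^ (j + 4) ≤ 2 / 3 * E := by
      rw [eE, pow_succ x (j + 4)]
      push_cast at x2 ⊢
      have a1 := mul_le_mul_of_nonneg_left x2 (pow_pos (show 0 < x by linarith) (j + 4)).le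
      have a2 := mul_pos (pow_pos (show 0 < x by linarith) (j + 4)) (show 0 < x by linarith)
      linarith only [a1, a2]
    exact (mul_le_mul_of_nonneg_right p (show 0 ≤ E ^ 99 * Y by positivity)).trans_eq (by ring)
  have E2 : 2 ≤ E ^ 2 := le_trans (by linarith) (le_self_pow₀ E1 (by norm_num))
  have T0 : 0 ≤ E ^ 99 * Y := by positivity
  have key := Sr46.close3 (Cs := KC E S M Y c D) (Φ := fun N => N.Phi S m a) (t := h)
    (d := E ^ 8 * ν) (uE := 1 / E) (K := E ^ 2) (C := x) (J := j + 4) h0.le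
    (by linarith only [E2]) h0 (by linarith only [x1]) T0 ?_ hP
    (fun u N a1 a2 K => hl u N a1 (by linarith only [a2, he1, b2]) K)
    (fun u N _ a1 K => cont u N a1 K)
    (fun u N a1 a2 K a3 => ht u N a1 a2.le K (by linarith only [a3])) ?_
  · obtain ⟨N', q1, q2⟩ := cont 0 M b3 i3
    have := key _ N' (by linarith only []) (by linarith only [b3]) q1
    linarith only [this, q2, hP]
  · have p : ((S.n : ℝ) ^ 6) * E ^ 8 ≤ (E ^ 2) ^ (j + 4) := by
      rw [← pow_mul, show 2 * (j + 4) = (j + j) + 8 by ring, pow_add _ (j + j)]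
      exact mul_le_mul_of_nonneg_right (E6.trans (pow_le_pow_right₀ E1 (by omega))) (by positivity)
    rw [hh, mul_one_div, le_div_iff₀ (by positivity)]
    have := mul_le_of_le_one_right (show 0 ≤ (S.n : ℝ) ^ 6 * E ^ 8 by positivity) ν1
    linarith only [this, p]
  intro u N a1 a2 a3 K hW
  have u0 : 0 < u := h0.trans_le a1
  set i := ⌈(E ^ 2 - 1) * u / h⌉₊ with hi
  have j1 : (E ^ 2 - 1) * u ≤ i * h := (div_le_iff₀ h0).1 (Nat.le_ceil _)
  have j2 : i * h ≤ (E ^ 2 - 1) * u + h := by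
    have := Nat.ceil_lt_add_one (show 0 ≤ (E ^ 2 - 1) * u / h from
      div_nonneg (mul_nonneg (by linarith only [E2]) u0.le) h0.le)
    have := mul_le_mul_of_nonneg_right this.le h0.le
    rwa [add_mul, div_mul_cancel₀ _ h0.ne', one_mul] at this
  have j3 : E ^ 2 * u ≤ E ^ 10 * ν :=
    (mul_le_mul_of_nonneg_left a2.le (by positivity)).trans_eq (by ring)
  have j4 : 2 * u ≤ E ^ 2 * u := mul_le_mul_of_nonneg_right E2 u0.le
  have j5 : u + i * h ≤ D := by rw [hDe]; linarith only [j2, j3, j4, a1, u0]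
  have j6 : N.Phi S m a ≤ 2 * (E ^ 100 * Y) := by
    linarith only [hW u N le_rfl (by linarith only [a3, h0]) K]
  refine ⟨u + i * h, by linarith only [j1], by linarith only [j5, D2, h0], fun B hB hy => ?_⟩
  rcases le_total B (E ^ 100 * Y) with p | p
  · obtain ⟨q1, q2, q3⟩ := K.eqs
    have := hm u N B u0 m0 q1 q2 q3 j6 hB p (hd u h i N B h0 le_rfl (by linarith only [j1, j4])
      (by linarith only [j2, j4, a1, u0]) j5 K (fun l hl N' K' => by
        have : (l : ℝ) * h ≤ i * h := by gcongr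
        linarith only [hW _ N' (le_add_of_nonneg_right (by positivity))
          (by linarith only [this, j5, D2, h0]) K']) hy)
    linarith only [this, T0]
  · have := mul_le_mul_of_nonneg_right (show 2 ≤ x by linarith only [x1]) (T0.trans hB)
    linarith only [this, j6, p, T0]

theorem SX.θ1 {K : ℕ} {l lm Ys : ℝ} (x : SX K E S M l lm Ys Y) (hK : 1 ≤ K) (E1 : 1 ≤ E)
    (H : Cl S M) (s : SH E S M l Ys Y) : E * S.θ ≤ 1 := by
  have Y0 : 0 < Y := (rpow_pos_of_pos H.N0 _).trans_le s.Y0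
  have y : Y ≤ 1 := (le_mul_of_one_le_left Y0.le (one_le_pow₀ E1)).trans
    (s.Y1.trans (rpow_le_one_of_one_le_of_nonpos (by exact_mod_cast H.n1) (by norm_num)))
  have l1 : l ≤ 1 := le_of_pow_le_pow_left₀ three_ne_zero zero_le_one (by
    rw [one_pow]; exact s.l3.trans y)
  have := x.ml 1 (s.jl.trans l1)
  rw [one_pow] at this
  exact (mul_le_mul_of_nonneg_right (le_self_pow₀ E1 (by omega)) H.θ0.le).trans this

theorem nuY_le (K : ℕ) (E1 : 1 ≤ E) (Y0 : 0 ≤ Y) : nuY K E S Y ≤ max (nu S) Y :=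
  max_le_max le_rfl (div_le_self Y0 (one_le_pow₀ E1))

/-- **the glue of SR** -/
theorem srG2 : SrG2 := by
  intro hc hi hd hm hl K hK ht
  have h := srAt hc hi hd hm hl
  unfold SrAt at h
  unfold Term at ht
  exact (h.and ht).mono fun E _ S M m a E1 _ H _ ⟨h, ht⟩ l lm Ys Y s x v =>
    h l Ys Y _ s v (x.θ1 hK E1 H s) (le_max_left _ _)
      (nuY_le K E1 ((rpow_pos_of_pos H.N0 _).le.trans s.Y0)) fun c D => ht l lm Ys Y c D s x v

end Crest.Agent.T156.Alt.Sr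

end
end

-- ▼ part T156/Clk_64

/-!
# Row 156, SR (helper64): the deposit clock exists (`Sr.ClkS`)
-/

set_option autoImplicit false

noncomputable section

namespace Crest.Agent.T156.Alt.Clk64

open Real Finset
open Crest.Agent.T156.Alt.Sr
open Crest.Agent.T156.SrP26 (Pt rho)

variable {E l Ys Y T : ℝ} {S : Sc} {M : Md}

/-- the extra part of the clock: a taper below the plateau, the shape `shp` on it -/
def ext (T Y : ℝ) (S : Sc) (M : Md) (k : ℕ) : ℝ :=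
  if k ≤ S.J then -max 0 (T ^ ((1 : ℝ) / 3) - (M.ck S.J - M.ck k) / 2)
  else shp T Y (M.xs S) (M.z (k - 1)) - √T / √(1 - M.xs S + Y)

theorem cube_third (hT : 0 ≤ T) : (T ^ ((1 : ℝ) / 3)) ^ 3 = T := by
  rw [← rpow_natCast, ← rpow_mul hT]
  norm_num

theorem ext_lo {k : ℕ} (hk : k ≤ S.J) :
    ext T Y S M k = -max 0 (T ^ ((1 : ℝ) / 3) - (M.ck S.J - M.ck k) / 2) := if_pos hk

theorem ext_hi (hT : 0 < T) {k : ℕ} (hk : S.J ≤ k) :
    ext T Y S M k = shp T Y (M.xs S) (M.z (k - 1)) - √T / √(1 - M.xs S + Y) := by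
  rcases hk.eq_or_lt with e | e
  · subst e
    have p0 : 0 < T ^ ((1 : ℝ) / 3) := rpow_pos_of_pos hT _
    have p3 := cube_third hT.le
    rw [ext_lo le_rfl, shp, Md.xs]
    generalize T ^ ((1 : ℝ) / 3) = p at *
    have s0 : 0 < √p := sqrt_pos.2 p0
    have e1 : √T = p * √p := by
      rw [sqrt_eq_iff_mul_self_eq hT.le (by positivity), ← p3]
      nlinarith [mul_self_sqrt p0.le]
    rw [sub_self, sub_self, zero_div, sub_zero, zero_add, max_eq_right p0.le, e1,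
      mul_div_assoc, mul_div_assoc p (√p) (√p), div_self s0.ne']
    ring
  · exact if_neg e.not_ge

theorem div_sqrt_le {a x y : ℝ} (ha : 0 ≤ a) (hx : 0 < x) (h : x ≤ y) : a / √y ≤ a / √x :=
  div_le_div_of_nonneg_left ha (sqrt_pos.2 hx) (sqrt_le_sqrt h)

theorem shp_mono (hT : 0 < T) (hY : 0 < Y) {xs x x' : ℝ} (h0 : xs ≤ x) (h1 : x ≤ x')
    (h2 : x' ≤ 1) : shp T Y xs x ≤ shp T Y xs x' := by
  have p0 : 0 < T ^ ((1 : ℝ) / 3) := rpow_pos_of_pos hT _
  have a1 := div_sqrt_le (sqrt_nonneg T) (x := 1 - x' + Y) (y := 1 - x + Y) (by linarith)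
    (by linarith)
  have a2 := div_sqrt_le (sqrt_nonneg T) (x := x - xs + T ^ ((1 : ℝ) / 3))
    (y := x' - xs + T ^ ((1 : ℝ) / 3)) (by linarith) (by linarith)
  simp only [shp]
  linarith

theorem sq_sub_le {a b c : ℝ} (hc : 0 ≤ c) (hca : c ≤ a) (hb : 0 ≤ b) :
    (a - b - c) ^ 2 ≤ a ^ 2 + b ^ 2 := by
  nlinarith [mul_nonneg (sub_nonneg.2 hca) hb, mul_nonneg hc (sub_nonneg.2 hca)]

/-- the taper costs `2 C² T` -/
theorem sum_lo (h : Cl S M) (hT : 0 < T) :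
    ∑ k ∈ Ioc S.jl (S.J - 1), M.dx k * ext T Y S M k ^ 2 ≤ 2 * S.C ^ 2 * T := by
  have p0 : 0 < T ^ ((1 : ℝ) / 3) := rpow_pos_of_pos hT _
  have p3 := cube_third hT.le
  have C0 := h.C0
  have jl := h.jl_lt
  have i1 := h.i1
  have i3 := h.i3
  set w := 2 * S.C ^ 2 * T ^ ((1 : ℝ) / 3) with hw
  have w0 : 0 < w := by positivity
  have hs : ∀ k ∈ Ioc S.jl (S.J - 1), M.dx k * ext T Y S M k ^ 2 ≤ (T ^ ((1 : ℝ) / 3)) ^ 2 *
      (max (M.z k) (M.xs S - w) - max (M.z (k - 1)) (M.xs S - w)) := by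
    intro k hk
    obtain ⟨k1, k2⟩ := mem_Ioc.1 hk
    have m1 : M.z (k - 1) ≤ M.z k := h.leg.zm (Nat.sub_le k 1)
    rw [ext_lo (by omega)]
    have c1 := (h.ck_tel (i := k) (j := S.J) (by omega) (by omega) i3).1
    have kJ : (k : ℝ) ≤ S.J := by exact_mod_cast (by omega : k ≤ S.J)
    have v0 := h.v0
    have c0 : 0 ≤ ((S.J : ℝ) - k) * (S.v / S.C) := mul_nonneg (by linarith) (by positivity)
    rcases le_or_gt (T ^ ((1 : ℝ) / 3) - (M.ck S.J - M.ck k) / 2) 0 with c | c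
    · rw [max_eq_left c]
      have := max_le_max m1 (le_refl (M.xs S - w))
      simp only [neg_zero, ne_eq, OfNat.ofNat_ne_zero, not_false_eq_true, zero_pow, mul_zero]
      exact mul_nonneg (sq_nonneg _) (by linarith)
    · have c2 := (h.z_tel (i := k - 1) (j := S.J - 1) (by omega) (by omega) (by omega)).2
      rw [Nat.cast_sub (by omega), Nat.cast_sub (by omega)] at c2
      have c3 : ((S.J : ℝ) - k) * (S.C * S.v) = S.C ^ 2 * (((S.J : ℝ) - k) * (S.v / S.C)) := by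
        field_simp
      have c4 : S.C ^ 2 * (((S.J : ℝ) - k) * (S.v / S.C)) ≤ S.C ^ 2 * (2 * T ^ ((1 : ℝ) / 3)) :=
        mul_le_mul_of_nonneg_left (by linarith) (sq_nonneg _)
      have c5 : M.xs S - w ≤ M.z (k - 1) := by
        simp only [Md.xs, Nat.cast_one] at c2 ⊢
        nlinarith
      rw [max_eq_left c5, max_eq_left (c5.trans m1), max_eq_right c.le, Md.dx, mul_comm]
      refine mul_le_mul_of_nonneg_right ?_ (by linarith)
      rw [neg_sq]
      exact pow_le_pow_left₀ c.le (by linarith) 2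
  refine (sum_le_sum hs).trans ?_
  rw [← mul_sum, SrP26.tele (z := fun k => max (M.z k) (M.xs S - w)) S.jl (S.J - 1) (by omega)]
  have a1 : max (M.z (S.J - 1)) (M.xs S - w) = M.xs S := max_eq_left (by simp only [Md.xs]; linarith)
  have a2 := le_max_right (M.z S.jl) (M.xs S - w)
  calc _ ≤ (T ^ ((1 : ℝ) / 3)) ^ 2 * w := mul_le_mul_of_nonneg_left (by linarith) (sq_nonneg _)
    _ = 2 * S.C ^ 2 * (T ^ ((1 : ℝ) / 3)) ^ 3 := by rw [hw]; ring
    _ = _ := by rw [p3]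

/-- the plateau costs `3 T log` -/
theorem sum_hi (h : Cl S M) (hT : 0 < T) (hY : Y ≤ T ^ ((1 : ℝ) / 3)) {d : ℝ}
    (P : Pt M.z S.J S.Jp (T ^ ((1 : ℝ) / 3)) Y d) :
    ∑ k ∈ Icc S.J S.Jp, M.dx k * ext T Y S M k ^ 2 ≤
      3 * T * (log (1 + 1 / T ^ ((1 : ℝ) / 3)) + 2 * log (1 + 1 / Y)) := by
  have d0 := P.h0
  have hu := P.hu
  have he := P.he
  refine le_trans ?_ (mul_le_mul_of_nonneg_left P.sum_inv (by positivity))
  rw [mul_sum]
  refine sum_le_sum fun k hk => ?_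
  obtain ⟨k1, k2⟩ := mem_Icc.1 hk
  have m0 : M.xs S ≤ M.z (k - 1) := h.leg.zm (by omega)
  have m1 : M.z (k - 1) ≤ M.z k := h.leg.zm (Nat.sub_le k 1)
  have m2 := h.leg.z1 k
  have r0 := P.r_pos k1 k2
  have r1 : P.r k ≤ M.z k - M.xs S + T ^ ((1 : ℝ) / 3) := min_le_left _ _
  have r2 : P.r k ≤ 1 - M.z k + Y := min_le_right _ _
  have r3 : P.r k / 2 ≤ M.z (k - 1) - M.xs S + T ^ ((1 : ℝ) / 3) := by
    rcases k2.eq_or_lt with e | e
    · have := P.top
      rw [← e] at this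
      linarith
    · have := P.mesh k k1 e
      linarith
  rw [ext_hi hT k1, shp]
  have a1 := sq_sub_le (a := √T / √(1 - M.z (k - 1) + Y))
    (b := √T / √(M.z (k - 1) - M.xs S + T ^ ((1 : ℝ) / 3))) (c := √T / √(1 - M.xs S + Y))
    (by positivity) (div_sqrt_le (sqrt_nonneg T) (by linarith) (by linarith)) (by positivity)
  rw [div_pow, div_pow, sq_sqrt hT.le, sq_sqrt (by linarith), sq_sqrt (by linarith)] at a1
  have a2 : T / (1 - M.z (k - 1) + Y) ≤ T / P.r k :=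
    div_le_div_of_nonneg_left hT.le r0 (by linarith)
  have a3 : T / (M.z (k - 1) - M.xs S + T ^ ((1 : ℝ) / 3)) ≤ T / (P.r k / 2) :=
    div_le_div_of_nonneg_left hT.le (by linarith) r3
  have a4 : T / (P.r k / 2) = 2 * (T / P.r k) := by field_simp
  calc _ ≤ M.dx k * (3 * (T / P.r k)) :=
        mul_le_mul_of_nonneg_left (by linarith) (by simp only [Md.dx]; linarith)
    _ = _ := by simp only [Md.dx]; ring

/-- **the clock** -/
theorem exists_ax (h : Cl S M) (H : SH E S M l Ys Y) (A2 : 2 ≤ S.A) (n3 : 3 ≤ S.n)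
    (hE : 16 * S.C ^ 4 + 36 * log S.n ≤ E) : ∃ c, Ax E S M Y c := by
  have C1 := h.C1
  have N3 : (3 : ℝ) ≤ S.n := by exact_mod_cast n3
  have N0 := h.N0
  have lg0 : 0 ≤ log (S.n : ℝ) := log_nonneg (by linarith)
  have C4 : 1 ≤ S.C ^ 4 := one_le_pow₀ C1
  have C24 : S.C ^ 2 ≤ S.C ^ 4 := pow_le_pow_right₀ C1 (by norm_num)
  have C34 : S.C ^ 3 ≤ S.C ^ 4 := pow_le_pow_right₀ C1 (by norm_num)
  have E16 : 16 ≤ E := by linarith
  have E1 : 1 ≤ E := by linarith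
  have Yn : 1 / (S.n : ℝ) ≤ Y := by
    refine le_trans ?_ H.Y0
    rw [one_div, ← rpow_neg_one]
    exact rpow_le_rpow_of_exponent_le (by linarith) (by norm_num)
  have Y0 : 0 < Y := lt_of_lt_of_le (by positivity) Yn
  have Y1 : E ^ 200 * Y ≤ 1 :=
    H.Y1.trans (rpow_le_one_of_one_le_of_nonpos (by linarith) (by norm_num))
  have Ep : ∀ i ≤ 200, E ^ i * Y ≤ 1 := fun i hi =>
    (mul_le_mul_of_nonneg_right (pow_le_pow_right₀ E1 hi) Y0.le).trans Y1
  have n16 : (16 : ℝ) ≤ S.n := by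
    have a1 := Ep 1 (by norm_num)
    have a2 : E ^ 1 * (1 / (S.n : ℝ)) ≤ 1 :=
      (mul_le_mul_of_nonneg_left Yn (by positivity)).trans a1
    rw [pow_one, mul_one_div, div_le_one N0] at a2
    linarith
  set T := E ^ 99 * Y with hT
  have YT : Y ≤ T := le_mul_of_one_le_left Y0.le (one_le_pow₀ E1)
  have T0 : 0 < T := by linarith
  have p0 : 0 < T ^ ((1 : ℝ) / 3) := rpow_pos_of_pos T0 _
  have p3 := cube_third T0.le
  have Yp : Y ≤ T ^ ((1 : ℝ) / 3) := by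
    refine le_of_pow_le_pow_left₀ (n := 3) (by norm_num) p0.le ?_
    have a1 : Y ≤ 1 := by simpa using Ep 0 (by norm_num)
    have a2 : Y ^ 3 ≤ Y ^ 1 := pow_le_pow_of_le_one Y0.le a1 (by norm_num)
    rw [p3]
    linarith [pow_one Y]
  have pE : E * T ^ ((1 : ℝ) / 3) ≤ 1 := by
    refine le_of_pow_le_pow_left₀ (n := 3) (by norm_num) zero_le_one ?_
    rw [mul_pow, p3, hT, one_pow, ← mul_assoc, ← pow_add]
    exact Ep _ (by norm_num)
  have lp : l ≤ T ^ ((1 : ℝ) / 3) :=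
    le_of_pow_le_pow_left₀ (n := 3) (by norm_num) p0.le (by rw [p3]; linarith [H.l3])
  have n2 : 16 * (1 / (S.n : ℝ) ^ 2) ≤ Y := by
    refine le_trans ?_ Yn
    rw [mul_one_div, div_le_div_iff₀ (by positivity) N0]
    nlinarith
  have v0 := h.v0
  have vp : S.v ≤ S.C * T ^ ((1 : ℝ) / 3) := by
    have a1 : S.v * (S.n : ℝ) ^ 1 ≤ S.C := (mul_le_mul_of_nonneg_left
      (pow_le_pow_right₀ (by linarith) (by omega)) v0.le).trans h.v2
    rw [pow_one, ← le_div_iff₀ N0, div_eq_mul_one_div] at a1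
    exact a1.trans (mul_le_mul_of_nonneg_left (Yn.trans Yp) (by linarith))
  have jl := h.jl_lt
  have i1 := h.i1
  have i2 := h.i2
  have i3 := h.i3
  have i4 := h.i4
  have P : Pt M.z S.J S.Jp (T ^ ((1 : ℝ) / 3)) Y (1 / (S.n : ℝ) ^ 2) :=
    ⟨by omega, i3, h.leg.zm, (h.z_pos _).le, h.top _ le_rfl, fun k k1 k2 => H.mesh k k1 k2.le, by
      have a1 := H.mesh S.Jp i3 le_rfl
      have a2 : (0 : ℝ) < 1 / (S.n : ℝ) ^ 2 := by positivity
      rw [Md.dx, h.top _ le_rfl] at a1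
      linarith, by positivity, n2.trans Yp, n2⟩
  have ckm : ∀ i j, S.jl ≤ i → i ≤ j → j ≤ S.Jp → M.ck i ≤ M.ck j := fun i j a1 a2 a3 => by
    have b1 := (h.ck_tel (i1.trans a1) a2 a3).1
    have b2 : (i : ℝ) ≤ j := by exact_mod_cast a2
    have : 0 ≤ ((j : ℝ) - i) * (S.v / S.C) := mul_nonneg (by linarith) (by positivity)
    linarith
  have xs0 : ∀ k, S.J ≤ k → M.xs S ≤ M.z (k - 1) := fun k hk => h.leg.zm (by omega)
  have dlo : ∀ k, S.jl < k → k < S.J → -((M.ck (k + 1) - M.ck k) / 2) ≤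
      ext T Y S M (k + 1) - ext T Y S M k ∧ ext T Y S M (k + 1) - ext T Y S M k ≤ 0 := by
    intro k k1 k2
    have a1 := ckm k (k + 1) k1.le k.le_succ (by omega)
    rw [ext_lo k2, ext_lo k2.le]
    constructor <;> simp only [max_def] <;> split_ifs <;> linarith
  have dhi : ∀ k, S.J ≤ k → ext T Y S M (k + 1) - ext T Y S M k =
      shp T Y (M.xs S) (M.z k) - shp T Y (M.xs S) (M.z (k - 1)) := fun k hk => by
    rw [ext_hi T0 hk, ext_hi T0 (k := k + 1) (by omega), Nat.add_sub_cancel]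
    ring
  have lo : ∀ k, S.jl < k → M.z k ≤ 1 / (2 * S.C) → M.ck k + ext T Y S M k = M.q k := by
    intro k k1 k2
    have a0 : 1 / S.C = 2 * (1 / (2 * S.C)) := by field_simp
    have a1 := h.atom.1
    have a2 : (0 : ℝ) < 1 / (2 * S.C) := by positivity
    have kJ : k < S.J - 1 := by
      by_contra hc
      have := h.leg.zm (not_lt.1 hc)
      linarith
    have c1 := (h.ck_tel (i := k) (j := S.J - 1) (by omega) (by omega) (by omega)).1
    have c2 := (h.z_tel (i := k) (j := S.J - 1) (by omega) (by omega) (by omega)).2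
    have c0 := ckm (S.J - 1) S.J (by omega) (by omega) i3
    generalize (((S.J - 1 : ℕ) : ℝ) - k) = d at c1 c2
    have c3 : d * (S.C * S.v) = S.C ^ 2 * (d * (S.v / S.C)) := by field_simp
    have c4 : 1 / (2 * S.C) ≤ S.C ^ 2 * (M.ck S.J - M.ck k) := by
      have := mul_le_mul_of_nonneg_left c1 (sq_nonneg S.C)
      nlinarith [mul_le_mul_of_nonneg_left c0 (sq_nonneg S.C)]
    rw [div_le_iff₀ (by positivity)] at c4
    have c5 : T ^ ((1 : ℝ) / 3) - (M.ck S.J - M.ck k) / 2 ≤ 0 := by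
      by_contra hc
      have b1 : S.C ^ 3 * (M.ck S.J - M.ck k) ≤ S.C ^ 3 * (2 * T ^ ((1 : ℝ) / 3)) :=
        mul_le_mul_of_nonneg_left (by linarith) (by positivity)
      have b2 : 16 * S.C ^ 3 * T ^ ((1 : ℝ) / 3) ≤ E * T ^ ((1 : ℝ) / 3) :=
        mul_le_mul_of_nonneg_right (by linarith) p0.le
      nlinarith
    rw [ext_lo (by omega), max_eq_left c5, h.ckq k k2]
    ring
  refine ⟨fun k => M.ck k + ext T Y S M k, lo, fun k k1 k2 => ?_, fun k k1 k2 => ?_,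
    fun k k1 k2 => ?_, ?_, ?_, fun k k1 k2 => ?_⟩
  · have a1 := ckm k (k + 1) k1.le k.le_succ k2
    rcases lt_or_ge k S.J with c | c
    · linarith [(dlo k k1 c).1]
    · have a2 := shp_mono T0 Y0 (xs0 k c) (h.leg.zm (Nat.sub_le k 1)) (h.leg.z1 k)
      linarith [dhi k c]
  · linarith [(dlo k k1 k2).2]
  · linarith [dhi k k1, ckm k (k + 1) (by omega) k.le_succ k2]
  · have a1 : M.sq S (fun k => M.ck k + ext T Y S M k - M.q k) ≤
        2 * M.sq S (fun k => M.ck k - M.q k) + 2 * M.sq S (ext T Y S M) := by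
      simp only [Md.sq, mul_sum, ← sum_add_distrib]
      refine sum_le_sum fun k _ => ?_
      have b1 : 0 ≤ M.dx k := sub_nonneg.2 (h.leg.zm (Nat.sub_le k 1))
      nlinarith [mul_nonneg b1 (sq_nonneg (M.ck k - M.q k - ext T Y S M k))]
    have a2 : M.sq S (ext T Y S M) = ∑ k ∈ Ioc S.jl (S.J - 1), M.dx k * ext T Y S M k ^ 2 +
        ∑ k ∈ Icc S.J S.Jp, M.dx k * ext T Y S M k ^ 2 := by
      rw [show Icc S.J S.Jp = Ioc (S.J - 1) S.Jp by ext k; simp only [mem_Icc, mem_Ioc]; omega,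
        sum_Ioc_consecutive _ (by omega) (by omega), Md.sq]
    have a3 := sum_lo (Y := Y) h T0
    have a4 := sum_hi h T0 Yp P
    have lg : ∀ x, Y ≤ x → log (1 + 1 / x) ≤ 2 * log S.n := fun x hx => by
      have b1 : 1 / x ≤ S.n := by
        rw [div_le_iff₀ (by linarith)]
        have := Yn.trans hx
        rw [div_le_iff₀ N0] at this
        linarith
      have b2 : 0 < 1 / x := one_div_pos.2 (by linarith)
      have b3 : log (1 + 1 / x) ≤ log ((S.n : ℝ) ^ 2) := log_le_log (by linarith) (by nlinarith)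
      rw [log_pow] at b3
      exact_mod_cast b3
    have a5 := lg _ Yp
    have a6 := lg _ le_rfl
    have a7 : 3 * T * (log (1 + 1 / T ^ ((1 : ℝ) / 3)) + 2 * log (1 + 1 / Y)) ≤
        3 * T * (6 * log S.n) := mul_le_mul_of_nonneg_left (by linarith) (by positivity)
    have a8 : (2 + 4 * S.C ^ 2 + 36 * log S.n) * T ≤ E * T :=
      mul_le_mul_of_nonneg_right (by linarith) T0.le
    have a9 : E ^ 100 * Y = E * T := by rw [hT]; ring
    have := H.ck
    linarith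
  · have a1 := (h.z_s (k := S.jl + 1) (by omega) i2).2
    have a2 := (h.ss S.jl jl).2
    have a3 := H.jl
    have a4 : M.z (S.jl + 1) ≤ 1 / (2 * S.C) := by
      rw [le_div_iff₀ (by positivity)]
      have b1 : S.C * S.v ≤ S.C * (S.C * T ^ ((1 : ℝ) / 3)) :=
        mul_le_mul_of_nonneg_left vp (by linarith)
      have b2 : T ^ ((1 : ℝ) / 3) ≤ S.C * T ^ ((1 : ℝ) / 3) := le_mul_of_one_le_left p0.le C1
      have b3 : S.C * T ^ ((1 : ℝ) / 3) ≤ S.C * (S.C * T ^ ((1 : ℝ) / 3)) :=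
        le_mul_of_one_le_left (by positivity) C1
      have b4 : M.z (S.jl + 1) ≤ S.C * (4 * (S.C * (S.C * T ^ ((1 : ℝ) / 3)))) :=
        a1.trans (mul_le_mul_of_nonneg_left (by linarith) (by linarith))
      have b5 := mul_le_mul_of_nonneg_right b4 (by positivity : 0 ≤ 2 * S.C)
      have b6 : 16 * S.C ^ 4 * T ^ ((1 : ℝ) / 3) ≤ E * T ^ ((1 : ℝ) / 3) :=
        mul_le_mul_of_nonneg_right (by linarith) p0.le
      nlinarith [mul_pos (by linarith : 0 < S.C ^ 4) p0]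
    show 0 ≤ M.ck _ + ext T Y S M _ ∧ M.ck _ + ext T Y S M _ ≤ _
    rw [lo _ (Nat.lt_succ_self _) a4]
    exact ⟨h.q_nn (by omega), h.q_le_s (by omega)⟩
  · have a1 := (ckm k S.Jp k1.le k2 le_rfl).trans H.ckT
    have a2 : ext T Y S M k ≤ E ^ 50 := by
      rcases le_total k S.J with c | c
      · rw [ext_lo c]
        have := le_max_left 0 (T ^ ((1 : ℝ) / 3) - (M.ck S.J - M.ck k) / 2)
        have : 0 ≤ E ^ 50 := by positivity
        linarith
      · rw [ext_hi T0 c, shp]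
        have b1 := div_sqrt_le (sqrt_nonneg T) Y0 (y := 1 - M.z (k - 1) + Y)
          (by linarith [h.leg.z1 (k - 1)])
        have b2 : √T / √Y ≤ E ^ 50 := by
          rw [← sqrt_div T0.le, hT, mul_div_assoc, div_self Y0.ne', mul_one]
          refine sqrt_le_iff.2 ⟨by positivity, ?_⟩
          rw [← pow_mul]
          exact pow_le_pow_right₀ E1 (by norm_num)
        have b3 : 0 ≤ √T / √(M.z (k - 1) - M.xs S + T ^ ((1 : ℝ) / 3)) := by positivity
        have b4 : 0 ≤ √T / √(1 - M.xs S + Y) := by positivity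
        linarith
    have a3 : E ^ 1 ≤ E ^ 50 := pow_le_pow_right₀ E1 (by norm_num)
    have a4 : 2 * E ^ 50 ≤ E * E ^ 50 := mul_le_mul_of_nonneg_right (by linarith) (by positivity)
    show M.ck k + ext T Y S M k ≤ E ^ 51
    rw [pow_one] at a3
    calc _ ≤ E * E ^ 50 := by linarith
      _ = _ := by ring

/-- `E ≥ 16 C⁴ + 36 log n` in the class prefix -/
theorem E_ge {C ε η : ℝ} {A : ℕ} (H : RgC C A η (C ^ 4) S) (hη : (2 : ℕ) * η ≤ ε) :
    16 * S.C ^ 4 + 36 * log S.n ≤ (S.n : ℝ) ^ ε := by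
  have a1 : (S.n : ℝ) ^ η * (S.n : ℝ) ^ η ≤ (S.n : ℝ) ^ ε := by
    rw [← rpow_add H.N0]
    refine rpow_le_rpow_of_exponent_le H.N1.le ?_
    push_cast at hη
    linarith
  have a2 := mul_le_mul_of_nonneg_right H.num_le (H.rp0 η).le
  have a3 := H.K_le
  have a4 := H.log_le
  have a5 := H.rp0 η
  rw [H.hC]
  linarith

/-- **`ClkS`** -/
theorem clkS : ClkS :=
  CL.intro (fun _ _ _ _ _ _ _ _ _ h => h) 2 2 0 fun C _ _ _ _ _ => ⟨C ^ 4,
    fun _ _ _ _ H _ hη _ h _ _ _ _ G => exists_ax h G (H.hA ▸ H.A2) H.n3 (E_ge H hη)⟩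

end Crest.Agent.T156.Alt.Clk64

end
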