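import Crest.Agent.T156.WSg_38
import Crest.Agent.T156.BrB_55

/-!
# Row 156 (helper38): leaf E-a, first part (parity of the site factors, Taylor expansion, (E1c))
-/

set_option autoImplicit false
set_option linter.unusedSectionVars false

noncomputable section

namespace Crest.Agent.T156.Cas.Ea38

open MeasureTheory Real Set Filter Topology
open Crest.Agent.T157.E Crest.Agent.T157.Casc Crest.Agent.T157.SL
open Crest.ProbabilityR.SpinGlassDynamics (spin)
open Wt87 Ws38 One15 OneP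

/-! ### site factors -/

section site
variable {s : Sh} {K y : ℕ} {S : List (Lv Bool)}

/-- the exponents of an edge -/
def k2 (c d : s.Lf) : s.Lf → ℕ := Pi.single c 1 + Pi.single d 1

theorem mo_k2 (c d : s.Lf) (x : s.Lf → Bool) : mo (k2 c d) x = spin (x c) * spin (x d) := by
  rw [k2, mo_add, mo_single, mo_single]

theorem bd_add (k k' : s.Lf → ℕ) (a : s.Lf) : bd s (k + k') a y = bd s k a y + bd s k' a y := by
  simp only [bd, Pi.add_apply, ite_add_zero, Finset.sum_add_distrib]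

theorem bd_k2 (hy : y < K) (c d a : s.Lf) : bd s (k2 c d) a y =
    (if y < s.shr a c K then 1 else 0) + if y < s.shr a d K then 1 else 0 := by
  have h : ∀ c, bd s (Pi.single c 1) a y = if y < s.shr a c K then 1 else 0 := fun c => by
    rw [bd, Finset.sum_eq_single c (fun b _ hb => by simp [hb]) (by simp), Pi.single_eq_same]
    refine if_congr ?_ rfl rfl
    have := shr_min s a c (y + 1) K
    rw [min_eq_left hy] at this
    omega
  rw [k2, bd_add, h, h]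

theorem bd_cross (hy : y < K) {c d a : s.Lf} (h : s.shr c d K = y)
    (h' : y < s.shr a c K ∨ y < s.shr a d K) : bd s (k2 c d) a y = 1 := by
  have := shr_ultra s c a d K
  rw [Wt87.shr_comm s c a] at this
  rw [bd_k2 hy]
  split_ifs <;> omega

theorem bd_same (hy : y < K) {c d : s.Lf} (a : s.Lf) (h : y < s.shr c d K) :
    Even (bd s (k2 c d) a y) := by
  have h1 := shr_ultra s a c d K
  have h2 := shr_ultra s a d c K
  rw [Wt87.shr_comm s d c] at h2
  rw [bd_k2 hy]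
  split_ifs <;> first | decide | omega

theorem par (H : Ker15.R1 S) (hM : Mono 0 S) (hN : Fintype.card s.Lf ≤ 8) {k : s.Lf → ℕ} {a : s.Lf}
    (ha : Odd (bd s k a y)) {σ : ℝ} (h0 : 0 < σ) (hσ : Ker15.tm S y ≤ σ) :
    |TE (fun _ => 1) s S 0 (mo k)| ≤ 2 * min 1 (Ker15.PB 6 σ) := by
  have h1 := Ker15.par1 H hM s k hN ha h0 hσ
  have h2 := abs_TE_mo s S 0 k
  have h3 : Ker15.PB 8 σ ≤ 2 * Ker15.PB 6 σ := by
    have : 0 ≤ exp (1 / 2 + √σ) * σ := by positivity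
    unfold Ker15.PB
    push_cast
    nlinarith
  rw [mul_min_of_nonneg _ _ zero_le_two]
  exact le_min (by linarith) (h1.trans h3)

theorem site (H : Ker15.R1 S) (hM : Mono 0 S) (hN : Fintype.card s.Lf ≤ 8) (hy : y < K)
    {k : s.Lf → ℕ} {p a b : s.Lf} (ha : Odd (bd s k p y)) (hab : y < s.shr a b K) {σ : ℝ}
    (h0 : 0 < σ) (hσ : Ker15.tm S y ≤ σ) {c r : ℝ} (hr : r ∈ Icc (0 : ℝ) 1)
    {ξ F : (s.Lf → Bool) → ℝ} (hξ : ∀ x, |ξ x - mo k x| ≤ c)
    (hF : ∀ x, F x = (spin (x a) * spin (x b) - r) * ξ x) :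
    |TE (fun _ => 1) s S 0 F| ≤ 2 * c + 4 * min 1 (Ker15.PB 6 σ) := by
  have h1 := par H hM hN ha h0 hσ
  have h2 := par H hM hN (k := k2 a b + k) (a := p)
    (by rw [bd_add]; exact (bd_same hy p hab).add_odd ha) h0 hσ
  have h3 := One15.abs_TE_le w1 s S 0 (B := 2 * c)
    (F := fun x => (spin (x a) * spin (x b) - r) * (ξ x - mo k x)) fun x => by
      have := abs_le.1 (abs_spin2 (x a) (x b)).le
      rw [abs_mul]
      exact mul_le_mul (abs_le.2 ⟨by linarith [hr.2], by linarith [hr.1]⟩) (hξ x) (abs_nonneg _)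
        zero_le_two
  have e : F = fun x => (spin (x a) * spin (x b) - r) * (ξ x - mo k x) +
      (mo (k2 a b + k) x - r * mo k x) := by
    funext x
    rw [hF, mo_add, mo_k2]
    ring
  rw [e, Law.TE_add w1, Law.TE_sub w1, Law.TE_const_mul w1]
  refine (abs_add_le _ _).trans (add_le_add h3 ((abs_sub _ _).trans ?_))
  rw [abs_mul, abs_of_nonneg hr.1]
  linarith [mul_le_of_le_one_left (abs_nonneg (TE (fun _ => 1) s S 0 (mo k))) hr.2]

theorem cub7 {a b c r : ℝ} (ha : |a| = 1) (hb : |b| = 1) (hc : |c| = 1) (hr : r ∈ Icc (0 : ℝ) 1) :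
    |(a - r) * (b - r) * (c - r) - a * b * c| ≤ 7 * r := by
  have h1 := mul_nonneg hr.1 hr.1
  have h2 := mul_le_of_le_one_left hr.1 hr.2
  have h3 := mul_le_of_le_one_left h1 hr.2
  have h4 := mul_nonneg hr.1 h1
  rw [abs_le]
  rcases eq_or_eq_neg_of_abs_eq ha with rfl | rfl <;> rcases eq_or_eq_neg_of_abs_eq hb with rfl | rfl <;>
    rcases eq_or_eq_neg_of_abs_eq hc with rfl | rfl <;> constructor <;> nlinarith [hr.1]

end site

/-! ### the data -/

/-- the bulk cascade -/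
abbrev bL (n : ℕ) (β : ℝ) (M : List (ℝ × ℝ × ℝ)) : List (Lv (Cube n)) := M.map (mxL n β)

/-- `U` on the levels that carry a letter -/
def Uc (n : ℕ) (β : ℝ) (M : List (ℝ × ℝ × ℝ)) (q : ℕ → ℝ) (y : ℕ) (x x' : Cube n) : ℝ :=
  if oTau n β M y = 0 then 0 else oU q y x x'

/-- the hypotheses -/
structure Hy (n : ℕ) (β : ℝ) (M : List (ℝ × ℝ × ℝ)) (q u σ : ℕ → ℝ) (T : ℝ) : Prop where
  hn : 0 < n
  ok : OOk M q
  mono : Mono 0 (bL n β M)
  tb : oTau n β M M.length ≤ T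
  u0 : ∀ y, 0 ≤ u y
  u2 : ∀ y, u y ≤ 2
  mom : ∀ y ≤ M.length, oTau n β M y ≠ 0 →
    pi2 (fun _ => 1) (bL n β M) y (fun x x' => oU q y x x' ^ 4) 0 ≤ u y ^ 4
  cen : ∀ y < M.length, oTau n β M y ≠ 0 → pi2 (fun _ => 1) (bL n β M) y (oU q y) 0 = 0
  top : dm (bL n β M) 0 M.length = 0
  r1 : Ker15.R1 (opS n β M q)
  s0 : ∀ y, 0 < σ y
  st : ∀ y, Ker15.tm (opS n β M q) y ≤ σ y

variable {n : ℕ} {β : ℝ} {M : List (ℝ × ℝ × ℝ)} {q u σ : ℕ → ℝ} {T : ℝ} {j : ℕ}

theorem len : (bL n β M).length = M.length := List.length_map _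

theorem al_eq : oUb n β M q true = fun y x x' => oTau n β M y / 2 * Uc n β M q y x x' := by
  funext y x x'
  by_cases h : oTau n β M y = 0 <;> simp [oUb, Uc, h]

theorem be_eq : oUb n β M q false =
    fun y x x' => -(oTau n β M y / 4) * (Uc n β M q y x x' * Uc n β M q y x x') := by
  funext y x x'
  by_cases h : oTau n β M y = 0 <;> simp [oUb, Uc, h, sq]

theorem Uc_eq (h : oTau n β M j ≠ 0) : Uc n β M q j = oU q j := by
  funext x x'
  exact if_neg h


theorem TE_pr2 {Ω : Type} [Fintype Ω] {w : Ω → ℝ} (hw : Wt w) (L : List (Lv Ω)) (h : Ω → ℝ) (j : ℕ)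
    (K : Ω → Ω → ℝ) : TE w (Sh.two j) L h (pr2 j K) = pi2 w L j K h := tX_two hw K j L h

theorem sq_le {Ω : Type} [Fintype Ω] {w : Ω → ℝ} (hw : Wt w) {L : List (Lv Ω)} {h : Ω → ℝ} {j : ℕ}
    {K : Ω → Ω → ℝ} {a : ℝ} (H : Q4 w (Sh.two j) L h (pr2 j K) a) :
    pi2 w L j (fun x x' => |K x x'| ^ (1 + 1)) h ≤ a ^ 2 := by
  rw [← TE_pr2 hw]
  refine (le_of_eq ?_).trans ((le_abs_self _).trans
    ((holder hw H H (Q4.one hw) (Q4.one hw)).trans_eq (by ring)))
  congr 1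
  funext x
  simp only [pr2, (show Even (1 + 1) by decide).pow_abs]
  ring

theorem opW1 (α : Bool) (s : Sh) (G : (s.Lf → Cube n) → ℝ) (ξ : (s.Lf → Bool) → ℝ) :
    opW n β M q [α] s G ξ = sg (-1) (bL n β M) s fun τ =>
      TE (fun _ => 1) τ.sh (bL n β M) 0 (τ.ev (oUb n β M q α) G) *
        TE (fun _ => 1) τ.sh (opS n β M q) 0 (τ.ev (oZs q α) ξ) := rfl

theorem opW2 (α α' : Bool) (s : Sh) (G : (s.Lf → Cube n) → ℝ) (ξ : (s.Lf → Bool) → ℝ) :
    opW n β M q [α, α'] s G ξ = sg (-1) (bL n β M) s fun τ => sg (-1) (bL n β M) τ.sh fun τ' =>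
      TE (fun _ => 1) τ'.sh (bL n β M) 0 (τ'.ev (oUb n β M q α') (τ.ev (oUb n β M q α) G)) *
        TE (fun _ => 1) τ'.sh (opS n β M q) 0 (τ'.ev (oZs q α') (τ.ev (oZs q α) ξ)) := rfl

theorem opW3 (α α' α'' : Bool) (s : Sh) (G : (s.Lf → Cube n) → ℝ) (ξ : (s.Lf → Bool) → ℝ) :
    opW n β M q [α, α', α''] s G ξ = sg (-1) (bL n β M) s fun τ => sg (-1) (bL n β M) τ.sh fun τ' =>
      sg (-1) (bL n β M) τ'.sh fun τ'' => TE (fun _ => 1) τ''.sh (bL n β M) 0
        (τ''.ev (oUb n β M q α'') (τ'.ev (oUb n β M q α') (τ.ev (oUb n β M q α) G))) *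
        TE (fun _ => 1) τ''.sh (opS n β M q) 0
          (τ''.ev (oZs q α'') (τ'.ev (oZs q α') (τ.ev (oZs q α) ξ))) := rfl

namespace Hy

variable (H : Hy n β M q u σ T)
include H

theorem t0 (y : ℕ) : 0 ≤ oTau n β M y := (H.ok.oTau_le n β y).1

theorem tT (y : ℕ) : oTau n β M y ≤ T := (H.ok.oTau_le n β y).2.trans H.tb

theorem T0 : 0 ≤ T := (H.t0 0).trans (H.tT 0)

theorem monoS : Mono 0 (opS n β M q) := Cav22.mono_tilt tilt_opS.symm H.mono

theorem m4 {y : ℕ} (hy : y ≤ M.length) :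
    pi2 (fun _ => 1) (bL n β M) y (fun x x' => Uc n β M q y x x' ^ 4) 0 ≤ u y ^ 4 := by
  by_cases h : oTau n β M y = 0
  · simp only [Uc, h, if_true, pi2_const wt_one90]
    exact (zero_pow four_ne_zero).le.trans (pow_nonneg (H.u0 y) 4)
  · rw [Uc_eq h]
    exact H.mom y hy h

theorem q2 {y : ℕ} (hy : y ≤ M.length) :
    Q4 (fun _ => 1) (Sh.two y) (bL n β M) 0 (pr2 y (Uc n β M q y)) (u y) :=
  ⟨H.u0 y, (TE_pr2 wt_one90 _ _ y fun x x' => Uc n β M q y x x' ^ 4).trans_le (H.m4 hy)⟩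

theorem qe {s : Sh} {τ : GT s} (h : τ.Mem s (bL n β M).length) :
    Q4 (fun _ => 1) τ.sh (bL n β M) 0 (fun x => Uc n β M q τ.j (x τ.p) (x τ.q)) (u τ.j) :=
  ⟨H.u0 _, (h.TE_pair wt_one90 0 fun x x' => Uc n β M q τ.j x x' ^ 4).trans_le
    (H.m4 (len (n := n) (β := β) ▸ h.le))⟩

theorem a4 {y : ℕ} (hy : y ≤ M.length) :
    pi2 (fun _ => 1) (bL n β M) y (fun x x' => |Uc n β M q y x x'| ^ (3 + 1)) 0 ≤ u y ^ 4 := by
  simp only [(show Even (3 + 1) by decide).pow_abs]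
  exact H.m4 hy

theorem a2 {y : ℕ} (hy : y ≤ M.length) :
    pi2 (fun _ => 1) (bL n β M) y (fun x x' => |Uc n β M q y x x'| ^ (1 + 1)) 0 ≤ u y ^ 2 :=
  sq_le wt_one90 (H.q2 hy)

/-- words of kernels dominated by powers of `(1 + 2 τ) |U|` on the levels that carry a letter -/
theorem wd_le {θ : ℝ} (hθ : θ ∈ Icc (0 : ℝ) 1) {m p : ℕ}
    {l : List ((ℕ → Cube n × Bool → Cube n × Bool → ℝ) × ℕ)}
    (hp : m + (l.map Prod.snd).sum = p + 1) (hl : ∀ r ∈ l, ∀ y ≤ M.length, ∀ x x',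
      |r.1 y x x'| ≤ ((1 + 2 * T) * |Uc n β M q y x.1 x'.1|) ^ r.2) (hj : j ≤ M.length)
    {Q : Cube n × Bool → Cube n × Bool → ℝ} {B : ℝ} (hB : 0 ≤ B)
    (hQ : ∀ x x', |Q x x'| ≤ B * |Uc n β M q j x.1 x'.1| ^ m) {v : ℕ → ℝ}
    (hv : ∀ y ≤ M.length,
      pi2 (fun _ => 1) (bL n β M) y (fun x x' => |Uc n β M q y x x'| ^ (p + 1)) 0 ≤ v y) :
    |WdO (op n β M q θ) (l.map Prod.fst) (TEf (fun _ => 1) (op n β M q θ) 0) (Sh.two j) (pr2 j Q)| ≤
      cOp T l.length p 2 * B * (2 * I (bL n β M) j v) := by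
  have h0 := H.T0
  have h1 : (1 : ℝ) ≤ 1 + 2 * T := by linarith
  have hM := Cav22.mono_tilt (tilt_op (q := q) θ).symm H.mono
  have hT : ∀ (y : ℕ) (x x' : Cube n × Bool), 0 ≤ (1 + 2 * T) * |Uc n β M q y x.1 x'.1| :=
    fun _ _ _ => mul_nonneg (zero_le_one.trans h1) (abs_nonneg _)
  have hj' : j ≤ (op n β M q θ).length := by rwa [op_length]
  have h2 := abs_WdO_deg wt_one90 hM hT 0 hp (by rwa [op_length]) (Sh.two j) (F := pr2 j Q) hB
    fun x => (hQ _ _).trans (mul_le_mul_of_nonneg_left (pow_le_pow_left₀ (abs_nonneg _)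
      ((le_mul_of_one_le_left (abs_nonneg _) h1).trans (le_Dv_two hT hj' x)) m) hB)
  have h3 : ∀ y ≤ M.length, 0 ≤ v y ∧ pi2 (fun _ => 1) (op n β M q θ) y
      (fun x x' => ((1 + 2 * T) * |Uc n β M q y x.1 x'.1|) ^ (p + 1)) 0 ≤
        (1 + 2 * T) ^ (p + 1) * exp (60 * T) * v y := fun y hy => by
    have v0 : 0 ≤ pi2 (fun _ => 1) (bL n β M) y (fun x x' => |Uc n β M q y x x'| ^ (p + 1)) 0 :=
      pi2_nonneg wt_one90 _ y (fun _ _ => pow_nonneg (abs_nonneg _) _) 0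
    refine ⟨v0.trans (hv y hy), ?_⟩
    simp only [mul_pow, pi2_const_mul, mul_assoc]
    refine mul_le_mul_of_nonneg_left ((le_abs_self _).trans ((pi2_op_le H.hn H.ok H.mono hθ y
      (G := fun x x' => |Uc n β M q y x x'| ^ (p + 1))
      fun x x' => (abs_of_nonneg (pow_nonneg (abs_nonneg _) _)).le).trans ?_))
      (pow_nonneg (zero_le_one.trans h1) _)
    exact mul_le_mul (exp_le_exp.2 (by linarith [H.tb])) (hv y hy) v0 (exp_pos _).le
  rw [card_two, momT_two _ _ _ _ hj', mom0, op_length] at h2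
  refine h2.trans ?_
  rw [cOp, mul_assoc, mul_assoc]
  refine mul_le_mul_of_nonneg_left ?_ (cTay_nonneg _ _ _)
  rw [mul_left_comm]
  refine mul_le_mul_of_nonneg_left ?_ hB
  have h4 : ∑ y ∈ Finset.range (M.length + 1), dm (op n β M q θ) 0 y * pi2 (fun _ => 1)
      (op n β M q θ) y (fun x x' => ((1 + 2 * T) * |Uc n β M q y x.1 x'.1|) ^ (p + 1)) 0 ≤
      (1 + 2 * T) ^ (p + 1) * exp (60 * T) *
        ∑ y ∈ Finset.range (M.length + 1), dm (bL n β M) 0 y * v y := by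
    rw [Finset.mul_sum]
    refine Finset.sum_le_sum fun y hy => ?_
    rw [Cav22.dm_tilt (tilt_op θ), mul_left_comm]
    exact mul_le_mul_of_nonneg_left (h3 y (Nat.lt_succ_iff.1 (Finset.mem_range.1 hy))).2
      (dm_nonneg H.mono y)
  have h5 : 0 ≤ (1 + 2 * T) ^ (p + 1) * exp (60 * T) *
      ∑ y ∈ Finset.range (M.length + 1), dm (bL n β M) 0 y * v y :=
    mul_nonneg (by positivity) (Finset.sum_nonneg fun y hy => mul_nonneg (dm_nonneg H.mono y)
      (h3 y (Nat.lt_succ_iff.1 (Finset.mem_range.1 hy))).1)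
  rw [I, len]
  refine (add_le_add (mul_le_mul_of_nonneg_left (h3 j hj).2 zero_le_two) h4).trans ?_
  generalize ∑ y ∈ Finset.range (M.length + 1), dm (bL n β M) 0 y * v y = z at h5 ⊢
  linarith

theorem lt_le (α : Bool) {y : ℕ} (hy : y ≤ M.length) (x x' : Cube n × Bool) :
    |oLt n β M q α y x x'| ≤ ((1 + 2 * T) * |Uc n β M q y x.1 x'.1|) ^ 1 ∧
    |oLt n β M q false y x x'| ≤ ((1 + 2 * T) * |Uc n β M q y x.1 x'.1|) ^ 2 := by
  by_cases h : oTau n β M y = 0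
  · cases α <;> simp [oLt, oUb, Uc, h]
  have h1 := abs_oLt_le (n := n) (β := β) H.ok true hy x x'
  have h2 := abs_oLt_le (n := n) (β := β) H.ok false hy x x'
  have h3 : (1 + 2 * oTau n β M M.length) * |oU q y x.1 x'.1| ≤ (1 + 2 * T) * |oU q y x.1 x'.1| :=
    mul_le_mul_of_nonneg_right (by linarith [H.tb]) (abs_nonneg _)
  rw [Uc_eq h]
  refine ⟨?_, h2.trans (pow_le_pow_left₀ (by have := H.t0 M.length; positivity) h3 2)⟩
  cases α
  · have h4 := abs_oU_le H.ok hy x.1 x'.1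
    have h5 := abs_nonneg (oU q y x.1 x'.1)
    simp only [oLt, oUb, oZs, mul_one, abs_mul, abs_neg, abs_pow, pow_one]
    rw [abs_of_nonneg (by linarith [H.t0 y])]
    nlinarith [H.t0 y, H.tT y, mul_nonneg (H.t0 y) h5, mul_le_mul_of_nonneg_right (H.tT y) h5]
  · exact h1.trans (by simpa only [oDg, pow_one] using h3)

/-- Taylor expansion of a pair expectation -/
theorem tay (m J : ℕ) (hj : j ≤ M.length) {U : Cube n → Cube n → ℝ} {Z : Bool → Bool → ℝ} {A : ℝ}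
    (hU : ∀ x x', |U x x'| ≤ |Uc n β M q j x x'| ^ m) (hZ : ∀ a b, |Z a b| ≤ A) {v : ℕ → ℝ}
    (hv : ∀ y ≤ M.length,
      pi2 (fun _ => 1) (bL n β M) y (fun x x' => |Uc n β M q y x x'| ^ (m + J + 1)) 0 ≤ v y) :
    |TE (fun _ => 1) (Sh.two j) (op n β M q 1) 0 (tens (pr2 j U) (pr2 j Z)) -
        ∑ k ∈ Finset.range (J + 1), opP n β M q k j U Z / k.factorial| ≤
      cOp T (J + 1) (m + J) 2 * A * (2 * I (bL n β M) j v) / J.factorial := by
  have hA : 0 ≤ A := (abs_nonneg _).trans (hZ true true)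
  have := Cav22.taylor_le
    (f := fun k => iDn (fun _ => 1) (opL n β M q) 0 k (Sh.two j) (tens (pr2 j U) (pr2 j Z)))
    (fun k => continuousOn_iDn wt_one90 _ _ k _ _)
    (fun k _ ht => hasDerivAt_iDn wt_one90 _ _ (iD_op_diag H.hn H.ok) ht k _ _)
    ⟨zero_le_one, le_rfl⟩ J (B := cOp T (J + 1) (m + J) 2 * A * (2 * I (bL n β M) j v))
    fun θ hθ => by
      have := H.wd_le hθ (m := m) (p := m + J)
        (l := List.replicate (J + 1) (fun j x y => 1 / 2 * iD (opL n β M q) j x y, 1))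
        (by simp [add_assoc]) (fun r hr y hy x x' => by
          rw [List.eq_of_mem_replicate hr]
          simp only [iD_op H.hn H.ok hy, pow_one]
          by_cases h : oTau n β M y = 0
          · simp [oD, Uc, h]
          have h1 := abs_oD_le (n := n) (β := β) H.ok hy x x'
          rw [Uc_eq h, abs_mul, abs_of_pos one_half_pos]
          nlinarith [H.tT y, H.t0 y, abs_nonneg (oU q y x.1 x'.1)]) hj
        (Q := fun x x' => U x.1 x'.1 * Z x.2 x'.2) hA (fun x x' => by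
          rw [abs_mul, mul_comm]
          exact mul_le_mul (hZ _ _) (hU _ _) (abs_nonneg _) hA) hv
      rwa [List.map_replicate, WdO_replicate, List.length_replicate, ← iDn_op_Dop] at this
  simp only [iDn_op_zero H.hn H.ok, one_pow, mul_one] at this
  exact this

theorem sym : TE (fun _ => 1) (Sh.two j) (op n β M q 1) 0 (tens (pr2 j fun _ _ => 1) (pr2 j (oE q j))) =
    TE (fun _ => 1) (Sh.two j) (op n β M q 1) 0 (tens (pr2 j (oU q j)) (pr2 j fun _ _ => 1)) := by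
  have h3 := test_op (β := β) H.hn H.ok j
  rw [← tX_two wt_one90] at h3
  refine sub_eq_zero.1 ((Law.TE_sub wt_one90 _ _ _ _ _).symm.trans (Eq.trans ?_ h3))
  simp only [tens, pr2, one_mul, mul_one, TE]

theorem P0E : opP n β M q 0 j (fun _ _ => 1) (oE q j) = E38.rj n β M q j := by
  refine (congrArg₂ (· * ·) (Law.TE_const wt_one90 _ _ _ 1) (tX_two wt_one90 _ j _ _)).trans ?_
  exact one_mul _

theorem P0U (hj : j < M.length) (h : oTau n β M j ≠ 0) :
    opP n β M q 0 j (oU q j) (fun _ _ => 1) = 0 := by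
  refine (congrArg₂ (· * ·) (tX_two wt_one90 _ j _ _) (Law.TE_const wt_one90 _ _ _ 1)).trans ?_
  rw [H.cen j hj h, zero_mul]

theorem abs_site {s : Sh} {ξ : (s.Lf → Bool) → ℝ} {c : ℝ} (h : ∀ x, |ξ x| ≤ c) :
    |TE (fun _ => 1) s (opS n β M q) 0 ξ| ≤ c := One15.abs_TE_le w1 s _ 0 h

theorem eta2 (hj : j ≤ M.length) (x : (Sh.two j).Lf → Bool) : |pr2 j (oE q j) x| ≤ 2 :=
  abs_oE_le H.ok hj _ _

theorem ev2 {s : Sh} {τ : GT s} (h : τ.Mem s (bL n β M).length) {ξ : (s.Lf → Bool) → ℝ} {c : ℝ}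
    (hξ : ∀ x, |ξ x| ≤ c) (x : τ.sh.Lf → Bool) : |τ.ev (oZs q true) ξ x| ≤ c * 2 :=
  Ker15.abs_ev τ hξ (abs_oE_le H.ok (len (n := n) (β := β) ▸ h.le)) x

theorem Ea (hj : j < M.length) :
    opW n β M q [true] (Sh.two j) (pr2 j fun _ _ => 1) (pr2 j (oE q j)) = 0 := by
  have z : ∀ y < M.length, pi2 (fun _ => 1) (bL n β M) y (oUb n β M q true y) 0 = 0 :=
    fun y hy => by
      refine (pi2_const_mul _ _ y (oU q y) (oTau n β M y / 2) 0).trans ?_
      by_cases h : oTau n β M y = 0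
      · simp [h]
      · rw [H.cen y hy h, mul_zero]
  rw [opW1]
  refine abs_nonpos_iff.1 ((W1 H.mono (len (n := n) (β := β) ▸ hj.le)
    (D := fun y => |pi2 (fun _ => 1) (bL n β M) y (oUb n β M q true y) 0| * (2 * 2))
    (fun _ => by positivity) fun τ hτ => ?_).trans (le_of_eq ?_))
  · rw [abs_mul, ← hτ.TE_pair wt_one90]
    refine mul_le_mul (le_of_eq ?_) (H.abs_site (H.ev2 hτ (H.eta2 hj.le))) (abs_nonneg _)
      (abs_nonneg _)
    congr 2
    funext x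
    exact one_mul _
  · rw [I, len, Finset.sum_range_succ, H.top, z j hj, Finset.sum_eq_zero fun y hy => by
      rw [z y (Finset.mem_range.1 hy), abs_zero, zero_mul, mul_zero]]
    simp

theorem Eb : opW n β M q [false] (Sh.two j) (pr2 j fun _ _ => 1) (pr2 j (oE q j)) = 0 := by
  have h1 := (dT_eq_sg wt_one90 (Sh.two j) (bL n β M) 0 (K := oUb n β M q false) (c := 0)
    (by rw [len]; exact Mul55.oUb_diag H.hn H.ok false) fun _ => 1).symm.trans
    (Mul55.dT_const' wt_one90 _ _ _ (Mul55.oUb_zero false) 1)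
  rw [opW1]
  refine (sg_congr _ _ _ (Ψ := fun τ => TE (fun _ => 1) (Sh.two j) (opS n β M q) 0 (pr2 j (oE q j)) *
    TE (fun _ => 1) τ.sh (bL n β M) 0 (τ.ev (oUb n β M q false) fun _ => 1))
    fun τ hτ => ?_).trans (by rw [sg_const_mul, h1, mul_zero])
  rw [mul_comm, ← hτ.TE_e wt_one90]
  congr 2
  funext x
  exact mul_one _

omit H in
theorem sum_succ (k : ℕ) (F : List Bool → ℝ) : ∑ f : Fin (k + 1) → Bool, F (List.ofFn f) =
    ∑ f : Fin k → Bool, F (true :: List.ofFn f) + ∑ f : Fin k → Bool, F (false :: List.ofFn f) := by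
  rw [← (Fin.consEquiv fun _ : Fin (k + 1) => Bool).sum_comp, Fintype.sum_prod_type]
  simp only [Fin.consEquiv_apply, List.ofFn_succ, Fin.cons_zero, Fin.cons_succ, Fintype.sum_bool]

omit H in
theorem sum_zero (F : List Bool → ℝ) : ∑ f : Fin 0 → Bool, F (List.ofFn f) = F [] := by simp

theorem P1E (hj : j < M.length) : opP n β M q 1 j (fun _ _ => 1) (oE q j) = 0 := by
  rw [opP, opC_eq_sum, sum_succ 0 fun l => opW n β M q l _ _ _]
  rw [sum_zero fun l => opW n β M q (true :: l) _ _ _, sum_zero fun l => opW n β M q (false :: l) _ _ _,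
    H.Ea hj, H.Eb, add_zero]

/-- **(E1c)** -/
theorem e1c (hj : j < M.length) (h : oTau n β M j ≠ 0) : |E38.rj n β M q j| ≤
    (4 * cOp T 2 1 2 + 2 * cOp T 1 1 2) * I (bL n β M) j fun y => u y ^ 2 := by
  have h1 := H.tay 0 1 hj.le (U := fun _ _ => 1) (fun _ _ => by simp) (abs_oE_le H.ok hj.le)
    fun y hy => H.a2 hy
  have h2 := H.tay 1 0 hj.le (U := oU q j) (Z := fun _ _ => 1) (A := 1)
    (fun _ _ => by simp [Uc_eq h]) (fun _ _ => by simp) fun y hy => H.a2 hy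
  simp only [Finset.sum_range_succ, Finset.range_zero, Finset.sum_empty, H.P0E, H.P0U hj h,
    H.P1E hj, H.sym, zero_add, Nat.factorial, Nat.cast_one, div_one, mul_one, add_zero,
    sub_zero, Nat.reduceAdd] at h1 h2
  rw [abs_le] at h1 h2 ⊢
  constructor <;> linarith [h1.1, h1.2, h2.1, h2.2]

end Hy

end Crest.Agent.T156.Cas.Ea38

end
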