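import Crest.Agent.T156.GuB_71

/-!
Row 156 (helper71): the class of the soft recursion up to the end of the path (fixed deposit after
the time `U`), the lag, the behaviour above the plateau.
-/

set_option autoImplicit false
set_option linter.unusedSectionVars false

noncomputable section

namespace Crest.Agent.T156.Alt.Gu71

open MeasureTheory Real Set Filter Topology
open Crest.Agent.T157.E Crest.Agent.T157.Casc Crest.Agent.T157.SL
open Crest.Agent.T156.Cas Crest.Agent.T156.Alt.Md77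
open Crest.Agent.T156.Alt.Md67 (Lg)

/-- a profile cut at the node `j` -/
def cut (j : ℕ) (q : ℕ → ℝ) (k : ℕ) : ℝ := if k ≤ j then 0 else q k

theorem cut_lo {j k : ℕ} (q : ℕ → ℝ) (hk : k ≤ j) : cut j q k = 0 := if_pos hk

theorem cut_hi {j k : ℕ} (q : ℕ → ℝ) (hk : j < k) : cut j q k = q k := if_neg (by omega)








namespace KD

variable (D : KD)

/-- **the class up to the end**: a member of `K (min u U)`, then the fixed deposit `r` -/
def K2 (U : ℝ) (r : ℕ → ℝ) (M : Md) (u : ℝ) (N : Md) : Prop :=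
  ∃ N₁, D.K M (min u U) N₁ ∧ N = dep N₁ r (u - min u U)

variable {D} {U u R θ a h x : ℝ} {r lam : ℕ → ℝ} {M N : Md} {m : ℕ}


theorem K2.N_eq (h : D.K2 U r M u N) : N.N = M.N := by obtain ⟨_, h, rfl⟩ := h; exact h.N_eq

theorem K2.z_eq (h : D.K2 U r M u N) : N.z = M.z := by obtain ⟨_, h, rfl⟩ := h; exact h.z_eq

theorem K2.dz_eq (h : D.K2 U r M u N) (m : ℕ) (a : ℝ) : N.dz m a = M.dz m a :=
  funext fun k => dz_free h.N_eq h.z_eq k

/-- normal form of a member -/
theorem K2.eq (h : D.K2 U r M u N) : ∃ F, D.At (min u U) (min u U / 2) (2 * min u U) (4 * min u U) F ∧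
    N = sh M u fun k => F k + (u - min u U) * r k := by
  obtain ⟨_, ⟨F, rfl, h⟩, rfl⟩ := h
  exact ⟨F, h, by rw [dep, sh_sh, add_sub_cancel]⟩






theorem K2.G_eq (h : D.K2 U r M u N) (k : ℕ) : N.G k = M.G k + (N.H k - M.H k - u * M.q k) := by
  obtain ⟨F, -, rfl⟩ := h.eq
  rw [sh_G]
  simp only [sh, add_sub_cancel_left]

theorem K2.leg (H : D.Ok) (hr : Dp r R) (h : D.K2 U r M u N) (hM : M.Leg x) (hU : 0 ≤ U)
    (h0 : 0 ≤ u) (hu : u ≤ M.d 0) : N.Leg x := by
  obtain ⟨F, hF, rfl⟩ := h.eq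
  refine sh_leg hM hu (by rw [hF.low 0 (Nat.zero_le _), hr.r0, mul_zero, add_zero]) ?_
  exact (AB.monotone hF fun k => mul_nonneg (by positivity) (H.fl0 k)).add
    (hr.mono.const_mul (sub_nonneg.2 (min_le_left _ _)))

theorem K2.lg (H : D.Ok) (hr : Dp r R) (h : D.K2 U r M u N) (G : Lg M m a) (hU : 0 ≤ U)
    (h0 : 0 ≤ u) (hu : u ≤ M.d 0) : Lg N m a := ⟨h.leg H hr G.toLeg hU h0 hu, G.m0, G.a0⟩




/-- **the residual against any reference `q`** -/
theorem K2.res (H : D.Ok) (h : D.K2 U r M u N) (hU : 0 ≤ U) (h0 : 0 ≤ u) (q : ℕ → ℝ) :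
    nrm D.ω D.S (fun k => N.H k - M.H k - u * q k) ≤ 4 * min u U * D.g +
      min u U * nrm D.ω D.S (fun k => D.c k - q k) +
      (u - min u U) * nrm D.ω D.S fun k => r k - q k := by
  obtain ⟨F, hF, rfl⟩ := h.eq
  have b := (AB.clock H.ω0 hF (le_min h0 hU) (c' := q) le_rfl).res
  refine ((nrm_congr (g := fun k => (F k - min u U * q k) + (u - min u U) * (r k - q k))
    fun k _ => by simp only [sh]; ring).trans_le (nrm_add H.ω0)).trans (add_le_add b ?_)
  rw [nrm_mul, abs_of_nonneg (sub_nonneg.2 (min_le_left _ _))]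









end KD

/-! ### only the nodes up to `Jp` matter: normalisation above the plateau -/




end Crest.Agent.T156.Alt.Gu71

end
namespace Crest.Agent.T156.Alt.Gu71.KD.Rk
end Crest.Agent.T156.Alt.Gu71.KD.Rk
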