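import Crest.Agent.T156.GuC_71
import Crest.Agent.T156.SrK_46
import Crest.Agent.T156.MdOne_67
import Crest.Agent.T156.SRDef_19
import Crest.Agent.T156.ClReg_29

-- ▼ part T156/GuD_71
section

/-!
Row 156 (helper71): the deposit rule of the soft recursion on the class `Sr46.KK`.
-/

set_option autoImplicit false
set_option linter.unusedSectionVars false

noncomputable section

namespace Crest.Agent.T156.Alt.Ru71

open Real Finset
open Crest.Agent.T156.Alt.Md67 (Lg)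
open Crest.Agent.T156.Alt.Gu71 Crest.Agent.T156.Alt.Sr46

/-- the cap of `f` started from `0` at the node `j` -/
def cp (j : ℕ) (lam f : ℕ → ℝ) : ℕ → ℝ := Cap64.cap (cut j f) lam

section cp
variable {j : ℕ} {lam f : ℕ → ℝ}

theorem cut_nn (h0 : ∀ k, 0 ≤ f k) (k : ℕ) : 0 ≤ cut j f k := by
  unfold cut; split_ifs; exacts [le_rfl, h0 k]

theorem cut_le (h0 : ∀ k, 0 ≤ f k) (k : ℕ) : cut j f k ≤ f k := by
  unfold cut; split_ifs; exacts [h0 k, le_rfl]

theorem cut_mono (h0 : ∀ k, 0 ≤ f k) (hf : Monotone f) : Monotone (cut j f) := fun k k' hk => by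
  rcases le_or_gt k j with c | c
  · rw [cut_lo f c]; exact cut_nn h0 k'
  · rw [cut_hi f c, cut_hi f (c.trans_le hk)]; exact hf hk

theorem cp_nn (h0 : ∀ k, 0 ≤ f k) (hl : ∀ k, 0 ≤ lam k) (k : ℕ) : 0 ≤ cp j lam f k :=
  Cap64.cap_nonneg (cut_nn h0) hl k

theorem cp_le (h0 : ∀ k, 0 ≤ f k) (k : ℕ) : cp j lam f k ≤ f k :=
  (Cap64.cap_le k).trans (cut_le h0 k)





theorem cp_succ {k : ℕ} (hk : j ≤ k) :
    cp j lam f (k + 1) = min (f (k + 1)) (cp j lam f k + lam k) := by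
  rw [cp, Cap64.cap_succ, cut_hi f (Nat.lt_succ_of_le hk)]

end cp

variable (D : Kd) (M : Md) (lam : ℕ → ℝ) (m : ℕ) (a : ℝ)

/-- the capped mean overlap up to `Jp`, the increments of the reference above -/
def gq (N : Md) (k : ℕ) : ℝ :=
  cp D.j0 lam (N.rb m a) (min k D.Jp) + (qz M D.j0 k - qz M D.j0 (min k D.Jp))

/-- **the rule** -/
def rho (N : Md) (k : ℕ) : ℝ := D.θ * D.c k + (1 - D.θ) * gq D M lam m a N k

variable {D M lam m a} {R : ℝ}














end Crest.Agent.T156.Alt.Ru71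

end
end

-- ▼ part T156/SrCap_71

/-!
Row 156 (helper71): the error of the cap and the remainder of Guerra's step in the soft recursion.
-/

set_option autoImplicit false
set_option linter.unusedSectionVars false

noncomputable section

namespace Crest.Agent.T156.Alt.Sr

open Real Finset Filter
open Crest.Agent.T156.Alt.Md67 (Lg)
open Crest.Agent.T156.Alt.Gu71 Pre29

namespace C71

/-- a monotone profile is located from above -/
theorem top_cube {z e : ℕ → ℝ} {a b : ℕ} (hab : a ≤ b) (zm : Monotone z) {U : ℝ}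
    (he : ∀ k, a < k → k ≤ b → U - (z (k - 1) - z a) ≤ e k) :
    max U 0 ^ 3 - max (U - (z b - z a)) 0 ^ 3 ≤ 3 * ∑ k ∈ Ioc a b, (z k - z (k - 1)) * e k ^ 2 := by
  induction b, hab using Nat.le_induction with
  | base => simp
  | succ b hab ih =>
    have h1 := ih fun k a1 a2 => he k a1 (by omega)
    have h2 := he (b + 1) (by omega) le_rfl
    rw [sum_Ioc_succ_top hab, Nat.add_sub_cancel] at *
    have d0 := sub_nonneg.2 (zm b.le_succ)
    set g := max (U - (z b - z a)) 0 with hg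
    set g' := max (U - (z (b + 1) - z a)) 0 with hg'
    have g0 : 0 ≤ g' := le_max_right _ _
    have g1 : g' ≤ g := max_le_max (by linarith) le_rfl
    have g2 : g - g' ≤ z (b + 1) - z b := by
      rw [sub_le_iff_le_add']
      exact max_le (by linarith [le_max_left (U - (z (b + 1) - z a)) 0]) (by linarith)
    have g3 : g ^ 2 ≤ e (b + 1) ^ 2 := by
      rcases le_total (U - (z b - z a)) 0 with c | c
      · rw [hg, max_eq_right c, zero_pow two_ne_zero]; positivity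
      · rw [hg, max_eq_left c]; exact pow_le_pow_left₀ c h2 2
    have g4 : g ^ 3 - g' ^ 3 ≤ (g - g') * (3 * g ^ 2) := by
      nlinarith [mul_nonneg (mul_nonneg (sub_nonneg.2 g1) (sub_nonneg.2 g1))
        (show 0 ≤ 2 * g + g' by linarith)]
    have g5 : (g - g') * (3 * g ^ 2) ≤ (z (b + 1) - z b) * (3 * e (b + 1) ^ 2) :=
      mul_le_mul g2 (by linarith) (by positivity) d0
    linarith

theorem cube_add {x y : ℝ} (hx : 0 ≤ x) (hy : 0 ≤ y) : (x + y) ^ 3 ≤ 4 * (x ^ 3 + y ^ 3) := by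
  nlinarith [mul_nonneg (add_nonneg hx hy) (sq_nonneg (x - y))]

/-- the numbers -/
structure Nb (E : ℝ) (S : Sc) (Y : ℝ) : Prop where
  Cθ : S.C * S.θ ≤ 1 / 2
  CE : 10000 * S.C ^ 7 ≤ E
  vY : S.C * S.v ≤ Y
  nY : 1 / (S.n : ℝ) ^ 2 ≤ Y
  EY : E ^ 200 * Y ≤ 1

/-- **introduction rule of the prefix `SR`** -/
theorem sr_intro {Q : ℝ → ℝ → Sc → Md → ℕ → ℝ → ℝ → (ℕ → ℝ) → ℝ → Prop} (K : ℝ → ℝ)
    (h : ∀ E Λ S M m a l Ys Y c D, K S.C ≤ E → K S.C ≤ Λ → Nb E S Y → Cl S M → S.In m a →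
      SH E S M l Ys Y → VarH E S M m a Y → Ax E S M Y c → Dr E S D → Q E Λ S M m a Y c D) :
    SR Q := by
  intro C
  filter_upwards [eventually_ge_atTop 2] with A hA ε hε η hη
  filter_upwards [ev_K (K C) hε, ev_K (K C) hη, ev_K (10000 * C ^ 7) hε, ev_rgc C hA hη 0,
    ev_K (C ^ 2) one_pos] with n a1 a2 a3 a4 a5 S M b1 b2 b3 b4 m a b5 l Ys Y c D d1 d2 d3 d4
  have G := a4 S b1 b2 b3
  subst b1 b2 b3
  have n1 := G.N1.le
  have n0 := G.N0
  have hn : (1 : ℝ) / S.n ≤ Y := le_trans (by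
    rw [one_div, ← rpow_neg_one]; exact rp_le G.n1 (by norm_num)) d1.Y0
  refine h _ _ S M m a l Ys Y c D a1 a2 ⟨G.Cθ b4, a3, le_trans ?_ hn, le_trans ?_ hn,
    d1.Y1.trans (rpow_le_one_of_one_le_of_nonpos n1 (by norm_num))⟩ b4 b5 d1 d2 d3 d4
  · have v1 := (mul_le_mul_of_nonneg_left (pow_le_pow_right₀ n1 hA) b4.v0.le).trans b4.v2
    rw [rpow_one] at a5
    have := mul_le_mul_of_nonneg_left v1 b4.C0.le
    rw [le_div_iff₀ n0]
    refine le_of_mul_le_mul_right ?_ n0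
    nlinarith
  · exact one_div_le_one_div_of_le n0 (by nlinarith)

variable {E l Ys Y W : ℝ} {S : Sc} {M : Md}

theorem Nb.E1 (B : Nb E S Y) (c : Cl S M) : 10000 ≤ E :=
  le_trans (le_mul_of_one_le_right (by norm_num) (one_le_pow₀ c.C1)) B.CE

theorem Nb.Y0 (B : Nb E S Y) : 0 ≤ Y := le_trans (by positivity) B.nY

theorem Nb.pow (B : Nb E S Y) (c : Cl S M) {i : ℕ} (hi : i ≤ 200) : E ^ i * Y ≤ 1 :=
  (mul_le_mul_of_nonneg_right (pow_le_pow_right₀ (by linarith [B.E1 c]) hi) B.Y0).trans B.EY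

theorem Nb.Y1 (B : Nb E S Y) (c : Cl S M) : Y ≤ 1 := by simpa using B.pow c (Nat.zero_le _)

theorem dx_nn (c : Cl S M) (k : ℕ) : 0 ≤ M.dx k := sub_nonneg.2 (c.leg.zm (Nat.sub_le k 1))

theorem dx_bd (c : Cl S M) {k : ℕ} (h1 : S.j0 < k) (h2 : k < S.J) :
    S.v / S.C ≤ M.dx k ∧ M.dx k ≤ S.C * S.v := by
  have := c.zs (k - 1) (by omega) (by omega)
  rwa [Nat.sub_add_cancel (by omega)] at this

theorem dz_eq (c : Cl S M) (u : ℝ) (F : ℕ → ℝ) (m : ℕ) (a : ℝ) {k : ℕ} (hk : 0 < k) :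
    (sh M u F).dz m a k = M.dx k := by rw [sh_dz, Md67.dz_up c.leg hk]; rfl

theorem sum_dx (c : Cl S M) {i j : ℕ} (hij : i ≤ j) : ∑ k ∈ Ioc i j, M.dx k ≤ 1 := by
  have : ∑ k ∈ Ioc i j, M.dx k = M.z j - M.z i := by
    induction j, hij using Nat.le_induction with
    | base => simp
    | succ j h ih => rw [sum_Ioc_succ_top h, ih, Md.dx, Nat.add_sub_cancel]; ring
  linarith [c.leg.z1 j, c.z_pos i]

theorem l_nn (c : Cl S M) (H : SH E S M l Ys Y) : 0 ≤ l := (c.s_nn _).trans H.jl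

theorem s_first (c : Cl S M) (H : SH E S M l Ys Y) : M.s (S.jl + 1) ≤ l + S.C * S.v := by
  linarith [(c.ss S.jl c.jl_lt).2, H.jl]

theorem z_first (B : Nb E S Y) (c : Cl S M) (H : SH E S M l Ys Y) :
    M.z (S.jl + 1) ≤ 1 / (2 * S.C) := by
  have E1 := B.E1 c
  have C1 := c.C1
  have v0 := c.v0
  have a1 : E * l ≤ 1 := by
    refine (pow_le_one_iff_of_nonneg (mul_nonneg (by linarith) (l_nn c H)) three_ne_zero).1 ?_
    rw [mul_pow]
    exact (mul_le_mul_of_nonneg_left H.l3 (by positivity)).trans (B.pow c (by norm_num))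
  have a2 : E * (S.C * S.v) ≤ 1 :=
    (mul_le_mul_of_nonneg_left B.vY (by linarith)).trans (by simpa using B.pow c (i := 1) (by norm_num))
  have a3 := (c.z_s (c.i1.trans S.jl.le_succ) c.i2).2
  have a4 : M.s (S.jl + 1) + 2 * S.v ≤ l + 3 * (S.C * S.v) := by
    nlinarith [s_first c H]
  have a5 : S.C ^ 2 ≤ S.C ^ 7 := pow_le_pow_right₀ C1 (by norm_num)
  have a6 : E * M.z (S.jl + 1) ≤ 4 * S.C := by
    have := mul_le_mul_of_nonneg_left (a3.trans (mul_le_mul_of_nonneg_left a4 c.C0.le))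
      (show 0 ≤ E by linarith)
    nlinarith
  rw [le_div_iff₀ (by linarith)]
  refine le_of_mul_le_mul_left ?_ (show 0 < E by linarith)
  nlinarith [B.CE]

/-- the excess below the junction, with the flat plateau -/
theorem corner_sq (B : Nb E S Y) (c : Cl S M) (H : SH E S M l Ys Y) {f : ℕ → ℝ} (hf : Monotone f)
    (hY : Y ≤ W) (hW : M.sq S (fun k => f k - M.q k) ≤ W) :
    f (S.J - 1) - M.q (S.J - 1) ≤ 3 * √(S.C * W) := by
  have i2 := c.i2
  have i3 := c.i3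
  have C1 := c.C1
  have Y0 := B.Y0
  have cv0 : 0 ≤ S.C * S.v := (mul_pos c.C0 c.v0).le
  have w1 : Y ≤ S.C * W := hY.trans (le_mul_of_one_le_left (Y0.trans hY) C1)
  have a1 : M.s S.Jp - M.s S.J ≤ √(S.C * W) := le_sqrt_of_sq_le (H.flat.trans w1)
  have a2 : S.C * S.v ≤ √(S.C * W) := le_sqrt_of_sq_le
    (((pow_le_of_le_one cv0 (B.vY.trans (B.Y1 c)) two_ne_zero).trans B.vY).trans w1)
  set U := f (S.J - 1) - M.q (S.J - 1) - 2 * √(S.C * W) with hU
  rcases le_total U 0 with h | h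
  · linarith [sqrt_nonneg (S.C * W)]
  have h1 : ∀ k ∈ Ioc (S.J - 1) S.Jp, M.dx k * U ^ 2 ≤ M.dx k * (f k - M.q k) ^ 2 := fun k hk => by
    have b := mem_Ioc.1 hk
    have b1 := (c.q_tel B.Cθ b.1.le b.2).2
    have b2 := (c.ss (S.J - 1) (by omega)).2
    rw [Nat.sub_add_cancel (by omega)] at b2
    exact mul_le_mul_of_nonneg_left (pow_le_pow_left₀ h
      (by linarith [c.sm b.2, hf b.1.le]) 2) (dx_nn c k)
  have h2 := (sum_le_sum h1).trans ((sum_le_sum_of_subset_of_nonneg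
    (Ioc_subset_Ioc_left (show S.jl ≤ S.J - 1 by omega)) fun k _ _ =>
      mul_nonneg (dx_nn c k) (sq_nonneg _)).trans hW)
  have e : ∀ j, S.J - 1 ≤ j → ∑ k ∈ Ioc (S.J - 1) j, M.dx k = M.z j - M.z (S.J - 1) := fun j hj => by
    induction j, hj using Nat.le_induction with
    | base => simp
    | succ j h ih => rw [sum_Ioc_succ_top h, ih, Md.dx, Nat.add_sub_cancel]; ring
  rw [← sum_mul, e _ (by omega), c.top _ le_rfl] at h2
  have h3 := (mul_le_mul_of_nonneg_right (show 1 / S.C ≤ 1 - M.z (S.J - 1) by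
    linarith [c.atom.2]) (sq_nonneg U)).trans h2
  rw [one_div_mul_eq_div, div_le_iff₀' c.C0] at h3
  linarith [le_sqrt_of_sq_le h3]

/-- the profile below the junction -/
theorem corner (B : Nb E S Y) (c : Cl S M) (H : SH E S M l Ys Y) {f : ℕ → ℝ} (hf : Monotone f)
    (f1 : ∀ k, f k ≤ 1) (hW : M.sq S (fun k => f k - M.q k) ≤ W) :
    max (f (S.J - 1) - M.q (S.J - 1)) 0 ^ 3 ≤ 9 * S.C * (W + Y) := by
  have W0 : 0 ≤ W := (sum_nonneg fun k _ => mul_nonneg (dx_nn c k) (sq_nonneg _)).trans hW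
  have Y0 := B.Y0
  have C0 := c.C0
  have h1 := corner_sq B c H hf (W := W + Y) (by linarith) (by linarith)
  have g0 := le_max_right (f (S.J - 1) - M.q (S.J - 1)) 0
  have g1 : max (f (S.J - 1) - M.q (S.J - 1)) 0 ≤ 1 :=
    max_le (by linarith [f1 (S.J - 1), Md67.q_nonneg (M := M) (S.J - 1)]) zero_le_one
  have g2 := pow_le_pow_left₀ g0 (max_le h1 (by positivity)) 2
  rw [mul_pow, sq_sqrt (by positivity)] at g2
  linarith [pow_le_pow_of_le_one g0 g1 (show 2 ≤ 3 by norm_num)]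

theorem lam_nn (B : Nb E S Y) (c : Cl S M) (k : ℕ) : 0 ≤ lam E S M k := by
  have E1 := B.E1 c
  have := c.s_nn (S.jl + 1)
  have := c.v0
  unfold lam
  split_ifs <;> positivity

/-- **the error of the cap**, frame-free in the profile -/
theorem cap_err (B : Nb E S Y) (c : Cl S M) (H : SH E S M l Ys Y) {f : ℕ → ℝ} (hf : Monotone f)
    (f0 : ∀ k, 0 ≤ f k) (f1 : ∀ k, f k ≤ 1) (hW : M.sq S (fun k => f k - M.q k) ≤ W) :
    M.sq S (fun k => f k - Ru71.cp S.jl (lam E S M) f k) ≤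
      2 * Y + 448 * S.C ^ 7 * (W + Y) / E ^ 8 := by
  have i2 := c.i2
  have i3 := c.i3
  have C1 := c.C1
  have C0 := c.C0
  have v0 := c.v0
  have E1 := B.E1 c
  have Y0 := B.Y0
  have Y1 := B.Y1 c
  have hl := lam_nn B c
  have W0 : 0 ≤ W := (sum_nonneg fun k _ => mul_nonneg (dx_nn c k) (sq_nonneg _)).trans hW
  have e1 : ∀ k, (f k - Ru71.cp S.jl (lam E S M) f k) ^ 2 ≤ 1 := fun k =>
    (sq_le_one_iff₀ (sub_nonneg.2 (Ru71.cp_le f0 k))).2 (by linarith [f1 k, Ru71.cp_nn (j := S.jl) f0 hl k])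
  have p1 : M.dx (S.jl + 1) * (f (S.jl + 1) - Ru71.cp S.jl (lam E S M) f (S.jl + 1)) ^ 2 ≤ Y :=
    (mul_le_of_le_one_right (dx_nn c _) (e1 _)).trans
      ((dx_bd c (Nat.lt_succ_of_le c.i1) i2).2.trans B.vY)
  have p2 : M.dx S.J * (f S.J - Ru71.cp S.jl (lam E S M) f S.J) ^ 2 ≤ Y :=
    (mul_le_of_le_one_right (dx_nn c _) (e1 _)).trans ((H.mesh _ le_rfl i3).trans B.nY)
  have p3 : ∑ k ∈ Ioc S.J S.Jp, M.dx k * (f k - Ru71.cp S.jl (lam E S M) f k) ^ 2 = 0 :=
    sum_eq_zero fun k hk => by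
      obtain ⟨k, rfl⟩ : ∃ j, k = j + 1 := ⟨k - 1, by have := (mem_Ioc.1 hk).1; omega⟩
      have h1 := (mem_Ioc.1 hk).1
      have : lam E S M k = 1 := by rw [lam, if_neg (by omega), if_neg (by omega), if_neg (by omega)]
      rw [Ru71.cp_succ (by omega), this, min_eq_left (by
        linarith [f1 (k + 1), Ru71.cp_nn (j := S.jl) f0 hl k]), sub_self]
      ring
  have cv0 : 0 ≤ S.C * S.v := by positivity
  have cv3 : (S.C * S.v) ^ 3 ≤ Y :=
    (pow_le_of_le_one cv0 (B.vY.trans Y1) three_ne_zero).trans B.vY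
  have cv2 : (S.C * S.v) ^ 2 ≤ Y :=
    (pow_le_of_le_one cv0 (B.vY.trans Y1) two_ne_zero).trans B.vY
  have E8 : E ≤ E ^ 8 := le_self_pow₀ (by linarith) (by norm_num)
  have c37 : S.C ^ 3 ≤ S.C ^ 7 := pow_le_pow_right₀ C1 (by norm_num)
  have p4 := Cap64.base (f := cut S.jl f) (lam := lam E S M) (q := M.q) (a := S.jl + 1)
    (b := S.J - 1) (by omega) (w := M.dx) (C := S.C ^ 2) (Λ := E ^ 8 / S.C) (v := S.C * S.v)
    (U := max (f (S.J - 1) - M.q (S.J - 1)) 0) (G := l + S.C * S.v)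
    (by positivity) (by rw [le_div_iff₀ C0]; nlinarith [B.CE])
    (fun k _ _ => Ru71.cut_mono f0 hf k.le_succ)
    (fun k a1 a2 => ⟨dx_nn c k, (dx_bd c (by have := c.i1; omega) (by omega)).2⟩)
    (fun k a1 a2 => by
      rw [lam, if_neg (by omega), if_neg (by omega), if_pos (by omega)]
      refine (mul_le_mul_of_nonneg_left (dx_bd c (by have := c.i1; omega) (by omega)).2
        (by positivity)).trans_eq ?_
      field_simp)
    (fun k a1 a2 => ⟨c.q_mono k.le_succ (by have := c.i4; omega), by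
      have b1 := (c.q_tel B.Cθ k.le_succ (by omega)).2
      have b2 := (c.ss k (by omega)).2
      have b3 := (dx_bd c (k := k + 1) (by have := c.i1; omega) (by omega)).1
      rw [div_le_iff₀ C0] at b3
      have := mul_le_mul_of_nonneg_left b3 C0.le
      rw [Nat.succ_eq_add_one] at b1
      linarith⟩)
    (by rw [cut_hi f (by omega)]; exact le_max_left _ _)
    (by
      have := Ru71.cp_nn (j := S.jl) f0 hl (S.jl + 1)
      rw [Ru71.cp] at this
      linarith [c.q_le_s (k := S.jl + 1) (by have := c.i4; omega), s_first c H])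
  have q2 := corner B c H hf f1 hW
  have q3 := cube_add (l_nn c H) cv0
  have q4 : ∑ k ∈ Ioc (S.jl + 1) (S.J - 1), M.dx k * (cut S.jl f k - M.q k) ^ 2 ≤ W := by
    rw [sum_congr rfl (g := fun k => M.dx k * (f k - M.q k) ^ 2) fun k hk => by
      rw [cut_hi f (by have := (mem_Ioc.1 hk).1; omega)]]
    exact (sum_le_sum_of_subset_of_nonneg (Ioc_subset_Ioc (by omega) (by omega)) fun k _ _ =>
      mul_nonneg (dx_nn c k) (sq_nonneg _)).trans hW
  have q5 : (S.C ^ 2) ^ 3 * (S.C * S.v) ^ 2 * ∑ k ∈ Ioc (S.jl + 1) (S.J - 1), M.dx k ≤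
      S.C ^ 6 * Y := by
    refine (mul_le_of_le_one_right (by positivity) (sum_dx c (by omega))).trans ?_
    rw [← pow_mul]
    exact mul_le_mul_of_nonneg_left cv2 (by positivity)
  have q6 := mul_le_mul_of_nonneg_left q4 (show 0 ≤ S.C ^ 2 by positivity)
  have c16 : S.C * W ≤ S.C ^ 6 * W :=
    mul_le_mul_of_nonneg_right (le_self_pow₀ C1 (by norm_num)) W0
  have c17 : S.C * Y ≤ S.C ^ 6 * Y :=
    mul_le_mul_of_nonneg_right (le_self_pow₀ C1 (by norm_num)) Y0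
  have c26 : S.C ^ 2 * W ≤ S.C ^ 6 * W :=
    mul_le_mul_of_nonneg_right (pow_le_pow_right₀ C1 (by norm_num)) W0
  have c06 : Y ≤ S.C ^ 6 * Y := le_mul_of_one_le_left Y0 (one_le_pow₀ C1)
  have p5 : ∑ k ∈ Ioc (S.jl + 1) (S.J - 1), M.dx k * (f k - Ru71.cp S.jl (lam E S M) f k) ^ 2 ≤
      448 * S.C ^ 7 * (W + Y) / E ^ 8 := by
    rw [sum_congr rfl (g := fun k => M.dx k * Cap64.err (cut S.jl f) (lam E S M) k ^ 2)
      fun k hk => by rw [Cap64.err, cut_hi f (by have := (mem_Ioc.1 hk).1; omega), Ru71.cp],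
      le_div_iff₀ (by positivity)]
    have r1 : E ^ 8 / S.C / 8 * ∑ k ∈ Ioc (S.jl + 1) (S.J - 1),
        M.dx k * Cap64.err (cut S.jl f) (lam E S M) k ^ 2 ≤ 56 * S.C ^ 6 * (W + Y) := by
      have := H.l3
      have := mul_nonneg (show 0 ≤ S.C ^ 6 by positivity) Y0
      have := mul_nonneg (show 0 ≤ S.C ^ 6 by positivity) W0
      linarith
    have r2 := mul_le_mul_of_nonneg_left r1 (show 0 ≤ 8 * S.C by positivity)
    refine le_of_eq_of_le ?_ (r2.trans_eq (by ring))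
    field_simp
  have s1 : S.J = S.J - 1 + 1 := by omega
  rw [Md.sq, ← sum_Ioc_consecutive _ (show S.jl ≤ S.J by omega) i3, p3, add_zero]
  rw [s1, sum_Ioc_succ_top (by omega), ← s1,
    ← sum_Ioc_consecutive _ S.jl.le_succ (show S.jl + 1 ≤ S.J - 1 by omega), Nat.succ_eq_add_one,
    sum_Ioc_succ_top le_rfl, Ioc_self, sum_empty]
  linarith

/-- the cap error of a located model -/
theorem cap_sh (B : Nb E S Y) (c : Cl S M) (H : SH E S M l Ys Y) {m : ℕ} (hm : 0 < m) (a u : ℝ)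
    (F : ℕ → ℝ) (hΦ : (sh M u F).Phi S m a ≤ 2 * (E ^ 100 * Y)) :
    M.sq S (fun k => (sh M u F).rb m a k - cp E S m a (sh M u F) k) ≤
      1346 * S.C ^ 7 * E ^ 92 * Y := by
  have h := cap_err B c H (f := (sh M u F).rb m a) (Md67.rb_mono hm) (Md67.rb_nonneg hm)
    (Md67.rb_le_one hm) hΦ
  have E1 := B.E1 c
  have Y0 := B.Y0
  have a1 : Y ≤ E ^ 100 * Y := le_mul_of_one_le_left Y0 (one_le_pow₀ (by linarith))
  have a2 : Y ≤ S.C ^ 7 * E ^ 92 * Y := le_mul_of_one_le_left Y0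
    (one_le_mul_of_one_le_of_one_le (one_le_pow₀ c.C1) (one_le_pow₀ (by linarith)))
  have a3 : 448 * S.C ^ 7 * (2 * (E ^ 100 * Y) + Y) / E ^ 8 ≤ 1344 * (S.C ^ 7 * E ^ 92 * Y) := by
    rw [div_le_iff₀ (by positivity)]
    have := mul_le_mul_of_nonneg_left a1 (show 0 ≤ S.C ^ 7 by have := c.C0; positivity)
    nlinarith
  exact le_of_eq_of_le rfl (h.trans (by linarith))

/-! ### monotonicity of the deposits -/

theorem ct_lo {k : ℕ} (hk : k ≤ S.jl) : M.ct S k = 0 := if_pos hk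

theorem ct_mid (c : Cl S M) {k : ℕ} (h1 : S.jl < k) (h2 : k ≤ S.Jp) : M.ct S k = M.ck k := by
  rw [Md.ct, if_neg (by omega), min_eq_left h2, min_eq_left (h2.trans c.i4.le), sub_self, add_zero]

theorem ct_hi (c : Cl S M) {k : ℕ} (h : S.Jp ≤ k) :
    M.ct S k = M.ck S.Jp + (M.q (min k M.N) - M.q S.Jp) := by
  have := c.i2
  have := c.i3
  rw [Md.ct, if_neg (by omega), min_eq_right h]

theorem ck_step (c : Cl S M) {k : ℕ} (h1 : S.jl ≤ k) (h2 : k < S.Jp) : M.ck k ≤ M.ck (k + 1) := by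
  linarith [(c.ckm k (c.i1.trans h1) h2).1, div_pos c.v0 c.C0]

theorem ct_mono (B : Nb E S Y) (c : Cl S M) (H : SH E S M l Ys Y) : Monotone (M.ct S) :=
  monotone_nat_of_le_succ fun k => by
    have i2 := c.i2
    have i3 := c.i3
    rcases lt_trichotomy k S.jl with h | rfl | h
    · rw [ct_lo h.le, ct_lo h]
    · rw [ct_lo le_rfl, ct_mid c (by omega) (by omega), c.ckq _ (z_first B c H)]
      exact Md67.q_nonneg _
    rcases lt_or_ge k S.Jp with h' | h'
    · rw [ct_mid c h h'.le, ct_mid c (by omega) h']; exact ck_step c h.le h'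
    · rw [ct_hi c h', ct_hi c (h'.trans k.le_succ)]
      linarith [c.q_mono (min_le_min_right M.N k.le_succ) (min_le_right _ _)]

theorem K0_mono (B : Nb E S Y) (c : Cl S M) (H : SH E S M l Ys Y) {ck F : ℕ → ℝ}
    (A : Ax E S M Y ck) {u : ℝ} (hu : 0 ≤ u) (K : K0 E S M Y ck u F) : Monotone F :=
  monotone_nat_of_le_succ fun k => by
    have E1 := B.E1 c
    rcases lt_trichotomy k S.jl with h | rfl | h
    · rw [K.lo k h.le, K.lo _ h]
    · rw [K.lo _ le_rfl]; exact K.f0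
    rcases lt_or_ge k S.Jp with h' | h'
    · have a1 : 0 ≤ ck (k + 1) - ck k := by linarith [A.inc k h h', ck_step c h.le h']
      have : 0 ≤ u / E ^ 4 * (ck (k + 1) - ck k) / 2 := by positivity
      linarith [K.flr k h h']
    · have := mul_le_mul_of_nonneg_left (ct_mono B c H k.le_succ) hu
      linarith [K.top k h', K.top (k + 1) (h'.trans k.le_succ)]

theorem Dr_nn (B : Nb E S Y) (c : Cl S M) {D : ℝ} (h : Dr E S D) : 0 ≤ D := by
  have := B.E1 c
  have : 0 ≤ nu S := rpow_nonneg (Nat.cast_nonneg _) _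
  exact le_trans (by positivity) h.1

/-- normal form of a member -/
theorem KC_sh (B : Nb E S Y) (c : Cl S M) (H : SH E S M l Ys Y) {ck : ℕ → ℝ} (A : Ax E S M Y ck)
    {D u : ℝ} (hD : Dr E S D) {N : Md} (K : KC E S M Y ck D u N) :
    ∃ F, F 0 = 0 ∧ Monotone F ∧ N = sh M u F := by
  obtain ⟨u0, -, F, K, rfl⟩ := K
  refine ⟨_, ?_, (K0_mono B c H A (le_min u0 (Dr_nn B c hD)) K).add
    ((ct_mono B c H).const_mul (sub_nonneg.2 (min_le_left u D))), rfl⟩
  rw [K.lo 0 (Nat.zero_le _), ct_lo (Nat.zero_le _), mul_zero, add_zero]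

/-- **the remainder** -/
theorem rem_sh (B : Nb E S Y) (c : Cl S M) (H : SH E S M l Ys Y) {m : ℕ} (hm : 0 < m) {a : ℝ}
    (V : VarH E S M m a Y) {ck : ℕ → ℝ} (A : Ax E S M Y ck) {u : ℝ} {F : ℕ → ℝ} (u0 : 0 ≤ u)
    (u1 : u ≤ M.d 0) (F0 : F 0 = 0) (hF : Monotone F)
    (hΦ : (sh M u F).Phi S m a ≤ 2 * (E ^ 100 * Y)) :
    Rem (sh M u F) m a (rul E S Y ck m a (sh M u F)) ≤ E ^ 93 * Y := by
  have E1 := B.E1 c
  have E0 : 0 < E := by linarith
  have Y0 := B.Y0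
  have i2 := c.i2
  have i3 := c.i3
  have i4 := c.i4
  have n2 := cap_sh B c H hm a u F hΦ
  have v1 := V (E ^ 9) u F (one_le_pow₀ (by linarith)) (pow_le_pow_right₀ (by linarith) (by norm_num))
    u0 u1 F0 hF
  have hph : ph E S Y m a (sh M u F) = cp E S m a (sh M u F) := if_pos hΦ
  set N := sh M u F with hN
  have ω0 : ∀ k ∈ Ioc S.jl S.Jp, 0 ≤ M.dx k := fun k _ => dx_nn c k
  have e1 : Ph N m a (rul E S Y ck m a N) (N.dz m a) (Ioc S.jl N.N) =
      M.sq S fun k => 1 / E ^ 4 * ((N.rb m a k - M.q k) - (ck k - M.q k)) +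
        (1 - 1 / E ^ 4) * (N.rb m a k - cp E S m a N k) := by
    rw [Ph, ← sum_subset (Ioc_subset_Ioc_right (show S.Jp ≤ N.N from i4.le)) fun k a1 a2 => ?_]
    · refine sum_congr rfl fun k hk => ?_
      have b := mem_Ioc.1 hk
      rw [hN, dz_eq c u F m a (by omega), ← hN, rul, if_neg (by omega), min_eq_left b.2, hph]
      ring
    have b1 := mem_Ioc.1 a1
    have b2 : S.Jp < k := by
      by_contra c'
      exact a2 (mem_Ioc.2 ⟨b1.1, not_lt.1 c'⟩)
    rw [hN, dz_eq c u F m a (by omega), Md.dx, c.top k b2.le, c.top (k - 1) (by omega), sub_self,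
      zero_mul]
  have θ0 : 0 < 1 / E ^ 4 := by positivity
  have θ1 : 1 / E ^ 4 ≤ 1 := (div_le_one (by positivity)).2 (one_le_pow₀ (by linarith))
  have e2 : M.sq S (fun k => 1 / E ^ 4 * ((N.rb m a k - M.q k) - (ck k - M.q k)) +
      (1 - 1 / E ^ 4) * (N.rb m a k - cp E S m a N k)) ≤
      3 * (1 / E ^ 4) ^ 2 * N.Phi S m a + 3 * (1 / E ^ 4) ^ 2 * M.sq S (fun k => ck k - M.q k) +
        3 * M.sq S fun k => N.rb m a k - cp E S m a N k := by
    change _ ≤ 3 * (1 / E ^ 4) ^ 2 * M.sq S (fun k => N.rb m a k - M.q k) + _ + _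
    simp only [Md.sq, mul_sum, ← sum_add_distrib]
    refine sum_le_sum fun k hk => ?_
    set x := N.rb m a k - M.q k
    set y := ck k - M.q k
    set w := N.rb m a k - cp E S m a N k
    set t := 1 / E ^ 4
    have b1 : ((1 - t) * w) ^ 2 ≤ w ^ 2 := by
      rw [mul_pow]
      exact mul_le_of_le_one_left (sq_nonneg _) (pow_le_one₀ (by linarith) (by linarith))
    have b2 : (t * (x - y) + (1 - t) * w) ^ 2 ≤ 3 * t ^ 2 * x ^ 2 + 3 * t ^ 2 * y ^ 2 + 3 * w ^ 2 := by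
      nlinarith [sq_nonneg (t * x + t * y), sq_nonneg (t * x - (1 - t) * w),
        sq_nonneg (t * y + (1 - t) * w)]
    have := mul_le_mul_of_nonneg_left b2 (ω0 k hk)
    linarith
  have t2 : (1 / E ^ 4) ^ 2 * (E ^ 100 * Y) = E ^ 92 * Y := by field_simp
  have f1 := mul_le_mul_of_nonneg_left hΦ (show 0 ≤ (1 / E ^ 4) ^ 2 by positivity)
  have f2 := mul_le_mul_of_nonneg_left A.sq (show 0 ≤ (1 / E ^ 4) ^ 2 by positivity)
  have f3 : E * N.Phi S m a / E ^ 9 ≤ 2 * (E ^ 92 * Y) := by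
    rw [div_le_iff₀ (by positivity)]
    exact (mul_le_mul_of_nonneg_left hΦ E0.le).trans_eq (by ring)
  have f4 : E ^ 4 * (E ^ 9) ^ 3 * Y ≤ E ^ 92 * Y := by
    rw [← pow_mul, ← pow_add]
    exact mul_le_mul_of_nonneg_right (pow_le_pow_right₀ (by linarith) (by norm_num)) Y0
  have p0 : 0 ≤ E ^ 92 * Y := by positivity
  have f5 := mul_le_mul_of_nonneg_right B.CE p0
  have f6 : E ^ 92 * Y ≤ S.C ^ 7 * (E ^ 92 * Y) := le_mul_of_one_le_left p0 (one_le_pow₀ c.C1)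
  rw [Rem_eq (j := S.jl) (r := rul E S Y ck m a N)
    (show S.jl ≤ N.N from (show S.jl ≤ M.N by omega)) fun k hk => if_pos hk, e1]
  linarith

end C71

open C71

/-- **the error of the cap** -/
theorem capS : SR fun E Λ S M m a Y _ _ => ∀ u F, Md67.Lg (sh M u F) m a →
    (sh M u F).Phi S m a ≤ 2 * (E ^ 100 * Y) →
    M.sq S (fun k => (sh M u F).rb m a k - cp E S m a (sh M u F) k) ≤ Λ * E ^ 92 * Y :=
  sr_intro (fun C => 1346 * C ^ 7) fun E _ _ _ _ a _ _ _ _ _ _ h B c _ H _ _ _ u F G hΦ =>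
    (cap_sh B c H G.m0 a u F hΦ).trans (mul_le_mul_of_nonneg_right
      (mul_le_mul_of_nonneg_right h (by have := B.E1 c; positivity)) B.Y0)

/-- **the remainder of Guerra's step** -/
theorem remS : RemS :=
  sr_intro (fun _ => 0) fun _ _ _ _ _ _ _ _ _ _ _ _ _ B c I H V A hD u N K hΦ => by
    obtain ⟨F, F0, hF, rfl⟩ := KC_sh B c H A hD K
    exact rem_sh B c H (c.n1.trans I.m1) V A K.1 K.2.1 F0 hF hΦ


end Crest.Agent.T156.Alt.Sr

end
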