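import Crest.Agent.T156.CaKkt_28
import Crest.Agent.T156.CaGf_90
import Crest.Agent.T156.AltCl_88

-- ▼ part T156/SrA_63
section

/-!
# Row 156, SR (a): moving field slices to other tilts of the same grid (helper63)

Tangent inequality on the unsorted list (joint convexity in the tilts) and the swap inequality
(Minkowski).
-/

set_option autoImplicit false
set_option linter.unusedSectionVars false

noncomputable section

namespace Crest.Agent.T156.Cas

open MeasureTheory Real Set Filter Topology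
open Crest.Agent.T157.E Crest.Agent.T157.Casc Crest.Agent.T157.SL
open Var6 Kkt28

namespace SrA63

/-- tangent inequality for a convex function with partial derivatives -/
theorem tangent {G : (ℕ → ℝ) → ℝ} (hG : ConvexOn ℝ {x | ∀ k, 0 ≤ x k} G) {K : ℕ} {x y g : ℕ → ℝ}
    (hx : ∀ k, 0 < x k) (hy : ∀ k, 0 ≤ y k) (he : ∀ k, K ≤ k → y k = x k)
    (hd : ∀ k < K, HasDerivAt (fun s => G (Function.update x k s)) (g k) (x k)) :
    G x + ∑ k ∈ Finset.range K, g k * (y k - x k) ≤ G y := by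
  classical
  rcases Nat.eq_zero_or_pos K with rfl | hK
  · rw [show y = x from funext fun k => he k (Nat.zero_le _)]; simp
  have hK' : (0 : ℝ) < K := by exact_mod_cast hK
  set p : ℝ → ℕ → ℕ → ℝ := fun ε k => Function.update x k (x k - ε * (K * (y k - x k))) with hp
  set f : ℝ → ℝ := fun ε => ∑ k ∈ Finset.range K, (K : ℝ)⁻¹ * G (p ε k) with hf
  have f0 : f 0 = G x := by
    simp only [hf, hp, zero_mul, sub_zero, Function.update_eq_self, Finset.sum_const,
      Finset.card_range, nsmul_eq_mul]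
    field_simp
  have df : HasDerivAt f (∑ k ∈ Finset.range K, (K : ℝ)⁻¹ * (g k * -(K * (y k - x k)))) 0 :=
    HasDerivAt.fun_sum fun k hk => by
      have a : HasDerivAt (fun ε : ℝ => x k - ε * (K * (y k - x k))) (-(K * (y k - x k))) 0 := by
        simpa using ((hasDerivAt_id' (0 : ℝ)).mul_const (K * (y k - x k))).const_sub (x k)
      have b := hd k (Finset.mem_range.1 hk)
      rw [show x k = x k - 0 * (K * (y k - x k)) by ring] at b
      exact (HasDerivAt.comp (0 : ℝ) (by simpa using b) a).const_mul _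
  have hs : ∑ k ∈ Finset.range K, (K : ℝ)⁻¹ * (g k * -(K * (y k - x k))) =
      -∑ k ∈ Finset.range K, g k * (y k - x k) := by
    rw [← Finset.sum_neg_distrib]
    exact Finset.sum_congr rfl fun k _ => by field_simp
  rw [hs] at df
  have ev : ∀ᶠ ε in 𝓝[>] (0 : ℝ), ∀ k ∈ Finset.range K, 0 ≤ x k - ε * (K * (y k - x k)) := by
    rw [Filter.eventually_all_finset]
    intro k _
    have : Tendsto (fun ε : ℝ => x k - ε * (K * (y k - x k))) (𝓝 0)
        (𝓝 (x k - 0 * (K * (y k - x k)))) :=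
      (continuous_const.sub (continuous_id.mul continuous_const)).tendsto 0
    rw [zero_mul, sub_zero] at this
    exact ((this.eventually (lt_mem_nhds (hx k))).mono fun _ h => h.le).filter_mono nhdsWithin_le_nhds
  have key : ∀ᶠ ε in 𝓝[>] (0 : ℝ), G x - G y ≤ ε⁻¹ • (f (0 + ε) - f 0) := by
    filter_upwards [ev, self_mem_nhdsWithin] with ε h1 h2
    have h2 : 0 < ε := h2
    have m : ∀ k ∈ Finset.range K, p ε k ∈ {x : ℕ → ℝ | ∀ k, 0 ≤ x k} := fun k hk i => by
      by_cases e : i = k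
      · subst e; simpa [hp] using h1 i hk
      · simpa [hp, Function.update_of_ne e] using (hx i).le
    have w1 : ∑ _k ∈ Finset.range K, (K : ℝ)⁻¹ = 1 := by
      simp only [Finset.sum_const, Finset.card_range, nsmul_eq_mul]; field_simp
    have j := hG.map_sum_le (fun _ _ => inv_nonneg.2 hK'.le) w1 m
    have mm := hG.1.sum_mem (fun _ _ => inv_nonneg.2 hK'.le) w1 m
    have e : ∑ k ∈ Finset.range K, (K : ℝ)⁻¹ • p ε k = fun i => x i - ε * (y i - x i) := by
      funext i
      have e1 : ∀ k, p ε k i = x i - if k = i then ε * (K * (y i - x i)) else 0 := fun k => by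
        by_cases e : k = i
        · subst e; simp [hp]
        · simp [hp, Function.update_of_ne (Ne.symm e), e]
      simp only [Finset.sum_apply, Pi.smul_apply, smul_eq_mul, e1, mul_sub, Finset.sum_sub_distrib,
        ← Finset.sum_mul, w1, mul_ite, mul_zero, Finset.sum_ite_eq', Finset.mem_range]
      split_ifs with h
      · field_simp
      · rw [he i (not_lt.1 h)]; ring
    rw [e] at j mm
    have h3 : 0 < 1 + ε := by linarith
    have c := hG.2 hy mm (show 0 ≤ ε / (1 + ε) by positivity) (show 0 ≤ 1 / (1 + ε) by positivity)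
      (by field_simp; ring)
    have e2 : ((ε / (1 + ε)) • y + (1 / (1 + ε)) • fun i => x i - ε * (y i - x i)) = x := by
      funext i
      simp only [Pi.add_apply, Pi.smul_apply, smul_eq_mul]
      field_simp
      ring
    rw [e2] at c
    simp only [smul_eq_mul] at c j ⊢
    rw [zero_add, f0, ← div_eq_inv_mul, le_div_iff₀ h2]
    have c2 : G x * (1 + ε) ≤ ε * G y + G fun i => x i - ε * (y i - x i) := by
      rw [← le_div_iff₀ h3]
      refine c.trans (le_of_eq ?_)
      field_simp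
    have : f ε = ∑ k ∈ Finset.range K, (K : ℝ)⁻¹ * G (p ε k) := rfl
    linarith
  have := ge_of_tendsto df.tendsto_slope_zero_right key
  linarith

variable {Ω : Type} [Fintype Ω] {w : Ω → ℝ}

/-- **swap** (Minkowski): the sorted order gives the larger value -/
theorem swap_step {F : (Ω → ℝ) → ℝ} (hF : Lg F) {l k : Lv Ω} (h0 : 0 < k.m) (hm : k.m ≤ l.m)
    (h : Ω → ℝ) : step l (step k F) h ≤ step k (step l F) h := by
  set S := step k F with hS
  have hs : Lg S := hF.step k
  have hT : Lg (step l F) := hF.step l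
  have e0 : ∀ (G : (Ω → ℝ) → ℝ), Lg G → ∀ z, ∫ g, exp (k.m * G (z + k.fld g)) ∂gv k.ι =
      exp (k.m * step k G z) := fun G hG z => by
    rw [C.step_ne h0.ne', ← mul_assoc, mul_inv_cancel₀ h0.ne', one_mul, exp_log (hG.Z_pos k z)]
  set f : (l.ι ⊕ k.ι → ℝ) → ℝ := fun G => exp ((l.m - k.m) * S (h + l.fld fun i => G (.inl i)) +
    k.m * F (h + l.fld (fun i => G (.inl i)) + k.fld fun i => G (.inr i))) with hf
  have a1 : ∀ y, Lg fun G : l.ι ⊕ k.ι → ℝ => (h + l.fld fun i => G (.inl i)) y :=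
    Tr.lg_fld l (H := fun _ => h) (fun _ => Tr.lg_const _) fun i => Tr.lg_coord _
  have hi : Integrable f (gv (l.ι ⊕ k.ι)) := Tr.eg_int (by
    simpa using (Tr.lg_add (Tr.lg_cmul (l.m - k.m) (Tr.lg_comp hs a1)) (Tr.lg_cmul k.m
      (Tr.lg_comp hF (Tr.lg_fld k a1 fun i => Tr.lg_coord (.inr i))))).exp 1)
  have hZ := hs.Z_pos l h
  set Z := ∫ g, exp (l.m * S (h + l.fld g)) ∂gv l.ι with hZ'
  have i1 : ∫ G, f G ∂gv (l.ι ⊕ k.ι) = Z := by
    rw [Tr.int_sum hi]
    refine integral_congr_ae (.of_forall fun g => ?_)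
    simp only [hf, Sum.elim_inl, Sum.elim_inr, exp_add]
    rw [integral_const_mul, e0 F hF, ← exp_add]
    congr 1
    ring
  have i2 : ∀ g', ∫ g, f (Sum.elim g g') ∂gv l.ι ≤
      Z * exp (-(k.m * step l S h)) * exp (k.m * step l F (h + k.fld g')) := fun g' => by
    have b := Hess87.boost_step hs (hF.shift (k.fld g')) l h h0 hm
    have e1 : step l (fun z => F (z + k.fld g')) h = step l F (h + k.fld g') := by
      simp only [step, add_right_comm h]
    rw [e1, tE, div_le_iff₀ hZ] at b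
    rw [mul_assoc, ← exp_add, mul_comm, show -(k.m * step l S h) + k.m * step l F (h + k.fld g') =
      k.m * (step l F (h + k.fld g') - step l S h) by ring]
    refine le_trans (le_of_eq (integral_congr_ae (.of_forall fun g => ?_))) b
    simp only [hf, Sum.elim_inl, Sum.elim_inr, ← exp_add]
    congr 1
    ring
  have i3 := Gf.int_sum' hi
  rw [i1] at i3
  have i4 : Z ≤ Z * exp (-(k.m * step l S h)) * exp (k.m * step k (step l F) h) := by
    rw [← e0 _ hT, ← integral_const_mul]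
    refine i3.le.trans (integral_mono_of_nonneg (.of_forall fun g' => integral_nonneg fun g =>
      (exp_pos _).le) (((hT.exp k.m).int k h).const_mul _) (.of_forall i2))
  rw [mul_assoc, ← exp_add, le_mul_iff_one_le_right hZ, one_le_exp_iff] at i4
  exact le_of_mul_le_mul_left (by linarith) h0

theorem swap (hw : Wt w) {l k : Lv Ω} (h0 : 0 < k.m) (hm : k.m ≤ l.m) (L : List (Lv Ω))
    (h : Ω → ℝ) : X w (l :: k :: L) h ≤ X w (k :: l :: L) h := swap_step (lg_X hw L) h0 hm h

theorem pre_le (hw : Wt w) {A B : List (Lv Ω)} (H : ∀ h, X w A h ≤ X w B h) (M : List (Lv Ω))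
    (h : Ω → ℝ) : X w (M ++ A) h ≤ X w (M ++ B) h := by
  simpa using C.X_append_le hw hw (c := 0) (by simpa using H) M h

theorem X_same (hw : Wt w) {l l' : Lv Ω} (h1 : l.m = l'.m) (h2 : ∀ x y, l.cov x y = l'.cov x y)
    {A B : List (Lv Ω)} (H : X w A = X w B) : X w (l :: A) = X w (l' :: B) := by
  rw [C.X_cons, C.X_cons, H]
  exact C.Same.step ⟨h1, funext fun x => funext (h2 x)⟩ (C.lp_X hw B)

theorem pi2_pre {A B : List (Lv Ω)} (H : X w A = X w B) {i j : ℕ} {κ : Ω → Ω → ℝ}
    (H2 : pi2 w A i κ = pi2 w B j κ) :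
    ∀ M : List (Lv Ω), pi2 w (M ++ A) (M.length + i) κ = pi2 w (M ++ B) (M.length + j) κ
  | [] => by simpa using H2
  | l :: M => by
    funext z
    rw [List.cons_append, List.cons_append, List.length_cons, add_right_comm _ 1 i,
      add_right_comm _ 1 j, pi2_cons, pi2_cons, pi2_pre H H2 M, C.X_append_congr w H M]

/-- `n` levels of a grid from `s` on -/
def gr (b : ℕ → Lv Ω) : ℕ → ℕ → List (Lv Ω)
  | _, 0 => []
  | s, n + 1 => b s :: gr b (s + 1) n


theorem gr_add (b : ℕ → Lv Ω) : ∀ s n r, gr b s (n + r) = gr b s n ++ gr b (s + n) r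
  | _, 0, r => by simp [gr]
  | s, n + 1, r => by
    rw [add_right_comm, gr, gr, gr_add b (s + 1) n r, List.cons_append, add_assoc, add_comm 1 n]




theorem gr_ofFn (b : ℕ → Lv Ω) : ∀ n s, gr b s n = List.ofFn fun k : Fin n => b (s + k)
  | 0, _ => by simp [gr]
  | n + 1, s => by
    rw [gr, List.ofFn_succ, gr_ofFn b n (s + 1)]
    simp [add_assoc, add_comm 1]

theorem gr_same (hw : Wt w) {b b' : ℕ → Lv Ω} {A B : List (Lv Ω)} (H : X w A = X w B) :
    ∀ n s, (∀ i, s ≤ i → i < s + n → (b i).m = (b' i).m ∧ ∀ x y, (b i).cov x y = (b' i).cov x y) →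
      X w (gr b s n ++ A) = X w (gr b' s n ++ B)
  | 0, _, _ => H
  | n + 1, s, h => X_same hw (h s le_rfl (by omega)).1 (h s le_rfl (by omega)).2
      (gr_same hw H n (s + 1) fun i a c => h i (by omega) (by omega))

section start
variable (hw : Wt w) {a e L : ℕ → Lv Ω} {z : ℕ → ℝ} (B : List (Lv Ω))
include hw


end start

end SrA63

end Crest.Agent.T156.Cas

end
private theorem rz_ea30ac498d : type_of% @_root_.Crest.Agent.T156.Cas.SrA63.gr.eq_def := @_root_.Crest.Agent.T156.Cas.SrA63.gr.eq_def -- L173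
private theorem rz_70fbd384eb : type_of% @_root_.Crest.Agent.T156.Cas.SrA63.gr.eq_1 := @_root_.Crest.Agent.T156.Cas.SrA63.gr.eq_1 -- L173
end

-- ▼ part T156/SrM_63

/-!
# Row 156, SR: SORT and MV in transport form (helper63)
-/

set_option autoImplicit false
set_option linter.unusedSectionVars false

noncomputable section

namespace Crest.Agent.T156.Cas

open MeasureTheory Real Set Filter Topology Finset
open Crest.Agent.T157.E Crest.Agent.T157.Casc Crest.Agent.T157.SL
open Var6 Kkt28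

namespace SrA63

variable {Ω : Type} [Fintype Ω] {w : Ω → ℝ}

theorem A_zero {l : Lv Ω} (h : ∀ x y, l.cov x y = 0) (x : Ω) (i : l.ι) : l.A x i = 0 :=
  mul_self_eq_zero.1 ((sum_eq_zero_iff_of_nonneg fun j _ => mul_self_nonneg (l.A x j)).1 (h x x) i
    (mem_univ i))

theorem exists_lv (e : ℕ → Lv Ω) (P : ℕ → Prop) [DecidablePred P] (m : ℝ) : ∀ n : ℕ,
    ∃ l : Lv Ω, l.m = m ∧ ∀ x y, l.cov x y = ∑ i ∈ range n, if P i then (e i).cov x y else 0
  | 0 => ⟨⟨Empty, fun _ => Empty.elim, m⟩, rfl, fun x y => by simp [Lv.cov]⟩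
  | n + 1 => by
    obtain ⟨l, h1, h2⟩ := exists_lv e P m n
    by_cases h : P n
    · exact ⟨C.addLv l (e n), h1, fun x y => by rw [C.addLv_cov, sum_range_succ, h2, if_pos h]⟩
    · exact ⟨l, h1, fun x y => by rw [sum_range_succ, h2, if_neg h, add_zero]⟩

theorem gr_len (b : ℕ → Lv Ω) : ∀ n s, (gr b s n).length = n
  | 0, _ => rfl
  | n + 1, s => by simp only [gr, List.length_cons, gr_len b n (s + 1)]

theorem P_node (B : List (Lv Ω)) (x : Ω) : ∀ (A : List (Lv Ω)) (h : Ω → ℝ),
    P w (A ++ B) h x = node w (A ++ B) A.length (fun z => P w B z x) h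
  | [], h => by simp
  | l :: A, h => by
    rw [List.cons_append, List.length_cons, node_cons, ← funext (P_node B x A)]
    rfl

theorem pi2_node (B : List (Lv Ω)) (i : ℕ) (κ : Ω → Ω → ℝ) : ∀ A : List (Lv Ω),
    pi2 w (A ++ B) (A.length + i) κ = node w (A ++ B) A.length (pi2 w B i κ)
  | [] => by simp
  | l :: A => by
    funext h
    rw [List.cons_append, List.length_cons, add_right_comm, pi2_cons, node_cons, pi2_node B i κ A]

/-- levels with one tilt merge -/
theorem merge (hw : Wt w) {b : ℕ → Lv Ω} (A : List (Lv Ω)) : ∀ (r s : ℕ) (l : Lv Ω),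
    (∀ j < r, (b (s + j)).m = l.m) → (∀ x y, l.cov x y = ∑ j ∈ range r, (b (s + j)).cov x y) →
    X w (gr b s r ++ A) = X w (l :: A) ∧
      ∀ Φ, Eg Φ → node w (gr b s r ++ A) r Φ = tE l (X w A) Φ
  | 0, s, l, _, h2 => by
    have z := A_zero (l := l) (by simpa using h2)
    exact ⟨by rw [C.X_cons, C.step_of_zero z]; rfl, fun Φ _ => by rw [C.tE_of_zero z, node_zero]⟩
  | r + 1, s, l, h1, h2 => by
    obtain ⟨l', m', c'⟩ := exists_lv (fun j => b (s + 1 + j)) (fun _ => True) l.m r
    simp only [if_true] at c'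
    obtain ⟨i1, i2⟩ := merge hw A r (s + 1) l'
      (fun j hj => by rw [m', ← h1 (j + 1) (by omega)]; congr 2; omega) c'
    have m1 : l.m = (b s).m := (h1 0 (by omega)).symm
    have m2 : (b s).m = l'.m := by rw [m', m1]
    have hc : ∀ x y, l.cov x y = (b s).cov x y + l'.cov x y := fun x y => by
      rw [h2, c', sum_range_succ', add_comm]
      congr 1
      exact sum_congr rfl fun j _ => by congr 2; omega
    refine ⟨?_, fun Φ hΦ => ?_⟩
    · rw [C.X_split hw m1 m2 hc, gr, List.cons_append, C.X_cons, i1]; rfl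
    · rw [gr, List.cons_append, node_cons, i1, i2 Φ hΦ, tE_split hw m1 m2 hc A hΦ]

/-- blocks of `r` slices -/
theorem blocks (hw : Wt w) {b L : ℕ → Lv Ω} (B : List (Lv Ω)) (r : ℕ) (κ : Ω → Ω → ℝ) :
    ∀ n s, (∀ k, s ≤ k → k < s + n → (∀ j < r, (b (k * r + j)).m = (L k).m) ∧
      ∀ x y, (L k).cov x y = ∑ j ∈ range r, (b (k * r + j)).cov x y) →
    X w (gr b (s * r) (n * r) ++ B) = X w (gr L s n ++ B) ∧
      P w (gr b (s * r) (n * r) ++ B) = P w (gr L s n ++ B) ∧
      ∀ j ≤ n, pi2 w (gr b (s * r) (n * r) ++ B) (j * r) κ = pi2 w (gr L s n ++ B) j κ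
  | 0, s, _ => by
    rw [zero_mul]
    exact ⟨rfl, rfl, fun j hj => by obtain rfl : j = 0 := by omega
                                    rw [zero_mul]; rfl⟩
  | n + 1, s, H => by
    obtain ⟨i1, i2, i3⟩ := blocks hw B r κ n (s + 1) fun k a c => H k (by omega) (by omega)
    obtain ⟨h1, h2⟩ := H s le_rfl (by omega)
    have e : gr b (s * r) ((n + 1) * r) ++ B = gr b (s * r) r ++ (gr b ((s + 1) * r) (n * r) ++ B) := by
      rw [show (n + 1) * r = r + n * r by ring, gr_add, List.append_assoc,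
        show s * r + r = (s + 1) * r by ring]
    obtain ⟨a1, a2⟩ := merge hw (gr b ((s + 1) * r) (n * r) ++ B) r (s * r) (L s) h1 h2
    have hP : P w (gr b (s * r) ((n + 1) * r) ++ B) = P w (gr L s (n + 1) ++ B) := by
      funext h x
      rw [e, P_node, gr_len, a2 _ (eg_P hw _ x), i1, i2]
      rfl
    refine ⟨by rw [e, a1, C.X_cons, i1]; rfl, hP, fun j hj => ?_⟩
    cases j with
    | zero => funext h; rw [zero_mul, pi2_zero, pi2_zero, hP]
    | succ j =>
      have := pi2_node (w := w) (gr b ((s + 1) * r) (n * r) ++ B) (j * r) κ (gr b (s * r) r)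
      rw [gr_len] at this
      rw [e, show (j + 1) * r = r + j * r by ring, this, a2 _ (eg_pi2 hw _ _ _), i1, i3 j (by omega)]
      rfl

/-- insertion of a level into a grid -/
theorem ins (hw : Wt w) {b b' : ℕ → Lv Ω} {e : Lv Ω} {τ : ℕ} (B : List (Lv Ω))
    (h1 : ∀ j < τ, 0 < (b' j).m ∧ (b' j).m ≤ e.m) (h2 : (b' τ).m = e.m)
    (h3 : ∀ j, (b j).m = (b' j).m)
    (h4 : ∀ j x y, (b j).cov x y = (if j = τ then e.cov x y else 0) + (b' j).cov x y) :
    ∀ n s, s ≤ τ → τ < s + n → ∀ h, X w (e :: (gr b' s n ++ B)) h ≤ X w (gr b s n ++ B) h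
  | 0, s, a, c, _ => by omega
  | n + 1, s, a, c, h => by
    rw [gr, gr, List.cons_append, List.cons_append]
    rcases a.eq_or_lt with rfl | a
    · rw [← C.X_split hw (l := b s) ((h3 s).trans h2) h2.symm fun x y => by rw [h4, if_pos rfl]]
      refine le_of_eq (congrFun (X_same hw rfl (fun _ _ => rfl) (gr_same hw rfl n (s + 1)
        fun i i1 _ => ⟨(h3 i).symm, fun x y => ?_⟩)) h)
      rw [h4, if_neg (by omega), zero_add]
    · refine (swap hw (h1 s a).1 (h1 s a).2 _ h).trans ((pre_le hw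
        (ins hw B h1 h2 h3 h4 n (s + 1) a (by omega)) [b' s] h).trans (le_of_eq ?_))
      exact congrFun (X_same hw (h3 s).symm (fun x y => by rw [h4, if_neg (by omega), zero_add])
        rfl) h

/-- **SORT**: any levels in any order -/
theorem sort (hw : Wt w) {z : ℕ → ℝ} (z0 : ∀ k, 0 < z k) (zm : Monotone z) {K : ℕ} {e : ℕ → Lv Ω}
    {t : ℕ → ℕ} (B : List (Lv Ω)) : ∀ (n s : ℕ) (b : ℕ → Lv Ω),
    (∀ i < n, t (s + i) < K ∧ (e (s + i)).m = z (t (s + i))) → (∀ j < K, (b j).m = z j ∧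
      ∀ x y, (b j).cov x y = ∑ i ∈ range n, if t (s + i) = j then (e (s + i)).cov x y else 0) →
    ∀ h, X w (gr e s n ++ B) h ≤ X w (gr b 0 K ++ B) h
  | 0, s, b, _, H, h => by
    refine le_of_eq (congrFun (C.X_of_zero w (fun l hl => ?_) B).symm h)
    rw [gr_ofFn, List.mem_ofFn] at hl
    obtain ⟨j, rfl⟩ := hl
    exact A_zero (by simpa using (H j j.2).2)
  | n + 1, s, b, H0, H, h => by
    choose b' m' c' using fun j => exists_lv (fun i => e (s + 1 + i)) (fun i => t (s + 1 + i) = j)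
      (z j) n
    choose b2 m2 c2 using fun j => exists_lv (fun i => e (s + i)) (fun i => t (s + i) = j)
      (z j) (n + 1)
    have ih := sort hw z0 zm B n (s + 1) b' (fun i hi => by
      rw [show s + 1 + i = s + (i + 1) by ring]; exact H0 _ (by omega)) fun j _ => ⟨m' j, c' j⟩
    obtain ⟨a1, a2⟩ := H0 0 (by omega)
    rw [add_zero] at a1 a2
    have a3 := ins hw (b := b2) (b' := b') (e := e s) (τ := t s) B
      (fun j hj => by rw [m', a2]; exact ⟨z0 j, zm hj.le⟩) (by rw [m', a2])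
      (fun j => by rw [m', m2]) (fun j x y => by
        rw [c2, c', sum_range_succ', add_comm, add_zero]
        congr 1
        · simp only [eq_comm]
        · exact sum_congr rfl fun i _ => by rw [show s + 1 + i = s + (i + 1) by ring])
      K 0 (Nat.zero_le _) (by omega) h
    refine ((pre_le hw ih [e s] h).trans a3).trans (le_of_eq (congrFun (gr_same hw rfl K 0
      fun i _ i2 => ?_) h))
    rw [zero_add] at i2
    exact ⟨(m2 i).trans (H i i2).1.symm, fun x y => (c2 i x y).trans ((H i i2).2 x y).symm⟩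

theorem LL_gr (M B : List (Lv Ω)) (e : ℕ → Lv Ω) (y : ℕ → ℝ) (n : ℕ) :
    LL M B (fun k : Fin n => e k) (fun k => y k) = M ++ (gr (fun i => tm (e i) (y i)) 0 n ++ B) := by
  simp [LL, blk, gr_ofFn]

/-- tangent inequality in the tilts -/
theorem tan_gr (hw : Wt w) {M B : List (Lv Ω)} (hM : ∀ l ∈ M, 0 ≤ l.m) (hB : ∀ l ∈ B, 0 ≤ l.m)
    (e : ℕ → Lv Ω) {x y : ℕ → ℝ} (n : ℕ) (hx : ∀ k, 0 < x k) (hy : ∀ k, 0 ≤ y k)
    (he : ∀ k, n ≤ k → y k = x k) (h : Ω → ℝ) :
    X w (LL M B (fun k : Fin n => e k) fun k => x k) h + ∑ k ∈ range n,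
      rb w M B (fun k : Fin n => e k) h (e k).cov (fun k => x k) k / 2 * (y k - x k) ≤
      X w (LL M B (fun k : Fin n => e k) fun k => y k) h := by
  refine tangent (G := fun y => X w (LL M B (fun k : Fin n => e k) fun k => y k) h)
    ⟨fun x hx y hy a b ha hb _ k => ?_, fun x hx y hy a b ha hb hab => ?_⟩ hx hy he fun k hk => ?_
  · have := hx k; have := hy k
    simp only [Pi.add_apply, Pi.smul_apply, smul_eq_mul]; positivity
  · have h1 := conv_LL hw hM hB (fun k : Fin n => e k) (x := fun k => x k) (y := fun k => y k)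
      (fun k => hx k) (fun k => hy k) ha hb hab h h
    rwa [← add_smul, hab, one_smul] at h1
  · have := deriv_X hw M B (fun k : Fin n => e k) h (fun k => x k) ⟨k, hk⟩
    refine this.congr_of_eventuallyEq (.of_forall fun s => ?_)
    dsimp only
    congr 2
    funext i
    by_cases a : i = ⟨k, hk⟩
    · subst a; simp
    · rw [Function.update_of_ne a, Function.update_of_ne fun c => a (Fin.ext c)]

theorem sum_mul (f : ℕ → ℝ) (r : ℕ) : ∀ K, ∑ i ∈ range (K * r), f i =
    ∑ k ∈ range K, ∑ j ∈ range r, f (k * r + j)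
  | 0 => by simp
  | K + 1 => by rw [add_mul, one_mul, sum_range_add, sum_mul f r K, sum_range_succ]

theorem dv {r j : ℕ} (k : ℕ) (hj : j < r) : (k * r + j) / r = k := by
  rw [mul_comm, Nat.mul_add_div (by omega), Nat.div_eq_of_lt hj, add_zero]

theorem md {r j : ℕ} (k : ℕ) (hj : j < r) : (k * r + j) % r = j := by
  rw [mul_comm, Nat.mul_add_mod, Nat.mod_eq_of_lt hj]

/-- **MV, transport form**: `W k j` is moved from the level `k` to the level `j` -/
theorem mv (hw : Wt w) {M B : List (Lv Ω)} (hM : ∀ l ∈ M, 0 ≤ l.m) (hB : ∀ l ∈ B, 0 ≤ l.m)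
    {z : ℕ → ℝ} (z0 : ∀ k, 0 < z k) (zm : Monotone z) {K : ℕ} {a L L' : ℕ → Lv Ω} (κ : Lv Ω)
    {W : ℕ → ℕ → ℝ} (W0 : ∀ k j, 0 ≤ W k j)
    (hL : ∀ k < K, (L k).m = z k ∧
      ∀ x y, (L k).cov x y = (∑ j ∈ range K, W k j) * κ.cov x y + (a k).cov x y)
    (hL' : ∀ j < K, (L' j).m = z j ∧
      ∀ x y, (L' j).cov x y = (∑ k ∈ range K, W k j) * κ.cov x y + (a j).cov x y) (h : Ω → ℝ) :
    X w (M ++ (gr L 0 K ++ B)) h + ∑ k ∈ range K, ∑ j ∈ range K, W k j / 2 * (z j - z k) *
      pi2 w (M ++ (gr L 0 K ++ B)) (M.length + if k ≤ j then k else k + 1) κ.cov h ≤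
      X w (M ++ (gr L' 0 K ++ B)) h := by
  set r := K + 1 with hr
  set e : ℕ → Lv Ω := fun i => if i % r = K then a (i / r) else lv κ (W (i / r) (i % r)) 0 with he
  set t : ℕ → ℕ := fun i => if i % r = K then i / r else i % r with ht
  set x : ℕ → ℝ := fun i => z (i / r) with hx
  set y : ℕ → ℝ := fun i => if i < K * r then z (t i) else x i with hy
  have e1 : ∀ k, ∀ j < K, e (k * r + j) = lv κ (W k j) 0 ∧ t (k * r + j) = j := fun k j hj => by
    simp only [he, ht, dv k (show j < r by omega), md k (show j < r by omega), if_neg hj.ne, and_self]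
  have e2 : ∀ k, e (k * r + K) = a k ∧ t (k * r + K) = k := fun k => by
    simp only [he, ht, dv k (show K < r by omega), md k (show K < r by omega), if_true, and_self]
  have lt : ∀ k < K, ∀ j < r, k * r + j < K * r := fun k hk j hj =>
    calc k * r + j < k * r + r := by omega
      _ = (k + 1) * r := by ring
      _ ≤ K * r := Nat.mul_le_mul_right r hk
  have T := tan_gr hw hM hB e (x := x) (y := y) (K * r) (fun k => z0 _)
    (fun k => by simp only [hy]; split_ifs <;> exact (z0 _).le)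
    (fun k hk => if_neg (not_lt.2 hk)) h
  obtain ⟨b1, -, b3⟩ := blocks hw (b := fun i => tm (e i) (x i)) (L := L) B r κ.cov K 0
    fun k _ hk => ⟨fun j hj => by
      rw [(hL k (by omega)).1]; simp only [hx, dv k hj], fun x' y' => by
      rw [(hL k (by omega)).2, sum_range_succ, Finset.sum_mul]
      congr 1
      · refine sum_congr rfl fun j hj => ?_
        show _ = (e (k * r + j)).cov x' y'
        rw [(e1 k j (mem_range.1 hj)).1, lv_cov κ (W0 _ _)]
      · show _ = (e (k * r + K)).cov x' y'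
        rw [(e2 k).1]⟩
  rw [zero_mul] at b1 b3
  have S := sort hw z0 zm (K := K) (e := fun i => tm (e i) (y i)) (t := t) B (K * r) 0 L'
    (fun i hi => by
      rw [zero_add]
      refine ⟨?_, if_pos hi⟩
      simp only [ht]
      split_ifs with c
      · exact Nat.div_lt_of_lt_mul (by rwa [mul_comm])
      · have := Nat.mod_lt i (show 0 < r by omega); omega)
    fun j hj => ⟨(hL' j hj).1, fun x' y' => by
      simp only [zero_add]
      rw [(hL' j hj).2, sum_mul, Finset.sum_mul]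
      have : ∀ k ∈ range K, (∑ i ∈ range r, if t (k * r + i) = j then
          (tm (e (k * r + i)) (y (k * r + i))).cov x' y' else 0) =
          W k j * κ.cov x' y' + if k = j then (a k).cov x' y' else 0 := fun k _ => by
        rw [sum_range_succ]
        congr 1
        · rw [sum_congr rfl (g := fun i => if i = j then W k i * κ.cov x' y' else 0) fun i hi => by
            show (if _ then (e (k * r + i)).cov x' y' else 0) = _
            rw [(e1 k i (mem_range.1 hi)).1, (e1 k i (mem_range.1 hi)).2, lv_cov κ (W0 _ _)]]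
          rw [sum_ite_eq', if_pos (mem_range.2 hj)]
        · show (if _ then (e (k * r + K)).cov x' y' else 0) = _
          rw [(e2 k).1, (e2 k).2]
      rw [sum_congr rfl this, sum_add_distrib, sum_ite_eq', if_pos (mem_range.2 hj)]⟩
  have p : ∀ k ≤ K, pi2 w (M ++ (gr L 0 K ++ B)) (M.length + k) κ.cov h =
      rr w M B (fun k : Fin (K * r) => e k) h κ.cov (fun k => x k) (k * r) := fun k hk => by
    rw [rr, LL_gr, pi2_pre b1 (b3 k hk) M]
  have pm : Monotone (rr w M B (fun k : Fin (K * r) => e k) h κ.cov fun k => x k) :=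
    fun i j hij => Kkt28.pi2_mono hw κ _ h (Nat.add_le_add_left hij _)
  rw [LL_gr, LL_gr, C.X_append_congr w b1, sum_mul] at T
  refine le_trans (add_le_add le_rfl (sum_le_sum fun k hk => ?_)) (T.trans (pre_le hw S M h))
  have hk := mem_range.1 hk
  rw [sum_range_succ]
  have y2 : y (k * r + K) - x (k * r + K) = 0 := by
    simp only [hy, hx, if_pos (lt k hk K (by omega)), (e2 k).2, dv k (show K < r by omega), sub_self]
  rw [y2, mul_zero, add_zero]
  refine sum_le_sum fun j hj => ?_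
  have hj := mem_range.1 hj
  have y1 : y (k * r + j) - x (k * r + j) = z j - z k := by
    simp only [hy, hx, if_pos (lt k hk j (by omega)), (e1 k j hj).2, dv k (show j < r by omega)]
  have c : (e (k * r + j)).cov = fun a b => W k j * κ.cov a b := by
    funext a b; rw [(e1 k j hj).1, lv_cov κ (W0 _ _)]
  obtain ⟨q1, q2⟩ := rr_le_rb hw M B (fun k : Fin (K * r) => e k) h κ (fun k => x k)
    (lt k hk j (by omega))
  rw [y1, c, rb_smul]
  have w0 := W0 k j
  split_ifs with d
  · rw [p k hk.le]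
    have := mul_le_mul_of_nonneg_left ((pm (Nat.le_add_right (k * r) j)).trans q1)
      (mul_nonneg w0 (sub_nonneg.2 (zm d)))
    linarith
  · rw [p (k + 1) hk]
    have := mul_le_mul_of_nonneg_left (q2.trans (pm (show k * r + j + 1 ≤ (k + 1) * r by
      rw [add_mul, one_mul]; omega))) (mul_nonneg w0 (sub_nonneg.2 (zm (not_le.1 d).le)))
    linarith

end SrA63

end Crest.Agent.T156.Cas

namespace Crest.Agent.T156.Alt.Mv63

open Finset Crest.Agent.T157.E Crest.Agent.T157.Casc Crest.Agent.T157.SL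
open Crest.Agent.T157.G1 (ov fl)
open Crest.Agent.T156.Cas Crest.Agent.T156.Cas.SrA63

variable {M M' : Md} {m : ℕ} {a x : ℝ}

theorem L_gr (M : Md) (m : ℕ) (a : ℝ) : M.L m a = [M.root m a] ++
    (gr (fun k => mxL m 1 (M.z k, M.d (k + 1) - M.d k, M.H (k + 1) - M.H k)) 0 M.N ++ []) := by
  simp [Md.L, Md.Mx, Md.Mu, Md.root, gr_ofFn, List.map_ofFn, Function.comp_def]

/-- same grid and same W variances -/
structure Sm (M M' : Md) : Prop where
  N : M'.N = M.N
  z : M'.z = M.z
  d : M'.d = M.d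

theorem Sm.symm (h : Sm M M') : Sm M' M := ⟨h.N.symm, h.z.symm, h.d.symm⟩

/-- **MV, lower half**, transport form; `A k ≥ 0` stays at the level `k` -/
theorem mv_lo (hm : 0 < m) (h : M.Leg x) (hx : 0 < x) (ha : 0 ≤ a) (S : Sm M M')
    {W : ℕ → ℕ → ℝ} {A : ℕ → ℝ} (W0 : ∀ k j, 0 ≤ W k j) (A0 : ∀ k < M.N, 0 ≤ A k)
    (e : ∀ k < M.N, M.H (k + 1) - M.H k = ∑ j ∈ range M.N, W k j + A k)
    (e' : ∀ j < M.N, M'.H (j + 1) - M'.H j = ∑ k ∈ range M.N, W k j + A j) :
    M.V m a + m / 2 * ∑ k ∈ range M.N, ∑ j ∈ range M.N,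
      W k j * (M.z j - M.z k) * M.rb m a (if k ≤ j then k else k + 1) ≤ M'.V m a := by
  have d0 : ∀ k, 0 ≤ M.d (k + 1) - M.d k := fun k => sub_nonneg.2 (h.dm (Nat.le_succ k))
  have kc : (fl m 1 (0, 1)).cov = fun x y => m * ov x y := by
    funext x y; rw [Link33.cov_fl m 1 _ x y hm zero_le_one]; ring
  have cv : ∀ (k : ℕ) (s : ℝ), k < M.N → 0 ≤ s → ∀ x y,
      (mxL m 1 (M.z k, M.d (k + 1) - M.d k, s + A k)).cov x y = s * (fl m 1 (0, 1)).cov x y +
        (mxL m 1 (M.z k, M.d (k + 1) - M.d k, A k)).cov x y := fun k s hk hs x y => by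
    rw [mxL_cov hm 1 (d0 k) (add_nonneg hs (A0 k hk)), mxL_cov hm 1 (d0 k) (A0 k hk), kc]
    ring
  have := mv (Link33.wt1 (n := m)) (M := [M.root m a]) (B := [])
    (fun l hl => by rw [List.mem_singleton.1 hl]; exact ha) (by simp)
    (z := M.z) (fun k => hx.trans_le (h.z0.trans (h.zm (Nat.zero_le k)))) h.zm (K := M.N)
    (a := fun k => mxL m 1 (M.z k, M.d (k + 1) - M.d k, A k))
    (L := fun k => mxL m 1 (M.z k, M.d (k + 1) - M.d k, M.H (k + 1) - M.H k))
    (L' := fun k => mxL m 1 (M.z k, M.d (k + 1) - M.d k, M'.H (k + 1) - M'.H k)) (fl m 1 (0, 1)) W0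
    (fun k hk => ⟨rfl, fun x y => by
      rw [e k hk]; exact cv k _ hk (sum_nonneg fun j _ => W0 k j) x y⟩)
    (fun k hk => ⟨rfl, fun x y => by
      rw [e' k hk]; exact cv k _ hk (sum_nonneg fun j _ => W0 j k) x y⟩) 0
  have r : M'.root m a = M.root m a := by rw [Md.root, S.d]; rfl
  rw [Md.V, Md.V, L_gr M', r, S.N, S.z, S.d]
  rw [← L_gr M] at this
  refine le_trans (add_le_add le_rfl (le_of_eq ?_)) this
  rw [mul_sum]
  refine sum_congr rfl fun k _ => ?_
  rw [mul_sum]
  refine sum_congr rfl fun j _ => ?_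
  rw [kc, pi2_const_mul, List.length_singleton, add_comm 1]
  show _ = _ * (m * M.rb m a _)
  ring

/-- **MV, upper half** -/
theorem mv_hi (hm : 0 < m) (h' : M'.Leg x) (hx : 0 < x) (ha : 0 ≤ a) (S : Sm M M')
    {W : ℕ → ℕ → ℝ} {A : ℕ → ℝ} (W0 : ∀ k j, 0 ≤ W k j) (A0 : ∀ k < M.N, 0 ≤ A k)
    (e : ∀ k < M.N, M.H (k + 1) - M.H k = ∑ j ∈ range M.N, W k j + A k)
    (e' : ∀ j < M.N, M'.H (j + 1) - M'.H j = ∑ k ∈ range M.N, W k j + A j) :
    M'.V m a ≤ M.V m a + m / 2 * ∑ k ∈ range M.N, ∑ j ∈ range M.N,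
      W k j * (M.z j - M.z k) * M'.rb m a (if j ≤ k then j else j + 1) := by
  have := mv_lo hm h' hx ha S.symm (W := fun j k => W k j) (A := A) (fun k j => W0 j k)
    (by rw [S.N]; exact A0) (by rw [S.N]; exact e') (by rw [S.N]; exact e)
  rw [S.N, S.z, sum_comm] at this
  have e2 : ∑ k ∈ range M.N, ∑ j ∈ range M.N,
      W k j * (M.z k - M.z j) * M'.rb m a (if j ≤ k then j else j + 1) =
      -∑ k ∈ range M.N, ∑ j ∈ range M.N,
      W k j * (M.z j - M.z k) * M'.rb m a (if j ≤ k then j else j + 1) := by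
    simp only [← sum_neg_distrib]
    exact sum_congr rfl fun k _ => sum_congr rfl fun j _ => by ring
  rw [e2] at this
  linarith

/-- **MV for a map**: the slice `w k ≤ dH k`, `k ∈ A`, goes to the level `ξ k` (any map) -/
theorem mv_map (hm : 0 < m) (h : M.Leg x) (h' : M'.Leg x) (hx : 0 < x) (ha : 0 ≤ a) (S : Sm M M')
    {w : ℕ → ℝ} {A : Finset ℕ} {ξ : ℕ → ℕ} (hA : ∀ k ∈ A, k < M.N ∧ ξ k < M.N ∧ 0 ≤ w k ∧
      w k ≤ M.H (k + 1) - M.H k)
    (e : ∀ j < M.N, M'.H (j + 1) - M'.H j = M.H (j + 1) - M.H j +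
      (∑ k ∈ A with ξ k = j, w k - if j ∈ A then w j else 0)) :
    m / 2 * ∑ k ∈ A, w k * (M.z (ξ k) - M.z k) * M.rb m a (if k ≤ ξ k then k else k + 1) ≤
      M'.V m a - M.V m a ∧ M'.V m a - M.V m a ≤
      m / 2 * ∑ k ∈ A, w k * (M.z (ξ k) - M.z k) * M'.rb m a (if ξ k ≤ k then ξ k else ξ k + 1) := by
  set W : ℕ → ℕ → ℝ := fun k j => if k ∈ A ∧ ξ k = j then w k else 0 with hW
  have W0 : ∀ k j, 0 ≤ W k j := fun k j => by
    simp only [hW]; split_ifs with c
    · exact (hA k c.1).2.2.1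
    · exact le_rfl
  have row : ∀ (k : ℕ) (f : ℕ → ℝ), ∑ j ∈ range M.N, W k j * f j =
      if k ∈ A then w k * f (ξ k) else 0 := fun k f => by
    by_cases c : k ∈ A
    · simp only [hW, c, true_and, ite_mul, zero_mul, sum_ite_eq, mem_range, (hA k c).2.1, if_true]
    · simp [hW, c]
  have sA : ∀ f : ℕ → ℝ, (∑ k ∈ range M.N, if k ∈ A then f k else 0) = ∑ k ∈ A, f k := fun f => by
    rw [← sum_filter]
    exact sum_congr (by
      ext k; simp only [mem_filter, mem_range]
      exact ⟨fun c => c.2, fun c => ⟨(hA k c).1, c⟩⟩) fun _ _ => rfl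
  have A0 : ∀ k < M.N, 0 ≤ M.H (k + 1) - M.H k - if k ∈ A then w k else 0 := fun k _ => by
    split_ifs with c
    · linarith [(hA k c).2.2.2]
    · linarith [h.Hm (Nat.le_succ k)]
  have e1 : ∀ k < M.N, M.H (k + 1) - M.H k = ∑ j ∈ range M.N, W k j +
      (M.H (k + 1) - M.H k - if k ∈ A then w k else 0) := fun k _ => by
    have := row k fun _ => 1
    simp only [mul_one] at this
    rw [this]; ring
  have e2 : ∀ j < M.N, M'.H (j + 1) - M'.H j = ∑ k ∈ range M.N, W k j +
      (M.H (j + 1) - M.H j - if j ∈ A then w j else 0) := fun j hj => by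
    have : ∑ k ∈ range M.N, W k j = ∑ k ∈ A with ξ k = j, w k := by
      rw [sum_filter, ← sA]
      refine sum_congr rfl fun k _ => ?_
      by_cases c : k ∈ A <;> simp [hW, c]
    rw [e j hj, this]; ring
  have l := mv_lo hm h hx ha S W0 A0 e1 e2
  have u := mv_hi hm h' hx ha S W0 A0 e1 e2
  simp only [mul_assoc, row, sA] at l u ⊢
  constructor <;> linarith

end Crest.Agent.T156.Alt.Mv63

end
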