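import Mathlib

-- ▼ part T156/SrB_72
section

/-!
# Row 156, SR leaf S5: the base move, frame-free (helper72)

Levels `k ∈ A ⊆ [j0, j2)` carry slices `w k` at the tilt `z k`; the slice `k` moves to the level
`ξ k`, the first one with `z (ξ k) ≥ z k + ε (r k - q k)`.
-/

set_option autoImplicit false

noncomputable section

namespace Crest.Agent.T156.Alt.SrB72

open Finset

/-- the data of a base move -/
structure Mv (z q r w : ℕ → ℝ) (A : Finset ℕ) (ξ : ℕ → ℕ) (j0 j2 : ℕ) (ε L h c wb : ℝ) : Prop where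
  zm : Monotone z
  rm : ∀ i j, j0 ≤ i → i ≤ j → j ≤ j2 → r i ≤ r j
  qm : ∀ i j, j0 ≤ i → i ≤ j → j ≤ j2 → q i ≤ q j
  ql : ∀ i j, j0 ≤ i → i ≤ j → j ≤ j2 → q j - q i ≤ L * (z j - z i)
  e0 : 0 < ε
  eL : ε * L ≤ 1 / 2
  c0 : 0 ≤ c
  wb0 : 0 ≤ wb
  sub : ∀ k ∈ A, j0 ≤ k ∧ k < j2
  w0 : ∀ k ∈ A, 0 ≤ w k
  w1 : ∀ k ∈ A, w k ≤ wb * (z (k + 1) - z k)
  hi : ∀ j, j0 ≤ j → j < j2 → z (j + 1) - z j ≤ h
  lo : ∀ k ∈ A, z (k + 1) - z k ≤ c * (z (ξ k) - z (ξ k - 1))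
  x0 : ∀ k ∈ A, j0 < ξ k ∧ ξ k ≤ j2
  x1 : ∀ k ∈ A, z (ξ k - 1) < z k + ε * (r k - q k)
  x2 : ∀ k ∈ A, z k + ε * (r k - q k) ≤ z (ξ k)

/-- the grid map exists as soon as the targets lie in `(z j0, z j2]` -/
theorem exists_xi {z t : ℕ → ℝ} (zm : Monotone z) {A : Finset ℕ} {j0 j2 : ℕ}
    (ht : ∀ k ∈ A, z j0 < t k ∧ t k ≤ z j2) :
    ∃ ξ : ℕ → ℕ, ∀ k ∈ A, (j0 < ξ k ∧ ξ k ≤ j2) ∧ z (ξ k - 1) < t k ∧ t k ≤ z (ξ k) := by
  classical
  have h : ∀ k, ∃ j, k ∈ A → (j0 < j ∧ j ≤ j2) ∧ z (j - 1) < t k ∧ t k ≤ z j := fun k => by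
    by_cases hk : k ∈ A
    · have ex : ∃ j, t k ≤ z j := ⟨j2, (ht k hk).2⟩
      have s := Nat.find_spec ex
      have l : j0 < Nat.find ex := by
        by_contra hc
        exact absurd ((s.trans (zm (not_lt.1 hc)))) (not_le.2 (ht k hk).1)
      exact ⟨Nat.find ex, fun _ => ⟨⟨l, Nat.find_min' ex (ht k hk).2⟩,
        not_le.1 (Nat.find_min ex (by omega)), s⟩⟩
    · exact ⟨0, fun h => absurd h hk⟩
  choose ξ hξ using h
  exact ⟨ξ, hξ⟩

/-- the change of the accumulated marks at the node `j` -/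
def G (w : ℕ → ℝ) (A : Finset ℕ) (ξ : ℕ → ℕ) (j : ℕ) : ℝ :=
  ∑ k ∈ A with ξ k < j, w k - ∑ k ∈ A with k < j, w k

theorem G_succ (w : ℕ → ℝ) (A : Finset ℕ) (ξ : ℕ → ℕ) (j : ℕ) :
    G w A ξ (j + 1) - G w A ξ j = ∑ k ∈ A with ξ k = j, w k - if j ∈ A then w j else 0 := by
  have e : ∀ f : ℕ → ℕ, ∑ k ∈ A with f k < j + 1, w k =
      ∑ k ∈ A with f k < j, w k + ∑ k ∈ A with f k = j, w k := fun f => by
    simp only [sum_filter, ← sum_add_distrib]
    refine sum_congr rfl fun k _ => ?_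
    rcases lt_trichotomy (f k) j with h | h | h
    · rw [if_pos (by omega), if_pos h, if_neg (by omega), add_zero]
    · rw [if_pos (by omega), if_neg (by omega), if_pos h, zero_add]
    · rw [if_neg (by omega), if_neg (by omega), if_neg (by omega), add_zero]
  have e2 : ∑ k ∈ A with k = j, w k = if j ∈ A then w j else 0 := by
    rw [sum_filter, sum_ite_eq']
  unfold G
  rw [e ξ, e fun k => k, e2]
  ring

theorem G_eq (w : ℕ → ℝ) (A : Finset ℕ) (ξ : ℕ → ℕ) (j : ℕ) :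
    G w A ξ j = ∑ k ∈ A with (ξ k < j ∧ j ≤ k), w k - ∑ k ∈ A with (k < j ∧ j ≤ ξ k), w k := by
  unfold G
  simp only [sum_filter, ← sum_sub_distrib]
  refine sum_congr rfl fun k _ => ?_
  by_cases a : ξ k < j <;> by_cases b : k < j
  · rw [if_pos a, if_pos b, if_neg (by omega), if_neg (by omega)]; ring
  · rw [if_pos a, if_neg b, if_pos ⟨a, by omega⟩, if_neg (by omega)]
  · rw [if_neg a, if_pos b, if_neg (by omega), if_pos ⟨b, by omega⟩]
  · rw [if_neg a, if_neg b, if_neg (by omega), if_neg (by omega)]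

theorem sum_tel {z : ℕ → ℝ} (zm : Monotone z) {B : Finset ℕ} {a b : ℕ} (hab : a ≤ b)
    (hB : ∀ k ∈ B, a ≤ k ∧ k < b) : ∑ k ∈ B, (z (k + 1) - z k) ≤ z b - z a := by
  rw [← Finset.sum_Ico_sub z hab]
  exact sum_le_sum_of_subset_of_nonneg (fun k hk => mem_Ico.2 (hB k hk))
    fun k _ _ => sub_nonneg.2 (zm (Nat.le_succ k))

namespace Mv

variable {z q r w : ℕ → ℝ} {A : Finset ℕ} {ξ : ℕ → ℕ} {j0 j2 : ℕ} {ε L h c wb : ℝ}
  (H : Mv z q r w A ξ j0 j2 ε L h c wb)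
include H

/-- the targets spread at least half as fast as the labels -/
theorem spread {i j : ℕ} (h0 : j0 ≤ i) (hij : i ≤ j) (h2 : j ≤ j2) :
    z j - z i ≤ 2 * (z j + ε * (r j - q j) - (z i + ε * (r i - q i))) := by
  have a := mul_le_mul_of_nonneg_left (H.ql i j h0 hij h2) H.e0.le
  have b := mul_le_mul_of_nonneg_left (H.rm i j h0 hij h2) H.e0.le
  have d := mul_le_mul_of_nonneg_right H.eL (sub_nonneg.2 (H.zm hij))
  nlinarith

theorem step {j : ℕ} (h0 : j0 < j) (h2 : j ≤ j2) : z j - z (j - 1) ≤ h := by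
  have := H.hi (j - 1) (by omega) (by omega)
  rwa [Nat.sub_add_cancel (by omega)] at this

theorem wsum {B : Finset ℕ} (hB : B ⊆ A) {a b : ℕ} (hab : a ≤ b)
    (h : ∀ k ∈ B, a ≤ k ∧ k < b) : ∑ k ∈ B, w k ≤ wb * (z b - z a) :=
  (sum_le_sum fun k hk => H.w1 k (hB hk)).trans (by
    rw [← mul_sum]; exact mul_le_mul_of_nonneg_left (sum_tel H.zm hab h) H.wb0)

/-- the mass landing on one level -/
theorem land (j : ℕ) : ∑ k ∈ A with ξ k = j, w k ≤ wb * (2 + c) * (z j - z (j - 1)) := by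
  have d0 : 0 ≤ z j - z (j - 1) := sub_nonneg.2 (H.zm (Nat.sub_le j 1))
  rcases (A.filter fun k => ξ k = j).eq_empty_or_nonempty with e | ne
  · rw [e, sum_empty]
    exact mul_nonneg (mul_nonneg H.wb0 (by linarith [H.c0])) d0
  set B := A.filter fun k => ξ k = j with hB
  obtain ⟨a1, a2⟩ := mem_filter.1 (B.min'_mem ne)
  obtain ⟨b1, b2⟩ := mem_filter.1 (B.max'_mem ne)
  have ab := B.min'_le_max' ne
  have s := H.wsum (B := B) (filter_subset _ _) (a := B.min' ne) (b := B.max' ne + 1) (by omega)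
    fun k hk => ⟨B.min'_le k hk, Nat.lt_succ_of_le (B.le_max' k hk)⟩
  have t := H.spread (H.sub _ a1).1 ab (H.sub _ b1).2.le
  have u := H.x1 _ a1
  have u' := H.x2 _ b1
  have l := H.lo _ b1
  rw [a2] at u
  rw [b2] at u' l
  refine s.trans ?_
  rw [mul_assoc]
  exact mul_le_mul_of_nonneg_left (by nlinarith) H.wb0

/-- **the image measure has bounded density** -/
theorem dens {F : ℕ → ℝ} (hF : ∀ j, j0 < j → j ≤ j2 → 0 ≤ F j) :
    ∑ k ∈ A, w k * F (ξ k) ≤ wb * (2 + c) * ∑ j ∈ Ioc j0 j2, (z j - z (j - 1)) * F j := by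
  rw [← sum_fiberwise_of_maps_to (s := A) (t := Ioc j0 j2) (g := ξ)
    (fun k hk => mem_Ioc.2 (H.x0 k hk)), mul_sum]
  refine sum_le_sum fun j hj => ?_
  rw [sum_congr rfl (g := fun k => w k * F j) fun k hk => by rw [(mem_filter.1 hk).2],
    ← sum_mul, ← mul_assoc]
  exact mul_le_mul_of_nonneg_right (H.land j) (hF j (mem_Ioc.1 hj).1 (mem_Ioc.1 hj).2)

theorem G_low {j : ℕ} (hj : j ≤ j0) : G w A ξ j = 0 := by
  unfold G
  rw [filter_false_of_mem fun k hk => by have := (H.x0 k hk).1; omega,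
    filter_false_of_mem fun k hk => by have := (H.sub k hk).1; omega, sub_self]

theorem G_high {j : ℕ} (hj : j2 < j) : G w A ξ j = 0 := by
  unfold G
  rw [filter_true_of_mem fun k hk => by have := (H.x0 k hk).2; omega,
    filter_true_of_mem fun k hk => by have := (H.sub k hk).2; omega, sub_self]

/-- the unmoved marks stay -/
theorem G_floor (j : ℕ) : -(if j ∈ A then w j else 0) ≤ G w A ξ (j + 1) - G w A ξ j := by
  rw [G_succ]
  have : 0 ≤ ∑ k ∈ A with ξ k = j, w k := sum_nonneg fun k hk => H.w0 k (mem_filter.1 hk).1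
  linarith

/-- **pointwise bound of the residual** -/
theorem abs_G {j : ℕ} (h0 : j0 < j) (h2 : j ≤ j2) :
    |G w A ξ j| ≤ 2 * wb * (ε * |r j - q j| + h) := by
  have hh : 0 ≤ h := (sub_nonneg.2 (H.zm (Nat.sub_le j 1))).trans (H.step h0 h2)
  have p1 := mul_le_mul_of_nonneg_left (le_abs_self (r j - q j)) H.e0.le
  have p2 := mul_le_mul_of_nonneg_left (neg_abs_le (r j - q j)) H.e0.le
  have p0 : 0 ≤ ε * |r j - q j| := mul_nonneg H.e0.le (abs_nonneg _)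
  have n0 : ∀ P : ℕ → Prop, ∀ [DecidablePred P], 0 ≤ ∑ k ∈ A with P k, w k := fun P _ =>
    sum_nonneg fun k hk => H.w0 k (mem_filter.1 hk).1
  have up : ∑ k ∈ A with (k < j ∧ j ≤ ξ k), w k ≤ 2 * wb * (ε * |r j - q j| + h) := by
    rcases (A.filter fun k => k < j ∧ j ≤ ξ k).eq_empty_or_nonempty with e | ne
    · rw [e, sum_empty]; have := H.wb0; positivity
    set B := A.filter fun k => k < j ∧ j ≤ ξ k with hB
    obtain ⟨a1, a2, a3⟩ := mem_filter.1 (B.min'_mem ne)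
    have s := H.wsum (B := B) (filter_subset _ _) (a := B.min' ne) (b := j) a2.le
      fun k hk => ⟨B.min'_le k hk, (mem_filter.1 hk).2.1⟩
    have t := H.spread (H.sub _ a1).1 a2.le h2
    have u := H.x1 _ a1
    have u' := H.zm (show j - 1 ≤ ξ (B.min' ne) - 1 by omega)
    have := H.step h0 h2
    refine s.trans ?_
    rw [mul_comm 2 wb, mul_assoc]
    exact mul_le_mul_of_nonneg_left (by linarith) H.wb0
  have dn : ∑ k ∈ A with (ξ k < j ∧ j ≤ k), w k ≤ 2 * wb * (ε * |r j - q j| + h) := by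
    rcases (A.filter fun k => ξ k < j ∧ j ≤ k).eq_empty_or_nonempty with e | ne
    · rw [e, sum_empty]; have := H.wb0; positivity
    set B := A.filter fun k => ξ k < j ∧ j ≤ k with hB
    obtain ⟨a1, a2, a3⟩ := mem_filter.1 (B.max'_mem ne)
    have s := H.wsum (B := B) (filter_subset _ _) (a := j) (b := B.max' ne + 1) (by omega)
      fun k hk => ⟨(mem_filter.1 hk).2.2, Nat.lt_succ_of_le (B.le_max' k hk)⟩
    have t := H.spread h0.le a3 (H.sub _ a1).2.le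
    have u := H.x2 _ a1
    have u' := H.zm a2.le
    have := H.hi _ (H.sub _ a1).1 (H.sub _ a1).2
    refine s.trans ?_
    rw [mul_comm 2 wb, mul_assoc]
    exact mul_le_mul_of_nonneg_left (by linarith) H.wb0
  rw [G_eq, abs_le]
  constructor <;> linarith [n0 fun k => k < j ∧ j ≤ ξ k, n0 fun k => ξ k < j ∧ j ≤ k]

/-- the residual in `L²`, any weights, any set of nodes -/
theorem sq_G {B : Finset ℕ} {d : ℕ → ℝ} (hd : ∀ j ∈ B, 0 ≤ d j) (h0 : 0 ≤ h) :
    ∑ j ∈ B, d j * G w A ξ j ^ 2 ≤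
      8 * wb ^ 2 * (ε ^ 2 * ∑ j ∈ B, d j * (r j - q j) ^ 2 + h ^ 2 * ∑ j ∈ B, d j) := by
  rw [mul_sum, mul_sum, ← sum_add_distrib, mul_sum]
  refine sum_le_sum fun j hj => ?_
  have k : G w A ξ j ^ 2 ≤ 8 * wb ^ 2 * (ε ^ 2 * (r j - q j) ^ 2 + h ^ 2) := by
    by_cases a : j0 < j ∧ j ≤ j2
    · have b := pow_le_pow_left₀ (abs_nonneg _) (H.abs_G a.1 a.2) 2
      rw [sq_abs] at b
      refine b.trans ?_
      rw [← sq_abs (r j - q j)]
      nlinarith [sq_nonneg (wb * (ε * |r j - q j| - h))]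
    · rw [show G w A ξ j = 0 by
        rcases not_and_or.1 a with a | a
        exacts [H.G_low (not_lt.1 a), H.G_high (not_le.1 a)]]
      simp only [ne_eq, OfNat.ofNat_ne_zero, not_false_eq_true, zero_pow]
      positivity
  calc d j * G w A ξ j ^ 2 ≤ d j * (8 * wb ^ 2 * (ε ^ 2 * (r j - q j) ^ 2 + h ^ 2)) :=
        mul_le_mul_of_nonneg_left k (hd j hj)
    _ = _ := by ring

/-- one slice -/
theorem one {k : ℕ} (hk : k ∈ A) (r' : ℝ) :
    ε ^ 2 * (r k - q k) ^ 2 ≤ 32 * ε ^ 2 * (r' - q (ξ k)) ^ 2 +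
      16 * ε * ((z (ξ k) - z k) * r k - (z (ξ k) - z k) * r') + 18 * h ^ 2 := by
  have e0 := H.e0
  have x1 := H.x1 k hk
  have x2 := H.x2 k hk
  have st := H.step (H.x0 k hk).1 (H.x0 k hk).2
  set δ := z (ξ k) - z k with hδ
  have l : 2 * ε * (δ * (q (ξ k) - q k)) ≤ δ ^ 2 := by
    rcases le_total k (ξ k) with a | a
    · have b := H.ql _ _ (H.sub k hk).1 a (H.x0 k hk).2
      have d : 0 ≤ δ := sub_nonneg.2 (H.zm a)
      have := mul_le_mul_of_nonneg_left b (mul_nonneg e0.le d)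
      have := mul_le_mul_of_nonneg_right H.eL (sq_nonneg δ)
      nlinarith
    · have b := H.ql _ _ (H.x0 k hk).1.le a (H.sub k hk).2.le
      have d : 0 ≤ -δ := by rw [hδ, neg_sub]; exact sub_nonneg.2 (H.zm a)
      have := mul_le_mul_of_nonneg_left b (mul_nonneg e0.le d)
      have := mul_le_mul_of_nonneg_right H.eL (sq_nonneg δ)
      nlinarith
  set ρ := δ - ε * (r k - q k) with hρ
  have ρ0 : 0 ≤ ρ := by rw [hρ, hδ]; linarith
  have ρ1 : ρ ≤ h := by rw [hρ, hδ]; linarith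
  have ρ2 : ρ ^ 2 ≤ h ^ 2 := pow_le_pow_left₀ ρ0 ρ1 2
  have e : ε * (r k - q k) = δ - ρ := by rw [hρ]; ring
  have e1 : ε ^ 2 * (r k - q k) ^ 2 = (δ - ρ) ^ 2 := by rw [← e]; ring
  have e2 : ε * (δ * r k - δ * r') =
      δ * (δ - ρ) - ε * (δ * (q (ξ k) - q k)) - δ * (ε * (r' - q (ξ k))) := by rw [← e]; ring
  rw [e1, mul_assoc 16, e2]
  nlinarith [sq_nonneg (δ - 4 * (ε * (r' - q (ξ k)))), sq_nonneg (δ - 2 * ρ), sq_nonneg (δ + ρ)]

/-- **the base move**: the two `MV` inequalities and the Guerra steps give the hypothesis `hX` -/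
theorem main {r' : ℕ → ℝ} {X : ℝ}
    (hX : ∑ k ∈ A, w k * (z (ξ k) - z k) * r k ≤
      ∑ k ∈ A, w k * (z (ξ k) - z k) * r' (ξ k) + X) :
    ∑ k ∈ A, w k * (r k - q k) ^ 2 ≤
      32 * (wb * (2 + c)) * ∑ j ∈ Ioc j0 j2, (z j - z (j - 1)) * (r' j - q j) ^ 2 +
        16 * X / ε + 18 * (h / ε) ^ 2 * ∑ k ∈ A, w k := by
  have e0 := H.e0
  have d := H.dens (F := fun j => (r' j - q j) ^ 2) fun _ _ _ => sq_nonneg _
  have s := sum_le_sum (s := A) fun k hk =>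
    mul_le_mul_of_nonneg_left (H.one hk (r' (ξ k))) (H.w0 k hk)
  have e1 : ∑ k ∈ A, w k * (ε ^ 2 * (r k - q k) ^ 2) = ε ^ 2 * ∑ k ∈ A, w k * (r k - q k) ^ 2 := by
    rw [mul_sum]; exact sum_congr rfl fun k _ => by ring
  have e2 : ∑ k ∈ A, w k * (32 * ε ^ 2 * (r' (ξ k) - q (ξ k)) ^ 2 +
      16 * ε * ((z (ξ k) - z k) * r k - (z (ξ k) - z k) * r' (ξ k)) + 18 * h ^ 2) =
      32 * ε ^ 2 * ∑ k ∈ A, w k * (r' (ξ k) - q (ξ k)) ^ 2 +
      16 * ε * (∑ k ∈ A, w k * (z (ξ k) - z k) * r k -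
        ∑ k ∈ A, w k * (z (ξ k) - z k) * r' (ξ k)) + 18 * h ^ 2 * ∑ k ∈ A, w k := by
    simp only [mul_sum, ← sum_sub_distrib, ← sum_add_distrib]
    exact sum_congr rfl fun k _ => by ring
  rw [e1, e2] at s
  have d' := mul_le_mul_of_nonneg_left d (show 0 ≤ 32 * ε ^ 2 by positivity)
  have x' := mul_le_mul_of_nonneg_left (sub_le_iff_le_add'.2 hX) (show 0 ≤ 16 * ε by positivity)
  refine le_of_mul_le_mul_left ?_ (show 0 < ε ^ 2 by positivity)
  have e3 : ε ^ 2 * (32 * (wb * (2 + c)) *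
      ∑ j ∈ Ioc j0 j2, (z j - z (j - 1)) * (r' j - q j) ^ 2 + 16 * X / ε +
      18 * (h / ε) ^ 2 * ∑ k ∈ A, w k) = 32 * ε ^ 2 * (wb * (2 + c) *
      ∑ j ∈ Ioc j0 j2, (z j - z (j - 1)) * (r' j - q j) ^ 2) + 16 * ε * X +
      18 * h ^ 2 * ∑ k ∈ A, w k := by field_simp
  rw [e3]
  linarith

/-- exact one-sided form of `MV`: up-movers read `r k` and `r' (ξ k + 1)`, down-movers read
`r (k + 1)` and `r' (ξ k)`; `Z ≥ |z (ξ k) - z k|`, `R`, `R'` bound the total rises -/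
theorem of_exact {r' : ℕ → ℝ} {X Z R R' : ℝ} (hZ : z j2 - z j0 ≤ Z)
    (rm' : ∀ j, j0 < j → j ≤ j2 → r' j ≤ r' (j + 1)) (hR : r j2 - r j0 ≤ R)
    (hR' : r' (j2 + 1) - r' (j0 + 1) ≤ R') (hj : j0 < j2)
    (hX : ∑ k ∈ A, w k * (z (ξ k) - z k) * (if k ≤ ξ k then r k else r (k + 1)) ≤
      ∑ k ∈ A, w k * (z (ξ k) - z k) * (if k ≤ ξ k then r' (ξ k + 1) else r' (ξ k)) + X) :
    ∑ k ∈ A, w k * (z (ξ k) - z k) * r k ≤ ∑ k ∈ A, w k * (z (ξ k) - z k) * r' (ξ k) +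
      (X + Z * (wb * h * R + wb * (2 + c) * h * R')) := by
  have hh : 0 ≤ h := (sub_nonneg.2 (H.zm (Nat.le_succ j0))).trans (H.hi j0 le_rfl hj)
  have Z0 : 0 ≤ Z := (sub_nonneg.2 (H.zm hj.le)).trans hZ
  have c2 : 0 ≤ wb * (2 + c) := mul_nonneg H.wb0 (by linarith [H.c0])
  have a1 : ∑ k ∈ A, w k * (r (k + 1) - r k) ≤ wb * h * R := by
    calc ∑ k ∈ A, w k * (r (k + 1) - r k) ≤ ∑ k ∈ A, wb * h * (r (k + 1) - r k) :=
          sum_le_sum fun k hk => mul_le_mul_of_nonneg_right ((H.w1 k hk).trans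
            (mul_le_mul_of_nonneg_left (H.hi k (H.sub k hk).1 (H.sub k hk).2) H.wb0))
            (sub_nonneg.2 (H.rm _ _ (H.sub k hk).1 (Nat.le_succ k) (H.sub k hk).2))
      _ ≤ ∑ k ∈ Ico j0 j2, wb * h * (r (k + 1) - r k) :=
          sum_le_sum_of_subset_of_nonneg (fun k hk => mem_Ico.2 (H.sub k hk)) fun k hk _ =>
            mul_nonneg (mul_nonneg H.wb0 hh) (sub_nonneg.2
              (H.rm _ _ (mem_Ico.1 hk).1 (Nat.le_succ k) (mem_Ico.1 hk).2))
      _ ≤ wb * h * R := by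
          rw [← mul_sum, Finset.sum_Ico_sub r hj.le]
          exact mul_le_mul_of_nonneg_left hR (mul_nonneg H.wb0 hh)
  have a2 : ∑ k ∈ A, w k * (r' (ξ k + 1) - r' (ξ k)) ≤ wb * (2 + c) * h * R' := by
    refine (H.dens (F := fun j => r' (j + 1) - r' j) fun j a b => sub_nonneg.2 (rm' j a b)).trans ?_
    rw [mul_assoc (wb * (2 + c))]
    refine mul_le_mul_of_nonneg_left ?_ c2
    calc ∑ j ∈ Ioc j0 j2, (z j - z (j - 1)) * (r' (j + 1) - r' j)
        ≤ ∑ j ∈ Ioc j0 j2, h * (r' (j + 1) - r' j) := sum_le_sum fun j hj =>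
          mul_le_mul_of_nonneg_right (H.step (mem_Ioc.1 hj).1 (mem_Ioc.1 hj).2)
            (sub_nonneg.2 (rm' j (mem_Ioc.1 hj).1 (mem_Ioc.1 hj).2))
      _ ≤ h * R' := by
          rw [← mul_sum, show Ioc j0 j2 = Ico (j0 + 1) (j2 + 1) by
            ext j; simp only [mem_Ioc, mem_Ico]; omega, Finset.sum_Ico_sub r' (by omega)]
          exact mul_le_mul_of_nonneg_left hR' hh
  have b1 : ∑ k ∈ A, w k * (z (ξ k) - z k) * r k ≤
      ∑ k ∈ A, w k * (z (ξ k) - z k) * (if k ≤ ξ k then r k else r (k + 1)) +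
        Z * ∑ k ∈ A, w k * (r (k + 1) - r k) := by
    rw [mul_sum, ← sum_add_distrib]
    refine sum_le_sum fun k hk => ?_
    have d := mul_nonneg (H.w0 k hk)
      (sub_nonneg.2 (H.rm _ _ (H.sub k hk).1 (Nat.le_succ k) (H.sub k hk).2))
    have u := H.zm (H.sub k hk).2.le
    have u' := H.zm (H.x0 k hk).1.le
    split_ifs
    · nlinarith [mul_nonneg Z0 d]
    · nlinarith [mul_nonneg (show 0 ≤ Z + (z (ξ k) - z k) by linarith) d]
  have b2 : ∑ k ∈ A, w k * (z (ξ k) - z k) * (if k ≤ ξ k then r' (ξ k + 1) else r' (ξ k)) ≤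
      ∑ k ∈ A, w k * (z (ξ k) - z k) * r' (ξ k) +
        Z * ∑ k ∈ A, w k * (r' (ξ k + 1) - r' (ξ k)) := by
    rw [mul_sum, ← sum_add_distrib]
    refine sum_le_sum fun k hk => ?_
    have d := mul_nonneg (H.w0 k hk) (sub_nonneg.2 (rm' _ (H.x0 k hk).1 (H.x0 k hk).2))
    have u := H.zm (H.sub k hk).1
    have u' := H.zm (H.x0 k hk).2
    split_ifs
    · nlinarith [mul_nonneg (show 0 ≤ Z - (z (ξ k) - z k) by linarith) d]
    · nlinarith [mul_nonneg Z0 d]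
  nlinarith [mul_le_mul_of_nonneg_left a1 Z0, mul_le_mul_of_nonneg_left a2 Z0]

end Mv



/-- existence of the move -/
theorem exists_mv {z q r w : ℕ → ℝ} {A : Finset ℕ} {j0 j2 : ℕ} {ε L h c wb : ℝ} (zm : Monotone z)
    (rm : ∀ i j, j0 ≤ i → i ≤ j → j ≤ j2 → r i ≤ r j)
    (qm : ∀ i j, j0 ≤ i → i ≤ j → j ≤ j2 → q i ≤ q j)
    (ql : ∀ i j, j0 ≤ i → i ≤ j → j ≤ j2 → q j - q i ≤ L * (z j - z i))
    (e0 : 0 < ε) (eL : ε * L ≤ 1 / 2) (c0 : 0 ≤ c) (wb0 : 0 ≤ wb)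
    (sub : ∀ k ∈ A, j0 ≤ k ∧ k < j2) (w0 : ∀ k ∈ A, 0 ≤ w k)
    (w1 : ∀ k ∈ A, w k ≤ wb * (z (k + 1) - z k))
    (hi : ∀ j, j0 ≤ j → j < j2 → z (j + 1) - z j ≤ h)
    (lo : ∀ k ∈ A, ∀ j, j0 < j → j ≤ j2 → z (k + 1) - z k ≤ c * (z j - z (j - 1)))
    (r01 : ∀ k ∈ A, 0 ≤ r k ∧ r k ≤ 1) (q0 : ∀ k ∈ A, 0 ≤ q k)
    (bot : ∀ k ∈ A, z j0 + ε * q k < z k) (top : ∀ k ∈ A, z k + ε ≤ z j2) :
    ∃ ξ, Mv z q r w A ξ j0 j2 ε L h c wb := by
  obtain ⟨ξ, hξ⟩ := exists_xi zm (t := fun k => z k + ε * (r k - q k)) (A := A) (j0 := j0)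
    (j2 := j2) fun k hk => by
      have a := mul_nonneg e0.le (r01 k hk).1
      have b := mul_le_mul_of_nonneg_left (r01 k hk).2 e0.le
      have d := mul_nonneg e0.le (q0 k hk)
      constructor <;> nlinarith [bot k hk, top k hk]
  exact ⟨ξ, zm, rm, qm, ql, e0, eL, c0, wb0, sub, w0, w1, hi,
    fun k hk => lo k hk _ (hξ k hk).1.1 (hξ k hk).1.2, fun k hk => (hξ k hk).1,
    fun k hk => (hξ k hk).2.1, fun k hk => (hξ k hk).2.2⟩

end Crest.Agent.T156.Alt.SrB72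

end
end

-- ▼ part T156/SrSh_74

/-!
# Row 156, SR: the plateau move as a SHIFT of one window (helper74)

Slices of constant weight `η` on `N` consecutive levels are moved by `N` levels (up or down); the
map is injective, so floor and ceiling of the marks change by `η` only.
-/

set_option autoImplicit false

noncomputable section

namespace Crest.Agent.T156.Sr74

open Finset Real
open Crest.Agent.T156.Alt.SrB72 (G G_succ G_eq)

/-- quasi-uniform mesh on the levels `[b, b + 2 N)` -/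
structure Wn (z : ℕ → ℝ) (b N : ℕ) (δ C : ℝ) : Prop where
  zm : Monotone z
  d0 : 0 < δ
  ms : ∀ k, b ≤ k → k < b + 2 * N → δ ≤ z (k + 1) - z k ∧ z (k + 1) - z k ≤ C * δ

/-- lower half of the window -/
def lo (b N : ℕ) : Finset ℕ := Ico b (b + N)
/-- upper half of the window -/
def hi (b N : ℕ) : Finset ℕ := Ico (b + N) (b + 2 * N)
/-- marks moved up -/
def GU (η : ℝ) (b N : ℕ) : ℕ → ℝ := G (fun _ => η) (lo b N) (fun k => k + N)
/-- marks moved down -/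
def GD (η : ℝ) (b N : ℕ) : ℕ → ℝ := G (fun _ => η) (hi b N) (fun k => k - N)

variable {z : ℕ → ℝ} {b N : ℕ} {δ C η : ℝ}

theorem Wn.inc (H : Wn z b N δ C) {i : ℕ} (hi : b ≤ i) : ∀ t : ℕ, i + t ≤ b + 2 * N →
    t * δ ≤ z (i + t) - z i ∧ z (i + t) - z i ≤ t * (C * δ)
  | 0, _ => by simp
  | t + 1, h => by
    obtain ⟨a1, a2⟩ := H.inc hi t (by omega)
    obtain ⟨a3, a4⟩ := H.ms (i + t) (by omega) (by omega)
    rw [← add_assoc]
    push_cast
    constructor <;> linarith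

theorem GU_succ (η : ℝ) (b N j : ℕ) : GU η b N (j + 1) - GU η b N j =
    (if j ∈ hi b N then η else 0) - if j ∈ lo b N then η else 0 := by
  rw [GU, G_succ]
  congr 1
  split_ifs with h
  · have h' := mem_Ico.1 h
    rw [Finset.sum_eq_single_of_mem (j - N)]
    · simp only [lo, mem_filter, mem_Ico]; omega
    · intro k hk hne
      simp only [lo, mem_filter, mem_Ico] at hk; omega
  · refine Finset.sum_eq_zero fun k hk => ?_
    simp only [lo, hi, mem_filter, mem_Ico] at hk h; omega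

theorem GD_succ (η : ℝ) (b N j : ℕ) : GD η b N (j + 1) - GD η b N j =
    (if j ∈ lo b N then η else 0) - if j ∈ hi b N then η else 0 := by
  rw [GD, G_succ]
  congr 1
  split_ifs with h
  · have h' := mem_Ico.1 h
    rw [Finset.sum_eq_single_of_mem (j + N)]
    · simp only [hi, mem_filter, mem_Ico]; omega
    · intro k hk hne
      simp only [hi, mem_filter, mem_Ico] at hk; omega
  · refine Finset.sum_eq_zero fun k hk => ?_
    simp only [lo, hi, mem_filter, mem_Ico] at hk h; omega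

theorem GD_eq (η : ℝ) (b N : ℕ) : ∀ j, GD η b N j = -GU η b N j
  | 0 => by simp [GD, GU, G]
  | j + 1 => by
    have := GD_succ η b N j
    have := GU_succ η b N j
    have := GD_eq η b N j
    linarith

theorem GU_eq (η : ℝ) (b N j : ℕ) :
    GU η b N j = -(((lo b N).filter fun k => k < j ∧ j ≤ k + N).card * η) := by
  rw [GU, G_eq, Finset.sum_eq_zero fun k hk => by simp only [mem_filter] at hk; omega]
  simp

theorem GU_zero (η : ℝ) {b N j : ℕ} (h : j ≤ b ∨ b + 2 * N ≤ j) : GU η b N j = 0 := by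
  rw [GU_eq, Finset.filter_eq_empty_iff.2 fun k hk => by
    simp only [lo, mem_Ico] at hk; omega]
  simp

theorem GD_zero (η : ℝ) {b N j : ℕ} (h : j ≤ b ∨ b + 2 * N ≤ j) : GD η b N j = 0 := by
  rw [GD_eq, GU_zero η h, neg_zero]

theorem abs_GU (hη : 0 ≤ η) (b N j : ℕ) : |GU η b N j| ≤ N * η := by
  rw [GU_eq, abs_neg, abs_of_nonneg (by positivity)]
  refine mul_le_mul_of_nonneg_right (Nat.cast_le.2 ((card_filter_le _ _).trans ?_)) hη
  simp [lo]


theorem tel (z : ℕ → ℝ) {a c : ℕ} (h : a ≤ c) : ∑ j ∈ Ioc a c, (z j - z (j - 1)) = z c - z a := by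
  induction c, h using Nat.le_induction with
  | base => simp
  | succ c hc ih => rw [Finset.sum_Ioc_succ_top hc, ih]; simp

theorem dz_nonneg (zm : Monotone z) (j : ℕ) : 0 ≤ z j - z (j - 1) :=
  sub_nonneg.2 (zm (Nat.sub_le _ _))

theorem sq_GU (zm : Monotone z) (hη : 0 ≤ η) (b N : ℕ) (B : Finset ℕ) :
    ∑ j ∈ B, (z j - z (j - 1)) * GU η b N j ^ 2 ≤ (N * η) ^ 2 * (z (b + 2 * N) - z b) := by
  have h0 : ∀ j, 0 ≤ (z j - z (j - 1)) * GU η b N j ^ 2 := fun j =>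
    mul_nonneg (dz_nonneg zm j) (sq_nonneg _)
  rw [← Finset.sum_filter_of_ne (p := fun j => j ∈ Ioc b (b + 2 * N)) fun j _ hj => by
    by_contra h
    rw [GU_zero η (by simp only [mem_Ioc] at h; omega)] at hj
    simp at hj]
  refine (Finset.sum_le_sum_of_subset_of_nonneg (t := Ioc b (b + 2 * N))
    (fun j hj => (mem_filter.1 hj).2) fun j _ _ => h0 j).trans ?_
  rw [← tel z (by omega : b ≤ b + 2 * N), Finset.mul_sum]
  refine Finset.sum_le_sum fun j _ => ?_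
  rw [mul_comm]
  refine mul_le_mul_of_nonneg_right ?_ (dz_nonneg zm j)
  rw [← sq_abs]
  exact pow_le_pow_left₀ (abs_nonneg _) (abs_GU hη b N j) 2

theorem sq_GD (zm : Monotone z) (hη : 0 ≤ η) (b N : ℕ) (B : Finset ℕ) :
    ∑ j ∈ B, (z j - z (j - 1)) * GD η b N j ^ 2 ≤ (N * η) ^ 2 * (z (b + 2 * N) - z b) := by
  simp only [GD_eq, neg_sq]; exact sq_GU zm hη b N B

theorem gain {A : Finset ℕ} {c s s' : ℕ → ℝ} {m R R' X : ℝ} (hm : 0 < m) (hX : 0 ≤ X)
    (c0 : ∀ k ∈ A, 0 ≤ c k) (hc : m ≤ ∑ k ∈ A, c k) (h1 : ∀ k ∈ A, R ≤ s k)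
    (h2 : ∀ k ∈ A, s' k ≤ R') (h : ∑ k ∈ A, c k * s k ≤ ∑ k ∈ A, c k * s' k + X) :
    R - R' ≤ X / m := by
  rcases le_total R R' with h3 | h3
  · exact (sub_nonpos.2 h3).trans (by positivity)
  have a1 : ∑ k ∈ A, c k * R ≤ ∑ k ∈ A, c k * s k :=
    Finset.sum_le_sum fun k hk => mul_le_mul_of_nonneg_left (h1 k hk) (c0 k hk)
  have a2 : ∑ k ∈ A, c k * s' k ≤ ∑ k ∈ A, c k * R' :=
    Finset.sum_le_sum fun k hk => mul_le_mul_of_nonneg_left (h2 k hk) (c0 k hk)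
  rw [← Finset.sum_mul] at a1 a2
  rw [le_div_iff₀ hm]
  nlinarith [mul_le_mul_of_nonneg_right hc (sub_nonneg.2 h3)]

theorem Wn.gainU (H : Wn z b N δ C) (hN : 0 < N) (hη : 0 < η) {s s' : ℕ → ℝ} {R R' X : ℝ}
    (hX : 0 ≤ X) (h1 : ∀ k ∈ lo b N, R ≤ s k) (h2 : ∀ k ∈ lo b N, s' k ≤ R')
    (h : ∑ k ∈ lo b N, η * (z (k + N) - z k) * s k ≤
      ∑ k ∈ lo b N, η * (z (k + N) - z k) * s' k + X) : R - R' ≤ X / (N * (η * (N * δ))) := by
  have := H.d0
  refine gain (by positivity) hX (fun k _ => mul_nonneg hη.le (sub_nonneg.2 (H.zm (by omega))))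
    ?_ h1 h2 h
  have := Finset.card_nsmul_le_sum (lo b N) (fun k => η * (z (k + N) - z k)) (η * (N * δ))
    fun k hk => by
      have hk' := mem_Ico.1 hk
      exact mul_le_mul_of_nonneg_left (H.inc hk'.1 N (by omega)).1 hη.le
  simpa [lo] using this

theorem Wn.gainD (H : Wn z b N δ C) (hN : 0 < N) (hη : 0 < η) {s s' : ℕ → ℝ} {R R' X : ℝ}
    (hX : 0 ≤ X) (h1 : ∀ k ∈ hi b N, s k ≤ R) (h2 : ∀ k ∈ hi b N, R' ≤ s' k)
    (h : ∑ k ∈ hi b N, η * (z (k - N) - z k) * s k ≤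
      ∑ k ∈ hi b N, η * (z (k - N) - z k) * s' k + X) : R' - R ≤ X / (N * (η * (N * δ))) := by
  have := H.d0
  have key := gain (A := hi b N) (c := fun k => η * (z k - z (k - N))) (s := fun k => -s k)
    (s' := fun k => -s' k) (m := N * (η * (N * δ))) (R := -R) (R' := -R') (by positivity) hX
    (fun k _ => mul_nonneg hη.le (sub_nonneg.2 (H.zm (by omega)))) ?_
    (fun k hk => neg_le_neg (h1 k hk)) (fun k hk => neg_le_neg (h2 k hk)) ?_
  · linarith
  · have := Finset.card_nsmul_le_sum (hi b N) (fun k => η * (z k - z (k - N))) (η * (N * δ))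
      fun k hk => by
        have hk' := mem_Ico.1 hk
        have := (H.inc (i := k - N) (by omega) N (by omega)).1
        rw [show k - N + N = k by omega] at this
        exact mul_le_mul_of_nonneg_left this hη.le
    simpa [hi, show b + 2 * N - (b + N) = N by omega] using this
  · have e : ∀ f : ℕ → ℝ, ∑ k ∈ hi b N, η * (z k - z (k - N)) * -f k =
        ∑ k ∈ hi b N, η * (z (k - N) - z k) * f k := fun f =>
      Finset.sum_congr rfl fun k _ => by ring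
    rw [e, e]; exact h

/-! ### the choice of the window -/

/-- a window of total length `≤ u / 2` and the weight `η = g δ / u^{3/2}` -/
structure Sh (z : ℕ → ℝ) (b N : ℕ) (δ C u g η : ℝ) : Prop extends Wn z b N δ C where
  C1 : 1 ≤ C
  u0 : 0 < u
  g0 : 0 < g
  N1 : 4 * N * (C * δ) ≤ u
  N2 : u ≤ 8 * N * (C * δ)
  e : η = g * δ / (u * √u)

theorem exists_N {δ C u : ℝ} (hδ : 0 < δ) (hC : 1 ≤ C) (hu : 4 * (C * δ) ≤ u) :
    ∃ N : ℕ, 4 * N * (C * δ) ≤ u ∧ u ≤ 8 * N * (C * δ) := by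
  have h0 : 0 < C * δ := by positivity
  have h1 : 1 ≤ u / (4 * (C * δ)) := by rwa [le_div_iff₀ (by positivity), one_mul]
  refine ⟨⌊u / (4 * (C * δ))⌋₊, ?_, ?_⟩
  · have := Nat.floor_le (show 0 ≤ u / (4 * (C * δ)) by linarith)
    rw [le_div_iff₀ (by positivity)] at this
    linarith
  · have a1 := Nat.lt_floor_add_one (u / (4 * (C * δ)))
    have a2 : (1 : ℝ) ≤ ⌊u / (4 * (C * δ))⌋₊ := by exact_mod_cast Nat.one_le_floor_iff _ |>.2 h1
    rw [div_lt_iff₀ (by positivity)] at a1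
    nlinarith

/-- a window starting at `a` -/
theorem exists_up (zm : Monotone z) {a : ℕ} {u g : ℝ} (hδ : 0 < δ) (hC : 1 ≤ C) (hg : 0 < g)
    (hu : 4 * (C * δ) ≤ u) (ms : ∀ k, a ≤ k → z k < z a + u / 2 →
      δ ≤ z (k + 1) - z k ∧ z (k + 1) - z k ≤ C * δ) : ∃ N η, Sh z a N δ C u g η := by
  obtain ⟨N, h1, h2⟩ := exists_N hδ hC hu
  have h0 : 0 < C * δ := by positivity
  have key : ∀ t : ℕ, t ≤ 2 * N → z (a + t) ≤ z a + t * (C * δ) := by
    intro t
    induction t with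
    | zero => simp
    | succ t ih =>
      intro ht
      have a1 := ih (by omega)
      have a2 : (t : ℝ) + 1 ≤ 2 * N := by exact_mod_cast ht
      have := (ms (a + t) (by omega) (by nlinarith)).2
      rw [← add_assoc]
      push_cast
      linarith
  refine ⟨N, _, ⟨zm, hδ, fun k k1 k2 => ms k k1 ?_⟩, hC, by linarith, hg, h1, h2, rfl⟩
  obtain ⟨t, rfl⟩ := Nat.exists_eq_add_of_le k1
  have a1 := key t (by omega)
  have a2 : (t : ℝ) + 1 ≤ 2 * N := by exact_mod_cast (by omega : t + 1 ≤ 2 * N)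
  nlinarith

/-- a window ending at `a`, above the index `J` -/
theorem exists_down (zm : Monotone z) {a J : ℕ} {u g : ℝ} (hδ : 0 < δ) (hC : 1 ≤ C) (hg : 0 < g)
    (hu : 4 * (C * δ) ≤ u) (hJ : z J ≤ z a - u / 2) (ms : ∀ k, k < a → z a - u / 2 < z (k + 1) →
      δ ≤ z (k + 1) - z k ∧ z (k + 1) - z k ≤ C * δ) :
    ∃ b N η, J ≤ b ∧ b + 2 * N = a ∧ Sh z b N δ C u g η := by
  obtain ⟨N, h1, h2⟩ := exists_N hδ hC hu
  have h0 : 0 < C * δ := by positivity
  have hJa : J ≤ a := by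
    by_contra h
    have := zm (not_le.1 h).le
    linarith
  have key : ∀ t : ℕ, t ≤ 2 * N → J + t ≤ a ∧ z a - t * (C * δ) ≤ z (a - t) := by
    intro t
    induction t with
    | zero => simpa using hJa
    | succ t ih =>
      intro ht
      obtain ⟨a0, a1⟩ := ih (by omega)
      have a2 : (t : ℝ) + 1 ≤ 2 * N := by exact_mod_cast ht
      have a3 : z a - u / 2 < z (a - t) := by nlinarith
      have a4 : J < a - t := by
        by_contra h
        have := zm (not_lt.1 h)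
        linarith
      have := (ms (a - (t + 1)) (by omega) (by rwa [show a - (t + 1) + 1 = a - t by omega])).2
      rw [show a - (t + 1) + 1 = a - t by omega] at this
      refine ⟨by omega, ?_⟩
      push_cast
      linarith
  have k0 := (key (2 * N) le_rfl).1
  refine ⟨a - 2 * N, N, _, by omega, by omega,
    ⟨zm, hδ, fun k k1 k2 => ms k (by omega) ?_⟩, hC, by linarith, hg, h1, h2, rfl⟩
  have a1 := (key (a - (k + 1)) (by omega)).2
  rw [show a - (a - (k + 1)) = k + 1 by omega] at a1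
  have a2 : ((a - (k + 1) : ℕ) : ℝ) + 1 ≤ 2 * N := by
    exact_mod_cast (by omega : a - (k + 1) + 1 ≤ 2 * N)
  nlinarith

namespace Sh

variable {u g : ℝ} (H : Sh z b N δ C u g η)
include H

theorem N_pos : 0 < N := by
  rcases Nat.eq_zero_or_pos N with rfl | h
  · have := H.N2; have := H.u0; simp at *; linarith
  · exact h

theorem eta_pos : 0 < η := by
  have := H.u0; have := H.g0; have := H.d0
  rw [H.e]; positivity

theorem len : z (b + 2 * N) - z b ≤ u / 2 := by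
  have := (H.toWn.inc le_rfl (2 * N) le_rfl).2
  have := H.N1
  push_cast at *
  linarith

/-- floor and ceiling: the weight against the density `g u^{-3/2}` -/
theorem eta_le {k : ℕ} (h1 : b ≤ k) (h2 : k < b + 2 * N) :
    η ≤ g * (z (k + 1) - z k) / (u * √u) := by
  have := H.u0; have := H.g0
  rw [H.e]
  gcongr
  exact (H.ms k h1 h2).1

theorem mass : N * η ≤ g / (4 * √u) := by
  have hu := H.u0; have := H.g0; have := H.d0
  have hs : 0 < √u := sqrt_pos.2 hu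
  have a1 : 4 * N * δ ≤ u := le_trans (by
    have := H.C1
    gcongr
    exact le_mul_of_one_le_left H.d0.le this) H.N1
  rw [H.e, ← mul_div_assoc, div_le_div_iff₀ (by positivity) (by positivity)]
  nlinarith [mul_le_mul_of_nonneg_left a1 (by positivity : 0 ≤ g * √u)]

theorem mass_sq : (N * η) ^ 2 * (z (b + 2 * N) - z b) ≤ g ^ 2 / 32 := by
  have hu := H.u0; have := H.eta_pos
  have a1 : (N * η) ^ 2 ≤ (g / (4 * √u)) ^ 2 := pow_le_pow_left₀ (by positivity) H.mass 2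
  rw [div_pow, mul_pow, mul_pow, sq_sqrt hu.le, ← mul_pow] at a1
  refine (mul_le_mul a1 H.len (sub_nonneg.2 (H.zm (by omega))) (by positivity)).trans (le_of_eq ?_)
  field_simp
  ring

theorem sqU (B : Finset ℕ) : ∑ j ∈ B, (z j - z (j - 1)) * GU η b N j ^ 2 ≤ g ^ 2 / 32 :=
  (sq_GU H.zm H.eta_pos.le b N B).trans H.mass_sq

theorem sqD (B : Finset ℕ) : ∑ j ∈ B, (z j - z (j - 1)) * GD η b N j ^ 2 ≤ g ^ 2 / 32 :=
  (sq_GD H.zm H.eta_pos.le b N B).trans H.mass_sq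

theorem den {X : ℝ} (hX : 0 ≤ X) : X / (N * (η * (N * δ))) ≤ 64 * C ^ 2 * X / (g * √u) := by
  have hu := H.u0; have := H.g0; have := H.d0; have := H.eta_pos
  have hN : (0 : ℝ) < N := by exact_mod_cast H.N_pos
  have hs : 0 < √u := sqrt_pos.2 hu
  have a1 : u ^ 2 ≤ (8 * N * (C * δ)) ^ 2 := pow_le_pow_left₀ hu.le H.N2 2
  rw [div_le_div_iff₀ (by positivity) (by positivity), mul_assoc, mul_comm X, mul_assoc,
    mul_comm X, ← mul_assoc, ← mul_assoc]
  refine mul_le_mul_of_nonneg_right ?_ hX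
  have e : 64 * C ^ 2 * (N * (η * (N * δ))) = g * (8 * N * (C * δ)) ^ 2 / (u * √u) := by
    rw [H.e]; ring
  have e2 : g * √u = g * u ^ 2 / (u * √u) := by
    rw [eq_div_iff (by positivity)]
    linear_combination (g * u) * mul_self_sqrt hu.le
  rw [e, e2]
  gcongr

/-- **gain of the move up** -/
theorem gainU {s s' : ℕ → ℝ} {R R' X : ℝ} (hX : 0 ≤ X) (h1 : ∀ k ∈ lo b N, R ≤ s k)
    (h2 : ∀ k ∈ lo b N, s' k ≤ R') (h : ∑ k ∈ lo b N, η * (z (k + N) - z k) * s k ≤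
      ∑ k ∈ lo b N, η * (z (k + N) - z k) * s' k + X) : R - R' ≤ 64 * C ^ 2 * X / (g * √u) :=
  (H.toWn.gainU H.N_pos H.eta_pos hX h1 h2 h).trans (H.den hX)

/-- **gain of the move down** -/
theorem gainD {s s' : ℕ → ℝ} {R R' X : ℝ} (hX : 0 ≤ X) (h1 : ∀ k ∈ hi b N, s k ≤ R)
    (h2 : ∀ k ∈ hi b N, R' ≤ s' k) (h : ∑ k ∈ hi b N, η * (z (k - N) - z k) * s k ≤
      ∑ k ∈ hi b N, η * (z (k - N) - z k) * s' k + X) : R' - R ≤ 64 * C ^ 2 * X / (g * √u) :=
  (H.toWn.gainD H.N_pos H.eta_pos hX h1 h2 h).trans (H.den hX)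

end Sh

/-! ### monotone profiles -/

/-- a monotone profile is bounded by its energy above the node -/
theorem top_le (zm : Monotone z) {r : ℕ → ℝ} {q P : ℝ} {B : Finset ℕ} {c e : ℕ} (hce : c ≤ e)
    (hB : Ioc c e ⊆ B) (hr : ∀ j, c < j → j ≤ e → r c ≤ r j)
    (hP : ∑ j ∈ B, (z j - z (j - 1)) * (r j - q) ^ 2 ≤ P) {u : ℝ} (hu : 0 < u)
    (h : u ≤ z e - z c) : r c - q ≤ √(P / u) := by
  rcases le_total (r c) q with h0 | h0
  · exact (sub_nonpos.2 h0).trans (sqrt_nonneg _)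
  refine le_sqrt_of_sq_le ?_
  rw [le_div_iff₀ hu]
  refine (mul_le_mul_of_nonneg_left h (sq_nonneg _)).trans (le_trans ?_ hP)
  rw [← tel z hce, Finset.mul_sum]
  refine le_trans (Finset.sum_le_sum fun j hj => ?_) (Finset.sum_le_sum_of_subset_of_nonneg hB
    fun j _ _ => mul_nonneg (dz_nonneg zm j) (sq_nonneg _))
  rw [mul_comm]
  have := hr j (mem_Ioc.1 hj).1 (mem_Ioc.1 hj).2
  exact mul_le_mul_of_nonneg_left (pow_le_pow_left₀ (by linarith) (by linarith) 2) (dz_nonneg zm j)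

/-- and below the node -/
theorem bot_le (zm : Monotone z) {r : ℕ → ℝ} {q P : ℝ} {B : Finset ℕ} {c e : ℕ} (hce : e ≤ c)
    (hB : Ioc e c ⊆ B) (hr : ∀ j, e < j → j ≤ c → r j ≤ r c)
    (hP : ∑ j ∈ B, (z j - z (j - 1)) * (r j - q) ^ 2 ≤ P) {u : ℝ} (hu : 0 < u)
    (h : u ≤ z c - z e) : q - r c ≤ √(P / u) := by
  rcases le_total q (r c) with h0 | h0
  · exact (sub_nonpos.2 h0).trans (sqrt_nonneg _)
  refine le_sqrt_of_sq_le ?_
  rw [le_div_iff₀ hu]
  refine (mul_le_mul_of_nonneg_left h (sq_nonneg _)).trans (le_trans ?_ hP)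
  rw [← tel z hce, Finset.mul_sum]
  refine le_trans (Finset.sum_le_sum fun j hj => ?_) (Finset.sum_le_sum_of_subset_of_nonneg hB
    fun j _ _ => mul_nonneg (dz_nonneg zm j) (sq_nonneg _))
  rw [mul_comm, ← neg_sq (r j - q), neg_sub]
  have := hr j (mem_Ioc.1 hj).1 (mem_Ioc.1 hj).2
  exact mul_le_mul_of_nonneg_left (pow_le_pow_left₀ (by linarith) (by linarith) 2) (dz_nonneg zm j)

end Crest.Agent.T156.Sr74
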