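import Crest.Agent.T156.SrG_17_Mg
import Crest.Agent.T156.MdDic_67
import Crest.Agent.T156.QCl_33
import Crest.Agent.T156.ClReg_29
import Crest.Agent.T156.SRDef_19

-- ▼ part T156/SrV_79
section

/-!
# Row 156, soft recursion, leaf (VAR): one block and coverings (helper79)
-/

set_option autoImplicit false
set_option linter.unusedSectionVars false

noncomputable section

namespace Crest.Agent.T156.Alt.V79

open Real Finset
open Crest.Agent.T157.E Crest.Agent.T157.Casc Crest.Agent.T157.SL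
open Crest.Agent.T157.G1 (ov)
open Crest.Agent.T156.Cas Crest.Agent.T156.Cas.Sy41 Crest.Agent.T156.Cas.Q33
open Crest.Agent.T156.Cas.Wr5 Crest.Agent.T156.Cas.SrD79 Crest.Agent.T156.Alt.Md67

/-! ### coverings -/

/-- at most `r` consecutive blocks `[k, k + n)` with `Q k n` cover `[k0, k1)` -/
def Cov (Q : ℕ → ℕ → Prop) (k0 k1 : ℕ) (r : ℝ) : Prop :=
  ∃ (b : ℕ → ℕ) (i : ℕ), (i : ℝ) ≤ r ∧ b 0 = k0 ∧ k1 ≤ b i ∧
    ∀ j < i, b j ≤ b (j + 1) ∧ Q (b j) (b (j + 1) - b j)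

section cov
variable {Q Q' : ℕ → ℕ → Prop} {k0 k1 : ℕ} {r r' : ℝ}

theorem Cov.nil (h : k1 ≤ k0) (hr : 0 ≤ r) : Cov Q k0 k1 r :=
  ⟨fun _ => k0, 0, by simpa using hr, rfl, h, fun _ hj => absurd hj (Nat.not_lt_zero _)⟩

theorem Cov.cons {n : ℕ} (h : Q k0 n) (H : Cov Q (k0 + n) k1 r) : Cov Q k0 k1 (r + 1) := by
  obtain ⟨b, i, h1, h2, h3, h4⟩ := H
  refine ⟨fun j => Nat.casesOn j k0 b, i + 1, by push_cast; linarith, rfl, h3, fun j hj => ?_⟩
  cases j with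
  | zero => simpa [h2] using h
  | succ j => exact h4 j (by omega)

theorem Cov.mono (H : Cov Q k0 k1 r) (hQ : ∀ k n, Q k n → Q' k n) (hr : r ≤ r') :
    Cov Q' k0 k1 r' := by
  obtain ⟨b, i, h1, h2, h3, h4⟩ := H
  exact ⟨b, i, h1.trans hr, h2, h3, fun j hj => ⟨(h4 j hj).1, hQ _ _ (h4 j hj).2⟩⟩

/-- coverings from a potential -/
theorem Cov.of_pot {ψ : ℕ → ℝ} {P : ℝ} (h : ∀ k, k0 ≤ k → k < k1 → ψ k ≤ P ∧
    ∃ n, 1 ≤ n ∧ Q k n ∧ (k + n < k1 → ψ k + 1 ≤ ψ (k + n))) (h0 : ψ k0 ≤ P) :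
    Cov Q k0 k1 (P - ψ k0 + 1) := by
  have key : ∀ d k, k0 ≤ k → k1 ≤ k + d → ψ k ≤ P → Cov Q k k1 (P - ψ k + 1) := by
    intro d
    induction d with
    | zero => exact fun k _ h2 h3 => Cov.nil h2 (by linarith)
    | succ d ih =>
      intro k h1 h2 h3
      rcases le_or_gt k1 k with e | e
      · exact Cov.nil e (by linarith)
      obtain ⟨-, n, n1, hQ, hψ⟩ := h k h1 e
      rcases le_or_gt k1 (k + n) with e' | e'
      · exact (Cov.cons hQ (Cov.nil e' le_rfl)).mono (fun _ _ q => q) (by linarith)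
      · exact (Cov.cons hQ (ih (k + n) (by omega) (by omega) (h _ (by omega) e').1)).mono
          (fun _ _ q => q) (by linarith [hψ e'])
  exact key k1 k0 le_rfl (by omega) h0

theorem Cov.sum (H : Cov Q k0 k1 r) {F : ℕ → ℝ} (hF : ∀ k, 0 ≤ F k) {c : ℝ} (hc : 0 ≤ c)
    (h : ∀ k n, Q k n → ∑ j ∈ Ico k (k + n), F j ≤ c) : ∑ j ∈ Ico k0 k1, F j ≤ r * c := by
  obtain ⟨b, i, h1, rfl, h3, h4⟩ := H
  have key : ∀ j ≤ i, b 0 ≤ b j ∧ ∑ k ∈ Ico (b 0) (b j), F k ≤ j * c := by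
    intro j
    induction j with
    | zero => simp
    | succ j ih =>
      intro hj
      obtain ⟨a1, a2⟩ := ih (by omega)
      obtain ⟨a3, a4⟩ := h4 j (by omega)
      have a5 := h _ _ a4
      rw [Nat.add_sub_cancel' a3] at a5
      refine ⟨a1.trans a3, ?_⟩
      rw [← sum_Ico_consecutive _ a1 a3]
      push_cast
      linarith
  exact (sum_le_sum_of_subset_of_nonneg (Ico_subset_Ico_right h3) fun k _ _ => hF k).trans
    ((key i le_rfl).2.trans (mul_le_mul_of_nonneg_right h1 hc))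

end cov

/-! ### one block -/

/-- `E (R - E R)²` at the node `k` -/
def Vr (M : Md) (m : ℕ) (a : ℝ) (k : ℕ) : ℝ := M.E2 m a (fun r => (r - M.rb m a k) ^ 2) k

/-- `∑_S dz (rb - c)²` -/
def Phi (M : Md) (m : ℕ) (a : ℝ) (c : ℕ → ℝ) (S : Finset ℕ) : ℝ :=
  ∑ k ∈ S, M.dz m a k * (M.rb m a k - c k) ^ 2

/-- local data of the block `[k, k + n)`, enlarged block `[k - 3 n, k + 5 n)` -/
structure VL (M : Md) (m : ℕ) (a v K Λ B : ℝ) (c : ℕ → ℝ) (k n : ℕ) (δ x μ ω T : ℝ) : Prop where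
  lo : 3 * n ≤ k
  hi : k + 5 * n ≤ M.N
  δ0 : 0 < δ
  x0 : 0 < x
  μ0 : 0 < μ
  dz : ∀ j, k - 3 * n ≤ j → j < k + 5 * n → δ ≤ M.dz m a j ∧ M.dz m a j ≤ K * δ
  flr : ∀ j, k - 3 * n ≤ j → j < k + 5 * n → μ * v ≤ M.H (j + 1) - M.H j
  clk : ∀ j, k - 3 * n ≤ j → j < k + 5 * n → c (j + 1) - c j ≤ K * v
  tilt : x ≤ M.z (k - 3 * n)
  fine : μ * v * m ≤ 1
  ω1 : v ≤ ω
  ω2 : 4 * Λ * ω ≤ n * v
  b1 : T / (x * μ * m) / ω ≤ B
  b2 : T / (x * μ * m) * δ / (v * x) ≤ B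
  b3 : n * δ * ω ^ 2 ≤ B
  top : 1 ≤ T ∨ (c (k + 4 * n) + K * v * n ≤ T ∧ (1 / (x * μ * m) / ω) ^ 2 ≤ B * (n * δ) ∧
    (1 / (x * μ * m) * δ / (v * x)) ^ 2 ≤ B * (n * δ))

/-- `tr C²` on a block, no ceiling on the rates -/
theorem tc_sum {Ω : Type} [Fintype Ω] {w : Ω → ℝ} {L : List (Lv Ω)} {l₀ : Lv Ω} {τ : ℕ → ℝ}
    (H : Dt w L l₀ τ 1) (h : Ω → ℝ) {lo hi : ℕ} (hl : lo ≤ hi) (hh : hi ≤ L.length)
    {c : ℕ → ℝ} {κ σ x : ℝ} (hκ : 0 ≤ κ) (hσ : 0 < σ) (σ1 : σ ≤ 1)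
    (hc : ∀ j ∈ Ico lo hi, c j ≤ κ) (hτ : ∀ j ∈ Ico lo hi, σ ≤ τ j) (hx : 0 < x)
    (hx' : ∀ j ∈ Ico lo hi, x ≤ ex L j) :
    ∑ j ∈ Ico lo hi, c j * tc w L l₀ h j ≤
      4 * κ / σ * (rho w L l₀ h hi - rho w L l₀ h lo) / x ^ 2 := by
  rw [← sum_Ico_sub (rho w L l₀ h) hl, mul_sum, sum_div]
  refine sum_le_sum fun j hj => ?_
  have t0 := hσ.trans_le (hτ j hj)
  have a1 := H.tc_win h (lo := j) (hi := j + 1) (Nat.le_succ j) ((mem_Ico.1 hj).2.trans_le hh)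
    (c := c) (κ := κ / τ j) (t := τ j) (x := x) (by positivity)
    (fun i hi => by
      rw [Nat.Ico_succ_singleton, mem_singleton] at hi
      rw [hi, div_mul_cancel₀ _ t0.ne']; exact hc j hj)
    (fun i hi => by rw [Nat.Ico_succ_singleton, mem_singleton] at hi; rw [hi, mul_one]) hx
    (fun i hi => by rw [Nat.Ico_succ_singleton, mem_singleton] at hi; rw [hi]; exact hx' j hj)
  rw [Nat.Ico_succ_singleton, sum_singleton] at a1
  refine a1.trans (div_le_div_of_nonneg_right (mul_le_mul_of_nonneg_right ?_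
    (sub_nonneg.2 (rho_mono H.wt L l₀ h (Nat.le_succ j)))) (sq_nonneg x))
  have a2 : κ / τ j ≤ κ / σ := div_le_div_of_nonneg_left hκ hσ (hτ j hj)
  have a3 : κ ≤ κ / σ := le_div_self hκ hσ σ1
  have a4 : κ / τ j * (2 + 2 * τ j) = 2 * (κ / τ j) + 2 * κ := by field_simp
  rw [a4, mul_div_assoc]
  linarith

theorem qb_le {σ T : ℝ} {D n : ℕ} (hσ : 0 < σ) (σ1 : σ ≤ 1) (hT : 0 ≤ T) (hn : n ≤ 2 * 2 ^ D) :
    qb 1 σ D (6 * n) T T ≤ ((D : ℝ) + 2) * (D + 13) * (T / σ) := by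
  have a1 : ((6 * n : ℕ) : ℝ) * T / (σ * 2 ^ D) ≤ 12 * (T / σ) := by
    have : (n : ℝ) ≤ 2 * 2 ^ D := by exact_mod_cast hn
    rw [div_le_iff₀ (by positivity), show 12 * (T / σ) * (σ * 2 ^ D) = 6 * (2 * 2 ^ D) * T by
      field_simp; ring]
    push_cast
    gcongr
  have a2 : T ≤ T / σ := le_div_self hT hσ σ1
  have a3 : ((D : ℝ) / σ + 1) * T = D * (T / σ) + T := by ring
  rw [qb, a3, mul_assoc]
  exact mul_le_mul_of_nonneg_left (by linarith) (by positivity)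

theorem arith {K δ Lg T x μ v m ω Λ Φ : ℝ} {u U n : ℕ} (δ0 : 0 < δ) (x0 : 0 < x) (μ0 : 0 < μ)
    (hv : 0 < v) (m0 : 0 < m) (ω0 : 0 < ω) (T0 : 0 ≤ T) (Φ0 : 0 ≤ Φ) (hK : 1 ≤ K) (hΛ : 1 ≤ Λ)
    (L1 : 1 ≤ Lg) (u3 : (1 : ℝ) ≤ u) (U1 : Λ * u ≤ U) (u4 : u * v ≤ 2 * ω) (u5 : ω ≤ u * v)
    (U4 : U * v ≤ 4 * Λ * ω) (U5 : (U : ℝ) ≤ n) :
    K * δ * (vb n u U δ (K * δ * (Lg * (T / (x * (μ * v * m))))) x (K * v) Φ +
      2 * (K * δ * (Lg * (T / (x * (μ * v * m)))) / (x * δ))) +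
      4 * K * (T / (x * μ * m) * δ / (v * x)) ≤
      16 * K ^ 2 * Lg * (T / (x * μ * m) / ω) + 22 * K ^ 2 * Lg * (T / (x * μ * m) * δ / (v * x)) +
        3072 * K ^ 3 * Λ * (n * δ * ω ^ 2) + 24 * K * Φ / Λ := by
  have u0 : (0 : ℝ) < u := by linarith
  have U3 : (0 : ℝ) < U := by nlinarith
  have K0 : 0 < K := by linarith
  have c1 : K * δ * (16 * (K * δ * (Lg * (T / (x * (μ * v * m))))) / (u * δ ^ 2)) ≤
      16 * K ^ 2 * Lg * (T / (x * μ * m) / ω) := by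
    rw [show K * δ * (16 * (K * δ * (Lg * (T / (x * (μ * v * m))))) / (u * δ ^ 2)) =
      16 * K ^ 2 * Lg * (T / (x * μ * m) / (u * v)) by field_simp]
    gcongr
  have c2 : K * δ * (K * δ * (Lg * (T / (x * (μ * v * m)))) / (x * δ)) =
      K ^ 2 * Lg * (T / (x * μ * m) * δ / (v * x)) := by field_simp
  have c3 : K * δ * (4 * u * (48 * (((n + U : ℕ) : ℝ) * U * (K * v) ^ 2))) ≤
      3072 * K ^ 3 * Λ * (n * δ * ω ^ 2) := by
    have : ((n + U : ℕ) : ℝ) ≤ 2 * n := by push_cast; linarith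
    calc _ = 192 * K ^ 3 * δ * ((n + U : ℕ) : ℝ) * (u * v) * (U * v) := by ring
      _ ≤ 192 * K ^ 3 * δ * (2 * n) * (2 * ω) * (4 * Λ * ω) := by gcongr
      _ = _ := by ring
  have c4 : K * δ * (4 * u * (6 * Φ / (U * δ))) ≤ 24 * K * Φ / Λ := by
    rw [show K * δ * (4 * u * (6 * Φ / (U * δ))) = 24 * K * Φ * u / U by field_simp; ring,
      div_le_div_iff₀ U3 (by linarith)]
    nlinarith [mul_le_mul_of_nonneg_left U1 (by positivity : 0 ≤ 24 * K * Φ)]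
  have c5 : K * (T / (x * μ * m) * δ / (v * x)) ≤ K ^ 2 * Lg * (T / (x * μ * m) * δ / (v * x)) :=
    mul_le_mul_of_nonneg_right (by nlinarith) (by positivity)
  rw [vb, mul_div_assoc 16 _ (x * δ)]
  linarith

variable {M : Md} {m : ℕ} {a v K Λ B δ x μ ω T Φ Lg : ℝ} {c : ℕ → ℝ} {k n : ℕ}

theorem Vr_nonneg (k : ℕ) : 0 ≤ Vr M m a k := E2_nonneg (fun _ _ => sq_nonneg _) k

theorem Phi_mono (G : Md67.Lg M m a) {S S' : Finset ℕ} (e : S ⊆ S') :
    Phi M m a c S ≤ Phi M m a c S' :=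
  sum_le_sum_of_subset_of_nonneg e fun k _ _ => mul_nonneg (G.dz_nonneg k) (sq_nonneg _)

theorem Phi_nonneg (G : Md67.Lg M m a) (S : Finset ℕ) : 0 ≤ Phi M m a c S :=
  sum_nonneg fun k _ => mul_nonneg (G.dz_nonneg k) (sq_nonneg _)

theorem VL.n4 (H : VL M m a v K Λ B c k n δ x μ ω T) (hv : 0 < v) (hΛ : 1 ≤ Λ) : 4 ≤ n := by
  have : (4 : ℝ) * v ≤ n * v := by nlinarith [H.ω1, H.ω2]
  exact_mod_cast le_of_mul_le_mul_right this hv

/-- the block bound for any upper bound `T'` of the mean profile -/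
theorem VL.core (H : VL M m a v K Λ B c k n δ x μ ω T) (G : Md67.Lg M m a) (hv : 0 < v)
    (hK : 1 ≤ K) (hΛ : 1 ≤ Λ) (hL : ((Nat.log 2 n : ℝ) + 2) * (Nat.log 2 n + 13) ≤ Lg)
    (hΦ : Phi M m a c (Ico (k - 3 * n) (k + 5 * n)) ≤ Φ) {T' : ℝ} (hT : M.rb m a (k + 4 * n) ≤ T') :
    ∑ j ∈ Ico k (k + n), M.dz m a j * Vr M m a j ≤
      16 * K ^ 2 * Lg * (T' / (x * μ * m) / ω) + 22 * K ^ 2 * Lg * (T' / (x * μ * m) * δ / (v * x)) +
        3072 * K ^ 3 * Λ * (n * δ * ω ^ 2) + 24 * K * Φ / Λ := by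
  have n4 := H.n4 hv hΛ
  have lo := H.lo
  have hi := H.hi
  have m0 : (0 : ℝ) < m := by exact_mod_cast G.m0
  have δ0 := H.δ0
  have x0 := H.x0
  have μ0 := H.μ0
  have ω0 : 0 < ω := hv.trans_le H.ω1
  have T0 : 0 ≤ T' := (rb_nonneg G.m0 _).trans hT
  have Φ0 : 0 ≤ Φ := (Phi_nonneg G _).trans hΦ
  have x1 : x ≤ 1 := H.tilt.trans (G.z1 _)
  have L1 : (1 : ℝ) ≤ Lg := le_trans (by nlinarith [Nat.cast_nonneg (α := ℝ) (Nat.log 2 n)]) hL
  have hρ := rho_mono Link33.wt1 (M.L m a) (sl m) 0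
  have eρ : ∀ j, rho (fun _ => 1) (M.L m a) (sl m) 0 (j + 1) = M.rb m a j :=
    fun j => (rb_eq (sl_cov G.m0) j).symm
  have ρ0 : ∀ j, 0 ≤ rho (fun _ => 1) (M.L m a) (sl m) 0 j := fun j => rho_nonneg _ _ _ j
  have hex : ∀ j, k - 3 * n + 1 ≤ j → x ≤ ex (M.L m a) j := fun j hj => by
    obtain ⟨i, rfl⟩ : ∃ i, j = i + 1 := ⟨j - 1, by omega⟩
    rw [ex_succ G.toLeg]; exact H.tilt.trans (G.zm (by omega))
  have hτ : ∀ j, k - 3 * n + 1 ≤ j → j < k + 5 * n + 1 → μ * v * m ≤ dh M j * m := fun j h1 h2 => by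
    obtain ⟨i, rfl⟩ : ∃ i, j = i + 1 := ⟨j - 1, by omega⟩
    rw [dh_succ (by omega)]
    exact mul_le_mul_of_nonneg_right (H.flr i (by omega) (by omega)) m0.le
  have hd : ∀ j, k - 3 * n + 1 ≤ j → j < k + 5 * n + 1 →
      δ ≤ dm (M.L m a) 0 j ∧ dm (M.L m a) 0 j ≤ K * δ := fun j h1 h2 => by
    obtain ⟨i, rfl⟩ : ∃ i, j = i + 1 := ⟨j - 1, by omega⟩
    exact H.dz i (by omega) (by omega)
  set σ := x * (μ * v * m) with hσ
  have σ0 : 0 < σ := by positivity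
  have σ1 : σ ≤ 1 := mul_le_one₀ x1 (by positivity) H.fine
  have bl : Blk (fun _ => 1) (M.L m a) (sl m) (fun k => dh M k * m) 1 σ (k - 3 * n + 1)
      (k + 4 * n) := ⟨G.dt, by rw [len_L]; omega, σ0, fun j h1 h2 =>
        mul_le_mul (hex j h1) (hτ j h1 (by omega)) (by positivity) (x0.le.trans (hex j h1))⟩
  have D1 : 2 ^ Nat.log 2 n ≤ n := Nat.pow_log_le_self 2 (by omega)
  have D2 : n ≤ 2 * 2 ^ Nat.log 2 n := by
    have := Nat.lt_pow_succ_log_self (b := 2) (by norm_num) n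
    rw [pow_succ] at this; omega
  have t1 : rho (fun _ => 1) (M.L m a) (sl m) 0 (k + 4 * n + 1 - 1) ≤ T' :=
    (hρ (Nat.sub_le _ _)).trans ((eρ _).trans_le hT)
  have hA : al (fun _ => 1) (M.L m a) (sl m) 0 (Ico (k - 2 * n + 1) (k + 4 * n + 1)) ≤
      K * δ * (Lg * (T' / σ)) := by
    refine (bl.q1 0 (D := Nat.log 2 n) (lo := k - 2 * n + 1) (hi := k + 4 * n + 1) (by omega)
      (by omega) le_rfl t1 (rise := T') (by linarith [ρ0 (k - 2 * n + 1 - 2 ^ Nat.log 2 n)])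
      (c := dm (M.L m a) 0) (κ := K * δ) (by positivity)
      fun j hj => (hd j (by have := mem_Ico.1 hj; omega) (by have := mem_Ico.1 hj; omega)).2).trans
      (mul_le_mul_of_nonneg_left ?_ (by positivity))
    rw [show k + 4 * n + 1 - (k - 2 * n + 1) = 6 * n by omega]
    exact (qb_le σ0 σ1 T0 D2).trans (mul_le_mul_of_nonneg_right hL (by positivity))
  have hZ := tc_sum G.dt 0 (lo := k + 1) (hi := k + n + 1) (by omega) (by rw [len_L]; omega)
    (c := dm (M.L m a) 0) (κ := K * δ) (σ := μ * v * m) (x := x) (by positivity) (by positivity)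
    H.fine (fun j hj => (hd j (by have := mem_Ico.1 hj; omega) (by have := mem_Ico.1 hj; omega)).2)
    (fun j hj => hτ j (by have := mem_Ico.1 hj; omega) (by have := mem_Ico.1 hj; omega)) x0
    fun j hj => hex j (by have := mem_Ico.1 hj; omega)
  have hZ' : 4 * (K * δ) / (μ * v * m) * (rho (fun _ => 1) (M.L m a) (sl m) 0 (k + n + 1) -
      rho (fun _ => 1) (M.L m a) (sl m) 0 (k + 1)) / x ^ 2 ≤
      4 * K * (T' / (x * μ * m) * δ / (v * x)) := by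
    have e1 : rho (fun _ => 1) (M.L m a) (sl m) 0 (k + n + 1) -
        rho (fun _ => 1) (M.L m a) (sl m) 0 (k + 1) ≤ T' := by
      linarith [ρ0 (k + 1), eρ (k + 4 * n), hρ (by omega : k + n + 1 ≤ k + 4 * n + 1)]
    refine (div_le_div_of_nonneg_right (mul_le_mul_of_nonneg_left e1 (by positivity))
      (sq_nonneg x)).trans (le_of_eq ?_)
    field_simp
  -- window sizes
  set u := ⌈ω / v⌉₊ with hu
  have u1 : ω / v ≤ u := Nat.le_ceil _
  have w1 : 1 ≤ ω / v := (one_le_div hv).2 H.ω1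
  have u2 : (u : ℝ) ≤ 2 * (ω / v) := by linarith [Nat.ceil_lt_add_one (zero_le_one.trans w1)]
  have u3 : (1 : ℝ) ≤ u := w1.trans u1
  set U := ⌈Λ * u⌉₊ with hU
  have U1 : Λ * u ≤ U := Nat.le_ceil _
  have U0 : 1 ≤ Λ * u := one_le_mul_of_one_le_of_one_le hΛ u3
  have U2 : (U : ℝ) ≤ 2 * (Λ * u) := by linarith [Nat.ceil_lt_add_one (zero_le_one.trans U0)]
  have u4 : u * v ≤ 2 * ω := by rwa [← mul_div_assoc, le_div_iff₀ hv] at u2
  have u5 : ω ≤ u * v := by rwa [div_le_iff₀ hv] at u1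
  have U4 : U * v ≤ 4 * Λ * ω := by
    nlinarith [mul_le_mul_of_nonneg_right U2 hv.le, mul_le_mul_of_nonneg_left u4 (by linarith : 0 ≤ Λ)]
  have U5 : (U : ℝ) ≤ n := le_of_mul_le_mul_right (U4.trans H.ω2) hv
  have U6 : U ≤ n := by exact_mod_cast U5
  have uU : u ≤ U := by
    have : (u : ℝ) ≤ U := le_trans (le_mul_of_one_le_left (by linarith) hΛ) U1
    exact_mod_cast this
  have hP : SrD79.Ph (fun _ => 1) (M.L m a) (sl m) 0 (fun j => c (j - 1))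
      (Ico (k - 2 * n + 1) (k + 4 * n + 1)) ≤ Φ := by
    rw [SrD79.Ph, ← sum_Ico_add']
    refine le_trans (le_of_eq (sum_congr rfl fun j _ => ?_)) ((Phi_mono G (S := Ico (k - 2 * n)
      (k + 4 * n)) (Ico_subset_Ico (by omega) (by omega))).trans hΦ)
    rw [eρ, dm_succ, Nat.add_sub_cancel]
  have key := pair_phi Link33.wt1 G.monoL 0 G.sym ts_trans (ts_cov (sl_cov G.m0))
    (lo := k + 1) (hi := k + n + 1) (lo' := k - 2 * n + 1) (hi' := k + 4 * n + 1) (u := u) (U := U)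
    (by exact_mod_cast u3) uU (by omega) (by omega) (by omega) (by omega) (by rw [len_L]; omega) δ0
    (fun j hj => (hd j (by have := mem_Ico.1 hj; omega) (by have := mem_Ico.1 hj; omega)).1) x0
    (fun j hj => hex j (by have := mem_Ico.1 hj; omega)) hA (q := fun j => c (j - 1))
    (g := K * v) (by positivity) (fun j h1 h2 => by
      obtain ⟨i, rfl⟩ : ∃ i, j = i + 1 := ⟨j - 1, by omega⟩
      exact H.clk i (by omega) (by omega)) hP (c := dm (M.L m a) 0) (κ := K * δ) (by positivity)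
    (fun j hj => ⟨dm_nonneg G.monoL j,
      (hd j (by have := mem_Ico.1 hj; omega) (by have := mem_Ico.1 hj; omega)).2⟩)
    (hZ.trans hZ') (rho (fun _ => 1) (M.L m a) (sl m) 0)
  rw [← sum_Ico_add', ← sum_Ico_add'] at key
  simp only [sub_self, sq, mul_zero, sum_const_zero, zero_add, eρ, dm_succ, sl_cov G.m0] at key
  have e0 : ∑ j ∈ Ico k (k + n), M.dz m a j * Vr M m a j = ∑ j ∈ Ico k (k + n), M.dz m a j *
      pi2 (fun _ => 1) (M.L m a) (j + 1)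
        (fun x y => (ov x y - M.rb m a j) * (ov x y - M.rb m a j)) 0 := by
    simp only [Vr, Md.E2, sq]
  rw [e0]
  refine key.trans ?_
  rw [show k + n + 1 - (k + 1) = n by omega]
  exact arith δ0 x0 μ0 hv m0 ω0 T0 Φ0 hK hΛ L1 u3 U1 u4 u5 U4 U5

/-- **one block** -/
theorem VL.bound (H : VL M m a v K Λ B c k n δ x μ ω T) (G : Md67.Lg M m a) (hv : 0 < v)
    (hK : 1 ≤ K) (hΛ : 1 ≤ Λ) (hL : ((Nat.log 2 n : ℝ) + 2) * (Nat.log 2 n + 13) ≤ Lg)
    (hΦ : Phi M m a c (Ico (k - 3 * n) (k + 5 * n)) ≤ Φ) :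
    ∑ j ∈ Ico k (k + n), M.dz m a j * Vr M m a j ≤
      4000 * K ^ 4 * Lg ^ 2 * Λ * B + 26 * K * Φ / Λ := by
  have n4 := H.n4 hv hΛ
  have n0 : (0 : ℝ) < n := by exact_mod_cast (by omega : 0 < n)
  have m0 : (0 : ℝ) < m := by exact_mod_cast G.m0
  have δ0 := H.δ0
  have x0 := H.x0
  have μ0 := H.μ0
  have ω0 : 0 < ω := hv.trans_le H.ω1
  have Φ0 : 0 ≤ Φ := (Phi_nonneg G _).trans hΦ
  have L1 : (1 : ℝ) ≤ Lg := le_trans (by nlinarith [Nat.cast_nonneg (α := ℝ) (Nat.log 2 n)]) hL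
  have B0 : 0 ≤ B := le_trans (by positivity) H.b3
  have K0 : 0 < K := by linarith
  have Λ0 : 0 < Λ := by linarith
  set W := K ^ 4 * Lg ^ 2 * Λ * B with hW
  have a1 : K ^ 2 * Lg * B ≤ W := by
    have : K ^ 2 * Lg ^ 1 * 1 ≤ K ^ 4 * Lg ^ 2 * Λ := by gcongr <;> norm_num
    rw [pow_one, mul_one] at this
    exact mul_le_mul_of_nonneg_right this B0
  have a2 : K ^ 3 * Λ * B ≤ W := by
    have : K ^ 3 * Lg ^ 0 * Λ ≤ K ^ 4 * Lg ^ 2 * Λ := by gcongr <;> norm_num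
    rw [pow_zero, mul_one] at this
    exact mul_le_mul_of_nonneg_right this B0
  have b1 := mul_le_mul_of_nonneg_left H.b1 (by positivity : 0 ≤ K ^ 2 * Lg)
  have b2 := mul_le_mul_of_nonneg_left H.b2 (by positivity : 0 ≤ K ^ 2 * Lg)
  have b3 := mul_le_mul_of_nonneg_left H.b3 (by positivity : 0 ≤ K ^ 3 * Λ)
  have W0 : 0 ≤ W := by positivity
  have p0 : 0 ≤ Φ / Λ := by positivity
  have p1 : Φ / Λ ≤ K * (Φ / Λ) := le_mul_of_one_le_left p0 hK
  have p2 : 24 * K * Φ / Λ = 24 * (K * (Φ / Λ)) := by ring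
  rw [show 4000 * K ^ 4 * Lg ^ 2 * Λ * B + 26 * K * Φ / Λ = 4000 * W + 26 * (K * (Φ / Λ)) by
    rw [hW]; ring]
  rcases H.top with h | ⟨h1, h2, h3⟩
  · have := H.core G hv hK hΛ hL hΦ ((rb_le_one G.m0 _).trans h)
    linarith
  have lo := H.lo
  have t := top_le (rb_mono (M := M) (a := a) G.m0) (i := k + 4 * n) (U := n) (q := c)
    (d := M.dz m a) (g := K * v) (Φ := Φ) (by omega) (by positivity) δ0
    (fun j e e' => H.clk j (by omega) (by omega))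
    (fun j hj => (H.dz j (by have := mem_Ico.1 hj; omega) (by have := mem_Ico.1 hj; omega)).1)
    ((Phi_mono G (S := Ico (k + 4 * n) (k + 4 * n + n)) (Ico_subset_Ico (by omega)
      (by omega))).trans hΦ)
  have key := H.core G hv hK hΛ hL hΦ (T' := T + √(Φ / (n * δ))) (by linarith)
  set s := √(Φ / (n * δ)) with hs
  have s2 : s ^ 2 * (n * δ) = Φ := by rw [hs, sq_sqrt (by positivity)]; field_simp
  have yg : ∀ {e y : ℝ}, y ^ 2 ≤ B * (n * δ) →
      e * K ^ 2 * Lg * (s * y) ≤ Φ / Λ + e ^ 2 / 4 * W := fun {e y} hy => by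
    have hn : 0 < n * δ := by positivity
    have q1 : e ^ 2 / 4 * (K ^ 4 * Lg ^ 2 * Λ) * (y ^ 2 / (n * δ)) ≤ e ^ 2 / 4 * W := by
      rw [hW, ← mul_assoc (e ^ 2 / 4) _ B]
      exact mul_le_mul_of_nonneg_left ((div_le_iff₀ hn).2 hy) (by positivity)
    refine le_trans ?_ (add_le_add le_rfl q1)
    rw [← s2, ← sub_nonneg, show s ^ 2 * (n * δ) / Λ + e ^ 2 / 4 * (K ^ 4 * Lg ^ 2 * Λ) *
      (y ^ 2 / (n * δ)) - e * K ^ 2 * Lg * (s * y) =
      (s * (n * δ) - e / 2 * K ^ 2 * Lg * Λ * y) ^ 2 / (Λ * (n * δ)) by field_simp; ring]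
    positivity
  have y1 := yg (e := 16) h2
  have y2 := yg (e := 22) h3
  have e1 : (T + s) / (x * μ * m) / ω = T / (x * μ * m) / ω + s * (1 / (x * μ * m) / ω) := by ring
  have e2 : (T + s) / (x * μ * m) * δ / (v * x) =
      T / (x * μ * m) * δ / (v * x) + s * (1 / (x * μ * m) * δ / (v * x)) := by ring
  rw [e1, e2] at key
  linarith

end Crest.Agent.T156.Alt.V79

end
end

-- ▼ part T156/SrV_17
section

/-!
# Row 156, soft recursion, leaf (VAR): the covering of the top window and of the plateau (helper17)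

Pair form: the base `M` is in the class and gives the grid, `N` lives on the same grid.
-/

set_option autoImplicit false

noncomputable section

namespace Crest.Agent.T156.Alt.V17

open Real Finset
open Crest.Agent.T156.Alt.Md67 Crest.Agent.T156.Alt.C33 Crest.Agent.T156.Alt.V79
open Crest.Agent.T156.Sg17

/-- the data of the top covering -/
structure TH (S : Sc) (M N : Md) (m : ℕ) (K Λ B lm μ : ℝ) (c : ℕ → ℝ) : Prop where
  eN : N.N = M.N
  ez : N.z = M.z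
  leg : ∃ x, N.Leg x
  K1 : 1 ≤ K
  L1 : 1 ≤ Λ
  B0 : 0 < B
  j4 : S.j0 ≤ S.J / 4
  dj : 1 / K ≤ S.den (M.z (S.J - 1)) ∧ S.den (M.z (S.J - 1)) ≤ K
  lm1 : ∀ x, M.z (S.J - 1) ≤ x → x ≤ 1 - B →
    lm ≤ S.den x * min (x - M.z (S.J - 1) + S.u0) (1 - x)
  ue : S.ue ≤ B
  μ0 : 0 < μ
  flr : ∀ j, S.J / 4 ≤ j → j < S.Jp → μ * S.v ≤ N.H (j + 1) - N.H j
  clk : ∀ j, S.J / 4 ≤ j → j < S.Jp → c (j + 1) - c j ≤ K * S.v
  fine : μ * S.v * m ≤ 1
  y1 : 1 / (μ * m) ≤ K * (B * lm)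
  y2 : (1 / (μ * m)) ^ 2 ≤ K ^ 2 * B ^ 3
  v1 : 9600 * S.C ^ 7 * K ^ 2 * Λ * S.v ≤ lm
  v2 : S.v ^ 2 ≤ B

/-- the constant of the covering -/
def K2 (C K : ℝ) : ℝ := 320 * (30 * C ^ 5) ^ 3 * (C * K) ^ 4

variable {S : Sc} {M N : Md} {m : ℕ} {a K Λ B lm μ : ℝ} {c : ℕ → ℝ}

theorem cmp_den (H : Cl S M) (hu : 0 < S.u0) {r0 x y : ℝ} (hx : x < 1)
    (h : |x - y| ≤ rh (M.z (S.J - 1)) S.u0 r0 x / 4) :
    S.den (max x (M.z (S.J - 1))) ≤ S.C * S.den (max y (M.z (S.J - 1))) ∧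
      S.den (max y (M.z (S.J - 1))) ≤ S.C * S.den (max x (M.z (S.J - 1))) := by
  set xs := M.z (S.J - 1)
  have C0 : 0 < S.C := zero_lt_one.trans_le H.C1
  have xs1 : xs < 1 := by linarith [H.atom.2, one_div_pos.2 C0]
  have a1 : rh xs S.u0 r0 x ≤ |x - xs| + S.u0 := (min_le_left _ _).trans (min_le_left _ _)
  have a2 : rh xs S.u0 r0 x ≤ 1 - x := (min_le_left _ _).trans (min_le_right _ _)
  obtain ⟨h1, h2⟩ := abs_le.1 h
  rcases le_total x xs with k | k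
  · rw [abs_of_nonpos (sub_nonpos.2 k)] at a1
    rw [max_eq_right k]
    rcases le_total y xs with l | l
    · rw [max_eq_right l]
      exact H.dens xs xs le_rfl le_rfl xs1 (le_min (by linarith) (by linarith))
    · rw [max_eq_left l]
      exact H.dens xs y le_rfl l (by linarith) (le_min (by linarith) (by linarith))
  · rw [abs_of_nonneg (sub_nonneg.2 k)] at a1
    rw [max_eq_left k]
    rcases le_total x y with l | l
    · rw [max_eq_left (k.trans l)]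
      exact H.dens x y k l (by linarith) (le_min (by linarith) (by linarith))
    · have b1 := le_max_left y xs
      have b2 := le_max_right y xs
      exact (H.dens (max y xs) x b2 (max_le l k) hx (le_min (by linarith) (by linarith))).symm

namespace TH

variable (T : TH S M N m K Λ B lm μ c) (F : Fn S M m a) (hB : 4 * B ≤ 1 / S.C)
include T F hB

theorem base : lm ≤ S.den (M.z (S.J - 1)) * min S.u0 (1 - M.z (S.J - 1)) := by
  have := T.lm1 _ le_rfl (by linarith [F.atom.2, T.B0])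
  rwa [sub_self, zero_add] at this

omit hB in
theorem lm0 : 0 < lm := lt_of_lt_of_le (by
  have := F.C0; have := F.v0; have := T.K1; have := T.L1; positivity) T.v1

theorem u0 : 0 < S.u0 ∧ lm ≤ K * S.u0 ∧ lm ≤ K := by
  have h := T.base F hB
  have d0 := F.den0 (M.z (S.J - 1))
  have p : 0 < min S.u0 (1 - M.z (S.J - 1)) :=
    pos_of_mul_pos_left ((T.lm0 F).trans_le (h.trans_eq (mul_comm _ _))) d0.le
  have K0 : 0 ≤ K := zero_le_one.trans T.K1
  have h2 := h.trans (mul_le_mul_of_nonneg_right T.dj.2 p.le)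
  refine ⟨p.trans_le (min_le_left _ _), h2.trans (mul_le_mul_of_nonneg_left (min_le_left _ _) K0),
    h2.trans (mul_le_of_le_one_right K0 ((min_le_right _ _).trans ?_))⟩
  linarith [F.z_pos (S.J - 1)]

theorem J16 : 16 ≤ S.J := by
  by_contra h
  have j : (S.J : ℝ) ≤ 16 := by exact_mod_cast (by omega : S.J ≤ 16)
  have C1 := F.C1
  have K1 := T.K1
  have v0 := F.v0
  have a1 := F.J_lo
  have a2 : 9600 * S.C ^ 7 * K ^ 2 * S.v ≤ K := by
    refine le_trans ?_ (T.v1.trans (T.u0 F hB).2.2)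
    rw [mul_right_comm _ Λ]
    exact le_mul_of_one_le_right (by positivity) T.L1
  have a3 : 9600 * S.C ^ 3 * S.v * K ≤ 1 * K := by
    refine le_trans ?_ (a2.trans_eq (one_mul K).symm)
    calc _ = 9600 * S.C ^ 3 * K ^ 1 * S.v := by ring
      _ ≤ _ := by gcongr <;> norm_num
  have a4 := le_of_mul_le_mul_right a3 (by linarith)
  nlinarith [mul_le_mul_of_nonneg_right j (by positivity : 0 ≤ S.C ^ 3 * S.v)]

theorem gm : Gm M.z (fun x => S.den (max x (M.z (S.J - 1))))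
    (rh (M.z (S.J - 1)) S.u0 (1 / (30 * S.C ^ 5))) S.v (S.C * K) (lm / (30 * S.C ^ 5)) (4 * B)
    (S.J / 4) S.Jp := by
  have C1 := F.C1
  have C0 := F.C0
  have K1 := T.K1
  have v0 := F.v0
  have B0 := T.B0
  have CK : S.C ≤ S.C * K := le_mul_of_one_le_right C0.le K1
  obtain ⟨u0, -⟩ := T.u0 F hB
  refine ⟨F.leg.zm, C1.trans CK, v0, fun _ => F.den0 _, fun j j1 j2 => ?_, rh_lip _ _ _,
    fun x y hx h => ?_, fun x hx => ?_, ?_⟩
  · rcases lt_or_ge (j + 1) S.J with h | h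
    · obtain ⟨s1, s2⟩ := F.zs j (T.j4.trans j1) h
      rw [max_eq_right (F.leg.zm (by omega))]
      constructor
      · rw [← div_div, div_eq_mul_one_div]
        exact mul_le_mul s1 T.dj.1 (by positivity) ((div_pos v0 C0).le.trans s1)
      · rw [mul_right_comm]
        exact mul_le_mul s2 T.dj.2 (F.den0 _).le (by positivity)
    · obtain ⟨s1, s2⟩ := F.plat (j + 1) h j2
      rw [Nat.add_sub_cancel] at s1 s2
      rw [max_eq_left (F.leg.zm (by omega))]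
      exact ⟨(div_le_div_of_nonneg_left v0.le C0 CK).trans s1,
        s2.trans (mul_le_mul_of_nonneg_right CK v0.le)⟩
  · obtain ⟨c1, c2⟩ := cmp_den F.toCl u0 (by linarith) h
    exact ⟨c1.trans (mul_le_mul_of_nonneg_right CK (F.den0 _).le),
      c2.trans (mul_le_mul_of_nonneg_right CK (F.den0 _).le)⟩
  · have X1 : 1 ≤ 30 * S.C ^ 5 := by linarith [one_le_pow₀ (n := 5) C1]
    have r1 : 1 / (30 * S.C ^ 5) ≤ 1 := (div_le_one (by positivity)).2 X1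
    have key : ∀ p q : ℝ, 0 ≤ p → p ≤ 1 → p ≤ q → ∀ d, 0 < d → lm ≤ d * p →
        lm / (30 * S.C ^ 5) ≤ d * min q (1 / (30 * S.C ^ 5)) := fun p q p0 p1 pq d d0 h => by
      rw [div_eq_mul_one_div]
      refine (mul_le_mul_of_nonneg_right h (by positivity)).trans ?_
      rw [mul_assoc]
      exact mul_le_mul_of_nonneg_left (le_min ((mul_le_of_le_one_right p0 r1).trans pq)
        (mul_le_of_le_one_left (by positivity) p1)) d0.le
    have z0 := F.z_pos (S.J - 1)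
    rcases le_total x (M.z (S.J - 1)) with k | k
    · simp only [max_eq_right k]
      exact key _ _ (le_min u0.le (by linarith [F.leg.z1 (S.J - 1)]))
        ((min_le_right _ _).trans (by linarith))
        (min_le_min (by linarith [abs_nonneg (x - M.z (S.J - 1))]) (by linarith)) _ (F.den0 _)
        (T.base F hB)
    · simp only [max_eq_left k]
      exact key _ _ (le_min (by linarith) (by linarith)) ((min_le_right _ _).trans (by linarith))
        (min_le_min (by linarith [le_abs_self (x - M.z (S.J - 1))]) le_rfl) _ (F.den0 _)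
        (T.lm1 x k (by linarith))
  · rw [le_div_iff₀ (by positivity)]
    refine le_trans ?_ T.v1
    have : 0 ≤ S.C ^ 7 * K ^ 2 * S.v := by positivity
    nlinarith [mul_le_mul_of_nonneg_left T.L1 this]

theorem low : 1 / (30 * S.C ^ 5) ≤ M.z (S.J / 4) ∧
    1 / (30 * S.C ^ 5) ≤ M.z (S.J / 2 - 1) - M.z (S.J / 4) := by
  have J := T.J16 F hB
  have C1 := F.C1
  have C0 := F.C0
  have v0 := F.v0
  have a1 := F.J_lo
  constructor
  · have a2 := F.z_lo T.j4 (by omega)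
    have a3 : (S.J : ℝ) ≤ 5 * (S.J / 4 : ℕ) := by exact_mod_cast (by omega : S.J ≤ 5 * (S.J / 4))
    rw [div_le_iff₀ (by positivity)]
    nlinarith [mul_le_mul_of_nonneg_left a2 (by positivity : 0 ≤ 15 * S.C ^ 3),
      mul_le_mul_of_nonneg_right a3 (by positivity : 0 ≤ 3 * S.C ^ 3 * S.v)]
  · have s := card_nsmul_le_sum (Ico (S.J / 4) (S.J / 2 - 1)) (fun j => M.z (j + 1) - M.z j)
      (S.v / S.C) fun j hj => by
        have := mem_Ico.1 hj
        exact (F.zs j (T.j4.trans this.1) (by omega)).1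
    rw [sum_Ico_sub M.z (by omega), Nat.card_Ico, nsmul_eq_mul] at s
    refine le_trans ?_ s
    have a3 : (S.J : ℝ) ≤ 8 * (S.J / 2 - 1 - S.J / 4 : ℕ) := by
      exact_mod_cast (by omega : S.J ≤ 8 * (S.J / 2 - 1 - S.J / 4))
    have d0 : (0 : ℝ) ≤ (S.J / 2 - 1 - S.J / 4 : ℕ) := Nat.cast_nonneg _
    generalize ((S.J / 2 - 1 - S.J / 4 : ℕ) : ℝ) = d at a3 d0
    rw [← mul_div_assoc, div_le_div_iff₀ (by positivity) C0]
    have a4 : 1 ≤ 24 * S.C ^ 3 * (d * S.v) := by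
      nlinarith [mul_le_mul_of_nonneg_right a3 (by positivity : 0 ≤ 3 * S.C ^ 3 * S.v)]
    have a5 : S.C ^ 4 ≤ S.C ^ 5 := pow_le_pow_right₀ C1 (by norm_num)
    have a6 : 0 ≤ d * S.v := by positivity
    nlinarith [mul_le_mul_of_nonneg_right a4 C0.le, mul_le_mul_of_nonneg_left a5 a6,
      mul_nonneg a6 (pow_nonneg C0.le 5)]

/-- one block -/
theorem blk {k : ℕ} (h1 : S.J / 2 ≤ k + 1) (h2 : k < S.Jp) (hx : M.z k ≤ 1 - 4 * B) :
    ∃ n, 1 ≤ n ∧ ((S.J / 4 + 3 * n < k + 1 ∧ k + 1 + 5 * n ≤ S.Jp) ∧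
      ∃ δ x ω, VL N m a S.v (K2 S.C K) Λ (K2 S.C K * Λ * B) c (k + 1) n δ x μ ω 1) ∧
      M.z k + 1 / (80 * (S.C * K) ^ 4) *
        rh (M.z (S.J - 1)) S.u0 (1 / (30 * S.C ^ 5)) (M.z k) ≤ M.z (k + n) := by
  have G := T.gm F hB
  have J := T.J16 F hB
  obtain ⟨l1, l2⟩ := T.low F hB
  have C1 := F.C1
  have C0 := F.C0
  have K1 := T.K1
  have L1 := T.L1
  have v0 := F.v0
  have B0 := T.B0
  have μ0 := T.μ0
  have lm0 := T.lm0 F
  have m0 : (0 : ℝ) < m := (zero_lt_one.trans_le F.n1).trans_le F.nm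
  set X := 30 * S.C ^ 5 with hX
  have X1 : 1 ≤ X := by linarith [one_le_pow₀ (n := 5) C1]
  have r1 : rh (M.z (S.J - 1)) S.u0 (1 / X) (M.z k) ≤ 1 - M.z k :=
    (min_le_left _ _).trans (min_le_right _ _)
  obtain ⟨n, δ, d0, n1, n2, n3, n4, n5, n6, n7⟩ := G.blk hx (by omega) h2
    ((min_le_right _ _).trans (l2.trans (sub_le_sub_right (F.leg.zm (by omega)) _)))
    (by linarith [F.last, T.ue])
  have CK : 1 ≤ S.C * K := G.C1
  have k1 : (S.C * K) ^ 4 ≤ K2 S.C K :=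
    le_mul_of_one_le_left (by positivity) (by linarith [one_le_pow₀ (n := 3) X1])
  have k0 : K ≤ S.C * K := le_mul_of_one_le_left (by linarith) C1
  have k2 : K ≤ K2 S.C K := (k0.trans (le_self_pow₀ CK (by norm_num))).trans k1
  have k3 : ∀ i ≤ 3, ∀ j ≤ 3, 320 * X ^ i * (S.C * K) ^ j * K ≤ K2 S.C K := fun i hi j hj => by
    calc _ ≤ 320 * X ^ 3 * (S.C * K) ^ 3 * (S.C * K) := by gcongr
      _ = _ := by rw [K2]; ring
  have dzN : ∀ j, N.dz m a (j + 1) = M.z (j + 1) - M.z j := fun j => by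
    obtain ⟨x, hx⟩ := T.leg
    rw [dz_succ hx, T.ez]
  have k4 : ∀ i ≤ 3, ∀ j ≤ 3, 320 * X ^ i * (S.C * K) ^ j * K * B ≤ K2 S.C K * Λ * B :=
    fun i hi j hj => mul_le_mul_of_nonneg_right ((k3 i hi j hj).trans
      (le_mul_of_one_le_right (by linarith) L1)) B0.le
  have ρ1 : n * δ ≤ 1 := by linarith [F.z_pos k]
  have y0 : 0 < 1 / (μ * m) := by positivity
  have ey : 1 / (1 / X * μ * m) = X * (1 / (μ * m)) := by field_simp
  have Jp := F.i4
  refine ⟨n, ?_, ⟨⟨by omega, by omega⟩, δ, 1 / X, min (√B) (lm / (320 * X * (S.C * K) ^ 2 * Λ)), by omega,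
    by rw [T.eN]; omega, d0, by positivity, μ0, fun j j1 j2 => ?_,
    fun j j1 j2 => T.flr j (by omega) (by omega),
    fun j j1 j2 => (T.clk j (by omega) (by omega)).trans (mul_le_mul_of_nonneg_right k2 v0.le),
    ?_, T.fine, le_min (le_sqrt_of_sq_le T.v2) ?_, ?_, ?_, ?_, ?_, Or.inl le_rfl⟩, ?_⟩
  · rcases Nat.eq_zero_or_pos n with h | h
    · rw [h, Nat.cast_zero, zero_mul, mul_zero] at n1
      exact absurd n1 (not_le.2 (by positivity))
    · exact h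
  · obtain ⟨i, rfl⟩ : ∃ i, j = i + 1 := ⟨j - 1, by omega⟩
    rw [dzN]
    obtain ⟨e1, e2⟩ := n6 i (by omega) (by omega)
    exact ⟨e1, e2.trans (mul_le_mul_of_nonneg_right k1 d0.le)⟩
  · rw [T.ez]
    exact l1.trans (F.leg.zm (by omega))
  · rw [le_div_iff₀ (by positivity)]
    refine le_of_eq_of_le ?_ T.v1
    rw [hX]; ring
  · refine (mul_le_mul_of_nonneg_left (min_le_right _ _) (by positivity)).trans
      (le_of_mul_le_mul_left (le_of_eq_of_le ?_ n1) (by positivity))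
    field_simp
    ring
  · rw [ey, div_le_iff₀ (lt_min (sqrt_pos.2 B0) (by positivity)),
      mul_min_of_nonneg _ _ (by have := k2.trans' K1; positivity)]
    refine le_min ?_ ?_
    · have a1 : 1 / (μ * m) ≤ K * B * √B := by
        refine (pow_le_pow_iff_left₀ y0.le (by positivity) two_ne_zero).1 ?_
        rw [mul_pow, mul_pow, sq_sqrt B0.le]
        exact T.y2.trans_eq (by ring)
      have a2 := mul_le_mul_of_nonneg_right (k4 1 (by norm_num) 0 (by norm_num)) (sqrt_nonneg B)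
      have a3 : 0 ≤ X * (K * B * √B) := by positivity
      nlinarith [mul_le_mul_of_nonneg_left a1 (by positivity : 0 ≤ X)]
    · rw [← mul_div_assoc _ lm, le_div_iff₀ (by positivity)]
      have a2 := mul_le_mul_of_nonneg_right (k3 2 (by norm_num) 2 (by norm_num))
        (by positivity : 0 ≤ Λ * B * lm)
      nlinarith [mul_le_mul_of_nonneg_left T.y1
        (by positivity : 0 ≤ X * (320 * X * (S.C * K) ^ 2 * Λ))]
  · have a1 : lm / X ≤ S.den (max (M.z k) (M.z (S.J - 1))) :=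
      (G.lm1 _ hx).trans (mul_le_of_le_one_right (F.den0 _).le (by linarith [F.z_pos k]))
    have a2 : δ * (lm / X) ≤ S.v := by
      rw [← n2]
      exact mul_le_mul_of_nonneg_left (a1.trans (le_mul_of_one_le_right (F.den0 _).le
        (one_le_pow₀ CK))) d0.le
    rw [← mul_div_assoc, div_le_iff₀ (by positivity)] at a2
    rw [ey, div_le_iff₀ (by positivity)]
    refine le_trans ?_ (mul_le_mul_of_nonneg_right (k4 3 le_rfl 0 (by norm_num)) (by positivity))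
    have e : 320 * X ^ 3 * (S.C * K) ^ 0 * K * B * (S.v * (1 / X)) =
        320 * (X * (K * B) * (S.v * X)) := by field_simp
    have a3 : 0 ≤ X * (K * B) * (S.v * X) := by positivity
    rw [e]
    nlinarith [mul_le_mul_of_nonneg_left T.y1 (by positivity : 0 ≤ X * δ),
      mul_le_mul_of_nonneg_left a2 (by positivity : 0 ≤ X * (K * B))]
  · have a1 : min (√B) (lm / (320 * X * (S.C * K) ^ 2 * Λ)) ^ 2 ≤ B :=
      (pow_le_pow_left₀ (by positivity) (min_le_left _ _) 2).trans_eq (sq_sqrt B0.le)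
    refine (mul_le_mul ρ1 a1 (sq_nonneg _) zero_le_one).trans (mul_le_mul_of_nonneg_right ?_ B0.le)
    exact one_le_mul_of_one_le_of_one_le (K1.trans k2) L1
  · rw [one_div_mul_eq_div]
    exact n7

end TH

/-- **the covering of the top window, the junction and the plateau** -/
theorem top_cov' (T : TH S M N m K Λ B lm μ c) (F : Fn S M m a) : ∃ ke, S.J / 2 ≤ ke ∧ ke ≤ S.Jp ∧
    1 - M.z (ke - 1) ≤ 4 * S.C * B ∧
    Cov (fun k n => (S.J / 4 + 3 * n < k ∧ k + 5 * n ≤ S.Jp) ∧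
      ∃ δ x ω, VL N m a S.v (K2 S.C K) Λ (K2 S.C K * Λ * B) c k n δ x μ ω 1)
      (S.J / 2) ke (K2 S.C K * (1 + log (1 + K / lm) + log (1 + 1 / B))) := by
  have C1 := F.C1
  have C0 := F.C0
  have K1 := T.K1
  have B0 := T.B0
  have lm0 := T.lm0 F
  have i3 := F.i3
  have X1 : 1 ≤ 30 * S.C ^ 5 := by linarith [one_le_pow₀ (n := 5) C1]
  have CK : 1 ≤ S.C * K := one_le_mul_of_one_le_of_one_le C1 K1
  have g1 : 0 ≤ log (1 + K / lm) := log_nonneg (le_add_of_nonneg_right (by positivity))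
  have g2 : 0 ≤ log (1 + 1 / B) := log_nonneg (le_add_of_nonneg_right (by positivity))
  rcases le_or_gt (4 * B) (1 / S.C) with hB | hB
  swap
  · refine ⟨S.J / 2, le_rfl, by omega, ?_, Cov.nil le_rfl (by unfold K2; positivity)⟩
    rw [div_lt_iff₀ C0] at hB
    linarith [F.z_pos (S.J / 2 - 1)]
  have J := T.J16 F hB
  obtain ⟨u0, u1, -⟩ := T.u0 F hB
  have hp : S.J / 2 ≤ S.Jp ∧ 1 - M.z (S.Jp - 1) < 4 * B := ⟨by omega, by linarith [F.last, T.ue]⟩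
  classical
  have ex : ∃ k, S.J / 2 ≤ k ∧ 1 - M.z (k - 1) < 4 * B := ⟨_, hp⟩
  have h1 := Nat.find_spec ex
  have h2 : Nat.find ex ≤ S.Jp := Nat.find_min' ex hp
  refine ⟨Nat.find ex, h1.1, h2, h1.2.le.trans (by nlinarith), ?_⟩
  set X := 30 * S.C ^ 5 with hX
  set c4 := (S.C * K) ^ 4 with hc
  have c1 : 1 ≤ c4 := one_le_pow₀ CK
  set ψ := fun k => 160 * c4 * pot (M.z (S.J - 1)) S.u0 (1 / X) (4 * B) (M.z (k - 1)) with hψ
  have e1 : 4 * B ≤ 1 := hB.trans ((div_le_one C0).2 C1)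
  have up : ∀ k, ψ k ≤ 160 * c4 * (2 * log (1 + K / lm) + log (1 + 1 / B) + X) := fun k => by
    refine mul_le_mul_of_nonneg_left ((pot_le u0 (by positivity) (by positivity) (F.z_pos _).le
      (F.leg.z1 _)).trans ?_) (by positivity)
    have a1 : log (1 + 1 / S.u0) ≤ log (1 + K / lm) := log_le_log (by positivity)
      (add_le_add_right ((div_le_div_iff₀ u0 lm0).2 (by linarith)) _)
    have a2 : log (2 / (4 * B)) ≤ log (1 + 1 / B) := log_le_log (by positivity) (by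
      have : 2 / (4 * B) ≤ 1 / B := (div_le_div_iff₀ (by positivity) B0).2 (by linarith)
      linarith)
    rw [one_div_one_div]
    linarith
  refine (Cov.of_pot (ψ := ψ) (fun k k1 k2 => ⟨up k, ?_⟩) (up _)).mono (fun _ _ q => q) ?_
  · have hx : M.z (k - 1) ≤ 1 - 4 * B := by
      by_contra h
      exact Nat.find_min ex k2 ⟨k1, by linarith⟩
    obtain ⟨n, n1, n2, n3⟩ := T.blk F hB (k := k - 1) (by omega) (by omega) hx
    rw [show k - 1 + 1 = k by omega] at n2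
    refine ⟨n, n1, n2, fun _ => ?_⟩
    have := pot_gain u0 (by positivity) (by positivity) (by positivity)
      ((div_le_div_iff₀ (by positivity) two_pos).2 (by linarith)) hx n3
    have := mul_le_mul_of_nonneg_left this (by positivity : 0 ≤ 160 * c4)
    rw [mul_add, show 160 * c4 * (1 / (80 * c4) / 2) = 1 by field_simp; norm_num] at this
    simp only [hψ]
    rwa [show k + n - 1 = k - 1 + n by omega]
  · have p : 0 ≤ ψ (S.J / 2) := mul_nonneg (by positivity) (pot_nonneg u0 (by positivity)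
      (by positivity) e1 (F.leg.z1 _) (F.z_pos _).le)
    have x3 : X ≤ X ^ 3 := le_self_pow₀ X1 (by norm_num)
    have e : K2 S.C K = 320 * X ^ 3 * c4 := rfl
    have a1 : c4 * X ≤ c4 * X ^ 3 := mul_le_mul_of_nonneg_left x3 (by linarith)
    have a2 : c4 ≤ c4 * X ^ 3 := le_mul_of_one_le_right (by linarith) (X1.trans x3)
    rw [e]
    nlinarith [mul_le_mul_of_nonneg_right a2 g1, mul_le_mul_of_nonneg_right a2 g2,
      mul_nonneg (by linarith : 0 ≤ c4) g2]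


end Crest.Agent.T156.Alt.V17

end
end

-- ▼ part T156/SrVS_79
section

/-!
# Row 156, soft recursion, leaf (VAR): sloped blocks and low levels on the class (helper79)
-/

set_option autoImplicit false
set_option linter.unusedSectionVars false

noncomputable section

namespace Crest.Agent.T156.Alt.V79

open Real Finset
open Crest.Agent.T157.E Crest.Agent.T157.Casc Crest.Agent.T157.SL
open Crest.Agent.T157.G1 (ov)
open Crest.Agent.T156.Cas Crest.Agent.T156.Cas.Sy41 Crest.Agent.T156.Cas.Q33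
open Crest.Agent.T156.Cas.Wr5 Crest.Agent.T156.Cas.SrD79 Crest.Agent.T156.Alt.Md67

/-- a member `M` of the class, a legal model `N` on the same grid with the floor of `M`, numbers -/
structure Pair (S : Sc) (M N : Md) (m : ℕ) (a lam : ℝ) : Prop where
  cl : Cl S M
  mem : S.In m a
  lg : Md67.Lg N m a
  eN : N.N = M.N
  ez : N.z = M.z
  flr : ∀ k, S.jl ≤ k → k < S.Jp → S.ms (M.s k) * S.v / (S.C * S.F) ≤ N.H (k + 1) - N.H k
  big : 1000 * S.C ^ 6 ≤ lam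
  n30 : lam ^ 30 ≤ S.n
  A2 : 2 ≤ S.A
  lN : log M.N ≤ 2 * lam ^ 2
  th : S.C * S.θ ≤ 1 / 2

/-- the level `l` and the size `Y` -/
structure Lev (S : Sc) (M : Md) (lam L l Y : ℝ) : Prop where
  L1 : 1 ≤ L
  jj : S.j0 = S.jl
  jl : M.s S.jl ≤ l
  l3 : l ^ 3 ≤ Y
  wl : (lam * L) ^ 3 * S.w3 l ≤ l ^ 3
  bas : ∀ t, l ≤ t → t ≤ S.C → t ^ 3 * S.w3 t ^ 2 ≤ Y ^ 3
  sm : lam * L * l ≤ 1

theorem sl_arith {C t w x y Y N : ℝ} (hC : 1 ≤ C) (t0 : 0 < t) (w0 : 0 < w) (x0 : 0 < x)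
    (y0 : 0 < y) (hy : y ≤ 2 * C ^ 2 * w ^ 3) (hx : t ≤ 2 * C * x) (hw : w ≤ t) (hY : t * w ^ 2 ≤ Y)
    (h1 : t ≤ 16 * C * N) (h2 : N ≤ C * t) :
    4 * C ^ 3 * t * y / w ≤ 256 * C ^ 6 * Y ∧ 4 * C ^ 3 * t * (y / (C * x)) ≤ 256 * C ^ 6 * Y ∧
    N / C * w ^ 2 ≤ 256 * C ^ 6 * Y ∧ (y / w) ^ 2 ≤ 256 * C ^ 6 * Y * (N / C) ∧
    (y / (C * x)) ^ 2 ≤ 256 * C ^ 6 * Y * (N / C) := by
  have C0 : 0 < C := by linarith
  have Y0 : 0 < Y := lt_of_lt_of_le (by positivity) hY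
  have a1 : y / w ≤ 2 * C ^ 2 * w ^ 2 := by rw [div_le_iff₀ w0]; linarith
  have a2 : y / (C * x) ≤ 4 * C ^ 2 * w ^ 2 := by
    rw [div_le_iff₀ (by positivity)]
    calc y ≤ 2 * C ^ 2 * w ^ 2 * w := by linarith
      _ ≤ 2 * C ^ 2 * w ^ 2 * (2 * C * x) := by gcongr; linarith
      _ = _ := by ring
  have c5 : C ^ 5 * Y ≤ C ^ 6 * Y := by gcongr; norm_num
  have c0 : Y ≤ C ^ 6 * Y := le_mul_of_one_le_left Y0.le (one_le_pow₀ hC)
  have a3 : (4 * C ^ 2 * w ^ 2) ^ 2 ≤ 256 * C ^ 6 * Y * (N / C) := by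
    calc _ = 16 * C ^ 4 * (w ^ 2 * (w * w)) := by ring
      _ ≤ 16 * C ^ 4 * (w ^ 2 * (t * t)) := by gcongr
      _ = 16 * C ^ 4 * (t * w ^ 2) * t := by ring
      _ ≤ 16 * C ^ 4 * Y * (16 * C * N) := by gcongr
      _ = _ := by field_simp; ring
  have p5 : C ^ 5 * (t * w ^ 2) ≤ C ^ 5 * Y := by gcongr
  refine ⟨?_, ?_, ?_, le_trans (by gcongr; nlinarith [sq_nonneg (C * w)]) a3,
    le_trans (by gcongr) a3⟩
  · have := mul_le_mul_of_nonneg_left a1 (by positivity : 0 ≤ 4 * C ^ 3 * t)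
    rw [mul_div_assoc]; nlinarith
  · have := mul_le_mul_of_nonneg_left a2 (by positivity : 0 ≤ 4 * C ^ 3 * t)
    nlinarith
  · have : N / C * w ^ 2 ≤ t * w ^ 2 := by gcongr; rwa [div_le_iff₀' C0]
    nlinarith

theorem cube_ge {x : ℝ} (h : 1000 ≤ x) : x + x ^ 2 ≤ x ^ 3 := by nlinarith [sq_nonneg x]

theorem pos_of_mul_pos_of_nonneg_right' {x y : ℝ} (h : 0 < x * y) (hy : 0 ≤ y) : 0 < x := by
  by_contra e
  nlinarith

namespace Pair

variable {S : Sc} {M N : Md} {m : ℕ} {a lam L l Y Φ : ℝ} (P : Pair S M N m a lam)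
include P

theorem C1 : 1 ≤ S.C := P.cl.C1
theorem C6 : 1 ≤ S.C ^ 6 := one_le_pow₀ P.C1
theorem l1000 : 1000 ≤ lam := by linarith [P.big, P.C6]
theorem Cp {i : ℕ} (hi : i ≤ 6) : 1000 * S.C ^ i ≤ lam :=
  le_trans (by have := P.C1; gcongr) P.big
theorem lp {i : ℕ} (hi : i ≤ 30) : lam ^ i ≤ S.n :=
  (pow_le_pow_right₀ (by linarith [P.l1000]) hi).trans P.n30

theorem vn2 : S.v * (S.n : ℝ) ^ 2 ≤ S.C :=
  (mul_le_mul_of_nonneg_left (pow_le_pow_right₀ (by exact_mod_cast P.cl.n1) P.A2)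
    P.cl.v0.le).trans P.cl.v2

/-- `v n λ ≤ 1` -/
theorem vn : S.v * S.n * lam ≤ 1 := by
  have n0 := P.cl.N0
  have h1 := P.lp (i := 2) (by norm_num)
  have h2 := P.Cp (i := 1) (by norm_num)
  have h3 := P.l1000
  have h4 := P.vn2
  have v0 := P.cl.v0
  refine le_of_mul_le_mul_right ?_ n0
  have : S.C * lam ≤ S.n := by nlinarith
  nlinarith [mul_le_mul_of_nonneg_right h4 (by linarith : 0 ≤ lam)]

theorem fn : C33.Fn S M m a := by
  have n0 := P.cl.N0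
  have n1 : (1 : ℝ) ≤ S.n := by exact_mod_cast P.cl.n1
  have h2 := P.Cp (i := 1) (by norm_num)
  have h3 := P.l1000
  have v0 := P.cl.v0
  refine ⟨P.cl, P.mem, ?_, by have := P.A2; omega, ?_⟩
  · have : (3 : ℝ) ≤ S.n := by linarith [P.lp (i := 1) (by norm_num)]
    exact_mod_cast this
  have b2 : S.C * S.v ≤ (S.n : ℝ)⁻¹ := by
    rw [← one_div, le_div_iff₀ n0]
    nlinarith [P.vn, mul_pos v0 n0, P.C1]
  have b3 : (S.n : ℝ)⁻¹ ≤ (S.n : ℝ) ^ (-(1 : ℝ) / 6) := by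
    rw [← rpow_neg_one]
    exact rpow_le_rpow_of_exponent_le n1 (by norm_num)
  linarith [P.mem.a1, P.mem.a2, P.cl.leg.z0]

theorem vm : S.v * m ≤ 1 := by
  have : (m : ℝ) ≤ 2 * S.n := by exact_mod_cast P.mem.m2
  nlinarith [P.vn, mul_pos P.cl.v0 P.cl.N0, P.l1000, P.cl.v0]

theorem dz_eq {k : ℕ} (hk : 0 < k) : N.dz m a k = M.z k - M.z (k - 1) := by
  rw [dz_up P.lg.toLeg hk, P.ez]

theorem dz_sl {k : ℕ} (h1 : S.j0 < k) (h2 : k < S.J) :
    S.v / S.C ≤ N.dz m a k ∧ N.dz m a k ≤ S.C * S.v := by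
  obtain ⟨i, rfl⟩ : ∃ i, k = i + 1 := ⟨k - 1, by omega⟩
  rw [P.dz_eq (by omega), Nat.add_sub_cancel]
  exact P.cl.zs i (by omega) h2

theorem q_inc {k : ℕ} (hk : k < S.J) : M.q (k + 1) - M.q k ≤ S.C * S.v :=
  (P.cl.q_tel P.th (Nat.le_succ k) (hk.trans_le P.cl.i3)).2.trans (P.cl.ss k hk).2

theorem q_le {k : ℕ} (hk : k ≤ S.J) : M.q k ≤ S.C * (k * S.v) :=
  (P.cl.q_le_s (hk.trans P.cl.J_lt.le)).trans (P.fn.s_mem hk).2

theorem w3_anti {t t' : ℝ} (h0 : 0 < t) (h : t ≤ t') : S.w3 t' ≤ S.w3 t := by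
  have := P.cl.N0
  have := P.cl.ms_pos h0.le
  have := P.cl.msm h
  have := P.fn.F0
  have := h0.trans_le h
  unfold Sc.w3
  gcongr

/-- `(λ v)³ ≤ w³` -/
theorem w3_ge {t : ℝ} (h0 : 0 < t) (h : t ≤ S.C) : (lam * S.v) ^ 3 ≤ S.w3 t := by
  have n0 := P.cl.N0
  have n1 : (1 : ℝ) ≤ S.n := by exact_mod_cast P.cl.n1
  have m0 := P.cl.ms_pos h0.le
  have m1 := P.fn.ms_le_one t
  have v0 := P.cl.v0
  have l0 : 0 < lam := by linarith [P.l1000]
  have h1 : lam * S.v * S.n ≤ 1 := by linarith [P.vn]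
  have h2 : S.C ≤ S.n := by linarith [P.Cp (i := 1) (by norm_num), P.lp (i := 1) (by norm_num), P.C1]
  rw [Sc.w3, le_div_iff₀ (by positivity)]
  calc _ ≤ (lam * S.v) ^ 3 * (S.n * S.n * S.n) := by gcongr <;> linarith
    _ = (lam * S.v * S.n) ^ 3 := by ring
    _ ≤ 1 := pow_le_one₀ (by positivity) h1
    _ ≤ _ := P.cl.F1

theorem lg_log {n : ℕ} (h0 : 1 ≤ n) (hn : n ≤ M.N) :
    ((Nat.log 2 n : ℝ) + 2) * (Nat.log 2 n + 13) ≤ lam ^ 5 := by
  have l0 := P.l1000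
  have a1 : (Nat.log 2 n : ℝ) * log 2 ≤ 2 * lam ^ 2 := by
    rw [← log_pow]
    refine le_trans (log_le_log (by positivity) ?_) P.lN
    exact_mod_cast (Nat.pow_log_le_self 2 (by omega)).trans hn
  have a2 : (Nat.log 2 n : ℝ) ≤ 4 * lam ^ 2 := by
    nlinarith [log_two_gt_d9, Nat.cast_nonneg (α := ℝ) (Nat.log 2 n)]
  calc _ ≤ (5 * lam ^ 2) * (5 * lam ^ 2) := by gcongr <;> nlinarith
    _ = 25 * lam ^ 4 := by ring
    _ ≤ lam * lam ^ 4 := by gcongr; linarith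
    _ = _ := by ring

variable (V : Lev S M lam L l Y)
include V

theorem l0 : 0 < l := (P.cl.s_pos (P.cl.i0.trans P.cl.i1)).trans_le V.jl

theorem lC : l ≤ 1 := by
  have := P.l0 V
  have := one_le_mul_of_one_le_of_one_le (by linarith [P.l1000] : 1 ≤ lam) V.L1
  nlinarith [V.sm]

theorem Y0 : 0 < Y := (pow_pos (P.l0 V) 3).trans_le V.l3

/-- the width at the time `t` -/
theorem exists_w {t : ℝ} (h1 : l ≤ t) (h2 : t ≤ S.C) : ∃ w, 0 < w ∧ w ^ 3 = S.w3 t ∧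
    lam * S.v ≤ w ∧ lam * L * w ≤ t ∧ t * w ^ 2 ≤ Y := by
  have l0 := P.l0 V
  have t0 := l0.trans_le h1
  have p := P.fn.w3_pos t0
  have L0 : 0 < lam * L := mul_pos (by linarith [P.l1000]) (by linarith [V.L1])
  obtain ⟨w, w0, e⟩ : ∃ w : ℝ, 0 < w ∧ w ^ 3 = S.w3 t :=
    ⟨S.w3 t ^ ((3 : ℕ) : ℝ)⁻¹, rpow_pos_of_pos p _, rpow_inv_natCast_pow p.le (by norm_num)⟩
  refine ⟨w, w0, e, le_of_pow_le_pow_left₀ (n := 3) (by norm_num) w0.le (e ▸ P.w3_ge t0 h2),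
    le_of_pow_le_pow_left₀ (n := 3) (by norm_num) t0.le ?_,
    le_of_pow_le_pow_left₀ (n := 3) (by norm_num) (P.Y0 V).le ?_⟩
  · rw [mul_pow, e]
    exact ((mul_le_mul_of_nonneg_left (P.w3_anti l0 h1) (by positivity)).trans V.wl).trans
      (by gcongr)
  · rw [show (t * w ^ 2) ^ 3 = t ^ 3 * (w ^ 3) ^ 2 by ring, e]; exact V.bas t h1 h2

theorem v_le : lam * S.v ≤ l := by
  obtain ⟨w, w0, -, h1, h2, -⟩ := P.exists_w V le_rfl ((P.lC V).trans P.C1)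
  have := one_le_mul_of_one_le_of_one_le (by linarith [P.l1000] : 1 ≤ lam) V.L1
  nlinarith

theorem jl_le : S.jl * S.v ≤ S.C * l :=
  (P.fn.s_mem P.cl.jl_lt.le).1.trans (mul_le_mul_of_nonneg_left V.jl P.cl.C0.le)

set_option maxHeartbeats 400000 in
/-- **sloped blocks** -/
theorem vl {k : ℕ} (h1 : 4 * S.C * l ≤ k * S.v) (h2 : 2 * k ≤ S.J) :
    16 ≤ k ∧ S.jl < k - 3 * (k / 8) ∧ k + 5 * (k / 8) < S.J ∧ ∃ δ x μ ω T,
      VL N m a S.v (S.C ^ 2) L (256 * S.C ^ 6 * Y) M.q k (k / 8) δ x μ ω T := by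
  have C1 := P.C1
  have C0 := P.cl.C0
  have v0 := P.cl.v0
  have l0 := P.l0 V
  have hl := P.l1000
  have F := P.fn
  have k16 : 16 ≤ k := by
    have : (16 : ℝ) * S.v ≤ k * S.v := by
      linarith [P.v_le V, le_mul_of_one_le_left l0.le C1,
        mul_le_mul_of_nonneg_right (by linarith : 16 ≤ lam) v0.le]
    exact_mod_cast le_of_mul_le_mul_right this v0
  have kj : 4 * S.jl ≤ k := by
    have : (4 * S.jl : ℝ) * S.v ≤ k * S.v := by linarith [P.jl_le V]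
    exact_mod_cast le_of_mul_le_mul_right this v0
  set n := k / 8 with hn
  set i := k - 3 * n with hi
  have i1 : S.jl < i := by omega
  have i2 : k + 5 * n < S.J := by omega
  have j0 : S.j0 = S.jl := V.jj
  have J1 := P.cl.i3
  have J2 := P.cl.J_lt
  have r1 : (k : ℝ) ≤ 2 * i := by exact_mod_cast (by omega : k ≤ 2 * i)
  have r2 : (i : ℝ) ≤ 16 * n := by exact_mod_cast (by omega : i ≤ 16 * n)
  have r3 : (n : ℝ) ≤ i := by exact_mod_cast (by omega : n ≤ i)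
  have r4 : ((k + 4 * n : ℕ) : ℝ) ≤ 3 * i := by exact_mod_cast (by omega : k + 4 * n ≤ 3 * i)
  obtain ⟨s1, s2⟩ := F.s_mem (k := i) (by omega)
  set t := M.s i with ht
  have t1 : l ≤ t := by
    refine le_of_mul_le_mul_left ?_ C0
    linarith [mul_le_mul_of_nonneg_right r1 v0.le, mul_pos C0 l0]
  have t0 := l0.trans_le t1
  have t2 : t ≤ S.C := P.cl.s_le_C (by omega)
  obtain ⟨w, w0, w3, w1, w2, w4⟩ := P.exists_w V t1 t2
  have x0 := F.z_pos i
  have x1 : t ≤ 2 * S.C * M.z i := F.s_le_z (by omega) (by omega)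
  have ms0 := P.cl.ms_pos t0.le
  have F0 := F.F0
  have m0 : (0 : ℝ) < m := by exact_mod_cast P.lg.m0
  have n0 := P.cl.N0
  have L1 := V.L1
  have LL := one_le_mul_of_one_le_of_one_le (by linarith : 1 ≤ lam) L1
  set μ := S.ms t / (S.C * S.F) with hμ
  have μ0 : 0 < μ := by positivity
  have hy : 1 / (M.z i * μ * m) ≤ 2 * S.C ^ 2 * w ^ 3 := by
    rw [w3, Sc.w3, hμ, show 2 * S.C ^ 2 * (S.F / (S.n * t * S.ms t)) =
      1 / (t / (2 * S.C) * (S.ms t / (S.C * S.F)) * S.n) by field_simp]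
    have := F.nm
    have : t / (2 * S.C) ≤ M.z i := by rwa [div_le_iff₀' (by positivity)]
    gcongr
  have n1 : t ≤ 16 * S.C * (n * S.v) := by
    linarith [mul_le_mul_of_nonneg_left (mul_le_mul_of_nonneg_right r2 v0.le) C0.le]
  have n2 : n * S.v ≤ S.C * t := (mul_le_mul_of_nonneg_right r3 v0.le).trans s1
  obtain ⟨b1, b2, b3, b4, b5⟩ := sl_arith C1 t0 w0 x0 (by positivity) hy x1
    ((le_mul_of_one_le_left w0.le LL).trans w2) w4 n1 n2
  refine ⟨k16, i1, i2, S.v / S.C, M.z i, μ, w, 4 * S.C ^ 3 * t, by omega, by rw [P.eN]; omega,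
    by positivity, x0, μ0, fun j e e' => ?_, fun j e e' => ?_, fun j e e' => ?_, by rw [P.ez], ?_,
    (le_mul_of_one_le_left v0.le (by linarith)).trans w1, ?_, ?_, ?_, ?_, .inr ⟨?_, ?_, ?_⟩⟩
  · obtain ⟨a1, a2⟩ := P.dz_sl (k := j) (by omega) (by omega)
    exact ⟨a1, a2.trans (le_of_eq (by field_simp))⟩
  · refine le_trans ?_ (P.flr j (by omega) (by omega))
    have := P.cl.msm (P.cl.sm (show i ≤ j by omega))
    rw [hμ, div_mul_eq_mul_div]
    gcongr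
  · exact (P.q_inc (by omega)).trans 
      (mul_le_mul_of_nonneg_right (le_self_pow₀ C1 two_ne_zero) v0.le)
  · have : μ ≤ 1 := by
      rw [hμ, div_le_one (by positivity)]
      exact (F.ms_le_one t).trans (one_le_mul_of_one_le_of_one_le C1 P.cl.F1)
    rw [mul_assoc]
    exact mul_le_one₀ this (by positivity) P.vm
  · have := P.Cp (i := 1) (by norm_num)
    refine le_of_mul_le_mul_left ?_ (by positivity : 0 < 16 * S.C)
    linarith [mul_le_mul_of_nonneg_right (by linarith : 64 * S.C ≤ lam)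
      (mul_pos (by linarith : 0 < L) w0).le]
  · exact le_trans (le_of_eq (by ring)) b1
  · exact le_trans (le_of_eq (by field_simp)) b2
  · exact le_trans (le_of_eq (by ring)) b3
  · have a1 := P.q_le (k := k + 4 * n) (by omega)
    have a2 : ((k + 4 * n : ℕ) : ℝ) * S.v ≤ 3 * (S.C * t) := by
      linarith [mul_le_mul_of_nonneg_right r4 v0.le]
    have a3 : S.C ^ 2 * t ≤ S.C ^ 3 * t := by gcongr; norm_num
    linarith [mul_le_mul_of_nonneg_left a2 C0.le, mul_le_mul_of_nonneg_left n2 (sq_nonneg S.C)]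
  · exact b4.trans (le_of_eq (by ring))
  · exact (le_of_eq (by field_simp)).trans (b5.trans (le_of_eq (by ring)))

/-- the cost of one sloped block -/
theorem blk {k : ℕ} (h1 : 4 * S.C * l ≤ k * S.v) (h2 : 2 * k ≤ S.J)
    (hΦ : Phi N m a M.q (Ioc S.jl S.Jp) ≤ Φ) :
    ∑ j ∈ Ico k (k + k / 8), N.dz m a j * Vr N m a j ≤ lam ^ 14 * L * Y + lam * Φ / L := by
  obtain ⟨k16, i1, i2, δ, x, μ, ω, T, H⟩ := P.vl V h1 h2
  have J1 := P.cl.i3
  have J2 := P.cl.J_lt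
  have Φ0 := (Phi_nonneg P.lg _).trans hΦ
  have C1 := P.C1
  have hl := P.l1000
  have L0 : 0 < L := by linarith [V.L1]
  have Y0 := P.Y0 V
  refine (H.bound P.lg P.cl.v0 (one_le_pow₀ C1) V.L1 (P.lg_log (by omega) (by omega))
    ((Phi_mono P.lg fun j hj => ?_).trans hΦ)).trans (add_le_add ?_ ?_)
  · rw [mem_Ico] at hj; rw [mem_Ioc]; omega
  · have a1 := P.Cp (i := 6) le_rfl
    have a2 := P.Cp (i := 2) (by norm_num)
    calc _ = 1024 / 1000 ^ 2 * ((1000 * S.C ^ 6) * (1000 * S.C ^ 6) * (1000 * S.C ^ 2)) *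
          (lam ^ 10 * L * Y) := by ring
      _ ≤ lam * (lam * lam * lam) * (lam ^ 10 * L * Y) := by gcongr; linarith
      _ = _ := by ring
  · have a2 := P.Cp (i := 2) (by norm_num)
    gcongr
    nlinarith [sq_nonneg S.C]

/-- **the sloped part** -/
theorem slope {k1 : ℕ} (h1 : 4 * S.C * l ≤ k1 * S.v) (hΦ : Phi N m a M.q (Ioc S.jl S.Jp) ≤ Φ) :
    ∑ j ∈ Ico k1 (S.J / 2), N.dz m a j * Vr N m a j ≤
      lam ^ 3 * (lam ^ 14 * L * Y + lam * Φ / L) := by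
  have Φ0 := (Phi_nonneg P.lg _).trans hΦ
  have hl := P.l1000
  have L0 : 0 < L := by linarith [V.L1]
  have Y0 := P.Y0 V
  have v0 := P.cl.v0
  have J2 := P.cl.J_lt
  have k0 : (0 : ℝ) < k1 := pos_of_mul_pos_of_nonneg_right' (by linarith [mul_pos P.cl.C0 (P.l0 V)]) v0.le
  have hP : ∀ k : ℕ, 1 ≤ k → k ≤ M.N → 32 * log k ≤ 64 * lam ^ 2 := fun k e e' => by
    have := log_le_log (by exact_mod_cast e : (0 : ℝ) < k) (by exact_mod_cast e' : (k : ℝ) ≤ M.N)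
    linarith [P.lN]
  have k1' : 1 ≤ k1 := by exact_mod_cast k0
  rcases le_or_gt (S.J / 2) k1 with e | e
  · rw [Ico_eq_empty_of_le e, sum_empty]; positivity
  have cov : Cov (fun k n => ∑ j ∈ Ico k (k + n), N.dz m a j * Vr N m a j ≤
      lam ^ 14 * L * Y + lam * Φ / L) k1 (S.J / 2) (64 * lam ^ 2 - 32 * log k1 + 1) := by
    refine Cov.of_pot (ψ := fun k => 32 * log k) (fun k e1 e2 => ⟨hP k (by omega) (by omega), ?_⟩)
      (hP k1 k1' (by omega))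
    have a1 : 4 * S.C * l ≤ k * S.v :=
      h1.trans (mul_le_mul_of_nonneg_right (by exact_mod_cast e1) v0.le)
    have k16 := (P.vl V a1 (by omega)).1
    refine ⟨k / 8, by omega, P.blk V a1 (by omega) hΦ, fun _ => ?_⟩
    have p0 : (0 : ℝ) < k := by exact_mod_cast (by omega : 0 < k)
    have a2 : (17 / 16 : ℝ) * k ≤ ((k + k / 8 : ℕ) : ℝ) := by
      have : ((17 * k : ℕ) : ℝ) ≤ ((16 * (k + k / 8) : ℕ) : ℝ) := by exact_mod_cast (by omega)
      rw [Nat.cast_mul, Nat.cast_mul] at this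
      norm_num at this ⊢
      linarith
    have a3 := log_le_log (by positivity) a2
    rw [log_mul (by norm_num) p0.ne'] at a3
    have a4 := one_sub_inv_le_log_of_pos (by norm_num : (0 : ℝ) < 17 / 16)
    norm_num at a4
    linarith
  refine (cov.sum (fun k => mul_nonneg (P.lg.dz_nonneg k) (Vr_nonneg k)) (by positivity)
    fun _ _ h => h).trans (mul_le_mul_of_nonneg_right ?_ (by positivity))
  have := log_nonneg (by exact_mod_cast k1' : (1 : ℝ) ≤ k1)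
  nlinarith [sq_nonneg lam]

/-- the first block -/
theorem exists_k1 : ∃ k1 : ℕ, 4 * S.C * l ≤ k1 * S.v ∧ k1 * S.v ≤ 5 * S.C * l ∧
    8 * L * k1 ≤ S.J := by
  have v0 := P.cl.v0
  have l0 := P.l0 V
  have C1 := P.C1
  have hl := P.l1000
  have L1 := V.L1
  have a1 := Nat.le_ceil (4 * S.C * l / S.v)
  have a2 := (Nat.ceil_lt_add_one (by positivity : 0 ≤ 4 * S.C * l / S.v)).le
  rw [div_le_iff₀ v0] at a1
  have a3 : (⌈4 * S.C * l / S.v⌉₊ : ℝ) * S.v ≤ 5 * S.C * l := by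
    have := mul_le_mul_of_nonneg_right a2 v0.le
    rw [add_mul, div_mul_cancel₀ _ v0.ne'] at this
    nlinarith [P.v_le V]
  refine ⟨_, a1, a3, le_of_mul_le_mul_right ?_ (by positivity : 0 < 3 * S.C ^ 3 * S.v)⟩
  have a4 := P.Cp (i := 4) (by norm_num)
  calc _ = 24 * S.C ^ 3 * L * ((⌈4 * S.C * l / S.v⌉₊ : ℝ) * S.v) := by ring
    _ ≤ 24 * S.C ^ 3 * L * (5 * S.C * l) := by gcongr
    _ = 120 * S.C ^ 4 * (L * l) := by ring
    _ ≤ lam * (L * l) := by gcongr; nlinarith [pow_pos P.cl.C0 4]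
    _ ≤ 1 := by linarith [V.sm]
    _ ≤ _ := by linarith [P.fn.J_lo]

set_option maxHeartbeats 400000 in
/-- **the low levels** -/
theorem low {k1 : ℕ} (h1 : 4 * S.C * l ≤ k1 * S.v) (h2 : k1 * S.v ≤ 5 * S.C * l)
    (h3 : 8 * L * k1 ≤ S.J) (hΦ : Phi N m a M.q (Ioc S.jl S.Jp) ≤ Φ) :
    ∑ k ∈ range k1, N.dz m a k * N.E2 m a (fun R => R ^ 2) k ≤
      lam ^ 16 * L ^ 2 * Y + lam ^ 3 * Φ / L := by
  have Φ0 := (Phi_nonneg P.lg _).trans hΦ
  have hl := P.l1000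
  have L1 := V.L1
  have L0 : 0 < L := by linarith
  have Y0 := P.Y0 V
  have v0 := P.cl.v0
  have C0 := P.cl.C0
  have C1 := P.C1
  have l0 := P.l0 V
  have J1 := P.cl.i3
  have J2 := P.cl.J_lt
  have j0 := V.jj
  have G := P.lg
  set W := ⌈L * k1⌉₊ with hW
  have k8 : 8 * k1 ≤ S.J := by
    have : ((8 * k1 : ℕ) : ℝ) ≤ S.J := by
      push_cast; linarith [le_mul_of_one_le_left (Nat.cast_nonneg (α := ℝ) k1) L1]
    exact_mod_cast this
  obtain ⟨k16, i1, i2, -⟩ := P.vl V h1 (by omega)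
  have k0 : (16 : ℝ) ≤ k1 := by exact_mod_cast k16
  have W1 : L * k1 ≤ W := Nat.le_ceil _
  have kL : (k1 : ℝ) ≤ L * k1 := le_mul_of_one_le_left (by linarith) L1
  have W2 : (W : ℝ) ≤ 2 * (L * k1) := by
    linarith [Nat.ceil_lt_add_one (by positivity : 0 ≤ L * k1)]
  have W0 : (0 : ℝ) < W := by linarith
  have W4 : 4 * W ≤ S.J := by
    have : ((4 * W : ℕ) : ℝ) ≤ S.J := by push_cast; linarith
    exact_mod_cast this
  have X := P.blk V h1 (by omega) hΦ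
  set n := k1 / 8 with hn
  have t := top_le (rb_mono (M := N) (a := a) G.m0) (i := k1 + n) (U := W) (q := M.q)
    (d := N.dz m a) (g := S.C * S.v) (δ := S.v / S.C) (Φ := Φ) (by exact_mod_cast W0)
    (by positivity) (by positivity) (fun j e e' => P.q_inc (by omega))
    (fun j hj => (P.dz_sl (by have := mem_Ico.1 hj; omega) (by have := mem_Ico.1 hj; omega)).1)
    ((Phi_mono G (S := Ico (k1 + n) (k1 + n + W)) fun j hj => by
      rw [mem_Ico] at hj; rw [mem_Ioc]; omega).trans hΦ)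
  set s := √(Φ / (W * (S.v / S.C))) with hs
  have s2 : s ^ 2 = Φ / (W * (S.v / S.C)) := sq_sqrt (by positivity)
  have s0 : 0 ≤ s := sqrt_nonneg _
  have n1 : (k1 : ℝ) ≤ 16 * n := by exact_mod_cast (by omega : k1 ≤ 16 * n)
  have n2 : ((k1 + n : ℕ) : ℝ) ≤ 2 * k1 := by exact_mod_cast (by omega : k1 + n ≤ 2 * k1)
  have n0 : (0 : ℝ) < n := by linarith
  have t1 : N.rb m a (k1 + n) ≤ 20 * S.C ^ 2 * L * l + s := by
    have a1 := P.q_le (k := k1 + n) (by omega)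
    have a2 : ((k1 + n : ℕ) : ℝ) * S.v + W * S.v ≤ 4 * L * (5 * S.C * l) := by
      have : ((k1 + n : ℕ) : ℝ) + W ≤ 4 * L * k1 := by linarith
      linarith [mul_le_mul_of_nonneg_right this v0.le, mul_le_mul_of_nonneg_left h2 L0.le]
    linarith [mul_le_mul_of_nonneg_left a2 C0.le]
  set T := 20 * S.C ^ 2 * L * l + s with hT
  set B := lam ^ 14 * L * Y + lam * Φ / L with hB
  have B0 : 0 ≤ B := by positivity
  have e : ∀ k ∈ range k1, N.E2 m a (fun R => R ^ 2) k ≤ 2 * T ^ 2 + 2 * B / (n * (S.v / S.C)) := by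
    intro k hk
    have := low_le Link33.wt1 G.monoL (sl m) 0 (j := k + 1) (S := Ico (k1 + 1) (k1 + n + 1))
      (fun j hj => by rw [mem_Ico] at hj; rw [len_L, P.eN]; have := mem_range.1 hk; omega)
      (M := n * (S.v / S.C)) (top := T) (X := B) (by positivity) ?_
      (q := fun j => N.rb m a (j - 1)) (fun j hj => ?_) ?_
    · simp only [sl_cov G.m0] at this; exact this
    · rw [← sum_Ico_add']
      have := card_nsmul_le_sum (Ico k1 (k1 + n)) (fun j => dm (N.L m a) 0 (j + 1)) (S.v / S.C)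
        fun j hj => (P.dz_sl (by have := mem_Ico.1 hj; omega) (by have := mem_Ico.1 hj; omega)).1
      rwa [Nat.card_Ico, Nat.add_sub_cancel_left, nsmul_eq_mul] at this
    · exact pow_le_pow_left₀ (rb_nonneg G.m0 _)
        ((rb_mono G.m0 (by have := mem_Ico.1 hj; omega)).trans t1) 2
    · rw [← sum_Ico_add']
      simp only [sl_cov G.m0, Nat.add_sub_cancel]; exact X
  have z1 : ∑ k ∈ range k1, N.dz m a k ≤ 3 * S.C ^ 2 * (k1 * S.v) := by
    have a1 := sum_dz_range (m := m) (a := a) G.toLeg k1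
    rw [sum_range_succ, P.ez] at a1
    linarith [G.dz_nonneg k1, G.a0, P.fn.z_hi (k := k1) (by omega) (by omega)]
  refine (sum_le_sum fun k hk => mul_le_mul_of_nonneg_left (e k hk) (G.dz_nonneg k)).trans ?_
  rw [← sum_mul]
  refine (mul_le_mul_of_nonneg_right z1 (by positivity)).trans ?_
  have c6 := P.Cp (i := 6) le_rfl
  have c3 := P.Cp (i := 3) (by norm_num)
  have c1 := P.Cp (i := 1) (by norm_num)
  have p0 : 0 ≤ Φ / L := by positivity
  have b1 : 3 * S.C ^ 2 * (k1 * S.v) * (2 * B / (n * (S.v / S.C))) ≤ lam * B := by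
    rw [show 3 * S.C ^ 2 * (k1 * S.v) * (2 * B / (n * (S.v / S.C))) = 6 * S.C ^ 3 * (k1 / n) * B by
      field_simp; ring]
    have : (k1 : ℝ) / n ≤ 16 := by rwa [div_le_iff₀ n0]
    exact mul_le_mul_of_nonneg_right (by
      linarith [pow_pos C0 3, mul_le_mul_of_nonneg_left this (pow_pos C0 3).le]) B0
  have b2 : 3 * S.C ^ 2 * (k1 * S.v) * (4 * s ^ 2) ≤ lam * (Φ / L) := by
    rw [s2, show 3 * S.C ^ 2 * (k1 * S.v) * (4 * (Φ / (W * (S.v / S.C)))) =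
      12 * S.C ^ 3 * (L * k1 / W) * (Φ / L) by field_simp; ring]
    have : L * k1 / W ≤ 1 := (div_le_one W0).2 W1
    exact mul_le_mul_of_nonneg_right (by
      linarith [pow_pos C0 3, mul_le_mul_of_nonneg_left this (pow_pos C0 3).le]) p0
  have b3 : 3 * S.C ^ 2 * (k1 * S.v) * (4 * (20 * S.C ^ 2 * L * l) ^ 2) ≤ lam ^ 2 * L ^ 2 * Y := by
    have := V.l3
    calc _ ≤ 3 * S.C ^ 2 * (5 * S.C * l) * (4 * (20 * S.C ^ 2 * L * l) ^ 2) := by gcongr
      _ = 24 / 1000 * ((1000 * S.C ^ 6) * (1000 * S.C ^ 1)) * L ^ 2 * l ^ 3 := by ring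
      _ ≤ 1 * (lam * lam) * L ^ 2 * Y := by gcongr; norm_num
      _ = _ := by ring
  have b4 : 3 * S.C ^ 2 * (k1 * S.v) * (2 * T ^ 2) ≤
      3 * S.C ^ 2 * (k1 * S.v) * (4 * (20 * S.C ^ 2 * L * l) ^ 2 + 4 * s ^ 2) :=
    mul_le_mul_of_nonneg_left (by rw [hT]; linarith [sq_nonneg (20 * S.C ^ 2 * L * l - s)])
      (by positivity)
  have b5 : lam * B ≤ lam ^ 15 * L ^ 2 * Y + lam ^ 2 * (Φ / L) := by
    have : lam ^ 15 * L ^ 1 * Y ≤ lam ^ 15 * L ^ 2 * Y := by gcongr; norm_num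
    rw [hB, show lam * (lam ^ 14 * L * Y + lam * Φ / L) =
      lam ^ 15 * L ^ 1 * Y + lam ^ 2 * (Φ / L) by ring]
    linarith
  have b6 : lam ^ 2 * L ^ 2 * Y ≤ lam ^ 15 * L ^ 2 * Y := by gcongr <;> linarith
  have b7 : 2 * (lam ^ 15 * L ^ 2 * Y) ≤ lam * (lam ^ 15 * L ^ 2 * Y) := by gcongr; linarith
  have b8 : (lam + lam ^ 2) * (Φ / L) ≤ lam ^ 3 * (Φ / L) :=
    mul_le_mul_of_nonneg_right (cube_ge hl) p0
  rw [mul_div_assoc (lam ^ 3)]
  linarith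

end Pair

end Crest.Agent.T156.Alt.V79

end
end

-- ▼ part T156/SrVB_79
section

/-!
# Row 156, soft recursion, leaf (VAR): everything below the top window (helper79)
-/

set_option autoImplicit false
set_option linter.unusedSectionVars false

noncomputable section

namespace Crest.Agent.T156.Alt.V79

open Real Finset
open Crest.Agent.T156.Alt.Md67
open Crest.Agent.T156.Alt.Gu71 (sh)

variable {S : Sc} {M N : Md} {m : ℕ} {a lam L l Y Φ : ℝ}

theorem Vr_le (k : ℕ) : Vr N m a k ≤ N.E2 m a (fun R => R ^ 2) k := by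
  rw [Vr, E2_sq_expand]
  nlinarith [sq_nonneg (N.rb m a k)]

/-- **low levels and sloped part** -/
theorem Pair.below (P : Pair S M N m a lam) (V : Lev S M lam L l Y)
    (hΦ : Phi N m a M.q (Ioc S.jl S.Jp) ≤ Φ) :
    ∑ k ∈ range (S.jl + 1), N.dz m a k * N.E2 m a (fun R => R ^ 2) k +
      ∑ k ∈ Ioo S.jl (S.J / 2), N.dz m a k * Vr N m a k ≤
      lam ^ 18 * L ^ 2 * Y + lam ^ 5 * Φ / L := by
  obtain ⟨k1, h1, h2, h3⟩ := P.exists_k1 V
  have hl := P.l1000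
  have L1 := V.L1
  have Y0 := P.Y0 V
  have Φ0 := (Phi_nonneg P.lg _).trans hΦ
  have k8 : 8 * k1 ≤ S.J := by
    have : ((8 * k1 : ℕ) : ℝ) ≤ S.J := by
      push_cast; linarith [le_mul_of_one_le_left (Nat.cast_nonneg (α := ℝ) k1) L1]
    exact_mod_cast this
  obtain ⟨-, i1, -, -⟩ := P.vl V h1 (by omega)
  have a1 := P.low V h1 h2 h3 hΦ
  have a2 := P.slope V h1 hΦ
  rw [range_eq_Ico, ← sum_Ico_consecutive _ (Nat.zero_le (S.jl + 1)) (by omega : S.jl + 1 ≤ k1),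
    ← range_eq_Ico] at a1
  rw [← Ico_add_one_left_eq_Ioo, ← sum_Ico_consecutive _ (by omega : S.jl + 1 ≤ k1)
    (by omega : k1 ≤ S.J / 2)]
  have a3 : ∑ k ∈ Ico (S.jl + 1) k1, N.dz m a k * Vr N m a k ≤
      ∑ k ∈ Ico (S.jl + 1) k1, N.dz m a k * N.E2 m a (fun R => R ^ 2) k :=
    sum_le_sum fun k _ => mul_le_mul_of_nonneg_left (Vr_le k) (P.lg.dz_nonneg k)
  have p0 : 0 ≤ Φ / L := by positivity
  have b1 : lam ^ 17 * L ^ 1 * Y ≤ lam ^ 17 * L ^ 2 * Y := by gcongr; norm_num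
  have b2 : lam ^ 16 * L ^ 2 * Y ≤ lam ^ 17 * L ^ 2 * Y := by gcongr <;> linarith
  have b3 : 2 * (lam ^ 17 * L ^ 2 * Y) ≤ lam * (lam ^ 17 * L ^ 2 * Y) := by gcongr; linarith
  have b4 : lam ^ 3 * (Φ / L) ≤ lam ^ 4 * (Φ / L) := by gcongr <;> linarith
  have b5 : 2 * (lam ^ 4 * (Φ / L)) ≤ lam * (lam ^ 4 * (Φ / L)) := by gcongr; linarith
  rw [mul_div_assoc] at a1 a2 ⊢
  linarith

/-- the pair `(M, sh M u F)` -/
theorem pair_of {C η u : ℝ} {A : ℕ} {F : ℕ → ℝ} (H : RgC C A η (1000 * C ^ 6) S) (hη : 30 * η ≤ 1)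
    (h : Cl S M) (I : S.In m a) (hu : u ≤ M.d 0) (h0 : F 0 = 0) (hF : Monotone F) :
    Pair S M (sh M u F) m a ((S.n : ℝ) ^ η) := by
  have n1 : (1 : ℝ) ≤ S.n := H.N1.le
  refine ⟨h, I, Gu71.sh_lg (lg_cl h (by have := H.n3; omega) I) hu h0 hF, rfl, rfl,
    fun k e e' => (h.flr k e e').trans ?_, H.hC ▸ H.K_le, ?_, H.hA ▸ H.A2, ?_, H.Cθ h⟩
  · have := hF (Nat.le_succ k)
    simp only [sh]
    linarith
  · rw [← rpow_natCast, ← rpow_mul H.N0.le]
    calc _ ≤ (S.n : ℝ) ^ (1 : ℝ) := rpow_le_rpow_of_exponent_le n1 (by push_cast; linarith)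
      _ = _ := rpow_one _
  · have N0 : (0 : ℝ) < M.N := by exact_mod_cast Nat.zero_lt_of_lt h.i4
    have a1 := log_le_log N0 h.card
    rw [log_pow, H.hA] at a1
    push_cast at a1
    nlinarith [mul_le_mul (by linarith [H.A_le, H.Λ1] : (A : ℝ) + 1 ≤ 2 * (S.n : ℝ) ^ η) H.log_le
      (by linarith [H.log1]) (by linarith [H.Λ1])]

/-- the level data from `VH` -/
theorem lev_of {E lm : ℝ} (h : Cl S M) (V : Sr.VH E S M l lm Y) (h1 : 1 ≤ lam) (h2 : lam ≤ E)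
    (L1 : 1 ≤ L) (L2 : L ≤ E ^ 12) : Lev S M lam L l Y := by
  have E1 : 1 ≤ E := h1.trans h2
  have l0 : 0 < l := (h.s_pos (h.i0.trans h.i1)).trans_le V.jl
  have Y0 : 0 ≤ Y := (pow_pos l0 3).le.trans V.l3
  have e : (lam * L) ^ 3 ≤ E ^ 39 := by
    calc _ ≤ (E * E ^ 12) ^ 3 := by gcongr
      _ = _ := by ring
  have w0 : 0 ≤ S.w3 l := by
    have := h.ms_pos l0.le
    have := h.F1
    unfold Sc.w3
    positivity
  refine ⟨L1, V.jj, V.jl, V.l3, (mul_le_mul_of_nonneg_right e w0).trans V.wl, V.bas,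
    le_of_pow_le_pow_left₀ (n := 3) (by norm_num) zero_le_one ?_⟩
  rw [mul_pow, one_pow]
  calc _ ≤ E ^ 200 * Y := mul_le_mul (e.trans (pow_le_pow_right₀ E1 (by norm_num))) V.l3
        (by positivity) (by positivity)
    _ ≤ _ := V.Y1
    _ ≤ 1 := rpow_le_one_of_one_le_of_nonpos (by exact_mod_cast h.n1) (by norm_num)

/-- `Phi` with the clock `M.q` is the functional of `SRDef_19` -/
theorem Phi_sh (G : Md67.Lg M m a) (u : ℝ) (F : ℕ → ℝ) :
    Phi (sh M u F) m a M.q (Ioc S.jl S.Jp) = (sh M u F).Phi S m a :=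
  sum_congr rfl fun k hk => by
    rw [Gu71.sh_dz, dz_up G.toLeg (Nat.zero_lt_of_lt (mem_Ioc.1 hk).1)]; rfl

end Crest.Agent.T156.Alt.V79

end
end

-- ▼ part T156/SrW_17

/-!
# Row 156, soft recursion, leaf (VAR): the top part and the wrapper (helper17)
-/

set_option autoImplicit false

noncomputable section

namespace Crest.Agent.T156.Alt.V17

open Real Finset Filter
open Crest.Agent.T156.Alt.Md67 Crest.Agent.T156.Alt.C33 Crest.Agent.T156.Alt.V79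
open Crest.Agent.T156.Alt.Sr (VH VarH VarS)

/-- the data at a fixed size: base `M`, model `N` on the same grid with at least the marks of `M` -/
structure HV (E L : ℝ) (S : Sc) (M N : Md) (m : ℕ) (a l lm Y : ℝ) : Prop where
  F : Fn S M m a
  V : VH E S M l lm Y
  G : Lg N m a
  eN : N.N = M.N
  ez : N.z = M.z
  dH : ∀ j, M.H (j + 1) - M.H j ≤ N.H (j + 1) - N.H j
  E1 : 1 ≤ E
  L1 : 1 ≤ L
  LE : L ≤ E ^ 12
  A3 : 3 ≤ S.A
  big : 10 ^ 10 * S.C ^ 26 ≤ S.n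
  sml : (12 * S.C ^ 4) ^ 3 * (S.n : ℝ) ^ (-(1 : ℝ) / 10) ≤ 1

variable {S : Sc} {M N : Md} {m : ℕ} {a E L l lm Y : ℝ}

theorem ms_mul (F : Fn S M m a) {k t : ℝ} (hk : 1 ≤ k) (ht : 0 ≤ t) :
    S.ms (k * t) ≤ 4 * k ^ 2 * S.ms t := by
  obtain ⟨r, h1, h2⟩ := exists_nat_pow_near hk one_lt_two
  refine (F.msm (mul_le_mul_of_nonneg_right h2.le ht)).trans ((F.ms_pow ht _).trans
    (mul_le_mul_of_nonneg_right ?_ (F.ms_pos ht).le))
  rw [pow_succ', show (4 : ℝ) ^ r = (2 ^ r) ^ 2 by rw [← pow_mul, mul_comm, pow_mul]; norm_num]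
  gcongr

theorem Vr_le4 (G : Lg N m a) (k : ℕ) : Vr N m a k ≤ 4 := E2_le (fun r hr => by
  have := rb_nonneg (M := N) (a := a) G.m0 k
  have := rb_le_one (M := N) (a := a) G.m0 k
  nlinarith [(abs_le.1 hr).1, (abs_le.1 hr).2]) k

namespace HV

variable (H : HV E L S M N m a l lm Y)
include H

theorem Y0 : 0 < Y := lt_of_lt_of_le (by have := H.F.n1; positivity) H.V.Y0

theorem Yn : Y ≤ (S.n : ℝ) ^ (-(1 : ℝ) / 10) :=
  (le_mul_of_one_le_left H.Y0.le (one_le_pow₀ H.E1)).trans H.V.Y1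

theorem Y1 : Y ≤ 1 := H.Yn.trans (rpow_le_one_of_one_le_of_nonpos H.F.n1 (by norm_num))

theorem l0 : 0 < l := by
  have i0 := H.F.i0
  have i1 := H.F.i1
  have i2 := H.F.i2
  refine lt_of_lt_of_le ?_ H.V.jl
  exact ((H.F.s_nonneg 0).trans_lt (H.F.s_lt (by omega))).trans_le (H.F.sm (by omega))

theorem l_sml : 12 * S.C ^ 4 * l ≤ 1 := by
  have C0 := H.F.C0
  refine (pow_le_pow_iff_left₀ (by have := H.l0; positivity) zero_le_one three_ne_zero).1 ?_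
  rw [mul_pow, one_pow]
  exact (mul_le_mul_of_nonneg_left (H.V.l3.trans H.Yn) (by positivity)).trans H.sml

theorem l1 : l ≤ 1 := by nlinarith [H.l_sml, one_le_pow₀ (n := 4) H.F.C1, H.l0]

theorem j4 : S.jl ≤ S.J / 4 := by
  have i2 := H.F.i2
  have C0 := H.F.C0
  have v0 := H.F.v0
  have a1 := (H.F.s_mem (k := S.jl) (by omega)).1.trans (mul_le_mul_of_nonneg_left H.V.jl C0.le)
  have a2 : (4 * S.jl : ℝ) * (3 * S.C ^ 3 * S.v) ≤ S.J * (3 * S.C ^ 3 * S.v) := by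
    nlinarith [H.l_sml, H.F.J_lo, mul_le_mul_of_nonneg_left a1 (by positivity : 0 ≤ 12 * S.C ^ 3)]
  have a3 : 4 * S.jl ≤ S.J := by exact_mod_cast le_of_mul_le_mul_right a2 (by positivity)
  omega

theorem w3_ge {t : ℝ} (h0 : 0 < t) (h1 : t ≤ 1) : 1 ≤ S.n * S.w3 t := by
  have n1 := H.F.n1
  have p := H.F.ms_pos h0.le
  rw [Sc.w3, ← mul_div_assoc, le_div_iff₀ (by positivity), one_mul, mul_assoc]
  exact mul_le_mul_of_nonneg_left ((mul_le_one₀ h1 p.le (H.F.ms_le_one t)).trans H.F.F1)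
    (by positivity)

theorem L_le : L ≤ S.n := by
  have l0 := H.l0
  have w := H.F.w3_pos l0
  have a1 : L ≤ E ^ 39 := H.LE.trans (pow_le_pow_right₀ H.E1 (by norm_num))
  have a2 : L * S.w3 l ≤ 1 := (mul_le_mul_of_nonneg_right a1 w.le).trans
    (H.V.wl.trans (pow_le_one₀ l0.le H.l1))
  exact le_of_mul_le_mul_right (a2.trans (H.w3_ge l0 H.l1)) w

theorem lm_ge : 1 ≤ S.n * lm := (H.w3_ge one_pos le_rfl).trans (mul_le_mul_of_nonneg_left
  (H.V.w1.trans (mul_le_of_le_one_left H.V.lm0.le H.Y1)) (Nat.cast_nonneg _))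

theorem v3 : S.v * (S.n : ℝ) ^ 3 ≤ S.C :=
  (mul_le_mul_of_nonneg_left (pow_le_pow_right₀ H.F.n1 H.A3) H.F.v0.le).trans H.F.v2

theorem J16 : 16 ≤ S.J := by
  by_contra h
  have j : (S.J : ℝ) ≤ 16 := by exact_mod_cast (by omega : S.J ≤ 16)
  have C1 := H.F.C1
  have v0 := H.F.v0
  have n1 := H.F.n1
  have a1 : S.v * S.n ≤ S.C := H.F.vn
  have a2 : S.C ^ 4 ≤ S.C ^ 26 := pow_le_pow_right₀ C1 (by norm_num)
  have a3 : 1 ≤ 48 * S.C ^ 3 * S.v := by
    nlinarith [H.F.J_lo, mul_le_mul_of_nonneg_right j (by positivity : 0 ≤ S.C ^ 3 * S.v)]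
  nlinarith [H.big, mul_le_mul_of_nonneg_right a3 (by positivity : (0 : ℝ) ≤ S.n),
    mul_le_mul_of_nonneg_left a1 (by positivity : 0 ≤ 48 * S.C ^ 3), pow_pos (by linarith : 0 < S.C) 26]

theorem th : TH S M N m (900 * S.C ^ 9) L Y lm (S.ms 1 / (900 * S.C ^ 9 * S.F)) M.ck := by
  have F := H.F
  have C1 := F.C1
  have C0 := F.C0
  have F1 := F.F1
  have F0 := F.F0
  have v0 := F.v0
  have n1 := F.n1
  have nm := F.nm
  have j4 := H.j4
  have i1 := F.i1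
  have J := H.J16
  have p := F.ms_pos zero_le_one
  have c9 : S.C ≤ S.C ^ 9 := le_self_pow₀ C1 (by norm_num)
  have CK : S.C ≤ 900 * S.C ^ 9 := by linarith
  have y : 1 / (S.ms 1 / (900 * S.C ^ 9 * S.F) * m) ≤ 900 * S.C ^ 9 * S.w3 1 := by
    calc _ ≤ 1 / (S.ms 1 / (900 * S.C ^ 9 * S.F) * S.n) := by gcongr
      _ = _ := by rw [Sc.w3]; field_simp
  refine ⟨H.eN, H.ez, ⟨a, H.G.toLeg⟩, C1.trans CK, H.L1, H.Y0, i1.trans j4,
    ⟨(one_div_le_one_div_of_le C0 CK).trans H.V.dj.1, H.V.dj.2.trans CK⟩, H.V.den, H.V.ue,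
    by positivity, fun j j1 j2 => le_trans ?_ ((F.flr j (j4.trans j1) j2).trans (H.dH j)),
    fun j j1 j2 => (F.ckm j (by omega) j2).2.trans (mul_le_mul_of_nonneg_right CK v0.le), ?_,
    y.trans (mul_le_mul_of_nonneg_left H.V.w1 (by positivity)), ?_, ?_, ?_⟩
  · have a1 := (F.s_mem (k := S.J / 4) (by omega)).1
    have a3 : (S.J : ℝ) ≤ 5 * (S.J / 4 : ℕ) := by exact_mod_cast (by omega : S.J ≤ 5 * (S.J / 4))
    have a2 : 1 ≤ 15 * S.C ^ 4 * M.s j := by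
      nlinarith [F.J_lo, mul_le_mul_of_nonneg_left (a1.trans (mul_le_mul_of_nonneg_left (F.sm j1)
        C0.le)) (by positivity : 0 ≤ 15 * S.C ^ 3),
        mul_le_mul_of_nonneg_right a3 (by positivity : 0 ≤ 3 * S.C ^ 3 * S.v)]
    have a4 := (F.msm a2).trans (ms_mul F (k := 15 * S.C ^ 4)
      (by linarith [one_le_pow₀ (n := 4) C1]) (F.s_nonneg j))
    calc _ ≤ 4 * (15 * S.C ^ 4) ^ 2 * S.ms (M.s j) / (900 * S.C ^ 9 * S.F) * S.v := by gcongr
      _ = _ := by field_simp; ring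
  · have a1 : (m : ℝ) ≤ 2 * S.n := by exact_mod_cast F.m2
    have a2 : S.v * m ≤ 2 * S.C := by nlinarith [F.vn, mul_le_mul_of_nonneg_left a1 v0.le]
    rw [mul_assoc, div_mul_eq_mul_div, div_le_one (by positivity)]
    nlinarith [mul_le_mul (F.ms_le_one 1) a2 (by positivity) zero_le_one,
      mul_le_mul_of_nonneg_left F1 (by positivity : 0 ≤ 900 * S.C ^ 9)]
  · refine (pow_le_pow_left₀ (by positivity) y 2).trans ?_
    rw [mul_pow]
    have := H.V.bas 1 H.l1 C1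
    rw [one_pow, one_mul] at this
    exact mul_le_mul_of_nonneg_left this (by positivity)
  · refine le_of_mul_le_mul_left (le_trans ?_ H.lm_ge) (by positivity)
    refine le_of_mul_le_mul_right ?_ (by positivity : (0 : ℝ) < S.n)
    calc _ ≤ S.n * (9600 * S.C ^ 7 * (900 * S.C ^ 9) ^ 2 * S.n * S.v) * S.n := by
          have := H.L_le; gcongr
      _ = 9600 * 900 ^ 2 * S.C ^ 25 * (S.v * S.n ^ 3) := by ring
      _ ≤ 9600 * 900 ^ 2 * S.C ^ 25 * S.C := mul_le_mul_of_nonneg_left H.v3 (by positivity)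
      _ ≤ _ := by nlinarith [H.big, pow_pos C0 26]
  · refine le_trans ?_ H.V.Y0
    have a1 : S.C ≤ S.n := by nlinarith [H.big, le_self_pow₀ C1 (show 26 ≠ 0 by norm_num)]
    have a2 : S.v * S.n ≤ 1 := by
      refine le_of_mul_le_mul_right ?_ (by positivity : (0 : ℝ) < S.n)
      nlinarith [H.v3, mul_le_mul_of_nonneg_left n1 (by positivity : 0 ≤ S.v * S.n ^ 2)]
    have a3 : S.v ≤ (S.n : ℝ)⁻¹ := by rw [← one_div, le_div_iff₀ (by positivity)]; exact a2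
    have a4 : (S.n : ℝ)⁻¹ ≤ (S.n : ℝ) ^ (-(1 : ℝ) / 2) := by
      rw [← rpow_neg_one]
      exact rpow_le_rpow_of_exponent_le n1 (by norm_num)
    have a5 : S.v ≤ 1 := a3.trans (inv_le_one_of_one_le₀ n1)
    nlinarith

/-- the number of blocks -/
theorem cnt : 1 + log (1 + 900 * S.C ^ 9 / lm) + log (1 + 1 / Y) ≤ 5 * log S.n := by
  have n1 := H.F.n1
  have C1 := H.F.C1
  have lm0 := H.V.lm0
  have Y0 := H.Y0
  have n3 : (3 : ℝ) ≤ S.n := by exact_mod_cast H.F.n3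
  have l1 : 1 ≤ log S.n := by
    rw [le_log_iff_exp_le (by positivity)]
    linarith [exp_one_lt_d9]
  have e : log ((S.n : ℝ) ^ 2) = 2 * log S.n := by rw [log_pow]; norm_num
  have a1 : log (1 + 900 * S.C ^ 9 / lm) ≤ log ((S.n : ℝ) ^ 2) := by
    refine log_le_log (by positivity) ?_
    have b1 : 900 * S.C ^ 9 / lm ≤ 900 * S.C ^ 9 * S.n := by
      rw [div_le_iff₀ lm0, mul_assoc]
      exact le_mul_of_one_le_right (by positivity) H.lm_ge
    have b2 : S.C ^ 9 ≤ S.C ^ 26 := pow_le_pow_right₀ C1 (by norm_num)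
    have b3 : 900 * S.C ^ 9 + 1 ≤ S.n := by linarith [H.big, one_le_pow₀ (n := 26) C1]
    nlinarith
  have a2 : log (1 + 1 / Y) ≤ log ((S.n : ℝ) ^ 2) := by
    refine log_le_log (by positivity) ?_
    have b1 : (S.n : ℝ)⁻¹ ≤ Y := by
      refine le_trans ?_ H.V.Y0
      rw [← rpow_neg_one]
      exact rpow_le_rpow_of_exponent_le n1 (by norm_num)
    have b2 : 1 / Y ≤ S.n := by
      rw [one_div]; exact inv_le_of_inv_le₀ (by positivity) b1
    nlinarith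
  linarith

theorem Phi_le {T : Finset ℕ} (hT : ∀ k ∈ T, S.jl < k ∧ k ≤ S.Jp) :
    Phi N m a M.ck T ≤ Phi N m a M.ck (Ioc S.jl S.Jp) :=
  Phi_mono H.G fun k hk => mem_Ioc.2 (hT k hk)

/-- **the top part** -/
theorem top {Lg Φ : ℝ} (hL : ((Nat.log 2 M.N : ℝ) + 2) * (Nat.log 2 M.N + 13) ≤ Lg)
    (hΦ : Phi N m a M.ck (Ioc S.jl S.Jp) ≤ Φ) :
    ∑ k ∈ Icc (S.J / 2) N.N, N.dz m a k * Vr N m a k ≤
      5 * K2 S.C (900 * S.C ^ 9) * log S.n * (4000 * K2 S.C (900 * S.C ^ 9) ^ 5 * Lg ^ 2 * L ^ 2 * Y +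
        26 * K2 S.C (900 * S.C ^ 9) * Φ / L) + 16 * S.C * Y := by
  obtain ⟨ke, h1, h2, h3, h4⟩ := top_cov' H.th H.F
  set K := K2 S.C (900 * S.C ^ 9) with hK
  have C1 := H.F.C1
  have K1 : 1 ≤ K := by
    have a1 := one_le_pow₀ (n := 3) (show 1 ≤ 30 * S.C ^ 5 by linarith [one_le_pow₀ (n := 5) C1])
    have a2 := one_le_pow₀ (n := 4) (one_le_mul_of_one_le_of_one_le C1
      (show 1 ≤ 900 * S.C ^ 9 by linarith [one_le_pow₀ (n := 9) C1]))
    rw [hK, K2]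
    nlinarith
  have J := H.J16
  have j4 := H.j4
  have i4 := H.F.i4
  have Y0 := H.Y0
  have L1 := H.L1
  have Φ0 : 0 ≤ Φ := (Phi_nonneg H.G _).trans hΦ
  have p : ∀ k, 0 ≤ N.dz m a k * Vr N m a k := fun k => mul_nonneg (H.G.dz_nonneg k) (Vr_nonneg k)
  have s1 := (h4.mono (fun _ _ q => q) (mul_le_mul_of_nonneg_left H.cnt (by linarith))).sum p
    (c := 4000 * K ^ 4 * Lg ^ 2 * L * (K * L * Y) + 26 * K * Φ / L) (by positivity)
    fun k n ⟨⟨q1, q2⟩, δ, x, ω, q⟩ => q.bound H.G H.F.v0 K1 L1 (le_trans (by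
      have : (Nat.log 2 n : ℝ) ≤ Nat.log 2 M.N := by exact_mod_cast Nat.log_mono_right (by omega)
      gcongr) hL) ((H.Phi_le fun j hj => by have := mem_Ico.1 hj; omega).trans hΦ)
  have s2 : ∑ k ∈ Ioc (ke - 1) N.N, N.dz m a k * Vr N m a k ≤ 16 * S.C * Y := by
    refine (sum_le_sum fun k _ => mul_le_mul_of_nonneg_left (Vr_le4 H.G k) (H.G.dz_nonneg k)).trans ?_
    rw [← sum_mul, sum_dz H.G.toLeg (by rw [H.eN]; omega), H.G.zN, H.ez]
    linarith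
  have e : Icc (S.J / 2) N.N = Ico (S.J / 2) ke ∪ Ioc (ke - 1) N.N := by
    ext k; simp only [mem_Icc, mem_union, mem_Ico, mem_Ioc, H.eN]; omega
  rw [e]
  refine (sum_union_inter.symm.ge.trans' (le_add_of_nonneg_right (sum_nonneg fun k _ => p k))).trans
    (add_le_add (s1.trans (le_of_eq (by ring))) s2)

end HV

theorem Phi_tri (G : Lg N m a) (c c' : ℕ → ℝ) (T : Finset ℕ) : Phi N m a c T ≤
    2 * Phi N m a c' T + 2 * ∑ k ∈ T, N.dz m a k * (c k - c' k) ^ 2 := by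
  rw [Phi, Phi, mul_sum, mul_sum, ← sum_add_distrib]
  refine sum_le_sum fun k _ => ?_
  have : (N.rb m a k - c k) ^ 2 ≤ 2 * (N.rb m a k - c' k) ^ 2 + 2 * (c k - c' k) ^ 2 := by
    nlinarith [sq_nonneg (N.rb m a k - c' k + (c k - c' k))]
  nlinarith [mul_le_mul_of_nonneg_left this (G.dz_nonneg k)]

theorem fin_arith {K C lg lam L Y Φ : ℝ} (hK : 20000 * K ^ 6 ≤ lam) (K1 : 1 ≤ K) (hC : 16 * C ≤ lam)
    (l0 : 0 ≤ lg) (l1 : lg ≤ lam) (L1 : 1 ≤ L) (Y0 : 0 ≤ Y) (Φ0 : 0 ≤ Φ) :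
    lam ^ 18 * L ^ 2 * Y + lam ^ 5 * Φ / L + (5 * K * lg * (4000 * K ^ 5 * (lam ^ 5) ^ 2 * L ^ 2 * Y +
      26 * K * (2 * Φ + 2 * Y) / L) + 16 * C * Y) ≤ lam ^ 19 * L ^ 3 * Y + lam ^ 6 * Φ / L := by
  have k2 : K ^ 2 ≤ K ^ 6 := pow_le_pow_right₀ K1 (by norm_num)
  have k6 : 1 ≤ K ^ 6 := one_le_pow₀ K1
  have m4 : 4 ≤ lam := by linarith
  have m1 : 1 ≤ lam := by linarith
  have p0 : 0 ≤ Φ / L := by positivity
  have y1 : Y / L ≤ Y := div_le_self Y0 L1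
  have y0 : 0 ≤ Y / L := by positivity
  have L3 : 1 ≤ L ^ 3 := one_le_pow₀ L1
  have L2 : L ^ 2 ≤ L ^ 3 := pow_le_pow_right₀ L1 (by norm_num)
  set Z := lam ^ 18 * L ^ 3 * Y with hZ
  have z : ∀ i ≤ 18, lam ^ i * 1 * Y ≤ Z := fun i hi => by rw [hZ]; gcongr
  have a1 : lam ^ 18 * L ^ 2 * Y ≤ Z := by rw [hZ]; gcongr
  have a2 : 20000 * K ^ 6 * lg * lam ^ 10 * L ^ 2 * Y ≤ Z := by
    calc _ ≤ lam * lam * lam ^ 10 * L ^ 3 * Y := by gcongr
      _ = lam ^ 12 * L ^ 3 * Y := by ring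
      _ ≤ _ := by rw [hZ]; gcongr; norm_num
  have a3 : 260 * K ^ 2 * lg ≤ lam ^ 2 := by
    rw [sq lam]; exact mul_le_mul (by linarith) l1 l0 (by linarith)
  have a4 : 260 * K ^ 2 * lg * (Y / L) ≤ Z :=
    (mul_le_mul a3 y1 y0 (by positivity)).trans (by simpa using z 2 (by norm_num))
  have a5 : 260 * K ^ 2 * lg * (Φ / L) ≤ lam ^ 5 * (Φ / L) :=
    mul_le_mul_of_nonneg_right (a3.trans (pow_le_pow_right₀ m1 (by norm_num))) p0
  have a6 : 16 * C * Y ≤ Z :=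
    (mul_le_mul_of_nonneg_right hC Y0).trans (by simpa using z 1 (by norm_num))
  have a7 : 4 * Z ≤ lam * Z := mul_le_mul_of_nonneg_right m4 (by positivity)
  have a8 : 2 * (lam ^ 5 * (Φ / L)) ≤ lam * (lam ^ 5 * (Φ / L)) :=
    mul_le_mul_of_nonneg_right (by linarith) (by positivity)
  have e1 : 5 * K * lg * (4000 * K ^ 5 * (lam ^ 5) ^ 2 * L ^ 2 * Y + 26 * K * (2 * Φ + 2 * Y) / L) =
      20000 * K ^ 6 * lg * lam ^ 10 * L ^ 2 * Y + 260 * K ^ 2 * lg * (Φ / L) +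
        260 * K ^ 2 * lg * (Y / L) := by ring
  have e2 : lam ^ 19 * L ^ 3 * Y + lam ^ 6 * Φ / L = lam * Z + lam * (lam ^ 5 * (Φ / L)) := by
    rw [hZ]; ring
  rw [e1, e2, mul_div_assoc]
  linarith

/-- **(VAR) at a fixed size**, pair form -/
theorem var_pair {lam : ℝ} (H : HV E L S M N m a l lm Y) (P : Pair S M N m a lam) (hE : lam ≤ E)
    (hK : 20000 * K2 S.C (900 * S.C ^ 9) ^ 6 ≤ lam) (hl : log S.n ≤ lam) :
    Gu71.Fl N m a S.jl ≤ lam ^ 19 * L ^ 3 * Y + lam ^ 6 * Phi N m a M.q (Ioc S.jl S.Jp) / L := by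
  have C1 := H.F.C1
  have J := H.J16
  have j4 := H.j4
  have i3 := H.F.i3
  have i4 := H.F.i4
  have K1 : 1 ≤ K2 S.C (900 * S.C ^ 9) := by
    have a1 := one_le_pow₀ (n := 3) (show 1 ≤ 30 * S.C ^ 5 by linarith [one_le_pow₀ (n := 5) C1])
    have a2 := one_le_pow₀ (n := 4) (one_le_mul_of_one_le_of_one_le C1
      (show 1 ≤ 900 * S.C ^ 9 by linarith [one_le_pow₀ (n := 9) C1]))
    rw [K2]
    nlinarith
  have a1 := P.below (lev_of H.F.toCl H.V (by linarith [P.l1000]) hE H.L1 H.LE) le_rfl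
  have a0 : ∑ k ∈ Ioc S.jl S.Jp, N.dz m a k * (M.ck k - M.q k) ^ 2 ≤ Y :=
    le_of_eq_of_le (sum_congr rfl fun k hk => by
      rw [P.dz_eq (Nat.zero_lt_of_lt (mem_Ioc.1 hk).1)]; rfl) H.V.ck
  have a2 := H.top (P.lg_log (by omega) le_rfl) ((Phi_tri H.G M.ck M.q _).trans
    (add_le_add_right (mul_le_mul_of_nonneg_left a0 zero_le_two) _))
  have e : Ioc S.jl N.N = Ioo S.jl (S.J / 2) ∪ Icc (S.J / 2) N.N := by
    ext k; simp only [mem_Icc, mem_union, mem_Ioo, mem_Ioc, H.eN]; omega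
  have a3 := fin_arith hK K1 (show 16 * S.C ≤ lam by linarith [P.Cp (i := 1) (by norm_num)])
    (log_nonneg H.F.n1) hl H.L1 H.Y0.le (Phi_nonneg (c := M.q) H.G (Ioc S.jl S.Jp))
  rw [Gu71.Fl, e, sum_union (disjoint_left.2 fun k h h' => by
    simp only [mem_Icc, mem_Ioo] at h h'; omega)]
  simp only [Vr] at a1 a2
  linarith

/-- **(VAR)** -/
theorem varS : VarS := by
  intro C
  filter_upwards [eventually_ge_atTop 3] with A hA ε hε _ _
  have hη : 0 < min (ε / 19) (1 / 30) := lt_min (by positivity) (by norm_num)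
  filter_upwards [ev_rgc C (by omega : 2 ≤ A) hη (1000 * C ^ 6),
    Pre29.ev_K (20000 * K2 C (900 * C ^ 9) ^ 6) hη,
    tendsto_natCast_atTop_atTop.eventually_ge_atTop (10 ^ 10 * C ^ 26),
    Pre29.ev_K ((12 * C ^ 4) ^ 3) (show (0 : ℝ) < 1 / 10 by norm_num)]
    with n h1 h2 h3 h4 S M e1 e2 e3 h m a I l lm Y V L u F L1 L2 _ hu h0 hF
  have R := h1 S e1 e2 e3
  subst e1 e2 e3
  have n1 : (1 : ℝ) ≤ S.n := R.N1.le
  have P := pair_of R (by linarith [min_le_right (ε / 19) (1 / 30)]) h I hu h0 hF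
  set lam := (S.n : ℝ) ^ min (ε / 19) (1 / 30) with hlam
  have E1 : 1 ≤ (S.n : ℝ) ^ ε := one_le_rpow n1 hε.le
  have l19 : lam ^ 19 ≤ (S.n : ℝ) ^ ε := by
    rw [hlam, ← rpow_natCast, ← rpow_mul R.N0.le]
    exact rpow_le_rpow_of_exponent_le n1 (by push_cast; linarith [min_le_left (ε / 19) (1 / 30)])
  have l1 : 1 ≤ lam := R.Λ1
  have H : HV ((S.n : ℝ) ^ ε) L S M (Gu71.sh M u F) m a l lm Y :=
    ⟨P.fn, V, P.lg, rfl, rfl, fun j => by
      have := hF (Nat.le_succ j)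
      simp only [Gu71.sh]
      linarith, E1, L1, L2, hA, h3, by
      rw [neg_div, rpow_neg R.N0.le, mul_inv_le_iff₀ (R.rp0 _), one_mul]; exact h4⟩
  have key := var_pair H P ((le_self_pow₀ l1 (by norm_num)).trans l19) h2 R.log_le
  rw [Phi_sh (lg_cl h (by have := R.n3; omega) I)] at key
  have Φ0 : 0 ≤ (Gu71.sh M u F).Phi S m a := by
    rw [← Phi_sh (lg_cl h (by have := R.n3; omega) I)]; exact Phi_nonneg P.lg _
  have Y0 := H.Y0
  refine key.trans (add_le_add ?_ ?_)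
  · have := l19.trans (le_self_pow₀ E1 (show 4 ≠ 0 by norm_num))
    gcongr
  · have := (pow_le_pow_right₀ l1 (show 6 ≤ 19 by norm_num)).trans l19
    gcongr

end Crest.Agent.T156.Alt.V17

end
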