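import Crest.Agent.T156.SrInv_16
import Crest.Agent.T156.SrCap_71
import Crest.Agent.T156.SRDef_19
import Crest.Agent.T156.SrM_63
import Crest.Agent.T156.ClReg_29
import Crest.Agent.T156.SrSh_74
import Crest.Agent.T156.SrP_26
import Crest.Agent.T156.GuC_71
import Crest.Agent.T156.CeiG_88
import Crest.Agent.T156.MdOne_67
import Crest.Agent.T156.ClZb_9
import Crest.Agent.T156.HessA_65
import Crest.Agent.T156.Reg_48
import Crest.Agent.T156.Ea_38
import Crest.Agent.T156.SRDef2_19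
import Crest.Agent.T156.Clk_64_Mg
import Crest.Agent.T156.SrW_17

-- ▼ part T156/SrInvB_71
section

/-!
Row 156 (helper71): `InvS` without hypotheses.
-/

namespace Crest.Agent.T156.Alt.Sr

theorem capS' : CapS := capS

theorem invS : InvS := invS_of capS'

end Crest.Agent.T156.Alt.Sr
end

-- ▼ part T156/SrDbl_63
section

/-!
# Row 156, SR: the double step `DblG` (helper63)
-/

set_option autoImplicit false

noncomputable section

namespace Crest.Agent.T156.Alt.Sr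

open Real Finset Filter
open Crest.Agent.T156.Alt.Gu71

theorem cl_n3 : CL fun _ _ S _ _ _ => 3 ≤ S.n := fun _ =>
  .of_forall fun _ _ _ _ _ => (eventually_ge_atTop 3).mono fun _ h _ _ _ _ e _ _ _ _ => e ▸ h

theorem SH.E51 {E l Ys Y : ℝ} {S : Sc} {M : Md} (H : SH E S M l Ys Y) (E1 : 1 ≤ E) (n1 : 1 ≤ S.n) :
    0 < Y ∧ E ^ 51 ≤ S.n := by
  have N1 : (1 : ℝ) ≤ S.n := by exact_mod_cast n1
  have p : 0 < (S.n : ℝ) ^ (-(1 : ℝ) / 2) := by positivity
  refine ⟨p.trans_le H.Y0, ?_⟩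
  have a : E ^ 200 * (S.n : ℝ) ^ (-(1 : ℝ) / 2) ≤ 1 :=
    (mul_le_mul_of_nonneg_left H.Y0 (by positivity)).trans
      (H.Y1.trans (rpow_le_one_of_one_le_of_nonpos N1 (by norm_num)))
  have b : (S.n : ℝ) ^ (-(1 : ℝ)) ≤ (S.n : ℝ) ^ (-(1 : ℝ) / 2) :=
    rpow_le_rpow_of_exponent_le N1 (by norm_num)
  rw [rpow_neg_one] at b
  have c : E ^ 51 * (S.n : ℝ)⁻¹ ≤ 1 :=
    (mul_le_mul (pow_le_pow_right₀ E1 (by norm_num)) b (by positivity) (by positivity)).trans a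
  rwa [← div_eq_mul_inv, div_le_one (by positivity)] at c

theorem dblG : DblG := fun hI hR => by
  unfold InvS SR at hI
  unfold RemS SR at hR
  unfold DblS SR
  refine ((hI.and hR).and cl_n3).mono ?_
  rintro E Λ S M m a E1 - hC hm ⟨⟨hI, hR⟩, n3⟩ l Ys Y c D H V X hD u h i N B h0 h1 h2 h3 h4 hN hP hB
    A w ξ G hG hA hE
  obtain ⟨i1, i2, -, i4, -, i6⟩ := hI l Ys Y c D H V X hD
  have rem := hR l Ys Y c D H V X hD
  obtain ⟨Y0, e51⟩ := H.E51 E1 hC.n1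
  have a0 := (hm.amax0 hC.n1).1
  have LN := i2 u N hN
  obtain ⟨LG, Kc⟩ := i6 u h i N G h0.le h2 h4 hN hG
  have Lc := i2 _ _ Kc
  have m0 := LN.m0
  set ρ := rul E S Y c m a with hρ
  have path : ∀ j ≤ i, KC E S M Y c D (u + j * h) (eu ρ h N j) := fun j hj => by
    induction j with
    | zero => simpa [eu] using hN
    | succ j ih =>
      have := i4 _ h _ h0.le (by
        have := cast_le h0.le hj
        push_cast at this
        linarith) (ih (by omega))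
      rw [show u + ((j + 1 : ℕ) : ℝ) * h = u + j * h + h by push_cast; ring]
      exact this
  have hd := Kc.2.1
  obtain ⟨u0, -, F, hF, rfl⟩ := hN
  have i0 : 0 ≤ (i : ℝ) * h := by positivity
  rw [min_eq_left (by linarith : u ≤ D)] at hF
  set N := sh M u fun k => F k + (u - min u D) * M.ct S k with hNe
  have Rl' : Rl ρ (E ^ 51) N m a := fun u' F' L => by
    rw [hNe, sh_sh] at L ⊢
    exact i1 _ _ L
  have d1 : (i : ℝ) * h ≤ N.d 0 := by simp only [hNe, sh]; linarith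
  have d2 : (i : ℝ) * h ≤ (sh N 0 G).d 0 := by simp only [hNe, sh]; linarith
  have Le := eu_lg LN Rl' h0.le i d1
  have vp := V_path LN LG rfl rfl Rl' h0.le i d1 d2
  have jN := hC.i4
  have wN : ∀ k ∈ A, k < N.N ∧ ξ k < N.N ∧ 0 ≤ w k ∧ w k ≤ N.H (k + 1) - N.H k := fun k hk => by
    obtain ⟨p1, p2, -, p4, p5, p6⟩ := hA k hk
    refine ⟨p2.trans jN, p4.trans jN, p5, ?_⟩
    have q1 := hF.flr k p1 p2
    have q2 := hC.leg.Hm (Nat.le_succ k)
    simp only [hNe, sh, min_eq_left (by linarith : u ≤ D), sub_self, zero_mul, add_zero]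
    linarith
  have lo := (Mv63.mv_map m0 LN.toLeg LG.toLeg a0 a0.le (M' := sh N 0 G)
    ⟨rfl, rfl, by simp only [sh, sub_zero]⟩ wN fun j _ => by
      have := hE j
      simp only [sh] at this ⊢
      linarith).1
  have ac := (acc_dp LN Rl' h0.le d1).mono
  rw [eu_eq] at Le
  have hi := (Mv63.mv_map m0 Le.toLeg Lc.toLeg a0 a0.le
    ⟨rfl, rfl, by simp only [co, sh, sub_zero]⟩ (A := A) (w := w) (ξ := ξ) (fun k hk => by
      obtain ⟨p1, p2, p3, p4⟩ := wN k hk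
      refine ⟨p1, p2, p3, ?_⟩
      have := ac (Nat.le_succ k)
      simp only [co, sh] at p4 ⊢
      linarith) fun j _ => by
      have := hE j
      simp only [co, sh] at this ⊢
      linarith).2
  refine ⟨(co ρ h N (sh N 0 G) i).rb m a, Md67.rb_mono m0,
    fun k => ⟨Md67.rb_nonneg m0 k, Md67.rb_le_one m0 k⟩, hB _ Kc, ?_⟩
  have sm : ∑ j ∈ range i, h * Rem (eu ρ h N j) m a (ρ (eu ρ h N j)) ≤ i * h * (E ^ 93 * Y) := by
    calc _ ≤ ∑ _j ∈ range i, h * (E ^ 93 * Y) := sum_le_sum fun j hj =>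
          mul_le_mul_of_nonneg_left (rem _ _ (path j (mem_range.1 hj).le)
            (hP j (mem_range.1 hj) _ (path j (mem_range.1 hj).le))) h0.le
      _ = _ := by rw [sum_const, card_range, nsmul_eq_mul, mul_assoc]
  have N3 : (3 : ℝ) ≤ S.n := by exact_mod_cast n3
  have m2 : (m : ℝ) ≤ 2 * S.n := by exact_mod_cast hm.m2
  have ex : exp (m * h * (5 + 10 * E ^ 51)) ≤ 4 := by
    have p : m * h * (5 + 10 * E ^ 51) ≤ 2 * S.n * (1 / (S.n : ℝ) ^ 6) * (15 * S.n) := by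
      gcongr
      linarith
    have q : 2 * S.n * (1 / (S.n : ℝ) ^ 6) * (15 * S.n) ≤ 1 := by
      rw [show 2 * S.n * (1 / (S.n : ℝ) ^ 6) * (15 * S.n) = 30 / (S.n : ℝ) ^ 4 by
        field_simp; norm_num, div_le_one (by positivity)]
      exact le_trans (by norm_num) (pow_le_pow_left₀ (by norm_num) N3 4)
    exact (exp_le_exp.2 (p.trans q)).trans (exp_one_lt_d9.le.trans (by norm_num))
  have M0 : (0 : ℝ) < m := by exact_mod_cast m0
  have cost : m * exp (m * h * (5 + 10 * E ^ 51)) / 4 *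
      ∑ j ∈ range i, h * Rem (eu ρ h N j) m a (ρ (eu ρ h N j)) ≤ m / 2 * (4 * u * E ^ 95 * Y) := by
    calc _ ≤ m * exp (m * h * (5 + 10 * E ^ 51)) / 4 * (i * h * (E ^ 93 * Y)) := by gcongr
      _ ≤ m * 4 / 4 * (2 * E ^ 2 * u * (E ^ 93 * Y)) := by gcongr
      _ = _ := by ring
  rw [eu_eq] at vp
  refine le_of_mul_le_mul_left ?_ (show 0 < (m : ℝ) / 2 by positivity)
  rw [mul_add]
  exact lo.trans (vp.trans (add_le_add hi cost))

end Crest.Agent.T156.Alt.Sr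
end
end

-- ▼ part T156/SrMvD_74
section

/-!
# Row 156, SR: the base part of `MovS` as a statement (helper74)
-/

set_option autoImplicit false

noncomputable section

namespace Crest.Agent.T156.Alt.Sr

open Finset

/-- **base moves**: the part of `Φ` on the sloped nodes `jl < k < J` -/
def MovB : Prop := SR fun E Λ S M m a Y c _ => ∀ u N B, 0 < u → 0 < m → N.N = M.N → N.z = M.z →
  N.q = M.q → N.Phi S m a ≤ 2 * (E ^ 100 * Y) → E ^ 99 * Y ≤ B → B ≤ E ^ 100 * Y →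
  Dbl E S M m a Y c u N B (4 * u * E ^ 95 * Y) →
  ∑ k ∈ Ioc S.jl (S.J - 1), M.dx k * N.del m a k ^ 2 ≤ Λ * B


end Crest.Agent.T156.Alt.Sr

end
end

-- ▼ part T156/SrZ_74
section

/-!
# Row 156, SR: the plateau step, frame-free (helper74)

Every node of the plateau is controlled by one shifted window (`SrSh_74`).
-/

set_option autoImplicit false

noncomputable section

namespace Crest.Agent.T156.Sr74

open Finset Real
open Crest.Agent.T156.SrP26 (Pt rho)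

variable {z : ℕ → ℝ} {J Jp : ℕ} {u0 ue h K g : ℝ}

/-- plateau with a mesh that is quasi-uniform on shells (`Cl.plat`, `Cl.dens` give `K = C³`) -/
structure Pq (z : ℕ → ℝ) (J Jp : ℕ) (u0 ue h K : ℝ) : Prop extends Pt z J Jp u0 ue h where
  K1 : 1 ≤ K
  hu' : 8 * K ^ 2 * h ≤ u0
  he' : 4 * K ^ 2 * h ≤ ue
  gap : z (J - 1) + 2 * u0 + 2 * ue ≤ 1
  pos : ∀ k, J ≤ k + 1 → k + 1 < Jp → z k < z (k + 1)
  qu : ∀ i j, J ≤ i + 1 → i ≤ j → j + 1 < Jp →
    z j - z i ≤ min (z i - z (J - 1)) (1 - z j) →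
    z (i + 1) - z i ≤ K * (z (j + 1) - z j) ∧ z (j + 1) - z j ≤ K * (z (i + 1) - z i)

/-- an admissible window for the density `g ρ^{-3/2}` -/
structure Aw (z : ℕ → ℝ) (J Jp : ℕ) (u0 ue g : ℝ) (b N : ℕ) (η : ℝ) : Prop where
  lo : J ≤ b
  hi : b + 2 * N < Jp
  e0 : 0 < η
  le : ∀ k, b ≤ k → k < b + 2 * N → η ≤ g * (z (k + 1) - z k) /
    (rho (z (J - 1)) u0 ue (z k) * √(rho (z (J - 1)) u0 ue (z k)))
  env : ∀ k, b ≤ k → k ≤ b + 2 * N → N * η * √(rho (z (J - 1)) u0 ue (z k)) ≤ g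
  sq : (N * η) ^ 2 * (z (b + 2 * N) - z b) ≤ g ^ 2
  far : min u0 ue / 4 ≤ z b - z (J - 1) ∧ min u0 ue / 4 ≤ 1 - z (b + 2 * N)

theorem Aw.sqU {b N : ℕ} {η : ℝ} (zm : Monotone z) (H : Aw z J Jp u0 ue g b N η) (B : Finset ℕ) :
    ∑ j ∈ B, (z j - z (j - 1)) * GU η b N j ^ 2 ≤ g ^ 2 := (sq_GU zm H.e0.le b N B).trans H.sq

theorem Aw.sqD {b N : ℕ} {η : ℝ} (zm : Monotone z) (H : Aw z J Jp u0 ue g b N η) (B : Finset ℕ) :
    ∑ j ∈ B, (z j - z (j - 1)) * GD η b N j ^ 2 ≤ g ^ 2 := (sq_GD zm H.e0.le b N B).trans H.sq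

theorem aw_of {b N : ℕ} {δ C u η : ℝ} (P : Pt z J Jp u0 ue h) (S : Sh z b N δ C u (g / 8) η)
    (h1 : J ≤ b) (h2 : b + 2 * N < Jp)
    (hr : ∀ k, b ≤ k → k ≤ b + 2 * N → P.r k ≤ 4 * u)
    (far : min u0 ue / 4 ≤ z b - z (J - 1) ∧ min u0 ue / 4 ≤ 1 - z (b + 2 * N)) :
    Aw z J Jp u0 ue g b N η := by
  have hu := S.u0
  have hg : 0 < g := by linarith [S.g0]
  have hs : 0 < √u := sqrt_pos.2 hu
  have sq : ∀ k, b ≤ k → k ≤ b + 2 * N → √(P.r k) ≤ 2 * √u := fun k a1 a2 => by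
    refine sqrt_le_iff.2 ⟨by positivity, ?_⟩
    rw [mul_pow, sq_sqrt hu.le]
    linarith [hr k a1 a2]
  refine ⟨h1, h2, S.eta_pos, fun k a1 a2 => (S.eta_le a1 a2).trans ?_, fun k a1 a2 => ?_,
    S.mass_sq.trans (by nlinarith), far⟩
  · have r0 := P.r_pos (h1.trans a1) (by omega : k ≤ Jp)
    have d0 : 0 ≤ z (k + 1) - z k := sub_nonneg.2 (P.mono k.le_succ)
    have a3 : P.r k * √(P.r k) ≤ 4 * u * (2 * √u) :=
      mul_le_mul (hr k a1 a2.le) (sq k a1 a2.le) (sqrt_nonneg _) (by positivity)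
    show _ ≤ g * (z (k + 1) - z k) / (P.r k * √(P.r k))
    have := sqrt_pos.2 r0
    rw [div_le_div_iff₀ (by positivity) (by positivity)]
    nlinarith [mul_le_mul_of_nonneg_left a3 (by positivity : 0 ≤ g / 8 * (z (k + 1) - z k))]
  · have a3 : N * η * √(P.r k) ≤ g / 8 / (4 * √u) * (2 * √u) :=
      mul_le_mul S.mass (sq k a1 a2) (sqrt_nonneg _) (by positivity)
    have e : g / 8 / (4 * √u) * (2 * √u) = g / 16 := by field_simp; ring
    show N * η * √(P.r k) ≤ g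
    linarith

namespace Pq

variable (P : Pq z J Jp u0 ue h K)
include P

theorem lt_top {k : ℕ} (hk : z k < 1 - ue) : k + 1 < Jp := by
  by_contra hc
  have := P.mono (show Jp - 1 ≤ k by omega)
  linarith [P.last]

theorem step {k : ℕ} (h1 : J ≤ k + 1) (h2 : k + 1 < Jp) : z (k + 1) - z k ≤ h := by
  simpa using P.mesh (k + 1) h1 h2

/-- the window above a node -/
theorem winU (hg : 0 < g) {a : ℕ} (h0' : u0 ≤ z a - z (J - 1)) (h2 : 2 * ue ≤ 1 - z a) :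
    ∃ N η δ u, Sh z a N δ (K ^ 2) u (g / 8) η ∧ Aw z J Jp u0 ue g a N η ∧ P.toPt.r a ≤ 4 * u ∧
      u / 2 ≤ 1 - z (a + 2 * N) ∧ u = min (z a - z (J - 1)) (1 - z a) := by
  have hK := P.K1
  have h0 := P.h0
  have hue : 0 < ue := by linarith [P.he]
  have hu0 := P.hu
  have h1 : J ≤ a := by
    by_contra hc
    have := P.mono (show a ≤ J - 1 by omega)
    linarith
  have K0 : 0 < K ^ 2 * h := by positivity
  set u := min (z a - z (J - 1)) (1 - z a) with hu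
  have u1 : u ≤ z a - z (J - 1) := min_le_left _ _
  have u2 : u ≤ 1 - z a := min_le_right _ _
  have u3 : 4 * K ^ 2 * h ≤ u := le_min (by linarith [P.hu']) (by linarith [P.he'])
  have a1 : a + 1 < Jp := P.lt_top (by linarith)
  have d0 := sub_pos.2 (P.pos a (by omega) a1)
  have d1 := P.step (k := a) (by omega) a1
  obtain ⟨N, η, S⟩ := exists_up (δ := (z (a + 1) - z a) / K) (C := K ^ 2) (u := u) (g := g / 8)
    (a := a) P.mono (by positivity) (one_le_pow₀ hK) (by positivity)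
    (le_trans (by
      rw [mul_assoc]
      gcongr
      exact (div_le_self d0.le hK).trans d1) u3) fun k k1 k2 => by
      obtain ⟨b1, b2⟩ := P.qu a k (by omega) k1 (P.lt_top (by linarith))
        (le_min (by nlinarith) (by linarith))
      refine ⟨by rwa [div_le_iff₀' (by positivity)], b2.trans (le_of_eq ?_)⟩
      field_simp
  have hl := S.len
  have hr : ∀ k, a ≤ k → k ≤ a + 2 * N → P.toPt.r k ≤ 4 * u := fun k k1 k2 => by
    have c1 := P.mono k1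
    have c2 := P.mono k2
    have := S.u0
    rcases min_choice (z a - z (J - 1)) (1 - z a) with e | e
    · exact (min_le_left _ _).trans (by rw [← hu] at e; linarith)
    · exact (min_le_right _ _).trans (by rw [← hu] at e; linarith)
  have m1 := min_le_left u0 ue
  have m2 := min_le_right u0 ue
  have m3 : min u0 ue ≤ u := le_min (by linarith) (by linarith)
  refine ⟨N, η, _, u, S, aw_of P.toPt S h1 ?_ hr ⟨by linarith, by linarith [S.u0]⟩,
    hr a le_rfl (by omega), by linarith, rfl⟩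
  by_contra hc
  have := P.mono (not_lt.1 hc)
  rw [P.top] at this
  linarith

/-- the window below a node -/
theorem winD (hg : 0 < g) {a : ℕ} (h1 : u0 ≤ z a - z (J - 1)) (h2 : 2 * ue ≤ 1 - z a) :
    ∃ b N η δ u, b + 2 * N = a ∧ Sh z b N δ (K ^ 2) u (g / 8) η ∧ Aw z J Jp u0 ue g b N η ∧
      P.toPt.r a ≤ 4 * u ∧ u / 2 ≤ z b - z (J - 1) := by
  have hK := P.K1
  have h0 := P.h0
  have hue := P.he
  have hu0 := P.hu
  set u := min ((z a - z (J - 1)) / 2) (1 - z a) with hu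
  have u1 : u ≤ (z a - z (J - 1)) / 2 := min_le_left _ _
  have u2 : u ≤ 1 - z a := min_le_right _ _
  have u3 : 4 * K ^ 2 * h ≤ u := le_min (by linarith [P.hu']) (by linarith [P.he'])
  have u4 : 8 * h ≤ u := le_min (by linarith) (by linarith)
  have a1 : a + 1 < Jp := P.lt_top (by linarith)
  have aJ : J ≤ a := by
    by_contra hc
    have := P.mono (show a ≤ J - 1 by omega)
    linarith
  have J1 := P.J1
  have d0 := sub_pos.2 (P.pos (a - 1) (by omega) (by omega))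
  have d1 := P.step (k := a - 1) (by omega) (by omega)
  have xa : z (a - 1) ≤ z a := P.mono (by omega)
  obtain ⟨b, N, η, -, hb, S⟩ := exists_down (δ := (z (a - 1 + 1) - z (a - 1)) / K) (C := K ^ 2)
    (u := u) (g := g / 8) (a := a) (J := J - 1) P.mono (by positivity) (one_le_pow₀ hK)
    (by positivity) (le_trans (by
      rw [mul_assoc]
      gcongr
      exact (div_le_self d0.le hK).trans d1) u3) (by linarith) fun k k1 k2 => by
      have k3 : J ≤ k + 1 := by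
        by_contra hc
        have := P.mono (show k + 1 ≤ J - 1 by omega)
        linarith
      have k4 := P.step k3 (by omega)
      obtain ⟨b1, b2⟩ := P.qu k (a - 1) k3 (by omega) (by omega)
        (le_min (by linarith) (by linarith))
      refine ⟨by rwa [div_le_iff₀' (by positivity)], b1.trans (le_of_eq ?_)⟩
      field_simp
  have hl := S.len
  rw [hb] at hl
  have hr : ∀ k, b ≤ k → k ≤ b + 2 * N → P.toPt.r k ≤ 4 * u := fun k k1 k2 => by
    have c1 := P.mono k1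
    have c2 := P.mono (k2.trans hb.le)
    rcases min_choice ((z a - z (J - 1)) / 2) (1 - z a) with e | e
    · exact (min_le_left _ _).trans (by rw [← hu] at e; linarith)
    · exact (min_le_right _ _).trans (by rw [← hu] at e; linarith)
  have m1 := min_le_left u0 ue
  have m2 := min_le_right u0 ue
  have m3 : min u0 ue / 2 ≤ u := le_min (by linarith) (by linarith)
  refine ⟨b, N, η, _, u, hb, S, aw_of P.toPt S ?_ (by omega) hr
    ⟨by linarith, by rw [hb]; linarith⟩, hr a (by omega) hb.ge, by linarith⟩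
  by_contra hc
  have := P.mono (show b ≤ J - 1 by omega)
  linarith

end Pq

/-- what the moves give: for every admissible window a monotone profile `r'` of energy `≤ B` -/
structure Mvs (z r : ℕ → ℝ) (q : ℝ) (J Jp : ℕ) (u0 ue g B X : ℝ) : Prop where
  up : ∀ b N η, Aw z J Jp u0 ue g b N η → ∃ r' : ℕ → ℝ, Monotone r' ∧
    ∑ k ∈ Icc J Jp, (z k - z (k - 1)) * (r' k - q) ^ 2 ≤ B ∧
    ∑ k ∈ lo b N, η * (z (k + N) - z k) * r k ≤
      ∑ k ∈ lo b N, η * (z (k + N) - z k) * r' (k + N + 1) + X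
  dn : ∀ b N η, Aw z J Jp u0 ue g b N η → ∃ r' : ℕ → ℝ, Monotone r' ∧
    ∑ k ∈ Icc J Jp, (z k - z (k - 1)) * (r' k - q) ^ 2 ≤ B ∧
    ∑ k ∈ hi b N, η * (z (k - N) - z k) * r (k + 1) ≤
      ∑ k ∈ hi b N, η * (z (k - N) - z k) * r' (k - N) + X

theorem fin_le {ρ u D B Y : ℝ} (hu : 0 < u) (hρ : ρ ≤ 4 * u) (hB : 0 ≤ B) (hY : 0 ≤ Y)
    (h : D ≤ √(B / (u / 2)) + Y / √u) : √ρ * D ≤ 3 * √B + 2 * Y := by
  have hs : 0 < √u := sqrt_pos.2 hu
  have s2 : √2 ≤ 3 / 2 := sqrt_le_iff.2 ⟨by norm_num, by norm_num⟩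
  have s0 : 0 < √2 := by positivity
  have a1 : √ρ ≤ 2 * √u := by
    refine sqrt_le_iff.2 ⟨by positivity, ?_⟩
    rw [mul_pow, sq_sqrt hu.le]
    linarith
  have e : √(B / (u / 2)) = √2 * √B / √u := by
    rw [show B / (u / 2) = 2 * B / u by field_simp, sqrt_div (by positivity), sqrt_mul (by norm_num)]
  rw [e] at h
  refine (mul_le_mul_of_nonneg_left h (sqrt_nonneg _)).trans
    ((mul_le_mul_of_nonneg_right a1 (by positivity)).trans ?_)
  have : 2 * √u * (√2 * √B / √u + Y / √u) = 2 * √2 * √B + 2 * Y := by field_simp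
  rw [this]
  nlinarith [sqrt_nonneg B]

/-- **the plateau step**, weak norm -/
theorem Pq.Z_le (P : Pq z J Jp u0 ue h K) (hg : 0 < g) {r : ℕ → ℝ} {q B X d0 M : ℝ}
    (hr : Monotone r) (hX : 0 ≤ X) (hd : 0 ≤ d0) (h0 : q - r J ≤ d0)
    (hM : ∀ k, J ≤ k → k ≤ Jp → |r k - q| ≤ M) (H : Mvs z r q J Jp u0 ue g B X) (hB : 0 ≤ B)
    {k : ℕ} (h1 : J ≤ k) (h2 : k ≤ Jp) : √(P.toPt.r k) * |r k - q| ≤
      3 * √B + 1024 * K ^ 4 * X / g + √(2 * u0) * d0 + √(3 * ue) * M := by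
  have hK := P.K1
  have M0 : 0 ≤ M := (abs_nonneg _).trans (hM k h1 h2)
  have p1 : 0 ≤ 1024 * K ^ 4 * X / g := by positivity
  have p2 : 0 ≤ √(2 * u0) * d0 := by positivity
  have p3 : 0 ≤ √(3 * ue) * M := by positivity
  have p4 : 0 ≤ √B := sqrt_nonneg _
  have eY : ∀ u : ℝ, 64 * (K ^ 2) ^ 2 * X / (g / 8 * √u) = 512 * K ^ 4 * X / g / √u := fun u => by
    ring
  have eZ : 2 * (512 * K ^ 4 * X / g) = 1024 * K ^ 4 * X / g := by ring
  rcases lt_or_ge (1 - z k) (2 * ue) with t | t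
  · have : √(P.toPt.r k) * |r k - q| ≤ √(3 * ue) * M :=
      mul_le_mul (sqrt_le_sqrt ((min_le_right _ _).trans (by linarith))) (hM k h1 h2)
        (abs_nonneg _) (sqrt_nonneg _)
    linarith
  rcases le_total q (r k) with s | s
  · rw [abs_of_nonneg (by linarith)]
    have key : ∀ a, u0 ≤ z a - z (J - 1) → 2 * ue ≤ 1 - z a → k ≤ a →
        (k = a ∨ P.toPt.r k ≤ 4 * min (z a - z (J - 1)) (1 - z a)) →
        √(P.toPt.r k) * (r k - q) ≤ 3 * √B + 2 * (512 * K ^ 4 * X / g) := fun a a1 a2 a3 a4 => by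
      obtain ⟨N, η, δ, u, S, A, c1, c2, c3⟩ := P.winU hg a1 a2
      obtain ⟨r', m', e', hx⟩ := H.up a N η A
      have g1 := S.gainU (R := r a) (R' := r' (a + 2 * N)) hX
        (fun j hj => hr (mem_Ico.1 hj).1)
        (fun j hj => m' (by have := (mem_Ico.1 hj).2; omega)) hx
      have g2 := top_le P.mono (c := a + 2 * N) (e := Jp) A.hi.le
        (fun j hj => by simp only [mem_Ioc, mem_Icc] at hj ⊢; omega) (fun j hj _ => m' hj.le) e'
        (half_pos S.u0) (by rw [P.top]; exact c2)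
      refine fin_le (D := r k - q) S.u0 ?_ hB (by positivity)
        (by rw [eY] at g1; linarith [hr a3])
      rcases a4 with rfl | a4
      · exact c1
      · rwa [c3]
    rcases le_or_gt u0 (z k - z (J - 1)) with t' | t'
    · linarith [key k t' t le_rfl (Or.inl rfl)]
    have ex : ∃ a, u0 ≤ z a - z (J - 1) := ⟨Jp, by rw [P.top]; linarith [P.gap, P.hu, P.he, P.h0]⟩
    have a1 := Nat.find_spec ex
    have a2 : k < Nat.find ex := by
      by_contra hc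
      have := P.mono (not_lt.1 hc)
      linarith
    have a3 := not_le.1 (Nat.find_min ex (show Nat.find ex - 1 < Nat.find ex by omega))
    have a4 : Nat.find ex - 1 + 1 < Jp := P.lt_top (by linarith [P.gap, P.hu, P.he, P.h0])
    have a5 := P.mesh (Nat.find ex) (by omega) (by omega)
    have := key (Nat.find ex) a1 (by linarith [P.gap, P.hu, P.he, P.h0]) a2.le (Or.inr
      ((min_le_left _ _).trans (by
        rcases min_choice (z (Nat.find ex) - z (J - 1)) (1 - z (Nat.find ex)) with e | e <;>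
          rw [e] <;> linarith [P.gap, P.hu, P.he, P.h0])))
    linarith
  rw [abs_of_nonpos (by linarith), neg_sub]
  rcases lt_or_ge (z k - z (J - 1)) u0 with t' | t'
  · have : √(P.toPt.r k) * (q - r k) ≤ √(2 * u0) * d0 :=
      mul_le_mul (sqrt_le_sqrt ((min_le_left _ _).trans (by linarith)))
        (by linarith [hr h1]) (by linarith) (sqrt_nonneg _)
    linarith
  obtain ⟨b, N, η, δ, u, hb, S, A, c1, c2⟩ := P.winD hg t' t
  obtain ⟨r', m', e', hx⟩ := H.dn b N η A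
  have g1 := S.gainD (R := r k) (R' := r' b) hX
    (fun j hj => hr (by have := (mem_Ico.1 hj).2; omega))
    (fun j hj => m' (by have := (mem_Ico.1 hj).1; omega)) hx
  have J1 := P.J1
  have lb := A.lo
  have g2 := bot_le P.mono (c := b) (e := J - 1) (by omega)
    (fun j hj => by simp only [mem_Ioc, mem_Icc] at hj ⊢; omega) (fun j _ hj => m' hj) e'
    (half_pos S.u0) c2
  have := fin_le (D := q - r k) (Y := 512 * K ^ 4 * X / g) S.u0 c1 hB (by positivity)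
    (by rw [eY] at g1; linarith)
  linarith

/-- **the plateau step**, energy -/
theorem Pq.phi_le (P : Pq z J Jp u0 ue h K) (hg : 0 < g) {r : ℕ → ℝ} {q B X d0 M : ℝ}
    (hr : Monotone r) (hX : 0 ≤ X) (hd : 0 ≤ d0) (h0 : q - r J ≤ d0)
    (hM : ∀ k, J ≤ k → k ≤ Jp → |r k - q| ≤ M) (H : Mvs z r q J Jp u0 ue g B X) (hB : 0 ≤ B) :
    ∑ k ∈ Icc J Jp, (z k - z (k - 1)) * (r k - q) ^ 2 ≤
      (log (1 + 1 / u0) + 2 * log (1 + 1 / ue)) *
        (36 * B + 4 * (1024 * K ^ 4 * X / g) ^ 2 + 8 * u0 * d0 ^ 2 + 12 * ue * M ^ 2) := by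
  have u0p : 0 < u0 := by linarith [P.hu, P.h0]
  have uep : 0 < ue := by linarith [P.he, P.h0]
  refine (P.toPt.phi_le fun k h1 h2 => P.Z_le hg hr hX hd h0 hM H hB h1 h2).trans
    (mul_le_mul_of_nonneg_left ?_ (add_nonneg (log_nonneg (le_add_of_nonneg_right (by positivity)))
      (mul_nonneg zero_le_two (log_nonneg (le_add_of_nonneg_right (by positivity))))))
  have e1 : (3 * √B) ^ 2 = 9 * B := by rw [mul_pow, sq_sqrt hB]; ring
  have e2 : (√(2 * u0) * d0) ^ 2 = 2 * u0 * d0 ^ 2 := by rw [mul_pow, sq_sqrt (by positivity)]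
  have e3 : (√(3 * ue) * M) ^ 2 = 3 * ue * M ^ 2 := by rw [mul_pow, sq_sqrt (by positivity)]
  generalize 3 * √B = x1 at *
  generalize 1024 * K ^ 4 * X / g = x2 at *
  generalize √(2 * u0) * d0 = x3 at *
  generalize √(3 * ue) * M = x4 at *
  nlinarith [sq_nonneg (x1 - x2), sq_nonneg (x1 - x3), sq_nonneg (x1 - x4), sq_nonneg (x2 - x3),
    sq_nonneg (x2 - x4), sq_nonneg (x3 - x4)]

/-- **corner**: the defect at the junction from the energy of the sloped part below it -/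
theorem corner {r q : ℕ → ℝ} (zm : Monotone z) (hr : Monotone r) {e J : ℕ} (he : e ≤ J) {t Φ : ℝ}
    {B : Finset ℕ} (hB : Ioc e J ⊆ B) (hq : ∀ j, e < j → j ≤ J → q J - q j ≤ t)
    (hΦ : ∑ j ∈ B, (z j - z (j - 1)) * (r j - q j) ^ 2 ≤ Φ) {u : ℝ} (hu : 0 < u)
    (h : u ≤ z J - z e) : q J - r J ≤ t + √(Φ / u) := by
  rcases le_total (q J - r J) t with h0 | h0
  · linarith [sqrt_nonneg (Φ / u)]
  suffices q J - r J - t ≤ √(Φ / u) by linarith
  refine le_sqrt_of_sq_le ?_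
  rw [le_div_iff₀ hu]
  refine (mul_le_mul_of_nonneg_left h (sq_nonneg _)).trans (le_trans ?_ hΦ)
  rw [← tel z he, Finset.mul_sum]
  refine le_trans (Finset.sum_le_sum fun j hj => ?_) (Finset.sum_le_sum_of_subset_of_nonneg hB
    fun j _ _ => mul_nonneg (dz_nonneg zm j) (sq_nonneg _))
  rw [mul_comm, ← neg_sq (r j - q j), neg_sub]
  have := hr (mem_Ioc.1 hj).2
  have := hq j (mem_Ioc.1 hj).1 (mem_Ioc.1 hj).2
  exact mul_le_mul_of_nonneg_left (pow_le_pow_left₀ (by linarith) (by linarith) 2) (dz_nonneg zm j)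

end Crest.Agent.T156.Sr74
end
end

-- ▼ part T156/SrT_74
section

/-!
# Row 156, SR: the plateau step on `Md` (helper74)
-/

set_option autoImplicit false

noncomputable section

namespace Crest.Agent.T156.Alt.SrT74

open Finset Real
open Crest.Agent.T156.Sr74 Crest.Agent.T156.Alt.Gu71 Crest.Agent.T156.Alt.Mv63
open Crest.Agent.T156.SrP26 (Pt rho)
open Crest.Agent.T156.Alt.Md67 (Lg)
open Crest.Agent.T156.Alt.SrB72 (G G_succ)

variable {M N N1 : Md} {m : ℕ} {a : ℝ}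

/-- the density `g ρ^{-3/2}` on the level `k` -/
def om (z : ℕ → ℝ) (J : ℕ) (u0 ue g : ℝ) (k : ℕ) : ℝ :=
  g * (z (k + 1) - z k) / (rho (z (J - 1)) u0 ue (z k) * √(rho (z (J - 1)) u0 ue (z k)))

/-- the plateau energy around `q` -/
def Pp (N : Md) (m : ℕ) (a q : ℝ) (J Jp : ℕ) : ℝ :=
  ∑ k ∈ Icc J Jp, (N.z k - N.z (k - 1)) * (N.rb m a k - q) ^ 2




variable {J Jp : ℕ} {u0 ue g q B X : ℝ}




variable {D : KD} {u : ℝ}




/-! ### the plateau of the class `Cl` -/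

theorem pq_of_cl {S : Sc} (H : Cl S M) {h : ℝ} (h0 : 0 < h)
    (mesh : ∀ k, S.J ≤ k → k < S.Jp → M.z k - M.z (k - 1) ≤ h) (he : S.ue ≤ ue) (u00 : 0 ≤ S.u0)
    (h1 : 16 * S.C ^ 6 * h ≤ u0) (h2 : 16 * S.C ^ 6 * h ≤ ue) (h3 : 2 * u0 + 2 * ue ≤ 1 / S.C) :
    Pq M.z S.J S.Jp u0 ue h (S.C ^ 3) := by
  have C1 := H.C1
  have c6 : 1 ≤ S.C ^ 6 := one_le_pow₀ C1
  have i2 := H.i2
  have v0 : 0 < S.v := by
    have := H.v1
    by_contra hc
    have h1 : S.v * (S.n : ℝ) ^ S.A ≤ 0 := mul_nonpos_of_nonpos_of_nonneg (not_lt.1 hc) (by positivity)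
    have : 0 < 1 / S.C := by positivity
    linarith
  have pl : ∀ k, S.J ≤ k + 1 → k + 1 < S.Jp → S.v / S.C ≤ (M.z (k + 1) - M.z k) * S.den (M.z k) ∧
      (M.z (k + 1) - M.z k) * S.den (M.z k) ≤ S.C * S.v := fun k k1 k2 => by
    simpa using H.plat (k + 1) k1 k2
  have pos : ∀ k, S.J ≤ k + 1 → k + 1 < S.Jp → M.z k < M.z (k + 1) := fun k k1 k2 => by
    have := (pl k k1 k2).1
    have : 0 < (M.z (k + 1) - M.z k) * S.den (M.z k) := lt_of_lt_of_le (by positivity) this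
    exact sub_pos.1 ((mul_pos_iff_of_pos_right (H.den0 _)).1 this)
  have cmp : ∀ i j, S.J ≤ i + 1 → i + 1 < S.Jp → S.J ≤ j + 1 → j + 1 < S.Jp →
      S.den (M.z j) ≤ S.C * S.den (M.z i) →
      M.z (i + 1) - M.z i ≤ S.C ^ 3 * (M.z (j + 1) - M.z j) := fun i j a1 a2 a3 a4 a5 => by
    have b1 := (pl i a1 a2).2
    have b2 := (pl j a3 a4).1
    have b3 := sub_pos.2 (pos j a3 a4)
    rw [div_le_iff₀ (by positivity)] at b2
    refine le_of_mul_le_mul_right (b1.trans ?_) (H.den0 (M.z i))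
    calc S.C * S.v ≤ S.C * ((M.z (j + 1) - M.z j) * S.den (M.z j) * S.C) := by gcongr
      _ ≤ S.C * ((M.z (j + 1) - M.z j) * (S.C * S.den (M.z i)) * S.C) := by gcongr
      _ = _ := by ring
  refine ⟨⟨by omega, H.i3, H.leg.zm, le_trans (by positivity) H.atom.1, H.top _ le_rfl, mesh,
    H.last.trans he, h0, by nlinarith, by nlinarith⟩, one_le_pow₀ C1, by nlinarith, by nlinarith,
    by linarith [H.atom.2], pos, fun i j a1 a2 a3 a4 => ?_⟩
  have b1 : M.z j < 1 := (pos j (by omega) a3).trans_le (H.leg.z1 _)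
  obtain ⟨d1, d2⟩ := H.dens (M.z i) (M.z j) (H.leg.zm (by omega)) (H.leg.zm a2) b1
    (a4.trans (min_le_min (by linarith) le_rfl))
  exact ⟨cmp i j a1 (by omega) (by omega) a3 d2, cmp j i (by omega) a3 a1 (by omega) d1⟩

/-! ### the plateau step -/


/-- change of the reference on the plateau (spread `γ`) -/
theorem ref_le {z r c c' : ℕ → ℝ} {h γ : ℝ} (P : Pt z J Jp u0 ue h)
    (hc : ∀ k, J ≤ k → k ≤ Jp → |c k - c' k| ≤ γ) :
    ∑ k ∈ Icc J Jp, (z k - z (k - 1)) * (r k - c k) ^ 2 ≤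
      2 * ∑ k ∈ Icc J Jp, (z k - z (k - 1)) * (r k - c' k) ^ 2 + 2 * γ ^ 2 := by
  have t : ∑ k ∈ Icc J Jp, (z k - z (k - 1)) ≤ 1 := by
    have e : Icc J Jp = Ioc (J - 1) Jp := by
      have := P.J1
      ext k; simp only [mem_Icc, mem_Ioc]; omega
    rw [e, SrP26.tele (J - 1) Jp (by have := P.JJ; omega), P.top]
    linarith [P.z0]
  have : ∑ k ∈ Icc J Jp, (z k - z (k - 1)) * (r k - c k) ^ 2 ≤ ∑ k ∈ Icc J Jp,
      (2 * ((z k - z (k - 1)) * (r k - c' k) ^ 2) + (z k - z (k - 1)) * (2 * γ ^ 2)) :=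
    Finset.sum_le_sum fun k hk => by
      have h1 := sq_le_sq' (abs_le.1 (hc k (mem_Icc.1 hk).1 (mem_Icc.1 hk).2)).1
        (abs_le.1 (hc k (mem_Icc.1 hk).1 (mem_Icc.1 hk).2)).2
      have h2 : (r k - c k) ^ 2 ≤ 2 * (r k - c' k) ^ 2 + 2 * γ ^ 2 := by
        nlinarith [sq_nonneg (r k - c' k + (c k - c' k))]
      nlinarith [mul_le_mul_of_nonneg_left h2 (P.dm_nn k)]
  rw [Finset.sum_add_distrib, ← Finset.mul_sum, ← Finset.sum_mul] at this
  nlinarith [sq_nonneg γ]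


/-- the right side of the plateau step -/
def Rs (u0 ue K g B X d0 : ℝ) : ℝ := (log (1 + 1 / u0) + 2 * log (1 + 1 / ue)) *
  (36 * B + 4 * (1024 * K ^ 4 * X / g) ^ 2 + 8 * u0 * d0 ^ 2 + 12 * ue)

/-- **the plateau step from `Mvs`** -/
theorem plat_of {η K d0 : ℝ} (hm : 0 < m) (P : Pq M.z J Jp u0 ue η K) (ez : N.z = M.z) (hg : 0 < g)
    (hX : 0 ≤ X) (hB : 0 ≤ B) (q0 : 0 ≤ q) (q1 : q ≤ 1) (hd : 0 ≤ d0)
    (h0 : q - N.rb m a J ≤ d0) (H : Mvs M.z (N.rb m a) q J Jp u0 ue g B X) :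
    Pp N m a q J Jp ≤ Rs u0 ue K g B X d0 := by
  have := P.phi_le (M := 1) hg (Md67.rb_mono hm) hX hd h0 (fun k _ _ => abs_le.2
    ⟨by linarith [Md67.rb_nonneg (M := N) (a := a) hm k],
      by linarith [Md67.rb_le_one (M := N) (a := a) hm k]⟩) H hB
  rw [one_pow, mul_one] at this
  rw [Pp, ez]
  exact this



/-! ### the shape of the deposit clock on the plateau -/

/-- `1/√(1 - z + ue) - 1/√(z - x* + u0)` -/
def ck (z : ℕ → ℝ) (J : ℕ) (u0 ue : ℝ) (k : ℕ) : ℝ :=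
  1 / √(1 - z k + ue) - 1 / √(z k - z (J - 1) + u0)

theorem inv_sqrt_sub {x y : ℝ} (hx : 0 < x) (h1 : x ≤ y) (h2 : y ≤ 2 * x) :
    (y - x) / (4 * (x * √x)) ≤ 1 / √x - 1 / √y ∧ (y - x) / (2 * (y * √y)) ≤ 1 / √x - 1 / √y ∧
      1 / √x - 1 / √y ≤ (y - x) / (2 * (x * √x)) ∧ 1 / √x - 1 / √y ≤ 3 * (y - x) / (2 * (y * √y)) := by
  have hy : 0 < y := hx.trans_le h1
  obtain ⟨s, s0, rfl⟩ : ∃ s, 0 < s ∧ x = s ^ 2 := ⟨√x, sqrt_pos.2 hx, (sq_sqrt hx.le).symm⟩
  obtain ⟨t, t0, rfl⟩ : ∃ t, 0 < t ∧ y = t ^ 2 := ⟨√y, sqrt_pos.2 hy, (sq_sqrt hy.le).symm⟩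
  rw [sqrt_sq s0.le, sqrt_sq t0.le]
  have st : s ≤ t := by nlinarith
  have ts : t ≤ 3 / 2 * s := by nlinarith
  have e : 1 / s - 1 / t = (t - s) / (s * t) := by field_simp
  have e2 : t ^ 2 - s ^ 2 = (t - s) * (t + s) := by ring
  have d0 : 0 ≤ t - s := sub_nonneg.2 st
  have p1 : (t + s) * t ≤ 4 * s ^ 2 := by nlinarith
  have p2 : (t + s) * s ≤ 2 * t ^ 2 := by nlinarith
  have p3 : 2 * s ^ 2 ≤ (t + s) * t := by nlinarith
  have p4 : 2 * t ^ 2 ≤ 3 * ((t + s) * s) := by nlinarith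
  rw [e, e2]
  refine ⟨?_, ?_, ?_, ?_⟩ <;> rw [div_le_div_iff₀ (by positivity) (by positivity)]
  · nlinarith [mul_le_mul_of_nonneg_left p1 (mul_nonneg d0 s0.le)]
  · nlinarith [mul_le_mul_of_nonneg_left p2 (mul_nonneg d0 t0.le)]
  · nlinarith [mul_le_mul_of_nonneg_left p3 (mul_nonneg d0 s0.le)]
  · nlinarith [mul_le_mul_of_nonneg_left p4 (mul_nonneg d0 t0.le)]

/-- **floor and ceiling of the clock shape** -/
theorem ck_inc {z : ℕ → ℝ} {h : ℝ} (P : Pt z J Jp u0 ue h) {k : ℕ} (h1 : J ≤ k + 1)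
    (h2 : k + 1 < Jp) : om z J u0 ue 1 k ≤ 4 * (ck z J u0 ue (k + 1) - ck z J u0 ue k) ∧
      ck z J u0 ue (k + 1) - ck z J u0 ue k ≤ 2 * om z J u0 ue 1 k := by
  have hh := P.h0
  have m1 : z (k + 1) - z k ≤ h := by simpa using P.mesh (k + 1) h1 h2
  have m0 : z k ≤ z (k + 1) := P.mono k.le_succ
  have a0 : z (J - 1) ≤ z k := P.mono (by omega)
  have b0 : z (k + 1) ≤ 1 := P.top ▸ P.mono h2.le
  have hu := P.hu
  have he := P.he
  obtain ⟨a1, -, a3, -⟩ := inv_sqrt_sub (x := z k - z (J - 1) + u0) (y := z (k + 1) - z (J - 1) + u0)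
    (by linarith) (by linarith) (by linarith)
  obtain ⟨-, b2, -, b4⟩ := inv_sqrt_sub (x := 1 - z (k + 1) + ue) (y := 1 - z k + ue)
    (by linarith) (by linarith) (by linarith)
  rw [show z (k + 1) - z (J - 1) + u0 - (z k - z (J - 1) + u0) = z (k + 1) - z k by ring] at a1 a3
  rw [show 1 - z k + ue - (1 - z (k + 1) + ue) = z (k + 1) - z k by ring] at b2 b4
  have d0 : 0 ≤ z (k + 1) - z k := sub_nonneg.2 m0
  have pa : 0 < z k - z (J - 1) + u0 := by linarith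
  have pb : 0 < 1 - z k + ue := by linarith
  simp only [om, ck, rho, one_mul]
  generalize z k - z (J - 1) + u0 = x at *
  generalize 1 - z k + ue = y at *
  generalize z (k + 1) - z k = d at *
  have mono : ∀ {s t : ℝ}, 0 < s → s ≤ t → d / (t * √t) ≤ d / (s * √s) := fun hs hst =>
    div_le_div_of_nonneg_left d0 (by positivity)
      (mul_le_mul hst (sqrt_le_sqrt hst) (sqrt_nonneg _) (hs.le.trans hst))
  have e1 : d / (4 * (x * √x)) = d / (x * √x) / 4 := by ring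
  have e2 : d / (2 * (x * √x)) = d / (x * √x) / 2 := by ring
  have e3 : d / (2 * (y * √y)) = d / (y * √y) / 2 := by ring
  have e4 : 3 * d / (2 * (y * √y)) = 3 * (d / (y * √y)) / 2 := by ring
  have n1 : 0 ≤ d / (x * √x) := by positivity
  have n2 : 0 ≤ d / (y * √y) := by positivity
  rcases le_total x y with c | c
  · rw [min_eq_left c]
    have := mono pa c
    constructor <;> linarith
  · rw [min_eq_right c]
    have := mono pb c
    constructor <;> linarith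





end Crest.Agent.T156.Alt.SrT74
end
end

-- ▼ part T156/SrMov_74
section

/-!
# Row 156, SR: `MovS` from its base part (helper74)
-/

set_option autoImplicit false

noncomputable section

namespace Crest.Agent.T156.Alt.Mov74

open Finset Real
open Crest.Agent.T156.Sr74 Crest.Agent.T156.Alt.SrT74 Crest.Agent.T156.Alt.Sr
open Crest.Agent.T156.SrP26 (Pt rho rho_lip)
open Crest.Agent.T156.Alt.SrB72 (G G_succ)

/-- the weight of a window against the increment of the clock shape one level below -/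
theorem eta_le {z : ℕ → ℝ} {J Jp b n : ℕ} {u0 ue h K g η : ℝ} (P : Pq z J Jp u0 ue h K)
    (hg : 0 ≤ g) (A : Aw z J Jp u0 ue g b n η) {k : ℕ} (k1 : b ≤ k) (k2 : k < b + 2 * n) :
    η ≤ 12 * K * g * (ck z J u0 ue k - ck z J u0 ue (k - 1)) := by
  have a1 := A.lo
  have a2 := A.hi
  have J1 := P.J1
  have h0 := P.h0
  have K1 := P.K1
  obtain ⟨j, rfl⟩ : ∃ j, k = j + 1 := ⟨k - 1, by omega⟩
  rw [Nat.add_sub_cancel]
  have m4 : 4 * h ≤ min u0 ue / 4 := by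
    have := le_min P.hu P.he
    linarith
  have s1 := P.step (k := j) (by omega) (by omega)
  have f1 := A.far.1
  have f2 := A.far.2
  have z1 := P.mono k1
  have z2 := P.mono k2.le
  obtain ⟨-, q2⟩ := P.qu j (j + 1) (by omega) (by omega) (by omega)
    (le_min (by linarith) (by linarith))
  have c1 := (ck_inc P.toPt (k := j) (by omega) (by omega)).1
  have e1 := A.le _ k1 k2
  have r1 : 16 * h ≤ rho (z (J - 1)) u0 ue (z (j + 1)) := P.toPt.r_ge (by omega) (by omega)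
  have d0 : 0 ≤ z (j + 1) - z j := sub_nonneg.2 (P.mono j.le_succ)
  have r2 : rho (z (J - 1)) u0 ue (z j) ≤ rho (z (J - 1)) u0 ue (z (j + 1)) + h :=
    rho_lip _ _ _ (by linarith) (by linarith)
  have r3 : rho (z (J - 1)) u0 ue (z (j + 1)) ≤ rho (z (J - 1)) u0 ue (z j) + h :=
    rho_lip _ _ _ (by linarith) (by linarith)
  simp only [om, one_mul] at c1
  generalize rho (z (J - 1)) u0 ue (z (j + 1)) = x at *
  generalize rho (z (J - 1)) u0 ue (z j) = y at *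
  have x0 : 0 < x := by linarith
  have y0 : 0 < y := by linarith
  have sx := sqrt_pos.2 x0
  have sy := sqrt_pos.2 y0
  have s2 : √y ≤ 3 / 2 * √x := by
    refine sqrt_le_iff.2 ⟨by positivity, ?_⟩
    rw [mul_pow, sq_sqrt x0.le]
    linarith
  have s3 : y * √y ≤ 2 * x * (3 / 2 * √x) := mul_le_mul (by linarith) s2 sy.le (by positivity)
  have key : g * (z (j + 1 + 1) - z (j + 1)) / (x * √x) ≤
      3 * K * g * ((z (j + 1) - z j) / (y * √y)) := by
    calc _ ≤ g * (K * (z (j + 1) - z j)) / (x * √x) := by gcongr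
      _ = 3 * K * g * ((z (j + 1) - z j) / (2 * x * (3 / 2 * √x))) := by field_simp
      _ ≤ _ := by gcongr
  have : 0 ≤ 3 * K * g := by positivity
  nlinarith [mul_le_mul_of_nonneg_left c1 this]

variable {E Y u B X l Ys : ℝ} {S : Sc} {M N : Md} {m : ℕ} {a : ℝ} {c : ℕ → ℝ}

theorem q_pl (H : Cl S M) {k : ℕ} (h1 : S.J ≤ k) (h2 : k ≤ S.Jp) :
    |M.q S.J - M.q k| ≤ M.s S.Jp - M.s S.J := by
  have i4 := H.i4
  have a1 := H.q_mono h1 (by omega)
  have a2 := Md67.q_lip H h1 (by omega)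
  have a3 := H.sm h2
  rw [abs_sub_comm, abs_of_nonneg (sub_nonneg.2 a1)]
  linarith

theorem sq_pl (H : Cl S M) (f : ℕ → ℝ) :
    ∑ k ∈ Icc S.J S.Jp, (M.z k - M.z (k - 1)) * f k ^ 2 ≤ M.sq S f :=
  Finset.sum_le_sum_of_subset_of_nonneg (fun k hk => by
    have := H.i2
    simp only [mem_Icc, mem_Ioc] at hk ⊢
    omega) fun k _ _ => mul_nonneg (sub_nonneg.2 (H.leg.zm (Nat.sub_le k 1))) (sq_nonneg _)

theorem dc_nn (H : Cl S M) (X : Ax E S M Y c) {k : ℕ} (h1 : S.jl < k) (h2 : k < S.Jp) :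
    0 ≤ c (k + 1) - c k := by
  have a1 := X.inc k h1 h2
  have a2 := (H.ckm k (H.i1.trans h1.le) h2).1
  have := div_pos H.v0 H.C0
  linarith

/-- **`Mvs` from `Dbl`** -/
theorem mvs_dbl (H : Cl S M) (hE : 1 ≤ E) (hu : 0 < u) (hY : 0 < Y) (Xc : Ax E S M Y c) {h : ℝ}
    (P : Pq M.z S.J S.Jp ((E ^ 99 * Y) ^ ((1 : ℝ) / 3)) Y h (S.C ^ 3))
    (fl : (M.s S.Jp - M.s S.J) ^ 2 ≤ Y) (D : Dbl E S M m a Y c u N B X) :
    Mvs M.z (N.rb m a) (M.q S.J) S.J S.Jp ((E ^ 99 * Y) ^ ((1 : ℝ) / 3)) Y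
      (u * √(E ^ 99 * Y) / (48 * S.C ^ 3 * E ^ 4)) (2 * B + 2 * Y) X := by
  have C1 := H.C1
  have i2 := H.i2
  set g := u * √(E ^ 99 * Y) / (48 * S.C ^ 3 * E ^ 4) with hg
  have g0 : 0 ≤ g := by positivity
  have g2 : g ^ 2 ≤ u ^ 2 * (E ^ 100 * Y) := by
    have c3 : 1 ≤ S.C ^ 3 * E ^ 4 := one_le_mul_of_one_le_of_one_le (one_le_pow₀ C1) (one_le_pow₀ hE)
    have a1 : g ≤ u * √(E ^ 99 * Y) := div_le_self (by positivity) (by linarith)
    have a2 := pow_le_pow_left₀ g0 a1 2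
    rw [mul_pow, sq_sqrt (by positivity)] at a2
    refine a2.trans ?_
    gcongr
    norm_num
  have w : ∀ {b n η}, Aw M.z S.J S.Jp ((E ^ 99 * Y) ^ ((1 : ℝ) / 3)) Y g b n η → ∀ k, b ≤ k →
      k < b + 2 * n → η ≤ u / E ^ 4 * (c (k + 1) - c k) / 4 := fun {b n η} A k k1 k2 => by
    have a1 := eta_le P g0 A k1 k2
    have a2 := Xc.pla k (A.lo.trans k1) (k2.trans A.hi)
    have e : 12 * S.C ^ 3 * g * (ck M.z S.J ((E ^ 99 * Y) ^ ((1 : ℝ) / 3)) Y k -
        ck M.z S.J ((E ^ 99 * Y) ^ ((1 : ℝ) / 3)) Y (k - 1)) = u / E ^ 4 *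
        (shp (E ^ 99 * Y) Y (M.xs S) (M.z k) - shp (E ^ 99 * Y) Y (M.xs S) (M.z (k - 1))) / 4 := by
      simp only [hg, ck, shp, Md.xs]
      field_simp
      ring
    refine a1.trans (e.trans_le ?_)
    gcongr
  have mo : ∀ {b n η}, Aw M.z S.J S.Jp ((E ^ 99 * Y) ^ ((1 : ℝ) / 3)) Y g b n η → ∀ F,
      F = GU η b n ∨ F = GD η b n → Sr.Mo E S M Y c u F := fun {b n η} A F hF => by
    have a1 := A.lo
    have a2 := A.hi
    have e0 := A.e0
    have v0 := H.v0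
    have i1 : ∀ k, S.jl < k → k < S.Jp → 0 ≤ (if k ∈ lo b n then η else 0) ∧
        (if k ∈ lo b n then η else 0) ≤ u / E ^ 4 * (c (k + 1) - c k) / 4 ∧
        0 ≤ (if k ∈ hi b n then η else 0) ∧
        (if k ∈ hi b n then η else 0) ≤ u / E ^ 4 * (c (k + 1) - c k) / 4 := fun k k1 k2 => by
      have d := dc_nn H Xc k1 k2
      refine ⟨by split_ifs <;> linarith, ?_, by split_ifs <;> linarith, ?_⟩
      · split_ifs with h
        · exact w A k (mem_Ico.1 h).1 (by have := (mem_Ico.1 h).2; omega)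
        · positivity
      · split_ifs with h
        · exact w A k (by have := (mem_Ico.1 h).1; omega) (mem_Ico.1 h).2
        · positivity
    rcases hF with rfl | rfl
    · refine ⟨fun k hk => GU_zero η (Or.inl (by omega)), fun k hk => GU_zero η (Or.inr (by omega)),
        fun k k1 k2 => ?_, fun k k1 k2 => ?_, (A.sqU H.leg.zm _).trans g2⟩
      · rw [GU_succ]; linarith [i1 k k1 k2]
      · rw [GU_zero η (Or.inl (by omega)), GU_zero η (Or.inl (by omega)), sub_zero]; positivity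
    · refine ⟨fun k hk => GD_zero η (Or.inl (by omega)), fun k hk => GD_zero η (Or.inr (by omega)),
        fun k k1 k2 => ?_, fun k k1 k2 => ?_, (A.sqD H.leg.zm _).trans g2⟩
      · rw [GD_succ]; linarith [i1 k k1 k2]
      · rw [GD_zero η (Or.inl (by omega)), GD_zero η (Or.inl (by omega)), sub_zero]; positivity
  have en : ∀ r : ℕ → ℝ, M.sq S (fun k => r k - M.q k) ≤ B →
      ∑ k ∈ Icc S.J S.Jp, (M.z k - M.z (k - 1)) * (r k - M.q S.J) ^ 2 ≤ 2 * B + 2 * Y :=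
    fun r hr => by
      have a1 := ref_le (r := r) (c := fun _ => M.q S.J) (c' := M.q) P.toPt fun k => q_pl H
      have a2 := sq_pl H fun k => r k - M.q k
      linarith
  constructor
  · intro b n η A
    have a1 := A.lo
    have a2 := A.hi
    obtain ⟨r, r1, -, r3, r4⟩ := D (lo b n) (fun _ => η) (fun k => k + n) _ (mo A _ (Or.inl rfl))
      (fun k hk => by
        have := mem_Ico.1 hk
        exact ⟨by omega, by omega, by omega, by omega, A.e0.le, w A k this.1 (by omega)⟩)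
      fun j => G_succ _ _ _ j
    refine ⟨r, r1, en r r3, le_trans (le_of_eq (Finset.sum_congr rfl fun k _ => by
      rw [if_pos (by omega)])) (r4.trans (le_of_eq ?_))⟩
    congr 1
    refine Finset.sum_congr rfl fun k hk => ?_
    have := mem_Ico.1 hk
    rw [if_neg (by omega)]
  · intro b n η A
    have a1 := A.lo
    have a2 := A.hi
    obtain ⟨r, r1, -, r3, r4⟩ := D (hi b n) (fun _ => η) (fun k => k - n) _ (mo A _ (Or.inr rfl))
      (fun k hk => by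
        have := mem_Ico.1 hk
        exact ⟨by omega, by omega, by omega, by omega, A.e0.le, w A k (by omega) this.2⟩)
      fun j => G_succ _ _ _ j
    refine ⟨r, r1, en r r3, le_trans (le_of_eq (Finset.sum_congr rfl fun k hk => ?_))
      (r4.trans (le_of_eq ?_))⟩
    · have := mem_Ico.1 hk
      rw [if_neg (by omega)]
    congr 1
    refine Finset.sum_congr rfl fun k hk => ?_
    rw [if_pos (by omega)]

theorem q_z (H : Cl S M) {i k : ℕ} (h0 : S.j0 ≤ i) (hik : i ≤ k) (hk : k < S.J) :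
    M.q k - M.q i ≤ S.C ^ 2 * (M.z k - M.z i) := by
  have a1 := Md67.q_lip H hik (hk.trans H.J_lt).le
  have a2 := (H.s_tel hik hk.le).2
  have a3 := (H.z_tel h0 hik hk).1
  have C0 := H.C0
  have e : ((k : ℝ) - i) * (S.C * S.v) = S.C ^ 2 * (((k : ℝ) - i) * (S.v / S.C)) := by field_simp
  nlinarith [mul_le_mul_of_nonneg_left a3 (sq_nonneg S.C)]

/-- **the corner** -/
theorem corner_le (H : Cl S M) {r : ℕ → ℝ} (hr : Monotone r) {u0 Φ : ℝ} (hu : 0 < u0)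
    (h1 : M.z S.jl + u0 ≤ M.z (S.J - 1))
    (hΦ : ∑ k ∈ Ioc S.jl (S.J - 1), (M.z k - M.z (k - 1)) * (r k - M.q k) ^ 2 ≤ Φ) :
    M.q S.J - r S.J ≤ S.C * S.v + S.C ^ 2 * u0 + √(Φ / u0) := by
  classical
  have i1 := H.i1
  have i2 := H.i2
  set e := Nat.findGreatest (fun k => M.z k + u0 ≤ M.z (S.J - 1)) (S.J - 1) with he
  have e1 : S.jl ≤ e := Nat.le_findGreatest (by omega) h1
  have e2 : M.z e + u0 ≤ M.z (S.J - 1) :=
    Nat.findGreatest_spec (P := fun k => M.z k + u0 ≤ M.z (S.J - 1)) (m := S.jl) (by omega) h1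
  have e3 : e ≤ S.J - 1 := Nat.findGreatest_le _
  have key := corner (r := r) (q := M.q) H.leg.zm hr e3 (t := S.C ^ 2 * u0) (Φ := Φ)
    (B := Ioc S.jl (S.J - 1)) (Ioc_subset_Ioc_left e1) (fun j j1 j2 => by
      have a1 := Nat.findGreatest_is_greatest (P := fun k => M.z k + u0 ≤ M.z (S.J - 1)) j1 j2
      refine (q_z H (by omega) j2 (by omega)).trans ?_
      gcongr
      linarith [not_le.1 a1]) hΦ hu (by linarith)
  have a1 := Md67.q_lip H (Nat.sub_le S.J 1) H.J_lt.le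
  have a2 := (H.ss (S.J - 1) (by omega)).2
  rw [show S.J - 1 + 1 = S.J by omega] at a2
  have a3 := hr (Nat.sub_le S.J 1)
  linarith

/-- the numbers -/
structure Nb (E Λ : ℝ) (S : Sc) (Y : ℝ) : Prop where
  E1 : 1 ≤ E
  big : 10 ^ 12 * S.C ^ 30 ≤ Λ
  Λn : Λ ≤ S.n
  lg : log S.n ≤ Λ
  n2 : (2 : ℝ) ≤ S.n
  Yn : 1 / (S.n : ℝ) ≤ Y
  TΛ : E ^ 102 * Y * Λ ^ 3 ≤ 1
  v : S.v * (S.n : ℝ) ^ 2 ≤ S.C

theorem nb_of {C ε η : ℝ} {A : ℕ} (R : RgC C A η (10 ^ 12 * C ^ 30) S) (hε : 0 < ε)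
    (hη : ((30 : ℕ) : ℝ) * η ≤ 1) (H : Cl S M) (h : SH ((S.n : ℝ) ^ ε) S M l Ys Y) :
    Nb ((S.n : ℝ) ^ ε) ((S.n : ℝ) ^ η) S Y := by
  have N1 := R.N1.le
  have N0 := R.N0
  have η0 := R.η_pos
  push_cast at hη
  have E1 : 1 ≤ (S.n : ℝ) ^ ε := one_le_rpow N1 hε.le
  have Y0 : 0 < Y := (rpow_pos_of_pos N0 _).trans_le h.Y0
  refine ⟨E1, R.hC ▸ R.K_le, ?_, R.log_le, by linarith [R.N3], le_trans ?_ h.Y0, ?_, ?_⟩
  · exact (rpow_le_rpow_of_exponent_le N1 (by linarith)).trans_eq (rpow_one _)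
  · rw [one_div, ← rpow_neg_one]
    exact rpow_le_rpow_of_exponent_le N1 (by norm_num)
  · have a1 : ((S.n : ℝ) ^ ε) ^ 102 * Y ≤ (S.n : ℝ) ^ (-(1 : ℝ) / 10) :=
      le_trans (by gcongr; norm_num) h.Y1
    calc _ ≤ (S.n : ℝ) ^ (-(1 : ℝ) / 10) * ((S.n : ℝ) ^ η) ^ 3 := by gcongr
      _ = (S.n : ℝ) ^ (-(1 : ℝ) / 10 + η * 3) := by
        rw [rpow_add N0, rpow_mul N0.le]; norm_num
      _ ≤ 1 := rpow_le_one_of_one_le_of_nonpos N1 (by linarith)
  · refine le_trans ?_ H.v2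
    have := H.v0
    gcongr
    exact R.hA ▸ R.A2

theorem phi_split (H : Cl S M) (ez : N.z = M.z) (eq : N.q = M.q) : N.Phi S m a =
    ∑ k ∈ Ioc S.jl (S.J - 1), M.dx k * N.del m a k ^ 2 +
      ∑ k ∈ Icc S.J S.Jp, (M.z k - M.z (k - 1)) * (N.rb m a k - M.q k) ^ 2 := by
  have i2 := H.i2
  have i3 := H.i3
  have e : Icc S.J S.Jp = Ioc (S.J - 1) S.Jp := by
    ext k; simp only [mem_Icc, mem_Ioc]; omega
  simp only [Md.Phi, Md.sq, Md.dx, Md.del, ez, eq, e]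
  exact (Finset.sum_Ioc_consecutive _ (by omega) (by omega)).symm

/-- consequences of the numbers; `u0 = T^{1/3}` -/
structure Nc (E Λ : ℝ) (S : Sc) (Y u0 : ℝ) : Prop where
  Y0 : 0 < Y
  Λ1 : 1000 ≤ Λ
  YT : Y ≤ E ^ 99 * Y
  u00 : 0 < u0
  u3 : u0 ^ 3 = E ^ 99 * Y
  Tu : E ^ 99 * Y ≤ u0
  ms : 16 * S.C ^ 6 * (1 / (S.n : ℝ) ^ 2) ≤ Y
  Cv : S.C * S.v ≤ Y
  uC : 4 * S.C * u0 ≤ 1 / S.C
  lg : ∀ x, Y ≤ x → log (1 + 1 / x) ≤ 2 * Λ

theorem Nb.nc {Λ : ℝ} (n : Nb E Λ S Y) (C1 : 1 ≤ S.C) :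
    Nc E Λ S Y ((E ^ 99 * Y) ^ ((1 : ℝ) / 3)) := by
  have E1 := n.E1
  have n2 := n.n2
  have n0 : (0 : ℝ) < S.n := by linarith
  have Y0 : 0 < Y := lt_of_lt_of_le (by positivity) n.Yn
  have c30 : ∀ i ≤ 30, S.C ^ i ≤ S.C ^ 30 := fun i hi => pow_le_pow_right₀ C1 hi
  have c1 := c30 0 (by norm_num)
  have big := n.big
  rw [pow_zero] at c1
  have Λ1 : 1000 ≤ Λ := by linarith
  have YT : Y ≤ E ^ 99 * Y := le_mul_of_one_le_left Y0.le (one_le_pow₀ E1)
  have TΛ : E ^ 99 * Y * Λ ^ 3 ≤ 1 := le_trans (by gcongr; norm_num) n.TΛ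
  have T0 : 0 < E ^ 99 * Y := by positivity
  have u00 : 0 < (E ^ 99 * Y) ^ ((1 : ℝ) / 3) := rpow_pos_of_pos T0 _
  have u3 : ((E ^ 99 * Y) ^ ((1 : ℝ) / 3)) ^ 3 = E ^ 99 * Y := by
    rw [← rpow_natCast, ← rpow_mul T0.le]; norm_num
  generalize (E ^ 99 * Y) ^ ((1 : ℝ) / 3) = u0 at *
  have uΛ : u0 * Λ ≤ 1 := by
    refine pow_le_one_iff_of_nonneg (n := 3) (by positivity) (by norm_num) |>.1 ?_
    rw [mul_pow, u3]; exact TΛ
  have u1 : u0 ≤ 1 := by nlinarith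
  have nY : 1 ≤ S.n * Y := by have := n.Yn; rwa [div_le_iff₀' n0] at this
  have ms : 16 * S.C ^ 6 * (1 / (S.n : ℝ) ^ 2) ≤ Y := by
    rw [mul_one_div, div_le_iff₀ (by positivity)]
    have := c30 6 (by norm_num)
    have := n.Λn
    nlinarith
  refine ⟨Y0, Λ1, YT, u00, u3, by rw [← u3]; exact pow_le_of_le_one u00.le u1 (by norm_num), ms,
    le_trans ?_ ms, ?_, fun x hx => ?_⟩
  · rw [mul_one_div, le_div_iff₀ (by positivity)]
    have := mul_le_mul_of_nonneg_left n.v (zero_le_one.trans C1)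
    have : S.C ^ 2 ≤ S.C ^ 6 := pow_le_pow_right₀ C1 (by norm_num)
    nlinarith [sq_nonneg S.C]
  · rw [le_div_iff₀ (by positivity)]
    have := mul_le_mul_of_nonneg_left (c30 2 (by norm_num)) u00.le
    have := mul_le_mul_of_nonneg_left big u00.le
    have : 0 ≤ u0 * S.C ^ 30 := by positivity
    linarith
  · have x0 := Y0.trans_le hx
    have a1 : 1 / x ≤ S.n := by rw [div_le_iff₀ x0]; nlinarith
    have a2 : log (1 + 1 / x) ≤ log ((S.n : ℝ) ^ 2) := log_le_log (by positivity) (by nlinarith)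
    rw [log_pow] at a2
    push_cast at a2
    linarith [n.lg]

theorem rs_le {Λ u0 : ℝ} (n : Nc E Λ S Y u0) (C1 : 1 ≤ S.C) (E1 : 1 ≤ E) (v0 : 0 < S.v)
    (big : 10 ^ 12 * S.C ^ 30 ≤ Λ) (hu : 0 < u) (hB : E ^ 99 * Y ≤ B) :
    Rs u0 Y (S.C ^ 3) (u * √(E ^ 99 * Y) / (48 * S.C ^ 3 * E ^ 4)) (2 * B + 2 * Y)
      (4 * u * E ^ 95 * Y) (S.C * S.v + S.C ^ 2 * u0 + √(Λ * B / u0)) ≤ 6 * Λ * (18 * (Λ * B)) := by
  obtain ⟨Y0, Λ1, YT, u00, u3, Tu, -, Cv, -, lg⟩ := n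
  have T0 : 0 < E ^ 99 * Y := by positivity
  have B0 : 0 < B := T0.trans_le hB
  have e1 : 1024 * (S.C ^ 3) ^ 4 * (4 * u * E ^ 95 * Y) /
      (u * √(E ^ 99 * Y) / (48 * S.C ^ 3 * E ^ 4)) = 196608 * S.C ^ 15 * √(E ^ 99 * Y) := by
    have s0 := sqrt_pos.2 T0
    have e2 : E ^ 99 * Y = √(E ^ 99 * Y) * √(E ^ 99 * Y) := (mul_self_sqrt T0.le).symm
    generalize √(E ^ 99 * Y) = s at *
    field_simp
    linear_combination (1024 * 4 * 48 : ℝ) * e2
  rw [Rs, e1, mul_pow, sq_sqrt T0.le]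
  generalize E ^ 99 * Y = T at *
  have d2 : u0 * (S.C * S.v + S.C ^ 2 * u0 + √(Λ * B / u0)) ^ 2 ≤ 8 * S.C ^ 4 * T + 2 * (Λ * B) := by
    have a1 : S.C * S.v ≤ S.C ^ 2 * u0 :=
      (Cv.trans (YT.trans Tu)).trans (le_mul_of_one_le_left u00.le (one_le_pow₀ C1))
    have a2 : √(Λ * B / u0) ^ 2 = Λ * B / u0 := sq_sqrt (by positivity)
    have a3 : (S.C * S.v + S.C ^ 2 * u0 + √(Λ * B / u0)) ^ 2 ≤
        (2 * (S.C ^ 2 * u0) + √(Λ * B / u0)) ^ 2 := by gcongr; linarith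
    have a4 : (2 * (S.C ^ 2 * u0) + √(Λ * B / u0)) ^ 2 ≤
        8 * (S.C ^ 2 * u0) ^ 2 + 2 * (Λ * B / u0) := by
      nlinarith [sq_nonneg (2 * (S.C ^ 2 * u0) - √(Λ * B / u0))]
    calc _ ≤ u0 * (8 * (S.C ^ 2 * u0) ^ 2 + 2 * (Λ * B / u0)) := by gcongr; exact a3.trans a4
      _ = 8 * S.C ^ 4 * u0 ^ 3 + 2 * (Λ * B) := by field_simp
      _ = _ := by rw [u3]
  have a1 := lg u0 (YT.trans Tu)
  have a2 := lg Y le_rfl
  have a3 := mul_le_mul_of_nonneg_left hB (by positivity : 0 ≤ S.C ^ 30)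
  have a4 := mul_le_mul (pow_le_pow_right₀ C1 (by norm_num : 4 ≤ 30)) hB T0.le (by positivity)
  have a5 := mul_le_mul_of_nonneg_right big B0.le
  have a6 := mul_le_mul_of_nonneg_right Λ1 B0.le
  have a7 : 0 ≤ S.C ^ 30 * B := by positivity
  refine mul_le_mul (by linarith) ?_ (by positivity) (by positivity)
  have e3 : (196608 * S.C ^ 15) ^ 2 * T = 196608 ^ 2 * (S.C ^ 30 * T) := by ring
  rw [e3]
  linarith

/-- **the plateau part and the sum** -/
theorem plat_pt {Λ : ℝ} (H : Cl S M) (h : SH E S M l Ys Y) (Xc : Ax E S M Y c) (n : Nb E Λ S Y)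
    (hu : 0 < u) (hm : 0 < m) (ez : N.z = M.z) (eq : N.q = M.q) (hB : E ^ 99 * Y ≤ B)
    (D : Dbl E S M m a Y c u N B (4 * u * E ^ 95 * Y))
    (hb : ∑ k ∈ Ioc S.jl (S.J - 1), M.dx k * N.del m a k ^ 2 ≤ Λ * B) :
    N.Phi S m a ≤ Λ ^ 3 * B := by
  have C1 := H.C1
  have E1 := n.E1
  have v0 := H.v0
  have n0 := H.N0
  have nc := n.nc C1
  have rs := rs_le nc C1 E1 v0 n.big hu hB
  obtain ⟨Y0, Λ1, YT, u00, u3, Tu, ms, Cv, uC, -⟩ := nc
  have B0 : 0 < B := lt_of_lt_of_le (by positivity) hB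
  have mv := fun P => mvs_dbl (h := 1 / (S.n : ℝ) ^ 2) H E1 hu Y0 Xc P h.flat D
  generalize (E ^ 99 * Y) ^ ((1 : ℝ) / 3) = u0 at *
  have lu : l ≤ u0 := le_of_pow_le_pow_left₀ (n := 3) (by norm_num) u00.le
    (by rw [u3]; exact h.l3.trans YT)
  have Cu : u0 ≤ S.C * u0 := le_mul_of_one_le_left u00.le C1
  have P := pq_of_cl (u0 := u0) (ue := Y) H (h := 1 / (S.n : ℝ) ^ 2) (by positivity)
    (fun k k1 k2 => h.mesh k k1 k2.le) h.ue h.u0.1.le (by linarith) ms (by linarith)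
  have zj : M.z S.jl + u0 ≤ M.z (S.J - 1) := by
    have a1 := (H.z_s H.i1 H.jl_lt).2
    have a2 := mul_le_mul_of_nonneg_left (h.jl.trans lu) H.C0.le
    linarith [H.atom.1]
  have co := corner_le H (r := N.rb m a) (Md67.rb_mono hm) u00 zj (Φ := Λ * B)
    (by simpa only [Md.dx, Md.del, eq] using hb)
  have pl := (plat_of hm P ez (by positivity) (by positivity) (by positivity)
    (H.q_nn H.J_lt.le) (Cl.q_le_one _) (by positivity) co (mv P)).trans rs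
  have fin := ref_le (r := N.rb m a) (c := M.q) (c' := fun _ => M.q S.J) P.toPt
    fun k k1 k2 => (abs_sub_comm _ _).trans_le (q_pl H k1 k2)
  rw [Pp, ez] at pl
  rw [phi_split H ez eq]
  have a6 := mul_le_mul_of_nonneg_right Λ1 B0.le
  have a7 := mul_le_mul_of_nonneg_right Λ1 (by positivity : 0 ≤ Λ * B)
  have a8 := mul_le_mul_of_nonneg_right Λ1 (by positivity : 0 ≤ Λ * (Λ * B))
  have := h.flat
  linarith

/-- the losses -/
theorem cube_le {C η η' K : ℝ} {A : ℕ} (R : RgC C A η' K S) (h : 3 * η' ≤ η) :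
    ((S.n : ℝ) ^ η') ^ 3 ≤ (S.n : ℝ) ^ η := by
  rw [← rpow_natCast, ← rpow_mul R.N0.le]
  exact rpow_le_rpow_of_exponent_le R.N1.le (by push_cast; linarith)

/-- **`MovS` from its base part** -/
theorem movS_of (hB : MovB) : MovS := by
  unfold MovB SR at hB
  unfold MovS SR
  refine CL.glue hB fun C => ⟨2, fun A _ ε η hε hη => ⟨ε, min (η / 3) (1 / 30), 10 ^ 12 * C ^ 30,
    hε, by positivity, ?_⟩⟩
  intro S M m a R H _ hb l Ys Y c D a1 a2 a3 a4 u N B b1 b2 b3 b4 b5 b6 b7 b8 b9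
  have n := nb_of R hε (by push_cast; linarith [min_le_right (η / 3) (1 / 30)]) H a1
  refine (plat_pt H a1 a3 n b1 b2 b4 b5 b7 b9
    (hb l Ys Y c D a1 a2 a3 a4 u N B b1 b2 b3 b4 b5 b6 b7 b8 b9)).trans
    (mul_le_mul_of_nonneg_right (cube_le R (by linarith [min_le_left (η / 3) (1 / 30)])) ?_)
  have := (n.nc H.C1).Y0
  have := R.rp0 ε
  exact le_trans (by positivity) b7

end Crest.Agent.T156.Alt.Mov74

end
end

-- ▼ part T156/SrMvA_74
section

/-!
# Row 156, SR: the base moves; `MovS` (helper74)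
-/

set_option autoImplicit false

noncomputable section

namespace Crest.Agent.T156.Alt.Mov74

open Finset Real
open Crest.Agent.T156.Alt.Sr
open Crest.Agent.T156.Alt.SrB72 (G G_succ Mv exists_xi)

variable {E Y u B l Ys : ℝ} {S : Sc} {M N : Md} {m : ℕ} {a : ℝ} {c r : ℕ → ℝ}

open Classical in
/-- the levels that are moved -/
def BA (S : Sc) (M : Md) (r : ℕ → ℝ) : Finset ℕ :=
  (Ico (S.jl + 1) (S.J - 1)).filter fun k =>
    M.z (S.jl + 1) < M.z k + 1 / (2 * S.C ^ 2) * (r k - M.q k) ∧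
      M.z k + 1 / (2 * S.C ^ 2) * (r k - M.q k) ≤ M.z (S.J - 1)

theorem dx_le (H : Cl S M) {k : ℕ} (h1 : S.jl < k) (h2 : k < S.J) :
    S.v / S.C ≤ M.z k - M.z (k - 1) ∧ M.z k - M.z (k - 1) ≤ S.C * S.v := by
  have i1 := H.i1
  have := H.zs (k - 1) (by omega) (by omega)
  rwa [show k - 1 + 1 = k by omega] at this

theorem exists_mv (H : Cl S M) (hr : Monotone r) {wb : ℝ} (hw : 0 ≤ wb) :
    ∃ ξ, Mv M.z M.q r (fun k => wb * (M.z (k + 1) - M.z k)) (BA S M r) ξ (S.jl + 1) (S.J - 1)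
      (1 / (2 * S.C ^ 2)) (S.C ^ 2) (S.C * S.v) (S.C ^ 2) wb := by
  classical
  have i1 := H.i1
  have i2 := H.i2
  have C0 := H.C0
  have iN := H.J_lt
  obtain ⟨ξ, hξ⟩ := exists_xi H.leg.zm (t := fun k => M.z k + 1 / (2 * S.C ^ 2) * (r k - M.q k))
    (A := BA S M r) (j0 := S.jl + 1) (j2 := S.J - 1) fun k hk => (mem_filter.1 hk).2
  have sub : ∀ k ∈ BA S M r, S.jl + 1 ≤ k ∧ k < S.J - 1 := fun k hk => mem_Ico.1 (mem_filter.1 hk).1
  refine ⟨ξ, H.leg.zm, fun i j _ h _ => hr h, fun i j _ h h' => H.q_mono h (by omega),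
    fun i j h0 h h' => q_z H (by omega) h (by omega), by positivity, le_of_eq (by field_simp),
    by positivity, hw, sub, fun k _ => mul_nonneg hw (sub_nonneg.2 (H.leg.zm k.le_succ)),
    fun k _ => le_rfl, fun j h h' => (H.zs j (by omega) (by omega)).2, fun k hk => ?_,
    fun k hk => (hξ k hk).1, fun k hk => (hξ k hk).2.1, fun k hk => (hξ k hk).2.2⟩
  have a0 := sub k hk
  have a1 := (hξ k hk).1
  have a2 := (H.zs k (by omega) (by omega)).2
  have a3 := mul_le_mul_of_nonneg_left (dx_le H (k := ξ k) (by omega) (by omega)).1 (sq_nonneg S.C)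
  have e : S.C ^ 2 * (S.v / S.C) = S.C * S.v := by field_simp
  linarith

theorem sum_dx (H : Cl S M) {i j : ℕ} (h : i ≤ j) : ∑ k ∈ Ioc i j, (M.z k - M.z (k - 1)) ≤ 1 := by
  rw [SrP26.tele i j h]
  linarith [H.leg.z1 j, H.z_pos i]

/-- **the base move** -/
theorem move (H : Cl S M) (E1 : 1 ≤ E) (CE : S.C ≤ E) (hu : 0 < u) (Xc : Ax E S M Y c)
    (Y0 : 0 < Y) (Y1 : Y ≤ 1) (Cv : S.C * S.v ≤ Y) (hm : 0 < m)
    (hΦ : M.sq S (fun k => N.rb m a k - M.q k) ≤ 2 * (E ^ 100 * Y)) (hB : E ^ 99 * Y ≤ B)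
    (D : Dbl E S M m a Y c u N B (4 * u * E ^ 95 * Y)) :
    ∑ k ∈ BA S M (N.rb m a), (M.z k - M.z (k - 1)) * (N.rb m a k - M.q k) ^ 2 ≤
      1320 * S.C ^ 6 * B := by
  have i1 := H.i1
  have i2 := H.i2
  have i3 := H.i3
  have C1 := H.C1
  have v0 := H.v0
  have c2 : 1 ≤ S.C ^ 2 := one_le_pow₀ C1
  have YT : Y ≤ E ^ 99 * Y := le_mul_of_one_le_left Y0.le (one_le_pow₀ E1)
  have B0 : 0 < B := Y0.trans_le (YT.trans hB)
  rcases (BA S M (N.rb m a)).eq_empty_or_nonempty with e | ⟨k0, hk0⟩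
  · rw [e, Finset.sum_empty]; positivity
  set wb := u / (E ^ 4 * (8 * S.C ^ 2)) with hwb
  have w0 : 0 < wb := by positivity
  obtain ⟨ξ, V⟩ := exists_mv H (Md67.rb_mono (M := N) (a := a) hm) w0.le
  have j02 : S.jl + 1 < S.J - 1 := (V.sub k0 hk0).1.trans_lt (V.sub k0 hk0).2
  have wu : wb * (8 * S.C ^ 2) ≤ u := by
    rw [hwb, div_mul_eq_mul_div, mul_div_mul_right _ _ (by positivity)]
    exact div_le_self hu.le (one_le_pow₀ E1)
  have wle : ∀ k ∈ BA S M (N.rb m a),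
      wb * (M.z (k + 1) - M.z k) ≤ u / E ^ 4 * (c (k + 1) - c k) / 4 := fun k hk => by
    have a0 := V.sub k hk
    have a1 := V.hi k a0.1 a0.2
    have a2 := Xc.inc k (by omega) (by omega)
    have a3 := (H.ckm k (by omega) (by omega)).1
    calc _ ≤ wb * (S.C * S.v) := by gcongr
      _ = u / E ^ 4 * (S.v / S.C / 2) / 4 := by rw [hwb]; field_simp; norm_num
      _ ≤ _ := by gcongr; linarith
  have dn : ∀ k, 0 ≤ M.z k - M.z (k - 1) := fun k => sub_nonneg.2 (H.leg.zm (Nat.sub_le k 1))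
  have mo : Sr.Mo E S M Y c u (G (fun k => wb * (M.z (k + 1) - M.z k)) (BA S M (N.rb m a)) ξ) := by
    refine ⟨fun k hk => V.G_low hk, fun k hk => V.G_high (by omega), fun k k1 k2 => ?_,
      fun k k1 k2 => ?_, ?_⟩
    · refine le_trans (neg_le_neg ?_) (V.G_floor k)
      split_ifs with h
      · exact wle k h
      · have := dc_nn H Xc k1 k2
        positivity
    · rw [G_succ]
      have a1 := V.land k
      have a2 : 0 ≤ if k ∈ BA S M (N.rb m a) then wb * (M.z (k + 1) - M.z k) else 0 := by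
        split_ifs with h
        · exact V.w0 k h
        · exact le_rfl
      have a3 : wb * (2 + S.C ^ 2) * (M.z k - M.z (k - 1)) ≤ u * (E ^ 8 * S.v) :=
        mul_le_mul (by nlinarith) ((dx_le H k1 k2).2.trans (mul_le_mul_of_nonneg_right
          (CE.trans (le_self_pow₀ E1 (by norm_num))) v0.le)) (dn k) hu.le
      linarith
    · refine (V.sq_G (B := Ioc S.jl S.Jp) (d := M.dx) (fun j _ => dn j) (by positivity)).trans ?_
      have a1 : (1 / (2 * S.C ^ 2)) ^ 2 ≤ 1 :=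
        pow_le_one₀ (by positivity) (by rw [div_le_one (by positivity)]; linarith)
      have a2 : (S.C * S.v) ^ 2 ≤ E ^ 100 * Y :=
        (pow_le_pow_left₀ (by positivity) Cv 2).trans
          (le_trans (by nlinarith) (le_mul_of_one_le_left Y0.le (one_le_pow₀ E1)))
      have a3 := sum_dx H (i := S.jl) (j := S.Jp) (by omega)
      have a4 : wb ^ 2 ≤ (u / 8) ^ 2 := pow_le_pow_left₀ w0.le (by nlinarith) 2
      have a5 := mul_le_mul a1 hΦ (Finset.sum_nonneg fun k _ => mul_nonneg (dn k) (sq_nonneg _))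
        zero_le_one
      have a6 := mul_le_mul a2 a3 (Finset.sum_nonneg fun k _ => dn k) (by positivity)
      have P0 : 0 ≤ E ^ 100 * Y := by positivity
      calc _ ≤ 8 * (u / 8) ^ 2 * (1 * (2 * (E ^ 100 * Y)) + E ^ 100 * Y * 1) :=
            mul_le_mul (by linarith) (add_le_add a5 a6) (add_nonneg (mul_nonneg (sq_nonneg _)
              (Finset.sum_nonneg fun k _ => mul_nonneg (dn k) (sq_nonneg _)))
              (mul_nonneg (sq_nonneg _) (Finset.sum_nonneg fun k _ => dn k))) (by positivity)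
        _ ≤ _ := by nlinarith [mul_nonneg (sq_nonneg u) P0]
  obtain ⟨r', r1, r2, r3, r4⟩ := D _ _ ξ _ mo (fun k hk => by
    have a0 := V.sub k hk
    have a1 := V.x0 k hk
    exact ⟨by omega, by omega, by omega, by omega, V.w0 k hk, wle k hk⟩) fun j => G_succ _ _ _ j
  have zz : M.z (S.J - 1) - M.z (S.jl + 1) ≤ 1 := by
    linarith [H.leg.z1 (S.J - 1), H.z_pos (S.jl + 1)]
  have ex := V.of_exact (r' := r') (X := 4 * u * E ^ 95 * Y) (Z := 1) (R := 1) (R' := 1) zz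
    (fun j _ _ => r1 j.le_succ)
    (by linarith [Md67.rb_nonneg (M := N) (a := a) hm (S.jl + 1),
      Md67.rb_le_one (M := N) (a := a) hm (S.J - 1)])
    (by linarith [(r2 (S.J - 1 + 1)).2, (r2 (S.jl + 1 + 1)).1]) j02 (by
      refine le_trans (le_of_eq (Finset.sum_congr rfl fun k _ => ?_)) (r4.trans (le_of_eq ?_))
      · split_ifs <;> rfl
      congr 1
      refine Finset.sum_congr rfl fun k _ => ?_
      rcases lt_trichotomy k (ξ k) with h | h | h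
      · rw [if_neg (by omega), if_pos h.le]
      · rw [← h, sub_self, mul_zero, zero_mul, zero_mul]
      · rw [if_pos h.le, if_neg (by omega)])
  have mn := V.main ex
  have s1 : ∑ j ∈ Ioc (S.jl + 1) (S.J - 1), (M.z j - M.z (j - 1)) * (r' j - M.q j) ^ 2 ≤ B :=
    le_trans (Finset.sum_le_sum_of_subset_of_nonneg (Ioc_subset_Ioc (by omega) (by omega))
      fun k _ _ => mul_nonneg (dn k) (sq_nonneg _)) r3
  have s2 := (V.wsum (B := BA S M (N.rb m a)) (fun _ h => h) j02.le V.sub).trans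
    (mul_le_mul_of_nonneg_left zz w0.le)
  have s3 : wb * ∑ k ∈ BA S M (N.rb m a), (M.z k - M.z (k - 1)) * (N.rb m a k - M.q k) ^ 2 ≤
      S.C ^ 2 * ∑ k ∈ BA S M (N.rb m a),
        wb * (M.z (k + 1) - M.z k) * (N.rb m a k - M.q k) ^ 2 := by
    rw [Finset.mul_sum, Finset.mul_sum]
    refine Finset.sum_le_sum fun k hk => ?_
    have a0 := V.sub k hk
    have a1 := (dx_le H (k := k) (by omega) (by omega)).2
    have a2 := mul_le_mul_of_nonneg_left (H.zs k (by omega) (by omega)).1 (sq_nonneg S.C)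
    have e : S.C ^ 2 * (S.v / S.C) = S.C * S.v := by field_simp
    have a3 := mul_le_mul_of_nonneg_right (a1.trans (e ▸ a2))
      (by positivity : 0 ≤ wb * (N.rb m a k - M.q k) ^ 2)
    linarith
  have hB' : S.C * S.v ≤ B := Cv.trans (YT.trans hB)
  have hB2 : (S.C * S.v) ^ 2 ≤ B := le_trans (by nlinarith [mul_pos H.C0 v0]) hB'
  have c4 : S.C ^ 2 ≤ S.C ^ 4 := pow_le_pow_right₀ C1 (by norm_num)
  have t1 : 32 * (wb * (2 + S.C ^ 2)) * ∑ j ∈ Ioc (S.jl + 1) (S.J - 1),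
      (M.z j - M.z (j - 1)) * (r' j - M.q j) ^ 2 ≤ 32 * (wb * (3 * S.C ^ 4)) * B :=
    mul_le_mul (by gcongr; linarith) s1
      (Finset.sum_nonneg fun k _ => mul_nonneg (dn k) (sq_nonneg _)) (by positivity)
  have t2 : 16 * (4 * u * E ^ 95 * Y + 1 * (wb * (S.C * S.v) * 1 +
      wb * (2 + S.C ^ 2) * (S.C * S.v) * 1)) / (1 / (2 * S.C ^ 2)) ≤
      32 * S.C ^ 2 * (wb * (32 * S.C ^ 2 * B + 4 * S.C ^ 2 * B)) := by
    have e : 16 * (4 * u * E ^ 95 * Y + 1 * (wb * (S.C * S.v) * 1 +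
        wb * (2 + S.C ^ 2) * (S.C * S.v) * 1)) / (1 / (2 * S.C ^ 2)) = 32 * S.C ^ 2 *
        (wb * (32 * S.C ^ 2 * (E ^ 99 * Y) + (3 + S.C ^ 2) * (S.C * S.v))) := by
      rw [hwb]; field_simp; ring
    rw [e]
    gcongr
    linarith
  have t3 : 18 * (S.C * S.v / (1 / (2 * S.C ^ 2))) ^ 2 * ∑ k ∈ BA S M (N.rb m a),
      wb * (M.z (k + 1) - M.z k) ≤ 72 * S.C ^ 4 * B * (wb * 1) := by
    refine mul_le_mul ?_ s2 (Finset.sum_nonneg V.w0) (by positivity)
    have e : 18 * (S.C * S.v / (1 / (2 * S.C ^ 2))) ^ 2 = 72 * S.C ^ 4 * (S.C * S.v) ^ 2 := by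
      field_simp; norm_num
    rw [e]
    gcongr
  refine le_of_mul_le_mul_left (s3.trans ((mul_le_mul_of_nonneg_left (mn.trans
    (add_le_add (add_le_add t1 t2) t3)) (by positivity)).trans (le_of_eq ?_))) w0
  ring

theorem lab {z : ℕ → ℝ} (zm : Monotone z) {T : Finset ℕ} {x y : ℝ} (hxy : x ≤ y)
    (h : ∀ k ∈ T, 1 ≤ k ∧ x ≤ z (k - 1) ∧ z k ≤ y) : ∑ k ∈ T, (z k - z (k - 1)) ≤ y - x := by
  rcases T.eq_empty_or_nonempty with rfl | hT
  · simpa using hxy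
  have a1 := h _ (T.min'_mem hT)
  have a2 := h _ (T.max'_mem hT)
  have a3 := T.min'_le_max' hT
  refine (Finset.sum_le_sum_of_subset_of_nonneg (t := Ioc (T.min' hT - 1) (T.max' hT))
    (fun k hk => ?_) fun k _ _ => sub_nonneg.2 (zm (Nat.sub_le k 1))).trans ?_
  · have := T.min'_le k hk
    exact mem_Ioc.2 ⟨by omega, T.le_max' k hk⟩
  · rw [SrP26.tele _ _ (by omega)]
    linarith [a1.2.1, a2.2.2]

theorem lab_sq {z f : ℕ → ℝ} (zm : Monotone z) {T : Finset ℕ} {x y D : ℝ} (hxy : x ≤ y)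
    (h : ∀ k ∈ T, 1 ≤ k ∧ x ≤ z (k - 1) ∧ z k ≤ y ∧ |f k| ≤ D) :
    ∑ k ∈ T, (z k - z (k - 1)) * f k ^ 2 ≤ (y - x) * D ^ 2 := by
  refine le_trans (Finset.sum_le_sum fun k hk => mul_le_mul_of_nonneg_left
    (sq_le_sq' (abs_le.1 (h k hk).2.2.2).1 (abs_le.1 (h k hk).2.2.2).2)
    (sub_nonneg.2 (zm (Nat.sub_le k 1)))) ?_
  rw [← Finset.sum_mul]
  exact mul_le_mul_of_nonneg_right
    (lab zm hxy fun k hk => ⟨(h k hk).1, (h k hk).2.1, (h k hk).2.2.1⟩) (sq_nonneg _)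

theorem bot_node (H : Cl S M) (r0 : ∀ k, 0 ≤ r k) {y : ℝ} (hl : M.s S.jl ≤ y)
    (hv : S.C * S.v ≤ y) {k : ℕ} (h1 : S.jl < k) (h2 : k < S.J)
    (h : M.z k + 1 / (2 * S.C ^ 2) * (r k - M.q k) ≤ M.z (S.jl + 1)) :
    M.z k ≤ 9 * S.C * y ∧ |r k - M.q k| ≤ 10 * S.C ^ 2 * y := by
  have i1 := H.i1
  have C1 := H.C1
  have v0 := H.v0
  have y0 : 0 ≤ y := le_trans (by positivity) hv
  have a1 : M.z (S.jl + 1) ≤ M.z k := H.leg.zm h1
  have a2 : r k - M.q k ≤ 0 := by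
    by_contra hc
    have : 0 < 1 / (2 * S.C ^ 2) * (r k - M.q k) := mul_pos (by positivity) (not_le.1 hc)
    linarith
  have a3 := H.q_le_s (h2.trans H.J_lt).le
  have a4 := (H.z_s (k := k) (by omega) h2).1
  rw [sub_le_iff_le_add, div_le_iff₀ H.C0] at a4
  have a5 := (H.z_s (k := S.jl + 1) (by omega) H.i2).2
  have a6 := (H.ss S.jl H.jl_lt).2
  have vy : S.v ≤ y := (le_mul_of_one_le_left v0.le C1).trans hv
  have a7 : M.z (S.jl + 1) ≤ S.C * (4 * y) := a5.trans (by gcongr; linarith)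
  have zp := (H.z_pos k).le
  have a8 : M.q k - r k ≤ (M.z k + y) * S.C := by nlinarith [r0 k]
  have a9 : 1 / (2 * S.C ^ 2) * (M.q k - r k) ≤ (M.z k + y) / 2 := by
    rw [one_div, inv_mul_le_iff₀ (by positivity)]
    refine a8.trans ?_
    have : S.C ≤ S.C ^ 2 := le_self_pow₀ C1 (by norm_num)
    nlinarith
  have Cy : y ≤ S.C * y := le_mul_of_one_le_left y0 C1
  have b1 : M.z k ≤ 9 * S.C * y := by linarith
  refine ⟨b1, ?_⟩
  rw [abs_of_nonpos a2]
  nlinarith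

theorem top_node (H : Cl S M) (hr : Monotone r) {R : ℝ} (hγ : M.s S.Jp - M.s S.J ≤ R)
    (hv : S.C * S.v ≤ R) (hΦ : M.sq S (fun k => r k - M.q k) ≤ 2 * R ^ 2) {k : ℕ}
    (h1 : S.jl < k) (h2 : k < S.J)
    (h : M.z (S.J - 1) < M.z k + 1 / (2 * S.C ^ 2) * (r k - M.q k)) :
    M.z (S.J - 1) - 9 * S.C * R ≤ M.z (k - 1) ∧ |r k - M.q k| ≤ 8 * S.C * R := by
  have i1 := H.i1
  have i3 := H.i3
  have i4 := H.i4
  have C1 := H.C1
  have v0 := H.v0
  have c2 : 1 ≤ S.C ^ 2 := one_le_pow₀ C1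
  have R0 : 0 ≤ R := le_trans (by positivity) hv
  have CR : R ≤ S.C * R := le_mul_of_one_le_left R0 C1
  have a1 : M.z k ≤ M.z (S.J - 1) := H.leg.zm (by omega)
  have a0 : 2 * S.C ^ 2 * (M.z (S.J - 1) - M.z k) < r k - M.q k := by
    rw [← sub_lt_iff_lt_add', one_div, lt_inv_mul_iff₀ (by positivity)] at h
    exact h
  have a2 : 0 ≤ r k - M.q k := le_trans (by nlinarith) a0.le
  have a3 := q_z H (i := k) (k := S.J - 1) (by omega) (by omega) (by omega)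
  have a4 := Md67.q_lip H (Nat.sub_le S.J 1) H.J_lt.le
  have a5 := (H.ss (S.J - 1) (by omega)).2
  rw [show S.J - 1 + 1 = S.J by omega] at a5
  have D8 : r k - M.q k ≤ 8 * S.C * R := by
    by_contra hc
    have b1 : ∀ j ∈ Icc S.J S.Jp, (M.z j - M.z (j - 1)) * (2 * S.C * R) ^ 2 ≤
        (M.z j - M.z (j - 1)) * (r j - M.q j) ^ 2 := fun j hj => by
      have j1 := mem_Icc.1 hj
      have b2 := abs_le.1 (q_pl H j1.1 j1.2)
      have b3 := hr (show k ≤ j by omega)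
      exact mul_le_mul_of_nonneg_left (pow_le_pow_left₀ (by positivity) (by linarith) 2)
        (sub_nonneg.2 (H.leg.zm (Nat.sub_le j 1)))
    have b2 := (Finset.sum_le_sum b1).trans ((sq_pl H fun k => r k - M.q k).trans hΦ)
    have e : Icc S.J S.Jp = Ioc (S.J - 1) S.Jp := by
      ext j; simp only [mem_Icc, mem_Ioc]; omega
    rw [← Finset.sum_mul, e, SrP26.tele _ _ (by omega), H.top _ le_rfl] at b2
    have b3 := mul_le_mul_of_nonneg_right (show 1 / S.C ≤ 1 - M.z (S.J - 1) by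
      linarith [H.atom.2]) (sq_nonneg (2 * S.C * R))
    have e2 : 1 / S.C * (2 * S.C * R) ^ 2 = 4 * (S.C * R ^ 2) := by field_simp; ring
    have b4 : R ^ 2 ≤ S.C * R ^ 2 := le_mul_of_one_le_left (sq_nonneg R) C1
    have R1 : 0 < R := lt_of_lt_of_le (by positivity) hv
    have : 0 < R ^ 2 := by positivity
    linarith
  refine ⟨?_, by rwa [abs_of_nonneg a2]⟩
  have b1 := (dx_le H h1 h2).2
  have b2 : M.z (S.J - 1) - M.z k ≤ 2 * S.C ^ 2 * (M.z (S.J - 1) - M.z k) :=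
    le_mul_of_one_le_left (sub_nonneg.2 a1) (by linarith)
  linarith

theorem sum_cover {f : ℕ → ℝ} (hf : ∀ k, 0 ≤ f k) {T A₁ A₂ : Finset ℕ} (h : T ⊆ A₁ ∪ A₂) :
    ∑ k ∈ T, f k ≤ ∑ k ∈ A₁, f k + ∑ k ∈ A₂, f k := by
  have a1 := Finset.sum_le_sum_of_subset_of_nonneg h fun k _ _ => hf k
  have a2 := Finset.sum_union_inter (s₁ := A₁) (s₂ := A₂) (f := f)
  have a3 : 0 ≤ ∑ k ∈ A₁ ∩ A₂, f k := Finset.sum_nonneg fun k _ => hf k
  linarith

/-- **the nodes that are not moved** -/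
theorem rest (H : Cl S M) (hr : Monotone r) (r0 : ∀ k, 0 ≤ r k) (r1 : ∀ k, r k ≤ 1) {y R : ℝ}
    (hl : M.s S.jl ≤ y) (hv : S.C * S.v ≤ y) (hγ : M.s S.Jp - M.s S.J ≤ R) (hv' : S.C * S.v ≤ R)
    (hΦ : M.sq S (fun k => r k - M.q k) ≤ 2 * R ^ 2) :
    ∑ k ∈ Ioc S.jl (S.J - 1), (M.z k - M.z (k - 1)) * (r k - M.q k) ^ 2 ≤
      ∑ k ∈ BA S M r, (M.z k - M.z (k - 1)) * (r k - M.q k) ^ 2 +
        (S.C * S.v + (900 * S.C ^ 5 * y ^ 3 + 576 * S.C ^ 3 * R ^ 3)) := by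
  classical
  have i2 := H.i2
  have C0 := H.C0
  have v0 := H.v0
  have y0 : 0 ≤ y := le_trans (by positivity) hv
  have R0 : 0 ≤ R := le_trans (by positivity) hv'
  have hf : ∀ k, 0 ≤ (M.z k - M.z (k - 1)) * (r k - M.q k) ^ 2 := fun k =>
    mul_nonneg (sub_nonneg.2 (H.leg.zm (Nat.sub_le k 1))) (sq_nonneg _)
  refine (sum_cover hf (A₁ := BA S M r) (A₂ := {S.J - 1} ∪ (((Ioc S.jl (S.J - 1)).filter fun k =>
    M.z k + 1 / (2 * S.C ^ 2) * (r k - M.q k) ≤ M.z (S.jl + 1)) ∪ (Ioc S.jl (S.J - 1)).filter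
      fun k => M.z (S.J - 1) < M.z k + 1 / (2 * S.C ^ 2) * (r k - M.q k))) fun k hk => ?_).trans
    (add_le_add le_rfl ((sum_cover hf subset_rfl).trans (add_le_add ?_
      ((sum_cover hf subset_rfl).trans (add_le_add ?_ ?_)))))
  · have k1 := mem_Ioc.1 hk
    simp only [BA, mem_union, mem_filter, mem_singleton, mem_Ico]
    rcases k1.2.eq_or_lt with e | e
    · exact Or.inr (Or.inl e)
    rcases le_or_gt (M.z k + 1 / (2 * S.C ^ 2) * (r k - M.q k)) (M.z (S.jl + 1)) with e1 | e1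
    · exact Or.inr (Or.inr (Or.inl ⟨hk, e1⟩))
    rcases le_or_gt (M.z k + 1 / (2 * S.C ^ 2) * (r k - M.q k)) (M.z (S.J - 1)) with e2 | e2
    · exact Or.inl ⟨⟨k1.1, e⟩, e1, e2⟩
    · exact Or.inr (Or.inr (Or.inr ⟨hk, e2⟩))
  · rw [Finset.sum_singleton]
    have a1 := (dx_le H (k := S.J - 1) (by omega) (by omega)).2
    have a2 : (r (S.J - 1) - M.q (S.J - 1)) ^ 2 ≤ 1 := by
      have := r0 (S.J - 1)
      have := r1 (S.J - 1)
      have := Md67.q_nonneg (M := M) (S.J - 1)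
      have := Md67.q_le_one (M := M) (S.J - 1)
      nlinarith
    exact (mul_le_mul a1 a2 (sq_nonneg _) (by positivity)).trans_eq (mul_one _)
  · refine (lab_sq H.leg.zm (x := 0) (y := 9 * S.C * y) (D := 10 * S.C ^ 2 * y) (by positivity)
      fun k hk => ?_).trans (le_of_eq (by ring))
    have k1 := mem_Ioc.1 (mem_filter.1 hk).1
    exact ⟨by omega, (H.z_pos _).le, bot_node H r0 hl hv k1.1 (by omega) (mem_filter.1 hk).2⟩
  · refine (lab_sq H.leg.zm (x := M.z (S.J - 1) - 9 * S.C * R) (y := M.z (S.J - 1))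
      (D := 8 * S.C * R) (by linarith [mul_nonneg C0.le R0]) fun k hk => ?_).trans
      (le_of_eq (by ring))
    have k1 := mem_Ioc.1 (mem_filter.1 hk).1
    have := top_node H hr hγ hv' hΦ k1.1 (by omega) (mem_filter.1 hk).2
    exact ⟨by omega, this.1, H.leg.zm k1.2, this.2⟩

/-- the base part, pointwise -/
theorem base_pt {Λ : ℝ} (H : Cl S M) (h : SH E S M l Ys Y) (Xc : Ax E S M Y c) (n : Nb E Λ S Y)
    (CE : S.C ≤ E) (hu : 0 < u) (hm : 0 < m) (ez : N.z = M.z) (eq : N.q = M.q)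
    (hΦ : N.Phi S m a ≤ 2 * (E ^ 100 * Y)) (hB : E ^ 99 * Y ≤ B)
    (D : Dbl E S M m a Y c u N B (4 * u * E ^ 95 * Y)) :
    ∑ k ∈ Ioc S.jl (S.J - 1), M.dx k * N.del m a k ^ 2 ≤ Λ * B := by
  have C1 := H.C1
  have E1 := n.E1
  have v0 := H.v0
  obtain ⟨Y0, Λ1, YT, u00, u3, Tu, -, Cv, -, -⟩ := n.nc C1
  generalize (E ^ 99 * Y) ^ ((1 : ℝ) / 3) = u0 at *
  have B0 : 0 < B := lt_of_lt_of_le (by positivity) hB
  have EY : E ^ 102 * Y ≤ 1 :=
    (le_mul_of_one_le_right (by positivity) (one_le_pow₀ (by linarith))).trans n.TΛ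
  have Y1 : Y ≤ 1 := (le_mul_of_one_le_left Y0.le (one_le_pow₀ E1)).trans EY
  have YP : Y ≤ E ^ 100 * Y := le_mul_of_one_le_left Y0.le (one_le_pow₀ E1)
  have hΦ' : M.sq S (fun k => N.rb m a k - M.q k) ≤ 2 * (E ^ 100 * Y) := by
    simpa only [Md.Phi, Md.sq, Md.dx, Md.del, ez, eq] using hΦ
  have mv := move H E1 CE hu Xc Y0 Y1 Cv hm hΦ' hB D
  have lu : l ≤ u0 := le_of_pow_le_pow_left₀ (n := 3) (by norm_num) u00.le
    (by rw [u3]; exact h.l3.trans YT)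
  have R2 : √(E ^ 100 * Y) ^ 2 = E ^ 100 * Y := sq_sqrt (by positivity)
  have R0 := sqrt_nonneg (E ^ 100 * Y)
  have g1 : M.s S.Jp - M.s S.J ≤ √(E ^ 100 * Y) := le_sqrt_of_sq_le (h.flat.trans YP)
  have g2 : S.C * S.v ≤ √(E ^ 100 * Y) := le_sqrt_of_sq_le
    ((pow_le_pow_left₀ (by positivity) Cv 2).trans (le_trans (by nlinarith) YP))
  have rs := rest H (Md67.rb_mono (M := N) (a := a) hm) (Md67.rb_nonneg hm) (Md67.rb_le_one hm)
    (h.jl.trans lu) (Cv.trans (YT.trans Tu)) g1 g2 (by rw [R2]; exact hΦ')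
  have R3 : √(E ^ 100 * Y) ^ 3 ≤ B := by
    have a1 : E * √(E ^ 100 * Y) ≤ 1 := by
      refine pow_le_one_iff_of_nonneg (n := 2) (by positivity) (by norm_num) |>.1 ?_
      rw [mul_pow, R2]
      linarith
    have e : √(E ^ 100 * Y) ^ 3 = E * √(E ^ 100 * Y) * (E ^ 99 * Y) := by
      rw [pow_succ, R2]; ring
    rw [e]
    exact (mul_le_of_le_one_left (by positivity) a1).trans hB
  rw [u3] at rs
  have c30 : ∀ i ≤ 30, S.C ^ i ≤ S.C ^ 30 := fun i hi => pow_le_pow_right₀ C1 hi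
  have b1 := mul_le_mul_of_nonneg_right (c30 6 (by norm_num)) B0.le
  have b2 := mul_le_mul (c30 5 (by norm_num)) hB (by positivity) (by positivity)
  have b3 := mul_le_mul (c30 3 (by norm_num)) R3 (by positivity) (by positivity)
  have b4 := mul_le_mul_of_nonneg_right (c30 0 (by norm_num)) B0.le
  have b5 := mul_le_mul_of_nonneg_right n.big B0.le
  simp only [Md.dx, Md.del, eq]
  linarith

end Crest.Agent.T156.Alt.Mov74

namespace Crest.Agent.T156.Alt.Sr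

open Real Mov74

/-- **the base moves** -/
theorem movB' : MovB := by
  unfold MovB SR
  refine CL.glue CL.triv fun C => ⟨2, fun A _ ε η hε hη => ⟨ε, min (min η ε) (1 / 30),
    10 ^ 12 * C ^ 30, hε, by positivity, ?_⟩⟩
  intro S M m a R H _ _ l Ys Y c D a1 _ a3 _ u N B b1 b2 _ b4 b5 b6 b7 _ b9
  have m1 := min_le_left (min η ε) (1 / 30)
  have n := nb_of R hε (by push_cast; linarith [min_le_right (min η ε) (1 / 30)]) H a1
  refine (base_pt H a1 a3 n ((R.C_le H).trans (rpow_le_rpow_of_exponent_le R.N1.le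
    (m1.trans (min_le_right _ _)))) b1 b2 b4 b5 b6 b7 b9).trans (mul_le_mul_of_nonneg_right
      (rpow_le_rpow_of_exponent_le R.N1.le (m1.trans (min_le_left _ _))) ?_)
  have := (n.nc H.C1).Y0
  have := R.rp0 ε
  exact le_trans (by positivity) b7

/-- **base and plateau moves** -/
theorem movS : MovS := movS_of movB'

end Crest.Agent.T156.Alt.Sr

end
end

-- ▼ part T156/HtA_31
section

/-!
# Row 156 (helper31): the linear location lemma, list level

Monotonicity of the gradient of the one-site functional, read on the labels.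
-/

set_option autoImplicit false

noncomputable section

namespace Crest.Agent.T156.Ht31

open MeasureTheory Set
open Crest.Agent.R164.GC Crest.Agent.R339.B Crest.Agent.R339.Var Crest.Agent.T157.Pf
open Crest.Agent.T156.Pp Crest.Agent.T156.Pp.Ode3 Crest.Agent.T156.Pp.Area50
open Crest.Agent.T156.Spl27 Crest.Agent.T156.Zb9

variable {l l0 l1 : List (ℝ × ℝ)} {T g ε τ : ℝ}

theorem ap (h : okT T l) : AP l := ⟨h.1.1, h.1.2⟩

theorem gam_ii (h : okT T l) {u r : ℝ} (hu : u ∈ Icc 0 T) (hr : r ∈ Icc 0 T) :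
    IntervalIntegrable (Gam l) volume u r := ii_of_cont (h.2 ▸ Gam_cont (ap h)) hu hr

theorem gam_inc (h : okT T l) (hg : ∀ t ∈ Icc 0 T, Gp l t ≤ g) {u r : ℝ} (hu : 0 ≤ u) (hur : u ≤ r)
    (hr : r ≤ T) : Gam l r - Gam l u ≤ g * (r - u) := by
  rw [Gam_int (ap h) hu hur (h.2 ▸ hr)]
  have := intervalIntegral.integral_mono_on hur
    (ii_of_cont (h.2 ▸ Gp_cont (ap h)) ⟨hu, hur.trans hr⟩ ⟨hu.trans hur, hr⟩)
    (intervalIntegrable_const (c := g)) fun t ht => hg t ⟨hu.trans ht.1, ht.2.trans hr⟩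
  simpa [mul_comm] using this

theorem int_le (h : okT T l) (hg : ∀ t ∈ Icc 0 T, Gp l t ≤ g) {u r : ℝ} (hu : u ∈ Icc 0 T)
    (hr : r ∈ Icc 0 T) : ∫ t in u..r, Gam l t ≤ (r - u) * Gam l u + g * (r - u) ^ 2 / 2 := by
  have i2 : ∀ a b, IntervalIntegrable (fun t => Gam l u + g * (t - u)) volume a b := fun a b =>
    (by fun_prop : Continuous fun t => Gam l u + g * (t - u)).intervalIntegrable _ _
  have e : ∫ t in u..r, (Gam l u + g * (t - u)) = (r - u) * Gam l u + g * (r - u) ^ 2 / 2 := by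
    rw [intervalIntegral.integral_add intervalIntegrable_const
      ((by fun_prop : Continuous fun t => g * (t - u)).intervalIntegrable _ _),
      intervalIntegral.integral_const_mul, intervalIntegral.integral_comp_sub_right (fun t => t) u,
      integral_id]
    simp; ring
  rw [← e]
  rcases le_total u r with h1 | h1
  · exact intervalIntegral.integral_mono_on h1 (gam_ii h hu hr) (i2 _ _) fun t ht => by
      linarith [gam_inc h hg hu.1 ht.1 (ht.2.trans hr.2)]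
  · rw [intervalIntegral.integral_symm r u, intervalIntegral.integral_symm r u, neg_le_neg_iff]
    exact intervalIntegral.integral_mono_on h1 (i2 _ _) (gam_ii h hr hu) fun t ht => by
      linarith [gam_inc h hg (hr.1.trans ht.1) ht.2 hu.2]

/-- two lists read on the labels `x`: node times `σ` (exact) and `s` (up to `ε` before `τ`) -/
structure Two (T ε τ : ℝ) (l0 l1 : List (ℝ × ℝ)) (x σ s : ℕ → ℝ) (J : ℕ) : Prop where
  o0 : okT T l0
  o1 : okT T l1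
  ux : Up x J
  m1 : ∀ j < J, σ (j + 1) ∈ Icc 0 T
  m0 : ∀ j < J, s (j + 1) ∈ Icc 0 T
  v1 : ∀ t, 0 ≤ t → lvr 1 l1 t = stp x σ J t
  e0 : 0 ≤ ε
  mt : τ ∈ Icc 0 T
  lo : ∀ t, 0 ≤ t → t < τ → |lvr 1 l0 t - stp x s J t| ≤ ε
  hi : ∀ t, τ ≤ t → lvr 1 l0 t = stp x s J t

namespace Two

variable {x σ s : ℕ → ℝ} {J : ℕ} (H : Two T ε τ l0 l1 x σ s J)
include H

theorem T0 : 0 ≤ T := H.mt.1.trans H.mt.2

theorem ii0 {f : ℝ → ℝ} (hf : ContinuousOn f (Icc 0 T)) {a b : ℝ} (ha : a ∈ Icc 0 T)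
    (hb : b ∈ Icc 0 T) :
    IntervalIntegrable (fun t => (lvr 1 l0 t - stp x s J t) * f t) volume a b := by
  simp only [sub_mul]
  exact (ii_lvr_mul H.o0.1.1 hf ha hb).sub (ii_stp x s J (ii_of_cont hf ha hb))

/-- the low part -/
theorem low {f : ℝ → ℝ} (hf : ContinuousOn f (Icc 0 T)) {B : ℝ}
    (hB : ∀ t ∈ Icc 0 τ, |f t| ≤ B) :
    ∫ t in (0:ℝ)..T, |(lvr 1 l0 t - stp x s J t) * f t| ≤ ε * B * τ := by
  have z : (0:ℝ) ∈ Icc 0 T := ⟨le_rfl, H.T0⟩
  have w : T ∈ Icc 0 T := ⟨H.T0, le_rfl⟩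
  rw [← intervalIntegral.integral_add_adjacent_intervals (b := τ) (H.ii0 hf z H.mt).abs
    (H.ii0 hf H.mt w).abs, intervalIntegral.integral_congr_Ioo_of_le H.mt.2 (g := fun _ => 0)
      fun t ht => by simp only [H.hi t ht.1.le, sub_self, zero_mul, abs_zero]]
  have := intervalIntegral.integral_mono_on_of_le_Ioo H.mt.1 (H.ii0 hf z H.mt).abs
    (intervalIntegrable_const (c := ε * B)) fun t ht => by
      rw [abs_mul]
      exact mul_le_mul (H.lo t ht.1.le ht.2) (hB t ⟨ht.1.le, ht.2.le⟩) (abs_nonneg _) H.e0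
  simp only [intervalIntegral.integral_const, smul_eq_mul, sub_zero, mul_zero] at this ⊢
  linarith

/-- **the quadratic form** -/
theorem quad (g0 : ∀ t ∈ Icc 0 T, Gp l0 t ≤ g) (g1 : ∀ t ∈ Icc 0 T, Gp l1 t ≤ g) :
    ∑ j ∈ Finset.range J, (x (j + 1) - x j) *
      ((σ (j + 1) - s (j + 1)) * (Gam l1 (σ (j + 1)) - Gam l0 (s (j + 1)))) ≤
      g * ∑ j ∈ Finset.range J, (x (j + 1) - x j) * (σ (j + 1) - s (j + 1)) ^ 2 + ε * τ ^ 2 := by
  have z : (0:ℝ) ∈ Icc 0 T := ⟨le_rfl, H.T0⟩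
  have w : T ∈ Icc 0 T := ⟨H.T0, le_rfl⟩
  have c0 : ContinuousOn (Gam l0) (Icc 0 T) := H.o0.2 ▸ Gam_cont (ap H.o0)
  have c1 : ContinuousOn (Gam l1) (Icc 0 T) := H.o1.2 ▸ Gam_cont (ap H.o1)
  have cf : ContinuousOn (fun t => Gam l1 t - Gam l0 t) (Icc 0 T) := c1.sub c0
  have m := Sc48.mon_gen H.o0.1.1 H.o1.1.1 H.o0.2 H.o1.2 le_rfl
  have p : 0 ≤ Real.exp (-14 * T) / 4 * ∫ r in (0:ℝ)..T, Sc48.Jf l0 l1 T r ^ 2 :=
    mul_nonneg (by positivity) (intervalIntegral.integral_nonneg H.T0 fun _ _ => sq_nonneg _)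
  simp only [← Hess65.Gam_QQ] at m
  have i : ∀ {f : ℝ → ℝ}, ContinuousOn f (Icc 0 T) →
      IntervalIntegrable (fun t => (lvr 1 l1 t - lvr 1 l0 t) * f t) volume 0 T := fun hf => by
    simp only [sub_mul]
    exact (ii_lvr_mul H.o1.1.1 hf z w).sub (ii_lvr_mul H.o0.1.1 hf z w)
  rw [← intervalIntegral.integral_sub (i c1) (i c0)] at m
  have a := area x s σ J H.T0 (ii_of_cont cf z w)
  have e : ∫ t in (0:ℝ)..T, (stp x σ J t - stp x s J t) * (Gam l1 t - Gam l0 t) =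
      (∫ t in (0:ℝ)..T, ((lvr 1 l1 t - lvr 1 l0 t) * Gam l1 t -
        (lvr 1 l1 t - lvr 1 l0 t) * Gam l0 t)) +
      ∫ t in (0:ℝ)..T, (lvr 1 l0 t - stp x s J t) * (Gam l1 t - Gam l0 t) := by
    rw [← intervalIntegral.integral_add ((i c1).sub (i c0)) (H.ii0 cf z w)]
    refine intervalIntegral.integral_congr_Ioo_of_le H.T0 fun t ht => ?_
    simp only [H.v1 t ht.1.le]; ring
  have lw := H.low cf (B := τ) fun t ht => by
    have t1 : t ∈ Icc 0 T := ⟨ht.1, ht.2.trans H.mt.2⟩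
    have := Gam_le (ap H.o0) (H.o0.2.symm ▸ t1)
    have := Gam_le (ap H.o1) (H.o1.2.symm ▸ t1)
    have := Gam_nonneg l0 t
    have := Gam_nonneg l1 t
    exact abs_le.2 ⟨by linarith [ht.2], by linarith [ht.2]⟩
  have lw' := (intervalIntegral.abs_integral_le_integral_abs H.T0).trans lw
  have s1 : ∑ j ∈ Finset.range J, (x (j + 1) - x j) *
      ∫ t in cl 0 T (σ (j + 1))..cl 0 T (s (j + 1)), (Gam l1 t - Gam l0 t) ≤
      ∑ j ∈ Finset.range J, ((x (j + 1) - x j) * (g * (σ (j + 1) - s (j + 1)) ^ 2) -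
        (x (j + 1) - x j) *
          ((σ (j + 1) - s (j + 1)) * (Gam l1 (σ (j + 1)) - Gam l0 (s (j + 1))))) := by
    refine Finset.sum_le_sum fun j hj => ?_
    have hj' := Finset.mem_range.1 hj
    have a1 := H.m1 j hj'
    have a0 := H.m0 j hj'
    rw [cl_of_mem a1.1 a1.2, cl_of_mem a0.1 a0.2, ← mul_sub,
      intervalIntegral.integral_sub (gam_ii H.o1 a1 a0) (gam_ii H.o0 a1 a0),
      intervalIntegral.integral_symm (s (j + 1)) (σ (j + 1)) (f := Gam l0)]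
    refine mul_le_mul_of_nonneg_left ?_ (sub_nonneg.2 (H.ux j hj'))
    have b1 := int_le H.o1 g1 a1 a0
    have b0 := int_le H.o0 g0 a0 a1
    nlinarith
  rw [Finset.sum_sub_distrib] at s1
  simp only [mul_left_comm _ g, ← Finset.mul_sum] at s1
  have := (abs_le.1 lw').1
  nlinarith

/-- the area between the two graphs -/
theorem l1_le : ∫ t in (0:ℝ)..T, |lvr 1 l1 t - lvr 1 l0 t| ≤
    ∑ j ∈ Finset.range J, (x (j + 1) - x j) * |σ (j + 1) - s (j + 1)| + ε * τ := by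
  have z : (0:ℝ) ∈ Icc 0 T := ⟨le_rfl, H.T0⟩
  have w : T ∈ Icc 0 T := ⟨H.T0, le_rfl⟩
  have lw := H.low (f := fun _ => 1) continuousOn_const (B := 1) fun _ _ => by simp
  have i0 := (H.ii0 (f := fun _ => 1) continuousOn_const z w).abs
  have i1 := ((ii_stp_one x σ J 0 T).sub (ii_stp_one x s J 0 T)).abs
  have i2 : IntervalIntegrable (fun t => |lvr 1 l1 t - lvr 1 l0 t|) volume 0 T := by
    simpa using ((ii_lvr_mul H.o1.1.1 (f := fun _ => 1) continuousOn_const z w).sub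
      (ii_lvr_mul H.o0.1.1 (f := fun _ => 1) continuousOn_const z w)).abs
  have := intervalIntegral.integral_mono_on H.T0 i2 (i1.add i0) fun t ht => by
    rw [H.v1 t ht.1, mul_one, abs_sub_comm (lvr 1 l0 t)]
    exact abs_sub_le _ _ _
  rw [intervalIntegral.integral_add i1 i0] at this
  linarith [area_L1' s σ H.ux H.T0]

end Two

/-- `G` does not increase on the levels of tilt one -/
theorem gp_top (h : okT T l) {t0 t : ℝ} (h0 : 0 ≤ t0) (ht : t0 ≤ t) (hT : t ≤ T)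
    (top : ∀ r, t0 ≤ r → lvr 1 l r = 1) : Gp l t ≤ Gp l t0 := by
  obtain ⟨u0, c, hu, hc, H⟩ := Pr.Reg48.Gd_neg T
  exact Pr.Reg48.le_of_rder (B := fun _ => Gp l t0) (B' := fun _ => 0) ht
    ((Gp_cont (ap h)).mono (Icc_subset_Icc h0 (h.2 ▸ hT)))
    (fun r hr => Gp_rder (ap h) (h0.trans hr.1) (h.2 ▸ hr.2.trans_le hT)) le_rfl
    (fun _ => hasDerivAt_const _ _) fun r hr => by
      have := H l h.1 h.2.le r (h0.trans hr.1) (h.2 ▸ hr.2.trans_le hT)
        (by rw [top r hr.1]; linarith)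
      exact le_trans this (by linarith)

/-- transfer of a bound on `G` -/
theorem gp_lip (T0 : ℝ) : ∃ C : ℝ, 1 ≤ C ∧ ∀ (T : ℝ) (l0 l1 : List (ℝ × ℝ)), okT T l0 → okT T l1 →
    T ≤ T0 → ∀ t ∈ Icc 0 T, Gp l1 t ≤ Gp l0 t + C * ∫ r in (0:ℝ)..T, |lvr 1 l1 r - lvr 1 l0 r| := by
  obtain ⟨C, h1, hC⟩ := Ker.fun_lip T0
  refine ⟨C * (1 + |T0|), one_le_mul_of_one_le_of_one_le h1 (by linarith [abs_nonneg T0]),
    fun T l0 l1 o0 o1 hT t ht => ?_⟩
  have a := (hC l0 l1 o0.1.1 o1.1.1 (o1.2.trans o0.2.symm) (o0.2.le.trans hT) t (o0.2.symm ▸ ht)).2.1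
  rw [o0.2] at a
  have z : (0:ℝ) ∈ Icc 0 T := ⟨le_rfl, ht.1.trans ht.2⟩
  have w : T ∈ Icc 0 T := ⟨z.2, le_rfl⟩
  have i : ∀ {a b : ℝ}, a ∈ Icc 0 T → b ∈ Icc 0 T →
      IntervalIntegrable (fun r => |lvr 1 l1 r - lvr 1 l0 r|) volume a b := fun ha hb => by
    simpa using ((ii_lvr_mul o1.1.1 (f := fun _ => 1) continuousOn_const ha hb).sub
      (ii_lvr_mul o0.1.1 (f := fun _ => 1) continuousOn_const ha hb)).abs
  have n1 : 0 ≤ ∫ r in (0:ℝ)..t, |lvr 1 l1 r - lvr 1 l0 r| :=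
    intervalIntegral.integral_nonneg ht.1 fun _ _ => abs_nonneg _
  have n2 : 0 ≤ ∫ r in t..T, |lvr 1 l1 r - lvr 1 l0 r| :=
    intervalIntegral.integral_nonneg ht.2 fun _ _ => abs_nonneg _
  have b : Ker.Wf l0 l1 t ≤ |T0| * ∫ r in (0:ℝ)..t, |lvr 1 l1 r - lvr 1 l0 r| := by
    rw [← intervalIntegral.integral_const_mul]
    refine intervalIntegral.integral_mono_on ht.1
      ((i z ht).continuousOn_mul (by fun_prop)) ((i z ht).const_mul _) fun r hr => ?_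
    exact mul_le_mul_of_nonneg_right ((hr.2.trans ht.2).trans (hT.trans (le_abs_self _)))
      (abs_nonneg _)
  rw [← intervalIntegral.integral_add_adjacent_intervals (i z ht) (i ht w)]
  have c := (abs_le.1 a).2
  unfold Ker.Nf at c
  change Gp l1 t - Gp l0 t ≤ _ at c
  have d : Ker.Wf l0 l1 t + ∫ r in t..T, |lvr 1 l1 r - lvr 1 l0 r| ≤ (1 + |T0|) *
      ((∫ r in (0:ℝ)..t, |lvr 1 l1 r - lvr 1 l0 r|) + ∫ r in t..T, |lvr 1 l1 r - lvr 1 l0 r|) := by
    nlinarith [abs_nonneg T0]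
  have := mul_le_mul_of_nonneg_left d (show 0 ≤ C by linarith)
  linarith

/-- the algebra at one node -/
theorem node_alg {D d G r b c γ e : ℝ} (hc : 0 < c) (hcd : c ≤ d) (hdb : d ≤ b) (hγ : 0 < γ)
    (he : D = d * e + G) : γ / (2 * b) * D ^ 2 - b / γ * (r ^ 2 + G ^ 2 / c ^ 2) ≤
      D * (e + r) - (1 - γ) / b * D ^ 2 := by
  have d0 : 0 < d := hc.trans_le hcd
  have b0 : 0 < b := d0.trans_le hdb
  have e1 : e = (D - G) / d := by rw [he]; field_simp; ring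
  have h1 : D ^ 2 / b ≤ D ^ 2 / d := div_le_div_of_nonneg_left (sq_nonneg _) d0 hdb
  have h2 : G ^ 2 / d ^ 2 ≤ G ^ 2 / c ^ 2 :=
    div_le_div_of_nonneg_left (sq_nonneg _) (by positivity) (by gcongr)
  have h3 : D * (e + r) = D ^ 2 / d + D * (r - G / d) := by rw [e1]; field_simp; ring
  have h4 : -(D * (r - G / d)) ≤ γ / (2 * b) * D ^ 2 + b / (2 * γ) * (r - G / d) ^ 2 := by
    have : γ / (2 * b) * D ^ 2 + b / (2 * γ) * (r - G / d) ^ 2 + D * (r - G / d) =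
        (γ * D + b * (r - G / d)) ^ 2 / (2 * b * γ) := by field_simp; ring
    have : 0 ≤ (γ * D + b * (r - G / d)) ^ 2 / (2 * b * γ) := by positivity
    linarith
  have h5 : (r - G / d) ^ 2 ≤ 2 * (r ^ 2 + G ^ 2 / c ^ 2) := by
    have : (G / d) ^ 2 = G ^ 2 / d ^ 2 := div_pow _ _ _
    nlinarith [sq_nonneg (r + G / d)]
  have h6 := mul_le_mul_of_nonneg_left h5 (show 0 ≤ b / (2 * γ) by positivity)
  have h7 : b / (2 * γ) * (2 * (r ^ 2 + G ^ 2 / c ^ 2)) = b / γ * (r ^ 2 + G ^ 2 / c ^ 2) := by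
    field_simp
  have h8 : (1 - γ) / b * D ^ 2 = D ^ 2 / b - 2 * (γ / (2 * b) * D ^ 2) := by field_simp
  linarith

end Crest.Agent.T156.Ht31

end
end

-- ▼ part T156/Ht_31
section

/-!
# Row 156 (helper31): LIN, the linear location lemma on the abstract models
-/

set_option autoImplicit false
set_option linter.unusedSectionVars false

noncomputable section

namespace Crest.Agent.T156.Alt.Ht31

open MeasureTheory Set
open Crest.Agent.T157.E Crest.Agent.T157.Casc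
open Crest.Agent.T157.G1 (ov)
open Crest.Agent.R164.GC Crest.Agent.R339.B Crest.Agent.R339.Var Crest.Agent.T157.Pf
open Crest.Agent.T156.Pp.Area50 Crest.Agent.T156.Spl27 Crest.Agent.T156.Zb9
open Crest.Agent.T156.Cas Crest.Agent.T156.Ht31
open Crest.Agent.T156.Alt.Md67 Crest.Agent.T156.Alt.Mp9
open Crest.Agent.T156.Pp.Ode3 (Gam Gp)

/-- the reference list and the labels -/
structure Rg (M : Md) (j0 Jp : ℕ) : Prop where
  i0 : j0 ≤ Jp
  i4 : Jp < M.N
  low : ∀ k ≤ j0, M.z k = M.z j0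
  top : ∀ k, Jp ≤ k → M.z k = 1
  ok : Pr.Ok M.lr
  s0 : M.s 0 = 0
  sm : Monotone M.s
  sT : M.s Jp ≤ TT M.lr
  lv : ∀ k, j0 ≤ k → ∀ t, M.s k ≤ t → t < M.s (k + 1) → lvr 1 M.lr t = M.z k
  lv1 : ∀ t, M.s Jp ≤ t → lvr 1 M.lr t = 1
  lo : ∀ t, t < M.s j0 → lvr 1 M.lr t ≤ M.z j0

variable {S : Sc} {M N : Md} {m j0 Jp : ℕ} {a T : ℝ}

theorem rg_cl (h : Cl S M) : Rg M S.j0 S.Jp := by
  have := h.i1; have := h.i2; have := h.i3
  refine ⟨by omega, h.i4, h.low, h.top, h.ok, h.s0, h.sm, s_tt h, h.lv, h.lv1, fun t ht => ?_⟩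
  rw [← h.lv S.j0 le_rfl _ le_rfl (s_lt h (by omega))]
  exact Sc48.lvr_mono h.ok.1 ht.le

theorem Rg.congr (h : Rg M j0 Jp) (e1 : N.N = M.N) (e2 : N.z = M.z) (e3 : N.lr = M.lr)
    (e4 : N.s = M.s) : Rg N j0 Jp := by
  obtain ⟨a1, a2, a3, a4, a5, a6, a7, a8, a9, a10, a11⟩ := h
  constructor <;> (try simp only [e1, e2, e3, e4]) <;> assumption

/-- `Φ` -/
def Ph (M : Md) (m : ℕ) (a : ℝ) (j0 Jp : ℕ) : ℝ :=
  ∑ k ∈ Finset.Ioc j0 Jp, M.dz m a k * M.del m a k ^ 2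
/-- `|G|₂²` -/
def G2 (M : Md) (m : ℕ) (a : ℝ) (j0 Jp : ℕ) : ℝ :=
  ∑ k ∈ Finset.Ioc j0 Jp, M.dz m a k * M.G k ^ 2
/-- central moments -/
def Vp (M : Md) (m : ℕ) (a : ℝ) (p : ℕ) : ℝ :=
  ∑ k ∈ Finset.range M.N, M.dz m a k * M.E2 m a (fun r => (r - M.rb m a k) ^ p) k
/-- the root term -/
def lw (M : Md) (j0 : ℕ) : ℝ := M.z j0 * M.s j0 ^ 2
/-- the right side -/
def Rh (M : Md) (m : ℕ) (a : ℝ) (j0 Jp p : ℕ) : ℝ :=
  Vp M m a p + G2 M m a j0 Jp + lw M j0 + 1 / (m : ℝ) ^ 2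

/-- the site list of the one path -/
abbrev lV (M : Md) (m : ℕ) (a : ℝ) : List (ℝ × ℝ) := opV m 1 (M.Mx a) (qx M (M.rb m a))
/-- merged reference times -/
def sj (M : Md) (j0 : ℕ) : ℕ → ℝ
  | 0 => 0
  | k + 1 => M.s (max k j0)

theorem xb_sub (h : M.Leg a) (m : ℕ) : ∀ k, xb M a (k + 1) - xb M a k = M.dz m a k
  | 0 => (dz_zero h).symm
  | k + 1 => (dz_succ h k).symm

theorem sb_tp (k : ℕ) : sb M m a (k + 1) = tp M m k * M.rb m a k + M.H k := by
  simp only [sb, tp, kp]; ring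

theorem cs (G : Lg M m a) {s : Finset ℕ} (hs : s ⊆ Finset.range (M.N + 1)) (f : ℕ → ℝ) :
    (∑ k ∈ s, M.dz m a k * f k) ^ 2 ≤ ∑ k ∈ s, M.dz m a k * f k ^ 2 := by
  have h1 := Finset.sum_sq_le_sum_mul_sum_of_sq_le_mul s (r := fun k => M.dz m a k * f k)
    (f := M.dz m a) (g := fun k => M.dz m a k * f k ^ 2) (fun k _ => G.dz_nonneg k)
    (fun k _ => mul_nonneg (G.dz_nonneg k) (sq_nonneg _)) fun k _ => le_of_eq (by ring)
  have h2 : ∑ k ∈ s, M.dz m a k ≤ 1 := (Finset.sum_le_sum_of_subset_of_nonneg hs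
    fun k _ _ => G.dz_nonneg k).trans (by rw [sum_dz_all]; linarith [G.a0])
  exact h1.trans (mul_le_of_le_one_left (Finset.sum_nonneg fun k _ =>
    mul_nonneg (G.dz_nonneg k) (sq_nonneg _)) h2)

theorem mass (G : Lg M m a) {s : Finset ℕ} (hs : s ⊆ Finset.range (M.N + 1)) {c : ℝ} (hc : 0 ≤ c) :
    ∑ k ∈ s, M.dz m a k * c ≤ c := by
  rw [← Finset.sum_mul]
  exact mul_le_of_le_one_left hc ((Finset.sum_le_sum_of_subset_of_nonneg hs
    fun k _ _ => G.dz_nonneg k).trans (by rw [sum_dz_all]; linarith [G.a0]))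

theorem E4_nn (k : ℕ) : 0 ≤ M.E2 m a (fun r => (r - M.rb m a k) ^ 4) k :=
  E2_nonneg (fun _ _ => by positivity) k

theorem V4_nn (G : Lg M m a) : 0 ≤ Vp M m a 4 :=
  Finset.sum_nonneg fun k _ => mul_nonneg (G.dz_nonneg k) (E4_nn k)

theorem V4_le (G : Lg M m a) : Vp M m a 4 ≤ 4 * Vp M m a 2 := by
  rw [Vp, Vp, Finset.mul_sum]
  refine Finset.sum_le_sum fun k _ => ?_
  rw [mul_left_comm, ← E2_mul 4]
  refine mul_le_mul_of_nonneg_left (E2_mono (fun r hr => ?_) k) (G.dz_nonneg k)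
  have h1 := rb_nonneg (M := M) (a := a) G.m0 k
  have h2 := rb_le_one (M := M) (a := a) G.m0 k
  have h3 : (r - M.rb m a k) ^ 2 ≤ 4 := by nlinarith [abs_le.1 hr]
  nlinarith [sq_nonneg (r - M.rb m a k)]

/-- **(E1c)** in `L²` -/
theorem res_sq (tb : ℝ) : ∃ C : ℝ, 0 ≤ C ∧ ∀ (M : Md) (m : ℕ) (a : ℝ), Lg M m a → Top M →
    0 < M.d 0 → M.b ≤ tb → ∑ k ∈ Finset.range M.N, M.dz m a k *
      (Gam (lV M m a) (sb M m a (k + 1)) - M.rb m a k) ^ 2 ≤ C * Vp M m a 4 := by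
  set K := 4 * cOp tb 2 1 2 + 2 * cOp tb 1 1 2 with hK
  refine ⟨4 * K ^ 2, by positivity, fun M m a G ht d0 hb => ?_⟩
  have rf := rf_rb (M := M) G.m0 a
  have ok : OOk (M.Mx a) (qx M (M.rb m a)) := rf.ook G.toLeg
  set m4 : ℕ → ℝ := fun y => pi2 (fun _ => 1) (M.L m a) y
    (fun x x' => oU (qx M (M.rb m a)) y x x' ^ 4) 0 with hm4
  have n4 : ∀ y, 0 ≤ m4 y := fun y => pi2_nonneg Link33.wt1 _ _ (fun _ _ => by positivity) _
  have e4 : ∀ k < M.N, m4 (k + 1) = M.E2 m a (fun r => (r - M.rb m a k) ^ 4) k := fun k hk => by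
    simp only [hm4, oU_succ hk]; rfl
  have q01 : ∀ y, 0 ≤ qx M (M.rb m a) y ∧ qx M (M.rb m a) y ≤ 1 := fun y => by
    rcases y with _ | k
    · exact ⟨le_rfl, zero_le_one⟩
    · rcases lt_or_ge k M.N with h | h
      · rw [qx_succ h]; exact ⟨rb_nonneg G.m0 k, rb_le_one G.m0 k⟩
      · rw [qx_top h]; exact ⟨zero_le_one, le_rfl⟩
  set u : ℕ → ℝ := fun y => if y = 0 then 0 else √(√(m4 y)) with hu
  have u2 : ∀ k, u (k + 1) ^ 2 = √(m4 (k + 1)) := fun k => by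
    simp only [hu, Nat.succ_ne_zero, if_false]; exact Real.sq_sqrt (Real.sqrt_nonneg _)
  have u4 : ∀ k, (u (k + 1) ^ 2) ^ 2 = m4 (k + 1) := fun k => by rw [u2, Real.sq_sqrt (n4 _)]
  have H : Ea38.Hy m 1 (M.Mx a) (qx M (M.rb m a)) u
      (fun y => |Ker15.tm (opS m 1 (M.Mx a) (qx M (M.rb m a))) y| + 1) tb := by
    refine ⟨G.m0, ok, G.monoL, (oTau_le G.toLeg _).trans hb, fun y => ?_, fun y => ?_,
      fun y _ hy => ?_, fun y h1 hy => ?_, by rw [len_Mx]; exact dz_last G.toLeg ht,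
      Ker15.r1_of (C.forall₂_sl _ (opV_nn ok)), fun y => by positivity,
      fun y => by linarith [le_abs_self (Ker15.tm (opS m 1 (M.Mx a) (qx M (M.rb m a))) y)]⟩
    · simp only [hu]; split_ifs; exacts [le_rfl, Real.sqrt_nonneg _]
    · simp only [hu]; split_ifs
      · norm_num
      · refine Real.sqrt_le_iff.2 ⟨by norm_num, Real.sqrt_le_iff.2 ⟨by norm_num, ?_⟩⟩
        refine (T157.Casc.pi2_mono Link33.wt1 _ _ (K' := fun _ _ => (2 ^ 2) ^ 2)
          (fun x x' => ?_) _).trans_eq (pi2_const Link33.wt1 _ _ _ _)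
        have h3 : oU (qx M (M.rb m a)) y x x' ^ 2 ≤ 2 ^ 2 := by
          have := abs_le.1 (T157.G1.abs_ov_le x x')
          unfold oU; nlinarith [q01 y]
        calc _ = (oU (qx M (M.rb m a)) y x x' ^ 2) ^ 2 := by ring
          _ ≤ _ := by gcongr
    · rcases y with _ | k
      · exact absurd oTau_zero hy
      · exact (u4 k).ge.trans_eq (by ring)
    · rcases y with _ | k
      · exact absurd oTau_zero hy
      · rw [len_Mx] at h1
        have hk : k < M.N := by omega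
        have := E2_sub (M := M) (m := m) (a := a) id (fun _ => M.rb m a k) k
        rw [E2_const, ← Md.rb, sub_self] at this
        rw [show oU (qx M (M.rb m a)) (k + 1) = fun x x' : Cube m => ov x x' - M.rb m a k from
          funext fun x => funext (oU_succ hk x)]
        exact this
  set A := ∑ k ∈ Finset.range M.N, M.dz m a k * u (k + 1) ^ 2 with hA
  have sub : Finset.range M.N ⊆ Finset.range (M.N + 1) := Finset.range_mono (Nat.le_succ _)
  have V : ∑ k ∈ Finset.range M.N, M.dz m a k * (u (k + 1) ^ 2) ^ 2 = Vp M m a 4 :=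
    Finset.sum_congr rfl fun k hk => by rw [u4, e4 k (Finset.mem_range.1 hk)]
  have A2 : A ^ 2 ≤ Vp M m a 4 := V ▸ cs G sub _
  have key : ∀ k < M.N, (Gam (lV M m a) (sb M m a (k + 1)) - M.rb m a k) ^ 2 ≤
      2 * K ^ 2 * (A ^ 2 + (u (k + 1) ^ 2) ^ 2) := fun k hk => by
    have t0 : oTau m 1 (M.Mx a) (k + 1) ≠ 0 := by
      rw [oTau_tp hk.le, tp]
      have := d0.trans_le (G.dm (Nat.zero_le k))
      have := G.m0
      positivity
    have h1 := H.e1c (j := k + 1) (by rw [len_Mx]; omega) t0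
    have h2 : Ws38.I (Ea38.bL m 1 (M.Mx a)) (k + 1) (fun y => u y ^ 2) = A + u (k + 1) ^ 2 := by
      rw [Ws38.I, Ea38.len]
      congr 1
      refine (sum_top G.toLeg ht fun y => u y ^ 2).trans ?_
      simp [hu, hA]
    have h3 : E38.rj m 1 (M.Mx a) (qx M (M.rb m a)) (k + 1) =
        Gam (lV M m a) (sb M m a (k + 1)) - M.rb m a k := by
      rw [E38.rj, show oE (qx M (M.rb m a)) (k + 1) = fun e e' => _ from
        funext fun e => funext (oE_succ hk e), pi2_sub One15.w1, pi2_const One15.w1,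
        Gam_Mx G.toLeg rf hk, sb_tp]
      rfl
    rw [h2, h3, ← hK] at h1
    have h4 := pow_le_pow_left₀ (abs_nonneg _) h1 2
    rw [sq_abs] at h4
    nlinarith [mul_nonneg (sq_nonneg K) (sq_nonneg (A - u (k + 1) ^ 2))]
  refine (Finset.sum_le_sum fun k hk => mul_le_mul_of_nonneg_left (key k (Finset.mem_range.1 hk))
    (G.dz_nonneg k)).trans ?_
  simp only [mul_left_comm _ (2 * K ^ 2), mul_add, Finset.sum_add_distrib, ← Finset.mul_sum, V]
  have := mass G sub (sq_nonneg A)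
  nlinarith [sq_nonneg K]

namespace Rg

variable (R : Rg M j0 Jp) (G : Lg M m a)
include R

theorem tp' : Top M := ⟨(Nat.zero_le _).trans_lt R.i4, R.top _ (by have := R.i4; omega)⟩

theorem s_nn (k : ℕ) : 0 ≤ M.s k := R.s0 ▸ R.sm (Nat.zero_le k)

theorem sj_mono : Monotone (sj M j0) := monotone_nat_of_le_succ fun
  | 0 => R.s_nn _
  | k + 1 => R.sm (max_le_max_right _ (Nat.le_succ k))

theorem spec0 (hT : M.s Jp ≤ T) : okT T (cutT M.lr T) ∧
    (∀ t, 0 ≤ t → lvr 1 (cutT M.lr T) t = lvr 1 M.lr t) ∧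
      Ker.Same M.lr (cutT M.lr T) (min (TT M.lr) T) :=
  cutT_spec R.ok.1 (R.s_nn _) R.sT hT R.lv1

include G

theorem xb_mono : Monotone (xb M a) := monotone_nat_of_le_succ fun
  | 0 => G.z0
  | k + 1 => G.zm (Nat.le_succ k)

theorem sb_mono : Monotone (sb M m a) := monotone_nat_of_le_succ fun
  | 0 => by
    rw [sb_tp, G.H0, add_zero]
    exact mul_nonneg (tp_mem G.toLeg 0).1 (rb_nonneg G.m0 0)
  | k + 1 => by
    rw [sb_tp, sb_tp]
    exact add_le_add (mul_le_mul (tp_mono G.toLeg (Nat.le_succ k))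
      (Md67.rb_mono G.m0 (Nat.le_succ k)) (rb_nonneg G.m0 k) (tp_mem G.toLeg _).1)
      (G.Hm (Nat.le_succ k))

theorem lvV (_ha : 0 < a) : sb M m a (Jp + 1) ≤ TT (lV M m a) ∧
    ∀ t, lvr 1 (lV M m a) t = stp (xb M a) (sb M m a) (Jp + 1) t := by
  have i4 := R.i4
  set σ : ℕ → ℝ := fun j => oTau m 1 (M.Mx a) j * qx M (M.rb m a) j + fAcc (M.Mx a) j with hσ
  have e0 : σ 0 = 0 := by simp [hσ, oTau, dAcc, fAcc]
  have e2 : ∀ k ≤ Jp + 1, σ k = sb M m a k := fun k hk => by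
    cases k with
    | zero => exact e0
    | succ k =>
      simp only [hσ]
      rw [oTau_tp (by omega), qx_succ (by omega), fAcc_Mx G.toLeg (by omega), sb_tp]
  have e := opV_eq m 1 (M.Mx a) (qx M (M.rb m a)) (x := xb M a) (Mx_tilt M a)
  rw [Mx_len] at e
  have us : Up σ (M.N + 1) := fun j hj => by
    have := opV_nn (n := m) (β := 1) ((rf_rb G.m0 a).ook (a := a) G.toLeg)
      (xb M a j, σ (j + 1) - σ j) (by rw [e, lsg, List.mem_ofFn]; exact ⟨⟨j, hj⟩, rfl⟩)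
    exact sub_nonneg.1 this
  have top : ∀ k, Jp + 1 ≤ k → k ≤ M.N + 1 → xb M a k = 1 := fun k h1 _ => by
    obtain ⟨k, rfl⟩ : ∃ j, k = j + 1 := ⟨k - 1, by omega⟩
    exact R.top k (by omega)
  refine ⟨?_, fun t => ?_⟩
  · rw [lV, e, TT_lsg, ← e2 _ le_rfl]
    change σ (Jp + 1) ≤ σ (M.N + 1) - σ 0
    rw [e0, sub_zero]
    exact us.le (by omega) le_rfl
  · rw [lV, e, lvr_lsg (top _ (by omega) le_rfl) us e0,
      stp_ext (J := Jp + 1) (by omega) fun k h1 h2 => by rw [top k h1 h2, top _ le_rfl (by omega)],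
      stp_congr (fun _ _ => rfl) fun k _ hk => e2 k hk]

theorem spec1 (ha : 0 < a) (hT : sb M m a (Jp + 1) ≤ T) : okT T (cutT (lV M m a) T) ∧
    (∀ t, 0 ≤ t → lvr 1 (cutT (lV M m a) T) t = lvr 1 (lV M m a) t) ∧
      Ker.Same (lV M m a) (cutT (lV M m a) T) (min (TT (lV M m a)) T) :=
  cutT_spec (adm_Mx G ha (rf_rb G.m0 a)) (R.sb_mono G (Nat.zero_le _)) (R.lvV G ha).1 hT
    fun t ht => by
      rw [(R.lvV G ha).2, stp_eq (up_of_mono (R.sb_mono G) _) le_rfl (fun _ => ht)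
        fun h => absurd h (lt_irrefl _)]
      exact R.top _ le_rfl

theorem two (ha : 0 < a) (h1 : sb M m a (Jp + 1) ≤ T) (h0 : M.s Jp ≤ T) :
    Two T (M.z j0) (M.s j0) (cutT M.lr T) (cutT (lV M m a) T) (xb M a) (sb M m a) (sj M j0)
      (Jp + 1) := by
  have us := up_of_mono R.sj_mono (Jp + 1)
  have i0 := R.i0
  refine ⟨(R.spec0 h0).1, (R.spec1 G ha h1).1, up_of_mono (R.xb_mono G) _,
    fun j hj => ⟨R.sb_mono G (Nat.zero_le _), (R.sb_mono G hj).trans h1⟩,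
    fun j hj => ⟨R.s_nn _, (R.sm (max_le (by omega) i0)).trans h0⟩,
    fun t ht => by rw [(R.spec1 G ha h1).2.1 t ht, (R.lvV G ha).2], G.z_nonneg _,
    ⟨R.s_nn _, (R.sm i0).trans h0⟩, fun t t0 ht => ?_, fun t ht => ?_⟩
  · rw [(R.spec0 h0).2.1 t t0, stp_eq us (Nat.zero_le _) (fun h => absurd h (lt_irrefl _))
      fun _ => by simpa [sj] using ht]
    have := R.lo t ht
    have := Sc48.lvr_pos R.ok.1 t
    have := G.z0.trans (G.zm (Nat.zero_le j0))
    exact abs_le.2 ⟨by simp only [xb]; linarith, by simp only [xb]; linarith⟩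
  · obtain ⟨k, ck⟩ := exists_Cell us t
    have k1 : j0 + 1 ≤ k := ck.ge us (by omega) (by simpa [sj] using ht)
    obtain ⟨k, rfl⟩ : ∃ j, k = j + 1 := ⟨k - 1, by omega⟩
    have h2 := ck.2.1 (Nat.succ_pos k)
    simp only [sj, max_eq_left (show j0 ≤ k by omega)] at h2
    rw [ck.stp us, (R.spec0 h0).2.1 t ((R.s_nn _).trans ht)]
    rcases (Nat.le_of_succ_le_succ ck.1).eq_or_lt with rfl | h
    · rw [R.lv1 t h2]; exact (R.top _ le_rfl).symm
    · have h3 := ck.2.2 (by omega)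
      simp only [sj, max_eq_left (show j0 ≤ k + 1 by omega)] at h3
      exact R.lv k (by omega) t h2 h3

/-- sums over the nodes: the root node and the nodes above `j0` -/
theorem split (f : ℕ → ℝ) : ∑ k ∈ Finset.range (Jp + 1), M.dz m a k * f k =
    M.dz m a 0 * f 0 + ∑ k ∈ Finset.Ioc j0 Jp, M.dz m a k * f k := by
  have i0 := R.i0
  rw [Finset.range_eq_Ico, ← Finset.sum_Ico_consecutive _ (Nat.zero_le (j0 + 1)) (by omega),
    Finset.Ico_add_one_add_one_eq_Ioc, ← Finset.range_eq_Ico, Finset.sum_range_succ',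
    Finset.sum_eq_zero fun k hk => by
      have := Finset.mem_range.1 hk
      rw [dz_succ G.toLeg, R.low k this.le, R.low (k + 1) this, sub_self, zero_mul], zero_add]

theorem dz0 : M.dz m a 0 ≤ M.z j0 := by
  rw [dz_zero G.toLeg, R.low 0 (Nat.zero_le _)]; linarith [G.a0]

theorem sub1 : Finset.range (Jp + 1) ⊆ Finset.range M.N := Finset.range_mono R.i4

theorem sub2 : Finset.range (Jp + 1) ⊆ Finset.range (M.N + 1) :=
  Finset.range_mono (Nat.succ_le_succ R.i4.le)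

theorem sub3 : Finset.Ioc j0 Jp ⊆ Finset.range (M.N + 1) := fun k hk => by
  have := (Finset.mem_Ioc.1 hk).2; have := R.i4
  exact Finset.mem_range.2 (by omega)

theorem tail {k : ℕ} (hk : k ≤ M.N) : |M.d k * M.rb m a k / (m + 1)| ≤ M.b / m := by
  have h1 := d_nonneg G.toLeg k
  have h2 := d_le_b G.toLeg hk
  have h3 := rb_nonneg (M := M) (a := a) G.m0 k
  have h4 := rb_le_one (M := M) (a := a) G.m0 k
  have h5 : (0:ℝ) < m := by exact_mod_cast G.m0
  rw [abs_of_nonneg (by positivity)]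
  exact div_le_div₀ (h1.trans h2) (by nlinarith) h5 (by linarith)

end Rg

/-- merged residual -/
def Gj (M : Md) (j0 k : ℕ) : ℝ := M.d k * M.q (max k j0) + M.H k - M.s (max k j0)

theorem Gj_hi {k : ℕ} (hk : j0 ≤ k) : Gj M j0 k = M.G k := by rw [Gj, max_eq_left hk]; rfl

theorem D_eq (k : ℕ) : sb M m a (k + 1) - sj M j0 (k + 1) =
    M.d k * (M.rb m a k - M.q (max k j0)) + (Gj M j0 k - M.d k * M.rb m a k / (m + 1)) := by
  simp only [sb, sj, Gj, kp_eq]; ring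

theorem G2_nn (G : Lg M m a) : 0 ≤ G2 M m a j0 Jp :=
  Finset.sum_nonneg fun k _ => mul_nonneg (G.dz_nonneg k) (sq_nonneg _)

theorem lw_nn (G : Lg M m a) : 0 ≤ lw M j0 := mul_nonneg (G.z_nonneg _) (sq_nonneg _)

theorem Rg.Gj_zero (R : Rg M j0 Jp) (G : Lg M m a) : |Gj M j0 0| ≤ (M.b + 1) * M.s j0 := by
  have s0 := R.s_nn j0
  have h1 : M.q j0 ≤ M.s j0 :=
    Pp.Ode3.Gam_le (.of_ok R.ok) ⟨s0, (R.sm R.i0).trans R.sT⟩
  have h2 := q_nonneg (M := M) j0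
  have h3 := d_le_b G.toLeg (Nat.zero_le M.N)
  have h4 := G.d0
  rw [Gj, Nat.zero_max, G.H0, add_zero]
  exact abs_le.2 ⟨by nlinarith, by nlinarith⟩

/-- **the core**: a bound on `G` along both lists -/
theorem core (tb : ℝ) : ∃ C : ℝ, 0 ≤ C ∧ ∀ (M : Md) (m j0 Jp : ℕ) (a c γ g T : ℝ), Lg M m a →
    0 < a → Rg M j0 Jp → 0 < c → c ≤ M.d 0 → c ≤ 1 → M.b ≤ tb → 0 < γ → γ ≤ 1 →
    sb M m a (Jp + 1) ≤ T → M.s Jp ≤ T → (∀ t ∈ Icc 0 T, Gp (cutT M.lr T) t ≤ g) →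
    (∀ t ∈ Icc 0 T, Gp (cutT (lV M m a) T) t ≤ g) → M.b * g ≤ 1 - γ →
    Ph M m a j0 Jp ≤ C / (γ ^ 2 * c ^ 4) * Rh M m a j0 Jp 4 := by
  obtain ⟨K, K0, hK⟩ := res_sq tb
  refine ⟨4 * tb ^ 2 * K + (4 * tb ^ 2 + 2) * (2 * (|tb| + 1) ^ 2) + 4 * |tb|, by positivity,
    fun M m j0 Jp a c γ g T G ha R c0 cd c1 hb γ0 γ1 h1 h0 g0 g1 hg => ?_⟩
  have b0 : 0 < M.b := (c0.trans_le cd).trans_le (d_le_b G.toLeg (Nat.zero_le _))
  have t0 : 0 < tb := b0.trans_le hb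
  rw [abs_of_pos t0]
  have i4 := R.i4
  have i0 := R.i0
  have q := (R.two G ha h1 h0).quad g0 g1
  simp only [xb_sub G.toLeg m] at q
  set D : ℕ → ℝ := fun k => sb M m a (k + 1) - sj M j0 (k + 1) with hD
  set e : ℕ → ℝ := fun k => M.rb m a k - M.q (max k j0) with he
  set r : ℕ → ℝ := fun k => Gam (lV M m a) (sb M m a (k + 1)) - M.rb m a k with hr
  set F : ℕ → ℝ := fun k => Gj M j0 k - M.d k * M.rb m a k / (m + 1) with hF
  have eq : ∀ k ∈ Finset.range (Jp + 1), Gam (cutT (lV M m a) T) (sb M m a (k + 1)) -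
      Gam (cutT M.lr T) (sj M j0 (k + 1)) = e k + r k := fun k hk => by
    have hk' := Finset.mem_range.1 hk
    have a1 := R.sb_mono G (show k + 1 ≤ Jp + 1 from hk')
    have a0 : M.s (max k j0) ≤ M.s Jp := R.sm (max_le (by omega) i0)
    have p1 := (R.spec1 G ha h1).2.2.gam (sb M m a (k + 1))
      ⟨R.sb_mono G (Nat.zero_le _), le_min (a1.trans (R.lvV G ha).1) (a1.trans h1)⟩
    have p0 := (R.spec0 h0).2.2.gam (M.s (max k j0))
      ⟨R.s_nn _, le_min (a0.trans R.sT) (a0.trans h0)⟩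
    change Gam _ _ = Gam _ _ at p1
    change Gam _ (sj M j0 (k + 1)) = M.q (max k j0) at p0
    rw [p1, p0]; simp only [he, hr]; ring
  rw [Finset.sum_congr rfl fun k hk => by rw [eq k hk]] at q
  have dk : ∀ k ∈ Finset.range (Jp + 1), c ≤ M.d k ∧ M.d k ≤ M.b := fun k hk =>
    ⟨cd.trans (G.dm (Nat.zero_le k)), d_le_b G.toLeg (by have := Finset.mem_range.1 hk; omega)⟩
  have s1 := Finset.sum_le_sum fun k (hk : k ∈ Finset.range (Jp + 1)) =>
    mul_le_mul_of_nonneg_left (node_alg (D := D k) (G := F k) (r := r k) (e := e k) c0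
      (dk k hk).1 (dk k hk).2 γ0 (D_eq k)) (G.dz_nonneg (M := M) (m := m) (a := a) k)
  set SD := ∑ k ∈ Finset.range (Jp + 1), M.dz m a k * D k ^ 2 with hSD
  set SR := ∑ k ∈ Finset.range (Jp + 1), M.dz m a k * r k ^ 2 with hSR
  set SF := ∑ k ∈ Finset.range (Jp + 1), M.dz m a k * F k ^ 2 with hSF
  have x1 : ∑ k ∈ Finset.range (Jp + 1), M.dz m a k * (γ / (2 * M.b) * D k ^ 2 -
      M.b / γ * (r k ^ 2 + F k ^ 2 / c ^ 2)) =
      γ / (2 * M.b) * SD - M.b / γ * (SR + SF / c ^ 2) := by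
    simp only [hSD, hSR, hSF, mul_add, Finset.mul_sum, Finset.sum_div, ← Finset.sum_add_distrib,
      ← Finset.sum_sub_distrib]
    exact Finset.sum_congr rfl fun k _ => by ring
  have x2 : ∑ k ∈ Finset.range (Jp + 1), M.dz m a k * (D k * (e k + r k) -
      (1 - γ) / M.b * D k ^ 2) = ∑ k ∈ Finset.range (Jp + 1), M.dz m a k * (D k * (e k + r k)) -
      (1 - γ) / M.b * SD := by
    simp only [hSD, Finset.mul_sum, ← Finset.sum_sub_distrib]
    exact Finset.sum_congr rfl fun k _ => by ring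
  rw [x1, x2] at s1
  have nn : ∀ f : ℕ → ℝ, 0 ≤ ∑ k ∈ Finset.range (Jp + 1), M.dz m a k * f k ^ 2 := fun f =>
    Finset.sum_nonneg fun k _ => mul_nonneg (G.dz_nonneg k) (sq_nonneg _)
  have D0 : 0 ≤ SD := nn D
  have R0 : 0 ≤ SR := nn r
  have F0 : 0 ≤ SF := nn F
  have L0 := lw_nn (j0 := j0) G
  have gb : g * SD ≤ (1 - γ) / M.b * SD :=
    mul_le_mul_of_nonneg_right (by rw [le_div_iff₀ b0]; linarith) D0
  have s2 : γ / (2 * M.b) * SD ≤ M.b / γ * (SR + SF / c ^ 2) + lw M j0 := by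
    change _ ≤ g * SD + lw M j0 at q
    linarith
  have c2 : 0 < c ^ 2 := by positivity
  have c3 : c ^ 2 ≤ 1 := pow_le_one₀ c0.le c1
  have s3 : γ ^ 2 * c ^ 2 * SD ≤ 2 * tb ^ 2 * (SR + SF) + 2 * tb * lw M j0 := by
    have y1 := mul_le_mul_of_nonneg_left s2 (show 0 ≤ 2 * M.b * γ * c ^ 2 by positivity)
    have y2 : 2 * M.b * γ * c ^ 2 * (γ / (2 * M.b) * SD) = γ ^ 2 * c ^ 2 * SD := by field_simp
    have y3 : 2 * M.b * γ * c ^ 2 * (M.b / γ * (SR + SF / c ^ 2) + lw M j0) =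
        2 * M.b ^ 2 * (c ^ 2 * SR + SF) + 2 * M.b * (γ * c ^ 2) * lw M j0 := by field_simp
    have y4 : 2 * M.b ^ 2 * (c ^ 2 * SR + SF) ≤ 2 * tb ^ 2 * (1 * SR + SF) := by gcongr
    have y5 : 2 * M.b * (γ * c ^ 2) * lw M j0 ≤ 2 * tb * (1 * 1) * lw M j0 := by gcongr
    linarith
  have s4 : c ^ 2 * Ph M m a j0 Jp ≤ 2 * (SD + SF) := by
    have y1 : Ph M m a j0 Jp ≤ ∑ k ∈ Finset.range (Jp + 1), M.dz m a k * e k ^ 2 := by
      rw [R.split G]
      refine le_add_of_nonneg_of_le (mul_nonneg (G.dz_nonneg 0) (sq_nonneg _)) (le_of_eq ?_)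
      exact Finset.sum_congr rfl fun k hk => by
        simp only [he, max_eq_left (Finset.mem_Ioc.1 hk).1.le]; rfl
    refine (mul_le_mul_of_nonneg_left y1 c2.le).trans ?_
    simp only [hSD, hSF, Finset.mul_sum, ← Finset.sum_add_distrib]
    refine Finset.sum_le_sum fun k hk => ?_
    have z1 : D k = M.d k * e k + F k := D_eq k
    have z2 : c ^ 2 * e k ^ 2 ≤ M.d k ^ 2 * e k ^ 2 := by gcongr; exact (dk k hk).1
    have z3 : c ^ 2 * e k ^ 2 ≤ 2 * (D k ^ 2 + F k ^ 2) := by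
      have : M.d k ^ 2 * e k ^ 2 = (D k - F k) ^ 2 := by rw [z1]; ring
      nlinarith [sq_nonneg (D k + F k)]
    have := mul_le_mul_of_nonneg_left z3 (G.dz_nonneg (M := M) (m := m) (a := a) k)
    linarith
  have s5 : SR ≤ K * Vp M m a 4 :=
    (Finset.sum_le_sum_of_subset_of_nonneg (R.sub1 G) fun k _ _ =>
      mul_nonneg (G.dz_nonneg k) (sq_nonneg _)).trans (hK M m a G R.tp' (c0.trans_le cd) hb)
  have m0 : (0:ℝ) < m := by exact_mod_cast G.m0
  have G0 := G2_nn (j0 := j0) (Jp := Jp) G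
  have s6 : SF ≤ 2 * (tb + 1) ^ 2 * (G2 M m a j0 Jp + lw M j0 + 1 / (m : ℝ) ^ 2) := by
    have y1 : SF ≤ ∑ k ∈ Finset.range (Jp + 1), (2 * (M.dz m a k * Gj M j0 k ^ 2) +
        M.dz m a k * (2 * (tb / m) ^ 2)) := Finset.sum_le_sum fun k hk => by
      have z1 := (R.tail G (k := k) (by have := Finset.mem_range.1 hk; omega)).trans
        (div_le_div_of_nonneg_right hb m0.le)
      have z2 := pow_le_pow_left₀ (abs_nonneg _) z1 2
      rw [sq_abs] at z2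
      have z3 : F k ^ 2 ≤ 2 * Gj M j0 k ^ 2 + 2 * (tb / m) ^ 2 := by
        simp only [hF]
        nlinarith [sq_nonneg (Gj M j0 k + M.d k * M.rb m a k / (m + 1))]
      have := mul_le_mul_of_nonneg_left z3 (G.dz_nonneg (M := M) (m := m) (a := a) k)
      linarith
    rw [Finset.sum_add_distrib, ← Finset.mul_sum, R.split G] at y1
    have y2 := mass G (R.sub2 G) (show 0 ≤ 2 * (tb / m) ^ 2 by positivity)
    have y3 : ∑ k ∈ Finset.Ioc j0 Jp, M.dz m a k * Gj M j0 k ^ 2 = G2 M m a j0 Jp :=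
      Finset.sum_congr rfl fun k hk => by rw [Gj_hi (Finset.mem_Ioc.1 hk).1.le]
    have y4 : M.dz m a 0 * Gj M j0 0 ^ 2 ≤ M.z j0 * ((tb + 1) * M.s j0) ^ 2 := by
      refine mul_le_mul (R.dz0 G) ?_ (sq_nonneg _) (G.z_nonneg _)
      rw [← sq_abs]
      exact pow_le_pow_left₀ (abs_nonneg _) ((R.Gj_zero G).trans
        (mul_le_mul_of_nonneg_right (by linarith) (R.s_nn _))) 2
    have y5 : M.z j0 * ((tb + 1) * M.s j0) ^ 2 = (tb + 1) ^ 2 * lw M j0 := by rw [lw]; ring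
    have y6 : (tb / m) ^ 2 = tb ^ 2 * (1 / (m : ℝ) ^ 2) := by ring
    have y7 : 0 ≤ 1 / (m : ℝ) ^ 2 := by positivity
    rw [y3] at y1
    nlinarith [mul_nonneg t0.le G0, mul_nonneg (sq_nonneg tb) G0, mul_nonneg t0.le y7]
  have V0 := V4_nn G
  have γ2 : γ ^ 2 * c ^ 2 ≤ 1 := mul_le_one₀ (pow_le_one₀ γ0.le γ1) c2.le c3
  rw [div_mul_eq_mul_div, le_div_iff₀ (by positivity), Rh]
  have y7 : 0 ≤ 1 / (m : ℝ) ^ 2 := by positivity
  set W := G2 M m a j0 Jp + lw M j0 + 1 / (m : ℝ) ^ 2 with hW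
  have w1 : lw M j0 ≤ W := by linarith
  have w0 : 0 ≤ W := L0.trans w1
  have z1 := mul_le_mul_of_nonneg_left s4 (show 0 ≤ γ ^ 2 * c ^ 2 by positivity)
  have z2 := mul_le_mul_of_nonneg_right γ2 F0
  have z3 := mul_le_mul_of_nonneg_left s5 (show 0 ≤ 4 * tb ^ 2 by positivity)
  have z4 := mul_le_mul_of_nonneg_left s6 (show 0 ≤ 4 * tb ^ 2 + 2 by positivity)
  have z5 := mul_le_mul_of_nonneg_left w1 (show 0 ≤ 4 * tb by positivity)
  have z6 : 0 ≤ 4 * tb ^ 2 * K * W := by positivity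
  have z7 : 0 ≤ ((4 * tb ^ 2 + 2) * (2 * (tb + 1) ^ 2) + 4 * tb) * Vp M m a 4 := by positivity
  have z8 : Vp M m a 4 + G2 M m a j0 Jp + lw M j0 + 1 / (m : ℝ) ^ 2 = Vp M m a 4 + W := by
    rw [hW]; ring
  rw [z8]
  linarith

theorem Rh_le (G : Lg M m a) : Rh M m a j0 Jp 4 ≤ 4 * Rh M m a j0 Jp 2 := by
  have := V4_le G
  have := G2_nn (j0 := j0) (Jp := Jp) G
  have := lw_nn (j0 := j0) G
  have : 0 ≤ 1 / (m : ℝ) ^ 2 := by positivity
  unfold Rh; linarith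

theorem up4 {C x y : ℝ} (G : Lg M m a) (hC : 0 ≤ C) (hy : 0 < y)
    (h : x ≤ C / y * Rh M m a j0 Jp 4) :
    ∀ p ∈ ({2, 4} : Finset ℕ), x ≤ 4 * C / y * Rh M m a j0 Jp p := fun p hp => by
  have h0 : 0 ≤ Rh M m a j0 Jp 4 := by
    have := V4_nn G
    have := G2_nn (j0 := j0) (Jp := Jp) G
    have := lw_nn (j0 := j0) G
    unfold Rh; positivity
  have h1 : 0 ≤ C / y := by positivity
  have e : 4 * C / y = 4 * (C / y) := by ring
  rw [e]
  rcases Finset.mem_insert.1 hp with rfl | hp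
  · nlinarith [mul_le_mul_of_nonneg_left (Rh_le (j0 := j0) (Jp := Jp) G) h1]
  · rw [Finset.mem_singleton.1 hp]; nlinarith [mul_nonneg h1 h0]

/-- **START**: no a priori location when `b < 1` -/
theorem ht : ∃ C : ℝ, 0 ≤ C ∧ ∀ (M : Md) (m j0 Jp : ℕ) (a c γ : ℝ), Lg M m a → 0 < a →
    Rg M j0 Jp → 0 < c → c ≤ M.d 0 → 0 < γ → M.b ≤ 1 - γ → ∀ p ∈ ({2, 4} : Finset ℕ),
    Ph M m a j0 Jp ≤ C / (γ ^ 2 * c ^ 4) * Rh M m a j0 Jp p := by
  obtain ⟨C, C0, hC⟩ := core 1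
  refine ⟨4 * C, by positivity, fun M m j0 Jp a c γ G ha R c0 cd γ0 hb => ?_⟩
  have cb := cd.trans (d_le_b G.toLeg (Nat.zero_le _))
  have h1 := le_max_left (sb M m a (Jp + 1)) (M.s Jp)
  have h0 := le_max_right (sb M m a (Jp + 1)) (M.s Jp)
  exact up4 G C0 (by positivity) (hC M m j0 Jp a c γ 1 _ G ha R c0 cd (by linarith) (by linarith)
    γ0 (by linarith) h1 h0 (fun t _ => Pp.Ode3.Gp_le_one (R.spec0 h0).1.1.1 t)
    (fun t _ => Pp.Ode3.Gp_le_one (R.spec1 G ha h1).1.1.1 t) (by linarith))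

/-- **LIN**: a priori location small against the replicon coefficient -/
theorem lin (T0 : ℝ) : ∃ C : ℝ, 0 ≤ C ∧ ∀ (M : Md) (m j0 Jp : ℕ) (a c γ P : ℝ), Lg M m a →
    0 < a → Rg M j0 Jp → 0 < c → c ≤ M.d 0 → c ≤ 1 → 0 < γ → γ ≤ 1 → M.b ≤ T0 → M.s Jp ≤ T0 →
    M.H Jp ≤ T0 → (∀ t ∈ Icc 0 (M.s Jp), 2 * γ ≤ M.e t) → Ph M m a j0 Jp ≤ P →
    C * (√P + √(G2 M m a j0 Jp) + M.z j0 + 1 / m) ≤ γ → ∀ p ∈ ({2, 4} : Finset ℕ),
    Ph M m a j0 Jp ≤ C / (γ ^ 2 * c ^ 4) * Rh M m a j0 Jp p := by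
  obtain ⟨C, C0, hC⟩ := core T0
  obtain ⟨L, L1, hL⟩ := gp_lip (2 * T0)
  refine ⟨4 * C + |T0| * L * (3 * |T0| + 1), by positivity,
    fun M m j0 Jp a c γ P G ha R c0 cd c1 γ0 γ1 hb hs hH he hP hγ p hp => ?_⟩
  have b0 : 0 < M.b := (c0.trans_le cd).trans_le (d_le_b G.toLeg (Nat.zero_le _))
  have t0 : 0 < T0 := b0.trans_le hb
  rw [abs_of_pos t0] at hγ ⊢
  have i4 := R.i4
  have m0 : (0:ℝ) < m := by exact_mod_cast G.m0
  have sbl : ∀ k ≤ M.N, sb M m a (k + 1) ≤ T0 + M.H k := fun k hk => by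
    rw [sb_tp]
    have := (tp_mem (m := m) G.toLeg k).1
    have := (tp_mem (m := m) G.toLeg k).2.1.trans ((d_le_b G.toLeg hk).trans hb)
    nlinarith [rb_le_one (M := M) (a := a) G.m0 k]
  have h1 : sb M m a (Jp + 1) ≤ 2 * T0 := by linarith [sbl Jp i4.le]
  have h0 : M.s Jp ≤ 2 * T0 := by linarith
  have W := R.two G ha h1 h0
  have g0 : ∀ t ∈ Icc 0 (2 * T0), Gp (cutT M.lr (2 * T0)) t ≤ (1 - 2 * γ) / M.b := by
    have k : ∀ t ∈ Icc 0 (M.s Jp), Gp (cutT M.lr (2 * T0)) t ≤ (1 - 2 * γ) / M.b := fun t ht => by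
      have p0 := (R.spec0 h0).2.2.gg t ⟨ht.1, le_min (ht.2.trans R.sT) (ht.2.trans h0)⟩
      have := he t ht
      change Gp _ _ = _ at p0
      rw [p0, le_div_iff₀ b0]
      unfold Md.e at this
      linarith
    intro t ht
    rcases le_total t (M.s Jp) with h | h
    · exact k t ⟨ht.1, h⟩
    · exact (gp_top W.o0 (R.s_nn _) h ht.2 fun r hr => by
        rw [(R.spec0 h0).2.1 r ((R.s_nn _).trans hr), R.lv1 r hr]).trans
          (k _ ⟨R.s_nn _, le_rfl⟩)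
  have ar := W.l1_le
  simp only [xb_sub G.toLeg m] at ar
  rw [R.split G] at ar
  have z0 := G.z_nonneg j0
  have sj0 : M.s j0 ≤ T0 := (R.sm R.i0).trans hs
  have a1 : M.dz m a 0 * |sb M m a (0 + 1) - sj M j0 (0 + 1)| ≤ M.z j0 * T0 := by
    refine mul_le_mul (R.dz0 G) ?_ (abs_nonneg _) z0
    have := sbl 0 (Nat.zero_le _)
    have := R.sb_mono G (Nat.zero_le (0 + 1))
    have := R.s_nn j0
    rw [G.H0] at *
    simp only [sj, Nat.zero_max, show sb M m a 0 = 0 from rfl] at *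
    exact abs_le.2 ⟨by linarith, by linarith⟩
  have a2 : ∑ k ∈ Finset.Ioc j0 Jp, M.dz m a k * |sb M m a (k + 1) - sj M j0 (k + 1)| ≤
      ∑ k ∈ Finset.Ioc j0 Jp, (T0 * (M.dz m a k * |M.del m a k|) + M.dz m a k * |M.G k| +
        M.dz m a k * (T0 / m)) := Finset.sum_le_sum fun k hk => by
    obtain ⟨k1, k2⟩ := Finset.mem_Ioc.1 hk
    have y1 := (R.tail G (k := k) (by omega)).trans (div_le_div_of_nonneg_right hb m0.le)
    have y2 : |M.d k * M.del m a k| ≤ T0 * |M.del m a k| := by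
      rw [abs_mul, abs_of_nonneg (d_nonneg G.toLeg k)]
      exact mul_le_mul_of_nonneg_right ((d_le_b G.toLeg (by omega)).trans hb) (abs_nonneg _)
    have y3 : |sb M m a (k + 1) - sj M j0 (k + 1)| ≤ T0 * |M.del m a k| + |M.G k| + T0 / m := by
      rw [D_eq, Gj_hi k1.le, max_eq_left k1.le]
      refine (abs_add_le _ _).trans ?_
      have := abs_sub (M.G k) (M.d k * M.rb m a k / (m + 1))
      change |M.d k * M.del m a k| + _ ≤ _
      linarith
    have := mul_le_mul_of_nonneg_left y3 (G.dz_nonneg (M := M) (m := m) (a := a) k)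
    linarith
  rw [Finset.sum_add_distrib, Finset.sum_add_distrib, ← Finset.mul_sum] at a2
  have a3 : ∑ k ∈ Finset.Ioc j0 Jp, M.dz m a k * |M.del m a k| ≤ √P :=
    Real.le_sqrt_of_sq_le ((cs G (R.sub3 G) _).trans (by simp only [sq_abs]; exact hP))
  have a4 : ∑ k ∈ Finset.Ioc j0 Jp, M.dz m a k * |M.G k| ≤ √(G2 M m a j0 Jp) :=
    Real.le_sqrt_of_sq_le ((cs G (R.sub3 G) _).trans (by simp only [sq_abs]; exact le_rfl))
  have a5 := mass G (R.sub3 G) (show 0 ≤ T0 / m by positivity)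
  set Y := √P + √(G2 M m a j0 Jp) + M.z j0 + 1 / m with hY
  have p1 := Real.sqrt_nonneg P
  have p2 := Real.sqrt_nonneg (G2 M m a j0 Jp)
  have p3 : 0 ≤ 1 / (m : ℝ) := by positivity
  have Y0 : 0 ≤ Y := by positivity
  have a6 : ∫ r in (0:ℝ)..2 * T0, |lvr 1 (cutT (lV M m a) (2 * T0)) r -
      lvr 1 (cutT M.lr (2 * T0)) r| ≤ (3 * T0 + 1) * Y := by
    have := mul_le_mul_of_nonneg_left a3 t0.le
    have := mul_le_mul_of_nonneg_left sj0 z0
    have : T0 / m = T0 * (1 / m) := by ring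
    nlinarith [mul_nonneg t0.le p1, mul_nonneg t0.le p2, mul_nonneg t0.le p3, mul_nonneg t0.le z0]
  have a7 : M.b * (L * ((3 * T0 + 1) * Y)) ≤ γ := by
    have : M.b * (L * ((3 * T0 + 1) * Y)) ≤ T0 * (L * ((3 * T0 + 1) * Y)) := by gcongr
    nlinarith [mul_nonneg C0 Y0]
  have n1 : 0 ≤ L * ((3 * T0 + 1) * Y) := by positivity
  have := up4 G C0 (by positivity) (hC M m j0 Jp a c γ
    ((1 - 2 * γ) / M.b + L * ((3 * T0 + 1) * Y)) _ G ha R c0 cd c1 hb γ0 γ1 h1 h0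
    (fun t ht => (g0 t ht).trans (le_add_of_nonneg_right n1))
    (fun t ht => (hL _ _ _ W.o0 W.o1 le_rfl t ht).trans (add_le_add (g0 t ht)
      (mul_le_mul_of_nonneg_left a6 (by linarith))))
    (by rw [mul_add, mul_div_cancel₀ _ b0.ne']; linarith)) p hp
  refine this.trans (mul_le_mul_of_nonneg_right (div_le_div_of_nonneg_right ?_ (by positivity)) ?_)
  · exact le_add_of_nonneg_right (by positivity)
  · have := G2_nn (j0 := j0) (Jp := Jp) G
    have := lw_nn (j0 := j0) G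
    have : 0 ≤ Vp M m a p := Finset.sum_nonneg fun k _ => mul_nonneg (G.dz_nonneg k)
      (E2_nonneg (fun r _ => by
        rcases Finset.mem_insert.1 hp with rfl | hp
        · positivity
        · rw [Finset.mem_singleton.1 hp]; positivity) k)
    unfold Rh; positivity

end Crest.Agent.T156.Alt.Ht31

end
private theorem rz_d555678c19 : type_of% @_root_.Crest.Agent.T156.Alt.Ht31.sj.eq_1 := @_root_.Crest.Agent.T156.Alt.Ht31.sj.eq_1 -- L70
end

-- ▼ part T156/SrLin_34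
section

/-!
# Row 156, SR: the linear range without a priori bound (helper34)

From a model `sh M u F` the W variance is lowered to `1 / 2` with the deposit of the reference
overlap: the residual does not change and the total mark at `Jp` stays bounded.
-/

set_option autoImplicit false

noncomputable section

namespace Crest.Agent.T156.Alt.Lin34

open MeasureTheory Real Finset Filter
open Crest.Agent.T156.Alt.Gu71 (sh dep Dp Rem Fl Nr)
open Crest.Agent.T156.Alt.Md67 (Lg)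

variable {S : Sc} {M N : Md} {m : ℕ} {a : ℝ}

/-- the reference as a deposit -/
def qt (M : Md) (S : Sc) (k : ℕ) : ℝ := if k ≤ S.jl then 0 else M.q (min k M.N)

theorem qt_dp (h : Cl S M) : Dp (qt M S) 1 := by
  refine ⟨if_pos (Nat.zero_le _), fun i j hij => ?_, fun k => ?_⟩
  · unfold qt
    split_ifs with h1 h2 h2
    · exact le_rfl
    · exact h.q_nn (min_le_right _ _)
    · omega
    · exact h.q_mono (min_le_min_right _ hij) (min_le_right _ _)
  · unfold qt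
    split_ifs
    · exact zero_le_one
    · exact Cl.q_le_one _

theorem sum_eq (G : Lg N m a) {j p : ℕ} (f : ℕ → ℝ) :
    ∑ k ∈ Ioc j p, N.dz m a k * f k = ∑ k ∈ Ioc j p, N.dx k * f k :=
  sum_congr rfl fun k hk => by
    rw [Md67.dz_up G.toLeg (by have := (mem_Ioc.1 hk).1; omega), Md.dx]

theorem ph_eq (G : Lg N m a) : Ht31.Ph N m a S.jl S.Jp = N.Phi S m a := sum_eq G _

theorem g2_eq (G : Lg N m a) : Ht31.G2 N m a S.jl S.Jp = N.sq S N.G := sum_eq G _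

theorem phi_nn (G : Lg N m a) : 0 ≤ N.Phi S m a := by
  rw [← ph_eq G]
  exact sum_nonneg fun k _ => mul_nonneg (G.dz_nonneg k) (sq_nonneg _)

theorem vp_le (G : Lg N m a) {j : ℕ} (hj : j ≤ N.N) : Ht31.Vp N m a 2 ≤ Fl N m a j := by
  have nn : ∀ k, 0 ≤ N.dz m a k * N.E2 m a (fun r => (r - N.rb m a k) ^ 2) k := fun k =>
    mul_nonneg (G.dz_nonneg k) (Md67.E2_nonneg (fun _ _ => sq_nonneg _) k)
  have h1 : Ht31.Vp N m a 2 ≤ ∑ k ∈ range (N.N + 1),
      N.dz m a k * N.E2 m a (fun r => (r - N.rb m a k) ^ 2) k :=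
    sum_le_sum_of_subset_of_nonneg (range_subset_range.2 (Nat.le_succ _)) fun k _ _ => nn k
  refine h1.trans ?_
  rw [range_eq_Ico, ← sum_Ico_consecutive _ (Nat.zero_le (j + 1)) (Nat.add_le_add_right hj 1),
    ← range_eq_Ico, Ico_add_one_add_one_eq_Ioc, Fl]
  refine add_le_add (sum_le_sum fun k _ => mul_le_mul_of_nonneg_left ?_ (G.dz_nonneg k)) le_rfl
  have h2 := Md67.E2_sq_expand (M := N) (m := m) (a := a) (N.rb m a k) k
  nlinarith [sq_nonneg (N.rb m a k)]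

/-- `Φ` moves little with the pair laws -/
theorem phi_lip {N' : Md} (G : Lg N m a) (hS : S.Jp ≤ N.N) (hz : N'.z = N.z) (hq : N'.q = N.q)
    (q01 : ∀ k ≤ N.N, 0 ≤ N.q k ∧ N.q k ≤ 1) {ε : ℝ} (hε : ∀ k, |N'.rb m a k - N.rb m a k| ≤ ε) :
    N.Phi S m a ≤ N'.Phi S m a + 2 * ε := by
  have e0 : 0 ≤ ε := (abs_nonneg _).trans (hε 0)
  have h1 : N'.Phi S m a = ∑ k ∈ Ioc S.jl S.Jp, N.dz m a k * (N'.rb m a k - N.q k) ^ 2 := by
    rw [sum_eq G]
    simp only [Md.Phi, Md.sq, Md.dx, Md.del, hz, hq]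
  have h2 := Ht31.mass G (s := Ioc S.jl S.Jp) (fun k hk => mem_range.2 (by
    have := (mem_Ioc.1 hk).2; omega)) (c := 2 * ε) (by positivity)
  rw [h1, ← ph_eq G, Ht31.Ph]
  refine le_trans ?_ (add_le_add le_rfl h2)
  rw [← sum_add_distrib]
  refine sum_le_sum fun k hk => ?_
  rw [← mul_add]
  refine mul_le_mul_of_nonneg_left ?_ (G.dz_nonneg k)
  obtain ⟨q0, q1⟩ := q01 k ((mem_Ioc.1 hk).2.trans hS)
  have r0 := Md67.rb_nonneg (M := N) (a := a) G.m0 k
  have r1 := Md67.rb_le_one (M := N) (a := a) G.m0 k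
  have s0 := Md67.rb_nonneg (M := N') (a := a) G.m0 k
  have s1 := Md67.rb_le_one (M := N') (a := a) G.m0 k
  obtain ⟨e1, e2⟩ := abs_le.1 (hε k)
  rw [Md.del]
  have e3 : |N.rb m a k + N'.rb m a k - 2 * N.q k| ≤ 2 := abs_le.2 ⟨by linarith, by linarith⟩
  have e4 : |N.rb m a k - N'.rb m a k| ≤ ε := abs_le.2 ⟨by linarith, by linarith⟩
  have e5 := (le_abs_self _).trans ((abs_mul _ _).le.trans
    (mul_le_mul e3 e4 (abs_nonneg _) zero_le_two))
  nlinarith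

/-- downward induction with small steps -/
theorem down {f : ℝ → ℝ} {τ T P L : ℝ} (hτ : 0 ≤ τ) (hL : 0 < L) (hT : T < P) (e : f τ ≤ T)
    (lip : ∀ t h, 0 ≤ t → 0 ≤ h → t + h ≤ τ → L * h ≤ 1 → f t ≤ f (t + h) + L * h)
    (dic : ∀ t, 0 ≤ t → t ≤ τ → f t ≤ P → f t ≤ T) : f 0 ≤ T := by
  obtain ⟨i, hi⟩ := exists_nat_gt (L * τ / min (P - T) 1)
  have d0 : 0 < min (P - T) 1 := lt_min (by linarith) one_pos
  have i0 : (0 : ℝ) < i := lt_of_le_of_lt (by positivity) hi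
  have h0 : 0 ≤ τ / i := by positivity
  have h1 : L * (τ / i) ≤ min (P - T) 1 := by
    rw [div_lt_iff₀ d0] at hi
    rw [← mul_div_assoc, div_le_iff₀ i0]
    linarith
  have key : ∀ j : ℕ, j ≤ i → f (τ - j * (τ / i)) ≤ T := fun j => by
    induction j with
    | zero => intro _; simpa using e
    | succ j ih =>
      intro hj
      have a1 : ((j + 1 : ℕ) : ℝ) * (τ / i) ≤ τ := by
        have : ((j + 1 : ℕ) : ℝ) ≤ i := by exact_mod_cast hj
        calc _ ≤ i * (τ / i) := mul_le_mul_of_nonneg_right this h0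
          _ = τ := by field_simp
      have a2 : (0 : ℝ) ≤ j * (τ / i) := by positivity
      have a3 := lip (τ - (j + 1 : ℕ) * (τ / i)) (τ / i) (by linarith) h0
        (by push_cast; linarith) (h1.trans (min_le_right _ _))
      rw [show τ - (j + 1 : ℕ) * (τ / i) + τ / i = τ - j * (τ / i) by push_cast; ring] at a3
      have a4 := ih (by omega)
      refine dic _ (by linarith) (by push_cast; linarith) ?_
      linarith [h1.trans (min_le_left _ _)]
  have := key i le_rfl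
  rwa [show τ - i * (τ / i) = 0 by field_simp; ring] at this

theorem ar1 {C1 C2 γ : ℝ} (c1 : 0 ≤ C1) (c2 : 0 ≤ C2) (γ0 : 0 < γ) (γ1 : γ ≤ 1 / 2) :
    C1 / ((1 / 2) ^ 2 * (1 / 2) ^ 4) ≤ (32 * (C1 + C2) + 1) / (2 * γ ^ 2) ∧
    C2 / (γ ^ 2 * (1 / 2) ^ 4) ≤ (32 * (C1 + C2) + 1) / (2 * γ ^ 2) := by
  have : γ ^ 2 ≤ 1 / 4 := by nlinarith
  have : 0 < γ ^ 2 := by positivity
  constructor <;> rw [div_le_div_iff₀ (by positivity) (by positivity)] <;> nlinarith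

theorem ar2 {C θ μ b g γ w e : ℝ} (C0 : 0 < C) (hθ : C * θ ≤ 1 / 2) (h1 : μ ≤ θ) (b0 : 1 ≤ b)
    (b1 : b ≤ C) (h2 : 1 - C * μ ≤ b * g) (γ0 : 0 < γ) (hw : 4 * C * γ ≤ w) (e0 : 0 ≤ e) :
    2 * γ ≤ e + w * g := by
  have a4 := mul_le_mul_of_nonneg_left h1 C0.le
  have a5 : 0 ≤ g := by
    by_contra hh
    nlinarith [not_le.1 hh]
  have a6 : 1 / 2 ≤ C * g := by nlinarith
  have a7 : 4 * C * γ * g ≤ w * g := mul_le_mul_of_nonneg_right hw a5
  nlinarith

theorem ar3 {K γ κ R Φ c r : ℝ} (γ0 : 0 < γ) (s2 : K * κ ≤ γ ^ 2) (p0 : 0 ≤ Φ) (c0 : 0 ≤ c)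
    (c1 : c ≤ K / (2 * γ ^ 2)) (r0 : 0 ≤ r) (hr : r ≤ R + κ * Φ) (h : Φ ≤ c * r) :
    Φ ≤ K / γ ^ 2 * R := by
  have k0 : 0 ≤ K / (2 * γ ^ 2) := c0.trans c1
  have a1 := h.trans ((mul_le_mul_of_nonneg_right c1 r0).trans (mul_le_mul_of_nonneg_left hr k0))
  have a2 : K / (2 * γ ^ 2) * κ ≤ 1 / 2 := by
    rw [div_mul_eq_mul_div, div_le_iff₀ (by positivity)]; linarith
  have a3 := mul_le_mul_of_nonneg_right a2 p0
  have a4 : K / γ ^ 2 * R = 2 * (K / (2 * γ ^ 2) * R) := by field_simp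
  nlinarith

/-- **the core**: no a priori bound -/
theorem core (T0 : ℝ) : ∃ K : ℝ, 1 ≤ K ∧ ∀ (S : Sc) (M : Md) (m : ℕ) (a u γ V κ W P : ℝ)
    (F : ℕ → ℝ), Cl S M → Lg M m a → 0 < a → S.j0 = S.jl → M.d 0 = M.b → S.C * S.θ ≤ 1 / 2 →
    S.C ≤ T0 → 0 < γ → γ ≤ 1 / 2 → 4 * S.C * γ ≤ u → u ≤ M.d 0 - 1 / 2 → F 0 = 0 → Monotone F →
    M.H S.Jp + F S.Jp + S.C ≤ T0 → M.sq S (sh M u F).G ≤ W →
    (∀ u' F', 0 ≤ u' → u' ≤ M.d 0 → F' 0 = 0 → Monotone F' →
      Fl (sh M u' F') m a S.jl ≤ V + κ * (sh M u' F').Phi S m a) → 0 ≤ κ →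
    K * (√P + √W + M.z S.jl + 1 / m) ≤ γ → K * κ ≤ γ ^ 2 →
    K / γ ^ 2 * (V + W + M.z S.jl * M.s S.jl ^ 2 + 1 / (m : ℝ) ^ 2) < P →
    (sh M u F).Phi S m a ≤ K / γ ^ 2 * (V + W + M.z S.jl * M.s S.jl ^ 2 + 1 / (m : ℝ) ^ 2) := by
  obtain ⟨C1, c1, H1⟩ := Ht31.ht
  obtain ⟨C2, c2, H2⟩ := Ht31.lin T0
  refine ⟨32 * (C1 + C2) + 1, by linarith, fun S M m a u γ V κ W P F cl G ha jj noW hθ hC γ0 γ1
    hu hu' F0 Fm hH hW hV κ0 s1 s2 s3 => ?_⟩
  set K := 32 * (C1 + C2) + 1 with hK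
  set R := V + W + M.z S.jl * M.s S.jl ^ 2 + 1 / (m : ℝ) ^ 2 with hR
  have C0 := cl.C0
  have C1' := cl.C1
  have u0 : 0 < u := lt_of_lt_of_le (by positivity) hu
  have m0 : (0 : ℝ) < m := by exact_mod_cast G.m0
  have dp := qt_dp cl
  have i4 := cl.i4
  have i2 := cl.i2
  have i3 := cl.i3
  set τ := M.d 0 - 1 / 2 - u with hτ
  set Nt : ℝ → Md := fun t => sh M (u + t) fun k => F k + t * qt M S k with hNt
  have mo : ∀ t, 0 ≤ t → Monotone fun k => F k + t * qt M S k := fun t ht i j hij =>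
    add_le_add (Fm hij) (mul_le_mul_of_nonneg_left (dp.mono hij) ht)
  have f0 : ∀ t : ℝ, F 0 + t * qt M S 0 = 0 := fun t => by rw [F0, dp.r0]; ring
  have lg : ∀ t, 0 ≤ t → t ≤ τ → Lg (Nt t) m a := fun t h0 h1 =>
    Gu71.sh_lg G (by linarith) (f0 t) (mo t h0)
  have rg : ∀ t, Ht31.Rg (Nt t) S.jl S.Jp := fun t =>
    (jj ▸ Ht31.rg_cl cl).congr rfl rfl rfl rfl
  have g2 : ∀ t, 0 ≤ t → t ≤ τ → Ht31.G2 (Nt t) m a S.jl S.Jp ≤ W := fun t h0 h1 => by
    rw [g2_eq (lg t h0 h1)]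
    refine le_trans (le_of_eq ?_) hW
    refine sum_congr rfl fun k hk => ?_
    obtain ⟨k1, k2⟩ := mem_Ioc.1 hk
    have e : (Nt t).G k = (sh M u F).G k := by
      simp only [hNt, Gu71.sh_G, qt, if_neg (not_le.2 k1), min_eq_left (k2.trans i4.le)]
      ring
    rw [e]; rfl
  have W0 : 0 ≤ W := (Ht31.G2_nn (lg 0 le_rfl (by linarith))).trans (g2 0 le_rfl (by linarith))
  have rh : ∀ t, 0 ≤ t → t ≤ τ → Ht31.Rh (Nt t) m a S.jl S.Jp 2 ≤
      R + κ * (Nt t).Phi S m a := fun t h0 h1 => by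
    have a1 := (vp_le (lg t h0 h1) (j := S.jl) (by change S.jl ≤ M.N; omega)).trans
      (hV (u + t) _ (by linarith) (by linarith) (f0 t) (mo t h0))
    have a2 := g2 t h0 h1
    have a3 : Ht31.lw (Nt t) S.jl = M.z S.jl * M.s S.jl ^ 2 := rfl
    rw [Ht31.Rh, a3, hR]
    linarith
  have γ2 : 0 < γ ^ 2 := by positivity
  have ab : ∀ t, 0 ≤ t → t ≤ τ → ∀ c : ℝ, 0 ≤ c → c ≤ K / (2 * γ ^ 2) →
      Ht31.Ph (Nt t) m a S.jl S.Jp ≤ c * Ht31.Rh (Nt t) m a S.jl S.Jp 2 →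
      (Nt t).Phi S m a ≤ K / γ ^ 2 * R := fun t h0 h1 c c0 c1 h => by
    rw [ph_eq (lg t h0 h1)] at h
    have p0 := phi_nn (S := S) (lg t h0 h1)
    have r0 : 0 ≤ Ht31.Rh (Nt t) m a S.jl S.Jp 2 := by
      have := (Ht31.V4_nn (lg t h0 h1)).trans (Ht31.V4_le (lg t h0 h1))
      have := Ht31.G2_nn (j0 := S.jl) (Jp := S.Jp) (lg t h0 h1)
      have := Ht31.lw_nn (j0 := S.jl) (lg t h0 h1)
      have : 0 ≤ 1 / (m : ℝ) ^ 2 := by positivity
      rw [Ht31.Rh]; linarith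
    exact ar3 γ0 s2 p0 c0 c1 r0 (rh t h0 h1) h
  have d0 : ∀ t, (Nt t).d 0 = M.d 0 - (u + t) := fun t => rfl
  have bb : ∀ t, (Nt t).b = M.b - (u + t) := fun t => rfl
  have key := down (f := fun t => (Nt t).Phi S m a) (τ := τ) (T := K / γ ^ 2 * R) (P := P)
    (L := 120 * m) (by linarith) (by positivity) s3 ?_ ?_ ?_
  · simpa [hNt] using key
  · exact ab τ (by linarith) le_rfl _ (by positivity) (ar1 c1 c2 γ0 γ1).1 (H1 (Nt τ) m S.jl S.Jp a (1 / 2) (1 / 2)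
      (lg τ (by linarith) le_rfl) ha (rg τ) (by norm_num) (by rw [d0]; linarith) (by norm_num)
      (by rw [bb]; linarith) 2 (by simp))
  · intro t h t0 h0 h1 h2
    have e : Nt (t + h) = dep (Nt t) (qt M S) h := by
      simp only [hNt, dep, Gu71.sh_sh]
      congr 1
      · ring
      · funext k; ring
    have nr := Gu71.nr_dep (Nt t) dp h0
    rw [← e] at nr
    have := phi_lip (S := S) (N' := Nt (t + h)) (lg t t0 (by linarith)) i4.le rfl rfl
      (fun k hk => ⟨cl.q_nn hk, Cl.q_le_one k⟩) fun k =>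
        Gu71.rb_lip (lg t t0 (by linarith)) (lg (t + h) (by linarith) h1) nr (by linarith) k
    linarith
  · intro t t0 t1 hP
    have L := lg t t0 t1
    have hb := cl.b1
    have H0 := cl.H_nn S.Jp
    have FJ : 0 ≤ F S.Jp := F0 ▸ Fm (Nat.zero_le _)
    refine ab t t0 t1 _ (by positivity) (ar1 c1 c2 γ0 γ1).2 (H2 (Nt t) m S.jl S.Jp a (1 / 2) γ P L ha (rg t)
      (by norm_num) (by rw [d0]; linarith) (by norm_num) γ0 (by linarith) (by rw [bb]; linarith)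
      (cl.sT.trans hC) ?_ ?_ (by rw [ph_eq L]; exact hP) ?_ 2 (by simp))
    · change M.H S.Jp + (F S.Jp + t * qt M S S.Jp) ≤ T0
      have := mul_le_mul_of_nonneg_left (dp.le S.Jp) t0
      linarith
    · intro x hx
      change x ∈ Set.Icc 0 (M.s S.Jp) at hx
      rw [hNt, Gu71.sh_e]
      exact ar2 C0 hθ (cl.ms1 x) cl.b_ge hb (cl.GG_bds hx).1 γ0 (by linarith)
        ((div_pos (cl.ms_pos hx.1) C0).le.trans (cl.crit x hx).1)
    · refine le_trans ?_ s1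
      have := Real.sqrt_le_sqrt (g2 t t0 t1)
      have z0 := G.z_nonneg S.jl
      have : (Nt t).z S.jl = M.z S.jl := rfl
      refine mul_le_mul (by linarith) (by linarith) (by positivity) (by linarith)

open Sr Sr.C71

variable {E Y l Ys : ℝ}

theorem H_le (B : Nb E S Y) (c : Cl S M) (H : SH E S M l Ys Y) (hθ : E * S.θ ≤ 1) :
    M.H S.Jp ≤ 2 * S.C ^ 2 := by
  have i1 := c.i1; have i2 := c.i2; have i3 := c.i3; have i4 := c.i4
  have C0 := c.C0
  have E1 := B.E1 c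
  have t0 := c.θ0
  have v0 := c.v0
  have t1 : S.θ ≤ 1 := by nlinarith
  have a1 := H.cei.bot
  rw [H.F1, mul_one] at a1
  have a2 : S.ms (M.s S.jl) * M.s S.jl ≤ 1 * S.C :=
    mul_le_mul ((c.ms1 _).trans t1) (c.s_le_C (by omega)) (c.s_nn _) zero_le_one
  have a3 := tel_le (f := M.H) (c := S.C * S.θ * S.v) (i := S.jl + 1) (j := S.Jp) (by omega)
    fun k h1 h2 => by
      have := H.cei.up k h1 h2
      rw [H.F1, mul_one] at this
      exact this.trans (mul_le_mul_of_nonneg_right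
        (mul_le_mul_of_nonneg_left (c.ms1 _) C0.le) v0.le)
  have a4 := (c.ck_tel (i := S.jl + 1) (j := S.Jp) (by omega) (by omega) le_rfl).1
  have a5 : 0 ≤ M.ck (S.jl + 1) := by
    rw [c.ckq _ (z_first B c H)]; exact c.q_nn (by omega)
  have a6 := H.ckT
  set x := (S.Jp : ℝ) - ((S.jl + 1 : ℕ) : ℝ)
  have a7 : x * (S.C * S.θ * S.v) = S.C ^ 2 * S.θ * (x * (S.v / S.C)) := by field_simp
  have a8 : S.C ^ 2 * S.θ * (x * (S.v / S.C)) ≤ S.C ^ 2 * S.θ * E :=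
    mul_le_mul_of_nonneg_left (by linarith) (by positivity)
  have a9 : S.C ^ 2 * (E * S.θ) ≤ S.C ^ 2 * 1 := mul_le_mul_of_nonneg_left hθ (by positivity)
  have a10 := mul_le_mul_of_nonneg_left a2 C0.le
  nlinarith

theorem G_le (B : Nb E S Y) (c : Cl S M) (H : SH E S M l Ys Y) (hθ : E * S.θ ≤ 1) :
    M.sq S M.G ≤ 4 * (E * Y) := by
  have E1 := B.E1 c
  have t1 : S.θ ≤ 1 := by nlinarith [c.θ0]
  have n0 : 0 < nu S := rpow_pos_of_pos c.N0 _
  have n1 : nu S ≤ 1 := rpow_le_one_of_one_le_of_nonpos (by exact_mod_cast c.n1) (by norm_num)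
  refine le_trans ?_ (mul_le_mul_of_nonneg_left H.G2 (by norm_num))
  rw [Md.sq, Md.sq, mul_sum]
  refine sum_le_sum fun k _ => ?_
  rw [mul_left_comm]
  refine mul_le_mul_of_nonneg_left ?_ (dx_nn c k)
  have a0 := c.ms_pos (c.s_nn k)
  have a1 := (c.ms1 (M.s k)).trans t1
  have a2 : 0 < S.ms (M.s k) + nu S := by positivity
  rw [div_pow, ← mul_div_assoc, le_div_iff₀ (by positivity), mul_comm]
  exact mul_le_mul_of_nonneg_right (by nlinarith) (sq_nonneg _)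

theorem sq3 (c : Cl S M) {f g h : ℕ → ℝ} {r : ℝ} (hr : r ^ 2 ≤ 1) {F : ℕ → ℝ}
    (e : ∀ k, S.jl < k → k ≤ S.Jp → F k = f k + g k + r * h k) :
    M.sq S F ≤ 3 * (M.sq S f + M.sq S g + M.sq S h) := by
  simp only [Md.sq, ← sum_add_distrib, mul_sum]
  refine sum_le_sum fun k hk => ?_
  rw [e k (mem_Ioc.1 hk).1 (mem_Ioc.1 hk).2, ← mul_add, ← mul_add, mul_left_comm]
  refine mul_le_mul_of_nonneg_left ?_ (dx_nn c k)
  have := mul_le_mul_of_nonneg_right hr (sq_nonneg (h k))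
  nlinarith [sq_nonneg (f k - g k), sq_nonneg (f k - r * h k), sq_nonneg (g k - r * h k)]

theorem sqrt_le' {x y : ℝ} (hy : 0 ≤ y) (h : x ≤ y ^ 2) : √x ≤ y := sqrt_le_iff.2 ⟨hy, h⟩

/-- the linear range, pointwise -/
theorem lin2 (C : ℝ) : ∃ K : ℝ, ∀ (E : ℝ) (S : Sc) (M : Md) (m : ℕ) (a l Ys Y : ℝ) (ck : ℕ → ℝ)
    (D u : ℝ) (N : Md), S.C = C → K ≤ E → Nb E S Y → Cl S M → S.In m a → SH E S M l Ys Y →
    VarH E S M m a Y → Ax E S M Y ck → 0 ≤ D → E ^ 100 * D ≤ 1 → E * S.θ ≤ 1 → 1 / E ≤ u →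
    u ≤ 2 / E → KC E S M Y ck D u N → N.Phi S m a ≤ E ^ 99 * Y := by
  obtain ⟨K, K1, H0⟩ := core (2 * C ^ 2 + 3 + C)
  refine ⟨K, fun E S M m a l Ys Y ck D u N hC hK B c hi H V A D0 D1 hθ u1 u2 hN => ?_⟩
  obtain ⟨u0, u3, F, KF, rfl⟩ := hN
  subst hC
  have i1 := c.i1; have i2 := c.i2; have i3 := c.i3; have i4 := c.i4
  have E1 := B.E1 c
  have E0 : 0 < E := by linarith
  have C1 := c.C1
  have C0 := c.C0
  have n0 := c.N0
  have Y0 : 0 < Y := lt_of_lt_of_le (by positivity) B.nY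
  have mn : (S.n : ℝ) ≤ m := by exact_mod_cast hi.m1
  have m0 : (0 : ℝ) < m := n0.trans_le mn
  obtain ⟨a0, a1⟩ := hi.amax0 c.n1
  have G : Lg M m a := Md67.lg_of c.leg (by exact_mod_cast m0) a0.le (by linarith [hi.a2])
  have CE : 10000 * S.C ^ 2 ≤ E := le_trans (mul_le_mul_of_nonneg_left
    (pow_le_pow_right₀ C1 (by norm_num)) (by norm_num)) B.CE
  have CC : S.C ≤ S.C ^ 2 := le_self_pow₀ C1 two_ne_zero
  have CE' : 10000 * S.C ≤ E := by linarith
  have pw : ∀ {i j : ℕ}, i ≤ j → E ^ i ≤ E ^ j := fun h => pow_le_pow_right₀ (by linarith) h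
  set u' := min u D with hu'
  have w0 : 0 ≤ u' := le_min u0 D0
  have w1 : u' ≤ D := min_le_right _ _
  have w2 : u' ≤ u := min_le_left _ _
  have uE : u * E ≤ 2 := (le_div_iff₀ E0).1 u2
  have u4 : u ≤ 1 := by linarith [mul_le_mul_of_nonneg_left E1 u0]
  have wE : u' * E ^ 100 ≤ 1 := by linarith [mul_le_mul_of_nonneg_right w1 (pow_pos E0 100).le]
  have w3 : u' ≤ 1 := w2.trans u4
  have Fm := K0_mono B c H A w0 KF
  have cm := ct_mono B c H
  set x := 1 / E with hx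
  have x0 : 0 < x := by positivity
  have xE : E * x = 1 := by rw [hx]; field_simp
  have x1 : x ≤ 1 := by linarith [mul_le_mul_of_nonneg_right E1 x0.le]
  have px : ∀ {i j : ℕ}, i ≤ j → x ^ j ≤ x ^ i := fun h => pow_le_pow_of_le_one x0.le x1 h
  have EY : ∀ i j : ℕ, i + j ≤ 200 → E ^ i * Y ≤ x ^ j := fun i j h => by
    have := mul_le_mul_of_nonneg_right (B.pow c h) (pow_pos x0 j).le
    rwa [pow_add, one_mul, show E ^ i * E ^ j * Y * x ^ j = E ^ i * Y * (E * x) ^ j by ring, xE,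
      one_pow, mul_one] at this
  have Yx : ∀ j : ℕ, j ≤ 200 → Y ≤ x ^ j := fun j h => by simpa using EY 0 j (by omega)
  have l0 := l_nn c H
  have l1 : l ≤ x ^ 5 := by
    refine le_of_pow_le_pow_left₀ (n := 3) (by norm_num) (by positivity) (H.l3.trans ?_)
    rw [← pow_mul]; exact Yx _ (by norm_num)
  have vY : S.v ≤ Y := le_trans (le_mul_of_one_le_left c.v0.le C1) B.vY
  have s0 := c.s_nn S.jl
  have s1 := H.jl
  have z0 := G.z_nonneg S.jl
  have z1 : M.z S.jl ≤ S.C * (l + 2 * Y) := (c.z_s i1 c.jl_lt).2.trans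
    (mul_le_mul_of_nonneg_left (by linarith) C0.le)
  have z2 : M.z S.jl ≤ x ^ 4 := by
    have b1 := Yx 5 (by norm_num)
    have b2 : S.C * (l + 2 * Y) ≤ S.C * (3 * x ^ 5) := mul_le_mul_of_nonneg_left (by linarith) C0.le
    have b3 : 3 * S.C * x ^ 5 ≤ E * x ^ 5 := mul_le_mul_of_nonneg_right (by linarith) (by positivity)
    have b4 : E * x ^ 5 = E * x * x ^ 4 := by ring
    rw [b4, xE] at b3
    linarith
  have z3 : M.z S.jl * M.s S.jl ^ 2 ≤ E ^ 28 * Y := by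
    have b0 : l ≤ 1 := l1.trans (pow_le_one₀ x0.le x1)
    have b1 : M.s S.jl ^ 2 ≤ l ^ 2 := pow_le_pow_left₀ s0 s1 2
    have b2 := mul_le_mul z1 b1 (by positivity) (by positivity)
    have b3 : (l + 2 * Y) * l ^ 2 ≤ 3 * Y := by
      have : l ^ 2 ≤ 1 := pow_le_one₀ l0 b0
      have := mul_le_mul_of_nonneg_left this Y0.le
      linarith [H.l3]
    have b4 := mul_le_mul_of_nonneg_left b3 C0.le
    have b5 : E ^ 1 ≤ E ^ 28 := pw (by norm_num)
    have b6 := mul_le_mul_of_nonneg_right (show 3 * S.C ≤ E ^ 28 by linarith) Y0.le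
    linarith
  have m2 : 1 / (m : ℝ) ^ 2 ≤ Y := le_trans (one_div_le_one_div_of_le (by positivity)
    (pow_le_pow_left₀ n0.le mn 2)) B.nY
  have m1 : 1 / (m : ℝ) ≤ x ^ 4 := by
    refine le_of_pow_le_pow_left₀ (n := 2) (by norm_num) (by positivity) ?_
    rw [← pow_mul, div_pow, one_pow]; exact m2.trans (Yx _ (by norm_num))
  have gE : K / (x / (4 * S.C)) ^ 2 ≤ E ^ 4 := by
    rw [div_le_iff₀ (by positivity)]
    have b1 : E ^ 4 * (x / (4 * S.C)) ^ 2 = E * (E / (16 * S.C ^ 2)) * (E * x) ^ 2 := by field_simp; ring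
    have b2 : 1 ≤ E / (16 * S.C ^ 2) := by rw [le_div_iff₀ (by positivity)]; linarith
    rw [b1, xE]
    linarith [mul_le_mul_of_nonneg_left b2 E0.le]
  have fin : K / (x / (4 * S.C)) ^ 2 * (E ^ 28 * Y + E ^ 2 * Y + M.z S.jl * M.s S.jl ^ 2 +
      1 / (m : ℝ) ^ 2) ≤ E ^ 99 * Y := by
    have b1 := mul_le_mul_of_nonneg_right (pw (i := 2) (j := 28) (by norm_num)) Y0.le
    have b2 := mul_le_mul_of_nonneg_right (pw (i := 0) (j := 28) (by norm_num)) Y0.le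
    have b3 : E ^ 28 * Y + E ^ 2 * Y + M.z S.jl * M.s S.jl ^ 2 + 1 / (m : ℝ) ^ 2 ≤
        E * (E ^ 28 * Y) := by
      have := mul_le_mul_of_nonneg_right (show 4 ≤ E by linarith) (show 0 ≤ E ^ 28 * Y by positivity)
      rw [pow_zero] at b2
      linarith
    refine (mul_le_mul gE b3 (by positivity) (by positivity)).trans ?_
    have := mul_le_mul_of_nonneg_right (pw (i := 33) (j := 99) (by norm_num)) Y0.le
    calc _ = E ^ 33 * Y := by ring
      _ ≤ _ := this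
  refine le_trans (H0 S M m a u (x / (4 * S.C)) (E ^ 28 * Y) (x ^ 7) (E ^ 2 * Y) (E ^ 100 * Y) _ c G
    a0 H.jj H.noW B.Cθ (by linarith) (by positivity) ?_ ?_ ?_ ?_ ?_ ?_ ?_ ?_ (by positivity) ?_ ?_
    (fin.trans_lt ?_)) fin
  · rw [div_le_iff₀ (by positivity)]; linarith
  · rw [mul_div_cancel₀ _ (by positivity)]; exact u1
  · linarith [H.b1]
  · simp only [KF.lo 0 (Nat.zero_le _), ct_lo (Nat.zero_le _), mul_zero, add_zero]
  · exact fun i j hij => add_le_add (Fm hij) (mul_le_mul_of_nonneg_left (cm hij) (by linarith))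
  · have b1 := H_le B c H hθ
    have b2 := KF.le
    have b3 := mul_le_mul_of_nonneg_left (pw (i := 51) (j := 100) (by norm_num)) w0
    have b4 : (u - u') * M.ct S S.Jp ≤ (u - u') * E := by
      rw [ct_mid c (by omega) le_rfl]; exact mul_le_mul_of_nonneg_left H.ckT (by linarith)
    have b5 := mul_nonneg w0 E0.le
    change M.H S.Jp + (F S.Jp + (u - u') * M.ct S S.Jp) + S.C ≤ _
    linarith
  · have b1 := sq3 c (f := M.G) (g := fun k => F k - u' * M.q k) (h := fun k => M.ck k - M.q k)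
      (r := u - u') (pow_le_one₀ (by linarith) (by linarith)) (F := (sh M u fun k => F k + (u - u') * M.ct S k).G)
      fun k h1 h2 => by rw [Gu71.sh_G, ct_mid c h1 h2]; ring
    have b2 := G_le B c H hθ
    have b3 := KF.res
    have b4 := H.ck
    have b5 : u' * (u' * E ^ 100) * Y ≤ 1 * 1 * Y :=
      mul_le_mul_of_nonneg_right (mul_le_mul w3 wE (by positivity) zero_le_one) Y0.le
    have b6 := mul_le_mul_of_nonneg_right (show 1 ≤ E by linarith) Y0.le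
    have b7 := mul_le_mul_of_nonneg_right (show 63 ≤ E by linarith) (show 0 ≤ E * Y by positivity)
    linarith
  · intro v F' h1 h2 h3 h4
    refine (V (E ^ 8) v F' (by simpa using pw (i := 0) (j := 8) (by norm_num))
      (pw (by norm_num)) h1 h2 h3 h4).trans (le_of_eq ?_)
    rw [hx]; field_simp
  · have b1 : √(E ^ 100 * Y) ≤ x ^ 4 := sqrt_le' (by positivity) (by
      rw [← pow_mul]; exact EY _ _ (by norm_num))
    have b2 : √(E ^ 2 * Y) ≤ x ^ 4 := sqrt_le' (by positivity) (by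
      rw [← pow_mul]; exact EY _ _ (by norm_num))
    have b3 : K * (√(E ^ 100 * Y) + √(E ^ 2 * Y) + M.z S.jl + 1 / m) ≤ E * (4 * x ^ 4) :=
      mul_le_mul hK (by linarith) (by positivity) E0.le
    refine b3.trans ?_
    rw [le_div_iff₀ (by positivity)]
    have b4 : E * (4 * x ^ 4) * (4 * S.C) = 16 * S.C * x ^ 3 * (E * x) := by ring
    have b5 : 16 * S.C * x ^ 3 ≤ E * x ^ 3 := mul_le_mul_of_nonneg_right (by linarith) (by positivity)
    have b6 : E * x ^ 3 = E * x * x ^ 2 := by ring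
    have b7 := px (i := 1) (j := 2) (by norm_num)
    rw [b6, xE] at b5
    rw [b4, xE]
    linarith
  · rw [div_le_iff₀ (by positivity)] at gE
    have b1 := mul_le_mul_of_nonneg_right gE (pow_pos x0 7).le
    have b2 : E ^ 4 * (x / (4 * S.C)) ^ 2 * x ^ 7 = (E * x) ^ 4 * ((x / (4 * S.C)) ^ 2 * x ^ 3) := by
      ring
    rw [b2, xE, one_pow, one_mul] at b1
    exact b1.trans (mul_le_of_le_one_right (by positivity) (pow_le_one₀ x0.le x1))
  · have := mul_lt_mul_of_pos_right (show 1 < E by linarith) (show 0 < E ^ 99 * Y by positivity)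
    calc _ = 1 * (E ^ 99 * Y) := by ring
      _ < _ := this
      _ = _ := by ring

end Crest.Agent.T156.Alt.Lin34

namespace Crest.Agent.T156.Alt.Sr

/-- **the linear range** -/
theorem linS2 : LinS2 := by
  choose K hK using Lin34.lin2
  exact C71.sr_intro K fun E _ S M m a l Ys Y c D h1 _ B cl hi H V A hD hθ u N u1 u2 hN =>
    hK S.C E S M m a l Ys Y c D u N rfl h1 B cl hi H V A (C71.Dr_nn B cl hD)
      (hD.2.trans (Real.rpow_le_one_of_one_le_of_nonpos (by exact_mod_cast cl.n1) (by norm_num)))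
      hθ u1 u2 hN

end Crest.Agent.T156.Alt.Sr

end
end

-- ▼ part T156/SrOut_46

/-!
# Row 156, soft recursion: the output from the linear and the terminal statement (helper46)
-/

set_option autoImplicit false

noncomputable section

namespace Crest.Agent.T156.Alt.Sr

open Real

theorem dblS : DblS := dblG invS remS


theorem out_of (K : ℕ) (hK : 1 ≤ K) (ht : Term K) : Out K :=
  srG2 Clk64.clkS invS dblS movS linS2 K hK ht




theorem srS2_of (ht : TermS2) : SrS2 := ht.imp fun K h => ⟨h.1, out_of K h.1 h.2⟩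


end Crest.Agent.T156.Alt.Sr

end
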