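import Crest.Agent.T156.AltFam_88
import Crest.Agent.T156.AltReg_29

/-!
# Row 156 (helper82): the tested stage is a chain of octaves and switches of the plateau data
-/

set_option autoImplicit false

noncomputable section

namespace Crest.Agent.T156.Alt

open Real Set Filter Topology

/-- the labels of `P`, the static data mixed between `P` and `P'` -/
def Pl.mix (P P' : Pl) (t : ℝ) : Pl :=
  ⟨P.I, P.x, fun x => (1 - t) * P.hs x + t * P'.hs x, fun x => (1 - t) * P.rs x + t * P'.rs x, 0⟩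

/-- an octave of the tested stage -/
structure Oct (p : Pm) (y0 y : ℝ) : Prop where
  lo : p.y1 ≤ y0
  le : y0 ≤ y
  two : y ≤ 2 * y0
  hi : y ≤ p.ye




theorem Stage.mono82 {n : ℕ} {s γ C δ δ' : ℝ} {M₀ : Md} {T : Set Md} (hs : 0 ≤ s) (h : δ ≤ δ')
    (H : Stage n s γ C δ M₀ T) : Stage n s γ C δ' M₀ T :=
  ⟨H.mem, H.leg, fun a a' Q w hQ hW m h1 h2 M hM => (H.lnk a a' Q w hQ hW m h1 h2 M hM).trans
    (by gcongr)⟩

theorem Go.mono82 {δ δ' : ℝ} {p : Pm} {M₀ M₁ : Md} (hs : 0 ≤ p.s) (h : δ ≤ δ')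
    (H : Go δ p M₀ M₁) : Go δ' p M₀ M₁ :=
  H.imp fun _ H => ⟨H.1.mono82 hs h, H.2⟩

theorem Go.trans82 {δ δ' : ℝ} {p : Pm} {M₀ M₁ M₂ : Md} (hs : 0 ≤ p.s) (_h : 0 ≤ δ) (h' : 0 ≤ δ')
    (H : Go δ p M₀ M₁) (H' : Go δ' p M₁ M₂) : Go (δ + δ') p M₀ M₂ := by
  obtain ⟨T, H, h1⟩ := H
  obtain ⟨T', H', h2⟩ := H'
  refine ⟨T ∪ T', ⟨Or.inl H.mem, fun M hM => hM.elim (H.leg M) (H'.leg M), ?_⟩, Or.inr h2⟩
  intro a a' Q w hQ hW m m1 m2 M hM
  have a1 := H.lnk a a' Q w hQ (fun M hM => hW M (Or.inl hM)) m m1 m2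
  have a2 := H'.lnk a a' Q w hQ (fun M hM => hW M (Or.inr hM)) m m1 m2
  have e : 0 ≤ (p.n : ℝ) ^ ((1 : ℝ) / 6) * (Q * p.s ^ 2 + p.s ^ 5) := by positivity
  rcases hM with hM | hM
  · refine (a1 M hM).trans ?_
    rw [mul_assoc, mul_assoc]
    exact mul_le_mul_of_nonneg_right (by linarith) e
  · have b1 := abs_le.1 (a1 M₁ h1)
    have b2 := abs_le.1 (a2 M hM)
    rw [abs_le, add_mul, add_mul]
    constructor <;> linarith [b1.1, b1.2, b2.1, b2.2]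



end Crest.Agent.T156.Alt

end
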