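import Crest.Agent.T156.PlW_13
import Crest.Agent.T156.TestDef_82

/-!
# Row 156, ALT: static marks of two comparable masses, mixtures (helper13)
-/

set_option autoImplicit false
set_option linter.unusedSectionVars false

noncomputable section

namespace Crest.Agent.T156.Alt.Plt13

open Real Set Finset
open Crest.Agent.T157.Nm

/-- the parameters of the masses `μ`, `μ'` agree up to a factor `2` -/
structure Cp (p : Pm) (μ μ' : ℝ) : Prop where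
  l1 : p.la μ' ≤ 2 * p.la μ
  l2 : p.la μ ≤ 2 * p.la μ'
  V1 : p.Vc μ' ≤ 2 * p.Vc μ
  V2 : p.Vc μ ≤ 2 * p.Vc μ'
  s1 : √(p.u2 μ') ≤ 2 * √(p.u2 μ)
  s2 : √(p.u2 μ) ≤ 2 * √(p.u2 μ')
  u1 : u0 p μ' ≤ 2 * u0 p μ
  u2 : u0 p μ ≤ 2 * u0 p μ'

theorem Cp.symm {p : Pm} {μ μ' : ℝ} (c : Cp p μ μ') : Cp p μ' μ :=
  ⟨c.l2, c.l1, c.V2, c.V1, c.s2, c.s1, c.u2, c.u1⟩

theorem cp_half {p : Pm} {μ μ' : ℝ} (hn : (0 : ℝ) < p.n) (h0 : 0 < μ) (h0' : 0 < μ')
    (h1 : μ' ≤ 4 * μ) (h2 : μ ≤ 4 * μ') : p.la μ' ≤ 2 * p.la μ ∧ p.Vc μ' ≤ 2 * p.Vc μ ∧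
      √(p.u2 μ') ≤ 2 * √(p.u2 μ) ∧ u0 p μ' ≤ 2 * u0 p μ := by
  have En := Eb.log hn
  have E2 := Eb.log (two_pos (α := ℝ))
  have E4 : Eb 4 (2 * log 2) := by
    have := E2.pow (k := 2)
    norm_num at this ⊢
    exact this
  have l2 : 0 < log (2 : ℝ) := log_pos one_lt_two
  have Eμ := Eb.log h0
  have Eμ' := Eb.log h0'
  have a1 := (Eμ'.le_iff (E4.mul Eμ)).1 h1
  have a2 := (Eμ.le_iff (E4.mul Eμ')).1 h2
  have Em : Eb (p.mu' μ) _ := Eμ.mul (En.rpow (y := (1 : ℝ) / 3))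
  have El : Eb (p.la μ) _ := En.rpow.mul (Em.rpow.min Em.rpow)
  have EV : Eb (p.Vc μ) _ := En.rpow.mul (Eb.one.max Em.rpow)
  have Eu : Eb (p.u2 μ) _ := En.rpow.div ((En.mul Eμ).mul EV)
  have Em' : Eb (p.mu' μ') _ := Eμ'.mul (En.rpow (y := (1 : ℝ) / 3))
  have El' : Eb (p.la μ') _ := En.rpow.mul (Em'.rpow.min Em'.rpow)
  have EV' : Eb (p.Vc μ') _ := En.rpow.mul (Eb.one.max Em'.rpow)
  have Eu' : Eb (p.u2 μ') _ := En.rpow.div ((En.mul Eμ').mul EV')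
  have E0 : Eb (u0 p μ) _ := El.rpow
  have E0' : Eb (u0 p μ') _ := El'.rpow
  have m1 := min_cases (-(1 : ℝ) / 3 * (log μ + (1 : ℝ) / 3 * log p.n))
    (-(1 : ℝ) / 2 * (log μ + (1 : ℝ) / 3 * log p.n))
  have m2 := min_le_left (-(1 : ℝ) / 3 * (log μ' + (1 : ℝ) / 3 * log p.n))
    (-(1 : ℝ) / 2 * (log μ' + (1 : ℝ) / 3 * log p.n))
  have m3 := min_le_right (-(1 : ℝ) / 3 * (log μ' + (1 : ℝ) / 3 * log p.n))
    (-(1 : ℝ) / 2 * (log μ' + (1 : ℝ) / 3 * log p.n))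
  have x1 := max_cases 0 (-(1 : ℝ) / 3 * (log μ + (1 : ℝ) / 3 * log p.n))
  have x2 := max_cases 0 (-(1 : ℝ) / 3 * (log μ' + (1 : ℝ) / 3 * log p.n))
  refine ⟨?_, ?_, ?_, ?_⟩
  · rw [El'.le_iff (E2.mul El)]
    rcases m1 with ⟨e, _⟩ | ⟨e, _⟩ <;> rw [e] <;> linarith
  · rw [EV'.le_iff (E2.mul EV)]
    rcases x1 with ⟨e, _⟩ | ⟨e, _⟩ <;> rcases x2 with ⟨e', _⟩ | ⟨e', _⟩ <;> rw [e, e'] <;> linarith
  · rw [Eu'.sqrt.le_iff (E2.mul Eu.sqrt)]
    rcases x1 with ⟨e, _⟩ | ⟨e, _⟩ <;> rcases x2 with ⟨e', _⟩ | ⟨e', _⟩ <;> rw [e, e'] <;> linarith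
  · rw [E0'.le_iff (E2.mul E0)]
    rcases m1 with ⟨e, _⟩ | ⟨e, _⟩ <;> rw [e] <;> linarith

/-- **masses within a factor `4` are comparable** -/
theorem cp_of {p : Pm} {μ μ' : ℝ} (hn : (0 : ℝ) < p.n) (h0 : 0 < μ) (h0' : 0 < μ')
    (h1 : μ' ≤ 4 * μ) (h2 : μ ≤ 4 * μ') : Cp p μ μ' := by
  have a := cp_half hn h0 h0' h1 h2
  have b := cp_half hn h0' h0 h2 h1
  exact ⟨a.1, b.1, a.2.1, b.2.1, a.2.2.1, b.2.2.1, a.2.2.2, b.2.2.2⟩

theorem log_mul_le {t t' : ℝ} (ht : 0 ≤ t) (ht' : 0 ≤ t') (k : ℕ) (h : t' ≤ k * t) :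
    log (1 + t') ≤ k * log (1 + t) := by
  rw [← log_pow]
  exact log_le_log (by linarith) (by linarith [one_add_mul_le_pow (by linarith : -2 ≤ t) k])

theorem dt_cp {V l V' l' u : ℝ} (hV : 0 < V) (hl : 0 < l) (hV' : 0 < V') (hl' : 0 < l') (hu : 0 < u)
    (h1 : V' ≤ 2 * V) (h2 : l' ≤ 2 * l) : dt V' l' u ≤ 2 * dt V l u := by
  have s := sqrt_pos.2 hu
  unfold dt
  rw [← mul_div_assoc, div_le_div_iff₀ (by positivity) (by positivity)]
  have a := mul_le_mul_of_nonneg_left h2 (by positivity : 0 ≤ V' * V * √u * u)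
  have b := mul_le_mul_of_nonneg_left h1 (by positivity : 0 ≤ l' * l * u)
  nlinarith

theorem ft_cp {V l V' l' : ℝ} (hV : 0 < V) (hl : 0 < l) (hV' : 0 < V') (hl' : 0 < l') (u : ℝ)
    (h1 : V' ≤ 2 * V) (h1' : V ≤ 2 * V') (h2 : l' ≤ 2 * l) : ft V' l' u ≤ 8 * ft V l u := by
  have a : l' / (V' * √u) ≤ (4 : ℕ) * (l / (V * √u)) := by
    rw [← div_div, ← div_div, ← mul_div_assoc]
    refine div_le_div_of_nonneg_right ?_ (sqrt_nonneg u)
    rw [← mul_div_assoc, div_le_div_iff₀ hV' hV]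
    push_cast
    nlinarith [mul_le_mul h2 h1' hV.le (by positivity)]
  have b := log_mul_le (by positivity) (by positivity) 4 a
  have c : 0 ≤ log (1 + l' / (V' * √u)) := log_nonneg (le_add_of_nonneg_right (by positivity))
  have d := mul_le_mul h1 b c (by positivity)
  unfold ft
  push_cast at d
  linarith

section cp
variable {p : Pm} {μ μ' : ℝ} (h : Nm p μ) (h' : Nm p μ') (c : Cp p μ μ')
include h h' c

/-- densities are comparable -/
theorem dn_cp (x : ℝ) : dn p μ' x ≤ 6 * dn p μ x := by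
  by_cases hx : p.xs ≤ x ∧ x < 1
  swap
  · unfold dn den; rw [if_neg hx, if_neg hx]; norm_num
  have pA : 0 < x - p.xs + u0 p μ := by linarith [h.u0p, hx.1]
  have pA' : 0 < x - p.xs + u0 p μ' := by linarith [h'.u0p, hx.1]
  have pu : 0 < 1 - x := by linarith [hx.2]
  have a : db (p.la μ') (x - p.xs + u0 p μ') ≤ 2 * db (p.la μ) (x - p.xs + u0 p μ') := by
    have := sqrt_pos.2 pA'
    unfold db
    rw [← mul_div_assoc]
    exact div_le_div_of_nonneg_right c.l1 (by positivity)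
  have a0 := db_pos h.lp pA
  have a' : db (p.la μ) (x - p.xs + u0 p μ') ≤ 3 * db (p.la μ) (x - p.xs + u0 p μ) := by
    rcases le_total (u0 p μ) (u0 p μ') with e | e
    · linarith [(db_shell h.lp.le pA (A' := x - p.xs + u0 p μ') (by linarith)
        (by linarith [c.u1, hx.1])).1]
    · exact (db_shell h.lp.le pA' (A' := x - p.xs + u0 p μ) (by linarith)
        (by linarith [c.u2, hx.1])).2
  have b := dt_cp h.Vp h.lp h'.Vp h'.lp pu c.V1 c.l1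
  have d := dt_cp one_pos h.sp one_pos h'.sp pu (by norm_num) c.s1
  have b0 := dt_nn h.Vp h.lp.le pu
  have d0 := dt_nn one_pos h.sp.le pu
  unfold dn
  rw [den_eq hx.1 hx.2, den_eq hx.1 hx.2]
  linarith

/-- envelopes are comparable -/
theorem env_cp {x : ℝ} (hx : p.xs ≤ x) : env p μ' x ≤ 8 * env p μ x := by
  have pA : 0 < x - p.xs + u0 p μ := by linarith [h.u0p]
  have pA' : 0 < x - p.xs + u0 p μ' := by linarith [h'.u0p]
  have s := sqrt_pos.2 pA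
  have s' := sqrt_pos.2 pA'
  have r := sqrt_two_mul pA'.le (A' := x - p.xs + u0 p μ) (by linarith [c.u2])
  have a : fb (p.la μ') (x - p.xs + u0 p μ') ≤ 3 * fb (p.la μ) (x - p.xs + u0 p μ) := by
    unfold fb
    rw [← mul_div_assoc, div_le_div_iff₀ s' s]
    nlinarith [mul_le_mul c.l1 r s.le (by linarith [h.lp])]
  have a0 : 0 ≤ fb (p.la μ) (x - p.xs + u0 p μ) := div_nonneg h.lp.le s.le
  have b := ft_cp h.Vp h.lp h'.Vp h'.lp (1 - x) c.V1 c.V2 c.l1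
  have d := ft_cp one_pos h.sp one_pos h'.sp (1 - x) (by norm_num) (by norm_num) c.s1
  unfold env
  linarith

theorem abs_rF_cp {x : ℝ} (hx : p.xs ≤ x) (h1 : x < 1) : |p.rF μ' x| ≤ 8 * env p μ x :=
  (h'.abs_rF_env hx h1).trans (env_cp h h' c hx)

/-- below `xs` -/
theorem rF_zero_cp {x : ℝ} (h1 : x ≤ 1 / 2) (h2 : x + 2 * log p.n * u0 p μ ≤ p.xs) :
    p.rF μ' x = 0 :=
  h'.rF_zero h1 (by nlinarith [c.u1, h.l1])

theorem rF_bd_cp {x : ℝ} (hx : x < 1) :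
    -(2 * u0 p μ) ≤ p.rF μ' x ∧ p.rF μ' x ≤ 4 * (p.la μ / √(1 - x)) := by
  have a := h'.rF_bd hx
  have b := div_le_div_of_nonneg_right c.l1 (sqrt_nonneg (1 - x))
  rw [mul_div_assoc] at b
  exact ⟨by linarith [a.1, c.u1], by linarith [a.2.2]⟩

variable {P : Pl} (H : p.PlOk μ P)
include H

/-- the grid of `μ` is a shell grid of `μ'` -/
theorem shg_cp : Shg p μ' P.x P.I := by
  refine ⟨H.x0.ge, fun i _ => H.xm.monotone (Nat.le_succ i), H.e1, fun i hi => le_min ?_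
    (le_min_iff.1 (x_shell h H hi)).2⟩
  have a := (x_plat h H hi).2
  have g := x_ge h H i
  have l := x_lt h H hi.le
  have pA : 0 < P.x i - p.xs + u0 p μ := by linarith [h.u0p]
  have s := sqrt_pos.2 pA
  have s2 : √(P.x i - p.xs + u0 p μ) ≤ 2 := by
    rw [sqrt_le_left (by norm_num)]; linarith [h.u0_le, h.x0]
  have b : p.la μ / 4 ≤ db (p.la μ) (P.x i - p.xs + u0 p μ) * (P.x i - p.xs + u0 p μ) := by
    have e : db (p.la μ) (P.x i - p.xs + u0 p μ) * (P.x i - p.xs + u0 p μ) =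
        p.la μ / (2 * √(P.x i - p.xs + u0 p μ)) := by unfold db; field_simp
    rw [e]
    exact div_le_div_of_nonneg_left h.lp.le (by positivity) (by linarith)
  have d : db (p.la μ) (P.x i - p.xs + u0 p μ) ≤ dn p μ (P.x i) := by
    unfold dn
    rw [den_eq g l]
    linarith [dt_nn h.Vp h.lp.le (u := 1 - P.x i) (by linarith),
      dt_nn one_pos h.sp.le (u := 1 - P.x i) (by linarith)]
  have d0 := h.den0 (P.x i)
  have e : (P.x (i + 1) - P.x i) * dn p μ (P.x i) ≤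
      (P.x i - p.xs + u0 p μ) / 2 * dn p μ (P.x i) := by
    nlinarith [mul_le_mul_of_nonneg_right d pA.le, h.vn, h.nl, h.v0]
  linarith [le_of_mul_le_mul_right e d0, c.u2]

/-- **increments of `rF μ'` on the grid of `μ`** -/
theorem step_cp {i : ℕ} (hi : i < P.I) :
    p.v / 18252 ≤ p.rF μ' (P.x (i + 1)) - p.rF μ' (P.x i) ∧
      p.rF μ' (P.x (i + 1)) - p.rF μ' (P.x i) ≤ 18252 * p.v := by
  have G := shg_cp h h' c H
  have s := h'.clw.slope _ _ (G.ge hi.le) (G.mono i hi) (G.lt h' hi) (G.sh i hi)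
  have a := x_plat h H hi
  have d := sub_nonneg.2 (G.mono i hi)
  have e1 := mul_le_mul_of_nonneg_right (dn_cp h h' c (P.x i)) d
  have e2 := mul_le_mul_of_nonneg_right (dn_cp h' h c.symm (P.x i)) d
  constructor <;> linarith [s.1, s.2, a.1, a.2]

variable {P' : Pl} (H' : p.PlOk μ' P') {t : ℝ} (t0 : 0 ≤ t) (t1 : t ≤ 1)
include H' t0 t1





end cp


end Crest.Agent.T156.Alt.Plt13

end
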