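import Crest.Agent.T156.ErrM_35
import Crest.Agent.T156.SrN_66

/-!
# Row 156: the two block inequalities of `ErrM_35` on the graded family (helper35)
-/

set_option autoImplicit false
set_option linter.unusedSectionVars false

noncomputable section

namespace Crest.Agent.T156.Alt

open Real Set
open Crest.Agent.T156.Cas.C40 (NB)

namespace Pm

variable (p : Pm)

/-- majorant of the density of the test measure -/
def lamG (σ t : ℝ) : ℝ := p.κ * min (min t p.ye) (σ * √(min t p.ye))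
/-- the budget -/
def dlG : ℝ := (p.n : ℝ) ^ (-(5 : ℝ) / 6 - p.c / 30) * p.s ^ 5
/-- the size of a block of the level `t` -/
def AlG (σ L l t al : ℝ) : Prop :=
  (al ^ 2 ≤ L * (max t l / (p.n * t * p.msG σ t)) ∧ al ^ 2 ≤ L * (t ^ 2 * max t l ^ 2)) ∨
  (p.ye ≤ t ∧ al ^ 2 ≤ (p.n : ℝ) ^ ((1 : ℝ) / 10) / (p.n * p.muG σ))

theorem lamG_mono {p : Pm} (hκ : 0 ≤ p.κ) {σ : ℝ} (hσ : 0 ≤ σ) : Monotone (p.lamG σ) :=
  fun _ _ h => mul_le_mul_of_nonneg_left (min_le_min (min_le_min_right _ h)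
    (mul_le_mul_of_nonneg_left (sqrt_le_sqrt (min_le_min_right _ h)) hσ)) hκ

theorem lamG_le {p : Pm} (hκ : 0 ≤ p.κ) {σ : ℝ} (hσ : 0 ≤ σ) (t : ℝ) :
    p.lamG σ t ≤ p.lamG σ p.ye := by
  rcases le_total t p.ye with h | h
  · exact lamG_mono hκ hσ h
  · rw [lamG, lamG, min_eq_right h, min_self]

end Pm

namespace Reg

variable {β c0 C0 : ℝ} {A : ℕ} {c η K : ℝ} {p : Pm} (H : Reg β c0 C0 A c η K p)
  {σ E ε L l t al : ℝ}
include H

theorem lamG_pos (M : p.MemG σ) (ht : 0 < t) : 0 < p.lamG σ t := by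
  have h := lt_min ht H.ye0
  exact mul_pos H.κ0 (lt_min h (mul_pos (H.sgG_pos M) (sqrt_pos.2 h)))

theorem lg_lamG (M : p.MemG σ) (ht : 0 < t) :
    logb p.n (p.lamG σ t) ≤ -c + logb p.n t ∧ logb p.n (p.lamG σ t) ≤ -(4 * c) ∧
    logb p.n (p.lamG σ t) ≤ -c + logb p.n σ + logb p.n t / 2 ∧
    logb p.n (p.lamG σ t) ≤ logb p.n σ - 5 / 2 * c := by
  have h := lt_min ht H.ye0
  have a1 := H.sgG_pos M
  have a4 : 0 < σ * √(min t p.ye) := mul_pos a1 (sqrt_pos.2 h)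
  have e : logb p.n (p.lamG σ t) = -c + min (logb p.n (min t p.ye))
      (logb p.n σ + logb p.n (min t p.ye) / 2) := by
    rw [Pm.lamG, logb_mul H.κ0.ne' (lt_min h a4).ne', H.lg_κ, lg_min H.N1 h a4,
      logb_mul a1.ne' (sqrt_pos.2 h).ne', lg_sqrt _ h.le]
  have b1 := H.lg_mono h (min_le_left _ _)
  have b2 := H.lg_mono h (min_le_right _ _)
  rw [H.lg_ye] at b2
  have d1 := min_le_left (logb p.n (min t p.ye)) (logb p.n σ + logb p.n (min t p.ye) / 2)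
  have d2 := min_le_right (logb p.n (min t p.ye)) (logb p.n σ + logb p.n (min t p.ye) / 2)
  exact ⟨by linarith, by linarith, by linarith, by linarith⟩

theorem dlG_pos : 0 < p.dlG := mul_pos (Pre29.rp_pos H.n1 _) (pow_pos H.s0 5)

theorem lg_dlG : logb p.n p.dlG = -(5 / 6) - c / 30 + 5 * logb p.n p.s := by
  have := H.s0
  have := H.N0
  rw [Pm.dlG]; lg_norm; rw [H.lg_n, H.hc]; ring


/-- exponent form of `AlG` -/
theorem lg_AlG (M : p.MemG σ) (L1 : 1 ≤ L) (L2 : L ≤ (p.n : ℝ) ^ ε) (l0 : 0 < l) (t0 : 0 < t)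
    (a0 : 0 < al) (h : p.AlG σ L l t al) :
    (2 * logb p.n al ≤ ε + max (logb p.n t) (logb p.n l) - 1 - logb p.n t -
        logb p.n (p.msG σ t) ∧
      2 * logb p.n al ≤ ε + 2 * logb p.n t + 2 * max (logb p.n t) (logb p.n l)) ∨
    (-(3 * c) ≤ logb p.n t ∧ 2 * logb p.n al ≤ 1 / 10 - 1 - logb p.n (p.muG σ)) := by
  have L0 : 0 < L := by linarith
  have e2 := H.lg_mono L0 L2
  rw [H.lg_rp] at e2
  have m0 : 0 < max t l := lt_max_of_lt_left t0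
  have := H.N0
  have := H.msG_pos M t
  have := H.muG_pos M
  have em := lg_max H.N1 t0 l0
  rcases h with ⟨h1, h2⟩ | ⟨h1, h2⟩
  · have k1 := H.lg_mono (pow_pos a0 2) h1
    have k2 := H.lg_mono (pow_pos a0 2) h2
    revert k1 k2
    lg_norm
    rw [H.lg_n, em]
    exact fun k1 k2 => Or.inl ⟨by linarith, by linarith⟩
  · have k1 := H.lg_mono H.ye0 h1
    have k2 := H.lg_mono (pow_pos a0 2) h2
    revert k2
    lg_norm
    rw [H.lg_n]
    rw [H.lg_ye] at k1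
    exact fun k2 => Or.inr ⟨k1, by linarith⟩

variable (hc : c ≤ 1 / 1000) (hη : η ≤ ε) (hε : 1000 * ε ≤ c) (M : p.MemG σ) (E1 : 1 ≤ E)
  (E2 : E ≤ (p.n : ℝ) ^ ε) (L1 : 1 ≤ L) (L2 : L ≤ (p.n : ℝ) ^ ε) (l0 : 0 < l)
  (hl : l ^ 3 ≤ (p.n : ℝ) ^ ε * p.PhS E σ) (t1 : (p.n : ℝ) ^ (c / 14 - 1 / 6) ≤ t) (t2 : t ≤ L)
  (a0 : 0 ≤ al) (h : p.AlG σ L l t al)
include hc hη hε M E1 E2 L1 L2 l0 hl t1 t2 a0 h



end Reg

namespace Reg

variable {β c0 C0 : ℝ} {A : ℕ} {c η K : ℝ} {p : Pm} (H : Reg β c0 C0 A c η K p) {σ E ε L l : ℝ}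
include H


end Reg

end Crest.Agent.T156.Alt

end
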