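import Crest.Agent.T156.ErrP_35
import Crest.Agent.T156.CInR_12
import Crest.Agent.T156.ErrRD_35

-- ▼ part T156/ErrU_35
section

/-!
# Row 156: the polynomial `Pe` against one budget (helper35)
-/

set_option autoImplicit false

noncomputable section

namespace Crest.Agent.T156.Cas.C40

/-- natural sizes `θ l Φ N V4`, loss `Λ`, budget `d` -/
structure PeH (Λ d θ l Φ N V4 B V N' Φ' L F X n dI U S2 S3 r F' W a1 a2 dW UW S1 S4 S5 : ℝ) :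
    Prop where
  Λ1 : 1 ≤ Λ
  θ0 : 0 ≤ θ
  Φ0 : 0 ≤ Φ
  ΦN : Φ ≤ N
  V40 : 0 ≤ V4
  n0 : 0 < n
  nn : 0 ≤ B ∧ 0 ≤ V ∧ 0 ≤ N' ∧ 0 ≤ Φ' ∧ 0 ≤ L ∧ 0 ≤ F ∧ 0 ≤ X ∧ 0 ≤ F' ∧ 0 ≤ W ∧ 0 ≤ a1 ∧ 0 ≤ a2
  nn' : 0 ≤ dI ∧ 0 ≤ U ∧ 0 ≤ S2 ∧ 0 ≤ S3 ∧ 0 ≤ r ∧ 0 ≤ S4 ∧ 0 ≤ S5
  hB : B ≤ Λ
  hV : V ≤ Λ
  hN : N' ≤ Λ * N
  hΦ : Φ' ≤ Λ * Φ
  hL : L ≤ Λ * Φ
  hF : F ≤ Λ * N
  X3 : X ^ 3 ≤ Λ * Φ
  X2 : X ^ 2 ≤ Λ * l ^ 2
  hI : dI ≤ Λ * (1 / n)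
  hU : U ≤ Λ * (Φ * l ^ 2 + V4)
  hS2 : S2 ≤ Λ * Φ
  hr : r ≤ Φ
  hW : W ≤ Λ * θ
  hdW : dW ≤ Λ * d
  hUW : UW ≤ Λ * d
  hS1 : S1 ≤ Λ * d
  hS3 : θ * S3 ≤ Λ * d
  hS4 : N * S4 ≤ Λ * d
  hS5 : Φ * S5 ≤ Λ * d
  ha1 : Φ * a1 ≤ Λ * d
  hF' : Φ * F' ≤ Λ * d
  ha2 : N * a2 ≤ Λ * d
  l5 : θ * (Φ * l ^ 2) ≤ d
  l6 : θ * Φ ^ 2 ≤ d
  ln : θ * (1 / n) ≤ d
  l4 : θ * V4 ≤ d
  l3 : θ * (Φ * N) ≤ d

theorem PeH.le {Λ d θ l Φ N V4 B V N' Φ' L F X n dI U S2 S3 r F' W a1 a2 dW UW S1 S4 S5 : ℝ}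
    (h : PeH Λ d θ l Φ N V4 B V N' Φ' L F X n dI U S2 S3 r F' W a1 a2 dW UW S1 S4 S5) :
    Pe B V N' Φ' L F X n dI U S2 S3 r F' W a1 a2 dW UW S1 S4 S5 ≤ 200 * (Λ ^ 5 * d) := by
  obtain ⟨B0, V0, N0', Φ0', L0, F0, X0, F0', W0, a10, a20⟩ := h.nn
  obtain ⟨I0, U0, S20, S30, r0, S40, S50⟩ := h.nn'
  have Λ1 := h.Λ1
  have Λ0 : 0 ≤ Λ := zero_le_one.trans Λ1
  have θ0 := h.θ0
  have Φ0 := h.Φ0
  have N0 : 0 ≤ N := Φ0.trans h.ΦN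
  have V40 := h.V40
  have n0 := h.n0
  have d0 : 0 ≤ d := (mul_nonneg θ0 V40).trans h.l4
  have p : ∀ i : ℕ, i ≤ 5 → Λ ^ i * d ≤ Λ ^ 5 * d := fun i hi =>
    mul_le_mul_of_nonneg_right (pow_le_pow_right₀ Λ1 hi) d0
  have k : ∀ {x y : ℝ} (i : ℕ), 0 ≤ x → x ≤ Λ ^ i * y → θ * y ≤ d → W * x ≤ Λ ^ (i + 1) * d :=
    fun {x y} i x0 hx hy =>
    calc W * x ≤ Λ * θ * (Λ ^ i * y) := mul_le_mul h.hW hx x0 (by positivity)
      _ = Λ ^ (i + 1) * (θ * y) := by ring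
      _ ≤ _ := mul_le_mul_of_nonneg_left hy (by positivity)
  have k' : ∀ {x y z : ℝ}, 0 ≤ z → x ≤ Λ * y → y * z ≤ Λ * d → x * z ≤ Λ ^ 2 * d :=
    fun {x y z} z0 hx hy =>
    calc x * z ≤ Λ * y * z := mul_le_mul_of_nonneg_right hx z0
      _ = Λ * (y * z) := by ring
      _ ≤ Λ * (Λ * d) := mul_le_mul_of_nonneg_left hy Λ0
      _ = _ := by ring
  have m : ∀ {x y x' y' : ℝ}, 0 ≤ y → 0 ≤ x' → x ≤ Λ * x' → y ≤ Λ * y' →
      x * y ≤ Λ ^ 2 * (x' * y') := fun {x y x' y'} y0 x0 hx hy =>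
    (mul_le_mul hx hy y0 (by positivity)).trans_eq (by ring)
  have b1 := k (x := X ^ 3 * X ^ 3) (y := Φ ^ 2) 2 (by positivity)
    ((m (pow_nonneg X0 3) Φ0 h.X3 h.X3).trans_eq (by ring)) h.l6
  have b2 := k (x := X ^ 2 * L) (y := Φ * l ^ 2) 2 (by positivity)
    ((m L0 (sq_nonneg l) h.X2 h.hL).trans_eq (by ring)) h.l5
  have b3 := k (x := 1 / n) 0 (by positivity) (by simp) h.ln
  have b4 := k (x := dI) 1 I0 (by rw [pow_one]; exact h.hI) h.ln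
  have b5 : W * U ≤ 2 * (Λ ^ 2 * d) :=
    calc W * U ≤ Λ * θ * (Λ * (Φ * l ^ 2 + V4)) := mul_le_mul h.hW h.hU U0 (by positivity)
      _ = Λ ^ 2 * (θ * (Φ * l ^ 2) + θ * V4) := by ring
      _ ≤ Λ ^ 2 * (d + d) := mul_le_mul_of_nonneg_left (add_le_add h.l5 h.l4) (by positivity)
      _ = _ := by ring
  have b6 := k' a10 h.hS2 h.ha1
  have b7 := k' S30 h.hW h.hS3
  have b8 := k 2 (mul_nonneg S20 N0') (m N0' Φ0 h.hS2 h.hN) h.l3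
  have b9 := k' S40 h.hN h.hS4
  have b10 := k' S50 h.hΦ h.hS5
  have c1 : r * F' ≤ Λ * d := (mul_le_mul_of_nonneg_right h.hr F0').trans h.hF'
  have c2 := k (x := r * F) (y := Φ * N) 1 (mul_nonneg r0 F0)
    ((mul_le_mul h.hr h.hF F0 Φ0).trans_eq (by ring)) h.l3
  have v1 : 1 + V ≤ 2 * Λ := by linarith [h.hV]
  have c3 : r * ((1 + V) * (2 * F' + 2 * B * F * W)) ≤ 2 * Λ * (2 * (Λ * d) + 2 * Λ * (Λ ^ 2 * d)) :=
    calc _ = (1 + V) * (2 * (r * F') + 2 * B * (W * (r * F))) := by ring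
      _ ≤ _ := mul_le_mul v1 (add_le_add (by linarith) (mul_le_mul (by linarith [h.hB]) c2
          (by positivity) (by positivity))) (by positivity) (by positivity)
  have e1 := k 2 (mul_nonneg L0 N0') (m N0' Φ0 h.hL h.hN) h.l3
  have e2 := k 2 (mul_nonneg L0 F0) (m F0 Φ0 h.hL h.hF) h.l3
  have e3 := k 2 (mul_nonneg Φ0' N0') (m N0' Φ0 h.hΦ h.hN) h.l3
  have e4 := k 2 (mul_nonneg Φ0' F0) (m F0 Φ0 h.hΦ h.hF) h.l3
  have e5 := k (y := Φ ^ 2) 2 (mul_nonneg L0 Φ0') ((m Φ0' Φ0 h.hL h.hΦ).trans_eq (by ring)) h.l6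
  have e6 := k' a10 h.hL h.ha1
  have e7 := k' F0' h.hL h.hF'
  have e8 := k' a10 h.hΦ h.ha1
  have e9 := k' F0' h.hΦ h.hF'
  have e10 := k' a20 (h.hL.trans (mul_le_mul_of_nonneg_left h.ΦN Λ0)) h.ha2
  have e11 := k' a20 h.hN h.ha2
  have e12 := k' a20 h.hF h.ha2
  have q23 : Λ ^ 2 * d ≤ Λ ^ 3 * d :=
    mul_le_mul_of_nonneg_right (pow_le_pow_right₀ Λ1 (by norm_num)) d0
  have e : W * ((L + Φ') * (N' + F) + L * Φ') + (L + Φ') * (a1 + F') + (L + N' + F) * a2 ≤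
      12 * (Λ ^ 3 * d) := by
    linear_combination e1 + e2 + e3 + e4 + e5 + e6 + e7 + e8 + e9 + e10 + e11 + e12 + 7 * q23
  have f : 7 * B * (1 + V) * (W * ((L + Φ') * (N' + F) + L * Φ') + (L + Φ') * (a1 + F') +
      (L + N' + F) * a2) ≤ 7 * Λ * (2 * Λ) * (12 * (Λ ^ 3 * d)) :=
    mul_le_mul (mul_le_mul (by linarith [h.hB]) v1 (by positivity) (by positivity)) e
      (by positivity) (by positivity)
  have p1 := p 1 (by norm_num)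
  have p2 := p 2 (by norm_num)
  have p3 := p 3 (by norm_num)
  have p4 := p 4 (by norm_num)
  have p0 : 0 ≤ Λ ^ 5 * d := by positivity
  unfold Pe
  linear_combination b1 + b2 + b3 + b4 + b5 + b6 + b7 + b8 + b9 + 2 * b10 + c3 + f + h.hdW +
    h.hUW + h.hS1 + 4 * p1 + 12 * p2 + 3 * p3 + 4 * p4 + 9 * p0

end Crest.Agent.T156.Cas.C40

end
end

-- ▼ part T156/CInT_12
section

/-!
# Row 156, block C: `Ok0`, `BD`, `Den`, `Tc`, `Nz` of a test datum from the kits (helper12)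
-/

set_option autoImplicit false
set_option linter.unusedSectionVars false

noncomputable section

namespace Crest.Agent.T156.Alt.CIn12

open MeasureTheory Real Finset
open Crest.Agent.T156.Cas Crest.Agent.T156.Cas.C40 Crest.Agent.T156.Alt.Md67
open Crest.Agent.T156.Alt.R62 Crest.Agent.T156.Alt.Lb24 Crest.Agent.T156.Cas.C40.ErrL

variable {S : Sc} {M : Md} {m : ℕ} {a : ℝ} {J : ℕ}

/-- the sums over the nodes `T` above the cut -/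
structure Nm (M : Md) (m : ℕ) (a : ℝ) (T : Finset ℕ) (f γ G : ℕ → ℝ)
    (n1 n2 n4 b0 b1 b2 b4 c0 c1 c2 d1 d2 dm : ℝ) : Prop where
  n1 : ∑ k ∈ T, M.dz m a k * G k ≤ n1
  n2 : ∑ k ∈ T, M.dz m a k * G k ^ 2 ≤ n2
  n4 : ∑ k ∈ T, M.dz m a k * G k ^ 4 ≤ n4
  b0 : ∑ k ∈ T, M.dz m a k * |f k| ≤ b0
  b1 : ∑ k ∈ T, M.dz m a k * (|f k| * G k) ≤ b1
  b2 : ∑ k ∈ T, M.dz m a k * (|f k| * G k ^ 2) ≤ b2
  b4 : ∑ k ∈ T, M.dz m a k * (|f k| * G k ^ 4) ≤ b4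
  c0 : ∑ k ∈ T, M.dz m a k * (|f k| * γ k) ≤ c0
  c1 : ∑ k ∈ T, M.dz m a k * (|f k| * (γ k * G k)) ≤ c1
  c2 : ∑ k ∈ T, M.dz m a k * (|f k| * (γ k * G k ^ 2)) ≤ c2
  d1 : ∑ k ∈ T, M.dz m a k * (γ k * G k) ≤ d1
  d2 : ∑ k ∈ T, M.dz m a k * (γ k * G k ^ 2) ≤ d2
  dm : ∀ k ∈ T, M.dz m a k ≤ dm

/-- the test datum with density `f` and the envelopes of the kits -/
abbrev dK (S : Sc) (M : Md) (m : ℕ) (a : ℝ) (J : ℕ) (lam l : ℝ) (f G : ℕ → ℝ) (B : ℕ)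
    (lev : ℕ → ℕ) (al ab : ℕ → ℝ) : CD :=
  cd M m a M.q J (some fun k => M.dz m 0 k * f k)
    (evK S M m a J (some fun k => M.dz m 0 k * f k) lam l G (fun k => ph B al (lev k))
      fun k => ph B (fun i => ab i * al i) (lev k))

/-- the low number -/
def lowL (τ0 X tl : ℝ) : ℝ := (2 * τ0 ^ 2 + 1) * X ^ 3 + (15 * τ0 ^ 2 + 2) * √tl + 2 * tl

theorem ph_Sg {B : ℕ} {al : ℕ → ℝ} (h : ∀ i, 0 ≤ al i) (i : ℕ) : ph B al i ≤ Sg B al := by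
  rw [Sg, range_eq_Ico]; exact ph_anti h (Nat.zero_le i)

section
variable {ρ f : ℕ → ℝ} {W : Option (ℕ → ℝ)} {E : Ev} (L : Lg M m a)
include L

theorem dz0 {k : ℕ} (hk : 1 ≤ k) : M.dz m 0 k = M.dz m a k := by
  obtain ⟨k, rfl⟩ : ∃ j, k = j + 1 := ⟨k - 1, by omega⟩
  rw [dz_succ L.toLeg, dz_succ L.toLeg]

theorem I_le {F g : ℕ → ℝ} {c x : ℝ} (hc : 0 ≤ c)
    (h : ∀ k, J ≤ k → k < M.N → M.dz m a k ≠ 0 → F (k + 1) ≤ c * g k)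
    (hx : ∑ k ∈ Ico J M.N, M.dz m a k * g k ≤ x) : (cd M m a ρ J W E).I F ≤ c * x := by
  rw [cd_I]
  refine le_trans ?_ (mul_le_mul_of_nonneg_left hx hc)
  rw [mul_sum]
  refine sum_le_sum fun k hk => ?_
  rcases eq_or_ne (M.dz m a k) 0 with e | e
  · simp [e]
  · rw [mul_left_comm]
    exact mul_le_mul_of_nonneg_left (h k (mem_Ico.1 hk).1 (mem_Ico.1 hk).2 e) (L.dz_nonneg k)

theorem abs_om (hJ : 1 ≤ J) {k : ℕ} (hk : J ≤ k) :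
    |omP (some fun k => M.dz m 0 k * f k) k| = M.dz m a k * |f k| := by
  rw [omP, abs_mul, dz0 L (hJ.trans hk), abs_of_nonneg (L.dz_nonneg k)]

theorem Iw_le (hJ : 1 ≤ J) {F g : ℕ → ℝ} {c x : ℝ} (hc : 0 ≤ c)
    (h : ∀ k, J ≤ k → k < M.N → M.dz m a k ≠ 0 → F (k + 1) ≤ c * g k)
    (hx : ∑ k ∈ Ico J M.N, M.dz m a k * (|f k| * g k) ≤ x) :
    (cd M m a ρ J (some fun k => M.dz m 0 k * f k) E).Iw F ≤ c * x := by
  rw [cd_Iw]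
  refine le_trans ?_ (mul_le_mul_of_nonneg_left hx hc)
  rw [mul_sum]
  refine sum_le_sum fun k hk => ?_
  rw [abs_om L hJ (mem_Ico.1 hk).1]
  rcases eq_or_ne (M.dz m a k) 0 with e | e
  · simp [e]
  · have := mul_le_mul_of_nonneg_left (h k (mem_Ico.1 hk).1 (mem_Ico.1 hk).2 e)
      (mul_nonneg (L.dz_nonneg k) (abs_nonneg (f k)))
    linarith

end

section
variable {Λ lam l τ0 c' lam' c : ℝ} {p B : ℕ} {lev : ℕ → ℕ} {G f tt al A ab γ : ℕ → ℝ}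
  (K : KD' S M m a J Λ lam l τ0 c') (H : GE S M m a J p G) (hp : 3 ≤ p)
  (P : BP M m a J B lev tt al A) (hf : ∀ k, J ≤ k → k < M.N → |f k| ≤ ab (lev k))
  (ab0 : ∀ i, 0 ≤ ab i)
include K H hp P hf ab0

theorem ci_dK : CI τ0 M m a M.q J (some fun k => M.dz m 0 k * f k)
    (evK S M m a J (some fun k => M.dz m 0 k * f k) lam l G (fun k => ph B al (lev k))
      fun k => ph B (fun i => ab i * al i) (lev k)) := by
  have L := K.fn.lg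
  have J1 : 1 ≤ J := K.fn.i0.trans K.J0
  have p0 : ∀ i, 0 ≤ ab i * al i := fun i => mul_nonneg (ab0 i) (P.al0 i)
  refine K.ci H (by omega) ⟨fun _ => ph0 P.al0 _, fun k => ph_anti P.al0 (P.mono k.le_succ)⟩
    ⟨fun _ => ph0 p0 _, fun k => ph_anti p0 (P.mono k.le_succ)⟩ (fun φ hφ => ?_) (fun φ hφ => ?_)
    fun h => absurd h (Option.some_ne_none _)
  · exact P.var L (φ := φ) (ab := fun _ => 1) (fun _ => zero_le_one) (fun _ _ _ => rfl)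
      (fun k _ _ => hφ k) fun k => by simp only [one_mul, le_refl]
  · exact P.var L (φ := fun k => f k * φ k) ab0
      (fun k k1 _ => by rw [omP, dz0 L (J1.trans k1), mul_assoc])
      (fun k k1 k2 => by
        rw [abs_mul]; exact (mul_le_of_le_one_right (abs_nonneg _) (hφ k)).trans (hf k k1 k2))
      fun _ => le_rfl

theorem den_dK : Den (dK S M m a J lam l f G B lev al ab) (fun j => lev (j - 1)) (sh f) ab := by
  have J1 : 1 ≤ J := K.fn.i0.trans K.J0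
  refine ⟨fun j hj => ?_, fun j hj => ?_, ab0⟩ <;> obtain ⟨k, rfl, k1, k2⟩ := mem_up hj
  · rw [cd_om, cd_dx, omP, dz0 K.fn.lg (J1.trans k1), sh_succ]
  · exact hf k k1 k2

variable (l1 : 1 ≤ lam') (c0 : 0 ≤ c) (tm : Monotone tt)
  (hz : ∀ k, J ≤ k → k < M.N → M.z k ≤ lam' ^ 2 * tt (lev k))
  (clk : ∀ e : ℕ → ℝ, (∀ k, 0 ≤ e k) → ∀ i,
    ∑ k ∈ bk M J lev i, dvP M m a M.q e J k ≤ e J + c * max (tt i) l)
include l1 c0 tm hz clk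

theorem bd_dK : BD (dK S M m a J lam l f G B lev al ab) B (fun j => lev (j - 1)) tt
    (fun i => (2 * lam * lam' ^ 2 + c) * max (tt i) l) (fun i => lam * lam' ^ 2 * max (tt i) l) al
    (sh A) := by
  have l4 := K.lam4
  have l0 := K.l0
  have l2 : 1 ≤ lam' ^ 2 := one_le_pow₀ l1
  have mx : ∀ x, 0 < max x l := fun x => l0.trans_le (le_max_right _ _)
  have env : ∀ W G f0 f1 k, J ≤ k → k < M.N → (evK S M m a J W lam l G f0 f1).e k ≤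
      lam * lam' ^ 2 * max (tt (lev k)) l := fun W G f0 f1 k k1 k2 => by
    rw [K.e_eq k1, mul_assoc]
    exact mul_le_mul_of_nonneg_left (max_le ((hz k k1 k2).trans (mul_le_mul_of_nonneg_left
      (le_max_left _ _) (by linarith))) ((le_max_right _ _).trans
        (le_mul_of_one_le_left (mx _).le l2))) (by linarith)
  refine P.bd K.fn.lg (rf_q K.fn.toCl) (K.e_nn _ _ _ _)
    (fun i => by have := mx (tt i); positivity) (fun k k1 k2 _ => env _ _ _ _ k k1 k2)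
    (fun i => ?_) (fun _ => ph0 P.al0 _) fun _ _ _ => le_rfl
  have m0 := mx (tt i)
  rcases (bk M J lev i).eq_empty_or_nonempty with e | ⟨k, hk⟩
  · rw [e, sum_empty]; positivity
  obtain ⟨k1, rfl⟩ := mem_filter.1 hk
  obtain ⟨k1, k2⟩ := mem_Ico.1 k1
  refine (clk _ (K.e_nn _ _ _ _) _).trans ?_
  have := (env (some fun k => M.dz m 0 k * f k) G (fun k => ph B al (lev k))
    (fun k => ph B (fun i => ab i * al i) (lev k)) J le_rfl (k1.trans_lt k2)).trans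
    (mul_le_mul_of_nonneg_left (max_le_max (tm (P.mono k1)) le_rfl) (by positivity))
  have : 0 ≤ lam * lam' ^ 2 * max (tt (lev k)) l := by positivity
  linarith

variable {n1 n2 n4 b0 b1 b2 b4 e0 e1 e2 d1 d2 dm V : ℝ}
  (N : Nm M m a (Ico J M.N) f γ G n1 n2 n4 b0 b1 b2 b4 e0 e1 e2 d1 d2 dm)
include N

theorem tc_dK (hV : Sg B (fun i => (2 * lam * lam' ^ 2 + c) * max (tt i) l) ≤ V) :
    Et5.Tc (dK S M m a J lam l f G B lev al ab) lam V (3 * n1) (9 * n2)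
      (lowL τ0 (lam * max (M.z (J - 1)) l) (tlD S 3)) (3 * n1 + Sg B al)
      (3 * b1 + Sg B fun i => ab i * al i) b0 (3 * b1) (9 * b2) := by
  have L := K.fn.lg
  have J1 : 1 ≤ J := K.fn.i0.trans K.J0
  have p0 : ∀ i, 0 ≤ ab i * al i := fun i => mul_nonneg (ab0 i) (P.al0 i)
  have mem : ∀ {k}, k ∈ Ico J M.N → J ≤ k ∧ k < M.N := mem_Ico.1
  have G0 : ∀ {k}, k ∈ Ico J M.N → 0 ≤ G k := fun h => (H.pos _ (mem h).1 (mem h).2).le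
  have q1 : 0 ≤ n1 := (sum_nonneg fun k hk => mul_nonneg (L.dz_nonneg k) (G0 hk)).trans N.n1
  have q2 : 0 ≤ b1 := (sum_nonneg fun k hk => mul_nonneg (L.dz_nonneg k)
    (mul_nonneg (abs_nonneg _) (G0 hk))).trans N.b1
  have s1 : 0 ≤ Sg B al := Sg0 fun i _ => P.al0 i
  have s2 : 0 ≤ Sg B fun i => ab i * al i := Sg0 fun i _ => p0 i
  have tJ : tlP M J J = Ico J M.N := by rw [tlP, max_self]
  obtain ⟨z, ok⟩ := (ci_dK K H hp P hf ab0).ok0.big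
  have X0 : 0 ≤ lam * max (M.z (J - 1)) l := ok.X0
  have X3 := pow_nonneg X0 3
  have t0 := tlD_nn S 3
  have t1 := sqrt_nonneg (tlD S 3)
  have r1 := mul_nonneg (sq_nonneg τ0) X3
  have r2 := mul_nonneg (sq_nonneg τ0) t1
  have gs : ∀ k, J ≤ k → k < M.N → (dK S M m a J lam l f G B lev al ab).g (k + 1) ^ 2 ≤
      9 * G k ^ 2 := fun k k1 k2 =>
    (pow_le_pow_left₀ (CD.g0 _ _) (H.g_le (by omega) k1 k2) 2).trans_eq (by ring)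
  refine ⟨rfl, by linarith [K.lam4], fun j _ => K.e_le none G G G (j - 1),
    (bd_dK K H hp P hf ab0 l1 c0 tm hz clk).sv_one.trans hV,
    I_le L (by norm_num) (fun k k1 k2 _ => H.g_le (by omega) k1 k2) N.n1,
    I_le L (by norm_num) (fun k k1 k2 _ => gs k k1 k2) N.n2, ?_, ?_, ?_, ?_, ?_, ?_, ?_, ?_,
    Iw_le L J1 (by norm_num) (fun k k1 k2 _ => H.g_le (by omega) k1 k2) N.b1,
    Iw_le L J1 (by norm_num) (fun k k1 k2 _ => gs k k1 k2) N.b2⟩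
  · change 3 * ∑ t ∈ tlP M J J, M.dz m a t * G t ≤ _
    rw [tJ]; linarith [N.n1]
  · exact (ph_Sg P.al0 _).trans (by linarith)
  · change 3 * ∑ t ∈ tlP M J J, |omP (some fun k => M.dz m 0 k * f k) t| * G t ≤ _
    rw [tJ, sum_congr rfl fun k hk => by rw [abs_om L J1 (mem hk).1, mul_assoc]]
    linarith [N.b1]
  · exact (ph_Sg p0 _).trans (by linarith)
  · change (lam * max (M.z (J - 1)) l) ^ 3 ≤ _
    unfold lowL; linarith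
  · refine (Et5.Lv1_le ok).trans ?_
    change (lam * max (M.z (J - 1)) l) ^ 3 + 2 * tlD S 3 ≤ _
    unfold lowL; linarith
  · refine (Et5.Lv2_le ok).trans ?_
    change (2 * τ0 ^ 2 + 1) * (lam * max (M.z (J - 1)) l) ^ 3 + (15 * τ0 ^ 2 + 2) * √(tlD S 3) ≤ _
    unfold lowL; linarith
  · rw [wt_some]
    exact (sum_congr rfl fun k hk => abs_om L J1 (mem hk).1).trans_le N.b0

omit l1 c0 tm hz clk in
theorem nz_dK (JN : J < M.N) (le2 : ∀ k, J ≤ k → k < M.N → G k ≤ 2)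
    (hγ : ∀ k, J ≤ k → k < M.N → M.dz m a k ≠ 0 → |GamC M m a M.q J k - M.q k| ≤ γ k) :
    Nz (dK S M m a J lam l f G B lev al ab) (9 * n2) dm (dm * b0) (160 * n4) (160 * b4) (9 * e2)
      (3 * d1) (9 * d2) (3 * e1) e0 := by
  have L := K.fn.lg
  have J1 : 1 ≤ J := K.fn.i0.trans K.J0
  have C := ci_dK K H hp P hf ab0
  have dm0 : 0 ≤ dm := (L.dz_nonneg J).trans (N.dm J (mem_Ico.2 ⟨le_rfl, JN⟩))
  have gq : ∀ k, J ≤ k → k < M.N → M.dz m a k ≠ 0 →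
      (dK S M m a J lam l f G B lev al ab).gq (k + 1) ≤ γ k := fun k k1 k2 e =>
    (C.c_gq k1 k2).trans_le (hγ k k1 k2 e)
  have g1 : ∀ k, J ≤ k → k < M.N → M.dz m a k ≠ 0 →
      (dK S M m a J lam l f G B lev al ab).gq (k + 1) *
        (dK S M m a J lam l f G B lev al ab).g (k + 1) ≤ 3 * (γ k * G k) := fun k k1 k2 e =>
    (mul_le_mul (gq k k1 k2 e) (H.g_le (by omega) k1 k2) (CD.g0 _ _)
      ((abs_nonneg _).trans (gq k k1 k2 e))).trans_eq (by ring)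
  have g2 : ∀ k, J ≤ k → k < M.N → M.dz m a k ≠ 0 →
      (dK S M m a J lam l f G B lev al ab).gq (k + 1) *
        (dK S M m a J lam l f G B lev al ab).g (k + 1) ^ 2 ≤ 9 * (γ k * G k ^ 2) :=
    fun k k1 k2 e => (mul_le_mul (gq k k1 k2 e) (pow_le_pow_left₀ (CD.g0 _ _)
      (H.g_le (by omega) k1 k2) 2) (sq_nonneg _)
      ((abs_nonneg _).trans (gq k k1 k2 e))).trans_eq (by ring)
  have u45 : ∀ k, J ≤ k → k < M.N → M.dz m a k ≠ 0 →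
      (dK S M m a J lam l f G B lev al ab).u 4 (k + 1) +
        (dK S M m a J lam l f G B lev al ab).u 5 (k + 1) ≤ 160 * G k ^ 4 := fun k k1 k2 _ => by
    refine (add_le_add (H.u_le (by omega) k1 k2) (H.u_le (by omega) k1 k2)).trans ?_
    have := mul_le_mul_of_nonneg_left (le2 k k1 k2) (pow_pos (H.pos k k1 k2) 4).le
    rw [pow_succ (G k) 4]
    norm_num
    linarith
  refine ⟨I_le L (by norm_num) (fun k k1 k2 _ => (H.sqrt_u4 (by omega) k1 k2).trans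
      (by nlinarith [sq_nonneg (G k)])) N.n2, ?_,
    Iw_le L J1 (g := fun _ => 1) dm0 (fun k k1 k2 _ => ?_) (by simpa using N.b0),
    I_le L (by norm_num) u45 N.n4, Iw_le L J1 (by norm_num) u45 N.b4,
    Iw_le L J1 (by norm_num) g2 N.c2, I_le L (by norm_num) g1 N.d1, I_le L (by norm_num) g2 N.d2,
    Iw_le L J1 (by norm_num) g1 N.c1, ?_⟩
  · refine (I_le L (g := fun _ => 1) (x := 1) dm0 (fun k k1 k2 _ => ?_) ?_).trans_eq (mul_one _)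
    · rw [mul_one]; exact N.dm k (mem_Ico.2 ⟨k1, k2⟩)
    · simp only [mul_one]
      linarith [L.sum_dz_le (Ico J M.N), L.a0]
  · rw [mul_one]; exact N.dm k (mem_Ico.2 ⟨k1, k2⟩)
  · exact (Iw_le L J1 zero_le_one (fun k k1 k2 e => (gq k k1 k2 e).trans_eq (one_mul _).symm)
      N.c0).trans_eq (one_mul _)

end

/-- **level 2b** -/
theorem lv2b {Λ lam l τ0 c' lam' c L T : ℝ} {p B : ℕ} {lev : ℕ → ℕ} {G f tt al A ab γ : ℕ → ℝ}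
    {n1 n2 n4 b0 b1 b2 b4 c0 c1 c2 d1 d2 dm V : ℝ}
    (K : KD' S M m a (S.jl + 1) Λ lam l τ0 c') (H : GE S M m a (S.jl + 1) p G) (hp : 3 ≤ p)
    (Q : E35.BQ lam' L l T c S M m a B lev tt al A) (l1 : 1 ≤ lam') (hc : 0 ≤ c)
    (hf : ∀ k, S.jl < k → k < M.N → |f k| ≤ ab (lev k)) (ab0 : ∀ i, 0 ≤ ab i)
    (le2 : ∀ k, G k ≤ 2)
    (hγ : ∀ k, S.jl < k → k < M.N → M.dz m a k ≠ 0 →
      |GamC M m a M.q (S.jl + 1) k - M.q k| ≤ γ k)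
    (N : Nm M m a (Ioo S.jl M.N) f γ G n1 n2 n4 b0 b1 b2 b4 c0 c1 c2 d1 d2 dm)
    (hV : Sg B (fun i => (2 * lam * lam' ^ 2 + c) * max (tt i) l) ≤ V) :
    Ok0 (dK S M m a (S.jl + 1) lam l f G B lev al ab) τ0 ∧
    BD (dK S M m a (S.jl + 1) lam l f G B lev al ab) B (fun j => lev (j - 1)) tt
      (fun i => (2 * lam * lam' ^ 2 + c) * max (tt i) l) (fun i => lam * lam' ^ 2 * max (tt i) l)
      al (sh A) ∧
    Den (dK S M m a (S.jl + 1) lam l f G B lev al ab) (fun j => lev (j - 1)) (sh f) ab ∧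
    Et5.Tc (dK S M m a (S.jl + 1) lam l f G B lev al ab) lam V (3 * n1) (9 * n2)
      (lowL τ0 (lam * max (M.z S.jl) l) (tlD S 3)) (3 * n1 + Sg B al)
      (3 * b1 + Sg B fun i => ab i * al i) b0 (3 * b1) (9 * b2) ∧
    Nz (dK S M m a (S.jl + 1) lam l f G B lev al ab) (9 * n2) dm (dm * b0) (160 * n4) (160 * b4)
      (9 * c2) (3 * d1) (9 * d2) (3 * c1) c0 :=
  have JN : S.jl + 1 < M.N := K.fn.i2.trans_le (K.fn.i3.trans K.fn.i4.le)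
  ⟨(ci_dK K H hp Q.bp hf ab0).ok0, bd_dK K H hp Q.bp hf ab0 l1 hc Q.tm Q.z Q.clk,
    den_dK K H hp Q.bp hf ab0, tc_dK K H hp Q.bp hf ab0 l1 hc Q.tm Q.z Q.clk N hV,
    nz_dK K H hp Q.bp hf ab0 N JN (fun k _ _ => le2 k) hγ⟩

end Crest.Agent.T156.Alt.CIn12

end
end

-- ▼ part T156/ErrV_35

/-!
# Row 156: the numbers of the error table (helper35)
-/

set_option autoImplicit false

noncomputable section

namespace Crest.Agent.T156.Alt.E35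

open Real Finset
open Crest.Agent.T156.Cas Crest.Agent.T156.Cas.C40 Crest.Agent.T156.Alt.CIn12

/-- the residual vanishes on the support of the density -/
theorem nm_of {M : Md} {m : ℕ} {a : ℝ} {T : Finset ℕ} {f g G : ℕ → ℝ}
    {γ y n1 n2 n4 b0 b1 b2 d1 d2 dm : ℝ} (z0 : ∀ k, 0 ≤ M.dz m a k) (G0 : ∀ k, 0 < G k) (γ0 : 0 ≤ γ)
    (h : ∀ k ∈ T, f k ≠ 0 → g k = 0 ∧ G k ≤ y)
    (h1 : ∑ k ∈ T, M.dz m a k * G k ≤ n1) (h2 : ∑ k ∈ T, M.dz m a k * G k ^ 2 ≤ n2)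
    (h4 : ∑ k ∈ T, M.dz m a k * G k ^ 4 ≤ n4) (e0 : ∑ k ∈ T, M.dz m a k * |f k| ≤ b0)
    (e1 : ∑ k ∈ T, M.dz m a k * (|f k| * G k) ≤ b1)
    (e2 : ∑ k ∈ T, M.dz m a k * (|f k| * G k ^ 2) ≤ b2)
    (r1 : ∑ k ∈ T, M.dz m a k * (|g k| * G k) ≤ d1)
    (r2 : ∑ k ∈ T, M.dz m a k * (|g k| * G k ^ 2) ≤ d2) (hd : ∀ k ∈ T, M.dz m a k ≤ dm) :
    Nm M m a T f (fun k => |g k| + γ) G n1 n2 n4 b0 b1 b2 (y ^ 2 * b2) (γ * b0) (γ * b1) (γ * b2)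
      (d1 + γ * n1) (d2 + γ * n2) dm := by
  have k : ∀ {u v : ℕ → ℝ} {x c : ℝ}, 0 ≤ c → (∀ k ∈ T, f k ≠ 0 → u k ≤ c * v k) →
      ∑ k ∈ T, M.dz m a k * (|f k| * v k) ≤ x → ∑ k ∈ T, M.dz m a k * (|f k| * u k) ≤ c * x :=
    fun {u v x c} c0 hu hx => le_trans (by
      rw [mul_sum]
      refine sum_le_sum fun k hk => ?_
      rcases eq_or_ne (f k) 0 with e | e
      · simp [e]
      · linarith [mul_le_mul_of_nonneg_left (hu k hk e) (mul_nonneg (z0 k) (abs_nonneg (f k)))])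
      (mul_le_mul_of_nonneg_left hx c0)
  have k' : ∀ {v : ℕ → ℝ} {x x' : ℝ}, ∑ k ∈ T, M.dz m a k * (|g k| * v k) ≤ x →
      ∑ k ∈ T, M.dz m a k * v k ≤ x' → ∑ k ∈ T, M.dz m a k * ((|g k| + γ) * v k) ≤ x + γ * x' :=
    fun {v x x'} a1 a2 => le_trans (le_of_eq (by
      rw [mul_sum, ← sum_add_distrib]; exact sum_congr rfl fun _ _ => by ring))
      (add_le_add a1 (mul_le_mul_of_nonneg_left a2 γ0))
  refine ⟨h1, h2, h4, e0, e1, e2, k (sq_nonneg y) (fun k hk e => ?_) e2,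
    k (v := fun _ => 1) γ0 (fun k hk e => by simp [(h k hk e).1]) (by simpa using e0),
    k γ0 (fun k hk e => by simp [(h k hk e).1]) e1, k γ0 (fun k hk e => by simp [(h k hk e).1]) e2,
    k' r1 h1, k' r2 h2, hd⟩
  linarith [mul_le_mul_of_nonneg_right (pow_le_pow_left₀ (G0 k).le (h k hk e).2 2) (sq_nonneg (G k))]

/-- the inputs in natural units; `b0 b1 b2 SW` are the sums of the unscaled density -/
structure Hn (E δ θ l N V4 w τ X tl n m d2 b0 b1 b2 SA SW : ℝ) : Prop where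
  E1 : 1000 ≤ E
  θ0 : 0 ≤ θ
  l0 : 0 < l
  l1 : l ≤ 1
  V0 : 0 ≤ V4
  w0 : 0 < w
  n0 : 0 < n
  nm : n ≤ m
  mn : m ≤ 2 * n
  N1 : l ^ 2 ≤ N
  N2 : N ≤ E * l
  τ0 : 0 ≤ τ ∧ τ ≤ E
  X0 : 0 ≤ X ∧ X ≤ E ^ 6 * l
  tl0 : 0 ≤ tl ∧ √tl ≤ l ^ 3 ∧ tl ≤ 1
  nn : 0 ≤ d2 ∧ 0 ≤ b0 ∧ 0 ≤ b1 ∧ 0 ≤ b2 ∧ 0 ≤ SA ∧ 0 ≤ SW
  hd : θ * d2 ≤ E ^ 12 * δ
  h0 : w * b0 ≤ E ^ 12 * θ
  h1 : l ^ 3 * (w * b1) ≤ E ^ 12 * δ
  h2 : N * (w * b2) ≤ E ^ 12 * δ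
  hA : SA ≤ E ^ 27 * N
  hW : l ^ 3 * (w * SW) ≤ E ^ 3 * δ
  l5 : θ * l ^ 5 ≤ δ
  ln : θ * (1 / n) ≤ δ
  l4 : θ * V4 ≤ δ
  l3 : θ * (l ^ 3 * N) ≤ δ

theorem Hn.pe {E δ θ l N V4 w τ X tl n m d2 b0 b1 b2 SA SW : ℝ}
    (h : Hn E δ θ l N V4 w τ X tl n m d2 b0 b1 b2 SA SW) :
    w * Pe (E ^ 4) (E ^ 30) (3 * (E ^ 12 * N)) (9 * (E * l ^ 3)) (lowL τ X tl)
      (3 * (E ^ 12 * N) + SA) X m (1 / n) (160 * (E * (l ^ 3 * l ^ 2 + V4)))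
      (3 * (E ^ 12 * l ^ 3 + 2 * E ^ 2 * l ^ 2 * (E ^ 12 * N)))
      (9 * (d2 + 2 * E ^ 2 * l ^ 2 * (E * l ^ 3))) √tl (3 * b1 + SW) b0 (3 * b1) (9 * b2)
      (1 / n * b0) (160 * ((E * l) ^ 2 * b2)) (9 * (2 * E ^ 2 * l ^ 2 * b2))
      (3 * (2 * E ^ 2 * l ^ 2 * b1)) (2 * E ^ 2 * l ^ 2 * b0) ≤ 200 * ((E ^ 30) ^ 5 * δ) := by
  obtain ⟨d0, b00, b10, b20, A0, W0⟩ := h.nn
  obtain ⟨τ0, τ1⟩ := h.τ0
  obtain ⟨X0, X1⟩ := h.X0
  obtain ⟨t0, t1, t2⟩ := h.tl0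
  have E1 := h.E1
  have E1' : 1 ≤ E := by linarith
  have E0 : 0 < E := by linarith
  have θ0 := h.θ0
  have l0 := h.l0
  have w0 := h.w0
  have V0 := h.V0
  have n0 := h.n0
  have m0 : 0 < m := n0.trans_le h.nm
  have N0 : 0 ≤ N := (sq_nonneg l).trans h.N1
  have δ0 : 0 ≤ δ := (mul_nonneg θ0 V0).trans h.l4
  have ΦN : l ^ 3 ≤ N := (pow_le_pow_of_le_one l0.le h.l1 (by norm_num)).trans h.N1
  have q : ∀ (i : ℕ) {x : ℝ}, i ≤ 29 → 0 ≤ x → 1000 * (E ^ i * x) ≤ E ^ 30 * x ∧ 0 ≤ E ^ i * x :=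
    fun i x hi x0 => ⟨by
      rw [← mul_assoc, pow_succ' E 29]
      exact mul_le_mul_of_nonneg_right (mul_le_mul E1 (pow_le_pow_right₀ E1' hi) (by positivity)
        E0.le) x0, by positivity⟩
  have Φ0 : 0 ≤ l ^ 3 := by positivity
  have X3 : X ^ 3 ≤ E ^ 18 * l ^ 3 := (pow_le_pow_left₀ X0 X1 3).trans_eq (by ring)
  have X2 : X ^ 2 ≤ E ^ 12 * l ^ 2 := (pow_le_pow_left₀ X0 X1 2).trans_eq (by ring)
  have t3 : tl ≤ l ^ 3 := le_trans (by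
    nlinarith [sq_sqrt t0, sqrt_nonneg tl, sqrt_le_one.2 t2]) t1
  have τ2 : τ ^ 2 ≤ E ^ 2 := pow_le_pow_left₀ τ0 τ1 2
  have E2 : 1 ≤ E ^ 2 := one_le_pow₀ E1'
  have a1 : (2 * τ ^ 2 + 1) * X ^ 3 ≤ 3 * E ^ 2 * (E ^ 18 * l ^ 3) :=
    mul_le_mul (by linarith) X3 (by positivity) (by positivity)
  have a2 : (15 * τ ^ 2 + 2) * √tl ≤ 17 * E ^ 2 * l ^ 3 :=
    mul_le_mul (by linarith) t1 (by positivity) (by positivity)
  have a3 : E ^ 14 * l ^ 2 * N ≤ E ^ 14 * l ^ 2 * (E * l) :=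
    mul_le_mul_of_nonneg_left h.N2 (by positivity)
  have a4 : 1 / n * (w * b0) ≤ E ^ 12 * δ :=
    (mul_le_mul_of_nonneg_left h.h0 (by positivity)).trans (by
      linarith [mul_le_mul_of_nonneg_left h.ln (show 0 ≤ E ^ 12 by positivity)])
  have a5 : E ^ 2 * (l ^ 2 * (w * b2)) ≤ E ^ 2 * (E ^ 12 * δ) := mul_le_mul_of_nonneg_left
    ((mul_le_mul_of_nonneg_right h.N1 (by positivity)).trans h.h2) (by positivity)
  have a6 : E ^ 3 * (θ * l ^ 5) ≤ E ^ 3 * δ := mul_le_mul_of_nonneg_left h.l5 (by positivity)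
  have a7 : N * (E ^ 2 * l ^ 2 * (w * b1)) ≤ E * l * (E ^ 2 * l ^ 2 * (w * b1)) :=
    mul_le_mul_of_nonneg_right h.N2 (by positivity)
  have a8 : E ^ 3 * (l ^ 3 * (w * b1)) ≤ E ^ 3 * (E ^ 12 * δ) :=
    mul_le_mul_of_nonneg_left h.h1 (by positivity)
  have a9 : E ^ 2 * l ^ 5 * (w * b0) ≤ E ^ 2 * l ^ 5 * (E ^ 12 * θ) :=
    mul_le_mul_of_nonneg_left h.h0 (by positivity)
  have a10 : E ^ 14 * (θ * l ^ 5) ≤ E ^ 14 * δ := mul_le_mul_of_nonneg_left h.l5 (by positivity)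
  have a11 : 1 / n ≤ 2 * (1 / m) := by
    rw [mul_one_div, div_le_div_iff₀ n0 m0]; linarith [h.mn]
  have a12 : θ * (1 / m) ≤ δ :=
    (mul_le_mul_of_nonneg_left (one_div_le_one_div_of_le n0 h.nm) θ0).trans h.ln
  have L0 : 0 ≤ lowL τ X tl := by unfold lowL; positivity
  rw [Pe_smul]
  refine PeH.le (θ := θ) (l := l) (Φ := l ^ 3) (N := N) (V4 := V4)
    ⟨one_le_pow₀ E1', θ0, Φ0, ΦN, V0, m0, ⟨by positivity, by positivity, by positivity,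
      by positivity, L0, by positivity, X0, by positivity, by positivity, by positivity,
      by positivity⟩, ⟨by positivity, by positivity, by positivity, by positivity, by positivity,
      by positivity, by positivity⟩, pow_le_pow_right₀ E1' (by norm_num), le_rfl, ?_, ?_, ?_, ?_, ?_,
      ?_, ?_, ?_, ?_, t1, ?_, ?_, ?_, ?_, ?_, ?_, ?_, ?_, ?_, ?_, (le_of_eq (by ring)).trans h.l5,
      le_trans (mul_le_mul_of_nonneg_left ((sq _).trans_le (mul_le_mul_of_nonneg_left ΦN Φ0)) θ0)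
        h.l3, a12, h.l4, h.l3⟩
  · linarith [q 12 (by norm_num) N0]
  · linarith [q 1 (by norm_num) Φ0]
  · unfold lowL
    linarith [q 20 (by norm_num) Φ0, q 2 (by norm_num) Φ0, q 0 (by norm_num) Φ0]
  · linarith [q 12 (by norm_num) N0, q 27 (by norm_num) N0, h.hA]
  · linarith [q 18 (by norm_num) Φ0]
  · linarith [q 12 (by norm_num) (sq_nonneg l)]
  · linarith [q 0 (by norm_num) (show 0 ≤ 1 / m by positivity)]
  · linarith [q 1 (by norm_num) (show 0 ≤ l ^ 3 * l ^ 2 + V4 by positivity)]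
  · linarith [q 12 (by norm_num) Φ0, q 15 (by norm_num) Φ0]
  · linarith [q 12 (by norm_num) θ0, h.h0]
  · linarith [q 12 (by norm_num) δ0]
  · linarith [q 14 (by norm_num) δ0]
  · linarith [q 14 (by norm_num) δ0]
  · linarith [q 12 (by norm_num) δ0, q 3 (by norm_num) δ0, h.hd]
  · linarith [q 15 (by norm_num) δ0]
  · linarith [q 14 (by norm_num) δ0]
  · linarith [q 12 (by norm_num) δ0, h.h1]
  · linarith [q 12 (by norm_num) δ0, q 3 (by norm_num) δ0, h.h1, h.hW]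
  · linarith [q 12 (by norm_num) δ0, h.h2]

end Crest.Agent.T156.Alt.E35

end
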