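import Crest.Agent.T156.SrN_66
import Crest.Agent.T156.GrReg_29

/-!
# Row 156, SR: the size `PhG` of the output of SR on the graded family (helper66)

`PhG = n^{-1/3} yS + r³ + la(mt μ)² + √(min(max yS y5, 1) rj⁵)`; above `y5`, `t ms(t)² ≥ rj⁵`.
-/

set_option autoImplicit false

noncomputable section

namespace Crest.Agent.T156.Alt

open Real Set

namespace Pm

variable (p : Pm)

/-- the level of the first mark -/
def rj : ℝ := p.s * (p.n : ℝ) ^ (p.c / 13 - 1 / 6)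
/-- amplitude of the static marks -/
def laG (σ : ℝ) : ℝ := p.la (p.mt (p.muG σ))
/-- the level above which `t ms(t)² ≥ rj⁵` -/
def y5 (σ : ℝ) : ℝ := max (max ((p.rj ^ 5 / (p.κ * σ) ^ 2) ^ ((1 : ℝ) / 4))
  (p.rj / p.κ ^ ((2 : ℝ) / 5))) (p.rj ^ 5 / p.muG σ ^ 2)
/-- the level `Ys` of SR (unless all levels are thin) -/
def yG (E σ : ℝ) : ℝ := max (p.yS E σ) (p.y5 σ)
/-- root term -/
def rtG (E σ : ℝ) : ℝ := √(min (p.yG E σ) 1 * p.rj ^ 5)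
/-- **the size of the energy** -/
def PhG (E σ : ℝ) : ℝ :=
  (p.n : ℝ) ^ (-(1 : ℝ) / 3) * p.yS E σ + p.r ^ 3 + p.laG σ ^ 2 + p.rtG E σ

end Pm

namespace Reg

variable {β c0 C0 : ℝ} {A : ℕ} {c η K : ℝ} {p : Pm} (H : Reg β c0 C0 A c η K p) {σ E t ε Φ : ℝ}
include H

theorem rj0 : 0 < p.rj := mul_pos H.s0 (H.rp0 _)

theorem lg_rj : logb p.n p.rj = logb p.n p.s + c / 13 - 1 / 6 := by
  rw [Pm.rj, logb_mul H.s0.ne' (H.rp0 _).ne', H.lg_rp, H.hc]; ring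

theorem laG0 (M : p.MemG σ) : 0 < p.laG σ := H.la0 (H.mt0 (H.muG_pos M))

theorem yG0 (hE : 0 < E) : 0 < p.yG E σ := (H.yS_pos hE).trans_le (le_max_left _ _)

theorem rtG0 (hE : 0 < E) : 0 < p.rtG E σ :=
  sqrt_pos.2 (mul_pos (lt_min (H.yG0 hE) one_pos) (pow_pos H.rj0 5))

/-- the exponent of `yG`: lower bounds, and it is one of four values -/
theorem lg_yG (M : p.MemG σ) (hE : 0 < E) :
    (logb p.n (p.yS E σ) ≤ logb p.n (p.yG E σ) ∧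
      (5 * logb p.n p.rj + 2 * c - 2 * logb p.n σ) / 4 ≤ logb p.n (p.yG E σ) ∧
      logb p.n p.rj + 2 / 5 * c ≤ logb p.n (p.yG E σ) ∧
      5 * logb p.n p.rj - 2 * logb p.n (p.muG σ) ≤ logb p.n (p.yG E σ)) ∧
    (logb p.n (p.yG E σ) = logb p.n (p.yS E σ) ∨
      logb p.n (p.yG E σ) = (5 * logb p.n p.rj + 2 * c - 2 * logb p.n σ) / 4 ∨
      logb p.n (p.yG E σ) = logb p.n p.rj + 2 / 5 * c ∨
      logb p.n (p.yG E σ) = 5 * logb p.n p.rj - 2 * logb p.n (p.muG σ)) := by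
  have a0 := H.rj0; have a1 := H.κ0; have a2 := H.sgG_pos M; have a3 := H.muG_pos M
  have a4 := H.yS_pos (σ := σ) hE
  have b1 : 0 < (p.rj ^ 5 / (p.κ * σ) ^ 2) ^ ((1 : ℝ) / 4) := by positivity
  have b2 : 0 < p.rj / p.κ ^ ((2 : ℝ) / 5) := by positivity
  have b3 : 0 < p.rj ^ 5 / p.muG σ ^ 2 := by positivity
  have e1 : logb p.n ((p.rj ^ 5 / (p.κ * σ) ^ 2) ^ ((1 : ℝ) / 4)) =
      (5 * logb p.n p.rj + 2 * c - 2 * logb p.n σ) / 4 := by lg_norm; rw [H.lg_κ]; ring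
  have e2 : logb p.n (p.rj / p.κ ^ ((2 : ℝ) / 5)) = logb p.n p.rj + 2 / 5 * c := by
    lg_norm; rw [H.lg_κ]; ring
  have e3 : logb p.n (p.rj ^ 5 / p.muG σ ^ 2) = 5 * logb p.n p.rj - 2 * logb p.n (p.muG σ) := by
    lg_norm
  have b4 := b1.trans_le (le_max_left _ (p.rj / p.κ ^ ((2 : ℝ) / 5)))
  rw [Pm.yG, Pm.y5, lg_max H.N1 a4 (lt_max_of_lt_left b4), lg_max H.N1 b4 b3, lg_max H.N1 b1 b2,
    e1, e2, e3]
  refine ⟨⟨le_max_left _ _, le_max_of_le_right (le_max_of_le_left (le_max_left _ _)),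
    le_max_of_le_right (le_max_of_le_left (le_max_right _ _)),
    le_max_of_le_right (le_max_right _ _)⟩, ?_⟩
  simp only [max_def]
  split_ifs <;> simp

theorem PhG0 (_ : p.MemG σ) (hE : 0 < E) : 0 < p.PhG E σ := by
  have := H.N0; have := H.r0; have := H.yS_pos (σ := σ) hE; have := H.rtG0 (σ := σ) hE
  rw [Pm.PhG]; positivity

theorem lg_rtG (hE : 0 < E) : 2 * logb p.n (p.rtG E σ) =
    min (logb p.n (p.yG E σ)) 0 + 5 * (logb p.n p.s + c / 13 - 1 / 6) := by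
  have a := H.yG0 (σ := σ) hE
  have b := H.rj0
  have d := lt_min a one_pos
  rw [Pm.rtG]; lg_norm; rw [lg_min H.N1 a one_pos, logb_one, H.lg_rj]; ring

/-- the exponent of `laG`; `W = lg μ + 1/3` -/
theorem lg_laG (M : p.MemG σ) :
    (logb p.n (p.muG σ) + 1 / 3 ≤ -(4 * c) ∧
      2 * logb p.n (p.laG σ) = -(1 / 3) - 3 * c - 2 / 3 * (logb p.n (p.muG σ) + 1 / 3)) ∨
    (-(4 * c) ≤ logb p.n (p.muG σ) + 1 / 3 ∧ logb p.n (p.muG σ) + 1 / 3 ≤ -c ∧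
      2 * logb p.n (p.laG σ) = -(1 / 3) - c / 3) ∨
    (-c ≤ logb p.n (p.muG σ) + 1 / 3 ∧ logb p.n (p.muG σ) + 1 / 3 ≤ 0 ∧
      2 * logb p.n (p.laG σ) = -(1 / 3) - c - 2 / 3 * (logb p.n (p.muG σ) + 1 / 3)) ∨
    (0 ≤ logb p.n (p.muG σ) + 1 / 3 ∧
      2 * logb p.n (p.laG σ) = -(1 / 3) - c - (logb p.n (p.muG σ) + 1 / 3)) := by
  obtain ⟨a1, a2, a3, a4⟩ := H.lg_la_mt (H.muG_pos M)
  rw [Pm.laG]
  rcases le_total (logb p.n (p.muG σ) + 1 / 3) (-(4 * c)) with h | h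
  · exact .inl ⟨h, by linarith [a1 h]⟩
  rcases le_total (logb p.n (p.muG σ) + 1 / 3) (-c) with h' | h'
  · exact .inr (.inl ⟨h, h', by linarith [a2 h h']⟩)
  rcases le_total (logb p.n (p.muG σ) + 1 / 3) 0 with h'' | h''
  · exact .inr (.inr (.inl ⟨h', h'', by linarith [a3 h' h'']⟩))
  · exact .inr (.inr (.inr ⟨h'', by linarith [a4 h'']⟩))

theorem PhG_ge (M : p.MemG σ) (hE : 0 < E) :
    (p.n : ℝ) ^ (-(1 : ℝ) / 3) * p.yS E σ ≤ p.PhG E σ ∧ p.r ^ 3 ≤ p.PhG E σ ∧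
      p.laG σ ^ 2 ≤ p.PhG E σ ∧ p.rtG E σ ≤ p.PhG E σ := by
  have a0 := H.N0; have a1 := H.r0; have a2 := H.yS_pos (σ := σ) hE
  have b1 : 0 < (p.n : ℝ) ^ (-(1 : ℝ) / 3) * p.yS E σ := by positivity
  have b2 : 0 < p.r ^ 3 := by positivity
  have b3 := pow_pos (H.laG0 M) 2
  have b4 := H.rtG0 (σ := σ) hE
  rw [Pm.PhG]
  exact ⟨by linarith, by linarith, by linarith, by linarith⟩

/-- the exponent of `PhG` -/
theorem lg_PhG (M : p.MemG σ) (hE : 0 < E) :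
    (logb p.n (p.yS E σ) - 1 / 3 ≤ logb p.n (p.PhG E σ) ∧
      3 * logb p.n p.r ≤ logb p.n (p.PhG E σ) ∧
      2 * logb p.n (p.laG σ) ≤ logb p.n (p.PhG E σ) ∧
      logb p.n (p.rtG E σ) ≤ logb p.n (p.PhG E σ)) ∧
    (logb p.n (p.PhG E σ) ≤ logb p.n (p.yS E σ) - 1 / 3 + η ∨
      logb p.n (p.PhG E σ) ≤ 3 * logb p.n p.r + η ∨
      logb p.n (p.PhG E σ) ≤ 2 * logb p.n (p.laG σ) + η ∨
      logb p.n (p.PhG E σ) ≤ logb p.n (p.rtG E σ) + η) := by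
  have a0 := H.N0; have a1 := H.r0; have a2 := H.yS_pos (σ := σ) hE
  have a3 := H.PhG0 M hE
  have a4 := H.laG0 M
  have b1 : 0 < (p.n : ℝ) ^ (-(1 : ℝ) / 3) * p.yS E σ := by positivity
  have b2 : 0 < p.r ^ 3 := by positivity
  have b3 : 0 < p.laG σ ^ 2 := by positivity
  have b4 := H.rtG0 (σ := σ) hE
  have e1 : logb p.n ((p.n : ℝ) ^ (-(1 : ℝ) / 3) * p.yS E σ) = logb p.n (p.yS E σ) - 1 / 3 := by
    lg_norm; rw [H.lg_n]; ring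
  have e2 : logb p.n (p.r ^ 3) = 3 * logb p.n p.r := by lg_norm
  have e3 : logb p.n (p.laG σ ^ 2) = 2 * logb p.n (p.laG σ) := by lg_norm
  have d := (H.lg_num (x := 4) (by norm_num) (by norm_num)).2
  have k : ∀ x, 0 < x → p.PhG E σ ≤ 4 * x → logb p.n (p.PhG E σ) ≤ logb p.n x + η := fun x hx h => by
    have k := H.lg_mono a3 h
    rw [logb_mul four_ne_zero hx.ne'] at k
    linarith
  obtain ⟨g1, g2, g3, g4⟩ := H.PhG_ge M hE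
  refine ⟨⟨e1 ▸ H.lg_mono b1 g1, e2 ▸ H.lg_mono b2 g2, e3 ▸ H.lg_mono b3 g3, H.lg_mono b4 g4⟩, ?_⟩
  rw [← e1, ← e2, ← e3]
  by_cases h1 : p.PhG E σ ≤ 4 * ((p.n : ℝ) ^ (-(1 : ℝ) / 3) * p.yS E σ)
  · exact .inl (k _ b1 h1)
  by_cases h2 : p.PhG E σ ≤ 4 * p.r ^ 3
  · exact .inr (.inl (k _ b2 h2))
  by_cases h3 : p.PhG E σ ≤ 4 * p.laG σ ^ 2
  · exact .inr (.inr (.inl (k _ b3 h3)))
  · exact .inr (.inr (.inr (k _ b4 (by rw [Pm.PhG] at h1 h2 h3 ⊢; linarith))))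

/-- **all sizes of an energy bound `Φ ≤ n^ε PhG`** (`x = lg σ`, `W = lg μ + 1/3`) -/
theorem lg_Phi (hη : η ≤ ε) (hε : 1000 * ε ≤ c) (M : p.MemG σ) (E1 : 1 ≤ E)
    (E2 : E ≤ (p.n : ℝ) ^ ε) (Φ0 : 0 < Φ) (hΦ : Φ ≤ (p.n : ℝ) ^ ε * p.PhG E σ) :
    logb p.n Φ ≤ 2 / 3 * (-(1 / 3) + c - logb p.n σ) - 1 / 3 + 3 * ε ∨
    logb p.n Φ ≤ -(1 / 2) + c / 2 + 3 * ε ∨
    (logb p.n Φ ≤ -(1 / 3) + 2 * ε ∧ logb p.n (p.muG σ) + 1 / 3 ≤ ε ∧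
      logb p.n σ ≤ -(1 / 3) + 11 / 2 * c + ε) ∨
    logb p.n Φ ≤ 3 * logb p.n p.r + 2 * ε ∨
    (logb p.n Φ ≤ -(1 / 3) - c - (logb p.n (p.muG σ) + 1 / 3) + 2 * ε ∧
      0 ≤ logb p.n (p.muG σ) + 1 / 3) ∨
    2 * logb p.n Φ ≤ 2 / 3 * (-(1 / 3) + c - logb p.n σ) +
      5 * (logb p.n p.s + c / 13 - 1 / 6) + 5 * ε ∨
    2 * logb p.n Φ ≤ -(1 / 6) + c / 2 + 5 * (logb p.n p.s + c / 13 - 1 / 6) + 5 * ε ∨
    (2 * logb p.n Φ ≤ 5 * (logb p.n p.s + c / 13 - 1 / 6) + 4 * ε ∧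
      logb p.n (p.muG σ) + 1 / 3 ≤ ε ∧ logb p.n σ ≤ -(1 / 3) + 11 / 2 * c + ε) ∨
    (2 * logb p.n Φ ≤ 5 * (logb p.n p.s + c / 13 - 1 / 6) + 4 * ε ∧
      2 * logb p.n Φ ≤ 25 / 4 * (logb p.n p.s + c / 13 - 1 / 6) + c / 2 - logb p.n σ / 2 + 4 * ε) ∨
    2 * logb p.n Φ ≤ 6 * (logb p.n p.s + c / 13 - 1 / 6) + 2 / 5 * c + 4 * ε ∨
    (2 * logb p.n Φ ≤ 5 * (logb p.n p.s + c / 13 - 1 / 6) + 4 * ε ∧
      2 * logb p.n Φ ≤ 10 * (logb p.n p.s + c / 13 - 1 / 6) - 2 * logb p.n (p.muG σ) + 4 * ε) := by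
  have E0 : 0 < E := by linarith
  have a2 := H.lg_mono Φ0 hΦ
  rw [logb_mul (H.rp0 _).ne' (H.PhG0 M E0).ne', H.lg_rp] at a2
  have a3 := H.lg_nn E1
  have a4 := (H.lg_mono E0 E2).trans_eq (H.lg_rp _)
  obtain ⟨u1, u2, u3⟩ := H.lg_muG66 M
  obtain ⟨-, -, -, y4⟩ := H.lg_yS M E0
  obtain ⟨-, p4⟩ := H.lg_PhG M E0
  have l1 := H.lg_laG M
  have t1 := H.lg_rtG (σ := σ) E0
  have t2 := min_le_left (logb p.n (p.yG E σ)) 0
  have t3 := min_le_right (logb p.n (p.yG E σ)) 0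
  have t4 := (H.lg_yG M E0).2
  rw [H.lg_rj] at t4
  have c0 := H.c_pos
  have c1 := H.c_le
  have η0 := H.η_pos
  have fl := (H.lg_flat M E0).1
  have f2 : logb p.n (p.muG σ) + 1 / 3 ≤ ε → logb p.n σ ≤ -(1 / 3) + 11 / 2 * c + ε := fun h => by
    rcases u1 with u1 | u1 <;> linarith
  rcases p4 with p4 | p4 | p4 | p4
  · rcases y4 with y4 | y4 | ⟨y4, y5⟩
    · exact .inl (by linarith)
    · exact .inr (.inl (by linarith))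
    · have := fl y5
      exact .inr (.inr (.inl ⟨by linarith, by linarith, f2 (by linarith)⟩))
  · exact .inr (.inr (.inr (.inl (by linarith))))
  · rcases l1 with ⟨l1, l2⟩ | ⟨l0, l1, l2⟩ | ⟨l0, l1, l2⟩ | ⟨l1, l2⟩
    · refine .inl ?_
      rcases u1 with u1 | u1 <;> linarith
    · exact .inr (.inr (.inl ⟨by linarith, by linarith, f2 (by linarith)⟩))
    · exact .inr (.inr (.inl ⟨by linarith, by linarith, f2 (by linarith)⟩))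
    · exact .inr (.inr (.inr (.inr (.inl ⟨by linarith, l1⟩))))
  · refine .inr (.inr (.inr (.inr (.inr ?_))))
    rcases t4 with t4 | t4 | t4 | t4
    · rcases y4 with y4 | y4 | ⟨y4, y5⟩
      · exact .inl (by linarith)
      · exact .inr (.inl (by linarith))
      · have := fl y5
        exact .inr (.inr (.inl ⟨by linarith, by linarith, f2 (by linarith)⟩))
    · exact .inr (.inr (.inr (.inl ⟨by linarith, by linarith⟩)))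
    · exact .inr (.inr (.inr (.inr (.inl (by linarith)))))
    · exact .inr (.inr (.inr (.inr (.inr ⟨by linarith, by linarith⟩))))

/-- crude bounds -/
theorem lg_PhG_bds (hη : η ≤ ε) (hε : 1000 * ε ≤ c) (M : p.MemG σ) (E1 : 1 ≤ E)
    (E2 : E ≤ (p.n : ℝ) ^ ε) :
    -(1 / 2) + c / 2 ≤ logb p.n (p.PhG E σ) ∧ logb p.n (p.PhG E σ) ≤ -(1 / 9) - c := by
  have E0 : 0 < E := by linarith
  have a3 := H.lg_nn E1
  obtain ⟨-, y2, -, -⟩ := H.lg_yS M E0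
  obtain ⟨⟨p1, -⟩, -⟩ := H.lg_PhG M E0
  obtain ⟨s1, s2⟩ := H.lg_s
  obtain ⟨x1, x2⟩ := H.lg_sgG M
  have r1 := H.lg_r
  have c0 := H.c_pos
  have c1 := H.c_le
  have η0 := H.η_pos
  refine ⟨by linarith, ?_⟩
  have one : 1 ≤ (p.n : ℝ) ^ ε := E1.trans E2
  rcases H.lg_Phi hη hε M E1 E2 (H.PhG0 M E0) (le_mul_of_one_le_left (H.PhG0 M E0).le one) with
    h | h | ⟨h, -⟩ | h | ⟨h, h'⟩ | h | h | ⟨h, -⟩ | ⟨h, -⟩ | h | ⟨h, -⟩ <;> linarith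

/-- the low words: `n^{5/6} θ Φ^{5/3} ≤ κ s⁵` -/
theorem lg_thetaG (hη : η ≤ ε) (hε : 1000 * ε ≤ c) (M : p.MemG σ) (E1 : 1 ≤ E)
    (E2 : E ≤ (p.n : ℝ) ^ ε) (Φ0 : 0 < Φ) (hΦ : Φ ≤ (p.n : ℝ) ^ ε * p.PhG E σ) :
    c + 5 / 6 + logb p.n (p.muG σ) + 5 / 3 * logb p.n Φ ≤ 5 * logb p.n p.s := by
  obtain ⟨u1, u2, u3⟩ := H.lg_muG66 M
  obtain ⟨s1, s2⟩ := H.lg_s
  obtain ⟨x1, x2⟩ := H.lg_sgG M
  have r1 := H.lg_r
  have c0 := H.c_pos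
  have c1 := H.c_le
  have η0 := H.η_pos
  rcases H.lg_Phi hη hε M E1 E2 Φ0 hΦ with
    h | h | ⟨h, h', h''⟩ | h | ⟨h, h'⟩ | h | h | ⟨h, h', h''⟩ | ⟨h, h'⟩ | h | ⟨h, h'⟩ <;>
    rcases le_total (logb p.n σ) (-(1 / 4)) with k | k <;> linarith




end Reg

end Crest.Agent.T156.Alt

end
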