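import Crest.Agent.T156.NxB_43
import Crest.Agent.T156.R1MK_77
import Crest.Agent.T156.NRa_44
import Crest.Agent.T156.R1Loc_77
import Crest.Agent.T156.ErrN_35
import Crest.Agent.T156.SrNB_66
import Crest.Agent.T156.R1Kit_82
import Crest.Agent.T156.R1PD_60
import Crest.Agent.T156.ErrRD_35
import Crest.Agent.T156.R1C2_56
import Crest.Agent.T156.ErrSA_4
import Crest.Agent.T156.R1PE_60
import Crest.Agent.T156.R1Gx_79
import Crest.Agent.T156.CLfC_24
import Crest.Agent.T156.LP_62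
import Crest.Agent.T156.ErrV_35
import Crest.Agent.T156.SwGA_2
import Crest.Agent.T156.GrMem_37

-- ▼ part T156/NxC_43
section

/-!
# Row 156, R1: `NX` from `NR` (helper43)
-/

set_option autoImplicit false
set_option linter.all false

noncomputable section

namespace Crest.Agent.T156.Alt

open Real Set

/-- **`NX` from `NR`** (read at any factor `L`), any `P`, `u1`, `V4`; `Pt ∈ [la², n^c s² la²]` -/
theorem Reg.nx_gen43 {β c0 C0 : ℝ} {A : ℕ} {c η K : ℝ} {p : Pm} (H : Reg β c0 C0 A c η K p)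
    {σ t E Φ δ l L Pt u1 V4 Λ₀ Λ₂ : ℝ} {P : ℝ → ℝ} {S : Sc} {M : Md}
    (hc : c ≤ 1 / 1000) (hη : 10000 * η ≤ c) (o : p.OctR σ t)
    (hΦ : Φ = (p.n : ℝ) ^ (c / 4000) * p.PhG ((p.n : ℝ) ^ (c / 1000)) t)
    (hδ : δ = (p.n : ℝ) ^ (-(c / 4000)))
    (hθ : S.θ = p.muG t) (hms : ∀ x, S.ms x = p.msG t x) (hT : R62.T0 S M ≤ (p.n : ℝ) ^ η)
    (h1 : p.laG σ ^ 2 ≤ Pt) (h2 : Pt ≤ (p.n : ℝ) ^ c * p.s ^ 2 * p.laG σ ^ 2)
    (hΛ : Λ₀ = (p.n : ℝ) ^ (c / 200) * (√Pt / p.laG σ)) (hΛ' : Λ₀ ≤ Λ₂)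
    (N : R82.NR E δ p S M l Φ P (p.l0G t l) L Pt u1 V4) :
    ∃ N, 0 < N ∧ R77.NX δ p σ t (R62.T0 S M) l Φ P (p.l0G t l) Λ₀ Pt u1 N Λ₂ := by
  have M' := Reg.oct_r o
  have a2 := H.muG_pos M'
  have c0 := H.c_pos
  have g0 := H.PhG0 M' (H.rp0 (c / 1000))
  have l0 : 0 < l := H.r0.trans_le (N.r0.trans N.l0l)
  have cc : p.muG t * L * Pt ≤ δ ^ 2 * R82.n4 p := by
    refine le_trans ?_ (hθ ▸ N.c)
    have := N.L1
    have := N.Pt0.1.trans N.Pt0.2.2.2
    have := pow_pos H.r0 4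
    gcongr
    linarith
  obtain ⟨n, n0, X⟩ := H.nx43' hη M' hΦ hδ hT N.l3 N.r0 N.l0l N.P0 N.L1 N.Pt0.2.1 N.Pt0.2.2.1
    (fun x a b => hms x ▸ N.b x a b) cc (fun x a b => hθ ▸ N.i x a b) (hθ ▸ N.l5) (hθ ▸ N.n)
  obtain ⟨k1, k2, k3, -⟩ := H.lam43 o h1 h2 hc
  rw [← hΛ] at k1 k2 k3
  refine ⟨n, n0, ?_, X.n1, X.n2, X.n3, X.n4, X.a3, X.a4, h1, k1, Nr44.lk H l0, hΛ', k2, k3⟩
  rw [hΦ, H.hc]
  exact mul_le_mul_of_nonneg_right (rpow_le_rpow_of_exponent_le H.N1.le (by linarith)) g0.le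

end Crest.Agent.T156.Alt

end
end

-- ▼ part T156/NxD_43
section

/-!
# Row 156, R1: `NX` on the explicit numbers `p.nb` (helper43)
-/

set_option autoImplicit false
set_option linter.all false

noncomputable section

namespace Crest.Agent.T156.Alt

open Real Set

namespace Reg

variable {β c0 C0 : ℝ} {A : ℕ} {c η K : ℝ} {p : Pm} (H : Reg β c0 C0 A c η K p) {σ t : ℝ}
include H

/-- `1 ≤ sM ≤ s` -/
theorem sM_bds43 (M : p.MemG t) : 1 ≤ p.sM t ∧ p.sM t ≤ p.s := by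
  have a1 := H.muG_pos M
  have a2 := H.κ0
  have b := (H.lg_muG66 M).2.1
  have c0 := H.c_pos
  have c1 := H.η_le
  refine ⟨le_min H.ok.s1 (H.le_of_lg one_pos (by positivity) ?_), min_le_left _ _⟩
  lg_norm
  rw [H.lg_κ]
  linarith

/-- `la² ≤ PtN ≤ n^c s² la²` -/
theorem PtN_bds43 (hη : 10000 * η ≤ c) (o : p.OctR σ t) :
    p.laG σ ^ 2 ≤ p.PtN σ t ∧ p.PtN σ t ≤ (p.n : ℝ) ^ c * p.s ^ 2 * p.laG σ ^ 2 := by
  have a0 := H.laG0 (oct_l o)
  have a2 := H.N0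
  have a3 := H.s0
  have c0 := H.c_pos
  obtain ⟨m1, m2⟩ := H.sM_bds43 (oct_r o)
  have m0 : 0 < p.sM t := by linarith
  have m3 := H.lg_nn m1
  have m4 := H.lg_mono m0 m2
  unfold Pm.PtN Pm.PhN
  rw [H.hc]
  refine ⟨le_min (H.la_Ph43 hη o (H.rp0 _)) ?_, (min_le_right _ _).trans ?_⟩ <;>
    refine H.le_of_lg (by positivity) (by positivity) ?_ <;> lg_norm <;> rw [H.lg_n] <;> linarith

/-- **`NX` on the numbers of `NbD_29`**, from `NR` read at any factor `L` -/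
theorem nx_nb {E L V4 : ℝ} {S : Sc} {M : Md} (hc : c ≤ 1 / 1000) (hη : 10000 * η ≤ c)
    (o : p.OctR σ t) (hθ : S.θ = p.muG t) (hms : ∀ x, S.ms x = p.msG t x)
    (hT : R62.T0 S M ≤ (p.n : ℝ) ^ η)
    (N : R82.NR E p.dN p S M (p.lN t) (p.PhN t) (p.PN t) (p.l0G t (p.lN t)) L (p.PtN σ t)
      (p.u1N σ) V4) :
    ∃ N, 0 < N ∧ (p.nb σ t N).NX p.dN p σ t (R62.T0 S M) :=
  H.nx_gen43 hc hη o (show p.PhN t = _ by rw [Pm.PhN, H.hc]) (by rw [Pm.dN, H.hc]) hθ hms hT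
    (H.PtN_bds43 hη o).1 (H.PtN_bds43 hη o).2 (show p.L0N σ t = (p.n : ℝ) ^ (c / 200) * (√(p.PtN σ t) / p.laG σ) by rw [Pm.L0N, H.hc])
    ((le_max_left _ _).trans (le_max_left _ _)) N

/-- the same on the graded member -/
theorem nx_gst {E L V4 K' c0' C0' η' : ℝ} {Q : Pl} (hc : c ≤ 1 / 1000) (hη : 10000 * η ≤ c)
    (o : p.OctR σ t) (G : GrD K' c0' C0' η' p σ t Q) (hK : 8 * K' ^ 2 ≤ (p.n : ℝ) ^ η)
    (N : R82.NR E p.dN p (p.scG K' σ t Q) (p.gst Q t) (p.lN t) (p.PhN t) (p.PN t)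
      (p.l0G t (p.lN t)) L (p.PtN σ t) (p.u1N σ) V4) :
    ∃ N, 0 < N ∧ (p.nb σ t N).NX p.dN p σ t (R62.T0 (p.scG K' σ t Q) (p.gst Q t)) := by
  refine H.nx_nb hc hη o G.top (fun _ => rfl) (le_trans ?_ hK) N
  have h := G.cl.1
  have a := (h.sm h.i3).trans h.sT
  have b := h.C1
  change 1 ≤ 8 * K' ^ 2 at b
  change _ ≤ 8 * K' ^ 2 at a
  unfold R62.T0
  linarith

end Reg

/-- **`OnG NRx β → OnG NXx β`**, unfolded: `fun K k => nxG43 hβ (h K k)` -/
theorem nxG43 {β K : ℝ} (hβ : 1 < β) {X : Pm → ℝ → ℝ → Pl → Prop}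
    (h : Sml β fun _ p => ∀ c0 C0 η σ t Q, p.OctR σ t → GrD K c0 C0 η p σ t Q → X p σ t Q →
      R82.NR p.dN⁻¹ p.dN p (p.scG K σ t Q) (p.gst Q t) (p.lN t) (p.PhN t) (p.PN t)
        (p.l0G t (p.lN t)) (p.L2N σ t) (p.PtN σ t) (p.u1N σ) (p.V4N σ t)) :
    Sml β fun _ p => ∀ c0 C0 η σ t Q, p.OctR σ t → GrD K c0 C0 η p σ t Q → X p σ t Q →
      ∃ N, (p.nb σ t N).NX p.dN p σ t (R62.T0 (p.scG K σ t Q) (p.gst Q t)) :=
  h.glue' hβ 0 (by norm_num : (0 : ℝ) < 1 / 1000) 10000 fun _ _ _ _ _ _ _ _ _ =>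
    ⟨8 * K ^ 2, fun p R _ hc e h c0' C0' η' σ t Q O D x => by
      push_cast at e
      obtain ⟨N, -, h⟩ := R.nx_gst hc e O D R.K_le (h c0' C0' η' σ t Q O D x)
      exact ⟨N, h⟩⟩

/-- **the leaf `NXx` of `locG_of`** -/
theorem R77.nxG_of {β : ℝ} (hβ : 1 < β) (h : R77.OnG R77.NRx β) : R77.OnG R77.NXx β :=
  fun K k => nxG43 hβ (h K k)

end Crest.Agent.T156.Alt

end
end

-- ▼ part T156/ErrQ_35
section

/-!
# Row 156: the numbers `NB` on the graded family for the size `PhG` (helper35)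
-/

set_option autoImplicit false
set_option linter.unusedSectionVars false

noncomputable section

namespace Crest.Agent.T156.Alt

open Real Set
open Crest.Agent.T156.Cas.C40 (NB)

/-- `AlG`, or a crude block at the level of the first mark -/
def Pm.AlH (p : Pm) (σ L l t al : ℝ) : Prop :=
  p.AlG σ L l t al ∨ (t ≤ L * p.rj ∧ al ^ 2 ≤ L * (t ^ 2 * max t l ^ 2))

namespace Reg

variable {β c0 C0 : ℝ} {A : ℕ} {c η K : ℝ} {p : Pm} (H : Reg β c0 C0 A c η K p)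
  {σ E ε L l t al : ℝ}
include H

theorem lg_AlH (M : p.MemG σ) (L1 : 1 ≤ L) (L2 : L ≤ (p.n : ℝ) ^ ε) (l0 : 0 < l) (t0 : 0 < t)
    (a0 : 0 < al) (h : p.AlH σ L l t al) :
    ((2 * logb p.n al ≤ ε + max (logb p.n t) (logb p.n l) - 1 - logb p.n t -
        logb p.n (p.msG σ t) ∧
      2 * logb p.n al ≤ ε + 2 * logb p.n t + 2 * max (logb p.n t) (logb p.n l)) ∨
    (-(3 * c) ≤ logb p.n t ∧ 2 * logb p.n al ≤ 1 / 10 - 1 - logb p.n (p.muG σ))) ∨
    (logb p.n t ≤ ε + (logb p.n p.s + c / 13 - 1 / 6) ∧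
      2 * logb p.n al ≤ ε + 2 * logb p.n t + 2 * max (logb p.n t) (logb p.n l)) := by
  refine h.imp (H.lg_AlG M L1 L2 l0 t0 a0) fun ⟨h1, h2⟩ => ?_
  have L0 : 0 < L := by linarith
  have e2 := H.lg_mono L0 L2
  rw [H.lg_rp] at e2
  have m0 : 0 < max t l := lt_max_of_lt_left t0
  have r0 := H.rj0
  have k1 := H.lg_mono t0 h1
  have k2 := H.lg_mono (pow_pos a0 2) h2
  revert k1 k2
  lg_norm
  rw [lg_max H.N1 t0 l0, H.lg_rj]
  exact fun k1 k2 => ⟨by linarith, by linarith⟩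

variable (hc : c ≤ 1 / 1000) (hη : η ≤ ε) (hε : 1000 * ε ≤ c) (M : p.MemG σ) (E1 : 1 ≤ E)
  (E2 : E ≤ (p.n : ℝ) ^ ε) (L1 : 1 ≤ L) (L2 : L ≤ (p.n : ℝ) ^ ε) (l0 : 0 < l)
  (hl : l ^ 3 ≤ (p.n : ℝ) ^ ε * p.PhG E σ) (t1 : (p.n : ℝ) ^ (c / 14 - 1 / 6) ≤ t) (t2 : t ≤ L)
  (a0 : 0 ≤ al) (h : p.AlH σ L l t al)
include hc hη hε M E1 E2 L1 L2 l0 hl t1 t2 a0 h

/-- **first inequality** -/
theorem n1H : L * p.lamG σ t * (L * max t l) * al ^ 2 ≤ p.dlG * t := by
  have t0 : 0 < t := (Pre29.rp_pos H.n1 _).trans_le t1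
  have d0 := H.dlG_pos
  rcases a0.eq_or_lt with a0 | a0
  · rw [← a0]; simp only [ne_eq, OfNat.ofNat_ne_zero, not_false_eq_true, zero_pow, mul_zero]
    positivity
  have L0 : 0 < L := by linarith
  have e2 := H.lg_mono L0 L2
  have u1 := H.lg_mono (Pre29.rp_pos H.n1 _) t1
  rw [H.lg_rp] at e2 u1
  have m0 : 0 < max t l := lt_max_of_lt_left t0
  have b0 := H.lamG_pos M t0
  refine H.le_of_lg (by positivity) (by positivity) ?_
  lg_norm
  rw [H.lg_dlG, lg_max H.N1 t0 l0]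
  obtain ⟨b1, b2, b3, b4⟩ := H.lg_lamG M t0
  have l2 := H.lg_Phi hη hε M E1 E2 (pow_pos l0 3) hl
  have l1 := H.lg_mono (pow_pos l0 3) hl
  rw [logb_mul (H.rp0 _).ne' (H.PhG0 M (by linarith)).ne', H.lg_rp] at l1
  have l3 := (H.lg_PhG_bds hη hε M E1 E2).2
  rw [logb_pow] at l1 l2
  push_cast at l1 l2
  obtain ⟨m1, m2, m3⟩ := H.lg_muG66 M
  obtain ⟨x1, -, -⟩ := H.lg_msG66 M t
  have s0 := H.lg_s.1
  have s1 := H.lg_s.2
  have r := H.lg_r
  have cp := H.c_pos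
  have ep := H.η_pos
  rcases H.lg_AlH M L1 L2 l0 t0 a0 h with (⟨k1, k2⟩ | ⟨k1, k2⟩) | ⟨k1, k2⟩
  · rcases le_total (logb p.n l) (logb p.n t) with q | q
    · rw [max_eq_left q] at k1 k2 ⊢
      rcases H.lg_Tc_cases (σ := σ) t0 with ⟨y1, y2⟩ | ⟨-, -, y2⟩ | ⟨y1, y2, -⟩ <;>
        rcases x1 with x | x <;> linarith
    · rw [max_eq_right q] at k1 k2 ⊢
      have k3 : logb p.n (p.lamG σ t) + logb p.n t ≤ logb p.n (p.msG σ t) := by
        rcases H.lg_Tc_cases (σ := σ) t0 with ⟨y1, y2⟩ | ⟨-, -, y2⟩ | ⟨y1, y2, -⟩ <;>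
          rcases x1 with x | x <;> linarith
      rcases l2 with y | y | ⟨y, y', y''⟩ | y | ⟨y, y'⟩ | y | y | ⟨y, y', y''⟩ | ⟨y, y'⟩ | y | ⟨y, y'⟩ <;>
        rcases m1 with m | m <;> linarith
  · rw [max_eq_left (by linarith)]
    rcases m1 with m | m <;> linarith
  · rcases le_total (logb p.n l) (logb p.n t) with q | q
    · rw [max_eq_left q] at k2 ⊢
      linarith
    · rw [max_eq_right q] at k2 ⊢
      rcases l2 with y | y | ⟨y, y', y''⟩ | y | ⟨y, y'⟩ | y | y | ⟨y, y', y''⟩ | ⟨y, y'⟩ | y | ⟨y, y'⟩ <;>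
        rcases m1 with m | m <;> linarith

/-- **second inequality** -/
theorem n2H : L * p.lamG σ p.ye * ((L * max t l) ^ 2 * al ^ 2) ≤ p.dlG * t := by
  have t0 : 0 < t := (Pre29.rp_pos H.n1 _).trans_le t1
  have d0 := H.dlG_pos
  rcases a0.eq_or_lt with a0 | a0
  · rw [← a0]; simp only [ne_eq, OfNat.ofNat_ne_zero, not_false_eq_true, zero_pow, mul_zero]
    positivity
  have L0 : 0 < L := by linarith
  have e2 := H.lg_mono L0 L2
  have u1 := H.lg_mono (Pre29.rp_pos H.n1 _) t1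
  have u2 := H.lg_mono t0 t2
  rw [H.lg_rp] at e2 u1
  have m0 : 0 < max t l := lt_max_of_lt_left t0
  have b0 := H.lamG_pos M H.ye0
  refine H.le_of_lg (by positivity) (by positivity) ?_
  lg_norm
  rw [H.lg_dlG, lg_max H.N1 t0 l0]
  obtain ⟨-, b2, -, b4⟩ := H.lg_lamG M H.ye0
  have l2 := H.lg_Phi hη hε M E1 E2 (pow_pos l0 3) hl
  have l1 := H.lg_mono (pow_pos l0 3) hl
  rw [logb_mul (H.rp0 _).ne' (H.PhG0 M (by linarith)).ne', H.lg_rp] at l1
  have l3 := (H.lg_PhG_bds hη hε M E1 E2).2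
  rw [logb_pow] at l1 l2
  push_cast at l1 l2
  obtain ⟨m1, m2, m3⟩ := H.lg_muG66 M
  obtain ⟨x1, -, -⟩ := H.lg_msG66 M t
  have g := (H.lg_sgG M).1
  have s0 := H.lg_s.1
  have s1 := H.lg_s.2
  have r := H.lg_r
  have cp := H.c_pos
  have ep := H.η_pos
  rcases H.lg_AlH M L1 L2 l0 t0 a0 h with (⟨k1, k2⟩ | ⟨k1, k2⟩) | ⟨k1, k2⟩
  · rcases le_total (logb p.n l) (logb p.n t) with q | q
    · rw [max_eq_left q] at k1 k2 ⊢
      rcases H.lg_Tc_cases (σ := σ) t0 with ⟨y1, y2⟩ | ⟨-, -, y2⟩ | ⟨y1, y2, -⟩ <;>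
        rcases x1 with x | x <;> linarith
    · rw [max_eq_right q] at k1 k2 ⊢
      rcases l2 with y | y | ⟨y, y', y''⟩ | y | ⟨y, y'⟩ | y | y | ⟨y, y', y''⟩ | ⟨y, y'⟩ | y | ⟨y, y'⟩ <;>
        rcases m1 with m | m <;> linarith
  · rw [max_eq_left (by linarith)]
    rcases m1 with m | m <;> linarith
  · rcases le_total (logb p.n l) (logb p.n t) with q | q
    · rw [max_eq_left q] at k2 ⊢
      linarith
    · rw [max_eq_right q] at k2 ⊢
      rcases l2 with y | y | ⟨y, y', y''⟩ | y | ⟨y, y'⟩ | y | y | ⟨y, y', y''⟩ | ⟨y, y'⟩ | y | ⟨y, y'⟩ <;>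
        rcases m1 with m | m <;> linarith

end Reg

namespace Reg

variable {β c0 C0 : ℝ} {A : ℕ} {c η K : ℝ} {p : Pm} (H : Reg β c0 C0 A c η K p) {σ E ε L l : ℝ}
include H

/-- **the numbers of the main test measure** -/
theorem nbH (hc : c ≤ 1 / 1000) (hη : η ≤ ε) (hε : 1000 * ε ≤ c) (M : p.MemG σ) (E1 : 1 ≤ E)
    (E2 : E ≤ (p.n : ℝ) ^ ε) (L1 : 1 ≤ L) (L2 : L ≤ (p.n : ℝ) ^ ε) (l0 : 0 < l) (l1 : l ≤ 1)
    (hl : l ^ 3 ≤ (p.n : ℝ) ^ ε * p.PhG E σ) {B : ℕ} {t cc e al ab : ℕ → ℝ} (tm : Monotone t)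
    (t1 : (p.n : ℝ) ^ (c / 14 - 1 / 6) ≤ t 0) (t2 : ∀ i < B, t i ≤ L) (hB : (B : ℝ) ≤ L ^ 2)
    (hcc : ∀ i < B, cc i ≤ L * max (t i) l) (he : ∀ i < B, e i ≤ L * max (t i) l)
    (hab : ∀ i < B, ab i ≤ L * p.lamG σ (t i)) (a0 : ∀ i, 0 ≤ al i)
    (ha : ∀ i < B, p.AlH σ L l (t i) (al i)) :
    NB B t cc e al ab (fun i => L * p.lamG σ (t i)) (fun i => L * max (t i) l) (L ^ 2)
      (L * p.lamG σ p.ye) p.dlG := by
  have L0 : 0 < L := by linarith
  have t1' : ∀ i, (p.n : ℝ) ^ (c / 14 - 1 / 6) ≤ t i := fun i => t1.trans (tm (Nat.zero_le i))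
  have t0 : ∀ i, 0 < t i := fun i => (Pre29.rp_pos H.n1 _).trans_le (t1' i)
  have s0 := (H.sgG_pos M).le
  exact
    { l0 := fun i => mul_pos L0 (H.lamG_pos M (t0 i))
      lm := fun i j h => mul_le_mul_of_nonneg_left (Pm.lamG_mono H.κ0.le s0 (tm h)) L0.le
      Em := fun i j h => mul_le_mul_of_nonneg_left (max_le_max_right _ (tm h)) L0.le
      Λ1 := one_le_pow₀ L1
      BΛ := hB
      w0 := mul_pos L0 (H.lamG_pos M H.ye0)
      δ0 := H.dlG_pos.le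
      tE := fun i _ => (le_max_left _ l).trans
        (le_mul_of_one_le_left ((t0 i).le.trans (le_max_left _ _)) L1)
      cE := hcc
      eE := he
      EΛ := fun i hi => by
        rw [sq]; exact mul_le_mul_of_nonneg_left (max_le (t2 i hi) (l1.trans L1)) L0.le
      abl := hab
      lw := fun i _ => mul_le_mul_of_nonneg_left (Pm.lamG_le H.κ0.le s0 _) L0.le
      n1 := fun i hi => H.n1H hc hη hε M E1 E2 L1 L2 l0 hl (t1' i) (t2 i hi) (a0 i) (ha i hi)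
      n2 := fun i hi => H.n2H hc hη hε M E1 E2 L1 L2 l0 hl (t1' i) (t2 i hi) (a0 i) (ha i hi) }

end Reg

end Crest.Agent.T156.Alt

end
end

-- ▼ part T156/ErrRE_35
section

/-!
# Row 156, R1: the frame of the error table and its last leaves (helper35)
-/

set_option autoImplicit false

noncomputable section

namespace Crest.Agent.T156.Alt.E35

open Real Finset
open Crest.Agent.T156.Cas Crest.Agent.T156.Cas.C40 Crest.Agent.T156.Alt.CIn12
open Crest.Agent.T156.Alt.Md67 Crest.Agent.T156.Alt.R62 Crest.Agent.T156.Alt.R77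
open Crest.Agent.T156.Alt.R82 Crest.Agent.T156.Alt.Lb24 Crest.Agent.T156.Alt.SD56
open Crest.Agent.T156.Alt.Alg77

/-- all the data at one root tilt `x` -/
structure Dt where
  β : ℝ
  c0 : ℝ
  C0 : ℝ
  A : ℕ
  c : ℝ
  η : ℝ
  p : Pm
  σ : ℝ
  σ' : ℝ
  P : Pl
  t : ℝ
  a : ℝ
  a' : ℝ
  Q : ℝ
  m : ℕ
  K : ℝ
  c1 : ℝ
  C1 : ℝ
  η1 : ℝ
  b : Nb
  Λ' : ℝ
  I : ℕ
  x : ℝ
  G : ℕ → ℝ

namespace Dt

variable (d : Dt)

abbrev E : ℝ := (d.p.n : ℝ) ^ d.η
abbrev S : Sc := d.p.scG d.K d.σ d.t d.P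
abbrev M : Md := d.p.gst d.P d.t
/-- the budget -/
abbrev δ : ℝ := 1 / d.E ^ 200 * n5 d.p

/-- **the frame** -/
structure Ok : Prop where
  H : Reg d.β d.c0 d.C0 d.A d.c d.η (4 * d.A + 10 ^ 8) d.p
  A4 : 4 ≤ d.A
  hc : d.c ≤ 1 / 1000
  hη : 10 ^ 6 * d.η ≤ d.c
  lg : 10 ^ 8 * log d.p.n ≤ d.E
  cx : Cx d.p d.σ d.σ' d.P d.t d.a d.a' d.Q d.m
  km : KitM d.E d.p d.σ d.t d.P d.K d.c1 d.C1 d.η1 d.b d.Λ'
  fr : Fr d.E d.p d.P d.t d.a d.a' d.Q d.m d.S d.b.l d.b.Φ d.b.P d.b.l0 d.Λ' d.b.Pt d.b.u1 d.b.V4 d.I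
  hx : d.x ∈ Set.Icc d.a d.a'
  inn : d.S.In d.m d.x
  loc : At d.E d.S d.M d.m d.x d.b d.Λ' d.G
  co : CoG d.E d.p

/-- block data -/
abbrev BQ (T : ℝ) (B : ℕ) (lev : ℕ → ℕ) (tt al A : ℕ → ℝ) : Prop :=
  E35.BQ d.E (d.E ^ 27) d.b.l T (d.E ^ 5) d.S d.M d.m d.x B lev tt al A

/-- size of the top block -/
def T : ℝ := d.E ^ 47 * (d.b.Λ₀ / (d.p.n * d.S.θ))

/-- pointwise facts -/
structure Pw : Prop where
  zj : d.M.z d.S.jl ≤ d.E ^ 2 * d.b.l
  HJ : d.M.H d.S.jl ≤ d.b.l ^ 3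
  Hp : ∀ k, d.S.jl < k → k < d.S.J → d.M.H k ≤ d.E ^ 3 * d.M.z k
  tau : d.M.b ≤ d.p.β ^ 2
  dz : ∀ k, d.S.jl < k → k < d.M.N → d.M.dz d.m d.x k ≤ 1 / d.p.n
  gq : ∀ k, d.S.jl < k → k < d.M.N → d.M.dz d.m d.x k ≠ 0 →
    (D0 d.p d.P d.t d.m d.x).gq (k + 1) ≤ |d.M.G k| + 2 * d.E ^ 2 * d.b.l ^ 2
  J8 : 8 * d.p.ye ≤ ((d.S.J - 1 : ℕ) : ℝ) * d.p.v
  j8 : 8 * d.S.jl < d.S.J
  jv : d.S.jl * d.S.v ≤ d.E * d.b.l
  tl : √(tlD d.S 3) ≤ d.b.Φ ∧ tlD d.S 3 ≤ 1 ∧ ((d.M.N : ℝ) + 2) ^ 2 * tlD d.S 3 ≤ d.δ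
  lg : log ((d.M.N : ℝ) + 3) ≤ d.E ^ 2

/-- sums for the density `μ = w |f|` -/
structure Su (N : ℝ) (μ : ℕ → ℝ) : Prop where
  N1 : d.b.l ^ 2 ≤ N
  N2 : N ≤ d.E * d.b.l
  N3 : d.b.Pt ≤ N ^ 2
  a3 : d.S.θ * (d.b.Φ * N) ≤ d.δ
  sums : Sums d.E d.p d.S d.M d.m d.x d.b.Φ N d.G μ
  g0 : ∀ k, d.S.jl < k → k < d.M.N → μ k ≠ 0 → d.M.G k = 0 ∧ d.G k ≤ d.E * d.b.l

/-- numbers of the blocks; `ab i = E ^ 40 * lamG t (tt i)` -/
structure Nu (B : ℕ) (tt al : ℕ → ℝ) : Prop where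
  nb : ∀ cc e : ℕ → ℝ, (∀ i, cc i ≤ d.E ^ 40 * max (tt i) d.b.l) →
    (∀ i, e i ≤ d.E ^ 40 * max (tt i) d.b.l) →
    NB B tt cc e al (fun i => d.E ^ 40 * d.p.lamG d.t (tt i)) (fun i => d.E ^ 40 * d.p.lamG d.t (tt i))
      (fun i => d.E ^ 40 * max (tt i) d.b.l) ((d.E ^ 40) ^ 2) (d.E ^ 40 * d.p.lamG d.t d.p.ye) d.p.dlG
  al : ∀ N, d.b.l ^ 2 ≤ N → d.b.Pt ≤ N ^ 2 → ∀ i < B, al i ≤ d.E ^ 24 * N
  w : d.b.Φ * (√(d.E ^ 40 * d.p.lamG d.t d.p.ye) * √d.p.dlG) ≤ d.δ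
  dl : ((d.E ^ 40) ^ 2) ^ 9 * d.p.dlG ≤ d.δ

end Dt

/-- pointwise leaf -/
def PwG : Prop := ∀ d : Dt, d.Ok → d.Pw

/-- block leaf -/
def BqG : Prop := ∀ d : Dt, d.Ok → d.Pw → ∃ B lev tt al A, d.BQ d.T B lev tt al A

/-- sum leaf -/
def SuG : Prop := ∀ d : Dt, d.Ok → ∀ w f, 0 < w → P60.Den d.p d.t w f →
  ∃ N, d.Su N fun k => w * |f k|

/-- number leaf -/
def NuG : Prop := ∀ d : Dt, d.Ok → d.Pw → ∀ B lev tt al A, d.BQ d.T B lev tt al A → d.Nu B tt al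

/-- the table at one root tilt -/
def TbG : Prop := ∀ d : Dt, d.Ok → ∀ w f, 0 < w → w ≤ 2 → P60.Den d.p d.t w f → ∃ Ev : CIn12.Ev,
  (cdf d.M d.m d.x d.M.q (d.p.jf + 1) f Ev).Ok (d.p.β ^ 2) ∧
    w * (cdf d.M d.m d.x d.M.q (d.p.jf + 1) f Ev).Err ≤ d.E ^ 190 * d.δ

/-- the frame leaf -/
def FrameG : Prop := TbG → ∀ β : ℝ, 1 < β → Sml β Co → Sml β Kit' → Gain β P60.ErrG

end Crest.Agent.T156.Alt.E35

end
end

-- ▼ part T156/ErFr_6
section

/-!
# Row 156, R1 (helper6): the frame of the error table (`E35.FrameG`)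
-/

set_option autoImplicit false

noncomputable section

namespace Crest.Agent.T156.Alt.E35

open Real Finset
open Crest.Agent.T156.Alt.Md67 Crest.Agent.T156.Alt.R62 Crest.Agent.T156.Alt.R77
open Crest.Agent.T156.Alt.R82 Crest.Agent.T156.Alt.SD56

/-- the frame from one kit -/
theorem fr_of6 {β c0 C0 c η K σ σ' t a a' Q l Φ l0 Λ₀ Pt u1 V4 : ℝ} {A m : ℕ} {p : Pm} {P : Pl}
    {S : Sc} {Pf : ℝ → ℝ} (H : Reg β c0 C0 A c η K p) (x : Cx p σ σ' P t a a' Q m)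
    (f : Fx ((p.n : ℝ) ^ η) p P t a a' Q m) (sc : ScG ((p.n : ℝ) ^ η) p P t S)
    (nr : NR ((p.n : ℝ) ^ η) (1 / ((p.n : ℝ) ^ η) ^ 200) p S (p.gst P t) l Φ Pf l0 Λ₀ Pt u1 V4)
    (bk : ∀ y, S.In m y → ∃ G, BK ((p.n : ℝ) ^ η) S (p.gst P t) m y l Φ Pf l0 Λ₀ Pt u1 V4 G) :
    Fr ((p.n : ℝ) ^ η) p P t a a' Q m S l Φ Pf l0 Λ₀ Pt u1 V4 (2 * (Nat.log 2 p.n + 1)) := by
  have N1 := H.N1
  have E1 := H.num_le
  have En : (p.n : ℝ) ^ η ≤ p.n := by
    simpa using rpow_le_rpow_of_exponent_le N1.le (show η ≤ 1 by linarith [H.η_le, H.c_le])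
  refine ⟨f, ⟨Leg_mono f.leg (by linarith [f.a1, f.am0]), f.m0, f.a0.le, f.aa, x.Q0, f.W⟩, sc, nr,
    fun y hy => bk y ⟨sc.n ▸ x.m1, sc.n ▸ x.m2, sc.n ▸ x.win.lo.trans hy.1,
      sc.am ▸ hy.2.trans f.a1⟩, ?_, ?_, E1, H.N0, by exact_mod_cast x.m2, H.ok.s1, H.r0,
    H.r_le_ye, H.ye1, by rw [Sc.θ, sc.ms, H.msG_hi t H.ye1]⟩
  · have a1 : (p.n : ℝ) ≤ 2 ^ (Nat.log 2 p.n + 1) := by
      exact_mod_cast (Nat.lt_pow_succ_log_self one_lt_two p.n).le
    have a2 : (p.n : ℝ)⁻¹ ≤ l0 := by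
      refine le_trans ?_ nr.r0
      rw [← rpow_neg_one, Pm.r]
      exact (rpow_le_rpow_of_exponent_le N1.le (by linarith [H.c_pos, H.hc])).trans
        (le_mul_of_one_le_left (H.rp0 _).le H.ok.s1)
    have a3 := (sc.cl.s_le_C sc.cl.i3).trans sc.C
    calc T0 S (p.gst P t) ≤ (p.n : ℝ)⁻¹ * (p.n : ℝ) ^ 2 := by
          rw [T0, show (p.n : ℝ)⁻¹ * (p.n : ℝ) ^ 2 = p.n by field_simp]
          linarith
      _ ≤ _ := by
          rw [pow_mul']
          have := (inv_pos.2 H.N0).le.trans a2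
          gcongr
  · have a1 : (2 : ℝ) ^ Nat.log 2 p.n ≤ p.n := by
      exact_mod_cast Nat.pow_log_le_self 2 H.n0.ne'
    have a2 := log_le_log (by positivity) a1
    rw [log_pow] at a2
    have a3 : (Nat.log 2 p.n : ℝ) * (1 / 2) ≤ Nat.log 2 p.n * log 2 :=
      mul_le_mul_of_nonneg_left (by linarith [log_two_gt_d9]) (Nat.cast_nonneg _)
    push_cast
    nlinarith [H.log_le]

theorem log_big6 {x η B : ℝ} (hx : 0 < x) (hη : 0 < η) (hB : 0 < B) (h : (2 * B / η) ^ 2 ≤ x ^ η) :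
    B * log x ≤ x ^ η := by
  have a1 := log_le_rpow_div hx.le (half_pos hη)
  have a2 : x ^ η = (x ^ (η / 2)) ^ 2 := by rw [← rpow_mul_natCast hx.le]; norm_num
  have a0 := rpow_pos_of_pos hx (η / 2)
  rw [a2] at h ⊢
  have a3 := le_of_sq_le_sq h a0.le
  calc B * log x ≤ B * (x ^ (η / 2) / (η / 2)) := mul_le_mul_of_nonneg_left a1 hB.le
    _ = 2 * B / η * x ^ (η / 2) := by field_simp
    _ ≤ _ := by rw [sq]; gcongr

/-- **the frame leaf** -/
theorem frameG : FrameG := fun T β hβ hC hK => by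
  refine Sml.gain (Sml.glue' hβ ((hK.and (fxS hβ)).and hC) 4 (c1 := 1 / 1000) (by norm_num)
    (10 ^ 6) ?_)
  intro c0 C0 A c η _ _ _ η0
  refine ⟨4 * A + 10 ^ 8 + (2 * 10 ^ 8 / η) ^ 2, fun p H hA hc hη ⟨⟨K, F⟩, co⟩ σ σ' P t a a' Q m
    x y hy w f w0 w2 D => ?_⟩
  obtain ⟨K', c1, C1, η1, b, Λ', k⟩ := K σ t P x.oct' x.pl
  have fr := fr_of6 H x (F σ σ' P t a a' Q m x) k.sc k.nr fun z hz => (k.loc m z hz).imp fun _ g => g.bk
  have hx : y ∈ Set.Icc a a' := by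
    rcases hy with rfl | rfl
    exacts [⟨le_rfl, x.win.le⟩, ⟨x.win.le, le_rfl⟩]
  have inn : (p.scG K' σ t P).In m y := ⟨x.m1, x.m2, x.win.lo.trans hx.1, hx.2.trans x.win.hi⟩
  obtain ⟨G, g⟩ := k.loc m y inn
  obtain ⟨Ev, e1, e2⟩ := T ⟨β, c0, C0, A, c, η, p, σ, σ', P, t, a, a', Q, m, K', c1, C1, η1, b, Λ', _,
    y, G⟩ ⟨H.mono_K (le_add_of_nonneg_right (by positivity)), hA, hc, by exact_mod_cast hη,
      log_big6 H.N0 η0 (by norm_num) (le_trans (le_add_of_nonneg_left (by positivity)) H.K_le),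
      x, k, fr, hx, inn, g, co.2.2.2.2.2⟩ w f w0 w2 D
  refine ⟨Ev, e1, ?_⟩
  rw [mul_left_comm]
  refine fr.bud (e2.trans ?_) le_rfl
  have := fr.E0
  have := mul_nonneg x.Q0 fr.n20.le
  rw [mul_assoc]
  show _ * (_ * n5 p) ≤ _
  gcongr
  linarith

end Crest.Agent.T156.Alt.E35

end
end

-- ▼ part T156/ErNu_4
section

/-!
# Row 156, R1: the number leaf of the error table (helper4)
-/

set_option autoImplicit false

noncomputable section

namespace Crest.Agent.T156.Alt.E35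

open Real Finset Pre29
open Crest.Agent.T156.Alt.R62 Crest.Agent.T156.Alt.R77 Crest.Agent.T156.Alt.R82

/-- **the numbers of the blocks** -/
theorem nuG : NuG := fun d h w B lev tt al A Q => by
  have H := h.H
  have F := h.fr
  have M := h.cx.mem
  have X := h.km.nx
  have c0 := H.c_pos
  have η0 := H.η_pos
  have hη := h.hη
  have hc := h.hc
  have E0 := F.E0
  have E1 := F.E1
  have n0 := H.N0
  have l0 := F.l0'
  have s0 := H.s0
  have θ0 := F.θ0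
  have lE : logb d.p.n d.E = d.η := H.lg_rp _
  have l1 : d.b.l ≤ 1 := (F.nr.ly.trans (mul_le_of_le_one_left F.fx.y0.le
    ((div_le_one (pow_pos E0 _)).2 (one_le_pow₀ F.E1')))).trans F.y1
  have Φ0 : 0 < d.b.Φ := F.nr.l3 ▸ pow_pos l0 3
  have ph : d.b.Φ ≤ (d.p.n : ℝ) ^ (d.c / 1000) * d.p.PhG ((d.p.n : ℝ) ^ (d.c / 1000)) d.t :=
    H.hc ▸ X.ph
  have e1 : 1 ≤ (d.p.n : ℝ) ^ (d.c / 1000) := one_le_rpow H.N1.le (by positivity)
  have jv : (d.S.jl : ℝ) * d.S.v = d.p.jf * d.p.v := by rw [F.sc.jl, F.sc.v]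
  have t0 : ∀ i, 0 < tt i := fun i => (H.jfv0.trans_le (jv ▸ Q.t0)).trans_le (Q.tm (Nat.zero_le i))
  have L0 : 0 < d.b.Λ₀ := by linarith [h.km.kn.L1.1, h.km.kn.L1.2.1]
  have l5 : logb d.p.n d.δ = -(200 * d.η) - 5 / 6 + 5 * logb d.p.n d.p.s := by
    rw [Dt.δ, n5]; lg_norm; rw [H.lg_n]; ring
  have δ0 : 0 < d.δ := by have := F.n50; positivity
  refine ⟨fun cc e h1 h2 => H.nbH hc (by linarith) (by linarith) M e1 le_rfl (one_le_pow₀ F.E1')
    (H.le_of_lg (by positivity) (by positivity) (by lg_norm; rw [H.lg_n]; linarith)) l0 l1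
    (F.nr.l3 ▸ ph) Q.tm ?_ (fun i _ => (Q.tL i).trans (F.pw (by norm_num)))
    (Q.BL.trans (by rw [← pow_mul]; exact F.pw (by norm_num))) (fun i _ => h1 i) (fun i _ => h2 i)
    (fun _ _ => le_rfl) Q.bp.al0 fun i hi => ?_, fun N N1 N3 i hi => ?_, ?_, ?_⟩
  · refine le_trans ?_ (H.jf_bds.1.trans (jv ▸ Q.t0))
    exact (rp_le H.n1 (by linarith)).trans (le_mul_of_one_le_left (H.rp0 _).le H.ok.s1)
  · have a := t0 i
    have k : ∀ {y z : ℝ}, 0 ≤ z → y ≤ d.E ^ 27 * z → y ≤ d.E ^ 40 * z := fun z0 e =>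
      e.trans (mul_le_mul_of_nonneg_right (F.pw (by norm_num)) z0)
    rcases Q.sz i hi with ⟨e, e'⟩ | ⟨e, e'⟩ | ⟨e, e'⟩
    · rw [F.sc.F, mul_one, F.sc.n, F.sc.ms] at e
      have := H.msG_pos M (tt i)
      exact .inl (.inl ⟨k (by positivity) e, k (by positivity) e'⟩)
    · refine .inr ⟨e.trans ?_, k (by positivity) e'⟩
      have := H.jfv0
      have := H.rj0
      rw [jv]
      refine H.le_of_lg (by positivity) (by positivity) ?_
      rw [logb_mul (by positivity) (by positivity), logb_mul (by positivity) (by positivity),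
        logb_mul (by positivity) H.rj0.ne', logb_pow, lE, H.lg_rj]
      push_cast
      linarith [H.lg_jf.2, (H.lg_num (x := 4) (by norm_num) (by norm_num)).2]
    · refine .inl (.inr ⟨F.y1.trans e, e'.trans ?_⟩)
      rw [Dt.T, F.th, ← mul_div_assoc]
      refine div_le_div_of_nonneg_right ((mul_le_mul_of_nonneg_left X.L0 (by positivity)).trans
        (H.le_of_lg (by positivity) (by positivity) ?_)) (mul_pos n0 (H.muG_pos M)).le
      lg_norm
      rw [H.lg_n]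
      linarith
  · have a := t0 i
    have N0 : 0 ≤ N := (sq_nonneg _).trans N1
    have l4 : d.b.l ^ 4 ≤ N ^ 2 := by
      rw [show d.b.l ^ 4 = (d.b.l ^ 2) ^ 2 by ring]; gcongr
    refine (abs_le_of_sq_le_sq' ?_ (by positivity)).2
    rw [mul_pow, ← pow_mul]
    have k : ∀ {j : ℕ} {z : ℝ}, j ≤ 24 * 2 → z ≤ N ^ 2 → al i ^ 2 ≤ d.E ^ j * z →
        al i ^ 2 ≤ d.E ^ (24 * 2) * N ^ 2 := fun hj hz e =>
      (e.trans (mul_le_mul_of_nonneg_left hz (by positivity))).trans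
        (mul_le_mul_of_nonneg_right (F.pw hj) (by positivity))
    rcases Q.sz i hi with ⟨e, e'⟩ | ⟨e, e'⟩ | ⟨-, e'⟩
    · rcases le_total (tt i) d.b.l with c | c
      · refine k (by norm_num) (le_trans ?_ l4) e'
        rw [max_eq_right c]
        calc _ ≤ d.b.l ^ 2 * d.b.l ^ 2 := by gcongr
          _ = _ := by ring
      · rw [F.sc.F, mul_one, max_eq_left c, F.sc.n] at e
        refine k (by norm_num) (le_trans ?_ l4) e
        have m0 := F.cl.ms_pos l0.le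
        have m1 := F.cl.msm c
        have w0 := F.nr.w0 d.b.l (by linarith [F.nr.l0l, F.l00]) (l1.trans F.cl.C1)
        rw [F.w3_eq] at w0
        calc _ ≤ tt i / (d.p.n * tt i * d.S.ms d.b.l) := by gcongr
          _ = d.b.l * (1 / (d.p.n * d.b.l * d.S.ms d.b.l)) := by field_simp
          _ ≤ d.b.l * d.b.l ^ 3 := by gcongr
          _ = _ := by ring
    · have b : tt i ≤ d.E ^ 3 * d.b.l :=
        calc _ ≤ 4 * d.E * (d.E * d.b.l) := e.trans (mul_le_mul_of_nonneg_left w.jv (by positivity))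
          _ ≤ d.E * d.E * (d.E * d.b.l) := by gcongr; linarith
          _ = _ := by ring
      have b' : max (tt i) d.b.l ≤ d.E ^ 3 * d.b.l :=
        max_le b (le_mul_of_one_le_left l0.le (one_le_pow₀ F.E1'))
      refine k (j := 39) (by norm_num) l4 (e'.trans ?_)
      calc _ ≤ d.E ^ 27 * ((d.E ^ 3 * d.b.l) ^ 2 * (d.E ^ 3 * d.b.l) ^ 2) := by gcongr
        _ = _ := by ring
    · exact k (by norm_num) ((F.th ▸ X.Lw).trans N3) e'
  · have a1 := H.lamG_pos M H.ye0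
    have a2 := H.dlG_pos
    have b1 := H.lg_thetaG (ε := d.c / 1000) (by linarith) (by linarith) M e1 le_rfl Φ0 ph
    have b2 := (H.lg_PhG_bds (ε := d.c / 1000) (by linarith) (by linarith) M e1 le_rfl).2
    have b3 := H.lg_mono Φ0 ph
    rw [logb_mul (H.rp0 _).ne' (H.PhG0 M (by positivity)).ne', H.lg_rp] at b3
    obtain ⟨-, b4, -, b5⟩ := H.lg_lamG M H.ye0
    refine H.le_of_lg (by positivity) δ0 ?_
    rw [l5]
    lg_norm
    rw [H.lg_n, H.lg_dlG]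
    rcases (H.lg_muG66 M).1 with b6 | b6 <;> linarith
  · have a2 := H.dlG_pos
    refine H.le_of_lg (by positivity) δ0 ?_
    rw [l5]
    lg_norm
    rw [H.lg_n, H.lg_dlG]
    linarith

end Crest.Agent.T156.Alt.E35

end
end

-- ▼ part T156/ErrS_4
section

/-!
# Row 156, R1: the sums of the error table (helper4)
-/

set_option autoImplicit false
set_option linter.unusedSectionVars false

noncomputable section

namespace Crest.Agent.T156.Alt.E35

open Real Finset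
open Crest.Agent.T156.Alt.Md67 Crest.Agent.T156.Alt.R62 Crest.Agent.T156.Alt.R77
open Crest.Agent.T156.Alt.R82 Crest.Agent.T156.Alt.SD56

namespace S4

/-- Cauchy-Schwarz for a product -/
theorem cs2 {U : Finset ℕ} {w f g : ℕ → ℝ} {A B v : ℝ} (w0 : ∀ k ∈ U, 0 ≤ w k)
    (hA : ∑ k ∈ U, w k * f k ^ 2 ≤ A) (hB : ∑ k ∈ U, w k * g k ^ 2 ≤ B) (v0 : 0 ≤ v)
    (h : A * B ≤ v ^ 2) : ∑ k ∈ U, w k * (f k * g k) ≤ v := by
  have n : ∀ f : ℕ → ℝ, ∀ k ∈ U, 0 ≤ w k * f k ^ 2 := fun f k hk =>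
    mul_nonneg (w0 k hk) (sq_nonneg _)
  have a := sum_sq_le_sum_mul_sum_of_sq_le_mul U (r := fun k => w k * (f k * g k))
    (f := fun k => w k * f k ^ 2) (g := fun k => w k * g k ^ 2) (n f) (n g)
    fun k _ => le_of_eq (by ring)
  exact (abs_le_of_sq_le_sq' ((a.trans (mul_le_mul hA hB (sum_nonneg (n g))
    ((sum_nonneg (n f)).trans hA))).trans h) v0).2

variable {E t a a' Q l Φ l0 Λ₀ Pt u1 V4 x N : ℝ} {p : Pm} {P : Pl} {m I : ℕ} {S : Sc} {Pf : ℝ → ℝ}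
  {G μ : ℕ → ℝ} (F : Fr E p P t a a' Q m S l Φ Pf l0 Λ₀ Pt u1 V4 I)
  (K : BK E S (p.gst P t) m x l Φ Pf l0 Λ₀ Pt u1 V4 G)
include F K

theorem s6 : ∑ k ∈ Ioo S.jl (p.gst P t).N, (p.gst P t).dz m x k * (|(p.gst P t).G k| * G k) ≤
    E ^ 12 * Φ := by
  have E0 := F.E0
  have θ0 := F.θ0
  have Φ0 : 0 < Φ := F.nr.l3 ▸ pow_pos F.l0' 3
  refine cs2 (A := E * S.θ ^ 2 * Pt) (fun k hk => dz0 F hk) (by simpa only [sq_abs] using K.g2)
    K.mk'.tot (by positivity) ?_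
  have P1 := F.nr.Pt0.1.trans F.nr.Pt0.2.1
  calc _ ≤ E * 1 ^ 2 * Φ * (E * Φ) := by gcongr; exacts [F.θ1, F.nr.Pt0.2.2.1]
    _ = (E ^ 1 * Φ) ^ 2 := by ring
    _ ≤ _ := by gcongr; exacts [F.E1', by norm_num]

theorem s5 (hx : ∑ k ∈ Ioo S.jl (p.gst P t).N, (p.gst P t).dz m x k *
      max (|(p.gst P t).G k| - (p.n : ℝ) ^ (-(1 : ℝ) / 6)) 0 ^ 2 ≤ E * S.θ ^ 2 * V4) :
    S.θ * ∑ k ∈ Ioo S.jl (p.gst P t).N, (p.gst P t).dz m x k * (|(p.gst P t).G k| * G k ^ 2) ≤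
      E ^ 12 * (1 / E ^ 200 * n5 p) := by
  have E0 := F.E0
  have E1 := F.E1
  have θ0 := F.θ0
  have θ1 := F.θ1
  have n0 := F.n0
  have l00 := F.l00
  have l0' := F.l0'
  have a4 := F.n40
  have a5 := F.n50
  have P0 := F.nr.Pt0
  have V0 : 0 ≤ V4 := P0.1.trans P0.2.2.2
  have L1 := F.nr.L1
  have e5 : (p.n : ℝ) ^ (-(1 : ℝ) / 6) * n4 p ≤ n5 p := by
    rw [n5, n4, ← mul_assoc, ← rpow_add n0, show -(1 : ℝ) / 6 + -(2 : ℝ) / 3 = -(5 : ℝ) / 6 by norm_num]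
    exact mul_le_mul_of_nonneg_left (pow_le_pow_right₀ F.s1 (by norm_num)) (by positivity)
  have δ1 : 1 / E ^ 200 ≤ 1 / E :=
    one_div_le_one_div_of_le E0 (le_self_pow₀ F.E1' (by norm_num))
  have δ2 : 1 / E ^ 200 ≤ 1 := (div_le_one (by positivity)).2 (one_le_pow₀ F.E1')
  have ly : l ≤ 1 / E := (F.nr.ly.trans (mul_le_of_le_one_right (by positivity) F.y1)).trans δ1
  have hi := F.nr.i
  have hc := F.nr.c
  have hd := F.nr.d
  have h5 := F.nr.l5
  have ν0 : 0 < (p.n : ℝ) ^ (-(1 : ℝ) / 6) := by positivity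
  generalize (p.n : ℝ) ^ (-(1 : ℝ) / 6) = ν at hx e5 ν0
  have δ0 : 0 < 1 / E ^ 200 := by positivity
  generalize 1 / E ^ 200 = δ at hi hc hd h5 δ0 δ2 ⊢
  have e6 : ν * (δ ^ 2 * n4 p) ≤ δ * n5 p :=
    calc _ = δ * (δ * (ν * n4 p)) := by ring
      _ ≤ δ * (1 * n5 p) := by gcongr
      _ = _ := by ring
  let c : ℕ → ℝ := fun k => if 1 / E < (p.gst P t).s k then ν else 0
  have c0 : ∀ k, 0 ≤ c k := fun k => by simp only [c]; split_ifs <;> positivity
  have c1 : ∀ k, c k ≤ ν := fun k => by simp only [c]; split_ifs; exacts [le_rfl, ν0.le]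
  have cz : ∀ U : Finset ℕ, (∀ k ∈ U, (p.gst P t).s k ≤ 1 / E) →
      ∑ k ∈ U, (p.gst P t).dz m x k * (c k * G k ^ 2) ≤ 2 * E ^ 2 * (δ * n5 p) / S.θ :=
    fun U hU => (sum_eq_zero fun k hk => by
      simp only [c, if_neg (not_lt.2 (hU k hk)), zero_mul, mul_zero]).trans_le (by positivity)
  have k1 := dec F (g := fun k => (p.gst P t).dz m x k * (c k * G k ^ 2))
    (v := 2 * E ^ 2 * (δ * n5 p) / S.θ)
    (fun k hk => mul_nonneg (dz0 F hk) (mul_nonneg (c0 k) (sq_nonneg _))) (by positivity)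
    (cz _ fun k hk => (mem_filter.1 hk).2.le.trans (F.nr.l0l.trans ly))
    (fun τ h1 h2 => by
      have τ0 := l00.trans_le h1
      rcases le_total (2 * τ) (1 / E) with e | e
      · exact cz _ fun k hk => (mem_sb.1 hk).2.2.trans e
      refine (fac (g := fun k => G k ^ 2) (fun k hk => dz0 F (sb_sub F.cl hk)) (fun _ => sq_nonneg _)
        ν0.le (fun k _ => c1 k) (K.mk'.b2 τ h1 h2)).trans ?_
      have P1 := (F.nr.P0 τ).1
      rw [div_le_iff₀ E0] at e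
      rw [le_div_iff₀ θ0]
      calc _ = E * ν * (S.θ * 1 * (1 * Pf τ)) := by ring
        _ ≤ E * ν * (S.θ * Λ₀ * (2 * τ * E * Pf τ)) := by gcongr
        _ = 2 * E ^ 2 * (ν * (S.θ * Λ₀ * (τ * Pf τ))) := by ring
        _ ≤ _ := mul_le_mul_of_nonneg_left
          ((mul_le_mul_of_nonneg_left (hi τ h1 h2) ν0.le).trans e6) (by positivity))
    (by
      refine (fac (g := fun k => G k ^ 2) (fun k hk => dz0 F (top_sub F hk)) (fun _ => sq_nonneg _)
        ν0.le (fun k _ => c1 k) K.mk'.t2).trans ?_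
      have P1 := P0.1.trans P0.2.1
      rw [le_div_iff₀ θ0]
      calc _ = E * (ν * (S.θ * 1 * Pt)) := by ring
        _ ≤ 2 * E ^ 2 * (ν * (S.θ * Λ₀ * (Pt + V4 + p.r ^ 4))) := by
          gcongr
          · nlinarith
          · linarith [pow_pos F.r0 4]
        _ ≤ _ := mul_le_mul_of_nonneg_left
          ((mul_le_mul_of_nonneg_left hc ν0.le).trans e6) (by positivity))
  have k2 := cs2 (g := fun k => G k ^ 2) (v := E * S.θ * (l ^ 5 + V4)) (B := E * (Φ * l ^ 2 + V4))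
    (fun k hk => dz0 F hk) hx (by simpa only [← pow_mul] using K.mk'.qua) (by positivity) (by
      rw [← F.nr.l3]
      calc _ = (E * S.θ) ^ 2 * (V4 * (l ^ 5 + V4)) := by ring
        _ ≤ (E * S.θ) ^ 2 * ((l ^ 5 + V4) * (l ^ 5 + V4)) := by
          gcongr; exact le_add_of_nonneg_left (by positivity)
        _ = _ := by ring)
  have k3 : ∑ k ∈ Ioo S.jl (p.gst P t).N, (p.gst P t).dz m x k * (|(p.gst P t).G k| * G k ^ 2) ≤
      E ^ 3 * (2 * E ^ 2 * (δ * n5 p) / S.θ) + E * S.θ * (l ^ 5 + V4) := by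
    refine le_trans ?_ (add_le_add k1 k2)
    rw [← sum_add_distrib]
    refine sum_le_sum fun k hk => ?_
    rw [← mul_add, ← add_mul]
    refine mul_le_mul_of_nonneg_left (mul_le_mul_of_nonneg_right ?_ (sq_nonneg _)) (dz0 F hk)
    simp only [c]
    split_ifs with e
    · linarith [le_max_left (|(p.gst P t).G k| - ν) 0]
    · rw [K.glo k (mem_Ioo.1 hk).1 (not_lt.1 e), abs_zero, zero_add]
      exact le_max_right _ _
  have b1 : S.θ * (E * S.θ * (l ^ 5 + V4)) ≤ 2 * E ^ 5 * (δ * n5 p) :=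
    calc _ = S.θ * E * (S.θ * l ^ 5 + S.θ * V4) := by ring
      _ ≤ 1 * E ^ 5 * (δ * n5 p + δ * n5 p) := by
        gcongr; exact le_self_pow₀ F.E1' (by norm_num)
      _ = _ := by ring
  have b2 : 4 * E ^ 5 * (δ * n5 p) ≤ E ^ 12 * (δ * n5 p) := by
    gcongr
    exact le_trans (by nlinarith [pow_pos E0 5]) (F.pw (show 6 ≤ 12 by norm_num))
  refine (mul_le_mul_of_nonneg_left k3 θ0.le).trans ?_
  rw [mul_add, show S.θ * (E ^ 3 * (2 * E ^ 2 * (δ * n5 p) / S.θ)) = 2 * E ^ 5 * (δ * n5 p) by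
    field_simp]
  linarith

end S4

/-- **the sums of the error table** -/
theorem sumS : SumS := fun _ _ _ _ _ _ _ _ _ _ _ _ _ _ _ _ _ _ _ _ _ _ F K L hx μ0 h h0 =>
  ⟨S4.s1 F K L, S4.s2 F μ0 h h0, S4.s3 F K μ0 h h0, S4.s4 F K L μ0 h h0, S4.s5 F K hx, S4.s6 F K⟩

end Crest.Agent.T156.Alt.E35

end
end

-- ▼ part T156/ErSu_79
section

/-!
# Row 156, R1 (helper79): the sum leaf of the error table
-/

set_option autoImplicit false

noncomputable section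

namespace Crest.Agent.T156.Alt.E35

open Real Finset
open Crest.Agent.T156.Alt.R62 Crest.Agent.T156.Alt.R77 Crest.Agent.T156.Alt.R82
open Crest.Agent.T156.Alt.SD56

namespace Su79

/-- the profile against the density scale -/
theorem lam_mt {β c0 C0 c η K t y k : ℝ} {A : ℕ} {p : Pm} (H : Reg β c0 C0 A c η K p) (t0 : 0 < t)
    (hk : 1 ≤ k) (hy : y ≤ k * p.ye) : p.lamG t y ≤ k * R82.mt p t y := by
  have x0 := H.xc0 y
  have κ0 := H.κ0
  have r0 := H.r0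
  have a := (H.msG_bds t0 y).1
  have b : min y p.ye ≤ Gr29.xc p y := le_max_right _ _
  have c : p.lamG t y ≤ p.κ * min (Gr29.xc p y) (t * √(Gr29.xc p y)) :=
    mul_le_mul_of_nonneg_left (min_le_min b (mul_le_mul_of_nonneg_left (sqrt_le_sqrt b) t0.le)) κ0.le
  have d : max y p.r ≤ k * Gr29.xc p y := by
    have e : Gr29.xc p y ≤ k * Gr29.xc p y := le_mul_of_one_le_left x0.le hk
    refine max_le ?_ ((Gr29.r_le_xc p y).trans e)
    rcases le_total y p.ye with f | f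
    · exact (min_eq_left f).ge.trans (b.trans e)
    · rw [H.xc_hi f]; exact hy
  have m0 : 0 ≤ p.κ * min (Gr29.xc p y) (t * √(Gr29.xc p y)) :=
    mul_nonneg κ0.le (le_min x0.le (by positivity))
  rw [R82.mt, ← mul_div_assoc, le_div_iff₀ (r0.trans_le (le_max_right _ _))]
  have := mul_le_mul c d (r0.le.trans (le_max_right _ _)) m0
  linarith [mul_le_mul_of_nonneg_left a (show 0 ≤ k by linarith)]

theorem sq_min {x a b : ℝ} (ha : x ≤ a ^ 2) (hb : x ≤ b ^ 2) : x ≤ min a b ^ 2 := by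
  rcases min_choice a b with e | e <;> rwa [e]

end Su79

open Su79

/-- **the sum leaf** -/
theorem suG : SuG := fun d h w f w0 D => by
  have H := h.H
  have F := h.fr
  have c := F.cl
  have nr := F.nr
  have nx := h.km.nx
  have bk := h.loc.bk
  have E1 := F.E1
  have E0 := F.E0
  have l0 := F.l0'
  have C0 := c.C0
  have C1 := c.C1
  have v0 := H.v0
  have y0 := H.ye0
  have t0 := F.fx.t0
  have L := H.log1
  have hC : 8 * d.S.C ≤ d.E := by
    have a := h.km.gd.nb.lg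
    have b := h.km.K1
    have e : d.S.C = 8 * d.K ^ 2 := rfl
    have := mul_le_mul_of_nonneg_left b (sq_nonneg d.K)
    linarith [h.lg]
  have hy : d.E ^ 6 * d.p.ye ≤ 1 := H.le_of_lg (by positivity) one_pos (by
    rw [logb_mul (by positivity) y0.ne', logb_pow, H.lg_rp, H.lg_ye, logb_one]
    push_cast
    linarith [h.hη, H.c_pos])
  have sk : ∀ k, k ≤ d.S.J → k * d.p.v ≤ d.S.C * d.M.s k ∧ d.M.s k ≤ d.S.C * (k * d.p.v) :=
    fun k hk => by
      obtain ⟨a, b⟩ := c.s_bds hk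
      rw [← mul_div_assoc, div_le_iff₀' C0] at a
      exact ⟨a, b.trans_eq (by change _ * (_ * d.p.v) = _; ring)⟩
  have T0J : T0 d.S d.M ≤ d.M.s d.S.J := by unfold T0; linarith [c.s_nn d.S.J]
  have hi : ∀ k, T0 d.S d.M ≤ d.M.s k → 8 * d.p.ye ≤ k * d.p.v := fun k hk => by
    have a : T0 d.S d.M ≤ d.S.C * (k * d.p.v) := by
      rcases le_total k d.S.J with e | e
      · exact hk.trans (sk k e).2
      · exact T0J.trans ((sk _ le_rfl).2.trans (by gcongr))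
    have b := F.T0_ge
    have kv : 0 ≤ k * d.p.v := by positivity
    have a1 := mul_le_mul_of_nonneg_left (a.trans (mul_le_mul_of_nonneg_right
      (show d.S.C ≤ d.E / 8 by linarith) kv)) (show 0 ≤ 48 * d.E ^ 4 by positivity)
    have a2 := mul_le_mul_of_nonneg_right E1 (show 0 ≤ d.E ^ 5 * d.p.ye by positivity)
    refine le_of_mul_le_mul_left ?_ (show 0 < 6 * d.E ^ 5 by positivity)
    linarith [show 0 ≤ d.E ^ 5 * d.p.ye by positivity]
  have lo : ∀ k : ℕ, w * |f k| ≠ 0 → k < d.S.J ∧ d.M.s k ≤ 8 * d.S.C * d.p.ye := fun k hk => by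
    have a : k * d.p.v < 8 * d.p.ye := not_le.1 fun e => hk (by rw [D.2 k e]; simp)
    have b : k < d.S.J := not_le.1 fun e => a.not_ge (hi k (T0J.trans (c.sm e)))
    exact ⟨b, (sk k b.le).2.trans (by linarith [mul_le_mul_of_nonneg_left a.le C0.le])⟩
  have l1 : d.b.l ≤ 1 := nr.ly.trans ((mul_le_of_le_one_left y0.le
    ((div_le_one (by positivity)).2 (one_le_pow₀ F.E1'))).trans F.y1)
  have l2 : d.b.l ^ 2 ≤ d.E * d.b.l := by
    linarith [mul_le_mul_of_nonneg_right (l1.trans F.E1') l0.le]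
  have l3 : d.b.Φ ≤ d.b.l ^ 2 := by
    rw [← nr.l3]; exact pow_le_pow_of_le_one l0.le l1 (by norm_num)
  have l4 : d.E * d.b.l ^ 2 ≤ (d.E * d.b.l) ^ 2 := by
    linarith [mul_le_mul_of_nonneg_right F.E1' (show 0 ≤ d.E * d.b.l ^ 2 by positivity)]
  have l5 : d.b.l ^ 2 ≤ d.E * d.b.l ^ 2 := le_mul_of_one_le_left (sq_nonneg _) F.E1'
  obtain ⟨p1, p2, p3, -⟩ := nr.Pt0
  have Φ0 : 0 ≤ d.b.Φ := by linarith
  have n3 : d.b.Pt ≤ min d.b.N (d.E * d.b.l) ^ 2 := sq_min nx.N3 (by linarith)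
  have a3 : d.S.θ * min d.b.N (d.E * d.b.l) * d.b.Φ ≤ 1 / d.E ^ 200 * n5 d.p := by
    refine le_trans ?_ nx.a3
    rw [nr.l3, ← F.th]
    exact mul_le_mul_of_nonneg_right (mul_le_mul_of_nonneg_left (min_le_left _ _) F.θ0.le) Φ0
  have NL : NL (1 / d.E ^ 200) d.p d.S d.M d.b.l d.b.Φ d.b.P d.b.l0 d.b.Pt d.b.u1
      (min d.b.N (d.E * d.b.l)) := by
    refine ⟨le_min nx.N1 l2, fun x x0 x1 => sq_min (nx.N2 x (nr.l0l.trans x0) x1) ?_, n3,
      le_min nx.N4 (by linarith), a3, fun u u0 u1 => le_trans ?_ (nx.a4 u u0 u1)⟩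
    · have a : x ≤ d.E := x1.trans (T0J.trans ((c.s_le_C c.i3).trans (by linarith)))
      exact (mul_le_mul a ((nr.P0 x).2.trans l3) (nr.P0 x).1 E0.le).trans l4
    · exact mul_le_mul_of_nonneg_left (min_le_left _ _)
        (mul_nonneg (H.msG0 t0 u).le (nr.P0 u).1)
  refine ⟨min d.b.N (d.E * d.b.l), NL.N1, min_le_right _ _, n3, by linarith, ?_, fun k k0 _ hk => ?_⟩
  · refine sumS _ _ _ _ _ _ _ _ _ _ _ _ _ _ _ _ _ _ _ _ _ _ F bk NL
      (Gx79.gx H h.cx.oct' h.km.gd (Plt13.plX_self _ h.cx.pl) h.km.kn (by linarith [h.lg]) _ _)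
      (fun k => by positivity) (fun k _ => ?_) fun k hk => by rw [D.2 k (hi k hk)]; simp
    have m0 : 0 ≤ R82.mt d.p d.t (d.M.s k) :=
      div_nonneg (H.msG0 t0 _).le (H.r0.le.trans (le_max_right _ _))
    by_cases e : w * |f k| = 0
    · rw [e]; positivity
    obtain ⟨a, b⟩ := lo k e
    have a1 := P60.lamG_mul H.κ0.le y0.le t0.le (c.s_nn k) C1 (sk k a.le).1
    have a2 := mul_le_mul_of_nonneg_left (lam_mt H t0 (by linarith) b) C0.le
    have a3 := mul_le_mul_of_nonneg_right (pow_le_pow_left₀ (by positivity) hC 2) m0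
    linarith [D.1 k]
  · obtain ⟨a, b⟩ := lo k hk
    refine ⟨bk.glo k k0 (b.trans ?_), bk.mk'.sl k k0.le a⟩
    rw [le_div_iff₀ E0]
    have a1 := mul_le_mul_of_nonneg_right hC (show 0 ≤ d.p.ye * d.E by positivity)
    have a2 := mul_le_mul_of_nonneg_right (pow_le_pow_right₀ F.E1' (show 2 ≤ 6 by norm_num)) y0.le
    linarith

end Crest.Agent.T156.Alt.E35

end
end

-- ▼ part T156/CLfE_21
section

/-!
# Row 156, R1: block data above the cut `jl + 1` (helper21)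

The blocks of `CLfC_24` at the cut `4 jl`, and one crude block `[jl + 1, 4 jl)` below them.
-/

set_option autoImplicit false
set_option linter.unusedSectionVars false

noncomputable section

namespace Crest.Agent.T156.Alt.Lb21

open MeasureTheory Real Finset Filter
open Crest.Agent.T157.E Crest.Agent.T157.Casc Crest.Agent.T157.SL
open Crest.Agent.T156.Cas Crest.Agent.T156.Cas.Sy41 Crest.Agent.T156.Cas.Q33
open Crest.Agent.T156.Cas.Lp12 Crest.Agent.T156.Cas.C40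
open Crest.Agent.T156.Alt.Md67 Crest.Agent.T156.Alt.Cost41 Crest.Agent.T156.Alt.CIn12
open Crest.Agent.T156.Alt.C33 Crest.Agent.T156.Alt.Lb24

variable {S : Sc} {M : Md} {m : ℕ} {a : ℝ} {J0 J b : ℕ}

/-- the block of the node `k`; block `0` is below `J` -/
def lw (J b k : ℕ) : ℕ := if k < J then 0 else lv J b k + 1

theorem lw_lt {k : ℕ} (h : k < J) : lw J b k = 0 := if_pos h

theorem lw_ge {k : ℕ} (h : J ≤ k) : lw J b k = lv J b k + 1 := if_neg (by omega)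

theorem lw_mono : Monotone (lw J b) := fun i j h => by
  rcases lt_or_ge i J with c | c
  · rw [lw_lt c]; exact Nat.zero_le _
  · rw [lw_ge c, lw_ge (c.trans h)]; exact Nat.succ_le_succ (lv_mono h)

theorem bk_zero : bk M J0 (lw J b) 0 ⊆ Ico J0 J := fun k hk => by
  obtain ⟨h1, h2⟩ := mem_filter.1 hk
  refine mem_Ico.2 ⟨(mem_Ico.1 h1).1, not_le.1 fun c => ?_⟩
  rw [lw_ge c] at h2
  omega

theorem bk_succ (h : J0 ≤ J) (i : ℕ) : bk M J0 (lw J b) (i + 1) = bk M J (lv J b) i := by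
  ext k
  simp only [mem_filter, mem_Ico]
  rcases lt_or_ge k J with c | c
  · rw [lw_lt c]; omega
  · rw [lw_ge c]; omega

variable {lam l Λ : ℝ} {D : ℕ}

/-- the crude block -/
theorem cru0 (K : Kc lam l Λ D S M m a) (h8 : 8 * S.jl < S.J) {t : ℝ}
    (ht : t = S.C * ((4 * S.jl : ℕ) * S.v)) :
    ∑ k ∈ Ico (S.jl + 1) (4 * S.jl), M.dz m a k ≤ t ∧
    t * ∑ k ∈ Ico (S.jl + 1) (4 * S.jl), M.dz m a k * vP M m a k k ≤
      lam ^ 24 * Λ ^ 2 * (t ^ 2 * max t l ^ 2) ∧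
    ∑ k ∈ Ico (S.jl + 1) (4 * S.jl), M.dz m a k * (4 * lam * M.z k * (Λ * max (M.z k) l) ^ 2) ≤
      lam ^ 24 * Λ ^ 2 * (t ^ 2 * max t l ^ 2) := by
  have G := K.lg
  have F := K.fn
  have C1 := F.C1
  have Cl := K.Cl
  have l0 := K.l0
  have L1 := K.L1
  have i0 := F.i0
  have i1 := F.i1
  have i3 := F.i3
  have i4 := F.i4
  have v0 := F.v0
  have h1 : 4 * S.jl < 4 * S.jl + 1 := by omega
  have h2 : 4 * S.jl + 1 ≤ 2 * (4 * S.jl) := by omega
  have h3 : 4 * S.jl + 1 < S.J := by omega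
  have t0 := K.t0 ht le_rfl h1 h2 h3
  have ms : ∑ k ∈ Ico (S.jl + 1) (4 * S.jl), M.dz m a k ≤ t := by
    rw [sum_Ico_dz G (by omega)]
    refine (F.toCl.z_tel (i := S.jl) (j := 4 * S.jl - 1) i1 (by omega) (by omega)).2.trans ?_
    rw [ht, mul_left_comm]
    have e : ((4 * S.jl - 1 : ℕ) : ℝ) ≤ (4 * S.jl : ℕ) := by exact_mod_cast Nat.sub_le _ 1
    have := Nat.cast_nonneg (α := ℝ) S.jl
    exact mul_le_mul_of_nonneg_left (mul_le_mul_of_nonneg_right (by linarith) v0.le) (by linarith)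
  have u : ∀ k ≤ 4 * S.jl + 1, (Λ * max (M.z k) l) ^ 2 ≤ (6 * S.C * Λ * max t l) ^ 2 := fun k hk =>
    pow_le_pow_left₀ (mul_nonneg (by linarith) (le_max_of_le_left (G.z_nonneg k)))
      (K.mx_le ht le_rfl h1 h2 h3 hk) 2
  have v : ∀ k, k ≤ 4 * S.jl + 1 → vP M m a k k ≤ (6 * S.C * Λ * max t l) ^ 2 := fun k b =>
    vP_crude G.m0 (c := 0) le_rfl (by
      simpa only [sub_zero] using (K.lo k (by omega)).trans (u k b))
  have fin : 4 * lam * (6 * S.C * t) * (t * (6 * S.C * Λ * max t l) ^ 2) ≤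
      lam ^ 24 * Λ ^ 2 * (t ^ 2 * max t l ^ 2) := by
    calc _ = 864 * lam * S.C ^ 3 * (Λ ^ 2 * (t ^ 2 * max t l ^ 2)) := by ring
      _ ≤ lam * lam * lam ^ 3 * (Λ ^ 2 * (t ^ 2 * max t l ^ 2)) := by gcongr; linarith
      _ = lam ^ 5 * Λ ^ 2 * (t ^ 2 * max t l ^ 2) := by ring
      _ ≤ _ := by gcongr <;> [linarith; norm_num]
  have w : ∀ (f : ℕ → ℝ) (U : ℝ), 0 ≤ U → (∀ k ∈ Ico (S.jl + 1) (4 * S.jl), f k ≤ U) →
      ∑ k ∈ Ico (S.jl + 1) (4 * S.jl), M.dz m a k * f k ≤ t * U := fun f U U0 hf =>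
    (sum_le_sum fun k hk => mul_le_mul_of_nonneg_left (hf k hk) (G.dz_nonneg k)).trans
      (by rw [← sum_mul]; exact mul_le_mul_of_nonneg_right ms U0)
  have p : 0 ≤ t * (t * (6 * S.C * Λ * max t l) ^ 2) := by positivity
  refine ⟨ms, le_trans ?_ fin, le_trans ?_ fin⟩
  · have := mul_le_mul_of_nonneg_left (w _ _ (sq_nonneg _)
      fun k hk => v k (by have := (mem_Ico.1 hk).2; omega)) t0.le
    nlinarith [mul_le_mul_of_nonneg_right (show 1 ≤ 4 * lam * (6 * S.C) by nlinarith) p]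
  · refine (w _ (4 * lam * (6 * S.C * t) * (6 * S.C * Λ * max t l) ^ 2) (by positivity)
      fun k hk => ?_).trans_eq (by ring)
    have hk' : k ≤ 4 * S.jl + 1 := by have := (mem_Ico.1 hk).2; omega
    have := K.z_le ht le_rfl h1 h2 h3 hk'
    have := u k hk'
    have := G.z_nonneg k
    gcongr

/-- the densities at any cut `J0`, crude below `J` -/
theorem dens (K : Kc lam l Λ D S M m a) (hJ : 4 * S.jl ≤ J) (hb : b < S.J) (hJb : J ≤ b)
    {N : ℕ} {τ ε : ℝ} (T : Lb24.Top M m a b N τ ε) {al : ℕ → ℝ}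
    (hal : ∀ i < nI J b, lam ^ 24 * Λ ^ 2 * (S.w3 (tt S J b i) * max (tt S J b i) l) ≤ al i ^ 2 ∨
      lam ^ 24 * Λ ^ 2 * (tt S J b i ^ 2 * max (tt S J b i) l ^ 2) ≤ al i ^ 2)
    (hT : lam ^ 3 * (τ + ε) ≤ al (nI J b) ^ 2) (J0 : ℕ) :
    ∃ A, AddP M m a J0 A ∧ (∀ k < J, A k ≤ 4 * lam * M.z k * (Λ * max (M.z k) l) ^ 2) ∧
      ∀ i, ∑ k ∈ bk M J (lv J b) i, M.dz m a k * A k ≤ al i ^ 2 := by
  classical
  have G := K.lg
  have J1 := K.J0 hJ hb
  have l0 := K.l0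
  have O0 := Om_nonneg G (Ico J0 M.N)
  have O1 := K.Om_le J0
  have e0 : 0 ≤ ε := le_trans (by linarith [G.z1 N]) T.rest
  have τ0 : 0 ≤ τ := (sum_nonneg fun k _ => mul_nonneg (G.dz_nonneg k) (vP_nn k k)).trans T.dia
  have hT' : (16 + 4 * lam) * (τ + ε) ≤ al (nI J b) ^ 2 :=
    (mul_le_mul_of_nonneg_right (by nlinarith [mul_le_mul l0 l0 (by norm_num) (by linarith)])
      (by positivity)).trans hT
  have Tl := T.le
  set gd := fun i => lam ^ 24 * Λ ^ 2 * (S.w3 (tt S J b i) * max (tt S J b i) l) ≤ al i ^ 2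
  set cr := fun k => decide (k < J ∨ (k < b ∧ ¬gd (lv J b k)) ∨ N < k) with hcr
  set u := fun k => if k < b then (Λ * max (M.z k) l) ^ 2 else 1 with hu
  have sb : ∀ {i}, i < nI J b → ∀ {f : ℕ → ℝ}, (∀ k, 0 ≤ f k) → ∑ k ∈ bk M J (lv J b) i,
      M.dz m a k * f k ≤ ∑ k ∈ Ico (2 ^ i * J) (min (2 * (2 ^ i * J)) b), M.dz m a k * f k :=
    fun hi f hf => sum_le_sum_of_subset_of_nonneg (bk_sub J1 hi) fun k _ _ =>
      mul_nonneg (G.dz_nonneg k) (hf k)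
  refine ⟨AX M m a J0 cr u, addP G cr (fun k => ?_) fun k _ hk _ => ⟨0, ?_⟩, fun k hk => ?_,
    fun i => ?_⟩
  · simp only [hu]
    split_ifs <;> positivity
  · simp only [hu, sub_zero]
    split_ifs
    · exact K.lo k hk.le
    · exact E2_le (fun r hr => by rw [← sq_abs]; exact pow_le_one₀ (abs_nonneg r) hr) k
  · have := G.z_nonneg k
    rw [AX, if_pos (by simp only [hcr, decide_eq_true_eq]; exact .inl hk), hu]
    simp only [if_pos (hk.trans_le hJb)]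
    gcongr
  · rcases lt_trichotomy i (nI J b) with hi | rfl | hi
    · rcases K.cases hJ hb hi with e | ⟨c0, c1, c2, c3⟩
      · rw [e, sum_empty]; positivity
      have mem : ∀ k ∈ bk M J (lv J b) i, lv J b k = i ∧ k < b ∧ J ≤ k := fun k hk =>
        ⟨(mem_filter.1 hk).2, (mem_Ico.1 (bk_sub J1 hi hk)).2.trans_le (min_le_right _ _),
          (mem_Ico.1 (mem_filter.1 hk).1).1⟩
      by_cases g : gd i
      · refine le_trans ?_ ((K.ric (tt_lt hi) c0 c1 c2 c3).2.2.trans g)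
        refine le_trans ?_ (mul_le_mul_of_nonneg_left (sb hi (aM_nonneg G)) (by linarith))
        rw [mul_sum]
        refine sum_le_sum fun k hk => ?_
        obtain ⟨e, c, c'⟩ := mem k hk
        rw [AX, if_neg (by
          simp only [hcr, decide_eq_true_eq, not_or]
          exact ⟨by omega, fun r => r.2 (e ▸ g), by omega⟩), mul_left_comm]
        exact mul_le_mul_of_nonneg_right (by linarith) (mul_nonneg (G.dz_nonneg k) (aM_nonneg G k))
      · refine le_trans ?_ ((K.cru (tt_lt hi) c0 c1 c2 c3).2.2.trans ((hal i hi).resolve_left g))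
        refine le_trans (sum_le_sum fun k hk => ?_) (sb hi fun k => by
          have := G.z_nonneg k; positivity)
        obtain ⟨e, c, -⟩ := mem k hk
        have := G.z_nonneg k
        have := G.dz_nonneg k
        rw [AX, if_pos (by simp only [hcr, e, decide_eq_true_eq]; exact .inr (.inl ⟨c, g⟩)), hu]
        simp only [if_pos c]
        gcongr
    · have := split_top G (T := bk M J (lv J b) (nI J b)) (S₀ := Icc b N) (N := N)
        (f := AX M m a J0 cr u) (g := fun k => (16 + 4 * lam) * aM M m a k) (c := 16 + 4 * lam)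
        (by linarith) (fun k => mul_nonneg (by linarith) (aM_nonneg G k))
        (fun k hk h => ⟨mem_Icc.2 ⟨(mem_Ico.1 (bk_top hk)).1, h⟩, by
          have := (mem_Ico.1 (bk_top hk)).1
          rw [AX, if_neg (by simp only [hcr, decide_eq_true_eq]; omega)]
          exact mul_le_mul_of_nonneg_right (by linarith) (aM_nonneg G k)⟩)
        fun k _ h => by
          rw [AX, if_pos (by simp only [hcr, decide_eq_true_eq]; exact .inr (.inr h)), hu]
          simp only [if_neg (show ¬k < b by omega), mul_one]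
          nlinarith [G.z1 k, G.z_nonneg k]
      simp only [mul_left_comm _ (16 + 4 * lam), ← mul_sum] at this
      nlinarith [T.aa, T.rest]
    · rw [bk_emp hi, sum_empty]; positivity

/-- the clock of a set of nodes above the cut `jl + 1` -/
theorem clk0 (K : Kc lam l Λ D S M m a) {ρ e : ℕ → ℝ} (hρ : Rf M ρ) (e0 : ∀ k, 0 ≤ e k)
    {T : Finset ℕ} {b' : ℕ} {c : ℝ} (h1 : b' < M.N) (h2 : ∀ k ∈ T, S.jl < k ∧ k ≤ b') (c0 : 0 ≤ c)
    (h3 : S.jl < b' → S.C * ρ b' + M.H b' + 2 * M.z b' ≤ c) :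
    ∑ k ∈ T, dvP M m a ρ e (S.jl + 1) k ≤ e (S.jl + 1) + c := by
  have G := K.lg
  have F := K.fn
  rcases lt_or_ge b' (S.jl + 1) with r | r
  · rw [eq_empty_of_forall_notMem (s := T) fun k hk => by have := h2 k hk; omega, sum_empty]
    linarith [e0 (S.jl + 1)]
  refine (sum_le_sum_of_subset_of_nonneg (t := insert (S.jl + 1) (Ioc (S.jl + 1) b'))
    (fun k hk => by
      have := h2 k hk
      rw [mem_insert, mem_Ioc]; omega) fun k hk _ => dvP_nn G hρ (e0 k) (by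
      rw [mem_insert, mem_Ioc] at hk; omega)).trans ?_
  rw [sum_insert (by simp), dvP, if_pos le_rfl]
  refine add_le_add le_rfl ((sum_dvP G le_rfl r).trans (le_trans ?_ (h3 r)))
  have e1 : tp M m b' = tp M m (S.jl + 1) := by
    rw [tp, tp, F.toCl.d_eq (by omega) h1.le, F.toCl.d_eq (by omega) (by omega)]
  have e2 := mul_le_mul_of_nonneg_right (((tp_mem (m := m) G.toLeg b').2.1.trans
    (d_le_b G.toLeg h1.le)).trans F.b1) (Rf_nn hρ b' h1)
  have e3 := mul_nonneg (tp_mem (m := m) G.toLeg (S.jl + 1)).1 (Rf_nn hρ (S.jl + 1) (by omega))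
  linarith [H_nonneg G.toLeg (S.jl + 1)]

set_option maxHeartbeats 1000000 in
/-- **block data above the cut `jl + 1`** -/
theorem bqS : E35.BQS := by
  intro lam l Λ D S M m a N τ ε T K₁ L c K h8 H hL hT T0 hρ K0 hH c1 c2
  have G := K.lg
  have F := K.fn
  have C1 := F.C1
  have Cl := K.Cl
  have l0 := K.l0
  have i0 := F.i0
  have i1 := F.i1
  have i3 := F.i3
  have i4 := F.i4
  have v0 := F.v0
  obtain ⟨J, eJ⟩ : ∃ J, J = 4 * S.jl := ⟨_, rfl⟩
  obtain ⟨b, eb⟩ : ∃ b, b = S.J - 1 := ⟨_, rfl⟩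
  rw [← eb] at H
  have hJ : 4 * S.jl ≤ J := eJ.ge
  have hb : b < S.J := by omega
  have hJb : J ≤ b := by omega
  have hJ0 : S.jl + 1 ≤ J := by omega
  have L0 : 0 ≤ L := le_trans (by positivity) hL
  have tp0 := K.tt_pos hJ hb
  have hal : ∀ i < nI J b,
      lam ^ 24 * Λ ^ 2 * (S.w3 (tt S J b i) * max (tt S J b i) l) ≤ alC S J b L l T i ^ 2 ∨
      lam ^ 24 * Λ ^ 2 * (tt S J b i ^ 2 * max (tt S J b i) l ^ 2) ≤ alC S J b L l T i ^ 2 :=
    fun i hi => by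
      have t0 := tp0 i
      have := F.w3_pos t0
      have : 0 < max (tt S J b i) l := lt_max_of_lt_left t0
      rw [K.alC_lt hJ hb L0 hi]
      exact (min_choice _ _).imp (fun e => by rw [e]; gcongr) fun e => by rw [e]; gcongr
  obtain ⟨A₀, P⟩ := K.bpC hJ hb H hL hT T0
  obtain ⟨A, A1, A2, A3⟩ := dens K hJ hb hJb H hal (by rwa [alC_top T0 le_rfl]) (S.jl + 1)
  have et : tt S J b 0 = S.C * ((4 * S.jl : ℕ) * S.v) := by
    rw [tt_lt (Nat.succ_pos _), pow_zero, one_mul, eJ]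
  obtain ⟨r1, r2, r3⟩ := cru0 K h8 et
  rw [← eJ] at r1 r2 r3
  have h1 : 4 * S.jl < 4 * S.jl + 1 := by omega
  have h2 : 4 * S.jl + 1 ≤ 2 * (4 * S.jl) := by omega
  have h3 : 4 * S.jl + 1 < S.J := by omega
  have X0 : 0 ≤ tt S J b 0 ^ 2 * max (tt S J b 0) l ^ 2 := by positivity
  have hX := mul_le_mul_of_nonneg_right hL X0
  obtain ⟨al, a0, a1, a2⟩ : ∃ al : ℕ → ℝ, (∀ i, 0 ≤ al i) ∧
      al 0 ^ 2 = L * (tt S J b 0 ^ 2 * max (tt S J b 0) l ^ 2) ∧
      ∀ i, al (i + 1) = alC S J b L l T i :=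
    ⟨fun i => Nat.casesOn i √(L * (tt S J b 0 ^ 2 * max (tt S J b 0) l ^ 2)) (alC S J b L l T),
      fun i => by
        cases i
        exacts [sqrt_nonneg _, alC_nn _ _ _ _],
      sq_sqrt (by positivity), fun _ => rfl⟩
  have l6 : 6 * S.C ≤ lam ^ 2 := by nlinarith
  have z0 : ∀ k < J, M.z k ≤ 6 * S.C * tt S J b 0 := fun k hk =>
    K.z_le et le_rfl h1 h2 h3 (by omega)
  have jv : 0 ≤ (S.jl : ℝ) * S.v := by positivity
  have cc : 0 ≤ c := le_trans (by positivity) c1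
  refine ⟨nI J b + 2, lw J b, fun i => tt S J b (i - 1), al, A,
    ⟨lw_mono, fun k _ _ => ?_, fun i => tp0 _, a0, fun i => ?_, fun i => ?_, fun k k0 k1 k2 => ?_,
      A1, fun i => ?_⟩, fun i j h => K.tt_mono hJ hb hJb (Nat.sub_le_sub_right h 1), ?_,
    fun i => (K.tt_le hJ hb hJb _).trans (by gcongr), ?_, fun i hi => ?_, fun k k0 k1 => ?_,
    fun k k0 k1 => ?_, fun e e0 i => ?_⟩
  · rcases lt_or_ge k J with r | r
    · rw [lw_lt r]; omega
    · rw [lw_ge r]; have := lv_le (J := J) (b := b) k; omega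
  · rcases i with _ | i
    · exact (sum_le_sum_of_subset_of_nonneg bk_zero fun k _ _ => G.dz_nonneg k).trans r1
    · rw [bk_succ hJ0]; exact P.mass i
  · rcases i with _ | i
    · rw [a1]
      exact (mul_le_mul_of_nonneg_left (sum_le_sum_of_subset_of_nonneg bk_zero fun k _ _ =>
        mul_nonneg (G.dz_nonneg k) (vP_nn k k)) (tp0 0).le).trans (r2.trans hX)
    · rw [bk_succ hJ0, a2]; exact P.dia i
  · rcases lt_or_ge k J with r | r
    · rw [lw_lt r, a1]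
      exact ((K.cru et le_rfl h1 h2 h3).2.1 k (by omega)).trans hX
    · rw [lw_ge r, a2]; exact P.lad k r k1 k2
  · rcases i with _ | i
    · rw [a1]
      refine le_trans ?_ (r3.trans hX)
      refine (sum_le_sum_of_subset_of_nonneg bk_zero fun k _ _ =>
        mul_nonneg (G.dz_nonneg k) (A1.1 k)).trans (sum_le_sum fun k hk => ?_)
      exact mul_le_mul_of_nonneg_left (A2 k (mem_Ico.1 hk).2) (G.dz_nonneg k)
    · rw [bk_succ hJ0, a2]; exact A3 i
  · show _ ≤ tt S J b 0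
    rw [et]; push_cast
    nlinarith
  · have := K.nI_le hJ hb
    push_cast at this ⊢
    nlinarith
  · rcases i with _ | i
    · refine .inr (.inl ⟨?_, a1.le⟩)
      show tt S J b 0 ≤ _
      rw [et]; push_cast
      nlinarith
    rw [a2]
    simp only [Nat.add_sub_cancel]
    rcases lt_or_ge i (nI J b) with r | r
    · exact .inl (K.alC_le hJ hb L0 r)
    · exact .inr (.inr ⟨by rw [tt_ge r]; exact one_le_pow₀ C1, (alC_top T0 r).le⟩)
  · rcases lt_or_ge k J with r | r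
    · rw [lw_lt r]
      exact (z0 k r).trans (mul_le_mul_of_nonneg_right l6 (tp0 0).le)
    rw [lw_ge r]
    simp only [Nat.add_sub_cancel]
    rcases lt_or_ge k b with r' | r'
    · exact ((G.zm (Nat.le_succ k)).trans (K.z_tt hJ hb r r').2).trans
        (mul_le_mul_of_nonneg_right l6 (tp0 _).le)
    · rw [lv_ge r', tt_ge le_rfl]
      exact (G.z1 k).trans (one_le_mul_of_one_le_of_one_le (by linarith) (one_le_pow₀ C1))
  · rcases lt_or_ge k J with r | r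
    · rw [lw_lt r]
      show _ ≤ 2 * tt S J b 0
      have e : (k : ℝ) ≤ (4 * S.jl : ℕ) := by exact_mod_cast (by omega : k ≤ 4 * S.jl)
      have p := mul_le_mul_of_nonneg_right e v0.le
      have q : 0 ≤ ((4 * S.jl : ℕ) : ℝ) * S.v := by positivity
      rw [et]
      nlinarith
    rw [lw_ge r]
    simp only [Nat.add_sub_cancel]
    have r' : k < b := by omega
    have e : (k : ℝ) ≤ 2 * ((2 ^ lv J b k * J : ℕ) : ℝ) := by
      exact_mod_cast (lv_mem (K.J0 hJ hb) r r').2.le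
    have p := mul_le_mul_of_nonneg_right e v0.le
    have q : 0 ≤ ((2 ^ lv J b k * J : ℕ) : ℝ) * S.v := by positivity
    rw [tt_lt (lv_lt r')]
    nlinarith
  · have key : ∀ (t : ℝ) (k : ℕ), 0 < t → S.jl < k → k < S.J → M.z k ≤ 6 * S.C * t →
        S.C * M.q k + M.H k + 2 * M.z k ≤ c * max t l := fun t k t0 k0 k1 hz => by
      have m0 : 0 < max t l := lt_max_of_lt_left t0
      have a2 := hz.trans (mul_le_mul_of_nonneg_left (le_max_left t l)
        (show 0 ≤ 6 * S.C by linarith))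
      have a3 := mul_le_mul_of_nonneg_left (max_le a2 ((le_max_right _ l).trans
        (le_mul_of_one_le_left m0.le (by linarith)))) K0
      linarith [hH k k0 k1, mul_le_mul_of_nonneg_right c1 m0.le]
    have p0 : ∀ i, 0 ≤ c * max (tt S J b i) l := fun i =>
      mul_nonneg cc (le_max_of_le_left (tp0 i).le)
    rcases i with _ | i
    · exact clk0 K hρ e0 (b' := J - 1) (by omega) (fun k hk => by
        have := mem_Ico.1 (bk_zero hk); omega) (p0 _)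
        fun r => key _ _ (tp0 0) r (by omega) (z0 _ (by omega))
    rw [bk_succ hJ0]
    simp only [Nat.add_sub_cancel]
    rcases lt_or_ge i (nI J b) with hi | hi
    · rcases K.cases hJ hb hi with e' | ⟨c0, c1', c2', c3⟩
      · rw [e', sum_empty]; linarith [e0 (S.jl + 1), p0 i]
      exact clk0 K hρ e0 (b' := min (2 * (2 ^ i * J)) b - 1) (by omega) (fun k hk => by
        have := mem_Ico.1 (bk_sub (K.J0 hJ hb) hi hk); omega) (p0 _)
        fun r => key _ _ (tp0 i) r (by omega) (K.z_le (tt_lt hi) c0 c1' c2' c3 (Nat.sub_le _ 1))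
    · refine clk0 K hρ e0 (b' := M.N - 1) (by omega) (fun k hk => by
        have := mem_Ico.1 (mem_filter.1 hk).1; omega) (p0 _) fun _ => ?_
      have m1 : 1 ≤ max (tt S J b i) l := le_max_of_le_left (by
        rw [tt_ge hi]; exact one_le_pow₀ C1)
      linarith [G.z1 (M.N - 1), G.Hm (Nat.sub_le M.N 1), mul_le_of_le_one_right F.C0.le
        (hρ.le (M.N - 1) (by omega)), le_mul_of_one_le_right cc m1]

end Crest.Agent.T156.Alt.Lb21

end
end

-- ▼ part T156/CLfD_24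
section

/-!
# Row 156, block C: the top block on the class (helper24)

A majorant of the label weights on the last window and on the plateau.
-/

set_option autoImplicit false
set_option linter.unusedSectionVars false

noncomputable section

namespace Crest.Agent.T156.Alt.Lb24

open MeasureTheory Real Finset Filter
open Crest.Agent.T157.E Crest.Agent.T157.Casc Crest.Agent.T157.SL
open Crest.Agent.T156.Cas Crest.Agent.T156.Cas.Sy41 Crest.Agent.T156.Cas.Q33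
open Crest.Agent.T156.Cas.Lp12 Crest.Agent.T156.Cas.C40
open Crest.Agent.T156.Alt.Md67 Crest.Agent.T156.Alt.Cost41 Crest.Agent.T156.Alt.CIn12
open Crest.Agent.T156.Alt.C33

variable {S : Sc} {M : Md} {m : ℕ} {a : ℝ}

theorem RW_mul (ρ g : ℕ → ℝ) (c : ℝ) (j N : ℕ) : RW ρ (fun k => c * g k) j N = c * RW ρ g j N := by
  rw [RW, RW, mul_add, mul_sum]
  congr 1
  · ring
  · exact sum_congr rfl fun _ _ => by ring

/-- the start of the last window -/
structure Nd (S : Sc) (M : Md) (j0 : ℕ) : Prop where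
  lo : S.jl < j0
  hi : j0 + 2 < S.J
  s : M.s S.J / 2 ≤ M.s j0
  cnt : 1 / (12 * S.C ^ 5) ≤ ((S.J : ℝ) - 2 - j0) * S.v

namespace Kc

variable {lam l Λ : ℝ} {D : ℕ} (K : Kc lam l Λ D S M m a)
include K

theorem sJ : 1 ≤ 3 * S.C ^ 4 * M.s S.J := by
  have F := K.fn
  have := F.C0
  nlinarith [F.J_lo, mul_le_mul_of_nonneg_left (F.s_mem le_rfl).1 (show 0 ≤ 3 * S.C ^ 3 by positivity)]

theorem w3_ge : 1 / (S.n : ℝ) ≤ S.w3 1 := by
  have F := K.fn
  have := F.n1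
  have := F.ms_pos zero_le_one
  rw [Sc.w3, mul_one]
  exact div_le_div₀ F.F0.le F.F1 (by positivity) (mul_le_of_le_one_right (by positivity)
    (F.ms_le_one 1))

theorem pw_le {c : ℝ} {i : ℕ} (hc : c ≤ 1000) (hi : i ≤ 9) : c * S.C ^ i ≤ S.n := by
  have := K.l0
  have := K.fn.C0
  calc _ ≤ lam * lam ^ i := by gcongr; exacts [by linarith, K.Cl]
    _ = lam ^ (i + 1) := by ring
    _ ≤ lam ^ 10 := pow_le_pow_right₀ (by linarith) (by omega)
    _ ≤ _ := K.ln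

theorem nod (h : 2 * M.s S.jl ≤ M.s S.J) : ∃ j0, Nd S M j0 := by
  have F := K.fn
  have C0 := F.C0
  have v0 := F.v0
  have sJ := K.sJ
  have s0 : 0 < M.s S.J := (mul_pos_iff_of_pos_left (by positivity)).1 (one_pos.trans_le sJ)
  obtain ⟨k, hk, h1, h2, -⟩ := F.toCl.exists_node (t := M.s S.J / 2) (by linarith) (by linarith)
  have e := tel_le (f := M.s) (c := S.C * S.v) hk.le fun i _ b => (F.ss i b).2
  have v1 : 36 * S.C ^ 5 * S.v ≤ 1 := (mul_le_mul_of_nonneg_right (K.pw_le (by norm_num)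
    (by norm_num)) v0.le).trans (by linarith [K.vn, K.lg.z1 0])
  have cnt : 1 / (12 * S.C ^ 5) ≤ ((S.J : ℝ) - 2 - (k + 1 : ℕ)) * S.v := by
    rw [div_le_iff₀' (by positivity)]
    push_cast
    nlinarith [mul_le_mul_of_nonneg_left e (show 0 ≤ 12 * S.C ^ 4 by positivity),
      mul_le_mul_of_nonneg_left h1 (show 0 ≤ 12 * S.C ^ 4 by positivity)]
  refine ⟨k + 1, not_le.1 fun c => by linarith [F.sm c], ?_, h2.le, cnt⟩
  have := (mul_pos_iff_of_pos_right v0).1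
    ((show 0 < 1 / (12 * S.C ^ 5) by positivity).trans_le cnt)
  exact_mod_cast (show ((k + 1 : ℕ) : ℝ) + 2 < S.J by linarith)

section gen
variable {j0 : ℕ} (H : Nd S M j0)
include H

theorem mu_le : 1 / (12 * S.C ^ 6) ≤ M.z (S.J - 2) - M.z j0 := by
  have F := K.fn
  have C0 := F.C0
  have hi := H.hi
  have lo := H.lo
  have i1 := F.i1
  refine le_trans ?_ (tel_ge (f := M.z) (c := S.v / S.C) (by omega)
    fun i a b => (F.zs i (by omega) (by omega)).1)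
  rw [Nat.cast_sub (by omega), ← mul_div_assoc, le_div_iff₀ C0]
  exact le_trans (le_of_eq (by field_simp)) H.cnt

/-- **the top block from a majorant in counting form** -/
theorem top_gen {g : ℕ → ℝ} {cm R : ℝ} (g0 : ∀ j, j0 ≤ j → j ≤ S.Jp - 2 + 1 → 0 ≤ g j)
    (h1 : ∀ j k, j0 ≤ j → j < k → k ≤ S.Jp - 2 → M.z k - M.z j ≤ g j * (((k : ℝ) - j) * S.v))
    (h2 : ∀ k, j0 < k → k ≤ S.Jp - 2 → M.dz m a k ≤ g (k + 1) * S.v) (cm0 : 0 ≤ cm)
    (h3 : ∀ k, j0 < k → k ≤ S.Jp - 2 → M.dz m a k ≤ cm)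
    (hR : RW (M.rb m a) g j0 (S.Jp - 2 + 1) ≤ R) :
    Top M m a (S.J - 1) (S.Jp - 2) (lam ^ 32 * (S.w3 1 * (1 + R) + cm)) (1 - M.z (S.Jp - 2)) := by
  have F := K.fn
  have G := K.lg
  have C0 := F.C0
  have C1 := F.C1
  have F0 := F.F0
  have v0 := F.v0
  have n1 := F.n1
  have nm := F.nm
  have Cl := K.Cl
  have l0 := K.l0
  have i1 := F.i1
  have i3 := F.i3
  have i4 := F.i4
  have hi := H.hi
  have lo := H.lo
  have θ0 := F.ms_pos zero_le_one
  have w0 := F.w3_pos one_pos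
  have s1 : 1 ≤ 6 * S.C ^ 4 * M.s j0 := by
    nlinarith [K.sJ, mul_le_mul_of_nonneg_left H.s (show 0 ≤ 6 * S.C ^ 4 by positivity)]
  have hx : 1 / (12 * S.C ^ 5) ≤ M.z j0 := by
    rw [div_le_iff₀' (by positivity)]
    nlinarith [mul_le_mul_of_nonneg_left (F.s_le_z (k := j0) (by omega) (by omega))
      (show 0 ≤ 6 * S.C ^ 4 by positivity)]
  obtain ⟨c, hc⟩ : ∃ c, c = 1728 * S.C ^ 14 * S.F / S.ms 1 := ⟨_, rfl⟩
  have c0 : 0 < c := by rw [hc]; positivity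
  have fl : ∀ i, j0 ≤ i → i < S.Jp → S.v / c ≤ M.z i * (M.H (i + 1) - M.H i) := fun i a b => by
    have e := (F.msm (s1.trans (mul_le_mul_of_nonneg_left (F.sm a) (by positivity)))).trans
      (F.toCl.ms_mul (F.s_nonneg i) (by linarith [one_le_pow₀ (n := 4) C1]))
    have := F.ms_pos (F.s_nonneg i)
    refine le_trans ?_ (mul_le_mul (hx.trans (G.zm a)) (F.flr i (by omega) b) (by positivity)
      (G.z_nonneg i))
    calc _ = S.ms 1 * S.v / (1728 * S.C ^ 14 * S.F) := by rw [hc]; field_simp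
      _ ≤ 4 * (6 * S.C ^ 4) ^ 2 * S.ms (M.s i) * S.v / (1728 * S.C ^ 14 * S.F) := by gcongr
      _ = _ := by field_simp; ring
  have J : Mj M m a (M.dz m a) (fun k => c * g k) (S.v ^ 2 / (S.n * S.F)) cm (1 / (12 * S.C ^ 5))
      (c * R) j0 (S.Jp - 2) D := by
    refine ⟨by positivity, by omega, by omega, fun i a b => K.floor (by omega) (by omega),
      K.Phi_D (by omega) (by omega), fun k _ _ => G.dz_nonneg k, cm0, h3,
      fun j a b => mul_nonneg c0.le (g0 j a b), fun j k a b d => ?_, fun k a b => ?_,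
      by positivity, hx, ?_⟩
    · rw [sum_dz G.toLeg b.le]
      refine (h1 j k a b d).trans (le_trans (le_of_eq ?_) (mul_le_mul_of_nonneg_left
        (Phi_ge b.le fun i a' b' => fl i (a.trans a') (by omega))
        (mul_nonneg c0.le (g0 j a (by omega)))))
      field_simp
    · refine (h2 k a b).trans (le_trans (le_of_eq ?_) (mul_le_mul_of_nonneg_left
        (fl k a.le (by omega)) (mul_nonneg c0.le (g0 _ (by omega) (by omega)))))
      field_simp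
    · rw [RW_mul]; exact mul_le_mul_of_nonneg_left hR c0.le
  have R0 : 0 ≤ R := nonneg_of_mul_nonneg_right (J.R0 G) c0 |> fun h => h
  have cw : c / S.n = 1728 * S.C ^ 14 * S.w3 1 := by rw [hc, Sc.w3]; field_simp
  refine (J.top G (b := S.J - 1) (μ := 1 / (12 * S.C ^ 6)) (s := 1 / (12 * S.C ^ 5) / c)
    (by omega) (by omega) (by positivity) (K.mu_le H) (by positivity) ?_).mono ?_ le_rfl
  · refine le_trans ?_ (Phi_ge (by omega) fun i a b => fl i (by omega) (by omega))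
    rw [Nat.cast_sub (by omega), ← mul_div_assoc]
    push_cast
    exact div_le_div_of_nonneg_right (H.cnt.trans_eq (by ring)) c0.le
  have D2 := K.Dl
  have b1 : bb D m (c * R) cm (1 / (12 * S.C ^ 5)) ≤ lam ^ 20 * (S.w3 1 * R + cm) := by
    have e1 : 3456 * S.C ^ 14 ≤ lam ^ 16 := by
      rw [show lam ^ 16 = lam ^ 2 * lam ^ 14 by ring]; gcongr; nlinarith
    have e2 : 12 * S.C ^ 5 ≤ lam ^ 18 := by
      rw [show lam ^ 18 = lam ^ 13 * lam ^ 5 by ring]; gcongr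
      exact le_trans (by linarith) (le_self_pow₀ (by linarith) (by norm_num))
    calc _ ≤ lam ^ 2 * (2 / S.n * (lam ^ 2 * (c * R)) + cm / (1 / (12 * S.C ^ 5))) := by
          unfold bb; gcongr; linarith
      _ = lam ^ 2 * (lam ^ 2 * (2 * (c / S.n) * R) + 12 * S.C ^ 5 * cm) := by field_simp
      _ = lam ^ 2 * (lam ^ 2 * (3456 * S.C ^ 14 * (S.w3 1 * R)) + 12 * S.C ^ 5 * cm) := by
          rw [cw]; ring
      _ ≤ lam ^ 2 * (lam ^ 2 * (lam ^ 16 * (S.w3 1 * R)) + lam ^ 18 * cm) := by gcongr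
      _ = _ := by ring
  have e3 : 248832 * S.C ^ 24 ≤ lam ^ 32 := by
    rw [show lam ^ 32 = lam ^ 8 * lam ^ 24 by ring]; gcongr
    exact le_trans (by nlinarith) (pow_le_pow_right₀ (by linarith) (by norm_num : 2 ≤ 8))
  have e4 : (2 + 12 * S.C ^ 6) * (12 * S.C ^ 5) ≤ lam ^ 12 := by
    calc _ ≤ (2 * S.C ^ 6 + 12 * S.C ^ 6) * (12 * S.C ^ 5) := by
          gcongr; linarith [one_le_pow₀ (n := 6) C1]
      _ = 168 * S.C ^ 11 := by ring
      _ ≤ lam * lam ^ 11 := by gcongr; linarith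
      _ = _ := by ring
  calc _ ≤ 1 / (1 / (12 * S.C ^ 5) * (1 / (12 * S.C ^ 5) / c * S.n)) + (2 + 1 / (1 / (12 * S.C ^ 6))) *
        (lam ^ 20 * (S.w3 1 * R + cm) / (1 / (12 * S.C ^ 5))) := by gcongr
    _ = 144 * S.C ^ 10 * (c / S.n) + (2 + 12 * S.C ^ 6) * (12 * S.C ^ 5) *
        (lam ^ 20 * (S.w3 1 * R + cm)) := by field_simp; ring
    _ = 248832 * S.C ^ 24 * S.w3 1 + (2 + 12 * S.C ^ 6) * (12 * S.C ^ 5) *
        (lam ^ 20 * (S.w3 1 * R + cm)) := by rw [cw]; ring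
    _ ≤ lam ^ 32 * S.w3 1 + lam ^ 12 * (lam ^ 20 * (S.w3 1 * R + cm)) := by gcongr
    _ = _ := by ring

end gen


end Kc

/-! ### the static plateau -/

theorem inv_sub_le {x y : ℝ} (hx : 0 < x) (h : x ≤ y) : -(1 / √y) - -(1 / √x) ≤ (y - x) / (2 * (x * √x)) := by
  have a0 := sqrt_pos.2 hx
  have ab := sqrt_le_sqrt h
  have e1 := sq_sqrt hx.le
  have e2 := sq_sqrt (hx.le.trans h)
  generalize √x = a at *
  generalize √y = b at *
  have b0 : 0 < b := by linarith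
  rw [← e1, ← e2, neg_sub_neg, div_sub_div _ _ a0.ne' b0.ne', div_le_div_iff₀ (by positivity)
    (by positivity)]
  nlinarith [mul_nonneg (mul_nonneg (sub_nonneg.2 ab) (sub_nonneg.2 ab))
    (show 0 ≤ a * (2 * a + b) by positivity)]

theorem sub_le_inv {x y : ℝ} (hx : 0 < x) (h : x ≤ y) (h2 : y ≤ 2) :
    y - x ≤ 4 * √x * (-(1 / √y) - -(1 / √x)) := by
  have a0 := sqrt_pos.2 hx
  have ab := sqrt_le_sqrt h
  have e1 := sq_sqrt hx.le
  have e2 := sq_sqrt (hx.le.trans h)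
  generalize √x = a at *
  generalize √y = b at *
  have b0 : 0 < b := by linarith
  rw [← e1, ← e2, show 4 * a * (-(1 / b) - -(1 / a)) = 4 * (b - a) / b by field_simp; ring,
    le_div_iff₀ b0]
  nlinarith [mul_nonneg (sub_nonneg.2 ab) (show 0 ≤ 4 - (b + a) * b by nlinarith)]

theorem sqrt_sub_sq {x y : ℝ} (hx : 0 < x) (h : x ≤ y) :
    (√y - √x) ^ 2 ≤ (y - x) * (log y - log x) := by
  have y0 := hx.trans_le h
  have l := one_sub_inv_le_log_of_pos (div_pos y0 hx)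
  rw [log_div y0.ne' hx.ne', inv_div] at l
  refine le_trans ?_ (mul_le_mul_of_nonneg_left l (by linarith))
  have a0 := sqrt_pos.2 hx
  have ab := sqrt_le_sqrt h
  have e1 := sq_sqrt hx.le
  have e2 := sq_sqrt y0.le
  generalize √x = a at *
  generalize √y = b at *
  have b0 : 0 < b := by linarith
  rw [← e1, ← e2, show (b ^ 2 - a ^ 2) * (1 - a ^ 2 / b ^ 2) = (b - a) ^ 2 * ((b + a) ^ 2 / b ^ 2) by
    field_simp; ring]
  exact le_mul_of_one_le_right (sq_nonneg _) ((one_le_div (by positivity)).2 (by nlinarith))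

theorem inv_sub_sq {x y : ℝ} (hx : 0 < x) (h : x ≤ y) :
    (1 / x - 1 / y) ^ 2 ≤ (y - x) * (1 / x ^ 3 - 1 / y ^ 3) := by
  have y0 := hx.trans_le h
  rw [show (y - x) * (1 / x ^ 3 - 1 / y ^ 3) = (1 / x - 1 / y) ^ 2 * ((y ^ 2 + x * y + x ^ 2) / (x * y)) by
    field_simp; ring]
  exact le_mul_of_one_le_right (sq_nonneg _) ((one_le_div (by positivity)).2 (by nlinarith))

/-- shape of the static plateau -/
structure Shp (S : Sc) (M : Md) (la : ℝ) : Prop where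
  A4 : 4 ≤ S.A
  la0 : 1 / (S.n : ℝ) ≤ la
  u0 : 0 < S.u0
  e : la ^ 2 = S.u0 ^ 3
  uC : 2 * S.C * S.u0 ≤ 1
  ue : S.ue ≤ 1 / (S.n : ℝ) ^ 2
  top : 1 / (S.n : ℝ) ^ 3 ≤ 1 - M.z (S.Jp - 1)
  d1 : ∀ x, M.z (S.J - 1) ≤ x → x < 1 →
    la ≤ 4 * S.den x * ((x - M.z (S.J - 1) + S.u0) * √(x - M.z (S.J - 1) + S.u0))
  d2 : ∀ x, M.z (S.J - 1) ≤ x → x < 1 → la ≤ 4 * S.den x * √(1 - x)
  flat : M.s S.Jp = M.s S.J
  jl : 2 * M.s S.jl ≤ M.s S.J

/-- distance to the corner from below, from above; the majorant -/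
def yP (S : Sc) (M : Md) (k : ℕ) : ℝ := M.z (S.J - 1) - M.z k + S.u0
def AP (S : Sc) (M : Md) (k : ℕ) : ℝ := M.z k - M.z (S.J - 1) + S.u0
def gP (S : Sc) (M : Md) (la : ℝ) (k : ℕ) : ℝ :=
  if k < S.J then 1 / yP S M k else min √(AP S M k) √(1 - M.z k) / la

namespace Kc

variable {lam l Λ la : ℝ} {D : ℕ} (K : Kc lam l Λ D S M m a) (P : Shp S M la)
include K P

theorem la0 : 0 < la := lt_of_lt_of_le (by have := K.fn.n1; positivity) P.la0

theorem u1 : S.u0 ≤ 1 / 2 := by nlinarith [P.uC, P.u0, K.fn.C1]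

theorem la_le : la ≤ S.u0 := by
  have := P.u0
  exact abs_le_of_sq_le_sq' (by rw [P.e]; nlinarith [K.u1 P, sq_nonneg S.u0]) this.le |>.2

theorem la_eq : S.u0 * √S.u0 = la := by
  have := P.u0
  rw [← sq_eq_sq₀ (by positivity) (K.la0 P).le, mul_pow, sq_sqrt this.le, P.e]; ring

theorem u_le : S.u0 ≤ 1 - M.z (S.J - 1) := by
  have C1 := K.fn.C1
  have : S.u0 ≤ 1 / S.C := by rw [le_div_iff₀' (by linarith)]; nlinarith [P.uC, P.u0]
  linarith [K.fn.atom.2]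

theorem v4 : 8 * (S.C * S.v) ≤ 1 / (S.n : ℝ) ^ 3 := by
  have F := K.fn
  have n1 := F.n1
  have e := (mul_le_mul_of_nonneg_left (pow_le_pow_right₀ n1 P.A4) F.v0.le).trans F.v2
  rw [le_div_iff₀ (by positivity)]
  refine le_of_mul_le_mul_right ?_ (show (0 : ℝ) < S.n by positivity)
  nlinarith [K.pw_le (c := 8) (i := 2) (by norm_num) (by norm_num),
    mul_le_mul_of_nonneg_left e F.C0.le]

theorem U_ge {k : ℕ} (hk : k ≤ S.Jp - 1) : 1 / (S.n : ℝ) ^ 3 ≤ 1 - M.z k := by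
  linarith [P.top, K.lg.zm hk]

theorem U0 {k : ℕ} (hk : k ≤ S.Jp - 1) : 0 < 1 - M.z k :=
  lt_of_lt_of_le (by have := K.fn.n1; positivity) (K.U_ge P hk)

theorem U_top : 1 - M.z (S.Jp - 1) ≤ la ^ 2 := by
  have n1 := K.fn.n1
  refine (K.fn.last.trans P.ue).trans (le_trans (le_of_eq (by field_simp))
    (pow_le_pow_left₀ (by positivity) P.la0 2))

theorem JJ : S.J < S.Jp := lt_of_le_of_ne K.fn.i3 fun e => by
  have a1 := K.U_top P
  rw [← e, P.e] at a1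
  nlinarith [K.u_le P, P.u0, K.u1 P, mul_pos P.u0 P.u0]

theorem y_mem {k : ℕ} (hk : k < S.J) : S.u0 ≤ yP S M k ∧ yP S M k ≤ 2 := by
  unfold yP
  constructor <;> linarith [K.lg.zm (show k ≤ S.J - 1 by omega), K.lg.z1 (S.J - 1),
    K.lg.z_nonneg k, K.u1 P]

theorem A_mem {k : ℕ} (hk : S.J - 1 ≤ k) : S.u0 ≤ AP S M k ∧ AP S M k ≤ 2 := by
  unfold AP
  constructor <;> linarith [K.lg.zm hk, K.lg.z1 k, K.lg.z_nonneg (S.J - 1), K.u1 P]

theorem g_J : gP S M la (S.J - 1) = 1 / S.u0 := by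
  rw [gP, if_pos (by have := K.fn.i2; omega), yP, sub_self, zero_add]

theorem g_pl {k : ℕ} (hk : S.J - 1 ≤ k) : gP S M la k = min √(AP S M k) √(1 - M.z k) / la := by
  rcases hk.eq_or_lt with rfl | h
  · have := P.u0
    have := sqrt_pos.2 this
    rw [K.g_J P, AP, sub_self, zero_add, min_eq_left (sqrt_le_sqrt (K.u_le P)), ← K.la_eq P]
    field_simp
  · exact if_neg (by omega)

theorem g_nn (k : ℕ) : 0 ≤ gP S M la k := by
  have := K.la0 P
  unfold gP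
  split_ifs with h
  · exact one_div_nonneg.2 (P.u0.le.trans (K.y_mem P h).1)
  · positivity

theorem st {k : ℕ} (h0 : S.J - 1 ≤ k) (h1 : k < S.Jp - 1) :
    (M.z (k + 1) - M.z k) * la ≤ 4 * (S.C * S.v) * (AP S M k * √(AP S M k)) ∧
    (M.z (k + 1) - M.z k) * la ≤ 4 * (S.C * S.v) * √(1 - M.z k) := by
  have e := (K.fn.plat (k + 1) (by omega) (by omega)).2
  rw [Nat.add_sub_cancel] at e
  have d0 := sub_nonneg.2 (K.lg.zm k.le_succ)
  have U := K.U0 P h1.le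
  have A0 := P.u0.le.trans (K.A_mem P h0).1
  have key : ∀ X, 0 ≤ X → la ≤ 4 * S.den (M.z k) * X →
      (M.z (k + 1) - M.z k) * la ≤ 4 * (S.C * S.v) * X := fun X X0 h => by
    nlinarith [mul_le_mul_of_nonneg_left h d0, mul_le_mul_of_nonneg_right e X0]
  exact ⟨key _ (by positivity) (P.d1 _ (K.lg.zm h0) (by linarith)),
    key _ (by positivity) (P.d2 _ (K.lg.zm h0) (by linarith))⟩

theorem mesh {k : ℕ} (h0 : S.J - 1 ≤ k) (h1 : k < S.Jp - 1) :
    1 - M.z k ≤ 2 * (1 - M.z (k + 1)) := by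
  have n1 := K.fn.n1
  have l0 := K.la0 P
  have U := K.U0 P h1.le
  have e1 : 1 / (S.n : ℝ) ^ 2 ≤ √(1 - M.z k) := le_sqrt_of_sq_le (le_trans (by
    rw [div_pow, one_pow, ← pow_mul]
    exact one_div_le_one_div_of_le (by positivity) (pow_le_pow_right₀ n1 (by norm_num)))
    (K.U_ge P h1.le))
  have e2 : 8 * (S.C * S.v) ≤ la * √(1 - M.z k) := (K.v4 P).trans (le_trans (le_of_eq (by field_simp))
    (mul_le_mul P.la0 e1 (by positivity) l0.le))
  have e3 := mul_le_mul_of_nonneg_right e2 (sqrt_nonneg (1 - M.z k))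
  rw [mul_assoc la, mul_self_sqrt U.le] at e3
  exact le_of_mul_le_mul_right (by nlinarith [(K.st P h0 h1).2]) l0

theorem inc {j k : ℕ} (h0 : S.J - 1 ≤ j) (h : j ≤ k) (h1 : k ≤ S.Jp - 1) :
    M.z k - M.z j ≤ 8 * S.C * gP S M la j * (((k : ℝ) - j) * S.v) := by
  have l0 := K.la0 P
  have c0 := mul_pos K.fn.C0 K.fn.v0
  have kj : (0 : ℝ) ≤ (k : ℝ) - j := sub_nonneg.2 (by exact_mod_cast h)
  have A0 := fun i hi => P.u0.trans_le (K.A_mem P (k := i) hi).1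
  have e1 := tel_le (f := fun i => -(1 / √(AP S M i))) (c := 2 * (S.C * S.v) / la) h
    fun i a b => (inv_sub_le (A0 i (by omega)) (by unfold AP; linarith [K.lg.zm i.le_succ])).trans (by
      have := A0 i (by omega)
      rw [div_le_div_iff₀ (by positivity) l0]
      have := (K.st P (k := i) (by omega) (by omega)).1
      unfold AP at *
      linarith)
  have e2 := tel_le (f := M.z) (c := 4 * (S.C * S.v) * √(1 - M.z j) / la) h fun i a b => by
    rw [le_div_iff₀ l0]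
    refine (K.st P (by omega) (by omega)).2.trans ?_
    gcongr
    exact K.lg.zm a
  have e3 := (sub_le_inv (A0 j h0) (by unfold AP; linarith [K.lg.zm h])
    (K.A_mem P (h0.trans h)).2).trans (mul_le_mul_of_nonneg_left e1 (by positivity))
  rw [K.g_pl P h0]
  rcases min_choice √(AP S M j) √(1 - M.z j) with c | c <;> rw [c]
  · refine le_trans (le_of_eq ?_) (e3.trans_eq (by ring))
    unfold AP; ring
  · refine e2.trans (le_trans ?_ (le_of_eq (show 2 * (((k : ℝ) - j) *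
      (4 * (S.C * S.v) * √(1 - M.z j) / la)) = _ by ring)))
    exact le_mul_of_one_le_left (by positivity) one_le_two

section win
variable {j0 : ℕ} (H : Nd S M j0)
include H

omit P in
theorem sl {j k : ℕ} (h0 : j0 - 1 ≤ j) (h : j ≤ k) (h1 : k < S.J) :
    M.z k - M.z j ≤ ((k : ℝ) - j) * (S.C * S.v) :=
  tel_le h fun i a b => (K.fn.zs i (by have := H.lo; have := K.fn.i1; omega) (by omega)).2

theorem h1 {j k : ℕ} (h0 : j0 ≤ j) (h : j < k) (hk : k ≤ S.Jp - 2) :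
    M.z k - M.z j ≤ 16 * S.C * gP S M la (j - 1) * (((k : ℝ) - j) * S.v) := by
  have G := K.lg
  have lo := H.lo
  have C0 := K.fn.C0
  have v0 := K.fn.v0
  have c0 := mul_pos C0 v0
  have kj : (j : ℝ) + 1 ≤ k := by exact_mod_cast h
  have cj : ((j - 1 : ℕ) : ℝ) = j - 1 := by rw [Nat.cast_sub (by omega), Nat.cast_one]
  have cJ : ((S.J - 1 : ℕ) : ℝ) = S.J - 1 := by
    rw [Nat.cast_sub (by have := H.hi; omega), Nat.cast_one]
  rcases le_or_gt S.J j with c | c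
  · have := K.inc P (j := j - 1) (k := k) (by omega) (by omega) (by omega)
    rw [cj] at this
    nlinarith [G.zm (Nat.sub_le j 1), mul_nonneg (mul_nonneg c0.le (K.g_nn P (j - 1)))
      (show (0 : ℝ) ≤ k - j - 1 by linarith)]
  have y := K.y_mem P (k := j - 1) (by omega)
  have y0 := P.u0.trans_le y.1
  rw [gP, if_pos (by omega), mul_one_div, div_mul_eq_mul_div, le_div_iff₀ y0]
  have z0 := sub_nonneg.2 (G.zm h.le)
  have p : 0 ≤ ((k : ℝ) - j) * (S.C * S.v) := mul_nonneg (by linarith) c0.le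
  rcases lt_or_ge k S.J with d | d
  · nlinarith [mul_le_mul (K.sl H (by omega) h.le d) y.2 y0.le p]
  have e1 := K.sl H (j := j - 1) (k := S.J - 1) (by omega) (by omega) (by omega)
  have e2 := K.inc P (j := S.J - 1) (k := k) le_rfl (by omega) (by omega)
  have u0 := P.u0
  rw [K.g_J P, cJ, mul_one_div, div_mul_eq_mul_div, le_div_iff₀ u0] at e2
  rw [cj, cJ] at e1
  have a1 : (S.J : ℝ) ≤ k := by exact_mod_cast d
  have a2 : (j : ℝ) + 1 ≤ S.J := by exact_mod_cast c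
  have e3 := mul_le_mul_of_nonneg_right (show (S.J : ℝ) - 1 - (j - 1) ≤ k - j by linarith) c0.le
  have e4 := mul_le_mul_of_nonneg_right (show (k : ℝ) - (S.J - 1) ≤ k - j by linarith) c0.le
  have b1 := G.zm (Nat.sub_le j 1)
  have b2 := G.zm (show j ≤ S.J - 1 by omega)
  have e5 : (M.z k - M.z j) * (M.z (S.J - 1) - M.z (j - 1)) ≤ M.z (S.J - 1) - M.z (j - 1) :=
    mul_le_of_le_one_left (by linarith) (by linarith [G.z1 k, G.z_nonneg j])
  have e6 : (M.z (S.J - 1) - M.z j) * S.u0 ≤ M.z (S.J - 1) - M.z j :=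
    mul_le_of_le_one_right (by linarith) (by linarith [K.u1 P])
  unfold yP
  nlinarith

theorem h2 {k : ℕ} (h0 : j0 < k) (hk : k ≤ S.Jp - 2) :
    M.dz m a k ≤ 16 * S.C * gP S M la k * S.v ∧ M.dz m a k ≤ S.w3 1 := by
  have G := K.lg
  have C0 := K.fn.C0
  have v0 := K.fn.v0
  have n1 := K.fn.n1
  have c0 := mul_pos C0 v0
  have l0 := K.la0 P
  have v4 := K.v4 P
  have n3 : 1 / (S.n : ℝ) ^ 3 ≤ 1 / S.n * (1 / S.n) := by
    rw [div_mul_div_comm, one_mul, ← sq]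
    exact one_div_le_one_div_of_le (by positivity) (pow_le_pow_right₀ n1 (by norm_num))
  have w := mul_le_mul K.w3_ge P.la0 (by positivity) (K.fn.w3_pos one_pos).le
  obtain ⟨k, rfl⟩ : ∃ j, k = j + 1 := ⟨k - 1, by omega⟩
  rw [dz_succ G.toLeg]
  rcases lt_or_ge (k + 1) S.J with c | c
  · have e := K.sl H (j := k) (by omega) k.le_succ c
    have y := K.y_mem P c
    have y0 := P.u0.trans_le y.1
    push_cast at e
    rw [gP, if_pos c, mul_one_div, div_mul_eq_mul_div, le_div_iff₀ y0]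
    refine ⟨by nlinarith [mul_le_mul e y.2 y0.le (by linarith)], ?_⟩
    nlinarith [mul_le_of_le_one_right (K.fn.w3_pos one_pos).le
      (show la ≤ 1 by linarith [K.la_le P, K.u1 P])]
  obtain ⟨e1, e2⟩ := K.st P (k := k) (by omega) (by omega)
  have A := K.A_mem P (k := k) (by omega)
  have a1 : √(AP S M k) ≤ √(AP S M (k + 1)) :=
    sqrt_le_sqrt (by unfold AP; linarith [G.zm k.le_succ])
  have a2 : √(1 - M.z k) ≤ 2 * √(1 - M.z (k + 1)) := by
    have := K.U0 P (k := k + 1) (by omega)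
    refine sqrt_le_iff.2 ⟨by positivity, ?_⟩
    rw [mul_pow, sq_sqrt this.le]
    linarith [K.mesh P (k := k) (by omega) (by omega)]
  have a3 : √(1 - M.z k) ≤ 1 := sqrt_le_one.2 (by linarith [G.z_nonneg k])
  refine ⟨?_, le_of_mul_le_mul_right ?_ l0⟩
  · rw [K.g_pl P (by omega), ← mul_div_assoc, div_mul_eq_mul_div, le_div_iff₀ l0]
    rcases min_choice √(AP S M (k + 1)) √(1 - M.z (k + 1)) with d | d <;> rw [d]
    · nlinarith [mul_le_mul_of_nonneg_left (mul_le_mul A.2 a1 (sqrt_nonneg _) two_pos.le) c0.le,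
        mul_nonneg c0.le (sqrt_nonneg (AP S M (k + 1)))]
    · nlinarith [mul_le_mul_of_nonneg_left a2 c0.le, mul_nonneg c0.le (sqrt_nonneg (1 - M.z (k + 1)))]
  · nlinarith [mul_le_mul_of_nonneg_left a3 c0.le]

theorem g_lo {k : ℕ} (hk : k ≤ j0) : gP S M la k ≤ 12 * S.C ^ 6 := by
  have hi := H.hi
  have C0 := K.fn.C0
  have y0 := P.u0.trans_le (K.y_mem P (k := k) (by omega)).1
  rw [gP, if_pos (by omega), div_le_comm₀ y0 (by positivity)]
  unfold yP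
  linarith [K.mu_le H, K.lg.zm hk, K.lg.zm (show S.J - 2 ≤ S.J - 1 by omega), P.u0]

omit H in
theorem lg_u : -log S.u0 ≤ lam := by
  have n1 := K.fn.n1
  have := log_le_log (by positivity) (P.la0.trans (K.la_le P))
  rw [one_div, log_inv] at this
  linarith [K.lgn]

/-- the reference against the majorant -/
theorem q_part : ∑ j ∈ Ioc j0 (S.Jp - 1), (M.q j - M.q (j - 1)) * gP S M la (j - 1) ≤
    S.C ^ 2 * (1 + lam) + 1 := by
  have F := K.fn
  have G := K.lg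
  have C0 := F.C0
  have n1 := F.n1
  have l0 := K.la0 P
  have hi := H.hi
  have lo := H.lo
  have i1 := F.i1
  have i4 := F.i4
  have JJ := K.JJ P
  rw [← sum_Ioc_consecutive _ (show j0 ≤ S.J - 1 by omega) (show S.J - 1 ≤ S.Jp - 1 by omega)]
  refine add_le_add ?_ ?_
  · refine (sum_le_sum (g := fun j => S.C ^ 2 * (-log (yP S M j) - -log (yP S M (j - 1))))
      fun j hj => ?_).trans ?_
    · obtain ⟨a1, a2⟩ := mem_Ioc.1 hj
      obtain ⟨j, rfl⟩ : ∃ i, j = i + 1 := ⟨j - 1, by omega⟩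
      simp only [Nat.add_sub_cancel]
      have y0 := P.u0.trans_le (K.y_mem P (k := j) (by omega)).1
      have y1 := P.u0.trans_le (K.y_mem P (k := j + 1) (by omega)).1
      have e1 := (q_lip F.toCl j.le_succ (by omega)).trans (F.ss j (by omega)).2
      have e2 := (F.zs j (by omega) (by omega)).1
      rw [div_le_iff₀' C0] at e2
      have e3 := one_sub_inv_le_log_of_pos (div_pos y0 y1)
      rw [log_div y0.ne' y1.ne', inv_div, one_sub_div y0.ne'] at e3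
      rw [gP, if_pos (by omega), neg_sub_neg, mul_one_div]
      refine le_trans ?_ (mul_le_mul_of_nonneg_left e3 (by positivity))
      rw [← mul_div_assoc]
      refine div_le_div_of_nonneg_right ?_ y0.le
      unfold yP
      nlinarith [mul_le_mul_of_nonneg_left e2 C0.le]
    · rw [← mul_sum, tele (fun j => -log (yP S M j)) (by omega)]
      refine mul_le_mul_of_nonneg_left ?_ (by positivity)
      have y := K.y_mem P (k := j0) (by omega)
      have := log_le_sub_one_of_pos (P.u0.trans_le y.1)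
      rw [yP, sub_self, zero_add]
      linarith [K.lg_u P]
  · refine (sum_le_sum (g := fun j => (M.q j - M.q (j - 1)) * (1 / la)) fun j hj => ?_).trans ?_
    · obtain ⟨a1, a2⟩ := mem_Ioc.1 hj
      refine mul_le_mul_of_nonneg_left ?_ (sub_nonneg.2 (q_mono F.toCl (Nat.sub_le j 1) (by omega)))
      rw [K.g_pl P (by omega)]
      exact div_le_div_of_nonneg_right ((min_le_right _ _).trans
        (sqrt_le_one.2 (by linarith [G.z_nonneg (j - 1)]))) l0.le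
    · rw [← sum_mul, tele _ (by omega), mul_one_div, div_le_one l0]
      have e1 := q_lip F.toCl (show S.J - 1 ≤ S.Jp - 1 by omega) (by omega)
      have e2 := (F.ss (S.J - 1) (by omega)).2
      rw [show S.J - 1 + 1 = S.J by omega] at e2
      have e3 : 1 / (S.n : ℝ) ^ 3 ≤ 1 / S.n :=
        one_div_le_one_div_of_le (by positivity) (le_self_pow₀ n1 (by norm_num))
      linarith [F.sm (Nat.sub_le S.Jp 1), P.flat, K.v4 P, P.la0, mul_pos C0 F.v0]

/-- the rise of the overlaps against the majorant -/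
theorem rw_le {V : ℝ} (V0 : 0 ≤ V)
    (hV : ∑ j ∈ Ioc j0 (S.Jp - 1), M.dz m a j * |M.rb m a j - M.q j| ^ 2 ≤ V ^ 2) :
    RW (M.rb m a) (fun j => gP S M la (j - 1)) j0 (S.Jp - 1) ≤ lam ^ 7 * (1 + V / la) := by
  have F := K.fn
  have G := K.lg
  have C0 := F.C0
  have Cl := K.Cl
  have L0 := K.l0
  have n1 := F.n1
  have l0 := K.la0 P
  have u0 := P.u0
  have hi := H.hi
  have JJ := K.JJ P
  have ab : ∀ k, |M.rb m a k - M.q k| ≤ 1 := fun k => abs_le.2 ⟨by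
    linarith [rb_nonneg (M := M) (a := a) G.m0 k, q_le_one (M := M) k], by
    linarith [rb_le_one (M := M) (a := a) G.m0 k, q_nonneg (M := M) k]⟩
  set L := fun j => log (AP S M j) - log (1 - M.z j) with hL
  set ω := fun j => if j < S.J then 1 / yP S M j ^ 3 - 1 / yP S M (j - 1) ^ 3 else
    (L j - L (j - 1)) / la ^ 2 with hω
  have key : ∀ j, j0 < j → j ≤ S.Jp - 1 → 0 ≤ ω j ∧
      (gP S M la j - gP S M la (j - 1)) ^ 2 ≤ M.dz m a j * ω j := fun j a1 a2 => by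
    obtain ⟨j, rfl⟩ : ∃ i, j = i + 1 := ⟨j - 1, by omega⟩
    have zz := G.zm j.le_succ
    simp only [hω, Nat.add_sub_cancel, dz_succ G.toLeg]
    split_ifs with c
    · have y1 := u0.trans_le (K.y_mem P c).1
      have yy : yP S M (j + 1) ≤ yP S M j := by unfold yP; linarith
      refine ⟨sub_nonneg.2 (by gcongr), ?_⟩
      rw [gP, gP, if_pos c, if_pos (by omega)]
      exact (inv_sub_sq y1 yy).trans_eq (by unfold yP; ring)
    · have A0 := u0.trans_le (K.A_mem P (k := j) (by omega)).1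
      have AA : AP S M j ≤ AP S M (j + 1) := by unfold AP; linarith
      have U0 := K.U0 P a2
      have UU : 1 - M.z (j + 1) ≤ 1 - M.z j := by linarith
      have b1 := sqrt_sub_sq A0 AA
      have b2 := sqrt_sub_sq U0 UU
      have b3 := log_le_log A0 AA
      have b4 := log_le_log U0 UU
      have b5 := sqrt_le_sqrt AA
      have b6 := sqrt_le_sqrt UU
      refine ⟨div_nonneg (by simp only [hL]; linarith) (sq_nonneg _), ?_⟩
      rw [K.g_pl P (by omega), K.g_pl P (by omega), ← sub_div, div_pow, ← mul_div_assoc]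
      refine div_le_div_of_nonneg_right ?_ (sq_nonneg _)
      rw [show AP S M (j + 1) - AP S M j = M.z (j + 1) - M.z j by unfold AP; ring] at b1
      rw [show 1 - M.z j - (1 - M.z (j + 1)) = M.z (j + 1) - M.z j by ring] at b2
      have b7 : (min √(AP S M (j + 1)) √(1 - M.z (j + 1)) - min √(AP S M j) √(1 - M.z j)) ^ 2 ≤
          (√(AP S M (j + 1)) - √(AP S M j)) ^ 2 + (√(1 - M.z j) - √(1 - M.z (j + 1))) ^ 2 := by
        have := abs_min_sub_min_le_max √(AP S M (j + 1)) √(1 - M.z (j + 1)) √(AP S M j) √(1 - M.z j)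
        rw [← sq_abs]
        refine (pow_le_pow_left₀ (abs_nonneg _) this 2).trans ?_
        rcases max_choice |√(AP S M (j + 1)) - √(AP S M j)| |√(1 - M.z (j + 1)) - √(1 - M.z j)|
          with d | d <;> rw [d, sq_abs] <;> nlinarith [sq_nonneg (√(AP S M (j + 1)) - √(AP S M j)),
            sq_nonneg (√(1 - M.z j) - √(1 - M.z (j + 1)))]
      simp only [hL]
      linarith
  have en : ∑ j ∈ Ioc j0 (S.Jp - 1), ω j ≤ (lam / la) ^ 2 := by
    rw [← sum_Ioc_consecutive _ (show j0 ≤ S.J - 1 by omega) (show S.J - 1 ≤ S.Jp - 1 by omega),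
      sum_congr rfl fun j hj => if_pos (by have := (mem_Ioc.1 hj).2; omega),
      sum_congr (s₁ := Ioc (S.J - 1) (S.Jp - 1)) rfl fun j hj =>
        if_neg (by have := (mem_Ioc.1 hj).1; omega),
      tele (fun j => 1 / yP S M j ^ 3) (by omega), ← sum_div, tele L (by omega), yP, sub_self,
      zero_add, ← P.e, div_pow]
    have y0 := u0.trans_le (K.y_mem P (k := j0) (by omega)).1
    have A := K.A_mem P (k := S.Jp - 1) (by omega)
    have b1 := log_le_sub_one_of_pos (u0.trans_le A.1)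
    have b2 := log_le_log (by positivity) P.top
    rw [one_div, log_inv, log_pow] at b2
    have b3 : log (1 - M.z (S.J - 1)) ≤ 0 :=
      log_nonpos (K.U0 P (by omega)).le (by linarith [G.z_nonneg (S.J - 1)])
    have b4 : L (S.Jp - 1) - L (S.J - 1) + 1 ≤ lam ^ 2 := by
      simp only [hL]
      rw [show AP S M (S.J - 1) = S.u0 by rw [AP, sub_self, zero_add]]
      push_cast at b2
      nlinarith [K.lg_u P, K.lgn]
    have b5 := div_le_div_of_nonneg_right b4 (sq_nonneg la)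
    rw [add_div] at b5
    linarith [show 0 ≤ 1 / yP S M j0 ^ 3 by positivity]
  have e := ab_top (W := fun j => gP S M la (j - 1)) (show j0 ≤ S.Jp - 1 by omega) (ab _) (ab _)
    (K.g_nn P _) (K.g_nn P _) V0 (by positivity) (fun j _ _ => G.dz_nonneg j)
    (fun j a b => (key j a b).1) hV (fun j a b => (key j a b).2) en
  simp only [Nat.add_sub_cancel] at e
  have e1 := mul_le_mul (rb_le_one (M := M) (a := a) G.m0 j0) (K.g_lo P H (Nat.sub_le j0 1))
    (K.g_nn P _) zero_le_one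
  have e2 : gP S M la (S.Jp - 1) ≤ 1 := by
    rw [K.g_pl P (by omega), div_le_one l0]
    exact (min_le_right _ _).trans (sqrt_le_iff.2 ⟨l0.le, K.U_top P⟩)
  have e3 : S.C ^ 6 ≤ lam ^ 6 := by gcongr
  have e4 : S.C ^ 2 * (1 + lam) ≤ lam ^ 2 * lam ^ 4 := by
    gcongr
    nlinarith [pow_le_pow_right₀ (show 1 ≤ lam by linarith) (show 2 ≤ 4 by norm_num)]
  have e5 : 1 ≤ lam ^ 6 := one_le_pow₀ (by linarith)
  have e6 : V * (lam / la) ≤ lam ^ 7 * (V / la) := by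
    rw [mul_div_left_comm]
    exact mul_le_mul_of_nonneg_right (le_self_pow₀ (by linarith) (by norm_num)) (by positivity)
  rw [RW]
  nlinarith [K.g_lo P H le_rfl, K.q_part P H, mul_le_mul_of_nonneg_right L0 (zero_le_one.trans e5)]

end win

/-- **the top block on the static plateau**; the location is `LK.top` -/
theorem topP {V : ℝ} (V0 : 0 ≤ V) (hV : ∑ k ∈ R62.sb S M (R62.T0 S M / 4) S.C ∪ Icc S.J S.Jp,
      R62.lw M k * M.del m a k ^ 2 ≤ V ^ 2) :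
    Top M m a (S.J - 1) (S.Jp - 2) (lam ^ 42 * (S.w3 1 * (1 + V / la))) (2 / (S.n : ℝ) ^ 2) := by
  obtain ⟨j0, H⟩ := K.nod P.jl
  have F := K.fn
  have G := K.lg
  have C0 := F.C0
  have Cl := K.Cl
  have L0 := K.l0
  have l0 := K.la0 P
  have w0 := F.w3_pos one_pos
  have hi := H.hi
  have lo := H.lo
  have JJ := K.JJ P
  have eN : S.Jp - 2 + 1 = S.Jp - 1 := by omega
  have r := K.rw_le P H V0 (le_trans (le_of_eq (sum_congr rfl fun k hk => by
    rw [sq_abs, dz_up G.toLeg (by have := (mem_Ioc.1 hk).1; omega)]; rfl))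
    ((sum_le_sum_of_subset_of_nonneg (fun k hk => ?_) fun k _ _ => mul_nonneg
      (sub_nonneg.2 (G.zm (Nat.sub_le k 1))) (sq_nonneg _)).trans hV))
  · refine (K.top_gen H (g := fun j => 16 * S.C * gP S M la (j - 1)) (cm := S.w3 1)
      (R := 16 * S.C * (lam ^ 7 * (1 + V / la)))
      (fun j _ _ => mul_nonneg (by positivity) (K.g_nn P _)) (fun j k a b c => K.h1 P H a b c)
      (fun k a b => (K.h2 P H a b).1) w0.le (fun k a b => (K.h2 P H a b).2) ?_).mono ?_ ?_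
    · rw [RW_mul, eN]; exact mul_le_mul_of_nonneg_left r (by positivity)
    · have e1 : 1 ≤ 1 + V / la := le_add_of_nonneg_right (by positivity)
      generalize 1 + V / la = X at *
      have e2 : 16 * S.C * (lam ^ 7 * X) ≤ lam * lam * (lam ^ 7 * X) := by gcongr; linarith
      have e3 : 1 ≤ lam ^ 9 * X := one_le_mul_of_one_le_of_one_le (one_le_pow₀ (by linarith)) e1
      rw [show lam ^ 42 * (S.w3 1 * X) = lam ^ 32 * (S.w3 1 * (lam * (lam ^ 9 * X))) by ring,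
        show S.w3 1 * (1 + 16 * S.C * (lam ^ 7 * X)) + S.w3 1 =
          S.w3 1 * (2 + 16 * S.C * (lam ^ 7 * X)) by ring]
      gcongr
      nlinarith [mul_le_mul_of_nonneg_right L0 (zero_le_one.trans e3)]
    · have := K.mesh P (k := S.Jp - 2) (by omega) (by omega)
      rw [eN] at this
      have := F.last.trans P.ue
      rw [div_eq_mul_one_div]
      linarith
  · obtain ⟨a1, a2⟩ := mem_Ioc.1 hk
    rcases lt_or_ge k S.J with c | c
    · refine mem_union_left _ (mem_filter.2 ⟨mem_Ioo.2 ⟨by omega, c⟩, ?_,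
        (F.sm (by omega)).trans F.sT⟩)
      unfold R62.T0
      linarith [H.s, F.sm a1.le, F.s_nonneg S.J]
    · exact mem_union_right _ (mem_Icc.2 ⟨c, by omega⟩)


end Kc

end Crest.Agent.T156.Alt.Lb24

end
end

-- ▼ part T156/CLfG_24
section

/-!
# Row 156, block C: the top block on the graded path (helper24)
-/

set_option autoImplicit false
set_option linter.unusedSectionVars false

noncomputable section

namespace Crest.Agent.T156.Alt.Lb24

open Real Finset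
open Crest.Agent.T156.Alt.Mem37 Crest.Agent.T156.Alt.Plt13

variable {K c0 C0 η σ σ' : ℝ} {p : Pm} {Q : Pl}

theorem dt_ge {V l u : ℝ} (hl : 0 < l) (hV : l ≤ V) (hu : 0 < u) (h1 : u ≤ 1) :
    l ≤ 4 * dt V l u * √u := by
  have s0 := sqrt_pos.2 hu
  have s1 := sqrt_le_one.2 h1
  have e := mul_self_sqrt hu.le
  have V0 := hl.trans_le hV
  rw [dt]
  generalize √u = s at *
  rw [← e, ← mul_div_assoc, div_mul_eq_mul_div, le_div_iff₀ (by positivity)]
  have : s * (V * s + l) ≤ 2 * V := by nlinarith [mul_le_mul_of_nonneg_left h1 V0.le]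
  nlinarith [mul_le_mul_of_nonneg_left this (show 0 ≤ 2 * l * s by positivity)]

/-- **the shape of the plateau of a member** -/
theorem shp_gst (h : GrD K c0 C0 η p σ σ' Q) (hg : Q.γ = 0)
    (e1 : (p.n : ℝ) ^ (-(3 : ℝ)) ≤ 1 - Q.x Q.I) (hA : 4 ≤ p.A) (h0 : p.μ0 ≤ p.mt (p.muG σ))
    (h1 : p.mt (p.muG σ) ≤ p.κ) :
    Shp (p.scG K σ σ' Q) (p.gst Q σ') (p.la (p.mt (p.muG σ))) := by
  obtain ⟨n, l1, -⟩ := h.nb.la _ h0 h1
  obtain ⟨K0, K2, K3⟩ := h.nb.K3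
  have G := h.sl.geo h.nb h.pl
  obtain ⟨jJ, r0, -⟩ := h.nb.jfJ h.sl.base h.sl.jr
  have np := n.np
  have lp := n.lp
  have u0 := n.u0p
  have ez : (p.gst Q σ').z ((p.scG K σ σ' Q).J - 1) = p.xs := by
    change p.zP Q (max (p.J - 1) p.jf) = _
    rw [max_eq_left (by omega), zP_lo (by omega)]; rfl
  refine ⟨hA, n.nl, u0, ?_, ?_, ?_, ?_, fun x a b => ?_, fun x a b => ?_, ?_, ?_⟩
  · change _ = (p.la _ ^ ((2 : ℝ) / 3)) ^ 3
    rw [← rpow_mul_natCast lp.le, ← rpow_two]; norm_num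
  · change 2 * (8 * K ^ 2) * Plt13.u0 p _ ≤ 1
    have := mul_le_mul_of_nonneg_right h.nb.lg u0.le
    nlinarith [mul_le_mul_of_nonneg_left this K0.le, mul_le_mul_of_nonneg_right
      (show K ^ 2 ≤ K * K ^ 3 by nlinarith [h.nb.K1]) u0.le]
  · change (p.n : ℝ) ^ (-(2 : ℝ)) ≤ 1 / (p.n : ℝ) ^ 2
    rw [rpow_neg np.le, rpow_two, one_div]
  · change 1 / (p.n : ℝ) ^ 3 ≤ 1 - p.zP Q (max (p.J + Q.I - 1) p.jf)
    rw [max_eq_left (by omega), G.zP_x le_rfl, one_div, ← rpow_natCast, ← rpow_neg np.le]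
    exact_mod_cast e1
  · rw [ez] at a ⊢
    change _ ≤ 4 * dn p _ x * ((x - p.xs + Plt13.u0 p _) * √(x - p.xs + Plt13.u0 p _))
    have A0 : 0 < x - p.xs + Plt13.u0 p (p.mt (p.muG σ)) := by linarith
    have s0 := sqrt_pos.2 A0
    have a1 := dt_nn n.Vp lp.le (sub_pos.2 b)
    have a2 := dt_nn one_pos n.sp.le (sub_pos.2 b)
    rw [dn, den_eq a b]
    refine le_trans ?_ (mul_le_mul_of_nonneg_right (show 4 * db (p.la (p.mt (p.muG σ)))
      (x - p.xs + Plt13.u0 p (p.mt (p.muG σ))) ≤ _ by linarith) (by positivity))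
    rw [db]
    field_simp
    linarith
  · rw [ez] at a
    change _ ≤ 4 * dn p _ x * _
    have a1 := db_pos lp (show 0 < x - p.xs + Plt13.u0 p (p.mt (p.muG σ)) by linarith)
    have a2 := dt_nn one_pos n.sp.le (sub_pos.2 b)
    rw [dn, den_eq a b]
    exact (dt_ge lp n.lV (sub_pos.2 b) (by linarith [n.x0])).trans
      (mul_le_mul_of_nonneg_right (by linarith) (sqrt_nonneg _))
  · change p.sO Q _ (p.Jp Q) = p.sO Q _ p.J
    rw [G.sP_Jp, G.sP_J, hg, zero_mul, add_zero]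
  · change 2 * p.sO Q _ p.jf ≤ p.sO Q _ p.J
    have a := (G.s_inc (Nat.zero_le p.jf) (by omega)).2
    rw [G.sP_zero] at a
    have e : 32 * K * p.r ≤ 1 := by nlinarith [h.nb.rK, h.nb.K1]
    have f : 32 * p.r ≤ c0 := le_of_mul_le_mul_right (by linarith [h.nb.cK]) K0
    rw [G.sP_J]
    push_cast at a
    linarith [h.sl.base.lo, h.sl.jr]

theorem shp_px (h : GrD K c0 C0 η p σ σ' Q) (X : R77.PX p σ σ' Q) (hA : 4 ≤ p.A)
    (h0 : p.μ0 ≤ p.mt (p.muG σ)) (h1 : p.mt (p.muG σ) ≤ p.κ) :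
    Shp (p.scG K σ σ' Q) (p.gst Q σ') (p.la (p.mt (p.muG σ))) := by
  rcases X with X | ⟨P, P', t, -, X, -, rfl⟩
  · exact shp_gst h X.ok.g X.ok.e1 hA h0 h1
  · exact shp_gst h rfl X.ok.e1 hA h0 h1

/-- **the top block from the location kit**, `Pt ≤ (Λ₀ la)²` -/
theorem Kc.topK {S : Sc} {M : Md} {m D : ℕ} {a lam l Λ la Φ l0 Λ₀ Λ₁ Pt Vt u1 : ℝ} {P : ℝ → ℝ}
    (K : Kc lam l Λ D S M m a) (H : Shp S M la) (L : R62.LK S M m a Φ P l0 Λ₁ Pt Vt u1)
    (h1 : 1 ≤ Λ₀) (hP : Pt ≤ (Λ₀ * la) ^ 2) : ∃ τ ε, Top M m a (S.J - 1) (S.Jp - 2) τ ε ∧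
      lam ^ 3 * (τ + ε) ≤ lam ^ 46 * (Λ₀ * S.w3 1) := by
  have l0 := K.la0 H
  have L0 := K.l0
  have n1 := K.fn.n1
  have w0 := K.fn.w3_pos one_pos
  refine ⟨_, _, K.topP H (V := Λ₀ * la) (by positivity) (L.top.trans hP), ?_⟩
  rw [mul_div_cancel_right₀ _ l0.ne']
  have e1 : 2 / (S.n : ℝ) ^ 2 ≤ 2 * (Λ₀ * S.w3 1) := by
    rw [div_eq_mul_one_div]
    gcongr
    exact ((one_div_le_one_div_of_le (by positivity) (le_self_pow₀ n1 (by norm_num))).trans
      K.w3_ge).trans (le_mul_of_one_le_left w0.le h1)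
  have e2 : 1 ≤ lam ^ 42 := one_le_pow₀ (by linarith)
  have e3 : S.w3 1 * (1 + Λ₀) ≤ 2 * (Λ₀ * S.w3 1) := by nlinarith
  have X0 : 0 ≤ Λ₀ * S.w3 1 := by positivity
  generalize Λ₀ * S.w3 1 = X at *
  rw [show lam ^ 46 * X = lam ^ 3 * (lam * (lam ^ 42 * X)) by ring]
  gcongr
  nlinarith [mul_le_mul_of_nonneg_right e2 X0, mul_le_mul_of_nonneg_right L0
    (show 0 ≤ lam ^ 42 * X by positivity), mul_le_mul_of_nonneg_left e3 (zero_le_one.trans e2)]

end Crest.Agent.T156.Alt.Lb24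

end
end

-- ▼ part T156/ErBq_24
section

/-!
# Row 156, R1: the block leaf of the error table (helper24)
-/

set_option autoImplicit false

noncomputable section

namespace Crest.Agent.T156.Alt.E35

open Real Finset
open Crest.Agent.T156.Cas Crest.Agent.T156.Cas.C40 Crest.Agent.T156.Alt.CIn12
open Crest.Agent.T156.Alt.Md67 Crest.Agent.T156.Alt.Lb24 Crest.Agent.T156.Alt.C33

/-- `Lb24.kc_of` with explicit numbers -/
theorem kc_of' {S : Sc} {M : Md} {m : ℕ} {a lam l Λ : ℝ} (F : Fn S M m a) (A2 : 2 ≤ S.A)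
    (l0 : 1000 ≤ lam) (Cl : S.C ≤ lam) (lg : log S.n ≤ lam) (hK : 4 * (S.A : ℝ) + 9 ≤ lam)
    (ln : lam ^ 10 ≤ S.n) (key : lam / S.n ≤ (S.n : ℝ) ^ (-(1 : ℝ) / 6)) (hF : S.F ≤ S.n)
    (L1 : 1 ≤ Λ) (lo : ∀ k ≤ M.N, M.E2 m a (fun R => R ^ 2) k ≤ (Λ * max (M.z k) l) ^ 2) :
    ∃ D, Kc lam l Λ D S M m a := by
  have h := F.toCl
  have I := F.toIn
  have N0 := h.N0
  have C1 := h.C1
  have v0 := h.v0
  have F1 := h.F1
  have N1 := F.n1
  have N3 : (3 : ℝ) ≤ S.n := by exact_mod_cast F.n3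
  have Al : (S.A : ℝ) ≤ lam := by linarith [Nat.cast_nonneg (α := ℝ) S.A]
  have g1 : 1 ≤ log (S.n : ℝ) := by
    rw [le_log_iff_exp_le N0]; linarith [exp_one_lt_d9]
  have vn : S.v * S.n ≤ M.z 0 := by
    refine le_trans ?_ (key.trans (by linarith [I.a1, I.a2, h.leg.z0]))
    rw [le_div_iff₀ N0, mul_assoc, ← sq]
    exact ((mul_le_mul_of_nonneg_left (pow_le_pow_right₀ N1 A2) v0.le).trans h.v2).trans Cl
  have l5 : lam ^ 5 ≤ S.n := (pow_le_pow_right₀ (by linarith) (by norm_num)).trans ln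
  set D := ⌈2 * (2 * (S.A : ℝ) + 3) * log S.n⌉₊ with hD
  have D1 : 2 * (2 * (S.A : ℝ) + 3) * log S.n ≤ D := Nat.le_ceil _
  have D2 : (D : ℝ) ≤ 2 * (2 * (S.A : ℝ) + 3) * log S.n + 1 :=
    (Nat.ceil_lt_add_one (by positivity)).le
  refine ⟨D, F, vn, l0, Cl, ?_, h.HN.trans ?_, ?_, L1, lo, ln, lg⟩
  · nlinarith [mul_le_mul hK lg (by linarith) (by linarith)]
  · have e1 : (S.n : ℝ) ^ (2 * S.A + 3) ≤ 2 ^ D := by
      have h3 : (1 : ℝ) / 2 ≤ log 2 := by linarith [log_two_gt_d9]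
      rw [← log_le_log_iff (by positivity) (by positivity), log_pow, log_pow]
      push_cast
      nlinarith [mul_le_mul_of_nonneg_left h3 (Nat.cast_nonneg (α := ℝ) D)]
    have e2 : 1 ≤ S.C * (S.v * (S.n : ℝ) ^ S.A) := by
      have := h.v1
      rwa [div_le_iff₀' (by linarith)] at this
    rw [← mul_div_assoc, le_div_iff₀ (by positivity)]
    calc _ ≤ S.C * S.A * log S.n * (S.n * S.n) * (S.C * (S.v * (S.n : ℝ) ^ S.A)) ^ 2 :=
          le_trans (by gcongr) (le_mul_of_one_le_right (by positivity) (one_le_pow₀ e2))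
      _ = S.C ^ 3 * S.A * log S.n * (S.n : ℝ) ^ (2 * S.A + 2) * S.v ^ 2 := by ring
      _ ≤ lam ^ 3 * lam * lam * (S.n : ℝ) ^ (2 * S.A + 2) * S.v ^ 2 := by gcongr
      _ = lam ^ 5 * (S.n : ℝ) ^ (2 * S.A + 2) * S.v ^ 2 := by ring
      _ ≤ S.n * (S.n : ℝ) ^ (2 * S.A + 2) * S.v ^ 2 := by gcongr
      _ ≤ _ := by rw [← pow_succ']; gcongr
  · have : (S.n : ℝ)⁻¹ ≤ a := by
      refine le_trans ?_ ((div_le_div_of_nonneg_right key two_pos.le).trans I.a1)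
      rw [div_div, le_div_iff₀ (by positivity)]
      field_simp
      linarith
    have := log_le_log (by positivity) this
    rw [log_inv] at this
    linarith

/-- the constants on the frame -/
theorem Dt.Ok.kc {d : Dt} (h : d.Ok) : ∃ D, Kc d.E d.b.l (3 * d.E) D d.S d.M d.m d.x := by
  have H := h.H
  have E0 := H.num_le
  have N0 := H.N0
  have n1 : 1 ≤ d.p.n := le_trans (by norm_num) H.n3
  have η1 : 10 * d.η ≤ 1 := by linarith [h.hη, h.hc, H.η_pos]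
  have F := h.loc.bk.fn
  refine kc_of' F (H.hA ▸ H.A2 : 2 ≤ d.p.A) E0 h.km.sc.C H.log_le ?_ ?_ ?_ F.n1 (by linarith)
    fun k hk => ?_
  · change 4 * (d.p.A : ℝ) + 9 ≤ _
    rw [H.hA]; linarith [H.K_le]
  · change _ ≤ (d.p.n : ℝ)
    rw [Pre29.rp_pow]
    exact (Pre29.rp_le n1 (by push_cast; linarith)).trans (rpow_one _).le
  · change _ / (d.p.n : ℝ) ≤ (d.p.n : ℝ) ^ (-(1 : ℝ) / 6)
    rw [← rpow_sub_one N0.ne']
    exact Pre29.rp_le n1 (by linarith)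
  · have z0 : 0 < max (d.M.z k) d.b.l := lt_max_of_lt_left (F.z_pos k)
    have := mom_pair (M := d.M) (m := d.m) (a := d.x) (k := k) (p := 8) (i := 2) (c := 0) (q := 0)
      (B := d.E * max (d.M.z k) d.b.l) (by positivity) (by norm_num)
      (by simpa only [sub_zero] using h.loc.bk.low k hk)
    simp only [sub_zero, sq_abs, abs_zero, add_zero] at this
    refine this.trans ?_
    rw [mul_assoc, mul_pow 3]
    gcongr
    norm_num

/-- **the block leaf** -/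
theorem bqG : BqG := by
  intro d h W
  obtain ⟨D, K⟩ := h.kc
  have H := h.H
  have F := K.fn
  have E0 := K.l0
  have C1 := F.C1
  have Cl := K.Cl
  obtain ⟨m0, m1⟩ := H.mtG_mem (Gr29.oct_mem h.cx.oct).1
  have L := h.km.kn.L1
  obtain ⟨τ, ε, T, hT⟩ := K.topK (shp_px h.km.gd (.inl h.cx.pl) (H.hA ▸ h.A4) m0 m1) h.loc.lk
    (L.1.trans L.2.1) h.km.nx.PL
  have e : d.b.Λ₀ * d.S.w3 1 = d.b.Λ₀ / (d.p.n * d.S.θ) := by
    rw [Sc.w3, h.km.sc.F, mul_one, mul_one_div]; rfl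
  have p0 : 0 ≤ d.b.Λ₀ * d.S.w3 1 := mul_nonneg (by linarith [L.1, L.2.1]) (F.w3_pos one_pos).le
  generalize hE : d.E = E at *
  have E2 : 1000 * E ≤ E ^ 2 := by nlinarith
  have E3 : 1000 * E ^ 2 ≤ E ^ 3 := by nlinarith
  have E4 : 1000 * E ^ 3 ≤ E ^ 4 := by nlinarith
  have E5 : 1000 * E ^ 4 ≤ E ^ 5 := by nlinarith
  unfold Dt.BQ Dt.T
  rw [hE, ← e]
  refine Lb21.bqS E _ _ D _ _ _ _ _ τ ε _ (2 * E ^ 3) _ _ K W.j8 T ?_ (hT.trans ?_) (by positivity)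
    (rf_q F.toCl) (by positivity) (fun k a b => ?_) ?_ ?_
  · rw [show E ^ 24 * (3 * E) ^ 2 = 9 * E ^ 26 by ring, pow_succ' E 26]
    gcongr; linarith
  · gcongr <;> [linarith; norm_num]
  · have z0 := F.z_pos k
    have a1 := W.Hp k a b
    rw [hE] at a1
    have a2 := (q_le_s F.toCl (b.le.trans (F.i3.trans F.i4.le))).trans
      (F.s_le_z (F.i1.trans a.le) b)
    have a3 : d.S.C * d.M.q k ≤ E * (2 * E * d.M.z k) :=
      (mul_le_mul_of_nonneg_left a2 F.C0.le).trans (by gcongr)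
    refine le_trans ?_ (mul_le_mul_of_nonneg_left (le_max_left _ _) (by positivity))
    nlinarith [mul_le_mul_of_nonneg_right E3 z0.le, mul_pos (show 0 < E ^ 2 by positivity) z0]
  · nlinarith [mul_le_mul_of_nonneg_right Cl (show 0 ≤ 2 * E ^ 3 + 2 by positivity)]
  · have a1 : (d.S.A : ℝ) ≤ E := by
      change (d.p.A : ℝ) ≤ E
      rw [H.hA, ← hE]; exact H.A_le
    have a2 : d.S.C * d.S.A * log d.S.n ≤ E * E * E := by
      have := log_nonneg F.n1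
      gcongr
      exact K.lgn
    nlinarith [F.HN]

end Crest.Agent.T156.Alt.E35

end
end

-- ▼ part T156/ErPwB_52
section

/-!
# Row 156, R1 (helper52): the mesh and size fields of `E35.Dt.Pw`
-/

set_option autoImplicit false
set_option linter.unusedSectionVars false

noncomputable section

namespace Crest.Agent.T156.Alt.E35.Pw52

open Real Finset
open Crest.Agent.T156.Cas Crest.Agent.T156.Cas.C40 Crest.Agent.T156.Alt.CIn12
open Crest.Agent.T156.Alt.Md67 Crest.Agent.T156.Alt.R62 Crest.Agent.T156.Alt.R77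
open Crest.Agent.T156.Alt.R82 Crest.Agent.T156.Alt.Lb24 Crest.Agent.T156.Alt.SD56
open Crest.Agent.T156.Alt.Alg77

variable (d : Dt) (h : d.Ok)
include h

theorem dz_hi {k : ℕ} (hk : d.S.Jp < k) : d.M.dz d.m d.x k = 0 := by
  rw [dz_up h.fr.fx.leg (by omega), h.fr.cl.top k hk.le, h.fr.cl.top (k - 1) (by omega), sub_self]

theorem dz : ∀ k, d.S.jl < k → k < d.M.N → d.M.dz d.m d.x k ≤ 1 / d.p.n := fun k k0 _ => by
  have H := h.H
  have cl := h.fr.cl
  have N0 := H.N0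
  have v0 := H.v0
  have A4 : (4 : ℝ) ≤ d.A := by exact_mod_cast h.A4
  have eta : d.η ≤ 1 / 200 := H.η_le.trans H.c_le
  have i1 := cl.i1
  have i2 := cl.i2
  have ej : d.S.jl = d.p.jf := rfl
  have eJ : d.S.J = d.p.J := rfl
  have eP : d.S.Jp = d.p.J + d.P.I := rfl
  rcases lt_trichotomy k d.S.Jp with a | a | a
  · rw [dz_up h.fr.fx.leg (by omega)]
    rcases lt_or_ge k d.S.J with b | b
    · have c := (cl.zs (k - 1) (by omega) (by omega)).2
      rw [Nat.sub_add_cancel (by omega)] at c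
      refine c.trans ((mul_le_mul_of_nonneg_right h.fr.sc.C cl.v0.le).trans ?_)
      have L0 := H.Λ0
      refine H.le_of_lg (x := d.E * d.p.v) (by positivity) (by positivity) ?_
      lg_norm
      rw [H.lg_n]
      linarith [H.lg_v_le]
    · have M := H.mtG_mem (Gr29.oct_mem h.cx.oct).1
      have c := Plt13.x_mesh (h.km.gd.nb.la _ M.1 M.2).1 h.cx.pl.ok (i := k - d.p.J)
        (show k - d.p.J < d.P.I by omega)
      have e1 : d.M.z k = d.P.x (k - d.p.J + 1) := by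
        rw [gst_z _ _ _ (by omega), Pm.zP, if_neg (by omega), if_pos (show k < d.p.Jp d.P from a)]
        congr 1
        omega
      have e2 : d.M.z (k - 1) = d.P.x (k - d.p.J) := by
        rw [gst_z _ _ _ (by omega), Pm.zP]
        split_ifs with u u'
        · rw [show k - d.p.J = 0 by omega, show k - 1 = d.p.J - 1 by omega]
          exact h.cx.pl.ok.x0.symm
        · congr 1
          omega
        · exact absurd (show k - 1 < d.S.Jp by omega) u'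
      rw [e1, e2]
      refine le_trans c (H.le_of_lg (by positivity) (by positivity) ?_)
      lg_norm
      linarith [H.lg_v_le, H.lg_n, (H.lg_num (x := 624) (by norm_num) (by norm_num)).2]
  · rw [dz_up h.fr.fx.leg (by omega), cl.top k a.ge, a]
    refine cl.last.trans ?_
    rw [one_div, ← rpow_neg_one]
    exact rpow_le_rpow_of_exponent_le H.N1.le (by norm_num)
  · rw [dz_hi d h a]
    positivity

theorem r_le : d.p.r ≤ d.b.l := h.fr.nr.r0.trans h.fr.nr.l0l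

theorem n_r : 1 / (d.p.n : ℝ) ≤ d.p.r ^ 6 := by
  have H := h.H
  have N0 := H.N0
  have r0 := H.r0
  refine H.le_of_lg (by positivity) (by positivity) ?_
  lg_norm
  linarith [H.lg_r, H.lg_n, H.lg_s.1, H.c_pos]

theorem gq : ∀ k, d.S.jl < k → k < d.M.N → d.M.dz d.m d.x k ≠ 0 →
    (D0 d.p d.P d.t d.m d.x).gq (k + 1) ≤ |d.M.G k| + 2 * d.E ^ 2 * d.b.l ^ 2 := fun k k0 _ e => by
  have k1 : k ≤ d.S.Jp := not_lt.1 fun u => e (dz_hi d h u)
  have r0 := h.H.r0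
  have E1 := h.fr.E1'
  have a := (h.co _ _ _ _ _ _ _ _ h.cx d.x h.hx k k0 k1).2
  have b : d.M.s k ≤ d.E := (h.fr.cl.s_le_C k1).trans h.fr.sc.C
  have c : d.p.r ^ 2 ≤ d.b.l ^ 2 := pow_le_pow_left₀ r0.le (r_le d h) 2
  have f : 1 / (d.p.n : ℝ) ≤ d.E * d.b.l ^ 2 := ((n_r d h).trans ((pow_le_pow_of_le_one r0.le
    (h.fr.ry.trans h.fr.y1) (by norm_num)).trans c)).trans (le_mul_of_one_le_left (sq_nonneg _) E1)
  have g := mul_le_mul b c (sq_nonneg _) (by linarith)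
  have := mul_le_mul_of_nonneg_left (add_le_add g f) (show 0 ≤ d.E by linarith)
  exact a.trans (by linarith)

theorem J8 : 8 * d.p.ye ≤ ((d.S.J - 1 : ℕ) : ℝ) * d.p.v := by
  have H := h.H
  have cl := h.fr.cl
  have L0 := H.Λ0
  have y0 := H.ye0
  have v0 := H.v0
  have i2 := cl.i2
  have a := h.fr.T0_ge
  have b := (cl.s_bds le_rfl).2
  have c : (d.S.J : ℝ) ≤ 2 * ((d.S.J - 1 : ℕ) : ℝ) := by exact_mod_cast (by omega)
  have e : d.M.s d.S.J ≤ 2 * ((d.S.J - 1 : ℕ) : ℝ) * (d.E * d.p.v) :=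
    b.trans (mul_le_mul c (mul_le_mul_of_nonneg_right h.fr.sc.C v0.le)
      (mul_nonneg cl.C0.le cl.v0.le) (by positivity))
  have f : 48 * d.E ^ 5 * d.p.ye ≤ 1 := H.le_of_lg (by positivity) one_pos (by
    lg_norm
    linarith [H.lg_ye, show logb d.p.n d.E = d.η from H.lg_rp _, h.hη, H.η_pos,
      (H.lg_num (x := 48) (by norm_num) (by norm_num)).2])
  have g := mul_le_mul_of_nonneg_left e (show 0 ≤ 3 * d.E ^ 4 by positivity)
  rw [T0] at a
  exact le_of_mul_le_mul_left (a := 6 * d.E ^ 5) (by linarith) (by positivity)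

theorem j8 : 8 * d.S.jl < d.S.J := by
  have a : (8 * d.p.jf : ℝ) * d.p.v ≤ ((d.S.J - 1 : ℕ) : ℝ) * d.p.v := by
    linarith [J8 d h, h.fr.fx.jr, h.fr.ry]
  have b : 8 * d.p.jf ≤ d.S.J - 1 := by exact_mod_cast le_of_mul_le_mul_right a h.H.v0
  have := h.fr.cl.i2
  have ej : d.S.jl = d.p.jf := rfl
  omega

theorem jv : d.S.jl * d.S.v ≤ d.E * d.b.l :=
  (h.fr.fx.jr.trans (r_le d h)).trans (le_mul_of_one_le_left h.fr.l0'.le h.fr.E1')

theorem card : (d.M.N : ℝ) ≤ (d.p.n : ℝ) ^ (d.A + 1) := h.H.hA ▸ h.fr.cl.card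

theorem tl : √(tlD d.S 3) ≤ d.b.Φ ∧ tlD d.S 3 ≤ 1 ∧ ((d.M.N : ℝ) + 2) ^ 2 * tlD d.S 3 ≤ d.δ := by
  have H := h.H
  have N0 := H.N0
  have N1 := H.N1.le
  have r0 := H.r0
  have l0 := h.fr.l0'
  have L0 := H.Λ0
  have s0 := H.s0
  have A4 : (4 : ℝ) ≤ d.A := by exact_mod_cast h.A4
  have e : tlD d.S 3 = (((d.p.n : ℝ) ^ (d.A + 1)) ^ 3)⁻¹ := by
    rw [tlD, ← pow_mul', ← H.hA]; rfl
  have W1 : (1 : ℝ) ≤ (d.p.n : ℝ) ^ (d.A + 1) := one_le_pow₀ N1
  have a : tlD d.S 3 ≤ 1 / d.p.n := by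
    rw [e, one_div]
    exact inv_anti₀ N0 ((le_self_pow₀ N1 (by omega)).trans (le_self_pow₀ W1 (by norm_num)))
  refine ⟨?_, a.trans ((div_le_one N0).2 N1), ?_⟩
  · rw [← h.fr.nr.l3]
    refine sqrt_le_iff.2 ⟨by positivity, (a.trans (n_r d h)).trans ?_⟩
    rw [← pow_mul]
    exact pow_le_pow_left₀ r0.le (r_le d h) _
  · have b : ((d.M.N : ℝ) + 2) ^ 2 ≤ (3 * (d.p.n : ℝ) ^ (d.A + 1)) ^ 2 :=
      pow_le_pow_left₀ (by positivity) (by linarith [card d h]) 2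
    refine (mul_le_mul_of_nonneg_right b (tlD_nn _ _)).trans ?_
    rw [e, show (3 * (d.p.n : ℝ) ^ (d.A + 1)) ^ 2 * (((d.p.n : ℝ) ^ (d.A + 1)) ^ 3)⁻¹ =
      9 / (d.p.n : ℝ) ^ (d.A + 1) by field_simp; norm_num, Dt.δ, n5]
    refine H.le_of_lg (by positivity) (by positivity) ?_
    lg_norm
    rw [H.lg_n]
    push_cast
    linarith [H.lg_s.1, h.hη, h.hc, H.η_pos, (H.lg_num (x := 9) (by norm_num) (by norm_num)).2]

theorem lg : log ((d.M.N : ℝ) + 3) ≤ d.E ^ 2 := by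
  have H := h.H
  have N0 := H.N0
  have W1 : (1 : ℝ) ≤ (d.p.n : ℝ) ^ (d.A + 1) := one_le_pow₀ H.N1.le
  have a : (d.M.N : ℝ) + 3 ≤ (d.p.n : ℝ) ^ (d.A + 3) := by
    have := mul_le_mul_of_nonneg_left (show (4 : ℝ) ≤ (d.p.n : ℝ) ^ 2 by nlinarith [H.N3])
      (zero_le_one.trans W1)
    rw [← pow_add] at this
    linarith [card d h]
  refine (log_le_log (by positivity) a).trans ?_
  rw [log_pow, sq]
  refine mul_le_mul ?_ H.log_le (by linarith [H.log1]) H.Λ0.le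
  have := H.K_le
  have : (0 : ℝ) ≤ d.A := Nat.cast_nonneg _
  push_cast
  linarith

end Crest.Agent.T156.Alt.E35.Pw52

end
end

-- ▼ part T156/ErPw_21
section

/-!
# Row 156, R1: pointwise facts of the error table (helper21)
-/

set_option autoImplicit false

noncomputable section

namespace Crest.Agent.T156.Alt.E35.Pw21

open Real Finset

variable {d : Dt} (h : d.Ok)
include h

theorem zj : d.M.z d.S.jl ≤ d.E ^ 2 * d.b.l := by
  have F := h.loc.bk.fn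
  have C0 := F.C0
  have C1 := F.C1
  have jl := F.toCl.jl_lt
  have a1 := F.z_le_s F.i1 jl
  have a2 := (F.s_mem jl.le).1
  have a3 : d.S.v ≤ d.S.jl * d.S.v :=
    le_mul_of_one_le_left F.v0.le (by exact_mod_cast F.i0.trans F.i1)
  have a4 := h.fr.nr.jl.trans h.fr.nr.l0l
  have s0 := F.s_nonneg d.S.jl
  have a5 : d.S.C ^ 2 ≤ d.E ^ 2 := pow_le_pow_left₀ C0.le h.fr.sc.C 2
  have a6 := mul_le_mul_of_nonneg_right a5 h.fr.l0'.le
  have a7 := mul_le_mul_of_nonneg_left a4 (sq_nonneg d.S.C)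
  have a8 : d.M.s d.S.jl + 2 * d.S.v ≤ 3 * (d.S.C * d.M.s d.S.jl) := by
    linarith [le_mul_of_one_le_left s0 C1]
  have a9 := mul_le_mul_of_nonneg_left a8 C0.le
  nlinarith [mul_nonneg (sq_nonneg d.S.C) s0]

theorem HJ : d.M.H d.S.jl ≤ d.b.l ^ 3 := by
  have e : d.M.H d.S.jl = 0 := by simp [Dt.M, Dt.S, Pm.gst, Pm.famO, Pm.HO, Pm.scG, Pm.scl]
  rw [e]
  exact (pow_pos h.fr.l0' 3).le

theorem Hp : ∀ k, d.S.jl < k → k < d.S.J → d.M.H k ≤ d.E ^ 3 * d.M.z k := by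
  intro k k0 k1
  have F := h.loc.bk.fn
  have c := h.fr.sc.cei
  have C0 := F.C0
  have C1 := F.C1
  have v0 := F.v0
  have i1 := F.i1
  have i3 := F.i3
  have K1 := h.km.K1
  have l8 : 8 ≤ log (d.S.n : ℝ) := by
    have := h.km.gd.nb.lg
    rw [h.fr.sc.n]
    linarith [one_le_pow₀ (n := 3) K1]
  have θ8 : ∀ t, d.S.ms t ≤ 1 / 8 := fun t => by
    nlinarith [F.msθ, F.ms1 t, mul_le_mul_of_nonneg_left l8 F.toCl.θ0.le]
  have eF : d.S.F = 1 := h.fr.sc.F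
  have a1 := tel_le (f := d.M.H) (c := d.S.C * (1 / 8) * d.S.v) (show d.S.jl + 1 ≤ k from k0)
    fun i a b => (c.up i a (by omega)).trans (by rw [eF, mul_one]; gcongr; exact θ8 _)
  have a2 := c.bot
  rw [eF, mul_one] at a2
  have s0 := F.s_nonneg d.S.jl
  have z0 := (F.z_pos k).le
  have a3 := (F.sm k0.le).trans (F.s_le_z (by omega) k1)
  have a4 := F.z_lo (k := k) (by omega) k1
  have a5 : d.S.C * d.S.ms (d.M.s d.S.jl) * d.M.s d.S.jl ≤ d.S.C * (1 / 8) * (2 * d.S.C * d.M.z k) := by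
    gcongr; exact θ8 _
  have a6 : ((k : ℝ) - (d.S.jl + 1 : ℕ)) * (d.S.C * (1 / 8) * d.S.v) ≤
      d.S.C * (1 / 8) * (2 * d.S.C ^ 2 * d.M.z k) := by
    have : ((k : ℝ) - (d.S.jl + 1 : ℕ)) * d.S.v ≤ k * d.S.v :=
      mul_le_mul_of_nonneg_right (sub_le_self _ (Nat.cast_nonneg _)) v0.le
    have := mul_le_mul_of_nonneg_left (this.trans a4) (show 0 ≤ d.S.C * (1 / 8) by positivity)
    linarith
  have a7 : d.S.C ^ 3 * d.M.z k ≤ d.E ^ 3 * d.M.z k :=
    mul_le_mul_of_nonneg_right (pow_le_pow_left₀ C0.le h.fr.sc.C 3) z0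
  have a8 : d.S.C ^ 2 * d.M.z k ≤ d.S.C ^ 3 * d.M.z k :=
    mul_le_mul_of_nonneg_right (pow_le_pow_right₀ C1 (by norm_num)) z0
  have a9 : 0 ≤ d.S.C ^ 3 * d.M.z k := by positivity
  linarith

theorem tau : d.M.b ≤ d.p.β ^ 2 := by
  have e : d.M.b = d.p.bG d.t := by simp [Md.b, Dt.M, Pm.gst, Pm.famO]
  rw [e]
  exact h.fr.fx.b1

end Crest.Agent.T156.Alt.E35.Pw21

namespace Crest.Agent.T156.Alt.E35

/-- **the pointwise leaf** -/
theorem pwG : PwG := fun d h => ⟨Pw21.zj h, Pw21.HJ h, Pw21.Hp h, Pw21.tau h, Pw52.dz d h,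
  Pw52.gq d h, Pw52.J8 d h, Pw52.j8 d h, Pw52.jv d h, Pw52.tl d h, Pw52.lg d h⟩

end Crest.Agent.T156.Alt.E35

end
end

-- ▼ part T156/ErrR_35
section

/-!
# Row 156, R1: the error table at one root tilt from its four leaves (helper35)
-/

set_option autoImplicit false

noncomputable section

namespace Crest.Agent.T156.Alt.E35

open Real Finset
open Crest.Agent.T156.Cas Crest.Agent.T156.Cas.C40 Crest.Agent.T156.Alt.CIn12
open Crest.Agent.T156.Alt.Md67 Crest.Agent.T156.Alt.R62 Crest.Agent.T156.Alt.R77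
open Crest.Agent.T156.Alt.R82 Crest.Agent.T156.Alt.Lb24 Crest.Agent.T156.Alt.SD56
open Crest.Agent.T156.Alt.Alg77 Crest.Agent.T156.Cas.C40.ErrL

namespace Dt.Ok

variable {d : Dt} (h : d.Ok)
include h

theorem l1 : d.E ^ 200 * d.b.l ≤ 1 := h.km.kn.l1

theorem l_le : d.b.l ≤ 1 :=
  (le_mul_of_one_le_left h.fr.l0'.le (one_le_pow₀ h.fr.E1')).trans h.l1

theorem X_le (W : d.Pw) : d.E ^ 4 * max (d.M.z d.S.jl) d.b.l ≤ d.E ^ 6 * d.b.l := by
  have E0 := h.fr.E0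
  rw [show d.E ^ 6 * d.b.l = d.E ^ 4 * (d.E ^ 2 * d.b.l) by ring]
  exact mul_le_mul_of_nonneg_left (max_le W.zj
    (le_mul_of_one_le_left h.fr.l0'.le (one_le_pow₀ h.fr.E1'))) (by positivity)

theorem kd (W : d.Pw) : KD' d.S d.M d.m d.x (d.S.jl + 1) d.E (d.E ^ 4) d.b.l (d.p.β ^ 2) (d.E ^ 3) := by
  have F := h.loc.bk.fn
  have E1 := h.fr.E1
  have E0 := h.fr.E0
  have l0 := h.fr.l0'
  have i2 := F.i2
  have i3 := F.i3
  have i4 := F.i4
  have c3 : d.S.C ^ 3 ≤ d.E ^ 3 := pow_le_pow_left₀ (zero_le_one.trans F.C1) h.fr.sc.C 3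
  have e1 : d.E ≤ d.E ^ 3 := le_self_pow₀ h.fr.E1' (by norm_num)
  have e2 : 1000 * d.E ^ 3 ≤ d.E ^ 4 :=
    (mul_le_mul_of_nonneg_right E1 (by positivity)).trans_eq (by ring)
  refine ⟨F, F.i1.trans (Nat.le_succ _), by omega, l0, h.loc.lowE, E0.le, by positivity,
    by linarith, W.tau, (h.X_le W).trans (le_trans ?_ h.l1), W.HJ.trans ?_, fun k k1 k2 =>
      (W.Hp k k1 k2).trans (mul_le_mul_of_nonneg_left (le_max_left _ _) (by positivity))⟩
  · exact mul_le_mul_of_nonneg_right (pow_le_pow_right₀ h.fr.E1' (by norm_num)) l0.le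
  · exact pow_le_pow_left₀ l0.le ((le_max_right _ _).trans (le_mul_of_one_le_left
      (l0.le.trans (le_max_right _ _)) (one_le_pow₀ h.fr.E1'))) 3

theorem den (W : d.Pw) {T : ℝ} {B : ℕ} {lev : ℕ → ℕ} {tt al A : ℕ → ℝ} (Q : d.BQ T B lev tt al A)
    {w : ℝ} {f : ℕ → ℝ} (w0 : 0 < w) (hf : P60.Den d.p d.t w f) (k : ℕ) (k1 : d.S.jl < k) :
    |f k| ≤ w⁻¹ * (d.E ^ 40 * d.p.lamG d.t (tt (lev k))) := by
  have H := h.H
  have E0 := h.fr.E0
  have p0 := H.lamG_pos h.fr.fx.mem (Q.bp.t0 (lev k))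
  rcases lt_or_ge k (d.S.J - 1) with e | e
  · rw [← div_eq_inv_mul, le_div_iff₀' w0]
    have a1 := P60.lamG_mul H.κ0.le H.ye0.le h.fr.fx.t0.le (Q.bp.t0 (lev k)).le one_le_two
      (h.fr.sc.v ▸ Q.kv k k1 e)
    have a2 : 16 ≤ d.E ^ 40 :=
      le_trans (by linarith [h.fr.E1]) (le_self_pow₀ h.fr.E1' (by norm_num))
    linarith [hf.1 k, mul_le_mul_of_nonneg_right a2 p0.le]
  · rw [hf.2 k (W.J8.trans (mul_le_mul_of_nonneg_right (Nat.cast_le.2 e) H.v0.le)), abs_zero]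
    positivity

theorem gam (W : d.Pw) (k : ℕ) (k1 : d.S.jl < k) (k2 : k < d.M.N) (e : d.M.dz d.m d.x k ≠ 0) :
    |GamC d.M d.m d.x d.M.q (d.S.jl + 1) k - d.M.q k| ≤ |d.M.G k| + 2 * d.E ^ 2 * d.b.l ^ 2 := by
  have a := W.gq k k1 k2 e
  rw [h.fr.sc.jl] at k1 ⊢
  rwa [CD.gq, cd_Gam d.m _ _ h.loc.bk.fn.lg.toLeg (rf_q h.fr.cl) k1 k2, cd_q d.m d.x _ _ _ k1 k2] at a

end Dt.Ok

/-- **the table at one root tilt** -/
theorem tbG (h1 : PwG) (h2 : BqG) (h3 : SuG) (h4 : NuG) : TbG := by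
  intro d h w f w0 w2 hf
  have W := h1 d h
  obtain ⟨B, lev, tt, al, A, Q⟩ := h2 d h W
  obtain ⟨N, U⟩ := h3 d h w f w0 hf
  have V := h4 d h W B lev tt al A Q
  have F := h.fr
  have K := h.loc.bk
  have L := K.fn.lg
  have H := h.H
  have E1 := F.E1
  have E1' := F.E1'
  have E0 := F.E0
  have l0 := F.l0'
  have l1 := h.l_le
  have l3 := F.nr.l3
  have δ0 : 0 ≤ d.δ := by have := F.n50; positivity
  have N0 : 0 ≤ N := (sq_nonneg _).trans U.N1
  have mx : ∀ i, 0 < max (tt i) d.b.l := fun i => l0.trans_le (le_max_right _ _)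
  have sc : ∀ g : ℕ → ℝ, w * ∑ k ∈ Ioo d.S.jl d.M.N, d.M.dz d.m d.x k * (|f k| * g k) =
      ∑ k ∈ Ioo d.S.jl d.M.N, d.M.dz d.m d.x k * (w * |f k| * g k) := fun g => by
    rw [mul_sum]; exact sum_congr rfl fun _ _ => by ring
  have sc0 : w * ∑ k ∈ Ioo d.S.jl d.M.N, d.M.dz d.m d.x k * |f k| =
      ∑ k ∈ Ioo d.S.jl d.M.N, d.M.dz d.m d.x k * (w * |f k|) := by
    rw [mul_sum]; exact sum_congr rfl fun _ _ => by ring
  have G0 := K.mk'.pos
  have z0 := L.dz_nonneg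
  have nm := nm_of (T := Ioo d.S.jl d.M.N) (f := f) (g := d.M.G) (γ := 2 * d.E ^ 2 * d.b.l ^ 2)
    (y := d.E * d.b.l) z0 G0 (by positivity)
    (fun k hk e => U.g0 k (mem_Ioo.1 hk).1 (mem_Ioo.1 hk).2
      (mul_ne_zero w0.ne' (abs_ne_zero.2 e))) U.sums.s1 K.mk'.tot K.mk'.qua le_rfl le_rfl le_rfl
    U.sums.s6 le_rfl fun k hk => W.dz k (mem_Ioo.1 hk).1 (mem_Ioo.1 hk).2
  have e56 : d.E ^ 5 ≤ d.E ^ 6 := pow_le_pow_right₀ E1' (by norm_num)
  have e7 : ∀ i : ℕ, 7 ≤ i → 2 * d.E ^ 4 * d.E ^ 2 + d.E ^ 5 ≤ d.E ^ i := fun i hi =>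
    le_trans (by linarith [mul_le_mul_of_nonneg_right E1 (pow_pos E0 6).le, pow_pos E0 6])
      (pow_le_pow_right₀ E1' hi)
  have e5 : 0 ≤ d.E ^ 5 := by positivity
  have hV : Sg B (fun i => (2 * d.E ^ 4 * d.E ^ 2 + d.E ^ 5) * max (tt i) d.b.l) ≤ d.E ^ 30 :=
    (Sg_le' Q.BL (x := d.E ^ 24 * d.E ^ 3) (by positivity) fun i _ => mul_le_mul (e7 24 (by norm_num))
      (max_le (Q.tL i) (l1.trans (one_le_pow₀ E1'))) (mx i).le (by positivity)).trans_eq (by ring)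
  have ab0 : ∀ i, 0 ≤ d.E ^ 40 * d.p.lamG d.t (tt i) := fun i =>
    mul_nonneg (by positivity) (H.lamG_pos F.fx.mem (Q.bp.t0 i)).le
  obtain ⟨ok0, bd, den, tc, nz⟩ := lv2b (ab := fun i => w⁻¹ * (d.E ^ 40 * d.p.lamG d.t (tt i)))
    (h.kd W) (ge_mk K.mk' h.loc.env (Nat.le_succ _)) (by norm_num) Q E1' e5
    (fun k k1 _ => h.den W Q w0 hf k k1) (fun i => mul_nonneg (inv_pos.2 w0).le (ab0 i)) K.mk'.le2
    (h.gam W) nm hV
  have nb := V.nb (fun i => (2 * d.E ^ 4 * d.E ^ 2 + d.E ^ 5) * max (tt i) d.b.l)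
    (fun i => d.E ^ 4 * d.E ^ 2 * max (tt i) d.b.l)
    (fun i => mul_le_mul_of_nonneg_right (e7 40 (by norm_num)) (mx i).le)
    fun i => mul_le_mul_of_nonneg_right (le_trans (by linarith [pow_pos E0 6])
      (e7 40 (by norm_num))) (mx i).le
  obtain ⟨z, okz, er⟩ := err_Z ok0 tc nz bd (nb.smul (inv_pos.2 w0)) den (by
    rw [cd_K]; push_cast
    exact ((congrArg log (by ring)).trans_le W.lg).trans
      (pow_le_pow_left₀ E0.le (le_self_pow₀ E1' (by norm_num)) 2))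
  have SW : w * Sg B (fun i => w⁻¹ * (d.E ^ 40 * d.p.lamG d.t (tt i)) * al i) ≤
      d.E ^ 3 * (√(d.E ^ 40 * d.p.lamG d.t d.p.ye) * √d.p.dlG) := by
    rw [mul_Sg]
    refine Sg_le' Q.BL (by positivity) fun i hi => le_trans (le_of_eq ?_) (bd.r_le nb le_rfl hi)
    rw [mul_assoc w⁻¹, mul_inv_cancel_left₀ w0.ne']
  have Φ0 : 0 ≤ d.b.Φ := l3 ▸ pow_nonneg l0.le 3
  have p0 : ∀ {g : ℕ → ℝ}, (∀ k, 0 ≤ g k) → 0 ≤ ∑ k ∈ Ioo d.S.jl d.M.N, d.M.dz d.m d.x k * g k :=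
    fun hg => sum_nonneg fun k _ => mul_nonneg (z0 k) (hg k)
  have n1 : (1 : ℝ) / d.p.n ≤ d.δ := by
    have a1 := F.nr.e
    have a2 : 0 ≤ d.b.l ^ 2 / (d.p.n * d.b.l0 ^ 3) := by have := F.l00; positivity
    have a3 : (1 : ℝ) / d.p.n ≤ d.Λ' / d.p.n := div_le_div_of_nonneg_right F.nr.L1 F.n0.le
    linarith
  have pe := Hn.pe (E := d.E) (δ := d.δ) (θ := d.S.θ) (l := d.b.l) (N := N) (V4 := d.b.V4) (w := w)
    (τ := d.p.β ^ 2) (X := d.E ^ 4 * max (d.M.z d.S.jl) d.b.l) (tl := tlD d.S 3) (n := d.p.n)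
    (m := d.m) (SA := Sg B al)
    ⟨E1, F.θ0.le, l0, l1, F.nr.Pt0.1.trans F.nr.Pt0.2.2.2, w0, F.n0, Nat.cast_le.2 h.cx.m1, F.m2,
      U.N1, U.N2, ⟨sq_nonneg _, H.hβ ▸ H.β_le⟩,
      ⟨mul_nonneg (by positivity) (l0.le.trans (le_max_right _ _)), h.X_le W⟩,
      ⟨tlD_nn _ _, l3 ▸ W.tl.1, W.tl.2.1⟩,
      ⟨p0 fun k => mul_nonneg (abs_nonneg _) (sq_nonneg _), p0 fun k => abs_nonneg _,
        p0 fun k => mul_nonneg (abs_nonneg _) (G0 k).le,
        p0 fun k => mul_nonneg (abs_nonneg _) (sq_nonneg _), Sg0 fun i _ => Q.bp.al0 i,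
        Sg0 fun i _ => mul_nonneg (mul_nonneg (inv_pos.2 w0).le (ab0 i)) (Q.bp.al0 i)⟩,
      U.sums.s5, sc0.trans_le U.sums.s2, by rw [sc, l3]; exact U.sums.s3,
      by rw [sc]; exact U.sums.s4,
      (Sg_le' Q.BL (by positivity) (V.al N U.N1 U.N3)).trans_eq (by ring),
      by
        rw [l3]
        linarith [mul_le_mul_of_nonneg_left SW Φ0,
          mul_le_mul_of_nonneg_left V.w (pow_pos E0 3).le],
      F.nr.l5, (mul_le_of_le_one_left (by have := F.n0; positivity) F.θ1).trans n1, F.nr.d,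
      l3 ▸ U.a3⟩
  rw [l3] at pe
  refine ⟨{ evK d.S d.M d.m d.x (d.S.jl + 1) (some fun k => d.M.dz d.m 0 k * f k) (d.E ^ 4) d.b.l
    d.G (fun k => ph B al (lev k)) (fun k => ph B (fun i =>
      w⁻¹ * (d.E ^ 40 * d.p.lamG d.t (tt i)) * al i) (lev k)) with Z := z }, okz, ?_⟩
  have er' := mul_le_mul_of_nonneg_left er w0.le
  rw [mul_add, mul_add, cd_K] at er'
  refine er'.trans ?_
  have t1 : (((d.M.N + 1 : ℕ) : ℝ) + 1) ^ 2 * tlD d.S 3 ≤ d.δ := by
    push_cast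
    exact (congrArg (fun y => y ^ 2 * tlD d.S 3) (by ring)).trans_le W.tl.2.2
  have t2 : w * (1 + ∑ k ∈ Ioo d.S.jl d.M.N, d.M.dz d.m d.x k * |f k|) ≤ 2 + d.E ^ 12 := by
    rw [mul_add, mul_one, sc0]
    exact add_le_add w2 (U.sums.s2.trans (mul_le_of_le_one_right (by positivity) F.θ1))
  have t3 := mul_le_mul t2 t1 (mul_nonneg (sq_nonneg _) (tlD_nn _ _)) (by positivity)
  have t4 : w * (28 * (((d.E ^ 40) ^ 2) ^ 9 * (w⁻¹ * d.p.dlG))) ≤ 28 * d.δ := by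
    rw [show w * (28 * (((d.E ^ 40) ^ 2) ^ 9 * (w⁻¹ * d.p.dlG))) =
      28 * (((d.E ^ 40) ^ 2) ^ 9 * d.p.dlG) by field_simp]
    linarith [V.dl]
  have q : ∀ i : ℕ, i ≤ 189 → 1000 * (d.E ^ i * d.δ) ≤ d.E ^ 190 * d.δ := fun i hi => by
    rw [← mul_assoc, pow_succ' d.E 189]
    exact mul_le_mul_of_nonneg_right (mul_le_mul E1 (pow_le_pow_right₀ E1' hi) (by positivity)
      E0.le) δ0
  have q0 := q 0 (by norm_num)
  have q1 := q 12 (by norm_num)
  have q2 := q 150 (by norm_num)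
  rw [pow_zero, one_mul] at q0
  rw [← pow_mul] at pe
  rw [mul_assoc] at t3
  refine (add_le_add (add_le_add pe t3) t4).trans ?_
  rw [add_mul]
  exact (fun (x y u v : ℝ) (a : 1000 * x ≤ v) (b : 1000 * y ≤ v) (c : 1000 * u ≤ v) (e : 0 ≤ x) =>
    show 200 * u + (2 * x + y) + 28 * x ≤ v by linarith) _ _ _ _ q0 q1 q2 δ0

/-- **the error table for any density** -/
theorem errG {β : ℝ} (hβ : 1 < β) (hC : Sml β Co) (hK : Sml β Kit') : Gain β P60.ErrG :=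
  frameG (tbG pwG bqG suG nuG) β hβ hC hK


end Crest.Agent.T156.Alt.E35

end
end

-- ▼ part T156/SwGF_2
section

/-!
# Row 156: the switch on the graded path from its location input (helper2)
-/

set_option autoImplicit false

namespace Crest.Agent.T156.Alt

open Real Set Filter

theorem memSw {β : ℝ} (hβ : 1 < β) : Cst β MemSw :=
  (grM hβ).mono fun _ _ _ ⟨_, _, _, H⟩ σ σ' P P' t o hP hP' ht =>
    ⟨_, _, _, _, _, _, _, _, ((H σ σ' o P hP).2 P' hP' t ht).memD⟩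


theorem swG_of_lo {β : ℝ} (hβ : 1 < β) (hL : Loss β SwLo) : Gain β SwG :=
  swG_lo hβ (MemSw.loss (memSw hβ)) hL

/-- the location input with the class constant exposed -/
def SwT (K : ℝ) (p : Pm) : Prop := ∀ c0 C0 η σ σ' P P' t, p.OctR σ σ' → p.PlG (p.muG σ) P →
  p.PlG (p.muG σ') P' → t ∈ Icc (0 : ℝ) 1 → GrD K c0 C0 η p σ σ' (P.mix P' t) →
    ∀ m a, p.InW m a → p.tw2 P (p.gst (P.mix P' t) σ') m a ≤
      p.s ^ 8 * (p.n : ℝ) ^ (-(2 : ℝ) / 3) / p.muG σ'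

theorem swG_of_K {β : ℝ} (hβ : 1 < β) (hL : ∀ K, 1 ≤ K → Ev β (SwT K)) : Gain β SwG := by
  refine swG_of_lo hβ fun c0 C0 h0 h1 => ?_
  obtain ⟨K, hK, h⟩ := (grM hβ).par c0 C0 h0 h1
  filter_upwards [h, hL K hK c0 C0 h0 h1] with A h hL
  filter_upwards [h, hL] with c h hL η hη
  filter_upwards [h, hL, ev_one_le] with n g a n1 p e1 e2 e3 e4 ok σ σ' P P' t o hP hP' ht m x w
  obtain ⟨_, _, _, H⟩ := g p e1 e2 e3 e4 ok
  have D := (H σ σ' o P hP).2 P' hP' t ht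
  refine (a p e1 e2 e3 e4 ok _ _ _ σ σ' P P' t o hP hP' ht D m x w).trans ?_
  have m0 : 0 < p.muG σ' := D.top ▸ D.memD.msp zero_le_one
  rw [mul_assoc]
  exact div_le_div_of_nonneg_right (le_mul_of_one_le_left (by positivity)
    (one_le_rpow n1 hη.le)) m0.le

end Crest.Agent.T156.Alt
end

-- ▼ part T156/SwGL_2

/-!
# Row 156: the switch on the graded path from `LocG` (helper2)
-/

set_option autoImplicit false

namespace Crest.Agent.T156.Alt

open Real Set Filter R62 R77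

theorem tw2_le_top {K c0 C0 η σ σ' : ℝ} {p : Pm} {Q : Pl} (D : GrD K c0 C0 η p σ σ' Q) (m : ℕ)
    (a : ℝ) : p.tw2 Q (p.gst Q σ') m a ≤
      ∑ k ∈ sb (p.scG K σ σ' Q) (p.gst Q σ') (T0 (p.scG K σ σ' Q) (p.gst Q σ') / 4)
        (p.scG K σ σ' Q).C ∪ Finset.Icc (p.scG K σ σ' Q).J (p.scG K σ σ' Q).Jp,
        lw (p.gst Q σ') k * (p.gst Q σ').del m a k ^ 2 := by
  have c := D.cl.1
  refine Finset.sum_le_sum_of_subset_of_nonneg (fun k hk => ?_) fun k _ _ =>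
    mul_nonneg (sub_nonneg.2 (c.leg.zm (Nat.sub_le k 1))) (sq_nonneg _)
  obtain ⟨h1, -, h2⟩ := Finset.mem_filter.1 hk
  obtain ⟨h3, h4⟩ := Finset.mem_Ioc.1 h1
  rcases lt_or_ge k p.J with e | e
  · refine Finset.mem_union_left _ (Finset.mem_filter.2 ⟨Finset.mem_Ioo.2 ⟨h3, e⟩, ?_,
      (c.sm h4).trans c.sT⟩)
    have : (p.gst Q σ').s (p.scG K σ σ' Q).J = p.J * p.v := D.memD.geo.sP_J
    unfold T0
    linarith
  · exact Finset.mem_union_right _ (Finset.mem_Icc.2 ⟨e, h4⟩)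

theorem nr_top {E δ l Φ l0 Λ Pt u1 V4 : ℝ} {P : ℝ → ℝ} {p : Pm} {S : Sc} {M : Md}
    (r : R82.NR E δ p S M l Φ P l0 Λ Pt u1 V4) (h : 0 ≤ S.θ) : S.θ * Pt ≤ δ ^ 2 * R82.n4 p := by
  obtain ⟨u0, u1, -, u2⟩ := r.Pt0
  have a : 0 ≤ p.r ^ 4 := by positivity
  have e : S.θ * 1 * Pt ≤ S.θ * Λ * (Pt + V4 + p.r ^ 4) :=
    mul_le_mul (mul_le_mul_of_nonneg_left r.L1 h) (by linarith) (u0.trans u1)
      (mul_nonneg h (by linarith [r.L1]))
  linarith [r.c]

/-- **`SwG` from the producer statement of the tested path** -/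
theorem swG_of_locG {β : ℝ} (hβ : 1 < β) (hL : LocG β) : Gain β SwG := by
  refine swG_of_K hβ fun K hK => ((hL K hK).monoC (Q := fun _ => SwT K) ?_).ev fun _ _ H => H
  intro c1 C1 c' p x H c0 C0 η σ σ' P P' t o hP hP' ht D m a w
  obtain ⟨b, -, ⟨_, -, -, r⟩, -, L⟩ := H c0 C0 η σ σ' _ o D (Or.inr ⟨P, P', t, ht, hP, hP', rfl⟩)
  refine ((tw2_le_top D m a).trans (L m a ⟨w.m1, w.m2, w.a1, w.a2⟩).top).trans ?_
  have m0 : 0 < p.muG σ' := D.top ▸ D.memD.msp zero_le_one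
  have c : p.msG σ' 1 * b.Pt ≤ _ := nr_top r (D.memD.msp zero_le_one).le
  rw [D.top] at c
  have d : ((p.n : ℝ) ^ (-c')) ^ 2 ≤ 1 := pow_le_one₀ (by positivity)
    (rpow_le_one_of_one_le_of_nonpos x.one_le_n (by linarith [x.η_pos]))
  have s0 := x.s_pos
  have e1 : ((p.n : ℝ) ^ (-c')) ^ 2 * R82.n4 p ≤ p.s ^ 8 * (p.n : ℝ) ^ (-(2 : ℝ) / 3) := by
    unfold R82.n4
    rw [mul_comm (p.s ^ 8)]
    exact (mul_le_of_le_one_left (by positivity) d).trans (mul_le_mul_of_nonneg_left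
      (pow_le_pow_right₀ x.ok.s1 (by norm_num)) (by positivity))
  rw [le_div_iff₀' m0]
  linarith

end Crest.Agent.T156.Alt
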