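import Crest.Agent.T156.R1Loc_77
import Crest.Agent.T156.LtD_29
import Crest.Agent.T156.LT2a_38
import Crest.Agent.T156.LNx_97

/-!
# Row 156 (helper77): the leaves of `L63.Hy` on the numbers of `LtD_29`
-/

set_option autoImplicit false

noncomputable section

namespace Crest.Agent.T156.Alt.R77

open Real Finset
open Crest.Agent.T156.Alt.L69 (LN LP LO bs)
open Crest.Agent.T156.Alt.L63 (LT2 Hy TP)

/-- the constant `K` of `p.scG K ..` -/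
def kS (S : Sc) : ℝ := √(S.C / 8)

theorem kS_eq (p : Pm) {K : ℝ} (hK : 0 ≤ K) (σ t : ℝ) (Q : Pl) : kS (p.scG K σ t Q) = K := by
  change √(8 * K ^ 2 / 8) = K
  rw [mul_div_cancel_left₀ _ (by norm_num), sqrt_sq hK]

/-- the residual size `η` -/
def etaL (p : Pm) (σ t : ℝ) (S : Sc) : ℝ → ℝ := Ln97.eta S (p.ltL t) p.LgL
  ((p.n : ℝ) ^ (-(2 : ℝ) / 3)) (p.PhN t) (p.X2L t) (p.X3L t) (p.G0L σ t)
/-- the bound `g` of the residual -/
def gG (p : Pm) (σ t : ℝ) (S : Sc) : ℝ → ℝ := Lt38.gL (kS S) (4 * (p.muG t * kS S * p.laG σ))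

/-- `LN` -/
def LNx : Dt := fun p σ t S M => p.Need t → p.Need2 t →
  LN p.EL S M (p.l0L t) (p.ltL t) (p.PhN t ^ ((1 : ℝ) / 3)) (p.PhN t) p.LgL (p.X2L t) (p.X3L t)
    (p.G0L σ t) (etaL p σ t S)
/-- `LP` for every a priori energy `y` -/
def LPx : Dt := fun p σ t S M => p.Need t → p.Need2 t → ∀ y, p.XloL σ t ≤ y → y ≤ p.PhN t →
  LP p.EL S M y (p.VL σ t) p.LgL 1 (p.X2L t) (p.X3L t) (p.G0L σ t) 0 (p.uL t) (p.uL t) (p.jL σ t) 0
    (p.LcL t) (p.ecL σ t y) (p.tauL σ t y) (etaL p σ t S) (p.NL σ t y)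
/-- `LT2` for every a priori energy `y` -/
def LTx : Dt := fun p σ t S M => p.Need t → p.Need2 t → ∀ y, p.XloL σ t ≤ y → y ≤ p.PhN t →
  LT2 p.EL S M (p.l0L t) (p.ltL t) (p.PhN t) y p.LgL (p.X2L t) (p.X4L σ t) (gG p σ t S) p.t1L
    (p.tuL t (M.s S.J)) (p.elL t) (p.NL σ t y) (p.EnL σ t y) (p.p0L σ t y) (etaL p σ t S)
/-- `Ap.vt` -/
def Vtx : Dt := fun p σ t S M => p.Need t → p.Need2 t → ∀ m a, S.In m a → M.Phi S m a ≤ p.PhN t →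
  ∀ k, S.J ≤ k → k ≤ S.Jp → p.uL t ≤ L69.du M k → M.del m a k ≤ p.VL σ t

/-- `Hy` at the a priori energy `y` -/
def HyAt (p : Pm) (σ t : ℝ) (S : Sc) (M : Md) (m : ℕ) (a y : ℝ) : Prop :=
  Hy p.EL S M m a 0 (p.uL t) (p.uL t) (p.jL σ t) 0 (p.LcL t) (p.ecL σ t y) (p.tauL σ t y) (p.l0L t)
    (p.ltL t) (p.PhN t) y (p.VL σ t) p.LgL 1 (p.X2L t) (p.X3L t) (p.X4L σ t) (p.G0L σ t)
    (etaL p σ t S) (p.NL σ t y) (gG p σ t S) p.t1L (p.tuL t (M.s S.J)) (p.elL t) (p.EnL σ t y)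
    (p.p0L σ t y)

/-- `Hy` as soon as the top energy is `≤ y` -/
def HyY : Dt := fun p σ t S M => p.Need t → p.Need2 t → ∀ m a, S.In m a → M.Phi S m a ≤ p.PhN t →
  ∀ y, p.XloL σ t ≤ y → y ≤ p.PhN t → M.En S m a M.q 2 (M.s S.J / 2) S.C ≤ y →
    HyAt p σ t S M m a y
/-- `Hy` at the last pass -/
def Hyx : Dt := fun p σ t S M => p.Need t → p.Need2 t → ∀ m a, S.In m a → M.Phi S m a ≤ p.PhN t →
  HyAt p σ t S M m a (p.XpL σ t)
/-- the sup location of the thick levels -/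
def Supx : Dt := fun p σ t S M => p.Need t → p.Need2 t → ∀ m a, S.In m a → M.Phi S m a ≤ p.PhN t →
  ∀ k, 2 * p.ltL t ≤ M.s k → M.s k + p.elL t ≤ p.tuL t (M.s S.J) → |M.del m a k| ≤
    p.EL * (p.p0L σ t (p.XpL σ t) + bs S p.LgL (p.X2L t) (gG p σ t S (M.s k)) (etaL p σ t S) (M.s k))

end Crest.Agent.T156.Alt.R77

end
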