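import Crest.Agent.T156.LDef_69
import Crest.Agent.T156.KnQ_72

/-!
# Row 156: the location kit `R62.LK` from the outputs of SR and (L), class level (helper37)
-/

set_option autoImplicit false
set_option linter.unusedSectionVars false

noncomputable section

namespace Crest.Agent.T156.Alt.Lk37

open Real Finset Plt13
open Crest.Agent.T156.Alt.L69 (mf GS GP Pla LO Rp ap)
open Crest.Agent.T156.Alt.R62 (lw sb pl ls T0 LK)
open Crest.Agent.T156.Alt.Kn72 (SD)

variable {S : Sc} {M : Md} {m : ℕ} {a : ℝ}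

/-- the total sum (`= M.Phi S m a` by `rfl`) -/
def Tot (S : Sc) (M : Md) (m : ℕ) (a : ℝ) : ℝ := ∑ k ∈ Ioc S.jl S.Jp, lw M k * M.del m a k ^ 2

theorem dx_nn (c : Cl S M) (k : ℕ) : 0 ≤ lw M k := sub_nonneg.2 (c.leg.zm (Nat.sub_le k 1))

theorem term_nn (c : Cl S M) (f : ℕ → ℝ) (k : ℕ) : 0 ≤ lw M k * f k ^ 2 :=
  mul_nonneg (dx_nn c k) (sq_nonneg _)

theorem le_tot (c : Cl S M) {T : Finset ℕ} (h : ∀ k ∈ T, S.jl < k ∧ k ≤ S.Jp) :
    ∑ k ∈ T, lw M k * M.del m a k ^ 2 ≤ Tot S M m a :=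
  sum_le_sum_of_subset_of_nonneg (fun k hk => mem_Ioc.2 (h k hk)) fun k _ _ => term_nn c _ k

theorem mem_blk {t t' : ℝ} {k : ℕ} :
    k ∈ M.blk S t t' ↔ (S.j0 < k ∧ k ≤ S.Jp) ∧ t ≤ M.s k ∧ M.s k ≤ t' := by
  rw [Md.blk, mem_filter, mem_Ioc]


theorem phi_eq (c : Cl S M) (jj : S.j0 = S.jl) : L69.Phi M S m a = Tot S M m a := by
  rw [L69.Phi, Md.En, Md.blk, filter_true_of_mem fun k hk =>
    ⟨c.s_nn k, c.s_le_C (mem_Ioc.1 hk).2⟩, jj]
  exact sum_congr rfl fun k _ => by rw [sq_abs]; rfl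

/-- `∑ dx δ²` over the sloped nodes with time in `[t, t']` -/
def Q (S : Sc) (M : Md) (m : ℕ) (a t t' : ℝ) : ℝ := ∑ k ∈ sb S M t t', lw M k * M.del m a k ^ 2









variable {Λ t0 u En : ℝ}







/-! ### the upper bound on the static plateau -/

section up

variable {la V u2 : ℝ} (D : SD S M la V u2)
include D

/-- one step of the grid stays in its shell -/
theorem step (hv : 8 * S.C * S.v ≤ √u2) {i : ℕ} (h0 : S.J ≤ i) (h1 : i < S.Jp) :
    2 * (M.z i - M.z (i - 1)) ≤ min (R62.dl S M i) (R62.du M i) := by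
  have a := D.ls_ge h0 h1
  have b := (D.cl.plat i h0 h1).2
  have d := D.cl.den0 (M.z (i - 1))
  unfold ls at a
  refine le_of_mul_le_mul_left ?_ d
  linarith

/-- the clock -/
theorem clock (hv : 8 * S.C * S.v ≤ √u2) {k : ℕ} (h0 : S.J ≤ k) (h1 : k ≤ S.Jp) :
    M.z (k - 1) < 1 ∧ ((k : ℝ) - S.J) * S.v ≤
      3 * S.C * (rho (M.z (S.J - 1)) S.u0 la V u2 0 (M.z (k - 1)) -
        rho (M.z (S.J - 1)) S.u0 la V u2 0 (M.z (S.J - 1))) := by
  have C0 := D.cl.C0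
  have x1 : M.z (S.J - 1) < 1 := by linarith [D.cl.atom.2, one_div_pos.2 C0]
  have K := clk x1 D.u0p D.nu.lp D.nu.Vp D.nu.u2p le_rfl
  induction k, h0 using Nat.le_induction with
  | base => exact ⟨x1, by simp⟩
  | succ k hk ih =>
    obtain ⟨a, b⟩ := ih (by omega)
    have s := le_min_iff.1 (step D hv hk h1)
    have z := D.cl.leg.zm (Nat.sub_le k 1)
    unfold R62.dl R62.du at s
    have e : M.z k < 1 := by linarith [s.2]
    have f := (K.slope (D.xs_le hk) z e (le_min (by linarith [s.1]) (by linarith [s.2]))).1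
    have g := (D.cl.plat k hk h1).1
    rw [D.den, div_le_iff₀ C0] at g
    rw [Nat.add_sub_cancel]
    refine ⟨e, ?_⟩
    push_cast
    nlinarith [mul_le_mul_of_nonneg_left f C0.le]

theorem root_le {k : ℕ} (h0 : S.J ≤ k) (h1 : k < S.Jp) (hu : u2 ≤ 4 * R62.du M k) :
    √u2 / √(R62.du M k) ≤ 8 * S.C * ls S M k := by
  have d := D.du0 h0 h1
  have s := sqrt_pos.2 d
  have C4 := D.C4
  have g := D.ls_ge h0 h1
  have sp := D.nu.sp
  rcases le_total (R62.du M k) (R62.dl S M k) with e | e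
  · have a := (D.nu.hi d e).2.1
    rw [← D.ls_eq h0 d] at a
    have b : √u2 / √(R62.du M k) ≤ 2 := by
      rw [div_le_iff₀ s]
      exact sqrt_le_iff.2 ⟨by positivity, by rw [mul_pow, sq_sqrt d.le]; linarith⟩
    have p : 0 < √u2 / √(R62.du M k) := by positivity
    have : √u2 / √(R62.du M k) ≤ 2 * min (√u2 / √(R62.du M k)) 1 := by
      rcases min_choice (√u2 / √(R62.du M k)) 1 with q | q <;> rw [q] <;> linarith
    nlinarith
  · have a := D.sum_ge k
    have C0 := D.cl.C0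
    rw [div_le_iff₀ C0] at a
    have b : 1 / (2 * S.C) ≤ √(R62.du M k) := by
      refine le_sqrt_of_sq_le ?_
      rw [div_pow, one_pow, div_le_iff₀ (by positivity)]
      nlinarith [mul_pos d C0]
    rw [div_le_iff₀ (by positivity)] at b
    rw [div_le_iff₀ s]
    nlinarith [mul_le_mul_of_nonneg_right g (show 0 ≤ 8 * S.C * √(R62.du M k) by positivity)]

/-- the node at half the distance to the top, and the clock up to it -/
theorem half (hv : 8 * S.C * S.v ≤ √u2) (ue : 8 * S.ue ≤ u2) {Lg : ℝ}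
    (hL : log (1 + 4 / √u2) ≤ Lg) {k : ℕ} (hk : k ∈ pl S M (u2 / 4)) :
    ∃ k', k ≤ k' ∧ k' ≤ S.Jp ∧ R62.du M k' ≤ R62.du M k / 2 ∧
      ((k' : ℝ) - S.J) * S.v ≤ 3 * S.C * (S.u0 + V * Lg + 16 * S.C * ls S M k) := by
  obtain ⟨h0, h1, hu⟩ := SD.mem_pl hk
  have d := D.du0 h0 h1
  have ex : ∃ k', k ≤ k' ∧ R62.du M k' ≤ R62.du M k / 2 :=
    ⟨S.Jp, h1.le, by linarith [D.cl.last, show R62.du M S.Jp = 1 - M.z (S.Jp - 1) from rfl]⟩
  classical
  obtain ⟨a1, a2⟩ := Nat.find_spec ex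
  have a3 : Nat.find ex ≤ S.Jp := Nat.find_min' ex
    ⟨h1.le, by linarith [D.cl.last, show R62.du M S.Jp = 1 - M.z (S.Jp - 1) from rfl]⟩
  have a4 : k < Nat.find ex := lt_of_le_of_ne a1 fun e => by rw [← e] at a2; linarith
  have a5 := Nat.find_min ex (show Nat.find ex - 1 < Nat.find ex by omega)
  set q := Nat.find ex
  have a6 : R62.du M k / 2 < R62.du M (q - 1) := not_le.1 fun e => a5 ⟨by omega, e⟩
  have s := (le_min_iff.1 (step D hv (i := q - 1) (by omega) (by omega))).2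
  have a7 : R62.du M k / 4 ≤ 1 - M.z (q - 1) := by unfold R62.du at *; linarith
  refine ⟨q, a1, a3, a2, (clock D hv (by omega) a3).2.trans
    (mul_le_mul_of_nonneg_left ?_ (by linarith [D.C4]))⟩
  have lp := D.nu.lp
  have Vp := D.nu.Vp
  have sp := D.nu.sp
  have up : 0 < 1 - M.z (q - 1) := by linarith
  have su := sqrt_pos.2 up
  have sd := sqrt_pos.2 d
  have b1 : √(R62.du M k) ≤ 2 * √(1 - M.z (q - 1)) :=
    sqrt_le_iff.2 ⟨by positivity, by rw [mul_pow, sq_sqrt up.le]; linarith⟩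
  have b2 : √u2 ≤ 4 * √(1 - M.z (q - 1)) :=
    sqrt_le_iff.2 ⟨by positivity, by rw [mul_pow, sq_sqrt up.le]; linarith⟩
  have c1 : ft V la (1 - M.z (q - 1)) ≤ V * Lg := by
    refine mul_le_mul_of_nonneg_left ((log_le_log (by positivity) ?_).trans hL) Vp.le
    have : la / (V * √(1 - M.z (q - 1))) ≤ 4 / √u2 := by
      rw [div_le_div_iff₀ (by positivity) sp]
      nlinarith [mul_le_mul D.nu.lV b2 sp.le Vp.le]
    linarith
  have c2 : ft 1 (√u2) (1 - M.z (q - 1)) ≤ 16 * S.C * ls S M k := by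
    refine (ft_le one_pos sp.le _).trans ?_
    have : √u2 / √(1 - M.z (q - 1)) ≤ 2 * (√u2 / √(R62.du M k)) := by
      rw [← mul_div_assoc, div_le_div_iff₀ su sd]
      nlinarith [mul_le_mul_of_nonneg_left b1 sp.le]
    linarith [root_le D h0 h1 (by linarith)]
  have c3 := ft_nn Vp lp.le (1 - M.z (S.J - 1))
  have c4 := ft_nn one_pos sp.le (1 - M.z (S.J - 1))
  have c5 : 0 ≤ fb la (M.z (q - 1) - M.z (S.J - 1) + S.u0) := by unfold fb; positivity
  have c6 : fb la (M.z (S.J - 1) - M.z (S.J - 1) + S.u0) = S.u0 := by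
    rw [sub_self, zero_add]; exact D.fb_u0
  unfold rho
  linarith

/-- the size `ap` on the static plateau -/
theorem ap_le {Xp Vt γ ε L : ℝ} (w0 : 0 ≤ S.w3 1) (X0 : 0 < Xp) (V0 : 0 ≤ Vt) (g0 : 0 ≤ γ)
    (ε0 : 0 ≤ ε) (L0 : 0 ≤ L) (h1 : 64 * S.w3 1 ≤ ε ^ 3 * u2)
    (h2 : 4096 * (S.w3 1 * Xp) ≤ L ^ 3 * u2 ^ 2) {k : ℕ} (hk : k ∈ pl S M (u2 / 4)) :
    ap M S Xp Vt γ k ≤ ε * (2 * Xp ^ ((1 : ℝ) / 3) + γ) + (ε + ε ^ 3 + 2 * L) * ls S M k +
      √(S.w3 1 / ls S M k) := by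
  obtain ⟨k0, k1, hu⟩ := SD.mem_pl hk
  have d := D.du0 k0 k1
  have u := D.nu.u2p
  have q := D.wpl (W := u2 / 64) le_rfl (by linarith) k hk
  have de := D.cl.den0 (M.z (k - 1))
  have s0 : 0 < min (R62.dl S M k) (R62.du M k) := lt_min (D.dl0 k0) d
  have s1 := min_le_right (R62.dl S M k) (R62.du M k)
  have y0 : 0 < Xp ^ ((1 : ℝ) / 3) := rpow_pos_of_pos X0 _
  have y3 : (Xp ^ ((1 : ℝ) / 3)) ^ 3 = Xp := by
    rw [← rpow_mul_natCast X0.le]; norm_num
  have r0 : 0 ≤ Rp M S Xp Vt γ k :=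
    add_nonneg (add_nonneg (sqrt_nonneg _) (le_min (by positivity) (sqrt_nonneg _))) g0
  have r1 : Rp M S Xp Vt γ k ≤ Xp ^ ((1 : ℝ) / 3) + √(Xp / R62.du M k) + γ := by
    refine add_le_add (add_le_add ?_ (min_le_right _ _)) le_rfl
    refine sqrt_le_iff.2 ⟨y0.le, (div_le_div_of_nonneg_left X0.le y0 (le_max_right _ _)).trans ?_⟩
    rw [div_le_iff₀ y0]; linarith
  unfold ap
  rw [show L69.ds M S k = min (R62.dl S M k) (R62.du M k) from rfl,
    show L69.lsh M S k = ls S M k from rfl]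
  have el : ls S M k = S.den (M.z (k - 1)) * min (R62.dl S M k) (R62.du M k) := rfl
  generalize min (R62.dl S M k) (R62.du M k) = s at *
  generalize S.den (M.z (k - 1)) = e at *
  generalize Rp M S Xp Vt γ k = R at *
  generalize Xp ^ ((1 : ℝ) / 3) = y at *
  generalize S.w3 1 = w at *
  generalize R62.du M k = U at *
  generalize ls S M k = l at *
  have l0 : 0 < l := el ▸ mul_pos de s0
  have e3 : 0 ≤ ε ^ 3 := by positivity
  have w1 : w ≤ ε ^ 3 * (l ^ 2 * s) := by nlinarith [mul_le_mul_of_nonneg_left q e3]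
  have w2 : w * Xp ≤ L ^ 3 * (l ^ 2 * s) ^ 2 := by
    have := mul_le_mul_of_nonneg_left (pow_le_pow_left₀ (by positivity) q 2)
      (show 0 ≤ L ^ 3 by positivity)
    nlinarith
  have a : w * e ≤ (ε * l) ^ 3 := by
    have := mul_le_mul_of_nonneg_right w1 de.le
    rw [el] at this ⊢; nlinarith
  have c : w / (e * s ^ 2) ≤ ε ^ 3 * l := by
    rw [div_le_iff₀ (by positivity)]
    rw [el] at w1 ⊢; nlinarith
  have z2 : √(Xp / U) ^ 2 ≤ Xp / s := by
    rw [sq_sqrt (by positivity)]; exact div_le_div_of_nonneg_left X0.le s0 s1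
  have R2 : (R + y) ^ 2 ≤ 2 * (2 * y + γ) ^ 2 + 2 * (Xp / s) := by
    have := pow_le_pow_left₀ (by positivity) (show R + y ≤ (2 * y + γ) + √(Xp / U) by linarith) 2
    nlinarith [sq_nonneg (2 * y + γ - √(Xp / U))]
  have c' : w / (e * s ^ 2) * (Xp / s) ≤ (L * l) ^ 3 := by
    rw [div_mul_div_comm, div_le_iff₀ (by positivity)]
    rw [el] at w2 ⊢; nlinarith
  have b : w * ((R + y) ^ 2 / (s ^ 2 * e)) ≤
      2 * (ε ^ 3 * l * (2 * y + γ) ^ 2) + 2 * (L * l) ^ 3 := by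
    have p : 0 ≤ w / (e * s ^ 2) := by positivity
    have t1 := mul_le_mul_of_nonneg_left R2 p
    have t2 := mul_le_mul_of_nonneg_right c (sq_nonneg (2 * y + γ))
    rw [show w * ((R + y) ^ 2 / (s ^ 2 * e)) = w / (e * s ^ 2) * (R + y) ^ 2 by ring]
    linarith
  have f : (w * (e + (R + y) ^ 2 / (s ^ 2 * e))) ^ ((1 : ℝ) / 3) ≤
      ε * l + ε * (2 * y + γ) + 2 * (L * l) := by
    have p1 : 0 ≤ ε * l := by positivity
    have p2 : 0 ≤ ε * (2 * y + γ) := by positivity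
    have p3 : 0 ≤ L * l := by positivity
    have g : w * (e + (R + y) ^ 2 / (s ^ 2 * e)) ≤ (ε * l + ε * (2 * y + γ) + 2 * (L * l)) ^ 3 := by
      have e1 : ε ^ 3 * l * (2 * y + γ) ^ 2 = ε * l * (ε * (2 * y + γ)) ^ 2 := by ring
      rw [mul_add, ← sub_nonneg]
      rw [e1] at b
      generalize ε * l = A at *
      generalize ε * (2 * y + γ) = B at *
      generalize L * l = Z at *
      have : 0 ≤ (A + B + 2 * Z) ^ 3 - (A ^ 3 + 2 * (A * B ^ 2) + 2 * Z ^ 3) := by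
        ring_nf; positivity
      linarith
    refine (rpow_le_rpow (by positivity) g (by norm_num)).trans_eq ?_
    rw [← rpow_natCast, ← rpow_mul (by positivity)]; norm_num
  linarith


end up

end Crest.Agent.T156.Alt.Lk37

end
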