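import Crest.Agent.T156.SrNB_66
import Crest.Agent.T156.R1Def_82
import Crest.Agent.T156.NbD_29
import Crest.Agent.T156.KnR_72

-- ▼ part T156/NRk_67
section

/-!
# Row 156, R1: the lines `k`, `l5` of `NR` for free numbers (helper67)
-/

set_option autoImplicit false

noncomputable section

namespace Crest.Agent.T156.Alt.Nr67

open Real Set

variable {β c0 C0 : ℝ} {A : ℕ} {c η K : ℝ} {p : Pm} {σ E ε δ l l0 t : ℝ}

/-- line `l5` -/
theorem l5 (H : Reg β c0 C0 A c η K p) (hη : η ≤ ε) (hε : 1000 * ε ≤ c) (M : p.MemG σ) (E1 : 1 ≤ E)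
    (E2 : E ≤ (p.n : ℝ) ^ ε) (hl : 0 < l) (hΦ : l ^ 3 ≤ (p.n : ℝ) ^ ε * p.PhG E σ)
    (hδ : (p.n : ℝ) ^ (-c) ≤ δ) :
    p.muG σ * l ^ 5 ≤ δ * ((p.n : ℝ) ^ (-(5 : ℝ) / 6) * p.s ^ 5) := by
  have h1 := H.lg_thetaG hη hε M E1 E2 (by positivity) hΦ
  have h2 := H.lg_mono (H.rp0 _) hδ
  have := (H.rp0 _).trans_le hδ
  have := H.muG_pos M
  have := H.s0
  have := H.N0
  rw [H.lg_rp] at h2
  refine H.le_of_lg (by positivity) (by positivity) ?_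
  revert h1
  lg_norm
  rw [H.lg_n]
  intro h1
  linarith

/-- line `k` -/
theorem k (H : Reg β c0 C0 A c η K p) (M : p.MemG σ) (hl : 0 < l) (ly : l ≤ p.ye) (hr : p.r ≤ t)
    (hlt : l ≤ (p.n : ℝ) ^ (5 * c) * t) (E1 : 1 ≤ E) (ht : t ^ 2 ≤ E) :
    t * max t l * p.muG σ ≤ E * p.msG σ t := by
  have t0 := H.r0.trans_le hr
  have m0 := H.muG_pos M
  have m1 := H.msG_pos M t
  have := H.N0
  rcases le_total p.ye t with h | h
  · rw [max_eq_left (ly.trans h), H.msG_top h, ← sq]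
    exact mul_le_mul_of_nonneg_right ht m0.le
  have h1 : max t l ≤ (p.n : ℝ) ^ (5 * c) * t := max_le (le_mul_of_one_le_left t0.le
    (one_le_rpow H.N1.le (by linarith [H.c_pos]))) hlt
  refine (mul_le_mul_of_nonneg_right (mul_le_mul_of_nonneg_left h1 t0.le) m0.le).trans
    (le_trans ?_ (le_mul_of_one_le_left m1.le E1))
  have a1 := (H.lg_msG66 M t).1
  obtain ⟨-, a2, a3⟩ := H.lg_muG66 M
  have a4 := H.lg_mono t0 h
  rw [Reg.Tc_mid hr h] at a1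
  rw [H.lg_ye] at a4
  refine H.le_of_lg (by positivity) m1 ?_
  lg_norm
  rw [H.lg_n]
  rcases a1 with a1 | a1 <;> linarith [H.η_le, H.c_pos]

end Crest.Agent.T156.Alt.Nr67

end
end

-- ▼ part T156/NRb_67
section

/-!
# Row 156, R1: the branch `Λ₀' = θ Φ² n / s⁶` of `NR` (helper67)
-/

set_option autoImplicit false

noncomputable section

namespace Crest.Agent.T156.Alt.Nr67

open Real Set

variable {β c0 C0 : ℝ} {A : ℕ} {c η K : ℝ} {p : Pm} {σ E ε δ Φ t : ℝ}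

theorem dich_lg (H : Reg β c0 C0 A c η K p) (hη : η ≤ ε) (hε : 1000 * ε ≤ c) (M : p.MemG σ)
    (E1 : 1 ≤ E) (E2 : E ≤ (p.n : ℝ) ^ ε) (Φ0 : 0 < Φ) (hΦ : Φ ≤ (p.n : ℝ) ^ ε * p.PhG E σ) :
    logb p.n (p.muG σ) + 2 * logb p.n Φ + 1 ≤ 10 * ε + 6 * logb p.n p.s ∨
    2 * logb p.n (p.muG σ) + 3 * logb p.n Φ + c / 10 + 3 * c + 5 / 3 ≤ 10 * logb p.n p.s := by
  obtain ⟨u1, u2, u3⟩ := H.lg_muG66 M
  obtain ⟨s1, s2⟩ := H.lg_s
  obtain ⟨x1, x2⟩ := H.lg_sgG M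
  have r1 := H.lg_r
  have c0 := H.c_pos
  have c1 := H.c_le
  have η0 := H.η_pos
  by_contra hc
  push Not at hc
  obtain ⟨k1, k2⟩ := hc
  rcases H.lg_Phi hη hε M E1 E2 Φ0 hΦ with
    h | h | ⟨h, h', h''⟩ | h | ⟨h, h'⟩ | h | h | ⟨h, h', h''⟩ | ⟨h, h'⟩ | h | ⟨h, h'⟩ <;>
    rcases le_total (logb p.n σ) (-(1 / 4)) with k | k <;> linarith

/-- `ms(t)² / t ≤ n^{2η} θ² / ye` above `r` -/
theorem ms_lg (H : Reg β c0 C0 A c η K p) (M : p.MemG σ) (hr : p.r ≤ t) :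
    2 * logb p.n (p.msG σ t) - logb p.n t ≤ 2 * logb p.n (p.muG σ) + 3 * c + 2 * η := by
  have t0 := H.r0.trans_le hr
  have η0 := H.η_pos
  rcases le_total p.ye t with h | h
  · have a4 := H.lg_mono H.ye0 h
    rw [H.lg_ye] at a4
    rw [H.msG_top h]
    linarith
  obtain ⟨-, a1, a2⟩ := H.lg_msG66 M t
  obtain ⟨a3, -, -⟩ := H.lg_muG66 M
  have a4 := H.lg_mono t0 h
  rw [Reg.Tc_mid hr h] at a1 a2
  rw [H.lg_ye] at a4
  rcases a3 with a3 | a3 <;> linarith [H.c_pos]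

/-- **the dichotomy** -/
theorem dich (H : Reg β c0 C0 A c η K p) (hη : η ≤ ε) (hε : 1000 * ε ≤ c) (M : p.MemG σ)
    (E1 : 1 ≤ E) (E2 : E ≤ (p.n : ℝ) ^ ε) (Φ0 : 0 < Φ) (hΦ : Φ ≤ (p.n : ℝ) ^ ε * p.PhG E σ)
    (hδ : (p.n : ℝ) ^ (-(c / 100)) ≤ δ) :
    p.muG σ * Φ ^ 2 * p.n / p.s ^ 6 ≤ (p.n : ℝ) ^ (10 * ε) ∨
    (3 * (p.muG σ ^ 2 * Φ ^ 3) ≤ p.ye * (δ * ((p.n : ℝ) ^ (-(5 : ℝ) / 6) * p.s ^ 5)) ^ 2 ∧
      ∀ t, p.r ≤ t → p.msG σ t ^ 2 * Φ ^ 3 / t ≤ (δ * ((p.n : ℝ) ^ (-(5 : ℝ) / 6) * p.s ^ 5)) ^ 2) := by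
  have h2 := H.lg_mono (H.rp0 _) hδ
  have := (H.rp0 _).trans_le hδ
  have := H.muG_pos M
  have := H.s0
  have := H.N0
  have := H.ye0
  have c0 := H.c_pos
  have η0 := H.η_pos
  rw [H.lg_rp] at h2
  rcases dich_lg H hη hε M E1 E2 Φ0 hΦ with h | h
  · left
    refine H.le_of_lg (by positivity) (by positivity) ?_
    lg_norm
    simp only [H.lg_n]
    linarith
  right
  refine ⟨H.le_of_lg (by positivity) (by positivity) ?_, fun t ht => ?_⟩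
  · have h3 : logb p.n 3 ≤ η := (H.lg_num (by norm_num) (by norm_num)).2
    lg_norm
    simp only [H.lg_n, H.lg_ye]
    linarith
  · have t0 := H.r0.trans_le ht
    have m1 := H.msG_pos M t
    have a := ms_lg H M ht
    refine H.le_of_lg (by positivity) (by positivity) ?_
    lg_norm
    simp only [H.lg_n]
    linarith

end Crest.Agent.T156.Alt.Nr67

end
end

-- ▼ part T156/NRl_67
section

/-!
# Row 156, R1: `NR` at `Λ₂ = max Λ (θ Φ² n / s⁶)` from the lines at `Λ` (helper67)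
-/

set_option autoImplicit false

noncomputable section

namespace Crest.Agent.T156.Alt.Nr67

open Real Set
open Crest.Agent.T156.Alt.R62 Crest.Agent.T156.Alt.R82

/-- `NR` without the line `n` (line `e` with a factor `2` on its first term) -/
structure NR0 (E δ : ℝ) (p : Pm) (S : Sc) (M : Md) (l Φ : ℝ) (P : ℝ → ℝ) (l0 Λ Pt u1 V4 : ℝ) :
    Prop where
  l3 : l ^ 3 = Φ
  r0 : p.r ≤ l0
  jl : 8 * M.s S.jl ≤ l0
  l0l : l0 ≤ l
  ly : l ≤ δ * p.ye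
  w0 : ∀ t, l0 / 8 ≤ t → t ≤ S.C → S.w3 t ≤ t ^ 3
  P0 : ∀ t, 0 ≤ P t ∧ P t ≤ Φ
  Plo : ∀ t, t ≤ l → P t = Φ
  L1 : 1 ≤ Λ
  Pt0 : 0 ≤ u1 ∧ u1 ≤ Pt ∧ Pt ≤ Φ ∧ u1 ≤ V4
  a : S.ms l0 * Φ ≤ δ * n5 p
  b : ∀ t, l0 ≤ t → t ≤ T0 S M → S.ms t * P t * max t l ^ 3 / t ^ 4 ≤ δ ^ 2 * n4 p
  c : S.θ * Λ * (Pt + V4 + p.r ^ 4) ≤ δ ^ 2 * n4 p
  d : S.θ * V4 ≤ δ * n5 p
  e : 2 * (l ^ 2 / (p.n * l0 ^ 3)) + Λ / p.n ≤ δ * n5 p
  f : ∀ t, l0 ≤ t → t ≤ T0 S M → S.ms t * p.r ^ 4 * max t l / t ^ 3 ≤ δ ^ 2 * n4 p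
  i : ∀ t, l0 ≤ t → t ≤ T0 S M → S.θ * Λ * (t * P t) ≤ δ ^ 2 * n4 p
  j : ∀ t, l0 ≤ t → t ≤ T0 S M → Λ * S.ms t ^ 2 * P t / t ≤ S.θ * (δ ^ 2 * n4 p)
  k : ∀ t, l0 ≤ t → t ≤ T0 S M → t * max t l * S.θ ≤ E * S.ms t
  l5 : S.θ * l ^ 5 ≤ δ * n5 p

/-- the constant of `NR` -/
def L2 (p : Pm) (θ Φ Λ : ℝ) : ℝ := max Λ (θ * Φ ^ 2 * p.n / p.s ^ 6)

theorem le_L2 (p : Pm) (θ Φ Λ : ℝ) : Λ ≤ L2 p θ Φ Λ := le_max_left _ _

variable {β c0 C0 : ℝ} {A : ℕ} {c η K : ℝ} {p : Pm} {σ E E' ε δ l Φ l0 Λ Pt u1 V4 : ℝ} {P : ℝ → ℝ}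
  {S : Sc} {M : Md}

theorem n45 (H : Reg β c0 C0 A c η K p) (δ : ℝ) :
    (δ * n5 p) ^ 2 * p.n / p.s ^ 6 = δ ^ 2 * n4 p := by
  have := H.s0
  have h0 := H.N0
  have e : ((p.n : ℝ) ^ (-(5 : ℝ) / 6)) ^ 2 * p.n = (p.n : ℝ) ^ (-(2 : ℝ) / 3) := by
    rw [← rpow_natCast, ← rpow_mul h0.le, ← rpow_add_one h0.ne']
    norm_num
  rw [n5, n4, ← e]
  field_simp

/-- **the lift** -/
theorem NR0.lift (h : NR0 E δ p S M l Φ P l0 Λ Pt u1 V4) (H : Reg β c0 C0 A c η K p) (hη : η ≤ ε)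
    (hε : 1000 * ε ≤ c) (G : p.MemG σ) (E1 : 1 ≤ E') (E2 : E' ≤ (p.n : ℝ) ^ ε)
    (hΦ : Φ ≤ (p.n : ℝ) ^ ε * p.PhG E' σ) (hδ : (p.n : ℝ) ^ (-(c / 100)) ≤ δ) (hδ1 : δ ≤ 1 / 3)
    (hθ : S.θ = p.muG σ) (hm : ∀ t, S.ms t = p.msG σ t) (hT : T0 S M * p.ye ≤ 1)
    (hΛ : (p.n : ℝ) ^ (10 * ε) ≤ Λ) : NR E δ p S M l Φ P l0 (L2 p S.θ Φ Λ) Pt u1 V4 := by
  have s0 := H.s0
  have N0 := H.N0
  have y0 := H.ye0
  have y1 := H.ye1
  have r0 := H.r0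
  have rl := h.r0.trans h.l0l
  have l0' := r0.trans_le rl
  have Φ0 : 0 < Φ := h.l3 ▸ pow_pos l0' 3
  have θ0 : 0 < S.θ := hθ ▸ H.muG_pos G
  have δ0 := (H.rp0 _).trans_le hδ
  have D0 : 0 < δ * n5 p := by unfold n5; positivity
  have hn : S.θ * Φ ^ 2 ≤ L2 p S.θ Φ Λ * p.s ^ 6 / p.n := by
    rw [le_div_iff₀ N0, ← div_le_iff₀ (by positivity)]
    exact le_max_right _ _
  have he : 0 ≤ l ^ 2 / (p.n * l0 ^ 3) := by have := r0.trans_le h.r0; positivity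
  rcases le_total (S.θ * Φ ^ 2 * p.n / p.s ^ 6) Λ with hB | hB
  · have e : L2 p S.θ Φ Λ = Λ := max_eq_left hB
    rw [e] at hn ⊢
    exact { h with e := by linarith [h.e], n := hn }
  have e : L2 p S.θ Φ Λ = S.θ * Φ ^ 2 * p.n / p.s ^ 6 := max_eq_right hB
  rcases dich H hη hε G E1 E2 Φ0 hΦ hδ with hd | ⟨d1, d2⟩
  · have e' : L2 p S.θ Φ Λ = Λ := max_eq_left (by rw [hθ]; exact hd.trans hΛ)
    rw [e'] at hn ⊢
    exact { h with e := by linarith [h.e], n := hn }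
  rw [← hθ] at d1
  change 3 * (S.θ ^ 2 * Φ ^ 3) ≤ p.ye * (δ * n5 p) ^ 2 at d1
  change ∀ t, p.r ≤ t → p.msG σ t ^ 2 * Φ ^ 3 / t ≤ (δ * n5 p) ^ 2 at d2
  have l3 : l ≤ 1 / 3 := h.ly.trans (by nlinarith)
  have key : ∀ X, S.θ ^ 2 * Φ ^ 2 * X ≤ (δ * n5 p) ^ 2 →
      S.θ * L2 p S.θ Φ Λ * X ≤ δ ^ 2 * n4 p := fun X hX => by
    rw [e, ← n45 H]
    calc S.θ * (S.θ * Φ ^ 2 * p.n / p.s ^ 6) * X = S.θ ^ 2 * Φ ^ 2 * X * p.n / p.s ^ 6 := by ring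
      _ ≤ _ := by gcongr
  have t6 : S.θ * Φ ^ 2 ≤ δ * n5 p / 3 := by
    calc S.θ * Φ ^ 2 = S.θ * l ^ 5 * l := by rw [← h.l3]; ring
      _ ≤ δ * n5 p * (1 / 3) := mul_le_mul h.l5 l3 l0'.le D0.le
      _ = _ := by ring
  have q0 : 0 < S.θ ^ 2 * Φ ^ 2 := by positivity
  have d3 : S.θ ^ 2 * Φ ^ 2 * Φ ≤ (δ * n5 p) ^ 2 / 3 := by
    have : p.ye * (δ * n5 p) ^ 2 ≤ (δ * n5 p) ^ 2 := mul_le_of_le_one_left (by positivity) y1
    linarith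
  refine { h with L1 := h.L1.trans (le_L2 ..), n := hn, c := key _ ?_, e := ?_
                  i := fun t a b => key _ ?_, j := fun t a b => ?_ }
  · have a1 : S.θ ^ 2 * Φ ^ 2 * Pt ≤ S.θ ^ 2 * Φ ^ 2 * Φ := by gcongr; exact h.Pt0.2.2.1
    have a2 : p.r ^ 4 ≤ Φ := by
      calc p.r ^ 4 ≤ l ^ 4 := by gcongr
        _ = Φ * l := by rw [← h.l3]; ring
        _ ≤ Φ := mul_le_of_le_one_right Φ0.le (by linarith)
    have a3 : S.θ ^ 2 * Φ ^ 2 * p.r ^ 4 ≤ S.θ ^ 2 * Φ ^ 2 * Φ := by gcongr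
    have V0 : 0 ≤ V4 := h.Pt0.1.trans h.Pt0.2.2.2
    have a4 : S.θ * Φ ^ 2 * (S.θ * V4) ≤ δ * n5 p / 3 * (δ * n5 p) :=
      mul_le_mul t6 h.d (by positivity) (by positivity)
    linarith
  · have a1 : L2 p S.θ Φ Λ / p.n ≤ S.θ * Φ ^ 2 := by
      rw [e, div_le_iff₀ N0]
      exact div_le_self (by positivity) (one_le_pow₀ H.ok.s1)
    have a2 : 0 ≤ Λ / p.n := by have := h.L1; positivity
    linarith [h.e]
  · have t0 := (r0.trans_le h.r0).trans_le a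
    have a1 : t * p.ye ≤ 1 := (mul_le_mul_of_nonneg_right b y0.le).trans hT
    have a2 : S.θ ^ 2 * Φ ^ 2 * (t * P t) ≤ S.θ ^ 2 * Φ ^ 2 * (t * Φ) := by
      gcongr; exact (h.P0 t).2
    have a3 : t * (3 * (S.θ ^ 2 * Φ ^ 3)) ≤ t * (p.ye * (δ * n5 p) ^ 2) := by gcongr
    have a4 : t * p.ye * (δ * n5 p) ^ 2 ≤ (δ * n5 p) ^ 2 :=
      mul_le_of_le_one_left (by positivity) a1
    have a5 : 0 ≤ t * (S.θ ^ 2 * Φ ^ 3) := by positivity
    linarith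
  · have t0 := (r0.trans_le h.r0).trans_le a
    have a1 := d2 t (h.r0.trans a)
    rw [← hm] at a1
    rw [e, ← n45 H]
    calc S.θ * Φ ^ 2 * p.n / p.s ^ 6 * S.ms t ^ 2 * P t / t
        ≤ S.θ * Φ ^ 2 * p.n / p.s ^ 6 * S.ms t ^ 2 * Φ / t := by gcongr; exact (h.P0 t).2
      _ = S.θ * (S.ms t ^ 2 * Φ ^ 3 / t * p.n / p.s ^ 6) := by ring
      _ ≤ _ := by gcongr

end Crest.Agent.T156.Alt.Nr67

end
end

-- ▼ part T156/NRi_67
section

/-!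
# Row 156, R1: the lines `i`, `j` of `NR` from the line `b` (helper67)
-/

set_option autoImplicit false

noncomputable section

namespace Crest.Agent.T156.Alt.Nr67

open Real Set

variable {β c0 C0 : ℝ} {A : ℕ} {c η K : ℝ} {p : Pm} {σ Λ X Y l t : ℝ}


theorem b_weak {m : ℝ} (hm : 0 ≤ m) (hX : 0 ≤ X) (t0 : 0 < t) (h : m * X * max t l ^ 3 / t ^ 4 ≤ Y) :
    m * X / t ≤ Y := by
  refine le_trans ?_ h
  calc m * X / t = m * X * t ^ 3 / t ^ 4 := by field_simp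
    _ ≤ _ := by gcongr; exact le_max_left _ _



end Crest.Agent.T156.Alt.Nr67

end
end

-- ▼ part T156/NRn_44

/-!
# Row 156 (helper44): the table `R82.NR` at the numbers of `NbD_29`
-/

set_option autoImplicit false
set_option linter.unusedSectionVars false

noncomputable section

namespace Crest.Agent.T156.Alt.Nr44

open Real Set
open Crest.Agent.T156.Alt.R82 (n5 n4 NR)
open Crest.Agent.T156.Alt.R62 (T0)
open Crest.Agent.T156.Alt.Kn72 (nu)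

variable {β c0 C0 : ℝ} {A : ℕ} {c η K : ℝ} {p : Pm} {σ t x : ℝ}

theorem Ex.i {s c ε x μ φ Λ : ℝ} (h : Ex s c ε x μ φ) (l1 : Λ ≤ 127 / 400 * c + s)
    (l2 : Λ ≤ 127 / 400 * c - 2 * c - μ) :
    μ + Λ + 4 / 3 * φ + ε ≤ -(c / 100) - 2 / 3 + 4 * s := by
  obtain ⟨c0, c1, e0, e1, s0, s1, x0, x1, m0, m1, m2, up⟩ := h
  rcases up with up | up | ⟨up, _, _⟩ | up | ⟨up, _⟩ | up | up | ⟨up, _, _⟩ | ⟨up, _⟩ | up |
    ⟨up, _⟩ <;>
  first | linarith | (rcases m0 with m0 | m0 <;> linarith)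

/-- the standing hypotheses -/
structure Cx (β c0 C0 : ℝ) (A : ℕ) (c η K : ℝ) (p : Pm) (σ t : ℝ) : Prop where
  H : Reg β c0 C0 A c η K p
  hc : c ≤ 1 / 2000
  hη : 10000 * η ≤ c
  o : p.OctR σ t

namespace Cx

variable (X : Cx β c0 C0 A c η K p σ t)
include X

theorem Mσ : p.MemG σ := (Gr29.oct_mem X.o).1
theorem Mt : p.MemG t := (Gr29.oct_mem X.o).2
theorem E1 : 1 ≤ (p.n : ℝ) ^ (p.c / 1000) :=
  one_le_rpow X.H.N1.le (by rw [X.H.hc]; linarith [X.H.c_pos])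
theorem G0 : 0 < p.PhG ((p.n : ℝ) ^ (p.c / 1000)) t := X.H.PhG0 X.Mt (X.H.rp0 _)
theorem Ph0 : 0 < p.PhN t := mul_pos (X.H.rp0 _) X.G0
theorem lN0 : 0 < p.lN t := rpow_pos_of_pos X.Ph0 _
theorem l3 : p.lN t ^ 3 = p.PhN t := by
  rw [Pm.lN, ← rpow_natCast, ← rpow_mul X.Ph0.le]; norm_num
theorem d0 : 0 < p.dN := X.H.rp0 _
theorem lg_d : logb p.n p.dN = -(c / 4000) := by rw [Pm.dN, X.H.lg_rp, X.H.hc]
theorem lg_Ph : logb p.n (p.PhN t) =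
    c / 4000 + logb p.n (p.PhG ((p.n : ℝ) ^ (p.c / 1000)) t) := by
  rw [Pm.PhN, logb_mul (X.H.rp0 _).ne' X.G0.ne', X.H.lg_rp, X.H.hc]

theorem hy : Hy c η (c / 1000) p t ((p.n : ℝ) ^ (p.c / 1000)) (p.lN t) (p.PhN t) p.dN := by
  have := X.H.c_pos; have := X.H.η_pos; have := X.hη
  refine ⟨by linarith [X.hc], by linarith, by linarith, X.Mt, X.E1, by rw [X.H.hc], X.lN0, X.l3,
    mul_le_mul_of_nonneg_right (Pre29.rp_le X.H.n1 (by rw [X.H.hc]; linarith)) X.G0.le,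
    Pre29.rp_le X.H.n1 (by rw [X.H.hc]; linarith)⟩

theorem big : 1000 ≤ (p.n : ℝ) ^ (p.c / 4000) := X.H.num_le.trans
  (Pre29.rp_le X.H.n1 (by rw [X.H.hc]; linarith [X.hη, X.H.η_pos]))

theorem l0l : p.l0G t (p.lN t) ≤ p.lN t := Nr44.l0l X.H X.Mt X.E1 X.lN0 (by
  rw [X.l3]; exact mul_le_mul_of_nonneg_right (by linarith [X.big]) X.G0.le)

theorem la0 : 0 < p.laG σ := X.H.laG0 X.Mσ
theorem ν0 : 0 < nu p σ := Kn72.nu0 X.H X.o
theorem θ0 : 0 < p.muG t := X.H.muG_pos X.Mt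
theorem Vc0 : 0 < p.Vc (nu p σ) :=
  mul_pos (X.H.rp0 _) (one_pos.trans_le (le_max_left _ _))
theorem u0 : 0 < p.u1N σ := by
  have := X.H.N0; have := X.ν0; have := X.Vc0
  exact div_pos (X.H.rp0 _) (by positivity)

/-- `θ ≤ 2 ν` -/
theorem lg_θν : logb p.n (p.muG t) ≤ logb p.n (nu p σ) + η := by
  have m := X.H.muG_pos X.Mσ
  have a := X.H.lg_mono X.θ0 (X.H.oct_mu X.o).2
  rw [logb_mul two_ne_zero m.ne'] at a
  linarith [(X.H.lg_mt' m).1, X.H.lg_two.2]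

/-- the exponents of `la`, `Vc`, `u2` at `ν`; `W = lg ν + 1/3` -/
theorem lg_pl :
    (0 ≤ logb p.n (nu p σ) + 1 / 3 ∧
      logb p.n (p.laG σ) = -(1 / 6) - c / 2 - (logb p.n (nu p σ) + 1 / 3) / 2 ∧
      logb p.n (p.Vc (nu p σ)) = -(1 / 6) + 3 * c / 4 ∧
      logb p.n (p.u1N σ) = -(5 / 6) - c / 4 - logb p.n (nu p σ)) ∨
    (logb p.n (nu p σ) + 1 / 3 ≤ 0 ∧
      logb p.n (p.laG σ) = -(1 / 6) - c / 2 - (logb p.n (nu p σ) + 1 / 3) / 3 ∧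
      logb p.n (p.Vc (nu p σ)) = -(1 / 6) + 3 * c / 4 - (logb p.n (nu p σ) + 1 / 3) / 3 ∧
      logb p.n (p.u1N σ) =
        -(5 / 6) - c / 4 - logb p.n (nu p σ) + (logb p.n (nu p σ) + 1 / 3) / 3) := by
  have a : logb p.n (p.laG σ) = _ := X.H.lg_la X.ν0
  have b := X.H.lg_Vc X.ν0
  have d : logb p.n (p.u1N σ) = _ := Kn72.lg_u2 X.H X.o
  rcases le_total 0 (logb p.n (nu p σ) + 1 / 3) with h | h
  · rw [min_eq_right (by linarith)] at a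
    rw [max_eq_left (by linarith)] at b d
    exact .inl ⟨h, by linarith, by linarith, by linarith⟩
  · rw [min_eq_left (by linarith)] at a
    rw [max_eq_right (by linarith)] at b d
    exact .inr ⟨h, by linarith, by linarith, by linarith⟩

/-- `θ la² ≤ 2 κ n^{-2/3}` -/
theorem lg_θla : logb p.n (p.muG t) + 2 * logb p.n (p.laG σ) ≤ -(2 / 3) - c + η := by
  have := X.lg_θν
  rcases X.lg_pl with ⟨_, _, _, _⟩ | ⟨_, _, _, _⟩ <;> linarith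

/-- `la σ ≤ n^η la t` -/
theorem lg_lala : logb p.n (p.laG σ) ≤ logb p.n (p.laG t) + η := by
  have m := X.H.mt0 X.θ0
  have a : logb p.n (p.laG σ) = _ := X.H.lg_la X.ν0
  have b : logb p.n (p.laG t) = _ := X.H.lg_la m
  have d := X.H.lg_mono m (X.H.oct_mt X.o).2
  rw [logb_mul two_ne_zero X.ν0.ne'] at d
  have e := X.H.lg_two
  rw [a, b]
  rcases min_choice (-(logb p.n (p.mt (p.muG t)) + 1 / 3) / 3)
    (-(logb p.n (p.mt (p.muG t)) + 1 / 3) / 2) with h | h <;> rw [h]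
  · linarith [min_le_left (-(logb p.n (nu p σ) + 1 / 3) / 3) (-(logb p.n (nu p σ) + 1 / 3) / 2)]
  · linarith [min_le_right (-(logb p.n (nu p σ) + 1 / 3) / 3) (-(logb p.n (nu p σ) + 1 / 3) / 2)]

/-- `n^{c/20000} la² ≤ Φ` -/
theorem lg_laΦ : c / 20000 + 2 * logb p.n (p.laG σ) ≤ logb p.n (p.PhN t) := by
  linarith [X.lg_Ph, X.lg_lala, (X.H.lg_PhG X.Mt (X.H.rp0 (p.c / 1000))).1.2.2.1, X.hη, X.H.η_pos]

theorem sM0 : 0 < p.sM t := lt_min X.H.s0 (div_pos (pow_pos X.H.κ0 2) X.θ0)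

theorem lg_sM : 0 ≤ logb p.n (p.sM t) ∧ logb p.n (p.sM t) ≤ logb p.n p.s ∧
    logb p.n (p.sM t) ≤ -(2 * c) - logb p.n (p.muG t) := by
  have a := pow_pos X.H.κ0 2
  have e : logb p.n (p.κ ^ 2 / p.muG t) = -(2 * c) - logb p.n (p.muG t) := by
    rw [logb_div a.ne' X.θ0.ne', logb_pow, X.H.lg_κ]; push_cast; ring
  rw [Pm.sM, lg_min X.H.N1 X.H.s0 (div_pos a X.θ0), e]
  exact ⟨le_min X.H.lg_s.1 (by linarith [(X.H.lg_muG66 X.Mt).2.1, X.H.η_le, X.H.c_pos]),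
    min_le_left _ _, min_le_right _ _⟩

theorem Pt0 : 0 < p.PtN σ t :=
  lt_min X.Ph0 (mul_pos (X.H.rp0 _) (pow_pos (mul_pos X.sM0 X.la0) 2))

theorem lg_Pt2 : logb p.n ((p.n : ℝ) ^ (5 / 8 * p.c) * (p.sM t * p.laG σ) ^ 2) =
    5 / 8 * c + 2 * logb p.n (p.sM t) + 2 * logb p.n (p.laG σ) := by
  have := X.la0; have := X.sM0; have := X.H.N0
  lg_norm; rw [X.H.lg_n, X.H.hc]; ring

theorem lg_Pt : logb p.n (p.PtN σ t) ≤ logb p.n (p.PhN t) ∧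
    logb p.n (p.PtN σ t) ≤ 5 / 8 * c + 2 * logb p.n (p.sM t) + 2 * logb p.n (p.laG σ) ∧
    c / 20000 + 2 * logb p.n (p.laG σ) ≤ logb p.n (p.PtN σ t) := by
  have := X.la0; have := X.sM0; have := X.H.N0
  rw [Pm.PtN, lg_min X.H.N1 X.Ph0 (by positivity), X.lg_Pt2]
  exact ⟨min_le_left _ _, min_le_right _ _,
    le_min X.lg_laΦ (by linarith [X.H.c_pos, X.lg_sM.1])⟩

/-- `NX.la` -/
theorem la_Pt : p.laG σ ^ 2 ≤ p.PtN σ t := X.H.le_of_lg (pow_pos X.la0 2) X.Pt0 (by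
  rw [logb_pow]; push_cast; linarith [X.lg_Pt.2.2, X.H.c_pos])

theorem u_Pt : p.u1N σ ≤ p.PtN σ t := X.H.le_of_lg X.u0 X.Pt0 (by
  have := X.lg_Pt.2.2; have := X.hc; have := X.H.c_pos
  rcases X.lg_pl with ⟨_, _, _, _⟩ | ⟨_, _, _, _⟩ <;> linarith)

theorem L00 : 0 < p.L0N σ t := mul_pos (X.H.rp0 _) (div_pos (sqrt_pos.2 X.Pt0) X.la0)

theorem lg_L0 : logb p.n (p.L0N σ t) =
    c / 200 + logb p.n (p.PtN σ t) / 2 - logb p.n (p.laG σ) := by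
  have := X.Pt0; have := X.la0; have := X.H.N0
  rw [Pm.L0N]; lg_norm; rw [X.H.lg_n, X.H.hc]; ring

/-- the factor at which `NR0` is read -/
theorem Λ0 : 0 < max (p.L0N σ t) ((p.n : ℝ) ^ (p.c / 100)) := lt_max_of_lt_left X.L00

theorem lg_Λ : logb p.n (max (p.L0N σ t) ((p.n : ℝ) ^ (p.c / 100))) ≤
    127 / 400 * c + logb p.n (p.sM t) := by
  rw [lg_max X.H.N1 X.L00 (X.H.rp0 _), X.H.lg_rp, X.lg_L0, X.H.hc]
  exact max_le (by linarith [X.lg_Pt.2.1]) (by linarith [X.H.c_pos, X.lg_sM.1])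

theorem V0 : 0 < p.V4N σ t := by
  have := X.u0; have := X.Pt0; have := X.H.N0
  rw [Pm.V4N]; positivity

theorem u_V : p.u1N σ ≤ p.V4N σ t := by
  have := X.u0; have := X.Pt0
  have a : 1 ≤ (p.n : ℝ) ^ (p.c / 20) :=
    one_le_rpow X.H.N1.le (by rw [X.H.hc]; linarith [X.H.c_pos])
  refine le_trans ?_ (le_mul_of_one_le_left (by positivity) a)
  exact le_add_of_nonneg_right (by positivity)

/-- `θ V4 ≤ n^{-c/10} n5` -/
theorem θV : p.muG t * p.V4N σ t ≤ (p.n : ℝ) ^ (-(c / 10)) * n5 p := by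
  have H := X.H
  have := X.u0; have := X.Pt0; have := H.N0; have := X.θ0; have := X.Vc0; have := X.lN0
  have := (lg_n5 H).1
  have n3 := (H.lg_num (x := 3) (by norm_num) (by norm_num)).2
  have := X.hη; have := H.c_pos; have := X.hc; have := H.lg_s.1; have e5 := (lg_n5 H).2
  have e1 := H.lg_n; have ec := H.hc
  have a1 : (p.n : ℝ) ^ (p.c / 20) * (p.muG t * p.u1N σ) ≤ (p.n : ℝ) ^ (-(c / 10)) * n5 p / 3 := by
    refine H.le_of_lg (by positivity) (by positivity) ?_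
    have : logb p.n (p.muG t) + logb p.n (p.u1N σ) ≤ _ := Kn72.lg_θu2 H X.o
    lg_norm; rw [e1, ec]; linarith
  have a2 : (p.n : ℝ) ^ (p.c / 20) * (p.muG t * (p.PtN σ t * p.Vc (nu p σ) ^ 2)) ≤
      (p.n : ℝ) ^ (-(c / 10)) * n5 p / 3 := by
    refine H.le_of_lg (by positivity) (by positivity) ?_
    have := X.lg_θν; have := X.lg_Pt.2.1; have := (Kn72.lg_nu H X.o).1; have := X.lg_sM.2.1
    lg_norm; rw [e1, ec]
    rcases X.lg_pl with ⟨_, _, _, _⟩ | ⟨_, _, _, _⟩ <;> linarith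
  have a3 : (p.n : ℝ) ^ (p.c / 20) * (p.muG t * (p.PtN σ t * p.lN t ^ 2)) ≤
      (p.n : ℝ) ^ (-(c / 10)) * n5 p / 3 := by
    refine H.le_of_lg (by positivity) (by positivity) ?_
    have h := X.hy
    have := H.lg_thetaG h.hη h.hε h.M h.E1 h.E2 X.Ph0 h.up
    have := X.lg_Pt.1; have := lgl H h
    lg_norm; rw [e1, ec]; linarith
  have e : p.muG t * p.V4N σ t = (p.n : ℝ) ^ (p.c / 20) * (p.muG t * p.u1N σ) +
      (p.n : ℝ) ^ (p.c / 20) * (p.muG t * (p.PtN σ t * p.Vc (nu p σ) ^ 2)) +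
      (p.n : ℝ) ^ (p.c / 20) * (p.muG t * (p.PtN σ t * p.lN t ^ 2)) := by
    rw [Pm.V4N]; ring
  linarith

theorem nd : p.muG t * p.V4N σ t ≤ p.dN * n5 p := X.θV.trans (mul_le_mul_of_nonneg_right
  (Pre29.rp_le X.H.n1 (by rw [X.H.hc]; linarith [X.H.c_pos])) (lg_n5 X.H).1.le)

theorem nc : p.muG t * max (p.L0N σ t) ((p.n : ℝ) ^ (p.c / 100)) *
    (p.PtN σ t + p.V4N σ t + p.r ^ 4) ≤ p.dN ^ 2 * n4 p := by
  have H := X.H
  have := X.Pt0; have := X.θ0; have := X.V0; have := H.r0; have := X.d0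
  have := (lg_n4 H).1; have := (lg_n5 H).1
  have n3 := (H.lg_num (x := 3) (by norm_num) (by norm_num)).2
  have := X.hη; have := H.c_pos; have := X.hc; have := H.lg_s; have e4 := (lg_n4 H).2
  have L := X.lg_Λ; have L0 := X.Λ0; have ed := X.lg_d
  obtain ⟨-, s1, s2⟩ := X.lg_sM
  generalize max (p.L0N σ t) ((p.n : ℝ) ^ (p.c / 100)) = Λ at L L0 ⊢
  have a1 : p.muG t * Λ * p.PtN σ t ≤ p.dN ^ 2 * n4 p / 3 := by
    refine H.le_of_lg (by positivity) (by positivity) ?_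
    lg_norm; linarith [X.lg_θla, X.lg_Pt.2.1, this.1]
  have a2 : p.muG t * Λ * p.V4N σ t ≤ p.dN ^ 2 * n4 p / 3 := by
    refine H.le_of_lg (by positivity) (by positivity) ?_
    have b := H.lg_mono (by positivity) X.θV
    rw [logb_mul (H.rp0 _).ne' (lg_n5 H).1.ne', H.lg_rp, (lg_n5 H).2,
      logb_mul X.θ0.ne' X.V0.ne'] at b
    lg_norm; linarith [this.2]
  have a3 : p.muG t * Λ * p.r ^ 4 ≤ p.dN ^ 2 * n4 p / 3 := by
    refine H.le_of_lg (by positivity) (by positivity) ?_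
    lg_norm; linarith [H.lg_r]
  linarith

theorem ne : 2 * (p.lN t ^ 2 / (p.n * p.l0G t (p.lN t) ^ 3)) +
    max (p.L0N σ t) ((p.n : ℝ) ^ (p.c / 100)) / p.n ≤ p.dN * n5 p := by
  have H := X.H
  have h := X.hy
  have := X.lN0; have := l00 (σ := t) (l := p.lN t) H; have := H.N0; have := X.d0
  have := (lg_n5 H).1
  have n4 := (H.lg_num (x := 2) (by norm_num) (by norm_num)).2
  have := X.hη; have := H.c_pos; have := X.hc; have := H.lg_s.1; have e5 := (lg_n5 H).2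
  have L := X.lg_Λ; have L0 := X.Λ0; have ed := X.lg_d
  generalize max (p.L0N σ t) ((p.n : ℝ) ^ (p.c / 100)) = Λ at L L0 ⊢
  have a1 : 2 * (p.lN t ^ 2 / (p.n * p.l0G t (p.lN t) ^ 3)) ≤ p.dN * n5 p / 2 := by
    refine H.le_of_lg (by positivity) (by positivity) ?_
    lg_norm; linarith [H.lg_n, lgl H h, (ex H h).e (up H h le_rfl)]
  have a2 : Λ / p.n ≤ p.dN * n5 p / 2 := by
    refine H.le_of_lg (by positivity) (by positivity) ?_
    lg_norm; linarith [H.lg_n, X.lg_sM.2.1]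
  linarith

theorem Pb0 (hx : 0 < x) : 0 < p.PbN t x := by
  have := X.d0; have := X.H.msG_pos X.Mt x; have := (lg_n4 X.H).1
  rw [Pm.PbN]; positivity

theorem lg_Pb' (hx : 0 < x) : logb p.n (p.PbN t x) =
    -(c / 2000) - 2 / 3 + 4 * logb p.n p.s + logb p.n x - logb p.n (p.msG t x) -
      max 0 (8 / 25 * c + logb p.n (p.sM t) + max (logb p.n (p.msG t x) - logb p.n (p.muG t))
        (logb p.n (p.muG t) + 2 * logb p.n x - logb p.n (p.msG t x))) := by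
  have H := X.H
  have := H.N0; have := X.θ0; have := H.msG_pos X.Mt x; have := (lg_n4 H).1
  have := X.d0; have := X.sM0
  have b1 : 0 < p.msG t x / p.muG t := by positivity
  have b2 : 0 < p.muG t * x ^ 2 / p.msG t x := by positivity
  have b3 := lt_max_of_lt_left (c := p.muG t * x ^ 2 / p.msG t x) b1
  have e1 : logb p.n (p.msG t x / p.muG t) = logb p.n (p.msG t x) - logb p.n (p.muG t) := by
    lg_norm
  have e2 : logb p.n (p.muG t * x ^ 2 / p.msG t x) =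
      logb p.n (p.muG t) + 2 * logb p.n x - logb p.n (p.msG t x) := by lg_norm
  rw [Pm.PbN, logb_div (by positivity) (by positivity), logb_mul (by positivity) hx.ne',
    logb_mul (by positivity) (by positivity), logb_mul (by positivity) (by positivity),
    lg_max H.N1 one_pos (by positivity), logb_mul (by positivity) b3.ne', lg_max H.N1 b1 b2, e1, e2,
    logb_mul (by positivity) (by positivity), H.lg_rp, logb_one, logb_pow, X.lg_d, (lg_n4 H).2,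
    H.hc]
  push_cast; ring

theorem lg_Pb (hx : 0 < x) :
    logb p.n (p.PbN t x) ≤ -(c / 2000) - 2 / 3 + 4 * logb p.n p.s + logb p.n x -
      logb p.n (p.msG t x) ∧
    logb p.n (p.PbN t x) ≤ -(c / 2000) - 2 / 3 + 4 * logb p.n p.s + logb p.n x -
      2 * logb p.n (p.msG t x) - 8 / 25 * c - logb p.n (p.sM t) + logb p.n (p.muG t) ∧
    logb p.n (p.PbN t x) ≤ -(c / 2000) - 2 / 3 + 4 * logb p.n p.s - logb p.n x - 8 / 25 * c -
      logb p.n (p.sM t) - logb p.n (p.muG t) := by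
  rw [X.lg_Pb' hx]
  have a1 := le_max_left (logb p.n (p.msG t x) - logb p.n (p.muG t))
    (logb p.n (p.muG t) + 2 * logb p.n x - logb p.n (p.msG t x))
  have a2 := le_max_right (logb p.n (p.msG t x) - logb p.n (p.muG t))
    (logb p.n (p.muG t) + 2 * logb p.n x - logb p.n (p.msG t x))
  generalize max (logb p.n (p.msG t x) - logb p.n (p.muG t))
    (logb p.n (p.muG t) + 2 * logb p.n x - logb p.n (p.msG t x)) = y at a1 a2 ⊢
  have a3 := le_max_left 0 (8 / 25 * c + logb p.n (p.sM t) + y)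
  have a4 := le_max_right 0 (8 / 25 * c + logb p.n (p.sM t) + y)
  refine ⟨?_, ?_, ?_⟩ <;> linarith

theorem lo_pos : 0 < (p.n : ℝ) ^ (p.c / 2000) * p.lN t := mul_pos (X.H.rp0 _) X.lN0

theorem l_lo : p.lN t ≤ (p.n : ℝ) ^ (p.c / 2000) * p.lN t := le_mul_of_one_le_left X.lN0.le
  (one_le_rpow X.H.N1.le (by rw [X.H.hc]; linarith [X.H.c_pos]))

theorem P0 (x : ℝ) : 0 < p.PN t x ∧ p.PN t x ≤ p.PhN t := by
  rw [Pm.PN]
  split_ifs with h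
  · exact ⟨X.Ph0, le_rfl⟩
  · exact ⟨lt_min X.Ph0 (X.Pb0 (X.lo_pos.trans (not_le.1 h))), min_le_left _ _⟩

omit X in
theorem P_lo (h : x ≤ (p.n : ℝ) ^ (p.c / 2000) * p.lN t) : p.PN t x = p.PhN t := if_pos h

omit X in
theorem P_hi (h : (p.n : ℝ) ^ (p.c / 2000) * p.lN t < x) : p.PN t x ≤ p.PbN t x := by
  rw [Pm.PN, if_neg (not_le.2 h)]; exact min_le_right _ _

/-- lines `b`, `i`, `j`; `x ≤ n^η` -/
theorem bij (h0 : p.l0G t (p.lN t) ≤ x) (h1 : x ≤ (p.n : ℝ) ^ η) :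
    p.msG t x * p.PN t x * max x (p.lN t) ^ 3 / x ^ 4 ≤ p.dN ^ 2 * n4 p ∧
    p.muG t * max (p.L0N σ t) ((p.n : ℝ) ^ (p.c / 100)) * (x * p.PN t x) ≤ p.dN ^ 2 * n4 p ∧
    max (p.L0N σ t) ((p.n : ℝ) ^ (p.c / 100)) * p.msG t x ^ 2 * p.PN t x / x ≤
      p.muG t * (p.dN ^ 2 * n4 p) := by
  have H := X.H
  have h := X.hy
  have x0 := (l00 H).trans_le h0
  have := X.hη; have := H.c_pos; have := X.hc; have := H.η_pos
  have L := X.lg_Λ; have L0 := X.Λ0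
  generalize max (p.L0N σ t) ((p.n : ℝ) ^ (p.c / 100)) = Λ at L L0 ⊢
  rcases le_or_gt x ((p.n : ℝ) ^ (p.c / 2000) * p.lN t) with q | q
  · have b := b_low H h (X.P0 x).2 h0 (q.trans (mul_le_mul_of_nonneg_right
      (Pre29.rp_le H.n1 (by rw [H.hc]; linarith)) X.lN0.le))
    have q' := H.lg_mono x0 q
    rw [logb_mul (H.rp0 _).ne' X.lN0.ne', H.lg_rp, lgl H h, H.hc] at q'
    have w := (H.lg_PhG_bds h.hη h.hε h.M h.E1 h.E2).2
    have P := (X.P0 x).1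
    have := X.θ0; have := H.msG_pos X.Mt x; have := (lg_n4 H).1; have := X.d0
    have e4 := (lg_n4 H).2; have ed := X.lg_d
    have P1 := H.lg_mono P (X.P0 x).2
    have bw := H.lg_mono (by positivity) (Nr67.b_weak (by positivity) P.le x0 b)
    obtain ⟨-, s1, s2⟩ := X.lg_sM
    refine ⟨b, H.le_of_lg (by positivity) (by positivity) ?_,
      H.le_of_lg (by positivity) (by positivity) ?_⟩
    · lg_norm
      linarith [(ex H h).i (Λ := logb p.n Λ) (by linarith) (by linarith)]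
    · revert bw
      lg_norm
      intro bw
      obtain ⟨m1, m2⟩ := ms H h (r0.trans h0)
      have := H.lg_s.2; have := X.lg_Ph
      rcases (H.lg_muG66 X.Mt).1 with m | m <;> linarith
  · have P := (X.P0 x).1
    have a := H.lg_mono P (P_hi q)
    obtain ⟨b1, b2, b3⟩ := X.lg_Pb x0
    have := X.θ0; have := H.msG_pos X.Mt x; have := (lg_n4 H).1; have := X.d0
    have e4 := (lg_n4 H).2; have ed := X.lg_d
    have u := H.lg_le x0 h1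
    obtain ⟨s0, s1, s2⟩ := X.lg_sM
    rw [max_eq_left (X.l_lo.trans q.le)]
    refine ⟨H.le_of_lg (by positivity) (by positivity) ?_,
      H.le_of_lg (by positivity) (by positivity) ?_, H.le_of_lg (by positivity) (by positivity) ?_⟩
    · lg_norm; linarith
    · lg_norm; linarith
    · lg_norm; linarith

variable {K' c0' C0' η' : ℝ} {Q : Pl}

omit X in
theorem T0_le (G : GrD K' c0' C0' η' p σ t Q) : T0 (p.scG K' σ t Q) (p.gst Q t) ≤ 8 * K' ^ 2 := by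
  have a := (G.cl.1.sm G.cl.1.i3).trans G.cl.1.sT
  have b : (p.scG K' σ t Q).C = 8 * K' ^ 2 := rfl
  have := sq_nonneg K'
  rw [T0]; linarith

theorem nr0 (G : GrD K' c0' C0' η' p σ t Q) (hK : 8 * K' ^ 2 ≤ (p.n : ℝ) ^ η) :
    Nr67.NR0 p.dN⁻¹ p.dN p (p.scG K' σ t Q) (p.gst Q t) (p.lN t) (p.PhN t) (p.PN t)
      (p.l0G t (p.lN t)) (max (p.L0N σ t) ((p.n : ℝ) ^ (p.c / 100))) (p.PtN σ t) (p.u1N σ)
      (p.V4N σ t) := by
  have H := X.H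
  have h := X.hy
  have hθ : (p.scG K' σ t Q).θ = p.muG t := G.top
  have hT := (T0_le G).trans hK
  have := X.hη; have := H.c_pos; have := X.hc; have := H.η_pos
  have di : p.dN⁻¹ = (p.n : ℝ) ^ (p.c / 4000) := by rw [Pm.dN, rpow_neg H.N0.le, inv_inv]
  have d1 : p.dN ≤ 1 := rpow_le_one_of_one_le_of_nonpos H.N1.le (by rw [H.hc]; linarith)
  refine ⟨X.l3, r0, (jl H G (by linarith)).trans r0, X.l0l, ly H h,
    fun x a _ => w0 H X.Mt h.hc a, fun x => ⟨(X.P0 x).1.le, (X.P0 x).2⟩,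
    fun x a => P_lo (a.trans X.l_lo), le_max_of_le_right (one_le_rpow H.N1.le (by
      rw [H.hc]; linarith)), ⟨X.u0.le, X.u_Pt, min_le_left _ _, X.u_V⟩, a H h,
    fun x a b => (X.bij a (b.trans hT)).1, hθ ▸ X.nc, hθ ▸ X.nd, X.ne, fun x a _ => f H h a,
    fun x a b => hθ ▸ (X.bij a (b.trans hT)).2.1, fun x a b => hθ ▸ (X.bij a (b.trans hT)).2.2,
    fun x a b => ?_, ?_⟩
  · have x0 := (l00 H).trans_le a
    rw [hθ, di]
    refine Nr67.k H X.Mt X.lN0 ((ly H h).trans (mul_le_of_le_one_left H.ye0.le d1)) (r0.trans a)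
      (H.le_of_lg X.lN0 (mul_pos (H.rp0 _) x0) ?_) (by linarith [X.big])
      (H.le_of_lg (pow_pos x0 2) (H.rp0 _) ?_)
    · rw [logb_mul (H.rp0 _).ne' x0.ne', H.lg_rp, lgl H h]; linarith [(up H h a).u2]
    · rw [logb_pow, H.lg_rp, H.hc]; push_cast; linarith [H.lg_le x0 (b.trans hT)]
  · rw [hθ]
    exact Nr67.l5 H h.hη h.hε h.M h.E1 h.E2 X.lN0 (X.l3.trans_le h.up)
      (Pre29.rp_le H.n1 (by rw [H.hc]; linarith))

/-- **the table `NR` at the numbers of `NbD_29`** -/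
theorem nr (G : GrD K' c0' C0' η' p σ t Q) (hK : 8 * K' ^ 2 ≤ (p.n : ℝ) ^ η) :
    NR p.dN⁻¹ p.dN p (p.scG K' σ t Q) (p.gst Q t) (p.lN t) (p.PhN t) (p.PN t)
      (p.l0G t (p.lN t)) (p.L2N σ t) (p.PtN σ t) (p.u1N σ) (p.V4N σ t) := by
  have H := X.H
  have h := X.hy
  have hθ : (p.scG K' σ t Q).θ = p.muG t := G.top
  have := X.hη; have := H.c_pos; have := H.η_pos
  have d3 : p.dN ≤ 1 / 3 := by
    rw [Pm.dN, rpow_neg H.N0.le, one_div]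
    exact inv_anti₀ (by norm_num) (by linarith [X.big])
  have hT : T0 (p.scG K' σ t Q) (p.gst Q t) * p.ye ≤ 1 := by
    refine (mul_le_mul_of_nonneg_right ((T0_le G).trans hK) H.ye0.le).trans ?_
    refine H.le_of_lg (mul_pos (H.rp0 _) H.ye0) one_pos ?_
    rw [logb_mul (H.rp0 _).ne' H.ye0.ne', H.lg_rp, H.lg_ye, logb_one]; linarith
  have k := (X.nr0 G hK).lift H h.hη h.hε h.M h.E1 h.E2 h.up h.hδ d3 hθ (fun _ => rfl) hT
    (le_max_of_le_right (Pre29.rp_le H.n1 (by rw [H.hc]; linarith)))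
  rw [hθ] at k
  exact k


end Cx

end Crest.Agent.T156.Alt.Nr44

end
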