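import Crest.Agent.T156.TL2D_63
import Crest.Agent.T156.LPx_13
import Crest.Agent.T156.LKc_37
import Crest.Agent.T156.KnP_17
import Crest.Agent.T156.NRn_44
import Crest.Agent.T156.R1Loc_77

/-!
# Row 156 (helper43): the frame of `L63.Hy` on the graded path (`ce`, `ap`, `jg`)
-/

set_option autoImplicit false
set_option linter.all false

noncomputable section

namespace Crest.Agent.T156.Alt.Hy43

open Real Finset
open Crest.Agent.T156.Alt.L69 Crest.Agent.T156.Alt.L63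

section cl

variable {S : Sc} {M : Md} {m : ℕ} {a : ℝ}

theorem term_nn (c : Cl S M) (f : ℕ → ℝ) (k : ℕ) : 0 ≤ (M.z k - M.z (k - 1)) * |f k| ^ 2 :=
  mul_nonneg (sub_nonneg.2 (c.leg.zm (Nat.sub_le k 1))) (sq_nonneg _)

/-- every block is a part of `Φ` -/
theorem En_le (c : Cl S M) (t t' : ℝ) : M.En S m a M.q 2 t t' ≤ Phi M S m a := by
  unfold Phi Md.En Md.blk
  exact sum_le_sum_of_subset_of_nonneg (fun k hk => by
    have h := (mem_filter.1 hk).1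
    exact mem_filter.2 ⟨h, c.s_nn k, c.s_le_C (mem_Ioc.1 h).2⟩)
    fun k _ _ => term_nn c (fun k => M.rb m a k - M.q k) k





end cl

variable {β c0 C0 c0' C0' η' : ℝ} {A : ℕ} {c η K K' : ℝ} {p : Pm} {σ t : ℝ} {Q : Pl} {m : ℕ}
  {a E l0 l X Xp Vt u1 u2 j Lg ℓ : ℝ}

/-- **`Hy.ce`** -/
theorem ce (G : GrD K' c0' C0' η' p σ t Q) : CeiG (p.scG K' σ t Q) (p.gst Q t) 0 :=
  G.cl.2.toG G.cl.1

theorem phi (G : GrD K' c0' C0' η' p σ t Q) :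
    Phi (p.gst Q t) (p.scG K' σ t Q) m a = (p.gst Q t).Phi (p.scG K' σ t Q) m a :=
  Lk37.phi_eq G.cl.1 rfl

variable (H : Reg β c0 C0 A c η K p) (o : p.OctR σ t) (G : GrD K' c0' C0' η' p σ t Q)
include H o G

/-- **`Ap.jn`** -/
theorem jn (hx : p.laG σ ^ 2 ≤ Xp) (hu : 0 < u1) : Jn (p.scG K' σ t Q) (p.gst Q t) Xp u1 := by
  obtain ⟨a1, a2, a3, a4⟩ := Lx13.jn_gst H o G
  exact ⟨a1, a2, a3.trans_le hx, fun k h _ h' => (a4 k h (hu.trans_le h')).2⟩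

omit o G in
theorem m0 (h : (p.scG K' σ t Q).In m a) : 0 < m := H.n0.trans_le h.m1


/-- the residual sums -/
theorem G_le (P : p.PlX σ t Q) (hK : 5 * (406 + 8 * K') ≤ (p.n : ℝ) ^ η) (x y : ℝ) :
    GS (p.gst Q t) (p.scG K' σ t Q) x y + GP (p.gst Q t) (p.scG K' σ t Q) ≤
      ((p.n : ℝ) ^ η * (p.muG t * p.laG σ)) ^ 2 := by
  have x := Plt13.xk_of H o G P
  refine ((Lx13.G_le G _ _).trans x.g2).trans ?_
  have K1 := G.nb.K1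
  have l0 : 0 ≤ log p.n := by linarith [H.log1]
  change 5 * (406 + 8 * K') * (p.muG t ^ 2 * (p.laG σ ^ 2 * log p.n)) ≤ _
  have := mul_le_mul_of_nonneg_right (mul_le_mul hK H.log_le l0 H.Λ0.le)
    (sq_nonneg (p.muG t * p.laG σ))
  nlinarith

/-- **`Ap.j0`** in exponents -/
theorem j0 (P : p.PlX σ t Q) (hK : 5 * (406 + 8 * K') ≤ (p.n : ℝ) ^ η) (X0 : 0 < X) (l00 : 0 < l0)
    (j00 : 0 < j) (k1 : logb p.n X / 2 + η ≤ logb p.n j)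
    (k2 : logb p.n (p.muG t) + logb p.n (p.laG σ) + 2 * η ≤ logb p.n j)
    (k3 : 2 * logb p.n l0 + η ≤ logb p.n j) :
    √X + √(GS (p.gst Q t) (p.scG K' σ t Q) 0 (p.scG K' σ t Q).C +
      GP (p.gst Q t) (p.scG K' σ t Q)) + l0 ^ 2 ≤ j := by
  have a0 := H.N0
  have a1 := H.muG_pos (Gr29.oct_mem o).2
  have a2 := H.laG0 (Gr29.oct_mem o).1
  have n3 := (H.lg_num (x := 3) (by norm_num) (by norm_num)).2
  have b := sqrt_le_left (by positivity) |>.2 (G_le H o G P hK 0 (p.scG K' σ t Q).C)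
  have b1 : 3 * √X ≤ j := H.le_of_lg (by positivity) j00 (by lg_norm; linarith)
  have b2 : 3 * ((p.n : ℝ) ^ η * (p.muG t * p.laG σ)) ≤ j :=
    H.le_of_lg (by positivity) j00 (by lg_norm; rw [H.lg_n]; linarith)
  have b3 : 3 * l0 ^ 2 ≤ j := H.le_of_lg (by positivity) j00 (by lg_norm; linarith)
  linarith

/-- the lines of the frame: exponents of `E, l0, X, Xp, j, Lg, ℓ, θ, la` -/
structure FL (η e a0 φ φp ι L lam μ al : ℝ) : Prop where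
  j1 : φ / 2 + η ≤ ι
  j2 : μ + al + 2 * η ≤ ι
  j3 : 2 * a0 + η ≤ ι
  la : 2 * al ≤ φp
  jg : e + ι ≤ L + lam

/-- **`Hy.ap`** -/
theorem ap (P : p.PlX σ t Q) (hK : 5 * (406 + 8 * K') ≤ (p.n : ℝ) ^ η)
    (hΦ : (p.gst Q t).Phi (p.scG K' σ t Q) m a ≤ X)
    (top : X ≤ Xp ∨ (p.gst Q t).En (p.scG K' σ t Q) m a (p.gst Q t).q 2
      ((p.gst Q t).s (p.scG K' σ t Q).J / 2) (p.scG K' σ t Q).C ≤ Xp)
    (vt : ∀ k, (p.scG K' σ t Q).J ≤ k → k ≤ (p.scG K' σ t Q).Jp → u1 ≤ du (p.gst Q t) k →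
      (p.gst Q t).del m a k ≤ Vt)
    (X0 : 0 < X) (Xp0 : 0 < Xp) (l00 : 0 < l0) (j00 : 0 < j) (hu : 0 < u1) {e L lam : ℝ}
    (F : FL η e (logb p.n l0) (logb p.n X) (logb p.n Xp) (logb p.n j) L lam
      (logb p.n (p.muG t)) (logb p.n (p.laG σ))) :
    Ap (p.scG K' σ t Q) (p.gst Q t) m a l0 X Xp Vt u1 j := by
  have a2 := H.laG0 (Gr29.oct_mem o).1
  have h := (phi G).trans_le hΦ
  exact ⟨h, top.elim (fun e => ((En_le G.cl.1 _ _).trans h).trans e) id, vt,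
    j0 H o G P hK X0 l00 j00 F.j1 F.j2 F.j3,
    jn H o G (H.le_of_lg (by positivity) Xp0 (by lg_norm; linarith [F.la])) hu⟩

/-- **`Hy` on the graded path** (`G1 = 0`, `γ = 0`) -/
theorem hy (P : p.PlX σ t Q) (hK : 5 * (406 + 8 * K') ≤ (p.n : ℝ) ^ η)
    {Lc ηc τ Lp X2 X3 X4 G0 N t1 tu En p0 : ℝ} {et g : ℝ → ℝ}
    (hΦ : (p.gst Q t).Phi (p.scG K' σ t Q) m a ≤ X)
    (top : X ≤ Xp ∨ (p.gst Q t).En (p.scG K' σ t Q) m a (p.gst Q t).q 2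
      ((p.gst Q t).s (p.scG K' σ t Q).J / 2) (p.scG K' σ t Q).C ≤ Xp)
    (vt : ∀ k, (p.scG K' σ t Q).J ≤ k → k ≤ (p.scG K' σ t Q).Jp → u1 ≤ du (p.gst Q t) k →
      (p.gst Q t).del m a k ≤ Vt)
    (E0 : 0 < E) (l00 : 0 < l0) (j00 : 0 < j) (hu : 0 < u1) (L0 : 0 < Lg) (ℓ0 : 0 < ℓ)
    (F : FL η (logb p.n E) (logb p.n l0) (logb p.n X) (logb p.n Xp) (logb p.n j) (logb p.n Lg)
      (logb p.n ℓ) (logb p.n (p.muG t)) (logb p.n (p.laG σ)))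
    (ln : LN E (p.scG K' σ t Q) (p.gst Q t) l0 l (X ^ ((1 : ℝ) / 3)) X Lg X2 X3 G0 et)
    (lp : LP E (p.scG K' σ t Q) (p.gst Q t) Xp Vt Lg Lp X2 X3 G0 0 u1 u2 j 0 Lc ηc τ et N)
    (lt : LT2 E (p.scG K' σ t Q) (p.gst Q t) l0 l X Xp Lg X2 X4 g t1 tu ℓ N En p0 et) :
    Hy E (p.scG K' σ t Q) (p.gst Q t) m a 0 u1 u2 j 0 Lc ηc τ l0 l X Xp Vt Lg Lp X2 X3 X4 G0 et N g
      t1 tu ℓ En p0 :=
  ⟨ce G, ln, lp, ap H o G P hK hΦ top vt ln.X0 lp.Xp0.1 l00 j00 hu F, lt, by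
    rw [add_zero]
    exact H.le_of_lg (by positivity) (by positivity) (by lg_norm; exact F.jg)⟩

end Crest.Agent.T156.Alt.Hy43

end
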