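import Crest.Agent.T156.SRDef_19
import Crest.Agent.T156.CeiG_88

/-!
# Row 156, SR: the auxiliary models are members of the class (helper29)
-/

set_option autoImplicit false

noncomputable section

namespace Crest.Agent.T156.Alt.Sr.M29

open Real Finset Filter Pre29
open Crest.Agent.T156.Alt.Gu71 (sh sh_G sh_e sh_leg)

/-- a Lipschitz sequence with small weighted `ℓ²` norm is small -/
theorem sup_of_lip {φ ω : ℕ → ℝ} {k w : ℕ} {L d h : ℝ} {T : Finset ℕ} (hd : 0 < d) (hh : 0 ≤ h)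
    (hL0 : 0 ≤ L) (hT : Icc k (k + w) ⊆ T) (hω0 : ∀ j ∈ T, 0 ≤ ω j)
    (hω : ∀ j ∈ Icc k (k + w), d ≤ ω j) (hL : ∀ j, k ≤ j → j < k + w → |φ (j + 1) - φ j| ≤ L)
    (hw : w * L ≤ h / 2) (hB : ∑ j ∈ T, ω j * φ j ^ 2 ≤ (w + 1) * (d * (h / 2) ^ 2)) :
    |φ k| ≤ h := by
  by_contra hc
  rw [not_le] at hc
  have a : ∀ j ∈ Icc k (k + w), d * (h / 2) ^ 2 < ω j * φ j ^ 2 := fun j hj => by
    obtain ⟨j1, j2⟩ := mem_Icc.1 hj
    have b1 := tel_le (f := φ) j1 fun i a b => (abs_le.1 (hL i a (b.trans_le j2))).2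
    have b2 := tel_ge (f := φ) j1 fun i a b => (abs_le.1 (hL i a (b.trans_le j2))).1
    have b3 : ((j : ℝ) - k) * L ≤ w * L := mul_le_mul_of_nonneg_right (by
      have : (j : ℝ) ≤ (k + w : ℕ) := Nat.cast_le.2 j2
      push_cast at this
      linarith) hL0
    have b4 : |φ j - φ k| ≤ h / 2 := abs_le.2 ⟨by linarith, by linarith⟩
    have b5 : h / 2 < |φ j| := by linarith [abs_sub_abs_le_abs_sub (φ k) (φ j), abs_sub_comm (φ k) (φ j)]
    have b6 := pow_lt_pow_left₀ b5 (by linarith) two_ne_zero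
    rw [sq_abs] at b6
    exact (mul_lt_mul_of_pos_left b6 hd).trans_le
      (mul_le_mul_of_nonneg_right (hω j hj) (sq_nonneg _))
  have b := sum_lt_sum_of_nonempty ⟨k, left_mem_Icc.2 (Nat.le_add_right k w)⟩ a
  rw [sum_const, Nat.card_Icc, nsmul_eq_mul, show k + w + 1 - k = w + 1 by omega] at b
  have c := sum_le_sum_of_subset_of_nonneg hT (f := fun j => ω j * φ j ^ 2)
    fun j hj _ => mul_nonneg (hω0 j hj) (sq_nonneg _)
  push_cast at b
  linarith

/-- a one-sided bound on a window of weight `ρ` -/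
theorem le_of_win {φ ω : ℕ → ℝ} {x B ρ : ℝ} {U T : Finset ℕ} (hρ : 0 < ρ) (hB : 0 ≤ B) (hT : U ⊆ T)
    (hω0 : ∀ j ∈ T, 0 ≤ ω j) (hU : ρ ≤ ∑ j ∈ U, ω j) (hx : ∀ j ∈ U, x ≤ |φ j|)
    (h : ∑ j ∈ T, ω j * φ j ^ 2 ≤ B ^ 2) : x ≤ B / √ρ := by
  rcases le_total x 0 with x0 | x0
  · exact x0.trans (by positivity)
  have a : ∑ j ∈ U, ω j * x ^ 2 ≤ ∑ j ∈ U, ω j * φ j ^ 2 := sum_le_sum fun j hj =>
    mul_le_mul_of_nonneg_left (by rw [← sq_abs (φ j)]; exact pow_le_pow_left₀ x0 (hx j hj) 2)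
      (hω0 j (hT hj))
  have c := sum_le_sum_of_subset_of_nonneg hT (f := fun j => ω j * φ j ^ 2)
    fun j hj _ => mul_nonneg (hω0 j hj) (sq_nonneg _)
  rw [← sum_mul] at a
  have e := mul_le_mul_of_nonneg_right hU (sq_nonneg x)
  rw [le_div_iff₀ (sqrt_pos.2 hρ)]
  refine abs_le_of_sq_le_sq' ?_ hB |>.2
  rw [mul_pow, sq_sqrt hρ.le]
  linarith

/-- what may be used about the numbers -/
structure Cx (E : ℝ) (S : Sc) (M : Md) (l Ys Y : ℝ) : Prop where
  cl : Cl S M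
  sh : SH E S M l Ys Y
  A2 : 2 ≤ S.A
  n3 : 3 ≤ S.n
  CE : 1000 * S.C ^ 4 ≤ E
  lgE : 2 * log S.n ≤ E
  Clg : 2 * S.C ≤ log S.n

/-- **introduction rule** for the prefix `SR` -/
theorem intro {Q : ℝ → ℝ → Sc → Md → ℕ → ℝ → ℝ → (ℕ → ℝ) → ℝ → Prop} (K : ℝ → ℝ)
    (h : ∀ E Λ S M m a l Ys Y c D, Cx E S M l Ys Y → K S.C ≤ E → K S.C * log S.n ≤ Λ → 1 ≤ Λ →
      S.In m a → VarH E S M m a Y → Ax E S M Y c → Dr E S D → Q E Λ S M m a Y c D) : SR Q := by
  intro C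
  filter_upwards [eventually_ge_atTop 2] with A hA ε hε η hη
  filter_upwards [ev_rgc C hA (half_pos hε) (max (K C) (1000 * C ^ 4)),
    ev_rgc C hA (half_pos hη) (K C)] with n G G' S M b1 b2 b3 b4 m a b5 l Ys Y c D h1 h2 h3 h4
  replace G := G S b1 b2 b3
  replace G' := G' S b1 b2 b3
  subst b1 b2 b3
  have e : ∀ x : ℝ, (S.n : ℝ) ^ x = (S.n : ℝ) ^ (x / 2) * (S.n : ℝ) ^ (x / 2) := fun x => by
    rw [← rpow_add G.N0, add_halves]
  have a1 : (S.n : ℝ) ^ (ε / 2) ≤ (S.n : ℝ) ^ ε := rp_le G.n1 (by linarith)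
  refine h _ _ S M m a l Ys Y c D ⟨b4, h1, hA, G.n3, ((le_max_right _ _).trans G.K_le).trans a1, ?_,
    G.C_log⟩ (((le_max_left _ _).trans G.K_le).trans a1) ?_ (one_le_rpow G.N1.le hη.le) b5 h2 h3 h4
  · rw [e ε]
    exact mul_le_mul (le_trans (by norm_num) G.num_le) G.log_le (by linarith [G.log1]) (G.rp0 _).le
  · rw [e η]
    exact mul_le_mul G'.K_le G'.log_le (by linarith [G.log1]) (G.rp0 _).le

theorem ct_lo (M : Md) {S : Sc} {k : ℕ} (h : k ≤ S.jl) : M.ct S k = 0 := if_pos h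

theorem ct_mid {M : Md} {S : Sc} (H : Cl S M) {k : ℕ} (h : S.jl < k) (h' : k ≤ S.Jp) :
    M.ct S k = M.ck k := by
  rw [Md.ct, if_neg h.not_ge, min_eq_left h', min_eq_left (h'.trans H.i4.le), sub_self, add_zero]

theorem ct_hi {M : Md} {S : Sc} (H : Cl S M) {k : ℕ} (h : S.Jp ≤ k) :
    M.ct S k = M.ck S.Jp + (M.q (min k M.N) - M.q S.Jp) := by
  rw [Md.ct, if_neg (H.jl_lt.trans_le (H.i3.trans h)).not_ge, min_eq_right h]

theorem dx_nn {M : Md} {S : Sc} (H : Cl S M) (k : ℕ) : 0 ≤ M.dx k :=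
  sub_nonneg.2 (H.leg.zm (Nat.sub_le k 1))

theorem dx_ge {M : Md} {S : Sc} (H : Cl S M) {k : ℕ} (h : S.j0 < k) (h' : k < S.J) :
    S.v / S.C ≤ M.dx k := by
  have := (H.zs (k - 1) (by omega) (by omega)).1
  rwa [Nat.sub_add_cancel (by omega)] at this

theorem sum_dx (M : Md) {i j : ℕ} (h : i ≤ j) : ∑ k ∈ Ioc i j, M.dx k = M.z j - M.z i := by
  induction h with
  | refl => simp
  | @step j h ih =>
    rw [sum_Ioc_succ_top h, ih, Md.dx, Nat.add_sub_cancel]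
    ring

namespace Cx

variable {E : ℝ} {S : Sc} {M : Md} {l Ys Y : ℝ} (X : Cx E S M l Ys Y)
include X

theorem N1 : (1 : ℝ) ≤ S.n := by exact_mod_cast X.cl.n1
theorem C4 : S.C ≤ S.C ^ 4 := le_self_pow₀ X.cl.C1 (by norm_num)
theorem C2 : S.C ^ 2 ≤ S.C ^ 4 := pow_le_pow_right₀ X.cl.C1 (by norm_num)
theorem CE1 : 1000 * S.C ≤ E := by linarith [X.CE, X.C4]
theorem CE2 : 1000 * S.C ^ 2 ≤ E := by linarith [X.CE, X.C2]
theorem E3 : 1000 ≤ E := by linarith [X.CE1, X.cl.C1]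
theorem E1 : 1 ≤ E := by linarith [X.E3]
theorem E0 : 0 < E := by linarith [X.E3]
theorem Ep {i j : ℕ} (h : i ≤ j) : E ^ i ≤ E ^ j := pow_le_pow_right₀ X.E1 h
theorem E_le {j : ℕ} (h : 1 ≤ j) : E ≤ E ^ j := le_self_pow₀ X.E1 (by omega)
theorem log1 : 1 ≤ log (S.n : ℝ) := by linarith [X.Clg, X.cl.C1]
theorem Y0 : 0 < Y := (rp_pos X.cl.n1 _).trans_le X.sh.Y0
theorem nu0 : 0 < nu S := rp_pos X.cl.n1 _
theorem W0 : 0 < Y ^ ((1 : ℝ) / 3) := rpow_pos_of_pos X.Y0 _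
theorem W3 : (Y ^ ((1 : ℝ) / 3)) ^ 3 = Y := by
  rw [← rpow_natCast, ← rpow_mul X.Y0.le]
  norm_num

theorem Cθ : S.C * S.θ ≤ 1 / 4 := by
  linarith [mul_le_mul_of_nonneg_right X.Clg X.cl.θ0.le, X.sh.th1]

theorem EY : E ^ 200 * Y ≤ 1 :=
  X.sh.Y1.trans (rpow_le_one_of_one_le_of_nonpos X.N1 (by norm_num))

theorem nuE : E ^ 100 * nu S ≤ 1 := by
  have a := (mul_le_mul_of_nonneg_left X.sh.Y0 (pow_pos X.E0 200).le).trans X.sh.Y1
  have b : nu S ^ 2 * (S.n : ℝ) ^ (-(1 : ℝ) / 10) ≤ (S.n : ℝ) ^ (-(1 : ℝ) / 2) := by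
    rw [nu, rp_pow, ← rpow_add X.cl.N0]
    exact rp_le X.cl.n1 (by norm_num)
  have c := rp_pos X.cl.n1 (-(1 : ℝ) / 2)
  refine abs_le_of_sq_le_sq' ?_ zero_le_one |>.2
  refine le_of_mul_le_mul_right ?_ c
  nlinarith [mul_le_mul_of_nonneg_left a (sq_nonneg (nu S))]

theorem WE : E ^ 66 * Y ^ ((1 : ℝ) / 3) ≤ 1 := by
  refine le_of_pow_le_pow_left₀ three_ne_zero zero_le_one ?_
  rw [mul_pow, X.W3, ← pow_mul, one_pow]
  exact (mul_le_mul_of_nonneg_right (X.Ep (by norm_num)) X.Y0.le).trans X.EY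

theorem sjl_le : M.s S.jl ≤ Y ^ ((1 : ℝ) / 3) :=
  X.sh.jl.trans (le_of_pow_le_pow_left₀ three_ne_zero X.W0.le (X.sh.l3.trans X.W3.ge))

theorem u0_le : S.u0 ≤ Y ^ ((1 : ℝ) / 3) :=
  le_of_pow_le_pow_left₀ three_ne_zero X.W0.le (X.sh.u0.2.trans X.W3.ge)

theorem v_le : S.v ≤ S.C * nu S := by
  have a : (S.n : ℝ) ^ ((1 : ℝ) / 3) ≤ (S.n : ℝ) ^ S.A := by
    rw [← rpow_natCast]
    have : (2 : ℝ) ≤ S.A := by exact_mod_cast X.A2
    exact rp_le X.cl.n1 (by linarith)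
  have b := (mul_le_mul_of_nonneg_left a X.cl.v0.le).trans X.cl.v2
  have c : (S.n : ℝ) ^ ((1 : ℝ) / 3) * nu S = 1 := by
    rw [nu, ← rpow_add X.cl.N0]
    norm_num
  have d := mul_le_mul_of_nonneg_right b X.nu0.le
  rwa [mul_assoc, c, mul_one] at d

/-- the mesh is far below the first mark -/
theorem v_sjl : E ^ 59 * S.v ≤ M.s S.jl := by
  have x0 := rp_pos X.cl.n1 (-(1 : ℝ) / 6)
  have e : nu S = ((S.n : ℝ) ^ (-(1 : ℝ) / 6)) ^ 2 := by rw [nu, rp_pow]; norm_num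
  have a := X.nuE
  have r := X.sh.rt
  have v := X.v_le
  rw [e] at a v
  generalize (S.n : ℝ) ^ (-(1 : ℝ) / 6) = x at *
  have E0 := X.E0
  have b : E ^ 50 * x ≤ 1 := (abs_le_of_sq_le_sq' (by nlinarith) zero_le_one).2
  have c : S.v ≤ E * x ^ 2 := v.trans (mul_le_mul_of_nonneg_right (by linarith [X.CE1, X.cl.C0])
    (sq_nonneg x))
  calc E ^ 59 * S.v ≤ E ^ 59 * (E * x ^ 2) := by gcongr
    _ = E ^ 50 * x * (E ^ 10 * x) := by ring
    _ ≤ 1 * M.s S.jl := by gcongr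
    _ = M.s S.jl := one_mul _

theorem Ev_le : E * S.v ≤ M.s S.jl :=
  (mul_le_mul_of_nonneg_right (X.E_le (by norm_num)) X.cl.v0.le).trans X.v_sjl

theorem Cv_le : 1000 * (S.C * S.v) ≤ M.s S.jl := by
  linarith [mul_le_mul_of_nonneg_right X.CE1 X.cl.v0.le, X.Ev_le]

theorem s1_le : M.s (S.jl + 1) ≤ 2 * M.s S.jl := by
  linarith [(X.cl.ss S.jl X.cl.jl_lt).2, X.Cv_le, X.cl.s_nn S.jl]

theorem W_le : 1000 * S.C ^ 2 * Y ^ ((1 : ℝ) / 3) ≤ 1 :=
  (mul_le_mul_of_nonneg_right (X.CE2.trans (X.E_le (by norm_num))) X.W0.le).trans X.WE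

theorem z1_le : M.z (S.jl + 1) ≤ 1 / (16 * S.C) := by
  have a := (X.cl.z_s (k := S.jl + 1) (X.cl.i1.trans (Nat.le_succ _)) X.cl.i2).2
  have C0 := X.cl.C0
  have b : S.v ≤ S.C * S.v := le_mul_of_one_le_left X.cl.v0.le X.cl.C1
  have c : M.s (S.jl + 1) + 2 * S.v ≤ 3 * Y ^ ((1 : ℝ) / 3) := by
    linarith [X.s1_le, X.Cv_le, X.sjl_le, X.cl.s_nn S.jl]
  rw [le_div_iff₀ (by positivity)]
  have d := mul_le_mul_of_nonneg_right (a.trans (mul_le_mul_of_nonneg_left c C0.le))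
    (show 0 ≤ 16 * S.C by positivity)
  nlinarith [X.W_le, mul_pos (pow_pos C0 2) X.W0]

theorem c16 : 1 / (16 * S.C) ≤ 1 / (2 * S.C) :=
  one_div_le_one_div_of_le (by linarith [X.cl.C0]) (by linarith [X.cl.C0])

theorem ck1 : M.ck (S.jl + 1) = M.q (S.jl + 1) := X.cl.ckq _ (X.z1_le.trans X.c16)

theorem lt_J {k : ℕ} (h : M.z k ≤ 1 / (2 * S.C)) : k + 1 < S.J := by
  by_contra hc
  have a := X.cl.leg.zm (show S.J - 1 ≤ k by omega)
  have b := one_div_lt_one_div_of_lt X.cl.C0 (show S.C < 2 * S.C by linarith [X.cl.C0])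
  linarith [X.cl.atom.1]

theorem jp1 : S.jl + 1 ≤ S.Jp := X.cl.i2.le.trans X.cl.i3

theorem ct_mono : Monotone (M.ct S) := monotone_nat_of_le_succ fun k => by
  have H := X.cl
  rcases lt_trichotomy k S.jl with h | rfl | h
  · rw [ct_lo M h.le, ct_lo M h]
  · rw [ct_lo M le_rfl, ct_mid H (Nat.lt_succ_self _) X.jp1, X.ck1]
    exact H.q_nn (X.jp1.trans H.i4.le)
  rcases lt_or_ge k S.Jp with h' | h'
  · rw [ct_mid H h h'.le, ct_mid H (h.trans k.lt_succ_self) h']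
    linarith [(H.ckm k (H.i1.trans h.le) h').1, div_pos H.v0 H.C0]
  · rw [ct_hi H h', ct_hi H (h'.trans k.le_succ)]
    linarith [H.q_mono (min_le_min_right M.N k.le_succ) (min_le_right _ _)]

theorem ct_nn (k : ℕ) : 0 ≤ M.ct S k := (ct_lo M (Nat.zero_le _)).ge.trans (X.ct_mono (Nat.zero_le k))

theorem ct_le (k : ℕ) : M.ct S k ≤ E + 1 := by
  refine (X.ct_mono (le_max_left k S.Jp)).trans ?_
  rw [ct_hi X.cl (le_max_right _ _)]
  linarith [X.sh.ckT, Cl.q_le_one (M := M) (min (max k S.Jp) M.N), X.cl.q_nn X.cl.i4.le]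

variable {c F : ℕ → ℝ} {w : ℝ}

theorem F_inc (hc : Ax E S M Y c) (hF : K0 E S M Y c w F) (hw : 0 ≤ w) {k : ℕ} (h : S.jl < k)
    (h' : k < S.Jp) : w / E ^ 4 * (S.v / S.C) / 4 ≤ F (k + 1) - F k := by
  have a := (X.cl.ckm k (X.cl.i1.trans h.le) h').1
  have b := mul_le_mul_of_nonneg_left (show S.v / S.C / 2 ≤ c (k + 1) - c k by
    linarith [hc.inc k h h']) (div_nonneg hw (pow_pos X.E0 4).le)
  linarith [hF.flr k h h']

theorem F_mono (hc : Ax E S M Y c) (hF : K0 E S M Y c w F) (hw : 0 ≤ w) : Monotone F :=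
  monotone_nat_of_le_succ fun k => by
  rcases lt_trichotomy k S.jl with h | rfl | h
  · rw [hF.lo k h.le, hF.lo _ h]
  · rw [hF.lo _ le_rfl]
    exact hF.f0
  rcases lt_or_ge k S.Jp with h' | h'
  · have := X.F_inc hc hF hw h h'
    have := mul_nonneg (div_nonneg hw (pow_pos X.E0 4).le) (div_pos X.cl.v0 X.cl.C0).le
    linarith
  · linarith [hF.top k h', hF.top (k + 1) (h'.trans k.le_succ),
      mul_le_mul_of_nonneg_left (X.ct_mono k.le_succ) hw]

/-- **sup bound of the adaptive residual** below the top window -/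
theorem sup_res (hc : Ax E S M Y c) (hF : K0 E S M Y c w F) (hw : 0 ≤ w) {k : ℕ} (h : S.jl < k)
    (hz : M.z k ≤ 1 / (2 * S.C)) : |F k - w * M.q k| ≤ E ^ 37 * w * Y ^ ((1 : ℝ) / 3) := by
  have H := X.cl
  have E0 := X.E0
  have v0 := H.v0
  have C0 := H.C0
  have W0 := X.W0
  have W3 := X.W3
  have WE := X.WE
  generalize Y ^ ((1 : ℝ) / 3) = W at *
  obtain ⟨r, r1, r2⟩ : ∃ r : ℕ, r * S.v ≤ E ^ 29 * W / 8 ∧ E ^ 29 * W / 8 ≤ (r + 1) * S.v :=
    ⟨⌊E ^ 29 * W / 8 / S.v⌋₊, (le_div_iff₀ v0).1 (Nat.floor_le (by positivity)),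
      (div_le_iff₀ v0).1 (Nat.lt_floor_add_one _).le⟩
  have kJ := X.lt_J hz
  have rJ : k + r < S.J := by
    by_contra hr
    have a := (H.z_tel (H.i1.trans h.le) (show k ≤ S.J - 1 by omega) (by omega)).2
    have b : ((S.J - 1 : ℕ) : ℝ) - k ≤ r := by
      have : ((S.J - 1 : ℕ) : ℝ) ≤ (k + r : ℕ) := Nat.cast_le.2 (by omega)
      push_cast at this
      linarith
    have d := mul_le_mul_of_nonneg_right b (mul_pos C0 v0).le
    have e : 1 / (2 * S.C) ≤ S.C * (r * S.v) := by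
      have : 1 / S.C = 1 / (2 * S.C) + 1 / (2 * S.C) := by field_simp; norm_num
      linarith [H.atom.1]
    rw [div_le_iff₀ (by positivity)] at e
    have f : S.C ^ 2 * (E ^ 29 * W) ≤ E ^ 37 / 1000 * (E ^ 29 * W) :=
      mul_le_mul_of_nonneg_right (by linarith [X.CE2, X.E_le (j := 37) (by norm_num)]) (by positivity)
    nlinarith [mul_le_mul_of_nonneg_left r1 (pow_pos C0 2).le]
  refine sup_of_lip (φ := fun k => F k - w * M.q k) (ω := M.dx) (w := r) (L := 4 * E ^ 8 * w * S.v)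
    (T := Ioc S.jl S.Jp) (div_pos v0 C0) (by positivity) (by positivity)
    (fun j hj => ?_) (fun j _ => dx_nn H j) (fun j hj => ?_) (fun j j1 j2 => ?_) ?_
    (hF.res.trans ?_)
  · have := mem_Icc.1 hj
    have := H.i3
    exact mem_Ioc.2 ⟨by omega, by omega⟩
  · have := mem_Icc.1 hj
    have := H.i1
    exact dx_ge H (by omega) (by omega)
  · have a1 := hF.cei j (by omega) (by omega)
    have a2 := X.F_mono hc hF hw j.le_succ
    have i3 := H.i3
    have a3 := (H.q_tel (by linarith [X.Cθ]) j.le_succ (by omega)).2.trans (H.ss j (by omega)).2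
    have a4 := H.q_mono j.le_succ (show j + 1 ≤ M.N by have := H.J_lt; omega)
    have a5 : S.C * S.v ≤ E ^ 8 * S.v := mul_le_mul_of_nonneg_right
      (by linarith [X.CE1, X.E_le (j := 8) (by norm_num)]) v0.le
    have a6 := mul_le_mul_of_nonneg_left (a3.trans a5) hw
    have a7 := mul_le_mul_of_nonneg_left a4 hw
    have a8 : 0 ≤ E ^ 8 * w * S.v := by positivity
    simp only [Nat.succ_eq_add_one] at *
    exact abs_le.2 ⟨by linarith, by linarith⟩
  · linarith [mul_le_mul_of_nonneg_right r1 (show 0 ≤ 4 * E ^ 8 * w by positivity)]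
  · have a : 512 * S.C ≤ E ^ 3 := by linarith [X.CE1, X.E_le (j := 3) (by norm_num)]
    have b := mul_le_mul_of_nonneg_right r2 (show 0 ≤ (E ^ 37 * w * W / 2) ^ 2 / S.C by positivity)
    refine le_trans ?_ (b.trans_eq (by ring))
    rw [← mul_div_assoc, le_div_iff₀ C0, ← W3]
    linarith [mul_le_mul_of_nonneg_right a (show 0 ≤ w ^ 2 * E ^ 100 * W ^ 3 / 32 by positivity)]

/-- the whole deposit -/
def Ft (S : Sc) (M : Md) (u w : ℝ) (F : ℕ → ℝ) (k : ℕ) : ℝ := F k + (u - w) * M.ct S k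

omit X in
theorem G_eq (u w : ℝ) (F : ℕ → ℝ) (k : ℕ) : (Gu71.sh M u (Ft S M u w F)).G k =
    M.G k + (F k - w * M.q k) + (u - w) * (M.ct S k - M.q k) := by
  rw [sh_G, Ft]
  ring

variable {D u : ℝ}

theorem D0 (hD : Dr E S D) : 0 < D := lt_of_lt_of_le (by have := X.E0; have := X.nu0; positivity) hD.1

theorem D_le (hD : Dr E S D) : E ^ 89 * D ≤ 1 := by
  have a := hD.2
  have b := mul_le_mul_of_nonneg_right (show 3 ≤ E by linarith [X.E3])
    (mul_pos (pow_pos X.E0 99) X.nu0).le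
  have d := mul_le_mul_of_nonneg_right (X.Ep (show 89 ≤ 100 by norm_num)) (X.D0 hD).le
  have e : (S.n : ℝ) ^ (-(1 : ℝ) / 20) ≤ 1 := rpow_le_one_of_one_le_of_nonpos X.N1 (by norm_num)
  first
    | linarith
    | linarith [X.nuE, mul_le_mul_of_nonneg_left a (pow_pos X.E0 89).le]

theorem Ft_mono (hc : Ax E S M Y c) (hF : K0 E S M Y c w F) (hw : 0 ≤ w) (hu : w ≤ u) :
    Monotone (Ft S M u w F) :=
  (X.F_mono hc hF hw).add (X.ct_mono.const_mul (sub_nonneg.2 hu))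

omit X in
theorem Ft_lo (hF : K0 E S M Y c w F) {k : ℕ} (h : k ≤ S.jl) : Ft S M u w F k = 0 := by
  rw [Ft, hF.lo k h, ct_lo M h, mul_zero, add_zero]

theorem Ft_le (hF : K0 E S M Y c w F) (hw : 0 ≤ w) (h1 : u ≤ 1 / E)
    (h2 : E ^ 51 * w ≤ 1) {k : ℕ} (h : S.Jp ≤ k) : Ft S M u w F k ≤ 3 := by
  have a := hF.top k h
  have b := mul_nonneg hw (X.ct_nn S.Jp)
  have d := mul_le_mul h1 (X.ct_le k) (X.ct_nn k) (one_div_pos.2 X.E0).le
  have e : 1 / E * (E + 1) ≤ 2 := by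
    rw [one_div_mul_eq_div, div_le_iff₀ X.E0]
    linarith [X.E1]
  rw [Ft]
  linarith [hF.le]

theorem sq_G : M.sq S M.G ≤ E * (S.θ + nu S) ^ 2 * Y := by
  have a := mul_le_mul_of_nonneg_left X.sh.G2 (sq_nonneg (S.θ + nu S))
  refine le_trans ?_ (a.trans_eq (by ring))
  rw [Md.sq, Md.sq, mul_sum]
  refine sum_le_sum fun k _ => ?_
  have b := add_pos (X.cl.ms_pos (X.cl.s_nn k)) X.nu0
  have d := pow_le_pow_left₀ b.le (add_le_add (X.cl.ms1 (M.s k)) (le_refl (nu S))) 2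
  have e : M.G k ^ 2 = (S.ms (M.s k) + nu S) ^ 2 * (M.G k / (S.ms (M.s k) + nu S)) ^ 2 := by
    field_simp
  rw [e, mul_left_comm]
  exact mul_le_mul_of_nonneg_right d (mul_nonneg (dx_nn X.cl k) (sq_nonneg _))

/-- the residual of the auxiliary model in `L²` -/
theorem sq_GN (hF : K0 E S M Y c w F) (hw : 0 ≤ w) (hu : w ≤ u) :
    M.sq S (Gu71.sh M u (Ft S M u w F)).G ≤
      3 * (E * (S.θ + nu S) ^ 2 * Y) + 48 * w ^ 2 * (E ^ 100 * Y) + 3 * u ^ 2 * Y := by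
  have a : M.sq S (Gu71.sh M u (Ft S M u w F)).G ≤ 3 * M.sq S M.G +
      3 * M.sq S (fun k => F k - w * M.q k) + 3 * (u - w) ^ 2 * M.sq S (fun k => M.ck k - M.q k) := by
    simp only [Md.sq, mul_sum, ← sum_add_distrib]
    refine sum_le_sum fun k hk => ?_
    rw [G_eq, ct_mid X.cl (mem_Ioc.1 hk).1 (mem_Ioc.1 hk).2]
    generalize M.G k = x
    generalize F k - w * M.q k = y
    generalize M.ck k - M.q k = z
    have : (x + y + (u - w) * z) ^ 2 ≤ 3 * x ^ 2 + 3 * y ^ 2 + 3 * (u - w) ^ 2 * z ^ 2 := by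
      nlinarith [sq_nonneg (x - y), sq_nonneg (x - (u - w) * z), sq_nonneg (y - (u - w) * z)]
    linarith [mul_le_mul_of_nonneg_left this (dx_nn X.cl k)]
  have b := mul_le_mul (pow_le_pow_left₀ (sub_nonneg.2 hu) (sub_le_self u hw) 2) X.sh.ck
    (sum_nonneg fun k _ => mul_nonneg (dx_nn X.cl k) (sq_nonneg _)) (sq_nonneg u)
  linarith [X.sq_G, hF.res]

/-- **membership** -/
theorem mem (hc : Ax E S M Y c) (hD : Dr E S D) (h0 : 0 ≤ u) (hd : u ≤ M.d 0) (h1 : u ≤ 1 / E)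
    (hF : K0 E S M Y c (min u D) F) :
    Cl (scU E (8 * S.C) S M Y D u) (Gu71.sh M u (Ft S M u (min u D) F)) := by
  have H := X.cl
  have C0 := H.C0
  have C1 := H.C1
  have v0 := H.v0
  have E0 := X.E0
  have hw : 0 ≤ min u D := le_min h0 (X.D0 hD).le
  have hu : min u D ≤ u := min_le_left _ _
  have h2 : E ^ 51 * min u D ≤ 1 := (mul_le_mul (X.Ep (by norm_num)) (min_le_right _ _) hw
    (pow_pos E0 89).le).trans (X.D_le hD)
  have mo := X.Ft_mono hc hF hw hu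
  have CC : S.C ≤ 8 * S.C := by linarith
  have up : ∀ {x y : ℝ}, x ≤ S.C * y → 0 ≤ y → x ≤ 8 * S.C * y := fun a b =>
    a.trans (mul_le_mul_of_nonneg_right CC b)
  have dn : ∀ {x y : ℝ}, y / S.C ≤ x → 0 ≤ y → y / (8 * S.C) ≤ x := fun a b =>
    (div_le_div_of_nonneg_left b C0 CC).trans a
  have mp : ∀ k, 0 < S.ms (M.s k) := fun k => H.ms_pos (H.s_nn k)
  have zz : ∀ {k}, M.z k ≤ 1 / (2 * (8 * S.C)) → M.z k ≤ 1 / (2 * S.C) := fun a =>
    a.trans (one_div_le_one_div_of_le (by linarith) (by linarith))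
  have u1 : u ≤ 1 := h1.trans (div_le_one_of_le₀ X.E1 E0.le)
  have Gl : ∀ k ≤ S.jl, |(Gu71.sh M u (Ft S M u (min u D) F)).G k| ≤ |M.G k| + u * M.s S.jl :=
    fun k hk => by
      rw [sh_G, Ft_lo hF hk, zero_sub]
      have kN := hk.trans (H.jl_lt.trans H.J_lt).le
      refine (abs_add_le _ _).trans (add_le_add le_rfl ?_)
      rw [abs_neg, abs_of_nonneg (mul_nonneg h0 (H.q_nn kN))]
      exact mul_le_mul_of_nonneg_left ((H.q_le_s kN).trans (H.sm hk)) h0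
  refine
    { leg := sh_leg H.leg hd (Ft_lo hF (Nat.zero_le _)) mo
      C1 := C1.trans CC
      v1 := dn H.v1 zero_le_one
      v2 := H.v2.trans CC
      card := H.card
      i0 := H.i0
      i1 := H.i1
      i2 := H.i2
      i3 := H.i3
      i4 := H.i4
      msm := H.msm.add_const u
      ms2 := fun t ht => ?_
      ms0 := H.ms0.trans (le_add_of_nonneg_right h0)
      ms1 := fun t => add_le_add (H.ms1 t) le_rfl
      msθ := ?_
      b0 := ?_
      b1 := (sub_le_self _ h0).trans (H.b1.trans CC)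
      low := H.low
      wmk := ⟨congrArg (· - u) H.wmk.1, ?_⟩
      top := H.top
      HN := ?_
      ok := H.ok
      s0 := H.s0
      sm := H.sm
      sN := H.sN
      sT := H.sT.trans CC
      lv := H.lv
      lv1 := H.lv1
      lip := fun t t' a b d => ⟨?_, up (H.lip t t' a b d).2 (add_nonneg (sub_nonneg.2 b) v0.le)⟩
      lv0 := up H.lv0 v0.le
      zs := fun k a b => ⟨dn (H.zs k a b).1 v0.le, up (H.zs k a b).2 v0.le⟩
      ss := fun k a => ⟨dn (H.ss k a).1 v0.le, up (H.ss k a).2 v0.le⟩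
      sr := fun k a b => ⟨(H.sr k a b).1, up (H.sr k a b).2 v0.le⟩
      atom := ⟨dn H.atom.1 zero_le_one,
        H.atom.2.trans (sub_le_sub_left (one_div_le_one_div_of_le C0 CC) 1)⟩
      crit := fun t ht => ?_
      gpp := fun t a b => ?_
      ckm := fun k a b => ⟨dn (H.ckm k a b).1 v0.le, up (H.ckm k a b).2 v0.le⟩
      ckq := fun k a => H.ckq k (zz a)
      flr := fun k a b => ?_
      Glo := fun k hk => ?_
      Gmi := fun k a b => ?_
      Gtp := ?_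
      Grv := fun k a b => ?_
      plat := fun k a b => ⟨dn (H.plat k a b).1 v0.le, up (H.plat k a b).2 v0.le⟩
      den0 := H.den0
      dens := fun x x' a b d e => ⟨up (H.dens x x' a b d e).1 (H.den0 _).le,
        up (H.dens x x' a b d e).2 (H.den0 _).le⟩
      last := H.last
      F1 := one_le_pow₀ X.E1 }
  · change S.ms (2 * t) + u ≤ 4 * (S.ms t + u)
    linarith [H.ms2 t ht]
  · change (S.θ + u) * log S.n ≤ 1
    have a := mul_le_mul h1 X.lgE (by linarith [X.log1]) (one_div_pos.2 E0).le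
    rw [one_div_mul_cancel E0.ne'] at a
    linarith [X.sh.th1]
  · change 1 ≤ M.d 0 - u
    have : 2 / E = 1 / E + 1 / E := by ring
    linarith [X.sh.b1, one_div_pos.2 E0]
  · change M.d M.N - u - (M.d 0 - u) ≤ 8 * S.C * (S.ms (M.s S.jl) + u)
    have := X.sh.noW
    rw [Md.b] at this
    have := mul_pos C0 (add_pos_of_pos_of_nonneg (mp S.jl) h0)
    linarith
  · change M.H M.N + Ft S M u (min u D) F M.N ≤ 8 * S.C * S.A * log S.n
    have a := X.Ft_le hF hw h1 h2 H.i4.le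
    have A1 : (1 : ℝ) ≤ S.A := by exact_mod_cast le_trans one_le_two X.A2
    have := one_le_mul_of_one_le_of_one_le (one_le_mul_of_one_le_of_one_le C1 A1) X.log1
    linarith [H.HN]
  · change (t' - t) / (8 * S.C) - 8 * S.C * S.v ≤ _
    refine le_trans ?_ (H.lip t t' a b d).1
    linarith [dn le_rfl (sub_nonneg.2 b), mul_pos C0 v0]
  · rw [sh_e]
    change (S.ms t + u) / (8 * S.C) ≤ _ ∧ _ ≤ 8 * S.C * (S.ms t + u)
    obtain ⟨a1, a2⟩ := H.crit t ht
    obtain ⟨b1, b2⟩ := H.GG_bds ht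
    have m0 := H.ms_pos ht.1
    have b3 := (mul_le_mul_of_nonneg_left (H.ms1 t) C0.le).trans X.Cθ
    have bb := H.b_ge
    have g0 : 0 ≤ Pr.GG M.lr t :=
      (mul_nonneg_iff_of_pos_left (show 0 < M.b by linarith)).1 (by linarith)
    have g1 : Pr.GG M.lr t ≤ 1 := by
      linarith [mul_le_mul_of_nonneg_right bb g0, div_pos m0 C0]
    have g2 : 1 / (8 * S.C) ≤ Pr.GG M.lr t := by
      rw [div_le_iff₀ (by positivity)]
      linarith [mul_le_mul_of_nonneg_right H.b1 g0]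
    refine ⟨?_, ?_⟩
    · rw [add_div]
      exact add_le_add (dn a1 m0.le) ((div_eq_mul_one_div _ _).trans_le
        (mul_le_mul_of_nonneg_left g2 h0))
    · linarith [mul_le_mul_of_nonneg_left g1 h0, mul_le_mul_of_nonneg_right C1 h0, mul_pos C0 m0]
  · have p0 : 0 < max t (M.s S.j0) := (H.s_pos H.i0).trans_le (le_max_right _ _)
    refine (up (H.gpp t a b) (div_pos (H.ms_pos a) p0).le).trans (mul_le_mul_of_nonneg_left
      (div_le_div_of_nonneg_right (le_add_of_nonneg_right h0) p0.le) (by positivity))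
  · change (S.ms (M.s k) + u) * S.v / (8 * S.C * E ^ 9) ≤
      M.H (k + 1) + Ft S M u (min u D) F (k + 1) - (M.H k + Ft S M u (min u D) F k)
    have f := H.flr k a b
    rw [X.sh.F1, mul_one] at f
    have E9 : 1 ≤ E ^ 9 := one_le_pow₀ X.E1
    have vC := div_pos v0 C0
    have e : (S.ms (M.s k) + u) * S.v / (8 * S.C * E ^ 9) =
        (S.ms (M.s k) * S.v / S.C / 8 + u * (S.v / S.C) / 8) / E ^ 9 := by field_simp
    have f0 := div_pos (mul_pos (mp k) v0) C0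
    have uv := mul_nonneg h0 vC.le
    rw [e]
    rcases (show S.jl ≤ k from a).eq_or_lt with rfl | a
    · refine (div_le_self (by positivity) E9).trans ?_
      have := mul_le_mul u1 (div_le_self v0.le C1) vC.le zero_le_one
      linarith [mo S.jl.le_succ, X.sh.Hjl, X.sh.Hj1]
    · have a1 := X.F_inc hc hF hw a b
      have a2 := mul_le_mul_of_nonneg_left (H.ckm k (H.i1.trans a.le) b).1 (sub_nonneg.2 hu)
      have a3 : min u D * (S.v / S.C) / 8 / E ^ 9 ≤ min u D / E ^ 4 * (S.v / S.C) / 4 := by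
        have := mul_nonneg hw vC.le
        refine (div_le_div_of_nonneg_left (by positivity) (pow_pos E0 4)
          (X.Ep (by norm_num))).trans ?_
        have := div_nonneg this (pow_pos E0 4).le
        have e1 : min u D * (S.v / S.C) / 8 / E ^ 4 = min u D * (S.v / S.C) / E ^ 4 / 8 := by ring
        have e2 : min u D / E ^ 4 * (S.v / S.C) / 4 = min u D * (S.v / S.C) / E ^ 4 / 4 := by ring
        linarith
      have a5 := mul_nonneg (sub_nonneg.2 hu) vC.le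
      have a4 := div_le_self (a := S.ms (M.s k) * S.v / S.C / 8 + (u - min u D) * (S.v / S.C) / 8)
        (by positivity) E9
      have e3 : (S.ms (M.s k) * S.v / S.C / 8 + u * (S.v / S.C) / 8) / E ^ 9 =
          (S.ms (M.s k) * S.v / S.C / 8 + (u - min u D) * (S.v / S.C) / 8) / E ^ 9 +
            min u D * (S.v / S.C) / 8 / E ^ 9 := by ring
      rw [Ft, Ft, ct_mid H a b.le, ct_mid H (a.trans k.lt_succ_self) b]
      linarith
  · change _ ≤ 8 * S.C * (S.ms (M.s S.jl) + u) * M.s S.jl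
    have a := mul_nonneg h0 (H.s_nn S.jl)
    linarith [Gl k hk, H.Glo k hk, mul_le_mul_of_nonneg_right C1 a,
      mul_nonneg (mul_pos C0 (mp S.jl)).le (H.s_nn S.jl)]
  · change _ ≤ max (S.gr (M.s k)) 0 + E ^ 37 * min u D * Y ^ ((1 : ℝ) / 3) +
      if M.s k ≤ M.s S.jl then u * M.s S.jl else 0
    have g := (H.Gmi k a (zz b)).trans (le_max_left _ 0)
    have W0 := X.W0
    rcases (show S.jl ≤ k from a).eq_or_lt with rfl | a
    · rw [if_pos le_rfl]
      linarith [Gl _ le_rfl, show 0 ≤ E ^ 37 * min u D * Y ^ ((1 : ℝ) / 3) by positivity]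
    · have kJ := X.lt_J (zz b)
      have i3 := H.i3
      rw [if_neg (H.s_lt a H.jl_lt).not_ge, G_eq, ct_mid H a (by omega), H.ckq k (zz b), sub_self,
        mul_zero, add_zero, add_zero]
      exact (abs_add_le _ _).trans (add_le_add g (X.sup_res hc hF hw a (zz b)))
  · refine le_trans (sum_le_sum_of_subset_of_nonneg (fun k hk => ?_)
      fun k _ _ => mul_nonneg (dx_nn H k) (sq_nonneg _)) (X.sq_GN hF hw hu)
    obtain ⟨a, b⟩ := mem_filter.1 hk
    refine mem_Ioc.2 ⟨lt_of_not_ge fun e => ?_, (mem_Icc.1 a).2⟩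
    have := (H.leg.zm (e.trans S.jl.le_succ)).trans X.z1_le
    change 1 / (2 * (8 * S.C)) < M.z k at b
    rw [show 2 * (8 * S.C) = 16 * S.C by ring] at b
    linarith
  · change _ = (Gu71.sh M u (Ft S M u (min u D) F)).G S.Jp
    have a' : S.Jp ≤ k := a
    have b' : k ≤ M.N := b
    have t := hF.top k a'
    rw [G_eq, G_eq, H.Grv k a' b']
    rw [ct_hi H a', ct_hi H le_rfl, min_eq_left b', min_eq_left H.i4.le] at *
    linarith

end Cx




end Crest.Agent.T156.Alt.Sr.M29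

namespace Crest.Agent.T156.Alt.Sr


end Crest.Agent.T156.Alt.Sr

end
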