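import Crest.Agent.T156.HyD_77
import Crest.Agent.T156.HyF_43
import Crest.Agent.T156.R1LocB_77
import Crest.Agent.T156.R1Tp_4
import Crest.Agent.T156.LtE_76
import Crest.Agent.T156.LT2a_38
import Crest.Agent.T156.LtD_29
import Crest.Agent.T156.NRn_44
import Crest.Agent.T156.NbT_44
import Crest.Agent.T156.LT2x_52
import Crest.Agent.T156.HyA_4
import Crest.Agent.T156.LtK_15
import Crest.Agent.T156.NRo_44
import Crest.Agent.T156.TermN_15
import Crest.Agent.T156.LNy_97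
import Crest.Agent.T156.SrPA_66

-- ▼ part T156/HyE_77
section

/-!
# Row 156 (helper77): `L63.Hy` and the sup location on the numbers of `LtD_29`
-/

set_option autoImplicit false

noncomputable section

namespace Crest.Agent.T156.Alt.R77

open Real Finset Pre29
open Crest.Agent.T156.Alt.L69 (LN LP LO bs)
open Crest.Agent.T156.Alt.L63 (LT2 Hy TP TL2x)

section pt

variable {β c0 C0 c0' C0' η' : ℝ} {A : ℕ} {c η K K' : ℝ} {p : Pm} {σ t : ℝ} {Q : Pl}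
  (X : Nr44.Cx β c0 C0 A c η K' p σ t) (hη : 200000 * η ≤ c)
include X

theorem lg_nc (e : ℝ) : 0 < p.nc e ∧ logb p.n (p.nc e) = e * c :=
  ⟨X.H.rp0 _, by rw [Pm.nc, X.H.lg_rp, X.H.hc]⟩

theorem la_Xlo : p.laG σ ^ 2 ≤ p.XloL σ t := by
  have H := X.H
  have := X.la0; have := X.sM0; have := X.θ0
  obtain ⟨a0, a⟩ := lg_nc X (1 / 40)
  obtain ⟨b0, b⟩ := lg_nc X (21 / 40)
  refine le_min (X.la_Pt.trans (min_le_left _ _)) ?_
  unfold Pm.BuL
  refine H.le_of_lg (by positivity) (by positivity) ?_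
  lg_norm
  linarith [X.lg_sM.1, (H.lg_muG' X.Mt).2, H.c_pos]

include hη

theorem EL_ge : ((p.n : ℝ) ^ η) ^ 2 ≤ p.EL := by
  rw [rp_pow]
  exact rp_le X.H.n1 (by rw [X.H.hc]; push_cast; linarith)

theorem EL_two : 2 ≤ p.EL := by nlinarith [EL_ge X hη, X.H.num_le]

/-- `Hy.jg` -/
theorem jg_L (hl : p.lN t ≤ p.ye) (l0 : 0 < p.l0L t) (h0 : p.l0L t ^ 3 ≤ p.X2L t) :
    p.EL * (p.jL σ t + 0) ≤ p.LgL * p.elL t := by
  have H := X.H
  have E2 := EL_two X hη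
  have x0 := X.lN0
  have θ0 := X.θ0
  have la := X.la0
  have c0 := H.c_pos
  have e : logb p.n (p.lN t) ≤ -(3 * c) := (H.lg_mono x0 hl).trans_eq H.lg_ye
  have a1 : √(p.PhN t) ≤ p.lN t := by
    rw [← X.l3]
    exact H.le_of_lg (by positivity) x0 (by lg_norm; linarith)
  have a2 : √(p.GaL σ t) ≤ p.EL * √(p.muG t) := by
    obtain ⟨b0, b⟩ := lg_nc X (1 / 100000)
    unfold Pm.GaL Pm.EL
    refine H.le_of_lg (by positivity) (by positivity) ?_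
    lg_norm
    linarith [X.lg_θla]
  have a3 : p.l0L t ^ 2 ≤ p.lN t := by
    obtain ⟨b0, b⟩ := lg_nc X (1 / 1000)
    have d : p.l0L t ^ 3 ≤ p.nc (1 / 1000) * p.lN t ^ 3 := h0.trans (by
      rw [X.l3]; exact mul_le_mul_of_nonneg_left (min_le_left _ _) b0.le)
    have d' := H.lg_mono (by positivity) d
    rw [logb_mul b0.ne' (by positivity), logb_pow, logb_pow] at d'
    refine H.le_of_lg (by positivity) x0 ?_
    rw [logb_pow]
    push_cast at d' ⊢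
    linarith
  have s := sqrt_nonneg (p.muG t)
  unfold Pm.jL Pm.LgL Pm.elL
  generalize p.EL = E at *
  have f : 2 ≤ E ^ 3 ∧ E ≤ E ^ 3 := by
    have := le_self_pow₀ (show 1 ≤ E by linarith) (show 3 ≠ 0 by norm_num)
    exact ⟨by linarith, this⟩
  have g := mul_le_mul_of_nonneg_right f.1 x0.le
  have g' := mul_le_mul_of_nonneg_right f.2 s
  have k : √(p.PhN t) + √(p.GaL σ t) + p.l0L t ^ 2 + 0 ≤ E ^ 3 * (p.lN t + √(p.muG t)) := by
    linarith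
  exact (mul_le_mul_of_nonneg_left k (by linarith)).trans_eq (by ring)

theorem tp_L : p.EL * p.PhN t ≤ p.elL t ^ 3 := by
  have E2 := EL_two X hη
  have x0 := X.lN0
  have a : p.EL * p.lN t ≤ p.elL t := mul_le_mul (by nlinarith) (by linarith [sqrt_nonneg (p.muG t)])
    x0.le (by positivity)
  refine le_trans ?_ (pow_le_pow_left₀ (by positivity) a 3)
  rw [mul_pow, X.l3]
  exact mul_le_mul_of_nonneg_right (le_self_pow₀ (by linarith) (by norm_num)) X.Ph0.le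

end pt

theorem hyY_of {β : ℝ} (hβ : 1 < β) (h1 : OnG LNx β) (h2 : OnG LPx β) (h3 : OnG LTx β)
    (h4 : OnG Vtx β) : OnG HyY β :=
  OnG.cl' hβ CL.triv (((h1.and h2).and h3).and h4) one_pos (by norm_num : (0 : ℝ) < 1 / 2000)
    200000 0 (fun _ => 0) fun K c0 C0 A c η K' c0' C0' η' p σ t Q G a _ b _ _ ⟨⟨⟨r1, r2⟩, r3⟩, r4⟩
      nd n2 m x hm hΦ y y0 y1 top => by
    have b' : 200000 * η ≤ c := by exact_mod_cast b
    have X : Nr44.Cx β c0 C0 A c η K' p σ t := ⟨G.R, a, by linarith [G.R.η_pos], G.O⟩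
    have ln := r1 nd n2
    have cl := G.D.cl.1
    have s0 := X.H.rp0
    have θ0 := X.θ0
    have l0 : 0 < p.l0L t := lt_max_of_lt_left (mul_pos (pow_pos (s0 _) 2) X.H.rj0)
    have u0 : 0 < p.uL t := div_pos (s0 _) (lt_max_of_lt_left one_pos)
    have g : L69.GS (p.gst Q t) (p.scG K σ t Q) 0 (p.scG K σ t Q).C +
        L69.GP (p.gst Q t) (p.scG K σ t Q) ≤ p.GaL σ t :=
      (Hy43.G_le G.R G.O G.D G.X G.BK _ _).trans (by
        rw [mul_pow]; exact mul_le_mul_of_nonneg_right (EL_ge X b') (sq_nonneg _))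
    refine ⟨Hy43.ce G.D, ln, r2 nd n2 y y0 y1, ⟨(Hy43.phi G.D).trans_le hΦ, top, r4 nd n2 m x hm hΦ,
      add_le_add (add_le_add le_rfl (sqrt_le_sqrt g)) le_rfl,
      Hy43.jn G.R G.O G.D ((la_Xlo X).trans y0) u0⟩, r3 nd n2 y y0 y1, jg_L X b' ?_ l0 ?_⟩
    · have := (X.nr G.D G.CK).ly
      refine this.trans (mul_le_of_le_one_left X.H.ye0.le ?_)
      exact rpow_le_one_of_one_le_of_nonpos X.H.N1.le (by rw [X.H.hc]; linarith [X.H.c_pos])
    · refine le_trans ?_ ln.x2a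
      have e : p.l0L t ≤ L69.cl (p.scG K σ t Q) (p.PhN t ^ ((1 : ℝ) / 3)) (p.l0L t) := by
        have := le_mul_of_one_le_left l0.le (le_max_left 1
          (((p.scG K σ t Q).F * (p.scG K σ t Q).ms (p.l0L t) / p.l0L t ^ 2) ^ ((1 : ℝ) / 3)))
        unfold L69.cl L69.cr
        linarith [ln.V0]
      rw [pow_succ']
      exact mul_le_mul_of_nonneg_left (pow_le_pow_left₀ l0.le e 2) l0.le

theorem supx_of {β : ℝ} (hβ : 1 < β) (T : TL2x) (h : OnG Hyx β) : OnG Supx β :=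
  OnG.cl' hβ T h (by norm_num : (0 : ℝ) < 1 / 100000) (by norm_num : (0 : ℝ) < 1 / 2000)
    200000 0 (fun _ => 0) fun K c0 C0 A c η K' c0' C0' η' p σ t Q G a _ b _ L r
      nd n2 m x hm hΦ k k1 k2 => by
    have b' : 200000 * η ≤ c := by exact_mod_cast b
    have X : Nr44.Cx β c0 C0 A c η K' p σ t := ⟨G.R, a, by linarith [G.R.η_pos], G.O⟩
    have e : (p.n : ℝ) ^ (1 / 100000 * c) = p.EL := by rw [Pm.EL, Pm.nc, G.R.hc]
    have L := L m x hm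
    rw [e] at L
    have o := (L _ _ _ _ _ _ _ _ _ _ _ _ _ _ _ _ _ _ _ _ _ _ _ _ _ _ _ (r nd n2 m x hm hΦ)
      (Or.inl (tp_L X b'))).1 k k1 k2
    have Λ := G.R.Λ0
    have := nonneg_of_mul_nonneg_right ((abs_nonneg _).trans o) Λ
    refine o.trans (mul_le_mul_of_nonneg_right ?_ this)
    nlinarith [EL_ge X b', G.R.Λ1]

end Crest.Agent.T156.Alt.R77

end
end

-- ▼ part T156/ApL_39
section

/-!
# Row 156 (helper39): the passes of the a priori top energy on the graded path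
-/

set_option autoImplicit false

noncomputable section

namespace Crest.Agent.T156.Alt.Ap39

open Real Finset
open Crest.Agent.T156.Alt.L69
open Crest.Agent.T156.Alt.L63 (Hy TL2y)
open Crest.Agent.T156.Alt.R77 (Dt OnG)

/-- the top energy read by `Ap.top` -/
abbrev Top (S : Sc) (M : Md) (m : ℕ) (a : ℝ) : ℝ := M.En S m a M.q 2 (M.s S.J / 2) S.C

section cl

variable {S : Sc} {M : Md} {m : ℕ} {a : ℝ}

theorem term_nn (c : Cl S M) (f : ℕ → ℝ) (k : ℕ) : 0 ≤ (M.z k - M.z (k - 1)) * |f k| ^ 2 :=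
  mul_nonneg (sub_nonneg.2 (c.leg.zm (Nat.sub_le k 1))) (sq_nonneg _)

theorem En_Phi (c : Cl S M) (jj : S.j0 = S.jl) (t t' : ℝ) :
    M.En S m a M.q 2 t t' ≤ M.Phi S m a := by
  rw [Md.En, Md.blk, jj]
  exact (sum_le_sum_of_subset_of_nonneg (filter_subset _ _) fun k _ _ =>
    term_nn c (fun k => M.rb m a k - M.q k) k).trans_eq
      (sum_congr rfl fun k _ => by rw [sq_abs]; rfl)

theorem top_LO (c : Cl S M) {Λ t0 u En B : ℝ} (h : LO Λ S M m a t0 u En) (hΛ : 0 ≤ Λ)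
    (h0 : t0 ≤ M.s S.J / 2) (e1 : En / mf S (M.s S.J / 2) ≤ B) (e2 : En / S.θ ≤ B) (e3 : u ≤ B)
    (e4 : GS M S (M.s S.J / 2) S.C + GP M S ≤ B) (e5 : (M.s S.Jp - M.s S.J) ^ 2 ≤ B)
    (e6 : 1 / (S.n : ℝ) ^ 2 ≤ B) : Top S M m a ≤ 7 * Λ * B := by
  have h1 : M.s S.J / 2 ≤ S.C := by linarith [c.s_le_C c.i3, c.s_nn S.J]
  have a1 := h.two _ S.C h0 h1
  have a2 := h.pla
  have a3 : Top S M m a ≤ ∑ k ∈ (M.blk S (M.s S.J / 2) S.C).filter (· < S.J),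
      dx M k * M.del m a k ^ 2 + Pla M S m a 2 := by
    rw [Top, Md.En, ← sum_filter_add_sum_filter_not _ (· < S.J)]
    refine add_le_add (le_of_eq (sum_congr rfl fun k _ => by rw [sq_abs]; rfl)) ?_
    exact sum_le_sum_of_subset_of_nonneg (fun k hk => by
      obtain ⟨h, h'⟩ := mem_filter.1 hk
      exact mem_Icc.2 ⟨not_lt.1 h', (mem_Ioc.1 (mem_filter.1 h).1).2⟩)
      fun k _ _ => term_nn c (fun k => M.rb m a k - M.q k) k
  have b := mul_le_mul_of_nonneg_left (show min (√(S.C * En)) (En / mf S (M.s S.J / 2)) +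
    GS M S (M.s S.J / 2) S.C + 1 / (S.n : ℝ) ^ 2 + (min (En ^ ((3 : ℝ) / 5)) (En / S.θ) + u +
      GP M S + (M.s S.Jp - M.s S.J) ^ 2 + 1 / (S.n : ℝ) ^ 2) ≤ 7 * B by
    linarith [min_le_right (√(S.C * En)) (En / mf S (M.s S.J / 2)),
      min_le_right (En ^ ((3 : ℝ) / 5)) (En / S.θ), sq_nonneg (M.s S.Jp - M.s S.J)]) hΛ
  linarith

end cl

/-- some instance of `Hy` whose output is at most `NL y` -/
def HyX (p : Pm) (σ t : ℝ) (S : Sc) (M : Md) (m : ℕ) (a y : ℝ) : Prop :=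
  ∃ G1 u1 u2 j γ Lc ηc τ l0 l X Xp Vt Lg Lp X2 X3 X4 G0 η N g t1 tu ℓ En p0,
    Hy p.EL S M m a G1 u1 u2 j γ Lc ηc τ l0 l X Xp Vt Lg Lp X2 X3 X4 G0 η N g t1 tu ℓ En p0 ∧
      u2 ≤ p.NL σ t y / p.muG t ∧ En + t1 * p0 ^ 2 ≤ 2 * (p.nc (1 / 50) * p.NL σ t y)

/-- **the input**: one pass for every admissible `y` -/
def PsY (R : Pm → ℝ → ℝ → Prop) : Dt := fun p σ t S M => ∀ m a, S.In m a →
  M.Phi S m a ≤ p.PhN t → R p σ t →
  ∀ y, p.XloL σ t ≤ y → y ≤ p.PhN t → Top S M m a ≤ y → HyX p σ t S M m a y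

/-- **the output**: `Ap.top` at `XpL` -/
def ApT (R : Pm → ℝ → ℝ → Prop) : Dt := fun p σ t S M => ∀ m a, S.In m a →
  M.Phi S m a ≤ p.PhN t → R p σ t →
  p.XloL σ t ≤ p.XpL σ t ∧ p.XpL σ t ≤ p.PhN t ∧ Top S M m a ≤ p.XpL σ t

section g

variable {β c0 C0 : ℝ} {A : ℕ} {c η K K' c0' C0' η' : ℝ} {p : Pm} {σ t y : ℝ} {Q : Pl}
  (X : Nr44.Cx β c0 C0 A c η K p σ t)
include X

theorem nc0 (e : ℝ) : 0 < p.nc e := X.H.rp0 _
theorem lg_nc (e : ℝ) : logb p.n (p.nc e) = e * c := by rw [Pm.nc, X.H.lg_rp, X.H.hc]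
theorem Bu0 : 0 < p.BuL σ t := mul_pos (nc0 X _) (pow_pos (mul_pos X.sM0 X.la0) 2)

theorem lg_Bu : logb p.n (p.BuL σ t) =
    21 / 40 * c + 2 * logb p.n (p.sM t) + 2 * logb p.n (p.laG σ) := by
  have := X.la0; have := X.sM0; have := nc0 X (21 / 40)
  rw [Pm.BuL]; lg_norm; rw [lg_nc X]; ring

theorem Xlo0 : 0 < p.XloL σ t := lt_min X.Ph0 (div_pos (mul_pos (nc0 X _) (Bu0 X)) X.θ0)

theorem Bu_le (hy : 0 ≤ y) : p.BuL σ t ≤ p.NL σ t y := le_add_of_nonneg_right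
  (mul_nonneg (mul_pos (nc0 X _) X.θ0).le (rpow_nonneg hy _))

theorem Xlo_nx (hy : 0 ≤ y) : p.XloL σ t ≤ p.nxL σ t y := min_le_min le_rfl
  (div_le_div_of_nonneg_right (mul_le_mul_of_nonneg_left (Bu_le X hy) (nc0 X _).le) X.θ0.le)

theorem Bt_le : Tp4.Bt p σ t ≤ p.BuL σ t / p.muG t := by
  have := Bu0 X; have := X.θ0
  refine X.H.le_of_lg (Tp4.Bt0 X) (by positivity) ?_
  rw [logb_div (by positivity) (by positivity), Tp4.lg_Bt X, lg_Bu X]
  linarith [(X.H.lg_muG' X.Mt).2, X.H.c_pos]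

/-- the last shell of the table -/
theorem uL_le (hy : 0 ≤ y) : p.uL t ≤ p.NL σ t y / p.muG t := by
  refine le_trans ?_ (div_le_div_of_nonneg_right (Bu_le X hy) X.θ0.le)
  have := Bu0 X; have θ0 := X.θ0; have N0 := X.H.N0
  have x0 : 0 < p.xM t := one_pos.trans_le (le_max_left _ _)
  have a := X.H.lg_mono (by positivity) (le_max_right 1 (p.muG t * (p.n : ℝ) ^ ((1 : ℝ) / 3)))
  have b := (Kn72.lg_nu X.H X.o).2
  refine X.H.le_of_lg (div_pos (X.H.rp0 _) x0) (by positivity) ?_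
  rw [logb_mul θ0.ne' (X.H.rp0 _).ne', X.H.lg_rp] at a
  rw [Pm.uL, logb_div (X.H.rp0 _).ne' x0.ne', logb_div (by positivity) θ0.ne', X.H.lg_rp, lg_Bu X,
    Pm.xM]
  have := X.lg_sM.1; have := X.hc; have := X.H.c_pos
  rcases X.lg_pl with ⟨_, _, -⟩ | ⟨_, _, -⟩ <;> linarith

/-- the output energy of the table -/
theorem en_le (hy : 0 ≤ y) :
    p.EnL σ t y + p.t1L * p.p0L σ t y ^ 2 ≤ 2 * (p.nc (1 / 50) * p.NL σ t y) := by
  have N := (Bu0 X).trans_le (Bu_le X hy)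
  have c0 := X.H.c_pos
  have a : p.nc (1 / 100) ≤ p.nc (1 / 50) := Pre29.rp_le X.H.n1 (by rw [X.H.hc]; linarith)
  have b : p.nc (1 / 100) ^ 2 = p.nc (1 / 50) := by
    rw [Pm.nc, Pre29.rp_pow, Pm.nc]; congr 1; push_cast; ring
  have d : p.t1L ≤ 1 := div_le_one_of_le₀ (one_le_pow₀ (one_le_rpow X.H.N1.le (by
    rw [X.H.hc]; linarith))) (pow_pos (nc0 X _) 3).le
  rw [Pm.EnL, Pm.p0L, mul_pow, sq_sqrt N.le, b]
  nlinarith [mul_le_mul_of_nonneg_right a N.le,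
    mul_le_mul_of_nonneg_right d (mul_pos (nc0 X (1 / 50)) N).le]

/-- **one pass** -/
theorem pass (G : GrD K' c0' C0' η' p σ t Q) (P : p.PlX σ t Q)
    (hK : 5 * (406 + 8 * K') ≤ (p.n : ℝ) ^ η) {m : ℕ} {a t0 u En : ℝ} (hy : 0 ≤ y)
    (h : (p.gst Q t).Phi (p.scG K' σ t Q) m a ≤ p.PhN t)
    (L : LO ((p.n : ℝ) ^ η) (p.scG K' σ t Q) (p.gst Q t) m a t0 u En)
    (h0 : t0 ≤ (p.gst Q t).s (p.scG K' σ t Q).J / 2) (hu : u ≤ p.NL σ t y / p.muG t)
    (hE : En ≤ 2 * (p.nc (1 / 50) * p.NL σ t y)) :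
    Top (p.scG K' σ t Q) (p.gst Q t) m a ≤ p.nxL σ t y := by
  have c := G.cl.1
  refine le_min ((En_Phi c rfl _ _).trans h) ?_
  have θ0 := X.θ0
  have N := (Bu0 X).trans_le (Bu_le X hy)
  have n1 : 1 ≤ p.nc (1 / 50) := one_le_rpow X.H.N1.le (by rw [X.H.hc]; linarith [X.H.c_pos])
  have n0 := nc0 X (1 / 50)
  have Λ0 := X.H.Λ0
  have y1 := Tp4.ye_T X G
  have f : mf (p.scG K' σ t Q) ((p.gst Q t).s (p.scG K' σ t Q).J / 2) = p.muG t := by
    change p.msG t _ / 1 = _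
    rw [div_one, X.H.msG_hi t (by rw [R62.T0] at y1; linarith [X.H.ye0])]
  have hθ : (p.scG K' σ t Q).θ = p.muG t := G.top
  have b0 : p.NL σ t y / p.muG t ≤ 2 * (p.nc (1 / 50) * p.NL σ t y) / p.muG t :=
    div_le_div_of_nonneg_right (by nlinarith) θ0.le
  have b1 := (Bt_le X).trans ((div_le_div_of_nonneg_right (Bu_le X hy) θ0.le).trans b0)
  refine (top_LO c L Λ0.le h0 (B := 2 * (p.nc (1 / 50) * p.NL σ t y) / p.muG t) ?_ ?_
    (hu.trans b0) ((Tp4.G_Bt X G P hK _ _).trans b1) ?_ ((Tp4.n_Bt X G P).trans b1)).trans ?_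
  · rw [f]; exact div_le_div_of_nonneg_right hE θ0.le
  · rw [hθ]; exact div_le_div_of_nonneg_right hE θ0.le
  · rw [Kn72.flat G (Plt13.xk_of X.H X.o G P).g0 _ c.i3 le_rfl, sub_self, zero_pow two_ne_zero]
    positivity
  · have e : 14 * ((p.n : ℝ) ^ η * p.nc (1 / 50)) ≤ p.nc (1 / 40) :=
      X.H.le_of_lg (by positivity) (nc0 X _) (by
        rw [logb_mul (by norm_num) (by positivity), logb_mul Λ0.ne' n0.ne', X.H.lg_rp, lg_nc X,
          lg_nc X]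
        linarith [(X.H.lg_num (x := 14) (by norm_num) (by norm_num)).2, X.hη, X.H.η_pos])
    calc _ = 14 * ((p.n : ℝ) ^ η * p.nc (1 / 50)) * p.NL σ t y / p.muG t := by ring
      _ ≤ _ := by gcongr

end g

/-- **the three passes** -/
theorem apT_of {β : ℝ} {R : Pm → ℝ → ℝ → Prop} (hβ : 1 < β) (T : TL2y) (h : OnG (PsY R) β) :
    OnG (ApT R) β := by
  refine OnG.cl' hβ T h (e := 1 / 100000) (c1 := 1 / 2000) (by norm_num) (by norm_num) (10 ^ 6) 0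
    (fun _ => 1) fun K c0 C0 A c η K' c0' C0' η' p σ t Q G hc _ hη _ L Y m a hm h1 h2 => ?_
  have η0 := G.R.η_pos
  push_cast at hη
  have X : Nr44.Cx β c0 C0 A c η K' p σ t := ⟨G.R, hc, by linarith, G.O⟩
  have E4 : 4 ≤ p.EL := le_trans (by linarith [G.R.num_le])
    (Pre29.rp_le G.R.n1 (show η ≤ 1 / 100000 * p.c by rw [G.R.hc]; linarith))
  have step : ∀ y, p.XloL σ t ≤ y → y ≤ p.PhN t → Top (p.scG K σ t Q) (p.gst Q t) m a ≤ y →
      Top (p.scG K σ t Q) (p.gst Q t) m a ≤ p.nxL σ t y := fun y a1 a2 a3 => by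
    obtain ⟨G1, u1, u2, j, γ, Lc, ηc, τ, l0, l, X', Xp, Vt, Lg, Lp, X2, X3, X4, G0, η1, N, g, t1, tu,
      ℓ, En, p0, H, b1, b2⟩ := Y m a hm h1 h2 y a1 a2 a3
    have O := (L m a hm G1 u1 u2 j γ Lc ηc τ l0 l X' Xp Vt Lg Lp X2 X3 X4 G0 η1 N g t1 tu ℓ En p0
      (by rw [← G.R.hc]; exact H)).1
    refine pass X G.D G.X G.BK ((Xlo0 X).le.trans a1) h1 O ?_ b1 b2
    have s0 := G.D.cl.1.s_nn (p.scG K σ t Q).J
    rcases le_total t1 0 with d | d
    · linarith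
    · linarith [H.lt.t1b, H.lt.tu1, mul_le_mul_of_nonneg_right E4 d]
  have x0 := (Xlo0 X).le
  have a1 := step _ (min_le_left _ _) le_rfl ((En_Phi G.D.cl.1 rfl _ _).trans h1)
  have a2 := Xlo_nx X X.Ph0.le
  exact ⟨Xlo_nx X (x0.trans a2), min_le_left _ _, step _ a2 (min_le_left _ _) a1⟩

/-- `Hy` at the last pass, in any regime `R` -/
theorem hyx_gen {β : ℝ} {R : Pm → ℝ → ℝ → Prop} (hβ : 1 < β) (T : TL2y)
    (h : OnG (fun p σ t S M => R p σ t → ∀ m a, S.In m a → M.Phi S m a ≤ p.PhN t →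
      ∀ y, p.XloL σ t ≤ y → y ≤ p.PhN t → Top S M m a ≤ y → R77.HyAt p σ t S M m a y) β) :
    OnG (fun p σ t S M => R p σ t → ∀ m a, S.In m a → M.Phi S m a ≤ p.PhN t →
      R77.HyAt p σ t S M m a (p.XpL σ t)) β := by
  have P : OnG (PsY R) β := OnG.cl' hβ CL.triv h (c1 := 1 / 2000) one_pos (by norm_num) (10 ^ 6) 0
    (fun _ => 1) fun K c0 C0 A c η K' c0' C0' η' p σ t Q G hc _ hη _ _ Y m a hm h1 h2 y a1 a2 a3 => by
      have η0 := G.R.η_pos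
      push_cast at hη
      have X : Nr44.Cx β c0 C0 A c η K' p σ t := ⟨G.R, hc, by linarith, G.O⟩
      have y0 := (Xlo0 X).le.trans a1
      exact ⟨_, _, _, _, _, _, _, _, _, _, _, _, _, _, _, _, _, _, _, _, _, _, _, _, _, _, _,
        Y h2 m a hm h1 y a1 a2 a3, uL_le X y0, en_le X y0⟩
  exact fun K k => (((apT_of hβ T P).and h) K k).mono
    fun _ _ e c0 C0 η σ t Q o G X h2 m a hm h1 =>
      have ⟨a1, a2, a3⟩ := (e c0 C0 η σ t Q o G X).1 m a hm h1 h2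
      (e c0 C0 η σ t Q o G X).2 h2 m a hm h1 _ a1 a2 a3

/-- **`Hy` at the last pass** -/
theorem hyx_of {β : ℝ} (hβ : 1 < β) (T : TL2y) (h : OnG R77.HyY β) : OnG R77.Hyx β := by
  first
  | exact hyx_gen (R := fun p _ t => p.Need t) hβ T h
  | exact fun K k => (hyx_gen (R := fun p _ t => p.Need t ∧ p.Need2 t) hβ T (fun K k =>
      (h K k).mono fun _ _ e c0 C0 η σ t Q o G X r => e c0 C0 η σ t Q o G X r.1 r.2) K k).mono
        fun _ _ e c0 C0 η σ t Q o G X a b => e c0 C0 η σ t Q o G X ⟨a, b⟩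

end Crest.Agent.T156.Alt.Ap39

end
end

-- ▼ part T156/LT2p_38
section

/-!
# Row 156 (helper38): the linear lines of `LT2.x4`, `LT2.en`, `LT2.pa` on the table `LtD_29`
-/

set_option autoImplicit false

namespace Crest.Agent.T156.Alt.Lt38

open Crest.Agent.T156.Alt.Ln97 (M12)
open Crest.Agent.T156.Alt.Lt76 (BL)

/-- exponents of `s, θ, xM, sM, X, X2, X3, G0, Lg`; `β` = exponent of the budget -/
structure Nb (c η s μ z sm φ χ2 χ3 γ L β : ℝ) : Prop where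
  c0 : 0 < c
  c1 : c ≤ 1 / 100000
  e0 : 0 ≤ η
  e1 : 1000000 * η ≤ c
  s0 : 0 ≤ s
  s1 : s ≤ 1 / 19
  m0 : -(1 / 3) - 4 * c ≤ μ
  m1 : μ ≤ -(7 * c)
  z0 : (z = μ + 1 / 3 ∧ 0 ≤ z) ∨ (z = 0 ∧ μ + 1 / 3 ≤ 0)
  sm0 : 0 ≤ sm
  sm1 : s ≤ sm ∨ -(2 * c) - μ ≤ sm
  f0 : φ ≤ -(7 / 25)
  f1 : φ ≤ -(5 / 9) - 2 / 3 * μ + c / 100 ∨ φ ≤ 3 * s - 1 / 2 + c ∨
    2 * φ ≤ 5 * s - 19 / 18 - 2 / 3 * μ + c ∨
    (2 * φ ≤ 5 * s - 5 / 6 + c ∧ 2 * φ ≤ 25 / 4 * s - 25 / 24 - μ / 2 + c) ∨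
    (2 * φ ≤ 5 * s - 5 / 6 + c ∧ 2 * φ ≤ 10 * s - 5 / 3 - 2 * μ + c)
  x2 : χ2 ≤ φ + c / 1000
  x2' : χ2 ≤ 2 / 3 * φ + s - 1 / 6 + c / 10 ∨ χ2 ≤ 2 / 3 * φ - 7 / 60 + c / 1000
  x3 : χ3 ≤ -(101 / 200) + η ∨ χ3 ≤ 3 / 2 * χ2 + η
  g0 : γ ≤ 5 * c - 1 / 3 - z / 2 + η ∨ γ ≤ c / 3 - 5 / 12 - μ / 2 + z / 4 + φ / 4 ∨ γ ≤ χ2 + η
  L0 : L = c / 50000
  b0 : -(1 / 3) - z - 19 / 40 * c + 2 * sm ≤ β

/-- a level `T` above the first thick level, `m` = exponent of the mass -/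
structure Lv (c η μ φ χ2 T m : ℝ) : Prop where
  t0 : φ / 3 ≤ T
  t1 : T ≤ η
  t2 : (-c + 2 * T ≤ m ∧ -(1 / 6) + 49 / 100 * c ≤ T ∧ χ2 / 2 + c / 2 ≤ T) ∨
    (μ + 3 / 2 * T + 4 * c ≤ m ∧ T ≤ -(3 * c) ∧ -(1 / 3) - c / 50 ≤ m ∧ χ2 ≤ m) ∨
    (-(11 * c) ≤ T ∧ μ - 15 * c ≤ m ∧ μ - 5 * c + T ≤ m)

variable {c η s μ z sm φ χ2 χ3 γ L β T m π : ℝ}

set_option hygiene false in
macro "nb38" : tactic => `(tactic| (
  rcases z0 with ⟨z0, z1⟩ | ⟨z0, z1⟩ <;>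
  first
  | linarith
  | (rcases sm1 with sm1 | sm1 <;>
    first
    | linarith
    | (rcases f1 with f1 | f1 | f1 | ⟨f1, f2⟩ | ⟨f1, f2⟩ <;>
      first
      | linarith
      | (rcases x2' with x2' | x2' <;> linarith)))))

set_option hygiene false in
macro "lv38" : tactic => `(tactic| (
  rcases t2 with ⟨t2, t3, t4⟩ | ⟨t2, t3, t4, t5⟩ | ⟨t2, t3, t4⟩ <;> nb38))

/-- the residual at the top levels -/
theorem Nb.top (h : Nb c η s μ z sm φ χ2 χ3 γ L β) (t0 : -c ≤ T) :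
    M12 η L (φ / 3) χ2 χ3 γ T μ (-(2 / 5)) := by
  obtain ⟨c0, c1, e0, e1, s0, s1, m0, m1, z0, sm0, sm1, f0, f1, x2, x2', x3, g0, L0, b0⟩ := h
  subst L0
  clear f1 x2' sm1
  have g : γ ≤ -(27 / 100) := by
    rcases z0 with ⟨z0, z1⟩ | ⟨z0, z1⟩ <;> rcases g0 with g0 | g0 | g0 <;> linarith
  have x : χ3 ≤ -(41 / 100) := by rcases x3 with x3 | x3 <;> linarith
  exact ⟨by linarith, by linarith, by linarith, by linarith, by linarith, by linarith, by linarith,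
    by linarith, by linarith, by linarith, by linarith, by linarith⟩

theorem Nb.lo (h : Nb c η s μ z sm φ χ2 χ3 γ L β) :
    -(2 / 3) ≤ β ∧ -(2 / 3) - 5 * c ≤ β + μ ∧ -(4 / 3) * (1 + μ) + c ≤ β ∧
      -3 * (1 + μ) + 7 * φ + 4 * c ≤ 6 * β ∧ 2 * φ + c / 100 ≤ β := by
  obtain ⟨c0, c1, e0, e1, s0, s1, m0, m1, z0, sm0, sm1, f0, f1, x2, x2', x3, g0, L0, b0⟩ := h
  clear x3 g0
  refine ⟨?_, ?_, ?_, ?_, ?_⟩ <;> nb38

/-- `l³ X` -/
theorem Nb.l3 (h : Nb c η s μ z sm φ χ2 χ3 γ L β) {a e : ℝ}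
    (he : e ≤ -(15 / 1000 * c) ∨ e ≤ c / 100 + χ2 + 1 / 3)
    (ha : a ≤ c / 3000 + φ / 3 ∨ a ≤ -(10 * c) ∧
      (a ≤ 2 / 3 * (e - 1 / 3 - μ - 4 * c) ∨ a ≤ (e - 1 / 3 + c) / 2)) :
    3 * a + φ ≤ β := by
  have k := h.lo.2.2.2.2
  obtain ⟨c0, c1, e0, e1, s0, s1, m0, m1, z0, sm0, sm1, f0, f1, x2, x2', x3, g0, L0, b0⟩ := h
  clear x3 g0
  rcases ha with ha | ⟨ha, hb⟩
  · linarith
  rcases he with he | he <;> rcases hb with hb | hb <;> nb38

end Crest.Agent.T156.Alt.Lt38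
end

-- ▼ part T156/LT2g_38
section

/-!
# Row 156 (helper38): `LT2`, `jg`, `TP` on the numbers of `LtD_29` (all lines but `x4 en pa`)
-/

set_option autoImplicit false
set_option linter.unusedSectionVars false

noncomputable section

namespace Crest.Agent.T156.Alt.Lt38

open Real Finset
open Crest.Agent.T156.Alt.L69 (GS dx L4 cB bs)
open Crest.Agent.T156.Alt.L63 (LT2 TP)
open Crest.Agent.T156.Alt.Nr44 (Cx)
open Crest.Agent.T156.Alt.Kn72 (nu)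

theorem sJ3 {S : Sc} {M : Md} (c : Cl S M) : 1 ≤ 3 * S.C ^ 3 * M.s S.J := by
  have i2 := c.i2
  have i1 := c.i1
  have C0 := c.C0
  have C1 := c.C1
  have a1 := (c.z_s (k := S.J - 1) (by omega) (by omega)).2
  have a2 := (c.s_bds (k := S.J - 1) (by omega)).1
  have a3 : (1 : ℝ) ≤ (S.J - 1 : ℕ) := by exact_mod_cast (by omega : 1 ≤ S.J - 1)
  have a4 := mul_le_mul_of_nonneg_right a3 (div_pos c.v0 C0).le
  have a5 : S.v ≤ S.C * M.s (S.J - 1) := by rw [← div_le_iff₀' C0]; linarith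
  have a6 := c.atom.1
  have a7 : M.s (S.J - 1) ≤ M.s S.J := c.sm (by omega)
  have a8 := c.s_nn (S.J - 1)
  rw [div_le_iff₀ C0] at a6
  generalize M.s (S.J - 1) = s at *
  have b1 : M.z (S.J - 1) ≤ 3 * S.C ^ 2 * s := by
    nlinarith [mul_le_mul_of_nonneg_left a5 C0.le, mul_le_mul_of_nonneg_right C1 (mul_nonneg C0.le a8)]
  nlinarith [mul_le_mul_of_nonneg_right b1 C0.le,
    mul_le_mul_of_nonneg_left a7 (by positivity : 0 ≤ 3 * S.C ^ 3)]

variable {β c0 C0 c0' C0' η' : ℝ} {A : ℕ} {c η K K' : ℝ} {p : Pm} {σ t y : ℝ} {Q : Pl}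

section num

variable (X : Cx β c0 C0 A c η K p σ t) (hη : 1000000 * η ≤ c)
include X

theorem nc0 (e : ℝ) : 0 < p.nc e := X.H.rp0 _
theorem lg_nc (e : ℝ) : logb p.n (p.nc e) = e * c := by rw [Pm.nc, X.H.lg_rp, X.H.hc]
theorem E0 : 0 < p.EL := nc0 X _
theorem lg_E : logb p.n p.EL = c / 100000 := by rw [Pm.EL, lg_nc X]; ring
theorem lg_x : logb p.n (p.lN t) = logb p.n (p.PhN t) / 3 := by
  rw [Pm.lN, logb_rpow_eq_mul_logb_of_pos X.Ph0]; ring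
theorem lg_X : 3 * logb p.n p.r + c / 4000 ≤ logb p.n (p.PhN t) ∧
    logb p.n (p.PhN t) ≤ -(1 / 9) := by
  have h := X.hy
  have a := (X.H.lg_PhG_bds h.hη h.hε h.M h.E1 h.E2).2
  have b := (X.H.lg_PhG X.Mt (X.H.rp0 (p.c / 1000))).1.2.1
  rw [X.lg_Ph]
  constructor <;> linarith [X.H.c_pos]
theorem lg_θ : logb p.n (p.muG t) ≤ -(7 * c) := (X.H.lg_muG' X.Mt).2
theorem x1 : p.lN t ≤ 1 := X.H.le_of_lg X.lN0 one_pos (by
  rw [lg_x X, logb_one]; linarith [(lg_X X).2])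
theorem r_x : p.r ≤ p.lN t := X.H.le_of_lg X.H.r0 X.lN0 (by
  rw [lg_x X]; linarith [(lg_X X).1, X.H.c_pos])

theorem l0_x : p.l0L t ≤ p.lN t := by
  refine max_le (X.H.le_of_lg (mul_pos (pow_pos (E0 X) 2) X.H.rj0) X.lN0 ?_)
    ((le_max_right _ _).trans X.l0l)
  rw [logb_mul (pow_pos (E0 X) 2).ne' X.H.rj0.ne', logb_pow, lg_E X, X.H.lg_rj, lg_x X]
  push_cast
  linarith [(lg_X X).1, X.H.lg_r, X.H.c_pos]

theorem l00 : 0 < p.l0L t := lt_max_of_lt_left (mul_pos (pow_pos (E0 X) 2) X.H.rj0)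

theorem u0_x : Plt13.u0 p (p.mt (p.muG σ)) ≤ p.lN t := by
  have a : 0 < p.la (p.mt (p.muG σ)) := X.la0
  refine X.H.le_of_lg (rpow_pos_of_pos a _) X.lN0 ?_
  rw [Plt13.u0, logb_rpow_eq_mul_logb_of_pos a, lg_x X]
  have := X.lg_laΦ
  change c / 20000 + 2 * logb p.n (p.la (p.mt (p.muG σ))) ≤ _ at this
  linarith [X.H.c_pos]

/-- the amplitude of the marks where block (L) is used -/
theorem lg_la (nd : p.Need t) : logb p.n (p.laG σ) ≤ -(1 / 6) - c / 6 + η := by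
  have H := X.H
  have m := H.muG_pos X.Mσ
  have a := H.lg_mono (pow_pos H.κ0 4) nd
  rw [logb_pow, H.lg_κ, logb_mul X.θ0.ne' (H.rp0 _).ne', H.lg_rp] at a
  push_cast at a
  have b := H.lg_mono X.θ0 (H.oct_mu X.o).2
  rw [logb_mul two_ne_zero m.ne'] at b
  have d : logb p.n (nu p σ) = _ := H.lg_mt m
  have e : -c - 1 / 3 - η ≤ logb p.n (nu p σ) := by
    rw [d]
    exact le_min (by linarith [H.lg_two.2]) (le_max_of_le_right (by linarith [H.η_pos]))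
  have := H.c_pos; have := H.η_pos
  rcases X.lg_pl with ⟨_, _, _⟩ | ⟨_, _, _⟩ <;> linarith

include hη

theorem ηE : (p.n : ℝ) ^ η ≤ p.EL :=
  Pre29.rp_le X.H.n1 (by rw [X.H.hc]; linarith [X.H.η_pos])
theorem E2 : 1000 ≤ p.EL := X.H.num_le.trans (ηE X hη)
theorem E_nc : 2 * p.EL ≤ p.nc (1 / 3000) := X.H.le_of_lg (by linarith [E0 X]) (nc0 X _) (by
  rw [logb_mul two_ne_zero (E0 X).ne', lg_E X, lg_nc X]; linarith [X.H.lg_two.2, X.H.η_pos])

theorem Ex_l : 2 * (p.EL * p.lN t) ≤ p.ltL t :=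
  le_trans (by nlinarith [E_nc X hη, X.lN0]) (le_max_left _ _)
theorem x_l : p.lN t ≤ p.ltL t := by nlinarith [Ex_l X hη, E2 X hη, X.lN0]
theorem lt0 : 0 < p.ltL t := X.lN0.trans_le (x_l X hη)
theorem l2 : 2 * p.l0L t ≤ p.ltL t := by nlinarith [Ex_l X hη, E2 X hη, X.lN0, l0_x X]
theorem lX : p.EL * p.PhN t ^ ((1 : ℝ) / 3) ≤ p.ltL t := by
  change p.EL * p.lN t ≤ _
  nlinarith [Ex_l X hη, E0 X, X.lN0]

theorem t1a : 2 * p.ltL t ≤ p.t1L := by
  have H := X.H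
  have := E0 X; have := X.lN0; have := nc0 X (1 / 3000); have := H.κ0
  have c0 := H.c_pos; have := X.hc; have := H.η_pos
  have a : 2 * (p.nc (1 / 3000) * p.lN t) ≤ 1 / p.EL ^ 3 := by
    refine H.le_of_lg (by positivity) (by positivity) ?_
    lg_norm
    rw [lg_E X, lg_nc X, lg_x X]
    linarith [H.lg_two.2, (lg_X X).2]
  have b : p.κ ^ 10 ≤ 1 / p.EL ^ 3 := by
    refine H.le_of_lg (by positivity) (by positivity) ?_
    lg_norm
    rw [lg_E X, H.lg_κ]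
    linarith
  have d := min_le_right (p.yL t) (p.κ ^ 10)
  have e : 0 < p.κ ^ 10 := by positivity
  rw [Pm.ltL, Pm.t1L, mul_max_of_nonneg _ _ zero_le_two]
  exact max_le a (by linarith)

theorem t1c : p.EL * p.PhN t ≤ p.t1L ^ 4 := by
  have H := X.H
  have := E0 X; have := X.Ph0
  rw [Pm.t1L]
  refine H.le_of_lg (by positivity) (by positivity) ?_
  lg_norm
  rw [lg_E X]
  linarith [(lg_X X).2, X.hc, H.c_pos]

theorem t1b : p.EL * p.t1L ≤ 1 / p.EL := by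
  have a := E2 X hη
  rw [Pm.t1L, mul_one_div, div_le_div_iff₀ (by positivity) (by positivity)]
  nlinarith [mul_pos (E0 X) (E0 X)]

theorem el2 : p.EL * p.elL t ≤ 1 / p.EL := by
  have H := X.H
  have := E0 X; have := X.lN0; have := X.θ0
  have c0 := H.c_pos; have := X.hc; have := H.η_pos
  have a : 2 * (p.EL ^ 3 * p.lN t) ≤ 1 / p.EL := by
    refine H.le_of_lg (by positivity) (by positivity) ?_
    lg_norm
    rw [lg_E X, lg_x X]
    linarith [H.lg_two.2, (lg_X X).2]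
  have b : 2 * (p.EL ^ 3 * √(p.muG t)) ≤ 1 / p.EL := by
    refine H.le_of_lg (by positivity) (by positivity) ?_
    lg_norm
    rw [lg_E X]
    linarith [H.lg_two.2, lg_θ X]
  rw [Pm.elL]
  linarith

theorem x_el : p.EL ^ 2 * p.lN t ≤ p.elL t :=
  mul_le_mul_of_nonneg_left (le_add_of_nonneg_right (sqrt_nonneg _)) (sq_nonneg _)
theorem el0 : 0 < p.elL t := (mul_pos (pow_pos (E0 X) 2) X.lN0).trans_le (x_el X hη)

theorem el1 : p.EL * √(p.muG t) ≤ p.elL t := by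
  have a := E2 X hη
  have b := sqrt_nonneg (p.muG t)
  have d := X.lN0
  rw [Pm.elL]
  nlinarith [mul_nonneg (mul_nonneg (E0 X).le (by linarith : 0 ≤ p.EL - 1)) b,
    mul_pos (pow_pos (E0 X) 2) d]

theorem Ex_el : p.EL * p.lN t ≤ p.elL t := by
  have a := E2 X hη
  nlinarith [x_el X hη, mul_nonneg (mul_nonneg (E0 X).le (by linarith : 0 ≤ p.EL - 1)) X.lN0.le]

theorem Lg1 : 1 ≤ p.LgL := one_le_pow₀ (by linarith [E2 X hη])

theorem Lg3 : p.EL * p.PhN t ^ ((1 : ℝ) / 3) ≤ p.LgL * p.elL t :=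
  (Ex_el X hη).trans (le_mul_of_one_le_left (el0 X hη).le (Lg1 X hη))





omit hη in
theorem Bu0 : 0 < p.BuL σ t := mul_pos (nc0 X _) (pow_pos (mul_pos X.sM0 X.la0) 2)

omit hη in
theorem NL0 (y0 : 0 ≤ y) : 0 < p.NL σ t y := by
  have := Bu0 X; have := nc0 X (1 / 20); have := X.θ0
  rw [Pm.NL]; positivity

/-- `E p0 ≤ x` -/
theorem p_x (nd : p.Need t) (y0 : 0 ≤ y) (hy : y ≤ p.PhN t) : p.EL * p.p0L σ t y ≤ p.lN t := by
  have H := X.H
  have := E0 X; have x0 := X.lN0; have := X.θ0; have := X.la0; have := X.Ph0; have := X.sM0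
  have := nc0 X (1 / 100); have := nc0 X (1 / 20); have := nc0 X (21 / 40)
  have c0 := H.c_pos; have := X.hc; have := H.η_pos
  have a : 2 * ((p.EL * p.nc (1 / 100)) ^ 2 * p.BuL σ t) ≤ p.lN t ^ 2 := by
    rw [Pm.BuL]
    refine H.le_of_lg (by positivity) (by positivity) ?_
    lg_norm
    rw [lg_E X, lg_x X, lg_nc X, lg_nc X]
    linarith [H.lg_two.2, (lg_X X).1, H.lg_r, lg_la X nd, X.lg_sM.2.1]
  have b : 2 * ((p.EL * p.nc (1 / 100)) ^ 2 *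
      (p.nc (1 / 20) * p.muG t * p.PhN t ^ ((4 : ℝ) / 3))) ≤ p.lN t ^ 2 := by
    refine H.le_of_lg (by positivity) (by positivity) ?_
    lg_norm
    rw [lg_E X, lg_x X, lg_nc X, lg_nc X]
    linarith [H.lg_two.2, (lg_X X).2, lg_θ X]
  have d : p.nc (1 / 20) * p.muG t * y ^ ((4 : ℝ) / 3) ≤
      p.nc (1 / 20) * p.muG t * p.PhN t ^ ((4 : ℝ) / 3) :=
    mul_le_mul_of_nonneg_left (rpow_le_rpow y0 hy (by norm_num)) (by positivity)
  have e := mul_le_mul_of_nonneg_left d (sq_nonneg (p.EL * p.nc (1 / 100)))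
  refine le_of_pow_le_pow_left₀ two_ne_zero x0.le ?_
  rw [Pm.p0L, ← mul_assoc, mul_pow, sq_sqrt (NL0 X y0).le, Pm.NL]
  linarith

theorem pc (nd : p.Need t) (y0 : 0 ≤ y) (hy : y ≤ p.PhN t) :
    p.EL * p.p0L σ t y ≤ p.ltL t ∧ p.EL * p.p0L σ t y ≤ p.elL t := by
  have a := p_x X hη nd y0 hy
  have b := E2 X hη
  exact ⟨a.trans (x_l X hη), by nlinarith [Ex_el X hη, X.lN0]⟩

variable (G : GrD K' c0' C0' η' p σ t Q)
include G

omit hη in
theorem lg_C : 1 ≤ 8 * K' ^ 2 ∧ 0 ≤ logb p.n (8 * K' ^ 2) ∧ logb p.n (8 * K' ^ 2) ≤ η :=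
  have a : 1 ≤ 8 * K' ^ 2 := G.cl.1.C1
  ⟨a, X.H.lg_cst a (by linarith [G.nb.K3.2.2, G.nb.lg, X.H.log_le])⟩

theorem CE : 24 * (8 * K' ^ 2) ^ 3 ≤ p.EL := by
  obtain ⟨a, -, b⟩ := lg_C X G
  generalize 8 * K' ^ 2 = C at *
  refine X.H.le_of_lg (by positivity) (E0 X) ?_
  lg_norm
  rw [lg_E X]
  linarith [(X.H.lg_num (x := 24) (by norm_num) (by norm_num)).2, X.H.η_pos]

theorem E_tz : 4 * (1 / p.EL) ≤ tz K' := by
  have a := (lg_C X G).1
  rw [tz, mul_one_div, div_le_div_iff₀ (E0 X) (by positivity)]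
  linarith [CE X hη G]

theorem E_sJ : 1 / p.EL ≤ (p.gst Q t).s (p.scG K' σ t Q).J := by
  have a := sJ3 G.cl.1
  have b := CE X hη G
  have d := G.cl.1.s_nn (p.scG K' σ t Q).J
  have e := (lg_C X G).1
  change 1 ≤ 3 * (8 * K' ^ 2) ^ 3 * _ at a
  rw [div_le_iff₀ (E0 X)]
  nlinarith [mul_le_mul_of_nonneg_left b d, mul_nonneg d (by positivity : 0 ≤ (8 * K' ^ 2) ^ 3)]

theorem tu_bd : 1 / p.EL ≤ p.tuL t ((p.gst Q t).s (p.scG K' σ t Q).J) ∧
    p.tuL t ((p.gst Q t).s (p.scG K' σ t Q).J) ≤ (p.gst Q t).s (p.scG K' σ t Q).J := by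
  rw [Pm.tuL]
  split_ifs
  · exact ⟨E_sJ X hη G, le_rfl⟩
  · exact ⟨le_rfl, E_sJ X hη G⟩

theorem l_tz : 2 * p.ltL t ≤ tz K' := by
  have a := E2 X hη
  have b := t1b X hη
  have d : 0 < p.t1L := by rw [Pm.t1L]; positivity
  have e : 0 < 1 / p.EL := by positivity
  nlinarith [t1a X hη, E_tz X hη G]

/-- the window of the marks is shorter than `E² x` -/
theorem win : 16 * (8 * K' ^ 2) ^ 2 * (log p.n * Plt13.u0 p (p.mt (p.muG σ))) ≤
    p.EL ^ 2 * p.lN t := by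
  obtain ⟨a, -, b⟩ := lg_C X G
  have l := X.H.log1
  have d : 16 * (8 * K' ^ 2) ^ 2 * log p.n ≤ p.EL ^ 2 := by
    have := E0 X
    generalize 8 * K' ^ 2 = C at *
    refine X.H.le_of_lg (by positivity) (by positivity) ?_
    lg_norm
    rw [lg_E X]
    linarith [(X.H.lg_num (x := 16) (by norm_num) (by norm_num)).2, X.H.η_pos, X.H.lg_log.2]
  rw [← mul_assoc]
  exact mul_le_mul d (u0_x X) (rpow_pos_of_pos X.la0 _).le (sq_nonneg _)

omit hη in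
theorem gT0 : 0 ≤ 4 * (p.muG t * K' * p.laG σ) := by
  have := X.θ0; have := X.la0; have := G.nb.K1
  positivity

/-- the top value of `g` in the top regime -/
theorem gT_top (h : p.TopR t) :
    p.EL * (4 * (p.muG t * K' * p.laG σ)) ≤ p.muG t ^ ((3 : ℝ) / 2) := by
  have H := X.H
  have := E0 X; have := X.θ0; have := X.la0; have K1 := G.nb.K1
  have c0 := H.c_pos; have := X.hc; have := H.η_pos
  obtain ⟨a, -, b⟩ := lg_C X G
  have k : logb p.n K' ≤ η := (H.lg_mono (by linarith) (by nlinarith)).trans b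
  have d := H.lg_mono (nc0 X _) h
  rw [lg_nc X, logb_mul X.θ0.ne' (H.rp0 _).ne', H.lg_rp] at d
  have e := X.lg_θν
  have K0 : 0 < K' := by linarith
  refine H.le_of_lg (by positivity) (by positivity) ?_
  lg_norm
  rw [lg_E X]
  have n4 := (H.lg_num (x := 4) (by norm_num) (by norm_num)).2
  rcases X.lg_pl with ⟨_, _, _⟩ | ⟨_, _, _⟩ <;> linarith

theorem g2 (r : ℝ) (h : r ≤ p.tuL t ((p.gst Q t).s (p.scG K' σ t Q).J)) :
    p.EL * gL K' (4 * (p.muG t * K' * p.laG σ)) r ≤ p.msG t r ^ ((3 : ℝ) / 2) := by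
  have H := X.H
  have m := (rpow_pos_of_pos (H.msG_pos X.Mt r) ((3 : ℝ) / 2)).le
  by_cases a : 4 * r ≤ tz K'
  · rw [gL_lo a, mul_zero]; exact m
  by_cases b : p.TopR t
  · have d : p.ye ≤ 1 / p.EL := by
      have := E0 X
      refine H.le_of_lg H.ye0 (by positivity) ?_
      lg_norm
      rw [lg_E X, H.lg_ye]
      linarith [H.c_pos]
    rw [H.msG_hi t (by linarith [E_tz X hη G, not_le.1 a])]
    exact (mul_le_mul_of_nonneg_left (gL_le (gT0 X G) r) (E0 X).le).trans (gT_top X hη G b)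
  · rw [Pm.tuL, if_neg b] at h
    exact absurd (by linarith [E_tz X hη G]) a

/-- **`LT2` on the table, free `ℓ ∈ [elL, 1 / E²]`, `Lg ≥ 1` and sizes** -/
theorem lt2' (PX : p.PlX σ t Q) {Xp Lg X2 X4 ℓ N En p0 : ℝ} {ηf : ℝ → ℝ} (hL : 1 ≤ Lg)
    (h1 : p.elL t ≤ ℓ) (h2 : p.EL * ℓ ≤ 1 / p.EL) (En0 : 0 ≤ En) (hp : p.EL * p0 ≤ p.lN t)
    (x4 : L4 (p.scG K' σ t Q) (p.PhN t ^ ((1 : ℝ) / 3)) (p.PhN t) (p.t1L / 2)
      (p.scG K' σ t Q).C X4)
    (en : cB (p.gst Q t) (p.scG K' σ t Q) ηf (p.t1L / 2) (p.scG K' σ t Q).C + X2 ^ 2 + X4 + N +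
      p.ltL t ^ 3 * p.PhN t + ((p.scG K' σ t Q).ms p.t1L * bs (p.scG K' σ t Q) Lg X2
        (gL K' (4 * (p.muG t * K' * p.laG σ)) p.t1L) ηf p.t1L) ^ 2 / p.t1L ≤ En)
    (pa : √(En / p.tuL t ((p.gst Q t).s (p.scG K' σ t Q).J)) + √En +
      ∑ k ∈ (Ioo (p.scG K' σ t Q).jl (p.scG K' σ t Q).J).filter fun k =>
        p.ltL t ≤ (p.gst Q t).s k ∧
          (p.gst Q t).s k ≤ p.tuL t ((p.gst Q t).s (p.scG K' σ t Q).J),
      dx (p.gst Q t) k * bs (p.scG K' σ t Q) Lg X2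
        (gL K' (4 * (p.muG t * K' * p.laG σ)) ((p.gst Q t).s k)) ηf ((p.gst Q t).s k) ≤ p0) :
    LT2 p.EL (p.scG K' σ t Q) (p.gst Q t) (p.l0L t) (p.ltL t) (p.PhN t) Xp Lg X2 X4
      (gL K' (4 * (p.muG t * K' * p.laG σ))) p.t1L
      (p.tuL t ((p.gst Q t).s (p.scG K' σ t Q).J)) ℓ N En p0 ηf := by
  have H := X.H
  have hθ : (p.scG K' σ t Q).θ = p.muG t := G.top
  obtain ⟨u1, u2⟩ := tu_bd X hη G
  have e2 := E2 X hη
  have l0 := (el0 X hη).trans_le h1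
  have k : p.EL ^ 2 * p.κ ≤ 1 := by
    have := E0 X; have := H.κ0
    refine H.le_of_lg (by positivity) one_pos ?_
    lg_norm
    rw [lg_E X, H.lg_κ]
    linarith [H.c_pos]
  exact
    { F1 := rfl, l2 := l2 X hη, g0 := gL_nn (gT0 X G)
      g1 := g1_off H X.o G PX le_rfl u2 (((win X hη G).trans (x_el X hη)).trans h1)
      g2 := fun r _ b => g2 X hη G r b
      gl := by rw [GS_lo G (l_tz X hη G), mul_zero]; exact En0
      lX := lX X hη
      Lg3 := ((Ex_el X hη).trans h1).trans (le_mul_of_one_le_left l0.le hL)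
      ml := fun r a _ => ml H X.o ((r_x X).trans (x_l X hη)) k (E0 X).le a
      ℓ1 := hθ ▸ (el1 X hη).trans h1
      ℓ2 := h2.trans u1, tu1 := u2, t1a := t1a X hη, t1b := (t1b X hη).trans u1, t1c := t1c X hη
      x4 := x4, en := en, pa := pa
      pc := ⟨hp.trans (x_l X hη), by nlinarith [Ex_el X hη, X.lN0]⟩ }

/-- **`LT2` on the numbers of `LtD_29`** -/
theorem lt2 (PX : p.PlX σ t Q) (nd : p.Need t) (y0 : 0 ≤ y) (hy : y ≤ p.PhN t) {ηf : ℝ → ℝ}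
    (x4 : L4 (p.scG K' σ t Q) (p.PhN t ^ ((1 : ℝ) / 3)) (p.PhN t) (p.t1L / 2)
      (p.scG K' σ t Q).C (p.X4L σ t))
    (en : cB (p.gst Q t) (p.scG K' σ t Q) ηf (p.t1L / 2) (p.scG K' σ t Q).C + p.X2L t ^ 2 +
      p.X4L σ t + p.NL σ t y + p.ltL t ^ 3 * p.PhN t + ((p.scG K' σ t Q).ms p.t1L *
        bs (p.scG K' σ t Q) p.LgL (p.X2L t)
        (gL K' (4 * (p.muG t * K' * p.laG σ)) p.t1L) ηf p.t1L) ^ 2 / p.t1L ≤ p.EnL σ t y)
    (pa : √(p.EnL σ t y / p.tuL t ((p.gst Q t).s (p.scG K' σ t Q).J)) + √(p.EnL σ t y) +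
      ∑ k ∈ (Ioo (p.scG K' σ t Q).jl (p.scG K' σ t Q).J).filter fun k =>
        p.ltL t ≤ (p.gst Q t).s k ∧
          (p.gst Q t).s k ≤ p.tuL t ((p.gst Q t).s (p.scG K' σ t Q).J),
      dx (p.gst Q t) k * bs (p.scG K' σ t Q) p.LgL (p.X2L t)
        (gL K' (4 * (p.muG t * K' * p.laG σ)) ((p.gst Q t).s k)) ηf ((p.gst Q t).s k) ≤
        p.p0L σ t y) :
    LT2 p.EL (p.scG K' σ t Q) (p.gst Q t) (p.l0L t) (p.ltL t) (p.PhN t) y p.LgL (p.X2L t)
      (p.X4L σ t) (gL K' (4 * (p.muG t * K' * p.laG σ))) p.t1L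
      (p.tuL t ((p.gst Q t).s (p.scG K' σ t Q).J)) (p.elL t) (p.NL σ t y) (p.EnL σ t y)
      (p.p0L σ t y) ηf :=
  lt2' X hη G PX (Lg1 X hη) le_rfl (el2 X hη) (mul_pos (nc0 X _) (NL0 X y0)).le
    (p_x X hη nd y0 hy) x4 en pa

end num

end Crest.Agent.T156.Alt.Lt38

end
end

-- ▼ part T156/NbU_44
section

/-!
# Row 156 (helper44): the dichotomies in the terms of `LtD_29`
-/

set_option autoImplicit false
set_option linter.unusedSectionVars false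

noncomputable section

namespace Crest.Agent.T156.Alt.Nr44

open Real Set

section lin
variable {s c ε x μ φ u m z χ : ℝ}

set_option maxHeartbeats 1000000 in
theorem Hp.y1 (h : Hp s c ε x μ φ u m z) (hq : u ≤ -(10 * c)) (χ1 : χ ≤ c / 1000 + φ)
    (χ2 : χ ≤ c / 1000 + 2 / 3 * φ + (c / 100 + (s + c / 13 - 1 / 6))) :
    χ + c / 20 ≤ -c + x + 3 / 2 * u := by hp44
set_option maxHeartbeats 1000000 in
theorem Hp.y1' (h : Hp s c ε x μ φ u m z) (hq : u ≤ -(10 * c)) (χ1 : χ ≤ c / 1000 + φ)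
    (χ2 : χ ≤ c / 1000 + 2 / 3 * φ - 7 / 60) : χ + c / 20 ≤ -c + x + 3 / 2 * u := by hp44
set_option maxHeartbeats 1000000 in
theorem Hp.y2 (h : Hp s c ε x μ φ u m z) (hq : u ≤ -(10 * c)) (χ1 : χ ≤ c / 1000 + φ)
    (χ2 : χ ≤ c / 1000 + 2 / 3 * φ + (c / 100 + (s + c / 13 - 1 / 6))) :
    χ + c / 20 ≤ -c + 2 * u := by hp44
set_option maxHeartbeats 1000000 in
theorem Hp.y2' (h : Hp s c ε x μ φ u m z) (hq : u ≤ -(10 * c)) (χ1 : χ ≤ c / 1000 + φ)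
    (χ2 : χ ≤ c / 1000 + 2 / 3 * φ - 7 / 60) : χ + c / 20 ≤ -c + 2 * u := by hp44
set_option maxHeartbeats 1000000 in
theorem Hp.mid (h : Hp s c ε x μ φ u m z) (hq : μ ≤ -(1 / 3) - 23 / 40 * c) : u ≤ -(c / 10) := by
  hp44

end lin

namespace Cx

variable {β c0 C0 : ℝ} {A : ℕ} {c η K : ℝ} {p : Pm} {σ t x : ℝ}
  (X : Cx β c0 C0 A c η K p σ t)
include X

theorem nc0 (e : ℝ) : 0 < p.nc e := X.H.rp0 _
theorem lg_nc (e : ℝ) : logb p.n (p.nc e) = e * c := by rw [Pm.nc, X.H.lg_rp, X.H.hc]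

theorem lg_x : 0 < p.muG t * (p.n : ℝ) ^ ((1 : ℝ) / 3) ∧
    logb p.n (p.muG t * (p.n : ℝ) ^ ((1 : ℝ) / 3)) = logb p.n (p.muG t) + 1 / 3 :=
  ⟨mul_pos X.θ0 (X.H.rp0 _), by rw [logb_mul X.θ0.ne' (X.H.rp0 _).ne', X.H.lg_rp]⟩

theorem need_iff : p.Need t ↔ -(1 / 3) - 4 * c ≤ logb p.n (p.muG t) := by
  rw [Pm.Need, ← logb_le_logb X.H.N1 (pow_pos X.H.κ0 4) X.lg_x.1, X.lg_x.2, logb_pow, X.H.lg_κ]
  push_cast
  constructor <;> intro <;> linarith

theorem topR_iff : p.TopR t ↔ -(1 / 3) - 23 / 40 * c ≤ logb p.n (p.muG t) := by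
  rw [Pm.TopR, ← logb_le_logb X.H.N1 (X.nc0 _) X.lg_x.1, X.lg_x.2, X.lg_nc]
  constructor <;> intro <;> linarith

theorem X20 : 0 < p.X2L t := mul_pos (X.nc0 _) (lt_min X.Ph0 (mul_pos (pow_pos X.lN0 2)
  (lt_max_of_lt_right (X.H.rp0 _))))

theorem lg_X2 : logb p.n (p.X2L t) = c / 1000 + min (logb p.n (p.PhN t))
    (2 / 3 * logb p.n (p.PhN t) + max (c / 100 + (logb p.n p.s + c / 13 - 1 / 6)) (-(7 / 60))) := by
  have H := X.H
  have a := mul_pos (X.nc0 (1 / 100)) H.rj0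
  have b := H.rp0 (-(7 : ℝ) / 60)
  have d := lt_max_of_lt_left (c := (p.n : ℝ) ^ (-(7 : ℝ) / 60)) a
  have e := pow_pos X.lN0 2
  rw [Pm.X2L, logb_mul (X.nc0 _).ne' (lt_min X.Ph0 (mul_pos e d)).ne', lg_min H.N1 X.Ph0
    (mul_pos e d), logb_mul e.ne' d.ne', lg_max H.N1 a b, logb_mul (X.nc0 _).ne' H.rj0.ne',
    X.lg_nc, X.lg_nc, H.lg_rp, H.lg_rj, logb_pow, lgl H X.hy]
  push_cast
  rw [show 1 / 1000 * c = c / 1000 by ring, show 1 / 100 * c = c / 100 by ring,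
    show (-7 / 60 : ℝ) = -(7 / 60) by ring,
    show 2 * (logb p.n (p.PhN t) / 3) = 2 / 3 * logb p.n (p.PhN t) by ring]

theorem E20 : 0 < p.E2L t := lt_max_of_lt_left (X.nc0 _)

theorem lg_E2 : logb p.n (p.E2L t) =
    max (-(15 / 1000 * c)) (c / 20 + logb p.n (p.X2L t) + 1 / 3) := by
  have H := X.H
  have a := mul_pos (X.nc0 (1 / 20)) X.X20
  rw [Pm.E2L, lg_max H.N1 (X.nc0 _) (mul_pos a (H.rp0 _)), logb_mul a.ne' (H.rp0 _).ne',
    logb_mul (X.nc0 _).ne' X.X20.ne', X.lg_nc, X.lg_nc, H.lg_rp]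
  congr 1 <;> ring

/-- **T1** -/
theorem t1L (h0 : p.l0G t (p.lN t) ≤ x) (h1 : x ≤ (p.n : ℝ) ^ η) (h : p.PN t x < p.PhN t) :
    p.Need t ∧ 8 * p.ltL t ≤ x ∧ (¬p.TopR t → x ≤ p.nc (-(1 / 10))) := by
  have H := X.H
  have k := X.hp h0 h1 h
  obtain ⟨a1, a2, a3⟩ := X.t1 h0 h1 h
  have x0 := (l00 H).trans_le h0
  have := X.hη; have := H.c_pos; have := H.η_pos
  refine ⟨X.need_iff.2 (a3.elim (fun _ => by linarith [k.a3]) fun b => b.2.1), ?_, fun b => ?_⟩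
  · have b1 : 8 * (p.nc (1 / 3000) * p.lN t) ≤ x := by
      have := X.nc0 (1 / 3000); have := X.lN0
      refine H.le_of_lg (by positivity) x0 ?_
      lg_norm
      linarith [X.lg_nc (1 / 3000), lgl H X.hy,
        (H.lg_num (x := 8) (by norm_num) (by norm_num)).2]
    have b2 : min (p.yL t) (p.κ ^ 10) ≤ x := by
      rcases le_total (-(10 * c)) (logb p.n x) with q | q
      · refine (min_le_right _ _).trans (H.le_of_lg (pow_pos H.κ0 _) x0 ?_)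
        rw [logb_pow, H.lg_κ]; push_cast; linarith
      · have e := X.lg_X2
        have e1 := min_le_left (logb p.n (p.PhN t)) (2 / 3 * logb p.n (p.PhN t) +
          max (c / 100 + (logb p.n p.s + c / 13 - 1 / 6)) (-(7 / 60)))
        have e2 := min_le_right (logb p.n (p.PhN t)) (2 / 3 * logb p.n (p.PhN t) +
          max (c / 100 + (logb p.n p.s + c / 13 - 1 / 6)) (-(7 / 60)))
        have y : logb p.n (p.X2L t) + c / 20 ≤ -c + logb p.n t + 3 / 2 * logb p.n x ∧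
            logb p.n (p.X2L t) + c / 20 ≤ -c + 2 * logb p.n x := by
          rcases max_choice (c / 100 + (logb p.n p.s + c / 13 - 1 / 6)) (-(7 / 60)) with r | r <;>
            rw [r] at e e1 e2
          · exact ⟨k.y1 q (by linarith) (by linarith), k.y2 q (by linarith) (by linarith)⟩
          · exact ⟨k.y1' q (by linarith) (by linarith), k.y2' q (by linarith) (by linarith)⟩
        rcases a3 with a3 | a3
        · have z : logb p.n (p.E2L t) ≤ 1 / 3 - c + logb p.n t + 3 / 2 * logb p.n x ∧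
              logb p.n (p.E2L t) ≤ 1 / 3 - c + 2 * logb p.n x := by
            rw [X.lg_E2]
            exact ⟨max_le (by linarith [k.a2]) (by linarith [y.1]),
              max_le (by linarith [k.a1]) (by linarith [y.2])⟩
          refine (min_le_left _ _).trans (max_le (H.le_of_lg (H.yA_pos X.Mt X.E20) x0 ?_)
            (H.le_of_lg (H.yB_pos X.E20) x0 ?_))
          · rw [H.lg_yA X.Mt X.E20]; linarith [z.1]
          · rw [H.lg_yB X.E20]; linarith [z.2]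
        · refine (min_le_right _ _).trans (H.le_of_lg (pow_pos H.κ0 _) x0 ?_)
          rw [logb_pow, H.lg_κ]; push_cast; linarith [a3.1]
    rw [Pm.ltL, mul_max_of_nonneg _ _ (by norm_num : (0 : ℝ) ≤ 8)]
    exact max_le b1 (by linarith)
  · rw [X.topR_iff] at b
    refine H.le_of_lg x0 (X.nc0 _) ?_
    rw [X.lg_nc]; linarith [k.mid (not_le.1 b).le]


end Cx

end Crest.Agent.T156.Alt.Nr44

end
end

-- ▼ part T156/LT2h_38
section

/-!
# Row 156 (helper38): the exponents of the table `LtD_29` and `LT2.x4`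
-/

set_option autoImplicit false
set_option linter.unusedSectionVars false

noncomputable section

namespace Crest.Agent.T156.Alt.Lt38

open Real Finset
open Crest.Agent.T156.Alt.L69 (GS dx L4 cB bs)
open Crest.Agent.T156.Alt.Ln97 (FX M12 eta)
open Crest.Agent.T156.Alt.Nr44 (Cx)
open Crest.Agent.T156.Alt.Kn72 (nu)

theorem ex_f {s c x μ φ : ℝ} (h : Nr44.Ex s c (c / 1000) x μ φ) (m0 : -(1 / 3) - 4 * c ≤ μ)
    (hc : c ≤ 1 / 100000) : φ ≤ -(7 / 25) ∧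
    (φ ≤ -(5 / 9) - 2 / 3 * μ + c / 100 ∨ φ ≤ 3 * s - 1 / 2 + c ∨
    2 * φ ≤ 5 * s - 19 / 18 - 2 / 3 * μ + c ∨
    (2 * φ ≤ 5 * s - 5 / 6 + c ∧ 2 * φ ≤ 25 / 4 * s - 25 / 24 - μ / 2 + c) ∨
    (2 * φ ≤ 5 * s - 5 / 6 + c ∧ 2 * φ ≤ 10 * s - 5 / 3 - 2 * μ + c)) := by
  obtain ⟨c0, c1, e0, e1, s0, s1, x0, x1, -, m1, m2, up⟩ := h
  rcases up with u | u | ⟨u, _, _⟩ | u | ⟨u, _⟩ | u | u | ⟨u, _, _⟩ | ⟨u, _⟩ | u | ⟨u, _⟩
  · exact ⟨by linarith, .inl (by linarith)⟩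
  · exact ⟨by linarith, .inr (.inl (by linarith))⟩
  · exact ⟨by linarith, .inl (by linarith)⟩
  · exact ⟨by linarith, .inr (.inl (by linarith))⟩
  · exact ⟨by linarith, .inl (by linarith)⟩
  · exact ⟨by linarith, .inr (.inr (.inl (by linarith)))⟩
  · exact ⟨by linarith, .inr (.inl (by linarith))⟩
  · exact ⟨by linarith, .inr (.inr (.inl (by linarith)))⟩
  · exact ⟨by linarith, .inr (.inr (.inr (.inl ⟨by linarith, by linarith⟩)))⟩
  · exact ⟨by linarith, .inr (.inl (by linarith))⟩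
  · exact ⟨by linarith, .inr (.inr (.inr (.inr ⟨by linarith, by linarith⟩)))⟩

variable {β c0 C0 c0' C0' η' : ℝ} {A : ℕ} {c η K K' : ℝ} {p : Pm} {σ t y : ℝ} {Q : Pl}
  (X : Cx β c0 C0 A c η K p σ t)
include X

theorem lg_add3 {a b d : ℝ} (a0 : 0 < a) (b0 : 0 < b) (d0 : 0 ≤ d) :
    logb p.n (a + b + d) ≤ logb p.n a + η ∨ logb p.n (a + b + d) ≤ logb p.n b + η ∨
      0 < d ∧ logb p.n (a + b + d) ≤ logb p.n d + η := by
  have n3 := (X.H.lg_num (x := 3) (by norm_num) (by norm_num)).2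
  have k : ∀ u, a ≤ u → b ≤ u → d ≤ u → logb p.n (a + b + d) ≤ logb p.n u + η := fun u h1 h2 h3 => by
    have := X.H.lg_mono (by positivity) (show a + b + d ≤ 3 * u by linarith)
    rw [logb_mul three_ne_zero (a0.trans_le h1).ne'] at this
    linarith
  rcases le_total a b with h | h
  · rcases le_total b d with h' | h'
    · exact .inr (.inr ⟨b0.trans_le h', k d (h.trans h') h' le_rfl⟩)
    · exact .inr (.inl (k b h le_rfl h'))
  · rcases le_total a d with h' | h'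
    · exact .inr (.inr ⟨a0.trans_le h', k d h' (h.trans h') le_rfl⟩)
    · exact .inl (k a le_rfl h h')

theorem lg_add2 {a b : ℝ} (a0 : 0 < a) (b0 : 0 < b) :
    logb p.n (a + b) ≤ logb p.n a + η ∨ logb p.n (a + b) ≤ logb p.n b + η := by
  have := lg_add3 X a0 b0 le_rfl
  rw [add_zero] at this
  exact this.imp id fun h => h.resolve_right fun e => lt_irrefl _ e.1

theorem xM0 : 0 < p.xM t := lt_max_of_lt_left one_pos

theorem lg_xM : logb p.n (p.xM t) = max 0 (logb p.n (p.muG t) + 1 / 3) := by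
  rw [Pm.xM, lg_max X.H.N1 one_pos X.lg_x.1, X.lg_x.2, logb_one]

theorem la_lo : -(1 / 6) - c / 2 - logb p.n (p.xM t) / 2 ≤ logb p.n (p.laG σ) := by
  have H := X.H
  have m := H.muG_pos X.Mσ
  have a := H.lg_mono m (H.oct_mu X.o).1
  have d : logb p.n (nu p σ) = _ := H.lg_mt m
  have z0 := le_max_left 0 (logb p.n (p.muG t) + 1 / 3)
  have z1 := le_max_right 0 (logb p.n (p.muG t) + 1 / 3)
  have c0 := H.c_pos
  have e : logb p.n (nu p σ) + 1 / 3 ≤ max 0 (logb p.n (p.muG t) + 1 / 3) := by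
    rw [d, ← le_sub_iff_add_le]
    exact (min_le_right _ _).trans (max_le (by linarith) (by linarith))
  rw [lg_xM X]
  rcases X.lg_pl with ⟨_, _, _⟩ | ⟨_, _, _⟩ <;> linarith

theorem lg_Bu : logb p.n (p.BuL σ t) =
    21 / 40 * c + 2 * logb p.n (p.sM t) + 2 * logb p.n (p.laG σ) := by
  have := X.la0; have := X.sM0; have := nc0 X (21 / 40)
  rw [Pm.BuL]
  lg_norm
  rw [lg_nc X]; ring


/-- **the exponents of the table** -/
theorem nb (hη : 1000000 * η ≤ c) (hc : c ≤ 1 / 100000) (nd : p.Need t) :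
    Nb c η (logb p.n p.s) (logb p.n (p.muG t)) (logb p.n (p.xM t)) (logb p.n (p.sM t))
      (logb p.n (p.PhN t)) (logb p.n (p.X2L t)) (logb p.n (p.X3L t)) (logb p.n (p.G0L σ t))
      (logb p.n p.LgL) (logb p.n (p.BuL σ t)) := by
  have H := X.H
  have m0 := X.need_iff.1 nd
  obtain ⟨f0, f1⟩ := ex_f (Nr44.ex H X.hy) m0 hc
  have c0 := H.c_pos
  have η0 := H.η_pos
  have e2 := X.lg_X2
  have la := la_lo X
  have := X.θ0; have := X.la0; have := X.Ph0; have := xM0 X; have := X.X20; have := H.N0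
  have := nc0 X 5; have := nc0 X (1 / 100); have := E0 X
  refine ⟨c0, hc, η0.le, hη, H.lg_s.1, H.lg_s.2, m0, lg_θ X, ?_, X.lg_sM.1, ?_, f0, f1, ?_, ?_, ?_,
    ?_, ?_, by rw [lg_Bu X]; linarith⟩
  · rw [lg_xM X]
    rcases le_total 0 (logb p.n (p.muG t) + 1 / 3) with h | h
    · rw [max_eq_right h]; exact .inl ⟨rfl, h⟩
    · rw [max_eq_left h]; exact .inr ⟨rfl, h⟩
  · have a := pow_pos H.κ0 2
    rw [Pm.sM, lg_min H.N1 H.s0 (div_pos a X.θ0), logb_div a.ne' X.θ0.ne', logb_pow, H.lg_κ,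
      le_min_iff, le_min_iff]
    push_cast
    rcases le_total (logb p.n p.s) (2 * -c - logb p.n (p.muG t)) with h | h
    · exact .inl ⟨le_rfl, h⟩
    · exact .inr ⟨by linarith, by linarith⟩
  · linarith [min_le_left (logb p.n (p.PhN t)) (2 / 3 * logb p.n (p.PhN t) +
      max (c / 100 + (logb p.n p.s + c / 13 - 1 / 6)) (-(7 / 60)))]
  · have e := min_le_right (logb p.n (p.PhN t)) (2 / 3 * logb p.n (p.PhN t) +
      max (c / 100 + (logb p.n p.s + c / 13 - 1 / 6)) (-(7 / 60)))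
    rcases max_choice (c / 100 + (logb p.n p.s + c / 13 - 1 / 6)) (-(7 / 60)) with r | r <;>
      rw [r] at e e2
    · exact .inl (by linarith)
    · exact .inr (by linarith)
  · refine (lg_add2 X (H.rp0 (-(101 : ℝ) / 200)) (rpow_pos_of_pos X.X20 ((3 : ℝ) / 2))).imp
      (fun h => ?_) fun h => ?_
    · rw [H.lg_rp] at h
      exact h.trans_eq (by ring)
    · rw [logb_rpow_eq_mul_logb_of_pos X.X20] at h
      exact h
  · have a : logb p.n (p.nc 5 * (p.n : ℝ) ^ (-(1 : ℝ) / 3) / √(p.xM t)) =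
        5 * c - 1 / 3 - logb p.n (p.xM t) / 2 := by
      lg_norm; rw [lg_nc X, H.lg_n]; ring
    have b : logb p.n (p.nc (1 / 100) * √(p.wL t * √(p.PhN t) / p.laG σ)) = c / 100 +
        (-1 - logb p.n (p.muG t) + logb p.n (p.PhN t) / 2 - logb p.n (p.laG σ)) / 2 := by
      rw [Pm.wL]; lg_norm; rw [lg_nc X, H.lg_n]; ring
    have w : 0 < p.wL t := by rw [Pm.wL]; positivity
    rcases lg_add3 X (a := p.nc 5 * (p.n : ℝ) ^ (-(1 : ℝ) / 3) / √(p.xM t))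
      (b := p.nc (1 / 100) * √(p.wL t * √(p.PhN t) / p.laG σ)) (by positivity) (by positivity)
      X.X20.le with h | h | ⟨-, h⟩
    · exact .inl (h.trans_eq (by rw [a]))
    · exact .inr (.inl (h.trans (by rw [b]; linarith)))
    · exact .inr (.inr h)
  · rw [Pm.LgL, logb_pow, lg_E X]; push_cast; ring

theorem lg_t1 : logb p.n p.t1L = -(3 / 100000 * c) := by
  have := E0 X
  rw [Pm.t1L]; lg_norm; rw [lg_E X]; ring

theorem t10 : 0 < p.t1L := by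
  have := E0 X
  rw [Pm.t1L]; positivity

theorem ms_hi {r : ℝ} (r0 : 0 < r) (h : -(3 * c) ≤ logb p.n r) : p.msG t r = p.muG t :=
  X.H.msG_hi t (X.H.le_of_lg X.H.ye0 r0 (by rw [X.H.lg_ye]; exact h))

/-- **`LT2.x4`** -/
theorem x4 (hη : 1000000 * η ≤ c) (hc : c ≤ 1 / 100000) (nd : p.Need t) {b : ℝ}
    (h : FX p.EL (p.scG K' σ t Q) (p.gst Q t) (p.l0L t) (p.ltL t) (p.lN t) (p.PhN t) p.LgL
      ((p.n : ℝ) ^ (-(2 : ℝ) / 3)) (p.X2L t) (p.X3L t) (p.G0L σ t)) :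
    L4 (p.scG K' σ t Q) (p.PhN t ^ ((1 : ℝ) / 3)) (p.PhN t) (p.t1L / 2) b (p.X4L σ t) := by
  obtain ⟨-, -, k1, k2, -⟩ := (nb X hη hc nd).lo
  have c0 := X.H.c_pos
  have e : (p.scG K' σ t Q).ms p.t1L = p.muG t := ms_hi X (t10 X) (by rw [lg_t1 X]; linarith)
  refine Lt52.x4_lg' X.H h rfl rfl (t1a X hη) (Bu0 X) ?_ ?_ <;> rw [e, lg_t1 X, Pm.X4L]
  · linarith
  · rw [lg_x X]; linarith

end Crest.Agent.T156.Alt.Lt38

end
end

-- ▼ part T156/LT2r_38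
section

/-!
# Row 156 (helper38): the linear lines of `LT2.pa` on the table `LtD_29`
-/

set_option autoImplicit false
set_option linter.unusedVariables false

namespace Crest.Agent.T156.Alt.Lt38

open Crest.Agent.T156.Alt.Ln97 (M12)
open Crest.Agent.T156.Alt.Lt76 (BL)

variable {c η s μ z sm φ χ2 χ3 γ L β T m π : ℝ}

theorem lv_of {x e : ℝ} (M : Hl4.Ms c η μ T m) (c0 : 0 < c) (e0 : 0 ≤ η) (e1 : 1000000 * η ≤ c)
    (m1 : μ ≤ -(7 * c)) (d0 : -(7 * c) ≤ μ ∨ x - 11 / 2 * c ≤ μ) (t0 : φ / 3 ≤ T) (t1 : T ≤ η)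
    (h : -(10 * c) - η ≤ T ∨ 2 / 3 * (e - 1 / 3 + c - x) - η ≤ T ∧ (e - 1 / 3 + c) / 2 - η ≤ T)
    (a1 : -(15 / 1000 * c) ≤ e) (a2 : c / 100 + χ2 + 1 / 3 ≤ e) : Lv c η μ φ χ2 T m := by
  refine ⟨t0, t1, ?_⟩
  rcases le_total (-(10 * c) - η) T with k | k
  · rcases M.lo with ⟨_, _ | _⟩ | ⟨_, _⟩ <;>
      exact .inr (.inr ⟨by linarith, by linarith, by linarith⟩)
  rcases h with h | ⟨h, h'⟩
  · rcases M.lo with ⟨_, _ | _⟩ | ⟨_, _⟩ <;>
      exact .inr (.inr ⟨by linarith, by linarith, by linarith⟩)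
  rcases M.lo with ⟨_, _ | _⟩ | ⟨_, _⟩
  · exact .inl ⟨by linarith, by linarith, by linarith⟩
  · rcases d0 with d0 | d0
    · exact .inl ⟨by linarith, by linarith, by linarith⟩
    · exact .inr (.inl ⟨by linarith, by linarith, by linarith, by linarith⟩)
  · linarith

set_option hygiene false in
macro "op38" : tactic => `(tactic| (
  obtain ⟨c0, c1, e0, e1, s0, s1, m0, m1, z0, sm0, sm1, f0, f1, x2, x2', x3, g0, L0, b0⟩ := h
  obtain ⟨t0, t1, t2⟩ := l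
  subst L0))

section
variable (h : Nb c η s μ z sm φ χ2 χ3 γ L β) (l : Lv c η μ φ χ2 T m) (hπ : c / 100 + β / 2 ≤ π)
include h l hπ

set_option maxHeartbeats 2000000 in
theorem Nb.p1 : 6 * L - (1 + T + m) ≤ π - 6 * η + m - T := by
  op38
  clear x3 g0; lv38
set_option maxHeartbeats 2000000 in
theorem Nb.p2 : 4 * L - 2 / 3 - T ≤ π - 6 * η + m - T := by
  op38
  clear x3 g0; lv38
set_option maxHeartbeats 2000000 in
theorem Nb.p3 : 5 / 2 * L - (1 + m) / 2 - (1 + T + m) / 3 ≤ π - 6 * η + m - T := by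
  op38
  clear x3 g0; lv38
set_option maxHeartbeats 2000000 in
theorem Nb.p4 : (L - (1 + m)) / 2 + χ2 / 2 ≤ π - 6 * η + m - T := by
  op38
  clear x3 g0; lv38
set_option maxHeartbeats 2000000 in
theorem Nb.p5 : γ + 2 * L - (1 + T + m) / 3 ≤ π - 6 * η + m - T := by
  op38
  clear x3; rcases g0 with g0 | g0 | g0 <;> lv38
set_option maxHeartbeats 2000000 in
theorem Nb.p6 : γ + χ2 / 2 ≤ π - 6 * η + m - T := by
  op38
  clear x3; rcases g0 with g0 | g0 | g0 <;> lv38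
set_option maxHeartbeats 2000000 in
theorem Nb.p7 : χ2 + 2 * L - (1 + T + m) / 3 ≤ π - 6 * η + m - T := by
  op38
  clear x3 g0; lv38
set_option maxHeartbeats 2000000 in
theorem Nb.p8 : 3 / 2 * χ2 ≤ π - 6 * η + m - T := by
  op38
  clear x3 g0; lv38
set_option maxHeartbeats 2000000 in
theorem Nb.p9 : χ3 ≤ π - 6 * η + m - T := by
  op38
  clear g0; rcases x3 with x3 | x3 <;> lv38
set_option maxHeartbeats 2000000 in
theorem Nb.p10 : -1 ≤ π - 6 * η + m - T := by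
  op38
  clear x3 g0; lv38
set_option maxHeartbeats 2000000 in
theorem Nb.p11 : η - (1 + m) ≤ π - 6 * η + m - T := by
  op38
  clear x3 g0; lv38
set_option maxHeartbeats 2000000 in
theorem Nb.p12 : η - (1 + m) / 7 + 6 / 7 * (3 * (φ / 3) - (1 + T + m) / 3) ≤
    π - 6 * η + m - T := by
  op38
  clear x3 g0; lv38
set_option maxHeartbeats 2000000 in
theorem Nb.p13 : T + χ2 ≤ π - 5 * η + m / 2 := by
  op38
  clear x3 g0; lv38
set_option maxHeartbeats 2000000 in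
theorem Nb.p14 : T + 4 * L - 2 / 3 * (1 + T + m) ≤ π - 5 * η + m / 2 := by
  op38
  clear x3 g0; lv38

theorem Nb.pa : M12 η L (φ / 3) χ2 χ3 γ T m (π - 6 * η + m - T) ∧
    BL η L χ2 T m (π - 6 * η + m - T) T (π - 5 * η) :=
  ⟨⟨h.p1 l hπ, h.p2 l hπ, h.p3 l hπ, h.p4 l hπ, h.p5 l hπ, h.p6 l hπ, h.p7 l hπ, h.p8 l hπ,
    h.p9 l hπ, h.p10 l hπ, h.p11 l hπ, h.p12 l hπ⟩, by linarith, h.p13 l hπ, h.p14 l hπ⟩

end

set_option maxHeartbeats 2000000 in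
/-- `l³ X` -/
theorem Nb.l3' (h : Nb c η s μ z sm φ χ2 χ3 γ L β) {a e : ℝ}
    (he : e ≤ -(15 / 1000 * c) ∨ e ≤ c / 10 + χ2 + 1 / 3)
    (ha : a ≤ c / 3000 + φ / 3 ∨ a ≤ -(10 * c) ∧
      (a ≤ 2 / 3 * (e - 1 / 3 - μ - 4 * c) ∨ a ≤ (e - 1 / 3 + c) / 2)) :
    3 * a + φ ≤ β := by
  have k := h.lo.2.2.2.2
  obtain ⟨c0, c1, e0, e1, s0, s1, m0, m1, z0, sm0, sm1, f0, f1, x2, x2', x3, g0, L0, b0⟩ := h
  clear x3 g0
  rcases ha with ha | ⟨ha, hb⟩
  · linarith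
  rcases he with he | he <;> rcases hb with hb | hb <;> nb38

end Crest.Agent.T156.Alt.Lt38
end

-- ▼ part T156/LT2q_38
section

/-!
# Row 156 (helper38): `LT2.en`, `LT2.pa` on the table `LtD_29` and the leaf `LTx`
-/

set_option autoImplicit false
set_option linter.unusedSectionVars false

noncomputable section

namespace Crest.Agent.T156.Alt.Lt38

open Real Finset
open Crest.Agent.T156.Alt.L69 (GS GP dx L4 cB bs)
open Crest.Agent.T156.Alt.Ln97 (FX M12 eta)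
open Crest.Agent.T156.Alt.Nr44 (Cx)
open Crest.Agent.T156.Alt.R77

section num

variable {β c0 C0 c0' C0' η' : ℝ} {A : ℕ} {c η K K' : ℝ} {p : Pm} {σ t y : ℝ} {Q : Pl}
  (X : Cx β c0 C0 A c η K p σ t) (hη : 1000000 * η ≤ c)
include X

theorem e_bd : -(15 / 1000 * c) ≤ logb p.n (p.E2L t) ∧
    c / 100 + logb p.n (p.X2L t) + 1 / 3 ≤ logb p.n (p.E2L t) ∧
    (logb p.n (p.E2L t) ≤ -(15 / 1000 * c) ∨
      logb p.n (p.E2L t) ≤ c / 10 + logb p.n (p.X2L t) + 1 / 3) := by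
  have c0 := X.H.c_pos
  rw [X.lg_E2]
  refine ⟨le_max_left _ _, le_max_of_le_right (by linarith), ?_⟩
  rw [max_def]
  split_ifs
  · exact .inr (by linarith)
  · exact .inl le_rfl

theorem lg_N (y0 : 0 ≤ y) : logb p.n (p.BuL σ t) ≤ logb p.n (p.NL σ t y) := by
  have := nc0 X (1 / 20); have := X.θ0
  exact X.H.lg_mono (Bu0 X) (le_add_of_nonneg_right (by positivity))

include hη

/-- a level above the first thick level -/
theorem lv {r : ℝ} (h : p.ltL t ≤ r) (h1 : logb p.n r ≤ η) :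
    Lv c η (logb p.n (p.muG t)) (logb p.n (p.PhN t)) (logb p.n (p.X2L t)) (logb p.n r)
      (logb p.n (p.msG t r)) := by
  have H := X.H
  have a := H.lg_mono (lt0 X hη) h
  have c0 := H.c_pos
  have n8 := (H.lg_num (x := 8) (by norm_num) (by norm_num)).2
  obtain ⟨e1, e2, -⟩ := e_bd X
  rw [Lt15.lg_ltL X, max_le_iff, Lt15.lg_yL X, sub_le_iff_le_add, min_le_iff, max_le_iff] at a
  exact lv_of (Hl4.ms_lg H X.Mt (((r_x X).trans (x_l X hη)).trans h)) c0 H.η_pos.le hη (lg_θ X)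
    (H.lg_muG66 X.Mt).1 (by linarith [a.1]) h1
    (a.2.elim (fun b => .inr ⟨by linarith [b.1], by linarith [b.2]⟩) fun b => .inl (by linarith))
    e1 e2

theorem l3 (hc : c ≤ 1 / 100000) (nd : p.Need t) :
    3 * logb p.n (p.ltL t) + logb p.n (p.PhN t) ≤ logb p.n (p.BuL σ t) := by
  have H := X.H
  have n8 := (H.lg_num (x := 8) (by norm_num) (by norm_num)).1
  have m2 := (H.lg_muG66 X.Mt).2.2
  have c0 := H.c_pos
  have η0 := H.η_pos
  refine (nb X hη hc nd).l3' (e_bd X).2.2 ?_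
  rw [Lt15.lg_ltL X, max_def]
  split_ifs
  · have a := min_le_left (logb p.n (p.yL t)) (-(10 * c))
    have b := min_le_right (logb p.n (p.yL t)) (-(10 * c))
    refine .inr ⟨by linarith, ?_⟩
    generalize min (logb p.n (p.yL t)) (-(10 * c)) = u at *
    rw [Lt15.lg_yL X, le_max_iff] at a
    exact a.imp (fun _ => by linarith) fun _ => by linarith
  · exact .inl le_rfl

variable (G : GrD K' c0' C0' η' p σ t Q) (hc : c ≤ 1 / 100000) (nd : p.Need t)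
  (hC : 8 * K' ^ 2 ≤ (p.n : ℝ) ^ η) (y0 : 0 ≤ y)
  (h : FX p.EL (p.scG K' σ t Q) (p.gst Q t) (p.l0L t) (p.ltL t) (p.lN t) (p.PhN t) p.LgL
    ((p.n : ℝ) ^ (-(2 : ℝ) / 3)) (p.X2L t) (p.X3L t) (p.G0L σ t))
include G hc nd hC y0 h

/-- **`LT2.pa`** -/
theorem pa : √(p.EnL σ t y / p.tuL t ((p.gst Q t).s (p.scG K' σ t Q).J)) + √(p.EnL σ t y) +
      ∑ k ∈ (Ioo (p.scG K' σ t Q).jl (p.scG K' σ t Q).J).filter fun k =>
        p.ltL t ≤ (p.gst Q t).s k ∧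
          (p.gst Q t).s k ≤ p.tuL t ((p.gst Q t).s (p.scG K' σ t Q).J),
      dx (p.gst Q t) k * bs (p.scG K' σ t Q) p.LgL (p.X2L t)
        (gL K' (4 * (p.muG t * K' * p.laG σ)) ((p.gst Q t).s k))
        (eta (p.scG K' σ t Q) (p.ltL t) p.LgL ((p.n : ℝ) ^ (-(2 : ℝ) / 3)) (p.PhN t) (p.X2L t)
          (p.X3L t) (p.G0L σ t)) ((p.gst Q t).s k) ≤ p.p0L σ t y := by
  have H := X.H
  have c0 := H.c_pos
  have η0 := H.η_pos
  have E0 := E0 X
  have u := (tu_bd X hη G).1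
  have u0 : 0 < 1 / p.EL := by positivity
  have lE : logb p.n (1 / p.EL) = -(c / 100000) := by lg_norm; rw [lg_E X]; ring
  have u1 := H.lg_mono u0 u
  have e := Lt15.lg_EnL X y0
  have q := Lt15.lg_p0L X y0
  have N := lg_N X y0
  refine Lt76.pa_lg H h rfl rfl hC (Lt52.hj H G hC) (Lt15.EnL0 X y0) (u0.trans_le u)
    (Lt15.p0L0 X y0) (fun r r1 _ r3 => ?_) (by linarith) (by linarith)
  have r0 := (lt0 X hη).trans_le r1
  have T := H.lg_le r0 (r3.trans hC)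
  obtain ⟨m, b⟩ := (nb X hη hc nd).pa (lv X hη r1 T)
    (show c / 100 + logb p.n (p.BuL σ t) / 2 ≤ logb p.n (p.p0L σ t y) by linarith)
  refine ⟨_, by rw [lg_x X]; exact m, Lt52.gL_of H (H.rp0 _).le ?_, b⟩
  refine (le_or_gt (4 * r) (tz K')).imp id fun z => ?_
  have z1 := H.lg_mono u0 (show 1 / p.EL ≤ r by linarith [E_tz X hη G])
  have K1 := G.nb.K1
  have K0 : 0 < K' := by linarith
  have k : logb p.n K' ≤ η := H.lg_le K0 (le_trans (by nlinarith) hC)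
  have := X.θ0; have := X.la0
  rw [ms_hi X r0 (by linarith)]
  refine H.le_of_lg (by positivity) (H.rp0 _) ?_
  rw [H.lg_rp]
  lg_norm
  linarith [(H.lg_num (x := 4) (by norm_num) (by norm_num)).2, lg_Bu X, X.lg_sM.1]

/-- **`LT2.en`** -/
theorem en (PX : p.PlX σ t Q) (hK : 5 * (406 + 8 * K') ≤ (p.n : ℝ) ^ η) :
    cB (p.gst Q t) (p.scG K' σ t Q) (eta (p.scG K' σ t Q) (p.ltL t) p.LgL
      ((p.n : ℝ) ^ (-(2 : ℝ) / 3)) (p.PhN t) (p.X2L t) (p.X3L t) (p.G0L σ t)) (p.t1L / 2)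
      (p.scG K' σ t Q).C + p.X2L t ^ 2 + p.X4L σ t + p.NL σ t y + p.ltL t ^ 3 * p.PhN t +
      ((p.scG K' σ t Q).ms p.t1L * bs (p.scG K' σ t Q) p.LgL (p.X2L t)
        (gL K' (4 * (p.muG t * K' * p.laG σ)) p.t1L)
        (eta (p.scG K' σ t Q) (p.ltL t) p.LgL ((p.n : ℝ) ^ (-(2 : ℝ) / 3)) (p.PhN t) (p.X2L t)
          (p.X3L t) (p.G0L σ t)) p.t1L) ^ 2 / p.t1L ≤ p.EnL σ t y := by
  have H := X.H
  have c0 := H.c_pos
  have η0 := H.η_pos
  have E0 := E0 X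
  have E2 := E2 X hη
  have t0 := t10 X
  have lt := lg_t1 X
  have u0 : 0 < 1 / p.EL := by positivity
  have lE : logb p.n (1 / p.EL) = -(c / 100000) := by lg_norm; rw [lg_E X]; ring
  have z := E_tz X hη G
  have z0 : 0 < tz K' := by linarith
  have z1 := H.lg_mono u0 (show 1 / p.EL ≤ tz K' by linarith)
  have e := Lt15.lg_EnL X y0
  have e0 := Lt15.EnL0 X y0
  have N := lg_N X y0
  have B := nb X hη hc nd
  obtain ⟨o1, o2, o3, -, o5⟩ := B.lo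
  have x2 := B.x2
  have L := B.L0
  have θ := lg_θ X
  have ξ := lg_x X
  have m1 : (p.scG K' σ t Q).ms p.t1L = p.muG t := ms_hi X t0 (by linarith)
  have m2 : (p.scG K' σ t Q).ms (tz K') = p.muG t := ms_hi X z0 (by linarith)
  have := X.θ0; have := X.la0; have := H.N0
  refine Lt52.en_lg' (b := -(2 / 5)) (B := (logb p.n (p.EnL σ t y) + logb p.n p.t1L - 3 * η) / 2)
    (Γ := ((p.n : ℝ) ^ η * (p.muG t * p.laG σ)) ^ 2) H h rfl rfl hC (Lt52.hj H G hC) (t1a X hη) e0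
    (Bu0 X) (fun r r1 r2 => ?_) (fun k a a' => G_lo G a a') z0.le
    (le_trans (le_add_of_nonneg_right (Tm71.GP_nn G.cl.1)) (Hy43.G_le H X.o G PX hK _ _)) ?_
    (by linarith) (by rw [Pm.X4L]; linarith) ?_ (by linarith [l3 X hη hc nd])
    (by rw [m1, ξ]; exact B.top (by linarith)) (gL_nn (gT0 X G) _)
    (Lt52.gL_of H (H.rp0 _).le (.inl (by nlinarith [t1b X hη])))
    (by rw [m1]; exact ⟨by linarith, by linarith, by linarith⟩) (by linarith)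
  · have a := H.lg_mono (half_pos t0) r1
    have r0 := (half_pos t0).trans_le r1
    have T := H.lg_le r0 (r2.trans hC)
    rw [logb_div t0.ne' two_ne_zero] at a
    have n2 := H.lg_two.2
    have m : (p.scG K' σ t Q).ms r = p.muG t := ms_hi X r0 (by linarith)
    rw [m, ξ]
    exact ⟨_, B.top (by linarith), by linarith⟩
  · rw [m2]
    refine Lt76.num_le H (by norm_num) (by positivity) (by positivity) ?_
    rw [logb_mul e0.ne' X.θ0.ne']
    lg_norm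
    rw [H.lg_n]
    linarith [lg_Bu X, X.lg_sM.1]
  · exact mul_le_mul_of_nonneg_right (le_trans (by linarith [H.num_le])
      (Pre29.rp_le H.n1 (show η ≤ 1 / 100 * p.c by rw [H.hc]; linarith))) (NL0 X y0).le

end num

/-- the input of `LN` on the table -/
def FXx : Dt := fun p σ t S M => p.Need t → p.Need2 t →
  FX p.EL S M (p.l0L t) (p.ltL t) (p.lN t) (p.PhN t) p.LgL ((p.n : ℝ) ^ (-(2 : ℝ) / 3)) (p.X2L t)
    (p.X3L t) (p.G0L σ t)

/-- **the leaf `LTx`** -/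
theorem ltxG {β : ℝ} (hβ : 1 < β) (hF : OnG FXx β) : OnG LTx β :=
  OnG.cl' hβ CL.triv hF one_pos (by norm_num : (0 : ℝ) < 1 / 100000) 1000000 0 (fun _ => 0)
    fun K c0 C0 A c η K' c0' C0' η' p σ t Q G a _ b _ _ r nd n2 y y0 y1 => by
    have b' : 1000000 * η ≤ c := by exact_mod_cast b
    have X : Cx β c0 C0 A c η K' p σ t := ⟨G.R, by linarith, by linarith [G.R.η_pos], G.O⟩
    have h := r nd n2
    have y2 : 0 ≤ y := (sq_nonneg _).trans ((la_Xlo X).trans y0)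
    rw [gG, etaL, kS_eq p (by linarith [G.D.nb.K1])]
    exact lt2 X b' G.D G.X nd y2 y1 (x4 X b' a nd h) (en X b' G.D a nd G.CK y2 h G.X G.BK)
      (pa X b' G.D a nd G.CK y2 h)

end Crest.Agent.T156.Alt.Lt38

end
end

-- ▼ part T156/BlkA_79
section

/-!
# Row 156 (helper79): the leaf `Blkx`, reduction to exponent lines
-/

set_option autoImplicit false
set_option linter.unusedSectionVars false

noncomputable section

namespace Crest.Agent.T156.Alt.Bk79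

open Real Finset
open Crest.Agent.T156.Alt.L69 (mf GS LO bs uw)
open Crest.Agent.T156.Alt.R62 (lw sb T0)
open Crest.Agent.T156.Alt.Tn15 (W)
open Crest.Agent.T156.Alt.Nr44 (Cx)

section cls

variable {S : Sc} {M : Md} {m : ℕ} {a : ℝ}

theorem mem {t t' : ℝ} {k : ℕ} :
    k ∈ sb S M t t' ↔ (S.jl < k ∧ k < S.J) ∧ t ≤ M.s k ∧ M.s k ≤ t' := by
  rw [sb, mem_filter, mem_Ioo]

theorem lw0 (c : Cl S M) (k : ℕ) : 0 ≤ lw M k := sub_nonneg.2 (c.leg.zm (Nat.sub_le k 1))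

/-- label weight of a time window -/
theorem wt (c : Cl S M) {t t' : ℝ} (h : t ≤ t') :
    ∑ k ∈ sb S M t t', lw M k ≤ S.C ^ 2 * (t' - t) + S.C * S.v := by
  have C0 := c.C0
  have v0 := c.v0
  have i1 := c.i1
  rcases (sb S M t t').eq_empty_or_nonempty with e | ne
  · rw [e, sum_empty]; have := sub_nonneg.2 h; positivity
  obtain ⟨⟨a1, a2⟩, a3, -⟩ := mem.1 ((sb S M t t').min'_mem ne)
  obtain ⟨⟨b1, b2⟩, -, b3⟩ := mem.1 ((sb S M t t').max'_mem ne)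
  have ab := (sb S M t t').min'_le _ ((sb S M t t').max'_mem ne)
  set i := (sb S M t t').min' ne
  set j := (sb S M t t').max' ne
  have k1 : ∀ k ∈ sb S M t t', lw M k ≤ S.C * S.v := fun k hk => by
    obtain ⟨⟨d1, d2⟩, -⟩ := mem.1 hk
    have := (c.zs (k - 1) (by omega) (by omega)).2
    rwa [show k - 1 + 1 = k by omega] at this
  have k2 : ((sb S M t t').card : ℝ) ≤ (j : ℝ) - i + 1 := by
    have := card_le_card (show sb S M t t' ⊆ Icc i j from fun k hk =>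
      mem_Icc.2 ⟨min'_le _ k hk, le_max' _ k hk⟩)
    rw [Nat.card_Icc] at this
    have e : ((j + 1 - i : ℕ) : ℝ) = (j : ℝ) - i + 1 := by
      rw [Nat.cast_sub (by omega)]; push_cast; ring
    rw [← e]; exact_mod_cast this
  have k3 : ∀ q, i ≤ q → q ≤ j → ((q : ℝ) - i) * (S.v / S.C) ≤ M.s q - M.s i := by
    intro q hq
    induction q, hq using Nat.le_induction with
    | base => intro _; simp
    | succ q hq ih =>
      intro hj
      have := (c.ss q (by omega)).1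
      have := ih (by omega)
      push_cast; linarith
  have k4 := k3 j ab le_rfl
  have k5 : ((j : ℝ) - i) * S.v ≤ S.C * (t' - t) := by
    rw [← mul_div_assoc, div_le_iff₀ C0] at k4
    nlinarith
  have k6 := (sum_le_card_nsmul _ _ _ k1).trans_eq (nsmul_eq_mul _ _)
  have k7 := mul_le_mul_of_nonneg_right k2 (mul_pos C0 v0).le
  have k8 := mul_le_mul_of_nonneg_left k5 C0.le
  linarith

/-- a block from a sup bound -/
theorem sup (c : Cl S M) {x D : ℝ} (hv : S.v ≤ x)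
    (hD : ∀ k, S.jl < k → k < S.J → x / 4 ≤ M.s k → M.s k ≤ 8 * x → |M.del m a k| ≤ D) :
    ∑ k ∈ sb S M (x / 4) (8 * x), lw M k * M.del m a k ^ 2 ≤ 9 * S.C ^ 2 * x * D ^ 2 := by
  have x0 := c.v0.trans_le hv
  have C1 := c.C1
  have w : ∑ k ∈ sb S M (x / 4) (8 * x), lw M k ≤ 9 * S.C ^ 2 * x := by
    have a1 : S.C * S.v ≤ S.C ^ 2 * x := by
      nlinarith [mul_le_mul_of_nonneg_left hv c.C0.le, mul_pos c.C0 x0]
    have := mul_pos (pow_pos c.C0 2) x0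
    linarith [wt c (show x / 4 ≤ 8 * x by linarith)]
  refine le_trans (sum_le_sum fun k hk => ?_) ((sum_mul _ _ _).symm.trans_le
    (mul_le_mul_of_nonneg_right w (sq_nonneg D)))
  obtain ⟨⟨a1, a2⟩, a3, a4⟩ := mem.1 hk
  refine mul_le_mul_of_nonneg_left ?_ (lw0 c k)
  rw [← sq_abs]
  exact pow_le_pow_left₀ (abs_nonneg _) (hD k a1 a2 a3 a4) 2


/-- the local size decreases with the level -/
theorem bs_anti (c : Cl S M) {Lg X2 g g' y r : ℝ} {η : ℝ → ℝ} (hη : η r ≤ η y) (η0 : 0 ≤ η r + g)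
    (hg : g ≤ g') (X0 : 0 ≤ X2) (y0 : 0 < y) (h : y ≤ r) :
    bs S Lg X2 g η r ≤ bs S Lg X2 g' η y := by
  have m0 := Tn15.mf0 c y0.le
  have m1 := Tn15.mf_mono c h
  have w0 := Tn15.W0 c (y0.trans_le h)
  have w1 := Tn15.W_anti c y0 h
  have e : ∀ t, uw S Lg t = Lg ^ 2 * W S t := fun t => by rw [uw, W, mul_assoc]
  rw [bs, bs, e, e]
  refine add_le_add (div_le_div₀ (by linarith) (by linarith) m0 m1) ?_
  gcongr

theorem ms4 (c : Cl S M) {x : ℝ} (x0 : 0 ≤ x) : S.ms x ≤ 16 * S.ms (x / 4) := by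
  have a1 := c.ms2 (x / 2) (by linarith)
  have a2 := c.ms2 (x / 4) (by linarith)
  rw [show 2 * (x / 2) = x by ring] at a1
  rw [show 2 * (x / 4) = x / 2 by ring] at a2
  linarith

end cls

variable {β c0 C0 : ℝ} {A : ℕ} {c η K : ℝ} {p : Pm} {σ t x : ℝ}

/-- the three lines below `PbN`; `y` = exponent of (energy of the block) / `x` -/
structure L3 (p : Pm) (t x y : ℝ) : Prop where
  a : y + logb p.n (p.msG t x) ≤ -(p.c / 2000) - 2 / 3 + 4 * logb p.n p.s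
  b : y + 2 * logb p.n (p.msG t x) + 8 / 25 * p.c + logb p.n (p.sM t) - logb p.n (p.muG t) ≤
    -(p.c / 2000) - 2 / 3 + 4 * logb p.n p.s
  d : y + 2 * logb p.n x + 8 / 25 * p.c + logb p.n (p.sM t) + logb p.n (p.muG t) ≤
    -(p.c / 2000) - 2 / 3 + 4 * logb p.n p.s

theorem L3.mono {y y' : ℝ} (h : L3 p t x y) (hy : y' ≤ y) : L3 p t x y' :=
  ⟨by linarith [h.a], by linarith [h.b], by linarith [h.d]⟩

theorem pb_of (X : Cx β c0 C0 A c η K p σ t) (x0 : 0 < x) {Y y : ℝ}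
    (hY : Y ≤ x * (p.n : ℝ) ^ y) (h : L3 p t x y) : Y ≤ p.PbN t x := by
  refine hY.trans (X.H.le_of_lg (mul_pos x0 (X.H.rp0 _)) (X.Pb0 x0) ?_)
  obtain ⟨h1, h2, h3⟩ := h
  rw [X.H.hc] at h1 h2 h3
  rw [X.lg_Pb' x0, logb_mul x0.ne' (X.H.rp0 _).ne', X.H.lg_rp]
  rcases max_choice 0 (8 / 25 * c + logb p.n (p.sM t) + max (logb p.n (p.msG t x) -
    logb p.n (p.muG t)) (logb p.n (p.muG t) + 2 * logb p.n x - logb p.n (p.msG t x))) with e | e <;>
    rw [e]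
  · linarith
  · rcases max_choice (logb p.n (p.msG t x) - logb p.n (p.muG t))
      (logb p.n (p.muG t) + 2 * logb p.n x - logb p.n (p.msG t x)) with e | e <;> rw [e] <;>
      linarith

/-- the thick case -/
theorem thick (h : p.PN t x < p.PhN t) : (p.n : ℝ) ^ (p.c / 2000) * p.lN t < x ∧
    p.PN t x = p.PbN t x ∧ p.PbN t x < p.PhN t := by
  have q : (p.n : ℝ) ^ (p.c / 2000) * p.lN t < x := by
    by_contra q
    exact h.ne (Cx.P_lo (not_lt.1 q))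
  have e : p.PN t x = min (p.PhN t) (p.PbN t x) := if_neg (not_le.2 q)
  rw [e] at h ⊢
  have b := (min_lt_iff.1 h).resolve_left (lt_irrefl _)
  exact ⟨q, min_eq_right b.le, b⟩

end Crest.Agent.T156.Alt.Bk79

end
end

-- ▼ part T156/BlkB_79
section

/-!
# Row 156 (helper79): the leaf `Blkx`, the linear lines
-/

set_option autoImplicit false

noncomputable section

namespace Crest.Agent.T156.Alt.Bk79

open Crest.Agent.T156.Alt.Ln97 (M12)
open Crest.Agent.T156.Alt.Hl4 (Ms)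

/-- exponents at a thick level: `u` level, `m` mass, `z = lg sM`, `y = max 0 (μ + 1/3)`;
`B` = exponent allowed for the location -/
structure Ft (s c η μ φ u m z L y χ2 χ3 γ B : ℝ) : Prop where
  c0 : 0 < c
  c1 : c ≤ 1 / 10000
  η0 : 0 < η
  η1 : 100000 * η ≤ c
  s0 : 0 ≤ s
  L1 : L ≤ c / 1000
  φ1 : φ ≤ -(1 / 3) + s + c
  χ2l : χ2 ≤ -(61 / 180) + 7 / 10 * s + c
  χ3l : χ3 ≤ -(101 / 200) + η ∨ χ3 ≤ χ2 + 2 / 3 * φ + η ∨ χ3 ≤ 3 / 2 * χ2 + η
  y0 : 0 ≤ y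
  y1 : μ + 1 / 3 ≤ y
  γl : γ ≤ 5 * c - 1 / 3 - y / 2 + η ∨ (2 * γ ≤ c - 2 / 3 + φ / 2 + 1 / 6 - y / 2 + 4 * c) ∨
    γ ≤ χ2 + η
  ms : Ms c η μ u m
  u1 : u ≤ η
  μ1 : μ ≤ -(6 * c)
  μ0 : -(1 / 3) - 4 * c ≤ μ
  z1 : z ≤ s
  m0 : -(1 / 3) - 11 * c ≤ m
  t1 : -(1 / 3) - 7 / 500 * c ≤ m ∨ -(10 * c) ≤ u
  hB : -(c / 2000) - 2 / 3 + 4 * s - c / 1000 - m ≤ 2 * B ∨
    -(c / 2000) - 2 / 3 + 4 * s - c / 1000 - (2 * m + 8 / 25 * c + z - μ) ≤ 2 * B ∨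
    -(c / 2000) - 2 / 3 + 4 * s - c / 1000 - (2 * u + 8 / 25 * c + z + μ) ≤ 2 * B

variable {s c η μ φ u m z L y χ2 χ3 γ B : ℝ}

set_option hygiene false in
macro "ft79" : tactic => `(tactic| (
  obtain ⟨c0, c1, η0, η1, s0, L1, φ1, χ2l, χ3l, y0, y1, γl, ⟨lo, a1, a2, a3⟩, u1, μ1, μ0, z1, m0,
    t1, hB⟩ := h
  rcases hB with hB | hB | hB <;>
  first | linarith | (rcases lo with ⟨_, lo | lo⟩ | ⟨_, lo⟩ <;>
    first | linarith | (rcases t1 with t1 | t1 <;> linarith))))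

set_option hygiene false in
macro "ft79g" : tactic => `(tactic| (
  obtain ⟨c0, c1, η0, η1, s0, L1, φ1, χ2l, χ3l, y0, y1, γl, ⟨lo, a1, a2, a3⟩, u1, μ1, μ0, z1, m0,
    t1, hB⟩ := h
  rcases γl with γl | γl | γl <;> rcases hB with hB | hB | hB <;>
  first | linarith | (rcases lo with ⟨_, lo | lo⟩ | ⟨_, lo⟩ <;>
    first | linarith | (rcases t1 with t1 | t1 <;> linarith))))

namespace Ft

variable (h : Ft s c η μ φ u m z L y χ2 χ3 γ B)
include h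

theorem h1 : 6 * L - (1 + (u - η) + (m - η)) ≤ B + m - 2 * η := by ft79
theorem h2 : 4 * L - 2 / 3 - (u - η) ≤ B + m - 2 * η := by ft79
theorem h3 : 5 / 2 * L - (1 + (m - η)) / 2 - (1 + (u - η) + (m - η)) / 3 ≤ B + m - 2 * η := by ft79
theorem h4 : (L - (1 + (m - η))) / 2 + χ2 / 2 ≤ B + m - 2 * η := by ft79
theorem h5 : γ + 2 * L - (1 + (u - η) + (m - η)) / 3 ≤ B + m - 2 * η := by ft79g
theorem h6 : γ + χ2 / 2 ≤ B + m - 2 * η := by ft79g
theorem h7 : χ2 + 2 * L - (1 + (u - η) + (m - η)) / 3 ≤ B + m - 2 * η := by ft79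
theorem h8 : 3 / 2 * χ2 + η ≤ B + m - 2 * η := by ft79
theorem h10 : -(101 / 200) + η ≤ B + m - 2 * η := by ft79
theorem h9 : χ3 ≤ B + m - 2 * η := by
  have a := h.h8
  have b := h.h10
  have := h.χ2l; have := h.φ1; have := h.c1; have := h.η1; have := h.s0
  rcases h.χ3l with e | e | e
  · linarith
  · clear a b; ft79
  · linarith
theorem h11 : η - (1 + (m - η)) ≤ B + m - 2 * η := by ft79
theorem h12 : η - (1 + (m - η)) / 7 + 6 / 7 * (3 * (φ / 3) - (1 + (u - η) + (m - η)) / 3) ≤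
    B + m - 2 * η := by ft79
theorem k2 : χ2 ≤ B + (m - η) / 2 := by ft79
theorem k3 : 4 * L - 2 / 3 * (1 + (u - η) + (m - η)) ≤ B + (m - η) / 2 := by ft79

theorem m12 : M12 η L (φ / 3) χ2 χ3 γ (u - η) (m - η) (B + m - 2 * η) :=
  ⟨h.h1, h.h2, h.h3, h.h4, h.h5, h.h6, h.h7, by linarith [h.h8, h.η0], h.h9,
    by linarith [h.h10, h.η0], h.h11, h.h12⟩

end Ft

end Crest.Agent.T156.Alt.Bk79

end
end

-- ▼ part T156/BlkG_79
section

/-!
# Row 156 (helper79): the leaf `Blkx` from the sup location of the thick levels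
-/

set_option autoImplicit false
set_option linter.unusedSectionVars false

noncomputable section

namespace Crest.Agent.T156.Alt.Bk79

open Real Finset
open Crest.Agent.T156.Alt.L69 (mf bs)
open Crest.Agent.T156.Alt.R62 (lw sb T0)
open Crest.Agent.T156.Alt.Tn15 (W P e0)
open Crest.Agent.T156.Alt.Ln97 (e2 eta M12)
open Crest.Agent.T156.Alt.Nr44 (Cx Ex)
open Crest.Agent.T156.Alt.R77

theorem phi_up {s c ε x μ φ : ℝ} (h : Ex s c ε x μ φ) (q : -(1 / 3) - 4 * c ≤ μ) :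
    φ ≤ -(1 / 3) + c / 100 ∨ φ ≤ 5 / 2 * s - 5 / 12 + c / 4 := by
  obtain ⟨c0, c1, e0, e1, s0, s1, x0, x1, m0, m1, m2, up⟩ := h
  rcases up with up | up | ⟨up, _, _⟩ | up | ⟨up, _⟩ | up | up | ⟨up, _, _⟩ | ⟨up, _⟩ | up |
    ⟨up, _⟩ <;> first | exact .inl (by linarith) | exact .inr (by linarith)

set_option maxHeartbeats 1000000 in
theorem hp_nd {s c ε x μ φ u m z : ℝ} (h : Nr44.Hp s c ε x μ φ u m z) (hc : c ≤ 1 / 10000)
    (q : 7 / 200 ≤ s) : 1 / 20 ≤ μ + 1 / 3 := by hp44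

section cls

variable {S : Sc} {M : Md} {l Lg ν X X2 X3 G0 y r : ℝ} (c : Cl S M) (l0 : 0 < l) (L0 : 0 < Lg)
  (ν0 : 0 < ν) (X0 : 0 < X) (Y0 : 0 < X2) (Z0 : 0 < X3) (G00 : 0 < G0)
include c l0 L0 ν0 X0 Y0 Z0 G00

theorem eta_nn (r : ℝ) : 0 ≤ eta S l Lg ν X X2 X3 G0 r := by
  have t0 : 0 < max r l := lt_max_of_lt_right l0
  have := Tn15.W0 c t0
  have := Tn15.P0 c t0
  have := c.N0
  unfold eta e2 e0
  positivity

theorem eta_anti (h : y ≤ r) : eta S l Lg ν X X2 X3 G0 r ≤ eta S l Lg ν X X2 X3 G0 y := by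
  have t0 : 0 < max y l := lt_max_of_lt_right l0
  have h' : max y l ≤ max r l := max_le_max_right _ h
  have := Tn15.W0 c (t0.trans_le h')
  have := Tn15.P0 c (t0.trans_le h')
  have := Tn15.P0 c t0
  have := Tn15.W_anti c t0 h'
  have := Tn15.P_anti c t0 h'
  unfold eta e2 e0
  gcongr

end cls

section reg

variable {β c0 C0 : ℝ} {A : ℕ} {c η K : ℝ} {p : Pm} (H : Reg β c0 C0 A c η K p)
include H

theorem lg2 {a b : ℝ} (a0 : 0 < a) (b0 : 0 < b) :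
    logb p.n (a + b) ≤ logb p.n a + η ∨ logb p.n (a + b) ≤ logb p.n b + η := by
  have n := H.lg_two.2
  rcases le_total a b with h | h
  · have e := H.lg_mono (by positivity) (show a + b ≤ 2 * b by linarith)
    rw [logb_mul two_ne_zero b0.ne'] at e
    exact .inr (by linarith)
  · have e := H.lg_mono (by positivity) (show a + b ≤ 2 * a by linarith)
    rw [logb_mul two_ne_zero a0.ne'] at e
    exact .inl (by linarith)

theorem lg3 {a b d : ℝ} (a0 : 0 < a) (b0 : 0 < b) (d0 : 0 < d) :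
    logb p.n (a + b + d) ≤ logb p.n a + η ∨ logb p.n (a + b + d) ≤ logb p.n b + η ∨
      logb p.n (a + b + d) ≤ logb p.n d + η := by
  have n := (H.lg_num (x := 3) (by norm_num) (by norm_num)).2
  have k : ∀ z, 0 < z → a + b + d ≤ 3 * z → logb p.n (a + b + d) ≤ logb p.n z + η := fun z z0 h => by
    have e := H.lg_mono (by positivity) h
    rw [logb_mul three_ne_zero z0.ne'] at e
    linarith
  rcases le_total a b with h | h <;> rcases le_total a d with h' | h' <;>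
    rcases le_total b d with h'' | h'' <;>
    first | exact .inl (k a a0 (by linarith)) | exact .inr (.inl (k b b0 (by linarith))) |
      exact .inr (.inr (k d d0 (by linarith)))

/-- the residual size in exponents, without `FX` -/
theorem e2_lg {S : Sc} {M : Md} {Lg X X2 X3 G0 t b ξ : ℝ} (cl : Cl S M) (hn : S.n = p.n)
    (hF : S.F = 1) (t0 : 0 < t) (h1 : S.ms t ≤ t ^ 2) (L0 : 0 < Lg) (X0 : 0 < X) (Y0 : 0 < X2)
    (Z0 : 0 < X3) (G00 : 0 < G0) (eX : logb p.n X = 3 * ξ)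
    (m : M12 η (logb p.n Lg) ξ (logb p.n X2) (logb p.n X3) (logb p.n G0) (logb p.n t)
      (logb p.n (S.ms t)) b) :
    e2 S Lg ((p.n : ℝ) ^ (-(2 : ℝ) / 3)) X X2 X3 G0 t ≤ (p.n : ℝ) ^ (b + η) := by
  obtain ⟨w, q, -⟩ := Ln97.lg_W H cl hn hF t0 h1
  have := Tn15.W0 cl t0
  have := Tn15.P0 cl t0
  have n0 := H.N0
  have η0 := H.η_pos
  have n8 := H.lg_num (x := 8) (by norm_num) (by norm_num)
  have n2 := H.lg_num (x := 2) (by norm_num) (by norm_num)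
  obtain ⟨h1, h2, h3, h4, h5, h6, h7, h8, h9, h10, h11, h12⟩ := m
  have k : ∀ y, 0 < y → logb p.n y ≤ b → y ≤ (p.n : ℝ) ^ b := fun y y0 a =>
    H.le_of_lg y0 (by positivity) (by rw [H.lg_rp]; exact a)
  have a1 : Lg ^ 6 * W S t ^ 3 ≤ _ := k _ (by positivity) (by lg_norm; linarith)
  have a2 : Lg ^ 4 * ((p.n : ℝ) ^ (-(2 : ℝ) / 3) / t) ≤ _ :=
    k _ (by positivity) (by lg_norm; rw [H.lg_n]; linarith)
  have a3 : √(Lg * P S t) * (Lg ^ 2 * W S t) ≤ _ := k _ (by positivity) (by lg_norm; linarith)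
  have a4 : √(Lg * P S t) * √X2 ≤ _ := k _ (by positivity) (by lg_norm; linarith)
  have a5 : G0 * (Lg ^ 2 * W S t) ≤ _ := k _ (by positivity) (by lg_norm; linarith)
  have a6 : G0 * √X2 ≤ _ := k _ (by positivity) (by lg_norm; linarith)
  have a7 : X2 * (Lg ^ 2 * W S t) ≤ _ := k _ (by positivity) (by lg_norm; linarith)
  have a8 : X2 * √X2 ≤ _ := k _ (by positivity) (by lg_norm; linarith)
  have a9 : X3 ≤ _ := k _ Z0 h9
  have a10 : 1 / (p.n : ℝ) ≤ _ := k _ (by positivity) (by lg_norm; rw [H.lg_n]; linarith)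
  have a11 : 8 * P S t ≤ _ := k _ (by positivity) (by lg_norm; linarith)
  have a12 : (8 * P S t) ^ ((1 : ℝ) / 7) * (2 * W S t * X) ^ ((6 : ℝ) / 7) ≤ _ :=
    k _ (by positivity) (by lg_norm; linarith)
  have e : 12 * (p.n : ℝ) ^ b ≤ (p.n : ℝ) ^ (b + η) := by
    rw [rpow_add n0, mul_comm]
    exact mul_le_mul_of_nonneg_left (by linarith [H.num_le]) (by positivity)
  rw [e2, e0, hn]
  linarith [show (√(Lg * P S t) + G0 + X2) * (Lg ^ 2 * W S t + √X2) =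
    √(Lg * P S t) * (Lg ^ 2 * W S t) + √(Lg * P S t) * √X2 + G0 * (Lg ^ 2 * W S t) + G0 * √X2 +
      X2 * (Lg ^ 2 * W S t) + X2 * √X2 by ring]

end reg

variable {β c0 C0 : ℝ} {A : ℕ} {c η K' : ℝ} {p : Pm} {σ t x : ℝ}
  (X : Cx β c0 C0 A c η K' p σ t)
include X

theorem xM0 : 0 < p.xM t := lt_max_of_lt_left one_pos
theorem lg_xM : logb p.n (p.xM t) = max 0 (logb p.n (p.muG t) + 1 / 3) := by
  rw [Pm.xM, lg_max X.H.N1 one_pos X.lg_x.1, logb_one, X.lg_x.2]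

theorem la_lo : -(1 / 6) - c / 2 - logb p.n (p.xM t) / 2 ≤ logb p.n (p.laG σ) := by
  have m := X.H.muG_pos X.Mσ
  have a : logb p.n (Kn72.nu p σ) ≤ _ := (X.H.lg_mt m).le.trans (min_le_right _ _)
  have b := X.H.lg_mono m (X.H.oct_mu X.o).1
  have c0 := X.H.c_pos
  rw [lg_xM X]
  have d1 := le_max_left 0 (logb p.n (p.muG t) + 1 / 3)
  have d2 := le_max_right 0 (logb p.n (p.muG t) + 1 / 3)
  rcases X.lg_pl with ⟨_, _, _, _⟩ | ⟨_, _, _, _⟩
  · rcases le_max_iff.1 a with a | a <;> linarith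
  · linarith

theorem X30 : 0 < p.X3L t := by
  have := X.X20; have := X.H.N0; have := X.lN0
  rw [Pm.X3L]; positivity

theorem G00 : 0 < p.G0L σ t := by
  have := X.X20; have := X.H.N0; have := xM0 X; have := X.nc0 5; have := X.nc0 (1 / 100)
  rw [Pm.G0L]; positivity

theorem lg_X3 : logb p.n (p.X3L t) ≤ -(101 / 200) + η ∨
    logb p.n (p.X3L t) ≤ 3 / 2 * logb p.n (p.X2L t) + η := by
  refine (lg2 X.H (X.H.rp0 _) (rpow_pos_of_pos X.X20 _)).imp (fun h => h.trans ?_) fun h => h.trans ?_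
  · rw [X.H.lg_rp]; linarith
  · rw [logb_rpow_eq_mul_logb_of_pos X.X20]

theorem lg_G0 (nd : -(1 / 3) - 4 * c ≤ logb p.n (p.muG t)) :
    logb p.n (p.G0L σ t) ≤ 5 * c - 1 / 3 - logb p.n (p.xM t) / 2 + η ∨
    2 * logb p.n (p.G0L σ t) ≤
      c - 2 / 3 + logb p.n (p.PhN t) / 2 + 1 / 6 - logb p.n (p.xM t) / 2 + 4 * c ∨
    logb p.n (p.G0L σ t) ≤ logb p.n (p.X2L t) + η := by
  have H := X.H
  have := H.N0; have := xM0 X; have := X.nc0 5; have := X.nc0 (1 / 100); have := X.θ0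
  have := X.Ph0; have := X.la0; have := X.hη; have := H.c_pos
  have w : 0 < p.wL t := by rw [Pm.wL]; positivity
  have w' : logb p.n (p.wL t) = -1 - logb p.n (p.muG t) := by
    rw [Pm.wL]; lg_norm; rw [H.lg_n]; ring
  have l := la_lo X
  have y : logb p.n (p.xM t) ≤ logb p.n (p.muG t) + 1 / 3 + 4 * c := by
    rw [lg_xM X]; exact max_le (by linarith) (by linarith)
  have e1 : logb p.n (p.nc 5 * (p.n : ℝ) ^ (-(1 : ℝ) / 3) / √(p.xM t)) =
      5 * c - 1 / 3 - logb p.n (p.xM t) / 2 := by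
    lg_norm; rw [H.lg_n, X.lg_nc]; ring
  have e2 : logb p.n (p.nc (1 / 100) * √(p.wL t * √(p.PhN t) / p.laG σ)) = 1 / 100 * c +
      (logb p.n (p.wL t) + logb p.n (p.PhN t) / 2 - logb p.n (p.laG σ)) / 2 := by
    lg_norm; rw [X.lg_nc]
  rw [Pm.G0L]
  rcases lg3 H (show 0 < p.nc 5 * (p.n : ℝ) ^ (-(1 : ℝ) / 3) / √(p.xM t) by positivity)
    (show 0 < p.nc (1 / 100) * √(p.wL t * √(p.PhN t) / p.laG σ) by positivity) X.X20 with h | h | h
  · exact .inl (by linarith)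
  · exact .inr (.inl (by linarith))
  · exact .inr (.inr h)

/-- the exponent allowed for the location at the level `x` -/
def bx (p : Pm) (t x : ℝ) : ℝ := (-(p.c / 2000) - 2 / 3 + 4 * logb p.n p.s - p.c / 1000 -
  max (logb p.n (p.msG t x)) (max (2 * logb p.n (p.msG t x) + 8 / 25 * p.c + logb p.n (p.sM t) -
    logb p.n (p.muG t)) (2 * logb p.n x + 8 / 25 * p.c + logb p.n (p.sM t) +
      logb p.n (p.muG t)))) / 2

omit X in
theorem l3_bx : L3 p t x (2 * bx p t x + p.c / 1000) := by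
  rw [bx]
  generalize hY : max (logb p.n (p.msG t x)) (max (2 * logb p.n (p.msG t x) + 8 / 25 * p.c +
    logb p.n (p.sM t) - logb p.n (p.muG t)) (2 * logb p.n x + 8 / 25 * p.c + logb p.n (p.sM t) +
      logb p.n (p.muG t))) = Y
  have a := hY ▸ le_max_left _ _
  have b := hY ▸ (le_max_left _ _).trans (le_max_right _ _)
  have d := hY ▸ (le_max_right _ _).trans (le_max_right _ _)
  exact ⟨by linarith, by linarith, by linarith⟩

variable (hc : c ≤ 1 / 10000) (hη : 1000000 * η ≤ c) (h0 : p.l0G t (p.lN t) ≤ x)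
  (h1 : x ≤ (p.n : ℝ) ^ η) (h : p.PN t x < p.PhN t)
include hc hη h0 h1 h

theorem ft : Ft (logb p.n p.s) c η (logb p.n (p.muG t)) (logb p.n (p.PhN t)) (logb p.n x)
    (logb p.n (p.msG t x)) (logb p.n (p.sM t)) (logb p.n p.LgL) (logb p.n (p.xM t))
    (logb p.n (p.X2L t)) (logb p.n (p.X3L t)) (logb p.n (p.G0L σ t)) (bx p t x) := by
  have H := X.H
  have k := X.hp h0 h1 h
  have nd := X.need_iff.1 (X.t1L h0 h1 h).1
  obtain ⟨a1, a2, a3⟩ := X.t1 h0 h1 h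
  have φ := phi_up k.ex nd
  have c0 := H.c_pos; have η0 := H.η_pos
  obtain ⟨s0, s1⟩ := H.lg_s
  have x0 := (Nr44.l00 H).trans_le h0
  refine ⟨c0, hc, η0, by linarith, s0, ?_, by rcases φ with φ | φ <;> linarith, ?_,
    (lg_X3 X).imp_right .inr, ?_, ?_, lg_G0 X nd, Hl4.ms_lg H X.Mt (Nr44.r0.trans h0),
    H.lg_le x0 h1, by linarith [Lt38.lg_θ X], nd, X.lg_sM.2.1, a2, a3.imp_right fun b => b.1, ?_⟩
  · rw [Pm.LgL, logb_pow, Lt38.lg_E X]; push_cast; linarith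
  · rw [X.lg_X2]
    have e := min_le_right (logb p.n (p.PhN t)) (2 / 3 * logb p.n (p.PhN t) +
      max (c / 100 + (logb p.n p.s + c / 13 - 1 / 6)) (-(7 / 60)))
    rcases max_choice (c / 100 + (logb p.n p.s + c / 13 - 1 / 6)) (-(7 / 60)) with r | r <;>
      rw [r] at e ⊢ <;> rcases φ with φ | φ <;> linarith
  · rw [lg_xM X]; exact le_max_left _ _
  · rw [lg_xM X]; exact le_max_right _ _
  · rw [bx, H.hc]
    rcases max_choice (logb p.n (p.msG t x)) (max (2 * logb p.n (p.msG t x) + 8 / 25 * c +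
      logb p.n (p.sM t) - logb p.n (p.muG t)) (2 * logb p.n x + 8 / 25 * c + logb p.n (p.sM t) +
        logb p.n (p.muG t))) with e | e <;> rw [e]
    · exact .inl (by linarith)
    · rcases max_choice (2 * logb p.n (p.msG t x) + 8 / 25 * c + logb p.n (p.sM t) -
        logb p.n (p.muG t)) (2 * logb p.n x + 8 / 25 * c + logb p.n (p.sM t) +
          logb p.n (p.muG t)) with e | e <;> rw [e]
      · exact .inr (.inl (by linarith))
      · exact .inr (.inr (by linarith))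

theorem need2 : p.Need2 t := by
  rcases le_total (logb p.n p.s) (7 / 200) with q | q
  · exact .inl (X.H.le_of_lg X.H.s0 (X.H.rp0 _) (by rw [X.H.lg_rp]; exact q))
  · exact .inr (X.H.le_of_lg (X.H.rp0 _) X.lg_x.1 (by
      rw [X.H.lg_rp, X.lg_x.2]; exact hp_nd (X.hp h0 h1 h) hc q))

/-- the value of `bx` at the top -/
theorem bx_ge : -(c / 2000) - 2 / 3 + 4 * logb p.n p.s - c / 1000 - (logb p.n (p.muG t) +
    8 / 25 * c + logb p.n (p.sM t) + 2 * η) ≤ 2 * bx p t x := by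
  have F := ft X hc hη h0 h1 h
  have := F.ms.u3; have := F.u1; have := X.lg_sM.1; have := F.c0; have := F.η0
  rcases F.hB with e | e | e <;> linarith

theorem p0_le {y : ℝ} (y0 : 0 ≤ y) (hy : y ≤ p.PhN t) : p.p0L σ t y ≤ (p.n : ℝ) ^ bx p t x := by
  have H := X.H
  have b := bx_ge X hc hη h0 h1 h
  have := X.nc0 (1 / 100); have := X.nc0 (1 / 20); have := X.nc0 (21 / 40); have := X.θ0
  have := X.Ph0; have := X.la0; have := X.sM0; have := H.c_pos; have := H.η_pos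
  have N : p.NL σ t y ≤ p.BuL σ t + p.nc (1 / 20) * p.muG t * p.PhN t ^ ((4 : ℝ) / 3) := by
    rw [Pm.NL]; gcongr
  have N0 := Lt38.NL0 X y0
  have e := H.lg_mono N0 N
  obtain ⟨z0, z1, z2⟩ := X.lg_sM
  have hy := X.hy
  have θ := H.lg_thetaG hy.hη hy.hε hy.M hy.E1 hy.E2 X.Ph0 hy.up
  have := X.lg_θla; have := Lt38.lg_θ X
  rw [Pm.p0L]
  refine H.le_of_lg (by positivity) (H.rp0 _) ?_
  rw [H.lg_rp]
  lg_norm
  rw [X.lg_nc]
  rcases lg2 H (Lt38.Bu0 X) (show 0 < p.nc (1 / 20) * p.muG t * p.PhN t ^ ((4 : ℝ) / 3) by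
    positivity) with d | d <;> replace d := e.trans d
  · have : logb p.n (p.BuL σ t) = 21 / 40 * c + 2 * (logb p.n (p.sM t) + logb p.n (p.laG σ)) := by
      rw [Pm.BuL]; lg_norm; rw [X.lg_nc]
    linarith
  · have : logb p.n (p.nc (1 / 20) * p.muG t * p.PhN t ^ ((4 : ℝ) / 3)) =
        1 / 20 * c + logb p.n (p.muG t) + 4 / 3 * logb p.n (p.PhN t) := by
      lg_norm; rw [X.lg_nc]
    linarith

variable {K c0' C0' η' : ℝ} {Q : Pl} (G : GrD K c0' C0' η' p σ t Q)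
include G

/-- the local size on the block -/
theorem bs_le {r : ℝ} (r1 : x / 4 ≤ r) (r2 : r ≤ 8 * x) :
    bs (p.scG K σ t Q) p.LgL (p.X2L t) (gG p σ t (p.scG K σ t Q) r) (etaL p σ t (p.scG K σ t Q)) r ≤
      4 * (p.n : ℝ) ^ bx p t x := by
  have H := X.H
  have cl := G.cl.1
  have F := ft X hc hη h0 h1 h
  have l8 := (X.t1L h0 h1 h).2.1
  have l0 := Lt38.lt0 X hη
  have x0 : 0 < x / 4 := by linarith
  have rx : p.r ≤ x / 4 := by linarith [Lt38.r_x X, Lt38.x_l X hη]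
  have L0 : 0 < p.LgL := one_pos.trans_le (Lt38.Lg1 X hη)
  have n0 := H.N0
  have K1 := G.nb.K1
  have := X.θ0; have := X.la0; have c0 := H.c_pos; have η0 := H.η_pos; have := X.X20
  have m0 : 0 < p.msG t (x / 4) := H.msG_pos X.Mt _
  have u := (Hl4.ms_lg H X.Mt rx).u1
  have e1 : logb p.n x - η ≤ logb p.n (x / 4) := by
    rw [logb_div (by linarith) (by norm_num)]
    linarith [(H.lg_num (x := 4) (by norm_num) (by norm_num)).2]
  have e2' : logb p.n (p.msG t x) - η ≤ logb p.n (p.msG t (x / 4)) := by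
    have a : p.msG t x ≤ 16 * p.msG t (x / 4) := ms4 cl (by linarith)
    have b := H.lg_mono (H.msG_pos X.Mt x) a
    rw [logb_mul (by norm_num) m0.ne'] at b
    linarith [(H.lg_num (x := 16) (by norm_num) (by norm_num)).2]
  have sq : p.msG t (x / 4) ≤ (x / 4) ^ 2 :=
    H.le_of_lg m0 (by positivity) (by rw [logb_pow]; push_cast; linarith)
  have mf1 : mf (p.scG K σ t Q) (x / 4) = p.msG t (x / 4) := div_one _
  obtain ⟨w, -, -⟩ := Ln97.lg_W H cl rfl rfl x0 sq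
  have w0 := Tn15.W0 cl x0
  change _ = -(1 + _ + logb p.n (p.msG t (x / 4))) / 3 at w
  obtain ⟨g, g0, g1, g2⟩ : ∃ g, 0 ≤ g ∧ gG p σ t (p.scG K σ t Q) r ≤ g ∧
      g ≤ (p.n : ℝ) ^ bx p t x * p.msG t (x / 4) := by
    rw [gG, kS_eq p (by linarith)]
    by_cases a : 32 * x ≤ Lt38.tz K
    · exact ⟨0, le_rfl, (Lt38.gL_lo (by linarith)).le, by positivity⟩
    · refine ⟨_, Lt38.gT0 X G, Lt38.gL_le (Lt38.gT0 X G) _, ?_⟩
      have E := Lt38.E_tz X hη G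
      have E0 := Lt38.E0 X
      have b : p.ye ≤ x / 4 := by
        refine le_trans (H.le_of_lg H.ye0 (show 0 < 1 / p.EL / 32 by positivity) ?_) (by linarith)
        lg_norm
        linarith [H.lg_ye, Lt38.lg_E X, (H.lg_num (x := 32) (by norm_num) (by norm_num)).2]
      rw [H.msG_top b]
      have k : logb p.n K ≤ η := (H.lg_mono (by linarith) (by nlinarith)).trans (Lt38.lg_C X G).2.2
      refine H.le_of_lg (by positivity) (by positivity) ?_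
      lg_norm
      rw [H.lg_n]
      linarith [bx_ge X hc hη h0 h1 h, X.lg_θla, X.lg_sM.2.1, H.lg_s.1,
        (H.lg_num (x := 4) (by norm_num) (by norm_num)).2]
  have gn : 0 ≤ gG p σ t (p.scG K σ t Q) r := by
    rw [gG, kS_eq p (by linarith)]; exact Lt38.gL_nn (Lt38.gT0 X G) _
  refine (bs_anti cl (eta_anti cl l0 L0 (H.rp0 _) X.Ph0 X.X20 (X30 X) (G00 X) r1)
    (add_nonneg (eta_nn cl l0 L0 (H.rp0 _) X.Ph0 X.X20 (X30 X) (G00 X) r) gn) g1 X.X20.le x0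
    r1).trans ((one_mul _).symm.trans_le (Lt76.bs_le cl x0.le (by positivity) ?_ ?_ ?_ ?_))
  · rw [one_mul, mf1, Ln97.eta_eq (by linarith)]
    refine (e2_lg H cl rfl rfl x0 sq L0 X.Ph0 X.X20 (X30 X) (G00 X) (by ring)
      (Hl4.m12_up F.m12 e1 e2')).trans (H.le_of_lg (by positivity) (by positivity) ?_)
    lg_norm
    rw [H.lg_n]
    linarith
  · rw [one_mul, mf1]; exact g2
  · rw [mf1]
    refine H.le_of_lg (by positivity) (by positivity) ?_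
    lg_norm
    rw [H.lg_n]
    linarith [F.k2]
  · rw [mf1]
    refine H.le_of_lg (by positivity) (by positivity) ?_
    lg_norm
    rw [H.lg_n]
    linarith [F.k3]

/-- **the block of a thick level** -/
theorem blk {m : ℕ} {a : ℝ} (hT : x ≤ T0 (p.scG K σ t Q) (p.gst Q t))
    (hs : ∀ k, 2 * p.ltL t ≤ (p.gst Q t).s k →
      (p.gst Q t).s k + p.elL t ≤ p.tuL t ((p.gst Q t).s (p.scG K σ t Q).J) →
      |(p.gst Q t).del m a k| ≤ p.EL * (p.p0L σ t (p.XpL σ t) + bs (p.scG K σ t Q) p.LgL (p.X2L t)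
        (gG p σ t (p.scG K σ t Q) ((p.gst Q t).s k)) (etaL p σ t (p.scG K σ t Q))
        ((p.gst Q t).s k))) :
    ∑ k ∈ sb (p.scG K σ t Q) (p.gst Q t) (x / 4) (8 * x),
      lw (p.gst Q t) k * (p.gst Q t).del m a k ^ 2 ≤ p.PN t x := by
  have H := X.H
  have cl := G.cl.1
  obtain ⟨-, l8, mid⟩ := X.t1L h0 h1 h
  have x0 := (Nr44.l00 H).trans_le h0
  have E0 := Lt38.E0 X
  have E2 := Lt38.E2 X hη
  have n0 := H.N0
  have c0 := H.c_pos; have η0 := H.η_pos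
  have nx : ∀ y, 0 ≤ y → 0 ≤ p.nxL σ t y := fun y y0 => le_min X.Ph0.le
    (div_pos (mul_pos (X.nc0 _) (Lt38.NL0 X y0)) X.θ0).le
  have p0 := p0_le X hc hη h0 h1 h (y := p.XpL σ t) (nx _ (nx _ X.Ph0.le)) (min_le_left _ _)
  have el : 2 * p.elL t ≤ 1 / p.EL := by nlinarith [Lt38.el2 X hη, Lt38.el0 X hη]
  have tu : 8 * x + p.elL t ≤ p.tuL t ((p.gst Q t).s (p.scG K σ t Q).J) := by
    rw [Pm.tuL]
    split_ifs with a
    · rw [T0] at hT
      linarith [Lt38.E_sJ X hη G]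
    · have b : 16 * p.nc (-(1 / 10)) ≤ 1 / p.EL := by
        have := X.nc0 (-(1 / 10))
        refine H.le_of_lg (by positivity) (by positivity) ?_
        lg_norm
        linarith [X.lg_nc (-(1 / 10)), Lt38.lg_E X,
          (H.lg_num (x := 16) (by norm_num) (by norm_num)).2]
      linarith [mid a]
  have hv : (p.scG K σ t Q).v ≤ x := by
    have A2 : (2 : ℝ) ≤ A := by exact_mod_cast H.A2
    change p.v ≤ x
    exact H.le_of_lg H.v0 x0 (by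
      linarith [H.lg_v_le, H.lg_mono H.r0 (Nr44.r0.trans h0), H.lg_r, H.lg_s.1])
  rw [(thick h).2.1]
  refine pb_of X x0 ((sup cl (D := p.EL * (5 * (p.n : ℝ) ^ bx p t x)) hv
    fun k _ _ r1 r2 => (hs k (by linarith) (by linarith)).trans
      (mul_le_mul_of_nonneg_left (by linarith [bs_le X hc hη h0 h1 h G r1 r2]) E0.le)).trans ?_)
    l3_bx
  have C := Lt38.lg_C X G
  have C0 := cl.C0
  have e : logb p.n (p.scG K σ t Q).C ≤ η := C.2.2
  refine H.le_of_lg (by positivity) (by positivity) ?_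
  lg_norm
  rw [H.lg_n, H.hc]
  linarith [Lt38.lg_E X, (H.lg_num (x := 9) (by norm_num) (by norm_num)).2,
    (H.lg_num (x := 5) (by norm_num) (by norm_num)).2]

omit X hc hη h0 h1 h G in
/-- **the leaf `Blkx`** -/
theorem blkG {β : ℝ} (hβ : 1 < β) (hS : OnG Supx β) : OnG Blkx β :=
  OnG.cl' hβ CL.triv hS one_pos (c1 := 1 / 10000) (by norm_num) 1000000 0 (fun _ => 0)
    fun K c0 C0 A c η K' c0' C0' η' p σ t Q G hc _ hη _ _ Y m a hm hΦ x x0 x1 h => by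
      have hη' : 1000000 * η ≤ c := by exact_mod_cast hη
      have X : Cx β c0 C0 A c η K' p σ t :=
        ⟨G.R, by linarith, by linarith [G.R.η_pos], G.O⟩
      have h1 := (x1.trans (Cx.T0_le G.D)).trans G.CK
      exact blk X hc hη' x0 h1 h G.D x1
        (Y (X.t1L x0 h1 h).1 (need2 X hc hη' x0 h1 h) m a hm hΦ)

end Crest.Agent.T156.Alt.Bk79

end
end

-- ▼ part T156/LNg_97
section

/-!
# Row 156, block (L): the bulk numbers `LN` on the graded mass, finitely many lines (helper97)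
-/

set_option autoImplicit false
set_option linter.unusedSectionVars false

noncomputable section

namespace Crest.Agent.T156.Alt.Ln97

open Real Finset
open Crest.Agent.T156.Alt.L69 Crest.Agent.T156.Alt.Tn15

/-- all lines of `LN` on the graded mass: `μ` = exponent of the top mass, `(a2, y2, m2)`,
`(a3, y3, m3)` = exponents of `t, max t x, ms t` at the crossing levels of `X2`, `X3` -/
structure LG (η e μ ξ a0 a L χ2 χ3 γ m0 m a2 y2 m2 a3 y3 m3 b : ℝ) : Prop where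
  gx : GX η e a0 a ξ L χ2 χ3 γ m0 m
  c2 : η + a2 + 2 * y2 ≤ χ2
  f2 : 2 * η + 2 * y2 - 2 / 3 * (1 + a2 + m2) - a2 ≤ χ2
  f2' : 4 * η + 3 * (2 * y2 - 2 / 3 * (1 + a2 + m2) - a2) + 12 * ξ ≤ 7 * χ2
  g2 : 2 * η - 2 / 3 * (1 + μ) ≤ χ2
  g2' : 3 * η - 2 * (1 + μ) + 12 * ξ ≤ 7 * χ2
  c3 : η + a3 + 4 * y3 ≤ χ3
  f3 : 2 * η + 4 * y3 - (1 + a3 + m3) - 2 * a3 ≤ χ3
  f3' : 6 * η + 16 * y3 - 3 * (1 + a3 + m3) + 18 * ξ - 8 * a3 ≤ 7 * χ3
  g3 : 2 * η - (1 + μ) ≤ χ3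
  g3' : 8 * η - 3 * (1 + μ) + 18 * ξ ≤ 7 * χ3
  gb0 : η + 3 * ξ - a0 - (1 + m0) ≤ 2 * γ
  gb1 : 2 * η + 2 * a - (1 + m) ≤ 2 * γ
  t2 : e + 4 * L - 2 / 3 * (1 + a + m) ≤ m
  m12 : M12 η L ξ χ2 χ3 γ a m b
  th1 : e + η + b ≤ 3 / 2 * m
  th4 : e + η + b ≤ m + a

/-- exponent facts on a level `T` above `x` and a reference level -/
theorem gv_lin {η c x μ ξ χ2 χ3 T Y m a2 y2 m2 a3 y3 m3 e a0 a L γ m0 ml b : ℝ}
    (g : LG η e μ ξ a0 a L χ2 χ3 γ m0 ml a2 y2 m2 a3 y3 m3 b) (η0 : 0 ≤ η) (c0 : 0 ≤ c)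
    (T1 : T ≤ η) (hY : T ≤ ξ ∧ Y = ξ ∨ ξ ≤ T ∧ Y = T ∧
      (m = μ ∨ T ≤ -(3 * c) ∧ (-c + 2 * T ≤ m ∨ -c + x + 3 / 2 * T ≤ m)))
    (μ2 : μ ≤ x - 11 / 2 * c + η)
    (p2 : a2 ≤ y2 ∧ ξ ≤ y2 ∧ m2 ≤ -c + 2 * y2 + η ∧ m2 ≤ -c + x + 3 / 2 * y2 + η)
    (p3 : a3 ≤ y3 ∧ ξ ≤ y3 ∧ m3 ≤ -c + 2 * y3 + η ∧ m3 ≤ -c + x + 3 / 2 * y3 + η)
    (q2 : T ≤ a2 ∧ Y ≤ y2 ∨ a2 ≤ T ∧ y2 ≤ Y ∧ m2 ≤ m)
    (q3 : T ≤ a3 ∧ Y ≤ y3 ∨ a3 ≤ T ∧ y3 ≤ Y ∧ m3 ≤ m) : GV η ξ χ2 χ3 T Y m := by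
  obtain ⟨-, c2, f2, f2', g2, g2', c3, f3, f3', g3, g3', -⟩ := g
  obtain ⟨p21, p22, p23, p24⟩ := p2
  obtain ⟨p31, p32, p33, p34⟩ := p3
  constructor
  · rcases q2 with ⟨q, q'⟩ | ⟨q, q', q''⟩
    · exact .inl (by linarith)
    · refine .inr ?_
      rcases hY with ⟨h, h'⟩ | ⟨h, h', k | ⟨k, k' | k'⟩⟩ <;> constructor <;> linarith
  · rcases q3 with ⟨q, q'⟩ | ⟨q, q', q''⟩
    · exact .inl (by linarith)
    · refine .inr ?_
      rcases hY with ⟨h, h'⟩ | ⟨h, h', k | ⟨k, k' | k'⟩⟩ <;> constructor <;> linarith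

section

variable {β c0 C0 : ℝ} {A : ℕ} {c η K : ℝ} {p : Pm} (H : Reg β c0 C0 A c η K p)
  {E l0 l x X Lg X2 X3 G0 t t2 t3 b σ : ℝ} {S : Sc} {M : Md}
include H

theorem ms_sq (hM : p.MemG σ) (hη : 10 * η ≤ c) (h1 : p.rj / 2 ≤ t) : p.msG σ t ≤ t ^ 2 := by
  have r := H.rj0
  have t0 : 0 < t := (half_pos r).trans_le h1
  have a := H.lg_mono (half_pos r) h1
  rw [logb_div r.ne' two_ne_zero, H.lg_rj] at a
  have m := H.msG_pos hM t
  have m1 := (H.lg_msG66 hM t).2.1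
  have := H.η_pos; have := H.lg_two.2; have := H.lg_r
  refine H.le_of_lg (by positivity) (by positivity) ?_
  lg_norm
  rcases H.lg_Tc_cases (σ := σ) t0 with ⟨t1, t2⟩ | ⟨t1, t2, t3⟩ | ⟨t1, t2, -⟩ <;> linarith

/-- the mass exponent above `r` -/
theorem ms_cases (hM : p.MemG σ) (ht : p.r ≤ t) : logb p.n (p.msG σ t) = logb p.n (p.muG σ) ∨
    logb p.n t ≤ -(3 * c) ∧ (-c + 2 * logb p.n t ≤ logb p.n (p.msG σ t) ∨
      -c + logb p.n σ + 3 / 2 * logb p.n t ≤ logb p.n (p.msG σ t)) := by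
  rcases le_total p.ye t with h | h
  · exact .inl (by rw [H.msG_top h])
  · have m := (H.lg_msG66 hM t).1
    rw [Reg.Tc_mid ht h] at m
    exact .inr ⟨H.lg_ye ▸ H.lg_mono (H.r0.trans_le ht) h, m⟩

theorem ms_up (hM : p.MemG σ) (rx : p.r ≤ x) (t0 : 0 < t) :
    logb p.n t ≤ logb p.n (max t x) ∧ logb p.n x ≤ logb p.n (max t x) ∧
    logb p.n (p.msG σ t) ≤ -c + 2 * logb p.n (max t x) + η ∧
    logb p.n (p.msG σ t) ≤ -c + logb p.n σ + 3 / 2 * logb p.n (max t x) + η := by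
  obtain ⟨a, a', -⟩ := lg_mx H t0 (H.r0.trans_le rx)
  obtain ⟨-, b1, b2⟩ := H.lg_msG66 hM t
  have d : p.Tc t ≤ max t x := max_le (rx.trans (le_max_right _ _))
    ((min_le_left _ _).trans (le_max_left _ _))
  have := H.lg_mono (H.Tc0 t) d
  exact ⟨a, a', by linarith, by linarith⟩

/-- **`LN` on the graded mass** -/
theorem ln_gst (hM : p.MemG σ) (hη : 10 * η ≤ c) (cl : Cl S M) (hn : S.n = p.n) (hF : S.F = 1)
    (hm : S.ms = p.msG σ) (hC : S.C ≤ (p.n : ℝ) ^ η) (HJ : M.H S.Jp ≤ S.C)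
    (l0s : E * M.s S.jl ≤ l0) (lj : p.rj / 2 ≤ l0) (l0l : l0 ≤ l) (rx : p.r ≤ x) (x3 : x ^ 3 = X)
    (E0 : 0 < E) (L0 : 0 < Lg) (Y0 : 0 < X2) (Z0 : 0 < X3) (G : 0 < G0) (t20 : 0 < t2)
    (t30 : 0 < t3)
    (g : LG η (logb p.n E) (logb p.n (p.muG σ)) (logb p.n x) (logb p.n l0) (logb p.n l)
      (logb p.n Lg) (logb p.n X2) (logb p.n X3) (logb p.n G0) (logb p.n (p.msG σ l0))
      (logb p.n (p.msG σ l)) (logb p.n t2) (logb p.n (max t2 x)) (logb p.n (p.msG σ t2))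
      (logb p.n t3) (logb p.n (max t3 x)) (logb p.n (p.msG σ t3)) b) :
    FX E S M l0 l x X Lg ((p.n : ℝ) ^ (-(2 : ℝ) / 3)) X2 X3 G0 ∧
    LN E S M l0 l (X ^ ((1 : ℝ) / 3)) X Lg X2 X3 G0
      (eta S l Lg ((p.n : ℝ) ^ (-(2 : ℝ) / 3)) X X2 X3 G0) := by
  have s0 := H.sgG_pos hM
  have l00 : 0 < l0 := (half_pos H.rj0).trans_le lj
  have lp := l00.trans_le l0l
  have x0 := H.r0.trans_le rx
  have η0 := H.η_pos
  have c0 := H.c_pos
  have n0 := H.N0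
  have mm : ∀ {u v : ℝ}, u ≤ v → logb p.n (p.msG σ u) ≤ logb p.n (p.msG σ v) := fun h =>
    H.lg_mono (H.msG_pos hM _) (H.msG_mono s0 h)
  have ym : ∀ {u v : ℝ}, u ≤ v → logb p.n (max u x) ≤ logb p.n (max v x) := fun h =>
    H.lg_mono (lt_max_of_lt_right x0) (max_le_max_right _ h)
  have hY : ∀ t, 0 < t → logb p.n t ≤ logb p.n x ∧ logb p.n (max t x) = logb p.n x ∨
      logb p.n x ≤ logb p.n t ∧ logb p.n (max t x) = logb p.n t ∧
      (logb p.n (p.msG σ t) = logb p.n (p.muG σ) ∨ logb p.n t ≤ -(3 * c) ∧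
        (-c + 2 * logb p.n t ≤ logb p.n (p.msG σ t) ∨
          -c + logb p.n σ + 3 / 2 * logb p.n t ≤ logb p.n (p.msG σ t))) := fun t t0 => by
    rcases le_total t x with h | h
    · exact .inl ⟨H.lg_mono t0 h, by rw [max_eq_right h]⟩
    · exact .inr ⟨H.lg_mono x0 h, by rw [max_eq_left h], ms_cases H hM (rx.trans h)⟩
  have q : ∀ t u, 0 < t → 0 < u → logb p.n t ≤ logb p.n u ∧
      logb p.n (max t x) ≤ logb p.n (max u x) ∨ logb p.n u ≤ logb p.n t ∧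
      logb p.n (max u x) ≤ logb p.n (max t x) ∧ logb p.n (p.msG σ u) ≤ logb p.n (p.msG σ t) :=
    fun t u t0 u0 => (le_total t u).imp (fun h => ⟨H.lg_mono t0 h, ym h⟩)
      fun h => ⟨H.lg_mono u0 h, ym h, mm h⟩
  have F : FX E S M l0 l x X Lg ((p.n : ℝ) ^ (-(2 : ℝ) / 3)) X2 X3 G0 := by
    refine fx_lg H cl hn hF HJ l0s l0l (fun t t' a b => by rw [hm]; exact H.sub66 a b s0)
      (fun t a => by rw [hm]; exact ms_sq H hM hη (lj.trans a)) x3 E0 l00 x0 L0 Y0 Z0 G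
      (by rw [hm]; exact g.gx) (fun t a b => ?_) (fun t a b => ?_) fun t a _ => ?_ <;> rw [hm]
    · have t0 := l00.trans_le a
      exact gv_lin g η0.le c0.le (H.lg_le t0 (b.trans hC)) (hY t t0) (H.lg_muG66 hM).2.2
        (ms_up H hM rx t20) (ms_up H hM rx t30) (q t t2 t0 t20) (q t t3 t0 t30)
    · have t0 := l00.trans_le a
      have a1 := H.lg_mono l00 a
      have a2 := H.lg_mono t0 b
      have a3 := mm a
      have a4 := H.lg_mono (H.msG_pos hM l) (H.msG_le s0 l)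
      obtain ⟨-, -, a5, a6⟩ := ms_up H hM rx lp
      rw [max_eq_left (H.le_of_lg x0 lp g.gx.xl)] at a5 a6
      have := g.gb0
      have := g.gb1
      rcases hY t t0 with ⟨h, h'⟩ | ⟨h, h', k | ⟨k, k' | k'⟩⟩ <;> linarith
    · have := H.lg_mono lp a
      have := mm a
      have := g.t2
      linarith
  refine ⟨F, ?_⟩
  have k := e2_lg H F hn hF l0l (by rw [hm]; exact g.m12)
  have mf1 : ∀ t, mf S t = p.msG σ t := fun t => by rw [mf, hF, div_one, hm]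
  refine F.ln (fun t a b => ?_) fun t a b => ?_ <;>
  · have t0 := lp.trans_le a
    have := H.msG_pos hM t
    have := H.lg_mono lp a
    have := mm a
    have := g.th1
    have := g.th4
    refine (mul_le_mul_of_nonneg_left ((F.e2_anti le_rfl a).trans k) E0.le).trans ?_
    rw [mf1]
    refine H.le_of_lg (by positivity) (by positivity) ?_
    lg_norm; rw [H.lg_n]; linarith

end

end Crest.Agent.T156.Alt.Ln97

end
end

-- ▼ part T156/LNt_97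

/-!
# Row 156, block (L): the bulk numbers `LN` on the table `LtD_29` (helper97)
-/

set_option autoImplicit false
set_option linter.unusedSectionVars false

noncomputable section

namespace Crest.Agent.T156.Alt.Ln97

open Real Finset
open Crest.Agent.T156.Alt.L69 Crest.Agent.T156.Alt.Tn15 Crest.Agent.T156.Alt.Lt15
open Crest.Agent.T156.Alt.R77 (Dt OnG LNx etaL)

/-- the exponents of the table `LtD_29`: `x, μ` amplitude and top mass, `ξ` crude level, `a0, a, a2`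
levels `l0L, ltL, min x A2` with masses `m0, m, m2`, `W = lg xM`, `la = lg laG σ` -/
structure LT (c η x μ ξ a0 a a2 m0 m m2 χ2 χ3 γ W la : ℝ) : Prop where
  c0 : 0 < c
  c1 : c ≤ 1 / 100000
  e0 : 0 ≤ η
  e1 : 1000000 * η ≤ c
  μ0 : -(7 * c) ≤ μ ∨ x - 11 / 2 * c ≤ μ
  μ1 : μ ≤ -(7 * c) + η
  μ2 : μ ≤ x - 11 / 2 * c + η
  nd : -(1 / 3) - 4 * c ≤ μ
  ξ1 : 3 * ξ ≤ -(71 / 250)
  n2 : 3 * ξ ≤ -(79 / 240) + c / 4 ∧ χ2 ≤ -(121 / 360) + c / 4 ∨ 1 / 20 ≤ μ + 1 / 3 ∧ χ2 ≤ -(3 / 10)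
  w1 : -(1 - c) / 6 ≤ a0
  w2 : -(2 / 11) * (1 - c + x) ≤ a0
  a02 : a0 ≤ a2
  a2ξ : a2 ≤ ξ
  a2l : a2 = ξ ∨ -(7 / 60) ≤ a2
  χ2e : χ2 = c / 1000 + 2 * ξ + a2
  m0l : -c + 2 * a0 ≤ m0 ∨ -c + x + 3 / 2 * a0 ≤ m0
  m2l : -c + 2 * a2 ≤ m2 ∨ -c + x + 3 / 2 * a2 ≤ m2
  ml : -c + 2 * a ≤ m ∨ -c + x + 3 / 2 * a ≤ m
  mu : m ≤ -c + 2 * a + η
  ξa : c / 3000 + ξ ≤ a
  a1 : a ≤ -(10 * c)
  lv : (-(1 / 6) + 49 / 100 * c ≤ a ∧ 2 / 3 * (-(1 / 3) + 49 / 50 * c - x) ≤ a) ∧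
      -(1 / 3) - 3 / 200 * c - 2 * η ≤ m ∧ χ2 + c / 20 - 2 * η ≤ m ∨
    -(10 * c) - η ≤ a ∧ μ - 14 * c - 3 * η ≤ m
  χ3l : -(101 / 200) ≤ χ3 ∧ 3 / 2 * χ2 ≤ χ3
  χ3u : χ3 ≤ η - 101 / 200 ∨ χ3 ≤ η + 3 / 2 * χ2
  γl : 5 * c - 1 / 3 - W / 2 ≤ γ ∧ χ2 ≤ γ
  γu : γ ≤ η + 5 * c - 1 / 3 - W / 2 ∨ γ ≤ η + c / 100 + (-1 - μ + 3 / 2 * ξ - la) / 2 ∨ γ ≤ η + χ2
  hW : 0 ≤ μ + 1 / 3 ∧ W = μ + 1 / 3 ∨ μ + 1 / 3 ≤ 0 ∧ W = 0
  hla : -(1 / 3) - c - W ≤ 2 * la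

namespace LT

variable {c η x μ ξ a0 a a2 m0 m m2 χ2 χ3 γ W la : ℝ}
  (h : LT c η x μ ξ a0 a a2 m0 m m2 χ2 χ3 γ W la)
include h

theorem q0 : -1 - 4 * a0 ≤ m0 := by rcases h.m0l with k | k <;> linarith [h.w1, h.w2]
theorem q2 : -1 - 4 * a2 ≤ m2 := by rcases h.m2l with k | k <;> linarith [h.w1, h.w2, h.a02]
theorem χ2u : χ2 ≤ -(3 / 10) := by rcases h.n2 with ⟨_, _⟩ | ⟨_, _⟩ <;> linarith [h.c1]
theorem mlo : -(1 / 3) - 19 * c ≤ m := by
  rcases h.lv with ⟨_, _, _⟩ | ⟨_, _⟩ <;> linarith [h.c0, h.e1, h.nd]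
theorem mχ : χ2 + c / 25 ≤ m := by
  rcases h.lv with ⟨_, _, _⟩ | ⟨_, _⟩ <;> rcases h.n2 with ⟨_, _⟩ | ⟨_, _⟩ <;>
    linarith [h.c0, h.e1, h.nd, h.c1]
theorem ξ2 : 2 * ξ + 1 / 20 ≤ a2 := by rcases h.a2l with k | k <;> linarith [h.ξ1]
theorem γ1 : γ ≤ η + 5 * c - 1 / 3 - W / 2 ∨ γ ≤ 3 * c - 1 / 4 + 3 / 4 * ξ - W / 4 ∨
    γ ≤ η + χ2 := h.γu.imp_right fun k => k.imp_left fun k => by
  rcases h.hW with ⟨_, _⟩ | ⟨_, _⟩ <;> linarith [h.hla, h.nd, h.e1, h.c0]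
theorem W0 : 0 ≤ W ∧ μ + 1 / 3 ≤ W := by rcases h.hW with ⟨_, _⟩ | ⟨_, _⟩ <;> constructor <;> linarith
theorem γ2 : γ ≤ -(29 / 100) := by
  rcases h.γ1 with k | k | k <;> linarith [h.W0.1, h.ξ1, h.χ2u, h.c1, h.e1, h.c0]

theorem gx : GX η (c / 100000) a0 a ξ (c / 50000) χ2 χ3 γ m0 m := by
  have := h.c0; have := h.c1; have := h.e0; have := h.e1; have := h.ξ1; have := h.a02
  have := h.a2ξ; have := h.χ2e; have := h.ξ2; have := h.χ3l.2; have := h.γl.2; have := h.mlo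
  exact ⟨by linarith [h.q0], by linarith [h.a1], by linarith, by linarith [h.ξa], by linarith,
    by linarith, by linarith, by linarith [h.γ2], ⟨by linarith, by linarith⟩,
    ⟨by linarith, by linarith⟩, ⟨by linarith, by linarith⟩, by linarith [h.mχ]⟩

theorem h5 : γ + c / 10000 ≤ 11 / 6 * m + (1 + a) / 3 := by
  have := h.c0; have := h.c1; have := h.e0; have := h.e1; have := h.ξ1; have := h.W0.1
  have := h.W0.2; have := h.nd; have := h.χ2u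
  rcases h.lv with ⟨⟨_, _⟩, _, _⟩ | ⟨_, _⟩ <;> rcases h.γ1 with k | k | k <;>
    first | linarith | (rcases h.μ0 with _ | _ <;> linarith)

theorem h6 : γ + χ2 / 2 + c / 10000 ≤ 3 / 2 * m := by
  have := h.c0; have := h.c1; have := h.e0; have := h.e1; have := h.ξ1; have := h.W0.1
  have := h.W0.2; have := h.nd; have := h.mχ
  rcases h.γu with k | k | k
  · rcases h.n2 with ⟨_, _⟩ | ⟨_, _⟩ <;> linarith [h.mlo]
  · have := h.hla
    rcases h.lv with ⟨-, _, _⟩ | ⟨_, _⟩ <;> rcases h.n2 with ⟨_, _⟩ | ⟨_, _⟩ <;>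
      rcases h.hW with ⟨_, _⟩ | ⟨_, _⟩ <;> linarith
  · linarith

theorem m12 : M12 η (c / 50000) ξ χ2 χ3 γ a m (3 / 2 * m - c / 100000 - η) := by
  have := h.c0; have := h.c1; have := h.e0; have := h.e1; have := h.ξ1; have := h.mχ
  have := h.mlo; have := h.nd
  refine ⟨?_, ?_, ?_, ?_, by linarith [h.h5], by linarith [h.h6], by linarith [h.h5, h.γl.2],
    by linarith, ?_, by linarith, by linarith, by linarith [h.ξa]⟩
  · rcases h.lv with ⟨⟨_, _⟩, _, _⟩ | ⟨_, _⟩ <;> linarith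
  · rcases h.lv with ⟨⟨_, _⟩, _, _⟩ | ⟨_, _⟩ <;> linarith
  · rcases h.lv with ⟨⟨_, _⟩, _, _⟩ | ⟨_, _⟩ <;> linarith
  · rcases h.lv with ⟨⟨_, _⟩, _, _⟩ | ⟨_, _⟩
    · linarith
    · rcases h.n2 with ⟨_, _⟩ | ⟨_, _⟩ <;> linarith
  · rcases h.χ3u with _ | _ <;> linarith

theorem lg : LG η (c / 100000) μ ξ a0 a (c / 50000) χ2 χ3 γ m0 m a2 ξ m2 a2 ξ m2
    (3 / 2 * m - c / 100000 - η) := by
  have := h.c0; have := h.c1; have := h.e0; have := h.e1; have := h.ξ1; have := h.a02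
  have := h.a2ξ; have := h.χ2e; have := h.ξ2; have := h.χ3l.1; have := h.χ3l.2; have := h.γl.1
  have := h.γl.2; have := h.q0; have := h.q2; have := h.nd; have := h.w1; have := h.w2
  refine ⟨h.gx, by linarith, by linarith, ?_, ?_, ?_, by linarith, by linarith, ?_, by linarith,
    by linarith, by linarith, ?_, ?_, h.m12, by linarith, by linarith [h.mu]⟩
  · have := h.μ2
    rcases h.a2l with _ | _
    · linarith
    · rcases h.m2l with _ | _ <;> rcases h.n2 with ⟨_, _⟩ | ⟨_, _⟩ <;> linarith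
  · rcases h.μ0 with _ | _ <;> linarith
  · rcases h.μ0 with _ | _ <;> linarith
  · rcases h.a2l with _ | _ <;> linarith
  · have := h.μ2; have := h.μ1; have := h.a1
    rcases h.ml with _ | _ <;> rcases h.hW with ⟨_, _⟩ | ⟨_, _⟩ <;> linarith
  · rcases h.lv with ⟨⟨_, _⟩, _, _⟩ | ⟨_, _⟩ <;> linarith

end LT

/-- the crossing level of `X2L`, `X3L` -/
def t2L (p : Pm) (t : ℝ) : ℝ :=
  min (p.lN t) (max (p.nc (1 / 100) * p.rj) ((p.n : ℝ) ^ (-(7 : ℝ) / 60)))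

variable {β c0 C0 : ℝ} {A : ℕ} {c η K' ε K c0' C0' η' : ℝ} {p : Pm} {σ t y : ℝ} {Q : Pl}

/-- the mass exponent from below -/
theorem ms_lo (H : Reg β c0 C0 A c η K' p) (M : p.MemG t) (y0 : 0 < y)
    (hy : logb p.n y ≤ -(3 * c)) : -c + 2 * logb p.n y ≤ logb p.n (p.msG t y) ∨
      -c + logb p.n t + 3 / 2 * logb p.n y ≤ logb p.n (p.msG t y) := by
  have b := (H.lg_msG66 M y).1
  rcases H.lg_Tc_cases (σ := t) y0 with ⟨_, _⟩ | ⟨_, _, _⟩ | ⟨_, _, _⟩ <;>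
    exact b.imp (fun _ => by linarith) fun _ => by linarith

section

variable (X : Nr44.Cx β c0 C0 A c η K' p σ t)
include X

theorem t2L0 : 0 < t2L p t := lt_min X.lN0 (lt_max_of_lt_right (X.H.rp0 _))

theorem lg_t2L : logb p.n (t2L p t) = min (logb p.n (p.PhN t) / 3)
    (max (c / 100 + (logb p.n p.s + c / 13 - 1 / 6)) (-7 / 60)) := by
  have a := mul_pos (nc0 X.H (1 / 100)) X.H.rj0
  rw [t2L, lg_min X.H.N1 X.lN0 (lt_max_of_lt_left a), lg_max X.H.N1 a (X.H.rp0 _),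
    logb_mul (nc0 X.H _).ne' X.H.rj0.ne', lg_nc X.H, X.H.lg_rp, X.H.lg_rj, lg_lN X]
  congr 2; ring

theorem lg_E2 : -(15 / 1000 * c) ≤ logb p.n (p.E2L t) ∧
    c / 20 + logb p.n (p.X2L t) + 1 / 3 ≤ logb p.n (p.E2L t) := by
  have := nc0 X.H (1 / 20); have := X2L0 X; have := X.H.N0
  rw [Pm.E2L, lg_max X.H.N1 (nc0 X.H _) (by positivity), logb_mul (by positivity) (by positivity),
    logb_mul (by positivity) (by positivity), lg_nc X.H, lg_nc X.H, X.H.lg_rp]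
  exact ⟨le_max_of_le_left (by linarith), le_max_of_le_right (by linarith)⟩

theorem Ph_s (nd : p.Need t) (hc : c ≤ 1 / 100000) (hs : logb p.n p.s ≤ 7 / 200) :
    logb p.n (p.PhN t) ≤ -(79 / 240) + c / 4 := by
  obtain ⟨c0, c1, e0, e1, s0, s1, x0, x1, m0, m1, m2, up⟩ := Nr44.ex X.H X.hy
  have := (need_iff X).1 nd
  rcases up with up | up | ⟨up, _, _⟩ | up | ⟨up, _⟩ | up | up | ⟨up, _, _⟩ | ⟨up, _⟩ | up |
    ⟨up, _⟩ <;> linarith

/-- **all exponents of the bulk part of the table** -/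
theorem lt_lg (hc : c ≤ 1 / 100000) (hη : 1000000 * η ≤ c) (nd : p.Need t) (n2 : p.Need2 t) :
    LT c η (logb p.n t) (logb p.n (p.muG t)) (logb p.n (p.lN t)) (logb p.n (p.l0L t))
      (logb p.n (p.ltL t)) (logb p.n (t2L p t)) (logb p.n (p.msG t (p.l0L t)))
      (logb p.n (p.msG t (p.ltL t))) (logb p.n (p.msG t (t2L p t))) (logb p.n (p.X2L t))
      (logb p.n (p.X3L t)) (logb p.n (p.G0L σ t)) (logb p.n (p.xM t)) (logb p.n (p.laG σ)) := by
  have H := X.H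
  have c0 := H.c_pos; have η0 := H.η_pos
  obtain ⟨θ0, θ1, θ2⟩ := lg_θ X
  have n1 := (need_iff X).1 nd
  have P1 := lg_Ph_hi X nd
  obtain ⟨P2, P3, P4, -⟩ := lg_Ph_lo X
  obtain ⟨⟨-, w1, w2⟩, w3⟩ := lg_l0L X
  obtain ⟨s0, s1⟩ := H.lg_s
  have n8 := H.lg_num (x := 8) (by norm_num) (by norm_num)
  have ex := lg_lN X
  have e2 := lg_t2L X
  have e3 := lg_X2L_eq X
  have e4 := lg_ltL X
  have e5 := lg_yL X
  obtain ⟨E1, E2⟩ := lg_E2 X
  have q1 := le_max_left (c / 100 + (logb p.n p.s + c / 13 - 1 / 6)) (-7 / 60)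
  have q2 := le_max_right (c / 100 + (logb p.n p.s + c / 13 - 1 / 6)) (-7 / 60)
  have q3 := max_choice (c / 100 + (logb p.n p.s + c / 13 - 1 / 6)) (-7 / 60)
  generalize max (c / 100 + (logb p.n p.s + c / 13 - 1 / 6)) (-7 / 60) = B at e2 e3 q1 q2 q3
  have r1 : logb p.n (t2L p t) ≤ logb p.n (p.PhN t) / 3 := e2 ▸ min_le_left _ _
  have r2 : logb p.n (t2L p t) ≤ B := e2 ▸ min_le_right _ _
  have r3 : logb p.n (t2L p t) = logb p.n (p.PhN t) / 3 ∨ logb p.n (t2L p t) = B :=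
    e2 ▸ min_choice _ _
  have r4 : logb p.n (p.X2L t) = c / 1000 + 2 / 3 * logb p.n (p.PhN t) + logb p.n (t2L p t) := by
    rw [e3, e2]
    rcases le_total (logb p.n (p.PhN t) / 3) B with h | h
    · rw [min_eq_left h, min_eq_left (by linarith)]; ring
    · rw [min_eq_right h, min_eq_right (by linarith)]; ring
  have l1 : logb p.n (p.l0L t) ≤ logb p.n (p.PhN t) / 3 := ex ▸ H.lg_mono (l0L0 X) (max_le
    (H.le_of_lg (mul_pos (pow_pos (EL0 H) 2) H.rj0) X.lN0 (by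
      rw [logb_mul (pow_pos (EL0 H) 2).ne' H.rj0.ne', logb_pow, lg_EL H, H.lg_rj, ex]
      push_cast; linarith)) ((le_max_right _ _).trans X.l0l))
  have l2 : logb p.n (p.l0L t) ≤ logb p.n (t2L p t) := by
    rcases r3 with r | r
    · linarith
    · rcases w3 with w | w | w <;> linarith
  have a1 : c / 3000 + logb p.n (p.PhN t) / 3 ≤ logb p.n (p.ltL t) := e4 ▸ le_max_left _ _
  have a2 : min (logb p.n (p.yL t)) (-(10 * c)) - logb p.n 8 ≤ logb p.n (p.ltL t) :=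
    e4 ▸ le_max_right _ _
  have a3 : logb p.n (p.ltL t) ≤ -(10 * c) := e4 ▸ max_le (by linarith)
    (by linarith [min_le_right (logb p.n (p.yL t)) (-(10 * c))])
  have y1 : 2 / 3 * (logb p.n (p.E2L t) - 1 / 3 + c - logb p.n t) ≤ logb p.n (p.yL t) :=
    e5 ▸ le_max_left _ _
  have y2 : (logb p.n (p.E2L t) - 1 / 3 + c) / 2 ≤ logb p.n (p.yL t) := e5 ▸ le_max_right _ _
  have ml := ms_lo H X.Mt (ltL0 X) (by linarith)
  have rl : p.r ≤ p.ltL t := H.le_of_lg H.r0 (ltL0 X) (by rw [H.lg_r]; linarith)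
  have mu := H.lg_mono (H.Tc0 _) (Reg.Tc_le rl)
  obtain ⟨z1, z2, z3⟩ := lg_X3L X
  obtain ⟨g1, -, g2, g3⟩ := lg_G0L X
  refine ⟨c0, hc, η0.le, hη, θ0, θ1, θ2, by linarith, by linarith, ?_, w1, w2, l2, by linarith,
    r3.imp (fun _ => by linarith) fun _ => by linarith, by linarith,
    ms_lo H X.Mt (l0L0 X) (by linarith), ms_lo H X.Mt (t2L0 X) (by linarith), ml,
    by linarith [(H.lg_msG66 X.Mt (p.ltL t)).2.1], by linarith, a3, ?_, ⟨z1, z2⟩, z3, ⟨g1, g2⟩,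
    g3.imp_right fun g => g.imp_left fun g => by linarith, lg_xM X, (lg_la X nd).1⟩
  · rcases (need2_iff X).1 n2 with h | h
    · have := Ph_s X nd hc h
      exact .inl ⟨by linarith, by rcases q3 with q | q <;> linarith⟩
    · exact .inr ⟨h, by rcases q3 with q | q <;> linarith⟩
  · rcases min_choice (logb p.n (p.yL t)) (-(10 * c)) with h | h <;> rw [h] at a2
    · exact .inl ⟨⟨by linarith, by linarith⟩, by rcases ml with m | m <;> linarith,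
        by rcases ml with m | m <;> linarith⟩
    · exact .inr ⟨by linarith, by rcases ml with m | m <;> linarith⟩

end

/-- `FX` on the table -/
def FXx : Dt := fun p σ t S M => p.Need t → p.Need2 t →
  FX p.EL S M (p.l0L t) (p.ltL t) (p.lN t) (p.PhN t) p.LgL ((p.n : ℝ) ^ (-(2 : ℝ) / 3)) (p.X2L t)
    (p.X3L t) (p.G0L σ t)

/-- **`FX` and `LN` on the table** -/
theorem lnL (G : Gd66 β c0 C0 A c η K' ε K c0' C0' η' p σ t Q) (hc : c ≤ 1 / 100000)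
    (hη : 1000000 * η ≤ c) :
    FXx p σ t (p.scG K σ t Q) (p.gst Q t) ∧ LNx p σ t (p.scG K σ t Q) (p.gst Q t) := by
  have H := G.R
  have c0 := H.c_pos; have η0 := H.η_pos
  have X : Nr44.Cx β _ C0 A c η K' p σ t := ⟨H, by linarith, by linarith, G.O⟩
  have E0 := EL0 H
  have r0 := H.rj0
  have E3 : 3 ≤ p.EL := le_trans (by linarith [H.num_le])
    (Pre29.rp_le H.n1 (show η ≤ 1 / 100000 * p.c by rw [H.hc]; linarith))
  have l0 : p.EL ^ 2 * p.rj ≤ p.l0L t := le_max_left _ _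
  have k : ∀ (nd : p.Need t) (n2 : p.Need2 t), _ := fun nd n2 =>
    have T := lt_lg X hc hη nd n2
    ln_gst H (t2 := t2L p t) (t3 := t2L p t) (E := p.EL) (Lg := p.LgL) G.M (by linarith) G.D.cl.1
      rfl rfl rfl G.CK (G.HJ.trans G.C1)
      ((mul_le_mul_of_nonneg_left G.sj.2 E0.le).trans (le_trans (by nlinarith [mul_pos E0 r0]) l0))
      (le_trans (by nlinarith [mul_pos E0 r0]) l0)
      (H.le_of_lg (l0L0 X) (ltL0 X) (by linarith [T.a02, T.a2ξ, T.ξa]))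
      (H.le_of_lg H.r0 X.lN0 (by rw [H.lg_r, lg_lN X]; linarith [(lg_Ph_lo X).2.2.1])) X.l3 E0
      (LgL0 H) (X2L0 X) (X3L0 X) (G0L0 X) (t2L0 X) (t2L0 X) (by
        rw [max_eq_right (show t2L p t ≤ p.lN t from min_le_left _ _), lg_EL H, lg_LgL H]
        exact T.lg)
  exact ⟨fun a b => (k a b).1, fun a b => (k a b).2⟩

theorem lnG' (hβ : 1 < β) : OnG (fun p σ t S M => FXx p σ t S M ∧ LNx p σ t S M) β :=
  R77.OnG.cl' hβ CL.triv (R77.OnG.triv β) one_pos (c1 := 1 / 100000) (by norm_num) 1000000 0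
    (fun _ => 1) fun _ _ _ _ _ _ _ _ _ _ _ _ _ _ G hc _ hη _ _ _ => lnL G hc (by exact_mod_cast hη)

/-- **the leaf `FXx`** -/
theorem fxG (hβ : 1 < β) : OnG FXx β := fun K k =>
  (lnG' hβ K k).mono fun _ _ h a b d e f g i j l => (h a b d e f g i j l).1
/-- **the leaf `LNx`** -/
theorem lnG (hβ : 1 < β) : OnG LNx β := fun K k =>
  (lnG' hβ K k).mono fun _ _ h a b d e f g i j l => (h a b d e f g i j l).2

end Crest.Agent.T156.Alt.Ln97

end
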