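import Crest.Agent.T156.LPq_3
import Crest.Agent.T156.LPy_13

-- ▼ part T156/LPr_3
section

/-!
# Row 156 (helper3): `Lp86.NS`, `Lp86.NA` in exponents
-/

set_option autoImplicit false

noncomputable section

namespace Crest.Agent.T156.Alt.Lq3

open Real Tr3 Lp86

/-- exact exponent -/
def T (n y a : ℝ) : Prop := U n y a ∧ D n y a

theorem tl {n η y : ℝ} (H : B n η) (h : 0 < y) : T n y (logb n y) := ⟨H.ul h, H.dl h⟩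
theorem tp {n η : ℝ} (H : B n η) (a : ℝ) : T n (n ^ a) a := ⟨H.up a, B.dp a⟩

theorem nc_mono {E n C θ u0 la V U' h Γ x Vt V2 Q2 w u2 dm2 Λ z2 aM P2 Lg X2 G0 j ηc τ e1 e A m N
    N' : ℝ} (K : NC E n C θ u0 la V U' h Γ x Vt V2 Q2 w u2 dm2 Λ z2 aM P2 Lg X2 G0 j ηc τ e1 e A m N)
    (g : N ≤ N') :
    NC E n C θ u0 la V U' h Γ x Vt V2 Q2 w u2 dm2 Λ z2 aM P2 Lg X2 G0 j ηc τ e1 e A m N' :=
  ⟨K.ct, K.v2, K.hQ, K.z1, K.c1.imp (·.trans g) fun a => ⟨a.1, a.2.1, a.2.2.trans g⟩, K.e2,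
    K.c1'.trans g, K.c2.trans g, K.c3.trans g, K.c4.trans g, K.c8.trans g, K.c9.trans g, K.jτ, K.A1,
    K.m1, K.c5.trans g, K.c5'.imp (·.trans g) id⟩

/-- `d` = exponent of `dm` at the cut `μ` -/
structure LD (η a0 uu μ d : ℝ) : Prop where
  d1 : d + η ≤ μ
  d2 : d + η ≤ (uu + μ) / 2
  d3 : d + η ≤ 2 * a0

theorem dm_d {n η u0 U' u a0 uu μ d : ℝ} (H : B n η) (h0 : D n u0 a0) (hU : D n U' uu)
    (hu : D n u μ) (h : LD η a0 uu μ d) : D n (min (u / 4) (min (√(U' * u) / 4) (u0 ^ 2 / 2))) d := by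
  have c4 := H.cst (y := 4) (by norm_num) (by norm_num)
  have c2 := H.cst (y := 2) (by norm_num) (by norm_num)
  exact (H.dmono (H.ddiv hu c4 (by norm_num)) (by linarith [h.d1])).min
    ((H.dmono (H.ddiv (H.dsqrt (H.dmul hU hu)) c4 (by norm_num)) (by linarith [h.d2])).min
      (H.dmono (H.ddiv (H.dpow h0 2) c2 (by norm_num)) (by push_cast; linarith [h.d3])))

/-- **the lines of the sizes**.  Exponents `ξ vt ω μ d lp p2 p3` of `x Vt w u1 dm L P2 P3`;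
auxiliary `q` (of `Q`) and `r` (of `ρ`) -/
structure ES (η a0 l v uu ξ vt ω μ d lp p2 p3 q r : ℝ) : Prop where
  hq : LQ η l v uu ξ vt q
  uU : μ ≤ uu
  L1 : 0 ≤ lp
  far : ω + η ≤ 3 * lp + μ
  s1 : ω + l + 6 * lp + 9 * η ≤ 3 / 2 * p2
  s2 : ω + 2 * ξ - l + 6 * lp + 10 * η ≤ 3 / 2 * p2
  s3 : ω + 3 / 2 * ξ + q + 6 * lp + 9 * η ≤ 3 / 2 * p2
  z1 : ω + a0 + 6 * lp + 6 * η ≤ p3
  z2 : ω + v + 6 * lp + 6 * η ≤ p3
  z3 : ω + 6 * lp + 6 * η ≤ p3 ∨ ω + (uu - μ) / 2 + 6 * lp + 6 * η ≤ p3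
  z4 : ω + 2 * ξ - l + 6 * lp + 8 * η ≤ p3
  z5 : ω + vt + q + 6 * lp + 7 * η ≤ p3
  r1 : ω + 9 / 2 * ξ - l + 5 * η ≤ 2 * r
  r2 : ω + 3 * ξ + q + 2 * η ≤ 2 * r
  a1 : μ + η ≤ p2
  a2 : 2 * ω - d - l + 4 * lp + 6 * η ≤ p2
  a3 : ω - l + 4 * lp + 6 * η ≤ p2
  a4 : r + 3 * η ≤ p2
  b1 : μ + η ≤ p3
  b2 : 3 * ω - 2 * d - l + 6 * lp + 6 * η ≤ p3
  b3 : 3 / 2 * (ω - l) + 6 * lp + 7 * η ≤ p3
  b4 : r + ξ + 3 * η ≤ p3
  b5 : r + vt + 3 * η ≤ p3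

/-- **`NS` from the lines** -/
theorem ns_lg {n η C θ u0 la V U' Γ t a0 l v uu g h x Vt w u dm Λ L : ℝ}
    {ξ vt ω μ d lp p2 p3 q r : ℝ}
    (X : XD n η C θ u0 la V U' Γ t a0 l v uu g) (c : Ct n C u0 U' h x u dm Λ)
    (hx : U n x ξ) (hV : U n Vt vt) (hw : U n w ω) (hu : T n u μ) (hd : D n dm d)
    (hΛ : U n Λ (2 * η)) (hL : T n L lp) (K : ES η a0 l v uu ξ vt ω μ d lp p2 p3 q r) :
    ∃ σ z, NS n C u0 la V U' h x Vt (n ^ q) w u dm Λ σ z (n ^ r) L (n ^ p2) (n ^ p3) := by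
  have H := X.b
  have η0 := H.η0
  have cs : ∀ y : ℝ, 0 ≤ y → y ≤ 1000 → U n y η := fun y => H.cst
  have c2 := cs 2 (by norm_num) (by norm_num)
  have c4 := cs 4 (by norm_num) (by norm_num)
  have s3 := sq3 X hx
  have Z : LZ η a0 l v uu ξ vt q ω μ (p3 - 6 * lp - 5 * η - ω) (p3 - 6 * lp - 4 * η) :=
    ⟨by linarith [K.z1], by linarith [K.z2], K.z3.imp (fun _ => by linarith) fun _ => by linarith,
      by linarith, by linarith [K.z4], by linarith [K.z5]⟩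
  refine ⟨n ^ ((p2 - 4 * lp - 4 * η) / 2), n ^ (p3 - 6 * lp - 4 * η), c, hV.1, qq X hx hV K.hq,
    H.le hu.1 X.ud K.uU, H.le B.one hL.2 K.L1,
    H.le (H.mul (cs 16 (by norm_num) (by norm_num)) hw) (H.dmul (H.dpow hL.2 3) hu.2)
      (by push_cast; linarith [K.far]), (H.rp _).le, ?_, zz X hx hV hw hu.2 Z, (H.rp _).le, ?_, ?_, ?_⟩
  · refine H.le (H.mul hw (H.add (c := 3 / 2 * (p2 - 4 * lp - 4 * η) - ω) (H.mul c2 X.lu)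
      (H.add (c := 3 / 2 * (p2 - 4 * lp - 4 * η) - ω - η)
      (H.div (H.mul (H.mul (cs 64 (by norm_num) (by norm_num)) X.C) (H.pow hx 2)) X.ld)
      (H.mul (H.mul c2 s3) (H.up q)) ?_ ?_) ?_ ?_)) (H.dpow (B.dp _) 3) ?_
    all_goals
      push_cast
      linarith [K.s1, K.s2, K.s3]
  · refine H.le (H.mul hw (H.add (c := 2 * r - ω)
      (H.div (H.mul (H.mul (cs 256 (by norm_num) (by norm_num)) (H.pow X.C 3)) (H.pow s3 3)) X.ld)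
      (H.mul (H.mul c4 (H.pow hx 3)) (H.up q)) ?_ ?_)) (H.dpow (B.dp _) 2) ?_
    all_goals
      push_cast
      linarith [K.r1, K.r2]
  · have p1 := H.pc hu.1 K.a1
    have p2' := H.pc (c := p2) (H.mul hΛ (H.mul (H.pow hL.1 4) (H.mul c2
      (H.pow (H.up ((p2 - 4 * lp - 4 * η) / 2)) 2)))) (by push_cast; linarith)
    have p3' := H.pc (c := p2) (H.mul hΛ (H.mul (H.pow hL.1 4) (H.mul c4
      (bD_u (b := p2 - 4 * lp - 4 * η) X hw hd 0 (by push_cast; linarith [K.a2])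
        (by push_cast; linarith [K.a3]))))) (by push_cast; linarith)
    have p4 := H.pc (c := p2) (H.mul hΛ (H.up r)) (by linarith [K.a4])
    exact (H.tot 4 (by linarith) (by linarith)).2
  · have p1 := H.pc hu.1 K.b1
    have p2' := H.pc (c := p3) (H.mul hΛ (H.mul (H.pow hL.1 6) (H.mul c4
      (H.up (p3 - 6 * lp - 4 * η))))) (by push_cast; linarith)
    have p3' := H.pc (c := p3) (H.mul hΛ (H.mul (H.pow hL.1 6)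
      (H.mul (cs 16 (by norm_num) (by norm_num))
      (bD_u (b := p3 - 6 * lp - 4 * η) X hw hd 1 (by push_cast; linarith [K.b2])
        (by push_cast; linarith [K.b3]))))) (by push_cast; linarith)
    have p4 := H.pc (c := p3) (H.mul hΛ (H.mul (H.up r) hx)) (by linarith [K.b4])
    have p5 := H.pc (c := p3) (H.mul hΛ (H.mul (H.up r) hV)) (by linarith [K.b5])
    exact (H.tot 5 (by linarith) (by linarith)).2

/-- **the other lines**.  Exponents `e t l ξ ω μ1 μ2 lp p2 p3 L lc χ2 χ3 γ ι κ τ` of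
`E θ la x w u1 u2 L P2 P3 Lg Lc X2 X3 G0 j ηc τ` -/
structure EA (η e t l ξ ω μ1 μ2 lp p2 p3 L lc χ2 χ3 γ ι κ τ : ℝ) : Prop where
  E1 : 0 ≤ e
  w1 : 0 ≤ ω + (1 + t)
  x1 : e + ξ ≤ 0
  u12 : μ1 ≤ μ2
  u2E : e + μ2 ≤ 0
  Ln : 3 * lp ≤ 1
  LL : lp ≤ L
  n2 : p2 ≤ χ2
  n3 : p3 ≤ χ3
  g1 : μ1 ≤ γ
  g2 : ω + 3 / 2 * ξ - l + 2 * η ≤ 2 * γ
  g2' : ω + 2 * η ≤ 2 * γ
  g3 : -(3 / 2) ≤ 2 * γ
  c1 : L ≤ lc
  c2 : lc ≤ 1
  k1 : 2 * lc + ω + η ≤ κ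
  k2 : 2 / 3 * (2 * lc + ω) + t + η ≤ κ
  k3 : 2 / 3 * (2 * lc + ω) + ι + η ≤ κ
  k4 : 2 / 3 * (2 * lc + ω) + ξ + η ≤ κ
  k5 : (lc + ω) / 2 + (2 * lc + ω) / 3 + η ≤ κ
  k6 : (lc + ω) / 2 + χ2 / 2 + η ≤ κ
  k7 : γ + (2 * lc + ω) / 3 + η ≤ κ
  k8 : γ + χ2 / 2 + η ≤ κ
  k9 : χ2 + (2 * lc + ω) / 3 + η ≤ κ
  k10 : 3 / 2 * χ2 + η ≤ κ
  k11 : χ3 + η ≤ κ
  k12 : -1 + η ≤ κ
  uc : e + 2 / 3 * (2 * lc + ω) ≤ t
  t1 : ξ - lc + η ≤ τ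
  t2 : κ - t + η ≤ τ
  t3 : τ ≤ ξ
  j1 : e + ι + η ≤ 0
  j2 : e + τ + η ≤ 0
  tw : ω ≤ 3 * τ

/-- **`NA` from the lines** -/
theorem na_lg {n η E θ la h x w u1 u2 L Lg Lc X2 X3 G0 j ηc τ : ℝ}
    {e t l ξ ω μ1 μ2 lp p2 p3 Lg' lc χ2 χ3 γ ι κ τ' : ℝ} (H : B n η)
    (hE : T n E e) (hθ : T n θ t) (hl : D n la l) (hh : U n h (-(3 / 2))) (hx : T n x ξ)
    (hw : T n w ω) (h1 : U n u1 μ1) (h2 : T n u2 μ2) (hL : U n L lp) (hg : T n Lg Lg')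
    (hc : T n Lc lc) (hX : T n X2 χ2) (hY : T n X3 χ3) (hG : T n G0 γ) (hj : U n j ι)
    (hk : T n ηc κ) (hτ : T n τ τ') (K : EA η e t l ξ ω μ1 μ2 lp p2 p3 Lg' lc χ2 χ3 γ ι κ τ') :
    NA E n θ la h x w u1 u2 L (n ^ p2) (n ^ p3) Lg Lc (n ^ ((2 * lc + ω) / 3)) X2 X3 G0 j ηc τ := by
  have η0 := H.η0
  have cs : ∀ y : ℝ, 0 ≤ y → y ≤ 1000 → U n y η := fun y => H.cst
  have u := H.up ((2 * lc + ω) / 3)
  have s3 : U n √(x ^ 3) (3 / 2 * ξ) := H.mono (H.sqrt (H.pow hx.1 3)) (by push_cast; linarith)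
  have G2 := H.dpow hG.2 2
  refine ⟨H.le B.one hE.2 K.E1, H.le B.one (H.dmul hw.2 (H.dmul B.dn hθ.2)) K.w1,
    H.le (H.mul hE.1 hx.1) B.done K.x1, H.le h1 h2.2 K.u12, H.le (H.mul hE.1 h2.1) B.done K.u2E,
    H.le (H.pow hL 3) B.dn (by push_cast; exact K.Ln), H.le hL hg.2 K.LL, H.le (H.up _) hX.2 K.n2,
    H.le (H.up _) hY.2 K.n3, H.le h1 hG.2 K.g1, ?_, H.le hh G2 (by push_cast; exact K.g3),
    ⟨H.le hg.1 hc.2 K.c1, H.le hc.1 B.dn K.c2⟩, u.1,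
    H.le (H.mul (H.pow hc.1 2) hw.1) (H.dpow (B.dp _) 3) (by push_cast; linarith), hj.1, ?_,
    H.le (H.mul hE.1 (H.pow u 2)) hθ.2 (by push_cast; linarith [K.uc]),
    H.le (H.add (H.div hx.1 hc.2) (H.div hk.1 hθ.2) K.t1 K.t2) hτ.2 le_rfl, H.le hτ.1 hx.2 K.t3,
    H.le (H.mul hE.1 (H.add (c := -e) hj hτ.1 (by linarith [K.j1]) (by linarith [K.j2]))) B.done
      (by linarith), H.le hw.1 (H.dpow hτ.2 3) (by push_cast; exact K.tw)⟩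
  · refine H.le (H.mul hw.1 (H.add (c := 2 * γ - ω)
      (H.div (H.mul (cs 12 (by norm_num) (by norm_num)) s3) hl) (cs 4 (by norm_num) (by norm_num))
      ?_ ?_)) G2 ?_
    all_goals
      push_cast
      linarith [K.g2, K.g2']
  · have a := H.sqrt (H.mul hc.1 hw.1)
    have b := H.sqrt hX.1
    have u2 := H.pow u 2
    have p1 := H.pc (c := κ) (H.pow u 3) (by push_cast; linarith [K.k1])
    have p2' := H.pc (c := κ) (H.mul u2 hθ.1) (by push_cast; linarith [K.k2])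
    have p3' := H.pc (c := κ) (H.mul u2 hj) (by push_cast; linarith [K.k3])
    have p4 := H.pc (c := κ) (H.mul u2 hx.1) (by push_cast; linarith [K.k4])
    have p5 := H.pc (c := κ) (H.mul a u) (by linarith [K.k5])
    have p6 := H.pc (c := κ) (H.mul a b) (by linarith [K.k6])
    have p7 := H.pc (c := κ) (H.mul hG.1 u) (by linarith [K.k7])
    have p8 := H.pc (c := κ) (H.mul hG.1 b) (by linarith [K.k8])
    have p9 := H.pc (c := κ) (H.mul hX.1 u) (by linarith [K.k9])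
    have p10 := H.pc (c := κ) (H.mul hX.1 b) (by linarith [K.k10])
    have p11 := H.pc (c := κ) hY.1 K.k11
    have p12 := H.pc (c := κ) (H.div B.one B.dn) (by linarith [K.k12])
    exact H.le (H.tot (c := κ) 12 (by linarith) (by linarith)) hk.2 le_rfl

end Crest.Agent.T156.Alt.Lq3

end
end

-- ▼ part T156/LPu_3

/-!
# Row 156 (helper3): `LP` and `Jn` on the graded path from linear lines
-/

set_option autoImplicit false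

noncomputable section

namespace Crest.Agent.T156.Alt.Lq3

open Real Tr3 Lp86 Lx13 Plt13 L69 Kn72

/-- the lines of the sizes: `μ a v uu` = exponents of `θ la Vc u2` -/
structure EZ (η μ a v uu ξ vt μ1 lp p2 p3 d1 q r : ℝ) : Prop where
  c1 : -(9 / 10) ≤ μ1
  c2 : 2 / 3 * a ≤ ξ
  c3 : η + ξ ≤ 0
  D1 : LD η (2 / 3 * a) uu μ1 d1
  S : ES η (2 / 3 * a) a v uu ξ vt (-1 - μ) μ1 d1 lp p2 p3 q r

/-- **all the lines of `LP`** -/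
structure EL (η e μ a v uu ξ vt μ1 μ2 lp L lc χ2 χ3 γ ι κ τ ε1 ν
    p2 p3 d1 d2 q r lm z b α ε a' m β δ : ℝ) : Prop where
  Z : EZ η μ a v uu ξ vt μ1 lp p2 p3 d1 q r
  D2 : LD η (2 / 3 * a) uu μ2 d2
  A : EA η e μ a ξ (-1 - μ) μ1 μ2 lp p2 p3 L lc χ2 χ3 γ ι κ τ
  C : EC η e μ (2 / 3 * a) a v uu (2 * μ + 2 * a + 3 * η) ξ vt (-1 - μ) μ2 d2 p2 L χ2 γ ι κ τ ε1 ν
    q lm z b α ε a' m β δ

variable {β c0 C0 c0' C0' η' : ℝ} {A : ℕ} {c η K K' : ℝ} {p : Pm} {σ t : ℝ} {Q : Pl}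
  (X : Nr44.Cx β c0 C0 A c η K' p σ t) (G : GrD K c0' C0' η' p σ t Q)
include X G

theorem tw : T p.n (ww p t) (-1 - logb p.n (p.muG t)) := by
  have := X.θ0
  have := X.H.N0
  exact (lg_gst X G).w ▸ tl (B.of X.H) (by positivity)

theorem tu : T p.n (u0 p (nu p σ)) (2 / 3 * logb p.n (p.laG σ)) :=
  (lg_gst X G).u ▸ tl (B.of X.H) (rpow_pos_of_pos X.la0 _)

theorem xd : XD p.n η (8 * K ^ 2) (p.muG t) (u0 p (nu p σ)) (p.laG σ) (p.Vc (nu p σ))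
    (p.u2 (nu p σ)) (Gm p K σ t) (logb p.n (p.muG t)) (2 / 3 * logb p.n (p.laG σ))
    (logb p.n (p.laG σ)) (logb p.n (p.Vc (nu p σ))) (logb p.n (p.u2 (nu p σ)))
    (2 * logb p.n (p.muG t) + 2 * logb p.n (p.laG σ) + 3 * η) := by
  have H := B.of X.H
  exact ⟨H, ⟨by positivity, C_le X.H G⟩, H.ul X.θ0, H.dl X.θ0, (tu X G).1, H.ul X.la0, H.dl X.la0,
    H.ul X.Vc0, H.dl X.Vc0, H.ul X.u0, H.dl X.u0, H.mono (H.ul (Gm0 X G)) (lg_gst X G).Γ.2⟩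

omit G in
theorem lam : U p.n (12 * log p.n) (2 * η) :=
  (B.of X.H).mono ((B.of X.H).mul ((B.of X.H).cst (by norm_num) (by norm_num))
    ⟨by linarith [X.H.log1], X.H.log_le⟩) (by linarith)

theorem ct {x u ξ μ : ℝ} (hx : T p.n x ξ) (hu : D p.n u μ) (c1 : -(9 / 10) ≤ μ)
    (c2 : 2 / 3 * logb p.n (p.laG σ) ≤ ξ) (c3 : η + ξ ≤ 0) :
    Ct p.n (8 * K ^ 2) (u0 p (nu p σ)) (p.u2 (nu p σ)) (hh p) x u
      (min (u / 4) (min (√(p.u2 (nu p σ) * u) / 4) (u0 p (nu p σ) ^ 2 / 2))) (12 * log p.n) :=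
  have H := B.of X.H
  ct_gst X.H (nm_nu X.H X.o G) (H.dmono hu c1) (H.le (tu X G).1 hx.2 c2)
    (H.le (H.mul (xd X G).C hx.1) B.done c3)

/-- the sizes -/
theorem ns {x Vt u1 L ξ vt μ1 lp p2 p3 d1 q r : ℝ} (hx : T p.n x ξ) (hV : U p.n Vt vt)
    (h1 : T p.n u1 μ1) (hL : T p.n L lp)
    (Z : EZ η (logb p.n (p.muG t)) (logb p.n (p.laG σ)) (logb p.n (p.Vc (nu p σ)))
      (logb p.n (p.u2 (nu p σ))) ξ vt μ1 lp p2 p3 d1 q r) :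
    ∃ dm s z, NS p.n (8 * K ^ 2) (u0 p (nu p σ)) (p.laG σ) (p.Vc (nu p σ)) (p.u2 (nu p σ)) (hh p)
      x Vt ((p.n : ℝ) ^ q) (ww p t) u1 dm (12 * log p.n) s z ((p.n : ℝ) ^ r) L ((p.n : ℝ) ^ p2)
      ((p.n : ℝ) ^ p3) :=
  ⟨_, ns_lg (xd X G) (ct X G hx h1.2 Z.c1 Z.c2 Z.c3) hx.1 hV (tw X G).1 h1
    (dm_d (B.of X.H) (tu X G).2 (xd X G).ud h1.2 Z.D1) (lam X) hL Z.S⟩

variable (hA : 4 ≤ A) (P : p.PlX σ t Q)
include hA P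


/-- **`LP` from the lines** -/
theorem lp_lg {E x Vt u1 u2 L Lg Lc X2 X3 G0 j ηc τ N : ℝ} {φ : ℝ → ℝ}
    {e ξ vt μ1 μ2 lp Lg' lc χ2 χ3 γ ι κ τ' ε1 ν p2 p3 d1 d2 q r lm z b α ε a' m β' δ : ℝ}
    (hE : T p.n E e) (hx : T p.n x ξ) (hV : U p.n Vt vt) (h1 : T p.n u1 μ1) (h2 : T p.n u2 μ2)
    (hL : T p.n L lp) (hg : T p.n Lg Lg') (hc : T p.n Lc lc) (hX : T p.n X2 χ2)
    (hY : T p.n X3 χ3) (hG : T p.n G0 γ) (hj : U p.n j ι) (hk : T p.n ηc κ) (hτ : T p.n τ τ')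
    (hN : D p.n N ν) (hφ : U p.n (φ 1) ε1)
    (Z : EL η e (logb p.n (p.muG t)) (logb p.n (p.laG σ)) (logb p.n (p.Vc (nu p σ)))
      (logb p.n (p.u2 (nu p σ))) ξ vt μ1 μ2 lp Lg' lc χ2 χ3 γ ι κ τ' ε1 ν
      p2 p3 d1 d2 q r lm z b α ε a' m β' δ) :
    LP E (p.scG K σ t Q) (p.gst Q t) (x ^ 3) Vt Lg (L ^ 3) X2 X3 G0 0 u1 u2 j 0 Lc ηc τ φ N := by
  have H := B.of X.H
  have Y := xd X G
  obtain ⟨_, _, _, S⟩ := ns X G hx hV h1 hL Z.Z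
  exact Lx13.lp X.H hA X.o G P S
    (na_lg H hE ⟨Y.θu, Y.θd⟩ Y.ld (H.up _) hx (tw X G) h1.1 h2 hL.1 hg hc hX hY hG hj hk hτ Z.A)
    (nc_mono (nc_lg Y (ct X G hx h2.2 (Z.Z.c1.trans Z.A.u12) Z.Z.c2 Z.Z.c3) le_rfl hE.1 hx.1 hV
      (tw X G).1 h2.1 h2.2 (dm_d H (tu X G).2 Y.ud h2.2 Z.D2) (lam X) (H.up _) hg.1 hX.1 hG.1 hj
      hk.1 hτ.1 (H.up ε1) Z.C) hN) hφ.1 hφ.2

end Crest.Agent.T156.Alt.Lq3

end
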