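import Crest.Agent.T156.PCmp_3
import Crest.Agent.T156.PrB_28

/-!
Row 156 (helper3): section 4 of docs/T156_28.md, generic part.  A displacement SHAPE `w` gives the
profile `om j = w (j v)`; its mass function is `Ms w t = ∫_0^t w`; the replicon coefficient `ee`
is comparable to `eps + Ms w t` (from `P1B`).
-/

set_option autoImplicit false

namespace Crest.Agent.T156.Pr.Fam3

open MeasureTheory Filter Topology Set
open Crest.Agent.R164.GC Crest.Agent.R339.B Crest.Agent.R339.Var Crest.Agent.T157.Pf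
open Crest.Agent.T156.Pp

noncomputable section

/-- displacement shapes -/
structure Sh (Y L : ℝ) (w : ℝ → ℝ) : Prop where
  zero : w 0 = 0
  nn : ∀ t, 0 ≤ t → 0 ≤ w t
  supp : ∀ t, Y ≤ t → w t = 0
  lip : ∀ s t, |w s - w t| ≤ L * |s - t|

/-- the profile of a shape -/
def omw (w : ℝ → ℝ) (v : ℝ) (j : ℕ) : ℝ := w (j * v)

/-- the mass function -/
def Ms (w : ℝ → ℝ) (t : ℝ) : ℝ := ∫ s in (0:ℝ)..t, w s

variable {Y L v t : ℝ} {w w' : ℝ → ℝ}

theorem cont_of_lip {f : ℝ → ℝ} (h : ∀ s t, |f s - f t| ≤ L * |s - t|) : Continuous f := by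
  have hL : 0 ≤ L := by simpa using (abs_nonneg _).trans (h 1 0)
  exact (LipschitzWith.of_dist_le_mul (K := ⟨L, hL⟩) fun s t => h s t).continuous

theorem Sh.cont (h : Sh Y L w) : Continuous w := cont_of_lip h.lip

theorem Sh.L_nn (h : Sh Y L w) : 0 ≤ L := by simpa using (abs_nonneg _).trans (h.lip 1 0)

theorem Sh.le (h : Sh Y L w) (ht : 0 ≤ t) : w t ≤ L * t := by
  have := (le_abs_self _).trans (h.lip t 0)
  rwa [h.zero, sub_zero, sub_zero, abs_of_nonneg ht] at this

theorem Sh.leY (h : Sh Y L w) (hY : 0 ≤ Y) (ht : 0 ≤ t) : w t ≤ L * Y := by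
  rcases le_total Y t with a | a
  · rw [h.supp t a]; exact mul_nonneg h.L_nn hY
  · exact (h.le ht).trans (mul_le_mul_of_nonneg_left a h.L_nn)

theorem Sh.mono (h : Sh Y L w) {Y' L' : ℝ} (hY : Y ≤ Y') (hL : L ≤ L') : Sh Y' L' w :=
  ⟨h.zero, h.nn, fun t ht => h.supp t (hY.trans ht),
    fun s t => (h.lip s t).trans (mul_le_mul_of_nonneg_right hL (abs_nonneg _))⟩


theorem Sh.om (h : Sh Y L w) (hv : 0 < v) : Om v Y L (omw w v) := by
  refine ⟨by simp [omw, h.zero], fun j => h.nn _ (by positivity), fun j hj => h.supp _ hj,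
    fun j => (h.lip _ _).trans ?_⟩
  push_cast
  rw [show ((j:ℝ) + 1) * v - j * v = v by ring, abs_of_pos hv]

theorem Ms_zero (w : ℝ → ℝ) : Ms w 0 = 0 := by simp [Ms]

theorem Sh.Ms_sub (h : Sh Y L w) (s t : ℝ) : Ms w t - Ms w s = ∫ r in s..t, w r :=
  intervalIntegral.integral_interval_sub_left (h.cont.intervalIntegrable _ _)
    (h.cont.intervalIntegrable _ _)

theorem Sh.Ms_mono (h : Sh Y L w) {s t : ℝ} (hs : 0 ≤ s) (hst : s ≤ t) : Ms w s ≤ Ms w t := by
  have := intervalIntegral.integral_nonneg (μ := volume) hst fun r hr => h.nn r (hs.trans hr.1)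
  linarith [h.Ms_sub s t]

theorem Sh.Ms_nn (h : Sh Y L w) (ht : 0 ≤ t) : 0 ≤ Ms w t := by
  simpa [Ms_zero] using h.Ms_mono le_rfl ht

theorem Sh.Ms_top (h : Sh Y L w) (ht : Y ≤ t) : Ms w t = Ms w Y := by
  have := h.Ms_sub Y t
  rw [intervalIntegral.integral_congr (g := fun _ => 0) (fun r hr => by
    rw [uIcc_of_le ht] at hr; exact h.supp r hr.1)] at this
  simp only [intervalIntegral.integral_zero] at this
  linarith

theorem Sh.Ms_le (h : Sh Y L w) (ht : 0 ≤ t) : Ms w t ≤ Ms w Y ∨ Y < 0 := by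
  rcases lt_or_ge Y 0 with a | a
  · exact Or.inr a
  · rcases le_total t Y with b | b
    · exact Or.inl (h.Ms_mono ht b)
    · exact Or.inl (h.Ms_top b).le

theorem Sh.Ms_leY (h : Sh Y L w) (hY : 0 ≤ Y) (ht : 0 ≤ t) : Ms w t ≤ Ms w Y :=
  (h.Ms_le ht).resolve_right (not_lt.2 hY)

theorem Sh.Ms_min (h : Sh Y L w) {a : ℝ} (ha : Y ≤ a) (t : ℝ) : Ms w (min a t) = Ms w t := by
  rcases le_total t a with b | b
  · rw [min_eq_right b]
  · rw [min_eq_left b, h.Ms_top ha, h.Ms_top (ha.trans b)]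

/-! ### Riemann sums -/

theorem riem {f : ℝ → ℝ} {B : ℝ} (hl : ∀ s t, |f s - f t| ≤ L * |s - t|)
    (hb : ∀ s, 0 ≤ s → |f s| ≤ B) (hv : 0 < v) (ht : 0 ≤ t) (N : ℕ) :
    |(∑ j ∈ Finset.range N, if ((j:ℝ) + 1) * v ≤ t then v * f (((j:ℝ) + 1) * v) else 0) -
      ∫ s in (0:ℝ)..min (N * v) t, f s| ≤ L * v * (N * v) + B * v := by
  have hc := cont_of_lip hl
  have hL : 0 ≤ L := by simpa using (abs_nonneg _).trans (hl 1 0)
  have hB : 0 ≤ B := (abs_nonneg _).trans (hb 0 le_rfl)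
  have e := intervalIntegral.sum_integral_adjacent_intervals (μ := volume) (f := f)
    (a := fun j : ℕ => min (j * v) t) (n := N) fun k _ => hc.intervalIntegrable _ _
  simp only [Nat.cast_zero, zero_mul, min_eq_left ht] at e
  rw [← e, ← Finset.sum_sub_distrib]
  set g : ℕ → ℝ := fun j => if t ≤ j * v then v else 0 with hg
  have key : ∀ j : ℕ, |(if ((j:ℝ) + 1) * v ≤ t then v * f (((j:ℝ) + 1) * v) else 0) -
      ∫ s in min (j * v) t..min (((j + 1 : ℕ) : ℝ) * v) t, f s| ≤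
      L * v * v + B * (g (j + 1) - g j) := by
    intro j
    have j0 : 0 ≤ (j:ℝ) * v := by positivity
    have jl : (j:ℝ) * v ≤ (j + 1) * v := by linarith
    have p : 0 ≤ L * v * v := by positivity
    have gm : g j ≤ g (j + 1) := by
      simp only [hg]
      push_cast
      split_ifs with a b b
      · exact le_rfl
      · exact absurd (a.trans jl) b
      · exact hv.le
      · exact le_rfl
    push_cast
    split_ifs with a
    · rw [min_eq_left a, min_eq_left (jl.trans a)]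
      have e1 : v * f ((j + 1) * v) = ∫ _ in (j:ℝ) * v..(j + 1) * v, f ((j + 1) * v) := by
        rw [intervalIntegral.integral_const, smul_eq_mul]; ring
      rw [e1, ← intervalIntegral.integral_sub intervalIntegrable_const (hc.intervalIntegrable _ _)]
      have := intervalIntegral.norm_integral_le_of_norm_le_const (a := (j:ℝ) * v)
        (b := (j + 1) * v) (C := L * v) (f := fun s => f ((j + 1) * v) - f s) fun s hs => by
          rw [uIoc_of_le jl] at hs
          refine (hl _ _).trans (mul_le_mul_of_nonneg_left ?_ hL)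
          rw [abs_of_nonneg (by linarith [hs.2])]
          linarith [hs.1]
      rw [show ((j:ℝ) + 1) * v - j * v = v by ring, abs_of_pos hv] at this
      have := mul_nonneg hB (sub_nonneg.2 gm)
      refine le_trans ‹_› (by linarith)
    · have a' := (not_le.1 a).le
      rw [min_eq_right a', zero_sub, abs_neg]
      rcases le_or_gt t (j * v) with b | b
      · rw [min_eq_right b, intervalIntegral.integral_same, abs_zero]
        have := mul_nonneg hB (sub_nonneg.2 gm)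
        linarith
      · rw [min_eq_left b.le]
        have := intervalIntegral.norm_integral_le_of_norm_le_const (a := (j:ℝ) * v) (b := t)
          (C := B) (f := f) fun s hs => by
            rw [uIoc_of_le b.le] at hs
            exact hb s (j0.trans hs.1.le)
        rw [abs_of_nonneg (by linarith)] at this
        have g1 : g (j + 1) - g j = v := by
          simp only [hg]
          push_cast
          rw [if_pos a', if_neg (not_le.2 b), sub_zero]
        rw [g1]
        have := mul_le_mul_of_nonneg_left (show t - j * v ≤ v by linarith) hB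
        refine le_trans ‹_› (by linarith)
  refine (Finset.abs_sum_le_sum_abs _ _).trans ((Finset.sum_le_sum fun j _ => key j).trans ?_)
  rw [Finset.sum_add_distrib, Finset.sum_const, Finset.card_range, nsmul_eq_mul, ← Finset.mul_sum,
    Finset.sum_range_sub]
  have : g N - g 0 ≤ v := by
    simp only [hg]
    split_ifs <;> linarith
  have := mul_le_mul_of_nonneg_left this hB
  linarith

variable {b0 c C η : ℝ} {J N : ℕ} {z : ℕ → ℝ}

/-- masses against a nonnegative function vanishing above `J v` -/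
theorem dm_cmp (hB : Base b0 c C η v J z) {x : ℝ} {j : ℕ} (hx : 0 ≤ x) (h0 : J ≤ j + 1 → x = 0) :
    c * (v * x) ≤ dm z j * x ∧ dm z j * x ≤ C * (v * x) := by
  rcases lt_or_ge (j + 1) J with a | a
  · obtain ⟨a1, a2⟩ := hB.slo j a
    constructor <;> nlinarith
  · rw [h0 a]; simp

theorem WW_cmp (hB : Base b0 c C η v J z) (hc : 0 ≤ c) (hC : 0 ≤ C) (h : Sh Y L w) (hY0 : 0 ≤ Y)
    (hY : Y ≤ J * v) (hN : J ≤ N) (ht : 0 ≤ t) :
    c * (Ms w t - 2 * L * v * (N * v)) ≤ WW z N v (omw w v) t ∧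
      WW z N v (omw w v) t ≤ C * (Ms w t + 2 * L * v * (N * v)) := by
  have hv := hB.v_pos
  have YN : Y ≤ N * v := hY.trans (mul_le_mul_of_nonneg_right (Nat.cast_le.2 hN) hv.le)
  have r := riem h.lip (B := L * Y) (fun s hs => by
    rw [abs_of_nonneg (h.nn s hs)]; exact h.leY hY0 hs) hv ht N
  change |_ - Ms w _| ≤ _ at r
  rw [h.Ms_min YN, abs_le] at r
  have q : L * Y * v ≤ L * v * (N * v) := by
    have := mul_le_mul_of_nonneg_left YN (mul_nonneg h.L_nn hv.le)
    linarith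
  have cm : ∀ j : ℕ, c * (if ((j:ℝ) + 1) * v ≤ t then v * w (((j:ℝ) + 1) * v) else 0) ≤
      (if ((j:ℝ) + 1) * v ≤ t then dm z j * omw w v (j + 1) else 0) ∧
      (if ((j:ℝ) + 1) * v ≤ t then dm z j * omw w v (j + 1) else 0) ≤
      C * (if ((j:ℝ) + 1) * v ≤ t then v * w (((j:ℝ) + 1) * v) else 0) := fun j => by
    split_ifs
    · have := dm_cmp hB (j := j) (x := w (((j:ℝ) + 1) * v)) (h.nn _ (by positivity)) fun a =>
        h.supp _ (hY.trans (mul_le_mul_of_nonneg_right (by exact_mod_cast a) hv.le))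
      unfold omw
      push_cast
      exact this
    · simp
  unfold WW
  constructor
  · refine le_trans ?_ (Finset.sum_le_sum fun j _ => (cm j).1)
    rw [← Finset.mul_sum]
    exact mul_le_mul_of_nonneg_left (by linarith [r.1]) hc
  · refine (Finset.sum_le_sum fun j _ => (cm j).2).trans ?_
    rw [← Finset.mul_sum]
    exact mul_le_mul_of_nonneg_left (by linarith [r.2]) hC


/-! ### marks -/

/-- `h(t) = t - b Γ(t)` -/
def hh (l : List (ℝ × ℝ)) (eps t : ℝ) : ℝ := t - bb l eps * Gam l t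

theorem ee_cont {l : List (ℝ × ℝ)} (h : Ok l) (eps : ℝ) : ContinuousOn (ee l eps) (Icc 0 (TT l)) :=
  continuousOn_const.sub (continuousOn_const.mul (Ode3.Gp_cont (Ode3.AP.of_ok h)))


theorem hh_int {l : List (ℝ × ℝ)} (h : Ok l) (eps : ℝ) {s t : ℝ} (hs : 0 ≤ s) (hst : s ≤ t)
    (ht : t ≤ TT l) : hh l eps t - hh l eps s = ∫ r in s..t, ee l eps r := by
  have a := Ode3.AP.of_ok h
  have e := Ode3.Gam_int a hs hst ht
  have i := Ode3.ii_of_cont (Ode3.Gp_cont a) ⟨hs, hst.trans ht⟩ ⟨hs.trans hst, ht⟩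
  unfold hh ee
  rw [Ode3.Gam_eq, Ode3.GG_eq, intervalIntegral.integral_sub intervalIntegrable_const
    (i.const_mul _), intervalIntegral.integral_const_mul, ← e, intervalIntegral.integral_const,
    smul_eq_mul]
  ring

/-- increments of the marks and of the reference overlaps -/
theorem hh_bds {l : List (ℝ × ℝ)} (h : Ok l) (eps : ℝ) {s t m M : ℝ} (hs : 0 ≤ s) (hst : s ≤ t)
    (ht : t ≤ TT l) (he : ∀ r ∈ Icc s t, m ≤ ee l eps r ∧ ee l eps r ≤ M) :
    (m * (t - s) ≤ hh l eps t - hh l eps s ∧ hh l eps t - hh l eps s ≤ M * (t - s)) ∧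
      (1 - M) * (t - s) ≤ bb l eps * (Gam l t - Gam l s) ∧
      bb l eps * (Gam l t - Gam l s) ≤ (1 - m) * (t - s) := by
  have := int_bds (ee_cont h eps) hs hst ht he
  rw [← hh_int h eps hs hst ht] at this
  refine ⟨this, ?_, ?_⟩
  · have := this.2; unfold hh at this; linarith
  · have := this.1; unfold hh at this; linarith

/-! ### the replicon coefficient of a shape -/

/-- **the family theorem** -/
def FamE : Prop := ∀ b0 c C T0 : ℝ, 1 ≤ b0 → 0 < c → 1 ≤ C → ∃ c2 C2 Y0 η0 : ℝ, 0 < c2 ∧ c2 ≤ 1 ∧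
  1 ≤ C2 ∧ 0 < Y0 ∧ Y0 ≤ 1 ∧ 0 < η0 ∧ ∀ (η v : ℝ) (J : ℕ) (z : ℕ → ℝ), Base b0 c C η v J z → η ≤ η0 →
  ∀ (N : ℕ) (w : ℝ → ℝ) (Y L eps r : ℝ), J ≤ N → N * v ≤ T0 → Sh Y L w → 0 ≤ Y → Y ≤ Y0 →
    L ≤ 1 / 2 → (∀ t ∈ Icc r Y, C2 * (Ms w Y * t ^ 2) ≤ Ms w t) →
    C2 * (η + v + Ms w Y * r ^ 2) ≤ eps → eps ≤ 1 / 4 →
    (Ok (lo z v (omw w v) N) ∧ TT (lo z v (omw w v) N) = N * v ∧ Y ≤ J * v ∧
      3 / 4 ≤ bb (lo z v (omw w v) N) eps ∧ bb (lo z v (omw w v) N) eps ≤ 2 * b0) ∧
    (∀ t ∈ Icc 0 (J * v), c2 * (eps + Ms w t) ≤ ee (lo z v (omw w v) N) eps t ∧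
      ee (lo z v (omw w v) N) eps t ≤ C2 * (eps + Ms w (2 * t) + Ms w Y * t ^ 2) ∧
      ee (lo z v (omw w v) N) eps t ≤ C2 * (eps + Ms w Y) ∧
      ee (lo z v (omw w v) N) eps t ≤ 1 / 2) ∧
    (c2 * (eps + Ms w Y) ≤ thh b0 (lo z v (omw w v) N) eps ∧
      thh b0 (lo z v (omw w v) N) eps ≤ C2 * (eps + Ms w Y)) ∧
    (∀ t ∈ Icc Y (J * v), |ee (lo z v (omw w v) N) eps t - thh b0 (lo z v (omw w v) N) eps| ≤
      C2 * (√Y * Ms w Y + η + v)) ∧
    ∀ t ∈ Icc (J * v) (N * v), c2 * (eps + Ms w Y) + (1 - Real.exp (-((t - J * v) / 2))) / 2 ≤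
      ee (lo z v (omw w v) N) eps t ∧ ee (lo z v (omw w v) N) eps t ≤ 1

theorem base_eta_nn (hB : Base b0 c C η v J z) : 0 ≤ η :=
  (abs_nonneg _).trans (hB.crit J le_rfl 0 ⟨le_rfl, by have := hB.v_pos; positivity⟩)

set_option maxHeartbeats 1600000 in
theorem famE_of (H : P1B) : FamE := by
  intro b0 c C T0 hb0 hc hC
  obtain ⟨c1, C1, Y0, η0, hc1, hC1, hY0, hη0, H⟩ := H b0 c C T0 hb0 hc hC
  obtain ⟨T, hT⟩ : ∃ T, T = |T0| + 1 := ⟨_, rfl⟩
  have T1 : 1 ≤ T := by linarith [abs_nonneg T0]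
  obtain ⟨A, hA⟩ : ∃ A, A = C1 * C := ⟨_, rfl⟩
  have A1 : C1 ≤ A := hA ▸ le_mul_of_one_le_right (by linarith) hC
  have A0 : 0 < A := by linarith
  have T0' : 0 < T := by linarith
  have C10 : 0 < C1 := by linarith
  obtain ⟨a, ha⟩ : ∃ a, a = c1 * c := ⟨_, rfl⟩
  have a0 : 0 < a := ha ▸ mul_pos hc1 hc
  have T3 : T ≤ T ^ 3 := le_self_pow₀ T1 (by norm_num)
  have T2 : 1 ≤ T ^ 2 := one_le_pow₀ T1
  have T23 : T ^ 2 ≤ T ^ 3 := pow_le_pow_right₀ T1 (by norm_num)
  obtain ⟨K, hK⟩ : ∃ K, K = 8 * (A * T ^ 3) + 2 * (a * T) + 2 * A / a := ⟨_, rfl⟩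
  have AT : A ≤ A * T ^ 3 := le_mul_of_one_le_right (by linarith) (by linarith)
  have aT : 0 ≤ a * T := by positivity
  have Aa : 0 ≤ 2 * A / a := div_nonneg (by linarith) a0.le
  have K1 : 1 ≤ K := by linarith
  refine ⟨min (1 / 2) (a / 2), K, min (min Y0 ((c1 / (2 * C1)) ^ 2)) (1 / (8 * C1 * T ^ 2)),
    min η0 (1 / (16 * C1)), by positivity, (min_le_left _ _).trans (by norm_num), K1,
    by positivity, (min_le_right _ _).trans (by
      rw [div_le_one (by positivity)]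
      linarith only [one_le_mul_of_one_le_of_one_le hC1 T2]), by positivity,
    fun η v J z hB hη N w Y L eps r hN hNT h hY hYY hL hdom heps heps' => ?_⟩
  have hv := hB.v_pos
  have η0' := base_eta_nn hB
  have MY0 := h.Ms_nn hY
  have r0 : 0 ≤ Ms w Y * r ^ 2 := by positivity
  have e0 : η + v + Ms w Y * r ^ 2 ≤ eps :=
    (le_mul_of_one_le_left (by positivity) K1).trans heps
  obtain ⟨⟨o1, o2, o3⟩, h1, h2, h3, ⟨_, W0, WL, _, b1, b2⟩, h5⟩ := H η v J z hB
    (hη.trans (min_le_left _ _)) N (omw w v) Y L eps hN hNT (h.om hv) hY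
    (hYY.trans ((min_le_left _ _).trans (min_le_left _ _))) hL (by linarith) heps'
  have NT : N * v ≤ T := hNT.trans ((le_abs_self _).trans (by linarith))
  have JN : J * v ≤ N * v := mul_le_mul_of_nonneg_right (Nat.cast_le.2 hN) hv.le
  have er : 2 * L * v * (N * v) ≤ v * T := by
    have q1 := mul_le_mul_of_nonneg_left NT hv.le
    have q2 : 0 ≤ v * (N * v) := by positivity
    have q3 := mul_le_mul_of_nonneg_right hL q2
    linarith only [q1, q3]
  have cW : ∀ t, 0 ≤ t → a * Ms w t - a * T * v ≤ c1 * WW z N v (omw w v) t ∧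
      C1 * WW z N v (omw w v) t ≤ A * Ms w t + A * T * v := fun t ht => by
    obtain ⟨q1, q2⟩ := WW_cmp hB hc.le (by linarith) h hY o3 hN ht
    have u1 : Ms w t - v * T ≤ Ms w t - 2 * L * v * (N * v) := by linarith
    have u2 : Ms w t + 2 * L * v * (N * v) ≤ Ms w t + v * T := by linarith
    have q3 := mul_le_mul_of_nonneg_left ((mul_le_mul_of_nonneg_left u1 hc.le).trans q1) hc1.le
    have q4 := mul_le_mul_of_nonneg_left (q2.trans (mul_le_mul_of_nonneg_left u2
      (show 0 ≤ C by linarith))) C10.le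
    rw [ha, hA]
    constructor <;> linarith
  have q0 : ∀ t, WW z N v (omw w v) t ≤ L * Y := fun t => by
    refine le_trans ?_ (DD_le (hB.lab.up hN) (h.om hv) hv hY)
    unfold WW DD
    refine Finset.sum_le_sum fun j _ => ?_
    rw [Pi.zero_apply, sub_zero, abs_of_nonneg ((h.om hv).nn _)]
    split_ifs
    · exact le_rfl
    · exact mul_nonneg (hB.lab.dm_nn j) ((h.om hv).nn _)
  generalize lo z v (omw w v) N = l at *
  generalize WW z N v (omw w v) = W at *
  have sY : C1 * √Y ≤ c1 / 2 := by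
    have q := Real.sqrt_le_sqrt (hYY.trans ((min_le_left _ _).trans (min_le_right _ _)))
    rw [Real.sqrt_sq (by positivity)] at q
    have := mul_le_mul_of_nonneg_left q (show 0 ≤ C1 by linarith)
    rwa [show C1 * (c1 / (2 * C1)) = c1 / 2 by field_simp] at this
  have Ys : C1 * T ^ 2 * Y ≤ 1 / 8 := by
    have q := mul_le_mul_of_nonneg_left (hYY.trans (min_le_right _ _))
      (show 0 ≤ C1 * T ^ 2 by positivity)
    rwa [show C1 * T ^ 2 * (1 / (8 * C1 * T ^ 2)) = 1 / 8 by field_simp] at q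
  have Y1 : Y ≤ 1 := by
    have : 1 * Y ≤ C1 * T ^ 2 * Y :=
      mul_le_mul_of_nonneg_right (one_le_mul_of_one_le_of_one_le hC1 T2) hY
    linarith only [this, Ys]
  have ηs : C1 * η ≤ 1 / 16 := by
    have q := mul_le_mul_of_nonneg_left (hη.trans (min_le_right _ _)) (show 0 ≤ C1 by linarith)
    rwa [show C1 * (1 / (16 * C1)) = 1 / 16 by field_simp] at q
  have WY := cW Y hY
  -- the pieces of `eps`
  have p1 : C1 * η ≤ A * T ^ 3 * η := mul_le_mul_of_nonneg_right (by linarith) η0'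
  have p2 : A * T * v ≤ A * T ^ 3 * v :=
    mul_le_mul_of_nonneg_right (mul_le_mul_of_nonneg_left T3 (by linarith)) hv.le
  have p3 : A * (Ms w Y * r ^ 2) ≤ A * T ^ 3 * (Ms w Y * r ^ 2) := mul_le_mul_of_nonneg_right AT r0
  have p4 : 0 ≤ a * T * η := by positivity
  have p5 : 0 ≤ a * T * (Ms w Y * r ^ 2) := by positivity
  have p6 : 0 ≤ 2 * A / a * (η + v + Ms w Y * r ^ 2) := by positivity
  have p7 : 0 ≤ A * T ^ 3 * η := by positivity
  have p8 : 0 ≤ A * T ^ 3 * v := by positivity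
  have p9 : 0 ≤ A * T ^ 3 * (Ms w Y * r ^ 2) := by positivity
  have p10 : 0 ≤ a * T * v := by positivity
  have big : 8 * (A * T ^ 3 * η) + 8 * (A * T ^ 3 * v) + 8 * (A * T ^ 3 * (Ms w Y * r ^ 2)) +
      2 * (a * T * v) ≤ eps := by
    rw [hK] at heps
    linarith
  have mn : ∀ x y : ℝ, 0 ≤ x → 0 ≤ y → min (1 / 2) (a / 2) * (x + y) ≤ x / 2 + a / 2 * y :=
    fun x y hx hy => by
    have q1 := mul_le_mul_of_nonneg_right (min_le_left (1 / 2 : ℝ) (a / 2)) hx
    have q2 := mul_le_mul_of_nonneg_right (min_le_right (1 / 2 : ℝ) (a / 2)) hy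
    linarith
  have eps0 : 0 ≤ eps := by linarith
  have KA : ∀ x, 0 ≤ x → 4 * (A * T ^ 3 * x) ≤ K * x := fun x hx => by
    have := mul_le_mul_of_nonneg_right (show 4 * (A * T ^ 3) ≤ K by linarith) hx
    linarith
  have low : ∀ t ∈ Icc 0 (J * v), min (1 / 2) (a / 2) * (eps + Ms w t) ≤ ee l eps t := by
    intro t ht
    have Mt := h.Ms_nn ht.1
    refine (mn _ _ eps0 Mt).trans ?_
    rcases le_total t Y with tY | tY
    · have q1 := (h1 t ht).1
      have q2 := (cW t ht.1).1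
      have t1 : t ^ 2 ≤ 1 := pow_le_one₀ ht.1 (tY.trans Y1)
      have q3 := mul_le_mul_of_nonneg_right WY.2 (sq_nonneg t)
      have q4 : A * T * v * t ^ 2 ≤ A * T * v := mul_le_of_le_one_right (by positivity) t1
      have q5 : A * (Ms w Y * t ^ 2) ≤ A * (Ms w Y * r ^ 2) + a / 2 * Ms w t := by
        rcases le_total t r with tr | tr
        · have := mul_le_mul_of_nonneg_left (mul_le_mul_of_nonneg_left
            (pow_le_pow_left₀ ht.1 tr 2) MY0) (show 0 ≤ A by linarith)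
          have : 0 ≤ a / 2 * Ms w t := by positivity
          linarith
        · have u1 := hdom t ⟨tr, tY⟩
          have u0 : 0 ≤ Ms w Y * t ^ 2 := by positivity
          have u2 := (mul_le_mul_of_nonneg_right (show 2 * A / a ≤ K by linarith) u0).trans u1
          have u3 := mul_le_mul_of_nonneg_left u2 (show 0 ≤ a / 2 by positivity)
          rw [show a / 2 * (2 * A / a * (Ms w Y * t ^ 2)) = A * (Ms w Y * t ^ 2) by field_simp]
            at u3
          have : 0 ≤ A * (Ms w Y * r ^ 2) := by positivity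
          linarith
      linarith
    · have q1 := (abs_le.1 (h2 t ⟨tY, ht.2⟩)).1
      have q2 := mul_le_mul_of_nonneg_right sY W0
      rw [h.Ms_top tY]
      linarith [h3.1, WY.1]
  have tT : ∀ t ∈ Icc 0 (J * v), t ^ 2 ≤ T ^ 2 := fun t ht =>
    pow_le_pow_left₀ ht.1 (ht.2.trans (JN.trans NT)) 2
  have up : ∀ t ∈ Icc 0 (J * v), ee l eps t ≤ 2 * eps + A * Ms w (2 * t) + A * (Ms w Y * t ^ 2) := by
    intro t ht
    have q1 := (h1 t ht).2.1
    have q2 := (cW (2 * t) (by linarith [ht.1])).2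
    have q3 := mul_le_mul_of_nonneg_right WY.2 (sq_nonneg t)
    have q4 : A * T * v * t ^ 2 ≤ A * T * v * T ^ 2 :=
      mul_le_mul_of_nonneg_left (tT t ht) (by positivity)
    linarith
  have half : ∀ t ∈ Icc 0 (J * v), ee l eps t ≤ 1 / 2 := by
    intro t ht
    have q1 := (h1 t ht).2.1
    have LY : L * Y ≤ Y / 2 := by linarith only [mul_le_mul_of_nonneg_right hL hY]
    have q2 : C1 * W (2 * t) ≤ C1 * T ^ 2 * Y / 2 := by
      have u1 := mul_le_mul_of_nonneg_left ((q0 (2 * t)).trans LY) (show 0 ≤ C1 by linarith)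
      have u2 : C1 * Y * 1 ≤ C1 * Y * T ^ 2 := mul_le_mul_of_nonneg_left T2 (by positivity)
      linarith
    have q3 : C1 * (W Y * t ^ 2) ≤ C1 * T ^ 2 * Y / 2 := by
      have u1 := mul_le_mul_of_nonneg_left (mul_le_mul (WL.trans LY) (tT t ht) (sq_nonneg t)
        (by linarith)) (show 0 ≤ C1 by linarith)
      linarith
    linarith
  have AK : ∀ x, 0 ≤ x → A * x ≤ A * T ^ 3 * x := fun x hx => mul_le_mul_of_nonneg_right AT hx
  have K8 : 8 ≤ K := by linarith
  have Ke := mul_le_mul_of_nonneg_right K8 eps0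
  refine ⟨⟨o1, o2, o3, b1, b2⟩, fun t ht => ⟨low t ht, ?_, ?_, half t ht⟩, ⟨?_, ?_⟩,
    fun t ht => ?_, fun t ht => ⟨?_, ?_⟩⟩
  · have m1 := h.Ms_nn (t := 2 * t) (by linarith [ht.1])
    have m2 : 0 ≤ Ms w Y * t ^ 2 := by positivity
    have q1 := KA _ m1
    have q2 := KA _ m2
    have q3 := AK _ m1
    have q4 := AK _ m2
    have q5 : 0 ≤ A * T ^ 3 * Ms w (2 * t) := by positivity
    have q6 : 0 ≤ A * T ^ 3 * (Ms w Y * t ^ 2) := by positivity
    linarith [up t ht]
  · have q1 := KA _ MY0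
    have q2 := mul_le_mul_of_nonneg_left (h.Ms_leY hY (t := 2 * t) (by linarith [ht.1]))
      (show 0 ≤ A by linarith)
    have q3 := AK _ MY0
    have q4 := mul_le_mul_of_nonneg_left (mul_le_mul_of_nonneg_left ((tT t ht).trans T23) MY0)
      (show 0 ≤ A by linarith)
    have q5 : 0 ≤ A * T ^ 3 * Ms w Y := by positivity
    linarith [up t ht]
  · refine (mn _ _ eps0 MY0).trans ?_
    have : 0 ≤ a * Ms w Y := by positivity
    linarith [h3.1, WY.1]
  · have q1 := KA _ MY0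
    have q3 := AK _ MY0
    have q5 : 0 ≤ A * T ^ 3 * Ms w Y := by positivity
    linarith [h3.2, WY.2]
  · refine (h2 t ht).trans ?_
    have s0 := Real.sqrt_nonneg Y
    have s1 : √Y ≤ 1 := Real.sqrt_le_one.2 Y1
    have m0 : 0 ≤ √Y * Ms w Y := by positivity
    have q1 := mul_le_mul_of_nonneg_left WY.2 s0
    have q2 : √Y * (A * T * v) ≤ A * T * v := mul_le_of_le_one_left (by positivity) s1
    have q3 := KA _ m0
    have q4 := AK _ m0
    have q5 := KA _ η0'
    have q6 := KA _ hv.le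
    have q7 : 0 ≤ A * T ^ 3 * (√Y * Ms w Y) := by positivity
    linarith
  · have J0 : (J:ℝ) * v ∈ Icc 0 (J * v) := ⟨by positivity, le_rfl⟩
    have q1 := h5 t ht
    have q2 := low _ J0
    have q3 := half _ J0
    rw [h.Ms_top o3] at q2
    have x1 : Real.exp (-((t - J * v) / 2)) ≤ 1 := Real.exp_le_one_iff.2 (by linarith [ht.1])
    have q4 := mul_le_mul_of_nonneg_left (show 1 / 2 ≤ 1 - ee l eps (J * v) by linarith)
      (sub_nonneg.2 x1)
    linarith
  · unfold ee
    have := mul_nonneg (show 0 ≤ bb l eps by linarith) (Ode3.Gp_nonneg l t)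
    rw [Ode3.GG_eq]
    linarith

end

end Crest.Agent.T156.Pr.Fam3
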