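import Crest.Agent.T156.AltPre_67
import Crest.Agent.T156.PFam_3
import Crest.Agent.T156.PrC_28
import Crest.Agent.T156.PArea_50
import Crest.Agent.T156.AltMem_37
import Crest.Agent.T156.PlO_13

-- ▼ part T156/AltP0_37
section

/-!
# Row 156, ALT route: (P0) from (P1) (helper37)
-/

set_option autoImplicit false

noncomputable section

namespace Crest.Agent.T156.Alt.P037

open Real Set Filter Topology
open Crest.Agent.R339.Var (TT)




/-- the numeric facts used -/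
structure Nm (c0 C Λ : ℝ) (p : Pm) : Prop where
  n1 : 1 ≤ (p.n : ℝ)
  mu0 : p.μ0 ≤ p.κ * p.r ^ 2
  mu0p : 0 < p.μ0
  rye : p.r ≤ p.ye
  rp : 0 < p.r
  kp : 0 < p.κ
  vr : p.v ≤ p.r
  am : 2 * p.amax * C ≤ p.r
  L1 : 2 * C ≤ Λ
  r1 : 4 * C * p.r ≤ 1
  r2 : 4 * p.r ≤ c0
  k1 : 8 * C * p.κ ≤ 1
  y1 : 2 * p.ye ≤ c0
  w : ∀ τ y, p.μ0 ≤ p.μ τ y → p.wt τ y ≤ 1 ∧
    2 * C * p.r + log p.n * p.wt τ y ^ ((2 : ℝ) / 3) ≤ c0 / (2 * C)
  L2 : C * p.β ^ 2 + log (1 + 1 / √p.v) ≤ Λ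
  L3 : p.β ^ 2 + p.A * log p.n + p.v + log (1 + 1 / √p.v) ≤ Λ

section det

variable {c0 C0 C Λ η : ℝ} {p : Pm} {τ y : ℝ}

theorem Nm.mem (h : Nm c0 C Λ p) (hm : p.Mem τ y) :
    0 < τ ∧ τ ≤ 1 ∧ p.r ≤ y ∧ y ≤ p.ye ∧ p.μ0 ≤ p.μ τ y := by
  have k := h.kp
  have r := h.rp
  rcases hm with ⟨rfl, a, b⟩ | ⟨rfl, a, b⟩
  · refine ⟨?_, b, le_rfl, h.rye, a⟩
    by_contra hc
    have : τ * p.κ * p.r ^ 2 ≤ 0 :=
      mul_nonpos_of_nonpos_of_nonneg (mul_nonpos_of_nonpos_of_nonneg (not_lt.1 hc) k.le)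
        (sq_nonneg _)
    linarith [h.mu0p]
  · refine ⟨one_pos, le_rfl, a, b, h.mu0.trans ?_⟩
    unfold Pm.μ
    rw [one_mul]
    exact mul_le_mul_of_nonneg_left (pow_le_pow_left₀ r.le a 2) k.le






/-! ### labels -/












/-! ### static marks -/

theorem lg_mono {w v x x' : ℝ} (hw : 0 ≤ w) (hv : 0 < v) (h : x ≤ x') (h1 : x' ≤ 1) :
    log ((1 + w / √(1 - max x (1 / 2) + v)) / (1 + w / √(1 / 2 + v))) ≤
      log ((1 + w / √(1 - max x' (1 / 2) + v)) / (1 + w / √(1 / 2 + v))) := by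
  have a : max x' (1 / 2) ≤ 1 := max_le h1 (by norm_num)
  have b : max x (1 / 2) ≤ max x' (1 / 2) := max_le_max h le_rfl
  have c : 0 < √(1 - max x' (1 / 2) + v) := sqrt_pos.2 (by linarith)
  refine log_le_log (by positivity) (div_le_div_of_nonneg_right ?_ (by positivity))
  have : w / √(1 - max x (1 / 2) + v) ≤ w / √(1 - max x' (1 / 2) + v) :=
    div_le_div_of_nonneg_left hw c (sqrt_le_sqrt (by linarith))
  linarith

theorem lg_le {w v x : ℝ} (hw : 0 ≤ w) (hw1 : w ≤ 1) (hv : 0 < v) (h1 : x ≤ 1) :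
    log ((1 + w / √(1 - max x (1 / 2) + v)) / (1 + w / √(1 / 2 + v))) ≤ log (1 + 1 / √v) := by
  have a : max x (1 / 2) ≤ 1 := max_le h1 (by norm_num)
  have c : 0 < √v := sqrt_pos.2 hv
  refine log_le_log (by positivity) ((div_le_self (by positivity) ?_).trans ?_)
  · have : 0 ≤ w / √(1 / 2 + v) := by positivity
    linarith
  · have : w / √(1 - max x (1 / 2) + v) ≤ 1 / √v :=
      div_le_div₀ zero_le_one hw1 c (sqrt_le_sqrt (by linarith))
    linarith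






/-! ### the marks -/

theorem H_hi {k : ℕ} (h : p.j0 < k) :
    p.H τ y k = Pr.Fam3.hh (p.l τ y) (p.eps τ) (p.ss τ y k) + p.μ τ y * p.rs τ y (p.zz (k - 1)) := by
  unfold Pm.H; rw [if_neg (by omega)]; rfl

theorem H_lo {k : ℕ} (h : k ≤ p.j0) : p.H τ y k = 0 := if_pos h





end det

/-! ### the numbers -/

theorem lg_v {β x : ℝ} {A : ℕ} (hβ : 1 ≤ β) (hx : 2 ≤ x) :
    log (1 + 1 / √(β ^ 2 / x ^ A)) ≤ (A + 1) * log x := by
  have a : 1 ≤ x ^ A := one_le_pow₀ (by linarith)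
  have b : 1 / √(β ^ 2 / x ^ A) ≤ x ^ A := by
    rw [div_le_iff₀ (sqrt_pos.2 (by positivity)), ← div_le_iff₀' (by positivity)]
    refine le_sqrt_of_sq_le ?_
    rw [div_pow, div_le_div_iff₀ (by positivity) (by positivity)]
    have : 1 ≤ β ^ 2 := one_le_pow₀ hβ
    nlinarith [mul_le_mul this a zero_le_one (by positivity : 0 ≤ β ^ 2)]
  have c : 1 + 1 / √(β ^ 2 / x ^ A) ≤ x ^ (A + 1) := by
    rw [pow_succ x A]; nlinarith [mul_le_mul_of_nonneg_left hx (zero_le_one.trans a)]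
  have := log_le_log (by positivity) c
  rwa [log_pow, Nat.cast_add, Nat.cast_one] at this

set_option maxHeartbeats 1000000 in
theorem ev_nm {β c0 C c η : ℝ} {A : ℕ} (hβ : 1 < β) (hc0 : 0 < c0) (hC : 1 ≤ C) (hA : 2 ≤ A)
    (hc : 0 < c) (hc' : c ≤ 1 / 200) (hη : 0 < η) : ∀ᶠ n : ℕ in atTop, 2 ≤ (n : ℝ) ∧
    ∀ p : Pm, p.β = β → p.n = n → p.A = A → p.c = c → 1 ≤ p.s →
      p.s ≤ (p.n : ℝ) ^ ((1 : ℝ) / 19) → Nm c0 C ((n : ℝ) ^ η) p := by
  have C0' : 0 < C := by linarith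
  filter_upwards [ev_le_rpow 2 one_pos, ev_le_rpow (β ^ 2) one_pos,
    ev_le_rpow (2 * C) (show 0 < c / 14 by positivity), ev_le_rpow (2 * C) hη,
    ev_rpow_le (show 0 < 1 / (4 * C) by positivity) (show (0 : ℝ) < 1 / 10 by norm_num),
    ev_rpow_le (show 0 < c0 / (8 * C ^ 2) by positivity) (show (0 : ℝ) < 1 / 10 by norm_num),
    ev_rpow_le (show 0 < 1 / (8 * C) by positivity) hc,
    ev_rpow_le (show 0 < c0 / 2 by positivity) hc,
    ev_rpow_le (show 0 < c0 / (4 * C) by positivity) (show (0 : ℝ) < 1 / 30 by norm_num),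
    ev_log_le (show (0 : ℝ) < 1 / 30 by norm_num), ev_log_le (half_pos hη),
    ev_le_rpow (C * β ^ 2 + 1 + (2 * A + 1)) (half_pos hη)] with n n2 nβ e1 e2 e3 e4 e5 e6 e7 e8
    e9 e10
  rw [rpow_one] at n2 nβ
  refine ⟨n2, fun p h1 h2 h3 h4 s1 s2 => ?_⟩
  subst h1 h2 h3 h4
  have n1 : (1 : ℝ) ≤ p.n := by linarith
  have n0 : (0 : ℝ) < p.n := by linarith
  have mono : ∀ {a b : ℝ}, a ≤ b → (p.n : ℝ) ^ a ≤ (p.n : ℝ) ^ b := fun h =>
    rpow_le_rpow_of_exponent_le n1 h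
  have pos : ∀ a : ℝ, 0 < (p.n : ℝ) ^ a := fun a => rpow_pos_of_pos n0 a
  have r1 : p.r ≤ (p.n : ℝ) ^ (-(1 / 10 : ℝ)) := by
    refine (mul_le_mul_of_nonneg_right s2 (pos _).le).trans ?_
    rw [← rpow_add n0]
    exact mono (by linarith)
  have r2 : (p.n : ℝ) ^ (-(1 / 6 : ℝ)) ≤ p.r :=
    (mono (by linarith)).trans (le_mul_of_one_le_left (pos _).le s1)
  have r0 : 0 < p.r := (pos _).trans_le r2
  have k0 : 0 < p.κ := pos _
  have k1 : p.κ ≤ 1 := rpow_le_one_of_one_le_of_nonpos n1 (by linarith)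
  have v1 : p.v ≤ (p.n : ℝ) ^ (-(1 : ℝ)) := by
    unfold Pm.v
    rw [rpow_neg_one, div_le_iff₀ (by positivity), ← div_eq_inv_mul, le_div_iff₀ n0]
    calc p.β ^ 2 * p.n ≤ p.n * p.n := mul_le_mul_of_nonneg_right nβ n0.le
      _ = (p.n : ℝ) ^ 2 := by ring
      _ ≤ (p.n : ℝ) ^ p.A := pow_le_pow_right₀ n1 hA
  have v2 : p.v ≤ 1 := v1.trans (rpow_le_one_of_one_le_of_nonpos n1 (by norm_num))
  have lg : log (1 + 1 / √p.v) ≤ (p.A + 1) * log p.n := lg_v hβ.le n2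
  have l0 : 0 ≤ log (p.n : ℝ) := log_nonneg n1
  have h1 : 1 ≤ (p.n : ℝ) ^ (η / 2) := one_le_rpow n1 (by positivity)
  have h2 : (p.n : ℝ) ^ η = (p.n : ℝ) ^ (η / 2) * (p.n : ℝ) ^ (η / 2) := by
    rw [← rpow_add n0]; congr 1; ring
  have β2 : 0 ≤ p.β ^ 2 := sq_nonneg _
  have Cβ : p.β ^ 2 ≤ C * p.β ^ 2 := le_mul_of_one_le_left β2 hC
  have A0 : (0 : ℝ) ≤ p.A := Nat.cast_nonneg _
  have big : C * p.β ^ 2 + 1 + (2 * p.A + 1) * log p.n ≤ (p.n : ℝ) ^ η := by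
    rw [h2]
    have a := mul_le_mul_of_nonneg_right e10 (pos (η / 2)).le
    have b := mul_le_mul_of_nonneg_left e9 (show (0 : ℝ) ≤ 2 * p.A + 1 by positivity)
    have c := mul_le_mul_of_nonneg_left h1 (show (0 : ℝ) ≤ C * p.β ^ 2 + 1 by positivity)
    linarith
  have Al := mul_nonneg A0 l0
  refine ⟨n1, ?_, pos _, ?_, r0, k0, v1.trans ((mono (by norm_num)).trans r2), ?_, e2, ?_, ?_, ?_,
    ?_, fun τ y hm => ?_, by linarith, by linarith⟩
  · refine le_trans ?_ (mul_le_mul_of_nonneg_left (pow_le_pow_left₀ (pos _).le r2 2) k0.le)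
    unfold Pm.μ0 Pm.κ
    rw [← rpow_natCast, ← rpow_mul n0.le, ← rpow_add n0]
    exact mono (by push_cast; linarith)
  · refine r1.trans ?_
    unfold Pm.ye Pm.κ
    rw [← rpow_natCast, ← rpow_mul n0.le]
    exact mono (by push_cast; linarith)
  · have e : p.r = p.amax * (p.n : ℝ) ^ (p.c / 14) := by
      unfold Pm.r Pm.amax
      rw [mul_assoc, ← rpow_add n0]; congr 2; ring
    have a0 : 0 ≤ p.amax := mul_nonneg (by linarith) (pos _).le
    rw [e]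
    nlinarith [mul_le_mul_of_nonneg_left e1 a0]
  · have := r1.trans e3
    rw [le_div_iff₀ (by positivity)] at this
    linarith
  · have a := r1.trans e4
    rw [le_div_iff₀ (by positivity)] at a
    have : 1 ≤ C ^ 2 := one_le_pow₀ hC
    nlinarith
  · have : p.κ ≤ 1 / (8 * C) := e5
    rw [le_div_iff₀ (by positivity)] at this
    linarith
  · have a : p.κ ≤ c0 / 2 := e6
    have : p.ye ≤ p.κ := pow_le_of_le_one k0.le k1 (by norm_num)
    linarith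
  · have a : (p.n : ℝ) ^ ((3 : ℝ) / 10) ≤ p.n * p.μ τ y := by
      refine le_trans ?_ (mul_le_mul_of_nonneg_left hm n0.le)
      unfold Pm.μ0
      rw [← rpow_one_add' n0.le (by linarith)]
      exact mono (by linarith)
    have b : p.wt τ y ≤ (p.n : ℝ) ^ (-(1 / 10 : ℝ)) := by
      refine (rpow_le_rpow_of_nonpos (pos _) a (by norm_num)).trans ?_
      rw [← rpow_mul n0.le]
      exact mono (by norm_num)
    have w0 : 0 ≤ p.wt τ y := rpow_nonneg ((pos _).le.trans a) _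
    have c : p.wt τ y ^ ((2 : ℝ) / 3) ≤ (p.n : ℝ) ^ (-(1 / 15 : ℝ)) := by
      refine (rpow_le_rpow w0 b (by norm_num)).trans ?_
      rw [← rpow_mul n0.le]
      exact mono (by norm_num)
    refine ⟨b.trans (rpow_le_one_of_one_le_of_nonpos n1 (by norm_num)), ?_⟩
    have d : log p.n * p.wt τ y ^ ((2 : ℝ) / 3) ≤ c0 / (4 * C) := by
      refine (mul_le_mul e8 c (rpow_nonneg w0 _) (pos _).le).trans (le_trans ?_ e7)
      rw [← rpow_add n0]
      exact mono (by norm_num)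
    have f : 2 * C * p.r ≤ c0 / (4 * C) := by
      have := mul_le_mul_of_nonneg_left (r1.trans e4) (show 0 ≤ 2 * C by positivity)
      refine this.trans (le_of_eq ?_)
      field_simp
      ring
    have g : c0 / (2 * C) = c0 / (4 * C) + c0 / (4 * C) := by field_simp; ring
    linarith

end Crest.Agent.T156.Alt.P037

namespace Crest.Agent.T156.Alt

open Filter Topology


end Crest.Agent.T156.Alt

end
end

-- ▼ part T156/MemP_37

/-!
# Row 156: membership from sloped data `SlE` and plateau data `PlE` (helper37)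
-/

set_option autoImplicit false

noncomputable section

namespace Crest.Agent.T156.Alt

open Real Set Filter Topology
open Crest.Agent.R164.GC Crest.Agent.R339.B Crest.Agent.R339.Var Crest.Agent.T157.Pf
open Crest.Agent.T156.Pr.Spr41 (ec)
open Mem37

/-- `∑ dz G²` above the first mark -/
def Pm.g2P (p : Pm) (P : Pl) : ℝ :=
  ∑ k ∈ Finset.Ioc p.jf (p.Jp P), (p.zP P k - p.zP P (k - 1)) * P.hs (p.xP P k) ^ 2

/-- plateau data with field amplitude `θ` -/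
structure PlE (K θ : ℝ) (p : Pm) (P : Pl) (den : ℝ → ℝ) (u0 ue : ℝ) : Prop where
  g0 : 0 ≤ P.γ
  g1 : P.γ ≤ 1
  x0 : P.x 0 = p.xs
  xm : ∀ i < P.I, P.x i < P.x (i + 1)
  x1 : P.x P.I ≤ 1
  card : P.I * p.v ≤ K * log p.n
  z0 : ∀ x, x ≤ 1 / (2 * K) → P.rs x = 0 ∧ P.hs x = 0
  sl : ∀ x x', x ≤ x' → x' ≤ p.xs → |P.rs x' - P.rs x| ≤ K * (x' - x) / log p.n ∧
    |P.hs x' - P.hs x| ≤ K * θ * (x' - x) / log p.n
  pc : ∀ i < P.I, p.v / K ≤ P.γ * (p.lsp P.γ (P.x (i + 1)) - p.lsp P.γ (P.x i)) +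
      (P.rs (P.x (i + 1)) - P.rs (P.x i)) ∧
    P.γ * (p.lsp P.γ (P.x (i + 1)) - p.lsp P.γ (P.x i)) + (P.rs (P.x (i + 1)) - P.rs (P.x i)) ≤
      K * p.v ∧
    0 ≤ P.rs (P.x (i + 1)) - P.rs (P.x i) ∧
    θ / K * (P.rs (P.x (i + 1)) - P.rs (P.x i)) ≤ P.hs (P.x (i + 1)) - P.hs (P.x i) ∧
    P.hs (P.x (i + 1)) - P.hs (P.x i) ≤ K * θ * (P.rs (P.x (i + 1)) - P.rs (P.x i))
  hN : P.hs (P.x P.I) ≤ K * log p.n
  plat : ∀ i < P.I, p.v / K ≤ (P.x (i + 1) - P.x i) * den (P.x i) ∧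
    (P.x (i + 1) - P.x i) * den (P.x i) ≤ K * p.v
  den0 : ∀ x, 0 < den x
  dens : ∀ x x', p.xs ≤ x → x ≤ x' → x' < 1 → x' - x ≤ min (x - p.xs + u0) (1 - x') →
    den x ≤ K * den x' ∧ den x' ≤ K * den x
  last : 1 - P.x P.I ≤ ue

/-- numbers -/
structure NbK (K c0 C0 : ℝ) (p : Pm) : Prop where
  K1 : 1 ≤ K
  cK : 1 ≤ c0 * K
  CK : C0 ≤ K
  βK : p.β ^ 2 ≤ K
  β1 : 1 < p.β ^ 2
  lg : 8 * K ^ 3 ≤ log p.n
  A1 : 1 ≤ p.A
  big : K + (K + p.A) * log p.n + 1 ≤ p.n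
  jf3 : 3 ≤ p.jf
  vr : p.v ≤ p.r
  rK : 32 * K ^ 3 * p.r ≤ 1
  am : 2 * p.am ≤ c0 * (p.jf * p.v)
  κ0 : 0 < p.κ
  κl : p.κ * log p.n ≤ 1
  κβ : K * p.κ ≤ 1 - 1 / p.β ^ 2
  ye : 8 * K ^ 2 * p.ye ≤ 1
  la : ∀ μ, p.μ0 ≤ μ → μ ≤ p.κ → Plt13.Nm p μ ∧ 2 * K * (log p.n * Plt13.u0 p μ) ≤ 1 ∧
    K ^ 2 * (log p.n * p.la μ) ≤ 1

/-- data of the sloped part and of the reference list -/
structure SlE (K c0 C0 η Y : ℝ) (p : Pm) (P : Pl) (om : ℕ → ℝ) (b : ℝ) (ms : ℝ → ℝ) : Prop where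
  base : Pr.Base (p.β ^ 2) c0 C0 η p.v p.J p.z
  hom : Pr.Om p.v Y (1 / 2) om
  hY : Y ≤ p.J * p.v
  jr : p.jf * p.v ≤ p.r
  msm : Monotone ms
  ms2 : ∀ t, 0 ≤ t → ms (2 * t) ≤ 4 * ms t
  ms0 : (p.n : ℝ) ^ (-(1 : ℝ)) ≤ ms 0
  ms1 : ∀ t, ms t ≤ ms 1
  msκ : ms 1 ≤ p.κ
  fl : ∀ t, p.ye ≤ t → ms 1 ≤ ms t
  b0 : 1 ≤ b
  bK : b ≤ K
  atom : 1 / K ≤ p.xs ∧ p.xs ≤ 1 - 1 / K
  crit : ∀ t ∈ Icc 0 (p.sO P om (p.Jp P)), ms t / K ≤ ec b (p.lO P om) t ∧
    ec b (p.lO P om) t ≤ K * ms t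
  gpp : ∀ t, 0 ≤ t → t < p.J * p.v → ∀ s0, 0 < s0 → s0 ≤ p.r →
    |Pr.NN (p.lO P om) t - 2 * lvr 1 (p.lO P om) t * Pr.AA (p.lO P om) t| ≤
      K * (ms t / max t s0)

variable {K c0 C0 η Y : ℝ} {p : Pm} {P : Pl} {om : ℕ → ℝ} {b : ℝ} {ms den : ℝ → ℝ} {u0 ue : ℝ}

theorem NbK.K3 (N : NbK K c0 C0 p) : 0 < K ∧ K ≤ K ^ 2 ∧ K ^ 2 ≤ K ^ 3 := by
  have := N.K1
  exact ⟨by linarith, by nlinarith, pow_le_pow_right₀ this (by norm_num)⟩

theorem NbK.l1 (N : NbK K c0 C0 p) : 8 ≤ log p.n := by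
  obtain ⟨a, b, c⟩ := N.K3
  linarith [N.lg, N.K1]

theorem NbK.n0 (N : NbK K c0 C0 p) : (0 : ℝ) < p.n := by
  have a := N.K3.1
  have b := N.l1
  have c : 0 ≤ (K + p.A) * log p.n := by positivity
  linarith [N.big]

theorem NbK.jfJ (N : NbK K c0 C0 p) (hB : Pr.Base (p.β ^ 2) c0 C0 η p.v p.J p.z)
    (jr : p.jf * p.v ≤ p.r) : p.jf + 1 < p.J ∧ 0 < p.r ∧ p.v ≤ 1 := by
  obtain ⟨a, b, c⟩ := N.K3
  have v := hB.v_pos
  have r : 0 < p.r := v.trans_le N.vr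
  have K1 := N.K1
  have e : 32 * K * p.r ≤ 1 := by nlinarith [N.rK]
  have f : 2 * p.r < c0 := by
    by_contra hc
    nlinarith [N.cK, mul_le_mul_of_nonneg_right (not_lt.1 hc) a.le]
  have g : ((p.jf : ℝ) + 1) * p.v < p.J * p.v := by linarith [hB.lo, N.vr]
  refine ⟨by exact_mod_cast lt_of_mul_lt_mul_right g v.le, r, by nlinarith [N.vr]⟩

theorem SlE.geo (S : SlE K c0 C0 η Y p P om b ms) (N : NbK K c0 C0 p) {θ : ℝ}
    (D : PlE K θ p P den u0 ue) : Geo c0 C0 η Y p P om :=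
  ⟨S.base, S.hom, S.hY, by have := (N.jfJ S.base S.jr).1; omega, D.g0, D.x0, D.xm, D.x1⟩

/-- increments of the static data on the sloped part -/
theorem SlE.sl (S : SlE K c0 C0 η Y p P om b ms) (N : NbK K c0 C0 p)
    (D : PlE K (ms 1) p P den u0 ue) {k : ℕ} (h0 : 1 ≤ k) (hk : k < p.J) :
    |P.rs (p.z k) - P.rs (p.z (k - 1))| ≤ p.v / (8 * K) ∧
      |P.hs (p.z k) - P.hs (p.z (k - 1))| ≤ ms (p.sO P om k) * p.v / (8 * K) := by
  obtain ⟨K0, K2, K3⟩ := N.K3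
  have G := S.geo N D
  have v := G.v0
  have l := N.l1
  have zm : p.z (k - 1) ≤ p.z k := S.base.lab.mono (Nat.sub_le _ _)
  obtain ⟨a, c⟩ := D.sl _ _ zm (S.base.lab.mono (show k ≤ p.J - 1 by omega))
  have dz : p.z k - p.z (k - 1) ≤ K * p.v := by
    have := (S.base.slo (k - 1) (by omega)).2
    unfold Pr.dm at this
    rw [show k - 1 + 1 = k by omega] at this
    exact this.trans (mul_le_mul_of_nonneg_right N.CK v.le)
  have e : K * (p.z k - p.z (k - 1)) / log p.n ≤ p.v / (8 * K) := by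
    rw [div_le_div_iff₀ (by linarith) (by positivity)]
    have := mul_le_mul_of_nonneg_left dz (show 0 ≤ 8 * K ^ 2 by positivity)
    nlinarith [mul_le_mul_of_nonneg_left N.lg v.le]
  have mp : 0 < ms 0 := (rpow_pos_of_pos N.n0 _).trans_le S.ms0
  have m := mp.trans_le (S.msm (G.sP_nn k))
  refine ⟨a.trans e, ?_⟩
  rcases le_or_gt (p.z k) (1 / (2 * K)) with f | f
  · rw [(D.z0 _ f).2, (D.z0 _ (zm.trans f)).2, sub_zero, abs_zero]; positivity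
  · have g1 := (G.z_inc (Nat.zero_le k) hk).2
    have g2 := (G.s_inc (Nat.zero_le k) hk.le).1
    rw [G.sP_zero] at g2
    have k1 : (1 : ℝ) ≤ k := by exact_mod_cast h0
    have C00 : 0 ≤ C0 := by nlinarith [S.base.z0, S.base.lab.pos]
    have g3 : p.z k ≤ 2 * K * (k * p.v) := by
      have x1 := mul_le_mul_of_nonneg_right N.CK (show 0 ≤ (k : ℝ) * p.v by positivity)
      have x2 := mul_le_mul_of_nonneg_left (mul_le_mul_of_nonneg_right k1 v.le) C00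
      push_cast at g1
      nlinarith [S.base.z0]
    rw [div_lt_iff₀ (by positivity)] at f
    have g4 : p.ye ≤ p.sO P om k := by
      push_cast at g2
      have x1 := mul_le_mul_of_nonneg_right g3 (show 0 ≤ 2 * K by positivity)
      have x2 : 8 * K ^ 2 * p.ye ≤ 8 * K ^ 2 * p.sO P om k := by nlinarith [N.ye]
      exact le_of_mul_le_mul_left x2 (by positivity)
    refine c.trans ?_
    have x := mul_le_mul (S.fl _ g4) e (by
      exact div_nonneg (mul_nonneg K0.le (by linarith)) (by linarith)) m.le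
    calc K * ms 1 * (p.z k - p.z (k - 1)) / log p.n =
          ms 1 * (K * (p.z k - p.z (k - 1)) / log p.n) := by ring
      _ ≤ _ := x
      _ = _ := by ring

theorem SlE.memD (S : SlE K c0 C0 η Y p P om b ms) (N : NbK K c0 C0 p)
    (D : PlE K (ms 1) p P den u0 ue) :
    MemD K c0 C0 η Y p P om p.jf b 0 ms den (p.g2P P) u0 ue := by
  obtain ⟨K0, K2, K3⟩ := N.K3
  have K1 := N.K1
  have G := S.geo N D
  have v := G.v0
  have l := N.l1
  obtain ⟨jJ, r, v1⟩ := N.jfJ S.base S.jr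
  have A : (1 : ℝ) ≤ p.A := by exact_mod_cast N.A1
  have n0 := N.n0
  have mp : 0 < ms 0 := (rpow_pos_of_pos n0 _).trans_le S.ms0
  have m1 : 0 < ms 1 := mp.trans_le (S.ms1 0)
  have c00 : 0 < c0 := by nlinarith [N.cK]
  obtain ⟨z1, z2⟩ := G.z_inc (Nat.zero_le p.jf) (show p.jf < p.J by omega)
  have j3 : (3 : ℝ) ≤ p.jf := by exact_mod_cast N.jf3
  have s1 : 0 < p.sO P om p.jf ∧ p.sO P om p.jf ≤ p.r := by
    rw [sP_lo (by omega)]
    exact ⟨lt_of_lt_of_le (by positivity) (S.hom.sig_ge v le_rfl _), (S.hom.sig_le _).trans S.jr⟩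
  have e8 : p.v / (8 * K) ≤ K * p.v := by
    rw [div_le_iff₀ (by positivity)]; nlinarith
  refine ⟨G, K1, N.cK, N.CK, N.βK, N.β1.le, by linarith, N.A1, v1, D.g1, ?_,
    le_trans (by norm_num) N.jf3, le_rfl, jJ, ?_, ?_, S.msm, S.ms2, S.ms0, S.ms1, ?_, ?_, S.b0,
    le_rfl, by rw [add_zero]; exact S.bK, mul_nonneg K0.le (mp.trans_le (S.msm s1.1.le)).le, S.atom,
    by rw [add_zero]; exact S.crit, fun t h0 h1 => S.gpp t h0 h1 _ s1.1 s1.2, D.z0,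
    fun k h1 h2 => ?_, fun i hi => ?_, D.hN.trans ?_, le_rfl, D.plat, D.den0, D.dens, D.last⟩
  · have vn : p.v * (p.n : ℝ) ^ p.A = p.β ^ 2 := div_mul_cancel₀ _ (pow_pos n0 _).ne'
    have a : (p.Nr : ℝ) * p.v ≤ p.A * log p.n + p.v := by
      have := mul_le_mul_of_nonneg_right (Nat.ceil_lt_add_one
        (show 0 ≤ p.A * log p.n / p.v by positivity)).le v.le
      rwa [add_mul, div_mul_cancel₀ _ v.ne', one_mul] at this
    refine le_of_mul_le_mul_right ?_ v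
    rw [pow_succ, show (p.n : ℝ) ^ p.A * p.n * p.v = p.v * (p.n : ℝ) ^ p.A * p.n by ring, vn]
    unfold Pm.NP
    push_cast
    nlinarith [S.base.hi, N.βK, D.card, N.big, N.β1]
  · push_cast at z1
    nlinarith [N.am, S.base.lab.pos]
  · push_cast at z2
    have a : p.z p.jf ≤ 2 * K * p.r := by
      have x1 := mul_le_mul_of_nonneg_right N.CK (show 0 ≤ p.jf * p.v + p.v by positivity)
      have x2 := mul_le_mul_of_nonneg_left (add_le_add S.jr N.vr) K0.le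
      nlinarith [S.base.z0]
    rw [le_div_iff₀ (by positivity)]
    nlinarith [N.rK, mul_le_mul_of_nonneg_right a (show 0 ≤ 16 * K ^ 2 by positivity)]
  · exact (mul_le_mul_of_nonneg_right S.msκ (by linarith)).trans N.κl
  · have a := mul_le_mul_of_nonneg_left N.lg N.κ0.le
    have b := mul_le_mul_of_nonneg_left S.msκ K0.le
    nlinarith [N.κl, N.κ0]
  · obtain ⟨a, c⟩ := S.sl N D (k := k) (by omega) h2
    have m := mp.trans_le (S.msm (G.sP_nn k))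
    have d : ms (p.sO P om k) * p.v / (8 * K) ≤ ms (p.sO P om k) * p.v / (4 * K) :=
      div_le_div_of_nonneg_left (by positivity) (by positivity) (by linarith)
    exact ⟨(abs_le.1 a).1, (abs_le.1 a).2.trans e8, by linarith [(abs_le.1 c).1]⟩
  · obtain ⟨a, b, c, d, -⟩ := D.pc i hi
    exact ⟨a, b, c, d⟩
  · rw [mul_assoc]
    exact mul_le_mul_of_nonneg_left (le_mul_of_one_le_left (by linarith) A) K0.le

/-- **membership and ceiling** -/
theorem SlE.cl (S : SlE K c0 C0 η Y p P om b ms) (N : NbK K c0 C0 p)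
    (D : PlE K (ms 1) p P den u0 ue) :
    Cl (p.scl P om (8 * K ^ 2) p.jf ms den (p.g2P P) u0 ue) (p.famO P om p.jf b 0 0) ∧
      Cei (p.scl P om (8 * K ^ 2) p.jf ms den (p.g2P P) u0 ue) (p.famO P om p.jf b 0 0) := by
  have M := S.memD N D
  obtain ⟨K0, K2, K3⟩ := N.K3
  have v := M.geo.v0
  refine ⟨M.cl, M.cei' N.jf3 (S.fl _ ?_) (fun k h1 h2 => ?_) fun i hi => (D.pc i hi).2.2.2.2⟩
  · have a : 8 * K ^ 2 * p.ye ≤ 8 * K ^ 2 * c0 := by nlinarith [N.ye, N.cK, N.K1]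
    exact (le_of_mul_le_mul_left a (by positivity)).trans S.base.lo
  · refine (abs_le.1 (S.sl N D (k := k) (by omega) h2).2).2.trans ?_
    have m := M.msp (M.geo.sP_nn k)
    rw [div_le_iff₀ (by positivity)]
    nlinarith [mul_pos m v, N.K1]

end Crest.Agent.T156.Alt

end
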