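import Crest.Agent.T156.LKc_37
import Crest.Agent.T156.KnP_17
import Crest.Agent.T156.MdDic_67
import Crest.Agent.T156.KnG_17
import Crest.Agent.T156.LPx_13
import Crest.Agent.T156.LPgA_86
import Crest.Agent.T156.LPy_13
import Crest.Agent.T156.HyD_77
import Crest.Agent.T156.NRo_44

-- ▼ part T156/LKu_37
section

/-!
# Row 156: `LK.up` on a static plateau by three passes of `TLt`, class level (helper37)
-/

set_option autoImplicit false
set_option linter.unusedSectionVars false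

noncomputable section

namespace Crest.Agent.T156.Alt.Lk37

open Real Finset Plt13
open Crest.Agent.T156.Alt.L69 (GS GP Rp ap Np Far Ap Jn)
open Crest.Agent.T156.Alt.R62 (lw sb pl ls)
open Crest.Agent.T156.Alt.Kn72 (SD)

theorem ap_num {w e s l R x μ ε B Z : ℝ} (w0 : 0 ≤ w) (e0 : 0 < e) (s0 : 0 < s) (el : l = e * s)
    (ε0 : 0 ≤ ε) (ε1 : ε ≤ 1) (hw : w ≤ ε ^ 3 * (l ^ 2 * s)) (R0 : 0 ≤ R + x)
    (hR : R + x ≤ 2 * x + μ) (hx : ε ^ 3 * x ^ 2 ≤ B ^ 2) (B0 : 0 ≤ B) (Z0 : 0 ≤ Z)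
    (hZ : 2 * w * μ ^ 2 ≤ Z ^ 3 * (l * s)) (hV : w ≤ 4 * B ^ 2 * l) :
    (w * (e + (R + x) ^ 2 / (s ^ 2 * e))) ^ ((1 : ℝ) / 3) + w / (e * s ^ 2) + √(w / l) ≤
      4 * l + 4 * B + Z := by
  have l0 : 0 < l := el ▸ mul_pos e0 s0
  have e3 : ε ^ 3 ≤ 1 := pow_le_one₀ ε0 ε1
  have es : e * s ^ 2 = l * s := by rw [el]; ring
  have c : w / (l * s) ≤ ε ^ 3 * l := by rw [div_le_iff₀ (by positivity)]; linarith
  have c1 : ε ^ 3 * l ≤ l := mul_le_of_le_one_left l0.le e3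
  have a : w * e ≤ l ^ 3 := by
    have a1 := mul_le_mul_of_nonneg_right
      (hw.trans (mul_le_of_le_one_left (by positivity) e3)) e0.le
    calc w * e ≤ l ^ 2 * s * e := a1
      _ = l ^ 3 := by rw [el]; ring
  have R2 : (R + x) ^ 2 ≤ 8 * x ^ 2 + 2 * μ ^ 2 := by
    nlinarith [pow_le_pow_left₀ R0 hR 2, sq_nonneg (2 * x - μ)]
  have b : w * ((R + x) ^ 2 / (s ^ 2 * e)) ≤ 8 * (l * B ^ 2) + Z ^ 3 := by
    have p : 0 ≤ w / (l * s) := by positivity
    have t1 := mul_le_mul_of_nonneg_left R2 p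
    have t2 := mul_le_mul_of_nonneg_right c (sq_nonneg x)
    have t3 := mul_le_mul_of_nonneg_left hx l0.le
    have t4 : w / (l * s) * (2 * μ ^ 2) ≤ Z ^ 3 := by
      rw [div_mul_eq_mul_div, div_le_iff₀ (by positivity)]; linarith
    rw [show w * ((R + x) ^ 2 / (s ^ 2 * e)) = w / (l * s) * (R + x) ^ 2 by rw [← es]; ring]
    linarith
  have f : (w * (e + (R + x) ^ 2 / (s ^ 2 * e))) ^ ((1 : ℝ) / 3) ≤ 3 * l + 2 * B + Z := by
    have g : w * (e + (R + x) ^ 2 / (s ^ 2 * e)) ≤ (3 * l + 2 * B + Z) ^ 3 := by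
      have : 0 ≤ (3 * l + 2 * B + Z) ^ 3 - (l ^ 3 + 8 * (l * B ^ 2) + Z ^ 3) := by
        ring_nf; positivity
      rw [mul_add]; linarith
    refine (rpow_le_rpow (by positivity) g (by norm_num)).trans_eq ?_
    rw [← rpow_natCast, ← rpow_mul (by positivity)]; norm_num
  have d : √(w / l) ≤ 2 * B := sqrt_le_iff.2 ⟨by positivity, by rw [div_le_iff₀ l0]; linarith⟩
  rw [es]
  linarith

/-- numbers of the passes: `y³` bounds `V` and the root of the energy, `r³ = V` -/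
structure UN (S : Sc) (M : Md) (la V u2 y r q Lg E K : ℝ) : Prop where
  sd : SD S M la V u2
  ce : Cei S M
  jj : S.j0 = S.jl
  F1 : S.F = 1
  flat : ∀ k, S.J ≤ k → k ≤ S.Jp → M.s k = M.s S.J
  HJ : M.H S.Jp ≤ S.C
  rev : ∃ k1, S.Jp ≤ k1 ∧ k1 ≤ M.N ∧ 1 / S.C ≤ ((k1 : ℝ) - S.Jp) * S.v ∧
    ∀ k, S.Jp ≤ k → k < k1 → S.θ * S.v / (S.C * S.F) ≤ M.H (k + 1) - M.H k
  g2 : GS M S 0 S.C + GP M S ≤ y ^ 6
  r0 : 0 < r
  rV : r ^ 3 = V
  ry : r ≤ y
  E1 : 1 ≤ E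
  En : E ≤ S.n
  Ey : E * y ^ 2 ≤ 1
  CV : 4 * S.C * V ^ 2 ≤ 1
  jl : E * M.s S.jl ≤ y ^ 2
  ms : ∀ t, y ^ 2 ≤ t → t ≤ S.C → S.ms t ≤ t ^ 2
  w3 : ∀ t, y ^ 2 ≤ t → t ≤ S.C → t ^ 3 * S.w3 t ^ 2 ≤ y ^ 18
  v : 8 * S.C * S.v ≤ √u2
  ue : 8 * S.ue ≤ u2
  L1 : 1 ≤ Lg
  lg : 2 * log (1 + 4 / u2) ≤ Lg
  q1 : 1 ≤ q
  K1 : 1 ≤ K
  wq : 64 * S.w3 1 ≤ q ^ 3 * V * u2
  qr : q ^ 5 * r * K ^ 2 ≤ 1
  wV : 256 * K ^ 2 * S.w3 1 ≤ V ^ 4
  θl : S.θ * la ^ 2 ≤ V ^ 4
  nV : 1 ≤ S.n * V ^ 2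
  nu : 4 ≤ S.n * √u2

/-- one pass, as `TLt` delivers it -/
def Ps (E Λ : ℝ) (S : Sc) (M : Md) (m : ℕ) (a V u2 y Lg : ℝ) : Prop :=
  ∀ u1 Vt, u2 / 2 ≤ u1 → u1 ≤ V ^ 2 → 0 ≤ Vt →
  (∀ k, S.J ≤ k → k ≤ S.Jp → u1 ≤ R62.du M k → M.del m a k ≤ Vt) →
  ∀ k, S.J ≤ k → k ≤ S.Jp → 2 * u1 ≤ R62.du M k → ∀ k', k ≤ k' → k' ≤ S.Jp →
    R62.du M k' ≤ R62.du M k / 2 → M.del m a k ≤ Λ * (3 * y ^ 3 + 0 + √((19 * E * Lg * y ^ 3) ^ 2) +
      E * ap M S (y ^ 6) Vt 0 k +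
      min (√(M.H k' - M.H S.J)) (S.F * (M.H k' - M.H S.J) / S.θ) + 1 / √S.n)

namespace UN

variable {S : Sc} {M : Md} {m : ℕ} {a la V u2 y r q Lg E K Λ : ℝ} {k : ℕ}
  (U : UN S M la V u2 y r q Lg E K)
include U

theorem y0 : 0 < y := U.r0.trans_le U.ry
theorem y1 : y ^ 2 ≤ 1 := (le_mul_of_one_le_left (sq_nonneg y) U.E1).trans U.Ey
theorem y1' : y ≤ 1 := by nlinarith [U.y1, U.y0]
theorem V0 : 0 < V := U.sd.nu.Vp
theorem VB : V ≤ y ^ 3 := U.rV ▸ pow_le_pow_left₀ U.r0.le U.ry 3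
theorem VX : V ^ 2 ≤ y ^ 6 := (pow_le_pow_left₀ U.V0.le U.VB 2).trans_eq (by ring)
theorem laX : la ^ 2 ≤ V ^ 2 := pow_le_pow_left₀ U.sd.nu.lp.le U.sd.nu.lV 2
theorem uV : u2 ≤ V ^ 2 := U.sd.nu.u2_sq.trans U.laX
theorem x3 : (y ^ 6) ^ ((1 : ℝ) / 3) = y ^ 2 := by
  rw [← rpow_natCast, ← rpow_mul U.y0.le, ← rpow_two]; norm_num
theorem w0 {t : ℝ} (ht : 0 < t) : 0 < S.w3 t := by
  have := U.sd.cl.ms_pos ht.le
  have := U.sd.cl.n1
  unfold Sc.w3; rw [U.F1]; positivity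
theorem ε3 : (q * r) ^ 3 = q ^ 3 * V := by rw [mul_pow, U.rV]
theorem ε0 : 0 ≤ q * r := mul_nonneg (zero_le_one.trans U.q1) U.r0.le
theorem qK : q ^ 3 * r * K ^ 2 ≤ 1 :=
  (mul_le_mul_of_nonneg_right (mul_le_mul_of_nonneg_right (pow_le_pow_right₀ U.q1 (by norm_num))
    U.r0.le) (sq_nonneg K)).trans U.qr
theorem q3 : q ^ 3 * r ≤ 1 :=
  (le_mul_of_one_le_right (by have := U.r0; have := U.q1; positivity) (one_le_pow₀ U.K1)).trans U.qK
theorem ε1 : q * r ≤ 1 :=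
  (mul_le_mul_of_nonneg_right (le_self_pow₀ U.q1 (by norm_num)) U.r0.le).trans U.q3
theorem r1 : r ≤ 1 := U.ry.trans U.y1'
theorem εK : (q * r) ^ 3 * K ^ 2 ≤ 1 := by
  have a := U.qK
  have b : r ^ 2 ≤ 1 := pow_le_one₀ U.r0.le U.r1
  calc (q * r) ^ 3 * K ^ 2 = q ^ 3 * r * K ^ 2 * r ^ 2 := by ring
    _ ≤ 1 := mul_le_one₀ a (sq_nonneg r) b
theorem εx : (q * r) ^ 3 * (y ^ 2) ^ 2 ≤ (y ^ 3) ^ 2 := by
  have a := mul_le_of_le_one_left (sq_nonneg r) U.q3
  have b := pow_le_pow_left₀ U.r0.le U.ry 2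
  have c := mul_le_mul_of_nonneg_right (a.trans b) (sq_nonneg (y ^ 2))
  linarith [show (q * r) ^ 3 * (y ^ 2) ^ 2 = q ^ 3 * r * r ^ 2 * (y ^ 2) ^ 2 by ring]
theorem wu : 64 * S.w3 1 ≤ u2 :=
  U.wq.trans (mul_le_of_le_one_left U.sd.nu.u2p.le (U.ε3 ▸ pow_le_one₀ U.ε0 U.ε1))
theorem ws : S.w3 1 ≤ √u2 * V ^ 2 := by
  have w := U.w0 one_pos
  have u := U.sd.nu.u2p
  have a : S.w3 1 ≤ V ^ 4 := by nlinarith [U.wV, one_le_pow₀ (n := 2) U.K1]
  refine le_of_pow_le_pow_left₀ two_ne_zero (by positivity) ?_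
  rw [mul_pow, sq_sqrt u.le]
  linarith [mul_le_mul (show S.w3 1 ≤ u2 by linarith [U.wu]) a w.le u.le]

theorem lt_Jp {u : ℝ} (hu : u2 / 4 ≤ u) (h1 : k ≤ S.Jp) (h2 : u ≤ R62.du M k) : k < S.Jp :=
  lt_of_le_of_ne h1 fun e => by
    subst e
    have := U.sd.cl.last
    unfold R62.du at h2
    linarith [U.ue, U.sd.nu.u2p]

theorem mem (h0 : S.J ≤ k) (h1 : k ≤ S.Jp) (h2 : u2 / 4 ≤ R62.du M k) : k ∈ pl S M (u2 / 4) :=
  mem_filter.2 ⟨mem_Ico.2 ⟨h0, U.lt_Jp le_rfl h1 h2⟩, h2⟩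

theorem sq64 (hk : k ∈ pl S M (u2 / 4)) :
    u2 / 64 ≤ ls S M k ^ 2 * min (R62.dl S M k) (R62.du M k) :=
  U.sd.wpl le_rfl (by linarith) k hk

theorem hw (hk : k ∈ pl S M (u2 / 4)) :
    S.w3 1 ≤ (q * r) ^ 3 * (ls S M k ^ 2 * min (R62.dl S M k) (R62.du M k)) := by
  have := mul_le_mul_of_nonneg_left (U.sq64 hk) (pow_nonneg U.ε0 3)
  rw [U.ε3] at this ⊢
  linarith [U.wq]

theorem ds0 (hk : k ∈ pl S M (u2 / 4)) : 0 < min (R62.dl S M k) (R62.du M k) :=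
  lt_min (U.sd.dl0 (SD.mem_pl hk).1) (U.sd.du0 (SD.mem_pl hk).1 (SD.mem_pl hk).2.1)

theorem ls0 (hk : k ∈ pl S M (u2 / 4)) : 0 < ls S M k := mul_pos (U.sd.cl.den0 _) (U.ds0 hk)

/-- the size on a shell -/
theorem ap_le {Vt Z : ℝ} (V0 : 0 ≤ Vt) (hk : k ∈ pl S M (u2 / 4)) (Z0 : 0 ≤ Z)
    (hZ : 2 * S.w3 1 * min Vt (√(y ^ 6 / R62.du M k)) ^ 2 ≤
      Z ^ 3 * (ls S M k * min (R62.dl S M k) (R62.du M k))) :
    ap M S (y ^ 6) Vt 0 k ≤ 4 * ls S M k + 4 * y ^ 3 + Z := by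
  have y0 := U.y0
  have r0 : 0 ≤ Rp M S (y ^ 6) Vt 0 k :=
    add_nonneg (add_nonneg (sqrt_nonneg _) (le_min V0 (sqrt_nonneg _))) le_rfl
  have r1 : Rp M S (y ^ 6) Vt 0 k ≤ y ^ 2 + min Vt (√(y ^ 6 / R62.du M k)) + 0 := by
    refine add_le_add (add_le_add ?_ le_rfl) le_rfl
    rw [U.x3]
    refine sqrt_le_iff.2 ⟨by positivity, (div_le_div_of_nonneg_left (by positivity)
      (by positivity) (le_max_right _ _)).trans (le_of_eq ?_)⟩
    field_simp
  have g := U.sd.ls_ge (SD.mem_pl hk).1 (SD.mem_pl hk).2.1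
  have hV : S.w3 1 ≤ 4 * (y ^ 3) ^ 2 * ls S M k := by
    have := mul_le_mul (show √u2 ≤ 4 * ls S M k by linarith) U.VX (sq_nonneg V)
      (by linarith [U.ls0 hk])
    linarith [U.ws]
  unfold ap
  rw [U.x3]
  exact ap_num (U.w0 one_pos).le (U.sd.cl.den0 _) (U.ds0 hk) rfl U.ε0 U.ε1 (U.hw hk)
    (by positivity) (by linarith) U.εx (by positivity) Z0 hZ hV

theorem far {Vt u1 : ℝ} (h1 : u2 / 2 ≤ u1) : Far M S (y ^ 6) Vt 0 u1 E := fun i k a b c d => by
  have u := U.sd.nu.u2p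
  have hk := U.mem (a.trans b) c (by change u1 ≤ R62.du M k at d; linarith)
  have e : R62.du M k ≤ R62.du M i := sub_le_sub_left (U.sd.cl.leg.zm (by omega)) 1
  have hi := U.mem a (b.trans c) (by linarith [(SD.mem_pl hk).2.2])
  have lk := U.ls0 hk
  have li := U.ls0 hi
  have w := U.w0 one_pos
  have y0 := U.y0
  have dk := U.sd.cl.den0 (M.z (k - 1))
  have f : S.w3 1 * S.den (M.z (i - 1)) ≤ ls S M i ^ 3 :=
    (mul_le_mul_of_nonneg_right ((U.hw hi).trans (mul_le_of_le_one_left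
      (by have := U.ds0 hi; positivity) (pow_le_one₀ U.ε0 U.ε1))) (U.sd.cl.den0 _).le).trans_eq
      (by unfold ls; ring)
  have g : ls S M i ≤ ls S M k * max 1 (ls S M i / ls S M k) := by
    rw [← div_le_iff₀' lk]; exact le_max_right _ _
  rw [show L69.lsh M S k = ls S M k from rfl, show L69.lsh M S i = ls S M i from rfl, U.x3]
  refine (f.trans (pow_le_pow_left₀ li.le g 3)).trans ?_
  rw [mul_pow]
  refine mul_le_mul_of_nonneg_right (le_trans ?_ (le_mul_of_one_le_left (by positivity) U.E1))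
    (by positivity)
  nlinarith [mul_pos w dk, mul_pos (pow_pos y0 2) (pow_pos lk 2)]

theorem np {Vt u1 : ℝ} (h1 : u2 / 2 ≤ u1) (h2 : u1 ≤ V ^ 2) (V0 : 0 ≤ Vt) :
    Np M S (y ^ 6) Vt 0 u1 E 2 ≤ (19 * E * Lg * y ^ 3) ^ 2 := by
  have u := U.sd.nu.u2p
  have y0 := U.y0
  have E1 := U.E1
  have L1 := U.L1
  have P := R62.K17.sp_of U.sd (u1 := u2 / 2) (Λ := Lg)
    (by linarith [U.v, U.sd.nu.u2l, mul_pos U.sd.cl.C0 U.sd.cl.v0]) (by positivity) (by linarith)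
    (le_trans (mul_le_mul_of_nonneg_left (log_le_log (by positivity) (by
      rw [one_div_div, add_le_add_iff_left]
      exact div_le_div_of_nonneg_right (by norm_num) u.le)) two_pos.le) U.lg)
  have A0 : 0 ≤ 178 * E ^ 2 * y ^ 6 := by positivity
  have s := P.sum_le (f := fun k => 178 * E ^ 2 * y ^ 6 / R62.dl S M k +
    178 * E ^ 2 * y ^ 6 / R62.du M k) A0 A0 fun _ _ => le_rfl
  have t : Np M S (y ^ 6) Vt 0 u1 E 2 ≤ u1 + ∑ k ∈ pl S M (u2 / 2), lw M k *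
      (178 * E ^ 2 * y ^ 6 / R62.dl S M k + 178 * E ^ 2 * y ^ 6 / R62.du M k) := by
    refine add_le_add le_rfl ((sum_le_sum fun k hk => ?_).trans
      (sum_le_sum_of_subset_of_nonneg (fun k hk => ?_) fun k hk _ => ?_))
    · obtain ⟨b, c⟩ := mem_filter.1 hk
      change u1 ≤ R62.du M k at c
      obtain ⟨b0, b1⟩ := mem_Icc.1 b
      have hk' := U.mem b0 b1 (by linarith)
      refine mul_le_mul_of_nonneg_left ?_ (dx_nn U.sd.cl k)
      have dl := U.sd.dl0 b0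
      have du : 0 < R62.du M k := by linarith
      have s0 := U.ds0 hk'
      have l0 := U.ls0 hk'
      have s1 := min_le_left (R62.dl S M k) (R62.du M k)
      have s2 := min_le_right (R62.dl S M k) (R62.du M k)
      have s3 : 178 * E ^ 2 * y ^ 6 / min (R62.dl S M k) (R62.du M k) ≤
          178 * E ^ 2 * y ^ 6 / R62.dl S M k + 178 * E ^ 2 * y ^ 6 / R62.du M k := by
        rcases min_choice (R62.dl S M k) (R62.du M k) with e | e <;> rw [e] <;>
          linarith [div_nonneg A0 dl.le, div_nonneg A0 du.le]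
      have q64 := U.sq64 hk'
      have lle := U.sd.ls_le b0 du
      have mu : min Vt (√(y ^ 6 / R62.du M k)) ≤ y ^ 3 / √(min (R62.dl S M k) (R62.du M k)) := by
        refine (min_le_right _ _).trans ?_
        rw [sqrt_div' _ du.le, show y ^ 6 = (y ^ 3) ^ 2 by ring, sqrt_sq (by positivity)]
        exact div_le_div_of_nonneg_left (by positivity) (sqrt_pos.2 s0) (sqrt_le_sqrt s2)
      have mu0 : 0 ≤ min Vt (√(y ^ 6 / R62.du M k)) := le_min V0 (sqrt_nonneg _)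
      have r0 : 0 ≤ Rp M S (y ^ 6) Vt 0 k := add_nonneg (add_nonneg (sqrt_nonneg _) mu0) le_rfl
      have r1 : Rp M S (y ^ 6) Vt 0 k ≤ 2 * (y ^ 3 / √(min (R62.dl S M k) (R62.du M k))) +
          y ^ 3 / √(min (R62.dl S M k) (R62.du M k)) + 0 := by
        refine add_le_add (add_le_add ?_ mu) le_rfl
        have x0 : S.u0 ≤ y ^ 2 := by
          refine le_of_pow_le_pow_left₀ three_ne_zero (by positivity) ?_
          rw [U.sd.u0_cube]; linarith [U.laX, U.VX]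
        have x1 : min (R62.dl S M k) (R62.du M k) / 2 ≤
            max (L69.dl M S k - S.u0) ((y ^ 6) ^ ((1 : ℝ) / 3)) := by
          rw [U.x3]
          have := le_max_left (L69.dl M S k - S.u0) (y ^ 2)
          have := le_max_right (L69.dl M S k - S.u0) (y ^ 2)
          linarith [show L69.dl M S k = R62.dl S M k from rfl]
        refine sqrt_le_iff.2 ⟨by positivity, (div_le_div_of_nonneg_left (by positivity)
          (by positivity) x1).trans ?_⟩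
        rw [mul_pow, div_pow, sq_sqrt s0.le, div_div_eq_mul_div, ← mul_div_assoc]
        exact div_le_div_of_nonneg_right (by nlinarith [pow_pos y0 6]) s0.le
      have ha := U.ap_le V0 hk' (Z := 3 * (y ^ 3 / √(min (R62.dl S M k) (R62.du M k))))
        (by positivity) (by
          have ws := U.ws
          have m2 := pow_le_pow_left₀ mu0 mu 2
          have w := U.w0 one_pos
          have su := sqrt_pos.2 u
          have V1 : V ^ 2 ≤ y ^ 3 := by nlinarith [U.VB, U.V0, U.sd.nu.V1]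
          generalize min Vt (√(y ^ 6 / R62.du M k)) = μ at *
          generalize min (R62.dl S M k) (R62.du M k) = s at *
          obtain ⟨σ, σ0, rfl⟩ : ∃ σ, 0 < σ ∧ s = σ ^ 2 := ⟨√s, sqrt_pos.2 s0, (sq_sqrt s0.le).symm⟩
          rw [sqrt_sq σ0.le] at m2 ⊢
          have b : √u2 ≤ 8 * (ls S M k * σ) := sqrt_le_iff.2 ⟨by positivity, by nlinarith⟩
          have c : S.w3 1 ≤ 8 * (ls S M k * σ) * y ^ 3 :=
            ws.trans (mul_le_mul b V1 (sq_nonneg V) (by positivity))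
          have d := mul_le_mul c m2 (sq_nonneg μ) (by positivity)
          have e : (3 * (y ^ 3 / σ)) ^ 3 * (ls S M k * σ ^ 2) =
              27 * ((ls S M k * σ) * y ^ 3 * (y ^ 3 / σ) ^ 2) := by field_simp; ring
          have f : 0 ≤ (ls S M k * σ) * y ^ 3 * (y ^ 3 / σ) ^ 2 := by positivity
          rw [e]; linarith)
      have a0 : 0 ≤ ap M S (y ^ 6) Vt 0 k := by
        have := U.w0 one_pos
        have := U.sd.cl.den0 (M.z (k - 1))
        have : 0 < L69.ds M S k := s0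
        unfold ap; positivity
      have σ0 := sqrt_pos.2 s0
      have σ1 : √(min (R62.dl S M k) (R62.du M k)) ≤ 1 := sqrt_le_one.2 (s2.trans (U.sd.du_le b0))
      have b2 : y ^ 3 ≤ y ^ 3 / √(min (R62.dl S M k) (R62.du M k)) :=
        le_div_self (by positivity) σ0 σ1
      have b3 := div_le_div_of_nonneg_right (U.sd.nu.lV.trans U.VB) σ0.le
      have e2 : (y ^ 3 / √(min (R62.dl S M k) (R62.du M k))) ^ 2 =
          y ^ 6 / min (R62.dl S M k) (R62.du M k) := by rw [div_pow, sq_sqrt s0.le]; ring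
      have E23 : E ^ ((2 : ℝ) / 3) ≤ E :=
        (rpow_le_rpow_of_exponent_le E1 (by norm_num)).trans_eq (rpow_one E)
      have c1 := pow_le_pow_left₀ (by positivity) (mul_le_mul E23
        (show ap M S (y ^ 6) Vt 0 k ≤ 13 * (y ^ 3 / √(min (R62.dl S M k) (R62.du M k))) by
          linarith) a0 (by linarith)) 2
      have c2 := (min_le_left _ (√(S.w3 1 / (S.den (M.z (k - 1)) * L69.ds M S k ^ 2)) *
        Rp M S (y ^ 6) Vt 0 k ^ (((2 : ℕ) : ℝ) - 1 / 2))).trans ((div_le_self (sq_nonneg _) E1).trans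
          (pow_le_pow_left₀ r0 (show Rp M S (y ^ 6) Vt 0 k ≤
            3 * (y ^ 3 / √(min (R62.dl S M k) (R62.du M k))) by linarith) 2))
      refine (add_le_add c1 c2).trans (le_trans ?_ s3)
      rw [mul_pow, mul_pow, mul_pow, e2, mul_div_assoc]
      nlinarith [mul_le_mul_of_nonneg_right (one_le_pow₀ (n := 2) E1)
        (show 0 ≤ y ^ 6 / min (R62.dl S M k) (R62.du M k) by positivity)]
    · obtain ⟨b, c⟩ := mem_filter.1 hk
      change u1 ≤ R62.du M k at c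
      obtain ⟨b0, b1⟩ := mem_Icc.1 b
      exact mem_filter.2 ⟨mem_Ico.2 ⟨b0, U.lt_Jp (by linarith) b1 c⟩, h1.trans c⟩
    · obtain ⟨b0, b1, -⟩ := SD.mem_pl hk
      have := U.sd.dl0 b0
      have := U.sd.du0 b0 b1
      exact mul_nonneg (dx_nn U.sd.cl k) (by positivity)
  have z : 1 ≤ E ^ 2 * Lg := one_le_mul_of_one_le_of_one_le (one_le_pow₀ E1) L1
  have z1 := mul_le_mul_of_nonneg_right z (show 0 ≤ y ^ 6 by positivity)
  have z2 := mul_le_mul_of_nonneg_left L1 (show 0 ≤ E ^ 2 * Lg * y ^ 6 by positivity)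
  have z3 : 0 ≤ E ^ 2 * Lg * y ^ 6 := by positivity
  linarith [U.VX, show (19 * E * Lg * y ^ 3) ^ 2 = 361 * (E ^ 2 * Lg * y ^ 6 * Lg) by ring]

theorem cl_eq {t : ℝ} (h0 : y ^ 2 ≤ t) (h1 : t ≤ S.C) :
    L69.cl S ((y ^ 6) ^ ((1 : ℝ) / 3)) t = t + y ^ 2 := by
  have t0 : 0 < t := (pow_pos U.y0 2).trans_le h0
  have := U.sd.cl.ms_pos t0.le
  rw [L69.cl, L69.cr, U.x3, U.F1, max_eq_left (rpow_le_one (by positivity)
    (by rw [one_mul, div_le_one (by positivity)]; exact U.ms t h0 h1) (by norm_num)), one_mul]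

theorem X8 : 8 * y ^ 6 ≤ (19 * E * Lg * y ^ 3) ^ 2 := by
  have z : 1 ≤ (E * Lg) ^ 2 := one_le_pow₀ (one_le_mul_of_one_le_of_one_le U.E1 U.L1)
  nlinarith [mul_le_mul_of_nonneg_right z (pow_pos U.y0 6).le, pow_pos U.y0 6]

theorem x2b (t : ℝ) (h0 : y ^ 2 ≤ t) (h1 : t ≤ S.C) :
    t * L69.ws S ((y ^ 6) ^ ((1 : ℝ) / 3)) t ^ 2 + (t * L69.ws S ((y ^ 6) ^ ((1 : ℝ) / 3)) t ^ 2) ^
      ((3 : ℝ) / 7) * (y ^ 6) ^ ((4 : ℝ) / 7) ≤ 8 * y ^ 6 := by
  have y0 := U.y0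
  have t0 : 0 < t := (pow_pos y0 2).trans_le h0
  have w := U.w0 t0
  have o0 := rpow_pos_of_pos w ((1 : ℝ) / 3)
  have o3 : (S.w3 t ^ ((1 : ℝ) / 3)) ^ 3 = S.w3 t := by
    rw [← rpow_mul_natCast w.le]; norm_num
  have a : t * (S.w3 t ^ ((1 : ℝ) / 3)) ^ 2 ≤ y ^ 6 := by
    refine le_of_pow_le_pow_left₀ three_ne_zero (by positivity) ?_
    calc _ = t ^ 3 * ((S.w3 t ^ ((1 : ℝ) / 3)) ^ 3) ^ 2 := by ring
      _ ≤ y ^ 18 := by rw [o3]; exact U.w3 t h0 h1
      _ = _ := by ring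
  have b : L69.ws S ((y ^ 6) ^ ((1 : ℝ) / 3)) t ≤ 2 * S.w3 t ^ ((1 : ℝ) / 3) := by
    rw [L69.ws, U.cl_eq h0 h1]
    exact mul_le_mul_of_nonneg_right (by rw [div_le_iff₀ t0]; linarith) o0.le
  have b0 : 0 ≤ L69.ws S ((y ^ 6) ^ ((1 : ℝ) / 3)) t := by
    rw [L69.ws, U.cl_eq h0 h1]; positivity
  have c : t * L69.ws S ((y ^ 6) ^ ((1 : ℝ) / 3)) t ^ 2 ≤ 4 * y ^ 6 := by
    linarith [mul_le_mul_of_nonneg_left (pow_le_pow_left₀ b0 b 2) t0.le]
  have d := mul_le_mul (rpow_le_rpow (by positivity) c (show (0 : ℝ) ≤ 3 / 7 by norm_num))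
    (rpow_le_rpow (by positivity) (show y ^ 6 ≤ 4 * y ^ 6 by linarith [pow_pos y0 6])
      (show (0 : ℝ) ≤ 4 / 7 by norm_num)) (by positivity) (by positivity)
  rw [← rpow_add (by positivity), show (3 : ℝ) / 7 + 4 / 7 = 1 by norm_num, rpow_one] at d
  linarith

theorem apr {Vt u1 : ℝ} (h1 : u2 / 2 ≤ u1) (hΦ : Tot S M m a ≤ y ^ 6)
    (hV : ∀ k, S.J ≤ k → k ≤ S.Jp → u1 ≤ R62.du M k → M.del m a k ≤ Vt) :
    Ap S M m a (y ^ 2) (y ^ 6) (y ^ 6) Vt u1 (3 * y ^ 3) := by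
  have c := U.sd.cl
  have y0 := U.y0
  have u := U.sd.nu.u2p
  have e : √(y ^ 6) = y ^ 3 := by rw [show y ^ 6 = (y ^ 3) ^ 2 by ring, sqrt_sq (by positivity)]
  refine ⟨(phi_eq c U.jj).trans_le hΦ, le_trans ?_ hΦ, hV, ?_, ?_, U.sd.dj.2, ?_, fun k a b d => ?_⟩
  · refine le_trans (le_of_eq (sum_congr rfl fun k _ => ?_))
      (le_tot c (T := M.blk S (M.s S.J / 2) S.C) fun k hk => U.jj ▸ (mem_blk.1 hk).1)
    rw [sq_abs]; rfl
  · have := sqrt_le_sqrt U.g2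
    rw [e] at this ⊢
    nlinarith [mul_le_of_le_one_left (pow_pos y0 3).le U.y1']
  · rw [← div_le_iff₀' c.C0]; exact U.sd.dj.1
  · rw [U.sd.u0_cube]; exact U.laX.trans U.VX
  · have g := U.sd.ls_ge a (U.lt_Jp (by linarith) b d)
    have := mul_le_mul_of_nonneg_left g (Nat.cast_nonneg (α := ℝ) S.n)
    change 1 ≤ S.n * ls S M k
    linarith [U.nu]

end UN

/-- `TLt` at the numbers of the passes -/
theorem ps_of (T : L69.TLt) : CL fun E Λ S M m a => ∀ la V u2 y r q Lg K,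
    UN S M la V u2 y r q Lg E K → Tot S M m a ≤ y ^ 6 → Ps E Λ S M m a V u2 y Lg :=
  CL.mono T fun E Λ S M m a _ _ c _ T la V u2 y r q Lg K U hΦ u1 Vt h1 h2 V0 hV => by
    have y0 := U.y0
    have u := U.sd.nu.u2p
    have yC : y ^ 2 ≤ S.C := U.y1.trans c.C1
    have EX : E * y ^ 6 ≤ 1 := le_trans (mul_le_mul_of_nonneg_left
      (pow_le_pow_of_le_one y0.le U.y1' (by norm_num)) (by linarith [U.E1])) U.Ey
    refine T (y ^ 2) (y ^ 6) (y ^ 6) Vt _ u1 _ 0 E U.HJ (by positivity) EX (by positivity) EX V0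
      U.jl ?_ U.Ey ?_ (fun t a b => (min_le_right _ _).trans ((U.x2b t a b).trans U.X8))
      U.sd.u0p U.rev (by linarith [U.ue]) ?_ (by rw [U.flat _ c.i3 le_rfl, sub_self])
      (by simp) le_rfl U.En (U.far h1) (U.np h1 h2 V0) (U.apr h1 hΦ hV)
    · refine le_of_pow_le_pow_left₀ two_ne_zero (by positivity) ?_
      refine le_of_mul_le_mul_left ?_ (pow_pos (pow_pos y0 2) 3)
      exact (U.w3 _ le_rfl yC).trans_eq (by ring)
    · rw [U.cl_eq le_rfl yC]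
      nlinarith [U.X8, pow_pos y0 6]
    · exact (mul_le_mul_of_nonneg_left (h2.trans U.VX) (by linarith [U.E1])).trans EX

namespace UN

variable {S : Sc} {M : Md} {m : ℕ} {a la V u2 y r q Lg E K Λ : ℝ} {k : ℕ}
  (U : UN S M la V u2 y r q Lg E K) (T : Ps E Λ S M m a V u2 y Lg) (Λ1 : 1 ≤ Λ) (hm : 0 < m)
  (hK : 300 * S.C ^ 4 * (Λ * E * Lg) ≤ K)
include U

theorem clk {k' : ℕ} (h0 : S.J ≤ k') (h1 : k' ≤ S.Jp) {b : ℝ} (b0 : 0 ≤ b)
    (h : ((k' : ℝ) - S.J) * S.v ≤ 3 * S.C * (S.u0 + b)) :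
    min (√(M.H k' - M.H S.J)) (S.F * (M.H k' - M.H S.J) / S.θ) ≤ 6 * S.C ^ 2 * (V + b) := by
  have c := U.sd.cl
  have θ0 := c.θ0
  have C0 := c.C0
  have V0 := U.V0
  have u0 := U.sd.u0p
  have a := (U.ce.toG c).pl S.J k' le_rfl h0 h1
  rw [U.F1] at a ⊢
  have d : M.H k' - M.H S.J ≤ 3 * S.C ^ 2 * (S.u0 + b) * S.θ := by
    linarith [mul_le_mul_of_nonneg_left h (mul_pos C0 θ0).le]
  have e : 1 * (M.H k' - M.H S.J) / S.θ ≤ 3 * S.C ^ 2 * (S.u0 + b) := by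
    rw [one_mul, div_le_iff₀ θ0]; exact d
  have C2 : 1 ≤ S.C ^ 2 := one_le_pow₀ c.C1
  rcases le_total S.u0 (max V b) with f | f
  · have : S.u0 ≤ V + b := f.trans (max_le (by linarith) (by linarith))
    nlinarith [min_le_right (√(M.H k' - M.H S.J)) (1 * (M.H k' - M.H S.J) / S.θ)]
  · obtain ⟨f1, f2⟩ := max_le_iff.1 f
    have g : S.θ * S.u0 ≤ V ^ 2 := by
      refine le_of_mul_le_mul_right ?_ (pow_pos u0 2)
      have := mul_le_mul_of_nonneg_left (pow_le_pow_left₀ V0.le f1 2) (sq_nonneg V)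
      linarith [U.θl, show S.θ * S.u0 * S.u0 ^ 2 = S.θ * la ^ 2 by rw [← U.sd.u0_cube]; ring]
    refine (min_le_left _ _).trans (sqrt_le_iff.2 ⟨by positivity, d.trans ?_⟩)
    have g1 := mul_le_mul_of_nonneg_left f2 θ0.le
    have g2 : V ^ 2 ≤ (V + b) ^ 2 := pow_le_pow_left₀ V0.le (by linarith) 2
    have g3 : (S.u0 + b) * S.θ ≤ 2 * (V + b) ^ 2 := by linarith
    have g4 := mul_le_mul_of_nonneg_left g3 (sq_nonneg S.C)
    have g5 := mul_le_mul_of_nonneg_right C2 (show 0 ≤ S.C ^ 2 * (V + b) ^ 2 by positivity)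
    have g6 : 0 ≤ S.C ^ 2 * (V + b) ^ 2 := by positivity
    linarith [show (6 * S.C ^ 2 * (V + b)) ^ 2 = 36 * (S.C ^ 2 * (S.C ^ 2 * (V + b) ^ 2)) by ring]

include T Λ1 in
/-- one pass at one node -/
theorem pas {u1 Vt Z : ℝ} (h1 : u2 / 2 ≤ u1) (h2 : u1 ≤ V ^ 2) (V0 : 0 ≤ Vt)
    (hV : ∀ k, S.J ≤ k → k ≤ S.Jp → u1 ≤ R62.du M k → M.del m a k ≤ Vt) (k0 : S.J ≤ k)
    (k1 : k ≤ S.Jp) (hu : 2 * u1 ≤ R62.du M k) (Z0 : 0 ≤ Z)
    (hZ : 2 * S.w3 1 * Vt ^ 2 ≤ Z ^ 3 * (ls S M k * min (R62.dl S M k) (R62.du M k))) :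
    M.del m a k ≤ Λ * E * Lg * (100 * S.C ^ 3 * (y ^ 3 + ls S M k) + Z) := by
  have u := U.sd.nu.u2p
  have su := sqrt_pos.2 u
  have y0 := U.y0
  have E1 := U.E1
  have L1 := U.L1
  have Vp := U.V0
  have C4 := U.sd.C4
  have hk := U.mem k0 k1 (by linarith)
  have l0 := U.ls0 hk
  have hL : log (1 + 4 / √u2) ≤ Lg := by
    have a : u2 ≤ √u2 := by nlinarith [sq_sqrt u.le, U.sd.nu.s1]
    have b := log_le_log (x := 1 + 4 / √u2) (by positivity)
      (add_le_add le_rfl (div_le_div_of_nonneg_left (by norm_num) u a))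
    linarith [U.lg, log_nonneg (show 1 ≤ 1 + 4 / u2 from le_add_of_nonneg_right (by positivity))]
  obtain ⟨j, j0, j1, j2, j3⟩ := half U.sd U.v U.ue hL hk
  have a := T u1 Vt h1 h2 V0 hV k k0 k1 hu j j0 j1 j2
  have b := U.clk (k0.trans j0) j1 (b := V * Lg + 16 * S.C * ls S M k) (by positivity)
    (by linarith)
  have c := U.ap_le V0 hk Z0 (le_trans (mul_le_mul_of_nonneg_left (pow_le_pow_left₀
    (le_min V0 (sqrt_nonneg _)) (min_le_left _ _) 2) (by linarith [U.w0 one_pos])) hZ)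
  have d : 1 / √(S.n : ℝ) ≤ V := by
    have n0 : (0 : ℝ) < S.n := by exact_mod_cast U.sd.cl.n1
    rw [div_le_iff₀ (sqrt_pos.2 n0), ← div_le_iff₀' Vp]
    exact le_sqrt_of_sq_le (by rw [div_pow, one_pow, div_le_iff₀ (by positivity)]; exact U.nV)
  rw [sqrt_sq (by positivity)] at a
  refine a.trans ?_
  rw [mul_assoc Λ E, mul_assoc Λ]
  refine mul_le_mul_of_nonneg_left ?_ (by linarith)
  have VB := U.VB
  generalize y ^ 3 = B at *
  generalize ls S M k = l at *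
  have B0 : 0 < B := Vp.trans_le VB
  have p1 : 1 ≤ E * Lg := one_le_mul_of_one_le_of_one_le E1 L1
  have p2 : E ≤ E * Lg := le_mul_of_one_le_right (by linarith) L1
  have p3 : Lg ≤ E * Lg := le_mul_of_one_le_left (by linarith) E1
  have c1 := mul_le_mul p2 c (le_trans ?_ le_rfl) (by linarith)
  swap
  · have := U.w0 one_pos
    have := U.sd.cl.den0 (M.z (k - 1))
    have : 0 < L69.ds M S k := U.ds0 hk
    unfold ap; positivity
  have b1 : V + (V * Lg + 16 * S.C * l) ≤ E * Lg * (2 * B + 16 * S.C * l) := by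
    have := mul_le_mul VB p3 (by linarith) B0.le
    have := mul_le_mul_of_nonneg_right p1 B0.le
    have := mul_le_mul_of_nonneg_right p1 (show 0 ≤ 16 * S.C * l by positivity)
    linarith
  have b2 := mul_le_mul_of_nonneg_left b1 (show 0 ≤ 6 * S.C ^ 2 by positivity)
  have b3 := mul_le_mul_of_nonneg_right p1 B0.le
  have C3 : 64 ≤ S.C ^ 3 := by linarith [pow_le_pow_left₀ (by norm_num) C4 3]
  have C2 : S.C ^ 2 ≤ S.C ^ 3 := pow_le_pow_right₀ (by linarith) (by norm_num)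
  have z : 27 * B + 4 * l + 6 * S.C ^ 2 * (2 * B + 16 * S.C * l) ≤ 100 * S.C ^ 3 * (B + l) := by
    linarith [mul_le_mul_of_nonneg_right C3 B0.le, mul_le_mul_of_nonneg_right C3 l0.le,
      mul_le_mul_of_nonneg_right C2 B0.le, mul_pos (show 0 < S.C ^ 3 by positivity) B0]
  linarith [mul_le_mul_of_nonneg_left z (show 0 ≤ E * Lg by linarith)]

theorem upper (hu : R62.du M k ≤ 2 * V ^ 2) : R62.du M k ≤ R62.dl S M k ∧
    1 / (2 * S.C) ≤ R62.dl S M k := by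
  have C0 := U.sd.cl.C0
  have a := U.sd.sum_ge k
  have b : 2 * V ^ 2 ≤ 1 / (2 * S.C) := by rw [le_div_iff₀ (by positivity)]; linarith [U.CV]
  have c : 1 / S.C = 1 / (2 * S.C) + 1 / (2 * S.C) := by field_simp; norm_num
  constructor <;> linarith

/-- the cube of the profile pays the shell -/
theorem cube {u W g : ℝ} (k0 : S.J ≤ k) (k1 : k < S.Jp) (h1 : u2 ≤ u) (h2 : u ≤ R62.du M k)
    (h3 : R62.du M k ≤ 2 * V ^ 2) (hg : √(u2 / u) ≤ g) :
    2 * S.w3 1 * (2 * W * g) ^ 2 ≤ (q * r) ^ 3 * W ^ 2 * g ^ 3 *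
      (ls S M k * min (R62.dl S M k) (R62.du M k)) ∧ √(u2 / R62.du M k) ≤ 4 * ls S M k := by
  have u0 := U.sd.nu.u2p
  have d := U.sd.du0 k0 k1
  have e := (U.upper h3).1
  have a := (U.sd.nu.hi d e).2.1
  rw [← U.sd.ls_eq k0 d, ← sqrt_div u0.le, min_eq_left (sqrt_le_one.2
    ((div_le_one d).2 (h1.trans h2)))] at a
  refine ⟨?_, by linarith⟩
  rw [min_eq_right e]
  have p : 0 < u := u0.trans_le h1
  have b : u2 ≤ √(u2 / u) * (√(u2 / R62.du M k) * R62.du M k) := by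
    have b1 := sqrt_le_sqrt (div_le_div_of_nonneg_left u0.le p h2)
    have b2 := mul_self_sqrt (div_pos u0 d).le
    have b3 := mul_le_mul_of_nonneg_right b1 (mul_pos (sqrt_pos.2 (div_pos u0 d)) d).le
    rw [← mul_assoc, b2, div_mul_cancel₀ _ d.ne'] at b3
    exact b3
  have g0 : 0 ≤ g := (sqrt_nonneg _).trans hg
  have c : u2 ≤ g * (4 * ls S M k * R62.du M k) :=
    b.trans (mul_le_mul hg (mul_le_mul_of_nonneg_right (by linarith) d.le) (by positivity) g0)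
  have f := mul_le_mul_of_nonneg_left c (pow_nonneg U.ε0 3)
  have i : 8 * S.w3 1 ≤ (q * r) ^ 3 * (g * (ls S M k * R62.du M k)) := by
    have := U.wq
    rw [← U.ε3] at this
    linarith [U.w0 one_pos]
  linarith [mul_le_mul_of_nonneg_right i (show 0 ≤ W ^ 2 * g ^ 2 by positivity)]

theorem ls_up {u : ℝ} (k0 : S.J ≤ k) (p : 0 < u) (h2 : u ≤ R62.du M k)
    (h3 : R62.du M k ≤ 2 * V ^ 2) : ls S M k ≤ S.C * (y ^ 3 + √(u2 / u)) := by
  have d : 0 < R62.du M k := p.trans_le h2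
  obtain ⟨e, f⟩ := U.upper h3
  have C4 := U.sd.C4
  have lp := U.sd.nu.lp
  have Vp := U.V0
  have su := U.sd.nu.sp
  have A0 := d.trans_le e
  have sA := sqrt_pos.2 A0
  have sd := sqrt_pos.2 d
  rw [U.sd.ls_eq k0 d, Kn72.LL, min_eq_right e]
  have a : db la (R62.dl S M k) * R62.du M k ≤ S.C * la / 2 := by
    refine (mul_le_mul_of_nonneg_left e (db_pos lp A0).le).trans ?_
    rw [Kn72.db_mul A0]
    refine div_le_div_of_nonneg_right ?_ two_pos.le
    have : 1 / S.C ≤ √(R62.dl S M k) := le_sqrt_of_sq_le (le_trans (by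
      rw [div_pow, one_pow]; exact one_div_le_one_div_of_le (by linarith) (by nlinarith)) f)
    rw [div_le_iff₀ (by linarith)] at this
    rw [div_le_iff₀ sA]; nlinarith
  have b : dt V la (R62.du M k) * R62.du M k ≤ V / 2 := by
    unfold dt
    rw [div_mul_eq_mul_div, div_le_div_iff₀ (by positivity) two_pos]
    nlinarith [mul_pos (mul_pos (mul_pos Vp Vp) d) sd]
  have c : dt 1 (√u2) (R62.du M k) * R62.du M k ≤ √(u2 / u) / 2 := by
    refine (mul_le_mul_of_nonneg_right (Kn72.dt_le' one_pos su.le d) d.le).trans ?_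
    rw [Kn72.db_mul d, ← sqrt_div U.sd.nu.u2p.le]
    exact div_le_div_of_nonneg_right (sqrt_le_sqrt
      (div_le_div_of_nonneg_left U.sd.nu.u2p.le p h2)) two_pos.le
  have VB := U.VB
  have l1 := mul_le_mul_of_nonneg_left (U.sd.nu.lV.trans VB) (show 0 ≤ S.C by linarith)
  nlinarith [sqrt_nonneg (u2 / u), Vp.trans_le VB]

omit U in
/-- the profile claim -/
def PC (S : Sc) (M : Md) (m : ℕ) (a V u2 y W : ℝ) : Prop := ∀ u, 0 < u → u ≤ V ^ 2 → ∀ k, S.J ≤ k →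
  k ≤ S.Jp → u ≤ R62.du M k → M.del m a k ≤ W * (y ^ 3 + √(u2 / u))

include hm

theorem del1 (k : ℕ) : M.del m a k ≤ 1 := by
  linarith [Md67.rb_le_one (M := M) (a := a) hm k, show 0 ≤ M.q k from Pp.Ode3.Gam_nonneg _ _,
    show M.del m a k = M.rb m a k - M.q k from rfl]

theorem del_mono {i : ℕ} (h0 : S.J ≤ i) (h1 : i ≤ k) (h2 : k ≤ S.Jp) :
    M.del m a i ≤ M.del m a k := by
  unfold Md.del Md.q
  rw [U.flat i h0 (h1.trans h2), U.flat k (h0.trans h1) h2]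
  exact sub_le_sub_right (Md67.rb_mono hm h1) _

theorem pc0 : PC S M m a V u2 y (1 / V) := fun u _ _ k _ _ _ => by
  rw [one_div_mul_eq_div, le_div_iff₀ U.V0]
  nlinarith [U.del1 (a := a) hm k, U.VB, U.V0, sqrt_nonneg (u2 / u)]

omit hm in
theorem half_g {u : ℝ} (p : 0 < u) : √(u2 / (u / 2)) ≤ 2 * √(u2 / u) := by
  have := U.sd.nu.u2p
  refine sqrt_le_iff.2 ⟨by positivity, ?_⟩
  rw [mul_pow, sq_sqrt (by positivity), div_div_eq_mul_div, ← mul_div_assoc]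
  exact div_le_div_of_nonneg_right (by linarith) p.le

include T Λ1 hK

theorem step {W ζ : ℝ} (W0 : 0 ≤ W) (ζ1 : 1 ≤ ζ) (hζ : (q * r) ^ 3 * W ^ 2 ≤ ζ ^ 3)
    (h : PC S M m a V u2 y W) : PC S M m a V u2 y (K * ζ) := fun u p uV k k0 k1 hu => by
  have u0 := U.sd.nu.u2p
  have y0 := U.y0
  have C4 := U.sd.C4
  have g0 := sqrt_nonneg (u2 / u)
  have Kζ : 1 ≤ K * ζ := one_le_mul_of_one_le_of_one_le U.K1 ζ1
  rcases le_total u u2 with e | e
  · have : 1 ≤ √(u2 / u) := one_le_sqrt.2 ((one_le_div p).2 e)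
    exact (U.del1 hm k).trans (one_le_mul_of_one_le_of_one_le Kζ (by linarith [pow_pos y0 3]))
  classical
  have ex : ∃ i, k ≤ i ∧ R62.du M (i + 1) < u := ⟨S.Jp - 1, by
    have := U.lt_Jp (by linarith) k1 hu; omega, by
    have := U.lt_Jp (by linarith) k1 hu
    rw [show S.Jp - 1 + 1 = S.Jp by omega]
    linarith [U.sd.cl.last, U.ue, show R62.du M S.Jp = 1 - M.z (S.Jp - 1) from rfl]⟩
  obtain ⟨i0, i1⟩ := Nat.find_spec ex
  have i2 : u ≤ R62.du M (Nat.find ex) := by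
    rcases i0.eq_or_lt with f | f
    · rwa [← f]
    · have := Nat.find_min ex (show Nat.find ex - 1 < Nat.find ex by omega)
      rw [show Nat.find ex - 1 + 1 = Nat.find ex by omega] at this
      exact not_lt.1 fun z => this ⟨by omega, z⟩
  have i3 : Nat.find ex < S.Jp := by
    by_contra z
    have : R62.du M (Nat.find ex) ≤ R62.du M S.Jp :=
      sub_le_sub_left (U.sd.cl.leg.zm (by omega)) 1
    linarith [U.sd.cl.last, U.ue, show R62.du M S.Jp = 1 - M.z (S.Jp - 1) from rfl]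
  generalize Nat.find ex = i at *
  have s := (le_min_iff.1 (Lk37.step U.sd U.v (k0.trans i0) i3)).2
  have i4 : R62.du M i ≤ 2 * V ^ 2 := by
    unfold R62.du at *
    rw [Nat.add_sub_cancel] at i1
    linarith
  have hg := U.half_g p
  have c := (U.cube (W := W) (k0.trans i0) i3 e i2 i4
    (show √(u2 / u) ≤ y ^ 3 + √(u2 / u) by linarith [pow_pos y0 3])).1
  have hi := U.mem (k0.trans i0) i3.le (by linarith)
  have a := U.pas T Λ1 (u1 := u / 2) (Vt := 2 * W * (y ^ 3 + √(u2 / u)))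
    (Z := ζ * (y ^ 3 + √(u2 / u))) (by linarith) (by linarith) (by positivity)
    (fun j j0 j1 j2 => (h (u / 2) (by positivity) (by linarith) j j0 j1 j2).trans (by
      linarith [mul_le_mul_of_nonneg_left hg W0, mul_nonneg W0 (pow_pos y0 3).le]))
    (k0.trans i0) i3.le (by linarith) (by positivity) (c.trans (mul_le_mul_of_nonneg_right (by
      rw [mul_pow ζ]; exact mul_le_mul_of_nonneg_right hζ (by positivity))
      (mul_pos (U.ls0 hi) (U.ds0 hi)).le))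
  have b := U.ls_up (k0.trans i0) p i2 i4
  refine (U.del_mono hm k0 i0 i3.le).trans (a.trans ?_)
  have P0 : 0 ≤ Λ * E * Lg := by have := U.E1; have := U.L1; positivity
  have G0 : 0 < y ^ 3 + √(u2 / u) := by positivity
  have yG : y ^ 3 ≤ y ^ 3 + √(u2 / u) := by linarith
  generalize y ^ 3 + √(u2 / u) = G at *
  have C1 : 1 ≤ S.C ^ 4 := one_le_pow₀ (by linarith)
  have z1 : y ^ 3 + ls S M i ≤ 2 * S.C * G := by nlinarith
  have z2 := mul_le_mul_of_nonneg_left z1 (show 0 ≤ 100 * S.C ^ 3 by positivity)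
  have z3 := mul_le_mul_of_nonneg_right ζ1 (show 0 ≤ S.C ^ 4 * G by positivity)
  have z4 := mul_le_mul_of_nonneg_right C1 (show 0 ≤ ζ * G by positivity)
  have z5 : 100 * S.C ^ 3 * (y ^ 3 + ls S M i) + ζ * G ≤ 300 * S.C ^ 4 * (ζ * G) := by
    linarith [show 0 ≤ ζ * G by positivity]
  linarith [mul_le_mul_of_nonneg_left z5 P0,
    mul_le_mul_of_nonneg_right hK (show 0 ≤ ζ * G by positivity)]

theorem pc2 : PC S M m a V u2 y K := by
  have r0 := U.r0
  have q1 := U.q1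
  have K1 := U.K1
  have z1 : 1 ≤ q / r := (one_le_div r0).2 (U.r1.trans q1)
  have a := U.step T Λ1 hm hK (ζ := q / r) (one_div_pos.2 U.V0).le z1
    (le_of_eq (by rw [← U.rV]; field_simp)) (U.pc0 hm)
  have b := U.step T Λ1 hm hK (ζ := 1) (by positivity) le_rfl
    (le_trans (le_of_eq (by field_simp)) (U.qr.trans_eq (one_pow 3).symm)) a
  rwa [mul_one] at b

/-- **`LK.up`** -/
theorem up (hk : k ∈ pl S M (u2 / 4)) : M.del m a k ≤ K * (y ^ 3 + ls S M k) := by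
  obtain ⟨k0, k1, hu⟩ := SD.mem_pl hk
  have u0 := U.sd.nu.u2p
  have y0 := U.y0
  have C4 := U.sd.C4
  have K1 := U.K1
  have l0 := U.ls0 hk
  have s0 := U.ds0 hk
  have d := U.sd.du0 k0 k1
  have Vp := U.V0
  have P1 : 1 ≤ Λ * E * Lg :=
    one_le_mul_of_one_le_of_one_le (one_le_mul_of_one_le_of_one_le Λ1 U.E1) U.L1
  have C3 : 64 ≤ S.C ^ 3 := by linarith [pow_le_pow_left₀ (by norm_num) C4 3]
  have C2 : S.C ^ 3 ≤ S.C ^ 4 := pow_le_pow_right₀ (by linarith) (by norm_num)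
  have G0 : 0 < y ^ 3 + ls S M k := by positivity
  rcases le_total (R62.du M k) u2 with e | e
  · have a1 := U.sd.nu.fin d (U.upper (by linarith [U.uV, sq_nonneg V])).1 e
    rw [← U.sd.ls_eq k0 d] at a1
    have b : 4 ≤ K := by nlinarith
    nlinarith [U.del1 (a := a) hm k, pow_pos y0 3]
  obtain ⟨u, u1, u3, u4, hZ⟩ : ∃ u, u2 ≤ u ∧ u ≤ V ^ 2 ∧ u ≤ R62.du M k ∧
      2 * S.w3 1 * (2 * K * (y ^ 3 + √(u2 / u))) ^ 2 ≤ (4 * (y ^ 3 + ls S M k)) ^ 3 *
        (ls S M k * min (R62.dl S M k) (R62.du M k)) := by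
    rcases le_total (R62.du M k) (V ^ 2) with f | f
    · obtain ⟨c1, c2⟩ := U.cube (W := K) k0 k1 e le_rfl (by linarith [sq_nonneg V])
        (show √(u2 / R62.du M k) ≤ y ^ 3 + √(u2 / R62.du M k) by linarith [pow_pos y0 3])
      refine ⟨_, e, f, le_rfl, c1.trans (mul_le_mul_of_nonneg_right ?_ (by positivity))⟩
      exact (mul_le_of_le_one_left (by positivity) U.εK).trans
        (pow_le_pow_left₀ (by positivity) (by linarith [pow_pos y0 3]) 3)
    · refine ⟨_, U.uV, le_rfl, f, ?_⟩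
      have w := U.w0 one_pos
      have a1 : (y ^ 3 + √(u2 / V ^ 2)) ^ 2 ≤ 2 * (y ^ 3) ^ 2 + 2 * (u2 / V ^ 2) := by
        nlinarith [sq_nonneg (y ^ 3 - √(u2 / V ^ 2)), sq_sqrt (show 0 ≤ u2 / V ^ 2 by positivity)]
      have a2 : K ^ 2 * S.w3 1 ≤ ls S M k ^ 2 * min (R62.dl S M k) (R62.du M k) := by
        have := mul_le_mul_of_nonneg_left (U.hw hk) (sq_nonneg K)
        have := mul_le_of_le_one_left (show 0 ≤ ls S M k ^ 2 * min (R62.dl S M k) (R62.du M k) by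
          positivity) U.εK
        linarith
      have a3 : K ^ 2 * S.w3 1 * (u2 / V ^ 2) ≤
          (y ^ 3) ^ 2 * (ls S M k ^ 2 * min (R62.dl S M k) (R62.du M k)) := by
        have b1 : K ^ 2 * S.w3 1 * (u2 / V ^ 2) ≤ V ^ 2 * (u2 / 64) := by
          rw [← mul_div_assoc, div_le_iff₀ (by positivity)]
          nlinarith [mul_le_mul_of_nonneg_right U.wV u0.le, mul_pos (pow_pos Vp 4) u0]
        exact b1.trans (mul_le_mul (by linarith [U.VX]) (U.sq64 hk) (by positivity) (by positivity))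
      have a4 := mul_le_mul_of_nonneg_left a1 (show 0 ≤ K ^ 2 * S.w3 1 by positivity)
      have a5 := mul_le_mul_of_nonneg_right a2 (sq_nonneg (y ^ 3))
      have B0 := pow_pos y0 3
      generalize y ^ 3 = B at *
      generalize ls S M k = l at *
      generalize min (R62.dl S M k) (R62.du M k) = s at *
      have a6 : B ^ 2 * l ≤ (B + l) ^ 3 := by
        have : 0 ≤ (B + l) ^ 3 - B ^ 2 * l := by ring_nf; positivity
        linarith
      have a7 := mul_le_mul_of_nonneg_right a6 (mul_pos l0 s0).le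
      have a8 : 0 ≤ (B + l) ^ 3 * (l * s) := by positivity
      linarith
  have p : 0 < u := u0.trans_le u1
  have hg := U.half_g p
  have a := U.pas T Λ1 (u1 := u / 2) (by linarith) (by linarith) (by positivity)
    (fun j j0 j1 j2 => (U.pc2 T Λ1 hm hK (u / 2) (by positivity) (by linarith) j j0 j1 j2).trans
      (show _ ≤ 2 * K * (y ^ 3 + √(u2 / u)) by
        linarith [mul_le_mul_of_nonneg_left hg (show 0 ≤ K by linarith),
          mul_nonneg (show 0 ≤ K by linarith) (pow_pos y0 3).le]))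
    k0 k1.le (by linarith) (by positivity) hZ
  refine a.trans ?_
  generalize y ^ 3 + ls S M k = G at *
  have z : 100 * S.C ^ 3 * G + 4 * G ≤ 300 * S.C ^ 4 * G := by
    linarith [mul_le_mul_of_nonneg_right C3 G0.le, mul_le_mul_of_nonneg_right C2 G0.le]
  linarith [mul_le_mul_of_nonneg_left z (show 0 ≤ Λ * E * Lg by linarith),
    mul_le_mul_of_nonneg_right hK G0.le]

end UN

/-- **`LK.up` on the class** -/
theorem up_cl (T : L69.TLt) : CL fun E Λ S M m a => ∀ la V u2 y r q Lg K,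
    UN S M la V u2 y r q Lg E K → 300 * S.C ^ 4 * (Λ * E * Lg) ≤ K → Tot S M m a ≤ y ^ 6 →
    ∀ k ∈ pl S M (u2 / 4), M.del m a k ≤ K * (y ^ 3 + ls S M k) :=
  (ps_of T).mono fun _ _ S _ m _ _ Λ1 c I T la V u2 y r q Lg K U hK hΦ _ hk =>
    U.up (T la V u2 y r q Lg K U hΦ) Λ1
      (lt_of_lt_of_le (by exact_mod_cast one_pos.trans_le c.n1) I.m1) hK hk

end Crest.Agent.T156.Alt.Lk37

end
end

-- ▼ part T156/LKg_37
section

/-!
# Row 156: the leaf `Upx` of `LocG` from `TLt` (helper37)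
-/

set_option autoImplicit false
set_option linter.unusedSectionVars false

noncomputable section

namespace Crest.Agent.T156.Alt.Lk37

open Real Finset Plt13 Mem37
open Crest.Agent.T156.Alt.Kn72 (nu)

theorem cube3 {x : ℝ} (h : 0 ≤ x) : (x ^ ((1 : ℝ) / 3)) ^ 3 = x := by
  rw [← rpow_mul_natCast h]; norm_num

variable {β c0 C0 c0' C0' η' : ℝ} {A : ℕ} {c η K K' : ℝ} {p : Pm} {σ t : ℝ} {Q : Pl}
  (H : Reg β c0 C0 A c η K' p) (o : p.OctR σ t) (G : GrD K c0' C0' η' p σ t Q) (X : p.PlX σ t Q)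
include H o G X

theorem HJ_gst : (p.gst Q t).H (p.Jp Q) ≤ 1 := by
  have h := G.memD
  have K1 := h.K1
  have M := (Gr29.oct_mem o).2
  have θ := H.muG_pos M
  show p.HO Q (p.omG t) (p.bG t + 0) (p.Jp Q) + 0 ≤ 1
  rw [MemD.H_hi (by have := h.jlJ; have := J_le (p := p) (P := Q); omega), add_zero,
    h.geo.xP_top le_rfl]
  have a := (h.inc le_rfl (h.geo.sP_nn (p.Jp Q)) le_rfl).1.2
  rw [h.mk0, sub_zero, sub_zero] at a
  have b := (abs_le.1 ((xk_of H o G X).hsL _ le_rfl)).2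
  have d : K * p.msG t (p.sO Q (p.omG t) (p.Jp Q)) * p.sO Q (p.omG t) (p.Jp Q) ≤
      K * p.muG t * (K + 1) := mul_le_mul (mul_le_mul_of_nonneg_left (H.msG_le (H.σ0 M) _)
        (by linarith)) h.sT (h.geo.sP_nn _) (by positivity)
  have e := mul_le_mul_of_nonneg_left
    (show K * (K + 1) ≤ (p.n : ℝ) ^ η by nlinarith [Lx13.C_le H G]) θ.le
  have f := mul_le_mul_of_nonneg_left H.log_le θ.le
  have Λ := H.Λ0
  have g : 7 * (p.muG t * (p.n : ℝ) ^ η) ≤ 1 := H.le_of_lg (by positivity) one_pos (by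
    have := H.N0
    lg_norm; rw [H.lg_n]
    linarith [(H.lg_num (x := 7) (by norm_num) (by norm_num)).2, (H.lg_muG' M).2, H.η_le, H.c_pos])
  linarith

/-- **the numbers of the passes on the graded path** -/
theorem un_gst (hη : 100000 * η ≤ c) (hc : c ≤ 1 / 1000)
    (hK : 5 * (406 + 8 * K) ≤ (p.n : ℝ) ^ η) :
    UN (p.scG K σ t Q) (p.gst Q t) (p.la (nu p σ)) (p.Vc (nu p σ)) (p.u2 (nu p σ))
      (max (p.Vc (nu p σ)) √(p.PhN t) ^ ((1 : ℝ) / 3)) (p.Vc (nu p σ) ^ ((1 : ℝ) / 3))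
      ((p.n : ℝ) ^ c) (4 * log p.n) ((p.n : ℝ) ^ (c / 20000)) ((p.n : ℝ) ^ (c / 400)) := by
  obtain ⟨M, M'⟩ := Gr29.oct_mem o
  have x := xk_of H o G X
  have D := Kn72.sd_gst H o G
  have c0 := H.c_pos
  have η0 := H.η_pos
  have N0 := H.N0
  have K1 := G.nb.K1
  have hC : (p.scG K σ t Q).C ≤ (p.n : ℝ) ^ η := Lx13.C_le H G
  have C1 := G.cl.1.C1
  have lC := H.lg_cst C1 hC
  have mono : ∀ {x y : ℝ}, x ≤ y → (p.n : ℝ) ^ x ≤ (p.n : ℝ) ^ y :=
    fun h => rpow_le_rpow_of_exponent_le H.N1.le h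
  have V0 := D.nu.Vp
  have la0 := D.nu.lp
  have u0 := D.nu.u2p
  have P0 := Kn17.PhN0 H M'
  have θ0 := H.muG_pos M'
  have hθ : (p.scG K σ t Q).θ = p.muG t := G.top
  obtain ⟨w0, w1⟩ := Kn72.lg_w3 H o G
  obtain ⟨-, -, f3, -, f5⟩ := Kn17.lg_PhN H hη M'
  obtain ⟨a1, a2⟩ := Kn72.lg_nu H o
  have V := H.lg_Vc (Kn72.nu0 H o)
  have U := H.lg_u2 (Kn72.nu0 H o)
  have U1 := (Kn72.lg_u2_bds H o).1
  have L := H.lg_la (Kn72.nu0 H o)
  have L1 := min_le_left (-(logb p.n (nu p σ) + 1 / 3) / 3) (-(logb p.n (nu p σ) + 1 / 3) / 2)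
  have L2 := min_le_right (-(logb p.n (nu p σ) + 1 / 3) / 3) (-(logb p.n (nu p σ) + 1 / 3) / 2)
  have V1 := le_max_left 0 (-(logb p.n (nu p σ) + 1 / 3) / 3)
  have V2 := le_max_right 0 (-(logb p.n (nu p σ) + 1 / 3) / 3)
  have V3 : max 0 (-(logb p.n (nu p σ) + 1 / 3) / 3) ≤ 1 / 9 + 2 * c / 3 :=
    max_le (by linarith) (by linarith)
  have m0 := H.muG_pos M
  have m1 := H.lg_mono m0 (H.oct_mu o).1
  have m2 := H.lg_mono θ0 (H.oct_mu o).2
  rw [logb_mul two_ne_zero m0.ne'] at m2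
  obtain ⟨m3, m4⟩ := H.lg_mt' m0
  have m5 := (H.lg_mt m0).le.trans (min_le_right _ _)
  have m6 := (H.lg_muG' M').2
  have t2 := H.lg_two.2
  have s0 := sqrt_pos.2 P0
  have B0 : 0 < max (p.Vc (nu p σ)) √(p.PhN t) := lt_max_of_lt_left V0
  have B1 : logb p.n (max (p.Vc (nu p σ)) √(p.PhN t)) ≤ -(1 / 18) + 2 * c := by
    rw [lg_max H.N1 V0 s0, lg_sqrt _ P0.le]; exact max_le (by linarith) (by linarith)
  have B2 := H.lg_mono s0 (le_max_right (p.Vc (nu p σ)) _)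
  rw [lg_sqrt _ P0.le] at B2
  have y3 := cube3 B0.le
  have y0 : 0 < max (p.Vc (nu p σ)) √(p.PhN t) ^ ((1 : ℝ) / 3) := rpow_pos_of_pos B0 _
  have ry := rpow_le_rpow V0.le (le_max_left _ √(p.PhN t)) (show (0 : ℝ) ≤ 1 / 3 by norm_num)
  have yV : p.Vc (nu p σ) ≤ max (p.Vc (nu p σ)) √(p.PhN t) := le_max_left _ _
  have r3 := cube3 V0.le
  have r0 := rpow_pos_of_pos V0 ((1 : ℝ) / 3)
  generalize max (p.Vc (nu p σ)) √(p.PhN t) ^ ((1 : ℝ) / 3) = y at *
  generalize p.Vc (nu p σ) ^ ((1 : ℝ) / 3) = r at *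
  rw [← y3] at B1 B2 yV
  rw [logb_pow] at B1 B2
  have R : 3 * logb p.n r = logb p.n (p.Vc (nu p σ)) := by rw [← r3, logb_pow]; push_cast; ring
  push_cast at B1 B2
  have yl : p.lN t ≤ y ^ 2 := H.le_of_lg (Kn17.lN0 H M') (by positivity) (by
    rw [Kn17.lg_lN H M', logb_pow]; push_cast; linarith)
  have yr : (p.n : ℝ) ^ (c / 20000) * p.r ≤ y ^ 2 := by
    have := H.r0
    refine H.le_of_lg (by positivity) (by positivity) ?_
    lg_norm; rw [H.lg_n]; linarith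
  have E1 : 1 ≤ (p.n : ℝ) ^ (c / 20000) := Kn17.pw1 H (by positivity)
  have g := H.log1
  have e1 := H.lg_n
  refine ⟨D, G.cl.2, Kn72.jj, rfl, Kn72.flat G x.g0, (HJ_gst H o G X).trans C1, Lx13.rev H G, ?_,
    r0, r3, ry, E1, (mono (by linarith)).trans_eq (rpow_one _), ?_, ?_, ?_, fun z a _ => ?_,
    fun z a b => ?_, ?_, (Kn72.n_ue H o).1, by linarith, ?_, Kn17.pw1 H c0.le,
    Kn17.pw1 H (by positivity), ?_, ?_, ?_, ?_, ?_, ?_⟩
  · refine ((Lx13.G_le G _ _).trans x.g2).trans (le_trans ?_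
      ((pow_le_pow_left₀ V0.le yV 2).trans_eq (by ring)))
    have b0 : 0 < 5 * (406 + 8 * K) := by linarith
    have b1 := H.lg_le b0 hK
    have g0 : 0 < log (p.n : ℝ) := by linarith
    generalize 5 * (406 + 8 * K) = b at *
    refine H.le_of_lg (by positivity) (by positivity) ?_
    lg_norm
    linarith [H.lg_log.2, H.lg_mono la0 D.nu.lV]
  · refine H.le_of_lg (by positivity) one_pos ?_
    lg_norm; rw [e1]; linarith
  · have : 0 < (p.scG K σ t Q).C := by linarith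
    refine H.le_of_lg (by positivity) one_pos ?_
    lg_norm; linarith [(H.lg_num (x := 4) (by norm_num) (by norm_num)).2]
  · have j := Nr44.jl H G (by linarith)
    refine le_trans (mul_le_mul_of_nonneg_left ?_ (by linarith)) yr
    change (p.gst Q t).s p.jf ≤ _
    linarith [H.r0]
  · have zr : p.r ≤ z := ((le_mul_of_one_le_left H.r0.le E1).trans yr).trans a
    refine (H.msG_le_sq t z).trans ((mul_le_of_le_one_left (sq_nonneg _) H.κ1).trans ?_)
    exact pow_le_pow_left₀ (H.xc0 z).le (max_le zr (min_le_left _ _)) 2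
  · obtain ⟨d, e⟩ := Kn17.Pw H hη M' (yl.trans a) (b.trans hC)
    have f : p.PN t z ≤ p.PhN t := by
      unfold Pm.PN
      split_ifs
      exacts [le_rfl, min_le_left _ _]
    refine (d.trans (pow_le_pow_left₀ (H.v0.le.trans e) f 3)).trans ?_
    refine H.le_of_lg (by positivity) (by positivity) ?_
    lg_norm; linarith
  · have d := Kn72.n_fine (K := K) (Q := Q) H o (E := 2 * (p.scG K σ t Q).C) (by linarith)
      (H.le_of_lg (by linarith) (H.rp0 _) (by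
        rw [logb_mul two_ne_zero (by linarith), H.lg_rp]; linarith))
    linarith
  · have a : 4 / p.u2 (nu p σ) ≤ p.n := H.le_of_lg (by positivity) N0 (by
      lg_norm; linarith [(H.lg_num (x := 4) (by norm_num) (by norm_num)).2])
    have b := log_le_log (by positivity) (show 1 + 4 / p.u2 (nu p σ) ≤ (p.n : ℝ) ^ 2 by
      nlinarith [H.N3])
    rw [log_pow] at b
    push_cast at b
    linarith
  · refine H.le_of_lg (by positivity) (by positivity) ?_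
    lg_norm; rw [e1]; linarith [(H.lg_num (x := 64) (by norm_num) (by norm_num)).2]
  · refine H.le_of_lg (by positivity) one_pos ?_
    lg_norm; rw [e1]; linarith
  · refine H.le_of_lg (by positivity) (by positivity) ?_
    have := (H.lg_num (x := 256) (by norm_num) (by norm_num)).2
    lg_norm; rw [e1]
    rcases le_max_iff.1 m5 with q | q <;> linarith
  · rw [hθ]
    refine H.le_of_lg (by positivity) (by positivity) ?_
    lg_norm
    rcases le_total 0 (logb p.n (nu p σ) + 1 / 3) with q | q <;> linarith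
  · change 1 ≤ (p.n : ℝ) * _
    refine H.le_of_lg one_pos (by positivity) ?_
    lg_norm; linarith
  · change 4 ≤ (p.n : ℝ) * _
    refine H.le_of_lg (by norm_num) (by positivity) ?_
    lg_norm; linarith [(H.lg_num (x := 4) (by norm_num) (by norm_num)).2]

omit o X in
theorem loss_le (hη : 100000 * η ≤ c) : 300 * (p.scG K σ t Q).C ^ 4 *
    ((p.n : ℝ) ^ η * (p.n : ℝ) ^ (c / 20000) * (4 * log p.n)) ≤ (p.n : ℝ) ^ (c / 400) := by
  have C1 := G.cl.1.C1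
  have lC := (H.lg_cst C1 (Lx13.C_le H G)).2
  have : 0 < (p.scG K σ t Q).C := by linarith
  have g0 : 0 < log (p.n : ℝ) := by linarith [H.log1]
  have N0 := H.N0
  refine H.le_of_lg (by positivity) (by positivity) ?_
  lg_norm; rw [H.lg_n]
  linarith [(H.lg_num (x := 4) (by norm_num) (by norm_num)).2, H.lg_log.2, H.c_pos,
    (H.lg_num (x := 300) (by norm_num) (by norm_num)).2]

omit H o G X in
/-- **the leaf `Upx`** -/
theorem upG (hβ : 1 < β) (T : L69.TLt) : R77.OnG R77.Upx β := fun K _ =>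
  Sml.glueCL (P := fun _ _ => True) (Q := fun _ _ => True) hβ
    (fun _ _ _ _ => ⟨1, le_rfl, fun _ _ _ _ _ => .of_forall fun _ _ _ _ _ _ _ => trivial⟩)
    Sml.triv (up_cl T) (fun _ => 8 * K ^ 2) (fun c => c / 20000) (fun c hc => by positivity)
    fun _ _ c0 C0 _ _ => ⟨0, fun A _ => ⟨1 / 1000, by norm_num, fun c hc c' =>
      ⟨c / 100000, by positivity, fun η hη _ => ⟨5 * (406 + 8 * K),
        fun p H _ _ L c0' C0' η' σ t Q o G X m a I hΦ k hk => by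
          have e : 100000 * η ≤ c := by linarith
          have U := un_gst H o G X e hc H.K_le
          have l := L _ _ rfl rfl rfl G.cl.1 m a I
          rw [H.hc] at l
          have V0 := U.V0
          have P0 := Kn17.PhN0 H (Gr29.oct_mem o).2
          have s0 := sqrt_nonneg (p.PhN t)
          have y3 := cube3 (le_max_of_le_left V0.le : 0 ≤ max (p.Vc (nu p σ)) √(p.PhN t))
          have b := l _ _ _ _ _ _ _ _ U (loss_le H G e) (hΦ.trans (by
            rw [show 6 = 3 * 2 from rfl, pow_mul, y3]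
            exact (sq_sqrt P0.le).ge.trans (pow_le_pow_left₀ s0 (le_max_right _ _) 2))) k hk
          rw [y3, mul_add] at b
          rw [Pm.VtN, Pm.L1N, H.hc]
          refine b.trans (add_le_add (mul_le_mul_of_nonneg_left (max_le ?_ ?_) (H.rp0 _).le) le_rfl)
          · exact le_add_of_nonneg_right s0
          · exact le_add_of_nonneg_left V0.le⟩⟩⟩⟩

end Crest.Agent.T156.Alt.Lk37

end
end

-- ▼ part T156/VtC_18
section

/-!
# Row 156 (helper18): one pass of `TLt` from `Vt = 1` below the scale `u2`, class level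
-/

set_option autoImplicit false
set_option linter.unusedSectionVars false

noncomputable section

namespace Crest.Agent.T156.Alt.Vt18

open Real Finset Plt13
open Crest.Agent.T156.Alt.L69 (GS GP Rp ap Np Far Ap Jn ds lsh)
open Crest.Agent.T156.Alt.R62 (lw sb pl ls)
open Crest.Agent.T156.Alt.Kn72 (SD)
open Crest.Agent.T156.Alt.Lk37

/-- the cut `u` and the size `ρ` -/
structure VN (S : Sc) (u2 y Lg u ρ : ℝ) : Prop where
  u0 : 0 < u
  uU : u ≤ u2
  ue : 4 * S.ue ≤ u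
  lg : 2 * log (1 + 4 / u) ≤ Lg
  w : S.w3 1 ≤ ρ ^ 3 * u
  y : y ^ 3 ≤ ρ
  θ : S.θ ≤ ρ ^ 2

theorem ap_num {w e s l R ρ u : ℝ} (w0 : 0 ≤ w) (e0 : 0 < e) (s0 : 0 < s) (s1 : s ≤ 1)
    (el : l = e * s) (u0 : 0 < u) (ρ0 : 0 ≤ ρ) (ρ1 : 4 * ρ ≤ 1) (hw : w ≤ ρ ^ 3 * u) (R0 : 0 ≤ R)
    (R3 : R ≤ 3) (l3 : l ≤ 3) (us : u / 2 ≤ s) (ul : u / 8 ≤ l * s) :
    (w * (e + R ^ 2 / (s ^ 2 * e))) ^ ((1 : ℝ) / 3) + w / (e * s ^ 2) + √(w / l) ≤ 8 * ρ := by
  have l0 : 0 < l := el ▸ mul_pos e0 s0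
  have r3 : 0 ≤ ρ ^ 3 := by positivity
  have es : e * s ^ 2 = l * s := by rw [el]; ring
  have c : w / (l * s) ≤ 8 * ρ ^ 3 := by
    rw [div_le_iff₀ (by positivity)]
    linarith [mul_le_mul_of_nonneg_left ul r3]
  have a : w * e ≤ 6 * ρ ^ 3 := by
    refine le_of_mul_le_mul_right ?_ s0
    have a1 := mul_le_mul hw l3 l0.le (by positivity)
    have a2 := mul_le_mul_of_nonneg_left us r3
    calc w * e * s = w * l := by rw [el]; ring
      _ ≤ _ := by linarith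
  have b : w * (R ^ 2 / (s ^ 2 * e)) ≤ 72 * ρ ^ 3 := by
    have := mul_le_mul c (pow_le_pow_left₀ R0 R3 2) (sq_nonneg R) (by positivity)
    rw [show w * (R ^ 2 / (s ^ 2 * e)) = w / (l * s) * R ^ 2 by rw [← es]; ring]
    linarith
  have f : (w * (e + R ^ 2 / (s ^ 2 * e))) ^ ((1 : ℝ) / 3) ≤ 5 * ρ := by
    have g : w * (e + R ^ 2 / (s ^ 2 * e)) ≤ (5 * ρ) ^ 3 := by rw [mul_add]; linarith
    refine (rpow_le_rpow (by positivity) g (by norm_num)).trans_eq ?_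
    rw [← rpow_natCast, ← rpow_mul (by positivity)]; norm_num
  have q : 4 * ρ ^ 3 ≤ ρ ^ 2 := by nlinarith [sq_nonneg ρ]
  have q' : 4 * ρ ^ 2 ≤ ρ := by nlinarith
  have d : √(w / l) ≤ 2 * ρ := sqrt_le_iff.2 ⟨by positivity, by
    have : w / l ≤ w / (l * s) :=
      div_le_div_of_nonneg_left w0 (by positivity) (mul_le_of_le_one_right l0.le s1)
    linarith [sq_nonneg ρ]⟩
  rw [es]
  linarith

section

variable {S : Sc} {M : Md} {m : ℕ} {a la V u2 y r q Lg E K Λ u ρ : ℝ} {k : ℕ}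
  (U : UN S M la V u2 y r q Lg E K) (W : VN S u2 y Lg u ρ)
include U W

theorem ρ0 : 0 < ρ := (pow_pos U.y0 3).trans_le W.y

theorem y6 : y ^ 6 ≤ ρ ^ 2 :=
  (show y ^ 6 = (y ^ 3) ^ 2 by ring).trans_le (pow_le_pow_left₀ (pow_pos U.y0 3).le W.y 2)

theorem uy : u ≤ y ^ 6 := W.uU.trans (U.uV.trans U.VX)

theorem uu0 : u ≤ S.u0 ^ 2 ∧ S.u0 ^ 2 ≤ S.u0 := by
  have a := U.sd.u0p
  have b := U.sd.u0_le
  have c := W.uU.trans (U.sd.nu.u2_sq.trans_eq U.sd.u0_cube.symm)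
  exact ⟨by nlinarith [sq_nonneg S.u0], by nlinarith⟩

theorem ltJ (h1 : k ≤ S.Jp) (h2 : u / 2 ≤ R62.du M k) : k < S.Jp :=
  lt_of_le_of_ne h1 fun e => by
    subst e
    have := U.sd.cl.last
    unfold R62.du at h2
    linarith [W.ue, W.u0]

theorem nd (h0 : S.J ≤ k) (h2 : u / 2 ≤ R62.du M k) : Lp86.Nd S M la V u2 S.u0 k :=
  ⟨U.sd, h0, (half_pos W.u0).trans_le h2, le_rfl, U.sd.uC⟩

theorem ds_ge (h0 : S.J ≤ k) (h2 : u / 2 ≤ R62.du M k) : u / 2 ≤ ds M S k :=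
  le_min (by linarith [(nd U W h0 h2).A0, uu0 U W, W.u0]) h2

theorem R_le : Rp M S (y ^ 6) 1 0 k + (y ^ 6) ^ ((1 : ℝ) / 3) ≤ 3 := by
  have y0 := U.y0
  have r1 : Rp M S (y ^ 6) 1 0 k ≤ y ^ 2 + 1 + 0 := by
    refine add_le_add (add_le_add ?_ (min_le_left _ _)) le_rfl
    rw [U.x3]
    refine sqrt_le_iff.2 ⟨by positivity, (div_le_div_of_nonneg_left (by positivity)
      (by positivity) (le_max_right _ _)).trans (le_of_eq ?_)⟩
    field_simp
  rw [U.x3]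
  linarith [U.y1]

theorem R0 : 0 ≤ Rp M S (y ^ 6) 1 0 k :=
  add_nonneg (add_nonneg (sqrt_nonneg _) (le_min zero_le_one (sqrt_nonneg _))) le_rfl

variable (ρ1 : 4 * ρ ≤ 1)
include ρ1

theorem ap_le (h0 : S.J ≤ k) (h2 : u / 2 ≤ R62.du M k) : ap M S (y ^ 6) 1 0 k ≤ 8 * ρ := by
  have N := nd U W h0 h2
  have u0 := W.u0
  have y0 := U.y0
  have l3 := N.L_up (half_pos u0) h2
  have d := N.dL_ge (u := u / 2) (dm := u / 8) h2 (by positivity) (by linarith [uu0 U W])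
    (by linarith) (by nlinarith [W.uU])
  exact ap_num (U.w0 one_pos).le N.den0 N.d0 N.d1 rfl u0 (ρ0 U W).le ρ1 W.w
    (add_nonneg (R0 U W) (by positivity)) (R_le U W)
    (l3.trans (by linarith [U.sd.u0_le, U.sd.nu.V1, min_le_left 1 (√u2 / √(u / 2))]))
    (ds_ge U W h0 h2) d

theorem hw (h0 : S.J ≤ k) (h2 : u / 2 ≤ R62.du M k) : S.w3 1 ≤ lsh M S k ^ 2 * ds M S k := by
  have N := nd U W h0 h2
  have a := N.sq_ge
  have b : u / 2 ≤ min (L69.du M k) u2 := le_min h2 (by linarith [W.uU, W.u0])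
  have c : ρ ^ 3 ≤ (1 / 4) ^ 3 := pow_le_pow_left₀ (ρ0 U W).le (by linarith) 3
  linarith [W.w, mul_le_mul_of_nonneg_right c W.u0.le, W.u0]

theorem far : Far M S (y ^ 6) 1 0 (u / 2) E := fun i k a b c d => by
  have e : R62.du M k ≤ R62.du M i := sub_le_sub_left (U.sd.cl.leg.zm (by omega)) 1
  have lk := (nd U W (a.trans b) d).L0
  have li := (nd U W a (le_trans d e)).L0
  have w := U.w0 one_pos
  have y0 := U.y0
  have dk := U.sd.cl.den0 (M.z (k - 1))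
  have f : S.w3 1 * S.den (M.z (i - 1)) ≤ lsh M S i ^ 3 :=
    (mul_le_mul_of_nonneg_right (hw U W ρ1 a (le_trans d e)) (U.sd.cl.den0 _).le).trans_eq
      (by unfold lsh; ring)
  have g : lsh M S i ≤ lsh M S k * max 1 (lsh M S i / lsh M S k) := by
    rw [← div_le_iff₀' lk]; exact le_max_right _ _
  rw [U.x3]
  refine (f.trans (pow_le_pow_left₀ li.le g 3)).trans ?_
  rw [mul_pow]
  refine mul_le_mul_of_nonneg_right (le_trans ?_ (le_mul_of_one_le_left (by positivity) U.E1))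
    (by positivity)
  nlinarith [mul_pos w dk, mul_pos (pow_pos y0 2) (pow_pos lk 2)]

theorem np : Np M S (y ^ 6) 1 0 (u / 2) E 2 ≤ (13 * E * Lg * ρ) ^ 2 := by
  have u0 := W.u0
  have y0 := U.y0
  have E1 := U.E1
  have L1 := U.L1
  have p0 := ρ0 U W
  have P := R62.K17.sp_of U.sd (u1 := u / 2) (Λ := Lg)
    (by linarith [U.v, U.sd.nu.u2l, mul_pos U.sd.cl.C0 U.sd.cl.v0]) (by positivity)
    (by linarith [W.uU])
    (le_trans (mul_le_mul_of_nonneg_left (log_le_log (by positivity) (by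
      rw [one_div_div, add_le_add_iff_left]
      exact div_le_div_of_nonneg_right (by norm_num) u0.le)) two_pos.le) W.lg)
  have A0 : 0 ≤ 73 * E ^ 2 * ρ ^ 2 := by positivity
  have s := P.sum_le (f := fun k => 73 * E ^ 2 * ρ ^ 2 / R62.dl S M k +
    73 * E ^ 2 * ρ ^ 2 / R62.du M k) A0 A0 fun _ _ => le_rfl
  have t : Np M S (y ^ 6) 1 0 (u / 2) E 2 ≤ u / 2 + ∑ k ∈ pl S M (u / 2), lw M k *
      (73 * E ^ 2 * ρ ^ 2 / R62.dl S M k + 73 * E ^ 2 * ρ ^ 2 / R62.du M k) := by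
    refine add_le_add le_rfl ((sum_le_sum fun k hk => ?_).trans
      (sum_le_sum_of_subset_of_nonneg (fun k hk => ?_) fun k hk _ => ?_))
    · obtain ⟨b, c⟩ := mem_filter.1 hk
      change u / 2 ≤ R62.du M k at c
      obtain ⟨b0, b1⟩ := mem_Icc.1 b
      refine mul_le_mul_of_nonneg_left ?_ (dx_nn U.sd.cl k)
      have N := nd U W b0 c
      have dl := U.sd.dl0 b0
      have du : 0 < R62.du M k := by linarith
      have s0 : 0 < min (R62.dl S M k) (R62.du M k) := N.d0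
      have s1 := min_le_left (R62.dl S M k) (R62.du M k)
      have s2 := min_le_right (R62.dl S M k) (R62.du M k)
      have s4 : min (R62.dl S M k) (R62.du M k) ≤ 1 := N.d1
      have s3 : 73 * E ^ 2 * ρ ^ 2 / min (R62.dl S M k) (R62.du M k) ≤
          73 * E ^ 2 * ρ ^ 2 / R62.dl S M k + 73 * E ^ 2 * ρ ^ 2 / R62.du M k := by
        rcases min_choice (R62.dl S M k) (R62.du M k) with e | e <;> rw [e] <;>
          linarith [div_nonneg A0 dl.le, div_nonneg A0 du.le]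
      have mu : min 1 (√(y ^ 6 / R62.du M k)) ≤ y ^ 3 / √(min (R62.dl S M k) (R62.du M k)) := by
        refine (min_le_right _ _).trans ?_
        rw [sqrt_div' _ du.le, show y ^ 6 = (y ^ 3) ^ 2 by ring, sqrt_sq (by positivity)]
        exact div_le_div_of_nonneg_left (by positivity) (sqrt_pos.2 s0) (sqrt_le_sqrt s2)
      have r0 := R0 U W (k := k)
      have r1 : Rp M S (y ^ 6) 1 0 k ≤ 2 * (y ^ 3 / √(min (R62.dl S M k) (R62.du M k))) +
          y ^ 3 / √(min (R62.dl S M k) (R62.du M k)) + 0 := by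
        refine add_le_add (add_le_add ?_ mu) le_rfl
        have x0 : S.u0 ≤ y ^ 2 := by
          refine le_of_pow_le_pow_left₀ three_ne_zero (by positivity) ?_
          rw [U.sd.u0_cube]; linarith [U.laX, U.VX]
        have x1 : min (R62.dl S M k) (R62.du M k) / 2 ≤
            max (L69.dl M S k - S.u0) ((y ^ 6) ^ ((1 : ℝ) / 3)) := by
          rw [U.x3]
          have := le_max_left (L69.dl M S k - S.u0) (y ^ 2)
          have := le_max_right (L69.dl M S k - S.u0) (y ^ 2)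
          linarith [show L69.dl M S k = R62.dl S M k from rfl]
        refine sqrt_le_iff.2 ⟨by positivity, (div_le_div_of_nonneg_left (by positivity)
          (by positivity) x1).trans ?_⟩
        rw [mul_pow, div_pow, sq_sqrt s0.le, div_div_eq_mul_div, ← mul_div_assoc]
        exact div_le_div_of_nonneg_right (by nlinarith [pow_pos y0 6]) s0.le
      have ha := ap_le U W ρ1 b0 c
      have a0 : 0 ≤ ap M S (y ^ 6) 1 0 k := by
        have := U.w0 one_pos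
        have := N.den0
        have := N.d0
        have := N.L0
        unfold ap; positivity
      have e2 : (y ^ 3 / √(min (R62.dl S M k) (R62.du M k))) ^ 2 ≤
          ρ ^ 2 / min (R62.dl S M k) (R62.du M k) := by
        rw [div_pow, sq_sqrt s0.le]
        exact div_le_div_of_nonneg_right (pow_le_pow_left₀ (by positivity) W.y 2) s0.le
      have e3 : ρ ^ 2 ≤ ρ ^ 2 / min (R62.dl S M k) (R62.du M k) :=
        le_div_self (sq_nonneg ρ) s0 s4
      have E23 : E ^ ((2 : ℝ) / 3) ≤ E :=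
        (rpow_le_rpow_of_exponent_le E1 (by norm_num)).trans_eq (rpow_one E)
      have c1 := pow_le_pow_left₀ (by positivity) (mul_le_mul E23 ha a0 (by linarith)) 2
      have c2 := (min_le_left _ (√(S.w3 1 / (S.den (M.z (k - 1)) * L69.ds M S k ^ 2)) *
        Rp M S (y ^ 6) 1 0 k ^ (((2 : ℕ) : ℝ) - 1 / 2))).trans
          ((div_le_self (sq_nonneg _) E1).trans
          (pow_le_pow_left₀ r0 (show Rp M S (y ^ 6) 1 0 k ≤
            3 * (y ^ 3 / √(min (R62.dl S M k) (R62.du M k))) by linarith) 2))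
      refine (add_le_add c1 c2).trans (le_trans ?_ s3)
      rw [mul_pow, mul_pow, mul_pow, mul_div_assoc]
      have z0 : 0 ≤ ρ ^ 2 / min (R62.dl S M k) (R62.du M k) := by positivity
      linarith [mul_le_mul_of_nonneg_right (one_le_pow₀ (n := 2) E1) z0,
        mul_le_mul_of_nonneg_left e3 (sq_nonneg E)]
    · obtain ⟨b, c⟩ := mem_filter.1 hk
      obtain ⟨b0, b1⟩ := mem_Icc.1 b
      exact mem_filter.2 ⟨mem_Ico.2 ⟨b0, ltJ U W b1 c⟩, c⟩
    · obtain ⟨b0, b1, -⟩ := SD.mem_pl hk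
      have := U.sd.dl0 b0
      have := U.sd.du0 b0 b1
      exact mul_nonneg (dx_nn U.sd.cl k) (by positivity)
  have z : 1 ≤ E ^ 2 * Lg := one_le_mul_of_one_le_of_one_le (one_le_pow₀ E1) L1
  have z1 := mul_le_mul_of_nonneg_right z (sq_nonneg ρ)
  have z2 := mul_le_mul_of_nonneg_left L1 (show 0 ≤ E ^ 2 * Lg * ρ ^ 2 by positivity)
  have z3 : 0 ≤ E ^ 2 * Lg * ρ ^ 2 := by positivity
  linarith [uy U W, y6 U W,
    show (13 * E * Lg * ρ) ^ 2 = 169 * (E ^ 2 * Lg * ρ ^ 2 * Lg) by ring]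

omit ρ1 in
theorem apr (hm : 0 < m) (hΦ : Tot S M m a ≤ y ^ 6) :
    Ap S M m a (y ^ 2) (y ^ 6) (y ^ 6) 1 (u / 2) (3 * y ^ 3) := by
  have A := U.apr (Vt := 1) (u1 := u2 / 2) le_rfl hΦ fun k _ _ _ => U.del1 hm k
  refine ⟨A.all, A.top, fun k _ _ _ => U.del1 hm k, A.j0, A.jn.dj1, A.jn.dj2, A.jn.u03,
    fun k a b d => ?_⟩
  have g := U.sd.ls_ge a (ltJ U W b d)
  have := mul_le_mul_of_nonneg_left g (Nat.cast_nonneg (α := ℝ) S.n)
  change 1 ≤ S.n * ls S M k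
  linarith [U.nu]

omit ρ1 in
/-- the node at half the distance to the top, and the clock up to it -/
theorem half (h0 : S.J ≤ k) (h1 : k ≤ S.Jp) (hu : u ≤ R62.du M k) :
    ∃ k', k ≤ k' ∧ k' ≤ S.Jp ∧ R62.du M k' ≤ R62.du M k / 2 ∧
      ((k' : ℝ) - S.J) * S.v ≤ 9 * S.C * Lg := by
  have D := U.sd
  have u0 := W.u0
  have tp : R62.du M S.Jp ≤ R62.du M k / 2 := by
    linarith [D.cl.last, show R62.du M S.Jp = 1 - M.z (S.Jp - 1) from rfl, W.ue]
  have ex : ∃ k', k ≤ k' ∧ R62.du M k' ≤ R62.du M k / 2 := ⟨S.Jp, h1, tp⟩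
  classical
  obtain ⟨a1, a2⟩ := Nat.find_spec ex
  have a3 : Nat.find ex ≤ S.Jp := Nat.find_min' ex ⟨h1, tp⟩
  have a4 : k < Nat.find ex := lt_of_le_of_ne a1 fun e => by rw [← e] at a2; linarith
  have a5 := Nat.find_min ex (show Nat.find ex - 1 < Nat.find ex by omega)
  set q := Nat.find ex
  have a6 : R62.du M k / 2 < R62.du M (q - 1) := not_le.1 fun e => a5 ⟨by omega, e⟩
  have s := (le_min_iff.1 (step D U.v (i := q - 1) (by omega) (by omega))).2
  have a7 : u / 4 ≤ 1 - M.z (q - 1) := by unfold R62.du at *; linarith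
  refine ⟨q, a1, a3, a2, (clock D U.v (by omega) a3).2.trans ?_⟩
  have lp := D.nu.lp
  have Vp := D.nu.Vp
  have sp := D.nu.sp
  have up : 0 < 1 - M.z (q - 1) := by linarith
  have su := sqrt_pos.2 up
  have u1 : u ≤ 1 := by linarith [uu0 U W, D.u0_le]
  have b1 : u / 4 ≤ √(1 - M.z (q - 1)) := le_sqrt_of_sq_le (by nlinarith)
  have b2 : 1 / √(1 - M.z (q - 1)) ≤ 4 / u := by
    rw [div_le_div_iff₀ su u0]; linarith
  have l0 : 0 ≤ log (1 + 4 / u) := log_nonneg (le_add_of_nonneg_right (by positivity))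
  have c1 : ft V la (1 - M.z (q - 1)) ≤ Lg := by
    have : la / (V * √(1 - M.z (q - 1))) ≤ 1 / √(1 - M.z (q - 1)) := by
      rw [div_le_div_iff₀ (by positivity) su]
      linarith [mul_le_mul_of_nonneg_right D.nu.lV su.le]
    have e := log_le_log (x := 1 + la / (V * √(1 - M.z (q - 1)))) (y := 1 + 4 / u)
      (by positivity) (by linarith)
    exact (mul_le_mul D.nu.V1 e (log_nonneg (le_add_of_nonneg_right (by positivity)))
      zero_le_one).trans (by linarith [W.lg])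
  have c2 : ft 1 (√u2) (1 - M.z (q - 1)) ≤ Lg := by
    have : √u2 / (1 * √(1 - M.z (q - 1))) ≤ 1 / √(1 - M.z (q - 1)) := by
      rw [one_mul]; exact div_le_div_of_nonneg_right D.nu.s1 su.le
    have e := log_le_log (x := 1 + √u2 / (1 * √(1 - M.z (q - 1)))) (y := 1 + 4 / u)
      (by positivity) (by linarith)
    unfold ft
    linarith [W.lg]
  have c3 := ft_nn Vp lp.le (1 - M.z (S.J - 1))
  have c4 := ft_nn one_pos sp.le (1 - M.z (S.J - 1))
  have c5 : 0 ≤ fb la (M.z (q - 1) - M.z (S.J - 1) + S.u0) := by unfold fb; positivity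
  have c6 : fb la (M.z (S.J - 1) - M.z (S.J - 1) + S.u0) = S.u0 := by
    rw [sub_self, zero_add]; exact D.fb_u0
  have c7 : rho (M.z (S.J - 1)) S.u0 la V u2 0 (M.z (q - 1)) -
      rho (M.z (S.J - 1)) S.u0 la V u2 0 (M.z (S.J - 1)) ≤ 3 * Lg := by
    unfold rho
    linarith [D.u0_le, U.L1]
  linarith [mul_le_mul_of_nonneg_left c7 D.cl.C0.le]

omit ρ1 in
theorem clk {k' : ℕ} (h0 : S.J ≤ k') (h1 : k' ≤ S.Jp)
    (h : ((k' : ℝ) - S.J) * S.v ≤ 9 * S.C * Lg) : √(M.H k' - M.H S.J) ≤ 3 * S.C * Lg * ρ := by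
  have c := U.sd.cl
  have θ0 := c.θ0
  have C0 := c.C0
  have L1 := U.L1
  have p0 := ρ0 U W
  have a := (U.ce.toG c).pl S.J k' le_rfl h0 h1
  rw [U.F1] at a
  refine sqrt_le_iff.2 ⟨by positivity, ?_⟩
  have b1 := mul_le_mul_of_nonneg_left h (mul_pos C0 θ0).le
  have b2 := mul_le_mul W.θ (le_self_pow₀ L1 two_ne_zero) (by linarith) (sq_nonneg ρ)
  linarith [mul_le_mul_of_nonneg_left b2 (sq_nonneg S.C)]

end

/-- **one pass of `TLt` from `Vt = 1`** -/
theorem vt_cl (T : L69.TLt) : CL fun E Λ S M m a => ∀ la V u2 y r q Lg K u ρ,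
    UN S M la V u2 y r q Lg E K → VN S u2 y Lg u ρ → Tot S M m a ≤ y ^ 6 →
    ∀ k, S.J ≤ k → k ≤ S.Jp → u ≤ L69.du M k → M.del m a k ≤ 10 * S.C * (Λ * E * Lg) * ρ :=
  CL.mono T fun E Λ S M m a E1 Λ1 c I T la V u2 y r q Lg K u ρ U W hΦ k k0 k1 hu => by
    have y0 := U.y0
    have u0 := W.u0
    have p0 := ρ0 U W
    have L1 := U.L1
    have C4 := U.sd.C4
    have hm : 0 < m := c.n1.trans I.m1
    have p1 : 1 ≤ E * Lg := one_le_mul_of_one_le_of_one_le E1 L1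
    have p2 : E ≤ E * Lg := le_mul_of_one_le_right (by linarith) L1
    have p3 : Lg ≤ E * Lg := le_mul_of_one_le_left (by linarith) E1
    rcases le_total 1 (4 * ρ) with ρ1 | ρ1
    · have P1 : 1 ≤ Λ * E * Lg := by rw [mul_assoc]; exact one_le_mul_of_one_le_of_one_le Λ1 p1
      have := mul_le_mul_of_nonneg_right (mul_le_mul C4 P1 zero_le_one (by linarith)) p0.le
      linarith [U.del1 (a := a) hm k]
    have yC : y ^ 2 ≤ S.C := U.y1.trans c.C1
    have EX : E * y ^ 6 ≤ 1 := le_trans (mul_le_mul_of_nonneg_left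
      (pow_le_pow_of_le_one y0.le U.y1' (by norm_num)) (by linarith)) U.Ey
    have X8 : 8 * y ^ 6 ≤ (13 * E * Lg * ρ) ^ 2 := by
      linarith [mul_le_mul_of_nonneg_right (one_le_pow₀ (n := 2) p1) (sq_nonneg ρ), y6 U W,
        sq_nonneg ρ, show (13 * E * Lg * ρ) ^ 2 = 169 * ((E * Lg) ^ 2 * ρ ^ 2) by ring]
    obtain ⟨j, j0, j1, j2, j3⟩ := half U W k0 k1 hu
    have t := T (y ^ 2) (y ^ 6) (y ^ 6) 1 _ (u / 2) _ 0 E U.HJ (by positivity) EX (by positivity)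
      EX zero_le_one U.jl (by
        refine le_of_pow_le_pow_left₀ two_ne_zero (by positivity) ?_
        refine le_of_mul_le_mul_left ?_ (pow_pos (pow_pos y0 2) 3)
        exact (U.w3 _ le_rfl yC).trans_eq (by ring)) U.Ey (by
        rw [U.cl_eq le_rfl yC]
        nlinarith [pow_pos y0 6])
      (fun t a b => (min_le_right _ _).trans ((U.x2b t a b).trans X8))
      U.sd.u0p U.rev (by linarith [W.ue])
      ((mul_le_mul_of_nonneg_left (by linarith [uy U W]) (by linarith)).trans EX)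
      (by rw [U.flat _ c.i3 le_rfl, sub_self]) (by simp) le_rfl U.En (far U W ρ1) (np U W ρ1)
      (apr U W hm hΦ) k k0 k1 (by linarith) j j0 j1 j2
    have b := (min_le_left _ (S.F * (M.H j - M.H S.J) / S.θ)).trans (clk U W (k0.trans j0) j1 j3)
    have e := mul_le_mul p2 (ap_le U W ρ1 k0 (show u / 2 ≤ L69.du M k by linarith))
      (by
        have N := nd U W k0 (show u / 2 ≤ L69.du M k by linarith)
        have := U.w0 one_pos
        have := N.den0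
        have := N.d0
        have := N.L0
        have := R0 U W (k := k)
        unfold ap; positivity) (by linarith)
    have d : 1 / √(S.n : ℝ) ≤ V := by
      have n0 : (0 : ℝ) < S.n := c.N0
      rw [div_le_iff₀ (sqrt_pos.2 n0), ← div_le_iff₀' U.V0]
      exact le_sqrt_of_sq_le (by
        rw [div_pow, one_pow, div_le_iff₀ (pow_pos U.V0 2)]; exact U.nV)
    rw [sqrt_sq (by positivity)] at t
    refine t.trans ?_
    rw [show 10 * S.C * (Λ * E * Lg) * ρ = Λ * (10 * S.C * (E * Lg * ρ)) by ring]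
    refine mul_le_mul_of_nonneg_left ?_ (by linarith)
    have z1 := mul_le_mul_of_nonneg_right p1 p0.le
    have z2 := mul_le_mul_of_nonneg_right p3 (show 0 ≤ S.C * ρ by positivity)
    have z3 := mul_le_mul_of_nonneg_right C4 (show 0 ≤ E * Lg * ρ by positivity)
    linarith [U.VB, W.y]

end Crest.Agent.T156.Alt.Vt18

end
end

-- ▼ part T156/VtG_18

/-!
# Row 156 (helper18): the a priori location `Ap.vt` on the graded path
-/

set_option autoImplicit false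
set_option linter.unusedSectionVars false

noncomputable section

namespace Crest.Agent.T156.Alt.Vt18

open Real Finset Plt13 Mem37
open Crest.Agent.T156.Alt.Kn72 (nu)
open Crest.Agent.T156.Alt.Lk37
open Crest.Agent.T156.Alt.R77 (Dt OnG)

/-- free cut `u` and free size `ρ` -/
def VtF : Dt := fun p σ t S M => ∀ m a, S.In m a → M.Phi S m a ≤ p.PhN t →
  ∀ u ρ, 1 / (p.n : ℝ) ≤ u → u ≤ p.u1N σ → p.wL t ≤ ρ ^ 3 * u → p.Vc (nu p σ) ≤ ρ →
    √(p.PhN t) ≤ ρ → p.muG t ≤ ρ ^ 2 → ∀ k, S.J ≤ k → k ≤ S.Jp → u ≤ L69.du M k →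
      M.del m a k ≤ (p.n : ℝ) ^ (p.c / 400) * ρ

/-- the cut `u1N n^{-1/100}` -/
def VtX : Dt := fun p σ t S M => ∀ m a, S.In m a → M.Phi S m a ≤ p.PhN t →
  logb p.n (p.muG t) ≤ -(1 / 5) → -(1 / 3) - 4 * p.c ≤ logb p.n (p.muG t) →
  ∀ k, S.J ≤ k → k ≤ S.Jp → p.u1N σ * (p.n : ℝ) ^ (-(1 / 100 : ℝ)) ≤ L69.du M k →
    M.del m a k ≤ (p.n : ℝ) ^ (-(1 / 20 : ℝ))

variable {β c0 C0 c0' C0' η' : ℝ} {A : ℕ} {c η K K' : ℝ} {p : Pm} {σ t : ℝ} {Q : Pl}

theorem vn_gst (H : Reg β c0 C0 A c η K' p) (G : GrD K c0' C0' η' p σ t Q) (n5 : (5 : ℝ) ≤ p.n)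
    {u ρ y : ℝ} (h1 : 1 / (p.n : ℝ) ≤ u) (h2 : u ≤ p.u1N σ) (h3 : p.wL t ≤ ρ ^ 3 * u)
    (h4 : y ^ 3 ≤ ρ) (h5 : p.muG t ≤ ρ ^ 2) :
    VN (p.scG K σ t Q) (p.u2 (nu p σ)) y (4 * log p.n) u ρ := by
  have N0 := H.N0
  have u0 : 0 < u := lt_of_lt_of_le (by positivity) h1
  refine ⟨u0, h2, ?_, ?_, (Lx13.w_eq G).trans_le h3, h4, (Lx13.θ_eq G).trans_le h5⟩
  · change 4 * (p.n : ℝ) ^ (-(2 : ℝ)) ≤ _
    refine le_trans ?_ h1
    rw [rpow_neg N0.le, rpow_two, ← div_eq_mul_inv, div_le_div_iff₀ (by positivity) N0]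
    nlinarith
  · have a : 4 / u ≤ 4 * p.n := by
      rw [div_le_iff₀ u0]; rw [div_le_iff₀ N0] at h1; linarith
    have b := log_le_log (by positivity) (show 1 + 4 / u ≤ (p.n : ℝ) ^ 2 by nlinarith)
    rw [log_pow] at b
    push_cast at b
    linarith

/-- **the pre-pass** -/
theorem vtF (hβ : 1 < β) (T : L69.TLt) : OnG VtF β := fun K k1 =>
  Sml.glueCL (P := fun _ _ => True) (Q := fun _ _ => True) hβ
    (fun _ _ _ _ => ⟨1, le_rfl, fun _ _ _ _ _ => .of_forall fun _ _ _ _ _ _ _ => trivial⟩)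
    Sml.triv (vt_cl T) (fun _ => 8 * K ^ 2) (fun c => c / 20000) (fun c hc => by positivity)
    fun _ _ c0 C0 _ _ => ⟨0, fun A _ => ⟨1 / 1000, by norm_num, fun c hc c' =>
      ⟨c / 100000, by positivity, fun η hη _ => ⟨5 * (406 + 8 * K),
        fun p H _ _ L c0' C0' η' σ t Q o G X m a I hΦ u ρ h1 h2 h3 h4 h5 h6 k k0 k2 hu => by
          have e : 100000 * η ≤ c := by linarith
          have U := un_gst H o G X e hc H.K_le
          have l := L _ _ rfl rfl rfl G.cl.1 m a I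
          rw [H.hc] at l
          have V0 := U.V0
          have P0 := Kn17.PhN0 H (Gr29.oct_mem o).2
          have s0 := sqrt_nonneg (p.PhN t)
          have y3 := cube3 (le_max_of_le_left V0.le : 0 ≤ max (p.Vc (nu p σ)) √(p.PhN t))
          have n5 : (5 : ℝ) ≤ p.n := by
            have a := rpow_le_rpow_of_exponent_le H.N1.le (show η ≤ 1 by linarith)
            rw [rpow_one] at a
            linarith [H.K_le]
          have b := l _ _ _ _ _ _ _ _ u ρ U (vn_gst H G n5 h1 h2 h3 (y3.trans_le (max_le h4 h5)) h6)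
            (hΦ.trans (by
              rw [show 6 = 3 * 2 from rfl, pow_mul, y3]
              exact (sq_sqrt P0.le).ge.trans (pow_le_pow_left₀ s0 (le_max_right _ _) 2)))
            k k0 k2 hu
          rw [H.hc]
          refine b.trans (mul_le_mul_of_nonneg_right (le_trans ?_ (loss_le H G e)) (s0.trans h5))
          have C1 := G.cl.1.C1
          have N0 := H.N0
          have g := H.log1
          exact mul_le_mul_of_nonneg_right (by linarith [le_self_pow₀ C1 four_ne_zero])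
            (by positivity)⟩⟩⟩⟩

theorem OnG.mp {X Y : Dt} (h : OnG (fun p σ t S M => X p σ t S M → Y p σ t S M) β)
    (h' : OnG X β) : OnG Y β := fun K k =>
  ((h K k).and (h' K k)).mono fun _ _ e c0 C0 η σ t Q a b c =>
    e.1 c0 C0 η σ t Q a b c (e.2 c0 C0 η σ t Q a b c)

theorem x_of (X : Nr44.Cx β c0 C0 A c η K' p σ t) (G : GrD K c0' C0' η' p σ t Q)
    (hη : 100000 * η ≤ c) (h : VtF p σ t (p.scG K σ t Q) (p.gst Q t)) :
    VtX p σ t (p.scG K σ t Q) (p.gst Q t) := fun m a I hΦ a1 a2 k k0 k1 hu => by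
  have H := X.H
  have L := Lx13.lg_gst X G
  have N0 := H.N0
  have c0 := H.c_pos
  have c1 := X.hc
  have θ0 := X.θ0
  have u0 : 0 < p.u1N σ := H.u20 (Kn72.nu0 H X.o)
  have V0 : 0 < p.Vc (nu p σ) := (Kn72.sd_gst H X.o G).nu.Vp
  have P0 := Kn17.PhN0 H X.Mt
  have f5 := (Kn17.lg_PhN H hη X.Mt).2.2.2.2
  have e1 := H.lg_n
  have U1 := (Kn72.lg_u2_bds H X.o).1
  obtain ⟨ν1, ν2⟩ := L.ν1
  have pl := L.pl
  rw [H.hc] at a2
  change -(5 / 6) ≤ logb p.n (p.u1N σ) at U1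
  rw [show p.u2 (nu p σ) = p.u1N σ from rfl] at pl
  have b := h m a I hΦ _ ((p.n : ℝ) ^ (-(1 / 20) - c / 400)) ?_ ?_ ?_ ?_ ?_ ?_ k k0 k1 hu
  · rw [H.hc, ← rpow_add N0] at b
    exact b.trans_eq (by congr 1; ring)
  · refine H.le_of_lg (by positivity) (by positivity) ?_
    lg_norm; rw [e1]; linarith
  · exact mul_le_of_le_one_right u0.le (rpow_le_one_of_one_le_of_nonpos H.N1.le (by norm_num))
  · unfold Pm.wL
    refine H.le_of_lg (by positivity) (by positivity) ?_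
    lg_norm; rw [e1]
    rcases pl with ⟨_, _, _, _⟩ | ⟨_, _, _, _⟩ <;> linarith
  · refine H.le_of_lg V0 (by positivity) ?_
    rw [H.lg_rp]
    rcases pl with ⟨_, _, _, _⟩ | ⟨_, _, _, _⟩ <;> linarith
  · refine H.le_of_lg (by positivity) (by positivity) ?_
    lg_norm; rw [e1]; linarith
  · refine H.le_of_lg θ0 (by positivity) ?_
    lg_norm; rw [e1]; linarith

theorem l_of (X : Nr44.Cx β c0 C0 A c η K' p σ t) (G : GrD K c0' C0' η' p σ t Q)
    (h : VtF p σ t (p.scG K σ t Q) (p.gst Q t)) {m : ℕ} {a : ℝ} (I : (p.scG K σ t Q).In m a)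
    (hΦ : (p.gst Q t).Phi (p.scG K σ t Q) m a ≤ p.PhN t) (k : ℕ) (k0 : (p.scG K σ t Q).J ≤ k)
    (k1 : k ≤ (p.scG K σ t Q).Jp) (hu : p.uL t ≤ L69.du (p.gst Q t) k) :
    (p.gst Q t).del m a k ≤ p.VL σ t := by
  have H := X.H
  have L := Lx13.lg_gst X G
  have N0 := H.N0
  have c0 := H.c_pos
  have c1 := X.hc
  have θ0 := X.θ0
  have u0 : 0 < p.u1N σ := H.u20 (Kn72.nu0 H X.o)
  have e1 := H.lg_n
  have x0 : 0 < p.xM t := lt_max_of_lt_left one_pos
  have x1 : logb p.n (p.xM t) = max 0 (logb p.n (p.muG t) + 1 / 3) := by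
    rw [Pm.xM, lg_max H.N1 one_pos (by positivity), logb_one,
      logb_mul θ0.ne' (by positivity), H.lg_rp]
  have uL0 : 0 < p.uL t := by unfold Pm.uL; positivity
  have uL1 : logb p.n (p.uL t) = -(51 : ℝ) / 100 - max 0 (logb p.n (p.muG t) + 1 / 3) := by
    rw [Pm.uL, logb_div (by positivity) x0.ne', H.lg_rp, x1]
  have w0 : 0 < p.wL t := by unfold Pm.wL; positivity
  have m1 := le_max_left 0 (logb p.n (p.muG t) + 1 / 3)
  have m2 := le_max_right 0 (logb p.n (p.muG t) + 1 / 3)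
  have m3 : max 0 (logb p.n (p.muG t) + 1 / 3) ≤ 1 / 3 :=
    max_le (by norm_num) (by linarith [L.μ1.2])
  have pl := L.pl
  rw [show p.u2 (nu p σ) = p.u1N σ from rfl] at pl
  have r0 : 0 ≤ (p.wL t / p.uL t) ^ ((1 : ℝ) / 3) := by positivity
  obtain ⟨ρ, hρ⟩ : ∃ ρ, ρ = max (max ((p.wL t / p.uL t) ^ ((1 : ℝ) / 3)) √(p.muG t))
    (max √(p.PhN t) (p.Vc (p.mt (p.muG σ)))) := ⟨_, rfl⟩
  have r1 : (p.wL t / p.uL t) ^ ((1 : ℝ) / 3) ≤ ρ := hρ ▸ le_max_of_le_left (le_max_left _ _)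
  have r2 : √(p.muG t) ≤ ρ := hρ ▸ le_max_of_le_left (le_max_right _ _)
  have b := h m a I hΦ (p.uL t) ρ ?_ ?_ ?_ (hρ ▸ le_max_of_le_right (le_max_right _ _))
    (hρ ▸ le_max_of_le_right (le_max_left _ _))
    ((sq_sqrt θ0.le).ge.trans (pow_le_pow_left₀ (sqrt_nonneg _) r2 2)) k k0 k1 hu
  · rw [Pm.VL, ← hρ]
    refine b.trans (mul_le_mul_of_nonneg_right ?_ (r0.trans r1))
    rw [Pm.nc, H.hc]
    exact rpow_le_rpow_of_exponent_le H.N1.le (by linarith)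
  · refine H.le_of_lg (by positivity) uL0 ?_
    rw [uL1]; lg_norm; rw [e1]; linarith
  · refine H.le_of_lg uL0 u0 ?_
    rw [uL1]
    rcases le_max_iff.1 L.ν2 with q | q <;> rcases pl with ⟨_, _, _, _⟩ | ⟨_, _, _, _⟩ <;> linarith
  · rw [← div_le_iff₀ uL0]
    exact (cube3 (by positivity)).ge.trans (pow_le_pow_left₀ r0 r1 3)

/-- **the leaf `Vtx`** -/
theorem vtx (hβ : 1 < β) (T : L69.TLt) : OnG R77.Vtx β :=
  OnG.mp (Nr44.onG_cx hβ (fun _ => 1) fun _ _ _ _ _ _ _ _ _ _ _ _ _ _ _ X _ G _ h _ _ _ _ I hΦ =>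
    l_of X G h I hΦ) (vtF hβ T)

/-- **the cut `u1N n^{-1/100}`** -/
theorem vtX (hβ : 1 < β) (T : L69.TLt) : OnG VtX β :=
  OnG.mp (fun _ _ => Sml.glue' (P := fun _ _ => True) hβ Sml.triv 0 (c1 := 1 / 2000)
    (by norm_num) 100000 fun _ _ _ c η _ _ _ _ => ⟨1, fun p H _ hc hη _ _ _ _ σ t Q o G _ h =>
      have e : (100000 : ℝ) * η ≤ c := by exact_mod_cast hη
      x_of ⟨H, hc, by linarith [H.η_pos], o⟩ G e h⟩) (vtF hβ T)

end Crest.Agent.T156.Alt.Vt18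

end
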