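import Crest.Agent.T156.LPa_72_Mg
import Crest.Agent.T156.HyD_77
import Crest.Agent.T156.R1LocB_77
import Crest.Agent.T156.LNy_97
import Crest.Agent.T156.LNt_97_Mg
import Crest.Agent.T156.VtG_18
import Crest.Agent.T156.R1Tp_4
import Crest.Agent.T156.TLp_62
import Crest.Agent.T156.TLqD_53
import Crest.Agent.T156.TL2D_63
import Crest.Agent.T156.ClReg_29
import Crest.Agent.T156.SRDef_19
import Crest.Agent.T156.HyA_4
import Crest.Agent.T156.HyF_43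
import Crest.Agent.T156.LPu_3
import Crest.Agent.T156.LT2x_52
import Crest.Agent.T156.LtK_15
import Crest.Agent.T156.KnG_17
import Crest.Agent.T156.LPg_86
import Crest.Agent.T156.LPq_3
import Crest.Agent.T156.NRn_44
import Crest.Agent.T156.TpR_66
import Crest.Agent.T156.NbT_44
import Crest.Agent.T156.SrP_66

-- ▼ part T156/LPw_13
section

/-!
# Row 156 (helper13): the leaf `R77.LPx`
-/

set_option autoImplicit false
set_option linter.unusedSectionVars false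

noncomputable section

namespace Crest.Agent.T156.Alt.Lx13

open Real Tr3 Lq3 Lp86 Kn72 L69 R77

variable {β c0 C0 c0' C0' η' : ℝ} {A : ℕ} {c η K K' : ℝ} {p : Pm} {σ t y : ℝ} {Q : Pl}
  (X : Nr44.Cx β c0 C0 A c η K' p σ t) (G : GrD K c0' C0' η' p σ t Q) (nd : p.Need t)
include X G nd

theorem ltL_le : p.ltL t ≤ 1 := by
  have H := B.of X.H
  have f := Lc85.facts (σ := σ) X nd
  refine max_le (H.le (H.mul (t_nc X _).1 (H.rpw (H.ul X.Ph0) _)) B.done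
    (by linarith [f.φ1, f.c1])) ?_
  have k : p.κ ^ 10 ≤ 1 := pow_le_one₀ X.H.κ0.le (rpow_le_one_of_one_le_of_nonpos H.n1.le
    (by rw [X.H.hc]; linarith [f.c0]))
  linarith [min_le_right (p.yL t) (p.κ ^ 10)]

/-- the residual size at the top -/
theorem eta1 : U p.n (etaL p σ t (p.scG K σ t Q) 1) (-(2 / 5)) := by
  have H := B.of X.H
  obtain ⟨c0, c1, η0, η1, μ0, μ1, -, -, -, φ1, -, -⟩ := Lc85.facts (σ := σ) X nd
  have cl := G.cl.1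
  have e : (p.scG K σ t Q).ms 1 = p.muG t := G.top
  obtain ⟨w, q, -⟩ := Ln97.lg_W X.H cl rfl rfl one_pos (by
    rw [e, one_pow]; exact H.le (H.ul X.θ0) B.done (by linarith))
  rw [e] at w q
  rw [logb_one] at w
  have uW := H.mono (H.ul (Tn15.W0 cl one_pos)) (show _ ≤ -(21 / 100 : ℝ) by linarith)
  have uP := H.mono (H.ul (Tn15.P0 cl one_pos)) (show _ ≤ -(66 / 100 : ℝ) by linarith)
  have L : U p.n p.LgL (1 / 1000) := H.mono (H.pow (t_nc X _).1 2) (by push_cast; linarith)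
  have χ := Lc85.uX2 X nd
  have c8 := H.mul (H.cst (y := 8) (by norm_num) (by norm_num)) uP
  have p1 := H.pc (c := -(2 / 5)) (H.mul (H.pow L 6) (H.pow uW 3)) (by push_cast; linarith)
  have p2 := H.pc (c := -(2 / 5)) (H.mul (H.pow L 4) (H.div (H.up (-(2 : ℝ) / 3)) B.done))
    (by push_cast; linarith)
  have p3 := H.pc (c := -(2 / 5)) (H.mul (H.add3 (c := -(28 / 100)) (H.sqrt (H.mul L uP))
    (Lc85.uG0 (σ := σ) X nd) χ (by linarith) (by linarith) (by linarith))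
    (H.add (c := -(14 / 100)) (H.mul (H.pow L 2) uW) (H.sqrt χ) (by push_cast; linarith)
      (by linarith))) (by linarith)
  have p4 := H.pc (c := -(2 / 5)) (Lc85.uX3 X nd) (by linarith)
  have p5 := H.pc (c := -(2 / 5)) (H.div B.one B.dn) (by linarith)
  have p6 := H.pc (c := -(2 / 5)) c8 (by linarith)
  have p7 := H.pc (c := -(2 / 5)) (H.mul (H.rpw c8 ((1 : ℝ) / 7)) (H.rpw (H.mul (H.mul
    (H.cst (y := 2) (by norm_num) (by norm_num)) uW) (H.ul X.Ph0)) ((6 : ℝ) / 7))) (by linarith)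
  rw [etaL, Ln97.eta_eq (ltL_le X G nd), Ln97.e2, Tn15.e0]
  change U p.n (_ + _ + _ + _ + 1 / (p.n : ℝ) + _) _
  exact H.tot 7 (by linarith) (by linarith)

/-- **`LP` on `LtD_29`** -/
theorem lpx (hA : 4 ≤ A) (P : p.PlX σ t Q) (y0 : p.XloL σ t ≤ y) (y1 : y ≤ p.PhN t) :
    LP p.EL (p.scG K σ t Q) (p.gst Q t) y (p.VL σ t) p.LgL 1 (p.X2L t) (p.X3L t) (p.G0L σ t) 0
      (p.uL t) (p.uL t) (p.jL σ t) 0 (p.LcL t) (p.ecL σ t y) (p.tauL σ t y)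
      (etaL p σ t (p.scG K σ t Q)) (p.NL σ t y) := by
  have yp := (pow_pos X.la0 2).trans_le ((la_Xlo X).trans y0)
  have x0 := rpow_pos_of_pos yp ((1 : ℝ) / 3)
  have hx : (y ^ ((1 : ℝ) / 3)) ^ 3 = y := by
    rw [← rpow_natCast, ← rpow_mul yp.le]; norm_num
  have e := eta1 X G nd
  obtain ⟨_, _, _, _, _, S⟩ := nsL X G nd y0 y1 x0 hx
  obtain ⟨_, _, _, _, _, _, _, R⟩ := Lc85.ncL X nd G x0 hx y1 y0 ((B.of X.H).up _)
  have k := lp X.H hA X.o G P S (La72.naL X nd y0 y1 x0 hx le_rfl le_rfl) R e.1 e.2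
  rwa [hx, one_pow] at k

omit X G nd in
/-- **the leaf `LPx`** -/
theorem lpxG (hβ : 1 < β) : OnG LPx β :=
  OnG.cl' hβ CL.triv (OnG.triv β) one_pos (by norm_num : (0 : ℝ) < 1 / 2000) 10000 0 (fun _ => 0)
    fun _ _ _ _ _ _ _ _ _ _ _ _ _ _ G a _ b _ _ _ nd _ _ y0 y1 =>
      lpx ⟨G.R, a, by exact_mod_cast b, G.O⟩ G.D nd G.A4 G.X y0 y1

end Crest.Agent.T156.Alt.Lx13

end
end

-- ▼ part T156/R1Fin_77
section

/-!
# Row 156 (helper77): the leaf `Blkx` from the statements of block (L)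
-/

set_option autoImplicit false

noncomputable section

namespace Crest.Agent.T156.Alt.R77

theorem hyx_3 {β : ℝ} (hβ : 1 < β) (T : L69.TLt) (Y : L63.TL2y) (h0 : OnG Lt38.FXx β)
    (h1 : OnG LNx β) (h2 : OnG LPx β) : OnG Hyx β :=
  Ap39.hyx_of hβ Y (hyY_of hβ h1 h2 (Lt38.ltxG hβ h0) (Vt18.vtx hβ T))

theorem blkx_3 {β : ℝ} (hβ : 1 < β) (T : L69.TLt) (X : L63.TL2x) (Y : L63.TL2y)
    (h0 : OnG Lt38.FXx β) (h1 : OnG LNx β) (h2 : OnG LPx β) : OnG Blkx β :=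
  Bk79.blkG hβ (supx_of hβ X (hyx_3 hβ T Y h0 h1 h2))


theorem blkx_1 {β : ℝ} (hβ : 1 < β) (T : L69.TLt) (X : L63.TL2x) (Y : L63.TL2y)
    (h2 : OnG LPx β) : OnG Blkx β :=
  blkx_3 hβ T X Y (Ln97.fxG hβ) (Ln97.lnG hβ) h2


/-- **the leaf `Blkx`** -/
theorem blkx_all {β : ℝ} (hβ : 1 < β) (T : L69.TLt) (X : L63.TL2x) (Y : L63.TL2y) : OnG Blkx β :=
  blkx_1 hβ T X Y (Lx13.lpxG hβ)

end Crest.Agent.T156.Alt.R77

end
end

-- ▼ part T156/R1TpB_4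
section

/-!
# Row 156 (helper4): `Topx` from the theorems of block (L) and the numbers on the graded path
-/

set_option autoImplicit false
set_option linter.unusedSectionVars false

noncomputable section

namespace Crest.Agent.T156.Alt.Tp4

open Real Finset
open Crest.Agent.T156.Alt.L69
open Crest.Agent.T156.Alt.L63 (Hy TP TL2x TL2y TLq)
open Crest.Agent.T156.Alt.L62 (TLp)
open Crest.Agent.T156.Alt.R62 (lw sb pl ls T0)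
open Crest.Agent.T156.Alt.R77 (Dt OnG Topx)

/-- **the numbers**: one of three regimes (`E = n ^ (e c)`) -/
def SupT (e : ℝ) : Dt := fun p σ t S M => ∀ m a, S.In m a → M.Phi S m a ≤ p.PhN t →
  p.PtN σ t < p.PhN t →
  ∃ G1 u1 u2 j γ Lc ηc τ l0 l X Xp Vt Lg Lp X2 X3 X4 G0 η N g t1 tu ℓ En p0,
    Hy ((p.n : ℝ) ^ (e * p.c)) S M m a G1 u1 u2 j γ Lc ηc τ l0 l X Xp Vt Lg Lp X2 X3 X4 G0 η N g
      t1 tu ℓ En p0 ∧
    ((u2 ≤ Bt p σ t ∧ En + t1 * p0 ^ 2 ≤ p.muG t * Bt p σ t) ∨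
      (tu = M.s S.J ∧
        (∀ y, M.s S.J / 64 ≤ y → y ≤ M.s S.J → (p0 + bs S Lg X2 (g y) η y) ^ 2 ≤ Bt p σ t) ∧
        ((∃ α Pq, L62.LQ ((p.n : ℝ) ^ (e * p.c)) S M X Xp Vt Lg Lp X2 G0 u1 u2 j γ η g ℓ α p0 Pq ∧
            Pq ≤ Bt p σ t) ∨
          ((p.n : ℝ) ^ (e * p.c) * X ≤ ℓ ^ 3 ∧ ∃ aa g' R2,
            L63.LQ ((p.n : ℝ) ^ (e * p.c)) S M X Xp Vt Lg Lp X2 G0 u1 u2 j γ η aa g' R2 ∧
            p0 ^ 2 + (ℓ + X ^ ((1 : ℝ) / 3) + M.s S.jl) * (j + bs S Lg X2 g' η (M.s S.J)) ^ 2 +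
              aa ^ 3 + R2 ≤ Bt p σ t))))

section cl

variable {E : ℝ} {S : Sc} {M : Md} {m : ℕ} {a G1 u1 u2 j γ Lc ηc τ l0 l X Xp Vt Lg Lp X2 X3 X4 G0 : ℝ}
  {η : ℝ → ℝ} {N : ℝ} {g : ℝ → ℝ} {t1 tu ℓ En p0 : ℝ}
  (H : Hy E S M m a G1 u1 u2 j γ Lc ηc τ l0 l X Xp Vt Lg Lp X2 X3 X4 G0 η N g t1 tu ℓ En p0)
  (hE : 128 ≤ E)
include H hE

theorem l_pos : 0 < l :=
  (mul_pos (by linarith) (rpow_pos_of_pos H.ln.X0 _)).trans_le H.lt.lX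

theorem t1_le : 128 * t1 ≤ tu := by
  have := l_pos H hE
  nlinarith [H.lt.t1a, H.lt.t1b]

theorem ℓ_nn : 0 ≤ ℓ := (mul_nonneg (by linarith) (sqrt_nonneg _)).trans H.lt.ℓ1

/-- `Hy` is monotone in `ℓ` -/
theorem hy_max (F1 : 1 ≤ S.F) : Hy E S M m a G1 u1 u2 j γ Lc ηc τ l0 l X Xp Vt Lg Lp X2 X3 X4 G0 η N g
    t1 tu (max ℓ l) En p0 ∧ E * X ≤ max ℓ l ^ 3 ∧ 128 * max ℓ l ≤ tu := by
  have l0 := l_pos H hE
  have q0 := ℓ_nn H hE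
  have L0 : 0 ≤ Lg := le_trans (by positivity) H.ln.Lg0
  have a := le_max_left ℓ l
  have b := mul_le_mul_of_nonneg_left a L0
  have T := H.lt
  have d : E * max ℓ l ≤ tu := by
    rcases max_choice ℓ l with e | e <;> rw [e]
    · exact T.ℓ2
    · nlinarith [T.t1a, T.t1b]
  refine ⟨⟨H.ce, H.ln, H.lp, H.ap, ⟨T.F1, T.l2, T.g0, fun t k a1 a2 a3 a4 a5 =>
    T.g1 t k a1 a2 a3 a4 (by linarith), T.g2, T.gl, T.lX, T.Lg3.trans b, T.ml, T.ℓ1.trans a, d, T.tu1,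
    T.t1a, T.t1b, T.t1c, T.x4, T.en, T.pa, T.pc.1, T.pc.2.trans a⟩, H.jg.trans b⟩, ?_, by nlinarith⟩
  have r := rpow_pos_of_pos H.ln.X0 ((1 : ℝ) / 3)
  have e : (X ^ ((1 : ℝ) / 3)) ^ 3 = X := by
    rw [← rpow_natCast, ← rpow_mul H.ln.X0.le]; norm_num
  have f := pow_le_pow_left₀ (by positivity) (T.lX.trans (le_max_right ℓ l)) 3
  rw [mul_pow, e] at f
  refine le_trans (mul_le_mul_of_nonneg_right ?_ H.ln.X0.le) f
  nlinarith [mul_le_mul hE hE (by norm_num) (by linarith)]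

end cl

section win

variable {S : Sc} {M : Md} {m : ℕ} {a ℓ : ℝ}

theorem wn_P (c : Cl S M) (h : 4 * ℓ ≤ M.s S.J) : Wn S M m a ℓ ≤
    ∑ k ∈ (Ioo S.jl S.J).filter fun k => 3 / 4 * M.s S.J ≤ M.s k, dx M k * M.del m a k ^ 2 +
      Pla M S m a 2 := by
  have e : Pla M S m a 2 = ∑ k ∈ Icc S.J S.Jp, lw M k * M.del m a k ^ 2 :=
    sum_congr rfl fun k _ => by rw [sq_abs]; rfl
  set A := (Ioo S.jl S.J).filter fun k => 3 / 4 * M.s S.J ≤ M.s k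
  have h0 := sum_union_inter (s₁ := A) (s₂ := Icc S.J S.Jp)
    (f := fun k => lw M k * M.del m a k ^ 2)
  have h1 := sum_nonneg fun k (_ : k ∈ A ∩ Icc S.J S.Jp) => term_nn c (M.del m a) k
  have h2 : Wn S M m a ℓ ≤ ∑ k ∈ A ∪ Icc S.J S.Jp, lw M k * M.del m a k ^ 2 :=
    sum_le_sum_of_subset_of_nonneg (fun k hk => by
      obtain ⟨b, d⟩ := mem_filter.1 hk
      have b := mem_Ioc.1 b
      rcases lt_or_ge k S.J with r | r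
      · exact mem_union_left _ (mem_filter.2 ⟨mem_Ioo.2 ⟨b.1, r⟩, by linarith⟩)
      · exact mem_union_right _ (mem_Icc.2 ⟨r, b.2⟩)) fun k _ _ => term_nn c _ k
  rw [e]
  change _ ≤ ∑ k ∈ A, lw M k * M.del m a k ^ 2 + _
  linarith

theorem wn_Q (c : Cl S M) : Wn S M m a ℓ ≤ M.En S m a M.q 2 (M.s S.J - ℓ) S.C := by
  have i1 := c.i1
  have e : M.En S m a M.q 2 (M.s S.J - ℓ) S.C =
      ∑ k ∈ M.blk S (M.s S.J - ℓ) S.C, lw M k * M.del m a k ^ 2 :=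
    sum_congr rfl fun k _ => by rw [sq_abs]; rfl
  rw [e]
  exact sum_le_sum_of_subset_of_nonneg (fun k hk => by
    obtain ⟨b, d⟩ := mem_filter.1 hk
    have b := mem_Ioc.1 b
    exact mem_filter.2 ⟨mem_Ioc.2 ⟨by omega, b.2⟩, by linarith, c.s_le_C b.2⟩)
    fun k _ _ => term_nn c _ k

theorem sup_D {Λ x y B : ℝ} (hΛ : 0 ≤ Λ) (h : |x| ≤ Λ * y) (hB : y ^ 2 ≤ B) : |x| ≤ Λ * √B :=
  h.trans (mul_le_mul_of_nonneg_left (le_sqrt_of_sq_le hB) hΛ)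

end win

/-- **`Tpx`** -/
theorem tpx_of {β e : ℝ} (hβ : 1 < β) (he : 0 < e) (hx : TL2x) (hy : TL2y) (hp : TLp) (hq : TLq)
    (h : OnG (SupT e) β) : OnG Tpx β := by
  refine OnG.cl' hβ ((hx.and hy).and (hp.and hq)) h he (show (0 : ℝ) < 1 / 2000 by norm_num)
    (⌈1 / e⌉₊ + 10000) 0 (fun _ => 1) ?_
  intro K c0 C0 A c η K' c0' C0' η' p σ t Q G hc _ hη _ Z Y m a hm h1 h2
  have R := G.R
  have η0 := R.η_pos
  have ce : (1 / e) * η ≤ ⌈1 / e⌉₊ * η := mul_le_mul_of_nonneg_right (Nat.le_ceil _) η0.le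
  have ce0 : 0 ≤ (⌈1 / e⌉₊ : ℝ) * η := by positivity
  push_cast at hη
  have X : Nr44.Cx β c0 C0 A c η K' p σ t := ⟨R, hc, by linarith, G.O⟩
  have ηe : η ≤ e * c := by
    have : (1 / e) * η ≤ c := by linarith
    rw [div_mul_eq_mul_div, one_mul, div_le_iff₀' he] at this
    exact this
  have hE : 128 ≤ (p.n : ℝ) ^ (e * c) :=
    le_trans (by norm_num) (R.num_le.trans (Pre29.rp_le R.n1 ηe))
  obtain ⟨⟨zx, zy⟩, zp, zq⟩ := Z m a hm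
  obtain ⟨G1, u1, u2, j, γ, Lc, ηc, τ, l0, l, X', Xp, Vt, Lg, Lp, X2, X3, X4, G0, ζ, N, g, t1, tu, ℓ,
    En, p0, H, r⟩ := Y m a hm h1 h2
  rw [R.hc] at H r
  have cl := G.D.cl.1
  have B0 := Bt0 X
  have Λ0 := R.Λ0
  have Λ1 : (p.n : ℝ) ^ η ≤ (p.n : ℝ) ^ (p.c / 100) :=
    Pre29.rp_le R.n1 (by rw [R.hc]; linarith [X.hη])
  have Λ2 : 3 * ((p.n : ℝ) ^ η) ≤ (p.n : ℝ) ^ (p.c / 100) ∧
      ((p.n : ℝ) ^ η) ^ 2 ≤ (p.n : ℝ) ^ (p.c / 100) := by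
    have b : ((p.n : ℝ) ^ η) ^ 2 ≤ (p.n : ℝ) ^ (p.c / 100) := by
      rw [← rpow_natCast, ← rpow_mul R.N0.le]
      exact Pre29.rp_le R.n1 (by rw [R.hc]; push_cast; linarith [X.hη])
    exact ⟨by nlinarith [R.num_le], b⟩
  have sD : ((p.n : ℝ) ^ η * √(Bt p σ t)) ^ 2 ≤ (p.n : ℝ) ^ (p.c / 100) * Bt p σ t := by
    rw [mul_pow, sq_sqrt B0.le]
    exact mul_le_mul_of_nonneg_right Λ2.2 B0.le
  have tt := t1_le H hE
  have lp := l_pos H hE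
  rcases r with ⟨r1, r2⟩ | ⟨rfl, r1, ⟨α, Pq, r2, r3⟩ | ⟨r2, aa, g', R2, r3, r4⟩⟩
  · exact .inl ⟨_, _, _, _, (zy _ _ _ _ _ _ _ _ _ _ _ _ _ _ _ _ _ _ _ _ _ _ _ _ _ _ _ H).1, Λ0.le, Λ1,
      by rw [T0]; linarith [H.lt.tu1], r1, .inl r2⟩
  · obtain ⟨H', b1, b2⟩ := hy_max H hE cl.F1
    have s := (zx _ _ _ _ _ _ _ _ _ _ _ _ _ _ _ _ _ _ _ _ _ _ _ _ _ _ _ H' (.inl b1)).1
    have q0 := (ℓ_nn H hE).trans (le_max_left ℓ l)
    refine .inr ⟨max ℓ l, _, q0, fun k _ k2 k3 k4 => ?_, sD, (wn_P cl (by linarith)).trans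
      ((zp _ _ _ _ _ _ _ _ _ _ _ _ _ _ _ _ _ _ _ _ _ _ _ _ _ _ _ _ H r2).trans
        ((mul_le_mul_of_nonneg_left r3 Λ0.le).trans (mul_le_mul_of_nonneg_right Λ1 B0.le)))⟩
    rw [T0] at k3
    exact sup_D Λ0.le (s k (by linarith [H.lt.t1a]) k4) (r1 _ (by linarith) (cl.sm k2.le))
  · have s := (zx _ _ _ _ _ _ _ _ _ _ _ _ _ _ _ _ _ _ _ _ _ _ _ _ _ _ _ H (.inl r2)).1
    refine .inr ⟨ℓ, _, ℓ_nn H hE, fun k _ k2 k3 k4 => ?_, sD, (wn_Q cl).trans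
      ((zq _ _ _ _ _ _ _ _ _ _ _ _ _ _ _ _ _ _ _ _ _ _ _ _ _ _ H _ _ _ r3).trans
        ((mul_le_mul_of_nonneg_left (c := 3 * Bt p σ t) ?_ Λ0.le).trans ?_))⟩
    · rw [T0] at k3
      exact sup_D Λ0.le (s k (by linarith [H.lt.t1a]) k4) (r1 _ (by linarith) (cl.sm k2.le))
    · have a1 := G_Bt X G.D G.X G.BK ((p.gst Q t).s (p.scG K σ t Q).J - ℓ) (p.scG K σ t Q).C
      have a2 : 1 / ((p.scG K σ t Q).n : ℝ) ^ 2 ≤ _ := n_Bt X G.D G.X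
      linarith
    · linarith [mul_le_mul_of_nonneg_right Λ2.1 B0.le]

/-- **`Topx`** from block (L) and the numbers -/
theorem topx_of {β e : ℝ} (hβ : 1 < β) (he : 0 < e) (hx : TL2x) (hy : TL2y) (hp : TLp) (hq : TLq)
    (h : OnG (SupT e) β) : OnG Topx β := topG hβ (tpx_of hβ he hx hy hp hq h)

end Crest.Agent.T156.Alt.Tp4

end
end

-- ▼ part T156/LoP_64
section

/-!
# Row 156, block (L) (helper64): one pass, the top energy from the output `LO`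
-/

set_option autoImplicit false

noncomputable section

namespace Crest.Agent.T156.Alt.Lp64

open Real Finset
open Crest.Agent.T156.Alt.L69 Crest.Agent.T156.Alt.L63

variable {S : Sc} {M : Md} {m : ℕ} {a : ℝ}

theorem tm0 (c : Cl S M) (f : ℕ → ℝ) (k : ℕ) : 0 ≤ dx M k * f k ^ 2 :=
  mul_nonneg (sub_nonneg.2 (c.leg.zm (Nat.sub_le k 1))) (sq_nonneg _)

theorem En_eq (t t' : ℝ) :
    M.En S m a M.q 2 t t' = ∑ k ∈ M.blk S t t', dx M k * M.del m a k ^ 2 :=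
  sum_congr rfl fun k _ => by rw [sq_abs]; rfl

theorem top_split (c : Cl S M) (t : ℝ) : M.En S m a M.q 2 t S.C ≤
    ∑ k ∈ (M.blk S t S.C).filter (· < S.J), dx M k * M.del m a k ^ 2 + Pla M S m a 2 := by
  have e : Pla M S m a 2 = ∑ k ∈ Icc S.J S.Jp, dx M k * M.del m a k ^ 2 :=
    sum_congr rfl fun k _ => by rw [sq_abs]
  rw [En_eq, e, ← sum_filter_add_sum_filter_not _ (· < S.J)]
  refine add_le_add le_rfl (sum_le_sum_of_subset_of_nonneg (fun k hk => ?_) fun k _ _ => tm0 c _ k)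
  obtain ⟨b, d⟩ := mem_filter.1 hk
  exact mem_Icc.2 ⟨not_lt.1 d, (mem_Ioc.1 (mem_filter.1 b).1).2⟩

/-- the energy above a level over the floor is at most `Φ` -/
theorem top_phi (c : Cl S M) {t : ℝ} (h : S.j0 = S.jl ∨ M.s S.jl < t) (t' : ℝ) :
    M.En S m a M.q 2 t t' ≤ M.Phi S m a := by
  rw [En_eq]
  change _ ≤ ∑ k ∈ Ioc S.jl S.Jp, dx M k * M.del m a k ^ 2
  refine sum_le_sum_of_subset_of_nonneg (fun k hk => ?_) fun k _ _ => tm0 c _ k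
  obtain ⟨b, d, -⟩ := mem_filter.1 hk
  refine mem_Ioc.2 ⟨?_, (mem_Ioc.1 b).2⟩
  rcases h with h | h
  · exact h ▸ (mem_Ioc.1 b).1
  · exact not_le.1 fun e => absurd ((c.sm e).trans_lt h) (not_lt.2 d)

theorem GS_le (c : Cl S M) (t t' : ℝ) : GS M S t t' ≤ GS M S 0 S.C :=
  sum_le_sum_of_subset_of_nonneg (fun k hk => by
    have b := (mem_filter.1 hk).1
    exact mem_filter.2 ⟨b, c.s_nn k, c.s_le_C ((mem_Ioo.1 b).2.le.trans c.i3)⟩)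
    fun k _ _ => tm0 c _ k

/-- **the energy above `t` from `LO`** -/
theorem top_LO (c : Cl S M) {Λ t0 u En t : ℝ} (h : LO Λ S M m a t0 u En) (hΛ : 0 ≤ Λ)
    (h0 : t0 ≤ t) (h1 : t ≤ S.C) : M.En S m a M.q 2 t S.C ≤ Λ * (En / mf S t + En / S.θ + u +
      (GS M S 0 S.C + GP M S) + (M.s S.Jp - M.s S.J) ^ 2 + 2 / (S.n : ℝ) ^ 2) := by
  refine (top_split c t).trans ((add_le_add (h.two t S.C h0 h1) h.pla).trans ?_)
  rw [← mul_add]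
  refine mul_le_mul_of_nonneg_left ?_ hΛ
  have := min_le_right (√(S.C * En)) (En / mf S t)
  have := min_le_right (En ^ ((3 : ℝ) / 5)) (En / S.θ)
  have := GS_le c t S.C
  have : 2 / (S.n : ℝ) ^ 2 = 1 / (S.n : ℝ) ^ 2 + 1 / (S.n : ℝ) ^ 2 := by ring
  linarith

theorem sJ3 (h : Cl S M) : 1 ≤ 3 * S.C ^ 3 * M.s S.J := by
  have a := h.atom.1
  have i0 := h.i0
  have i1 := h.i1
  have i2 := h.i2
  have C0 := h.C0
  have b := (h.z_s (k := S.J - 1) (by omega) (by omega)).2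
  have d := (h.ss 0 (by omega)).1
  have e : M.s (0 + 1) ≤ M.s S.J := h.sm (by omega)
  have f : M.s (S.J - 1) ≤ M.s S.J := h.sm (Nat.sub_le _ _)
  have s0 := h.s_nn S.J
  rw [h.s0, div_le_iff₀ C0] at d
  rw [div_le_iff₀ C0] at a
  have g : S.v ≤ S.C * M.s S.J := by nlinarith
  have g' : M.s S.J ≤ S.C * M.s S.J := le_mul_of_one_le_left s0 h.C1
  have k : M.z (S.J - 1) ≤ S.C * (3 * (S.C * M.s S.J)) :=
    b.trans (mul_le_mul_of_nonneg_left (by linarith) C0.le)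
  linarith [mul_le_mul_of_nonneg_right k C0.le]

theorem θ_le (h : Cl S M) : S.θ ≤ 144 * S.C ^ 6 * S.ms (M.s S.J / 2) := by
  have c3 : 1 ≤ S.C ^ 3 := one_le_pow₀ h.C1
  have a := h.ms_mul (t := M.s S.J / 2) (k := 6 * S.C ^ 3) (by linarith [h.s_nn S.J]) (by linarith)
  exact ((h.msm (by linarith [sJ3 h])).trans a).trans_eq (by ring)

/-- **one pass**: the top energy after a call of (TL2) -/
def Pass : Prop := CL fun E Λ S M m a =>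
  ∀ G1 u1 u2 j γ Lc ηc τ l0 l X Xp Vt Lg Lp X2 X3 X4 G0 η N g t1 tu ℓ En p0,
  Hy E S M m a G1 u1 u2 j γ Lc ηc τ l0 l X Xp Vt Lg Lp X2 X3 X4 G0 η N g t1 tu ℓ En p0 →
    M.En S m a M.q 2 (M.s S.J / 2) S.C ≤ Λ * ((En + t1 * p0 ^ 2) / S.θ + u2 +
      (GS M S 0 S.C + GP M S) + (M.s S.Jp - M.s S.J) ^ 2 + 1 / (S.n : ℝ) ^ 2)

theorem pass (hy : TL2y) : Pass := by
  have key : CL fun E Λ S M m a => ∀ Λ', Λ ≤ Λ' →
      ∀ G1 u1 u2 j γ Lc ηc τ l0 l X Xp Vt Lg Lp X2 X3 X4 G0 η N g t1 tu ℓ En p0,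
      Hy E S M m a G1 u1 u2 j γ Lc ηc τ l0 l X Xp Vt Lg Lp X2 X3 X4 G0 η N g t1 tu ℓ En p0 →
      M.En S m a M.q 2 (M.s S.J / 2) S.C ≤ Λ' * ((En + t1 * p0 ^ 2) / S.θ + u2 +
        (GS M S 0 S.C + GP M S) + (M.s S.Jp - M.s S.J) ^ 2 + 1 / (S.n : ℝ) ^ 2) := by
    refine CL.glue' hy (fun _ _ _ _ _ _ _ _ h H _ h' => H _ (h.trans h')) 0 le_rfl 1 2
      fun C _ ε η' hε _ => ⟨145 * C ^ 6, fun S M m a G _ b1 _ h I Y Λ hΛ G1 u1 u2 j γ Lc ηc τ l0 l X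
        Xp Vt Lg Lp X2 X3 X4 G0 η N g t1 tu ℓ En p0 H => ?_⟩
    rw [pow_one] at H
    have L := (Y _ _ _ _ _ _ _ _ _ _ _ _ _ _ _ _ _ _ _ _ _ _ _ _ _ _ _ H).1
    have E4 : 1000 ≤ (S.n : ℝ) ^ ε := G.num_le.trans (Pre29.rp_le G.n1 (by simpa using b1))
    have K := G.K_le
    have L4' := G.num_le
    rw [← G.hC] at K
    generalize (S.n : ℝ) ^ η' = W at *
    generalize (S.n : ℝ) ^ ε = E at *
    have T := H.lt
    have l1 : 0 < l := (mul_pos (by linarith) (rpow_pos_of_pos H.ln.X0 _)).trans_le T.lX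
    have t0 : 0 < t1 := by linarith [T.t1a]
    have t2 : 2 * t1 ≤ M.s S.J / 2 := by nlinarith [T.t1b, T.tu1]
    have sC := (h.sm h.i3).trans h.sT
    have s0 := h.s_nn S.J
    have g0 : 0 ≤ GS M S 0 (2 * l) := sum_nonneg fun k _ => tm0 h _ k
    have e0 : 0 ≤ En + t1 * p0 ^ 2 := add_nonneg (le_trans (by positivity) T.gl) (by positivity)
    have R := top_LO h L (by linarith) t2 (by linarith)
    generalize En + t1 * p0 ^ 2 = Z at *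
    have θ0 := h.θ0
    have m0 := h.ms_pos (t := M.s S.J / 2) (by linarith)
    have a1 : Z / mf S (M.s S.J / 2) ≤ 144 * S.C ^ 6 * (Z / S.θ) := by
      rw [mf, T.F1, div_one, ← mul_div_assoc, div_le_div_iff₀ m0 θ0]
      linarith [mul_le_mul_of_nonneg_left (θ_le h) e0]
    have c6 : 1 ≤ S.C ^ 6 := one_le_pow₀ h.C1
    have z0 : 0 ≤ Z / S.θ := by positivity
    have u0 : 0 ≤ u2 := by linarith [h.leg.z1 (S.Jp - 1), h.last, H.lp.u1a, H.lp.u1b.1]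
    have g1 : 0 ≤ GS M S 0 S.C + GP M S :=
      add_nonneg (sum_nonneg fun k _ => tm0 h _ k) (sum_nonneg fun k _ => tm0 h _ k)
    have n2 : 0 ≤ 1 / (S.n : ℝ) ^ 2 := by positivity
    have e2 : 2 / (S.n : ℝ) ^ 2 = 2 * (1 / (S.n : ℝ) ^ 2) := by ring
    have q0 := sq_nonneg (M.s S.Jp - M.s S.J)
    rw [e2] at R
    generalize 1 / (S.n : ℝ) ^ 2 = ν at *
    generalize GS M S 0 S.C + GP M S = Γ at *
    generalize (M.s S.Jp - M.s S.J) ^ 2 = q at *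
    refine R.trans (le_trans ?_ (mul_le_mul_of_nonneg_right hΛ (by positivity)))
    rw [sq, mul_assoc]
    refine mul_le_mul_of_nonneg_left ?_ (by linarith)
    have a2 := mul_le_mul_of_nonneg_right K z0
    have a3 := mul_le_mul_of_nonneg_right c6 z0
    have a4 := mul_le_mul_of_nonneg_right L4' (show 0 ≤ u2 + Γ + q + ν by positivity)
    linarith
  exact key.mono fun _ _ _ _ _ _ _ _ _ _ H => H _ le_rfl

/-- **iteration without a count**: a bound that halves at every pass reaches the budget -/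
theorem iter {P : Prop} {x B Φ : ℝ} (B0 : 0 < B) (h0 : x ≤ Φ)
    (h : ∀ y, B ≤ y → y ≤ max B Φ → x ≤ y → P ∨ x ≤ y / 2) (hB : x ≤ B → P) : P := by
  have key : ∀ i : ℕ, ∀ y, y ≤ max B Φ → x ≤ y → y ≤ 2 ^ i * B → P := fun i => by
    induction i with
    | zero => exact fun y _ a b => hB (a.trans (by simpa using b))
    | succ i ih =>
      intro y a b d
      rcases le_total y B with e | e
      · exact hB (b.trans e)
      · exact (h y e a b).elim id fun f => ih (y / 2) (by linarith) f (by rw [pow_succ] at d; linarith)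
  obtain ⟨i, hi⟩ := pow_unbounded_of_one_lt (Φ / B) (one_lt_two (α := ℝ))
  rw [div_lt_iff₀ B0] at hi
  exact key i Φ (le_max_right _ _) h0 hi.le

end Crest.Agent.T156.Alt.Lp64

end
end

-- ▼ part T156/LoQ_64
section

/-!
# Row 156 (helper64): the passes of the energy branch of `SupT` on the graded path
-/

set_option autoImplicit false

noncomputable section

namespace Crest.Agent.T156.Alt.Lp64

open Real Finset
open Crest.Agent.T156.Alt.L69 Crest.Agent.T156.Alt.Tp4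
open Crest.Agent.T156.Alt.L63 (Hy TL2y)
open Crest.Agent.T156.Alt.R77 (Dt OnG)

/-- **the table**, free in the a priori top energy `Xp` -/
def TabT (e : ℝ) (R : Pm → ℝ → ℝ → Prop) : Dt := fun p σ t S M => ∀ m a, S.In m a →
  M.Phi S m a ≤ p.PhN t → p.PtN σ t < p.PhN t → R p σ t → ∀ Xp, Bt p σ t ≤ Xp → Xp ≤ p.PhN t →
  M.En S m a M.q 2 (M.s S.J / 2) S.C ≤ Xp →
  ∃ Xp' G1 u1 u2 j γ Lc ηc τ l0 l X Vt Lg Lp X2 X3 X4 G0 η N g t1 tu ℓ En p0,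
    Hy ((p.n : ℝ) ^ (e * p.c)) S M m a G1 u1 u2 j γ Lc ηc τ l0 l X Xp' Vt Lg Lp X2 X3 X4 G0 η N g
      t1 tu ℓ En p0 ∧ u2 ≤ Bt p σ t ∧
    En + t1 * p0 ^ 2 ≤ p.muG t * max ((p.n : ℝ) ^ (-(p.c / 50)) * Xp) (Bt p σ t)

/-- the first branch of `SupT` in the regime `R` -/
def LoT (e : ℝ) (R : Pm → ℝ → ℝ → Prop) : Dt := fun p σ t S M => ∀ m a, S.In m a →
  M.Phi S m a ≤ p.PhN t → p.PtN σ t < p.PhN t → R p σ t →
  ∃ G1 u1 u2 j γ Lc ηc τ l0 l X Xp Vt Lg Lp X2 X3 X4 G0 η N g t1 tu ℓ En p0,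
    Hy ((p.n : ℝ) ^ (e * p.c)) S M m a G1 u1 u2 j γ Lc ηc τ l0 l X Xp Vt Lg Lp X2 X3 X4 G0 η N g
      t1 tu ℓ En p0 ∧ u2 ≤ Bt p σ t ∧ En + t1 * p0 ^ 2 ≤ p.muG t * Bt p σ t

theorem loT_of {β e : ℝ} {R : Pm → ℝ → ℝ → Prop} (hβ : 1 < β) (he : 0 < e) (hy : TL2y)
    (h : OnG (TabT e R) β) : OnG (LoT e R) β := by
  refine OnG.cl' hβ (pass hy) h he (show (0 : ℝ) < 1 / 2000 by norm_num) 10000 0 (fun _ => 1) ?_
  intro K c0 C0 A c η K' c0' C0' η' p σ t Q G hc _ hη _ Z Y m a hm h1 h2 r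
  have H := G.R
  push_cast at hη
  have X : Nr44.Cx β c0 C0 A c η K' p σ t := ⟨H, hc, hη, G.O⟩
  have cl := G.D.cl.1
  have B0 := Bt0 X
  have c0 := H.c_pos
  have n1 : (1 : ℝ) ≤ p.n := by exact_mod_cast H.n1
  have BP : Bt p σ t ≤ p.PhN t := by
    have o := out X h2
    have : 1 ≤ (p.n : ℝ) ^ (p.c / 100) := one_le_rpow n1 (by rw [H.hc]; positivity)
    nlinarith
  have d0 := H.rp0 (-(p.c / 50))
  have d1 : (p.n : ℝ) ^ (-(p.c / 50)) ≤ 1 :=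
    rpow_le_one_of_one_le_of_nonpos n1 (by rw [H.hc]; linarith)
  have d2 : (p.n : ℝ) ^ η * (p.n : ℝ) ^ η * (p.n : ℝ) ^ (-(p.c / 50)) ≤ 1 := by
    rw [← rpow_add H.N0, ← rpow_add H.N0]
    exact rpow_le_one_of_one_le_of_nonpos n1 (by rw [H.hc]; linarith)
  refine iter (Φ := p.PhN t) B0 ((top_phi (t := (p.gst Q t).s (p.scG K σ t Q).J / 2) cl (.inl rfl)
    (p.scG K σ t Q).C).trans h1) (fun y a1 a2 a3 => ?_) fun a1 => ?_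
  · obtain ⟨Xp, G1, u1, u2, j, γ, Lc, ηc, τ, l0, l, X', Vt, Lg, Lp, X2, X3, X4, G0, ζ, N, g, t1, tu,
      ℓ, En, p0, W, r1, r2⟩ := Y m a hm h1 h2 r y a1 (a2.trans (max_le BP le_rfl)) a3
    rcases le_total ((p.n : ℝ) ^ (-(p.c / 50)) * y) (Bt p σ t) with f | f
    · rw [max_eq_right f] at r2
      exact .inl ⟨_, _, _, _, _, _, _, _, _, _, _, _, _, _, _, _, _, _, _, _, _, _, _, _, _, _, _,
        W, r1, r2⟩
    rw [max_eq_left f] at r2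
    rw [H.hc] at W
    have z := Z m a hm _ _ _ _ _ _ _ _ _ _ _ _ _ _ _ _ _ _ _ _ _ _ _ _ _ _ _ W
    have hθ : (p.scG K σ t Q).θ = p.muG t := G.D.top
    have b1 := G_Bt X G.D G.X G.BK 0 (p.scG K σ t Q).C
    have b2 : 1 / ((p.scG K σ t Q).n : ℝ) ^ 2 ≤ _ := n_Bt X G.D G.X
    rw [hθ, Kn72.flat G.D (Plt13.xk_of X.H X.o G.D G.X).g0 _ cl.i3 le_rfl, sub_self] at z
    rw [← div_le_iff₀' X.θ0] at r2
    refine .inr (z.trans ((mul_le_mul_of_nonneg_left (c := 4 * ((p.n : ℝ) ^ (-(p.c / 50)) * y))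
      (by linarith) H.Λ0.le).trans ?_))
    have y0 : 0 ≤ y := B0.le.trans a1
    have e1 := mul_le_mul_of_nonneg_right d2 y0
    have e2 := mul_le_mul_of_nonneg_right H.num_le
      (show 0 ≤ (p.n : ℝ) ^ η * ((p.n : ℝ) ^ (-(p.c / 50)) * y) by have := H.Λ0; positivity)
    have e3 : 0 ≤ (p.n : ℝ) ^ η * ((p.n : ℝ) ^ (-(p.c / 50)) * y) := by have := H.Λ0; positivity
    linarith
  · obtain ⟨Xp, G1, u1, u2, j, γ, Lc, ηc, τ, l0, l, X', Vt, Lg, Lp, X2, X3, X4, G0, ζ, N, g, t1, tu,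
      ℓ, En, p0, W, r1, r2⟩ := Y m a hm h1 h2 r _ le_rfl BP a1
    rw [max_eq_right (mul_le_of_le_one_left B0.le d1)] at r2
    exact ⟨_, _, _, _, _, _, _, _, _, _, _, _, _, _, _, _, _, _, _, _, _, _, _, _, _, _, _,
      W, r1, r2⟩

/-- **dispatch** on a regime -/
theorem supT_split {β e : ℝ} {R : Pm → ℝ → ℝ → Prop} (h1 : OnG (LoT e R) β)
    (h2 : OnG (fun p σ t S M => ¬ R p σ t → SupT e p σ t S M) β) : OnG (SupT e) β := fun K k =>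
  ((h1.and h2) K k).mono fun _ p w c0 C0 η σ t Q a b c m x i1 i2 i3 => by
    obtain ⟨w1, w2⟩ := w c0 C0 η σ t Q a b c
    by_cases r : R p σ t
    · obtain ⟨G1, u1, u2, j, γ, Lc, ηc, τ, l0, l, X', Xp, Vt, Lg, Lp, X2, X3, X4, G0, ζ, N, g, t1, tu,
        ℓ, En, p0, W, r1⟩ := w1 m x i1 i2 i3 r
      exact ⟨_, _, _, _, _, _, _, _, _, _, _, _, _, _, _, _, _, _, _, _, _, _, _, _, _, _, _,
        W, .inl r1⟩
    · exact w2 r m x i1 i2 i3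

end Crest.Agent.T156.Alt.Lp64

end
end

-- ▼ part T156/SupD_82
section

/-!
# Row 156 (helper82): the three regimes of `SupT`
-/

set_option autoImplicit false

noncomputable section

namespace Crest.Agent.T156.Alt.Sup82

open Real
open Crest.Agent.T156.Alt.Tp4 Crest.Agent.T156.Alt.Lp64
open Crest.Agent.T156.Alt.L63 (TL2x TL2y TLq)
open Crest.Agent.T156.Alt.L62 (TLp)
open Crest.Agent.T156.Alt.R77 (Dt OnG Topx)

/-- regime of `TLp` -/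
def RP (p : Pm) (_ t : ℝ) : Prop :=
  logb p.n (p.muG t) ≤ -(4 / 15) + 4 / 5 * logb p.n p.s - p.c / 4
/-- regime of `TLq` -/
def RQ (p : Pm) (_ t : ℝ) : Prop :=
  -(4 / 15) + 4 / 5 * logb p.n p.s - p.c / 4 ≤ logb p.n (p.muG t) ∧ logb p.n (p.muG t) ≤ -(1 / 6)
/-- regime of `LO` -/
def RL (p : Pm) (_ t : ℝ) : Prop := -(1 / 6) ≤ logb p.n (p.muG t)

/-- the leaf of regime P -/
def SupP (e : ℝ) : Dt := fun p σ t S M => RP p σ t → SupT e p σ t S M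
/-- the leaf of regime Q -/
def SupQ (e : ℝ) : Dt := fun p σ t S M => RQ p σ t → SupT e p σ t S M

theorem supT_of {β e : ℝ} (hp : OnG (SupP e) β) (hq : OnG (SupQ e) β) (hl : OnG (LoT e RL) β) :
    OnG (SupT e) β :=
  supT_split hl fun K k => ((hp.and hq) K k).mono fun _ p w c0 C0 η σ t Q a b c r => by
    obtain ⟨w1, w2⟩ := w c0 C0 η σ t Q a b c
    rcases le_total (logb p.n (p.muG t)) (-(4 / 15) + 4 / 5 * logb p.n p.s - p.c / 4) with h | h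
    · exact w1 h
    · exact w2 ⟨h, (not_le.1 r).le⟩

/-- **`Topx`** from block (L) and the three tables -/
theorem topx {β e : ℝ} (hβ : 1 < β) (he : 0 < e) (hx : TL2x) (hy : TL2y) (hp : TLp) (hq : TLq)
    (h1 : OnG (SupP e) β) (h2 : OnG (SupQ e) β) (h3 : OnG (TabT e RL) β) : OnG Topx β :=
  topx_of hβ he hx hy hp hq (supT_of h1 h2 (loT_of hβ he hy h3))

end Crest.Agent.T156.Alt.Sup82

end
end

-- ▼ part T156/HyB_4
section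

/-!
# Row 156 (helper4): `L63.Hy` on the graded path from linear lines in free exponents
-/

set_option autoImplicit false
set_option linter.unusedSectionVars false

noncomputable section

namespace Crest.Agent.T156.Alt.Hl4

open Real Finset
open Crest.Agent.T156.Alt.L69 Crest.Agent.T156.Alt.Ln97 Crest.Agent.T156.Alt.L63
open Crest.Agent.T156.Alt.Lt52 (TL)
open Crest.Agent.T156.Alt.Lt38 (gL tz)
open Crest.Agent.T156.Alt.Kn72 (nu)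

/-- **the lines of `LT2`**: `μ al ρ` = exponents of `θ la r`; `e a0 a ξ L χ2 χ3 χ4 γ ν g T1 Tu lm ε q`
= exponents of `E l0 l x Lg X2 X3 X4 G0 N gT t1 tu ℓ En p0` -/
structure LtL (c η μ al ρ e a0 a ξ L χ2 χ3 χ4 γ ν g T1 Tu lm ε q : ℝ) : Prop where
  rl : ρ ≤ a
  l2 : a0 + η ≤ a
  t1a : a + η ≤ T1
  kN : ν + η ≤ ε
  kΓ : μ + 2 * al + 3 * η ≤ ε
  g1 : Tu + 4 * η ≤ 0 ∨ (μ + al + η ≤ g ∧ 2 / 3 * al + 4 * η ≤ lm ∧ e + g ≤ 3 / 2 * μ)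
  tl : ∀ m, Ms c η μ T1 m → TL η c e a ξ L χ2 χ4 T1 m Tu lm ε q μ ∧ m + 2 * χ2 + 3 * η ≤ ε + T1 ∧
    m + 8 * L - 4 / 3 * (1 + T1 + m) + 3 * η ≤ ε + T1
  ke : ∀ T m, T1 - η ≤ T → T ≤ η → Ms c η μ T m →
    M12 η L ξ χ2 χ3 γ T m ((ε + m - T - 6 * η) / 2)
  kp : ∀ T m, a ≤ T → T ≤ Tu → Ms c η μ T m → M12 η L ξ χ2 χ3 γ T m (q - 6 * η + m - T) ∧
    (T + 4 * η ≤ 0 ∨ g ≤ q - 5 * η + m - T) ∧ T + χ2 + 5 * η ≤ q + m / 2 ∧
    T + 4 * L - 2 / 3 * (1 + T + m) + 5 * η ≤ q + m / 2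

/-- **all the lines of `Hy` but those of `LN`**: `v uu` = exponents of `Vc u2`;
`ξp vt μ1 μ2 lp lc ι κ τ` = exponents of `xp Vt u1 u2 L Lc j ηc τ` (`X = x³`, `Xp = xp³`, `Lp = L³`);
`ε1` = exponent of `η 1` -/
structure HyL (c η μ al ρ v uu e a0 a ξ L χ2 χ3 χ4 γ ν g T1 Tu lm ε q
    ξp vt μ1 μ2 lp lc ι κ τ ε1 : ℝ) : Prop where
  lt : LtL c η μ al ρ e a0 a ξ L χ2 χ3 χ4 γ ν g T1 Tu lm ε q
  fl : Hy43.FL η e a0 (3 * ξ) (3 * ξp) ι L lm μ al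
  e1 : M12 η L ξ χ2 χ3 γ 0 μ (ε1 - η)
  el : ∃ p2 p3 d1 d2 q' r lm' z b α ε' a' m β δ, Lq3.EL η e μ al v uu ξp vt μ1 μ2 lp L lc χ2 χ3 γ ι κ τ
    ε1 ν p2 p3 d1 d2 q' r lm' z b α ε' a' m β δ

variable {β c0 C0 : ℝ} {A : ℕ} {c η K' ε0 K c0' C0' η' : ℝ} {p : Pm} {σ t : ℝ} {Q : Pl}
  (G : Gd66 β c0 C0 A c η K' ε0 K c0' C0' η' p σ t Q)
include G

theorem cx (hc : c ≤ 1 / 2000) : Nr44.Cx β c0 C0 A c η K' p σ t :=
  ⟨G.R, hc, by linarith [ηc G, G.R.η_pos], G.O⟩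

/-- exponent of the corner level -/
theorem lg_sJ : 0 < (p.gst Q t).s (p.scG K σ t Q).J ∧
    -(4 * η) ≤ logb p.n ((p.gst Q t).s (p.scG K σ t Q).J) ∧
    logb p.n ((p.gst Q t).s (p.scG K σ t Q).J) ≤ η := by
  have H := G.R
  have cl := G.D.cl.1
  have a := Lp64.sJ3 cl
  have C0 := cl.C0
  have b := lg_C G C0 le_rfl
  have d := cl.s_le_C cl.i3
  have s0 : 0 < (p.gst Q t).s (p.scG K σ t Q).J :=
    (mul_pos_iff_of_pos_left (by positivity)).1 (one_pos.trans_le a)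
  refine ⟨s0, ?_, lg_C G s0 d⟩
  have e := H.lg_mono one_pos a
  have n3 := (H.lg_num (x := 3) (by norm_num) (by norm_num)).2
  generalize (p.scG K σ t Q).C = C at *
  rw [logb_one, logb_mul (by positivity) s0.ne', logb_mul (by norm_num) (by positivity),
    logb_pow] at e
  push_cast at e
  linarith

section fx

variable {E l0 l x X Lg X2 X3 G0 b : ℝ}
  (h : FX E (p.scG K σ t Q) (p.gst Q t) l0 l x X Lg ((p.n : ℝ) ^ (-(2 : ℝ) / 3)) X2 X3 G0)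
  (E0 : 0 < E) (e5 : 5 * η ≤ logb p.n E)
include h E0 e5

/-- the top levels -/
theorem top_lv {y : ℝ} (y0 : 0 < y) (hy : -(5 * η) ≤ logb p.n y) :
    l ≤ y ∧ (p.scG K σ t Q).ms y = p.muG t := by
  have H := G.R
  have l1 := H.lg_np (mul_pos E0 h.lp) h.l1
  rw [logb_mul E0.ne' h.lp.ne'] at l1
  refine ⟨H.le_of_lg h.lp y0 (by linarith), H.msG_hi t (H.le_of_lg H.ye0 y0 ?_)⟩
  rw [H.lg_ye]; linarith [ηc G, H.η_pos]

/-- **`η` on the top levels** -/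
theorem eta_top {y T : ℝ} (y0 : 0 < y) (hT : -(5 * η) ≤ T) (hy : T ≤ logb p.n y)
    (m : M12 η (logb p.n Lg) (logb p.n x) (logb p.n X2) (logb p.n X3) (logb p.n G0) T
      (logb p.n (p.muG t)) b) :
    eta (p.scG K σ t Q) l Lg ((p.n : ℝ) ^ (-(2 : ℝ) / 3)) X X2 X3 G0 y ≤ (p.n : ℝ) ^ (b + η) := by
  obtain ⟨a1, a2⟩ := top_lv G h E0 e5 y0 (hT.trans hy)
  exact Lt76.eta_lg G.R h rfl rfl a1 (m12_up m hy (by rw [a2]))

/-- **the local size on the top levels** -/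
theorem bs_top {y T g B : ℝ} (y0 : 0 < y) (hT : -(5 * η) ≤ T) (hy : T ≤ logb p.n y)
    (m : M12 η (logb p.n Lg) (logb p.n x) (logb p.n X2) (logb p.n X3) (logb p.n G0) T
      (logb p.n (p.muG t)) b) (hg : g ≤ (p.n : ℝ) ^ (b + η))
    (k : Lt76.BL η (logb p.n Lg) (logb p.n X2) T (logb p.n (p.muG t)) b 0 B) :
    bs (p.scG K σ t Q) Lg X2 g (eta (p.scG K σ t Q) l Lg ((p.n : ℝ) ^ (-(2 : ℝ) / 3)) X X2 X3 G0) y ≤
      (p.n : ℝ) ^ (B + η) := by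
  obtain ⟨a1, a2⟩ := top_lv G h E0 e5 y0 (hT.trans hy)
  have := Lt76.bs_lg (B := B) G.R h rfl rfl a1 one_pos (m12_up m hy (by rw [a2])) hg (by
    rw [a2, logb_one]; exact ⟨k.k1, k.k2, by linarith [k.k3]⟩)
  rwa [one_mul] at this

omit h E0 e5 in
/-- `[sJ / 64, sJ]` is on the top levels -/
theorem lv64 {y : ℝ} (hy : (p.gst Q t).s (p.scG K σ t Q).J / 64 ≤ y) :
    0 < y ∧ -(5 * η) ≤ logb p.n y := by
  obtain ⟨s0, s1, -⟩ := lg_sJ G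
  have y0 : 0 < (p.gst Q t).s (p.scG K σ t Q).J / 64 := by positivity
  have a := G.R.lg_mono y0 hy
  rw [logb_div s0.ne' (by norm_num)] at a
  exact ⟨y0.trans_le hy, by linarith [(G.R.lg_num (x := 64) (by norm_num) (by norm_num)).2]⟩

omit e5 in
/-- **`LT2` from the lines** -/
theorem lt2 {Xp X4 N gT t1 tu ℓ En p0 : ℝ} (x4 : 0 < X4) (N0 : 0 < N) (g0 : 0 < gT) (t0 : 0 < t1)
    (u0 : 0 < tu) (ℓ0 : 0 < ℓ) (e0 : 0 < En) (q0 : 0 < p0)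
    (tu1 : tu ≤ (p.gst Q t).s (p.scG K σ t Q).J)
    (T : LtL c η (logb p.n (p.muG t)) (logb p.n (p.laG σ)) (logb p.n p.r) (logb p.n E) (logb p.n l0)
      (logb p.n l) (logb p.n x) (logb p.n Lg) (logb p.n X2) (logb p.n X3) (logb p.n X4)
      (logb p.n G0) (logb p.n N) (logb p.n gT) (logb p.n t1) (logb p.n tu) (logb p.n ℓ)
      (logb p.n En) (logb p.n p0)) :
    LT2 E (p.scG K σ t Q) (p.gst Q t) l0 l X Xp Lg X2 X4 (gL K gT) t1 tu ℓ N En p0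
      (eta (p.scG K σ t Q) l Lg ((p.n : ℝ) ^ (-(2 : ℝ) / 3)) X X2 X3 G0) := by
  have H := G.R
  have lp := h.lp
  have η0 := H.η_pos
  have n0 := H.N0
  have θ0 := H.muG_pos G.M
  have a0 := H.laG0 G.M0
  have K1 := G.D.nb.K1
  have ηc' := ηc G
  have rl : p.r ≤ l := H.le_of_lg H.r0 lp T.rl
  have t1a : 2 * l ≤ t1 := Lt76.num_le H (by norm_num) lp t0 T.t1a
  have M1 := ms_lg H G.M (show p.r ≤ t1 by linarith)
  obtain ⟨T1, k2, k3⟩ := T.tl _ M1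
  have n2 := (H.lg_num (x := 2) (by norm_num) (by norm_num)).2
  have lu := lg_C G u0 (tu1.trans (G.D.cl.1.s_le_C G.D.cl.1.i3))
  have gs := Hy43.G_le H G.O G.D G.X G.BK 0 (8 * K ^ 2)
  have gp : 0 ≤ GP (p.gst Q t) (p.scG K σ t Q) := sum_nonneg fun k _ => Lp64.tm0 G.D.cl.1 _ k
  refine Lt52.lt2_lg (Γ := ((p.n : ℝ) ^ η * (p.muG t * p.laG σ)) ^ 2)
    (b := (logb p.n En + logb p.n t1 - 5 * η) / 2) (B := (logb p.n En + logb p.n t1 - 3 * η) / 2)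
    H G.D G.CK G.O h E0 x4 ℓ0 u0 e0 q0 g0.le (Lt76.num_le H (by norm_num) h.l00 lp T.l2) rl t1a tu1
    ?_ ?_ (by linarith) (Lt76.num_le H (by norm_num) (by positivity) (by positivity) ?_)
    (Lt76.num_le H (by norm_num) N0 e0 T.kN) T1
    ((T.ke _ _ (by linarith) (by linarith [T1.t1b, T1.e5]) M1).mono (by linarith [M1.u1]))
    ⟨by linarith, by linarith, by linarith⟩ (by linarith) (fun r r1 r2 => ?_) fun r r1 r2 => ?_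
  · rcases T.g1 with a | ⟨a1, a2, -⟩
    · have := Lt52.tz_of H G.D G.CK u0 a
      exact Lt52.g1_lo G.D g0.le (by linarith) ℓ0.le
    · have U : 0 < Plt13.u0 p (p.mt (p.muG σ)) ∧
          logb p.n (Plt13.u0 p (p.mt (p.muG σ))) = 2 / 3 * logb p.n (p.laG σ) :=
        ⟨rpow_pos_of_pos a0 _, logb_rpow_eq_mul_logb_of_pos a0⟩
      have lg0 : 0 < log p.n := by linarith [H.log1]
      have C0 : 0 < 8 * K ^ 2 := by positivity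
      have c1 := H.lg_le C0 G.CK
      have c2 := H.lg_le (show 0 < 4 * K by positivity) (by linarith [G.BK])
      refine Lt38.g1_off H G.O G.D G.X ?_ tu1 ?_
      · rw [show 4 * (p.muG t * K * p.laG σ) = 4 * K * (p.muG t * p.laG σ) by ring]
        refine H.le_of_lg (by positivity) g0 ?_
        rw [logb_mul (by positivity) (by positivity), logb_mul θ0.ne' a0.ne']
        linarith
      · rw [mul_assoc]
        have := U.1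
        refine Lt76.num_le H (by norm_num) (by positivity) ℓ0 ?_
        rw [logb_mul (by positivity) (by positivity), logb_mul lg0.ne' U.1.ne', logb_pow, U.2]
        push_cast
        linarith [H.lg_log.2]
  · refine T.g1.imp (Lt52.tz_of H G.D G.CK u0) fun a => H.le_of_lg (by positivity) (by positivity) ?_
    lg_norm; linarith [a.2.2]
  · lg_norm; rw [H.lg_n]; linarith [T.kΓ]
  · have r0 : 0 < r := by linarith
    have d := H.lg_mono (half_pos t0) r1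
    rw [logb_div t0.ne' two_ne_zero] at d
    exact ⟨_, T.ke _ _ (by linarith) (H.lg_le r0 (r2.trans G.CK)) (ms_lg H G.M (by linarith)),
      by linarith⟩
  · have r0 := lp.trans_le r1
    obtain ⟨a1, a2, a3, a4⟩ := T.kp _ _ (H.lg_mono lp r1) (H.lg_mono r0 r2)
      (ms_lg H G.M (rl.trans r1))
    exact ⟨_, a1, a2.imp (Lt52.tz_of H G.D G.CK r0) fun a =>
      H.le_of_lg g0 (H.rp0 _) (by rw [H.lg_rp]; linarith), by linarith, by linarith, by linarith⟩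

end fx

variable (hc : c ≤ 1 / 2000) {m : ℕ}
  {a E l0 l x xp Vt u1 u2 L Lg Lc X2 X3 X4 G0 j ηc τ N gT t1 tu ℓ En p0 ε1 : ℝ}
include hc

/-- **`Hy` from `FX`, `LN` and the lines** -/
theorem hy' (fx : FX E (p.scG K σ t Q) (p.gst Q t) l0 l x (x ^ 3) Lg ((p.n : ℝ) ^ (-(2 : ℝ) / 3)) X2 X3 G0)
    (ln : LN E (p.scG K σ t Q) (p.gst Q t) l0 l ((x ^ 3) ^ ((1 : ℝ) / 3)) (x ^ 3) Lg X2 X3 G0
      (eta (p.scG K σ t Q) l Lg ((p.n : ℝ) ^ (-(2 : ℝ) / 3)) (x ^ 3) X2 X3 G0))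
    (E0 : 0 < E) (xp0 : 0 < xp) (V0 : 0 < Vt) (u10 : 0 < u1) (u20 : 0 < u2) (L0 : 0 < L)
    (Lc0 : 0 < Lc) (Z0 : 0 < X3) (x4 : 0 < X4) (G00 : 0 < G0) (j0 : 0 < j) (k0 : 0 < ηc) (τ0 : 0 < τ)
    (N0 : 0 < N) (g0 : 0 < gT) (t0 : 0 < t1) (u0 : 0 < tu) (ℓ0 : 0 < ℓ) (e0 : 0 < En) (q0 : 0 < p0)
    (hΦ : (p.gst Q t).Phi (p.scG K σ t Q) m a ≤ x ^ 3)
    (top : x ^ 3 ≤ xp ^ 3 ∨ (p.gst Q t).En (p.scG K σ t Q) m a (p.gst Q t).q 2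
      ((p.gst Q t).s (p.scG K σ t Q).J / 2) (p.scG K σ t Q).C ≤ xp ^ 3)
    (vt : ∀ k, (p.scG K σ t Q).J ≤ k → k ≤ (p.scG K σ t Q).Jp → u1 ≤ du (p.gst Q t) k →
      (p.gst Q t).del m a k ≤ Vt)
    (tu1 : tu ≤ (p.gst Q t).s (p.scG K σ t Q).J)
    (T : HyL c η (logb p.n (p.muG t)) (logb p.n (p.laG σ)) (logb p.n p.r)
      (logb p.n (p.Vc (nu p σ))) (logb p.n (p.u2 (nu p σ))) (logb p.n E) (logb p.n l0)
      (logb p.n l) (logb p.n x) (logb p.n Lg) (logb p.n X2) (logb p.n X3) (logb p.n X4)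
      (logb p.n G0) (logb p.n N) (logb p.n gT) (logb p.n t1) (logb p.n tu) (logb p.n ℓ)
      (logb p.n En) (logb p.n p0) (logb p.n xp) (logb p.n Vt) (logb p.n u1) (logb p.n u2)
      (logb p.n L) (logb p.n Lc) (logb p.n j) (logb p.n ηc) (logb p.n τ) ε1) :
    Hy E (p.scG K σ t Q) (p.gst Q t) m a 0 u1 u2 j 0 Lc ηc τ l0 l (x ^ 3) (xp ^ 3) Vt Lg (L ^ 3) X2 X3
      X4 G0 (eta (p.scG K σ t Q) l Lg ((p.n : ℝ) ^ (-(2 : ℝ) / 3)) (x ^ 3) X2 X3 G0) N (gL K gT)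
      t1 tu ℓ En p0 := by
  have H := G.R
  have B := Tr3.B.of H
  have lt := lt2 (Xp := xp ^ 3) G fx E0 x4 N0 g0 t0 u0 ℓ0 e0 q0 tu1 T.lt
  have rl : p.r ≤ t1 := by
    linarith [H.le_of_lg H.r0 fx.lp T.lt.rl, lt.t1a, fx.lp]
  have e5 := (T.lt.tl _ (ms_lg H G.M rl)).1.e5
  have e1 := eta_top G fx E0 e5 one_pos (by linarith [H.η_pos]) logb_one.ge T.e1
  rw [sub_add_cancel] at e1
  obtain ⟨_, _, _, _, _, _, _, _, _, _, _, _, _, _, _, Z⟩ := T.el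
  refine Hy43.hy H G.O G.D G.X G.BK hΦ top vt E0 fx.l00 j0 u10 fx.Lgp ℓ0 ?_ ln
    (Lq3.lp_lg (cx G hc) G.D G.A4 G.X (Lq3.tl B E0) (Lq3.tl B xp0) (B.ul V0) (Lq3.tl B u10)
      (Lq3.tl B u20) (Lq3.tl B L0) (Lq3.tl B fx.Lgp) (Lq3.tl B Lc0) (Lq3.tl B fx.X20) (Lq3.tl B Z0)
      (Lq3.tl B G00) (B.ul j0) (Lq3.tl B k0) (Lq3.tl B τ0) (B.dl N0) ⟨(fx.eta_pos _).le, e1⟩ Z) lt
  rw [logb_pow, logb_pow]
  exact_mod_cast T.fl

/-- `n ^ a` -/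
abbrev pw (p : Pm) (a : ℝ) : ℝ := (p.n : ℝ) ^ a

/-- the function `η` of the table -/
abbrev etaN (p : Pm) (S : Sc) (a ξ L χ2 χ3 γ : ℝ) : ℝ → ℝ :=
  eta S (pw p a) (pw p L) ((p.n : ℝ) ^ (-(2 : ℝ) / 3)) (pw p ξ ^ 3) (pw p χ2) (pw p χ3) (pw p γ)

omit hc in
/-- `FX` for a table of pure powers -/
theorem fxN {e a0 a' ξ L χ2 χ3 γ : ℝ}
    (h : LnL c η (logb p.n (p.muG t)) (logb p.n p.r) e a0 a' ξ L χ2 χ3 γ) :
    FX (pw p e) (p.scG K σ t Q) (p.gst Q t) (pw p a0) (pw p a') (pw p ξ) (pw p ξ ^ 3) (pw p L)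
      ((p.n : ℝ) ^ (-(2 : ℝ) / 3)) (pw p χ2) (pw p χ3) (pw p γ) :=
  have r := G.R.rp0
  fx G (r _) (r _) (r _) (r _) rfl (r _) (r _) (r _) (r _) (by simpa only [G.R.lg_rp] using h)

/-- **`Hy` for a table of pure powers** (`tu` is free) -/
theorem hyN {e a0 a' ξ L χ2 χ3 χ4 γ ν g T1 lm ε q ξp vt μ1 μ2 lp lc ι κ τ : ℝ}
    (h : LnL c η (logb p.n (p.muG t)) (logb p.n p.r) e a0 a' ξ L χ2 χ3 γ)
    (hΦ : (p.gst Q t).Phi (p.scG K σ t Q) m a ≤ pw p ξ ^ 3)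
    (top : pw p ξ ^ 3 ≤ pw p ξp ^ 3 ∨ (p.gst Q t).En (p.scG K σ t Q) m a (p.gst Q t).q 2
      ((p.gst Q t).s (p.scG K σ t Q).J / 2) (p.scG K σ t Q).C ≤ pw p ξp ^ 3)
    (hv : ∀ k, (p.scG K σ t Q).J ≤ k → k ≤ (p.scG K σ t Q).Jp → pw p μ1 ≤ du (p.gst Q t) k →
      (p.gst Q t).del m a k ≤ pw p vt)
    (u0 : 0 < tu) (tu1 : tu ≤ (p.gst Q t).s (p.scG K σ t Q).J)
    (T : HyL c η (logb p.n (p.muG t)) (logb p.n (p.laG σ)) (logb p.n p.r)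
      (logb p.n (p.Vc (nu p σ))) (logb p.n (p.u2 (nu p σ))) e a0 a' ξ L χ2 χ3 χ4 γ ν g T1
      (logb p.n tu) lm ε q ξp vt μ1 μ2 lp lc ι κ τ ε1) :
    Hy (pw p e) (p.scG K σ t Q) (p.gst Q t) m a 0 (pw p μ1) (pw p μ2) (pw p ι) 0 (pw p lc) (pw p κ)
      (pw p τ) (pw p a0) (pw p a') (pw p ξ ^ 3) (pw p ξp ^ 3) (pw p vt) (pw p L) (pw p lp ^ 3)
      (pw p χ2) (pw p χ3) (pw p χ4) (pw p γ) (etaN p (p.scG K σ t Q) a' ξ L χ2 χ3 γ) (pw p ν)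
      (gL K (pw p g)) (pw p T1) tu (pw p lm) (pw p ε) (pw p q) :=
  have r := G.R.rp0
  hy' G hc (fxN G h) (ln G (r _) (r _) (r _) (r _) rfl (r _) (r _) (r _) (r _)
    (by simpa only [G.R.lg_rp] using h)) (r _) (r _) (r _) (r _) (r _) (r _) (r _) (r _) (r _) (r _)
    (r _) (r _) (r _) (r _) (r _) (r _) u0 (r _) (r _) (r _) hΦ top hv tu1
    (by simpa only [G.R.lg_rp] using T)

end Crest.Agent.T156.Alt.Hl4

end
end

-- ▼ part T156/LoA_17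
section

/-!
# Row 156 (helper17): the table of the `LO` pass for `lg θ ≥ -1/6`, linear lines
-/

set_option autoImplicit false
set_option maxHeartbeats 4000000

noncomputable section

namespace Crest.Agent.T156.Alt.Lo17

open Crest.Agent.T156.Alt.Hl4 Crest.Agent.T156.Alt.Ln97

def xi (μ S : ℝ) : ℝ := -(313 / 2000) - 11 / 200 * μ + 103 / 125 * S
def a0 (S : ℝ) : ℝ := -(3 / 20) + 71 / 100 * S
def a1 (μ S : ℝ) : ℝ := -(123 / 1000) - 13 / 200 * μ + S / 4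
def x2 (μ S : ℝ) : ℝ := -(433 / 1000) - 13 / 125 * μ + 371 / 200 * S
def x3 (μ : ℝ) : ℝ := -(53 / 100) - μ / 10
def ga (μ S : ℝ) : ℝ := -(341 / 1000) - 13 / 125 * μ + 11 / 100 * S
def io (μ S : ℝ) : ℝ := -(29 / 125) - 33 / 400 * μ + 309 / 250 * S
def t1 (μ S : ℝ) : ℝ := -(233 / 2000) - 33 / 800 * μ + 309 / 500 * S
def uL (μ : ℝ) : ℝ := -(51 / 100) - 1 / 3 - μ

/-- the range: `μ S` = exponents of `θ s` -/
structure Rg (c η e μ S : ℝ) : Prop where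
  c1 : c ≤ 1 / 100000
  η0 : 0 < η
  η1 : 100 * η ≤ e
  e1 : 100000 * e = c
  μ0 : -(1 / 6) ≤ μ
  μ1 : μ ≤ -(7 * c)
  S0 : 0 ≤ S
  S1 : S ≤ 1 / 19

/-- `al y w` = exponents of `la`, of the a priori top energy, of the next one -/
structure Tp (c η μ S al y w : ℝ) : Prop where
  l0 : -(1 / 3) - c / 2 - μ / 2 ≤ al
  l1 : al ≤ -(1 / 3) - c / 2 - μ / 2 + η
  w0 : 3 / 5 * c + 2 * al ≤ w
  w1 : w ≤ y
  w2 : y - c / 50 ≤ w
  y1 : y ≤ 3 * xi μ S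
  w3 : (S ≤ -μ ∧ -(2 / 3) - μ + 2 * S - c ≤ w) ∨ (-μ - 2 * c ≤ S ∧ -(2 / 3) - 3 * μ - 5 * c ≤ w)

variable {c η e μ S al v uu y w : ℝ} (R : Rg c η e μ S)
include R

theorem lnL : LnL c η μ (S + c / 7 - 1 / 6) e (a0 S) (a1 μ S) (xi μ S) (3 * e) (x2 μ S) (x3 μ)
    (ga μ S) := by
  obtain ⟨c1, η0, η1, e1, μ0, μ1, S0, S1⟩ := R
  unfold a0 a1 xi x2 x3 ga
  refine ⟨⟨by linarith, by linarith⟩, by linarith, by linarith, fun m0 m h0 h => ?_,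
    fun T Y m T0 T1 hY h => ?_, fun T Y m T0 T1 hY h => ?_, fun m h => ?_, fun m h => ?_⟩
  · refine ⟨?_, by linarith, by linarith, by linarith, by linarith, by linarith, ?_, ?_,
      ⟨by linarith, by linarith⟩, ⟨by linarith, by linarith⟩, ⟨by linarith, by linarith⟩, ?_⟩
    · rcases h0.lo with ⟨a, b | b⟩ | ⟨a, b⟩ <;> linarith
    all_goals rcases h.lo with ⟨a, b | b⟩ | ⟨a, b⟩ <;> linarith
  · rcases h.lo with ⟨a, b | b⟩ | ⟨a, b⟩ <;> rcases hY with d | d <;>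
      exact ⟨.inr ⟨by linarith, by linarith⟩, .inr ⟨by linarith, by linarith⟩⟩
  · rcases h.lo with ⟨a, b | b⟩ | ⟨a, b⟩ <;> rcases hY with d | d <;> linarith
  · rcases h.lo with ⟨a, b | b⟩ | ⟨a, b⟩ <;> linarith
  · rcases h.lo with ⟨a, b | b⟩ | ⟨a, b⟩ <;> constructor <;> linarith

theorem e1L : M12 η (3 * e) (xi μ S) (x2 μ S) (x3 μ) (ga μ S) 0 μ (-(9 / 20) - η) := by
  obtain ⟨c1, η0, η1, e1, μ0, μ1, S0, S1⟩ := R
  unfold xi x2 x3 ga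
  constructor <;> linarith

variable (P : Tp c η μ S al y w)
include P

theorem flL : Hy43.FL η e (a0 S) (3 * xi μ S) (3 * (y / 3)) (io μ S) (3 * e) (2 / 5 * μ - e) μ
    al := by
  obtain ⟨c1, η0, η1, e1, μ0, μ1, S0, S1⟩ := R
  obtain ⟨l0, l1, w0, w1, w2, y1, -⟩ := P
  unfold a0 xi io at *
  constructor <;> linarith

theorem ltL : LtL c η μ al (S + c / 7 - 1 / 6) e (a0 S) (a1 μ S) (xi μ S) (3 * e) (x2 μ S) (x3 μ)
    (-(27 / 40)) (ga μ S) (μ + w - 2 * η) 0 (t1 μ S) (2 / 5 * μ) (2 / 5 * μ - e) (μ + w - η)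
    ((μ + w - η - t1 μ S) / 2) := by
  obtain ⟨c1, η0, η1, e1, μ0, μ1, S0, S1⟩ := R
  obtain ⟨l0, l1, w0, w1, w2, y1, w3⟩ := P
  unfold a0 a1 xi x2 x3 ga t1 at *
  refine ⟨by linarith, by linarith, by linarith, by linarith, by linarith, .inl (by linarith),
    fun m h => ?_, fun T m T0 T1 h => ?_, fun T m T0 T1 h => ?_⟩
  · rcases w3 with ⟨d, f⟩ | ⟨d, f⟩ <;> rcases h.lo with ⟨a, b | b⟩ | ⟨a, b⟩ <;>
      refine ⟨?_, by linarith [h.u1, h.u2], by linarith⟩ <;> constructor <;> linarith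
  · rcases w3 with ⟨d, f⟩ | ⟨d, f⟩ <;> rcases h.lo with ⟨a, b | b⟩ | ⟨a, b⟩ <;> constructor <;>
      linarith
  · rcases w3 with ⟨d, f⟩ | ⟨d, f⟩ <;> rcases h.lo with ⟨a, b | b⟩ | ⟨a, b⟩ <;>
      refine ⟨?_, .inl (by linarith), by linarith, by linarith⟩ <;> constructor <;> linarith

theorem elL (hv : v = -(1 / 6) + 3 * c / 4) (u0 : -(5 / 6) - c / 4 - μ ≤ uu)
    (u1 : uu ≤ -(5 / 6) - c / 4 - μ + η) :
    Lq3.EL η e μ al v uu (y / 3) (31 / 100 * μ) (uL μ) (uL μ) 0 (3 * e) (y / 3 - 2 / 3 * al + η)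
      (x2 μ S) (x3 μ) (ga μ S) (io μ S) (-(9 / 20)) (2 / 3 * al) (-(9 / 20)) (μ + w - 2 * η)
      (-(23 / 40) - 41 / 100 * μ) (x3 μ) (uL μ - η) (uL μ - η) (21 / 125 + 31 / 100 * μ)
      (-(29 / 50) - 41 / 100 * μ) η (-(3 / 4)) (-(4 / 5)) 0 (μ + w / 2 - η)
      (μ - xi μ S / 2 - 1 / 1000) (y / 3) (μ + w / 2 - η) (μ - e) := by
  obtain ⟨c1, η0, η1, e1, μ0, μ1, S0, S1⟩ := R
  obtain ⟨l0, l1, w0, w1, w2, y1, w3⟩ := P
  subst hv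
  unfold xi x2 x3 ga io uL at *
  have D : Lq3.LD η (2 / 3 * al) uu (-(51 / 100) - 1 / 3 - μ) (-(51 / 100) - 1 / 3 - μ - η) := by
    constructor <;> linarith
  have q : Lq3.LQ η al (-(1 / 6) + 3 * c / 4) uu (y / 3) (31 / 100 * μ) (21 / 125 + 31 / 100 * μ) :=
    .inr ⟨by linarith, by linarith⟩
  refine ⟨⟨by linarith, by linarith, by linarith, D, ?_⟩, D, ?_, ?_⟩
  · constructor <;> first | exact q | linarith | exact .inl (by linarith)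
  · constructor <;> linarith
  · rcases w3 with ⟨d, f⟩ | ⟨d, f⟩ <;> constructor <;> first
      | exact q | linarith | exact .inr (by linarith)
      | exact .inl ⟨by linarith, by linarith, by linarith, by linarith⟩
      | exact ⟨by linarith, by linarith, .inl le_rfl, by linarith, by linarith, by linarith⟩

/-- **all the lines** -/
theorem hyL (hv : v = -(1 / 6) + 3 * c / 4) (u0 : -(5 / 6) - c / 4 - μ ≤ uu)
    (u1 : uu ≤ -(5 / 6) - c / 4 - μ + η) :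
    HyL c η μ al (S + c / 7 - 1 / 6) v uu e (a0 S) (a1 μ S) (xi μ S) (3 * e) (x2 μ S) (x3 μ)
      (-(27 / 40)) (ga μ S) (μ + w - 2 * η) 0 (t1 μ S) (2 / 5 * μ) (2 / 5 * μ - e) (μ + w - η)
      ((μ + w - η - t1 μ S) / 2) (y / 3) (31 / 100 * μ) (uL μ) (uL μ) 0 (y / 3 - 2 / 3 * al + η)
      (io μ S) (-(9 / 20)) (2 / 3 * al) (-(9 / 20)) :=
  ⟨ltL R P, flL R P, e1L R, ⟨_, _, _, _, _, _, _, _, _, _, _, _, _, _, _, elL R P hv u0 u1⟩⟩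

end Crest.Agent.T156.Alt.Lo17

end
end

-- ▼ part T156/LoT_17
section

/-!
# Row 156 (helper17): the table of the `LO` pass for `lg θ ≥ -1/6` on the graded path
-/

set_option autoImplicit false

noncomputable section

namespace Crest.Agent.T156.Alt.Lo17

open Real
open Crest.Agent.T156.Alt.Hl4 Crest.Agent.T156.Alt.Tp4
open Crest.Agent.T156.Alt.R77 (OnG Vtx)

section X

variable {β c0 C0 : ℝ} {A : ℕ} {c η K' : ℝ} {p : Pm} {σ t : ℝ}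
  (X : Nr44.Cx β c0 C0 A c η K' p σ t) (hc : c ≤ 1 / 100000)
  (r : -(1 / 6) ≤ logb p.n (p.muG t))
include X hc r

theorem lg_Ph : logb p.n (p.PhN t) ≤ 3 * xi (logb p.n (p.muG t)) (logb p.n p.s) := by
  obtain ⟨c0, c1, e0, e1, s0, s1, x0, x1, m0, m1, m2, up⟩ := Nr44.ex X.H X.hy
  unfold xi
  rcases up with up | up | ⟨up, _, _⟩ | up | ⟨up, _⟩ | up | up | ⟨up, _, _⟩ | ⟨up, _⟩ | up |
    ⟨up, _⟩ <;> linarith

omit hc in
theorem lg_u : logb p.n (p.uL t) = uL (logb p.n (p.muG t)) := by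
  rw [Lt15.lg_uL X, Lt15.lg_xM_eq X, max_eq_right (by linarith), uL]; ring

theorem lg_V (hv : logb p.n (p.Vc (Kn72.nu p σ)) = -(1 / 6) + 3 * c / 4) :
    logb p.n (p.VL σ t) ≤ 31 / 100 * logb p.n (p.muG t) := by
  have a := lg_Ph X hc r
  have b := (X.H.lg_muG' X.Mt).2
  have d := X.H.lg_s
  have := X.H.c_pos
  unfold xi at a
  rw [Lt15.lg_VL X, Lt15.lg_xM_eq X, max_eq_right (a := 0) (by linarith), hv, ← le_sub_iff_add_le']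
  exact max_le (max_le (by linarith) (by linarith)) (max_le (by linarith [d.2]) (by linarith))

end X

/-- **the table of the pass** -/
theorem tabT {β : ℝ} (hβ : 1 < β) (hV : OnG Vtx β) :
    OnG (Lp64.TabT (1 / 100000) fun p _ t => -(1 / 6) ≤ logb p.n (p.muG t)) β := by
  refine OnG.cl' hβ CL.triv hV one_pos (show (0 : ℝ) < 1 / 100000 by norm_num) (10 ^ 7) 0
    (fun _ => 1) ?_
  intro K c0 C0 A c η K' c0' C0' η' p σ t Q G hc _ hη _ _ V m a hm h1 h2 r y y0 y1 y2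
  have H := G.R
  have X := cx G (by linarith)
  have η0 := H.η_pos
  have c0 := H.c_pos
  push_cast at hη
  have L := Lx13.lg_gst X G.D
  have B0 := Bt0 X
  have Y0 := B0.trans_le y0
  have θ0 := X.θ0
  have W0 : 0 < max ((p.n : ℝ) ^ (-(p.c / 50)) * y) (Bt p σ t) := lt_max_of_lt_right B0
  have n2 := L.ν2
  rw [max_eq_left (by linarith)] at n2
  obtain ⟨-, l1, l2, l3⟩ := L.pl.resolve_right fun h => by linarith [h.1, L.ν1.1]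
  have R : Rg c η (1 / 100000 * c) (logb p.n (p.muG t)) (logb p.n p.s) :=
    ⟨hc, η0, by linarith, by ring, r, L.μ1.2, H.lg_s.1, H.lg_s.2⟩
  have Ph := lg_Ph X hc r
  have b := lg_Bt X
  have b1 := H.lg_mono B0 y0
  have b2 := H.lg_mono Y0 y1
  have s0 := Kn17.lg_sM H G.M
  have s1 := X.lg_sM
  have P : Tp c η (logb p.n (p.muG t)) (logb p.n p.s) (logb p.n (p.laG σ)) (logb p.n y)
      (logb p.n (max ((p.n : ℝ) ^ (-(p.c / 50)) * y) (Bt p σ t))) := by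
    rw [lg_max H.N1 (mul_pos (H.rp0 _) Y0) B0, logb_mul (H.rp0 _).ne' Y0.ne', H.lg_rp, H.hc]
    have w1 := le_max_left (-(c / 50) + logb p.n y) (logb p.n (Bt p σ t))
    have w2 := le_max_right (-(c / 50) + logb p.n y) (logb p.n (Bt p σ t))
    exact ⟨by linarith, by linarith [L.ν1.1], by linarith [s1.1], max_le (by linarith) b1,
      by linarith, by linarith, s0.2.2.imp (fun h => ⟨by linarith [s1.2.2], by linarith⟩)
        fun h => ⟨by linarith [s1.2.1], by linarith⟩⟩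
  have T := hyL R P l2 (uu := logb p.n (p.u2 (Kn72.nu p σ))) (by linarith) (by linarith [L.ν1.1])
  have N := lnL R
  rw [← H.lg_r] at T N
  generalize hw : logb p.n (max ((p.n : ℝ) ^ (-(p.c / 50)) * y) (Bt p σ t)) = w at P T
  obtain ⟨j0, j1, -⟩ := lg_sJ G
  have p3 : ∀ x : ℝ, logb p.n (pw p x ^ 3) = 3 * x := fun x => by
    rw [logb_pow, H.lg_rp]; norm_num
  have e : pw p (logb p.n y / 3) ^ 3 = y := by
    refine le_antisymm (H.le_of_lg (pow_pos (H.rp0 _) 3) Y0 ?_) (H.le_of_lg Y0 (pow_pos (H.rp0 _) 3) ?_)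
    all_goals rw [p3]; linarith
  have Z := hyN G (by linarith) (m := m) (a := a) (tu := pw p (2 / 5 * logb p.n (p.muG t)))
    (μ1 := uL (logb p.n (p.muG t))) (vt := 31 / 100 * logb p.n (p.muG t)) N
    (h1.trans (H.le_of_lg X.Ph0 (pow_pos (H.rp0 _) 3) (by rw [p3]; exact Ph)))
    (.inr (y2.trans e.ge))
    (fun k k1 k2 k3 => (V ((Lt15.need_iff X).2 (by linarith)) ((Lt15.need2_iff X).2
      (.inr (by linarith))) m a hm h1 k k1 k2 ((H.le_of_lg (Lt15.uL0 X) (H.rp0 _)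
        (by rw [H.lg_rp, lg_u X r])).trans k3)).trans
      (H.le_of_lg (Lt15.VL0 X) (H.rp0 _) (by rw [H.lg_rp]; exact lg_V X hc r l2)))
    (H.rp0 _) (H.le_of_lg (H.rp0 _) j0 (by rw [H.lg_rp]; linarith [L.μ1.2]))
    (by rw [H.lg_rp]; exact T)
  rw [H.hc]
  refine ⟨_, _, _, _, _, _, _, _, _, _, _, _, _, _, _, _, _, _, _, _, _, _, _, _, _, _, _, Z,
    H.le_of_lg (H.rp0 _) B0 ?_, ?_⟩
  · rw [H.lg_rp, uL]; linarith [s1.1, P.l0]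
  · rw [H.hc] at hw W0
    have z : pw p (t1 (logb p.n (p.muG t)) (logb p.n p.s)) *
        pw p ((logb p.n (p.muG t) + w - η - t1 (logb p.n (p.muG t)) (logb p.n p.s)) / 2) ^ 2 =
        pw p (logb p.n (p.muG t) + w - η) := by
      rw [sq, ← rpow_add H.N0, ← rpow_add H.N0]; congr 1; ring
    rw [z, ← two_mul]
    refine Lt76.num_le H (by norm_num) (H.rp0 _) (mul_pos θ0 W0) ?_
    rw [H.lg_rp, logb_mul θ0.ne' W0.ne', hw]; linarith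

end Crest.Agent.T156.Alt.Lo17

end
end

-- ▼ part T156/TqS_23
section

/-!
# Row 156 (helper23): the numbers `L63.LQ` for the static plateau from pure numbers
-/

set_option autoImplicit false
set_option linter.unusedSectionVars false

noncomputable section

namespace Crest.Agent.T156.Alt.Tq23

open Real Finset
open Crest.Agent.T156.Alt.L69 Crest.Agent.T156.Alt.Ps64 Crest.Agent.T156.Alt.Lp86

variable {S : Sc} {M : Md} {la V U h Γ x u dm Λ Vt V' Q w σ z aM Lg E : ℝ}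

/-- above the cut `u` the location `Vt` may be replaced by `√(x³ / u)` -/
theorem ap_cut {k : ℕ} (N : Nd S M la V U x k) (u0 : 0 < u) (c : u ≤ du M k) (V0 : 0 ≤ Vt)
    (hV : Vt ≤ V' ∨ √(x ^ 3 / u) ≤ V') : ap M S (x ^ 3) Vt 0 k ≤ ap M S (x ^ 3) V' 0 k := by
  have x0 := N.x0
  have w0 := N.w0
  have d0 := N.den0
  have s0 := N.d0
  have r : Rp M S (x ^ 3) Vt 0 k ≤ Rp M S (x ^ 3) V' 0 k := by
    rw [N.Rp_eq, N.Rp_eq]
    refine add_le_add le_rfl (le_min ?_ (min_le_right _ _))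
    rcases hV with e | e
    · exact (min_le_left _ _).trans e
    · exact (min_le_right _ _).trans ((sqrt_le_sqrt
        (div_le_div_of_nonneg_left (by positivity) u0 c)).trans e)
  have r0 := (N.R0 V0).le
  rw [ap, ap]
  gcongr

theorem V'0 (V0 : 0 ≤ Vt) (hV : Vt ≤ V' ∨ √(x ^ 3 / u) ≤ V') : 0 ≤ V' :=
  hV.elim V0.trans (sqrt_nonneg _).trans

variable (F : GX S M la V U h Γ) (T : Ct S.n S.C S.u0 U h x u dm Λ) (V0 : 0 ≤ Vt)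
  (hV : Vt ≤ V' ∨ √(x ^ 3 / u) ≤ V') (hQ : QQ la V U x V' Q) (hw : S.w3 1 ≤ w)
include F T V0 hV hQ hw

/-- **`LQ.q3`** -/
theorem q3 (σ0 : 0 ≤ σ)
    (hσ : w * (2 * la + (64 * S.C * x ^ 2 / la + 2 * √(x ^ 3) * Q)) ≤ σ ^ 3) :
    ∑ k ∈ (Icc S.J S.Jp).filter fun k => u ≤ du M k, dx M k * (Lg ^ 2 * ap M S (x ^ 3) Vt 0 k) ^ 2 ≤
      Λ * (Lg ^ 4 * (2 * σ ^ 2 + 4 * bD w dm la 0)) := by
  have w0 := (pd F T).w0.le.trans hw
  have d0 := T.d0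
  have lp := F.sd.nu.lp
  refine sum_sup F T (by rw [bD]; positivity) fun k N c => ?_
  have a := mul_le_mul_of_nonneg_left (pow_le_pow_left₀ ((pd F T).ap0 k)
    (ap_cut N (cu0 F T) c V0 hV) 2) N.d0.le
  exact le_trans (le_of_eq (by ring)) (mul_le_mul_of_nonneg_left
    (a.trans (ap2 F T (V'0 V0 hV) hQ hw σ0 hσ N c)) (by positivity))

/-- **`LQ.q2`** (any cut `u ≤ 1 / E`) -/
theorem q2 (E0 : 0 < E) (hE : E * u ≤ 1)
    (hz : w * (lM S.u0 V U u + (64 * S.C * x ^ 2 / la + 2 * V' * Q)) ≤ z) (a0' : 0 ≤ aM)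
    (a1 : w * (2 + lM S.u0 V U u / u + (2 * x + V') ^ 2 / dm) ≤ aM ^ 3) :
    ∑ k ∈ (Icc S.J S.Jp).filter fun k => 1 ≤ E * du M k,
      dx M k * (Lg ^ 2 * ap M S (x ^ 3) Vt 0 k) ^ 4 ≤
      Λ * (Lg ^ 8 * (8 * (aM * z) + 64 * bD w dm la 2)) := by
  have P := pd F T
  have w0 := P.w0.le.trans hw
  have d0 := T.d0
  have lp := F.sd.nu.lp
  have v0 := V'0 V0 hV
  have z0 : 0 ≤ z := by
    have := (nd' F T le_rfl (F.sd.u0p.trans_le F.sd.duJ)).Q0 v0 hQ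
    have := F.sd.nu.Vp
    have := F.sd.u0p
    have := F.sd.cl.C0
    refine le_trans ?_ hz
    rw [lM]; positivity
  refine (sum_le_sum_of_subset_of_nonneg (t := nd S M u) (fun k hk => mem_filter.2
    ⟨(mem_filter.1 hk).1, le_of_mul_le_mul_left (hE.trans (mem_filter.1 hk).2) E0⟩)
    fun k _ _ => mul_nonneg (P.dx0 k) (by positivity)).trans
    (sum_sup F T (by rw [bD]; positivity) fun k N c => ?_)
  have a := mul_le_mul_of_nonneg_left (pow_le_pow_left₀ (P.ap0 k)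
    (ap_cut N (cu0 F T) c V0 hV) 4) N.d0.le
  exact le_trans (le_of_eq (by ring)) (mul_le_mul_of_nonneg_left
    (a.trans (ap4 F T v0 hQ hw hz a0' a1 N c)) (by positivity))

omit F T V0 hV hQ hw

theorem uw_one (c : Cl S M) (θ1 : S.θ ≤ 1) (F1 : S.F = 1) (hw : S.w3 1 ≤ w) {ω : ℝ} (ω0 : 0 ≤ ω)
    (hω : w ≤ ω ^ 3) : uw S Lg 1 ^ 2 ≤ Lg ^ 4 * ω ^ 2 := by
  have t0 : 0 < S.ms 1 := c.θ0
  have w0 : 0 ≤ S.w3 1 := by
    rw [Sc.w3, F1]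
    exact div_nonneg zero_le_one (mul_nonneg (mul_nonneg (Nat.cast_nonneg _) zero_le_one) t0.le)
  have a : cr S 1 = 1 := by
    rw [cr, F1, one_pow, div_one, one_mul]
    exact max_eq_left (rpow_le_one t0.le θ1 (by norm_num))
  have b : S.w3 1 ^ ((1 : ℝ) / 3) ≤ ω := (rpow_le_rpow w0 (hw.trans hω) (by norm_num)).trans_eq
    (third ω0)
  rw [uw, a, mul_one, mul_pow, ← pow_mul]
  exact mul_le_mul_of_nonneg_left (pow_le_pow_left₀ (by positivity) b 2)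
    ((by decide : Even (2 * 2)).pow_nonneg _)

/-- **pure numbers of `LQ`** (`Xp = x³`, `γ = 0`); `e1 ≥ η 1`, `eJ ≥ η (sJ / 2)`, `b ≥ bs sJ`,
`P2 ≥ Np 2`; cut `u2` for `q3`, cut `u3 ≤ 1 / E` for `q2` -/
structure NQ (E n C θ u0 la V U h Γ X x Vt Lg X2 G0 P2 w ω u2 j e1 eJ aa b R2 e
    Λ dm2 V2 Q2 σ u3 dm3 V3 Q3 z aM : ℝ) : Prop where
  E1 : 1 ≤ E
  θ1 : θ ≤ 1
  w1 : 1 ≤ w * (n * θ)
  ω0 : 0 ≤ ω
  ω1 : w ≤ ω ^ 3
  X0 : 0 ≤ X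
  X20 : 0 ≤ X2
  j0 : 0 ≤ j
  V0 : 0 ≤ Vt
  a1 : E * X ^ ((1 : ℝ) / 3) ≤ Lg * aa
  a2 : E * eJ ≤ θ * aa
  a3 : E ^ 3 * w ≤ aa ^ 3
  a4 : j + θ ≤ Lg * aa
  a5 : u0 ≤ aa
  sm : E * (aa + j + b) ≤ √θ
  e2 : e1 + G0 ^ 2 + P2 + Lg ^ 4 * ω ^ 2 * (θ + j + X ^ ((1 : ℝ) / 3) + √θ) +
    √(w * (x ^ 3 + √θ ^ 3)) + X2 * x ≤ e
  q1 : e ^ 2 + Γ ≤ θ ^ 2 * R2
  t3 : Ct n C u0 U h x u3 dm3 Λ
  u3E : E * u3 ≤ 1
  v3 : Vt ≤ V3 ∨ √(x ^ 3 / u3) ≤ V3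
  hQ3 : QQ la V U x V3 Q3
  z1 : w * (lM u0 V U u3 + (64 * C * x ^ 2 / la + 2 * V3 * Q3)) ≤ z
  aM0 : 0 ≤ aM
  aM1 : w * (2 + lM u0 V U u3 / u3 + (2 * x + V3) ^ 2 / dm3) ≤ aM ^ 3
  q2 : Λ * (Lg ^ 8 * (8 * (aM * z) + 64 * bD w dm3 la 2)) ≤ θ ^ 2 * R2
  t2 : Ct n C u0 U h x u2 dm2 Λ
  v2 : Vt ≤ V2 ∨ √(x ^ 3 / u2) ≤ V2
  hQ2 : QQ la V U x V2 Q2
  σ0 : 0 ≤ σ
  σ1 : w * (2 * la + (64 * C * x ^ 2 / la + 2 * √(x ^ 3) * Q2)) ≤ σ ^ 3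
  q3 : Λ * (Lg ^ 4 * (2 * σ ^ 2 + 4 * bD w dm2 la 0)) ≤ R2
  q4 : u2 + X2 ^ 2 ≤ R2
  q5 : E * R2 ^ 2 ≤ θ ^ 3

/-- **`L63.LQ`** -/
theorem lq {X X2 G0 P2 ω u1 u2 j e1 eJ aa b R2 e dm2 V2 Q2 u3 dm3 V3 Q3 Lp g' : ℝ} {η : ℝ → ℝ}
    (F : GX S M la V U h Γ)
    (K : NQ E S.n S.C S.θ S.u0 la V U h Γ X x Vt Lg X2 G0 P2 w ω u2 j e1 eJ aa b R2 e
      Λ dm2 V2 Q2 σ u3 dm3 V3 Q3 z aM)
    (η0 : 0 ≤ η 1) (η1 : η 1 ≤ e1) (ηJ : η (M.s S.J / 2) ≤ eJ)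
    (n0 : 0 ≤ Np M S (x ^ 3) Vt 0 u1 Lp 2) (n2 : Np M S (x ^ 3) Vt 0 u1 Lp 2 ≤ P2) (g0 : 0 ≤ g')
    (g1 : ∀ k, S.jl < k → k < S.J → M.s S.J / 2 ≤ M.s k → M.s k + aa / 8 ≤ M.s S.J → |M.G k| ≤ g')
    (hb : bs S Lg X2 g' η (M.s S.J) ≤ b) :
    L63.LQ E S M X (x ^ 3) Vt Lg Lp X2 G0 u1 u2 j 0 η aa g' R2 := by
  obtain ⟨w1, -, -⟩ := w3_eq F.sd.cl F.F1 K.w1
  have P := pd F K.t2
  have w0 := P.w0
  have E0 : 0 < E := by linarith [K.E1]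
  have a0 : 0 < aa := F.sd.u0p.trans_le K.a5
  have x0 := F.sd.u0p.trans_le K.t2.ux
  have θ0 := F.sd.cl.θ0
  have j0 := K.j0
  have X0 := K.X0
  have X20 := K.X20
  have b0 : 0 ≤ GS M S 0 S.C := sum_nonneg fun k _ => mul_nonneg (P.dx0 k) (sq_nonneg _)
  have e0 : 0 ≤ L63.eQ S M X (x ^ 3) Vt Lg Lp X2 G0 u1 j 0 (√S.θ) η := by
    rw [L63.eQ]; positivity
  have e1 : L63.eQ S M X (x ^ 3) Vt Lg Lp X2 G0 u1 j 0 (√S.θ) η ≤ e := by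
    refine le_trans ?_ K.e2
    rw [L63.eQ, third x0.le, zero_pow three_ne_zero, add_zero]
    have := uw_one (Lg := Lg) F.sd.cl K.θ1 F.F1 w1 K.ω0 K.ω1
    gcongr
  exact ⟨g0, g1, K.a1, (mul_le_mul_of_nonneg_left ηJ E0.le).trans K.a2,
    (mul_le_mul_of_nonneg_left w1 (by positivity)).trans K.a3, by linarith [K.a4], K.a5,
    by positivity, (mul_le_mul_of_nonneg_left (by linarith) E0.le).trans K.sm,
    by linarith [pow_le_pow_left₀ e0 e1 2, F.G, K.q1],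
    (q2 F K.t3 K.V0 K.v3 K.hQ3 w1 E0 K.u3E K.z1 K.aM0 K.aM1).trans K.q2,
    (q3 F K.t2 K.V0 K.v2 K.hQ2 w1 K.σ0 K.σ1).trans K.q3, by linarith [K.q4], K.q5⟩

end Crest.Agent.T156.Alt.Tq23

end
end

-- ▼ part T156/TqL_23
section

/-!
# Row 156 (helper23): the numbers `Tq23.NQ` in exponents
-/

set_option autoImplicit false

noncomputable section

namespace Crest.Agent.T156.Alt.Tq23

open Real Tr3 Lp86 Lq3

/-- **the lines of `LQ`** (`X = Xp = x³`).  Exponents `e ξ vt ω L χ γ p2 ι ε1 εJ β A ρ` of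
`E x Vt w Lg X2 G0 P2 j e1 eJ b aa R2`; cuts `μ2 d2` (`u2`, `dm2`), `μ3 d3`; the rest is auxiliary -/
structure EQ (η e t a0 l v uu g ξ vt ω L χ γ p2 ι ε1 εJ β A ρ μ2 d2 μ3 d3
    o ε v2 q2 s b2 v3 q3 lm z α b3 : ℝ) : Prop where
  t0 : t ≤ 0
  o1 : ω ≤ 3 * o
  a1 : e + ξ ≤ L + A
  a2 : e + εJ ≤ t + A
  a3 : 3 * e + ω ≤ 3 * A
  a4 : ι + η ≤ L + A
  a4' : t + η ≤ L + A
  a5 : a0 ≤ A
  s1 : e + A + η ≤ t / 2
  s2 : e + ι + η ≤ t / 2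
  s3 : e + β + η ≤ t / 2
  e1 : ε1 + η ≤ ε
  e2 : 2 * γ + η ≤ ε
  e3 : p2 + η ≤ ε
  e4 : 4 * L + 2 * o + ι + η ≤ ε
  e5 : 4 * L + 2 * o + ξ + η ≤ ε
  e6 : 4 * L + 2 * o + t / 2 + η ≤ ε
  e7 : (ω + 3 * ξ) / 2 + 2 * η ≤ ε
  e8 : (ω + 3 / 2 * t) / 2 + 2 * η ≤ ε
  e9 : χ + ξ + η ≤ ε
  q1 : 2 * ε + η ≤ 2 * t + ρ
  q1' : g + η ≤ 2 * t + ρ
  u3 : e + μ3 ≤ 0
  v3' : vt ≤ v3 ∨ (3 * ξ - μ3) / 2 ≤ v3
  hq3 : LQ η l v uu ξ v3 q3
  hz : LZ η a0 l v uu ξ v3 q3 ω μ3 lm z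
  m1 : ω + 2 * η ≤ 3 * α
  m2 : ω + lm - μ3 + η ≤ 3 * α
  m3 : ω + 2 * ξ - d3 + 5 * η ≤ 3 * α
  m4 : ω + 2 * v3 - d3 + 3 * η ≤ 3 * α
  d1 : 3 * (ω - d3) + (ω - l) + 2 * η ≤ b3
  d1' : 2 * (ω - l) + 3 * η ≤ b3
  q21 : 8 * L + α + z + 4 * η ≤ 2 * t + ρ
  q22 : 8 * L + b3 + 4 * η ≤ 2 * t + ρ
  v2' : vt ≤ v2 ∨ (3 * ξ - μ2) / 2 ≤ v2
  hq2 : LQ η l v uu ξ v2 q2
  g1 : ω + l + 2 * η ≤ 3 * s
  g2 : ω + 2 * ξ - l + 4 * η ≤ 3 * s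
  g3 : ω + 3 / 2 * ξ + q2 + 3 * η ≤ 3 * s
  f1 : ω - d2 + (ω - l) + 2 * η ≤ b2
  f2 : ω - l + 2 * η ≤ b2
  q31 : 4 * L + 2 * s + 4 * η ≤ ρ
  q32 : 4 * L + b2 + 4 * η ≤ ρ
  q41 : μ2 + η ≤ ρ
  q42 : 2 * χ + η ≤ ρ
  q5 : e + 2 * ρ ≤ 3 * t

/-- **`NQ` from the lines** -/
theorem nq_lg {n η C θ u0 la V U' Γ t a0 l v uu g E h x Vt w u2 dm2 u3 dm3 Λ P2 Lg X2 G0 j e1 eJ b : ℝ}
    {e ξ vt ω L χ γ p2 ι ε1 εJ β A ρ μ2 d2 μ3 d3 o ε v2 q2 s b2 v3 q3 lm z α b3 : ℝ}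
    (X : XD n η C θ u0 la V U' Γ t a0 l v uu g) (T2 : Ct n C u0 U' h x u2 dm2 Λ)
    (T3 : Ct n C u0 U' h x u3 dm3 Λ) (E1 : 1 ≤ E) (w1 : 1 ≤ w * (n * θ))
    (hE : U n E e) (hx : U n x ξ) (hV : U n Vt vt) (hw : U n w ω) (hL : U n Lg L) (hL' : D n Lg L)
    (hX : U n X2 χ) (hG : U n G0 γ) (hP : U n P2 p2) (hj : U n j ι) (he : U n e1 ε1)
    (hJ : U n eJ εJ) (hb : U n b β) (hu : U n u2 μ2) (hu' : D n u2 μ2) (hd : D n dm2 d2)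
    (h3 : U n u3 μ3) (h3' : D n u3 μ3) (hd3 : D n dm3 d3) (hΛ : U n Λ (2 * η))
    (K : EQ η e t a0 l v uu g ξ vt ω L χ γ p2 ι ε1 εJ β A ρ μ2 d2 μ3 d3
      o ε v2 q2 s b2 v3 q3 lm z α b3) :
    NQ E n C θ u0 la V U' h Γ (x ^ 3) x Vt Lg X2 G0 P2 w (n ^ o) u2 j e1 eJ (n ^ A) b (n ^ ρ)
      (n ^ ε) Λ dm2 (n ^ v2) (n ^ q2) (n ^ s) u3 dm3 (n ^ v3) (n ^ q3) (n ^ z) (n ^ α) := by
  have H := X.b
  have η0 := H.η0
  have cs : ∀ y : ℝ, 0 ≤ y → y ≤ 1000 → U n y η := fun y => H.cst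
  have c2 := cs 2 (by norm_num) (by norm_num)
  have LA := H.dmul hL' (B.dp A)
  have tρ := H.dmul (H.dpow X.θd 2) (B.dp ρ)
  have cut : ∀ {u μ v' : ℝ}, D n u μ → (vt ≤ v' ∨ (3 * ξ - μ) / 2 ≤ v') →
      Vt ≤ n ^ v' ∨ √(x ^ 3 / u) ≤ n ^ v' := fun hu c => c.imp (H.le hV (B.dp _))
    fun c => H.le (H.sqrt (H.div (H.pow hx 3) hu)) (B.dp _) (by push_cast; linarith)
  refine ⟨E1, H.le X.θu B.done K.t0, w1, (H.rp o).le, H.le hw (H.dpow (B.dp o) 3) K.o1,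
    (H.pow hx 3).1, hX.1, hj.1, hV.1, ?_, H.le (H.mul hE hJ) (H.dmul X.θd (B.dp A)) K.a2,
    H.le (H.mul (H.pow hE 3) hw) (H.dpow (B.dp A) 3) K.a3,
    H.le (H.add hj X.θu K.a4 K.a4') LA le_rfl, H.le X.au (B.dp A) K.a5,
    H.le (H.mul hE (H.add3 (c := t / 2 - e) (H.up A) hj hb ?_ ?_ ?_)) (H.dsqrt X.θd) ?_, ?_,
    H.le (H.add (c := 2 * t + ρ) (H.pow (H.up ε) 2) X.Γ K.q1 K.q1') tρ le_rfl, T3,
    H.le (H.mul hE h3) B.done K.u3, cut h3' K.v3', qq X hx (H.up v3) K.hq3,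
    zz X hx (H.up v3) hw h3' K.hz, (H.rp α).le,
    H.le (H.mul hw (H.add3 (c := 3 * α - ω) c2 (H.div (lM_u X h3' K.hz) h3')
      (H.div (H.pow (H.add (c := (3 * α - ω + d3 - η) / 2) (H.mul c2 hx) (H.up v3) ?_ ?_) 2) hd3)
      ?_ ?_ ?_)) (H.dpow (B.dp α) 3) ?_,
    H.le (H.mul hΛ (H.mul (H.pow hL 8) (H.add (c := 2 * t + ρ - 8 * L - 2 * η)
      (H.mul (cs 8 (by norm_num) (by norm_num)) (H.mul (H.up α) (H.up z)))
      (H.mul (cs 64 (by norm_num) (by norm_num)) (bD_u (b := b3) X hw hd3 2 ?_ ?_)) ?_ ?_))) tρ ?_,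
    T2, cut hu' K.v2', qq X hx (H.up v2) K.hq2, (H.rp s).le,
    H.le (H.mul hw (H.add (c := 3 * s - ω) (H.mul c2 X.lu) (H.add (c := 3 * s - ω - η)
      (H.div (H.mul (H.mul (cs 64 (by norm_num) (by norm_num)) X.C) (H.pow hx 2)) X.ld)
      (H.mul (H.mul c2 (sq3 X hx)) (H.up q2)) ?_ ?_) ?_ ?_)) (H.dpow (B.dp s) 3) ?_,
    H.le (H.mul hΛ (H.mul (H.pow hL 4) (H.add (c := ρ - 4 * L - 2 * η)
      (H.mul c2 (H.pow (H.up s) 2))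
      (H.mul (cs 4 (by norm_num) (by norm_num)) (bD_u (b := b2) X hw hd 0 ?_ ?_)) ?_ ?_)))
      (B.dp ρ) ?_,
    (H.add hu (H.pow hX 2) K.q41 K.q42).2,
    H.le (H.mul hE (H.pow (H.up ρ) 2)) (H.dpow X.θd 3) K.q5⟩
  · rw [third hx.1]; exact H.le (H.mul hE hx) LA K.a1
  · linarith [K.s1]
  · linarith [K.s2]
  · linarith [K.s3]
  · linarith
  · have y := H.mul (H.pow hL 4) (H.pow (H.up o) 2)
    have p1 := H.pc he K.e1
    have p2 := H.pc (c := ε) (H.pow hG 2) K.e2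
    have p3 := H.pc hP K.e3
    have p4 := H.pc (c := ε) (H.mul y X.θu) (by push_cast; linarith [K.e6, K.t0])
    have p5 := H.pc (c := ε) (H.mul y hj) K.e4
    have p6 := H.pc (c := ε) (H.mul y hx) K.e5
    have p7 := H.pc (c := ε) (H.mul y (H.sqrt X.θu)) (by push_cast; linarith [K.e6])
    have p8 := H.pc (c := ε) (H.sqrt (H.mul hw (H.add (c := 2 * ε - 2 * η - ω) (H.pow hx 3)
      (H.pow (H.sqrt X.θu) 3) (by push_cast; linarith [K.e7]) (by push_cast; linarith [K.e8]))))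
      (by linarith)
    have p9 := H.pc (H.mul hX hx) K.e9
    rw [third hx.1]
    exact (H.tot 9 (by linarith) (by linarith)).2
  all_goals
    push_cast
    linarith [K.m1, K.m2, K.m3, K.m4, K.d1, K.d1', K.q21, K.q22, K.g1, K.g2, K.g3, K.f1, K.f2,
      K.q31, K.q32]

end Crest.Agent.T156.Alt.Tq23

end
end

-- ▼ part T156/TqG_23
section

/-!
# Row 156 (helper23): `L63.LQ` on the graded path from linear lines
-/

set_option autoImplicit false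

noncomputable section

namespace Crest.Agent.T156.Alt.Tq23

open Real Tr3 Lp86 Lq3 Lx13 Plt13 L69 Kn72

/-- **all the lines of `LQ`**: `μ a v uu` = exponents of `θ la Vc u2` -/
structure EG (η e μ a v uu ξ vt μ1 μ2 μ3 lp L χ γ ι ε1 εJ β A ρ
    p2 p3 d1 d2 d3 q r o ε v2 q2 s b2 v3 q3 lm z α b3 : ℝ) : Prop where
  Z : EZ η μ a v uu ξ vt μ1 lp p2 p3 d1 q r
  e0 : 0 ≤ e
  c2 : -(9 / 10) ≤ μ2
  c3 : -(9 / 10) ≤ μ3
  D2 : LD η (2 / 3 * a) uu μ2 d2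
  D3 : LD η (2 / 3 * a) uu μ3 d3
  Q : EQ η e μ (2 / 3 * a) a v uu (2 * μ + 2 * a + 3 * η) ξ vt (-1 - μ) L χ γ p2 ι ε1 εJ β A ρ
    μ2 d2 μ3 d3 o ε v2 q2 s b2 v3 q3 lm z α b3

variable {β c0 C0 c0' C0' η' : ℝ} {A : ℕ} {c η K K' : ℝ} {p : Pm} {σ t : ℝ} {Q : Pl}

/-- **`LQ` from the lines** -/
theorem lq_lg (X : Nr44.Cx β c0 C0 A c η K' p σ t) (G : GrD K c0' C0' η' p σ t Q) (hA : 4 ≤ A)
    (P : p.PlX σ t Q) {E x Vt u1 u2 L Lg X2 G0 j g' : ℝ} {φ : ℝ → ℝ}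
    {e ξ vt μ1 μ2 μ3 lp Lg' χ γ ι ε1 εJ β' a ρ p2 p3 d1 d2 d3 q r o ε v2 q2 s b2 v3 q3 lm z α b3 : ℝ}
    (hE : T p.n E e) (hx : T p.n x ξ) (hV : U p.n Vt vt) (h1 : T p.n u1 μ1) (h2 : T p.n u2 μ2)
    (hL : T p.n L lp) (hg : T p.n Lg Lg') (hX : U p.n X2 χ) (hG : U p.n G0 γ) (hj : U p.n j ι)
    (hφ : U p.n (φ 1) ε1) (hJ : φ ((p.gst Q t).s (p.scG K σ t Q).J / 2) ≤ (p.n : ℝ) ^ εJ)
    (hb : bs (p.scG K σ t Q) Lg X2 g' φ ((p.gst Q t).s (p.scG K σ t Q).J) ≤ (p.n : ℝ) ^ β')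
    (g0 : 0 ≤ g') (g1 : ∀ k, (p.scG K σ t Q).jl < k → k < (p.scG K σ t Q).J →
      (p.gst Q t).s (p.scG K σ t Q).J / 2 ≤ (p.gst Q t).s k →
      (p.gst Q t).s k + (p.n : ℝ) ^ a / 8 ≤ (p.gst Q t).s (p.scG K σ t Q).J →
      |(p.gst Q t).G k| ≤ g')
    (Z : EG η e (logb p.n (p.muG t)) (logb p.n (p.laG σ)) (logb p.n (p.Vc (nu p σ)))
      (logb p.n (p.u2 (nu p σ))) ξ vt μ1 μ2 μ3 lp Lg' χ γ ι ε1 εJ β' a ρ
      p2 p3 d1 d2 d3 q r o ε v2 q2 s b2 v3 q3 lm z α b3) :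
    L63.LQ E (p.scG K σ t Q) (p.gst Q t) (x ^ 3) (x ^ 3) Vt Lg (L ^ 3) X2 G0 u1 u2 j 0 φ
      ((p.n : ℝ) ^ a) g' ((p.n : ℝ) ^ ρ) := by
  have H := B.of X.H
  have Y := xd X G
  have F := gx_gst X.H hA X.o G P
  obtain ⟨_, _, _, S⟩ := ns X G hx hV h1 hL Z.Z
  have N := nq_lg Y (ct X G hx h2.2 Z.c2 Z.Z.c2 Z.Z.c3) (ct X G hx (B.dp μ3) Z.c3 Z.Z.c2 Z.Z.c3)
    (H.le B.one hE.2 Z.e0) (H.le B.one (H.dmul (tw X G).2 (H.dmul B.dn Y.θd)) (by linarith))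
    hE.1 hx.1 hV (tw X G).1 hg.1 hg.2 hX hG (H.up p2) hj (H.up ε1) (H.up εJ) (H.up β') h2.1 h2.2
    (dm_d H (tu X G).2 Y.ud h2.2 Z.D2) (H.up μ3) (B.dp μ3) (dm_d H (tu X G).2 Y.ud (B.dp μ3) Z.D3)
    (lam X) Z.Q
  exact lq F (θ_eq G ▸ N) hφ.1 hφ.2 hJ (Np0 F S.ct S.V0 (w_eq G).le (by linarith [S.L1]) 2)
    (np2 F S (w_eq G).le) g0 g1 hb

end Crest.Agent.T156.Alt.Tq23

end
end

-- ▼ part T156/TqL_67
section

/-!
# Row 156 (helper67): the exponent table of the linear regime of the top zone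
-/

set_option autoImplicit false
set_option maxHeartbeats 4000000

noncomputable section

namespace Crest.Agent.T156.Alt.Tq67

open Real
open Crest.Agent.T156.Alt.Ln97 (M12 GX GV)
open Crest.Agent.T156.Alt.Hl4 (Ms LnL)
open Crest.Agent.T156.Alt.Lt76 (BL)

/-- the exponents: data `S μ ν a V U` (of `s θ ν la Vc u2`), choices `ξ ρ L al χ2 χ3 γ lm` -/
structure RQ (c η ε S μ ν a V U ξ ρ L al χ2 χ3 γ lm : ℝ) : Prop where
  c1 : c ≤ 1 / 1000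
  η0 : 0 ≤ η
  ηε : 5 * η ≤ ε
  ηc : 100000 * η ≤ c
  εc : 1000 * ε ≤ c
  S0 : 0 ≤ S
  S1 : S ≤ 1 / 19
  W0 : 1 / 15 + 4 / 5 * S - c / 4 ≤ μ + 1 / 3
  W1 : μ ≤ -(1 / 6)
  ν0 : μ - η ≤ ν
  ν1 : ν ≤ μ
  ha : a = -(1 / 6) - c / 2 - (ν + 1 / 3) / 2
  hV : V = -(1 / 6) + 3 * c / 4
  hU : U = -(5 / 6) - c / 4 - ν
  xA : -(5 / 9) - 2 / 3 * μ ≤ 3 * ξ
  xB : 25 / 8 * S - 25 / 48 - μ / 4 ≤ 3 * ξ
  xu : 3 * ξ ≤ -(5 / 9) - 2 / 3 * μ ∨ 3 * ξ ≤ 25 / 8 * S - 25 / 48 - μ / 4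
  hρ : ρ = c / 4 + 2 * S + 2 * a
  xρ : ρ + c / 4 ≤ 3 * ξ
  hL : L = ξ - ρ / 3 + c / 100
  hl : al = ρ / 3 - ξ - c / 50
  h2 : χ2 = 3 * ξ + c / 100
  h3 : χ3 = -(12 / 25) + 7 / 10 * S
  γ1 : 3 * ξ + c / 100 ≤ γ
  γ2 : -1 - μ + 3 / 2 * ξ - a + c / 50 ≤ 2 * γ
  γu : γ ≤ 3 * ξ + c / 100 ∨ 2 * γ ≤ -1 - μ + 3 / 2 * ξ - a + c / 50
  m1 : μ / 2 + c / 100 ≤ lm
  m2 : ξ + c / 100 ≤ lm
  mu : lm ≤ μ / 2 + c / 100 ∨ lm ≤ ξ + c / 100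

/-- all the facts in the context, `ξ` and `γ` split -/
macro "rq " h:ident : tactic => `(tactic|
  (obtain ⟨c1, η0, ηε, ηc, εc, S0, S1, W0, W1, ν0, ν1, ha, hV, hU, xA, xB, xu, hρ, xρ, hL, hl, h2, h3,
    γ1, γ2, γu, m1, m2, mu⟩ := $h
   subst ha hV hU hρ hL hl h2 h3
   rcases xu with xu | xu <;> rcases γu with γu | γu))
/-- the same, only `ξ` split -/
macro "rq1 " h:ident : tactic => `(tactic|
  (obtain ⟨c1, η0, ηε, ηc, εc, S0, S1, W0, W1, ν0, ν1, ha, hV, hU, xA, xB, xu, hρ, xρ, hL, hl, h2, h3,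
    γ1, γ2, -, m1, m2, -⟩ := $h
   subst ha hV hU hρ hL hl h2 h3
   rcases xu with xu | xu))

variable {c η ε S μ ν a V U ξ ρ L al χ2 χ3 γ lm T m : ℝ}
  (h : RQ c η ε S μ ν a V U ξ ρ L al χ2 χ3 γ lm)
include h

theorem RQ.ms (M : Ms c η μ T m) (h0 : ξ ≤ T) (h1 : T ≤ η) : μ + 3 / 2 * T - 2 * η ≤ m := by
  obtain ⟨⟨a, b | b⟩ | ⟨a, b⟩, -⟩ := M <;>
    linarith [h.xA, h.W1, h.c1, h.η0, h.ηc, h.W0, h.S0]

theorem RQ.ord : ξ ≤ al - c ∧ al ≤ -(c / 10) ∧ -(3 / 100) ≤ al ∧ 0 ≤ c ∧ ξ ≤ -(9 / 100) ∧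
    -(3 / 20) ≤ ξ ∧ S + c / 7 - 1 / 6 ≤ ξ ∧ μ ≤ ξ := by
  rq1 h
  all_goals refine ⟨?_, ?_, ?_, ?_, ?_, ?_, ?_, ?_⟩ <;> linarith

/-- the residual at every level above `l` -/
theorem RQ.m12 (h0 : al ≤ T) (hm : μ + 3 / 2 * al - 2 * η ≤ m) :
    M12 η L ξ χ2 χ3 γ T m (χ3 + c / 100) := by
  have o := h.ord
  rq h
  all_goals constructor <;> linarith [o.1, o.2.1, o.2.2.1]

theorem RQ.lnL : LnL c η μ (S + c / 7 - 1 / 6) ε ξ al ξ L χ2 χ3 γ := by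
  obtain ⟨o1, o2, o3, o4, o5, o6, o7, o8⟩ := h.ord
  have η0 := h.η0
  have ηc := h.ηc
  refine ⟨⟨by linarith [h.ηε], by linarith [h.εc]⟩, o7, by linarith, fun m0 m a b => ?_,
    fun T Y m a b d e => ?_, fun T Y m a b d e => ?_, fun m a => ?_, fun m a => ?_⟩
  · have a' := h.ms a le_rfl (by linarith)
    have b' := h.ms b (by linarith) (by linarith)
    rq h
    all_goals refine ⟨?_, ?_, ?_, ?_, ?_, ?_, ?_, ?_, ⟨?_, ?_⟩, ⟨?_, ?_⟩, ⟨?_, ?_⟩, ?_⟩ <;> linarith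
  · have e' := h.ms e a b
    have y : Y ≤ T := d.elim id fun d => d.trans a
    rq1 h
    all_goals refine ⟨.inr ⟨?_, ?_⟩, .inr ⟨?_, ?_⟩⟩ <;> linarith
  · have e' := h.ms e a (by linarith)
    have y : Y ≤ T := d.elim id fun d => d.trans a
    rq1 h
    all_goals linarith
  · have a' := h.ms a (by linarith) (by linarith)
    rq1 h
    all_goals linarith
  · have a' := h.ms a (by linarith) (by linarith)
    refine (h.m12 le_rfl a').mono ?_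
    rq1 h
    all_goals linarith

/-- the costs; `N = n^(ρ - c/10)`, `τ = x`, `u1 = u2 = U`, `Vt = 1` -/
theorem RQ.ec {g : ℝ} (hg : g ≤ 2 * μ + 2 * a + 3 * η) :
    Lq3.EC η ε μ (2 / 3 * a) a V U g ξ 0 (-1 - μ) U (U - η) χ3 L χ2 γ (3 / 2 * ξ + c / 100)
      (χ3 + c / 10) ξ (χ3 + c / 50) (ρ - c / 10) (3 / 2 * ξ - U / 2 + 2 * η) η
      (-1 - μ + 3 / 2 * ξ - U / 2 + 5 * η) (-1 - μ - a - 1 / 10) 0 (χ2 + η) (ξ + η) ξ
      (3 * ξ + 2 * η) (2 * ξ + 2 * η) := by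
  obtain ⟨o1, o2, o3, o4, o5, o6, o7, o8⟩ := h.ord
  rq h
  all_goals
    refine ⟨.inl ⟨?_, ?_⟩, ⟨?_, ?_, .inl ?_, ?_, ?_, ?_⟩, .inl ⟨?_, ?_, ?_, ?_⟩, ?_, ?_, ?_, ?_, ?_,
      .inl ?_, ?_, ?_, ?_, ?_, ?_, ?_, ?_, ?_, .inl ?_, ?_, ?_, ?_, ?_, ?_, ?_, .inr ?_, ?_, ?_,
      .inl ?_, ?_, ?_, .inl ?_⟩ <;> linarith

/-- the constant lines of `LT2`; `t1 = n^(-c/100)` -/
theorem RQ.tl {Tu m1 : ℝ} (hu : -(4 * η) ≤ Tu) (hm : μ ≤ m1) :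
    Lt52.TL η c ε al ξ L χ2 (ρ - c / 10) (-(c / 100)) m1 Tu lm (ρ - c / 20) (ρ / 2) μ := by
  obtain ⟨o1, o2, o3, o4, o5, o6, o7, o8⟩ := h.ord
  have mu := h.mu
  rq1 h
  all_goals rcases mu with mu | mu <;> constructor <;> linarith



/-- at the top: `b = μ + ρ/2 - c/20` dominates the residual -/
theorem RQ.blt {r : ℝ} (h0 : -(5 * η) ≤ T) (h1 : r ≤ η) (hm : μ ≤ m) :
    BL η L χ2 T m (μ + ρ / 2 - c / 20) r (ρ / 2 - c / 50) ∧ χ3 + c / 100 ≤ μ + ρ / 2 - c / 20 ∧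
      μ + a + 3 * η ≤ μ + ρ / 2 - c / 20 ∧ ε + μ + a + 3 * η ≤ 3 / 2 * μ := by
  obtain ⟨o1, o2, o3, o4, o5, o6, o7, o8⟩ := h.ord
  rq1 h
  all_goals refine ⟨⟨?_, ?_, ?_⟩, ?_, ?_, ?_⟩ <;> linarith


end Crest.Agent.T156.Alt.Tq67

end
end

-- ▼ part T156/TqW_90
section

/-!
# Row 156 (helper90): the branch `TLq` of `SupT` from linear lines in free exponents
-/

set_option autoImplicit false
set_option linter.unusedSectionVars false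

noncomputable section

namespace Crest.Agent.T156.Alt.Tq90

open Real Finset
open Crest.Agent.T156.Alt.L69 Crest.Agent.T156.Alt.Ln97 Crest.Agent.T156.Alt.Hl4 Tr3
open Crest.Agent.T156.Alt.Kn72 (nu)
open Crest.Agent.T156.Alt.R77 (Dt OnG)

/-- **all the lines of the regime Q**; `bt` = exponent of `Bt`, `φ` = exponent of `PhN`; the residual is
below `n ^ g`; on the top levels `η ≤ n ^ (b0 + η)`, `bs ≤ n ^ (B + η)`; `aa = n ^ A`, `R2 = n ^ R` -/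
structure QL (c η μ al ρ v uu bt φ e a0 a ξ L χ2 χ3 χ4 γ ν g T1 lm ε q vt μ1 μ2 lp lc ι κ τ ε1
    b0 b B εJ βb A R : ℝ) : Prop where
  ph : φ ≤ 3 * ξ
  vt0 : 0 ≤ vt
  ln : LnL c η μ ρ e a0 a ξ L χ2 χ3 γ
  hy : ∀ Tu, -(4 * η) ≤ Tu → Tu ≤ η → HyL c η μ al ρ v uu e a0 a ξ L χ2 χ3 χ4 γ ν g T1 Tu lm ε q
    ξ vt μ1 μ2 lp lc ι κ τ ε1
  eg : ∃ μ3 p2 p3 d1 d2 d3 q' r o ε' v2 q2 s b2 v3 q3 lm' z α b3, Tq23.EG η e μ al v uu ξ vt μ1 μ2 μ3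
    lp L χ2 γ ι ε1 εJ βb A R p2 p3 d1 d2 d3 q' r o ε' v2 q2 s b2 v3 q3 lm' z α b3
  eJ : b0 + η ≤ εJ
  eB : B + η ≤ βb
  bb : b0 ≤ b
  e5 : 5 * η ≤ e
  m : M12 η L ξ χ2 χ3 γ (-(5 * η)) μ b0
  gb : g ≤ b + η
  bl : Lt76.BL η L χ2 (-(5 * η)) μ b 0 B
  g1 : μ + al + η ≤ g
  g2 : 2 / 3 * al + 4 * η ≤ A
  x1 : e + 3 * ξ ≤ 3 * lm
  x2 : a0 ≤ lm
  x3 : lm + 2 * η ≤ 0
  o1 : 2 * q + 2 * η ≤ bt
  o2 : 2 * B + 4 * η ≤ bt
  o3 : lm + 2 * ι + 4 * η ≤ bt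
  o4 : 3 * A + η ≤ bt
  o5 : R + η ≤ bt

variable {β c0 C0 : ℝ} {A : ℕ} {c η K' ε0 K c0' C0' η' : ℝ} {p : Pm} {σ t : ℝ} {Q : Pl}

theorem Bt0 (G : Gd66 β c0 C0 A c η K' ε0 K c0' C0' η' p σ t Q) : 0 < Tp4.Bt p σ t :=
  mul_pos (G.R.rp0 _) (pow_pos (mul_pos (lt_min G.R.s0 (div_pos (pow_pos G.R.κ0 2) (G.R.muG_pos G.M)))
    (G.R.laG0 G.M0)) 2)

/-- **the branch `TLq` at a point** -/
theorem sq_pt (G : Gd66 β c0 C0 A c η K' ε0 K c0' C0' η' p σ t Q) (hc : c ≤ 1 / 2000) {e0 : ℝ}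
    (h : p.PtN σ t < p.PhN t → ∃ a0 a ξ L χ2 χ3 χ4 γ ν g T1 lm ε q vt μ1 μ2 lp lc ι κ τ ε1
      b0 b B εJ βb A R, QL c η (logb p.n (p.muG t)) (logb p.n (p.laG σ)) (logb p.n p.r)
        (logb p.n (p.Vc (nu p σ))) (logb p.n (p.u2 (nu p σ))) (logb p.n (Tp4.Bt p σ t))
        (logb p.n (p.PhN t)) (e0 * c) a0 a ξ L χ2 χ3 χ4 γ ν g T1 lm ε q vt μ1 μ2 lp lc ι κ τ ε1
        b0 b B εJ βb A R) :
    Tp4.SupT e0 p σ t (p.scG K σ t Q) (p.gst Q t) := by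
  intro m a' hi hΦ hP
  obtain ⟨a0, a, ξ, L, χ2, χ3, χ4, γ, ν, g, T1, lm, ε, q, vt, μ1, μ2, lp, lc, ι, κ, τ, ε1,
    b0, b, B', εJ, βb, A', R, T⟩ := h hP
  have H := G.R
  have Z := Tr3.B.of H
  have X := cx G hc
  have cl := G.D.cl.1
  have η0 := H.η_pos
  have r := H.rp0
  have θ0 := H.muG_pos G.M
  have la0 := H.laG0 G.M0
  have K1 := G.D.nb.K1
  obtain ⟨s0, s1, s2⟩ := lg_sJ G
  have x3 : p.PhN t ≤ pw p ξ ^ 3 :=
    Z.le (Z.ul (mul_pos (r _) (H.PhG0 G.M (r _)))) (Z.dpow (B.dp ξ) 3) (by push_cast; exact T.ph)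
  have Ty := T.hy _ s1 s2
  have hy := hyN G hc (m := m) (a := a') T.ln (hΦ.trans x3) (.inl le_rfl) (fun k _ _ _ => by
    have a1 := Md67.rb_le_one (M := p.gst Q t) (a := a') (H.n0.trans_le hi.m1) k
    have a2 := Md67.q_nonneg (M := p.gst Q t) k
    have a3 : 1 ≤ pw p vt := Z.le B.one (B.dp _) T.vt0
    rw [Md.del]
    linarith) s0 le_rfl Ty
  have fx := fxN G T.ln
  have e5 : 5 * η ≤ logb p.n (pw p (e0 * c)) := by rw [H.lg_rp]; exact T.e5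
  have E1 : 1 ≤ pw p (e0 * c) := Z.le B.one (B.dp _) (by linarith [T.e5])
  have m1 : M12 η (logb p.n (pw p L)) (logb p.n (pw p ξ)) (logb p.n (pw p χ2)) (logb p.n (pw p χ3))
      (logb p.n (pw p γ)) (-(5 * η)) (logb p.n (p.muG t)) b0 := by simpa only [H.lg_rp] using T.m
  have bl : Lt76.BL η (logb p.n (pw p L)) (logb p.n (pw p χ2)) (-(5 * η)) (logb p.n (p.muG t)) b 0
      B' := by simpa only [H.lg_rp] using T.bl
  have gb : pw p g ≤ (p.n : ℝ) ^ (b + η) := Z.le (Z.up _) (B.dp _) T.gb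
  have bsU : ∀ {y g' : ℝ}, (p.gst Q t).s (p.scG K σ t Q).J / 64 ≤ y → 0 ≤ g' → g' ≤ pw p g →
      U p.n (bs (p.scG K σ t Q) (pw p L) (pw p χ2) g' (etaN p (p.scG K σ t Q) a ξ L χ2 χ3 γ) y)
        (B' + η) := fun hy g0 g1 =>
    ⟨Lt76.bs_nn cl (lv64 G hy).1.le (fx.eta_pos _).le g0 (r _).le,
      bs_top G fx (r _) e5 (lv64 G hy).1 le_rfl (lv64 G hy).2 (m1.mono T.bb) (g1.trans gb) bl⟩
  have bJ := bsU (y := (p.gst Q t).s (p.scG K σ t Q).J) (by linarith) (r g).le le_rfl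
  have bt := Z.dl (Bt0 G)
  have x0 : 0 ≤ e0 * c := by linarith [T.e5]
  rw [← H.hc] at hy
  refine ⟨_, _, _, _, _, _, _, _, _, _, _, _, _, _, _, _, _, _, _, _, _, _, _, _, _, _, _, hy,
    .inr ⟨rfl, fun y y1 _ => ?_, .inr ⟨?_, pw p A', pw p g, pw p R, ?_, ?_⟩⟩⟩
  · exact Z.le (Z.pow (Z.add (c := logb p.n (Tp4.Bt p σ t) / 2) (Z.up q)
      (bsU y1 (Lt38.gL_nn (r g).le y) (Lt38.gL_le (r g).le y)) (by linarith [T.o1])
      (by linarith [T.o2])) 2) bt (by push_cast; linarith)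
  · rw [H.hc]
    exact Z.le (Z.mul (Z.up _) (Z.pow (Z.up ξ) 3)) (Z.dpow (B.dp lm) 3) (by push_cast; exact T.x1)
  · rw [H.hc]
    obtain ⟨_, _, _, _, _, _, _, _, _, _, _, _, _, _, _, _, _, _, _, _, eg⟩ := T.eg
    have e1 := eta_top G fx (r _) e5 one_pos (T := 0) (by linarith) logb_one.ge
      (b := ε1 - η) (by simpa only [H.lg_rp] using Ty.e1)
    rw [sub_add_cancel] at e1
    have h2 : (p.gst Q t).s (p.scG K σ t Q).J / 64 ≤ (p.gst Q t).s (p.scG K σ t Q).J / 2 := by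
      linarith
    refine Tq23.lq_lg X G.D G.A4 G.X (Lq3.tp Z _) (Lq3.tp Z _) (Z.up _) (Lq3.tp Z _) (Lq3.tp Z _)
      (Lq3.tp Z _) (Lq3.tp Z _) (Z.up _) (Z.up _) (Z.up _) ⟨(fx.eta_pos _).le, e1⟩
      (Z.mono ⟨(fx.eta_pos _).le, eta_top G fx (r _) e5 (lv64 G h2).1 le_rfl (lv64 G h2).2 m1⟩
        T.eJ).2 (Z.mono bJ T.eB).2 (r g).le (fun k k1 k2 _ k4 => ?_) eg
    have C := (Lq3.xd X G.D).C
    have a1 : 16 * ((8 * K ^ 2) ^ 2 * (log p.n * Plt13.u0 p (nu p σ))) ≤ pw p A' :=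
      Z.le (Z.mul (Z.cst (by norm_num) (by norm_num)) (Z.mul (Z.pow C 2)
        (Z.mul ⟨by linarith [H.log1], H.log_le⟩ (Lq3.tu X G.D).1))) (B.dp _)
        (by push_cast; linarith [T.g2])
    refine (Lt38.G_off H G.O G.D G.X k1 k2 ?_).trans ?_
    · change _ + 2 * (8 * K ^ 2) ^ 2 * (log p.n * Plt13.u0 p (nu p σ)) ≤ _
      linarith
    · rw [show 4 * (p.muG t * K * p.laG σ) = 4 * K * (p.muG t * p.laG σ) by ring]
      exact Z.le (Z.mul (a := η) ⟨by positivity, by linarith [G.BK]⟩ (Z.mul (Z.ul θ0) (Z.ul la0))) (B.dp _)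
        (by linarith [T.g1])
  · have a1 : U p.n ((p.gst Q t).s (p.scG K σ t Q).jl) a0 :=
      ⟨cl.s_nn _, (le_mul_of_one_le_left (cl.s_nn _) E1).trans fx.l0s⟩
    rw [Lp86.third (r ξ).le]
    have a2 := Z.add3 (c := lm + η) (Z.up lm) (Z.up ξ) a1 le_rfl (by linarith [T.x1])
      (by linarith [T.x2])
    have a3 := Z.pow (Z.add (c := (logb p.n (Tp4.Bt p σ t) - lm) / 2 - η) (Z.up ι) bJ
      (by linarith [T.o3]) (by linarith [T.o2, T.x3])) 2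
    have p1 := Z.pc (c := logb p.n (Tp4.Bt p σ t)) (Z.pow (Z.up q) 2)
      (by push_cast; linarith [T.o1])
    have p2 := Z.pc (c := logb p.n (Tp4.Bt p σ t)) (Z.mul a2 a3) (by push_cast; linarith)
    have p3 := Z.pc (c := logb p.n (Tp4.Bt p σ t)) (Z.pow (Z.up A') 3)
      (by push_cast; linarith [T.o4])
    have p4 := Z.pc (c := logb p.n (Tp4.Bt p σ t)) (Z.up R) T.o5
    exact Z.le (Z.tot 4 (by linarith) (by linarith)) bt le_rfl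

open Tq67 (RQ)

/-- the lines of `Hy` on the table -/
def HyQ : Prop := ∀ c η ε S μ ν a V U ξ ρ L al χ2 χ3 γ lm : ℝ,
  RQ c η ε S μ ν a V U ξ ρ L al χ2 χ3 γ lm → ∀ Tu, -(4 * η) ≤ Tu → Tu ≤ η →
  HyL c η μ a (S + c / 7 - 1 / 6) V U ε ξ al ξ L χ2 χ3 (ρ - c / 10) γ (ρ - c / 10) (μ + a + η)
    (-(c / 100)) Tu lm (ρ - c / 20) (ρ / 2) ξ 0 U U 0 L (3 / 2 * ξ + c / 100) (χ3 + c / 10) ξ
    (χ3 + c / 50)

/-- the lines of `LQ` on the table -/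
def EgQ : Prop := ∀ c η ε S μ ν a V U ξ ρ L al χ2 χ3 γ lm : ℝ,
  RQ c η ε S μ ν a V U ξ ρ L al χ2 χ3 γ lm → ∃ εJ βb, χ3 + c / 100 + η ≤ εJ ∧
  ρ / 2 - c / 50 + η ≤ βb ∧ ∃ μ3 p2 p3 d1 d2 d3 q' r o ε' v2 q2 s b2 v3 q3 lm' z α b3,
  Tq23.EG η ε μ a V U ξ 0 U U μ3 0 L χ2 γ (3 / 2 * ξ + c / 100) (χ3 + c / 50) εJ βb (ρ / 3) ρ
    p2 p3 d1 d2 d3 q' r o ε' v2 q2 s b2 v3 q3 lm' z α b3

/-- the table on the graded path -/
def RqI : Prop := ∀ (β c0 C0 : ℝ) (A : ℕ) (c η K' ε0 K c0' C0' η' : ℝ) (p : Pm) (σ t : ℝ) (Q : Pl)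
  (ε : ℝ), Gd66 β c0 C0 A c η K' ε0 K c0' C0' η' p σ t Q → c ≤ 1 / 2000 → 5 * η ≤ ε →
  1000 * ε ≤ c → p.PtN σ t < p.PhN t → Sup82.RQ p σ t → ∃ ν ξ ρ L al χ2 χ3 γ lm,
  RQ c η ε (logb p.n p.s) (logb p.n (p.muG t)) ν (logb p.n (p.laG σ)) (logb p.n (p.Vc (nu p σ)))
    (logb p.n (p.u2 (nu p σ))) ξ ρ L al χ2 χ3 γ lm ∧ logb p.n (p.PhN t) ≤ 3 * ξ

theorem out_rq {c η ε S μ ν a V U ξ ρ L al χ2 χ3 γ lm : ℝ}
    (h : RQ c η ε S μ ν a V U ξ ρ L al χ2 χ3 γ lm) :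
    lm + 2 * η ≤ 0 ∧ lm + 3 * ξ + c / 50 + 4 * η ≤ ρ + 7 / 20 * c := by
  obtain ⟨o1, o2, o3, o4, o5, o6, o7, o8⟩ := h.ord
  have mu := h.mu
  rq1 h
  all_goals rcases mu with mu | mu <;> constructor <;> linarith

theorem ql_rq (h1 : HyQ) (h2 : EgQ) {c η ε S μ ν a V U ξ ρ L al χ2 χ3 γ lm bt φ : ℝ}
    (h : RQ c η ε S μ ν a V U ξ ρ L al χ2 χ3 γ lm) (hφ : φ ≤ 3 * ξ)
    (hb : 3 / 5 * c + 2 * S + 2 * a ≤ bt) : ∃ εJ βb,
    QL c η μ a (S + c / 7 - 1 / 6) V U bt φ ε ξ al ξ L χ2 χ3 (ρ - c / 10) γ (ρ - c / 10) (μ + a + η)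
      (-(c / 100)) lm (ρ - c / 20) (ρ / 2) 0 U U 0 L (3 / 2 * ξ + c / 100) (χ3 + c / 10) ξ
      (χ3 + c / 50) (χ3 + c / 100) (μ + ρ / 2 - c / 20) (ρ / 2 - c / 50) εJ βb (ρ / 3) ρ := by
  obtain ⟨εJ, βb, e1, e2, eg⟩ := h2 _ _ _ _ _ _ _ _ _ _ _ _ _ _ _ _ _ h
  obtain ⟨o1, o2, o3, o4, o5, o6, o7, o8⟩ := h.ord
  obtain ⟨u1, u2⟩ := out_rq h
  have η0 := h.η0
  have ηc := h.ηc
  have hρ := h.hρ
  have S0 := h.S0
  obtain ⟨b1, b2, b3, -⟩ := h.blt (T := -(5 * η)) (m := μ) (r := 0) le_rfl η0 le_rfl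
  exact ⟨εJ, βb, hφ, le_rfl, h.lnL, h1 _ _ _ _ _ _ _ _ _ _ _ _ _ _ _ _ _ h, eg, e1, e2, b2, h.ηε,
    h.m12 (by linarith) (by linarith), by linarith, b1, le_rfl, by linarith,
    by linarith [h.m2, h.εc], by linarith [h.m2], u1, by linarith, by linarith, by linarith,
    by linarith, by linarith⟩

/-- **the leaf of regime Q** -/
theorem supQ_of (hβ : 1 < β) (h1 : HyQ) (h2 : EgQ) (h3 : RqI) :
    OnG (Sup82.SupQ (1 / 100000)) β := by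
  refine OnG.cl' (c1 := 1 / 2000) hβ CL.triv (OnG.triv β) one_pos (by norm_num) 500000 0
    (fun _ => 1) fun K c0 C0 A c η K' c0' C0' η' p σ t Q G hc _ hη _ _ _ R => sq_pt G hc fun hP => ?_
  have H := G.R
  have X := cx G hc
  have c0' := H.c_pos
  push_cast at hη
  obtain ⟨ν, ξ, ρ, L, al, χ2, χ3, γ, lm, h, hφ⟩ := h3 _ _ _ _ _ _ _ _ _ _ _ _ _ _ _ _
    (1 / 100000 * c) G hc (by linarith) (by linarith) hP R
  have sM : logb p.n p.s ≤ logb p.n (p.sM t) := by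
    refine H.lg_mono H.s0 (le_min le_rfl (H.le_of_lg H.s0 (div_pos (pow_pos H.κ0 2) X.θ0) ?_))
    rw [logb_div (pow_pos H.κ0 2).ne' X.θ0.ne', logb_pow, H.lg_κ]
    push_cast
    linarith [h.S1, h.W1]
  obtain ⟨εJ, βb, T⟩ := ql_rq h1 h2 (bt := logb p.n (Tp4.Bt p σ t)) h hφ
    (by rw [Tp4.lg_Bt X]; linarith)
  rw [← H.lg_r] at T
  exact ⟨_, _, _, _, _, _, _, _, _, _, _, _, _, _, _, _, _, _, _, _, _, _, _, _, _, _, _, _, _, _, T⟩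

end Crest.Agent.T156.Alt.Tq90

end
end

-- ▼ part T156/TqI_90
section

/-!
# Row 156 (helper90): the table of regime Q on the graded path
-/

set_option autoImplicit false

noncomputable section

namespace Crest.Agent.T156.Alt.Tq90

open Real
open Crest.Agent.T156.Alt.Hl4

theorem phQ {s c ε x μ φ y : ℝ} (h : Nr44.Ex s c ε x μ φ)
    (h1 : -(4 / 15) + 4 / 5 * s - c / 4 ≤ μ) (h2 : μ ≤ -(1 / 6)) (a : -(5 / 9) - 2 / 3 * μ ≤ y)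
    (b : 25 / 8 * s - 25 / 48 - μ / 4 ≤ y) : φ ≤ y := by
  obtain ⟨c0, c1, e0, e1, s0, s1, x0, x1, m0, m1, m2, up⟩ := h
  rcases up with up | up | ⟨up, _, _⟩ | up | ⟨up, _⟩ | up | up | ⟨up, _, _⟩ | ⟨_, up⟩ | up |
    ⟨_, up⟩
  all_goals linarith

theorem rqI : RqI := by
  intro β c0 C0 A c η K' ε0 K c0' C0' η' p σ t Q ε G hc h5 hε hP R
  have H := G.R
  have X := cx G hc
  have c0' := H.c_pos
  have η0 := H.η_pos
  have ηc' := ηc G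
  have s := H.lg_s
  obtain ⟨R1, R2⟩ := R
  rw [H.hc] at R1
  obtain ⟨-, ⟨n1, -⟩, n2, pl, -⟩ := Lx13.lg_gst X G.D
  rw [max_eq_left (by linarith)] at n2
  obtain ⟨-, ha, hV, hU⟩ := pl.resolve_right fun a => by linarith [a.1]
  have sM : logb p.n p.s ≤ logb p.n (p.sM t) := by
    refine H.lg_mono H.s0 (le_min le_rfl (H.le_of_lg H.s0 (div_pos (pow_pos H.κ0 2) X.θ0) ?_))
    rw [logb_div (pow_pos H.κ0 2).ne' X.θ0.ne', logb_pow, H.lg_κ]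
    push_cast
    linarith
  have pt : 5 / 8 * c + 2 * (logb p.n (p.sM t) + logb p.n (p.laG σ)) ≤ logb p.n (p.PhN t) := by
    have a := X.la0
    have b := X.sM0
    have d := H.lg_mono (mul_pos (H.rp0 _) (pow_pos (mul_pos b a) 2)) ((Tp4.Pt_eq X hP).ge.trans hP.le)
    rw [logb_mul (H.rp0 _).ne' (pow_pos (mul_pos b a) 2).ne', H.lg_rp, logb_pow,
      logb_mul b.ne' a.ne', H.hc] at d
    exact_mod_cast d
  have ex := Nr44.ex H X.hy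
  generalize logb p.n (p.muG t) = μ at *
  generalize logb p.n p.s = S at *
  generalize logb p.n (p.laG σ) = a at *
  obtain ⟨ξ, xA, xB, xu⟩ : ∃ ξ : ℝ, -(5 / 9) - 2 / 3 * μ ≤ 3 * ξ ∧
      25 / 8 * S - 25 / 48 - μ / 4 ≤ 3 * ξ ∧
      (3 * ξ ≤ -(5 / 9) - 2 / 3 * μ ∨ 3 * ξ ≤ 25 / 8 * S - 25 / 48 - μ / 4) := by
    rcases le_total (-(5 / 9) - 2 / 3 * μ) (25 / 8 * S - 25 / 48 - μ / 4) with h | h
    · exact ⟨(25 / 8 * S - 25 / 48 - μ / 4) / 3, by linarith, by linarith, .inr (by linarith)⟩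
    · exact ⟨(-(5 / 9) - 2 / 3 * μ) / 3, by linarith, by linarith, .inl (by linarith)⟩
  obtain ⟨γ, γ1, γ2, γu⟩ : ∃ γ : ℝ, 3 * ξ + c / 100 ≤ γ ∧ -1 - μ + 3 / 2 * ξ - a + c / 50 ≤ 2 * γ ∧
      (γ ≤ 3 * ξ + c / 100 ∨ 2 * γ ≤ -1 - μ + 3 / 2 * ξ - a + c / 50) := by
    rcases le_total (2 * (3 * ξ + c / 100)) (-1 - μ + 3 / 2 * ξ - a + c / 50) with h | h
    · exact ⟨(-1 - μ + 3 / 2 * ξ - a + c / 50) / 2, by linarith, by linarith, .inr (by linarith)⟩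
    · exact ⟨_, le_rfl, h, .inl le_rfl⟩
  obtain ⟨lm, m1, m2, mu⟩ : ∃ lm : ℝ, μ / 2 + c / 100 ≤ lm ∧ ξ + c / 100 ≤ lm ∧
      (lm ≤ μ / 2 + c / 100 ∨ lm ≤ ξ + c / 100) := by
    rcases le_total (μ / 2) ξ with h | h
    · exact ⟨_, by linarith, le_rfl, .inr le_rfl⟩
    · exact ⟨_, le_rfl, by linarith, .inl le_rfl⟩
  have ph := phQ ex R1 R2 xA xB
  exact ⟨_, ξ, _, _, _, _, _, γ, lm, ⟨by linarith, η0.le, h5, ηc', hε, s.1, s.2, by linarith, R2, n1,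
    n2, ha, hV, hU, xA, xB, xu, rfl, by linarith, rfl, rfl, rfl, rfl, γ1, γ2, γu, m1, m2, mu⟩, ph⟩

end Crest.Agent.T156.Alt.Tq90

end
end

-- ▼ part T156/TqH_67
section

/-!
# Row 156 (helper67): all the lines of `Hy` on the table of the linear regime
-/

set_option autoImplicit false
set_option maxHeartbeats 4000000

noncomputable section

namespace Crest.Agent.T156.Alt.Tq67

open Real
open Crest.Agent.T156.Alt.Ln97 (M12 GX GV)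
open Crest.Agent.T156.Alt.Hl4 (Ms LnL LtL HyL)
open Crest.Agent.T156.Alt.Lq3 (EZ ES EA EL LD)

variable {c η ε S μ ν a V U ξ ρ L al χ2 χ3 γ lm T m Tu : ℝ}
  (h : RQ c η ε S μ ν a V U ξ ρ L al χ2 χ3 γ lm)
include h

theorem RQ.ld : LD η (2 / 3 * a) U U (U - η) := by
  obtain ⟨o1, o2, o3, o4, o5, o6, o7, o8⟩ := h.ord
  rq1 h
  all_goals constructor <;> linarith

theorem RQ.es : ES η (2 / 3 * a) a V U ξ 0 (-1 - μ) U (U - η) 0 χ3 χ3 (3 / 2 * ξ - U / 2 + 2 * η)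
    (χ3 - 3 * η) := by
  obtain ⟨o1, o2, o3, o4, o5, o6, o7, o8⟩ := h.ord
  rq1 h
  all_goals
    refine ⟨.inl ⟨?_, ?_⟩, le_rfl, le_rfl, ?_, ?_, ?_, ?_, ?_, ?_, .inl ?_, ?_, ?_, ?_, ?_, ?_, ?_, ?_,
      ?_, ?_, ?_, ?_, ?_, ?_⟩ <;> linarith

theorem RQ.ez : EZ η μ a V U ξ 0 U 0 χ3 χ3 (U - η) (3 / 2 * ξ - U / 2 + 2 * η) (χ3 - 3 * η) := by
  refine ⟨?_, ?_, ?_, h.ld, h.es⟩ <;>
    linarith [h.ord.2.2.2.1, h.ord.2.2.2.2.1, h.hU, h.ν1, h.W1, h.c1, h.xρ, h.hρ, h.S0, h.ηc]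

theorem RQ.ea : EA η ε μ a ξ (-1 - μ) U U 0 χ3 χ3 L L χ2 χ3 γ (3 / 2 * ξ + c / 100) (χ3 + c / 10) ξ := by
  obtain ⟨o1, o2, o3, o4, o5, o6, o7, o8⟩ := h.ord
  rq h
  all_goals constructor <;> linarith

theorem RQ.fl : Hy43.FL η ε ξ (3 * ξ) (3 * ξ) (3 / 2 * ξ + c / 100) L lm μ a := by
  obtain ⟨o1, o2, o3, o4, o5, o6, o7, o8⟩ := h.ord
  rq1 h
  all_goals constructor <;> linarith

theorem RQ.kp (h0 : al ≤ T) (h1 : T ≤ η) (hm : μ + 3 / 2 * T - 2 * η ≤ m) :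
    χ3 + c / 100 ≤ ρ / 2 - 6 * η + m - T ∧ T + χ2 + 5 * η ≤ ρ / 2 + m / 2 ∧
      T + 4 * L - 2 / 3 * (1 + T + m) + 5 * η ≤ ρ / 2 + m / 2 ∧
      (-(4 * η) ≤ T → μ + a + η ≤ ρ / 2 - 5 * η + m - T) := by
  obtain ⟨o1, o2, o3, o4, o5, o6, o7, o8⟩ := h.ord
  rq1 h
  all_goals refine ⟨?_, ?_, ?_, fun k => ?_⟩ <;> linarith

theorem RQ.sc : al + η ≤ -(c / 100) ∧ μ + 2 * a + 3 * η ≤ ρ - c / 20 ∧ 2 / 3 * a + 4 * η ≤ lm ∧
    ε + (μ + a + η) ≤ 3 / 2 * μ ∧ μ + 2 * χ2 + 3 * η ≤ ρ - c / 20 + -(c / 100) ∧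
    μ + 8 * L - 4 / 3 * (1 + -(c / 100) + μ) + 3 * η ≤ ρ - c / 20 + -(c / 100) ∧
    χ3 + c / 100 ≤ (ρ - c / 20 + μ - η - 6 * η) / 2 := by
  obtain ⟨o1, o2, o3, o4, o5, o6, o7, o8⟩ := h.ord
  rq1 h
  all_goals refine ⟨?_, ?_, ?_, ?_, ?_, ?_, ?_⟩ <;> linarith

theorem RQ.top (M : Ms c η μ T m) (h0 : -(c / 50) ≤ T) : m = μ := by
  have o := h.ord.2.2.2.1
  refine le_antisymm M.u3 ?_
  rcases M.lo with ⟨a, b⟩ | ⟨-, b⟩
  · have : c = 0 := by linarith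
    have := h.ηc
    have := h.η0
    rcases b with b | b <;> linarith [h.W1]
  · exact b

theorem RQ.ltL (u0 : -(4 * η) ≤ Tu) (u1 : Tu ≤ η) :
    LtL c η μ a (S + c / 7 - 1 / 6) ε ξ al ξ L χ2 χ3 (ρ - c / 10) γ (ρ - c / 10) (μ + a + η)
      (-(c / 100)) Tu lm (ρ - c / 20) (ρ / 2) := by
  obtain ⟨o1, o2, o3, o4, o5, o6, o7, o8⟩ := h.ord
  obtain ⟨s1, s2, s3, s4, s5, s6, s7⟩ := h.sc
  have η0 := h.η0
  have ηc := h.ηc
  refine ⟨by linarith, by linarith, s1, by linarith, s2, .inr ⟨le_rfl, s3, s4⟩, fun m M => ?_,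
    fun T m a b M => ?_, fun T m a b M => ?_⟩
  · rw [h.top M (by linarith)]
    exact ⟨h.tl u0 le_rfl, s5, s6⟩
  · rw [h.top M (by linarith)]
    exact (h.m12 (by linarith) (by linarith)).mono (by linarith)
  · have e := h.ms M (by linarith) (b.trans u1)
    obtain ⟨k1, k2, k3, k4⟩ := h.kp a (b.trans u1) e
    exact ⟨(h.m12 a (by linarith)).mono k1,
      (le_total (T + 4 * η) 0).imp id fun k => k4 (by linarith), k2, k3⟩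

/-- **the lines of `Hy`** -/
theorem RQ.hyL (u0 : -(4 * η) ≤ Tu) (u1 : Tu ≤ η) :
    HyL c η μ a (S + c / 7 - 1 / 6) V U ε ξ al ξ L χ2 χ3 (ρ - c / 10) γ (ρ - c / 10) (μ + a + η)
      (-(c / 100)) Tu lm (ρ - c / 20) (ρ / 2) ξ 0 U U 0 L (3 / 2 * ξ + c / 100) (χ3 + c / 10) ξ
      (χ3 + c / 50) := by
  obtain ⟨o1, o2, o3, o4, o5, o6, o7, o8⟩ := h.ord
  have η0 := h.η0
  have ηc := h.ηc
  exact ⟨h.ltL u0 u1, h.fl, (h.m12 (by linarith) (by linarith)).mono (by linarith),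
    _, _, _, _, _, _, _, _, _, _, _, _, _, _, _, h.ez, h.ld, h.ea, h.ec le_rfl⟩

end Crest.Agent.T156.Alt.Tq67

end
end

-- ▼ part T156/TqE_90
section

/-!
# Row 156 (helper90): the lines of `LQ` on the table of regime Q, and the leaf `SupQ`
-/

set_option autoImplicit false
set_option maxHeartbeats 4000000

noncomputable section

namespace Crest.Agent.T156.Alt.Tq90

open Real
open Crest.Agent.T156.Alt.Tq67 (RQ)

theorem eq90 {c η ε S μ ν a V U ξ ρ L al χ2 χ3 γ lm : ℝ}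
    (h : RQ c η ε S μ ν a V U ξ ρ L al χ2 χ3 γ lm) :
    Tq23.EQ η ε μ (2 / 3 * a) a V U (2 * μ + 2 * a + 3 * η) ξ 0 (-1 - μ) L χ2 γ χ3
      (3 / 2 * ξ + c / 100) (χ3 + c / 50) (χ3 + c / 100 + η) (ρ / 2 - c / 50 + η) (ρ / 3) ρ U (U - η)
      (-ε) (U / 2 - c - η) ((-1 - μ) / 3) (μ + ρ / 2 - η) 0 (3 / 2 * ξ - U / 2 + 2 * η)
      ((-1 - μ + 2 * ξ - a + 4 * η) / 3) (-1 - μ - a + 2 * η) ((3 * ξ + ε) / 2) (3 / 2 * ξ - a + 2 * η)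
      (2 / 3 * a + 2 * c) (-1 - μ + 2 * ξ - a + 4 * η) ((-1 - μ + 2 * ξ - (U / 2 - c - η) + 5 * η) / 3)
      (2 * (-1 - μ - a) + 3 * η) := by
  obtain ⟨o1, o2, o3, o4, o5, o6, o7, o8⟩ := h.ord
  have g : 2 * γ + η ≤ μ + ρ / 2 - η := by
    rq h
    all_goals linarith
  rq1 h
  all_goals
    refine ⟨?_, ?_, ?_, ?_, ?_, ?_, ?_, ?_, ?_, ?_, ?_, ?_, g, ?_, ?_, ?_, ?_, ?_, ?_, ?_, ?_, ?_, ?_,
      .inr ?_, .inr ⟨?_, ?_⟩, ⟨?_, ?_, .inr ?_, ?_, ?_, ?_⟩, ?_, ?_, ?_, ?_, ?_, ?_, ?_, ?_,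
      .inl le_rfl, .inl ⟨?_, ?_⟩, ?_, ?_, ?_, ?_, ?_, ?_, ?_, ?_, ?_, ?_⟩ <;> linarith

theorem ld90 {c η ε S μ ν a V U ξ ρ L al χ2 χ3 γ lm : ℝ}
    (h : RQ c η ε S μ ν a V U ξ ρ L al χ2 χ3 γ lm) :
    Lq3.LD η (2 / 3 * a) U (-ε) (U / 2 - c - η) ∧ -(9 / 10) ≤ U := by
  have := h.ord.2.2.2.1
  refine ⟨⟨?_, ?_, ?_⟩, ?_⟩ <;> linarith [h.ha, h.hU, h.ν0, h.ν1, h.W0, h.W1, h.εc, h.ηε, h.η0, h.S0,
    h.c1, h.ηc]

theorem egQ90 : EgQ := fun _ _ _ _ _ _ _ _ _ _ _ _ _ _ _ _ _ h =>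
  ⟨_, _, le_rfl, le_rfl, _, _, _, _, _, _, _, _, _, _, _, _, _, _, _, _, _, _, _, _,
    h.ez, by linarith [h.ηε, h.η0], (ld90 h).2, by linarith [h.εc, h.c1], h.ld, (ld90 h).1, eq90 h⟩

/-- **the leaf of regime Q** -/
theorem supQ90 {β : ℝ} (hβ : 1 < β) : R77.OnG (Sup82.SupQ (1 / 100000)) β :=
  supQ_of hβ (fun _ _ _ _ _ _ _ _ _ _ _ _ _ _ _ _ _ h _ a b => h.hyL a b) egQ90 rqI

end Crest.Agent.T156.Alt.Tq90

end
end

-- ▼ part T156/TpX_30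
section

/-!
# Row 156 (helper30): the total energy in the regime of the quadratic branch
-/

set_option autoImplicit false

noncomputable section

namespace Crest.Agent.T156.Alt.Nr44

open Real

theorem Ex.phP {s c ε x μ φ : ℝ} (h : Ex s c ε x μ φ) (h1 : -(1 / 3) - 23 / 40 * c ≤ μ)
    (h2 : μ ≤ -(1 / 10)) :
    φ ≤ -(1 / 3) + c / 4 - 2 / 3 * (μ + 1 / 3) ∨ φ ≤ 5 / 2 * s - 5 / 12 + c / 4 := by
  obtain ⟨c0, c1, e0, e1, s0, s1, x0, x1, m0, m1, m2, up⟩ := h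
  rcases up with up | up | ⟨up, _, _⟩ | up | ⟨up, _⟩ | up | up | ⟨up, _, _⟩ | ⟨up, _⟩ | up |
    ⟨up, _⟩
  all_goals first | (left; linarith) | (right; linarith)

variable {β c0 C0 : ℝ} {A : ℕ} {c η K : ℝ} {p : Pm} {σ t : ℝ}

/-- **`phP`**, disjunctive form -/
theorem Cx.phP' (X : Cx β c0 C0 A c η K p σ t) (h1 : -(1 / 3) - 23 / 40 * c ≤ logb p.n (p.muG t))
    (h2 : logb p.n (p.muG t) ≤ -(1 / 10)) :
    logb p.n (p.PhN t) ≤ -(1 / 3) + c / 4 - 2 / 3 * (logb p.n (p.muG t) + 1 / 3) ∨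
      logb p.n (p.PhN t) ≤ 5 / 2 * logb p.n p.s - 5 / 12 + c / 4 :=
  (ex X.H X.hy).phP h1 h2


end Crest.Agent.T156.Alt.Nr44

end
end

-- ▼ part T156/TpY_30
section

/-!
# Row 156 (helper30): the regime of the quadratic branch, from the graded path
-/

set_option autoImplicit false

noncomputable section

namespace Crest.Agent.T156.Alt.Tp66

open Real
open Crest.Agent.T156.Alt.Kn72 (nu)

theorem rp_lin {c η ε μ ν s l v uu B φ : ℝ} (c0 : 0 < η) (c1 : 100000 * η ≤ c) (c2 : c ≤ 1 / 2000)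
    (e0 : 5 * η ≤ ε) (e1 : 1000 * ε ≤ c) (s0 : 0 ≤ s) (s1 : s ≤ 1 / 19)
    (m0 : -(1 / 3) - 23 / 40 * c ≤ μ) (m1 : μ ≤ -(4 / 15) + 4 / 5 * s - c / 4)
    (n1 : μ ≤ ν + η) (n2 : ν ≤ μ)
    (pl : (0 ≤ ν + 1 / 3 ∧ l = -(1 / 6) - c / 2 - (ν + 1 / 3) / 2 ∧ v = -(1 / 6) + 3 * c / 4 ∧
      uu = -(5 / 6) - c / 4 - ν) ∨
    (ν + 1 / 3 ≤ 0 ∧ l = -(1 / 6) - c / 2 - (ν + 1 / 3) / 3 ∧
      v = -(1 / 6) + 3 * c / 4 - (ν + 1 / 3) / 3 ∧ uu = -(5 / 6) - c / 4 - ν + (ν + 1 / 3) / 3))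
    (hB : B = 3 / 5 * c + 2 * s + 2 * l) (b : 5 / 8 * c + 2 * s + 2 * l ≤ φ)
    (hφ : φ ≤ -(1 / 3) + c / 4 - 2 / 3 * (μ + 1 / 3) ∨ φ ≤ 5 / 2 * s - 5 / 12 + c / 4) :
    ∃ ξ a0 χ2 γ χ3 b, RP c η ε μ s l v uu B ξ a0 χ2 γ χ3 b ∧ φ ≤ 3 * ξ := by
  have k : (-(1 / 3) - 3 / 5 * c - μ / 2 ≤ l ∧ l ≤ -(1 / 3) - c / 2 - μ / 2 + η ∧
      l ≤ -(5 / 18) - c / 2 - μ / 3 + η) ∧ (-(1 / 6) ≤ v ∧ v ≤ -(1 / 6) + c) ∧
      (-(5 / 6) - c / 2 - μ ≤ uu ∧ uu ≤ -(5 / 6) - μ) := by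
    rcases pl with ⟨_, rfl, rfl, rfl⟩ | ⟨_, rfl, rfl, rfl⟩ <;>
      refine ⟨⟨?_, ?_, ?_⟩, ⟨?_, ?_⟩, ?_, ?_⟩ <;> linarith
  obtain ⟨⟨l0, l1, l2⟩, hv, hu⟩ := k
  rcases le_total (5 / 2 * s - 5 / 12 + c / 4) (-(5 / 9) + c / 4 - 2 / 3 * μ) with q | q
  · have f : φ ≤ 3 * (-(5 / 27) + c / 12 - 2 / 9 * μ) := by rcases hφ with _ | _ <;> linarith
    exact ⟨_, _, _, _, _, _, ⟨c0, c1, c2, e0, e1, s0, s1, m0, m1, l0, l1, l2, hv, hu, hB,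
      by linarith, .inl ⟨rfl, by linarith, rfl, rfl, rfl, rfl, rfl⟩⟩, f⟩
  · have f : φ ≤ 3 * (5 / 6 * s - 5 / 36 + c / 12) := by rcases hφ with _ | _ <;> linarith
    exact ⟨_, _, _, _, _, _, ⟨c0, c1, c2, e0, e1, s0, s1, m0, m1, l0, l1, l2, hv, hu, hB,
      by linarith, .inr ⟨rfl, by linarith, rfl, rfl, rfl, rfl, rfl⟩⟩, f⟩

variable {β c0 C0 : ℝ} {A : ℕ} {c η K' ε K c0' C0' η' : ℝ} {p : Pm} {σ t : ℝ} {Q : Pl}

/-- in the regime of the quadratic branch `sM = s` -/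
theorem lg_sM (X : Nr44.Cx β c0 C0 A c η K' p σ t) (h : logb p.n (p.muG t) ≤ -(1 / 10)) :
    logb p.n (p.sM t) = logb p.n p.s := by
  have H := X.H
  have a := pow_pos H.κ0 2
  rw [Pm.sM, lg_min H.N1 H.s0 (div_pos a X.θ0), logb_div a.ne' X.θ0.ne', logb_pow, H.lg_κ]
  push_cast
  exact min_eq_left (by linarith [H.lg_s.2, X.hc, H.c_pos])

/-- **`RP` on the graded path**, from `Cx` -/
theorem rp_cx (X : Nr44.Cx β c0 C0 A c η K' p σ t) (hη : 100000 * η ≤ c) (e0 : 5 * η ≤ ε)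
    (e1 : 1000 * ε ≤ c) (h : p.PtN σ t < p.PhN t)
    (r : logb p.n (p.muG t) ≤ -(4 / 15) + 4 / 5 * logb p.n p.s - p.c / 4) :
    ∃ ξ a0 χ2 γ χ3 b, RP c η ε (logb p.n (p.muG t)) (logb p.n p.s) (logb p.n (p.laG σ))
      (logb p.n (p.Vc (nu p σ))) (logb p.n (p.u2 (nu p σ))) (logb p.n (Tp4.Bt p σ t))
      ξ a0 χ2 γ χ3 b ∧ logb p.n (p.PhN t) ≤ 3 * ξ ∧ p.PhN t ≤ ((p.n : ℝ) ^ ξ) ^ 3 := by
  have H := X.H
  rw [H.hc] at r
  obtain ⟨m0, b⟩ := X.t2 h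
  have s := H.lg_s
  have m1 : logb p.n (p.muG t) ≤ -(1 / 10) := by linarith [H.c_pos]
  have e := lg_sM X m1
  have m := H.muG_pos X.Mσ
  have o := H.lg_mono m (H.oct_mu X.o).1
  have n2 : logb p.n (nu p σ) ≤ logb p.n (p.muG t) :=
    ((H.lg_mt m).le.trans (min_le_right _ _)).trans (max_le o (by linarith [H.c_pos]))
  rw [e] at b
  obtain ⟨ξ, a0, χ2, γ, χ3, b, R, f⟩ := rp_lin H.η_pos hη X.hc e0 e1 s.1 s.2 m0 r X.lg_θν n2 X.lg_pl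
    ((Tp4.lg_Bt X).trans (by rw [e])) b (X.phP' m0 m1)
  refine ⟨ξ, a0, χ2, γ, χ3, b, R, f, H.le_of_lg X.Ph0 (pow_pos (H.rp0 _) 3) ?_⟩
  rw [logb_pow, H.lg_rp]
  exact_mod_cast f

/-- **`RP` on the graded path** -/
theorem rp_gst {ε0 : ℝ} (G : Gd66 β c0 C0 A c η K' ε0 K c0' C0' η' p σ t Q) (hc : c ≤ 1 / 2000)
    (e0 : 5 * η ≤ ε) (e1 : 1000 * ε ≤ c) (h : p.PtN σ t < p.PhN t)
    (r : logb p.n (p.muG t) ≤ -(4 / 15) + 4 / 5 * logb p.n p.s - p.c / 4) :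
    ∃ ξ a0 χ2 γ χ3 b, RP c η ε (logb p.n (p.muG t)) (logb p.n p.s) (logb p.n (p.laG σ))
      (logb p.n (p.Vc (nu p σ))) (logb p.n (p.u2 (nu p σ))) (logb p.n (Tp4.Bt p σ t))
      ξ a0 χ2 γ χ3 b ∧ p.PhN t ≤ ((p.n : ℝ) ^ ξ) ^ 3 := by
  have a := G.hη
  have b := G.hε
  obtain ⟨ξ, a0, χ2, γ, χ3, b, R, -, f⟩ :=
    rp_cx ⟨G.R, hc, by linarith [G.R.η_pos], G.O⟩ (by linarith) e0 e1 h r
  exact ⟨ξ, a0, χ2, γ, χ3, b, R, f⟩

end Crest.Agent.T156.Alt.Tp66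

end
end

-- ▼ part T156/TpI_66
section

/-!
# Row 156 (helper66): the linear lines of `Hy` at the table of the quadratic branch
-/

set_option autoImplicit false

namespace Crest.Agent.T156.Alt.Tp66

open Real
open Crest.Agent.T156.Alt.Ln97 Crest.Agent.T156.Alt.Hl4
open Crest.Agent.T156.Alt.Lt52 (TL)
open Crest.Agent.T156.Alt.Kn72 (nu)

/-- the same facts with integer coefficients; `a`, `L` = exponents of `l`, `Lg` -/
structure RI (c η ε μ s l v uu B ξ a0 χ2 γ χ3 b a L : ℝ) : Prop where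
  v0 : -1 ≤ 6 * v
  v1 : 6 * v ≤ -1 + 6 * c
  u0 : -5 - 3 * c - 6 * μ ≤ 6 * uu
  u1 : 6 * uu ≤ -5 - 6 * μ
  c0 : 0 < η
  c1 : 100000 * η ≤ c
  c2 : 2000 * c ≤ 1
  e0 : 5 * η ≤ ε
  e1 : 1000 * ε ≤ c
  s0 : 0 ≤ s
  s1 : 19 * s ≤ 1
  m0 : -40 - 69 * c ≤ 120 * μ
  m1 : 60 * μ ≤ -16 + 48 * s - 15 * c
  l0 : -10 - 18 * c - 15 * μ ≤ 30 * l
  l1 : 6 * l ≤ -2 - 3 * c - 3 * μ + 6 * η
  l2 : 18 * l ≤ -5 - 9 * c - 6 * μ + 18 * η
  hB : 5 * B = 3 * c + 10 * s + 10 * l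
  Bx : B ≤ 3 * ξ
  ha : 150 * a = -18 * c - 150 * ξ + 50 * B
  hL : 150 * L = 150 * ε + 150 * ξ - 50 * B + 3 * c
  tb : (108 * ξ = -20 + 9 * c - 24 * μ ∧ 30 * s - 5 + 3 * c ≤ 36 * ξ ∧
      450 * a0 = -79 - 75 * μ ∧ 1000 * χ2 = 2000 * ξ + 1000 * a0 + 3 ∧
      30 * γ = -14 + 27 * c - 12 * μ ∧ 600 * χ3 = -403 - 300 * μ ∧
      3000 * b = -2003 - 600 * c - 1500 * μ) ∨
    (36 * ξ = 30 * s - 5 + 3 * c ∧ -20 + 9 * c - 24 * μ ≤ 108 * ξ ∧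
      200 * a0 = -27 + 82 * s ∧ 1000 * χ2 = 2000 * ξ + 1000 * a0 + 1 ∧
      1000 * γ = -383 + 1540 * s ∧ 1000 * χ3 = -587 + 2570 * s ∧ 1000 * b = -587 + 2570 * s)

theorem RP.ri {c η ε μ s l v uu B ξ a0 χ2 γ χ3 b : ℝ} (h : RP c η ε μ s l v uu B ξ a0 χ2 γ χ3 b) :
    RI c η ε μ s l v uu B ξ a0 χ2 γ χ3 b (-(c / 10) - (ξ - (B / 3 - c / 50)))
      (ε + (ξ - (B / 3 - c / 50))) :=
  ⟨by linarith only [h.hv.1], by linarith only [h.hv.2], by linarith only [h.hu.1],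
    by linarith only [h.hu.2], h.c0, h.c1, by linarith only [h.c2], h.e0, h.e1, h.s0, by linarith only [h.s1],
    by linarith only [h.m0], by linarith only [h.m1], by linarith only [h.l0],
    by linarith only [h.l1], by linarith only [h.l2], by linarith only [h.hB], h.Bx, by ring, by ring,
    h.tb.imp (fun ⟨a, b, c, d, e, f, g⟩ => ⟨by linarith only [a], by linarith only [b],
      by linarith only [c], by linarith only [d], by linarith only [e], by linarith only [f],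
      by linarith only [g]⟩) fun ⟨a, b, c, d, e, f, g⟩ => ⟨by linarith only [a],
      by linarith only [b], by linarith only [c], by linarith only [d], by linarith only [e],
      by linarith only [f], by linarith only [g]⟩⟩

set_option hygiene false in
macro "ri66" : tactic => `(tactic| (
  obtain ⟨-, -, -, -, c0, c1, c2, e0, e1, s0, s1, m0, m1, l0, l1, l2, hB, Bx, ha, hL, tb⟩ := h
  rcases tb with ⟨t0, t1, t2, t3, t4, t5, t6⟩ | ⟨t0, t1, t2, t3, t4, t5, t6⟩))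

set_option hygiene false in
macro "ru66" : tactic => `(tactic| (
  obtain ⟨v0, v1, u0, u1, c0, c1, c2, e0, e1, s0, s1, m0, m1, l0, l1, l2, hB, Bx, ha, hL, tb⟩ := h
  rcases tb with ⟨t0, t1, t2, t3, t4, t5, t6⟩ | ⟨t0, t1, t2, t3, t4, t5, t6⟩))

namespace RI

variable {c η ε μ s l v uu B ξ a0 χ2 γ χ3 b a L T Y m : ℝ}
  (h : RI c η ε μ s l v uu B ξ a0 χ2 γ χ3 b a L)
include h

/-- one lower bound of the mass -/
theorem ms (q : Ms c η μ T m) (hT : a0 ≤ T) :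
    (T + 3 * c ≤ 0 ∧ 2 * μ - 2 * η + 3 * T + 9 * c ≤ 2 * m) ∨ (0 ≤ T + 3 * c ∧ μ ≤ m) := by
  rcases q.lo with ⟨x, d | d⟩ | d
  · refine .inl ⟨by linarith only [x], ?_⟩
    ri66 <;> linarith
  · exact .inl ⟨by linarith only [x], by linarith only [d]⟩
  · exact .inr ⟨by linarith only [d.1], d.2⟩

theorem a0a : a0 + η ≤ a := by ri66 <;> linarith

set_option maxHeartbeats 1000000 in
theorem m12 (q : Ms c η μ a m) : M12 η L ξ χ2 χ3 γ a m b ∧ b ≤ 3 / 2 * m - ε - η := by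
  have k := h.ms q (by linarith only [h.a0a, h.c0])
  clear q
  rcases k with ⟨q1, q2⟩ | ⟨q1, q2⟩ <;> ri66 <;>
    refine ⟨⟨?_, ?_, ?_, ?_, ?_, ?_, ?_, ?_, ?_, ?_, ?_, ?_⟩, ?_⟩ <;> linarith

set_option maxHeartbeats 1000000 in
theorem gv (h0 : a0 ≤ T) (h1 : T ≤ η) (hY : Y ≤ T ∨ Y ≤ ξ) (q : Ms c η μ T m) :
    GV η ξ χ2 χ3 T Y m := by
  have k := h.ms q h0
  clear q
  rcases le_total T ξ with x | x
  · have y : Y ≤ ξ := hY.elim (fun a => a.trans x) id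
    clear hY
    constructor
    · rcases le_total (η + T + 2 * ξ) χ2 with z | z
      · exact .inl (by linarith)
      · refine .inr ?_
        rcases k with ⟨q1, q2⟩ | ⟨q1, q2⟩ <;> ri66 <;> constructor <;> linarith
    · rcases le_total (η + T + 4 * ξ) χ3 with z | z
      · exact .inl (by linarith)
      · refine .inr ?_
        rcases k with ⟨q1, q2⟩ | ⟨q1, q2⟩ <;> ri66 <;> constructor <;> linarith
  · have y : Y ≤ T := hY.elim id fun a => a.trans x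
    clear hY
    constructor <;> refine .inr ?_ <;>
      rcases k with ⟨q1, q2⟩ | ⟨q1, q2⟩ <;> ri66 <;> constructor <;> linarith

set_option maxHeartbeats 1000000 in
theorem gx {m0 : ℝ} (q0 : Ms c η μ a0 m0) (q : Ms c η μ a m) : GX η ε a0 a ξ L χ2 χ3 γ m0 m := by
  have k0 := h.ms q0 le_rfl
  have k := h.ms q (by linarith only [h.a0a, h.c0])
  clear q q0
  refine ⟨?_, ?_, ?_, ?_, ?_, ?_, ?_, ?_, ⟨?_, ?_⟩, ⟨?_, ?_⟩, ⟨?_, ?_⟩, ?_⟩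
  · rcases k0 with ⟨q1, q2⟩ | ⟨q1, q2⟩ <;> ri66 <;> linarith
  all_goals clear k0
  all_goals rcases k with ⟨q1, q2⟩ | ⟨q1, q2⟩ <;> ri66 <;> linarith

theorem lnL : LnL c η μ (s + c / 7 - 1 / 6) ε a0 a ξ L χ2 χ3 γ := by
  have a1 : a0 ≤ a := by linarith only [h.a0a, h.c0]
  refine ⟨⟨by linarith only [h.e0, h.c0], by linarith only [h.e1, h.e0, h.c0]⟩,
    by ri66 <;> linarith, a1, fun m0 m q0 q => h.gx q0 q,
    fun T Y m a d e q => h.gv a d e q, fun T Y m a d e q => ?_, fun m q => ?_,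
    fun m q => (h.m12 q).1.mono (h.m12 q).2⟩
  · rcases h.ms q a with ⟨q1, q2⟩ | ⟨q1, q2⟩ <;> rcases e with e | e <;> ri66 <;> linarith
  · rcases h.ms q a1 with ⟨q1, q2⟩ | ⟨q1, q2⟩ <;> ri66 <;> linarith

set_option maxHeartbeats 1000000 in
/-- `M12` at every level above `l` -/
theorem m12' (hT : a ≤ T) (q : Ms c η μ T m) : M12 η L ξ χ2 χ3 γ T m b := by
  have k := h.ms q (by linarith only [h.a0a, h.c0, hT])
  clear q
  rcases k with ⟨q1, q2⟩ | ⟨q1, q2⟩ <;> ri66 <;>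
    refine ⟨?_, ?_, ?_, ?_, ?_, ?_, ?_, ?_, ?_, ?_, ?_, ?_⟩ <;> linarith

theorem mtop (hT : -(5 * η) ≤ T) : M12 η L ξ χ2 χ3 γ T μ b := by
  ri66 <;> refine ⟨?_, ?_, ?_, ?_, ?_, ?_, ?_, ?_, ?_, ?_, ?_, ?_⟩ <;> linarith

set_option maxHeartbeats 1000000 in
theorem tl {Tu : ℝ} (lq : ε + μ / 2 ≤ B / 3 - c / 50) (u0 : -(4 * η) ≤ Tu)
    (q : Ms c η μ (a + η) m) :
    TL η c ε a ξ L χ2 (B - 3 * c / 100) (a + η) m Tu (B / 3 - c / 50) (B - c / 50)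
      (B / 2 - c / 200) μ ∧ m + 2 * χ2 + 3 * η ≤ B - c / 50 + (a + η) ∧
      m + 8 * L - 4 / 3 * (1 + (a + η) + m) + 3 * η ≤ B - c / 50 + (a + η) := by
  have k := h.ms q (by linarith only [h.a0a, h.c0])
  have u3 := q.u3
  clear q
  refine ⟨⟨?_, ?_, ?_, ?_, lq, ?_, ?_, ?_, ?_, ?_, ?_, ?_, ?_, ?_, ?_, ?_, ?_⟩, ?_, ?_⟩ <;> clear lq
  any_goals (clear k; ri66 <;> linarith)
  all_goals rcases k with ⟨q1, q2⟩ | ⟨q1, q2⟩ <;> ri66 <;> linarith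

set_option maxHeartbeats 1000000 in
theorem ltL {Tu : ℝ} (lq : ε + μ / 2 ≤ B / 3 - c / 50) (u0 : -(4 * η) ≤ Tu) (u1 : Tu ≤ η) :
    LtL c η μ l (s + c / 7 - 1 / 6) ε a0 a ξ L χ2 χ3 (B - 3 * c / 100) γ (B - 3 * c / 100)
      (μ + l + η) (a + η) Tu (B / 3 - c / 50) (B - c / 50) (B / 2 - c / 200) := by
  refine ⟨by ri66 <;> linarith, h.a0a, le_rfl, by linarith only [h.c1, h.c0],
    by ri66 <;> linarith, .inr ⟨le_rfl, by ri66 <;> linarith, by ri66 <;> linarith⟩,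
    fun m q => h.tl lq u0 q, fun T m a1 a2 q => (h.m12' (by linarith only [a1]) q).mono ?_,
    fun T m a1 a2 q => ⟨(h.m12' a1 q).mono ?_, ?_, ?_, ?_⟩⟩
  all_goals have k := h.ms q (by linarith only [h.a0a, h.c0, a1])
  all_goals clear q lq
  rotate_left 2
  · rcases k with ⟨q1, q2⟩ | ⟨q1, q2⟩
    · exact .inl (by linarith only [q1, h.c1, h.c0])
    · refine .inr ?_
      ri66 <;> linarith
  all_goals rcases k with ⟨q1, q2⟩ | ⟨q1, q2⟩ <;> ri66 <;> linarith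

theorem fl : Hy43.FL η ε a0 (3 * ξ) (3 * ξ) (3 / 2 * ξ + c / 100) L (B / 3 - c / 50) μ l := by
  ri66 <;> constructor <;> linarith

set_option maxHeartbeats 1000000 in
theorem ez {q r : ℝ} (hq : 2 * q = 3 * ξ - uu + 4 * η) (hr : 2 * r = -1 - μ + 3 * ξ + q + 2 * η) :
    Lq3.EZ η μ l v uu ξ (-(1 / 20)) (uu - 1 / 100) 0 (r + 3 * η) χ3 (uu - 1 / 100 - η) q r := by
  refine ⟨?_, ?_, ?_, ⟨?_, ?_, ?_⟩, ⟨.inl ⟨?_, ?_⟩, ?_, ?_, ?_, ?_, ?_, ?_, ?_, ?_, .inl ?_, ?_, ?_, ?_,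
    ?_, ?_, ?_, ?_, ?_, ?_, ?_, ?_, ?_, ?_⟩⟩ <;> ru66 <;> linarith

set_option maxHeartbeats 1000000 in
theorem ea {q r : ℝ} (hq : 2 * q = 3 * ξ - uu + 4 * η) (hr : 2 * r = -1 - μ + 3 * ξ + q + 2 * η) :
    Lq3.EA η ε μ l ξ (-1 - μ) (uu - 1 / 100) (uu - 1 / 100) 0 (r + 3 * η) χ3 L L χ2 χ3 γ
      (3 / 2 * ξ + c / 100) (μ + ξ - η) ξ := by
  constructor <;> ru66 <;> linarith

set_option maxHeartbeats 1000000 in
theorem ec {q r : ℝ} (hq : 2 * q = 3 * ξ - uu + 4 * η) (hr : 2 * r = -1 - μ + 3 * ξ + q + 2 * η) :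
    Lq3.EC η ε μ (2 / 3 * l) l v uu (2 * μ + 2 * l + 3 * η) ξ (-(1 / 20)) (-1 - μ) (uu - 1 / 100)
      (uu - 1 / 100 - η) (r + 3 * η) L χ2 γ (3 / 2 * ξ + c / 100) (μ + ξ - η) ξ (b + η)
      (B - 3 * c / 100) q η (-1 - μ - 1 / 20 + q + 3 * η) (B - 3 * c / 100 - 6 * L - 4 * η) 0
      ((B - 3 * c / 100 + μ) / 2) (ξ + η) ξ (3 * ξ + 2 * η) (2 * ξ + 2 * η) := by
  refine ⟨.inl ⟨?_, ?_⟩, ⟨?_, ?_, .inl le_rfl, ?_, ?_, ?_⟩, .inl ⟨?_, ?_, ?_, ?_⟩, ?_, ?_, ?_, ?_, ?_,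
    .inr ?_, ?_, ?_, ?_, ?_, ?_, ?_, ?_, ?_, .inl ?_, ?_, ?_, ?_, ?_, ?_, ?_, .inr le_rfl, ?_, ?_,
    .inl ?_, ?_, ?_, .inl ?_⟩ <;> ru66 <;> linarith

/-- **all the lines of `Hy`** -/
theorem hyL {Tu : ℝ} (lq : ε + μ / 2 ≤ B / 3 - c / 50) (u0 : -(4 * η) ≤ Tu) (u1 : Tu ≤ η) :
    HyL c η μ l (s + c / 7 - 1 / 6) v uu ε a0 a ξ L χ2 χ3 (B - 3 * c / 100) γ (B - 3 * c / 100)
      (μ + l + η) (a + η) Tu (B / 3 - c / 50) (B - c / 50) (B / 2 - c / 200) ξ (-(1 / 20))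
      (uu - 1 / 100) (uu - 1 / 100) 0 L (3 / 2 * ξ + c / 100) (μ + ξ - η) ξ (b + η) := by
  have hq : 2 * ((3 * ξ - uu + 4 * η) / 2) = 3 * ξ - uu + 4 * η := by ring
  generalize (3 * ξ - uu + 4 * η) / 2 = q at hq
  have hr : 2 * ((-1 - μ + 3 * ξ + q + 2 * η) / 2) = -1 - μ + 3 * ξ + q + 2 * η := by ring
  generalize (-1 - μ + 3 * ξ + q + 2 * η) / 2 = r at hr
  exact ⟨h.ltL lq u0 u1, h.fl, by rw [add_sub_cancel_right]; exact h.mtop (by linarith only [h.c0]),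
    _, _, _, _, _, _, _, _, _, _, _, _, _, _, _,
    ⟨h.ez hq hr, (h.ez hq hr).D1, h.ea hq hr, h.ec hq hr⟩⟩

end RI

/-- **all the lines of `LN` and `Hy` at the table** -/
theorem RP.pl {c η ε μ s l v uu B ξ a0 χ2 γ χ3 b Tu : ℝ}
    (h : RP c η ε μ s l v uu B ξ a0 χ2 γ χ3 b) (lq : ε + μ / 2 ≤ B / 3 - c / 50)
    (u0 : -(4 * η) ≤ Tu) (u1 : Tu ≤ η) :
    LnL c η μ (s + c / 7 - 1 / 6) ε a0 (-(c / 10) - (ξ - (B / 3 - c / 50))) ξ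
      (ε + (ξ - (B / 3 - c / 50))) χ2 χ3 γ ∧
    HyL c η μ l (s + c / 7 - 1 / 6) v uu ε a0 (-(c / 10) - (ξ - (B / 3 - c / 50))) ξ
      (ε + (ξ - (B / 3 - c / 50))) χ2 χ3 (B - 3 * c / 100) γ (B - 3 * c / 100) (μ + l + η)
      (-(c / 10) - (ξ - (B / 3 - c / 50)) + η) Tu (B / 3 - c / 50) (B - c / 50) (B / 2 - c / 200) ξ
      (-(1 / 20)) (uu - 1 / 100) (uu - 1 / 100) 0 (ε + (ξ - (B / 3 - c / 50)))
      (3 / 2 * ξ + c / 100) (μ + ξ - η) ξ (b + η) :=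
  ⟨h.ri.lnL, h.ri.hyL lq u0 u1⟩

/-- the line `lq` on the graded path -/
theorem lq_cx {β c0 C0 : ℝ} {A : ℕ} {c η K' ε : ℝ} {p : Pm} {σ t : ℝ}
    (X : Nr44.Cx β c0 C0 A c η K' p σ t) (hη : 100000 * η ≤ c) (e1 : 1000 * ε ≤ c)
    (h : p.PtN σ t < p.PhN t)
    (r : logb p.n (p.muG t) ≤ -(4 / 15) + 4 / 5 * logb p.n p.s - p.c / 4) :
    ε + logb p.n (p.muG t) / 2 ≤ logb p.n (Tp4.Bt p σ t) / 3 - c / 50 := by
  have H := X.H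
  rw [H.hc] at r
  obtain ⟨m0, -⟩ := X.t2 h
  have s := H.lg_s
  have c0 := H.c_pos
  have m1 : logb p.n (p.muG t) ≤ -(1 / 10) := by linarith
  have m := H.muG_pos X.Mσ
  have o := H.lg_mono m (H.oct_mu X.o).1
  have n2 : logb p.n (nu p σ) ≤ logb p.n (p.muG t) :=
    ((H.lg_mt m).le.trans (min_le_right _ _)).trans (max_le o (by linarith))
  have n1 := X.lg_θν
  have hc := X.hc
  rw [Tp4.lg_Bt X, lg_sM X m1]
  rcases X.lg_pl with ⟨_, a, -⟩ | ⟨_, a, -⟩ <;> rw [a] <;> linarith [H.η_pos]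

end Crest.Agent.T156.Alt.Tp66
end

-- ▼ part T156/TpA_30
section

/-!
# Row 156 (helper30): the line `a4` of the quadratic branch on a static plateau
-/

set_option autoImplicit false
set_option linter.unusedSectionVars false

noncomputable section

namespace Crest.Agent.T156.Alt.Lp86

open Real Finset
open Crest.Agent.T156.Alt.L69 Crest.Agent.T156.Alt.Ps64

/-- lower half: `ap²` at distance at least `α` from the corner -/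
theorem Nd.ap_lo30 {S : Sc} {M : Md} {la V U x Vt w α σ : ℝ} {k : ℕ} (h : Nd S M la V U x k)
    (hV : 0 ≤ Vt) (hw : S.w3 1 ≤ w) (α0 : 0 < α) (hα : α ≤ dl M S k) (e : ds M S k = dl M S k)
    (b : la / √(dl M S k) / 2 ≤ lsh M S k) (c : 1 ≤ 2 * S.C * du M k) (σ0 : 0 ≤ σ)
    (hσ : w * (2 + 25 * x ^ 2 / (la * √α)) ≤ σ ^ 3) :
    ap M S (x ^ 3) Vt 0 k ^ 2 ≤ 3 * (σ ^ 2 + 4 * (w / la) ^ 2 / α + 4 * w / la) := by
  have lp := h.lp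
  have x0 := h.x0
  have A := h.Ap
  have s := sqrt_pos.2 A
  have sa := sqrt_pos.2 α0
  have L := h.L0
  have w0 := h.w0
  have W0 := w0.le.trans hw
  have dp := h.den0
  have C1 := h.C1
  have m0 := h.m0 hV
  have ss : √α ≤ √(dl M S k) := sqrt_le_sqrt hα
  -- `lsh * dl ≥ la √α / 2`
  have ld : la * √α / 2 ≤ lsh M S k * dl M S k := by
    have c1 : la / √(dl M S k) / 2 * dl M S k = la * √(dl M S k) / 2 := by
      field_simp; rw [sq_sqrt A.le]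
    linarith [mul_le_mul_of_nonneg_right b A.le, mul_le_mul_of_nonneg_left ss lp.le]
  have den2 : S.den (M.z (k - 1)) ≤ 2 := by
    have u0 := h.sd.u0p
    have s0 := sqrt_pos.2 u0
    have f := h.sd.fb_u0
    rw [div_eq_iff s0.ne'] at f
    have g := h.L_le
    have i := mul_le_mul h.A0 (sqrt_le_sqrt h.A0) s0.le A.le
    rw [lsh, e] at g
    exact le_of_mul_le_mul_right (by nlinarith [mul_le_mul_of_nonneg_left i dp.le]) lp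
  have m2 : rm M x Vt k ≤ 3 / 2 * x := by
    refine le_of_pow_le_pow_left₀ (n := 2) two_ne_zero (by positivity) ?_
    have a1 := h.m_sq2 hV
    rw [h.y2] at a1
    have a2 := mul_le_mul_of_nonneg_left c (sq_nonneg (rm M x Vt k))
    have a3 := mul_le_mul_of_nonneg_left a1 (show 0 ≤ 2 * S.C by positivity)
    have a4 := mul_le_mul_of_nonneg_right h.Cx (sq_nonneg x)
    nlinarith [sq_nonneg x]
  have R2 : (Rp M S (x ^ 3) Vt 0 k + x) ^ 2 ≤ 25 / 2 * x ^ 2 := by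
    have := pow_le_pow_left₀ (add_nonneg (h.R0 hV).le x0.le)
      (show Rp M S (x ^ 3) Vt 0 k + x ≤ 7 / 2 * x by rw [h.Rp_eq]; linarith [h.T_le]) 2
    nlinarith [sq_nonneg x]
  have a1 : a0 S M (x ^ 3) Vt 0 k ^ ((1 : ℝ) / 3) ≤ σ := by
    refine le_of_pow_le_pow_left₀ (n := 3) (by norm_num) σ0 (le_trans ?_ hσ)
    rw [cube3 h.aA0, a0, third x0.le]
    refine mul_le_mul hw (add_le_add den2 ?_) (by positivity) W0
    refine (div_le_div₀ (by positivity) R2 (show 0 < la * √α / 2 by positivity)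
      (ld.trans_eq (by rw [lsh, e]; ring))).trans_eq (by field_simp)
  have a2 : aB S M k ≤ 2 * (w / la) / √α := by
    rw [aB]
    refine (div_le_div₀ W0 hw (show 0 < la * √α / 2 by positivity)
      (ld.trans_eq (by rw [lsh, e]; ring))).trans_eq (by field_simp)
  have a3 : aB S M k ^ 2 ≤ 4 * (w / la) ^ 2 / α :=
    (pow_le_pow_left₀ h.aB0 a2 2).trans_eq (by rw [div_pow, sq_sqrt α0.le]; ring)
  have a4 : √(S.w3 1 / lsh M S k) ^ 2 ≤ 4 * w / la := by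
    rw [sq_sqrt (by positivity), div_le_iff₀ L]
    exact hw.trans (h.of_la W0)
  have a5 := pow_le_pow_left₀ (third_nn _) a1 2
  rw [ap_eq0]
  generalize a0 S M (x ^ 3) Vt 0 k ^ ((1 : ℝ) / 3) = p at *
  generalize aB S M k = q at *
  generalize √(S.w3 1 / lsh M S k) = r at *
  nlinarith [sq_nonneg (p - q), sq_nonneg (p - r), sq_nonneg (q - r)]

/-- **`L62.LQ.a4`** from pure numbers -/
theorem a4_30 {S : Sc} {M : Md} {la V U h Γ x u dm Λ Vt Q w σ α Lg Y : ℝ}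
    (F : GX S M la V U h Γ) (T : Ct S.n S.C S.u0 U h x u dm Λ) (hV : 0 ≤ Vt)
    (hQ : QQ la V U x Vt Q) (hw : S.w3 1 ≤ w) (σ0 : 0 ≤ σ) (α0 : 0 < α)
    (h1 : w * (2 * la + (64 * S.C * x ^ 2 / la + 2 * √(x ^ 3) * Q)) ≤ σ ^ 3)
    (h2 : w * (2 + 25 * x ^ 2 / (la * √α)) ≤ σ ^ 3)
    (h3 : Lg ^ 4 * (3 * σ ^ 2 + 12 * (w / la) ^ 2 / α + 16 * (w / dm * (w / la)) +
      16 * (w / la)) ≤ Y) :
    ∀ k, S.J ≤ k → k ≤ S.Jp → α ≤ M.z k - M.z (S.J - 1) → u ≤ du M k →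
      du M k * (Lg ^ 2 * ap M S (x ^ 3) Vt 0 k) ^ 2 ≤ Y := by
  intro k k1 k2 k3 k4
  have P := pd F T
  have hk : k ∈ nd S M u := mem_filter.2 ⟨mem_Icc.2 ⟨k1, k2⟩, k4⟩
  have N := (nd_of F T hk).1
  have W0 := N.w0.le.trans hw
  have lp := N.lp
  have d0 := T.d0
  have p1 : 0 ≤ (w / la) ^ 2 / α := by positivity
  have p2 : 0 ≤ w / dm * (w / la) := by positivity
  have p3 : 0 ≤ w / la := by positivity
  refine le_trans ?_ h3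
  rw [mul_pow, ← pow_mul, mul_left_comm]
  refine mul_le_mul_of_nonneg_left ?_ ((even_two_mul 2).pow_nonneg Lg)
  rcases N.side with ⟨e, b, c⟩ | ⟨e, -⟩
  · have hα : α ≤ dl M S k := by
      have := P.mesh k k1 (P.lt hk).2.1
      rw [dx] at this
      rw [dl]; linarith [T.hU, P.h0]
    have := N.ap_lo30 hV hw α0 hα e b c σ0 h2
    refine (mul_le_of_le_one_left (sq_nonneg _) N.u1).trans (this.trans ?_)
    rw [mul_div_assoc, mul_div_assoc, mul_div_assoc]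
    linarith
  · have := ap2 F T hV hQ hw σ0 h1 N k4
    rw [bD, e, mul_div_assoc] at this
    rw [mul_div_assoc]
    norm_num at this
    nlinarith [sq_nonneg σ]

end Crest.Agent.T156.Alt.Lp86

end
end

-- ▼ part T156/TpY_55
section

/-!
# Row 156 (helper55): `L62.LQ` and the outputs of the quadratic branch from linear lines
-/

set_option autoImplicit false
set_option linter.all false

noncomputable section

namespace Crest.Agent.T156.Alt.Tp55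

open Real Finset Tr3 Lp86 Lq3 Lx13 Plt13 L69 Kn72

/-- **the lines of `L62.LQ` with `Pq = n ^ B`**: `μ l v uu` = exponents of `θ la Vc u2`;
`e ξ vt μ1 μ2 lp L γ ι ε1 g lm A q β` = exponents of `E x Vt u1 u2 L Lg G0 j (η 1) g ℓ α p0 bs` -/
structure EP (η e μ l v uu ξ vt μ1 μ2 lp L γ ι ε1 g lm A q β B p2 p3 d1 q' r d2 q2 s : ℝ) : Prop where
  Z : EZ η μ l v uu ξ vt μ1 lp p2 p3 d1 q' r
  c2 : -(9 / 10) ≤ μ2
  D2 : LD η (2 / 3 * l) uu μ2 d2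
  m0 : μ ≤ 0
  a11 : lm + η ≤ A
  a12 : ι + η ≤ A
  a13 : 2 / 3 * l + η ≤ A
  a2 : e + A ≤ 0
  e1 : ε1 + η ≤ 3 * A
  e2 : 2 * γ + η ≤ 3 * A
  e3 : p2 + η ≤ 3 * A
  e4 : 4 * L + 2 / 3 * (-1 - μ) + μ + η ≤ 3 * A
  e5 : 4 * L + 2 / 3 * (-1 - μ) + ι + η ≤ 3 * A
  e6 : 4 * L + 2 / 3 * (-1 - μ) + ξ + η ≤ 3 * A
  e7 : 4 * L + 2 / 3 * (-1 - μ) + lm + η ≤ 3 * A
  e8 : lm / 3 + 2 / 3 * ε1 + η ≤ 3 * A
  e9 : g + η ≤ 3 * A
  e10 : μ + l + 3 * η ≤ 3 * A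
  hq : LQ η l v uu ξ vt q2
  g1 : -1 - μ + l + 2 * η ≤ 3 * s
  g2 : -1 - μ + 2 * ξ - l + 4 * η ≤ 3 * s
  g3 : -1 - μ + 3 / 2 * ξ + q2 + 3 * η ≤ 3 * s
  g4 : -1 - μ + 2 * η ≤ 3 * s
  g5 : -1 - μ + 2 * ξ - l - A / 2 + 2 * η ≤ 3 * s
  f1 : 4 * L + 2 * s + 2 * η ≤ 3 * A
  f2 : 4 * L + 2 * (-1 - μ - l) - A + 2 * η ≤ 3 * A
  f3 : 4 * L + (-1 - μ - d2) + (-1 - μ - l) + 2 * η ≤ 3 * A
  f4 : 4 * L + (-1 - μ - l) + 2 * η ≤ 3 * A
  p1 : 2 * q + 3 * η ≤ B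
  p2' : 2 * β + 3 * η ≤ B
  p3' : 3 * A + η ≤ B
  p4 : μ + l - A / 2 + 3 * η ≤ B
  p5 : μ2 + η ≤ B
  p6 : 2 * μ + 2 * l + 4 * η ≤ B
  p7 : -2 + η ≤ B

variable {β c0 C0 c0' C0' η' : ℝ} {A : ℕ} {c η K K' : ℝ} {p : Pm} {σ t : ℝ} {Q : Pl}

/-- **`L62.LQ` from the lines** -/
theorem lqP (X : Nr44.Cx β c0 C0 A c η K' p σ t) (G : GrD K c0' C0' η' p σ t Q) (hA : 4 ≤ A)
    (P : p.PlX σ t Q) {E x Vt u1 u2 L Lg X2 G0 j ℓ p0 Pq : ℝ} {φ g : ℝ → ℝ}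
    {e ξ vt μ1 μ2 lp Lg' γ ι ε1 g' lm a q β' b0 p2 p3 d1 q' r d2 q2 s : ℝ}
    (hE : U p.n E e) (hx : T p.n x ξ) (hV : U p.n Vt vt) (h1 : T p.n u1 μ1) (h2 : T p.n u2 μ2)
    (hL : T p.n L lp) (hg : U p.n Lg Lg') (hG : U p.n G0 γ) (hj : U p.n j ι)
    (hφ : U p.n (φ 1) ε1) (hℓ : U p.n ℓ lm) (hq : U p.n p0 q)
    (hJ : U p.n (g ((p.gst Q t).s (p.scG K σ t Q).J)) g')
    (hb : U p.n (bs (p.scG K σ t Q) Lg X2 (g ((p.gst Q t).s (p.scG K σ t Q).J)) φ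
      ((p.gst Q t).s (p.scG K σ t Q).J)) β') (hB : D p.n Pq b0)
    (Z : EP η e (logb p.n (p.muG t)) (logb p.n (p.laG σ)) (logb p.n (p.Vc (nu p σ)))
      (logb p.n (p.u2 (nu p σ))) ξ vt μ1 μ2 lp Lg' γ ι ε1 g' lm a q β' b0 p2 p3 d1 q' r d2 q2 s) :
    L62.LQ E (p.scG K σ t Q) (p.gst Q t) (x ^ 3) (x ^ 3) Vt Lg (L ^ 3) X2 G0 u1 u2 j 0 φ g ℓ
      ((p.n : ℝ) ^ a) p0 Pq := by
  have H := B.of X.H
  have Y := xd X G
  have F := gx_gst X.H hA X.o G P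
  have cl := G.cl.1
  have η0 := H.η0
  have hw := (tw X G).1
  have cs : ∀ y : ℝ, 0 ≤ y → y ≤ 1000 → U p.n y η := fun y => H.cst
  have c2 := cs 2 (by norm_num) (by norm_num)
  obtain ⟨_, _, _, S⟩ := ns X G hx hV h1 hL Z.Z
  have hP : U p.n (Np (p.gst Q t) (p.scG K σ t Q) (x ^ 3) Vt 0 u1 (L ^ 3) 2) p2 :=
    ⟨Np0 F S.ct S.V0 (w_eq G).le (by linarith [S.L1]) 2, np2 F S (w_eq G).le⟩
  have dx0 : ∀ k, 0 ≤ dx (p.gst Q t) k := fun k => sub_nonneg.2 (cl.leg.zm (Nat.sub_le k 1))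
  have gp0 : 0 ≤ GP (p.gst Q t) (p.scG K σ t Q) :=
    sum_nonneg fun k _ => mul_nonneg (dx0 k) (sq_nonneg _)
  have gs0 : ∀ y z, 0 ≤ GS (p.gst Q t) (p.scG K σ t Q) y z := fun y z =>
    sum_nonneg fun k _ => mul_nonneg (dx0 k) (sq_nonneg _)
  have hΓ : ∀ y z, U p.n (GS (p.gst Q t) (p.scG K σ t Q) y z + GP (p.gst Q t) (p.scG K σ t Q))
      (2 * logb p.n (p.muG t) + 2 * logb p.n (p.laG σ) + 3 * η) := fun y z =>
    Y.Γ.of_le (add_nonneg (gs0 y z) gp0) ((Tp4.G_le G y z).trans (Plt13.xk_of X.H X.o G P).g2)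
  have hp := (hΓ 0 0).of_le gp0 (le_add_of_nonneg_left (gs0 0 0))
  have a3 := H.dpow (B.dp (n := p.n) a) 3
  refine ⟨le_antisymm F.flat (cl.sm cl.i3),
    H.le (H.add3 hℓ hj Y.au Z.a11 Z.a12 Z.a13) (B.dp a) le_rfl,
    H.le (H.mul hE (H.up a)) B.done Z.a2, ?_, ?_, ?_⟩
  · have θ1 : (p.scG K σ t Q).θ ≤ 1 := (θ_eq G).trans_le (H.le Y.θu B.done Z.m0)
    have u := Tq23.uw_one (Lg := Lg) (ω := (p.n : ℝ) ^ ((-1 - logb p.n (p.muG t)) / 3)) cl θ1 F.F1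
      (w_eq G).le (H.rp _).le (H.le hw (H.dpow (B.dp _) 3) (by push_cast; linarith))
    have y := (H.mul (H.pow hg 4) (H.pow (H.up ((-1 - logb p.n (p.muG t)) / 3)) 2)).of_le
      (sq_nonneg _) u
    have p1 := H.pc hφ Z.e1
    have p2 := H.pc (c := 3 * a) (H.pow hG 2) (by push_cast; linarith [Z.e2])
    have p3 := H.pc hP Z.e3
    have p4 := H.pc (c := 3 * a) (H.mul y Y.θu) (by push_cast; linarith [Z.e4])
    have p5 := H.pc (c := 3 * a) (H.mul y hj) (by push_cast; linarith [Z.e5])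
    have p6 := H.pc (c := 3 * a) (H.mul y hx.1) (by push_cast; linarith [Z.e6])
    have p7 := H.pc (c := 3 * a) (H.mul y hℓ) (by push_cast; linarith [Z.e7])
    have p8 := H.pc (c := 3 * a) (H.mul (H.rpw hℓ ((1 : ℝ) / 3)) (H.rpw hφ ((2 : ℝ) / 3)))
      (by linarith [Z.e8])
    have p9 := H.pc hJ Z.e9
    have p10 := H.pc (c := 3 * a) (H.sqrt hp) (by linarith [Z.e10])
    rw [L62.x0, third hx.1.1, θ_eq G]
    exact H.le (H.tot (c := 3 * a) 10 (by linarith) (by linarith)) a3 (by push_cast; linarith)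
  · have wl := H.div hw Y.ld
    have hd := dm_d H (tu X G).2 Y.ud h2.2 Z.D2
    refine a4_30 F (ct X G hx h2.2 Z.c2 Z.Z.c2 Z.Z.c3) hV.1 (qq Y hx.1 hV Z.hq) (w_eq G).le
      (H.rp s).le (H.rp a)
      (H.le (H.mul hw (H.add (c := 3 * s + 1 + logb p.n (p.muG t)) (H.mul c2 Y.lu)
        (H.add (c := 3 * s + 1 + logb p.n (p.muG t) - η)
          (H.div (H.mul (H.mul (cs 64 (by norm_num) (by norm_num)) Y.C) (H.pow hx.1 2)) Y.ld)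
          (H.mul (H.mul c2 (sq3 Y hx.1)) (H.up q2)) ?_ ?_) ?_ ?_)) (H.dpow (B.dp s) 3) ?_)
      (H.le (H.mul hw (H.add (c := 3 * s + 1 + logb p.n (p.muG t)) c2
        (H.div (H.mul (cs 25 (by norm_num) (by norm_num)) (H.pow hx.1 2))
          (H.dmul Y.ld (H.dsqrt (B.dp a)))) ?_ ?_)) (H.dpow (B.dp s) 3) ?_) ?_
    rotate_right
    · have y := H.pow hg 4
      have p1 := H.pc (c := 3 * a - η) (H.mul y (H.pow (H.up s) 2)) (by push_cast; linarith [Z.f1])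
      have p2 := H.pc (c := 3 * a - η) (H.mul y (H.div (H.pow wl 2) (B.dp a)))
        (by push_cast; linarith [Z.f2])
      have p3 := H.pc (c := 3 * a - η) (H.mul y (H.mul (H.div hw hd) wl))
        (by push_cast; linarith [Z.f3])
      have p4 := H.pc (c := 3 * a - η) (H.mul y wl) (by push_cast; linarith [Z.f4])
      rw [mul_div_assoc 12, show p.la (nu p σ) = p.laG σ from rfl]
      exact H.le (H.tot (c := 3 * a - η) 47 (by linarith) (by linarith)) a3 (by push_cast; linarith)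
    all_goals
      push_cast
      linarith [Z.g1, Z.g2, Z.g3, Z.g4, Z.g5]
  · have p1 := H.pc (c := b0) (H.pow (H.add (c := b0 / 2 - η / 2) hq hb (by linarith [Z.p1])
      (by linarith [Z.p2'])) 2) (by push_cast; linarith)
    have p2 := H.pc (c := b0) (H.pow (H.up a) 3) (by push_cast; linarith [Z.p3'])
    have p3 := H.pc (c := b0) (H.sqrt (H.div hp (B.dp a))) (by linarith [Z.p4])
    have p4 := H.pc h2.1 Z.p5
    have p5 := H.pc (c := b0) (hΓ ((p.gst Q t).s (p.scG K σ t Q).J / 2) (p.scG K σ t Q).C)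
      (by linarith [Z.p6])
    have p6 := H.pc (c := b0) (H.div B.one (H.dpow B.dn 2)) (by push_cast; linarith [Z.p7])
    rw [show ((p.scG K σ t Q).n : ℝ) = p.n from rfl]
    exact H.le (H.tot (c := b0) 6 (by linarith [p6.1]) (by linarith [p6.2])) hB le_rfl

section lin

variable {ε μ s l v uu B ξ a0 χ2 γ χ3 b : ℝ} (h : Tp66.RP c η ε μ s l v uu B ξ a0 χ2 γ χ3 b)
include h

theorem ez : EZ η μ l v uu ξ (-(1 / 20)) (uu - 1 / 100) 0 (-(9 / 20) + 2 * s) 0 (uu - 1 / 100 - η)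
    (3 / 2 * ξ - uu / 2 + 2 * η) ((-1 - μ + 9 / 2 * ξ - uu / 2 + 4 * η) / 2) := by
  obtain ⟨v1, v2⟩ := h.hv
  obtain ⟨u1, u2⟩ := h.hu
  rp66 <;>
  exact ⟨by linarith, by linarith, by linarith, ⟨by linarith, by linarith, by linarith⟩,
    ⟨.inl ⟨by linarith, by linarith⟩, by linarith, by linarith, by linarith, by linarith,
      by linarith, by linarith, by linarith, by linarith, .inl (by linarith), by linarith,
      by linarith, by linarith, by linarith, by linarith, by linarith, by linarith, by linarith,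
      by linarith, by linarith, by linarith, by linarith, by linarith⟩⟩

theorem ep : EP η ε μ l v uu ξ (-(1 / 20)) (uu - 1 / 100) (uu - 1 / 100) 0
    (ε + (ξ - (B / 3 - c / 50))) γ (3 / 2 * ξ + c / 100) (b + η) (μ + l + η) (B / 3 - c / 50)
    (B / 3 - c / 100) (B / 2 - c / 200) (B / 2 - 2 * η) B (-(9 / 20) + 2 * s) 0 (uu - 1 / 100 - η)
    (3 / 2 * ξ - uu / 2 + 2 * η) ((-1 - μ + 9 / 2 * ξ - uu / 2 + 4 * η) / 2) (uu - 1 / 100 - η)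
    (3 / 2 * ξ - uu / 2 + 2 * η)
    ((3 * (B / 3 - c / 100) - 4 * (ε + (ξ - (B / 3 - c / 50))) - 2 * η) / 2) := by
  have z := ez h
  refine ⟨z, z.c1, z.D1, ?_, ?_, ?_, ?_, ?_, ?_, ?_, ?_, ?_, ?_, ?_, ?_, ?_, ?_, ?_, z.S.hq, ?_, ?_, ?_,
    ?_, ?_, ?_, ?_, ?_, ?_, ?_, ?_, ?_, ?_, ?_, ?_, ?_⟩ <;>
  · clear z
    obtain ⟨v1, v2⟩ := h.hv
    obtain ⟨u1, u2⟩ := h.hu
    rp66 <;> linarith

theorem top : Ln97.M12 η (ε + (ξ - (B / 3 - c / 50))) ξ χ2 χ3 γ (-(5 * η)) μ b := by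
  constructor <;> (rp66 <;> linarith)

theorem bl : b ≤ B / 2 + μ - 4 * η ∧ μ + l + η ≤ B / 2 + μ - 4 * η + η ∧
    Lt76.BL η (ε + (ξ - (B / 3 - c / 50))) χ2 (-(5 * η)) μ (B / 2 + μ - 4 * η) 0 (B / 2 - 3 * η) := by
  refine ⟨?_, ?_, ?_, ?_, ?_⟩ <;> (rp66 <;> linarith)

end lin

open Hl4 Lt38 in
/-- **the sup line, `L62.LQ` and `Pq ≤ Bt` of the table P** -/
theorem outP {ε0 : ℝ} (G : Gd66 β c0 C0 A c η K' ε0 K c0' C0' η' p σ t Q) (hc : c ≤ 1 / 2000)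
    {ε s B ξ a0 χ2 γ χ3 b a' L g lm q : ℝ} (hB : B = logb p.n (Tp4.Bt p σ t))
    (h : Tp66.RP c η ε (logb p.n (p.muG t)) s (logb p.n (p.laG σ)) (logb p.n (p.Vc (nu p σ)))
      (logb p.n (p.u2 (nu p σ))) B ξ a0 χ2 γ χ3 b)
    (eL : L = ε + (ξ - (B / 3 - c / 50)))
    (eg : g = logb p.n (p.muG t) + logb p.n (p.laG σ) + η) (el : lm = B / 3 - c / 50)
    (eq : q = B / 2 - c / 200)
    (hL : LnL c η (logb p.n (p.muG t)) (logb p.n p.r) ε a0 a' ξ L χ2 χ3 γ) :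
    (∀ y, (p.gst Q t).s (p.scG K σ t Q).J / 64 ≤ y → y ≤ (p.gst Q t).s (p.scG K σ t Q).J →
      (pw p q + bs (p.scG K σ t Q) (pw p L) (pw p χ2) (gL K (pw p g) y)
        (etaN p (p.scG K σ t Q) a' ξ L χ2 χ3 γ) y) ^ 2 ≤ Tp4.Bt p σ t) ∧
    L62.LQ (pw p ε) (p.scG K σ t Q) (p.gst Q t) (pw p ξ ^ 3) (pw p ξ ^ 3) (pw p (-(1 / 20))) (pw p L)
      (pw p 0 ^ 3) (pw p χ2) (pw p γ) (pw p (logb p.n (p.u2 (nu p σ)) - 1 / 100))
      (pw p (logb p.n (p.u2 (nu p σ)) - 1 / 100)) (pw p (3 / 2 * ξ + c / 100)) 0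
      (etaN p (p.scG K σ t Q) a' ξ L χ2 χ3 γ) (gL K (pw p g)) (pw p lm) (pw p (B / 3 - c / 100))
      (pw p q) (Tp4.Bt p σ t) := by
  subst eL eg el eq
  have R := G.R
  have H := Tr3.B.of R
  have X := cx G hc
  have r := R.rp0
  have η0 := R.η_pos
  have fx := fxN G hL
  have e5 : 5 * η ≤ logb p.n (pw p ε) := by rw [R.lg_rp]; exact h.e0
  have M := top h
  obtain ⟨b1, b2, b3⟩ := bl h
  have Z := ep h
  have hD : D p.n (Tp4.Bt p σ t) B := hB ▸ H.dl (Tp4.Bt0 X)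
  have hg : ∀ y, U p.n (gL K (pw p (logb p.n (p.muG t) + logb p.n (p.laG σ) + η)) y)
      (logb p.n (p.muG t) + logb p.n (p.laG σ) + η) := fun y =>
    ⟨gL_nn (r _).le y, gL_le (r _).le y⟩
  have hb : ∀ y, (p.gst Q t).s (p.scG K σ t Q).J / 64 ≤ y → U p.n (bs (p.scG K σ t Q)
      (pw p (ε + (ξ - (B / 3 - c / 50)))) (pw p χ2)
      (gL K (pw p (logb p.n (p.muG t) + logb p.n (p.laG σ) + η)) y)
      (etaN p (p.scG K σ t Q) a' ξ (ε + (ξ - (B / 3 - c / 50))) χ2 χ3 γ) y) (B / 2 - 2 * η) :=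
    fun y hy => by
      obtain ⟨y0, y1⟩ := lv64 G hy
      refine ⟨Lt76.bs_nn G.D.cl.1 y0.le (fx.eta_pos y).le (hg y).1 (r _).le, ?_⟩
      have := bs_top (B := B / 2 - 3 * η) G fx (r _) e5 y0 le_rfl y1
        (by simpa only [R.lg_rp] using M.mono b1) (H.mono (hg y) b2).2
        (by simpa only [R.lg_rp] using b3)
      exact this.trans_eq (by congr 1; ring)
  have s0 := (lg_sJ G).1
  refine ⟨fun y hy _ => H.le (H.pow (H.add (c := B / 2) (H.up _) (hb y hy) (by linarith [Z.p1])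
    (by linarith)) 2) hD (by push_cast; linarith), ?_⟩
  exact lqP X G.D G.A4 G.X (H.up _) (tp H _) (H.up _) (tp H _) (tp H _) (tp H _) (H.up _) (H.up _)
    (H.up _) ⟨(fx.eta_pos 1).le, eta_top G fx (r _) e5 one_pos le_rfl (by rw [logb_one]; linarith)
      (by simpa only [R.lg_rp] using M)⟩ (H.up _) (H.up _) (hg _) (hb _ (by linarith)) hD Z

end Crest.Agent.T156.Alt.Tp55

end
end

-- ▼ part T156/TpF_66

/-!
# Row 156 (helper66): the leaf `SupP`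
-/

set_option autoImplicit false

noncomputable section

namespace Crest.Agent.T156.Alt.Tp66

open Real
open Crest.Agent.T156.Alt.Hl4
open Crest.Agent.T156.Alt.R77 (OnG)
open Crest.Agent.T156.Alt.Kn72 (nu)

theorem supP_at {β c0 C0 : ℝ} {A : ℕ} {c η K' ε0 K c0' C0' η' e : ℝ} {p : Pm} {σ t : ℝ} {Q : Pl}
    (G : Gd66 β c0 C0 A c η K' ε0 K c0' C0' η' p σ t Q) (hc : c ≤ 1 / 2000) (hη : 100000 * η ≤ c)
    (e0 : 5 * η ≤ e * c) (e1 : 1000 * (e * c) ≤ c)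
    (V : Vt18.VtX p σ t (p.scG K σ t Q) (p.gst Q t)) :
    Sup82.SupP e p σ t (p.scG K σ t Q) (p.gst Q t) := by
  intro r m a I hΦ h
  have H := G.R
  have X := cx G hc
  obtain ⟨ξ, a0, χ2, γ, χ3, b, R, f⟩ := rp_gst G hc e0 e1 h r
  obtain ⟨s0, s1, s2⟩ := lg_sJ G
  obtain ⟨hL, hH⟩ := R.pl (lq_cx X hη e1 h r) s1 s2
  rw [← H.lg_r] at hL hH
  obtain ⟨o1, o2⟩ := Tp55.outP G hc rfl R rfl rfl rfl rfl hL
  have u0 : 0 < p.u2 (nu p σ) := H.u20 (Kn72.nu0 H X.o)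
  have eu : pw p (logb p.n (p.u2 (nu p σ)) - 1 / 100) = p.u1N σ * (p.n : ℝ) ^ (-(1 / 100 : ℝ)) := by
    rw [pw, sub_eq_add_neg, rpow_add H.N0, rpow_logb H.N0 H.N1.ne' u0]
    rfl
  rw [H.hc]
  exact ⟨_, _, _, _, _, _, _, _, _, _, _, _, _, _, _, _, _, _, _, _, _, _, _, _, _, _, _,
    hyN G hc hL (hΦ.trans f) (.inl le_rfl) (fun k k0 k1 hu => V m a I hΦ
      (by linarith only [R.m1, R.s1, R.c0, R.c1]) (by rw [H.hc]; linarith only [R.m0, R.c0, R.c1])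
      k k0 k1 (eu ▸ hu)) s0 le_rfl hH, .inr ⟨rfl, o1, .inl ⟨_, _, o2, le_rfl⟩⟩⟩

/-- **the leaf `SupP`** -/
theorem supP {β e : ℝ} (hβ : 1 < β) (he : 0 < e) (e1 : e ≤ 1 / 1000) (T : L69.TLt) :
    OnG (Sup82.SupP e) β :=
  R77.OnG.cl' hβ CL.triv (Vt18.vtX hβ T) one_pos (c1 := 1 / 2000) (by norm_num)
    (⌈5 / e⌉₊ + 100000) 0 (fun _ => 1) fun _ _ _ _ c η _ _ _ _ _ _ _ _ G hc _ hη _ _ V => by
      have η0 := G.R.η_pos
      have c0 := G.R.c_pos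
      have a : 5 / e * η ≤ (⌈5 / e⌉₊ : ℝ) * η := mul_le_mul_of_nonneg_right (Nat.le_ceil _) η0.le
      have b : 0 ≤ 5 / e * η := by positivity
      push_cast at hη
      refine supP_at G hc (by linarith) ?_ (by nlinarith) V
      have d : e * (5 / e * η) ≤ e * c := mul_le_mul_of_nonneg_left (by linarith) he.le
      rwa [← mul_assoc, mul_div_cancel₀ _ he.ne'] at d

end Crest.Agent.T156.Alt.Tp66

end
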