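import Crest.Agent.T156.ClMid_8
import Crest.Agent.T156.Mid2_36

/-!
# Row 156, text (L) (helper36): the corner and the sharp middle zone for a member of the class
-/

set_option autoImplicit false

noncomputable section

namespace Crest.Agent.T156.Alt.Mp9.At

open MeasureTheory Set Real
open Crest.Agent.R164.GC Crest.Agent.R339.B Crest.Agent.R339.Var Crest.Agent.T157.Pf
open Crest.Agent.T156.Spl27 Crest.Agent.T156.Zb9 Crest.Agent.T156.Pr.Mid8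
open Crest.Agent.T156.Pr.Cor36 Crest.Agent.T156.Pr.Mid36
open Crest.Agent.T156.Gap27 (resN)

variable {S : Sc} {M : Md} {m : ℕ} {a T : ℝ}

/-- lower slope of the reference below the atom -/
theorem slope36 (A : At S M m a T) {s : ℝ} (h0 : 0 ≤ s) (h : s < M.s S.J) :
    lvr 1 (lh M T) s ≤ M.z (S.J - 1) - 1 / S.C * (M.s S.J - s) + 2 * (S.C * S.v) := by
  have c0 := A.c_pos
  have v0 := v_pos A.cl
  have c1 : 1 / S.C ≤ 1 := (div_le_one c0).2 A.cl.C1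
  have c2 : 0 ≤ 1 / S.C := by positivity
  have cv : 0 ≤ S.C * S.v := by positivity
  obtain ⟨p1, p2⟩ := A.s_pred
  have q : 1 / S.C * (M.s S.J - M.s (S.J - 1)) ≤ 1 * (S.C * S.v) :=
    mul_le_mul c1 p2 (by linarith) zero_le_one
  rcases le_total s (M.s (S.J - 1)) with c | c
  · have := ((A.sl p1) s _ h0 c le_rfl).1
    rw [A.zh_pred] at this
    linarith
  · have := A.zh_le_8 h
    have := mul_le_mul_of_nonneg_left
      (show M.s S.J - s ≤ M.s S.J - M.s (S.J - 1) by linarith) c2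
    linarith

theorem gd36 (A : At S M m a T) {tl r : ℝ} (l0 : 0 < tl) (a1 : tl ≤ r) (a2 : r < M.s S.J) :
    Pr.Reg48.Gd (lh M T) r ≤ S.C * S.θ / tl := by
  have θ0 : 0 ≤ S.θ := (A.ms_pos le_rfl).le.trans (A.cl.ms1 0)
  refine le_trans ((le_abs_self _).trans (A.gd_h (l0.le.trans a1) a2)) ?_
  rw [mul_div_assoc]
  exact mul_le_mul_of_nonneg_left (div_le_div₀ θ0 (A.cl.ms1 r) l0 (a1.trans (le_max_left _ _)))
    A.c_pos.le

/-- the corner data -/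
theorem cn36 (A : At S M m a T) {f Mt τ tl jj D : ℝ} (l0 : 0 < tl) (l1 : tl ≤ f)
    (l2 : tl ≤ M.s (S.J - 1)) (hM : Mt ≤ T) (hτ : 2 * (S.C * S.v) ≤ τ) (D0 : 0 ≤ D)
    (hD : Mt - M.s S.J ≤ D) (zf : M.z (S.J - 1) - τ ≤ lvr 1 (lb M S m a T) f)
    (hj : ∀ t ∈ Icc 0 T, |Sc48.Jf (lh M T) (lb M S m a T) T t| +
      ∫ s in (0 : ℝ)..T, |Sc48.Jf (lh M T) (lb M S m a T) T s| ≤ jj) :
    Cn (lb M S m a T) (lh M T) T (M.s S.J) (M.z (S.J - 1)) f Mt τ (1 / S.C) (S.C * S.θ / tl) jj D := by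
  have c0 := A.c_pos
  have v0 := v_pos A.cl
  have cv : 0 ≤ S.C * S.v := by positivity
  have θ0 : 0 ≤ S.θ := (A.ms_pos le_rfl).le.trans (A.cl.ms1 0)
  have T0 : 0 ≤ T := (s_nn A.cl _).trans A.t2
  have j0 : 0 ≤ jj := le_trans (add_nonneg (abs_nonneg _) (intervalIntegral.integral_nonneg T0
    fun _ _ => abs_nonneg _)) (hj 0 ⟨le_rfl, T0⟩)
  obtain ⟨p1, p2⟩ := A.s_pred
  refine ⟨A.okb.1, A.okh.1, A.okb.2, A.okh.2, by linarith, hM,
    ⟨by linarith, by positivity, (div_le_one c0).2 A.cl.C1, by positivity, j0, D0⟩, hD, zf,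
    fun s a1 a2 => by linarith [A.slope36 (s := s) (by linarith) a2],
    fun s a1 a2 => A.gd36 l0 (l1.trans a1) a2,
    ⟨M.s (S.J - 1), s_nn A.cl _, p1.le, by linarith, by rw [A.zh_pred]; linarith,
      A.gd36 l0 l2 p1⟩, fun s hs => ?_⟩
  unfold Hm.IJ
  rw [A.okh.2]
  exact hj s hs

/-- **the sign of `G'` at the corner** -/
theorem sg36 (T0 : ℝ) : ∃ C0 : ℝ, 1 ≤ C0 ∧ ∀ {S : Sc} {M : Md} {m : ℕ} {a T : ℝ},
    At S M m a T → T ≤ T0 → ∀ {f Mt τ tl jj D aa : ℝ}, 0 < tl → tl ≤ f → tl ≤ M.s (S.J - 1) →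
    Mt ≤ T → 2 * (S.C * S.v) ≤ τ → 0 ≤ D → Mt - M.s S.J ≤ D →
    M.z (S.J - 1) - τ ≤ lvr 1 (lb M S m a T) f →
    (∀ t ∈ Icc 0 T, |Sc48.Jf (lh M T) (lb M S m a T) T t| +
      ∫ s in (0 : ℝ)..T, |Sc48.Jf (lh M T) (lb M S m a T) T s| ≤ jj) →
    C0 * S.C * (S.C * S.θ / tl + jj + τ + D) ≤ aa → Sg (lb M S m a T) (M.s S.J) f Mt aa := by
  obtain ⟨C0, c1, h⟩ := cor_sg T0
  refine ⟨C0, c1, fun A hT _ _ _ _ _ _ _ l0 l1 l2 hM hτ D0 hD zf hj ha =>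
    h _ _ _ _ _ _ _ _ _ _ _ _ _ (A.cn36 l0 l1 l2 hM hτ D0 hD zf hj) hT ?_⟩
  rw [one_div_mul_eq_div, le_div_iff₀ A.c_pos]
  linarith


end Crest.Agent.T156.Alt.Mp9.At

end
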