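import Crest.Agent.T156.TermX_71
import Crest.Agent.T156.MdOne_67
import Crest.Agent.T156.PlatS_10

/-!
Row 156 (helper19): the reveal floor and the junction data of the auxiliary model.
-/

set_option autoImplicit false
set_option linter.unusedSectionVars false
set_option linter.unusedVariables false

noncomputable section

namespace Crest.Agent.T156.Alt.Tm71

open Real Finset Filter Pre29 Sr
open Crest.Agent.T156.Alt.L69 (Jn lsh du dl ds)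

/-- field steps on the reveal levels -/
theorem dH_rev {S : Sc} {M : Md} (h : Cl S M) {k : ℕ} (h1 : S.Jp ≤ k) (h2 : k < M.N) :
    S.ms (M.s S.Jp) / S.C * (M.s (k + 1) - M.s k) ≤ M.H (k + 1) - M.H k := by
  have dt : ∀ {i : ℕ}, S.Jp ≤ i → i ≤ M.N → M.d i = M.b := fun a b =>
    le_antisymm (h.d_le b) (h.wmk.1 ▸ h.leg.dm (by have := h.i2; have := h.i3; omega))
  have a1 := h.Grv k h1 h2.le
  have a2 := h.Grv (k + 1) (by omega) h2
  rw [← a1, Md.G, Md.G, dt h1 h2.le, dt (i := k + 1) (by omega) h2] at a2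
  have s0 := h.s_nn S.Jp
  have m1 := Md67.s_mem h h2.le
  have m2 := Md67.s_mem h (k := k + 1) h2
  have sl := h.sm (Nat.le_succ k)
  have i := intervalIntegral.integral_mono_on sl
    (Pp.Ode3.ii_of_cont (Pp.Ode3.Gp_cont (Md67.lr_ap h)) m1 m2)
    (intervalIntegrable_const (c := Pr.GG M.lr (M.s S.Jp))) fun r hr =>
      (Pr.platS _ h.ok _ r s0 ((h.sm h1).trans hr.1) (hr.2.trans m2.2) h.lv1).1.trans
        (mul_le_of_le_one_left (Pp.Ode3.Gp_nonneg _ _)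
          (exp_le_one_iff.2 (by linarith [h.sm h1, hr.1])))
  rw [intervalIntegral.integral_const, smul_eq_mul] at i
  have e : M.q (k + 1) - M.q k ≤ _ := (Pp.Ode3.Gam_int (Md67.lr_ap h) m1.1 sl m2.2).trans_le i
  have c := mul_le_mul_of_nonneg_right (h.crit _ ⟨s0, le_rfl⟩).1 (sub_nonneg.2 sl)
  have := mul_le_mul_of_nonneg_left e (zero_le_one.trans (h.d_ge M.N))
  rw [Md.e] at c
  rw [show M.d M.N = M.b from rfl] at this
  linarith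

namespace Tx

variable {K : ℕ} {E : ℝ} {S : Sc} {M : Md} {l lm Ys Y : ℝ} {c : ℕ → ℝ} {D u : ℝ} {F : ℕ → ℝ}
  (Z : Tx K E S M l lm Ys Y c D u F)

include Z

/-- the time of the corner is of order one -/
theorem sJ_ge : 1 ≤ 2 * S.C ^ 2 * M.s (S.J - 1) := by
  have H := Z.X.cl
  have C0 := H.C0
  have C1 := H.C1
  have j := H.i2
  have j1 := H.i1
  have a := H.atom.1.trans (H.z_s (k := S.J - 1) (by omega) (by omega)).2
  rw [div_le_iff₀ C0] at a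
  have b : S.C * S.v ≤ Y ^ ((1 : ℝ) / 3) := by
    linarith [Z.X.Cv_le, Z.X.sjl_le, mul_pos C0 H.v0]
  have d : S.C * (S.C * S.v) ≤ S.C ^ 2 * Y ^ ((1 : ℝ) / 3) :=
    mul_le_mul (by nlinarith) b (mul_pos C0 H.v0).le (by positivity)
  linarith [Z.X.W_le]

/-- **`LP.rev`** for the auxiliary model -/
theorem rev' : ∃ k1, Z.S'.Jp ≤ k1 ∧ k1 ≤ Z.N.N ∧ 1 / Z.S'.C ≤ ((k1 : ℝ) - Z.S'.Jp) * Z.S'.v ∧
    ∀ k, Z.S'.Jp ≤ k → k < k1 →
      Z.S'.θ * Z.S'.v / (Z.S'.C * Z.S'.F) ≤ Z.N.H (k + 1) - Z.N.H k := by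
  obtain ⟨k1, a, b, d, e⟩ := Z.sx.rev
  have H := Z.X.cl
  have H' := Z.cl'
  have C0 := H.C0
  have C1 := H.C1
  have v0 := H.v0
  have E0 := Z.E0
  refine ⟨k1, a, b, le_trans (one_div_le_one_div_of_le C0 ?_) d, fun k h1 h2 => ?_⟩
  · change S.C ≤ 8 * S.C
    linarith
  refine le_trans ?_ (dH_rev H' h1 (h2.trans_le b))
  have s0 := H.s_nn S.Jp
  have m0 : 0 < Z.S'.ms (M.s S.Jp) := H'.ms_pos s0
  have f : 1 ≤ 2 * S.C ^ 2 * M.s S.Jp := Z.sJ_ge.trans (mul_le_mul_of_nonneg_left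
    (H.sm ((Nat.sub_le _ _).trans H.i3)) (by positivity))
  have g : Z.S'.θ ≤ 4 * (2 * S.C ^ 2) ^ 2 * Z.S'.ms (M.s S.Jp) :=
    (H'.msm f).trans (H'.ms_mul s0 (by nlinarith))
  have p : 4 * (2 * S.C ^ 2) ^ 2 * S.C ≤ E ^ 9 := by
    have := mul_le_mul Z.X.CE (show S.C ≤ E by linarith [Z.X.CE1]) C0.le E0.le
    have := Z.X.Ep (show 2 ≤ 9 by norm_num)
    nlinarith [pow_pos C0 5]
  change _ / (8 * S.C * E ^ 9) ≤ Z.S'.ms (M.s S.Jp) / (8 * S.C) * (M.s (k + 1) - M.s k)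
  refine le_trans ?_ (mul_le_mul_of_nonneg_left (e k h1 h2) (by positivity))
  change Z.S'.θ * S.v / _ ≤ _
  rw [div_mul_div_comm, div_le_div_iff₀ (by positivity) (by positivity)]
  calc _ = Z.S'.θ * S.C * (S.v * (8 * S.C)) := by ring
    _ ≤ 4 * (2 * S.C ^ 2) ^ 2 * Z.S'.ms (M.s S.Jp) * S.C * (S.v * (8 * S.C)) := by gcongr
    _ = 4 * (2 * S.C ^ 2) ^ 2 * S.C * (Z.S'.ms (M.s S.Jp) * (S.v * (8 * S.C))) := by ring
    _ ≤ E ^ 9 * (Z.S'.ms (M.s S.Jp) * (S.v * (8 * S.C))) := by gcongr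
    _ = _ := by ring

theorem max_θ : max S.θ (nu S) ≤ 1 :=
  max_le ((le_mul_of_one_le_left Z.X.cl.θ0.le Z.E1).trans Z.Eθ) (Z.nu_u.trans Z.u_one)

theorem n_lm : 1 ≤ S.n * lm := by
  have a := Z.sx.w2.trans (mul_le_of_le_one_right Z.sx.vh.lm0.le Z.max_θ)
  have b : (S.n : ℝ) ^ (-(1 : ℝ)) ≤ _ := (rp_le Z.X.cl.n1 (by norm_num)).trans a
  rw [rpow_neg_one] at b
  rw [← mul_inv_cancel₀ Z.X.cl.N0.ne']
  exact mul_le_mul_of_nonneg_left b Z.X.cl.N0.le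

theorem xs_le {k : ℕ} (h : S.J ≤ k) : M.xs S ≤ M.z (k - 1) :=
  Z.X.cl.leg.zm (Nat.sub_le_sub_right h 1)

/-- the clock length of a shell above the first cut -/
theorem lm_lsh {r1 r2 : ℝ} (T : Tp K E S M lm Y r1 r2) {k : ℕ} (h : S.J ≤ k)
    (h' : r1 ≤ du Z.N k) : lm ≤ lsh Z.N Z.S' k := T.dn _ (Z.xs_le h) h'

/-- **`Jn`** for the auxiliary model -/
theorem jn {r1 r2 Xp u1 : ℝ} (T : Tp K E S M lm Y r1 r2) (hX : Yd K E Y ≤ Xp) (hu : r1 ≤ u1) :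
    Jn Z.S' Z.N Xp u1 := by
  have C0 := Z.X.cl.C0
  obtain ⟨a, b⟩ := Z.sx.vh.dj
  rw [div_le_iff₀' C0] at a
  refine ⟨?_, ?_, Z.sx.vh.u0.2.trans hX, fun k h1 _ h3 => Z.n_lm.trans
    (mul_le_mul_of_nonneg_left (Z.lm_lsh T h1 (hu.trans h3)) Z.X.cl.N0.le)⟩
  · change 1 ≤ 8 * S.C * S.den (M.xs S)
    linarith
  · change S.den (M.xs S) ≤ 8 * S.C
    linarith


end Tx

end Crest.Agent.T156.Alt.Tm71

end
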