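import Crest.Agent.T156.TermB_92
import Crest.Agent.T156.TermN_15
import Crest.Agent.T156.TermF_92
import Crest.Agent.T156.TermR_19
import Crest.Agent.T156.TermCD_28
import Crest.Agent.T156.TermTD_46

-- ▼ part T156/TermM_15
section

/-!
# Row 156, SR, terminal statement: the bulk numbers `LN` of the auxiliary model (helper15)
-/

set_option autoImplicit false
set_option linter.unusedSectionVars false

noncomputable section

namespace Crest.Agent.T156.Alt.Tm92.M15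

open Real Finset Filter Pre29 Sr L69

section
variable (E : ℝ) (S : Sc) (M : Md) (Y D u : ℝ)
def gq : ℝ := E * nu S ^ 2
def om : ℝ := (gq E S / ll E S M Y u) ^ ((1 : ℝ) / 3)
def nv : ℝ := E ^ 18 * nu S ^ 2
def r3 : ℝ := min (E / (S.n * mu0 E u) ^ 2 + E ^ 36 / ((S.n : ℝ) ^ 2 * ll E S M Y u ^ 3))
  (E ^ 19 * Yd KK E Y ^ 3)
def rho : ℝ := r3 E S M Y u ^ ((1 : ℝ) / 3)
def ze : ℝ := max (mu0 E u) (Zz E ^ 29 * nu S) / E ^ 116
/-- the quartic sum -/
def X4 : ℝ := 16 * gq E S * om E S M Y u + 4 * ze E S u * Xx E Y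
/-- the residual size -/
def et : ℝ → ℝ := Tn15.eta (Su E S M Y D u) (ll E S M Y u) (Zz E) (nv E S) (X2 E S M Y u)
  (X3n E S M Y u) (G0 E S M Y u)
def ee : ℝ := (Zz E ^ 2 * om E S M Y u) ^ 3 + Zz E ^ 4 * E ^ 18 * nu S ^ 2 / ll E S M Y u +
  3 * G0 E S M Y u * (Zz E ^ 2 * om E S M Y u + √(X2 E S M Y u)) + 2 * X3 E S M Y u
end

variable {E : ℝ} {S : Sc} {M N : Md} {l lm Ys Y D u t : ℝ} (X : Tx E S M l lm Ys Y u)
include X

theorem gq0 : 0 < gq E S := mul_pos X.E0 (pow_pos X.nu0 2)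
theorem om0 : 0 < om E S M Y u := rpow_pos_of_pos (div_pos (gq0 X) X.l0) _
theorem rho30 : 0 < r3 E S M Y u := by
  have := X.E0; have := X.mu_pos; have := X.Yd0; have := X.N0; have := X.l0
  rw [r3]; positivity
theorem rho0 : 0 < rho E S M Y u := rpow_pos_of_pos (rho30 X) _
theorem ze0 : 0 < ze E S u := div_pos (X.mu_pos.trans_le (le_max_left _ _)) (pow_pos X.E0 _)
theorem lg_gq : logb S.n (gq E S) = logb S.n E - 2 / 3 := by
  have := X.E0; have := X.nu0
  rw [gq]; lg_norm; rw [X.lg_nu]; ring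
theorem lg_om : 3 * logb S.n (om E S M Y u) = logb S.n E - 2 / 3 - logb S.n (ll E S M Y u) := by
  rw [om, logb_rpow_eq_mul_logb_of_pos (div_pos (gq0 X) X.l0), logb_div (gq0 X).ne' X.l0.ne',
    lg_gq X]
  ring
theorem lg_rho : (3 * logb S.n (rho E S M Y u) ≤ 2 * logb S.n E - 2 - 2 * logb S.n (mu0 E u) ∨
    3 * logb S.n (rho E S M Y u) ≤ -3 / 2) ∧
    3 * logb S.n (rho E S M Y u) ≤ 4 * logb S.n E - 4 / 3 ∧
    3 * logb S.n (rho E S M Y u) ≤ 3 * logb S.n Y - 299999981 * logb S.n E := by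
  have := X.E0; have := X.mu_pos; have := X.Yd0; have := X.N0; have := X.l0
  have k := (X.lg_num (x := 2) (by norm_num) (by norm_num)).2
  have e := X.lg_E.1
  have a : r3 E S M Y u ≤ _ := min_le_left _ _
  have b := X.lg_mono (rho30 X) (min_le_right _ _)
  have q : 3 * logb S.n (rho E S M Y u) = logb S.n (r3 E S M Y u) := by
    rw [rho, logb_rpow_eq_mul_logb_of_pos (rho30 X)]; ring
  have o : logb S.n (r3 E S M Y u) ≤ 2 * logb S.n E - 2 - 2 * logb S.n (mu0 E u) ∨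
      logb S.n (r3 E S M Y u) ≤ -3 / 2 := by
    rcases le_total (E / (S.n * mu0 E u) ^ 2) (E ^ 36 / ((S.n : ℝ) ^ 2 * ll E S M Y u ^ 3)) with h | h
    · refine .inr ((X.lg_mono (rho30 X) (show r3 E S M Y u ≤
        2 * (E ^ 36 / ((S.n : ℝ) ^ 2 * ll E S M Y u ^ 3)) by linarith)).trans ?_)
      lg_norm; rw [X.lg_n]; linarith [X.lg_l_lo.1]
    · refine .inl ((X.lg_mono (rho30 X) (show r3 E S M Y u ≤
        2 * (E / (S.n * mu0 E u) ^ 2) by linarith)).trans ?_)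
      lg_norm; rw [X.lg_n]; linarith
  rw [q]
  refine ⟨o, by rcases o with o | o <;> linarith [X.lg_mu.1], b.trans ?_⟩
  lg_norm; rw [X.lg_Yd]; linarith

theorem l1 : ll E S M Y u ≤ 1 :=
  X.le_of_lg X.l0 one_pos (by rw [logb_one]; linarith [X.lg_l_hi.2.2.2])

theorem X2_G0 : X2 E S M Y u ≤ G0 E S M Y u := by
  have := mul_pos (pow_pos X.E0 5001) X.nu0
  rw [G0]; linarith [X.Gp0]
theorem nu_G0 : E ^ 5001 * nu S ≤ G0 E S M Y u := by rw [G0]; linarith [X.Gp0, X.X20]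

section
variable (c : Cl (Su E S M Y D u) N)
include c

theorem gg_mu (ht : 0 ≤ t) : gg (Su E S M Y D u) t ≤ 1 / (S.n * mu0 E u) := by
  have := X.E0; have := X.N0; have := X.u_pos; have := X.cl.ms_pos ht
  refine le_trans (b := E ^ 9 / (S.n * u)) ?_ (le_of_eq (by rw [mu0]; field_simp))
  change E ^ 9 / (S.n * (S.ms t + u)) ≤ _
  gcongr
  linarith

theorem gg_le (ht : 0 ≤ t) : gg (Su E S M Y D u) t ≤ gq E S := by
  have := X.N0; have := X.mu_pos
  refine (gg_mu X c ht).trans (X.le_of_lg (by positivity) (gq0 X) ?_)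
  rw [lg_gq X]; lg_norm; rw [X.lg_n]; linarith [X.lg_mu.1]

theorem P_le (ht : ll E S M Y u ≤ t) : Tn15.P (Su E S M Y D u) t ≤ gq E S := by
  have := X.E0; have := X.N0; have l0 := X.l0
  refine (Tn15.P_anti c l0 ht).trans ?_
  rw [Tn15.P_eq c l0]
  refine max_le (gg_le X c l0.le) ?_
  change (E ^ 9) ^ 2 / (S.n * ll E S M Y u ^ 2) ≤ _
  refine X.le_of_lg (by positivity) (gq0 X) ?_
  rw [lg_gq X]; lg_norm; rw [X.lg_n]; linarith [X.lg_l_lo.1, X.lg_E.1]

theorem V0 : 0 < Vv E S M Y D u := mul_pos (one_pos.trans_le (Tn15.cr1 _ _)) X.l0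

theorem lg_V : 3 * logb S.n (Vv E S M Y D u) ≤ logb S.n E + 3 * logb S.n (ll E S M Y u) ∨
    3 * logb S.n (Vv E S M Y D u) ≤
      19 * logb S.n E + logb S.n (mu0 E u) + logb S.n (ll E S M Y u) := by
  have E0 := X.E0; have u0 := X.u_pos; have l0 := X.l0; have v0 := V0 X c
  have a : Vv E S M Y D u ^ 3 ≤ ll E S M Y u ^ 3 + E ^ 9 * u * ll E S M Y u := by
    have m0 := X.cl.ms_pos l0.le
    have b := (mul_le_mul_of_nonneg_right (X.cx.Ep (i := 9) (by norm_num [KK])) m0.le).trans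
      (X.sx.ml _ X.sj_l')
    rw [Vv, Tn15.crt3 c l0]
    refine max_le (le_add_of_nonneg_right (by positivity)) ?_
    change E ^ 9 * (S.ms (ll E S M Y u) + u) * ll E S M Y u ≤ _
    nlinarith [mul_le_mul_of_nonneg_right b l0.le]
  have k := (X.lg_num (x := 2) (by norm_num) (by norm_num)).2
  rcases le_total (ll E S M Y u ^ 3) (E ^ 9 * u * ll E S M Y u) with h | h
  · have := X.lg_mono (by positivity)
      (show Vv E S M Y D u ^ 3 ≤ 2 * (E ^ 9 * u * ll E S M Y u) by linarith)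
    revert this
    lg_norm
    rw [X.lg_u]
    exact fun _ => .inr (by linarith)
  · have := X.lg_mono (by positivity) (show Vv E S M Y D u ^ 3 ≤ 2 * ll E S M Y u ^ 3 by linarith)
    revert this
    lg_norm
    exact fun _ => .inl (by linarith)

theorem rho_gg (a : ll E S M Y u ≤ t) (b : t ≤ 8 * S.C) :
    t * gg (Su E S M Y D u) t ^ 2 ≤ E ^ 19 * Yd KK E Y ^ 3 := by
  have E0 := X.E0; have := X.N0; have t0 := X.l0.trans_le a; have y0 := X.Yd0
  have g0 := Tn15.gg0 c t0.le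
  have q0 := gq0 X
  obtain ⟨e0, e1⟩ := X.lg_E
  obtain ⟨y1, y2⟩ := X.lg_Y
  rcases le_total t l with h | h
  · refine (mul_le_mul_of_nonneg_left (pow_le_pow_left₀ g0.le (gg_le X c t0.le) 2) t0.le).trans
      (X.le_of_lg (by positivity) (by positivity) ?_)
    have := X.lg_mono (by positivity) ((pow_le_pow_left₀ t0.le h 3).trans X.sx.vh.l3)
    revert this
    lg_norm
    rw [lg_gq X, X.lg_Yd]
    intro; linarith
  have C1 := X.cl.C1
  have lC : l ≤ S.C := Tn15.le3 (by linarith) <| X.sx.vh.l3.trans <|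
    (X.le_of_lg y0 one_pos (by rw [logb_one, X.lg_Yd]; linarith)).trans (one_le_pow₀ C1)
  have r0 : 0 < min t S.C := lt_min t0 (by linarith)
  have k := X.sx.vh.bas (min t S.C) (le_min h lC) (min_le_right _ _)
  have m0 := X.cl.ms_pos r0.le
  have tr : t ≤ 8 * min t S.C := by
    rw [mul_min_of_nonneg _ _ (by norm_num : (0 : ℝ) ≤ 8)]
    exact le_min (by linarith) b
  have g1 : gg (Su E S M Y D u) t ≤ E ^ 9 / (S.n * S.ms (min t S.C)) := by
    change E ^ 9 / (S.n * (S.ms t + u)) ≤ _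
    gcongr
    linarith [X.cl.msm (min_le_left t S.C), X.u_pos]
  rw [Sc.w3, X.cx.sh.F1] at k
  calc _ ≤ 8 * min t S.C * (E ^ 9 / (S.n * S.ms (min t S.C))) ^ 2 := by gcongr
    _ = 8 * E ^ 18 * (min t S.C ^ 3 * (1 / (S.n * min t S.C * S.ms (min t S.C))) ^ 2) := by
        field_simp
    _ ≤ E * E ^ 18 * Yd KK E Y ^ 3 := by gcongr; linarith [X.cx.E3]
    _ = _ := by ring

theorem fn (hs : N.s = M.s) (HJ : N.H S.Jp ≤ 8 * S.C) :
    Tn15.FN (E ^ 360) (Su E S M Y D u) N (ll E S M Y u) (mu0 E u) (Vv E S M Y D u) (gq E S)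
      (rho E S M Y u) (ze E S u) := by
  have E0 := X.E0; have n0 := X.N0; have l0 := X.l0; have q0 := gq0 X; have m0 := X.mu_pos
  refine ⟨c, HJ, by rw [hs]; exact X.sj_l, fun t t' a b => ?_, m0, X.mu_le l0.le, le_rfl,
    P_le X c le_rfl, (rho0 X).le, fun t a b => ?_, (ze0 X).le, fun t a => ?_⟩
  · change S.ms t' + u ≤ S.ms t + u + t' ^ 2
    linarith [X.sx.sub t t' a b]
  · have t0 := l0.trans_le a
    have := X.Yd0
    rw [rho, Tn15.cub3 (rho30 X).le, Tn15.P_eq c t0]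
    rcases le_total (gg (Su E S M Y D u) t) ((Su E S M Y D u).F ^ 2 / ((Su E S M Y D u).n * t ^ 2))
      with h | h
    · rw [max_eq_right h]
      change t * ((E ^ 9) ^ 2 / (S.n * t ^ 2)) ^ 2 ≤ _
      have := X.lg_mono l0 a
      refine le_min (le_trans ?_ (le_add_of_nonneg_left (by positivity))) ?_ <;>
        refine X.le_of_lg (by positivity) (by positivity) ?_ <;> lg_norm
      · linarith
      rw [X.lg_n, X.lg_Yd]
      linarith [X.lg_l_lo.1, X.lg_E.1, X.lg_Y.1]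
    · rw [max_eq_left h]
      refine le_min (le_trans ?_ (le_add_of_nonneg_right (by positivity))) (rho_gg X c a b)
      have := Tn15.gg0 c t0.le
      calc _ ≤ E * (1 / (S.n * mu0 E u)) ^ 2 := by
            gcongr
            exacts [b.trans (show 8 * S.C ≤ E by linarith [X.cx.CE1, X.cl.C1]), gg_mu X c t0.le]
        _ = _ := by field_simp
  · have t0 := l0.trans_le a
    have := X.nu0; have := X.Z0
    have p := P_le X c a
    obtain ⟨e0, e1⟩ := X.lg_E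
    rcases X.cr_cases (D := D) (X.sj_l'.trans a) with h | h
    · rw [h, one_mul]
      refine p.trans (le_trans (b := (Zz E ^ 29 * nu S / E ^ 116) ^ 2)
        (X.le_of_lg q0 (by positivity) ?_) (by rw [ze]; gcongr; exact le_max_right _ _))
      lg_norm
      rw [lg_gq X, X.lg_Z, X.lg_nu]
      linarith
    · have k : cr (Su E S M Y D u) t ≤ E ^ 10 * √(mu0 E u) / ll E S M Y u :=
        ((le_div_iff₀ t0).2 h).trans (by gcongr)
      refine (mul_le_mul k p (Tn15.P0 c t0).le (by positivity)).trans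
        (le_trans (b := (mu0 E u / E ^ 116) ^ 2) (X.le_of_lg (by positivity) (by positivity) ?_)
          (by rw [ze]; gcongr; exact le_max_left _ _))
      lg_norm
      rw [lg_gq X]
      linarith [X.lg_l_lo.1, X.lg_mu.1]

theorem a2 : 4 * ll E S M Y u * Vv E S M Y D u ^ 2 ≤ X2 E S M Y u := by
  have l0 := X.l0; have v0 := V0 X c
  have k := (X.lg_num (x := 4) (by norm_num) (by norm_num)).2
  obtain ⟨e0, e1⟩ := X.lg_E
  obtain ⟨y1, y2⟩ := X.lg_Y
  obtain ⟨m1, m2, m3⟩ := X.lg_mu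
  obtain ⟨h1, h2, h3, h4⟩ := X.lg_l_hi
  have t := X.lg_T
  obtain ⟨b1, -, -, b4⟩ := X.lg_Bd
  have sj := X.lg_sj.1
  have lc : logb S.n (ll E S M Y u) ≤ 360 * logb S.n E + logb S.n (M.s S.jl) ∨
      logb S.n (ll E S M Y u) ≤ -1 / 300 + (logb S.n (Tt E Y) + logb S.n (mu0 E u)) / 5 := by
    rw [X.lg_l_eq]
    exact (le_max_iff.1 le_rfl).imp id fun h => h.trans (add_le_add le_rfl (min_le_left _ _))
  refine X.le_X2 (by positivity) ?_ ?_ ?_ ?_ <;> lg_norm <;> rcases lg_V X c with v | v <;>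
    rcases lc with lc | lc <;> linarith

theorem a3 : 16 * ll E S M Y u * Vv E S M Y D u ^ 4 ≤ X3 E S M Y u := by
  have l0 := X.l0; have v0 := V0 X c
  have k := (X.lg_num (x := 16) (by norm_num) (by norm_num)).2
  obtain ⟨e0, e1⟩ := X.lg_E
  obtain ⟨y1, y2⟩ := X.lg_Y
  obtain ⟨m1, m2, m3⟩ := X.lg_mu
  obtain ⟨h1, h2, h3, h4⟩ := X.lg_l_hi
  have t := X.lg_T
  refine X.le_X3 (by positivity) ?_ ?_ ?_ <;> lg_norm <;> rcases lg_V X c with v | v <;> linarith

end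

/-- the residual at the level `l` -/
theorem ee_le {B : ℝ} (B0 : 0 < B) (h : logb S.n B = 3 / 2 * logb S.n (mu0 E u) ∨
    logb S.n B = logb S.n (mu0 E u) + logb S.n (ll E S M Y u)) :
    E ^ 360 * (ee E S M Y u + x3 E S) ≤ B := by
  have E0 := X.E0; have l0 := X.l0; have := X.Z0; have := om0 X; have := X.nu0; have := X.G00
  have := X.X20; have := X.X30
  obtain ⟨e0, e1⟩ := X.lg_E
  obtain ⟨y1, y2⟩ := X.lg_Y
  obtain ⟨m1, m2, m3⟩ := X.lg_mu
  obtain ⟨l1, l2⟩ := X.lg_l_lo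
  obtain ⟨x1, x2, -⟩ := X.lg_X2
  obtain ⟨z1, z2, -⟩ := X.lg_X3
  have t := X.lg_T
  have o := lg_om X
  have Z := X.lg_Z
  have n := X.lg_nu
  have k : ∀ x, 0 < x → 361 * logb S.n E + logb S.n x ≤ logb S.n B → E * (E ^ 360 * x) ≤ B :=
    fun x a b => X.le_of_lg (by positivity) B0 (by lg_norm; linarith)
  have a1 := k ((Zz E ^ 2 * om E S M Y u) ^ 3) (by positivity)
    (by lg_norm; rcases h with h | h <;> linarith)
  have a2 := k (Zz E ^ 4 * E ^ 18 * nu S ^ 2 / ll E S M Y u) (by positivity)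
    (by lg_norm; rcases h with h | h <;> linarith)
  have a3 := k (G0 E S M Y u * (Zz E ^ 2 * om E S M Y u)) (by positivity) (by
    lg_norm
    rcases h with h | h <;> rcases X.lg_G0 with g | g | ⟨g, g'⟩ <;> rcases l2 with l2 | ⟨l2, l3⟩ <;>
      linarith)
  have a4 := k (G0 E S M Y u * √(X2 E S M Y u)) (by positivity) (by
    lg_norm
    rcases h with h | h <;> rcases X.lg_G0 with g | g | ⟨g, g'⟩ <;> rcases l2 with l2 | ⟨l2, l3⟩ <;>
      linarith)
  have a5 := k (X3 E S M Y u) X.X30 (by rcases h with h | h <;> linarith)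
  have a6 := k (x3 E S) X.x30 (by rw [X.lg_x3]; rcases h with h | h <;> linarith)
  refine le_of_mul_le_mul_left ?_ E0
  have b := mul_le_mul_of_nonneg_right X.cx.E3 B0.le
  rw [ee]
  linarith

theorem nn (c : Cl (Su E S M Y D u) N) {X3' : ℝ} (h3 : X3 E S M Y u ≤ X3') :
    Tn15.NN (E ^ 360) S.n (E ^ 9) (mu0 E u) (ll E S M Y u) (Vv E S M Y D u) (gq E S)
    (om E S M Y u) (nv E S) (rho E S M Y u) (Xx E Y) (Zz E) (X2 E S M Y u) X3' (G0 E S M Y u)
    (ee E S M Y u + x3 E S) := by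
  have E0 := X.E0; have l0 := X.l0; have Z0 := X.Z0; have o0 := om0 X; have nu0 := X.nu0
  have := X.G00; have := X.X20; have := X.X30; have q0 := gq0 X; have r0 := rho0 X
  have x0 := X.X0; have m0 := X.mu_pos; have n0 := X.N0
  obtain ⟨e0, e1⟩ := X.lg_E
  obtain ⟨y1, y2⟩ := X.lg_Y
  obtain ⟨m1, m2, m3⟩ := X.lg_mu
  obtain ⟨l1, -⟩ := X.lg_l_lo
  obtain ⟨-, -, -, h4⟩ := X.lg_l_hi
  obtain ⟨x1, -, -⟩ := X.lg_X2
  obtain ⟨-, r1, r2⟩ := lg_rho X
  obtain ⟨-, xx⟩ := X.lg_X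
  obtain ⟨b1, -, b3, -⟩ := X.lg_Bd
  have t := X.lg_T
  have o := lg_om X
  have Z := X.lg_Z
  have n := X.lg_nu
  have q := lg_gq X
  have k2 := (X.lg_num (x := 2) (by norm_num) (by norm_num)).2
  have k4 := (X.lg_num (x := 4) (by norm_num) (by norm_num)).2
  have k8 := (X.lg_num (x := 8) (by norm_num) (by norm_num)).2
  have k16 := (X.lg_num (x := 16) (by norm_num) (by norm_num)).2
  refine ⟨one_le_pow₀ X.E1, l0, X.le_of_lg (by positivity) one_pos (by lg_norm; linarith), o0, ?_,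
    X.le_of_lg o0 l0 (by linarith), by rw [nv]; positivity, ?_, x0,
    X.le_of_lg (by positivity) one_pos (by lg_norm; linarith),
    X.le_of_lg (by positivity) (by positivity) (by lg_norm; linarith),
    X.le_of_lg (by positivity) (by positivity) ?_,
    X.le_of_lg (by positivity) Z0 (by lg_norm; linarith),
    X.le_of_lg Z0 n0 (by rw [X.lg_n]; linarith), a2 X c,
    X.le_X2 (by positivity) (by lg_norm; linarith) (by lg_norm; linarith) (by lg_norm; linarith)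
      (by lg_norm; linarith), ?_,
    (a3 X c).trans h3, (X.le_X3 (by positivity) (by lg_norm; linarith) (by lg_norm; linarith)
      (by lg_norm; linarith)).trans h3, (X.le_X3 (by positivity) (by lg_norm; linarith)
      (by lg_norm; linarith) (by lg_norm; linarith)).trans h3,
    (a2 X c).trans (X2_G0 X), le_trans ?_ (pow_le_pow_left₀ (by positivity) (nu_G0 X) 2), ?_,
    X.le_of_lg (by positivity) m0 (by lg_norm; linarith),
    X.le_of_lg (by positivity) m0 (by lg_norm; linarith),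
    ee_le X (by positivity) (.inr (by lg_norm))⟩
  · rw [om, Tn15.cub3 (by positivity), mul_div_cancel₀ _ l0.ne']
  · rw [nv]
    exact X.le_of_lg (by positivity) (by positivity) (by lg_norm; rw [X.lg_n]; linarith)
  · lg_norm
    rcases X.lg_G0 with g | g | ⟨g, g'⟩ <;> linarith
  · have p : 0 < 2 ^ 13 * rho E S M Y u ^ 3 * Xx E Y ^ 4 := by positivity
    have g : 7 * logb S.n ((2 ^ 13 * rho E S M Y u ^ 3 * Xx E Y ^ 4) ^ ((1 : ℝ) / 7)) =
        13 * logb S.n 2 + 3 * logb S.n (rho E S M Y u) + 4 * logb S.n (Xx E Y) := by lg_norm; ring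
    have := pow_le_pow_left₀ (by positivity) (X.le_X2 (rpow_pos_of_pos p ((1 : ℝ) / 7))
      (by linarith) (by linarith) (by linarith) (by linarith)) 7
    rwa [Tn15.rp_pow p.le 7 1 (by norm_num), pow_one] at this
  · exact X.le_of_lg (by positivity) (by positivity) (by lg_norm; linarith)
  · have := pow_le_pow_left₀ (by have := X.x30; rw [ee]; positivity)
      (ee_le X (rpow_pos_of_pos m0 ((3 : ℝ) / 2)) (.inl (by lg_norm))) 2
    rwa [Tn15.rp_pow m0.le 2 3 (by norm_num)] at this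

section
variable (c : Cl (Su E S M Y D u) N)
include c

theorem ff_eq : ff E S M Y D u t = (Zz E ^ 2 * Tn15.W (Su E S M Y D u) t) ^ 3 +
    Zz E ^ 4 * E ^ 18 * nu S ^ 2 / t + 3 * G0 E S M Y u *
      (Zz E ^ 2 * Tn15.W (Su E S M Y D u) t + √(X2 E S M Y u)) + 2 * X3 E S M Y u := by
  rw [ff, uw, mul_assoc (Zz E ^ 2), ← Tn15.W]

theorem ff_anti {t' : ℝ} (t0 : 0 < t) (h : t ≤ t') : ff E S M Y D u t' ≤ ff E S M Y D u t := by
  have := X.E0; have := X.Z0; have := X.nu0; have := X.G00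
  have := Tn15.W0 c (t0.trans_le h)
  have := Tn15.W_anti c t0 h
  rw [ff_eq X c, ff_eq X c]
  gcongr

theorem ff_two (t0 : 0 < t) : ff E S M Y D u t ≤ 16 * ff E S M Y D u (2 * t) := by
  have := X.E0; have := X.Z0; have := X.nu0; have := X.G00; have := X.X30
  have := Tn15.W0 c t0
  have w := Tn15.W0 c (show 0 < 2 * t by linarith)
  have a : Zz E ^ 2 * Tn15.W (Su E S M Y D u) t ≤ 2 * (Zz E ^ 2 * Tn15.W (Su E S M Y D u) (2 * t)) := by
    linarith [mul_le_mul_of_nonneg_left (Tn15.W_two c t0) (sq_nonneg (Zz E))]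
  have b := pow_le_pow_left₀ (by positivity) a 3
  have d := mul_le_mul_of_nonneg_left a X.G00.le
  have e : Zz E ^ 4 * E ^ 18 * nu S ^ 2 / t = 2 * (Zz E ^ 4 * E ^ 18 * nu S ^ 2 / (2 * t)) := by
    field_simp
  have p1 : 0 ≤ (Zz E ^ 2 * Tn15.W (Su E S M Y D u) (2 * t)) ^ 3 := by positivity
  have p2 : 0 ≤ Zz E ^ 4 * E ^ 18 * nu S ^ 2 / (2 * t) := by positivity
  have p3 : 0 ≤ G0 E S M Y u * (Zz E ^ 2 * Tn15.W (Su E S M Y D u) (2 * t)) := by positivity
  have p4 : 0 ≤ G0 E S M Y u * √(X2 E S M Y u) := by positivity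
  rw [ff_eq X c, ff_eq X c, e]
  rw [mul_pow 2] at b
  linarith

theorem eta_anti : Antitone (eta E S M Y D u) := fun _ _ a =>
  ff_anti X c (X.l0.trans_le (le_max_right _ _)) (max_le_max_right _ a)

theorem eta_le : eta E S M Y D u t ≤ ee E S M Y u := by
  have := X.Z0; have := X.G00; have l0 := X.l0
  have := Tn15.W0 c l0
  have w : Tn15.W (Su E S M Y D u) (ll E S M Y u) ≤ om E S M Y u := Tn15.le3 (om0 X).le <| by
    rw [om, Tn15.cub3 (div_pos (gq0 X) l0).le, le_div_iff₀' l0]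
    exact P_le X c le_rfl
  refine (ff_anti X c l0 (le_max_right t _)).trans ?_
  rw [ff_eq X c, ee]
  gcongr

/-- **the bulk numbers of the auxiliary model** -/
theorem ln (hs : N.s = M.s) (HJ : N.H S.Jp ≤ 8 * S.C) :
    LN (E ^ 360) (Su E S M Y D u) N (ll E S M Y u) (ll E S M Y u) (Vv E S M Y D u) (Xx E Y) (Zz E)
      (X2 E S M Y u) (X3 E S M Y u) (G0 E S M Y u) (eta E S M Y D u) := by
  have l0 := X.l0
  refine Tn15.ln' (fn X c hs HJ) (nn X c le_rfl) (eta_anti X c) (fun t _ => ?_) (fun t a => ?_)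
    ((eta_le X c).trans (le_add_of_nonneg_right X.x30.le))
  · exact (ff_two X c (l0.trans_le (le_max_right t _))).trans (mul_le_mul_of_nonneg_left
      (ff_anti X c (l0.trans_le (le_max_right _ _)) (max_le (by linarith [le_max_left t (ll E S M Y u)])
        (by linarith [le_max_right t (ll E S M Y u)]))) (by norm_num))
  have E0 := X.E0; have Z0 := X.Z0; have := X.nu0; have n0 := X.N0; have q0 := gq0 X
  have := Tn15.W0 c (l0.trans_le a)
  obtain ⟨e0, e1⟩ := X.lg_E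
  have s : √(Zz E * Tn15.P (Su E S M Y D u) t) ≤ G0 E S M Y u := by
    refine (sqrt_le_iff.2 ⟨by positivity, (mul_le_mul_of_nonneg_left (P_le X c a) Z0.le).trans
      (X.le_of_lg (by positivity) (by positivity) ?_)⟩).trans (nu_G0 X)
    lg_norm
    rw [X.lg_Z, lg_gq X, X.lg_nu]
    linarith
  have r : 1 / (S.n : ℝ) ≤ X3 E S M Y u := by
    have := X.lg_mu.1
    have := X.lg_l_lo.1
    have := X.lg_T
    have := X.lg_Y.1
    refine X.le_X3 (by positivity) ?_ ?_ ?_ <;> lg_norm <;> rw [X.lg_n] <;> linarith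
  have p := mul_le_mul_of_nonneg_right (show √(Zz E * Tn15.P (Su E S M Y D u) t) + G0 E S M Y u +
    X2 E S M Y u ≤ 3 * G0 E S M Y u by linarith [X2_G0 X])
    (show 0 ≤ Zz E ^ 2 * Tn15.W (Su E S M Y D u) t + √(X2 E S M Y u) by positivity)
  have e : Zz E ^ 4 * (nv E S / t) = Zz E ^ 4 * E ^ 18 * nu S ^ 2 / t := by rw [nv]; ring
  rw [eta, max_eq_left a, ff_eq X c, Tn15.e0, e]
  change _ + 1 / (S.n : ℝ) ≤ _
  linarith

omit c in
theorem n_X3 : 1 / (S.n : ℝ) ≤ X3 E S M Y u := by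
  have := X.N0
  have := X.lg_mu.1
  have := X.lg_l_lo.1
  have := X.lg_T
  have := X.lg_Y.1
  obtain ⟨e0, e1⟩ := X.lg_E
  refine X.le_X3 (by positivity) ?_ ?_ ?_ <;> lg_norm <;> rw [X.lg_n] <;> linarith

omit c in
theorem eb : Zz E ^ 6 * om E S M Y u ^ 3 + Zz E ^ 4 * (nv E S / ll E S M Y u) +
    (√(Zz E * gq E S) + G0 E S M Y u + X2 E S M Y u) * (Zz E ^ 2 * om E S M Y u + √(X2 E S M Y u)) +
      X3n E S M Y u + 1 / S.n ≤ ee E S M Y u + x3 E S := by
  have E0 := X.E0; have Z0 := X.Z0; have := X.nu0; have q0 := gq0 X; have := om0 X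
  have s : √(Zz E * gq E S) ≤ G0 E S M Y u := by
    refine (sqrt_le_iff.2 ⟨by positivity, X.le_of_lg (by positivity) (by positivity) ?_⟩).trans
      (nu_G0 X)
    lg_norm
    rw [X.lg_Z, lg_gq X, X.lg_nu]
    linarith [X.lg_E.1]
  have p := mul_le_mul_of_nonneg_right (show √(Zz E * gq E S) + G0 E S M Y u +
    X2 E S M Y u ≤ 3 * G0 E S M Y u by linarith [X2_G0 X])
    (show 0 ≤ Zz E ^ 2 * om E S M Y u + √(X2 E S M Y u) by positivity)
  have e : Zz E ^ 4 * (nv E S / ll E S M Y u) = Zz E ^ 4 * E ^ 18 * nu S ^ 2 / ll E S M Y u := by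
    rw [nv]; ring
  rw [ee, X3n, e]
  linarith [n_X3 X]

variable (hs : N.s = M.s) (HJ : N.H S.Jp ≤ 8 * S.C)
include hs HJ

/-- **the bulk numbers at `X3n`** -/
theorem lnN : LN (E ^ 360) (Su E S M Y D u) N (ll E S M Y u) (ll E S M Y u) (Vv E S M Y D u) (Xx E Y)
    (Zz E) (X2 E S M Y u) (X3n E S M Y u) (G0 E S M Y u) (et E S M Y D u) :=
  Tn15.ln (fn X c hs HJ) (nn X c X.X3_le_n) (eb X)



theorem l4N (T : ℝ) :
    L4 (Su E S M Y D u) (Vv E S M Y D u) (Xx E Y) (ll E S M Y u) T (X4 E S M Y u) :=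
  Tn15.l4 (fn X c hs HJ) (nn X c le_rfl) T

omit c hs HJ in
theorem X40 : 0 ≤ X4 E S M Y u := by
  have := gq0 X; have := om0 X; have := ze0 X; have := X.X0
  rw [X4]; positivity

omit c hs HJ in
theorem X4_le : E * X4 E S M Y u ≤ Xi E S Y u := by
  have E0 := X.E0; have := gq0 X; have := om0 X; have x0 := X.Xi0
  have m0 : 0 < max (mu0 E u) (Zz E ^ 29 * nu S) := X.mu_pos.trans_le (le_max_left _ _)
  have a : E * (E * (gq E S * om E S M Y u)) ≤ Xi E S Y u := X.le_of_lg (by positivity) x0 (by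
    lg_norm
    linarith [lg_gq X, lg_om X, X.lg_Xi.2, X.lg_T, X.lg_Y.1, X.lg_l_lo.1, X.lg_E.1])
  have b : E ^ 3 * (E * (ze E S u * Xx E Y)) = 2 * Xi E S Y u := by
    rw [ze, Xx, Xi, Tt]; field_simp
  have p : 0 < E * (ze E S u * Xx E Y) := by have := ze0 X; have := X.X0; positivity
  have d := mul_le_mul_of_nonneg_right (X.cx.E3.trans (X.cx.E_le (j := 3) (by norm_num))) p.le
  have f := mul_le_mul_of_nonneg_right X.cx.E3
    (show 0 ≤ E * (gq E S * om E S M Y u) by positivity)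
  rw [X4]
  linarith

/-- **the cost of the residual** -/
theorem costN (r : ℝ) (a : ll E S M Y u ≤ r) (b : r ≤ 8 * S.C) : r * (cr (Su E S M Y D u) r *
    (et E S M Y D u r ^ 2 / mf (Su E S M Y D u) r)) ≤ Xi E S Y u / E ^ 2 := by
  have E0 := X.E0; have l0 := X.l0; have Z0 := X.Z0; have nu0 := X.nu0
  have g0 := X.G00; have := X.X20; have := X.X30; have q0 := gq0 X; have r0 := rho0 X
  have m0 := X.mu_pos; have n0 := X.N0; have x0 := X.Xi0; have C0 := X.cl.C0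
  obtain ⟨e0, e1⟩ := X.lg_E
  obtain ⟨y1, y2⟩ := X.lg_Y
  obtain ⟨m1, m2, m3⟩ := X.lg_mu
  obtain ⟨l1, -⟩ := X.lg_l_lo
  obtain ⟨x1, x2, x3'⟩ := X.lg_X2
  obtain ⟨-, -, z3⟩ := X.lg_X3
  obtain ⟨r1, r2, r3⟩ := lg_rho X
  obtain ⟨i1, i2⟩ := X.lg_Xi
  have t := X.lg_T
  have Z := X.lg_Z
  have q := lg_gq X
  have n := X.lg_n
  have lc := X.lg_C.2
  have v0 : 0 < nv E S := by rw [nv]; positivity
  have v : logb S.n (nv E S) = 18 * logb S.n E - 2 / 3 := by rw [nv]; lg_norm; rw [X.lg_nu]; ring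
  obtain ⟨σ, σ0, hσ⟩ : ∃ σ, 0 < σ ∧ rho E S M Y u ^ 3 * gq E S = σ ^ 3 * (S.n * mu0 E u) ^ 2 :=
    ⟨(rho E S M Y u ^ 3 * gq E S / (S.n * mu0 E u) ^ 2) ^ ((1 : ℝ) / 3), by positivity, by
      rw [Tn15.cub3 (by positivity)]; field_simp⟩
  have s := congrArg (logb S.n) hσ
  revert s
  lg_norm
  intro s
  have G0' : 0 < G0 E S M Y u + X2 E S M Y u := by positivity
  have G : logb S.n (G0 E S M Y u + X2 E S M Y u) ≤ logb S.n E + logb S.n (G0 E S M Y u) := by
    refine (X.lg_mono G0' (show _ ≤ 2 * G0 E S M Y u by linarith [X2_G0 X])).trans ?_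
    lg_norm
    linarith [(X.lg_num (x := 2) (by norm_num) (by norm_num)).2]
  have e : et E S M Y D u r = Tn15.eta (Su E S M Y D u) (ll E S M Y u) (Zz E) (nv E S)
      (X2 E S M Y u) (X3 E S M Y u) (G0 E S M Y u) r + x3 E S := by
    simp only [et, Tn15.eta, Tn15.e0, X3n]; ring
  rw [e]
  refine X.cost_add a b ((Tn15.cost (fn X c hs HJ) (nn X c le_rfl) σ0.le hσ.le
    (X.le_of_lg m0 one_pos (by rw [logb_one]; linarith)) a b).trans ?_)
  change 8 * ((S.n : ℝ) * _ + E ^ 9 * (8 * S.C) * (_ + _ + 1 / (S.n : ℝ) ^ 2) / _) ≤ _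
  generalize G0 E S M Y u + X2 E S M Y u = H at *
  have C8 : 0 < 8 * S.C := by positivity
  generalize 8 * S.C = C at *
  have k : ∀ x, 0 < x → 4 * logb S.n E + logb S.n x ≤ logb S.n (Xi E S Y u) →
      E * x ≤ Xi E S Y u / E ^ 3 :=
    fun x a b => X.le_of_lg (by positivity) (by positivity) (by lg_norm; linarith)
  have a1 := k (S.n * (Zz E ^ 12 * gq E S ^ 3 / ll E S M Y u)) (by positivity)
    (by lg_norm; linarith)
  have a2 := k (S.n * (Zz E ^ 8 * gq E S * nv E S ^ 2 / ll E S M Y u)) (by positivity)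
    (by lg_norm; linarith)
  have a3 := k (S.n * (Zz E ^ 5 * rho E S M Y u * gq E S ^ 2)) (by positivity)
    (by lg_norm; linarith)
  have a4 := k (S.n * (Zz E * rho E S M Y u ^ 3 * X2 E S M Y u)) (by positivity)
    (by lg_norm; rcases r1 with r1 | r1 <;> linarith)
  have a5 := k (S.n * (Zz E ^ 4 * σ * H ^ 2)) (by positivity)
    (by lg_norm; rcases X.lg_G0 with g | g | ⟨g, g'⟩ <;> linarith)
  have a6 := k (E ^ 9 * C * (H ^ 2 * X2 E S M Y u) / mu0 E u) (by positivity)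
    (by lg_norm; rcases X.lg_G0 with g | g | ⟨g, g'⟩ <;> linarith)
  have a7 := k (E ^ 9 * C * X3 E S M Y u ^ 2 / mu0 E u) (by positivity) (by lg_norm; linarith)
  have a8 := k (E ^ 9 * C * (1 / (S.n : ℝ) ^ 2) / mu0 E u) (by positivity) (by lg_norm; linarith)
  refine le_of_mul_le_mul_left ?_ E0
  have w0 : 0 ≤ Xi E S Y u / E ^ 3 := by positivity
  have w := mul_le_mul_of_nonneg_right X.cx.E3 w0
  rw [mul_add (E ^ 9 * C), mul_add (E ^ 9 * C), add_div, add_div]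
  linarith

end

end Crest.Agent.T156.Alt.Tm92.M15

end
end

-- ▼ part T156/TermU_71
section

/-!
Row 156 (helper71): the budget of the plateau cost `Nc` in the closing of `Term K`.
-/

set_option autoImplicit false
set_option linter.unusedSectionVars false

noncomputable section

namespace Crest.Agent.T156.Alt.Tm92

open Real Finset Filter Pre29 Sr L69

/-- the two lines of `Nc` with the factor `κ` -/
def Bud (E : ℝ) (S : Sc) (M : Md) (Y D u κ x : ℝ) : Prop :=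
  (∀ t, 0 < t → t ≤ 1 → t * x ≤ κ * En E S M Y D u t) ∧
  ∀ t, 0 < t → (1 ≤ 2 * E ^ 360 * t ∨ 1 ≤ (E ^ 360) ^ 6 * u) →
    x ≤ κ * max (Tt E Y ^ 2 / E) (Tt E Y * mf (Su E S M Y D u) t)

variable {E : ℝ} {S : Sc} {M : Md} {l lm Ys Y u D κ κ' x y : ℝ}

theorem Bud.add (h : Bud E S M Y D u κ x) (h' : Bud E S M Y D u κ' y) :
    Bud E S M Y D u (κ + κ') (x + y) :=
  ⟨fun t a b => by linarith [h.1 t a b, h'.1 t a b], fun t a b => by linarith [h.2 t a b, h'.2 t a b]⟩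

theorem Bud.of_le (h : Bud E S M Y D u κ y) (hx : x ≤ y) : Bud E S M Y D u κ x :=
  ⟨fun t a b => (mul_le_mul_of_nonneg_left hx a.le).trans (h.1 t a b),
    fun t a b => hx.trans (h.2 t a b)⟩

theorem Bud.max (h : Bud E S M Y D u κ x) (h' : Bud E S M Y D u κ y) :
    Bud E S M Y D u κ (max x y) := by
  rcases max_choice x y with e | e <;> rw [e] <;> assumption

theorem Bud.smul (h : Bud E S M Y D u κ x) {c : ℝ} (hc : 0 ≤ c) : Bud E S M Y D u (c * κ) (c * x) :=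
  ⟨fun t a b => by linarith [mul_le_mul_of_nonneg_left (h.1 t a b) hc],
    fun t a b => by linarith [mul_le_mul_of_nonneg_left (h.2 t a b) hc]⟩

namespace Tx

variable (X : Tx E S M l lm Ys Y u)
include X

theorem En0 {t : ℝ} (ht : 0 < t) : 0 < En E S M Y D u t :=
  (mul_pos X.T0 (X.mf_pos ht.le)).trans_le (le_max_right _ _)

theorem bud_mono (h : Bud E S M Y D u κ x) (hκ : κ ≤ κ') : Bud E S M Y D u κ' x :=
  ⟨fun t a b => (h.1 t a b).trans (mul_le_mul_of_nonneg_right hκ (X.En0 a).le),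
    fun t a b => (h.2 t a b).trans (mul_le_mul_of_nonneg_right hκ
      ((mul_pos X.T0 (X.mf_pos a.le)).le.trans (le_max_right _ _)))⟩

/-- **the lines of `Nc`** -/
theorem bud_out (h : Bud E S M Y D u κ x) (hκ : κ ≤ 100 / E) :
    (∀ t, 0 < t → t ≤ 1 → t * x ≤ En E S M Y D u t / 10) ∧
    ∀ t, 0 < t → (1 ≤ 2 * E ^ 360 * t ∨ 1 ≤ (E ^ 360) ^ 6 * u) →
      x ≤ max (Tt E Y ^ 2 / E) (Tt E Y * mf (Su E S M Y D u) t) / 10 := by
  have g := X.bud_mono h (κ' := 1 / 10) (hκ.trans (by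
    rw [div_le_iff₀ X.E0]
    linarith [X.cx.E3]))
  exact ⟨fun t a b => by linarith [g.1 t a b], fun t a b => by linarith [g.2 t a b]⟩

theorem bud_Xi (h : E * x ≤ Xi E S Y u) : Bud E S M Y D u (1 / E) x := by
  have E0 := X.E0
  have k : ∀ {B : ℝ}, Xi E S Y u ≤ B → x ≤ 1 / E * B := fun g => by
    rw [one_div_mul_eq_div, le_div_iff₀' E0]
    exact h.trans g
  refine ⟨fun t a b => ?_, fun t a b => k ((X.Xi_le' a b).trans (le_max_right _ _))⟩
  rcases le_total x 0 with e | e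
  · exact (mul_nonpos_of_nonneg_of_nonpos a.le e).trans (mul_pos (one_div_pos.2 E0) (X.En0 a)).le
  · exact (mul_le_of_le_one_left e b).trans (k (X.Xi_le a b))

theorem θu_le : S.θ + u ≤ 2 := by
  have a : S.θ ≤ 1 := by nlinarith [X.cx.Cθ, X.cl.C1, X.cl.θ0]
  linarith [X.u1.trans (div_le_one_of_le₀ X.E1 X.E0.le)]

/-- the uniform form -/
theorem bud_unif (h : ∀ t, 0 < t → t ≤ 1 → E ^ 3000 * (t * x) ≤ En E S M Y D u t) :
    Bud E S M Y D u (1 / E) x := by
  have E0 := X.E0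
  have T0 := X.T0
  have Ep : ∀ {i j : ℕ}, i ≤ j → E ^ i ≤ E ^ j := fun h => pow_le_pow_right₀ X.E1 h
  rcases le_total x 0 with x0 | x0
  · exact X.bud_Xi ((mul_nonpos_of_nonneg_of_nonpos E0.le x0).trans X.Xi0.le)
  refine ⟨fun t a b => ?_, fun t a b => ?_⟩ <;> rw [one_div_mul_eq_div, le_div_iff₀' E0]
  · exact (mul_le_mul_of_nonneg_right (le_self_pow₀ X.E1 (by norm_num)) (mul_nonneg a.le x0)).trans
      (h t a b)
  have m0 : 0 < mf (Su E S M Y D u) t := X.mf_pos a.le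
  have k : ∀ {B : ℝ}, E ^ 2200 * (E * x) ≤ B →
      B ≤ max (E ^ 2199 * Tt E Y ^ 2) (E ^ 2200 * (Tt E Y * mf (Su E S M Y D u) t)) →
      E * x ≤ max (Tt E Y ^ 2 / E) (Tt E Y * mf (Su E S M Y D u) t) := fun g1 g2 => by
    refine le_of_mul_le_mul_left ((g1.trans g2).trans_eq ?_) (pow_pos E0 2200)
    have e : E ^ 2200 * (Tt E Y ^ 2 / E) = E ^ 2199 * Tt E Y ^ 2 := by
      rw [pow_succ E 2199, mul_assoc, mul_div_cancel₀ _ E0.ne']
    rw [mul_max_of_nonneg _ _ (pow_pos E0 2200).le, e]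
  rcases b with b | b
  · have p := X.min_ge b
    have p0 : 0 < min t 1 := lt_min a one_pos
    rw [div_le_iff₀ (pow_pos E0 _)] at p
    refine k (le_trans ?_ (h _ p0 (min_le_right _ _))) (max_le_max ?_ ?_)
    · calc _ = E ^ 2201 * 1 * x := by ring
        _ ≤ E ^ 2639 * (min t 1 * E ^ 361) * x := by gcongr <;> first | exact X.E1 | norm_num
        _ = _ := by ring
    · rw [div_le_iff₀ p0]
      calc _ = 1 * Tt E Y ^ 2 := (one_mul _).symm
        _ ≤ min t 1 * E ^ 2199 * Tt E Y ^ 2 := by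
          gcongr
          exact p.trans (mul_le_mul_of_nonneg_left (Ep (by norm_num)) p0.le)
        _ = _ := by ring
    · refine le_trans (mul_le_mul_of_nonneg_left ?_ T0.le)
        (le_mul_of_one_le_left (mul_pos T0 m0).le (one_le_pow₀ X.E1))
      exact div_le_div_of_nonneg_right (add_le_add (X.cl.msm (min_le_left _ _)) le_rfl)
        (pow_pos E0 9).le
  · refine k (le_trans ?_ (h 1 one_pos le_rfl)) (max_le_max ?_ ?_)
    · calc _ = E ^ 2201 * x := by ring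
        _ ≤ E ^ 3000 * x := mul_le_mul_of_nonneg_right (Ep (by norm_num)) x0
        _ = _ := by rw [one_mul]
    · rw [div_one]
      exact le_mul_of_one_le_left (sq_nonneg _) (one_le_pow₀ X.E1)
    · rw [mul_left_comm]
      refine mul_le_mul_of_nonneg_left ?_ T0.le
      rw [X.mf_eq, X.mf_eq, ← mul_div_assoc]
      refine div_le_div_of_nonneg_right (X.θu_le.trans ?_) (pow_pos E0 9).le
      have u0 := X.u_pos
      have p1 : 2 ≤ E ^ 40 := le_trans (by linarith [X.cx.E3]) (le_self_pow₀ X.E1 (by norm_num))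
      calc (2 : ℝ) = 2 * 1 := (mul_one _).symm
        _ ≤ E ^ 40 * ((E ^ 360) ^ 6 * (S.ms t + u)) := by
          gcongr
          exact b.trans (mul_le_mul_of_nonneg_left (le_add_of_nonneg_left (X.cl.ms_pos a.le).le)
            (by positivity))
        _ = _ := by rw [← pow_mul, ← mul_assoc, ← pow_add]


/-- the interpolated level -/
theorem bud_43 (hx : 0 < x) (h : logb S.n x ≤ 4 / 3 * logb S.n (Tt E Y) +
    2 / 3 * logb S.n (S.θ + u) - 3010 * logb S.n E) : Bud E S M Y D u (1 / E) x :=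
  X.bud_unif fun t a b => by
  have E0 := X.E0; have := X.T0; have u0 := X.u_pos
  have m0 : 0 < mf (Su E S M Y D u) t := X.mf_pos a.le
  have θ0 := X.cl.θ0
  have p1 : t ^ 2 * (S.θ + u) ≤ E ^ 10 * mf (Su E S M Y D u) t := by
    have q := X.cl.ms_mul a.le ((one_le_div a).2 b)
    rw [one_div_mul_cancel a.ne'] at q
    have q1 : t ^ 2 * S.θ ≤ 4 * S.ms t :=
      (mul_le_mul_of_nonneg_left q (sq_nonneg t)).trans_eq (by field_simp)
    have q2 := mul_le_of_le_one_left u0.le (pow_le_one₀ (n := 2) a.le b)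
    have e : E ^ 10 * mf (Su E S M Y D u) t = E * (S.ms t + u) := by
      rw [X.mf_eq]
      field_simp
    rw [e]
    linarith [mul_le_mul_of_nonneg_right (show 4 ≤ E by linarith [X.cx.E3])
      (add_pos (X.cl.ms_pos a.le) u0).le]
  have c1 := X.lg_mono (by positivity) p1
  have c2 := X.lg_mono (by positivity) (le_max_left _ _ : _ ≤ En E S M Y D u t)
  have c3 := X.lg_mono (by positivity) (le_max_right _ _ : _ ≤ En E S M Y D u t)
  rw [logb_mul (by positivity) (by positivity)] at c1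
  refine X.le_of_lg (by positivity) (X.En0 a) ?_
  rw [En]
  generalize logb S.n (S.θ + u) = z at *
  revert c1 c2 c3
  lg_norm
  intro c1 c2 c3
  linarith [X.lg_E.1]

/-- the mass form -/
theorem bud_ms (h : ∀ t, 0 < t → t ≤ 1 → t * x ≤ E ^ 10 ^ 7 * (Yd KK E Y * (S.ms t + u))) :
    Bud E S M Y D u (1 / E) x := X.bud_unif fun t a b => by
  have E0 := X.E0; have := X.T0; have := X.Yd0
  have m := add_pos (X.cl.ms_pos a.le) X.u_pos
  refine le_max_of_le_right ((mul_le_mul_of_nonneg_left (h t a b) (by positivity)).trans ?_)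
  rw [X.mf_eq]
  generalize S.ms t + u = z at *
  refine X.le_of_lg (by positivity) (by positivity) ?_
  lg_norm
  rw [X.lg_Yd, X.lg_T]
  push_cast
  linarith [X.lg_E.1]

/-- the dichotomy at the level `Ys` -/
theorem bud_dich (h1 : x ≤ E ^ 10 ^ 7 * nu S ^ 2)
    (h2 : ∀ t, Ys ≤ t → 0 < t → t ≤ 1 → t * x ≤ E ^ 10 ^ 7 * (S.ms t * Yd KK E Y)) :
    Bud E S M Y D u (1 / E) x := X.bud_ms fun t a b => by
  have E0 := X.E0; have y0 := X.Yd0; have n0 := X.nu0
  generalize hp : E ^ 10 ^ 7 = p at *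
  have p0 : 0 < p := hp ▸ pow_pos E0 _
  rcases le_total Ys t with e | e
  · linarith [h2 t e a b, mul_pos p0 (mul_pos y0 X.u_pos)]
  · have b1 : t * nu S ≤ Yd KK E Y :=
      (mul_le_mul_of_nonneg_right (le_min e b) n0.le).trans X.sx.big.Y2
    have b2 := mul_le_mul b1 (X.nu_u.trans (le_add_of_nonneg_left (X.cl.ms_pos a.le).le)) n0.le y0.le
    linarith [mul_le_mul_of_nonneg_left h1 a.le, mul_le_mul_of_nonneg_left b2 p0.le]

theorem bud_n (hx : 0 < x) (h : logb S.n x ≤ -2 / 3 - 1 / 100 + 10 ^ 7 * logb S.n E) :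
    Bud E S M Y D u (1 / E) x := by
  have E0 := X.E0; have n0 := X.nu0; have N0 := X.N0
  have a : x ≤ E ^ 10 ^ 7 * (nu S ^ 2 / (S.n : ℝ) ^ ((1 : ℝ) / 100)) :=
    X.le_of_lg hx (by positivity) (by
      lg_norm
      rw [X.lg_nu, X.lg_n]
      linarith)
  refine X.bud_dich (a.trans (mul_le_mul_of_nonneg_left (div_le_self (sq_nonneg _)
    (one_le_rpow X.N1.le (by norm_num))) (pow_pos E0 _).le)) fun t e a0 b => ?_
  refine (mul_le_mul_of_nonneg_left a a0.le).trans ?_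
  rw [mul_left_comm, ← mul_div_assoc]
  exact mul_le_mul_of_nonneg_left (X.sx.g6 t e (b.trans X.cl.C1)) (pow_pos E0 _).le

theorem pw_le {i j : ℕ} (h : i + j ≤ 10 ^ 7) {z w : ℝ} (hw : 0 ≤ w) (hz : z ≤ E ^ j * w) :
    E ^ i * z ≤ E ^ 10 ^ 7 * w := by
  refine (mul_le_mul_of_nonneg_left hz (pow_pos X.E0 i).le).trans ?_
  rw [← mul_assoc, ← pow_add]
  exact mul_le_mul_of_nonneg_right (pow_le_pow_right₀ X.E1 h) hw


theorem bud_u0 (h : x ≤ E ^ 10 ^ 6 * (S.θ * S.u0 ^ 3)) : Bud E S M Y D u (1 / E) x := by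
  refine X.bud_dich (h.trans (X.pw_le (j := 2 * KK) (by norm_num [KK]) (sq_nonneg _) X.sx.u3.1))
    fun t e a b => (mul_le_mul_of_nonneg_left h a.le).trans ?_
  rw [mul_left_comm]
  exact X.pw_le (j := 2 * KK) (by norm_num [KK]) (mul_pos (X.cl.ms_pos a.le) X.Yd0).le
    (X.sx.u3.2 t e (b.trans X.cl.C1))



/-- the root level -/
theorem bud_jl (h : x ≤ B7 E S M) : Bud E S M Y D u (1 / E) x := Bud.of_le (X.bud_unif fun t a b => by
  have E0 := X.E0; have := X.T0; have := X.Yd0; have := X.sj0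
  have m := X.cl.ms_pos a.le
  have c := X.lg_mono a b
  rw [logb_one] at c
  rw [B7]
  rcases X.dich a with ⟨-, g⟩ | ⟨-, g⟩
  · refine le_max_of_le_right (le_trans (X.le_of_lg (by positivity) (by positivity) ?_)
      (mul_le_mul_of_nonneg_left (X.ms_le t) X.T0.le))
    have g := X.lg_mono (by positivity) g
    revert g
    lg_norm
    rw [X.lg_Yd, X.lg_T]
    push_cast
    intro g
    linarith [X.lg_E.1]
  · rw [min_eq_left b] at g
    refine le_max_of_le_left (X.le_of_lg (by positivity) (by positivity) ?_)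
    have g := X.lg_mono (by positivity) g
    revert g
    lg_norm
    rw [X.lg_Yd, X.lg_T]
    push_cast
    intro g
    linarith [X.lg_E.1]) h

/-- below `Bd / E` -/
theorem bud_Bd (h : E * x ≤ Bd E S M Y u) : Bud E S M Y D u (1 / E) x := by
  have E0 := X.E0; have N0 := X.N0
  have k : ∀ {B : ℝ}, 0 ≤ B → E * x ≤ B → x ≤ B := fun {B} b g => by
    rcases le_total x 0 with e | e
    · exact e.trans b
    · exact (le_mul_of_one_le_left e X.E1).trans g
  rcases le_max_iff.1 h with g | g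
  · exact X.bud_Xi g
  rcases le_max_iff.1 g with g | g
  · have b : 0 < B4 E S := by unfold B4; positivity
    refine (X.bud_n b ?_).of_le (k b.le g)
    rw [B4, logb_mul (by positivity) (by positivity), logb_pow, X.lg_rp]
    push_cast
    linarith
  · exact X.bud_jl (k (by have := X.sj0; unfold B7; positivity) g)

theorem bud_Bd' (hx : 0 < x) (h : logb S.n x ≤ logb S.n (Bd E S M Y u) - logb S.n E) :
    Bud E S M Y D u (1 / E) x := X.bud_Bd (X.le_of_lg (mul_pos X.E0 hx) X.Bd0 (by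
  rw [logb_mul X.E0.ne' hx.ne']
  linarith))

end Tx

end Crest.Agent.T156.Alt.Tm92

end
end

-- ▼ part T156/TermG_92

/-!
# Row 156, SR, terminal statement: the assembly of the numbers (helper92)
-/

set_option autoImplicit false
set_option linter.unusedSectionVars false

noncomputable section

namespace Crest.Agent.T156.Alt.Tm92

open Real Finset Filter Pre29 Sr L69

/-- the two locations -/
def Vt1 (E : ℝ) (S : Sc) (Y u : ℝ) : ℝ := min 1 (Tt46.Vt E S Y u)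
def V21 (E : ℝ) (S : Sc) (Y u : ℝ) : ℝ := min 1 (Tt46.V2 E S Y u)

/-- the corner fields of `LP` -/
structure Cn (E : ℝ) (S : Sc) (Xp Lg X2 X3 G0 j Lc ηc τ : ℝ) : Prop where
  tw : S.w3 1 ≤ τ ^ 3
  Lc1 : Lg ≤ Lc ∧ Lc ≤ S.n
  ηc1 : ∀ u, u = Lc ^ ((2 : ℝ) / 3) * S.w3 1 ^ ((1 : ℝ) / 3) →
    u ^ 3 + u ^ 2 * (S.θ + j + Xp ^ ((1 : ℝ) / 3)) +
    (√(Lc * gg S 1) + G0 + X2) * (u + √X2) + X3 + 1 / S.n ≤ ηc ∧ E * u ^ 2 ≤ mf S 1
  τ0 : Xp ^ ((1 : ℝ) / 3) / Lc + ηc / mf S 1 ≤ τ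
  τ1 : τ ≤ Xp ^ ((1 : ℝ) / 3)
  j1 : E * (j + τ) ≤ 1

/-- prefix: context and cuts -/
def AllZ (P : ∀ (E : ℝ) (S : Sc) (M : Md) (l lm Ys Y : ℝ) (c : ℕ → ℝ) (D u : ℝ) (F : ℕ → ℝ),
    Tm71.Tx KK E S M l lm Ys Y c D u F → ℝ → ℝ → Prop) : Prop :=
  ∀ E S M l lm Ys Y c D u F (Z : Tm71.Tx KK E S M l lm Ys Y c D u F) r1 r2,
    Tp KK E S M lm Y r1 r2 → P E S M l lm Ys Y c D u F Z r1 r2

/-- **passes of `TLt`** (46) -/
def HVt : Prop := AllZ fun E S _ _ _ _ Y _ _ u _ Z r1 r2 => ∀ m a, S.In m a →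
  Tt46.TtAt (E ^ 360) E Z.S' Z.N m a → Z.N.Phi S m a ≤ 2 * (E ^ 100 * Y) →
  (∀ k, S.J ≤ k → k ≤ S.Jp → 8 * r1 ≤ du Z.N k → Z.N.del m a k ≤ Tt46.Vt E S Y u) ∧
    Ap2 Z.S' Z.N m a (Tt46.V2 E S Y u) (8 * r1) (2 * r2)

/-- **corner** (28) -/
def HCn : Prop := AllZ fun E S M _ _ _ Y _ D u _ Z _ _ =>
  Cn (E ^ 360) Z.S' (Xx E Y) (Zz E) (X2 E S M Y u) (X3n E S M Y u) (G0 E S M Y u)
    (Tc28.jj E S M Y u) (Tc28.Lc E S Y u) (Tc28.ec E S M Y D u (M15.et E S M Y D u 1))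
    (Tc28.tc E S M Y D u (M15.et E S M Y D u 1))

/-- **costs** (28, 71) -/
def HLC : Prop := AllZ fun E S M _ _ _ Y _ D u _ Z r1 r2 =>
  LC (E ^ 360) Z.S' Z.N (Xx E Y) (Vt1 E S Y u) (V21 E S Y u) (Zz E) (Zz E ^ 3) (X2 E S M Y u)
    (G0 E S M Y u) Z.G1 (8 * r1) (2 * r2) (Tc28.jj E S M Y u) (nu S)
    (Tc28.ec E S M Y D u (M15.et E S M Y D u 1)) (Tc28.tc E S M Y D u (M15.et E S M Y D u 1))
    (M15.et E S M Y D u) (Tc28.Nc E S M Y u + Z.GN)

/-- **budget of the costs** (28, 71) -/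
def HBud : Prop := AllZ fun E S M _ _ _ Y _ D u _ _ _ _ =>
  Bud E S M Y D u (100 / E) (Tc28.Nc E S M Y u)

/-- **sizes of the plateau** (72, 19) -/
def HLP : Prop := AllZ fun E S M _ _ _ Y _ _ u _ Z r1 r2 => ∀ j Lc ηc τ η,
  Cn (E ^ 360) Z.S' (Xx E Y) (Zz E) (X2 E S M Y u) (X3n E S M Y u) (G0 E S M Y u) j Lc ηc τ →
  ∃ N', LP (E ^ 360) Z.S' Z.N (Xx E Y) (Vt1 E S Y u) (Zz E) (Zz E ^ 3) (X2 E S M Y u)
    (X3n E S M Y u) (G0 E S M Y u) Z.G1 (8 * r1) (2 * r2) j (nu S) Lc ηc τ η N'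

section

variable {E : ℝ} {S : Sc} {M : Md} {l lm Ys Y : ℝ} {c : ℕ → ℝ} {D u : ℝ} {F : ℕ → ℝ}
  (Z : Tm71.Tx KK E S M l lm Ys Y c D u F)
include Z

theorem bk : Bk E S M Z.N Y D u (M15.X4 E S M Y u) (M15.et E S M Y D u) :=
  ⟨M15.lnN (tx Z) Z.cl' rfl (hJ Z), M15.l4N (tx Z) Z.cl' rfl (hJ Z), M15.X40 (tx Z),
    M15.X4_le (tx Z), M15.costN (tx Z) Z.cl' rfl (hJ Z)⟩

theorem ncl {Nc : ℝ} (h : Bud E S M Y D u (100 / E) Nc) : NcL E S M Y D u Nc := by
  have X := tx Z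
  obtain ⟨a, b⟩ := X.bud_out h le_rfl
  exact ⟨fun t p q => a t ((rpow_pos_of_pos X.T0 _).trans_le p) q,
    fun t p q => b t (X.l0.trans_le p) q⟩

theorem Yd_X : Yd KK E Y ≤ Xx E Y := by
  have X := tx Z
  refine X.le_of_lg X.Yd0 X.X0 ?_
  linarith [X.lg_Yd, X.lg_X.1, X.lg_E.1]

theorem r_pos {r1 r2 : ℝ} (T : Tp KK E S M lm Y r1 r2) : 0 < r1 := by
  have X := tx Z
  have a := (rpow_pos_of_pos X.N0 _).trans_le T.a1
  have b : 0 < (S.n : ℝ) * max S.θ (nu S) := mul_pos X.N0 (X.nu0.trans_le (le_max_right _ _))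
  by_contra hc
  nlinarith [not_lt.1 hc]

end

/-- **the numbers of `Term`** -/
theorem num_of (h0 : TLt) (hV : HVt) (hC : HCn) (hL : HLC) (hB : HBud) (hP : HLP) :
    Tm71.Num KK 360 := by
  refine (Tm71.onTx KK (Tt46.tlt_iff.1 h0) (i := 360) (by norm_num)).mono ?_
  intro E Λ S M m a _ _ H I h l lm Ys Y c D u F Z _ hX
  obtain ⟨r1, r2, T⟩ := Z.sx.top
  have X := tx Z
  have B := bk Z
  have r0 := r_pos Z T
  have m0 : 0 < m := H.n1.trans I.m1
  obtain ⟨v1, v2⟩ := hV _ _ _ _ _ _ _ _ _ _ _ Z r1 r2 T m a I (h _ _ _ _ _ _ _ _ Z) hX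
  obtain ⟨N', lp⟩ := hP _ _ _ _ _ _ _ _ _ _ _ Z r1 r2 T _ _ _ _ (M15.et E S M Y D u)
    (hC _ _ _ _ _ _ _ _ _ _ _ Z r1 r2 T)
  refine ⟨_, _, _, _, _, _, _, _, _, _, _, _, _, _, _, _, _, _, _, N', _, _, B.ln, B.l4 _, lp,
    hL _ _ _ _ _ _ _ _ _ _ _ Z r1 r2 T,
    ap_N Z hX (fun k p q r => le_min (Tm71.del_le_one m0 k) (v1 k p q r))
      (Z.jn T (Yd_X Z) (by linarith)),
    fun k p q r s => le_min (Tm71.del_le_one m0 k) (v2 k p q r s), le_rfl,
    hn_of Z B (ncl Z (hB _ _ _ _ _ _ _ _ _ _ _ Z r1 r2 T)) ?_⟩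
  have := Z.Yd_T (x := 2) ((show (2 : ℝ) ≤ E by linarith [Z.X.E3]).trans
    (Z.E_Q.trans (le_self_pow₀ Z.Q1 (by norm_num))))
  exact (mul_le_mul_of_nonneg_left T.a4 zero_le_two).trans this

/-- **`TermS2`** from the block (L) and the numbers -/
theorem termS2_of (h0 : TLt) (h1 : TL1x) (h2 : TL1cx) (hV : HVt) (hC : HCn) (hL : HLC)
    (hB : HBud) (hP : HLP) : TermS2 :=
  ⟨KK, by norm_num [KK], Tm71.term_of le_rfl (by norm_num [KK]) h1 h2
    (num_of h0 hV hC hL hB hP)⟩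

end Crest.Agent.T156.Alt.Tm92

end
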