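import Crest.Agent.T156.TermTD_46
import Crest.Agent.T156.PlS_64
import Crest.Agent.T156.TermD_71
import Crest.Agent.T156.TermC_71
import Crest.Agent.T156.TermR_19
import Crest.Agent.T156.TermF_92
import Crest.Agent.T156.TermG_92
import Crest.Agent.T156.TermB_92

-- ▼ part T156/TermTC_46
section

/-!
# Row 156, SR, terminal statement: the passes of `TLt` at the level of the class (helper46)
-/

set_option autoImplicit false
set_option linter.unusedSectionVars false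

noncomputable section

namespace Crest.Agent.T156.Alt.Tt46

open Real Finset L69 Ps64

variable {S : Sc} {M : Md}

theorem third {Z : ℝ} (h : 0 ≤ Z) : (Z ^ 3) ^ ((1 : ℝ) / 3) = Z := by
  rw [← rpow_natCast, ← rpow_mul h]
  norm_num

theorem third_le {x y : ℝ} (hx : 0 ≤ x) (hy : 0 ≤ y) (h : x ≤ y ^ 3) : x ^ ((1 : ℝ) / 3) ≤ y :=
  (rpow_le_rpow hx h (by norm_num)).trans_eq (third hy)

theorem pd_mono {h u u' Xp D lm dm Λ : ℝ} (P : PD S M h u Xp D lm dm Λ) (hu : u ≤ u') :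
    PD S M h u' Xp D lm dm Λ := by
  have u0 := P.u10
  have sub : ∀ k ∈ nd S M u', k ∈ nd S M u := fun k hk =>
    mem_filter.2 ⟨(mem_filter.1 hk).1, hu.trans (mem_filter.1 hk).2⟩
  have lg : log (1 + 1 / u') ≤ log (1 + 1 / u) := log_le_log (by have := u0.trans_le hu; positivity)
    (add_le_add le_rfl (one_div_le_one_div_of_le u0 hu))
  exact { P with
    ue := P.ue.trans_le hu
    hu1 := P.hu1.trans hu
    lm1 := fun k hk => P.lm1 k (sub k hk)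
    dm1 := fun k hk => P.dm1 k (sub k hk)
    l0 := by linarith [P.l0]
    lX := by linarith [P.lX] }

theorem crt_le (c : Cl S M) {t r : ℝ} (ht : 0 < t) (hr : t ≤ r) (h : S.F * S.ms t * t ≤ r ^ 3) :
    cr S t * t ≤ r := by
  rw [cr, max_mul_of_nonneg _ _ ht.le, one_mul]
  refine max_le hr (le_of_pow_le_pow_left₀ three_ne_zero (ht.le.trans hr) ?_)
  have := c.ms_pos ht.le
  have := c.F1
  rw [mul_pow, cube3 (by positivity)]
  exact (le_of_eq (by field_simp)).trans h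

theorem w3_anti (c : Cl S M) {t t' : ℝ} (ht : 0 < t) (h : t ≤ t') : S.w3 t' ≤ S.w3 t := by
  have := c.ms_pos ht.le
  have := c.N0
  have := c.F1
  have := c.msm h
  have := ht.trans_le h
  unfold Sc.w3
  gcongr

theorem w3_pos (c : Cl S M) {t : ℝ} (ht : 0 < t) : 0 < S.w3 t := by
  have := c.ms_pos ht.le
  have := c.N0
  have := c.F1
  unfold Sc.w3
  positivity

/-- `Far` from the one-sided comparison of the densities -/
theorem far_of (c : Cl S M) {Xp Vt γ u1 Lp lm : ℝ} (hX : 0 ≤ Xp) (hL : 0 ≤ Lp) (l0 : 0 ≤ lm)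
    (fa : ∀ i k, S.J ≤ i → i ≤ k → k ≤ S.Jp → u1 ≤ du M k →
      S.den (M.z (i - 1)) ≤ Lp * (1 + S.den (M.z (k - 1))))
    (hl : ∀ k, S.J ≤ k → k ≤ S.Jp → u1 ≤ du M k → lm ≤ lsh M S k)
    (hw : S.w3 1 ≤ Xp ^ ((1 : ℝ) / 3) * lm ^ 2) : Far M S Xp Vt γ u1 Lp := fun i k a b d e => by
  have w0 := (w3_pos c one_pos).le
  have x0 := rpow_nonneg hX ((1 : ℝ) / 3)
  have d0 := (c.den0 (M.z (k - 1))).le
  have b1 := hl k (a.trans b) d e
  have b0 := l0.trans b1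
  have b2 := mul_le_mul_of_nonneg_left (pow_le_pow_left₀ l0 b1 2) x0
  have b3 := mul_le_mul_of_nonneg_left (fa i k a b d e) w0
  have b4 : S.w3 1 * (1 + S.den (M.z (k - 1))) ≤ (lsh M S k + Xp ^ ((1 : ℝ) / 3)) * lsh M S k ^ 2 +
      S.w3 1 * S.den (M.z (k - 1)) := by nlinarith [pow_nonneg b0 3]
  refine le_trans ?_ (le_mul_of_one_le_right (by positivity) (one_le_pow₀ (le_max_left _ _)))
  linarith [mul_le_mul_of_nonneg_left b4 hL]

/-- the density against the distance to the upper end -/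
theorem den_le (c : Cl S M) {D Lq : ℝ} (hD : S.C ^ 2 * (M.ck S.Jp - M.ck S.J) ≤ D) (hL : 0 ≤ Lq)
    {k : ℕ} (k1 : S.J ≤ k) (k2 : k ≤ S.Jp) (hu : 2 * S.ue ≤ du M k)
    (fa : ∀ i, k ≤ i → i < S.Jp → S.den (M.z (k - 1)) ≤ Lq * (1 + S.den (M.z (i - 1)))) :
    S.den (M.z (k - 1)) * du M k ≤ 2 * Lq * (1 + D) := by
  have C0 := c.C0
  have j0 := c.j0_lt
  have d0 := c.den0 (M.z (k - 1))
  have e : ∑ i ∈ Ico k S.Jp, M.dx i = M.z (S.Jp - 1) - M.z (k - 1) := by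
    rw [← Sr.M29.sum_dx M (show k - 1 ≤ S.Jp - 1 by omega)]
    refine sum_congr ?_ fun _ _ => rfl
    ext i
    simp only [mem_Ico, mem_Ioc]
    omega
  have a1 : ∑ i ∈ Ico k S.Jp, M.dx i * S.den (M.z (i - 1)) ≤ D :=
    calc _ ≤ ∑ i ∈ Ico S.J S.Jp, M.dx i * S.den (M.z (i - 1)) :=
          sum_le_sum_of_subset_of_nonneg (Ico_subset_Ico k1 le_rfl)
            fun i _ _ => mul_nonneg (Sr.M29.dx_nn c i) (c.den0 _).le
      _ ≤ ∑ i ∈ Ico S.J S.Jp, S.C ^ 2 * (M.ck (i + 1) - M.ck i) := by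
          refine sum_le_sum fun i hi => ?_
          obtain ⟨i1, i2⟩ := mem_Ico.1 hi
          have a1 := (c.plat i i1 i2).2
          have a2 := (c.ckm i (by omega) i2).1
          rw [div_le_iff₀ C0] at a2
          have := mul_le_mul_of_nonneg_left a2 C0.le
          simp only [Md.dx]
          nlinarith
      _ ≤ D := by rw [← mul_sum, sum_Ico_sub _ c.i3]; exact hD
  have a2 : ∑ i ∈ Ico k S.Jp, M.dx i * S.den (M.z (k - 1)) ≤
      ∑ i ∈ Ico k S.Jp, Lq * (M.dx i + M.dx i * S.den (M.z (i - 1))) := sum_le_sum fun i hi =>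
    (mul_le_mul_of_nonneg_left (fa i (mem_Ico.1 hi).1 (mem_Ico.1 hi).2) (Sr.M29.dx_nn c i)).trans_eq
      (by ring)
  rw [← sum_mul, ← mul_sum, sum_add_distrib, e] at a2
  have a3 : du M k / 2 ≤ M.z (S.Jp - 1) - M.z (k - 1) := by
    have := c.last
    rw [du] at hu ⊢
    linarith
  have a4 : M.z (S.Jp - 1) - M.z (k - 1) ≤ 1 := by linarith [c.leg.z1 (S.Jp - 1), c.z_pos (k - 1)]
  have a5 := mul_le_mul_of_nonneg_right a3 d0.le
  have a6 := mul_le_mul_of_nonneg_left (add_le_add a4 a1) hL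
  linarith

/-- location above the cut `ρ` -/
def VT (S : Sc) (M : Md) (m : ℕ) (a ρ V : ℝ) : Prop :=
  ∀ k, S.J ≤ k → k ≤ S.Jp → ρ ≤ du M k → M.del m a k ≤ V

theorem VT.mono {m : ℕ} {a ρ V ρ' V' : ℝ} (h : VT S M m a ρ V) (h1 : ρ ≤ ρ') (h2 : V ≤ V') :
    VT S M m a ρ' V' := fun k a b c => (h k a b (h1.trans c)).trans h2

/-- the data of the passes -/
structure PS (E Λ : ℝ) (S : Sc) (M : Md) (m : ℕ) (a Z L ρ0 l0 γ h D lm dm Λ0 : ℝ) : Prop where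
  tt : TtAt E Λ S M m a
  pd : PD S M h ρ0 (Z ^ 3) D lm dm Λ0
  jj : S.j0 = S.jl
  m0 : 0 < m
  Z0 : 0 < Z
  ZE : E * Z ≤ 1
  E1 : 72 * S.C ≤ E
  Λ1 : 1 ≤ Λ
  L0 : 1 ≤ L
  L1 : E ≤ L ^ 3
  Ln : L ^ 3 ≤ S.n
  HJ : M.H S.Jp ≤ S.C
  l0s : E * M.s S.jl ≤ l0
  l0w : S.w3 l0 ≤ l0 ^ 3
  l0Z : l0 ≤ Z
  ms : ∀ t, l0 ≤ t → S.F * S.ms t ≤ t ^ 2 + Z ^ 2
  wZ : S.w3 Z ≤ Z ^ 6
  rev : ∃ k1, S.Jp ≤ k1 ∧ k1 ≤ M.N ∧ 1 / S.C ≤ ((k1 : ℝ) - S.Jp) * S.v ∧
    ∀ k, S.Jp ≤ k → k < k1 → S.θ * S.v / (S.C * S.F) ≤ M.H (k + 1) - M.H k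
  γ0 : M.s S.Jp - M.s S.J ≤ γ
  γ1 : γ ≤ Z
  fa : ∀ i k, S.J ≤ i → i ≤ k → k ≤ S.Jp → ρ0 ≤ du M k →
    S.den (M.z (i - 1)) ≤ L ^ 3 * (1 + S.den (M.z (k - 1)))
  wl : S.w3 1 ≤ Z * lm ^ 2
  n1 : S.w3 1 * D ≤ Z ^ 4
  n2 : S.w3 1 / dm ≤ Z
  n3 : S.w3 1 / lm * Λ0 ≤ Z ^ 4
  n4 : 1 ≤ Λ0 ∧ Λ0 ≤ L ^ 3
  phi : M.Phi S m a ≤ Z ^ 3
  sqG : M.sq S M.G ≤ Z ^ 2
  jn : Jn S M (Z ^ 3) ρ0
  nZ : 1 / √S.n ≤ Z
  ks : ∃ k', k' ≤ S.Jp ∧ du M k' ≤ ρ0 ∧
    min (√(M.H k' - M.H S.J)) (S.F * (M.H k' - M.H S.J) / S.θ) ≤ Z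

namespace PS

variable {E Λ : ℝ} {m : ℕ} {a Z L ρ0 l0 γ h D lm dm Λ0 : ℝ}
  (P : PS E Λ S M m a Z L ρ0 l0 γ h D lm dm Λ0)
include P

theorem CZ : 72 * S.C * Z ≤ 1 := (mul_le_mul_of_nonneg_right P.E1 P.Z0.le).trans P.ZE
theorem Z72 : 72 * Z ≤ 1 := by nlinarith [P.CZ, P.pd.cl.C1, P.Z0]
theorem Z1 : Z ≤ 1 := by linarith [P.Z72, P.Z0]
theorem Zp {i j : ℕ} (h : i ≤ j) : Z ^ j ≤ Z ^ i := pow_le_pow_of_le_one P.Z0.le P.Z1 h
theorem Zp1 {j : ℕ} (h : 1 ≤ j) : Z ^ j ≤ Z := (P.Zp h).trans_eq (pow_one Z)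
theorem E0 : 0 < E := by linarith [P.E1, P.pd.cl.C1]
theorem Ele {x : ℝ} (h : x ≤ Z) : E * x ≤ 1 := (mul_le_mul_of_nonneg_left h P.E0.le).trans P.ZE
theorem l00 : 0 < l0 :=
  (mul_pos P.E0 (P.pd.cl.s_pos (P.pd.cl.i0.trans P.pd.cl.i1))).trans_le P.l0s
theorem γn : 0 ≤ γ := (sub_nonneg.2 (P.pd.cl.sm P.pd.cl.i3)).trans P.γ0

theorem cl_nn {t : ℝ} (ht : 0 < t) : 0 ≤ cl S Z t :=
  add_nonneg (mul_nonneg (zero_le_one.trans (le_max_left _ _)) ht.le) P.Z0.le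

theorem x_lo {t : ℝ} (h1 : l0 ≤ t) (h2 : t ≤ Z) : t * cl S Z t ^ 2 ≤ Z ^ 2 := by
  have t0 := P.l00.trans_le h1
  have Z0 := P.Z0
  have a : cr S t * t ≤ 2 * Z := crt_le P.pd.cl t0 (by linarith) (by
    have b := mul_le_mul ((P.ms t h1).trans (add_le_add (pow_le_pow_left₀ t0.le h2 2) le_rfl)) h2
      t0.le (by positivity)
    nlinarith [pow_pos Z0 3])
  have b : cl S Z t ≤ 3 * Z := by rw [cl]; linarith
  have d := mul_le_mul h2 (pow_le_pow_left₀ (P.cl_nn t0) b 2) (sq_nonneg _) Z0.le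
  nlinarith [mul_le_mul_of_nonneg_right P.Z72 (sq_nonneg Z), pow_pos Z0 3]

theorem x_hi {t : ℝ} (h1 : Z ≤ t) (h2 : t ≤ S.C) :
    t * ws S Z t ^ 2 + (t * ws S Z t ^ 2) ^ ((3 : ℝ) / 7) * (Z ^ 3) ^ ((4 : ℝ) / 7) ≤ 2 * Z ^ 2 := by
  have Z0 := P.Z0
  have t0 := Z0.trans_le h1
  have a : cr S t * t ≤ 2 * t := crt_le P.pd.cl t0 (by linarith) (by
    have b := mul_le_mul_of_nonneg_right ((P.ms t (P.l0Z.trans h1)).trans
      (add_le_add le_rfl (pow_le_pow_left₀ Z0.le h1 2))) t0.le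
    nlinarith [pow_pos t0 3])
  have b : cl S Z t / t ≤ 3 := by rw [div_le_iff₀ t0, cl]; linarith
  have w := w3_pos P.pd.cl t0
  have d : S.w3 t ^ ((1 : ℝ) / 3) ≤ Z ^ 2 := third_le w.le (by positivity)
    (((w3_anti P.pd.cl Z0 h1).trans P.wZ).trans_eq (by ring))
  have e0 : 0 ≤ ws S Z t := mul_nonneg (div_nonneg (P.cl_nn t0) t0.le) (rpow_nonneg w.le _)
  have e : ws S Z t ≤ 3 * Z ^ 2 := mul_le_mul b d (rpow_nonneg w.le _) (by norm_num)
  have f := mul_le_mul h2 (pow_le_pow_left₀ e0 e 2) (sq_nonneg _) P.pd.cl.C0.le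
  have g : t * ws S Z t ^ 2 ≤ Z ^ 2 := by
    have := mul_le_mul_of_nonneg_right P.CZ (pow_pos Z0 3).le
    have := P.Zp (show 2 ≤ 3 by norm_num)
    have : 0 < S.C * Z ^ 4 := mul_pos P.pd.cl.C0 (pow_pos Z0 4)
    nlinarith
  have i := mul_le_mul (rpow_le_rpow (by positivity) g (show (0 : ℝ) ≤ 3 / 7 by norm_num))
    (rpow_le_rpow (by positivity) (P.Zp (show 2 ≤ 3 by norm_num)) (show (0 : ℝ) ≤ 4 / 7 by norm_num))
    (by positivity) (by positivity)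
  rw [← rpow_add (by positivity), show (3 : ℝ) / 7 + 4 / 7 = 1 by norm_num, rpow_one] at i
  linarith

theorem wlm : S.w3 1 / lm ≤ Z ^ 4 :=
  (le_mul_of_one_le_right (div_nonneg P.pd.w0.le P.pd.lm0.le) P.n4.1).trans P.n3

theorem swl : √(S.w3 1 / lm) ≤ Z :=
  sqrt_le_iff.2 ⟨P.Z0.le, P.wlm.trans (P.Zp (by norm_num))⟩

theorem np {ρ V : ℝ} (h0 : ρ0 ≤ ρ) (h1 : ρ ≤ Z ^ 2) (V0 : 0 ≤ V) (V1 : V ≤ 1) :
    Np M S (Z ^ 3) V γ ρ (L ^ 3) 2 ≤ (5 * L ^ 2 * Z) ^ 2 := by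
  have Z0 := P.Z0
  have L0 := P.L0
  have w0 := P.pd.w0
  have l0 := P.pd.lm0
  have d0 := P.pd.dm0
  have a := (pd_mono P.pd h0).Np2 (R := 4) (s := Z) V0 P.γn le_rfl
    (by rw [third Z0.le]; linarith [P.γ1, P.Z1]) Z0 (by
      have b1 := mul_le_mul P.wlm (P.swl.trans P.Z1) (sqrt_nonneg _) (pow_pos Z0 4).le
      have b2 := mul_le_mul_of_nonneg_right P.Z72 (pow_pos Z0 3).le
      have b3 : S.w3 1 * (D + 4 ^ 2 / lm * Λ0) = S.w3 1 * D + 16 * (S.w3 1 / lm * Λ0) := by ring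
      rw [ZA, b3]
      linarith [P.n1, P.n3]) (zero_lt_one.trans_le L0)
  have b1 := mul_le_mul P.n2 (P.n3.trans (P.Zp1 (by norm_num))) (by have := P.n4.1; positivity) Z0.le
  have b2 : (9 * Z ^ 3 * Λ0 + 3 * γ ^ 2) / L ^ 3 ≤ 12 * Z ^ 2 := by
    rw [div_le_iff₀ (by positivity)]
    have c1 := mul_le_mul (P.Zp (show 2 ≤ 3 by norm_num)) P.n4.2 (by linarith [P.n4.1]) (sq_nonneg Z)
    have c2 := (pow_le_pow_left₀ P.γn P.γ1 2).trans
      (le_mul_of_one_le_right (sq_nonneg Z) (one_le_pow₀ (n := 3) L0))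
    linarith
  have b3 := le_mul_of_one_le_left (sq_nonneg Z) (one_le_pow₀ (n := 4) L0)
  have b4 := mul_le_mul_of_nonneg_left b1 (show 0 ≤ L ^ 4 by positivity)
  nlinarith

/-- **one pass** -/
theorem step {ρ A x y : ℝ} (h0 : ρ0 ≤ ρ) (h1 : ρ ≤ Z ^ 2) (A1 : 1 ≤ A) (x0 : 0 ≤ x) (y0 : 0 ≤ y)
    (hv : VT S M m a ρ (A * (x + Z))) (hb : S.w3 1 / dm * x ^ 2 ≤ y ^ 3)
    (hp : ∀ k, S.J ≤ k → k ≤ S.Jp → 2 * ρ ≤ du M k → S.w3 1 * S.den (M.z (k - 1)) ≤ y ^ 3) :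
    VT S M m a (2 * ρ) (20 * Λ * L ^ 3 * A * (y + Z)) := fun k k1 k2 k3 => by
  have c := P.pd.cl
  have Z0 := P.Z0
  have L0 := P.L0
  have Q := pd_mono P.pd h0
  have r0 := Q.u10
  have e3 := third Z0.le
  obtain ⟨k', s1, s2, s3⟩ := P.ks
  have kk : k ≤ k' := by
    by_contra n
    have := c.leg.zm (show k' - 1 ≤ k - 1 by omega)
    simp only [du] at s2 k3
    linarith
  set V := min 1 (A * (x + Z)) with hV
  have V0 : 0 ≤ V := le_min zero_le_one (by positivity)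
  have X2 : 2 * Z ^ 2 ≤ (5 * L ^ 2 * Z) ^ 2 := by
    nlinarith [le_mul_of_one_le_left (sq_nonneg Z) (one_le_pow₀ (n := 4) L0), sq_nonneg Z]
  have t := P.tt l0 (Z ^ 3) (Z ^ 3) V ((5 * L ^ 2 * Z) ^ 2) ρ (3 * Z) γ (L ^ 3) P.HJ (by positivity)
    (P.Ele (P.Zp1 (by norm_num))) (by positivity) (P.Ele (P.Zp1 (by norm_num))) V0 P.l0s P.l0w
    (P.Ele P.l0Z) (by rw [e3]; linarith [P.x_lo le_rfl P.l0Z, sq_nonneg Z])
    (fun t a b => by
      rw [e3]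
      rcases le_total t Z with e | e
      · exact (min_le_left _ _).trans (by linarith [P.x_lo a e, sq_nonneg Z])
      · exact (min_le_right _ _).trans ((P.x_hi e b).trans X2))
    (by linarith [P.pd.hu0, P.pd.h0]) P.rev Q.ue.le (P.Ele (h1.trans (P.Zp1 (by norm_num)))) P.γ0
    (P.Ele P.γ1) P.L1 P.Ln
    (far_of c (by positivity) (by positivity) P.pd.lm0.le
      (fun i k a b d e => P.fa i k a b d (h0.trans e))
      (fun k a b d => Q.lm1 k (mem_filter.2 ⟨mem_Icc.2 ⟨a, b⟩, d⟩)) (by rw [e3]; exact P.wl))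
    (P.np h0 h1 V0 (min_le_left _ _))
    (Tm71.ap_of c P.jj P.phi (fun k a b d => le_min (Tm71.del_le_one P.m0 k) (hv k a b d)) P.sqG
      (by
        have b1 : √(Z ^ 3) ≤ Z := sqrt_le_iff.2 ⟨Z0.le, P.Zp (by norm_num)⟩
        have b2 := (pow_le_pow_left₀ P.l00.le P.l0Z 2).trans (P.Zp1 (by norm_num))
        rw [sqrt_sq Z0.le]
        linarith)
      ⟨P.jn.dj1, P.jn.dj2, P.jn.u03, fun k a b d => P.jn.fine k a b (h0.trans d)⟩)
    k k1 k2 k3 k' kk s1 (by linarith)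
  have hk : k ∈ nd S M ρ := mem_filter.2 ⟨mem_Icc.2 ⟨k1, k2⟩, by linarith⟩
  have b0 := Q.aB0 k
  have b1 := (Q.aB_le le_rfl hk).1
  have b2 : Rp M S (Z ^ 3) V γ k + Z ≤ 4 * (A * (x + Z)) := by
    have d1 := Q.Rp_le (Vt := V) (γ := γ) k
    have d2 := le_mul_of_one_le_left (show 0 ≤ x + Z by positivity) A1
    rw [e3] at d1
    linarith [P.γ1, min_le_right 1 (A * (x + Z))]
  have b3 : a0 S M (Z ^ 3) V γ k =
      S.w3 1 * S.den (M.z (k - 1)) + aB S M k * (Rp M S (Z ^ 3) V γ k + Z) ^ 2 := by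
    rw [a0, aB, e3]
    ring
  have b4 := mul_le_mul b1 (pow_le_pow_left₀ (add_nonneg (Q.Rp0 V0 P.γn k) Z0.le) b2 2) (sq_nonneg _)
    (b0.trans b1)
  have b5 : a0 S M (Z ^ 3) V γ k ≤ (4 * (A * (y + Z))) ^ 3 := by
    have d1 := mul_le_mul_of_nonneg_right P.n2 (sq_nonneg Z)
    have d2 : S.w3 1 / dm * (x + Z) ^ 2 ≤ 2 * (y + Z) ^ 3 := by
      have := mul_nonneg (b0.trans b1) (sq_nonneg (x - Z))
      have : y ^ 3 + Z ^ 3 ≤ (y + Z) ^ 3 := pow_add_pow_le y0 Z0.le three_ne_zero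
      nlinarith
    have d3 := mul_le_mul (pow_le_pow_right₀ A1 (show 2 ≤ 3 by norm_num)) d2
      (mul_nonneg (b0.trans b1) (sq_nonneg _)) (by positivity)
    have d4 := (pow_le_pow_left₀ y0 (le_add_of_nonneg_right Z0.le) 3).trans
      (le_mul_of_one_le_left (by positivity) (one_le_pow₀ (n := 3) A1))
    have d5 : 0 ≤ A ^ 3 * (y + Z) ^ 3 := by positivity
    rw [b3]
    nlinarith [hp k k1 k2 k3]
  have b6 := third_le (Q.a00 k) (by positivity) b5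
  have b7 := le_mul_of_one_le_left (show 0 ≤ y + Z by positivity) A1
  have b8 : ap M S (Z ^ 3) V γ k ≤ 6 * (A * (y + Z)) := by
    rw [ap_eq0]
    linarith [(Q.aC_le le_rfl hk).trans P.swl, P.n2]
  have b9 := mul_le_mul_of_nonneg_left b8 (show 0 ≤ L ^ 3 by positivity)
  have c1 : Z ≤ L ^ 3 * (A * (y + Z)) :=
    (by linarith : Z ≤ A * (y + Z)).trans (le_mul_of_one_le_left (by positivity) (one_le_pow₀ L0))
  have c2 : L ^ 2 * Z ≤ L ^ 3 * (A * (y + Z)) :=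
    mul_le_mul (pow_le_pow_right₀ L0 (by norm_num)) (by linarith) Z0.le (by positivity)
  rw [sqrt_sq (by positivity)] at t
  refine t.trans ((mul_le_mul_of_nonneg_left (b := _) (c := 20 * (L ^ 3 * (A * (y + Z)))) ?_
    (by linarith [P.Λ1])).trans_eq (by ring))
  linarith [P.γ1, P.nZ]

/-- **the four passes** -/
theorem four {ρ1 y1 y2 y3 p : ℝ} (h0 : 4 * ρ0 ≤ ρ1) (h1 : 2 * ρ1 ≤ Z ^ 2) (y0 : 0 ≤ y2) (y12 : y2 ≤ y1)
    (p0 : 0 ≤ p) (p1 : p ≤ y3) (p2 : p ≤ Z) (b1 : S.w3 1 / dm ≤ y1 ^ 3)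
    (b2 : S.w3 1 / dm * y1 ^ 2 ≤ y2 ^ 3) (b3 : S.w3 1 / dm * y2 ^ 2 ≤ y3 ^ 3)
    (b4 : S.w3 1 / dm * y3 ^ 2 ≤ Z ^ 3)
    (d1 : ∀ k, S.J ≤ k → k ≤ S.Jp → 2 * ρ0 ≤ du M k → S.w3 1 * S.den (M.z (k - 1)) ≤ y2 ^ 3)
    (d2 : ∀ k, S.J ≤ k → k ≤ S.Jp → 2 * ρ1 ≤ du M k → S.w3 1 * S.den (M.z (k - 1)) ≤ p ^ 3) :
    VT S M m a (4 * ρ0) ((20 * Λ * L ^ 3) ^ 2 * (y2 + Z)) ∧
      VT S M m a (4 * ρ1) ((20 * Λ * L ^ 3) ^ 4 * (2 * Z)) := by
  have r0 := P.pd.u10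
  have Z0 := P.Z0
  have H1 : 1 ≤ 20 * Λ * L ^ 3 :=
    one_le_mul_of_one_le_of_one_le (by linarith [P.Λ1]) (one_le_pow₀ P.L0)
  have s1 := P.step (A := 1) (x := 1) le_rfl (by linarith) le_rfl zero_le_one (y0.trans y12)
    (fun k _ _ _ => (Tm71.del_le_one P.m0 k).trans (by linarith)) (by simpa using b1)
    fun k a b c => (d1 k a b c).trans (pow_le_pow_left₀ y0 y12 3)
  rw [mul_one] at s1
  have s2 := P.step (by linarith) (by linarith) H1 (y0.trans y12) y0 s1 b2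
    fun k a b c => d1 k a b (by linarith)
  rw [← sq] at s2
  have s3 := P.step (ρ := ρ1) (by linarith) (by linarith) (one_le_pow₀ H1) y0 (p0.trans p1)
    (s2.mono (by linarith) le_rfl) b3 fun k a b c => (d2 k a b c).trans (pow_le_pow_left₀ p0 p1 3)
  rw [← pow_succ'] at s3
  have s4 := P.step (by linarith) h1 (one_le_pow₀ H1) (p0.trans p1) Z0.le s3 b4
    fun k a b c => (d2 k a b (by linarith)).trans (pow_le_pow_left₀ p0 p2 3)
  rw [← pow_succ'] at s4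
  exact ⟨s2.mono (by linarith) le_rfl, s4.mono (by linarith) (le_of_eq (by ring))⟩

end PS

end Crest.Agent.T156.Alt.Tt46

end
end

-- ▼ part T156/TermT_46
section

/-!
# Row 156, SR, terminal statement: the location below the upper end of the plateau (helper46)
-/

set_option autoImplicit false
set_option linter.unusedSectionVars false

noncomputable section

namespace Crest.Agent.T156.Alt.Tt46

open Real Finset L69 Ps64 Sr Tm92

variable {E : ℝ} {S : Sc} {M : Md} {l lm Ys Y : ℝ} {c : ℕ → ℝ} {D u : ℝ} {F : ℕ → ℝ} {r1 r2 : ℝ}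

theorem tx46 (Z : Tm71.Tx KK E S M l lm Ys Y c D u F) : Tx E S M l lm Ys Y u := ⟨Z.X, Z.sx, Z.u1, Z.u2⟩

/-- `max θ ν` -/
abbrev mx (S : Sc) : ℝ := max S.θ (nu S)
/-- lower bound of `den ρ²` -/
def dm (S : Sc) : ℝ := (S.n : ℝ) ^ ((1 : ℝ) / 8) / (S.n * mx S)
/-- the size of the passes -/
def Zt (E : ℝ) (S : Sc) (Y u : ℝ) : ℝ := E ^ 30 * B2 E S Y u

section
variable (Z : Tm71.Tx KK E S M l lm Ys Y c D u F)
include Z

theorem mx0 : 0 < mx S := Z.X.nu0.trans_le (le_max_right _ _)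
theorem mm0 : 0 < S.θ + u := add_pos Z.X.cl.θ0 Z.u0
theorem lm0 : 0 < lm := Z.sx.vh.lm0
theorem dm0 : 0 < dm S := by have := mx0 Z; have := (tx46 Z).N0; unfold dm; positivity
theorem θ1 : S.θ ≤ 1 := (le_mul_of_one_le_left Z.X.cl.θ0.le Z.E1).trans Z.Eθ
theorem mx_le : mx S ≤ S.θ + u :=
  max_le (le_add_of_nonneg_right Z.u0.le) (Z.nu_u.trans (le_add_of_nonneg_left Z.X.cl.θ0.le))

theorem lg_mx : -1 / 3 ≤ logb S.n (mx S) ∧ logb S.n (mx S) ≤ 0 ∧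
    logb S.n (mx S) ≤ logb S.n (S.θ + u) := by
  have X := tx46 Z
  have a := X.lg_mono X.nu0 (le_max_right S.θ _)
  have b := X.lg_mono (mx0 Z) (max_le (θ1 Z) (Z.nu_u.trans Z.u_one))
  rw [X.lg_nu] at a
  rw [logb_one] at b
  exact ⟨a, b, X.lg_mono (mx0 Z) (mx_le Z)⟩

theorem w_eq : Z.S'.w3 1 = E ^ 9 / (S.n * (S.θ + u)) := by
  change E ^ 9 / (S.n * 1 * (S.θ + u)) = _
  rw [mul_one]

theorem w0 : 0 < Z.S'.w3 1 := w3_pos Z.cl' one_pos

theorem lg_w : logb S.n (Z.S'.w3 1) = 9 * logb S.n E - 1 - logb S.n (S.θ + u) := by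
  have X := tx46 Z
  have := X.E0; have := X.N0; have := mm0 Z
  rw [w_eq Z]
  lg_norm
  rw [X.lg_n]
  ring

theorem lg_dm : logb S.n (dm S) = 1 / 8 - 1 - logb S.n (mx S) := by
  have X := tx46 Z
  have := X.N0; have := mx0 Z
  rw [dm]
  lg_norm
  rw [X.lg_n]
  ring

theorem lg_lm : -251 / 500 ≤ logb S.n lm + logb S.n (mx S) ∧
    -18 / 25 ≤ 2 * logb S.n lm + logb S.n (mx S) := by
  have X := tx46 Z
  have := X.N0; have := mx0 Z; have := lm0 Z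
  have a := X.lg_mono (by positivity) Z.sx.w2
  have b := X.lg_mono (by positivity) Z.sx.lm2
  revert a b
  lg_norm
  rw [X.lg_n]
  intro a b
  constructor <;> linarith

theorem inv_le {x : ℝ} (hx : 0 < x) (h : -1 ≤ logb S.n x) : 1 / (S.n : ℝ) ≤ x := by
  have X := tx46 Z
  have := X.N0
  refine X.le_of_lg (by positivity) hx ?_
  lg_norm
  rw [X.lg_n]
  linarith

theorem n16 : (16 : ℝ) ≤ S.n :=
  le_trans (by linarith [Z.X.E3]) ((Z.X.E_le (by norm_num [KK])).trans Z.sx.sm)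

theorem mesh_le {x : ℝ} (h : 1 / (S.n : ℝ) ≤ x) : 16 * (1 / (S.n : ℝ) ^ 2) ≤ x := by
  have n := n16 Z
  refine le_trans ?_ h
  rw [mul_one_div, div_le_div_iff₀ (by positivity) (by positivity)]
  nlinarith

theorem log_le {x : ℝ} (h : 1 / (S.n : ℝ) ≤ x) : log (1 + 1 / x) ≤ E := by
  have n := n16 Z
  have x0 : 0 < x := lt_of_lt_of_le (by positivity) h
  have a : 1 / x ≤ S.n := (one_div_le x0 (by linarith)).2 h
  have b : log (1 + 1 / x) ≤ log ((S.n : ℝ) ^ 2) := log_le_log (by positivity) (by nlinarith)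
  rw [log_pow] at b
  exact b.trans (by exact_mod_cast Z.X.lgE)

theorem u00 : 0 < S.u0 := Z.X.sh.u0.1

theorem u0_ge : 1 / (S.n : ℝ) ≤ S.u0 := by
  have X := tx46 Z
  have H := X.cl
  have := X.N0; have := mx0 Z; have := lm0 Z; have u0 := u00 Z; have := X.E0
  have y : Yd KK E Y ≤ 1 / S.C := by
    rw [le_div_iff₀ H.C0]
    have := mul_le_mul_of_nonneg_left ((by linarith [Z.big.CE1, H.C0] : S.C ≤ E ^ KK).trans
      (Z.big.E_le (j := 200) (by norm_num))) Z.Yd0.le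
    linarith [Z.big.EY]
  have a := Z.sx.vh.den (M.xs S) le_rfl (by have := H.atom.2; rw [Md.xs]; linarith)
  have b : lm ≤ E * S.u0 := a.trans (mul_le_mul (Z.sx.vh.dj.2.trans (by linarith [Z.X.CE1, H.C0]))
    ((min_le_left _ _).trans (by linarith)) (le_min (by linarith) (by
      have := H.leg.z1 (S.J - 1); rw [Md.xs]; linarith)) X.E0.le)
  have d := X.lg_mono (lm0 Z) b
  have e := X.lg_mono (by positivity) Z.sx.d0
  revert d e
  lg_norm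
  rw [X.lg_n]
  intro d e
  exact inv_le Z u0 (by linarith [(lg_mx Z).2.1, X.lg_E.2])

theorem ckJ : 0 ≤ M.ck S.J := by
  have := Z.X.ct_nn S.J
  rwa [M29.ct_mid Z.X.cl Z.X.cl.jl_lt Z.X.cl.i3] at this

theorem ckD : Z.S'.C ^ 2 * (Z.N.ck Z.S'.Jp - Z.N.ck Z.S'.J) ≤ (8 * S.C) ^ 2 * E :=
  mul_le_mul_of_nonneg_left (by
    change M.ck S.Jp - M.ck S.J ≤ E
    linarith [ckJ Z, Z.X.sh.ckT]) (sq_nonneg _)

theorem xs_le {k : ℕ} (h : S.J ≤ k) : M.xs S ≤ M.z (k - 1) := Z.X.cl.leg.zm (by omega)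

theorem Zt0 : 0 < Zt E S Y u := mul_pos (pow_pos Z.E0 _) (B2_pos (tx46 Z))

theorem Zt_ge : E ^ 30 * (S.n : ℝ) ^ (-(1 : ℝ) / 11) ≤ Zt E S Y u ∧
    E ^ 30 * min (√S.θ) ((S.n : ℝ) ^ (-(21 : ℝ) / 400)) ≤ Zt E S Y u ∧ E ^ 30 * √u ≤ Zt E S Y u ∧
    E ^ 30 * Xx E Y ^ ((1 : ℝ) / 3) ≤ Zt E S Y u := by
  have X := tx46 Z
  have a := rpow_pos_of_pos X.N0 (-(1 : ℝ) / 11)
  have b : 0 ≤ min (√S.θ) ((S.n : ℝ) ^ (-(21 : ℝ) / 400)) :=
    le_min (sqrt_nonneg _) (rpow_pos_of_pos X.N0 _).le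
  have d := sqrt_nonneg u
  have e := rpow_pos_of_pos X.X0 ((1 : ℝ) / 3)
  refine ⟨?_, ?_, ?_, ?_⟩ <;>
    exact mul_le_mul_of_nonneg_left (by rw [B2]; linarith) (pow_pos X.E0 _).le

theorem lg_Zt : 30 * logb S.n E - 1 / 11 ≤ logb S.n (Zt E S Y u) ∧
    30 * logb S.n E + logb S.n u / 2 ≤ logb S.n (Zt E S Y u) ∧
    30 * logb S.n E + logb S.n (Xx E Y) / 3 ≤ logb S.n (Zt E S Y u) := by
  have X := tx46 Z
  have := X.N0; have := X.E0; have := X.u_pos; have := X.X0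
  have a := X.lg_mono (by positivity) (Zt_ge Z).1
  have b := X.lg_mono (by positivity) (Zt_ge Z).2.2.1
  have d := X.lg_mono (by positivity) (Zt_ge Z).2.2.2
  revert a b d
  lg_norm
  rw [X.lg_n]
  intro a b d
  refine ⟨?_, ?_, ?_⟩ <;> linarith

variable (T : Tp KK E S M lm Y r1 r2)
include T

theorem r10 : 0 < r1 := by
  have := (tx46 Z).N0
  exact (pos_iff_pos_of_mul_pos (lt_of_lt_of_le (by positivity) T.a1)).1 (mul_pos this (mx0 Z))

theorem lg_r1 : -21 / 25 ≤ logb S.n (mx S) + logb S.n r1 ∧ logb S.n r1 ≤ -101 / 200 := by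
  have X := tx46 Z
  have := X.N0; have := mx0 Z; have := r10 Z T
  have a := X.lg_mono (by positivity) T.a1
  have b := X.lg_mono (by positivity) T.a2
  revert a b
  lg_norm
  rw [X.lg_n]
  intro a b
  constructor <;> linarith

theorem r1_ge : 1 / (S.n : ℝ) ≤ r1 :=
  inv_le Z (r10 Z T) (by linarith [(lg_r1 Z T).1, (lg_mx Z).2.1])

theorem lsh_ge {k : ℕ} (h : S.J ≤ k) (h' : r1 ≤ du Z.N k) : lm ≤ lsh Z.N Z.S' k :=
  T.dn _ (xs_le Z h) h'

/-- **the plateau data of the auxiliary model** -/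
theorem pd {ρ Xp : ℝ} (h : r1 < ρ) (hX : 0 < Xp) (hX' : 1 / (S.n : ℝ) ≤ Xp ^ ((1 : ℝ) / 3)) :
    PD Z.S' Z.N (1 / (S.n : ℝ) ^ 2) ρ Xp ((8 * S.C) ^ 2 * E) lm (dm S) (6 * E) := by
  have n0 := (tx46 Z).N0
  have r := (r1_ge Z T).trans h.le
  have p := mul_pos n0 (mx0 Z)
  refine ⟨Z.cl', by positivity, fun k a b => Z.X.sh.mesh k a b.le,
    (Z.sx.ue2.trans (r1_ge Z T)).trans_lt h, mesh_le Z r, mesh_le Z (u0_ge Z), hX, mesh_le Z hX',
    ckD Z, lm0 Z, fun k hk => lsh_ge Z T (mem_Icc.1 (mem_filter.1 hk).1).1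
      (h.le.trans (mem_filter.1 hk).2), dm0 Z, fun k hk => ?_, ?_, ?_⟩
  · have a := (mem_Icc.1 (mem_filter.1 hk).1).1
    have b := h.le.trans (mem_filter.1 hk).2
    rw [dm, div_le_iff₀' p]
    rcases le_total (dl Z.N Z.S' k) (du Z.N k) with e | e
    · have d := lsh_ge Z T a b
      have f : S.u0 ≤ dl Z.N Z.S' k := le_add_of_nonneg_left (sub_nonneg.2 (xs_le Z a))
      rw [lsh, ds, min_eq_left e] at d
      rw [ds, min_eq_left e, sq, ← mul_assoc (Z.S'.den _)]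
      exact ((rpow_le_rpow_of_exponent_le (tx46 Z).N1.le (by norm_num)).trans Z.sx.d0).trans
        (mul_le_mul_of_nonneg_left (mul_le_mul d f (u00 Z).le ((lm0 Z).le.trans d)) p.le)
    · rw [ds, min_eq_right e]
      exact T.dt _ (xs_le Z a) b
  · have : log (1 + 1 / Z.S'.u0) ≤ E := log_le Z (u0_ge Z)
    linarith [log_le Z r]
  · linarith [log_le Z r, log_le Z hX']

theorem jn {ρ Xp : ℝ} (h : r1 ≤ ρ) (hX : Yd KK E Y ≤ Xp) : Jn Z.S' Z.N Xp ρ := by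
  have C0 := Z.X.cl.C0
  have a := Z.sx.vh.dj
  have d0 := Z.X.cl.den0 (M.xs S)
  refine ⟨?_, ?_, Z.sx.big.u0.2.trans hX, fun k b _ e => ?_⟩
  · change 1 ≤ 8 * S.C * S.den (M.xs S)
    have := (div_le_iff₀' C0).1 a.1
    linarith
  · change S.den (M.xs S) ≤ 8 * S.C
    linarith [a.2]
  · have := (inv_le Z (lm0 Z) (by linarith [(lg_lm Z).1, (lg_mx Z).2.1])).trans
      (lsh_ge Z T b (h.trans e))
    exact (div_le_iff₀' (tx46 Z).N0).1 this

theorem fa {ρ Lp : ℝ} (h : r1 ≤ ρ) (hL : E ^ KK ≤ Lp) (i k : ℕ) (a : Z.S'.J ≤ i) (b : i ≤ k)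
    (_ : k ≤ Z.S'.Jp) (e : ρ ≤ du Z.N k) :
    Z.S'.den (Z.N.z (i - 1)) ≤ Lp * (1 + Z.S'.den (Z.N.z (k - 1))) :=
  (Z.sx.fa _ _ (xs_le Z a) (Z.X.cl.leg.zm (show i - 1 ≤ k - 1 by omega)) (by
    have := (r10 Z T).trans_le (h.trans e)
    change 0 < 1 - M.z (k - 1) at this
    linarith)).trans (mul_le_mul_of_nonneg_right hL (by linarith [Z.X.cl.den0 (M.z (k - 1))]))


theorem wden {k : ℕ} (a : S.J ≤ k) (b : k ≤ S.Jp) (e : 2 * r1 ≤ du Z.N k) :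
    Z.S'.w3 1 * Z.S'.den (Z.N.z (k - 1)) ≤ ((S.n : ℝ) ^ (-(21 : ℝ) / 400)) ^ 3 := by
  have X := tx46 Z
  have H := X.cl
  have r0 := r10 Z T
  have d0 : 0 < Z.S'.den (Z.N.z (k - 1)) := H.den0 _
  have := X.N0; have E0 := X.E0; have := w0 Z
  have f := den_le Z.cl' (ckD Z) Z.Q0.le a b (by
      have : Z.S'.ue ≤ r1 := Z.sx.ue2.trans (r1_ge Z T)
      linarith) fun i i1 i2 =>
    Z.sx.fa _ _ (xs_le Z a) (H.leg.zm (show k - 1 ≤ i - 1 by omega))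
      ((H.leg.zm (show i - 1 ≤ S.Jp - 1 from Nat.sub_le_sub_right i2.le 1)).trans_lt Z.sx.zJ)
  have g : 1 + (8 * S.C) ^ 2 * E ≤ E ^ 2 := by nlinarith [Z.X.CE2, Z.X.E3]
  have i : Z.S'.den (Z.N.z (k - 1)) * r1 ≤ E ^ KK * E ^ 2 := by
    linarith [mul_le_mul_of_nonneg_left e d0.le, mul_le_mul_of_nonneg_left g Z.Q0.le]
  have j := X.lg_mono (by positivity) i
  refine X.le_of_lg (by positivity) (by positivity) ?_
  revert j
  lg_norm
  rw [X.lg_n, show ((KK : ℕ) : ℝ) = 10000 by norm_num [KK]]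
  intro j
  linarith [lg_w Z, (lg_mx Z).2.2, (lg_r1 Z T).1, X.lg_E.2]

theorem wden2 {k : ℕ} (a : S.J ≤ k) (e : r2 ≤ 16 * du Z.N k) :
    Z.S'.w3 1 * Z.S'.den (Z.N.z (k - 1)) ≤ (E ^ 3 * (S.n : ℝ) ^ (-(1 : ℝ) / 11)) ^ 3 := by
  have X := tx46 Z
  have d0 : 0 < Z.S'.den (Z.N.z (k - 1)) := X.cl.den0 _
  have := X.N0; have E0 := X.E0; have := w0 Z; have := mm0 Z
  have i : Z.S'.den (Z.N.z (k - 1)) ≤ (S.n : ℝ) ^ ((8 : ℝ) / 11) * (S.θ + u) :=
    (T.up _ (xs_le Z a) e).trans (mul_le_mul_of_nonneg_left (max_le (le_add_of_nonneg_right Z.u0.le)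
      (Z.ν_u.trans (le_add_of_nonneg_left X.cl.θ0.le))) (by positivity))
  have j := X.lg_mono d0 i
  refine X.le_of_lg (by positivity) (by positivity) ?_
  revert j
  lg_norm
  rw [X.lg_n]
  intro j
  linarith [lg_w Z]

theorem node : ∃ k, S.J ≤ k ∧ k ≤ S.Jp ∧ du Z.N k ≤ 2 * r1 ∧ (k = S.J ∨ r1 ≤ du Z.N k) := by
  classical
  have H := Z.X.cl
  have r := r1_ge Z T
  have r0 := r10 Z T
  have p : S.J ≤ S.Jp ∧ du Z.N S.Jp ≤ 2 * r1 :=
    ⟨H.i3, (H.last.trans (Z.sx.ue2.trans r)).trans (by linarith)⟩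
  have ex : ∃ k, S.J ≤ k ∧ du Z.N k ≤ 2 * r1 := ⟨_, p⟩
  have a := Nat.find_spec ex
  have b := Nat.find_min' ex p
  refine ⟨_, a.1, b, a.2, ?_⟩
  rcases a.1.eq_or_lt with e | e
  · exact .inl e.symm
  have d := Nat.find_min ex (show Nat.find ex - 1 < Nat.find ex by omega)
  have f := Z.X.sh.mesh (Nat.find ex - 1) (by omega) (by omega)
  have g := mesh_le Z r
  have i : 0 ≤ 1 / (S.n : ℝ) ^ 2 := by positivity
  rw [not_and, not_le] at d
  have j := d (by omega)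
  refine .inr ?_
  change _ < 1 - M.z _ at j
  change _ ≤ 1 - M.z _
  rw [Md.dx] at f
  linarith

omit T in
theorem H_ck {k : ℕ} (a : S.J ≤ k) (b : k ≤ S.Jp) :
    M.H k - M.H S.J ≤ S.C ^ 2 * S.θ * (M.ck k - M.ck S.J) ∧ M.ck k ≤ M.ck S.Jp ∧
      M.ck S.J ≤ M.ck k := by
  have H := Z.X.cl
  have C0 := H.C0
  have m := Z.X.ct_mono
  refine ⟨?_, ?_, ?_⟩
  · induction k, a using Nat.le_induction with
    | base => simp
    | succ k a ih =>
      have j := H.jl_lt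
      have d := Z.X.sh.cei.up k (by omega) (by omega)
      have e := (div_le_iff₀' C0).1 (H.ckm k (by have := H.i1; omega) (by omega)).1
      rw [Z.X.sh.F1, mul_one] at d
      have f := mul_le_mul (mul_le_mul_of_nonneg_left (H.ms1 (M.s k)) C0.le) e H.v0.le
        (mul_pos C0 H.θ0).le
      linarith [ih (by omega)]
  · have := m b
    rwa [M29.ct_mid H (H.jl_lt.trans_le a) b, M29.ct_mid H (H.jl_lt.trans_le H.i3) le_rfl] at this
  · have := m a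
    rwa [M29.ct_mid H (H.jl_lt.trans_le a) b, M29.ct_mid H H.jl_lt H.i3] at this

theorem ks : ∃ k, k ≤ Z.S'.Jp ∧ du Z.N k ≤ 2 * r1 ∧ min (√(Z.N.H k - Z.N.H Z.S'.J))
    (Z.S'.F * (Z.N.H k - Z.N.H Z.S'.J) / Z.S'.θ) ≤ Zt E S Y u := by
  obtain ⟨k, k1, k2, k3, k4⟩ := node Z T
  have H := Z.X.cl
  have E0 := Z.E0
  have θ0 := H.θ0
  have n0 := H.N0
  have u0 := Z.u0
  have w0 := Z.w0
  obtain ⟨a1, a2, a3⟩ := H_ck Z k1 k2
  have mo := Z.X.Ft_mono Z.ax Z.k0 w0.le (min_le_left _ _)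
  have b1 := mo k2
  have b2 := mo H.jl_lt.le
  rw [M29.Cx.Ft_lo Z.k0 le_rfl] at b2
  have b3 : M29.Cx.Ft S M u (min u D) F S.Jp ≤ u * E ^ 51 := by
    have d : E + 1 ≤ E ^ 51 := le_trans (by nlinarith [Z.X.E3]) (Z.X.Ep (show 2 ≤ 51 by norm_num))
    have := mul_le_mul_of_nonneg_left ((Z.X.ct_le S.Jp).trans d) (sub_nonneg.2 (min_le_left u D))
    rw [M29.Cx.Ft]
    linarith [Z.k0.le]
  refine ⟨k, k2, k3, ?_⟩
  change min (√(M.H k + M29.Cx.Ft S M u (min u D) F k - (M.H S.J + M29.Cx.Ft S M u (min u D) F S.J)))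
    (E ^ 9 * (M.H k + M29.Cx.Ft S M u (min u D) F k - (M.H S.J + M29.Cx.Ft S M u (min u D) F S.J)) /
      (S.θ + u)) ≤ _
  set x := M.H k + M29.Cx.Ft S M u (min u D) F k - (M.H S.J + M29.Cx.Ft S M u (min u D) F S.J)
    with hx
  set Δ := M.ck k - M.ck S.J with hΔ
  have Δ0 : 0 ≤ Δ := sub_nonneg.2 a3
  have Δ1 : Δ ≤ E := by linarith [ckJ Z, Z.X.sh.ckT]
  rcases le_total (S.C ^ 2 * S.θ * Δ) (u * E ^ 51) with e | e
  · refine (min_le_left _ _).trans (le_trans (sqrt_le_iff.2 ⟨by positivity, ?_⟩) (Zt_ge Z).2.2.1)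
    have d : 2 * E ^ 51 ≤ E ^ 60 := le_trans (by
      linarith [mul_le_mul_of_nonneg_right (show 2 ≤ E by linarith [Z.X.E3]) (pow_pos E0 51).le])
      (Z.X.Ep (show 52 ≤ 60 by norm_num))
    rw [mul_pow, sq_sqrt u0.le]
    linarith [mul_le_mul_of_nonneg_left d u0.le]
  have f : x ≤ E * S.θ * Δ := by
    linarith [mul_le_mul_of_nonneg_right Z.X.CE2 (mul_nonneg θ0.le Δ0),
      mul_nonneg (mul_pos (pow_pos H.C0 2) θ0).le Δ0]
  have g : √x ≤ E ^ 30 * √S.θ := sqrt_le_iff.2 ⟨by positivity, by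
    rw [mul_pow, sq_sqrt θ0.le]
    linarith [mul_le_mul_of_nonneg_left Δ1 (mul_pos E0 θ0).le,
      mul_le_mul_of_nonneg_right (Z.X.Ep (show 2 ≤ 60 by norm_num)) θ0.le]⟩
  refine le_trans ?_ (Zt_ge Z).2.1
  rw [mul_min_of_nonneg _ _ (pow_pos E0 30).le]
  refine le_min ((min_le_left _ _).trans g) ?_
  rcases T.c1 with i | i
  · refine ((min_le_left _ _).trans g).trans (mul_le_mul_of_nonneg_left
      (sqrt_le_iff.2 ⟨by positivity, i.trans_eq ?_⟩) (by positivity))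
    rw [← rpow_natCast, ← rpow_mul n0.le]
    norm_num
  · have j : Δ ≤ (S.n : ℝ) ^ (-(21 : ℝ) / 400) := by
      rcases k4 with rfl | k4
      · rw [hΔ, sub_self]
        positivity
      · exact i k k1 k2 k4
    refine (min_le_right _ _).trans ?_
    rw [div_le_iff₀ (by positivity)]
    have p := mul_le_mul (Z.X.Ep (show 10 ≤ 30 by norm_num)) j Δ0 (by positivity)
    have q := mul_le_mul p (le_add_of_nonneg_right u0.le : S.θ ≤ S.θ + u) θ0.le (by positivity)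
    linarith [mul_le_mul_of_nonneg_left f (pow_pos E0 9).le]

variable {m : ℕ} {a : ℝ}

theorem ps (ht : TtAt (E ^ 360) E Z.S' Z.N m a) (hm : 0 < m) (hX : Z.N.Phi S m a ≤ Xx E Y)
    (rev : ∃ k1, Z.S'.Jp ≤ k1 ∧ k1 ≤ Z.N.N ∧ 1 / Z.S'.C ≤ ((k1 : ℝ) - Z.S'.Jp) * Z.S'.v ∧
      ∀ k, Z.S'.Jp ≤ k → k < k1 → Z.S'.θ * Z.S'.v / (Z.S'.C * Z.S'.F) ≤ Z.N.H (k + 1) - Z.N.H k)
    (hZ : E ^ 360 * Zt E S Y u ≤ 1) :
    PS (E ^ 360) E Z.S' Z.N m a (Zt E S Y u) (E ^ 3400) (2 * r1) (Zt E S Y u) (Zt E S Y u)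
      (1 / (S.n : ℝ) ^ 2) ((8 * S.C) ^ 2 * E) lm (dm S) (6 * E) := by
  have X := tx46 Z
  have H := X.cl
  have n0 := X.N0; have E0 := X.E0; have w := w0 Z; have l0 := lm0 Z; have d0 := dm0 Z
  have z0 := Zt0 Z; have u0 := Z.u0; have C0 := H.C0; have y0 := Z.Yd0; have r0 := r10 Z T
  have Y0 := Z.Y0; have s0 := X.sj0
  obtain ⟨z1, z2, z3⟩ := lg_Zt Z
  obtain ⟨e1, e2⟩ := X.lg_E
  obtain ⟨m1, m2, m3⟩ := lg_mx Z
  obtain ⟨x1, x2⟩ := X.lg_X
  obtain ⟨y1, y2⟩ := X.lg_Y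
  obtain ⟨l1, l2⟩ := lg_lm Z
  have lw := lg_w Z
  have ld := lg_dm Z
  have c8 := X.lg_C.2
  have c6 := (X.lg_num (x := 6) (by norm_num) (by norm_num)).2
  have yd := X.lg_Yd
  have Z1 : Zt E S Y u ≤ 1 := (le_mul_of_one_le_left z0.le (one_le_pow₀ X.E1)).trans hZ
  have L3 : (E ^ 3400) ^ 3 = E ^ 10200 := by rw [← pow_mul]
  have YZ : Yd KK E Y ≤ Zt E S Y u ^ 3 := X.le_of_lg y0 (by positivity) (by lg_norm; linarith)
  have sZ : E ^ 360 * M.s S.jl ≤ Zt E S Y u :=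
    X.le_of_lg (by positivity) z0 (by lg_norm; linarith [X.lg_sj.2.1])
  have wZ : Z.S'.w3 (Zt E S Y u) ≤ Zt E S Y u ^ 6 := by
    have p := Z.mu0 z0.le
    have q := X.lg_mono X.nu0 (Z.nu_u.trans (le_add_of_nonneg_left (H.ms_pos z0.le).le))
    rw [X.lg_nu] at q
    change E ^ 9 / (S.n * Zt E S Y u * (S.ms (Zt E S Y u) + u)) ≤ _
    refine X.le_of_lg (by positivity) (by positivity) ?_
    lg_norm
    rw [X.lg_n]
    linarith
  exact
    { tt := ht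
      pd := pd Z T (by linarith) (by positivity) (by rw [third z0.le]; exact inv_le Z z0 (by linarith))
      jj := Z.X.sh.jj
      m0 := hm
      Z0 := z0
      ZE := hZ
      E1 := le_trans (by change 72 * (8 * S.C) ≤ E; linarith [Z.X.CE1]) (Z.X.E_le (by norm_num))
      Λ1 := X.E1
      L0 := one_le_pow₀ X.E1
      L1 := (Z.X.Ep (by norm_num)).trans L3.ge
      Ln := L3.le.trans ((Z.X.Ep (by norm_num [KK])).trans Z.sx.sm)
      HJ := by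
        have := Z.X.Ft_le Z.k0 Z.w0.le Z.u2 ((Z.wW (by norm_num)).trans
          (pow_le_one₀ Z.X.W0.le Z.W1)) le_rfl
        change M.H S.Jp + M29.Cx.Ft S M u (min u D) F S.Jp ≤ 8 * S.C
        linarith [Z.sx.HJ, H.C1]
      l0s := sZ
      l0w := wZ.trans (pow_le_pow_of_le_one z0.le Z1 (by norm_num))
      l0Z := le_rfl
      ms := fun t h => by
        have p := Z.sx.ml t (((le_mul_of_one_le_left s0.le (one_le_pow₀ X.E1)).trans sZ).trans h)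
        have q := mul_le_mul_of_nonneg_right (Z.X.Ep (show 9 ≤ 60 * KK by norm_num [KK]))
          (H.ms_pos (z0.le.trans h)).le
        have r : E ^ 9 * u ≤ Zt E S Y u ^ 2 :=
          X.le_of_lg (by positivity) (by positivity) (by lg_norm; linarith)
        change E ^ 9 * (S.ms t + u) ≤ _
        linarith
      wZ := wZ
      rev := rev
      γ0 := (abs_le_of_sq_le_sq' (Z.sx.big.flat.trans (YZ.trans
        (pow_le_pow_of_le_one z0.le Z1 (by norm_num)))) z0.le).2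
      γ1 := le_rfl
      fa := fa Z T (by linarith) ((Z.X.Ep (by norm_num [KK])).trans L3.ge)
      wl := X.le_of_lg w (by positivity) (by lg_norm; linarith)
      n1 := X.le_of_lg (by positivity) (by positivity) (by
        rw [logb_mul w.ne' (by positivity), logb_mul (by positivity) E0.ne', logb_pow, logb_pow]
        push_cast
        linarith)
      n2 := X.le_of_lg (by positivity) z0 (by lg_norm; linarith)
      n3 := X.le_of_lg (by positivity) (by positivity) (by lg_norm; linarith)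
      n4 := ⟨by linarith [X.E1], (le_trans (by nlinarith [Z.X.E3])
        (Z.X.Ep (show 2 ≤ 10200 by norm_num))).trans L3.ge⟩
      phi := hX.trans (X.le_of_lg X.X0 (by positivity) (by lg_norm; linarith))
      sqG := Z.sqG.trans (X.le_of_lg (by positivity) (by positivity) (by lg_norm; linarith))
      jn := jn Z T (by linarith) YZ
      nZ := X.le_of_lg (x := 1 / √S.n) (by positivity) z0 (by lg_norm; rw [X.lg_n]; linarith)
      ks := ks Z T }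

/-- **the location below the upper end** -/
theorem vt (ht : TtAt (E ^ 360) E Z.S' Z.N m a) (hm : 0 < m) (hX : Z.N.Phi S m a ≤ Xx E Y)
    (rev : ∃ k1, Z.S'.Jp ≤ k1 ∧ k1 ≤ Z.N.N ∧ 1 / Z.S'.C ≤ ((k1 : ℝ) - Z.S'.Jp) * Z.S'.v ∧
      ∀ k, Z.S'.Jp ≤ k → k < k1 → Z.S'.θ * Z.S'.v / (Z.S'.C * Z.S'.F) ≤ Z.N.H (k + 1) - Z.N.H k) :
    VT Z.S' Z.N m a (8 * r1) (Vt E S Y u) ∧ VT Z.S' Z.N m a (r2 / 8) (V2 E S Y u) := by
  have X := tx46 Z
  have n0 := X.N0; have E0 := X.E0; have w := w0 Z; have d0 := dm0 Z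
  have z0 := Zt0 Z; have r0 := r10 Z T; have b0 := B2_pos X
  rcases le_total (E ^ 360 * Zt E S Y u) 1 with hZ | hZ
  swap
  · have h : 1 ≤ V2 E S Y u := hZ.trans (by
      rw [Zt, ← mul_assoc, ← pow_add]
      exact mul_le_mul_of_nonneg_right (Z.X.Ep (by norm_num)) b0.le)
    exact ⟨fun k _ _ _ => (Tm71.del_le_one hm k).trans (h.trans (V2_le X)),
      fun k _ _ _ => (Tm71.del_le_one hm k).trans h⟩
  obtain ⟨z1, z2, z3⟩ := lg_Zt Z
  obtain ⟨e1, e2⟩ := X.lg_E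
  obtain ⟨m1, m2, m3⟩ := lg_mx Z
  have lw := lg_w Z
  have ld := lg_dm Z
  have ln := X.lg_n
  have YZ : Yd KK E Y ≤ Zt E S Y u ^ 2 := X.le_of_lg Z.Yd0 (by positivity) (by
    lg_norm
    linarith [X.lg_Yd, X.lg_X.1, X.lg_Y.2])
  have r := (mul_le_mul_of_nonneg_right ((by linarith [Z.X.E3] : 256 ≤ E).trans Z.E_Q) r0.le).trans T.a3
  obtain ⟨h1, h2⟩ := (ps Z T ht hm hX rev hZ).four (ρ1 := r2 / 32)
    (y1 := (S.n : ℝ) ^ (-(1 : ℝ) / 25)) (y2 := (S.n : ℝ) ^ (-(21 : ℝ) / 400))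
    (y3 := (S.n : ℝ) ^ (-(3 : ℝ) / 40)) (p := E ^ 3 * (S.n : ℝ) ^ (-(1 : ℝ) / 11))
    (by linarith) (by linarith [T.a4]) (by positivity)
    (rpow_le_rpow_of_exponent_le X.N1.le (by norm_num)) (by positivity)
    (X.le_of_lg (by positivity) (by positivity) (by lg_norm; rw [ln]; linarith))
    ((mul_le_mul_of_nonneg_right (Z.X.Ep (by norm_num)) (by positivity)).trans (Zt_ge Z).1)
    (X.le_of_lg (by positivity) (by positivity) (by lg_norm; rw [ln]; linarith))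
    (X.le_of_lg (by positivity) (by positivity) (by lg_norm; rw [ln]; linarith))
    (X.le_of_lg (by positivity) (by positivity) (by lg_norm; rw [ln]; linarith))
    (X.le_of_lg (by positivity) (by positivity) (by lg_norm; rw [ln]; linarith))
    (fun k a b e => wden Z T a b (by linarith)) (fun k a _ e => wden2 Z T a (by linarith))
  have H : 20 * E * (E ^ 3400) ^ 3 ≤ E ^ 10202 := by
    have p : ∀ i : ℕ, 20 * E * E ^ i ≤ E ^ (i + 2) := fun i => by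
      linarith [mul_le_mul_of_nonneg_right (show 20 ≤ E by linarith [Z.X.E3])
        (mul_pos E0 (pow_pos E0 i)).le, show E ^ (i + 2) = E * (E * E ^ i) by ring]
    rw [← pow_mul]
    exact p _
  have H0 : 0 ≤ 20 * E * (E ^ 3400) ^ 3 := by positivity
  refine ⟨h1.mono (by linarith) ?_, h2.mono (by linarith) ?_⟩
  · have p := rpow_pos_of_pos n0 (-(21 : ℝ) / 400)
    have q : (S.n : ℝ) ^ (-(21 : ℝ) / 400) + Zt E S Y u ≤
        E ^ 30 * (B2 E S Y u + (S.n : ℝ) ^ (-(21 : ℝ) / 400)) := by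
      rw [Zt]
      linarith [le_mul_of_one_le_left p.le (one_le_pow₀ (n := 30) X.E1)]
    refine (mul_le_mul (pow_le_pow_left₀ H0 H 2) q (by positivity) (by positivity)).trans ?_
    rw [← mul_assoc, ← pow_mul, ← pow_add]
    exact mul_le_mul_of_nonneg_right (Z.X.Ep (by norm_num)) (by positivity)
  · have q : 2 * Zt E S Y u ≤ E ^ 31 * B2 E S Y u := by
      rw [Zt, pow_succ' E 30, mul_assoc E]
      exact mul_le_mul_of_nonneg_right (by linarith [Z.X.E3]) (by positivity)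
    refine (mul_le_mul (pow_le_pow_left₀ H0 H 4) q (by positivity) (by positivity)).trans ?_
    rw [← mul_assoc, ← pow_mul, ← pow_add]
    exact mul_le_mul_of_nonneg_right (Z.X.Ep (by norm_num)) b0.le

end

theorem VT.ap2 {m : ℕ} {a V u1 u2 r : ℝ} (h : VT S M m a (r / 8) V) (hr : r ≤ u2) :
    Ap2 S M m a V u1 u2 := fun k a b _ e => h k a b (by linarith)



end Crest.Agent.T156.Alt.Tt46

end
end

-- ▼ part T156/TermP_72
section

/-!
# Row 156, SR, terminal statement: the sizes of the plateau, class level (helper72)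
-/

set_option autoImplicit false
set_option linter.unusedSectionVars false

noncomputable section

namespace Crest.Agent.T156.Alt.Tp72

open Real Finset L69 Ps64

theorem rp32 {R : ℝ} (h : 0 ≤ R) : R ^ (((2 : ℕ) : ℝ) - 1 / 2) = √(R ^ 3) := by
  rw [sqrt_eq_rpow, ← rpow_natCast, ← rpow_mul h]
  norm_num

theorem rp52 {R : ℝ} (h : 0 ≤ R) : R ^ (((3 : ℕ) : ℝ) - 1 / 2) = √(R ^ 5) := by
  rw [sqrt_eq_rpow, ← rpow_natCast, ← rpow_mul h]
  norm_num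

theorem cube_add {a b c : ℝ} (ha : 0 ≤ a) (hb : 0 ≤ b) (hc : 0 ≤ c) :
    (a + b + c) ^ 3 ≤ 9 * (a ^ 3 + b ^ 3 + c ^ 3) := by
  nlinarith [mul_nonneg ha (sq_nonneg (a - b)), mul_nonneg hb (sq_nonneg (a - b)),
    mul_nonneg ha (sq_nonneg (a - c)), mul_nonneg hc (sq_nonneg (a - c)),
    mul_nonneg hb (sq_nonneg (b - c)), mul_nonneg hc (sq_nonneg (b - c)),
    mul_nonneg ha (sq_nonneg (b - c)), mul_nonneg hb (sq_nonneg (a - c)),
    mul_nonneg hc (sq_nonneg (a - b))]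

theorem Lp_pow {L : ℝ} (hL : 0 < L) (p : ℕ) : ((L ^ 3) ^ ((2 : ℝ) / 3)) ^ p = L ^ (2 * p) := by
  rw [← rpow_natCast L 3, ← rpow_mul hL.le, pow_mul, ← rpow_natCast L 2]
  norm_num

/-- the two parts of the rise -/
def R1 (S : Sc) (M : Md) (Xp : ℝ) (k : ℕ) : ℝ :=
  √(Xp / max (dl M S k - S.u0) (Xp ^ ((1 : ℝ) / 3)))
def R2 (M : Md) (Xp Vt : ℝ) (k : ℕ) : ℝ := min Vt (√(Xp / du M k))

theorem Rp_eq (S : Sc) (M : Md) (Xp Vt γ : ℝ) (k : ℕ) :
    Rp M S Xp Vt γ k = R1 S M Xp k + R2 M Xp Vt k + γ := rfl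

/-- small data of the plateau -/
structure PX (S : Sc) (Xp Vt Vm γ w : ℝ) : Prop where
  u0 : S.u0 ≤ Xp ^ ((1 : ℝ) / 3)
  x1 : 2 * S.C * Xp ^ ((1 : ℝ) / 3) ≤ 1
  γ0 : 0 ≤ γ
  γ1 : γ ≤ √Xp
  V0 : 0 ≤ Vt
  V1 : Vt ≤ Vm
  V2 : 1 ≤ Vm
  hw : S.w3 1 ≤ w

section cls

variable {S : Sc} {M : Md} {h u1 Xp D lm dm Λ Vt Vm γ w : ℝ} (P : PD S M h u1 Xp D lm dm Λ)
  (H : PX S Xp Vt Vm γ w) {k : ℕ}
include P H

theorem x0 : 0 < Xp ^ ((1 : ℝ) / 3) := rpow_pos_of_pos P.X0 _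
theorem x1 : Xp ^ ((1 : ℝ) / 3) ≤ 1 := by nlinarith [H.x1, P.cl.C1, x0 P H]
theorem y0 : 0 < √Xp := sqrt_pos.2 P.X0
theorem y_x : √Xp ≤ Xp ^ ((1 : ℝ) / 3) := by
  have a := x0 P H
  refine sqrt_le_iff.2 ⟨a.le, ?_⟩
  nth_rewrite 1 [← cube3 P.X0.le]
  exact pow_le_pow_of_le_one a.le (x1 P H) (by norm_num)
theorem x_y : (Xp ^ ((1 : ℝ) / 3)) ^ 2 ≤ √Xp := by
  have a := x0 P H
  refine le_sqrt_of_sq_le ?_
  nth_rewrite 2 [← cube3 P.X0.le]
  rw [← pow_mul]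
  exact pow_le_pow_of_le_one a.le (x1 P H) (by norm_num)
theorem w0' : 0 < w := P.w0.trans_le H.hw
theorem du1 (k : ℕ) : du M k ≤ 1 := by rw [du]; linarith [P.cl.z_pos (k - 1)]
theorem ds1 (k : ℕ) : ds M S k ≤ 1 := (min_le_right _ _).trans (du1 P H k)

theorem R1_x (k : ℕ) : R1 S M Xp k ≤ Xp ^ ((1 : ℝ) / 3) := by
  have p0 := x0 P H
  have p3 := cube3 P.X0.le
  refine sqrt_le_iff.2 ⟨p0.le, (div_le_div_of_nonneg_left P.X0.le p0 (le_max_right _ _)).trans ?_⟩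
  rw [div_le_iff₀ p0]
  nlinarith

theorem R1_sq (hk : k ∈ nd S M u1) : R1 S M Xp k ^ 2 ≤ 2 * Xp / ds M S k := by
  have p0 := x0 P H
  have s0 := P.ds0 hk
  have X0 := P.X0
  have c1 := le_max_left (dl M S k - S.u0) (Xp ^ ((1 : ℝ) / 3))
  have c2 := le_max_right (dl M S k - S.u0) (Xp ^ ((1 : ℝ) / 3))
  have c3 : ds M S k ≤ dl M S k := min_le_left _ _
  rw [R1, sq_sqrt (by positivity), div_le_div_iff₀ (by positivity) s0]
  nlinarith [H.u0]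

theorem R20 (k : ℕ) : 0 ≤ R2 M Xp Vt k := le_min H.V0 (sqrt_nonneg _)

theorem R2_le (hk : k ∈ nd S M u1) : R2 M Xp Vt k ≤ √Xp / √(ds M S k) := by
  rw [← sqrt_div P.X0.le]
  exact (min_le_right _ _).trans
    (sqrt_le_sqrt (div_le_div_of_nonneg_left P.X0.le (P.ds0 hk) (min_le_right _ _)))

theorem R2_sq (hk : k ∈ nd S M u1) : R2 M Xp Vt k ^ 2 ≤ Xp / ds M S k := by
  have a := pow_le_pow_left₀ (R20 P H k) (R2_le P H hk) 2
  rwa [div_pow, sq_sqrt P.X0.le, sq_sqrt (P.ds0 hk).le] at a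

/-- the synchronisation part -/
theorem a0_le' (hk : k ∈ nd S M u1) : a0 S M Xp Vt γ k ≤
    w * S.den (M.z (k - 1)) + 16 * Vm * (w / lm) * √Xp / √(ds M S k) ^ 3 := by
  have d0 := P.cl.den0 (M.z (k - 1))
  have s0 := P.ds0 hk
  have l0 := P.lm0
  have r0 := sqrt_pos.2 s0
  have r1 : √(ds M S k) ≤ 1 := sqrt_le_one.2 (ds1 P H k)
  have y0 := y0 P H
  have w0 := w0' P H
  have V0 : 0 < Vm := one_pos.trans_le H.V2
  have a : √Xp ≤ Vm * (√Xp / √(ds M S k)) :=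
    (le_div_self y0.le r0 r1).trans (le_mul_of_one_le_left (by positivity) H.V2)
  have b1 := pow_le_pow_left₀ (sqrt_nonneg _) (R1_x P H k) 2
  have b2 : R2 M Xp Vt k ^ 2 ≤ Vm * (√Xp / √(ds M S k)) := by
    rw [sq]
    exact mul_le_mul ((min_le_left _ _).trans H.V1) (R2_le P H hk) (R20 P H k) V0.le
  have b3 := pow_le_pow_left₀ H.γ0 (H.γ1.trans (y_x P H)) 2
  have b : (Rp M S Xp Vt γ k + Xp ^ ((1 : ℝ) / 3)) ^ 2 ≤ 16 * (Vm * (√Xp / √(ds M S k))) := by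
    have c1 := x_y P H
    rw [Rp_eq]
    change R1 S M Xp k ^ 2 ≤ _ at b1
    generalize R1 S M Xp k = p at *
    generalize R2 M Xp Vt k = q at *
    generalize Xp ^ ((1 : ℝ) / 3) = x at *
    nlinarith [sq_nonneg (p - q), sq_nonneg (p - γ), sq_nonneg (p - x), sq_nonneg (q - γ),
      sq_nonneg (q - x), sq_nonneg (γ - x)]
  have e : √(ds M S k) ^ 3 = √(ds M S k) * ds M S k := by rw [pow_succ', sq_sqrt s0.le]
  calc _ ≤ w * (S.den (M.z (k - 1)) + 16 * (Vm * (√Xp / √(ds M S k))) / (ds M S k * lm)) :=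
        mul_le_mul H.hw (add_le_add le_rfl (div_le_div₀ (by positivity) b (by positivity)
          (by nlinarith [mul_le_mul_of_nonneg_left (P.lm1 k hk) s0.le]))) (by positivity) w0.le
    _ = _ := by rw [e]; field_simp

theorem ap_sq {s q : ℝ} (hs : 0 < s) (hq : 0 ≤ q) (hq3 : 16 * Vm * (w / lm) * √Xp ≤ q ^ 3)
    (hk : k ∈ nd S M u1) : ap M S Xp Vt γ k ^ 2 ≤ 4 * (2 / (3 * s) * (w * S.den (M.z (k - 1))) +
      s ^ 2 / 3 + q ^ 2 / ds M S k + aB S M k ^ 2 + w / lm) := by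
  have d0 := P.cl.den0 (M.z (k - 1))
  have s0 := P.ds0 hk
  have l0 := P.lm0
  have r0 := sqrt_pos.2 s0
  have w0 := w0' P H
  have a1 := third_nn (w * S.den (M.z (k - 1)))
  have a2 := young a1 hs
  have a3 := cube3 (show 0 ≤ w * S.den (M.z (k - 1)) by positivity)
  rw [a3] at a2
  have q0 : 0 ≤ q / √(ds M S k) := by positivity
  have a4 : a0 S M Xp Vt γ k ^ ((1 : ℝ) / 3) ≤
      (w * S.den (M.z (k - 1))) ^ ((1 : ℝ) / 3) + q / √(ds M S k) := by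
    refine le_of_pow_le_pow_left₀ three_ne_zero (by positivity) ?_
    rw [cube3 (P.a00 k)]
    refine ((a0_le' P H hk).trans ?_).trans (pow_add_pow_le a1 q0 three_ne_zero)
    rw [a3, div_pow]
    gcongr
  have a5 : (q / √(ds M S k)) ^ 2 = q ^ 2 / ds M S k := by rw [div_pow, sq_sqrt s0.le]
  have a6 := pow_le_pow_left₀ (sqrt_nonneg _) (P.aC_le H.hw hk) 2
  rw [sq_sqrt (show 0 ≤ w / lm by positivity)] at a6
  have a7 := pow_le_pow_left₀ (P.ap0 (Vt := Vt) (γ := γ) k) (show ap M S Xp Vt γ k ≤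
    (w * S.den (M.z (k - 1))) ^ ((1 : ℝ) / 3) + q / √(ds M S k) + aB S M k +
      √(S.w3 1 / lsh M S k) by rw [ap_eq0]; linarith) 2
  generalize (w * S.den (M.z (k - 1))) ^ ((1 : ℝ) / 3) = a at *
  generalize q / √(ds M S k) = b at *
  generalize aB S M k = c at *
  generalize √(S.w3 1 / lsh M S k) = d at *
  nlinarith [sq_nonneg (a - b), sq_nonneg (a - c), sq_nonneg (a - d), sq_nonneg (b - c),
    sq_nonneg (b - d), sq_nonneg (c - d)]

theorem sum_ap2' {s q : ℝ} (hs : 0 < s) (hs3 : w * D ≤ s ^ 3) (hq : 0 ≤ q)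
    (hq3 : 16 * Vm * (w / lm) * √Xp ≤ q ^ 3) : ∑ k ∈ nd S M u1, dx M k * ap M S Xp Vt γ k ^ 2 ≤
      4 * (s ^ 2 + q ^ 2 * Λ + w / dm * (w / lm * Λ) + w / lm) := by
  have w0 := w0' P H
  have l0 := P.lm0
  calc _ ≤ ∑ k ∈ nd S M u1, 4 * (2 * w / (3 * s) * (dx M k * S.den (M.z (k - 1))) +
          (s ^ 2 / 3 + w / lm) * dx M k + q ^ 2 * (dx M k / ds M S k) +
          dx M k * aB S M k ^ (1 + 1)) := sum_le_sum fun k hk =>
        (mul_le_mul_of_nonneg_left (ap_sq P H hs hq hq3 hk) (P.dx0 k)).trans_eq (by ring)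
    _ ≤ _ := by
        rw [← mul_sum, sum_add_distrib, sum_add_distrib, sum_add_distrib, ← mul_sum, ← mul_sum,
          ← mul_sum]
        have c1 := mul_le_mul_of_nonneg_left P.sum_den (by positivity : 0 ≤ 2 * w / (3 * s))
        have c2 := mul_le_mul_of_nonneg_left P.sum_one (by positivity : 0 ≤ s ^ 2 / 3 + w / lm)
        have c3 := mul_le_mul_of_nonneg_left P.sum_ds (sq_nonneg q)
        have c4 := P.sum_aB H.hw 1
        have c5 : 2 * w / (3 * s) * D ≤ 2 * s ^ 2 / 3 := by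
          rw [div_mul_eq_mul_div, div_le_div_iff₀ (by positivity) (by norm_num)]
          nlinarith
        rw [pow_one] at c4
        linarith

/-- the cake term of `Np 2` -/
theorem cake2 {b : ℝ} (hb : 0 ≤ b) (hb2 : 27 * Vm * (w / lm) * Xp ≤ b ^ 2) (hk : k ∈ nd S M u1) :
    √(aB S M k) * Rp M S Xp Vt γ k ^ (((2 : ℕ) : ℝ) - 1 / 2) ≤ b / ds M S k := by
  have s0 := P.ds0 hk
  have l0 := P.lm0
  have w0 := w0' P H
  have X0 := P.X0
  have R0 := P.Rp0 H.V0 H.γ0 k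
  have V0 : 0 < Vm := one_pos.trans_le H.V2
  have a : Xp ≤ Vm * (Xp / ds M S k) :=
    (le_div_self X0.le s0 (ds1 P H k)).trans (le_mul_of_one_le_left (by positivity) H.V2)
  have b1 := pow_le_pow_left₀ (sqrt_nonneg _) (R1_x P H k) 3
  have b2 : R2 M Xp Vt k ^ 3 ≤ Vm * (Xp / ds M S k) := by
    rw [pow_succ']
    exact mul_le_mul ((min_le_left _ _).trans H.V1) (R2_sq P H hk) (sq_nonneg _) V0.le
  have b3 := pow_le_pow_left₀ H.γ0 (H.γ1.trans (y_x P H)) 3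
  rw [cube3 X0.le] at b1 b3
  have c : Rp M S Xp Vt γ k ^ 3 ≤ 27 * (Vm * (Xp / ds M S k)) := by
    have := cube_add (sqrt_nonneg (Xp / max (dl M S k - S.u0) (Xp ^ ((1 : ℝ) / 3)))) (R20 P H k) H.γ0
    rw [Rp_eq, R1]
    linarith
  rw [rp32 R0, ← sqrt_mul (P.aB0 k)]
  refine sqrt_le_iff.2 ⟨by positivity, ?_⟩
  calc _ ≤ w / lm / ds M S k * (27 * (Vm * (Xp / ds M S k))) :=
        mul_le_mul (P.aB_le H.hw hk).2 c (by positivity) (by positivity)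
    _ = 27 * Vm * (w / lm) * Xp / ds M S k ^ 2 := by field_simp
    _ ≤ _ := by rw [div_pow]; gcongr

/-- **`Np 2`** -/
theorem np2 {s q b L : ℝ} (hs : 0 < s) (hs3 : w * D ≤ s ^ 3) (hq : 0 ≤ q)
    (hq3 : 16 * Vm * (w / lm) * √Xp ≤ q ^ 3) (hb : 0 ≤ b) (hb2 : 27 * Vm * (w / lm) * Xp ≤ b ^ 2)
    (hL : 0 < L) : Np M S Xp Vt γ u1 (L ^ 3) 2 ≤
      u1 + (L ^ 4 * (4 * (s ^ 2 + q ^ 2 * Λ + w / dm * (w / lm * Λ) + w / lm)) +
        min ((9 * Xp * Λ + 3 * γ ^ 2) / L ^ 3) (b * Λ)) := by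
  have a1 := mul_le_mul_of_nonneg_left (sum_ap2' P H hs hs3 hq hq3) (pow_pos hL 4).le
  rw [Np]
  simp only [mul_add, sum_add_distrib, mul_pow, Lp_pow hL]
  refine add_le_add le_rfl (add_le_add ?_ (le_min ?_ ?_))
  · refine le_trans (le_of_eq ?_) (a1.trans_eq (by ring))
    rw [mul_sum]
    exact sum_congr rfl fun k _ => by ring
  · refine le_trans ?_ (div_le_div_of_nonneg_right (P.sum_Rp (γ := γ) H.V0) (pow_pos hL 3).le)
    rw [sum_div]
    exact sum_le_sum fun k _ =>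
      (mul_le_mul_of_nonneg_left (min_le_left _ _) (P.dx0 k)).trans_eq (by ring)
  · refine le_trans ?_ (mul_le_mul_of_nonneg_left P.sum_ds hb)
    rw [mul_sum]
    exact sum_le_sum fun k hk => (mul_le_mul_of_nonneg_left
      ((min_le_right _ _).trans (cake2 P H hb hb2 hk)) (P.dx0 k)).trans_eq (by ring)

/-- a large upper rise lives on an upper shell -/
theorem ds_du (hk : k ∈ nd S M u1) (hR : Xp ^ ((1 : ℝ) / 3) < R2 M Xp Vt k) :
    ds M S k = du M k := by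
  refine min_eq_right (le_of_not_gt fun c => ?_)
  have x0 := x0 P H
  have C0 := P.cl.C0
  have u0 := P.u10.trans_le (P.lt hk).2.2
  have a := P.cl.atom.2
  have b : 1 / S.C ≤ 2 * du M k := by
    simp only [dl, du] at c ⊢
    linarith [P.h0, P.hu0]
  rw [div_le_iff₀ C0] at b
  have e : √(Xp / du M k) ≤ Xp ^ ((1 : ℝ) / 3) := by
    refine sqrt_le_iff.2 ⟨x0.le, ?_⟩
    rw [div_le_iff₀ u0]
    nth_rewrite 1 [← cube3 P.X0.le]
    have f := mul_le_mul b H.x1 (by positivity) (by positivity)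
    generalize Xp ^ ((1 : ℝ) / 3) = x at *
    have g : x ≤ du M k := by nlinarith
    nlinarith
  exact absurd ((min_le_right _ _).trans e) (not_le.2 hR)

/-- the cake term of `Np 3` -/
theorem cake3 {a V Q b : ℝ} (ha : Xp ^ ((1 : ℝ) / 3) ≤ a) (hV : Vt ≤ a + V) (hb : 0 ≤ b)
    (hQ : ∀ k ∈ nd S M u1, S.w3 1 ≤ Q * (S.den (M.z (k - 1)) * (du M k * √(du M k))))
    (hb2 : 32 * V ^ 2 * √Xp ^ 3 * Q ≤ b ^ 2) (hk : k ∈ nd S M u1) :
    √(aB S M k) * Rp M S Xp Vt γ k ^ (((3 : ℕ) : ℝ) - 1 / 2) ≤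
      √(w / lm) * ((Rp M S Xp Vt γ k ^ 2 + 216 * a ^ 3 / ds M S k) / 2) + b / ds M S k := by
  have d0 := P.cl.den0 (M.z (k - 1))
  have s0 := P.ds0 hk
  have l0 := P.lm0
  have w0 := w0' P H
  have x0 := x0 P H
  have y0 := y0 P H
  have a0 := x0.trans_le ha
  have R0 := P.Rp0 H.V0 H.γ0 k
  rw [rp52 R0, ← sqrt_mul (P.aB0 k)]
  rcases le_or_gt (Rp M S Xp Vt γ k) (6 * a) with c | c
  · refine le_add_of_le_of_nonneg (sqrt_le_iff.2 ⟨by positivity, ?_⟩) (by positivity)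
    have c3 : Rp M S Xp Vt γ k ^ 3 / ds M S k ≤ 216 * a ^ 3 / ds M S k :=
      div_le_div_of_nonneg_right ((pow_le_pow_left₀ R0 c 3).trans_eq (by ring)) s0.le
    rw [mul_pow, sq_sqrt (by positivity)]
    calc _ ≤ w / lm / ds M S k * Rp M S Xp Vt γ k ^ 5 :=
          mul_le_mul_of_nonneg_right (P.aB_le H.hw hk).2 (by positivity)
      _ = w / lm * (Rp M S Xp Vt γ k ^ 2 * (Rp M S Xp Vt γ k ^ 3 / ds M S k)) := by field_simp
      _ ≤ w / lm * (Rp M S Xp Vt γ k ^ 2 * (216 * a ^ 3 / ds M S k)) := by gcongr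
      _ ≤ _ := mul_le_mul_of_nonneg_left (by
          nlinarith [sq_nonneg (Rp M S Xp Vt γ k ^ 2 - 216 * a ^ 3 / ds M S k)]) (by positivity)
  · refine le_add_of_nonneg_of_le (by positivity) (sqrt_le_iff.2 ⟨by positivity, ?_⟩)
    have b1 := R1_x P H k
    have b2 := H.γ1.trans (y_x P H)
    have b3 : R2 M Xp Vt k ≤ Vt := min_le_left _ _
    have b4 := R2_le P H hk
    have e0 := Rp_eq S M Xp Vt γ k
    have e := ds_du P H hk (by linarith)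
    have c1 : Rp M S Xp Vt γ k ≤ 2 * V := by linarith
    have c2 : Rp M S Xp Vt γ k ≤ 2 * (√Xp / √(ds M S k)) := by linarith
    have q := hQ k hk
    rw [← e] at q
    have r0 := sqrt_pos.2 s0
    have Q0 : 0 < Q := (pos_iff_pos_of_mul_pos (P.w0.trans_le q)).2 (by positivity)
    have e2 := sq_sqrt s0.le
    calc _ ≤ Q * (S.den (M.z (k - 1)) * (ds M S k * √(ds M S k))) /
          (S.den (M.z (k - 1)) * ds M S k ^ 2) * ((2 * V) ^ 2 * (2 * (√Xp / √(ds M S k))) ^ 3) := by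
          rw [aB, show 5 = 2 + 3 from rfl, pow_add]
          gcongr
      _ = 32 * V ^ 2 * √Xp ^ 3 * Q / ds M S k ^ 2 := by
          generalize √(ds M S k) = r at *
          rw [← e2]
          field_simp
          ring
      _ ≤ _ := by rw [div_pow]; gcongr

/-- **`Np 3`** -/
theorem np3 {a V Q b R L : ℝ} (ha : Xp ^ ((1 : ℝ) / 3) ≤ a) (hV : Vt ≤ a + V) (hb : 0 ≤ b)
    (hQ : ∀ k ∈ nd S M u1, S.w3 1 ≤ Q * (S.den (M.z (k - 1)) * (du M k * √(du M k))))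
    (hb2 : 32 * V ^ 2 * √Xp ^ 3 * Q ≤ b ^ 2) (hR : 2 * Xp ^ ((1 : ℝ) / 3) + Vt + γ ≤ R)
    (hL : 0 < L) : Np M S Xp Vt γ u1 (L ^ 3) 3 ≤
      u1 + (L ^ 6 * (4 * ZA w D R lm Λ + 4 * ((w / dm) ^ 2 * (w / lm * Λ))) +
        (√(w / lm) * ((9 * Xp * Λ + 3 * γ ^ 2 + 216 * a ^ 3 * Λ) / 2) + b * Λ)) := by
  have a1 := mul_le_mul_of_nonneg_left (P.sum_ap3 H.V0 H.γ0 H.hw hR) (pow_pos hL 6).le
  have a0 := (x0 P H).trans_le ha
  rw [Np]
  simp only [mul_add (dx M _), sum_add_distrib, mul_pow, Lp_pow hL]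
  refine add_le_add le_rfl (add_le_add ?_ ?_)
  · refine le_trans (le_of_eq ?_) a1
    rw [mul_sum]
    exact sum_congr rfl fun k _ => by ring
  · calc _ ≤ ∑ k ∈ nd S M u1, (√(w / lm) / 2 * (dx M k * Rp M S Xp Vt γ k ^ 2) +
          (√(w / lm) * (108 * a ^ 3) + b) * (dx M k / ds M S k)) :=
          sum_le_sum fun k hk => (mul_le_mul_of_nonneg_left ((min_le_right _ _).trans
            (cake3 P H ha hV hb hQ hb2 hk)) (P.dx0 k)).trans_eq (by ring)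
      _ ≤ _ := by
          rw [sum_add_distrib, ← mul_sum, ← mul_sum]
          have c1 := mul_le_mul_of_nonneg_left (P.sum_Rp (γ := γ) H.V0)
            (by positivity : 0 ≤ √(w / lm) / 2)
          have c2 := mul_le_mul_of_nonneg_left P.sum_ds
            (by positivity : 0 ≤ √(w / lm) * (108 * a ^ 3) + b)
          linarith

/-- the line `g0p` -/
theorem g0p (hk : k ∈ nd S M u1) :
    S.w3 1 * (Rp M S Xp Vt γ k / S.den (M.z (k - 1)) + ds M S k) ≤ 4 * (w / lm) * √Xp + w := by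
  have d0 := P.cl.den0 (M.z (k - 1))
  have s0 := P.ds0 hk
  have s1 := ds1 P H k
  have l0 := P.lm0
  have w0 := w0' P H
  have y0 := y0 P H
  have X0 := P.X0
  have R0 := P.Rp0 H.V0 H.γ0 k
  have y2 := sq_sqrt X0.le
  have b1 : R1 S M Xp k * ds M S k ≤ 2 * √Xp := by
    refine le_of_pow_le_pow_left₀ two_ne_zero (by positivity) ?_
    have := mul_le_mul_of_nonneg_right (R1_sq P H hk) (sq_nonneg (ds M S k))
    rw [show 2 * Xp / ds M S k * ds M S k ^ 2 = 2 * Xp * ds M S k by field_simp] at this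
    rw [mul_pow, mul_pow, y2]
    nlinarith
  have b2 : R2 M Xp Vt k * ds M S k ≤ √Xp := by
    refine le_of_pow_le_pow_left₀ two_ne_zero (by positivity) ?_
    have := mul_le_mul_of_nonneg_right (R2_sq P H hk) (sq_nonneg (ds M S k))
    rw [show Xp / ds M S k * ds M S k ^ 2 = Xp * ds M S k by field_simp] at this
    rw [mul_pow, y2]
    nlinarith
  have b3 : γ * ds M S k ≤ √Xp := (mul_le_of_le_one_right H.γ0 s1).trans H.γ1
  have b : Rp M S Xp Vt γ k / S.den (M.z (k - 1)) ≤ 4 * √Xp / lm := by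
    rw [← mul_div_mul_right _ _ s0.ne']
    refine div_le_div₀ (by positivity) ?_ l0 (P.lm1 k hk)
    rw [Rp_eq]
    linarith
  exact (mul_le_mul H.hw (add_le_add b s1) (by positivity) w0.le).trans_eq (by ring)

/-- **`Far`** -/
theorem far {K Lp : ℝ} (hK : 0 ≤ K) (hL : K ≤ Lp)
    (fa : ∀ x x', M.z (S.J - 1) ≤ x → x ≤ x' → x' < 1 → S.den x ≤ K * (1 + S.den x'))
    (hw : w ≤ Xp ^ ((1 : ℝ) / 3) * lm ^ 2) : Far M S Xp Vt γ u1 Lp := fun i k a b c d => by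
  have hk : k ∈ nd S M u1 := mem_filter.2 ⟨mem_Icc.2 ⟨a.trans b, c⟩, d⟩
  have d0 := P.cl.den0 (M.z (k - 1))
  have l0 := P.lm0
  have w0 := P.w0
  have x0 := x0 P H
  have l1 : lm ≤ lsh M S k := P.lm1 k hk
  have l2 := l0.trans_le l1
  have u0 := P.u10.trans_le d
  have f := fa (M.z (i - 1)) (M.z (k - 1)) (P.cl.leg.zm (by omega)) (P.cl.leg.zm (by omega))
    (by rw [du] at u0; linarith)
  have g : S.w3 1 ≤ (lsh M S k + Xp ^ ((1 : ℝ) / 3)) * lsh M S k ^ 2 :=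
    (H.hw.trans hw).trans (by gcongr; linarith)
  calc _ ≤ S.w3 1 * (K * (1 + S.den (M.z (k - 1)))) := mul_le_mul_of_nonneg_left f w0.le
    _ = K * (S.w3 1 + S.w3 1 * S.den (M.z (k - 1))) * 1 := by ring
    _ ≤ _ := by
        have := hK.trans hL
        gcongr
        exact one_le_pow₀ (le_max_left _ _)

end cls

end Crest.Agent.T156.Alt.Tp72

end
end

-- ▼ part T156/TermS_71
section

/-!
Row 156 (helper71): two plateau sums of `Term K`: the cost `c1` and the size `Np 2`.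
-/

set_option autoImplicit false
set_option linter.unusedSectionVars false

noncomputable section

namespace Crest.Agent.T156.Alt.Ts71

open Real Finset Filter Pre29 Sr L69 Ps64 Tp72

section cls

variable {S : Sc} {M : Md} {h u1 Xp D lm dm Λ V γ w : ℝ}

theorem den_up (c : Cl S M) {T : Finset ℕ} {B : ℝ} (hB : 0 ≤ B)
    (hT : ∀ k ∈ T, S.J ≤ k ∧ k < S.Jp ∧ M.ck k - M.ck S.J ≤ B) :
    ∑ k ∈ T, dx M k * S.den (M.z (k - 1)) ≤ S.C ^ 2 * (B + S.C * S.v) := by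
  have C0 := c.C0
  have v0 := c.v0
  have j0 := c.j0_lt
  rcases T.eq_empty_or_nonempty with rfl | ne
  · rw [sum_empty]; positivity
  obtain ⟨b1, b2, b3⟩ := hT _ (T.max'_mem ne)
  calc _ ≤ ∑ k ∈ Ico S.J (T.max' ne + 1), dx M k * S.den (M.z (k - 1)) :=
        sum_le_sum_of_subset_of_nonneg (fun k hk => mem_Ico.2
          ⟨(hT k hk).1, Nat.lt_succ_of_le (T.le_max' k hk)⟩) fun k _ _ =>
          mul_nonneg (Sr.C71.dx_nn c k) (c.den0 _).le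
    _ ≤ ∑ k ∈ Ico S.J (T.max' ne + 1), S.C ^ 2 * (M.ck (k + 1) - M.ck k) := by
        refine sum_le_sum fun k hk => ?_
        obtain ⟨k1, k2⟩ := mem_Ico.1 hk
        have a1 := (c.plat k k1 (by omega)).2
        have a2 := (c.ckm k (by omega) (by omega)).1
        rw [div_le_iff₀ C0] at a2
        have := mul_le_mul_of_nonneg_left a2 C0.le
        simp only [dx]
        linarith
    _ ≤ _ := by
        rw [← mul_sum, sum_Ico_sub _ (by omega)]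
        exact mul_le_mul_of_nonneg_left (by linarith [(c.ckm _ (by omega) b2).2]) (sq_nonneg _)

theorem wt_top (c : Cl S M) {T : Finset ℕ} {ρ : ℝ} (hρ : 0 ≤ ρ) (hT : ∀ k ∈ T, 0 < k ∧ du M k ≤ ρ) :
    ∑ k ∈ T, dx M k ≤ ρ := by
  rcases T.eq_empty_or_nonempty with rfl | ne
  · simpa using hρ
  obtain ⟨b1, b2⟩ := hT _ (T.min'_mem ne)
  have a := T.min'_le_max' ne
  calc _ ≤ ∑ k ∈ Ioc (T.min' ne - 1) (T.max' ne), M.dx k :=
        sum_le_sum_of_subset_of_nonneg (f := M.dx) (fun k hk => by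
          have := T.min'_le k hk
          exact mem_Ioc.2 ⟨by omega, T.le_max' k hk⟩) fun k _ _ => Sr.C71.dx_nn c k
    _ ≤ ρ := by
        rw [M29.sum_dx M (by omega)]
        rw [du] at b2
        linarith [c.leg.z1 (T.max' ne)]

variable (P : PD S M h u1 Xp D lm dm Λ)
include P

/-- **the cost `c1`** with the local clock -/
theorem c1_loc (hV : 0 ≤ V) (hγ : 0 ≤ γ) (hw : S.w3 1 ≤ w) {R D2 : ℝ}
    (hR : 2 * Xp ^ ((1 : ℝ) / 3) + V + γ ≤ R)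
    (hD : ∑ k ∈ nd S M u1, dx M k * S.den (M.z (k - 1)) ≤ D2) (Lg : ℝ) : ∑ k ∈ nd S M u1,
      dx M k * min ((Lg ^ 2 * ap M S Xp V γ k) ^ 3) ((Lg ^ 2 * ap M S Xp V γ k) ^ 4 / S.θ) ≤
      Lg ^ 6 * (16 * (w * D2 + w / lm * R ^ 2 * Λ + w / lm * √(w / lm)) +
        4 * ((w / dm) ^ 2 * (w / lm * Λ))) := by
  have l0 := P.lm0
  have w0 := P.w0.le.trans hw
  have a0 : ∑ k ∈ nd S M u1, dx M k * a0 S M Xp V γ k ≤ w * D2 + w / lm * R ^ 2 * Λ :=
    calc _ ≤ ∑ k ∈ nd S M u1, (w * (dx M k * S.den (M.z (k - 1))) +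
          w / lm * R ^ 2 * (dx M k / ds M S k)) :=
        sum_le_sum fun k hk => (mul_le_mul_of_nonneg_left (P.a0_le hV hγ hw hR hk)
          (P.dx0 k)).trans_eq (by have := (P.ds0 hk).ne'; field_simp)
      _ ≤ _ := by
        rw [sum_add_distrib, ← mul_sum, ← mul_sum]
        exact add_le_add (mul_le_mul_of_nonneg_left hD w0)
          (mul_le_mul_of_nonneg_left P.sum_ds (by positivity))
  have a1 := P.sum_aA0 hw a0
  have a2 := P.sum_aB hw 2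
  calc _ ≤ ∑ k ∈ nd S M u1, Lg ^ 6 *
        (4 * (dx M k * aA S M Xp V γ k) + 4 * (dx M k * aB S M k ^ (2 + 1))) := by
        refine sum_le_sum fun k _ => ?_
        have b1 := add_pow_le (rpow_nonneg (P.aA0 (Vt := V) (γ := γ) k) ((1 : ℝ) / 3)) (P.aB0 k) 3
        rw [cube3 (P.aA0 k), ← ap_eq] at b1
        refine (mul_le_mul_of_nonneg_left (min_le_left _ _) (P.dx0 k)).trans ?_
        exact (show _ = Lg ^ 6 * (dx M k * ap M S Xp V γ k ^ 3) by ring).trans_le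
          ((mul_le_mul_of_nonneg_left (mul_le_mul_of_nonneg_left b1 (P.dx0 k))
            (show 0 ≤ Lg ^ 6 by positivity)).trans_eq (by ring))
    _ ≤ _ := by
        rw [← mul_sum, sum_add_distrib, ← mul_sum, ← mul_sum]
        exact mul_le_mul_of_nonneg_left (by linarith) (by positivity)

variable (H : PX S Xp 0 1 γ w) (hV : 0 ≤ V) {k : ℕ}
include H hV

theorem R2_nn (k : ℕ) : 0 ≤ Tp72.R2 M Xp V k := le_min hV (sqrt_nonneg _)

theorem R2_le' (hk : k ∈ nd S M u1) : Tp72.R2 M Xp V k ≤ √Xp / √(ds M S k) := by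
  rw [← sqrt_div P.X0.le]
  exact (min_le_right _ _).trans
    (sqrt_le_sqrt (div_le_div_of_nonneg_left P.X0.le (P.ds0 hk) (min_le_right _ _)))

theorem a0_V (hk : k ∈ nd S M u1) : a0 S M Xp V γ k ≤ w * S.den (M.z (k - 1)) +
    4 * (w / lm) * (3 * (Xp ^ ((1 : ℝ) / 3)) ^ 2 + V * √Xp) / √(ds M S k) ^ 3 := by
  have d0 := P.cl.den0 (M.z (k - 1))
  have s0 := P.ds0 hk
  have l0 := P.lm0
  have r0 := sqrt_pos.2 s0
  have r1 : √(ds M S k) ≤ 1 := sqrt_le_one.2 (ds1 P H k)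
  have y0 := y0 P H
  have w0 := w0' P H
  have x0 := x0 P H
  have b1 := pow_le_pow_left₀ (sqrt_nonneg _) (R1_x P H k) 2
  have b2 : Tp72.R2 M Xp V k ^ 2 ≤ V * (√Xp / √(ds M S k)) := by
    rw [sq]
    exact mul_le_mul (min_le_left _ _) (R2_le' P H hV hk) (R2_nn P H hV k) hV
  have b3 := pow_le_pow_left₀ H.γ0 (H.γ1.trans (y_x P H)) 2
  have a : (Xp ^ ((1 : ℝ) / 3)) ^ 2 ≤ (Xp ^ ((1 : ℝ) / 3)) ^ 2 / √(ds M S k) :=
    le_div_self (sq_nonneg _) r0 r1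
  have b : (Rp M S Xp V γ k + Xp ^ ((1 : ℝ) / 3)) ^ 2 ≤
      4 * (3 * (Xp ^ ((1 : ℝ) / 3)) ^ 2 + V * √Xp) / √(ds M S k) := by
    have e : 4 * (3 * (Xp ^ ((1 : ℝ) / 3)) ^ 2 + V * √Xp) / √(ds M S k) =
        12 * ((Xp ^ ((1 : ℝ) / 3)) ^ 2 / √(ds M S k)) + 4 * (V * (√Xp / √(ds M S k))) := by ring
    rw [Rp_eq, e]
    change Tp72.R1 S M Xp k ^ 2 ≤ _ at b1
    generalize Tp72.R1 S M Xp k = p at *
    generalize Tp72.R2 M Xp V k = q at *
    generalize Xp ^ ((1 : ℝ) / 3) = x at *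
    linarith [sq_nonneg (p - q), sq_nonneg (p - γ), sq_nonneg (p - x), sq_nonneg (q - γ),
      sq_nonneg (q - x), sq_nonneg (γ - x)]
  have e : √(ds M S k) ^ 3 = √(ds M S k) * ds M S k := by rw [pow_succ', sq_sqrt s0.le]
  calc _ ≤ w * (S.den (M.z (k - 1)) +
        4 * (3 * (Xp ^ ((1 : ℝ) / 3)) ^ 2 + V * √Xp) / √(ds M S k) / (ds M S k * lm)) :=
        mul_le_mul H.hw (add_le_add le_rfl (div_le_div₀ (by positivity) b (by positivity)
          (by linarith [mul_le_mul_of_nonneg_left (P.lm1 k hk) s0.le]))) (by positivity) w0.le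
    _ = _ := by rw [e]; field_simp

theorem ap_V {s r : ℝ} (hs : 0 < s) (hr : 0 ≤ r)
    (hr3 : 4 * (w / lm) * (3 * (Xp ^ ((1 : ℝ) / 3)) ^ 2 + V * √Xp) ≤ r ^ 3) (hk : k ∈ nd S M u1) :
    ap M S Xp V γ k ^ 2 ≤ 4 * (2 / (3 * s) * (w * S.den (M.z (k - 1))) +
      s ^ 2 / 3 + r ^ 2 / ds M S k + aB S M k ^ 2 + w / lm) := by
  have d0 := P.cl.den0 (M.z (k - 1))
  have s0 := P.ds0 hk
  have l0 := P.lm0
  have r0 := sqrt_pos.2 s0
  have w0 := w0' P H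
  have a1 := third_nn (w * S.den (M.z (k - 1)))
  have a2 := young a1 hs
  have a3 := cube3 (show 0 ≤ w * S.den (M.z (k - 1)) by positivity)
  rw [a3] at a2
  have q0 : 0 ≤ r / √(ds M S k) := by positivity
  have a4 : a0 S M Xp V γ k ^ ((1 : ℝ) / 3) ≤
      (w * S.den (M.z (k - 1))) ^ ((1 : ℝ) / 3) + r / √(ds M S k) := by
    refine le_of_pow_le_pow_left₀ three_ne_zero (by positivity) ?_
    rw [cube3 (P.a00 k)]
    refine ((a0_V P H hV hk).trans ?_).trans (pow_add_pow_le a1 q0 three_ne_zero)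
    rw [a3, div_pow]
    gcongr
  have a5 : (r / √(ds M S k)) ^ 2 = r ^ 2 / ds M S k := by rw [div_pow, sq_sqrt s0.le]
  have a6 := pow_le_pow_left₀ (sqrt_nonneg _) (P.aC_le H.hw hk) 2
  rw [sq_sqrt (show 0 ≤ w / lm by positivity)] at a6
  have a7 := pow_le_pow_left₀ (P.ap0 (Vt := V) (γ := γ) k) (show ap M S Xp V γ k ≤
    (w * S.den (M.z (k - 1))) ^ ((1 : ℝ) / 3) + r / √(ds M S k) + aB S M k +
      √(S.w3 1 / lsh M S k) by rw [ap_eq0]; linarith) 2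
  generalize (w * S.den (M.z (k - 1))) ^ ((1 : ℝ) / 3) = a at *
  generalize r / √(ds M S k) = b at *
  generalize aB S M k = c at *
  generalize √(S.w3 1 / lsh M S k) = d at *
  linarith [sq_nonneg (a - b), sq_nonneg (a - c), sq_nonneg (a - d), sq_nonneg (b - c),
    sq_nonneg (b - d), sq_nonneg (c - d)]

theorem sum_ap_V {s1 s2 r ρ D2 : ℝ} (h1 : 0 < s1) (h2 : 0 < s2) (hr : 0 ≤ r) (hρ : 0 ≤ ρ)
    (hr3 : 4 * (w / lm) * (3 * (Xp ^ ((1 : ℝ) / 3)) ^ 2 + V * √Xp) ≤ r ^ 3)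
    (hD : ∑ k ∈ (nd S M u1).filter fun k => ρ ≤ du M k, dx M k * S.den (M.z (k - 1)) ≤ D2) :
    ∑ k ∈ nd S M u1, dx M k * ap M S Xp V γ k ^ 2 ≤ 4 * (w * D2 / s1 + s1 ^ 2 + w * D / s2 +
      s2 ^ 2 * ρ + r ^ 2 * Λ + w / dm * (w / lm * Λ) + w / lm) := by
  have w0 := w0' P H
  have l0 := P.lm0
  have k1 : ∀ k ∈ nd S M u1, dx M k * ap M S Xp V γ k ^ 2 ≤
      4 * (w / s1 * (if ρ ≤ du M k then dx M k * S.den (M.z (k - 1)) else 0) +
        w / s2 * (dx M k * S.den (M.z (k - 1))) + s2 ^ 2 * (if ¬ρ ≤ du M k then dx M k else 0) +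
        (s1 ^ 2 + w / lm) * dx M k + r ^ 2 * (dx M k / ds M S k) +
        dx M k * aB S M k ^ (1 + 1)) := fun k hk => by
    have d0 := P.dx0 k
    have e0 := P.cl.den0 (M.z (k - 1))
    have p1 : 0 ≤ w / s1 * (dx M k * S.den (M.z (k - 1))) := by positivity
    have p2 : 0 ≤ w / s2 * (dx M k * S.den (M.z (k - 1))) := by positivity
    have p3 : 0 ≤ s1 ^ 2 * dx M k := by positivity
    have p4 : 0 ≤ s2 ^ 2 * dx M k := by positivity
    have e : ∀ s : ℝ, dx M k * (4 * (2 / (3 * s) * (w * S.den (M.z (k - 1))) +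
        s ^ 2 / 3 + r ^ 2 / ds M S k + aB S M k ^ 2 + w / lm)) =
        4 * (2 / 3 * (w / s * (dx M k * S.den (M.z (k - 1)))) + s ^ 2 * dx M k / 3 +
          r ^ 2 * (dx M k / ds M S k) + dx M k * aB S M k ^ (1 + 1) + w / lm * dx M k) :=
      fun s => by ring
    by_cases c : ρ ≤ du M k
    · have := (mul_le_mul_of_nonneg_left (ap_V P H hV h1 hr hr3 hk) d0).trans_eq (e _)
      rw [if_pos c, if_neg (not_not.2 c)]
      linarith
    · have := (mul_le_mul_of_nonneg_left (ap_V P H hV h2 hr hr3 hk) d0).trans_eq (e _)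
      rw [if_neg c, if_pos c]
      linarith
  refine (sum_le_sum k1).trans ?_
  rw [← mul_sum, sum_add_distrib, sum_add_distrib, sum_add_distrib, sum_add_distrib,
    sum_add_distrib, ← mul_sum, ← mul_sum, ← mul_sum, ← mul_sum, ← mul_sum, ← sum_filter,
    ← sum_filter]
  have c1 := mul_le_mul_of_nonneg_left hD (by positivity : 0 ≤ w / s1)
  have c2 := mul_le_mul_of_nonneg_left P.sum_den (by positivity : 0 ≤ w / s2)
  have c3 := mul_le_mul_of_nonneg_left (wt_top P.cl hρ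
    (T := (nd S M u1).filter fun k => ¬ρ ≤ du M k) fun k hk =>
      ⟨(Nat.zero_lt_of_lt P.cl.jl_lt).trans_le (P.lt (mem_filter.1 hk).1).1,
        (not_le.1 (mem_filter.1 hk).2).le⟩) (sq_nonneg s2)
  have c4 := mul_le_mul_of_nonneg_left P.sum_one (by positivity : 0 ≤ s1 ^ 2 + w / lm)
  have c5 := mul_le_mul_of_nonneg_left P.sum_ds (sq_nonneg r)
  have c6 := P.sum_aB H.hw 1
  rw [pow_one] at c6
  rw [← div_mul_eq_mul_div w s1, ← div_mul_eq_mul_div w s2]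
  linarith

theorem six {a b c : ℝ} (ha : 0 ≤ a) (hb : 0 ≤ b) (hc : 0 ≤ c) :
    (a + b + c) ^ 6 ≤ 243 * (a ^ 6 + b ^ 6 + c ^ 6) := by
  have := pow_le_pow_left₀ (by positivity) (cube_add ha hb hc) 2
  linarith [sq_nonneg (a ^ 3 - b ^ 3), sq_nonneg (a ^ 3 - c ^ 3), sq_nonneg (b ^ 3 - c ^ 3)]

/-- the cake term of `Np 2`, sharp form -/
theorem cake_V {Q b : ℝ} (hb : 0 ≤ b) (hC : (2 * S.C) ^ 3 * Xp ^ ((1 : ℝ) / 3) ≤ 1)
    (hQ : ∀ k ∈ nd S M u1, S.w3 1 ≤ Q * (S.den (M.z (k - 1)) * (du M k * √(du M k))))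
    (hb4 : 243 * (6 * (w / lm) ^ 2 * (Xp ^ ((1 : ℝ) / 3)) ^ 8 + Q ^ 2 * (Xp ^ ((1 : ℝ) / 3)) ^ 9) ≤
      b ^ 4) (hk : k ∈ nd S M u1) :
    √(aB S M k) * Rp M S Xp V γ k ^ (((2 : ℕ) : ℝ) - 1 / 2) ≤ b / ds M S k := by
  have d0 := P.cl.den0 (M.z (k - 1))
  have s0 := P.ds0 hk
  have s1 := ds1 P H k
  have l0 := P.lm0
  have w0 := w0' P H
  have X0 := P.X0
  have x0 := x0 P H
  have x1 := x1 P H
  have x3 := cube3 X0.le
  have R0 := P.Rp0 hV H.γ0 k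
  have B0 := P.aB0 k
  have u0 := P.u10.trans_le (P.lt hk).2.2
  have q0 := R2_nn P H hV k
  have b0 := pow_le_pow_left₀ B0 (P.aB_le H.hw hk).2 2
  have i1 : 1 ≤ 1 / ds M S k ^ 2 := one_le_one_div (by positivity) (pow_le_one₀ s0.le s1)
  have c1 := le_max_left (dl M S k - S.u0) (Xp ^ ((1 : ℝ) / 3))
  have c2 := le_max_right (dl M S k - S.u0) (Xp ^ ((1 : ℝ) / 3))
  have c3 : ds M S k ≤ dl M S k := min_le_left _ _
  have hu := H.u0
  have g1 := pow_le_pow_left₀ H.γ0 H.γ1 6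
  have q1 := pow_le_pow_left₀ q0 (min_le_right _ _ : Tp72.R2 M Xp V k ≤ _) 6
  have r1 : Tp72.R1 S M Xp k ^ 6 = (Xp / max (dl M S k - S.u0) (Xp ^ ((1 : ℝ) / 3))) ^ 3 := by
    rw [Tp72.R1, show 6 = 2 * 3 from rfl, pow_mul, sq_sqrt (by positivity)]
  rw [show 6 = 2 * 3 from rfl, pow_mul (√Xp), sq_sqrt X0.le] at g1
  rw [show 6 = 2 * 3 from rfl, pow_mul (√(Xp / du M k)), sq_sqrt (by positivity)] at q1
  have six := six P H hV (sqrt_nonneg (Xp / max (dl M S k - S.u0) (Xp ^ ((1 : ℝ) / 3)))) q0 H.γ0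
  change Rp M S Xp V γ k ^ 6 ≤ 243 * (Tp72.R1 S M Xp k ^ 6 + _ + _) at six
  have C0 := P.cl.C0
  have top : ds M S k < du M k → 1 ≤ 2 * S.C * du M k := fun c => by
    have a := P.cl.atom.2
    have e : ds M S k = dl M S k := min_eq_left (le_of_not_gt fun g =>
      absurd (min_eq_right g.le : ds M S k = du M k) c.ne)
    have b : 1 / S.C ≤ 2 * du M k := by
      rw [e] at c
      simp only [dl, du] at c ⊢
      linarith [P.h0, P.hu0]
    rw [div_le_iff₀ C0] at b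
    linarith
  have q := hQ k hk
  generalize max (dl M S k - S.u0) (Xp ^ ((1 : ℝ) / 3)) = μ at *
  generalize Xp ^ ((1 : ℝ) / 3) = x at *
  have μ0 := x0.trans_le c2
  have x98 : x ^ 9 ≤ x ^ 8 := pow_le_pow_of_le_one x0.le x1 (by norm_num)
  have t1 : Tp72.R1 S M Xp k ^ 6 ≤ 4 * x ^ 8 / ds M S k ^ 2 := by
    rw [r1, ← x3, div_pow, div_le_div_iff₀ (by positivity) (by positivity)]
    have m : ds M S k ≤ 2 * μ := by linarith
    calc _ = x ^ 8 * (x * ds M S k ^ 2) := by ring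
      _ ≤ x ^ 8 * (μ * (2 * μ) ^ 2) := by gcongr
      _ = _ := by ring
  have t0 : x ^ 8 ≤ x ^ 8 / ds M S k ^ 2 := le_div_self (by positivity) (by positivity)
    (pow_le_one₀ s0.le s1)
  have t2 : γ ^ 6 ≤ x ^ 8 / ds M S k ^ 2 := by
    rw [← x3] at g1
    exact (g1.trans_eq (by ring)).trans (x98.trans t0)
  have e4 : (w / lm / ds M S k) ^ 2 * (x ^ 8 / ds M S k ^ 2) =
      (w / lm) ^ 2 * x ^ 8 / ds M S k ^ 4 := by field_simp
  have k1 : ∀ {y : ℝ}, 0 ≤ y → y ≤ x ^ 8 / ds M S k ^ 2 →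
      aB S M k ^ 2 * y ≤ (w / lm) ^ 2 * x ^ 8 / ds M S k ^ 4 := fun y0 y1 =>
    (mul_le_mul b0 y1 y0 (by positivity)).trans_eq e4
  have t3 : aB S M k ^ 2 * Tp72.R2 M Xp V k ^ 6 ≤
      (w / lm) ^ 2 * x ^ 8 / ds M S k ^ 4 + Q ^ 2 * x ^ 9 / ds M S k ^ 4 := by
    rcases (min_le_right _ _ : ds M S k ≤ du M k).lt_or_eq with c | c
    · refine le_add_of_le_of_nonneg (k1 (by positivity) (le_trans ?_ t0)) (by positivity)
      refine q1.trans ?_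
      rw [← x3, div_pow, div_le_iff₀ (by positivity)]
      have a := pow_le_pow_left₀ zero_le_one (top c) 3
      have := mul_le_mul a (le_refl (x ^ 9)) (by positivity) (by positivity)
      linarith [mul_le_mul_of_nonneg_right hC (show 0 ≤ x ^ 8 * du M k ^ 3 by positivity)]
    · refine le_add_of_nonneg_of_le (by positivity) ?_
      have r0 := sqrt_pos.2 u0
      have e2 := sq_sqrt u0.le
      have Q0 : 0 < Q := (pos_iff_pos_of_mul_pos (P.w0.trans_le q)).2 (by positivity)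
      calc _ ≤ (Q * (S.den (M.z (k - 1)) * (du M k * √(du M k))) /
            (S.den (M.z (k - 1)) * ds M S k ^ 2)) ^ 2 * (Xp / du M k) ^ 3 := by
            refine mul_le_mul (pow_le_pow_left₀ B0 ?_ 2) q1 (by positivity) (by positivity)
            rw [aB]
            gcongr
        _ = _ := by
            rw [show ds M S k = du M k from c, ← x3]
            generalize √(du M k) = r at *
            rw [← e2]
            field_simp
  have t4 := k1 (y := Tp72.R1 S M Xp k ^ 6 / 4) (by rw [r1]; positivity) (by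
    rw [mul_div_assoc] at t1
    linarith)
  have t5 := k1 (pow_nonneg H.γ0 6) t2
  rw [rp32 R0, ← sqrt_mul B0]
  refine sqrt_le_iff.2 ⟨by positivity, le_of_pow_le_pow_left₀ two_ne_zero (by positivity) ?_⟩
  have f := div_le_div_of_nonneg_right hb4 (pow_pos s0 4).le
  have e5 : 243 * (6 * (w / lm) ^ 2 * x ^ 8 + Q ^ 2 * x ^ 9) / ds M S k ^ 4 =
      243 * (6 * ((w / lm) ^ 2 * x ^ 8 / ds M S k ^ 4) + Q ^ 2 * x ^ 9 / ds M S k ^ 4) := by ring
  have e6 : ((b / ds M S k) ^ 2) ^ 2 = b ^ 4 / ds M S k ^ 4 := by ring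
  rw [e6]
  linarith [mul_le_mul_of_nonneg_left six (sq_nonneg (aB S M k))]

/-- **`Np 2`**, sharp form -/
theorem np2_V {s1 s2 r ρ D2 Q b L : ℝ} (h1 : 0 < s1) (h2 : 0 < s2) (hr : 0 ≤ r) (hρ : 0 ≤ ρ)
    (hr3 : 4 * (w / lm) * (3 * (Xp ^ ((1 : ℝ) / 3)) ^ 2 + V * √Xp) ≤ r ^ 3)
    (hD : ∑ k ∈ (nd S M u1).filter fun k => ρ ≤ du M k, dx M k * S.den (M.z (k - 1)) ≤ D2)
    (hb : 0 ≤ b) (hC : (2 * S.C) ^ 3 * Xp ^ ((1 : ℝ) / 3) ≤ 1)
    (hQ : ∀ k ∈ nd S M u1, S.w3 1 ≤ Q * (S.den (M.z (k - 1)) * (du M k * √(du M k))))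
    (hb4 : 243 * (6 * (w / lm) ^ 2 * (Xp ^ ((1 : ℝ) / 3)) ^ 8 + Q ^ 2 * (Xp ^ ((1 : ℝ) / 3)) ^ 9) ≤
      b ^ 4) (hL : 0 < L) : Np M S Xp V γ u1 (L ^ 3) 2 ≤
      u1 + (L ^ 4 * (4 * (w * D2 / s1 + s1 ^ 2 + w * D / s2 + s2 ^ 2 * ρ + r ^ 2 * Λ +
        w / dm * (w / lm * Λ) + w / lm)) + b * Λ) := by
  have a1 := mul_le_mul_of_nonneg_left (sum_ap_V P H hV h1 h2 hr hρ hr3 hD) (pow_pos hL 4).le
  rw [Np]
  simp only [mul_add (dx M _), sum_add_distrib, mul_pow, Lp_pow hL]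
  refine add_le_add le_rfl (add_le_add ?_ ?_)
  · refine le_trans (le_of_eq ?_) a1
    rw [mul_sum]
    exact sum_congr rfl fun k _ => by ring
  · refine le_trans ?_ (mul_le_mul_of_nonneg_left P.sum_ds hb)
    rw [mul_sum]
    exact sum_le_sum fun k hk => (mul_le_mul_of_nonneg_left
      ((min_le_right _ _).trans (cake_V P H hV hb hC hQ hb4 hk)) (P.dx0 k)).trans_eq (by ring)

end cls

/-! ### the numbers -/

open Tm92 Tt46

variable {E : ℝ} {S : Sc} {M : Md} {l lm Ys Y : ℝ} {c : ℕ → ℝ} {D u : ℝ} {F : ℕ → ℝ}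
  {r1 r2 γ ρ V : ℝ} (Z : Tm71.Tx KK E S M l lm Ys Y c D u F)
include Z

theorem lg_th : logb S.n u ≤ logb S.n (S.θ + u) ∧ logb S.n S.θ ≤ logb S.n (S.θ + u) :=
  ⟨(tx Z).lg_mono Z.u0 (le_add_of_nonneg_left Z.X.cl.θ0.le),
    (tx Z).lg_mono Z.X.cl.θ0 (le_add_of_nonneg_right Z.u0.le)⟩

theorem lg_w1 : -1 - logb S.n S.θ ≤ logb S.n Y - 10 ^ 8 * logb S.n E + logb S.n lm := by
  have X := tx Z
  have := X.N0; have θ0 : 0 < S.ms 1 := X.cl.θ0; have := lm0 Z; have := X.Yd0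
  have a := Z.sx.vh.w1
  rw [Sc.w3, Z.X.sh.F1, mul_one] at a
  have b := X.lg_mono (by positivity) a
  revert b
  lg_norm
  rw [X.lg_n, X.lg_Yd]
  intro b
  change _ - logb S.n (S.ms 1) ≤ _
  linarith

theorem lg_five {x y : ℝ} (hx : 0 < x) (hy : 0 < y) (h : x ≤ 5 * y) :
    logb S.n x ≤ logb S.n E + logb S.n y := by
  have X := tx Z
  have := X.lg_mono hx h
  rw [logb_mul (by norm_num) hy.ne'] at this
  linarith [(X.lg_num (x := 5) (by norm_num) (by norm_num)).2]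

theorem lg_V2 : logb S.n (V2 E S Y u) ≤ 50001 * logb S.n E - 1 / 11 ∨
    (logb S.n (V2 E S Y u) ≤ 50001 * logb S.n E + logb S.n S.θ / 2 ∧
      logb S.n (V2 E S Y u) ≤ 50001 * logb S.n E - 21 / 400) ∨
    logb S.n (V2 E S Y u) ≤ 50001 * logb S.n E + logb S.n u / 2 ∨
    logb S.n (V2 E S Y u) ≤ 50001 * logb S.n E + logb S.n (Xx E Y) / 3 := by
  have X := tx Z
  have := X.N0; have := X.X0; have := X.u_pos; have := X.cl.θ0; have := X.E0
  have B0 := B2_pos X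
  rw [V2, logb_mul (by positivity) B0.ne', logb_pow]
  push_cast
  by_cases h1 : B2 E S Y u ≤ 5 * (S.n : ℝ) ^ (-(1 : ℝ) / 11)
  · have := lg_five Z B0 (by positivity) h1
    rw [X.lg_rp] at this
    exact .inl (by linarith)
  by_cases h2 : B2 E S Y u ≤ 5 * min (√S.θ) ((S.n : ℝ) ^ (-(21 : ℝ) / 400))
  · have a := lg_five Z B0 (by positivity) (h2.trans (mul_le_mul_of_nonneg_left (min_le_left _ _)
      (by norm_num)))
    have b := lg_five Z B0 (by positivity) (h2.trans (mul_le_mul_of_nonneg_left (min_le_right _ _)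
      (by norm_num)))
    rw [lg_sqrt _ X.cl.θ0.le] at a
    rw [X.lg_rp] at b
    exact .inr (.inl ⟨by linarith, by linarith⟩)
  by_cases h3 : B2 E S Y u ≤ 5 * √u
  · have a := lg_five Z B0 (by positivity) h3
    rw [lg_sqrt _ X.u_pos.le] at a
    exact .inr (.inr (.inl (by linarith)))
  have a := lg_five Z B0 (rpow_pos_of_pos X.X0 ((1 : ℝ) / 3)) (by unfold B2 at *; linarith)
  rw [logb_rpow_eq_mul_logb_of_pos X.X0] at a
  exact .inr (.inr (.inr (by linarith)))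

theorem Vt0 : 0 < Vt E S Y u := (V2_pos (tx Z)).trans_le (V2_le (tx Z))

theorem lg_Vt : logb S.n (Vt E S Y u) ≤ 50001 * logb S.n E - 21 / 400 ∨
    logb S.n (Vt E S Y u) ≤ 50001 * logb S.n E + logb S.n u / 2 ∨
    logb S.n (Vt E S Y u) ≤ 50001 * logb S.n E + logb S.n (Xx E Y) / 3 := by
  have X := tx Z
  have := X.N0; have := X.X0; have := X.u_pos; have := X.E0
  have a0 := rp_pos X.cl.n1 (-(21 : ℝ) / 400)
  have B0 := add_pos (B2_pos X) a0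
  rw [Vt, logb_mul (by positivity) B0.ne', logb_pow]
  push_cast
  by_cases h1 : B2 E S Y u + (S.n : ℝ) ^ (-(21 : ℝ) / 400) ≤ 5 * (S.n : ℝ) ^ (-(21 : ℝ) / 400)
  · have := lg_five Z B0 a0 h1
    rw [X.lg_rp] at this
    exact .inl (by linarith)
  by_cases h3 : B2 E S Y u + (S.n : ℝ) ^ (-(21 : ℝ) / 400) ≤ 5 * √u
  · have a := lg_five Z B0 (by positivity) h3
    rw [lg_sqrt _ X.u_pos.le] at a
    exact .inr (.inl (by linarith))
  have a := lg_five Z B0 (rpow_pos_of_pos X.X0 ((1 : ℝ) / 3)) (by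
    have := min_le_right (√S.θ) ((S.n : ℝ) ^ (-(21 : ℝ) / 400))
    have := rp_le X.cl.n1 (show -(1 : ℝ) / 11 ≤ -(21 : ℝ) / 400 by norm_num)
    unfold B2 at *
    linarith)
  rw [logb_rpow_eq_mul_logb_of_pos X.X0] at a
  exact .inr (.inr (by linarith))

theorem x_ge : 1 / (S.n : ℝ) ≤ Xx E Y ^ ((1 : ℝ) / 3) := by
  have X := tx Z
  refine inv_le Z (rpow_pos_of_pos X.X0 _) ?_
  rw [logb_rpow_eq_mul_logb_of_pos X.X0]
  linarith [X.lg_X.1, X.lg_Y.1, X.lg_E.1]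

theorem xC : (2 * Z.S'.C) ^ 3 * Xx E Y ^ ((1 : ℝ) / 3) ≤ 1 := by
  have X := tx Z
  have := X.X0; have C0 : 0 < 8 * S.C := Z.cl'.C0
  change (2 * (8 * S.C)) ^ 3 * _ ≤ _
  have c := X.lg_C.2
  generalize 8 * S.C = C at *
  refine X.le_of_lg (by positivity) one_pos ?_
  lg_norm
  linarith [(X.lg_num (x := 2) (by norm_num) (by norm_num)).2, X.lg_X.2, X.lg_Y.2, X.lg_E.1,
    X.lg_E.2]

theorem px (γ0 : 0 ≤ γ) (γ1 : γ ≤ nu S) : PX Z.S' (Xx E Y) 0 1 γ (Z.S'.w3 1) := by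
  have X := tx Z
  have x0 := rpow_pos_of_pos X.X0 ((1 : ℝ) / 3)
  refine ⟨Z.X.u0_le.trans (rpow_le_rpow X.Y0.le ?_ (by norm_num)), le_trans
    (mul_le_mul_of_nonneg_right (le_self_pow₀ (by linarith [Z.cl'.C1]) (by norm_num)) x0.le) (xC Z),
    γ0, γ1.trans (X.le_of_lg X.nu0 (sqrt_pos.2 X.X0) ?_), le_rfl, zero_le_one, le_rfl, le_rfl⟩
  · have := mul_le_mul_of_nonneg_right (one_le_pow₀ (n := 100) X.E1) X.Y0.le
    rw [Xx]
    linarith [X.Y0]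
  · rw [X.lg_nu, lg_sqrt _ X.X0.le]
    linarith [X.lg_X.1, X.lg_Y.1, X.lg_E.1]

variable (T : Tp KK E S M lm Y r1 r2)
include T

theorem r12 : r1 ≤ r2 := (le_mul_of_one_le_left (r10 Z T).le Z.Q1).trans T.a3

/-- the clock above the second cut -/
theorem den2 {U : Finset ℕ} (hU : ∀ k ∈ U, S.J ≤ k ∧ k < S.Jp ∧ r2 ≤ du Z.N k) :
    ∑ k ∈ U, dx Z.N k * Z.S'.den (Z.N.z (k - 1)) ≤
      E * ((S.n : ℝ) ^ ((3 : ℝ) / 10) * (S.θ + u)) := by
  have H := Z.X.cl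
  have C0 := H.C0
  have m := mm0 Z
  have p1 : 1 ≤ (S.n : ℝ) ^ ((3 : ℝ) / 10) := one_le_rpow Z.X.N1 (by norm_num)
  have a : max S.θ (nuY KK E S Y) ≤ S.θ + u :=
    max_le (le_add_of_nonneg_right Z.u0.le) (Z.ν_u.trans (le_add_of_nonneg_left H.θ0.le))
  have B0 : 0 < (S.n : ℝ) ^ ((3 : ℝ) / 10) * (S.θ + u) := by positivity
  refine (den_up H B0.le fun k hk => ⟨(hU k hk).1, (hU k hk).2.1,
    (T.c2 k (hU k hk).1 (hU k hk).2.1.le (hU k hk).2.2).trans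
      (mul_le_mul_of_nonneg_left a (by positivity))⟩).trans ?_
  have b : S.v ≤ S.C * ((S.n : ℝ) ^ ((3 : ℝ) / 10) * (S.θ + u)) := Z.X.v_le.trans
    (mul_le_mul_of_nonneg_left ((Z.nu_u.trans (le_add_of_nonneg_left H.θ0.le)).trans
      (le_mul_of_one_le_left m.le p1)) C0.le)
  generalize (S.n : ℝ) ^ ((3 : ℝ) / 10) * (S.θ + u) = B at *
  linarith [mul_le_mul_of_nonneg_left b (pow_pos C0 3).le, mul_le_mul_of_nonneg_right Z.X.CE B0.le,
    mul_le_mul_of_nonneg_right Z.X.C2 B0.le, mul_pos (pow_pos C0 4) B0]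

/-- **(S1)** the cost `c1` -/
theorem s1 (γ0 : 0 ≤ γ) (γ1 : γ ≤ nu S) (V0 : 0 ≤ V) (V1 : V ≤ V2 E S Y u) :
    ∑ k ∈ (Icc Z.S'.J Z.S'.Jp).filter fun k => 2 * r2 ≤ du Z.N k,
      dx Z.N k * min ((Zz E ^ 2 * ap Z.N Z.S' (Xx E Y) V γ k) ^ 3)
        ((Zz E ^ 2 * ap Z.N Z.S' (Xx E Y) V γ k) ^ 4 / Z.S'.θ) ≤ Bd E S M Y u / E ^ 10 := by
  have X := tx Z
  have r0 := (r10 Z T).trans_le (r12 Z T)
  have P := pd Z T (ρ := 2 * r2) (by linarith [r12 Z T]) X.X0 (x_ge Z)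
  have := X.N0; have := X.E0; have := X.Z0; have := X.Bd0; have := w0 Z; have := lm0 Z
  have := dm0 Z; have := mm0 Z; have v0 := V2_pos X
  have hR : 2 * Xx E Y ^ ((1 : ℝ) / 3) + V + γ ≤ 4 * V2 E S Y u := by
    have a : B2 E S Y u ≤ V2 E S Y u := le_mul_of_one_le_left (B2_pos X).le (one_le_pow₀ X.E1)
    have b : u ≤ √u := le_sqrt_of_sq_le (by nlinarith [Z.u0, Z.u_one])
    have d : 0 ≤ min (√S.θ) ((S.n : ℝ) ^ (-(21 : ℝ) / 400)) := by positivity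
    have e := rp_pos X.cl.n1 (-(1 : ℝ) / 11)
    have f := rpow_pos_of_pos X.X0 ((1 : ℝ) / 3)
    rw [B2] at a
    linarith [Z.nu_u, sqrt_nonneg u]
  refine (c1_loc P V0 γ0 le_rfl hR (den2 Z T fun k hk =>
    ⟨(P.lt hk).1, (P.lt hk).2.1, by linarith [(P.lt hk).2.2]⟩) (Zz E)).trans ?_
  obtain ⟨e0, e1⟩ := X.lg_E
  obtain ⟨d1, d2, d3, -⟩ := X.lg_Bd
  obtain ⟨m1, m2, m3⟩ := lg_mx Z
  obtain ⟨l1, l2⟩ := lg_lm Z
  obtain ⟨t1, t2⟩ := lg_th Z
  have lw := lg_w Z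
  have l3 := lg_w1 Z
  have ld := lg_dm Z
  have lt := X.lg_T
  have lu := X.lg_u
  have lx := X.lg_X.2
  have c4 := (X.lg_num (x := 4) (by norm_num) (by norm_num)).2
  have c6 := (X.lg_num (x := 6) (by norm_num) (by norm_num)).2
  have lz := X.lg_Z
  have lv := lg_V2 Z
  generalize Z.S'.w3 1 = w at *
  generalize S.θ + u = θ' at *
  generalize Bd E S M Y u = B at *
  generalize Zz E = z at *
  generalize V2 E S Y u = v at *
  have k : ∀ {x : ℝ}, 0 < x → logb S.n x + 60011 * logb S.n E ≤ logb S.n B →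
      x ≤ B / (z ^ 6 * E ^ 11) := fun hx h => X.le_of_lg hx (by positivity) (by
    lg_norm
    linarith)
  have b1 := k (x := w * (E * ((S.n : ℝ) ^ ((3 : ℝ) / 10) * θ'))) (by positivity) (by
    lg_norm
    rw [X.lg_n]
    linarith)
  have b2 := k (x := w / lm * (4 * v) ^ 2 * (6 * E)) (by positivity) (by
    lg_norm
    rcases lv with h | ⟨h, h'⟩ | h | h <;> linarith)
  have b3 := k (x := w / lm * √(w / lm)) (by positivity) (by
    lg_norm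
    linarith)
  have b4 := k (x := (w / dm S) ^ 2 * (w / lm * (6 * E))) (by positivity) (by
    lg_norm
    linarith)
  refine (mul_le_mul_of_nonneg_left (show _ ≤ E * (B / (z ^ 6 * E ^ 11)) by
    linarith [mul_le_mul_of_nonneg_right (show 52 ≤ E by linarith [Z.X.E3])
      (show 0 ≤ B / (z ^ 6 * E ^ 11) by positivity)]) (by positivity)).trans_eq ?_
  field_simp

/-- **(S2)** the size `Np 2` -/
theorem s2 (γ0 : 0 ≤ γ) (γ1 : γ ≤ nu S) (V0 : 0 ≤ V) (V1 : V ≤ Vt E S Y u) :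
    Np Z.N Z.S' (Xx E Y) V γ (8 * r1) (Zz E ^ 3) 2 ≤ (Bd E S M Y u / E ^ 10) ^ ((2 : ℝ) / 3) := by
  have X := tx Z
  have r1p := r10 Z T
  have r0 := r1p.trans_le (r12 Z T)
  have P := pd Z T (ρ := 8 * r1) (by linarith) X.X0 (x_ge Z)
  have N0 := X.N0; have E0 := X.E0; have Z0 := X.Z0; have := X.Bd0; have := w0 Z; have := lm0 Z
  have := dm0 Z; have m0 := mm0 Z; have v0 := Vt0 Z; have := X.X0
  have C0 : 0 < 8 * S.C := Z.cl'.C0
  have hQ : ∀ k ∈ nd Z.S' Z.N (8 * r1), Z.S'.w3 1 ≤ E ^ 9 / (S.n : ℝ) ^ ((39 : ℝ) / 100) *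
      (Z.S'.den (Z.N.z (k - 1)) * (du Z.N k * √(du Z.N k))) := fun k hk => by
    obtain ⟨a1, -, a3⟩ := P.lt hk
    have u0 : 0 < du Z.N k := by linarith
    have a := T.dq _ (xs_le Z a1) (show r1 ≤ du Z.N k by linarith)
    change _ ≤ _ * (Z.S'.den (Z.N.z (k - 1)) * du Z.N k ^ ((3 : ℝ) / 2)) at a
    rw [show (3 : ℝ) / 2 = 1 + 1 / 2 by norm_num, rpow_add u0, rpow_one, ← sqrt_eq_rpow] at a
    have d0 := Z.cl'.den0 (Z.N.z (k - 1))
    rw [w_eq Z, div_mul_eq_mul_div, div_le_div_iff₀ (by positivity) (by positivity), mul_assoc]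
    refine mul_le_mul_of_nonneg_left (a.trans ((mul_comm _ _).trans_le ?_)) (by positivity)
    have := mx_le Z
    gcongr
  obtain ⟨d1, d2, d3, -⟩ := X.lg_Bd
  have lz := X.lg_Z
  have z1 : 1 ≤ Zz E ^ 4 := one_le_pow₀ (one_le_pow₀ X.E1)
  have lv := lg_Vt Z
  generalize Bd E S M Y u = B at *
  generalize Zz E = z at *
  generalize Vt E S Y u = v at *
  obtain ⟨β, hβ⟩ : ∃ β, β = (B / E ^ 10) ^ ((2 : ℝ) / 3) / (z ^ 4 * E) := ⟨_, rfl⟩
  have β0 : 0 < β := by rw [hβ]; positivity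
  have lβ : logb S.n β = 2 / 3 * logb S.n B - (40001 + 20 / 3) * logb S.n E := by
    rw [hβ]
    lg_norm
    rw [lz]
    ring
  obtain ⟨e0, e1⟩ := X.lg_E
  obtain ⟨m1, m2, m3⟩ := lg_mx Z
  obtain ⟨l1, l2⟩ := lg_lm Z
  obtain ⟨t1, t2⟩ := lg_th Z
  obtain ⟨u1, u2, -⟩ := X.lg_mu
  obtain ⟨y1, y2⟩ := X.lg_Y
  have lw := lg_w Z
  have ld := lg_dm Z
  have lt := X.lg_T
  have lu := X.lg_u
  have lx := X.lg_X.2
  have lc := X.lg_C.2
  have lr := (lg_r1 Z T).2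
  have lr2 := X.lg_mono r0 T.a4
  rw [X.lg_Yd] at lr2
  have c6 := X.lg_num (x := 6) (by norm_num) (by norm_num)
  have c8 := (X.lg_num (x := 8) (by norm_num) (by norm_num)).2
  have c24 := (X.lg_num (x := 24) (by norm_num) (by norm_num)).2
  have c486 := (X.lg_num (x := 486) (by norm_num) (by norm_num)).2
  have a := np2_V P (px Z γ0 γ1) V0 (s1 := √β) (s2 := Z.S'.w3 1 * ((8 * S.C) ^ 2 * E) / β)
    (r := √(β / (6 * E))) (ρ := r2) (b := β / (6 * E)) (L := z) (by positivity) (by positivity)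
    (by positivity) r0.le ?_ (den2 Z T fun k hk => ⟨(P.lt (mem_filter.1 hk).1).1,
      (P.lt (mem_filter.1 hk).1).2.1, (mem_filter.1 hk).2⟩) (by positivity) (xC Z) hQ ?_ Z0
  · refine a.trans ?_
    generalize Z.S'.w3 1 = w at *
    generalize S.θ + u = θ' at *
    generalize 8 * S.C = C at *
    have b0 : 8 * r1 ≤ β := X.le_of_lg (by positivity) β0 (by
      lg_norm
      linarith)
    have b1 : w * (E * ((S.n : ℝ) ^ ((3 : ℝ) / 10) * θ')) / √β ≤ β :=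
      X.le_of_lg (by positivity) β0 (by
        lg_norm
        rw [X.lg_n]
        linarith)
    have b2 := sq_sqrt β0.le
    have b3 : w * (C ^ 2 * E) / (w * (C ^ 2 * E) / β) = β := by field_simp
    have b4 : (w * (C ^ 2 * E) / β) ^ 2 * r2 ≤ β := X.le_of_lg (by positivity) β0 (by
      lg_norm
      linarith)
    have b5 : √(β / (6 * E)) ^ 2 * (6 * E) = β := by
      rw [sq_sqrt (by positivity)]
      field_simp
    have b6 : w / dm S * (w / lm * (6 * E)) ≤ β := X.le_of_lg (by positivity) β0 (by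
      lg_norm
      linarith)
    have b7 : w / lm ≤ β := X.le_of_lg (by positivity) β0 (by
      lg_norm
      linarith)
    have b8 : β / (6 * E) * (6 * E) = β := by field_simp
    have e : (B / E ^ 10) ^ ((2 : ℝ) / 3) = E * (z ^ 4 * β) := by
      rw [hβ]
      field_simp
    rw [e, b2, b3, b5, b8]
    linarith [mul_le_mul_of_nonneg_left (add_le_add (add_le_add b1 b4) (add_le_add b6 b7))
      (pow_pos Z0 4).le, mul_le_mul_of_nonneg_right z1 β0.le,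
      mul_le_mul_of_nonneg_right (show 30 ≤ E by linarith [Z.X.E3]) (mul_pos (pow_pos Z0 4) β0).le]
  · generalize Z.S'.w3 1 = w at *
    have b1 : 24 * (w / lm * (Xx E Y ^ ((1 : ℝ) / 3)) ^ 2) ≤ √(β / (6 * E)) ^ 3 :=
      X.le_of_lg (by positivity) (by positivity) (by
        lg_norm
        linarith)
    have b2 : 8 * (w / lm * (v * √(Xx E Y))) ≤ √(β / (6 * E)) ^ 3 :=
      X.le_of_lg (by positivity) (by positivity) (by
        lg_norm
        rcases lv with h | h | h <;> linarith)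
    linarith [mul_le_mul_of_nonneg_left (mul_le_mul_of_nonneg_right V1 (sqrt_nonneg (Xx E Y)))
      (show 0 ≤ w / lm by positivity)]
  · generalize Z.S'.w3 1 = w at *
    have b1 : 486 * (6 * ((w / lm) ^ 2 * (Xx E Y ^ ((1 : ℝ) / 3)) ^ 8)) ≤ (β / (6 * E)) ^ 4 :=
      X.le_of_lg (by positivity) (by positivity) (by
        lg_norm
        linarith)
    have b2 : 486 * ((E ^ 9 / (S.n : ℝ) ^ ((39 : ℝ) / 100)) ^ 2 * (Xx E Y ^ ((1 : ℝ) / 3)) ^ 9) ≤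
        (β / (6 * E)) ^ 4 := X.le_of_lg (by positivity) (by positivity) (by
      lg_norm
      rw [X.lg_n]
      linarith)
    linarith

end Crest.Agent.T156.Alt.Ts71

end
end

-- ▼ part T156/TermH_92
section

/-!
# Row 156, SR, terminal statement: the budget of the costs (helper92)
-/

set_option autoImplicit false
set_option linter.unusedSectionVars false

noncomputable section

namespace Crest.Agent.T156.Alt.Tm92

open Real Finset Filter Pre29 Sr L69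

theorem Tx.bud_Nc {E : ℝ} {S : Sc} {M : Md} {l lm Ys Y u D : ℝ} (X : Tx E S M l lm Ys Y u) :
    Bud E S M Y D u (100 / E) (Tc28.Nc E S M Y u) := by
  have E0 := X.E0
  have T0 := X.T0
  have t0 := Tc28.th0 X
  have b1 : Bud E S M Y D u (1 / E) (E ^ 8 * Tc28.Bu E S M Y u) :=
    X.bud_Bd' (mul_pos (pow_pos E0 _) (Tc28.Bu0 X)) (by
      rw [logb_mul (pow_pos E0 _).ne' (Tc28.Bu0 X).ne', Tc28.lg_Bu X, logb_pow]
      push_cast
      linarith [X.lg_E.1])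
  have b2 : Bud E S M Y D u (1 / E) (E ^ 8 * Tc28.B6 E S Y u) :=
    X.bud_43 (mul_pos (pow_pos E0 _) (Tc28.B60 X)) (by
      rw [logb_mul (pow_pos E0 _).ne' (Tc28.B60 X).ne', Tc28.B6,
        logb_div (by positivity) (by positivity), logb_mul (by positivity) (by positivity),
        logb_rpow_eq_mul_logb_of_pos T0, logb_rpow_eq_mul_logb_of_pos t0, logb_pow, logb_pow]
      push_cast
      linarith [X.lg_E.1])
  have u0 := X.sx.big.u0
  have b3 : Bud E S M Y D u (1 / E) (S.θ * S.u0 ^ 3) :=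
    X.bud_u0 (le_mul_of_one_le_left (mul_pos X.cl.θ0 (pow_pos u0.1 _)).le (one_le_pow₀ X.E1))
  have b4 : Bud E S M Y D u (1 / E) (u * S.u0 ^ 3) := X.bud_ms fun t a b => by
    have m := X.cl.ms_pos a.le
    have p := mul_pos X.Yd0 (add_pos m X.u_pos)
    refine le_trans ?_ (le_mul_of_one_le_left p.le (one_le_pow₀ X.E1))
    have q := mul_le_mul_of_nonneg_left u0.2 X.u_pos.le
    have r := mul_le_of_le_one_left (mul_pos X.u_pos (pow_pos u0.1 3)).le b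
    linarith [mul_pos X.Yd0 m]
  refine X.bud_mono (((b1.add b2).add (b3.add b4)).of_le (le_of_eq ?_)) ?_
  · rw [Tc28.Nc]
    ring
  · have : 0 < 1 / E := one_div_pos.2 E0
    rw [show 100 / E = 100 * (1 / E) by ring]
    linarith

theorem hBud : HBud := fun _ _ _ _ _ _ _ _ _ _ _ Z _ _ _ => (tx Z).bud_Nc

end Crest.Agent.T156.Alt.Tm92

end
end

-- ▼ part T156/TermI_92
section

/-!
# Row 156, SR, terminal statement: the passes (helper92)
-/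

set_option autoImplicit false

noncomputable section

namespace Crest.Agent.T156.Alt.Tm92

open Real Finset Filter Pre29 Sr L69

theorem hVt : HVt := fun _ _ _ _ _ _ _ _ _ _ _ Z _ _ T _ _ I h hX =>
  have p := Tt46.vt Z T h ((tx Z).cl.n1.trans I.m1) hX Z.rev'
  ⟨p.1, p.2.ap2 (by linarith [T.a3, r_pos Z T,
    le_mul_of_one_le_left (r_pos Z T).le (one_le_pow₀ (n := KK) (tx Z).E1)])⟩

/-- **`TermS2`** from the block (L), the corner, the costs and the sizes -/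
theorem termS2_of' (h0 : TLt) (h1 : TL1x) (h2 : TL1cx) (hC : HCn) (hL : HLC) (hP : HLP) :
    TermS2 := termS2_of h0 h1 h2 hVt hC hL hBud hP

end Crest.Agent.T156.Alt.Tm92

end
end

-- ▼ part T156/TermQ_72
section

/-!
# Row 156, SR, terminal statement: the numbers of the plateau `LP` (helper72)
-/

set_option autoImplicit false
set_option linter.unusedSectionVars false
set_option linter.unusedVariables false

noncomputable section

namespace Crest.Agent.T156.Alt.Tp72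

open Real Finset Pre29 Sr L69 Ps64 Tm92

theorem rp3h {t : ℝ} (ht : 0 < t) : t ^ ((3 : ℝ) / 2) = t * √t := by
  rw [show (3 : ℝ) / 2 = 1 + 1 / 2 by norm_num, rpow_add ht, rpow_one, sqrt_eq_rpow]

/-- `den ρ² ≥ dm` -/
def dm (S : Sc) : ℝ := (S.n : ℝ) ^ ((1 : ℝ) / 8) / (S.n * max S.θ (nu S))
/-- `w` of the auxiliary model -/
def ww (E : ℝ) (S : Sc) (u : ℝ) : ℝ := E ^ 9 / (S.n * 1 * (S.θ + u))

/-- the context -/
structure Ty (E : ℝ) (S : Sc) (M N : Md) (l lm Ys Y D u r1 r2 u1 Vt γ : ℝ) : Prop where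
  X : Tx E S M l lm Ys Y u
  T : Tp KK E S M lm Y r1 r2
  c : Cl (Su E S M Y D u) N
  hz : N.z = M.z
  hk : N.ck = M.ck
  a1 : r1 ≤ u1
  a2 : u1 ≤ 8 * r1
  V0 : 0 ≤ Vt
  V2 : Vt ≤ E ^ 60000 * (Xx E Y ^ ((1 : ℝ) / 3) + (S.n : ℝ) ^ (-(21 : ℝ) / 400) + √u)
  γ0 : 0 ≤ γ
  γ1 : γ ≤ nu S

section tx

variable {E : ℝ} {S : Sc} {M : Md} {l lm Ys Y u : ℝ} (X : Tx E S M l lm Ys Y u)
include X

theorem mx0 : 0 < max S.θ (nu S) := X.nu0.trans_le (le_max_right _ _)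
theorem lm0 : 0 < lm := X.sx.vh.lm0
theorem ww0 : 0 < ww E S u := by
  have := X.E0; have := X.N0; have := X.cl.θ0; have := X.u_pos
  unfold ww; positivity
theorem dm0 : 0 < dm S := by
  have := X.N0; have := mx0 X
  unfold dm; positivity

theorem lg_mx : -1 / 3 ≤ logb S.n (max S.θ (nu S)) ∧ logb S.n (max S.θ (nu S)) ≤ 0 := by
  refine ⟨X.lg_nu.ge.trans (X.lg_mono X.nu0 (le_max_right _ _)),
    (X.lg_mono (mx0 X) (max_le ?_ ?_)).trans_eq logb_one⟩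
  · nlinarith [X.cx.Cθ, X.cl.C1, X.cl.θ0]
  · exact X.nu_u.trans (X.u1.trans (div_le_one_of_le₀ X.E1 X.E0.le))

theorem lg_dm : logb S.n (dm S) = -7 / 8 - logb S.n (max S.θ (nu S)) := by
  have := X.N0; have := mx0 X
  rw [dm]; lg_norm; rw [X.lg_n]; ring

theorem lg_ww : logb S.n (ww E S u) ≤ 9 * logb S.n E - 1 - logb S.n (max S.θ (nu S)) ∧
    logb S.n (ww E S u) ≤ -1 - logb S.n (mu0 E u) ∧
    logb S.n (ww E S u) - logb S.n lm ≤ logb S.n Y - 99999991 * logb S.n E ∧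
    2 * logb S.n (ww E S u) ≤ 3 * logb S.n Y - 299999982 * logb S.n E ∧
    logb S.n (ww E S u) - logb S.n lm ≤ 9 * logb S.n E - 249 / 500 ∧
    logb S.n (ww E S u) - 2 * logb S.n lm ≤ 9 * logb S.n E - 7 / 25 := by
  have := X.E0; have := X.N0; have θ0 := X.cl.θ0; have := X.u_pos; have := mx0 X; have := lm0 X
  have := X.Yd0
  have θ1 : 0 < S.ms 1 := θ0
  have e : logb S.n (ww E S u) = 9 * logb S.n E - 1 - logb S.n (S.θ + u) := by
    rw [ww]; lg_norm; rw [X.lg_n]; ring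
  have a1 := X.lg_mono (mx0 X) (max_le (le_add_of_nonneg_right X.u_pos.le)
    (X.nu_u.trans (le_add_of_nonneg_left θ0.le)))
  have a2 := X.lg_mono X.u_pos (le_add_of_nonneg_left (a := u) θ0.le)
  have a3 := X.lg_mono θ0 (le_add_of_nonneg_right (a := S.θ) X.u_pos.le)
  have w3 : logb S.n (S.w3 1) = -1 - logb S.n S.θ := by
    rw [Sc.w3, X.cx.sh.F1, Sc.θ]; lg_norm; rw [X.lg_n]; ring
  have w0 : 0 < S.w3 1 := by rw [Sc.w3, X.cx.sh.F1]; positivity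
  have l1 : l ≤ 1 := le_of_pow_le_pow_left₀ three_ne_zero zero_le_one (X.cx.sh.l3.trans
    (((le_mul_of_one_le_left X.Y0.le (one_le_pow₀ X.E1)).trans X.cx.EY).trans_eq (one_pow 3).symm))
  have b1 := X.lg_mono w0 X.sx.vh.w1
  have b2 := X.lg_mono (by positivity) (X.sx.vh.bas 1 l1 X.cl.C1)
  have b3 := X.lg_mono (by positivity) X.sx.w2
  have b4 := X.lg_mono (by positivity) X.sx.lm2
  revert b1 b2 b3 b4
  lg_norm
  rw [X.lg_Yd, X.lg_n, w3]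
  intro b1 b2 b3 b4
  rw [X.lg_u] at a2
  refine ⟨?_, ?_, ?_, ?_, ?_, ?_⟩ <;> linarith

theorem lg_nuY : logb S.n (nuY KK E S Y) ≤ logb S.n (mu0 E u) + logb S.n E := by
  have := X.E0
  have n0 : 0 < nuY KK E S Y := X.nu0.trans_le (le_max_left _ _)
  have a := X.lg_mono (by positivity) X.u0
  revert a
  lg_norm
  rw [X.lg_u]
  intro a
  linarith

theorem le_X3' {x : ℝ} (hx : 0 < x)
    (h : logb S.n x ≤ logb S.n (mu0 E u) + logb S.n Y / 2 - 6000 * logb S.n E) :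
    x ≤ X3 E S M Y u := by
  obtain ⟨b1, b2, b3⟩ := X.lg_mu
  obtain ⟨c1, c2⟩ := X.lg_Y
  obtain ⟨d1, d2⟩ := X.lg_E
  have t := X.lg_T
  refine X.le_X3 hx (by linarith) ?_ (by linarith)
  rcases X.lg_l_lo.2 with a | ⟨a, -⟩ <;> linarith

theorem le_x3 {x : ℝ} (hx : 0 < x) (h : logb S.n x ≤ 10 * logb S.n E - 101 / 200) :
    x ≤ x3 E S := by
  have := X.E0; have := X.N0
  refine X.le_of_lg hx X.x30 ?_
  rw [x3]; lg_norm; rw [X.lg_n]; linarith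

theorem nu_y : nu S ≤ √(Xx E Y) := by
  have := X.X0
  refine X.le_of_lg X.nu0 (by positivity) ?_
  lg_norm
  linarith [X.lg_nu, X.lg_X.1, X.lg_Y.1, X.lg_E.1]

theorem wl_Gp : 4 * (ww E S u / lm) * √(Xx E Y) ≤ Gp E S Y ^ 2 := by
  have := ww0 X; have := lm0 X; have := X.X0; have := X.Gp0
  obtain ⟨-, -, a1, -, a2, -⟩ := lg_ww X
  have g := X.lg_Gp
  have c := (X.lg_num (x := 4) (by norm_num) (by norm_num)).2
  have e := X.lg_E.1
  refine X.le_of_lg (by positivity) (by positivity) ?_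
  lg_norm
  rcases le_total (logb S.n Y - 10 ^ 8 * logb S.n E) (-249 / 500) with h | h
  · rw [min_eq_left h] at g; linarith
  · rw [min_eq_right h] at g; linarith

theorem w_nu : ww E S u ≤ (E ^ 5001 * nu S) ^ 2 := by
  have := X.E0; have := X.nu0
  refine X.le_of_lg (ww0 X) (by positivity) ?_
  lg_norm
  linarith [X.lg_nu, (lg_ww X).1, (lg_mx X).1, X.lg_E.1]


theorem log_le {p : ℝ} (h0 : 0 < p) (h : -1 ≤ logb S.n p) : log (1 + 1 / p) ≤ E := by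
  have N0 := X.N0
  have N3 : (3 : ℝ) ≤ S.n := by exact_mod_cast X.cx.n3
  have a : 1 / p ≤ S.n := X.le_of_lg (by positivity) N0 (by lg_norm; rw [X.lg_n]; linarith)
  refine (log_le_log (by positivity) (show 1 + 1 / p ≤ (S.n : ℝ) ^ 2 by nlinarith)).trans ?_
  rw [log_pow]
  exact_mod_cast X.cx.lgE

theorem h_le {p : ℝ} (h0 : 0 < p) (h : -1 ≤ logb S.n p) : 16 * (1 / (S.n : ℝ) ^ 2) ≤ p := by
  have N0 := X.N0
  have c := (X.lg_num (x := 16) (by norm_num) (by norm_num)).2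
  refine X.le_of_lg (by positivity) h0 ?_
  lg_norm
  rw [X.lg_n]
  linarith [X.lg_E.2]

theorem vt_le : Tt46.Vt E S Y u ≤
    E ^ 60000 * (Xx E Y ^ ((1 : ℝ) / 3) + (S.n : ℝ) ^ (-(21 : ℝ) / 400) + √u) := by
  have := X.E0; have := X.N0; have := X.X0
  have a : (S.n : ℝ) ^ (-(1 : ℝ) / 11) ≤ (S.n : ℝ) ^ (-(21 : ℝ) / 400) := rp_le X.cl.n1 (by norm_num)
  have b := min_le_right (√S.θ) ((S.n : ℝ) ^ (-(21 : ℝ) / 400))
  have c : 3 ≤ E ^ 10000 := (show 3 ≤ E by linarith [X.cx.E3]).trans (X.cx.E_le (by norm_num))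
  have x0 : 0 < Xx E Y ^ ((1 : ℝ) / 3) := by positivity
  have p0 : 0 < (S.n : ℝ) ^ (-(21 : ℝ) / 400) := by positivity
  rw [Tt46.Vt, Tt46.B2, show 60000 = 50000 + 10000 from rfl, pow_add, mul_assoc]
  refine mul_le_mul_of_nonneg_left (le_trans ?_ (mul_le_mul_of_nonneg_right c (by positivity)))
    (by positivity)
  linarith [sqrt_nonneg u]

end tx

namespace Ty

variable {E : ℝ} {S : Sc} {M N : Md} {l lm Ys Y D u r1 r2 u1 Vt γ : ℝ}
  (W : Ty E S M N l lm Ys Y D u r1 r2 u1 Vt γ)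
include W

theorem r10 : 0 < r1 := by
  have := W.X.N0; have := mx0 W.X
  exact (pos_iff_pos_of_mul_pos ((rpow_pos_of_pos W.X.N0 _).trans_le W.T.a1)).1 (by positivity)
theorem u10 : 0 < u1 := W.r10.trans_le W.a1

theorem lg_u1 : -21 / 25 ≤ logb S.n u1 ∧ logb S.n u1 ≤ logb S.n E - 101 / 200 ∧
    logb S.n u1 ≤ logb S.n Y - 10 ^ 8 * logb S.n E := by
  have X := W.X
  have := X.N0; have := mx0 X; have := W.r10; have := X.E0
  have a1 := X.lg_mono (by positivity) W.T.a1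
  have a2 := X.lg_mono W.r10 W.T.a2
  have a3 := X.lg_mono (by positivity) (W.T.a3.trans W.T.a4)
  have a4 := X.lg_mono W.r10 W.a1
  have a5 := X.lg_mono W.u10 W.a2
  have c := (X.lg_num (x := 8) (by norm_num) (by norm_num)).2
  have e : ((KK : ℕ) : ℝ) = 10000 := by norm_num [KK]
  revert a1 a2 a3 a5
  lg_norm
  rw [X.lg_n, X.lg_Yd, e]
  intro a1 a2 a3 a5
  refine ⟨?_, ?_, ?_⟩ <;> linarith [(lg_mx X).2, X.lg_E.1]

theorem r1_xs : r1 ≤ 1 - M.xs S := by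
  have X := W.X
  have C0 := X.cl.C0
  have a := X.cl.atom.2
  have b : u1 ≤ 1 / S.C := X.le_of_lg W.u10 (by positivity) (by
    have c := X.lg_mono C0 (show S.C ≤ E by linarith [X.cx.CE1])
    lg_norm
    linarith [W.lg_u1.2.1, X.lg_E.2])
  rw [Md.xs]
  linarith [W.a1]

theorem lg_u0 : -1 ≤ logb S.n S.u0 := by
  have X := W.X
  have := X.N0; have := mx0 X; have := lm0 X; have u0 := X.cx.sh.u0.1; have := X.E0
  have a : lm ≤ E * S.u0 := (W.T.dn _ le_rfl W.r1_xs).trans (mul_le_mul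
    (X.cx.sh.dj.trans (by linarith [X.cx.CE1, X.cl.C0])) ((min_le_left _ _).trans_eq (by ring))
    (le_min (by linarith) (W.r10.le.trans W.r1_xs)) X.E0.le)
  have a1 := X.lg_mono (lm0 X) a
  have a2 := X.lg_mono (by positivity) X.sx.d0
  revert a1 a2
  lg_norm
  rw [X.lg_n]
  intro a1 a2
  linarith [(lg_mx X).2, X.lg_E.2]

theorem pt {k : ℕ} (a : S.J ≤ k) : M.xs S ≤ M.z (k - 1) := W.X.cl.leg.zm (Nat.sub_le_sub_right a 1)

theorem du_eq (k : ℕ) : du N k = 1 - M.z (k - 1) := by rw [du, W.hz]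
theorem dl_eq (k : ℕ) : dl N (Su E S M Y D u) k = M.z (k - 1) - M.xs S + S.u0 := by
  rw [dl, W.hz]; rfl

theorem lm_le {k : ℕ} (a : S.J ≤ k) (b : u1 ≤ du N k) :
    lm ≤ S.den (N.z (k - 1)) * ds N (Su E S M Y D u) k := by
  rw [ds, W.dl_eq, W.du_eq, W.hz]
  exact W.T.dn _ (W.pt a) (W.a1.trans (b.trans_eq (W.du_eq k)))

theorem lg_x : logb S.n (Xx E Y ^ ((1 : ℝ) / 3)) = logb S.n (Xx E Y) / 3 := by
  have := W.X.X0
  lg_norm
  ring

/-- the plateau data -/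
theorem pd : PD (Su E S M Y D u) N (1 / (S.n : ℝ) ^ 2) u1 (Xx E Y) (E ^ 2) lm (dm S) (6 * E) := by
  have X := W.X
  have N0 := X.N0
  have m0 := mx0 X
  have u0 := X.cx.sh.u0.1
  have x0 : 0 < Xx E Y ^ ((1 : ℝ) / 3) := rpow_pos_of_pos X.X0 _
  have xl : -1 ≤ logb S.n (Xx E Y ^ ((1 : ℝ) / 3)) := by
    linarith [W.lg_x, X.lg_X.1, X.lg_Y.1, X.lg_E.1]
  have ul : -1 ≤ logb S.n u1 := by linarith [W.lg_u1.1]
  refine ⟨W.c, by positivity, fun k a b => ?_, X.sx.ue2.trans_lt ?_, h_le X W.u10 ul,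
    h_le X u0 W.lg_u0, X.X0, h_le X x0 xl, ?_, lm0 X, fun k hk => ?_, dm0 X, fun k hk => ?_, ?_, ?_⟩
  · rw [dx, W.hz]; exact X.cx.sh.mesh k a b.le
  · refine (logb_lt_logb_iff X.N1 (by positivity) W.u10).1 ?_
    lg_norm
    rw [X.lg_n]
    linarith [W.lg_u1.1]
  · rw [W.hk]
    change (8 * S.C) ^ 2 * (M.ck S.Jp - M.ck S.J) ≤ _
    have a := X.cx.ct_nn S.J
    rw [M29.ct_mid X.cl X.cl.jl_lt X.cl.i3] at a
    have b := mul_le_mul_of_nonneg_left (show M.ck S.Jp - M.ck S.J ≤ E by linarith [X.cx.sh.ckT])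
      (sq_nonneg (8 * S.C))
    nlinarith [mul_le_mul_of_nonneg_right X.cx.CE2 X.E0.le, mul_pos (pow_pos X.cl.C0 2) X.E0]
  · exact W.lm_le (mem_Icc.1 (mem_filter.1 hk).1).1 (mem_filter.1 hk).2
  · have a := (mem_Icc.1 (mem_filter.1 hk).1).1
    have b := (mem_filter.1 hk).2
    have d0 := X.cl.den0 (N.z (k - 1))
    rw [dm, div_le_iff₀' (by positivity)]
    change _ ≤ _ * (S.den (N.z (k - 1)) * _)
    rcases le_total (dl N (Su E S M Y D u) k) (du N k) with e | e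
    · have c := W.lm_le a b
      have f : S.u0 ≤ ds N (Su E S M Y D u) k := by
        rw [ds, min_eq_left e, W.dl_eq]; linarith [W.pt a]
      refine ((rp_le X.cl.n1 (by norm_num)).trans X.sx.d0).trans
        (mul_le_mul_of_nonneg_left ?_ (by positivity))
      exact (mul_le_mul c f u0.le ((lm0 X).le.trans c)).trans_eq (by ring)
    · rw [ds, min_eq_right e, W.du_eq, W.hz]
      exact W.T.dt _ (W.pt a) (W.a1.trans (b.trans_eq (W.du_eq k)))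
  · change 2 * (log (1 + 1 / S.u0) + _) ≤ _
    linarith [log_le X u0 W.lg_u0, log_le X W.u10 ul]
  · linarith [log_le X x0 xl, log_le X W.u10 ul]

theorem px : PX (Su E S M Y D u) (Xx E Y) Vt (E ^ 60001) γ (ww E S u) := by
  have X := W.X
  have := X.cl.C0
  have x0 : 0 < Xx E Y ^ ((1 : ℝ) / 3) := rpow_pos_of_pos X.X0 _
  refine ⟨X.cx.u0_le.trans (rpow_le_rpow X.Y0.le ?_ (by norm_num)), ?_, W.γ0, W.γ1.trans (nu_y X),
    W.V0, ?_, one_le_pow₀ X.E1, le_rfl⟩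
  · rw [Xx]
    nlinarith [le_mul_of_one_le_left X.Y0.le (one_le_pow₀ (n := 100) X.E1), X.Y0]
  · change 2 * (8 * S.C) * _ ≤ _
    refine X.le_of_lg (by positivity) one_pos ?_
    rw [logb_mul (by positivity) x0.ne', logb_mul (by positivity) (by positivity), W.lg_x, logb_one]
    linarith [X.lg_C.2, (X.lg_num (x := 2) (by norm_num) (by norm_num)).2, X.lg_X.2, X.lg_Y.2,
      X.lg_E.1, X.lg_E.2]
  · have a : Xx E Y ^ ((1 : ℝ) / 3) ≤ 1 := X.le_of_lg x0 one_pos (by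
      rw [W.lg_x, logb_one]
      linarith [X.lg_X.2, X.lg_Y.2, X.lg_E.1])
    have b : (S.n : ℝ) ^ (-(21 : ℝ) / 400) ≤ 1 :=
      rpow_le_one_of_one_le_of_nonpos X.N1.le (by norm_num)
    have c : √u ≤ 1 := sqrt_le_one.2 (X.u1.trans (div_le_one_of_le₀ X.E1 X.E0.le))
    rw [pow_succ]
    exact W.V2.trans (mul_le_mul_of_nonneg_left (by linarith [X.cx.E3]) (pow_pos X.E0 _).le)

/-- **`Far`** -/
theorem far {Lp : ℝ} (h : Zz E ≤ Lp) : Far N (Su E S M Y D u) (Xx E Y) Vt γ u1 Lp := by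
  have X := W.X
  have := X.X0; have := lm0 X
  refine Tp72.far W.pd W.px X.Z0.le h (fun x x' a => X.sx.fa x x' (by rwa [W.hz] at a)) ?_
  refine X.le_of_lg (ww0 X) (by positivity) ?_
  lg_norm
  linarith [(lg_ww X).2.2.2.2.2, X.lg_X.1, X.lg_Y.1, X.lg_E.1, X.lg_E.2]

set_option maxHeartbeats 2000000 in
/-- **`Np 2`** against any number with the lower bounds of `X2` -/
theorem n2g {B : ℝ} (hB : ∀ x, 0 < x → logb S.n x ≤ logb S.n (mu0 E u) - 1 / 150 →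
    logb S.n x ≤ (logb S.n (Tt E Y) + logb S.n (mu0 E u)) / 2 - 1 / 300 →
    logb S.n x ≤ 270000 * logb S.n E + logb S.n (Tt E Y) + logb S.n (mu0 E u) + 1 / 3 →
    (logb S.n x ≤ -361 / 1000 ∨
      logb S.n x ≤ 1 / 12 + 2 / 3 * (logb S.n (Tt E Y) + logb S.n (mu0 E u))) → x ≤ B) :
    Np N (Su E S M Y D u) (Xx E Y) Vt γ u1 (Zz E ^ 3) 2 ≤ B := by
  have X := W.X
  have E0 := X.E0; have w0 := ww0 X; have l0 := lm0 X; have X0 := X.X0; have Z0 := X.Z0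
  have d0 := dm0 X; have u0 := W.u10
  have a := np2 W.pd W.px (s := (ww E S u * E ^ 2) ^ ((1 : ℝ) / 3))
    (q := (16 * E ^ 60001 * (ww E S u / lm) * √(Xx E Y)) ^ ((1 : ℝ) / 3))
    (b := √(27 * E ^ 60001 * (ww E S u / lm) * Xx E Y)) (by positivity) (cube3 (by positivity)).ge
    (by positivity) (cube3 (by positivity)).ge (by positivity) (sq_sqrt (by positivity)).ge Z0
  have g : (9 * Xx E Y * (6 * E) + 3 * γ ^ 2) / Zz E ^ 3 ≤ 60 * Xx E Y * E / Zz E ^ 3 := by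
    have b := pow_le_pow_left₀ W.γ0 W.px.γ1 2
    rw [sq_sqrt X0.le] at b
    gcongr
    nlinarith [mul_le_mul_of_nonneg_left X.E1 X0.le]
  obtain ⟨w1, w2, w3, w4, w5, -⟩ := lg_ww X
  obtain ⟨m1, m2, m3⟩ := X.lg_mu
  obtain ⟨y1, y2⟩ := X.lg_Y
  obtain ⟨e1, e2⟩ := X.lg_E
  obtain ⟨x1, x2⟩ := X.lg_X
  obtain ⟨-, r2, r3⟩ := W.lg_u1
  have t := X.lg_T
  have z := X.lg_Z
  have dd := lg_dm X
  have mx := (lg_mx X).1
  have c6 := (X.lg_num (x := 6) (by norm_num) (by norm_num)).2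
  have c16 := (X.lg_num (x := 16) (by norm_num) (by norm_num)).2
  have c24 := (X.lg_num (x := 24) (by norm_num) (by norm_num)).2
  have c27 := (X.lg_num (x := 27) (by norm_num) (by norm_num)).2
  have c60 := (X.lg_num (x := 60) (by norm_num) (by norm_num)).2
  have t0 : 6 * u1 ≤ B := by
    refine hB _ (by positivity) ?_ ?_ ?_ (.inl ?_) <;> lg_norm <;> linarith
  have t1 : 24 * (Zz E ^ 4 * ((ww E S u * E ^ 2) ^ ((1 : ℝ) / 3)) ^ 2) ≤ B := by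
    refine hB _ (by positivity) ?_ ?_ ?_ (.inl ?_) <;> lg_norm <;> linarith
  have t2 : 24 * (Zz E ^ 4 * (((16 * E ^ 60001 * (ww E S u / lm) * √(Xx E Y)) ^ ((1 : ℝ) / 3)) ^ 2 *
      (6 * E))) ≤ B := by
    refine hB _ (by positivity) ?_ ?_ ?_ (.inl ?_) <;> lg_norm <;> linarith
  have t3 : 24 * (Zz E ^ 4 * (ww E S u / dm S * (ww E S u / lm * (6 * E)))) ≤ B := by
    refine hB _ (by positivity) ?_ ?_ ?_ (.inl ?_) <;> lg_norm <;> linarith
  have t4 : 24 * (Zz E ^ 4 * (ww E S u / lm)) ≤ B := by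
    refine hB _ (by positivity) ?_ ?_ ?_ (.inl ?_) <;> lg_norm <;> linarith
  have t5 : 6 * min (60 * Xx E Y * E / Zz E ^ 3) (√(27 * E ^ 60001 * (ww E S u / lm) * Xx E Y) * (6 * E)) ≤
      B := by
    have p : 0 < min (60 * Xx E Y * E / Zz E ^ 3) (√(27 * E ^ 60001 * (ww E S u / lm) * Xx E Y) * (6 * E)) := by
      positivity
    have k1 := X.lg_mono p (min_le_left _ _)
    have k2 := X.lg_mono p (min_le_right _ _)
    have k3 := logb_mul (b := S.n) (show (6 : ℝ) ≠ 0 by norm_num) p.ne'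
    generalize min (60 * Xx E Y * E / Zz E ^ 3) (√(27 * E ^ 60001 * (ww E S u / lm) * Xx E Y) * (6 * E)) = v
      at *
    revert k1 k2
    lg_norm
    intro k1 k2
    refine hB _ (by positivity) (by linarith) (by linarith) (by linarith) ?_
    rcases le_total (logb S.n Y) (-3 / 10) with h | h
    · exact .inl (by linarith)
    · exact .inr (by linarith)
  have := min_le_min_right (√(27 * E ^ 60001 * (ww E S u / lm) * Xx E Y) * (6 * E)) g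
  linarith

theorem hQ {A B : ℝ} (hA : 0 < A) (h : ∀ x, M.xs S ≤ x → r1 ≤ 1 - x →
    A ≤ B * (S.den x * (1 - x) ^ ((3 : ℝ) / 2))) : ∀ k ∈ nd (Su E S M Y D u) N u1,
    (Su E S M Y D u).w3 1 ≤ ww E S u * B / A *
      ((Su E S M Y D u).den (N.z (k - 1)) * (du N k * √(du N k))) := fun k hk => by
  have a := (mem_Icc.1 (mem_filter.1 hk).1).1
  have b := (mem_filter.1 hk).2
  have c := h _ (W.pt a) (W.a1.trans (b.trans_eq (W.du_eq k)))
  rw [← W.du_eq, rp3h (W.u10.trans_le b), ← W.hz] at c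
  rw [div_mul_eq_mul_div, le_div_iff₀ hA, mul_assoc]
  exact mul_le_mul_of_nonneg_left c (ww0 W.X).le

set_option maxHeartbeats 2000000 in
theorem n3V {V Q : ℝ} (V0 : 0 < V) (Q0 : 0 < Q)
    (hV : E ^ 60000 * ((S.n : ℝ) ^ (-(21 : ℝ) / 400) + √u) ≤ V)
    (hQ : ∀ k ∈ nd (Su E S M Y D u) N u1, (Su E S M Y D u).w3 1 ≤
      Q * ((Su E S M Y D u).den (N.z (k - 1)) * (du N k * √(du N k))))
    (hl : 2 * logb S.n V + logb S.n Y / 2 + logb S.n Q ≤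
      2 * logb S.n (mu0 E u) - 20000 * logb S.n E) :
    Np N (Su E S M Y D u) (Xx E Y) Vt γ u1 (Zz E ^ 3) 3 ≤ X3n E S M Y u := by
  have X := W.X
  have E0 := X.E0; have w0 := ww0 X; have l0 := lm0 X; have X0 := X.X0; have Z0 := X.Z0
  have d0 := dm0 X; have u0 := W.u10; have N0 := X.N0; have up := X.u_pos
  have K1 : 1 ≤ E ^ 60000 := one_le_pow₀ X.E1
  have H := W.px
  have yx := y_x W.pd H
  have xy := cube3 X0.le
  have y2 := sq_sqrt X0.le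
  have g2 := pow_le_pow_left₀ W.γ0 H.γ1 2
  have lx := W.lg_x
  have v2 := W.V2
  have a := np3 W.pd H (a := E ^ 60000 * Xx E Y ^ ((1 : ℝ) / 3)) (V := V) (Q := Q)
    (b := √(32 * V ^ 2 * √(Xx E Y) ^ 3 * Q))
    (R := 4 * E ^ 60000 * (Xx E Y ^ ((1 : ℝ) / 3) + (S.n : ℝ) ^ (-(21 : ℝ) / 400) + √u))
    (le_mul_of_one_le_left (by positivity) K1) (by linarith) (by positivity) hQ
    (sq_sqrt (by positivity)).ge (by
      have := le_mul_of_one_le_left (b := Xx E Y ^ ((1 : ℝ) / 3)) (by positivity) K1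
      have : 0 ≤ E ^ 60000 * ((S.n : ℝ) ^ (-(21 : ℝ) / 400) + √u) := by positivity
      linarith [H.γ1]) Z0
  have x0 : 0 < Xx E Y ^ ((1 : ℝ) / 3) := by positivity
  generalize Xx E Y ^ ((1 : ℝ) / 3) = x at *
  have p0 : 0 < (S.n : ℝ) ^ (-(21 : ℝ) / 400) := by positivity
  have lp := X.lg_rp (-(21 : ℝ) / 400)
  generalize (S.n : ℝ) ^ (-(21 : ℝ) / 400) = p at *
  obtain ⟨w1, w2, w3, w4, w5, -⟩ := lg_ww X
  obtain ⟨m1, m2, m3⟩ := X.lg_mu
  obtain ⟨y1, y2'⟩ := X.lg_Y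
  obtain ⟨e1, e2⟩ := X.lg_E
  obtain ⟨x1, x2⟩ := X.lg_X
  obtain ⟨-, r2, r3⟩ := W.lg_u1
  have z := X.lg_Z
  have dd := lg_dm X
  have lu := X.lg_u
  have mx := (lg_mx X).1
  have c6 := (X.lg_num (x := 6) (by norm_num) (by norm_num)).2
  have c32 := (X.lg_num (x := 32) (by norm_num) (by norm_num)).2
  have c := (X.lg_num (x := 1000) (by norm_num) (by norm_num)).2
  have lK : logb S.n (E ^ 60000) = 60000 * logb S.n E := by lg_norm
  have K0 : 0 < E ^ 60000 := by positivity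
  generalize E ^ 60000 = K at *
  have t0 : 1000 * u1 ≤ x3 E S := by
    refine le_x3 X (by positivity) ?_; lg_norm; linarith
  have t1 : 1000 * (Zz E ^ 6 * (ww E S u * E ^ 2)) ≤ x3 E S := by
    refine le_x3 X (by positivity) ?_; lg_norm; linarith
  have t2 : 1000 * (1000 * (Zz E ^ 6 * (ww E S u / lm * (K ^ 2 * x ^ 2 * E)))) ≤ x3 E S := by
    refine le_x3 X (by positivity) ?_; lg_norm; linarith
  have t3 : 1000 * (1000 * (Zz E ^ 6 * (ww E S u / lm * (K ^ 2 * p ^ 2 * E)))) ≤ x3 E S := by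
    refine le_x3 X (by positivity) ?_; lg_norm; linarith
  have t4 : 1000 * (1000 * (Zz E ^ 6 * (ww E S u / lm * (K ^ 2 * √u ^ 2 * E)))) ≤ X3 E S M Y u := by
    refine le_X3' X (by positivity) ?_; lg_norm; linarith
  have t5 : 1000 * (Zz E ^ 6 * (ww E S u / lm * √(ww E S u / lm))) ≤ x3 E S := by
    refine le_x3 X (by positivity) ?_; lg_norm; linarith
  have t6 : 1000 * (Zz E ^ 6 * ((ww E S u / dm S) ^ 2 * (ww E S u / lm * E))) ≤ x3 E S := by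
    refine le_x3 X (by positivity) ?_; lg_norm; linarith
  have t7 : 1000 * (1000 * (√(ww E S u / lm) * (K ^ 3 * Xx E Y * E))) ≤ X3 E S M Y u := by
    refine le_X3' X (by positivity) ?_; lg_norm; linarith
  have t8 : 1000 * (√(32 * V ^ 2 * √(Xx E Y) ^ 3 * Q) * E) ≤ X3 E S M Y u := by
    refine le_X3' X (by positivity) ?_; lg_norm; linarith
  have s1 : Zz E ^ 6 * (ww E S u / lm * ((4 * K * (x + p + √u)) ^ 2 * E)) ≤
      Zz E ^ 6 * (ww E S u / lm * (48 * K ^ 2 * (x ^ 2 + p ^ 2 + √u ^ 2) * E)) := by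
    gcongr
    nlinarith [mul_nonneg (sq_nonneg K) (add_nonneg (add_nonneg (sq_nonneg (x - p))
      (sq_nonneg (x - √u))) (sq_nonneg (p - √u)))]
  have s2 : √(ww E S u / lm) * ((9 * Xx E Y * (6 * E) + 3 * γ ^ 2 + 216 * (K * x) ^ 3 * (6 * E)) / 2) ≤
      √(ww E S u / lm) * (1000 * (K ^ 3 * Xx E Y * E)) := by
    have k1 : Xx E Y ≤ Xx E Y * E := le_mul_of_one_le_right X0.le X.E1
    have k2 : Xx E Y * E ≤ K ^ 3 * (Xx E Y * E) :=
      le_mul_of_one_le_left (by positivity) (one_le_pow₀ K1)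
    gcongr
    rw [mul_pow, xy]
    linarith
  have s3 : Zz E ^ 6 * (4 * ZA (ww E S u) (E ^ 2) (4 * K * (x + p + √u)) lm (6 * E) +
      4 * ((ww E S u / dm S) ^ 2 * (ww E S u / lm * (6 * E)))) =
      16 * (Zz E ^ 6 * (ww E S u * E ^ 2)) +
      96 * (Zz E ^ 6 * (ww E S u / lm * ((4 * K * (x + p + √u)) ^ 2 * E))) +
      16 * (Zz E ^ 6 * (ww E S u / lm * √(ww E S u / lm))) +
      24 * (Zz E ^ 6 * ((ww E S u / dm S) ^ 2 * (ww E S u / lm * E))) := by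
    rw [ZA]; ring
  rw [s3] at a
  rw [X3n]
  linarith [X.x30, X.X30]

/-- **`Np 3`** -/
theorem n3 : Np N (Su E S M Y D u) (Xx E Y) Vt γ u1 (Zz E ^ 3) 3 ≤ X3n E S M Y u := by
  have X := W.X
  have E0 := X.E0; have w0 := ww0 X; have N0 := X.N0; have up := X.u_pos; have m0 := mx0 X
  have Y0 := X.Y0
  have n0 : 0 < nuY KK E S Y := X.nu0.trans_le (le_max_left _ _)
  have w1 := (lg_ww X).1
  obtain ⟨y1, y2⟩ := X.lg_Y
  obtain ⟨e1, e2⟩ := X.lg_E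
  have lu := X.lg_u
  have c := (X.lg_num (x := 2) (by norm_num) (by norm_num)).2
  have e : ((KK ^ 2 : ℕ) : ℝ) = 10 ^ 8 := by norm_num [KK]
  rcases le_total (√u) ((S.n : ℝ) ^ (-(21 : ℝ) / 400)) with h | h
  · refine W.n3V (V := E ^ 60000 * (2 * (S.n : ℝ) ^ (-(21 : ℝ) / 400))) (by positivity) ?_
      (by gcongr; linarith) (W.hQ (B := S.n * max S.θ (nu S) * nuY KK E S Y ^ 2) ?_
        fun x a b => (W.T.dy x a b).trans_eq (by ring)) ?_
    · positivity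
    · positivity
    · lg_norm
      rw [e, X.lg_n]
      linarith [lg_nuY X]
  · have k := X.lg_mono (by positivity) h
    refine W.n3V (V := E ^ 60000 * (2 * √u)) (by positivity) ?_
      (by gcongr; linarith) (W.hQ ?_ W.T.dq) ?_
    · positivity
    · positivity
    · revert k
      lg_norm
      rw [X.lg_n]
      intro k
      linarith

/-- **`Np 2`** -/
theorem n2 : Np N (Su E S M Y D u) (Xx E Y) Vt γ u1 (Zz E ^ 3) 2 ≤ X2 E S M Y u :=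
  W.n2g fun x hx a b c d => W.X.le_X2 hx a b c (by
    obtain ⟨b1, -, b3, -⟩ := W.X.lg_Bd
    obtain ⟨e1, e2⟩ := W.X.lg_E
    rcases d with d | d <;> linarith)

variable {G0 : ℝ} (hG : E ^ 5001 * nu S + Gp E S Y ≤ G0)
include hG

theorem G_sq : (E ^ 5001 * nu S) ^ 2 + Gp E S Y ^ 2 ≤ G0 ^ 2 := by
  have := W.X.E0; have := W.X.nu0; have := W.X.Gp0
  exact (pow_add_pow_le (by positivity) W.X.Gp0.le two_ne_zero).trans
    (pow_le_pow_left₀ (by positivity) hG 2)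

theorem G_key {t : ℝ} (h : t ≤ 4 * √(Xx E Y)) : ww E S u * t ≤ lm * G0 ^ 2 := by
  have l0 := lm0 W.X
  have a := mul_le_mul_of_nonneg_left (((wl_Gp W.X).trans
    (le_add_of_nonneg_left (sq_nonneg _))).trans (W.G_sq hG)) l0.le
  refine le_trans ?_ a
  rw [show lm * (4 * (ww E S u / lm) * √(Xx E Y)) = ww E S u * (4 * √(Xx E Y)) by field_simp]
  exact mul_le_mul_of_nonneg_left h (ww0 W.X).le

theorem G_w : ww E S u ≤ G0 ^ 2 :=
  ((w_nu W.X).trans (le_add_of_nonneg_right (sq_nonneg _))).trans (W.G_sq hG)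

omit hG in
theorem u1_nu : u1 ≤ nu S := W.X.le_of_lg W.u10 W.X.nu0 (by
  linarith [W.X.lg_nu, W.lg_u1.2.1, W.X.lg_E.2])

theorem g0p : u1 ≤ G0 ∧ ∀ k, S.J ≤ k → k ≤ S.Jp → u1 ≤ du N k →
    (Su E S M Y D u).w3 1 * (Rp N (Su E S M Y D u) (Xx E Y) Vt γ k /
      (Su E S M Y D u).den (N.z (k - 1)) + ds N (Su E S M Y D u) k) ≤ G0 ^ 2 := by
  refine ⟨?_, fun k a b c => (Tp72.g0p W.pd W.px (mem_filter.2 ⟨mem_Icc.2 ⟨a, b⟩, c⟩)).trans ?_⟩
  · linarith [W.u1_nu, W.X.Gp0, le_mul_of_one_le_left W.X.nu0.le (one_le_pow₀ (n := 5001) W.X.E1)]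
  · linarith [wl_Gp W.X, w_nu W.X, W.G_sq hG]

theorem g0c : ∃ lm, 0 < lm ∧ (∀ k, S.J ≤ k → k ≤ S.Jp → u1 ≤ du N k →
      lm ≤ S.den (N.z (k - 1)) * ds N (Su E S M Y D u) k) ∧
    (Su E S M Y D u).w3 1 * (√(Xx E Y) + γ + u1 + S.u0 * Xx E Y ^ ((1 : ℝ) / 3)) ≤ lm * G0 ^ 2 := by
  refine ⟨lm, lm0 W.X, fun k a _ c => W.lm_le a c, W.G_key hG ?_⟩
  have a : S.u0 ≤ _ := W.px.u0
  nlinarith [W.px.γ1, W.u1_nu.trans (nu_y W.X), x_y W.pd W.px, x0 W.pd W.px]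

theorem g0d : (∃ b, 0 < b ∧ (∀ k, S.J ≤ k → k ≤ S.Jp → u1 ≤ du N k →
      b ^ 2 ≤ S.den (N.z (k - 1)) ^ 2 * dl N (Su E S M Y D u) k ^ 3) ∧
      (Su E S M Y D u).w3 1 * (√(Xx E Y) + γ + √S.u0 * Xx E Y ^ ((1 : ℝ) / 3)) ≤ b * G0 ^ 2) ∨
    ∃ d, 0 < d ∧ (∀ k, S.J ≤ k → k ≤ S.Jp → u1 ≤ du N k → d ≤ S.den (N.z (k - 1))) ∧
      (Su E S M Y D u).w3 1 * (Xx E Y ^ ((1 : ℝ) / 3) + γ) ≤ d * G0 ^ 2 := by
  have X := W.X
  have x0 := x0 W.pd W.px
  have l0 := lm0 X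
  rcases X.sx.gd with h | h
  · refine .inl ⟨lm, l0, fun k a _ c => ?_, W.G_key hG ?_⟩
    · rw [W.dl_eq, W.hz]
      exact h _ (W.pt a) (by linarith [W.du_eq k, W.u10])
    · have b : √S.u0 * Xx E Y ^ ((1 : ℝ) / 3) ≤ √(Xx E Y) := by
        refine le_sqrt_of_sq_le ?_
        rw [mul_pow, sq_sqrt X.cx.sh.u0.1.le]
        nth_rewrite 2 [← cube3 X.X0.le]
        exact (mul_le_mul_of_nonneg_right W.px.u0 (sq_nonneg _)).trans_eq (by ring)
      linarith [W.px.γ1, sqrt_nonneg (Xx E Y)]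
  · refine .inr ⟨lm, l0, fun k a _ c => (W.lm_le a c).trans
      (mul_le_of_le_one_right (X.cl.den0 _).le (ds1 W.pd W.px k)), ?_⟩
    have w0 := ww0 X; have := X.Gp0; have := X.N0; have := mx0 X
    have b : ww E S u * (2 * Xx E Y ^ ((1 : ℝ) / 3)) ≤ lm * Gp E S Y ^ 2 := by
      have k := X.lg_mono (by positivity) h
      have g := X.lg_Gp
      have c := (X.lg_num (x := 2) (by norm_num) (by norm_num)).2
      have lx := W.lg_x
      refine X.le_of_lg (by positivity) (by positivity) ?_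
      generalize Xx E Y ^ ((1 : ℝ) / 3) = x at *
      revert k
      lg_norm
      rw [X.lg_n]
      intro k
      have := le_min (show -1 / 2 ≤ logb S.n Y - 10 ^ 8 * logb S.n E by linarith [X.lg_Y.1])
        (show (-1 : ℝ) / 2 ≤ -249 / 500 by norm_num)
      linarith [(lg_ww X).1, X.lg_X.1, X.lg_Y.1, X.lg_E.1, X.lg_E.2]
    exact ((mul_le_mul_of_nonneg_left (by linarith [W.px.γ1, y_x W.pd W.px]) w0.le).trans b).trans
      (mul_le_mul_of_nonneg_left ((le_add_of_nonneg_left (sq_nonneg _)).trans (W.G_sq hG)) l0.le)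

theorem g0e : S.ue ≤ G0 ^ 2 ∧ ∀ k, S.J ≤ k → k ≤ S.Jp → S.ue ≤ du N k → du N k < u1 →
    (Su E S M Y D u).w3 1 ≤ G0 ^ 2 * S.den (N.z (k - 1)) := by
  have X := W.X
  have := X.N0; have := X.E0; have := X.nu0
  refine ⟨(X.sx.ue2.trans (X.le_of_lg (by positivity) (by positivity) ?_)).trans
    ((le_add_of_nonneg_right (sq_nonneg _)).trans (W.G_sq hG)), fun k a _ c d => ?_⟩
  · lg_norm
    linarith [X.lg_n, X.lg_nu, X.lg_E.1]
  · have e : u1 ≤ (S.n : ℝ) ^ (-(1 : ℝ) / 2) := X.le_of_lg W.u10 (by positivity) (by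
      linarith [X.lg_rp (-(1 : ℝ) / 2), W.lg_u1.2.1, X.lg_E.2])
    rw [W.du_eq] at c d
    rw [W.hz]
    exact (W.G_w hG).trans
      (le_mul_of_one_le_right (sq_nonneg _) (X.sx.dl _ (W.pt a) c (d.le.trans e)))

/-- **`LP`** with some cost -/
theorem lp {X2 X3 G1 u2 j Lc ηc τ : ℝ} (η : ℝ → ℝ)
    (rev : ∃ k1, S.Jp ≤ k1 ∧ k1 ≤ N.N ∧ 1 / (Su E S M Y D u).C ≤ ((k1 : ℝ) - S.Jp) * S.v ∧
      ∀ k, S.Jp ≤ k → k < k1 → (Su E S M Y D u).θ * S.v /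
        ((Su E S M Y D u).C * (Su E S M Y D u).F) ≤ N.H (k + 1) - N.H k)
    (fl : N.s S.Jp - N.s S.J ≤ γ) (u12 : u1 ≤ u2) (u2E : E ^ 360 * u2 ≤ 1)
    (h2 : Np N (Su E S M Y D u) (Xx E Y) Vt γ u1 (Zz E ^ 3) 2 ≤ X2) (h3 : X3n E S M Y u ≤ X3)
    (tw : (Su E S M Y D u).w3 1 ≤ τ ^ 3) (Lc1 : Zz E ≤ Lc ∧ Lc ≤ S.n)
    (ηc1 : ∀ v, v = Lc ^ ((2 : ℝ) / 3) * (Su E S M Y D u).w3 1 ^ ((1 : ℝ) / 3) →
      v ^ 3 + v ^ 2 * ((Su E S M Y D u).θ + j + Xx E Y ^ ((1 : ℝ) / 3)) +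
      (√(Lc * gg (Su E S M Y D u) 1) + G0 + X2) * (v + √X2) + X3 + 1 / S.n ≤ ηc ∧
        E ^ 360 * v ^ 2 ≤ mf (Su E S M Y D u) 1)
    (τ0 : Xx E Y ^ ((1 : ℝ) / 3) / Lc + ηc / mf (Su E S M Y D u) 1 ≤ τ)
    (τ1 : τ ≤ Xx E Y ^ ((1 : ℝ) / 3)) (j1 : E ^ 360 * (j + τ) ≤ 1) :
    ∃ N', LP (E ^ 360) (Su E S M Y D u) N (Xx E Y) Vt (Zz E) (Zz E ^ 3) X2 X3 G0 G1 u1 u2 j γ Lc ηc τ
      η N' := by
  have X := W.X
  have := X.E0; have := X.X0; have := X.nu0; have := X.Z0; have := X.N0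
  have key : ∀ a b c d e f g i k p : ℝ, ∃ N, a ≤ N ∧ b ≤ N ∧ c ≤ N ∧ d ≤ N ∧ e ≤ N ∧ f ≤ N ∧
      g ≤ N ∧ i ≤ N ∧ k ≤ N ∧ p ≤ N := fun a b c d e f g i k p => by
    obtain ⟨N, hN⟩ := Finset.exists_le ({a, b, c, d, e, f, g, i, k, p} : Finset ℝ)
    exact ⟨N, by simpa using hN⟩
  have Z1 : 1 ≤ Zz E := one_le_pow₀ X.E1
  have a1 : E ^ 360 * Xx E Y ≤ 1 := X.le_of_lg (by positivity) one_pos (by
    lg_norm
    linarith [X.lg_X.2, X.lg_Y.2, X.lg_E.1, X.lg_E.2])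
  have a2 : E ^ 360 * nu S ≤ 1 := X.le_of_lg (by positivity) one_pos (by
    lg_norm
    linarith [X.lg_nu, X.lg_E.2])
  have a3 : Zz E ^ 3 ≤ S.n := X.le_of_lg (by positivity) X.N0 (by
    lg_norm
    linarith [X.lg_Z, X.lg_n, X.lg_E.2])
  obtain ⟨N', a, b, c, d, e, f, g, i, k, p⟩ := key _ _ _ _ _ _ _ _ _ _
  exact ⟨N', X.cx.sh.u0.1, rev, ⟨X.X0, a1⟩, W.V0, W.pd.ue.le, ⟨u12, u2E⟩, fl,
    (mul_le_mul_of_nonneg_left W.γ1 (by positivity)).trans a2, ⟨one_le_pow₀ Z1, a3⟩, le_rfl,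
    W.far (le_self_pow₀ Z1 (by norm_num)), h2, W.n3.trans h3, W.g0p hG, W.g0c hG, W.g0d hG,
    .inr (W.g0e hG), a, fun _ h => h ▸ b, c, d, e, f, g, tw, i, Lc1, ηc1, τ0, τ1, j1,
    fun _ _ h h' => by subst h h'; exact ⟨k, Or.inl p⟩⟩

end Ty

section z

variable {E : ℝ} {S : Sc} {M : Md} {l lm Ys Y D u r1 r2 Vt γ : ℝ} {c F : ℕ → ℝ}
  (Z : Tm71.Tx KK E S M l lm Ys Y c D u F) (T : Tp KK E S M lm Y r1 r2) (V0 : 0 ≤ Vt)
  (V2 : Vt ≤ E ^ 60000 * (Xx E Y ^ ((1 : ℝ) / 3) + (S.n : ℝ) ^ (-(21 : ℝ) / 400) + √u))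
  (γ0 : M.s S.Jp - M.s S.J ≤ γ) (γ1 : γ ≤ nu S)
include Z T V0 V2 γ0 γ1

theorem ty_of : Ty E S M Z.N l lm Ys Y D u r1 r2 (8 * r1) Vt γ := by
  have X : Tx E S M l lm Ys Y u := ⟨Z.X, Z.sx, Z.u1, Z.u2⟩
  have := X.N0; have := mx0 X
  have r0 : 0 < r1 :=
    (pos_iff_pos_of_mul_pos ((rpow_pos_of_pos X.N0 _).trans_le T.a1)).1 (by positivity)
  exact ⟨X, T, Z.cl', rfl, rfl, by linarith, le_rfl, V0, V2,
    (sub_nonneg.2 (X.cl.sm X.cl.i3)).trans γ0, γ1⟩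

/-- **`LP` on the table** -/
theorem lpZ {G1 j Lc ηc τ : ℝ} (η : ℝ → ℝ) (tw : Z.S'.w3 1 ≤ τ ^ 3) (Lc1 : Zz E ≤ Lc ∧ Lc ≤ Z.S'.n)
    (ηc1 : ∀ v, v = Lc ^ ((2 : ℝ) / 3) * Z.S'.w3 1 ^ ((1 : ℝ) / 3) →
      v ^ 3 + v ^ 2 * (Z.S'.θ + j + Xx E Y ^ ((1 : ℝ) / 3)) +
      (√(Lc * gg Z.S' 1) + G0 E S M Y u + X2 E S M Y u) * (v + √(X2 E S M Y u)) + X3n E S M Y u +
        1 / Z.S'.n ≤ ηc ∧ E ^ 360 * v ^ 2 ≤ mf Z.S' 1)
    (τ0 : Xx E Y ^ ((1 : ℝ) / 3) / Lc + ηc / mf Z.S' 1 ≤ τ)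
    (τ1 : τ ≤ Xx E Y ^ ((1 : ℝ) / 3)) (j1 : E ^ 360 * (j + τ) ≤ 1) :
    ∃ N', LP (E ^ 360) Z.S' Z.N (Xx E Y) Vt (Zz E) (Zz E ^ 3) (X2 E S M Y u) (X3n E S M Y u)
      (G0 E S M Y u) G1 (8 * r1) (2 * r2) j γ Lc ηc τ η N' := by
  have W := ty_of Z T V0 V2 γ0 γ1
  have X := W.X
  have a : 4 * r1 ≤ r2 := (mul_le_mul_of_nonneg_right
    ((show 4 ≤ E by linarith [X.cx.E3]).trans Z.E_Q) W.r10.le).trans T.a3
  have := X.E0; have := X.Yd0
  have b : E ^ 360 * (2 * Yd KK E Y) ≤ 1 := X.le_of_lg (by positivity) one_pos (by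
    lg_norm
    linarith [X.lg_Yd, X.lg_Y.2, X.lg_E.1, (X.lg_num (x := 2) (by norm_num) (by norm_num)).2])
  exact W.lp (by rw [G0]; linarith [X.X20]) η Z.rev' γ0 (by linarith)
    ((mul_le_mul_of_nonneg_left (by linarith [T.a4]) (by positivity)).trans b) W.n2 le_rfl tw Lc1 ηc1
    τ0 τ1 j1

end z

end Crest.Agent.T156.Alt.Tp72

end
end

-- ▼ part T156/TermL_72

/-!
# Row 156, SR, terminal statement: `HLP` (helper72)
-/

set_option autoImplicit false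

noncomputable section

namespace Crest.Agent.T156.Alt.Tm92

open Real

theorem hLP : HLP := fun _ _ _ _ _ _ _ _ _ _ _ Z _ _ T _ _ _ _ η C =>
  Tp72.lpZ Z T (le_min zero_le_one ((Tt46.V2_pos (tx Z)).le.trans (Tt46.V2_le (tx Z))))
    ((min_le_right _ _).trans (Tp72.vt_le (tx Z))) Z.sx.fl2 le_rfl η C.tw C.Lc1 C.ηc1 C.τ0 C.τ1 C.j1

end Crest.Agent.T156.Alt.Tm92

end
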