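import Crest.Agent.T156.GapW_89
import Crest.Agent.T156.ClSzB_61
import Crest.Agent.T156.LDef_69

/-!
# Row 156, block (L): short gaps of the net below the corner (helper61)
-/

set_option autoImplicit false

noncomputable section

namespace Crest.Agent.T156.Alt.Tx61

open Real Finset
open Crest.Agent.T156.Alt.Mp9 Crest.Agent.T156.Alt.G89 Crest.Agent.T156.Alt.L69
open Crest.Agent.T156.Alt.Sz9

/-- a net of good nodes on `[U, V]` with uniform errors -/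
structure Ne (S : Sc) (M : Md) (m : ℕ) (a T : ℝ) (Gn : ℕ → Prop) (U V : ℕ) (ec la al θ : ℝ) :
    Prop where
  A : At S M m a T
  hU : S.jl < U
  hV : V < S.J
  gU : Gn U
  gV : Gn V
  nn : 0 ≤ ec ∧ 0 ≤ la ∧ 0 ≤ al ∧ 0 ≤ θ
  e1 : ∀ i k, U ≤ i → i ≤ k → k ≤ V → Gn i → Gn k → |res M S m a T k - res M S m a T i| ≤
    ec + la * G89.ds M m a i k + al * (M.z k - M.z i)
  lab : ∀ i k, Nx Gn U V i k → i < k → M.z (k - 1) - M.z i ≤ θ * G89.ds M m a i k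

/-- **one gap**, explicit numbers -/
theorem gapC (T0 C0 : ℝ) : ∃ ε : ℝ, 0 < ε ∧ ε ≤ 1 ∧ ∀ {S : Sc} {M : Md} {m : ℕ} {a T : ℝ}
    {Gn : ℕ → Prop} {U V p q : ℕ} {ec la al θ η μ Mc τ0 w : ℝ},
    Ne S M m a T Gn U V ec la al θ → S.C ≤ C0 → T ≤ T0 → ec + al * (S.C * S.v) ≤ η →
    (∀ x y, U ≤ x → x ≤ y → y ≤ V → μ * (M.z y - M.z x) ≤ M.H y - M.H x) →
    M.H q - M.H p ≤ Mc * (M.z q - M.z p) → 0 < w → 0 < μ → 0 < τ0 → 0 ≤ Mc → θ ≤ ε →
    S.v ≤ ε * w → τ0 ≤ ε * w → la + (al + Mc) * θ ≤ ε * w ^ 2 → al ≤ ε * μ →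
    η + Mc * S.v ≤ ε * w ^ 3 → η + 1 / (m + 1) + S.v ^ 3 ≤ ε * (μ * τ0) →
    Nx Gn U V p q → M.z U + τ0 ≤ M.z p → M.z q + τ0 ≤ M.z V → G89.ds M m a p q ^ 2 ≤ w ^ 2 := by
  classical
  obtain ⟨ε, ε0, ε1, H⟩ := gapW T0 C0
  refine ⟨ε, ε0, ε1, fun {S M m a T Gn U V p q ec la al θ η μ Mc τ0 w} N hC hT hη fl ce w0 μ0 t0 M0
    n1 n2 n2' n3 n4 n5 n6 n dn up => ?_⟩
  have A := N.A
  have h := A.cl
  obtain ⟨e0, l0, a0, θ0⟩ := N.nn
  have hU := N.hU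
  have hV := N.hV
  have i1 := h.i1
  have i3 := h.i3
  have cv : 0 ≤ al * (S.C * S.v) := mul_nonneg a0 (mul_nonneg h.C0.le h.v0.le)
  have η0 : 0 ≤ η := by linarith
  rcases n.2.1.eq_or_lt with rfl | pq
  · simp only [G89.ds, sub_self]; nlinarith
  have G : GH S M m a T Gn U V (fun _ => η) (fun _ => 0) (fun _ => al) (fun _ => al) la 0 θ := by
    refine ⟨A, hU, hV, l0, le_rfl, θ0, fun _ => a0, fun i k b1 b2 b3 gi gk => ?_, N.lab,
      fun _ _ _ _ => le_rfl, fun _ _ _ _ _ _ => by simp⟩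
    refine (N.e1 i k b1 b2 b3 gi gk).trans ?_
    rcases b2.eq_or_lt with rfl | c
    · simp only [sub_self, Ioo_self, sum_empty]; linarith
    have e1 : Ioo i k = Ioc i (k - 1) := by ext y; simp only [mem_Ioo, mem_Ioc]; omega
    rw [← sum_mul, e1, At.sum_dz M (by omega)]
    have d := (h.zs (k - 1) (by omega) (by omega)).2
    rw [show k - 1 + 1 = k by omega] at d
    nlinarith [mul_le_mul_of_nonneg_left d a0]
  have w2 : 0 < w ^ 2 := by positivity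
  have R := H (W := fun y => if y = p then w ^ 2 else T ^ 2 + w ^ 2) (Kw := (T ^ 2 + w ^ 2) / w ^ 2)
    G hC hT (fun y => by split_ifs <;> positivity) (by positivity) (fun p' q' n' c => ?_) p q n
  · simpa using R
  obtain ⟨b1, b2, b3, g1, g2, g3⟩ := id n'
  by_cases e : p' = p
  · subst e
    simp only [if_true] at c
    have e : q' = q := by
      rcases lt_trichotomy q' q with d | d | d
      · rcases b2.eq_or_lt with rfl | d'
        · simp only [G89.ds, sub_self] at c; nlinarith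
        · exact absurd g2 (n.2.2.2.2.2 _ d' d)
      · exact d
      · exact absurd n.2.2.2.2.1 (g3 _ pq d)
    subst e
    refine ⟨U, V, η, al, 0, μ, Mc, τ0, max (gd M S m a T p') (gd M S m a T q'), w, le_rfl, b1, b3,
      le_rfl, N.gU, N.gV, by simpa using dn, by simpa using up, fun y _ _ => ⟨?_, le_rfl,
        fun _ => ⟨le_rfl, le_rfl⟩⟩, fl, ce, le_max_left _ _, le_max_right _ _, w0, by simp, μ0, t0,
      ⟨η0, a0, le_rfl, M0⟩, by simpa using n1, ⟨n2, n2'⟩, by simpa using n3, by simpa using n4, n5,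
      n6⟩
    simp only [if_true]
    rw [div_mul_cancel₀ _ w2.ne']
    split_ifs <;> nlinarith [sq_nonneg T]
  · simp only [if_neg e] at c
    have c1 := A.sb_mem (k := p') (by omega)
    have c2 := A.sb_mem (k := q') (by omega)
    have c3 := ds_nn A b2
    have c4 : G89.ds M m a p' q' ≤ T := by unfold G89.ds; linarith [c1.1, c2.2]
    nlinarith [pow_le_pow_left₀ c3 c4 2]

theorem young4 {τ u y : ℝ} (h : y ^ 2 ≤ τ * u ^ 3) :
    y ≤ τ ^ 2 + u ^ 2 := by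
  refine le_of_pow_le_pow_left₀ two_ne_zero (by positivity) (h.trans ?_)
  nlinarith [mul_nonneg (sq_nonneg u) (sq_nonneg (τ - u)), sq_nonneg (τ ^ 2), sq_nonneg (τ * u),
    sq_nonneg (u ^ 2)]

set_option maxHeartbeats 800000 in
/-- the numbers of `gapC` -/
theorem num {ε c D Λ W Q F s η1 ηc τ u v X2 y θ ec la al x w : ℝ} (ε0 : 0 < ε) (ε1 : ε ≤ 1)
    (c1 : 1 ≤ c) (hΛ : 4608 * c ^ 16 ≤ ε ^ 2 * Λ) (hD : 4608 * c ^ 16 ≤ ε ^ 2 * D) (W1 : 1 ≤ W)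
    (WD : W ≤ D) (Q1 : 1 ≤ Q) (QD : Q ≤ D) (F1 : 1 ≤ F) (FD : F ≤ D) (s0 : 0 < s)
    (f1 : D ^ 10 * η1 ≤ s ^ 3) (η0 : 0 ≤ η1) (f2 : D ^ 10 * X2 ≤ s ^ 2) (u0 : 0 ≤ u)
    (f3 : u ^ 3 ≤ ηc) (fx : x ≤ ηc) (f4 : D ^ 10 * u ^ 2 ≤ s ^ 2) (f5 : ηc ≤ τ * s ^ 2) (t0 : 0 < τ)
    (v0 : 0 ≤ v) (f6 : v ≤ c ^ 2 * τ) (f6' : v ≤ c ^ 2 * u) (f7 : y ≤ τ ^ 2 + u ^ 2) (θ0 : 0 ≤ θ)
    (f8 : D ^ 9 * F ^ 2 * θ ≤ 1) (he : ec ≤ W * F * (ηc + η1)) (hl : la ≤ W * F * (X2 + y))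
    (a0 : 0 ≤ al) (ha : al ≤ W * F * u ^ 2) (w0 : 0 < w)
    (hw : w ^ 2 = s ^ 2 / Q + (Λ * W * Q * F * τ) ^ 2) :
    ec + al * (c * v) ≤ W * F * (2 * c ^ 3 * ηc + η1) ∧ θ ≤ ε ∧ v ≤ ε * w ∧
    2304 * c ^ 16 / ε * W * F * (τ + η1 / s ^ 2) ≤ ε * w ∧
    la + (al + 4 * c ^ 4 * F ^ 2 * s ^ 2) * θ ≤ ε * w ^ 2 ∧ al ≤ ε * (s ^ 2 / (576 * c ^ 10)) ∧
    W * F * (2 * c ^ 3 * ηc + η1) + 4 * c ^ 4 * F ^ 2 * s ^ 2 * v ≤ ε * w ^ 3 ∧
    W * F * (2 * c ^ 3 * ηc + η1) + x + v ^ 3 ≤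
      ε * (s ^ 2 / (576 * c ^ 10) * (2304 * c ^ 16 / ε * W * F * (τ + η1 / s ^ 2))) := by
  have cp : ∀ {i j : ℕ}, i ≤ j → c ^ i ≤ c ^ j := fun e => pow_le_pow_right₀ c1 e
  have c0 : 0 < c := by linarith
  have c16 : 1 ≤ c ^ 16 := one_le_pow₀ c1
  have D1 : 1 ≤ D := W1.trans WD
  have D0 : 0 < D := by linarith
  have dp : ∀ {i j : ℕ}, i ≤ j → D ^ i ≤ D ^ j := fun e => pow_le_pow_right₀ D1 e
  have e2 : ε ^ 2 ≤ ε := pow_le_of_le_one ε0.le ε1 two_ne_zero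
  have Λ0 : 0 < Λ := by
    by_contra h
    linarith [mul_nonneg (sq_nonneg ε) (neg_nonneg.2 (not_lt.1 h))]
  have hΛ1 : 4608 * c ^ 16 ≤ ε * Λ := hΛ.trans (by gcongr)
  have hD1 : 4608 * c ^ 16 ≤ ε * D := hD.trans (by gcongr)
  have Λ1 : 1 ≤ Λ := by linarith [mul_le_mul_of_nonneg_right ε1 Λ0.le]
  have ηc0 : 0 ≤ ηc := le_trans (by positivity) f3
  have WF1 : 1 ≤ W * F := one_le_mul_of_one_le_of_one_le W1 F1
  have WF : W * F ≤ D ^ 2 := by rw [sq]; gcongr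
  have s2 : 0 < s ^ 2 := by positivity
  have s3 : 0 < s ^ 3 := by positivity
  obtain ⟨B, hB⟩ : ∃ B, B = Λ * W * Q * F * τ := ⟨_, rfl⟩
  rw [← hB] at hw
  have B1 : Λ * (W * F * τ) ≤ B := by
    rw [hB]
    linarith [mul_le_mul_of_nonneg_left Q1 (show 0 ≤ Λ * (W * F * τ) by positivity)]
  have B0 : 0 ≤ B := by rw [hB]; positivity
  have Bw : B ≤ w := le_of_pow_le_pow_left₀ two_ne_zero w0.le (by
    rw [hw]; exact le_add_of_nonneg_left (by positivity))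
  have sQ : s ^ 2 ≤ Q * w ^ 2 := by
    rw [← div_le_iff₀' (by positivity), hw]; exact le_add_of_nonneg_right (by positivity)
  have sw2 : s ^ 2 ≤ D * w ^ 2 := sQ.trans (by gcongr)
  have sw : s ≤ D * w := le_of_pow_le_pow_left₀ two_ne_zero (by positivity) (sw2.trans (by
    rw [mul_pow]; gcongr; exact le_self_pow₀ D1 two_ne_zero))
  have sw3 : s ^ 3 ≤ D ^ 2 * w ^ 3 := by
    calc s ^ 3 = s ^ 2 * s := by ring
      _ ≤ D * w ^ 2 * (D * w) := by gcongr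
      _ = _ := by ring
  have us : D ^ 5 * u ≤ s := le_of_pow_le_pow_left₀ two_ne_zero s0.le (by linarith)
  have θ1 : D ^ 9 * θ ≤ 1 := le_trans (by
    linarith [mul_le_mul_of_nonneg_left (one_le_pow₀ (n := 2) F1)
      (show 0 ≤ D ^ 9 * θ by positivity)]) f8
  have al1 : D ^ 8 * al ≤ s ^ 2 :=
    calc _ ≤ D ^ 8 * (D ^ 2 * u ^ 2) := by gcongr; exact ha.trans (by gcongr)
      _ ≤ _ := by linarith
  have τw : W * F * τ * (4608 * c ^ 16) ≤ ε * w :=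
    calc _ ≤ W * F * τ * (ε * Λ) := by gcongr
      _ = ε * (Λ * (W * F * τ)) := by ring
      _ ≤ _ := by gcongr; exact B1.trans Bw
  have g1 : ec + al * (c * v) ≤ W * F * (2 * c ^ 3 * ηc + η1) := by
    have b1 : al * (c * v) ≤ W * F * (c ^ 3 * ηc) :=
      calc _ ≤ W * F * u ^ 2 * (c * (c ^ 2 * u)) := by gcongr
        _ = W * F * (c ^ 3 * u ^ 3) := by ring
        _ ≤ _ := by gcongr
    have b2 : W * F * ηc ≤ W * F * (c ^ 3 * ηc) := by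
      gcongr; exact le_mul_of_one_le_left ηc0 (one_le_pow₀ c1)
    linarith
  refine ⟨g1, ?_, ?_, ?_, ?_, ?_, ?_, ?_⟩
  · refine le_of_mul_le_mul_left (θ1.trans ?_) (pow_pos D0 9)
    linarith [mul_le_mul_of_nonneg_left (le_self_pow₀ D1 (show 9 ≠ 0 by norm_num)) ε0.le]
  · refine f6.trans (le_trans ?_ τw)
    calc c ^ 2 * τ = 1 * τ * c ^ 2 := by ring
      _ ≤ _ := by gcongr; linarith [cp (show 2 ≤ 16 by norm_num)]
  · have b1 : 2304 * c ^ 16 / ε * (W * F * τ) ≤ ε * w / 2 := by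
      rw [div_mul_eq_mul_div, div_le_iff₀ ε0]
      calc _ ≤ ε ^ 2 * Λ / 2 * (W * F * τ) := by gcongr; linarith
        _ = ε ^ 2 / 2 * (Λ * (W * F * τ)) := by ring
        _ ≤ ε ^ 2 / 2 * w := by gcongr; exact B1.trans Bw
        _ = _ := by ring
    have b2 : D ^ 9 * (η1 / s ^ 2) ≤ w := by
      rw [← mul_div_assoc, div_le_iff₀ s2]
      refine le_of_mul_le_mul_left ?_ D0
      linarith [mul_le_mul_of_nonneg_left sw s2.le]
    have b3 : 2304 * c ^ 16 / ε * (W * F * (η1 / s ^ 2)) ≤ ε * w / 2 := by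
      rw [div_mul_eq_mul_div, div_le_iff₀ ε0]
      calc _ ≤ ε ^ 2 * D / 2 * (D ^ 8 * (η1 / s ^ 2)) := by
            gcongr
            · linarith
            · exact WF.trans (dp (by norm_num))
        _ = ε ^ 2 / 2 * (D ^ 9 * (η1 / s ^ 2)) := by ring
        _ ≤ ε ^ 2 / 2 * w := by gcongr
        _ = _ := by ring
    linarith
  · have b1 : W * F * τ ^ 2 ≤ ε * B ^ 2 :=
      calc _ = 1 * 1 * (W * F * 1 * τ ^ 2) := by ring
        _ ≤ ε * Λ * Λ * (W * F * (W * F) * τ ^ 2) := by gcongr; linarith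
        _ = ε * (Λ * (W * F * τ)) ^ 2 := by ring
        _ ≤ _ := by gcongr
    have b2 : D ^ 8 * (W * F * (X2 + u ^ 2)) ≤ 2 * s ^ 2 := by
      rcases le_total (X2 + u ^ 2) 0 with h | h
      · linarith [mul_nonneg (show 0 ≤ D ^ 8 * (W * F) by positivity) (neg_nonneg.2 h)]
      · linarith [mul_le_mul_of_nonneg_right WF (show 0 ≤ D ^ 8 * (X2 + u ^ 2) by positivity)]
    have b3 : D ^ 8 * (al * θ) ≤ s ^ 2 := by
      have : θ ≤ 1 := le_trans (le_mul_of_one_le_left θ0 (one_le_pow₀ D1)) θ1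
      linarith [mul_le_mul_of_nonneg_left this (show 0 ≤ D ^ 8 * al by positivity)]
    have b4 : D ^ 8 * (4 * c ^ 4 * F ^ 2 * s ^ 2 * θ) ≤ 4 * c ^ 16 * s ^ 2 :=
      calc _ = 4 * c ^ 4 * s ^ 2 * (D ^ 8 * F ^ 2 * θ) := by ring
        _ ≤ 4 * c ^ 16 * s ^ 2 * 1 := by
          gcongr
          · norm_num
          · exact le_trans (by gcongr; norm_num) f8
        _ = _ := by ring
    have b5 : 7 * c ^ 16 * s ^ 2 ≤ D ^ 8 * (ε * (s ^ 2 / Q)) :=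
      calc _ ≤ ε * D * s ^ 2 := mul_le_mul_of_nonneg_right (by linarith) s2.le
        _ = D * Q * (ε * (s ^ 2 / Q)) := by field_simp
        _ ≤ D * D ^ 7 * (ε * (s ^ 2 / Q)) := by
          gcongr; exact QD.trans (le_self_pow₀ D1 (by norm_num))
        _ = _ := by ring
    have b6 := mul_le_mul_of_nonneg_right c16 s2.le
    have b7 : W * F * (X2 + u ^ 2) + (al * θ + 4 * c ^ 4 * F ^ 2 * s ^ 2 * θ) ≤ ε * (s ^ 2 / Q) :=
      le_of_mul_le_mul_left (by linarith) (pow_pos D0 8)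
    have b8 := mul_le_mul_of_nonneg_left f7 (show 0 ≤ W * F by positivity)
    rw [hw]
    linarith
  · rw [← mul_div_assoc, le_div_iff₀ (by positivity)]
    calc _ ≤ al * (ε * D ^ 8) := by
          refine mul_le_mul_of_nonneg_left ?_ a0
          refine le_trans ?_ (mul_le_mul_of_nonneg_left (le_self_pow₀ D1 (by norm_num)) ε0.le)
          linarith [cp (show 10 ≤ 16 by norm_num)]
      _ ≤ _ := by linarith [mul_le_mul_of_nonneg_left al1 ε0.le]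
  · have b1 : W * F * (2 * c ^ 3 * ηc) ≤ ε * w ^ 3 / 2 :=
      calc _ ≤ W * F * (ε * Λ / 2 * (τ * (Q * w ^ 2))) :=
            mul_le_mul_of_nonneg_left (mul_le_mul (by linarith [cp (show 3 ≤ 16 by norm_num)])
              (f5.trans (by gcongr)) ηc0 (by positivity)) (by positivity)
        _ = ε * w ^ 2 / 2 * B := by rw [hB]; ring
        _ ≤ ε * w ^ 2 / 2 * w := by gcongr
        _ = _ := by ring
    have b2 : D ^ 3 * (W * F * η1) ≤ s ^ 3 :=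
      calc _ ≤ D ^ 8 * (D ^ 2 * η1) := by gcongr; norm_num
        _ ≤ _ := by linarith
    have b3 : D ^ 3 * (4 * c ^ 4 * F ^ 2 * s ^ 2 * v) ≤ 4 * c ^ 16 * s ^ 3 :=
      calc _ ≤ D ^ 3 * (4 * c ^ 4 * D ^ 2 * s ^ 2 * (c ^ 2 * u)) := by gcongr
        _ = 4 * c ^ 6 * s ^ 2 * (D ^ 5 * u) := by ring
        _ ≤ 4 * c ^ 16 * s ^ 2 * s := by gcongr; norm_num
        _ = _ := by ring
    have b4 : 10 * c ^ 16 * s ^ 3 ≤ D ^ 3 * (ε * w ^ 3) :=
      calc _ ≤ ε * D * (D ^ 2 * w ^ 3) := mul_le_mul (by linarith) sw3 s3.le (by positivity)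
        _ = _ := by ring
    have b6 := mul_le_mul_of_nonneg_right c16 s3.le
    have b7 : W * F * η1 + 4 * c ^ 4 * F ^ 2 * s ^ 2 * v ≤ ε * w ^ 3 / 2 :=
      le_of_mul_le_mul_left (by linarith) (pow_pos D0 3)
    linarith
  · rw [show ε * (s ^ 2 / (576 * c ^ 10) * (2304 * c ^ 16 / ε * W * F * (τ + η1 / s ^ 2))) =
      W * F * (4 * c ^ 6 * (τ * s ^ 2) + 4 * c ^ 6 * η1) by field_simp; ring]
    have c6 : 1 ≤ c ^ 6 := one_le_pow₀ c1
    have b1 : v ^ 3 ≤ c ^ 6 * ηc :=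
      calc _ ≤ (c ^ 2 * u) ^ 3 := by gcongr
        _ = c ^ 6 * u ^ 3 := by ring
        _ ≤ _ := by gcongr
    have b2 : x + v ^ 3 ≤ W * F * (2 * (c ^ 6 * ηc)) :=
      le_trans (by linarith [le_mul_of_one_le_left ηc0 c6])
        (le_mul_of_one_le_left (by positivity) WF1)
    have b3 : 2 * c ^ 3 * ηc + η1 + 2 * (c ^ 6 * ηc) ≤
        4 * c ^ 6 * (τ * s ^ 2) + 4 * c ^ 6 * η1 := by
      have d1 := mul_le_mul_of_nonneg_right (cp (show 3 ≤ 6 by norm_num)) ηc0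
      have d2 := mul_le_mul_of_nonneg_left f5 (show 0 ≤ c ^ 6 by positivity)
      have d3 := le_mul_of_one_le_left η0 c6
      linarith
    linarith [mul_le_mul_of_nonneg_left b3 (show 0 ≤ W * F by positivity)]



end Crest.Agent.T156.Alt.Tx61

end
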