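import Crest.Agent.T156.EoT_25
import Crest.Agent.T156.Lag_8

-- ▼ part T156/TxY_84
section

/-!
Row 156, block (L) (helper84): the chain of the three top zones as one continuation.
-/

set_option autoImplicit false

noncomputable section

namespace Crest.Agent.T156.Alt.X84

open MeasureTheory Set Real
open Crest.Agent.R164.GC Crest.Agent.R339.B Crest.Agent.R339.Var Crest.Agent.T157.Pf
open Crest.Agent.T156.Spl27 Crest.Agent.T156.Zb9
open Crest.Agent.T156.Cut8 Crest.Agent.T156.Alt.Mp9 Crest.Agent.T156.Alt.L25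
open Crest.Agent.T156.Pr.Mid8.Mid (ff)

variable {S : Sc} {M : Md} {m : ℕ} {a T : ℝ}

/-- the linear gain on `[x, y]` -/
def Il (S : Sc) (M : Md) (m : ℕ) (a T x y : ℝ) : ℝ :=
  ∫ t in x..y, |t - M.s S.Jp| * ff (lb M S m a T) (lh M T) (M.s S.Jp) t

/-- `Γ[zb] - Γ[zh]` -/
abbrev rr (S : Sc) (M : Md) (m : ℕ) (a T : ℝ) : ℝ → ℝ :=
  fun t => Pr.Gam (lb M S m a T) t - Pr.Gam (lh M T) t


/-- **zone II** on `[y, Mt)` -/
def Z2 (S : Sc) (M : Md) (m : ℕ) (a T c0 βs y Mt X e : ℝ) : Prop :=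
  ∃ Z, e / M.b * Il S M m a T y Mt ≤ Z ∧
    Seg T (uu M S m a T) (rr S M m a T) c0 βs y Mt (X + 3 / 16 * Z) Z



end Crest.Agent.T156.Alt.X84

end
end

-- ▼ part T156/TxL_8

/-!
Row 156, block (L) (helper8): the chain of the three top zones, zone I pays from the gain of zone II.
-/

set_option autoImplicit false

noncomputable section

namespace Crest.Agent.T156.Alt.X84

open MeasureTheory Set Real
open Crest.Agent.R164.GC Crest.Agent.R339.B Crest.Agent.R339.Var Crest.Agent.T157.Pf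
open Crest.Agent.T156.Spl27 Crest.Agent.T156.Zb9
open Crest.Agent.T156.Cut8 Crest.Agent.T156.Alt.Mp9 Crest.Agent.T156.Alt.L25
open Crest.Agent.T156.Pr.Mid8.Mid (ff)

variable {S : Sc} {M : Md} {m : ℕ} {a T : ℝ}

/-- **zone I** on `[s, y)`, paying from the linear gain on `[y, Mt]` -/
def Z1e (S : Sc) (M : Md) (m : ℕ) (a T c0 βs s y Mt X W Y e : ℝ) : Prop :=
  ∃ Z, Seg T (uu M S m a T) (rr S M m a T) c0 βs s y
      (X + Z / 4 + e / M.b / 16 * Il S M m a T y Mt) Z ∧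
    S.θ * ∫ t in s..y, min (uu M S m a T t) 0 ^ 2 ≤ W * (Z + Y) ∧
    S.θ * Il S M m a T s y ≤ W * (Z + Y + e / M.b * Il S M m a T y Mt)

theorem Z1e.mono {c0 βs s y Mt X X' W W' Y Y' e : ℝ} (h : Z1e S M m a T c0 βs s y Mt X W Y e)
    (sy : s ≤ y) (hI : 0 ≤ e / M.b * Il S M m a T y Mt) (hX : X ≤ X') (W0 : 0 ≤ W) (hW : W ≤ W')
    (Y0 : 0 ≤ Y) (hY : Y ≤ Y') : Z1e S M m a T c0 βs s y Mt X' W' Y' e := by
  obtain ⟨Z, a1, a2, a3⟩ := h
  have := a1.nn sy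
  exact ⟨Z, a1.mono (by linarith),
    a2.trans (mul_le_mul hW (by linarith) (by linarith) (W0.trans hW)),
    a3.trans (mul_le_mul hW (by linarith) (by linarith) (W0.trans hW))⟩

/-- **the three zones** -/
theorem chainE (A : At S M m a T) {c0 βs A1 s y Mt P X1 X2 X3 W Y N3 κ e c L w d u A0 En : ℝ}
    (a0 : 0 ≤ A1) (a1 : A1 ≤ s) (sy : s ≤ y) (yJ : y ≤ M.s S.J) (yM : y ≤ Mt) (MT : Mt ≤ T)
    (PT : P ≤ T) (β0 : 0 ≤ βs) (W0 : 0 ≤ W) (L1 : 1 ≤ L) (hκ' : 1 ≤ L * κ) (hc : 1 ≤ L * c)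
    (hb : M.b ≤ L) (he : S.θ ≤ L * e) (hκ : ∀ t < Mt, κ ≤ 1 - lvr 1 (lb M S m a T) t)
    (w0 : 0 ≤ w) (d0 : 0 ≤ d) (pos : ∀ t, y < t → t < M.s S.J - w → 0 ≤ uu M S m a T t)
    (dlo : ∀ t, y < t → t < M.s S.J → -d ≤ uu M S m a T t) (hw : S.θ * (w * d ^ 2) ≤ Y)
    (hγ : S.θ * (M.s S.Jp - M.s S.J) ^ 2 ≤ Y) (hN : N3 ≤ Y)
    (hu : 1 - lvr 1 (lb M S m a T) P ≤ u) (p0 : 0 ≤ A0) (p1 : A0 ≤ M.s S.Jp)
    (hE : ∫ t in A0..T, Jf T (lvr 1 (lh M T)) (lvr 1 (lb M S m a T)) t ^ 2 ≤ En)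
    (h1 : Z1e S M m a T c0 βs s y Mt X1 W Y e) (h2 : Z2 S M m a T c0 βs y Mt X2 e)
    (h3 : Cont T (uu M S m a T) (rr S M m a T) c0 βs A1 Mt X3
      (Pr.Reg48.QZ (lb M S m a T) M.b c (M.s S.J) (M.s S.Jp) Mt P e κ N3)) :
    Cont T (uu M S m a T) (rr S M m a T) c0 βs A1 s (X1 + X2 + X3)
      (QT S M m a T s u (320 * L ^ 3 + W) En Y) := by
  obtain ⟨Za, g1, g2, g3⟩ := h1
  obtain ⟨Zb, f1, f2⟩ := h2
  have lu : LB T (uu M S m a T) := A.LB_u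
  have b0 : 0 < M.b := by linarith [A.b_mem.1]
  have θ0 := A.cl.θ0
  have za := g1.nn sy
  have zb := f2.nn yM
  have Y0 : 0 ≤ Y := le_trans (by positivity) hγ
  have E0 : 0 ≤ En :=
    le_trans (intervalIntegral.integral_nonneg (p1.trans A.t2) fun _ _ => sq_nonneg _) hE
  have e16 : e / M.b / 16 * Il S M m a T y Mt = e / M.b * Il S M m a T y Mt / 16 := by ring
  have c2 := Cont.seg (τ' := X2 - e / M.b / 16 * Il S M m a T y Mt) lu a0 (a1.trans sy) yM MT β0 f2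
    (by linarith) h3
  have c1 := Cont.seg (τ' := X1 + e / M.b / 16 * Il S M m a T y Mt) lu a0 a1 sy (yM.trans MT) β0 g1
    (by linarith) c2
  refine c1.mono (by linarith) ?_
  rintro Z - ⟨Z', rfl, z', Zc, rfl, zc, q⟩
  obtain ⟨Q, q1, q2, q3, q4, q5, q6⟩ := qt_of A ((a0.trans a1).trans sy) yJ yM MT PT L1 hκ' hc hb b0
    he hκ f1 q hN w0 d0 pos dlo hw hγ hu p0 p1 hE
  have sp : M.s S.J ≤ M.s S.Jp := A.cl.sm A.cl.i3
  have t2 := A.t2
  have ln := (LB_min lu (LB.const 0)).sq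
  have lw : LB T fun t => |t - M.s S.Jp| * ff (lb M S m a T) (lh M T) (M.s S.Jp) t :=
    (LB.of_cont (f := fun t => |t - M.s S.Jp|) (by fun_prop)).mul (LB_ff A _)
  have ms : s ∈ Icc 0 T := ⟨a0.trans a1, by linarith⟩
  have my : y ∈ Icc 0 T := ⟨by linarith, by linarith⟩
  have K0 : 0 ≤ 320 * L ^ 3 := by positivity
  have r1 := mul_le_mul_of_nonneg_left (show Zb + Zc + Y ≤ Za + (Zb + Zc) + Y by linarith) K0
  have r2 := mul_le_mul_of_nonneg_left (show Za + Y ≤ Za + (Zb + Zc) + Y by linarith) W0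
  have r3 := mul_le_mul_of_nonneg_left
    (show Za + Y + e / M.b * Il S M m a T y Mt ≤ Za + (Zb + Zc) + Y by linarith) W0
  refine ⟨Q, q1, q2, q3, ?_, ?_, q6.trans
    (mul_le_mul (by linarith) (by linarith) (by linarith) (by linarith))⟩
  · rw [int_split ln ms my ⟨by linarith, by linarith⟩]
    linarith
  · rw [int_split lw ms my ⟨by linarith, q2⟩]
    unfold Il at g3 r3
    linarith

end Crest.Agent.T156.Alt.X84

end
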