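import Crest.Agent.T156.PgZ_33
import Crest.Agent.T156.TopD_36
import Crest.Agent.T156.TopS_5
import Crest.Agent.T156.TopZ_48

-- ▼ part T156/PgR_33
section

/-!
# Row 156, block (L): residuals at the good nodes of the plateau (helper33)
-/

set_option autoImplicit false
set_option linter.unusedSectionVars false

noncomputable section

namespace Crest.Agent.T156.Alt.Nd33

open Real Finset Filter
open Crest.Agent.T156.Alt.Md67 Crest.Agent.T156.Alt.L69 Crest.Agent.T156.Alt.E61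
open Crest.Agent.T156.Alt.Mp9

variable {S : Sc} {M : Md} {m : ℕ} {a T Xp γ V : ℝ}

theorem w3_nn (h : Cl S M) : 0 ≤ S.w3 1 := by
  have := h.F1
  have := (h.ms_pos zero_le_one).le
  unfold Sc.w3
  positivity

theorem ap_nn (h : Cl S M) (k : ℕ) : 0 ≤ ap M S Xp V γ k := by
  have := w3_nn h
  have := h.den0 (M.z (k - 1))
  unfold ap
  positivity

theorem w_sl (h : Cl S M) {k : ℕ} (D0 : 0 < ds M S k) :
    S.w3 1 * sl M S Xp V γ k ≤ 2 * ds M S k * ap M S Xp V γ k ^ 2 := by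
  have w0 := w3_nn h
  have d0 := h.den0 (M.z (k - 1))
  have a0 := ap_nn (Xp := Xp) (V := V) (γ := γ) h k
  set R := Rp M S Xp V γ k + Xp ^ ((1 : ℝ) / 3)
  set d := S.den (M.z (k - 1))
  set D := ds M S k
  set w := S.w3 1
  have b0 : 0 ≤ w * (d + R ^ 2 / (D ^ 2 * d)) := by positivity
  have b1 : (w * (d + R ^ 2 / (D ^ 2 * d))) ^ ((1 : ℝ) / 3) ≤ ap M S Xp V γ k :=
    (le_add_of_nonneg_right (by positivity)).trans (le_add_of_nonneg_right (sqrt_nonneg _))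
  have b2 : w / (d * D ^ 2) ≤ ap M S Xp V γ k :=
    (le_add_of_nonneg_left (by positivity)).trans (le_add_of_nonneg_right (sqrt_nonneg _))
  have b3 := pow_le_pow_left₀ (by positivity) b1 3
  rw [← rpow_natCast, ← rpow_mul b0] at b3
  norm_num at b3
  have b4 := mul_le_mul b3 b2 (by positivity) (by positivity)
  refine abs_le_of_sq_le_sq' ?_ (by positivity) |>.2
  have e : w * (d + R ^ 2 / (D ^ 2 * d)) * (w / (d * D ^ 2)) * D ^ 2 =
      w ^ 2 * (1 + (R / (d * D)) ^ 2) := by field_simp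
  have b5 := mul_le_mul_of_nonneg_right b4 (sq_nonneg D)
  rw [e] at b5
  have b6 := mul_nonneg (sq_nonneg w) (sq_nonneg (1 - R / (d * D)))
  have b7 : 0 ≤ ap M S Xp V γ k ^ 4 * D ^ 2 := by positivity
  show (w * (1 + R / (d * D))) ^ 2 ≤ _
  linarith

theorem G_up (A : At S M m a T) (hγ : M.s S.Jp - M.s S.J ≤ γ) {i : ℕ} (h0 : S.J ≤ i)
    (h1 : i ≤ S.Jp) (hu : 0 < du M i) : M.G i ≤ S.C * S.θ * γ + 2 * √(GP M S / du M i) := by
  have h := A.cl
  have i2 := h.i2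
  have G0 : 0 ≤ GP M S := sum_nonneg fun k _ =>
    mul_nonneg (sub_nonneg.2 (h.leg.zm (Nat.sub_le k 1))) (sq_nonneg _)
  have a1 := Pl57.persist h.leg.zm (f := M.G) (T := Icc S.J S.Jp) (a := i - 1) (b := S.Jp) (i := 2)
    (F := -df36 S M T i) (V := GP M S) (l := √(GP M S / du M i)) (by omega) (fun y hy => by
      have := mem_Ioc.1 hy
      exact mem_Icc.2 ⟨by omega, this.2⟩) two_ne_zero (by simp only [sq_abs]; rfl) hu
    (by rw [h.top _ le_rfl]; unfold du at hu ⊢; linarith) (sqrt_nonneg _)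
    (by rw [sq_sqrt (by positivity), div_mul_cancel₀ _ hu.ne']) fun y y0 y1 => by
      have d1 := (A.deficit (k := y) (by omega) y1).1
      have d2 := A.df_anti (show i ≤ y by omega)
      unfold df36 at d2 ⊢
      linarith [le_abs_self (M.G y)]
  have d1 := (A.deficit (k := i) (by omega) h1).2
  have d6 := mul_le_mul_of_nonneg_left (show M.s S.Jp - M.s i ≤ γ by linarith [h.sm h0])
    (mul_nonneg h.C0.le h.θ0.le)
  unfold df36 at a1
  linarith

theorem sb_eq (M : Md) (m : ℕ) (a : ℝ) (i : ℕ) : sb M m a (i + 1) - M.s i =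
    M.G i + M.d i * M.del m a i - M.d i * M.rb m a i / (m + 1) := by
  simp only [sb, Md.G, Md.del, kp_eq]; ring

theorem sb_up (A : At S M m a T) (hγ : M.s S.Jp - M.s S.J ≤ γ) {i : ℕ} (h1 : i ≤ S.Jp)
    (V0 : 0 ≤ V) (hV : M.del m a i ≤ V) : sb M m a (i + 1) ≤ M.s S.J + γ + S.C * V + M.G i := by
  have h := A.cl
  obtain ⟨d1, d2⟩ := d_mem h (h1.trans h.i4.le)
  have a1 := sb_eq M m a i
  have a2 : 0 ≤ M.d i * M.rb m a i / (m + 1) := by
    have := rb_nonneg (M := M) (a := a) A.m_pos i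
    positivity
  have a3 := (mul_le_mul_of_nonneg_left hV (by linarith)).trans
    (mul_le_mul_of_nonneg_right (d2.trans h.b1) V0)
  linarith [h.sm h1]

/-- the good nodes of `PgS` with the loss `W` -/
def Gp (W : ℝ) (S : Sc) (M : Md) (m : ℕ) (a Xp V γ Lp : ℝ) (i : ℕ) : Prop :=
  PG S M m a i (W * Lp * sl M S Xp V γ i) (W * (Lp ^ ((2 : ℝ) / 3) * ap M S Xp V γ i))

/-- the local error of a node of size `up` -/
def el (S : Sc) (M : Md) (m : ℕ) (a T g up : ℝ) (i : ℕ) : ℝ :=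
  g * up + up ^ 2 * (min up 1 + gd S M m a T i + ds M S i)

/-- the numbers: `v` sloped test node, `x` uniform error, `g` bounds `G + N2` -/
structure RN (W : ℝ) (S : Sc) (M : Md) (m : ℕ) (a T γ V Lp Lg G ev N2 g x : ℝ) (v : ℕ) : Prop where
  A : At S M m a T
  W1 : 1 ≤ W
  θ1 : S.θ ≤ 1
  u0 : 0 < S.u0
  γ0 : M.s S.Jp - M.s S.J ≤ γ
  V0 : 0 ≤ V
  Lp : 1 ≤ Lp ∧ Lp ≤ Lg ^ 3
  Lg1 : 1 ≤ Lg
  po : PO W S M m a G ev N2
  G0 : 0 ≤ G ∧ 0 ≤ N2 ∧ G + N2 ≤ g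
  vJ : v < S.J
  sv : ∃ G' ev' D, SV S M m a v G' ev' ∧ 0 ≤ ev ∧ 0 ≤ ev' ∧ 0 ≤ D ∧ M.s S.J - sb M m a (v + 1) ≤ D ∧
    ev + ev' + u4 M m a v ^ 2 * gd S M m a T v + S.w3 1 + 1 / S.n +
      ∑ k ∈ Ioo v S.Jp, M.dz m a k * u4 M m a k ^ 2 + N2 * (V + γ + D) ≤ x

namespace RN
variable {W Lp Lg G ev N2 g x : ℝ} {v : ℕ} (H : RN W S M m a T γ V Lp Lg G ev N2 g x v)
include H

theorem core {i : ℕ} (P : Gp W S M m a Xp V γ Lp i) : ∃ up, PG S M m a i
    (W * Lp * sl M S Xp V γ i) up ∧ ep S M m a G ev N2 i (W * Lp * sl M S Xp V γ i) up +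
      up ^ 2 * gd S M m a T i ≤ ev + S.w3 1 + 1 / S.n +
        ∑ k ∈ Ioo v S.Jp, M.dz m a k * u4 M m a k ^ 2 +
        2 * W ^ 3 * el S M m a T g (Lg ^ 2 * ap M S Xp V γ i) i := by
  have h := H.A.cl
  have L := lg H.A
  have W1 := H.W1
  have L1 := H.Lg1
  have a0 := ap_nn (Xp := Xp) (V := V) (γ := γ) h i
  have D0 : 0 < ds M S i := SzT98.ds_pos h H.u0 P.lo P.hi
  set U := Lg ^ 2 * ap M S Xp V γ i with hU
  have U0 : 0 ≤ U := by positivity
  have b1 : Lp ^ ((2 : ℝ) / 3) ≤ Lg ^ 2 := by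
    refine (rpow_le_rpow (by linarith [H.Lp.1]) H.Lp.2 (by norm_num)).trans (le_of_eq ?_)
    rw [← rpow_natCast, ← rpow_mul (by linarith), ← rpow_natCast]; norm_num
  have b2 : u4 M m a i ≤ min (W * U) 2 := le_min (P.u.trans (by rw [hU]; gcongr))
    ((mj_u4 L.m0).u0 i).2
  refine ⟨min (W * U) 2, ⟨P.lo, P.hi, P.den, P.cone, b2⟩, ?_⟩
  have c1 := min_le_left (W * U) 2
  have c0 := (u4_nn i).trans b2
  have c2 : min (W * U) 2 ≤ 2 * W * min U 1 := by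
    rcases le_total U 1 with e | e
    · rw [min_eq_left e]; linarith [mul_nonneg (zero_le_one.trans W1) U0]
    · rw [min_eq_right e]; linarith [min_le_right (W * U) 2]
  set y := min (W * U) 2
  have m0 : 0 ≤ min U 1 := le_min U0 zero_le_one
  have c3 := pow_le_pow_left₀ c0 c1 2
  have c4 : y ^ 3 ≤ (W * U) ^ 2 * (2 * W * min U 1) := by
    rw [pow_succ]; exact mul_le_mul c3 c2 c0 (sq_nonneg _)
  have c5 := mul_le_mul_of_nonneg_right c3 (abs_nonneg (L0.Gd (lb M S m a T) (sb M m a (i + 1))))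
  have c6 := mul_le_mul H.G0.2.2 c1 c0 (by linarith [H.G0.1, H.G0.2.1, H.G0.2.2])
  have g0 : 0 ≤ g := by linarith [H.G0.1, H.G0.2.1, H.G0.2.2]
  have c7 : W * Lp * sl M S Xp V γ i * S.w3 1 ≤ W * (2 * ds M S i * U ^ 2) := by
    have a1 := w_sl (Xp := Xp) (V := V) (γ := γ) h D0
    have a2 : Lp ≤ Lg ^ 4 := H.Lp.2.trans (pow_le_pow_right₀ L1 (by norm_num))
    have a3 := mul_le_mul_of_nonneg_left a1 (show 0 ≤ Lp by linarith [H.Lp.1])
    have a4 := mul_le_mul_of_nonneg_right a2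
      (show 0 ≤ 2 * ds M S i * ap M S Xp V γ i ^ 2 by positivity)
    rw [mul_assoc W, mul_assoc W]
    refine mul_le_mul_of_nonneg_left ?_ (by linarith)
    rw [hU]
    linarith
  have c8 : ∑ k ∈ Ico S.J i, M.dz m a k * u4 M m a k ^ 2 ≤
      ∑ k ∈ Ioo v S.Jp, M.dz m a k * u4 M m a k ^ 2 := sum_le_sum_of_subset_of_nonneg
    (fun k hk => by
      have := mem_Ico.1 hk
      have := H.vJ
      have := P.hi
      exact mem_Ioo.2 ⟨by omega, by omega⟩) fun k _ _ => mul_nonneg (L.dz_nonneg k) (sq_nonneg _)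
  have w2 : W ≤ W ^ 3 := le_self_pow₀ W1 (by norm_num)
  have w3 : W ^ 2 ≤ W ^ 3 := pow_le_pow_right₀ W1 (by norm_num)
  have q1 := mul_le_mul_of_nonneg_right w2 (mul_nonneg g0 U0)
  have q2 := mul_le_mul_of_nonneg_right w3 (show 0 ≤ U ^ 2 * gd S M m a T i by positivity)
  have q3 := mul_le_mul_of_nonneg_right w2 (show 0 ≤ ds M S i * U ^ 2 by positivity)
  have q4 : 0 ≤ W ^ 3 * (g * U) := by positivity
  have q5 : 0 ≤ W ^ 3 * (U ^ 2 * gd S M m a T i) := by positivity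
  unfold ep el
  linarith

/-- **the residual at a good node against the sloped node** -/
theorem rs {i : ℕ} (P : Gp W S M m a Xp V γ Lp i) (hV : M.del m a i ≤ V) :
    |res M S m a T i - res M S m a T v| ≤ 2 * S.C * W ^ 4 *
      (x + el S M m a T g (Lg ^ 2 * ap M S Xp V γ i) i + N2 * √(GP M S / du M i)) := by
  have h := H.A.cl
  have L := lg H.A
  have C1 := h.C1
  have W1 := H.W1
  obtain ⟨G', ev', D, sv, e0, e1, D0, hD, hx⟩ := H.sv
  obtain ⟨up, P', c⟩ := H.core P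
  have vi := H.vJ.trans_le P.lo
  have D1 : 0 < ds M S i := SzT98.ds_pos h H.u0 P.lo P.hi
  have a1 := H.po.dv T H.A v G' ev' i _ up sv P' vi
  have N0 := H.G0.2.1
  have V0 := H.V0
  have γ0 : 0 ≤ γ := (sub_nonneg.2 (h.sm h.i3)).trans H.γ0
  have a2 := G_up H.A H.γ0 P.lo P.hi.le (D1.trans_le (min_le_right _ _))
  have a3 := sb_up H.A H.γ0 P.hi.le V0 hV
  have a4 := mul_le_mul_of_nonneg_right (mul_le_of_le_one_right h.C0.le H.θ1) γ0
  have a5 : sb M m a (i + 1) - sb M m a (v + 1) ≤ 2 * S.C * (V + γ + D) +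
      2 * √(GP M S / du M i) := by
    linarith [mul_le_mul_of_nonneg_right C1 γ0, mul_le_mul_of_nonneg_right C1 D0,
      mul_nonneg h.C0.le V0, mul_nonneg h.C0.le D0]
  have a6 := mul_le_mul_of_nonneg_left a5 N0
  have a7 : ∑ k ∈ Ioo v i, M.dz m a k * u4 M m a k ^ 2 ≤
      ∑ k ∈ Ioo v S.Jp, M.dz m a k * u4 M m a k ^ 2 := sum_le_sum_of_subset_of_nonneg
    (Ioo_subset_Ioo_right P.hi.le) fun k _ _ => mul_nonneg (L.dz_nonneg k) (sq_nonneg _)
  set Y := ∑ k ∈ Ioo v S.Jp, M.dz m a k * u4 M m a k ^ 2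
  have Y0 : 0 ≤ Y := sum_nonneg fun k _ => mul_nonneg (L.dz_nonneg k) (sq_nonneg _)
  have w0 := w3_nn h
  have n0 : (0 : ℝ) ≤ 1 / S.n := by positivity
  have p0 : 0 ≤ u4 M m a v ^ 2 * gd S M m a T v := by positivity
  have p1 : 0 ≤ N2 * (V + γ + D) := by positivity
  have p2 : 0 ≤ N2 * √(GP M S / du M i) := by positivity
  have p3 : 0 ≤ el S M m a T g (Lg ^ 2 * ap M S Xp V γ i) i := by
    have := ap_nn (Xp := Xp) (V := V) (γ := γ) h i
    have : 0 ≤ g := by linarith [H.G0.1, H.G0.2.1, H.G0.2.2]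
    unfold el
    positivity
  set e := el S M m a T g (Lg ^ 2 * ap M S Xp V γ i) i
  have k1 : 1 ≤ W ^ 3 := one_le_pow₀ W1
  have k2 : S.C ≤ S.C * W ^ 3 := le_mul_of_one_le_right h.C0.le k1
  have k3 : W ^ 3 ≤ S.C * W ^ 3 := le_mul_of_one_le_left (by positivity) C1
  have q1 := mul_le_mul_of_nonneg_right k2 (show 0 ≤ x by linarith)
  have q2 := mul_le_mul_of_nonneg_right k3 p3
  have q3 := mul_le_mul_of_nonneg_right (C1.trans k2) p2
  have q4 := mul_le_mul_of_nonneg_left hx h.C0.le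
  have q5 := mul_le_mul_of_nonneg_right C1 (show 0 ≤ ev + ev' + u4 M m a v ^ 2 * gd S M m a T v +
    S.w3 1 + 1 / S.n + Y by positivity)
  refine a1.trans (le_trans (b := W * (2 * (S.C * W ^ 3) * (x + e + N2 * √(GP M S / du M i))))
    (mul_le_mul_of_nonneg_left ?_ (by linarith)) (le_of_eq (by ring)))
  unfold ck
  linarith


end RN

end Crest.Agent.T156.Alt.Nd33

end
end

-- ▼ part T156/PgT_33

/-!
# Row 156, block (L): supply of plateau nodes for the top zone (helper33)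
-/

set_option autoImplicit false
set_option linter.unusedSectionVars false

noncomputable section

namespace Crest.Agent.T156.Alt.Nd33

open Real Finset Filter
open Crest.Agent.T156.Alt.Md67 Crest.Agent.T156.Alt.L69 Crest.Agent.T156.Alt.E61
open Crest.Agent.T156.Alt.Mp9
open Crest.Agent.T156.Pr.Reg48 (Sm)

variable {S : Sc} {M : Md} {m : ℕ} {a T Xp γ V : ℝ}

/-- the size with the deficit term -/
def apx (M : Md) (S : Sc) (Xp V γ Lg N2 : ℝ) (j : ℕ) : ℝ :=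
  √((Lg ^ 2 * ap M S Xp V γ j) ^ 2 + N2 * √(GP M S / du M j))

theorem apx_sq {Lg N2 : ℝ} (N0 : 0 ≤ N2) (j : ℕ) : (1 ^ 2 * apx M S Xp V γ Lg N2 j) ^ 2 =
    (Lg ^ 2 * ap M S Xp V γ j) ^ 2 + N2 * √(GP M S / du M j) := by
  rw [one_pow, one_mul, apx, sq_sqrt (by positivity)]

theorem GP_nn (h : Cl S M) : 0 ≤ GP M S := sum_nonneg fun k _ =>
  mul_nonneg (sub_nonneg.2 (h.leg.zm (Nat.sub_le k 1))) (sq_nonneg _)

theorem tk_apx (h : Cl S M) {E L u2 g0 Lg N N2 : ℝ}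
    (P : At.TK S M E L γ u2 g0 Lg N (ap M S Xp V γ)) (L1 : 1 ≤ L) (N0 : 0 ≤ N2) (N1 : N2 ≤ 1) :
    At.TK S M E (2 * L) γ u2 g0 1 N (apx M S Xp V γ Lg N2) := by
  refine ⟨P.γ0, P.γ1, P.γ2, P.u0, P.c2, P.g3, fun i a1 a2 a3 a4 a5 => ?_⟩
  have n0 : 0 ≤ N := (sq_nonneg _).trans P.u0.2.2
  have θ0 := h.θ0.le
  have G0 := GP_nn h
  have l5 : N ≤ L ^ 5 * N := le_mul_of_one_le_left n0 (one_le_pow₀ L1)
  have b : Sm S.θ 1 (L ^ 5 * N) (du M i) (N2 * √(GP M S / du M i)) := .inr (.inl (by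
    rw [mul_pow, sq_sqrt (by positivity), mul_left_comm, mul_div_cancel₀ _ a3.ne']
    linarith [mul_le_mul_of_nonneg_right (pow_le_one₀ (n := 2) N0 N1) G0, P.c2,
      sq_nonneg (S.θ * γ), mul_le_mul_of_nonneg_left l5 θ0]))
  rw [apx_sq N0]
  exact ((P.sh i a1 a2 a3 a4 a5).add b θ0 zero_le_one (by positivity) a3.le).mono θ0 zero_le_one
    (by positivity) a3.le le_rfl le_rfl (by linarith [show 0 ≤ L ^ 5 * N by positivity]) le_rfl
    le_rfl

/-- **supply**: `vc` is the sloped node at the corner, `v0` the node of the constant, good nodes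
exist in the shells above the cut `u` -/
structure PV (W : ℝ) (S : Sc) (M : Md) (m : ℕ) (a T Xp γ V Lp Lg G ev N2 g x u : ℝ) (vc v0 : ℕ) :
    Prop where
  rn : RN W S M m a T γ V Lp Lg G ev N2 g x vc
  ex : ∀ k, S.J ≤ k → k ≤ S.Jp → u ≤ du M k → ∃ i, k < i ∧ i + 1 < S.Jp ∧
    M.z (i - 1) ≤ M.z (k - 1) + ds M S k / 8 ∧ M.z i ≤ M.z (k - 1) + ds M S k / 4 ∧
    Gp W S M m a Xp V γ Lp i
  vt : ∀ i, S.J ≤ i → i ≤ S.Jp → 7 / 8 * u ≤ du M i → M.del m a i ≤ V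
  r0 : |res M S m a T vc - res M S m a T v0| ≤ x
  g2 : g ^ 2 ≤ x

namespace PV
variable {W Lp Lg G ev N2 g x u L : ℝ} {vc v0 : ℕ}
  (H : PV W S M m a T Xp γ V Lp Lg G ev N2 g x u vc v0)
include H

theorem x0 : 0 ≤ x := (abs_nonneg _).trans H.r0

theorem g0 : 0 ≤ g := by linarith [H.rn.G0.1, H.rn.G0.2.1, H.rn.G0.2.2]

/-- the residual at a good node -/
theorem rs {i : ℕ} (P : Gp W S M m a Xp V γ Lp i) (hu : 7 / 8 * u ≤ du M i)
    (hL : 2 * S.C * W ^ 4 * (4 * T + 5) ≤ L) :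
    |res M S m a T v0 - res M S m a T i| ≤ L * (x + (1 ^ 2 * apx M S Xp V γ Lg N2 i) ^ 2) := by
  have R := H.rn
  have h := R.A.cl
  have a1 := R.rs P (H.vt i P.lo P.hi.le hu)
  have a2 : gd S M m a T i ≤ 4 * T + 2 := Tq5.abs_Gd R.A P.hi.le
  have T0 : 0 ≤ T := (h.s_nn _).trans R.A.t2
  have d1 : ds M S i ≤ 1 := (min_le_right _ _).trans (by unfold du; linarith [h.z_pos (i - 1)])
  have x0 := H.x0
  have N0 := R.G0.2.1
  rw [apx_sq N0]
  set U := Lg ^ 2 * ap M S Xp V γ i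
  have q0 : 0 ≤ N2 * √(GP M S / du M i) := by positivity
  have a3 : el S M m a T g U i ≤ x + (4 * T + 5) * U ^ 2 := by
    have := mul_le_mul_of_nonneg_left (show min U 1 + gd S M m a T i + ds M S i ≤ 4 * T + 4 by
      linarith [min_le_right U 1]) (sq_nonneg U)
    unfold el
    linarith [sq_nonneg (g - U), H.g2, sq_nonneg g, sq_nonneg U]
  have c1 : 1 ≤ 2 * S.C * W ^ 4 := by
    linarith [mul_le_mul h.C1 (one_le_pow₀ (n := 4) R.W1) zero_le_one h.C0.le]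
  set c := 2 * S.C * W ^ 4
  have a4 := mul_le_mul_of_nonneg_left a3 (zero_le_one.trans c1)
  have a5 := mul_le_mul_of_nonneg_right hL (show 0 ≤ x + (U ^ 2 + N2 * √(GP M S / du M i)) by
    positivity)
  have a6 := mul_le_mul_of_nonneg_right c1 x0
  have a7 : 0 ≤ c * T * (x + N2 * √(GP M S / du M i)) := by positivity
  have a8 : 0 ≤ c * (x + N2 * √(GP M S / du M i)) := by positivity
  have a9 : 0 ≤ c * (N2 * √(GP M S / du M i)) := by positivity
  have := abs_sub_le (res M S m a T v0) (res M S m a T vc) (res M S m a T i)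
  rw [abs_sub_comm (res M S m a T v0) (res M S m a T vc),
    abs_sub_comm (res M S m a T vc) (res M S m a T i)] at this
  linarith [H.r0]

/-- **a good node above `k`**: `w` of the top zone, with `TZ.ew` -/
theorem top {k : ℕ} (h0 : S.J ≤ k) (h1 : k ≤ S.Jp) (hu : u ≤ du M k)
    (hL : 2 * S.C * W ^ 4 * (4 * T + 5) ≤ L) : ∃ w, k < w ∧ w + 1 < S.Jp ∧
      7 / 8 * du M k ≤ du M w ∧ Gp W S M m a Xp V γ Lp w ∧
      |res M S m a T v0 - res M S m a T w| ≤ L * (x + (1 ^ 2 * apx M S Xp V γ Lg N2 w) ^ 2) ∧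
      M.G w ≤ S.C * S.θ * γ + 2 * √(GP M S / du M w) := by
  obtain ⟨i, i1, i2, i3, -, P⟩ := H.ex k h0 h1 hu
  have d : 7 / 8 * du M k ≤ du M i := by
    have : ds M S k ≤ du M k := min_le_right _ _
    unfold du at *
    linarith
  exact ⟨i, i1, i2, d, P, H.rs P (by linarith) hL, G_up H.rn.A H.rn.γ0 P.lo P.hi.le
    ((SzT98.ds_pos H.rn.A.cl H.rn.u0 P.lo P.hi).trans_le (min_le_right _ _))⟩

/-- **`TZ.nx`** -/
theorem nx {u2 : ℝ} {w : ℕ} (hw : S.J ≤ w) (u0 : 0 ≤ u2) (hu : u ≤ 8 * u2)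
    (hL : 2 * S.C * W ^ 4 * (4 * T + 5) ≤ L) : ∀ k, w ≤ k → k ≤ S.Jp → 8 * u2 < 1 - M.z k →
      ∃ j, k < j ∧ j ≤ S.Jp ∧ 1 - M.z k ≤ 4 * du M j ∧ res M S m a T v0 - res M S m a T j ≤
        L * (x + (1 ^ 2 * apx M S Xp V γ Lg N2 j) ^ 2) := by
  intro k k1 k2 k3
  have k4 : k < S.Jp := k2.lt_of_ne fun e => by
    rw [e, H.rn.A.cl.top _ le_rfl] at k3; linarith
  have e : du M (k + 1) = 1 - M.z k := rfl
  obtain ⟨j, j1, j2, j3, -, j4, -⟩ := H.top (k := k + 1) (by omega) k4 (by linarith) hL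
  exact ⟨j, by omega, by omega, by linarith, (le_abs_self _).trans j4⟩

end PV

end Crest.Agent.T156.Alt.Nd33

end
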