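import Crest.Agent.T156.TxL_8
import Crest.Agent.T156.TopM_47
import Crest.Agent.T156.TxT_48
import Crest.Agent.T156.TL1cD_74
import Crest.Agent.T156.TxCm_65
import Crest.Agent.T156.TxV2_83
import Crest.Agent.T156.PgT_33

-- ▼ part T156/TxF_84
section

/-!
Row 156, block (L) (helper84): the continuation above the bulk from the three zones.
-/

set_option autoImplicit false

noncomputable section

namespace Crest.Agent.T156.Alt.X84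

open MeasureTheory Set Real
open Crest.Agent.R164.GC Crest.Agent.R339.B Crest.Agent.R339.Var Crest.Agent.T157.Pf
open Crest.Agent.T156.Spl27 Crest.Agent.T156.Zb9
open Crest.Agent.T156.Cut8 Crest.Agent.T156.Alt.Mp9 Crest.Agent.T156.Alt.L25
open Crest.Agent.T156.Gap27 (resN)
open Crest.Agent.T156.Alt.C74 (JJ)

variable {S : Sc} {M : Md} {m : ℕ} {a T : ℝ}

/-- **the continuation above the bulk** -/
theorem fin (A : At S M m a T) {c0 C' : ℝ} (F : Fr T c0 C' (okT T) (lvr 1) Pr.Gam Pr.GG)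
    {L x N N' ν τ γ y Gm Rs βs κ c θ' u2 X1 W Y A1 A0 En : ℝ} {v v2 w : ℕ}
    (h2 : TM S M m a T L x N ν τ γ y Gm Rs (At.e48 S) (At.t48 S) βs v v2 w)
    (h3 : At.TO S M m a T L κ c θ' βs N' u2 v w) (hθ : 1 ≤ L * θ') (W0 : 0 ≤ W)
    (h1 : Z1e S M m a T (resN (lb M S m a T) M.b (sb M m a) (hb M) (v + 1)) βs (sb M m a (v + 1))
      (ys S M m a v2) (sb M m a (w + 1)) X1 W Y (At.e48 S)) (hY : L ^ 23 * N' ≤ Y)
    (hY' : L ^ 6 * N ≤ Y) (hs : sb M m a (v + 1) ≤ M.s S.J)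
    (a0 : 0 ≤ A1) (a1 : A1 ≤ sb M m a (v + 1)) (b0 : 0 ≤ A0) (b1 : A0 ≤ sb M m a (v + 1))
    (hE : (∫ t in A0..T, JJ M S m a T t ^ 2) + (∫ t in (0 : ℝ)..A0, |JJ M S m a T t|) ^ 2 ≤ En) :
    Cont T (uu M S m a T) (rr S M m a T) (resN (lb M S m a T) M.b (sb M m a) (hb M) (v + 1)) βs A1
      (sb M m a (v + 1)) (X1 + 17 * θ' * En + 11 * Y)
      (QT S M m a T (sb M m a (v + 1)) (8 * u2) (320 * L ^ 3 + W) En Y) := by
  obtain ⟨P, PT, Pu, hc⟩ := h3.cont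
  obtain ⟨v1, v2', v3, v4, v5⟩ := h2.v1
  have C1 := A.cl.C1
  have L64 : 64 ≤ L := by linarith [h2.L1]
  have L1 : 1 ≤ L := by linarith
  have θ0 := A.cl.θ0
  have sy : sb M m a (v + 1) ≤ ys S M m a v2 := le_min (A.sb_mono (by omega)) hs
  have yM : ys S M m a v2 ≤ sb M m a (w + 1) := (min_le_left _ _).trans (A.sb_mono (by omega))
  have yJ : ys S M m a v2 ≤ M.s S.J := min_le_right _ _
  have sJ : M.s S.J ≤ M.s S.Jp := A.cl.sm A.cl.i3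
  have hE' : ∫ t in A0..T, Jf T (lvr 1 (lh M T)) (lvr 1 (lb M S m a T)) t ^ 2 ≤ En :=
    le_trans (le_add_of_nonneg_right (sq_nonneg _)) hE
  have H := h2.md3 A hθ b0 (b1.trans sy) hE'
  obtain ⟨ν0, -, νN, -⟩ := h2.ν0
  have N0 : 0 ≤ N := by linarith
  obtain ⟨τ1, -, τ3, -⟩ := h2.τ0
  obtain ⟨γ1, -, -, γ4⟩ := h2.γ0
  have τ0 : 0 ≤ τ := le_trans (by have := A.cl.v0; positivity) τ1
  have p1 : L * N ≤ L ^ 6 * N :=
    mul_le_mul_of_nonneg_right (le_self_pow₀ L1 (by norm_num)) N0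
  have p0 : N ≤ L * N := le_mul_of_one_le_left N0 L1
  have hw : S.θ * (2 * S.C * τ * τ ^ 2) ≤ Y := by
    have := mul_le_mul (show 2 * S.C ≤ L by linarith [h2.L1]) τ3 (by positivity) (by linarith)
    linarith
  have hγ : S.θ * (M.s S.Jp - M.s S.J) ^ 2 ≤ Y := by
    have := mul_le_mul_of_nonneg_left (pow_le_pow_left₀ (by linarith) γ1 2) θ0.le
    linarith
  have k := chainE A (X2 := 9 * θ' * En + L ^ 6 * N) a0 a1 sy yJ yM (A.sb_mem v5).2 PT h2.β0.1 W0 L1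
    h3.κ1 h3.c1 h3.b1 h3.e1 h3.gap H.w0 τ0 (fun t c d => H.pos t c.le d)
    (fun t c d => H.dlo t ⟨c.le, d⟩) hw hγ hY Pu b0 (by linarith) hE' h1
    (h2.seg A F hθ b0 (b1.trans sy) hE')
    (hc A1 A0 En a0 (by linarith) b0 (by linarith) hE)
  exact k.mono (by linarith) fun _ _ q => q

end Crest.Agent.T156.Alt.X84

end
end

-- ▼ part T156/TxX_84

/-!
Row 156, block (L) (helper84): the context and the leaves of `TxS`.
-/

set_option autoImplicit false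

noncomputable section

namespace Crest.Agent.T156.Alt.X84

open MeasureTheory Set Real
open Crest.Agent.R164.GC Crest.Agent.R339.B Crest.Agent.R339.Var Crest.Agent.T157.Pf
open Crest.Agent.T156.Cut8 Crest.Agent.T156.Alt.Mp9 Crest.Agent.T156.Alt.L69
open Crest.Agent.T156.Alt.L31
open Crest.Agent.T156.Gap27 (resN)
open Crest.Agent.T156.Alt.C74 (JJ)
open Crest.Agent.T156.Pr.Reg48 (Sm)

/-- the free data -/
structure Dt where
  (lam K θ1 X4 t4 D Λ0 L W3 : ℝ)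
  p : Pa
  Gn : ℕ → Prop
  V0 : ℕ

/-- **the context** at the loss `D` (`cw.DE : D ^ 500 ≤ E`, `cw.cc hx : Cc D ..`) -/
structure Cy (E : ℝ) (S : Sc) (M : Md) (m : ℕ) (a : ℝ) (c : Dt) : Prop where
  hx : Hx E c.lam S M m a c.p
  lK : c.lam ≤ c.K
  KE : c.K ^ 1000 ≤ E
  θ1 : 1 ≤ c.K * c.θ1
  t4 : E * c.t4 ≤ S.C
  l4 : L4 S c.p.V c.p.X c.t4 S.C c.X4
  ng : Ng E c.K S M m a c.p c.Gn c.V0
  cw : Cw c.D E c.Λ0 c.L c.W3 c.lam S M m a c.p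
  w3 : c.W3 ≤ c.D * c.p.X3
  KD : c.K ≤ c.D
  tw : Tw E S M m a c.p

/-- a leaf: the class loss is absorbed in `D` -/
def LF (P : ℝ → Sc → Md → ℕ → ℝ → Dt → Prop) : Prop :=
  CL fun E Λ S M m a => ∀ c, Cy E S M m a c → Λ ≤ c.D → P E S M m a c

section defs

variable (S : Sc) (M : Md) (m : ℕ) (a : ℝ) (c : Dt)

/-- the unit of the margins of the corner -/
def tc : ℝ := S.F * (c.p.τ + c.p.γ)
/-- the unit of the costs -/
def Nb : ℝ := S.F ^ 10 * Nn S M c.p c.X4 c.t4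
/-- the good nodes of the corner -/
def GC : ℕ → Prop := G89.Gc S M m a c.p.l0 c.p.V c.L c.p.Lc

/-- **the nodes**: `v` last node of the bulk, `v1 < v2` the pair below the corner -/
structure Nd (v v1 v2 : ℕ) : Prop where
  ve : Ve S M m a c.Gn c.V0 v
  v2e : Ve83.VE2 S M m a c.K c.p.Lg (t1 S c.p) (4 * S.C / c.p.Lc) (c.D ^ 45 * tc S c) c.Gn
    (GC S M m a c) c.V0 v
  near : c.D ^ 2 * (M.z (S.J - 1) - M.z v) ≤ 1
  wz : M.z (S.J - 1) - M.z v ≤ c.D ^ 46 * (t1 S c.p + tc S c + Ve83.DD S M c.p.Xp c.p.γ)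
  jv : S.jl < v
  o1 : v ≤ v1
  o2 : v1 < v2
  g1 : GC S M m a c v1
  g2 : GC S M m a c v2
  mg : G89.Mg S c.p.Lc v2
  lo : M.z (S.J - 1) - c.D ^ 44 * tc S c ≤ M.z v1
  wd : M.z v1 + c.D ^ 43 * tc S c ≤ M.z v2
  hi : M.z v2 + c.D ^ 41 * tc S c ≤ M.z (S.J - 1)

end defs

/-- **(A) the nodes** -/
def TxA : Prop := LF fun _ S M m a c => ∃ v v1 v2, Nd S M m a c v v1 v2

/-- **(B) zone I** -/
def TxB : Prop := LF fun _ S M m a c => ∀ v v1 v2, Nd S M m a c v v1 v2 → ∀ Mt A0 En βs,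
  sb M m a S.J ≤ Mt → Mt ≤ 2 * S.C → 0 ≤ A0 → 8 * A0 ≤ M.s S.J →
  (∫ t in A0..2 * S.C, JJ M S m a (2 * S.C) t ^ 2) +
    (∫ t in (0 : ℝ)..A0, |JJ M S m a (2 * S.C) t|) ^ 2 ≤ En → 0 ≤ βs →
  βs ≤ c.K * bE S M m a c.p (sb M m a (v + 1)) →
  Z1e S M m a (2 * S.C) (resN (lb M S m a (2 * S.C)) M.b (sb M m a) (hb M) (v + 1)) βs
    (sb M m a (v + 1)) (ys S M m a v2) Mt (c.θ1 / 2 * En + c.D ^ 800 * Nb S M c)
    (c.D ^ 20 * S.F) (c.D ^ 800 * Nb S M c) (At.e48 S)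

/-- **(C) the supply on the plateau** -/
def TxC : Prop := LF fun _ S M m a c => ∀ v v1 v2, Nd S M m a c v v1 v2 →
  ∃ G ev N2 g x vc, N2 ≤ 1 ∧ Sm S.θ 1 (c.D ^ 200 * Nb S M c) 1 x ∧
    Nd33.PV c.D S M m a (2 * S.C) c.p.Xp c.p.γ c.p.V2 c.p.Lp c.p.Lg G ev N2 g x
      (3 * max c.p.u1 (c.p.u2 / 8)) vc v

/-- **(D) the corner** -/
def TxD : Prop := LF fun _ S M m a c => ∀ v v1 v2, Nd S M m a c v v1 v2 → ∀ w, S.J ≤ w →
  w ≤ S.Jp → 1 ≤ c.D ^ 6 * du M w → ∃ Rs g, 0 ≤ Rs ∧ Sm S.θ 1 (c.D ^ 600 * Nb S M c) 1 Rs ∧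
    (∀ p q, ys S M m a v2 ≤ p → p ≤ q → q ≤ sb M m a (w + 1) →
      p - M.b * Pr.Gam (lb M S m a (2 * S.C)) p - Rs ≤
        q - M.b * Pr.Gam (lb M S m a (2 * S.C)) q) ∧ 0 ≤ g ∧
    (sb M m a (w + 1) < M.s S.Jp →
      M.b * Pr.GG (lb M S m a (2 * S.C)) (sb M m a (w + 1)) ≤ 1 + g) ∧
    (g ^ 3 ≤ c.D ^ 600 * Nb S M c ∨ c.D ^ 24 * g ≤ S.θ)

/-- **(E) the slow errors**: `βs`, `res v2 - res v`, `1 / (m + 1)` -/
def TxE : Prop := LF fun _ S M m a c => ∀ v v1 v2, Nd S M m a c v v1 v2 → ∃ x,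
  Sm S.θ 1 (c.D ^ 200 * Nb S M c) 1 x ∧ c.K * bE S M m a c.p (sb M m a (v + 1)) ≤ x ∧
    res M S m a (2 * S.C) v2 - res M S m a (2 * S.C) v ≤ x ∧ 1 / ((m : ℝ) + 1) ≤ x

/-- **(M) the middle zone and the top** -/
def TxM : Prop := LF fun _ S M m a c => ∀ v v1 v2, Nd S M m a c v v1 v2 → ∀ βs θ', 0 ≤ βs →
  βs ≤ c.K * bE S M m a c.p (sb M m a (v + 1)) → 1 ≤ c.D ^ 6 * θ' →
  ∃ w x N N' ν τ γ y Gm Rs κ c0, S.J ≤ w ∧ N ≤ c.D ^ 800 * Nb S M c ∧ N' ≤ c.D ^ 700 * Nb S M c ∧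
    TM S M m a (2 * S.C) (c.D ^ 6) x N ν τ γ y Gm Rs (At.e48 S) (At.t48 S) βs v v2 w ∧
    At.TO S M m a (2 * S.C) (c.D ^ 6) κ c0 θ' βs N' c.p.u2 v w

end Crest.Agent.T156.Alt.X84

end
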