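import Crest.Agent.T156.TermCc_28
import Crest.Agent.T156.TermL_72_Mg
import Crest.Agent.T156.TxI_8
import Crest.Agent.T156.LInt_31
import Crest.Agent.T156.ClMid2_36
import Crest.Agent.T156.TxL_8
import Crest.Agent.T156.TopN_61
import Crest.Agent.T156.TxE2_87
import Crest.Agent.T156.TxA_83
import Crest.Agent.T156.TxT_48
import Crest.Agent.T156.TxX_84
import Crest.Agent.T156.TxU_12
import Crest.Agent.T156.TxN_48
import Crest.Agent.T156.TxE_87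
import Crest.Agent.T156.TxG_61
import Crest.Agent.T156.TxV2_83
import Crest.Agent.T156.TopM_47
import Crest.Agent.T156.TxEr_75

-- ▼ part T156/TermCe_28
section

/-!
# Row 156, SR, terminal statement from the block (L) alone (helper28)
-/

set_option autoImplicit false

noncomputable section

namespace Crest.Agent.T156.Alt.Tm92

open Real Finset Filter Pre29 Sr L69

theorem hS1 : HS1 := fun _ _ _ _ _ _ _ _ _ _ _ Z _ _ T =>
  Ts71.s1 Z T (tx Z).nu0.le le_rfl (le_min zero_le_one (Tt46.V2_pos (tx Z)).le) (min_le_right _ _)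

theorem hS2 : HS2 := fun _ _ _ _ _ _ _ _ _ _ _ Z _ _ T =>
  Ts71.s2 Z T (tx Z).nu0.le le_rfl
    (le_min zero_le_one ((Tt46.V2_pos (tx Z)).le.trans (Tt46.V2_le (tx Z)))) (min_le_right _ _)

theorem hLC : HLC := hLC_of hS1 hS2

/-- **`TermS2`** from the block (L) -/
theorem termS2_L (h0 : TLt) (h1 : TL1x) (h2 : TL1cx) : TermS2 := termS2_of' h0 h1 h2 hCn hLC hLP

end Crest.Agent.T156.Alt.Tm92

end
end

-- ▼ part T156/TxJ_8
section

/-!
# Row 156, text (L) (helper8): zone I of (TxS) on the class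
-/

set_option autoImplicit false

noncomputable section

namespace Crest.Agent.T156.Alt.Mp9

open MeasureTheory Set Real
open Crest.Agent.R164.GC Crest.Agent.R339.B Crest.Agent.R339.Var Crest.Agent.T157.Pf
open Crest.Agent.T156.Cut8 Crest.Agent.T156.Gap27 Crest.Agent.T156.Zb9
open Crest.Agent.T156.Alt.C74 (JJ io)
open Crest.Agent.T156.Alt.G89 (ds)

/-- **zone I**: a net `Gc` on `[v, v2]`, the zone is `[sb (v + 1), y]` -/
structure ZI (S : Sc) (M : Md) (m : ℕ) (a T : ℝ) (Gc : ℕ → Prop) (v v2 : ℕ)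
    (y Dq ec la al w th κ0 tl : ℝ) : Prop where
  A : At S M m a T
  up : ∀ k, S.jl + 1 ≤ k → k < S.J → M.H (k + 1) - M.H k ≤ S.C * S.F * S.ms (M.s k) * S.v
  jv : S.jl < v
  vv : v ≤ v2
  vJ : v2 < S.J
  gv : Gc v
  g2 : Gc v2
  s1 : M.s (S.jl + 1) ≤ sb M m a (v + 1)
  me : 8 * S.C ^ 2 * S.v ≤ sb M m a (v + 1)
  tl0 : 0 < tl
  tl1 : tl ≤ sb M m a (v + 1)
  sy : sb M m a (v + 1) ≤ y
  y1 : y ≤ sb M m a (v2 + 1)
  y2 : y ≤ M.s S.J
  D0 : 0 ≤ Dq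
  D1 : sb M m a (v2 + 1) - y ≤ Dq
  nn : 0 ≤ ec ∧ 0 ≤ la ∧ 0 ≤ al ∧ 0 ≤ w ∧ 0 ≤ th ∧ 0 ≤ κ0
  th1 : 4 * S.C * th ≤ 1
  e1 : ∀ k, v ≤ k → k ≤ v2 → Gc k →
    |res M S m a T k - res M S m a T v| ≤ ec + la * ds M m a v k + al * (M.z k - M.z v)
  sh : ∀ i k, Nx Gc v v2 i k → ds M m a i k ≤ w
  lab : ∀ i k, Nx Gc v v2 i k → M.z k ≤ M.z i + (S.C * S.v + th * ds M m a i k)
  wid : ∀ k, v ≤ k → k ≤ v2 → sb M m a (k + 1) < M.s S.J →
    M.z k ≤ M.z v + κ0 + th * (y - sb M m a (v + 1) + Dq)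

variable {S : Sc} {M : Md} {m : ℕ} {a T : ℝ} {Gc : ℕ → Prop} {v v2 : ℕ}
  {y Dq ec la al w th κ0 tl : ℝ}

/-- the ceiling of the marks -/
theorem At.h_ce8 (A : At S M m a T)
    (E : ∀ k, S.jl + 1 ≤ k → k < S.J → M.H (k + 1) - M.H k ≤ S.C * S.F * S.ms (M.s k) * S.v)
    {i k : ℕ} (h1 : S.jl < i) (h2 : i ≤ k) (hk : k < S.J) :
    M.H k - M.H i ≤ S.C ^ 2 * S.F * S.θ * (M.z k - M.z i) := by
  have C0 := A.c_pos
  have F0 : 0 < S.F := by linarith [A.cl.F1]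
  have v0 := v_pos A.cl
  have := tele (f := M.H) (g := fun j => S.C ^ 2 * S.F * S.θ * M.z j) (lo := i) (hi := k)
    (fun j a b => by
      obtain ⟨p1, -⟩ := A.cl.zs j (A.cl.i1.trans (h1.le.trans a)) (by omega)
      have m1 := (A.ms_pos (s_nn A.cl j)).le
      have m2 := A.cl.ms1 (M.s j)
      calc _ ≤ S.C * S.F * S.ms (M.s j) * S.v := E j (by omega) (by omega)
        _ = S.C ^ 2 * S.F * S.ms (M.s j) * (S.v / S.C) := by field_simp
        _ ≤ S.C ^ 2 * S.F * S.θ * (M.z (j + 1) - M.z j) :=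
          mul_le_mul (mul_le_mul_of_nonneg_left m2 (by positivity)) p1 (by positivity)
            (mul_nonneg (by positivity) (by linarith))
        _ = _ := by ring) le_rfl h2 le_rfl
  linarith

namespace ZI

theorem s0 (Z : ZI S M m a T Gc v v2 y Dq ec la al w th κ0 tl) : 0 < sb M m a (v + 1) :=
  Z.tl0.trans_le Z.tl1

theorem yT (Z : ZI S M m a T Gc v v2 y Dq ec la al w th κ0 tl) : y ≤ T :=
  Z.y2.trans ((Z.A.cl.sm Z.A.cl.i3).trans Z.A.t2)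

theorem cellk (Z : ZI S M m a T Gc v v2 y Dq ec la al w th κ0 tl) {t : ℝ}
    (h1 : sb M m a (v + 1) ≤ t) (h2 : t < y) :
    ∃ k, v ≤ k ∧ k < v2 ∧ Cell (sb M m a) (S.Jp + 1) (k + 1) t :=
  Z.A.exists_cell (by have := Z.A.cl.i3; have := Z.vJ; omega) h1 (h2.trans_le Z.y1)

/-- the fall of the difference -/
theorem fall (Z : ZI S M m a T Gc v v2 y Dq ec la al w th κ0 tl) (p t : ℝ)
    (h1 : sb M m a (v + 1) ≤ p) (h2 : p ≤ t) (h3 : t < y) :
    1 / S.C * (t - p) - 1 / S.C / 4 * (y - sb M m a (v + 1)) - (S.C * S.v + κ0 + th * Dq) ≤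
      uu M S m a T p - uu M S m a T t := by
  have A := Z.A
  have C0 := A.c_pos
  obtain ⟨k, k1, k2, c⟩ := Z.cellk (h1.trans h2) h3
  have e := A.lvb_cell c
  have w1 := Z.wid k k1 k2.le ((c.2.1 (Nat.succ_pos k)).trans_lt (h3.trans_le Z.y2))
  have e0 := A.lvb_node Z.jv.le (show v ≤ S.Jp by have := A.cl.i3; have := Z.vJ; have := Z.vv; omega)
  have mb := Sc48.lvr_mono A.okb.1.1 h1
  have l := (A.sl (h3.trans_le Z.y2) p t (Z.s0.le.trans h1) h2 le_rfl).1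
  have t1 : th ≤ 1 / S.C / 4 := by
    rw [div_div, le_div_iff₀ (by positivity)]; linarith [Z.th1]
  have := mul_le_mul_of_nonneg_right t1 (sub_nonneg.2 Z.sy)
  unfold uu
  nlinarith

/-- the residual inside the zone -/
theorem pt (Z : ZI S M m a T Gc v v2 y Dq ec la al w th κ0 tl) {K : ℝ} (K0 : 0 ≤ K)
    (hA : HLip Pr.AA T K) (hN : HLip Pr.NN T K)
    (hL : ∀ s t : ℝ, 0 ≤ s → s ≤ t → t ≤ T → |L0.Gd (lb M S m a T) t - L0.Gd (lb M S m a T) s| ≤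
      K * (t - s) + 2 * (lvr 1 (lb M S m a T) t - lvr 1 (lb M S m a T) s)) {t : ℝ}
    (h1 : sb M m a (v + 1) ≤ t) (h2 : t < y) :
    |Pr.Gam (lb M S m a T) t - t / M.b + (hm M S m a t / M.b -
        resN (lb M S m a T) M.b (sb M m a) (hb M) (v + 1))| ≤
      (3 * (ec + 1 / (m + 1) + al * (κ0 + S.C * S.v)) + 2 * (S.C ^ 2 * S.F * S.θ) * (S.C * S.v) +
        4 * (S.C * S.v) * w ^ 2) +
      (3 * (la + 2 * al * th) + 2 * (S.C ^ 2 * S.F * S.θ) * th + 2 * (S.C * (S.θ / tl)) * w +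
        (2 * K + 4 * th) * w ^ 2) * (y - sb M m a (v + 1) + Dq) +
      4 * w ^ 2 * |uu M S m a T t| + 6 * K * w ^ 2 * (|JJ M S m a T t| + io M S m a T) := by
  have A := Z.A
  have C0 := A.c_pos
  have F0 : 0 < S.F := by linarith [A.cl.F1]
  have v0 := v_pos A.cl
  have i3 := A.cl.i3
  have vJ := Z.vJ
  have jv := Z.jv
  obtain ⟨n1, n2, n3, n4, n5, n6⟩ := Z.nn
  obtain ⟨b1, -⟩ := A.b_mem
  have θ0 := (A.ms_pos le_rfl).le.trans (A.cl.ms1 0)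
  obtain ⟨i, k, n, p, q⟩ := exists_nx (σ := fun k => sb M m a (k + 1)) Z.vv Z.gv Z.g2 h1
    (h2.le.trans Z.y1)
  set g := y - sb M m a (v + 1) + Dq with hg
  set c0 := resN (lb M S m a T) M.b (sb M m a) (hb M) (v + 1)
  have dg : ∀ j, j ≤ v2 → ds M m a v j ≤ g := fun j h => by
    have := A.sb_mono (Nat.succ_le_succ h); have := Z.D1; unfold ds; linarith
  have d0 : 0 ≤ ds M m a i k := G89.ds_nn A n.2.1
  have d1 : ds M m a i k ≤ g := by
    have := dg k n.2.2.1; have := A.sb_mono (Nat.succ_le_succ n.1); unfold ds at *; linarith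
  have g0 : 0 ≤ g := d0.trans d1
  have d2 := Z.sh i k n
  have l1 := Z.lab i k n
  have l2 := Z.wid i n.1 (n.2.1.trans n.2.2.1) (p.trans_lt (h2.trans_le Z.y2))
  have l3 := mul_le_mul_of_nonneg_left d1 n5
  have zik := A.cl.leg.zm n.2.1
  have cv := mul_pos C0 v0
  have nd : ∀ j, v ≤ j → j ≤ k → Gc j → |Pr.Gam (lb M S m a T) (sb M m a (j + 1)) -
      sb M m a (j + 1) / M.b + (hm M S m a (sb M m a (j + 1)) / M.b - c0)| ≤
      ec + 1 / (m + 1) + al * (κ0 + S.C * S.v) + (la + 2 * al * th) * g := fun j j1 j2 gj => by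
    obtain ⟨r1, r2⟩ := A.res36 jv j1 (show j ≤ S.Jp by have := n.2.2.1; omega)
    obtain ⟨e1, e2⟩ := abs_le.1 (Z.e1 j j1 (j2.trans n.2.2.1) gj)
    rw [A.hm_cell (A.cell (by omega) (by have := n.2.2.1; omega))]
    have x1 := mul_le_mul_of_nonneg_left (dg j (j2.trans n.2.2.1)) n2
    have x2 := mul_le_mul_of_nonneg_left (show M.z j - M.z v ≤ κ0 + S.C * S.v + 2 * th * g by
      linarith [A.cl.leg.zm j2]) n3
    have x3 : (0 : ℝ) ≤ 1 / (m + 1) := by positivity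
    rw [sub_div] at r1 r2
    exact abs_le.2 ⟨by linarith, by linarith⟩
  have kJ : k < S.J := by have := n.2.2.1; omega
  have ce := A.h_ce8 Z.up (jv.trans_le n.1) n.2.1 kJ
  have ci := A.cell (k := i) (by have := n.1; omega) (by have := n.2.1; omega)
  have ck := A.cell (k := k) (by have := n.1; have := n.2.1; omega) (by omega)
  have jh : |L0.Gd (lh M T) t| ≤ S.C * (S.θ / tl) :=
    (A.gd_h (Z.s0.le.trans h1) (h2.trans_le Z.y2)).trans (mul_le_mul_of_nonneg_left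
      (div_le_div₀ θ0 (A.cl.ms1 t) Z.tl0 ((Z.tl1.trans h1).trans (le_max_left _ _))) C0.le)
  have k1 := gap_one K0 hA hN A.okb.1 A.okh.1 A.okb.2 A.okh.2 hL
    (φ := fun s => hm M S m a s / M.b - c0) (b := M.b) (p := sb M m a (i + 1))
    (q := sb M m a (k + 1)) (Dz := S.C * S.v + th * g)
    (D := S.C ^ 2 * S.F * S.θ * (S.C * S.v + th * g)) (A.sb_mem (by have := n.2.1; omega)).1
    (A.sb_mem (by omega)).2 (by rw [A.lvb_cell ci, A.lvb_cell ck]; linarith) jh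
    (fun s hs => by
      have m1 := A.hm_mono hs.1
      have m2 := A.hm_mono hs.2
      rw [A.hm_cell ck] at m2
      rw [A.hm_cell ci] at m1 ⊢
      rw [show hm M S m a s / M.b - c0 - (M.H i / M.b - c0) = (hm M S m a s - M.H i) / M.b by ring,
        abs_of_nonneg (div_nonneg (by linarith) (by linarith))]
      refine (div_le_self (by linarith) b1).trans ?_
      linarith [mul_le_mul_of_nonneg_left (show M.z k - M.z i ≤ S.C * S.v + th * g by linarith)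
        (show 0 ≤ S.C ^ 2 * S.F * S.θ by positivity)])
    (nd i n.1 n.2.1 n.2.2.2.1) (nd k (n.1.trans n.2.1) le_rfl n.2.2.2.2.1) ⟨p, q⟩
  refine k1.trans ?_
  change _ + 2 * (_ + K * ds M m a i k + _ + 2 * |uu M S m a T t| +
    3 * K * (|JJ M S m a T t| + io M S m a T)) * ds M m a i k ^ 2 ≤ _
  set d := ds M m a i k
  have io0 : 0 ≤ io M S m a T := intervalIntegral.integral_nonneg
    ((Z.s0.le.trans Z.sy).trans Z.yT) fun _ _ => abs_nonneg _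
  have q1 : d ^ 2 ≤ w ^ 2 := pow_le_pow_left₀ d0 d2 2
  have q2 : d ^ 2 ≤ w * g := by rw [sq]; exact mul_le_mul d2 d1 d0 n4
  have j0 : 0 ≤ S.C * (S.θ / tl) := by have := Z.tl0; positivity
  have x1 := mul_le_mul_of_nonneg_left q2 j0
  have x2 := mul_le_mul (mul_le_mul_of_nonneg_left d1 K0) q1 (sq_nonneg _) (mul_nonneg K0 g0)
  have x3 := mul_le_mul_of_nonneg_left q1 (show 0 ≤ S.C * S.v + th * g by positivity)
  have x4 := mul_le_mul_of_nonneg_left q1 (abs_nonneg (uu M S m a T t))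
  have x5 := mul_le_mul_of_nonneg_left q1
    (show 0 ≤ K * (|JJ M S m a T t| + io M S m a T) by positivity)
  linarith

/-- **zone I as a segment**, floor `μ = mm s` -/
theorem seg (Z : ZI S M m a T Gc v v2 y Dq ec la al w th κ0 tl) {K βs ν θ lam τ μ : ℝ} (K0 : 0 ≤ K)
    (hA : HLip Pr.AA T K) (hN : HLip Pr.NN T K)
    (hL : ∀ s t : ℝ, 0 ≤ s → s ≤ t → t ≤ T → |L0.Gd (lb M S m a T) t - L0.Gd (lb M S m a T) s| ≤
      K * (t - s) + 2 * (lvr 1 (lb M S m a T) t - lvr 1 (lb M S m a T) s))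
    (μ0 : 0 < μ) (μ1 : μ ≤ mm M S m a (sb M m a (v + 1))) (ν0 : 0 ≤ ν) (hθ : 0 < θ) (hl : 0 < lam)
    (τ0 : 0 ≤ τ) (β0 : 0 ≤ βs)
    (h0 : βs + (3 * (ec + 1 / (m + 1) + al * (κ0 + S.C * S.v)) +
      2 * (S.C ^ 2 * S.F * S.θ) * (S.C * S.v) + 4 * (S.C * S.v) * w ^ 2) ≤ (μ + ν ^ 2) * τ)
    (hk : 3 * (la + 2 * al * th) + 2 * (S.C ^ 2 * S.F * S.θ) * th + 2 * (S.C * (S.θ / tl)) * w +
        (2 * K + 4 * th) * w ^ 2 ≤ (μ + ν ^ 2) * lam)
    (h1 : 4608 * lam ^ 2 ≤ θ ^ 2 * (1 / S.C) ^ 2)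
    (h4 : 4 * w ^ 2 + (6 * K * w ^ 2) ^ 2 / θ ≤ θ * (μ + ν ^ 2)) :
    Seg T (uu M S m a T) (fun t => Pr.Gam (lb M S m a T) t - Pr.Gam (lh M T) t)
      (resN (lb M S m a T) M.b (sb M m a) (hb M) (v + 1)) βs (sb M m a (v + 1)) y
      (3 * θ * (μ * ∫ t in sb M m a (v + 1)..y, uu M S m a T t ^ 2) +
        θ * (6 * (∫ t in sb M m a (v + 1)..y, uu M S m a T t ^ 4) +
          (∫ t in sb M m a (v + 1)..y, JJ M S m a T t ^ 2) +
          (y - sb M m a (v + 1)) * io M S m a T ^ 2) +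
        2 / (θ * μ) * (∫ t in sb M m a (v + 1)..y, (S.C ^ 2 * S.θ * S.v + |gt M S t|) ^ 2) +
        (μ + ν ^ 2) * (6 * τ ^ 3 / (θ * lam) + 6 * lam ^ 2 / θ * Dq ^ 3 +
          8 * θ / (1 / S.C) * (S.C * S.v + κ0 + th * Dq) ^ 3) + 18 * θ / (1 / S.C) * ν ^ 5)
      (μ * ∫ t in sb M m a (v + 1)..y, uu M S m a T t ^ 2) := by
  have A := Z.A
  have C0 := A.c_pos
  have v0 := v_pos A.cl
  have θ0 := (A.ms_pos le_rfl).le.trans (A.cl.ms1 0)
  obtain ⟨n1, n2, n3, n4, n5, n6⟩ := Z.nn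
  have D0 := Z.D0
  have g0 : 0 ≤ y - sb M m a (v + 1) + Dq := by linarith [Z.sy]
  have lu : LB T (uu M S m a T) :=
    (LB.of_mono (Sc48.lvr_mono A.okb.1.1)).sub (LB.of_mono (Sc48.lvr_mono A.okh.1.1))
  have T0 : 0 ≤ T := (Z.s0.le.trans Z.sy).trans Z.yT
  refine segI (α := (μ + ν ^ 2) * (τ + lam * (y - sb M m a (v + 1) + Dq))) (A1 := 4 * w ^ 2)
    (A2 := 6 * K * w ^ 2) lu ((LB.const _).add (LB_gt T M S).abs) (.of_cont (lu.tail ⟨T0, le_rfl⟩)) Z.s0.le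
    Z.sy Z.yT μ0 ν0 hθ (by positivity) hl (by positivity) τ0 D0 β0 (by positivity) le_rfl h1 h4
    (fun t t1 t2 => ⟨_, ?_, by positivity, (add_le_add_left (Z.pt K0 hA hN hL t1 t2) βs).trans ?_⟩)
    Z.fall
  · obtain ⟨k, k1, k2, c⟩ := Z.cellk t1 t2
    have f := (A.fl3 Z.up (Z.jv.trans_le k1) (k2.trans Z.vJ) c (Z.s1.trans t1)
      (t2.trans_le Z.y2) ((Z.me.trans t1).trans (At.le_lev t))).1
    have g := mul_le_mul_of_nonneg_right (μ1.trans (A.mm_mono t1)) (sq_nonneg (uu M S m a T t))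
    have e : yN (lh M T) M.b (sb M m a) (hb M) (S.Jp + 1) t =
        hm M S m a t / M.b - t / M.b + Pr.Gam (lh M T) t := by
      have := A.b_mem.1
      unfold yN hm; field_simp; ring
    rw [e] at f
    nlinarith
  · nlinarith [mul_le_mul_of_nonneg_right hk g0]

end ZI

end Crest.Agent.T156.Alt.Mp9

end
end

-- ▼ part T156/TxD_6
section

/-!
# Row 156, text (L) (helper6): the distance of the last sloped node to the corner point
-/

set_option autoImplicit false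

noncomputable section

namespace Crest.Agent.T156.Alt.Mp9.At

open MeasureTheory Set Real
open Crest.Agent.R164.GC Crest.Agent.R339.B Crest.Agent.R339.Var Crest.Agent.T157.Pf
open Crest.Agent.T156.Spl27 Crest.Agent.T156.Zb9 Crest.Agent.T156.Pr.Mid8
open Crest.Agent.T156.Cut8

variable {S : Sc} {M : Md} {m : ℕ} {a T : ℝ}

theorem ld6 (A : At S M m a T) : LB T fun t => lvr 1 (lb M S m a T) t - lvr 1 (lh M T) t :=
  (LB.of_mono (Sc48.lvr_mono A.okb.1.1)).sub (LB.of_mono (Sc48.lvr_mono A.okh.1.1))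

theorem ff0_6 (l l' : List (ℝ × ℝ)) (σ t : ℝ) : 0 ≤ Mid.ff l l' σ t := by
  unfold Mid.ff; split_ifs <;> positivity

theorem lw6 (A : At S M m a T) (σ : ℝ) :
    LB T fun t => |t - σ| * Mid.ff (lb M S m a T) (lh M T) σ t :=
  (LB.of_cont (f := fun t => |t - σ|) (by fun_prop)).mul
    (Pr.Reg48.LB_ite (Pr.Reg48.LB_max A.ld6) A.ld6.abs)

/-- before the time of the node `k` the mean profile is below the label of `k` -/
theorem zb_lt6 (A : At S M m a T) {k : ℕ} {t : ℝ} (h0 : 0 ≤ t) (h : t < sb M m a (k + 1)) :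
    lvr 1 (lb M S m a T) t ≤ M.z k := by
  obtain ⟨i, c⟩ := exists_Cell A.ub t
  rw [A.lvb h0, c.stp A.ub]
  exact A.xb_mono (c.lt A.ub (Nat.succ_pos k) h).le

/-- a window inside `[y, Q]` on which the weight is large -/
theorem win6 (A : At S M m a T) {y p q Q W c σ : ℝ} (y0 : 0 ≤ y) (h1 : y ≤ p) (h2 : p ≤ q)
    (h3 : q ≤ Q) (h4 : Q ≤ T)
    (hW : ∫ t in y..Q, |t - σ| * Mid.ff (lb M S m a T) (lh M T) σ t ≤ W)
    (h : ∀ t, p < t → t < q → c ≤ |t - σ| * Mid.ff (lb M S m a T) (lh M T) σ t) :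
    (q - p) * c ≤ W := by
  have a1 := int_sub_le (A.lw6 σ) y0 h1 h2 h3 h4 fun t _ _ =>
    mul_nonneg (abs_nonneg _) (ff0_6 _ _ _ _)
  have a2 := int_mono (LB.const c) (A.lw6 σ) (y0.trans h1) h2 (h3.trans h4) h
  rw [intervalIntegral.integral_const, smul_eq_mul] at a2
  linarith

/-- the pieces of `sb J - y` -/
theorem dq_split (A : At S M m a T) {y τ γ : ℝ} (y0 : 0 ≤ y) (y1 : y ≤ M.s S.J)
    (y2 : y ≤ sb M m a S.J) (hτ : 2 * (S.C * S.v) ≤ τ) (hγ : M.s S.Jp - M.s S.J ≤ γ)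
    (hz : ∀ t, y ≤ t → t < M.s S.J → M.z (S.J - 1) - τ ≤ lvr 1 (lb M S m a T) t) :
    ∃ l1 l2, 0 ≤ l1 ∧ 0 ≤ l2 ∧ l2 ≤ T ∧ sb M m a S.J - y ≤ l1 + γ + l2 ∧ y + l1 ≤ sb M m a S.J ∧
      (l1 ≤ 8 * S.C * τ ∨ ∀ t, y < t → t < y + l1 / 2 → l1 / 2 ≤ M.s S.Jp - t ∧
        l1 / (4 * S.C) ≤ lvr 1 (lb M S m a T) t - lvr 1 (lh M T) t) ∧
      (l2 = 0 ∨ (M.s S.Jp + l2 = sb M m a S.J ∧ ∀ t, M.s S.Jp < t → t < M.s S.Jp + l2 →
        lvr 1 (lb M S m a T) t - lvr 1 (lh M T) t ≤ -(1 / S.C))) := by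
  have c0 := A.c_pos
  have sJ : M.s S.J ≤ M.s S.Jp := A.cl.sm A.cl.i3
  have s0 := s_nn A.cl S.Jp
  have eJ := A.J_pred.2.2
  have bT : sb M m a S.J ≤ T := by
    have := (A.sb_mem (k := S.J - 1) (by have := A.cl.i3; omega)).2
    rwa [eJ] at this
  have m1 := min_le_left (sb M m a S.J) (M.s S.J)
  have m2 := min_le_right (sb M m a S.J) (M.s S.J)
  refine ⟨min (sb M m a S.J) (M.s S.J) - y, max (sb M m a S.J - M.s S.Jp) 0,
    sub_nonneg.2 (le_min y2 y1), le_max_right _ _, max_le (by linarith) (s0.trans A.t2), ?_,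
    by linarith, ?_, ?_⟩
  · have m3 := le_max_left (sb M m a S.J - M.s S.Jp) 0
    have m4 := le_max_right (sb M m a S.J - M.s S.Jp) 0
    rcases le_total (sb M m a S.J) (M.s S.J) with c | c
    · rw [min_eq_left c]; linarith
    · rw [min_eq_right c]; linarith
  · generalize hl : min (sb M m a S.J) (M.s S.J) - y = l at *
    refine (le_total l (8 * S.C * τ)).imp_right fun c t t0 t1 => ⟨by linarith, ?_⟩
    have k1 := A.slope36 (s := t) (by linarith) (by linarith)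
    have k2 := hz t t0.le (by linarith)
    have k3 : l / (4 * S.C) + 2 * τ ≤ 1 / S.C * (M.s S.J - t) := by
      rw [one_div_mul_eq_div, le_div_iff₀ c0]
      have : l / (4 * S.C) * S.C = l / 4 := by field_simp
      linarith
    linarith
  · rcases le_total (sb M m a S.J - M.s S.Jp) 0 with c | c
    · exact .inl (max_eq_right c)
    · rw [max_eq_left c]
      refine .inr ⟨by ring, fun t t0 t1 => ?_⟩
      have k1 := A.zb_lt6 (k := S.J - 1) (t := t) (by linarith) (by rw [eJ]; linarith)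
      rw [A.lvh' (by linarith), A.cl.lv1 t t0.le]
      linarith [A.cl.atom.2]

theorem three3 {x y z : ℝ} (hx : 0 ≤ x) (hy : 0 ≤ y) (hz : 0 ≤ z) (n : ℕ) :
    (x + y + z) ^ n ≤ 3 ^ n * (x ^ n + y ^ n + z ^ n) := by
  have key : ∀ w, 0 ≤ w → x ≤ w → y ≤ w → z ≤ w → (x + y + z) ^ n ≤ 3 ^ n * w ^ n :=
    fun w _ a b c => by
      rw [← mul_pow]; exact pow_le_pow_left₀ (by positivity) (by linarith) n
  have p1 := pow_nonneg hx n
  have p2 := pow_nonneg hy n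
  have p3 := pow_nonneg hz n
  have p : (0 : ℝ) ≤ 3 ^ n := by positivity
  rcases le_total x y with a | a <;> rcases le_total y z with b | b <;>
    rcases le_total x z with c | c
  all_goals first
    | exact (key x hx le_rfl (by linarith) (by linarith)).trans
        (mul_le_mul_of_nonneg_left (by linarith) p)
    | exact (key y hy (by linarith) le_rfl (by linarith)).trans
        (mul_le_mul_of_nonneg_left (by linarith) p)
    | exact (key z hz (by linarith) (by linarith) le_rfl).trans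
        (mul_le_mul_of_nonneg_left (by linarith) p)

/-- **cubic bound of `sb J - y` from the gain** -/
theorem dq3 (A : At S M m a T) (hT : T ≤ 2 * S.C) {y τ γ Q W : ℝ} (y0 : 0 ≤ y)
    (y1 : y ≤ M.s S.J) (y2 : y ≤ sb M m a S.J) (hτ : 2 * (S.C * S.v) ≤ τ)
    (hγ : M.s S.Jp - M.s S.J ≤ γ)
    (hz : ∀ t, y ≤ t → t < M.s S.J → M.z (S.J - 1) - τ ≤ lvr 1 (lb M S m a T) t)
    (hQ : sb M m a S.J ≤ Q) (hQT : Q ≤ T)
    (hW : ∫ t in y..Q, |t - M.s S.Jp| * Mid.ff (lb M S m a T) (lh M T) (M.s S.Jp) t ≤ W) :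
    (sb M m a S.J - y) ^ 3 ≤ 14000 * S.C ^ 3 * (W + τ ^ 3 + γ ^ 3) := by
  obtain ⟨l1, l2, p1, p2, p3, hD, p4, h1, h2⟩ := A.dq_split y0 y1 y2 hτ hγ hz
  have c0 := A.c_pos
  have c1 := A.cl.C1
  have v0 := v_pos A.cl
  have τ0 : 0 ≤ τ := le_trans (by positivity) hτ
  have sJ : M.s S.J ≤ M.s S.Jp := A.cl.sm A.cl.i3
  have γ0 : 0 ≤ γ := by linarith
  have W0 : 0 ≤ W := by
    simpa using A.win6 (c := 0) y0 le_rfl le_rfl (y2.trans hQ) hQT hW
      (fun t a b => absurd (a.trans b) (lt_irrefl _))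
  have q3 : 1 ≤ S.C ^ 3 := one_le_pow₀ c1
  have q1 : S.C ≤ S.C ^ 3 := le_self_pow₀ c1 (by norm_num)
  have q2 : S.C ^ 2 ≤ S.C ^ 3 := pow_le_pow_right₀ c1 (by norm_num)
  have t3 := pow_nonneg τ0 3
  have g3 := pow_nonneg γ0 3
  have w1 := mul_le_mul_of_nonneg_right q1 W0
  have w2 := mul_le_mul_of_nonneg_right q2 W0
  have w3 := mul_le_mul_of_nonneg_right q3 g3
  have w4 : 0 ≤ S.C ^ 3 * τ ^ 3 := by positivity
  have w5 : 0 ≤ S.C * W := by positivity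
  have a1 : l1 ^ 3 ≤ 16 * (S.C * W) + 512 * (S.C ^ 3 * τ ^ 3) := by
    rcases h1 with h | h
    · have := pow_le_pow_left₀ p1 h 3
      linarith
    · have := A.win6 (c := l1 / 2 * (l1 / (4 * S.C))) y0 le_rfl (show y ≤ y + l1 / 2 by linarith)
        (by linarith) hQT hW fun t t0 t1 => by
          obtain ⟨k1, k2⟩ := h t t0 t1
          refine mul_le_mul (k1.trans (by rw [abs_sub_comm]; exact le_abs_self _)) ?_
            (by positivity) (abs_nonneg _)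
          unfold Mid.ff
          split_ifs
          · exact k2.trans (le_max_left _ _)
          · exact k2.trans (le_abs_self _)
      have e : (y + l1 / 2 - y) * (l1 / 2 * (l1 / (4 * S.C))) * S.C = l1 ^ 3 / 16 := by
        field_simp; ring
      have := mul_le_mul_of_nonneg_right this c0.le
      linarith
  have a2 : l2 ^ 3 ≤ 8 * (S.C ^ 2 * W) := by
    rcases h2 with h | ⟨e, h⟩
    · have : 0 ≤ S.C ^ 2 * W := by positivity
      rw [h]; linarith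
    · have := A.win6 (c := l2 / 2 * (1 / S.C)) (p := M.s S.Jp + l2 / 2) (q := M.s S.Jp + l2) y0
        (by linarith) (by linarith) (by linarith) hQT hW fun t t0 t1 => by
          refine mul_le_mul (le_trans (by linarith) (le_abs_self _)) ?_
            (by positivity) (abs_nonneg _)
          unfold Mid.ff
          rw [if_neg (by linarith)]
          exact le_trans (by linarith [h t (by linarith) t1]) (neg_le_abs _)
      have e : (M.s S.Jp + l2 - (M.s S.Jp + l2 / 2)) * (l2 / 2 * (1 / S.C)) * S.C = l2 ^ 2 / 4 := by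
        field_simp; ring
      have k := mul_le_mul_of_nonneg_right this c0.le
      have k2 : l2 ^ 2 * l2 ≤ 4 * (W * S.C) * (2 * S.C) :=
        mul_le_mul (by linarith) (p3.trans hT) p2 (by positivity)
      linarith
  have b := (pow_le_pow_left₀ (sub_nonneg.2 y2) hD 3).trans (three3 p1 γ0 p2 3)
  have w6 : 0 ≤ S.C ^ 3 * W := by positivity
  linarith

/-- **quintic bound of `sb J - y` from the energy** -/
theorem dq5 (A : At S M m a T) (hT : T ≤ 2 * S.C) {y τ γ A0 E : ℝ} (h0 : 0 ≤ A0) (y0 : A0 ≤ y)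
    (y1 : y ≤ M.s S.J) (y2 : y ≤ sb M m a S.J) (hτ : 2 * (S.C * S.v) ≤ τ)
    (hγ : M.s S.Jp - M.s S.J ≤ γ)
    (hz : ∀ t, y ≤ t → t < M.s S.J → M.z (S.J - 1) - τ ≤ lvr 1 (lb M S m a T) t)
    (hE : ∫ t in A0..T, Jf T (lvr 1 (lh M T)) (lvr 1 (lb M S m a T)) t ^ 2 ≤ E) :
    (sb M m a S.J - y) ^ 5 ≤ 8000000 * S.C ^ 5 * (E + τ ^ 5 + γ ^ 5) := by
  obtain ⟨l1, l2, p1, p2, p3, hD, p4, h1, h2⟩ := A.dq_split (h0.trans y0) y1 y2 hτ hγ hz
  have c0 := A.c_pos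
  have c1 := A.cl.C1
  have v0 := v_pos A.cl
  have τ0 : 0 ≤ τ := le_trans (by positivity) hτ
  have sJ : M.s S.J ≤ M.s S.Jp := A.cl.sm A.cl.i3
  have γ0 : 0 ≤ γ := by linarith
  have bT : sb M m a S.J ≤ T := by
    have := (A.sb_mem (k := S.J - 1) (by have := A.cl.i3; omega)).2
    rwa [A.J_pred.2.2] at this
  have T0 : 0 ≤ T := by linarith
  have lJ := (LB.of_cont (Lab36.jf_cont A.ld6 T0)).sq
  have sub : ∀ p q, A0 ≤ p → p ≤ q → q ≤ T →
      ∫ t in p..q, Jf T (lvr 1 (lh M T)) (lvr 1 (lb M S m a T)) t ^ 2 ≤ E := fun p q a b c =>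
    (int_sub_le lJ h0 a b c le_rfl fun _ _ _ => sq_nonneg _).trans hE
  have E0 : 0 ≤ E := by simpa using sub y y y0 le_rfl (by linarith)
  have q5 : 1 ≤ S.C ^ 5 := one_le_pow₀ c1
  have q2 : S.C ^ 2 ≤ S.C ^ 5 := pow_le_pow_right₀ c1 (by norm_num)
  have q4 : S.C ^ 4 ≤ S.C ^ 5 := pow_le_pow_right₀ c1 (by norm_num)
  have t5 := pow_nonneg τ0 5
  have g5 := pow_nonneg γ0 5
  have w1 := mul_le_mul_of_nonneg_right q2 E0
  have w2 := mul_le_mul_of_nonneg_right q4 E0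
  have w3 := mul_le_mul_of_nonneg_right q5 g5
  have w4 : 0 ≤ S.C ^ 5 * τ ^ 5 := by positivity
  have w5 : 0 ≤ S.C ^ 2 * E := by positivity
  have a1 : l1 ^ 5 ≤ 8192 * (S.C ^ 2 * E) + 32768 * (S.C ^ 5 * τ ^ 5) := by
    rcases h1 with h | h
    · have := pow_le_pow_left₀ p1 h 5
      linarith
    · have := (Lab36.gap_pos A.ld6 (u := y) (ℓ := l1 / 2) (κ := l1 / (4 * S.C)) (h0.trans y0)
        (by positivity) (by linarith) (by positivity) fun t t0 t1 => (h t t0 t1).2).trans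
        (sub _ _ y0 (by linarith) (by linarith))
      have e : (l1 / (4 * S.C)) ^ 2 * (l1 / 2) ^ 3 / 64 * S.C ^ 2 = l1 ^ 5 / 8192 := by
        field_simp; ring
      have := mul_le_mul_of_nonneg_right this (sq_nonneg S.C)
      linarith
  have a2 : l2 ^ 5 ≤ 256 * (S.C ^ 4 * E) := by
    rcases h2 with h | ⟨e, h⟩
    · have : 0 ≤ S.C ^ 4 * E := by positivity
      rw [h]; linarith
    · have := (Lab36.gap_neg A.ld6 (u := M.s S.Jp) (ℓ := l2) (κ := 1 / S.C) (s_nn A.cl _) p2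
        (by linarith) (by positivity) h).trans (sub _ _ (by linarith) (by linarith) (by linarith))
      have e : (1 / S.C) ^ 2 * l2 ^ 3 / 64 * S.C ^ 2 = l2 ^ 3 / 64 := by field_simp
      have k := mul_le_mul_of_nonneg_right this (sq_nonneg S.C)
      have k2 : l2 ^ 3 * l2 ^ 2 ≤ 64 * (E * S.C ^ 2) * (2 * S.C) ^ 2 :=
        mul_le_mul (by linarith) (pow_le_pow_left₀ p2 (p3.trans hT) 2) (sq_nonneg _)
          (by positivity)
      linarith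
  have b := (pow_le_pow_left₀ (sub_nonneg.2 y2) hD 5).trans (three3 p1 γ0 p2 5)
  have w6 : 0 ≤ S.C ^ 5 * E := by positivity
  linarith

/-- the label hypothesis at `y = min (sb (v + 1)) (s J)` -/
theorem hz6 (A : At S M m a T) {v : ℕ} {τ : ℝ} (hv : S.jl ≤ v) (hJ : v < S.J)
    (zv : M.z (S.J - 1) - τ ≤ M.z v) :
    0 ≤ min (sb M m a (v + 1)) (M.s S.J) ∧ min (sb M m a (v + 1)) (M.s S.J) ≤ M.s S.J ∧
      min (sb M m a (v + 1)) (M.s S.J) ≤ sb M m a S.J ∧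
      ∀ t, min (sb M m a (v + 1)) (M.s S.J) ≤ t → t < M.s S.J →
        M.z (S.J - 1) - τ ≤ lvr 1 (lb M S m a T) t := by
  have vp : v ≤ S.Jp := hJ.le.trans A.cl.i3
  refine ⟨le_min (A.sb_mem vp).1 (s_nn A.cl _), min_le_right _ _,
    (min_le_left _ _).trans (A.sb_mono hJ), fun t h1 h2 => zv.trans ?_⟩
  rw [← A.lvb_node hv vp]
  exact Sc48.lvr_mono A.okb.1.1 ((min_le_iff.1 h1).resolve_right (not_le.2 h2))

end Crest.Agent.T156.Alt.Mp9.At

end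
end

-- ▼ part T156/TxP_8
section

/-!
# Row 156, text (L) (helper8): zone I of (TxS), cost and gains
-/

set_option autoImplicit false

noncomputable section

namespace Crest.Agent.T156.Alt.Mp9

open MeasureTheory Set Real
open Crest.Agent.R164.GC Crest.Agent.R339.B Crest.Agent.R339.Var Crest.Agent.T157.Pf
open Crest.Agent.T156.Cut8 Crest.Agent.T156.Gap27 Crest.Agent.T156.Zb9 Crest.Agent.T156.Spl27
open Crest.Agent.T156.Alt.C74 (JJ io)
open Crest.Agent.T156.Alt.L69 (GS)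
open Crest.Agent.T156.Alt.X84 (Il Z1e rr)

variable {S : Sc} {M : Md} {m : ℕ} {a T : ℝ} {Gc : ℕ → Prop} {v v2 : ℕ}
  {y Dq ec la al w th κ0 tl : ℝ}

theorem At.gt_GS8 (A : At S M m a T) {s y t1 : ℝ} (h0 : M.s (S.jl + 1) ≤ s) (sy : s ≤ y)
    (y2 : y ≤ M.s S.J) (h1 : t1 + S.C * S.v ≤ s) :
    ∫ t in s..y, gt M S t ^ 2 ≤ S.C ^ 2 * GS M S t1 S.C := by
  have zm := A.cl.leg.zm
  have nn : ∀ k, 0 ≤ L69.dx M k * M.G k ^ 2 := fun k =>
    mul_nonneg (sub_nonneg.2 (zm (Nat.sub_le k 1))) (sq_nonneg _)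
  rcases sy.eq_or_lt with rfl | sy'
  · rw [intervalIntegral.integral_same]
    exact mul_nonneg (sq_nonneg _) (Finset.sum_nonneg fun k _ => nn k)
  obtain ⟨i, p1, p2, p3, p4⟩ := A.exists_ref h0 (sy'.trans_le y2)
  have q := (A.cl.ss i p2).2
  have sp : M.s S.J ≤ M.s S.Jp := A.cl.sm A.cl.i3
  refine (int_sub_le (LB_gt T M S).sq (s_nn A.cl i) p3 sy y2 (sp.trans A.t2)
    fun _ _ _ => sq_nonneg _).trans ((A.int_gt (by have := A.cl.i1; omega) p2.le le_rfl).trans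
      (mul_le_mul_of_nonneg_left ?_ (sq_nonneg _)))
  refine Finset.sum_le_sum_of_subset_of_nonneg (fun k hk => ?_) fun k _ _ => nn k
  rw [Finset.mem_Ico] at hk
  rw [Finset.mem_filter, Finset.mem_Ioo]
  exact ⟨⟨by omega, hk.2⟩, by linarith [A.cl.sm hk.1],
    ((A.cl.sm hk.2.le).trans sp).trans A.cl.sT⟩

theorem At.zh_top8 (A : At S M m a T) {t : ℝ} (h1 : M.s (S.J - 1) ≤ t) (h2 : t < M.s S.J) :
    lvr 1 (lh M T) t = M.z (S.J - 1) := by
  rw [A.lvh' ((s_nn A.cl _).trans h1)]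
  exact A.cl.lv _ A.J_pred.1 t h1 (by rw [A.J_pred.2.2]; exact h2)

theorem At.four8 (A : At S M m a T) {c B : ℝ} (F : Fr T c B (okT T) (lvr 1) Pr.Gam Pr.GG)
    (hT : T ≤ 2 * S.C) {A0 E : ℝ} (jv : S.jl ≤ v) (vJ : v < S.J) (s0 : 0 < sb M m a (v + 1))
    (sy : sb M m a (v + 1) ≤ y) (y1 : y ≤ sb M m a S.J) (y2 : y ≤ M.s S.J) (a0 : 0 ≤ A0)
    (loc : |sb M m a (v + 1) - M.s v| + 2 * S.v ≤ 2 * (sb M m a (v + 1) - A0))
    (δ1 : S.C * S.v ≤ 1) (hE : ∫ t in A0..T, JJ M S m a T t ^ 2 ≤ E) (E0 : 0 ≤ E) :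
    ∫ t in sb M m a (v + 1)..y, uu M S m a T t ^ 4 ≤
      (67 * S.C) ^ 2 * (E + 12 * S.C ^ 3 * (S.C * S.v)) := by
  have C0 := A.c_pos
  have C1 := A.cl.C1
  have v0 := v_pos A.cl
  have δ0 := mul_pos C0 v0
  rcases sy.eq_or_lt with rfl | sy'
  · rw [intervalIntegral.integral_same]; positivity
  set s := sb M m a (v + 1) with hs
  obtain ⟨p1, p2⟩ := A.s_pred
  have sJ : s < M.s S.J := sy'.trans_le y2
  have JT := A.sJ_T
  have T0 := A.T_nn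
  set b := max s (M.s (S.J - 1)) with hb
  have bJ : b < M.s S.J := max_lt sJ p1
  have mh := Sc48.lvr_mono A.okh.1.1
  have mb := Sc48.lvr_mono A.okb.1.1
  have sv : M.s v < M.s S.J := (s_lt A.cl vJ).trans_le (A.cl.sm vJ)
  have e1 := A.lvb_node jv (vJ.le.trans A.cl.i3)
  have e2 := A.lvh_node (A.cl.i1.trans jv) vJ
  have l0 := abs_nonneg (s - M.s v)
  have u0 : |lvr 1 (lb M S m a T) s - lvr 1 (lh M T) s| ≤ S.C * |s - M.s v| + S.C * S.v := by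
    rw [e1, ← e2]
    rcases le_total s (M.s v) with h | h
    · rw [abs_of_nonneg (sub_nonneg.2 (mh h)), abs_sub_comm, abs_of_nonneg (sub_nonneg.2 h)]
      exact (A.sl sv _ _ s0.le h le_rfl).2
    · rw [abs_sub_comm, abs_of_nonneg (sub_nonneg.2 (mh h)), abs_of_nonneg (sub_nonneg.2 h)]
      exact (A.sl sJ _ _ (s_nn A.cl _) h le_rfl).2
  have sx : s ≤ min y b := le_min sy (le_max_left _ _)
  have k := F.four_loc A.okb A.okh (a := A0) (x := s) (s := min y b) (b := b) (γ := s - A0)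
    (C1 := S.C) (δ := S.C * S.v) a0 (by linarith) (by linarith) sx (min_le_right _ _)
    (by linarith) C0 δ0 (fun p t h1 h2 h3 => (A.sl bJ p t (a0.trans h1) h2 h3).2)
    (by nlinarith [mul_le_mul_of_nonneg_left loc C0.le])
    (fun t ht => by
      rw [A.zh_top8 (le_max_right _ _) bJ]
      have := A.zb_lt6 (k := S.J - 1) (t := max t 0) (le_max_right _ _) (by
        rw [A.J_pred.2.2]
        exact max_lt ((ht.trans_le (min_le_left _ _)).trans_le y1) (by linarith))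
      linarith [mb (le_max_left t 0)])
  have lu : LB T (uu M S m a T) := A.LB_u
  have l4 : LB T fun t => uu M S m a T t ^ 4 := by simpa only [← pow_mul] using lu.sq.sq
  have k2 := int_le_const l4 (K := 1) (s0.le.trans sx) (min_le_left y b) (by linarith)
    fun t _ _ => by
      have q1 := Pp.Ode3.lvr_pos A.okb.1.1 t
      have q2 := Pp.Ode3.lvr_pos A.okh.1.1 t
      have q3 := Pp.Ode3.lvr_le_one A.okb.1.1 t
      have q4 := Pp.Ode3.lvr_le_one A.okh.1.1 t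
      have : |uu M S m a T t| ≤ 1 := by unfold uu; exact abs_le.2 ⟨by linarith, by linarith⟩
      have := pow_le_one₀ (abs_nonneg _) this (n := 4)
      rwa [show |uu M S m a T t| ^ 4 = uu M S m a T t ^ 4 from Even.pow_abs (by decide) _] at this
  have k3 : y - min y b ≤ S.C * S.v := by
    rcases le_total y b with h | h
    · rw [min_eq_left h]; linarith
    · rw [min_eq_right h]; linarith [le_max_right s (M.s (S.J - 1))]
  rw [int_split l4 ⟨s0.le, by linarith⟩ ⟨s0.le.trans sx, by linarith [min_le_left y b]⟩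
    ⟨by linarith, by linarith⟩]
  set δ := S.C * S.v
  have c3 : S.C ≤ S.C ^ 3 := le_self_pow₀ C1 (by norm_num)
  have r1 : δ ^ 2 * T ^ 3 ≤ δ * (2 * S.C) ^ 3 :=
    mul_le_mul (pow_le_of_le_one δ0.le δ1 two_ne_zero) (pow_le_pow_left₀ T0 hT 3) (by positivity)
      δ0.le
  have r2 : δ ^ 4 * T ≤ δ * (2 * S.C ^ 3) :=
    mul_le_mul (pow_le_of_le_one δ0.le δ1 (by norm_num)) (by linarith) T0 δ0.le
  have r3 : δ / S.C ≤ δ * S.C ^ 3 :=
    (div_le_self δ0.le C1).trans (le_mul_of_one_le_right δ0.le (C1.trans c3))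
  have r4 : (64 * S.C + 3) ^ 2 ≤ (67 * S.C) ^ 2 := pow_le_pow_left₀ (by positivity) (by linarith) 2
  have r5 : δ ≤ (67 * S.C) ^ 2 * (S.C ^ 3 * δ) := by
    have : 1 ≤ (67 * S.C) ^ 2 := one_le_pow₀ (by linarith)
    nlinarith [mul_le_mul this (C1.trans c3) zero_le_one (by positivity)]
  have r6 := k.trans (mul_le_mul r4 (show _ ≤ E + 11 * S.C ^ 3 * δ from add_le_add hE (by linarith))
    (add_nonneg (intervalIntegral.integral_nonneg (by linarith) fun _ _ => sq_nonneg _)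
      (by positivity)) (by positivity))
  have : ∫ t in s..min y b, uu M S m a T t ^ 4 ≤ _ := r6
  linarith

theorem numP1 {C θ L Mq N τ : ℝ} (C0 : 0 < C) (hL : 1 ≤ L * θ) (hθ : 0 < θ) (N0 : 0 ≤ N)
    (n3 : Mq * τ ^ 3 ≤ N) :
    Mq * (6 * τ ^ 3 / (θ * (θ / (68 * C)))) ≤ 408 * C * (L ^ 2 * N) := by
  rw [show Mq * (6 * τ ^ 3 / (θ * (θ / (68 * C)))) = 408 * C * (Mq * τ ^ 3 / θ ^ 2) by
    field_simp; ring]
  refine mul_le_mul_of_nonneg_left ?_ (by positivity)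
  rw [div_le_iff₀ (by positivity)]
  nlinarith [mul_le_mul_of_nonneg_left (one_le_pow₀ hL (n := 2)) N0]

theorem numP2 {C θ D k th : ℝ} (C0 : 0 < C) (hθ : 0 < θ) (D0 : 0 ≤ D) (k0 : 0 ≤ k) (th0 : 0 ≤ th)
    (th1 : 4 * C * th ≤ 1) :
    6 * (θ / (68 * C)) ^ 2 / θ * D ^ 3 + 8 * θ / (1 / C) * (k + th * D) ^ 3 ≤
      32 * (θ * C * k ^ 3) + θ / C ^ 2 * D ^ 3 := by
  have x0 : 0 ≤ θ / C ^ 2 * D ^ 3 := by positivity
  have a1 : (k + th * D) ^ 3 ≤ 4 * (k ^ 3 + (th * D) ^ 3) := by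
    have := mul_nonneg th0 D0
    nlinarith [mul_nonneg (add_nonneg k0 this) (sq_nonneg (k - th * D))]
  have a2 : (4 * C * th) ^ 3 ≤ 1 := pow_le_one₀ (by positivity) th1
  have a3 := mul_le_mul_of_nonneg_left a2 x0
  have a4 : θ / C ^ 2 * D ^ 3 * (4 * C * th) ^ 3 = 64 * (θ * C * (th * D) ^ 3) := by
    field_simp; ring
  have a5 := mul_le_mul_of_nonneg_left a1 (show 0 ≤ 8 * (θ * C) by positivity)
  rw [show 8 * θ / (1 / C) = 8 * (θ * C) by field_simp,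
    show 6 * (θ / (68 * C)) ^ 2 / θ * D ^ 3 = 6 / 4624 * (θ / C ^ 2 * D ^ 3) by field_simp; ring]
  rw [a4] at a3
  generalize θ / C ^ 2 * D ^ 3 = x at *
  generalize (k + th * D) ^ 3 = z at *
  generalize (th * D) ^ 3 = z' at *
  linarith

theorem numP4 {C θ μ N D I eb R3 : ℝ} (C1 : 1 ≤ C) (hθ : 0 < θ) (θ1 : θ ≤ 1 / 600) (μ0 : 0 < μ)
    (I0 : 0 ≤ I) (hμ : 384 * C ^ 3 * μ ≤ eb) (N0 : 0 ≤ N)
    (d3 : D ^ 3 ≤ 14000 * C ^ 3 * (I + R3)) (n5 : μ * R3 ≤ N) :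
    μ * (θ / C ^ 2 * D ^ 3) ≤ eb / 16 * I + 14000 * (C * N) := by
  have C0 : 0 < C := by linarith
  have c3 : C ≤ C ^ 3 := le_self_pow₀ C1 (by norm_num)
  have a1 := mul_le_mul_of_nonneg_left d3 (show 0 ≤ μ * (θ / C ^ 2) by positivity)
  have a2 : μ * (θ / C ^ 2) * (14000 * C ^ 3 * (I + R3)) =
      14000 * (θ * (C * μ * I)) + 14000 * (C * (θ * (μ * R3))) := by field_simp
  have a3 : C * μ * I ≤ C ^ 3 * μ * I := by gcongr
  have a4 := mul_le_mul_of_nonneg_right hμ I0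
  have a5 := mul_le_mul_of_nonneg_right θ1 (show 0 ≤ C * μ * I by positivity)
  have a6 : θ * (μ * R3) ≤ N :=
    (mul_le_mul_of_nonneg_left n5 hθ.le).trans (mul_le_of_le_one_left N0 (by linarith))
  have a7 := mul_le_mul_of_nonneg_left a6 C0.le
  have a8 : 0 ≤ C * μ * I := by positivity
  rw [a2, mul_assoc] at a1
  linarith

theorem numP5 {C θ ν D : ℝ} (C1 : 1 ≤ C) (hθ : 0 < θ) (ν0 : 0 ≤ ν) (D0 : 0 ≤ D) :
    ν ^ 2 * (θ / C ^ 2 * D ^ 3) ≤ θ * ν ^ 5 + θ * D ^ 5 := by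
  have a1 : θ / C ^ 2 * D ^ 3 ≤ θ * D ^ 3 := mul_le_mul_of_nonneg_right
    (div_le_self hθ.le (one_le_pow₀ C1)) (by positivity)
  have a2 : ν ^ 2 * D ^ 3 ≤ ν ^ 5 + D ^ 5 := by
    rcases le_total ν D with h | h
    · have := mul_le_mul_of_nonneg_right (pow_le_pow_left₀ ν0 h 2) (pow_nonneg D0 3)
      linarith [pow_nonneg ν0 5]
    · have := mul_le_mul_of_nonneg_left (pow_le_pow_left₀ D0 h 3) (pow_nonneg ν0 2)
      linarith [pow_nonneg D0 5]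
  have a3 := mul_le_mul_of_nonneg_left a1 (sq_nonneg ν)
  have a4 := mul_le_mul_of_nonneg_left a2 hθ.le
  generalize θ / C ^ 2 * D ^ 3 = x at *
  linarith

theorem numP {C θ L μ ν N En D k th τ I eb R3 R5 : ℝ} (C1 : 1 ≤ C) (hL : 1 ≤ L * θ) (hθ : 0 < θ)
    (θ1 : θ ≤ 1 / 600) (μ0 : 0 < μ) (ν0 : 0 ≤ ν) (D0 : 0 ≤ D) (k0 : 0 ≤ k) (th0 : 0 ≤ th)
    (th1 : 4 * C * th ≤ 1) (I0 : 0 ≤ I) (hμ : 384 * C ^ 3 * μ ≤ eb) (N0 : 0 ≤ N)
    (d3 : D ^ 3 ≤ 14000 * C ^ 3 * (I + R3)) (d5 : D ^ 5 ≤ 8000000 * C ^ 5 * (En + R5))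
    (n3 : (μ + ν ^ 2) * τ ^ 3 ≤ N) (n4 : (μ + ν ^ 2) * k ^ 3 ≤ N) (n5 : μ * R3 ≤ N)
    (n6 : ν ^ 5 ≤ N) (n7 : R5 ≤ N) :
    (μ + ν ^ 2) * (6 * τ ^ 3 / (θ * (θ / (68 * C))) + 6 * (θ / (68 * C)) ^ 2 / θ * D ^ 3 +
      8 * θ / (1 / C) * (k + th * D) ^ 3) + 18 * θ / (1 / C) * ν ^ 5 ≤
      eb / 16 * I + 8000000 * (C ^ 5 * (θ * En)) + 408 * C * (L ^ 2 * N) + 100000 * (C ^ 5 * N) := by
  have C0 : 0 < C := by linarith
  have M0 : 0 < μ + ν ^ 2 := by positivity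
  have c5 : C ≤ C ^ 5 := le_self_pow₀ C1 (by norm_num)
  have t1 := numP1 C0 hL hθ N0 n3
  have t2 := mul_le_mul_of_nonneg_left (numP2 C0 hθ D0 k0 th0 th1) M0.le
  have t4 := numP4 C1 hθ θ1 μ0 I0 hμ N0 d3 n5
  have t5 := numP5 C1 hθ ν0 D0
  have t6 := mul_le_mul_of_nonneg_left d5 hθ.le
  have t7 : θ * R5 ≤ 1 / 600 * N :=
    (mul_le_mul_of_nonneg_left n7 hθ.le).trans (mul_le_mul_of_nonneg_right θ1 N0)
  have t8 := mul_le_mul_of_nonneg_left t7 (show 0 ≤ C ^ 5 by positivity)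
  have t9 : θ * ν ^ 5 ≤ N :=
    (mul_le_mul_of_nonneg_left n6 hθ.le).trans (mul_le_of_le_one_left N0 (by linarith))
  have t10 := mul_le_mul_of_nonneg_left t9 C0.le
  have t11 : θ * ((μ + ν ^ 2) * k ^ 3) ≤ N :=
    (mul_le_mul_of_nonneg_left n4 hθ.le).trans (mul_le_of_le_one_left N0 (by linarith))
  have t12 := mul_le_mul_of_nonneg_left t11 C0.le
  have t14 := mul_le_mul_of_nonneg_right c5 N0
  have t15 := mul_le_mul_of_nonneg_right C1 N0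
  rw [show 18 * θ / (1 / C) = 18 * (C * θ) by field_simp, add_assoc (6 * τ ^ 3 / _), mul_add]
  generalize (μ + ν ^ 2) * (6 * τ ^ 3 / (θ * (θ / (68 * C)))) = a1 at *
  generalize (μ + ν ^ 2) * (6 * (θ / (68 * C)) ^ 2 / θ * D ^ 3 +
    8 * θ / (1 / C) * (k + th * D) ^ 3) = a2 at *
  generalize θ / C ^ 2 * D ^ 3 = x at *
  generalize C ^ 5 = c at *
  generalize D ^ 5 = d at *
  generalize ν ^ 5 = n at *
  generalize k ^ 3 = k3 at *
  generalize ν ^ 2 = n2 at *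
  linarith

theorem numQ {C P I γ l τ κ δ th D R : ℝ} (C1 : 1 ≤ C) (P0 : 0 ≤ P) (I0 : 0 ≤ I) (γ0 : 0 ≤ γ)
    (l0 : 0 ≤ l) (τ0 : 0 ≤ τ) (κ0 : 0 ≤ κ) (δ0 : 0 ≤ δ) (th0 : 0 ≤ th) (D0 : 0 ≤ D)
    (th1 : 4 * C * th ≤ 1) (hR : τ ^ 3 + γ ^ 3 + (δ + κ) ^ 3 ≤ R)
    (fc : (1 / C) ^ 3 * l ^ 3 ≤ 256 * (1 / C) * P + 512 * (δ + κ + th * D) ^ 3)
    (d3 : D ^ 3 ≤ 14000 * C ^ 3 * (I + τ ^ 3 + γ ^ 3)) :
    (γ + 2 * l + 2 * C * τ + C * κ + D) ^ 3 / 2 + 2 * C * P ≤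
      1000000000 * (C ^ 3 * (P + I + R)) := by
  have C0 : 0 < C := by linarith
  have c1 : 1 ≤ C ^ 3 := one_le_pow₀ C1
  have c2 : C ^ 2 ≤ C ^ 3 := pow_le_pow_right₀ C1 (by norm_num)
  have c3 : C ≤ C ^ 3 := le_self_pow₀ C1 (by norm_num)
  have g3 := pow_nonneg γ0 3
  have t3 := pow_nonneg τ0 3
  have k3 := pow_nonneg (add_nonneg δ0 κ0) 3
  have R0 : 0 ≤ R := by linarith
  have f1 : l ^ 3 ≤ 256 * (C ^ 2 * P) + 512 * (C * (δ + κ + th * D)) ^ 3 := by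
    have := mul_le_mul_of_nonneg_left fc (pow_nonneg C0.le 3)
    rw [show C ^ 3 * ((1 / C) ^ 3 * l ^ 3) = l ^ 3 by field_simp,
      show C ^ 3 * (256 * (1 / C) * P + 512 * (δ + κ + th * D) ^ 3) =
        256 * (C ^ 2 * P) + 512 * (C * (δ + κ + th * D)) ^ 3 by field_simp] at this
    exact this
  have f2 : C * (δ + κ + th * D) ≤ C * (δ + κ) + D / 4 + 0 := by
    nlinarith [mul_le_mul_of_nonneg_right th1 D0]
  have f3 := (pow_le_pow_left₀ (by positivity) f2 3).trans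
    (At.three3 (by positivity) (by positivity) le_rfl 3)
  have b1 := At.three3 (x := γ + 2 * C * τ + C * κ) (y := 2 * l) (z := D) (by positivity)
    (by positivity) D0 3
  have b2 := At.three3 (x := γ) (y := 2 * C * τ) (z := C * κ) γ0 (by positivity) (by positivity) 3
  have b3 : (C * κ) ^ 3 ≤ (C * (δ + κ)) ^ 3 :=
    pow_le_pow_left₀ (by positivity) (mul_le_mul_of_nonneg_left (by linarith) C0.le) 3
  have r1 : (C * (δ + κ)) ^ 3 ≤ C ^ 3 * R := by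
    rw [mul_pow]; exact mul_le_mul_of_nonneg_left (by linarith) (by positivity)
  have r2 : (2 * C * τ) ^ 3 ≤ 8 * (C ^ 3 * R) := by
    have := mul_le_mul_of_nonneg_left (show τ ^ 3 ≤ R by linarith) (pow_nonneg C0.le 3)
    linarith
  have r3 : γ ^ 3 ≤ C ^ 3 * R := (show γ ^ 3 ≤ R by linarith).trans (le_mul_of_one_le_left R0 c1)
  have r4 : D ^ 3 ≤ 14000 * (C ^ 3 * I) + 14000 * (C ^ 3 * R) := by
    have := mul_le_mul_of_nonneg_left (show τ ^ 3 + γ ^ 3 ≤ R by linarith) (pow_nonneg C0.le 3)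
    linarith
  have r5 := mul_le_mul_of_nonneg_right c2 P0
  have r6 := mul_le_mul_of_nonneg_right c3 P0
  have r7 : 0 ≤ C ^ 3 * P := by positivity
  have r8 : 0 ≤ C ^ 3 * I := by positivity
  have r9 : 0 ≤ C ^ 3 * R := by positivity
  rw [show γ + 2 * l + 2 * C * τ + C * κ + D = γ + 2 * C * τ + C * κ + 2 * l + D by ring, mul_add,
    mul_add]
  rw [show (2 * l) ^ 3 = 8 * l ^ 3 by ring] at b1
  rw [show (D / 4) ^ 3 = D ^ 3 / 64 by ring] at f3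
  generalize (γ + 2 * C * τ + C * κ + 2 * l + D) ^ 3 = a1 at *
  generalize (γ + 2 * C * τ + C * κ) ^ 3 = a2 at *
  generalize (C * (δ + κ + th * D)) ^ 3 = a3 at *
  generalize (C * (δ + κ)) ^ 3 = a4 at *
  generalize (2 * C * τ) ^ 3 = a5 at *
  generalize (C * κ) ^ 3 = a6 at *
  norm_num at f3 b1 b2
  linarith

namespace ZI

/-- the linear gain of the zone -/
theorem il (Z : ZI S M m a T Gc v v2 y Dq ec la al w th κ0 tl) {τc γ : ℝ}
    (hy : y = min (sb M m a (v2 + 1)) (M.s S.J)) (zv : M.z (S.J - 1) - τc ≤ M.z v2)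
    (hτ : 2 * (S.C * S.v) ≤ τc) (hγ : M.s S.Jp - M.s S.J ≤ γ) :
    Il S M m a T (sb M m a (v + 1)) y ≤
      (γ + 2 * (y - sb M m a (v + 1)) + 2 * S.C * τc + S.C * κ0 + Dq) ^ 3 / 2 +
        2 * S.C * ∫ t in sb M m a (v + 1)..y, uu M S m a T t ^ 2 := by
  have A := Z.A
  have C0 := A.c_pos
  have C1 := A.cl.C1
  have v0 := v_pos A.cl
  have cv := mul_pos C0 v0
  obtain ⟨-, -, -, -, n5, n6⟩ := Z.nn
  have D0 := Z.D0
  have sy := Z.sy
  have sp : M.s S.J ≤ M.s S.Jp := A.cl.sm A.cl.i3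
  have x1 : 0 ≤ S.C * τc := mul_nonneg C0.le (by linarith)
  have x2 := mul_nonneg C0.le n6
  set s := sb M m a (v + 1) with hs
  set B := γ + 2 * (y - s) + 2 * S.C * τc + S.C * κ0 + Dq with hB
  have B1 : y - s ≤ B := by linarith
  have lu : LB T (uu M S m a T) := A.LB_u
  have ms : s ∈ Icc 0 T := ⟨Z.s0.le, sy.trans Z.yT⟩
  have my : y ∈ Icc 0 T := ⟨Z.s0.le.trans sy, Z.yT⟩
  have k := int_mono (A.lw6 (M.s S.Jp)) ((LB.const (B ^ 2 / 2)).add ((LB.const (2 * S.C)).mul lu.sq))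
    Z.s0.le sy Z.yT fun t t1 t2 => by
      have tJ := t2.trans_le Z.y2
      have e : Pr.Mid8.Mid.ff (lb M S m a T) (lh M T) (M.s S.Jp) t = max (uu M S m a T t) 0 :=
        if_pos (by linarith)
      rw [e, abs_sub_comm, abs_of_nonneg (by linarith)]
      set p := max (uu M S m a T t) 0 with hp
      have p0 : 0 ≤ p := le_max_right _ _
      have p1 : uu M S m a T t ≤ p := le_max_left _ _
      have p2 : p ^ 2 ≤ uu M S m a T t ^ 2 := by
        rcases le_total (uu M S m a T t) 0 with h | h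
        · rw [hp, max_eq_right h]; nlinarith
        · rw [hp, max_eq_left h]
      have q : M.s S.Jp - t ≤ B + S.C * p := by
        have x3 := mul_nonneg C0.le p0
        rcases lt_or_ge (sb M m a (v2 + 1)) (M.s S.J) with h | h
        · have w1 := Z.wid v2 Z.vv le_rfl h
          obtain ⟨r1, r2⟩ := A.s_pred
          have r3 : max t (M.s (S.J - 1)) < M.s S.J := max_lt tJ r1
          have l := (A.sl r3 t _ (Z.s0.le.trans t1.le) (le_max_left _ _) le_rfl).1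
          rw [A.zh_top8 (le_max_right _ _) r3, one_div_mul_eq_div, sub_le_iff_le_add,
            div_le_iff₀ C0] at l
          have e0 := A.lvb_node Z.jv.le
            (show v ≤ S.Jp by have := A.cl.i3; have := Z.vJ; have := Z.vv; omega)
          have mb := Sc48.lvr_mono A.okb.1.1 t1.le
          have r4 := mul_le_mul_of_nonneg_right (show M.z (S.J - 1) - lvr 1 (lh M T) t + S.C * S.v ≤
            τc + κ0 + th * (y - s + Dq) + p + S.C * S.v by unfold uu at p1; linarith) C0.le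
          have r5 := mul_le_mul_of_nonneg_right Z.th1 (show 0 ≤ y - s + Dq by linarith)
          have r6 := mul_le_mul_of_nonneg_left hτ C0.le
          have r7 := mul_le_mul_of_nonneg_right C1 cv.le
          linarith [le_max_right t (M.s (S.J - 1))]
        · rw [min_eq_right h] at hy
          linarith
      nlinarith [mul_le_mul_of_nonneg_right q p0, sq_nonneg (B - p),
        mul_le_mul_of_nonneg_left p2 C0.le, mul_le_mul_of_nonneg_right C1 (sq_nonneg p)]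
  rw [intervalIntegral.integral_add ((LB.const _).ii ms my) (((LB.const _).mul lu.sq).ii ms my),
    intervalIntegral.integral_const, smul_eq_mul, intervalIntegral.integral_const_mul] at k
  have := mul_le_mul_of_nonneg_right B1 (show 0 ≤ B ^ 2 / 2 by positivity)
  unfold Il
  linarith

set_option maxHeartbeats 400000 in
/-- **zone I: cost and gains** -/
theorem z1e (Z : ZI S M m a T Gc v v2 y Dq ec la al w th κ0 tl)
    {K c B βs ν θ L τ μ e t0 t1 τc γ Mt A0 En N : ℝ} (K0 : 0 ≤ K)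
    (hA : HLip Pr.AA T K) (hN : HLip Pr.NN T K)
    (hL : ∀ s t : ℝ, 0 ≤ s → s ≤ t → t ≤ T → |L0.Gd (lb M S m a T) t - L0.Gd (lb M S m a T) s| ≤
      K * (t - s) + 2 * (lvr 1 (lb M S m a T) t - lvr 1 (lb M S m a T) s))
    (F : Fr T c B (okT T) (lvr 1) Pr.Gam Pr.GG) (hT : T ≤ 2 * S.C)
    (hy : y = min (sb M m a (v2 + 1)) (M.s S.J)) (hD : Dq = sb M m a S.J - y)
    (hμ : μ = e / (384 * S.C ^ 4 * S.F)) (e0 : 0 < e) (e1 : e ≤ S.ms t0 / S.C)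
    (t01 : t0 ≤ sb M m a (v + 1)) (he : S.θ ≤ L * e) (hθ : 1 ≤ L * θ) (θ0 : 0 < θ)
    (θ1 : θ ≤ 1 / 600) (ν0 : 0 ≤ ν) (τ0 : 0 ≤ τ) (β0 : 0 ≤ βs)
    (zv : M.z (S.J - 1) - τc ≤ M.z v2) (hτ : 2 * (S.C * S.v) ≤ τc) (hγ : M.s S.Jp - M.s S.J ≤ γ)
    (M1 : sb M m a S.J ≤ Mt) (M2 : Mt ≤ T) (a0 : 0 ≤ A0)
    (loc : |sb M m a (v + 1) - M.s v| + 2 * S.v ≤ 2 * (sb M m a (v + 1) - A0))
    (hE : (∫ t in A0..T, JJ M S m a T t ^ 2) + (∫ t in (0 : ℝ)..A0, |JJ M S m a T t|) ^ 2 ≤ En)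
    (h0 : βs + (3 * (ec + 1 / (m + 1) + al * (κ0 + S.C * S.v)) +
      2 * (S.C ^ 2 * S.F * S.θ) * (S.C * S.v) + 4 * (S.C * S.v) * w ^ 2) ≤ (μ + ν ^ 2) * τ)
    (hk : 3 * (la + 2 * al * th) + 2 * (S.C ^ 2 * S.F * S.θ) * th + 2 * (S.C * (S.θ / tl)) * w +
        (2 * K + 4 * th) * w ^ 2 ≤ (μ + ν ^ 2) * (θ / (68 * S.C)))
    (h4 : 4 * w ^ 2 + (6 * K * w ^ 2) ^ 2 / θ ≤ θ * (μ + ν ^ 2))
    (n1 : S.C * S.v ≤ N) (n1' : S.C * S.v ≤ 1) (t11 : t1 + S.C * S.v ≤ sb M m a (v + 1))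
    (n2 : 2 * S.C ^ 5 * S.θ ^ 2 * S.v ^ 2 + S.C ^ 2 * GS M S t1 S.C ≤ μ * N)
    (n3 : (μ + ν ^ 2) * τ ^ 3 ≤ N) (n4 : (μ + ν ^ 2) * (S.C * S.v + κ0) ^ 3 ≤ N)
    (n5 : μ * (τc ^ 3 + γ ^ 3) ≤ N) (n6 : ν ^ 5 ≤ N) (n7 : τc ^ 5 + γ ^ 5 ≤ N) :
    Z1e S M m a T (resN (lb M S m a T) M.b (sb M m a) (hb M) (v + 1)) βs (sb M m a (v + 1)) y Mt
      (10 ^ 7 * S.C ^ 5 * (θ * En + L ^ 2 * N)) (10 ^ 12 * S.C ^ 7 * S.F * L) N e := by
  have A := Z.A
  have C0 := A.c_pos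
  have C1 := A.cl.C1
  have F1 := A.cl.F1
  have v0 := v_pos A.cl
  have cv := mul_pos C0 v0
  have N0 : 0 ≤ N := cv.le.trans n1
  have L1 : 1 ≤ L := by
    by_contra h
    linarith [mul_le_mul_of_nonneg_right (not_le.1 h).le θ0.le]
  have sp : M.s S.J ≤ M.s S.Jp := A.cl.sm A.cl.i3
  have γ0 : 0 ≤ γ := by linarith
  have τc0 : 0 ≤ τc := by linarith
  obtain ⟨-, -, -, -, n8, n9⟩ := Z.nn
  obtain ⟨b1, b2⟩ := A.b_mem
  have sy := Z.sy
  have s0 := Z.s0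
  have yT := Z.yT
  have T0 := A.T_nn
  have μ0 : 0 < μ := by rw [hμ]; positivity
  have μe : 384 * S.C ^ 4 * S.F * μ = e := by rw [hμ]; field_simp
  have μ1 : μ ≤ mm M S m a (sb M m a (v + 1)) := by
    refine le_trans ?_ (A.mm_ge _)
    rw [le_div_iff₀ C0] at e1
    rw [le_div_iff₀ A.K_pos]
    linarith [A.cl.msm t01, show μ * (384 * S.C ^ 5 * S.F) = e * S.C by rw [← μe]; ring]
  have μb : 384 * S.C ^ 3 * μ ≤ e / M.b := by
    rw [le_div_iff₀ (by linarith), ← μe]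
    have := mul_le_mul b2 F1 zero_le_one C0.le
    linarith only [mul_le_mul_of_nonneg_left this (show 0 ≤ 384 * S.C ^ 3 * μ by positivity)]
  obtain ⟨y0, y1, y2, hz⟩ := A.hz6 (Z.jv.le.trans Z.vv) Z.vJ zv
  rw [← hy] at y0 y1 y2 hz
  have as : A0 ≤ sb M m a (v + 1) := by linarith [abs_nonneg (sb M m a (v + 1) - M.s v)]
  have lu : LB T (uu M S m a T) := A.LB_u
  have lJ : LB T (JJ M S m a T) := .of_cont (lu.tail ⟨T0, le_rfl⟩)
  have j0 : 0 ≤ ∫ t in A0..T, JJ M S m a T t ^ 2 :=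
    intervalIntegral.integral_nonneg (by linarith) fun _ _ => sq_nonneg _
  have j1 : ∫ t in A0..T, JJ M S m a T t ^ 2 ≤ En := by
    linarith [sq_nonneg (∫ t in (0 : ℝ)..A0, |JJ M S m a T t|)]
  have E0 := j0.trans j1
  have I0 : 0 ≤ Il S M m a T y Mt := intervalIntegral.integral_nonneg (y2.trans M1) fun _ _ =>
    mul_nonneg (abs_nonneg _) (At.ff0_6 _ _ _ _)
  have d3 := A.dq3 hT y0 y1 y2 hτ hγ hz M1 M2 (W := Il S M m a T y Mt) le_rfl
  have d5 := A.dq5 hT a0 (as.trans sy) y1 y2 hτ hγ hz j1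
  rw [← hD] at d3 d5
  have P0 : 0 ≤ ∫ t in sb M m a (v + 1)..y, uu M S m a T t ^ 2 :=
    intervalIntegral.integral_nonneg sy fun _ _ => sq_nonneg _
  have θμ : S.θ ≤ 384 * S.C ^ 4 * S.F * L * μ := by rw [← μe] at he; linarith only [he]
  have W0 : 0 ≤ 384 * S.C ^ 4 * S.F * L := by positivity
  have W1 : 1000000000 * S.C ^ 3 * (384 * S.C ^ 4 * S.F * L) * 2 ≤ 10 ^ 12 * S.C ^ 7 * S.F * L := by
    have : 0 ≤ S.C ^ 7 * S.F * L := by positivity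
    linarith only [this]
  have c3 : 1 ≤ S.C ^ 3 := one_le_pow₀ C1
  refine ⟨_, (Z.seg K0 hA hN hL μ0 μ1 ν0 θ0 (by positivity) τ0 β0 h0 hk ?_ h4).mono ?_, ?_, ?_⟩
  · rw [show 4608 * (θ / (68 * S.C)) ^ 2 = 4608 / 4624 * (θ ^ 2 * (1 / S.C) ^ 2) by
      field_simp; ring]
    have : 0 ≤ θ ^ 2 * (1 / S.C) ^ 2 := by positivity
    linarith only [this]
  · have q1 := A.four8 F hT Z.jv.le (Z.vv.trans_lt Z.vJ) s0 sy y2 y1 a0 loc n1' j1 E0
    have q2 : ∫ t in sb M m a (v + 1)..y, JJ M S m a T t ^ 2 ≤ En :=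
      (int_sub_le lJ.sq a0 as sy yT le_rfl fun _ _ _ => sq_nonneg _).trans j1
    have q3 : io M S m a T ^ 2 ≤ 6 * S.C * En := by
      have := io_sq lJ (x := A0) (y := T) (len := 2 * S.C) (ε := ∫ t in (0 : ℝ)..A0, |JJ M S m a T t|)
        a0 (by linarith) le_rfl (by linarith) (by simp) j1
      unfold io
      linarith only [this, hE, j0, mul_le_mul_of_nonneg_right C1 E0]
    have q4 : (y - sb M m a (v + 1)) * io M S m a T ^ 2 ≤ 2 * S.C * (6 * S.C * En) :=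
      mul_le_mul (by linarith) q3 (sq_nonneg _) (by positivity)
    have q5 : ∫ t in sb M m a (v + 1)..y, (S.C ^ 2 * S.θ * S.v + |gt M S t|) ^ 2 ≤ 2 * (μ * N) := by
      have lg := LB_gt T M S
      have G0 : 0 ≤ GS M S t1 S.C := Finset.sum_nonneg fun k _ =>
        mul_nonneg (sub_nonneg.2 (A.cl.leg.zm (Nat.sub_le k 1))) (sq_nonneg _)
      have ms : sb M m a (v + 1) ∈ Icc 0 T := ⟨s0.le, sy.trans yT⟩
      have my : y ∈ Icc 0 T := ⟨y0, yT⟩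
      have k := int_mono ((LB.const (S.C ^ 2 * S.θ * S.v)).add lg.abs).sq
        ((LB.const (2 * (S.C ^ 2 * S.θ * S.v) ^ 2)).add ((LB.const 2).mul lg.sq)) s0.le sy yT
        fun t _ _ => by
          linarith only [sq_nonneg (S.C ^ 2 * S.θ * S.v - |gt M S t|), sq_abs (gt M S t)]
      rw [intervalIntegral.integral_add ((LB.const _).ii ms my) (((LB.const _).mul lg.sq).ii ms my),
        intervalIntegral.integral_const, smul_eq_mul, intervalIntegral.integral_const_mul] at k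
      have := mul_le_mul_of_nonneg_right (show y - sb M m a (v + 1) ≤ 2 * S.C by linarith)
        (show 0 ≤ 2 * (S.C ^ 2 * S.θ * S.v) ^ 2 by positivity)
      linarith only [A.gt_GS8 Z.s1 sy y1 t11, k, this, n2, mul_nonneg (sq_nonneg S.C) G0]
    have q6 : 2 / (θ * μ) * (∫ t in sb M m a (v + 1)..y, (S.C ^ 2 * S.θ * S.v + |gt M S t|) ^ 2) ≤
        4 * (L * N) := by
      refine (mul_le_mul_of_nonneg_left q5 (by positivity)).trans ?_
      rw [show 2 / (θ * μ) * (2 * (μ * N)) = 4 * (N / θ) by field_simp; ring]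
      refine mul_le_mul_of_nonneg_left ?_ (by norm_num)
      rw [div_le_iff₀ θ0]
      linarith only [mul_le_mul_of_nonneg_left hθ N0]
    have q7 := numP (En := En) C1 hθ θ0 θ1 μ0 ν0 Z.D0 (add_nonneg cv.le n9) n8 Z.th1 I0 μb N0
      (by rw [← add_assoc]; exact d3) (by rw [← add_assoc]; exact d5) n3 n4 n5 n6 n7
    have q8 := mul_le_mul_of_nonneg_right θ1 (mul_nonneg μ0.le P0)
    have c25 : S.C ^ 2 ≤ S.C ^ 5 := pow_le_pow_right₀ C1 (by norm_num)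
    have c15 : S.C ≤ S.C ^ 5 := le_self_pow₀ C1 (by norm_num)
    have c5 : 0 ≤ S.C ^ 5 := by positivity
    have l2 : L * N ≤ L ^ 2 * N := mul_le_mul_of_nonneg_right (le_self_pow₀ L1 two_ne_zero) N0
    have l1 : N ≤ L * N := le_mul_of_one_le_left N0 L1
    have q9 : 6 * (∫ t in sb M m a (v + 1)..y, uu M S m a T t ^ 4) +
        (∫ t in sb M m a (v + 1)..y, JJ M S m a T t ^ 2) +
        (y - sb M m a (v + 1)) * io M S m a T ^ 2 ≤
        30000 * (S.C ^ 5 * En) + 400000 * (S.C ^ 5 * N) := by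
      linarith only [q1, q2, q4, mul_le_mul_of_nonneg_right c25 E0,
        mul_le_mul_of_nonneg_right (C1.trans c15) E0, mul_le_mul_of_nonneg_left n1 c5,
        mul_nonneg c5 N0, mul_nonneg c5 E0]
    have r1 := mul_le_mul_of_nonneg_left q9 θ0.le
    have r2 := mul_le_mul_of_nonneg_right θ1 (mul_nonneg c5 N0)
    have r3 := mul_le_mul_of_nonneg_left (l1.trans l2) c5
    have r4 := mul_le_mul_of_nonneg_right c15 (N0.trans (l1.trans l2))
    have r5 := mul_le_mul_of_nonneg_right (C1.trans c15) (N0.trans (l1.trans l2))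
    have r6 := mul_nonneg c5 (mul_nonneg θ0.le E0)
    have r7 := mul_nonneg μ0.le P0
    have r8 := mul_nonneg c5 N0
    refine (add_le_add (add_le_add (add_le_add (add_le_add le_rfl r1) q6) le_rfl) le_rfl).trans ?_
    rw [add_assoc]
    refine (add_le_add le_rfl q7).trans ?_
    linarith only [q8, r2, r3, r4, r5, r6, r7, r8, l2]
  · have k := int_mono (LB_min lu (LB.const 0)).sq lu.sq s0.le sy yT fun t _ _ => by
      rcases le_total (uu M S m a T t) 0 with h | h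
      · rw [min_eq_left h]
      · rw [min_eq_right h]; linarith only [sq_nonneg (uu M S m a T t)]
    have k1 := mul_le_mul θμ k (intervalIntegral.integral_nonneg sy fun _ _ => sq_nonneg _)
      (by positivity)
    refine k1.trans ?_
    rw [mul_assoc _ μ]
    exact mul_le_mul (by linarith only [mul_le_mul_of_nonneg_right c3 W0, W0, W1]) (by linarith only [N0])
      (mul_nonneg μ0.le P0) (by positivity)
  · have k := (Z.il hy zv hτ hγ).trans (numQ C1 P0 I0 γ0 (sub_nonneg.2 sy) τc0 n9 cv.le n8 Z.D0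
      Z.th1 le_rfl (fall_cube lu s0.le sy yT (by positivity)
        (add_nonneg (add_nonneg cv.le n9) (mul_nonneg n8 Z.D0)) Z.fall) d3)
    have i0 : 0 ≤ Il S M m a T (sb M m a (v + 1)) y := intervalIntegral.integral_nonneg sy
      fun _ _ => mul_nonneg (abs_nonneg _) (At.ff0_6 _ _ _ _)
    have k1 := mul_le_mul θμ k i0 (by positivity)
    have k2 : μ * Il S M m a T y Mt ≤ e / M.b * Il S M m a T y Mt :=
      mul_le_mul_of_nonneg_right (by linarith only [μb, mul_le_mul_of_nonneg_right c3 μ0.le, μ0]) I0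
    have k3 : μ * (S.C * S.v + κ0) ^ 3 ≤ N := le_trans (mul_le_mul_of_nonneg_right
      (le_add_of_nonneg_right (sq_nonneg ν)) (pow_nonneg (add_nonneg cv.le n9) 3)) n4
    have r7 := mul_nonneg μ0.le P0
    have r8 := mul_nonneg μ0.le I0
    refine k1.trans (le_trans (le_of_eq ?_) ((mul_le_mul_of_nonneg_left
      (show μ * ((∫ t in sb M m a (v + 1)..y, uu M S m a T t ^ 2) + Il S M m a T y Mt +
        (τc ^ 3 + γ ^ 3 + (S.C * S.v + κ0) ^ 3)) ≤ 2 * (μ * (∫ t in sb M m a (v + 1)..y,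
          uu M S m a T t ^ 2) + N + e / M.b * Il S M m a T y Mt) by linarith only [k2, k3, n5, r7, r8])
      (show 0 ≤ 1000000000 * S.C ^ 3 * (384 * S.C ^ 4 * S.F * L) by positivity)).trans ?_))
    · ring
    · rw [← mul_assoc]
      exact mul_le_mul_of_nonneg_right W1 (by linarith only [k2, r7, r8, N0])

end ZI

end Crest.Agent.T156.Alt.Mp9

end
end

-- ▼ part T156/TxG2_61
section

/-!
# Row 156, block (L): short gaps below the corner with margins free of the bulk residual (helper61)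
-/

set_option autoImplicit false

noncomputable section

namespace Crest.Agent.T156.Alt.Tx61

open Real Finset
open Crest.Agent.T156.Alt.Mp9 Crest.Agent.T156.Alt.G89 Crest.Agent.T156.Alt.L69
open Crest.Agent.T156.Alt.Sz9

/-- the gaps are short; `y` is the part of the bulk residual in the uniform error -/
def NcB (E Λ : ℝ) (S : Sc) (M : Md) (m : ℕ) (a : ℝ) : Prop :=
  ∀ (G1 l0 l V X Lg X2 X3 G0 : ℝ) (η : ℝ → ℝ)
  (Xp Vt Lp u1 u2 j γ Lc ηc τ N T W Q ec la al θ τ' ρ y : ℝ) (Gn : ℕ → Prop) (U U' : ℕ),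
  CeiG S M G1 → LN E S M l0 l V X Lg X2 X3 G0 η →
  LP E S M Xp Vt Lg Lp X2 X3 G0 G1 u1 u2 j γ Lc ηc τ η N →
  0 ≤ j → S.F ^ 40 ≤ E → T ≤ 2 * S.C → 1 ≤ W → W ^ 10 ≤ E → 1 ≤ Q → Q ^ 10 ≤ E →
  Ne S M m a T Gn U U' ec la al θ → M.s S.J ≤ 4 * M.s U → τ ≤ τ' → ρ ≤ Lc ^ 2 * τ' → 0 ≤ y →
  y ≤ η 1 → ec ≤ W * S.F * (τ' * mf S 1 + y) → la ≤ W * S.F * (X2 + √(ρ * S.w3 1)) →
  al ≤ W * S.F * (Lc ^ ((2 : ℝ) / 3) * S.w3 1 ^ ((1 : ℝ) / 3)) ^ 2 → θ ≤ W / Lg →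
  ∀ i k, Nx Gn U U' i k → M.z U + Λ * W * S.F * (τ' + y / mf S 1) ≤ M.z i →
    M.z k + Λ * W * S.F * (τ' + y / mf S 1) ≤ M.z U' →
    G89.ds M m a i k ^ 2 ≤ mf S 1 / Q + (Λ * W * Q * S.F * τ') ^ 2 ∧
      M.z k ≤ M.z i + (S.C * S.v + θ * G89.ds M m a i k)

set_option maxHeartbeats 800000 in
/-- **short gaps** at a fixed size -/
theorem ncA : ∃ f : ℝ → ℝ, (∀ C, 0 ≤ f C) ∧ ∀ (E Λ : ℝ) (S : Sc) (M : Md) (m : ℕ) (a : ℝ),
    C33.Fn S M m a → f S.C ≤ Λ → f S.C ^ 10 ≤ E → NcB E Λ S M m a := by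
  choose ε ε0 ε1 H using fun C => gapC (2 * C) C
  refine ⟨fun C => 4608 * C ^ 16 / ε C ^ 2, fun C => by positivity,
    fun E Λ S M m a F b1 b2 G1 l0 l V X Lg X2 X3 G0 η Xp Vt Lp u1 u2 j γ Lc ηc τ N T W Q ec
      la al θ τ' ρ y Gn U U' ce ln lp j0 F40 hT W1 WE Q1 QE Z hs hτ hρ η0 y1 he hl ha hθ i k n dn
      up => ?_⟩
  have h := F.toCl
  have C1 := F.C1
  have C0 := F.C0
  have v0 := F.v0
  have F1 := h.F1
  have e0 := ε0 S.C
  have e1 := ε1 S.C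
  have hU := Z.hU
  have hV := Z.hV
  have i1 := h.i1
  have i3 := h.i3
  have w0 := F.w3_pos one_pos
  obtain ⟨n1, n2, n3, -⟩ := id n
  have ds0 := ds_nn Z.A n2
  refine ⟨?_, ?_⟩
  swap
  · rcases n2.eq_or_lt with rfl | c
    · have := mul_nonneg Z.nn.2.2.2 ds0
      linarith [mul_pos C0 v0]
    have d := (h.zs (k - 1) (by omega) (by omega)).2
    rw [show k - 1 + 1 = k by omega] at d
    linarith [Z.lab i k n c]
  have c16 : 1 ≤ S.C ^ 16 := one_le_pow₀ C1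
  have k1 : 1 ≤ 4608 * S.C ^ 16 / ε S.C ^ 2 := by
    rw [le_div_iff₀ (by positivity)]
    linarith [pow_le_one₀ (n := 2) e0.le e1]
  have E1 : 1 ≤ E := (one_le_pow₀ k1).trans b2
  obtain ⟨D, D0, rfl⟩ : ∃ D : ℝ, 0 ≤ D ∧ E = D ^ 10 :=
    ⟨E ^ (((10 : ℕ) : ℝ)⁻¹), by positivity, (rpow_inv_natCast_pow (by linarith) (by norm_num)).symm⟩
  have rt : ∀ {x : ℝ}, x ^ 10 ≤ D ^ 10 → x ≤ D := fun e => le_of_pow_le_pow_left₀ (by norm_num) D0 e
  have hΛ : 4608 * S.C ^ 16 ≤ ε S.C ^ 2 * Λ := by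
    rw [← div_le_iff₀' (by positivity)]; exact b1
  have hD : 4608 * S.C ^ 16 ≤ ε S.C ^ 2 * D := by
    rw [← div_le_iff₀' (by positivity)]; exact rt b2
  have FD : S.F ≤ D := rt ((pow_le_pow_right₀ F1 (by norm_num)).trans F40)
  have m1 : 0 < S.ms 1 := F.ms_pos zero_le_one
  have μ0 : 0 < mf S 1 := by unfold mf; positivity
  obtain ⟨s, s0, hs2⟩ : ∃ s : ℝ, 0 < s ∧ s ^ 2 = mf S 1 := ⟨√(mf S 1), by positivity, sq_sqrt μ0.le⟩
  have l00 : 0 ≤ l0 := le_trans (mul_nonneg (by linarith) (h.s_nn _)) ln.l0s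
  have ll : 0 ≤ l := l00.trans ln.l0l
  have l1 : l ≤ 1 := (le_mul_of_one_le_left ll E1).trans ln.l1
  have f1 : D ^ 10 * y ≤ s ^ 3 := ((mul_le_mul_of_nonneg_left y1 (by positivity)).trans
    (ln.th1 1 l1 C1)).trans_eq (by
      rw [← hs2, ← rpow_natCast, ← rpow_mul s0.le, ← rpow_natCast]; norm_num)
  have f2 : D ^ 10 * X2 ≤ s ^ 2 := ln.th3.trans (by
    rw [hs2]; unfold mf; gcongr; exact h.msm l1)
  have X20 : 0 ≤ X2 := le_trans (by positivity) ln.x2a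
  have X30 : 0 ≤ X3 := le_trans (by positivity) ln.x3a
  have G00 : 0 ≤ G0 := le_trans (by positivity) ln.g0a
  have θ0 := h.θ0
  have Xp0 := lp.Xp0.1
  have Lg1 : 1 ≤ Lg := le_trans (one_le_mul_of_one_le_of_one_le E1 (one_le_pow₀ F1)) ln.Lg0
  have Lc1 : 1 ≤ Lc := Lg1.trans lp.Lc1.1
  have n1' := F.n1
  obtain ⟨g1, f4⟩ := lp.ηc1 _ rfl
  have uω : w1 S 1 ≤ Lc ^ ((2 : ℝ) / 3) * S.w3 1 ^ ((1 : ℝ) / 3) :=
    le_mul_of_one_le_left (rpow_nonneg w0.le _) (one_le_rpow Lc1 (by norm_num))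
  have u3 : (Lc ^ ((2 : ℝ) / 3) * S.w3 1 ^ ((1 : ℝ) / 3)) ^ 3 = Lc ^ 2 * S.w3 1 := by
    rw [mul_pow, rp3 w0.le, rp23 (by linarith)]
  have u0 : 0 ≤ Lc ^ ((2 : ℝ) / 3) * S.w3 1 ^ ((1 : ℝ) / 3) := by positivity
  generalize Lc ^ ((2 : ℝ) / 3) * S.w3 1 ^ ((1 : ℝ) / 3) = u at *
  have g2 : 0 ≤ u ^ 2 * (S.θ + j + Xp ^ ((1 : ℝ) / 3)) := by positivity
  have g3 : 0 ≤ (√(Lc * gg S 1) + G0 + X2) * (u + √X2) := by positivity
  have g4 : (0 : ℝ) < 1 / S.n := by positivity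
  have g5 : 0 ≤ u ^ 3 := by positivity
  have R0 : 0 < Xp ^ ((1 : ℝ) / 3) / Lc := by positivity
  have g6 : 0 ≤ ηc / mf S 1 := div_nonneg (by linarith) μ0.le
  have t0 : 0 < τ' := by linarith [lp.τ0]
  have f5 : ηc ≤ τ' * s ^ 2 := by
    rw [hs2, ← div_le_iff₀ μ0]; linarith [lp.τ0]
  have vω := B61.v_le_w F one_pos C1
  have ωτ : w1 S 1 ≤ τ' := le_of_pow_le_pow_left₀ three_ne_zero t0.le (by
    rw [w1, rp3 w0.le]; exact lp.tw.trans (pow_le_pow_left₀ (by linarith [lp.τ0]) hτ 3))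
  have f7 : √(ρ * S.w3 1) ≤ τ' ^ 2 + u ^ 2 :=
    (sqrt_le_sqrt (mul_le_mul_of_nonneg_right hρ w0.le)).trans (young4 (by
      rw [sq_sqrt (by positivity), u3]; exact le_of_eq (by ring)))
  have fx : (1 : ℝ) / (m + 1) ≤ ηc := by
    have d : (S.n : ℝ) ≤ m := by exact_mod_cast F.m1
    have : (1 : ℝ) / (m + 1) ≤ 1 / S.n := by gcongr; linarith
    linarith
  have f8 : D ^ 9 * S.F ^ 2 * θ ≤ 1 :=
    calc _ ≤ D ^ 9 * S.F ^ 2 * (D / Lg) := mul_le_mul_of_nonneg_left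
          (hθ.trans (div_le_div_of_nonneg_right (rt WE) (by linarith))) (by positivity)
      _ = D ^ 10 * S.F ^ 2 / Lg := by ring
      _ ≤ 1 := (div_le_one (by positivity)).2 ln.Lg0
  have p0 : 0 < s ^ 2 / Q + (Λ * W * Q * S.F * τ') ^ 2 := by positivity
  obtain ⟨r1, r2, r3, r4, r5, r6, r7, r8⟩ := num (w := √(s ^ 2 / Q + (Λ * W * Q * S.F * τ') ^ 2))
    (ηc := τ' * s ^ 2) (ec := ec) e0 e1 C1 hΛ hD W1 (rt WE) Q1 (rt QE) F1 FD s0 f1 η0 f2 u0 (by linarith)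
    (fx.trans f5) (by rwa [hs2]) le_rfl t0 v0.le (vω.trans (by gcongr)) (vω.trans (by gcongr)) f7
    Z.nn.2.2.2 f8 (by rwa [hs2]) hl Z.nn.2.2.1 ha (sqrt_pos.2 p0) (sq_sqrt p0.le)
  have mg : 2304 * S.C ^ 16 / ε S.C * W * S.F * (τ' + y / s ^ 2) ≤
      Λ * W * S.F * (τ' + y / mf S 1) := by
    rw [hs2]
    gcongr
    rw [div_le_iff₀' e0]
    have Λ0 : 0 ≤ Λ := by linarith
    linarith [mul_le_mul_of_nonneg_right (pow_le_of_le_one e0.le e1 two_ne_zero) Λ0]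
  have sU : 1 ≤ 12 * S.C ^ 4 * M.s U := by
    have d1 := mul_le_mul_of_nonneg_left (F.s_mem (le_refl S.J)).1 (pow_pos C0 3).le
    have d2 := mul_le_mul_of_nonneg_left hs (pow_pos C0 4).le
    linarith [F.J_lo]
  rw [← hs2, ← sq_sqrt p0.le]
  refine H S.C Z le_rfl hT r1 (fun x z a1 a2 a3 => ?_) ?_ (sqrt_pos.2 p0) (by positivity)
    (by positivity) (by positivity) r2 r3 r4 r5 r6 r7 r8 n (by linarith) (by linarith)
  · refine le_trans ?_ (h.H_tel (by omega) a2 (by omega))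
    have d0 : (0 : ℝ) ≤ (z : ℝ) - x := sub_nonneg.2 (by exact_mod_cast a2)
    have d1 : S.ms 1 ≤ 576 * S.C ^ 8 * S.ms (M.s x) :=
      ((h.msm (sU.trans (by gcongr; exact h.sm a1))).trans (h.ms_mul (h.s_nn x)
        (by linarith [one_le_pow₀ (n := 4) C1]))).trans_eq (by ring)
    calc _ ≤ 576 * S.C ^ 8 * S.ms (M.s x) / S.F / (576 * S.C ^ 10) *
          (((z : ℝ) - x) * (S.C * S.v)) := by
          have := F.ms_pos (h.s_nn x)
          refine mul_le_mul ?_ (h.z_tel (by omega) a2 (by omega)).2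
            (sub_nonneg.2 (h.leg.zm a2)) (by positivity)
          rw [hs2]; unfold mf; gcongr
      _ = _ := by field_simp
  · have d0 : (0 : ℝ) ≤ (k : ℝ) - i := sub_nonneg.2 (by exact_mod_cast n2)
    have d1 : ∀ y, y ≤ S.J → S.ms (M.s y) ≤ 4 * S.C ^ 2 * S.ms 1 := fun y hy =>
      (h.msm (((h.sm (hy.trans i3)).trans h.sT).trans_eq (mul_one _).symm)).trans
        (h.ms_mul zero_le_one C1)
    refine (tel_le (c := S.C * S.F * (4 * S.C ^ 2 * S.ms 1) * S.v) n2 fun y a1 a2 =>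
      (ce.up y (by omega) (by omega)).trans (by gcongr; exact d1 y (by omega))).trans ?_
    refine le_trans (le_of_eq ?_) (mul_le_mul_of_nonneg_left (h.z_tel (by omega) n2 (by omega)).1
      (by positivity))
    rw [hs2]; unfold mf; field_simp


/-- the residual between good nodes below the corner, with the part `y` of the bulk residual -/
def Nce (D ψ : ℝ) (S : Sc) (M : Md) (m : ℕ) (a T l0 V L X2 Lc ηc γ y : ℝ) : Prop :=
  ∀ (i k : ℕ) (ρ : ℝ), Lo S M i → S.J ≤ i + i / 3 → i ≤ k → Gc S M m a l0 V L Lc i →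
    Gc S M m a l0 V L Lc k → Mg S Lc k → M.rb m a k - M.rb m a i ≤ ρ → |res M S m a T k - res M S m a T i| ≤
      D ^ 29 * ψ ^ 6 * (ηc + y + Nd22.U S Lc 1 ^ 2 * γ) +
      D ^ 4 * (X2 + √(ρ * S.w3 1)) * G89.ds M m a i k +
      D ^ 16 * ψ ^ 4 * Nd22.U S Lc 1 ^ 2 * (M.z k - M.z i)

namespace Ck

variable {D E Λ L ψ : ℝ} {S : Sc} {M : Md} {m : ℕ} {a T G1 l0 l V X Lg X2 X3 G0 W3 : ℝ}
  {η : ℝ → ℝ} {Xp Vt Lp u1 u2 j γ Lc ηc τ N t : ℝ}
  (K : Ck D E Λ L ψ S M m a T G1 l0 l V X Lg X2 X3 G0 W3 η Xp Vt Lp u1 u2 j γ Lc ηc τ N t)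
include K


theorem nce0 (hW : W3 ≤ D * X3) : Nce D ψ S M m a T l0 V L X2 Lc ηc γ 0 :=
  fun _ _ _ lo tp h gi gk o hρ => by rw [add_zero]; exact K.H.nce2 hW lo tp h gi gk o hρ


/-- the smallness of the margins -/
theorem small (F40 : S.F ^ 40 ≤ E) (DE : D ^ 300 ≤ E) : D ^ 100 * S.F * t ≤ 1 / 1000 := by
  have D4 := K.H.Z.D4
  have F1 := K.H.Z.A.cl.F1
  have E1 := K.H.Z.E1
  have t0 : 0 < t := K.Rτ.2.2.trans_le K.Rt.2.1
  have D1 : 1 ≤ D := by linarith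
  have a1 : D ^ 101 * S.F ≤ E := by
    refine le_of_pow_le_pow_left₀ two_ne_zero (by linarith) ?_
    rw [mul_pow, ← pow_mul, sq E]
    exact mul_le_mul ((pow_le_pow_right₀ D1 (by norm_num)).trans DE)
      ((pow_le_pow_right₀ F1 (by norm_num)).trans F40) (by positivity) (by linarith)
  have a2 := mul_le_mul_of_nonneg_right a1 t0.le
  have a3 := mul_le_mul_of_nonneg_right D4 (show 0 ≤ D ^ 100 * S.F * t by positivity)
  linarith [K.t1]


/-- the net between two good nodes -/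
theorem ne' {y : ℝ} (y0 : 0 ≤ y) (G : Nce D ψ S M m a T l0 V L X2 Lc ηc γ y) {U U' : ℕ} {ρ : ℝ}
    (h0 : S.j0 ≤ U) (hz : D * (M.z (S.J - 1) - M.z U) ≤ 1)
    (gU : Gc S M m a l0 V L Lc U) (gV : Gc S M m a l0 V L Lc U') (o : Mg S Lc U') (hU : U ≤ U')
    (hρ : M.rb m a U' - M.rb m a U ≤ ρ) : Lo S M U ∧ Ne S M m a T (Gc S M m a l0 V L Lc) U U'
      (D ^ 29 * ψ ^ 6 * (ηc + y + Nd22.U S Lc 1 ^ 2 * γ)) (D ^ 4 * (X2 + √(ρ * S.w3 1)))
      (D ^ 16 * ψ ^ 4 * Nd22.U S Lc 1 ^ 2) (4 * S.C / Lc) := by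
  obtain ⟨lo, Z⟩ := K.ne h0 hz gU gV o hU hρ
  have h := K.H.Z.A.cl
  have D4 := K.H.Z.D4
  have ψ1 := K.H.ψ1
  have p0 := K.H.parts.2.2
  have γ0 := K.H.γ0
  have rm := rb_mono (M := M) (a := a) K.H.Z.A.m_pos
  have tp := K.H.tp_of h0 (by have := o.1; omega) (by linarith)
  exact ⟨lo, Z.A, Z.hU, Z.hV, gU, gV, ⟨by positivity, Z.nn.2⟩, fun i k a1 a2 a3 gi gk =>
    G i k ρ (lo.mono h a1) (by omega) a2 gi gk (o.anti h (by linarith [K.H.L1]) a3)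
      (by linarith [rm a1, rm a3]), Z.lab⟩

set_option maxHeartbeats 800000 in
/-- **short gaps** from `NcB` at the loss `D` -/
theorem sh {y Q : ℝ} (B : NcB E D S M m a) (y0 : 0 ≤ y) (y1 : y ≤ η 1) (hy : y / mf S 1 ≤ t)
    (G : Nce D ψ S M m a T l0 V L X2 Lc ηc γ y) (hT : T ≤ 2 * S.C) (hψ : ψ ^ 6 ≤ S.F)
    (F40 : S.F ^ 40 ≤ E) (DE : D ^ 300 ≤ E) (Q1 : 1 ≤ Q) (QE : Q ^ 10 ≤ E) {U U' i k : ℕ}
    (n : Nx (Gc S M m a l0 V L Lc) U U' i k) (h0 : S.j0 ≤ i) (hk : k < S.J)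
    (hz : 2 * D * (M.z (S.J - 1) - M.z i) ≤ 1)
    (up : M.z k + 4 * (D ^ 30 * S.F * t) ≤ M.z (S.J - 1)) :
    G89.ds M m a i k ^ 2 ≤ mf S 1 / Q + (D ^ 30 * Q * S.F * t) ^ 2 := by
  obtain ⟨-, n2, -, gi, gk, nb⟩ := n
  have h := K.H.Z.A.cl
  have E1 := K.H.Z.E1
  have D4 := K.H.Z.D4
  have D1 : 1 ≤ D := by linarith
  have C0 := h.C0
  have F1 := h.F1
  have L1 := K.H.L1
  have EL := K.H.EL
  have μ0 := K.mf0
  have ψ1 := K.H.ψ1
  obtain ⟨r1, r2, -⟩ := K.Rt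
  obtain ⟨-, s2, s3⟩ := K.Rτ
  have t0 : 0 < t := s3.trans_le r2
  have sm := K.small F40 DE
  obtain ⟨x, hx⟩ : ∃ x, x = D ^ 30 * S.F * t := ⟨_, rfl⟩
  have x1 : 2 * (D * t) ≤ x :=
    calc _ = 2 * D * 1 * t := by ring
      _ ≤ _ := by
        rw [hx]; gcongr
        calc 2 * D ≤ D * D := by gcongr; linarith
          _ = D ^ 2 := by ring
          _ ≤ _ := K.H.Z.Dp (by norm_num)
  have x2 : D * x ≤ 1 / 1000 :=
    calc _ = D ^ 31 * S.F * t := by rw [hx]; ring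
      _ ≤ D ^ 100 * S.F * t := by gcongr; norm_num
      _ ≤ _ := sm
  have x3 : D * x ≤ Lc * t := by
    have a1 : D ^ 31 * S.F ≤ E := by
      refine le_of_pow_le_pow_left₀ two_ne_zero (by linarith) ?_
      rw [mul_pow, ← pow_mul, sq E]
      exact mul_le_mul ((pow_le_pow_right₀ D1 (by norm_num)).trans DE)
        ((pow_le_pow_right₀ F1 (by norm_num)).trans F40) (by positivity) (by linarith)
    calc _ = D ^ 31 * S.F * t := by rw [hx]; ring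
      _ ≤ _ := mul_le_mul_of_nonneg_right (a1.trans EL) t0.le
  have Dt : 0 < D * t := by positivity
  have DDt := mul_le_mul_of_nonneg_left x1 (show 0 ≤ D by linarith)
  have zik := h.leg.zm n2
  have zz : 0 ≤ D * (M.z k - M.z i) := mul_nonneg (by linarith) (by linarith)
  have mg : D * D ^ 29 * S.F * (t + y / mf S 1) ≤ 2 * x :=
    (mul_le_mul_of_nonneg_left (show t + y / mf S 1 ≤ 2 * t by linarith)
      (by positivity)).trans_eq (by rw [hx]; ring)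
  rw [← hx] at up
  obtain ⟨p, p1, p2, p3, -, p5, p6⟩ := K.win (x := M.z i - 2 * x - D * t) (by linarith)
    (by linarith)
  obtain ⟨q, q1, q2, q3, q4, q5, q6⟩ := K.win (x := M.z k + 2 * x)
    (by linarith [mul_pos (show 0 < D by linarith) Dt]) (by linarith)
  have pi : p < i := h.leg.zm.reflect_lt (by linarith)
  have kq : k < q := h.leg.zm.reflect_lt (by linarith)
  have zp : D * (M.z (S.J - 1) - M.z p) ≤ 1 := by
    linarith [mul_le_mul_of_nonneg_left p5.le (show 0 ≤ D by linarith)]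
  have gp : M.z k ≤ M.z i + D * t := by
    rcases n2.eq_or_lt with rfl | c
    · linarith
    · exact K.gap h0 c hk gi (.inl gk) nb (by linarith)
  obtain ⟨lo, Z⟩ := K.ne' y0 G (ρ := Lc ^ 2 * t) p1 zp p3 q3 q4 (by omega) (by
    have b1 := K.rise p1 (show p ≤ q by omega) q2 (by linarith)
    have b2 := mul_le_mul_of_nonneg_left (h.z_tel p1 (show p ≤ q by omega) q2).1 (sq_nonneg S.C)
    rw [show S.C ^ 2 * (((q : ℝ) - p) * (S.v / S.C)) = ((q : ℝ) - p) * (S.C * S.v) by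
      field_simp] at b2
    have b3 := mul_le_mul_of_nonneg_left (show M.z q - M.z p ≤ 6 * x by linarith) (sq_nonneg S.C)
    have b4 := mul_le_mul_of_nonneg_right (K.H.Z.Cp (k := 2) (by norm_num))
      (show 0 ≤ x by linarith)
    have b6 := mul_le_mul_of_nonneg_left r1 (show 0 ≤ S.C ^ 3 by positivity)
    have b7 := mul_le_mul_of_nonneg_right (((K.H.Z.Cp (k := 3) (by norm_num)).trans
      K.H.Z.D_E).trans EL) (show 0 ≤ Lc * t by positivity)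
    have b8 := mul_le_mul_of_nonneg_right ((D4.trans K.H.Z.D_E).trans EL)
      (show 0 ≤ Lc * t by positivity)
    have b9 : 0 ≤ S.C ^ 2 * x := mul_nonneg (sq_nonneg _) (by linarith)
    have b0 : 0 ≤ Lc * t := by positivity
    linarith)
  have u0 := K.H.u0
  have X0 := K.H.Z.X20
  have dp : ∀ {i : ℕ}, i ≤ 29 → D ^ i ≤ D ^ 29 := fun e => K.H.Z.Dp e
  rw [pow_succ' D 29]
  refine (B G1 l0 l V X Lg X2 X3 G0 η Xp Vt Lp u1 u2 j γ Lc ηc τ N T (D ^ 29) Q _ _ _ _ t _ y _ p q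
    K.H.Z.ce K.H.Z.ln K.lp K.H.j0 F40 hT (one_le_pow₀ D1)
    (by rw [← pow_mul]; exact (K.H.Z.Dp (by norm_num)).trans DE) Q1 QE Z
    (by linarith [lo.2, h.s_nn p]) r2 le_rfl y0 y1 ?_ ?_ ?_ ?_ i k ⟨pi.le, n2, kq.le, gi, gk, nb⟩
    (by linarith) (by linarith)).1
  · have b1 : Nd22.U S Lc 1 ^ 2 ≤ mf S 1 :=
      (le_mul_of_one_le_left (sq_nonneg _) E1).trans K.H.thk
    have b2 := mul_le_mul_of_nonneg_right b1 K.H.γ0
    have b3 := mul_le_mul_of_nonneg_right K.t0 μ0.le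
    have b4 := mul_nonneg (sq_nonneg (Nd22.U S Lc 1)) K.H.γ0
    exact mul_le_mul (by gcongr) (by linarith) (by linarith [K.H.parts.2.2]) (by positivity)
  · exact mul_le_mul_of_nonneg_right ((dp (by norm_num)).trans
      (le_mul_of_one_le_right (by positivity) F1)) (by positivity)
  · exact mul_le_mul_of_nonneg_right (mul_le_mul (dp (by norm_num))
      ((pow_le_pow_right₀ ψ1 (by norm_num)).trans hψ) (by positivity) (by positivity)) (sq_nonneg _)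
  · exact div_le_div₀ (by positivity) (by
      linarith [K.H.Z.Cp (k := 1) (by norm_num), dp (show 1 ≤ 29 by norm_num)])
      (by linarith [K.H.Z.EL]) K.H.Lc1

end Ck

/-- `NcB` at the loss `D` of the corner frame -/
theorem ncD : ∃ f : ℝ → ℝ, ∀ (E D : ℝ) (S : Sc) (M : Md) (m : ℕ) (a : ℝ), C33.Fn S M m a →
    f S.C ≤ D → D ^ 10 ≤ E → NcB E D S M m a := by
  obtain ⟨f, f0, H⟩ := ncA
  exact ⟨f, fun E D S M m a F b1 b2 =>
    H E D S M m a F b1 ((pow_le_pow_left₀ (f0 _) b1 10).trans b2)⟩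

end Crest.Agent.T156.Alt.Tx61

end
end

-- ▼ part T156/TxBg_9
section

/-!
Row 156, block (L) (helper9): frame, geometry and wrapper of zone I (`TxB`).
-/

set_option autoImplicit false

noncomputable section

namespace Crest.Agent.T156.Alt.X84

open MeasureTheory Set Real
open Crest.Agent.R164.GC Crest.Agent.R339.B Crest.Agent.R339.Var Crest.Agent.T157.Pf
open Crest.Agent.T156.Cut8 Crest.Agent.T156.Alt.Mp9 Crest.Agent.T156.Alt.L69
open Crest.Agent.T156.Alt.L31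
open Crest.Agent.T156.Gap27 (resN HLip)
open Crest.Agent.T156.Alt.C74 (JJ)

/-- the constants of the frame of zone I, all below `Λ` -/
structure Fz (E Λ : ℝ) (S : Sc) (M : Md) (m : ℕ) (a K' : ℝ) : Prop where
  K1 : 1 ≤ K'
  KΛ : K' ≤ Λ
  hA : HLip Pr.AA (2 * S.C) K'
  hN : HLip Pr.NN (2 * S.C) K'
  hL : ∀ l, Pp.Ode3.AP l → TT l = 2 * S.C → ∀ s t : ℝ, 0 ≤ s → s ≤ t → t ≤ 2 * S.C →
    |L0.Gd l t - L0.Gd l s| ≤ K' * (t - s) + 2 * (lvr 1 l t - lvr 1 l s)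
  C20 : 10 ^ 12 * S.C ^ 20 ≤ Λ
  v4 : S.v ≤ 1 / (S.n : ℝ) ^ 4
  nc : ∀ D, Λ ≤ D → D ^ 10 ≤ E → C33.Fn S M m a → Tx61.NcB E D S M m a

theorem hlip_mono9 {F : List (ℝ × ℝ) → ℝ → ℝ} {T K K' : ℝ} (h : HLip F T K) (T0 : 0 ≤ T)
    (hK : K ≤ K') : HLip F T K' := fun l l' a b c d t ht =>
  (h l l' a b c d t ht).trans (mul_le_mul_of_nonneg_right hK (add_nonneg (abs_nonneg _)
    (intervalIntegral.integral_nonneg T0 fun _ _ => abs_nonneg _)))

theorem Fz.mono {E Λ Λ' K' : ℝ} {S : Sc} {M : Md} {m : ℕ} {a : ℝ} (F : Fz E Λ S M m a K')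
    (h : Λ ≤ Λ') : Fz E Λ' S M m a K' :=
  ⟨F.K1, F.KΛ.trans h, F.hA, F.hN, F.hL, F.C20.trans h, F.v4, fun D d => F.nc D (h.trans d)⟩

theorem fzS9 : CL fun E Λ S M m a => ∃ K', Fz E Λ S M m a K' := by
  obtain ⟨f, hf⟩ := Tx61.ncD
  refine CL.triv.glue fun C => ⟨5, fun A hA5 ε η hε hη => ?_⟩
  obtain ⟨K1, k1, h1⟩ := Hm.hlip (2 * C)
  obtain ⟨K2, k2, h2⟩ := L0.Gd_up (2 * C)
  refine ⟨ε, η, max (K1 + K2) (max (10 ^ 12 * C ^ 20) (f C)), hε, hη,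
    fun S M m a R h _ _ => ⟨K1 + K2, ?_⟩⟩
  have k := R.K_le
  have e := R.hC
  subst e
  have C0 := h.C0
  obtain ⟨-, -, hA, hN, -⟩ := h1 _ le_rfl
  exact ⟨by linarith, (le_max_left _ _).trans k, hlip_mono9 hA (by linarith) (by linarith),
    hlip_mono9 hN (by linarith) (by linarith), fun l b e s t s0 st tT =>
      (h2 l b e.le s t s0 st (e ▸ tT)).trans (by
        linarith [mul_le_mul_of_nonneg_right (show K2 ≤ K1 + K2 by linarith) (sub_nonneg.2 st)]),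
    ((le_max_left _ _).trans (le_max_right _ _)).trans k, L25.v4_of R h hA5,
    fun D d DE fn => hf _ D S M m a fn ((((le_max_right _ _).trans (le_max_right _ _)).trans k).trans d)
      DE⟩

/-- a leaf from a pointwise statement with the frame -/
theorem LF.of9 {P : ℝ → Sc → Md → ℕ → ℝ → Dt → Prop}
    (h : ∀ E S M m a c K', Cy E S M m a c → Fz E c.D S M m a K' → P E S M m a c) : LF P :=
  fzS9.mono fun E _ S M m a _ _ _ _ ⟨K', F⟩ c Y d => h E S M m a c K' Y (F.mono d)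

variable {E K' : ℝ} {S : Sc} {M : Md} {m : ℕ} {a : ℝ} {c : Dt} {v v1 v2 : ℕ}

namespace Cy

variable (Y : Cy E S M m a c)
include Y

theorem X49 : 0 ≤ c.X4 := by
  have h := Y.tw.at'.cl
  have C0 := h.C0
  have E1 := Y.cw.Z.E1
  have t4 : c.t4 ≤ S.C := by
    by_contra k
    nlinarith [Y.t4]
  refine le_trans ?_ (Y.l4 S.C t4 le_rfl)
  have c0 : 0 ≤ cl S c.p.V S.C := add_nonneg (mul_nonneg (zero_le_one.trans (le_max_left _ _))
    C0.le) Y.hx.ln.V0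
  have w0 : 0 ≤ ws S c.p.V S.C := mul_nonneg (div_nonneg c0 C0.le)
    (rpow_nonneg (Y.cw.Z.w3p C0).le _)
  have x0 : 0 ≤ min c.p.X (cl S c.p.V S.C ^ 3) := le_min Y.hx.ln.X0.le (by positivity)
  positivity

/-- the parts of the cost -/
theorem Nn9 : c.p.N + c.p.X2 ^ 2 + 1 / (S.n : ℝ) ^ 3 ≤ Nn S M c.p c.X4 c.t4 := by
  have h := Y.tw.at'.cl
  have cb : 0 ≤ cB M S c.p.η c.t4 S.C :=
    Finset.sum_nonneg fun k _ => mul_nonneg (L25.dx_nn h k) (add_nonneg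
      (mul_nonneg (zero_le_one.trans (le_max_left _ _))
        (div_nonneg (sq_nonneg _) (L25.mf_pos' h (h.s_nn k)).le))
      (le_min (by positivity) (div_nonneg (sq_nonneg _) (L25.mf_pos' h (h.s_nn k)).le)))
  unfold L31.Nn
  linarith [Y.X49]

theorem N9 : 0 ≤ c.p.N := by
  have h := Y.tw.at'.cl
  have := h.θ0
  have := Y.tw.τ0
  have := Y.hx.lp.u0
  exact le_trans (by positivity) Y.hx.lc.c3

theorem Nb9 : 0 ≤ Nb S M c := by
  have := Y.tw.at'.cl.F1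
  have := Y.N9
  exact mul_nonneg (by positivity) (le_trans (by positivity) Y.Nn9)

/-- **zone I** from the net and the number lines -/
theorem txB_at (F : Fz E c.D S M m a K') (N : Nd S M m a c v v1 v2)
    {ec la al w th k0 ν τ θ' μ NN βs Mt A0 En : ℝ}
    (Z : ZI S M m a (2 * S.C) (GC S M m a c) v v2 (ys S M m a v2)
      (sb M m a S.J - ys S M m a v2) ec la al w th k0 (M.s S.J / 4))
    (M1 : sb M m a S.J ≤ Mt) (M2 : Mt ≤ 2 * S.C) (a0 : 0 ≤ A0) (a1 : 8 * A0 ≤ M.s S.J)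
    (hE : (∫ t in A0..2 * S.C, JJ M S m a (2 * S.C) t ^ 2) +
      (∫ t in (0 : ℝ)..A0, |JJ M S m a (2 * S.C) t|) ^ 2 ≤ En) (β0 : 0 ≤ βs)
    (hμ : μ = At.e48 S / (384 * S.C ^ 4 * S.F)) (θ0 : 0 < θ') (θ1 : 1 ≤ c.D ^ 3 * θ')
    (θ2 : 2 * 10 ^ 7 * S.C ^ 5 * c.K * θ' ≤ 1) (ν0 : 0 ≤ ν) (τ0 : 0 ≤ τ)
    (hN : NN ≤ c.D ^ 790 * Nb S M c)
    (h0 : βs + (3 * (ec + 1 / (m + 1) + al * (k0 + S.C * S.v)) +
      2 * (S.C ^ 2 * S.F * S.θ) * (S.C * S.v) + 4 * (S.C * S.v) * w ^ 2) ≤ (μ + ν ^ 2) * τ)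
    (hk : 3 * (la + 2 * al * th) + 2 * (S.C ^ 2 * S.F * S.θ) * th +
      2 * (S.C * (S.θ / (M.s S.J / 4))) * w + (2 * K' + 4 * th) * w ^ 2 ≤
        (μ + ν ^ 2) * (θ' / (68 * S.C)))
    (h4 : 4 * w ^ 2 + (6 * K' * w ^ 2) ^ 2 / θ' ≤ θ' * (μ + ν ^ 2))
    (n1 : S.C * S.v ≤ NN)
    (n2 : 2 * S.C ^ 5 * S.θ ^ 2 * S.v ^ 2 + S.C ^ 2 * GS M S (1 / (8 * S.C ^ 2)) S.C ≤ μ * NN)
    (n3 : (μ + ν ^ 2) * τ ^ 3 ≤ NN) (n4 : (μ + ν ^ 2) * (S.C * S.v + k0) ^ 3 ≤ NN)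
    (n5 : μ * ((c.D ^ 44 * tc S c) ^ 3 + c.p.γ ^ 3) ≤ NN) (n6 : ν ^ 5 ≤ NN)
    (n7 : (c.D ^ 44 * tc S c) ^ 5 + c.p.γ ^ 5 ≤ NN) :
    Z1e S M m a (2 * S.C) (resN (lb M S m a (2 * S.C)) M.b (sb M m a) (hb M) (v + 1)) βs
      (sb M m a (v + 1)) (ys S M m a v2) Mt (c.θ1 / 2 * En + c.D ^ 800 * Nb S M c)
      (c.D ^ 20 * S.F) (c.D ^ 800 * Nb S M c) (At.e48 S) := by
  have A := Y.tw.at'
  have h := A.cl
  have C1 := h.C1
  have F1 := h.F1
  have v0 := h.v0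
  have D4 := Y.cw.Z.D4
  have D1 : 1 ≤ c.D := by linarith
  obtain ⟨K1, -, -⟩ := Y.K83
  obtain ⟨t0, -, vt, -⟩ := Y.tc83
  obtain ⟨e1, e2, e3, -, e5⟩ := A.e_pack Y.cw.θ1
  obtain ⟨Ch, -, hC⟩ := Hm.hlip (2 * S.C)
  have Nb0 := Y.Nb9
  have N0 : 0 ≤ NN := le_trans (by positivity) n6
  have sJ := Y.ck83.sJ
  have s1 := N.v2e.s1
  have t1 := N.v2e.t1
  have w1 := Y.tw.v1
  have vJ : v ≤ S.J := (Z.vv.trans Z.vJ.le)
  have lc := (Y.tw.loc v s1 vJ).trans (show Ve83.DD S M c.p.Xp c.p.γ ≤ M.s S.J / 16 by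
    linarith [Y.tw.D1])
  have cv : S.v ≤ S.C * S.v := le_mul_of_one_le_left v0.le C1
  have c5 : 1 ≤ S.C ^ 5 := one_le_pow₀ C1
  have c7 : 10 ^ 12 * S.C ^ 7 ≤ c.D := le_trans (mul_le_mul_of_nonneg_left
    (pow_le_pow_right₀ C1 (show 7 ≤ 20 by norm_num)) (by norm_num)) F.C20
  have c5' : 10 ^ 12 * S.C ^ 5 ≤ c.D := le_trans (mul_le_mul_of_nonneg_left
    (pow_le_pow_right₀ C1 (show 5 ≤ 20 by norm_num)) (by norm_num)) F.C20
  have d3 : c.D ≤ c.D ^ 3 := le_self_pow₀ D1 (by norm_num)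
  have sC : M.s S.J ≤ 2 * S.C := (h.sm h.i3).trans A.t2
  have q8 : 1 / (8 * S.C ^ 2) ≤ M.s S.J / 4 := by
    rw [div_le_iff₀ (by positivity)]; linarith
  have kθ : 0 ≤ c.K * θ' := by positivity
  have hC1 : S.C ≤ c.D := by linarith [Y.cw.Z.Cp (k := 1) (by norm_num), pow_one S.C]
  have d44 : 2 * c.D ≤ c.D ^ 44 := by
    have : c.D ^ 2 ≤ c.D ^ 44 := pow_le_pow_right₀ D1 (by norm_num)
    linarith [mul_le_mul_of_nonneg_right D4 (show 0 ≤ c.D by linarith)]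
  have z := Z.z1e (L := c.D ^ 3) (t0 := At.t48 S) (t1 := 1 / (8 * S.C ^ 2))
    (τc := c.D ^ 44 * tc S c) (γ := c.p.γ) (by linarith [F.K1]) F.hA F.hN
    (F.hL _ ⟨A.okb.1.1, A.okb.1.2⟩ A.okb.2) (hC _ le_rfl).2.2.2.2.2.2.2 le_rfl rfl rfl hμ e3 le_rfl
    (by linarith) (e5.trans (mul_le_mul_of_nonneg_right (by linarith [pow_nonneg h.C0.le 7]) e3.le))
    θ1 θ0 (by linarith [mul_le_mul c5 (le_mul_of_one_le_left θ0.le K1) θ0.le (by positivity)])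
    ν0 τ0 β0 (N.lo.trans (h.leg.zm N.o2.le))
    (by linarith [mul_le_mul hC1 vt v0.le (by linarith), mul_le_mul_of_nonneg_right d44 t0.le])
    Y.hx.lp.γ0 M1 M2 a0 (by linarith) hE h0 hk h4 n1
    ((le_mul_of_one_le_right (mul_pos h.C0 v0).le
      (one_le_pow₀ (by exact_mod_cast h.n1))).trans Y.cw.Z.hv)
    (by linarith) n2 n3 n4 n5 n6 n7
  have yM : ys S M m a v2 ≤ Mt :=
    ((min_le_left _ _).trans (A.sb_mono (Nat.succ_le_of_lt Z.vJ))).trans M1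
  have hI : 0 ≤ At.e48 S / M.b * Il S M m a (2 * S.C) (ys S M m a v2) Mt :=
    mul_nonneg (div_nonneg e3.le (by linarith [A.b_mem.1]))
      (intervalIntegral.integral_nonneg yM fun _ _ => mul_nonneg (abs_nonneg _) (L25.ff_nn _ _ _ _))
  have En0 : 0 ≤ En := le_trans (add_nonneg (intervalIntegral.integral_nonneg
    (by linarith [h.s_nn S.J]) fun _ _ => sq_nonneg _) (sq_nonneg _)) hE
  have up : ∀ {i k : ℕ}, i ≤ k → c.D ^ i * Nb S M c ≤ c.D ^ k * Nb S M c := fun e =>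
    mul_le_mul_of_nonneg_right (pow_le_pow_right₀ D1 e) Nb0
  refine z.mono Z.sy hI ?_ (by positivity) ?_ N0 (hN.trans (up (by norm_num)))
  · have x1 : 10 ^ 7 * S.C ^ 5 * θ' ≤ c.θ1 / 2 := by
      refine le_of_mul_le_mul_left ?_ (show 0 < c.K by linarith)
      linarith [Y.θ1]
    have x2 : 10 ^ 7 * S.C ^ 5 * ((c.D ^ 3) ^ 2 * NN) ≤ c.D ^ 797 * Nb S M c :=
      calc _ ≤ c.D * ((c.D ^ 3) ^ 2 * (c.D ^ 790 * Nb S M c)) :=
            mul_le_mul (by linarith) (mul_le_mul_of_nonneg_left hN (by positivity)) (by positivity)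
              (by linarith)
        _ = _ := by ring
    linarith [mul_le_mul_of_nonneg_right x1 En0, up (show 797 ≤ 800 by norm_num)]
  · calc _ = 10 ^ 12 * S.C ^ 7 * c.D ^ 3 * S.F := by ring
      _ ≤ c.D * c.D ^ 3 * S.F := by gcongr
      _ = c.D ^ 4 * S.F := by ring
      _ ≤ _ := mul_le_mul_of_nonneg_right (pow_le_pow_right₀ D1 (by norm_num)) (by linarith)

end Cy

end Crest.Agent.T156.Alt.X84

end
end

-- ▼ part T156/TxQ_8
section

/-!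
# Row 156, text (L) (helper8): the slope lines of zone I
-/

set_option autoImplicit false

noncomputable section

namespace Crest.Agent.T156.Alt.X84

open MeasureTheory Set Real
open Crest.Agent.T156.Alt.Mp9 Crest.Agent.T156.Alt.L69 Crest.Agent.T156.Alt.L31

theorem pw8 {D c : ℝ} (D1 : 1 ≤ D) (h : c ≤ D) {i j : ℕ} (hij : i + 1 ≤ j) : c * D ^ i ≤ D ^ j :=
  (mul_le_mul_of_nonneg_right h (by positivity)).trans
    (by rw [← pow_succ']; exact pow_le_pow_right₀ D1 hij)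

theorem numK {D F C μ mf θ θ' K th t w tl ν x : ℝ} (C1 : 1 ≤ C) (CD : 1000 * C ^ 3 ≤ D)
    (F1 : 1 ≤ F) (μ0 : 0 < μ) (m0 : 0 ≤ mf) (m1 : mf ≤ D * μ) (eθ : θ = F * mf) (θ1 : θ ≤ 1)
    (hθ : 1 ≤ D ^ 2 * θ') (K0 : 0 ≤ K) (KD : K ≤ D) (th0 : 0 ≤ th)
    (th1 : D ^ 60 * F ^ 4 * th ≤ 6 * D) (t0 : 0 ≤ t) (t1 : D ^ 60 * F ^ 4 * t ≤ 3) (w0 : 0 ≤ w)
    (w1 : w ^ 2 ≤ mf / (D ^ 14 * F) + (D ^ 44 * F ^ 2 * t) ^ 2) (tl0 : 0 < tl)
    (tl1 : 1 ≤ 8 * C ^ 2 * tl) (hν : D ^ 50 * F ^ 2 * t ≤ ν) (hx : 2 * D ^ 3 * x ≤ μ + ν ^ 2) :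
    x + 2 * (C ^ 2 * F * θ) * th + 2 * (C * (θ / tl)) * w + (2 * K + 4 * th) * w ^ 2 ≤
      (μ + ν ^ 2) * (θ' / (68 * C)) ∧
    4 * w ^ 2 + (6 * K * w ^ 2) ^ 2 / θ' ≤ θ' * (μ + ν ^ 2) := by
  have C0 : 0 < C := by linarith
  have c3 : 1 ≤ C ^ 3 := one_le_pow₀ C1
  have c13 : C ≤ C ^ 3 := le_self_pow₀ C1 (by norm_num)
  have c23 : C ^ 2 ≤ C ^ 3 := pow_le_pow_right₀ C1 (by norm_num)
  have D3 : 1000 ≤ D := by linarith
  have D1 : 1 ≤ D := by linarith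
  have D0 : 0 < D := by linarith
  have F0 : 0 < F := by linarith
  have θ'0 : 0 < θ' := by
    by_contra h
    linarith [mul_nonpos_of_nonneg_of_nonpos (pow_nonneg D0.le 2) (not_lt.1 h)]
  have θ0 : 0 ≤ θ := by rw [eθ]; positivity
  have M0 : 0 < μ + ν ^ 2 := by positivity
  have θμ : θ ≤ F * (D * μ) := by rw [eθ]; exact mul_le_mul_of_nonneg_left m1 F0.le
  obtain ⟨y, hy⟩ : ∃ y, y = F ^ 2 * t := ⟨_, rfl⟩
  have y0 : 0 ≤ y := by rw [hy]; positivity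
  rw [mul_assoc, ← hy] at w1 hν
  have f2 : 1 ≤ F ^ 2 := one_le_pow₀ F1
  have y1 : D ^ 60 * F ^ 2 * y ≤ 3 := by rw [hy]; linarith
  have n1 : D ^ 100 * y ^ 2 ≤ ν ^ 2 := by
    have := pow_le_pow_left₀ (by positivity) hν 2
    linarith
  -- sizes of `w`
  have a1 : D ^ 14 * F ^ 2 * (mf / (D ^ 14 * F)) = θ := by rw [eθ]; field_simp
  have a2 : D ^ 13 * (mf / (D ^ 14 * F)) ≤ μ := by
    rw [show D ^ 13 * (mf / (D ^ 14 * F)) = mf / D / F by field_simp]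
    exact (div_le_self (by positivity) F1).trans (by rw [div_le_iff₀ D0]; linarith)
  have a3 : D ^ 14 * F ^ 2 * (D ^ 44 * y) ^ 2 ≤ 1 := by
    have b1 := pow_le_pow_left₀ (by positivity) y1 2
    have b2 := mul_le_mul_of_nonneg_right (pw8 D1 (show 9 ≤ D by linarith) (i := 102) (j := 120)
      (by norm_num)) (show 0 ≤ F ^ 2 * y ^ 2 by positivity)
    have b3 := mul_le_mul_of_nonneg_right f2
      (mul_nonneg (mul_nonneg (pow_nonneg D0.le 120) (sq_nonneg F)) (sq_nonneg y))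
    linarith
  have a4 : D ^ 14 * F ^ 2 * w ^ 2 ≤ 2 := by
    linarith [mul_le_mul_of_nonneg_left w1 (show 0 ≤ D ^ 14 * F ^ 2 by positivity)]
  have a5 : D ^ 7 * F * w ≤ 2 := by
    by_contra h
    nlinarith only [a4, not_le.1 h]
  have a6 : D ^ 12 * w ^ 2 ≤ μ + ν ^ 2 := by
    have b1 := mul_le_mul_of_nonneg_left w1 (show 0 ≤ D ^ 12 by positivity)
    have b2 := mul_le_mul_of_nonneg_right (pow_le_pow_right₀ D1 (show 12 ≤ 13 by norm_num))
      (show 0 ≤ mf / (D ^ 14 * F) by positivity)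
    linarith
  have g1 : th ≤ 1 := by
    have := mul_le_mul_of_nonneg_right (mul_le_mul (pw8 D1 (show 6 ≤ D by linarith) (i := 1)
      (j := 60) (by norm_num)) (one_le_pow₀ F1 (n := 4)) zero_le_one (by positivity)) th0
    by_contra h
    nlinarith only [this, th1, not_le.1 h, D0]
  constructor
  · have k : 1 / D ^ 3 ≤ θ' / (68 * C) := by
      rw [div_le_div_iff₀ (by positivity) (by positivity)]
      nlinarith only [mul_le_mul_of_nonneg_left hθ D0.le, CD, c13, C0]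
    refine le_trans ?_ (mul_le_mul_of_nonneg_left k M0.le)
    rw [mul_one_div, le_div_iff₀ (by positivity)]
    have T4 : 2 * (C ^ 2 * F * θ) * th * D ^ 3 ≤ μ / 6 := by
      have b1 : C ^ 2 * F * θ ≤ D * F * (F * (D * μ)) :=
        mul_le_mul (mul_le_mul_of_nonneg_right (by linarith) F0.le) θμ θ0 (by positivity)
      have b2 := mul_le_mul_of_nonneg_right b1 (show 0 ≤ th * D ^ 3 by positivity)
      have b3 : 72 * D ^ 6 * F ^ 2 ≤ D ^ 60 * F ^ 4 :=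
        mul_le_mul (pw8 D1 (by linarith) (by norm_num)) (pow_le_pow_right₀ F1 (by norm_num))
          (by positivity) (by positivity)
      have b4 : 12 * D ^ 5 * F ^ 2 * th ≤ 1 := by
        have := mul_le_mul_of_nonneg_right b3 th0
        by_contra h
        nlinarith only [this, th1, not_le.1 h, D0]
      linarith [mul_le_mul_of_nonneg_right b4 μ0.le]
    have T5 : 2 * (C * (θ / tl)) * w * D ^ 3 ≤ μ / 6 := by
      have b1 : θ / tl ≤ 8 * C ^ 2 * (F * (D * μ)) := by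
        rw [div_le_iff₀ tl0]
        linarith [mul_le_mul θμ tl1 zero_le_one (show 0 ≤ F * (D * μ) by positivity)]
      have b2 := mul_le_mul_of_nonneg_right b1 (show 0 ≤ C * w * D ^ 3 by positivity)
      have b3 := mul_le_mul_of_nonneg_right CD (show 0 ≤ F * D ^ 4 * μ * w by positivity)
      have b4 := mul_le_mul_of_nonneg_right (pow_le_pow_right₀ D1 (show 5 ≤ 7 by norm_num))
        (show 0 ≤ F * μ * w by positivity)
      linarith [mul_le_mul_of_nonneg_right a5 μ0.le]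
    have T6 : (2 * K + 4 * th) * w ^ 2 * D ^ 3 ≤ (μ + ν ^ 2) / 6 := by
      have b1 := mul_le_mul_of_nonneg_right (show 2 * K + 4 * th ≤ 3 * D by linarith)
        (show 0 ≤ w ^ 2 * D ^ 3 by positivity)
      have b2 := mul_le_mul_of_nonneg_right (pw8 D1 (show 18 ≤ D by linarith) (i := 4) (j := 12)
        (by norm_num)) (sq_nonneg w)
      linarith
    linarith [sq_nonneg ν]
  · have b1 : (6 * K * w ^ 2) ^ 2 / θ' ≤ w ^ 2 := by
      rw [div_le_iff₀ θ'0]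
      have c1 := pow_le_pow_left₀ K0 KD 2
      have c2 := mul_le_mul_of_nonneg_right c1 (show 0 ≤ w ^ 2 * w ^ 2 by positivity)
      have c4 : 36 * D ^ 4 * w ^ 2 ≤ 1 := by
        have := mul_le_mul_of_nonneg_right (mul_le_mul (pw8 D1 (show 72 ≤ D by linarith) (i := 4)
          (j := 14) (by norm_num)) f2 zero_le_one (by positivity)) (sq_nonneg w)
        linarith
      have c5 := mul_le_mul_of_nonneg_right hθ (show 0 ≤ 36 * D ^ 2 * w ^ 2 * w ^ 2 by positivity)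
      have c6 := mul_le_mul_of_nonneg_right c4 (show 0 ≤ w ^ 2 * θ' by positivity)
      linarith
    have b2 := mul_le_mul_of_nonneg_right (pw8 D1 (show 5 ≤ D by linarith) (i := 2) (j := 12)
      (by norm_num)) (show 0 ≤ w ^ 2 * θ' by positivity)
    have b3 := mul_le_mul_of_nonneg_right hθ (show 0 ≤ 5 * w ^ 2 by positivity)
    have b4 := mul_le_mul_of_nonneg_left a6 θ'0.le
    linarith

variable {E : ℝ} {S : Sc} {M : Md} {m : ℕ} {a : ℝ} {c : Dt}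

theorem Cy.P8 (Y : Cy E S M m a c) : c.D ^ 60 * S.F ^ 4 ≤ E := by
  have D1 := Y.cw.D1
  have F1 := Y.tw.at'.cl.F1
  have a1 : c.D ^ 120 ≤ E := (pow_le_pow_right₀ D1 (by norm_num)).trans Y.cw.DE
  have a2 : S.F ^ 8 ≤ E := (pow_le_pow_right₀ F1 (by norm_num)).trans Y.hx.F40
  have E0 : 0 ≤ E := le_trans (by positivity) a1
  refine (pow_le_pow_iff_left₀ (by positivity) E0 two_ne_zero).1 ?_
  have := mul_le_mul a1 a2 (by positivity) E0
  linarith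

/-- **the lines `hk`, `h4`, `th1`** of `ZI.z1e`; `x = 3 (la + 2 al th)` -/
theorem Cy.hk4 (Y : Cy E S M m a c) (CD : 10 ^ 6 * S.C ^ 11 ≤ c.D) {K θ' w ν x μ th : ℝ}
    (hμ : μ = At.e48 S / (384 * S.C ^ 4 * S.F)) (hth : th = 2 * (c.K / c.p.Lg) + 4 * S.C / c.p.Lc)
    (K0 : 0 ≤ K) (KD : K ≤ c.D) (hθ : 1 ≤ c.D ^ 2 * θ') (w0 : 0 ≤ w)
    (w1 : w ^ 2 ≤ mf S 1 / (c.D ^ 14 * S.F) + (c.D ^ 30 * (c.D ^ 14 * S.F) * tc S c) ^ 2)
    (hν : c.D ^ 50 * S.F ^ 2 * tu S c.p ≤ ν) (hx : 2 * c.D ^ 3 * x ≤ μ + ν ^ 2) :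
    (x + 2 * (S.C ^ 2 * S.F * S.θ) * th + 2 * (S.C * (S.θ / (M.s S.J / 4))) * w +
      (2 * K + 4 * th) * w ^ 2 ≤ (μ + ν ^ 2) * (θ' / (68 * S.C)) ∧
    4 * w ^ 2 + (6 * K * w ^ 2) ^ 2 / θ' ≤ θ' * (μ + ν ^ 2)) ∧
    0 ≤ th ∧ 4 * S.C * th ≤ 1 ∧ 0 < μ ∧ mf S 1 ≤ c.D * μ ∧ S.θ ≤ c.D * S.F * μ := by
  have A := Y.tw.at'
  have C1 := A.cl.C1
  have C0 := A.c_pos
  have F1 := A.cl.F1
  have F0 : 0 < S.F := by linarith
  have D1 := Y.cw.D1
  have P := Y.P8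
  have c1 : S.C ^ 3 ≤ S.C ^ 11 := pow_le_pow_right₀ C1 (by norm_num)
  have c2 : S.C ≤ S.C ^ 11 := le_self_pow₀ C1 (by norm_num)
  have c0 : 0 ≤ S.C ^ 11 := by positivity
  have p1 : c.D ^ 2 ≤ c.D ^ 60 * S.F ^ 4 := (pow_le_pow_right₀ D1 (by norm_num)).trans
    (le_mul_of_one_le_right (by positivity) (one_le_pow₀ F1))
  have p2 : c.D ≤ c.D ^ 2 := le_self_pow₀ D1 two_ne_zero
  have E2 : 2 ≤ E := by linarith
  have T := tm12 Y.tw Y.hx Y.cw.θ1 E2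
  obtain ⟨-, -, e0, -, e1⟩ := A.e_pack Y.cw.θ1
  have μ0 : 0 < μ := by rw [hμ]; positivity
  have μe : 384 * S.C ^ 4 * S.F * μ = At.e48 S := by rw [hμ]; field_simp
  have θμ : S.θ ≤ c.D * S.F * μ := by
    rw [← μe] at e1
    linarith [mul_le_mul_of_nonneg_right CD (mul_pos F0 μ0).le, mul_nonneg c0 (mul_pos F0 μ0).le]
  have eθ : S.θ = S.F * mf S 1 := by unfold mf; rw [mul_div_cancel₀ _ F0.ne']; rfl
  have m1 : mf S 1 ≤ c.D * μ := by
    rw [eθ] at θμ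
    exact le_of_mul_le_mul_left (by linarith) F0
  have K1 : 1 ≤ c.K := Y.hx.l1.trans Y.lK
  have g1 := Y.tw.EL
  have g2 := g1.trans Y.hx.lp.Lc1.1
  have P0 : 0 < c.D ^ 60 * S.F ^ 4 := by positivity
  have th0 : 0 ≤ th := by
    rw [hth]; have : 0 < c.p.Lg := by linarith
    have : 0 < c.p.Lc := by linarith
    positivity
  have th1 : c.D ^ 60 * S.F ^ 4 * th ≤ 3 * c.D := by
    have b1 : c.K / c.p.Lg ≤ c.D / (c.D ^ 60 * S.F ^ 4) :=
      div_le_div₀ (by linarith) Y.KD P0 (P.trans g1)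
    have b2 : 4 * S.C / c.p.Lc ≤ c.D / (c.D ^ 60 * S.F ^ 4) :=
      div_le_div₀ (by linarith) (by linarith) P0 (P.trans g2)
    rw [le_div_iff₀ P0] at b1 b2
    rw [hth]; linarith
  have t0 : 0 ≤ tu S c.p := T.t0.le.trans T.mu
  have sJ := Ve83.sJ_lo A.cl Y.tw.v1
  have s0 : 0 < M.s S.J / 4 := by
    by_contra h
    nlinarith only [sJ, not_lt.1 h, sq_nonneg S.C]
  refine ⟨numK C1 (by linarith) F1 μ0 T.m0.le m1 eθ Y.cw.θ1 hθ K0 KD th0 (by linarith) t0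
    ((mul_le_mul_of_nonneg_right P t0).trans T.Et) w0 (w1.trans (add_le_add le_rfl ?_)) s0
    (by linarith) hν hx, th0, ?_, μ0, m1, θμ⟩
  · have τ0 := Y.tw.τ0
    have γ0 := Y.tw.γ0
    refine pow_le_pow_left₀ (by unfold tc; positivity) ?_ 2
    have := mul_le_mul_of_nonneg_left T.cu (show 0 ≤ c.D ^ 44 * S.F ^ 2 by positivity)
    unfold tc
    linarith
  · have b1 : 12 * c.D ^ 2 * 1 ≤ c.D ^ 60 * S.F ^ 4 :=
      mul_le_mul (pw8 D1 (by linarith) (by norm_num)) (one_le_pow₀ F1) zero_le_one (by positivity)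
    have b2 := mul_le_mul_of_nonneg_right b1 th0
    have b3 := mul_le_mul_of_nonneg_right (show S.C ≤ c.D by linarith) th0
    by_contra h
    nlinarith only [b2, b3, th1, not_le.1 h, D1]

end Crest.Agent.T156.Alt.X84

end
end

-- ▼ part T156/TxQ_27
section

/-!
Row 156, block (L) (helper27): the numbers of the context `Cy`.
-/

set_option autoImplicit false

noncomputable section

namespace Crest.Agent.T156.Alt.X84

open Real
open Crest.Agent.T156.Alt.Mp9 Crest.Agent.T156.Alt.L69 Crest.Agent.T156.Alt.L31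
open Crest.Agent.T156.Pr.Reg48 (Sm)

variable {E : ℝ} {S : Sc} {M : Md} {m : ℕ} {a : ℝ} {c : Dt}

namespace Cy

variable (Y : Cy E S M m a c)
include Y

theorem A27 : At S M m a (2 * S.C) := Y.tw.at'
theorem cl27 : Cl S M := Y.tw.at'.cl
theorem CD27 : 10000 * S.C ^ 10 ≤ c.D := Y.cw.Z.CD
theorem qD4 : 10000 ≤ c.D := by
  linarith [Y.CD27, one_le_pow₀ (n := 10) Y.cl27.C1]
theorem qD1 : 1 ≤ c.D := by linarith [Y.qD4]
theorem qD0 : 0 < c.D := by linarith [Y.qD4]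
theorem qK1 : 1 ≤ c.K := Y.hx.l1.trans Y.lK
theorem qF0 : 0 < S.F := by linarith [Y.cl27.F1]
theorem qDp {i j : ℕ} (h : i ≤ j) : c.D ^ i ≤ c.D ^ j := pow_le_pow_right₀ Y.qD1 h
theorem qFp {i j : ℕ} (h : i ≤ j) : S.F ^ i ≤ S.F ^ j := pow_le_pow_right₀ Y.cl27.F1 h
/-- a numeral costs one power of `D` -/
theorem qDs {r : ℝ} (hr : r ≤ 10000) {i j : ℕ} (h : i < j) : r * c.D ^ i ≤ c.D ^ j :=
  (mul_le_mul_of_nonneg_right (hr.trans Y.qD4) (pow_pos Y.qD0 i).le).trans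
    (by rw [← pow_succ']; exact Y.qDp h)
theorem DE27 {i : ℕ} (h : i ≤ 500) : c.D ^ i ≤ E := (Y.qDp h).trans Y.cw.DE
theorem qE2 : 2 ≤ E := by linarith [Y.DE27 (i := 1) (by norm_num), Y.qD4]

theorem qDF : c.D ^ 450 * S.F ^ 4 ≤ E := by
  have E0 : 0 ≤ E := by linarith [Y.qE2]
  refine le_of_pow_le_pow_left₀ (n := 10) (by norm_num) E0 ?_
  rw [mul_pow, ← pow_mul, ← pow_mul, show 450 * 10 = 500 * 9 from rfl, pow_mul, pow_succ E 9]
  exact mul_le_mul (pow_le_pow_left₀ (pow_pos Y.qD0 _).le Y.cw.DE 9) Y.hx.F40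
    (pow_pos Y.qF0 _).le (pow_nonneg E0 _)
theorem qDF' {i j : ℕ} (hi : i ≤ 450) (hj : j ≤ 4) : c.D ^ i * S.F ^ j ≤ E :=
  (mul_le_mul (Y.qDp hi) (Y.qFp hj) (pow_pos Y.qF0 _).le (pow_pos Y.qD0 _).le).trans Y.qDF

theorem tm27 : Tm12 E S M c.p := tm12 Y.tw Y.hx Y.cw.θ1 Y.qE2
theorem at27 : X48.At48 E S M m c.p := X48.at48 Y.A27 Y.hx Y.qE2 Y.cw.θ1

theorem qX40 : 0 ≤ c.X4 := by
  have h := Y.cl27
  have C0 := h.C0
  have t4 : c.t4 ≤ S.C := by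
    rcases le_total c.t4 0 with q | q
    · linarith
    · linarith [Y.t4, mul_le_mul_of_nonneg_right Y.qE2 q]
  refine le_trans ?_ (Y.l4 S.C t4 le_rfl)
  have V0 := Y.hx.ln.V0
  have X0 := Y.hx.ln.X0
  have c0 : 0 ≤ cl S c.p.V S.C := by
    have := Ab33.cr_one S S.C
    unfold cl; positivity
  have w0 : 0 ≤ ws S c.p.V S.C ^ ((3 : ℝ) / 2) := by
    rcases le_total 0 (ws S c.p.V S.C) with q | q
    · positivity
    · rcases q.eq_or_lt with q | q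
      · rw [q]; positivity
      · rw [rpow_def_of_neg q, show (3 : ℝ) / 2 * π = π / 2 + π by ring, cos_add_pi, cos_pi_div_two]
        simp
  have : 0 ≤ min c.p.X (cl S c.p.V S.C ^ 3) := le_min X0.le (by positivity)
  positivity

theorem qcB0 : 0 ≤ cB M S c.p.η c.t4 S.C := Finset.sum_nonneg fun k _ => by
  have h := Y.cl27
  have := div_pos (h.ms_pos (h.s_nn k)) Y.qF0
  have := Ab33.cr_one S (M.s k)
  have := Ap63.w_nn h.leg.zm k
  have : 0 ≤ min (|M.G k| ^ ((4 : ℝ) / 3)) (M.G k ^ 2 / mf S (M.s k)) :=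
    le_min (by positivity) (by unfold mf; positivity)
  unfold mf dx at *
  positivity

theorem qN0_Nn : X48.N0 c.p + 1 / (S.n : ℝ) ^ 3 ≤ Nn S M c.p c.X4 c.t4 := by
  unfold X48.N0 Nn; linarith [Y.qX40, Y.qcB0]
theorem qN0_le : X48.N0 c.p ≤ Nn S M c.p c.X4 c.t4 := by
  have := Y.cl27.N0
  have : 0 ≤ 1 / (S.n : ℝ) ^ 3 := by positivity
  linarith [Y.qN0_Nn]
theorem qN_le : c.p.N ≤ Nn S M c.p c.X4 c.t4 := Y.at27.N_le.1.trans Y.qN0_le
theorem qNn0 : 0 < Nn S M c.p c.X4 c.t4 := Y.tm27.N0.trans_le Y.qN_le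
theorem qNb0 : 0 < Nb S M c := mul_pos (pow_pos Y.qF0 _) Y.qNn0
/-- anything below `Nn` times a power of `F` is below `Nb` -/
theorem qFNb {j : ℕ} (hj : j ≤ 10) {y : ℝ} (hy : y ≤ Nn S M c.p c.X4 c.t4) :
    S.F ^ j * y ≤ Nb S M c :=
  (mul_le_mul_of_nonneg_left hy (pow_pos Y.qF0 _).le).trans
    (mul_le_mul_of_nonneg_right (Y.qFp hj) Y.qNn0.le)
theorem qDNb {i j : ℕ} (h : i ≤ j) : c.D ^ i * Nb S M c ≤ c.D ^ j * Nb S M c :=
  mul_le_mul_of_nonneg_right (Y.qDp h) Y.qNb0.le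

theorem qtc0 : 0 < tc S c := mul_pos Y.qF0 (by linarith [Y.tw.τ0, Y.tw.γ0])
theorem qtu0 : 0 < tu S c.p := Y.tm27.t0.trans_le Y.tm27.mu
theorem qtc_tu : tc S c ≤ S.F * tu S c.p := mul_le_mul_of_nonneg_left Y.tm27.cu Y.qF0.le

/-- a margin of size `D ^ k F ^ j tu` is small -/
theorem qsmall {k j i : ℕ} {t : ℝ} (h : t ≤ c.D ^ k * S.F ^ j * tu S c.p) (hk : i + k < 450)
    (hj : j ≤ 4) : c.D ^ i * t ≤ 1 := by
  have a := Y.qDF' (i := i + k + 1) (j := j) hk hj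
  have b := mul_le_mul_of_nonneg_right a Y.qtu0.le
  have d := mul_le_mul_of_nonneg_left h (pow_pos Y.qD0 i).le
  have e : 0 ≤ c.D ^ i * (c.D ^ k * S.F ^ j * tu S c.p) :=
    (mul_pos (pow_pos Y.qD0 _) (mul_pos (mul_pos (pow_pos Y.qD0 _) (pow_pos Y.qF0 _)) Y.qtu0)).le
  have f := mul_le_mul_of_nonneg_right Y.qD4 e
  have g : c.D ^ (i + k + 1) * S.F ^ j * tu S c.p =
      c.D * (c.D ^ i * (c.D ^ k * S.F ^ j * tu S c.p)) := by ring
  linarith [Y.tm27.Et]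

/-- **the costs of a margin** of size `D ^ k F ^ j tu`, `j ≤ 2` -/
theorem qmar {k j : ℕ} {t : ℝ} (t0 : 0 ≤ t) (h : t ≤ c.D ^ k * S.F ^ j * tu S c.p) (hk : k < 450)
    (hj : j ≤ 2) : t ≤ 1 ∧ S.θ * t ^ 3 ≤ c.D ^ (3 * k + 1) * Nb S M c ∧
      t ^ 5 ≤ c.D ^ (5 * k + 1) * Nb S M c ∧ t ^ 6 ≤ c.D ^ (5 * k + 1) * Nb S M c ∧
      S.θ * c.p.γ * t ≤ c.D ^ (k + 1) * Nb S M c ∧ t ^ 9 ≤ (c.D ^ (5 * k + 1) * Nb S M c) ^ 2 := by
  have D0 := Y.qD0
  have F0 := Y.qF0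
  have N0 := Y.tm27.N0
  have B0 := Y.qNb0
  have t1 : t ≤ 1 := by simpa using Y.qsmall (i := 0) h (by omega) (by omega)
  obtain ⟨-, a1, -, a3, a4⟩ := Y.tm27.mar Y.cl27 Y.tw.γ0 (by positivity) t0 h
  have kk : ∀ (r : ℝ) (i l : ℕ), 0 ≤ r → r ≤ 10000 → l ≤ 10 →
      r * c.D ^ i * (S.F ^ l * c.p.N) ≤ c.D ^ (i + 1) * Nb S M c := fun r i l r0 r1 hl =>
    mul_le_mul (Y.qDs r1 (Nat.lt_succ_self i)) (Y.qFNb hl Y.qN_le) (by positivity) (by positivity)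
  have b9 : t ^ 9 ≤ (c.D ^ (5 * k + 1) * Nb S M c) ^ 2 := by
    refine a3.trans (le_trans ?_ (pow_le_pow_left₀ (by positivity)
      (kk 141 (5 * k) (5 * j) (by norm_num) (by norm_num) (by omega)) 2))
    have q : (c.D ^ k * S.F ^ j) ^ 9 ≤ (c.D ^ k * S.F ^ j) ^ 10 := pow_le_pow_right₀
      (one_le_mul_of_one_le_of_one_le (one_le_pow₀ Y.qD1) (one_le_pow₀ Y.cl27.F1)) (by norm_num)
    calc _ ≤ 141 ^ 2 * (c.D ^ k * S.F ^ j) ^ 10 * c.p.N ^ 2 := by gcongr; norm_num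
      _ = _ := by ring
  have b5 : t ^ 5 ≤ c.D ^ (5 * k + 1) * Nb S M c := by
    refine le_of_pow_le_pow_left₀ two_ne_zero (by positivity) (le_trans ?_ b9)
    rw [← pow_mul]
    exact pow_le_pow_of_le_one t0 t1 (by norm_num)
  refine ⟨t1, a1.trans (le_trans (le_of_eq ?_) (kk 27 (3 * k) (3 * j) (by norm_num) (by norm_num)
    (by omega))), b5, (pow_le_pow_of_le_one t0 t1 (by norm_num)).trans b5,
    a4.trans (le_trans (le_of_eq ?_) (kk 3 k (j + 1) (by norm_num) (by norm_num) (by omega))), b9⟩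
  · ring
  · ring



end Cy

end Crest.Agent.T156.Alt.X84

end
end

-- ▼ part T156/TxBn_7
section

/-!
Row 156, block (L) (helper7): the cost lines of zone I.
-/

set_option autoImplicit false

noncomputable section

namespace Crest.Agent.T156.Alt.X84

open Set Real
open Crest.Agent.T156.Alt.Mp9 Crest.Agent.T156.Alt.L69 Crest.Agent.T156.Alt.L31

variable {E : ℝ} {S : Sc} {M : Md} {m : ℕ} {a : ℝ} {c : Dt}

/-- `p.N` is below the unit of the costs -/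
theorem Cy.N_le7 (Y : Cy E S M m a c) : S.F ^ 10 * c.p.N ≤ Nb S M c := by
  have h := Y.tw.at'.cl
  have C0 := h.C0
  have F1 := h.F1
  have E1 : 1 ≤ E := (one_le_pow₀ Y.cw.D1).trans Y.cw.DE
  have t4 : c.t4 ≤ S.C := by
    by_contra hc
    have := not_le.1 hc
    nlinarith [Y.t4]
  have x0 : 0 ≤ c.X4 := by
    refine le_trans ?_ (Y.l4 S.C t4 le_rfl)
    have c1 : 0 ≤ cl S c.p.V S.C :=
      add_nonneg (mul_nonneg (zero_le_one.trans (le_max_left _ _)) C0.le) Y.hx.ln.V0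
    have w : 0 ≤ S.w3 S.C := div_nonneg (by linarith)
      (mul_nonneg (mul_nonneg h.N0.le C0.le) (h.ms_pos C0.le).le)
    have : 0 ≤ ws S c.p.V S.C := mul_nonneg (div_nonneg c1 C0.le) (rpow_nonneg w _)
    have : 0 ≤ min c.p.X (cl S c.p.V S.C ^ 3) := le_min Y.hx.ln.X0.le (by positivity)
    positivity
  have c0 : 0 ≤ cB M S c.p.η c.t4 S.C := Finset.sum_nonneg fun k _ =>
    mul_nonneg (L25.dx_nn h k) (add_nonneg (mul_nonneg (zero_le_one.trans (le_max_left _ _))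
      (div_nonneg (sq_nonneg _) (L25.mf_pos' h (h.s_nn k)).le))
      (le_min (by positivity) (div_nonneg (sq_nonneg _) (L25.mf_pos' h (h.s_nn k)).le)))
  have n0 := h.N0
  have : 0 ≤ 1 / (S.n : ℝ) ^ 3 := by positivity
  exact mul_le_mul_of_nonneg_left (by unfold Nn; linarith [sq_nonneg c.p.X2]) (by positivity)

theorem yg7 {u y : ℝ} (u0 : 0 ≤ u) (y0 : 0 ≤ y) : u ^ 2 * y ^ 3 ≤ u ^ 5 + y ^ 5 := by
  rcases le_total y u with h | h
  · linarith [mul_le_mul_of_nonneg_left (pow_le_pow_left₀ y0 h 3) (sq_nonneg u), pow_nonneg y0 5]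
  · linarith [mul_le_mul_of_nonneg_right (pow_le_pow_left₀ u0 h 2) (pow_nonneg y0 3),
      pow_nonneg u0 5]

/-- the floor `μ`, the mesh and the fifth power of the unit -/
theorem Cy.base7 (Y : Cy E S M m a c) {μ : ℝ} (hμ : μ = At.e48 S / (384 * S.C ^ 4 * S.F)) :
    0 < μ ∧ μ ≤ S.θ ∧ S.θ ≤ c.D ^ 2 * S.F * μ ∧ S.C * S.v ≤ c.p.N ∧ S.C * S.v ≤ c.p.τ ∧
      tu S c.p ^ 5 ≤ 243 * c.p.N := by
  have A := Y.tw.at'
  have h := A.cl
  have C0 := h.C0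
  have C1 := h.C1
  have F1 := h.F1
  have θ0 := h.θ0
  have θ1 := Y.cw.θ1
  have n0 := h.N0
  have n1 : (1 : ℝ) ≤ S.n := by exact_mod_cast h.n1
  have CD := Y.cw.Z.CD
  have c10 : 1 ≤ S.C ^ 10 := one_le_pow₀ C1
  have DE : c.D ≤ E := (le_self_pow₀ Y.cw.D1 (by norm_num)).trans Y.cw.DE
  have B := X48.at48 A Y.hx (by linarith) θ1
  have U := tm12 Y.tw Y.hx θ1 (by linarith)
  obtain ⟨t0, -, e0, -, e2⟩ := A.e_pack θ1
  have c4 : 1 ≤ S.C ^ 4 := one_le_pow₀ C1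
  have q1 : 1 ≤ 384 * S.C ^ 4 * S.F := by nlinarith
  have e3 : At.e48 S ≤ S.θ := (div_le_self (A.ms_pos t0.le).le C1).trans (h.ms1 _)
  have μ0 : 0 < μ := by rw [hμ]; positivity
  have e4 : At.e48 S = 384 * S.C ^ 4 * S.F * μ := by rw [hμ]; field_simp
  have vn : S.C * S.v ≤ 1 / S.n := by
    rw [le_div_iff₀ n0]
    have := mul_le_mul_of_nonneg_left (le_self_pow₀ n1 two_ne_zero) (mul_pos C0 h.v0).le
    linarith [Y.cw.Z.hv]
  refine ⟨μ0, (hμ ▸ div_le_self e0.le q1).trans e3, ?_, vn.trans ?_, vn.trans (B.a7.1.trans ?_), ?_⟩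
  · have a1 : S.C ^ 11 ≤ S.C ^ 20 := pow_le_pow_right₀ C1 (by norm_num)
    have a2 := pow_le_pow_left₀ (by positivity) CD 2
    have a3 : 221184 * S.C ^ 11 ≤ c.D ^ 2 := by linarith [pow_pos C0 11]
    rw [e4] at e2
    linarith [mul_le_mul_of_nonneg_right a3 (show 0 ≤ S.F * μ by positivity)]
  · have m0 := h.ms_pos zero_le_one
    have a1 : 1 / (S.n : ℝ) ≤ S.θ * S.w3 1 := by
      rw [Sc.w3, ← mul_div_assoc, div_le_div_iff₀ n0 (by positivity)]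
      have := mul_le_mul (h.ms1 1) F1 zero_le_one θ0.le
      nlinarith
    have a2 := mul_le_mul_of_nonneg_left Y.hx.lp.tw θ0.le
    have a3 := mul_pos θ0 (pow_pos Y.hx.lp.u0 3)
    linarith [Y.hx.lc.c3]
  · have L0 : 0 < c.p.Lc := by linarith [Y.tw.EL, Y.hx.lp.Lc1.1]
    have a1 : 0 ≤ c.p.Xp ^ ((1 : ℝ) / 3) / c.p.Lc :=
      div_nonneg (rpow_nonneg Y.hx.lp.Xp0.1.le _) L0.le
    have a2 : c.p.ηc ≤ c.p.τ * mf S 1 := (div_le_iff₀ U.m0).1 (by linarith [Y.hx.lp.τ0])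
    exact a2.trans (mul_le_of_le_one_right B.τ0 (B.m0.2.trans θ1))
  · have t0 := U.t0.le.trans U.mu
    have t3 : tu S c.p ≤ 3 := by nlinarith [U.Et]
    refine (pow_le_pow_iff_left₀ (by positivity) (by linarith [U.N0]) two_ne_zero).1 ?_
    linarith [mul_le_mul t3 U.c9 (by positivity) (by norm_num)]

/-- the cost lines of `ZI.z1e` -/
structure NL7 (S : Sc) (M : Md) (c : Dt) (μ ν N : ℝ) : Prop where
  n1 : S.C * S.v ≤ N
  n1' : S.C * S.v ≤ 1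
  hτ : 2 * (S.C * S.v) ≤ c.D ^ 44 * tc S c
  n2 : 2 * S.C ^ 5 * S.θ ^ 2 * S.v ^ 2 + S.C ^ 2 * GS M S (1 / (8 * S.C ^ 2)) S.C ≤ μ * N
  n4 : (μ + ν ^ 2) * (S.C * S.v + (c.D ^ 45 * tc S c + c.K * t1 S c.p + S.C * S.v)) ^ 3 ≤ N
  n5 : μ * ((c.D ^ 44 * tc S c) ^ 3 + c.p.γ ^ 3) ≤ N
  n6 : ν ^ 5 ≤ N
  n7 : (c.D ^ 44 * tc S c) ^ 5 + c.p.γ ^ 5 ≤ N

theorem Cy.nl7 (Y : Cy E S M m a c) {μ ν N : ℝ} (hμ : μ = At.e48 S / (384 * S.C ^ 4 * S.F))
    (ν0 : 0 ≤ ν) (hN : ν ^ 5 + c.D ^ 232 * (S.F ^ 5 * c.p.N) ≤ N) : NL7 S M c μ ν N := by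
  obtain ⟨μ0, μ1, μ2, v1, v2, t5⟩ := Y.base7 hμ
  have A := Y.tw.at'
  have h := A.cl
  have C0 := h.C0
  have C1 := h.C1
  have F1 := h.F1
  have θ0 := h.θ0
  have θ1 := Y.cw.θ1
  have CD := Y.cw.Z.CD
  have D1 := Y.cw.D1
  have c10 : 1 ≤ S.C ^ 10 := one_le_pow₀ C1
  have DE : c.D ≤ E := (le_self_pow₀ D1 (by norm_num)).trans Y.cw.DE
  have B := X48.at48 A Y.hx (by linarith) θ1
  have U := tm12 Y.tw Y.hx θ1 (by linarith)
  have N0 := U.N0
  have cv := mul_pos C0 h.v0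
  have γ0 := B.γ0.1
  have τ0 := B.τ0
  have t0 := U.t0.le.trans U.mu
  have tc0 : 0 ≤ tc S c := by unfold tc; positivity
  have tc1 : tc S c ≤ S.F * tu S c.p := mul_le_mul_of_nonneg_left U.cu (by linarith)
  have tc2 : c.p.τ ≤ tc S c := le_trans (by linarith) (le_mul_of_one_le_left (by linarith) F1)
  have t11 : t1 S c.p ≤ S.F * tu S c.p :=
    U.t1.trans (mul_le_mul_of_nonneg_left U.mu (by linarith))
  have K0 : 0 ≤ c.K := by linarith [Y.hx.l1, Y.lK]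
  have p44 : c.D ≤ c.D ^ 44 := le_self_pow₀ D1 (by norm_num)
  have p45 : c.D ^ 44 ≤ c.D ^ 45 := pow_le_pow_right₀ D1 (by norm_num)
  have p46 : 4 * c.D ^ 45 ≤ c.D ^ 46 := by
    rw [pow_succ' c.D 45]; exact mul_le_mul_of_nonneg_right (by linarith) (by positivity)
  have f0 : 0 ≤ S.F * tu S c.p := by positivity
  have k1 : S.C * S.v + (c.D ^ 45 * tc S c + c.K * t1 S c.p + S.C * S.v) ≤
      c.D ^ 46 * S.F * tu S c.p := by
    have a1 := mul_le_mul_of_nonneg_left tc1 (show 0 ≤ c.D ^ 45 by positivity)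
    have a2 := mul_le_mul (Y.KD.trans (p44.trans p45)) t11 Y.tw.t0 (by positivity)
    have a3 := mul_le_mul_of_nonneg_right (D1.trans (p44.trans p45)) f0
    have a4 := mul_le_mul_of_nonneg_right p46 f0
    linarith
  have k2 : c.D ^ 44 * tc S c ≤ c.D ^ 46 * S.F * tu S c.p := by
    have a1 := mul_le_mul_of_nonneg_right p45 tc0
    linarith [mul_nonneg K0 Y.tw.t0]
  have W1 : 1 ≤ c.D ^ 46 * S.F := one_le_mul_of_one_le_of_one_le (one_le_pow₀ D1) F1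
  have hW : 300 * ((c.D ^ 46 * S.F) ^ 5 * c.p.N) ≤ c.D ^ 232 * (S.F ^ 5 * c.p.N) :=
    calc _ = 300 * (c.D ^ 230 * (S.F ^ 5 * c.p.N)) := by ring
      _ ≤ c.D ^ 2 * (c.D ^ 230 * (S.F ^ 5 * c.p.N)) :=
        mul_le_mul_of_nonneg_right (by nlinarith) (by positivity)
      _ = _ := by ring
  have hD : c.D ^ 3 * S.F ≤ c.D ^ 46 * S.F :=
    mul_le_mul_of_nonneg_right (pow_le_pow_right₀ D1 (by norm_num)) (by linarith)
  have k0 : 0 ≤ S.C * S.v + (c.D ^ 45 * tc S c + c.K * t1 S c.p + S.C * S.v) := by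
    have := Y.tw.t0
    positivity
  have k0' : 0 ≤ c.D ^ 44 * tc S c := by positivity
  have hτ : 2 * (S.C * S.v) ≤ c.D ^ 44 * tc S c := by
    linarith [mul_le_mul_of_nonneg_right (show 2 ≤ c.D ^ 44 by linarith) tc0]
  generalize c.D ^ 46 * S.F = W at *
  have ν5 := pow_nonneg ν0 5
  have w1 : c.p.N ≤ W * c.p.N := le_mul_of_one_le_left N0.le W1
  have w3 : W * c.p.N ≤ W ^ 3 * c.p.N :=
    mul_le_mul_of_nonneg_right (le_self_pow₀ W1 (by norm_num)) N0.le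
  have w5 : W ^ 3 * c.p.N ≤ W ^ 5 * c.p.N :=
    mul_le_mul_of_nonneg_right (pow_le_pow_right₀ W1 (by norm_num)) N0.le
  have key : ∀ y, 0 ≤ y → y ≤ W * tu S c.p →
      μ * y ^ 3 ≤ 27 * (W ^ 3 * c.p.N) ∧ y ^ 5 ≤ 243 * (W ^ 5 * c.p.N) := fun y y0 y1 =>
    ⟨by linarith [(U.mar h γ0 (by linarith) y0 y1).2.1,
      mul_le_mul_of_nonneg_right μ1 (pow_nonneg y0 3)],
    by linarith [pow_le_pow_left₀ y0 y1 5,
      mul_le_mul_of_nonneg_left t5 (show 0 ≤ W ^ 5 by positivity)]⟩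
  have v3 : S.C * S.v ≤ 1 := by nlinarith [U.cu, U.Et]
  have g3 := U.γ3
  have z0 : 0 ≤ W ^ 5 * c.p.N := by positivity
  obtain ⟨a1, a2⟩ := key _ k0 k1
  obtain ⟨b1, b2⟩ := key _ k0' k2
  refine ⟨by linarith, v3, hτ, ?_, by linarith [yg7 ν0 k0], ?_, by linarith, ?_⟩
  · obtain ⟨g0, -, g1, -⟩ := B.Ga0
    unfold X48.Ga at g1
    have c2 : S.C ^ 2 ≤ S.C ^ 10 := pow_le_pow_right₀ C1 (by norm_num)
    have c3 : S.C ^ 3 ≤ S.C ^ 10 := pow_le_pow_right₀ C1 (by norm_num)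
    have y0 : 0 ≤ S.θ * c.p.N := by positivity
    have e1 : S.θ * (S.C * S.v) * (S.θ * (S.C * S.v)) ≤ S.θ * c.p.N * 1 :=
      mul_le_mul (mul_le_mul_of_nonneg_left v1 θ0.le) (mul_le_one₀ θ1 cv.le v3) (by positivity) y0
    have e2 := mul_le_mul c3 e1 (by positivity) (by positivity)
    have e3 := mul_le_mul_of_nonneg_left (show GS M S (1 / (8 * S.C ^ 2)) S.C ≤ S.θ * c.p.N by
      linarith) (sq_nonneg S.C)
    have e4 := mul_le_mul_of_nonneg_right c2 y0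
    have e5 := mul_le_mul_of_nonneg_right (show 3 * S.C ^ 10 ≤ c.D by linarith) y0
    have e6 := mul_le_mul_of_nonneg_left μ2 (show 0 ≤ c.D * c.p.N by positivity)
    have e7 := mul_le_mul_of_nonneg_right hD (show 0 ≤ μ * c.p.N by positivity)
    have e8 := mul_le_mul_of_nonneg_left (show W * c.p.N ≤ N by linarith) μ0.le
    linarith
  · linarith [mul_le_mul_of_nonneg_right (μ1.trans θ1) (pow_nonneg γ0 3)]
  · linarith [pow_le_pow_of_le_one γ0 B.γ0.2 (show 3 ≤ 5 by norm_num)]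

/-- the same with the unit `Nb` -/
theorem Cy.nl7' (Y : Cy E S M m a c) {μ ν N : ℝ} (hμ : μ = At.e48 S / (384 * S.C ^ 4 * S.F))
    (ν0 : 0 ≤ ν) (hN : ν ^ 5 + c.D ^ 232 * Nb S M c ≤ N) : NL7 S M c μ ν N := by
  have F1 := Y.tw.at'.cl.F1
  have D1 := Y.cw.D1
  have N0 : 0 ≤ c.p.N := by
    have := (Y.base7 hμ).2.2.2.1
    linarith [mul_pos Y.tw.at'.cl.C0 Y.tw.at'.cl.v0]
  have a1 := (mul_le_mul_of_nonneg_right (pow_le_pow_right₀ F1 (show 5 ≤ 10 by norm_num))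
    N0).trans Y.N_le7
  exact Y.nl7 hμ ν0 (by
    linarith [mul_le_mul_of_nonneg_left a1 (show 0 ≤ c.D ^ 232 by positivity)])

end Crest.Agent.T156.Alt.X84

end
end

-- ▼ part T156/TxBe_49
section

/-!
Row 156, block (L) (helper49): crude size of the slow error and the width `τ` of zone I.
-/

set_option autoImplicit false

noncomputable section

namespace Crest.Agent.T156.Alt.X84

open Set Real
open Crest.Agent.T156.Alt.Mp9 Crest.Agent.T156.Alt.L69 Crest.Agent.T156.Alt.L31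
open Crest.Agent.T156.Pr.Reg48 (Sm)

/-- the width `τ` of the line `h0` -/
theorem h0_tau {θ μ ν W N x : ℝ} (θ0 : 0 < θ) (μ0 : 0 < μ) (W1 : 1 ≤ W) (hμ : θ ≤ W * μ)
    (N0 : 0 ≤ N) (ν0 : 0 ≤ ν) (hν : min 1 N ≤ ν ^ 5) (x0 : 0 ≤ x) (xW : x ≤ W)
    (h : Sm θ 1 N 1 x) : ∃ τ, 0 ≤ τ ∧ x ≤ (μ + ν ^ 2) * τ ∧ (μ + ν ^ 2) * τ ^ 3 ≤ W ^ 3 * N := by
  have q0 : 0 < μ + ν ^ 2 := by positivity
  have W0 : 0 < W := by linarith
  have W3 : 1 ≤ W ^ 3 := one_le_pow₀ W1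
  have n4 : ν ^ 4 ≤ (μ + ν ^ 2) ^ 2 := by nlinarith [mul_nonneg μ0.le (sq_nonneg ν)]
  have key : x ^ 3 ≤ W ^ 3 * N * (μ + ν ^ 2) ^ 2 := by
    rcases le_total 1 N with a | a
    · rw [min_eq_left a] at hν
      have b : 1 ≤ ν := (one_le_pow_iff_of_nonneg ν0 (by norm_num)).1 hν
      have b4 : 1 ≤ (μ + ν ^ 2) ^ 2 := (one_le_pow₀ b).trans n4
      exact ((pow_le_pow_left₀ x0 xW 3).trans (le_mul_of_one_le_right (by positivity) a)).trans
        (le_mul_of_one_le_right (by positivity) b4)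
    rw [min_eq_right a] at hν
    have b : N ≤ ν ^ 4 := by
      rcases le_total ν 1 with c | c
      · exact hν.trans (pow_le_pow_of_le_one ν0 c (by norm_num))
      · exact a.trans (one_le_pow₀ c)
    have c3 : x ^ 3 ≤ N ^ 2 → x ^ 3 ≤ W ^ 3 * N * (μ + ν ^ 2) ^ 2 := fun c => by
      have d1 := mul_le_mul_of_nonneg_left (b.trans n4) N0
      have d2 := mul_le_mul_of_nonneg_right W3 (show 0 ≤ N * (μ + ν ^ 2) ^ 2 by positivity)
      linarith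
    rcases h with h | h | h
    · rw [le_antisymm h x0]; norm_num; positivity
    · rcases le_total N θ with c | c
      · have d1 : x ≤ θ := (sq_le_sq₀ x0 θ0.le).1 (by nlinarith)
        have d2 : x ^ 3 ≤ θ ^ 2 * N := by nlinarith [mul_le_mul d1 h (by positivity) θ0.le]
        have d3 : θ ^ 2 ≤ W ^ 3 * (μ + ν ^ 2) ^ 2 := by
          have e1 : θ ≤ W * (μ + ν ^ 2) := by nlinarith [mul_nonneg W0.le (sq_nonneg ν)]
          have e2 := pow_le_pow_left₀ θ0.le e1 2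
          have e3 := mul_le_mul_of_nonneg_right (pow_le_pow_right₀ W1 (show 2 ≤ 3 by norm_num))
            (sq_nonneg (μ + ν ^ 2))
          linarith
        linarith [mul_le_mul_of_nonneg_right d3 N0]
      · have d1 : x ≤ N := (sq_le_sq₀ x0 N0).1 (by nlinarith)
        refine c3 ((pow_le_pow_left₀ x0 d1 3).trans (pow_le_pow_of_le_one N0 a (by norm_num)))
    · exact c3 (by linarith)
  refine ⟨x / (μ + ν ^ 2), by positivity, by rw [mul_div_cancel₀ _ q0.ne'], ?_⟩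
  rw [show (μ + ν ^ 2) * (x / (μ + ν ^ 2)) ^ 3 = x ^ 3 / (μ + ν ^ 2) ^ 2 by field_simp,
    div_le_iff₀ (by positivity)]
  exact key


variable {E : ℝ} {S : Sc} {M : Md} {m : ℕ} {a : ℝ} {c : Dt}

theorem Cy.E16 (Y : Cy E S M m a c) (hD : 16 * S.C ≤ c.D) : 16 ≤ c.D ∧ c.D ≤ E := by
  have C1 := Y.tw.at'.cl.C1
  exact ⟨by linarith, (le_self_pow₀ (by linarith) (by norm_num)).trans Y.cw.DE⟩

/-- crude size of the slow error -/
theorem Cy.bE_crude (Y : Cy E S M m a c) (hD : 16 * S.C ≤ c.D) {s : ℝ} (hs : s ∈ Icc 0 (2 * S.C)) :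
    0 ≤ bE S M m a c.p s ∧ bE S M m a c.p s ≤ c.D ∧ c.K * bE S M m a c.p s ≤ c.D ^ 2 := by
  have A := Y.tw.at'
  have C1 := A.cl.C1
  obtain ⟨d1, d2⟩ := Y.E16 hD
  have B := X48.at48 A Y.hx (by linarith) Y.cw.θ1
  have U := tm12 Y.tw Y.hx Y.cw.θ1 (by linarith)
  have m1 : mf S 1 ≤ 1 := B.m0.2.trans Y.cw.θ1
  have e1 : c.p.η 1 ≤ 1 := by
    have a1 : c.p.η 1 / mf S 1 ≤ tu S c.p := by linarith [U.τη, U.mu, B.τ0]
    have a2 : tu S c.p ≤ 1 := by nlinarith [U.Et, U.t0, U.mu]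
    exact ((div_le_one U.m0).1 (a1.trans a2)).trans m1
  have e2 : G89.Ug S c.p.Lg 1 ^ 2 ≤ 1 := by nlinarith [B.ug.2, sq_nonneg (G89.Ug S c.p.Lg 1)]
  have p := L0.Gd_le (Spl27.ap_of_ok A.okb.1) (t := s) (by rw [A.okb.2]; exact hs)
  have q := L0.Gd_ge A.okb.1.1 s
  have r := Pp.Ode3.lvr_le_one A.okb.1.1 s
  have e3 : |L0.Gd (lb M S m a (2 * S.C)) s| ≤ 8 * S.C + 2 :=
    abs_le.2 ⟨by linarith, by linarith [hs.2]⟩
  have e4 : |uu M S m a (2 * S.C) s| ≤ 1 := Sc48.lvr_sub_le A.okh.1.1 A.okb.1.1 s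
  have g0 := abs_nonneg (L0.Gd (lb M S m a (2 * S.C)) s)
  have u0 := abs_nonneg (uu M S m a (2 * S.C) s)
  have b0 : 0 ≤ bE S M m a c.p s := by
    have := B.η0
    have := B.X0.1
    unfold bE; positivity
  have b1 : bE S M m a c.p s ≤ c.D := by
    have a1 := mul_le_of_le_one_left (add_nonneg g0 u0) e2
    have a2 := mul_le_of_le_one_left u0 B.X0.2
    unfold bE; linarith
  exact ⟨b0, b1, by rw [sq]; exact mul_le_mul Y.KD b1 b0 (by linarith)⟩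

/-- the slow error is small -/
theorem Cy.bE_E (Y : Cy E S M m a c) (hD : 16 * S.C ≤ c.D) {s : ℝ} (hs : s ∈ Icc 0 (2 * S.C)) :
    E * (c.K * bE S M m a c.p s) ≤ c.D ^ 2 := by
  have A := Y.tw.at'
  have C1 := A.cl.C1
  have F1 := A.cl.F1
  obtain ⟨d1, d2⟩ := Y.E16 hD
  have E0 : 0 ≤ E := by linarith
  have B := X48.at48 A Y.hx (by linarith) Y.cw.θ1
  have U := tm12 Y.tw Y.hx Y.cw.θ1 (by linarith)
  have m1 : mf S 1 ≤ 1 := B.m0.2.trans Y.cw.θ1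
  have e1 : E * c.p.η 1 ≤ 3 := by
    have a1 : c.p.η 1 / mf S 1 ≤ tu S c.p := by linarith [U.τη, U.mu, B.τ0]
    have a2 : c.p.η 1 ≤ c.p.η 1 / mf S 1 := le_div_self B.η0 U.m0 m1
    linarith [U.Et, mul_le_mul_of_nonneg_left (a2.trans a1) E0]
  have e2 : E * G89.Ug S c.p.Lg 1 ^ 2 ≤ 1 := B.ug.2.trans m1
  have e5 : E * c.p.X2 ≤ 1 := (Y.hx.ln.th3.trans (div_le_div_of_nonneg_right
    (A.cl.msm Y.tw.l1) (by linarith))).trans m1
  have p := L0.Gd_le (Spl27.ap_of_ok A.okb.1) (t := s) (by rw [A.okb.2]; exact hs)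
  have q := L0.Gd_ge A.okb.1.1 s
  have r := Pp.Ode3.lvr_le_one A.okb.1.1 s
  have e3 : |L0.Gd (lb M S m a (2 * S.C)) s| ≤ 8 * S.C + 2 :=
    abs_le.2 ⟨by linarith, by linarith [hs.2]⟩
  have e4 : |uu M S m a (2 * S.C) s| ≤ 1 := Sc48.lvr_sub_le A.okh.1.1 A.okb.1.1 s
  have g0 := abs_nonneg (L0.Gd (lb M S m a (2 * S.C)) s)
  have u0 := abs_nonneg (uu M S m a (2 * S.C) s)
  have b1 : E * bE S M m a c.p s ≤ c.D := by
    have a1 := mul_le_of_le_one_left (add_nonneg g0 u0) e2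
    have a2 := mul_le_of_le_one_left u0 e5
    unfold bE; linarith
  have b2 := mul_le_mul Y.KD b1 (mul_nonneg E0 (Y.bE_crude hD hs).1) (by linarith)
  linarith

theorem Nd.sb_mem {v v1 v2 : ℕ} (N : Nd S M m a c v v1 v2) (Y : Cy E S M m a c) :
    sb M m a (v + 1) ∈ Icc 0 (2 * S.C) :=
  Y.tw.at'.sb_mem (by
    have := N.o1; have := N.o2; have := N.mg.1; have := Y.tw.at'.cl.i3; omega)

/-- the slow error at the last node of the bulk -/
theorem Cy.KbE_one {v v1 v2 : ℕ} (Y : Cy E S M m a c) (hD : 16 * S.C ≤ c.D)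
    (N : Nd S M m a c v v1 v2) : c.K * bE S M m a c.p (sb M m a (v + 1)) ≤ 1 := by
  obtain ⟨d1, d2⟩ := Y.E16 hD
  have b := (Y.bE_E hD (N.sb_mem Y)).trans
    ((pow_le_pow_right₀ (by linarith) (by norm_num)).trans Y.cw.DE)
  exact le_of_mul_le_mul_left (by linarith) (show 0 < E by linarith)

end Crest.Agent.T156.Alt.X84

end
end

-- ▼ part T156/TxZI_87
section

/-!
# Row 156, block (L): the net of zone I from the corner context (helper87)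
-/

set_option autoImplicit false

noncomputable section

namespace Crest.Agent.T156.Alt.G89

open Real Finset
open Crest.Agent.T156.Alt.E61 Crest.Agent.T156.Alt.Mp9 Crest.Agent.T156.Alt.Sz9
open Crest.Agent.T156.Alt.L69 (LN cr cl mf uw gg Phi)
open Crest.Agent.T156.Alt.Nd22 (U)

/-- uniform error of the corner net -/
def ecC (D ψ : ℝ) (S : Sc) (η : ℝ → ℝ) (Lc ηc γ : ℝ) : ℝ :=
  D ^ 29 * ψ ^ 6 * (ηc + η 1 + U S Lc 1 ^ 2 * γ)
/-- error per time -/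
def laC (D : ℝ) (S : Sc) (X2 ρ : ℝ) : ℝ := D ^ 4 * (X2 + √(ρ * S.w3 1))
/-- error per label -/
def alC (D ψ : ℝ) (S : Sc) (Lc : ℝ) : ℝ := D ^ 16 * ψ ^ 4 * U S Lc 1 ^ 2

namespace Cc

variable {D E Λ L ψ : ℝ} {S : Sc} {M : Md} {m : ℕ} {a T G1 l0 l V X Lg X2 X3 G0 W3 : ℝ}
  {η : ℝ → ℝ} {Lc ηc j γ R : ℝ}
  (H : Cc D E Λ L ψ S M m a T G1 l0 l V X Lg X2 X3 G0 W3 η Lc ηc j γ R)
include H

theorem nn (ρ : ℝ) : 0 ≤ ecC D ψ S η Lc ηc γ ∧ 0 ≤ laC D S X2 ρ ∧ 0 ≤ alC D ψ S Lc := by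
  have := H.Z.D4
  have := H.ψ1
  have := H.η0
  have := H.γ0
  have := H.parts.2.2
  have := H.Z.X20
  unfold ecC laC alC
  exact ⟨by positivity, by positivity, by positivity⟩

theorem th0 : 0 ≤ 4 * S.C / Lc := by
  have := H.Z.A.cl.C0
  have := H.L1
  positivity

/-- label length of a gap -/
theorem gap {i k : ℕ} (h1 : l0 ≤ M.s i) (h : i < k) (hk : k < S.J) (gi : Gc S M m a l0 V L Lc i)
    (gk : Gc S M m a l0 V L Lc k ∨ k = S.J - 1)
    (hb : ∀ y, i < y → y < k → ¬ Gc S M m a l0 V L Lc y) :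
    M.z (k - 1) - M.z i ≤ 4 * S.C / Lc * ds M m a i k ∧
      M.z k ≤ M.z i + (S.C * S.v + 4 * S.C / Lc * ds M m a i k) := by
  have := H.Z.jl4 h1 (h.trans hk).le
  have := H.Z.A.cl.i1
  exact H.Z.cx.gap_lab H.Z.A gi gk (by linarith [H.L1]) (by omega) h hk hb


theorem l0s {i : ℕ} (lo : Lo S M i) : l0 ≤ M.s i :=
  H.Z.ln.l0l.trans (by linarith [H.ls lo, H.Z.lp])

theorem jl {i : ℕ} (lo : Lo S M i) (hi : i < S.J) : S.jl < i := by
  have := H.Z.jl4 (H.l0s lo) hi.le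
  have := H.Z.A.cl.i0
  have := H.Z.A.cl.i1
  omega

/-- the residual on a net -/
theorem e1 {u u' : ℕ} {ρ : ℝ} (lo : Lo S M u) (o : Mg S Lc u')
    (hρ : M.rb m a u' - M.rb m a u ≤ ρ) {i k : ℕ} (h1 : u ≤ i) (h2 : i ≤ k) (h3 : k ≤ u')
    (gi : Gc S M m a l0 V L Lc i) (gk : Gc S M m a l0 V L Lc k) :
    |res M S m a T k - res M S m a T i| ≤ ecC D ψ S η Lc ηc γ + laC D S X2 ρ * ds M m a i k +
      alC D ψ S Lc * (M.z k - M.z i) :=
  H.nce' (lo.mono H.Z.A.cl h1) h2 gi gk (o.anti H.Z.A.cl (by linarith [H.L1]) h3)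
    (by linarith [H.Z.cx.rbm h1, H.Z.cx.rbm h3])

/-- **the input of `ncG`** -/
theorem ne {u u' : ℕ} {ρ : ℝ} (lo : Lo S M u) (h : u ≤ u') (gu : Gc S M m a l0 V L Lc u)
    (gu' : Gc S M m a l0 V L Lc u') (o : Mg S Lc u') (hρ : M.rb m a u' - M.rb m a u ≤ ρ) :
    Tx61.Ne S M m a T (Gc S M m a l0 V L Lc) u u' (ecC D ψ S η Lc ηc γ) (laC D S X2 ρ)
      (alC D ψ S Lc) (4 * S.C / Lc) := by
  have := o.1
  exact ⟨H.Z.A, H.jl lo (by omega), by omega, gu, gu',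
    ⟨(H.nn ρ).1, (H.nn ρ).2.1, (H.nn ρ).2.2, H.th0⟩,
    fun i k a1 a2 a3 a4 a5 => H.e1 lo o hρ a1 a2 a3 a4 a5, fun i k n ik =>
      (H.gap (H.l0s (lo.mono H.Z.A.cl n.1)) ik (by have := n.2.2.1; omega) n.2.2.2.1
        (Or.inl n.2.2.2.2.1) n.2.2.2.2.2).1⟩

/-- **the net of zone I** -/
theorem zi {K τ1 θ2 μ ρ w : ℝ} {Gn : ℕ → Prop} {V0 v v2 : ℕ}
    (P : Ve83.VE2 S M m a K Lg τ1 θ2 μ Gn (Gc S M m a l0 V L Lc) V0 v) (lo : Lo S M v)
    (vv : v ≤ v2) (g2 : Gc S M m a l0 V L Lc v2) (o : Mg S Lc v2)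
    (hρ : M.rb m a v2 - M.rb m a v ≤ ρ) (K0 : 0 ≤ K) (τ0 : 0 ≤ τ1) (μ0 : 0 ≤ μ) (w0 : 0 ≤ w)
    (θ1 : 4 * S.C / Lc ≤ θ2) (θ3 : 4 * S.C * (2 * (K / Lg) + θ2) ≤ 1)
    (sh : ∀ i k, Nx (Gc S M m a l0 V L Lc) v v2 i k → ds M m a i k ≤ w) :
    ZI S M m a T (Gc S M m a l0 V L Lc) v v2 (ys S M m a v2) (sb M m a S.J - ys S M m a v2)
      (ecC D ψ S η Lc ηc γ) (laC D S X2 ρ) (alC D ψ S Lc) w (2 * (K / Lg) + θ2)
      (μ + K * τ1 + S.C * S.v) (M.s S.J / 4) := by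
  have A := H.Z.A
  have h := A.cl
  have o1 := o.1
  have c := h.C0
  have C1 := h.C1
  have v0 := h.v0
  have g0 : 0 ≤ K / Lg := div_nonneg K0 (by linarith [H.Z.E1, H.Z.EL])
  have t0 := H.th0
  have a1 : 1 ≤ 2 * S.C ^ 2 * M.s S.J := H.lev ⟨by omega, by linarith [h.s_nn S.J]⟩
  have s0 : 0 < M.s S.J := h.s_pos (by omega)
  have hv : 100 * S.C ^ 4 * S.v ≤ 1 := by
    have b1 : 100 * S.C ^ 3 ≤ S.n := by
      linarith [H.Z.Cp (k := 3) (by norm_num), H.Z.D_E, H.Z.En, show 0 < S.C ^ 3 by positivity]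
    have b2 : (S.n : ℝ) ≤ (S.n : ℝ) ^ 2 := le_self_pow₀ (by exact_mod_cast h.n1) two_ne_zero
    nlinarith [mul_le_mul_of_nonneg_left (b1.trans b2) (mul_pos c v0).le, H.Z.hv]
  have a2 : 50 * S.C ^ 2 * S.v ≤ M.s S.J :=
    le_of_mul_le_mul_left (by linarith) (show 0 < 2 * S.C ^ 2 by positivity)
  have a3 : S.C * S.v ≤ S.C ^ 2 * S.v := by gcongr; nlinarith
  have a4 : 8 * M.s S.jl ≤ M.s S.J := by
    have b1 := H.ls (i := S.J) ⟨by omega, by linarith⟩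
    nlinarith [H.Z.ln.l0s, H.Z.ln.l0l, H.Z.D4, H.Z.D_E, h.s_nn S.jl]
  have m1 : sb M m a (v2 + 1) ≤ sb M m a S.J := A.sb_mono (by omega)
  have m2 : ys S M m a v2 ≤ sb M m a (v2 + 1) := min_le_left _ _
  refine ⟨A, H.Z.ce.up, H.jl lo (by omega), vv, by omega, P.g2, g2, ?_, ?_, by linarith,
    by linarith [P.t1], le_min (A.sb_mono (by omega)) P.t2.le, m2, min_le_right _ _, by linarith,
    by linarith, ⟨(H.nn ρ).1, (H.nn ρ).2.1, (H.nn ρ).2.2, w0, by linarith, by positivity⟩, θ3,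
    fun k a1 a2 a3 => H.e1 lo o hρ le_rfl a1 a2 P.g2 a3, sh, fun i k n => ?_,
    fun k a1 a2 a3 => ?_⟩
  · linarith [(h.ss S.jl h.jl_lt).2, P.t1, mul_pos (pow_pos c 2) v0]
  · linarith [P.t1, mul_pos (pow_pos c 2) v0]
  · have d0 := ds_nn A n.2.1
    rcases n.2.1.eq_or_lt with rfl | ik
    · nlinarith [mul_pos c v0]
    · have := (H.gap (H.l0s (lo.mono h n.1)) ik (by have := n.2.2.1; omega) n.2.2.2.1
        (Or.inl n.2.2.2.2.1) n.2.2.2.2.2).2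
      nlinarith
  · have := P.wid k a1 (by omega) a3
    rw [ds, show S.J - 1 + 1 = S.J by omega] at this
    linarith

end Cc

end Crest.Agent.T156.Alt.G89

end
end

-- ▼ part T156/TxZN_87
section

/-!
# Row 156, block (L): the net of zone I in the letters of `Nd` (helper87)
-/

set_option autoImplicit false

noncomputable section

namespace Crest.Agent.T156.Alt.X84.Cy

open Real
open Crest.Agent.T156.Alt.Mp9 Crest.Agent.T156.Alt.L69 Crest.Agent.T156.Alt.L31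
open Crest.Agent.T156.Alt.Ve83 Crest.Agent.T156.Alt.G89

variable {E : ℝ} {S : Sc} {M : Md} {m : ℕ} {a : ℝ} {c : Dt} {v v1 v2 : ℕ}
  (Y : Cy E S M m a c) (N : Nd S M m a c v v1 v2)
include Y


include N

theorem lo87 : Lo S M v := ⟨by
  have H := Y.ck83.H
  have D4 := H.Z.D4
  have o := N.mg.1
  have := N.o1
  have := N.o2
  have a1 := (near3 Y.tw H Y.K83.1 Y.K83.2.1 Y.ng N.v2e).2.1
  have a2 := H.Z.jl4 a1 (by omega)
  have := H.Z.A.cl.i1
  have z0 := H.Z.A.cl.leg.zm (show v ≤ S.J - 1 by omega)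
  exact (H.lo_of (by omega) (by omega) (by nlinarith [N.near])).1,
  by linarith [N.v2e.s1, Y.tw.at'.cl.s_nn v]⟩

theorem j087 : S.j0 ≤ v ∧ v ≤ v2 ∧ v2 + 1 < S.J ∧ 2 * c.D * (M.z (S.J - 1) - M.z v) ≤ 1 := by
  have H := Y.ck83.H
  have D4 := H.Z.D4
  have o := N.mg.1
  have := N.o1
  have := N.o2
  have a2 := H.Z.jl4 (H.l0s (Y.lo87 N)) (by omega)
  have := H.Z.A.cl.i1
  have z0 := H.Z.A.cl.leg.zm (show v ≤ S.J - 1 by omega)
  exact ⟨by omega, by omega, o, by nlinarith [N.near]⟩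


theorem th87 : 0 ≤ 2 * (c.K / c.p.Lg) + 4 * S.C / c.p.Lc ∧
    E * (2 * (c.K / c.p.Lg) + 4 * S.C / c.p.Lc) ≤ 3 * c.D ∧
    4 * S.C * (2 * (c.K / c.p.Lg) + 4 * S.C / c.p.Lc) ≤ 1 := by
  have H := Y.ck83.H
  have D4 := H.Z.D4
  have E1 := H.Z.E1
  have C0 := H.Z.A.cl.C0
  have K1 := Y.K83.1
  have g : 0 < c.p.Lg := by linarith [H.Z.EL]
  have l : 0 < c.p.Lc := by linarith [H.L1]
  have c1 := H.Z.Cp (k := 1) (by norm_num)
  rw [pow_one] at c1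
  have a1 : E * (c.K / c.p.Lg) ≤ c.D := by
    rw [← mul_div_assoc, div_le_iff₀ g, mul_comm]
    exact mul_le_mul Y.KD H.Z.EL (by linarith) (by linarith)
  have a2 : E * (4 * S.C / c.p.Lc) ≤ c.D := by
    rw [← mul_div_assoc, div_le_iff₀ l, mul_comm]
    exact mul_le_mul (by linarith) H.EL (by linarith) (by linarith)
  have t0 : 0 ≤ 2 * (c.K / c.p.Lg) + 4 * S.C / c.p.Lc := by positivity
  have a3 : E * (2 * (c.K / c.p.Lg) + 4 * S.C / c.p.Lc) ≤ 3 * c.D := by linarith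
  refine ⟨t0, a3, le_of_mul_le_mul_left ?_ (show 0 < E by linarith)⟩
  nlinarith [mul_le_mul_of_nonneg_left a3 C0.le, H.Z.DpE (i := 2) (by norm_num)]

/-- **the net of zone I** -/
theorem zi87 {ρ w : ℝ} (hρ : M.rb m a v2 - M.rb m a v ≤ ρ) (w0 : 0 ≤ w)
    (sh : ∀ i k, Nx (GC S M m a c) v v2 i k → ds M m a i k ≤ w) :
    ZI S M m a (2 * S.C) (GC S M m a c) v v2 (ys S M m a v2) (sb M m a S.J - ys S M m a v2)
      (ecC c.D (psi S) S c.p.η c.p.Lc c.p.ηc c.p.γ) (laC c.D S c.p.X2 ρ)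
      (alC c.D (psi S) S c.p.Lc) w (2 * (c.K / c.p.Lg) + 4 * S.C / c.p.Lc)
      (c.D ^ 45 * tc S c + c.K * t1 S c.p + S.C * S.v) (M.s S.J / 4) := by
  have D4 := Y.cw.Z.D4
  have := Y.tc83.1
  exact Y.ck83.H.zi N.v2e (Y.lo87 N) (Y.j087 N).2.1 N.g2 N.mg hρ (by linarith [Y.K83.1]) Y.tw.t0
    (by positivity) w0 le_rfl (Y.th87 N).2.2 sh

/-- the same with a uniform residual -/
theorem zi87' {ec w : ℝ} (e0 : 0 ≤ ec) (w0 : 0 ≤ w)
    (e1 : ∀ k, v ≤ k → k ≤ v2 → GC S M m a c k →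
      |res M S m a (2 * S.C) k - res M S m a (2 * S.C) v| ≤ ec)
    (sh : ∀ i k, Nx (GC S M m a c) v v2 i k → ds M m a i k ≤ w) :
    ZI S M m a (2 * S.C) (GC S M m a c) v v2 (ys S M m a v2) (sb M m a S.J - ys S M m a v2)
      ec 0 0 w (2 * (c.K / c.p.Lg) + 4 * S.C / c.p.Lc)
      (c.D ^ 45 * tc S c + c.K * t1 S c.p + S.C * S.v) (M.s S.J / 4) :=
  have Z := Y.zi87 N le_rfl w0 sh
  { Z with
    nn := ⟨e0, le_rfl, le_rfl, Z.nn.2.2.2⟩
    e1 := fun k a1 a2 a3 => by simpa using e1 k a1 a2 a3 }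

end Crest.Agent.T156.Alt.X84.Cy

end
end

-- ▼ part T156/TxCk_61
section

/-!
# Row 156, block (L): the corner net in the letters of `TxX` (helper61)
-/

set_option autoImplicit false

noncomputable section

namespace Crest.Agent.T156.Alt.X84

open Real
open Crest.Agent.T156.Alt.Mp9 Crest.Agent.T156.Alt.L69 Crest.Agent.T156.Alt.L31
open Crest.Agent.T156.Alt.Tx61 (Ck NcB Nce)

variable {E : ℝ} {S : Sc} {M : Md} {m : ℕ} {a : ℝ} {c : Dt}

namespace Cy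

variable (Y : Cy E S M m a c)
include Y

theorem ck61 : Ck c.D E c.Λ0 c.L (psi S) S M m a (2 * S.C) c.p.G1 c.p.l0 c.p.l c.p.V c.p.X c.p.Lg
    c.p.X2 c.p.X3 c.p.G0 c.W3 c.p.η c.p.Xp c.p.Vt c.p.Lp c.p.u1 c.p.u2 c.p.j c.p.γ c.p.Lc c.p.ηc
    c.p.τ c.p.N' (c.p.τ + c.p.γ) :=
  ⟨Y.cw.cc Y.hx, Y.hx.lp, Y.hx.ap.top, le_rfl, by
    linarith [Y.hx.lp.j1, Y.hx.lp.γ1, mul_nonneg (zero_le_one.trans Y.cw.Z.E1) Y.cw.j0]⟩

theorem D1_61 : 1 ≤ c.D := by linarith [Y.cw.Z.D4]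

theorem DE61 {k : ℕ} (h : k ≤ 500) : c.D ^ k ≤ E := (pow_le_pow_right₀ Y.D1_61 h).trans Y.cw.DE

theorem psi61 : psi S ^ 6 ≤ S.F := by
  obtain ⟨a1, a2⟩ := psi_spec Y.cw.Z.A.cl
  exact (pow_le_pow_right₀ a1 (by norm_num)).trans_eq a2

theorem tc61 : 0 < c.p.τ + c.p.γ ∧ c.p.τ + c.p.γ ≤ tc S c ∧ c.D ^ 100 * tc S c ≤ 1 / 1000 := by
  have t0 : 0 < c.p.τ + c.p.γ := by linarith [Y.tw.τ0, Y.tw.γ0]
  exact ⟨t0, le_mul_of_one_le_left t0.le Y.cw.Z.A.cl.F1, by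
    rw [tc, ← mul_assoc]; exact Y.ck61.small Y.hx.F40 (Y.DE61 (by norm_num))⟩


variable {v v1 v2 : ℕ} (N : Nd S M m a c v v1 v2)
include N

theorem near61 : S.j0 ≤ v ∧ v ≤ v2 ∧ v2 + 1 < S.J ∧ 2 * c.D * (M.z (S.J - 1) - M.z v) ≤ 1 ∧
    c.D * (M.z (S.J - 1) - M.z v) ≤ 1 ∧ G89.Lo S M v := by
  have h := Y.cw.Z.A.cl
  have D4 := Y.cw.Z.D4
  have i1 := h.i1
  have jv := N.jv
  have o1 := N.o1
  have o2 := N.o2
  have o3 := N.mg.1
  have z0 : 0 ≤ c.D * (M.z (S.J - 1) - M.z v) :=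
    mul_nonneg (by linarith) (sub_nonneg.2 (h.leg.zm (by omega)))
  have a1 := mul_le_mul_of_nonneg_right D4 z0
  have a2 := N.near
  have a3 : c.D * (M.z (S.J - 1) - M.z v) ≤ 1 := by linarith
  exact ⟨by omega, by omega, o3, by linarith, a3, Y.ck61.H.lo_of (by omega) (by omega) a3⟩



/-- `ZI.sh` -/
theorem sh61 (B : NcB E c.D S M m a) {Q : ℝ} (Q1 : 1 ≤ Q) (QE : Q ^ 10 ≤ E) {i k : ℕ} (n : Nx (GC S M m a c) v v2 i k) :
    G89.ds M m a i k ^ 2 ≤ mf S 1 / Q + (c.D ^ 30 * Q * tc S c) ^ 2 := by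
  obtain ⟨b1, -, b3, b4, -⟩ := Y.near61 N
  obtain ⟨t0, t1, -⟩ := Y.tc61
  have K := Y.ck61
  have h := K.H.Z.A.cl
  have D4 := K.H.Z.D4
  have n1 := n.1
  have n3 := n.2.2.1
  rw [tc, ← mul_assoc]
  refine K.sh B le_rfl Y.tw.η0.le (by rw [zero_div]; exact t0.le) (K.nce0 Y.w3) le_rfl Y.psi61
    Y.hx.F40 (Y.DE61 (by norm_num)) Q1 QE n (by omega) (by omega) (by
      linarith [mul_le_mul_of_nonneg_left (h.leg.zm n1) (show 0 ≤ c.D by linarith)]) ?_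
  have a1 : 4 * c.D ^ 30 ≤ c.D ^ 41 :=
    calc _ ≤ c.D * c.D ^ 30 := by gcongr; linarith
      _ = c.D ^ 31 := by ring
      _ ≤ _ := pow_le_pow_right₀ Y.D1_61 (by norm_num)
  have a2 := mul_le_mul_of_nonneg_right a1 (t0.le.trans t1)
  have a3 := N.hi
  unfold tc at a2 a3
  linarith [h.leg.zm n3]

end Cy




end Crest.Agent.T156.Alt.X84

end
end

-- ▼ part T156/TxB_8

/-!
# Row 156, text (L) (helper8): zone I of (TxS), the leaf `TxB`
-/

set_option autoImplicit false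

noncomputable section

namespace Crest.Agent.T156.Alt.X84

open MeasureTheory Set Real
open Crest.Agent.T156.Alt.Mp9 Crest.Agent.T156.Alt.L69 Crest.Agent.T156.Alt.L31

theorem res_two8 {S : Sc} {M : Md} {m : ℕ} {a T : ℝ} (A : At S M m a T) (i k : ℕ) :
    |res M S m a T k - res M S m a T i| ≤ 2 := by
  have a1 := rb_mem (M := M) (a := a) A.m_pos i
  have a2 := rb_mem (M := M) (a := a) A.m_pos k
  have b1 := Pp.Ode3.Gam_nonneg (lb M S m a T) (sb M m a (i + 1))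
  have b2 := Pp.Ode3.Gam_le_one (lb M S m a T) (sb M m a (i + 1))
  have b3 := Pp.Ode3.Gam_nonneg (lb M S m a T) (sb M m a (k + 1))
  have b4 := Pp.Ode3.Gam_le_one (lb M S m a T) (sb M m a (k + 1))
  have e : ∀ t, Pr.Gam (lb M S m a T) t = Pp.Ode3.Gam (lb M S m a T) t := fun _ => rfl
  unfold res
  rw [e, e]
  exact abs_le.2 ⟨by linarith [a1.1, a2.2], by linarith [a1.2, a2.1]⟩

/-- **(TxB)** -/
theorem txB8 : TxB := by
  refine LF.of9 fun E S M m a c K' Y F v v1 v2 N Mt A0 En βs M1 M2 a0 a1 hE β0 β1 => ?_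
  have A := Y.A27
  have h := Y.cl27
  have C1 := h.C1
  have C0 := A.c_pos
  have F1 := h.F1
  have F0 := Y.qF0
  have D1 := Y.qD1
  have D0 := Y.qD0
  have D4 := Y.qD4
  have K1 := Y.qK1
  have B := Y.at27
  have v0 := v_pos h
  have cD : ∀ i, i ≤ 20 → 10 ^ 12 * S.C ^ i ≤ c.D := fun i hi => by
    linarith [F.C20, pow_le_pow_right₀ C1 hi]
  have cp : ∀ i : ℕ, 0 ≤ S.C ^ i := fun i => by positivity
  obtain ⟨μ, hμ⟩ : ∃ μ, μ = At.e48 S / (384 * S.C ^ 4 * S.F) := ⟨_, rfl⟩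
  obtain ⟨θ', hθ⟩ : ∃ θ', θ' = 1 / (2 * 10 ^ 7 * S.C ^ 5 * c.K) := ⟨_, rfl⟩
  have θ0 : 0 < θ' := by rw [hθ]; positivity
  have θ2 : 2 * 10 ^ 7 * S.C ^ 5 * c.K * θ' = 1 := by rw [hθ]; field_simp
  have θ1 : 1 ≤ c.D ^ 2 * θ' := by
    rw [← θ2, sq]
    exact mul_le_mul_of_nonneg_right (mul_le_mul (by linarith [cD 5 (by norm_num), cp 5]) Y.KD
      (by linarith) D0.le) θ0.le
  have Q1 : c.D ≤ c.D ^ 14 * S.F := (le_self_pow₀ D1 (by norm_num)).trans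
    (le_mul_of_one_le_right (pow_pos D0 _).le F1)
  have E0 : 0 ≤ E := by linarith [Y.qE2]
  have QE : (c.D ^ 14 * S.F) ^ 10 ≤ E := by
    refine le_of_pow_le_pow_left₀ two_ne_zero E0 ?_
    rw [← pow_mul, mul_pow, ← pow_mul, sq]
    exact mul_le_mul (Y.DE27 (by norm_num)) ((Y.qFp (by norm_num)).trans Y.hx.F40)
      (pow_pos F0 _).le E0
  obtain ⟨y, hy⟩ : ∃ y, y = c.D ^ 30 * (c.D ^ 14 * S.F) * tc S c := ⟨_, rfl⟩
  have y0 : 0 ≤ y := by rw [hy]; have := Y.qtc0; positivity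
  have y1 : c.D ^ 1 * y ≤ 1 := Y.qsmall (k := 44) (j := 2) (by
    have := mul_le_mul_of_nonneg_left Y.qtc_tu (show 0 ≤ c.D ^ 44 * S.F by positivity)
    rw [hy]; linarith) (by norm_num) (by norm_num)
  have y2 : y ≤ 1 / 2 := by nlinarith only [y1, y0, D4]
  have m0 := B.m0
  have m2 : mf S 1 / (c.D ^ 14 * S.F) ≤ 1 / 2 := by
    rw [div_le_iff₀ (by linarith)]; linarith [m0.2, Y.cw.θ1]
  have q0 : 0 ≤ mf S 1 / (c.D ^ 14 * S.F) + y ^ 2 := by have := m0.1; positivity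
  obtain ⟨w, hw⟩ : ∃ w, w = √(mf S 1 / (c.D ^ 14 * S.F) + y ^ 2) := ⟨_, rfl⟩
  have w0 : 0 ≤ w := by rw [hw]; exact sqrt_nonneg _
  have w1 : w ^ 2 = mf S 1 / (c.D ^ 14 * S.F) + y ^ 2 := by rw [hw]; exact sq_sqrt q0
  have w2 : w ^ 2 ≤ 1 := by nlinarith only [w1, m2, y0, y2]
  have x0 := B.x0
  obtain ⟨ec, hec⟩ : ∃ ec, ec = min (c.D ^ 78 * S.F ^ 2 * X48.xs S M c.p) 2 := ⟨_, rfl⟩
  have e0 : 0 ≤ ec := by rw [hec]; exact le_min (by positivity) (by norm_num)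
  have Z := Y.zi87' N e0 w0 (fun k k1 k2 k3 => by
      rw [hec]; exact le_min (Y.res_le N le_rfl k1 k2 N.v2e.g2 k3) (res_two8 A _ _))
    fun i k n => by
      rw [hw, hy]
      exact (le_abs_self _).trans (abs_le_sqrt (Y.sh61 N
        (F.nc _ le_rfl (Y.DE27 (by norm_num)) Y.cw.fn) (D1.trans Q1) QE n))
  obtain ⟨N1, hN1⟩ : ∃ N1, N1 = 256 * (c.D ^ 80 * S.F ^ 2) ^ 2 * X48.N0 c.p := ⟨_, rfl⟩
  have n0 := B.N_le.2
  have N10 : 0 ≤ N1 := by rw [hN1]; positivity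
  have N11 : S.F ^ 3 * N1 ≤ c.D ^ 161 * Nb S M c := by
    have := mul_le_mul (Y.qDs (r := 256) (i := 160) (j := 161) (by norm_num) (by norm_num))
      (Y.qFNb (j := 7) (by norm_num) Y.qN0_le) (mul_nonneg (pow_pos F0 _).le n0) (pow_pos D0 _).le
    rw [hN1]; linarith
  have N12 : N1 ≤ c.D ^ 161 * Nb S M c := (le_mul_of_one_le_left N10 (one_le_pow₀ F1)).trans N11
  obtain ⟨r, r0, r5⟩ : ∃ r : ℝ, 0 ≤ r ∧ r ^ 5 = min 1 N1 :=
    ⟨_, rpow_nonneg (le_min zero_le_one N10) _,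
      rpow_inv_natCast_pow (le_min zero_le_one N10) (by norm_num)⟩
  have t0 : 0 ≤ c.D ^ 50 * S.F ^ 2 * tu S c.p := by have := Y.qtu0; positivity
  obtain ⟨ν, hν⟩ : ∃ ν, ν = max (c.D ^ 50 * S.F ^ 2 * tu S c.p) r := ⟨_, rfl⟩
  have ν0 : 0 ≤ ν := by rw [hν]; exact r0.trans (le_max_right _ _)
  have ν1 : min 1 N1 ≤ ν ^ 5 := by
    rw [← r5, hν]; exact pow_le_pow_left₀ r0 (le_max_right _ _) 5
  have ν5 : ν ^ 5 ≤ c.D ^ 251 * Nb S M c := by
    rw [hν]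
    rcases le_total (c.D ^ 50 * S.F ^ 2 * tu S c.p) r with q | q
    · rw [max_eq_right q, r5]
      exact (min_le_right _ _).trans (N12.trans (Y.qDNb (by norm_num)))
    · rw [max_eq_left q]
      exact (Y.qmar (k := 50) (j := 2) t0 le_rfl (by norm_num) le_rfl).2.2.1
  obtain ⟨μ0, -, μ2, -, -, -⟩ := Y.base7 hμ
  have L := Y.nl7' hμ ν0 (N := c.D ^ 790 * Nb S M c) (by
    have a1 := Y.qDNb (i := 232) (j := 251) (by norm_num)
    have a2 := mul_le_mul_of_nonneg_right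
      (Y.qDs (r := 2) (i := 251) (j := 790) (by norm_num) (by norm_num)) Y.qNb0.le
    rw [mul_assoc] at a2
    linarith only [a1, a2, ν5])
  obtain ⟨⟨hk, h4⟩, -⟩ := Y.hk4 (K := K') (x := 0) (ν := ν) (by linarith [cD 11 (by norm_num), cp 11]) hμ rfl
    (by linarith [F.K1]) F.KΛ θ1 w0 (by rw [w1, hy]) (by rw [hν]; exact le_max_left _ _)
    (by rw [mul_zero]; positivity)
  have cv := mul_pos C0 v0
  have θ3 := h.θ0
  have θ4 := Y.cw.θ1
  have f2 : S.F ≤ S.F ^ 2 := le_self_pow₀ F1 two_ne_zero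
  have vx : S.v ≤ X48.xs S M c.p := by
    have n1 : (1 : ℝ) ≤ S.n := by exact_mod_cast n_pos h
    exact F.v4.trans ((one_div_le_one_div_of_le (by linarith) (le_self_pow₀ n1 (by norm_num))).trans
      (B.a7.1.trans B.a2))
  have g1 : S.C ^ 2 * S.F * S.θ ≤ S.C ^ 2 * S.F := mul_le_of_le_one_right (by positivity) θ4
  have g0 : 0 ≤ S.C ^ 2 * S.F * S.θ := by positivity
  have g2 := mul_le_mul_of_nonneg_left w2 cv.le
  have i0 : (0 : ℝ) ≤ 1 / (m + 1) := by positivity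
  have i1 : (1 : ℝ) / (m + 1) ≤ 1 := by
    rw [div_le_one (by positivity)]; linarith [Nat.cast_nonneg (α := ℝ) m]
  obtain ⟨τ, τ0, τ1, τ3⟩ := h0_tau (W := c.D ^ 2 * S.F) (N := N1)
    (x := βs + (3 * (ec + 1 / (m + 1)) + 2 * (S.C ^ 2 * S.F * S.θ) * (S.C * S.v) +
      4 * (S.C * S.v) * w ^ 2)) θ3 μ0 (one_le_mul_of_one_le_of_one_le (one_le_pow₀ D1) F1) μ2 N10 ν0
    ν1 (by positivity)
    (by
      have b1 := β1.trans (Y.KbE_one (by linarith [cD 1 (by norm_num), cp 1]) N)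
      have b2 : ec ≤ 2 := by rw [hec]; exact min_le_right _ _
      have b3 := mul_le_mul g1 L.n1' cv.le (by positivity)
      have b4 := mul_le_mul_of_nonneg_right (cD 2 (by norm_num)) F0.le
      have b5 := mul_le_mul_of_nonneg_right (le_self_pow₀ D1 two_ne_zero) F0.le
      have b6 := mul_le_mul_of_nonneg_right (one_le_pow₀ C1 (n := 2)) F0.le
      linarith only [b1, b2, b3, b4, b5, b6, g2, L.n1', i1, F1])
    (B.sm_mul θ3.le (W := c.D ^ 80 * S.F ^ 2)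
      (one_le_mul_of_one_le_of_one_le (one_le_pow₀ D1) (one_le_pow₀ F1)) (by
      have b1 := β1.trans (Y.KbE_le N)
      have b2 : ec ≤ c.D ^ 78 * S.F ^ 2 * X48.xs S M c.p := by rw [hec]; exact min_le_left _ _
      have b3 := mul_le_mul g1 (mul_le_mul_of_nonneg_left vx C0.le) cv.le (by positivity)
      have z0 : 0 ≤ S.F ^ 2 * X48.xs S M c.p := by positivity
      have z1 := mul_le_mul_of_nonneg_right (F1.trans f2) x0
      have b4 := mul_le_mul_of_nonneg_right (Y.qDp (i := 3) (j := 78) (by norm_num)) z0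
      have b5 := mul_le_mul_of_nonneg_right (Y.qDs (r := 10) (i := 78) (j := 80) (by norm_num)
        (by norm_num)) z0
      have b6 := mul_le_mul_of_nonneg_right ((cD 3 (by norm_num)).trans
        (le_self_pow₀ D1 (n := 78) (by norm_num))) z0
      have b7 := mul_le_mul_of_nonneg_left (mul_le_mul_of_nonneg_right f2 x0) (cp 3)
      have b8 := mul_le_mul (le_self_pow₀ C1 (n := 3) (by norm_num)) (vx.trans (by linarith only [z1] :
        _ ≤ S.F ^ 2 * X48.xs S M c.p)) v0.le (cp 3)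
      have b9 := mul_le_mul_of_nonneg_right (one_le_pow₀ C1 (n := 3)) z0
      linarith only [b1, b2, b3, b4, b5, b6, b7, b8, b9, z0, z1, g2, B.a7.2, B.a2])
      (by rw [hN1]))
  refine Y.txB_at F N Z M1 M2 a0 a1 hE β0 hμ θ0 (θ1.trans (mul_le_mul_of_nonneg_right
    (Y.qDp (by norm_num)) θ0.le)) θ2.le ν0 τ0 le_rfl (by linarith only [τ1])
    (by linarith only [hk]) h4 L.n1 L.n2 (τ3.trans ?_) L.n4 L.n5 L.n6 L.n7
  have a2 := mul_le_mul_of_nonneg_left N11 (pow_pos D0 6).le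
  have a3 := Y.qDNb (i := 167) (j := 790) (by norm_num)
  generalize c.D ^ 790 * Nb S M c = z at *
  linarith only [a2, a3]

end Crest.Agent.T156.Alt.X84

end
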