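import Crest.Agent.T156.TopQ_25

/-!
Row 156 (helper54): the spread of the mean profile on the plateau from one floor point and the
concavity above the corner.
-/

set_option autoImplicit false

namespace Crest.Agent.T156.Pr.Cv25

open MeasureTheory Set
open Crest.Agent.R164.GC Crest.Agent.R339.B Crest.Agent.R339.Var Crest.Agent.T157.Pf
open Crest.Agent.T156.Pr.Reg48


end Crest.Agent.T156.Pr.Cv25

namespace Crest.Agent.T156.Alt.Mp9

open Set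
open Crest.Agent.R164.GC Crest.Agent.R339.B Crest.Agent.R339.Var Crest.Agent.T157.Pf
open Crest.Agent.T156.Pr.Cv25 Crest.Agent.T156.Pr.Reg48

/-- a floor point `f` near the reference time `t0`; the label `1 - u0` is reached at the node
`P` -/
structure Fl54 (S : Sc) (M : Md) (m : ℕ) (a T u0 t0 f θ j δ σ lam : ℝ) (P : ℕ) : Prop where
  t0m : t0 ∈ Icc 0 T
  f0 : 0 ≤ f
  gd : Pr.Reg48.Gd (lh M T) t0 ≤ θ
  θ0 : 0 ≤ θ
  hp : ∀ t, f ≤ t → t ≤ T → Rig.Hp (lh M T) (lb M S m a T) t ≤ j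
  j0 : 0 ≤ j
  δ0 : 0 ≤ δ
  σ0 : 0 ≤ σ
  l0 : 0 ≤ lam
  fl : M.b * Pr.GG (lb M S m a T) f ≤ 1 + lam
  f1 : t0 - δ ≤ f
  zf : lvr 1 (lh M T) t0 - σ ≤ lvr 1 (lb M S m a T) f
  P0 : S.jl ≤ P
  P1 : P ≤ S.Jp
  Pz : 1 - u0 ≤ M.z P
  Ps : sb M m a (P + 1) ≤ t0 + δ

/-- two nodes above the floor point with (E1) in difference form -/
structure Pr54 (S : Sc) (M : Md) (m : ℕ) (a T t0 f la : ℝ) (i k : ℕ) (y er dH : ℝ) : Prop where
  jl : S.jl < i
  ik : i ≤ k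
  kJ : k ≤ S.Jp
  fi : f ≤ sb M m a (i + 1)
  yi : y ≤ M.z i - lvr 1 (lh M T) t0
  e0 : 0 ≤ er
  e1 : res M S m a T i - res M S m a T k ≤ er + la * (sb M m a (k + 1) - sb M m a (i + 1))
  dH : M.H k - M.H i ≤ dH

theorem sum_du54 {S : Sc} {M : Md} (h : Cl S M) {kA : ℕ} (hA : 1 ≤ kA) {u1 : ℝ} (u0 : 0 ≤ u1) :
    ∑ k ∈ (Finset.Icc kA S.Jp).filter (fun k => ¬ u1 ≤ 1 - M.z (k - 1)),
      (M.z k - M.z (k - 1)) ≤ u1 := by
  set U := (Finset.Icc kA S.Jp).filter (fun k => ¬ u1 ≤ 1 - M.z (k - 1)) with hU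
  rcases U.eq_empty_or_nonempty with e | e
  · rw [e]; simpa using u0
  have m1 := U.min'_mem e
  set k1 := U.min' e with hk
  obtain ⟨m2, m3⟩ := Finset.mem_filter.1 m1
  obtain ⟨m4, m5⟩ := Finset.mem_Icc.1 m2
  have sub : U ⊆ Finset.Ioc (k1 - 1) S.Jp := fun k hk' => by
    have a := U.min'_le k hk'
    have b := (Finset.mem_Icc.1 (Finset.mem_filter.1 hk').1).2
    exact Finset.mem_Ioc.2 ⟨by omega, b⟩
  have a := Finset.sum_le_sum_of_subset_of_nonneg sub (f := fun k => M.z k - M.z (k - 1))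
    fun k _ _ => sub_nonneg.2 (h.leg.zm (Nat.sub_le k 1))
  rw [sum_lw_25 M (by omega : k1 - 1 ≤ S.Jp)] at a
  linarith [h.leg.z1 S.Jp, not_le.1 m3]

namespace At


variable {S : Sc} {M : Md} {m : ℕ} {a T : ℝ}

/-- **the linear branch**: `b G ≤ 1 - μ` between the two nodes, no concavity -/
theorem lin54 (A : At S M m a T) {i k : ℕ} {μ la er dH : ℝ} (h1 : S.jl < i) (h : i ≤ k)
    (h2 : k ≤ S.Jp) (μ0 : 0 < μ) (hl : M.b * la ≤ μ / 2)
    (hg : ∀ t, sb M m a (i + 1) ≤ t → t ≤ sb M m a (k + 1) →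
      M.b * Pr.GG (lb M S m a T) t ≤ 1 - μ)
    (hE : res M S m a T i - res M S m a T k ≤ er + la * (sb M m a (k + 1) - sb M m a (i + 1)))
    (hH : M.H k - M.H i ≤ dH) :
    sb M m a (k + 1) - sb M m a (i + 1) ≤ 2 * (dH + M.b * er) / μ := by
  have mo : sb M m a (i + 1) ≤ sb M m a (k + 1) := A.sb_mono (Nat.succ_le_succ h)
  have b0 := A.b_pos
  have r := Gam_inc_up A.okb.1 (A.sb_mem (h.trans h2)).1 mo
    (by rw [A.okb.2]; exact (A.sb_mem h2).2) (K := (1 - μ) / M.b)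
    fun s hs => by rw [le_div_iff₀ b0, mul_comm]; exact hg s hs.1 hs.2.le
  have e1 := A.Mf_b (h1.trans_le h) h2
  have e2 := A.Mf_b h1 (h.trans h2)
  have rm := rb_mono (M := M) (a := a) A.m_pos h
  have t1 : M.b * M.rb m a i / (m + 1) ≤ M.b * M.rb m a k / (m + 1) :=
    div_le_div_of_nonneg_right (mul_le_mul_of_nonneg_left rm b0.le) (by positivity)
  have r2 := mul_le_mul_of_nonneg_left r b0.le
  rw [mul_add, ← mul_assoc, mul_div_cancel₀ _ b0.ne'] at r2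
  have r3 := mul_le_mul_of_nonneg_left hE b0.le
  have r4 := mul_le_mul_of_nonneg_right hl (sub_nonneg.2 mo)
  change sb M m a (k + 1) - M.b * Pr.Gam _ _ = _ at e1
  change sb M m a (i + 1) - M.b * Pr.Gam _ _ = _ at e2
  rw [le_div_iff₀ μ0]
  nlinarith

/-- marks between two nodes from the residuals of two outer nodes -/
theorem dH54 (A : At S M m a T) {i' i k k' : ℕ} {θ : ℝ} (h1 : S.jl < i') (a1 : i' ≤ i) (a2 : i ≤ k)
    (a3 : k ≤ k') (h2 : k' ≤ S.Jp) (hθ : ∀ t, M.s i' ≤ t → t ≤ M.s k' → M.e t ≤ θ) :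
    M.H k - M.H i ≤ |M.G k'| + |M.G i'| + θ * (M.s k' - M.s i') := by
  have ik : i' ≤ k' := a1.trans (a2.trans a3)
  have mo := A.cl.sm ik
  have x1 := A.cl.leg.Hm a1
  have x2 := A.cl.leg.Hm a3
  have d1 := d_top A.cl h1 (A.jp_le (ik.trans h2))
  have d2 := d_top A.cl (h1.trans_le ik) (A.jp_le h2)
  have b0 := A.b_pos
  have r := Gam_inc_lo A.cl.ok (s_nn A.cl i') mo ((A.cl.sm h2).trans (s_tt A.cl))
    (K := (1 - θ) / M.b) fun s hs => by
      have := hθ s hs.1 hs.2.le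
      rw [div_le_iff₀ b0]
      unfold Md.e at this
      linarith
  have r2 := mul_le_mul_of_nonneg_left r b0.le
  rw [mul_add, ← mul_assoc, mul_div_cancel₀ _ b0.ne'] at r2
  have g1 := le_abs_self (M.G k')
  have g2 := neg_abs_le (M.G i')
  unfold Md.G Md.q at g1 g2
  unfold Md.G Md.q
  rw [d1] at g2 ⊢
  rw [d2] at g1 ⊢
  nlinarith

/-- **the sum**: every node is squeezed between the middle node `μ` and a node `i` -/
theorem spr_sum (A : At S M m a T) {kA μ : ℕ} {u1 : ℝ} {r : ℕ → ℝ} (hA : 1 ≤ kA) (hμ : μ ≤ S.Jp)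
    (u0 : 0 ≤ u1) (hr : ∀ k, kA ≤ k → k ≤ S.Jp → u1 ≤ 1 - M.z (k - 1) → ∃ i,
      (i ≤ k ∧ k ≤ μ ∧ (sb M m a (μ + 1) - sb M m a (i + 1)) ^ 2 ≤ r k) ∨
      (μ ≤ k ∧ k ≤ i ∧ (sb M m a (i + 1) - sb M m a (μ + 1)) ^ 2 ≤ r k)) :
    ∑ k ∈ Finset.Icc kA S.Jp, (M.z k - M.z (k - 1)) * (sb M m a (k + 1) - sb M m a (μ + 1)) ^ 2 ≤
      ∑ k ∈ (Finset.Icc kA S.Jp).filter (fun k => u1 ≤ 1 - M.z (k - 1)),
        (M.z k - M.z (k - 1)) * r k + u1 * T ^ 2 := by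
  rw [← Finset.sum_filter_add_sum_filter_not (Finset.Icc kA S.Jp)
    (fun k => u1 ≤ 1 - M.z (k - 1))]
  have dx : ∀ k, 0 ≤ M.z k - M.z (k - 1) := fun k => sub_nonneg.2 (A.cl.leg.zm (Nat.sub_le k 1))
  refine add_le_add (Finset.sum_le_sum fun k hk => ?_) ?_
  · obtain ⟨h1, h2⟩ := Finset.mem_filter.1 hk
    obtain ⟨h3, h4⟩ := Finset.mem_Icc.1 h1
    refine mul_le_mul_of_nonneg_left ?_ (dx k)
    obtain ⟨i, ⟨a1, a2, a3⟩ | ⟨a1, a2, a3⟩⟩ := hr k h3 h4 h2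
    · have x1 := A.sb_mono (Nat.succ_le_succ a1)
      have x2 := A.sb_mono (Nat.succ_le_succ a2)
      refine le_trans (sq_le_sq' ?_ ?_) a3 <;> simp only [Nat.succ_eq_add_one] at x1 x2 <;> linarith
    · have x1 := A.sb_mono (Nat.succ_le_succ a1)
      have x2 := A.sb_mono (Nat.succ_le_succ a2)
      refine le_trans (sq_le_sq' ?_ ?_) a3 <;> simp only [Nat.succ_eq_add_one] at x1 x2 <;> linarith
  · refine le_trans (Finset.sum_le_sum (g := fun k => (M.z k - M.z (k - 1)) * T ^ 2)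
      fun k hk => ?_) ?_
    · have h4 := (Finset.mem_Icc.1 (Finset.mem_filter.1 hk).1).2
      have x1 := A.sb_mem h4
      have x2 := A.sb_mem hμ
      exact mul_le_mul_of_nonneg_left
        (sq_le_sq' (by linarith [x1.1, x2.2]) (by linarith [x1.2, x2.1])) (dx k)
    · rw [← Finset.sum_mul]
      exact mul_le_mul_of_nonneg_right (sum_du54 A.cl hA u0) (sq_nonneg T)

end At

end Crest.Agent.T156.Alt.Mp9
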