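import Crest.Agent.T156.TkC_20
import Crest.Agent.T156.ClMid_8
import Crest.Agent.T156.TLpS_54

-- ▼ part T156/TLqA_53
section

/-!
# Row 156, block (L): one-sided passes up to the upper end of a window (helper53)
-/

set_option autoImplicit false

noncomputable section

namespace Crest.Agent.T156.Rig

open Set Real

namespace Tk

variable {S : Finset ℝ} {a b : ℝ} {W ω ν u : ℝ → ℝ} {gp : ℝ → ℝ → Prop}
  {b₀ b₁ p₀ d D err C₁ δ : ℝ}

/-- **one-sided maximum principle** -/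
theorem one53 (h : Tk S a b W ω ν u gp b₀ b₁ p₀ d D err C₁ δ) {a' b' Γ q X : ℝ} (ha : a ≤ a')
    (hb : b' ≤ b) (hs : Sh a b gp a' b' Γ) (hΓ : b₁ * Γ ^ 2 ≤ 4 * d) (q0 : 0 ≤ q)
    (hq : D * p₀ ≤ 2 * b₀ * q) (hX : eP b₁ p₀ D err C₁ δ Γ + q ≤ X) (h1 : W a' ≤ X)
    (h2 : W b' ≤ X) : ∀ t ∈ Icc a' b', W t ≤ X := by
  intro t ht
  have := ((h.pc.mono ha hb (Finset.Subset.refl S)).sub_const X).maxp (by linarith) (by linarith)
    (fun x hx hS hW => ?_) t ht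
  · linarith
  have hu := h.up ha hb hs hΓ (Ioo_subset_Icc_self hx)
  obtain ⟨β, β1, -, β3⟩ := h.rel x ⟨ha.trans_lt hx.1, hx.2.trans_le hb⟩ hS
  have hD : 0 < D := h.d0.trans_le h.dD
  have hpos : 0 < u x := by
    by_contra hn
    rw [max_eq_right (not_lt.1 hn)] at hu
    linarith
  rw [max_eq_left hpos.le] at hu
  have h5 := (abs_le.1 β3).1
  have h6 : q ≤ D * u x := by linarith
  have h7 : D * p₀ ≤ D * (2 * b₀ * u x) := by
    nlinarith [mul_le_mul_of_nonneg_left h6 h.b0]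
  have h8 := le_of_mul_le_mul_left h7 hD
  have h9 : b₀ * u x ≤ β * u x := mul_le_mul_of_nonneg_right β1 hpos.le
  linarith

/-- **labels**, one-sided -/
theorem lab53 (h : Tk S a b W ω ν u gp b₀ b₁ p₀ d D err C₁ δ) {a' b' Γ B : ℝ}
    (ha : a ≤ a') (hb : b' ≤ b) (hΓ : 0 ≤ Γ) (hs : Sh a b gp a' b' Γ) (B0 : 0 ≤ B + err)
    (hW : ∀ t ∈ Icc a' b', W t ≤ B) {t : ℝ} (ht : t ∈ Icc (a' + Γ) b') :
    u t ≤ C₁ * Γ + δ + (B + err) / d := by
  have ht1 : a' ≤ t := by linarith [ht.1]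
  obtain ⟨s, s', hg, h1, h2, h3, h4⟩ := h.cov t ⟨ha.trans ht1, ht.2.trans hb⟩
  have hss : s ≤ s' := h2.trans h3
  have hl := hs s s' hg h1 hss h4 (h2.trans ht.2) (ht1.trans h3)
  have ho := h.osc s s' hg h1 hss h4 t ⟨h2, h3⟩ s ⟨le_rfl, hss⟩
  have ho' := mul_le_mul_of_nonneg_left hl h.C0
  obtain ⟨m, m1, -, m3⟩ := h.eL s s' hg h1 hss h4
  have hw := hW s ⟨by linarith [ht.1], h2.trans ht.2⟩
  have hm : m * u s ≤ B + err := by linarith [(abs_le.1 m3).1]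
  have hus : u s ≤ (B + err) / d := by
    rw [le_div_iff₀ h.d0]
    rcases le_total (u s) 0 with c | c
    · nlinarith [h.d0]
    · nlinarith [mul_le_mul_of_nonneg_right m1 c]
  linarith [(abs_le.1 ho).2]

/-- the slope from an upper bound of the labels -/
theorem slo53 (h : Tk S a b W ω ν u gp b₀ b₁ p₀ d D err C₁ δ) {x t U : ℝ} (ha : a ≤ x)
    (hxt : x ≤ t) (hb : t ≤ b) (U0 : 0 ≤ U) (hu : ∀ s ∈ Icc x t, u s ≤ U) :
    ω t ≤ ω x + (2 * b₁ * U + p₀) * (t - x) := by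
  have := le_off S (f := fun s => (2 * b₁ * U + p₀) * s - ω s) hxt
    ((continuousOn_const.mul continuousOn_id).sub (h.pc.cω.mono (Icc_subset_Icc ha hb)))
    fun s hs hS => by
      have hs' : s ∈ Ioo a b := ⟨ha.trans_lt hs.1, hs.2.trans_le hb⟩
      refine ⟨_, (((hasDerivAt_id s).const_mul (2 * b₁ * U + p₀)).sub (h.pc.dω s hs' hS)), ?_⟩
      obtain ⟨β, β1, β2, β3⟩ := h.rel s hs' hS
      have β0 : 0 ≤ β := h.b0.trans β1
      have c1 : β * u s ≤ β * U := mul_le_mul_of_nonneg_left (hu s (Ioo_subset_Icc_self hs)) β0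
      have c2 : β * U ≤ b₁ * U := mul_le_mul_of_nonneg_right β2 U0
      linarith [(abs_le.1 β3).2]
  linarith

/-- **the upper side of the last part of the window** from the value at the upper end -/
theorem side53 (h : Tk S a b W ω ν u gp b₀ b₁ p₀ d D err C₁ δ) {P r Γ N Z Bb : ℝ} (P1 : 1 ≤ P)
    (r0 : 0 < r) (hd : r ^ 2 ≤ P * d) (hD : D ≤ P * r ^ 2) (hb1 : b₁ ≤ P) (hC : C₁ ≤ P)
    (hb0 : 1 ≤ b₀ * P) (Γ0 : 0 ≤ Γ) (hΓ : P * Γ ≤ r) (hs : Sh a b gp a b Γ) (N1 : 1 ≤ N)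
    (hR : ∀ t ∈ Icc a b, |u t| ≤ 1) (he : 0 ≤ err) (hl : 4 * (N * P * r) ≤ b - a)
    (hZ : P * Γ + δ + p₀ + 1 * exp (-N) + err / r ^ 2 ≤ Z) (B0 : 0 ≤ Bb) (hB : W b ≤ r ^ 2 * Bb) :
    ∀ t ∈ Icc (b - 2 * (N * P * r)) b, W t ≤ r ^ 2 * (5 * P ^ 2 * Z + Bb) ∧
      u t ≤ 7 * P ^ 3 * Z + P * Bb ∧ ω t ≤ 48 * N * P ^ 5 * r * (Z + Bb) := by
  have P0 : 0 < P := by linarith
  have r2 : 0 < r ^ 2 := by positivity
  have d0 := h.d0
  have D0 : 0 ≤ D := d0.le.trans h.dD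
  have δ0 := h.δ0
  have p0 := h.p0
  have b10 := h.b1
  have C0 := h.C0
  have x0 : 0 ≤ 1 * exp (-N) := by positivity
  have x1 : 0 ≤ err / r ^ 2 := by positivity
  have x2 : 0 ≤ P * Γ := by positivity
  have Z0 : 0 ≤ Z := by linarith
  have NP : 1 ≤ N * P := one_le_mul_of_one_le_of_one_le N1 P1
  have l1 : r ≤ N * P * r := le_mul_of_one_le_left r0.le NP
  have Γr : Γ ≤ r := (le_mul_of_one_le_left Γ0 P1).trans hΓ
  have hab : a ≤ b := by linarith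
  obtain ⟨w1, -, w3⟩ := h.one_20 P1 r0 hd hD hb1 hC hb0 Γ0 hΓ hs (by linarith) hR he hab hZ
  have e1 : err ≤ r ^ 2 * Z := by
    have : err / r ^ 2 ≤ Z := by linarith
    rwa [div_le_iff₀' r2] at this
  have PP : P ≤ P ^ 2 := le_self_pow₀ P1 two_ne_zero
  have P2 : 1 ≤ P ^ 2 := P1.trans PP
  have g1 : P ^ 2 * Γ ^ 2 ≤ r ^ 2 := by rw [← mul_pow]; exact pow_le_pow_left₀ x2 hΓ 2
  have g2 : b₁ * Γ ^ 2 ≤ 4 * d := by
    have a1 : P * (b₁ * Γ ^ 2) ≤ P * d := by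
      have := mul_le_mul_of_nonneg_right hb1 (mul_nonneg P0.le (sq_nonneg Γ))
      linarith only [this, g1, hd]
    have := le_of_mul_le_mul_left a1 P0
    linarith
  have o1 : C₁ * Γ + δ ≤ Z := by linarith [mul_le_mul_of_nonneg_right hC Γ0]
  have o0 : 0 ≤ C₁ * Γ + δ := by positivity
  have rZ : 0 ≤ r ^ 2 * Z := by positivity
  have a7 : r ^ 2 * Z ≤ P ^ 2 * r ^ 2 * Z := by
    rw [mul_assoc]; exact le_mul_of_one_le_left rZ P2
  have E : eP b₁ p₀ D err C₁ δ Γ + P ^ 2 * r ^ 2 * p₀ ≤ 5 * P ^ 2 * r ^ 2 * Z := by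
    have a1 : D * (C₁ * Γ + δ) ≤ P ^ 2 * r ^ 2 * (P * Γ + δ) :=
      mul_le_mul (hD.trans (mul_le_mul_of_nonneg_right PP r2.le))
        (by linarith [mul_le_mul_of_nonneg_right hC Γ0]) o0 (by positivity)
    have a2 : Γ ^ 2 * b₁ ≤ r ^ 2 := by
      have := mul_le_mul_of_nonneg_left (hb1.trans PP) (sq_nonneg Γ)
      linarith
    have a3 : Γ ^ 2 ≤ r ^ 2 := pow_le_pow_left₀ Γ0 Γr 2
    have a4 : Γ ^ 2 * b₁ * (C₁ * Γ + δ) ≤ r ^ 2 * Z := mul_le_mul a2 o1 o0 r2.le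
    have a5 : Γ ^ 2 * p₀ ≤ r ^ 2 * Z := mul_le_mul a3 (by linarith) p0 r2.le
    have a8 : P ^ 2 * r ^ 2 * (P * Γ + δ + p₀) ≤ P ^ 2 * r ^ 2 * Z :=
      mul_le_mul_of_nonneg_left (by linarith) (by positivity)
    have b2 : 0 ≤ Γ ^ 2 * p₀ := by positivity
    unfold eP
    linarith only [a1, a4, a5, a7, a8, e1, rZ, b2]
  have rB : 0 ≤ r ^ 2 * Bb := by positivity
  have s1 : Sh a b gp (a + N * P * r) b Γ := fun s s' hg h1 h2 h3 _ _ =>
    hs s s' hg h1 h2 h3 (h2.trans h3) (h1.trans h2)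
  have q1 : D * p₀ ≤ 2 * b₀ * (P ^ 2 * r ^ 2 * p₀) := by
    have a1 : D * p₀ ≤ P * r ^ 2 * p₀ := mul_le_mul_of_nonneg_right hD p0
    have a2 : 1 * (P * r ^ 2 * p₀) ≤ b₀ * P * (P * r ^ 2 * p₀) :=
      mul_le_mul_of_nonneg_right hb0 (by positivity)
    have a3 : 0 ≤ P * r ^ 2 * p₀ := by positivity
    linarith only [a1, a2, a3]
  have m1 := h.one53 (a' := a + N * P * r) (b' := b) (X := r ^ 2 * (5 * P ^ 2 * Z + Bb))
    (by linarith) le_rfl s1 g2 (by positivity) q1 (by linarith only [E, rB])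
    (by linarith only [(abs_le.1 (w1 (a + N * P * r) ⟨le_rfl, by linarith⟩)).2, rB])
    (by linarith only [hB, a7, rZ])
  have m2 : ∀ t ∈ Icc (b - 2 * (N * P * r)) b, u t ≤ 7 * P ^ 3 * Z + P * Bb := fun t ht => by
    refine (h.lab53 (by linarith) le_rfl Γ0 s1 (by positivity) m1
      (t := t) ⟨by linarith [ht.1], ht.2⟩).trans ?_
    have a1 : (r ^ 2 * (5 * P ^ 2 * Z + Bb) + err) / d ≤ 6 * P ^ 3 * Z + P * Bb := by
      rw [div_le_iff₀ d0]
      have a3 := mul_le_mul_of_nonneg_left hd (by positivity : 0 ≤ 6 * P ^ 2 * Z + Bb)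
      linarith only [a7, a3, e1]
    have a4 : Z ≤ P ^ 3 * Z := le_mul_of_one_le_left Z0 (one_le_pow₀ P1)
    linarith
  intro t ht
  refine ⟨m1 t ⟨by linarith [ht.1], ht.2⟩, m2 t ht, ?_⟩
  have c1 := h.slo53 (x := b - 2 * (N * P * r)) (by linarith) ht.1 ht.2 (by positivity)
    fun s hs => m2 s ⟨hs.1, hs.2.trans ht.2⟩
  have c2 := (abs_le.1 (w3 (b - 2 * (N * P * r)) ⟨by linarith, by linarith⟩)).2
  have P4 : P ^ 2 ≤ P ^ 4 := pow_le_pow_right₀ P1 (by norm_num)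
  have c3 : 2 * b₁ * (7 * P ^ 3 * Z + P * Bb) + p₀ ≤ 15 * P ^ 4 * (Z + Bb) := by
    have a1 := mul_le_mul_of_nonneg_right hb1 (by positivity : 0 ≤ 7 * P ^ 3 * Z + P * Bb)
    have a2 := mul_le_mul_of_nonneg_right P4 B0
    have a3 : Z ≤ P ^ 4 * Z := le_mul_of_one_le_left Z0 (one_le_pow₀ P1)
    have a4 : 0 ≤ P ^ 4 * Bb := by positivity
    nlinarith
  have c4 : (2 * b₁ * (7 * P ^ 3 * Z + P * Bb) + p₀) * (t - (b - 2 * (N * P * r))) ≤
      15 * P ^ 4 * (Z + Bb) * (2 * (N * P * r)) :=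
    mul_le_mul c3 (by linarith [ht.2]) (by linarith [ht.1]) (by positivity)
  have c5 : P ^ 4 * r * Z ≤ N * P * (P ^ 4 * r * (Z + Bb)) :=
    (mul_le_mul_of_nonneg_left (by linarith) (by positivity)).trans
      (le_mul_of_one_le_left (by positivity) NP)
  linarith only [c1, c2, c4, c5]

end Tk

end Crest.Agent.T156.Rig

namespace Crest.Agent.T156.Alt.Mp9

open MeasureTheory Set Real
open Crest.Agent.T156.Pp.Area50 Crest.Agent.T156.Spl27 Crest.Agent.T156.Zb9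

/-- **both sides of the last part of a window of good nodes** -/
theorem Nw.side53 (T0 : ℝ) : ∃ K : ℝ, 1 ≤ K ∧ ∀ {S : Sc} {M : Md} {m : ℕ} {a T : ℝ}
    {Gn : ℕ → Prop} {u v : ℕ} {a' b' δ θ e o lam g : ℝ} {c : ℕ → ℝ},
    Nw S M m a T Gn u v a' b' δ θ e o lam g c →
    T ≤ T0 → ∀ {P r N Γ j F : ℝ}, Nk K T0 S m a' b' δ θ e o lam g P r N Γ j F →
    (∀ i k, Nx Gn u v i k → sb M m a (k + 1) - sb M m a (i + 1) ≤ Γ) →
    (∀ t ∈ Icc (sb M m a (u + 1)) (sb M m a (v + 1)), Rig.Hp (lh M T) (lb M S m a T) t ≤ j) →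
    sb M m a (v + 1) - sb M m a (u + 1) ≤ 14 * N * P * r →
    4 * (N * P * r) ≤ sb M m a (v + 1) - sb M m a (u + 1) → ∀ B, 0 ≤ B →
    ∀ t ∈ Icc (sb M m a (v + 1) - 2 * (N * P * r)) (sb M m a (v + 1)),
      (uu M S m a T (sb M m a (v + 1)) ≤ B → uu M S m a T t ≤ 8 * P ^ 7 * (F + Γ + B) ∧
        Rig.muf M.b (lb M S m a T) t - Rig.muf M.b (lh M T) t ≤ 96 * N * P ^ 9 * r * (F + Γ + B)) ∧
      (-B ≤ uu M S m a T (sb M m a (v + 1)) → -(8 * P ^ 7 * (F + Γ + B)) ≤ uu M S m a T t ∧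
        -(96 * N * P ^ 9 * r * (F + Γ + B)) ≤
          Rig.muf M.b (lb M S m a T) t - Rig.muf M.b (lh M T) t) := by
  obtain ⟨K0, K01, H0⟩ := Nw.tk T0
  obtain ⟨K1, K11, H1⟩ := gd_le T0
  refine ⟨K0 * K1, one_le_mul_of_one_le_of_one_le K01 K11,
    fun {S M m a T Gn u v a' b' δ θ e o lam g c} W hT {P r N Γ j F} h hΓ hp hW hW' B B0 t ht => ?_⟩
  have A := W.at'
  have C1 := A.cl.C1
  have C0 := A.c_pos
  have v0 := v_pos A.cl
  have P1 := h.P1
  have P0 : 0 < P := by linarith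
  have P1' : 1 ≤ P := by linarith
  have r0 := h.r0
  have r2 : 0 < r ^ 2 := by positivity
  have uv := A.sb_mono (Nat.succ_le_succ W.uv)
  have j0 : 0 ≤ j := (Hp_nn A _).trans (hp _ ⟨le_rfl, uv⟩)
  have C3 : S.C ≤ S.C ^ 3 := le_self_pow₀ C1 (by norm_num)
  have C2 : S.C ^ 2 ≤ S.C ^ 3 := pow_le_pow_right₀ C1 (by norm_num)
  have PC := h.PC
  have P3 : P ≤ P ^ 3 := le_self_pow₀ P1' (by norm_num)
  have k0 : K0 * S.C ≤ P := le_trans (by gcongr; exact le_mul_of_one_le_right (by linarith) K11) h.PK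
  have k1 : K1 ≤ P := ((le_mul_of_one_le_left (by linarith) K01).trans
    (le_mul_of_one_le_right (by positivity) C1)).trans h.PK
  have o0 := W.o0
  have l0 := W.lam0
  have Γ0 := h.Γ0
  have N1 := h.N1
  have hQ : ∀ k, u ≤ k → k ≤ v → |L0.Gd (lb M S m a T) (sb M m a (k + 1))| ≤
      P * r + P * j + 2 * |uu M S m a T (sb M m a (k + 1))| := fun k p q => by
    have a1 := H1 A hT W.a0 W.b1 (W.mb p q)
    have a2 : S.ms b' / a' ≤ 16 * r := by
      rw [div_le_iff₀ W.a0]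
      linarith [h.rb, mul_le_mul_of_nonneg_left h.ra r0.le]
    have a3 := mul_le_mul_of_nonneg_left a2 C0.le
    have a4 := mul_le_mul_of_nonneg_right (show 16 * S.C ≤ P by linarith) r0.le
    have a5 := mul_le_mul k1 (hp _ ⟨A.sb_mono (Nat.succ_le_succ p), A.sb_mono (Nat.succ_le_succ q)⟩)
      (Hp_nn A _) P0.le
    linarith
  obtain ⟨c0, hc⟩ := W.anchor hΓ hQ hW
  have Γr : P * Γ ≤ r :=
    (mul_le_mul_of_nonneg_right (le_self_pow₀ P1' (by norm_num)) Γ0).trans h.Γr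
  have Γr' : Γ ≤ r := (le_mul_of_one_le_left Γ0 P1').trans Γr
  have l1 : N * (lam * Γ) ≤ r := (le_mul_of_one_le_left (by positivity) (P1'.trans P3)).trans h.l1
  have l2 : P ^ 3 * (lam * Γ ^ 2) ≤ r ^ 2 := by
    have : P ^ 3 * (lam * Γ) ≤ r :=
      (mul_le_mul_of_nonneg_left (le_mul_of_one_le_left (by positivity) N1) (by positivity)).trans h.l1
    have := mul_le_mul this Γr' Γ0 r0.le
    linarith
  have om : S.C * (6 * o + 2 * (lam * Γ ^ 2)) ≤ S.ms a' / (2 * S.C ^ 2) := by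
    rw [← h.r2, le_div_iff₀ (by positivity)]
    have a1 := mul_le_mul_of_nonneg_right (PC.trans P3) o0
    have a2 := mul_le_mul_of_nonneg_right (PC.trans P3) (by positivity : 0 ≤ lam * Γ ^ 2)
    linarith [h.o1]
  have tk := H0 W hT (by have := W.e0; positivity) (by positivity) om hc hp
  have θ1 : θ ≤ 1 := (le_mul_of_one_le_left W.θ0 (P1'.trans P3)).trans h.θ1
  have bb := A.ms_pos (W.a0.le.trans ((W.mb le_rfl W.uv).1.trans (W.mb le_rfl W.uv).2))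
  have g0 : 0 ≤ g := (abs_nonneg _).trans (W.hg u le_rfl W.uv W.gu)
  have hd : r ^ 2 ≤ P * (S.ms a' / (2 * S.C ^ 2)) := by
    rw [← h.r2, ← mul_div_assoc, le_div_iff₀ (by positivity)]
    linarith [mul_le_mul_of_nonneg_right (show 2 * S.C ^ 2 ≤ P by linarith) r2.le]
  have hD : 2 * (S.C ^ 2 * S.ms b') ≤ P * r ^ 2 := by
    linarith [mul_le_mul_of_nonneg_left h.rb (sq_nonneg S.C),
      mul_le_mul_of_nonneg_right (show 32 * S.C ^ 2 ≤ P by linarith) r2.le]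
  have hZ := Z_le (w := 1 / ((m : ℝ) + 1)) C1 P1 PC k0 r0 h.rb N1 Γ0 o0
    ((le_mul_of_one_le_left o0 (P1'.trans P3)).trans h.o1) l0 l1 v0.le h.vr j0 h.jF h.δF h.vF
    h.eF h.gF (by positivity) h.mF h.oF h.NF rfl
  rw [mul_one_div] at hZ
  generalize hE : errW S m b' (e + 2 * o * (P * r + P * j) + o * (14 * N * P * r) +
    (o + lam * Γ ^ 2) * (S.C * (14 * N * P * r) + S.C * S.v)) g = er at tk
  have er0 : 0 ≤ er := by rw [← hE]; have := W.e0; unfold errW; positivity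
  have hZ' : P * Γ + (δ + S.C * S.v) + K0 * S.C * j + 1 * exp (-N) + er / r ^ 2 ≤
      P ^ 4 * (F + Γ) := by rw [← hE]; unfold errW; exact hZ
  have F0 : 0 ≤ F := j0.trans h.jF
  have e1 : er ≤ r ^ 2 * (P ^ 4 * (F + Γ)) := by
    have := W.δ0
    have x : er / r ^ 2 ≤ P ^ 4 * (F + Γ) := by
      have : 0 ≤ P * Γ + (δ + S.C * S.v) + K0 * S.C * j + 1 * exp (-N) := by positivity
      linarith
    rwa [div_le_iff₀' r2] at x
  obtain ⟨μ, μ1, μ2, μ3⟩ := tk.eR _ _ ⟨v, v, ⟨W.uv, le_rfl, le_rfl, W.gv, W.gv,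
    fun k p q => absurd p (not_lt.2 q.le)⟩, rfl, rfl⟩ uv le_rfl le_rfl
  have μ0 : 0 ≤ μ := tk.d0.le.trans μ1
  have μB : μ * B ≤ P * r ^ 2 * B := mul_le_mul_of_nonneg_right (μ2.trans hD) B0
  have Z0 : 0 ≤ P ^ 4 * (F + Γ) := by positivity
  have n1 : 7 * P ^ 3 * (P ^ 4 * (F + Γ)) + P * (P * B + P ^ 4 * (F + Γ)) ≤
      8 * P ^ 7 * (F + Γ + B) := by
    have a1 : P ^ 2 * B ≤ P ^ 7 * B :=
      mul_le_mul_of_nonneg_right (pow_le_pow_right₀ P1' (by norm_num)) B0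
    have a2 : P ^ 5 * (F + Γ) ≤ P ^ 7 * (F + Γ) :=
      mul_le_mul_of_nonneg_right (pow_le_pow_right₀ P1' (by norm_num)) (by positivity)
    have a3 : 0 ≤ P ^ 7 * B := by positivity
    linarith only [a1, a2, a3]
  have n2 : 48 * N * P ^ 5 * r * (P ^ 4 * (F + Γ) + (P * B + P ^ 4 * (F + Γ))) ≤
      96 * N * P ^ 9 * r * (F + Γ + B) := by
    have a1 : P * B ≤ P ^ 4 * B :=
      mul_le_mul_of_nonneg_right (le_self_pow₀ P1' (by norm_num)) B0
    have a2 : P ^ 4 * (F + Γ) + (P * B + P ^ 4 * (F + Γ)) ≤ 2 * P ^ 4 * (F + Γ + B) := by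
      have : 0 ≤ P ^ 4 * B := by positivity
      linarith only [a1, this]
    have := mul_le_mul_of_nonneg_left a2 (by positivity : 0 ≤ 48 * N * P ^ 5 * r)
    linarith only [this]
  refine ⟨fun hu => ?_, fun hu => ?_⟩
  · obtain ⟨-, y2, y3⟩ := tk.side53 (Bb := P * B + P ^ 4 * (F + Γ)) P1' r0 hd hD (by linarith)
      (by linarith) h.PT Γ0 Γr (Wd.sh hΓ) N1 (fun t _ => A.abs_uu_one t) er0 hW' hZ'
      (by positivity) (by
        have := mul_le_mul_of_nonneg_left hu μ0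
        linarith only [this, μB, e1, (abs_le.1 μ3).2]) t ht
    exact ⟨y2.trans n1, y3.trans n2⟩
  · obtain ⟨-, y2, y3⟩ := tk.neg.side53 (Bb := P * B + P ^ 4 * (F + Γ)) P1' r0 hd hD (by linarith)
      (by linarith) h.PT Γ0 Γr (Wd.sh hΓ) N1 (fun t _ => by rw [abs_neg]; exact A.abs_uu_one t)
      er0 hW' hZ' (by positivity) (by
        have := mul_le_mul_of_nonneg_left hu μ0
        linarith only [this, μB, e1, (abs_le.1 μ3).1]) t ht
    exact ⟨by linarith only [y2, n1], by linarith only [y3, n2]⟩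

end Crest.Agent.T156.Alt.Mp9

end
end

-- ▼ part T156/TLqI_53

/-!
# Row 156, block (L): the last window, lag of the last good node and the linear floor (helper53)
-/

set_option autoImplicit false

noncomputable section

namespace Crest.Agent.T156.Alt.Mp9

open MeasureTheory Set Real
open Crest.Agent.R164.GC Crest.Agent.R339.B Crest.Agent.R339.Var Crest.Agent.T157.Pf
open Crest.Agent.T156.Pr.Cv25 Crest.Agent.T156.Pr.Reg48
open Crest.Agent.T156.Pp.Area50 Crest.Agent.T156.Spl27 Crest.Agent.T156.Zb9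

/-- `G` rises only on `[p, q]` -/
theorem GG_hump53 {l : List (ℝ × ℝ)} {y k p q t : ℝ} (h : Pr.Ok l) (y0 : 0 ≤ y) (k0 : 0 ≤ k)
    (pq : p ≤ q) (h1 : ∀ s ∈ Ico y (TT l), Pr.Reg48.Gd l s ≤ k)
    (h2 : ∀ s ∈ Ico y (TT l), s < p ∨ q ≤ s → Pr.Reg48.Gd l s ≤ 0) (ht : t ∈ Icc y (TT l)) :
    Pr.GG l t ≤ Pr.GG l y + k * (q - p) := by
  have a1 : y ≤ min t (max y p) := le_min ht.1 (le_max_left _ _)
  have a2 : min t (max y p) ≤ min t (max y q) := min_le_min_left _ (max_le_max_left _ pq)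
  have a3 : min t (max y q) ≤ t := min_le_left _ _
  have b1 := GG_up h y0 a1 ((a2.trans a3).trans ht.2) (K := 0) fun s hs =>
    h2 s ⟨hs.1, hs.2.trans_le ((a2.trans a3).trans ht.2)⟩ (Or.inl
      ((lt_max_iff.1 (hs.2.trans_le (min_le_right _ _))).resolve_left (not_lt.2 hs.1)))
  have b2 := GG_up h (y0.trans a1) a2 (a3.trans ht.2) (K := k) fun s hs =>
    h1 s ⟨a1.trans hs.1, hs.2.trans_le (a3.trans ht.2)⟩
  have b3 := GG_up h ((y0.trans a1).trans a2) a3 ht.2 (K := 0) fun s hs =>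
    h2 s ⟨(a1.trans a2).trans hs.1, hs.2.trans_le ht.2⟩ (Or.inr ((le_max_right y q).trans
      ((min_le_iff.1 hs.1).resolve_left (not_le.2 hs.2))))
  have c : min t (max y q) - min t (max y p) ≤ q - p := by
    simp only [min_def, max_def]
    split_ifs <;> linarith
  linarith [mul_le_mul_of_nonneg_left c k0]

namespace At

variable {S : Sc} {M : Md} {m : ℕ} {a T : ℝ}

theorem zh53 (A : At S M m a T) {t : ℝ} (h0 : 0 ≤ t) (h : t < M.s S.J) :
    (M.s S.J - t) / S.C - 2 * (S.C * S.v) ≤ M.z (S.J - 1) - lvr 1 (lh M T) t ∧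
      M.z (S.J - 1) - lvr 1 (lh M T) t ≤ S.C * (M.s S.J - t) + S.C * S.v := by
  obtain ⟨p1, p2⟩ := A.s_pred
  have C1 := A.cl.C1
  have C0 := A.c_pos
  have cv : 0 < S.C * S.v := mul_pos C0 (v_pos A.cl)
  have d : ∀ x, x ≤ S.C * S.v → x / S.C ≤ S.C * S.v := fun x hx =>
    (div_le_div_of_nonneg_right hx C0.le).trans (div_le_self cv.le C1)
  rcases le_total t (M.s (S.J - 1)) with c | c
  · obtain ⟨q1, q2⟩ := A.sl p1 t _ h0 c le_rfl
    rw [A.zh_pred, one_div_mul_eq_div] at q1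
    rw [A.zh_pred] at q2
    have e : (M.s S.J - t) / S.C =
        (M.s (S.J - 1) - t) / S.C + (M.s S.J - M.s (S.J - 1)) / S.C := by ring
    exact ⟨by linarith [d _ p2], by nlinarith⟩
  · have q1 := A.zh_le_8 h
    have q2 := Sc48.lvr_mono A.okh.1.1 c
    rw [A.zh_pred] at q2
    exact ⟨by linarith [d (M.s S.J - t) (by linarith)], by nlinarith⟩

/-- `Γ''` of the mean profile from a label gap to a sloped reference time -/
theorem gd53 (T0 : ℝ) : ∃ K : ℝ, 1 ≤ K ∧ ∀ {S : Sc} {M : Md} {m : ℕ} {a T : ℝ}, At S M m a T →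
    T ≤ T0 → ∀ {a' t t0 j q x : ℝ}, 0 < a' → a' ≤ t0 → t0 < M.s S.J → S.C * (S.θ / a') ≤ q →
    t ∈ Icc 0 T → Rig.Hp (lh M T) (lb M S m a T) t ≤ j → 0 ≤ x →
    (lvr 1 (lb M S m a T) t - lvr 1 (lh M T) t0 ≤ x →
      -(q + 2 * x + K * (j + |t - t0|)) ≤ Pr.Reg48.Gd (lb M S m a T) t) ∧
    ∀ d, 0 ≤ d → d - x ≤ lvr 1 (lb M S m a T) t - lvr 1 (lh M T) t0 →
      Pr.Reg48.Gd (lb M S m a T) t ≤ q + 2 * x - 2 * exp (-(4 * T0)) * d + K * (j + |t - t0|) := by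
  obtain ⟨K, K1, H⟩ := Gd_two T0
  refine ⟨K, K1, fun {S M m a T} A hT {a' t t0 j q x} a0 h0 h1 hq ht hj x0 => ?_⟩
  have tt := A.okh.2
  have m0 : t0 ∈ Icc 0 (TT (lh M T)) := by
    rw [tt]; exact ⟨a0.le.trans h0, (h1.le.trans (A.cl.sm A.cl.i3)).trans A.t2⟩
  have k := abs_le.1 (H _ _ A.okb.1 A.okh.1 (A.okb.2.trans tt.symm) (by rwa [tt]) t (by rwa [tt])
    t0 m0 j hj).1
  have g : |Pr.Reg48.Gd (lh M T) t0| ≤ q := (A.gd_h m0.1 h1).trans (le_trans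
    (mul_le_mul_of_nonneg_left (div_le_div₀ ((A.ms_pos le_rfl).le.trans (A.cl.ms1 0))
      (A.cl.ms1 t0) a0 (h0.trans (le_max_left _ _))) A.c_pos.le) hq)
  have g' := abs_le.1 g
  have e1 : exp (-(4 * T0)) ≤ Pr.AA (lh M T) t0 := Rig.Am_ge (ap_of_ok A.okh.1) (by rwa [tt]) m0
  have e2 : Pr.AA (lh M T) t0 ≤ 1 := Pp.Ode3.Am_le_one A.okh.1.1 t0
  have e0 : 0 ≤ Pr.AA (lh M T) t0 := (exp_pos _).le.trans e1
  have e3 := mul_le_mul_of_nonneg_right e2 x0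
  refine ⟨fun hx => ?_, fun d d0 hx => ?_⟩
  · linarith [mul_le_mul_of_nonneg_left hx e0, k.1]
  · linarith [mul_le_mul_of_nonneg_left hx e0, mul_le_mul_of_nonneg_right e1 d0, k.2]

/-- rise of the labels between two sloped nodes from an upper bound of `μ` -/
theorem dz53 (A : At S M m a T) {i k : ℕ} {a' μ g E : ℝ} (h1 : S.jl < i) (h : i ≤ k) (h2 : k < S.J)
    (a0 : 0 ≤ a') (ha : a' ≤ M.s i) (E0 : 0 ≤ E)
    (hμ : ∀ t ∈ Ico (sb M m a (i + 1)) (sb M m a (k + 1)), 1 - M.b * Pr.GG (lb M S m a T) t ≤ μ)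
    (hE : res M S m a T k - res M S m a T i ≤ E) (gi : |M.G i| ≤ g) (gk : |M.G k| ≤ g) :
    S.ms a' / S.C ^ 3 * (M.z k - M.z i) ≤
      μ * (sb M m a (k + 1) - sb M m a (i + 1)) + S.C / (m + 1) + S.C * E + 2 * g := by
  have kp := h2.le.trans A.cl.i3
  have b0 := A.b_pos
  have C0 := A.c_pos
  have r := Mh_le A.okb.1 b0 (A.sb_mem (h.trans kp)).1 (A.sb_mono (Nat.succ_le_succ h))
    (by rw [A.okb.2]; exact (A.sb_mem kp).2) hμ
  have e1 := A.Mf_b (h1.trans_le h) kp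
  have e2 := A.Mf_b h1 (h.trans kp)
  change sb M m a (k + 1) - M.b * Pr.Gam _ _ = _ at e1
  change sb M m a (i + 1) - M.b * Pr.Gam _ _ = _ at e2
  have t1 := (A.tail_mem (A.jp_le kp)).2
  have t2 := (A.tail_mem (A.jp_le (h.trans kp))).1
  rw [d_top A.cl (h1.trans_le h) (A.jp_le kp)] at t1
  rw [d_top A.cl h1 (A.jp_le (h.trans kp))] at t2
  have r3 := (mul_le_mul_of_nonneg_left hE b0.le).trans (mul_le_mul_of_nonneg_right A.cl.b1 E0)
  have p := (A.Mf_sl a0 (A.cl.sm kp) _ _ ha (A.cl.sm h) le_rfl).1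
  rw [A.Mf_node (h1.trans_le h) kp, A.Mf_node h1 (h.trans kp)] at p
  have q := mul_le_mul_of_nonneg_left (A.s_z (A.cl.i1.trans h1.le) h h2).1
    (div_nonneg (A.ms_pos a0).le C0.le)
  have e : S.ms a' / S.C * (1 / S.C ^ 2 * (M.z k - M.z i)) =
      S.ms a' / S.C ^ 3 * (M.z k - M.z i) := by field_simp
  linarith [(abs_le.1 gi).2, (abs_le.1 gk).1]

end At

/-- the last window: `V2` is the last good node in labels, `w'` a node of the plateau above which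
the mean profile is concave, `w` dominates all small quantities -/
structure Lw (S : Sc) (M : Md) (m : ℕ) (a T : ℝ) (u v V2 w' : ℕ)
    (a' g P r N Γ F R1 w1 Pm er la cm jj w : ℝ) : Prop where
  l1 : sb M m a (v + 1) - sb M m a (u + 1) ≤ 14 * N * P * r
  l2 : 4 * (N * P * r) ≤ sb M m a (v + 1) - sb M m a (u + 1)
  θr : S.ms (M.s S.J) ≤ 16 * r ^ 2
  Pa : 1 ≤ P * a'
  vV : v ≤ V2
  VJ : V2 < S.J
  Jw : S.J ≤ w'
  wJ : w' ≤ S.Jp
  Mt : |sb M m a (w' + 1) - M.s S.J| ≤ Pm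
  conc : ∀ t ∈ Ico (sb M m a (w' + 1)) T, Pr.Reg48.Gd (lb M S m a T) t ≤ 0
  hp : ∀ t ∈ Icc (sb M m a (v + 1)) T, Rig.Hp (lh M T) (lb M S m a T) t ≤ jj
  top : M.z (S.J - 1) - M.z V2 ≤ R1
  e2 : res M S m a T V2 - res M S m a T v ≤
    er + la * (sb M m a (V2 + 1) - sb M m a (v + 1)) + cm * (M.z V2 - M.z v)
  g2 : |M.G V2| ≤ g
  er0 : 0 ≤ er
  erF : er ≤ F * r ^ 2
  la0 : 0 ≤ la
  lar : la ≤ r ^ 2
  cm0 : 0 ≤ cm
  cmr : P ^ 3 * cm ≤ r ^ 2
  late : v = V2 ∨ (M.s S.J - sb M m a (v + 1) ≤ w1 ∧ uu M S m a T (sb M m a (v + 1)) ≤ w1)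
  w10 : 0 ≤ w1
  Fw : F ≤ w
  Γw : Γ ≤ w
  Rw : R1 ≤ w
  ww : w1 ≤ w
  Pw : Pm ≤ w
  jw : jj ≤ w
  θw : S.θ ≤ 16 * w
  sm : N * P ^ 14 * w ≤ r

theorem Nk.anti53 {K K' T0 : ℝ} {S : Sc} {m : ℕ} {a' b' δ θ e o lam g P r N Γ j F : ℝ}
    (h : Nk K T0 S m a' b' δ θ e o lam g P r N Γ j F) (C0 : 0 ≤ S.C) (hK : K' ≤ K) :
    Nk K' T0 S m a' b' δ θ e o lam g P r N Γ j F :=
  { h with PK := (mul_le_mul_of_nonneg_right hK C0).trans h.PK }

set_option maxHeartbeats 1600000 in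
/-- **the lag of the last good node and the linear floor** -/
theorem Nw.mu53 (T0 : ℝ) : ∃ K : ℝ, 1 ≤ K ∧ ∀ {S : Sc} {M : Md} {m : ℕ} {a T : ℝ}
    {Gn : ℕ → Prop} {u v : ℕ} {a' b' δ θ e o lam g : ℝ} {c : ℕ → ℝ},
    Nw S M m a T Gn u v a' b' δ θ e o lam g c →
    T ≤ T0 → ∀ {P r N Γ j F : ℝ}, Nk K T0 S m a' b' δ θ e o lam g P r N Γ j F →
    (∀ i k, Nx Gn u v i k → sb M m a (k + 1) - sb M m a (i + 1) ≤ Γ) →
    (∀ t ∈ Icc (sb M m a (u + 1)) (sb M m a (v + 1)), Rig.Hp (lh M T) (lb M S m a T) t ≤ j) →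
    ∀ {V2 w' : ℕ} {R1 w1 Pm er la cm jj w : ℝ},
    Lw S M m a T u v V2 w' a' g P r N Γ F R1 w1 Pm er la cm jj w →
    M.z (S.J - 1) - M.z v ≤ R1 + P ^ 2 * (w1 + Pm + F) ∧
    ∀ t ∈ Icc (sb M m a (v + 1) - 2 * (N * P * r)) T,
      M.b * Pr.GG (lb M S m a T) t ≤ 1 - r ^ 2 / (2 * S.C) := by
  obtain ⟨K1, K11, H1⟩ := Nw.side53 T0
  obtain ⟨K2, K21, H2⟩ := At.gd53 T0
  refine ⟨K1 * K2, one_le_mul_of_one_le_of_one_le K11 K21,
    fun {S M m a T Gn u v a' b' δ θ e o lam g c} W hT {P r N Γ j F} h hΓ hp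
      {V2 w' R1 w1 Pm er la cm jj w} L => ?_⟩
  have A := W.at'
  have C1 := A.cl.C1
  have C0 := A.c_pos
  have v0 := v_pos A.cl
  have P1 := h.P1
  have P0 : 0 < P := by linarith
  have P1' : 1 ≤ P := by linarith
  have r0 := h.r0
  have r2 : 0 < r ^ 2 := by positivity
  have N1 := h.N1
  have Γ0 := h.Γ0
  have F0 : 0 ≤ F := v0.le.trans h.vF
  have w0 : 0 ≤ w := F0.trans L.Fw
  have b0 := A.b_pos
  have b1 := A.cl.b1
  have C3 : S.C ≤ S.C ^ 3 := le_self_pow₀ C1 (by norm_num)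
  have PC : 32 * S.C ≤ P := by linarith [h.PC]
  have k2 : K2 ≤ P := ((le_mul_of_one_le_left (by linarith) K11).trans
    (le_mul_of_one_le_right (by positivity) C1)).trans h.PK
  have sd := H1 W hT (h.anti53 C0.le (le_mul_of_one_le_right (by linarith) K21)) hΓ hp L.l1 L.l2
  have vJ := W.vJ
  have vp := vJ.le.trans A.cl.i3
  have Vp := L.VJ.le.trans A.cl.i3
  have ym := W.mb W.uv le_rfl
  have yT := A.sb_mem vp
  have zy := A.lvb_node (W.ju.le.trans W.uv) vp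
  have yσ : sb M m a (v + 1) < M.s S.J := W.bv.trans_lt W.b1
  have σT : M.s S.J ≤ T := (A.cl.sm A.cl.i3).trans A.t2
  have zm := Sc48.lvr_mono A.okb.1.1
  have Mt := abs_le.1 L.Mt
  have Pm0 : 0 ≤ Pm := (abs_nonneg _).trans L.Mt
  have w10 := L.w10
  have Fw := L.Fw
  have Γw := L.Γw
  have ww := L.ww
  have Pw := L.Pw
  have jw := L.jw
  have n0 : 0 ≤ N * P * r := by positivity
  have vw : S.C * S.v ≤ S.C * w := mul_le_mul_of_nonneg_left (h.vF.trans Fw) C0.le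
  have Cw : 32 * (S.C * w) ≤ P * w := by linarith [mul_le_mul_of_nonneg_right PC w0]
  have Pw0 : 100 * w ≤ P * w := mul_le_mul_of_nonneg_right P1 w0
  have Pw1 : 100 * (P * w) ≤ P ^ 2 * w := by
    rw [pow_two, mul_assoc]; exact mul_le_mul_of_nonneg_right P1 (by positivity)
  have hq : S.C * (S.θ / a') ≤ P ^ 2 * w / 2 := by
    have a1 : S.θ / a' ≤ 16 * (P * w) := by
      rw [div_le_iff₀ W.a0]
      linarith [mul_le_mul_of_nonneg_left L.Pa w0, L.θw]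
    have a2 := mul_le_mul_of_nonneg_left a1 C0.le
    have a3 := mul_le_mul_of_nonneg_right PC (by positivity : 0 ≤ P * w)
    linarith
  have s14 : P ^ 14 * w ≤ r :=
    le_trans (by rw [mul_assoc]; exact le_mul_of_one_le_left (by positivity) N1) L.sm
  have s28 : P ^ 28 * w ^ 2 ≤ r ^ 2 := by
    have := pow_le_pow_left₀ (by positivity) s14 2
    rwa [mul_pow, ← pow_mul] at this
  have sr : N * P ^ 14 * w * r ≤ r ^ 2 := by
    rw [pow_two]; exact mul_le_mul_of_nonneg_right L.sm r0.le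
  have pw : ∀ i k : ℕ, i ≤ k → ∀ x : ℝ, 0 ≤ x → P ^ i * x ≤ P ^ k * x := fun i k hk x hx =>
    mul_le_mul_of_nonneg_right (pow_le_pow_right₀ P1' hk) hx
  have pk : ∀ i k : ℕ, i + 1 = k → ∀ x : ℝ, 0 ≤ x → 100 * (P ^ i * x) ≤ P ^ k * x := by
    rintro i _ rfl x hx
    rw [pow_succ', mul_assoc]; exact mul_le_mul_of_nonneg_right P1 (by positivity)
  have cr : ∀ t, a' ≤ t → t ≤ M.s S.J → r ^ 2 / S.C ≤ Rig.muf M.b (lh M T) t ∧
      Rig.muf M.b (lh M T) t ≤ S.C * (16 * r ^ 2) := fun t p q => by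
    have tm : t ∈ Icc 0 (M.s S.Jp) := ⟨W.a0.le.trans p, q.trans (A.cl.sm A.cl.i3)⟩
    have e1 : Rig.muf M.b (lh M T) t = M.e t := A.e_h tm
    obtain ⟨c1, c2⟩ := A.cl.crit t tm
    rw [e1, h.r2]
    exact ⟨(div_le_div_of_nonneg_right (A.cl.msm p) C0.le).trans c1, c2.trans
      (mul_le_mul_of_nonneg_left ((A.cl.msm q).trans (h.r2 ▸ L.θr)) C0.le)⟩
  have zV : M.z V2 ≤ M.z (S.J - 1) := A.cl.leg.zm (by have := L.VJ; omega)
  have Cr : r ^ 2 ≤ S.C * r ^ 2 := le_mul_of_one_le_left r2.le C1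
  -- the lag
  have D1 : M.z V2 - M.z v ≤ P ^ 2 * (w1 + Pm + F) := by
    rcases L.late with e | ⟨q1, q2⟩
    · rw [← e, sub_self]; positivity
    have y2 : sb M m a (V2 + 1) - sb M m a (v + 1) ≤ w1 + Pm := by
      linarith [A.sb_mono (Nat.succ_le_succ (L.VJ.le.trans L.Jw))]
    have y1 := A.sb_mono (Nat.succ_le_succ L.vV)
    have u1 := ((sd w1 w10 _ ⟨by linarith, le_rfl⟩).1 q2).2
    have u2 : 96 * N * P ^ 9 * r * (F + Γ + w1) ≤ r ^ 2 := by
      have a1 : 96 * N * P ^ 9 * r * (F + Γ + w1) ≤ 96 * N * P ^ 9 * r * (3 * w) :=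
        mul_le_mul_of_nonneg_left (by linarith) (by positivity)
      have x0 : 0 ≤ N * w * r := by positivity
      linarith [pk 9 10 rfl _ x0, pk 10 11 rfl _ x0, pw 11 14 (by norm_num) _ x0,
        mul_nonneg (by positivity : 0 ≤ P ^ 9) x0]
    have u3 : 1 - M.b * Pr.GG (lb M S m a T) (sb M m a (v + 1)) ≤ 17 * (S.C * r ^ 2) := by
      have := (cr _ ym.1 yσ.le).2
      change Rig.muf M.b (lb M S m a T) (sb M m a (v + 1)) ≤ _
      linarith
    have zh := (A.zh53 yT.1 yσ).2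
    have u4 : ∀ s ∈ Ico (sb M m a (v + 1)) (sb M m a (V2 + 1)),
        -(P ^ 2 * w) ≤ Pr.Reg48.Gd (lb M S m a T) s := fun s hs => by
      have sT : s ≤ T := hs.2.le.trans (A.sb_mem Vp).2
      have a1 : lvr 1 (lb M S m a T) s ≤ M.z V2 := by
        rw [← A.lvb_node ((W.ju.le.trans W.uv).trans L.vV) Vp]; exact zm hs.2.le
      have a2 := mul_le_mul_of_nonneg_left (q1.trans ww) C0.le
      have a3 := (H2 A hT (x := 2 * (S.C * w)) W.a0 ym.1 yσ hq ⟨yT.1.trans hs.1, sT⟩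
        (L.hp s ⟨hs.1, sT⟩) (by positivity)).1 (by linarith)
      have a4 : K2 * (jj + |s - sb M m a (v + 1)|) ≤ P * (3 * w) := by
        refine le_trans (mul_le_mul_of_nonneg_left ?_ (by linarith))
          (mul_le_mul_of_nonneg_right k2 (by positivity))
        rw [abs_of_nonneg (sub_nonneg.2 hs.1)]
        linarith [hs.2]
      linarith
    have u5 : ∀ t ∈ Ico (sb M m a (v + 1)) (sb M m a (V2 + 1)),
        1 - M.b * Pr.GG (lb M S m a T) t ≤ 18 * (S.C * r ^ 2) := fun t ht => by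
      have a1 := GG_lo A.okb.1 yT.1 ht.1 (by rw [A.okb.2]; exact ht.2.le.trans (A.sb_mem Vp).2)
        (K := -(P ^ 2 * w)) fun s hs => u4 s ⟨hs.1, hs.2.trans ht.2⟩
      have a2 : P ^ 2 * w * (t - sb M m a (v + 1)) ≤ P ^ 2 * w * (2 * w) :=
        mul_le_mul_of_nonneg_left (by linarith [ht.2]) (by positivity)
      have a3 := mul_le_mul_of_nonneg_left (show Pr.GG (lb M S m a T) (sb M m a (v + 1)) -
        P ^ 2 * w * (2 * w) ≤ Pr.GG (lb M S m a T) t by linarith) b0.le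
      have a4 := mul_le_mul_of_nonneg_right b1 (by positivity : 0 ≤ P ^ 2 * w * (2 * w))
      have x0 : 0 ≤ w ^ 2 := by positivity
      have a5 : P ^ 2 * w ^ 2 * 2 ≤ r ^ 2 := by
        linarith [pk 2 3 rfl _ x0, pw 3 28 (by norm_num) _ x0,
          mul_nonneg (by positivity : 0 ≤ P ^ 2) x0]
      have a6 := mul_le_mul_of_nonneg_left a5 C0.le
      linarith
    have z0 : 0 ≤ M.z V2 - M.z v := sub_nonneg.2 (A.cl.leg.zm L.vV)
    have y0 := sub_nonneg.2 y1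
    have la0 := L.la0
    have cm0 := L.cm0
    have er0 := L.er0
    have d := A.dz53 (W.ju.trans_le W.uv) L.vV L.VJ W.a0.le (W.su.trans (A.cl.sm W.uv))
      (by positivity) u5 L.e2 (W.hg v W.uv le_rfl W.gv) L.g2
    rw [← h.r2] at d
    have C6 : 1024 * S.C ^ 6 ≤ P ^ 2 := by
      have := pow_le_pow_left₀ (by positivity) h.PC 2
      linarith
    have C4 : S.C ^ 4 ≤ S.C ^ 6 := pow_le_pow_right₀ C1 (by norm_num)
    have c40 : 0 < S.C ^ 4 := by positivity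
    have a1 : 2 * S.C ^ 4 * cm ≤ r ^ 2 := by
      have : 2 * S.C ^ 4 ≤ P ^ 3 := by linarith [pw 2 3 (by norm_num) 1 zero_le_one]
      exact (mul_le_mul_of_nonneg_right this cm0).trans L.cmr
    have a2 := mul_le_mul_of_nonneg_right a1 z0
    have a3 : 18 * (S.C * r ^ 2) * (sb M m a (V2 + 1) - sb M m a (v + 1)) ≤
        18 * (S.C * r ^ 2) * (w1 + Pm) := mul_le_mul_of_nonneg_left y2 (by positivity)
    have a4 : S.C / (m + 1) ≤ S.C * (F * r ^ 2) := by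
      rw [div_eq_mul_one_div]; exact mul_le_mul_of_nonneg_left h.mF C0.le
    have a5 : S.C * er ≤ S.C * (F * r ^ 2) := mul_le_mul_of_nonneg_left L.erF C0.le
    have a6 : S.C * (la * (sb M m a (V2 + 1) - sb M m a (v + 1))) ≤ S.C * (r ^ 2 * (w1 + Pm)) :=
      mul_le_mul_of_nonneg_left (mul_le_mul L.lar y2 y0 r2.le) C0.le
    have a7 : g ≤ S.C * (F * r ^ 2) := h.gF.trans (le_mul_of_one_le_left (by positivity) C1)
    have a8 : r ^ 2 / S.C ^ 3 * (M.z V2 - M.z v) ≤ S.C * (cm * (M.z V2 - M.z v)) +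
        S.C * r ^ 2 * (19 * (w1 + Pm + F)) := by
      have : 0 ≤ S.C * (F * r ^ 2) := by positivity
      linarith
    have a9 := mul_le_mul_of_nonneg_left a8 (by positivity : 0 ≤ 2 * S.C ^ 3)
    have e1 : 2 * S.C ^ 3 * (r ^ 2 / S.C ^ 3 * (M.z V2 - M.z v)) =
        2 * (r ^ 2 * (M.z V2 - M.z v)) := by field_simp
    have a10 : 38 * S.C ^ 4 * (r ^ 2 * (w1 + Pm + F)) ≤ P ^ 2 * (r ^ 2 * (w1 + Pm + F)) :=
      mul_le_mul_of_nonneg_right (by linarith) (by positivity)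
    refine le_of_mul_le_mul_left ?_ r2
    linarith
  have D2 : M.z (S.J - 1) - M.z v ≤ 4 * (P ^ 2 * w) := by
    have a1 : P ^ 2 * (w1 + Pm + F) ≤ P ^ 2 * (3 * w) :=
      mul_le_mul_of_nonneg_left (by linarith) (by positivity)
    linarith [L.top, L.Rw]
  refine ⟨by linarith [L.top], ?_⟩
  have B0 : 0 ≤ 4 * (P ^ 2 * w) := by positivity
  have rC : 0 < r ^ 2 / S.C := by positivity
  have rC2 : r ^ 2 / (2 * S.C) = r ^ 2 / S.C / 2 := by field_simp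
  -- the floor below `y`
  have m1 : ∀ t ∈ Icc (sb M m a (v + 1) - 2 * (N * P * r)) (sb M m a (v + 1)),
      M.b * Pr.GG (lb M S m a T) t ≤ 1 - 3 / 4 * (r ^ 2 / S.C) := fun t ht => by
    have u1 := ((sd _ B0 t ht).2 (by
      unfold uu; rw [zy]; linarith [A.zh_le_8 yσ])).2
    have u2 := (cr t (by linarith [W.bu, L.l2, ht.1]) (ht.2.trans yσ.le)).1
    have u3 : 96 * N * P ^ 9 * r * (F + Γ + 4 * (P ^ 2 * w)) ≤ r ^ 2 / S.C / 4 := by
      have a1 : 96 * N * P ^ 9 * r * (F + Γ + 4 * (P ^ 2 * w)) ≤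
          96 * N * P ^ 9 * r * (5 * (P ^ 2 * w)) :=
        mul_le_mul_of_nonneg_left (by linarith) (by positivity)
      refine a1.trans ?_
      rw [le_div_iff₀ (by norm_num), le_div_iff₀ C0]
      have x0 : 0 ≤ N * w * r := by positivity
      have a2 := mul_le_mul_of_nonneg_right PC (by positivity : 0 ≤ P ^ 11 * (N * w * r))
      linarith [pk 12 13 rfl _ x0, pw 13 14 (by norm_num) _ x0,
        mul_nonneg (by positivity : 0 ≤ P ^ 12) x0]
    change _ ≤ 1 - M.b * Pr.GG (lb M S m a T) t - _ at u1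
    linarith
  intro t ht
  rcases le_total t (sb M m a (v + 1)) with c | c
  · linarith [m1 t ⟨ht.1, c⟩]
  have tt := A.okb.2
  have lo : ∀ s, sb M m a (v + 1) ≤ s → s < M.s S.J → Pr.Reg48.Gd (lb M S m a T) s ≤
      9 * (P ^ 2 * w) - (M.s S.J - s) / P ^ 2 := fun s p q => by
    have sT := q.le.trans σT
    have a1 := (A.zh53 (yT.1.trans p) q).1
    have a2 := zm p
    rw [zy] at a2
    have d0 : 0 ≤ (M.s S.J - s) / S.C := div_nonneg (by linarith) C0.le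
    have a3 := (H2 A hT (x := 2 * (S.C * w) + 4 * (P ^ 2 * w)) W.a0 (ym.1.trans p) q hq
      ⟨yT.1.trans p, sT⟩ (L.hp s ⟨p, sT⟩) (by positivity)).2 _ d0 (by linarith)
    rw [sub_self, abs_zero, add_zero] at a3
    have a4 : K2 * jj ≤ P * w := (mul_le_mul_of_nonneg_left jw (by linarith)).trans
      (mul_le_mul_of_nonneg_right k2 w0)
    have a5 : (M.s S.J - s) / P ^ 2 ≤ 2 * exp (-(4 * T0)) * ((M.s S.J - s) / S.C) := by
      rw [div_le_iff₀ (by positivity)]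
      have b2 := mul_le_mul_of_nonneg_right h.PT (by positivity : 0 ≤ P * ((M.s S.J - s) / S.C))
      have b3 := mul_le_mul_of_nonneg_right PC d0
      have b4 : S.C * ((M.s S.J - s) / S.C) = M.s S.J - s := by field_simp
      have b5 : 0 ≤ P * ((M.s S.J - s) / S.C) := by positivity
      nlinarith
    linarith
  have g := GG_hump53 (k := 9 * (P ^ 2 * w)) (p := M.s S.J - 9 * (P ^ 4 * w)) (q := M.s S.J + w)
    A.okb.1 yT.1 (by positivity) (by have : 0 ≤ P ^ 4 * w := by positivity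
                                     linarith)
    (fun s hs => by
      rw [tt] at hs
      rcases lt_or_ge s (M.s S.J) with q | q
      · have : 0 ≤ (M.s S.J - s) / P ^ 2 := div_nonneg (by linarith) (by positivity)
        linarith [lo s hs.1 q]
      rcases le_or_gt (sb M m a (w' + 1)) s with q' | q'
      · exact (L.conc s ⟨q', hs.2⟩).trans (by positivity)
      obtain ⟨p1, p2⟩ := A.s_pred
      have a2 := zm hs.1
      rw [zy] at a2
      have a3 := (H2 A hT (x := 4 * (P ^ 2 * w)) W.a0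
        ((W.su.trans (A.cl.sm W.uv)).trans (A.cl.sm (show v ≤ S.J - 1 by omega))) p1 hq
        ⟨yT.1.trans hs.1, hs.2.le⟩ (L.hp s ⟨hs.1, hs.2.le⟩) B0).2 0 le_rfl
        (by rw [A.zh_pred]; linarith)
      have a4 : K2 * (jj + |s - M.s (S.J - 1)|) ≤ P * (2 * w + S.C * w) := by
        refine le_trans (mul_le_mul_of_nonneg_left ?_ (by linarith))
          (mul_le_mul_of_nonneg_right k2 (by positivity))
        rw [abs_of_nonneg (by linarith)]
        linarith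
      have a5 := mul_le_mul_of_nonneg_left Cw P0.le
      linarith)
    (fun s hs hc => by
      rw [tt] at hs
      rcases hc with q | q
      · have x0 : 0 ≤ P ^ 4 * w := by positivity
        have a1 : 9 * (P ^ 2 * w) ≤ (M.s S.J - s) / P ^ 2 := by
          rw [le_div_iff₀ (by positivity)]
          linarith
        linarith [lo s hs.1 (by linarith)]
      · exact L.conc s ⟨by linarith, hs.2⟩)
    (t := t) ⟨c, by rw [tt]; exact ht.2⟩
  have a1 := mul_le_mul_of_nonneg_left g b0.le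
  have x0 : 0 ≤ w ^ 2 := by positivity
  have a2 : 9 * (P ^ 2 * w) * (M.s S.J + w - (M.s S.J - 9 * (P ^ 4 * w))) ≤ 90 * (P ^ 6 * w ^ 2) := by
    linarith [pw 2 6 (by norm_num) _ x0]
  have a3 : M.b * (9 * (P ^ 2 * w) * (M.s S.J + w - (M.s S.J - 9 * (P ^ 4 * w)))) ≤
      S.C * (90 * (P ^ 6 * w ^ 2)) :=
    (mul_le_mul_of_nonneg_left a2 b0.le).trans (mul_le_mul_of_nonneg_right b1 (by positivity))
  have a4 : S.C * (90 * (P ^ 6 * w ^ 2)) ≤ r ^ 2 / S.C / 4 := by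
    rw [le_div_iff₀ (by norm_num), le_div_iff₀ C0]
    have b2 : 1024 * S.C ^ 2 ≤ P ^ 2 := by
      have := pow_le_pow_left₀ (by positivity) PC 2
      linarith
    have b3 := mul_le_mul_of_nonneg_right b2 (by positivity : 0 ≤ P ^ 6 * w ^ 2)
    have b4 : 0 ≤ S.C ^ 2 * (P ^ 6 * w ^ 2) := by positivity
    linarith [pw 8 28 (by norm_num) _ x0]
  linarith [m1 _ ⟨by linarith, le_rfl⟩]

end Crest.Agent.T156.Alt.Mp9

end
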