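import Crest.Agent.T156.ClTop_27
import Crest.Agent.T156.ClAp_63
import Crest.Agent.T156.ClTh_9
import Crest.Agent.T156.Rig_63

-- ▼ part T156/TLqV_34
section

/-!
# Row 156, block (L), TLq steps (iii), (iv) (helper34): closing at the last good node
-/

set_option autoImplicit false

noncomputable section

namespace Crest.Agent.T156.Rig.Q34

open Set Real MeasureTheory
open Crest.Agent.T156.Cut8 (LB)

/-- the two boundary layers -/
def ph (κ a b t : ℝ) : ℝ := exp (-(κ * (t - a))) + exp (-(κ * (b - t)))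

theorem ph_pos (κ a b t : ℝ) : 0 < ph κ a b t := add_pos (exp_pos _) (exp_pos _)

theorem ph_le {κ a b t : ℝ} (hκ : 0 ≤ κ) (h1 : a ≤ t) (h2 : t ≤ b) : ph κ a b t ≤ 2 := by
  have e1 : exp (-(κ * (t - a))) ≤ 1 := exp_le_one_iff.2 (by nlinarith)
  have e2 : exp (-(κ * (b - t))) ≤ 1 := exp_le_one_iff.2 (by nlinarith)
  unfold ph; linarith

theorem ph_cont (κ a b : ℝ) : Continuous (ph κ a b) := by unfold ph; fun_prop

theorem ph_int {κ a b x : ℝ} (hκ : 0 < κ) (h1 : a ≤ x) : ∫ t in x..b, ph κ a b t ≤ 2 / κ := by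
  have d : ∀ t, HasDerivAt (fun t => (exp (-(κ * (b - t))) - exp (-(κ * (t - a)))) / κ)
      (ph κ a b t) t := fun t => by
    have e1 := ((((hasDerivAt_id' t).const_sub b).const_mul κ).fun_neg).exp
    have e2 := ((((hasDerivAt_id' t).sub_const a).const_mul κ).fun_neg).exp
    refine ((e1.fun_sub e2).div_const κ).congr_deriv ?_
    unfold ph; field_simp; ring
  rw [intervalIntegral.integral_eq_sub_of_hasDerivAt (fun t _ => d t)
    ((ph_cont κ a b).intervalIntegrable _ _), ← sub_div]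
  refine div_le_div_of_nonneg_right ?_ hκ.le
  have e1 : exp (-(κ * (x - a))) ≤ 1 := exp_le_one_iff.2 (by nlinarith)
  have := exp_pos (-(κ * (b - a)))
  have := exp_pos (-(κ * (b - x)))
  simp only [sub_self, mul_zero, neg_zero, exp_zero]
  linarith

variable {S : Finset ℝ} {a b : ℝ} {W ω ν u : ℝ → ℝ} {gp : ℝ → ℝ → Prop}
  {b₀ b₁ p₀ d D err C₁ δ : ℝ}

/-- decay from both ends -/
theorem dec (h : Tk S a b W ω ν u gp b₀ b₁ p₀ d D err C₁ δ) {a' Γ κ q₀ B E : ℝ}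
    (ha : a ≤ a') (hs : Sh a b gp a' b Γ) (Γ0 : 0 ≤ Γ) (hΓ : b₁ * Γ ^ 2 ≤ 4 * d)
    (hκ0 : 0 ≤ κ) (hκ : κ ^ 2 * D ≤ 2 * b₀) (hq : p₀ ≤ κ ^ 2 * q₀) (hq₀ : 0 ≤ q₀) (hB : 0 ≤ B)
    (hE : eP b₁ p₀ D err C₁ δ Γ + q₀ ≤ E) (e0 : 0 ≤ eP b₁ p₀ D err C₁ δ Γ) (k1 : κ * Γ ≤ 1)
    (h1 : |W a'| ≤ B) (h2 : |W b| ≤ B) :
    (∀ t ∈ Icc a' b, |W t| ≤ E + 2 * B) ∧
      ∀ t ∈ Icc (a' + Γ) b, |u t| ≤ C₁ * Γ + δ + (E + err) / d + 6 * B / d * ph κ a' b t := by
  have p1 : |W a'| ≤ eP b₁ p₀ D err C₁ δ Γ + q₀ + B := by linarith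
  have p2 : |W b| ≤ eP b₁ p₀ D err C₁ δ Γ + q₀ + B := by linarith
  have key : ∀ t ∈ Icc a' b, |W t| ≤ E + 2 * B * exp (-(κ * min (t - a') (b - t))) := fun t ht => by
    have := h.pass ha le_rfl hs hΓ hκ0 hκ hq hq₀ hB p1 p2 (ℓ := min (t - a') (b - t))
      (le_min (sub_nonneg.2 ht.1) (sub_nonneg.2 ht.2)) (t := t)
      ⟨by linarith [min_le_left (t - a') (b - t)], by linarith [min_le_right (t - a') (b - t)]⟩
    linarith
  refine ⟨fun t ht => (key t ht).trans ?_, fun t ht => ?_⟩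
  · have : exp (-(κ * min (t - a') (b - t))) ≤ 1 := exp_le_one_iff.2 (by
      nlinarith [le_min (sub_nonneg.2 ht.1) (sub_nonneg.2 ht.2)])
    nlinarith
  · have l := h.label (a' := t - Γ) (b' := t) (B := E + 6 * B * ph κ a' b t) (by linarith [ht.1])
      ht.2 Γ0 (fun s s' g x1 x2 x3 x4 x5 => hs s s' g x1 x2 x3 (x2.trans x3) (by linarith [ht.1]))
      (fun s hs' => (key s ⟨by linarith [ht.1, hs'.1], hs'.2.trans ht.2⟩).trans (by
        have e3 : exp 1 ≤ 3 := exp_one_lt_d9.le.trans (by norm_num)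
        have q : exp (-(κ * min (s - a') (b - s))) ≤ 3 * ph κ a' b t := by
          have x1 := exp_pos (-(κ * (t - a')))
          have x2 := exp_pos (-(κ * (b - t)))
          rcases le_total (s - a') (b - s) with c | c
          · rw [min_eq_left c]
            have : exp (-(κ * (s - a'))) ≤ exp 1 * exp (-(κ * (t - a'))) := by
              rw [← exp_add]; exact exp_le_exp.2 (by nlinarith [hs'.1])
            unfold ph; nlinarith
          · rw [min_eq_right c]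
            have : exp (-(κ * (b - s))) ≤ exp (-(κ * (b - t))) :=
              exp_le_exp.2 (by nlinarith [hs'.2])
            unfold ph; nlinarith
        nlinarith)) (t := t) ⟨by linarith, le_rfl⟩
    refine l.trans (le_of_eq ?_)
    ring

/-- Landau at the right end -/
theorem slopeR (h : Tk S a b W ω ν u gp b₀ b₁ p₀ d D err C₁ δ) {B U η : ℝ}
    (ha : a ≤ b - η) (hη : 0 < η) (hW : ∀ t ∈ Icc (b - η) b, |W t| ≤ B)
    (hu : ∀ t ∈ Icc (b - η) b, |u t| ≤ U) : |ω b| ≤ 2 * B / η + (2 * b₁ * U + p₀) * η / 2 := by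
  have := ((h.pc.mono ha le_rfl (Finset.Subset.refl S)).landau
    (A := 2 * b₁ * U + p₀) (by linarith) (hW _ ⟨le_rfl, by linarith⟩)
    (hW b ⟨by linarith, le_rfl⟩) fun r hr hS => by
      obtain ⟨β, β1, β2, β3⟩ := h.rel r ⟨ha.trans_lt hr.1, hr.2⟩ hS
      have hβ : 0 ≤ β := h.b0.trans β1
      have h2 : |2 * β * u r| ≤ 2 * b₁ * U := by
        rw [abs_mul, abs_of_nonneg (by positivity : 0 ≤ 2 * β)]
        exact mul_le_mul (by linarith) (hu r ⟨hr.1.le, hr.2.le⟩) (abs_nonneg _) (by linarith [h.b1])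
      have h3 : |ν r| ≤ |ν r - 2 * β * u r| + |2 * β * u r| := by
        simpa using abs_add_le (ν r - 2 * β * u r) (2 * β * u r)
      linarith).2
  rwa [sub_sub_cancel] at this

/-- the two integrals -/
theorem ints {T x κ a' U V : ℝ} (lu : LB T u) (hκ : 0 < κ) (x0 : 0 ≤ x) (h1 : a' ≤ x) (h2 : x ≤ b)
    (hT : b ≤ T) (V0 : 0 ≤ V) (hu : ∀ t ∈ Icc x b, |u t| ≤ U + V * ph κ a' b t) :
    |∫ t in x..b, u t| ≤ (b - x) * U + V * (2 / κ) ∧
      ∫ t in x..b, u t ^ 2 ≤ 2 * ((b - x) * U ^ 2) + 4 * V ^ 2 * (2 / κ) := by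
  have mx : x ∈ Icc 0 T := ⟨x0, h2.trans hT⟩
  have mb : b ∈ Icc 0 T := ⟨x0.trans h2, hT⟩
  have ip := (ph_cont κ a' b).intervalIntegrable (μ := volume) x b
  have I := ph_int (b := b) hκ h1
  have ev : ∀ p q : ℝ, ∫ t in x..b, (p + q * ph κ a' b t) = (b - x) * p + q * ∫ t in x..b, ph κ a' b t :=
    fun p q => by
      rw [intervalIntegral.integral_add intervalIntegrable_const (ip.const_mul q),
        intervalIntegral.integral_const_mul]
      simp
  constructor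
  · refine (intervalIntegral.abs_integral_le_integral_abs h2).trans ?_
    refine (intervalIntegral.integral_mono_on h2 (lu.abs.ii mx mb)
      (intervalIntegrable_const.add (ip.const_mul V)) hu).trans ?_
    rw [ev]; nlinarith [mul_le_mul_of_nonneg_left I V0]
  · refine (intervalIntegral.integral_mono_on h2 (lu.sq.ii mx mb)
      (intervalIntegrable_const.add (ip.const_mul (4 * V ^ 2))) (g := fun t => 2 * U ^ 2 + 4 * V ^ 2 * ph κ a' b t)
      fun t ht => ?_).trans ?_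
    · have p := ph_pos κ a' b t
      have q := ph_le hκ.le (h1.trans ht.1) ht.2
      have r : u t ^ 2 ≤ (U + V * ph κ a' b t) ^ 2 := by
        rw [← sq_abs]; exact pow_le_pow_left₀ (abs_nonneg _) (hu t ht) 2
      have s : ph κ a' b t ^ 2 ≤ 2 * ph κ a' b t := by nlinarith
      nlinarith [sq_nonneg (U - V * ph κ a' b t), mul_le_mul_of_nonneg_left s (sq_nonneg V)]
    · rw [ev]; nlinarith [mul_le_mul_of_nonneg_left I (show 0 ≤ 4 * V ^ 2 by positivity)]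

end Crest.Agent.T156.Rig.Q34

namespace Crest.Agent.T156.Alt.Mp9.Q34

open MeasureTheory Set Real
open Crest.Agent.R164.GC Crest.Agent.R339.B Crest.Agent.R339.Var Crest.Agent.T157.Pf
open Crest.Agent.T156.Pp.Area50 Crest.Agent.T156.Spl27 Crest.Agent.T156.Zb9

variable {S : Sc} {M : Md} {m : ℕ} {a T : ℝ}

theorem J_eq (A : At S M m a T) {t : ℝ} (h0 : M.s S.j0 ≤ t) (hT : t ≤ T) :
    Sc48.Jf (lh M T) (lb M S m a T) T t = ∑ j ∈ Finset.range (S.Jp + 1),
      (xb M a (j + 1) - xb M a j) *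
        (Pp.Area50.cl t T (sh M S (j + 1)) - Pp.Area50.cl t T (sb M m a (j + 1))) := by
  have h := area (xb M a) (sh M S) (sb M m a) (S.Jp + 1) hT (g := fun _ => 1)
    intervalIntegrable_const
  simp only [mul_one, intervalIntegral.integral_const, smul_eq_mul] at h
  rw [← h]
  refine intervalIntegral.integral_congr fun r hr => ?_
  rw [uIcc_of_le hT] at hr
  exact A.uu_eq (h0.trans hr.1)

theorem wsum {U : Finset ℕ} {w f : ℕ → ℝ} {B : ℝ} (hw : ∀ k ∈ U, 0 ≤ w k)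
    (hf : ∀ k ∈ U, |f k| ≤ B) : |∑ k ∈ U, w k * f k| ≤ (∑ k ∈ U, w k) * B := by
  rw [Finset.sum_mul]
  refine (Finset.abs_sum_le_sum_abs _ _).trans (Finset.sum_le_sum fun k hk => ?_)
  rw [abs_mul, abs_of_nonneg (hw k hk)]
  exact mul_le_mul_of_nonneg_left (hf k hk) (hw k hk)

/-- the reference cell of a time below the corner -/
theorem cell_h (A : At S M m a T) {t : ℝ} (h0 : M.s S.j0 ≤ t) (h1 : t < M.s S.J) :
    ∃ k, S.j0 ≤ k ∧ k < S.J ∧ M.s k ≤ t ∧ t < M.s (k + 1) ∧ lvr 1 (lh M T) t = M.z k := by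
  obtain ⟨k, k1, k2, k3, k4⟩ := A.exists_ref h0 h1
  exact ⟨k, k1, k2, k3, k4, by rw [A.lvh' ((s_nn A.cl _).trans h0), A.cl.lv k k1 t k3 k4]⟩

theorem mass_top (A : At S M m a T) {kA : ℕ} (k3 : S.J ≤ kA) (k4 : kA ≤ S.Jp) :
    ∑ j ∈ Finset.Icc kA S.Jp, (M.z j - M.z (j - 1)) = 1 - M.z (kA - 1) ∧ 1 - M.z (kA - 1) ≤ 1 := by
  have i2 := A.cl.i2
  have : Finset.Icc kA S.Jp = Finset.Ioc (kA - 1) S.Jp := by
    ext j; simp only [Finset.mem_Icc, Finset.mem_Ioc]; omega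
  rw [this, At.sum_dz M (by omega), A.cl.top _ le_rfl]
  have := A.cl.leg.zm (show S.J - 1 ≤ kA - 1 by omega)
  have := A.cl.atom.1
  have : 0 < 1 / S.C := by have := A.c_pos; positivity
  exact ⟨rfl, by linarith⟩

/-- **the shift of the plateau**, anchored at the time of the node `V` -/
theorem shift (A : At S M m a T) {V kA : ℕ} {Mt γ R a' Gm : ℝ} (hV : S.jl < V) (VJ : V < S.J)
    (k3 : S.J ≤ kA) (k4 : kA ≤ S.Jp) (y0 : M.s S.j0 ≤ sb M m a (V + 1))
    (yJ : sb M m a (V + 1) < M.s S.J) (γ1 : M.s S.Jp - M.s S.J ≤ γ) (M1 : sb M m a kA ≤ Mt)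
    (M2 : Mt ≤ T) (hG : Mt - sb M m a (V + 1) ≤ Gm) (R0 : 0 ≤ R)
    (sp : ∑ k ∈ Finset.Icc kA S.Jp, (M.z k - M.z (k - 1)) * (sb M m a (k + 1) - Mt) ^ 2 ≤ R ^ 2)
    (a1 : M.z (kA - 1) - M.z V ≤ a') :
    (1 - M.z (kA - 1)) * |Mt - M.s S.J| ≤
      |Sc48.Jf (lh M T) (lb M S m a T) T (sb M m a (V + 1))| +
        |uu M S m a T (sb M m a (V + 1))| * (M.s S.J - sb M m a (V + 1)) +
        a' * (M.s S.J - sb M m a (V + 1) + γ + Gm) + γ + R := by
  have i0 := A.cl.i0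
  have i1 := A.cl.i1
  have sJ : M.s S.J ≤ M.s S.Jp := A.cl.sm A.cl.i3
  have hu : uu M S m a T (sb M m a (V + 1)) = M.z V - lvr 1 (lh M T) (sb M m a (V + 1)) := by
    unfold uu; rw [A.lvb_node hV.le (by omega)]
  obtain ⟨k1, c1, c2, c3, -, c5⟩ := cell_h A y0 yJ
  have yM : sb M m a (V + 1) ≤ Mt := (A.sb_mono (show V + 1 ≤ kA by omega)).trans M1
  have sl : ∀ j, j ≤ V → sb M m a (j + 1) ≤ sb M m a (V + 1) := fun j h => A.sb_mono (by omega)
  have sg : ∀ j, V ≤ j → sb M m a (V + 1) ≤ sb M m a (j + 1) := fun j h => A.sb_mono (by omega)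
  rw [hu, c5]
  generalize sb M m a (V + 1) = y at *
  have tT : y ≤ T := yM.trans M2
  have γ0 : 0 ≤ γ := by linarith
  have dn : ∀ k, 0 ≤ M.z k - M.z (k - 1) := A.dz_nn
  rw [J_eq A y0 tT]
  set σ := M.s S.J with hσ
  set f : ℕ → ℝ := fun j => Pp.Area50.cl y T (sh M S (j + 1)) - Pp.Area50.cl y T (sb M m a (j + 1))
    with hf
  have w : ∀ j, 0 < j → xb M a (j + 1) - xb M a j = M.z j - M.z (j - 1) := fun j hj => by
    obtain ⟨j, rfl⟩ : ∃ i, j = i + 1 := ⟨j - 1, by omega⟩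
    simp only [xb, Nat.add_sub_cancel]
  have cut : ∀ p q : ℕ, 0 < p → p ≤ q → ∑ j ∈ Finset.range (q + 1), (xb M a (j + 1) - xb M a j) * f j =
      ∑ j ∈ Finset.range (p + 1), (xb M a (j + 1) - xb M a j) * f j +
        ∑ j ∈ Finset.Ioc p q, (M.z j - M.z (j - 1)) * f j := fun p q hp h => by
    rw [Finset.range_eq_Ico, ← Finset.sum_Ico_consecutive _ (Nat.zero_le (p + 1))
      (show p + 1 ≤ q + 1 by omega), ← Finset.range_eq_Ico]
    congr 1
    have : Finset.Ico (p + 1) (q + 1) = Finset.Ioc p q := by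
      ext j; simp only [Finset.mem_Ico, Finset.mem_Ioc]; omega
    rw [this]
    exact Finset.sum_congr rfl fun j hj => by rw [w j (by have := Finset.mem_Ioc.1 hj; omega)]
  have eI : Finset.Ioc (kA - 1) S.Jp = Finset.Icc kA S.Jp := by
    ext j; simp only [Finset.mem_Icc, Finset.mem_Ioc]; omega
  rw [cut (min V k1) S.Jp (by omega) (by omega), Finset.sum_eq_zero (fun j hj => by
      have hj := Finset.mem_range.1 hj
      have e1 : Pp.Area50.cl y T (sh M S (j + 1)) = y :=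
        cl_of_le ((A.cl.sm (show max j S.j0 ≤ k1 by omega)).trans c3)
      have e2 : Pp.Area50.cl y T (sb M m a (j + 1)) = y := cl_of_le (sl j (by omega))
      simp only [hf, e1, e2, sub_self, mul_zero]), zero_add,
    ← Finset.sum_Ioc_consecutive _ (show min V k1 ≤ V by omega) (show V ≤ S.Jp by omega),
    ← Finset.sum_Ioc_consecutive _ (show V ≤ kA - 1 by omega) (show kA - 1 ≤ S.Jp by omega), eI]
  have up : ∀ j, S.j0 ≤ j → j ≤ S.Jp → Pp.Area50.cl y T (sh M S (j + 1)) ≤ max y (M.s j) :=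
    fun j h _ => by
      rw [A.sh_succ h]; exact max_le_max le_rfl (min_le_left _ _)
  have p1 : |∑ j ∈ Finset.Ioc (min V k1) V, (M.z j - M.z (j - 1)) * f j| ≤
      |M.z V - M.z k1| * (σ - y) := by
    refine (wsum (B := σ - y) (fun j _ => dn j) fun j hj => ?_).trans ?_
    · obtain ⟨j1, j2⟩ := Finset.mem_Ioc.1 hj
      have e1 := (cl_mem tT (sh M S (j + 1))).1
      have e2 : Pp.Area50.cl y T (sb M m a (j + 1)) = y := cl_of_le (sl j j2)
      have e3 := (up j (by omega) (by omega)).trans (max_le yJ.le (A.cl.sm (show j ≤ S.J by omega)))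
      simp only [hf, e2]
      exact abs_le.2 ⟨by linarith, by linarith⟩
    · rw [At.sum_dz M (min_le_left _ _)]
      refine mul_le_mul_of_nonneg_right ?_ (by linarith)
      rcases le_total V k1 with h | h
      · rw [min_eq_left h, sub_self]; exact abs_nonneg _
      · rw [min_eq_right h]; exact le_abs_self _
  have p2 : |∑ j ∈ Finset.Ioc V (kA - 1), (M.z j - M.z (j - 1)) * f j| ≤ a' * (σ - y + γ + Gm) := by
    refine (wsum (B := σ - y + γ + Gm) (fun j _ => dn j) fun j hj => ?_).trans ?_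
    · obtain ⟨j1, j2⟩ := Finset.mem_Ioc.1 hj
      have e1 := (cl_mem tT (sh M S (j + 1))).1
      have e2 := (cl_mem tT (sb M m a (j + 1))).1
      have e3 := (up j (by omega) (by omega)).trans (max_le (show y ≤ σ + γ by linarith)
        (by linarith [A.cl.sm (show j ≤ S.Jp by omega)]))
      have e4 : Pp.Area50.cl y T (sb M m a (j + 1)) ≤ Mt :=
        max_le yM ((min_le_left _ _).trans ((A.sb_mono (show j + 1 ≤ kA by omega)).trans M1))
      simp only [hf]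
      exact abs_le.2 ⟨by linarith, by linarith⟩
    · rw [At.sum_dz M (by omega)]
      exact mul_le_mul_of_nonneg_right a1 (by linarith)
  obtain ⟨W, W1⟩ := mass_top A k3 k4
  have q1 := (Zb9.sum_le_sqrt (f := fun k => sb M m a (k + 1) - Mt) (fun k _ => dn k)
    (W.trans_le W1)).trans (sqrt_le_iff.2 ⟨R0, sp⟩)
  have p3 : |∑ j ∈ Finset.Icc kA S.Jp, (M.z j - M.z (j - 1)) * f j +
      (1 - M.z (kA - 1)) * (Mt - σ)| ≤ γ + R := by
    rw [← W, Finset.sum_mul, ← Finset.sum_add_distrib]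
    refine (Finset.abs_sum_le_sum_abs _ _).trans ((Finset.sum_le_sum (g := fun j =>
      (M.z j - M.z (j - 1)) * γ + (M.z j - M.z (j - 1)) * |sb M m a (j + 1) - Mt|)
      fun j hj => ?_).trans ?_)
    · obtain ⟨j1, j2⟩ := Finset.mem_Icc.1 hj
      rw [← mul_add, ← mul_add, abs_mul, abs_of_nonneg (dn j)]
      refine mul_le_mul_of_nonneg_left ?_ (dn j)
      have e0 := A.cl.sm (show S.J ≤ j by omega)
      have e0' := A.cl.sm j2
      have e1 : Pp.Area50.cl y T (sh M S (j + 1)) = M.s j := by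
        rw [A.sh_succ (by omega)]
        exact cl_of_mem (by linarith) (by linarith [A.t2])
      have e2 : Pp.Area50.cl y T (sb M m a (j + 1)) = sb M m a (j + 1) :=
        cl_of_mem (sg j (by omega)) (A.sb_mem j2).2
      have e3 := le_abs_self (sb M m a (j + 1) - Mt)
      have e4 := neg_abs_le (sb M m a (j + 1) - Mt)
      simp only [hf, e1, e2]
      exact abs_le.2 ⟨by linarith, by linarith⟩
    · rw [Finset.sum_add_distrib, ← Finset.sum_mul, W]
      linarith [mul_le_of_le_one_left γ0 W1]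
  have W0 : 0 ≤ 1 - M.z (kA - 1) := W ▸ Finset.sum_nonneg fun j _ => dn j
  rw [← abs_of_nonneg W0, ← abs_mul]
  obtain ⟨x3, x4⟩ := abs_le.1 p1
  obtain ⟨x5, x6⟩ := abs_le.1 p2
  obtain ⟨x7, x8⟩ := abs_le.1 p3
  generalize ∑ j ∈ Finset.Ioc (min V k1) V, (M.z j - M.z (j - 1)) * f j = X1 at *
  generalize ∑ j ∈ Finset.Ioc V (kA - 1), (M.z j - M.z (j - 1)) * f j = X2 at *
  generalize ∑ j ∈ Finset.Icc kA S.Jp, (M.z j - M.z (j - 1)) * f j = X3 at *
  exact abs_le.2 ⟨by linarith [le_abs_self (X1 + (X2 + X3))],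
    by linarith [neg_abs_le (X1 + (X2 + X3))]⟩

/-- **window and plateau** from `∫ u²` below the node `V` -/
theorem top_sum (A : At S M m a T) {V kA : ℕ} {Mt γ R a' Gm x U I X : ℝ} (hV : S.jl < V)
    (VJ : V < S.J) (k3 : S.J ≤ kA) (k4 : kA ≤ S.Jp) (x0 : M.s S.j0 ≤ x) (xy : x ≤ sb M m a (V + 1))
    (yJ : sb M m a (V + 1) < M.s S.J) (γ1 : M.s S.Jp - M.s S.J ≤ γ) (M1 : sb M m a kA ≤ Mt)
    (hG : Mt - sb M m a (V + 1) ≤ Gm)
    (sp : ∑ k ∈ Finset.Icc kA S.Jp, (M.z k - M.z (k - 1)) * (sb M m a (k + 1) - Mt) ^ 2 ≤ R ^ 2)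
    (a1 : M.z (kA - 1) - M.z V ≤ a') (hX : |Mt - M.s S.J| ≤ X)
    (hU : ∀ t ∈ Icc x (sb M m a (V + 1)), |uu M S m a T t| ≤ U)
    (hI : ∫ t in x..sb M m a (V + 1), uu M S m a T t ^ 2 ≤ I) {Q : Finset ℕ}
    (hQ : ∀ k ∈ Q, S.jl < k ∧ k ≤ S.Jp ∧ x ≤ M.s k ∧ x ≤ sb M m a (k + 1)) :
    ∑ k ∈ Q, (M.z k - M.z (k - 1)) * (sb M m a (k + 1) - M.s k) ^ 2 ≤
      4 * S.C * (I + (S.C * S.v) ^ 2 * (sb M m a (V + 1) - x)) +
        (U + a') * (2 * Gm + X + γ + S.C * (U + S.C * S.v)) ^ 2 + 3 * (R ^ 2 + X ^ 2 + γ ^ 2) := by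
  have i1 := A.cl.i1
  have C0 := A.c_pos
  have v0 := v_pos A.cl
  have sJ : M.s S.J ≤ M.s S.Jp := A.cl.sm A.cl.i3
  have hu : uu M S m a T (sb M m a (V + 1)) = M.z V - lvr 1 (lh M T) (sb M m a (V + 1)) := by
    unfold uu; rw [A.lvb_node hV.le (by omega)]
  obtain ⟨k1, c1, c2, c3, c4, c5⟩ := cell_h A (x0.trans xy) yJ
  have yM : sb M m a (V + 1) ≤ Mt := (A.sb_mono (show V + 1 ≤ kA by omega)).trans M1
  have sl : ∀ j, j ≤ V → sb M m a (j + 1) ≤ sb M m a (V + 1) := fun j h => A.sb_mono (by omega)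
  have sg : ∀ j, V ≤ j → sb M m a (V + 1) ≤ sb M m a (j + 1) := fun j h => A.sb_mono (by omega)
  obtain ⟨u1, u2⟩ := abs_le.1 (hU _ ⟨xy, le_rfl⟩)
  rw [hu, c5] at u1 u2
  have E1 := A.en_pow x0 xy yJ (U := Q.filter fun k => k ≤ min V k1) (fun k hk => by
    obtain ⟨h, h'⟩ := Finset.mem_filter.1 hk
    obtain ⟨q1, q2, q3, q4⟩ := hQ k h
    exact ⟨by omega, ⟨q3, (A.cl.sm (show k ≤ k1 by omega)).trans c3⟩, q4, sl k (by omega)⟩) 1
  simp only [show (1 + 1 : ℕ) = 2 from rfl, sq_abs, Nat.cast_one, pow_one] at E1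
  have lip : ∀ t, 0 ≤ t → t ≤ sb M m a (V + 1) → M.z k1 - lvr 1 (lh M T) t ≤ U →
      sb M m a (V + 1) - t ≤ S.C * (U + S.C * S.v) := fun t t0 t1 h => by
    have := (A.cl.lip t _ t0 t1 yJ).1
    rw [← A.lvh' t0, ← A.lvh' (t0.trans t1), c5] at this
    rw [← div_le_iff₀' C0]; linarith
  generalize sb M m a (V + 1) = y at *
  obtain ⟨d1, d2⟩ := abs_le.1 hX
  have U0 : 0 ≤ U := by linarith
  have p0 : 0 ≤ S.C * (U + S.C * S.v) := by positivity
  have dn : ∀ k, 0 ≤ M.z k - M.z (k - 1) := A.dz_nn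
  set Ξ := 2 * Gm + X + γ + S.C * (U + S.C * S.v) with hΞ
  have E2 : ∑ k ∈ Q.filter (fun k => min V k1 < k ∧ k < kA),
      (M.z k - M.z (k - 1)) * (sb M m a (k + 1) - M.s k) ^ 2 ≤ (U + a') * Ξ ^ 2 := by
    refine (Finset.sum_le_sum (g := fun k => (M.z k - M.z (k - 1)) * Ξ ^ 2) fun k hk => ?_).trans ?_
    · obtain ⟨h, h1, h2⟩ := Finset.mem_filter.1 hk
      obtain ⟨q1, q2, q3, q4⟩ := hQ k h
      refine mul_le_mul_of_nonneg_left (sq_le_sq' ?_ ?_) (dn k)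
      · have e1 : M.s k ≤ M.s S.Jp := A.cl.sm q2
        rcases le_total V k with c | c
        · linarith [sg k c]
        · have := lip _ (A.sb_mem q2).1 (sl k c) (by
            have e2 := (abs_le.1 (hU _ ⟨q4, sl k c⟩)).2
            unfold uu at e2
            rw [A.lvb_node q1.le q2] at e2
            linarith [A.cl.leg.zm (show k1 ≤ k by omega)])
          linarith
      · have e1 : sb M m a (k + 1) ≤ Mt := (A.sb_mono (show k + 1 ≤ kA by omega)).trans M1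
        rcases lt_or_ge k1 k with c | c
        · linarith [A.cl.sm (show k1 + 1 ≤ k from c)]
        · have := lip _ (s_nn A.cl k) ((A.cl.sm c).trans c3) (by
            rw [A.lvh_node (by omega) (by omega)]
            linarith [A.cl.leg.zm (show V ≤ k by omega)])
          linarith
    · rw [← Finset.sum_mul]
      refine mul_le_mul_of_nonneg_right ?_ (sq_nonneg _)
      refine (Finset.sum_le_sum_of_subset_of_nonneg (t := Finset.Ioc (min V k1) (kA - 1))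
        (fun k hk => ?_) fun k _ _ => dn k).trans ?_
      · obtain ⟨-, h1, h2⟩ := Finset.mem_filter.1 hk
        exact Finset.mem_Ioc.2 ⟨h1, by omega⟩
      · rw [At.sum_dz M (by omega)]
        rcases le_total V k1 with h | h
        · rw [min_eq_left h]; linarith
        · rw [min_eq_right h]; linarith
  have E3 : ∑ k ∈ Q.filter (fun k => kA ≤ k),
      (M.z k - M.z (k - 1)) * (sb M m a (k + 1) - M.s k) ^ 2 ≤ 3 * (R ^ 2 + X ^ 2 + γ ^ 2) := by
    refine (Finset.sum_le_sum_of_subset_of_nonneg (t := Finset.Icc kA S.Jp) (fun k hk => ?_)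
      fun k _ _ => mul_nonneg (dn k) (sq_nonneg _)).trans ?_
    · obtain ⟨h, h1⟩ := Finset.mem_filter.1 hk
      exact Finset.mem_Icc.2 ⟨h1, (hQ k h).2.1⟩
    obtain ⟨W, W1⟩ := mass_top A k3 k4
    refine (Finset.sum_le_sum (g := fun k => 3 * ((M.z k - M.z (k - 1)) * (sb M m a (k + 1) - Mt) ^ 2) +
      (M.z k - M.z (k - 1)) * (3 * (X ^ 2 + γ ^ 2))) fun k hk => ?_).trans ?_
    · obtain ⟨j1, j2⟩ := Finset.mem_Icc.1 hk
      have e0 := A.cl.sm (show S.J ≤ k by omega)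
      have e1 := A.cl.sm j2
      have e2 : (Mt - M.s S.J) ^ 2 ≤ X ^ 2 := sq_le_sq' d1 d2
      have e3 : (M.s k - M.s S.J) ^ 2 ≤ γ ^ 2 := sq_le_sq' (by linarith) (by linarith)
      have e4 : (sb M m a (k + 1) - M.s k) ^ 2 ≤ 3 * (sb M m a (k + 1) - Mt) ^ 2 + 3 * (X ^ 2 + γ ^ 2) := by
        nlinarith [sq_nonneg (sb M m a (k + 1) - Mt - (Mt - M.s S.J)),
          sq_nonneg (sb M m a (k + 1) - Mt + (M.s k - M.s S.J)),
          sq_nonneg (Mt - M.s S.J + (M.s k - M.s S.J))]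
      linarith [mul_le_mul_of_nonneg_left e4 (dn k)]
    · rw [Finset.sum_add_distrib, ← Finset.mul_sum, ← Finset.sum_mul, W]
      linarith [mul_le_of_le_one_left (show 0 ≤ 3 * (X ^ 2 + γ ^ 2) by positivity) W1]
  have E4 : ∑ k ∈ Q, (M.z k - M.z (k - 1)) * (sb M m a (k + 1) - M.s k) ^ 2 =
      ∑ k ∈ Q.filter (fun k => k ≤ min V k1), (M.z k - M.z (k - 1)) * (sb M m a (k + 1) - M.s k) ^ 2 +
      ∑ k ∈ Q.filter (fun k => min V k1 < k ∧ k < kA),
        (M.z k - M.z (k - 1)) * (sb M m a (k + 1) - M.s k) ^ 2 +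
      ∑ k ∈ Q.filter (fun k => kA ≤ k), (M.z k - M.z (k - 1)) * (sb M m a (k + 1) - M.s k) ^ 2 := by
    simp only [Finset.sum_filter, ← Finset.sum_add_distrib]
    refine Finset.sum_congr rfl fun k _ => ?_
    split_ifs <;> first | (exfalso; omega) | ring
  have := mul_le_mul_of_nonneg_left hI (show 0 ≤ 4 * S.C by positivity)
  rw [E4]
  linarith

theorem pw {L : ℝ} (h : 100 ≤ L) {i j : ℕ} (hij : i < j) {x : ℝ} (hx : 0 ≤ x) :
    100 * (L ^ i * x) ≤ L ^ j * x := by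
  have a : L ^ (i + 1) ≤ L ^ j := pow_le_pow_right₀ (by linarith) hij
  have b : 100 * L ^ i ≤ L ^ (i + 1) := by
    rw [pow_succ, mul_comm]; exact mul_le_mul_of_nonneg_left h (by positivity)
  rw [← mul_assoc]; exact mul_le_mul_of_nonneg_right (b.trans a) hx

theorem num1 {L r w g er mm Dm γ F Gm a' R P : ℝ} (hL : 100 ≤ L) (r0 : 0 < r) (w0 : 0 ≤ w)
    (g0 : 0 ≤ g) (e0 : 0 ≤ er) (m0 : 0 ≤ mm) (D0 : 0 ≤ Dm) (γ0 : 0 ≤ γ) (F0 : 0 ≤ F) (G0 : 0 ≤ Gm)
    (a0 : 0 ≤ a') (P0 : 0 ≤ P) (hG : L ^ 10 * Gm ≤ r)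
    (h : w * r ^ 2 ≤ g + L * er + L * mm + (L ^ 3 * r ^ 2 + 2 * L * (Dm + γ)) * (Dm + γ) +
      r * (8 * L ^ 4 * F + 13 * L ^ 2 * (F + w)) * Gm +
      L * ((6 * L ^ 3 * F + 12 * L * (F + w) + L * (Gm + F) + L * P) * Gm ^ 2 +
        (a' * Gm ^ 2 + R ^ 2) + (Dm + γ + γ) ^ 2)) :
    w * r ^ 2 ≤ L ^ 5 * (g + er + mm + r ^ 2 * γ + γ ^ 2 + F * r * Gm + a' * Gm ^ 2 + R ^ 2 +
      Gm ^ 3 + Gm ^ 2 * P + r ^ 2 * Dm + Dm ^ 2) := by
  have L0 : 0 ≤ L := by linarith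
  have t0 := pw hL (show 2 < 10 by norm_num) G0
  have t0' := pw hL (show 0 < 10 by norm_num) G0
  have Gr : Gm ≤ r := by linarith
  have t1 : 100 * (L ^ 2 * Gm) * (r * w) ≤ r * (r * w) :=
    mul_le_mul_of_nonneg_right (t0.trans hG) (by positivity)
  have t2 := mul_le_mul_of_nonneg_left Gr (show 0 ≤ L ^ 2 * Gm * w by positivity)
  have t3 := mul_le_mul_of_nonneg_left Gr (show 0 ≤ L ^ 4 * Gm * F by positivity)
  have t3' := mul_le_mul_of_nonneg_left Gr (show 0 ≤ L ^ 2 * Gm * F by positivity)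
  have t3'' := mul_le_mul_of_nonneg_left Gr (show 0 ≤ L * Gm * F by positivity)
  have t4 := mul_le_mul_of_nonneg_left (pow_le_pow_left₀ G0 Gr 2) (show 0 ≤ L * γ by positivity)
  have t5 := mul_nonneg L0 (sq_nonneg (Dm - γ))
  have t5' := mul_nonneg L0 (sq_nonneg (Dm - 2 * γ))
  have s1 := pw hL (show 0 < 5 by norm_num) g0
  have s2 := pw hL (show 1 < 5 by norm_num) e0
  have s3 := pw hL (show 1 < 5 by norm_num) m0
  have s4 := pw hL (show 3 < 5 by norm_num) (show 0 ≤ r ^ 2 * γ by positivity)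
  have s4' := pw hL (show 1 < 5 by norm_num) (show 0 ≤ r ^ 2 * γ by positivity)
  have s5 := pw hL (show 1 < 5 by norm_num) (sq_nonneg γ)
  have s6 := pw hL (show 4 < 5 by norm_num) (show 0 ≤ F * r * Gm by positivity)
  have s6' := pw hL (show 2 < 4 by norm_num) (show 0 ≤ F * r * Gm by positivity)
  have s6'' := pw hL (show 1 < 4 by norm_num) (show 0 ≤ F * r * Gm by positivity)
  have s7 := pw hL (show 1 < 5 by norm_num) (show 0 ≤ a' * Gm ^ 2 by positivity)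
  have s8 := pw hL (show 1 < 5 by norm_num) (sq_nonneg R)
  have s9 := pw hL (show 2 < 5 by norm_num) (show 0 ≤ Gm ^ 3 by positivity)
  have s10 := pw hL (show 2 < 5 by norm_num) (show 0 ≤ Gm ^ 2 * P by positivity)
  have s11 := pw hL (show 3 < 5 by norm_num) (show 0 ≤ r ^ 2 * Dm by positivity)
  have s12 := pw hL (show 1 < 5 by norm_num) (sq_nonneg Dm)
  have n1 : 0 ≤ L * er := by positivity
  have n2 : 0 ≤ L * mm := by positivity
  have n3 : 0 ≤ L ^ 3 * (r ^ 2 * γ) := by positivity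
  have n4 : 0 ≤ L * γ ^ 2 := by positivity
  have n5 : 0 ≤ L ^ 4 * (F * r * Gm) := by positivity
  have n6 : 0 ≤ L * (a' * Gm ^ 2) := by positivity
  have n7 : 0 ≤ L * R ^ 2 := by positivity
  have n8 : 0 ≤ L ^ 2 * Gm ^ 3 := by positivity
  have n9 : 0 ≤ L ^ 2 * (Gm ^ 2 * P) := by positivity
  have n10 : 0 ≤ L ^ 3 * (r ^ 2 * Dm) := by positivity
  have n11 : 0 ≤ L * Dm ^ 2 := by positivity
  have n12 : 0 ≤ w * r ^ 2 := by positivity
  linarith

theorem num2 {L r w p len Dm γ F Gm a' R A : ℝ} (hL : 100 ≤ L) (r0 : 0 < r) (w0 : 0 ≤ w)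
    (p0 : 0 ≤ p) (D0 : 0 ≤ Dm) (γ0 : 0 ≤ γ) (F0 : 0 ≤ F) (G0 : 0 ≤ Gm) (a0 : 0 ≤ a') (R0 : 0 ≤ R)
    (A0 : 0 ≤ A) (hl : r ≤ len) (h1 : L ^ 10 * (Gm + Dm) ≤ r) (h2 : L ^ 10 * (r + F + a') ≤ 1)
    (hw : w * r ^ 2 ≤ L ^ 5 * (A + r ^ 2 * Dm + Dm ^ 2))
    (h : Dm ≤ L * (p + (len * (6 * L ^ 3 * F) + 6 * L * (F + w) * (2 * (L * r))) +
      (6 * L ^ 3 * F + 12 * L * (F + w)) * (Gm + Dm) + a' * (Gm + Dm + γ + Gm) + γ + R)) :
    Dm ≤ L ^ 9 * (p + len * F + a' * Gm + R + γ + Gm * F + A / r) := by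
  have L0 : 0 ≤ L := by linarith
  have l0 : 0 ≤ len := by linarith
  have t0 := pw hL (show 0 < 10 by norm_num) (add_nonneg G0 D0)
  have t0' := pw hL (show 0 < 10 by norm_num) (show 0 ≤ r + F + a' by positivity)
  have Gr : Gm + Dm ≤ r := by linarith
  have a1 : a' ≤ 1 := by linarith
  have hw' : w * r ≤ L ^ 5 * (A / r + r * Dm + Dm * (Dm / r)) := by
    refine le_of_mul_le_mul_right ?_ r0
    refine le_trans (le_of_eq (by ring)) (hw.trans (le_of_eq ?_))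
    field_simp
  have q0 : 0 ≤ Dm / r := by positivity
  have q1 : L ^ 10 * (Dm / r) ≤ 1 := by
    rw [← mul_div_assoc, div_le_one r0]; nlinarith [mul_nonneg (pow_nonneg L0 10) G0]
  have B0 : 0 ≤ A / r := by positivity
  generalize A / r = B at *
  generalize Dm / r = q at *
  have t1 := mul_le_mul_of_nonneg_left hw' (show 0 ≤ L ^ 3 by positivity)
  have t2 := mul_le_mul_of_nonneg_left Gr (show 0 ≤ L ^ 2 * w by positivity)
  have t3 := pw hL (show 2 < 3 by norm_num) (show 0 ≤ w * r by positivity)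
  have t4 := mul_le_mul_of_nonneg_right h2 D0
  have t5 := mul_le_mul_of_nonneg_right q1 D0
  have t6 := pw hL (show 8 < 9 by norm_num) (show 0 ≤ r * Dm by positivity)
  have t6' := pw hL (show 9 < 10 by norm_num) (show 0 ≤ r * Dm by positivity)
  have t7 := pw hL (show 8 < 9 by norm_num) (show 0 ≤ q * Dm by positivity)
  have t7' := pw hL (show 9 < 10 by norm_num) (show 0 ≤ q * Dm by positivity)
  have t8 := pw hL (show 4 < 10 by norm_num) (show 0 ≤ F * Dm by positivity)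
  have t8' := pw hL (show 2 < 4 by norm_num) (show 0 ≤ F * Dm by positivity)
  have t9 := pw hL (show 1 < 10 by norm_num) (show 0 ≤ a' * Dm by positivity)
  have t10 := mul_le_mul_of_nonneg_left hl (show 0 ≤ L ^ 3 * F by positivity)
  have t11 := mul_le_mul_of_nonneg_left a1 (show 0 ≤ L * γ by positivity)
  have s1 := pw hL (show 1 < 9 by norm_num) p0
  have s2 := pw hL (show 4 < 9 by norm_num) (show 0 ≤ len * F by positivity)
  have s2' := pw hL (show 3 < 9 by norm_num) (show 0 ≤ len * F by positivity)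
  have s3 := pw hL (show 1 < 9 by norm_num) (show 0 ≤ a' * Gm by positivity)
  have s4 := pw hL (show 1 < 9 by norm_num) R0
  have s5 := pw hL (show 1 < 9 by norm_num) γ0
  have s6 := pw hL (show 4 < 9 by norm_num) (show 0 ≤ Gm * F by positivity)
  have s6' := pw hL (show 2 < 9 by norm_num) (show 0 ≤ Gm * F by positivity)
  have s7 := pw hL (show 8 < 9 by norm_num) B0
  have n1 : 0 ≤ L ^ 9 * p := by positivity
  have n2 : 0 ≤ L ^ 9 * (len * F) := by positivity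
  have n3 : 0 ≤ L ^ 9 * (a' * Gm) := by positivity
  have n4 : 0 ≤ L ^ 9 * R := by positivity
  have n5 : 0 ≤ L ^ 9 * γ := by positivity
  have n6 : 0 ≤ L ^ 9 * (Gm * F) := by positivity
  have n7 : 0 ≤ L ^ 9 * B := by positivity
  have n8 : 0 ≤ L ^ 10 * (r * Dm) := by positivity
  have n9 : 0 ≤ L ^ 10 * (F * Dm) := by positivity
  have n10 : 0 ≤ L ^ 10 * (a' * Dm) := by positivity
  have n11 : 0 ≤ L ^ 3 * (w * r) := by positivity
  linarith

end Crest.Agent.T156.Alt.Mp9.Q34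
end
end

-- ▼ part T156/TLqS_45
section

/-!
# Row 156, block (L): Taylor with a step majorant of the second derivative (helper45)

Frame free.  `ν ≤ A + ∑_{τ i ≤ t} x i` gives the slope and the potential up to hinge sums.
-/

set_option autoImplicit false

namespace Crest.Agent.T156.Rig

open Set Filter Topology

namespace PC2
variable {S : Finset ℝ} {a b : ℝ} {W ω ν W' ω' ν' : ℝ → ℝ}

theorem add45 (h : PC2 S a b W ω ν) (h' : PC2 S a b W' ω' ν') :
    PC2 S a b (fun t => W t + W' t) (fun t => ω t + ω' t) fun t => ν t + ν' t :=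
  ⟨h.cW.add h'.cW, h.cω.add h'.cω, fun t ht hs => (h.dW t ht hs).add (h'.dW t ht hs),
    fun t ht hs => (h.dω t ht hs).add (h'.dω t ht hs)⟩

theorem cmul45 (h : PC2 S a b W ω ν) (c : ℝ) :
    PC2 S a b (fun t => c * W t) (fun t => c * ω t) fun t => c * ν t :=
  ⟨continuousOn_const.mul h.cW, continuousOn_const.mul h.cω,
    fun t ht hs => (h.dW t ht hs).const_mul c, fun t ht hs => (h.dω t ht hs).const_mul c⟩

theorem sum45 {ι : Type} (I : Finset ι) {F f g : ι → ℝ → ℝ}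
    (h : ∀ i ∈ I, PC2 S a b (F i) (f i) (g i)) :
    PC2 S a b (fun t => ∑ i ∈ I, F i t) (fun t => ∑ i ∈ I, f i t) fun t => ∑ i ∈ I, g i t :=
  ⟨continuousOn_finsetSum _ fun i hi => (h i hi).cW,
    continuousOn_finsetSum _ fun i hi => (h i hi).cω,
    fun t ht hs => HasDerivAt.fun_sum fun i hi => (h i hi).dW t ht hs,
    fun t ht hs => HasDerivAt.fun_sum fun i hi => (h i hi).dω t ht hs⟩

/-- one hinge -/
theorem hinge45 {τ : ℝ} (hτ : τ ∈ S) (a b : ℝ) :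
    PC2 S a b (fun t => max (t - τ) 0 ^ 2 / 2) (fun t => max (t - τ) 0)
      fun t => if τ ≤ t then 1 else 0 := by
  have c1 : Continuous fun t : ℝ => max (t - τ) 0 := by fun_prop
  have d : ∀ t, t ∉ S → HasDerivAt (fun t => max (t - τ) 0) (if τ ≤ t then 1 else 0) t := by
    intro t hs
    have ne : t ≠ τ := fun e => hs (e ▸ hτ)
    rcases lt_or_gt_of_ne ne with e | e
    · rw [if_neg (not_le.2 e)]
      refine (hasDerivAt_const t (0 : ℝ)).congr_of_eventuallyEq ?_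
      filter_upwards [Iio_mem_nhds e] with r hr
      exact max_eq_right (sub_nonpos.2 (le_of_lt hr))
    · rw [if_pos e.le]
      refine ((hasDerivAt_id' t).sub_const τ).congr_of_eventuallyEq ?_
      filter_upwards [Ioi_mem_nhds e] with r hr
      exact max_eq_left (sub_nonneg.2 (le_of_lt hr))
  refine ⟨((c1.pow 2).div_const 2).continuousOn, c1.continuousOn, fun t _ hs => ?_,
    fun t _ hs => d t hs⟩
  refine (((d t hs).fun_pow 2).div_const 2).congr_deriv ?_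
  split_ifs with e
  · simp
  · rw [max_eq_right (sub_nonpos.2 (not_le.1 e).le)]; simp

/-- **Taylor with a step majorant**, upper side -/
theorem step_up {ι : Type} (h : PC2 S a b W ω ν) (hab : a ≤ b) (I : Finset ι) (x τ : ι → ℝ)
    (hτ : ∀ i ∈ I, a ≤ τ i) {A : ℝ}
    (hν : ∀ t ∈ Ioo a b, t ∉ S → ν t ≤ A + ∑ i ∈ I, x i * if τ i ≤ t then 1 else 0) :
    (∀ t ∈ Icc a b, ω t ≤ ω a + A * (t - a) + ∑ i ∈ I, x i * max (t - τ i) 0) ∧
      W b ≤ W a + ω a * (b - a) + A * (b - a) ^ 2 / 2 +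
        ∑ i ∈ I, x i * (max (b - τ i) 0 ^ 2 / 2) := by
  classical
  have h0 : PC2 (S ∪ I.image τ) a b W ω ν := h.mono le_rfl le_rfl Finset.subset_union_left
  have h1 : PC2 (S ∪ I.image τ) a b (fun t => ω a * (t - a) + A * (t - a) ^ 2 / 2)
      (fun t => ω a + A * (t - a)) fun _ => A := by
    refine of_smooth _ a b (fun t => ?_) fun t => ?_
    · have := (((hasDerivAt_id' t).sub_const a).const_mul (ω a)).fun_add
        (((((hasDerivAt_id' t).sub_const a).fun_pow 2).const_mul A).div_const 2)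
      exact this.congr_deriv (by simp; ring)
    · have := ((((hasDerivAt_id' t).sub_const a).const_mul A).const_add (ω a))
      exact this.congr_deriv (by ring)
  have h2 := sum45 (S := S ∪ I.image τ) (a := a) (b := b) I fun i hi =>
    (hinge45 (Finset.mem_union_right S (Finset.mem_image_of_mem τ hi)) a b).cmul45 (x i)
  have h3 := (h1.add45 h2).sub h0
  have z : ∀ i ∈ I, max (a - τ i) 0 = 0 := fun i hi => max_eq_right (sub_nonpos.2 (hτ i hi))
  have z1 : ∑ i ∈ I, x i * max (a - τ i) 0 = 0 :=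
    Finset.sum_eq_zero fun i hi => by rw [z i hi, mul_zero]
  have z2 : ∑ i ∈ I, x i * (max (a - τ i) 0 ^ 2 / 2) = 0 :=
    Finset.sum_eq_zero fun i hi => by rw [z i hi]; simp
  have s : ∀ t ∈ Icc a b, ω t ≤ ω a + A * (t - a) + ∑ i ∈ I, x i * max (t - τ i) 0 := by
    intro t ht
    have := h3.ω_le le_rfl ht.1 ht.2 fun r hr hs => by
      have := hν r ⟨hr.1, hr.2.trans_le ht.2⟩ fun e => hs (Finset.mem_union_left _ e)
      show 0 ≤ A + ∑ i ∈ I, x i * (if τ i ≤ r then 1 else 0) - ν r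
      linarith
    simp only [sub_self, mul_zero, add_zero, z1] at this
    linarith
  refine ⟨s, ?_⟩
  have := h3.W_le le_rfl hab le_rfl fun r hr _ => by
    have := s r (Ioo_subset_Icc_self hr)
    show 0 ≤ ω a + A * (r - a) + ∑ i ∈ I, x i * max (r - τ i) 0 - ω r
    linarith
  simp only [sub_self, mul_zero, z2] at this
  linarith

/-- **Taylor with a step majorant**, lower side -/
theorem step_lo {ι : Type} (h : PC2 S a b W ω ν) (hab : a ≤ b) (I : Finset ι) (x τ : ι → ℝ)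
    (hτ : ∀ i ∈ I, a ≤ τ i) {A : ℝ}
    (hν : ∀ t ∈ Ioo a b, t ∉ S → -(A + ∑ i ∈ I, x i * if τ i ≤ t then 1 else 0) ≤ ν t) :
    (∀ t ∈ Icc a b, ω a - (A * (t - a) + ∑ i ∈ I, x i * max (t - τ i) 0) ≤ ω t) ∧
      W a + ω a * (b - a) - (A * (b - a) ^ 2 / 2 +
        ∑ i ∈ I, x i * (max (b - τ i) 0 ^ 2 / 2)) ≤ W b := by
  obtain ⟨p, q⟩ := h.neg.step_up hab I x τ hτ (A := A) fun t ht hs => by
    have := hν t ht hs
    linarith
  exact ⟨fun t ht => by have := p t ht; linarith, by linarith⟩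

end PC2

end Crest.Agent.T156.Rig
end

-- ▼ part T156/TLqT_45
section

/-!
# Row 156, block (L): the short window at the corner, Taylor with label remainder (helper45)

`y = sb (V + 1) < s J`, `tw = sb (w + 1)`, `W = WW`, `W' = om45`.
-/

set_option autoImplicit false

noncomputable section

namespace Crest.Agent.T156.Alt.Mp9

open MeasureTheory Set Real
open Crest.Agent.R164.GC Crest.Agent.R339.B Crest.Agent.R339.Var Crest.Agent.T157.Pf
open Crest.Agent.T156.Pp.Area50 Crest.Agent.T156.Spl27 Crest.Agent.T156.Zb9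

/-- the slope of `WW` -/
abbrev om45 (M : Md) (S : Sc) (m : ℕ) (a T t : ℝ) : ℝ :=
  Rig.muf M.b (lb M S m a T) t - Rig.muf M.b (lh M T) t

namespace At
variable {S : Sc} {M : Md} {m : ℕ} {a T : ℝ}

/-- the mean profile between two node times -/
theorem zb_step45 (A : At S M m a T) {V w : ℕ} (h1 : S.jl ≤ V) (h2 : V ≤ w) (h3 : w ≤ S.Jp) {t : ℝ}
    (t1 : sb M m a (V + 1) ≤ t) (t2 : t < sb M m a (w + 1)) :
    M.z V ≤ lvr 1 (lb M S m a T) t ∧ lvr 1 (lb M S m a T) t ≤ M.z V +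
      ∑ k ∈ Finset.Ioc V w, (M.z k - M.z (k - 1)) * if sb M m a (k + 1) ≤ t then 1 else 0 := by
  refine ⟨?_, ?_⟩
  · rw [← A.lvb_node h1 (h2.trans h3)]
    exact Sc48.lvr_mono A.okb.1.1 t1
  obtain ⟨i, ci⟩ := exists_Cell A.ub t
  have i1 : V + 1 ≤ i := ci.ge A.ub (by omega) t1
  have i2 : i < w + 1 := ci.lt A.ub (Nat.succ_pos w) t2
  obtain ⟨y, rfl⟩ : ∃ y, i = y + 1 := ⟨i - 1, by omega⟩
  rw [A.lvb_cell ci]
  have e := sum_dz M (show V ≤ y by omega)
  have : ∑ k ∈ Finset.Ioc V y, (M.z k - M.z (k - 1)) ≤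
      ∑ k ∈ Finset.Ioc V w, (M.z k - M.z (k - 1)) * if sb M m a (k + 1) ≤ t then 1 else 0 := by
    refine le_trans (le_of_eq (Finset.sum_congr rfl fun k hk => ?_))
      (Finset.sum_le_sum_of_subset_of_nonneg (Finset.Ioc_subset_Ioc_right (show y ≤ w by omega))
        fun k _ _ => mul_nonneg (A.dz_nn k) (by split_ifs <;> norm_num))
    rw [if_pos ((A.sb_mono (Nat.succ_le_succ (Finset.mem_Ioc.1 hk).2)).trans
      (ci.2.1 (Nat.succ_pos y))), mul_one]
  linarith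

/-- the reference above a time `y < s J` -/
theorem zh_step45 (A : At S M m a T) {y t : ℝ} (y0 : 0 ≤ y) (h : y ≤ t) :
    lvr 1 (lh M T) y ≤ lvr 1 (lh M T) t ∧ lvr 1 (lh M T) t ≤ lvr 1 (lh M T) y +
      S.C * (t - y + S.v) + if M.s S.J ≤ t then 1 else 0 := by
  refine ⟨Sc48.lvr_mono A.okh.1.1 h, ?_⟩
  have C0 := A.c_pos
  have v0 := v_pos A.cl
  split_ifs with e
  · have p := Pp.Ode3.lvr_le_one A.okh.1.1 t
    have q := Sc48.lvr_pos A.okh.1.1 y
    have : 0 ≤ S.C * (t - y + S.v) := mul_nonneg C0.le (by linarith)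
    linarith
  · have := (A.sl (not_le.1 e) y t y0 h le_rfl).2
    linarith

/-- the slope of the reference potential up to the time `t` -/
theorem e_le45 (A : At S M m a T) {r d : ℝ} (h0 : 0 ≤ r) (h1 : r ≤ T) (d0 : 0 ≤ d)
    (hd : r - M.s S.Jp ≤ d) : 1 - M.b * Pr.GG (lh M T) r ≤ S.C * S.θ + 2 * S.C * d := by
  have C0 := A.c_pos
  have k : ∀ r, 0 ≤ r → r ≤ M.s S.Jp → 1 - M.b * Pr.GG (lh M T) r ≤ S.C * S.θ := fun r a1 a2 => by
    rw [A.e_h ⟨a1, a2⟩]
    exact (A.cl.crit r ⟨a1, a2⟩).2.trans (mul_le_mul_of_nonneg_left (A.cl.ms1 r) C0.le)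
  rcases le_total r (M.s S.Jp) with c | c
  · have := k r h0 c
    nlinarith
  · have p := k _ (s_nn A.cl _) le_rfl
    have q := Lz74.Gp_down (ap_of_ok A.okh.1) (s_nn A.cl S.Jp) c (by rwa [A.okh.2]) (Z := 1)
      fun s _ _ => Pp.Ode3.lvr_le_one A.okh.1.1 s
    have b0 := A.b_pos
    have b1 := A.cl.b1
    change Pr.GG (lh M T) (M.s S.Jp) - Pr.GG (lh M T) r ≤ _ at q
    have q1 := mul_le_mul_of_nonneg_left q b0.le
    have q2 : M.b * (2 * 1 * (r - M.s S.Jp)) ≤ S.C * (2 * d) :=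
      mul_le_mul b1 (by linarith) (by linarith) C0.le
    nlinarith

/-- **the potential at any node above the W-mark** (sloped or plateau) -/
theorem W_node45 (A : At S M m a T) {k : ℕ} (h1 : S.jl < k) (h2 : k ≤ S.Jp) (c : ℝ) {d : ℝ}
    (hd : |sb M m a (k + 1) - M.s k| ≤ d) :
    |WW M S m a T c (sb M m a (k + 1))| ≤ |M.G k| + S.C * |res M S m a T k - c| + S.C / (m + 1) +
      (S.C * S.θ + 2 * S.C * d) * d := by
  have C0 := A.c_pos
  have d0 : 0 ≤ d := (abs_nonneg _).trans hd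
  have th0 : 0 ≤ S.θ := (A.ms_pos zero_le_one).le
  have mb := A.sb_mem h2
  have s0 := s_nn A.cl k
  have s1 : M.s k ≤ M.s S.Jp := A.cl.sm h2
  have sT : M.s k ≤ T := s1.trans A.t2
  have E0 : 0 ≤ S.C * S.θ + 2 * S.C * d := by positivity
  have key : |Rig.Mf M.b (lh M T) (sb M m a (k + 1)) - Rig.Mf M.b (lh M T) (M.s k)| ≤
      (S.C * S.θ + 2 * S.C * d) * d := by
    obtain ⟨p1, p2⟩ := abs_le.1 hd
    rcases le_total (M.s k) (sb M m a (k + 1)) with e | e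
    · obtain ⟨q1, q2⟩ := Mf_slope (b := M.b) (d := 0) (D := S.C * S.θ + 2 * S.C * d) A.okh.1 s0 e
        (by rw [A.okh.2]; exact mb.2) fun r hr =>
          ⟨A.e_nonneg ⟨s0.trans hr.1, hr.2.trans mb.2⟩,
            A.e_le45 (s0.trans hr.1) (hr.2.trans mb.2) d0 (by linarith [hr.2])⟩
      rw [abs_of_nonneg (by linarith)]
      exact q2.trans (mul_le_mul_of_nonneg_left p2 E0)
    · obtain ⟨q1, q2⟩ := Mf_slope (b := M.b) (d := 0) (D := S.C * S.θ + 2 * S.C * d) A.okh.1 mb.1 e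
        (by rw [A.okh.2]; exact sT) fun r hr =>
          ⟨A.e_nonneg ⟨mb.1.trans hr.1, hr.2.trans sT⟩,
            A.e_le45 (mb.1.trans hr.1) (hr.2.trans sT) d0 (by linarith [hr.2])⟩
      rw [abs_sub_comm, abs_of_nonneg (by linarith)]
      exact q2.trans (mul_le_mul_of_nonneg_left (by linarith) E0)
  obtain ⟨r1, r2⟩ := A.tail_mem (A.jp_le h2)
  rw [d_top A.cl h1 (A.jp_le h2)] at r1 r2
  have b0 := A.b_pos
  have hr : |M.b * res M S m a T k - M.b * c| ≤ S.C * |res M S m a T k - c| := by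
    rw [← mul_sub, abs_mul, abs_of_pos b0]
    exact mul_le_mul_of_nonneg_right A.cl.b1 (abs_nonneg _)
  rw [A.Mf_node h1 h2] at key
  unfold WW
  rw [A.Mf_b h1 h2]
  obtain ⟨k1, k2⟩ := abs_le.1 key
  obtain ⟨k3, k4⟩ := abs_le.1 hr
  refine abs_le.2 ⟨?_, ?_⟩ <;> linarith [le_abs_self (M.G k), neg_abs_le (M.G k)]

/-- **Taylor with label remainder** on `[sb (V + 1), sb (w + 1)]`; `U` bounds `|u|` at the lower
end, `P` the `H⁻¹` size -/
theorem tay45 (T0 : ℝ) : ∃ K : ℝ, 1 ≤ K ∧ ∀ {S : Sc} {M : Md} {m : ℕ} {a T : ℝ},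
    At S M m a T → T ≤ T0 → ∀ {V w : ℕ} {U P : ℝ} (c : ℝ), S.jl ≤ V → V ≤ w → w ≤ S.Jp →
      |uu M S m a T (sb M m a (V + 1))| ≤ U →
      (∀ t ∈ Icc (sb M m a (V + 1)) (sb M m a (w + 1)), Rig.Hp (lh M T) (lb M S m a T) t ≤ P) →
      ∀ y tw Γ, y = sb M m a (V + 1) → tw = sb M m a (w + 1) → Γ = tw - y →
      ((∀ t ∈ Icc y tw, om45 M S m a T t ≤ om45 M S m a T y + S.C * (2 * U + K * P) * (t - y) +
          2 * S.C * ∑ k ∈ Finset.Ioc V w, (M.z k - M.z (k - 1)) * max (t - sb M m a (k + 1)) 0) ∧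
        WW M S m a T c tw ≤ WW M S m a T c y + om45 M S m a T y * Γ +
          S.C * (2 * U + K * P) * Γ ^ 2 / 2 +
          S.C * ∑ k ∈ Finset.Ioc V w, (M.z k - M.z (k - 1)) * (tw - sb M m a (k + 1)) ^ 2) ∧
      ((∀ t ∈ Icc y tw, om45 M S m a T y - (S.C * (2 * (U + S.C * (Γ + S.v)) + K * P) * (t - y) +
          2 * S.C * max (t - M.s S.J) 0) ≤ om45 M S m a T t) ∧
        WW M S m a T c y + om45 M S m a T y * Γ -
          (S.C * (2 * (U + S.C * (Γ + S.v)) + K * P) * Γ ^ 2 / 2 +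
            S.C * max (tw - max (M.s S.J) y) 0 ^ 2) ≤ WW M S m a T c tw) := by
  obtain ⟨K, K1, H⟩ := Rig.rel' T0
  refine ⟨K, K1, fun {S M m a T} A hT {V w U P} c h1 h2 h3 hU hP y tw Γ ey etw eΓ => ?_⟩
  have C0 := A.c_pos
  have v0 := v_pos A.cl
  have b0 := A.b_pos
  have b1 := A.cl.b1
  have my : y ∈ Icc 0 T := ey ▸ A.sb_mem (h2.trans h3)
  have mw : tw ∈ Icc 0 T := etw ▸ A.sb_mem h3
  have yw : y ≤ tw := by rw [ey, etw]; exact A.sb_mono (Nat.succ_le_succ h2)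
  have U0 : 0 ≤ U := (abs_nonneg _).trans hU
  rw [← ey, ← etw] at hP
  rw [← ey] at hU
  have hp0 : ∀ t, 0 ≤ Rig.Hp (lh M T) (lb M S m a T) t := fun t =>
    add_nonneg (abs_nonneg _) (intervalIntegral.integral_nonneg
      (by rw [A.okh.2]; exact my.1.trans my.2) fun _ _ => abs_nonneg _)
  have pc := Rig.pc2_pair (ap_of_ok A.okb.1) (ap_of_ok A.okh.1) M.b (-(M.b * c)) (c := tw) my.1
    (by rw [A.okb.2]; exact mw.2) (by rw [A.okh.2]; exact mw.2)
  have uy : uu M S m a T y = M.z V - lvr 1 (lh M T) y := by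
    rw [uu, ey, A.lvb_node h1 (h2.trans h3)]
  obtain ⟨U1, U2⟩ := abs_le.1 hU
  -- second derivative
  have nu : ∀ t ∈ Ioo y tw, ∀ X Y, 0 ≤ X → 0 ≤ Y → uu M S m a T t ≤ X → -Y ≤ uu M S m a T t →
      Rig.nuf M.b (lb M S m a T) t - Rig.nuf M.b (lh M T) t ≤ 2 * S.C * X + S.C * (K * P) ∧
      -(2 * S.C * Y + S.C * (K * P)) ≤
        Rig.nuf M.b (lb M S m a T) t - Rig.nuf M.b (lh M T) t := by
    intro t ht X Y X0 Y0 hX hY
    obtain ⟨be, m1, m2⟩ := H _ _ (ap_of_ok A.okb.1) (ap_of_ok A.okh.1)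
      (A.okb.2.trans A.okh.2.symm) (by rwa [A.okh.2]) M.b b0.le t
      (by rw [A.okh.2]; exact ⟨my.1.trans ht.1.le, ht.2.le.trans mw.2⟩)
    have be0 : 0 ≤ be := le_trans (by positivity) m1.1
    have be1 : be ≤ S.C := m1.2.trans b1
    have m3 : K * M.b * Rig.Hp (lh M T) (lb M S m a T) t ≤ S.C * (K * P) := by
      have := mul_le_mul (mul_le_mul_of_nonneg_left b1 (by linarith : 0 ≤ K))
        (hP t (Ioo_subset_Icc_self ht)) (hp0 t) (by positivity)
      linarith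
    obtain ⟨n1, n2⟩ := abs_le.1 (m2.trans m3)
    change _ ≤ _ - 2 * be * uu M S m a T t at n1
    change _ - 2 * be * uu M S m a T t ≤ _ at n2
    have q1 : be * uu M S m a T t ≤ S.C * X :=
      (mul_le_mul_of_nonneg_left hX be0).trans (mul_le_mul_of_nonneg_right be1 X0)
    have q2 : be * Y ≤ S.C * Y := mul_le_mul_of_nonneg_right be1 Y0
    have q3 := mul_le_mul_of_nonneg_left hY be0
    constructor <;> nlinarith
  have ite0 : ∀ p : Prop, ∀ [Decidable p], (0 : ℝ) ≤ if p then 1 else 0 := fun p _ => by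
    split_ifs <;> norm_num
  have bd : ∀ t ∈ Ioo y tw, uu M S m a T t ≤ U + ∑ k ∈ Finset.Ioc V w,
      (M.z k - M.z (k - 1)) * (if sb M m a (k + 1) ≤ t then 1 else 0) ∧
      -(U + S.C * (Γ + S.v) + if M.s S.J ≤ t then 1 else 0) ≤ uu M S m a T t := by
    intro t ht
    obtain ⟨p1, p2⟩ := A.zb_step45 h1 h2 h3 (t := t) (ey ▸ ht.1.le) (etw ▸ ht.2)
    obtain ⟨q1, q2⟩ := A.zh_step45 my.1 ht.1.le
    have q3 : S.C * (t - y + S.v) ≤ S.C * (Γ + S.v) :=
      mul_le_mul_of_nonneg_left (by linarith [ht.2]) C0.le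
    unfold uu at *
    constructor <;> linarith
  have G0 : 0 ≤ Γ := by linarith
  have Y0 : ∀ t, 0 ≤ U + S.C * (Γ + S.v) + if M.s S.J ≤ t then 1 else 0 := fun t => by
    have := ite0 (M.s S.J ≤ t); positivity
  have X0 : ∀ t, 0 ≤ U + ∑ k ∈ Finset.Ioc V w,
      (M.z k - M.z (k - 1)) * (if sb M m a (k + 1) ≤ t then 1 else 0) := fun t =>
    add_nonneg U0 (Finset.sum_nonneg fun k _ => mul_nonneg (A.dz_nn k) (ite0 _))
  refine ⟨?_, ?_⟩
  · obtain ⟨p, q⟩ := pc.step_up yw (Finset.Ioc V w) (fun k => 2 * S.C * (M.z k - M.z (k - 1)))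
      (fun k => sb M m a (k + 1))
      (fun k hk => ey ▸ A.sb_mono (Nat.succ_le_succ (Finset.mem_Ioc.1 hk).1.le))
      (A := S.C * (2 * U + K * P)) fun t ht _ => by
        have r := (nu t ht _ _ (X0 t) (Y0 t) (bd t ht).1 (bd t ht).2).1
        simp only [mul_assoc (2 * S.C), ← Finset.mul_sum]
        linarith
    simp only [mul_assoc (2 * S.C), ← Finset.mul_sum] at p q
    refine ⟨p, ?_⟩
    have e : ∑ k ∈ Finset.Ioc V w, (M.z k - M.z (k - 1)) * (max (tw - sb M m a (k + 1)) 0 ^ 2 / 2) =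
        (∑ k ∈ Finset.Ioc V w, (M.z k - M.z (k - 1)) * (tw - sb M m a (k + 1)) ^ 2) / 2 := by
      rw [Finset.sum_div]
      refine Finset.sum_congr rfl fun k hk => ?_
      rw [max_eq_left (sub_nonneg.2 (etw ▸ A.sb_mono (Nat.succ_le_succ (Finset.mem_Ioc.1 hk).2)))]
      ring
    rw [e, ← eΓ] at q
    unfold WW
    linarith
  · obtain ⟨p, q⟩ := pc.step_lo yw (Finset.univ : Finset Unit) (fun _ => 2 * S.C)
      (fun _ => max (M.s S.J) y) (fun _ _ => le_max_right _ _)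
      (A := S.C * (2 * (U + S.C * (Γ + S.v)) + K * P)) fun t ht _ => by
        have r := (nu t ht _ _ (X0 t) (Y0 t) (bd t ht).1 (bd t ht).2).2
        simp only [Finset.univ_unique, Finset.sum_singleton, max_le_iff, ht.1.le, and_true]
        linarith
    simp only [Finset.univ_unique, Finset.sum_singleton] at p q
    refine ⟨fun t ht => ?_, ?_⟩
    · have r := p t ht
      have : max (t - max (M.s S.J) y) 0 ≤ max (t - M.s S.J) 0 :=
        max_le_max (by linarith [le_max_left (M.s S.J) y]) le_rfl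
      nlinarith
    · rw [← eΓ] at q
      unfold WW
      linarith

/-- **the boundary value of the window** from a node `w` above it -/
theorem bdry45 (T0 : ℝ) : ∃ K : ℝ, 1 ≤ K ∧ ∀ {S : Sc} {M : Md} {m : ℕ} {a T : ℝ},
    At S M m a T → T ≤ T0 → ∀ {V w : ℕ} {U P Γ R d Ω : ℝ} (c : ℝ), S.jl < V → V ≤ w → w ≤ S.Jp →
      S.J ≤ w → |uu M S m a T (sb M m a (V + 1))| ≤ U →
      (∀ t ∈ Icc (sb M m a (V + 1)) (sb M m a (w + 1)), Rig.Hp (lh M T) (lb M S m a T) t ≤ P) →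
      sb M m a (w + 1) - sb M m a (V + 1) ≤ Γ →
      ∑ k ∈ Finset.Ioc V w, (M.z k - M.z (k - 1)) * (sb M m a (w + 1) - sb M m a (k + 1)) ^ 2 ≤ R →
      |sb M m a (w + 1) - M.s w| ≤ d → |om45 M S m a T (sb M m a (V + 1))| ≤ Ω →
      |WW M S m a T c (sb M m a (V + 1))| ≤ |M.G w| + S.C * |res M S m a T w - c| + S.C / (m + 1) +
        (S.C * S.θ + 2 * S.C * d) * d + Ω * Γ +
        S.C * ((U + S.C * (Γ + S.v) + K * P) * Γ ^ 2 + R + (d + (M.s w - M.s S.J)) ^ 2) := by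
  obtain ⟨K, K1, H⟩ := tay45 T0
  refine ⟨K, K1, fun {S M m a T} A hT {V w U P Γ R d Ω} c h1 h2 h3 hJ hU hP hΓ hR hd hΩ => ?_⟩
  obtain ⟨⟨-, p⟩, -, q⟩ := H A hT c h1.le h2 h3 hU hP _ _ _ rfl rfl rfl
  have n := abs_le.1 (A.W_node45 (h1.trans_le h2) h3 c hd)
  have C0 := A.c_pos
  have v0 := v_pos A.cl
  have g0 : 0 ≤ sb M m a (w + 1) - sb M m a (V + 1) := sub_nonneg.2 (A.sb_mono (Nat.succ_le_succ h2))
  have my := A.sb_mem (h2.trans h3)
  have P0 : 0 ≤ P := le_trans (add_nonneg (abs_nonneg _) (intervalIntegral.integral_nonneg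
      (by rw [A.okh.2]; exact my.1.trans my.2) fun _ _ => abs_nonneg _))
    (hP _ ⟨le_rfl, by linarith⟩)
  have U0 : 0 ≤ U := (abs_nonneg _).trans hU
  have d0 : 0 ≤ d := (abs_nonneg _).trans hd
  have sJ : 0 ≤ M.s w - M.s S.J := sub_nonneg.2 (A.cl.sm hJ)
  have R0 : 0 ≤ R := le_trans (Finset.sum_nonneg fun k _ => mul_nonneg (A.dz_nn k) (sq_nonneg _)) hR
  generalize sb M m a (w + 1) - sb M m a (V + 1) = g at *
  have o : |om45 M S m a T (sb M m a (V + 1)) * g| ≤ Ω * Γ := by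
    rw [abs_mul, abs_of_nonneg g0]
    exact mul_le_mul hΩ hΓ g0 ((abs_nonneg _).trans hΩ)
  obtain ⟨o1, o2⟩ := abs_le.1 o
  have KP : 0 ≤ K * P := by positivity
  have g2 : g ^ 2 ≤ Γ ^ 2 := pow_le_pow_left₀ g0 hΓ 2
  have x1 : S.C * (2 * (U + S.C * (g + S.v)) + K * P) * g ^ 2 / 2 ≤
      S.C * ((U + S.C * (Γ + S.v) + K * P) * Γ ^ 2) := by
    have : (2 * (U + S.C * (g + S.v)) + K * P) / 2 ≤ U + S.C * (Γ + S.v) + K * P := by
      nlinarith [mul_le_mul_of_nonneg_left hΓ C0.le]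
    have := mul_le_mul this g2 (sq_nonneg _) (by have := g0.trans hΓ; positivity)
    nlinarith [mul_le_mul_of_nonneg_left this C0.le]
  have x2 : S.C * (2 * U + K * P) * g ^ 2 / 2 ≤
      S.C * (2 * (U + S.C * (g + S.v)) + K * P) * g ^ 2 / 2 := by
    have : 0 ≤ S.C * (2 * (S.C * (g + S.v))) * g ^ 2 := by positivity
    nlinarith
  have x3 : max (sb M m a (w + 1) - max (M.s S.J) (sb M m a (V + 1))) 0 ^ 2 ≤
      (d + (M.s w - M.s S.J)) ^ 2 :=
    pow_le_pow_left₀ (le_max_right _ _) (max_le (by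
      linarith [le_max_left (M.s S.J) (sb M m a (V + 1)), (abs_le.1 hd).2]) (by linarith)) 2
  have x4 := mul_le_mul_of_nonneg_left x3 C0.le
  have x5 := mul_le_mul_of_nonneg_left hR C0.le
  have x6 : 0 ≤ S.C * R := by positivity
  have x7 : 0 ≤ S.C * (d + (M.s w - M.s S.J)) ^ 2 := by positivity
  refine abs_le.2 ⟨?_, ?_⟩ <;> nlinarith

end At

end Crest.Agent.T156.Alt.Mp9

end
end

-- ▼ part T156/TLqW_34

/-!
# Row 156, block (L), TLq steps (iii), (iv) (helper34): closing at the last good node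
-/

set_option autoImplicit false

noncomputable section

namespace Crest.Agent.T156.Alt.Mp9.Q34

open MeasureTheory Set Real
open Crest.Agent.R164.GC Crest.Agent.R339.B Crest.Agent.R339.Var Crest.Agent.T157.Pf
open Crest.Agent.T156.Pp.Area50 Crest.Agent.T156.Spl27 Crest.Agent.T156.Zb9

variable {S : Sc} {M : Md} {m : ℕ} {a T : ℝ}

theorem num3 {L r w len X Y γ F Gm a' R C v U I : ℝ} (hL : 100 ≤ L) (r0 : 0 < r) (w0 : 0 ≤ w)
    (X0 : 0 ≤ X) (Y0 : 0 ≤ Y) (γ0 : 0 ≤ γ) (F0 : 0 ≤ F) (G0 : 0 ≤ Gm) (a0 : 0 ≤ a') (C0 : 0 ≤ C)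
    (v0 : 0 ≤ v) (hC : C ≤ L) (hv : v ≤ F) (hl : r ≤ len) (r1 : r ≤ 1) (hw : w ≤ L ^ 5 * (X + Y))
    (hU : U = 6 * L ^ 3 * F + 12 * L * (F + w))
    (hI : I = 2 * (len * (6 * L ^ 3 * F) ^ 2) + 4 * (6 * L * (F + w)) ^ 2 * (2 * (L * r))) :
    4 * C * (I + (C * v) ^ 2 * len) + (U + a') * (2 * Gm + X + γ + C * (U + C * v)) ^ 2 +
        3 * (R ^ 2 + X ^ 2 + γ ^ 2) ≤
      L ^ 24 * (len * F ^ 2 + R ^ 2 + X ^ 2 + γ ^ 2 + r * Y ^ 2 + (a' + Gm + γ + F + X + Y) ^ 3) := by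
  have L0 : 0 ≤ L := by linarith
  have l0 : 0 ≤ len := by linarith
  set s := a' + Gm + γ + F + X + Y with hs
  have s0 : 0 ≤ s := by positivity
  have U0 : 0 ≤ U := by rw [hU]; positivity
  have I0 : 0 ≤ I := by rw [hI]; positivity
  have b1 : U ≤ L ^ 7 * s := by
    have := mul_le_mul_of_nonneg_left hw L0
    have := mul_le_mul_of_nonneg_left (show F ≤ s by linarith) (show 0 ≤ L ^ 3 by positivity)
    have := mul_le_mul_of_nonneg_left (show F ≤ s by linarith) L0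
    have := mul_le_mul_of_nonneg_left (show X + Y ≤ s by linarith) (show 0 ≤ L ^ 6 by positivity)
    have := pw hL (show 3 < 7 by norm_num) s0
    have := pw hL (show 1 < 7 by norm_num) s0
    have := pw hL (show 6 < 7 by norm_num) s0
    have : 0 ≤ L ^ 7 * s := by positivity
    generalize s = z at *
    linarith
  have b2 : U + a' ≤ 2 * (L ^ 7 * s) := by
    have := pw hL (show 0 < 7 by norm_num) s0
    linarith
  have cv : C * v ≤ L * F := mul_le_mul hC hv v0 L0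
  have b3 : 2 * Gm + X + γ + C * (U + C * v) ≤ 2 * (L ^ 8 * s) := by
    have q : C * (U + C * v) ≤ L * (L ^ 7 * s + L * s) := mul_le_mul hC (by
      linarith [mul_le_mul_of_nonneg_left (show F ≤ s by linarith) L0]) (by positivity) L0
    have := pw hL (show 0 < 8 by norm_num) s0
    have := pw hL (show 2 < 8 by norm_num) s0
    have : 2 * Gm + X + γ ≤ 2 * s := by linarith
    generalize s = z at *
    linarith
  have b4 : (U + a') * (2 * Gm + X + γ + C * (U + C * v)) ^ 2 ≤ 2 * (L ^ 7 * s) * (2 * (L ^ 8 * s)) ^ 2 :=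
    mul_le_mul b2 (pow_le_pow_left₀ (by positivity) b3 2) (sq_nonneg _) (by positivity)
  have b5 := pw hL (show 23 < 24 by norm_num) (show 0 ≤ s ^ 3 by positivity)
  have b6 : (F + w) ^ 2 ≤ 3 * F ^ 2 + 3 * (L ^ 5 * X) ^ 2 + 3 * (L ^ 5 * Y) ^ 2 := by
    have : (F + w) ^ 2 ≤ (F + L ^ 5 * X + L ^ 5 * Y) ^ 2 :=
      pow_le_pow_left₀ (by positivity) (by linarith) 2
    linarith only [this, sq_nonneg (F - L ^ 5 * X), sq_nonneg (F - L ^ 5 * Y),
      sq_nonneg (L ^ 5 * X - L ^ 5 * Y)]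
  have b7 : 4 * C * (I + (C * v) ^ 2 * len) ≤ 4 * L * (I + (L * F) ^ 2 * len) :=
    mul_le_mul (by linarith) (by
      linarith [mul_le_mul_of_nonneg_right (pow_le_pow_left₀ (by positivity) cv 2) l0])
      (by positivity) (by positivity)
  have b8 := mul_le_mul_of_nonneg_left b6 (show 0 ≤ L ^ 4 * r by positivity)
  have b9 := mul_le_mul_of_nonneg_left hl (show 0 ≤ L ^ 4 * F ^ 2 by positivity)
  have b10 := mul_le_mul_of_nonneg_left r1 (show 0 ≤ L ^ 14 * X ^ 2 by positivity)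
  have m1 : 0 ≤ len * F ^ 2 := by positivity
  have m2 : 0 ≤ r * Y ^ 2 := by positivity
  have c1 := pw hL (show 7 < 8 by norm_num) m1
  have c2 := pw hL (show 8 < 24 by norm_num) m1
  have c3 := pw hL (show 4 < 7 by norm_num) m1
  have c4 := pw hL (show 3 < 7 by norm_num) m1
  have c5 := pw hL (show 14 < 15 by norm_num) (sq_nonneg X)
  have c6 := pw hL (show 15 < 24 by norm_num) (sq_nonneg X)
  have c7 := pw hL (show 14 < 15 by norm_num) m2
  have c8 := pw hL (show 15 < 24 by norm_num) m2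
  have c9 := pw hL (show 0 < 24 by norm_num) (sq_nonneg X)
  have c10 := pw hL (show 0 < 24 by norm_num) (sq_nonneg R)
  have c11 := pw hL (show 0 < 24 by norm_num) (sq_nonneg γ)
  have n1 : 0 ≤ L ^ 24 * (len * F ^ 2) := by positivity
  have n2 : 0 ≤ L ^ 24 * X ^ 2 := by positivity
  have n3 : 0 ≤ L ^ 24 * (r * Y ^ 2) := by positivity
  have n4 : 0 ≤ L ^ 23 * s ^ 3 := by positivity
  have n5 := sq_nonneg R
  have n6 := sq_nonneg γ
  rw [hI] at b7
  rw [hI]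
  clear_value s
  linarith only [b4, b5, b7, b8, b9, b10, c1, c2, c3, c4, c5, c6, c7, c8, c9, c10, c11, n1, n2, n3, n4,
    n5, n6]

/-- **data of the closing**: `V` the last good sloped node, `w` a good plateau node -/
structure Cq (S : Sc) (M : Md) (m : ℕ) (a T : ℝ) (Sb : Finset ℝ) (gp : ℝ → ℝ → Prop) (c0 : ℝ)
    (V kA w : ℕ) (a0 a1 b0 b1 p0 d D err C1 δ L r F Γ Gm a' R p g er γ P : ℝ) : Prop where
  at' : At S M m a T
  tk : Rig.Tk Sb a0 (sb M m a (V + 1)) (WW M S m a T c0)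
    (fun t => Rig.muf M.b (lb M S m a T) t - Rig.muf M.b (lh M T) t)
    (fun t => Rig.nuf M.b (lb M S m a T) t - Rig.nuf M.b (lh M T) t) (uu M S m a T) gp
    b0 b1 p0 d D err C1 δ
  jV : S.jl < V
  VJ : V < S.J
  k3 : S.J ≤ kA
  kw : kA ≤ w
  wJ : w ≤ S.Jp
  yJ : sb M m a (V + 1) < M.s S.J
  aj : M.s S.j0 ≤ a1
  a01 : a0 ≤ a1
  len : a1 + 2 * r ≤ sb M m a (V + 1)
  sh : Rig.Sh a0 (sb M m a (V + 1)) gp a1 (sb M m a (V + 1)) Γ
  L1 : 100 ≤ L
  r0 : 0 < r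
  hb0 : 1 ≤ b0 * L
  hb1 : b1 ≤ L
  hC1 : C1 ≤ L
  hC : S.C ≤ L
  hd : r ^ 2 ≤ L * d
  hD : D ≤ L * r ^ 2
  hθ : S.θ ≤ L ^ 2 * r ^ 2
  Γ0 : 0 ≤ Γ
  ΓF : Γ ≤ F
  δF : δ ≤ F
  pF : p0 ≤ F
  vF : S.v ≤ F
  e0 : 0 ≤ err
  eF : err ≤ F * r ^ 2
  WF : |WW M S m a T c0 a1| ≤ F * r ^ 2
  hJ : |Sc48.Jf (lh M T) (lb M S m a T) T (a1 + r)| ≤ p
  hG : sb M m a (w + 1) - sb M m a (V + 1) ≤ Gm
  he : |res M S m a T w - c0| ≤ er
  hg : |M.G w| ≤ g
  hγ : M.s S.Jp - M.s S.J ≤ γ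
  ha : M.z (kA - 1) - M.z V ≤ a'
  R0 : 0 ≤ R
  sp : ∑ k ∈ Finset.Icc kA S.Jp,
    (M.z k - M.z (k - 1)) * (sb M m a (k + 1) - sb M m a (w + 1)) ^ 2 ≤ R ^ 2
  hκ : 1 ≤ L * (1 - M.z (kA - 1))
  s1 : L ^ 10 * (Gm + |sb M m a (w + 1) - M.s S.J| + Γ) ≤ r
  s2 : L ^ 10 * (r + F + a') ≤ 1
  hP : ∀ t ∈ Icc (sb M m a (V + 1)) (sb M m a (w + 1)), Rig.Hp (lh M T) (lb M S m a T) t ≤ P

/-- the error of the potential at the upper end -/
def Aq (m : ℕ) (r F Gm a' R g er γ P : ℝ) : ℝ :=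
  g + er + 1 / ((m : ℝ) + 1) + r ^ 2 * γ + γ ^ 2 + F * r * Gm + a' * Gm ^ 2 + R ^ 2 + Gm ^ 3 +
    Gm ^ 2 * P

namespace Cq
variable {Sb : Finset ℝ} {gp : ℝ → ℝ → Prop} {c0 : ℝ} {V kA w : ℕ}
  {a0 a1 b0 b1 p0 d D err C1 δ L r F Γ Gm a' R p g er γ P : ℝ}
  (h : Cq S M m a T Sb gp c0 V kA w a0 a1 b0 b1 p0 d D err C1 δ L r F Γ Gm a' R p g er γ P)
include h

theorem nn : 0 ≤ F ∧ 0 ≤ Gm ∧ 0 ≤ γ ∧ 0 ≤ a' ∧ 0 ≤ P ∧ L * Γ ≤ r := by
  have i1 := h.VJ
  have i2 := h.k3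
  have i3 := h.kw
  have y := h.at'.sb_mono (show V + 1 ≤ w + 1 by omega)
  have G0 : 0 ≤ Gm := by linarith [h.hG]
  refine ⟨h.Γ0.trans h.ΓF, G0, by linarith [h.hγ, h.at'.cl.sm h.at'.cl.i3],
    by linarith [h.ha, h.at'.cl.leg.zm (show V ≤ kA - 1 by omega)],
    le_trans (add_nonneg (abs_nonneg _) (intervalIntegral.integral_nonneg
      (by rw [h.at'.okh.2]; exact h.at'.T0) fun _ _ => abs_nonneg _)) (h.hP _ ⟨le_rfl, y⟩), ?_⟩
  have := pw h.L1 (show 1 < 10 by norm_num) h.Γ0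
  have := mul_nonneg (pow_nonneg (show 0 ≤ L by linarith [h.L1]) 10)
    (add_nonneg G0 (abs_nonneg (sb M m a (w + 1) - M.s S.J)))
  have := mul_nonneg (show 0 ≤ L by linarith [h.L1]) h.Γ0
  linarith [h.s1]

/-- decay from the upper end, `x r² = |W y|` -/
theorem dec {x : ℝ} (x0 : 0 ≤ x) (hx : |WW M S m a T c0 (sb M m a (V + 1))| = x * r ^ 2) :
    (∀ t ∈ Icc (a1 + r) (sb M m a (V + 1)), |uu M S m a T t| ≤ 6 * L ^ 3 * F +
      6 * L * (F + x) * Rig.Q34.ph (1 / (L * r)) a1 (sb M m a (V + 1)) t) ∧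
    (∀ t ∈ Icc (a1 + r) (sb M m a (V + 1)), |uu M S m a T t| ≤ 6 * L ^ 3 * F + 12 * L * (F + x)) ∧
    |om45 M S m a T (sb M m a (V + 1))| ≤ r * (8 * L ^ 4 * F + 13 * L ^ 2 * (F + x)) := by
  obtain ⟨F0, -, -, -, -, LΓ⟩ := h.nn
  have L1 := h.L1
  have r0 := h.r0
  have L0 : 0 < L := by linarith
  have Γ0 := h.Γ0
  have d0 := h.tk.d0
  have D0 := d0.le.trans h.tk.dD
  have δ0 := h.tk.δ0
  have c0' := h.tk.C0
  have q0 := h.tk.p0
  have b10 := h.tk.b1
  have e0 := h.e0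
  have Γr : Γ ≤ r := by nlinarith
  have o1 : C1 * Γ + δ ≤ (L + 1) * F := by linarith [mul_le_mul h.hC1 h.ΓF Γ0 L0.le, h.δF]
  have dv : ∀ z, 0 ≤ z → z * r ^ 2 / d ≤ L * z := fun z z0 => by
    rw [div_le_iff₀ d0]; linarith [mul_le_mul_of_nonneg_left h.hd z0]
  have H := Rig.Q34.dec h.tk (κ := 1 / (L * r)) (q₀ := L ^ 2 * r ^ 2 * F) (B := (F + x) * r ^ 2)
    (E := 4 * L ^ 2 * F * r ^ 2) h.a01 h.sh Γ0 (by
      have e1 := mul_le_mul_of_nonneg_right h.hb1 (sq_nonneg Γ)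
      have e2 := (pow_le_pow_left₀ (by positivity) LΓ 2).trans h.hd
      have e3 : L * Γ ^ 2 ≤ d := le_of_mul_le_mul_left (by linarith) L0
      linarith) (by positivity) (by
      have e1 : (1 / (L * r)) ^ 2 * D ≤ (1 / (L * r)) ^ 2 * (L * r ^ 2) :=
        mul_le_mul_of_nonneg_left h.hD (sq_nonneg _)
      have e2 : (1 / (L * r)) ^ 2 * (L * r ^ 2) = 1 / L := by field_simp
      have e3 : 1 / L ≤ b0 := (div_le_iff₀ L0).2 h.hb0
      linarith [h.tk.b0]) (h.pF.trans (le_of_eq (by field_simp))) (by positivity) (by positivity) (by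
      unfold Rig.eP
      have e1 := mul_le_mul h.hD o1 (by positivity) (by positivity)
      have e2 : 4 * b1 * (C1 * Γ + δ) + p0 ≤ 4 * L * ((L + 1) * F) + F := by
        linarith [mul_le_mul h.hb1 o1 (by positivity) L0.le, h.pF]
      have e3 := mul_le_mul (pow_le_pow_left₀ Γ0 Γr 2) e2 (by positivity) (by positivity)
      have e4 := pw L1 (show 1 < 2 by norm_num) (show 0 ≤ F * r ^ 2 by positivity)
      have e5 := pw L1 (show 0 < 2 by norm_num) (show 0 ≤ F * r ^ 2 by positivity)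
      have e6 : 0 ≤ L ^ 2 * (F * r ^ 2) := by positivity
      linarith [h.eF]) (by unfold Rig.eP; positivity) (by
      rw [div_mul_eq_mul_div, div_le_one (by positivity)]; nlinarith)
    (h.WF.trans (by nlinarith [mul_nonneg x0 (sq_nonneg r)]))
    (hx.le.trans (by nlinarith [mul_nonneg F0 (sq_nonneg r)]))
  have H1 : ∀ t ∈ Icc (a1 + r) (sb M m a (V + 1)), |uu M S m a T t| ≤ 6 * L ^ 3 * F +
      6 * L * (F + x) * Rig.Q34.ph (1 / (L * r)) a1 (sb M m a (V + 1)) t := fun t ht => by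
    have e1 := H.2 t ⟨by linarith [ht.1], ht.2⟩
    have e2 : (4 * L ^ 2 * F * r ^ 2 + err) / d ≤ L * (4 * L ^ 2 * F + F) :=
      (div_le_div_of_nonneg_right (by linarith [h.eF]) d0.le).trans (dv _ (by positivity))
    have e3 : 6 * ((F + x) * r ^ 2) / d ≤ 6 * L * (F + x) :=
      (le_of_eq (by ring)).trans ((dv (6 * (F + x)) (by positivity)).trans (le_of_eq (by ring)))
    have e4 := mul_le_mul_of_nonneg_right e3 (Rig.Q34.ph_pos (1 / (L * r)) a1 (sb M m a (V + 1)) t).le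
    have e5 := pw L1 (show 1 < 3 by norm_num) F0
    have e6 := pw L1 (show 0 < 3 by norm_num) F0
    have e7 : 0 ≤ L ^ 3 * F := by positivity
    linarith
  have H2 : ∀ t ∈ Icc (a1 + r) (sb M m a (V + 1)),
      |uu M S m a T t| ≤ 6 * L ^ 3 * F + 12 * L * (F + x) := fun t ht => by
    have e1 := mul_le_mul_of_nonneg_left (Rig.Q34.ph_le (κ := 1 / (L * r)) (by positivity)
      (show a1 ≤ t by linarith [ht.1]) ht.2) (show 0 ≤ 6 * L * (F + x) by positivity)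
    linarith [H1 t ht]
  refine ⟨H1, H2, ?_⟩
  have e1 := Rig.Q34.slopeR h.tk (η := r) (by linarith [h.a01, h.len]) r0
    (fun t ht => H.1 t ⟨by linarith [ht.1, h.len], ht.2⟩)
    fun t ht => H2 t ⟨by linarith [ht.1, h.len], ht.2⟩
  have e2 : 2 * (4 * L ^ 2 * F * r ^ 2 + 2 * ((F + x) * r ^ 2)) / r =
      r * (8 * L ^ 2 * F + 4 * (F + x)) := by field_simp; ring
  have e3 := mul_le_mul_of_nonneg_right h.hb1
    (show 0 ≤ (6 * L ^ 3 * F + 12 * L * (F + x)) * r by positivity)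
  have e4 := mul_le_mul_of_nonneg_right h.pF r0.le
  have e5 := pw L1 (show 2 < 4 by norm_num) (show 0 ≤ F * r by positivity)
  have e6 := pw L1 (show 0 < 4 by norm_num) (show 0 ≤ F * r by positivity)
  have e7 := pw L1 (show 0 < 2 by norm_num) (show 0 ≤ (F + x) * r by positivity)
  have e8 : 0 ≤ L ^ 4 * (F * r) := by positivity
  have e9 : 0 ≤ (F + x) * r := by positivity
  rw [e2] at e1
  refine e1.trans ?_
  linarith

end Cq

/-- **closing of TLq**: the shift of the plateau and the node sums of the last window -/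
theorem close (T0 : ℝ) : ∃ K : ℝ, 1 ≤ K ∧ ∀ {S : Sc} {M : Md} {m : ℕ} {a T : ℝ} {Sb : Finset ℝ}
    {gp : ℝ → ℝ → Prop} {c0 : ℝ} {V kA w : ℕ}
    {a0 a1 b0 b1 p0 d D err C1 δ L r F Γ Gm a' R p g er γ P : ℝ},
    Cq S M m a T Sb gp c0 V kA w a0 a1 b0 b1 p0 d D err C1 δ L r F Γ Gm a' R p g er γ P →
    T ≤ T0 → K ≤ L →
    |sb M m a (w + 1) - M.s S.J| ≤ L ^ 9 * (p + (sb M m a (V + 1) - (a1 + r)) * F + a' * Gm + R + γ +
        Gm * F + Aq m r F Gm a' R g er γ P / r) ∧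
      ∀ X, |sb M m a (w + 1) - M.s S.J| ≤ X →
        (∀ t ∈ Icc (a1 + r) (sb M m a (V + 1)), |uu M S m a T t| ≤
          6 * L ^ 3 * F + 12 * L * (F + L ^ 5 * (X + (Aq m r F Gm a' R g er γ P + X ^ 2) / r ^ 2))) ∧
        ∀ Q : Finset ℕ, (∀ k ∈ Q, S.jl < k ∧ k ≤ S.Jp ∧ a1 + r ≤ M.s k ∧ a1 + r ≤ sb M m a (k + 1)) →
          ∑ k ∈ Q, (M.z k - M.z (k - 1)) * (sb M m a (k + 1) - M.s k) ^ 2 ≤
            L ^ 24 * ((sb M m a (V + 1) - (a1 + r)) * F ^ 2 + R ^ 2 + X ^ 2 + γ ^ 2 +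
              r * ((Aq m r F Gm a' R g er γ P + X ^ 2) / r ^ 2) ^ 2 +
              (a' + Gm + γ + F + X + (Aq m r F Gm a' R g er γ P + X ^ 2) / r ^ 2) ^ 3) := by
  obtain ⟨K, K1, HK⟩ := At.bdry45 T0
  refine ⟨K, K1, fun {S M m a T Sb gp c0 V kA w a0 a1 b0 b1 p0 d D err C1 δ L r F Γ Gm a' R p g er γ P}
    h hT hK => ?_⟩
  obtain ⟨F0, G0, γ0, a0', P0, -⟩ := h.nn
  have A := h.at'
  have L1 := h.L1
  have r0 := h.r0
  have L0 : 0 < L := by linarith
  have C0 := A.c_pos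
  have v0 := v_pos A.cl
  have i1 := h.VJ
  have i2 := h.k3
  have i3 := h.kw
  have i4 := h.wJ
  have dn : ∀ k, 0 ≤ M.z k - M.z (k - 1) := A.dz_nn
  obtain ⟨x, x0, hx⟩ : ∃ x, 0 ≤ x ∧ |WW M S m a T c0 (sb M m a (V + 1))| = x * r ^ 2 :=
    ⟨_ / r ^ 2, div_nonneg (abs_nonneg _) (sq_nonneg r), by field_simp⟩
  obtain ⟨H1, H2, H3⟩ := h.dec x0 hx
  have xy : a1 + r ≤ sb M m a (V + 1) := by linarith [h.len]
  have xj : M.s S.j0 ≤ a1 + r := by linarith [h.aj]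
  have M1 : sb M m a kA ≤ sb M m a (w + 1) := A.sb_mono (by omega)
  have w1 := A.cl.sm (show S.J ≤ w by omega)
  have w2 := A.cl.sm i4
  have hγ := h.hγ
  have sm : ∑ k ∈ Finset.Ioc V w, (M.z k - M.z (k - 1)) * (sb M m a (w + 1) - sb M m a (k + 1)) ^ 2 ≤
      a' * Gm ^ 2 + R ^ 2 := by
    rw [← Finset.sum_Ioc_consecutive _ (show V ≤ kA - 1 by omega) (show kA - 1 ≤ w by omega)]
    refine add_le_add ?_ (le_trans ?_ h.sp)
    · refine (Finset.sum_le_sum (g := fun k => (M.z k - M.z (k - 1)) * Gm ^ 2) fun k hk => ?_).trans ?_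
      · obtain ⟨j1, j2⟩ := Finset.mem_Ioc.1 hk
        have e1 := A.sb_mono (show V + 1 ≤ k + 1 by omega)
        have e2 := A.sb_mono (show k + 1 ≤ w + 1 by omega)
        exact mul_le_mul_of_nonneg_left (sq_le_sq' (by linarith) (by linarith [h.hG])) (dn k)
      · rw [← Finset.sum_mul, At.sum_dz M (by omega)]
        exact mul_le_mul_of_nonneg_right h.ha (sq_nonneg _)
    · simp only [sub_sq_comm (sb M m a (w + 1))]
      exact Finset.sum_le_sum_of_subset_of_nonneg (fun k hk => by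
        have := Finset.mem_Ioc.1 hk
        exact Finset.mem_Icc.2 ⟨by omega, by omega⟩) fun k _ _ => mul_nonneg (dn k) (sq_nonneg _)
  have sh := shift A h.jV i1 i2 (by omega) (xj.trans xy) h.yJ hγ M1 (A.sb_mem i4).2 h.hG h.R0 h.sp h.ha
  have hD : M.s S.J - sb M m a (V + 1) ≤ Gm + |sb M m a (w + 1) - M.s S.J| := by
    linarith [h.hG, neg_abs_le (sb M m a (w + 1) - M.s S.J)]
  have bd := HK A hT (d := |sb M m a (w + 1) - M.s S.J| + γ) c0 h.jV (by omega) i4 (by omega)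
    (H2 _ ⟨xy, le_rfl⟩) h.hP h.hG sm (abs_le.2 ⟨by
      linarith [neg_abs_le (sb M m a (w + 1) - M.s S.J)], by
      linarith [le_abs_self (sb M m a (w + 1) - M.s S.J)]⟩) H3
  obtain ⟨I1, I2⟩ := Rig.Q34.ints A.LB_uu (κ := 1 / (L * r)) (a' := a1) (by positivity)
    ((s_nn A.cl _).trans xj) (by linarith) xy (A.sb_mem (show V ≤ S.Jp by omega)).2 (by positivity) H1
  rw [show 2 / (1 / (L * r)) = 2 * (L * r) by field_simp] at I1 I2
  have hJ : |Sc48.Jf (lh M T) (lb M S m a T) T (sb M m a (V + 1))| ≤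
      p + |∫ t in (a1 + r)..sb M m a (V + 1), uu M S m a T t| := by
    have e := Gap27.Jf_sub (T := T) A.okb.1.1 A.okh.1.1 (a1 + r) (sb M m a (V + 1))
    have e' : Sc48.Jf (lh M T) (lb M S m a T) T (sb M m a (V + 1)) =
        Sc48.Jf (lh M T) (lb M S m a T) T (a1 + r) -
          ∫ t in (a1 + r)..sb M m a (V + 1), uu M S m a T t := by
      unfold uu; rw [← e]; ring
    rw [e']
    exact (abs_sub _ _).trans (add_le_add h.hJ le_rfl)
  have s1 := h.s1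
  have hκ := h.hκ
  have TS := fun X hX Q => top_sum A h.jV i1 i2 (by omega) xj xy h.yJ hγ M1 h.hG h.sp h.ha (X := X)
    hX H2 I2 (Q := Q)
  have Dm0 := abs_nonneg (sb M m a (w + 1) - M.s S.J)
  have uy := H2 _ ⟨xy, le_rfl⟩
  have yJ := h.yJ
  have rl : r ≤ sb M m a (V + 1) - (a1 + r) := by linarith [h.len]
  have g0 := (abs_nonneg _).trans h.hg
  have e0 := (abs_nonneg _).trans h.he
  have m0 : 0 ≤ 1 / ((m : ℝ) + 1) := by positivity
  have pΓ := mul_nonneg (pow_nonneg L0.le 10) h.Γ0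
  have pD := mul_nonneg (pow_nonneg L0.le 10) Dm0
  have n1 : x * r ^ 2 ≤ L ^ 5 * (Aq m r F Gm a' R g er γ P +
      r ^ 2 * |sb M m a (w + 1) - M.s S.J| + |sb M m a (w + 1) - M.s S.J| ^ 2) := by
    refine num1 L1 r0 x0 g0 e0 m0 Dm0 γ0 F0 G0 a0' P0 (by linarith) ?_
    rw [← hx]
    refine bd.trans ?_
    have q1 := mul_le_mul h.hC h.he (abs_nonneg _) L0.le
    have q2 : S.C / (m + 1) ≤ L * (1 / ((m : ℝ) + 1)) := by
      rw [mul_one_div]; exact div_le_div_of_nonneg_right h.hC (by positivity)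
    have q3 : S.C * S.θ ≤ L ^ 3 * r ^ 2 :=
      (mul_le_mul_of_nonneg_left h.hθ C0.le).trans (by
        linarith [mul_le_mul_of_nonneg_right h.hC (show 0 ≤ L ^ 2 * r ^ 2 by positivity)])
    have hC := h.hC
    have hv := h.vF
    have hg := h.hg
    have q4 : M.s w - M.s S.J ≤ γ := by linarith
    have q5 : 0 ≤ M.s w - M.s S.J := by linarith
    gcongr
  have A0 : 0 ≤ Aq m r F Gm a' R g er γ P := by unfold Aq; positivity
  generalize Aq m r F Gm a' R g er γ P = A' at *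
  refine ⟨num2 L1 r0 x0 ((abs_nonneg _).trans h.hJ) Dm0 γ0 F0 G0 a0' h.R0 A0 rl (by linarith) h.s2 n1 ?_,
    fun X hX => ?_⟩
  · have q1 := mul_le_mul_of_nonneg_right hκ Dm0
    have q2 := mul_le_mul uy hD (by linarith) (by positivity)
    have q3 := mul_le_mul_of_nonneg_left hD a0'
    rw [one_mul, mul_assoc] at q1
    exact q1.trans (mul_le_mul_of_nonneg_left (by linarith) L0.le)
  · have X0 := Dm0.trans hX
    have hw : x ≤ L ^ 5 * (X + (A' + X ^ 2) / r ^ 2) := by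
      refine le_of_mul_le_mul_right (n1.trans ?_) (show 0 < r ^ 2 by positivity)
      rw [show L ^ 5 * (X + (A' + X ^ 2) / r ^ 2) * r ^ 2 = L ^ 5 * (A' + r ^ 2 * X + X ^ 2) by
        field_simp; ring]
      gcongr
    refine ⟨fun t ht => (H2 t ht).trans (by gcongr), fun Q hQ => (TS X hX Q hQ).trans ?_⟩
    have r1 : r ≤ 1 := by
      have := pw L1 (show 0 < 10 by norm_num) (show 0 ≤ r + F + a' by positivity)
      linarith [h.s2]
    exact num3 L1 r0 x0 X0 (by positivity) γ0 F0 G0 a0' C0.le v0.le h.hC h.vF rl r1 hw rfl rfl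

end Crest.Agent.T156.Alt.Mp9.Q34
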