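import Crest.Agent.T156.TLqC_53
import Crest.Agent.T156.TLqY_26
import Crest.Agent.T156.TLqP_20
import Crest.Agent.T156.TLqI_53
import Crest.Agent.T156.TLqW_34
import Crest.Agent.T156.TLqM_73
import Crest.Agent.T156.TLqR_20
import Crest.Agent.T156.TLpM_73
import Crest.Agent.T156.TLp_62
import Crest.Agent.T156.TLpS_54
import Crest.Agent.T156.TLpS_73
import Crest.Agent.T156.TLqP_53
import Crest.Agent.T156.TL2Q_63

-- ▼ part T156/TLqH_53
section

/-!
# Row 156, block (L): the last window, the data of the corner on the class (helper53)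
-/

set_option autoImplicit false

noncomputable section

namespace Crest.Agent.T156.Alt.L63

open Real
open Crest.Agent.T157.Pf
open Crest.Agent.T156.Alt.L69 Crest.Agent.T156.Alt.Mp9

variable {S : Sc} {M : Md} {m : ℕ} {a K E L G1 u1 u2 j γ Lc ηc τ l0 l X Xp Vt Lg Lp X2 X3 X4 G0 N t1
  ℓ En p0 aa g' R2 : ℝ} {η g : ℝ → ℝ}

/-- the middle node of the plateau is near the corner -/
theorem mid53 {tu : ℝ} (H : Cx E L S M m a G1 u1 u2 j γ Lc ηc τ l0 l X Xp Vt Lg Lp X2 X3 X4 G0 η N g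
      t1 tu ℓ En p0) {w : ℕ} {c0 : ℝ} (w1 : S.J ≤ w) (w2 : w ≤ S.Jp) (c1 : 2 ≤ c0 * L)
    (c2 : 2 * S.C * c0 ≤ 1) (z1 : 1 - c0 ≤ M.z (w - 1)) (z2 : c0 / 2 ≤ 1 - M.z w) :
    |sb M m a (w + 1) - M.s S.J| ≤ qJ L S j γ := by
  have zm := H.cl.leg.zm (Nat.sub_le w 1)
  have C0 := H.cl.C0
  have c0' : 0 ≤ c0 := nonneg_of_mul_nonneg_left (le_trans zero_le_two c1) (by linarith [H.L1])
  refine mid36 H (κ := c0 / 2) w1 w2 (by linarith) (by unfold du; linarith) ?_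
  have a1 := H.cl.atom.2
  have a2 : 2 * c0 ≤ 1 / S.C := by rw [le_div_iff₀ C0]; linarith
  linarith

/-- **the data of the corner** -/
theorem iq53 (H : Cx E L S M m a G1 u1 u2 j γ Lc ηc τ l0 l X Xp Vt Lg Lp X2 X3 X4 G0 η N g t1
      (M.s S.J) ℓ En p0) (G : T20.Rg K E L S)
    (Q : LQ E S M X Xp Vt Lg Lp X2 G0 u1 u2 j γ η aa g' R2) {Gn : ℕ → Prop} {u V V2 : ℕ} {y r : ℝ}
    (W : Sq K L S M m a Lg X2 j γ η aa g' Gn u V V2 y r) {Pn : ℕ → Prop} {ez : ℕ → ℝ} {x uc : ℝ}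
    (pn : L62.PN S M m a (2 * S.C) Pn ez x (L * X2) uc (aa / (100 * S.C ^ 3)) aa (L ^ 3 * r / aa))
    {w kA : ℕ} {c0 F A1 Hh R p a1 ρ : ℝ} (hρ : ρ = log S.n * L * r) (pw : Pn w) (k3 : S.J ≤ kA)
    (kw : kA ≤ w) (c1 : 2 ≤ c0 * L) (c2 : 2 * S.C * c0 ≤ 1) (z1 : 1 - c0 ≤ M.z (w - 1))
    (z2 : c0 / 2 ≤ 1 - M.z w) (kz : M.z (kA - 1) - M.z (S.J - 1) ≤ 4 * aa)
    (hH : x + ez w + |M.G w| ≤ Hh * r ^ 2) (R0 : 0 ≤ R)
    (sp : ∑ k ∈ Finset.Icc kA S.Jp,
      (M.z k - M.z (k - 1)) * (sb M m a (k + 1) - sb M m a (w + 1)) ^ 2 ≤ R ^ 2)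
    (hF : qF L S M Lg X2 j γ η g' ≤ F) (a11 : y - 13 * ρ ≤ a1) (a12 : a1 ≤ y - ρ)
    (fl : ∀ t ∈ Set.Icc (y - 13 * ρ) (2 * S.C),
      M.b * Pr.GG (lb M S m a (2 * S.C)) t ≤ 1 - r ^ 2 / (2 * S.C))
    (top : M.z (S.J - 1) - M.z V ≤ A1) (v1 : uq S M m a (y - 13 * ρ) ≤ L ^ 12 * F)
    (v2 : -A1 ≤ uq S M m a y) (hJ : |Jq S M m a (a1 + r)| ≤ p)
    (sm : L ^ 40 * (Hh + F + A1 + aa) ≤ r)
    (win : ∀ B', M.s S.J - y ≤ B' → L ^ 30 * B' ≤ r →
      Wk S M m a (2 * S.C) V a1 (y - 11 * ρ) (y - 2 * ρ) L r (L ^ 12 * F) (L ^ 4 * F)) :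
    Iq S M m a (2 * S.C) u V kA w Pn ez x (L * X2) uc (aa / (100 * S.C ^ 3)) aa (L ^ 3 * r / aa)
      (y / 2) (max (M.s V) y) y a1 ρ L r F A1 Hh R p g' γ := by
  have q := T20.qn H.cl H.mem G H.toHy Q
  have h := H.cl
  have A := H.A
  have C0 := h.C0
  have C1 := h.C1
  have L1 := G.L1
  have L0 : 0 < L := by linarith
  have L1' : 1 ≤ L := by linarith
  have r0 := W.nk.r0
  have r2 : 0 < r ^ 2 := by positivity
  have a0 := W.a0
  have ey := W.ey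
  have lg1 := G.lg1
  have lg := G.lg
  have wJ := (pn.mem _ pw).2
  have n0 := h.N0
  have j0 := q.j0
  have γ0 := q.γ0
  have X0 := q.F.X2
  have b0 : 0 ≤ bs S Lg X2 g' η (M.s S.J) := q.g0.trans q.gb
  have J0 : 0 ≤ qJ L S j γ := by unfold qJ; positivity
  have JF : qJ L S j γ ≤ F := W.nk.jF.trans hF
  have Lr : L * r ≤ ρ := by
    rw [hρ, mul_assoc]; exact le_mul_of_one_le_left (by positivity) lg1
  have rL : ρ ≤ L ^ 2 * r := by
    rw [hρ, pow_two]; gcongr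
  have F0 : 0 ≤ F := J0.trans JF
  have Fr : qF L S M Lg X2 j γ η g' * r ^ 2 ≤ F * r ^ 2 := mul_le_mul_of_nonneg_right hF r2.le
  have θ0 : 0 ≤ S.θ := (A.ms_pos le_rfl).le.trans (h.ms1 0)
  refine ⟨A, ey, W.nw.ju, ?_, W.nw.b1, W.nw.su, W.nw.sv, W.nw.bu, le_max_right _ _,
    by linarith [h.sm W.VV, W.s2], L1, G.LC, r0, ?_, Lr, rL, by linarith [W.w1, mul_pos L0 r0], a11,
    a12, fl, top, v1, v2, pn, pw, by positivity, div_le_self a0.le ?_, ?_,
    fun k p q => W.hg k p (q.trans W.VV), W.nk.gF.trans Fr, hH, ?_, ?_, W.nk.rb,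
    (mid53 H (k3.trans kw) wJ.le c1 c2 z1 z2).trans JF, H.lp.γ0, le_trans ?_ JF, k3, kw, kz, ?_, R0,
    sp, hJ, fun t ht => (W.hp t ⟨le_trans ?_ ht.1, ht.2⟩).trans JF, W.nk.vF.trans hF,
    W.nk.mF.trans Fr, sm, win⟩
  · have a1 := h.sm h.i1
    have a2 := le_mul_of_one_le_left (s_nn h S.jl) L1'
    linarith [q.F.jl, q.lJ, W.y2, q.F.l0]
  · have a1 : r ≤ √S.θ := by rw [W.er]; exact sqrt_le_sqrt (h.ms1 _)
    have E0 : 0 < E := by linarith [H.E9]
    have a2 := mul_le_mul_of_nonneg_left (a1.trans (le_of_eq rfl)) E0.le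
    have a3 := mul_le_mul_of_nonneg_left (a2.trans H.lt.ℓ1) E0.le
    have a4 : E * (E * r) ≤ L := by
      linarith [H.lt.ℓ2, h.s_le_C h.i3, G.LC, le_self_pow₀ C1 (show 3 ≠ 0 by norm_num)]
    have a5 := mul_le_mul H.LE1 (mul_le_mul_of_nonneg_right (H.LE 11) r0.le) (by positivity) E0.le
    exact le_of_mul_le_mul_left (by linarith) L0
  · linarith [one_le_pow₀ (n := 3) C1]
  · rw [div_mul_cancel₀ _ a0.ne']
    linarith [mul_le_mul_of_nonneg_right L1 (by positivity : 0 ≤ L ^ 2 * r)]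
  · have a1 := W.nk.oF
    have a2 : L ^ 2 * (L * X2) ≤ qO L S M Lg X2 := by
      unfold qO
      have : 0 ≤ L ^ 3 * X2 := by positivity
      have : 0 ≤ L ^ 3 * uw S Lg (M.s S.J) ^ 2 := by positivity
      linarith
    have a3 := le_mul_of_one_le_left W.nw.o0 W.nk.N1
    linarith [mul_le_mul_of_nonneg_right hF r0.le]
  · have := pow_le_pow_left₀ (sqrt_nonneg _) W.th 2
    rwa [sq_sqrt θ0, mul_pow] at this
  · unfold qJ
    have : 0 ≤ 1 / (S.n : ℝ) := by positivity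
    exact le_trans (by linarith) (le_mul_of_one_le_left (by positivity) (one_le_pow₀ L1'))
  · have a1 := h.leg.zm ((Nat.sub_le kA 1).trans kw)
    have a2 := mul_le_mul_of_nonneg_left (show c0 / 2 ≤ 1 - M.z (kA - 1) by linarith) L0.le
    linarith
  · rw [ey]; exact (A.sb_mem ((W.VV.trans W.VJ.le).trans h.i3)).1

end Crest.Agent.T156.Alt.L63

end
end

-- ▼ part T156/TLqS_20
section

/-!
# Row 156, block (L): the set-up of the last window (helper20)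
-/

set_option autoImplicit false

noncomputable section

namespace Crest.Agent.T156.Alt.L63

open MeasureTheory Real Finset
open Crest.Agent.T156.Alt.L69 Crest.Agent.T156.Alt.Mp9 Crest.Agent.T156.Alt.Ap63
open Crest.Agent.R164.GC Crest.Agent.R339.B Crest.Agent.R339.Var Crest.Agent.T157.Pf

namespace T20

variable {S : Sc} {M : Md} {m : ℕ} {a : ℝ} {K E L l0 l X Lg X2 X3 G0 V0 : ℝ} {η : ℝ → ℝ}

/-- (E1) between two good nodes above `s J / 2`, the label clock being summed -/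
theorem e_two (G : Rg K E L S) (F : Fb L S M m a l X Lg X2 η) (H : LN E S M l0 l V0 X Lg X2 X3 G0 η)
    {Gn : ℕ → Prop} {i0 i1 u V : ℕ} (Nd : Nt E L S M m a Lg X X2 η Gn i0 i1)
    (lJ : 2 * l ≤ M.s S.J) (s0 : M.s S.J / 2 ≤ M.s i0) (hu : i0 ≤ u) (uV : u ≤ V) (h1 : V ≤ i1)
    (iJ : i1 < S.J) (gu : Gn u) (gV : Gn V) (g1 : Gn i1) {Γ : ℝ}
    (hΓ : ∀ i k, Nx Gn u i1 i k → sb M m a (k + 1) - sb M m a (i + 1) ≤ Γ) {Q : ℝ}
    (hQ : |L0.Gd (lb M S m a (2 * S.C)) (sb M m a (V + 1))| +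
      |L0.Gd (lb M S m a (2 * S.C)) (sb M m a (i1 + 1))| ≤ L * Q) :
    |res M S m a (2 * S.C) i1 - res M S m a (2 * S.C) V| ≤ 16 * L * η (M.s S.J) +
      qO L S M Lg X2 * Q + qO L S M Lg X2 * (sb M m a (i1 + 1) - sb M m a (V + 1)) +
      (qO L S M Lg X2 + 2 * L ^ 3 * Γ ^ 2) * (M.z i1 - M.z V) := by
  have A := F.at'
  have h := A.cl
  have L1 := G.L1
  have L0 : 0 < L := by linarith
  have L1' : 1 ≤ L := by linarith
  have l0' := F.l0
  have X0 := F.X2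
  have sJ : M.s S.J ≤ S.C := h.s_le_C h.i3
  have mlq : ∀ s, l ≤ s → s ≤ S.C → √(S.ms s) ≤ s := fun s p q =>
    (le_mul_of_one_le_left (sqrt_nonneg _) (one_le_pow₀ L1')).trans (F.ml s p q)
  have nd : ∀ i, u ≤ i → i ≤ i1 → uw S Lg (M.s i) ^ 2 ≤ 16 * uw S Lg (M.s S.J) ^ 2 := fun i p q => by
    have d2 := h.sm (hu.trans p)
    obtain ⟨d3, d4⟩ := uw_le h F.F1 Lg (s := M.s i) (t := M.s S.J) (by linarith)
      (mlq _ (by linarith) sJ) (mlq _ (by linarith) (h.s_le_C ((q.trans iJ.le).trans h.i3)))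
      (by linarith)
    linarith [pow_le_pow_left₀ d3 d4 2]
  have L3 : L ≤ L ^ 3 := le_self_pow₀ L1' (by norm_num)
  have L2 : L ^ 2 ≤ L ^ 3 := pow_le_pow_right₀ L1' (by norm_num)
  have x1 : 0 ≤ L ^ 3 * X2 := by positivity
  have x2 : 0 ≤ L ^ 3 * uw S Lg (M.s S.J) ^ 2 := by positivity
  have cc : ∀ y, V ≤ y → y ≤ i1 → L * E61.u4 M m a y ^ 2 ≤ qO L S M Lg X2 + 2 * L ^ 3 * Γ ^ 2 := by
    intro y p q
    obtain ⟨i, k, n, p1, p2⟩ := exists_nx' gu g1 (uV.trans p) q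
    have d2 := nd i n.1 (n.2.1.trans n.2.2.1)
    have d3 := pow_le_pow_left₀ (sqrt_nonneg _) (Nd.u4 i k y (n.up hu le_rfl) p1 p2) 2
    have d8 := pow_le_pow_left₀ (sub_nonneg.2 (A.sb_mono (Nat.succ_le_succ n.2.1))) (hΓ i k n) 2
    have d4 : (uw S Lg (M.s i) + (sb M m a (k + 1) - sb M m a (i + 1))) ^ 2 ≤
        32 * uw S Lg (M.s S.J) ^ 2 + 2 * Γ ^ 2 := by
      simp only [Nat.succ_eq_add_one] at d8
      linarith [sq_nonneg (uw S Lg (M.s i) - (sb M m a (k + 1) - sb M m a (i + 1)))]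
    have d5 := mul_le_mul_of_nonneg_left d4 (pow_pos L0 3).le
    have d6 := mul_le_mul_of_nonneg_left d3 L0.le
    change L * E61.u4 M m a y ^ 2 ≤ _ at d6
    unfold qO
    linarith only [d5, d6, x1]
  have cm : 0 ≤ qO L S M Lg X2 + 2 * L ^ 3 * Γ ^ 2 := by unfold qO; positivity
  have d3 : L * ∑ y ∈ Ioo V i1, M.dz m a y * E61.u4 M m a y ^ 2 ≤
      (qO L S M Lg X2 + 2 * L ^ 3 * Γ ^ 2) * (M.z i1 - M.z V) := by
    rw [← At.sum_dz M h1, mul_sum, mul_sum]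
    refine (sum_le_sum fun y hy => ?_).trans (sum_le_sum_of_subset_of_nonneg
      Ioo_subset_Ioc_self fun y _ _ => mul_nonneg cm (A.dz_nn y))
    rw [Md67.dz_up h.leg (Nat.zero_lt_of_lt (mem_Ioo.1 hy).1)]
    linarith [mul_le_mul_of_nonneg_left (cc y (mem_Ioo.1 hy).1.le (mem_Ioo.1 hy).2.le) (A.dz_nn y)]
  refine (Nd.e1 V i1 (hu.trans uV) h1 le_rfl gV g1).trans ?_
  have d0 := sub_nonneg.2 (A.sb_mono (Nat.succ_le_succ h1))
  have d1 : η (M.s V) ≤ 16 * η (M.s S.J) := by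
    have d5 := H.ηa (show M.s S.J / 2 ≤ M.s V by linarith [h.sm (hu.trans uV)])
    have d6 := H.η2 (M.s S.J / 2) (by linarith)
    rw [show 2 * (M.s S.J / 2) = M.s S.J by ring] at d6
    linarith
  have Q0 : 0 ≤ Q := nonneg_of_mul_nonneg_right ((add_nonneg (abs_nonneg _) (abs_nonneg _)).trans hQ) L0
  have d4 : L ^ 2 * uw S Lg (M.s V) ^ 2 ≤ qO L S M Lg X2 := by
    have e1 := mul_le_mul L2 (nd V uV h1) (sq_nonneg _) (pow_pos L0 3).le
    unfold qO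
    linarith
  have d5 : L * X2 ≤ qO L S M Lg X2 := by
    have e1 := mul_le_mul_of_nonneg_right L3 X0
    unfold qO
    linarith
  have d6 := mul_le_mul_of_nonneg_left hQ (by positivity : 0 ≤ L * uw S Lg (M.s V) ^ 2)
  have d9 := mul_le_mul_of_nonneg_right d4 Q0
  have d7 := mul_le_mul_of_nonneg_right d5 d0
  have d8 := mul_le_mul_of_nonneg_left d1 L0.le
  simp only [Nat.succ_eq_add_one] at d7
  linarith only [d3, d6, d7, d8, d9]

end T20

open T20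

set_option maxHeartbeats 1600000 in
/-- **the set-up of the last window** -/
theorem sqAt : SqAt := by
  intro T0
  obtain ⟨K1, HU⟩ := uq_at T0
  obtain ⟨K2, K21, HG⟩ := gd_nd T0
  refine ⟨max K1 K2, fun {S M m a K E L G1 u1 u2 j γ Lc ηc τ l0 l X Xp Vt Lg Lp X2 X3 X4 G0 N t1 ℓ En
    p0 aa g' R2 η g} hT h hm hK G H Q' Gn hN => ?_⟩
  have Q := qn h hm G H Q'
  obtain ⟨i0, V2, i02, VJ, g0, g2, s0, s0', s1, s2⟩ := ends' G Q hN
  have F := Q.F
  have A := F.at'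
  have C1 := h.C1
  have C0 := h.C0
  have L1 := G.L1
  have L0 : 0 < L := by linarith
  have L1' : 1 ≤ L := by linarith
  have l0' := F.l0
  have lJ := Q.lJ
  have a0 := Q.a0
  have j0 := Q.j0
  have γ0 := Q.γ0
  have gb := Q.gb
  have gz := Q.g0
  have th := Q.th
  have n0 := h.N0
  have n1 : 0 < 1 / (S.n : ℝ) := by positivity
  have sJ : M.s S.J ≤ S.C := h.s_le_C h.i3
  have pw : ∀ i k : ℕ, i ≤ k → L ^ i ≤ L ^ k := fun i k => pow_le_pow_right₀ L1'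
  have G' : Rg K1 E L S := { G with
    LK := (mul_le_mul_of_nonneg_right ((le_max_left _ _).trans hK) C0.le).trans G.LK }
  have KL : K2 ≤ L := (le_mul_of_one_le_right (by linarith) C1).trans
    ((mul_le_mul_of_nonneg_right ((le_max_right _ _).trans hK) C0.le).trans G.LK)
  set B := bs S Lg X2 g' η (M.s S.J) with hB
  have sm : 1000 * (aa + j + B + γ) ≤ √S.θ := (mul_le_mul_of_nonneg_right
    (L1.trans (by simpa using pw 1 67 (by norm_num))) (by linarith)).trans Q.sm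
  have Nd := hN i0 V2 (by linarith) (by linarith)
  have hg : ∀ k, i0 ≤ k → k ≤ V2 → |M.G k| ≤ g' := fun k p q =>
    Q.g1 k (q.trans_lt VJ) (s0.trans (h.sm p)) (by linarith [h.sm q])
  have lo : ∀ k, i0 ≤ k → k ≤ V2 → 15 / 16 * M.s k ≤ sb M m a (k + 1) ∧
      (M.s k + l / 8 ≤ M.s S.J → sb M m a (k + 1) ≤ 17 / 16 * M.s k) := fun k p q =>
    F.loc k (q.trans_lt VJ) (by linarith [h.sm p]) (by linarith [hg k p q, h.sm p])
  have b0 := (lo i0 le_rfl i02).2 (by linarith)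
  have b2 := (lo V2 i02 le_rfl).1
  have sk : ∀ k, k ≤ V2 → M.s k ≤ M.s S.J := fun k p => h.sm (p.trans VJ.le)
  have dv : ∀ x, 0 ≤ x → 4 * x / L ^ 11 ≤ x := fun x x0 => by
    rw [div_le_iff₀ (by positivity)]
    linarith [mul_le_mul_of_nonneg_left (show 4 ≤ L ^ 11 by linarith [pw 1 11 (by norm_num)]) x0]
  obtain ⟨V, y, hy, iV, VV, gV, y1, y2, di, di2⟩ : ∃ V y, y = sb M m a (V + 1) ∧ i0 ≤ V ∧ V ≤ V2 ∧ Gn V ∧
      y + aa / 4 ≤ M.s S.J ∧ 9 / 10 * M.s S.J ≤ y ∧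
      (V = V2 ∨ M.s S.J ≤ y + aa / 4 + 4 * √(S.ms (y / 2)) / L ^ 11) ∧
      (V = V2 ∨ ∃ k, Nx Gn i0 V2 V k ∧ M.s S.J ≤ sb M m a (k + 1) + aa / 4) := by
    rcases le_total (sb M m a (V2 + 1)) (M.s S.J - aa / 4) with c | c
    · exact ⟨V2, _, rfl, i02, le_rfl, g2, by linarith, by linarith, Or.inl rfl, Or.inl rfl⟩
    obtain ⟨i, k, n, c1, c2⟩ := exists_nx (σ := fun k => sb M m a (k + 1)) (t := M.s S.J - aa / 4)
      i02 g0 g2 (by linarith) c
    have i2 := n.2.1.trans n.2.2.1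
    have c3 := ((sh' G h A Nd (t := M.s S.J) (by linarith) n (by linarith [sk i i2])).trans
      (dv _ (sqrt_nonneg _))).trans (sqrt_le_sqrt (h.ms1 _))
    have c4 := sh' G h A Nd (t := sb M m a (i + 1)) (by linarith) n (by linarith [sk i i2])
    exact ⟨i, _, rfl, n.1, i2, n.2.2.2.1, by linarith, by linarith, Or.inr (by linarith),
      Or.inr ⟨k, n, by linarith⟩⟩
  have y0 : 0 < y := by linarith
  have J0 : 0 ≤ qJ L S j γ := by unfold qJ; positivity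
  obtain ⟨u, iu, uV, W, nk, -, w1, w2⟩ := nw_at G F H.ln Nd (by linarith) g0 gV iV VV (VV.trans_lt VJ)
    hy (by linarith) (by linarith) (by linarith) (by linarith [sk V VV])
    (fun k p _ c => by linarith [h.sm p]) (t' := M.s S.J) (by linarith) sJ (by linarith) gz J0
    fun k p q _ _ => hg k p (q.trans VV)
  have gap := fun i k (n : Nx Gn u V2 i k) =>
    sh' G h A Nd y0 (n.up iu le_rfl) (by linarith [sk i (n.2.1.trans n.2.2.1)])
  have r0 := nk.r0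
  have r2 := nk.r2
  have ra := nk.ra
  have rt : ∀ t, t ≤ y → √(S.ms (t / 2)) ≤ √(S.ms (y / 2)) := fun t c =>
    sqrt_le_sqrt (h.msm (by linarith))
  set r := √(S.ms (y / 2)) with hr
  have C3 : 1 ≤ S.C ^ 3 := one_le_pow₀ C1
  have LC := G.LC
  have tr : √S.θ ≤ L * r := by
    have e1 : 1 ≤ 3 * S.C ^ 2 * M.s S.J := by
      have e2 := h.atom.1
      have i2 := h.i2
      have i1 := h.i1
      have e3 := (h.z_s (k := S.J - 1) (by omega) (by omega)).2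
      have e4 := h.sm (Nat.sub_le S.J 1)
      have e5 : S.v ≤ aa := (le_mul_of_one_le_left h.v0.le (one_le_pow₀ L1')).trans Q.va
      have e6 := mul_le_mul_of_nonneg_left
        (show M.s (S.J - 1) + 2 * S.v ≤ 3 * M.s S.J by linarith) C0.le
      rw [div_le_iff₀ C0] at e2
      linarith [mul_le_mul_of_nonneg_right (e3.trans e6) C0.le]
    have e2 := h.ms_mul (t := y / 2) (k := 8 * S.C ^ 2) (by linarith)
      (by linarith [one_le_pow₀ C1 (n := 2)])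
    have e3 : S.θ ≤ S.ms (8 * S.C ^ 2 * (y / 2)) := h.msm (by
      linarith [mul_le_mul_of_nonneg_left y2 (sq_nonneg S.C)])
    have e4 := pow_le_pow_left₀ (by positivity) LC 2
    have e5 : S.C ^ 4 ≤ S.C ^ 6 := pow_le_pow_right₀ C1 (by norm_num)
    have e6 := mul_le_mul_of_nonneg_right (show 4 * (8 * S.C ^ 2) ^ 2 ≤ L ^ 2 by
      linarith [pow_pos C0 6]) (sq_nonneg r)
    rw [sqrt_le_left (by positivity), mul_pow]
    rw [← r2] at e2
    linarith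
  have Fb' : qF L S M Lg X2 j γ η g' ≤ 2 * L ^ 7 * (j + γ + B) := by
    have e1 := mul_le_mul_of_nonneg_left Q.nb (pow_pos L0 7).le
    have e2 := mul_le_mul_of_nonneg_right (pw 5 7 (by norm_num)) (gz.trans gb)
    have e3 : 0 ≤ L ^ 7 * (j + γ) := by positivity
    unfold qF qJ
    linarith
  have sm' : L ^ 50 * (qF L S M Lg X2 j γ η g' + aa) ≤ r := by
    have e1 := mul_le_mul_of_nonneg_left Fb' (pow_pos L0 50).le
    have e2 := mul_le_mul_of_nonneg_right (pw 50 57 (by norm_num)) a0.le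
    have e3 : L ^ 66 * (aa + j + B + γ) ≤ r := le_of_mul_le_mul_left
      (le_trans (by linarith) (Q.sm.trans tr)) L0
    have e4 := mul_le_mul_of_nonneg_right (show 2 * L ^ 57 ≤ L ^ 66 by
      have := mul_le_mul_of_nonneg_right L1 (pow_pos L0 57).le
      linarith [pw 58 66 (by norm_num), pow_pos L0 57]) (show 0 ≤ aa + j + B + γ by linarith)
    have e5 : 0 ≤ L ^ 57 * aa := by positivity
    linarith
  have F0 : 0 ≤ qF L S M Lg X2 j γ η g' := J0.trans nk.jF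
  refine ⟨u, V, V2, y, r, hy, hr, W, nk, gap, w1, w2, Q.hp, VV, VJ, g2, s1, s2, y1, y2,
    s0.trans (h.sm iu), di, di2.imp_right fun ⟨k, n, c⟩ => ⟨k, ⟨uV, n.2⟩, c⟩, ?_, fun k p q => hg k (iu.trans p) q, fun t c1 c2 => ?_, a0, sm', tr,
    Fb'.trans (mul_le_mul_of_nonneg_right (by
      linarith [mul_le_mul_of_nonneg_right L1 (pow_pos L0 7).le, pow_pos L0 7]) (by linarith))⟩
  · have o0 : 0 ≤ qO L S M Lg X2 := W.o0
    have z0 : 0 ≤ M.z V2 - M.z V := sub_nonneg.2 (h.leg.zm VV)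
    have d0 : 0 ≤ sb M m a (V2 + 1) - y := hy ▸ sub_nonneg.2 (A.sb_mono (Nat.succ_le_succ VV))
    rcases di with c | c
    · subst c
      rw [sub_self, abs_zero]
      positivity
    have jV : S.jl ≤ V := W.ju.le.trans uV
    have Vp : V2 ≤ S.Jp := VJ.le.trans h.i3
    have m1 := A.sb_mem (VV.trans Vp)
    have m2 := A.sb_mem Vp
    have p1 := HG A hT.le (h.i1.trans (jV.trans VV)) VJ m1 (Q.hp _ m1)
    have p2 := HG A hT.le (h.i1.trans (jV.trans VV)) VJ m2 (Q.hp _ m2)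
    rw [A.lvb_node jV (VV.trans Vp), abs_sub_comm (M.z V), abs_of_nonneg z0] at p1
    rw [A.lvb_node (jV.trans VV) Vp, sub_self, abs_zero] at p2
    have ar : aa ≤ r := le_trans (by linarith)
      ((le_mul_of_one_le_left (by linarith) (one_le_pow₀ L1')).trans sm')
    have Γr := dv r r0.le
    have e1 : |y - M.s V2| ≤ r := abs_le.2 ⟨by linarith, by linarith⟩
    have e2 : |sb M m a (V2 + 1) - M.s V2| ≤ r + (sb M m a (V2 + 1) - y) :=
      abs_le.2 ⟨by linarith [(abs_le.1 e1).1], by linarith [(abs_le.1 e1).2]⟩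
    have e3 : S.ms (M.s V2) / M.s V2 ≤ 16 * r := by
      have f1 := h.ms_pow (half_pos y0).le 2
      norm_num at f1
      have f2 := h.msm (show M.s V2 ≤ 4 * (y / 2) by linarith)
      rw [div_le_iff₀ (by linarith)]
      linarith [mul_le_mul_of_nonneg_left (show r ≤ M.s V2 by linarith) r0.le]
    have e4 := mul_le_mul (show 32 * S.C ≤ L by
      linarith [le_self_pow₀ C1 (show 3 ≠ 0 by norm_num)]) (le_refl r) r0.le L0.le
    have e5 := mul_le_mul_of_nonneg_left e3 C0.le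
    rw [← hy] at p1
    have e6 := mul_le_mul KL (add_le_add (le_refl (qJ L S j γ)) e1) (by positivity) L0.le
    have e7 := mul_le_mul KL (add_le_add (le_refl (qJ L S j γ)) e2) (by positivity) L0.le
    have e8 := le_mul_of_one_le_left z0 L1'
    have fin := e_two G F H.ln Nd (by linarith) s0 iu uV VV VJ W.gu gV g2 gap
      (Q := 3 * r + 2 * qJ L S j γ + 2 * (M.z V2 - M.z V) + (sb M m a (V2 + 1) - y))
      (by rw [← hy]; linarith)
    rw [← hy] at fin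
    have f1 := nk.eF
    have f2 : qO L S M Lg X2 ≤ qF L S M Lg X2 j γ η g' * r :=
      (le_mul_of_one_le_left o0 nk.N1).trans nk.oF
    have f3 : qO L S M Lg X2 ≤ r ^ 2 := (le_mul_of_one_le_left o0 (one_le_pow₀ L1')).trans nk.o1
    have f4 := mul_le_mul_of_nonneg_right f2 r0.le
    have f5 := mul_le_mul f3 nk.jF J0 (sq_nonneg r)
    have f6 := mul_le_mul_of_nonneg_right (show 6 ≤ L ^ 2 by linarith [pw 1 2 (by norm_num)])
      (mul_nonneg F0 (sq_nonneg r))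
    have f7 := mul_le_mul_of_nonneg_right (show 2 ≤ L by linarith) (mul_nonneg o0 d0)
    have f8 := W.e0
    change _ ≤ qF L S M Lg X2 j γ η g' * r ^ 2 at f1
    change _ ≤ r ^ 2 * qF L S M Lg X2 j γ η g' at f5
    linarith only [fin, f1, f4, f5, f6, f7, f8]
  · have lg1 := G.lg1
    have w0 : 0 ≤ 2 * log S.n * L := by positivity
    have e1 := mul_le_mul_of_nonneg_left (rt t (by nlinarith [mul_nonneg w0 r0.le])) w0
    exact HU hT G' F H.ln Nd (by linarith) s0 (by linarith) g0 gV iV VV (VV.trans_lt VJ)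
      (by linarith) gz (fun k p q => hg k p (q.trans VV)) Q.hp c1 (by linarith)

end Crest.Agent.T156.Alt.L63

end
end

-- ▼ part T156/TLqK_53
section

/-!
# Row 156, block (L): the last window, short gaps, length of the corner, anchor (helper53)
-/

set_option autoImplicit false

noncomputable section

namespace Crest.Agent.T156.Alt.Mp9

open MeasureTheory Set Real
open Crest.Agent.R164.GC Crest.Agent.R339.B Crest.Agent.R339.Var Crest.Agent.T157.Pf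
open Crest.Agent.T156.Pr.Cv25 Crest.Agent.T156.Pr.Reg48
open Crest.Agent.T156.Pp.Area50 Crest.Agent.T156.Spl27 Crest.Agent.T156.Zb9


namespace At

variable {S : Sc} {M : Md} {m : ℕ} {a T : ℝ}

/-- **short gaps** above the linear floor -/
theorem short53 (A : At S M m a T) {i k : ℕ} {P r F δ θ e la cm g : ℝ} (h1 : S.jl < i) (h : i ≤ k)
    (h2 : k < S.J) (PC : 32 * S.C ^ 3 ≤ P) (r0 : 0 < r) (θr : S.ms (M.s S.J) ≤ 16 * r ^ 2)
    (hμ : ∀ t ∈ Ico (sb M m a (i + 1)) (sb M m a (k + 1)),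
      M.b * Pr.GG (lb M S m a T) t ≤ 1 - r ^ 2 / (2 * S.C))
    (hz : M.z k ≤ M.z i + (δ + θ * (sb M m a (k + 1) - sb M m a (i + 1))))
    (hE : res M S m a T i - res M S m a T k ≤
      e + la * (sb M m a (k + 1) - sb M m a (i + 1)) + cm * (M.z k - M.z i))
    (gi : |M.G i| ≤ g) (gk : |M.G k| ≤ g) (θ0 : 0 ≤ θ) (θ1 : P ^ 3 * θ ≤ 1) (e0 : 0 ≤ e)
    (eF : e ≤ F * r ^ 2) (la0 : 0 ≤ la) (lar : P ^ 2 * la ≤ r ^ 2) (cm0 : 0 ≤ cm) (cmr : cm ≤ r ^ 2)
    (gF : g ≤ F * r ^ 2) (δF : δ ≤ F) : sb M m a (k + 1) - sb M m a (i + 1) ≤ P ^ 2 * F := by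
  have kp := h2.le.trans A.cl.i3
  have b0 := A.b_pos
  have C0 := A.c_pos
  have C1 := A.cl.C1
  have r2 : 0 < r ^ 2 := by positivity
  have mo := A.sb_mono (Nat.succ_le_succ h)
  have d0 := sub_nonneg.2 mo
  have z0 : 0 ≤ M.z k - M.z i := sub_nonneg.2 (A.cl.leg.zm h)
  have q := Mh_ge A.okb.1 b0 (A.sb_mem (h.trans kp)).1 mo (by rw [A.okb.2]; exact (A.sb_mem kp).2)
    (e := r ^ 2 / (2 * S.C)) fun t ht => by linarith [hμ t ht]
  have e1 := A.Mf_b (h1.trans_le h) kp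
  have e2 := A.Mf_b h1 (h.trans kp)
  change sb M m a (k + 1) - M.b * Pr.Gam _ _ = _ at e1
  change sb M m a (i + 1) - M.b * Pr.Gam _ _ = _ at e2
  have t1 : M.b * M.rb m a i / (m + 1) ≤ M.b * M.rb m a k / (m + 1) :=
    div_le_div_of_nonneg_right (mul_le_mul_of_nonneg_left (rb_mono A.m_pos h) b0.le) (by positivity)
  have r3 := (mul_le_mul_of_nonneg_left hE b0.le).trans
    (mul_le_mul_of_nonneg_right A.cl.b1 (by positivity))
  have p := (A.Mf_sl (s_nn A.cl i) (A.cl.sm kp) _ _ le_rfl (A.cl.sm h) le_rfl).2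
  rw [A.Mf_node (h1.trans_le h) kp, A.Mf_node h1 (h.trans kp)] at p
  have p2 : S.C * S.ms (M.s k) * (M.s k - M.s i) ≤ S.C * (16 * r ^ 2) * (S.C ^ 2 * (M.z k - M.z i)) :=
    mul_le_mul (mul_le_mul_of_nonneg_left ((A.cl.msm (A.cl.sm h2.le)).trans θr) C0.le)
      (A.s_z (A.cl.i1.trans h1.le) h h2).2 (sub_nonneg.2 (A.cl.sm h)) (by positivity)
  generalize sb M m a (k + 1) - sb M m a (i + 1) = D at *
  have F0 : 0 ≤ F := nonneg_of_mul_nonneg_left (e0.trans eF) r2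
  have C3 : S.C ≤ S.C ^ 3 := le_self_pow₀ C1 (by norm_num)
  have a1 : S.C * (cm * (M.z k - M.z i)) ≤ S.C ^ 3 * (r ^ 2 * (M.z k - M.z i)) :=
    mul_le_mul C3 (mul_le_mul_of_nonneg_right cmr z0) (by positivity) (by positivity)
  have a2 : S.C ^ 3 * r ^ 2 * (M.z k - M.z i) ≤ S.C ^ 3 * r ^ 2 * (F + θ * D) :=
    mul_le_mul_of_nonneg_left (by linarith) (by positivity)
  have a3 : S.C * e ≤ S.C ^ 3 * (F * r ^ 2) := mul_le_mul C3 eF e0 (by positivity)
  have a4 : g ≤ S.C ^ 3 * (F * r ^ 2) :=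
    gF.trans (le_mul_of_one_le_left (by positivity) (C1.trans C3))
  have a5 : r ^ 2 / (2 * S.C) * D ≤ 20 * (S.C ^ 3 * (F * r ^ 2)) + 17 * (S.C ^ 3 * r ^ 2 * (θ * D)) +
      S.C * (la * D) := by
    linarith [(abs_le.1 gi).1, (abs_le.1 gk).2]
  have C6 : 1024 * S.C ^ 6 ≤ P ^ 2 := by
    have := pow_le_pow_left₀ (by positivity) PC 2
    linarith
  have C4 : S.C ^ 4 ≤ S.C ^ 6 := pow_le_pow_right₀ C1 (by norm_num)
  have C2 : S.C ^ 2 ≤ S.C ^ 6 := pow_le_pow_right₀ C1 (by norm_num)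
  have P3 : P ^ 2 ≤ P ^ 3 := pow_le_pow_right₀ (by linarith) (by norm_num)
  have c40 : 0 < S.C ^ 4 := by positivity
  have c20 : 0 < S.C ^ 2 := by positivity
  have b1 : 136 * S.C ^ 4 * θ ≤ 1 :=
    (mul_le_mul_of_nonneg_right (by linarith) θ0).trans θ1
  have b2 : 8 * S.C ^ 2 * la ≤ r ^ 2 := (mul_le_mul_of_nonneg_right (by linarith) la0).trans lar
  have b3 := mul_le_mul_of_nonneg_left a5 (by positivity : 0 ≤ 4 * S.C)
  have b4 : 4 * S.C * (r ^ 2 / (2 * S.C) * D) = 2 * (r ^ 2 * D) := by field_simp; ring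
  have b5 := mul_le_mul_of_nonneg_right b1 (by positivity : 0 ≤ r ^ 2 * D)
  have b6 := mul_le_mul_of_nonneg_right b2 d0
  have b7 : 80 * S.C ^ 4 * (F * r ^ 2) ≤ P ^ 2 * (F * r ^ 2) :=
    mul_le_mul_of_nonneg_right (by linarith) (by positivity)
  refine le_of_mul_le_mul_left ?_ r2
  linarith



end At

/-- **the window with its anchor** -/
theorem Nw.tk53 (T0 : ℝ) : ∃ K : ℝ, 1 ≤ K ∧ ∀ {S : Sc} {M : Md} {m : ℕ} {a T : ℝ}
    {Gn : ℕ → Prop} {u v : ℕ} {a' b' δ θ e o lam g : ℝ} {c : ℕ → ℝ},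
    Nw S M m a T Gn u v a' b' δ θ e o lam g c →
    T ≤ T0 → ∀ {P r N Γ j F : ℝ}, Nk K T0 S m a' b' δ θ e o lam g P r N Γ j F →
    (∀ i k, Nx Gn u v i k → sb M m a (k + 1) - sb M m a (i + 1) ≤ Γ) →
    (∀ t ∈ Icc (sb M m a (u + 1)) (sb M m a (v + 1)), Rig.Hp (lh M T) (lb M S m a T) t ≤ j) →
    sb M m a (v + 1) - sb M m a (u + 1) ≤ 14 * N * P * r → ∃ c0 p0 er,
    Rig.Tk (Rig.brk (lb M S m a T) ∪ Rig.brk (lh M T)) (sb M m a (u + 1)) (sb M m a (v + 1))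
      (WW M S m a T c0) (fun t => Rig.muf M.b (lb M S m a T) t - Rig.muf M.b (lh M T) t)
      (fun t => Rig.nuf M.b (lb M S m a T) t - Rig.nuf M.b (lh M T) t) (uu M S m a T)
      (gp (fun k => sb M m a (k + 1)) Gn u v) (exp (-(4 * T0))) S.C p0
      (S.ms a' / (2 * S.C ^ 2)) (2 * (S.C ^ 2 * S.ms b')) er (θ + S.C) (δ + S.C * S.v) ∧
    p0 ≤ P * F ∧ 0 ≤ er ∧ er ≤ P ^ 4 * (F + Γ) * r ^ 2 ∧
    r ^ 2 ≤ P * (S.ms a' / (2 * S.C ^ 2)) ∧ 2 * (S.C ^ 2 * S.ms b') ≤ P * r ^ 2 ∧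
    (∀ t ∈ Icc (sb M m a (u + 1) + N * P * r) (sb M m a (v + 1) - N * P * r),
      |WW M S m a T c0 t| ≤ 5 * P ^ 6 * (F + Γ) * r ^ 2) ∧
    ∀ t ∈ Icc (sb M m a (u + 1) + N * P * r + Γ) (sb M m a (v + 1) - N * P * r),
      |uu M S m a T t| ≤ 7 * P ^ 7 * (F + Γ) := by
  obtain ⟨K0, K01, H0⟩ := Nw.tk T0
  obtain ⟨K1, K11, H1⟩ := gd_le T0
  refine ⟨K0 * K1, one_le_mul_of_one_le_of_one_le K01 K11,
    fun {S M m a T Gn u v a' b' δ θ e o lam g c} W hT {P r N Γ j F} h hΓ hp hW => ?_⟩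
  have A := W.at'
  have C1 := A.cl.C1
  have C0 := A.c_pos
  have v0 := v_pos A.cl
  have P1 := h.P1
  have P0 : 0 < P := by linarith
  have P1' : 1 ≤ P := by linarith
  have r0 := h.r0
  have r2 : 0 < r ^ 2 := by positivity
  have uv := A.sb_mono (Nat.succ_le_succ W.uv)
  have j0 : 0 ≤ j := (Hp_nn A _).trans (hp _ ⟨le_rfl, uv⟩)
  have C3 : S.C ≤ S.C ^ 3 := le_self_pow₀ C1 (by norm_num)
  have C2 : S.C ^ 2 ≤ S.C ^ 3 := pow_le_pow_right₀ C1 (by norm_num)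
  have PC := h.PC
  have P3 : P ≤ P ^ 3 := le_self_pow₀ P1' (by norm_num)
  have k0 : K0 * S.C ≤ P := le_trans (by gcongr; exact le_mul_of_one_le_right (by linarith) K11) h.PK
  have k1 : K1 ≤ P := ((le_mul_of_one_le_left (by linarith) K01).trans
    (le_mul_of_one_le_right (by positivity) C1)).trans h.PK
  have o0 := W.o0
  have l0 := W.lam0
  have Γ0 := h.Γ0
  have N1 := h.N1
  have hQ : ∀ k, u ≤ k → k ≤ v → |L0.Gd (lb M S m a T) (sb M m a (k + 1))| ≤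
      P * r + P * j + 2 * |uu M S m a T (sb M m a (k + 1))| := fun k p q => by
    have a1 := H1 A hT W.a0 W.b1 (W.mb p q)
    have a2 : S.ms b' / a' ≤ 16 * r := by
      rw [div_le_iff₀ W.a0]
      linarith [h.rb, mul_le_mul_of_nonneg_left h.ra r0.le]
    have a3 := mul_le_mul_of_nonneg_left a2 C0.le
    have a4 := mul_le_mul_of_nonneg_right (show 16 * S.C ≤ P by linarith) r0.le
    have a5 := mul_le_mul k1 (hp _ ⟨A.sb_mono (Nat.succ_le_succ p), A.sb_mono (Nat.succ_le_succ q)⟩)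
      (Hp_nn A _) P0.le
    linarith
  obtain ⟨c0, hc⟩ := W.anchor hΓ hQ hW
  have Γr : P * Γ ≤ r :=
    (mul_le_mul_of_nonneg_right (le_self_pow₀ P1' (by norm_num)) Γ0).trans h.Γr
  have Γr' : Γ ≤ r := (le_mul_of_one_le_left Γ0 P1').trans Γr
  have l1 : N * (lam * Γ) ≤ r := (le_mul_of_one_le_left (by positivity) (P1'.trans P3)).trans h.l1
  have l2 : P ^ 3 * (lam * Γ ^ 2) ≤ r ^ 2 := by
    have : P ^ 3 * (lam * Γ) ≤ r :=
      (mul_le_mul_of_nonneg_left (le_mul_of_one_le_left (by positivity) N1) (by positivity)).trans h.l1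
    have := mul_le_mul this Γr' Γ0 r0.le
    linarith
  have om : S.C * (6 * o + 2 * (lam * Γ ^ 2)) ≤ S.ms a' / (2 * S.C ^ 2) := by
    rw [← h.r2, le_div_iff₀ (by positivity)]
    have a1 := mul_le_mul_of_nonneg_right (PC.trans P3) o0
    have a2 := mul_le_mul_of_nonneg_right (PC.trans P3) (by positivity : 0 ≤ lam * Γ ^ 2)
    linarith [h.o1]
  have tk := H0 W hT (by have := W.e0; positivity) (by positivity) om hc hp
  have θ1 : θ ≤ 1 := (le_mul_of_one_le_left W.θ0 (P1'.trans P3)).trans h.θ1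
  have bb := A.ms_pos (W.a0.le.trans ((W.mb le_rfl W.uv).1.trans (W.mb le_rfl W.uv).2))
  have g0 : 0 ≤ g := (abs_nonneg _).trans (W.hg u le_rfl W.uv W.gu)
  have hd : r ^ 2 ≤ P * (S.ms a' / (2 * S.C ^ 2)) := by
    rw [← h.r2, ← mul_div_assoc, le_div_iff₀ (by positivity)]
    linarith [mul_le_mul_of_nonneg_right (show 2 * S.C ^ 2 ≤ P by linarith) r2.le]
  have hD : 2 * (S.C ^ 2 * S.ms b') ≤ P * r ^ 2 := by
    linarith [mul_le_mul_of_nonneg_left h.rb (sq_nonneg S.C),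
      mul_le_mul_of_nonneg_right (show 32 * S.C ^ 2 ≤ P by linarith) r2.le]
  have hZ := Z_le (w := 1 / ((m : ℝ) + 1)) C1 P1 PC k0 r0 h.rb N1 Γ0 o0
    ((le_mul_of_one_le_left o0 (P1'.trans P3)).trans h.o1) l0 l1 v0.le h.vr j0 h.jF h.δF h.vF
    h.eF h.gF (by positivity) h.mF h.oF h.NF rfl
  rw [mul_one_div] at hZ
  generalize hE : errW S m b' (e + 2 * o * (P * r + P * j) + o * (14 * N * P * r) +
    (o + lam * Γ ^ 2) * (S.C * (14 * N * P * r) + S.C * S.v)) g = er at tk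
  have er0 : 0 ≤ er := by rw [← hE]; have := W.e0; unfold errW; positivity
  have hZ' : P * Γ + (δ + S.C * S.v) + K0 * S.C * j + 1 * exp (-N) + er / r ^ 2 ≤
      P ^ 4 * (F + Γ) := by rw [← hE]; unfold errW; exact hZ
  have F0 : 0 ≤ F := j0.trans h.jF
  have e1 : er ≤ P ^ 4 * (F + Γ) * r ^ 2 := by
    have := W.δ0
    have x : er / r ^ 2 ≤ P ^ 4 * (F + Γ) := by
      have : 0 ≤ P * Γ + (δ + S.C * S.v) + K0 * S.C * j + 1 * exp (-N) := by positivity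
      linarith
    rwa [div_le_iff₀ r2] at x
  obtain ⟨x1, x2, -⟩ := tk.one_20 P1' r0 hd hD (by linarith) (by linarith) h.PT Γ0 Γr (Wd.sh hΓ)
    (by linarith) (fun t _ => A.abs_uu_one t) er0 uv hZ'
  exact ⟨c0, _, er, tk, mul_le_mul k0 h.jF j0 P0.le, er0, e1, hd, hD,
    fun t ht => (x1 t ht).trans_eq (by ring), fun t ht => (x2 t ht).trans_eq (by ring)⟩

end Crest.Agent.T156.Alt.Mp9

end
namespace Crest.Agent.T156.Alt.Mp9.Nk
end Crest.Agent.T156.Alt.Mp9.Nk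
end

-- ▼ part T156/TLqL_36
section

/-!
# Row 156, block (L): the last window, floor, lag, short gaps and the final window (helper36)
-/

set_option autoImplicit false

noncomputable section

namespace Crest.Agent.T156.Alt.Mp9

open Real

/-- change of the free numbers of a window -/
theorem Nk.resc {K T0 : ℝ} {S : Sc} {m : ℕ} {a' b' δ θ e o lam g P r N Γ j F N' Γ' F' : ℝ}
    (h : Nk K T0 S m a' b' δ θ e o lam g P r N Γ j F) (l0 : 0 ≤ lam) (N1 : 1 ≤ N') (h0 : 0 ≤ Γ')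
    (h1 : Γ' ≤ Γ) (h2 : N' * Γ' ≤ N * Γ) (hF : F ≤ F') (h3 : N' * o ≤ F' * r)
    (h4 : exp (-N') ≤ F') : Nk K T0 S m a' b' δ θ e o lam g P r N' Γ' j F' :=
  have P0 : 0 < P := by linarith [h.P1]
  have q := mul_le_mul_of_nonneg_right hF (sq_nonneg r)
  { h with
    N1 := N1
    Γ0 := h0
    Γr := (mul_le_mul_of_nonneg_left h1 (by positivity)).trans h.Γr
    l1 := le_trans (by
      have := mul_le_mul_of_nonneg_left h2 (by positivity : 0 ≤ P ^ 3 * lam)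
      linarith) h.l1
    jF := h.jF.trans hF
    δF := h.δF.trans hF
    vF := h.vF.trans hF
    eF := h.eF.trans q
    gF := h.gF.trans q
    mF := h.mF.trans q
    oF := h3
    NF := h4 }

end Crest.Agent.T156.Alt.Mp9

namespace Crest.Agent.T156.Alt.L63

open MeasureTheory Real Set
open Crest.Agent.T156.Alt.L69 Crest.Agent.T156.Alt.Mp9 Crest.Agent.T156.Alt.Ap63
open Crest.Agent.R164.GC Crest.Agent.R339.B Crest.Agent.R339.Var Crest.Agent.T157.Pf
open T20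

variable {S : Sc} {M : Md} {m : ℕ} {a : ℝ}
  {K E L G1 u1 u2 j γ Lc ηc τ l0 l X Xp Vt Lg Lp X2 X3 X4 G0 N t1 ℓ En p0 aa g' R2 y r : ℝ}
  {η g : ℝ → ℝ} {Gn : ℕ → Prop} {u V V2 : ℕ}

theorem pw36 (L1 : 1000 ≤ L) {i k : ℕ} (hik : i < k) {x : ℝ} (hx : 0 ≤ x) :
    1000 * (L ^ i * x) ≤ L ^ k * x := by
  have a : L ^ (i + 1) ≤ L ^ k := pow_le_pow_right₀ (by linarith) hik
  have b : 1000 * L ^ i ≤ L ^ (i + 1) := by
    rw [pow_succ, mul_comm]; exact mul_le_mul_of_nonneg_left L1 (by positivity)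
  rw [← mul_assoc]; exact mul_le_mul_of_nonneg_right (b.trans a) hx

/-- the numbers of the window; `Γ0` bounds the gaps -/
structure Sk (L : ℝ) (S : Sc) (M : Md) (m : ℕ) (a F o aa : ℝ) (Gn : ℕ → Prop) (u V2 : ℕ)
    (y r Γ0 : ℝ) : Prop where
  L1 : 1000 ≤ L
  LC : 32 * S.C ^ 3 ≤ L
  lg : log S.n ≤ L
  lg1 : 14 ≤ log (S.n : ℝ)
  r0 : 0 < r
  r1 : L ^ 66 * r ≤ 1
  F0 : 0 ≤ F
  Fr : L ^ 50 * F ≤ r
  ar : L ^ 50 * aa ≤ r
  o0 : 0 ≤ o
  oF : o ≤ F * r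
  or : L ^ 50 * o ≤ r ^ 2
  va : S.v ≤ aa
  θr : S.ms (M.s S.J) ≤ 16 * r ^ 2
  Pa : 1 ≤ L * (y / 2)
  Γ0' : 0 ≤ Γ0
  Γr : L ^ 33 * Γ0 = 4 * r
  ΓΓ : 4 * r / L ^ 11 = L ^ 22 * Γ0
  gap : ∀ i k, Nx Gn u V2 i k → sb M m a (k + 1) - sb M m a (i + 1) ≤ Γ0
  nF : exp (-(log S.n - 1)) ≤ F

theorem Sq.kit (W : Sq K L S M m a Lg X2 j γ η aa g' Gn u V V2 y r) (G : Rg K E L S)
    (LE : L ^ 200 ≤ E) (lg : 14 ≤ log (S.n : ℝ)) (Q : Qn L S M m a l X Lg X2 j γ η aa g')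
    (Nd : Nt E L S M m a Lg X X2 η Gn u V2) :
    Sk L S M m a (qF L S M Lg X2 j γ η g') (qO L S M Lg X2) aa Gn u V2 y r (4 * r / L ^ 33) := by
  have A := W.nw.at'
  have h := A.cl
  have C1 := h.C1
  have C0 := h.C0
  have L1 := G.L1
  have L0 : 0 < L := by linarith
  have L1' : 1 ≤ L := by linarith
  have r0 := W.nk.r0
  have r2 := W.nk.r2
  have a0 := W.a0
  have n0 := h.N0
  have F0 : 0 ≤ qF L S M Lg X2 j γ η g' := h.v0.le.trans W.nk.vF
  have sJ : M.s S.J ≤ S.C := h.s_le_C h.i3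
  have l0 := Q.F.l0
  have lJ := Q.lJ
  have y1 := W.y1
  have y2 := W.y2
  have C3 : S.C ≤ S.C ^ 3 := le_self_pow₀ C1 (by norm_num)
  have C2 : S.C ^ 2 ≤ S.C ^ 3 := pow_le_pow_right₀ C1 (by norm_num)
  have LC := G.LC
  have sm := W.sm
  have x1 : 0 ≤ L ^ 50 * qF L S M Lg X2 j γ η g' := by positivity
  have x2 : 0 ≤ L ^ 50 * aa := by positivity
  have o0 : 0 ≤ qO L S M Lg X2 := W.nw.o0
  have oF : qO L S M Lg X2 ≤ qF L S M Lg X2 j γ η g' * r :=
    (le_mul_of_one_le_left o0 W.nk.N1).trans W.nk.oF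
  have va : S.v ≤ aa := (le_mul_of_one_le_left h.v0.le (one_le_pow₀ L1')).trans Q.va
  have mq : ∀ s, s ≤ 2 * y → S.ms s ≤ 16 * r ^ 2 := fun s hs => by
    have := h.ms_pow (t := y / 2) (by linarith) 2
    norm_num at this
    rw [r2]
    exact (h.msm (by linarith)).trans this
  refine ⟨L1, LC, G.lg, lg, r0, ?_, F0, by linarith, by linarith, o0, oF, ?_, va,
    mq _ (by linarith), ?_, by positivity, by field_simp, by field_simp, fun i k n => ?_, ?_⟩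
  · have := Q.F.ml (y / 2) (by linarith) (by linarith)
    rw [← W.er] at this
    exact le_of_mul_le_mul_left (by linarith) L0
  · have e1 := mul_le_mul_of_nonneg_left oF (pow_pos L0 50).le
    have e2 := mul_le_mul_of_nonneg_right (show L ^ 50 * qF L S M Lg X2 j γ η g' ≤ r by linarith)
      r0.le
    linarith
  · have e2 := h.atom.1
    have i2 := h.i2
    have i1 := h.i1
    have e3 := (h.z_s (k := S.J - 1) (by omega) (by omega)).2
    have e4 := h.sm (Nat.sub_le S.J 1)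
    have e5 := Q.th
    have e6 : aa ≤ √S.θ := le_trans (by linarith [Q.j0, Q.γ0, Q.g0, Q.gb])
      ((le_mul_of_one_le_left (by linarith [Q.j0, Q.γ0, Q.g0, Q.gb]) (one_le_pow₀ L1')).trans Q.sm)
    have e7 := mul_le_mul_of_nonneg_left
      (show M.s (S.J - 1) + 2 * S.v ≤ 3 * y by linarith [sqrt_nonneg S.θ]) C0.le
    rw [div_le_iff₀ C0] at e2
    have e8 := mul_le_mul_of_nonneg_right (e3.trans e7) C0.le
    have e9 := mul_le_mul_of_nonneg_right (show 6 * S.C ^ 2 ≤ L by linarith [pow_pos C0 2])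
      (show 0 ≤ y / 2 by linarith)
    linarith
  · have d0 := sub_nonneg.2 (A.sb_mono (Nat.succ_le_succ n.2.1))
    have d1 := Nd.sh i k n
    have d2 := mq (M.s i) (by linarith [h.sm ((n.2.1.trans n.2.2.1).trans W.VJ.le)])
    have d3 := pow_le_pow_left₀ (h.ms_pos (h.s_nn i)).le d2 3
    refine le_of_pow_le_pow_left₀ (n := 6) (by norm_num) (by positivity) ?_
    rw [div_pow, le_div_iff₀ (by positivity)]
    refine le_of_mul_le_mul_left ?_ L0
    have d4 := mul_le_mul_of_nonneg_right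
      ((pow_le_pow_right₀ L1' (show 199 ≤ 200 by norm_num)).trans LE) (pow_nonneg d0 6)
    have d5 := mul_le_mul_of_nonneg_left d3 L0.le
    simp only [Nat.succ_eq_add_one] at d4
    linarith only [d1, d4, d5]
  · rw [neg_sub, exp_sub, exp_log n0, div_eq_mul_one_div]
    have e1 : exp 1 ≤ 3 := by linarith [Real.exp_one_lt_d9]
    have n1 : 0 < 1 / (S.n : ℝ) := by positivity
    have e2 := mul_le_mul_of_nonneg_right e1 n1.le
    have e3 := pw36 L1 (show 0 < 5 by norm_num) n1.le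
    have e4 := mul_le_mul_of_nonneg_left Q.nb (pow_pos L0 5).le
    have e5 : 0 ≤ L ^ 5 * qJ L S j γ := by
      have := Q.j0; have := Q.γ0; unfold qJ; positivity
    unfold qF
    linarith

/-- floor, lag and location -/
structure Fl (L : ℝ) (S : Sc) (M : Md) (m : ℕ) (a F aa : ℝ) (V : ℕ) (y r : ℝ) : Prop where
  fl : ∀ t ∈ Icc (y - 13 * (log S.n * L * r)) (2 * S.C),
    M.b * Pr.GG (lb M S m a (2 * S.C)) t ≤ 1 - r ^ 2 / (2 * S.C)
  top : M.z (S.J - 1) - M.z V ≤ L ^ 6 * (aa + F)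
  uq : ∀ t, 3 / 4 * M.s S.J ≤ t → t + 12 * (log S.n * L * r) ≤ y → |uq S M m a t| ≤ L ^ 12 * F
  lo : -(L ^ 6 * (aa + F)) ≤ L63.uq S M m a y

/-- the window with a longer scale -/
theorem Sq.nk1 (W : Sq K L S M m a Lg X2 j γ η aa g' Gn u V V2 y r) {Γ0 : ℝ}
    (k : Sk L S M m a (qF L S M Lg X2 j γ η g') (qO L S M Lg X2) aa Gn u V2 y r Γ0) :
    Nk K (2 * S.C) S m (y / 2) (max (M.s V) y) (S.C * S.v) (L / Lg) (256 * L * η (M.s S.J))
      (qO L S M Lg X2) (2 * L ^ 3) g' L r (13 / 2 * log S.n) Γ0 (qJ L S j γ)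
      (4 * L ^ 2 * qF L S M Lg X2 j γ η g') := by
  have L1 := k.L1
  have L0 : 0 < L := by linarith
  have lg := k.lg1
  have e1 := pw36 L1 (show 0 < 22 by norm_num) k.Γ0'
  have e2 := pw36 L1 (show 0 < 2 by norm_num) k.F0
  have F0 := k.F0
  have Γ0' := k.Γ0'
  have e3 := mul_le_mul_of_nonneg_left (show 4 * Γ0 ≤ L ^ 22 * Γ0 by linarith)
    (show 0 ≤ log (S.n : ℝ) by linarith)
  have e4 := mul_le_mul_of_nonneg_right (show qF L S M Lg X2 j γ η g' ≤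
    L ^ 2 * qF L S M Lg X2 j γ η g' by linarith) k.r0.le
  have e5 := W.nk.oF
  have e6 : 0 ≤ log (S.n : ℝ) * qO L S M Lg X2 := mul_nonneg (by linarith) k.o0
  have e7 : 0 ≤ log (S.n : ℝ) * Γ0 := mul_nonneg (by linarith) Γ0'
  refine W.nk.resc (by positivity) (by linarith) Γ0' (by rw [k.ΓΓ]; linarith)
    (by rw [k.ΓΓ]; linarith) (by linarith) (by linarith)
    ((exp_le_exp.2 (by linarith)).trans (W.nk.NF.trans (by linarith)))

set_option maxHeartbeats 800000 in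
/-- one call of `mu53` -/
theorem call36 (T0 : ℝ) : ∃ K0 : ℝ, ∀ {S : Sc} {M : Md} {m : ℕ} {a K L Lg X2 j γ aa g' y r Γ0 : ℝ}
    {η : ℝ → ℝ} {Gn : ℕ → Prop} {u V V2 : ℕ}, 2 * S.C = T0 → K0 ≤ K →
    Sq K L S M m a Lg X2 j γ η aa g' Gn u V V2 y r →
    Sk L S M m a (qF L S M Lg X2 j γ η g') (qO L S M Lg X2) aa Gn u V2 y r Γ0 →
    ∀ w, S.J ≤ w → w ≤ S.Jp → |sb M m a (w + 1) - M.s S.J| ≤ qF L S M Lg X2 j γ η g' →
    (∀ t ∈ Ico (sb M m a (w + 1)) (2 * S.C), Pr.Reg48.Gd (lb M S m a (2 * S.C)) t ≤ 0) →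
    ∀ d, 0 ≤ d → L ^ 22 * d ≤ r → (V = V2 ∨ M.s S.J - y ≤ aa / 4 + d) →
    M.z (S.J - 1) - M.z V ≤ L ^ 4 * (aa + L * qF L S M Lg X2 j γ η g') + L ^ 3 * d ∧
    ∀ t ∈ Icc (y - 13 * (log S.n * L * r)) (2 * S.C),
      M.b * Pr.GG (lb M S m a (2 * S.C)) t ≤ 1 - r ^ 2 / (2 * S.C) := by
  obtain ⟨K1, -, H1⟩ := Nw.mu53 T0
  refine ⟨K1, fun {S M m a K L Lg X2 j γ aa g' y r Γ0 η Gn u V V2} hT hK W k w w1 w2 w3 w4 d d0 dr
    di => ?_⟩
  subst hT
  have A := W.nw.at'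
  have h := A.cl
  have C1 := h.C1
  have C0 := h.C0
  have L1 := k.L1
  have L0 : 0 < L := by linarith
  have lg := k.lg1
  have r0 := k.r0
  have F0 := k.F0
  have a0 := W.a0
  have o0 := k.o0
  have Γ0' := k.Γ0'
  have ey := W.ey
  have C3 : S.C ≤ S.C ^ 3 := le_self_pow₀ C1 (by norm_num)
  have C2 : S.C ^ 2 ≤ S.C ^ 3 := pow_le_pow_right₀ C1 (by norm_num)
  have LC := k.LC
  have nk := (W.nk1 k).anti53 C0.le hK
  have jF := W.nk.jF
  have ρ0 : 0 ≤ log (S.n : ℝ) * L * r := by positivity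
  have y0 : 0 ≤ y := by linarith [W.nw.a0]
  have yJ : y < M.s S.J := by linarith [W.y1]
  have VJ := W.VJ
  have top : M.z (S.J - 1) - M.z V2 ≤ L * aa := by
    have e1 := (A.s_z (i := V2) (k := S.J - 1) (h.i1.trans (W.nw.ju.le.trans (W.nw.uv.trans W.VV)))
      (by omega) A.J_pred.2.1).1
    rw [one_div_mul_eq_div, div_le_iff₀' (by positivity)] at e1
    have e2 := mul_le_mul_of_nonneg_left (show M.s (S.J - 1) - M.s V2 ≤ aa by
      linarith [A.s_pred.1, W.s1]) (sq_nonneg S.C)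
    have e3 := mul_le_mul_of_nonneg_right (show S.C ^ 2 ≤ L by linarith [pow_pos C0 3]) a0.le
    linarith
  have Γ2 : L ^ 22 * (4 * r / L ^ 11) ^ 2 = 16 * r ^ 2 := by field_simp; norm_num
  have We2 := W.e2
  generalize qF L S M Lg X2 j γ η g' = F at *
  generalize 4 * r / L ^ 11 = Γ at *
  have p := fun i k (h : i < k) (x : ℝ) (hx : 0 ≤ x) => pw36 L1 h hx
  have x1 : 0 ≤ L ^ 2 * F := by positivity
  have x2 : 0 ≤ L * aa := by positivity
  have x3 : 0 ≤ L * d := by positivity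
  have x4 : 0 ≤ L ^ 2 * r ^ 2 := by positivity
  have Lw' : Lw S M m a (2 * S.C) u V V2 w (y / 2) g' L r (13 / 2 * log S.n) Γ0 (4 * L ^ 2 * F)
      (L * aa) (L * (aa + d)) F (L ^ 2 * F * r ^ 2) (L * qO L S M Lg X2)
      (3 * qO L S M Lg X2 + 2 * L ^ 3 * Γ ^ 2) (qJ L S j γ)
      (4 * L ^ 2 * F + Γ0 + L * (aa + d) + L ^ 2 * r ^ 2) := by
    refine ⟨by linarith [W.w2], by linarith [W.w1], k.θr, k.Pa, W.VV, VJ, w1, w2, w3, w4,
      fun t ht => W.hp t ⟨by linarith [ht.1], ht.2⟩, top, ?_, W.hg V2 (W.nw.uv.trans W.VV) le_rfl,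
      by positivity, by linarith [mul_nonneg x1 (sq_nonneg r)], by positivity,
      by linarith [p 1 50 (by norm_num) _ o0, k.or, mul_nonneg L0.le o0], by positivity, ?_,
      di.imp id fun c => ?_, by positivity, by linarith, by linarith, by linarith, by linarith,
      by linarith [p 0 2 (by norm_num) _ F0], by linarith [p 0 2 (by norm_num) _ F0], ?_, ?_⟩
    · rw [← ey]; exact (le_abs_self _).trans We2
    · linarith [p 3 50 (by norm_num) _ o0, k.or, p 6 22 (by norm_num) _ (sq_nonneg Γ),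
        sq_nonneg r]
    · rw [← ey]
      have e1 := (A.zh53 y0 yJ).2
      have e2 := h.leg.zm (show V ≤ S.J - 1 by have := W.VV; omega)
      have e3 := mul_le_mul_of_nonneg_left (show M.s S.J - y + S.v ≤ 2 * (aa + d) by
        linarith [k.va]) C0.le
      have e4 := mul_le_mul_of_nonneg_right (show 2 * S.C ≤ L by linarith)
        (show 0 ≤ aa + d by linarith)
      have e5 := A.lvb_node (W.nw.ju.le.trans W.nw.uv) (W.nw.vJ.le.trans h.i3)
      rw [← ey] at e5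
      refine ⟨by linarith [p 0 1 (by norm_num) _ (show 0 ≤ aa + d by linarith)], ?_⟩
      unfold uu
      linarith
    · have e1 := pow_le_pow_left₀ (sqrt_nonneg _) W.th 2
      rw [sq_sqrt h.θ0.le] at e1
      linarith
    · have e1 := mul_le_mul_of_nonneg_right k.lg
        (show 0 ≤ L ^ 14 * (4 * L ^ 2 * F + Γ0 + L * (aa + d) + L ^ 2 * r ^ 2) by positivity)
      have e2 := mul_le_mul_of_nonneg_right k.r1 r0.le
      linarith [p 17 50 (by norm_num) _ F0, k.Fr, p 15 33 (by norm_num) _ Γ0', k.Γr,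
        p 16 50 (by norm_num) _ a0.le, k.ar, p 16 22 (by norm_num) _ d0,
        p 17 66 (by norm_num) _ (sq_nonneg r)]
  obtain ⟨q1, q2⟩ := H1 W.nw le_rfl nk (fun i k' n => k.gap i k' (n.up le_rfl W.VV))
    (fun t ht => W.hp t ⟨by linarith [ht.1, W.nw.bu], by
      linarith [ht.2, h.s_le_C h.i3]⟩) Lw'
  refine ⟨?_, fun t ht => q2 t ⟨by linarith [ht.1], ht.2⟩⟩
  linarith [p 1 4 (by norm_num) _ a0.le, p 3 4 (by norm_num) _ a0.le, p 2 5 (by norm_num) _ F0,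
    p 4 5 (by norm_num) _ F0, mul_nonneg (pow_pos L0 4).le a0.le, mul_nonneg (pow_pos L0 5).le F0]

set_option maxHeartbeats 1600000 in
/-- **floor, lag and location** -/
theorem fl36 (T0 : ℝ) : ∃ K0 : ℝ, ∀ {S : Sc} {M : Md} {m : ℕ} {a : ℝ}
    {K E L j γ l0 l V0 X Lg X2 X3 G0 aa g' y r : ℝ} {η : ℝ → ℝ} {Gn : ℕ → Prop} {u V V2 : ℕ},
    2 * S.C = T0 → K0 ≤ K → Rg K E L S → L ^ 200 ≤ E → 14 ≤ log (S.n : ℝ) →
    LN E S M l0 l V0 X Lg X2 X3 G0 η → Qn L S M m a l X Lg X2 j γ η aa g' →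
    (∀ U V, 5 / 4 * l ≤ M.s U → M.s V + aa / 5 ≤ M.s S.J → Nt E L S M m a Lg X X2 η Gn U V) →
    Sq K L S M m a Lg X2 j γ η aa g' Gn u V V2 y r →
    ∀ w, S.J ≤ w → w ≤ S.Jp → |sb M m a (w + 1) - M.s S.J| ≤ qF L S M Lg X2 j γ η g' →
    (∀ t ∈ Ico (sb M m a (w + 1)) (2 * S.C), Pr.Reg48.Gd (lb M S m a (2 * S.C)) t ≤ 0) →
    Fl L S M m a (qF L S M Lg X2 j γ η g') aa V y r := by
  obtain ⟨K1, H1⟩ := call36 T0
  obtain ⟨K2, K21, HG⟩ := gd_nd T0
  obtain ⟨K3, -, H3⟩ := Nw.main T0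
  refine ⟨max K1 (max K2 K3), fun {S M m a K E L j γ l0 l V0 X Lg X2 X3 G0 aa g' y r η Gn u V V2} hT
    hK G LE lg H Q hN W w w1 w2 w3 w4 => ?_⟩
  have A := W.nw.at'
  have h := A.cl
  have C1 := h.C1
  have C0 := h.C0
  have a0 := W.a0
  have l0' := Q.F.l0
  have lJ := Q.lJ
  have su := W.su
  have lu : 5 / 4 * l ≤ M.s u := by linarith
  have Nd := hN u V2 lu (by linarith [W.s2])
  obtain ⟨Γ0, k⟩ : ∃ Γ0, Sk L S M m a (qF L S M Lg X2 j γ η g') (qO L S M Lg X2) aa Gn u V2 y r Γ0 :=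
    ⟨_, W.kit G LE lg Q Nd⟩
  have call := H1 hT ((le_max_left _ _).trans hK) W k w w1 w2 w3 w4
  have KL : K2 ≤ L := (le_mul_of_one_le_right (by linarith) C1).trans
    ((mul_le_mul_of_nonneg_right (((le_max_left _ _).trans (le_max_right _ _)).trans hK)
      C0.le).trans G.LK)
  have nk3 := W.nk.anti53 C0.le (((le_max_right _ _).trans (le_max_right _ _)).trans hK)
  subst hT
  have L1 := k.L1
  have L0 : 0 < L := by linarith
  have r0 := k.r0
  have F0 := k.F0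
  have o0 := k.o0
  have Γ0' := k.Γ0'
  have ey := W.ey
  have uV := W.nw.uv
  have VJ := W.VJ
  have VV := W.VV
  have i3 := h.i3
  have C3 : S.C ≤ S.C ^ 3 := le_self_pow₀ C1 (by norm_num)
  have C2 : S.C ^ 2 ≤ S.C ^ 3 := pow_le_pow_right₀ C1 (by norm_num)
  have LC := k.LC
  have ρ0 : 0 ≤ log (S.n : ℝ) * L * r := by have := k.lg1; positivity
  have y0 : 0 ≤ y := by linarith [W.nw.a0]
  have y1 := W.y1
  have yJ : y < M.s S.J := by linarith
  have sJ : M.s S.J ≤ S.C := h.s_le_C i3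
  have zy := A.lvb_node (W.nw.ju.le.trans uV) (W.nw.vJ.le.trans i3)
  have p := fun i k (h : i < k) (x : ℝ) (hx : 0 ≤ x) => pw36 L1 h hx
  have main : M.z (S.J - 1) - M.z V ≤ L ^ 6 * (aa + qF L S M Lg X2 j γ η g') ∧
      ∀ t ∈ Icc (y - 13 * (log S.n * L * r)) (2 * S.C),
        M.b * Pr.GG (lb M S m a (2 * S.C)) t ≤ 1 - r ^ 2 / (2 * S.C) := by
    have x1 := mul_nonneg (pow_pos L0 6).le a0.le
    have x2 := mul_nonneg (pow_pos L0 6).le F0
    rcases W.di2 with e | ⟨q, n, c⟩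
    · obtain ⟨q1, q2⟩ := call 0 le_rfl (by simpa using r0.le) (.inl e)
      exact ⟨by linarith [p 4 6 (by norm_num) _ a0.le, p 5 6 (by norm_num) _ F0], q2⟩
    have d1 := k.gap V q n
    rw [← ey] at d1
    obtain ⟨q1, q2⟩ := call Γ0 Γ0' (by linarith [p 22 33 (by norm_num) _ Γ0', k.Γr])
      (.inr (by linarith))
    obtain ⟨-, Vq, qV, gV, gq, -⟩ := id n
    have qJ' : q < S.J := qV.trans_lt VJ
    have jV := W.nw.ju.trans_le uV
    have z0 : 0 ≤ M.z q - M.z V := sub_nonneg.2 (h.leg.zm Vq)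
    have z1 : M.z q ≤ M.z (S.J - 1) := h.leg.zm (by omega)
    have K0 : 10 * (L ^ 1 * (M.z (S.J - 1) - M.z V)) ≤ r := by
      have := mul_le_mul_of_nonneg_left q1 L0.le
      linarith [p 5 50 (by norm_num) _ a0.le, k.ar, p 6 50 (by norm_num) _ F0, k.Fr,
        p 4 33 (by norm_num) _ Γ0', k.Γr]
    have zz : 0 ≤ M.z (S.J - 1) - M.z V := by linarith
    have K1' := p 0 1 (by norm_num) _ zz
    have a1 := p 1 50 (by norm_num) _ a0.le
    have a2 := p 0 1 (by norm_num) _ a0.le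
    have a3 := p 0 33 (by norm_num) _ Γ0'
    have a4 := k.ar
    have a5 := k.Γr
    have s1 : M.s S.J - M.s q ≤ r / 2 := by
      have e1 := (A.s_z (i := q) (k := S.J - 1) (h.i1.trans (jV.le.trans Vq)) (by omega)
        A.J_pred.2.1).2
      have e2 := mul_le_mul (show S.C ^ 2 ≤ L by linarith [pow_pos C0 3])
        (show M.z (S.J - 1) - M.z q ≤ M.z (S.J - 1) - M.z V by linarith) (by linarith) L0.le
      have e3 := mul_le_mul (show S.C ≤ L by linarith) k.va h.v0.le L0.le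
      linarith [A.s_pred.2]
    have s2 : M.s q ≤ M.s S.J := h.sm qJ'.le
    have mo := A.sb_mono (Nat.succ_le_succ Vq)
    simp only [Nat.succ_eq_add_one] at mo
    rw [← ey] at mo
    have m1 := A.sb_mem (W.nw.vJ.le.trans i3)
    have m2 := A.sb_mem (qJ'.le.trans i3)
    have p1 := HG A le_rfl (h.i1.trans (jV.le.trans Vq)) qJ' m1 (W.hp _ m1)
    have p2 := HG A le_rfl (h.i1.trans (jV.le.trans Vq)) qJ' m2 (W.hp _ m2)
    rw [zy, abs_sub_comm (M.z V), abs_of_nonneg z0] at p1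
    rw [A.lvb_node (jV.le.trans Vq) (qJ'.le.trans i3), sub_self, abs_zero] at p2
    have e1 : |sb M m a (V + 1) - M.s q| ≤ r := by
      rw [← ey]; exact abs_le.2 ⟨by linarith, by linarith⟩
    have e2 : |sb M m a (q + 1) - M.s q| ≤ r := abs_le.2 ⟨by linarith, by linarith⟩
    have rq : r ≤ M.s q := W.nk.ra.trans (W.nw.su.trans (h.sm (uV.trans Vq)))
    have e3 : S.ms (M.s q) / M.s q ≤ 16 * r := by
      rw [div_le_iff₀ (by linarith)]
      linarith [mul_le_mul_of_nonneg_left rq r0.le, h.msm s2, k.θr]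
    have e4 := mul_le_mul_of_nonneg_right (show 32 * S.C ≤ L by linarith) r0.le
    have e5 := mul_le_mul_of_nonneg_left e3 C0.le
    have J0 : 0 ≤ qJ L S j γ := (Hp_nn A _).trans (W.hp _ m1)
    have jr : qJ L S j γ ≤ r := by
      linarith [W.nk.jF, p 0 50 (by norm_num) _ F0, k.Fr]
    have e6 := mul_le_mul KL (add_le_add jr e1) (by positivity) L0.le
    have e7 := mul_le_mul KL (add_le_add jr e2) (by positivity) L0.le
    have e8 := mul_le_mul_of_nonneg_right L1 r0.le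
    have Nq := hN u q lu (by linarith [W.s2, h.sm qV])
    have fin := e_two G Q.F H Nq (by linarith) su le_rfl uV Vq qJ' W.nw.gu gV gq
      (fun i k' n' => k.gap i k' (n'.up le_rfl qV)) (Q := 6 * r) (by linarith)
    have g2 : L ^ 66 * Γ0 ^ 2 = 16 * r ^ 2 := by
      have : (L ^ 33 * Γ0) ^ 2 = (4 * r) ^ 2 := by rw [k.Γr]
      linarith
    have f1 := W.nk.eF
    have f8 := W.nw.e0
    have f4 := mul_le_mul_of_nonneg_right k.oF r0.le
    have sh := A.short53 (F := 7 * qF L S M Lg X2 j γ η g') jV Vq qJ' LC r0 k.θr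
      (fun t ht => q2 t ⟨by linarith [ht.1], ht.2.le.trans m2.2⟩) (Nd.gap V q n)
      (e := 16 * L * η (M.s S.J) + qO L S M Lg X2 * (6 * r))
      (cm := qO L S M Lg X2 + 2 * L ^ 3 * Γ0 ^ 2)
      (by linarith [(abs_le.1 fin).1]) (W.hg V uV VV) (W.hg q (uV.trans Vq) qV) W.nw.θ0 W.nk.θ1
      (by linarith [mul_nonneg o0 r0.le]) (by linarith) o0
      (by linarith [p 2 50 (by norm_num) _ o0, k.or, mul_nonneg (pow_pos L0 2).le o0])
      (by positivity)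
      (by linarith [p 0 50 (by norm_num) _ o0, k.or, p 3 66 (by norm_num) _ (sq_nonneg Γ0),
        sq_nonneg r])
      (by linarith [W.nk.gF, mul_nonneg F0 (sq_nonneg r)]) (by linarith [W.nk.δF])
    rw [← ey] at sh
    obtain ⟨q3, -⟩ := call (L ^ 2 * (7 * qF L S M Lg X2 j γ η g')) (by positivity)
      (by linarith [p 24 50 (by norm_num) _ F0, k.Fr, mul_nonneg (pow_pos L0 24).le F0])
      (.inr (by linarith))
    exact ⟨by linarith [p 4 6 (by norm_num) _ a0.le, p 5 6 (by norm_num) _ F0], q2⟩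
  refine ⟨main.2, main.1, fun t c1 c2 => ?_, ?_⟩
  · rcases le_total (t + 7 * (2 * log S.n * L * r)) y with c | c
    · exact W.uq t c1 c
    exact H3 W.nw le_rfl nk3 (fun i k' n => W.gap i k' (n.up le_rfl VV))
      (fun s hs => W.hp s ⟨by linarith [hs.1, W.nw.bu], by linarith [hs.2]⟩)
      (by linarith [W.w2]) t ⟨by linarith [W.w1], by linarith⟩
  · rw [← ey] at zy
    unfold L63.uq uu
    linarith [A.zh_le_8 yJ, main.1]

end Crest.Agent.T156.Alt.L63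

end
end

-- ▼ part T156/TLqX_34
section

/-!
# Row 156, block (L), TLq (helper34): the closing against one budget
-/

set_option autoImplicit false

noncomputable section

namespace Crest.Agent.T156.Alt.Mp9.Q34

open MeasureTheory Set Real
open Crest.Agent.R164.GC Crest.Agent.R339.B Crest.Agent.R339.Var Crest.Agent.T157.Pf
open Crest.Agent.T156.Pp.Area50 Crest.Agent.T156.Spl27 Crest.Agent.T156.Zb9

variable {S : Sc} {M : Md} {m : ℕ} {a T : ℝ}

namespace Cq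
variable {Sb : Finset ℝ} {gp : ℝ → ℝ → Prop} {c0 : ℝ} {V kA w : ℕ}
  {a0 a1 b0 b1 p0 d D err C1 δ L r F Γ Gm a' R p g er γ P : ℝ}
  (h : Cq S M m a T Sb gp c0 V kA w a0 a1 b0 b1 p0 d D err C1 δ L r F Γ Gm a' R p g er γ P)
include h

/-- crude size of `u` at the upper end -/
theorem u_end : |uu M S m a T (sb M m a (V + 1))| ≤
    a' + S.C * (Gm + |sb M m a (w + 1) - M.s S.J| + S.v) := by
  obtain ⟨-, G0, -, a0', -, -⟩ := h.nn
  have A := h.at'
  have i0 := A.cl.i1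
  have i1 := h.VJ
  have i2 := h.k3
  have i3 := h.kw
  have i4 := h.wJ
  have i5 := h.jV
  have C0 := A.c_pos
  have v0 := v_pos A.cl
  have y0 : M.s S.j0 ≤ sb M m a (V + 1) := by linarith [h.aj, h.len, h.r0]
  have hu : uu M S m a T (sb M m a (V + 1)) = M.z V - lvr 1 (lh M T) (sb M m a (V + 1)) := by
    unfold uu; rw [A.lvb_node i5.le (by omega)]
  obtain ⟨k1, -, c2, -, c4, c5⟩ := cell_h A y0 h.yJ
  have n0 : 0 ≤ S.C * (Gm + |sb M m a (w + 1) - M.s S.J| + S.v) := by positivity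
  rw [hu]
  refine abs_le.2 ⟨by linarith [h.ha, A.cl.leg.zm (show k1 ≤ kA - 1 by omega)], ?_⟩
  rcases le_or_gt V k1 with c | c
  · linarith [A.cl.leg.zm c]
  · have sV : M.s V < M.s S.J := (s_lt A.cl i1).trans_le (A.cl.sm i1)
    have yV : sb M m a (V + 1) ≤ M.s V := c4.le.trans (A.cl.sm c)
    have y1 := (s_nn A.cl _).trans y0
    have l := (A.cl.lip _ _ y1 yV sV).2
    rw [← A.lvh' y1, ← A.lvh' (s_nn A.cl V), A.lvh_node (by omega) i1] at l
    have q := mul_le_mul_of_nonneg_left (show M.s V - sb M m a (V + 1) + S.v ≤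
      Gm + |sb M m a (w + 1) - M.s S.J| + S.v by
        linarith [h.hG, neg_abs_le (sb M m a (w + 1) - M.s S.J)]) C0.le
    linarith

/-- the sums from the crude size -/
theorem crude (hs : a' + Gm + F ≤ r) {Q : Finset ℕ}
    (hQ : ∀ k ∈ Q, S.jl < k ∧ k ≤ S.Jp ∧ a1 + r ≤ M.s k ∧ a1 + r ≤ sb M m a (k + 1)) :
    ∑ k ∈ Q, (M.z k - M.z (k - 1)) * (sb M m a (k + 1) - M.s k) ^ 2 ≤
      L ^ 24 * ((sb M m a (V + 1) - (a1 + r)) * F ^ 2 + R ^ 2 + |sb M m a (w + 1) - M.s S.J| ^ 2 +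
        γ ^ 2 + r * r ^ 2 + (a' + Gm + γ + F + |sb M m a (w + 1) - M.s S.J| + r) ^ 3) := by
  obtain ⟨F0, G0, γ0, a0', P0, -⟩ := h.nn
  have A := h.at'
  have L1 := h.L1
  have r0 := h.r0
  have L0 : 0 < L := by linarith
  have C0 := A.c_pos
  have v0 := v_pos A.cl
  have i1 := h.VJ
  have i2 := h.k3
  have i3 := h.kw
  have i4 := h.wJ
  obtain ⟨x, x0, hx⟩ : ∃ x, 0 ≤ x ∧ |WW M S m a T c0 (sb M m a (V + 1))| = x * r ^ 2 :=
    ⟨_ / r ^ 2, div_nonneg (abs_nonneg _) (sq_nonneg r), by field_simp⟩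
  obtain ⟨H1, H2, -⟩ := h.dec x0 hx
  have xy : a1 + r ≤ sb M m a (V + 1) := by linarith [h.len]
  have xj : M.s S.j0 ≤ a1 + r := by linarith [h.aj]
  have M1 : sb M m a kA ≤ sb M m a (w + 1) := A.sb_mono (by omega)
  obtain ⟨-, I2⟩ := Rig.Q34.ints A.LB_uu (κ := 1 / (L * r)) (a' := a1) (by positivity)
    ((s_nn A.cl _).trans xj) (by linarith) xy (A.sb_mem (show V ≤ S.Jp by omega)).2 (by positivity) H1
  rw [show 2 / (1 / (L * r)) = 2 * (L * r) by field_simp] at I2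
  have r1 : r ≤ 1 := by
    have := pw L1 (show 0 < 10 by norm_num) (show 0 ≤ r + F + a' by positivity)
    linarith [h.s2]
  have ue := h.u_end
  have Dm0 := abs_nonneg (sb M m a (w + 1) - M.s S.J)
  have hw : x ≤ L ^ 5 * (|sb M m a (w + 1) - M.s S.J| + r) := by
    obtain ⟨s, s', hg, h1, h2, h3, h4⟩ := h.tk.cov (sb M m a (V + 1))
      ⟨by linarith [h.a01], le_rfl⟩
    obtain ⟨μ, m1, m2, m3⟩ := h.tk.eR s s' hg h1 (h2.trans h3) h4
    rw [le_antisymm h4 h3] at m3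
    have μ0 : 0 ≤ μ := h.tk.d0.le.trans m1
    have e1 : |WW M S m a T c0 (sb M m a (V + 1))| ≤ err + μ * |uu M S m a T (sb M m a (V + 1))| := by
      have := abs_add_le (WW M S m a T c0 (sb M m a (V + 1)) - μ * uu M S m a T (sb M m a (V + 1)))
        (μ * uu M S m a T (sb M m a (V + 1)))
      rw [sub_add_cancel, abs_mul, abs_of_nonneg μ0] at this
      linarith
    have e2 : S.C * (Gm + |sb M m a (w + 1) - M.s S.J| + S.v) ≤
        L * (|sb M m a (w + 1) - M.s S.J| + r) :=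
      mul_le_mul h.hC (by linarith [h.vF]) (by positivity) L0.le
    have e3 := mul_le_mul (m2.trans h.hD) (ue.trans (show _ ≤ r + L * (|sb M m a (w + 1) - M.s S.J| + r)
      by linarith)) (abs_nonneg _) (by positivity)
    have e4 := mul_le_mul_of_nonneg_right (show F ≤ r by linarith) (sq_nonneg r)
    refine le_of_mul_le_mul_right ?_ (show 0 < r ^ 2 by positivity)
    generalize |sb M m a (w + 1) - M.s S.J| = X at *
    have n1 : 0 ≤ X * r ^ 2 := by positivity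
    have n2 : 0 ≤ r * r ^ 2 := by positivity
    have e5 := pw L1 (show 2 < 5 by norm_num) n1
    have e6 := pw L1 (show 2 < 5 by norm_num) n2
    have e7 := pw L1 (show 1 < 5 by norm_num) n2
    have e8 := pw L1 (show 0 < 5 by norm_num) n2
    have n3 : 0 ≤ L ^ 5 * (X * r ^ 2) := by positivity
    have n4 : 0 ≤ L ^ 5 * (r * r ^ 2) := by positivity
    linarith only [hx, e1, e3, e4, h.eF, e5, e6, e7, e8, n3, n4]
  exact (top_sum A h.jV i1 i2 (by omega) xj xy h.yJ h.hγ M1 h.hG h.sp h.ha le_rfl H2 I2 hQ).trans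
    (num3 L1 r0 x0 Dm0 r0.le γ0 F0 G0 a0' C0.le v0.le h.hC h.vF (by linarith [h.len]) r1 hw rfl rfl)

end Cq

theorem num4 {r A0 γ F Gm a' R P ω s Tg len : ℝ} (r0 : 0 < r) (r1 : r ≤ 1) (γ0 : 0 ≤ γ)
    (F0 : 0 ≤ F) (G0 : 0 ≤ Gm) (a0 : 0 ≤ a') (P0 : 0 ≤ P) (A00 : 0 ≤ A0) (h1 : A0 ≤ r ^ 2 * ω)
    (h2 : ω ≤ r) (h3 : a' + Gm + γ + F + P ≤ s) (h4 : s ≤ r) (h5 : R ^ 2 ≤ r ^ 3)
    (h6 : γ ^ 2 ≤ r ^ 3) (hl : r ≤ len) (t2 : len * F ^ 2 ≤ Tg) (t3 : R ^ 2 ≤ Tg) (t4 : γ ^ 2 ≤ Tg)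
    (t5 : r * ω ^ 2 ≤ Tg) (t6 : s ^ 3 ≤ Tg) {B : ℝ}
    (hB : B = A0 + r ^ 2 * γ + γ ^ 2 + F * r * Gm + a' * Gm ^ 2 + R ^ 2 + Gm ^ 3 + Gm ^ 2 * P) :
    B ≤ 6 * r ^ 3 ∧ B ^ 2 ≤ 36 * (r ^ 3 * Tg) := by
  have s0 : 0 ≤ s := by linarith
  have r2 : 0 < r ^ 2 := by positivity
  have r3 : 0 < r ^ 3 := by positivity
  have ω0 : 0 ≤ ω := le_of_mul_le_mul_left (by linarith) r2
  have s3 : s ^ 3 ≤ r ^ 3 := pow_le_pow_left₀ s0 h4 3
  have c1 : a' * Gm ^ 2 + Gm ^ 3 + Gm ^ 2 * P ≤ s ^ 3 := by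
    have := mul_le_mul (pow_le_pow_left₀ G0 (show Gm ≤ s by linarith) 2)
      (show a' + Gm + P ≤ s by linarith) (by positivity) (sq_nonneg s)
    linarith
  have c2 : F * r * Gm ≤ r ^ 2 * F := by
    linarith [mul_le_mul_of_nonneg_left (show Gm ≤ r by linarith) (mul_nonneg F0 r0.le)]
  have B1 : B ≤ r ^ 2 * ω + r ^ 2 * γ + γ ^ 2 + r ^ 2 * F + R ^ 2 + s ^ 3 := by linarith
  have B0 : 0 ≤ B := by rw [hB]; positivity
  constructor
  · linarith [mul_le_mul_of_nonneg_left h2 r2.le, mul_le_mul_of_nonneg_left (show γ ≤ r by linarith) r2.le,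
      mul_le_mul_of_nonneg_left (show F ≤ r by linarith) r2.le]
  have d1 : (r ^ 2 * ω) ^ 2 ≤ r ^ 3 * Tg := by linarith [mul_le_mul_of_nonneg_left t5 r3.le]
  have d2 : (r ^ 2 * γ) ^ 2 ≤ r ^ 3 * Tg := by
    linarith [mul_le_mul_of_nonneg_left t4 r3.le,
      mul_le_mul_of_nonneg_left r1 (show 0 ≤ r ^ 3 * γ ^ 2 by positivity)]
  have d3 : (γ ^ 2) ^ 2 ≤ r ^ 3 * Tg := by
    rw [sq (γ ^ 2)]; exact mul_le_mul h6 t4 (sq_nonneg _) r3.le
  have d4 : (r ^ 2 * F) ^ 2 ≤ r ^ 3 * Tg := by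
    linarith [mul_le_mul_of_nonneg_left t2 r3.le,
      mul_le_mul_of_nonneg_left hl (show 0 ≤ r ^ 3 * F ^ 2 by positivity)]
  have d5 : (R ^ 2) ^ 2 ≤ r ^ 3 * Tg := by
    rw [sq (R ^ 2)]; exact mul_le_mul h5 t3 (sq_nonneg _) r3.le
  have d6 : (s ^ 3) ^ 2 ≤ r ^ 3 * Tg := by
    rw [sq (s ^ 3)]; exact mul_le_mul s3 t6 (by positivity) r3.le
  refine (pow_le_pow_left₀ B0 B1 2).trans ?_
  generalize r ^ 2 * ω = x1 at *
  generalize r ^ 2 * γ = x2 at *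
  generalize γ ^ 2 = x3 at *
  generalize r ^ 2 * F = x4 at *
  generalize R ^ 2 = x5 at *
  generalize s ^ 3 = x6 at *
  linarith only [d1, d2, d3, d4, d5, d6, sq_nonneg (x1 - x2), sq_nonneg (x1 - x3), sq_nonneg (x1 - x4),
    sq_nonneg (x1 - x5), sq_nonneg (x1 - x6), sq_nonneg (x2 - x3), sq_nonneg (x2 - x4),
    sq_nonneg (x2 - x5), sq_nonneg (x2 - x6), sq_nonneg (x3 - x4), sq_nonneg (x3 - x5),
    sq_nonneg (x3 - x6), sq_nonneg (x4 - x5), sq_nonneg (x4 - x6), sq_nonneg (x5 - x6)]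

theorem num5 {L r B γ F Gm a' R p s Tg len X : ℝ} (hL : 100 ≤ L) (r0 : 0 < r) (r1 : r ≤ 1)
    (F0 : 0 ≤ F) (G0 : 0 ≤ Gm) (a0 : 0 ≤ a') (X0 : 0 ≤ X) (h3 : a' + Gm + F ≤ s)
    (h4 : s ≤ r) (l0 : 0 ≤ len) (l1 : len ≤ L) (t1 : p ^ 2 ≤ Tg) (t2 : len * F ^ 2 ≤ Tg)
    (t3 : R ^ 2 ≤ Tg) (t4 : γ ^ 2 ≤ Tg) (t6 : s ^ 3 ≤ Tg) (hB : B ^ 2 ≤ 36 * (r ^ 3 * Tg))
    (h : X ≤ L ^ 9 * (p + len * F + a' * Gm + R + γ + Gm * F + B / r)) : X ^ 2 ≤ L ^ 21 * Tg := by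
  have T0 : 0 ≤ Tg := (sq_nonneg p).trans t1
  have s0 : 0 ≤ s := by linarith
  have s4 : (s ^ 2) ^ 2 ≤ Tg := by
    linarith [mul_le_mul_of_nonneg_left (h4.trans r1) (pow_nonneg s0 3)]
  have d1 : (len * F) ^ 2 ≤ L * Tg := by
    rw [show (len * F) ^ 2 = len * (len * F ^ 2) by ring]
    exact mul_le_mul l1 t2 (by positivity) (by linarith)
  have d2 : (a' * Gm + Gm * F) ^ 2 ≤ Tg := (pow_le_pow_left₀ (by positivity) (by
    linarith [mul_le_mul (show Gm ≤ s by linarith) (show a' + F ≤ s by linarith) (by positivity) s0])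
      2).trans s4
  have d3 : (B / r) ^ 2 ≤ 36 * Tg := by
    rw [div_pow, div_le_iff₀ (by positivity)]
    linarith [mul_le_mul_of_nonneg_left r1 (show 0 ≤ r ^ 2 * Tg by positivity)]
  have e : (p + len * F + a' * Gm + R + γ + Gm * F + B / r) ^ 2 ≤ L ^ 3 * Tg := by
    rw [show p + len * F + a' * Gm + R + γ + Gm * F + B / r =
      p + len * F + (a' * Gm + Gm * F) + R + γ + B / r by ring]
    have e1 := pw hL (show 1 < 3 by norm_num) T0
    have e2 := pw hL (show 0 < 1 by norm_num) T0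
    generalize len * F = x2 at *
    generalize a' * Gm + Gm * F = x3 at *
    generalize B / r = x6 at *
    linarith only [t1, d1, d2, t3, t4, d3, e1, e2, T0, sq_nonneg (p - x2), sq_nonneg (p - x3),
      sq_nonneg (p - R), sq_nonneg (p - γ), sq_nonneg (p - x6), sq_nonneg (x2 - x3), sq_nonneg (x2 - R),
      sq_nonneg (x2 - γ), sq_nonneg (x2 - x6), sq_nonneg (x3 - R), sq_nonneg (x3 - γ),
      sq_nonneg (x3 - x6), sq_nonneg (R - γ), sq_nonneg (R - x6), sq_nonneg (γ - x6)]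
  refine (pow_le_pow_left₀ X0 h 2).trans ?_
  rw [mul_pow]
  linarith [mul_le_mul_of_nonneg_left e (show 0 ≤ (L ^ 9) ^ 2 by positivity)]

/-- **closing of TLq against one budget** -/
theorem fin (T0 : ℝ) : ∃ K : ℝ, 1 ≤ K ∧ ∀ {S : Sc} {M : Md} {m : ℕ} {a T : ℝ} {Sb : Finset ℝ}
    {gp : ℝ → ℝ → Prop} {c0 : ℝ} {V kA w : ℕ}
    {a0 a1 b0 b1 p0 d D err C1 δ L r F Γ Gm a' R p g er γ P : ℝ},
    Cq S M m a T Sb gp c0 V kA w a0 a1 b0 b1 p0 d D err C1 δ L r F Γ Gm a' R p g er γ P →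
    T ≤ T0 → K ≤ L → ∀ ω s Tg : ℝ, g + er + 1 / ((m : ℝ) + 1) ≤ r ^ 2 * ω → ω ≤ r →
    a' + Gm + γ + F + P ≤ s → s ≤ r → R ^ 2 ≤ r ^ 3 → γ ^ 2 ≤ r ^ 3 → p ^ 2 ≤ Tg →
    (sb M m a (V + 1) - (a1 + r)) * F ^ 2 ≤ Tg → R ^ 2 ≤ Tg → γ ^ 2 ≤ Tg → r * ω ^ 2 ≤ Tg →
    s ^ 3 ≤ Tg → (sb M m a (w + 1) - M.s S.J) ^ 2 ≤ L ^ 24 * Tg ∧
      ∀ Q : Finset ℕ, (∀ k ∈ Q, S.jl < k ∧ k ≤ S.Jp ∧ a1 + r ≤ M.s k ∧ a1 + r ≤ sb M m a (k + 1)) →
        ∑ k ∈ Q, (M.z k - M.z (k - 1)) * (sb M m a (k + 1) - M.s k) ^ 2 ≤ L ^ 50 * Tg := by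
  obtain ⟨K, K1, HK⟩ := close T0
  refine ⟨K, K1, fun {S M m a T Sb gp c0 V kA w a0 a1 b0 b1 p0 d D err C1 δ L r F Γ Gm a' R p g er γ P}
    h hT hK ω s Tg h1 h2 h3 h4 h5 h6 t1 t2 t3 t4 t5 t6 => ?_⟩
  obtain ⟨H1, H2⟩ := HK h hT hK
  obtain ⟨F0, G0, γ0, a0', P0, -⟩ := h.nn
  have A := h.at'
  have L1 := h.L1
  have r0 := h.r0
  have L0 : 0 < L := by linarith
  have T0' : 0 ≤ Tg := (sq_nonneg p).trans t1
  have s0 : 0 ≤ s := by linarith
  have r1 : r ≤ 1 := by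
    have := pw L1 (show 0 < 10 by norm_num) (show 0 ≤ r + F + a' by positivity)
    linarith [h.s2]
  have rl : r ≤ sb M m a (V + 1) - (a1 + r) := by linarith [h.len]
  have g0 := (abs_nonneg _).trans h.hg
  have e0 := (abs_nonneg _).trans h.he
  obtain ⟨B1, B2⟩ := num4 (B := Aq m r F Gm a' R g er γ P) r0 r1 γ0 F0 G0 a0' P0 (by positivity) h1 h2
    h3 h4 h5 h6 rl t2 t3 t4 t5 t6 rfl
  have B0 : 0 ≤ Aq m r F Gm a' R g er γ P := by unfold Aq; positivity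
  have X0 := abs_nonneg (sb M m a (w + 1) - M.s S.J)
  have X2 := num5 L1 r0 r1 F0 G0 a0' X0 (show a' + Gm + F ≤ s by linarith) h4 (by linarith) (by
    linarith [h.yJ, A.cl.sm A.cl.i3, A.cl.sT, h.hC, h.aj, s_nn A.cl S.j0]) t1 t2 t3 t4 t6 B2 H1
  have Xr : |sb M m a (w + 1) - M.s S.J| ≤ r := by
    have := pw L1 (show 0 < 10 by norm_num)
      (show 0 ≤ Gm + |sb M m a (w + 1) - M.s S.J| + Γ by have := h.Γ0; positivity)
    linarith [h.s1, h.Γ0]
  have w1 := pw L1 (show 21 < 24 by norm_num) T0'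
  have w0 : 0 ≤ L ^ 21 * Tg := by positivity
  refine ⟨by rw [← sq_abs]; linarith, fun Q hQ => ?_⟩
  have C1 := h.crude (by linarith) hQ
  have C2 := (H2 _ le_rfl).2 Q hQ
  have w2 := pw L1 (show 0 < 21 by norm_num) T0'
  have w3 := pw L1 (show 21 < 22 by norm_num) T0'
  have w4 := pw L1 (show 22 < 23 by norm_num) T0'
  have w5 := pw L1 (show 23 < 26 by norm_num) T0'
  rw [show L ^ 50 * Tg = L ^ 24 * (L ^ 26 * Tg) by ring]
  generalize |sb M m a (w + 1) - M.s S.J| = X at *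
  generalize Aq m r F Gm a' R g er γ P = B at *
  rcases le_total (X ^ 2) (r ^ 3) with c | c
  · refine C2.trans (mul_le_mul_of_nonneg_left ?_ (by positivity))
    have Y0 : 0 ≤ (B + X ^ 2) / r ^ 2 := by positivity
    have Y1 : (B + X ^ 2) / r ^ 2 ≤ 7 * r := by
      rw [div_le_iff₀ (by positivity)]; linarith
    have Y2 : r * ((B + X ^ 2) / r ^ 2) ^ 2 ≤ 72 * Tg + 2 * X ^ 2 := by
      rw [show r * ((B + X ^ 2) / r ^ 2) ^ 2 = (B + X ^ 2) ^ 2 / r ^ 3 by field_simp,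
        div_le_iff₀ (by positivity)]
      linarith [mul_le_mul_of_nonneg_left c (sq_nonneg X), sq_nonneg (B - X ^ 2)]
    generalize (B + X ^ 2) / r ^ 2 = Y at *
    have Y3 : Y ^ 3 ≤ 7 * (r * Y ^ 2) := by linarith [mul_le_mul_of_nonneg_left Y1 (sq_nonneg Y)]
    have X3 : X ^ 3 ≤ X ^ 2 := by linarith [mul_le_mul_of_nonneg_left (Xr.trans r1) (sq_nonneg X)]
    have Z : (a' + Gm + γ + F + X + Y) ^ 3 ≤ 9 * (s ^ 3 + X ^ 3 + Y ^ 3) :=
      (pow_le_pow_left₀ (by positivity) (show _ ≤ s + X + Y by linarith) 3).trans (by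
        have q : ∀ u v : ℝ, 0 ≤ u → 0 ≤ v → 0 ≤ (u + v) * (u - v) ^ 2 := fun u v a b => by positivity
        nlinarith only [q s X s0 X0, q s Y s0 Y0, q X Y X0 Y0, mul_nonneg s0 (sq_nonneg (X - Y)),
          mul_nonneg X0 (sq_nonneg (s - Y)), mul_nonneg Y0 (sq_nonneg (s - X))])
    linarith only [t2, t3, t4, t6, X2, Y2, Y3, X3, Z, w0, w2, w3, w4, w5, T0']
  · refine C1.trans (mul_le_mul_of_nonneg_left ?_ (by positivity))
    have Z : (a' + Gm + γ + F + X + r) ^ 3 ≤ (3 * r) ^ 3 :=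
      pow_le_pow_left₀ (by positivity) (by linarith) 3
    linarith only [t2, t3, t4, c, X2, Z, w0, w2, w3, w4, w5, T0']

end Crest.Agent.T156.Alt.Mp9.Q34
end
end

-- ▼ part T156/TLqZ_34
section

/-!
# Row 156, block (L), TLq (helper34): the closing in the letters of the statement
-/

set_option autoImplicit false

noncomputable section

namespace Crest.Agent.T156.Alt.Mp9.Q34

open MeasureTheory Set Real

/-- **closing of TLq in the letters of the statement** -/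
theorem finQ (T0 : ℝ) : ∃ K : ℝ, 1 ≤ K ∧ ∀ {S : Sc} {M : Md} {m : ℕ} {a T : ℝ} {Sb : Finset ℝ}
    {gp : ℝ → ℝ → Prop} {c0 : ℝ} {V kA w : ℕ}
    {a0 a1 b0 b1 p0 d D err C1 δ L r F Γ Gm a' R p g er γ P : ℝ},
    Cq S M m a T Sb gp c0 V kA w a0 a1 b0 b1 p0 d D err C1 δ L r F Γ Gm a' R p g er γ P →
    T ≤ T0 → K ≤ L → ∀ Q aa φ ρ R2 n2 ℓ : ℝ, 1 ≤ Q → 0 ≤ aa → 0 ≤ φ → 0 ≤ ρ → 0 ≤ n2 → ρ ^ 2 ≤ R2 →
    a' ≤ Q * (aa + φ + ρ) → Gm ≤ Q * (aa + φ + ρ) → γ ≤ Q * (aa + φ + ρ) → P ≤ Q * (aa + φ + ρ) →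
    F ≤ Q * (φ + ρ) → g + er + 1 / ((m : ℝ) + 1) ≤ Q * r ^ 2 * (φ + ρ) → R ^ 2 ≤ Q * (R2 + n2) →
    γ ^ 2 ≤ R2 → sb M m a (V + 1) - (a1 + r) ≤ ℓ → 5 * Q * (aa + φ + ρ) ≤ r →
    Q * (R2 + n2) ≤ r ^ 3 →
    ∀ U : Finset ℕ, (∀ k ∈ U, S.jl < k ∧ k ≤ S.Jp ∧ a1 + r ≤ M.s k ∧ a1 + r ≤ sb M m a (k + 1)) →
      ∑ k ∈ U, (M.z k - M.z (k - 1)) * (sb M m a (k + 1) - M.s k) ^ 2 ≤
        L ^ 53 * Q ^ 3 * (p ^ 2 + ℓ * φ ^ 2 + aa ^ 3 + R2 + n2) := by
  obtain ⟨K, K1, HK⟩ := fin T0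
  refine ⟨K, K1, fun {S M m a T Sb gp c0 V kA w a0 a1 b0 b1 p0 d D err C1 δ L r F Γ Gm a' R p g er γ P}
    h hT hK Q aa φ ρ R2 n2 ℓ Q1 a0' φ0 ρ0 n0 hρ h1 h2 h3 h4 h5 h6 h7 h8 h9 s1 s2 U hU => ?_⟩
  obtain ⟨F0, G0, γ0, a0'', P0, -⟩ := h.nn
  have A := h.at'
  have L1 := h.L1
  have r0 := h.r0
  have L0 : 0 ≤ L := by linarith
  have Q0 : 0 ≤ Q := by linarith
  have R0 : 0 ≤ R2 := (sq_nonneg ρ).trans hρ
  have r1 : r ≤ 1 := by
    have := pw L1 (show 0 < 10 by norm_num) (show 0 ≤ r + F + a' by positivity)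
    linarith [h.s2]
  have rl : r ≤ sb M m a (V + 1) - (a1 + r) := by linarith [h.len]
  have lL : sb M m a (V + 1) - (a1 + r) ≤ L := by
    linarith [h.yJ, A.cl.sm A.cl.i3, A.cl.sT, h.hC, h.aj, s_nn A.cl S.j0]
  have ℓ0 : 0 ≤ ℓ := by linarith
  have Qa := mul_nonneg Q0 a0'
  have Qs : aa + φ + ρ ≤ Q * (aa + φ + ρ) := le_mul_of_one_le_left (by positivity) Q1
  have φr : φ ≤ ℓ := by linarith
  have ρr : ρ ≤ 1 := by linarith
  have RR : R2 + n2 ≤ Q * (R2 + n2) := le_mul_of_one_le_left (by positivity) Q1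
  obtain ⟨B, hB⟩ : ∃ B, B = p ^ 2 + ℓ * φ ^ 2 + aa ^ 3 + R2 + n2 := ⟨_, rfl⟩
  have m1 : 0 ≤ ℓ * φ ^ 2 := by positivity
  have m2 : 0 ≤ aa ^ 3 := by positivity
  have m3 := sq_nonneg p
  have B0 : 0 ≤ B := by linarith
  have Q2 : Q ^ 2 ≤ Q ^ 3 := pow_le_pow_right₀ Q1 (by norm_num)
  have Q3 : Q ≤ Q ^ 3 := le_self_pow₀ Q1 (by norm_num)
  have Q4 : 1 ≤ Q ^ 3 := Q1.trans Q3
  have c0' : B ≤ Q ^ 3 * B := le_mul_of_one_le_left B0 Q4
  have n1 : 0 ≤ Q ^ 3 * B := by positivity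
  have c1 := pw L1 (show 0 < 1 by norm_num) n1
  have c2 := pw L1 (show 1 < 2 by norm_num) n1
  have c3 := pw L1 (show 2 < 3 by norm_num) n1
  have sq2 : (φ + ρ) ^ 2 ≤ 2 * φ ^ 2 + 2 * R2 := by linarith [sq_nonneg (φ - ρ)]
  have key : ∀ x, 0 ≤ x → x ≤ ℓ → x ≤ L → x * (Q * (φ + ρ)) ^ 2 ≤ L ^ 3 * (Q ^ 3 * B) :=
    fun x x0 x1 x2 => by
      have e1 : x * (φ + ρ) ^ 2 ≤ 4 * (L * B) := by
        linarith [mul_le_mul_of_nonneg_left sq2 x0, mul_le_mul_of_nonneg_right x1 (sq_nonneg φ),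
          mul_le_mul x2 (show R2 ≤ B by linarith) R0 L0,
          mul_le_mul_of_nonneg_right (show 1 ≤ L by linarith) B0]
      have e2 := mul_le_mul Q2 e1 (by positivity) (by positivity)
      linarith
  rw [← hB, show L ^ 53 * Q ^ 3 * B = L ^ 50 * (L ^ 3 * (Q ^ 3 * B)) by ring]
  refine (HK h hT hK (Q * (φ + ρ)) (5 * Q * (aa + φ + ρ)) _ (by linarith) (by linarith) (by linarith) s1
    (h7.trans s2) (by linarith) (by linarith) ((mul_le_mul_of_nonneg_left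
      (pow_le_pow_left₀ F0 h5 2) (by linarith)).trans (key _ (by linarith) h9 lL)) ?_ (by linarith)
    (key r r0.le (by linarith) (by linarith)) ?_).2 U hU
  · linarith [mul_le_mul Q3 (show R2 + n2 ≤ B by linarith) (by positivity) (by positivity)]
  · have q : ∀ u v : ℝ, 0 ≤ u → 0 ≤ v → 0 ≤ (u + v) * (u - v) ^ 2 := fun u v a b => by positivity
    have e1 : (aa + φ + ρ) ^ 3 ≤ 9 * (aa ^ 3 + φ ^ 3 + ρ ^ 3) := by
      nlinarith only [q aa φ a0' φ0, q aa ρ a0' ρ0, q φ ρ φ0 ρ0, mul_nonneg a0' (sq_nonneg (φ - ρ)),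
        mul_nonneg φ0 (sq_nonneg (aa - ρ)), mul_nonneg ρ0 (sq_nonneg (aa - φ))]
    have e2 : (aa + φ + ρ) ^ 3 ≤ 9 * B := by
      linarith [mul_le_mul_of_nonneg_right φr (sq_nonneg φ),
        mul_le_mul_of_nonneg_right ρr (sq_nonneg ρ)]
    linarith [mul_le_mul_of_nonneg_left e2 (show 0 ≤ Q ^ 3 by positivity)]

end Crest.Agent.T156.Alt.Mp9.Q34
end
end

-- ▼ part T156/TLqU_73
section

/-!
# Row 156, block (L): the last window, the part below the closing and the final energy (helper73)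
-/

set_option autoImplicit false

noncomputable section

namespace Crest.Agent.T156.Alt.Mp9

open MeasureTheory Set Real
open Crest.Agent.T156.Pp.Area50 Crest.Agent.T156.Spl27 Crest.Agent.T156.Zb9
open Crest.Agent.T156.Alt.L69 Crest.Agent.T157.Pf

/-- **the thick pass** with the narrower margin (the proof of `Nw.main`) -/
theorem Nw.main73 (T0 : ℝ) : ∃ K : ℝ, 1 ≤ K ∧ ∀ {S : Sc} {M : Md} {m : ℕ} {a T : ℝ} {Gn : ℕ → Prop}
    {u v : ℕ} {a' b' δ θ e o lam g : ℝ} {c : ℕ → ℝ}, Nw S M m a T Gn u v a' b' δ θ e o lam g c →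
    T ≤ T0 → ∀ {P r N Γ j F : ℝ}, Nk K T0 S m a' b' δ θ e o lam g P r N Γ j F →
    (∀ i k, Nx Gn u v i k → sb M m a (k + 1) - sb M m a (i + 1) ≤ Γ) →
    (∀ t ∈ Icc (sb M m a (u + 1)) (sb M m a (v + 1)), Rig.Hp (lh M T) (lb M S m a T) t ≤ j) →
    sb M m a (v + 1) - sb M m a (u + 1) ≤ 14 * N * P * r →
    ∀ t ∈ Icc (sb M m a (u + 1) + 3 * (N * P * r)) (sb M m a (v + 1) - 3 * (N * P * r)),
      |uu M S m a T t| ≤ P ^ 12 * F := by
  obtain ⟨K, K1, H⟩ := Nw.stage T0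
  refine ⟨K, K1, fun {S M m a T Gn u v a' b' δ θ e o lam g c} W hT {P r N Γ j F} h hΓ hp hW t ht => ?_⟩
  have A := W.at'
  have C1 := A.cl.C1
  have C0 := A.c_pos
  have v0 := v_pos A.cl
  have P1 := h.P1
  have P0 : 0 < P := by linarith
  have P1' : 1 ≤ P := by linarith
  have r0 := h.r0
  have r2 : 0 < r ^ 2 := by positivity
  have Γ0 := h.Γ0
  have N1 := h.N1
  have o0 := W.o0
  have l0 := W.lam0
  have F0 : 0 ≤ F := v0.le.trans h.vF
  have uv := A.sb_mono (Nat.succ_le_succ W.uv)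
  have j0 : 0 ≤ j := (Hp_nn A _).trans (hp _ ⟨le_rfl, uv⟩)
  have Γr : Γ ≤ r := (le_mul_of_one_le_left Γ0 (one_le_pow₀ P1')).trans h.Γr
  have nr : 100 * r ≤ N * P * r :=
    mul_le_mul_of_nonneg_right (P1.trans (le_mul_of_one_le_left P0.le N1)) r0.le
  have pw : ∀ i k : ℕ, i ≤ k → ∀ x : ℝ, 0 ≤ x → P ^ i * x ≤ P ^ k * x := fun i k hk x hx =>
    mul_le_mul_of_nonneg_right (pow_le_pow_right₀ P1' hk) hx
  have pk : ∀ i k : ℕ, i + 1 = k → ∀ x : ℝ, 0 ≤ x → 100 * (P ^ i * x) ≤ P ^ k * x := by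
    rintro i _ rfl x hx
    rw [pow_succ', mul_assoc]; exact mul_le_mul_of_nonneg_right P1 (by positivity)
  obtain ⟨x1, x2, c0, x3⟩ := H W hT h hΓ hp hW
  rcases le_total r (P ^ 10 * F) with hc | hc
  · have ΓF : Γ ≤ F := le_of_mul_le_mul_left (h.Γr.trans hc) (by positivity)
    refine (x1 t ⟨by linarith [ht.1], by linarith [ht.2]⟩).trans ?_
    have a1 := mul_le_mul_of_nonneg_left ΓF (by positivity : 0 ≤ P ^ 7)
    have a2 := pk 7 8 rfl F F0
    have a3 := pw 8 12 (by norm_num) F F0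
    have a4 : 0 ≤ P ^ 7 * F := by positivity
    linarith only [a1, a2, a3, a4]
  -- the gaps of the inner window are short
  have z1 : P ^ 10 * (F + Γ) ≤ 2 * r := by linarith [h.Γr]
  have FΓ : 0 ≤ F + Γ := by positivity
  have u1 : 7 * P ^ 3 * (P ^ 4 * (F + Γ)) ≤ r := by
    linarith only [z1, pk 7 8 rfl _ FΓ, pw 8 10 (by norm_num) _ FΓ, r0]
  have C3 : S.C ≤ S.C ^ 3 := le_self_pow₀ C1 (by norm_num)
  have C2 : S.C ^ 2 ≤ S.C ^ 3 := pow_le_pow_right₀ C1 (by norm_num)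
  have PC := h.PC
  have bb := A.ms_pos (W.a0.le.trans ((W.mb le_rfl W.uv).1.trans (W.mb le_rfl W.uv).2))
  have D1 : S.C ^ 2 * S.ms b' ≤ P * r ^ 2 := by
    linarith [mul_le_mul_of_nonneg_left h.rb (sq_nonneg S.C),
      mul_le_mul_of_nonneg_right (show 16 * S.C ^ 2 ≤ P by linarith) r2.le]
  have l2 : P ^ 3 * (lam * Γ ^ 2) ≤ r ^ 2 := by
    have : P ^ 3 * (lam * Γ) ≤ r :=
      (mul_le_mul_of_nonneg_left (le_mul_of_one_le_left (by positivity) N1) (by positivity)).trans h.l1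
    have := mul_le_mul this Γr Γ0 r0.le
    linarith
  have lg : 0 ≤ lam * Γ ^ 2 := by positivity
  have θ0 := W.θ0
  have θ1 : θ ≤ 1 := (le_mul_of_one_le_left θ0 (one_le_pow₀ P1')).trans h.θ1
  have CP : S.C ≤ P := by linarith
  have mu : r ^ 2 / P ≤
      S.ms a' / S.C - S.C ^ 2 * S.ms b' * θ - S.C * (o + (o + lam * Γ ^ 2) * θ) := by
    have a1 : 2 * (r ^ 2 / P) ≤ S.ms a' / S.C := by
      rw [← h.r2, ← mul_div_assoc, div_le_div_iff₀ P0 C0]
      linarith [mul_le_mul_of_nonneg_left (show 2 * S.C ≤ P by linarith) r2.le]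
    have a2 : S.C ^ 2 * S.ms b' * θ + S.C * (o + (o + lam * Γ ^ 2) * θ) ≤ r ^ 2 / P := by
      rw [le_div_iff₀ P0]
      refine le_of_mul_le_mul_left ?_ P0
      have b1 := mul_le_mul_of_nonneg_right D1 (by positivity : 0 ≤ θ * P ^ 2)
      have b2 := mul_le_mul_of_nonneg_left h.θ1 r2.le
      have b3 : S.C * (o + (o + lam * Γ ^ 2) * θ) ≤ P * (o + (o + lam * Γ ^ 2) * 1) := by gcongr
      have b4 := mul_le_mul_of_nonneg_left b3 (by positivity : 0 ≤ P ^ 2)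
      have b5 := mul_le_mul_of_nonneg_right P1 r2.le
      linarith only [b1, b2, b4, b5, l2, h.o1, r2]
    linarith
  have sl : 2 * (18 * P ^ 4 * r * (P ^ 4 * (F + Γ))) ≤ r ^ 2 / P := by
    rw [le_div_iff₀ P0]
    have a1 := mul_le_mul_of_nonneg_left (show 100 * (P ^ 9 * (F + Γ)) ≤ 2 * r from
      (pk 9 10 rfl _ FΓ).trans z1) r0.le
    linarith only [a1, r2]
  have sh : ∀ i k, Nx Gn u v i k → sb M m a (u + 1) + N * P * r + Γ ≤ sb M m a (i + 1) →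
      sb M m a (k + 1) ≤ sb M m a (v + 1) - N * P * r - r →
      sb M m a (k + 1) - sb M m a (i + 1) ≤ P ^ 4 * F := fun i k n p q => by
    have ik := A.sb_mono (Nat.succ_le_succ n.2.1)
    have g1 := x2 i n.1 (n.2.1.trans n.2.2.1)
    have g2 := x2 k (n.1.trans n.2.1) n.2.2.1
    have g3 := (x1 _ ⟨p, by linarith⟩).trans u1
    have g4 := (x1 (sb M m a (k + 1)) ⟨by linarith, by linarith⟩).trans u1
    have a1 := W.len hp n (Q := P * r + P * j + 2 * r) c0 (hΓ i k n) (by linarith) (by linarith)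
    have a2 := x3 _ _ _ _ p ik q sl
      (a1.trans (sub_le_sub_left (mul_le_mul_of_nonneg_right mu (sub_nonneg.2 ik)) _))
    set X := F * r ^ 2 with hX
    have X0 : 0 ≤ X := by positivity
    have o1 : o ≤ r ^ 2 := (le_mul_of_one_le_left o0 (one_le_pow₀ P1')).trans h.o1
    have l3 : lam * Γ ^ 2 ≤ r ^ 2 := (le_mul_of_one_le_left lg (one_le_pow₀ P1')).trans l2
    have b1 : o * r ≤ X := by
      rw [hX, sq, ← mul_assoc]
      exact mul_le_mul_of_nonneg_right ((le_mul_of_one_le_left o0 N1).trans h.oF) r0.le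
    have b2 : o * j ≤ X := by rw [hX, mul_comm F]; exact mul_le_mul o1 h.jF j0 r2.le
    have b3 : (o + lam * Γ ^ 2) * δ ≤ 2 * r ^ 2 * F :=
      mul_le_mul (by linarith) h.δF W.δ0 (by positivity)
    have b4 : S.C ^ 2 * S.ms b' * (δ + S.C * S.v) ≤ P * r ^ 2 * (F + P * F) :=
      mul_le_mul D1 (add_le_add h.δF (mul_le_mul CP h.vF v0.le P0.le))
        (by have := W.δ0; positivity) (by positivity)
    have b5 : e + 2 * o * (P * r + P * j + 2 * r) + (o + lam * Γ ^ 2) * δ ≤ 11 * (P * X) := by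
      have := le_mul_of_one_le_left X0 P1'
      linarith [mul_le_mul_of_nonneg_left b1 P0.le, mul_le_mul_of_nonneg_left b2 P0.le, h.eF]
    have b6 := (mul_le_mul_of_nonneg_left b5 C0.le).trans
      (mul_le_mul_of_nonneg_right CP (by positivity))
    have b7 := pw 1 2 (by norm_num) X X0
    have b8 := pw 0 2 (by norm_num) X X0
    have b9 : r ^ 2 / P * (sb M m a (k + 1) - sb M m a (i + 1)) ≤ 30 * (P ^ 2 * X) := by
      have : P * r ^ 2 * (F + P * F) = P ^ 1 * X + P ^ 2 * X := by rw [hX]; ring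
      linarith only [a2, b4, b6, b7, b8, h.gF, this]
    rw [div_mul_eq_mul_div, div_le_iff₀ P0] at b9
    refine le_of_mul_le_mul_left ?_ r2
    have c1 := mul_le_mul_of_nonneg_left (pk 3 4 rfl F F0) r2.le
    have c2 : 0 ≤ r ^ 2 * (P ^ 3 * F) := by positivity
    rw [hX] at b9
    linarith only [b9, c1, c2]
  -- the inner window
  obtain ⟨i1, u', n1, p1, p2⟩ := exists_nx (σ := fun k => sb M m a (k + 1))
    (t := sb M m a (u + 1) + N * P * r + Γ) W.uv W.gu W.gv (by linarith) (by linarith [ht.1, ht.2])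
  obtain ⟨v', k1, n2, q1, q2⟩ := exists_nx (σ := fun k => sb M m a (k + 1))
    (t := sb M m a (v + 1) - N * P * r - r) W.uv W.gu W.gv (by linarith [ht.1, ht.2]) (by linarith)
  have s1 := hΓ _ _ n1
  have s2 := hΓ _ _ n2
  have uv' : u' ≤ v' := le_of_not_gt fun hlt => by
    linarith [A.sb_mono (Nat.succ_le_succ hlt.le), ht.1, ht.2]
  have hu : u ≤ u' := n1.1.trans n1.2.1
  have hv : v' ≤ v := n2.2.1.trans n2.2.2.1
  have G0 : 0 ≤ min Γ (P ^ 4 * F) := le_min Γ0 (by positivity)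
  obtain ⟨y1, -⟩ := H (W.sub hu uv' hv n1.2.2.2.2.1 n2.2.2.2.1) hT (h.mono l0 G0 (min_le_left _ _))
    (fun i k n => le_min (hΓ i k (n.up hu hv)) (sh i k (n.up hu hv)
      (p2.trans (A.sb_mono (Nat.succ_le_succ n.1)))
      ((A.sb_mono (Nat.succ_le_succ n.2.2.1)).trans q1)))
    (fun t ht => hp t ⟨(A.sb_mono (Nat.succ_le_succ hu)).trans ht.1,
      ht.2.trans (A.sb_mono (Nat.succ_le_succ hv))⟩) (by linarith)
  refine (y1 t ⟨by linarith [ht.1, min_le_left Γ (P ^ 4 * F)], by linarith [ht.2]⟩).trans ?_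
  have a1 := mul_le_mul_of_nonneg_left (min_le_right Γ (P ^ 4 * F)) (by positivity : 0 ≤ P ^ 7)
  have a2 := pw 7 11 (by norm_num) F F0
  have a3 := pk 11 12 rfl F F0
  have a4 : 0 ≤ P ^ 11 * F := by positivity
  linarith only [a1, a2, a3, a4]

namespace At

variable {S : Sc} {M : Md} {m : ℕ} {a T : ℝ}

/-- location of a sloped node from `u` at two times -/
theorem loc73 (A : At S M m a T) {k : ℕ} {U δ : ℝ} (h1 : S.jl ≤ k) (h2 : k < S.J) (U0 : 0 ≤ U)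
    (hδ : S.C * (U + 2 * (S.C * S.v)) ≤ δ) (t0 : 0 ≤ M.s k - δ) (t1 : M.s k + δ < M.s S.J)
    (u1 : uu M S m a T (M.s k - δ) ≤ U) (u2 : -U ≤ uu M S m a T (M.s k + δ)) :
    |sb M m a (k + 1) - M.s k| ≤ δ := by
  have C0 := A.c_pos
  have cv : 0 < S.C * S.v := mul_pos C0 (v_pos A.cl)
  have d0 : 0 < δ := lt_of_lt_of_le (by positivity) hδ
  have zm := Sc48.lvr_mono A.okb.1.1
  have zk := A.lvb_node h1 (h2.le.trans A.cl.i3)
  have zh := A.lvh_node (A.cl.i1.trans h1) h2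
  have a1 := A.ts73 t0 (by linarith : M.s k - δ ≤ M.s k) (by linarith)
  have a2 := A.ts73 (s_nn A.cl k) (by linarith : M.s k ≤ M.s k + δ) t1
  have b1 : U + 2 * (S.C * S.v) ≤ lvr 1 (lh M T) (M.s k) - lvr 1 (lh M T) (M.s k - δ) + S.C * S.v :=
    le_of_mul_le_mul_left (by linarith) C0
  have b2 : U + 2 * (S.C * S.v) ≤ lvr 1 (lh M T) (M.s k + δ) - lvr 1 (lh M T) (M.s k) + S.C * S.v :=
    le_of_mul_le_mul_left (by linarith) C0
  unfold uu at u1 u2
  refine abs_le.2 ⟨le_of_not_gt fun h => ?_, le_of_not_gt fun h => ?_⟩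
  · have := zm (show sb M m a (k + 1) ≤ M.s k - δ by linarith)
    linarith
  · have := zm (show M.s k + δ ≤ sb M m a (k + 1) by linarith)
    linarith

/-- the weight of the sloped nodes above the time `t0` -/
theorem mass73 (A : At S M m a T) {U : Finset ℕ} {t0 ℓ : ℝ} (l0 : 0 ≤ ℓ) (hl : M.s S.J - t0 ≤ ℓ)
    (hU : ∀ k ∈ U, S.jl < k ∧ k < S.J ∧ t0 ≤ M.s k) :
    ∑ k ∈ U, dx M k ≤ S.C * (ℓ + 2 * S.v) := by
  have C0 := A.c_pos
  have v0 := v_pos A.cl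
  rcases U.eq_empty_or_nonempty with rfl | ne
  · rw [Finset.sum_empty]; positivity
  obtain ⟨p1, p2, p3⟩ := hU _ (U.min'_mem ne)
  have mi : ∀ k ∈ U, U.min' ne ≤ k := fun k hk => U.min'_le k hk
  obtain ⟨i, hi⟩ : ∃ i, U.min' ne = i + 1 := ⟨U.min' ne - 1, by omega⟩
  rw [hi] at p1 p2 p3 mi
  have j0 := A.cl.i1
  refine (Finset.sum_le_sum_of_subset_of_nonneg (t := Finset.Ioc i (S.J - 1)) (fun k hk => ?_)
    fun k _ _ => (A.dz_nn k : 0 ≤ dx M k)).trans ?_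
  · have := mi k hk
    have := (hU k hk).2.1
    exact Finset.mem_Ioc.2 ⟨by omega, by omega⟩
  rw [sum_dz M (by omega)]
  obtain ⟨q1, -⟩ := A.s_pred
  have a1 := (A.sl q1 _ _ (s_nn A.cl (i + 1)) (A.cl.sm (show i + 1 ≤ S.J - 1 by omega)) le_rfl).2
  rw [A.zh_pred, A.lvh_node (by omega) p2] at a1
  have a2 := (A.cl.zs i (by omega) p2).2
  have a3 : S.C * (M.s (S.J - 1) - M.s (i + 1)) ≤ S.C * ℓ :=
    mul_le_mul_of_nonneg_left (by linarith) C0.le
  linarith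

/-- **the final energy**: pointwise below `t2`, the closing sum above -/
theorem en73 (A : At S M m a T) {tA tB t0 t2 U δ Y ℓ : ℝ} (hj : M.s S.jl < t0) (U0 : 0 ≤ U)
    (hδ : S.C * (U + 2 * (S.C * S.v)) ≤ δ) (hu : ∀ t, tA ≤ t → t ≤ tB → |uu M S m a T t| ≤ U)
    (a0 : 0 ≤ tA) (a1 : tA + δ ≤ t0) (a4 : tA ≤ t2) (a2 : t2 + 2 * δ ≤ tB) (a3 : tB < M.s S.J)
    (l0 : 0 ≤ ℓ) (hl : M.s S.J - t0 ≤ ℓ)
    (hY : ∀ W : Finset ℕ, (∀ k ∈ W, S.jl < k ∧ k ≤ S.Jp ∧ t2 ≤ M.s k ∧ t2 ≤ sb M m a (k + 1)) →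
      ∑ k ∈ W, (M.z k - M.z (k - 1)) * (sb M m a (k + 1) - M.s k) ^ 2 ≤ Y) :
    M.En S m a M.q 2 t0 S.C ≤ 3 * (S.C * (ℓ + 2 * S.v) * δ ^ 2 + Y + GS M S t0 S.C + GP M S +
      (S.C / (m + 1)) ^ 2) := by
  classical
  have C0 := A.c_pos
  have cv : 0 < S.C * S.v := mul_pos C0 (v_pos A.cl)
  have d0 : 0 < δ := lt_of_lt_of_le (by positivity) hδ
  have dn : ∀ k, 0 ≤ dx M k := A.dz_nn
  have mem : ∀ k ∈ M.blk S t0 S.C, S.jl < k ∧ k ≤ S.Jp ∧ t0 ≤ M.s k ∧ M.s k ≤ S.C := fun k hk => by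
    obtain ⟨p, q⟩ := Finset.mem_filter.1 hk
    exact ⟨lt_of_not_ge fun h => by linarith [A.cl.sm h, q.1], (Finset.mem_Ioc.1 p).2, q.1, q.2⟩
  have W : ∑ k ∈ M.blk S t0 S.C, dx M k ≤ 1 := by
    refine (Finset.sum_le_sum_of_subset_of_nonneg (Finset.filter_subset _ _)
      fun k _ _ => dn k).trans ?_
    rw [dx_sum73 M A.j0_le, A.cl.top _ le_rfl]
    have := A.xb_mono (show 0 ≤ S.j0 + 1 by omega)
    have := A.a_pos
    simp only [xb] at *
    linarith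
  have s1 : ∑ k ∈ M.blk S t0 S.C, dx M k * (sb M m a (k + 1) - M.s k) ^ 2 ≤
      S.C * (ℓ + 2 * S.v) * δ ^ 2 + Y := by
    rw [← Finset.sum_filter_add_sum_filter_not _ (fun k => M.s k < t2 + δ)]
    refine add_le_add ?_ (hY _ fun k hk => ?_)
    · have lo : ∀ k ∈ (M.blk S t0 S.C).filter (fun k => M.s k < t2 + δ),
          S.jl < k ∧ k < S.J ∧ t0 ≤ M.s k := fun k hk => by
        obtain ⟨p, q⟩ := Finset.mem_filter.1 hk
        obtain ⟨p1, -, p3, -⟩ := mem k p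
        exact ⟨p1, lt_of_not_ge fun h => by linarith [A.cl.sm h], p3⟩
      refine (Finset.sum_le_sum (g := fun k => dx M k * δ ^ 2) fun k hk => ?_).trans ?_
      · obtain ⟨p1, p2, p3⟩ := lo k hk
        have q := (Finset.mem_filter.1 hk).2
        have := A.loc73 p1.le p2 U0 hδ (by linarith) (by linarith)
          (abs_le.1 (hu _ (by linarith) (by linarith))).2
          (abs_le.1 (hu _ (by linarith) (by linarith))).1
        refine mul_le_mul_of_nonneg_left ?_ (dn k)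
        rw [← sq_abs]
        exact pow_le_pow_left₀ (abs_nonneg _) this 2
      · rw [← Finset.sum_mul]
        exact mul_le_mul_of_nonneg_right (A.mass73 l0 hl lo) (sq_nonneg _)
    · obtain ⟨p, q⟩ := Finset.mem_filter.1 hk
      obtain ⟨p1, p2, -, -⟩ := mem k p
      have q' := not_lt.1 q
      refine ⟨p1, p2, by linarith, le_of_not_gt fun h => ?_⟩
      have b1 := Sc48.lvr_mono A.okb.1.1 h.le
      rw [A.lvb_node p1.le p2] at b1
      have b2 := (abs_le.1 (hu t2 a4 (by linarith))).2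
      have b3 := A.ts73 (a0.trans a4) (by linarith : t2 ≤ t2 + δ) (by linarith)
      have b4 : U + 2 * (S.C * S.v) ≤ lvr 1 (lh M T) (t2 + δ) - lvr 1 (lh M T) t2 + S.C * S.v :=
        le_of_mul_le_mul_left (by linarith) C0
      have b5 : lvr 1 (lh M T) (t2 + δ) ≤ M.z k := by
        rcases lt_or_ge k S.J with c | c
        · rw [← A.lvh_node (A.cl.i1.trans p1.le) c]
          exact Sc48.lvr_mono A.okh.1.1 q'
        · exact (A.zh_le_8 (by linarith)).trans (A.cl.leg.zm (by omega))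
      unfold uu at b2
      linarith
  have s2 : ∑ k ∈ M.blk S t0 S.C, dx M k * M.G k ^ 2 ≤ GS M S t0 S.C + GP M S := by
    rw [← Finset.sum_filter_add_sum_filter_not _ (fun k => k < S.J)]
    refine add_le_add (Finset.sum_le_sum_of_subset_of_nonneg (fun k hk => ?_)
      fun k _ _ => mul_nonneg (dn k) (sq_nonneg _))
      (Finset.sum_le_sum_of_subset_of_nonneg (fun k hk => ?_)
      fun k _ _ => mul_nonneg (dn k) (sq_nonneg _))
    · obtain ⟨p, q⟩ := Finset.mem_filter.1 hk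
      obtain ⟨p1, -, p3, p4⟩ := mem k p
      exact Finset.mem_filter.2 ⟨Finset.mem_Ioo.2 ⟨p1, q⟩, p3, p4⟩
    · obtain ⟨p, q⟩ := Finset.mem_filter.1 hk
      exact Finset.mem_Icc.2 ⟨not_lt.1 q, (mem k p).2.1⟩
  unfold Md.En
  refine (Finset.sum_le_sum (g := fun k => 3 * (dx M k * (sb M m a (k + 1) - M.s k) ^ 2) +
    3 * (dx M k * M.G k ^ 2) + dx M k * (3 * (S.C / (m + 1)) ^ 2)) fun k hk => ?_).trans ?_
  · have d := A.del_le (A.jp_le (mem k hk).2.1)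
    have e : |M.del m a k| ^ 2 ≤ 3 * (sb M m a (k + 1) - M.s k) ^ 2 + 3 * M.G k ^ 2 +
        3 * (S.C / (m + 1)) ^ 2 := by
      have := pow_le_pow_left₀ (abs_nonneg _) d 2
      rw [← sq_abs (sb M m a (k + 1) - M.s k), ← sq_abs (M.G k)]
      nlinarith [sq_nonneg (|sb M m a (k + 1) - M.s k| - |M.G k|),
        sq_nonneg (|sb M m a (k + 1) - M.s k| - S.C / (m + 1)), sq_nonneg (|M.G k| - S.C / (m + 1))]
    have := mul_le_mul_of_nonneg_left e (dn k)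
    change dx M k * |M.del m a k| ^ 2 ≤ _
    linarith
  · rw [Finset.sum_add_distrib, Finset.sum_add_distrib, ← Finset.mul_sum, ← Finset.mul_sum,
      ← Finset.sum_mul]
    linarith [mul_le_of_le_one_left (show 0 ≤ 3 * (S.C / (m + 1)) ^ 2 by positivity) W]

end At

end Crest.Agent.T156.Alt.Mp9

namespace Crest.Agent.T156.Alt.L63

open Real
open Crest.Agent.T156.Alt.L69 Crest.Agent.T156.Alt.Mp9

/-- the fine bound of `u` up to `y - 3 N L r` -/
theorem Sq.uq73 (T0 : ℝ) : ∃ K0 : ℝ, ∀ {K L : ℝ} {S : Sc} {M : Md} {m : ℕ} {a Lg X2 j γ : ℝ}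
    {η : ℝ → ℝ} {aa g' : ℝ} {Gn : ℕ → Prop} {u V V2 : ℕ} {y r : ℝ}, 2 * S.C = T0 → K0 ≤ K →
    Sq K L S M m a Lg X2 j γ η aa g' Gn u V V2 y r →
    ∀ t, 3 / 4 * M.s S.J ≤ t → t + 3 * (2 * log S.n * L * r) ≤ y →
      |L63.uq S M m a t| ≤ L ^ 12 * qF L S M Lg X2 j γ η g' := by
  obtain ⟨K0, -, H⟩ := Nw.main73 T0
  refine ⟨K0, fun {K L S M m a Lg X2 j γ η aa g' Gn u V V2 y r} hT hK Q t p q => ?_⟩
  rcases le_total (t + 7 * (2 * log S.n * L * r)) y with c | c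
  · exact Q.uq t p c
  have A := Q.nw.at'
  have w1 := Q.w1
  have w2 := Q.w2
  have n0 : 0 ≤ 2 * log S.n * L * r := by
    have := Q.nk.N1
    have := Q.nk.P1
    have := Q.nk.r0
    positivity
  have ey := Q.ey
  subst hT
  refine H Q.nw le_rfl (Q.nk.anti53 A.c_pos.le hK) (fun i k n => Q.gap i k (n.up le_rfl Q.VV))
    (fun s hs => Q.hp s ⟨(A.sb_mem ((Q.nw.uv.trans Q.nw.vJ.le).trans A.cl.i3)).1.trans hs.1,
      hs.2.trans (A.sb_mem (Q.nw.vJ.le.trans A.cl.i3)).2⟩) (by linarith) t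
    ⟨by linarith, by linarith⟩

/-- **the final energy of (TLq)** from the closing sum `Y` above `t2` -/
theorem Sq.en73 (T0 : ℝ) : ∃ K0 : ℝ, ∀ {S : Sc} {M : Md} {m : ℕ} {a : ℝ}
    {K E L G1 u1 u2 j γ Lc ηc τ l0 l X Xp Vt Lg Lp X2 X3 X4 G0 N t1 ℓ En p0 aa g' R2 : ℝ}
    {η g : ℝ → ℝ} {Gn : ℕ → Prop} {u V V2 : ℕ} {y r t2 Y : ℝ}, 2 * S.C = T0 → S.In m a → K0 ≤ K →
    T20.Rg K E L S →
    Hy E S M m a G1 u1 u2 j γ Lc ηc τ l0 l X Xp Vt Lg Lp X2 X3 X4 G0 η N g t1 (M.s S.J) ℓ En p0 →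
    LQ E S M X Xp Vt Lg Lp X2 G0 u1 u2 j γ η aa g' R2 →
    Sq K L S M m a Lg X2 j γ η aa g' Gn u V V2 y r → sb M m a (u + 1) ≤ t2 →
    t2 + r ≤ y - 3 * (2 * log S.n * L * r) →
    (∀ W : Finset ℕ, (∀ k ∈ W, S.jl < k ∧ k ≤ S.Jp ∧ t2 ≤ M.s k ∧ t2 ≤ sb M m a (k + 1)) →
      ∑ k ∈ W, (M.z k - M.z (k - 1)) * (sb M m a (k + 1) - M.s k) ^ 2 ≤ Y) →
    M.En S m a M.q 2 (M.s S.J - ℓ) S.C ≤
      L ^ 46 * (ℓ * (j + bs S Lg X2 g' η (M.s S.J)) ^ 2 + R2) + 3 * Y +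
        3 * (GS M S (M.s S.J - ℓ) S.C + GP M S) + L * (1 / (S.n : ℝ) ^ 2) := by
  obtain ⟨K0, H⟩ := Sq.uq73 T0
  refine ⟨K0, fun {S M m a K E L G1 u1 u2 j γ Lc ηc τ l0 l X Xp Vt Lg Lp X2 X3 X4 G0 N t1 ℓ En p0 aa
    g' R2 η g Gn u V V2 y r t2 Y} hT hm hK G hy lq Q hs ht hY => ?_⟩
  have A := Q.nw.at'
  have F := T20.fc A.cl hm G hy
  have C1 := A.cl.C1
  have C0 := A.c_pos
  have v0 := v_pos A.cl
  have L1 := G.L1
  have L0 : 0 < L := by linarith
  have L1' : 1 ≤ L := by linarith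
  have r0 := Q.nk.r0
  have a0 := Q.a0
  have C3 : S.C ≤ S.C ^ 3 := le_self_pow₀ C1 (by norm_num)
  have C2 : S.C ^ 2 ≤ S.C ^ 3 := pow_le_pow_right₀ C1 (by norm_num)
  have LC := G.LC
  have vF := Q.nk.vF
  have Fb := Q.Fb
  have sm := Q.sm
  have hu := H hT hK Q
  set F' := qF L S M Lg X2 j γ η g' with hF
  set b := bs S Lg X2 g' η (M.s S.J) with hb
  have F0 : 0 < F' := v0.trans_le vF
  have E1 : 1000 ≤ E := L1.trans ((le_self_pow₀ L1' (by norm_num)).trans G.LE)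
  have n0 : 0 ≤ 2 * log S.n * L * r := by have := G.lg1; positivity
  have pw : ∀ i k : ℕ, i ≤ k → ∀ x : ℝ, 0 ≤ x → L ^ i * x ≤ L ^ k * x := fun i k hk x hx =>
    mul_le_mul_of_nonneg_right (pow_le_pow_right₀ L1' hk) hx
  have pk : ∀ i k : ℕ, i + 1 = k → ∀ x : ℝ, 0 ≤ x → 1000 * (L ^ i * x) ≤ L ^ k * x := by
    rintro i _ rfl x hx
    rw [pow_succ', mul_assoc]; exact mul_le_mul_of_nonneg_right L1 (by positivity)
  have hδ : S.C * (L ^ 12 * F' + 2 * (S.C * S.v)) ≤ L ^ 13 * F' := by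
    have a1 : S.C ^ 2 * S.v ≤ S.C ^ 3 * (L ^ 12 * F') :=
      mul_le_mul C2 (vF.trans (le_mul_of_one_le_left F0.le (one_le_pow₀ L1'))) v0.le (by positivity)
    have a2 : S.C * (L ^ 12 * F') ≤ S.C ^ 3 * (L ^ 12 * F') :=
      mul_le_mul_of_nonneg_right C3 (by positivity)
    have a3 := mul_le_mul_of_nonneg_right LC (show 0 ≤ L ^ 12 * F' by positivity)
    have a4 : 0 ≤ S.C ^ 3 * (L ^ 12 * F') := by positivity
    linarith
  have dr : 1000 * (L ^ 13 * F') ≤ r := by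
    have : 0 ≤ L ^ 50 * aa := by positivity
    linarith [pk 13 14 rfl F' F0.le, pw 14 50 (by norm_num) F' F0.le]
  have ra := Q.nk.ra
  have y1 := Q.y1
  have lp : 0 < √(S.ms l) := sqrt_pos.2 (A.ms_pos F.l0.le)
  have l1 : √(S.ms l) ≤ ℓ := (le_mul_of_one_le_left lp.le (one_le_pow₀ L1')).trans F.ℓ1
  have l0' : 0 < ℓ := lp.trans_le l1
  have l2 : 1000 * ℓ ≤ M.s S.J := (mul_le_mul_of_nonneg_right E1 l0'.le).trans hy.lt.ℓ2
  have vl : S.v ≤ ℓ := G.vn.trans (F.nl.trans l1)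
  have jl : M.s S.jl ≤ l := (le_mul_of_one_le_left (s_nn A.cl _) L1').trans F.jl
  have t1' : 1000 * t1 ≤ M.s S.J :=
    (mul_le_mul_of_nonneg_right E1 (by linarith [hy.lt.t1a, F.l0])).trans hy.lt.t1b
  have yC : y ≤ S.C := by linarith [(A.cl.sm A.cl.i3).trans A.cl.sT]
  have wr : 14 * (2 * log S.n * L * r) ≤ y / 10 := by
    have a1 := F.ml (y / 2) (by linarith [hy.lt.t1a, Q.y2]) (by linarith)
    rw [← Q.er] at a1
    have a2 : log S.n * (L * r) ≤ L * (L * r) := mul_le_mul_of_nonneg_right G.lg (by positivity)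
    linarith [pk 2 3 rfl r r0.le, pw 3 67 (by norm_num) r r0.le]
  have w2 := Q.w2
  have y2 := Q.y2
  have e := A.en73 (tA := 3 / 4 * M.s S.J) (tB := y - 3 * (2 * log S.n * L * r))
    (t0 := M.s S.J - ℓ) (t2 := t2) (ℓ := ℓ) (by linarith [hy.lt.t1a, F.l0]) (by positivity) hδ
    (fun t p q => hu t p (by linarith)) (by linarith) (by linarith) (by linarith) (by linarith)
    (by linarith) l0'.le (by linarith) hY
  have sC : M.s S.J ≤ S.C := (A.cl.sm A.cl.i3).trans A.cl.sT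
  have b1 : S.C * (ℓ + 2 * S.v) ≤ 3 * (S.C * ℓ) := by
    linarith [mul_le_mul_of_nonneg_left vl C0.le]
  have b2 : (L ^ 13 * F') ^ 2 ≤ L ^ 42 * (2 * ((j + b) ^ 2 + γ ^ 2)) := by
    have a1 : L ^ 13 * F' ≤ L ^ 21 * (j + γ + b) := by
      have := mul_le_mul_of_nonneg_left Fb (show 0 ≤ L ^ 13 by positivity)
      linarith
    have a2 := pow_le_pow_left₀ (by positivity) a1 2
    have a3 : (j + γ + b) ^ 2 ≤ 2 * ((j + b) ^ 2 + γ ^ 2) := by nlinarith [sq_nonneg (j + b - γ)]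
    have a4 := mul_le_mul_of_nonneg_left a3 (show 0 ≤ L ^ 42 by positivity)
    linarith
  have b3 := mul_le_mul b1 b2 (by positivity) (by positivity)
  have u20 : 0 ≤ u2 := by
    have := A.cl.last
    have := hy.lp.u1a
    have := hy.lp.u1b.1
    have := A.cl.leg.zm (Nat.sub_le S.Jp 1)
    rw [A.cl.top _ le_rfl] at this
    linarith
  have γR : γ ^ 2 ≤ R2 := by linarith [lq.q4, sq_nonneg X2]
  have R0 : 0 ≤ R2 := (sq_nonneg _).trans γR
  have b4 : ℓ * γ ^ 2 ≤ L * R2 := mul_le_mul (by linarith) γR (sq_nonneg _) L0.le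
  have x0 : 0 ≤ ℓ * (j + b) ^ 2 := by positivity
  have b5 : 18 * S.C * (L ^ 42 * (ℓ * (j + b) ^ 2 + L * R2)) ≤
      L * (L ^ 42 * (ℓ * (j + b) ^ 2 + L * R2)) :=
    mul_le_mul_of_nonneg_right (by linarith) (by positivity)
  have b6 := mul_le_mul_of_nonneg_left b4 (show 0 ≤ 18 * S.C * L ^ 42 by positivity)
  have b7 : 3 * (S.C / (m + 1)) ^ 2 ≤ L * (1 / (S.n : ℝ) ^ 2) := by
    have n1 : (0 : ℝ) < S.n := by exact_mod_cast n_pos A.cl
    have m1 : (S.n : ℝ) ≤ m + 1 := by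
      have : (S.n : ℝ) ≤ m := by exact_mod_cast hm.m1
      linarith
    have a1 : S.C / (m + 1) ≤ S.C / S.n := div_le_div_of_nonneg_left C0.le n1 m1
    have a2 := pow_le_pow_left₀ (by positivity) a1 2
    have a3 : (S.C / S.n) ^ 2 = S.C ^ 2 * (1 / (S.n : ℝ) ^ 2) := by rw [div_pow]; ring
    have a4 : 3 * S.C ^ 2 * (1 / (S.n : ℝ) ^ 2) ≤ L * (1 / (S.n : ℝ) ^ 2) :=
      mul_le_mul_of_nonneg_right (by linarith) (by positivity)
    linarith
  linarith [pw 43 46 (by norm_num) _ x0, pw 44 46 (by norm_num) _ R0]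

end Crest.Agent.T156.Alt.L63

end
end

-- ▼ part T156/TLqW_54
section

/-!
# Row 156, block (L): the final window below the last good node (helper54)
-/

set_option autoImplicit false

noncomputable section

namespace Crest.Agent.T156.Alt.L63

open MeasureTheory Real Set
open Crest.Agent.T156.Alt.L69 Crest.Agent.T156.Alt.Mp9 Crest.Agent.T156.Alt.Ap63
open Crest.Agent.R164.GC Crest.Agent.R339.B Crest.Agent.R339.Var Crest.Agent.T157.Pf
open T20

set_option maxHeartbeats 800000 in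
/-- **the final window** -/
theorem win36 (T0 : ℝ) : ∃ K0 : ℝ, ∀ {S : Sc} {M : Md} {m : ℕ}
    {a K L Lg X2 j γ aa g' y r Γ0 B : ℝ} {η : ℝ → ℝ} {Gn : ℕ → Prop} {u V V2 : ℕ},
    2 * S.C = T0 → K0 ≤ K → Sq K L S M m a Lg X2 j γ η aa g' Gn u V V2 y r →
    Sk L S M m a (qF L S M Lg X2 j γ η g') (qO L S M Lg X2) aa Gn u V2 y r Γ0 →
    Fl L S M m a (qF L S M Lg X2 j γ η g') aa V y r → M.s S.J - y ≤ B → L ^ 30 * B ≤ r →
    Wk S M m a (2 * S.C) V (y - 12 * (log S.n * L * r) - L * r / 2) (y - 11 * (log S.n * L * r))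
      (y - 2 * (log S.n * L * r)) L r (L ^ 12 * qF L S M Lg X2 j γ η g')
      (L ^ 4 * qF L S M Lg X2 j γ η g') := by
  obtain ⟨K1, -, H1⟩ := Nw.side53 T0
  obtain ⟨K2, -, H2⟩ := Nw.stage T0
  obtain ⟨K3, -, H3⟩ := Nw.tk53 T0
  refine ⟨max K1 (max K2 K3), fun {S M m a K L Lg X2 j γ aa g' y r Γ0 B η Gn u V V2} hT hK W k f
    hB Br => ?_⟩
  subst hT
  have A := W.nw.at'
  have h := A.cl
  have C1 := h.C1
  have C0 := h.C0
  have L1 := k.L1
  have Lp0 : 0 < L := by linarith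
  have lg := k.lg1
  have r0 := k.r0
  have F0 := k.F0
  have a0 := W.a0
  have o0 := k.o0
  have Γ0' := k.Γ0'
  have ey := W.ey
  have C3 : S.C ≤ S.C ^ 3 := le_self_pow₀ C1 (by norm_num)
  have LC := k.LC
  have nk1 := (W.nk1 k).anti53 C0.le ((le_max_left _ _).trans hK)
  have nk2 := W.nk.anti53 C0.le ((le_max_left _ _).trans ((le_max_right _ _).trans hK))
  have nk3 := W.nk.anti53 C0.le ((le_max_right _ _).trans ((le_max_right _ _).trans hK))
  have Lr : 0 < L * r := by positivity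
  have ρ1 : 14 * (L * r) ≤ log (S.n : ℝ) * L * r := by
    rw [mul_assoc]; exact mul_le_mul_of_nonneg_right lg Lr.le
  have rL : 1000 * r ≤ L * r := mul_le_mul_of_nonneg_right L1 r0.le
  have y0 : 0 ≤ y := by linarith [W.nw.a0]
  have yJ : y < M.s S.J := by linarith [W.y1]
  have B0 : 0 ≤ B := by linarith
  have VJ := W.nw.vJ
  have hp : ∀ {i : ℕ}, u ≤ i → ∀ t ∈ Icc (sb M m a (i + 1)) (sb M m a (V + 1)),
      Rig.Hp (lh M (2 * S.C)) (lb M S m a (2 * S.C)) t ≤ qJ L S j γ := fun {i} hi t ht =>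
    W.hp t ⟨by linarith [ht.1, W.nw.bu, W.nw.a0, A.sb_mono (Nat.succ_le_succ hi)], by
      linarith [ht.2, h.s_le_C h.i3]⟩
  have w1 := W.w1
  have w2 := W.w2
  have jF := W.nk.jF
  have oF := k.oF
  have gap0 : ∀ i k', Nx Gn u V i k' → sb M m a (k' + 1) - sb M m a (i + 1) ≤ Γ0 :=
    fun i k' n => k.gap i k' (n.up le_rfl W.VV)
  have s2 := (H2 W.nw le_rfl nk2 (fun i k' n => W.gap i k' (n.up le_rfl W.VV)) (hp le_rfl)
    (by linarith)).2.1
  have N := W.nw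
  have nF := k.nF
  have oN := W.nk.oF
  have eF := W.nk.eF
  have gF := W.nk.gF
  have δF := W.nk.δF
  have θ1 := W.nk.θ1
  have PT := W.nk.PT
  have Fr := k.Fr
  have ar := k.ar
  have or' := k.or
  have Γr := k.Γr
  have ΓΓ := k.ΓΓ
  have lo := f.lo
  have fl := f.fl
  generalize qF L S M Lg X2 j γ η g' = F at *
  generalize qO L S M Lg X2 = o at *
  generalize qJ L S j γ = jj at *
  have p := fun i k (h : i < k) (x : ℝ) (hx : 0 ≤ x) => pw36 L1 h hx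
  have aF : 0 ≤ aa + F := by linarith
  have x1 : 0 ≤ L ^ 6 * (aa + F) := by positivity
  have x2 : 0 ≤ L * B := by positivity
  have up : uu M S m a (2 * S.C) (sb M m a (V + 1)) ≤ L * B + 2 * (L ^ 6 * (aa + F)) := by
    have e1 := (A.zh53 y0 yJ).2
    have e2 := h.leg.zm (show V ≤ S.J - 1 by omega)
    have e3 := mul_le_mul hB (show S.C ≤ L by linarith) C0.le B0
    have e4 := mul_le_mul k.va (show S.C ≤ L by linarith) C0.le a0.le
    have e5 := A.lvb_node (N.ju.le.trans N.uv) (VJ.le.trans h.i3)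
    rw [← ey] at e5 ⊢
    unfold uu
    linarith [p 1 6 (by norm_num) _ aF, mul_nonneg Lp0.le F0]
  have s1 : ∀ t ∈ Icc (y - 13 * (log S.n * L * r)) y, |uu M S m a (2 * S.C) t| ≤ r := fun t ht => by
    obtain ⟨q1, q2⟩ := H1 N le_rfl nk1 gap0 (hp le_rfl) (by linarith) (by linarith)
      (L * B + 2 * (L ^ 6 * (aa + F))) (by linarith) t ⟨by linarith [ht.1], ey ▸ ht.2⟩
    have q3 := (q1 up).1
    have q4 := (q2 (by rw [← ey]; unfold L63.uq at lo; linarith)).1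
    have : 8 * L ^ 7 * (4 * L ^ 2 * F + Γ0 + (L * B + 2 * (L ^ 6 * (aa + F)))) ≤ r := by
      linarith [p 9 50 (by norm_num) _ F0, p 7 33 (by norm_num) _ Γ0', p 8 30 (by norm_num) _ B0,
        p 13 50 (by norm_num) _ a0.le, p 13 50 (by norm_num) _ F0]
    exact abs_le.2 ⟨by linarith, by linarith⟩
  obtain ⟨i0, u', n0, t1, t2⟩ := exists_nx (σ := fun k => sb M m a (k + 1)) N.uv N.gu N.gv
    (t := y - 13 * (log S.n * L * r)) (by linarith) (by linarith)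
  have t3 := gap0 _ _ n0
  have uu' : u ≤ u' := n0.1.trans n0.2.1
  have u'V : u' ≤ V := n0.2.2.1
  have N' := N.sub uu' u'V le_rfl n0.2.2.2.2.1 N.gv
  have Γ1 : 1000 * Γ0 ≤ 4 * r := by linarith [p 0 33 (by norm_num) _ Γ0']
  have F1 : 1000 * F ≤ r := by linarith [p 0 50 (by norm_num) _ F0]
  have gd : ∀ i, u' ≤ i → i ≤ V → |L0.Gd (lb M S m a (2 * S.C)) (sb M m a (i + 1))| ≤ 3 * (L * r) :=
    fun i a1 a2 => by
      have e1 := s2 i (uu'.trans a1) a2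
      have e2 := s1 (sb M m a (i + 1)) ⟨t2.trans (A.sb_mono (Nat.succ_le_succ a1)),
        ey ▸ A.sb_mono (Nat.succ_le_succ a2)⟩
      have e3 := mul_le_mul_of_nonneg_left (show jj ≤ r by linarith) Lp0.le
      linarith
  have LF : F ≤ 7 * (L * F) := by linarith [p 0 1 (by norm_num) _ F0]
  have LF2 := mul_le_mul_of_nonneg_right LF (sq_nonneg r)
  have gap1 : ∀ i k', Nx Gn u' V i k' → sb M m a (k' + 1) - sb M m a (i + 1) ≤ L ^ 4 * F :=
    fun i k' n => by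
      have nu := n.up uu' le_rfl
      obtain ⟨a1, a2, a3, g1, g2, -⟩ := id n
      have d0 := sub_nonneg.2 (A.sb_mono (Nat.succ_le_succ a2))
      have cm0 : 0 ≤ o + 2 * L ^ 3 * Γ0 ^ 2 := by positivity
      have e1 := N.e1 i k' (uu'.trans a1) a2 a3 g1 g2
      have e2 := N.clk cm0 a2 fun z b1 b2 => N.c_le gap0 (uu'.trans (a1.trans b1)) (b2.trans a3)
      have e3 := mul_le_mul_of_nonneg_left (add_le_add (gd i a1 (a2.trans a3)) (gd k' (a1.trans a2) a3))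
        o0
      have e4 := mul_le_mul_of_nonneg_right oF Lr.le
      have e5 : L ^ 66 * Γ0 ^ 2 = 16 * r ^ 2 := by
        have : L ^ 66 * Γ0 ^ 2 = (L ^ 33 * Γ0) ^ 2 := by ring
        rw [this, Γr]; ring
      have e6 := A.short53 (i := i) (k := k') (P := L) (r := r) (F := 7 * (L * F))
        (e := 256 * L * η (M.s S.J) + 6 * (L * r) * o) (la := o) (cm := o + 2 * L ^ 3 * Γ0 ^ 2)
        (N.ju.trans_le (uu'.trans a1)) a2 (a3.trans_lt VJ) LC r0 k.θr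
        (fun t ht => fl t ⟨t2.trans ((A.sb_mono (Nat.succ_le_succ a1)).trans ht.1), by
          linarith [ht.2, A.sb_mono (Nat.succ_le_succ a3), h.s_le_C h.i3]⟩)
        (N.gap i k' nu) (by linarith [neg_abs_le (res M S m a (2 * S.C) k' - res M S m a (2 * S.C) i)])
        (N.hg i (uu'.trans a1) (a2.trans a3) g1) (N.hg k' (uu'.trans (a1.trans a2)) a3 g2) N.θ0 θ1
        (by have := N.e0; positivity)
        (by
          linarith [mul_le_mul_of_nonneg_right (p 0 1 (by norm_num) _ F0) (sq_nonneg r),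
            mul_nonneg F0 (sq_nonneg r)])
        o0 (by linarith [p 2 50 (by norm_num) _ o0, mul_nonneg (sq_nonneg L) o0]) cm0
        (by linarith [p 0 50 (by norm_num) _ o0, p 3 66 (by norm_num) _ (sq_nonneg Γ0), sq_nonneg r])
        (by linarith) (by linarith)
      linarith [p 3 4 (by norm_num) _ F0, mul_nonneg (pow_pos Lp0 3).le F0]
  have Γ4 : L ^ 4 * F ≤ L ^ 22 * Γ0 := le_of_mul_le_mul_left (by
    linarith [p 15 50 (by norm_num) _ F0, mul_nonneg (pow_pos Lp0 15).le F0]) (pow_pos Lp0 11)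
  have x4 : 0 ≤ L ^ 4 * F := by positivity
  have nk4 := nk3.resc (N' := log S.n - 1) (Γ' := L ^ 4 * F) (F' := F) (by positivity) (by linarith)
    x4 (by rw [ΓΓ]; exact Γ4)
    (by rw [ΓΓ]; exact mul_le_mul (by linarith) Γ4 x4 (by linarith)) le_rfl
    (by linarith [mul_nonneg (show 0 ≤ log (S.n : ℝ) by linarith) o0]) nF
  obtain ⟨c0, p0, er, tk, b1, b2, b3, b4, b5, b6, b7⟩ := H3 N' le_rfl nk4 gap1 (hp uu') (by linarith)
  rw [← ey] at b6 b7
  have F4 : 1000 * (L ^ 4 * F) ≤ r := by linarith [p 4 50 (by norm_num) _ F0]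
  have c1 : 5 * L ^ 6 * (F + L ^ 4 * F) * r ^ 2 ≤ L ^ 12 * F * r ^ 2 :=
    mul_le_mul_of_nonneg_right (by
      linarith [p 6 12 (by norm_num) _ F0, p 10 12 (by norm_num) _ F0,
        mul_nonneg (pow_pos Lp0 12).le F0]) (sq_nonneg r)
  have θ2 : L / Lg ≤ 1 := (le_mul_of_one_le_left N.θ0 (one_le_pow₀ (by linarith))).trans θ1
  refine ⟨_, _, c0, _, _, _, _, _, _, _, _, _, tk, by linarith, Wd.sh gap1, PT, by linarith,
    by linarith, b4, b5, by linarith [p 0 12 (by norm_num) _ F0],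
    by linarith [p 1 12 (by norm_num) _ F0, mul_nonneg Lp0.le F0], b2, b3.trans ?_,
    (b6 _ ⟨by linarith, by linarith⟩).trans c1, fun t ht =>
    ⟨(b6 t ⟨by linarith [ht.1], by linarith [ht.2]⟩).trans c1,
      (b7 t ⟨by linarith [ht.1], by linarith [ht.2]⟩).trans ?_⟩⟩
  · refine mul_le_mul_of_nonneg_right ?_ (sq_nonneg r)
    linarith [p 4 12 (by norm_num) _ F0, p 8 12 (by norm_num) _ F0,
      mul_nonneg (pow_pos Lp0 12).le F0]
  · linarith [p 7 12 (by norm_num) _ F0, p 11 12 (by norm_num) _ F0,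
      mul_nonneg (pow_pos Lp0 12).le F0]

end Crest.Agent.T156.Alt.L63

end
end

-- ▼ part T156/TLqR_45
section

/-!
Row 156, block (L) (helper45): the spread of the plateau in the linear regime.
-/

set_option autoImplicit false

noncomputable section

namespace Crest.Agent.T156.Alt.Mp9.At

open MeasureTheory Set Real
open Crest.Agent.R164.GC Crest.Agent.R339.B Crest.Agent.R339.Var Crest.Agent.T157.Pf
open Crest.Agent.T156.Pr.Cv25 Crest.Agent.T156.Pr.Reg48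
open Crest.Agent.T156.Alt.L69 (dx dl du ds lsh ap Rp GP)

variable {S : Sc} {M : Md} {m : ℕ} {a T : ℝ}

theorem log45 {p q : ℝ} (p0 : 0 < p) (h : p ≤ q) : (q - p) * (1 / q) ≤ log q - log p := by
  have q0 : 0 < q := p0.trans_le h
  have a := log_le_sub_one_of_pos (div_pos p0 q0)
  rw [log_div p0.ne' q0.ne'] at a
  have e : (q - p) * (1 / q) = 1 - p / q := by field_simp
  linarith

theorem pos45 {d r r' Q n : ℝ} (r0 : 0 < r) (n0 : 0 < n) (h' : r ≤ n * r') (h : d * √r' ≤ Q) :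
    max d 0 ^ 2 ≤ n * (Q ^ 2 * (1 / r)) := by
  rcases le_total d 0 with c | c
  · rw [max_eq_right c, zero_pow two_ne_zero]; positivity
  have r1 : 0 < r' := pos_of_mul_pos_left (b := n) (by nlinarith) n0.le
  have a := pow_le_pow_left₀ (by positivity) h 2
  rw [mul_pow, sq_sqrt r1.le] at a
  rw [max_eq_left c, mul_one_div, ← mul_div_assoc, le_div_iff₀ r0]
  nlinarith [mul_le_mul_of_nonneg_left h' (sq_nonneg d), mul_le_mul_of_nonneg_left a n0.le]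

/-- linear floor at the lower node and concavity -/
theorem mix45 (A : At S M m a T) {i j : ℕ} {μ c la e1 e2 dH : ℝ} (h1 : S.jl < i) (h : i ≤ j)
    (h2 : j ≤ S.Jp) (μ0 : 0 < μ) (c0 : 0 < c) (hl : M.b * la ≤ μ / 2) (e0 : 0 ≤ e2)
    (hK : ∀ s ∈ Ico (sb M m a (i + 1)) (sb M m a (j + 1)), Pr.Reg48.Gd (lb M S m a T) s ≤ -c)
    (hg : M.b * Pr.GG (lb M S m a T) (sb M m a (i + 1)) ≤ 1 - μ)
    (hE : res M S m a T i - res M S m a T j ≤ e1 + e2 + la * (sb M m a (j + 1) - sb M m a (i + 1)))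
    (hH : M.H j - M.H i ≤ dH) :
    (sb M m a (j + 1) - sb M m a (i + 1)) ^ 2 ≤ (2 * (dH + M.b * e1) / μ) ^ 2 + 2 * e2 / c := by
  have mo : sb M m a (i + 1) ≤ sb M m a (j + 1) := A.sb_mono (Nat.succ_le_succ h)
  have r := Mf_conc (g := -μ) A.okb.1 A.b_pos.le (A.sb_mem (h.trans h2)).1 mo
    (by rw [A.okb.2]; exact (A.sb_mem h2).2) hK (by linarith)
  rw [A.Mf_b (h1.trans_le h) h2, A.Mf_b h1 (h.trans h2)] at r
  have b0 := A.b_pos
  have rm := rb_mono (M := M) (a := a) A.m_pos h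
  have t1 : M.b * M.rb m a i / (m + 1) ≤ M.b * M.rb m a j / (m + 1) :=
    div_le_div_of_nonneg_right (mul_le_mul_of_nonneg_left rm b0.le) (by positivity)
  have t2 := mul_le_mul_of_nonneg_left hE b0.le
  have D0 := sub_nonneg.2 mo
  have t3 := mul_le_mul_of_nonneg_right hl D0
  set D := sb M m a (j + 1) - sb M m a (i + 1) with hD
  have t4 : M.b * (c / 2 * D ^ 2) + μ / 2 * D ≤ dH + M.b * e1 + M.b * e2 := by nlinarith
  rcases le_total (μ / 2 * D) (dH + M.b * e1) with d | d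
  · refine le_add_of_le_of_nonneg (pow_le_pow_left₀ D0 ?_ 2) (by positivity)
    rw [le_div_iff₀ μ0]; linarith
  · refine le_add_of_nonneg_of_le (sq_nonneg _) ?_
    have := le_of_mul_le_mul_left (show M.b * (c / 2 * D ^ 2) ≤ M.b * e2 by linarith) b0
    rw [le_div_iff₀ c0]; linarith

/-- **the nodes of the linear spread**: `w` the cut node near the top, `kA` the first controlled
node, `x + er k` the error of the good node that serves the node `k` -/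
structure Sl (S : Sc) (M : Md) (m : ℕ) (a T c0 a0 u x la : ℝ) (er : ℕ → ℝ) (w kA : ℕ) : Prop where
  c1 : 0 < c0 ∧ 2 * S.C * c0 ≤ 1
  a00 : 0 < a0
  u0 : 0 < u ∧ u ≤ 1
  x0 : 0 ≤ x
  er0 : ∀ k, 0 ≤ er k
  k1 : S.J < kA
  k2 : kA ≤ w
  k3 : w < S.Jp
  w1 : 1 - c0 ≤ M.z (w - 1)
  w2 : c0 / 2 ≤ 1 - M.z w
  a01 : a0 ≤ M.z (kA - 1) - M.z (S.J - 1)
  a02 : M.z (kA - 1) - M.z (S.J - 1) ≤ 2 * a0
  lo : ∀ k, kA ≤ k → k ≤ w → ∃ i, S.J ≤ i ∧ i ≤ k ∧
    M.z k - M.z (S.J - 1) ≤ 5 * (M.z i - M.z (S.J - 1)) ∧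
    res M S m a T i - res M S m a T w ≤ x + er k + la * (sb M m a (w + 1) - sb M m a (i + 1))
  hi : ∀ k, w < k → k ≤ S.Jp → u ≤ du M k → ∃ j, k ≤ j ∧ j ≤ S.Jp ∧ du M k ≤ 2 * du M j ∧
    res M S m a T w - res M S m a T j ≤ x + er k + la * (sb M m a (j + 1) - sb M m a (w + 1))

variable {c0 a0 u x la : ℝ} {er : ℕ → ℝ} {w kA : ℕ}

/-- the deficit at the cut node -/
theorem Sl.dfw (h : Sl S M m a T c0 a0 u x la er w kA) (A : At S M m a T) {γ : ℝ}
    (hγ : M.s S.Jp - M.s S.J ≤ γ) :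
    |df36 S M T w| * √(c0 / 2) ≤ S.C * S.θ * γ + √(GP M S) := by
  have C0 := A.c_pos
  have θ0 : 0 ≤ S.θ := (A.ms_pos le_rfl).le.trans (A.cl.ms1 0)
  have γ0 : 0 ≤ γ := le_trans (sub_nonneg.2 (A.cl.sm A.cl.i3)) hγ
  have k1 := h.k1; have k2 := h.k2; have k3 := h.k3
  have zw := A.dz_nn w
  have cc : c0 ≤ 1 / S.C - c0 := by
    rw [le_sub_iff_add_le, le_div_iff₀ C0]; linarith [h.c1.2]
  rcases le_total 0 (df36 S M T w) with d | d
  · rw [abs_of_nonneg d]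
    refine (mul_le_mul_of_nonneg_left (sqrt_le_sqrt ?_) d).trans
      (A.df_plat hγ (by omega) k3.le le_rfl)
    linarith [A.cl.atom.2, h.w1, h.c1.1]
  · rw [abs_of_nonpos d]
    refine ((mul_le_mul_of_nonneg_left (sqrt_le_sqrt ?_) (neg_nonneg.2 d)).trans
      (A.df_up73 (i := w) (by omega) k3.le le_rfl)).trans (le_add_of_nonneg_left (by positivity))
    unfold du; linarith [h.w2]

/-- the residual at the cut node -/
theorem Sl.Gw (h : Sl S M m a T c0 a0 u x la er w kA) (A : At S M m a T) {γ : ℝ}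
    (hγ : M.s S.Jp - M.s S.J ≤ γ) :
    |M.G w| ≤ (S.C * S.θ * γ + √(GP M S)) / √(c0 / 2) + S.C * S.θ * γ := by
  have C0 := A.c_pos
  have θ0 : 0 ≤ S.θ := (A.ms_pos le_rfl).le.trans (A.cl.ms1 0)
  have k1 := h.k1; have k2 := h.k2; have k3 := h.k3; have i2 := A.cl.i2
  have c1 := h.c1.1
  have a := (le_div_iff₀ (by positivity)).2 (h.dfw A hγ)
  obtain ⟨d1, d2⟩ := A.deficit (k := w) (by omega) k3.le
  have p : S.C * S.θ * (M.s S.Jp - M.s w) ≤ S.C * S.θ * γ := mul_le_mul_of_nonneg_left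
    (by linarith [A.cl.sm (show S.J ≤ w by omega)]) (by positivity)
  have p0 : 0 ≤ S.C * S.θ * (M.s S.Jp - M.s w) :=
    mul_nonneg (by positivity) (sub_nonneg.2 (A.cl.sm k3.le))
  obtain ⟨a1, a2⟩ := abs_le.1 a
  unfold df36 at a1 a2
  exact abs_le.2 ⟨by linarith, by linarith⟩

theorem four45 {p q r s μ : ℝ} (μ0 : 0 < μ) :
    (2 * (p + q + r + s) / μ) ^ 2 ≤ 16 / μ ^ 2 * (p ^ 2 + q ^ 2 + r ^ 2 + s ^ 2) := by
  rw [div_pow, div_mul_eq_mul_div]
  refine div_le_div_of_nonneg_right ?_ (by positivity)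
  nlinarith [sq_nonneg (p - q), sq_nonneg (p - r), sq_nonneg (p - s), sq_nonneg (q - r),
    sq_nonneg (q - s), sq_nonneg (r - s)]

set_option maxHeartbeats 400000 in
/-- **the linear spread** -/
theorem Sl.sum (h : Sl S M m a T c0 a0 u x la er w kA) (A : At S M m a T) {γ μ c f Lq : ℝ}
    (hγ : M.s S.Jp - M.s S.J ≤ γ) (μ0 : 0 < μ) (cp : 0 < c) (hl : M.b * la ≤ μ / 2)
    (f2 : f ≤ sb M m a (S.J + 1))
    (fl : ∀ t, f ≤ t → t ≤ sb M m a (w + 1) → M.b * Pr.GG (lb M S m a T) t ≤ 1 - μ)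
    (hu : ∀ t, 0 ≤ t → t < T → 1 - c0 ≤ lvr 1 (lb M S m a T) t → Pr.Reg48.Gd (lb M S m a T) t ≤ -c)
    (L1 : log (1 / a0) ≤ Lq) (L2 : log (2 / u) ≤ Lq) (L3 : 2 / c0 ≤ Lq) :
    ∑ k ∈ Finset.Icc kA S.Jp, dx M k * (sb M m a (k + 1) - sb M m a (w + 1)) ^ 2 ≤
      16 / μ ^ 2 * (10 * Lq * (S.C * S.θ * γ + √(GP M S)) ^ 2 + S.C ^ 2 * x ^ 2 + S.C ^ 2 *
        ∑ k ∈ (Finset.Icc S.J S.Jp).filter fun k => c0 / 4 ≤ du M k, dx M k * er k ^ 2) +
      2 / c * ∑ k ∈ (Finset.Icc S.J S.Jp).filter fun k => u ≤ du M k, dx M k * er k +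
      u * T ^ 2 := by
  have dn : ∀ k, 0 ≤ dx M k := A.dz_nn
  have i2 := A.cl.i2
  have k1 := h.k1; have k2 := h.k2; have k3 := h.k3
  have a00 := h.a00; have x0 := h.x0
  obtain ⟨u0, u1⟩ := h.u0
  obtain ⟨c1, c2⟩ := h.c1
  obtain ⟨b1, b2⟩ := A.b_mem
  have zm := A.cl.leg.zm
  have z1 := A.cl.leg.z1
  have xs : 0 < M.z (S.J - 1) := lt_of_lt_of_le (by have := A.c_pos; positivity) A.cl.atom.1
  obtain ⟨M0, M1⟩ := A.sb_mem k3.le
  have mo := Sc48.lvr_mono A.okb.1.1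
  have dw := h.dfw A hγ
  set Q := S.C * S.θ * γ + √(GP M S) with hQ
  have Q1 : √(GP M S) ≤ Q := by
    have θ0 : 0 ≤ S.θ := (A.ms_pos le_rfl).le.trans (A.cl.ms1 0)
    have γ0 : 0 ≤ γ := le_trans (sub_nonneg.2 (A.cl.sm A.cl.i3)) hγ
    have := A.c_pos
    exact le_add_of_nonneg_left (by positivity)
  have dw2 : |df36 S M T w| ^ 2 ≤ Q ^ 2 * Lq := by
    have := pos45 (r := c0 / 2) (n := 1) (by positivity) one_pos (by linarith) dw
    rw [max_eq_left (abs_nonneg _), one_mul, one_div_div] at this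
    exact this.trans (mul_le_mul_of_nonneg_left L3 (sq_nonneg _))
  have bx : (M.b * x) ^ 2 ≤ S.C ^ 2 * x ^ 2 := by rw [← mul_pow]; gcongr
  have yp : ∀ k, kA ≤ k → 0 < M.z k - M.z (S.J - 1) := fun k hk => by
    linarith [h.a01, zm (show kA - 1 ≤ k by omega)]
  have s := A.spr_sum (kA := kA) (μ := w) (u1 := u) (r := fun k => 16 / μ ^ 2 *
    (5 * (Q ^ 2 * (1 / (M.z k - M.z (S.J - 1)))) + 2 * (Q ^ 2 * (1 / du M k)) + Q ^ 2 * Lq +
      S.C ^ 2 * x ^ 2 + S.C ^ 2 * if c0 / 4 ≤ du M k then er k ^ 2 else 0) + 2 * er k / c)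
    (by omega) k3.le u0.le fun k p q r => by
      have y0 := yp k p
      have e0 := h.er0 k
      have d0 : 0 < du M k := u0.trans_le r
      have n1 : 0 ≤ Q ^ 2 * (1 / (M.z k - M.z (S.J - 1))) := by positivity
      have n2 : 0 ≤ Q ^ 2 * (1 / du M k) := by positivity
      rcases le_or_gt k w with d | d
      · obtain ⟨i, j1, j2, j3, j4⟩ := h.lo k p d
        have fi : f ≤ sb M m a (i + 1) := f2.trans (A.sb_mono (Nat.succ_le_succ j1))
        have r1 := A.lin54 (i := i) (k := w) (dH := max (df36 S M T i) 0 + |df36 S M T w|)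
          (by omega) (by omega) k3.le μ0 hl (fun t t1 t2 => fl t (fi.trans t1) t2) j4 (by
            have := le_max_left (df36 S M T i) 0
            have := neg_abs_le (df36 S M T w)
            unfold df36 at *; linarith)
        have r2 := pos45 (Q := Q) y0 (by norm_num) j3 (A.df_plat hγ j1 (by omega) le_rfl)
        have r3 : (M.b * er k) ^ 2 ≤ S.C ^ 2 * er k ^ 2 := by rw [← mul_pow]; gcongr
        refine ⟨i, Or.inl ⟨j2, d, le_add_of_le_of_nonneg ((pow_le_pow_left₀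
          (sub_nonneg.2 (A.sb_mono (by omega))) r1 2).trans ?_) (by positivity)⟩⟩
        rw [mul_add M.b, ← add_assoc, if_pos (by
          unfold du; linarith [h.w2, zm (show k - 1 ≤ w by omega)])]
        exact (four45 μ0).trans (mul_le_mul_of_nonneg_left (by linarith) (by positivity))
      · obtain ⟨j, j1, j2, j3, j4⟩ := h.hi k d q r
        have r1 := A.mix45 (i := w) (j := j) (dH := max (-df36 S M T j) 0 + |df36 S M T w|)
          (by omega) (by omega) j2 μ0 cp hl e0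
          (fun s hs => hu s (M0.trans hs.1) (hs.2.trans_le (A.sb_mem j2).2) (by
            have := mo hs.1
            rw [A.lvb_node (by omega) k3.le] at this
            linarith [h.w1, A.dz_nn w]))
          (fl _ (f2.trans (A.sb_mono (by omega))) le_rfl) j4 (by
            have := le_max_left (-df36 S M T j) 0
            have := le_abs_self (df36 S M T w)
            unfold df36 at *; linarith)
        have r2 := pos45 d0 two_pos j3 ((A.df_up73 (i := j) (by omega) j2 le_rfl).trans Q1)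
        have r3 : 0 ≤ S.C ^ 2 * if c0 / 4 ≤ du M k then er k ^ 2 else 0 := by
          split_ifs <;> positivity
        refine ⟨j, Or.inr ⟨d.le, j1, r1.trans (add_le_add_left ?_ _)⟩⟩
        rw [← add_zero (_ + M.b * x)]
        exact (four45 μ0).trans (mul_le_mul_of_nonneg_left (by linarith) (by positivity))
  refine le_trans s (add_le_add_left ?_ _)
  set U := (Finset.Icc kA S.Jp).filter (fun k => u ≤ 1 - M.z (k - 1)) with hU
  have eI : Finset.Icc kA S.Jp = Finset.Ioc (kA - 1) S.Jp := by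
    ext j; simp only [Finset.mem_Icc, Finset.mem_Ioc]; omega
  have sub : U ⊆ Finset.Ioc (kA - 1) S.Jp := eI ▸ Finset.filter_subset _ _
  have hk : kA - 1 ≤ S.Jp := by omega
  have S1 : ∑ j ∈ U, dx M j * (1 / (M.z j - M.z (S.J - 1))) ≤ Lq := by
    refine (Finset.sum_le_sum_of_subset_of_nonneg sub fun j hj _ => mul_nonneg (dn j)
      (by have := yp j (by have := Finset.mem_Ioc.1 hj; omega); positivity)).trans
      ((tel73 (φ := fun j => -log (M.z j - M.z (S.J - 1))) hk fun j p _ => ?_).trans ?_)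
    · have := log45 (p := M.z (j - 1) - M.z (S.J - 1)) (q := M.z j - M.z (S.J - 1))
        (by linarith [h.a01, zm (show kA - 1 ≤ j - 1 by omega)]) (by linarith [A.dz_nn j])
      rw [sub_sub_sub_cancel_right] at this
      unfold dx; linarith
    · have a1 := log_le_log a00 h.a01
      have a2 := log_nonpos (yp S.Jp (by omega)).le (by linarith [z1 S.Jp])
      rw [one_div, log_inv] at L1
      linarith
  have S2 : ∑ j ∈ U, dx M j * (1 / du M j) ≤ 2 * Lq := by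
    have lg : ∀ j, dx M j * (1 / (du M j + u)) ≤ log (1 - M.z (j - 1) + u) - log (1 - M.z j + u) :=
      fun j => by
        have := log45 (p := 1 - M.z j + u) (q := 1 - M.z (j - 1) + u) (by linarith [z1 j])
          (by linarith [A.dz_nn j])
        rwa [show 1 - M.z (j - 1) + u - (1 - M.z j + u) = dx M j by unfold dx; ring] at this
    have d0 : ∀ j, 0 < du M j + u := fun j => by unfold du; linarith [z1 (j - 1)]
    refine (Finset.sum_le_sum (g := fun j => 2 * (dx M j * (1 / (du M j + u)))) fun j hj => ?_).trans ?_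
    · have q : u ≤ du M j := (Finset.mem_filter.1 hj).2
      rw [mul_left_comm]
      refine mul_le_mul_of_nonneg_left ?_ (dn j)
      rw [mul_one_div, div_le_div_iff₀ (by linarith) (d0 j)]; linarith
    rw [← Finset.mul_sum]
    refine mul_le_mul_of_nonneg_left ((Finset.sum_le_sum_of_subset_of_nonneg sub fun j _ _ =>
      mul_nonneg (dn j) (by have := d0 j; positivity)).trans
      ((tel73 (φ := fun j => log (1 - M.z j + u)) hk fun j _ _ => lg j).trans ?_)) zero_le_two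
    have a1 := log_le_log (x := 1 - M.z (kA - 1) + u) (y := 2) (by linarith [z1 (kA - 1)])
      (by linarith [h.a01])
    have a2 := log_le_log (y := 1 - M.z S.Jp + u) u0 (by linarith [z1 S.Jp])
    rw [log_div two_ne_zero u0.ne'] at L2
    linarith
  have S3 : ∑ j ∈ U, dx M j ≤ 1 :=
    (Finset.sum_le_sum_of_subset_of_nonneg sub fun j _ _ => dn j).trans (by
      rw [dx_sum73 M hk]; linarith [z1 S.Jp, h.a01])
  have su : U ⊆ Finset.Icc S.J S.Jp := (Finset.filter_subset _ _).trans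
    (Finset.Icc_subset_Icc_left k1.le)
  have S4 : ∑ j ∈ U, dx M j * (if c0 / 4 ≤ du M j then er j ^ 2 else 0) ≤
      ∑ k ∈ (Finset.Icc S.J S.Jp).filter fun k => c0 / 4 ≤ du M k, dx M k * er k ^ 2 := by
    rw [Finset.sum_filter (s := Finset.Icc S.J S.Jp)]
    refine le_trans (Finset.sum_le_sum_of_subset_of_nonneg su fun j _ _ => mul_nonneg (dn j) ?_)
      (le_of_eq (Finset.sum_congr rfl fun j _ => ?_))
    · split_ifs <;> positivity
    · split_ifs <;> simp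
  have S5 : ∑ j ∈ U, dx M j * er j ≤
      ∑ k ∈ (Finset.Icc S.J S.Jp).filter fun k => u ≤ du M k, dx M k * er k :=
    Finset.sum_le_sum_of_subset_of_nonneg (fun j hj => Finset.mem_filter.2
      ⟨su hj, (Finset.mem_filter.1 hj).2⟩) fun j _ _ => mul_nonneg (dn j) (h.er0 j)
  have L0 : 0 ≤ Lq := le_trans (by positivity) L3
  set Y4 := ∑ k ∈ (Finset.Icc S.J S.Jp).filter fun k => c0 / 4 ≤ du M k, dx M k * er k ^ 2
  set Y2 := ∑ k ∈ (Finset.Icc S.J S.Jp).filter fun k => u ≤ du M k, dx M k * er k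
  calc _ = 16 / μ ^ 2 * (5 * Q ^ 2 * ∑ j ∈ U, dx M j * (1 / (M.z j - M.z (S.J - 1))) +
        2 * Q ^ 2 * ∑ j ∈ U, dx M j * (1 / du M j) + (Q ^ 2 * Lq + S.C ^ 2 * x ^ 2) * ∑ j ∈ U, dx M j +
        S.C ^ 2 * ∑ j ∈ U, dx M j * (if c0 / 4 ≤ du M j then er j ^ 2 else 0)) +
        2 / c * ∑ j ∈ U, dx M j * er j := by
        simp only [Finset.mul_sum, ← Finset.sum_add_distrib]
        exact Finset.sum_congr rfl fun j _ => by unfold dx; ring
    _ ≤ 16 / μ ^ 2 * (5 * Q ^ 2 * Lq + 2 * Q ^ 2 * (2 * Lq) + (Q ^ 2 * Lq + S.C ^ 2 * x ^ 2) * 1 +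
        S.C ^ 2 * Y4) + 2 / c * Y2 := by gcongr
    _ = _ := by ring

/-- the first node above a label -/
theorem fst45 {w0 : ℕ} {y : ℝ} (h1 : M.z (S.J - 1) < y) (h2 : y ≤ M.z (w0 - 1)) (h0 : S.J ≤ w0) :
    ∃ p, S.J ≤ p ∧ p < w0 ∧ M.z (p - 1) < y ∧ y ≤ M.z p := by
  classical
  have n : S.J < w0 := lt_of_le_of_ne h0 fun e => by rw [← e] at h2; linarith
  have ex : ∃ p, S.J ≤ p ∧ y ≤ M.z p := ⟨w0 - 1, by omega, h2⟩
  obtain ⟨p1, p2⟩ := Nat.find_spec ex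
  have p3 := Nat.find_min' ex (m := w0 - 1) ⟨by omega, h2⟩
  refine ⟨Nat.find ex, p1, by omega, ?_, p2⟩
  rcases p1.eq_or_lt with e | e
  · rw [← e]; exact h1
  · exact not_le.1 fun c => Nat.find_min ex (m := Nat.find ex - 1) (by omega) ⟨by omega, c⟩

set_option maxHeartbeats 400000 in
/-- **the supply**: the nodes of the linear spread from the good nodes of the plateau -/
theorem sup45 (h : Cl S M) {Pn : ℕ → Prop} {ez : ℕ → ℝ} {u' ω ℓ B K1 : ℝ}
    (P : L62.PN S M m a T Pn ez x la u' ω ℓ B) (uu : u' ≤ u) (u0 : 0 < u) (uc : 4 * u ≤ c0)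
    (ue : S.ue ≤ u) (cC : 2 * S.C * c0 ≤ 1) (s0 : 0 < S.u0) (a1 : 2 * S.u0 ≤ a0)
    (a2 : 2 * S.C * a0 ≤ 1) (K0 : 0 ≤ K1)
    (me : ∀ k, S.J ≤ k → k < S.Jp → u ≤ du M k → 16 * dx M k ≤ ds M S k)
    (cmp : ∀ i k, S.J ≤ i → S.J ≤ k → u ≤ du M k →
      |M.z (i - 1) - M.z (k - 1)| ≤ ds M S k / 2 → ez i ≤ K1 * ez k) :
    ∃ w kA, Pn w ∧ Sl S M m a T c0 a0 u (x + ez w) la (fun k => K1 * ez k) w kA ∧
      c0 / 8 * ez w ^ 2 ≤ K1 ^ 2 *
        ∑ k ∈ (Finset.Icc S.J S.Jp).filter fun k => c0 / 4 ≤ du M k, dx M k * ez k ^ 2 := by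
  have C1 := h.C1
  have C0 : 0 < S.C := by linarith
  have i2 := h.i2; have i3 := h.i3
  have zm := h.leg.zm
  have z1 := h.leg.z1
  have cp : 0 < c0 := by linarith
  have c1 : c0 ≤ 1 / S.C - c0 := by rw [le_sub_iff_add_le, le_div_iff₀ C0]; linarith
  have c2 : a0 ≤ 1 / S.C - a0 := by rw [le_sub_iff_add_le, le_div_iff₀ C0]; linarith
  have c3 : 1 / S.C ≤ 1 := (div_le_one C0).2 C1
  have x1 := h.atom.2
  have la := h.last
  have d1 : ∀ k, ds M S k ≤ M.z (k - 1) - M.z (S.J - 1) + S.u0 := fun k => min_le_left _ _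
  have d2 : ∀ k, ds M S k ≤ 1 - M.z (k - 1) := fun k => min_le_right _ _
  have me' : ∀ k, S.J ≤ k → k < S.Jp → u ≤ 1 - M.z (k - 1) →
      16 * (M.z k - M.z (k - 1)) ≤ ds M S k := me
  have ex : ∀ k, S.J ≤ k → k < S.Jp → u ≤ 1 - M.z k → ∃ i, Pn i ∧ k < i ∧
      M.z i ≤ M.z k + min (M.z k - M.z (S.J - 1) + S.u0) (1 - M.z k) / 4 := fun k p q r =>
    P.ex (k + 1) (by omega) q (uu.trans r)
  obtain ⟨p, p1, p2, p3, p4⟩ := fst45 (S := S) (M := M) (w0 := S.Jp) (y := 1 - c0) (by linarith)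
    (by linarith) i3
  have p5 := me' p p1 p2 (by linarith)
  obtain ⟨w, pw, w1, w2⟩ := ex p p1 p2 (by linarith [d2 p])
  obtain ⟨w3, w4⟩ := P.mem w pw
  have w5 : 1 - c0 ≤ M.z (w - 1) := p4.trans (zm (by omega))
  have w6 : c0 / 2 ≤ 1 - M.z w := by
    linarith [d2 p, min_le_right (M.z p - M.z (S.J - 1) + S.u0) (1 - M.z p)]
  have w7 := zm (Nat.sub_le w 1)
  obtain ⟨q, q1, q2, q3, q4⟩ := fst45 (S := S) (M := M) (w0 := w) (y := M.z (S.J - 1) + a0)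
    (by linarith) (by linarith) w3
  have q5 := me' q q1 (by omega) (by linarith [zm (show q - 1 ≤ w by omega)])
  have e0 := P.ez0
  refine ⟨w, q + 1, pw, ⟨⟨cp, cC⟩, by linarith, ⟨u0, by linarith⟩, add_nonneg P.x00 (e0 w),
    fun k => mul_nonneg K0 (e0 k), by omega, q2, w4, w5, w6, by rw [Nat.add_sub_cancel]; linarith,
    by rw [Nat.add_sub_cancel]; linarith [d1 q], fun k k1 k2 => ?_, fun k k1 k2 k3 => ?_⟩, ?_⟩
  · have y1 : M.z q ≤ M.z (k - 1) := zm (by omega)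
    have y2 : M.z (k - 1) ≤ M.z w := zm (by omega)
    have y3 := d1 k
    have y4 := d2 k
    have D0 : 0 < ds M S k := lt_min (by unfold L69.dl; linarith) (by unfold du; linarith)
    obtain ⟨r, r1, r2, r3, r4⟩ := fst45 (S := S) (M := M) (w0 := k)
      (y := M.z (k - 1) - ds M S k / 2) (by linarith) (by linarith) (by omega)
    have r5 : M.z r ≤ M.z (k - 1) := zm (by omega)
    have r6 := me' r r1 (by omega) (by linarith)
    obtain ⟨i, pi, j1, j2⟩ := ex r r1 (by omega) (by linarith)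
    have r7 : M.z i < M.z (k - 1) := by
      have a1 := d1 r
      have a2 := d2 r
      have a3 := min_le_left (M.z r - M.z (S.J - 1) + S.u0) (1 - M.z r)
      have a4 := min_le_right (M.z r - M.z (S.J - 1) + S.u0) (1 - M.z r)
      rcases min_choice (dl M S k) (du M k) with e | e
      · change ds M S k = M.z (k - 1) - M.z (S.J - 1) + S.u0 at e
        linarith
      · change ds M S k = 1 - M.z (k - 1) at e
        linarith
    have r8 : i < k - 1 := not_le.1 fun c => absurd (zm c) (not_le.2 r7)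
    have r9 : M.z r ≤ M.z (i - 1) := zm (by omega)
    have r10 := zm (Nat.sub_le i 1)
    have r11 := me' k (by omega) (by omega) (by linarith)
    have c := cmp i k (by omega) (by omega) (by unfold du; linarith)
      (abs_le.2 ⟨by linarith, by linarith⟩)
    refine ⟨i, by omega, by omega, by linarith, ?_⟩
    linarith [(abs_le.1 (P.dp i w pi pw (by omega))).1]
  · obtain ⟨j, pj, j1, j2⟩ := P.ex k (by omega) k2 (uu.trans k3)
    have y1 : M.z (k - 1) ≤ M.z (j - 1) := zm (by omega)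
    have y2 := zm (Nat.sub_le j 1)
    have y3 := d2 k
    have c := cmp j k (by omega) (by omega) k3 (abs_le.2 ⟨by linarith, by linarith⟩)
    refine ⟨j, j1, (P.mem j pj).2.le, by unfold du; linarith, ?_⟩
    linarith [(abs_le.1 (P.dp w j pw pj (by omega))).1]
  · obtain ⟨r, r1, r2, r3, r4⟩ := fst45 (S := S) (M := M) (w0 := S.Jp + 1)
      (y := M.z (w - 1) + c0 / 8) (by linarith) (by rw [Nat.add_sub_cancel, h.top _ le_rfl]; linarith) (by omega)
    have r5 : w - 1 < r := not_le.1 fun c => by linarith [zm c]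
    have dn : ∀ k, 0 ≤ dx M k := fun k => sub_nonneg.2 (zm (Nat.sub_le _ _))
    have f : ∀ k ∈ Finset.Ioc (w - 1) r, c0 / 4 ≤ du M k ∧ ez w ≤ K1 * ez k := fun k hk => by
      obtain ⟨k1, k2⟩ := Finset.mem_Ioc.1 hk
      have y1 : M.z (w - 1) ≤ M.z (k - 1) := zm (by omega)
      have y2 : M.z (k - 1) ≤ M.z (r - 1) := zm (by omega)
      have y3 : c0 / 4 ≤ ds M S k := le_min (by unfold L69.dl; linarith) (by unfold du; linarith)
      exact ⟨y3.trans (d2 k), cmp w k w3 (by omega) (by unfold du; linarith)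
        (abs_le.2 ⟨by linarith, by linarith⟩)⟩
    calc c0 / 8 * ez w ^ 2 ≤ (∑ k ∈ Finset.Ioc (w - 1) r, dx M k) * ez w ^ 2 := by
          rw [dx_sum73 M r5.le]; exact mul_le_mul_of_nonneg_right (by linarith) (sq_nonneg _)
      _ ≤ K1 ^ 2 * ∑ k ∈ Finset.Ioc (w - 1) r, dx M k * ez k ^ 2 := by
          rw [Finset.sum_mul, Finset.mul_sum]
          refine Finset.sum_le_sum fun k hk => ?_
          rw [mul_left_comm, ← mul_pow]
          exact mul_le_mul_of_nonneg_left (pow_le_pow_left₀ (e0 w) (f k hk).2 2) (dn k)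
      _ ≤ _ := mul_le_mul_of_nonneg_left (Finset.sum_le_sum_of_subset_of_nonneg
          (fun k hk => Finset.mem_filter.2 ⟨by
            obtain ⟨k1, k2⟩ := Finset.mem_Ioc.1 hk
            exact Finset.mem_Icc.2 ⟨by omega, by omega⟩, (f k hk).1⟩)
          fun k _ _ => mul_nonneg (dn k) (sq_nonneg _)) (sq_nonneg _)

/-- the mesh is fine on the shells -/
theorem mesh45 (h : Cl S M) {k : ℕ} (h1 : S.J ≤ k) (h2 : k < S.Jp)
    (hf : 16 * (S.C * S.v) ≤ lsh M S k) : 16 * dx M k ≤ ds M S k := by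
  have d0 := h.den0 (M.z (k - 1))
  have a := (h.plat k h1 h2).2
  unfold lsh at hf
  refine le_of_mul_le_mul_left ?_ d0
  unfold dx
  linarith

/-- the size is comparable on the two-sided shell -/
theorem ap45 (h : Cl S M) {Xp V γ : ℝ} (X0 : 0 < Xp) (V0 : 0 ≤ V) (g0 : 0 ≤ γ) (w0 : 0 ≤ S.w3 1)
    (s0 : 0 < S.u0) {i k : ℕ} (hi : S.J ≤ i) (hk : S.J ≤ k) (u0 : 0 < du M k)
    (hd : |M.z (i - 1) - M.z (k - 1)| ≤ ds M S k / 2) :
    ap M S Xp V γ i ≤ 16 * S.C * ap M S Xp V γ k := by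
  have C1 := h.C1
  have C0 : 0 < S.C := by linarith
  have d1 := h.den0 (M.z (k - 1))
  have d2 := h.den0 (M.z (i - 1))
  have zi : M.z (S.J - 1) ≤ M.z (i - 1) := h.leg.zm (by omega)
  have zk : M.z (S.J - 1) ≤ M.z (k - 1) := h.leg.zm (by omega)
  have l1 : ds M S k ≤ M.z (k - 1) - M.z (S.J - 1) + S.u0 := min_le_left _ _
  have l2 : ds M S k ≤ 1 - M.z (k - 1) := min_le_right _ _
  obtain ⟨h1, h2⟩ := abs_le.1 hd
  have u0' : 0 < 1 - M.z (k - 1) := u0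
  have D0 : 0 < ds M S k := lt_min (by unfold L69.dl; linarith) u0
  have s1 : ds M S k / 2 ≤ ds M S i := le_min (by unfold L69.dl; linarith) (by unfold du; linarith)
  have D1 : 0 < ds M S i := by linarith
  have den : S.den (M.z (k - 1)) ≤ S.C * S.den (M.z (i - 1)) ∧
      S.den (M.z (i - 1)) ≤ S.C * S.den (M.z (k - 1)) := by
    rcases le_total (M.z (k - 1)) (M.z (i - 1)) with e | e
    · exact h.dens _ _ zk e (by linarith) (le_min (by linarith) (by linarith))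
    · exact (h.dens _ _ zi e (by linarith) (le_min (by linarith) (by linarith))).symm
  have p3 : (Xp ^ ((1 : ℝ) / 3)) ^ 3 = Xp := by
    rw [← rpow_natCast, ← rpow_mul X0.le]; norm_num
  have p0 : 0 < Xp ^ ((1 : ℝ) / 3) := rpow_pos_of_pos X0 _
  have r1 : Rp M S Xp V γ i + Xp ^ ((1 : ℝ) / 3) ≤ 2 * (Rp M S Xp V γ k + Xp ^ ((1 : ℝ) / 3)) := by
    have d : du M k ≤ 4 * du M i := by unfold du; linarith
    have a1 : √(Xp / max (dl M S i - S.u0) (Xp ^ ((1 : ℝ) / 3))) ≤ Xp ^ ((1 : ℝ) / 3) := by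
      refine sqrt_le_iff.2 ⟨p0.le, ?_⟩
      refine (div_le_div_of_nonneg_left X0.le p0 (le_max_right _ _)).trans ?_
      rw [div_le_iff₀ p0]
      linarith [p3, pow_succ (Xp ^ ((1 : ℝ) / 3)) 2]
    have a2 : √(Xp / du M i) ≤ 2 * √(Xp / du M k) := by
      refine sqrt_le_iff.2 ⟨by positivity, ?_⟩
      rw [mul_pow, sq_sqrt (by positivity), ← mul_div_assoc, div_le_div_iff₀ (by linarith) u0]
      linarith [mul_le_mul_of_nonneg_left d X0.le]
    have a3 : min V √(Xp / du M i) ≤ 2 * min V √(Xp / du M k) := by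
      rcases le_total V √(Xp / du M k) with e | e
      · rw [min_eq_left e]; linarith [min_le_left V √(Xp / du M i)]
      · rw [min_eq_right e]; linarith [min_le_right V √(Xp / du M i)]
    unfold Rp
    linarith [sqrt_nonneg (Xp / max (dl M S k - S.u0) (Xp ^ ((1 : ℝ) / 3)))]
  have r0 : 0 ≤ Rp M S Xp V γ i + Xp ^ ((1 : ℝ) / 3) := by unfold Rp; positivity
  have e1 : ds M S k ^ 2 ≤ 4 * ds M S i ^ 2 := by nlinarith
  have e2 : ds M S k ^ 2 * S.den (M.z (k - 1)) ≤ 4 * S.C * (ds M S i ^ 2 * S.den (M.z (i - 1))) :=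
    (mul_le_mul e1 den.1 d1.le (by positivity)).trans (by ring_nf; rfl)
  have e3 : ∀ x, 0 ≤ x → x / (ds M S i ^ 2 * S.den (M.z (i - 1))) ≤
      4 * S.C * (x / (ds M S k ^ 2 * S.den (M.z (k - 1)))) := fun x x0 => by
    rw [← mul_div_assoc, div_le_div_iff₀ (by positivity) (by positivity)]
    linarith [mul_le_mul_of_nonneg_left e2 x0]
  have l0 : 0 < lsh M S k := mul_pos d1 D0
  have l1 : 0 < lsh M S i := mul_pos d2 D1
  have b3 : √(S.w3 1 / lsh M S i) ≤ 16 * S.C * √(S.w3 1 / lsh M S k) := by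
    refine sqrt_le_iff.2 ⟨by positivity, ?_⟩
    rw [mul_pow, sq_sqrt (by positivity), ← mul_div_assoc, div_le_div_iff₀ l1 l0]
    have a1 : lsh M S k ≤ 2 * S.C * lsh M S i :=
      (mul_le_mul den.1 (show ds M S k ≤ 2 * ds M S i by linarith) D0.le (by positivity)).trans
        (by unfold lsh; ring_nf; rfl)
    have a2 : 2 * S.C ≤ (16 * S.C) ^ 2 := by nlinarith
    linarith [mul_le_mul_of_nonneg_left (a1.trans (mul_le_mul_of_nonneg_right a2 l1.le)) w0]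
  have b2 : S.w3 1 / (S.den (M.z (i - 1)) * ds M S i ^ 2) ≤
      16 * S.C * (S.w3 1 / (S.den (M.z (k - 1)) * ds M S k ^ 2)) := by
    rw [mul_comm (S.den _), mul_comm (S.den _)]
    refine (e3 _ w0).trans (mul_le_mul_of_nonneg_right (by linarith) (by positivity))
  have b1 : S.w3 1 * (S.den (M.z (i - 1)) + (Rp M S Xp V γ i + Xp ^ ((1 : ℝ) / 3)) ^ 2 /
      (ds M S i ^ 2 * S.den (M.z (i - 1)))) ≤ 16 * S.C * (S.w3 1 * (S.den (M.z (k - 1)) +
      (Rp M S Xp V γ k + Xp ^ ((1 : ℝ) / 3)) ^ 2 / (ds M S k ^ 2 * S.den (M.z (k - 1))))) := by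
    have a1 := pow_le_pow_left₀ r0 r1 2
    generalize Rp M S Xp V γ i + Xp ^ ((1 : ℝ) / 3) = x at a1
    generalize Rp M S Xp V γ k + Xp ^ ((1 : ℝ) / 3) = y at a1
    rw [mul_left_comm]
    refine mul_le_mul_of_nonneg_left ?_ w0
    have a2 : x ^ 2 / (ds M S k ^ 2 * S.den (M.z (k - 1))) ≤
        4 * (y ^ 2 / (ds M S k ^ 2 * S.den (M.z (k - 1)))) := by
      rw [← mul_div_assoc]
      exact div_le_div_of_nonneg_right (by linarith) (by positivity)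
    linarith [e3 _ (sq_nonneg x), mul_le_mul_of_nonneg_left a2 (by positivity : 0 ≤ 4 * S.C),
      den.2, mul_pos C0 d1]
  have b0 := rpow_le_rpow (by positivity) b1 (by norm_num : (0 : ℝ) ≤ 1 / 3)
  rw [mul_rpow (x := 16 * S.C) (by positivity) (by positivity)] at b0
  have b4 := b0.trans (mul_le_mul_of_nonneg_right (rpow_le_self_of_one_le
    (by linarith : 1 ≤ 16 * S.C) (by norm_num : (1 : ℝ) / 3 ≤ 1)) (by positivity))
  unfold ap
  linarith

end Crest.Agent.T156.Alt.Mp9.At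

end
end

-- ▼ part T156/TLqU_45

/-!
Row 156, block (L) (helper45): the spread of the plateau in the linear regime, on the numbers `LQ`.
-/

set_option autoImplicit false

noncomputable section

namespace Crest.Agent.T156.Alt.L63

open Set Real
open Crest.Agent.T156.Alt.L69 Crest.Agent.T156.Alt.Mp9 Crest.Agent.T156.Alt.Mp9.At

/-- **the cut node `w`, the first controlled node `kA`, the spread** -/
structure Sw (L : ℝ) (S : Sc) (M : Md) (m : ℕ) (a X2 aa R2 x : ℝ) (Pn : ℕ → Prop) (w kA : ℕ) :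
    Prop where
  pw : Pn w
  k1 : S.J < kA
  k2 : kA ≤ w
  k3 : w < S.Jp
  w1 : 1 ≤ L * (1 - M.z w)
  w2 : 1 ≤ L * (M.z (w - 1) - M.z (S.J - 1))
  cz : ∃ c0, 2 ≤ c0 * L ∧ 2 * S.C * c0 ≤ 1 ∧ 1 - c0 ≤ M.z (w - 1) ∧ c0 / 2 ≤ 1 - M.z w
  a1 : M.z (kA - 1) - M.z (S.J - 1) ≤ 4 * aa
  conc : ∀ t ∈ Ico (sb M m a (w + 1)) (2 * S.C), Pr.Reg48.Gd (lb M S m a (2 * S.C)) t ≤ 0
  er : x ≤ L ^ 7 * (S.θ * √R2)
  Gw : |M.G w| ≤ L ^ 2 * (S.θ * √R2)
  γR : M.s S.Jp - M.s S.J ≤ √R2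
  XR : X2 ≤ √R2
  nR : 1 / (S.n : ℝ) ≤ S.θ * √R2
  sum : ∀ μ f, S.θ ≤ L ^ 3 * μ → S.C * (L * X2) ≤ μ / 2 → f ≤ sb M m a (S.J + 1) →
    (∀ t, f ≤ t → t ≤ sb M m a (w + 1) → M.b * Pr.GG (lb M S m a (2 * S.C)) t ≤ 1 - μ) →
    ∑ k ∈ Finset.Icc kA S.Jp, dx M k * (sb M m a (k + 1) - sb M m a (w + 1)) ^ 2 ≤
      (L ^ 10 * √R2) ^ 2

set_option maxHeartbeats 1600000 in
/-- **the linear spread** -/
theorem spq45 (T0 : ℝ) : ∃ K : ℝ, ∀ {S : Sc} {M : Md} {m : ℕ} {a E L G1 u1 u2 j γ Lc ηc τ l0 l X Xp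
    Vt Lg Lp X2 X3 X4 G0 N t1 tu ℓ En p0 aa g' R2 D ω B : ℝ} {η g : ℝ → ℝ} {Pn : ℕ → Prop},
    Cx E L S M m a G1 u1 u2 j γ Lc ηc τ l0 l X Xp Vt Lg Lp X2 X3 X4 G0 η N g t1 tu ℓ En p0 →
    2 * S.C ≤ T0 → K ≤ L → LQ E S M X Xp Vt Lg Lp X2 G0 u1 u2 j γ η aa g' R2 → aa ≤ D →
    D ≤ L ^ 3 * √S.θ →
    L62.PN S M m a (2 * S.C) Pn (fun k => L * (Lg ^ 2 * ap M S Xp Vt γ k) ^ 2)
      (L * eQ S M X Xp Vt Lg Lp X2 G0 u1 j γ D η) (L * X2) (8 * u2) ω aa B →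
    ∃ w kA, Sw L S M m a X2 aa R2
      (L * eQ S M X Xp Vt Lg Lp X2 G0 u1 j γ D η + L * (Lg ^ 2 * ap M S Xp Vt γ w) ^ 2) Pn w kA := by
  obtain ⟨uc, c, uc0, cp, hu⟩ := Pr.Reg48.Gd_neg T0
  obtain ⟨c0, c00, c01, c02⟩ : ∃ c0, 0 < c0 ∧ c0 ≤ uc ∧ c0 * (|T0| + 1) ≤ 1 :=
    ⟨min uc (1 / (|T0| + 1)), by positivity, min_le_left _ _,
      (le_div_iff₀ (by positivity)).1 (min_le_right _ _)⟩
  refine ⟨32 / c0 + 1 / c, fun {S M m a E L G1 u1 u2 j γ Lc ηc τ l0 l X Xp Vt Lg Lp X2 X3 X4 G0 N t1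
    tu ℓ En p0 aa g' R2 D ω B η g Pn} H hT hK Q aD Dθ P => ?_⟩
  have h := H.cl
  have A := H.A
  have C1 := h.C1
  have C0 := h.C0
  have L9 := H.L9
  have L1 := H.L1
  have L0 : 0 < L := by linarith
  have LE := H.LE1
  have θ0 := h.θ0
  have θ1 := H.θ1
  have n0 := h.N0
  have μ0 := H.μ0
  have i1 : 0 < 32 / c0 := by positivity
  have i2 : 0 < 1 / c := by positivity
  have Lc0 : 32 ≤ L * c0 := (div_le_iff₀ c00).1 (by linarith)
  have Ec0 : 32 ≤ E * c0 := Lc0.trans (mul_le_mul_of_nonneg_right LE c00.le)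
  have cC : 2 * S.C * c0 ≤ 1 := by
    linarith only [c02, c00, mul_le_mul_of_nonneg_right (hT.trans (le_abs_self T0)) c00.le]
  have s0 := H.lp.u0
  have a0 : 0 < aa := s0.trans_le Q.a5
  have dn : ∀ k, 0 ≤ dx M k := A.dz_nn
  have u10 : 0 ≤ u1 := by linarith [H.lp.u1a, h.last, h.leg.z1 (S.Jp - 1)]
  have u20 : 0 ≤ u2 := u10.trans H.lp.u1b.1
  have γ0 : 0 ≤ γ := le_trans (sub_nonneg.2 (h.sm h.i3)) H.lp.γ0
  have X20 := H.X20
  have Xp0 := H.lp.Xp0.1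
  have V0 := H.lp.Vt0
  have w0 := H.w30 one_pos
  have R0 : 0 ≤ R2 := le_trans (by positivity) Q.q4
  obtain ⟨s, s1, s2⟩ : ∃ s, s = √R2 ∧ s ^ 2 = R2 := ⟨_, rfl, sq_sqrt R0⟩
  have s3 : 0 ≤ s := s1 ▸ sqrt_nonneg _
  have sq : ∀ {y z : ℝ}, 0 ≤ z → y ^ 2 ≤ z ^ 2 → y ≤ z := fun z0 e => (abs_le_of_sq_le_sq' e z0).2
  have γs : γ ≤ s := sq s3 (by linarith [Q.q4, sq_nonneg X2])
  have Xs : X2 ≤ s := sq s3 (by linarith [Q.q4, sq_nonneg γ])
  have GP0 : 0 ≤ GP M S := Finset.sum_nonneg fun k _ => mul_nonneg (dn k) (sq_nonneg _)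
  have q1 := Q.q1
  have ρ0 : 0 ≤ S.θ * s := by positivity
  have ρ2 : (S.θ * s) ^ 2 = S.θ ^ 2 * R2 := by rw [mul_pow, s2]
  have e1 : eQ S M X Xp Vt Lg Lp X2 G0 u1 j γ (√S.θ) η ≤ S.θ * s := sq ρ0 (by linarith)
  have j0 : 0 ≤ j := le_trans (by positivity) H.ap.j0
  have Np0 : 0 ≤ Np M S Xp Vt γ u1 Lp 2 := add_nonneg u10 (Finset.sum_nonneg fun k _ => by
    have r : 0 ≤ Rp M S Xp Vt γ k := by unfold Rp; positivity
    have := dn k
    have : 0 ≤ Lp := by linarith [H.lp.Lp1.1]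
    positivity)
  have XR := H.R0
  have e2 : eQ S M X Xp Vt Lg Lp X2 G0 u1 j γ D η ≤ L ^ 5 * (S.θ * s) := by
    refine le_trans ?_ (mul_le_mul_of_nonneg_left e1 (by positivity))
    have D0 : 0 ≤ D := a0.le.trans aD
    have η0 : 0 ≤ η 1 := μ0.le.trans (H.μη H.l1 C1)
    have one : ∀ {y : ℝ} (k : ℕ), 0 ≤ y → y ≤ L ^ k * y := fun k y0 =>
      le_mul_of_one_le_left y0 (one_le_pow₀ L1)
    have b1 : D ≤ L ^ 5 * √S.θ := Dθ.trans (mul_le_mul_of_nonneg_right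
      (pow_le_pow_right₀ L1 (by norm_num)) (sqrt_nonneg _))
    have b2 : S.θ + j + X ^ ((1 : ℝ) / 3) + D ≤ L ^ 5 * (S.θ + j + X ^ ((1 : ℝ) / 3) + √S.θ) := by
      linarith only [b1, one (y := S.θ + j + X ^ ((1 : ℝ) / 3)) 5 (by positivity)]
    have b3 : D ^ 3 ≤ L ^ 10 * √S.θ ^ 3 := (pow_le_pow_left₀ D0 Dθ 3).trans (by
      rw [mul_pow, ← pow_mul]
      exact mul_le_mul_of_nonneg_right (pow_le_pow_right₀ L1 (by norm_num)) (by positivity))
    have b4 : √(S.w3 1 * (Xp + D ^ 3 + γ ^ 3)) ≤ L ^ 5 * √(S.w3 1 * (Xp + √S.θ ^ 3 + γ ^ 3)) := by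
      refine sqrt_le_iff.2 ⟨by positivity, ?_⟩
      rw [mul_pow, sq_sqrt (by positivity), ← pow_mul, mul_left_comm, show 5 * 2 = 10 from rfl]
      exact mul_le_mul_of_nonneg_left
        (by linarith only [b3, one (y := Xp + γ ^ 3) 10 (by positivity)]) w0.le
    unfold eQ
    linarith only [b4, mul_le_mul_of_nonneg_left b2 (sq_nonneg (uw S Lg 1)),
      one (y := η 1 + G0 ^ 2 + Np M S Xp Vt γ u1 Lp 2 + X2 * Xp ^ ((1 : ℝ) / 3)) 5 (by positivity)]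
  have e3 : 1 / (S.n : ℝ) ≤ S.θ * s := by
    refine ((H.μη H.l1 C1).trans ?_).trans e1
    unfold eQ
    rw [add_assoc, add_assoc, add_assoc, add_assoc]
    exact le_add_of_nonneg_right (by positivity)
  have g1 : √(GP M S) ≤ S.θ * s := sq ρ0 (by
    rw [sq_sqrt GP0]; linarith [sq_nonneg (eQ S M X Xp Vt Lg Lp X2 G0 u1 j γ (√S.θ) η)])
  have g2 : S.C * S.θ * γ ≤ S.C * (S.θ * s) := by rw [mul_assoc]; gcongr
  have g3 : S.C * S.θ * γ + √(GP M S) ≤ 2 * S.C * (S.θ * s) := by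
    linarith [le_mul_of_one_le_left ρ0 C1]
  have m1 : E * (1 / S.n) ≤ 1 := H.μl'.trans H.l1
  have m2 : 1 / (S.n : ℝ) ≤ 1 := (le_mul_of_one_le_left μ0.le H.E1).trans m1
  have m3 : (1 / (S.n : ℝ)) ^ 2 ≤ 1 / S.n := pow_le_of_le_one μ0.le m2 two_ne_zero
  have dv : ∀ {y : ℝ}, 0 ≤ y → E * y ≤ 1 → 32 * y ≤ c0 := fun y0 e => by
    linarith only [mul_le_mul_of_nonneg_right Ec0 y0, mul_le_mul_of_nonneg_left e c00.le]
  obtain ⟨u, uu, un, u0, uc4, uR⟩ : ∃ u, 8 * u2 ≤ u ∧ (1 / (S.n : ℝ)) ^ 2 ≤ u ∧ 0 < u ∧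
      4 * u ≤ c0 ∧ u ≤ 8 * R2 := by
    have b1 := dv u20 H.lp.u1b.2
    have b2 := dv μ0.le m1
    have b3 : (1 / (S.n : ℝ)) ^ 2 ≤ R2 := by
      rw [← s2]; exact pow_le_pow_left₀ μ0.le (e3.trans (mul_le_of_le_one_left s3 θ1)) 2
    have b4 : u2 ≤ R2 := by linarith [Q.q4, sq_nonneg X2, sq_nonneg γ]
    rcases le_total (8 * u2) ((1 / (S.n : ℝ)) ^ 2) with e | e
    · exact ⟨_, e, le_rfl, by positivity, by linarith, by linarith⟩
    · exact ⟨_, le_rfl, e, lt_of_lt_of_le (by positivity) e, by linarith, by linarith⟩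
  have u1u : u1 ≤ u := by linarith [H.lp.u1b.1]
  have aE : E * aa ≤ 1 := by
    have sJ : 0 < M.s S.J := h.s_pos (by have := h.i2; omega)
    have b0 : 0 ≤ bs S Lg X2 g' η (M.s S.J) := by
      have := (H.μη (t := S.C) (H.l1.trans C1) le_rfl).trans (H.ln.ηa (h.s_le_C h.i3))
      have : 0 ≤ η (M.s S.J) := by linarith
      have := h.ms_pos sJ.le
      have := Q.g0
      rw [bs, H.mf_eq]; positivity
    exact (mul_le_mul_of_nonneg_left (by linarith) (by linarith)).trans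
      (Q.sm.trans (sqrt_le_one.2 θ1))
  have an : 1 / (S.n : ℝ) ≤ aa := by
    have b1 : 1 / (S.n : ℝ) ≤ S.w3 1 := by
      unfold Sc.w3
      rw [H.lt.F1, mul_one]
      exact one_div_le_one_div_of_le (mul_pos n0 θ0) (mul_le_of_le_one_right n0.le θ1)
    have b2 := (le_mul_of_one_le_left w0.le (one_le_pow₀ (n := 3) H.E1)).trans Q.a3
    refine le_of_pow_le_pow_left₀ three_ne_zero a0.le (le_trans ?_ (b1.trans b2))
    exact pow_le_of_le_one μ0.le m2 three_ne_zero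
  have K1 : (16 * S.C) ^ 2 ≤ L := by linarith only [H.KL (c := 256) 2 (by norm_num)]
  obtain ⟨w, kA, pw, Z, av⟩ := sup45 (c0 := c0) (a0 := 2 * aa) (u := u) (K1 := L) h P uu u0 uc4
    (H.lp.u1a.trans u1u) cC s0 (by linarith only [Q.a5])
    (by linarith only [H.dv (c := 4 * S.C) (by linarith only [H.CE, C0]) a0.le aE]) L0.le
    (fun k p q r => mesh45 h p q (by
      have := (div_le_iff₀' n0).2 (H.ap.jn.fine k p q.le (u1u.trans r))
      linarith only [this, H.Cv, mul_pos C0 h.v0]))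
    fun i k p q r d => by
      have b1 := ap45 h Xp0 V0 γ0 w0.le s0 p q (u0.trans_le r) d
      have b0 : 0 ≤ ap M S Xp Vt γ i := by
        have := h.den0 (M.z (i - 1))
        unfold ap; positivity
      calc L * (Lg ^ 2 * ap M S Xp Vt γ i) ^ 2
          ≤ L * (Lg ^ 2 * (16 * S.C * ap M S Xp Vt γ k)) ^ 2 := by gcongr
        _ = (16 * S.C) ^ 2 * (L * (Lg ^ 2 * ap M S Xp Vt γ k) ^ 2) := by ring
        _ ≤ _ := by gcongr
  have Y4 : ∑ k ∈ (Finset.Icc S.J S.Jp).filter fun k => c0 / 4 ≤ du M k,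
      dx M k * (L * (Lg ^ 2 * ap M S Xp Vt γ k) ^ 2) ^ 2 ≤ L ^ 2 * (S.θ * s) ^ 2 := by
    rw [ρ2]
    refine le_trans ?_ (mul_le_mul_of_nonneg_left Q.q2 (sq_nonneg L))
    rw [Finset.mul_sum]
    refine (Finset.sum_le_sum_of_subset_of_nonneg (fun k hk => ?_)
      fun k _ _ => mul_nonneg (dn k) (sq_nonneg _)).trans
      (le_of_eq (Finset.sum_congr rfl fun k _ => by ring))
    obtain ⟨k1, k2⟩ := Finset.mem_filter.1 hk
    exact Finset.mem_filter.2 ⟨k1, by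
      linarith only [Ec0, mul_le_mul_of_nonneg_left k2 (L0.le.trans LE)]⟩
  have x0 := Z.x0
  have ew := P.ez0 w
  set ez := L * (Lg ^ 2 * ap M S Xp Vt γ w) ^ 2 with hez
  have e4 : 4 * ez ^ 2 ≤ L ^ 5 * (S.θ * s) ^ 2 := by
    have b1 := mul_le_mul_of_nonneg_left (av.trans (mul_le_mul_of_nonneg_left Y4 (sq_nonneg L))) L0.le
    have b2 := mul_le_mul_of_nonneg_right Lc0 (sq_nonneg ez)
    linarith only [b1, b2]
  have e5 := mul_le_mul_of_nonneg_left e2 L0.le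
  have e6 := P.x00
  set x := L * eQ S M X Xp Vt Lg Lp X2 G0 u1 j γ D η with hx
  have pw' : ∀ {i k : ℕ} {y : ℝ}, 0 ≤ y → i < k → 1000 * (L ^ i * y) ≤ L ^ k * y := fun {i k y} y0 e => by
    rw [← mul_assoc]
    refine mul_le_mul_of_nonneg_right (le_trans ?_ (pow_le_pow_right₀ L1 (Nat.succ_le_of_lt e))) y0
    rw [pow_succ']
    exact mul_le_mul_of_nonneg_right (by linarith only [L9]) (by positivity)
  have ρ3 := sq_nonneg (S.θ * s)
  have e7 : (x + ez) ^ 2 ≤ L ^ 13 * (S.θ * s) ^ 2 := by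
    have b1 : x ^ 2 ≤ L ^ 12 * (S.θ * s) ^ 2 := (pow_le_pow_left₀ e6 e5 2).trans (le_of_eq (by ring))
    have b2 := pw' (i := 12) (k := 13) ρ3 (by norm_num)
    have b3 := pw' (i := 5) (k := 13) ρ3 (by norm_num)
    linarith only [sq_nonneg (x - ez), b1, b2, b3, e4, mul_nonneg (pow_pos L0 13).le ρ3]
  have cc : 2 * c0 ≤ 1 / S.C := by rw [le_div_iff₀ C0]; linarith only [cC]
  have hu' : ∀ t, 0 ≤ t → t < 2 * S.C → 1 - c0 ≤ T157.Pf.lvr 1 (lb M S m a (2 * S.C)) t →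
      Pr.Reg48.Gd (lb M S m a (2 * S.C)) t ≤ -c := fun t t0 t1 z =>
    hu _ A.okb.1 (A.okb.2.trans_le hT) t t0 (by rwa [A.okb.2]) (by linarith only [z, c01])
  refine ⟨w, kA, pw, Z.k1, Z.k2, Z.k3, ?_, ?_,
    ⟨c0, by linarith only [Lc0], cC, Z.w1, Z.w2⟩, by linarith only [Z.a02], fun t ht => ?_, ?_, ?_,
    s1 ▸ H.lp.γ0.trans γs, s1 ▸ Xs, s1 ▸ e3, fun μ f hμ hl f2 fl => ?_⟩
  · linarith only [mul_le_mul_of_nonneg_left Z.w2 L0.le, Lc0]
  · linarith only [mul_le_mul_of_nonneg_left (show c0 ≤ M.z (w - 1) - M.z (S.J - 1) by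
      linarith only [Z.w1, h.atom.2, cc]) L0.le, Lc0]
  · have k3 := Z.k3.le
    have := Sc48.lvr_mono A.okb.1.1 ht.1
    rw [A.lvb_node (by have := Z.k1; have := Z.k2; have := h.i2; omega) k3] at this
    linarith only [cp, hu' t ((A.sb_mem k3).1.trans ht.1) ht.2
      (by linarith only [Z.w1, A.dz_nn w, this])]
  · rw [← s1]
    refine sq (by positivity) (e7.trans ?_)
    rw [mul_pow (L ^ 7), ← pow_mul]
    exact mul_le_mul_of_nonneg_right (pow_le_pow_right₀ L1 (by norm_num)) ρ3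
  · rw [← s1]
    have b1 : 1 ≤ L * √(c0 / 2) := by
      rw [← sqrt_sq L0.le, ← sqrt_mul (sq_nonneg _)]
      exact one_le_sqrt.2 (by linarith only [mul_le_mul_of_nonneg_left Lc0 L0.le, L1])
    have b2 : (S.C * S.θ * γ + √(GP M S)) / √(c0 / 2) ≤ L * (2 * S.C * (S.θ * s)) := by
      rw [div_le_iff₀ (by positivity)]
      linarith only [g3, mul_le_mul_of_nonneg_right b1 (show 0 ≤ 2 * S.C * (S.θ * s) by positivity)]
    have b3 := mul_le_mul_of_nonneg_right (show 3 * S.C ≤ L by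
      linarith only [H.KL (c := 3) 1 (by norm_num)]) (mul_nonneg L0.le ρ0)
    have b4 := le_mul_of_one_le_left (mul_nonneg C0.le ρ0) L1
    linarith only [Z.Gw A H.lp.γ0, b2, b3, b4, g2]
  · have μp : 0 < μ := pos_of_mul_pos_left (b := L ^ 3) (by linarith only [hμ, θ0])
      (by positivity)
    have r := Z.sum A (Lq := 3 * L) H.lp.γ0 μp cp
      ((mul_le_mul_of_nonneg_right h.b1 (by positivity)).trans hl) f2 fl hu'
      (le_trans (log_le_log (by positivity) (show 1 / (2 * aa) ≤ S.n by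
        rw [div_le_iff₀ (by positivity)]
        rw [div_le_iff₀ n0] at an
        linarith only [an, mul_pos a0 n0])) (by linarith only [H.lg, L0]))
      (le_trans (log_le_log (by positivity) (show 2 / u ≤ 2 * (S.n : ℝ) ^ 2 by
        rw [div_le_iff₀ u0]
        rw [div_pow, one_pow, div_le_iff₀ (by positivity)] at un
        linarith only [un])) (by
        rw [log_mul two_ne_zero (by positivity), log_pow]
        push_cast
        linarith only [H.lg, log_two_lt_d9, L1]))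
      (by rw [div_le_iff₀ c00]; linarith only [Lc0])
    refine r.trans ?_
    have y4 : ∑ k ∈ (Finset.Icc S.J S.Jp).filter fun k => c0 / 4 ≤ du M k,
        dx M k * (L * (L * (Lg ^ 2 * ap M S Xp Vt γ k) ^ 2)) ^ 2 ≤ L ^ 4 * (S.θ * s) ^ 2 := by
      have := mul_le_mul_of_nonneg_left Y4 (sq_nonneg L)
      rw [Finset.mul_sum] at this
      exact (le_of_eq (Finset.sum_congr rfl fun k _ => by ring)).trans (this.trans (le_of_eq (by ring)))
    have y2 : ∑ k ∈ (Finset.Icc S.J S.Jp).filter fun k => u ≤ du M k,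
        dx M k * (L * (L * (Lg ^ 2 * ap M S Xp Vt γ k) ^ 2)) ≤ L ^ 2 * R2 := by
      refine le_trans ?_ (mul_le_mul_of_nonneg_left Q.q3 (sq_nonneg L))
      rw [Finset.mul_sum]
      refine (Finset.sum_le_sum_of_subset_of_nonneg (fun k hk => ?_)
        fun k _ _ => mul_nonneg (dn k) (by positivity)).trans
        (le_of_eq (Finset.sum_congr rfl fun k _ => by ring))
      obtain ⟨k1, k2⟩ := Finset.mem_filter.1 hk
      exact Finset.mem_filter.2 ⟨k1, by linarith only [k2, uu, u20]⟩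
    have z1 : 16 / μ ^ 2 * (S.θ * s) ^ 2 ≤ 16 * (L ^ 6 * R2) := by
      rw [div_mul_eq_mul_div, div_le_iff₀ (by positivity), ρ2]
      have := mul_le_mul_of_nonneg_right (pow_le_pow_left₀ θ0.le hμ 2) R0
      linarith only [this]
    have z2 : 2 / c ≤ 2 * L := by rw [div_eq_mul_one_div]; linarith only [hK, i1]
    have z3 : 100 * S.C ^ 2 ≤ L := H.KL 2 (by norm_num)
    have z4 := pw' (i := 1) (k := 13) ρ3 (by norm_num)
    have z5 := pw' (i := 4) (k := 13) ρ3 (by norm_num)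
    have z7 := pw' (i := 3) (k := 20) R0 (by norm_num)
    have z8 := pw' (i := 1) (k := 20) R0 (by norm_num)
    have z9 : 0 ≤ L ^ 20 * R2 := by positivity
    calc _ ≤ 16 / μ ^ 2 * (10 * (3 * L) * (2 * S.C * (S.θ * s)) ^ 2 +
          S.C ^ 2 * (L ^ 13 * (S.θ * s) ^ 2) + S.C ^ 2 * (L ^ 4 * (S.θ * s) ^ 2)) +
          2 * L * (L ^ 2 * R2) + 8 * R2 * (2 * S.C) ^ 2 := by
          gcongr
          exact Finset.sum_nonneg fun k _ => mul_nonneg (dn k) (by positivity)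
      _ = 16 / μ ^ 2 * (S.C ^ 2 * (120 * (L ^ 1 * (S.θ * s) ^ 2) + L ^ 13 * (S.θ * s) ^ 2 +
          L ^ 4 * (S.θ * s) ^ 2)) + 2 * (L ^ 3 * R2) + 32 * S.C ^ 2 * R2 := by ring
      _ ≤ 16 / μ ^ 2 * (L / 100 * (2 * (L ^ 13 * (S.θ * s) ^ 2))) + 2 * (L ^ 3 * R2) + L * R2 := by
          have w1 : S.C ^ 2 ≤ L / 100 := by linarith only [z3]
          have w2 : 32 * S.C ^ 2 ≤ L := by linarith only [z3, L0]
          have w3 : 120 * (L ^ 1 * (S.θ * s) ^ 2) + L ^ 13 * (S.θ * s) ^ 2 + L ^ 4 * (S.θ * s) ^ 2 ≤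
              2 * (L ^ 13 * (S.θ * s) ^ 2) := by
            linarith only [z4, z5, mul_nonneg (pow_pos L0 13).le ρ3]
          gcongr
      _ = L ^ 14 / 50 * (16 / μ ^ 2 * (S.θ * s) ^ 2) + 2 * (L ^ 3 * R2) + L ^ 1 * R2 := by ring
      _ ≤ L ^ 14 / 50 * (16 * (L ^ 6 * R2)) + 2 * (L ^ 3 * R2) + L ^ 1 * R2 := by gcongr
      _ ≤ L ^ 20 * R2 := by linarith only [z7, z8, z9]
      _ = _ := by rw [mul_pow, sq_sqrt R0]; ring

end Crest.Agent.T156.Alt.L63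

end
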