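import Crest.Agent.T156.CakeS_64
import Crest.Agent.T156.Sun_9
import Crest.Agent.T156.NdB_89
import Crest.Agent.T156.NdP_33

-- ▼ part T156/CkL_16
section

/-!
# Row 156 (helper16): the label clock between two good nodes (rising sun and layer cake)
-/

set_option autoImplicit false

noncomputable section

namespace Crest.Agent.T156.Alt.Ck16

open Real Finset

/-- the data: `p`, `q` are good towards the outside, the size is known on cones -/
structure CK (r dz u h : ℕ → ℝ) (a p q b : ℕ) (v C k0 w Λ : ℝ) : Prop where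
  rm : Monotone r
  pq : p ≤ q
  v0 : 0 < v
  C0 : 0 ≤ C
  dz : ∀ y, p < y → y < q → 0 ≤ dz y ∧ dz y ≤ C * v
  k00 : 0 < k0
  w0 : 0 < w
  Λ0 : 0 < Λ
  h0 : ∀ y, p < y → y < q → 0 ≤ h y
  u0 : ∀ y, p < y → y < q → 0 ≤ u y
  lo : ∀ i, a ≤ i → i ≤ p → r p - r i ≤ k0 * (((p : ℝ) - i) * v)
  hi : ∀ i, q ≤ i → i ≤ b → r i - r q ≤ k0 * (((i : ℝ) - q) * v)
  sz : ∀ y, p < y → y < q → ∀ k e, k0 ≤ k → k ≤ max k0 (8 * ((r q - r p) / w) ^ ((3 : ℝ) / 2)) →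
    0 ≤ e → e ≤ r q - r p → (∀ i, a ≤ i → i ≤ b → |r i - r y| ≤ e + k * (|(i : ℝ) - y| * v)) →
    u y ≤ Λ * (k ^ ((2 : ℝ) / 3) * w + e + h y)

variable {r dz u h : ℕ → ℝ} {a p q b : ℕ} {v C k0 w Λ : ℝ}

theorem CK.cone (H : CK r dz u h a p q b v C k0 w Λ) {y : ℕ} (h1 : p < y) (h2 : y < q) {k e : ℝ}
    (hk : k0 ≤ k) (hin : ∀ i, p ≤ i → i ≤ q → |r i - r y| ≤ e + k * (|(i : ℝ) - y| * v))
    (i : ℕ) (ha : a ≤ i) (hb : i ≤ b) : |r i - r y| ≤ e + k * (|(i : ℝ) - y| * v) := by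
  have v0 := H.v0
  have p1 : (p : ℝ) ≤ y := by exact_mod_cast h1.le
  have q1 : (y : ℝ) ≤ q := by exact_mod_cast h2.le
  rcases le_total i p with c | c
  · have c1 : (i : ℝ) ≤ p := by exact_mod_cast c
    have e1 := hin p le_rfl H.pq
    have e2 := (H.lo i ha c).trans (mul_le_mul_of_nonneg_right hk (by nlinarith))
    rw [abs_of_nonpos (sub_nonpos.2 (H.rm h1.le)), abs_of_nonpos (by linarith)] at e1
    rw [abs_of_nonpos (sub_nonpos.2 (H.rm (c.trans h1.le))), abs_of_nonpos (by linarith)]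
    linarith
  rcases le_total i q with d | d
  · exact hin i c d
  · have c1 : (q : ℝ) ≤ i := by exact_mod_cast d
    have e1 := hin q H.pq le_rfl
    have e2 := (H.hi i d hb).trans (mul_le_mul_of_nonneg_right hk (by nlinarith))
    rw [abs_of_nonneg (sub_nonneg.2 (H.rm h2.le)), abs_of_nonneg (by linarith)] at e1
    rw [abs_of_nonneg (sub_nonneg.2 (H.rm (h2.le.trans d))), abs_of_nonneg (by linarith)]
    linarith

theorem pw8 (i : ℕ) {k : ℝ} (hk : 0 ≤ k) :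
    ((8 : ℝ) ^ i * k) ^ ((2 : ℝ) / 3) = 4 ^ i * k ^ ((2 : ℝ) / 3) := by
  have e : (8 : ℝ) ^ ((2 : ℝ) / 3) = 4 := by
    rw [show (8 : ℝ) = 2 ^ (3 : ℝ) by norm_num, ← rpow_mul (by norm_num)]
    norm_num
  rw [mul_rpow (by positivity) hk, ← rpow_natCast, ← rpow_mul (by norm_num), mul_comm (i : ℝ),
    rpow_mul (by norm_num), e, rpow_natCast]

open Classical in
/-- **any power** -/
theorem CK.pow (H : CK r dz u h a p q b v C k0 w Λ) (n : ℕ) :
    ∑ y ∈ Ioo p q, dz y * u y ^ (n + 2) ≤ 2 ^ (2 * n + 8) * C * Λ ^ (n + 2) *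
      (((q : ℝ) - p) * v * (k0 ^ ((2 : ℝ) / 3) * w) ^ (n + 2) +
        (r q - r p) ^ (n + 1) * √((r q - r p) * w ^ 3)) +
      2 ^ (n + 1) * Λ ^ (n + 2) * ∑ y ∈ Ioo p q, dz y * h y ^ (n + 2) := by
  have v0 := H.v0
  have C0 := H.C0
  have k00 := H.k00
  have w0 := H.w0
  have Λ0 := H.Λ0
  have R0 : 0 ≤ r q - r p := sub_nonneg.2 (H.rm H.pq)
  have pq : (0 : ℝ) ≤ (q : ℝ) - p := sub_nonneg.2 (by exact_mod_cast H.pq)
  obtain ⟨R, hR⟩ : ∃ R, R = r q - r p := ⟨_, rfl⟩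
  obtain ⟨κ, hκ⟩ : ∃ κ, κ = k0 ^ ((2 : ℝ) / 3) := ⟨_, rfl⟩
  have κ0 : 0 < κ := hκ ▸ rpow_pos_of_pos k00 _
  rw [← hR] at R0 ⊢
  rw [← hκ]
  have cap : ∀ y ∈ Ioo p q, max (u y - Λ * h y) 0 ≤ Λ * (κ * w) + Λ * R := fun y hy => by
    obtain ⟨h1, h2⟩ := mem_Ioo.1 hy
    have := H.sz y h1 h2 k0 R le_rfl (le_max_left _ _) R0 hR.le (H.cone h1 h2 le_rfl
      fun i c d => le_add_of_le_of_nonneg (abs_le.2
        ⟨by linarith [H.rm c, H.rm h2.le], by linarith [H.rm d, H.rm h1.le]⟩) (by positivity))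
    rw [← hκ] at this
    exact max_le (by linarith) (by positivity)
  have K := Ck64.cakeR (Ioo p q) (w := dz) (u := fun y => max (u y - Λ * h y) 0)
    (good := fun i y => Sun9.Good (fun j => (j : ℝ) * v) r (8 ^ i * k0) p q y)
    (α := Λ * (κ * w)) (R := Λ * R) (W := C * v * ((q : ℝ) - p)) (Y := 2 * C * R / k0)
    (fun y hy => (H.dz y (mem_Ioo.1 hy).1 (mem_Ioo.1 hy).2).1) (fun y _ => le_max_right _ _)
    (by positivity) (by positivity) (by positivity)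
    ((sum_le_card_nsmul _ _ (C * v) fun y hy =>
      (H.dz y (mem_Ioo.1 hy).1 (mem_Ioo.1 hy).2).2).trans (by
        rw [nsmul_eq_mul, mul_comm, Nat.card_Ioo, ← Nat.cast_sub H.pq]
        exact mul_le_mul_of_nonneg_left (Nat.cast_le.2 (Nat.sub_le _ _)) (by positivity)))
    (fun y hy i g => by
      obtain ⟨h1, h2⟩ := mem_Ioo.1 hy
      have i1 : k0 ≤ 8 ^ i * k0 := le_mul_of_one_le_left k00.le (one_le_pow₀ (by norm_num))
      rcases le_total (8 ^ i * k0) (max k0 (8 * (R / w) ^ ((3 : ℝ) / 2))) with c | c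
      · have := H.sz y h1 h2 _ 0 i1 (hR ▸ c) le_rfl (hR ▸ R0) (H.cone h1 h2 i1 fun j c d => by
          rw [zero_add]
          rcases le_total j y with f | f
          · have f1 : (j : ℝ) ≤ y := by exact_mod_cast f
            rw [abs_of_nonpos (sub_nonpos.2 (H.rm f)), abs_of_nonpos (by linarith)]
            have := g.2 j c f
            linarith
          · have f1 : (y : ℝ) ≤ j := by exact_mod_cast f
            rw [abs_of_nonneg (sub_nonneg.2 (H.rm f)), abs_of_nonneg (by linarith)]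
            have := g.1 j f d
            linarith)
        rw [pw8 i k00.le, ← hκ] at this
        exact max_le (by linarith) (by positivity)
      · rcases i with _ | i
        · have := H.sz y h1 h2 k0 0 le_rfl (le_max_left _ _) le_rfl (hR ▸ R0)
            (H.cone h1 h2 le_rfl fun j c d => by
              rw [zero_add]
              rw [pow_zero, one_mul] at g
              rcases le_total j y with f | f
              · have f1 : (j : ℝ) ≤ y := by exact_mod_cast f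
                rw [abs_of_nonpos (sub_nonpos.2 (H.rm f)), abs_of_nonpos (by linarith)]
                have := g.2 j c f
                linarith
              · have f1 : (y : ℝ) ≤ j := by exact_mod_cast f
                rw [abs_of_nonneg (sub_nonneg.2 (H.rm f)), abs_of_nonneg (by linarith)]
                have := g.1 j f d
                linarith)
          rw [← hκ] at this
          exact max_le (by linarith) (by positivity)
        · have c2 := rpow_le_rpow (by positivity) ((le_max_right _ _).trans c)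
            (by norm_num : (0 : ℝ) ≤ 2 / 3)
          have c3 := pw8 1 (show 0 ≤ (R / w) ^ ((3 : ℝ) / 2) by positivity)
          rw [pow_one, pow_one, ← rpow_mul (by positivity), show (3 : ℝ) / 2 * (2 / 3) = 1 by
            norm_num, rpow_one] at c3
          rw [c3, pw8 _ k00.le, ← hκ, ← mul_div_assoc, div_le_iff₀ w0] at c2
          have c4 : (1 : ℝ) ≤ 4 ^ i := one_le_pow₀ (by norm_num)
          have c5 := mul_le_mul_of_nonneg_left c2 Λ0.le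
          have c6 := mul_le_mul_of_nonneg_right c4 (show 0 ≤ Λ * (κ * w) by positivity)
          refine (cap y hy).trans ?_
          rw [pow_succ] at c5 ⊢
          nlinarith)
    cap (fun i => by
      have cb := Sun9.card_bad (x := fun j => (j : ℝ) * v) (Λ := 8 ^ i * k0) H.rm (by positivity)
        H.pq (μ := v) fun j _ _ => by push_cast; linarith
      refine (sum_le_card_nsmul _ _ (C * v) fun y hy => ?_).trans ?_
      · have := mem_Ioo.1 (mem_filter.1 hy).1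
        exact (H.dz y this.1 this.2).2
      · have c1 : ((((Ioo p q).filter fun y => ¬Sun9.Good (fun j => (j : ℝ) * v) r (8 ^ i * k0) p q
            y).card : ℕ) : ℝ) ≤ (((Icc p q).filter fun y => ¬Sun9.Good (fun j => (j : ℝ) * v) r
            (8 ^ i * k0) p q y).card : ℕ) :=
          Nat.cast_le.2 (card_le_card (filter_subset_filter _ Ioo_subset_Icc_self))
        have c2 := (mul_le_mul_of_nonneg_left c1 (show 0 ≤ 8 ^ i * k0 * v by positivity)).trans cb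
        rw [nsmul_eq_mul, le_div_iff₀ (by positivity), le_div_iff₀ k00]
        have := mul_le_mul_of_nonneg_left c2 C0
        rw [← hR] at this
        linarith) n
  have s1 : ∑ y ∈ Ioo p q, dz y * u y ^ (n + 2) ≤ ∑ y ∈ Ioo p q,
      (2 ^ (n + 1) * (dz y * max (u y - Λ * h y) 0 ^ (n + 2)) +
        2 ^ (n + 1) * Λ ^ (n + 2) * (dz y * h y ^ (n + 2))) := sum_le_sum fun y hy => by
    obtain ⟨h1, h2⟩ := mem_Ioo.1 hy
    have a1 := H.h0 y h1 h2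
    have a2 := (pow_le_pow_left₀ (H.u0 y h1 h2) (show u y ≤ max (u y - Λ * h y) 0 + Λ * h y by
      linarith [le_max_left (u y - Λ * h y) 0]) (n + 2)).trans
      (add_pow_le (le_max_right _ _) (by positivity) (n + 2))
    refine (mul_le_mul_of_nonneg_left a2 (H.dz y h1 h2).1).trans_eq ?_
    rw [show n + 2 - 1 = n + 1 from rfl, mul_pow]
    ring
  rw [sum_add_distrib, ← mul_sum, ← mul_sum] at s1
  refine s1.trans (add_le_add_left ((mul_le_mul_of_nonneg_left K (by positivity)).trans ?_) _)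
  have e1 : κ * √κ = k0 := by
    rw [hκ, sqrt_eq_rpow, ← rpow_mul k00.le, ← rpow_add k00]
    norm_num
  have e2 : Λ * (κ * w) * √(Λ * (κ * w)) * √(Λ * R) = Λ ^ 2 * k0 * √(R * w ^ 3) := by
    rw [sqrt_mul Λ0.le, sqrt_mul Λ0.le, sqrt_mul κ0.le, sqrt_mul R0, pow_succ w 2,
      sqrt_mul (by positivity), sqrt_sq w0.le, ← e1]
    have := mul_self_sqrt Λ0.le
    calc _ = Λ * (√Λ * √Λ) * (κ * √κ) * (√R * (w * √w)) := by ring
      _ = _ := by rw [this]; ring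
  have e3 : 2 * C * R / k0 * (Λ * (κ * w) * √(Λ * (κ * w)) * (√(Λ * R) * (Λ * R) ^ n)) =
      2 * C * Λ ^ (n + 2) * (R ^ (n + 1) * √(R * w ^ 3)) := by
    rw [← mul_assoc (Λ * (κ * w) * _), e2, mul_pow]
    field_simp
    ring
  rw [e3, mul_pow Λ]
  have : 0 ≤ 2 ^ (2 * n) * C * Λ ^ (n + 2) * (((q : ℝ) - p) * v * (κ * w) ^ (n + 2)) := by
    positivity
  have e4 : (2 : ℝ) ^ (2 * n + 8) = 2 ^ (2 * n) * 256 := by rw [pow_add]; norm_num
  have e5 : (2 : ℝ) ^ (n + 1) * 2 ^ (n + 2) = 2 ^ (2 * n) * 8 := by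
    rw [← pow_add, show n + 1 + (n + 2) = 2 * n + 3 by ring, pow_add]; norm_num
  rw [← mul_assoc, e5, e4]
  nlinarith

/-- **the label clock** -/
theorem CK.two (H : CK r dz u h a p q b v C k0 w Λ) :
    ∑ y ∈ Ioo p q, dz y * u y ^ 2 ≤ 256 * C * Λ ^ 2 *
      (((q : ℝ) - p) * v * (k0 ^ ((2 : ℝ) / 3) * w) ^ 2 + (r q - r p) * √((r q - r p) * w ^ 3)) +
      2 * Λ ^ 2 * ∑ y ∈ Ioo p q, dz y * h y ^ 2 := by
  have := H.pow 0
  norm_num at this ⊢
  exact this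

end Crest.Agent.T156.Alt.Ck16

end
end

-- ▼ part T156/TxE_87

/-!
# Row 156, block (L): the residual between good nodes below the corner (helper87)
-/

set_option autoImplicit false

noncomputable section

namespace Crest.Agent.T156.Alt.G89

open Real Finset
open Crest.Agent.T156.Alt.E61 Crest.Agent.T156.Alt.Mp9 Crest.Agent.T156.Alt.Sz9
open Crest.Agent.T156.Alt.L69 (LN cr cl mf uw gg Phi)
open Crest.Agent.T156.Alt.Nd22 (NI NO NodeS ee Go U)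

/-- the good nodes of the corner -/
def Gc (S : Sc) (M : Md) (m : ℕ) (a l0 V L Lc : ℝ) : ℕ → Prop :=
  Gn S M m a l0 (fun t => L * cl S V t) Lc (S.J - 1)
/-- the margin below the corner -/
def Mg (S : Sc) (Lc : ℝ) (j : ℕ) : Prop :=
  j + 1 < S.J ∧ w1 S 1 ≤ Lc ^ ((1 : ℝ) / 3) * (((S.J : ℝ) - j) * S.v)
/-- nodes of the top level -/
def Lo (S : Sc) (M : Md) (i : ℕ) : Prop := 2 * S.J ≤ 3 * i ∧ 5 * M.s S.J ≤ 8 * M.s i

/-- the context of the corner; `ψ = F ^ (1/9)` -/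
structure Cc (D E Λ L ψ : ℝ) (S : Sc) (M : Md) (m : ℕ) (a T G1 l0 l V X Lg X2 X3 G0 W3 : ℝ)
    (η : ℝ → ℝ) (Lc ηc j γ R : ℝ) : Prop where
  Z : Cz D E Λ L S M m a T G1 l0 l V X Lg X2 X3 G0 W3 η
  ψ1 : 1 ≤ ψ
  ψF : S.F ≤ ψ ^ 9
  ψE : ψ ^ 6 ≤ E
  Lc1 : Lg ≤ Lc
  ηc1 : U S Lc 1 ^ 3 + U S Lc 1 ^ 2 * (S.θ + j + R) +
    (√(Lc * gg S 1) + G0 + X2) * (U S Lc 1 + √X2) + X3 + 1 / S.n ≤ ηc
  thk : E * U S Lc 1 ^ 2 ≤ mf S 1
  j0 : 0 ≤ j
  γ0 : 0 ≤ γ
  R0 : 0 ≤ R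
  out : ∀ k, 5 * M.s S.J ≤ 8 * M.s k → k < S.J → gd M S m a T k ≤ D * (S.θ + j + γ + R)
  sw : ∀ k κ e, 2 * S.J ≤ 3 * k → k < S.J → 1 ≤ κ → 0 ≤ e →
    (∀ i : ℕ, S.J / 2 ≤ i → i < S.J → |M.rb m a i - M.rb m a k| ≤ e + κ * (|(i : ℝ) - k| * S.v)) →
    u4 M m a k ≤ D * (κ ^ ((2 : ℝ) / 3) * w1 S 1 + e + S.w3 1 / (((S.J : ℝ) - k) * S.v) ^ 2)

theorem Lo.mono {S : Sc} {M : Md} (h : Cl S M) {i k : ℕ} (lo : Lo S M i) (hik : i ≤ k) :
    Lo S M k := ⟨by have := lo.1; omega, by linarith [lo.2, h.sm hik]⟩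

theorem Mg.anti {S : Sc} {M : Md} (h : Cl S M) {Lc : ℝ} (L0 : 0 ≤ Lc) {i k : ℕ} (g : Mg S Lc k)
    (hik : i ≤ k) : Mg S Lc i := by
  have : (i : ℝ) ≤ k := by exact_mod_cast hik
  have := h.v0
  exact ⟨by have := g.1; omega, g.2.trans (by gcongr)⟩

theorem kp23 {c x : ℝ} (c0 : 0 ≤ c) (x0 : 0 ≤ x) :
    (c ^ 3 * x) ^ ((2 : ℝ) / 3) = c ^ 2 * x ^ ((2 : ℝ) / 3) := by
  rw [mul_rpow (by positivity) x0, ← rpow_natCast c 3, ← rpow_mul c0, ← rpow_natCast c 2]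
  norm_num

theorem w1_cube {S : Sc} {t : ℝ} (h : 0 ≤ S.w3 t) : w1 S t ^ 3 = S.w3 t := by
  rw [w1, ← rpow_natCast, ← rpow_mul h]; norm_num

namespace Cc

variable {D E Λ L ψ : ℝ} {S : Sc} {M : Md} {m : ℕ} {a T G1 l0 l V X Lg X2 X3 G0 W3 : ℝ}
  {η : ℝ → ℝ} {Lc ηc j γ R : ℝ}
  (H : Cc D E Λ L ψ S M m a T G1 l0 l V X Lg X2 X3 G0 W3 η Lc ηc j γ R)
include H

theorem EL : E ≤ Lc := H.Z.EL.trans H.Lc1
theorem L1 : 1 ≤ Lc := H.Z.E1.trans H.EL
theorem w0 : 0 < w1 S 1 := rpow_pos_of_pos (H.Z.w3p one_pos) _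
theorem u0 : 0 < U S Lc 1 := mul_pos (rpow_pos_of_pos (by linarith [H.L1]) _) H.w0

/-- the good nodes of the bulk are good for the corner -/
theorem gc {k : ℕ} (g : GN S M m a l0 V L Lg k) : Gc S M m a l0 V L Lc k := by
  refine H.Z.cx.mono_L g ((div_le_self (by linarith [H.Z.E1, H.Z.EL]) ?_).trans H.Lc1)
  nlinarith [one_le_pow₀ (n := 4) H.Z.A.cl.C1, H.Z.ni.L1]

theorem c1 : D ^ 3 ≤ D ^ 3 * ψ :=
  le_mul_of_one_le_right (by have := H.Z.D4; positivity) H.ψ1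

theorem Dc : 2 * D ^ 2 ≤ D ^ 3 * ψ := by
  have := H.Z.D4
  nlinarith [H.c1, mul_le_mul_of_nonneg_right this (sq_nonneg D)]

theorem Dc' : D ≤ D ^ 3 * ψ := by nlinarith [H.Dc, H.Z.D4]

theorem kn : (D ^ 3 * ψ) ^ 3 * Lc ≤ S.n := by
  have h := H.Z.A.cl
  have D4 := H.Z.D4
  have ψ1 := H.ψ1
  have w := H.Z.w3p one_pos
  have L1 := H.L1
  have a0 : (D ^ 3 * ψ) ^ 3 ≤ E := by
    refine (pow_le_pow_iff_left₀ (by positivity) (by linarith [H.Z.E1]) two_ne_zero).1 ?_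
    calc _ = D ^ 18 * ψ ^ 6 := by ring
      _ ≤ E * E := mul_le_mul (H.Z.DpE (by norm_num)) H.ψE (by positivity) (by linarith [H.Z.E1])
      _ = _ := by ring
  have a1 : U S Lc 1 ≤ 1 := by
    nlinarith [H.thk, H.Z.mf_le 1, H.u0,
      mul_le_mul_of_nonneg_right H.Z.E1 (sq_nonneg (U S Lc 1))]
  have a2 : Lc ^ 2 * S.w3 1 ≤ 1 := by
    rw [← U_cube (by linarith) w.le]; exact pow_le_one₀ H.u0.le a1
  have a3 : 1 ≤ S.n * S.w3 1 := by
    have m0 := h.θ0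
    have := h.N0
    rw [Sc.w3, ← mul_div_assoc, le_div_iff₀ (by rw [Sc.θ] at m0; positivity), mul_one, one_mul]
    gcongr
    nlinarith [H.Z.hθ, h.F1, h.C1, h.ms1 1]
  have a4 : Lc ^ 2 ≤ S.n := le_of_mul_le_mul_right (a2.trans a3) w
  nlinarith [mul_le_mul_of_nonneg_right (a0.trans H.EL) (show 0 ≤ Lc by linarith)]

theorem Cv : 10 * S.C ^ 2 * S.v ≤ 1 := by
  have h := H.Z.A.cl
  have a1 : 10 * S.C ≤ S.n := by
    linarith [H.Z.Cp (k := 1) (by norm_num), H.Z.D_E, H.Z.En, h.C0, pow_one S.C]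
  have a2 : (S.n : ℝ) ≤ (S.n : ℝ) ^ 2 := le_self_pow₀ (by exact_mod_cast h.n1) two_ne_zero
  nlinarith [mul_le_mul_of_nonneg_left (a1.trans a2) (mul_pos h.C0 h.v0).le, H.Z.hv]

variable {i k : ℕ}

theorem lev (lo : Lo S M i) : 1 ≤ 2 * S.C ^ 2 * M.s i := by
  have h := H.Z.A.cl
  have := h.j0_lt
  have a1 := (h.z_s (k := S.J - 1) (by omega) (by omega)).2
  have a2 := h.atom.1
  have a3 := h.sm (Nat.sub_le S.J 1)
  have c := h.C0
  rw [div_le_iff₀ c] at a2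
  have a4 := mul_le_mul_of_nonneg_right a1 c.le
  have a5 := mul_le_mul_of_nonneg_left (show 5 * M.s (S.J - 1) ≤ 8 * M.s i by linarith [lo.2])
    (sq_nonneg S.C)
  nlinarith [H.Cv]

theorem ls (lo : Lo S M i) : 2 * l ≤ M.s i := by
  have c := H.Z.A.cl.C0
  have a1 : 4 * S.C ^ 2 ≤ E := by
    linarith [H.Z.Cp (k := 2) (by norm_num), H.Z.D_E, show 0 < S.C ^ 2 by positivity]
  have a2 := mul_le_mul_of_nonneg_right a1 H.Z.lp.le
  refine le_of_mul_le_mul_left ?_ (show 0 < 2 * S.C ^ 2 by positivity)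
  linarith [H.lev lo, H.Z.ln.l1]

/-- the numbers of the top level -/
theorem num (lo : Lo S M i) (hi : i < S.J) : η (M.s i) ≤ D * η 1 ∧ gg S (M.s i) ≤ D * gg S 1 ∧
    w1 S (M.s i) ≤ D * w1 S 1 ∧ cr S (M.s i) ≤ D * ψ ^ 3 := by
  have h := H.Z.A.cl
  have C1 := h.C1
  have lp := H.Z.lp
  have a0 := H.ls lo
  have a1 := H.lev lo
  have t0 : 0 < M.s i := by linarith
  have a2 := H.Z.sC hi
  have l1 : l ≤ 1 := by nlinarith [H.Z.ln.l1, H.Z.E1]
  have D4 := H.Z.D4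
  obtain ⟨b1, -, -, b2⟩ := H.Z.cmp (t := 1) (t' := M.s i) l1 (by linarith) C1 (by nlinarith) a1
  have m1 : S.ms 1 ≤ 16 * S.C ^ 4 * S.ms (M.s i) :=
    ((h.msm a1).trans (h.ms_mul t0.le (by nlinarith))).trans_eq (by ring)
  have m0 := h.ms_pos t0.le
  have m2 := h.ms_pos zero_le_one
  have n0 := h.N0
  have F0 : 0 < S.F := by linarith [h.F1]
  have g1 : gg S (M.s i) ≤ 16 * S.C ^ 4 * gg S 1 := by
    rw [gg, gg, ← mul_div_assoc, div_le_div_iff₀ (by positivity) (by positivity)]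
    nlinarith [mul_le_mul_of_nonneg_left m1 (mul_pos F0 n0).le]
  have g0 : 0 < gg S 1 := by unfold gg; positivity
  have c4 := H.Z.Cp (k := 4) (by norm_num)
  have c6 := H.Z.Cp (k := 6) (by norm_num)
  refine ⟨b1, g1.trans (by gcongr; linarith [show 0 < S.C ^ 4 by positivity]), ?_, ?_⟩
  · refine (pow_le_pow_iff_left₀ (rpow_nonneg (H.Z.w3p t0).le _) (mul_nonneg (by linarith) H.w0.le)
      three_ne_zero).1 ?_
    change w1 S (M.s i) ^ 3 ≤ _
    rw [mul_pow, w1_cube (H.Z.w3p t0).le, w1_cube (H.Z.w3p one_pos).le]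
    have e1 : S.w3 (M.s i) * M.s i = gg S (M.s i) := by rw [Sc.w3, gg]; field_simp
    have e2 : S.w3 1 = gg S 1 := by rw [Sc.w3, gg, mul_one]
    have a3 : D ≤ D ^ 3 := le_self_pow₀ (by linarith) three_ne_zero
    have a4 := mul_le_mul_of_nonneg_left a1 (H.Z.w3p t0).le
    calc _ ≤ 2 * S.C ^ 2 * (S.w3 (M.s i) * M.s i) := by linarith
      _ ≤ 2 * S.C ^ 2 * (16 * S.C ^ 4 * gg S 1) := by rw [e1]; gcongr
      _ = 32 * S.C ^ 6 * S.w3 1 := by rw [e2]; ring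
      _ ≤ _ := by
        have := (H.Z.w3p one_pos).le
        gcongr
        linarith [show 0 < S.C ^ 6 by positivity]
  · have ψ1 := H.ψ1
    have k1 : cr S 1 ≤ ψ ^ 3 := by
      refine max_le (one_le_pow₀ ψ1) ((pow_le_pow_iff_left₀ (by positivity) (by positivity)
        three_ne_zero).1 ?_)
      rw [← rpow_natCast, ← rpow_mul (by positivity)]
      norm_num
      have : S.ms 1 ≤ 1 := by nlinarith [H.Z.hθ, h.ms1 1]
      calc _ ≤ S.F * 1 := by gcongr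
        _ ≤ _ := by rw [mul_one, ← pow_mul]; exact H.ψF
    have k0 := Ab33.cr_one S (M.s i)
    have k2 := mul_le_mul_of_nonneg_left a1 (show 0 ≤ cr S (M.s i) by linarith)
    calc _ ≤ 2 * S.C ^ 2 * (cr S (M.s i) * M.s i) := by linarith
      _ ≤ 2 * S.C ^ 2 * (4 * S.C ^ 2 * (ψ ^ 3 * 1)) := by
        refine mul_le_mul_of_nonneg_left (b2.trans ?_) (by positivity); gcongr
      _ = 8 * S.C ^ 4 * ψ ^ 3 := by ring
      _ ≤ _ := by gcongr; linarith [show 0 < S.C ^ 4 by positivity]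

theorem cq_le (lo : Lo S M i) (hi : i < S.J) : 2 * S.C ^ 3 * Lc *
    cq M l0 (fun t => L * cl S V t) i ≤ (D ^ 3 * ψ) ^ 3 * Lc / S.C := by
  have c := H.Z.A.cl.C0
  have L1 := H.Z.ni.L1
  have g := H.L1
  have lp := H.Z.lp
  have h1 : l ≤ M.s i := by linarith [H.ls lo]
  have t0 := lp.trans_le h1
  have D4 := H.Z.D4
  have ψ1 := H.ψ1
  have a1 : cq M l0 (fun t => L * cl S V t) i ≤ 2 * L * cr S (M.s i) := by
    rw [cq, tl_eq (H.Z.ln.l0l.trans h1), div_le_iff₀ t0]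
    nlinarith [mul_le_mul_of_nonneg_left (H.Z.cl_le h1) (show 0 ≤ L by linarith)]
  have a2 : 2 * L * cr S (M.s i) ≤ 2 * D * (D * ψ ^ 3) :=
    mul_le_mul (by linarith [H.Z.LD]) (H.num lo hi).2.2.2
      (by linarith [Ab33.cr_one S (M.s i)]) (by positivity)
  rw [le_div_iff₀ c]
  calc _ ≤ 2 * S.C ^ 3 * Lc * (2 * D * (D * ψ ^ 3)) * S.C := by gcongr; exact a1.trans a2
    _ = 4 * S.C ^ 4 * D ^ 2 * ψ ^ 3 * Lc := by ring
    _ ≤ D * D ^ 8 * ψ ^ 3 * Lc := by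
      gcongr
      · linarith [H.Z.Cp (k := 4) (by norm_num), show 0 < S.C ^ 4 by positivity]
      · linarith
      · norm_num
    _ = _ := by ring

theorem U_le (lo : Lo S M i) (hi : i < S.J) :
    U S ((D ^ 3 * ψ) ^ 3 * Lc) (M.s i) ≤ D ^ 7 * ψ ^ 2 * U S Lc 1 := by
  have D4 := H.Z.D4
  have ψ1 := H.ψ1
  have g := H.L1
  rw [U, U, kp23 (by positivity) (by linarith)]
  refine (mul_le_mul_of_nonneg_left (H.num lo hi).2.2.1 (by positivity)).trans_eq (by ring)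

theorem go (lo : Lo S M i) (g : Gc S M m a l0 V L Lc i) (o : Mg S Lc i) :
    Go L S M m a l0 l V Lg η i ((D ^ 3 * ψ) ^ 3 * Lc) (η (M.s i)) := by
  obtain ⟨o1, o2⟩ := o
  have hi : i < S.J := by omega
  have a0 := H.ls lo
  have lp := H.Z.lp
  have a1 : l ≤ M.s i := by linarith
  have a3 := H.Z.jl4 (H.Z.ln.l0l.trans a1) hi.le
  have := H.Z.A.cl.i1
  have D4 := H.Z.D4
  have ψ1 := H.ψ1
  have L1 := H.L1
  have c1 : 1 ≤ (D ^ 3 * ψ) ^ 3 := one_le_pow₀ (by linarith [H.Dc'])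
  have q := H.cq_le lo hi
  refine ⟨a1, by linarith [H.Z.ln.l0l], o1, ?_, H.Lc1.trans (le_mul_of_one_le_left (by linarith) c1),
    H.kn, Or.inr ?_, H.Z.cx.gd g (by linarith) (by omega) (by omega) (by omega) q,
    (H.Z.eta_pos a1 (H.Z.sC hi)).le, fun _ => le_rfl⟩
  · have e := H.Z.cx.cq_mul i
    rw [tl_eq (H.Z.ln.l0l.trans a1)] at e
    rw [← e]
    refine mul_le_mul_of_nonneg_right (le_trans ?_ (q.trans (div_le_self (by positivity)
      H.Z.A.cl.C1))) (by linarith)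
    refine le_mul_of_one_le_left (by linarith [H.Z.cx.cq_ge i]) ?_
    nlinarith [one_le_pow₀ (n := 3) H.Z.A.cl.C1]
  · have e : Lc ^ ((2 : ℝ) / 3) * Lc ^ ((1 : ℝ) / 3) = Lc := by
      rw [← rpow_add (by linarith)]; norm_num
    have x0 : 0 ≤ ((S.J : ℝ) - i) * S.v :=
      mul_nonneg (sub_nonneg.2 (by exact_mod_cast hi.le)) H.Z.A.cl.v0.le
    have b1 : U S Lc 1 ≤ Lc * (((S.J : ℝ) - i) * S.v) :=
      (mul_le_mul_of_nonneg_left o2 (by positivity)).trans_eq (by rw [← mul_assoc, e])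
    have b0 : 0 ≤ U S ((D ^ 3 * ψ) ^ 3 * Lc) (M.s i) :=
      mul_nonneg (by positivity) (rpow_nonneg (H.Z.w3p (by linarith)).le _)
    calc _ ≤ 2 * D * (D ^ 7 * ψ ^ 2 * (Lc * (((S.J : ℝ) - i) * S.v))) :=
          mul_le_mul (by linarith [H.Z.lg]) ((H.U_le lo hi).trans (by gcongr)) b0 (by linarith)
      _ = 2 * 1 * (D ^ 8 * ψ ^ 2 * (Lc * (((S.J : ℝ) - i) * S.v))) := by ring
      _ ≤ D * ψ * (D ^ 8 * ψ ^ 2 * (Lc * (((S.J : ℝ) - i) * S.v))) := by gcongr; linarith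
      _ = _ := by ring

theorem η0 : 0 < η 1 := H.Z.eta_pos (by nlinarith [H.Z.ln.l1, H.Z.E1, H.Z.lp]) H.Z.A.cl.C1

theorem parts : U S Lc 1 ^ 3 + (√(Lc * gg S 1) + G0 + X2) * (U S Lc 1 + √X2) + X3 + 1 / S.n ≤ ηc ∧
    U S Lc 1 ^ 3 + U S Lc 1 ^ 2 * (S.θ + j + R) ≤ ηc ∧ 0 ≤ ηc := by
  have := H.u0
  have := H.Z.A.cl.θ0
  have := H.j0
  have := H.R0
  have := H.Z.G00
  have := H.Z.X20
  have := H.Z.X30
  have a1 : 0 ≤ U S Lc 1 ^ 2 * (S.θ + j + R) := by positivity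
  have a2 : 0 ≤ (√(Lc * gg S 1) + G0 + X2) * (U S Lc 1 + √X2) + X3 + 1 / S.n := by positivity
  have a3 : 0 ≤ U S Lc 1 ^ 3 := by positivity
  exact ⟨by linarith [H.ηc1], by linarith [H.ηc1], by linarith [H.ηc1]⟩

theorem sq_le (lo : Lo S M i) (hi : i < S.J) :
    √((D ^ 3 * ψ) ^ 3 * Lc * gg S (M.s i)) ≤ D ^ 6 * ψ ^ 2 * √(Lc * gg S 1) := by
  have D4 := H.Z.D4
  have ψ1 := H.ψ1
  have L1 := H.L1
  have g0 : 0 ≤ gg S 1 := by
    have := H.Z.A.cl.ms_pos zero_le_one; have := H.Z.A.cl.F1; unfold gg; positivity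
  refine sqrt_le_iff.2 ⟨by positivity, ?_⟩
  rw [mul_pow (D ^ 6 * ψ ^ 2), sq_sqrt (by positivity)]
  calc _ ≤ (D ^ 3 * ψ) ^ 3 * Lc * ((D ^ 3 * ψ) * gg S 1) := by
        gcongr; exact (H.num lo hi).2.1.trans (by gcongr; exact H.Dc')
    _ = _ := by ring

theorem ee_le (lo : Lo S M i) (hi : i < S.J) :
    Λ * L ^ 5 * ee S X2 X3 G0 W3 ((D ^ 3 * ψ) ^ 3 * Lc) (M.s i) (η (M.s i)) ≤
      D ^ 27 * ψ ^ 6 * (ηc + η 1) := by
  have D4 := H.Z.D4
  have ψ1 := H.ψ1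
  have L1 := H.Z.ni.L1
  have Λ1 := H.Z.Λ1
  have u0 := H.u0
  have e0 := H.η0
  have G := H.Z.G00
  have X0 := H.Z.X20
  have X3' := H.Z.X30
  have n0 := H.Z.A.cl.N0
  have Lc1 := H.L1
  obtain ⟨b, hb⟩ : ∃ b, b = D ^ 7 * ψ ^ 2 := ⟨_, rfl⟩
  have b2 : 2 * D ≤ b := by
    rw [hb]
    nlinarith [H.Z.Dp (show 2 ≤ 7 by norm_num), mul_le_mul_of_nonneg_left
      (one_le_pow₀ (n := 2) ψ1) (show 0 ≤ D ^ 7 by positivity)]
  have b1 : 1 ≤ b := by linarith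
  have a1 := H.U_le lo hi
  have a2 : √((D ^ 3 * ψ) ^ 3 * Lc * gg S (M.s i)) ≤ b * √(Lc * gg S 1) :=
    (H.sq_le lo hi).trans (by rw [hb]; gcongr; linarith; norm_num)
  rw [← hb] at a1
  have a0 : 0 ≤ U S ((D ^ 3 * ψ) ^ 3 * Lc) (M.s i) :=
    mul_nonneg (by positivity) (rpow_nonneg (H.Z.w3p (by linarith [H.ls lo, H.Z.lp])).le _)
  have a3 : W3 ≤ D * η 1 := H.Z.hW.trans (mul_le_mul H.Z.LD (H.Z.ln.ηa H.Z.A.cl.C1)
    (H.Z.eta_pos H.Z.lC le_rfl).le (by linarith))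
  have b3 : b ≤ b ^ 3 := le_self_pow₀ b1 three_ne_zero
  have a4 : ee S X2 X3 G0 W3 ((D ^ 3 * ψ) ^ 3 * Lc) (M.s i) (η (M.s i)) ≤ b ^ 3 * (ηc + η 1) := by
    have k1 : (√((D ^ 3 * ψ) ^ 3 * Lc * gg S (M.s i)) + G0 + X2) *
        (U S ((D ^ 3 * ψ) ^ 3 * Lc) (M.s i) + √X2) ≤
        (b * (√(Lc * gg S 1) + G0 + X2)) * (b ^ 2 * (U S Lc 1 + √X2)) := by
      have s0 := sqrt_nonneg X2
      have p1 : b ≤ b ^ 2 := le_self_pow₀ b1 two_ne_zero
      refine mul_le_mul (by nlinarith) (by nlinarith) (by positivity) (by positivity)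
    have k2 := pow_le_pow_left₀ a0 a1 3
    have k3 := mul_le_mul_of_nonneg_left H.parts.1 (show 0 ≤ b ^ 3 by positivity)
    have k4 := mul_le_mul_of_nonneg_right (b1.trans b3) (show 0 ≤ X3 + 1 / S.n by positivity)
    have k5 := mul_le_mul_of_nonneg_right (b2.trans b3) e0.le
    unfold ee
    nlinarith [(H.num lo hi).1]
  have p0 := H.parts.2.2
  calc _ ≤ Λ * L ^ 5 * (b ^ 3 * (ηc + η 1)) := by gcongr
    _ ≤ D * D ^ 5 * (b ^ 3 * (ηc + η 1)) := by gcongr; exacts [H.Z.ΛD, H.Z.LD]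
    _ = _ := by rw [hb]; ring

theorem uγ : U S Lc 1 ^ 2 * γ ≤ ηc + γ ^ 3 := by
  have u0 := H.u0
  have γ0 := H.γ0
  have a0 : U S Lc 1 ^ 3 ≤ ηc := by
    have := H.Z.A.cl.θ0
    have := H.j0
    have := H.R0
    linarith [H.parts.2.1, show 0 ≤ U S Lc 1 ^ 2 * (S.θ + j + R) by positivity]
  rcases le_total γ (U S Lc 1) with h | h
  · nlinarith [mul_le_mul_of_nonneg_left h (sq_nonneg (U S Lc 1)), pow_nonneg γ0 3]
  · nlinarith [mul_le_mul_of_nonneg_right (pow_le_pow_left₀ u0.le h 2) γ0, pow_nonneg u0.le 3]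

theorem gd_le (lo : Lo S M i) (hi : i < S.J) :
    Λ * U S ((D ^ 3 * ψ) ^ 3 * Lc) (M.s i) ^ 2 * gd M S m a T i ≤
      D ^ 27 * ψ ^ 6 * (ηc + U S Lc 1 ^ 2 * γ) := by
  have D4 := H.Z.D4
  have ψ1 := H.ψ1
  have u0 := H.u0
  have γ0 := H.γ0
  have L1 := H.L1
  have a0 : 0 ≤ U S ((D ^ 3 * ψ) ^ 3 * Lc) (M.s i) :=
    mul_nonneg (by positivity) (rpow_nonneg (H.Z.w3p (by linarith [H.ls lo, H.Z.lp])).le _)
  calc _ ≤ D * (D ^ 7 * ψ ^ 2 * U S Lc 1) ^ 2 * (D * (S.θ + j + γ + R)) :=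
        mul_le_mul (mul_le_mul H.Z.ΛD (pow_le_pow_left₀ a0 (H.U_le lo hi) 2) (by positivity)
          (by linarith)) (H.out i lo.2 hi) (abs_nonneg _) (by positivity)
    _ = D ^ 16 * ψ ^ 4 * (U S Lc 1 ^ 2 * (S.θ + j + R) + U S Lc 1 ^ 2 * γ) := by ring
    _ ≤ _ := by
        have := H.Z.A.cl.θ0
        have := H.j0
        have := H.R0
        exact mul_le_mul (mul_le_mul (H.Z.Dp (by norm_num)) (pow_le_pow_right₀ ψ1 (by norm_num))
          (by positivity) (by positivity)) (by linarith [H.parts.2.1, pow_pos u0 3])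
          (by positivity) (by positivity)

/-- **sizes and parity data at a good node** -/
theorem sv (lo : Lo S M i) (g : Gc S M m a l0 V L Lc i) (o : Mg S Lc i) :
    u4 M m a i ≤ D ^ 8 * ψ ^ 2 * U S Lc 1 ∧
      ∃ G, Nd33.SV S M m a i G (D ^ 28 * ψ ^ 6 * (ηc + η 1)) ∧
        G ≤ D ^ 9 * ψ ^ 2 * (√(Lc * gg S 1) + G0) := by
  have hi : i < S.J := by have := o.1; omega
  have D4 := H.Z.D4
  have ψ1 := H.ψ1
  have u0 := H.u0
  have Λ1 := H.Z.Λ1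
  have L1 := H.Z.ni.L1
  have e0 := H.η0
  have p0 := H.parts.2.2
  have G00 := H.Z.G00
  obtain ⟨G, g1, g2, g3⟩ := H.Z.no.ng i _ _ (H.go lo g o)
  refine ⟨(H.Z.no.nd i _ _ (H.go lo g o)).1.trans ((mul_le_mul_of_nonneg_left (H.U_le lo hi)
    (by linarith)).trans ((mul_le_mul_of_nonneg_right H.Z.ΛD (by positivity)).trans_eq (by ring))),
    G, ⟨g1, (g2.trans (H.ee_le lo hi)).trans (by gcongr; linarith; norm_num)⟩, g3.trans ?_⟩
  have b1 : 1 ≤ D ^ 6 * ψ ^ 2 :=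
    one_le_mul_of_one_le_of_one_le (one_le_pow₀ (by linarith)) (one_le_pow₀ ψ1)
  calc _ ≤ D * D ^ 2 * (D ^ 6 * ψ ^ 2 * √(Lc * gg S 1) + D ^ 6 * ψ ^ 2 * G0) := by
        gcongr
        exacts [H.Z.ΛD, H.Z.LD, H.sq_le lo hi, le_mul_of_one_le_left G00 b1]
    _ = _ := by ring

theorem rb_ds (h : i ≤ k) (hk : k < S.J) : M.rb m a k - M.rb m a i ≤ 2 * ds M m a i k := by
  have a5 := H.Z.A.sb_rb h (k := k) (hk.trans H.Z.A.cl.J_lt).le
  have a6 := H.Z.A.cl.leg.Hm h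
  unfold ds
  linarith

/-- far nodes are in every cone -/
theorem far (lo : Lo S M i) (hi : i < S.J) {x : ℝ} (hx : (i : ℝ) ≤ 3 * x) (p q : ℕ) :
    M.rb m a p - M.rb m a q ≤ (D ^ 3 * ψ) ^ 3 * Lc * (x * S.v) := by
  have h := H.Z.A.cl
  have c := h.C0
  have v := h.v0
  have a1 := (rb_mem (M := M) (a := a) H.Z.A.m_pos p).2
  have a2 := (rb_mem (M := M) (a := a) H.Z.A.m_pos q).1
  have a3 := mul_le_mul_of_nonneg_left ((h.s_bds hi.le).2.trans
    (mul_le_mul_of_nonneg_right hx (by positivity))) (show 0 ≤ 2 * S.C ^ 2 by positivity)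
  have x0 : 0 ≤ x * S.v := mul_nonneg (by linarith [i.cast_nonneg (α := ℝ)]) v.le
  have a4 : 6 * S.C ^ 3 ≤ (D ^ 3 * ψ) ^ 3 * Lc := by
    have := le_self_pow₀ (show 1 ≤ D ^ 3 * ψ by linarith [H.Dc', H.Z.D4]) three_ne_zero
    have := le_mul_of_one_le_right (show 0 ≤ (D ^ 3 * ψ) ^ 3 by linarith [H.Dc', H.Z.D4]) H.L1
    linarith [H.Z.Cp (k := 3) (by norm_num), H.Dc', show 0 < S.C ^ 3 by positivity]
  have a5 := mul_le_mul_of_nonneg_right a4 x0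
  nlinarith [H.lev lo]

theorem cq_le' (lo : Lo S M i) (hi : i < S.J) : 2 * S.C ^ 2 * Lc *
    cq M l0 (fun t => L * cl S V t) i ≤ (D ^ 3 * ψ) ^ 3 * Lc := by
  have C1 := H.Z.A.cl.C1
  have L1 := H.L1
  have D4 := H.Z.D4
  have ψ1 := H.ψ1
  have q := H.Z.cx.cq_ge i
  refine le_trans ?_ ((H.cq_le lo hi).trans (div_le_self (by positivity) C1))
  gcongr
  norm_num

/-- **the label clock between two good nodes** -/
theorem clock (lo : Lo S M i) (h : i ≤ k) (gi : Gc S M m a l0 V L Lc i)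
    (gk : Gc S M m a l0 V L Lc k) (o : Mg S Lc k) {ρ : ℝ} (hρ : M.rb m a k - M.rb m a i ≤ ρ) :
    ∑ y ∈ Ioo i k, M.dz m a y * u4 M m a y ^ 2 ≤
      D ^ 15 * ψ ^ 4 * U S Lc 1 ^ 2 * (M.z k - M.z i) + D ^ 3 * √(ρ * S.w3 1) * ds M m a i k := by
  obtain ⟨o1, o2⟩ := o
  have cl := H.Z.A.cl
  have hk : k < S.J := by omega
  have hi : i < S.J := by omega
  have D4 := H.Z.D4
  have ψ1 := H.ψ1
  have L1 := H.L1
  have c := cl.C0
  have v := cl.v0
  have w0 := H.w0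
  have j4 := H.Z.jl4 (H.Z.ln.l0l.trans (by linarith [H.ls lo, H.Z.lp])) hi.le
  have i1 := cl.i1
  have i0 := cl.i0
  have lo1 := lo.1
  have c1 : 1 ≤ (D ^ 3 * ψ) ^ 3 := one_le_pow₀ (by linarith [H.Dc'])
  have kL : Lc ≤ (D ^ 3 * ψ) ^ 3 * Lc := le_mul_of_one_le_left (by linarith) c1
  have K : Ck16.CK (M.rb m a) (M.dz m a) (u4 M m a) (fun _ => 0) (S.J / 2) i k (S.J - 1) S.v S.C
      ((D ^ 3 * ψ) ^ 3 * Lc) (w1 S 1) (2 * D) := by
    refine ⟨H.Z.cx.rbm, h, v, c.le, fun y y1 y2 => ?_, by linarith, w0, by linarith,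
      fun _ _ _ => le_rfl, fun y _ _ => u4_nn y, fun r r1 r2 => ?_, fun r r1 r2 => ?_,
      fun y y1 y2 κ e k1 _ e0 _ he => ?_⟩
    · obtain ⟨y, rfl⟩ : ∃ x, y = x + 1 := ⟨y - 1, by omega⟩
      rw [Md67.dz_succ cl.leg]
      have := cl.zs y (by omega) (by omega)
      exact ⟨le_trans (by positivity) this.1, this.2⟩
    · rcases le_or_gt (i - i / 3) r with e | e
      · exact (H.Z.cx.cone_dn gi (by linarith) hi.le (y := i) (by omega) hi.le (H.cq_le' lo hi) e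
          r2).trans_eq (by ring)
      · refine H.far lo hi ?_ _ _
        have : i + 3 * r ≤ 3 * i := by omega
        have : (i : ℝ) + 3 * r ≤ 3 * i := by exact_mod_cast this
        linarith
    · rcases le_or_gt r (min (k + k / 3) (S.J - 1)) with e | e
      · exact (H.Z.cx.cone_up gk (by linarith) (Nat.sub_le _ _) (y := k) (by omega) hk.le
          (H.cq_le' (lo.mono cl h) hk) r1 e).trans_eq (by ring)
      · refine H.far (lo.mono cl h) hk ?_ _ _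
        have : k + 3 * k ≤ 3 * r := by omega
        have : (k : ℝ) + 3 * k ≤ 3 * r := by exact_mod_cast this
        linarith
    · have a1 := H.sw y κ e (by omega) (by omega) (by linarith) e0 fun r r1 r2 => he r r1 (by omega)
      have yk : (y : ℝ) ≤ k := by exact_mod_cast y2.le
      have kJ : (k : ℝ) < S.J := by exact_mod_cast hk
      have x0 : 0 < ((S.J : ℝ) - y) * S.v := mul_pos (by linarith) v
      have a2 : w1 S 1 ≤ Lc ^ ((1 : ℝ) / 3) * (((S.J : ℝ) - y) * S.v) := o2.trans (by gcongr)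
      have a3 : S.w3 1 / (((S.J : ℝ) - y) * S.v) ^ 2 ≤ κ ^ ((2 : ℝ) / 3) * w1 S 1 := by
        have e2 : (Lc ^ ((1 : ℝ) / 3)) ^ 2 = Lc ^ ((2 : ℝ) / 3) := by
          rw [← rpow_natCast, ← rpow_mul (by linarith)]; norm_num
        have a4 := pow_le_pow_left₀ w0.le a2 2
        rw [mul_pow, e2] at a4
        have a5 : Lc ^ ((2 : ℝ) / 3) ≤ κ ^ ((2 : ℝ) / 3) :=
          rpow_le_rpow (by linarith) (kL.trans k1) (by norm_num)
        rw [div_le_iff₀ (by positivity), ← w1_cube (H.Z.w3p one_pos).le]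
        calc _ = w1 S 1 * w1 S 1 ^ 2 := by ring
          _ ≤ w1 S 1 * (κ ^ ((2 : ℝ) / 3) * (((S.J : ℝ) - y) * S.v) ^ 2) :=
            mul_le_mul_of_nonneg_left (a4.trans (by gcongr)) w0.le
          _ = _ := by ring
      nlinarith [mul_le_mul_of_nonneg_left a3 (show 0 ≤ D by linarith), mul_nonneg
        (show 0 ≤ D by linarith) e0]
  have k2 := K.two
  simp only [ne_eq, OfNat.ofNat_ne_zero, not_false_eq_true, zero_pow, mul_zero, sum_const_zero,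
    add_zero] at k2
  rw [kp23 (by positivity) (by linarith), w1_cube (H.Z.w3p one_pos).le] at k2
  have z1 := (cl.z_tel (i := i) (by omega) h hk).1
  have r0 := sub_nonneg.2 (H.Z.cx.rbm h)
  have d0 := ds_nn H.Z.A h
  have ik : (i : ℝ) ≤ k := by exact_mod_cast h
  have z0 : 0 ≤ M.z k - M.z i := le_trans (mul_nonneg (by linarith) (by positivity)) z1
  have z2 : ((k : ℝ) - i) * S.v ≤ S.C * (M.z k - M.z i) := by
    rw [← mul_div_assoc, div_le_iff₀ c] at z1; linarith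
  have w3 := (H.Z.w3p one_pos).le
  refine k2.trans ?_
  calc _ ≤ 256 * S.C * (2 * D) ^ 2 * (S.C * (M.z k - M.z i) *
        ((D ^ 3 * ψ) ^ 2 * Lc ^ ((2 : ℝ) / 3) * w1 S 1) ^ 2 + 2 * ds M m a i k * √(ρ * S.w3 1)) := by
        gcongr
        exact H.rb_ds h hk
    _ = 1024 * S.C ^ 2 * (D ^ 14 * ψ ^ 4 * U S Lc 1 ^ 2 * (M.z k - M.z i)) +
        2048 * S.C ^ 1 * (D ^ 2 * √(ρ * S.w3 1) * ds M m a i k) := by rw [U]; ring
    _ ≤ D * (D ^ 14 * ψ ^ 4 * U S Lc 1 ^ 2 * (M.z k - M.z i)) +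
        D * (D ^ 2 * √(ρ * S.w3 1) * ds M m a i k) := by
        gcongr
        · linarith [H.Z.Cp (k := 2) (by norm_num), show 0 < S.C ^ 2 by positivity]
        · linarith [H.Z.Cp (k := 1) (by norm_num), show 0 < S.C ^ 1 by positivity]
    _ = _ := by ring

theorem nce0 {x : ℝ} (x0 : 0 ≤ x) (hx : U S Lc 1 ^ 2 * γ ≤ ηc + x) (lo : Lo S M i) (h : i ≤ k)
    (gi : Gc S M m a l0 V L Lc i) (gk : Gc S M m a l0 V L Lc k) (o : Mg S Lc k) {ρ : ℝ}
    (hρ : M.rb m a k - M.rb m a i ≤ ρ) :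
    |res M S m a T k - res M S m a T i| ≤ D ^ 29 * ψ ^ 6 * (ηc + η 1 + x) +
      D ^ 4 * (X2 + √(ρ * S.w3 1)) * ds M m a i k +
      D ^ 16 * ψ ^ 4 * U S Lc 1 ^ 2 * (M.z k - M.z i) := by
  have cl := H.Z.A.cl
  have hk : k < S.J := by have := o.1; omega
  have hi : i < S.J := by omega
  have D4 := H.Z.D4
  have ψ1 := H.ψ1
  have e0 := H.η0
  have p0 := H.parts.2.2
  have X0 := H.Z.X20
  have d0 := ds_nn H.Z.A h
  rcases h.eq_or_lt with rfl | h'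
  · rw [sub_self, sub_self, abs_zero]; positivity
  have lk := lo.mono cl h
  have a0 := H.Z.no.df T H.Z.A i _ _ k _ _ (H.go lo gi (o.anti cl (by linarith [H.L1]) h))
    (H.go lk gk o) h'
  have a1 := H.ee_le lo hi
  have a2 := H.ee_le lk hk
  have a3 := H.gd_le lo hi
  have a4 := H.gd_le lk hk
  have a5 := mul_le_mul_of_nonneg_right H.Z.la_le d0
  have a6 := mul_le_mul H.Z.ΛD (H.clock lo h gi gk o hρ) (sum_nonneg fun y hy => mul_nonneg (by
    obtain ⟨y, rfl⟩ : ∃ x, y = x + 1 := ⟨y - 1, by have := (mem_Ioo.1 hy).1; omega⟩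
    rw [Md67.dz_succ cl.leg]
    exact sub_nonneg.2 (cl.leg.zm (Nat.le_succ y))) (sq_nonneg _)) (by linarith)
  have a7 : 6 * (D ^ 27 * ψ ^ 6 * (ηc + η 1 + x)) ≤ D ^ 2 * (D ^ 27 * ψ ^ 6 *
      (ηc + η 1 + x)) := by gcongr; nlinarith
  have a8 : 0 ≤ D ^ 27 * ψ ^ 6 * η 1 := by positivity
  have a9 : 0 ≤ D ^ 27 * ψ ^ 6 * x := by positivity
  have b1 := mul_le_mul_of_nonneg_left hx (show 0 ≤ D ^ 27 * ψ ^ 6 by positivity)
  unfold gd ds at *
  linarith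

/-- **(NcE)** the residual between two good nodes below the corner -/
theorem nce' (lo : Lo S M i) (h : i ≤ k) (gi : Gc S M m a l0 V L Lc i)
    (gk : Gc S M m a l0 V L Lc k) (o : Mg S Lc k) {ρ : ℝ} (hρ : M.rb m a k - M.rb m a i ≤ ρ) :
    |res M S m a T k - res M S m a T i| ≤ D ^ 29 * ψ ^ 6 * (ηc + η 1 + U S Lc 1 ^ 2 * γ) +
      D ^ 4 * (X2 + √(ρ * S.w3 1)) * ds M m a i k +
      D ^ 16 * ψ ^ 4 * U S Lc 1 ^ 2 * (M.z k - M.z i) :=
  H.nce0 (mul_nonneg (sq_nonneg _) H.γ0) (le_add_of_nonneg_left H.parts.2.2) lo h gi gk o hρ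

/-- the cubic form -/
theorem nce (lo : Lo S M i) (h : i ≤ k) (gi : Gc S M m a l0 V L Lc i)
    (gk : Gc S M m a l0 V L Lc k) (o : Mg S Lc k) {ρ : ℝ} (hρ : M.rb m a k - M.rb m a i ≤ ρ) :
    |res M S m a T k - res M S m a T i| ≤ D ^ 29 * ψ ^ 6 * (ηc + η 1 + γ ^ 3) +
      D ^ 4 * (X2 + √(ρ * S.w3 1)) * ds M m a i k +
      D ^ 16 * ψ ^ 4 * U S Lc 1 ^ 2 * (M.z k - M.z i) :=
  H.nce0 (pow_nonneg H.γ0 3) H.uγ lo h gi gk o hρ

/-- the rise from the sup location -/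
theorem rise (lo : Lo S M i) (h : i ≤ k) (hk : k < S.J) : M.rb m a k - M.rb m a i ≤
    |M.del m a k| + |M.del m a i| + S.C ^ 2 * (M.z k - M.z i) := by
  have cl := H.Z.A.cl
  have c := cl.C0
  have j4 := H.Z.jl4 (H.Z.ln.l0l.trans (by linarith [H.ls lo, H.Z.lp])) (h.trans hk.le)
  have i1 := cl.i1
  have a1 := (cl.q_tel H.Z.hθ h (hk.le.trans cl.i3)).2
  have a2 := (cl.s_tel h hk.le).2
  have z1 := (cl.z_tel (i := i) (by omega) h hk).1
  rw [← mul_div_assoc, div_le_iff₀ c] at z1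
  have a3 := mul_le_mul_of_nonneg_left z1 c.le
  have b1 := le_abs_self (M.del m a k)
  have b2 := neg_abs_le (M.del m a i)
  unfold Md.del at *
  nlinarith

/-- nodes near the corner are of the top level -/
theorem lo_of (h0 : S.j0 ≤ i) (hi : i < S.J) (h : D * (M.z (S.J - 1) - M.z i) ≤ 1) : Lo S M i := by
  have cl := H.Z.A.cl
  have C1 := cl.C1
  have c := cl.C0
  have v := cl.v0
  have j0 := cl.j0_lt
  have z1 := (cl.z_tel h0 (show i ≤ S.J - 1 by omega) (by omega)).1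
  rw [← mul_div_assoc, div_le_iff₀ c, Nat.cast_sub (by omega), Nat.cast_one] at z1
  have iJ : (i : ℝ) + 1 ≤ S.J := by exact_mod_cast hi
  have z0 : 0 ≤ M.z (S.J - 1) - M.z i := le_of_mul_le_mul_right (by nlinarith) c
  have a1 : 1 ≤ 2 * S.C ^ 2 * M.s S.J := H.lev ⟨by omega, by linarith [cl.s_nn S.J]⟩
  have a2 := (cl.s_bds le_rfl).2
  have a3 := (cl.s_tel hi.le le_rfl).2
  have a4 := mul_le_mul_of_nonneg_right (H.Z.Cp (k := 4) (by norm_num)) z0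
  have hv : 100 * S.C ^ 3 * S.v ≤ 1 := by
    have b1 : 100 * S.C ^ 2 ≤ S.n := by
      linarith [H.Z.Cp (k := 2) (by norm_num), H.Z.D_E, H.Z.En, show 0 < S.C ^ 2 by positivity]
    have b2 : (S.n : ℝ) ≤ (S.n : ℝ) ^ 2 := le_self_pow₀ (by exact_mod_cast cl.n1) two_ne_zero
    nlinarith [mul_le_mul_of_nonneg_left (b1.trans b2) (mul_pos c v).le, H.Z.hv]
  have a5 : 50 * S.C ^ 3 * (((S.J : ℝ) - i) * S.v) ≤ 1 := by
    nlinarith [mul_le_mul_of_nonneg_left z1 (show 0 ≤ S.C ^ 3 by positivity)]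
  constructor
  · have b1 : 1 ≤ 2 * S.C ^ 3 * (S.J * S.v) := by
      nlinarith [mul_le_mul_of_nonneg_left a2 (show 0 ≤ 2 * S.C ^ 2 by positivity)]
    have b2 : 25 * (((S.J : ℝ) - i) * S.v) ≤ S.J * S.v :=
      le_of_mul_le_mul_left (by linarith) (show 0 < 2 * S.C ^ 3 by positivity)
    have b3 : 25 * ((S.J : ℝ) - i) ≤ S.J := le_of_mul_le_mul_right (by linarith) v
    have b4 : (2 * S.J : ℝ) ≤ 3 * i := by linarith
    exact_mod_cast b4
  · refine le_of_mul_le_mul_left ?_ (show 0 < 2 * S.C ^ 2 by positivity)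
    nlinarith [mul_le_mul_of_nonneg_left a3 (show 0 ≤ 2 * S.C ^ 2 by positivity)]

end Cc

end Crest.Agent.T156.Alt.G89

end
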