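import Crest.Agent.T156.LInt_31
import Crest.Agent.T156.NdW_22
import Crest.Agent.T156.NgS_9
import Crest.Agent.T156.SzTG_64
import Crest.Agent.T156.SzW_61
import Crest.Agent.T156.GdT_65
import Crest.Agent.T156.TxE_87

/-!
# Row 156, block (L): the pointwise context of the corner on the class (helper65)
-/

set_option autoImplicit false

noncomputable section

namespace Crest.Agent.T156.Alt.L31

open Real Finset
open Crest.Agent.T156.Alt.Mp9 Crest.Agent.T156.Alt.L69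
open Crest.Agent.T156.Alt.G89 (Cz)
open Crest.Agent.T156.Alt.Gd65 (Out)

/-- the context at the loss `D` -/
structure Cw (D E Λ L W3 lam : ℝ) (S : Sc) (M : Md) (m : ℕ) (a : ℝ) (p : Pa) : Prop where
  Z : Cz D E Λ L S M m a (2 * S.C) p.G1 p.l0 p.l p.V p.X p.Lg p.X2 p.X3 p.G0 W3 p.η
  fn : C33.Fn S M m a
  lL : lam ≤ L
  DE : D ^ 500 ≤ E
  θ1 : S.θ ≤ 1
  vθ : S.v ≤ S.θ
  j0 : 0 ≤ p.j
  γ0 : 0 ≤ p.γ
  far : SzT98.Far E S M p.Xp p.Vt p.γ p.u1 p.Lp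
  tp : Sz9.TpS D S M m a p.X2 p.X3 p.G0 p.η
  outX : ∀ k, S.J ≤ 8 * k → k < S.J → Out D S M m a (2 * S.C) p.j p.γ (p.X ^ ((1 : ℝ) / 3)) k
  out : ∀ k, 5 * M.s S.J ≤ 8 * M.s k → k < S.J →
    Out D S M m a (2 * S.C) p.j p.γ (p.Xp ^ ((1 : ℝ) / 3)) k
  sw : ∀ k κ e, 2 * S.J ≤ 3 * k → k < S.J → 1 ≤ κ → 0 ≤ e →
    (∀ i : ℕ, S.J / 2 ≤ i → i < S.J → |M.rb m a i - M.rb m a k| ≤ e + κ * (|(i : ℝ) - k| * S.v)) →
    E61.u4 M m a k ≤ D * (κ ^ ((2 : ℝ) / 3) * S.w3 1 ^ ((1 : ℝ) / 3) + e +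
      min (S.w3 1 / (((S.J : ℝ) - k) * S.v) ^ 2)
        (S.w3 1 / S.u0 ^ 2 + min p.X p.Xp ^ ((1 : ℝ) / 3) + p.γ))



/-- `F ^ (1/9)` -/
def psi (S : Sc) : ℝ := S.F ^ ((1 : ℝ) / 9)

theorem psi_spec {S : Sc} {M : Md} (h : Cl S M) : 1 ≤ psi S ∧ psi S ^ 9 = S.F :=
  ⟨one_le_rpow h.F1 (by norm_num), by
    rw [psi, ← rpow_natCast, ← rpow_mul (by linarith [h.F1])]; norm_num⟩

theorem Cw.cc {D E Λ L W3 lam : ℝ} {S : Sc} {M : Md} {m : ℕ} {a : ℝ} {p : Pa}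
    (W : Cw D E Λ L W3 lam S M m a p) (H : Hx E lam S M m a p) :
    G89.Cc D E Λ L (psi S) S M m a (2 * S.C) p.G1 p.l0 p.l p.V p.X p.Lg p.X2 p.X3 p.G0 W3 p.η
      p.Lc p.ηc p.j p.γ (p.Xp ^ ((1 : ℝ) / 3)) := by
  have h := W.Z.A.cl
  obtain ⟨a1, a2⟩ := psi_spec h
  obtain ⟨b1, b2⟩ := H.lp.ηc1 _ rfl
  have x := H.lp.Xp0.1
  have D0 : 0 ≤ D := le_trans (by positivity) W.Z.CD
  exact ⟨W.Z, a1, a2.ge, ((pow_le_pow_right₀ a1 (by norm_num)).trans a2.le).trans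
    ((le_self_pow₀ h.F1 (by norm_num)).trans H.F40), H.lp.Lc1.1, b1, b2, W.j0, W.γ0, by positivity,
    fun k c d => (W.out k c d).2.2, fun k κ e c1 c2 c3 c4 c5 => (W.sw k κ e c1 c2 c3 c4 c5).trans
      (mul_le_mul_of_nonneg_left (add_le_add_right (min_le_left _ _) _) D0)⟩



end Crest.Agent.T156.Alt.L31

end
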