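import Crest.Agent.T156.TxV2_83
import Crest.Agent.T156.TxE_87

/-!
# Row 156, block (L): the last node of the bulk, good for the corner (helper83)
-/

set_option autoImplicit false

noncomputable section

namespace Crest.Agent.T156.Alt.Ve83

open Real
open Crest.Agent.T156.Alt.Mp9 Crest.Agent.T156.Alt.L69

variable {S : Sc} {M : Md} {m : ℕ} {a : ℝ}

/-- **the last node of the bulk is near the corner** -/
theorem VE2.near {W Lg τ1 θ2 μ D : ℝ} {Gn G2 : ℕ → Prop} {V0 v : ℕ} (h : Cl S M)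
    (V : VE2 S M m a W Lg τ1 θ2 μ Gn G2 V0 v) (vJ : v < S.J) (j0 : S.j0 ≤ v) (D0 : 0 ≤ D)
    (lc : ∀ k, 3 / 4 * M.s S.J ≤ M.s k → k < S.J → |sb M m a (k + 1) - M.s k| ≤ D)
    (θ0 : 0 ≤ 2 * (W / Lg) + θ2) (hθ : 2 * (S.C ^ 2 * (2 * (W / Lg) + θ2)) ≤ 1) :
    M.z (S.J - 1) - M.z v ≤ 2 * (μ + W * τ1 + S.C * S.v) + 4 * (S.C ^ 2 * D) ∧
      ((S.J : ℝ) - v) * S.v ≤ S.C * (M.z (S.J - 1) - M.z v) + S.v ∧
      G89.ds M m a v (S.J - 1) ≤ S.C ^ 2 * (M.z (S.J - 1) - M.z v) + 2 * D := by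
  classical
  have C0 := h.C0
  have v0 := h.v0
  have c2 : 1 ≤ S.C ^ 2 := one_le_pow₀ h.C1
  have vJ' : v ≤ S.J - 1 := by omega
  have eJ : ((S.J - 1 : ℕ) : ℝ) = S.J - 1 := by rw [Nat.cast_sub (by omega), Nat.cast_one]
  have z1 := (h.z_tel j0 vJ' (by omega)).1
  rw [← mul_div_assoc, div_le_iff₀ C0, eJ] at z1
  have z0 : 0 ≤ M.z (S.J - 1) - M.z v := sub_nonneg.2 (h.leg.zm vJ')
  have s1 := (h.s_tel vJ' (Nat.sub_le _ _)).2
  rw [eJ] at s1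
  have d1 : G89.ds M m a v (S.J - 1) ≤ S.C ^ 2 * (M.z (S.J - 1) - M.z v) + 2 * D := by
    have a1 := (abs_le.1 (lc v V.s1 vJ)).1
    have a2 := (abs_le.1 (lc (S.J - 1) (V.s1.trans (h.sm vJ')) (by omega))).2
    unfold G89.ds
    linarith [mul_le_mul_of_nonneg_left z1 C0.le]
  refine ⟨?_, by linarith, d1⟩
  obtain ⟨k, k1, k2, k3, k4⟩ : ∃ k, v ≤ k ∧ k ≤ S.J - 1 ∧ sb M m a (k + 1) < M.s S.J ∧
      ((S.J : ℝ) - 1 - k) * S.v ≤ S.C * D := by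
    have p1 := Nat.findGreatest_spec (P := fun k => v ≤ k ∧ sb M m a (k + 1) < M.s S.J) vJ'
      ⟨le_rfl, V.t2⟩
    have p2 := Nat.findGreatest_le (P := fun k => v ≤ k ∧ sb M m a (k + 1) < M.s S.J) (S.J - 1)
    have p3 := fun k => Nat.findGreatest_is_greatest
      (P := fun k => v ≤ k ∧ sb M m a (k + 1) < M.s S.J) (n := S.J - 1) (k := k)
    generalize Nat.findGreatest (fun k => v ≤ k ∧ sb M m a (k + 1) < M.s S.J) (S.J - 1) = k
      at p1 p2 p3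
    refine ⟨k, p1.1, p2, p1.2, ?_⟩
    rcases p2.eq_or_lt with c | c
    · rw [c, eJ, sub_self, zero_mul]; positivity
    have a1 : M.s S.J ≤ sb M m a (k + 1 + 1) :=
      not_lt.1 fun x => p3 (k + 1) (by omega) c ⟨by omega, x⟩
    have a2 := (abs_le.1 (lc (k + 1) (V.s1.trans (h.sm (by omega))) (by omega))).2
    have a3 := (h.s_tel (i := k + 1) (j := S.J) (by omega) le_rfl).1
    rw [← mul_div_assoc, div_le_iff₀ C0] at a3
    push_cast at a3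
    linarith [mul_le_mul_of_nonneg_left (show M.s S.J - M.s (k + 1) ≤ D by linarith) C0.le]
  have a1 := V.wid k k1 (by omega) k3
  have a2 := (h.z_tel (j0.trans k1) k2 (by omega)).2
  rw [eJ] at a2
  have a3 := mul_le_mul_of_nonneg_left k4 C0.le
  have a4 := mul_le_mul_of_nonneg_left d1 θ0
  have a5 := mul_le_mul_of_nonneg_right hθ z0
  have a6 := mul_le_mul_of_nonneg_right hθ D0
  have a7 := mul_le_mul_of_nonneg_right c2 (mul_nonneg θ0 D0)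
  have a8 := mul_le_mul_of_nonneg_right c2 D0
  linarith

variable {E Lg X2 G1 u1 u2 j γ Lc ηc τ l0 X Xp Vt Lp X3 G0 N' Q : ℝ} {η : ℝ → ℝ}

/-- the location error is small -/
theorem DD_le (h : Cl S M) (Q1 : 1 ≤ Q) (hE : Q ^ 3 ≤ E)
    (lp : LP E S M Xp Vt Lg Lp X2 X3 G0 G1 u1 u2 j γ Lc ηc τ η N')
    (ap : Ap S M m a l0 X Xp Vt u1 j) : 0 ≤ DD S M Xp γ ∧ Q * DD S M Xp γ ≤ 30 * S.C ^ 3 := by
  have C0 := h.C0
  have X0 := lp.Xp0.1
  have g0 := Gam_nn (M := M) h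
  have γ0 : 0 ≤ γ := (sub_nonneg.2 (h.sm h.i3)).trans lp.γ0
  obtain ⟨j0, j1⟩ := Gam_j h ap
  have τ0 := tau_nn h lp
  have QE : Q ≤ E := (le_self_pow₀ Q1 (by norm_num)).trans hE
  have E0 : 0 ≤ E := by linarith
  have jE : E * j ≤ 1 := by linarith [lp.j1, mul_nonneg E0 τ0.le]
  have jj : j ≤ 1 := by nlinarith
  have x1 := cb_le X0.le ((mul_le_mul_of_nonneg_right hE X0.le).trans lp.Xp0.2)
  have y1 := cb_le (Q := Q) g0 (by
    have := mul_le_mul hE (j1.trans (show j ^ 2 ≤ j by nlinarith)) g0 E0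
    linarith)
  have z1 : Q * γ ≤ 1 := (mul_le_mul_of_nonneg_right QE γ0).trans lp.γ1
  unfold DD
  refine ⟨by positivity, ?_⟩
  linarith [mul_le_mul_of_nonneg_left (add_le_add (add_le_add x1 z1) y1)
    (show 0 ≤ 10 * S.C ^ 3 by positivity)]

end Crest.Agent.T156.Alt.Ve83

namespace Crest.Agent.T156.Alt.G89.Cc

open Real Finset
open Crest.Agent.T156.Alt.Mp9 Crest.Agent.T156.Alt.L69 Crest.Agent.T156.Alt.Ve83

variable {D E Λ L ψ : ℝ} {S : Sc} {M : Md} {m : ℕ} {a T G1 l0 l V X Lg X2 X3 G0 W3 : ℝ}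
  {η : ℝ → ℝ} {Lc ηc j γ R lo : ℝ}
  (H : Cc D E Λ L ψ S M m a T G1 l0 l V X Lg X2 X3 G0 W3 η Lc ηc j γ R)
include H

theorem j0_83 {i : ℕ} (h0 : l0 ≤ M.s i) : S.jl < i := by
  have h := H.Z.A.cl
  have s0 := h.s_pos (h.i0.trans h.i1)
  refine h.sm.reflect_lt (lt_of_lt_of_le ?_ (H.Z.ln.l0s.trans h0))
  exact lt_mul_of_one_lt_left s0 (by linarith [H.Z.D4, H.Z.D_E])

/-- both label bounds in a gap of the corner set -/
theorem gap83 {i k : ℕ} (h0 : l0 ≤ M.s i) (h1 : i < k) (h2 : k < S.J)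
    (gi : Gc S M m a l0 V L Lc i) (gk : Gc S M m a l0 V L Lc k ∨ k = S.J - 1)
    (no : ∀ y, i < y → y < k → ¬ Gc S M m a l0 V L Lc y) :
    M.z (k - 1) - M.z i ≤ 4 * S.C / Lc * ds M m a i k ∧
      M.z k ≤ M.z i + (S.C * S.v + 4 * S.C / Lc * ds M m a i k) :=
  H.Z.cx.gap_lab H.Z.A gi gk (by linarith [H.L1]) (H.Z.A.cl.i1.trans (H.j0_83 h0).le) h1 h2 no

theorem lab83 (h0 : l0 ≤ lo) : Lab S M m a lo (4 * S.C / Lc) (Gc S M m a l0 V L Lc) :=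
  fun _ _ a b c d e f => (H.gap83 (h0.trans a) b c d e f).1

/-- a node of the corner set on the top level -/
theorem first83 (h0 : 2 * l0 ≤ M.s S.J) (hv : 64 * (S.C * S.v) ≤ M.s S.J) :
    ∃ u, Gc S M m a l0 V L Lc u ∧ 3 / 4 * M.s S.J ≤ M.s u ∧ M.s u ≤ 13 / 16 * M.s S.J := by
  have h := H.Z.A.cl
  have C0 := h.C0
  have v0 := h.v0
  have i2 := h.i2
  have s0 : 0 < M.s S.J := h.s_pos (by omega)
  have cv : 0 < S.C * S.v := by positivity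
  obtain ⟨k, k1, k2, k3, k4⟩ := h.exists_node (t := 3 / 4 * M.s S.J) (by linarith) (by linarith)
  have k5 := (h.ss k k1).2
  obtain ⟨n, n1, n2⟩ : ∃ n : ℕ, M.s S.J / 64 ≤ n * (S.C * S.v) ∧
      n * (S.C * S.v) ≤ M.s S.J / 64 + S.C * S.v :=
    ⟨⌈M.s S.J / 64 / (S.C * S.v)⌉₊, (div_le_iff₀ cv).1 (Nat.le_ceil _), by
      have := (lt_div_iff₀ cv).1 (sub_lt_iff_lt_add.2 (Nat.ceil_lt_add_one
        (show 0 ≤ M.s S.J / 64 / (S.C * S.v) by positivity)))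
      linarith⟩
  have q1 : k + 1 + n < S.J := by
    by_contra c
    have a1 := (h.s_tel (i := k + 1) (j := S.J) k1 le_rfl).2
    have a2 : (S.J : ℝ) ≤ ((k + 1 : ℕ) : ℝ) + n := by exact_mod_cast not_lt.1 c
    linarith [mul_le_mul_of_nonneg_right (sub_le_iff_le_add'.2 a2) cv.le]
  have q2 : M.s (k + 1 + n) ≤ 13 / 16 * M.s S.J := by
    have a1 := (h.s_tel (i := k + 1) (j := k + 1 + n) (by omega) q1.le).2
    push_cast at a1
    linarith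
  have q3 : 2 * (k + 1 + n) ≤ 3 * (k + 1) := by
    have a1 := (h.s_bds (k := k + 1) k1).2
    have a2 : 2 * (n : ℝ) ≤ ((k + 1 : ℕ) : ℝ) := le_of_mul_le_mul_right (by linarith) cv
    have a3 : 2 * n ≤ k + 1 := by exact_mod_cast a2
    omega
  have l1 : l0 ≤ M.s (k + 1) := by linarith
  obtain ⟨u, u1, u2, u3⟩ := H.Z.cx.exists_cru (L := Lc) (V := S.J - 1) (p := k + 1) (q := k + 1 + n)
    (by linarith [H.L1]) (h.i1.trans (H.j0_83 l1).le) (by omega) q3 (by omega) (by omega) (by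
      have a1 : M.s (k + 1) ≤ M.s S.J := h.sm k1
      have a0 : 10000 * S.C ^ 8 ≤ Lc := (H.Z.Cp (by norm_num)).trans (H.Z.D_E.trans H.EL)
      have a2 := mul_le_mul_of_nonneg_left a1 (show 0 ≤ 96 * S.C ^ 7 by positivity)
      have a3 := mul_le_mul_of_nonneg_left n1 (show 0 ≤ 6144 * S.C ^ 7 by positivity)
      have a4 := mul_le_mul_of_nonneg_right a0 (show 0 ≤ n * S.v by positivity)
      have a5 : 0 < Lc * S.v := mul_pos (by linarith [H.L1]) v0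
      have a6 : 0 ≤ S.C ^ 8 * (n * S.v) := by positivity
      rw [tl_eq l1]
      push_cast
      linarith)
  exact ⟨u, u3, k3.le.trans (h.sm u1), (h.sm u2).trans q2⟩

end Crest.Agent.T156.Alt.G89.Cc

namespace Crest.Agent.T156.Alt.L31

open Real
open Crest.Agent.T156.Alt.Mp9 Crest.Agent.T156.Alt.L69 Crest.Agent.T156.Alt.Ve83

variable {D E Λ L ψ W3 R K μ : ℝ} {S : Sc} {M : Md} {m : ℕ} {a : ℝ} {p : Pa} {Gn : ℕ → Prop}
  {V0 : ℕ}

/-- **the last node of the bulk, good for the bulk net and for the corner set** -/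
theorem ve3_of (W : Tw E S M m a p)
    (H : G89.Cc D E Λ L ψ S M m a (2 * S.C) p.G1 p.l0 p.l p.V p.X p.Lg p.X2 p.X3 p.G0 W3 p.η
      p.Lc p.ηc p.j p.γ R) (K1 : 1 ≤ K) (KE : K ^ 3 ≤ E) (FE : S.F ^ 3 ≤ E)
    (G : Ng E K S M m a p Gn V0) (μ0 : 0 ≤ μ) (hμ : 48 * S.C ^ 5 * μ ≤ 1) :
    ∃ v, VE2 S M m a K p.Lg (t1 S p) (4 * S.C / p.Lc) μ Gn
      (G89.Gc S M m a p.l0 p.V L p.Lc) V0 v ∧ Ve S M m a Gn V0 v := by
  have h := W.at'.cl
  have C0 := h.C0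
  have L0 : 0 < p.Lc := by linarith [H.L1]
  have l0 := W.l0
  have a1 : 2 * p.l0 ≤ max p.l (2 * p.l0) := le_max_right _ _
  obtain ⟨u, u1, u2, u3⟩ := H.first83 (by linarith [W.lo]) W.v1
  refine ve2_of W ((pow_le_pow_left₀ (by positivity) (by
      linarith [H.Z.Cp (k := 6) (by norm_num), pow_pos C0 6]) 3).trans (H.Z.DpE (by norm_num)))
    K1 KE FE G (H.lab83 (by linarith)) (by positivity) μ0 ⟨u, u1, by linarith [W.lo], u3⟩ hμ ?_
  rw [← mul_div_assoc, div_le_one L0]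
  linarith [H.Z.Cp (k := 7) (by norm_num), H.Z.D_E, H.EL, pow_pos C0 7]

variable {lam : ℝ} {G2 : ℕ → Prop} {v : ℕ}

/-- **the distance of the last node to the corner** -/
theorem near3 (W : Tw E S M m a p)
    (H : G89.Cc D E Λ L ψ S M m a (2 * S.C) p.G1 p.l0 p.l p.V p.X p.Lg p.X2 p.X3 p.G0 W3 p.η
      p.Lc p.ηc p.j p.γ R) (K1 : 1 ≤ K) (KE : K ^ 3 ≤ E) (G : Ng E K S M m a p Gn V0)
    (V : VE2 S M m a K p.Lg (t1 S p) (4 * S.C / p.Lc) μ Gn G2 V0 v) :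
    v + 1 < S.J ∧ p.l0 ≤ M.s v ∧ S.jl < v ∧
      2 * (S.C ^ 2 * (2 * (K / p.Lg) + 4 * S.C / p.Lc)) ≤ 1 ∧
      M.z (S.J - 1) - M.z v ≤
        2 * (μ + K * t1 S p + S.C * S.v) + 4 * (S.C ^ 2 * DD S M p.Xp p.γ) ∧
      ((S.J : ℝ) - v) * S.v ≤ S.C * (M.z (S.J - 1) - M.z v) + S.v ∧
      G89.ds M m a v (S.J - 1) ≤ S.C ^ 2 * (M.z (S.J - 1) - M.z v) + 2 * DD S M p.Xp p.γ := by
  have h := W.at'.cl
  have C0 := h.C0
  have L0 : 0 < p.Lc := by linarith [H.L1]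
  have E1 := H.Z.E1
  have g0 : 0 < p.Lg := by linarith [W.EL]
  have l0 := W.l0
  have D4 := H.Z.D4
  have a1 : 2 * p.l0 ≤ max p.l (2 * p.l0) := le_max_right _ _
  have vJ : v + 1 < S.J := by have := G.ng.hV; have := V.le; omega
  have a2 : p.l0 ≤ M.s v := by linarith [W.lo, V.s1]
  have a3 := H.j0_83 a2
  have a4 : D * K ≤ E := by
    refine le_of_pow_le_pow_left₀ (n := 3) (by norm_num) (by linarith) ?_
    rw [mul_pow]
    calc _ ≤ E * E := mul_le_mul (H.Z.DpE (by norm_num)) KE (by positivity) (by linarith)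
      _ = E ^ 2 := by ring
      _ ≤ _ := pow_le_pow_right₀ E1 (by norm_num)
  have a5 : 8 * (S.C ^ 2 * (K / p.Lg)) ≤ 1 := by
    rw [← mul_div_assoc, ← mul_div_assoc, div_le_one g0]
    have := mul_le_mul_of_nonneg_right (H.Z.Cp (k := 2) (by norm_num)) (show 0 ≤ K by linarith)
    linarith [W.EL, show 0 ≤ S.C ^ 2 * K by positivity]
  have a6 : 4 * (S.C ^ 2 * (4 * S.C / p.Lc)) ≤ 1 := by
    rw [← mul_div_assoc, ← mul_div_assoc, div_le_one L0]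
    linarith [H.Z.Cp (k := 3) (by norm_num), H.Z.D_E, H.EL, pow_pos C0 3]
  have a7 : 2 * (S.C ^ 2 * (2 * (K / p.Lg) + 4 * S.C / p.Lc)) ≤ 1 := by linarith
  exact ⟨vJ, a2, a3, a7, V.near h (by omega) (h.i1.trans a3.le)
    ((abs_nonneg _).trans (W.loc _ (by linarith [h.s_nn S.J]) le_rfl))
    (fun k b c => W.loc k b c.le) (by positivity) a7⟩


end Crest.Agent.T156.Alt.L31

end
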