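import Crest.Agent.T156.TxX_84
import Crest.Agent.T156.TxN_48
import Crest.Agent.T156.TxV3_83
import Crest.Agent.T156.TxP_5

/-!
# Row 156, block (L) (helper5): the uniform error of the supply is slow
-/

set_option autoImplicit false
set_option maxHeartbeats 800000
set_option maxRecDepth 8000

noncomputable section

namespace Crest.Agent.T156.Alt.X84

open Real Finset
open Crest.Agent.T156.Alt.Mp9 Crest.Agent.T156.Alt.L69 Crest.Agent.T156.Alt.L31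
open Crest.Agent.T156.Alt.X48
open Crest.Agent.T156.Pr.Reg48 (Sm)

theorem cub5 {w a b c d y : ℝ} (w0 : 0 ≤ w) (a0 : 0 ≤ a) (b0 : 0 ≤ b) (c0 : 0 ≤ c) (d0 : 0 ≤ d)
    (ha : w * a ^ 3 ≤ y) (hb : w * b ^ 3 ≤ y) (hc : w * c ^ 3 ≤ y) (hd : w * d ^ 3 ≤ y) :
    w * (a + b + c + d) ^ 3 ≤ 64 * y := by
  have k : w * max (max a b) (max c d) ^ 3 ≤ y := by
    rcases max_choice (max a b) (max c d) with e | e <;> rw [e]
    · rcases max_choice a b with e | e <;> rwa [e]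
    · rcases max_choice c d with e | e <;> rwa [e]
  have q : a + b + c + d ≤ 4 * max (max a b) (max c d) := by
    linarith [le_max_left (max a b) (max c d), le_max_right (max a b) (max c d), le_max_left a b,
      le_max_right a b, le_max_left c d, le_max_right c d]
  linarith [mul_le_mul_of_nonneg_left (pow_le_pow_left₀ (by positivity) q 3) w0]

/-- the unit of the distances at the last node of the bulk -/
def tb5 (S : Sc) (M : Md) (p : Pa) : ℝ :=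
  p.Xp ^ ((1 : ℝ) / 3) + p.γ + Ga S M ^ ((1 : ℝ) / 3) + p.η 1 / mf S 1

variable {E : ℝ} {S : Sc} {M : Md} {m : ℕ} {a : ℝ} {c : Dt} {v v1 v2 : ℕ}

theorem Cy.at5 (Y : Cy E S M m a c) : At48 E S M m c.p :=
  at48 Y.cw.Z.A Y.hx (by linarith [Y.cw.Z.D4, Y.cw.Z.D_E]) Y.cw.θ1

theorem Cy.N5 (Y : Cy E S M m a c) : X48.N0 c.p ≤ Nn S M c.p c.X4 c.t4 := by
  have h := Y.cw.Z.A.cl
  have C0 := h.C0
  have E1 := Y.cw.Z.E1
  have n0 := h.N0
  have c0 : 0 ≤ cB M S c.p.η c.t4 S.C := sum_nonneg fun k _ => by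
    have := div_pos (h.ms_pos (h.s_nn k)) (show 0 < S.F by linarith [h.F1])
    have : 1 ≤ cr S (M.s k) := le_max_left _ _
    refine mul_nonneg (sub_nonneg.2 (h.leg.zm (Nat.sub_le k 1))) ?_
    unfold mf; positivity
  have t4 : c.t4 ≤ S.C := by
    rcases le_total c.t4 0 with x | x
    · linarith
    · linarith [Y.t4, mul_le_mul_of_nonneg_right E1 x]
  have x4 : 0 ≤ c.X4 := by
    refine le_trans ?_ (Y.l4 S.C t4 le_rfl)
    have a1 : 1 ≤ cr S S.C := le_max_left _ _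
    have a2 := Y.hx.ln.V0
    have a3 := Y.hx.ln.X0
    have a4 : 0 ≤ cl S c.p.V S.C := by unfold cl; positivity
    have a5 := Y.cw.Z.w3p C0
    have a6 : 0 ≤ ws S c.p.V S.C := by unfold ws; positivity
    positivity
  have : 0 ≤ 1 / (S.n : ℝ) ^ 3 := by positivity
  unfold X48.N0 Nn
  linarith

/-- the atoms against the unit -/
theorem Cy.tb5 (Y : Cy E S M m a c) : 0 ≤ tb5 S M c.p ∧
    uc S c.p ^ 2 * tb5 S M c.p ≤ 4 * xs S M c.p ∧ c.p.X2 * tb5 S M c.p ≤ 2 * xs S M c.p ∧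
    S.w3 1 * tb5 S M c.p ^ 3 ≤ 64 * xs S M c.p ^ 2 ∧ t1 S c.p ≤ S.F * tb5 S M c.p ∧
    tc S c ≤ S.F * tb5 S M c.p ∧ Ve83.DD S M c.p.Xp c.p.γ ≤ 10 * S.C ^ 3 * tb5 S M c.p := by
  have B := Y.at5
  have H := Y.hx
  have Z := Y.cw.Z
  have h := Z.A.cl
  have C0 := h.C0
  have E1 := Z.E1
  have F1 := h.F1
  have θ0 := h.θ0
  have w0 := (Z.w3p one_pos).le
  obtain ⟨g0, -⟩ := B.γ0
  obtain ⟨X0, -⟩ := B.X0
  obtain ⟨m0, -⟩ := B.m0
  obtain ⟨u0, u1⟩ := B.u0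
  have η0 := B.η0
  have j0 := B.j0
  have x0 := B.x0
  have xp := H.lp.Xp0.1
  have V0 := H.lc.v2.1
  have G0 : 0 ≤ Ga S M := B.Ga0.1.trans B.Ga0.2.1
  have R0 : 0 ≤ c.p.Xp ^ ((1 : ℝ) / 3) := by positivity
  have G3 : 0 ≤ Ga S M ^ ((1 : ℝ) / 3) := by positivity
  have q0 : 0 ≤ c.p.η 1 / mf S 1 := by positivity
  have l1 : c.p.l ≤ 1 := Y.tw.l1
  have u2 : uc S c.p ^ 2 ≤ mf S 1 := (le_mul_of_one_le_left (sq_nonneg _) E1).trans u1
  have X2 : c.p.X2 ≤ mf S 1 := (le_mul_of_one_le_left X0 E1).trans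
    (H.ln.th3.trans (div_le_div_of_nonneg_right (h.msm l1) (by linarith)))
  have k : ∀ y, y ≤ mf S 1 → y * (c.p.η 1 / mf S 1) ≤ xs S M c.p := fun y b =>
    ((mul_le_mul_of_nonneg_right b q0).trans_eq (mul_div_cancel₀ _ m0.ne')).trans B.a1
  have L1 := (Y.cw.cc H).L1
  have U3 : uc S c.p ^ 3 = c.p.Lc ^ 2 * S.w3 1 := G89.U_cube (by linarith) w0
  have w1 : S.w3 1 ≤ uc S c.p ^ 3 := by
    rw [U3]; exact le_mul_of_one_le_left w0 (one_le_pow₀ L1)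
  have X30 := Z.X30
  have G00 := B.G0
  have w2 : S.w3 1 ≤ xs S M c.p := by
    have : 0 ≤ uc S c.p ^ 2 * (S.θ + c.p.j + c.p.Xp ^ ((1 : ℝ) / 3)) := by positivity
    have : 0 ≤ (√(c.p.Lc * gg S 1) + c.p.G0 + c.p.X2) * (uc S c.p + √c.p.X2) := by positivity
    linarith [B.a8, B.a2]
  have s0 := sqrt_nonneg (S.w3 1 * c.p.Xp)
  have g3 : 0 ≤ c.p.γ ^ 3 := by positivity
  have a6 := B.a6
  have b1 : S.w3 1 * (c.p.Xp ^ ((1 : ℝ) / 3)) ^ 3 ≤ xs S M c.p ^ 2 := by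
    rw [Ve83.cb3 xp.le, ← sq_sqrt (mul_nonneg w0 xp.le)]
    exact pow_le_pow_left₀ s0 (by linarith) 2
  have b2 : S.w3 1 * c.p.γ ^ 3 ≤ xs S M c.p ^ 2 := by
    rw [sq]; exact mul_le_mul w2 (by linarith) g3 x0
  have b3 : S.w3 1 * (Ga S M ^ ((1 : ℝ) / 3)) ^ 3 ≤ xs S M c.p ^ 2 := by
    rw [Ve83.cb3 G0, sq]; exact mul_le_mul w2 (by linarith) G0 x0
  have b4 : S.w3 1 * (c.p.η 1 / mf S 1) ^ 3 ≤ xs S M c.p ^ 2 := by
    have e1 : mf S 1 ^ ((3 : ℝ) / 2) = √(mf S 1) ^ 3 := by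
      rw [sqrt_eq_rpow, ← rpow_natCast, ← rpow_mul m0.le]; norm_num
    have e2 : c.p.η 1 ≤ √(mf S 1) ^ 3 :=
      (le_mul_of_one_le_left η0 E1).trans ((H.ln.th1 1 l1 h.C1).trans_eq e1)
    have e3 : S.w3 1 ≤ √(mf S 1) ^ 3 := w1.trans (pow_le_pow_left₀ u0 (le_sqrt_of_sq_le u2) 3)
    have e4 : S.w3 1 * c.p.η 1 ≤ mf S 1 ^ 3 := (mul_le_mul e3 e2 η0 (by positivity)).trans_eq (by
      rw [← mul_pow, mul_self_sqrt m0.le])
    refine le_trans ?_ (pow_le_pow_left₀ η0 B.a1 2)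
    rw [div_pow, ← mul_div_assoc, div_le_iff₀ (by positivity)]
    linarith [mul_le_mul_of_nonneg_left e4 (sq_nonneg (c.p.η 1))]
  have τ1 := H.lp.τ1
  have d1 : Ve83.Gam S M ≤ Ga S M := by
    refine add_le_add (Ve83.GS_mono h ?_ le_rfl) le_rfl
    rw [div_le_iff₀ (by positivity)]
    linarith [Ve83.sJ_lo h Y.tw.v1]
  refine ⟨by unfold X84.tb5; positivity, ?_, ?_, cub5 w0 R0 g0 G3 q0 b1 b2 b3 b4, ?_, ?_, ?_⟩
  · have := mul_nonneg (sq_nonneg (uc S c.p)) (add_nonneg θ0.le j0)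
    unfold X84.tb5
    linarith [B.a9, k _ u2]
  · unfold X84.tb5
    linarith [B.a5, k _ X2, mul_nonneg X0 V0]
  · refine mul_le_mul_of_nonneg_left ?_ (by linarith)
    have e1 : G89.Ug S c.p.Lg 1 ^ 2 * c.p.γ / mf S 1 ≤ c.p.γ := by
      rw [div_le_iff₀ m0, mul_comm c.p.γ]
      exact mul_le_mul_of_nonneg_right ((le_mul_of_one_le_left (sq_nonneg _) E1).trans B.ug.2) g0
    unfold X84.tb5
    rw [add_div]
    linarith
  · refine mul_le_mul_of_nonneg_left ?_ (by linarith)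
    unfold X84.tb5
    linarith
  · refine mul_le_mul_of_nonneg_left ?_ (by positivity)
    unfold X84.tb5
    linarith [rpow_le_rpow (Ve83.Gam_nn h) d1 (show (0 : ℝ) ≤ 1 / 3 by norm_num)]

/-- the distance and the lag of the last node of the bulk -/
theorem Nd.ell5 (Y : Cy E S M m a c) (N : Nd S M m a c v v1 v2) :
    0 ≤ ((S.J : ℝ) - v) * S.v ∧ 8 * (((S.J : ℝ) - v) * S.v) ≤ c.D ^ 47 * S.F * tb5 S M c.p ∧
      M.s S.J - sb M m a (v + 1) ≤ c.D ^ 47 * S.F * tb5 S M c.p := by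
  obtain ⟨t0, -, -, -, b1, b2, b3⟩ := Y.tb5
  have Z := Y.cw.Z
  have h := Z.A.cl
  have C0 := h.C0
  have C1 := h.C1
  have F1 := h.F1
  have v0 := h.v0
  have D4 := Z.D4
  have K1 : 1 ≤ c.K := Y.hx.l1.trans Y.lK
  obtain ⟨vJ, -, -, -, -, a1, -⟩ := near3 Y.tw (Y.cw.cc Y.hx) K1
    ((pow_le_pow_right₀ K1 (by norm_num)).trans Y.KE) Y.ng N.v2e
  have a2 : (v : ℝ) + 2 ≤ S.J := by exact_mod_cast vJ
  have a3 := mul_le_mul_of_nonneg_right (show 2 ≤ (S.J : ℝ) - v by linarith) v0.le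
  have a4 := (h.s_tel (i := v) (j := S.J) (by omega) le_rfl).2
  have a5 := (abs_le.1 (Y.tw.loc v N.v2e.s1 (by omega))).1
  have c3 : 1 ≤ S.C ^ 3 := one_le_pow₀ C1
  have y0 : 0 ≤ S.F * tb5 S M c.p := by positivity
  have a6 : Ve83.DD S M c.p.Xp c.p.γ ≤ 10 * S.C ^ 3 * (S.F * tb5 S M c.p) := b3.trans
    (mul_le_mul_of_nonneg_left (le_mul_of_one_le_left t0 F1) (by positivity))
  have d1 : 1 ≤ c.D ^ 46 := one_le_pow₀ (by linarith)
  have a7 : M.z (S.J - 1) - M.z v ≤ c.D ^ 46 * (12 * S.C ^ 3 * (S.F * tb5 S M c.p)) :=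
    N.wz.trans (mul_le_mul_of_nonneg_left (by linarith [mul_le_mul_of_nonneg_right c3 y0])
      (by linarith))
  have y1 : 0 ≤ c.D ^ 46 * (S.F * tb5 S M c.p) := by positivity
  have a8 : ((S.J : ℝ) - v) * S.v ≤ 24 * S.C ^ 4 * (c.D ^ 46 * (S.F * tb5 S M c.p)) := by
    linarith [mul_le_mul_of_nonneg_left a7 C0.le]
  have e4 := mul_le_mul_of_nonneg_right (Z.Cp (show 4 ≤ 10 by norm_num)) y1
  have e5 := mul_le_mul_of_nonneg_right (Z.Cp (show 5 ≤ 10 by norm_num)) y1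
  have e3 := mul_le_mul_of_nonneg_right (Z.Cp (show 3 ≤ 10 by norm_num)) y1
  have e6 := mul_le_mul_of_nonneg_left (le_mul_of_one_le_left y0 d1) (pow_pos C0 3).le
  have e7 := mul_nonneg (show 0 ≤ c.D by linarith) y1
  refine ⟨by linarith, by linarith, ?_⟩
  linarith [mul_le_mul_of_nonneg_left a8 C0.le]

theorem Nd.xa5 (Y : Cy E S M m a c) (N : Nd S M m a c v v1 v2) :
    Sm S.θ 1 (c.D ^ 200 * Nb S M c) 1 (c.D ^ 29 * S.F *
      xa S M c.p (((S.J : ℝ) - v) * S.v) (M.s S.J - sb M m a (v + 1))) := by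
  obtain ⟨t0, b1, b2, b3, -⟩ := Y.tb5
  obtain ⟨l0, l1, l2⟩ := N.ell5 Y
  have B := Y.at5
  have Z := Y.cw.Z
  have h := Z.A.cl
  have F1 := h.F1
  have D4 := Z.D4
  have D1 : 1 ≤ c.D := by linarith
  have w0 := (Z.w3p one_pos).le
  have x0 := B.x0
  have X0 := B.X0.1
  have N0 := B.N_le.2
  have q1 : 1 ≤ √c.D := one_le_sqrt.2 D1
  have q2 : √c.D ^ 2 = c.D := sq_sqrt (by linarith)
  generalize √c.D = q at q1 q2
  generalize ((S.J : ℝ) - v) * S.v = ℓ at l0 l1 ⊢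
  generalize M.s S.J - sb M m a (v + 1) = Dv at l2 ⊢
  have G0 : 0 ≤ Ga S M := B.Ga0.1.trans B.Ga0.2.1
  have xp := Y.hx.lp.Xp0.1
  have y0 : 0 ≤ c.D ^ 47 * S.F := by positivity
  have a1 : uc S c.p ^ 2 * ℓ ≤ c.D ^ 47 * S.F * xs S M c.p := by
    linarith [mul_le_mul_of_nonneg_left l1 (sq_nonneg (uc S c.p)), mul_le_mul_of_nonneg_left b1 y0,
      mul_nonneg y0 x0]
  have a2 : c.p.X2 * Dv ≤ 2 * (c.D ^ 47 * S.F * xs S M c.p) := by
    linarith [mul_le_mul_of_nonneg_left l2 X0, mul_le_mul_of_nonneg_left b2 y0]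
  have a3 : √(S.w3 1 * ℓ ^ 3) ≤ c.D ^ 70 * q * S.F ^ 2 * xs S M c.p / 2 := by
    refine sqrt_le_iff.2 ⟨by positivity, ?_⟩
    have e1 := mul_le_mul_of_nonneg_left (pow_le_pow_left₀ (by positivity) l1 3) w0
    have e2 := mul_le_mul_of_nonneg_left b3 (pow_nonneg y0 3)
    have e3 : c.D ^ 141 * xs S M c.p ^ 2 * S.F ^ 3 ≤ c.D ^ 141 * xs S M c.p ^ 2 * S.F ^ 4 :=
      mul_le_mul_of_nonneg_left (pow_le_pow_right₀ F1 (by norm_num)) (by positivity)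
    have e4 : 0 ≤ c.D ^ 141 * xs S M c.p ^ 2 * S.F ^ 4 := by positivity
    rw [div_pow, mul_pow, mul_pow, mul_pow, q2]
    linarith
  have a4 : xs S M c.p ≤ c.D ^ 47 * S.F * xs S M c.p :=
    le_mul_of_one_le_left x0 (one_le_mul_of_one_le_of_one_le (one_le_pow₀ D1) F1)
  have a5 : 20 * (c.D ^ 47 * S.F * xs S M c.p) ≤ c.D ^ 70 * q * S.F ^ 2 * xs S M c.p := by
    have e1 : 20 ≤ c.D ^ 23 * q * S.F := by
      have := le_self_pow₀ D1 (show 23 ≠ 0 by norm_num)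
      have := mul_le_mul (mul_le_mul (show 20 ≤ c.D ^ 23 by linarith) q1 zero_le_one (by positivity))
        F1 zero_le_one (by positivity)
      linarith
    linarith [mul_le_mul_of_nonneg_right e1 (mul_nonneg y0 x0)]
  have a6 : xa S M c.p ℓ Dv ≤ c.D ^ 70 * q * S.F ^ 2 * xs S M c.p := by
    have e1 : 0 ≤ c.p.X2 * (c.p.Xp ^ ((1 : ℝ) / 3) + Ga S M ^ ((1 : ℝ) / 3)) := by positivity
    have e2 : Nd22.U S c.p.Lc 1 = uc S c.p := rfl
    unfold xa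
    rw [e2]
    linarith [B.a1, B.a2, B.a3, B.a4, B.a5, B.a6]
  refine B.sm_mul h.θ0.le (W := c.D ^ 99 * q * S.F ^ 3) (one_le_mul_of_one_le_of_one_le
    (one_le_mul_of_one_le_of_one_le (one_le_pow₀ D1) q1) (one_le_pow₀ F1))
    ((mul_le_mul_of_nonneg_left a6 (by positivity)).trans_eq (by ring)) ?_
  rw [mul_pow, mul_pow, q2]
  calc _ = 256 * c.D ^ 199 * (S.F ^ 6 * X48.N0 c.p) := by ring
    _ ≤ c.D * c.D ^ 199 * (S.F ^ 10 * Nn S M c.p c.X4 c.t4) :=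
      mul_le_mul (mul_le_mul_of_nonneg_right (by linarith) (by positivity))
        (mul_le_mul (pow_le_pow_right₀ F1 (by norm_num)) Y.N5 N0 (by positivity)) (by positivity)
        (by positivity)
    _ = _ := by unfold Nb; ring


end Crest.Agent.T156.Alt.X84

end
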