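import Crest.Agent.T156.TLp1_26
import Crest.Agent.T156.TLqP_53
import Crest.Agent.T156.TLqN_20
import Crest.Agent.T156.TkD_20
import Crest.Agent.T156.TLqU_45_Mg
import Crest.Agent.T156.TxCm_65
import Crest.Agent.T156.SzVU_32
import Crest.Agent.T156.TxX_84
import Crest.Agent.T156.TxE2_87
import Crest.Agent.T156.TLt_5
import Crest.Agent.T156.ClMid2_36
import Crest.Agent.T156.TopM_47
import Crest.Agent.T156.GapW_89
import Crest.Agent.T156.TopZ_48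
import Crest.Agent.T156.TxCx_5
import Crest.Agent.T156.TxA_83
import Crest.Agent.T156.PgT_33
import Crest.Agent.T156.TxT_48
import Crest.Agent.T156.LInt_31
import Crest.Agent.T156.LDef_69
import Crest.Agent.T156.SzG_5
import Crest.Agent.T156.GdT_65
import Crest.Agent.T156.Cvx_25
import Crest.Agent.T156.TxC_65
import Crest.Agent.T156.TxN_48
import Crest.Agent.T156.TxU_12

-- ▼ part T156/TLqJ_20
section

/-!
# Row 156, block (L): the tail integral at the bottom of the last window (helper20)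
-/

set_option autoImplicit false

noncomputable section

namespace Crest.Agent.T156.Alt.L63

open MeasureTheory Real Set
open Crest.Agent.T156.Alt.L69 Crest.Agent.T156.Alt.Mp9
open Crest.Agent.R164.GC Crest.Agent.R339.B Crest.Agent.R339.Var Crest.Agent.T157.Pf

variable {S : Sc} {M : Md} {m : ℕ} {a E Λ X X2 ℓ p0 b t0 f t2 U : ℝ} {V k0 : ℕ}

theorem jq_hq (A : At S M m a (2 * S.C)) (t : ℝ) : |Jq S M m a t| ≤ Hq S M m a t := by
  have e := A.okh.2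
  unfold Hq Rig.Hp
  rw [e]
  exact le_add_of_nonneg_right (intervalIntegral.integral_nonneg (by linarith [A.c_pos])
    fun _ _ => abs_nonneg _)

theorem jq_lip (A : At S M m a (2 * S.C)) {s t : ℝ} (h : s ≤ t)
    (hU : ∀ r, s ≤ r → r ≤ t → |uq S M m a r| ≤ U) :
    |Jq S M m a t| ≤ |Jq S M m a s| + U * (t - s) := by
  have i : ∀ p q, IntervalIntegrable (fun r => lvr 1 (lb M S m a (2 * S.C)) r -
      lvr 1 (lh M (2 * S.C)) r) volume p q := fun p q =>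
    Sc48.ii_of_bdd ((Sc48.lvr_meas _).sub (Sc48.lvr_meas _)) (Sc48.lvr_sub_le A.okh.1.1 A.okb.1.1) p q
  have e := intervalIntegral.integral_add_adjacent_intervals (i s t) (i t (2 * S.C))
  have q := intervalIntegral.norm_integral_le_of_norm_le_const (a := s) (b := t) (C := U)
    (f := fun r => lvr 1 (lb M S m a (2 * S.C)) r - lvr 1 (lh M (2 * S.C)) r) fun r hr => by
      rw [uIoc_of_le h] at hr
      exact hU r hr.1.le hr.2
  rw [abs_of_nonneg (sub_nonneg.2 h), norm_eq_abs] at q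
  unfold Jq Sc48.Jf
  rw [← e]
  have q1 := abs_le.1 q
  generalize ∫ r in s..t, (lvr 1 (lb M S m a (2 * S.C)) r - lvr 1 (lh M (2 * S.C)) r) = x at *
  generalize ∫ r in t..2 * S.C, (lvr 1 (lb M S m a (2 * S.C)) r - lvr 1 (lh M (2 * S.C)) r) = y
  exact abs_le.2 ⟨by linarith [neg_abs_le (x + y)], by linarith [le_abs_self (x + y)]⟩

/-- **the fine tail integral at the bottom of the last window** -/
theorem jf20 (A : At S M m a (2 * S.C)) (P : P1 E Λ S M m a X X2 ℓ p0 b V k0 t0 f)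
    (h1 : 3 / 4 * M.s S.J ≤ t2) (h2 : t2 ≤ M.s S.J) (U0 : 0 ≤ U)
    (hU : ∀ t, 3 / 4 * M.s S.J ≤ t → t ≤ t2 → |uq S M m a t| ≤ U) (ℓ0 : 0 ≤ ℓ) :
    |Jq S M m a t2| ≤ Λ * p0 + (2 * ℓ + Λ * (X ^ ((1 : ℝ) / 3) + M.s S.jl)) * U := by
  have s0 := A.cl.s_nn S.J
  have w := P.w
  have low := P.low
  have w0 : 0 ≤ 2 * ℓ + Λ * (X ^ ((1 : ℝ) / 3) + M.s S.jl) := by linarith [P.t0b, P.yV]
  rcases le_total t2 t0 with c | c
  · linarith [jq_hq A t2, (P.hq t2 (by linarith) c).1, mul_nonneg w0 U0]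
  · have q := jq_lip A c fun r p q => hU r (by linarith) q
    linarith [jq_hq A t0, (P.hq t0 (by linarith) le_rfl).1, mul_le_mul_of_nonneg_left
      (show t2 - t0 ≤ 2 * ℓ + Λ * (X ^ ((1 : ℝ) / 3) + M.s S.jl) by linarith) U0]

end Crest.Agent.T156.Alt.L63

end
end

-- ▼ part T156/TLqZ_20
section

/-!
# Row 156, block (L): `TLq` from its body at a fixed size (helper20)
-/

set_option autoImplicit false

noncomputable section

namespace Crest.Agent.T156.Alt.L63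

open Real
open Crest.Agent.T156.Alt.L69 Crest.Agent.T156.Alt.Mp9

/-- the body of `TLq` at a fixed size, loss `L ^ k` -/
def TlqAt (k : ℕ) : Prop := ∀ T0 : ℝ, ∃ K0 : ℝ, ∀ {S : Sc} {M : Md} {m : ℕ} {a : ℝ}
  {K E L G1 u1 u2 j γ Lc ηc τ l0 l X Xp Vt Lg Lp X2 X3 X4 G0 N t1 ℓ En p0 aa g' R2 t0 f : ℝ}
  {η g : ℝ → ℝ} {V k0 : ℕ}, 2 * S.C = T0 → K0 ≤ K → K0 ≤ L → T20.Rg K E L S → L ^ 400 ≤ E →
  14 ≤ log (S.n : ℝ) →
  Cx E L S M m a G1 u1 u2 j γ Lc ηc τ l0 l X Xp Vt Lg Lp X2 X3 X4 G0 η N g t1 (M.s S.J) ℓ En p0 →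
  LQ E S M X Xp Vt Lg Lp X2 G0 u1 u2 j γ η aa g' R2 →
  P1 E L S M m a X X2 ℓ p0 (bs S Lg X2 (g (M.s S.J)) η (M.s S.J)) V k0 t0 f → ∀ Gn : ℕ → Prop,
  (∀ U V, 5 / 4 * l ≤ M.s U → M.s V + aa / 5 ≤ M.s S.J → Nt E L S M m a Lg X X2 η Gn U V) →
  (∀ D, aa ≤ D → E * D ≤ 1 →
    ∃ Pn, L62.PN S M m a (2 * S.C) Pn (fun k => L * (Lg ^ 2 * ap M S Xp Vt γ k) ^ 2)
      (L * eQ S M X Xp Vt Lg Lp X2 G0 u1 j γ D η) (L * X2) (8 * u2) (aa / (100 * S.C ^ 3)) aa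
      (D / aa)) →
  M.En S m a M.q 2 (M.s S.J - ℓ) S.C ≤ L ^ k * (p0 ^ 2 +
    (ℓ + X ^ ((1 : ℝ) / 3) + M.s S.jl) * (j + bs S Lg X2 g' η (M.s S.J)) ^ 2 + aa ^ 3 + R2 +
    GS M S (M.s S.J - ℓ) S.C + GP M S + 1 / (S.n : ℝ) ^ 2)

/-- **`TLq`** -/
theorem tlq_of (k : ℕ) (H : TlqAt k) (h1 : P1S) (h2 : NdTq) (h3 : PNq) : TLq := by
  unfold TLq
  refine CL.mono (P := fun E Λ S M m a => ∀ Λ', Λ ≤ Λ' →
    ∀ G1 u1 u2 j γ Lc ηc τ l0 l X Xp Vt Lg Lp X2 X3 X4 G0 η N g t1 ℓ En p0,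
    Hy E S M m a G1 u1 u2 j γ Lc ηc τ l0 l X Xp Vt Lg Lp X2 X3 X4 G0 η N g t1 (M.s S.J) ℓ En p0 →
    ∀ aa g' R2, LQ E S M X Xp Vt Lg Lp X2 G0 u1 u2 j γ η aa g' R2 →
      M.En S m a M.q 2 (M.s S.J - ℓ) S.C ≤ Λ' * (p0 ^ 2 +
        (ℓ + X ^ ((1 : ℝ) / 3) + M.s S.jl) * (j + bs S Lg X2 g' η (M.s S.J)) ^ 2 + aa ^ 3 + R2 +
        GS M S (M.s S.J - ℓ) S.C + GP M S + 1 / (S.n : ℝ) ^ 2)) ?_
    fun _ _ _ _ _ _ _ _ _ _ H => H _ le_rfl
  refine ((h1.and h2).and h3).glue' (fun _ _ _ _ _ _ _ _ h2 H Λ' h3 => H Λ' (h2.trans h3)) 2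
    (i := 1) le_rfl 400 k fun C A ε η hε hη => ?_
  obtain ⟨K0, HK⟩ := H (2 * C)
  refine ⟨max (max (max (10 ^ 9 * C ^ 13) (32 * C ^ 3)) (max (K0 * C) (exp (4 * (2 * C)))))
    (max K0 14), fun S M m a R hA e1 _ c I ⟨⟨q1, q2⟩, q3⟩ Λ hΛ G1 u1 u2 j γ Lc ηc τ l0 l X Xp Vt Lg Lp
      X2 X3 X4 G0 η' N g t1 ℓ En p0 Y aa g' R2 Q => ?_⟩
  obtain rfl := R.hC
  rw [pow_one] at Y Q
  have n1 : 1 ≤ S.n := c.n1
  have n0 := c.N0
  have LE : ((S.n : ℝ) ^ η) ^ 400 ≤ (S.n : ℝ) ^ ε := by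
    rw [Pre29.rp_pow]; exact Pre29.rp_le n1 (by push_cast at e1 ⊢; linarith)
  have k1 := (le_max_left _ _).trans R.K_le
  have k2 := (le_max_left _ _).trans k1
  have k3 := (le_max_right _ _).trans k1
  have vn : S.v ≤ S.C * (1 / S.n) ^ 2 := by
    have b1 : S.v * (S.n : ℝ) ^ 2 ≤ S.C := le_trans (mul_le_mul_of_nonneg_left
      (pow_le_pow_right₀ (by exact_mod_cast n1) (R.hA ▸ R.A2)) c.v0.le) c.v2
    rwa [one_div_pow, mul_one_div, le_div_iff₀ (by positivity)]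
  have G : T20.Rg K0 ((S.n : ℝ) ^ ε) ((S.n : ℝ) ^ η) S := by
    refine ⟨R.num_le, (le_max_right _ _).trans k2, (le_max_left _ _).trans k3, ?_, R.log_le, R.log1,
      (pow_le_pow_right₀ R.Λ1 (by norm_num)).trans LE, vn.trans ?_⟩
    · rw [exp_neg, ← div_eq_inv_mul, one_le_div (exp_pos _)]; exact (le_max_right _ _).trans k3
    · have a1 : S.C ≤ S.n := by linarith [R.C_log, log_le_sub_one_of_pos n0, c.C0]
      rw [sq, ← mul_assoc]
      exact mul_le_of_le_one_left (by positivity) (by rwa [mul_one_div, div_le_one n0])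
  obtain ⟨V, k0, t0, f, P⟩ := q1 _ _ _ _ _ _ _ _ _ _ _ _ _ _ _ _ _ _ _ _ _ _ _ _ _ _ Y
  obtain ⟨Gn, hN⟩ := q2 _ _ _ _ _ _ _ _ _ _ _ _ _ _ _ _ _ _ _ _ _ _ _ _ _ _ Y _ _ _ Q
  have fin := HK rfl le_rfl (((le_max_left _ _).trans (le_max_right _ _)).trans R.K_le) G LE
    (((le_max_right _ _).trans (le_max_right _ _)).trans R.K_log)
    ⟨Y, c, I, (le_max_left _ _).trans k2, (pow_le_pow_right₀ R.Λ1 (by norm_num)).trans LE, R.log_le,
      R.C_log, vn⟩ Q P Gn hN (q3 _ _ _ _ _ _ _ _ _ _ _ _ _ _ _ _ _ _ _ _ _ _ _ _ _ _ Y _ _ _ Q)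
  refine fin.trans (mul_le_mul_of_nonneg_right hΛ (nonneg_of_mul_nonneg_right (le_trans ?_ fin)
    (pow_pos (R.rp0 η) k)))
  exact Finset.sum_nonneg fun i _ => mul_nonneg (Ap63.w_nn c.leg.zm i) (by positivity)

end Crest.Agent.T156.Alt.L63

end
end

-- ▼ part T156/TLqY_53
section

/-!
# Row 156, block (L): the last window and the plateau, assembly (helper53)
-/

set_option autoImplicit false

noncomputable section

namespace Crest.Agent.T156.Alt.L63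

open Real
open Crest.Agent.T157.Pf
open Crest.Agent.T156.Alt.L69 Crest.Agent.T156.Alt.Mp9

/-- the budget -/
theorem bud53 {L ℓ D F p p0 b γ aa R2 n2 Z G Y En : ℝ} (L1 : 1000 ≤ L) (ℓ0 : 0 ≤ ℓ) (ℓD : ℓ ≤ D)
    (D1 : D ≤ 1) (F0 : 0 ≤ F) (hF : F ≤ L ^ 8 * (b + γ)) (hγ : γ ^ 2 ≤ R2) (a0 : 0 ≤ aa)
    (n0 : 0 ≤ n2) (G0 : 0 ≤ G) (p0' : 0 ≤ p) (hp : p ≤ L * p0 + L * D * (L ^ 12 * F))
    (hZ : Z = p0 ^ 2 + D * b ^ 2 + aa ^ 3 + R2 + G + n2)
    (hY : Y = L ^ 53 * (L ^ 20) ^ 3 * (p ^ 2 + ℓ * F ^ 2 + aa ^ 3 + R2 + 0))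
    (h : En ≤ L ^ 46 * (ℓ * b ^ 2 + R2) + 3 * Y + 3 * G + L * n2) : En ≤ L ^ 160 * Z := by
  have L0 : 0 < L := by linarith
  have D0 : 0 ≤ D := ℓ0.trans ℓD
  have R0 : 0 ≤ R2 := (sq_nonneg _).trans hγ
  have x1 : 0 ≤ D * b ^ 2 := by positivity
  have x2 : 0 ≤ aa ^ 3 := by positivity
  have x3 := sq_nonneg p0
  have Z0 : 0 ≤ Z := by rw [hZ]; positivity
  have pw := fun i j hij => pw36 L1 (i := i) (k := j) hij Z0
  have nz : ∀ i : ℕ, 0 ≤ L ^ i * Z := fun i => by positivity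
  have f1 : D * F ^ 2 ≤ 2 * (L ^ 16 * Z) := by
    have a1 : F ^ 2 ≤ L ^ 16 * (2 * b ^ 2 + 2 * R2) := by
      have := pow_le_pow_left₀ F0 hF 2
      have := mul_le_mul_of_nonneg_left (show (b + γ) ^ 2 ≤ 2 * b ^ 2 + 2 * R2 by
        linarith [sq_nonneg (b - γ)]) (by positivity : 0 ≤ L ^ 16)
      linarith
    have a2 := mul_le_mul_of_nonneg_left a1 D0
    have a3 := mul_le_mul_of_nonneg_right D1 (by positivity : 0 ≤ L ^ 16 * R2)
    have a4 := mul_le_mul_of_nonneg_left (show D * b ^ 2 + R2 ≤ Z by linarith)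
      (by positivity : 0 ≤ L ^ 16)
    linarith
  have f2 : p ^ 2 ≤ 5 * (L ^ 42 * Z) := by
    have a1 := pow_le_pow_left₀ p0' hp 2
    have a2 : D * (D * F ^ 2) ≤ 1 * (2 * (L ^ 16 * Z)) := mul_le_mul D1 f1 (by positivity) zero_le_one
    have a3 := mul_le_mul_of_nonneg_left a2 (by positivity : 0 ≤ L ^ 26)
    have a4 := mul_le_mul_of_nonneg_left (show p0 ^ 2 ≤ Z by linarith) (by positivity : 0 ≤ L ^ 2)
    linarith [sq_nonneg (L * p0 - L * D * (L ^ 12 * F)), pw 2 42 (by norm_num), nz 2]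
  have f3 : p ^ 2 + ℓ * F ^ 2 + aa ^ 3 + R2 + 0 ≤ 6 * (L ^ 42 * Z) := by
    linarith [mul_le_mul_of_nonneg_right ℓD (sq_nonneg F), pw 16 42 (by norm_num),
      pw 0 16 (by norm_num), nz 16]
  have f4 := mul_le_mul_of_nonneg_left f3 (by positivity : 0 ≤ L ^ 53 * (L ^ 20) ^ 3)
  have f5 := mul_le_mul_of_nonneg_left (show ℓ * b ^ 2 + R2 ≤ Z by
    linarith [mul_le_mul_of_nonneg_right ℓD (sq_nonneg b)]) (by positivity : 0 ≤ L ^ 46)
  have f6 := mul_le_mul_of_nonneg_left (show n2 ≤ Z by linarith) L0.le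
  linarith [pw 155 160 (by norm_num), pw 46 155 (by norm_num), pw 1 46 (by norm_num),
    pw 0 1 (by norm_num), nz 155, nz 46, nz 1]

set_option maxHeartbeats 1600000 in
/-- **the body of (TLq)** from the window, the plateau nodes and the spread -/
theorem core53 (T0 : ℝ) : ∃ K0 : ℝ, ∀ {S : Sc} {M : Md} {m : ℕ} {a K E L G1 u1 u2 j γ Lc ηc τ l0 l X Xp
    Vt Lg Lp X2 X3 X4 G0 N t1 ℓ En p0 aa g' R2 : ℝ} {η g : ℝ → ℝ}, 2 * S.C = T0 → K0 ≤ K → K0 ≤ L →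
    T20.Rg K E L S → L ^ 400 ≤ E → 14 ≤ log (S.n : ℝ) →
    Cx E L S M m a G1 u1 u2 j γ Lc ηc τ l0 l X Xp Vt Lg Lp X2 X3 X4 G0 η N g t1 (M.s S.J) ℓ En p0 →
    LQ E S M X Xp Vt Lg Lp X2 G0 u1 u2 j γ η aa g' R2 → ∀ {b t0 f : ℝ} {V0 k0 : ℕ},
    P1 E L S M m a X X2 ℓ p0 b V0 k0 t0 f → ∀ {Gn : ℕ → Prop},
    (∀ U V, 5 / 4 * l ≤ M.s U → M.s V + aa / 5 ≤ M.s S.J → Nt E L S M m a Lg X X2 η Gn U V) →
    ∀ {u V V2 : ℕ} {y r : ℝ}, Sq K L S M m a Lg X2 j γ η aa g' Gn u V V2 y r →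
    ∀ {Pn : ℕ → Prop} {ez : ℕ → ℝ} {x uc c0 : ℝ} {w kA : ℕ},
    L62.PN S M m a (2 * S.C) Pn ez x (L * X2) uc (aa / (100 * S.C ^ 3)) aa (L ^ 3 * r / aa) →
    Pn w → S.J ≤ kA → kA ≤ w → 2 ≤ c0 * L → 2 * S.C * c0 ≤ 1 → 1 - c0 ≤ M.z (w - 1) →
    c0 / 2 ≤ 1 - M.z w → M.z (kA - 1) - M.z (S.J - 1) ≤ 4 * aa →
    (∀ t ∈ Set.Ico (sb M m a (w + 1)) (2 * S.C), Pr.Reg48.Gd (lb M S m a (2 * S.C)) t ≤ 0) →
    x + ez w ≤ L ^ 7 * (S.θ * √R2) → |M.G w| ≤ L ^ 2 * (S.θ * √R2) →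
    (∀ μ f, S.θ ≤ L ^ 3 * μ → S.C * (L * X2) ≤ μ / 2 → f ≤ sb M m a (S.J + 1) →
      (∀ t, f ≤ t → t ≤ sb M m a (w + 1) → M.b * Pr.GG (lb M S m a (2 * S.C)) t ≤ 1 - μ) →
      ∑ k ∈ Finset.Icc kA S.Jp, dx M k * (sb M m a (k + 1) - sb M m a (w + 1)) ^ 2 ≤
        (L ^ 10 * √R2) ^ 2) →
    (Sk L S M m a (qF L S M Lg X2 j γ η g') (qO L S M Lg X2) aa Gn u V2 y r (4 * r / L ^ 33) →
      Fl L S M m a (qF L S M Lg X2 j γ η g') aa V y r → ∀ B, M.s S.J - y ≤ B → L ^ 30 * B ≤ r →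
      Wk S M m a (2 * S.C) V (y - 12 * (log S.n * L * r) - L * r / 2) (y - 11 * (log S.n * L * r))
        (y - 2 * (log S.n * L * r)) L r (L ^ 12 * qF L S M Lg X2 j γ η g')
        (L ^ 4 * qF L S M Lg X2 j γ η g')) →
    M.En S m a M.q 2 (M.s S.J - ℓ) S.C ≤ L ^ 160 * (p0 ^ 2 +
      (ℓ + X ^ ((1 : ℝ) / 3) + M.s S.jl) * (j + bs S Lg X2 g' η (M.s S.J)) ^ 2 + aa ^ 3 + R2 +
      GS M S (M.s S.J - ℓ) S.C + GP M S + 1 / (S.n : ℝ) ^ 2) := by
  obtain ⟨K1, H1⟩ := fl36 T0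
  obtain ⟨K2, -, H2⟩ := Q34.finQ T0
  obtain ⟨K3, H3⟩ := Sq.en73 T0
  refine ⟨max K1 (max K2 K3), fun {S M m a K E L G1 u1 u2 j γ Lc ηc τ l0 l X Xp Vt Lg Lp X2 X3 X4 G0 N
    t1 ℓ En p0 aa g' R2 η g} hT hK hL G LE lg H Q {b t0 f V0 k0} P {Gn} hN {u V V2 y r} W
    {Pn ez x uc c0 w kA} pn pw k3 kw c1 c2 z1 z2 kz conc he hG hs win => ?_⟩
  have q := T20.qn H.cl H.mem G H.toHy Q
  have h := H.cl
  have A := H.A
  have C0 := h.C0
  have C1 := h.C1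
  have L1 := G.L1
  have L0 : 0 < L := by linarith
  have L1' : 1 ≤ L := by linarith
  have L2 : L ^ 200 ≤ E := (pow_le_pow_right₀ L1' (by norm_num)).trans LE
  have E0 : 0 < E := by linarith [H.E9]
  have wJ := (pn.mem _ pw).2
  have l0' := q.F.l0
  have k := W.kit G L2 lg q (hN u V2 (by linarith [W.su, q.lJ]) (by linarith [W.s2, W.a0]))
  have F := H1 hT ((le_max_left _ _).trans hK) G L2 lg H.ln q hN W w (k3.trans kw) wJ.le
    ((mid53 H (k3.trans kw) wJ.le c1 c2 z1 z2).trans W.nk.jF) conc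
  have r0 := k.r0
  have r2 : 0 < r ^ 2 := by positivity
  have F0 := k.F0
  have a0 := W.a0
  have Fr := k.Fr
  have ar := k.ar
  have r1 := k.r1
  have Fb := W.Fb
  have jF := W.nk.jF
  have mF := W.nk.mF
  have oF := W.nk.oF
  have θ0 := h.θ0
  have s0 := sqrt_nonneg R2
  have X20 := q.F.X2
  have u20 : 0 ≤ u2 := by linarith [H.lp.u1a, H.lp.u1b.1, h.last, h.leg.z1 (S.Jp - 1)]
  have R0 : 0 ≤ R2 := by linarith [Q.q4, sq_nonneg X2, sq_nonneg γ, u20]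
  have sq : √R2 ^ 2 = R2 := sq_sqrt R0
  have th : S.θ ≤ L ^ 2 * r ^ 2 := by
    have := pow_le_pow_left₀ (sqrt_nonneg _) W.th 2
    rwa [sq_sqrt θ0.le, mul_pow] at this
  have rθ : r ≤ √S.θ := by rw [W.er]; exact sqrt_le_sqrt (h.ms1 _)
  have p := fun i k (h : i < k) (x : ℝ) (hx : 0 ≤ x) => pw36 L1 h hx
  have R3 : L ^ 197 * R2 ≤ r ^ 3 := by
    refine le_of_sq_le_sq (le_of_mul_le_mul_left ?_ (by positivity : 0 < L ^ 6)) (by positivity)
    have a1 := pow_le_pow_left₀ θ0.le th 3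
    have a2 := mul_le_mul_of_nonneg_right LE (sq_nonneg R2)
    have a3 := Q.q5
    linarith
  have rr : r ≤ 1 := le_trans (le_mul_of_one_le_left r0.le (one_le_pow₀ L1')) r1
  have R4 : L ^ 98 * √R2 ≤ r := by
    refine le_of_sq_le_sq ?_ r0.le
    rw [mul_pow, sq]
    have := mul_le_mul_of_nonneg_left rr r2.le
    linarith [p 196 197 (by norm_num) _ R0, mul_nonneg (pow_pos L0 196).le R0]
  have ρ1 : L * r ≤ log S.n * L * r := by
    rw [mul_assoc]; exact le_mul_of_one_le_left (by positivity) G.lg1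
  have ρ2 : log S.n * L * r ≤ L ^ 2 * r := by
    rw [pow_two]; gcongr; exact G.lg
  have Lr : 1000 * r ≤ L * r := mul_le_mul_of_nonneg_right L1 r0.le
  have y1 := W.y1
  have y2 := W.y2
  have yL : 1000 * (L ^ 2 * r) ≤ y := by
    have a1 := mul_le_mul_of_nonneg_right k.Pa (by positivity : 0 ≤ L ^ 2 * r)
    refine le_of_mul_le_mul_left ?_ L0
    linarith [p 3 66 (by norm_num) _ r0.le, k.Pa]
  have ℓr : L ^ 3 * r ≤ ℓ := le_trans (mul_le_mul
    ((pow_le_pow_right₀ L1' (by norm_num)).trans LE) rθ r0.le E0.le) H.lt.ℓ1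
  have ℓ0 : 0 ≤ ℓ := le_trans (by positivity) ℓr
  have hJ := jf20 A P (t2 := y - 12 * (log S.n * L * r) - L * r / 2 + r) (by linarith) (by linarith)
    (by positivity) (fun t a1 a2 => F.uq t a1 (by linarith)) ℓ0
  have ym : y ≤ sb M m a (S.J + 1) := by
    rw [W.ey]; exact A.sb_mono (Nat.succ_le_succ (W.VV.trans W.VJ.le))
  have sp := hs (r ^ 2 / (2 * S.C)) y (by
      rw [← mul_div_assoc, le_div_iff₀ (by positivity)]
      have a1 := mul_le_mul th (show 2 * S.C ≤ L by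
        linarith [G.LC, le_self_pow₀ C1 (show 3 ≠ 0 by norm_num)]) (by positivity) (by positivity)
      linarith) (by
      rw [le_div_iff₀ two_pos, le_div_iff₀ (by positivity)]
      have a1 : L ^ 3 * X2 ≤ qO L S M Lg X2 := by
        unfold qO
        have : 0 ≤ L ^ 3 * X2 := by positivity
        have : 0 ≤ L ^ 3 * uw S Lg (M.s S.J) ^ 2 := by positivity
        linarith
      have a2 := mul_le_mul_of_nonneg_right (show 4 * S.C ^ 2 ≤ L by
        linarith [G.LC, pow_le_pow_right₀ C1 (show 2 ≤ 3 by norm_num), pow_pos C0 3])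
        (by positivity : 0 ≤ L * X2)
      linarith [k.or, p 0 50 (by norm_num) _ k.o0, k.o0, p 2 3 (by norm_num) _ X20,
        mul_nonneg (pow_pos L0 2).le X20])
    ym fun t a1 a2 => F.fl t ⟨by linarith, a2.trans (A.sb_mem wJ.le).2⟩
  have I := iq53 H G Q W pn (Hh := L ^ 10 * √R2) (R := L ^ 10 * √R2) rfl pw k3 kw c1 c2 z1 z2 kz (by
      have a1 := mul_le_mul_of_nonneg_right th s0
      have a2 := mul_le_mul_of_nonneg_left a1 (pow_pos L0 7).le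
      have x0 : 0 ≤ S.θ * √R2 := by positivity
      linarith [p 2 7 (by norm_num) _ x0, p 9 10 (by norm_num) _ (mul_nonneg s0 r2.le),
        mul_nonneg (pow_pos L0 2).le x0, mul_nonneg (pow_pos L0 9).le (mul_nonneg s0 r2.le)])
    (by positivity) sp le_rfl (by linarith) (by linarith) F.fl F.top
    ((le_abs_self _).trans (F.uq _ (by linarith) (by linarith))) F.lo hJ (by
      linarith [p 50 98 (by norm_num) _ s0, p 40 46 (by norm_num) _ F0, p 40 46 (by norm_num) _ a0.le,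
        p 46 50 (by norm_num) _ F0, p 46 50 (by norm_num) _ a0.le, mul_nonneg (pow_pos L0 46).le F0,
        mul_nonneg (pow_pos L0 46).le a0.le])
    (win k F)
  obtain ⟨Sb, gp, c0', a0', b0, b1, p0', d, D, err, C1', δ, cq⟩ := I.cq53
  have γF := I.γF
  have X0 : 0 ≤ X ^ ((1 : ℝ) / 3) := by
    have Lg0 : 0 < Lg := (pow_pos L0 67).trans_le q.F.Lg1
    have := mul_nonneg q.X0 Lg0.le
    rwa [div_mul_cancel₀ _ Lg0.ne'] at this
  generalize qF L S M Lg X2 j γ η g' = Fq at *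
  have n20 : ∀ z, 0 ≤ z → 0 ≤ L ^ 20 * z := fun z hz => by positivity
  have fin := H2 cq hT.le (((le_max_left _ _).trans (le_max_right _ _)).trans hL) (L ^ 20) aa Fq (√R2)
    R2 0 ℓ (one_le_pow₀ L1') a0.le F0 s0 le_rfl sq.le
    (by linarith [p 6 20 (by norm_num) _ F0, p 6 20 (by norm_num) _ a0.le,
          p 0 6 (by norm_num) _ a0.le, n20 _ s0, n20 _ F0, n20 _ a0.le])
    (by linarith [p 14 20 (by norm_num) _ s0, p 10 20 (by norm_num) _ F0,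
          p 10 20 (by norm_num) _ a0.le, p 4 10 (by norm_num) _ F0, p 4 10 (by norm_num) _ a0.le,
          n20 _ s0, n20 _ F0, n20 _ a0.le])
    (by linarith [p 0 20 (by norm_num) _ F0, n20 _ s0, n20 _ a0.le])
    (by linarith [p 0 20 (by norm_num) _ F0, n20 _ s0, n20 _ a0.le])
    (by linarith [p 12 20 (by norm_num) _ F0, n20 _ s0, n20 _ F0])
    (by linarith [p 10 20 (by norm_num) _ (mul_nonneg s0 r2.le),
          p 13 20 (by norm_num) _ (mul_nonneg F0 r2.le), p 0 13 (by norm_num) _ (mul_nonneg F0 r2.le),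
          n20 _ (mul_nonneg s0 r2.le), n20 _ (mul_nonneg F0 r2.le)])
    (by rw [mul_pow, sq]; linarith) (by linarith [Q.q4, sq_nonneg X2, u20])
    (by rw [← W.ey]; linarith [p 2 3 (by norm_num) _ r0.le, mul_pos (pow_pos L0 2) r0])
    (by linarith [p 20 50 (by norm_num) _ F0, p 20 50 (by norm_num) _ a0.le,
          p 20 98 (by norm_num) _ s0])
    (by linarith [p 20 197 (by norm_num) _ R0, n20 _ R0])
  have en := H3 hT H.mem (((le_max_right _ _).trans (le_max_right _ _)).trans hK) G H.toHy Q W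
    (t2 := y - 12 * (log S.n * L * r) - L * r / 2 + r) (by linarith [W.w1]) (by linarith) fin
  have j0 := P.jl0
  have lC : 1000 * l ≤ S.C := q.lJ.trans (h.s_le_C h.i3)
  have CL : 32 * S.C ≤ L := by linarith [G.LC, le_self_pow₀ C1 (show 3 ≠ 0 by norm_num)]
  have D1 : ℓ + X ^ ((1 : ℝ) / 3) + M.s S.jl ≤ 1 := by
    have a1 := mul_le_mul_of_nonneg_right H.LE1 ℓ0
    have a2 := mul_le_mul_of_nonneg_right (le_self_pow₀ L1' (show 67 ≠ 0 by norm_num)) X0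
    refine le_of_mul_le_mul_left ?_ L0
    linarith [H.lt.ℓ2, h.s_le_C h.i3, q.F.R1, q.F.jl]
  refine (bud53 (G := GS M S (M.s S.J - ℓ) S.C + GP M S) (γ := γ) (p0 := p0) L1 ℓ0 (by linarith) D1 F0
    (by linarith) (by linarith [Q.q4, sq_nonneg X2, u20]) a0.le (by positivity)
    (add_nonneg (GS_nn h _ _) (GP_nn h)) ((abs_nonneg _).trans hJ) ?_ rfl rfl en).trans_eq (by ring)
  have a1 := mul_le_mul_of_nonneg_right (show 2 ≤ L by linarith) ℓ0
  have := mul_le_mul_of_nonneg_right (show 2 * ℓ + L * (X ^ ((1 : ℝ) / 3) + M.s S.jl) ≤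
    L * (ℓ + X ^ ((1 : ℝ) / 3) + M.s S.jl) by linarith) (by positivity : 0 ≤ L ^ 12 * Fq)
  linarith

theorem tlqAt : TlqAt 160 := fun T0 => by
  obtain ⟨K1, H1⟩ := core53 T0
  obtain ⟨K2, H2⟩ := sqAt T0
  obtain ⟨K3, H3⟩ := spq45 T0
  obtain ⟨K4, H4⟩ := win36 T0
  refine ⟨max (max K1 K2) (max K3 K4), fun {S M m a K E L G1 u1 u2 j γ Lc ηc τ l0 l X Xp Vt Lg Lp X2 X3
    X4 G0 N t1 ℓ En p0 aa g' R2 t0 f η g V0 k0} hT hK hL G LE lg H Q P Gn hN hP => ?_⟩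
  obtain ⟨u, V, V2, y, r, W⟩ := H2 hT H.cl H.mem (((le_max_right _ _).trans (le_max_left _ _)).trans hK)
    G H.toHy Q Gn hN
  have h := H.cl
  have L1 := G.L1
  have L0 : 0 < L := by linarith
  have L1' : 1 ≤ L := by linarith
  have E0 : 0 < E := by linarith [H.E9]
  have r0 := W.nk.r0
  have rθ : r ≤ √S.θ := by rw [W.er]; exact sqrt_le_sqrt (h.ms1 _)
  have a1 : aa ≤ L ^ 3 * r := by
    have F0 : 0 ≤ qF L S M Lg X2 j γ η g' := h.v0.le.trans W.nk.vF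
    have := le_mul_of_one_le_left (add_nonneg F0 W.a0.le) (one_le_pow₀ (n := 50) L1')
    linarith [W.sm, le_mul_of_one_le_left r0.le (one_le_pow₀ (n := 3) L1')]
  obtain ⟨Pn, pn⟩ := hP (L ^ 3 * r) a1 (by
    have a2 := mul_le_mul_of_nonneg_left
      ((mul_le_mul_of_nonneg_left rθ E0.le).trans H.lt.ℓ1) E0.le
    have a4 : E * (E * r) ≤ L := by
      linarith [H.lt.ℓ2, h.s_le_C h.i3, G.LC, le_self_pow₀ h.C1 (show 3 ≠ 0 by norm_num), h.C0]
    have a5 := mul_le_mul_of_nonneg_right (H.LE 4) (by positivity : 0 ≤ E * r)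
    exact le_of_mul_le_mul_left (by linarith) L0)
  obtain ⟨w, kA, s⟩ := H3 H hT.le (((le_max_left _ _).trans (le_max_right _ _)).trans hL) Q a1
    (mul_le_mul_of_nonneg_left rθ (by positivity)) pn
  obtain ⟨c0, c1, c2, z1, z2⟩ := s.cz
  exact H1 hT (((le_max_left _ _).trans (le_max_left _ _)).trans hK)
    (((le_max_left _ _).trans (le_max_left _ _)).trans hL) G LE lg H Q P hN W pn s.pw s.k1.le s.k2 c1
    c2 z1 z2 s.a1 s.conc s.er s.Gw s.sum fun k F B p q =>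
      H4 hT (((le_max_right _ _).trans (le_max_right _ _)).trans hK) W k F p q

/-- **(TLq)** -/
theorem tlq53 (h1 : P1S) (h2 : NdTq) (h3 : PNq) : TLq := tlq_of 160 tlqAt h1 h2 h3

end Crest.Agent.T156.Alt.L63

end
end

-- ▼ part T156/TxC2_65
section

/-!
# Row 156, block (L): the corner context with the cubic top sum paid by `X3` alone (helper65)
-/

set_option autoImplicit false

noncomputable section

namespace Crest.Agent.T156.Alt.L31

open Real Finset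
open Crest.Agent.T156.Alt.Mp9 Crest.Agent.T156.Alt.L69
open Crest.Agent.T156.Alt.G89 (Cz)
open Crest.Agent.T156.Alt.Gd65 (Out)

theorem a3 {w c W Y X3 : ℝ} (w0 : 0 ≤ w) (w1 : w ≤ 1) (c1 : 1 ≤ c) (hW : w ≤ W) (Y0 : 0 ≤ Y)
    (Y1 : Y ≤ 1) (H : min 1 c * min (1 * c ^ 3)
      (1 * W ^ 3 + (1 * W ^ 3) ^ ((1 : ℝ) / 7) * (W * Y) ^ ((6 : ℝ) / 7)) ≤ X3) :
    w ^ 3 + (w ^ 3) ^ ((1 : ℝ) / 7) * (w * Y) ^ ((6 : ℝ) / 7) ≤ 2 * X3 := by
  rw [min_eq_left c1] at H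
  simp only [one_mul] at H
  have p0 : 0 ≤ w ^ 3 + (w ^ 3) ^ ((1 : ℝ) / 7) * (w * Y) ^ ((6 : ℝ) / 7) := by positivity
  rcases min_le_iff.1 H with H | H
  · have b1 : w ^ 3 ≤ 1 := pow_le_one₀ w0 w1
    have b2 : (w ^ 3) ^ ((1 : ℝ) / 7) * (w * Y) ^ ((6 : ℝ) / 7) ≤ 1 :=
      mul_le_one₀ (rpow_le_one (by positivity) b1 (by norm_num)) (by positivity)
        (rpow_le_one (by positivity) (mul_le_one₀ w1 Y0 Y1) (by norm_num))
    linarith [one_le_pow₀ (n := 3) c1]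
  · have W0 := w0.trans hW
    have : w ^ 3 + (w ^ 3) ^ ((1 : ℝ) / 7) * (w * Y) ^ ((6 : ℝ) / 7) ≤
        W ^ 3 + (W ^ 3) ^ ((1 : ℝ) / 7) * (W * Y) ^ ((6 : ℝ) / 7) := by gcongr
    linarith

/-- **(T3)** the cubic top sum -/
def T3 : Prop := CL fun E Λ S M m a => ∀ p lam, Hx E lam S M m a p →
  ∑ k ∈ Sz9.Tp S M, M.dz m a k * E61.u4 M m a k ^ 3 ≤ Λ * p.X3

theorem t3_of (hS : SzT98.SzS) : T3 := by
  have key : CL fun E Λ S M m a => ∀ Λ', Λ ≤ Λ' → ∀ p lam, Hx E lam S M m a p →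
      ∑ k ∈ Sz9.Tp S M, M.dz m a k * E61.u4 M m a k ^ 3 ≤ Λ' * p.X3 := by
    refine (CL.and hS SzT98.szV).glue' (fun _ _ _ _ _ _ _ _ h H _ h' => H _ (h.trans h')) 0 le_rfl
      1 2 fun C _ ε η' hε _ => ⟨0, fun S M m a G _ _ _ h I ⟨s, v⟩ Λ hΛ p lam H => ?_⟩
    rw [pow_one] at H
    have B := H.ln
    have P := H.lp
    have E1 : 1 ≤ (S.n : ℝ) ^ ε := one_le_rpow G.N1.le hε.le
    have F := Tg64.far_LP E1 h B P
    have s3 := s _ _ _ _ _ _ _ _ F H.ap 3 (by norm_num) (by norm_num)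
    obtain ⟨-, v3, -⟩ := v _ _ _ _ _ _ _ _ F H.ap B.X0 B.X1 _ rfl
    have L4' := G.num_le
    generalize (S.n : ℝ) ^ η' = L at *
    have L0 : 0 ≤ L := by linarith
    have l1 := Tg64.l0_pos h E1 B.l0s
    have l2 := Tg64.le1 E1 B.l1
    have X1 := Tg64.le1 E1 B.X1
    obtain ⟨w0, wW⟩ := Tg64.w_le h B.V0
    have X30 : 0 ≤ p.X3 := le_trans (by positivity) B.x3a
    have b3 := B.x3b 1 (B.l0l.trans l2) h.C1
    rw [Tg64.min_X B.V0 X1] at b3
    have b4 := a3 w0 (Tg64.w_one h l1 (B.l0l.trans l2) B.l0w) (Tg64.cl1 B.V0) wW B.X0.le X1 b3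
    refine Tg64.sq4 L4' hΛ X30 ((Tg64.tp_pow h I 3).trans ?_)
    linarith [mul_le_mul_of_nonneg_left P.n3 L0, mul_le_mul_of_nonneg_left b4 L0]
  exact key.mono fun _ _ _ _ _ _ _ _ _ _ H => H _ le_rfl

/-- **(CzS2)** -/
def CzS2 : Prop := ∀ f : ℝ → ℝ, CL fun E Λ S M m a => ∀ p lam, Hx E lam S M m a p →
  ∃ D Λ0 L W3, Cw D E Λ0 L W3 lam S M m a p ∧ D ≤ Λ * lam ∧ f S.C * lam ≤ D ∧ f S.C * S.θ ≤ 1 ∧
    0 ≤ W3 ∧ W3 ≤ D * p.X3

theorem czS2_of (hS : SzT98.SzS) : CzS2 := fun f => by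
  refine (((((Tg64.szTG_of hS SzT98.szV).and (t3_of hS)).and Nd22.nodeS).and (Gd65.gdT.and SzT98.szW)).and Sz9.CL_fn).glue fun C =>
    ⟨3, fun A hA ε η hε hη => ⟨ε, min (ε / 3000) (η / 3), max (f C) (10000 * C ^ 10), hε,
      by positivity, fun S M m a R h I ⟨⟨⟨⟨p1, p0⟩, p2⟩, p3, p4⟩, F⟩ p lam H => ?_⟩⟩
  obtain rfl := R.hC
  have n1 := h.n1
  have hL := R.K_le
  have k2 := R.log_le
  have k3 := R.num_le
  have θ1 := R.θ1 h
  have hθ := R.Cθ h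
  have fθ := (mul_le_mul_of_nonneg_right (le_max_left _ _) h.θ0.le).trans (R.Kθ h)
  have vθ := Gd65.v_le R h
  have hA' : 3 ≤ S.A := R.hA ▸ hA
  have hE : ((S.n : ℝ) ^ min (ε / 3000) (η / 3)) ^ 3000 ≤ (S.n : ℝ) ^ ε := by
    rw [Pre29.rp_pow]
    exact Pre29.rp_le n1 (by push_cast; linarith [min_le_left (ε / 3000) (η / 3)])
  have hΛ : ((S.n : ℝ) ^ min (ε / 3000) (η / 3)) ^ 3 ≤ (S.n : ℝ) ^ η := by
    rw [Pre29.rp_pow]
    exact Pre29.rp_le n1 (by push_cast; linarith [min_le_right (ε / 3000) (η / 3)])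
  generalize (S.n : ℝ) ^ min (ε / 3000) (η / 3) = s at *
  generalize (S.n : ℝ) ^ ε = E at *
  generalize (S.n : ℝ) ^ η = Λ at *
  have C1 := h.C1
  have C0 := h.C0
  have s1 : 1 ≤ s := by linarith
  have s0 : 0 < s := by linarith
  have l1 := H.l1
  have E1 : 1 ≤ E := (one_le_pow₀ s1).trans hE
  have a2 := H.ln
  have a3 := H.lp
  have B : At S M m a (2 * S.C) := ⟨h, I, by linarith [h.b1, a2.HJ], by linarith [h.sT]⟩
  have l0 : 0 < p.l0 := Tg64.l0_pos h E1 a2.l0s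
  have lC : p.l ≤ 1 := Tg64.le1 E1 a2.l1
  have G00 : 0 ≤ p.G0 := le_trans (by positivity) a2.g0a
  have X20 : 0 ≤ p.X2 := le_trans (by positivity) a2.x2a
  have X30 : 0 ≤ p.X3 := le_trans (by positivity) a2.x3a
  have e1 := Sz9.X3_η h a2 C0 (lC.trans C1) le_rfl G00 X20
  have η0 := X30.trans e1
  have e2 := Sz9.η_C h a2 η0
  have η1 : 0 ≤ p.η 1 := η0.trans (a2.ηa C1)
  obtain ⟨t2, t3, pa⟩ := p1 _ _ _ _ _ _ _ _ _ _ _ _ _ _ _ _ _ _ _ _ _ H.ce a2 a3 H.ap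
  have c4 : 1 ≤ S.C ^ 4 := one_le_pow₀ C1
  have c10 : S.C ^ 4 ≤ S.C ^ 10 := pow_le_pow_right₀ C1 (by norm_num)
  have CD : 10000 * S.C ^ 10 ≤ s := (le_max_right _ _).trans hL
  have q1 : s ≤ s ^ 2 := le_self_pow₀ s1 two_ne_zero
  have q2 : s ^ 2 ≤ s ^ 2 * lam := le_mul_of_one_le_right (by positivity) l1
  have q3 : lam ≤ s ^ 2 * lam := le_mul_of_one_le_left (by linarith) (one_le_pow₀ s1)
  have q4 : s ^ 2 * lam ≤ s ^ 3 * lam :=
    mul_le_mul_of_nonneg_right (pow_le_pow_right₀ s1 (by norm_num)) (by linarith)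
  have q5 : s ≤ s ^ 3 * lam := by linarith
  have DE : (s ^ 3 * lam) ^ 500 ≤ E := by
    refine le_of_pow_le_pow_left₀ two_ne_zero (by linarith) ?_
    calc _ = s ^ 3000 * lam ^ 1000 := by ring
      _ ≤ E * E := mul_le_mul hE H.lE (by positivity) (by linarith)
      _ = _ := by ring
  have D1 : 1 ≤ s ^ 3 * lam := s1.trans q5
  have ni : Nd22.NI (s ^ 2 * lam) S M m a p.l0 p.V p.X2 p.G0 (s * p.X3) :=
    ⟨by linarith, fun k hk => (H.cru k hk).trans (mul_le_mul_of_nonneg_right q3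
      ((le_max_of_le_right l0.le).trans (Nd22.cl_ge F a2.V0 (le_max_of_le_right l0.le)))),
      t2.trans (mul_le_mul_of_nonneg_right (by linarith) X20), p0 p lam H,
      pa.trans (mul_le_mul_of_nonneg_right (by linarith) (sq_nonneg _))⟩
  have W3 : s * p.X3 ≤ s ^ 2 * lam * p.η S.C := mul_le_mul (q1.trans q2) e1 X30 (by positivity)
  have O := p2 _ _ _ _ _ _ _ _ _ _ _ _ H.ce a2 a3.rev H.ap.all
    (((pow_le_pow_left₀ (by positivity) q4 6).trans (pow_le_pow_right₀ D1 (by norm_num))).trans DE) ni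
  have far := Tg64.far_LP E1 h a2 a3
  obtain ⟨o1, o2⟩ := p3 _ _ _ _ _ _ _ _ B le_rfl a2.l0s (a2.l0l.trans lC) a2.X0 a2.X1 a3.γ0 a3.γ1 H.ap
  have N0 := h.N0
  have γ0 : 0 ≤ p.γ := (sub_nonneg.2 (h.sm h.i3)).trans a3.γ0
  refine ⟨s ^ 3 * lam, s, s ^ 2 * lam, _, ⟨⟨B, H.ce, a2, ni, O, H.Vl, W3, CD.trans q5, s1, q5, q4,
    k2.trans q5, (pow_le_pow_right₀ D1 (by norm_num)).trans DE, ?_, I.m1, hθ⟩, F, q3, DE, θ1, vθ,
    le_trans (by positivity) H.ap.j0, γ0, far, ⟨t2.trans (mul_le_mul_of_nonneg_right q5 X20),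
      t3.trans (mul_le_mul_of_nonneg_right q5 (by linarith)),
      pa.trans (mul_le_mul_of_nonneg_right q5 (sq_nonneg _))⟩,
    fun k x y => (o1 k x y).mono s1 q5, fun k x y => (o2 a3.Xp0.1 a3.Xp0.2 k x y).mono s1 q5,
    fun k κ e b1 b2 b3 b4 b5 => (p4 _ _ _ _ _ _ _ _ far H.ap k κ e b1 b2 b3 b4 b5).trans
      (mul_le_mul_of_nonneg_right q5 ?_)⟩, mul_le_mul_of_nonneg_right hΛ (by linarith),
    mul_le_mul_of_nonneg_right (((le_max_left _ _).trans hL).trans (le_self_pow₀ s1 (by norm_num)))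
      (by linarith), fθ, by positivity, mul_le_mul_of_nonneg_right q5 X30⟩
  · have a1 : S.v * (S.n : ℝ) ^ 3 ≤ S.C := (mul_le_mul_of_nonneg_left
      (pow_le_pow_right₀ (by exact_mod_cast n1) hA') h.v0.le).trans h.v2
    have a2' : S.C ^ 2 ≤ S.n := by
      have b1 := (le_mul_of_one_le_right (by linarith) (one_le_pow₀ h.F1)).trans
        (a2.Lg0.trans a2.Lg1)
      linarith [pow_le_pow_right₀ C1 (by norm_num : 2 ≤ 10), sq_nonneg S.C,
        le_self_pow₀ s1 (by norm_num : 3000 ≠ 0)]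
    refine le_of_mul_le_mul_right ?_ N0
    linarith [mul_le_mul_of_nonneg_left a1 h.C0.le]
  · have w := (T5.w3_pos h).le
    have x : 0 ≤ min p.X p.Xp := le_min a2.X0.le a3.Xp0.1.le
    have : 0 ≤ min (S.w3 1 / (((S.J : ℝ) - k) * S.v) ^ 2)
        (S.w3 1 / S.u0 ^ 2 + min p.X p.Xp ^ ((1 : ℝ) / 3) + p.γ) :=
      le_min (by positivity) (by positivity)
    have : 0 ≤ κ := by linarith
    positivity



end Crest.Agent.T156.Alt.L31

end
end

-- ▼ part T156/TxS_89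
section

/-!
Row 156, block (L) (helper89): `TxS` from the leaves of `TxX_84`.
-/

set_option autoImplicit false

noncomputable section

namespace Crest.Agent.T156.Alt.X84

open MeasureTheory Set Real
open Crest.Agent.R164.GC Crest.Agent.R339.B Crest.Agent.R339.Var Crest.Agent.T157.Pf
open Crest.Agent.T156.Cut8 Crest.Agent.T156.Alt.Mp9 Crest.Agent.T156.Alt.L69
open Crest.Agent.T156.Alt.L31 Crest.Agent.T156.Alt.L25

theorem qt89 {S : Sc} {M : Md} {m : ℕ} {a T s u K E N Z P : ℝ} (h : QT S M m a T s u K E (P * N) Z)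
    (K0 : 0 ≤ K) (P1 : 1 ≤ P) (Z0 : 0 ≤ Z) (E0 : 0 ≤ E) : QT S M m a T s u (K * P) E N Z := by
  obtain ⟨Q, q1, q2, q3, q4, q5, q6⟩ := h
  have z := mul_le_mul_of_nonneg_left (le_mul_of_one_le_left Z0 P1) K0
  have e := mul_le_mul_of_nonneg_left (le_mul_of_one_le_left E0 P1) K0
  exact ⟨Q, q1, q2, q3, by linarith, by linarith, by linarith⟩

/-- **(TxS)** from the nodes, zone I, the middle zone and the top -/
theorem txS_of (hC : CzS2) (hA : TxA) (hB : TxB) (hM : TxM) : TxS := by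
  unfold TxA LF at hA
  unfold TxB LF at hB
  unfold TxM LF at hM
  refine (CL.and (CL.and (hC fun _ => 0) veS) (CL.and hA (CL.and hB hM))).glue fun C =>
    ⟨0, fun A0 _ ε η hε hη => ⟨ε, min (ε / 1000) (η / 859), 1, hε, by positivity,
      fun S M m a R h I ⟨⟨p1, p2⟩, pA, pB, pM⟩ p lam K θ1 X4 t4 Gn V0 H lK KE hθ h4 l4 G => ?_⟩⟩
  have n1 := h.n1
  have k3 := R.num_le
  have hE : ((S.n : ℝ) ^ min (ε / 1000) (η / 859)) ^ 1000 ≤ (S.n : ℝ) ^ ε := by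
    rw [Pre29.rp_pow]
    exact Pre29.rp_le n1 (by push_cast; linarith [min_le_left (ε / 1000) (η / 859)])
  have hΛ : ((S.n : ℝ) ^ min (ε / 1000) (η / 859)) ^ 859 ≤ (S.n : ℝ) ^ η := by
    rw [Pre29.rp_pow]
    exact Pre29.rp_le n1 (by push_cast; linarith [min_le_right (ε / 1000) (η / 859)])
  generalize (S.n : ℝ) ^ min (ε / 1000) (η / 859) = s at *
  generalize (S.n : ℝ) ^ ε = E at *
  generalize (S.n : ℝ) ^ η = Λ at *
  obtain ⟨D0, Λ0, L, W3, W, d1, -, -, w0, w1⟩ := p1 p lam H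
  have K1 : 1 ≤ K := H.l1.trans lK
  have s0 : 0 ≤ s := by linarith
  have sD : s ≤ s * K := le_mul_of_one_le_right s0 K1
  have KD : K ≤ s * K := le_mul_of_one_le_left (by linarith) (by linarith)
  have dD : D0 ≤ s * K := d1.trans (mul_le_mul_of_nonneg_left lK s0)
  have E0 : 0 ≤ E := le_trans (by positivity) hE
  have DE : (s * K) ^ 500 ≤ E := by
    refine le_of_pow_le_pow_left₀ two_ne_zero E0 ?_
    calc _ = s ^ 1000 * K ^ 1000 := by ring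
      _ ≤ E * E := mul_le_mul hE KE (by positivity) E0
      _ = _ := by ring
  have DΛ : (s * K) ^ 859 ≤ Λ * K ^ 990 := by
    rw [mul_pow]
    exact mul_le_mul hΛ (pow_le_pow_right₀ K1 (by norm_num)) (by positivity)
      (le_trans (by positivity) hΛ)
  have D3 : 1000 ≤ s * K := k3.trans sD
  have Y : Cy E S M m a ⟨lam, K, θ1, X4, t4, s * K, Λ0, L, W3, p, Gn, V0⟩ :=
    ⟨H, lK, KE, hθ, h4, l4, G, W.mono dD DE, up65 (by linarith [W.D1]) dD w0 w1, KD,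
      (p2 p lam K Gn V0 H lK KE G).1⟩
  obtain ⟨v, v1, v2, N⟩ := pA _ Y sD
  have B := pB _ Y sD v v1 v2 N
  have Q := pM _ Y sD v v1 v2 N
  have A := Y.tw.at'
  have ve := N.ve
  have vv : v ≤ v2 := N.o1.trans N.o2.le
  have θle := W.θ1
  unfold Nb at B Q
  dsimp only at B Q ve
  clear pA pB pM p1 p2 Y N hE hΛ
  generalize s * K = D at *
  refine ⟨v, ve, fun A1 A0 En βs a0 a1 b0 b1 hE β0 β1 => ?_⟩
  have D1 : 1 ≤ D := by linarith
  have D0' : 0 ≤ D := by linarith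
  have θ0 : 0 ≤ θ1 := by by_contra c; nlinarith
  have hθ' : 1 ≤ D ^ 6 * (θ1 / 34) := by
    have e1 : D ^ 2 ≤ D ^ 6 := pow_le_pow_right₀ D1 (by norm_num)
    have e2 := mul_le_mul_of_nonneg_right KD θ0
    have e3 := mul_le_mul_of_nonneg_right e1 θ0
    have e4 := mul_le_mul_of_nonneg_right D3 (mul_nonneg D0' θ0)
    nlinarith
  obtain ⟨w, x, N, N', ν, τ, γ, y, Gm, Rs, κ, c0, jw, n1, n2, h2, h3⟩ := Q βs _ β0 β1 hθ'
  obtain ⟨-, -, -, s1, s2⟩ := ve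
  obtain ⟨Ch, -, hC'⟩ := Hm.hlip (2 * S.C)
  have F1 := h.F1
  set Nb := S.F ^ 10 * Nn S M p X4 t4 with hNb
  have Nb0 : 0 ≤ Nb := by
    have : 0 < D ^ 800 * Nb := by linarith [h2.ν0.1, h2.ν0.2.2.1]
    exact (pos_of_mul_pos_of_nn this (by positivity)).le
  have MT := (A.sb_mem h2.v1.2.2.2.2).2
  have sy : sb M m a (v + 1) ≤ ys S M m a v2 := le_min (A.sb_mono (by omega)) s2.le
  have yM : ys S M m a v2 ≤ sb M m a (w + 1) :=
    (min_le_left _ _).trans (A.sb_mono (Nat.succ_le_succ h2.v1.2.2.2.1))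
  have hI : 0 ≤ At.e48 S / M.b * Il S M m a (2 * S.C) (ys S M m a v2) (sb M m a (w + 1)) :=
    mul_nonneg (div_nonneg (A.e_pack θle).2.2.1.le A.b_pos.le)
      (intervalIntegral.integral_nonneg yM fun _ _ => mul_nonneg (abs_nonneg _) (ff_nn _ _ _ _))
  have En0 : 0 ≤ En := le_trans (add_nonneg (intervalIntegral.integral_nonneg
    (by linarith) fun _ _ => sq_nonneg _) (sq_nonneg _)) hE
  have y1 : D ^ 800 * Nb ≤ D ^ 838 * Nb :=
    mul_le_mul_of_nonneg_right (pow_le_pow_right₀ D1 (by norm_num)) Nb0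
  have y2 : (D ^ 6) ^ 23 * N' ≤ D ^ 838 * Nb :=
    (mul_le_mul_of_nonneg_left n2 (by positivity)).trans_eq (by ring)
  have y3 : (D ^ 6) ^ 6 * N ≤ D ^ 838 * Nb :=
    calc _ ≤ (D ^ 6) ^ 6 * (D ^ 800 * Nb) := mul_le_mul_of_nonneg_left n1 (by positivity)
      _ = D ^ 836 * Nb := by ring
      _ ≤ _ := mul_le_mul_of_nonneg_right (pow_le_pow_right₀ D1 (by norm_num)) Nb0
  have W0 : 0 ≤ D ^ 20 * S.F := by positivity
  have z := (B _ A0 En βs (A.sb_mono (by omega)) MT b0 b1 hE β0 β1).mono sy hI le_rfl W0 le_rfl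
    (mul_nonneg (pow_nonneg D0' _) Nb0) y1
  have d21 : 1000 ≤ D ^ 21 := D3.trans (le_self_pow₀ D1 (by norm_num))
  have c1 : 12 * (D ^ 838 * Nb) ≤ Λ * K ^ 990 * S.F ^ 10 * Nn S M p X4 t4 :=
    calc _ ≤ D ^ 21 * (D ^ 838 * Nb) := mul_le_mul_of_nonneg_right (by linarith) (mul_nonneg (pow_nonneg D0' _) Nb0)
      _ = D ^ 859 * Nb := by ring
      _ ≤ Λ * K ^ 990 * Nb := mul_le_mul_of_nonneg_right DΛ Nb0
      _ = _ := by rw [hNb]; ring
  have c2 : (320 * (D ^ 6) ^ 3 + D ^ 20 * S.F) * D ^ 838 ≤ Λ * K ^ 990 * S.F := by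
    have e1 : (D ^ 6) ^ 3 ≤ D ^ 20 * S.F := by
      rw [← pow_mul]
      exact (pow_le_pow_right₀ D1 (by norm_num)).trans (le_mul_of_one_le_right (by positivity) F1)
    have e2 := mul_le_mul_of_nonneg_right D3 W0
    calc _ ≤ D * (D ^ 20 * S.F) * D ^ 838 := mul_le_mul_of_nonneg_right (by linarith) (by positivity)
      _ = D ^ 859 * S.F := by ring
      _ ≤ _ := mul_le_mul_of_nonneg_right DΛ (by linarith)
  have u0 : 0 ≤ p.u2 := by linarith [h.last, h.leg.z1 (S.Jp - 1), H.lp.u1a, H.lp.u1b.1]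
  have c3 : 8 * p.u2 ≤ Λ * K ^ 990 * p.u2 := mul_le_mul_of_nonneg_right
    (le_trans (by linarith) ((le_self_pow₀ D1 (by norm_num)).trans DΛ)) u0
  refine (fin A (hC' _ le_rfl).2.2.2.2.2.2.2 h2 h3 hθ' W0 z y2 y3 s2.le a0 a1 b0 (by linarith)
    hE).mono (by linarith) fun Z z0 q => ?_
  exact (qt89 q (by positivity) (one_le_pow₀ D1) z0 En0).mono c3 (by positivity) c2 En0 le_rfl
    (by linarith) le_rfl

end Crest.Agent.T156.Alt.X84

end
end

-- ▼ part T156/TopH_51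
section

/-!
# Row 156, block (L) (helper51): the geometry of the corner pair
-/

set_option autoImplicit false

noncomputable section

namespace Crest.Agent.T156.Alt.X84

open MeasureTheory Set Real
open Crest.Agent.R164.GC Crest.Agent.R339.B Crest.Agent.R339.Var Crest.Agent.T157.Pf
open Crest.Agent.T156.Alt.Mp9 Crest.Agent.T156.Alt.L69 Crest.Agent.T156.Alt.L31

/-- the size `A` of `LC.c5` -/
def aA (S : Sc) (p : Pa) : ℝ := S.θ + p.j + p.τ + p.γ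
/-- the location radius -/
def rR (S : Sc) (M : Md) (p : Pa) : ℝ :=
  p.Xp ^ ((1 : ℝ) / 3) + p.γ + Ve83.Gam S M ^ ((1 : ℝ) / 3)

/-- **the geometry lines of `corner51`** -/
structure Geo (S : Sc) (M : Md) (m : ℕ) (a : ℝ) (c : Dt) (v1 v2 w : ℕ) : Prop where
  j1 : S.jl < v1
  J2 : v2 < S.J
  lo : G89.Lo S M v1
  tp : S.J ≤ v1 + v1 / 3
  jj : ∀ t ∈ Icc 0 (2 * S.C), |Sc48.Jf (lh M (2 * S.C)) (lb M S m a (2 * S.C)) (2 * S.C) t| +
    ∫ s in (0 : ℝ)..2 * S.C, |Sc48.Jf (lh M (2 * S.C)) (lb M S m a (2 * S.C)) (2 * S.C) s| ≤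
      c.D * aA S c.p
  Dd : sb M m a (w + 1) - M.s S.J ≤ c.D ^ 4 * aA S c.p
  Lr : sb M m a (w + 1) - ys S M m a v1 ≤ c.D ^ 45 * S.F * rR S M c.p
  tl : 0 < M.s S.J / 2 ∧ M.s S.J / 2 ≤ sb M m a (v1 + 1) ∧ M.s S.J / 2 ≤ M.s (S.J - 1) ∧
    S.C * S.θ / (M.s S.J / 2) ≤ c.D * aA S c.p
  mu : mf S 1 / c.D * (M.z v2 - M.z v1) ≤ M.H v2 - M.H v1
  rho : M.rb m a v2 - M.rb m a v1 ≤ c.D ^ 45 * S.F * rR S M c.p
  Cv : S.C * S.v ≤ c.p.τ

variable {E : ℝ} {S : Sc} {M : Md} {m : ℕ} {a : ℝ} {c : Dt}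

theorem sq51 {Y d D y : ℝ} (y0 : 0 ≤ y) (D0 : 0 < D) (hd : 1 ≤ D ^ 6 * d) (h : Y ≤ y ^ 2) :
    √(Y / d) ≤ D ^ 3 * y := by
  have d0 : 0 < d := (mul_pos_iff_of_pos_left (by positivity)).1 (one_pos.trans_le hd)
  refine sqrt_le_iff.2 ⟨by positivity, ?_⟩
  rw [div_le_iff₀ d0]
  linarith [mul_le_mul_of_nonneg_left hd (sq_nonneg y)]

theorem cb51 {x : ℝ} (x0 : 0 ≤ x) (x1 : x ≤ 1) :
    0 ≤ x ^ ((1 : ℝ) / 3) ∧ x ≤ (x ^ ((1 : ℝ) / 3)) ^ 2 ∧ x ≤ x ^ ((1 : ℝ) / 3) := by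
  have p0 := rpow_nonneg x0 ((1 : ℝ) / 3)
  have p1 : x ^ ((1 : ℝ) / 3) ≤ 1 := rpow_le_one x0 x1 (by norm_num)
  have p3 := Ve83.cb3 x0
  exact ⟨p0, p3.ge.trans (pow_le_pow_of_le_one p0 p1 (by norm_num)),
    p3.ge.trans (pow_le_of_le_one p0 p1 three_ne_zero)⟩

/-- location of a plateau node -/
theorem Cy.up51 (X : Cy E S M m a c) {w : ℕ} (w1 : S.J ≤ w) (w2 : w ≤ S.Jp)
    (hw : 1 ≤ c.D ^ 6 * du M w) {Y y : ℝ} (y0 : 0 ≤ y)
    (hY : M.En S m a M.q 2 (M.s S.J / 2) S.C ≤ Y) (h1 : Y ≤ y ^ 2) (h2 : GP M S ≤ y ^ 2) :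
    sb M m a (w + 1) - M.s S.J ≤ c.D ^ 4 * (c.p.γ + y) := by
  have A := X.tw.at'
  have h := A.cl
  have Z := X.cw.Z
  have D4 := Z.D4
  have C1 := h.C1
  have γ0 := X.tw.γ0
  have D0 : 0 < c.D := by linarith
  have d0 : 0 < du M w := (mul_pos_iff_of_pos_left (by positivity)).1 (one_pos.trans_le hw)
  have a1 := SzT98.del_up h A.m_pos Z.hθ hY X.hx.lp.γ0 w1 w2 d0
  have a2 := sq51 y0 D0 hw h1
  have a3 := sq51 y0 D0 hw h2
  have a4 := Nd33.G_up A X.hx.lp.γ0 w1 w2 d0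
  have a5 := Nd33.sb_up A X.hx.lp.γ0 w2 (V := c.p.γ + 2 * (c.D ^ 3 * y)) (by positivity)
    (by linarith)
  have a6 := mul_le_mul_of_nonneg_right Z.hθ γ0
  have c1 : 10000 * S.C ≤ c.D := by simpa using Z.Cp (k := 1) (by norm_num)
  have d3 : 1 ≤ c.D ^ 3 := one_le_pow₀ (by linarith)
  have q : 0 ≤ c.D ^ 3 * y := by positivity
  have a7 := mul_le_mul_of_nonneg_right c1 q
  have a8 := mul_le_mul_of_nonneg_right C1 q
  have a9 := mul_le_mul_of_nonneg_right c1 γ0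
  have b1 := mul_le_mul_of_nonneg_right C1 γ0
  have b2 := mul_le_mul_of_nonneg_right d3 (mul_nonneg D0.le γ0)
  linarith

theorem En51 (h : Cl S M) (t t' : ℝ) : M.En S m a M.q 2 t t' ≤ Phi M S m a := by
  unfold Phi Md.En Md.blk
  exact Finset.sum_le_sum_of_subset_of_nonneg (fun k hk => by
    have q := (Finset.mem_filter.1 hk).1
    exact Finset.mem_filter.2 ⟨q, h.s_nn k, h.s_le_C (Finset.mem_Ioc.1 q).2⟩)
    fun k _ _ => mul_nonneg (sub_nonneg.2 (h.leg.zm (Nat.sub_le k 1))) (by positivity)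

set_option maxHeartbeats 800000 in
/-- **the geometry of the corner pair** -/
theorem Cy.geo51 (X : Cy E S M m a c) {v v1 v2 w : ℕ} (N : Nd S M m a c v v1 v2) (w1 : S.J ≤ w)
    (w2 : w ≤ S.Jp) (hw : 1 ≤ c.D ^ 6 * du M w) : Geo S M m a c v1 v2 w := by
  have W := X.tw
  have A := W.at'
  have h := A.cl
  have Z := X.cw.Z
  have H := X.cw.cc X.hx
  have lp := X.hx.lp
  have D4 := Z.D4
  have C1 := h.C1
  have C0 := h.C0
  have F1 := h.F1
  have v0 := h.v0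
  have θ0 := h.θ0
  have γ0 := W.γ0
  have τ0 := W.τ0
  have j0 := W.gj.1
  have E1 := Z.E1
  have D0 : 0 < c.D := by linarith
  have J2 : v2 < S.J := by have := N.mg.1; omega
  have o1 := N.o1
  have o2 := N.o2
  have jv := N.jv
  have i1 := h.i1
  have s1 : 3 / 4 * M.s S.J ≤ M.s v1 := N.v2e.s1.trans (h.sm o1)
  have s2 : M.s v1 ≤ M.s v2 := h.sm o2.le
  have s3 : M.s v2 ≤ M.s (S.J - 1) := h.sm (by omega)
  have s4 : M.s (S.J - 1) ≤ M.s S.J := h.sm (by omega)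
  have l1 := abs_le.1 (W.loc v1 s1 (by omega))
  have l2 := abs_le.1 (W.loc v2 (s1.trans s2) J2.le)
  have sJ := Ab33.sJ_ge h
  have sp : 0 < M.s S.J := (mul_pos_iff_of_pos_left (by positivity)).1 (one_pos.trans_le sJ)
  have z1 : M.z v ≤ M.z v1 := h.leg.zm o1
  have z2 : M.z v1 ≤ M.z (S.J - 1) := h.leg.zm (by omega)
  have nr : c.D * (M.z (S.J - 1) - M.z v1) ≤ 1 := by
    refine le_trans ?_ N.near
    exact mul_le_mul (le_self_pow₀ (by linarith) two_ne_zero) (by linarith) (by linarith)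
      (by positivity)
  have lo := H.lo_of (i := v1) (by omega) (by omega) nr
  have jE : c.p.j ≤ 1 := by
    linarith [lp.j1, mul_le_mul_of_nonneg_right E1 (show 0 ≤ c.p.j + c.p.τ by positivity)]
  have X1 : c.p.Xp ≤ 1 := by linarith [lp.Xp0.2, mul_le_mul_of_nonneg_right E1 lp.Xp0.1.le]
  have g0 : 0 ≤ GS M S (M.s S.J / 2) S.C :=
    Finset.sum_nonneg fun k _ => mul_nonneg (Ve83.dx_nn h k) (sq_nonneg _)
  have g1 : 0 ≤ GP M S := Finset.sum_nonneg fun k _ => mul_nonneg (Ve83.dx_nn h k) (sq_nonneg _)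
  have g2 : GP M S ≤ Ve83.Gam S M := by unfold Ve83.Gam; linarith
  have g3 : Ve83.Gam S M ≤ 1 := W.gj.2.trans (pow_le_one₀ j0 jE)
  obtain ⟨r0, r1, r2⟩ := cb51 lp.Xp0.1.le X1
  obtain ⟨q0, q1, -⟩ := cb51 (g1.trans g2) g3
  have τ1 := lp.τ1
  have dd : Ve83.DD S M c.p.Xp c.p.γ = 10 * S.C ^ 3 * rR S M c.p := rfl
  have hr : rR S M c.p = c.p.Xp ^ ((1 : ℝ) / 3) + c.p.γ + Ve83.Gam S M ^ ((1 : ℝ) / 3) := rfl
  have ha : aA S c.p = S.θ + c.p.j + c.p.τ + c.p.γ := rfl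
  generalize c.p.Xp ^ ((1 : ℝ) / 3) = R at *
  generalize Ve83.Gam S M ^ ((1 : ℝ) / 3) = G at *
  have R0 : 0 ≤ rR S M c.p := by rw [hr]; positivity
  have a0 : 0 ≤ aA S c.p := by rw [ha]; positivity
  have Cv : S.C * S.v ≤ c.p.τ := by
    have n1 : (1 : ℝ) ≤ S.n := by exact_mod_cast h.n1
    have b1 : 1 ≤ S.n * S.w3 1 := by
      have m0 := h.ms_pos zero_le_one
      rw [Sc.w3, ← mul_div_assoc, le_div_iff₀ (by positivity), mul_one, one_mul]
      gcongr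
      linarith [h.ms1 1, X.cw.θ1]
    have t1 : c.p.τ ≤ 1 := by
      linarith [lp.j1, mul_le_mul_of_nonneg_right E1 (show 0 ≤ c.p.j + c.p.τ by positivity)]
    have b2 : S.w3 1 ≤ c.p.τ := lp.tw.trans (pow_le_of_le_one τ0.le t1 three_ne_zero)
    have b3 : 1 ≤ S.n * c.p.τ := b1.trans (by gcongr)
    have b4 : S.C * S.v * S.n ≤ 1 := le_trans (by
      have := le_self_pow₀ n1 two_ne_zero
      gcongr) Z.hv
    exact le_of_mul_le_mul_right (b4.trans (b3.trans_eq (mul_comm _ _))) (by linarith)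
  have tc1 : tc S c ≤ S.F * rR S M c.p := by
    unfold tc
    exact mul_le_mul_of_nonneg_left (by linarith) (by linarith)
  have FR := le_mul_of_one_le_left R0 F1
  have FR0 := R0.trans FR
  have k1 : M.s S.J - M.s v1 ≤ S.C ^ 2 * (c.D ^ 44 * (S.F * rR S M c.p)) + S.F * rR S M c.p := by
    have b1 := (h.s_tel (i := v1) (j := S.J - 1) (by omega) (by omega)).2
    have b2 := (h.z_tel (i := v1) (j := S.J - 1) (by omega) (by omega) (by omega)).1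
    rw [← mul_div_assoc, div_le_iff₀ C0] at b2
    have b3 := mul_le_mul_of_nonneg_left b2 C0.le
    have b4 : M.z (S.J - 1) - M.z v1 ≤ c.D ^ 44 * (S.F * rR S M c.p) := by
      linarith [N.lo, mul_le_mul_of_nonneg_left tc1 (show 0 ≤ c.D ^ 44 by positivity)]
    have b5 := mul_le_mul_of_nonneg_left b4 (sq_nonneg S.C)
    linarith [A.s_pred.2]
  have c2 : 10000 * S.C ^ 2 ≤ c.D := Z.Cp (by norm_num)
  have c3 : 10000 * S.C ^ 3 ≤ c.D := Z.Cp (by norm_num)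
  have P0 : 0 ≤ c.D ^ 44 * (S.F * rR S M c.p) := by positivity
  have k2 := mul_le_mul_of_nonneg_right c2 P0
  have k3 : c.D * (S.F * rR S M c.p) ≤ c.D ^ 44 * (S.F * rR S M c.p) :=
    mul_le_mul_of_nonneg_right (le_self_pow₀ (by linarith) (by norm_num)) FR0
  have k4 : c.D ^ 4 * rR S M c.p ≤ c.D ^ 44 * (S.F * rR S M c.p) :=
    mul_le_mul (Z.Dp (by norm_num)) FR R0 (by positivity)
  have k5 := mul_le_mul c3 FR R0 D0.le
  have k6 := mul_le_mul_of_nonneg_right D4 FR0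
  have k7 := mul_le_mul_of_nonneg_right D4 P0
  have u1 := X.up51 w1 w2 hw (y := R + G) (by positivity) X.hx.ap.top
    (r1.trans (pow_le_pow_left₀ r0 (by linarith) 2))
    (g2.trans (q1.trans (pow_le_pow_left₀ q0 (by linarith) 2)))
  rw [show c.p.γ + (R + G) = rR S M c.p by rw [hr]; ring] at u1
  have aj := X.hx.ap.j0
  have x1 : c.p.X ≤ c.p.j ^ 2 := (sqrt_le_left j0).1 (by
    linarith [sqrt_nonneg (GS M S 0 S.C + GP M S), sq_nonneg c.p.l0])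
  have u2 := X.up51 w1 w2 hw j0 ((En51 h _ _).trans X.hx.ap.all) x1 (g2.trans W.gj.2)
  refine ⟨by omega, J2, lo, H.tp_of (by omega) (by omega) (by linarith), fun t ht => ?_,
    u2.trans (mul_le_mul_of_nonneg_left (by linarith) (by positivity)), ?_,
    ⟨by linarith, by linarith [W.D1], by linarith, ?_⟩, ?_, ?_, Cv⟩
  · have b1 := T5.hp_le A (Z := aA S c.p) Z.hθ
      (by linarith [Z.ln.l0s, mul_le_mul_of_nonneg_right E1 (h.s_nn S.jl)])
      (Z.ln.l0l.trans W.l1) Z.ln.X0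
      (by linarith [Z.ln.X1, mul_le_mul_of_nonneg_right E1 Z.ln.X0.le]) lp.γ0 X.hx.ap.all aj
      (by linarith) (by linarith [X.cw.vθ]) (by linarith [Gd65.inv_le A]) ht
    unfold Rig.Hp at b1
    rw [A.okh.2] at b1
    have b2 := mul_le_mul_of_nonneg_right (Z.Cp (k := 5) (by norm_num)) a0
    have b3 := mul_le_mul_of_nonneg_right C1 (show 0 ≤ S.C ^ 4 * aA S c.p by positivity)
    have b4 : 0 ≤ S.C ^ 5 * aA S c.p := by positivity
    linarith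
  · unfold ys
    rcases min_cases (sb M m a (v1 + 1)) (M.s S.J) with ⟨e, -⟩ | ⟨e, -⟩ <;> rw [e] <;> linarith
  · rw [div_le_iff₀ (by linarith)]
    have b1 := mul_le_mul_of_nonneg_left sJ (show 0 ≤ S.C * S.θ by positivity)
    have b2 := mul_le_mul (Z.Cp (k := 4) (by norm_num)) (show S.θ ≤ aA S c.p by linarith) θ0.le D0.le
    have b3 := mul_le_mul_of_nonneg_right b2 sp.le
    have b4 : 0 ≤ S.C ^ 4 * S.θ * M.s S.J := by positivity
    linarith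
  · have b0 := H.ls lo
    have lp' := Z.lp
    have b1 := (Z.cmp (t := M.s v1) (t' := 1) (by linarith) W.l1 (Z.sC (by omega)) (H.lev lo)
      ((Z.sC (y := v1) (by omega)).trans (by linarith only [le_self_pow₀ C1 two_ne_zero, C0]))).2.1
    have b2 := h.H_tel (i := v1) (j := v2) (by omega) o2.le (by have := h.i3; omega)
    have b3 := (h.z_tel (i := v1) (j := v2) (by omega) o2.le J2).2
    have b4 : (0 : ℝ) ≤ (v2 : ℝ) - v1 := sub_nonneg.2 (by exact_mod_cast o2.le)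
    have m0 : 0 < mf S 1 := by have := h.ms_pos zero_le_one; unfold mf; positivity
    have b5 : mf S 1 / c.D ≤ mf S (M.s v1) / S.C ^ 2 := by
      rw [div_le_div_iff₀ D0 (by positivity)]
      linarith only [b1, show 0 ≤ S.C ^ 2 * mf S 1 by positivity]
    refine le_trans (mul_le_mul b5 b3 (sub_nonneg.2 (h.leg.zm o2.le))
      (le_trans (by positivity) b5)) (le_trans (le_of_eq ?_) b2)
    unfold mf
    field_simp
  · have b1 := H.rb_ds o2.le J2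
    unfold G89.ds at b1
    linarith

end Crest.Agent.T156.Alt.X84

end
end

-- ▼ part T156/TxR_36
section

/-!
# Row 156, text (L) (helper36): the rise at the corner when the floor point lags
-/

set_option autoImplicit false

noncomputable section

namespace Crest.Agent.T156.Pr.Cor36

open MeasureTheory Set
open Crest.Agent.R164.GC Crest.Agent.R339.B Crest.Agent.R339.Var Crest.Agent.T157.Pf
open Crest.Agent.T156.Pr.Reg48

/-- lower form of `Gd_two` -/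
theorem Gd_two_lo (T0 : ℝ) : ∃ C : ℝ, 1 ≤ C ∧ ∀ lb lh, Ok lb → Ok lh → TT lb = TT lh →
    TT lh ≤ T0 → ∀ s ∈ Icc 0 (TT lh), ∀ s1, 0 ≤ s1 → s1 ≤ s → ∀ j,
      |Sc48.Jf lh lb (TT lh) s| + Hm.IJ lh lb 0 (TT lh) ≤ j →
      Real.exp (-(4 * T0)) ≤ AA lb s ∧ AA lb s ≤ 1 ∧
      Gd lh s1 - 2 * AA lb s * (lvr 1 lb s - lvr 1 lh s1) - C * (j + (s - s1)) ≤ Gd lb s := by
  obtain ⟨C, c1, hC⟩ := Hm.fun_H T0
  obtain ⟨K, k1, hK⟩ := Atom48.NN_lip T0
  obtain ⟨C', -, hO⟩ := Pp.Ode3.odeS T0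
  refine ⟨3 * C + K + 30, by linarith, fun lb lh hb hh e hT s hs s1 h0 h1 j hj => ?_⟩
  obtain ⟨⟨-, g, a, n, -⟩, -⟩ := hC lh lb hh.1 hb.1 e hT s hs _ rfl
  have m := mul_le_mul_of_nonneg_left hj (by linarith : 0 ≤ C)
  have j0 : 0 ≤ j := le_trans (by
    have : 0 ≤ C * (|Sc48.Jf lh lb (TT lh) s| + Hm.IJ lh lb 0 (TT lh)) := (abs_nonneg _).trans g
    exact (mul_nonneg_iff_of_pos_left (by linarith)).1 this) hj
  have a1 := (abs_le.1 (a.trans m)).2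
  have n1 := (abs_le.1 (n.trans m)).1
  have n2 := (abs_le.1 (hK lh hh hT s1 s h0 h1 hs.2)).1
  obtain ⟨-, -, -, hbd⟩ := hO lh hh hT
  obtain ⟨-, -, -, -, -, -, -, -, -, -, -, -, a2⟩ := hbd s hs
  have a3 := (abs_le.1 (a2 s1 ⟨h0, h1.trans hs.2⟩).1).2
  rw [abs_of_nonneg (sub_nonneg.2 h1)] at a3
  have z1 := Pp.Ode3.lvr_pos hh.1 s1
  have z2 := Pp.Ode3.lvr_le_one hh.1 s1
  have hsb : s ∈ Icc 0 (TT lb) := by rwa [e]
  refine ⟨Rig.Am_ge (Pp.Ode3.AP.of_ok hb) (e.trans_le hT) hsb, ((ode hb).2.2.2 s hsb).2, ?_⟩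
  have d0 := sub_nonneg.2 h1
  have p : lvr 1 lh s1 * (AA lb s - AA lh s1) ≤ C * j + 15 * (s - s1) := by
    have q : AA lb s - AA lh s1 ≤ C * j + 15 * (s - s1) := by linarith
    have q0 : 0 ≤ C * j + 15 * (s - s1) := by positivity
    exact (mul_le_mul_of_nonneg_left q z1.le).trans (mul_le_of_le_one_left q0 z2)
  have r1 : 0 ≤ C * (s - s1) := by positivity
  have r2 : 0 ≤ K * j := by positivity
  unfold Gd
  nlinarith

/-- list form: `G' ≥ -a` on `[y, f)` when the floor point lags -/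
theorem Sg.lag {lb : List (ℝ × ℝ)} {σ f M a b g0 L y : ℝ} (h : Sg lb σ f M a) (hb : 0 < b)
    (g00 : 0 ≤ g0) (hf : b * GG lb f ≤ 1 + g0) (fM : f ≤ M) (y0 : 0 ≤ y) (hL : M - min f y ≤ L)
    (hy : f ≤ y ∨ (σ ≤ y ∧ ∀ s, y ≤ s → s < f → -a ≤ Gd lb s)) :
    (∀ s, y ≤ s → s ≤ M → b * GG lb s ≤ 1 + (g0 + b * a * min (2 * a) L)) ∧
    ∀ p q, y ≤ p → p ≤ q → q ≤ M →
      p - b * Gam lb p - (g0 * L + b * a * min (2 * a) L ^ 2) ≤ q - b * Gam lb q := by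
  have l1 : M - f ≤ L := by linarith [min_le_left f y]
  have l2 : M - y ≤ L := by linarith [min_le_right f y]
  have a0 := h.a0
  rcases hy with hy | ⟨hy, hd⟩
  · refine ⟨fun s s0 s1 => h.mu hb hf l1 (hy.trans s0) s1, fun p q p0 pq q1 => ?_⟩
    have k := h.rise hb hf l1 (hy.trans p0) pq q1
    have := mul_le_mul_of_nonneg_left (show q - p ≤ L by linarith) g00
    linarith
  · have mu : ∀ s, y ≤ s → s ≤ M → b * GG lb s ≤ 1 + (g0 + b * a * min (2 * a) L) := by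
      intro s s0 s1
      rcases le_total f s with c | c
      · exact h.mu hb hf l1 c s1
      · have k := GG_lo h.ok (y0.trans s0) c (fM.trans h.MT) (K := -a) fun r hr =>
          hd r (s0.trans hr.1) hr.2
        have k3 : f - s ≤ min (2 * a) L := le_min (by linarith [h.Ma]) (by linarith)
        have k4 := mul_le_mul_of_nonneg_left k3 a0
        have k5 : GG lb s ≤ GG lb f + a * min (2 * a) L := by linarith
        have := mul_le_mul_of_nonneg_left k5 hb.le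
        nlinarith
    refine ⟨mu, fun p q p0 pq q1 => ?_⟩
    have k := Mh_ge h.ok hb (y0.trans p0) pq (q1.trans h.MT)
      (e := -(g0 + b * a * min (2 * a) L)) fun r hr => by
        linarith [mu r (p0.trans hr.1) (hr.2.le.trans q1)]
    have k3 : q - p ≤ min (2 * a) L := le_min (by linarith [h.Ma]) (by linarith)
    have m0 : 0 ≤ min (2 * a) L := (sub_nonneg.2 pq).trans k3
    have k4 : b * a * min (2 * a) L * (q - p) ≤ b * a * min (2 * a) L * min (2 * a) L :=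
      mul_le_mul_of_nonneg_left k3 (by positivity)
    have := mul_le_mul_of_nonneg_left (show q - p ≤ L by linarith) g00
    nlinarith

end Crest.Agent.T156.Pr.Cor36

namespace Crest.Agent.T156.Alt.Mp9.At

open MeasureTheory Set Real
open Crest.Agent.R164.GC Crest.Agent.R339.B Crest.Agent.R339.Var Crest.Agent.T157.Pf
open Crest.Agent.T156.Pr.Cor36

/-- **RiseLag**: mass and rise on `[y, Mt]`, lead (`f ≤ y`) or lag (`s J ≤ y`, labels `≤ x*`
before `f`); the numbers are those of `sg36` -/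
theorem riseLag (T0 : ℝ) : ∃ C0 : ℝ, 1 ≤ C0 ∧ ∀ {S : Sc} {M : Md} {m : ℕ} {a T : ℝ},
    At S M m a T → T ≤ T0 → ∀ {f y Mt τ tl jj D aa g L : ℝ},
    Sg (lb M S m a T) (M.s S.J) f Mt aa → 0 < tl → tl ≤ M.s (S.J - 1) →
    2 * (S.C * S.v) ≤ τ → 0 ≤ D → Mt - M.s S.J ≤ D →
    (∀ t ∈ Icc 0 T, |Sc48.Jf (lh M T) (lb M S m a T) T t| +
      ∫ s in (0 : ℝ)..T, |Sc48.Jf (lh M T) (lb M S m a T) T s| ≤ jj) →
    C0 * S.C * (S.C * S.θ / tl + jj + τ + D) ≤ aa → 0 ≤ g →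
    M.b * Pr.GG (lb M S m a T) f ≤ 1 + g → f ≤ Mt → 0 ≤ y → Mt - min f y ≤ L →
    (f ≤ y ∨ (M.s S.J ≤ y ∧ ∀ t, y ≤ t → t < f → lvr 1 (lb M S m a T) t ≤ M.z (S.J - 1))) →
    (∀ s, y ≤ s → s ≤ Mt →
      M.b * Pr.GG (lb M S m a T) s ≤ 1 + (g + M.b * aa * min (2 * aa) L)) ∧
    ∀ p q, y ≤ p → p ≤ q → q ≤ Mt →
      p - M.b * Pr.Gam (lb M S m a T) p - (g * L + M.b * aa * min (2 * aa) L ^ 2) ≤
        q - M.b * Pr.Gam (lb M S m a T) q := by
  obtain ⟨C0, c1, H⟩ := Gd_two_lo T0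
  refine ⟨C0, c1, fun {S M m a T} A hT {f y Mt τ tl jj D aa g L} sg l0 l2 hτ D0 hD hj ha g0 hf fM y0
    hL hy => sg.lag A.b_pos g0 hf fM y0 hL (hy.imp_right fun ⟨h1, h2⟩ => ⟨h1, fun s s0 s1 => ?_⟩)⟩
  obtain ⟨p1, p2⟩ := A.s_pred
  have MT : Mt ≤ T := by have := sg.MT; rwa [A.okb.2] at this
  have sT : s ∈ Icc 0 T := ⟨y0.trans s0, by linarith⟩
  obtain ⟨k1, k2, k3⟩ := H _ _ A.okb.1 A.okh.1 (A.okb.2.trans A.okh.2.symm) (by rwa [A.okh.2]) s
    (by rwa [A.okh.2]) (M.s (S.J - 1)) (s_nn A.cl _) (by linarith) jj (by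
      unfold Hm.IJ
      rw [A.okh.2]
      exact hj s sT)
  rw [A.zh_pred] at k3
  have c0 := A.c_pos
  have C1 := A.cl.C1
  have v0 := v_pos A.cl
  have cv : 0 ≤ S.C * S.v := by positivity
  have θ0 : 0 ≤ S.θ := (A.ms_pos le_rfl).le.trans (A.cl.ms1 0)
  have j0 : 0 ≤ jj := le_trans (add_nonneg (abs_nonneg _) (intervalIntegral.integral_nonneg
    (sT.1.trans sT.2) fun _ _ => abs_nonneg _)) (hj s sT)
  have g1 : -(S.C * S.θ / tl) ≤ Pr.Reg48.Gd (lh M T) (M.s (S.J - 1)) := by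
    refine le_trans (neg_le_neg ?_) (neg_le_of_abs_le (A.gd_h (s_nn A.cl _) p1))
    rw [mul_div_assoc]
    exact mul_le_mul_of_nonneg_left (div_le_div₀ θ0 (A.cl.ms1 _) l0 (l2.trans (le_max_left _ _)))
      c0.le
  have q := mul_nonneg ((exp_pos _).le.trans k1) (sub_nonneg.2 (h2 s s0 s1))
  have w0 : 0 ≤ S.C * S.θ / tl := by positivity
  have S0 : 0 ≤ S.C * S.θ / tl + jj + τ + D := by linarith
  have w1 : C0 * (S.C * S.θ / tl + jj + τ + D) ≤ aa :=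
    le_trans (by rw [mul_assoc]; gcongr; exact le_mul_of_one_le_left S0 C1) ha
  have w2 : C0 * (jj + (s - M.s (S.J - 1))) ≤ C0 * (jj + τ + D) :=
    mul_le_mul_of_nonneg_left (by linarith) (by linarith)
  have w3 : S.C * S.θ / tl ≤ C0 * (S.C * S.θ / tl) := le_mul_of_one_le_left w0 c1
  linarith

end Crest.Agent.T156.Alt.Mp9.At

end
end

-- ▼ part T156/TopR_51
section

/-!
# Row 156, text (L) (helper51): the floor point between two corner nodes, mass and rise above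
-/

set_option autoImplicit false

noncomputable section

namespace Crest.Agent.T156.Alt.Mp9.At

open MeasureTheory Set Real
open Crest.Agent.R164.GC Crest.Agent.R339.B Crest.Agent.R339.Var Crest.Agent.T157.Pf
open Crest.Agent.T156.Pr.Cor36

variable {S : Sc} {M : Md} {m : ℕ} {a T : ℝ}

/-- **the floor point** between the nodes `v1 ≤ v2` -/
theorem floor51 (A : At S M m a T) {v1 v2 : ℕ} {ec la al μ0 : ℝ} (h1 : S.jl < v1) (h12 : v1 ≤ v2)
    (h2 : v2 ≤ S.Jp)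
    (e1 : res M S m a T v2 - res M S m a T v1 ≤
      ec + la * G89.ds M m a v1 v2 + al * (M.z v2 - M.z v1))
    (hH : μ0 * (M.z v2 - M.z v1) ≤ M.H v2 - M.H v1) (hal : M.b * al ≤ μ0 / 2)
    (hec : M.b * (ec + 1 / (m + 1)) < μ0 / 2 * (M.z v2 - M.z v1)) :
    ∃ f, sb M m a (v1 + 1) ≤ f ∧ f < sb M m a (v2 + 1) ∧
      M.b * Pr.GG (lb M S m a T) f ≤ 1 + M.b * la := by
  have b0 := A.b_pos
  have m1 : (0 : ℝ) < m + 1 := by positivity
  have z0 : 0 ≤ M.z v2 - M.z v1 := sub_nonneg.2 (A.cl.leg.zm h12)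
  refine Pr.Cor36.floor_pt A.okb.1 b0 (A.sb_mem (h12.trans h2)).1 (A.sb_mono (Nat.succ_le_succ h12))
    (by rw [A.okb.2]; exact (A.sb_mem h2).2) ?_
  have r1 := A.R_node h1 (h12.trans h2)
  have r2 := A.R_node (h1.trans_le h12) h2
  have e : ∀ x y z : ℝ, x - (y - z) / M.b = (M.b * x - y + z) / M.b := fun x y z => by
    field_simp; ring
  rw [e, div_eq_iff b0.ne'] at r1 r2
  have q : M.rb m a v2 / (m + 1) ≤ M.rb m a v1 / (m + 1) + 1 / (m + 1) := by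
    rw [← add_div]
    exact div_le_div_of_nonneg_right
      (by linarith [(rb_mem (M := M) (a := a) A.m_pos v1).1,
        (rb_mem (M := M) (a := a) A.m_pos v2).2]) m1.le
  have k1 := mul_le_mul_of_nonneg_left e1 b0.le
  have k2 := mul_le_mul_of_nonneg_left q b0.le
  have k3 := mul_le_mul_of_nonneg_right hal z0
  unfold G89.ds at k1
  nlinarith

/-- **mass and rise above the upper corner node** -/
theorem corner51 (T0 : ℝ) : ∃ C0 : ℝ, 1 ≤ C0 ∧ ∀ {S : Sc} {M : Md} {m : ℕ} {a T : ℝ},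
    At S M m a T → T ≤ T0 → ∀ {v1 v2 w : ℕ} {ec la al μ0 tl τ Dd jj aa Lr : ℝ},
    S.jl < v1 → v1 ≤ v2 → v2 < S.J → v2 ≤ w → w ≤ S.Jp → 0 ≤ la →
    res M S m a T v2 - res M S m a T v1 ≤
      ec + la * G89.ds M m a v1 v2 + al * (M.z v2 - M.z v1) →
    μ0 * (M.z v2 - M.z v1) ≤ M.H v2 - M.H v1 → M.b * al ≤ μ0 / 2 →
    M.b * (ec + 1 / (m + 1)) < μ0 / 2 * (M.z v2 - M.z v1) →
    0 < tl → tl ≤ sb M m a (v1 + 1) → tl ≤ M.s (S.J - 1) →
    M.z (S.J - 1) - τ ≤ M.z v1 → 2 * (S.C * S.v) ≤ τ → 0 ≤ Dd →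
    sb M m a (w + 1) - M.s S.J ≤ Dd →
    (∀ t ∈ Icc 0 T, |Sc48.Jf (lh M T) (lb M S m a T) T t| +
      ∫ s in (0 : ℝ)..T, |Sc48.Jf (lh M T) (lb M S m a T) T s| ≤ jj) →
    C0 * S.C * (S.C * S.θ / tl + jj + τ + Dd) ≤ aa →
    sb M m a (w + 1) - ys S M m a v1 ≤ Lr →
    (∀ s, ys S M m a v2 ≤ s → s ≤ sb M m a (w + 1) →
      M.b * Pr.GG (lb M S m a T) s ≤ 1 + (M.b * la + M.b * aa * min (2 * aa) Lr)) ∧
    ∀ p q, ys S M m a v2 ≤ p → p ≤ q → q ≤ sb M m a (w + 1) →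
      p - M.b * Pr.Gam (lb M S m a T) p - (M.b * la * Lr + M.b * aa * min (2 * aa) Lr ^ 2) ≤
        q - M.b * Pr.Gam (lb M S m a T) q := by
  obtain ⟨C1, c1, H1⟩ := sg36 T0
  obtain ⟨C2, c2, H2⟩ := riseLag T0
  refine ⟨C1 + C2, by linarith, fun {S M m a T} A hT {v1 v2 w ec la al μ0 tl τ Dd jj aa Lr} h1 h12
    h2 h2w hw la0 e1 hH hal hec l0 l1 l2 zf hτ D0 hD hj ha hL => ?_⟩
  have vp : v2 ≤ S.Jp := h2w.trans hw
  obtain ⟨f, f1, f2, f3⟩ := A.floor51 h1 h12 vp e1 hH hal hec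
  have c0 := A.c_pos
  have v0 := v_pos A.cl
  have cv : 0 ≤ S.C * S.v := by positivity
  have θ0 : 0 ≤ S.θ := (A.ms_pos le_rfl).le.trans (A.cl.ms1 0)
  have T0' : 0 ≤ T := (s_nn A.cl _).trans A.t2
  have j0 : 0 ≤ jj := le_trans (add_nonneg (abs_nonneg _) (intervalIntegral.integral_nonneg T0'
    fun _ _ => abs_nonneg _)) (hj 0 ⟨le_rfl, T0'⟩)
  have S0 : 0 ≤ S.C * (S.C * S.θ / tl + jj + τ + Dd) :=
    mul_nonneg c0.le (by have : 0 ≤ S.C * S.θ / tl := by positivity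
                         linarith)
  have a1 : C1 * S.C * (S.C * S.θ / tl + jj + τ + Dd) ≤ aa := by nlinarith
  have a2 : C2 * S.C * (S.C * S.θ / tl + jj + τ + Dd) ≤ aa := by nlinarith
  have sM := A.sb_mono (Nat.succ_le_succ h2w)
  have s12 := A.sb_mono (Nat.succ_le_succ h12)
  have zf' : M.z (S.J - 1) - τ ≤ lvr 1 (lb M S m a T) f := by
    have := Sc48.lvr_mono A.okb.1.1 f1
    rw [A.lvb_node h1.le (h12.trans vp)] at this
    linarith
  have sg := H1 A hT l0 (l1.trans f1) l2 (A.sb_mem hw).2 hτ D0 hD zf' hj a1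
  have y0 : 0 ≤ ys S M m a v2 := le_min (A.sb_mem vp).1 (s_nn A.cl _)
  refine H2 A hT sg l0 l2 hτ D0 hD hj a2 (mul_nonneg A.b_pos.le la0) f3 (f2.le.trans sM) y0 ?_ ?_
  · have : ys S M m a v1 ≤ min f (ys S M m a v2) :=
      le_min ((min_le_left _ _).trans f1) (min_le_min_right _ s12)
    linarith
  · rcases le_or_gt f (ys S M m a v2) with c | c
    · exact .inl c
    · refine .inr ⟨?_, fun t _ t1 => ?_⟩
      · rcases min_cases (sb M m a (v2 + 1)) (M.s S.J) with ⟨e, -⟩ | ⟨e, -⟩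
        · exact absurd (c.trans f2) (by unfold ys; rw [e]; exact lt_irrefl _)
        · unfold ys; rw [e]
      · have := Sc48.lvr_mono A.okb.1.1 (t1.trans f2).le
        rw [A.lvb_node (h1.le.trans h12) vp] at this
        exact this.trans (A.cl.leg.zm (by omega))

end Crest.Agent.T156.Alt.Mp9.At

end
end

-- ▼ part T156/TopI_51
section

/-!
# Row 156, block (L) (helper51): mass and rise above the corner pair, in the letters of `TxD`
-/

set_option autoImplicit false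

noncomputable section

namespace Crest.Agent.T156.Alt.X84

open MeasureTheory Set Real
open Crest.Agent.R164.GC Crest.Agent.R339.B Crest.Agent.R339.Var Crest.Agent.T157.Pf
open Crest.Agent.T156.Alt.Mp9 Crest.Agent.T156.Alt.L69 Crest.Agent.T156.Alt.L31

/-- the slope of the residual -/
def laI (S : Sc) (c : Dt) (ρ : ℝ) : ℝ := c.D ^ 4 * (c.p.X2 + √(ρ * S.w3 1))
/-- the width of the corner -/
def aaI (S : Sc) (c : Dt) : ℝ := c.D ^ 46 * S.F * aA S c.p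
/-- the length of the zone -/
def LrI (S : Sc) (M : Md) (c : Dt) : ℝ := c.D ^ 45 * S.F * rR S M c.p

/-- **mass and rise above the corner pair** -/
theorem cor51 (C : ℝ) : ∃ K0 : ℝ, 1 ≤ K0 ∧ ∀ {E : ℝ} {S : Sc} {M : Md} {m : ℕ} {a : ℝ} {c : Dt},
    S.C = C → Cy E S M m a c → K0 ≤ c.D → ∀ {v v1 v2 w : ℕ} {ρ : ℝ}, Nd S M m a c v v1 v2 →
    S.J ≤ w → w ≤ S.Jp → 1 ≤ c.D ^ 6 * du M w → M.rb m a v2 - M.rb m a v1 ≤ ρ →
    (∀ s, ys S M m a v2 ≤ s → s ≤ sb M m a (w + 1) →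
      M.b * Pr.GG (lb M S m a (2 * S.C)) s ≤
        1 + (M.b * laI S c ρ + M.b * aaI S c * min (2 * aaI S c) (LrI S M c))) ∧
    ∀ p q, ys S M m a v2 ≤ p → p ≤ q → q ≤ sb M m a (w + 1) →
      p - M.b * Pr.Gam (lb M S m a (2 * S.C)) p -
        (M.b * laI S c ρ * LrI S M c + M.b * aaI S c * min (2 * aaI S c) (LrI S M c) ^ 2) ≤
        q - M.b * Pr.Gam (lb M S m a (2 * S.C)) q := by
  obtain ⟨C0, c1, HC⟩ := At.corner51 (2 * C)
  refine ⟨C0, c1, fun {E S M m a c} hC X hK {v v1 v2 w ρ} N w1 w2 hw hρ => ?_⟩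
  have G := X.geo51 N w1 w2 hw
  have W := X.tw
  have A := W.at'
  have h := A.cl
  have Z := X.cw.Z
  have H := X.cw.cc X.hx
  have lp := X.hx.lp
  have D4 := Z.D4
  have C1 := h.C1
  have C0' := h.C0
  have F1 := h.F1
  have θ0 := h.θ0
  have γ0 := W.γ0
  have τ0 := W.τ0
  have j0 := W.gj.1
  have E1 := Z.E1
  have D0 : 0 < c.D := by linarith
  have b0 := A.b_pos
  have b1 := h.b1
  have J2 := G.J2
  have X0 : 0 ≤ c.p.X2 := Z.X20
  have m0 : 0 < mf S 1 := by have := h.ms_pos zero_le_one; unfold mf; positivity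
  obtain ⟨ψ1, ψ9⟩ := psi_spec h
  have ψ6 : psi S ^ 6 ≤ S.F := (pow_le_pow_right₀ ψ1 (by norm_num)).trans_eq ψ9
  have ψ4 : psi S ^ 4 ≤ S.F := (pow_le_pow_right₀ ψ1 (by norm_num)).trans_eq ψ9
  have cD : 10000 * S.C ≤ c.D := by simpa using Z.Cp (k := 1) (by norm_num)
  have DF : c.D ^ 18 * S.F ≤ E := by
    refine le_of_pow_le_pow_left₀ two_ne_zero (by linarith) ?_
    calc _ = c.D ^ 36 * S.F ^ 2 := by ring
      _ ≤ E * E := mul_le_mul (Z.DpE (by norm_num))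
          ((pow_le_pow_right₀ F1 (by norm_num)).trans X.hx.F40) (by positivity) (by linarith)
      _ = _ := by ring
  have u0 := sq_nonneg (Nd22.U S c.p.Lc 1)
  have uE := H.thk
  have e1 := (le_abs_self _).trans (H.nce2 X.w3 G.lo G.tp N.o2.le N.g1 N.g2 N.mg hρ)
  have ha : aA S c.p = S.θ + c.p.j + c.p.τ + c.p.γ := rfl
  have a0 : 0 ≤ aA S c.p := by rw [ha]; positivity
  have tγ : 0 < c.p.τ + c.p.γ := by linarith
  have p44 : 1 ≤ c.D ^ 44 := one_le_pow₀ (by linarith)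
  refine HC A (by rw [hC]) G.j1 N.o2.le J2 (by omega) w2
    (show 0 ≤ c.D ^ 4 * (c.p.X2 + √(ρ * S.w3 1)) by positivity) e1 G.mu ?_ ?_ G.tl.1
    G.tl.2.1 G.tl.2.2.1 N.lo ?_ (by positivity) G.Dd G.jj ?_ G.Lr
  · rw [div_div, le_div_iff₀ (by positivity)]
    calc _ ≤ S.C * (c.D ^ 16 * S.F * Nd22.U S c.p.Lc 1 ^ 2) * (c.D * 2) := by gcongr
      _ = 2 * S.C * (c.D ^ 17 * S.F) * Nd22.U S c.p.Lc 1 ^ 2 := by ring
      _ ≤ c.D * (c.D ^ 17 * S.F) * Nd22.U S c.p.Lc 1 ^ 2 := by gcongr; linarith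
      _ = c.D ^ 18 * S.F * Nd22.U S c.p.Lc 1 ^ 2 := by ring
      _ ≤ _ := (mul_le_mul_of_nonneg_right DF u0).trans uE
  · have L1 := H.L1
    have r0 := H.R0
    have k1 : c.p.ηc ≤ c.p.τ * mf S 1 := by
      rw [← div_le_iff₀ m0]
      linarith [lp.τ0, show 0 ≤ c.p.Xp ^ ((1 : ℝ) / 3) / c.p.Lc by positivity]
    have k2 : Nd22.U S c.p.Lc 1 ^ 2 * c.p.γ ≤ mf S 1 * c.p.γ :=
      mul_le_mul_of_nonneg_right ((le_mul_of_one_le_left u0 E1).trans uE) γ0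
    have k3 : 1 / ((m : ℝ) + 1) ≤ c.p.ηc := by
      have n1 : (S.n : ℝ) ≤ m := by exact_mod_cast A.mem.m1
      have n2 := one_div_le_one_div_of_le h.N0 (show (S.n : ℝ) ≤ m + 1 by linarith)
      have := H.u0
      have := H.Z.G00
      have := H.Z.X30
      have : 0 ≤ Nd22.U S c.p.Lc 1 ^ 3 + Nd22.U S c.p.Lc 1 ^ 2 *
          (S.θ + c.p.j + c.p.Xp ^ ((1 : ℝ) / 3)) + (√(c.p.Lc * gg S 1) + c.p.G0 + c.p.X2) *
          (Nd22.U S c.p.Lc 1 + √c.p.X2) + c.p.X3 := by positivity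
      linarith [H.ηc1]
    have k0 : 0 < mf S 1 * (c.p.τ + c.p.γ) := by positivity
    have k4 : c.p.ηc + Nd22.U S c.p.Lc 1 ^ 2 * c.p.γ ≤ mf S 1 * (c.p.τ + c.p.γ) := by linarith
    have k5 : 1 / ((m : ℝ) + 1) ≤ c.D ^ 29 * S.F * (mf S 1 * (c.p.τ + c.p.γ)) := by
      refine le_trans ?_ (le_mul_of_one_le_left k0.le
        (one_le_mul_of_one_le_of_one_le (one_le_pow₀ (by linarith)) F1))
      linarith [mul_nonneg m0.le γ0]
    have k6 : c.D ^ 29 * psi S ^ 6 * (c.p.ηc + Nd22.U S c.p.Lc 1 ^ 2 * c.p.γ) ≤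
        c.D ^ 29 * S.F * (mf S 1 * (c.p.τ + c.p.γ)) :=
      (mul_le_mul_of_nonneg_left k4 (by positivity)).trans (by gcongr)
    have k7 : c.D ^ 43 * (S.F * (c.p.τ + c.p.γ)) ≤ M.z v2 - M.z v1 := by
      have := N.wd
      unfold tc at this
      linarith
    have P0 : 0 < c.D ^ 29 * S.F * (mf S 1 * (c.p.τ + c.p.γ)) := by positivity
    calc _ ≤ S.C * (2 * (c.D ^ 29 * S.F * (mf S 1 * (c.p.τ + c.p.γ)))) :=
          (mul_le_mul_of_nonneg_left (by linarith) b0.le).trans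
            (mul_le_mul_of_nonneg_right b1 (by positivity))
      _ < c.D / 2 * (c.D ^ 29 * S.F * (mf S 1 * (c.p.τ + c.p.γ))) := by
          rw [← mul_assoc]
          exact mul_lt_mul_of_pos_right (by linarith) P0
      _ = mf S 1 / c.D / 2 * (c.D ^ 31 * (S.F * (c.p.τ + c.p.γ))) := by field_simp
      _ ≤ _ := by
          refine mul_le_mul_of_nonneg_left (le_trans ?_ k7) (by positivity)
          exact mul_le_mul_of_nonneg_right (Z.Dp (by norm_num)) (by positivity)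
  · have k1 : c.D * (c.p.τ + c.p.γ) ≤ c.D ^ 44 * tc S c :=
      mul_le_mul (le_self_pow₀ (by linarith) (by norm_num)) (le_mul_of_one_le_left tγ.le F1) tγ.le
        (by positivity)
    linarith [G.Cv, mul_le_mul_of_nonneg_right D4 tγ.le]
  · have k0 := le_mul_of_one_le_left a0 F1
    have k1 : c.D ^ 44 * tc S c ≤ c.D ^ 44 * (S.F * aA S c.p) :=
      mul_le_mul_of_nonneg_left (mul_le_mul_of_nonneg_left (by linarith) (by linarith))
        (by positivity)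
    have k2 : c.D * aA S c.p ≤ c.D ^ 44 * (S.F * aA S c.p) :=
      mul_le_mul (le_self_pow₀ (by linarith) (by norm_num)) k0 a0 (by positivity)
    have k3 : c.D ^ 4 * aA S c.p ≤ c.D ^ 44 * (S.F * aA S c.p) :=
      mul_le_mul (Z.Dp (by norm_num)) k0 a0 (by positivity)
    calc _ ≤ C0 * S.C * (4 * (c.D ^ 44 * (S.F * aA S c.p))) :=
          mul_le_mul_of_nonneg_left (by linarith [G.tl.2.2.2]) (by positivity)
      _ = C0 * (4 * S.C) * (c.D ^ 44 * (S.F * aA S c.p)) := by ring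
      _ ≤ c.D * c.D * (c.D ^ 44 * (S.F * aA S c.p)) := by gcongr; linarith
      _ = _ := by unfold aaI; ring

end Crest.Agent.T156.Alt.X84

end
end

-- ▼ part T156/TxDn_14
section

/-!
Row 156, block (L) (helper14): the numbers of the corner.
-/

set_option autoImplicit false

noncomputable section

namespace Crest.Agent.T156.Alt.X14

open Real
open Crest.Agent.T156.Pr.Reg48 (Sm)

/-- the numbers read by the corner; `G = Γ ^ (1/3)`, `w = w3 1`, `R = Xp ^ (1/3)` -/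
structure Nm (E θ j τ γ R X2 w G N N0 : ℝ) : Prop where
  θ0 : 0 < θ ∧ θ ≤ 1
  j0 : 0 ≤ j ∧ j ≤ 1
  τ0 : 0 ≤ τ ∧ τ ≤ R ∧ R ≤ 1
  γ0 : 0 ≤ γ ∧ γ ≤ 1
  X0 : 0 ≤ X2 ∧ X2 ≤ 1
  w0 : 0 ≤ w ∧ w ≤ τ ^ 3
  G0 : 0 ≤ G ∧ G ^ 3 ≤ θ * N
  N0 : 0 ≤ N ∧ N ≤ N0 ∧ X2 ^ 2 ≤ N0
  γ3 : γ ^ 3 ≤ N ∧ γ * X2 ≤ N
  c9 : (w * R ^ 3) ^ 3 ≤ N ^ 4
  c5 : Sm θ 1 N 1 (X2 * R + (θ + j + τ + γ) * min (θ + j + τ + γ) R ^ 2)
  c5' : (X2 + (θ + j + τ + γ) * min (θ + j + τ + γ) R) ^ 3 ≤ N ∨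
    E * (X2 + (θ + j + τ + γ) * min (θ + j + τ + γ) R) ≤ θ

theorem sm3 {θ N x : ℝ} (h : x ^ 3 ≤ N ^ 2) : Sm θ 1 N 1 x := .inr (.inr (by linarith))
theorem sm2 {θ N x : ℝ} (h : x ^ 2 ≤ θ * N) : Sm θ 1 N 1 x := .inr (.inl (by linarith))

theorem min_le14 {P A R y aa Lr : ℝ} (P0 : 0 ≤ P) (R0 : 0 ≤ R) (y0 : 0 ≤ y) (h1 : aa ≤ P * A)
    (h2 : Lr ≤ P * (R + y)) : min (2 * aa) Lr ≤ 2 * P * (min A R + y) := by
  have := mul_nonneg P0 y0
  have := mul_nonneg P0 R0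
  rcases le_total A R with c | c
  · rw [min_eq_left c]; exact (min_le_left _ _).trans (by linarith)
  · rw [min_eq_right c]; exact (min_le_right _ _).trans (by linarith)

namespace Nm

variable {E θ j τ γ R X2 w G N N0 : ℝ} (h : Nm E θ j τ γ R X2 w G N N0)
include h

theorem R0 : 0 ≤ R := h.τ0.1.trans h.τ0.2.1
theorem wR : w ≤ R ^ 3 := h.w0.2.trans (pow_le_pow_left₀ h.τ0.1 h.τ0.2.1 3)
theorem w1 : w ≤ 1 := h.wR.trans (pow_le_one₀ h.R0 h.τ0.2.2)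
theorem G3 : G ^ 3 ≤ N := h.G0.2.trans (mul_le_of_le_one_left h.N0.1 h.θ0.2)

theorem up {x : ℝ} (s : Sm θ 1 N 1 x) : Sm θ 1 N0 1 x :=
  s.mono h.θ0.1.le zero_le_one h.N0.1 zero_le_one le_rfl le_rfl h.N0.2.1 le_rfl le_rfl

/-- the clock term of `Rs` -/
theorem smZ : Sm θ 1 N 1 √(w * max R (max γ G) ^ 3) := by
  have w0 := h.w0.1
  have R0 := h.R0
  have N0 := h.N0.1
  have γ0 := h.γ0.1
  have G0 := h.G0.1
  rcases le_total (max γ G) R with c | c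
  · rw [max_eq_left c]
    refine sm3 (le_of_pow_le_pow_left₀ two_ne_zero (sq_nonneg _) ?_)
    rw [← pow_mul, mul_comm 3 2, pow_mul, sq_sqrt (by positivity), ← pow_mul]
    exact h.c9
  rw [max_eq_right c]
  rcases le_total G γ with d | d
  · rw [max_eq_left d] at c ⊢
    have a : √(w * γ ^ 3) ≤ γ ^ 3 := sqrt_le_iff.2 ⟨by positivity, by
      rw [sq]; exact mul_le_mul_of_nonneg_right (h.wR.trans (pow_le_pow_left₀ R0 c 3))
        (by positivity)⟩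
    have b : γ ^ 3 ≤ 1 := pow_le_one₀ γ0 h.γ0.2
    refine sm3 ((pow_le_pow_left₀ (sqrt_nonneg _) a 3).trans ?_)
    exact (pow_le_pow_of_le_one (by positivity) b (by norm_num)).trans
      (pow_le_pow_left₀ (by positivity) h.γ3.1 2)
  · rw [max_eq_right d]
    refine sm2 ?_
    rw [sq_sqrt (by positivity)]
    exact (mul_le_of_le_one_left (by positivity) h.w1).trans h.G0.2

theorem q3 : √(w * R) ^ 3 ≤ N := by
  have w0 := h.w0.1
  have R0 := h.R0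
  refine le_of_pow_le_pow_left₀ (n := 4) (by norm_num) h.N0.1 (le_trans ?_ h.c9)
  have a : w ≤ R := h.wR.trans (pow_le_of_le_one R0 h.τ0.2.2 three_ne_zero)
  calc (√(w * R) ^ 3) ^ 4 = (√(w * R) ^ 2) ^ 6 := by ring
    _ = w ^ 3 * R ^ 6 * w ^ 3 := by rw [sq_sqrt (by positivity)]; ring
    _ ≤ w ^ 3 * R ^ 6 * R ^ 3 := by gcongr
    _ = _ := by ring

theorem sq_le : √((R + γ + G) * w) ≤ 2 * max (max √(w * R) γ) G := by
  have w0 := h.w0.1
  have R0 := h.R0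
  have γ0 := h.γ0.1
  have G0 := h.G0.1
  have a : w ≤ R := h.wR.trans (pow_le_of_le_one R0 h.τ0.2.2 three_ne_zero)
  have y1 : √(w * R) ≤ max (max √(w * R) γ) G := (le_max_left _ _).trans (le_max_left _ _)
  have y2 : γ ≤ max (max √(w * R) γ) G := (le_max_right _ _).trans (le_max_left _ _)
  have y3 : G ≤ max (max √(w * R) γ) G := le_max_right _ _
  generalize max (max √(w * R) γ) G = y at *
  have y0 := G0.trans y3
  have b := pow_le_pow_left₀ (sqrt_nonneg _) y1 2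
  rw [sq_sqrt (by positivity)] at b
  have k : ∀ u, 0 ≤ u → u ≤ y → u * w ≤ y ^ 2 := fun u u0 u1 => by
    rcases le_total u R with c | c
    · linarith [mul_le_mul_of_nonneg_right c w0]
    · rw [sq]; exact mul_le_mul u1 ((a.trans c).trans u1) w0 y0
  exact sqrt_le_iff.2 ⟨by positivity, by linarith [k γ γ0 y2, k G G0 y3, sq_nonneg y]⟩

/-- **the numbers of the corner** -/
theorem numD {P Q b la aa Lr : ℝ} (P1 : 1 ≤ P) (b0 : 0 ≤ b) (b1 : b ≤ P) (l0 : 0 ≤ la)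
    (l1 : la ≤ P * (X2 + √((R + γ + G) * w))) (a0 : 0 ≤ aa) (a1 : aa ≤ P * (θ + j + τ + γ))
    (L0 : 0 ≤ Lr) (L1 : Lr ≤ P * (R + γ + G)) (Q0 : 0 ≤ Q) (hQ : Q * (22 * P ^ 3) ≤ E) :
    Sm θ 1 ((117 * P ^ 4) ^ 2 * N0) 1 (b * la * Lr + b * aa * min (2 * aa) Lr ^ 2) ∧
      ((b * la + b * aa * min (2 * aa) Lr) ^ 3 ≤ (22 * P ^ 3) ^ 3 * N ∨
        Q * (b * la + b * aa * min (2 * aa) Lr) ≤ θ) := by
  have w0 := h.w0.1
  have R0 := h.R0
  have N0' := h.N0.1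
  have γ0 := h.γ0.1
  have G0 := h.G0.1
  have X0 := h.X0.1
  have P0 : 0 ≤ P := by linarith
  have mm := min_le14 (Lr := Lr) P0 R0 (add_nonneg γ0 G0) a1 (by rwa [← add_assoc])
  have c5 := h.c5
  have c5' := h.c5'
  have A0 : 0 ≤ θ + j + τ + γ := by linarith [h.θ0.1, h.j0.1, h.τ0.1]
  have A4 : θ + j + τ + γ ≤ 4 := by linarith [h.θ0.2, h.j0.2, h.τ0.2.1, h.τ0.2.2, h.γ0.2]
  have m0 : 0 ≤ min (2 * aa) Lr := le_min (by linarith) L0
  have μ0 : 0 ≤ min (θ + j + τ + γ) R := le_min A0 R0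
  generalize min (2 * aa) Lr = k at *
  generalize min (θ + j + τ + γ) R = μ at *
  generalize θ + j + τ + γ = A at *
  have p2 : P ^ 2 ≤ P ^ 3 := pow_le_pow_right₀ P1 (by norm_num)
  have p3 : P ^ 3 ≤ P ^ 4 := pow_le_pow_right₀ P1 (by norm_num)
  constructor
  · have s1 : Sm θ 1 N0 1 (γ * X2) := h.up (sm3 (by
      have a : γ * X2 ≤ 1 := mul_le_one₀ h.γ0.2 X0 h.X0.2
      exact (pow_le_pow_of_le_one (by positivity) a (by norm_num)).trans
        (pow_le_pow_left₀ (by positivity) h.γ3.2 2)))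
    have s2 : Sm θ 1 N0 1 (X2 * G) := sm3 (by
      calc (X2 * G) ^ 3 = X2 * X2 ^ 2 * G ^ 3 := by ring
        _ ≤ 1 * N0 * N0 := by
          have := h.N0.2.2
          have := h.X0.2
          have := h.G3.trans h.N0.2.1
          have := N0'.trans h.N0.2.1
          gcongr
        _ = _ := by ring)
    have s3 : Sm θ 1 N0 1 (γ ^ 2) := h.up (sm3 (by
      rw [← pow_mul, mul_comm, pow_mul]; exact pow_le_pow_left₀ (by positivity) h.γ3.1 2))
    have s4 : Sm θ 1 N0 1 (G ^ 2) := h.up (sm3 (by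
      rw [← pow_mul, mul_comm, pow_mul]; exact pow_le_pow_left₀ (by positivity) h.G3 2))
    have s := ((((h.up c5).max s1).max s2).max (h.up h.smZ)).max (s3.max s4)
    obtain ⟨x, hx⟩ : ∃ x, x = max (max (max (max (X2 * R + A * μ ^ 2) (γ * X2)) (X2 * G))
      √(w * max R (max γ G) ^ 3)) (max (γ ^ 2) (G ^ 2)) := ⟨_, rfl⟩
    have x := hx.ge
    simp only [max_le_iff] at x
    obtain ⟨⟨⟨⟨x1, x2⟩, x3⟩, x4⟩, x5, x6⟩ := x
    rw [← hx] at s
    have Z1 := le_max_left R (max γ G)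
    have Z2 := (le_max_left γ G).trans (le_max_right R (max γ G))
    have Z3 := (le_max_right γ G).trans (le_max_right R (max γ G))
    generalize max R (max γ G) = Z at *
    have Z0 := R0.trans Z1
    have y1 : √((R + γ + G) * w) * (R + γ + G) ≤ 6 * √(w * Z ^ 3) :=
      le_of_pow_le_pow_left₀ two_ne_zero (by positivity) (by
        rw [mul_pow, mul_pow, sq_sqrt (by positivity), sq_sqrt (by positivity)]
        calc (R + γ + G) * w * (R + γ + G) ^ 2 ≤ 3 * Z * w * (3 * Z) ^ 2 := by gcongr <;> linarith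
          _ = 27 * (w * Z ^ 3) := by ring
          _ ≤ _ := by gcongr; norm_num)
    have t1 := mul_nonneg A0 (sq_nonneg μ)
    have t2 := mul_nonneg X0 R0
    have x0 : 0 ≤ x := (sq_nonneg _).trans x5
    have y2 : b * la * Lr ≤ P ^ 4 * (9 * x) :=
      calc b * la * Lr ≤ P * (P * (X2 + √((R + γ + G) * w))) * (P * (R + γ + G)) := by gcongr
        _ = P ^ 3 * (X2 * (R + γ + G) + √((R + γ + G) * w) * (R + γ + G)) := by ring
        _ ≤ P ^ 4 * (9 * x) := mul_le_mul p3 (by linarith) (by positivity) (by positivity)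
    have y3 : A * (μ + (γ + G)) ^ 2 ≤ 27 * x := by
      have : (μ + (γ + G)) ^ 2 ≤ 3 * (μ ^ 2 + γ ^ 2 + G ^ 2) := by
        nlinarith [sq_nonneg (μ - γ), sq_nonneg (μ - G), sq_nonneg (γ - G)]
      linarith [mul_le_mul_of_nonneg_left this A0, mul_le_mul A4 x5 (sq_nonneg _) (by norm_num),
        mul_le_mul A4 x6 (sq_nonneg _) (by norm_num)]
    have y4 : b * aa * k ^ 2 ≤ P ^ 4 * (108 * x) :=
      calc b * aa * k ^ 2 ≤ P * (P * A) * (2 * P * (μ + (γ + G))) ^ 2 := by gcongr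
        _ = P ^ 4 * (4 * (A * (μ + (γ + G)) ^ 2)) := by ring
        _ ≤ _ := mul_le_mul_of_nonneg_left (by linarith) (by positivity)
    have P4 : 1 ≤ 117 * P ^ 4 := by linarith [one_le_pow₀ (n := 4) P1]
    exact (s.mul zero_le_one P4).mono h.θ0.1.le zero_le_one
      (by have := N0'.trans h.N0.2.1; positivity) zero_le_one le_rfl le_rfl le_rfl le_rfl
      (by linarith)
  · obtain ⟨y, hy⟩ : ∃ y, y = max (max √(w * R) γ) G := ⟨_, rfl⟩
    have y3 : y ^ 3 ≤ N := by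
      rw [hy]
      rcases max_choice (max √(w * R) γ) G with e | e <;> rw [e]
      · rcases max_choice √(w * R) γ with e | e <;> rw [e]
        exacts [h.q3, h.γ3.1]
      · exact h.G3
    have y1 : max √(w * R) γ ≤ y := hy ▸ le_max_left _ _
    have y2 : G ≤ y := hy ▸ le_max_right _ _
    have y4 : γ ≤ y := (le_max_right _ _).trans y1
    have y0 := G0.trans y2
    have q := h.sq_le
    rw [← hy] at q
    have t1 := mul_nonneg A0 μ0
    have g1 : b * la ≤ P ^ 3 * (X2 + 2 * y) :=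
      calc b * la ≤ P * (P * (X2 + √((R + γ + G) * w))) := by gcongr
        _ = P ^ 2 * (X2 + √((R + γ + G) * w)) := by ring
        _ ≤ _ := mul_le_mul p2 (by linarith) (by positivity) (by positivity)
    have g2 : b * aa * k ≤ P ^ 3 * (2 * (A * μ) + 16 * y) :=
      calc b * aa * k ≤ P * (P * A) * (2 * P * (μ + (γ + G))) := by gcongr
        _ = P ^ 3 * (2 * (A * μ) + 2 * (A * (γ + G))) := by ring
        _ ≤ _ := mul_le_mul_of_nonneg_left (by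
          linarith [mul_le_mul A4 (add_le_add y4 y2) (by positivity) (by norm_num)]) (by positivity)
    have g0 : 0 ≤ b * la + b * aa * k := by positivity
    have P3 : 0 ≤ P ^ 3 := by positivity
    have g3 : ∀ u, X2 + A * μ ≤ u → y ≤ u → b * la + b * aa * k ≤ 22 * P ^ 3 * u := fun u u1 u2 => by
      linarith [mul_le_mul_of_nonneg_left (show X2 + 2 * y + (2 * (A * μ) + 16 * y) ≤ 22 * u by
        linarith) P3]
    have g4 : ∀ u, X2 + A * μ ≤ u → y ≤ u → u ^ 3 ≤ N →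
        (b * la + b * aa * k) ^ 3 ≤ (22 * P ^ 3) ^ 3 * N := fun u u1 u2 u3 =>
      (pow_le_pow_left₀ g0 (g3 u u1 u2) 3).trans (by
        rw [mul_pow (22 * P ^ 3)]; exact mul_le_mul_of_nonneg_left u3 (by positivity))
    rcases le_total (X2 + A * μ) y with c | c
    · exact .inl (g4 y c le_rfl y3)
    · refine c5'.imp (g4 _ le_rfl c) fun e => le_trans ?_ e
      calc _ ≤ Q * (22 * P ^ 3 * (X2 + A * μ)) := mul_le_mul_of_nonneg_left (g3 _ le_rfl c) Q0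
        _ = Q * (22 * P ^ 3) * (X2 + A * μ) := by ring
        _ ≤ _ := mul_le_mul_of_nonneg_right hQ (by positivity)

end Nm

end Crest.Agent.T156.Alt.X14

end
end

-- ▼ part T156/TxD_14
section

/-!
# Row 156, block (L) (helper14): the corner, `TxD`
-/

set_option autoImplicit false

noncomputable section

namespace Crest.Agent.T156.Alt.X84

open MeasureTheory Set Real
open Crest.Agent.T156.Alt.Mp9 Crest.Agent.T156.Alt.L69 Crest.Agent.T156.Alt.L31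
open Crest.Agent.T156.Pr.Reg48 (Sm sm_of_min)

variable {E : ℝ} {S : Sc} {M : Md} {m : ℕ} {a : ℝ} {c : Dt}

theorem Cy.nm14 (Y : Cy E S M m a c) : X14.Nm E S.θ c.p.j c.p.τ c.p.γ (c.p.Xp ^ ((1 : ℝ) / 3))
    c.p.X2 (S.w3 1) (Ve83.Gam S M ^ ((1 : ℝ) / 3)) c.p.N (X48.N0 c.p) := by
  have B := Y.at5
  have h := Y.tw.at'.cl
  have θ0 := h.θ0
  have P := Y.hx.lp
  have x0 := P.Xp0.1
  have x1 : c.p.Xp ≤ 1 := (le_mul_of_one_le_left x0.le Y.cw.Z.E1).trans P.Xp0.2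
  have w0 := Y.cw.Z.w3p one_pos
  have g0 : 0 ≤ Ve83.Gam S M := add_nonneg (Finset.sum_nonneg fun k _ =>
    mul_nonneg (Ve83.dx_nn h k) (sq_nonneg _)) B.Ga0.1
  have j1 := B.Ga0.2.2.2.2
  obtain ⟨q1, q2⟩ := Y.hx.lc.c5 _ _ rfl rfl
  refine ⟨⟨θ0, Y.cw.θ1⟩, ⟨B.j0, j1⟩, ⟨B.τ0, P.τ1, rpow_le_one x0.le x1 (by norm_num)⟩, B.γ0, B.X0,
    ⟨w0.le, P.tw⟩, ⟨by positivity, by rw [Ve83.cb3 g0]; exact Y.tw.gN⟩,
    ⟨B.N0, B.N_le.1, le_add_of_nonneg_left B.N0⟩,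
    ⟨B.γ3.1, by linarith [B.γ3.2.2, mul_nonneg B.γ0.1 B.η0]⟩, ?_, sm_of_min θ0 q1, q2⟩
  have a1 : (S.w3 1 * c.p.Xp) ^ ((3 : ℝ) / 4) ≤ c.p.N := by
    have := B.j0
    exact le_trans (le_add_of_nonneg_right (by positivity)) Y.hx.lc.c9
  have a2 := pow_le_pow_left₀ (by positivity) a1 4
  rw [← rpow_natCast, ← rpow_mul (by positivity),
    show (3 : ℝ) / 4 * (4 : ℕ) = (3 : ℕ) by norm_num, rpow_natCast] at a2
  rwa [Ve83.cb3 x0.le]

/-- **(D) the corner** -/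
theorem txD : TxD := by
  choose K0 _ hK using cor51
  have cg : CL fun _ Λ S _ _ _ => K0 S.C ≤ Λ := fun C => .of_forall fun _ _ _ η hη => by
    filter_upwards [Pre29.ev_K (K0 C) hη] with n h S M b1 _ _ _ m a _
    rwa [b1]
  unfold TxD LF
  refine cg.mono fun E Λ S M m a _ _ h _ k c Y hD v v1 v2 N w w1 w2 hw => ?_
  have G := Y.geo51 N w1 w2 hw
  obtain ⟨r1, r2⟩ := hK S.C rfl Y (k.trans hD) N w1 w2 hw G.rho
  have n := Y.nm14
  have A := Y.tw.at'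
  have D4 := Y.cw.Z.D4
  have D1 : 1 ≤ c.D := by linarith
  have F1 := h.F1
  have θ0 := h.θ0
  have j0 := n.j0.1
  have τ0 := n.τ0.1
  have γ0 := n.γ0.1
  have R0 := n.R0
  have G0 := n.G0.1
  have w0 := n.w0.1
  have X0 := n.X0.1
  have b0 := A.b_pos
  have N5 := Y.N5
  have N0 := n.N0.1.trans n.N0.2.1
  have pw : ∀ {i k : ℕ}, i ≤ k → c.D ^ i ≤ c.D ^ k := fun e => pow_le_pow_right₀ D1 e
  have pf : ∀ {i k : ℕ}, i ≤ k → S.F ^ i ≤ S.F ^ k := fun e => pow_le_pow_right₀ F1 e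
  have P1 : c.D ≤ c.D ^ 46 * S.F :=
    (le_self_pow₀ D1 (by norm_num)).trans (le_mul_of_one_le_right (by positivity) F1)
  have r0 : 0 ≤ rR S M c.p := by unfold rR; positivity
  have a0 : 0 ≤ aaI S c := by unfold aaI aA; positivity
  have L0 : 0 ≤ LrI S M c := by unfold LrI; positivity
  have l0 : 0 ≤ laI S c (c.D ^ 45 * S.F * rR S M c.p) := by unfold laI; positivity
  have l1 : laI S c (c.D ^ 45 * S.F * rR S M c.p) ≤
      c.D ^ 46 * S.F * (c.p.X2 + √(rR S M c.p * S.w3 1)) := by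
    have e1 : √(c.D ^ 45 * S.F * rR S M c.p * S.w3 1) ≤ c.D ^ 42 * S.F * √(rR S M c.p * S.w3 1) :=
      sqrt_le_iff.2 ⟨by positivity, by
        rw [mul_pow, sq_sqrt (by positivity), mul_pow, ← pow_mul, mul_assoc (_ * _)]
        exact mul_le_mul_of_nonneg_right (mul_le_mul (pw (by norm_num))
          (le_self_pow₀ F1 two_ne_zero) (by positivity) (by positivity)) (by positivity)⟩
    have e2 : c.p.X2 ≤ c.D ^ 42 * S.F * c.p.X2 :=
      le_mul_of_one_le_left X0 (one_le_mul_of_one_le_of_one_le (one_le_pow₀ D1) F1)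
    calc _ ≤ c.D ^ 4 * (c.D ^ 42 * S.F * c.p.X2 + c.D ^ 42 * S.F * √(rR S M c.p * S.w3 1)) :=
          mul_le_mul_of_nonneg_left (add_le_add e2 e1) (by positivity)
      _ = _ := by ring
  have L1 : LrI S M c ≤ c.D ^ 46 * S.F * rR S M c.p :=
    mul_le_mul_of_nonneg_right (mul_le_mul_of_nonneg_right (pw (by norm_num)) (by linarith)) r0
  have hQ : c.D ^ 24 * (22 * (c.D ^ 46 * S.F) ^ 3) ≤ E := by
    refine le_trans ?_ Y.DF83
    calc _ = 22 * c.D ^ 162 * S.F ^ 3 := by ring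
      _ ≤ c.D * c.D ^ 162 * S.F ^ 20 := by
        have := pf (show 3 ≤ 20 by norm_num)
        gcongr
        linarith
      _ ≤ _ := mul_le_mul_of_nonneg_right ((pow_succ' _ _).symm.trans_le (pw (by norm_num)))
          (by positivity)
  obtain ⟨s1, s2⟩ := n.numD (D1.trans P1) b0.le (h.b1.trans (le_trans (by
    linarith [Y.cw.Z.Cp (k := 1) (by norm_num), h.C0, pow_one S.C]) P1)) l0 l1 a0 le_rfl L0 L1
    (by positivity) hQ
  have m0 : 0 ≤ min (2 * aaI S c) (LrI S M c) := le_min (by linarith) L0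
  have k1 : ∀ (x : ℝ) (i k : ℕ) (y : ℝ), x ≤ c.D ^ 2 → i ≤ 598 → k ≤ 10 → 0 ≤ y → y ≤ X48.N0 c.p →
      x * c.D ^ i * S.F ^ k * y ≤ c.D ^ 600 * Nb S M c := fun x i k y x1 i1 k1 y0 y1 =>
    calc _ ≤ c.D ^ 2 * c.D ^ 598 * S.F ^ 10 * Nn S M c.p c.X4 c.t4 := by
          have := pw i1
          have := pf k1
          have := y1.trans N5
          gcongr
      _ = _ := by unfold Nb; ring
  have D2 : 13689 ≤ c.D ^ 2 := by nlinarith
  refine ⟨_, _, by positivity, s1.mono θ0.le zero_le_one (by positivity) zero_le_one le_rfl le_rfl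
    (le_trans (le_of_eq (by ring)) (k1 13689 368 8 _ D2 (by norm_num) (by norm_num) N0 le_rfl))
    le_rfl le_rfl, r2, by positivity, fun _ => r1 _ ((min_le_left _ _).trans (A.sb_mono
      (Nat.succ_le_succ (G.J2.le.trans w1)))) le_rfl, s2.imp_left fun e => e.trans ?_⟩
  exact le_trans (le_of_eq (by ring)) (k1 10648 414 9 _ (by linarith) (by norm_num) (by norm_num)
    n.N0.1 n.N0.2.1)

end Crest.Agent.T156.Alt.X84

end
end

-- ▼ part T156/TxO_60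
section

/-!
# Row 156, block (L): the node `w` and the top block of (TxS) (helper60)
-/

set_option autoImplicit false

noncomputable section

namespace Crest.Agent.T156.Alt.O60

open Real
open Crest.Agent.T156.Alt.L69 Crest.Agent.T156.Alt.Mp9 Crest.Agent.T156.Alt.Nd33
open Crest.Agent.T156.Pr.Reg48 (Sm)

/-- **the upper node** `w`; `x'` is the uniform error of the middle zone -/
structure Wn (S : Sc) (M : Md) (m : ℕ) (a T L κ c θ' βs N u2 g0 γ x : ℝ) (v0 w : ℕ) (x' : ℝ) :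
    Prop where
  w1 : S.J < w ∧ w + 1 < S.Jp
  du1 : 1 ≤ L * du M w
  x1 : x ≤ x'
  sm : Sm S.θ 1 (L ^ 9 * N) 1 x'
  aM : res M S m a T v0 - res M S m a T w ≤ x' ∧ M.G w ≤ x'
  Gw : M.G w ≤ S.C * S.θ * γ + 2 * √(L * GP M S)
  top : ∀ g, 0 ≤ g → g ≤ L * g0 →
    (sb M m a (w + 1) < M.s S.Jp → M.b * Pr.GG (lb M S m a T) (sb M m a (w + 1)) ≤ 1 + g) →
    At.TO S M m a T L κ c θ' βs N u2 v0 w
  top' : ∀ g, 0 ≤ g → (g ^ 3 ≤ N ∨ L ^ 4 * g ≤ S.θ) →
    (sb M m a (w + 1) < M.s S.Jp → M.b * Pr.GG (lb M S m a T) (sb M m a (w + 1)) ≤ 1 + g) →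
    At.TO S M m a T L κ c θ' βs N u2 v0 w

set_option maxHeartbeats 1000000 in
theorem top60 (T0 : ℝ) : ∃ K0 κ0 c : ℝ, 1 ≤ K0 ∧ ∀ {S : Sc} {M : Md} {m : ℕ} {a T : ℝ}, T ≤ T0 →
    ∀ {W Xp Xp' γ V Lp Lg G ev N2 g x u E L0 L u1 u2 g0 N θ' βs ν : ℝ} {vc v0 : ℕ},
    PV W S M m a T Xp γ V Lp Lg G ev N2 g x u vc v0 →
    At.TK S M E L0 γ u2 g0 Lg N (ap M S Xp V γ) → Jn S M Xp' u1 → S.ue ≤ u1 → u1 ≤ u2 →
    u ≤ 8 * u2 → N2 ≤ 1 → K0 * S.C ^ 7 ≤ L → 1 ≤ L0 → 2 * L0 ≤ L →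
    2 * S.C * W ^ 4 * (4 * T + 5) ≤ L → L ^ 4 ≤ E → E * (S.C * S.v * S.n) ≤ 1 →
    Sm S.θ 1 (4 * N) 1 x → 1 ≤ L * θ' → 0 < ν ∧ ν ≤ 1 ∧ ν ≤ N ∧ log (1 + T / ν) ≤ L →
    1 / ((m : ℝ) + 1) ≤ x → 0 ≤ βs ∧ βs ≤ L * x → S.jl < v0 → v0 ≤ S.J →
    M.s S.J ≤ 4 * sb M m a (v0 + 1) →
    ∃ w x', Wn S M m a T L (κ0 / (8 * S.C)) c θ' βs N u2 g0 γ x v0 w x' := by
  obtain ⟨K0, ρ0, c, K1, r0, r1, -, h⟩ := At.top_pack T0
  have r2 : 0 < 32 / ρ0 := by positivity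
  refine ⟨K0 + 32 / ρ0 + 128, ρ0, c, by linarith, fun {S M m a T} hT {W Xp Xp' γ V Lp Lg G ev N2 g
    x u E L0 L u1 u2 g0 N θ' βs ν vc v0} H P J a1 a2 a3 a4 hK L01 L02 hW hE hv hx hθ hν hm hβ v1
    v2 v3 => ?_⟩
  have A := H.rn.A
  have cl := A.cl
  have C0 := cl.C0
  have C1 := cl.C1
  have θ0 := cl.θ0
  have C7 : S.C ≤ S.C ^ 7 := le_self_pow₀ C1 (by norm_num)
  have k : ∀ y, 0 ≤ y → y ≤ K0 + 32 / ρ0 + 128 → y * S.C ≤ L := fun y y0 y1 =>
    le_trans (by gcongr) hK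
  have L1 : 128 * S.C ≤ L := k 128 (by norm_num) (by linarith)
  have L2 : 128 ≤ L := by linarith
  have L0' : 0 < L := by linarith
  set ρ := ρ0 / (2 * S.C) with hρ
  have ρ1 : 16 ≤ L * ρ := by
    have := k _ r2.le (by linarith)
    rw [div_mul_eq_mul_div, div_le_iff₀ r0] at this
    rw [hρ, mul_div_assoc', le_div_iff₀ (by positivity)]
    linarith
  have ρp : 0 < ρ := by positivity
  have ρ2 : S.C * ρ ≤ 1 / 2 := by
    rw [hρ, mul_div_assoc', div_le_iff₀ (by positivity)]; nlinarith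
  have LE : L ≤ E := (le_self_pow₀ (by linarith) (by norm_num)).trans hE
  have sm : ∀ y, 0 ≤ y → E * y ≤ 1 → 16 * y ≤ ρ := fun y y0 y1 =>
    le_of_mul_le_mul_left (by
      linarith [mul_le_mul_of_nonneg_right LE y0]) L0'
  have u0 := P.u0.1
  have b1 := sm u2 u0 P.u0.2.1
  have b2 := sm _ (by have := cl.v0; positivity) hv
  have vn : 0 ≤ S.C * S.v * S.n := by have := cl.v0; positivity
  obtain ⟨k0, k1, k2, k3, k4⟩ := A.node_du (ρ := ρ) J a1 (by linarith) (by linarith) (by linarith)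
  obtain ⟨w, w1, w2, w3, w4, Q⟩ := H.ex k0 k1.le k2 (by linarith)
  have d0 : ds M S k0 ≤ du M k0 := min_le_right _ _
  have d1 : 7 / 8 * du M k0 ≤ du M w := by unfold du at *; linarith
  have d2 : du M w ≤ ρ := by
    have := cl.leg.zm (show k0 - 1 ≤ w - 1 by omega)
    unfold du at *; linarith
  have d3 : ρ / 4 ≤ 1 - M.z w := by unfold du at *; linarith
  have d4 : 0 < du M w := by linarith
  have d5 : 1 ≤ L * du M w := by
    linarith [mul_le_mul_of_nonneg_left (show ρ / 16 ≤ du M w by linarith) L0'.le]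
  have d6 : du M w ≤ M.z (w - 1) - M.z (S.J - 1) := by
    have e1 := cl.atom.2
    have e2 : 2 * ρ ≤ 1 / S.C := by rw [le_div_iff₀ C0]; linarith
    unfold du at *; linarith
  have N0 : 0 ≤ N := (sq_nonneg _).trans P.u0.2.2
  have P' := (tk_apx cl P L01 H.rn.G0.2.1 a4).mono A le_rfl (by linarith) L02
  have ew := H.rs Q (by linarith) hW
  have G0 := GP_nn cl
  have g1 := G_up A H.rn.γ0 Q.lo Q.hi.le d4
  have g2 : √(GP M S / du M w) ≤ √(L * GP M S) := sqrt_le_sqrt (by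
    rw [div_le_iff₀ d4]; linarith [mul_le_mul_of_nonneg_right d5 G0])
  have x0 := H.x0
  have p : ∀ i j : ℕ, i ≤ j → L ^ i * N ≤ L ^ j * N := fun i j e =>
    mul_le_mul_of_nonneg_right (pow_le_pow_right₀ (by linarith) e) N0
  have s1 : Sm S.θ 1 (L ^ 6 * N) 1 ((1 ^ 2 * apx M S Xp V γ Lg N2 w) ^ 2) := by
    have := (P'.sh w Q.lo Q.hi.le d4 (by linarith) d6).wt L0'.le zero_le_one d5
    rwa [← mul_assoc, ← pow_succ'] at this
  have s2 : Sm S.θ 1 (L ^ 6 * N) 1 x := hx.mono θ0.le zero_le_one (by positivity) zero_le_one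
    le_rfl le_rfl (by
      linarith [p 1 6 (by norm_num), mul_le_mul_of_nonneg_right L2 N0, pow_one L]) le_rfl le_rfl
  have s3 : Sm S.θ 1 (L ^ 9 * N) 1 (L * (x + (1 ^ 2 * apx M S Xp V γ Lg N2 w) ^ 2)) :=
    ((s2.add s1 θ0.le zero_le_one (by positivity) zero_le_one).mul zero_le_one
      (show 1 ≤ L by linarith)).mono θ0.le zero_le_one (by positivity) zero_le_one le_rfl le_rfl
      (by linarith [mul_le_mul_of_nonneg_right L2 (show 0 ≤ L ^ 8 * N by positivity),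
        show 0 ≤ L ^ 8 * N by positivity])
      le_rfl le_rfl
  have s4 : Sm S.θ 1 (L ^ 9 * N) 1 (S.C * S.θ * γ + 2 * √(L * GP M S)) := by
    refine .inr (.inl ?_)
    have e1 := sq_sqrt (mul_nonneg L0'.le G0)
    have e2 : 2 * S.C ^ 2 ≤ L ^ 2 := by
      linarith [pow_le_pow_left₀ (by positivity) L1 2, sq_nonneg S.C]
    have e3 := mul_le_mul_of_nonneg_right e2 (sq_nonneg (S.θ * γ))
    have e4 := mul_le_mul_of_nonneg_right (show 8 * L ≤ L ^ 2 by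
      linarith [mul_le_mul_of_nonneg_right L2 L0'.le]) G0
    have e5 := mul_le_mul_of_nonneg_left P.c2 (sq_nonneg L)
    have e6 := mul_le_mul_of_nonneg_left (p 2 9 (by norm_num)) θ0.le
    linarith [sq_nonneg (S.C * S.θ * γ - 2 * √(L * GP M S))]
  have to' : ∀ E' g0', At.TK S M E' L γ u2 g0' 1 N (apx M S Xp V γ Lg N2) → L ^ 4 ≤ E' → ∀ g',
      0 ≤ g' → g' ≤ L * g0' → (sb M m a (w + 1) < M.s S.Jp →
        M.b * Pr.GG (lb M S m a T) (sb M m a (w + 1)) ≤ 1 + g') →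
      At.TO S M m a T L (ρ0 / (8 * S.C)) c θ' βs N u2 v0 w := fun E' g0' Q' hE' g' g3 g4 mu =>
    h A hT (le_trans (by gcongr; linarith) hK) Q' hx ⟨hE', H.rn.θ1, hθ, hν, hm, hβ,
      ⟨g3, g4⟩, ⟨v1, by omega⟩, ⟨Q.lo, Q.hi.le⟩, ⟨d3, d2⟩,
      by linarith [A.sb_mono (show v0 + 1 ≤ w + 1 by omega)], ew, mu, H.nx Q.lo u0 a3 hW⟩
  have γ0 : 0 ≤ γ := by linarith [P.γ0, cl.sm cl.i3]
  exact ⟨w, _, ⟨by omega, w2⟩, d5, le_max_of_le_left ((le_add_of_nonneg_right (sq_nonneg _)).trans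
      (le_mul_of_one_le_left (by positivity) (by linarith))), s3.max s4,
    ⟨le_max_of_le_left ((le_abs_self _).trans ew), le_max_of_le_right (by linarith)⟩, by linarith,
    to' E g0 P' hE, fun g' g3 g4 => to' (L ^ 4) g'
      ⟨P'.γ0, (mul_le_mul_of_nonneg_right hE γ0).trans P'.γ1, P'.γ2,
        ⟨u0, (mul_le_mul_of_nonneg_right hE u0).trans P'.u0.2.1, P'.u0.2.2⟩, P'.c2, g4, P'.sh⟩
      le_rfl g' g3 (le_mul_of_one_le_left g3 (by linarith))⟩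

/-- the slope excess paid by `LC.c5` -/
def g0 (S : Sc) (p : L31.Pa) : ℝ :=
  p.X2 + (S.θ + p.j + p.τ + p.γ) * min (S.θ + p.j + p.τ + p.γ) (p.Xp ^ ((1 : ℝ) / 3))

/-- **the top block from `Hx`** -/
theorem topH (T0 : ℝ) : ∃ K0 κ0 c : ℝ, 1 ≤ K0 ∧ ∀ {E lam : ℝ} {S : Sc} {M : Md} {m : ℕ} {a : ℝ}
    {p : L31.Pa}, L31.Hx E lam S M m a p → 2 * S.C ≤ T0 →
    ∀ {W G ev N2 g x u L N θ' βs ν : ℝ} {vc v0 : ℕ},
    PV W S M m a (2 * S.C) p.Xp p.γ p.V2 p.Lp p.Lg G ev N2 g x u vc v0 →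
    u ≤ 8 * p.u2 → N2 ≤ 1 → 0 ≤ p.η 1 + p.X2 → p.N ≤ N → K0 * S.C ^ 7 ≤ L →
    2 * S.C * W ^ 4 * (4 * (2 * S.C) + 5) ≤ L → L ^ 4 ≤ E → S.C * S.v * (S.n : ℝ) ^ 2 ≤ 1 →
    Sm S.θ 1 (4 * N) 1 x → 1 ≤ L * θ' → 0 < ν ∧ ν ≤ 1 ∧ ν ≤ N ∧ log (1 + 2 * S.C / ν) ≤ L →
    1 / ((m : ℝ) + 1) ≤ x → 0 ≤ βs ∧ βs ≤ L * x → S.jl < v0 → v0 ≤ S.J →
    M.s S.J ≤ 4 * sb M m a (v0 + 1) →
    ∃ w x', Wn S M m a (2 * S.C) L (κ0 / (8 * S.C)) c θ' βs N p.u2 (g0 S p) p.γ x v0 w x' := by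
  obtain ⟨K0, κ0, c, K1, h⟩ := top60 T0
  refine ⟨K0 + 128, κ0, c, by linarith, fun {E lam S M m a p} H hT {W G ev N2 g x u L N θ' βs ν vc
    v0} P a1 a2 a3 a4 hK hW hE hv => ?_⟩
  have A := P.rn.A
  have C0 := A.cl.C0
  have C1 := A.cl.C1
  have C7 : S.C ≤ S.C ^ 7 := le_self_pow₀ C1 (by norm_num)
  have L1 : 128 * S.C ≤ L := le_trans (by gcongr; linarith) hK
  have E1 : 1 ≤ E := (one_le_pow₀ (by linarith)).trans hE
  have En : E ≤ S.n :=
    ((le_mul_of_one_le_right (by linarith) (one_le_pow₀ A.cl.F1)).trans H.ln.Lg0).trans H.ln.Lg1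
  refine h hT P ((A.tk_of H.lp H.lc a3 le_rfl E1).mono A a4 (by positivity) le_rfl) H.ap.jn
    H.lp.u1a H.lp.u1b.1 a1 a2 (le_trans (by gcongr; linarith) hK) (by linarith) (by linarith) hW hE
    ?_
  have := mul_le_mul_of_nonneg_right En
    (show 0 ≤ S.C * S.v * S.n by have := A.cl.v0; positivity)
  linarith

end Crest.Agent.T156.Alt.O60

end
end

-- ▼ part T156/TopG_51
section

/-!
# Row 156, text (L) (helper51): the deficit bound at the corner node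
-/

set_option autoImplicit false

noncomputable section

namespace Crest.Agent.T156.Alt.Mp9.At

open Real

variable {S : Sc} {M : Md} {m : ℕ} {a T : ℝ}

theorem cbrt51 {θ N : ℝ} (θ0 : 0 < θ) (N0 : 0 ≤ N) :
    0 ≤ (N / θ) ^ ((1 : ℝ) / 3) ∧ θ * ((N / θ) ^ ((1 : ℝ) / 3)) ^ 3 = N := by
  have q : 0 ≤ N / θ := by positivity
  refine ⟨rpow_nonneg q _, ?_⟩
  rw [← rpow_natCast, ← rpow_mul q]
  norm_num
  field_simp

theorem le_cbrt51 {θ N x y : ℝ} (θ0 : 0 < θ) (y0 : 0 ≤ y) (hy : θ * y ^ 3 = N)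
    (h : θ * x ^ 3 ≤ N) : x ≤ y :=
  le_of_pow_le_pow_left₀ three_ne_zero y0 (le_of_mul_le_mul_left (h.trans hy.ge) θ0)

/-- **the deficit bound `Gm`** (fields of `TM.cn`) -/
theorem gm51 (A : At S M m a T) {v : ℕ} {γ τ ν N0 N L : ℝ} (θ1 : S.θ ≤ 1)
    (hγ : M.s S.Jp - M.s S.J ≤ γ) (γ3 : S.θ * γ ^ 3 ≤ N0) (τ0 : 0 ≤ τ) (τ3 : S.θ * τ ^ 3 ≤ N0)
    (vν : S.C * S.v ≤ ν) (ν1 : ν ≤ 1) (νN : ν ≤ N0) (zv : M.z (S.J - 1) - τ ≤ M.z v)
    (hG : L69.GS M S (1 / (8 * S.C ^ 2)) S.C ≤ S.θ * N0) (hl : M.s S.jl < 1 / (8 * S.C ^ 2))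
    (hN : 125 * S.C ^ 9 * N0 ≤ N) (hL : S.C ^ 2 ≤ L) :
    ∃ Gm, df36 S M T v ≤ Gm ∧ S.θ * ν ≤ Gm ∧ Gm ≤ L ∧ Gm ^ 3 ≤ S.θ ^ 2 * N ∧
      0 ≤ (N / S.θ) ^ ((1 : ℝ) / 3) ∧ Gm ^ 2 * (N / S.θ) ^ ((1 : ℝ) / 3) ≤ S.θ * N := by
  have c0 := A.c_pos
  have C1 := A.cl.C1
  have v0 := v_pos A.cl
  have θ0 : 0 < S.θ := (A.ms_pos le_rfl).trans_le (A.cl.ms1 0)
  have ν0 : 0 < ν := (mul_pos c0 v0).trans_le vν
  have n0 : 0 < N0 := ν0.trans_le νN
  have C2 : 1 ≤ S.C ^ 2 := one_le_pow₀ C1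
  have C3 : S.C ≤ S.C ^ 3 := le_self_pow₀ C1 three_ne_zero
  have n1 : 0 ≤ N := le_trans (by positivity) hN
  obtain ⟨p0, p1⟩ := cbrt51 θ0 n0.le
  obtain ⟨q0, q1⟩ := cbrt51 θ0 n1
  generalize (N0 / S.θ) ^ ((1 : ℝ) / 3) = y0 at p0 p1
  generalize (N / S.θ) ^ ((1 : ℝ) / 3) = y at q0 q1
  have a1 := le_cbrt51 θ0 p0 p1 γ3
  have a2 := le_cbrt51 θ0 p0 p1 τ3
  have a3 : ν ≤ y0 := le_cbrt51 θ0 p0 p1 (by
    have : ν ^ 3 ≤ ν := pow_le_of_le_one ν0.le ν1 three_ne_zero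
    have : S.θ * ν ^ 3 ≤ 1 * ν ^ 3 := by gcongr
    linarith)
  have y00 : 0 < y0 := ν0.trans_le a3
  have θy : 0 < S.θ * y0 := mul_pos θ0 y00
  obtain ⟨Gm, hm⟩ : ∃ Gm, Gm = min (S.C ^ 2 * S.θ) (5 * S.C ^ 3 * (S.θ * y0)) := ⟨_, rfl⟩
  have g1 : Gm ≤ S.C ^ 2 * S.θ := hm ▸ min_le_left _ _
  have g2 : Gm ≤ 5 * S.C ^ 3 * (S.θ * y0) := hm ▸ min_le_right _ _
  have g0 : S.θ * ν ≤ Gm := by
    rw [hm]
    have k1 : S.θ * ν ≤ S.θ * y0 := by gcongr
    have k2 : S.θ * ν ≤ S.θ * 1 := by gcongr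
    have k3 := mul_le_mul_of_nonneg_right C2 θ0.le
    have k4 := mul_le_mul_of_nonneg_right (C1.trans C3) θy.le
    exact le_min (by linarith only [k2, k3]) (by linarith only [k1, k4, θy])
  have g00 : 0 ≤ Gm := le_trans (by positivity) g0
  have g3 : Gm ^ 3 ≤ S.θ ^ 2 * N :=
    calc _ ≤ (5 * S.C ^ 3 * (S.θ * y0)) ^ 3 := pow_le_pow_left₀ g00 g2 3
      _ = S.θ ^ 2 * (125 * S.C ^ 9 * (S.θ * y0 ^ 3)) := by ring
      _ ≤ _ := by rw [p1]; gcongr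
  have g4 : Gm ≤ S.θ * y := le_of_pow_le_pow_left₀ three_ne_zero (by positivity)
    (g3.trans_eq (by rw [← q1]; ring))
  refine ⟨Gm, ?_, g0, g1.trans ((mul_le_of_le_one_right (by positivity) θ1).trans hL), g3, q0, ?_⟩
  · rw [hm]
    refine le_min (A.df_crude v) ?_
    rcases le_or_gt (5 * S.C * y0) 1 with c | c
    · have k := A.df_corner (v := v) (y := y0) (t0 := 1 / (8 * S.C ^ 2)) (g := S.θ * N0) hγ τ0 zv
        y00 hl (by
          have e1 : S.C * (1 / (8 * S.C ^ 2) + 2 * S.v) = 1 / 8 * (1 / S.C) + 2 * (S.C * S.v) := by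
            field_simp
          have e2 : 5 * y0 ≤ 1 / S.C := by rw [le_div_iff₀ c0]; linarith
          rw [e1]
          linarith [A.cl.atom.1]) hG
      have e3 : √(S.θ * N0 / y0) = S.θ * y0 := by
        rw [← p1, show S.θ * (S.θ * y0 ^ 3) / y0 = (S.θ * y0) ^ 2 by field_simp, sqrt_sq θy.le]
      rw [e3] at k
      have k1 : γ + S.C * S.v + S.C ^ 2 * (τ + y0) ≤ 2 * y0 + S.C ^ 2 * (2 * y0) := by
        have : S.C ^ 2 * (τ + y0) ≤ S.C ^ 2 * (2 * y0) := by gcongr; linarith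
        linarith
      have k2 := mul_le_mul_of_nonneg_left k1 (mul_pos c0 θ0).le
      have k3 := mul_le_mul_of_nonneg_right C3 θy.le
      have k4 := mul_le_mul_of_nonneg_right C1 θy.le
      linarith only [k, k2, k3, k4]
    · refine (A.df_crude v).trans ?_
      have k := mul_le_mul_of_nonneg_left c.le (show 0 ≤ S.C ^ 2 * S.θ by positivity)
      linarith only [k]
  · calc _ ≤ (S.θ * y) ^ 2 * y := by gcongr
      _ = _ := by rw [← q1]; ring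

end Crest.Agent.T156.Alt.Mp9.At

end
end

-- ▼ part T156/PgN_33
section

/-!
# Row 156, block (L): the net of plateau nodes for the middle zone (helper33)
-/

set_option autoImplicit false
set_option linter.unusedSectionVars false

noncomputable section

namespace Crest.Agent.T156.Alt.Nd33

open Real Finset Filter
open Crest.Agent.R164.GC Crest.Agent.R339.B Crest.Agent.R339.Var Crest.Agent.T157.Pf
open Crest.Agent.T156.Alt.Md67 Crest.Agent.T156.Alt.L69 Crest.Agent.T156.Alt.E61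
open Crest.Agent.T156.Alt.Mp9
open Crest.Agent.T156.Pr.Reg48 (Sm)

variable {S : Sc} {M : Md} {m : ℕ} {a T Xp γ V : ℝ}

theorem cube_add {p q : ℝ} (p0 : 0 ≤ p) (q0 : 0 ≤ q) : (p + q) ^ 3 ≤ 4 * (p ^ 3 + q ^ 3) := by
  linarith [mul_nonneg (add_nonneg p0 q0) (sq_nonneg (p - q))]

/-- the local error splits into a quadratic and a cubic part -/
theorem net_num {θ N ρ U g x D t K : ℝ} (θ0 : 0 < θ) (θ1 : θ ≤ 1) (ρ0 : 0 < ρ) (ρ1 : ρ ≤ 1)
    (N0 : 0 ≤ N) (hN : N ≤ θ * ρ ^ 3) (K1 : 64 ≤ K) (U0 : 0 ≤ U) (g0 : 0 ≤ g) (gx : g ^ 2 ≤ x)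
    (hx : Sm θ 1 N 1 x) (hU : ρ * min (U ^ 3) (U ^ 4 / θ) ≤ K * N) (D1 : D ≤ K)
    (D2 : D ≤ K * (θ + t)) (t0 : 0 ≤ t) (t1 : t ^ 3 ≤ K * ρ) : ∃ K1 K2, 0 ≤ K1 ∧ 0 ≤ K2 ∧
      g * U + U ^ 2 * (min U 1 + D) ≤ x + K1 + K2 ∧ ρ * K1 ^ 2 ≤ θ * (K ^ 5 * N) ∧
      ρ * K2 ^ 3 ≤ (K ^ 5 * N) ^ 2 := by
  have K0 : 0 < K := by linarith
  have k1 : 1 ≤ K := by linarith
  have θN : 0 ≤ θ * N := by positivity
  have x0 : 0 ≤ x := (sq_nonneg g).trans gx
  have pw : ∀ i j : ℕ, i < j → 64 * K ^ i ≤ K ^ j := fun i j e =>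
    (mul_le_mul_of_nonneg_right K1 (by positivity)).trans
      (by rw [← pow_succ']; exact pow_le_pow_right₀ k1 e)
  rcases min_choice (U ^ 3) (U ^ 4 / θ) with e | e <;> rw [e] at hU
  swap
  · rw [← mul_div_assoc, div_le_iff₀ θ0] at hU
    refine ⟨2 * K * U ^ 2, 0, by positivity, le_rfl, ?_, ?_, by norm_num; positivity⟩
    · have := mul_le_mul_of_nonneg_left (show min U 1 + D ≤ 2 * K - 1 by
        linarith [min_le_right U 1]) (sq_nonneg U)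
      linarith [sq_nonneg (g - U), sq_nonneg g, sq_nonneg U]
    · have := mul_le_mul_of_nonneg_left hU (show 0 ≤ 4 * K ^ 2 by positivity)
      have := mul_le_mul_of_nonneg_right (pw 3 5 (by norm_num)) θN
      have : 0 ≤ K ^ 3 * (θ * N) := by positivity
      linarith
  have r3 : θ * ρ ^ 3 ≤ ρ * ρ := by
    rw [← sq]
    exact (mul_le_of_le_one_left (by positivity) θ1).trans (pow_le_pow_of_le_one ρ0.le ρ1 (by norm_num))
  have u1 : U ^ 3 ≤ K * ρ := le_of_mul_le_mul_left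
    (by linarith [mul_le_mul_of_nonneg_left (hN.trans r3) K0.le]) ρ0
  have u2 : U ≤ K := le_of_pow_le_pow_left₀ three_ne_zero K0.le
    (u1.trans ((mul_le_of_le_one_right K0.le ρ1).trans (le_self_pow₀ k1 three_ne_zero)))
  have s1 : (U + K * t) ^ 3 ≤ 8 * K ^ 4 * ρ := by
    have a1 := cube_add U0 (show 0 ≤ K * t by positivity)
    have a2 := mul_le_mul_of_nonneg_left t1 (show 0 ≤ K ^ 3 by positivity)
    have a3 := mul_le_mul_of_nonneg_right (le_self_pow₀ k1 four_ne_zero) ρ0.le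
    linarith
  have q1 := pow_le_pow_left₀ (by positivity) hU 2
  have s2 : ρ * (U ^ 2 * (U + K * t)) ^ 3 ≤ 8 * K ^ 6 * N ^ 2 := by
    have a1 := mul_le_mul_of_nonneg_left s1 (show 0 ≤ ρ * U ^ 6 by positivity)
    have a2 := mul_le_mul_of_nonneg_left q1 (show 0 ≤ 8 * K ^ 4 by positivity)
    linarith
  have s3 : ρ * (K * θ * U ^ 2) ^ 2 ≤ K ^ 4 * (θ * N) := by
    have a1 := mul_le_mul hU u2 U0 (by positivity)
    have a2 := mul_le_mul_of_nonneg_left a1 (show 0 ≤ K ^ 2 * θ ^ 2 by positivity)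
    have a3 := mul_le_mul_of_nonneg_left θ1 (show 0 ≤ K ^ 4 * (θ * N) by positivity)
    linarith
  have s4 : U ^ 2 * (min U 1 + D) ≤ K * θ * U ^ 2 + U ^ 2 * (U + K * t) := by
    have := mul_le_mul_of_nonneg_left (show min U 1 + D ≤ U + K * (θ + t) by
      linarith [min_le_left U 1]) (sq_nonneg U)
    linarith
  have n2 := sq_nonneg N
  have p1 := mul_le_mul_of_nonneg_right (pw 4 5 (by norm_num)) θN
  have p2 := mul_le_mul_of_nonneg_right (pw 6 10 (by norm_num)) n2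
  have p3 : 0 ≤ K ^ 4 * (θ * N) := by positivity
  have p4 : 0 ≤ K ^ 6 * N ^ 2 := by positivity
  rcases le_or_gt (g ^ 3) N with c | c
  · refine ⟨K * θ * U ^ 2, U ^ 2 * (U + K * t) + g * U, by positivity, by positivity, by linarith,
      by linarith, ?_⟩
    have a1 := mul_le_mul_of_nonneg_left (cube_add (show 0 ≤ U ^ 2 * (U + K * t) by positivity)
      (mul_nonneg g0 U0)) ρ0.le
    have a2 := mul_le_mul hU c (by positivity) (by positivity)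
    have a3 := mul_le_mul_of_nonneg_right (le_self_pow₀ k1 (show 6 ≠ 0 by norm_num)) n2
    linarith
  have g1 : 0 < g := by
    by_contra b
    rw [le_antisymm (not_lt.1 b) g0] at c
    linarith
  have c2 := pow_lt_pow_left₀ c N0 two_ne_zero
  have c3 : g ^ 4 ≤ θ * N := by
    rcases hx with b | b | b
    · linarith [pow_pos g1 2]
    · linarith [pow_le_pow_left₀ (sq_nonneg g) gx 2]
    · linarith [pow_le_pow_left₀ (sq_nonneg g) gx 3]
  have c4 := pow_le_pow_left₀ (by positivity) c3 3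
  have c5 : N ≤ θ ^ 3 := by
    by_contra b
    have b1 := mul_le_mul_of_nonneg_right (not_le.1 b).le (show 0 ≤ N ^ 3 by positivity)
    linarith [pow_lt_pow_left₀ c2 n2 two_ne_zero]
  have c6 : g ^ 6 ≤ θ ^ 3 * N := le_of_pow_le_pow_left₀ two_ne_zero (by positivity) (by
    linarith [mul_le_mul_of_nonneg_right c5 (show 0 ≤ θ ^ 3 * N ^ 2 by positivity)])
  have c7 : ρ * (g * U) ^ 2 ≤ K * (θ * N) := le_of_pow_le_pow_left₀ three_ne_zero (by positivity) (by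
    have a1 := mul_le_mul q1 c6 (by positivity) (by positivity)
    have a2 := mul_le_mul_of_nonneg_right ρ1 (show 0 ≤ (ρ * U ^ 3) ^ 2 * g ^ 6 by positivity)
    have a3 := mul_le_mul_of_nonneg_right k1 (show 0 ≤ K ^ 2 * (θ * N) ^ 3 by positivity)
    linarith)
  refine ⟨K * θ * U ^ 2 + g * U, U ^ 2 * (U + K * t), by positivity, by positivity, by linarith,
    ?_, by linarith⟩
  have a1 := mul_nonneg ρ0.le (sq_nonneg (K * θ * U ^ 2 - g * U))
  have a3 := mul_le_mul_of_nonneg_right (le_self_pow₀ k1 four_ne_zero) θN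
  linarith

/-- the cost of a window of label length `δ` above the node `i` -/
theorem shell (h : Cl S M) {f : ℕ → ℝ} {K u2 N δ : ℝ} (p0 : ∀ k, 0 ≤ f k) (K1 : 1 ≤ K)
    (c1 : ∑ k ∈ (Icc S.J S.Jp).filter fun k => u2 ≤ du M k,
      dx M k * min (f k ^ 3) (f k ^ 4 / S.θ) ≤ N)
    {i : ℕ} (hi : S.J ≤ i) (hi' : i ≤ S.Jp) (δ0 : 0 ≤ δ) (δ1 : δ ≤ du M i)
    (hv : ∀ k, i ≤ k → k ≤ S.Jp → M.z (k - 1) - M.z (i - 1) ≤ δ → u2 ≤ du M k ∧ f i ≤ K * f k) :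
    δ * min (f i ^ 3) (f i ^ 4 / S.θ) ≤ K ^ 4 * N := by
  have i2 := h.i2
  have θ0 := h.θ0
  have dz : ∀ j, 0 ≤ dx M j := fun j => sub_nonneg.2 (h.leg.zm (Nat.sub_le j 1))
  set J := Nat.findGreatest (fun k => M.z (k - 1) - M.z (i - 1) ≤ δ) S.Jp with hK
  have k1 : i ≤ J := Nat.le_findGreatest hi' (by linarith)
  have k2 : J ≤ S.Jp := Nat.findGreatest_le _
  have k3 : M.z (J - 1) - M.z (i - 1) ≤ δ :=
    Nat.findGreatest_spec (P := fun k => M.z (k - 1) - M.z (i - 1) ≤ δ) hi' (by linarith)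
  have k4 : δ ≤ M.z J - M.z (i - 1) := by
    rcases k2.eq_or_lt with x | x
    · rw [x, h.top _ le_rfl]; exact δ1
    · exact (not_le.1 (Nat.findGreatest_is_greatest
        (P := fun k => M.z (k - 1) - M.z (i - 1) ≤ δ) (Nat.lt_succ_self J) x)).le
  have k5 : ∀ k ∈ Icc i J, u2 ≤ du M k ∧ f i ≤ K * f k := fun k hk =>
    hv k (mem_Icc.1 hk).1 ((mem_Icc.1 hk).2.trans k2)
      (by linarith [h.leg.zm (Nat.sub_le_sub_right (mem_Icc.1 hk).2 1)])
  have f0 : ∀ k, 0 ≤ min (f k ^ 3) (f k ^ 4 / S.θ) :=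
    fun k => le_min (pow_nonneg (p0 k) 3) (div_nonneg (pow_nonneg (p0 k) 4) θ0.le)
  have s1 := (sum_le_sum_of_subset_of_nonneg (s := Icc i J) (fun k hk =>
    mem_filter.2 ⟨Icc_subset_Icc hi k2 hk, (k5 k hk).1⟩)
    fun k _ _ => mul_nonneg (dz k) (f0 k)).trans c1
  have s2 : ∑ k ∈ Icc i J, dx M k = M.z J - M.z (i - 1) := At.tel_z M (by omega) (by omega)
  have s3 : ∑ k ∈ Icc i J, dx M k * min (f i ^ 3) (f i ^ 4 / S.θ) ≤
      K ^ 4 * ∑ k ∈ Icc i J, dx M k * min (f k ^ 3) (f k ^ 4 / S.θ) := by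
    rw [mul_sum]
    refine sum_le_sum fun k hk => ?_
    rw [mul_left_comm, mul_min_of_nonneg _ _ (by positivity : 0 ≤ K ^ 4)]
    have x := (k5 k hk).2
    refine mul_le_mul_of_nonneg_left (min_le_min ?_ ?_) (dz k)
    · refine (pow_le_pow_left₀ (p0 i) x 3).trans ?_
      rw [mul_pow]
      exact mul_le_mul_of_nonneg_right (pow_le_pow_right₀ K1 (by norm_num))
        (pow_nonneg (p0 k) 3)
    · rw [← mul_div_assoc, ← mul_pow]
      exact div_le_div_of_nonneg_right (pow_le_pow_left₀ (p0 i) x 4) θ0.le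
  rw [← sum_mul, s2] at s3
  linarith [mul_le_mul_of_nonneg_left s1 (by positivity : 0 ≤ K ^ 4),
    mul_le_mul_of_nonneg_right k4 (f0 i)]

/-- the mesh of the labels on a shell -/
theorem mesh_pl (h : Cl S M) (u0 : 0 < S.u0) (hv : 16 * S.C ^ 2 * (S.n * S.v) ≤ 1) {j : ℕ}
    (h0 : S.J ≤ j) (h1 : j < S.Jp) (hn : 1 ≤ S.n * lsh M S j) : 16 * dx M j ≤ ds M S j := by
  have D0 := SzT98.ds_pos h u0 h0 h1
  have s := (SzT98.sh_of h u0 h0 h1 h0 h1 (by rw [sub_self, abs_zero]; linarith)).dz2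
  have n0 : (0 : ℝ) < S.n := h.N0
  refine le_of_mul_le_mul_left ?_ (mul_pos n0 (h.den0 (M.z (j - 1))))
  have := mul_le_mul_of_nonneg_left s n0.le
  unfold lsh at hn
  unfold dx
  linarith

/-- `Γ''` at a node of the plateau -/
theorem gd_pl (T0 C0 : ℝ) : ∃ K : ℝ, 1 ≤ K ∧ ∀ {S : Sc} {M : Md} {m : ℕ} {a T : ℝ},
    At S M m a T → T ≤ T0 → S.C ≤ C0 → ∀ {l0 X Xp Vt u1 γ j t κ L : ℝ}, RH S M m a Xp γ →
    S.C * S.θ ≤ 1 / 2 → S.v ≤ S.θ → M.s S.jl ≤ l0 → l0 ≤ 1 → 0 < X → X ≤ 1 →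
    Ap S M m a l0 X Xp Vt u1 j → j ≤ t → γ ≤ t → Xp ^ ((1 : ℝ) / 3) ≤ t → 1 ≤ L → 1 ≤ L * κ →
    ∀ i, S.J ≤ i → i ≤ S.Jp → κ ≤ du M i →
      gd S M m a T i ≤ K * L * (S.θ + t + (M.z i - M.z (S.J - 1)) + |M.G i|) := by
  obtain ⟨K, k1, hK⟩ := Pr.Cv25.Gd_two T0
  refine ⟨K * (300 * (1 + |T0|) + 100) * (1 + |C0|) ^ 6, ?_, fun {S M m a T} A hT hC l0 X Xp Vt u1 γ j t
    κ L R hθ hv l1 l2 X0 X1 P j1 g1 x1 L1 κ1 i i1 i2 i3 => ?_⟩
  · exact one_le_mul_of_one_le_of_one_le (one_le_mul_of_one_le_of_one_le k1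
      (by linarith [abs_nonneg T0])) (one_le_pow₀ (by linarith [abs_nonneg C0]))
  have h := A.cl
  have C0' := h.C0
  have C1 := h.C1
  have v0 := h.v0
  have θ0 := h.θ0
  have j2 := h.i2
  have γ0 := R.γ_nn
  have t0 := γ0.trans g1
  have κ0 : 0 < κ := by by_contra c; nlinarith
  have p0 : 0 < Xp ^ ((1 : ℝ) / 3) := rpow_pos_of_pos R.X0 _
  have p3 : (Xp ^ ((1 : ℝ) / 3)) ^ 3 = Xp := by
    rw [← rpow_natCast, ← rpow_mul R.X0.le]; norm_num
  have c4 : 1 ≤ S.C ^ 4 := one_le_pow₀ C1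
  have p1 : Xp ^ ((1 : ℝ) / 3) ≤ 1 := by linarith [R.X1, mul_le_mul_of_nonneg_right c4 p0.le]
  obtain ⟨s1, s2⟩ := A.s_pred
  have e := A.okh.2
  have m1 : M.s (S.J - 1) ∈ Set.Icc 0 (TT (lh M T)) := by
    rw [e]; exact ⟨h.s_nn _, by linarith [h.sm h.i3, A.t2]⟩
  have hp := T5.hp_le A (Z := S.θ + 2 * t) hθ l1 l2 X0 X1 R.γ0 P.all P.j0 (by linarith)
    (by linarith) (by linarith [Gd65.inv_le A]) (A.sb_mem i2)
  have x1' := (hK _ _ A.okb.1 A.okh.1 (A.okb.2.trans e.symm) (e.trans_le hT) (sb M m a (i + 1))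
    (by rw [e]; exact A.sb_mem i2) _ m1 _ hp).1
  rw [A.zh_pred, A.lvb_node (by omega) i2] at x1'
  obtain ⟨a0, a1⟩ := (Pr.Reg48.ode A.okh.1).2.2.2 _ m1
  have zz : 0 ≤ M.z i - M.z (S.J - 1) := sub_nonneg.2 (h.leg.zm (by omega))
  have a2 := mul_le_mul_of_nonneg_right a1 zz
  have a3 := mul_nonneg a0 zz
  have q := A.gd_h (h.s_nn _) s1
  have st := Gd65.s_top h (k := S.J - 1) (by have := h.i0; have := h.i1; omega) (by omega)
  have sp : 0 < M.s (S.J - 1) := (mul_pos_iff_of_pos_left (by positivity)).1 (one_pos.trans_le st)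
  have r : S.ms (M.s (S.J - 1)) / max (M.s (S.J - 1)) (M.s S.j0) ≤ 24 * S.C ^ 5 * S.θ := by
    refine (div_le_div₀ θ0.le (h.ms1 _) sp (le_max_left _ _)).trans ?_
    rw [div_le_iff₀ sp]
    linarith [mul_le_mul_of_nonneg_right st θ0.le]
  have r' := mul_le_mul_of_nonneg_left r C0'.le
  have sJ := Ab33.sJ_ge h
  have sJ0 := h.s_nn S.J
  have d1 := SzT98.del_r h A.m_pos hθ R.top R.γ0 (k := i) (r := max (Xp ^ ((1 : ℝ) / 3)) S.v)
    (by linarith [h.sm i1]) i2 (p3.symm.trans_le (pow_le_pow_left₀ p0.le (le_max_left _ _) 3))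
    (le_max_right _ _) (le_of_mul_le_mul_left (by
      rcases max_choice (Xp ^ ((1 : ℝ) / 3)) S.v with c | c <;> rw [c] <;>
        linarith [R.X1, R.v1]) (show 0 < 3 * S.C ^ 3 by positivity)) (by linarith [R.jl])
  have d2 := SzT98.del_up h A.m_pos hθ R.top R.γ0 i1 i2 (κ0.trans_le i3)
  have d3 : √(Xp / du M i) ≤ L * t := sqrt_le_iff.2 ⟨by positivity, by
    rw [div_le_iff₀ (κ0.trans_le i3)]
    have b1 : Xp ≤ t ^ 2 := p3.symm.trans_le ((pow_le_pow_of_le_one p0.le p1 (by norm_num)).trans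
      (pow_le_pow_left₀ p0.le x1 2))
    have b2 : 1 ≤ L * (L * du M i) := one_le_mul_of_one_le_of_one_le L1
      (κ1.trans (mul_le_mul_of_nonneg_left i3 (by linarith)))
    linarith [mul_le_mul_of_nonneg_left b2 (sq_nonneg t)]⟩
  have d4 : max (Xp ^ ((1 : ℝ) / 3)) S.v ≤ S.θ + t := max_le (by linarith) (by linarith)
  set Y := L * (S.θ + t + (M.z i - M.z (S.J - 1)) + |M.G i|) with hY
  have G0 := abs_nonneg (M.G i)
  have y1 : S.θ + t + (M.z i - M.z (S.J - 1)) + |M.G i| ≤ Y :=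
    le_mul_of_one_le_left (by positivity) L1
  have y2 : L * t ≤ Y := mul_le_mul_of_nonneg_left (by linarith) (by linarith)
  have y0 : 0 ≤ Y := by positivity
  set c := (1 + |C0|) ^ 6 with hc
  have cc : ∀ n, n ≤ 6 → S.C ^ n * Y ≤ c * Y := fun n hn => mul_le_mul_of_nonneg_right
    ((pow_le_pow_right₀ C1 hn).trans (pow_le_pow_left₀ C0'.le
      (by linarith [le_abs_self C0]) 6)) y0
  have e0 := cc 0 (by norm_num)
  have e1 := cc 1 (by norm_num)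
  have e2 := cc 2 (by norm_num)
  have e4 := cc 4 (by norm_num)
  have e6 := cc 6 le_rfl
  have d5 : |M.del m a i| ≤ 8 * S.C * Y := by
    have b1 := mul_le_mul_of_nonneg_left (d4.trans (show S.θ + t ≤ Y by linarith)) C0'.le
    have b2 := mul_le_mul_of_nonneg_right C1 y0
    exact abs_le.2 ⟨by linarith, by linarith⟩
  have u := A.sub_le (A.jp_le i2)
  have u1' : S.C / (m + 1) ≤ S.C * Y := by
    rw [div_eq_mul_one_div]
    exact mul_le_mul_of_nonneg_left (by linarith [Gd65.inv_le A]) C0'.le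
  have u2 := mul_le_mul_of_nonneg_left d5 C0'.le
  have u3 := mul_le_mul_of_nonneg_left (show S.v ≤ Y by linarith) C0'.le
  have u4' : |sb M m a (i + 1) - M.s (S.J - 1)| ≤ 20 * (c * Y) := by
    obtain ⟨b1, b2⟩ := abs_le.1 u
    exact abs_le.2 ⟨by linarith [h.sm i1], by linarith [h.sm i2, R.γ0]⟩
  have u5 : (1 + T) * (100 * S.C ^ 4 * (S.θ + 2 * t)) ≤ (1 + |T0|) * (200 * (c * Y)) := by
    refine mul_le_mul (by linarith [le_abs_self T0]) ?_ (by positivity) (by positivity)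
    linarith [mul_le_mul_of_nonneg_left (show S.θ + 2 * t ≤ 2 * Y by linarith)
      (show 0 ≤ S.C ^ 4 by positivity)]
  have u6 := mul_le_mul_of_nonneg_left (add_le_add u5 u4') (zero_le_one.trans k1)
  have u7 := mul_le_mul_of_nonneg_left (show S.θ ≤ Y by linarith) (show 0 ≤ S.C ^ 6 by positivity)
  have cY : 0 ≤ c * Y := by positivity
  have u8 := mul_le_mul_of_nonneg_right k1 cY
  have u9 : 0 ≤ K * |T0| * (c * Y) := by positivity
  change |L0.Gd (lb M S m a T) (sb M m a (i + 1)) - L0.Gd (lh M T) (M.s (S.J - 1)) + _| ≤ _ at x1'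
  obtain ⟨b1, b2⟩ := abs_le.1 x1'
  obtain ⟨b3, b4⟩ := abs_le.1 q
  rw [mul_assoc _ L, ← hY]
  exact abs_le.2 ⟨by linarith, by linarith⟩

/-- the numbers of the net below the node `w`; `K` is the loss -/
structure NT (W : ℝ) (S : Sc) (M : Md) (m : ℕ) (a T Xp γ V Lg N2 x u u2 N K κ t y : ℝ) (w : ℕ) :
    Prop where
  K1 : 64 * S.C ≤ K ∧ 6 * S.C * W ^ 4 ≤ K ∧ T ≤ K
  X0 : 0 < Xp
  c1 : ∑ k ∈ (Icc S.J S.Jp).filter fun k => u2 ≤ du M k,
    dx M k * min ((Lg ^ 2 * ap M S Xp V γ k) ^ 3) ((Lg ^ 2 * ap M S Xp V γ k) ^ 4 / S.θ) ≤ N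
  c2 : GP M S + (S.θ * γ) ^ 2 ≤ N * S.θ
  x1 : Sm S.θ 1 N 1 x
  N1 : N2 ≤ 1
  y0 : S.u0 ≤ y ∧ N ≤ S.θ * y ^ 3
  w1 : w ≤ S.Jp
  κ0 : 1 ≤ K * κ ∧ κ ≤ du M w ∧ 2 * u2 ≤ κ ∧ u ≤ κ ∧ S.ue ≤ u2
  me : ∀ j, S.J ≤ j → j < w → 16 * dx M j ≤ ds M S j
  gd : ∀ i, S.J ≤ i → i < w →
    gd S M m a T i ≤ K * (S.θ + t + (M.z i - M.z (S.J - 1)) + |M.G i|)
  t0 : 0 ≤ t ∧ S.θ * t ^ 9 ≤ N

/-- **`TM.net`** -/
theorem PV.net {W Lp Lg G ev N2 g x u u2 N K κ t y : ℝ} {vc v0 w : ℕ}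
    (H : PV W S M m a T Xp γ V Lp Lg G ev N2 g x u vc v0)
    (Q : NT W S M m a T Xp γ V Lg N2 x u u2 N K κ t y w) :
    ∀ k, k < w → y < M.z k - M.z (S.J - 1) → ∃ i K1 K2, S.J ≤ i ∧ i ≤ k ∧
      M.z k - M.z (S.J - 1) ≤ 4 * (M.z i - M.z (S.J - 1)) ∧ 0 ≤ K1 ∧ 0 ≤ K2 ∧
      res M S m a T i - res M S m a T v0 ≤ K * x + K1 + K2 ∧
      (M.z k - M.z (S.J - 1)) * K1 ^ 2 ≤ S.θ * (K ^ 28 * N) ∧
      (M.z k - M.z (S.J - 1)) * K2 ^ 3 ≤ (K ^ 28 * N) ^ 2 := by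
  intro k kw hy
  have R := H.rn
  have A := R.A
  have h := A.cl
  have C1 := h.C1
  have C0 := h.C0
  have θ0 := h.θ0
  have θ1 := R.θ1
  have i2 := h.i2
  have zm := h.leg.zm
  have w1 := Q.w1
  obtain ⟨K1, K2, K3⟩ := Q.K1
  obtain ⟨κ1, κ2, κ3, κ4, κ5⟩ := Q.κ0
  have K64 : 64 ≤ K := by linarith
  have K0 : 0 < K := by linarith
  have k1 : 1 ≤ K := by linarith
  have κ0 : 0 < κ := by by_contra c; nlinarith
  have G0 := GP_nn h
  have γ0 : 0 ≤ γ := (sub_nonneg.2 (h.sm h.i3)).trans R.γ0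
  have N0 : 0 ≤ N := le_of_mul_le_mul_right (by linarith [Q.c2, sq_nonneg (S.θ * γ)]) θ0
  set ρ := M.z k - M.z (S.J - 1) with hρ
  have u0 := R.u0
  have uρ : S.u0 < ρ := Q.y0.1.trans_lt hy
  have ρ0 : 0 < ρ := u0.trans uρ
  have ρ1 : ρ ≤ 1 := by linarith [h.leg.z1 k, h.z_pos (S.J - 1)]
  have hN : N ≤ S.θ * ρ ^ 3 := Q.y0.2.trans (mul_le_mul_of_nonneg_left
    (pow_le_pow_left₀ (u0.le.trans Q.y0.1) hy.le 3) θ0.le)
  have ex : ∃ n, ρ / 2 ≤ M.z (n - 1) - M.z (S.J - 1) := ⟨k + 1, by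
    rw [Nat.add_sub_cancel]; linarith⟩
  have n1 := Nat.find_spec ex
  have n2 : Nat.find ex ≤ k + 1 := Nat.find_min' ex (by rw [Nat.add_sub_cancel]; linarith)
  have n3 : S.J < Nat.find ex := by
    by_contra c
    linarith [zm (show Nat.find ex - 1 ≤ S.J - 1 by omega)]
  have n4 := not_le.1 (Nat.find_min ex (show Nat.find ex - 1 < Nat.find ex by omega))
  set n := Nat.find ex
  have dw : ∀ j, j ≤ w → κ ≤ du M j := fun j hj =>
    κ2.trans (sub_le_sub_left (zm (by omega)) 1)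
  have n5 := (Q.me (n - 1) (by omega) (by omega)).trans (min_le_left _ _)
  obtain ⟨i, i1, i3, -, i4, P⟩ := H.ex n n3.le (by omega) (κ4.trans (dw n (by omega)))
  have n6 : ds M S n ≤ dl M S n := min_le_left _ _
  unfold dx L69.dl at n5
  unfold L69.dl at n6
  have ik : i < k := by
    by_contra c
    linarith [zm (not_lt.1 c)]
  have z1 := zm (show n - 1 ≤ i - 1 by omega)
  have z2 := zm (Nat.sub_le i 1)
  have z3 := zm ik.le
  have di := dw i (by omega)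
  have d0 := κ0.trans_le di
  have D0 := SzT98.ds_pos h u0 P.lo P.hi
  have D1 : ds M S i ≤ dl M S i := min_le_left _ _
  have D2 : ds M S i ≤ du M i := min_le_right _ _
  have D3 : ρ ≤ 2 * K * ds M S i := by
    rcases min_choice (dl M S i) (du M i) with c | c <;> rw [ds, c]
    · unfold L69.dl
      nlinarith
    · linarith [mul_le_mul_of_nonneg_left di K0.le]
  unfold L69.dl at D1
  have L1 := R.Lg1
  have sh := shell h (f := fun k => Lg ^ 2 * ap M S Xp V γ k) (K := 8 * S.C) (δ := ds M S i / 8)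
    (fun k => mul_nonneg (sq_nonneg _) (ap_nn h k)) (by linarith) Q.c1 P.lo P.hi.le (by positivity)
    (by linarith) fun j j1 j2 j3 => by
      have b0 := zm (show i - 1 ≤ j - 1 by omega)
      have b1 : 7 / 8 * du M i ≤ du M j := by unfold du at *; linarith
      have b2 : j < S.Jp := j2.lt_of_ne fun e => by
        have := h.last
        rw [e] at b1
        unfold du at *
        linarith
      have b3 : 7 / 8 * ds M S i ≤ ds M S j := le_min (by unfold L69.dl; linarith) (by linarith)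
      refine ⟨by linarith, ?_⟩
      rw [mul_left_comm]
      exact mul_le_mul_of_nonneg_left (G5.ap_le h Q.X0 (SzT98.sh_of h u0 (by omega) b2 P.lo P.hi
        (abs_le.2 ⟨by linarith, by linarith⟩)) (by linarith) R.V0 γ0) (sq_nonneg _)
  have a1 := R.rs P (H.vt i P.lo P.hi.le (by linarith))
  set U := Lg ^ 2 * ap M S Xp V γ i
  have U0 : 0 ≤ U := mul_nonneg (sq_nonneg _) (ap_nn h i)
  have pw : ∀ i j : ℕ, i < j → 64 * K ^ i ≤ K ^ j := fun i j e =>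
    (mul_le_mul_of_nonneg_right K64 (by positivity)).trans
      (by rw [← pow_succ']; exact pow_le_pow_right₀ k1 e)
  have f0 : 0 ≤ min (U ^ 3) (U ^ 4 / S.θ) := by positivity
  have hU : ρ * min (U ^ 3) (U ^ 4 / S.θ) ≤ K ^ 5 * N := by
    have b1 := mul_le_mul_of_nonneg_right D3 f0
    have b2 := mul_le_mul_of_nonneg_left sh K0.le
    have b3 := mul_le_mul_of_nonneg_right (mul_le_mul_of_nonneg_left (pow_le_pow_left₀
      (by positivity) K1 4) K0.le) N0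
    have b4 : 0 ≤ K * S.C ^ 4 * N := by positivity
    linarith
  have r3 : S.θ * ρ ^ 3 ≤ ρ ^ 3 := mul_le_of_le_one_left (by positivity) θ1
  have r2 : ρ ^ 3 ≤ ρ ^ 2 := pow_le_pow_of_le_one ρ0.le ρ1 (by norm_num)
  have θN : N * S.θ ≤ ρ ^ 3 := (mul_le_of_le_one_right N0 θ1).trans (hN.trans r3)
  have g1 : GP M S / du M i ≤ K * (N * S.θ) := by
    rw [div_le_iff₀ d0]
    linarith [Q.c2, sq_nonneg (S.θ * γ), mul_le_mul_of_nonneg_left (κ1.trans
      (mul_le_mul_of_nonneg_left di K0.le)) (mul_nonneg N0 θ0.le)]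
  have g2 : √(GP M S / du M i) ≤ K * ρ := sqrt_le_iff.2 ⟨by positivity, g1.trans (by
    rw [mul_pow]
    exact mul_le_mul (le_self_pow₀ k1 two_ne_zero) (θN.trans r2) (by positivity) (by positivity))⟩
  have g3 : (S.C * S.θ * γ + √(GP M S)) ^ 2 ≤ 2 * S.C ^ 2 * ρ ^ 3 := by
    have b1 := mul_le_mul_of_nonneg_right (one_le_pow₀ (n := 2) C1) G0
    have b2 := mul_le_mul_of_nonneg_left (Q.c2.trans θN) (sq_nonneg S.C)
    linarith [sq_nonneg (S.C * S.θ * γ - √(GP M S)), sq_sqrt G0]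
  have g4 : S.C * S.θ * γ ≤ 2 * S.C * ρ := (le_add_of_nonneg_right (sqrt_nonneg _)).trans
    (abs_le_of_sq_le_sq' (g3.trans (by
      linarith [mul_le_mul_of_nonneg_left r2 (sq_nonneg S.C), sq_nonneg (S.C * ρ)]))
      (by positivity)).2
  have g5 : df36 S M T i ≤ 2 * S.C * ρ := by
    by_contra c
    have c1 := (not_le.1 c).le
    have b0 : 0 ≤ M.z i - M.z (S.J - 1) := by linarith
    have b1 := pow_le_pow_left₀ (mul_nonneg (le_trans (by positivity) c1) (sqrt_nonneg _))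
      (A.df_plat R.γ0 P.lo P.hi.le (GP := GP M S) le_rfl) 2
    rw [mul_pow, sq_sqrt b0] at b1
    have b2 := mul_lt_mul_of_lt_of_le_of_nonneg_of_pos (pow_lt_pow_left₀ (not_le.1 c)
      (by positivity) two_ne_zero) (show ρ / 2 ≤ M.z i - M.z (S.J - 1) by linarith)
      (by positivity) (by linarith)
    linarith
  have g6 : |M.G i| ≤ 3 * K * ρ := by
    have b1 := G_up A R.γ0 P.lo P.hi.le d0
    have b2 := (A.deficit (k := i) (by omega) P.hi.le).1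
    have b3 := mul_le_mul_of_nonneg_right K1 ρ0.le
    have b4 := mul_pos C0 ρ0
    unfold df36 at g5
    exact abs_le.2 ⟨by linarith, by linarith⟩
  have T0 : 0 ≤ T := (h.s_nn _).trans A.t2
  have t0 := Q.t0.1
  have t3 : t ^ 3 ≤ ρ := le_of_pow_le_pow_left₀ three_ne_zero ρ0.le (le_of_mul_le_mul_left
    (by linarith [Q.t0.2]) θ0)
  have p1 := pw 1 2 (by norm_num)
  have p2 := pw 2 5 (by norm_num)
  have kk : 64 * 64 ≤ K ^ 2 := by linarith
  obtain ⟨K1', K2', q1, q2, q3, q4, q5⟩ := net_num (D := gd S M m a T i + ds M S i) (t := t + ρ)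
    (K := K ^ 5) θ0 θ1 ρ0 ρ1 N0 hN (by linarith) U0 H.g0 H.g2 Q.x1 hU
    (by linarith [Tq5.abs_Gd A P.hi.le]) (by
      have b1 := (Q.gd i P.lo (by omega)).trans (mul_le_mul_of_nonneg_left
        (show _ ≤ S.θ + t + ρ + 3 * K * ρ by linarith) K0.le)
      have b2 := mul_le_mul_of_nonneg_right p1 ρ0.le
      have b3 := mul_le_mul_of_nonneg_right p2 ρ0.le
      have b4 := mul_le_mul_of_nonneg_right (show K ≤ K ^ 5 by linarith)
        (show 0 ≤ S.θ + t by positivity)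
      have b5 := mul_le_mul_of_nonneg_right k1 ρ0.le
      linarith) (by positivity) (by
      have b1 := cube_add t0 ρ0.le
      have b2 := mul_le_mul_of_nonneg_right (show 8 ≤ K ^ 5 by linarith) ρ0.le
      linarith [pow_le_of_le_one ρ0.le ρ1 three_ne_zero])
  have c1 : 1 ≤ 2 * S.C * W ^ 4 := by
    linarith [mul_le_mul C1 (one_le_pow₀ (n := 4) R.W1) zero_le_one C0.le]
  have c2 : 2 * S.C * W ^ 4 ≤ K := by linarith
  have x0 := H.x0
  have N20 := R.G0.2.1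
  have s0 : 0 ≤ N2 * √(GP M S / du M i) := by positivity
  have s1 : ρ * (N2 * √(GP M S / du M i)) ^ 2 ≤ K * (N * S.θ) := by
    rw [mul_pow, sq_sqrt (by positivity)]
    exact (mul_le_of_le_one_left (by positivity) ρ1).trans ((mul_le_of_le_one_left (by positivity)
      (pow_le_one₀ N20 Q.N1)).trans g1)
  have hx := mul_le_mul_of_nonneg_right K2 x0
  set c := 2 * S.C * W ^ 4 with hc
  have c0 : 0 ≤ c := by linarith
  have θN0 : 0 ≤ S.θ * N := by positivity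
  refine ⟨i, c * (K1' + N2 * √(GP M S / du M i)), c * K2', P.lo, ik.le, by linarith,
    by positivity, by positivity, ?_, ?_, ?_⟩
  · have b1 := mul_le_mul_of_nonneg_left q3 c0
    have b2 := mul_le_mul_of_nonneg_right c1 x0
    unfold el at a1
    linarith [(abs_le.1 a1).2, (abs_le.1 H.r0).2]
  · set s := N2 * √(GP M S / du M i)
    have b1 : ρ * (K1' + s) ^ 2 ≤ K ^ 26 * (S.θ * N) := by
      have e1 := mul_le_mul_of_nonneg_right (pw 25 26 (by norm_num)) θN0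
      have e2 := mul_le_mul_of_nonneg_right (le_self_pow₀ k1 (show 25 ≠ 0 by norm_num)) θN0
      have e3 : 0 ≤ K ^ 25 * (S.θ * N) := by positivity
      linarith [mul_nonneg ρ0.le (sq_nonneg (K1' - s))]
    have b2 := mul_le_mul (pow_le_pow_left₀ c0 c2 2) b1 (by positivity) (by positivity)
    linarith
  · have b2 := mul_le_mul (pow_le_pow_left₀ c0 c2 3) q5 (by positivity) (by positivity)
    have b3 := mul_le_mul_of_nonneg_right (pow_le_pow_right₀ k1 (show 53 ≤ 56 by norm_num))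
      (sq_nonneg N)
    linarith

end Crest.Agent.T156.Alt.Nd33

end
end

-- ▼ part T156/PgH_33
section

/-!
# Row 156, block (L): the net of the middle zone from the hypotheses of (TxS) (helper33)
-/

set_option autoImplicit false

noncomputable section

namespace Crest.Agent.T156.Alt.L31

open Real Finset
open Crest.Agent.T156.Alt.L69 Crest.Agent.T156.Alt.Mp9 Crest.Agent.T156.Alt.Nd33
open Crest.Agent.T156.Pr.Reg48 (Sm)

variable {D E Λ L W3 lam : ℝ} {S : Sc} {M : Md} {m : ℕ} {a : ℝ} {p : Pa}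

theorem Cw.nv (Z : Cw D E Λ L W3 lam S M m a p) : 48 * S.C ^ 4 * (S.n * S.v) ≤ 1 := by
  have h := Z.Z.A.cl
  have n0 : (0 : ℝ) < S.n := h.N0
  have a1 : 48 * S.C ^ 3 ≤ S.n := by
    linarith [Z.Z.CD, Z.Z.D_E, Z.Z.En, pow_le_pow_right₀ h.C1 (show 3 ≤ 10 by norm_num),
      pow_pos h.C0 10]
  linarith [Z.Z.hv, mul_le_mul_of_nonneg_right a1 (mul_pos h.C0 (mul_pos n0 h.v0)).le]

theorem Cw.big (Z : Cw D E Λ L W3 lam S M m a p) : (48 * S.C ^ 4) ^ 3 ≤ E := by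
  have h := Z.Z.A.cl
  have D4 := Z.Z.D4
  refine le_trans (pow_le_pow_left₀ (by have := h.C0; positivity) (show _ ≤ D from ?_) 3)
    ((pow_le_pow_right₀ (by linarith) (by norm_num)).trans Z.DE)
  linarith [Z.Z.CD, pow_le_pow_right₀ h.C1 (show 4 ≤ 10 by norm_num), pow_pos h.C0 10]

theorem Cw.rh (Z : Cw D E Λ L W3 lam S M m a p) (H : Hx E lam S M m a p) :
    RH S M m a p.Xp p.γ := by
  have h := Z.Z.A.cl
  have C0 := h.C0
  have C1 := h.C1
  have X0 := H.lp.Xp0.1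
  have e1 := Z.big
  have n1 : (1 : ℝ) ≤ S.n := by exact_mod_cast h.n1
  refine ⟨h, Z.Z.A.m_pos, H.lp.u0, X0, ?_, ?_, ?_, H.ap.top, H.lp.γ0⟩
  · refine le_of_pow_le_pow_left₀ three_ne_zero zero_le_one ?_
    rw [mul_pow, ← rpow_natCast (p.Xp ^ _), ← rpow_mul X0.le]
    norm_num
    linarith [H.lp.Xp0.2, mul_le_mul_of_nonneg_right e1 X0.le]
  · linarith [Z.nv, mul_le_mul_of_nonneg_right n1 (mul_pos (pow_pos C0 4) h.v0).le]
  · have a1 := mul_le_mul_of_nonneg_right e1 (h.s_nn S.jl)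
    have a2 := Ab33.sJ_ge h
    have a3 : 48 * S.C ^ 3 ≤ (48 * S.C ^ 4) ^ 3 := le_trans
      (by linarith [pow_le_pow_right₀ C1 (show 3 ≤ 4 by norm_num)])
      (le_self_pow₀ (by linarith [one_le_pow₀ (n := 4) C1]) (by norm_num))
    have a4 := mul_le_mul_of_nonneg_right a3 (h.s_nn S.jl)
    refine lt_of_mul_lt_mul_left ?_ (show 0 ≤ 3 * S.C ^ 3 by positivity)
    linarith [Z.far.jl]

/-- **`TM.net`** -/
theorem netH (C : ℝ) : ∃ K0 : ℝ, 1 ≤ K0 ∧ ∀ {D E Λ L W3 lam : ℝ} {S : Sc} {M : Md} {m : ℕ} {a : ℝ}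
    {p : Pa}, S.C = C → Hx E lam S M m a p → Cw D E Λ L W3 lam S M m a p → K0 ≤ D →
    ∀ {W G ev N2 g x u N y : ℝ} {vc v0 w : ℕ},
    PV W S M m a (2 * S.C) p.Xp p.γ p.V2 p.Lp p.Lg G ev N2 g x u vc v0 → W ≤ D → N2 ≤ 1 →
    u ≤ 8 * p.u2 → p.N ≤ N → Sm S.θ 1 N 1 x → w ≤ S.Jp → 1 ≤ D ^ 6 * du M w → N ≤ S.θ * y ^ 3 →
    ∀ k, k < w → y < M.z k - M.z (S.J - 1) → ∃ i K1 K2, S.J ≤ i ∧ i ≤ k ∧
      M.z k - M.z (S.J - 1) ≤ 4 * (M.z i - M.z (S.J - 1)) ∧ 0 ≤ K1 ∧ 0 ≤ K2 ∧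
      res M S m a (2 * S.C) i - res M S m a (2 * S.C) v0 ≤ D ^ 7 * x + K1 + K2 ∧
      (M.z k - M.z (S.J - 1)) * K1 ^ 2 ≤ S.θ * (D ^ 196 * N) ∧
      (M.z k - M.z (S.J - 1)) * K2 ^ 3 ≤ (D ^ 196 * N) ^ 2 := by
  obtain ⟨K, K1, hK⟩ := gd_pl (2 * C) C
  refine ⟨K, K1, fun {D E Λ L W3 lam S M m a p} hC H Z hD W G ev N2 g x u N y vc v0 w P W1 N1 hu hN
    hx w1 w2 hy => ?_⟩
  subst hC
  have A := Z.Z.A
  have h := A.cl
  have C0 := h.C0
  have C1 := h.C1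
  have θ0 := h.θ0
  have D4 := Z.Z.D4
  have D1 : 1 ≤ D := by linarith
  have E1 := Z.Z.E1
  have lp := H.lp
  have lc := H.lc
  have c1 : 64 * S.C ≤ D := by
    linarith [Z.Z.CD, le_self_pow₀ C1 (show 10 ≠ 0 by norm_num), pow_pos C0 10]
  have d6 : 0 < D ^ 6 := by positivity
  have d7 : D ≤ D ^ 7 := le_self_pow₀ D1 (by norm_num)
  have d8 : 8 * D ^ 6 ≤ E := le_trans (by
    linarith [mul_le_mul_of_nonneg_right (show 8 ≤ D by linarith) d6.le])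
    ((pow_le_pow_right₀ D1 (show 7 ≤ 500 by norm_num)).trans Z.DE)
  have η0 : 0 ≤ p.η 1 + p.X2 := add_nonneg
    (Z.Z.eta_pos (by nlinarith [H.ln.l1, Z.Z.lp]) C1).le Z.Z.X20
  have tk := A.tk_of lp lc η0 c1 E1
  have u0 := tk.u0.1
  have κ1 : 8 * p.u2 ≤ 1 / D ^ 6 := by
    rw [le_div_iff₀ d6]
    linarith [mul_le_mul_of_nonneg_right d8 u0, tk.u0.2.1]
  have κ2 : 1 / D ^ 6 ≤ du M w := by rw [div_le_iff₀ d6]; linarith
  have dw : ∀ j, j < w → 1 / D ^ 6 ≤ du M j := fun j hj =>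
    κ2.trans (sub_le_sub_left (h.leg.zm (by omega)) 1)
  have X0 := lp.Xp0.1
  have j0 := Z.j0
  have γ0 := Z.γ0
  have p0 : 0 < p.Xp ^ ((1 : ℝ) / 3) := rpow_pos_of_pos X0 _
  have c9 : S.θ * (p.j ^ 9 + p.Xp ^ 3) ≤ N := by
    have := w3_nn h
    linarith [lc.c9, show 0 ≤ (S.w3 1 * p.Xp) ^ ((3 : ℝ) / 4) by positivity]
  have τ0 : 0 ≤ p.τ ^ 3 := (w3_nn h).trans lp.tw
  have y1 : S.u0 ^ 3 ≤ y ^ 3 := le_of_mul_le_mul_left (by
    linarith [lc.c3, mul_nonneg θ0.le τ0]) θ0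
  have e : (D ^ 7) ^ 28 = D ^ 196 := by rw [← pow_mul]
  rw [← e]
  refine P.net (u2 := p.u2) (κ := 1 / D ^ 6) (t := max p.j (max p.γ (p.Xp ^ ((1 : ℝ) / 3))))
    ⟨⟨by linarith, ?_, by linarith⟩, X0, lc.c1.trans hN,
      tk.c2.trans (mul_le_mul_of_nonneg_right hN θ0.le), hx, N1,
      ⟨(Odd.pow_le_pow (show Odd 3 by decide)).1 y1, hy⟩, w1,
      ⟨?_, κ2, by linarith, by linarith, lp.u1a.trans lp.u1b.1⟩, fun j j1 j2 => ?_,
      fun i i1 i2 => ?_, j0.trans (le_max_left _ _), ?_⟩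
  · have b1 := mul_le_mul (show 6 * S.C ≤ D by linarith)
      (pow_le_pow_left₀ (by linarith [P.rn.W1]) W1 4) (by have := P.rn.W1; positivity) (by linarith)
    linarith [pow_le_pow_right₀ D1 (show 5 ≤ 7 by norm_num)]
  · rw [mul_one_div, le_div_iff₀ d6]
    linarith [pow_le_pow_right₀ D1 (show 6 ≤ 7 by norm_num)]
  · refine mesh_pl h lp.u0 ?_ j1 (by omega)
      (H.ap.jn.fine j j1 (by omega) (by linarith [dw j j2, lp.u1b.1]))
    have n0 : (0 : ℝ) < S.n := h.N0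
    linarith [Z.nv, mul_le_mul_of_nonneg_right (pow_le_pow_right₀ C1 (show 2 ≤ 4 by norm_num))
      (mul_pos n0 h.v0).le, mul_pos (pow_pos C0 4) (mul_pos n0 h.v0)]
  · have l1 : p.l0 ≤ 1 := H.ln.l0l.trans (by nlinarith [H.ln.l1, Z.Z.lp])
    have zz : 0 ≤ M.z i - M.z (S.J - 1) := sub_nonneg.2 (h.leg.zm (by omega))
    refine (hK A le_rfl le_rfl (Z.rh H) Z.Z.hθ Z.vθ (by nlinarith [H.ln.l0s, h.s_nn S.jl]) l1 H.ln.X0
      (by nlinarith [H.ln.X1, H.ln.X0]) H.ap (le_max_left _ _)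
      ((le_max_left _ _).trans (le_max_right _ _)) ((le_max_right _ _).trans (le_max_right _ _))
      (one_le_pow₀ D1) (by rw [mul_one_div_cancel d6.ne']) i i1 (by omega) (dw i i2)).trans
      (mul_le_mul_of_nonneg_right ?_ (by positivity))
    linarith [mul_le_mul_of_nonneg_right hD d6.le]
  · have b1 := mul_nonneg θ0.le (pow_nonneg j0 9)
    have b2 := mul_nonneg θ0.le (pow_nonneg X0.le 3)
    rcases max_choice p.j (max p.γ (p.Xp ^ ((1 : ℝ) / 3))) with c | c <;> rw [c]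
    · linarith
    rcases max_choice p.γ (p.Xp ^ ((1 : ℝ) / 3)) with c | c <;> rw [c]
    · exact (mul_le_of_le_one_left (by positivity) Z.θ1).trans ((pow_le_pow_of_le_one γ0
        (by nlinarith [lp.γ1]) (by norm_num)).trans (tk.γ2.trans hN))
    · rw [← rpow_natCast, ← rpow_mul X0.le]
      norm_num
      linarith

end Crest.Agent.T156.Alt.L31

end
end

-- ▼ part T156/TxMo_60

/-!
# Row 156, block (L): the middle zone and the top of (TxS) (helper60)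
-/

set_option autoImplicit false

noncomputable section

namespace Crest.Agent.T156.Alt.O60

open Real Filter
open Crest.Agent.T156.Alt.L69 Crest.Agent.T156.Alt.Mp9 Crest.Agent.T156.Alt.Nd33
open Crest.Agent.T156.Alt.L31 Crest.Agent.T156.Alt.X84
open Crest.Agent.T156.Pr.Reg48 (Sm)

theorem cl_ge (f : ℝ → ℝ) : CL fun _ Λ S _ _ _ => f S.C ≤ Λ := fun C =>
  .of_forall fun _ _ _ η hη => by
    filter_upwards [Pre29.ev_K (f C) hη] with n h S M b1 _ _ _ m a _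
    rwa [b1]

theorem pv_mono {S : Sc} {M : Md} {m : ℕ} {a T W Xp γ V Lp Lg G ev N2 g x x' u : ℝ} {vc v0 : ℕ}
    (H : PV W S M m a T Xp γ V Lp Lg G ev N2 g x u vc v0) (h : x ≤ x') :
    PV W S M m a T Xp γ V Lp Lg G ev N2 g x' u vc v0 := by
  have R := H.rn
  obtain ⟨G', ev', D, a1, a2, a3, a4, a5, a6⟩ := R.sv
  exact ⟨⟨R.A, R.W1, R.θ1, R.u0, R.γ0, R.V0, R.Lp, R.Lg1, R.po, R.G0, R.vJ,
    G', ev', D, a1, a2, a3, a4, a5, a6.trans h⟩, H.ex, H.vt, H.r0.trans h, H.g2.trans h⟩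

variable {E : ℝ} {S : Sc} {M : Md} {m : ℕ} {a : ℝ} {c : Dt}

theorem nb60 (Y : Cy E S M m a c) (E1 : 1 ≤ E) :
    S.F ^ 10 * c.p.N ≤ Nb S M c := by
  have h := Y.tw.at'.cl
  have F1 := h.F1
  have C0 := h.C0
  have n0 := h.N0
  have c0 : 0 ≤ cB M S c.p.η c.t4 S.C := Finset.sum_nonneg fun k _ => by
    have : 0 < mf S (M.s k) := div_pos (Y.tw.at'.ms_pos (h.s_nn k)) (by linarith)
    have : 0 ≤ cr S (M.s k) := zero_le_one.trans (le_max_left _ _)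
    have : 0 ≤ min (|M.G k| ^ ((4 : ℝ) / 3)) (M.G k ^ 2 / mf S (M.s k)) :=
      le_min (by positivity) (by positivity)
    exact mul_nonneg (sub_nonneg.2 (h.leg.zm (Nat.sub_le k 1))) (by positivity)
  have x0 : 0 ≤ c.X4 := by
    have := (Y.cw.Z.w3p C0).le
    have V0 := Y.hx.ln.V0
    have : 0 ≤ cr S S.C := zero_le_one.trans (le_max_left _ _)
    have : 0 ≤ L69.cl S c.p.V S.C := by unfold L69.cl; positivity
    have : 0 ≤ ws S c.p.V S.C := by unfold ws; positivity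
    have : 0 ≤ min c.p.X (L69.cl S c.p.V S.C ^ 3) := le_min Y.hx.ln.X0.le (by positivity)
    refine le_trans (by positivity) (Y.l4 S.C ?_ le_rfl)
    by_contra q
    linarith [Y.t4, mul_le_mul_of_nonneg_right E1 (C0.trans (not_le.1 q)).le]
  refine mul_le_mul_of_nonneg_left ?_ (by positivity)
  unfold Nn
  linarith [sq_nonneg c.p.X2, show 0 ≤ 1 / (S.n : ℝ) ^ 3 by positivity]

set_option maxHeartbeats 1000000 in
/-- **(M)** -/
theorem txM_of (hC : TxC) (hD : TxD) (hE : TxE) : TxM := by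
  choose K0 κ0 c0 K1 hT using topH
  choose Kn Kn1 hn using netH
  unfold TxC LF at hC
  unfold TxD LF at hD
  unfold TxE LF at hE
  unfold TxM LF
  refine (((hC.and hD).and hE).and
    (cl_ge fun C => max (K0 (2 * C) * C ^ 7) (Kn C))).mono
    fun E Λ S M m a E1 Λ1 h hm ⟨⟨⟨pC, pD⟩, pE⟩, pK⟩ c Y hΛ v v1 v2 Q βs θ' β0 β1 hθ => ?_
  obtain ⟨G, ev, N2, g, x1, vc, a1, a2, P1⟩ := pC c Y hΛ v v1 v2 Q
  obtain ⟨x2, b1, b2, b3, b4⟩ := pE c Y hΛ v v1 v2 Q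
  have pD := pD c Y hΛ v v1 v2 Q
  have H := Y.hx
  have A := Y.tw.at'
  have Z := Y.cw.Z
  have Cw' := Y.cw
  have θ1 := Y.cw.θ1
  have θ0 := h.θ0
  have C1 := h.C1
  have C0 := h.C0
  have F1 := h.F1
  have n0 := h.N0
  have v0 := h.v0
  have DE := Y.cw.DE
  have CD := Z.CD
  have γ0 := Y.tw.γ0
  have τ0 := Y.tw.τ0
  generalize hD' : c.D = D at *
  have cp : ∀ i : ℕ, i ≤ 10 → 10000 * S.C ^ i ≤ D := fun i e =>
    le_trans (by gcongr) CD
  have D4 : 10000 ≤ D := by simpa using cp 0 (by norm_num)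
  have D1 : 1 ≤ D := by linarith
  have D0 : 0 ≤ D := by linarith
  have pw : ∀ i j : ℕ, i ≤ j → D ^ i ≤ D ^ j := fun i j e => pow_le_pow_right₀ D1 e
  have d6 : D ≤ D ^ 6 := le_self_pow₀ D1 (by norm_num)
  have E2 : D ≤ E := (le_self_pow₀ D1 (by norm_num)).trans DE
  have T := X48.at48 A H (by linarith) θ1
  have U := tm12 Y.tw H θ1 (by linarith)
  have N0 := U.N0
  have nb := nb60 Y E1
  generalize Nb S M c = B at *
  have fb : ∀ i : ℕ, i ≤ 10 → S.F ^ i * c.p.N ≤ B := fun i e => le_trans (by gcongr) nb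
  have NB : c.p.N ≤ B := by simpa using fb 0 (by norm_num)
  have B0 : 0 ≤ B := by linarith
  have pb : ∀ i j : ℕ, i ≤ j → D ^ i * B ≤ D ^ j * B := fun i j e =>
    mul_le_mul_of_nonneg_right (pw i j e) B0
  have pb' : ∀ i j : ℕ, i < j → 10000 * (D ^ i * B) ≤ D ^ j * B := fun i j e =>
    (mul_le_mul_of_nonneg_right D4 (by positivity)).trans
      (by rw [← mul_assoc, ← pow_succ']; exact pb _ _ e)
  have pz : ∀ i : ℕ, 0 ≤ D ^ i * B := fun i => by positivity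
  have p0 : ∀ i : ℕ, B ≤ D ^ i * B := fun i => le_mul_of_one_le_left B0 (one_le_pow₀ D1)
  have up : ∀ {i j : ℕ} {x : ℝ}, Sm S.θ 1 (D ^ i * B) 1 x → i ≤ j → Sm S.θ 1 (D ^ j * B) 1 x :=
    fun s e => s.mono θ0.le zero_le_one (by positivity) zero_le_one le_rfl le_rfl (pb _ _ e) le_rfl
      le_rfl
  -- the uniform error
  have s0 := a2.max b1
  have P := pv_mono P1 (le_max_left x1 x2)
  have m2 := le_max_right x1 x2
  generalize max x1 x2 = x at *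
  have x0 := P.x0
  have u1 := H.lp.u1b
  have u0 : 0 ≤ c.p.u1 := ((sub_nonneg.2 (h.leg.z1 _)).trans h.last).trans H.lp.u1a
  have hu : 3 * max c.p.u1 (c.p.u2 / 8) ≤ 8 * c.p.u2 := by
    have : max c.p.u1 (c.p.u2 / 8) ≤ c.p.u2 := max_le u1.1 (by linarith [u1.1])
    linarith [u1.1]
  -- the cut-off
  have n1 : (1 : ℝ) ≤ S.n := by exact_mod_cast h.n1
  have ν0 : 0 < 1 / (S.n : ℝ) ^ 2 := by positivity
  have ν1 : 1 / (S.n : ℝ) ^ 2 ≤ 1 / S.n :=
    one_div_le_one_div_of_le n0 (le_self_pow₀ n1 two_ne_zero)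
  have ν2 : 1 / (S.n : ℝ) ≤ 1 := (div_le_one n0).2 n1
  have νv : S.C * S.v ≤ 1 / (S.n : ℝ) ^ 2 := (le_div_iff₀ (by positivity)).2 Z.hv
  have νN : 1 / (S.n : ℝ) ^ 2 ≤ c.p.N := by
    have q0 : 0 < 1 / (S.n : ℝ) := by positivity
    have q1 : (1 / (S.n : ℝ)) ^ 2 ≤ c.p.ηc ^ 2 := pow_le_pow_left₀ q0.le T.a7.1 2
    rw [← one_div_pow]
    refine le_trans (le_min ?_ ?_) H.lc.c8
    · refine le_trans ?_ (rpow_le_rpow q0.le T.a7.1 (by norm_num))
      rw [← rpow_natCast]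
      exact rpow_le_rpow_of_exponent_ge q0 ν2 (by norm_num)
    · exact q1.trans (le_div_self (sq_nonneg _) θ0 θ1)
  have νl : log (1 + 2 * S.C / (1 / (S.n : ℝ) ^ 2)) ≤ D ^ 6 := by
    have e1 : 1 + 2 * S.C / (1 / (S.n : ℝ) ^ 2) ≤ 3 * S.C * (S.n : ℝ) ^ 2 := by
      rw [div_div_eq_mul_div, div_one]
      linarith [one_le_mul_of_one_le_of_one_le C1 (one_le_pow₀ (n := 2) n1)]
    refine (log_le_log (by positivity) e1).trans ?_
    rw [log_mul (by positivity) (by positivity), log_pow]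
    have e2 := log_le_sub_one_of_pos (show 0 < 3 * S.C by positivity)
    have e3 := cp 1 (by norm_num)
    have e4 := mul_le_mul_of_nonneg_right D4 D0
    push_cast
    linarith [Z.lg, pw 2 6 (by norm_num)]
  generalize 1 / (S.n : ℝ) ^ 2 = ν at *
  obtain ⟨e1, e2, e3, e4, e5⟩ := Q.ve
  have J2 := Q.mg.1
  have o1 := Q.o1
  have o2 := Q.o2
  obtain ⟨w, x', W⟩ := hT (2 * S.C) H le_rfl (L := D ^ 6) (N := D ^ 600 * B) (θ' := θ') (βs := βs)
    (ν := ν) P hu a1 (add_nonneg T.η0 T.X0.1) (NB.trans (p0 _))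
    (((le_max_left _ _).trans pK).trans (hΛ.trans d6))
    (by
      have := mul_le_mul_of_nonneg_right ((show 26 * S.C ^ 2 ≤ D by
        linarith [cp 2 (by norm_num), sq_nonneg S.C]).trans (le_self_pow₀ D1 two_ne_zero))
        (pow_nonneg D0 4)
      have := mul_le_mul_of_nonneg_right (le_self_pow₀ C1 two_ne_zero) (pow_nonneg D0 4)
      linarith)
    (by rw [← pow_mul]; exact (pw _ _ (by norm_num)).trans DE) Z.hv
    ((up s0 (j := 600) (by norm_num)).mono θ0.le zero_le_one (by positivity) zero_le_one le_rfl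
      le_rfl (by linarith [p0 600]) le_rfl le_rfl)
    hθ ⟨ν0, ν1.trans ν2, νN.trans (NB.trans (p0 _)), νl⟩ (b4.trans m2)
    ⟨β0, (β1.trans (b2.trans m2)).trans (le_mul_of_one_le_left x0 (one_le_pow₀ D1))⟩ Q.jv
    (by omega) e4
  obtain ⟨w1, w2⟩ := W.w1
  obtain ⟨Rs, g', r0, r1, r2, g0', g1, g2⟩ := pD w w1.le (by omega) W.du1
  -- the margin
  have t0 : 0 ≤ D ^ 44 * tc S c := by unfold tc; positivity
  obtain ⟨t1', t2, t3, -, t4⟩ := U.mar h γ0 (W := D ^ 44 * S.F) (by positivity) t0 (by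
    unfold tc
    rw [← mul_assoc]
    exact mul_le_mul_of_nonneg_left U.cu (by positivity))
  have t5 : D ^ 44 * tc S c ≤ 1 := t1' (by
    refine le_of_pow_le_pow_left₀ two_ne_zero (by linarith) ?_
    have q1 : S.F ^ 2 ≤ E := (pow_le_pow_right₀ F1 (by norm_num)).trans H.F40
    have q2 : 9 * D ^ 88 ≤ E := by
      linarith [mul_le_mul_of_nonneg_right D4 (pow_nonneg D0 88), pw 89 500 (by norm_num),
        pow_nonneg D0 88]
    linarith [mul_le_mul q2 q1 (by positivity) (by linarith)])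
  have t6 : 2 * (S.C * S.v) ≤ D ^ 44 * tc S c := by
    have q0 : 0 ≤ c.p.ηc := le_trans (by positivity) T.a7.1
    have q1 : c.p.ηc ≤ c.p.τ := by
      have := H.lp.Xp0.1
      have : 0 < c.p.Lc := by linarith [H.lp.Lc1.1, Y.tw.EL]
      linarith [H.lp.τ0, le_div_self q0 T.m0.1 (T.m0.2.trans θ1),
        show 0 ≤ c.p.Xp ^ ((1 : ℝ) / 3) / c.p.Lc by positivity]
    have q2 : c.p.τ + c.p.γ ≤ tc S c := le_mul_of_one_le_left (by positivity) F1
    have q3 := mul_le_mul_of_nonneg_right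
      (D4.trans (le_self_pow₀ D1 (show 44 ≠ 0 by norm_num))) ((add_nonneg τ0.le γ0).trans q2)
    linarith [T.a7.1]
  have zv : M.z (S.J - 1) - D ^ 44 * tc S c ≤ M.z v2 := by
    have := Q.lo
    rw [hD'] at this
    exact this.trans (h.leg.zm o2.le)
  generalize D ^ 44 * tc S c = τ at *
  have t7 : S.θ * τ ^ 3 ≤ D ^ 300 * B := by
    linarith [mul_le_mul_of_nonneg_left (fb 3 (by norm_num)) (pow_nonneg D0 132),
      pb' 132 300 (by norm_num), p0 132]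
  have t8 : τ ^ 6 ≤ D ^ 300 * B := by
    linarith [mul_le_mul_of_nonneg_left (fb 6 (by norm_num)) (pow_nonneg D0 264),
      pb' 264 300 (by norm_num), p0 264,
      mul_le_mul_of_nonneg_right (one_le_pow₀ (n := 2) F1) (pow_nonneg t0 6)]
  have t9 : S.θ * c.p.γ * τ ≤ D ^ 300 * B := by
    linarith [mul_le_mul_of_nonneg_left (fb 2 (by norm_num)) (pow_nonneg D0 44),
      pb' 44 300 (by norm_num), p0 44]
  have q8 := pb 300 800 (by norm_num)
  have q0 := p0 300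
  obtain ⟨Gm, m1, m2', m3, m4, m5, m6⟩ := A.gm51 (v := v2) (N0 := D ^ 300 * B) (N := D ^ 800 * B)
    (L := D ^ 6) θ1 H.lp.γ0
    (by linarith [U.γ3, mul_le_mul_of_nonneg_right θ1 (pow_nonneg γ0 3)]) t0 t7 νv (ν1.trans ν2)
    (by linarith) zv
    (by
      have := T.Ga0
      unfold X48.Ga at this
      linarith [mul_le_mul_of_nonneg_left (NB.trans q0) θ0.le])
    (by
      have j0 := h.s_nn S.jl
      rw [lt_div_iff₀ (by positivity)]
      have q1 := mul_le_mul_of_nonneg_left (H.ln.l0s.trans H.ln.l0l) (show 0 ≤ E by linarith)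
      have q2 := mul_le_mul_of_nonneg_right ((cp 2 (by norm_num)).trans E2) j0
      have q3 := mul_le_mul_of_nonneg_right E1 (mul_nonneg (show 0 ≤ E by linarith) j0)
      linarith [H.ln.l1, show 0 ≤ S.C ^ 2 * M.s S.jl by positivity])
    (by
      have := mul_le_mul_of_nonneg_right (cp 9 (by norm_num)) (pz 300)
      linarith [pb 301 800 (by norm_num), mul_nonneg (pow_nonneg C0.le 9) (pz 300)])
    (by linarith [cp 2 (by norm_num), sq_nonneg S.C])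
  obtain ⟨-, y3⟩ := At.cbrt51 θ0 (pz 800)
  generalize (D ^ 800 * B / S.θ) ^ ((1 : ℝ) / 3) = y at *
  have nt := hn S.C rfl H Cw' (((le_max_right _ _).trans pK).trans hΛ)
    P le_rfl a1 hu (NB.trans (p0 200)) s0 (w := w) (by omega) W.du1 (y := y)
    ((pb 200 800 (by norm_num)).trans y3.ge)
  obtain ⟨k1, k2, k3, k4, k5⟩ := A.e_pack θ1
  have s1 : Sm S.θ 1 (D ^ (6 * 9 + 600) * B) 1 x' := by
    rw [pow_add, pow_mul, mul_assoc]
    exact W.sm
  have s2 : Sm S.θ 1 (D ^ (7 * 2 + 200) * B) 1 (D ^ 7 * x) := by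
    rw [pow_add, pow_mul, mul_assoc]
    exact s0.mul zero_le_one (one_le_pow₀ (n := 7) D1)
  have xx := W.x1
  have l1 : x' ≤ max (max x' Rs) (D ^ 7 * x) := le_max_of_le_left (le_max_left _ _)
  have q9 := pb (196 + 200) 800 (by norm_num)
  rw [pow_add, mul_assoc] at q9
  refine ⟨w, max (max x' Rs) (D ^ 7 * x), D ^ 800 * B, D ^ 600 * B, ν, τ, c.p.γ, y, Gm, Rs, _, _,
    w1.le, le_rfl, pb _ _ (by norm_num), ⟨by linarith [cp 1 (by norm_num)],
      by linarith [cp 1 (by norm_num)], θ1, ⟨k5.trans (mul_le_mul_of_nonneg_right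
        (by linarith [cp 7 (by norm_num), pow_pos C0 7]) k3.le), k4, le_rfl⟩,
      ⟨k1.le, le_min (by linarith [A.sb_mono (show v + 1 ≤ v2 + 1 by omega)]) (by linarith)⟩,
      ⟨ν0, ν1.trans ν2, by linarith, νl, νv⟩,
      ⟨by linarith, ((up s1 (by norm_num)).max (up r1 (by norm_num))).max (up s2 (by norm_num))⟩,
      ⟨β0, by linarith⟩, ⟨Q.jv, by omega, by omega, by omega, by omega⟩,
      ⟨H.lp.γ0, T.γ0.2, by linarith [U.γ3], by linarith [U.γ2]⟩,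
      ⟨t6, t5, by linarith, by linarith, by linarith⟩, zv,
      ⟨r0, le_max_of_le_left (le_max_right _ _)⟩, r2, ⟨W.aM.1.trans l1, W.aM.2.trans l1⟩,
      ⟨by linarith, m1, m2', m3, m4, m5, m6⟩,
      U.gp.trans (mul_le_mul_of_nonneg_left (by linarith) θ0.le), fun k _ kw hy => ?_⟩,
    W.top' g' g0' (by rwa [← pow_mul]) g1⟩
  obtain ⟨i, K1', K2', i1, i2, i3, i4, i5, i6, i7, i8⟩ := nt k kw hy
  exact ⟨i, K1', K2', i1, i2, i3, i4, i5, by linarith [le_max_right (max x' Rs) (D ^ 7 * x)],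
    i7.trans (mul_le_mul_of_nonneg_left q9 θ0.le),
    i8.trans (pow_le_pow_left₀ (mul_nonneg (pow_nonneg D0 _) (pz _)) q9 2)⟩

end Crest.Agent.T156.Alt.O60

end
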