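import Crest.Agent.T156.GrTop_62
import Crest.Agent.T156.AlEx_13
import Crest.Agent.T156.R1Def_82
import Crest.Agent.T156.SwGA_2
import Crest.Agent.T156.SprR_59
import Crest.Agent.T156.R1KitB_82_Mg
import Crest.Agent.T156.EnR_78_Mg
import Crest.Agent.T156.StU_67_Mg
import Crest.Agent.T156.R1KitC_82
import Crest.Agent.T156.R1LocB_77
import Crest.Agent.T156.KnG_17
import Crest.Agent.T156.NRo_44
import Crest.Agent.T156.SwGL_2_Mg
import Crest.Agent.T156.VtG_18
import Crest.Agent.T156.EndP_88_Mg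
import Crest.Agent.T156.R2Z_42
import Crest.Agent.T156.SrOut_46
import Crest.Agent.T156.TxB_8_Mg
import Crest.Agent.T156.LZ_94
import Crest.Agent.T156.TpF_66_Mg
import Crest.Agent.T156.TxMo_60_Mg
import Crest.Agent.T156.TxA_83
import Crest.Agent.T156.TxCz_5
import Crest.Agent.T156.TxEr_75

-- ▼ part T156/KeyD_88
section

/-!
# Row 156 (helper88): the key estimate from zone I
-/

set_option autoImplicit false

namespace Crest.Agent.T156.Alt.Z88

open Crest.Agent.T156.Cas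
open Crest.Agent.T156.Alt.R77 (OnG Blkx Topx LocG)

variable {β : ℝ}

theorem txS (b : X84.TxB) : L31.TxS :=
  X84.txS_of (L31.czS2_of LZ.szS) X84.txA b (O60.txM_of X84.txC5 X84.txD X84.txE75)

theorem sr (t : L31.TxS) : Sr.SrS2 :=
  Sr.srS2_of (Tm92.termS2_L LZ.tlt (LZ.tl1x_t t) (LZ.tl1cx_t t))

theorem top (hβ : 1 < β) (t : L31.TxS) : OnG Topx β :=
  Sup82.topx hβ (e := 1 / 100000) (by norm_num) (LZ.tl2x_t t) (LZ.tl2y_t t) (LZ.tlp_t t)
    (L63.tlq53 (LZ.p1S_t t) LZ.ndTq LZ.pnq) (Tp66.supP hβ (by norm_num) (by norm_num) LZ.tlt)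
    (Tq90.supQ90 hβ) (Lo17.tabT hβ (Vt18.vtx hβ LZ.tlt))

theorem loc (hβ : 1 < β) (t : L31.TxS) : LocG β :=
  R77.locG_of hβ (sr t) (Kn17.knG hβ) (Nr44.nrG hβ) (R77.nxG_of hβ (Nr44.nrG hβ))
    (R77.blkx_all hβ LZ.tlt (LZ.tl2x_t t) (LZ.tl2y_t t)) (top hβ t) (Lk37.upG hβ LZ.tlt)

theorem oct (hβ : 1 < β) (hL : LocG β) : Gain β OctG :=
  P60.octG_1 hβ C40.hT (R82.kit hβ hL) fun _ hβ hC hK => E35.errG hβ hC hK

/-- the key estimate from the continuation above the bulk -/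
theorem key_t (hβ : 1 < β) (t : L31.TxS) : Soft.Key β :=
  have L := loc hβ t
  topG β (7 / 20) hβ (plEx hβ (by norm_num)) (startG hβ) (oct hβ L) (swG_of_locG hβ L)
    (sprS_x hβ (LZ.tl1x_t t) (sr t)) (R2.flwS_end hβ (sr t) (LZ.tl2x_t t))

end Crest.Agent.T156.Alt.Z88
end

-- ▼ part T156/Key_88

/-!
# Row 156 (helper88): the key estimate
-/

set_option autoImplicit false

namespace Crest.Agent.T156.Alt

/-- **the key estimate** -/
theorem key {β : ℝ} (hβ : 1 < β) : Soft.Key β := Z88.key_t hβ (Z88.txS X84.txB8)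

end Crest.Agent.T156.Alt
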