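import Crest.Agent.T156.AltDef_88
import Crest.Agent.T157.NumT_27

/-!
# Row 156, ALT route: calculus of the prefixes `Gain`, `Loss`, `Cst` (helper67)
-/

set_option autoImplicit false

noncomputable section

namespace Crest.Agent.T156.Alt

open Real Set Filter Topology
open Crest.Agent.T157.Nm

/-- the prefix without a parameter -/
def Ev (β : ℝ) (P : Pm → Prop) : Prop :=
  ∀ c0 C0 : ℝ, 0 < c0 → 1 ≤ C0 → ∀ᶠ A : ℕ in atTop, ∀ᶠ c in 𝓝[>] (0 : ℝ),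
    ∀ᶠ n : ℕ in atTop, All β c0 C0 A c n P

/-- `P` holds for some smaller positive parameter (monotone hull) -/
def Sub (P : ℝ → Pm → Prop) (x : ℝ) (p : Pm) : Prop := ∃ x', 0 < x' ∧ x' ≤ x ∧ P x' p

/-- monotone in the parameter -/
def Mo (P : ℝ → Pm → Prop) : Prop := ∀ x x' p, 0 < x → x ≤ x' → P x p → P x' p

variable {β c0 C0 c : ℝ} {A n : ℕ} {P P' Q G G' K K' : ℝ → Pm → Prop} {E E' : Pm → Prop}

theorem Sub.mo : Mo (Sub P) := fun _ _ _ _ h ⟨y, h1, h2, h3⟩ => ⟨y, h1, h2.trans h, h3⟩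

theorem Mo.and (h : Mo P) (h' : Mo P') : Mo fun x p => P x p ∧ P' x p :=
  fun x x' p a b H => ⟨h x x' p a b H.1, h' x x' p a b H.2⟩

theorem Mo.of_sub (h : Mo P) {x : ℝ} {p : Pm} (H : Sub P x p) : P x p := by
  obtain ⟨y, h1, h2, h3⟩ := H
  exact h y x p h1 h2 h3

namespace All

theorem mono (h : All β c0 C0 A c n E) (H : ∀ p, p.Ok c0 C0 → E p → E' p) : All β c0 C0 A c n E' :=
  fun p a b d e f => H p f (h p a b d e f)

theorem and (h : All β c0 C0 A c n E) (h' : All β c0 C0 A c n E') :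
    All β c0 C0 A c n fun p => E p ∧ E' p :=
  fun p a b d e f => ⟨h p a b d e f, h' p a b d e f⟩

theorem mp (h : All β c0 C0 A c n fun p => E p → E' p) (h' : All β c0 C0 A c n E) :
    All β c0 C0 A c n E' := fun p a b d e f => h p a b d e f (h' p a b d e f)

end All

/-! ### numbers -/

theorem ev_small {c₁ : ℝ} (h : 0 < c₁) : ∀ᶠ c in 𝓝[>] (0 : ℝ), 0 < c ∧ c ≤ c₁ :=
  Filter.Eventually.and self_mem_nhdsWithin
    (mem_nhdsWithin_of_mem_nhds (Iic_mem_nhds h))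

theorem ev_one_le : ∀ᶠ n : ℕ in atTop, (1 : ℝ) ≤ n := by
  filter_upwards [eventually_ge_atTop 1] with n hn using by exact_mod_cast hn

/-- a constant is below `η log n` -/
theorem ev_le_log (M : ℝ) {η : ℝ} (hη : 0 < η) : ∀ᶠ n : ℕ in atTop, M ≤ η * log n :=
  ((tendsto_log_atTop.comp tendsto_natCast_atTop_atTop).const_mul_atTop hη).eventually_ge_atTop M

theorem ev_le_rpow (M : ℝ) {η : ℝ} (hη : 0 < η) : ∀ᶠ n : ℕ in atTop, M ≤ (n : ℝ) ^ η :=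
  ((tendsto_rpow_atTop hη).comp tendsto_natCast_atTop_atTop).eventually_ge_atTop M

theorem ev_rpow_le {ε η : ℝ} (hε : 0 < ε) (hη : 0 < η) :
    ∀ᶠ n : ℕ in atTop, (n : ℝ) ^ (-η) ≤ ε :=
  ((tendsto_rpow_neg_atTop hη).comp tendsto_natCast_atTop_atTop).eventually (ge_mem_nhds hε)

theorem ev_log_le {η : ℝ} (hη : 0 < η) : ∀ᶠ n : ℕ in atTop, log n ≤ (n : ℝ) ^ η := by
  filter_upwards [ev_le_rpow (2 / η) (half_pos hη), ev_one_le] with n h1 h2
  have h0 : (0 : ℝ) < n := by linarith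
  have h3 := log_le_rpow_div h0.le (half_pos hη)
  have h4 : (n : ℝ) ^ η = (n : ℝ) ^ (η / 2) * (n : ℝ) ^ (η / 2) := by
    rw [← rpow_add h0]; congr 1; ring
  have h5 : (n : ℝ) ^ (η / 2) / (η / 2) = 2 / η * (n : ℝ) ^ (η / 2) := by field_simp
  rw [h4]
  rw [h5] at h3
  exact h3.trans (mul_le_mul_of_nonneg_right h1 (rpow_nonneg h0.le _))






theorem rpow_neg_anti (h : (1 : ℝ) ≤ n) {x x' : ℝ} (hx : x' ≤ x) :
    (n : ℝ) ^ (-x) ≤ (n : ℝ) ^ (-x') := rpow_le_rpow_of_exponent_le h (by linarith)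

/-! ### `Ev` -/

theorem Ev.mono (h : Ev β E) (H : ∀ p, E p → E' p) : Ev β E' := fun c0 C0 a b =>
  (h c0 C0 a b).mono fun _ h => h.mono fun _ h => h.mono fun _ h => h.mono fun p _ => H p

theorem Ev.and (h : Ev β E) (h' : Ev β E') : Ev β fun p => E p ∧ E' p := fun c0 C0 a b =>
  ((h c0 C0 a b).and (h' c0 C0 a b)).mono fun _ h => (h.1.and h.2).mono fun _ h =>
    (h.1.and h.2).mono fun _ h => h.1.and h.2

theorem Ev.loss (h : Ev β E) : Loss β fun _ => E := fun c0 C0 a b =>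
  (h c0 C0 a b).mono fun _ h => h.mono fun _ h _ _ => h

theorem Ev.gain (h : Ev β E) : Gain β fun _ => E := fun c0 C0 a b =>
  (h c0 C0 a b).mono fun _ h => h.mono fun _ h => ⟨1, one_pos, h⟩

theorem Loss.ev (h : Loss β P) (H : ∀ x p, P x p → E p) : Ev β E := fun c0 C0 a b =>
  (h c0 C0 a b).mono fun _ h => h.mono fun _ h =>
    (h 1 one_pos).mono fun _ h => h.mono fun p _ => H _ p

theorem Gain.ev (h : Gain β G) (H : ∀ x p, G x p → E p) : Ev β E := fun c0 C0 a b =>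
  (h c0 C0 a b).mono fun _ h => h.mono fun _ ⟨_, _, h⟩ =>
    h.mono fun _ h => h.mono fun p _ => H _ p

/-! ### `Loss` -/

theorem Loss.triv (β : ℝ) : Loss β fun _ _ => True := fun _ _ _ _ =>
  .of_forall fun _ => .of_forall fun _ _ _ => .of_forall fun _ _ _ _ _ _ _ => trivial

theorem Loss.mono (h : Loss β P) (H : ∀ x p, 1 ≤ x → P x p → Q x p) : Loss β Q := fun c0 C0 a b =>
  (h c0 C0 a b).mono fun _ h => h.mono fun _ h η hη =>
    ((h η hη).and ev_one_le).mono fun _ h => h.1.mono fun p _ => H _ p (one_le_rpow h.2 hη.le)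

theorem Loss.and (h : Loss β P) (h' : Loss β P') : Loss β fun x p => P x p ∧ P' x p :=
  fun c0 C0 a b => ((h c0 C0 a b).and (h' c0 C0 a b)).mono fun _ h => (h.1.and h.2).mono
    fun _ h η hη => ((h.1 η hη).and (h.2 η hη)).mono fun _ h => h.1.and h.2


/-! ### `Gain` -/

theorem Gain.triv (β : ℝ) : Gain β fun _ _ => True := fun _ _ _ _ =>
  .of_forall fun _ => .of_forall fun _ => ⟨1, one_pos, .of_forall fun _ _ _ _ _ _ _ => trivial⟩

theorem Gain.mono (h : Gain β G) (H : ∀ x p, 0 < x → x ≤ 1 → G x p → Q x p) : Gain β Q :=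
  fun c0 C0 a b => (h c0 C0 a b).mono fun _ h => h.mono fun _ ⟨c', hc', h⟩ => ⟨c', hc',
    (h.and ev_one_le).mono fun _ h => h.1.mono fun p _ => H _ p (rpow_pos_of_pos (by linarith) _)
      (rpow_le_one_of_one_le_of_nonpos h.2 (by linarith))⟩

theorem Gain.and_sub (h : Gain β G) (h' : Gain β G') :
    Gain β fun x p => Sub G x p ∧ Sub G' x p := by
  intro c0 C0 a b
  filter_upwards [h c0 C0 a b, h' c0 C0 a b] with A h h'
  filter_upwards [h, h'] with c ⟨c₁, h₁, h⟩ ⟨c₂, h₂, h'⟩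
  refine ⟨min c₁ c₂, lt_min h₁ h₂, ?_⟩
  filter_upwards [h, h', ev_one_le] with n h h' hn
  exact (h.and h').mono fun p _ H =>
    ⟨⟨_, rpow_pos_of_pos (by linarith) _, rpow_neg_anti hn (min_le_left _ _), H.1⟩,
      ⟨_, rpow_pos_of_pos (by linarith) _, rpow_neg_anti hn (min_le_right _ _), H.2⟩⟩

theorem Gain.and (h : Gain β G) (h' : Gain β G') (m : Mo G) (m' : Mo G') :
    Gain β fun x p => G x p ∧ G' x p :=
  (h.and_sub h').mono fun _ _ _ _ H => ⟨m.of_sub H.1, m'.of_sub H.2⟩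


/-! ### `Cst` -/

theorem Cst.triv (β : ℝ) : Cst β fun _ _ => True := fun _ _ _ _ =>
  ⟨1, le_rfl, fun _ _ _ _ _ => .of_forall fun _ _ _ _ _ _ _ => trivial⟩

theorem Cst.mono (h : Cst β K) (H : ∀ x p, 1 ≤ x → K x p → K' x p) : Cst β K' := fun c0 C0 a b =>
  (h c0 C0 a b).imp fun C ⟨h1, h⟩ => ⟨h1, fun A hA c d e =>
    (h A hA c d e).mono fun _ h => h.mono fun p _ => H C p h1⟩

theorem Cst.and_sub (h : Cst β K) (h' : Cst β K') : Cst β fun x p => Sub K x p ∧ Sub K' x p := by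
  intro c0 C0 a b
  obtain ⟨C, h1, h⟩ := h c0 C0 a b
  obtain ⟨C', h1', h'⟩ := h' c0 C0 a b
  refine ⟨max C C', le_max_of_le_left h1, fun A hA c d e => ?_⟩
  filter_upwards [h A hA c d e, h' A hA c d e] with n h h'
  exact (h.and h').mono fun p _ H =>
    ⟨⟨C, by linarith, le_max_left _ _, H.1⟩, ⟨C', by linarith, le_max_right _ _, H.2⟩⟩

theorem Cst.and (h : Cst β K) (h' : Cst β K') (m : Mo K) (m' : Mo K') :
    Cst β fun x p => K x p ∧ K' x p :=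
  (h.and_sub h').mono fun _ _ _ H => ⟨m.of_sub H.1, m'.of_sub H.2⟩

/-! ### the general combinations -/

/-- **everything into a gain** -/
theorem Gain.comb (hP : Loss β P) (hG : Gain β G) (hK : Cst β K)
    (H : ∀ c0 C0 C : ℝ, 0 < c0 → 1 ≤ C0 → 1 ≤ C → ∀ᶠ A : ℕ in atTop, ∀ᶠ c in 𝓝[>] (0 : ℝ),
      ∀ c₁ : ℝ, 0 < c₁ → ∃ η c' : ℝ, 0 < η ∧ 0 < c' ∧ ∀ᶠ n : ℕ in atTop, All β c0 C0 A c n fun p =>
        P ((n : ℝ) ^ η) p → G ((n : ℝ) ^ (-c₁)) p → K C p → Q ((n : ℝ) ^ (-c')) p) :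
    Gain β Q := by
  intro c0 C0 a b
  obtain ⟨C, h1, hK⟩ := hK c0 C0 a b
  filter_upwards [hP c0 C0 a b, hG c0 C0 a b, H c0 C0 C a b h1, eventually_ge_atTop 2] with
    A hP hG H hA
  filter_upwards [hP, hG, H, ev_small (c₁ := 1 / 200) (by norm_num)] with c hP ⟨c₁, h₁, hG⟩ H hc
  obtain ⟨η, c', hη, hc', H⟩ := H c₁ h₁
  refine ⟨c', hc', ?_⟩
  filter_upwards [hP η hη, hG, H, hK A hA c hc.1 hc.2] with n hP hG H hK
  exact ((H.mp hP).mp hG).mp hK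

/-- **everything into a loss** -/
theorem Loss.comb (hP : Loss β P) (hG : Gain β G) (hK : Cst β K)
    (H : ∀ c0 C0 C : ℝ, 0 < c0 → 1 ≤ C0 → 1 ≤ C → ∀ᶠ A : ℕ in atTop, ∀ᶠ c in 𝓝[>] (0 : ℝ),
      ∀ c₁ η : ℝ, 0 < c₁ → 0 < η → ∃ η' : ℝ, 0 < η' ∧ ∀ᶠ n : ℕ in atTop, All β c0 C0 A c n fun p =>
        P ((n : ℝ) ^ η') p → G ((n : ℝ) ^ (-c₁)) p → K C p → Q ((n : ℝ) ^ η) p) :
    Loss β Q := by
  intro c0 C0 a b
  obtain ⟨C, h1, hK⟩ := hK c0 C0 a b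
  filter_upwards [hP c0 C0 a b, hG c0 C0 a b, H c0 C0 C a b h1, eventually_ge_atTop 2] with
    A hP hG H hA
  filter_upwards [hP, hG, H, ev_small (c₁ := 1 / 200) (by norm_num)] with c hP ⟨c₁, h₁, hG⟩ H hc
    η hη
  obtain ⟨η', hη', H⟩ := H c₁ η h₁ hη
  filter_upwards [hP η' hη', hG, H, hK A hA c hc.1 hc.2] with n hP hG H hK
  exact ((H.mp hP).mp hG).mp hK

theorem Gain.of_loss (hP : Loss β P)
    (H : ∀ c0 C0 : ℝ, 0 < c0 → 1 ≤ C0 → ∀ᶠ A : ℕ in atTop, ∀ᶠ c in 𝓝[>] (0 : ℝ),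
      ∃ η c' : ℝ, 0 < η ∧ 0 < c' ∧ ∀ᶠ n : ℕ in atTop, All β c0 C0 A c n fun p =>
        P ((n : ℝ) ^ η) p → Q ((n : ℝ) ^ (-c')) p) : Gain β Q :=
  Gain.comb hP (Gain.triv β) (Cst.triv β) fun c0 C0 _ a b _ => (H c0 C0 a b).mono fun _ H =>
    H.mono fun _ ⟨η, c', h1, h2, H⟩ _ _ => ⟨η, c', h1, h2, H.mono fun _ H => H.mono
      fun _ _ H h _ _ => H h⟩

theorem Loss.of_loss (hP : Loss β P)
    (H : ∀ c0 C0 : ℝ, 0 < c0 → 1 ≤ C0 → ∀ᶠ A : ℕ in atTop, ∀ᶠ c in 𝓝[>] (0 : ℝ),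
      ∀ η : ℝ, 0 < η → ∃ η' : ℝ, 0 < η' ∧ ∀ᶠ n : ℕ in atTop, All β c0 C0 A c n fun p =>
        P ((n : ℝ) ^ η') p → Q ((n : ℝ) ^ η) p) : Loss β Q :=
  Loss.comb hP (Gain.triv β) (Cst.triv β) fun c0 C0 _ a b _ => (H c0 C0 a b).mono fun _ H =>
    H.mono fun _ H _ η _ hη => (H η hη).imp fun _ ⟨h1, H⟩ => ⟨h1, H.mono fun _ H => H.mono
      fun _ _ H h _ _ => H h⟩

theorem Cst.loss (h : Cst β K) (m : Mo K) : Loss β K :=
  Loss.comb (Loss.triv β) (Gain.triv β) h fun _ _ C _ _ h1 => .of_forall fun _ => .of_forall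
    fun _ _ η _ hη => ⟨1, one_pos, (ev_le_rpow C hη).mono fun _ h p _ _ _ _ _ _ _ H =>
      m C _ p (by linarith) h H⟩


theorem Gain.loss (h : Gain β G) (m : Mo G) : Loss β G :=
  Loss.comb (Loss.triv β) h (Cst.triv β) fun _ _ _ _ _ _ => .of_forall fun _ => .of_forall
    fun _ c₁ η h₁ hη => ⟨1, one_pos, ev_one_le.mono fun _ h p _ _ _ _ _ _ H _ =>
      m _ _ p (rpow_pos_of_pos (by linarith) _) (rpow_le_rpow_of_exponent_le h (by linarith)) H⟩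

/-- **powers of the loss are a loss**; `log n ≤ Λ`, `A ≤ Λ`, constants `≤ Λ` come for free -/
theorem Loss.pow (hP : Loss β P) (m : Mo Q) (k : ℕ) (M : ℝ)
    (H : ∀ x p, 1 ≤ x → M ≤ x → log p.n ≤ x → (p.A : ℝ) ≤ x → P x p → Q (x ^ k) p) : Loss β Q :=
  hP.of_loss fun _ _ _ _ => .of_forall fun A => .of_forall fun _ η hη => by
    have hk : (0 : ℝ) < η / (k + 1) := by positivity
    refine ⟨η / (k + 1), hk, ?_⟩
    filter_upwards [ev_one_le, ev_le_rpow M hk, ev_log_le hk, ev_le_rpow A hk] with n h1 h2 h3 h4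
    rintro p - rfl rfl - - hp
    have h5 : 1 ≤ (p.n : ℝ) ^ (η / (k + 1)) := one_le_rpow h1 hk.le
    refine m _ _ p (by positivity) ?_ (H _ p h5 h2 h3 h4 hp)
    rw [← rpow_natCast, ← rpow_mul (by linarith)]
    refine rpow_le_rpow_of_exponent_le h1 ?_
    rw [div_mul_eq_mul_div, div_le_iff₀ (by positivity)]
    nlinarith


/-- the small parameter itself is a gain: `κ ^ x` for a fixed `x > 0` -/
theorem Gain.kap (β : ℝ) {x : ℝ} (hx : 0 < x) : Gain β fun d p => d = p.κ ^ x := by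
  intro c0 C0 _ _
  refine .of_forall fun A => ?_
  filter_upwards [ev_small one_pos] with c hc
  refine ⟨c * x, mul_pos hc.1 hx, .of_forall fun n => ?_⟩
  rintro p - rfl - rfl -
  rw [Pm.κ, ← rpow_mul (Nat.cast_nonneg _), neg_mul]

end Crest.Agent.T156.Alt

end
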