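import Crest.Agent.T156.BdS2_75
import Crest.Agent.T156.ClResB_27
import Crest.Agent.T156.Lag_8
import Crest.Agent.T156.LInt_31
import Crest.Agent.T156.Abel_33
import Crest.Agent.T156.TL1cD_74

-- ▼ part T156/BdE_75
section

/-!
# Row 156, block (L): the slow error at the end of the bulk (helper75)
-/

set_option autoImplicit false
set_option linter.unusedSectionVars false

noncomputable section

namespace Crest.Agent.T156.Alt.B75

open Real Finset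
open Crest.Agent.T156.Alt.E61 Crest.Agent.T156.Alt.Mp9 Crest.Agent.T156.Alt.Sz9
open Crest.Agent.T156.Alt.L69 (LN cr cl mf uw)
open Crest.Agent.T156.Alt.G89

/-- the slope of the label clock at the end of the bulk -/
def cmB (S : Sc) (Λ Lg X2 : ℝ) : ℝ := 11250 * S.C ^ 8 * Λ ^ 3 * Ug S Lg 1 ^ 2 + Λ * X2

variable {S : Sc} {M : Md} {m : ℕ} {a T E Λ l0 l V X Lg X2 X3 G0 t Q : ℝ} {η : ℝ → ℝ} {u v : ℕ}

theorem Ug_cube (c : Cl S M) (g0 : 0 ≤ Lg) (t0 : 0 < t) :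
    Ug S Lg t ^ 3 = (Lg * cr S t) ^ 2 * S.w3 t := by
  have := Tn15.cr1 S t
  rw [Ug, Nd22.U, w1, mul_pow, Tn15.cub3 (Tn15.w30 c t0).le,
    Tn15.rp_pow (by positivity) 3 2 (by norm_num)]

/-- sizes on the top levels -/
theorem Ug_top (c : Cl S M) (g1 : 1 ≤ Lg) (Q1 : 1 ≤ Q) (h : 1 ≤ Q * t) :
    Ug S Lg t ≤ 3 * Q ^ 2 * Ug S Lg 1 := by
  have Q0 : 0 < Q := by linarith
  have t0 : 0 < t := (mul_pos_iff_of_pos_left Q0).1 (by linarith)
  have c1 := Tn15.cr1 S t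
  have c2 := Tn15.cr1 S 1
  have a1 : cr S t ≤ 2 * Q * cr S 1 := by
    rcases le_total t 1 with e | e
    · have := mul_le_mul_of_nonneg_left (Tn15.crt_mono c t0 e) Q0.le
      nlinarith
    · have := crt_mul c one_pos e
      rw [mul_one, mul_one] at this
      have b : cr S t ≤ 2 * cr S 1 := le_of_mul_le_mul_right (by linarith) t0
      nlinarith
  have m0 := c.ms_pos t0.le
  have m1 := c.ms_pos zero_le_one
  have n0 := c.N0
  have a2 : S.w3 t ≤ 4 * Q ^ 3 * S.w3 1 := by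
    have b := mul_le_mul h ((c.msm h).trans (c.ms_mul t0.le Q1)) m1.le (by positivity)
    unfold Sc.w3
    rw [← mul_div_assoc, div_le_div_iff₀ (by positivity) (by positivity)]
    have := mul_le_mul_of_nonneg_left b (mul_pos (Tn15.F0 c) n0).le
    linarith
  have u1 := Ug_nn c g1 one_pos
  refine Tn15.le3 (by positivity) ?_
  rw [mul_pow, Ug_cube c (by linarith) t0, Ug_cube c (by linarith) one_pos]
  have w0 := Tn15.w30 c t0
  have w1 := Tn15.w30 c one_pos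
  have q : Q ^ 5 ≤ Q ^ 6 := pow_le_pow_right₀ Q1 (by norm_num)
  calc _ ≤ (Lg * (2 * Q * cr S 1)) ^ 2 * (4 * Q ^ 3 * S.w3 1) := by gcongr
    _ = 16 * Q ^ 5 * ((Lg * cr S 1) ^ 2 * S.w3 1) := by ring
    _ ≤ _ := mul_le_mul_of_nonneg_right (by nlinarith [pow_pos Q0 6]) (by positivity)

theorem eta_top (ηa : Antitone η) (η2 : ∀ t, 0 < t → η t ≤ 16 * η (2 * t)) (η0 : 0 ≤ η 1)
    (Q1 : 1 ≤ Q) (h : 1 ≤ Q * t) : η t ≤ 16 * Q ^ 4 * η 1 := by
  have t0 : 0 < t := (mul_pos_iff_of_pos_left (show 0 < Q by linarith)).1 (by linarith)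
  have k : ∀ i : ℕ, η t ≤ 16 ^ i * η (2 ^ i * t) := fun i => by
    induction i with
    | zero => simp
    | succ i ih =>
      have := mul_le_mul_of_nonneg_left (η2 (2 ^ i * t) (by positivity))
        (show (0 : ℝ) ≤ 16 ^ i by positivity)
      rw [pow_succ, pow_succ', mul_assoc 2]
      linarith
  obtain ⟨i, h1, h2⟩ := exists_nat_pow_near Q1 one_lt_two
  have a1 := ηa (h.trans (mul_le_mul_of_nonneg_right h2.le t0.le))
  have a2 : (16 : ℝ) ^ (i + 1) ≤ 16 * Q ^ 4 := by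
    have := pow_le_pow_left₀ (by positivity) h1 4
    rw [← pow_mul, mul_comm, pow_mul] at this
    norm_num at this
    rw [pow_succ']; linarith
  exact (k (i + 1)).trans ((mul_le_mul_of_nonneg_left a1 (by positivity)).trans
    (mul_le_mul_of_nonneg_right a2 η0))

theorem sJ_top (c : Cl S M) (me : 8 * S.C ^ 2 * S.v ≤ M.s S.J) (h : M.s S.J ≤ 4 * t) :
    1 ≤ 5 * S.C ^ 2 * t := by
  have i1 := c.i1
  have i2 := c.i2
  have C1 := c.C1
  have C0 := c.C0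
  have a1 := (div_le_iff₀' C0).1 (c.atom.1.trans (c.z_s (k := S.J - 1) (by omega) (by omega)).2)
  have a2 := mul_le_mul_of_nonneg_left (c.sm (Nat.sub_le S.J 1)) (sq_nonneg S.C)
  have a3 := mul_le_mul_of_nonneg_left h (sq_nonneg S.C)
  have a4 := mul_le_mul_of_nonneg_right (one_le_pow₀ (n := 2) C1) (c.s_nn S.J)
  linarith

theorem cmB_nn (Λ0 : 0 ≤ Λ) (X0 : 0 ≤ X2) : 0 ≤ cmB S Λ Lg X2 := by unfold cmB; positivity

/-- the hypothesis `hcm` of `Bd.resB` -/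
theorem hcm (c : Cl S M) (g1 : 1 ≤ Lg) (Λ0 : 0 ≤ Λ) (me : 8 * S.C ^ 2 * S.v ≤ M.s S.J)
    (h : M.s S.J ≤ 4 * sb M m a (v + 1)) (y : ℕ) (_ : u < y) (_ : y ≤ v)
    (hy : sb M m a (v + 1) ≤ M.s y) : cc2 M S m a Λ Lg X2 y ≤ cmB S Λ Lg X2 := by
  have q := sJ_top c me (show _ ≤ 4 * M.s y by linarith)
  have C2 : 1 ≤ S.C ^ 2 := one_le_pow₀ c.C1
  have a1 := pow_le_pow_left₀ (Ug_nn c g1 ((mul_pos_iff_of_pos_left (show 0 < 5 * S.C ^ 2 by
    linarith)).1 (by linarith))) (Ug_top c g1 (by linarith) q) 2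
  have a2 := mul_le_mul_of_nonneg_left a1 (show 0 ≤ 2 * Λ ^ 3 by positivity)
  have a3 := ccB_Ug (M := M) (S := S) (m := m) (a := a) (Lg := Lg) Λ0 y
  unfold cc2 cmB
  linarith

/-- **the slow error at the end of the bulk** -/
theorem be_le (A : At S M m a T) (N : LN E S M l0 l V X Lg X2 X3 G0 η) (E1 : 1 ≤ E) (Λ1 : 1 ≤ Λ)
    (me : 8 * S.C ^ 2 * S.v ≤ M.s S.J) (hv : S.v ≤ 1 / S.n) (h : M.s S.J ≤ 4 * M.s v) (hJ : v ≤ S.J)
    (hl : l ≤ M.s v) {g w : ℝ} (g0 : 0 ≤ g) (w0 : 0 ≤ w) :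
    0 ≤ enB M Λ η v + 1 / (m + 1) + S.C * S.v + onB M S Λ Lg v * g + cmB S Λ Lg X2 * w ∧
    enB M Λ η v + 1 / (m + 1) + S.C * S.v + onB M S Λ Lg v * g + cmB S Λ Lg X2 * w ≤
      11250 * S.C ^ 8 * Λ ^ 3 * (η 1 + Ug S Lg 1 ^ 2 * (g + w) + X2 * w) := by
  have c := A.cl
  have C1 := c.C1
  have C0 := c.C0
  have v0 := v_pos c
  have n0 := c.N0
  have Λ0 : 0 ≤ Λ := by linarith
  have E0 : 0 ≤ E := by linarith
  have g1 : 1 ≤ Lg := (one_le_mul_of_one_le_of_one_le E1 (one_le_pow₀ c.F1)).trans N.Lg0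
  have C2 : 1 ≤ S.C ^ 2 := one_le_pow₀ C1
  have q := sJ_top c me h
  have s0 : 0 < M.s v := (mul_pos_iff_of_pos_left (show 0 < 5 * S.C ^ 2 by linarith)).1 (by linarith)
  have l0' := (l0_nn c N E0).trans N.l0l
  have l1 : l ≤ 1 := (le_mul_of_one_le_left l0' E1).trans N.l1
  have X0 := X2_nn c N E0
  have n1 : 1 / (S.n : ℝ) ≤ η 1 := by
    refine le_trans (le_add_of_nonneg_left ?_) (N.ηb 1 l1 C1)
    have := X3_nn c N E0
    have := G0_nn c N E0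
    have := uw_nn (Lg := Lg) c one_pos
    have : 0 ≤ min (S.ms 1 / 1) 1 := le_min (div_pos (c.ms_pos zero_le_one) one_pos).le zero_le_one
    positivity
  have η0 : 0 ≤ η 1 := le_trans (by positivity) n1
  have a1 := mul_le_mul_of_nonneg_left (eta_top N.ηa N.η2 η0 (by linarith) q) Λ0
  have a2 : (S.n : ℝ) ≤ m := by exact_mod_cast A.mem.m1
  have a3 := one_div_le_one_div_of_le n0 (show (S.n : ℝ) ≤ m + 1 by linarith)
  have a4 := mul_le_mul_of_nonneg_left (hv.trans n1) C0.le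
  have a5 := mul_le_mul_of_nonneg_right (mul_le_mul_of_nonneg_left
    (pow_le_pow_left₀ (Ug_nn c g1 s0) (Ug_top c g1 (by linarith) q) 2) Λ0) g0
  have k1 : S.C ≤ S.C ^ 8 * Λ ^ 3 := (le_self_pow₀ C1 (by norm_num)).trans
    (le_mul_of_one_le_right (by positivity) (one_le_pow₀ Λ1))
  have k2 : S.C ^ 8 * Λ ≤ S.C ^ 8 * Λ ^ 3 :=
    mul_le_mul_of_nonneg_left (le_self_pow₀ Λ1 three_ne_zero) (by positivity)
  have k3 : Λ ≤ S.C ^ 8 * Λ := le_mul_of_one_le_left Λ0 (one_le_pow₀ C1)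
  have b1 := mul_le_mul_of_nonneg_right k1 η0
  have b2 := mul_le_mul_of_nonneg_right k2 η0
  have b3 := mul_le_mul_of_nonneg_right C1 η0
  have y0 : 0 ≤ Ug S Lg 1 ^ 2 * g := by positivity
  have b4 := mul_le_mul_of_nonneg_right k2 y0
  have b5 := mul_le_mul_of_nonneg_right (k3.trans k2) (mul_nonneg X0 w0)
  have b6 : 0 ≤ S.C ^ 8 * Λ ^ 3 * (X2 * w) := by positivity
  have b7 : 0 ≤ S.C ^ 8 * Λ ^ 3 * (Ug S Lg 1 ^ 2 * g) := by positivity
  have e0 := mul_nonneg Λ0 (eta_nn c N E0 s0 hl (c.s_le_C (hJ.trans c.i3)))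
  have e1 := mul_nonneg (cmB_nn (S := S) (Lg := Lg) Λ0 X0) w0
  refine ⟨?_, ?_⟩
  · unfold enB onB; positivity
  · unfold enB onB cmB; linarith

end Crest.Agent.T156.Alt.B75

end
end

-- ▼ part T156/ClTopB_27
section

/-!
Row 156, ALT, text (L) (helper27): the gap terms and the global energy from the bulk data `Bd`.
-/

set_option autoImplicit false

noncomputable section

namespace Crest.Agent.T156.Gap27

open MeasureTheory Set
open Crest.Agent.T156.Cut8 Crest.Agent.T156.Pp.Area50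

/-- **the gap lengths are paid by the quartic term** -/
theorem gl_four {T c1 κ : ℝ} {σ : ℕ → ℝ} {Gn : ℕ → Prop} {u v J : ℕ} {d : ℝ → ℝ} (us : Up σ J)
    (vJ : v ≤ J) (hm : ∀ k ≤ v, σ k ∈ Icc 0 T) (ld : LB T d) (hc : 0 < c1)
    (h : ∀ i j, Cons Gn u v i j → ∀ s t, σ i ≤ s → s ≤ t → t ≤ σ j →
      c1 * (t - s) - c1 / 4 * (σ j - σ i) - κ ≤ d s - d t)
    {i j : ℕ} (hi : u ≤ i) (ij : i ≤ j) (jv : j ≤ v) (gi : Gn i) (gj : Gn j) :
    c1 ^ 4 * ∫ t in σ i..σ j, gl σ Gn u v t ^ 4 ≤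
      32768 * (∫ t in σ i..σ j, d t ^ 4) + 4096 * κ ^ 4 * (σ j - σ i) := by
  have l1 : LB T fun t => gl σ Gn u v t ^ 4 := by
    simpa [← pow_mul] using (LB_gl (σ := σ) (Gn := Gn) (u := u) (v := v) T).sq.sq
  have l2 : LB T fun t => d t ^ 4 := by simpa [← pow_mul] using ld.sq.sq
  have E : ∀ i j, i ≤ v → j ≤ v → ∫ t in σ i..σ j, (32768 * d t ^ 4 + 4096 * κ ^ 4 -
      c1 ^ 4 * gl σ Gn u v t ^ 4) = 32768 * (∫ t in σ i..σ j, d t ^ 4) +
        4096 * κ ^ 4 * (σ j - σ i) - c1 ^ 4 * ∫ t in σ i..σ j, gl σ Gn u v t ^ 4 := fun i j a c => by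
    rw [intervalIntegral.integral_sub ((((LB.const _).mul l2).add (LB.const _)).ii
      (hm i a) (hm j c)) (((LB.const _).mul l1).ii (hm i a) (hm j c)),
      intervalIntegral.integral_add (((LB.const _).mul l2).ii (hm i a) (hm j c))
        ((LB.const _).ii (hm i a) (hm j c))]
    simp only [intervalIntegral.integral_const_mul, intervalIntegral.integral_const, smul_eq_mul]
    ring
  have := int_gaps (Gn := Gn) (u := u) ((((LB.const 32768).mul l2).add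
    (LB.const (4096 * κ ^ 4))).sub ((LB.const (c1 ^ 4)).mul l1)) hm
    (fun i j C => ?_) hi gi j ij jv gj
  · rw [E i j (ij.trans jv) jv] at this
    linarith
  · have iv := C.ij.trans C.jv
    rw [E i j iv C.jv]
    have pq := us.le C.ij (C.jv.trans vJ)
    obtain ⟨p0, pT⟩ := hm i iv
    obtain ⟨q0, qT⟩ := hm j C.jv
    have a1 := gap_cube ld p0 pq qT hc (h i j C)
    have a2 := int_le_const (K := (σ j - σ i) ^ 4) l1 p0 pq qT fun t a c =>
      pow_le_pow_left₀ (gl_nn _) (gl_in us vJ C a c) 4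
    set g := σ j - σ i with hg
    have g0 : 0 ≤ g := by linarith
    have a3 := int_mono ((LB.const (128 * (c1 ^ 2 * g ^ 2))).mul ld.sq)
      (((LB.const 8192).mul l2).add (LB.const (c1 ^ 4 * g ^ 4 / 2))) p0 pq qT
      fun t _ _ => by nlinarith [sq_nonneg (128 * d t ^ 2 - c1 ^ 2 * g ^ 2)]
    rw [intervalIntegral.integral_add (((LB.const _).mul l2).ii ⟨p0, pT⟩ ⟨q0, qT⟩)
      ((LB.const _).ii ⟨p0, pT⟩ ⟨q0, qT⟩)] at a3
    simp only [intervalIntegral.integral_const_mul, intervalIntegral.integral_const,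
      smul_eq_mul, ← hg] at a3
    have b1 := mul_le_mul_of_nonneg_left a2 (pow_pos hc 4).le
    have b2 := mul_le_mul_of_nonneg_left a1 (show 0 ≤ c1 ^ 2 * g ^ 2 by positivity)
    have b3 := mul_nonneg g0 (sq_nonneg (c1 ^ 2 * g ^ 2 - 64 * κ ^ 2))
    nlinarith

end Crest.Agent.T156.Gap27

namespace Crest.Agent.T156.Alt.Mp9

open MeasureTheory Set Real
open Crest.Agent.R164.GC Crest.Agent.R339.B Crest.Agent.R339.Var Crest.Agent.T157.Pf
open Crest.Agent.T156.Pp.Area50 Crest.Agent.T156.Spl27 Crest.Agent.T156.Zb9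
open Crest.Agent.T156.Cut8 (LB Res Fr Cont Jf int_split int_mono int_le_const int_sub_le abs_int_le)
open Crest.Agent.T156.Gap27 (yN HN Cons resN gl NumM HLip xi)

theorem At.LB_uu' {S : Sc} {M : Md} {m : ℕ} {a T : ℝ} (A : At S M m a T) : LB T (uu M S m a T) :=
  (LB.of_mono (Sc48.lvr_mono A.okb.1.1)).sub (LB.of_mono (Sc48.lvr_mono A.okh.1.1))

namespace Bd
variable {S : Sc} {M : Md} {m : ℕ} {a T : ℝ} {Gn : ℕ → Prop} {u v : ℕ}
  {en on c al om Ga : ℕ → ℝ} {l0 ka th ε : ℝ}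
  (B : Bd S M m a T Gn u v en on c al om Ga l0 ka th ε)
include B

theorem slope {i k : ℕ} (n : Nx Gn u v i k) {s t : ℝ} (h1 : sb M m a (i + 1) ≤ s) (st : s ≤ t)
    (h2 : t ≤ sb M m a (k + 1)) : 1 / S.C * (t - s) - 1 / S.C / 4 *
      (sb M m a (k + 1) - sb M m a (i + 1)) - 2 * (S.C * S.v) ≤ uu M S m a T s - uu M S m a T t := by
  have A := B.A
  have C0 := A.c_pos
  have hu := B.hu
  have vp := B.vp
  obtain ⟨n1, n2, n3, -⟩ := id n
  have kJ := (A.sb_mono (Nat.succ_le_succ n3)).trans_lt B.hJ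
  have p := (A.sl kJ s t ((A.sb_mem (k := i) (by omega)).1.trans h1) st h2).1
  have a1 := Sc48.lvr_mono A.okb.1.1 h1
  have a2 := Sc48.lvr_mono A.okb.1.1 h2
  rw [A.lvb_node (by omega) (by omega)] at a1 a2
  have z := (B.gap i k n).1
  have th : th ≤ 1 / S.C / 4 := by
    rw [le_div_iff₀ (by norm_num), le_div_iff₀ C0]
    nlinarith [B.th_le, mul_nonneg C0.le B.th0]
  have := mul_le_mul_of_nonneg_right th (show 0 ≤ sb M m a (k + 1) - sb M m a (i + 1) by linarith)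
  unfold uu
  linarith

theorem mem (k : ℕ) (hk : k ≤ v + 1) : sb M m a k ∈ Icc 0 T :=
  B.A.datB.mem (hk.trans (Nat.succ_le_succ B.vp.le))

/-- the gap part of the source -/
theorem gapM {i k : ℕ} (hi : u ≤ i) (ik : i ≤ k) (kv : k ≤ v) (gi : Gn i) (gk : Gn k) :
    ∫ t in sb M m a (i + 1)..sb M m a (k + 1), mm M S m a t * gB M m a Gn u v t ^ 2 ≤
      2048 * S.C ^ 2 * (∫ t in sb M m a (i + 1)..sb M m a (k + 1),
        mm M S m a t * uu M S m a T t ^ 2) + 2048 * S.C ^ 4 * S.v ^ 2 * T := by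
  have A := B.A
  have C0 := A.c_pos
  have h := Gap27.gl_mass (K := 4) (κ := 2 * (S.C * S.v)) (c1 := 1 / S.C)
    (Gn := fun j => Gn (j - 1)) (u := u + 1) A.ub
    (Nat.succ_le_succ B.vp.le) B.mem A.LB_uu' A.LB_mm (by positivity) (by norm_num)
    (fun i k K s t h1 st h2 => by
      obtain ⟨i, k, rfl, rfl, n⟩ := nx_of K
      have s0 := (B.mem (i + 1) (by have := n.2.1; have := n.2.2.1; omega)).1.trans h1
      have := A.mm_pos s0
      have := A.mm_mono st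
      exact ⟨B.slope n h1 st h2, by linarith, by linarith,
        (A.mm_mono h2).trans (B.mm_dbl n h1 (st.trans h2))⟩)
    (Nat.succ_le_succ hi) (Nat.succ_le_succ ik) (Nat.succ_le_succ kv) gi gk
  obtain ⟨p0, -⟩ := B.mem (i + 1) (by omega)
  obtain ⟨-, qT⟩ := B.mem (k + 1) (by omega)
  have a1 := int_le_const (K := 1) A.LB_mm p0 (A.sb_mono (Nat.succ_le_succ ik)) qT
    fun t _ _ => B.mm1 t
  have a2 := mul_le_mul_of_nonneg_left (a1.trans (show _ ≤ T by linarith))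
    (show 0 ≤ 2048 * S.C ^ 4 * S.v ^ 2 by positivity)
  have a3 := mul_le_mul_of_nonneg_left h (sq_nonneg S.C)
  rw [← mul_assoc, show S.C ^ 2 * (1 / S.C) ^ 2 = 1 by field_simp, one_mul] at a3
  unfold gB
  linarith

/-- the gap part of the clock -/
theorem gap4 {i k : ℕ} (hi : u ≤ i) (ik : i ≤ k) (kv : k ≤ v) (gi : Gn i) (gk : Gn k) :
    ∫ t in sb M m a (i + 1)..sb M m a (k + 1), gB M m a Gn u v t ^ 4 ≤
      32768 * S.C ^ 4 * (∫ t in sb M m a (i + 1)..sb M m a (k + 1), uu M S m a T t ^ 4) +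
        65536 * S.C ^ 8 * S.v ^ 4 * T := by
  have A := B.A
  have C0 := A.c_pos
  have h := Gap27.gl_four (κ := 2 * (S.C * S.v)) (c1 := 1 / S.C)
    (Gn := fun j => Gn (j - 1)) (u := u + 1) A.ub
    (Nat.succ_le_succ B.vp.le) B.mem A.LB_uu' (by positivity)
    (fun i k K s t h1 st h2 => by
      obtain ⟨i, k, rfl, rfl, n⟩ := nx_of K
      exact B.slope n h1 st h2)
    (Nat.succ_le_succ hi) (Nat.succ_le_succ ik) (Nat.succ_le_succ kv) gi gk
  obtain ⟨p0, -⟩ := B.mem (i + 1) (by omega)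
  obtain ⟨-, qT⟩ := B.mem (k + 1) (by omega)
  have a2 := mul_le_mul_of_nonneg_left (show sb M m a (k + 1) - sb M m a (i + 1) ≤ T by linarith)
    (show 0 ≤ 65536 * S.C ^ 8 * S.v ^ 4 by positivity)
  have a3 := mul_le_mul_of_nonneg_left h (pow_pos C0 4).le
  rw [← mul_assoc, show S.C ^ 4 * (1 / S.C) ^ 4 = 1 by field_simp, one_mul] at a3
  unfold gB
  linarith

theorem mass {t : ℝ} (t0 : 0 ≤ t) : mm M S m a t * uu M S m a T t ^ 2 ≤
    HN (lb M S m a T) (lh M T) M.b (sb M m a) (hb M) (S.Jp + 1) (mm M S m a) (Mx M S m a) t *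
      uu M S m a T t := Gap27.HN_floor (B.mm_le_Mx t0)

/-- the source between two good nodes -/
theorem intF (K θ : ℝ) {i k : ℕ} (hi : u ≤ i) (ik : i ≤ k) (kv : k ≤ v) (gi : Gn i) (gk : Gn k) :
    ∫ t in sb M m a (i + 1)..sb M m a (k + 1), fB M S m a Gn u v al ε K θ t ≤
      (∫ t in sb M m a (i + 1)..sb M m a (k + 1), fN M S m a al K θ t) +
      4 * ((200 + 48 * K) * S.C * ε) ^ 2 / θ ^ 2 * (2048 * S.C ^ 2 *
        (∫ t in sb M m a (i + 1)..sb M m a (k + 1), mm M S m a t * uu M S m a T t ^ 2) +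
          2048 * S.C ^ 4 * S.v ^ 2 * T) := by
  have mi := B.mem (i + 1) (by omega)
  have mk := B.mem (k + 1) (by omega)
  unfold fB
  rw [intervalIntegral.integral_add ((B.LB_fN K θ).ii mi mk)
    (((LB.const _).mul (B.A.LB_mm.mul LB_gB.sq)).ii mi mk), intervalIntegral.integral_const_mul]
  exact add_le_add le_rfl (mul_le_mul_of_nonneg_left (B.gapM hi ik kv gi gk) (by positivity))

/-- the clock between two good nodes -/
theorem intW {i k : ℕ} (hi : u ≤ i) (ik : i ≤ k) (kv : k ≤ v) (gi : Gn i) (gk : Gn k) :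
    ∫ t in sb M m a (i + 1)..sb M m a (k + 1), pw2 M S m a Gn c u v l0 ka t ^ 2 ≤
      2 * (∫ t in sb M m a (i + 1)..sb M m a (k + 1), pw M S c u v l0 t ^ 2) +
      2 * ka ^ 2 * (32768 * S.C ^ 4 *
        (∫ t in sb M m a (i + 1)..sb M m a (k + 1), uu M S m a T t ^ 4) +
          65536 * S.C ^ 8 * S.v ^ 4 * T) := by
  have mi := B.mem (i + 1) (by omega)
  have mk := B.mem (k + 1) (by omega)
  have l4 : LB T fun t => gB M m a Gn u v t ^ 4 := by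
    simpa [← pow_mul] using (LB_gB (T := T) (M := M) (m := m) (a := a) (Gn := Gn) (u := u)
      (v := v)).sq.sq
  have a1 := int_mono B.LB_pw2.sq (((LB.const 2).mul B.LB_pw.sq).add
    ((LB.const (2 * ka ^ 2)).mul l4)) mi.1 (B.A.sb_mono (Nat.succ_le_succ ik)) mk.2 fun t _ _ => by
      unfold pw2
      nlinarith [sq_nonneg (pw M S c u v l0 t - ka * gB M m a Gn u v t ^ 2)]
  rw [intervalIntegral.integral_add (((LB.const 2).mul B.LB_pw.sq).ii mi mk)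
    (((LB.const _).mul l4).ii mi mk), intervalIntegral.integral_const_mul,
    intervalIntegral.integral_const_mul] at a1
  exact a1.trans (add_le_add le_rfl
    (mul_le_mul_of_nonneg_left (B.gap4 hi ik kv gi gk) (by positivity)))

theorem A_pos : 0 < sb M m a (u + 1) := by
  have i2 := B.A.cl.i2
  have i3 := B.A.cl.i3
  exact ((B.A.sb_mem (k := S.jl) (by omega)).1.trans_lt (B.A.sb_lt le_rfl (by omega))).trans_le
    (B.A.sb_mono (Nat.succ_le_succ B.hu))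

/-- the area below the window -/
theorem area {ρ D w s : ℝ} (ρ0 : 0 ≤ ρ) (D1 : M.z u ≤ D)
    (D2 : lvr 1 (lh M T) (sb M m a (u + 1)) ≤ D) (w0 : 0 ≤ w) (ws : w ≤ s)
    (As : sb M m a (u + 1) ≤ s) (sT : s ≤ T) :
    ρ * ∫ t in (0 : ℝ)..w, |uu M S m a T t| ≤ ρ * (sb M m a (u + 1) * D) +
      4 * ρ ^ 2 * w / mm M S m a (sb M m a (u + 1)) +
      (∫ t in sb M m a (u + 1)..s, mm M S m a t * uu M S m a T t ^ 2) / 16 := by
  have A := B.A
  have A0 := B.A_pos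
  have μ0 := A.mm_pos A0.le
  have lu := A.LB_uu'
  have AT := As.trans sT
  have z1 := A.lvb_node (k := u) B.hu.le (B.uv.trans B.vp).le
  have a1 : ∫ t in (0 : ℝ)..sb M m a (u + 1), |uu M S m a T t| ≤ (sb M m a (u + 1) - 0) * D :=
    int_le_const lu.abs le_rfl A0.le AT fun t _ h => abs_le.2
      ⟨by unfold uu; linarith [Sc48.lvr_pos A.okb.1.1 t, Sc48.lvr_mono A.okh.1.1 h.le],
        by unfold uu; linarith [Sc48.lvr_pos A.okh.1.1 t, Sc48.lvr_mono A.okb.1.1 h.le]⟩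
  rw [sub_zero] at a1
  have nn : ∀ t, sb M m a (u + 1) < t → 0 ≤ mm M S m a t * uu M S m a T t ^ 2 := fun t h =>
    mul_nonneg (A.mm_pos (A0.le.trans h.le)).le (sq_nonneg _)
  have p0 : 0 ≤ 4 * ρ ^ 2 * w / mm M S m a (sb M m a (u + 1)) := by positivity
  rcases le_total w (sb M m a (u + 1)) with h | h
  · have a2 := int_sub_le lu.abs le_rfl le_rfl w0 h AT fun _ _ _ => abs_nonneg _
    have a3 := int_sub_le (A.LB_mm.mul lu.sq) A0.le le_rfl le_rfl As sT fun t a _ => nn t a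
    rw [intervalIntegral.integral_same] at a3
    linarith [mul_le_mul_of_nonneg_left (a2.trans a1) ρ0]
  · have mA : sb M m a (u + 1) ∈ Icc 0 T := ⟨A0.le, AT⟩
    have mw : w ∈ Icc 0 T := ⟨w0, ws.trans sT⟩
    set μ := mm M S m a (sb M m a (u + 1))
    have a2 := int_mono ((LB.const ρ).mul lu.abs) ((LB.const (4 * ρ ^ 2 / μ)).add
      ((A.LB_mm.mul lu.sq).div 16)) A0.le h mw.2 fun t ht _ => by
        have b1 := mul_le_mul_of_nonneg_right (A.mm_mono ht.le) (sq_nonneg (uu M S m a T t))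
        have b2 : ρ * |uu M S m a T t| ≤ 4 * ρ ^ 2 / μ + μ * uu M S m a T t ^ 2 / 16 := by
          rw [← sq_abs (uu M S m a T t), ← sub_le_iff_le_add, le_div_iff₀ μ0]
          nlinarith [sq_nonneg (μ * |uu M S m a T t| - 8 * ρ)]
        linarith
    rw [intervalIntegral.integral_add ((LB.const _).ii mA mw)
      (((A.LB_mm.mul lu.sq).div 16).ii mA mw), intervalIntegral.integral_const_mul,
      intervalIntegral.integral_const, intervalIntegral.integral_div, smul_eq_mul] at a2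
    have a3 := int_sub_le (A.LB_mm.mul lu.sq) A0.le le_rfl h ws sT fun t a _ => nn t a
    have a4 := mul_le_mul_of_nonneg_right (show w - sb M m a (u + 1) ≤ w by linarith)
      (show 0 ≤ 4 * ρ ^ 2 / μ by positivity)
    rw [int_split lu.abs ⟨le_rfl, mw.1.trans mw.2⟩ mA mw, mul_add,
      show 4 * ρ ^ 2 * w / μ = w * (4 * ρ ^ 2 / μ) by ring]
    linarith [mul_le_mul_of_nonneg_left a1 ρ0]

/-- **the global energy** -/
theorem top {K θ cm c0 ρ D w lam τ P0 : ℝ} {Q : ℝ → Prop}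
    (F : Fr T c0 K (okT T) (lvr 1) Pr.Gam Pr.GG) (hA : HLip Pr.AA T K) (hN : HLip Pr.NN T K)
    (hθ : 0 < θ) (s2 : θ ≤ 1 / 8) (s4 : θ * (3 * (4096 * S.C ^ 2) + (1 + T ^ 2)) ≤ c0 / 8)
    (hε : (17 + 24 * K + 96 * S.C ^ 2) * ε + (24 * K * ε) ^ 2 / θ ≤ θ)
    (hε2 : 2 ^ 17 * ((200 + 48 * K) * S.C ^ 2 * ε) ^ 2 ≤ θ)
    (hka : 2 ^ 16 * S.C ^ 4 * ka ^ 2 ≤ θ * c0) (cm0 : 0 ≤ cm)
    (hcm : ∀ y, u < y → y ≤ v → sb M m a (v + 1) ≤ M.s y → c y ≤ cm) (ρ0 : 0 ≤ ρ)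
    (ab : ∀ i, u ≤ i → i ≤ v → Gn i → |res M S m a T i| ≤
      en i + on i * |L0.Gd (lb M S m a T) (sb M m a (i + 1))| + ρ +
        (l0 * (sb M m a (i + 1) - sb M m a (u + 1)) +
          ka * (∫ r in sb M m a (u + 1)..sb M m a (i + 1), gB M m a Gn u v r ^ 2) +
          (Om M c u v (M.z i) - Om M c u v (lvr 1 (lh M T) (sb M m a (u + 1))))))
    (D1 : M.z u ≤ D) (D2 : lvr 1 (lh M T) (sb M m a (u + 1)) ≤ D) (w0 : 0 < w)
    (ws : w ≤ sb M m a (v + 1)) (lam0 : 0 ≤ lam)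
    (la1 : ρ + K * sb M m a (u + 1) ^ 2 * D ≤ θ * lam ^ 3) (la2 : K * sb M m a (u + 1) ≤ θ * lam)
    (ct : Cont T (fun t => lvr 1 (lb M S m a T) t - lvr 1 (lh M T) t)
      (fun t => Pr.Gam (lb M S m a T) t - Pr.Gam (lh M T) t)
      (resN (lb M S m a T) M.b (sb M m a) (hb M) (v + 1))
      (en v + 1 / (m + 1) + S.C * S.v + on v * |L0.Gd (lb M S m a T) (sb M m a (v + 1))| +
        cm * |uu M S m a T (sb M m a (v + 1))|) 0 (sb M m a (v + 1)) τ Q)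
    (hτ : τ ≤ c0 / 8 * (∫ t in (0 : ℝ)..T, Jf T (lvr 1 (lh M T)) (lvr 1 (lb M S m a T)) t ^ 2) + P0) :
    ∃ Z, 0 ≤ Z ∧ Q Z ∧
      c0 / 8 * (∫ t in (0 : ℝ)..T, Jf T (lvr 1 (lh M T)) (lvr 1 (lb M S m a T)) t ^ 2) +
        (∫ t in sb M m a (u + 1)..sb M m a (v + 1), HN (lb M S m a T) (lh M T) M.b (sb M m a) (hb M)
          (S.Jp + 1) (mm M S m a) (Mx M S m a) t * uu M S m a T t) / 8 + Z / 4 ≤
      θ * (sb M m a (u + 1) * (2 * lam ^ 4) +
        ∫ t in sb M m a (u + 1)..sb M m a (v + 1), fN M S m a al K θ t) +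
      ((S.C * S.v) ^ 2 * T + 3 * (4096 * S.C ^ 2 * (S.C * S.v) ^ 2 * T ^ 3 +
        8 * (S.C * S.v) ^ 4 * T + 6 * S.v) + 2 * S.C ^ 4 * S.v ^ 4 * T) + P0 +
      (16 * ρ ^ 2 / (c0 * w) + ρ * (sb M m a (u + 1) * D) +
        4 * ρ ^ 2 * w / mm M S m a (sb M m a (u + 1))) +
      2 * (∫ t in sb M m a (u + 1)..sb M m a (v + 1), pw M S c u v l0 t ^ 2) / c0 := by
  have A := B.A
  have C0 := A.c_pos
  have v0 := v_pos A.cl
  have hc := F.c_pos
  have K0 := F.C_nn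
  have A0 := B.A_pos
  have hu := B.hu
  have uv := B.uv
  have vp := B.vp
  have vJ := B.vJ
  have i1 := A.cl.i1
  have As : sb M m a (u + 1) < sb M m a (v + 1) :=
    (A.sb_lt hu.le (by omega)).trans_le (A.sb_mono (by omega))
  have sT := (B.mem (v + 1) le_rfl).2
  have hT := A0.le.trans (As.le.trans sT)
  have lu := A.LB_uu'
  have l4 : LB T fun t => uu M S m a T t ^ 4 := by simpa [← pow_mul] using lu.sq.sq
  obtain ⟨r1, r2, β, R, nd, be, aR, -⟩ := B.resB K0 hA hN hθ (by linarith) hε cm0 hcm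
  have bJ : max (sb M m a (v + 1)) (M.s v) < M.s S.J :=
    max_lt B.hJ ((s_lt A.cl vJ).trans_le (A.cl.sm vJ))
  have mH : ∫ t in sb M m a (u + 1)..sb M m a (v + 1), mm M S m a t * uu M S m a T t ^ 2 ≤
      ∫ t in sb M m a (u + 1)..sb M m a (v + 1), HN (lb M S m a T) (lh M T) M.b (sb M m a) (hb M)
        (S.Jp + 1) (mm M S m a) (Mx M S m a) t * uu M S m a T t :=
    int_mono (A.LB_mm.mul lu.sq) (R.lH.mul lu) A0.le As.le sT fun t a _ => B.mass (A0.le.trans a.le)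
  set κ := 4 * ((200 + 48 * K) * S.C * ε) ^ 2 / θ ^ 2 with hκ
  have κ0 : 0 ≤ κ := by positivity
  have k3 : θ * (κ * (2048 * S.C ^ 2)) ≤ 1 / 16 := by
    rw [show θ * (κ * (2048 * S.C ^ 2)) = 2 ^ 17 * ((200 + 48 * K) * S.C ^ 2 * ε) ^ 2 / θ / 16 by
      rw [hκ]; field_simp; ring]
    exact div_le_div_of_nonneg_right ((div_le_one hθ).2 hε2) (by norm_num)
  have pE : 0 ≤ ∫ t in (0 : ℝ)..T, Jf T (lvr 1 (lh M T)) (lvr 1 (lb M S m a T)) t ^ 2 :=
    intervalIntegral.integral_nonneg hT fun _ _ => sq_nonneg _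
  have p4 := int_sub_le l4 le_rfl A0.le As.le le_rfl sT fun _ _ _ => by positivity
  have p4' : 0 ≤ ∫ t in (0 : ℝ)..sb M m a (v + 1), uu M S m a T t ^ 4 :=
    intervalIntegral.integral_nonneg (A0.le.trans As.le) fun _ _ => by positivity
  obtain ⟨Z, ⟨z0, hQ⟩, h⟩ := F.top0 (pb := lb M S m a T) (ph := lh M T) A.okb A.okh
    (Q := fun Z => 0 ≤ Z ∧ Q Z) (b := max (sb M m a (v + 1)) (M.s v)) (l := w) (D := D) (ρ := ρ)
    (f0 := 2 * lam ^ 4) (C1 := S.C) (δ := S.C * S.v) (P0 := P0)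
    (Ω := (2 * (∫ t in sb M m a (u + 1)..sb M m a (v + 1), pw M S c u v l0 t ^ 2) +
      2 * ka ^ 2 * (65536 * S.C ^ 8 * S.v ^ 4 * T)) / c0)
    (Ff := (∫ t in sb M m a (u + 1)..sb M m a (v + 1), fN M S m a al K θ t) +
      κ * (2048 * S.C ^ 4 * S.v ^ 2 * T)) (K3 := κ * (2048 * S.C ^ 2))
    (Ar := ρ * (sb M m a (u + 1) * D) + 4 * ρ ^ 2 * w / mm M S m a (sb M m a (u + 1)))
    A0.le As (le_max_left _ _) (bJ.le.trans ((A.cl.sm A.cl.i3).trans A.t2)) C0 hθ A.LB_mm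
    (B.LB_fB K θ) R (fun t a _ => B.mass (A0.le.trans a.le))
    (by
      have := B.intF K θ le_rfl uv.le le_rfl B.gu B.gv
      have a1 := mul_le_mul_of_nonneg_left mH (show 0 ≤ κ * (2048 * S.C ^ 2) by positivity)
      simp only [uu] at this a1
      linarith) k3
    (fun s t a b c => (A.sl bJ s t a b c).2) (by rw [A.lvh' le_rfl]; exact A.cl.lv0)
    (fun t h => by
      have a1 := Sc48.lvr_mono A.okb.1.1 h.le
      have a2 := Sc48.lvr_mono A.okh.1.1 (le_max_right (sb M m a (v + 1)) (M.s v))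
      rw [A.lvb_node (by omega) vp.le] at a1
      rw [A.lvh_node (by omega) vJ] at a2
      linarith [mul_pos C0 v0])
    (by rw [A.lvb_node hu.le (by omega)]; exact D1) D2 ρ0 (aR ρ ab) (by positivity)
    (.inl ⟨lam, lam0, la1, by
      rw [zero_add, div_le_iff₀ hθ]
      nlinarith [pow_le_pow_left₀ (by positivity) la2 2], le_rfl⟩) w0 (ws.trans sT)
    (by
      have := B.area ρ0 D1 D2 w0.le ws As.le sT
      simp only [uu] at this mH
      linarith [mul_nonneg hc.le pE])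
    (by
      have := A.mm_pos A0.le
      have := (Sc48.lvr_pos A.okh.1.1 _).le.trans D2
      positivity)
    (fun H' r1' r2' ω' β' ξ' R' e1 e2 => by
      obtain ⟨X, Z, q, E, hX⟩ := ct.top (A0.trans As) H' r1' r2' ω' β' ξ' R'
        (e1.trans (nd v uv.le le_rfl B.gv)) (e2.trans be)
      exact ⟨X, Z, q, E, by linarith⟩)
    (by
      have a1 := B.intW le_rfl uv.le le_rfl B.gu B.gv
      have a2 := mul_le_mul_of_nonneg_left p4 (show 0 ≤ 2 ^ 16 * S.C ^ 4 * ka ^ 2 by positivity)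
      have a3 := mul_le_mul_of_nonneg_right hka p4'
      rw [div_le_iff₀ hc, add_mul, div_mul_cancel₀ _ hc.ne']
      simp only [uu] at a1 a2 a3
      linarith) s4 s2
  refine ⟨Z, z0, hQ, ?_⟩
  have e1 : θ * (κ * (2048 * S.C ^ 4 * S.v ^ 2 * T)) ≤ (S.C * S.v) ^ 2 * T := by
    have := mul_le_mul_of_nonneg_right k3 (show 0 ≤ (S.C * S.v) ^ 2 * T by positivity)
    have : 0 ≤ (S.C * S.v) ^ 2 * T := by positivity
    linarith
  have e2 : 2 * ka ^ 2 * (65536 * S.C ^ 8 * S.v ^ 4 * T) / c0 ≤ 2 * S.C ^ 4 * S.v ^ 4 * T := by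
    rw [div_le_iff₀ hc]
    have := mul_le_mul_of_nonneg_right (hka.trans (mul_le_of_le_one_left hc.le (by linarith)))
      (show 0 ≤ 2 * S.C ^ 4 * S.v ^ 4 * T by positivity)
    linarith
  have e3 : 6 * (S.C * S.v) / S.C = 6 * S.v := by field_simp
  have e4 := mul_le_mul_of_nonneg_right (show θ ≤ 1 by linarith)
    (show 0 ≤ 3 * (4096 * S.C ^ 2 * (S.C * S.v) ^ 2 * T ^ 3 + 8 * (S.C * S.v) ^ 4 * T + 6 * S.v) by
      positivity)
  rw [e3, add_div] at h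
  simp only [uu]
  linarith

end Bd

end Crest.Agent.T156.Alt.Mp9

end
end

-- ▼ part T156/ClSum_27
section

/-!
Row 156, ALT, text (L) (helper27): node sums for the clock and for the residual part of the source.
-/

set_option autoImplicit false

noncomputable section

namespace Crest.Agent.T156.Alt.Mp9

open MeasureTheory Set Real
open Crest.Agent.R164.GC Crest.Agent.R339.B Crest.Agent.R339.Var Crest.Agent.T157.Pf
open Crest.Agent.T156.Pp.Area50 Crest.Agent.T156.Spl27 Crest.Agent.T156.Zb9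
open Crest.Agent.T156.Cut8 (LB Res Fr Cont Jf int_split int_mono int_le_const int_sub_le abs_int_le
  int_zero)
open Crest.Agent.T156.Gap27 (yN HN Cons resN gl NumM HLip xi)

namespace At
variable {S : Sc} {M : Md} {m : ℕ} {a T : ℝ}

theorem step_dx (A : At S M m a T) {k : ℕ} (h0 : S.j0 < k) (hk : k < S.J) (i : ℕ) (hi : i < S.J) :
    M.s (i + 1) - M.s i ≤ S.C ^ 2 * (M.z k - M.z (k - 1)) := by
  obtain ⟨k, rfl⟩ : ∃ j, k = j + 1 := ⟨k - 1, by omega⟩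
  have p := (A.cl.zs k (by omega) hk).1
  have q := (A.cl.ss i hi).2
  rw [div_le_iff₀ A.c_pos] at p
  rw [Nat.add_sub_cancel]
  nlinarith [mul_le_mul_of_nonneg_left p A.c_pos.le]

theorem cc_low (A : At S M m a T) (c : ℕ → ℝ) {u : ℕ} (v : ℕ) (hu : S.j0 ≤ u) {t : ℝ}
    (h : t < M.s u) : cc M S c u v t = 0 := by
  obtain ⟨k, ck⟩ := exists_Cell A.uh t
  have := ck.lt A.uh (Nat.succ_pos u) (by rwa [A.sh_succ hu])
  rw [cc, ck.stp A.uh, cut, if_neg (by omega)]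


end At

namespace Bd
variable {S : Sc} {M : Md} {m : ℕ} {a T : ℝ} {Gn : ℕ → Prop} {u v : ℕ}
  {en on c al om Ga : ℕ → ℝ} {l0 ka th ε : ℝ}
  (B : Bd S M m a T Gn u v en on c al om Ga l0 ka th ε)
include B

open Classical in
/-- **the clock** -/
theorem int_pw {p q : ℝ} (p0 : 0 ≤ p) (pq : p ≤ q) (hq : q < M.s S.J) :
    ∫ t in p..q, pw M S c u v l0 t ^ 2 ≤ 2 * l0 ^ 2 * (q - p) + 2 * S.C ^ 6 *
      ∑ y ∈ (Finset.Ioc u v).filter fun y => M.s y ≤ q + S.C * S.v,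
        (M.z y - M.z (y - 1)) * c y ^ 2 := by
  have A := B.A
  have i1 := A.cl.i1
  have i3 := A.cl.i3
  have hu := B.hu
  have vJ := B.vJ
  have zm := A.cl.leg.zm
  have qT : q ≤ T := (hq.le.trans (A.cl.sm i3)).trans A.t2
  have mp : p ∈ Icc 0 T := ⟨p0, pq.trans qT⟩
  have mq : q ∈ Icc 0 T := ⟨p0.trans pq, qT⟩
  have lc : LB T (cc M S c u v) := LB_stp _ _ _ _
  have a1 := int_mono B.LB_pw.sq ((LB.const (2 * l0 ^ 2)).add ((LB.const (2 * S.C ^ 4)).mul lc.sq))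
    p0 pq qT fun t _ _ => by unfold pw; nlinarith [sq_nonneg (l0 - S.C ^ 2 * cc M S c u v t)]
  rw [intervalIntegral.integral_add ((LB.const _).ii mp mq) (((LB.const _).mul lc.sq).ii mp mq),
    intervalIntegral.integral_const, intervalIntegral.integral_const_mul, smul_eq_mul] at a1
  have s0 : 0 ≤ ∑ y ∈ (Finset.Ioc u v).filter fun y => M.s y ≤ q + S.C * S.v,
      (M.z y - M.z (y - 1)) * c y ^ 2 :=
    Finset.sum_nonneg fun y _ => mul_nonneg (sub_nonneg.2 (zm (Nat.sub_le _ _))) (sq_nonneg _)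
  have key : ∫ t in p..q, cc M S c u v t ^ 2 ≤ S.C ^ 2 *
      ∑ y ∈ (Finset.Ioc u v).filter fun y => M.s y ≤ q + S.C * S.v,
        (M.z y - M.z (y - 1)) * c y ^ 2 := by
    rcases le_or_gt q (M.s u) with h | h
    · rw [int_zero pq fun t _ b => by rw [A.cc_low c v (by omega) (b.trans_le h)]; ring]
      positivity
    · obtain ⟨j, j1, j2, j3, j4⟩ := A.exists_ref h.le hq
      have jT : M.s (j + 1) ≤ T := (A.cl.sm (show j + 1 ≤ S.Jp by omega)).trans A.t2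
      have uT : M.s u ∈ Icc 0 T := ⟨s_nn A.cl u, h.le.trans qT⟩
      have b1 := int_sub_le lc.sq le_rfl p0 pq j4.le jT fun _ _ _ => sq_nonneg _
      rw [int_split lc.sq ⟨le_rfl, uT.1.trans uT.2⟩ uT ⟨s_nn A.cl _, jT⟩,
        int_zero uT.1 fun t _ b => by rw [A.cc_low c v (by omega) b]; ring, zero_add] at b1
      have b2 := A.int_ref lc.sq (w := fun k => cut c u v (k + 1) ^ 2) (i := u) (j := j + 1)
        (by omega) (by omega) fun k t a b c1 c2 => by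
          rw [A.cc_cell c u v (by omega) (by omega) c1.le c2]
      refine (b1.trans b2).trans ?_
      rw [Finset.mul_sum, Finset.sum_filter]
      refine le_trans (Finset.sum_le_sum (g := fun k => (fun y => if u < y ∧ y ≤ v then
        S.C ^ 2 * ((M.z y - M.z (y - 1)) * c y ^ 2) else 0) (k + 1)) fun k hk => ?_) ?_
      · rw [Finset.mem_Ico] at hk
        simp only [cut]
        split_ifs with e
        · linarith [mul_le_mul_of_nonneg_right (A.step_dx (k := k + 1) (by omega) (by omega) k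
            (by omega)) (sq_nonneg (c (k + 1)))]
        · simp
      · rw [Finset.sum_Ico_add' (fun y => if u < y ∧ y ≤ v then
          S.C ^ 2 * ((M.z y - M.z (y - 1)) * c y ^ 2) else 0) u (j + 1) 1, ← Finset.sum_filter,
          ← Finset.sum_filter]
        refine Finset.sum_le_sum_of_subset_of_nonneg (fun y hy => ?_) fun y _ _ =>
          mul_nonneg (sq_nonneg _) (mul_nonneg (sub_nonneg.2 (zm (Nat.sub_le _ _))) (sq_nonneg _))
        simp only [Finset.mem_filter, Finset.mem_Ico, Finset.mem_Ioc] at hy ⊢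
        exact ⟨hy.2, by linarith [A.cl.sm (show y ≤ j + 1 by omega), (A.cl.ss j j2).2]⟩
  linarith [mul_le_mul_of_nonneg_left key (show 0 ≤ 2 * S.C ^ 4 by positivity)]

/-- the label clock lost below the first node -/
theorem lost : ∃ r, 0 ≤ r ∧
    Om M c u v (lvr 1 (lh M T) (sb M m a (u + 1))) - Om M c u v (M.z u) ≤ r ∧
    r ^ 2 ≤ sb M m a (u + 1) *
      (2 * (∫ t in (0 : ℝ)..sb M m a (u + 1), pw M S c u v l0 t ^ 2) + S.v) := by
  have A := B.A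
  have i1 := A.cl.i1
  have hu := B.hu
  have uJ := B.uv.trans B.vJ
  have A0 := B.A_pos
  have v0 := v_pos A.cl
  have AJ := (A.sb_mono (Nat.succ_le_succ B.uv.le)).trans_lt B.hJ
  have AT := (B.mem (u + 1) (Nat.succ_le_succ B.uv.le)).2
  have I0 : 0 ≤ ∫ t in (0 : ℝ)..sb M m a (u + 1), pw M S c u v l0 t ^ 2 :=
    intervalIntegral.integral_nonneg A0.le fun _ _ => sq_nonneg _
  rw [← A.lvh_node (k := u) (by omega) uJ]
  rcases le_total (sb M m a (u + 1)) (M.s u) with h | h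
  · exact ⟨0, le_rfl, sub_nonpos.2 (Om_mono M B.c0 u v (Sc48.lvr_mono A.okh.1.1 h)), by
      rw [sq, zero_mul]; positivity⟩
  · have u0 := s_nn A.cl u
    have a1 := B.o2 u0 h AJ
    have a2 := Gap27.sq_int_le B.LB_pw le_rfl A0.le AT
    have a3 := int_sub_le B.LB_pw.abs le_rfl u0 h le_rfl AT fun _ _ _ => abs_nonneg _
    have a4 := int_mono B.LB_pw B.LB_pw.abs u0 h AT fun t _ _ => le_abs_self _
    have a5 : 0 ≤ ∫ t in (0 : ℝ)..sb M m a (u + 1), |pw M S c u v l0 t| :=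
      intervalIntegral.integral_nonneg A0.le fun _ _ => abs_nonneg _
    have a6 := mul_le_mul_of_nonneg_right (B.me.trans h) v0.le
    refine ⟨_ + S.C * S.v, add_nonneg a5 (mul_pos A.c_pos v0).le,
      by linarith [mul_nonneg B.l00 (sub_nonneg.2 h)], ?_⟩
    nlinarith [sq_nonneg ((∫ t in (0 : ℝ)..sb M m a (u + 1), |pw M S c u v l0 t|) - S.C * S.v),
      mul_pos A0 v0]



end Bd

end Crest.Agent.T156.Alt.Mp9

end
end

-- ▼ part T156/BdK_75
section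

/-!
# Row 156, block (L): the bulk `Bk` from the three sums (helper75)
-/

set_option autoImplicit false

noncomputable section

namespace Crest.Agent.T156.Alt.B75

open MeasureTheory Set Real
open Crest.Agent.R164.GC Crest.Agent.R339.B Crest.Agent.R339.Var Crest.Agent.T157.Pf
open Crest.Agent.T156.Gap27 (HLip)
open Crest.Agent.T156.Alt.Mp9 Crest.Agent.T156.Alt.L69 Crest.Agent.T156.Alt.C74
open Crest.Agent.T156.Alt.L31

/-- the clock density of the bulk -/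
def omK (S : Sc) (M : Md) (m : ℕ) (a W : ℝ) (p : Pa) (Gn : ℕ → Prop) (u v : ℕ) : ℝ → ℝ :=
  pw2 M S m a Gn (cc2 M S m a W p.Lg p.X2) u v (2602 * (W * p.X2)) (2 * W ^ 4 / p.Lg)
/-- the source of the bulk -/
def fK (S : Sc) (M : Md) (m : ℕ) (a W ε K θ0 : ℝ) (p : Pa) (Gn : ℕ → Prop) (u v : ℕ) : ℝ → ℝ :=
  fB M S m a Gn u v (alB M W p.η) ε K θ0
/-- the bulk data -/
def BdK (S : Sc) (M : Md) (m : ℕ) (a W ε : ℝ) (p : Pa) (Gn : ℕ → Prop) (u v : ℕ) : Prop :=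
  Bd S M m a (2 * S.C) Gn u v (enB M W p.η) (onB M S W p.Lg) (cc2 M S m a W p.Lg p.X2)
    (alB M W p.η) (omB M S W p.Lg) (GaB M S ε) (2602 * (W * p.X2)) (2 * W ^ 4 / p.Lg) (W / p.Lg) ε

variable {S : Sc} {M : Md} {m : ℕ} {a E lam W W' ε K θ0 : ℝ} {p : Pa} {Gn : ℕ → Prop} {V0 u v : ℕ}

theorem at_of (c : Cl S M) (hm : S.In m a) (H : Hx E lam S M m a p) : At S M m a (2 * S.C) :=
  ⟨c, hm, by linarith [c.b1, H.ln.HJ], by linarith [c.sT, c.C0]⟩

theorem bdK (c : Cl S M) (hm : S.In m a) (H : Hx E lam S M m a p) (G : Ng E W S M m a p Gn V0)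
    (W1 : 1 ≤ W) (θ1 : S.θ ≤ 1) (ε0 : 0 < ε) (ε1 : ε ≤ 1)
    (hE : (1536 * S.C ^ 7 * W ^ 4) ^ 6 * S.F ^ 3 ≤ ε ^ 6 * E) (hu : Vs M p Gn u)
    (hv : Ve S M m a Gn V0 v) (uv : u < v) : BdK S M m a W ε p Gn u v :=
  bd_of2 (at_of c hm H) H.ce H.ln G.ng (le_max_left _ _) W1 θ1 ε0 ε1 hE hu.2 uv hv.2.1 hu.1 hv.1
    hv.2.2.2.2

/-- **the bulk** from the three sums -/
theorem bk_of (H : Hx E lam S M m a p) (G : Ng E W S M m a p Gn V0) (W1 : 1 ≤ W)
    (hu : Vs M p Gn u) (hv : Ve S M m a Gn V0 v) (B : BdK S M m a W ε p Gn u v)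
    (hE : 4 * S.C ^ 2 ≤ E) (vn : S.v ≤ 1 / S.n) (K0 : 0 ≤ K) (hA : HLip Pr.AA (2 * S.C) K)
    (hN : HLip Pr.NN (2 * S.C) K) (h0 : 0 < θ0) (h1 : θ0 ≤ 1)
    (hε : (17 + 24 * K + 96 * S.C ^ 2) * ε + (24 * K * ε) ^ 2 / θ0 ≤ θ0)
    (hW : 11250 * S.C ^ 8 * W ^ 3 ≤ W')
    (hr : ∀ t0 t' Y, p.l ≤ t0 → t0 ≤ M.s u → 12 * S.C ^ 7 * t0 < 1 → sb M m a (u + 1) ≤ t' →
      L4 S p.V p.X t0 (min (2 * t') S.C) Y → 0 ≤ Y →
      2 * (∫ t in (0 : ℝ)..sb M m a (u + 1),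
        pw M S (cc2 M S m a W p.Lg p.X2) u v (2602 * (W * p.X2)) t ^ 2) + S.v ≤
      W' * (t' * p.X2 ^ 2 + Y + 1 / (S.n : ℝ) ^ 3 +
        if 1 ≤ 16 * S.C ^ 5 * t' then p.N + cB M S p.η t0 S.C else 0))
    (hF : ∀ k t0 t', u ≤ k → k ≤ v → Gn k → p.l ≤ t0 → t0 ≤ M.s u →
      4 * S.C ^ 4 * t0 ≤ t' → 12 * S.C ^ 7 * t0 < 1 → M.s k ≤ t' → sb M m a (k + 1) ≤ t' →
      ∫ r in sb M m a (u + 1)..sb M m a (k + 1), fK S M m a W ε K θ0 p Gn u v r ≤
        W' * (cB M S p.η t0 t' + S.F ^ 3 * S.ms t0 * t0 ^ 2 * max (t0 - sb M m a (u + 1)) 0 +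
          1 / (S.n : ℝ) ^ 3) +
        ∫ r in sb M m a (u + 1)..sb M m a (k + 1), HH M S m a (2 * S.C) r * uu M S m a (2 * S.C) r)
    (hΩ : ∀ k t0 t' Y, u ≤ k → k ≤ v → Gn k → p.l ≤ t0 → t0 ≤ M.s u →
      12 * S.C ^ 7 * t0 < 1 → sb M m a (k + 1) ≤ t' → L4 S p.V p.X t0 (min (2 * t') S.C) Y →
      0 ≤ Y → ∫ r in sb M m a (u + 1)..sb M m a (k + 1), omK S M m a W p Gn u v r ^ 2 ≤
        W' * (t' * p.X2 ^ 2 + Y + 1 / (S.n : ℝ) ^ 3 +
          if 1 ≤ 16 * S.C ^ 5 * t' then p.N + cB M S p.η t0 S.C else 0) +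
        θ0 ^ 2 * ∫ r in sb M m a (u + 1)..sb M m a (k + 1), uu M S m a (2 * S.C) r ^ 4) :
    ∃ r1 r2 β, Bk W' θ0 S M m a p Gn u v r1 r2 (omK S M m a W p Gn u v) β
      (fK S M m a W ε K θ0 p Gn u v) := by
  unfold BdK at B
  have A := B.A
  have c := A.cl
  have N := H.ln
  have C1 := c.C1
  have C2 : 1 ≤ S.C ^ 2 := one_le_pow₀ C1
  have W0 : 0 ≤ W := by linarith
  have E1 : 1 ≤ E := by linarith
  have X0 := X2_nn c N (by linarith)
  have g1 : 1 ≤ p.Lg := (one_le_mul_of_one_le_of_one_le E1 (one_le_pow₀ c.F1)).trans N.Lg0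
  have uJ := B.uv.trans B.vJ
  have me := B.me.trans (c.sm uJ.le)
  have sj := c.s_pos (c.i0.trans c.i1)
  have l00 : 0 < p.l0 := (mul_pos (by linarith) sj).trans_le N.l0s
  have lo : max p.l (2 * p.l0) ≤ M.s u := by linarith [hu.2, le_max_right p.l (2 * p.l0)]
  have lu := (le_max_left _ _).trans lo
  obtain ⟨r1, r2, β, R, e1, e2, e3, e4⟩ := B.resB K0 hA hN h0 h1 hε (cmB_nn W0 X0)
    (hcm c g1 W0 me hv.2.2.2.1)
  obtain ⟨r, r0, q1, q2⟩ := B.lost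
  have b := be_le (v := v) A N E1 W1 me vn hv.2.2.1 B.vJ.le (lu.trans (c.sm B.uv.le))
    (abs_nonneg (L0.Gd (lb M S m a (2 * S.C)) (sb M m a (v + 1))))
    (abs_nonneg (uu M S m a (2 * S.C) (sb M m a (v + 1))))
  rw [← e2] at b
  have ρ1 := rho_le (V := p.V) A W0 X0 N.V0 W1 l00 (N.l0l.trans lu) (c.i1.trans B.hu.le) uJ B.me
    fun k hk => G.cru k (by have := c.J_lt; omega)
  have A0 := B.A_pos
  have h8 : 0 ≤ S.C ^ 8 * W ^ 3 := by positivity
  refine ⟨r1, r2, β, B.LB_fB K θ0, R, e1 v B.uv.le le_rfl B.gv, ⟨b.1, b.2.trans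
    (mul_le_mul_of_nonneg_right hW ?_)⟩, ⟨r, r0, fun t0 t' Y a1 a2 a3 a4 a5 a6 => ?_,
    e3 _ fun i i1 i2 gi => ?_⟩, fun t a1 a2 a3 => ?_, fun t t0 => ?_, hF, hΩ⟩
  · exact (mul_nonneg_iff_of_pos_left (by positivity)).1 (b.1.trans b.2)
  · refine q2.trans ?_
    rw [mul_comm W', mul_assoc]
    exact mul_le_mul_of_nonneg_left (hr t0 t' Y a1 a2 a3 a4 a5 a6) A0.le
  · have a1 := ab_of A G.ng W1 (by linarith) X0 lo hv.2.1 hu.1 i i1 i2 gi
    have a2 : 2602 * S.C ^ 3 * W ^ 2 * W ≤ W' := by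
      have := mul_le_mul_of_nonneg_right (pow_le_pow_right₀ C1 (show 3 ≤ 8 by norm_num))
        (pow_nonneg W0 3)
      linarith
    have a3 : 0 ≤ rh S M m a p u := by
      have := c.s_nn u
      unfold rh; positivity
    have a4 : _ ≤ W' * rh S M m a p u := ρ1.trans (mul_le_mul_of_nonneg_right a2 a3)
    linarith
  · have a4 : M.s (S.jl + 1) ≤ t := by
      have p1 := (c.ss S.jl c.jl_lt).2
      have p2 := mul_le_mul_of_nonneg_left (v_le c) c.C0.le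
      have p3 := mul_le_mul_of_nonneg_right hE sj.le
      have p4 := mul_le_mul_of_nonneg_right C2 sj.le
      linarith [N.l0s, N.l0l]
    obtain ⟨n1, n2⟩ := e4 t a1.le a2 a4
    have := A.mm_pos ((A0.trans a1).le)
    have := B.ε0
    exact ⟨_, _, _, by positivity, n1, n2⟩
  · have := A.mm_pos t0
    exact add_nonneg (B.fN_nn K θ0 t0) (by positivity)

end Crest.Agent.T156.Alt.B75

end
end

-- ▼ part T156/BdF_9
section

/-!
Row 156, block (L) (helper9): the node part of the source against the bulk cost.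
-/

set_option autoImplicit false

noncomputable section

namespace Crest.Agent.T156.Alt.Mp9

open MeasureTheory Set Real
open Crest.Agent.T156.Pp.Area50 Crest.Agent.T156.Spl27 Crest.Agent.T156.Zb9
open Crest.Agent.T156.Cut8 (LB int_split int_mono int_le_const int_sub_le)
open Crest.Agent.T156.Alt.L69

variable {S : Sc} {M : Md} {m : ℕ} {a T G1 : ℝ}

theorem ref_ex9 {s : ℕ → ℝ} {i j : ℕ} {t : ℝ} (hij : i ≤ j) (h1 : s i ≤ t) (h2 : t < s j) :
    ∃ k, i ≤ k ∧ k < j ∧ s k ≤ t ∧ t < s (k + 1) := by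
  induction j, hij using Nat.le_induction with
  | base => exact absurd h1 (not_le.2 h2)
  | succ j ij ih =>
    rcases lt_or_ge t (s j) with c | c
    · obtain ⟨k, p, q, r⟩ := ih c
      exact ⟨k, p, by omega, r⟩
    · exact ⟨j, ij, j.lt_succ_self, c, h2⟩

/-- time integrals over the cells of the mean profile -/
theorem At.int_mean9 (A : At S M m a T) {F : ℝ → ℝ} {w : ℕ → ℝ} (lF : LB T F) {i j : ℕ}
    (hij : i ≤ j) (hj : j ≤ S.Jp)
    (h : ∀ k t, i ≤ k → k < j → Cell (sb M m a) (S.Jp + 1) (k + 1) t → F t ≤ w k) :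
    ∫ t in sb M m a (i + 1)..sb M m a (j + 1), F t ≤
      ∑ k ∈ Finset.Ico i j, (sb M m a (k + 2) - sb M m a (k + 1)) * w k := by
  induction j, hij using Nat.le_induction with
  | base => simp
  | succ j ij ih =>
    rw [int_split lF (A.sb_mem (k := i) (by omega)) (A.sb_mem (k := j) (by omega)) (A.sb_mem hj),
      Finset.sum_Ico_succ_top ij]
    exact add_le_add (ih (by omega) fun k t a b => h k t a (by omega)) (int_le_const lF
      (A.sb_mem (k := j) (by omega)).1 (A.sb_mono (Nat.le_succ _)) (A.sb_mem hj).2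
      fun t p q => h j t ij j.lt_succ_self ⟨by omega, fun _ => p.le, fun _ => q⟩)


/-- crude size of the residual in the sloped part -/
theorem At.abs_G9 (A : At S M m a T) (E : CeiG S M G1) {k : ℕ} (h1 : S.jl < k) (h2 : k ≤ S.J) :
    |M.G k| ≤ 2 * S.C ^ 2 * (S.F * S.ms (M.s k) * M.s k) := by
  have h := A.cl
  have kp := h2.trans h.i3
  obtain ⟨p1, p2⟩ := A.Mf_sl le_rfl (h.sm kp) 0 _ le_rfl (h.s_nn k) le_rfl
  have z : Rig.Mf M.b (lh M T) 0 = 0 := by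
    show (0 : ℝ) - M.b * Pp.Ode3.Gam (lh M T) 0 = 0
    rw [Pp.Ode3.Gam_zero (L0.ap_of_ok A.okh.1)]; ring
  rw [A.Mf_node h1 kp, z] at p1 p2
  have q := Ab33.H_le h E h1 h2
  have C0 := h.C0
  have x0 := mul_nonneg (h.ms_pos (h.s_nn k)).le (h.s_nn k)
  have r0 : 0 ≤ S.ms 0 / S.C * (M.s k - 0) :=
    mul_nonneg (div_pos (h.ms_pos le_rfl) C0).le (by linarith [h.s_nn k])
  have r1 : S.C ≤ 2 * S.C ^ 2 * S.F := by nlinarith [h.C1, h.F1, mul_le_mul h.C1 h.F1 zero_le_one C0.le]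
  have r2 := mul_le_mul_of_nonneg_right r1 x0
  exact abs_le.2 ⟨by linarith [h.H_nn k], by linarith⟩

theorem cB_nn9 (h : Cl S M) (η : ℝ → ℝ) (t t' : ℝ) : 0 ≤ cB M S η t t' :=
  Finset.sum_nonneg fun k _ => by
    have := div_pos (h.ms_pos (h.s_nn k)) (show 0 < S.F by linarith [h.F1])
    have := Ab33.cr_one S (M.s k)
    refine mul_nonneg (sub_nonneg.2 (h.leg.zm (Nat.sub_le k 1))) ?_
    unfold mf; positivity


/-- crude location above `l` from the one above `l0` -/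
theorem cru_of_cl9 (h : Cl S M) {lam l0 l V : ℝ} (l00 : 0 < l0) (hl : l0 ≤ l) (L0 : 0 ≤ lam)
    (hV : V ≤ cr S l * l) (c : ∀ k ≤ S.Jp, M.rb m a k ≤ lam * L69.cl S V (max (M.z k) l0)) :
    Cru (2 * lam) S M m a l := fun k hk => by
  have p := Ab33.cc_mono h (lt_max_of_lt_right l00) (max_le_max (le_refl (M.z k)) hl)
  have q := Ab33.cc_mono h (l00.trans_le hl) (le_max_right (M.z k) l)
  have := mul_le_mul_of_nonneg_left (show L69.cl S V (max (M.z k) l0) ≤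
    2 * (cr S (max (M.z k) l) * max (M.z k) l) by unfold L69.cl; linarith) L0
  linarith [c k hk]

namespace Bd
variable {Gn : ℕ → Prop} {u v k : ℕ} {en on c al om Ga : ℕ → ℝ} {l0 ka th ε t0 t' : ℝ} {η : ℝ → ℝ}
  (B : Bd S M m a T Gn u v en on c al om Ga l0 ka th ε) (ce : CeiG S M G1)
include B ce

/-- the residual part -/
theorem intG9 (uk : u ≤ k) (kv : k ≤ v) (hj : M.s (S.jl + 1) ≤ t0) (h1 : t0 ≤ M.s u)
    (h3 : sb M m a (k + 1) ≤ t') :
    ∫ t in sb M m a (u + 1)..sb M m a (k + 1),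
      min (|g2 M S t| ^ ((4 : ℝ) / 3)) (g2 M S t ^ 2 / mm M S m a t) ≤
      384 * S.C ^ 7 * cB M S η t0 t' + (max (t0 - sb M m a (u + 1)) 0 + S.C * S.v) *
        (1536 * S.C ^ 9 * (S.F ^ 3 * S.ms t0 * t0 ^ 2)) := by
  classical
  have A := B.A
  have h := A.cl
  have C0 := h.C0
  have C1 := h.C1
  have F0 : 0 < S.F := by linarith [h.F1]
  have v0 := h.v0
  have vJ := B.vJ
  have i1 := h.i1
  have i3 := h.i3
  have t00 : 0 < t0 := (h.s_pos (Nat.succ_pos _)).trans_le hj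
  have m0 := h.ms_pos t00.le
  have mA := A.sb_mem (k := u) (by omega)
  have mB := A.sb_mem (k := k) (by omega)
  have AB := A.sb_mono (Nat.succ_le_succ uk)
  have BJ := (A.sb_mono (Nat.succ_le_succ kv)).trans_lt B.hJ
  have c0 := cB_nn9 h η t0 t'
  have ex : ∃ i, t0 ≤ M.s i := ⟨u, h1⟩
  obtain ⟨i, i2, i4, i5⟩ : ∃ i, t0 ≤ M.s i ∧ i ≤ u ∧ ∀ j < i, M.s j < t0 :=
    ⟨_, Nat.find_spec ex, Nat.find_min' ex h1, fun j hj => not_le.1 (Nat.find_min ex hj)⟩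
  have ji : S.jl < i := lt_of_not_ge fun d => by
    have := (h.ss S.jl (by have := h.i2; omega)).1
    linarith [h.sm d, div_pos v0 C0]
  have si : M.s i ≤ t0 + S.C * S.v := by
    obtain ⟨i, rfl⟩ : ∃ j, i = j + 1 := ⟨i - 1, by omega⟩
    linarith [(h.ss i (by omega)).2, i5 i i.lt_succ_self]
  have P0 : 0 ≤ 1536 * S.C ^ 9 * (S.F ^ 3 * S.ms t0 * t0 ^ 2) := by positivity
  have low : ∀ t, sb M m a (u + 1) < t → t < M.s i →
      min (|g2 M S t| ^ ((4 : ℝ) / 3)) (g2 M S t ^ 2 / mm M S m a t) ≤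
        1536 * S.C ^ 9 * (S.F ^ 3 * S.ms t0 * t0 ^ 2) := fun t p q => by
    have a1 : S.ms t0 / (384 * S.C ^ 5 * S.F) ≤ mm M S m a t :=
      ((div_le_div_of_nonneg_right (h.msm h1) A.K_pos.le).trans (A.mn_le (y := u)
        ⟨by omega, fun _ => le_rfl, fun _ => A.sb_lt B.hu.le (by omega)⟩)).trans (A.mm_mono p.le)
    have a2 : |g2 M S t| ≤ 2 * S.C ^ 2 * (S.F * S.ms t0 * t0) := by
      unfold g2
      split_ifs with d
      · have b0 := h.s_nn (S.jl + 1)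
        have b1 := h.ms_pos b0
        have b2 : S.C ≤ 2 * S.C ^ 2 * S.F := by
          nlinarith [h.F1, mul_le_mul C1 h.F1 zero_le_one C0.le]
        rw [abs_of_nonneg (by positivity)]
        calc _ ≤ 2 * S.C ^ 2 * S.F * S.ms t0 * t0 := by have := h.msm hj; gcongr
          _ = _ := by ring
      · obtain ⟨j, j1, j2, j3, j4⟩ := ref_ex9 (show S.jl + 1 ≤ i from ji) (not_lt.1 d) q
        rw [A.gt_cell (by omega) (by omega) j3 j4]
        have b1 := (i5 j j2).le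
        have := h.msm b1
        have := h.s_nn j
        exact (A.abs_G9 ce j1 (by omega)).trans (by gcongr)
    refine (min_le_right _ _).trans ((div_le_div₀ (sq_nonneg _) (sq_le_sq' (by linarith [abs_le.1 a2])
      (abs_le.1 a2).2) (div_pos m0 A.K_pos) a1).trans_eq ?_)
    field_simp; ring
  have nn : ∀ t, 0 ≤ t → 0 ≤ min (|g2 M S t| ^ ((4 : ℝ) / 3)) (g2 M S t ^ 2 / mm M S m a t) :=
    fun t ht => le_min (by positivity) (div_nonneg (sq_nonneg _) (A.mm_pos ht).le)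
  have mx1 := le_max_left (t0 - sb M m a (u + 1)) 0
  have mx2 := le_max_right (t0 - sb M m a (u + 1)) 0
  have Cv := mul_pos C0 v0
  rcases le_or_gt (sb M m a (k + 1)) (M.s i) with d | d
  · refine (int_le_const B.LB_min2 mA.1 AB mB.2 fun t p q => low t p (q.trans_le d)).trans ?_
    have := mul_le_mul_of_nonneg_right (show sb M m a (k + 1) - sb M m a (u + 1) ≤
      max (t0 - sb M m a (u + 1)) 0 + S.C * S.v by linarith) P0
    have : 0 ≤ 384 * S.C ^ 7 * cB M S η t0 t' := by positivity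
    linarith
  obtain ⟨j, j1, j2, j3, j4⟩ := ref_ex9 (show i ≤ S.J by omega) d.le BJ
  have x1 := le_max_left (sb M m a (u + 1)) (M.s i)
  have x2 := le_max_right (sb M m a (u + 1)) (M.s i)
  have x3 : max (sb M m a (u + 1)) (M.s i) ≤ sb M m a (k + 1) := max_le AB d.le
  rw [int_split B.LB_min2 mA ⟨mA.1.trans x1, x3.trans mB.2⟩ mB, add_comm]
  refine add_le_add ?_ ((int_le_const B.LB_min2 mA.1 x1 (x3.trans mB.2) fun t p q => low t p
    ((lt_max_iff.1 q).resolve_left (not_lt.2 p.le))).trans (mul_le_mul_of_nonneg_right ?_ P0))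
  · refine (int_sub_le B.LB_min2 (h.s_nn i) x2 x3 j4.le
      ((h.sm (show j + 1 ≤ S.Jp by omega)).trans A.t2) fun t p _ => nn t ((h.s_nn i).trans p.le)).trans
      ((A.int_ref B.LB_min2 (w := fun y => 384 * S.C ^ 5 *
        min (|M.G y| ^ ((4 : ℝ) / 3)) (M.G y ^ 2 / mf S (M.s y))) (by omega) (by omega)
        fun y t p q r s => ?_).trans ?_)
    · have b0 := h.s_nn y
      have b1 := h.ms_pos b0
      have b2 : 1 ≤ 384 * S.C ^ 5 := by linarith [one_le_pow₀ (n := 5) C1]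
      rw [g2, if_neg (not_lt.2 ((h.sm (show S.jl + 1 ≤ y by omega)).trans r.le)),
        A.gt_cell (by omega) (by omega) r.le s, mul_min_of_nonneg _ _ (by linarith)]
      refine min_le_min (le_mul_of_one_le_left (by positivity) b2) ((div_le_div_of_nonneg_left
        (sq_nonneg _) (div_pos b1 A.K_pos) ((div_le_div_of_nonneg_right (h.msm r.le)
          A.K_pos.le).trans (A.mm_ge t))).trans_eq ?_)
      unfold mf; field_simp
    · rw [cB, Finset.mul_sum]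
      refine (Finset.sum_le_sum fun y hy => ?_).trans (Finset.sum_le_sum_of_subset_of_nonneg
        (fun y hy => ?_) fun y _ _ => ?_)
      · obtain ⟨y1, y2⟩ := Finset.mem_Ico.1 hy
        obtain ⟨y, rfl⟩ : ∃ x, y = x + 1 := ⟨y - 1, by omega⟩
        have b0 := div_pos (h.ms_pos (h.s_nn (y + 1))) F0
        have b1 := (h.zs y (by omega) (by omega)).1
        have b2 := (h.ss (y + 1) (by omega)).2
        rw [div_le_iff₀ C0] at b1
        have b3 : M.s (y + 1 + 1) - M.s (y + 1) ≤ S.C ^ 2 * dx M (y + 1) := by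
          have := mul_le_mul_of_nonneg_left b1 C0.le
          simp only [dx, Nat.add_sub_cancel]; linarith
        have b4 : 0 ≤ dx M (y + 1) := sub_nonneg.2 (h.leg.zm (Nat.sub_le _ 1))
        have b5 := Ab33.cr_one S (M.s (y + 1))
        have b6 : 0 ≤ min (|M.G (y + 1)| ^ ((4 : ℝ) / 3)) (M.G (y + 1) ^ 2 / mf S (M.s (y + 1))) :=
          le_min (by positivity) (div_nonneg (sq_nonneg _) b0.le)
        have b7 : 0 ≤ cr S (M.s (y + 1)) * (η (M.s (y + 1)) ^ 2 / mf S (M.s (y + 1))) :=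
          mul_nonneg (by linarith) (div_nonneg (sq_nonneg _) b0.le)
        have b8 := mul_le_mul_of_nonneg_right b3 (mul_nonneg (by positivity : 0 ≤ 384 * S.C ^ 5) b6)
        have b9 : 0 ≤ 384 * S.C ^ 7 * (dx M (y + 1) *
          (cr S (M.s (y + 1)) * (η (M.s (y + 1)) ^ 2 / mf S (M.s (y + 1))))) := by positivity
        linarith
      · obtain ⟨y1, y2⟩ := Finset.mem_Ico.1 hy
        exact Finset.mem_filter.2 ⟨Finset.mem_Ioo.2 ⟨by omega, by omega⟩, i2.trans (h.sm y1),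
          ((h.sm (show y ≤ j by omega)).trans j3).trans h3⟩
      · have := div_pos (h.ms_pos (h.s_nn y)) F0
        have := Ab33.cr_one S (M.s y)
        refine mul_nonneg (by positivity)
          (mul_nonneg (sub_nonneg.2 (h.leg.zm (Nat.sub_le y 1))) ?_)
        unfold mf; positivity
  · rcases le_total (sb M m a (u + 1)) (M.s i) with e | e
    · rw [max_eq_right e]; linarith
    · rw [max_eq_left e]; linarith

/-- **the node part of the source** -/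
theorem intN9 (HJ : M.H S.Jp ≤ S.C) {l Λ0 Λ K θ W : ℝ} (l00 : 0 < l) (L0 : 1 ≤ Λ0) (L1 : 1 ≤ Λ)
    (K0 : 0 ≤ K) (θ0 : 0 < θ) (cru : Cru Λ0 S M m a l) (ηa : Antitone η)
    (η2 : ∀ t, 0 < t → η t ≤ 16 * η (2 * t))
    (hal : ∀ y, u ≤ y → y < k → 0 ≤ al y ∧ al y ≤ Λ * η (M.s y) ∧ meB S m K ≤ Λ * η (M.s y))
    (uk : u ≤ k) (kv : k ≤ v) (hj : M.s (S.jl + 1) ≤ t0) (hl : l ≤ t0) (h1 : t0 ≤ M.s u)
    (h2 : M.s k ≤ t') (h3 : sb M m a (k + 1) ≤ t') (h4 : 4 * S.C ^ 4 * t0 ≤ t')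
    (h5 : 12 * S.C ^ 7 * t0 < 1) (hW : 2 * 10 ^ 15 * S.C ^ 32 * (Λ ^ 2 * Λ0) ≤ θ ^ 2 * W) :
    ∫ t in sb M m a (u + 1)..sb M m a (k + 1), fN M S m a al K θ t ≤ W * (cB M S η t0 t' +
      S.F ^ 3 * S.ms t0 * t0 ^ 2 * max (t0 - sb M m a (u + 1)) 0 + S.F ^ 3 * S.v) := by
  have A := B.A
  have h := A.cl
  have C0 := h.C0
  have C1 := h.C1
  have F0 : 0 < S.F := by linarith [h.F1]
  have v0 := h.v0
  have vJ := B.vJ
  have i3 := h.i3
  have t00 := l00.trans_le hl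
  have m0 := h.ms_pos t00.le
  have mA := A.sb_mem (k := u) (by omega)
  have mB := A.sb_mem (k := k) (by omega)
  have c0 := cB_nn9 h η t0 t'
  have p1 := B.intG9 ce (η := η) uk kv hj h1 h3
  have p2 := A.int_mean9 (B.LB_aN K) (w := fun y => 3763584 * S.C ^ 7 * Λ ^ 2 *
    (η (M.s y) ^ 2 / mf S (M.s y))) uk (by omega) fun y t a1 a2 cy => by
      obtain ⟨b1, b2, b3⟩ := hal y a1 a2
      have b4 : 0 ≤ meB S m K := by unfold meB; positivity
      have b5 := h.ms_pos (h.s_nn y)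
      have b6 := mul_le_mul_of_nonneg_right C1 (b4.trans b3)
      have b7 := mul_le_mul_of_nonneg_left b2 C0.le
      rw [aN, A.nb_cell al cy]
      refine (div_le_div₀ (sq_nonneg _) (pow_le_pow_left₀ (by positivity)
        (show _ ≤ 99 * (S.C * (Λ * η (M.s y))) by linarith) 2) (A.mn_pos y) (A.mn_le cy)).trans_eq ?_
      unfold mn mf; field_simp; ring
  have p3 := Ab33.abel_cB A ce HJ l00 L0 cru ηa η2 ((h.sm (Nat.le_succ _)).trans hj) hl B.hu h1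
    (kv.trans_lt vJ) h2 h4 h5
  simp only [mul_left_comm _ (3763584 * S.C ^ 7 * Λ ^ 2), ← Finset.mul_sum] at p2
  have p4 := p2.trans (mul_le_mul_of_nonneg_left p3 (by positivity))
  have e : ∫ t in sb M m a (u + 1)..sb M m a (k + 1), fN M S m a al K θ t = 2 / θ ^ 2 *
      (2 * (∫ t in sb M m a (u + 1)..sb M m a (k + 1), aN M S m a al K t ^ 2 / mm M S m a t) +
        ∫ t in sb M m a (u + 1)..sb M m a (k + 1),
          min (|g2 M S t| ^ ((4 : ℝ) / 3)) (g2 M S t ^ 2 / mm M S m a t)) := by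
    unfold fN
    rw [intervalIntegral.integral_const_mul, intervalIntegral.integral_add
      (((B.LB_aN K).ii mA mB).const_mul 2) (B.LB_min2.ii mA mB), intervalIntegral.integral_const_mul]
  rw [e, div_mul_eq_mul_div, div_le_iff₀ (by positivity), mul_comm _ (θ ^ 2), ← mul_assoc]
  have x0 : 0 ≤ S.F ^ 3 * S.ms t0 * t0 ^ 2 * max (t0 - sb M m a (u + 1)) 0 :=
    mul_nonneg (by positivity) (le_max_right _ _)
  have x1 : 0 ≤ S.F ^ 3 * S.v := by positivity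
  refine le_trans ?_ (mul_le_mul_of_nonneg_right hW (by positivity))
  have Q1 : 1 ≤ Λ ^ 2 * Λ0 := one_le_mul_of_one_le_of_one_le (one_le_pow₀ L1) L0
  have Q : ∀ i ≤ 32, S.C ^ i ≤ S.C ^ 32 * (Λ ^ 2 * Λ0) := fun i hi =>
    (pow_le_pow_right₀ C1 hi).trans (le_mul_of_one_le_right (by positivity) Q1)
  have q1 := mul_le_mul_of_nonneg_right (Q 7 (by norm_num)) c0
  have q2 := mul_le_mul_of_nonneg_right (Q 9 (by norm_num)) x0
  have q3 := mul_le_mul_of_nonneg_right (Q 10 (by norm_num)) x1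
  have q4 : S.ms t0 * t0 ^ 2 ≤ 1 := mul_le_one₀ ((h.ms1 t0).trans B.θ1) (sq_nonneg _)
    (pow_le_one₀ t00.le (by nlinarith [one_le_pow₀ (n := 7) C1]))
  have q5 := mul_le_mul_of_nonneg_left q4 (by positivity : 0 ≤ S.C ^ 10 * (S.F ^ 3 * S.v))
  have q6 := mul_le_mul_of_nonneg_right (pow_le_pow_right₀ C1 (show 12 ≤ 32 by norm_num))
    (by positivity : 0 ≤ Λ ^ 2 * Λ0 * cB M S η t0 t')
  have q7 : 0 ≤ S.C ^ 32 * (Λ ^ 2 * Λ0) * cB M S η t0 t' := by positivity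
  have q8 : 0 ≤ S.C ^ 32 * (Λ ^ 2 * Λ0) * (S.F ^ 3 * S.v) := by positivity
  have q9 := mul_nonneg (by positivity : 0 ≤ S.C ^ 32 * (Λ ^ 2 * Λ0)) x0
  linarith

end Bd

end Crest.Agent.T156.Alt.Mp9

end
end

-- ▼ part T156/BuH_74

/-!
# Row 156, block (L): the integral clauses of the bulk in node form (helper74)
-/

set_option autoImplicit false
set_option linter.unusedSectionVars false

noncomputable section

namespace Crest.Agent.T156.Alt.B74

open MeasureTheory Set Real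
open Crest.Agent.R164.GC Crest.Agent.R339.B Crest.Agent.R339.Var Crest.Agent.T157.Pf
open Crest.Agent.T156.Cut8 (LB int_mono)
open Crest.Agent.T156.Alt.Mp9 Crest.Agent.T156.Alt.L69 Crest.Agent.T156.Alt.C74
open Crest.Agent.T156.Alt.B75

variable {S : Sc} {M : Md} {m : ℕ} {a E Λ G1 l0 l V X Lg X2 X3 G0 ε K θ W lam ka th k0 N Lq : ℝ}
  {η : ℝ → ℝ} {Gn : ℕ → Prop} {u v : ℕ} {en on c al om Ga : ℕ → ℝ}

/-- the mesh -/
theorem mesh (h : Cl S M) (A5 : 5 ≤ S.A) (hF : S.F ^ 2 ≤ S.n) :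
    S.F ^ 3 * S.v ≤ S.C * (1 / (S.n : ℝ) ^ 3) := by
  have n0 := h.N0
  have n1 : (1 : ℝ) ≤ S.n := Nat.one_le_cast.2 h.n1
  have v0 := v_pos h
  have F1 := h.F1
  have a1 : S.F ^ 3 ≤ (S.n : ℝ) ^ 2 := (pow_le_pow_right₀ F1 (show 3 ≤ 2 * 2 by norm_num)).trans
    (by rw [pow_mul]; exact pow_le_pow_left₀ (sq_nonneg _) hF 2)
  have a2 : S.v * (S.n : ℝ) ^ 5 ≤ S.C :=
    (mul_le_mul_of_nonneg_left (pow_le_pow_right₀ n1 A5) v0.le).trans h.v2
  rw [mul_one_div, le_div_iff₀ (by positivity)]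
  calc S.F ^ 3 * S.v * (S.n : ℝ) ^ 3 ≤ (S.n : ℝ) ^ 2 * S.v * (S.n : ℝ) ^ 3 := by gcongr
    _ = S.v * (S.n : ℝ) ^ 5 := by ring
    _ ≤ S.C := a2

theorem v_mesh (h : Cl S M) (A5 : 5 ≤ S.A) : S.v ≤ S.C * (1 / (S.n : ℝ) ^ 3) := by
  have n0 := h.N0
  have n1 : (1 : ℝ) ≤ S.n := Nat.one_le_cast.2 h.n1
  rw [mul_one_div, le_div_iff₀ (by positivity)]
  exact (mul_le_mul_of_nonneg_left (pow_le_pow_right₀ n1 (by omega)) (v_pos h).le).trans h.v2

theorem n_eta (h : Cl S M) (L : LN E S M l0 l V X Lg X2 X3 G0 η) (E0 : 0 ≤ E) {t : ℝ} (t0 : 0 < t)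
    (h1 : l ≤ t) (h2 : t ≤ S.C) : 1 / (S.n : ℝ) ≤ η t := by
  have a := L.ηb t h1 h2
  have := X2_nn h L E0
  have := X3_nn h L E0
  have := G0_nn h L E0
  have := uw_nn (Lg := Lg) h t0
  have : 0 ≤ min (S.ms t / t) t := le_min (div_pos (h.ms_pos t0.le) t0).le t0.le
  have : 0 ≤ uw S Lg t ^ 3 + uw S Lg t ^ 2 * min (S.ms t / t) t +
    (√(Lg * cr S t * L69.gg S t) + G0 + X2) * (uw S Lg t + √X2) + X3 := by positivity
  linarith

theorem num_F {I I1 I2 I3 κ C v W x y : ℝ} (C1 : 1 ≤ C) (v0 : 0 ≤ v) (v1 : v ≤ 1) (x0 : 0 ≤ x)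
    (y0 : 0 ≤ y) (I20 : 0 ≤ I2) (κ1 : κ * (2048 * C ^ 2) ≤ 1) (hv : v ≤ C * y) {w : ℝ}
    (hw : w ≤ C * y) (hW : 4 * C ^ 4 ≤ W)
    (h : I ≤ I1 + κ * (2048 * C ^ 2 * I2 + 2048 * C ^ 4 * v ^ 2 * (2 * C)))
    (h1 : I1 ≤ W / (2 * C) * (x + w)) (h2 : I2 ≤ I3) : I ≤ W * (x + y) + I3 := by
  have C0 : 0 < C := by linarith
  have W0 : 0 ≤ W := le_trans (by positivity) hW
  have a1 := mul_le_mul_of_nonneg_right κ1 I20
  have a2 := mul_le_mul_of_nonneg_right κ1 (show 0 ≤ 2 * C ^ 3 * v ^ 2 by positivity)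
  have a3 : v ^ 2 ≤ C * y := by nlinarith
  have a4 := mul_le_mul_of_nonneg_left a3 (show 0 ≤ 2 * C ^ 3 by positivity)
  have a5 := mul_le_mul_of_nonneg_right hW y0
  have a6 : W / (2 * C) ≤ W := div_le_self W0 (by linarith)
  have a7 := mul_le_mul_of_nonneg_right a6 x0
  have a8 := mul_le_mul_of_nonneg_left hw (show 0 ≤ W / (2 * C) by positivity)
  have a9 : W / (2 * C) * (C * y) = W * y / 2 := by field_simp
  nlinarith

/-- **`Bk.hF`** -/
theorem hF_of (B : Bd S M m a (2 * S.C) Gn u v en on c (alB M Λ η) om Ga k0 ka th ε)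
    (ce : CeiG S M G1) (L : LN E S M l0 l V X Lg X2 X3 G0 η) (A5 : 5 ≤ S.A)
    (hE : 2 * S.C ^ 2 ≤ E) (Λ1 : 1 ≤ Λ) (l1 : 1 ≤ lam) (K0 : 0 ≤ K) (θ0 : 0 < θ) (θ1 : θ ≤ 1)
    (Vl : V ≤ cr S l * l) (cru : ∀ k ≤ S.Jp, M.rb m a k ≤ lam * cl S V (max (M.z k) l0))
    (lH : LB (2 * S.C) (HH M S m a (2 * S.C)))
    (hε : 8192 * ((200 + 48 * K) * S.C ^ 2 * ε) ^ 2 ≤ θ ^ 2)
    (hW : 10 ^ 16 * S.C ^ 41 * ((218 + 48 * K) ^ 2 * Λ ^ 2 * lam) ≤ θ ^ 2 * W)
    (k : ℕ) (t0 t' : ℝ) (uk : u ≤ k) (kv : k ≤ v) (gk : Gn k) (hl : l ≤ t0) (h1 : t0 ≤ M.s u)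
    (h4 : 4 * S.C ^ 4 * t0 ≤ t') (h5 : 12 * S.C ^ 7 * t0 < 1) (h2 : M.s k ≤ t')
    (h3 : sb M m a (k + 1) ≤ t') :
    ∫ r in sb M m a (u + 1)..sb M m a (k + 1), fB M S m a Gn u v (alB M Λ η) ε K θ r ≤
      W * (cB M S η t0 t' + S.F ^ 3 * S.ms t0 * t0 ^ 2 * max (t0 - sb M m a (u + 1)) 0 +
        1 / (S.n : ℝ) ^ 3) + ∫ r in sb M m a (u + 1)..sb M m a (k + 1),
        HH M S m a (2 * S.C) r * uu M S m a (2 * S.C) r := by
  have A := B.A
  have h := A.cl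
  have C1 := h.C1
  have C0 := h.C0
  have F1 := h.F1
  have n0 := h.N0
  have n1 : (1 : ℝ) ≤ S.n := Nat.one_le_cast.2 h.n1
  have v0 := v_pos h
  have vJ := B.vJ
  have i3 := h.i3
  have i2 := h.i2
  have C2 : 1 ≤ S.C ^ 2 := one_le_pow₀ C1
  have E1 : 1 ≤ E := by linarith
  have vl := v_le h
  have j0 : 0 < M.s S.jl := (pos_iff_pos_of_mul_pos (v0.trans_le vl)).1 C0
  have l00 : 0 < l0 := lt_of_lt_of_le (mul_pos (by linarith) j0) L.l0s
  have lp : 0 < l := l00.trans_le L.l0l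
  have hj : M.s (S.jl + 1) ≤ t0 := by
    have b1 := (h.ss S.jl (by omega)).2
    have b2 := mul_le_mul_of_nonneg_left vl C0.le
    have b3 := mul_le_mul_of_nonneg_right hE j0.le
    have b4 := mul_le_mul_of_nonneg_right C2 j0.le
    linarith [L.l0s, L.l0l]
  have Fn : S.F ^ 2 ≤ S.n :=
    ((le_mul_of_one_le_left (sq_nonneg _) E1).trans L.Lg0).trans L.Lg1
  have mv := mesh h A5 Fn
  have C4 : 1 ≤ S.C ^ 4 := one_le_pow₀ C1
  have k1 : (218 : ℝ) ≤ 218 + 48 * K := by linarith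
  have k2 : 218 + 48 * K ≤ (218 + 48 * K) * S.C ^ 4 := le_mul_of_one_le_right (by linarith) C4
  have k3 : (218 + 48 * K) * S.C ^ 4 ≤ (218 + 48 * K) * S.C ^ 4 * Λ :=
    le_mul_of_one_le_right (by linarith) Λ1
  have me : meB S m K ≤ (218 + 48 * K) * S.C ^ 4 * Λ * (1 / (S.n : ℝ)) := by
    have b1 : (14 : ℝ) / (m + 1) ≤ 14 * (1 / (S.n : ℝ)) := by
      rw [mul_one_div]
      exact div_le_div_of_nonneg_left (by norm_num) n0
        (by linarith [(Nat.cast_le.2 A.mem.m1 : (S.n : ℝ) ≤ m)])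
    have b2 : S.F * S.v ≤ S.C * (1 / (S.n : ℝ)) :=
      ((mul_le_mul_of_nonneg_right (le_self_pow₀ F1 three_ne_zero) v0.le).trans mv).trans
        (mul_le_mul_of_nonneg_left (one_div_le_one_div_of_le n0 (le_self_pow₀ n1 three_ne_zero))
          C0.le)
    have b3 := mul_le_mul_of_nonneg_left b2 (show 0 ≤ (204 + 48 * K) * S.C ^ 3 by positivity)
    have b4 := mul_le_mul_of_nonneg_right k3 (show 0 ≤ 1 / (S.n : ℝ) by positivity)
    have b5 := mul_le_mul_of_nonneg_right C4 (show 0 ≤ 14 * (1 / (S.n : ℝ)) by positivity)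
    unfold meB
    linarith
  have W1 : 10 ^ 16 * S.C ^ 41 ≤ W := by
    have b1 : 1 ≤ (218 + 48 * K) ^ 2 * Λ ^ 2 * lam := one_le_mul_of_one_le_of_one_le
      (one_le_mul_of_one_le_of_one_le (one_le_pow₀ (by linarith)) (one_le_pow₀ Λ1)) l1
    have b2 := (le_mul_of_one_le_right (by positivity) b1).trans hW
    have b3 : 0 < W := (pos_iff_pos_of_mul_pos (lt_of_lt_of_le (by positivity) b2)).1 (by positivity)
    exact b2.trans (mul_le_of_le_one_left b3.le (pow_le_one₀ θ0.le θ1))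
  have hN := B.intN9 ce L.HJ (Λ := (218 + 48 * K) * S.C ^ 4 * Λ) (W := W / (2 * S.C)) lp
    (show 1 ≤ 2 * lam by linarith) (by linarith) K0 θ0
    (cru_of_cl9 h l00 L.l0l (by linarith) Vl cru) L.ηa L.η2 (fun y y1 y2 => by
      have b1 : l ≤ M.s y := (hl.trans h1).trans (h.sm y1)
      have b2 := n_eta h L (by linarith) (lp.trans_le b1) b1
        ((h.sm (show y ≤ S.Jp by omega)).trans h.sT)
      have b3 : 0 ≤ η (M.s y) := le_trans (by positivity) b2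
      refine ⟨by unfold alB; positivity, mul_le_mul_of_nonneg_right
        (mul_le_mul_of_nonneg_right (by linarith) (by linarith)) b3,
        me.trans (mul_le_mul_of_nonneg_left b2 (by linarith))⟩)
    uk kv hj hl h1 h2 h3 h4 h5 (by
      rw [← mul_div_assoc, le_div_iff₀ (by positivity)]
      refine le_trans ?_ hW
      have : 0 ≤ S.C ^ 41 * ((218 + 48 * K) ^ 2 * Λ ^ 2 * lam) := by positivity
      linarith [show 2 * 10 ^ 15 * S.C ^ 32 * (((218 + 48 * K) * S.C ^ 4 * Λ) ^ 2 * (2 * lam)) *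
        (2 * S.C) = 8 * 10 ^ 15 * (S.C ^ 41 * ((218 + 48 * K) ^ 2 * Λ ^ 2 * lam)) by ring])
  have p0 := B.A_pos
  have pq := A.sb_mono (Nat.succ_le_succ uk)
  have qT := (B.mem (k + 1) (Nat.succ_le_succ kv)).2
  have t00 : 0 ≤ t0 := lp.le.trans hl
  refine num_F C1 v0.le ?_ ?_ (by positivity) ?_ ?_ (v_mesh h A5) mv ?_
    (B.intF K θ le_rfl uk kv B.gu gk) hN
    (int_mono (A.LB_mm.mul A.LB_uu'.sq) (lH.mul A.LB_uu') p0.le pq qT fun r r1 _ =>
      B.mass (p0.le.trans r1.le))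
  · have b1 := B.me.trans ((h.sm (show u ≤ S.Jp by omega)).trans h.sT)
    have b2 : S.C ≤ S.C ^ 2 := le_self_pow₀ C1 two_ne_zero
    by_contra b3
    linarith [mul_le_mul_of_nonneg_left (not_le.1 b3).le (sq_nonneg S.C)]
  · have := cB_nn9 h η t0 t'
    have := A.ms_pos t00
    positivity
  · exact intervalIntegral.integral_nonneg pq fun r r1 =>
      mul_nonneg (A.mm_pos (p0.le.trans r1.1)).le (sq_nonneg _)
  · rw [div_mul_eq_mul_div, div_le_one (by positivity)]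
    linarith [show 4 * ((200 + 48 * K) * S.C * ε) ^ 2 * (2048 * S.C ^ 2) =
      8192 * ((200 + 48 * K) * S.C ^ 2 * ε) ^ 2 by ring]
  · have : S.C ^ 4 ≤ S.C ^ 41 := pow_le_pow_right₀ C1 (by norm_num)
    linarith

/-- the square of the clock density -/
theorem pw_le (B : Bd S M m a (2 * S.C) Gn u v en on (cc2 M S m a Λ Lg X2) al om Ga
      (2602 * (Λ * X2)) ka th ε) {p q t0 t' Q : ℝ} (p0 : 0 ≤ p) (pq : p ≤ q) (hq : q < M.s S.J)
    (h0 : t0 ≤ M.s u) (h3 : q ≤ t')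
    (hQ : ∑ y ∈ (Finset.range S.J).filter fun y => t0 ≤ M.s y ∧ M.s y ≤ 2 * t',
      M.dz m a y * min (E61.u4 M m a y ^ 2) (2 * Λ ^ 2 * G89.Ug S Lg (M.s y) ^ 2) ^ 2 ≤ Q) :
    ∫ t in p..q, pw M S (cc2 M S m a Λ Lg X2) u v (2602 * (Λ * X2)) t ^ 2 ≤
      Λ ^ 2 * (2 * 10 ^ 7 * S.C ^ 7 * (t' * X2 ^ 2) + 4 * S.C ^ 6 * Q) := by
  have A := B.A
  have h := A.cl
  have C1 := h.C1
  have C0 := h.C0
  have v0 := v_pos h
  have vJ := B.vJ
  have hu := B.hu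
  have i1 := h.i1
  have t0' : 0 ≤ t' := (p0.trans pq).trans h3
  have cv : S.v ≤ S.C * S.v := le_mul_of_one_le_left v0.le C1
  have cv2 : S.C * S.v ≤ S.C ^ 2 * S.v :=
    mul_le_mul_of_nonneg_right (le_self_pow₀ C1 two_ne_zero) v0.le
  have me := B.me
  set U := (Finset.Ioc u v).filter fun y => M.s y ≤ q + S.C * S.v with hU
  have mem : ∀ y ∈ U, u < y ∧ y ≤ v ∧ M.s y ≤ 2 * t' ∧ S.v ≤ t' := fun y hy => by
    rw [hU, Finset.mem_filter, Finset.mem_Ioc] at hy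
    have := h.sm hy.1.1.le
    exact ⟨hy.1.1, hy.1.2, by linarith [hy.2], by linarith [hy.2]⟩
  have a1 : ∑ y ∈ U, (M.z y - M.z (y - 1)) ≤ 4 * S.C * t' := by
    rcases U.eq_empty_or_nonempty with e | e
    · rw [e, Finset.sum_empty]; positivity
    · obtain ⟨b1, b2, b3, b4⟩ := mem _ (U.max'_mem e)
      refine (Finset.sum_le_sum_of_subset_of_nonneg (t := Finset.Ioc u (U.max' e))
        (fun y hy => Finset.mem_Ioc.2 ⟨(mem y hy).1, U.le_max' y hy⟩) fun y _ _ =>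
          A.dz_nn y).trans ?_
      rw [At.sum_dz M b1.le]
      have b5 := (h.z_s (k := U.max' e) (by omega) (by omega)).2
      have b6 := mul_le_mul_of_nonneg_left (show M.s (U.max' e) + 2 * S.v ≤ 4 * t' by linarith)
        C0.le
      linarith [(E61.lg A).z_nonneg u]
  have a2 : ∑ y ∈ U, (M.z y - M.z (y - 1)) *
      min (E61.u4 M m a y ^ 2) (2 * Λ ^ 2 * G89.Ug S Lg (M.s y) ^ 2) ^ 2 ≤ Q := by
    refine le_trans ?_ hQ
    rw [Finset.sum_congr rfl fun y hy => by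
      rw [← Md67.dz_up (m := m) (a := a) h.leg (show 0 < y by have := (mem y hy).1; omega)]]
    refine Finset.sum_le_sum_of_subset_of_nonneg (fun y hy => ?_) fun y _ _ =>
      mul_nonneg ((E61.lg A).dz_nonneg y) (sq_nonneg _)
    obtain ⟨b1, b2, b3, -⟩ := mem y hy
    exact Finset.mem_filter.2 ⟨Finset.mem_range.2 (by omega), h0.trans (h.sm b1.le), b3⟩
  have a3 : ∑ y ∈ U, (M.z y - M.z (y - 1)) * cc2 M S m a Λ Lg X2 y ^ 2 ≤
      2 * Λ ^ 2 * Q + 2 * (Λ * X2) ^ 2 * (4 * S.C * t') := by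
    refine le_trans ?_ (add_le_add (mul_le_mul_of_nonneg_left a2 (by positivity))
      (mul_le_mul_of_nonneg_left a1 (by positivity)))
    rw [Finset.mul_sum, Finset.mul_sum, ← Finset.sum_add_distrib]
    refine Finset.sum_le_sum fun y _ => ?_
    unfold cc2 ccB
    generalize min (E61.u4 M m a y ^ 2) (2 * Λ ^ 2 * G89.Ug S Lg (M.s y) ^ 2) = g
    linarith [mul_nonneg (A.dz_nn y) (sq_nonneg (Λ * g - Λ * X2))]
  have a4 := B.int_pw p0 pq hq
  have a5 := mul_le_mul_of_nonneg_left a3 (show 0 ≤ 2 * S.C ^ 6 by positivity)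
  have a6 := mul_le_mul_of_nonneg_left (show q - p ≤ t' by linarith)
    (show 0 ≤ 2 * (2602 * (Λ * X2)) ^ 2 by positivity)
  have a7 := mul_le_mul_of_nonneg_right (one_le_pow₀ C1 : 1 ≤ S.C ^ 7)
    (show 0 ≤ Λ ^ 2 * (t' * X2 ^ 2) by positivity)
  have a8 : 0 ≤ S.C ^ 7 * (Λ ^ 2 * (t' * X2 ^ 2)) := by positivity
  linarith

theorem num_W {I C Λ Lq W x Y Z y e : ℝ} (C1 : 1 ≤ C) (Λ1 : 1 ≤ Λ) (L1 : 1 ≤ Lq) (x0 : 0 ≤ x)
    (Y0 : 0 ≤ Y) (Z0 : 0 ≤ Z) (y0 : 0 ≤ y) (hW : 10 ^ 8 * C ^ 10 * (Λ ^ 2 * Lq) ≤ W)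
    (h : I ≤ Λ ^ 2 * (2 * 10 ^ 7 * C ^ 7 * x + 4 * C ^ 6 * (Lq * (Y + Z))))
    (he : e ≤ 2 ^ 18 * C ^ 10 * y) : 2 * I + e ≤ W * (x + Y + y + Z) := by
  have C0 : 0 < C := by linarith
  have b1 : 1 ≤ Λ ^ 2 := one_le_pow₀ Λ1
  have b2 : Λ ^ 2 ≤ Λ ^ 2 * Lq := le_mul_of_one_le_right (by positivity) L1
  have c7 : C ^ 7 ≤ C ^ 10 := pow_le_pow_right₀ C1 (by norm_num)
  have c6 : C ^ 6 ≤ C ^ 10 := pow_le_pow_right₀ C1 (by norm_num)
  have a1 : C ^ 7 * Λ ^ 2 ≤ C ^ 10 * (Λ ^ 2 * Lq) :=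
    mul_le_mul c7 b2 (by positivity) (by positivity)
  have a2 : C ^ 6 * (Λ ^ 2 * Lq) ≤ C ^ 10 * (Λ ^ 2 * Lq) :=
    mul_le_mul_of_nonneg_right c6 (by positivity)
  have a3 : C ^ 10 ≤ C ^ 10 * (Λ ^ 2 * Lq) := le_mul_of_one_le_right (by positivity) (b1.trans b2)
  have a0 : 0 ≤ C ^ 10 * (Λ ^ 2 * Lq) := by positivity
  have d1 := mul_le_mul_of_nonneg_right (show 4 * 10 ^ 7 * (C ^ 7 * Λ ^ 2) ≤ W by linarith) x0
  have d2 := mul_le_mul_of_nonneg_right (show 8 * (C ^ 6 * (Λ ^ 2 * Lq)) ≤ W by linarith)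
    (add_nonneg Y0 Z0)
  have d3 := mul_le_mul_of_nonneg_right (show 2 ^ 18 * C ^ 10 ≤ W by linarith) y0
  linarith

section clock

variable (B : Bd S M m a (2 * S.C) Gn u v en on (cc2 M S m a Λ Lg X2) al om Ga
    (2602 * (Λ * X2)) ka th ε) (A5 : 5 ≤ S.A) (Λ1 : 1 ≤ Λ) (L1 : 1 ≤ Lq) (N0 : 0 ≤ N)
  (hW : 10 ^ 8 * S.C ^ 10 * (Λ ^ 2 * Lq) ≤ W)
  (hQ : ∀ t0 t1 Y, l ≤ t0 → 12 * S.C ^ 7 * t0 < 1 → L4 S V X t0 (min t1 S.C) Y → 0 ≤ Y →
    ∑ y ∈ (Finset.range S.J).filter fun y => t0 ≤ M.s y ∧ M.s y ≤ t1,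
      M.dz m a y * min (E61.u4 M m a y ^ 2) (2 * Λ ^ 2 * G89.Ug S Lg (M.s y) ^ 2) ^ 2 ≤
      Lq * (Y + if 1 ≤ 8 * S.C ^ 5 * t1 then N + cB M S η t0 S.C else 0))
include B A5 Λ1 L1 N0 hW hQ

theorem pw_W {p q t0 t' Y e : ℝ} (p0 : 0 ≤ p) (pq : p ≤ q) (hq : q < M.s S.J) (hl : l ≤ t0)
    (h1 : t0 ≤ M.s u) (h5 : 12 * S.C ^ 7 * t0 < 1) (h3 : q ≤ t')
    (h4 : L4 S V X t0 (min (2 * t') S.C) Y) (Y0 : 0 ≤ Y)
    (he : e ≤ 2 ^ 18 * S.C ^ 10 * (1 / (S.n : ℝ) ^ 3)) :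
    2 * (∫ t in p..q, pw M S (cc2 M S m a Λ Lg X2) u v (2602 * (Λ * X2)) t ^ 2) + e ≤
      W * (t' * X2 ^ 2 + Y + 1 / (S.n : ℝ) ^ 3 +
        if 1 ≤ 16 * S.C ^ 5 * t' then N + cB M S η t0 S.C else 0) := by
  have q := hQ t0 (2 * t') Y hl h5 h4 Y0
  rw [show 8 * S.C ^ 5 * (2 * t') = 16 * S.C ^ 5 * t' by ring] at q
  refine num_W B.A.cl.C1 Λ1 L1 (mul_nonneg ((p0.trans pq).trans h3) (sq_nonneg _)) Y0 ?_
    (by positivity) hW (pw_le B p0 pq hq h1 h3 q) he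
  split_ifs
  · exact add_nonneg N0 (cB_nn9 B.A.cl η _ _)
  · exact le_rfl

/-- **`Bk.hΩ`** -/
theorem hΩ_of (hka : 2 ^ 16 * S.C ^ 4 * ka ^ 2 ≤ θ ^ 2) (k : ℕ) (t0 t' Y : ℝ) (uk : u ≤ k)
    (kv : k ≤ v) (gk : Gn k) (hl : l ≤ t0) (h1 : t0 ≤ M.s u) (h5 : 12 * S.C ^ 7 * t0 < 1)
    (h3 : sb M m a (k + 1) ≤ t') (h4 : L4 S V X t0 (min (2 * t') S.C) Y) (Y0 : 0 ≤ Y) :
    ∫ r in sb M m a (u + 1)..sb M m a (k + 1),
      pw2 M S m a Gn (cc2 M S m a Λ Lg X2) u v (2602 * (Λ * X2)) ka r ^ 2 ≤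
      W * (t' * X2 ^ 2 + Y + 1 / (S.n : ℝ) ^ 3 +
        if 1 ≤ 16 * S.C ^ 5 * t' then N + cB M S η t0 S.C else 0) +
      θ ^ 2 * ∫ r in sb M m a (u + 1)..sb M m a (k + 1), uu M S m a (2 * S.C) r ^ 4 := by
  have A := B.A
  have h := A.cl
  have C1 := h.C1
  have C0 := h.C0
  have v0 := v_pos h
  have vJ := B.vJ
  have i3 := h.i3
  have pq := A.sb_mono (Nat.succ_le_succ uk)
  have v1 : S.v ≤ 1 := by
    have b1 := B.me.trans ((h.sm (show u ≤ S.Jp by omega)).trans h.sT)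
    have b2 : S.C ≤ S.C ^ 2 := le_self_pow₀ C1 two_ne_zero
    by_contra b3
    linarith [mul_le_mul_of_nonneg_left (not_le.1 b3).le (sq_nonneg S.C)]
  have a1 : ka ^ 2 * S.v ^ 4 ≤ S.C * (1 / (S.n : ℝ) ^ 3) :=
    ((mul_le_of_le_one_left (by positivity) (pow_le_one₀ B.ka0 B.ka1)).trans
      (pow_le_of_le_one v0.le v1 four_ne_zero)).trans (v_mesh h A5)
  have a2 := mul_le_mul_of_nonneg_left a1 (show 0 ≤ 2 ^ 18 * S.C ^ 9 by positivity)
  have a3 := pw_W B A5 Λ1 L1 N0 hW hQ (e := 2 ^ 18 * S.C ^ 9 * (ka ^ 2 * S.v ^ 4)) B.A_pos.le pq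
    ((A.sb_mono (Nat.succ_le_succ kv)).trans_lt B.hJ) hl h1 h5 h3 h4 Y0 (by linarith)
  have a4 := B.intW le_rfl uk kv B.gu gk
  have a5 := mul_le_mul_of_nonneg_right hka (intervalIntegral.integral_nonneg (μ := volume)
    (f := fun r => uu M S m a (2 * S.C) r ^ 4) pq fun r _ => by positivity)
  linarith


end clock

end Crest.Agent.T156.Alt.B74

end
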