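import Crest.Agent.T156.LOb_25
import Crest.Agent.T156.LDef_69

-- ▼ part T156/LOut_25
section

/-!
Row 156, block (L) (helper25): the output `LO` from the energy.
-/

set_option autoImplicit false

noncomputable section

namespace Crest.Agent.T156.Alt.L25

open MeasureTheory Set Real
open Crest.Agent.R164.GC Crest.Agent.R339.B Crest.Agent.R339.Var Crest.Agent.T157.Pf
open Crest.Agent.T156.Spl27 Crest.Agent.T156.Zb9
open Crest.Agent.T156.Lo25 Crest.Agent.T156.Cut8 Crest.Agent.T156.Alt.Mp9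
open Crest.Agent.T156.Alt.L69 (mf LO dx GS GP Pla)
open Crest.Agent.T156.Pr.Mid8.Mid (ff)

variable {S : Sc} {M : Md} {m : ℕ} {a T B a0 a1 s Q t0 ℓ u1 En : ℝ}

/-- **the energy facts**: `a0` lower end of the energy, `[a1, s]` the mass zone, `Q` the last time,
`ℓ` the level below which the nodes are not located -/
structure Eo (S : Sc) (M : Md) (m : ℕ) (a T a0 a1 s Q t0 ℓ u1 En : ℝ) : Prop where
  a00 : 0 ≤ a0
  a01 : a0 ≤ a1
  a1t : a1 ≤ t0
  j0a : M.s S.j0 ≤ a1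
  jl : M.s S.jl < t0
  a1s : a1 ≤ s
  sJ : s ≤ M.s S.J
  Q1 : M.s S.Jp ≤ Q
  Q2 : Q ≤ T
  en : ∫ t in a0..T, Jf T (lvr 1 (lh M T)) (lvr 1 (lb M S m a T)) t ^ 2 ≤ En
  room : ∀ t, a1 ≤ t → t < M.s S.J → -(2 * S.C ^ 2 * (t - a0)) ≤ uu M S m a T t
  mass : ∫ t in a1..s, mf S t * uu M S m a T t ^ 2 ≤ En
  l0 : 0 ≤ ℓ
  low : ∀ k < S.J, t0 ≤ M.s k → a1 ≤ sb M m a (k + 1) ∨ 2 * a1 ≤ M.s k ∨ M.s k ≤ ℓ
  l5 : ℓ ^ 5 ≤ En
  l3 : mf S ℓ * ℓ ^ 3 ≤ En
  neg : S.θ * ∫ t in s..M.s S.J, min (uu M S m a T t) 0 ^ 2 ≤ En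
  top : S.θ * ∫ t in s..Q, |t - M.s S.Jp| * ff (lb M S m a T) (lh M T) (M.s S.Jp) t ≤ En
  cub : ∫ t in M.s S.Jp..Q, (t - M.s S.Jp) ^ 2 * (1 - lvr 1 (lb M S m a T) t) ≤ En
  zs : ∀ t < s, lvr 1 (lb M S m a T) t ≤ M.z (S.J - 1)
  last : 1 - lvr 1 (lb M S m a T) Q ≤ u1
  γ3 : (M.s S.Jp - M.s S.J) ^ 3 ≤ En
  En0 : 0 < En
  En1 : En ≤ 1
  v4 : S.v ≤ 1 / (S.n : ℝ) ^ 4

theorem cs_25 {U : Finset ℕ} {w f : ℕ → ℝ} (hw : ∀ k, 0 ≤ w k) :
    (∑ k ∈ U, w k * f k ^ 2) ^ 2 ≤ (∑ k ∈ U, w k) * ∑ k ∈ U, w k * f k ^ 4 := by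
  have := Finset.sum_mul_sq_le_sq_mul_sq U (fun k => √(w k)) fun k => √(w k) * f k ^ 2
  simp only [mul_pow, ← mul_assoc, Real.mul_self_sqrt (hw _), Real.sq_sqrt (hw _), ← pow_mul] at this
  exact this

theorem sq4_25 (x y z w : ℝ) : (x + y + z + w) ^ 2 ≤ 4 * (x ^ 2 + y ^ 2 + z ^ 2 + w ^ 2) := by
  linarith [sq_nonneg (x - y), sq_nonneg (x - z), sq_nonneg (x - w),
    sq_nonneg (y - z), sq_nonneg (y - w), sq_nonneg (z - w)]

theorem LB_ff (A : At S M m a T) (σ : ℝ) : LB T (ff (lb M S m a T) (lh M T) σ) := by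
  have := LB_ite (T := T) (p := fun t => t < σ) measurableSet_Iio (LB_max A.LB_u (LB.const 0))
    A.LB_u.abs
  unfold ff
  convert this

theorem ff_nn (lb lh : List (ℝ × ℝ)) (σ t : ℝ) : 0 ≤ ff lb lh σ t := by
  unfold ff; split_ifs
  · exact le_max_right _ _
  · exact abs_nonneg _

theorem LB_top (A : At S M m a T) (σ : ℝ) :
    LB T fun t => |t - σ| * ff (lb M S m a T) (lh M T) σ t :=
  (LB.of_cont (by fun_prop)).mul (LB_ff A σ)

theorem mf_pos (A : At S M m a T) {t : ℝ} (ht : 0 ≤ t) : 0 < mf S t :=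
  div_pos (A.ms_pos ht) (by linarith [A.cl.F1])

theorem mf_mono (A : At S M m a T) : Monotone (mf S) := fun _ _ h =>
  div_le_div_of_nonneg_right (A.cl.msm h) (by linarith [A.cl.F1])

theorem mf_θ (A : At S M m a T) {t : ℝ} (ht : 0 ≤ t) : mf S t ≤ S.θ :=
  (div_le_self (A.ms_pos ht).le A.cl.F1).trans (A.cl.ms1 t)

theorem mf_half (A : At S M m a T) {t : ℝ} (ht : 0 ≤ t) : mf S t ≤ 4 * mf S (t / 2) := by
  have := A.cl.ms2 (t / 2) (by linarith)
  rw [show 2 * (t / 2) = t by ring] at this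
  unfold mf
  rw [← mul_div_assoc]
  exact div_le_div_of_nonneg_right this (by linarith [A.cl.F1])

theorem cm_le (A : At S M m a T) (hC : S.C ≤ B) : 0 ≤ S.C / (m + 1) ∧ S.C / (m + 1) ≤ B * (1 / S.n) := by
  have C0 := A.c_pos
  have n0 := A.cl.N0
  have : (S.n : ℝ) ≤ m := by exact_mod_cast A.mem.m1
  refine ⟨by positivity, ?_⟩
  rw [mul_one_div]
  exact div_le_div₀ (by linarith) hC n0 (by linarith)

/-- the numbers of the quartic sum -/
theorem num4 {C v w y I4 E : ℝ} (B1 : 1 ≤ B) (C0 : 0 ≤ C) (hC : C ≤ B) (T0 : 0 ≤ T) (hT : T ≤ B)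
    (v0 : 0 ≤ v) (vw : v ≤ w) (w1 : w ≤ 1) (y0 : 0 ≤ y) (yB : y ≤ 3 * B) (E0 : 0 ≤ En)
    (y3 : y ^ 3 ≤ 9 * (65 * B ^ 2 * En + B ^ 3 * w)) (l0 : 0 ≤ ℓ) (l1 : ℓ ≤ 1) (l5 : ℓ ^ 5 ≤ En)
    (hE : E ≤ En) {d : ℝ} (_ : 0 ≤ d) (hd : d ≤ T)
    (h4 : I4 ≤ 4096 * C ^ 4 * (E + (C * v) ^ 2 * T ^ 3) + 8 * (C * v) ^ 4 * T) :
    2 ^ 4 * (4 * (2 * C) ^ 3 * (I4 + (C * v) ^ 4 * d)) + (2 * y) ^ 4 * (C ^ 2 * y + C * v) +
      ℓ ^ 4 * (C ^ 2 * ℓ + C * v) ≤ 3000000 * B ^ 12 * (En + w) := by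
  have w0 := v0.trans vw
  have v1 := vw.trans w1
  have B0 : 0 ≤ B := by linarith
  have pw : ∀ i, i ≤ 12 → B ^ i ≤ B ^ 12 := fun i hi => pow_le_pow_right₀ B1 hi
  have v2 : v ^ 2 ≤ w := (pow_le_of_le_one v0 v1 (by norm_num)).trans vw
  have v4 : v ^ 4 ≤ w := (pow_le_of_le_one v0 v1 (by norm_num)).trans vw
  have a1 : C ^ 7 * E ≤ B ^ 12 * En :=
    (mul_le_mul_of_nonneg_left hE (by positivity)).trans (mul_le_mul_of_nonneg_right
      ((pow_le_pow_left₀ C0 hC 7).trans (pw 7 (by norm_num))) E0)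
  have a2 : C ^ 9 * T ^ 3 * v ^ 2 ≤ B ^ 12 * w := by
    have : C ^ 9 * T ^ 3 * v ^ 2 ≤ B ^ 9 * B ^ 3 * w := by gcongr
    linarith
  have a3 : C ^ 7 * T * v ^ 4 ≤ B ^ 12 * w := by
    have : C ^ 7 * T * v ^ 4 ≤ B ^ 7 * B * w := by gcongr
    nlinarith [mul_le_mul_of_nonneg_right (pw 8 (by norm_num)) w0]
  have a4 : C ^ 7 * d * v ^ 4 ≤ C ^ 7 * T * v ^ 4 := by gcongr
  have a5 : C ^ 2 * y ^ 2 * y ^ 3 ≤ B ^ 2 * (3 * B) ^ 2 * (9 * (65 * B ^ 2 * En + B ^ 3 * w)) := by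
    gcongr
  have a6 : y ^ 4 * C * v ≤ (3 * B) ^ 4 * B * w := by gcongr
  have a7 : C ^ 2 * ℓ ^ 5 ≤ B ^ 2 * En := by gcongr
  have a8 : ℓ ^ 4 * C * v ≤ 1 ^ 4 * B * w := by gcongr
  have b1 := mul_le_mul_of_nonneg_right (pw 6 (by norm_num)) E0
  have b2 := mul_le_mul_of_nonneg_right (pw 2 (by norm_num)) E0
  have b3 := mul_le_mul_of_nonneg_right (pw 7 (by norm_num)) w0
  have b4 := mul_le_mul_of_nonneg_right (pw 5 (by norm_num)) w0
  have b5 := mul_le_mul_of_nonneg_right (pw 1 (by norm_num)) w0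
  have b6 := mul_le_mul_of_nonneg_left h4 (show 0 ≤ 512 * C ^ 3 by positivity)
  have b7 : 0 ≤ B ^ 12 * En := by positivity
  have b8 : 0 ≤ B ^ 12 * w := by positivity
  linarith

/-- the numbers of the quadratic sum -/
theorem num2 {C v w y I2 X l : ℝ} (B1 : 1 ≤ B) (C0 : 0 ≤ C) (hC : C ≤ B) (T0 : 0 ≤ T) (hT : T ≤ B)
    (v0 : 0 ≤ v) (vw : v ≤ w) (w1 : w ≤ 1) (y0 : 0 ≤ y) (yB : y ≤ 3 * B) (E0 : 0 ≤ En)
    (EX : En ≤ X) (y3 : y ^ 3 ≤ 9 * (65 * B ^ 2 * En + B ^ 3 * w)) (l0 : 0 ≤ l) (l1 : l ≤ 1)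
    (l3 : l ^ 3 ≤ X) {d : ℝ} (d0 : 0 ≤ d) (hd : d ≤ T) (h2 : I2 ≤ (5 + C) * X + C * v * T) :
    2 ^ 2 * (2 * (2 * C) * (I2 + (C * v) ^ 2 * d)) + (2 * y) ^ 2 * (C ^ 2 * y + C * v) +
      l ^ 2 * (C ^ 2 * l + C * v) ≤ 2500 * B ^ 7 * (X + w) := by
  have w0 := v0.trans vw
  have v1 := vw.trans w1
  have B0 : 0 ≤ B := by linarith
  have X0 := E0.trans EX
  have pw : ∀ i, i ≤ 7 → B ^ i ≤ B ^ 7 := fun i hi => pow_le_pow_right₀ B1 hi
  have v2 : v ^ 2 ≤ w := (pow_le_of_le_one v0 v1 (by norm_num)).trans vw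
  have a1 : C * X ≤ B * X := by gcongr
  have a1' : C ^ 2 * X ≤ B ^ 2 * X := by gcongr
  have a2 : C ^ 2 * T * v ≤ B ^ 2 * B * w := by gcongr
  have a3 : C ^ 3 * d * v ^ 2 ≤ B ^ 3 * B * w := by have := hd.trans hT; gcongr
  have a5 : C ^ 2 * y ^ 3 ≤ B ^ 2 * (9 * (65 * B ^ 2 * X + B ^ 3 * w)) := by
    have : y ^ 3 ≤ 9 * (65 * B ^ 2 * X + B ^ 3 * w) := y3.trans (by gcongr)
    gcongr
  have a6 : y ^ 2 * C * v ≤ (3 * B) ^ 2 * B * w := by gcongr
  have a7 : C ^ 2 * l ^ 3 ≤ B ^ 2 * X := by gcongr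
  have a8 : l ^ 2 * C * v ≤ 1 ^ 2 * B * w := by gcongr
  have b1 := mul_le_mul_of_nonneg_right (pw 1 (by norm_num)) X0
  have b2 := mul_le_mul_of_nonneg_right (pw 2 (by norm_num)) X0
  have b3 := mul_le_mul_of_nonneg_right (pw 4 (by norm_num)) X0
  have b4 := mul_le_mul_of_nonneg_right (pw 1 (by norm_num)) w0
  have b5 := mul_le_mul_of_nonneg_right (pw 3 (by norm_num)) w0
  have b6 := mul_le_mul_of_nonneg_right (pw 4 (by norm_num)) w0
  have b7 := mul_le_mul_of_nonneg_right (pw 5 (by norm_num)) w0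
  have b8 := mul_le_mul_of_nonneg_left h2 (show 0 ≤ 16 * C by positivity)
  have c7 : 0 ≤ B ^ 7 * X := by positivity
  have c8 : 0 ≤ B ^ 7 * w := by positivity
  linarith

namespace Eo

variable (E : Eo S M m a T a0 a1 s Q t0 ℓ u1 En) (A : At S M m a T)
include E A

theorem w1 : 1 / (S.n : ℝ) ^ 4 ≤ 1 := by
  have _ := E.l0
  have : (1 : ℝ) ≤ S.n := by exact_mod_cast A.cl.n1
  rw [div_le_one (by positivity)]; exact one_le_pow₀ this

theorem l1 : ℓ ≤ 1 := by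
  have _ := A.c_pos
  exact le_of_pow_le_pow_left₀ (n := 5) (by norm_num) zero_le_one (by simpa using E.l5.trans E.En1)

/-- the excess of the last sloped node -/
theorem exc (hC : S.C ≤ B) (hT : T ≤ B) : ∃ y, 0 ≤ y ∧ y ≤ 3 * B ∧
    y ^ 3 ≤ 9 * (65 * B ^ 2 * En + B ^ 3 * (1 / (S.n : ℝ) ^ 4)) ∧
    sb M m a (S.J - 1 + 1) ≤ M.s (S.J - 1) + y := by
  have C0 := A.c_pos
  have C1 := A.cl.C1
  have v0 := v_pos A.cl
  have v1 := E.v4.trans (E.w1 A)
  obtain ⟨j1, j2, j3⟩ := A.J_pred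
  have g0 : 0 ≤ M.s S.Jp - M.s S.J := sub_nonneg.2 (A.cl.sm A.cl.i3)
  have c := A.exc_cube E.a00 (by linarith [E.a01, E.a1s, E.sJ])
  have sT := (A.sb_mem (j2.le.trans A.cl.i3)).2
  rw [j3] at sT ⊢
  set y0 := max (sb M m a S.J - M.s S.Jp) 0 with hy
  have y00 : 0 ≤ y0 := le_max_right _ _
  have y01 : y0 ≤ T := max_le (by linarith [s_nn A.cl S.Jp]) A.T_nn
  have cv : S.C * S.v ≤ B := (mul_le_of_le_one_right C0.le v1).trans hC
  have cv0 : 0 ≤ S.C * S.v := by positivity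
  refine ⟨y0 + (M.s S.Jp - M.s S.J) + S.C * S.v, by positivity,
    by linarith [A.t2, s_nn A.cl S.J], ?_, by linarith [A.s_pred.2, le_max_left (sb M m a S.J - M.s S.Jp) 0]⟩
  have h3 : ∀ x y z : ℝ, 0 ≤ x → 0 ≤ y → 0 ≤ z → (x + y + z) ^ 3 ≤ 9 * (x ^ 3 + y ^ 3 + z ^ 3) :=
    fun x y z a b c => by
      nlinarith [mul_nonneg (add_nonneg a b) (sq_nonneg (x - y)),
        mul_nonneg (add_nonneg a c) (sq_nonneg (x - z)),
        mul_nonneg (add_nonneg b c) (sq_nonneg (y - z)),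
        mul_nonneg (add_nonneg (add_nonneg a b) c)
          (add_nonneg (add_nonneg (sq_nonneg (x - y)) (sq_nonneg (x - z))) (sq_nonneg (y - z)))]
  refine (h3 _ _ _ y00 g0 cv0).trans (mul_le_mul_of_nonneg_left ?_ (by norm_num))
  have E0 := E.En0.le
  have c1 : 64 * S.C ^ 2 * ∫ t in a0..T, Jf T (lvr 1 (lh M T)) (lvr 1 (lb M S m a T)) t ^ 2 ≤
      64 * B ^ 2 * En := (mul_le_mul_of_nonneg_left E.en (by positivity)).trans (by gcongr)
  have c2 : (S.C * S.v) ^ 3 ≤ B ^ 3 * (1 / (S.n : ℝ) ^ 4) := by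
    rw [mul_pow]
    exact mul_le_mul (pow_le_pow_left₀ C0.le hC 3)
      ((pow_le_of_le_one v0.le v1 (by norm_num)).trans E.v4) (by positivity)
      (pow_nonneg (C0.le.trans hC) 3)
  have c3 : En ≤ B ^ 2 * En := le_mul_of_one_le_left E0 (one_le_pow₀ (C1.trans hC))
  linarith [E.γ3]

/-- the quartic sum of the times -/
theorem four (hC : S.C ≤ B) (hT : T ≤ B) {U : Finset ℕ}
    (hU : ∀ k ∈ U, S.j0 < k ∧ k < S.J ∧ t0 ≤ M.s k) :
    ∑ k ∈ U, (M.z k - M.z (k - 1)) * |sb M m a (k + 1) - M.s k| ^ 4 ≤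
      3000000 * B ^ 12 * (En + 1 / (S.n : ℝ) ^ 4) := by
  have B1 := A.cl.C1.trans hC
  have E0 := E.En0.le
  rcases U.eq_empty_or_nonempty with rfl | ⟨k, hk⟩
  · simp only [Finset.sum_empty]; positivity
  obtain ⟨j1, j2, j3⟩ := A.J_pred
  have hb : a1 ≤ M.s (S.J - 1) := E.a1t.trans ((hU k hk).2.2.trans
    (A.cl.sm (by have := (hU k hk).2.1; omega)))
  obtain ⟨y, y0, y1, y2, y3⟩ := E.exc A hC hT
  have p := A.win_pow j1 j2 E.j0a hb y0 E.l0 y3 (U := U) (fun k hk => by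
    obtain ⟨k1, k2, k3⟩ := hU k hk
    exact ⟨k1, by omega, E.a1t.trans k3, E.low k k2 k3⟩) 3
  have q := A.ut_four j1 j2 E.a00 E.a01 hb (B0 := T) (by rw [j3]; exact A.sJ_T) le_rfl
    fun t ht => E.room t ht.1 (ht.2.trans_lt A.s_pred.1)
  have r := num4 B1 A.c_pos.le hC A.T_nn hT (v_pos A.cl).le E.v4 (E.w1 A) y0 y1 E0 y2 E.l0 (E.l1 A)
    E.l5 E.en (d := M.s (S.J - 1) - a1) (by linarith)
    (by linarith [A.s_pred.1, A.sJ_T, E.a00, E.a01]) q
  refine p.trans (le_of_eq_of_le ?_ r)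
  norm_num

/-- the quadratic integral above `a'` -/
theorem int_two {t a' : ℝ} (t1 : 0 ≤ t) (h1 : a1 ≤ a') (h2 : t / 2 ≤ a') (hb : a' ≤ M.s (S.J - 1)) :
    ∫ r in a'..M.s (S.J - 1), |ut M S m a T (S.J - 1) r| ^ 2 ≤
      (5 + S.C) * (En / mf S t) + S.C * S.v * T := by
  simp only [sq_abs]
  have C0 := A.c_pos
  have v0 := v_pos A.cl
  have E0 := E.En0.le
  have m0 := mf_pos A t1
  have θ0 := A.cl.θ0
  obtain ⟨j1, j2, j3⟩ := A.J_pred
  have sp := A.s_pred.1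
  have sT := A.sJ_T
  have a0' : 0 ≤ a1 := E.a00.trans E.a01
  have lu : LB T (uu M S m a T) := A.LB_u
  have l2 := (A.LB_ut (S.J - 1)).sq
  have lm : LB T fun r => mf S r * uu M S m a T r ^ 2 := (LB.of_mono (mf_mono A)).mul lu.sq
  have X0 : 0 ≤ En / mf S t := by positivity
  have cv : 0 ≤ S.C * S.v * T := by have := A.T_nn; positivity
  have F1 : ∀ x y, a' ≤ x → x ≤ y → y ≤ s → y ≤ M.s (S.J - 1) →
      ∫ r in x..y, ut M S m a T (S.J - 1) r ^ 2 ≤ 4 * (En / mf S t) := fun x y b1 b2 b3 b4 => by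
    have p := int_mono ((LB.const (mf S t / 4)).mul l2) lm (by linarith) b2 (by linarith)
      fun r r1 r2 => mul_le_mul (by linarith [mf_half A t1, mf_mono A (show t / 2 ≤ r by linarith)])
        (A.ut_sign (A.zh_le_8 (by linarith))).2.2.2.1 (sq_nonneg _) (mf_pos A (by linarith)).le
    rw [intervalIntegral.integral_const_mul] at p
    have q := int_sub_le lm a0' (by linarith : a1 ≤ x) b2 b3 (by linarith [E.sJ])
      fun r r1 _ => mul_nonneg (mf_pos A (by linarith)).le (sq_nonneg _)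
    rw [← mul_div_assoc, le_div_iff₀ m0]
    linarith [E.mass]
  have F2 : ∀ x y, s ≤ x → x ≤ y → y ≤ M.s (S.J - 1) →
      ∫ r in x..y, ut M S m a T (S.J - 1) r ^ 2 ≤
        (1 + S.C) * (En / mf S t) + S.C * S.v * T := fun x y b1 b2 b3 => by
    have s0 : 0 ≤ s := a0'.trans E.a1s
    have sp' : M.s S.J ≤ M.s S.Jp := A.cl.sm A.cl.i3
    have ln := (LB_min lu (LB.const 0)).sq
    have lt := LB_top A (M.s S.Jp)
    have mx : x ∈ Icc 0 T := ⟨by linarith, by linarith⟩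
    have my : y ∈ Icc 0 T := ⟨by linarith, by linarith⟩
    have p := int_mono l2 ((ln.add ((LB.const S.C).mul lt)).add (LB.const (S.C * S.v))) mx.1 b2 my.2
      fun r r1 r2 => by
        have u1 := (A.ut_sign (k0 := S.J - 1) (A.zh_le_8 (t := r) (by linarith))).2.2.2.2
        have u2 := A.below (t := r) (by linarith) (by linarith)
        have u3 : max (uu M S m a T r) 0 ≤ 1 := max_le ((le_abs_self _).trans
          (Sc48.lvr_sub_le A.okh.1.1 A.okb.1.1 r)) zero_le_one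
        have u4 := mul_le_mul_of_nonneg_left u2 (le_max_right (uu M S m a T r) 0)
        have u5 := mul_le_of_le_one_left (show 0 ≤ S.C * S.v by positivity) u3
        have u6 : ff (lb M S m a T) (lh M T) (M.s S.Jp) r = max (uu M S m a T r) 0 :=
          if_pos (by linarith)
        rw [u6, abs_sub_comm, abs_of_nonneg (by linarith : 0 ≤ M.s S.Jp - r)]
        linarith
    rw [intervalIntegral.integral_add ((ln.add ((LB.const S.C).mul lt)).ii mx my)
      ((LB.const _).ii mx my), intervalIntegral.integral_add (ln.ii mx my)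
      (((LB.const S.C).mul lt).ii mx my), intervalIntegral.integral_const_mul,
      intervalIntegral.integral_const, smul_eq_mul] at p
    have q1 := int_sub_le ln s0 b1 b2 (show y ≤ M.s S.J by linarith) sT fun _ _ _ => sq_nonneg _
    have q2 := int_sub_le lt s0 b1 b2 (show y ≤ Q by linarith [E.Q1]) E.Q2
      fun _ _ _ => mul_nonneg (abs_nonneg _) (ff_nn _ _ _ _)
    have x1 : En / S.θ ≤ En / mf S t := div_le_div_of_nonneg_left E0 m0 (mf_θ A t1)
    have r1 : ∫ t in s..M.s S.J, min (uu M S m a T t) 0 ^ 2 ≤ En / S.θ := by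
      rw [le_div_iff₀ θ0]; linarith [E.neg]
    have r2 : ∫ t in s..Q, |t - M.s S.Jp| * ff (lb M S m a T) (lh M T) (M.s S.Jp) t ≤ En / S.θ := by
      rw [le_div_iff₀ θ0]; linarith [E.top]
    have r3 := mul_le_mul_of_nonneg_left ((q2.trans r2).trans x1) C0.le
    have r4 := mul_le_mul_of_nonneg_right (show y - x ≤ T by linarith [mx.1, my.2])
      (show 0 ≤ S.C * S.v by positivity)
    linarith
  have cX := mul_nonneg C0.le X0
  rcases le_total s a' with c | c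
  · linarith [F2 _ _ c hb le_rfl]
  rcases le_total s (M.s (S.J - 1)) with d | d
  · rw [int_split l2 (b := s) ⟨by linarith, by linarith⟩ ⟨by linarith, by linarith⟩
      ⟨by linarith, by linarith⟩]
    linarith [F1 _ _ le_rfl c le_rfl d, F2 _ _ le_rfl d le_rfl]
  · linarith [F1 _ _ le_rfl hb d le_rfl]

/-- the quadratic sum of the times -/
theorem two (hC : S.C ≤ B) (hT : T ≤ B) (hθ : S.θ ≤ 1) {t t' : ℝ} (h1 : t0 ≤ t) (h2 : t ≤ t')
    {U : Finset ℕ} (hU : ∀ k ∈ U, S.j0 < k ∧ k < S.J ∧ t ≤ M.s k ∧ M.s k ≤ t') :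
    ∑ k ∈ U, (M.z k - M.z (k - 1)) * |sb M m a (k + 1) - M.s k| ^ 2 ≤
      2500 * B ^ 7 * (min (√(t' * En)) (En / mf S t) + 1 / (S.n : ℝ) ^ 2) := by
  have C0 := A.c_pos
  have C1 := A.cl.C1
  have B1 := C1.trans hC
  have E0 := E.En0.le
  have n1 : (1 : ℝ) ≤ S.n := by exact_mod_cast A.cl.n1
  have t1 : 0 ≤ t := ((s_nn A.cl _).trans E.jl.le).trans h1
  have m0 := mf_pos A t1
  set q := 1 / (S.n : ℝ) ^ 2 with hq
  have q0 : 0 < q := by positivity
  have qw : 1 / (S.n : ℝ) ^ 4 = q ^ 2 := by rw [hq]; field_simp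
  have q1 : q ≤ 1 := by rw [hq, div_le_one (by positivity)]; exact one_le_pow₀ n1
  have hmin : ∀ Z x y : ℝ, Z ≤ 2500 * B ^ 7 * (x + q) → Z ≤ 2500 * B ^ 7 * (y + q) →
      Z ≤ 2500 * B ^ 7 * (min x y + q) := fun Z x y a b => by
    rcases min_choice x y with c | c <;> rwa [c]
  refine hmin _ _ _ ?_ ?_
  · have p := cs_25 (U := U) (f := fun k => |sb M m a (k + 1) - M.s k|) A.dz_nn
    have p4 := E.four A hC hT (U := U) fun k hk =>
      ⟨(hU k hk).1, (hU k hk).2.1, h1.trans (hU k hk).2.2.1⟩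
    have W1 := A.wt_one_25 (U := U) fun k hk =>
      ⟨by have := (hU k hk).1; omega, (hU k hk).2.1.le.trans A.cl.i3⟩
    have W2 := A.wt_le_25 (U := U) (p := 0) (q := t') (by linarith) fun k hk =>
      ⟨(hU k hk).1, (hU k hk).2.1, s_nn A.cl k, (hU k hk).2.2.2⟩
    have W0 : 0 ≤ ∑ k ∈ U, (M.z k - M.z (k - 1)) := Finset.sum_nonneg fun k _ => A.dz_nn k
    have v1 : S.v ≤ S.C * t' := by
      have a1 := (A.cl.ss 0 (by have := A.cl.i2; omega)).1
      have a2 := A.cl.sm (show 0 + 1 ≤ S.jl by have := A.cl.i0; have := A.cl.i1; omega)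
      rw [A.cl.s0, sub_zero, div_le_iff₀ C0] at a1
      nlinarith [E.jl]
    have W3 : ∑ k ∈ U, (M.z k - M.z (k - 1)) ≤ 2 * B ^ 2 * t' := by
      have a1 := mul_le_mul_of_nonneg_left v1 C0.le
      have a2 : S.C ^ 2 * t' ≤ B ^ 2 * t' := by have : 0 ≤ t' := by linarith
                                                gcongr
      linarith
    set W := ∑ k ∈ U, (M.z k - M.z (k - 1))
    have r0 := Real.sqrt_nonneg (t' * En)
    have r2 : √(t' * En) ^ 2 = t' * En := Real.sq_sqrt (mul_nonneg (by linarith) E0)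
    refine le_of_pow_le_pow_left₀ (n := 2) (by norm_num) (by positivity) (p.trans ?_)
    rw [qw] at p4
    have a1 := mul_le_mul_of_nonneg_left p4 W0
    have a2 := mul_le_mul_of_nonneg_right W3 (show 0 ≤ 3000000 * B ^ 12 * En by positivity)
    have a3 := mul_le_mul_of_nonneg_right W1 (show 0 ≤ 3000000 * B ^ 12 * q ^ 2 by positivity)
    have a4 := mul_le_mul_of_nonneg_right (pow_le_pow_right₀ B1 (show 12 ≤ 14 by norm_num))
      (sq_nonneg q)
    have a5 : 0 ≤ B ^ 14 * (√(t' * En) * q) := by positivity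
    have a6 : 0 ≤ B ^ 14 * (t' * En) := by have : 0 ≤ t' := by linarith
                                           positivity
    have a7 : 0 ≤ B ^ 14 * q ^ 2 := by positivity
    have e : (2500 * B ^ 7 * (√(t' * En) + q)) ^ 2 = 6250000 * (B ^ 14 * (t' * En)) +
        12500000 * (B ^ 14 * (√(t' * En) * q)) + 6250000 * (B ^ 14 * q ^ 2) := by
      rw [mul_pow, add_sq, r2]; ring
    rw [e]
    linarith
  · rcases U.eq_empty_or_nonempty with rfl | ⟨k, hk⟩
    · simp only [Finset.sum_empty]; positivity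
    obtain ⟨j1, j2, j3⟩ := A.J_pred
    have tk : t ≤ M.s (S.J - 1) := (hU k hk).2.2.1.trans
      (A.cl.sm (by have := (hU k hk).2.1; omega))
    have at' : max a1 (t / 2) ≤ t := max_le (E.a1t.trans h1) (by linarith)
    obtain ⟨y, y0, y1, y2, y3⟩ := E.exc A hC hT
    have lt0 : 0 ≤ (if t ≤ ℓ then ℓ else 0) := by split_ifs; exacts [E.l0, le_rfl]
    have lt1 : (if t ≤ ℓ then ℓ else 0) ≤ 1 := by split_ifs; exacts [E.l1 A, zero_le_one]
    have lt3 : (if t ≤ ℓ then ℓ else 0) ^ 3 ≤ En / mf S t := by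
      split_ifs with c
      · rw [le_div_iff₀ m0]
        have := mul_le_mul_of_nonneg_right (mf_mono A c) (pow_nonneg E.l0 3)
        linarith [E.l3]
      · simpa using by positivity
    have p := A.win_pow j1 j2 (E.j0a.trans (le_max_left _ (t / 2))) (at'.trans tk) y0 lt0 y3
      (U := U) (fun k hk => by
      obtain ⟨k1, k2, k3, -⟩ := hU k hk
      refine ⟨k1, by omega, at'.trans k3, ?_⟩
      rcases le_total a1 (t / 2) with c | c
      · rw [max_eq_right c]; exact .inr (.inl (by linarith))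
      · rw [max_eq_left c]
        refine (E.low k k2 (h1.trans k3)).imp_right (Or.imp_right fun z => ?_)
        rwa [if_pos (k3.trans z)]) 1
    have i2 := E.int_two A t1 (le_max_left _ _) (le_max_right _ _) (at'.trans tk)
    have EX : En ≤ En / mf S t := le_div_self E0 m0 ((mf_θ A t1).trans hθ)
    have r := num2 B1 C0.le hC A.T_nn hT (v_pos A.cl).le E.v4 (E.w1 A) y0 y1 E0 EX y2 lt0 lt1 lt3
      (d := M.s (S.J - 1) - max a1 (t / 2)) (by linarith)
      (by linarith [A.s_pred.1, A.sJ_T, E.a00, E.a01, le_max_left a1 (t / 2)]) i2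
    have z : 2500 * B ^ 7 * (En / mf S t + 1 / (S.n : ℝ) ^ 4) ≤ 2500 * B ^ 7 * (En / mf S t + q) :=
      mul_le_mul_of_nonneg_left (by rw [qw]; nlinarith) (by positivity)
    refine p.trans (le_of_eq_of_le ?_ (r.trans z))
    norm_num

/-- the early part of the plateau -/
theorem early (hC : S.C ≤ B) {e : ℝ} (e0 : 0 < e) (e5 : e ^ 5 = En) :
    (∫ t in (0 : ℝ)..M.s S.J, |max (lvr 1 (lb M S m a T) t) (M.z (S.J - 1)) -
        (if M.s S.J ≤ t then 1 else M.z (S.J - 1))| * |t - M.s S.J| ≤ En / S.θ) ∧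
      ∫ t in (0 : ℝ)..M.s S.J, |max (lvr 1 (lb M S m a T) t) (M.z (S.J - 1)) -
        (if M.s S.J ≤ t then 1 else M.z (S.J - 1))| * |t - M.s S.J| ≤
        46 * B * (e ^ 3 + 1 / (S.n : ℝ) ^ 2) := by
  have C0 := A.c_pos
  have C1 := A.cl.C1
  have B1 := C1.trans hC
  have v0 := v_pos A.cl
  have θ0 := A.cl.θ0
  have E0 := E.En0.le
  have sT := A.sJ_T
  have s0 : 0 ≤ s := E.a00.trans (E.a01.trans E.a1s)
  have a0s : a0 ≤ s := E.a01.trans E.a1s
  have sJ := E.sJ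
  have sp : M.s S.J ≤ M.s S.Jp := A.cl.sm A.cl.i3
  obtain ⟨j1, j2, j3⟩ := A.J_pred
  set x := M.z (S.J - 1) with hx
  set σ := M.s S.J with hσ
  set ρ : ℝ → ℝ := fun t => max (lvr 1 (lb M S m a T) t - x) 0 with hρ
  have ρ0 : ∀ t, 0 ≤ ρ t := fun t => le_max_right _ _
  have lρ : LB T fun t => ρ t * (σ - t) :=
    (LB_max (A.LB_zb.sub (LB.const _)) (LB.const 0)).mul (LB.of_cont (by fun_prop))
  have e1 : ∫ t in (0 : ℝ)..σ, |max (lvr 1 (lb M S m a T) t) x - (if σ ≤ t then 1 else x)| *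
      |t - σ| = ∫ t in (0 : ℝ)..σ, ρ t * (σ - t) :=
    intervalIntegral.integral_congr_Ioo_of_le (s0.trans sJ) fun t ht => by
      simp only [if_neg (not_le.2 ht.2), hρ]
      rw [abs_of_nonneg (sub_nonneg.2 (le_max_right _ _)), abs_sub_comm,
        abs_of_nonneg (sub_nonneg.2 ht.2.le), ← max_sub_sub_right, sub_self]
  have cut : ∀ y, 0 ≤ y → y ≤ σ → (∀ t, 0 < t → t < y → ρ t = 0) →
      ∫ t in (0 : ℝ)..σ, ρ t * (σ - t) ≤ ∫ t in y..σ, ρ t * (σ - t) := fun y y0 y1 h => by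
    rw [int_split lρ (b := y) ⟨le_rfl, A.T_nn⟩ ⟨y0, y1.trans sT⟩ ⟨y0.trans y1, sT⟩]
    have := int_le_const lρ (K := 0) le_rfl y0 (y1.trans sT) fun t a b => by rw [h t a b, zero_mul]
    linarith
  have z0 : ∀ t, t < s → ρ t = 0 := fun t ht => max_eq_right (sub_nonpos.2 (E.zs t ht))
  rw [e1]
  constructor
  · have lt := LB_top A (M.s S.Jp)
    have p := int_mono lρ lt s0 sJ sT fun t t1 t2 => by
      have u6 : ff (lb M S m a T) (lh M T) (M.s S.Jp) t =
          max (lvr 1 (lb M S m a T) t - lvr 1 (lh M T) t) 0 := if_pos (by linarith)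
      rw [u6, abs_sub_comm, abs_of_nonneg (by linarith : 0 ≤ M.s S.Jp - t), mul_comm]
      exact mul_le_mul (by linarith) (max_le_max (by linarith [A.zh_le_8 t2]) le_rfl) (ρ0 t)
        (by linarith)
    have q := int_sub_le lt s0 le_rfl sJ (sp.trans E.Q1) E.Q2
      fun _ _ _ => mul_nonneg (abs_nonneg _) (ff_nn _ _ _ _)
    rw [le_div_iff₀ θ0]
    have := mul_le_mul_of_nonneg_left (((cut s s0 sJ fun t _ b => z0 t b).trans p).trans q) θ0.le
    linarith [E.top]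
  -- two consequences of the energy
  have gp : ∀ u l κ, s ≤ u → 0 ≤ l → u + l ≤ σ → 0 ≤ κ → (∀ t, u < t → t < u + l →
      κ ≤ lvr 1 (lb M S m a T) t - lvr 1 (lh M T) t) → κ ^ 2 * l ^ 3 ≤ 64 * En :=
    fun u l κ b1 b2 b3 b4 h => by
      have g := Lab36.gap_pos A.LB_u (s0.trans b1) b2 (by linarith) b4 h
      have g1 := int_sub_le A.LB_J2 E.a00 (a0s.trans b1) (le_add_of_nonneg_right b2)
        (show u + l ≤ T by linarith) le_rfl fun _ _ _ => sq_nonneg _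
      linarith [E.en]
  have mb := Sc48.lvr_mono A.okb.1.1
  set q := 1 / (S.n : ℝ) ^ 2 with hq
  have n0 := A.cl.N0
  have q0 : 0 < q := by positivity
  have qw : S.v ≤ q ^ 2 := E.v4.trans_eq (by rw [hq]; field_simp)
  set L := 8 * S.C ^ 2 * S.v + 7 * B * e with hL
  have L0 : 0 ≤ L := by positivity
  have z1 : ∀ t, s ≤ t → L < σ - t → ρ t = 0 := fun t t1 t2 => by
    by_contra hn
    have p1 : x < lvr 1 (lb M S m a T) t := by
      by_contra h2
      exact hn (max_eq_right (sub_nonpos.2 (not_lt.1 h2)))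
    have r1 : 8 * S.C ^ 2 * S.v ≤ σ - t := by
      have : 0 ≤ 7 * B * e := by positivity
      linarith
    have r2 : 7 * B * e < σ - t := by
      have : 0 ≤ 8 * S.C ^ 2 * S.v := by positivity
      linarith
    have cv : S.C * S.v ≤ S.C ^ 2 * S.v := mul_le_mul_of_nonneg_right (by nlinarith) v0.le
    have cv0 : 0 < S.C * S.v := by positivity
    have g := gp t ((σ - t) / 2) ((σ - t) / (4 * S.C)) t1 (by linarith) (by linarith)
      (div_nonneg (by linarith) (by positivity)) fun r r3 r4 => by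
        have u1 := (A.sl A.s_pred.1 r _ (by linarith) (by linarith [A.s_pred.2]) le_rfl).1
        rw [A.zh_pred] at u1
        have u2 := mb r3.le
        have u3 : (σ - t) / (4 * S.C) ≤ 1 / S.C * (M.s (S.J - 1) - r) - S.C * S.v := by
          rw [div_le_iff₀ (by positivity)]
          have : (1 / S.C * (M.s (S.J - 1) - r) - S.C * S.v) * (4 * S.C) =
              4 * (M.s (S.J - 1) - r) - 4 * (S.C ^ 2 * S.v) := by field_simp
          linarith [A.s_pred.2]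
        linarith
    have g1 : ((σ - t) / (4 * S.C)) ^ 2 * ((σ - t) / 2) ^ 3 = (σ - t) ^ 5 / (128 * S.C ^ 2) := by
      field_simp; ring
    rw [g1, div_le_iff₀ (by positivity)] at g
    have g2 := pow_lt_pow_left₀ r2 (by positivity) (show 5 ≠ 0 by norm_num)
    have g3 : S.C ^ 2 * En ≤ B ^ 5 * En := mul_le_mul_of_nonneg_right
      ((pow_le_pow_left₀ C0.le hC 2).trans (pow_le_pow_right₀ B1 (by norm_num))) E0
    rw [mul_pow, mul_pow, e5] at g2
    have g4 : 0 ≤ B ^ 5 * En := by positivity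
    linarith
  set y := max s (σ - L) with hy
  have y1 : y ≤ σ := max_le sJ (by linarith)
  have ys : s ≤ y := le_max_left _ _
  have c1 := cut y (s0.trans ys) y1 fun t _ b => by
    rcases lt_or_ge t s with c | c
    · exact z0 t c
    · exact z1 t c (by linarith [(lt_max_iff.1 b).resolve_left (not_lt.2 c)])
  have ii : IntervalIntegrable (fun t => 8 * √En * (σ - t) ^ (-(1 / 2) : ℝ)) volume y σ := by
    have := (intervalIntegral.intervalIntegrable_rpow' (a := σ - y) (b := 0)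
      (r := -(1 / 2)) (by norm_num)).comp_sub_left σ
    rw [sub_sub_cancel, sub_zero] at this
    exact this.const_mul _
  have c2 := intervalIntegral.integral_mono_on_of_le_Ioo y1
    (lρ.ii ⟨s0.trans ys, y1.trans sT⟩ ⟨s0.trans sJ, sT⟩) ii fun t ht => by
      have r0 : 0 < σ - t := sub_pos.2 ht.2
      have g : ρ t ^ 2 * (σ - t) ^ 3 ≤ 64 * En := by
        rcases le_total (lvr 1 (lb M S m a T) t - x) 0 with c | c
        · simp only [hρ, max_eq_right c]; simpa using E0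
        · simp only [hρ, max_eq_left c]
          exact gp t (σ - t) _ (ys.trans ht.1.le) r0.le (by linarith) c fun r r3 r4 => by
            linarith [mb r3.le, A.zh_le_8 (t := r) (by linarith)]
      have w0 := Real.sqrt_pos.2 r0
      rw [Real.rpow_neg r0.le, ← Real.sqrt_eq_rpow, ← div_eq_mul_inv, le_div_iff₀ w0]
      refine le_of_pow_le_pow_left₀ (n := 2) (by norm_num) (by positivity) ?_
      rw [mul_pow, mul_pow, mul_pow, Real.sq_sqrt r0.le, Real.sq_sqrt E0]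
      linarith
  rw [intervalIntegral.integral_const_mul,
    intervalIntegral.integral_comp_sub_left (fun r => r ^ (-(1 / 2) : ℝ)), sub_self,
    integral_rpow (.inl (by norm_num)), show (-(1 / 2) : ℝ) + 1 = 1 / 2 by norm_num,
    Real.zero_rpow (by norm_num), ← Real.sqrt_eq_rpow] at c2
  refine (c1.trans c2).trans (le_of_pow_le_pow_left₀ (n := 2) (by norm_num) (by positivity) ?_)
  have e2 : (8 * √En * ((√(σ - y) - 0) / (1 / 2))) ^ 2 = 256 * En * (σ - y) := by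
    rw [mul_pow, mul_pow, div_pow, sub_zero, Real.sq_sqrt E0, Real.sq_sqrt (by linarith)]; ring
  rw [e2]
  have a1 : σ - y ≤ L := by linarith [le_max_right s (σ - L)]
  have a2 := mul_le_mul_of_nonneg_left a1 (show 0 ≤ 256 * En by positivity)
  have a3 : En * (S.C ^ 2 * S.v) ≤ 1 * (B ^ 2 * q ^ 2) := by have := E.En1; gcongr
  have a4 : B * e ^ 6 ≤ B ^ 2 * e ^ 6 := mul_le_mul_of_nonneg_right (by nlinarith) (by positivity)
  have a5 : En * (B * e) = B * e ^ 6 := by rw [← e5]; ring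
  have a6 : 0 ≤ B ^ 2 * (e ^ 3 * q) := by positivity
  have a7 : 0 ≤ B ^ 2 * e ^ 6 := by positivity
  have a8 : 0 ≤ B ^ 2 * q ^ 2 := by positivity
  rw [hL] at a2
  linarith

/-- the late part of the plateau -/
theorem late (hT : T ≤ B) {e : ℝ} (e0 : 0 < e) (e5 : e ^ 5 = En) :
    (∫ t in M.s S.Jp..T, |max (lvr 1 (lb M S m a T) t) (M.z (S.J - 1)) -
        (if M.s S.Jp ≤ t then 1 else M.z (S.J - 1))| * |t - M.s S.Jp| ≤ En / S.θ + B ^ 2 * u1) ∧
      ∫ t in M.s S.Jp..T, |max (lvr 1 (lb M S m a T) t) (M.z (S.J - 1)) -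
        (if M.s S.Jp ≤ t then 1 else M.z (S.J - 1))| * |t - M.s S.Jp| ≤ 2 * e ^ 3 + B ^ 2 * u1 := by
  have θ0 := A.cl.θ0
  have σ0 := s_nn A.cl S.Jp
  have σT := A.t2
  have Q1 := E.Q1
  have Q2 := E.Q2
  have s0 : 0 ≤ s := E.a00.trans (E.a01.trans E.a1s)
  have sσ : s ≤ M.s S.Jp := E.sJ.trans (A.cl.sm A.cl.i3)
  have z1 := fun t => Pp.Ode3.lvr_le_one A.okb.1.1 (l := lb M S m a T) t
  have z0 := fun t => Pp.Ode3.lvr_pos A.okb.1.1 (l := lb M S m a T) t
  have u0 : 0 ≤ u1 := le_trans (by linarith [z1 Q]) E.last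
  have e1 : e ≤ 1 := le_of_pow_le_pow_left₀ (n := 5) (by norm_num) zero_le_one
    (by simpa [e5] using E.En1)
  set σ := M.s S.Jp with hσ
  have lr : LB T fun t => 1 - lvr 1 (lb M S m a T) t := (LB.const 1).sub A.LB_zb
  have lg : LB T fun t => (t - σ) * (1 - lvr 1 (lb M S m a T) t) :=
    (LB.of_cont (by fun_prop)).mul lr
  have lg2 : LB T fun t => (t - σ) ^ 2 * (1 - lvr 1 (lb M S m a T) t) :=
    (LB.of_cont (by fun_prop)).mul lr
  have lf : LB T fun t => |max (lvr 1 (lb M S m a T) t) (M.z (S.J - 1)) - 1| * |t - σ| :=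
    ((LB_max A.LB_zb (LB.const _)).sub (LB.const 1)).abs.mul (LB.of_cont (by fun_prop))
  have e2 : ∫ t in σ..T, |max (lvr 1 (lb M S m a T) t) (M.z (S.J - 1)) -
      (if σ ≤ t then 1 else M.z (S.J - 1))| * |t - σ| =
      ∫ t in σ..T, |max (lvr 1 (lb M S m a T) t) (M.z (S.J - 1)) - 1| * |t - σ| :=
    intervalIntegral.integral_congr_Ioo_of_le σT fun t ht => by simp only [if_pos ht.1.le]
  have p1 := int_mono lf lg σ0 σT le_rfl fun t t1 _ => by
    rw [abs_of_nonneg (by linarith : 0 ≤ t - σ), mul_comm, abs_sub_comm,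
      abs_of_nonneg (sub_nonneg.2 (max_le (z1 t) (A.cl.leg.z1 _)))]
    exact mul_le_mul_of_nonneg_left (sub_le_sub_left (le_max_left _ _) _) (by linarith)
  rw [int_split lg (b := Q) ⟨σ0, σT⟩ ⟨σ0.trans Q1, Q2⟩ ⟨A.T_nn, le_rfl⟩] at p1
  have p2 := int_le_const lg (K := B * u1) (σ0.trans Q1) Q2 le_rfl fun t t1 t2 =>
    mul_le_mul (by linarith) (by linarith [E.last, Sc48.lvr_mono A.okb.1.1 t1.le])
      (by linarith [z1 t]) (by linarith)
  have p3 : (T - Q) * (B * u1) ≤ B * (B * u1) :=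
    mul_le_mul_of_nonneg_right (by linarith) (mul_nonneg (by linarith) u0)
  rw [e2]
  constructor
  · have lt := LB_top A σ
    have q1 := int_mono lg lt σ0 Q1 Q2 fun t t1 _ => by
      have u6 : ff (lb M S m a T) (lh M T) σ t =
          |lvr 1 (lb M S m a T) t - lvr 1 (lh M T) t| := if_neg (by linarith)
      rw [u6, abs_of_nonneg (by linarith : 0 ≤ t - σ), A.lvh' (by linarith), A.cl.lv1 t t1.le,
        abs_sub_comm, abs_of_nonneg (by linarith [z1 t])]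
    have q2 := int_sub_le lt s0 sσ Q1 le_rfl Q2
      fun _ _ _ => mul_nonneg (abs_nonneg _) (ff_nn _ _ _ _)
    have q3 : ∫ t in s..Q, |t - σ| * ff (lb M S m a T) (lh M T) σ t ≤ En / S.θ := by
      rw [le_div_iff₀ θ0]; linarith [E.top]
    linarith
  · set R := min (σ + e ^ 2) Q with hR
    have k0 : 0 < e ^ 2 := by positivity
    have R1 : σ ≤ R := le_min (by linarith) Q1
    have R2 : R ≤ Q := min_le_right _ _
    have R3 : R ≤ σ + e ^ 2 := min_le_left _ _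
    rw [int_split lg (a := σ) (b := R) (c := Q) ⟨σ0, σT⟩ ⟨by linarith, by linarith⟩
      ⟨by linarith, Q2⟩] at p1
    have q1 := int_le_const lg (K := e ^ 2) σ0 R1 (by linarith) fun t t1 t2 =>
      (mul_le_of_le_one_right (by linarith) (by linarith [z0 t])).trans (by linarith)
    have q2 := int_mono ((LB.const (e ^ 2)).mul lg) lg2 (by linarith) R2 Q2 fun t t1 t2 => by
      have : σ + e ^ 2 < t := (min_lt_iff.1 t1).resolve_right (by linarith)
      rw [← mul_assoc, pow_two (t - σ)]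
      exact mul_le_mul_of_nonneg_right (mul_le_mul_of_nonneg_right (by linarith) (by linarith))
        (by linarith [z1 t])
    rw [intervalIntegral.integral_const_mul] at q2
    have q3 := int_sub_le lg2 σ0 R1 R2 le_rfl Q2 fun t _ _ =>
      mul_nonneg (sq_nonneg _) (by linarith [z1 t])
    have q4 : ∫ t in R..Q, (t - σ) * (1 - lvr 1 (lb M S m a T) t) ≤ e ^ 3 :=
      le_of_mul_le_mul_left (by linarith [E.cub]) k0
    have q5 : (R - σ) * e ^ 2 ≤ e ^ 2 * e ^ 2 := mul_le_mul_of_nonneg_right (by linarith) k0.le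
    have q6 : e ^ 4 ≤ e ^ 3 := pow_le_pow_of_le_one e0.le e1 (by norm_num)
    linarith

set_option maxHeartbeats 800000 in
theorem pla (hC : S.C ≤ B) (hT : T ≤ B) :
    Pla M S m a 2 ≤ 2000 * B ^ 2 * (min (En ^ ((3 : ℝ) / 5)) (En / S.θ) + u1 + GP M S +
      (M.s S.Jp - M.s S.J) ^ 2 + 1 / (S.n : ℝ) ^ 2) := by
  have B1 := A.cl.C1.trans hC
  have E0 := E.En0
  have θ0 := A.cl.θ0
  obtain ⟨e, e0, e5, e3⟩ : ∃ e : ℝ, 0 < e ∧ e ^ 5 = En ∧ e ^ 3 = En ^ ((3 : ℝ) / 5) :=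
    ⟨En ^ ((1 : ℝ) / 5), by positivity, by
      rw [← Real.rpow_natCast, ← Real.rpow_mul E0.le]; norm_num, by
      rw [← Real.rpow_natCast, ← Real.rpow_mul E0.le]; norm_num⟩
  obtain ⟨x1, x2⟩ := E.early A hC e0 e5
  obtain ⟨y1, y2⟩ := E.late A hT e0 e5
  have σ0 := s_nn A.cl S.J
  have sp : M.s S.J ≤ M.s S.Jp := A.cl.sm A.cl.i3
  have p1 := A.pla_eq (x := 0) (y := M.s S.J) (r := M.s S.J) le_rfl σ0 le_rfl
  have p2 := A.pla_eq (x := M.s S.Jp) (y := T) (r := M.s S.Jp) (σ0.trans sp) le_rfl A.t2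
  obtain ⟨c0, c1⟩ := cm_le A hC
  have n0 := A.cl.N0
  set q := 1 / (S.n : ℝ) ^ 2 with hq
  have q0 : 0 < q := by positivity
  have c2 : (S.C / (m + 1)) ^ 2 ≤ B ^ 2 * q :=
    (pow_le_pow_left₀ c0 c1 2).trans_eq (by rw [hq]; field_simp)
  set γ := M.s S.Jp - M.s S.J with hγ
  have W := A.wt_one_25 (U := Finset.Icc S.J S.Jp) fun k hk =>
    ⟨by have := Finset.mem_Icc.1 hk; have := A.cl.i2; omega, (Finset.mem_Icc.1 hk).2⟩
  have key : Pla M S m a 2 ≤
      8 * ∑ k ∈ Finset.Icc S.J S.Jp, (M.z k - M.z (k - 1)) *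
        (Pp.Area50.cl 0 (M.s S.J) (sb M m a (k + 1)) - M.s S.J) ^ 2 +
      4 * ∑ k ∈ Finset.Icc S.J S.Jp, (M.z k - M.z (k - 1)) *
        (Pp.Area50.cl (M.s S.Jp) T (sb M m a (k + 1)) - M.s S.Jp) ^ 2 + 4 * GP M S +
      (∑ k ∈ Finset.Icc S.J S.Jp, (M.z k - M.z (k - 1))) * (12 * γ ^ 2 + 4 * (B ^ 2 * q)) := by
    rw [Pla, GP, Finset.mul_sum, Finset.mul_sum, Finset.mul_sum, Finset.sum_mul,
      ← Finset.sum_add_distrib, ← Finset.sum_add_distrib, ← Finset.sum_add_distrib]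
    refine Finset.sum_le_sum fun k hk => ?_
    obtain ⟨k1, k2⟩ := Finset.mem_Icc.1 hk
    obtain ⟨b0, b1⟩ := A.sb_mem k2
    have d1 := A.del_le (A.jp_le k2)
    have s1 := A.cl.sm k1
    have s2 := A.cl.sm k2
    set u := sb M m a (k + 1)
    have d2 : |u - M.s k| ≤ |u - M.s S.Jp| + γ :=
      abs_le.2 ⟨by linarith [neg_abs_le (u - M.s S.Jp)], by linarith [le_abs_self (u - M.s S.Jp)]⟩
    have d3 : (u - M.s S.Jp) ^ 2 ≤ 2 * (Pp.Area50.cl 0 (M.s S.J) u - M.s S.J) ^ 2 + 2 * γ ^ 2 +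
        (Pp.Area50.cl (M.s S.Jp) T u - M.s S.Jp) ^ 2 := by
      have n1 := sq_nonneg (Pp.Area50.cl 0 (M.s S.J) u - M.s S.J)
      have n2 := sq_nonneg (Pp.Area50.cl (M.s S.Jp) T u - M.s S.Jp)
      rcases le_total (M.s S.Jp) u with c | c
      · rw [Pp.Area50.cl_of_mem c b1]; linarith [sq_nonneg γ]
      rcases le_total u (M.s S.J) with d | d
      · rw [Pp.Area50.cl_of_mem b0 d, hγ]
        linarith [sq_nonneg (u - M.s S.J + (M.s S.Jp - M.s S.J))]
      · have : (u - M.s S.Jp) ^ 2 ≤ γ ^ 2 := sq_le_sq' (by linarith) (by linarith)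
        linarith [sq_nonneg γ]
    have d4 : |M.del m a k| ^ 2 ≤ (|u - M.s S.Jp| + γ + |M.G k| + S.C / (m + 1)) ^ 2 :=
      pow_le_pow_left₀ (abs_nonneg _) (by linarith) 2
    have d6 := d4.trans (sq4_25 _ _ _ _)
    rw [sq_abs (u - M.s S.Jp), sq_abs (M.G k)] at d6
    have := mul_le_mul_of_nonneg_left (show |M.del m a k| ^ 2 ≤
      8 * (Pp.Area50.cl 0 (M.s S.J) u - M.s S.J) ^ 2 +
        4 * (Pp.Area50.cl (M.s S.Jp) T u - M.s S.Jp) ^ 2 + 4 * M.G k ^ 2 +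
        (12 * γ ^ 2 + 4 * (B ^ 2 * q)) by linarith) (A.dz_nn k)
    simp only [dx]
    linarith
  rw [p1, p2] at key
  have W' := mul_le_of_le_one_left (show 0 ≤ 12 * γ ^ 2 + 4 * (B ^ 2 * q) by positivity) W
  have u0 : 0 ≤ u1 := le_trans (by linarith [Pp.Ode3.lvr_le_one A.okb.1.1 (l := lb M S m a T) Q])
    E.last
  have G0 : 0 ≤ GP M S := Finset.sum_nonneg fun k _ => mul_nonneg (A.dz_nn k) (sq_nonneg _)
  have B2 : 1 ≤ B ^ 2 := one_le_pow₀ B1
  have BB : B ≤ B ^ 2 := by nlinarith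
  have f1 := le_mul_of_one_le_left G0 B2
  have f2 := le_mul_of_one_le_left (sq_nonneg γ) B2
  have f3 := mul_le_mul_of_nonneg_right BB q0.le
  have f4 : 0 ≤ B ^ 2 * u1 := by positivity
  have f5 : 0 ≤ B ^ 2 * q := by positivity
  have f6 := sq_nonneg γ
  rcases min_choice (En ^ ((3 : ℝ) / 5)) (En / S.θ) with c | c <;> rw [c]
  · rw [← e3]
    have g0 : 0 ≤ e ^ 3 := by positivity
    have g1 := le_mul_of_one_le_left g0 B2
    have g2 := mul_le_mul_of_nonneg_right BB g0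
    linarith
  · have g0 : 0 ≤ En / S.θ := by positivity
    have g1 := le_mul_of_one_le_left g0 B2
    linarith

/-- **the output from the energy** -/
theorem lo (hC : S.C ≤ B) (hT : T ≤ B) (hθ : S.θ ≤ 1) :
    LO (10 ^ 8 * B ^ 12) S M m a t0 u1 En := by
  have B1 := A.cl.C1.trans hC
  have E0 := E.En0.le
  have n0 := A.cl.N0
  obtain ⟨c0, c1⟩ := cm_le A hC
  have pw : ∀ i, i ≤ 12 → B ^ i ≤ B ^ 12 := fun i hi => pow_le_pow_right₀ B1 hi
  have mem : ∀ {t t' : ℝ} {k : ℕ}, k ∈ (M.blk S t t').filter (· < S.J) →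
      S.j0 < k ∧ k < S.J ∧ t ≤ M.s k ∧ M.s k ≤ t' := fun hk => by
    obtain ⟨h1, h2⟩ := Finset.mem_filter.1 hk
    obtain ⟨h3, h4⟩ := Finset.mem_filter.1 h1
    exact ⟨(Finset.mem_Ioc.1 h3).1, h2, h4⟩
  have gs : ∀ (U : Finset ℕ) (p : ℕ), (∀ k ∈ U, S.j0 < k ∧ k < S.J) →
      ∑ k ∈ U, (M.z k - M.z (k - 1)) * (|M.G k| + S.C / (m + 1)) ^ (p + 1) ≤
        2 ^ p * (∑ k ∈ U, (M.z k - M.z (k - 1)) * |M.G k| ^ (p + 1) + (B * (1 / S.n)) ^ (p + 1)) :=
    fun U p hU => by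
      have W := A.wt_one_25 (U := U) fun k hk =>
        ⟨by have := (hU k hk).1; omega, (hU k hk).2.le.trans A.cl.i3⟩
      have W' := mul_le_of_le_one_left (pow_nonneg (c0.trans c1) (p + 1)) W
      refine le_trans ?_ (mul_le_mul_of_nonneg_left (add_le_add le_rfl W') (by positivity))
      rw [Finset.sum_mul, ← Finset.sum_add_distrib, Finset.mul_sum]
      refine Finset.sum_le_sum fun k _ => ?_
      have h := add_pow_le (abs_nonneg (M.G k)) c0 (p + 1)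
      rw [Nat.add_sub_cancel] at h
      rw [← mul_add, mul_left_comm]
      exact mul_le_mul_of_nonneg_left (h.trans (mul_le_mul_of_nonneg_left
        (add_le_add le_rfl (pow_le_pow_left₀ c0 c1 _)) (by positivity))) (A.dz_nn k)
  refine ⟨fun t t' h1 h2 => ?_, ?_, (E.pla A hC hT).trans (mul_le_mul_of_nonneg_right ?_ ?_)⟩
  · have p := E.two A hC hT hθ h1 h2 (U := (M.blk S t t').filter (· < S.J)) fun k hk => mem hk
    have q := A.sum_del (U := (M.blk S t t').filter (· < S.J))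
      (fun k hk => (mem hk).2.1.le.trans A.cl.i3) 1
    have r := gs ((M.blk S t t').filter (· < S.J)) 1 fun k hk => ⟨(mem hk).1, (mem hk).2.1⟩
    have g : ∑ k ∈ (M.blk S t t').filter (· < S.J), (M.z k - M.z (k - 1)) * M.G k ^ 2 ≤
        GS M S t t' := Finset.sum_le_sum_of_subset_of_nonneg (fun k hk => by
      obtain ⟨k1, k2, k3, k4⟩ := mem hk
      refine Finset.mem_filter.2 ⟨Finset.mem_Ioo.2 ⟨lt_of_not_ge fun z => ?_, k2⟩, k3, k4⟩
      linarith [A.cl.sm z, E.jl]) fun k _ _ => mul_nonneg (A.dz_nn k) (sq_nonneg _)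
    have G0 : 0 ≤ GS M S t t' := Finset.sum_nonneg fun k _ => mul_nonneg (A.dz_nn k) (sq_nonneg _)
    have X0 : 0 ≤ min (√(t' * En)) (En / mf S t) := le_min (Real.sqrt_nonneg _)
      (div_nonneg E0 (mf_pos A (((s_nn A.cl _).trans E.jl.le).trans h1)).le)
    simp only [show (1 + 1 : ℕ) = 2 from rfl, sq_abs, pow_one] at p q r
    have e : (B * (1 / (S.n : ℝ))) ^ 2 = B ^ 2 * (1 / (S.n : ℝ) ^ 2) := by field_simp
    rw [e] at r
    have q0 : 0 ≤ 1 / (S.n : ℝ) ^ 2 := by positivity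
    simp only [dx, Md.del]
    generalize min (√(t' * En)) (En / mf S t) = X at *
    generalize 1 / (S.n : ℝ) ^ 2 = w at *
    have f1 := mul_le_mul_of_nonneg_right (pw 7 (by norm_num)) X0
    have f2 := mul_le_mul_of_nonneg_right (pw 7 (by norm_num)) q0
    have f3 := mul_le_mul_of_nonneg_right (pw 2 (by norm_num)) q0
    have f4 := mul_le_mul_of_nonneg_right (pw 0 (by norm_num)) G0
    have f5 : 0 ≤ B ^ 12 * X := by positivity
    have f6 : 0 ≤ B ^ 12 * w := by positivity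
    linarith
  · have p := E.four A hC hT (U := (M.blk S t0 S.C).filter (· < S.J)) fun k hk =>
      ⟨(mem hk).1, (mem hk).2.1, (mem hk).2.2.1⟩
    have q := A.sum_del (U := (M.blk S t0 S.C).filter (· < S.J))
      (fun k hk => (mem hk).2.1.le.trans A.cl.i3) 3
    have r := gs ((M.blk S t0 S.C).filter (· < S.J)) 3 fun k hk => ⟨(mem hk).1, (mem hk).2.1⟩
    simp only [show (3 + 1 : ℕ) = 4 from rfl, Even.pow_abs (show Even 4 by decide)] at p q r
    have e : (B * (1 / (S.n : ℝ))) ^ 4 = B ^ 4 * (1 / (S.n : ℝ) ^ 4) := by field_simp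
    rw [e] at r
    have q0 : 0 ≤ 1 / (S.n : ℝ) ^ 4 := by positivity
    have G0 : 0 ≤ ∑ k ∈ (M.blk S t0 S.C).filter (· < S.J), (M.z k - M.z (k - 1)) * M.G k ^ 4 :=
      Finset.sum_nonneg fun k _ => mul_nonneg (A.dz_nn k) (by positivity)
    simp only [dx, Md.del]
    generalize ∑ k ∈ (M.blk S t0 S.C).filter (· < S.J), (M.z k - M.z (k - 1)) * M.G k ^ 4 = X at *
    generalize 1 / (S.n : ℝ) ^ 4 = w at *
    have f3 := mul_le_mul_of_nonneg_right (pw 4 (by norm_num)) q0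
    have f4 := mul_le_mul_of_nonneg_right (pw 0 (by norm_num)) G0
    have f5 : 0 ≤ B ^ 12 * En := by positivity
    have f6 : 0 ≤ B ^ 12 * w := by positivity
    linarith
  · have : 0 ≤ B ^ 12 := by positivity
    linarith [pw 2 (by norm_num)]
  · have u0 : 0 ≤ u1 := le_trans
      (by linarith [Pp.Ode3.lvr_le_one A.okb.1.1 (l := lb M S m a T) Q]) E.last
    have G0 : 0 ≤ GP M S := Finset.sum_nonneg fun k _ => mul_nonneg (A.dz_nn k) (sq_nonneg _)
    have θ0 := A.cl.θ0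
    have : 0 ≤ min (En ^ ((3 : ℝ) / 5)) (En / S.θ) := le_min (by positivity) (by positivity)
    positivity

end Eo

end Crest.Agent.T156.Alt.L25

end
end

-- ▼ part T156/LOc_25

/-!
Row 156, block (L) (helper25): tools for `LO` and `Eo`; the blocks below an upper cut.
-/

set_option autoImplicit false

noncomputable section

namespace Crest.Agent.T156.Alt.L25

open MeasureTheory Set Real
open Crest.Agent.R164.GC Crest.Agent.R339.B Crest.Agent.R339.Var Crest.Agent.T157.Pf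
open Crest.Agent.T156.Spl27 Crest.Agent.T156.Zb9
open Crest.Agent.T156.Lo25 Crest.Agent.T156.Cut8 Crest.Agent.T156.Alt.Mp9
open Crest.Agent.T156.Alt.L69 (mf LO dx GS GP Pla)
open Crest.Agent.T156.Pr.Mid8.Mid (ff)

variable {S : Sc} {M : Md} {m : ℕ} {a T B a0 a1 b s Q t0 ℓ u1 En : ℝ}

theorem dx_nn (h : Cl S M) (k : ℕ) : 0 ≤ dx M k := sub_nonneg.2 (h.leg.zm (Nat.sub_le _ _))
theorem GS_nn (h : Cl S M) (t t' : ℝ) : 0 ≤ GS M S t t' :=
  Finset.sum_nonneg fun k _ => mul_nonneg (dx_nn h k) (sq_nonneg _)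
theorem GP_nn (h : Cl S M) : 0 ≤ GP M S :=
  Finset.sum_nonneg fun k _ => mul_nonneg (dx_nn h k) (sq_nonneg _)
theorem mf_pos' (h : Cl S M) {t : ℝ} (ht : 0 ≤ t) : 0 < mf S t :=
  div_pos (h.ms_pos ht) (by linarith [h.F1])

theorem min_scale {K x y x' y' : ℝ} (h1 : x' ≤ K * x) (h2 : y' ≤ K * y) :
    min x' y' ≤ K * min x y := by
  rcases min_choice x y with c | c <;> rw [c]
  exacts [(min_le_left _ _).trans h1, (min_le_right _ _).trans h2]

/-- a larger energy, a larger last shell and a larger constant: `En ≤ K En'`, `u1 ≤ K u1'` -/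
theorem lo_scale (h : Cl S M) {Λ Λ' K En' u1' : ℝ} (H : LO Λ S M m a t0 u1 En) (t00 : 0 ≤ t0)
    (Λ0 : 0 ≤ Λ) (K1 : 1 ≤ K) (hΛ : Λ * K ≤ Λ') (E0 : 0 ≤ En) (hE : En ≤ K * En') (E0' : 0 ≤ En')
    (hu : u1 ≤ K * u1') (u0 : 0 ≤ u1') : LO Λ' S M m a t0 u1' En' := by
  have K0 : 0 ≤ K := by linarith
  have fin : ∀ Z X X' : ℝ, Z ≤ Λ * X → X ≤ K * X' → 0 ≤ X' → Z ≤ Λ' * X' := fun Z X X' a b c =>
    a.trans ((mul_le_mul_of_nonneg_left b Λ0).trans (by
      rw [← mul_assoc]; exact mul_le_mul_of_nonneg_right hΛ c))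
  have up : ∀ x : ℝ, 0 ≤ x → x ≤ K * x := fun x hx => le_mul_of_one_le_left hx K1
  have θ0 := h.θ0
  refine ⟨fun t t' h1 h2 => ?_, ?_, ?_⟩
  · have m0 := mf_pos' h (t00.trans h1)
    have t0' : 0 ≤ t' := t00.trans (h1.trans h2)
    have x1 : √(t' * En) ≤ K * √(t' * En') := by
      rw [← Real.sqrt_sq K0, ← Real.sqrt_mul (sq_nonneg _)]
      refine Real.sqrt_le_sqrt ?_
      have := mul_le_mul_of_nonneg_left (hE.trans (up _ (mul_nonneg K0 E0'))) t0'
      linarith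
    have x2 : En / mf S t ≤ K * (En' / mf S t) := by
      rw [← mul_div_assoc]; exact div_le_div_of_nonneg_right hE m0.le
    have x3 := min_scale x1 x2
    have x4 : 0 ≤ min (√(t' * En')) (En' / mf S t) := le_min (Real.sqrt_nonneg _) (by positivity)
    have g := GS_nn h t t'
    have q : (0 : ℝ) ≤ 1 / (S.n : ℝ) ^ 2 := by positivity
    exact fin _ _ _ (H.two t t' h1 h2) (by linarith [up _ g, up _ q]) (by linarith)
  · have g : 0 ≤ ∑ k ∈ (M.blk S t0 S.C).filter (· < S.J), dx M k * M.G k ^ 4 :=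
      Finset.sum_nonneg fun k _ => mul_nonneg (dx_nn h k) (by positivity)
    have q : (0 : ℝ) ≤ 1 / (S.n : ℝ) ^ 4 := by positivity
    exact fin _ _ _ H.four (by linarith [up _ g, up _ q]) (by linarith)
  · have x1 : En ^ ((3 : ℝ) / 5) ≤ K * En' ^ ((3 : ℝ) / 5) := by
      refine (Real.rpow_le_rpow E0 hE (by norm_num)).trans ?_
      rw [Real.mul_rpow K0 E0']
      exact mul_le_mul_of_nonneg_right ((Real.rpow_le_rpow_of_exponent_le K1
        (by norm_num : (3 : ℝ) / 5 ≤ 1)).trans_eq (Real.rpow_one K)) (by positivity)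
    have x2 : En / S.θ ≤ K * (En' / S.θ) := by
      rw [← mul_div_assoc]; exact div_le_div_of_nonneg_right hE θ0.le
    have x3 := min_scale x1 x2
    have x4 : 0 ≤ min (En' ^ ((3 : ℝ) / 5)) (En' / S.θ) := le_min (by positivity) (by positivity)
    have g := GP_nn h
    have q : (0 : ℝ) ≤ 1 / (S.n : ℝ) ^ 2 := by positivity
    have r := sq_nonneg (M.s S.Jp - M.s S.J)
    exact fin _ _ _ H.pla (by linarith [up _ g, up _ q, up _ r]) (by linarith)

theorem del_one (A : At S M m a T) {k : ℕ} (hk : k ≤ S.Jp) : |M.del m a k| ≤ 1 := by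
  obtain ⟨r0, r1⟩ := rb_mem (M := M) (a := a) A.m_pos k
  have q0 := A.cl.q_nn (A.jp_le hk)
  have q1 : M.q k ≤ 1 := Pp.Ode3.Gam_le_one _ _
  exact abs_le.2 ⟨by simp only [Md.del]; linarith, by simp only [Md.del]; linarith⟩

theorem sum_del_le (A : At S M m a T) {U : Finset ℕ} (hU : ∀ k ∈ U, k ≤ S.Jp) (p : ℕ) :
    ∑ k ∈ U, dx M k * |M.del m a k| ^ p ≤ ∑ k ∈ U, (M.z k - M.z (k - 1)) :=
  Finset.sum_le_sum fun k hk => mul_le_of_le_one_right (A.dz_nn k)
    (pow_le_one₀ (abs_nonneg _) (del_one A (hU k hk)))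

theorem mem_blk {t t' : ℝ} {k : ℕ} (hk : k ∈ (M.blk S t t').filter (· < S.J)) :
    S.j0 < k ∧ k < S.J ∧ t ≤ M.s k ∧ M.s k ≤ t' := by
  obtain ⟨h1, h2⟩ := Finset.mem_filter.1 hk
  obtain ⟨h3, h4⟩ := Finset.mem_filter.1 h1
  exact ⟨(Finset.mem_Ioc.1 h3).1, h2, h4⟩

/-- label weight of a block -/
theorem wt_blk (A : At S M m a T) (hC : S.C ≤ B) {t' : ℝ} (h : M.s S.jl ≤ t') {U : Finset ℕ}
    (hU : ∀ k ∈ U, S.j0 < k ∧ k < S.J ∧ M.s k ≤ t') :
    ∑ k ∈ U, (M.z k - M.z (k - 1)) ≤ 2 * B ^ 2 * t' := by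
  have C0 := A.c_pos
  have t1 : 0 ≤ t' := (s_nn A.cl _).trans h
  have W2 := A.wt_le_25 (U := U) (p := 0) (q := t') t1 fun k hk =>
    ⟨(hU k hk).1, (hU k hk).2.1, s_nn A.cl k, (hU k hk).2.2⟩
  have v1 : S.v ≤ S.C * t' := by
    have a1 := (A.cl.ss 0 (by have := A.cl.i2; omega)).1
    have a2 := A.cl.sm (show 0 + 1 ≤ S.jl by have := A.cl.i0; have := A.cl.i1; omega)
    rw [A.cl.s0, sub_zero, div_le_iff₀ C0] at a1
    nlinarith
  have a1 := mul_le_mul_of_nonneg_left v1 C0.le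
  have a2 : S.C ^ 2 * t' ≤ B ^ 2 * t' := by gcongr
  linarith

/-- a large energy says nothing -/
theorem lo_big (A : At S M m a T) (hC : S.C ≤ B) (hθ : S.θ ≤ 1) (jl : M.s S.jl ≤ t0) (u0 : 0 ≤ u1)
    (hE : 1 ≤ En) : LO (10 ^ 8 * B ^ 12) S M m a t0 u1 En := by
  have B1 := A.cl.C1.trans hC
  have B12 : B ≤ B ^ 12 := by simpa using pow_le_pow_right₀ B1 (show 1 ≤ 12 by norm_num)
  have θ0 := A.cl.θ0
  have t00 := (s_nn A.cl _).trans jl
  have fin : ∀ Z X : ℝ, Z ≤ 2 * B * X → 0 ≤ X → Z ≤ 10 ^ 8 * B ^ 12 * X := fun Z X a b =>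
    a.trans (mul_le_mul_of_nonneg_right (by linarith) b)
  have one : ∀ U : Finset ℕ, (∀ k ∈ U, S.j0 < k ∧ k ≤ S.Jp) →
      ∑ k ∈ U, (M.z k - M.z (k - 1)) ≤ 1 := fun U hU =>
    A.wt_one_25 fun k hk => ⟨by have := (hU k hk).1; omega, (hU k hk).2⟩
  refine ⟨fun t t' h1 h2 => ?_, ?_, ?_⟩
  · have p := sum_del_le A (U := (M.blk S t t').filter (· < S.J))
      (fun k hk => (mem_blk hk).2.1.le.trans A.cl.i3) 2
    have W1 := one ((M.blk S t t').filter (· < S.J)) fun k hk =>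
      ⟨(mem_blk hk).1, (mem_blk hk).2.1.le.trans A.cl.i3⟩
    have W2 := wt_blk A hC (jl.trans (h1.trans h2)) (U := (M.blk S t t').filter (· < S.J))
      fun k hk => ⟨(mem_blk hk).1, (mem_blk hk).2.1, (mem_blk hk).2.2.2⟩
    have W0 : 0 ≤ ∑ k ∈ (M.blk S t t').filter (· < S.J), (M.z k - M.z (k - 1)) :=
      Finset.sum_nonneg fun k _ => A.dz_nn k
    simp only [sq_abs] at p
    set W := ∑ k ∈ (M.blk S t t').filter (· < S.J), (M.z k - M.z (k - 1))
    have t1 : 0 ≤ t' := t00.trans (h1.trans h2)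
    have m0 := mf_pos A (t00.trans h1)
    have x1 : W ≤ 2 * B * √(t' * En) := by
      refine le_of_pow_le_pow_left₀ (n := 2) (by norm_num) (by positivity) ?_
      rw [mul_pow, Real.sq_sqrt (by positivity)]
      have a1 : W ^ 2 ≤ W := pow_le_of_le_one W0 W1 (by norm_num)
      have a2 : B ^ 2 * t' ≤ B ^ 2 * t' * En := le_mul_of_one_le_right (by positivity) hE
      have a3 : 0 ≤ B ^ 2 * t' := by positivity
      linarith
    have x2 : W ≤ 2 * B * (En / mf S t) := by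
      have := le_div_self (by linarith : 0 ≤ En) m0 ((mf_θ A (t00.trans h1)).trans hθ)
      nlinarith
    have x3 := min_scale x1 x2
    rw [min_self] at x3
    have x4 : 0 ≤ min (√(t' * En)) (En / mf S t) := le_min (Real.sqrt_nonneg _) (by positivity)
    have g := GS_nn A.cl t t'
    have q : (0 : ℝ) ≤ 1 / (S.n : ℝ) ^ 2 := by positivity
    refine fin _ _ ((p.trans x3).trans (mul_le_mul_of_nonneg_left (by linarith) (by positivity)))
      (by linarith)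
  · have p := sum_del_le A (U := (M.blk S t0 S.C).filter (· < S.J))
      (fun k hk => (mem_blk hk).2.1.le.trans A.cl.i3) 4
    have W1 := one ((M.blk S t0 S.C).filter (· < S.J)) fun k hk =>
      ⟨(mem_blk hk).1, (mem_blk hk).2.1.le.trans A.cl.i3⟩
    simp only [Even.pow_abs (show Even 4 by decide)] at p
    have g : 0 ≤ ∑ k ∈ (M.blk S t0 S.C).filter (· < S.J), dx M k * M.G k ^ 4 :=
      Finset.sum_nonneg fun k _ => mul_nonneg (dx_nn A.cl k) (by positivity)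
    have q : (0 : ℝ) ≤ 1 / (S.n : ℝ) ^ 4 := by positivity
    exact fin _ _ ((p.trans W1).trans (by nlinarith)) (by linarith)
  · have p := sum_del_le A (U := Finset.Icc S.J S.Jp) (fun k hk => (Finset.mem_Icc.1 hk).2) 2
    have W1 := one (Finset.Icc S.J S.Jp) fun k hk =>
      ⟨A.j0_lt.trans_le (Finset.mem_Icc.1 hk).1, (Finset.mem_Icc.1 hk).2⟩
    have x : 1 ≤ min (En ^ ((3 : ℝ) / 5)) (En / S.θ) :=
      le_min (Real.one_le_rpow hE (by norm_num)) (hE.trans (le_div_self (by linarith) θ0 hθ))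
    have g := GP_nn A.cl
    have q : (0 : ℝ) ≤ 1 / (S.n : ℝ) ^ 2 := by positivity
    have r := sq_nonneg (M.s S.Jp - M.s S.J)
    exact fin _ _ ((p.trans W1).trans (by nlinarith)) (by linarith)

/-- `LO` from `Eo` in the case `En ≤ 1` -/
theorem lo_of (A : At S M m a T) (hC : S.C ≤ B) (hT : T ≤ B) (hθ : S.θ ≤ 1) (jl : M.s S.jl ≤ t0)
    (u0 : 0 ≤ u1) (h : En ≤ 1 → ∃ a0 a1 s Q ℓ, Eo S M m a T a0 a1 s Q t0 ℓ u1 En) :
    LO (10 ^ 8 * B ^ 12) S M m a t0 u1 En := by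
  rcases le_total En 1 with c | c
  · obtain ⟨a0, a1, s, Q, ℓ, E⟩ := h c
    exact E.lo A hC hT hθ
  · exact lo_big A hC hθ jl u0 c

/-- the mesh -/
theorem v4_of {C η K : ℝ} {A : ℕ} (H : RgC C A η K S) (h : Cl S M) (hA : 5 ≤ A) :
    S.v ≤ 1 / (S.n : ℝ) ^ 4 := by
  have n0 := H.N0
  have v2 := h.v2
  have c1 : S.C ≤ S.n := by
    have := Real.log_le_sub_one_of_pos n0
    have := H.C_log
    rw [← H.hC] at this
    linarith [h.C0]
  have p : (S.n : ℝ) ^ 5 ≤ (S.n : ℝ) ^ S.A := pow_le_pow_right₀ H.N1.le (H.hA ▸ hA)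
  have q := mul_le_mul_of_nonneg_left p h.v0.le
  rw [le_div_iff₀ (by positivity)]
  refine le_of_mul_le_mul_right ?_ n0
  linarith

/-- the field `mass` from another mass function -/
theorem mass_of (A : At S M m a T) {μ : ℝ → ℝ} {K X x y : ℝ} (lμ : LB T μ) (K0 : 0 ≤ K) (hx : 0 ≤ x)
    (hxy : x ≤ y) (hy : y ≤ T) (h : ∀ t, x < t → t < y → mf S t ≤ K * μ t)
    (hX : ∫ t in x..y, μ t * uu M S m a T t ^ 2 ≤ X) :
    ∫ t in x..y, mf S t * uu M S m a T t ^ 2 ≤ K * X := by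
  have lu : LB T (uu M S m a T) := A.LB_u
  have p := int_mono ((LB.of_mono (mf_mono A)).mul lu.sq) ((LB.const K).mul (lμ.mul lu.sq)) hx hxy hy
    fun t a b => by
      rw [← mul_assoc]; exact mul_le_mul_of_nonneg_right (h t a b) (sq_nonneg _)
  rw [intervalIntegral.integral_const_mul] at p
  exact p.trans (mul_le_mul_of_nonneg_left hX K0)

/-- the field `neg`: `u ≥ 0` up to the distance `w` from the corner, `u ≥ -d` on the rest -/
theorem neg_of (A : At S M m a T) {w d : ℝ} (s0 : 0 ≤ s) (hs : s ≤ M.s S.J) (w0 : 0 ≤ w) (d0 : 0 ≤ d)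
    (pos : ∀ t, s < t → t < M.s S.J - w → 0 ≤ uu M S m a T t)
    (dlo : ∀ t, s < t → t < M.s S.J → -d ≤ uu M S m a T t) :
    ∫ t in s..M.s S.J, min (uu M S m a T t) 0 ^ 2 ≤ w * d ^ 2 := by
  have lu : LB T (uu M S m a T) := A.LB_u
  have ln := (LB_min lu (LB.const 0)).sq
  have sT := A.sJ_T
  have y1 : max s (M.s S.J - w) ≤ M.s S.J := max_le hs (by linarith)
  have y0 := le_max_left s (M.s S.J - w)
  rw [int_split ln (b := max s (M.s S.J - w)) ⟨s0, by linarith⟩ ⟨by linarith, by linarith⟩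
    ⟨by linarith, sT⟩]
  have p1 := int_le_const ln (K := 0) s0 y0 (by linarith) fun t a b => by
    rw [min_eq_right (pos t a ((lt_max_iff.1 b).resolve_left (by linarith)))]; simp
  have p2 := int_le_const ln (K := d ^ 2) (by linarith) y1 sT fun t a b =>
    sq_le_sq' (le_min (dlo t (by linarith) b) (by linarith)) ((min_le_right _ _).trans d0)
  have p3 := mul_le_mul_of_nonneg_right
    (show M.s S.J - max s (M.s S.J - w) ≤ w by linarith [le_max_right s (M.s S.J - w)]) (sq_nonneg d)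
  linarith

/-- moving the base point of a weighted integral -/
theorem shift {ρ : ℝ → ℝ} (lρ : LB T ρ) {σ x y : ℝ} (σ0 : 0 ≤ σ) (h1 : σ ≤ x) (h2 : x ≤ y) (hy : y ≤ T)
    (r0 : ∀ t, 0 ≤ ρ t) (r1 : ∀ t, ρ t ≤ 1) (p : ℕ) :
    ∫ t in x..y, (t - σ) ^ p * ρ t ≤
      (2 * (x - σ)) ^ p * (x - σ) + 2 ^ p * ∫ t in x..y, (t - x) ^ p * ρ t := by
  have l1 : LB T fun t => (t - σ) ^ p * ρ t := (LB.of_cont (by fun_prop)).mul lρ
  have l2 : LB T fun t => (t - x) ^ p * ρ t := (LB.of_cont (by fun_prop)).mul lρ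
  set R := min (x + (x - σ)) y
  have R1 : x ≤ R := le_min (by linarith) h2
  have R2 : R ≤ y := min_le_right _ _
  have R3 : R ≤ x + (x - σ) := min_le_left _ _
  rw [int_split l1 (b := R) ⟨by linarith, by linarith⟩ ⟨by linarith, by linarith⟩ ⟨by linarith, hy⟩]
  have d0 : 0 ≤ x - σ := by linarith
  have q1 := int_le_const l1 (K := (2 * (x - σ)) ^ p) (by linarith) R1 (by linarith) fun t t1 t2 =>
    (mul_le_of_le_one_right (pow_nonneg (by linarith) _) (r1 t)).trans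
      (pow_le_pow_left₀ (by linarith) (by linarith) p)
  have q2 := int_mono l1 ((LB.const (2 ^ p)).mul l2) (by linarith) R2 hy fun t t1 t2 => by
    have : x + (x - σ) < t := (min_lt_iff.1 t1).resolve_right (by linarith)
    rw [← mul_assoc, ← mul_pow]
    exact mul_le_mul_of_nonneg_right (pow_le_pow_left₀ (by linarith) (by linarith) p) (r0 t)
  rw [intervalIntegral.integral_const_mul] at q2
  have q3 := int_sub_le l2 (by linarith) R1 R2 le_rfl hy fun t t1 _ =>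
    mul_nonneg (pow_nonneg (by linarith) _) (r0 t)
  have q4 := mul_le_mul_of_nonneg_left q3 (show (0 : ℝ) ≤ 2 ^ p by positivity)
  have q5 := mul_le_mul_of_nonneg_right (show R - x ≤ x - σ by linarith)
    (show 0 ≤ (2 * (x - σ)) ^ p by positivity)
  linarith

/-- the field `top` from the gains of the middle zone `[s, Mt]` and of the plateau -/
theorem top_of (A : At S M m a T) {Mt P κ I1 W : ℝ} (s0 : 0 ≤ s) (hs : s ≤ M.s S.Jp) (h1 : s ≤ Mt)
    (h2 : Mt ≤ T) (hP : P ≤ T) (κ0 : 0 < κ) (hκ : ∀ t < Mt, κ ≤ 1 - lvr 1 (lb M S m a T) t)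
    (hI : ∫ t in s..Mt, |t - M.s S.Jp| * ff (lb M S m a T) (lh M T) (M.s S.Jp) t ≤ I1)
    (hW : ∫ t in max Mt (M.s S.Jp)..max (max Mt (M.s S.Jp)) P,
      (t - max Mt (M.s S.Jp)) * (1 - lvr 1 (lb M S m a T) t) ≤ W) :
    ∫ t in s..max (max Mt (M.s S.Jp)) P, |t - M.s S.Jp| * ff (lb M S m a T) (lh M T) (M.s S.Jp) t ≤
      (1 + 8 / κ) * I1 + 2 * W + 2 * (max Mt (M.s S.J) - Mt) ^ 2 + 2 * (M.s S.Jp - M.s S.J) ^ 2 := by
  have σ0 := s_nn A.cl S.Jp
  have σT := A.t2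
  have sp : M.s S.J ≤ M.s S.Jp := A.cl.sm A.cl.i3
  have z1 := fun t => Pp.Ode3.lvr_le_one A.okb.1.1 (l := lb M S m a T) t
  have z0 := fun t => Pp.Ode3.lvr_pos A.okb.1.1 (l := lb M S m a T) t
  set σ := M.s S.Jp with hσ
  have lt := LB_top A σ
  have f0 : ∀ t, 0 ≤ |t - σ| * ff (lb M S m a T) (lh M T) σ t := fun t =>
    mul_nonneg (abs_nonneg _) (ff_nn _ _ _ _)
  have ef : ∀ t, σ ≤ t → |t - σ| * ff (lb M S m a T) (lh M T) σ t =
      (t - σ) * (1 - lvr 1 (lb M S m a T) t) := fun t ht => by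
    have u6 : ff (lb M S m a T) (lh M T) σ t =
        |lvr 1 (lb M S m a T) t - lvr 1 (lh M T) t| := if_neg (by linarith)
    rw [u6, abs_of_nonneg (by linarith : 0 ≤ t - σ), A.lvh' (by linarith), A.cl.lv1 t ht,
      abs_sub_comm, abs_of_nonneg (by linarith [z1 t])]
  have I0 : 0 ≤ I1 := (intervalIntegral.integral_nonneg h1 fun t _ => f0 t).trans hI
  set S0 := max Mt σ with hS
  have S1 : Mt ≤ S0 := le_max_left _ _
  have S2 : σ ≤ S0 := le_max_right _ _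
  have S3 : S0 ≤ T := max_le h2 σT
  set Q := max S0 P
  have Q1 : S0 ≤ Q := le_max_left _ _
  have Q2 : Q ≤ T := max_le S3 hP
  rw [int_split lt (b := Mt) ⟨s0, by linarith⟩ ⟨by linarith, h2⟩ ⟨by linarith, Q2⟩,
    int_split lt (a := Mt) (b := S0) ⟨by linarith, h2⟩ ⟨by linarith, S3⟩ ⟨by linarith, Q2⟩,
    intervalIntegral.integral_congr (a := S0) (b := Q)
      (g := fun t => (t - σ) ^ 1 * (1 - lvr 1 (lb M S m a T) t)) fun t ht => by
        rw [uIcc_of_le Q1] at ht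
        simp only [pow_one, ef t (S2.trans ht.1)]]
  have p := shift ((LB.const 1).sub A.LB_zb) σ0 S2 Q1 Q2 (fun t => by linarith [z1 t])
    (fun t => by linarith [z0 t]) 1
  simp only [pow_one] at p ⊢
  have n1 := sq_nonneg (max Mt (M.s S.J) - Mt)
  have n2 := sq_nonneg (σ - M.s S.J)
  have k8 : 0 ≤ 8 / κ * I1 := by positivity
  rcases le_total Mt σ with c | c
  · have e : S0 = σ := max_eq_right c
    have q := int_le_const lt (K := σ - Mt) (by linarith) S1 S3 fun t t1 t2 => by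
      have f1 : ff (lb M S m a T) (lh M T) σ t ≤ 1 := by
        have := Sc48.lvr_sub_le A.okh.1.1 A.okb.1.1 t
        unfold ff; split_ifs
        exacts [max_le ((le_abs_self _).trans this) zero_le_one, this]
      rw [abs_sub_comm, abs_of_nonneg (by linarith)]
      exact (mul_le_of_le_one_right (by linarith) f1).trans (by linarith)
    have r : (σ - Mt) ^ 2 ≤ (max Mt (M.s S.J) - Mt + (σ - M.s S.J)) ^ 2 :=
      pow_le_pow_left₀ (by linarith) (by linarith [le_max_right Mt (M.s S.J)]) 2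
    rw [e] at q p hW ⊢
    linarith [sq_nonneg (max Mt (M.s S.J) - Mt - (σ - M.s S.J))]
  · have e : S0 = Mt := max_eq_left c
    have q1 := int_mono (LB.const ((Mt - σ) / 2 * κ)) lt (a := (σ + Mt) / 2) (b := Mt) (by linarith)
      (by linarith) h2 fun t t1 t2 => by
        rw [ef t (by linarith)]
        exact mul_le_mul (by linarith) (hκ t t2) κ0.le (by linarith)
    have q2 := int_sub_le lt s0 (show s ≤ (σ + Mt) / 2 by linarith) (by linarith) le_rfl h2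
      fun t _ _ => f0 t
    rw [intervalIntegral.integral_const, smul_eq_mul] at q1
    have q3 : 2 * (Mt - σ) * (Mt - σ) ≤ 8 / κ * I1 := by
      rw [div_mul_eq_mul_div, le_div_iff₀ κ0]; linarith
    rw [e] at p hW ⊢
    rw [intervalIntegral.integral_same]
    linarith

/-- the field `cub` -/
theorem cub_of (A : At S M m a T) {Mt P κ E W2 : ℝ} (p0 : 0 ≤ a0) (p1 : a0 ≤ M.s S.Jp)
    (h2 : Mt ≤ T) (hP : P ≤ T) (κ0 : 0 < κ) (hκ : ∀ t < Mt, κ ≤ 1 - lvr 1 (lb M S m a T) t)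
    (hE : ∫ t in a0..T, Jf T (lvr 1 (lh M T)) (lvr 1 (lb M S m a T)) t ^ 2 ≤ E)
    (hW : ∫ t in max Mt (M.s S.Jp)..max (max Mt (M.s S.Jp)) P,
      (t - max Mt (M.s S.Jp)) ^ 2 * (1 - lvr 1 (lb M S m a T) t) ≤ W2) :
    ∫ t in M.s S.Jp..max (max Mt (M.s S.Jp)) P,
      (t - M.s S.Jp) ^ 2 * (1 - lvr 1 (lb M S m a T) t) ≤ 320 / κ ^ 2 * E + 4 * W2 := by
  have σ0 := s_nn A.cl S.Jp
  have σT := A.t2
  have z1 := fun t => Pp.Ode3.lvr_le_one A.okb.1.1 (l := lb M S m a T) t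
  have z0 := fun t => Pp.Ode3.lvr_pos A.okb.1.1 (l := lb M S m a T) t
  set σ := M.s S.Jp with hσ
  set S0 := max Mt σ with hS
  have S2 : σ ≤ S0 := le_max_right _ _
  have S3 : S0 ≤ T := max_le h2 σT
  set Q := max S0 P
  have Q1 : S0 ≤ Q := le_max_left _ _
  have Q2 : Q ≤ T := max_le S3 hP
  have lr : LB T fun t => 1 - lvr 1 (lb M S m a T) t := (LB.const 1).sub A.LB_zb
  have l1 : LB T fun t => (t - σ) ^ 2 * (1 - lvr 1 (lb M S m a T) t) :=
    (LB.of_cont (by fun_prop)).mul lr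
  rw [int_split l1 (b := S0) ⟨σ0, σT⟩ ⟨by linarith, S3⟩ ⟨by linarith, Q2⟩]
  have p := shift lr σ0 S2 Q1 Q2 (fun t => by linarith [z1 t]) (fun t => by linarith [z0 t]) 2
  have q := int_le_const l1 (K := (S0 - σ) ^ 2) σ0 S2 S3 fun t t1 t2 =>
    (mul_le_of_le_one_right (sq_nonneg _) (by linarith [z0 t])).trans
      (pow_le_pow_left₀ (by linarith) (by linarith) 2)
  have g := Lab36.gap_neg A.LB_u (u := σ) (ℓ := S0 - σ) (κ := κ) σ0 (by linarith) (by linarith) κ0.le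
    fun t t1 t2 => by
      have := hκ t ((lt_max_iff.1 (show t < max Mt σ by linarith)).resolve_right (by linarith))
      rw [A.lvh' (by linarith), A.cl.lv1 t t1.le]
      linarith
  have g1 := int_sub_le A.LB_J2 p0 p1 (show σ ≤ σ + (S0 - σ) by linarith)
    (show σ + (S0 - σ) ≤ T by linarith) le_rfl fun _ _ _ => sq_nonneg _
  have g2 : 5 * (S0 - σ) ^ 3 ≤ 320 / κ ^ 2 * E := by
    rw [div_mul_eq_mul_div, le_div_iff₀ (by positivity)]; linarith
  linarith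

/-! ### blocks below an upper cut -/

/-- **local energy facts** on `[a0, b]` -/
structure El (S : Sc) (M : Md) (m : ℕ) (a T a0 a1 b t0 ℓ En : ℝ) : Prop where
  a00 : 0 ≤ a0
  a01 : a0 ≤ a1
  a1t : a1 ≤ t0
  j0a : M.s S.j0 ≤ a1
  jl : M.s S.jl < t0
  bJ : b ≤ M.s S.J
  en : ∫ t in a0..b, Jf T (lvr 1 (lh M T)) (lvr 1 (lb M S m a T)) t ^ 2 ≤ En
  room : ∀ t, a1 ≤ t → t < b → -(2 * S.C ^ 2 * (t - a0)) ≤ uu M S m a T t
  mass : ∫ t in a1..b, mf S t * uu M S m a T t ^ 2 ≤ En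
  l0 : 0 ≤ ℓ
  low : ∀ k < S.J, t0 ≤ M.s k → a1 ≤ sb M m a (k + 1) ∨ 2 * a1 ≤ M.s k ∨ M.s k ≤ ℓ
  l5 : ℓ ^ 5 ≤ En
  l3 : mf S ℓ * ℓ ^ 3 ≤ En
  En0 : 0 ≤ En
  En1 : En ≤ 1
  v4 : S.v ≤ 1 / (S.n : ℝ) ^ 4

/-- `win_pow` for located nodes -/
theorem win_loc (A : At S M m a T) {k0 : ℕ} {a' : ℝ} (h0 : S.j0 ≤ k0) (h1 : k0 < S.J)
    (ha : M.s S.j0 ≤ a') (hb : a' ≤ M.s k0) (l0 : 0 ≤ ℓ) {U : Finset ℕ}
    (hU : ∀ k ∈ U, S.j0 < k ∧ k ≤ k0 ∧ a' ≤ M.s k ∧ sb M m a (k + 1) ≤ M.s k0 ∧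
      (a' ≤ sb M m a (k + 1) ∨ 2 * a' ≤ M.s k ∨ M.s k ≤ ℓ)) (p : ℕ) :
    ∑ k ∈ U, (M.z k - M.z (k - 1)) * |sb M m a (k + 1) - M.s k| ^ (p + 1) ≤
      2 ^ (p + 1) * ((p + 1) * (2 * S.C) ^ p *
        ((∫ t in a'..M.s k0, |ut M S m a T k0 t| ^ (p + 1)) +
          (S.C * S.v) ^ (p + 1) * (M.s k0 - a'))) + ℓ ^ (p + 1) * (S.C ^ 2 * ℓ + S.C * S.v) := by
  classical
  have q1 := A.cl_pow h0 h1 ha hb (fun k hk => ⟨(hU k hk).1, (hU k hk).2.1, (hU k hk).2.2.1⟩) p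
  have q3 := A.wt_le_25 (U := U.filter fun k => M.s k ≤ ℓ) (p := 0) (q := ℓ) l0 fun k hk => by
      obtain ⟨k1, k2⟩ := Finset.mem_filter.1 hk
      exact ⟨(hU k k1).1, (hU k k1).2.1.trans_lt h1, s_nn A.cl k, k2⟩
  rw [sub_zero] at q3
  have q4 := mul_le_mul_of_nonneg_left q1 (show (0 : ℝ) ≤ 2 ^ (p + 1) by positivity)
  have q6 := mul_le_mul_of_nonneg_left q3 (show (0 : ℝ) ≤ ℓ ^ (p + 1) by positivity)
  refine le_trans ?_ (add_le_add q4 q6)
  rw [Finset.sum_filter, Finset.mul_sum, Finset.mul_sum, ← Finset.sum_add_distrib]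
  refine Finset.sum_le_sum fun k hk => ?_
  obtain ⟨k1, k2, k3, k5, k4⟩ := hU k hk
  have w0 := A.dz_nn k
  have kp : k ≤ S.Jp := by have := A.cl.i3; omega
  set w := M.z k - M.z (k - 1)
  set d := |Pp.Area50.cl a' (M.s k0) (sb M m a (k + 1)) - M.s k|
  have d0 : 0 ≤ d := abs_nonneg _
  have n1 : 0 ≤ 2 ^ (p + 1) * (w * d ^ (p + 1)) := by positivity
  have n3 : 0 ≤ ℓ ^ (p + 1) * (if M.s k ≤ ℓ then w else 0) :=
    mul_nonneg (by positivity) (by split_ifs <;> positivity)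
  rcases abs_le_cl (y := 0) (ℓ := ℓ) ⟨k3, A.cl.sm k2⟩ (A.sb_mem kp).1 (by linarith) k4 with
    z | ⟨-, z⟩ | ⟨z1, z⟩
  · have := mul_le_mul_of_nonneg_left (pow_le_pow_left₀ (abs_nonneg _) z (p + 1)) w0
    rw [mul_pow, mul_left_comm] at this
    linarith
  · have := mul_le_mul_of_nonneg_left (pow_le_pow_left₀ (abs_nonneg _) z (p + 1)) w0
    rw [mul_zero, zero_pow (Nat.succ_ne_zero p), mul_zero] at this
    linarith
  · have := mul_le_mul_of_nonneg_left (pow_le_pow_left₀ (abs_nonneg _) z (p + 1)) w0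
    rw [if_pos z1] at *
    linarith

set_option maxHeartbeats 800000 in
/-- **blocks below an upper cut** -/
theorem El.two (E : El S M m a T a0 a1 b t0 ℓ En) (A : At S M m a T) (hC : S.C ≤ B) (hT : T ≤ B)
    (hθ : S.θ ≤ 1) {t t' : ℝ} (h1 : t0 ≤ t) (h2 : t ≤ t') (g1 : 16 * S.C ^ 2 * S.v ≤ b - t')
    (g2 : 262144 * S.C ^ 2 * En < (b - t') ^ 5) :
    ∑ k ∈ M.blk S t t', dx M k * M.del m a k ^ 2 ≤
      10 ^ 8 * B ^ 12 * (min (√(t' * En)) (En / mf S t) + GS M S t t' + 1 / (S.n : ℝ) ^ 2) := by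
  have C0 := A.c_pos
  have C1 := A.cl.C1
  have B1 := C1.trans hC
  have E0 := E.En0
  have v0 := v_pos A.cl
  have n1 : (1 : ℝ) ≤ S.n := by exact_mod_cast A.cl.n1
  have t1 : 0 ≤ t := ((s_nn A.cl _).trans E.jl.le).trans h1
  have m0 := mf_pos A t1
  have sT := A.sJ_T
  have bJ := E.bJ
  have a00 := E.a00
  have a01 := E.a01
  have a1t := E.a1t
  set q := 1 / (S.n : ℝ) ^ 2 with hq
  have q0 : 0 < q := by positivity
  have qw : 1 / (S.n : ℝ) ^ 4 = q ^ 2 := by rw [hq]; field_simp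
  have q1 : q ≤ 1 := by rw [hq, div_le_one (by positivity)]; exact one_le_pow₀ n1
  have w1 : 1 / (S.n : ℝ) ^ 4 ≤ 1 := by rw [qw]; exact pow_le_one₀ q0.le q1
  have l1 : ℓ ≤ 1 :=
    le_of_pow_le_pow_left₀ (n := 5) (by norm_num) zero_le_one (by simpa using E.l5.trans E.En1)
  have cv : S.C * S.v ≤ S.C ^ 2 * S.v := mul_le_mul_of_nonneg_right (by nlinarith) v0.le
  have cv0 : 0 < S.C * S.v := by positivity
  set g := b - t' with hg
  obtain ⟨k0, k1, k2, k3⟩ := A.cl.exists_node (t := t' + 3 * g / 4) (by linarith) (by linarith)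
  have k4 := (A.cl.ss k0 k1).2
  have k5 : S.j0 ≤ k0 := (A.idx (k := k0) (by linarith [E.j0a]) (by linarith)).1.le
  set U := M.blk S t t' with hU
  have mem : ∀ k ∈ U, S.jl < k ∧ k ≤ k0 ∧ t ≤ M.s k ∧ M.s k ≤ t' := fun k hk => by
    obtain ⟨-, h3, h4⟩ := Finset.mem_filter.1 hk
    exact ⟨lt_of_not_ge fun z => by linarith [A.cl.sm z, E.jl],
      le_of_not_gt fun z => by linarith [A.cl.sm z.le], h3, h4⟩
  have j0 : ∀ k ∈ U, S.j0 < k := fun k hk => A.cl.i1.trans_lt (mem k hk).1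
  have loc : ∀ k ∈ U, sb M m a (k + 1) ≤ M.s k0 := fun k hk => by
    obtain ⟨m1, m2, m3, m4⟩ := mem k hk
    by_contra hn
    have hn := not_le.1 hn
    have gp := Lab36.gap_neg A.LB_u (u := t' + g / 4) (ℓ := g / 4) (κ := g / (8 * S.C))
      (by linarith) (by linarith) (by linarith) (div_nonneg (by linarith) (by positivity))
      fun r r1 r2 => by
        have z1 : lvr 1 (lb M S m a T) r ≤ M.z k := by
          rw [← A.lvb_node m1.le (by have := A.cl.i3; omega)]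
          exact Sc48.lvr_mono A.okb.1.1 (by linarith)
        have z2 := (A.sl (b' := r) (by linarith) _ r (s_nn A.cl k) (by linarith) le_rfl).1
        rw [A.lvh_node (j0 k hk).le (by omega)] at z2
        have z3 : g / (8 * S.C) ≤ 1 / S.C * (r - M.s k) - S.C * S.v := by
          rw [div_le_iff₀ (by positivity)]
          have : (1 / S.C * (r - M.s k) - S.C * S.v) * (8 * S.C) =
              8 * (r - M.s k) - 8 * (S.C ^ 2 * S.v) := by field_simp
          linarith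
        linarith
    have g3 := int_sub_le A.LB_J2 a00 (show a0 ≤ t' + g / 4 by linarith)
      (show t' + g / 4 ≤ t' + g / 4 + g / 4 by linarith) (show t' + g / 4 + g / 4 ≤ b by linarith)
      (by linarith) fun _ _ _ => sq_nonneg _
    have g4 : (g / (8 * S.C)) ^ 2 * (g / 4) ^ 3 / 64 = g ^ 5 / (262144 * S.C ^ 2) := by
      field_simp; ring
    have g5 := (gp.trans g3).trans E.en
    rw [g4, div_le_iff₀ (by positivity)] at g5
    linarith
  have y3 : (0 : ℝ) ^ 3 ≤ 9 * (65 * B ^ 2 * En + B ^ 3 * (1 / (S.n : ℝ) ^ 4)) := by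
    rw [zero_pow (by norm_num)]; positivity
  have s1 : ∑ k ∈ U, (M.z k - M.z (k - 1)) * |sb M m a (k + 1) - M.s k| ^ 2 ≤
      2500 * B ^ 7 * (√(t' * En) + q) := by
    have hb : a1 ≤ M.s k0 := by linarith
    have p := win_loc A k5 k1 E.j0a hb E.l0 (U := U) (fun k hk => by
      obtain ⟨m1, m2, m3, m4⟩ := mem k hk
      exact ⟨j0 k hk, m2, by linarith, loc k hk, E.low k (by omega) (by linarith)⟩) 3
    have i4 := A.ut_four k5 k1 a00 a01 hb (B0 := b) (by linarith) (by linarith)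
      fun r hr => E.room r hr.1 (by linarith [hr.2])
    have r := num4 B1 C0.le hC A.T_nn hT v0.le E.v4 w1 le_rfl (by linarith) E0 y3 E.l0 l1
      E.l5 E.en (d := M.s k0 - a1) (by linarith) (by linarith) i4
    have p4 : ∑ k ∈ U, (M.z k - M.z (k - 1)) * |sb M m a (k + 1) - M.s k| ^ 4 ≤
        3000000 * B ^ 12 * (En + q ^ 2) := by
      rw [← qw]
      refine p.trans (le_of_eq_of_le ?_ r)
      norm_num
    have p := cs_25 (U := U) (f := fun k => |sb M m a (k + 1) - M.s k|) A.dz_nn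
    have W1 := A.wt_one_25 (U := U) fun k hk =>
      ⟨by have := j0 k hk; omega, by have := (mem k hk).2.1; have := A.cl.i3; omega⟩
    have W3 := wt_blk A hC (t' := t') (by linarith [E.jl]) (U := U) fun k hk =>
      ⟨j0 k hk, (mem k hk).2.1.trans_lt k1, (mem k hk).2.2.2⟩
    have W0 : 0 ≤ ∑ k ∈ U, (M.z k - M.z (k - 1)) := Finset.sum_nonneg fun k _ => A.dz_nn k
    set W := ∑ k ∈ U, (M.z k - M.z (k - 1))
    have r0 := Real.sqrt_nonneg (t' * En)
    have t2 : 0 ≤ t' := by linarith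
    have r2 : √(t' * En) ^ 2 = t' * En := Real.sq_sqrt (mul_nonneg t2 E0)
    refine le_of_pow_le_pow_left₀ (n := 2) (by norm_num) (by positivity) (p.trans ?_)
    have a1 := mul_le_mul_of_nonneg_left p4 W0
    have a2 := mul_le_mul_of_nonneg_right W3 (show 0 ≤ 3000000 * B ^ 12 * En by positivity)
    have a3 := mul_le_mul_of_nonneg_right W1 (show 0 ≤ 3000000 * B ^ 12 * q ^ 2 by positivity)
    have a4 := mul_le_mul_of_nonneg_right (pow_le_pow_right₀ B1 (show 12 ≤ 14 by norm_num))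
      (sq_nonneg q)
    have a5 : 0 ≤ B ^ 14 * (√(t' * En) * q) := by positivity
    have a6 : 0 ≤ B ^ 14 * (t' * En) := by positivity
    have a7 : 0 ≤ B ^ 14 * q ^ 2 := by positivity
    have e : (2500 * B ^ 7 * (√(t' * En) + q)) ^ 2 = 6250000 * (B ^ 14 * (t' * En)) +
        12500000 * (B ^ 14 * (√(t' * En) * q)) + 6250000 * (B ^ 14 * q ^ 2) := by
      rw [mul_pow, add_sq, r2]; ring
    rw [e]
    linarith
  have s2 : ∑ k ∈ U, (M.z k - M.z (k - 1)) * |sb M m a (k + 1) - M.s k| ^ 2 ≤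
      2500 * B ^ 7 * (En / mf S t + q) := by
    have at' : max a1 (t / 2) ≤ t := max_le (a1t.trans h1) (by linarith)
    have am := le_max_left a1 (t / 2)
    have am' := le_max_right a1 (t / 2)
    have hb : max a1 (t / 2) ≤ M.s k0 := by linarith
    have lt0 : 0 ≤ (if t ≤ ℓ then ℓ else 0) := by split_ifs; exacts [E.l0, le_rfl]
    have lt1 : (if t ≤ ℓ then ℓ else 0) ≤ 1 := by split_ifs; exacts [l1, zero_le_one]
    have lt3 : (if t ≤ ℓ then ℓ else 0) ^ 3 ≤ En / mf S t := by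
      split_ifs with c
      · rw [le_div_iff₀ m0]
        have := mul_le_mul_of_nonneg_right (mf_mono A c) (pow_nonneg E.l0 3)
        linarith [E.l3]
      · simpa using by positivity
    have p := win_loc A k5 k1 (E.j0a.trans am) hb lt0 (U := U) (fun k hk => by
      obtain ⟨m1, m2, m3, m4⟩ := mem k hk
      refine ⟨j0 k hk, m2, at'.trans m3, loc k hk, ?_⟩
      rcases le_total a1 (t / 2) with c | c
      · rw [max_eq_right c]; exact .inr (.inl (by linarith))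
      · rw [max_eq_left c]
        refine (E.low k (by omega) (h1.trans m3)).imp_right (Or.imp_right fun z => ?_)
        rwa [if_pos (m3.trans z)]) 1
    have lu : LB T (uu M S m a T) := A.LB_u
    have lm : LB T fun r => mf S r * uu M S m a T r ^ 2 := (LB.of_mono (mf_mono A)).mul lu.sq
    have X0 : 0 ≤ En / mf S t := by positivity
    have i2 : ∫ r in max a1 (t / 2)..M.s k0, |ut M S m a T k0 r| ^ 2 ≤
        (5 + S.C) * (En / mf S t) + S.C * S.v * T := by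
      simp only [sq_abs]
      have p := int_mono ((LB.const (mf S t / 4)).mul (A.LB_ut k0).sq) lm (by linarith) hb
        (by linarith) fun r r1 r2 => mul_le_mul
          (by linarith [mf_half A t1, mf_mono A (show t / 2 ≤ r by linarith)])
          (A.ut_sign (A.zh_node_25 k5 k1 r2.le)).2.2.2.1 (sq_nonneg _) (mf_pos A (by linarith)).le
      rw [intervalIntegral.integral_const_mul] at p
      have q := int_sub_le lm (by linarith) am hb (show M.s k0 ≤ b by linarith) (by linarith)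
        fun r r1 _ => mul_nonneg (mf_pos A (by linarith)).le (sq_nonneg _)
      have : ∫ r in max a1 (t / 2)..M.s k0, ut M S m a T k0 r ^ 2 ≤ 4 * (En / mf S t) := by
        rw [← mul_div_assoc, le_div_iff₀ m0]
        linarith [E.mass]
      have c1 := mul_nonneg C0.le X0
      have c2 : 0 ≤ S.C * S.v * T := mul_nonneg cv0.le A.T_nn
      linarith
    have EX : En ≤ En / mf S t := le_div_self E0 m0 ((mf_θ A t1).trans hθ)
    have r := num2 B1 C0.le hC A.T_nn hT v0.le E.v4 w1 le_rfl (by linarith) E0 EX y3 lt0 lt1 lt3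
      (d := M.s k0 - max a1 (t / 2)) (by linarith) (by linarith) i2
    have z : 2500 * B ^ 7 * (En / mf S t + 1 / (S.n : ℝ) ^ 4) ≤ 2500 * B ^ 7 * (En / mf S t + q) :=
      mul_le_mul_of_nonneg_left (by rw [qw]; nlinarith) (by positivity)
    refine p.trans (le_of_eq_of_le ?_ (r.trans z))
    norm_num
  have s3 : ∑ k ∈ U, (M.z k - M.z (k - 1)) * |sb M m a (k + 1) - M.s k| ^ 2 ≤
      2500 * B ^ 7 * (min (√(t' * En)) (En / mf S t) + q) := by
    rcases min_choice (√(t' * En)) (En / mf S t) with c | c <;> rwa [c]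
  have kp : ∀ k ∈ U, k ≤ S.Jp := fun k hk => by have := (mem k hk).2.1; have := A.cl.i3; omega
  have d1 := A.sum_del kp 1
  obtain ⟨c0, c1⟩ := cm_le A hC
  have c2 : (S.C / (m + 1)) ^ 2 ≤ B ^ 2 * q :=
    (pow_le_pow_left₀ c0 c1 2).trans_eq (by rw [hq]; field_simp)
  have W1 := A.wt_one_25 (U := U) fun k hk => ⟨by have := j0 k hk; omega, kp k hk⟩
  have d2 : ∑ k ∈ U, (M.z k - M.z (k - 1)) * (|M.G k| + S.C / (m + 1)) ^ 2 ≤
      2 * ∑ k ∈ U, (M.z k - M.z (k - 1)) * M.G k ^ 2 +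
        (∑ k ∈ U, (M.z k - M.z (k - 1))) * (2 * (B ^ 2 * q)) := by
    rw [Finset.mul_sum, Finset.sum_mul, ← Finset.sum_add_distrib]
    refine Finset.sum_le_sum fun k _ => ?_
    have := mul_le_mul_of_nonneg_left (show (|M.G k| + S.C / (m + 1)) ^ 2 ≤
      2 * M.G k ^ 2 + 2 * (B ^ 2 * q) by
        linarith [sq_nonneg (|M.G k| - S.C / (m + 1)), sq_abs (M.G k)]) (A.dz_nn k)
    linarith
  have d3 := mul_le_of_le_one_left (show 0 ≤ 2 * (B ^ 2 * q) by positivity) W1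
  have d4 : ∑ k ∈ U, (M.z k - M.z (k - 1)) * M.G k ^ 2 ≤ GS M S t t' :=
    Finset.sum_le_sum_of_subset_of_nonneg (fun k hk => by
      obtain ⟨m1, m2, m3, m4⟩ := mem k hk
      exact Finset.mem_filter.2 ⟨Finset.mem_Ioo.2 ⟨m1, by omega⟩, m3, m4⟩)
      fun k _ _ => mul_nonneg (A.dz_nn k) (sq_nonneg _)
  have G0 := GS_nn A.cl t t'
  have X0 : 0 ≤ min (√(t' * En)) (En / mf S t) := le_min (Real.sqrt_nonneg _) (by positivity)
  simp only [show (1 + 1 : ℕ) = 2 from rfl, sq_abs, pow_one] at d1 s3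
  simp only [dx, Md.del]
  generalize min (√(t' * En)) (En / mf S t) = X at *
  have pw : ∀ i, i ≤ 12 → B ^ i ≤ B ^ 12 := fun i hi => pow_le_pow_right₀ B1 hi
  have f1 := mul_le_mul_of_nonneg_right (pw 7 (by norm_num)) X0
  have f2 := mul_le_mul_of_nonneg_right (pw 7 (by norm_num)) q0.le
  have f3 := mul_le_mul_of_nonneg_right (pw 2 (by norm_num)) q0.le
  have f4 := mul_le_mul_of_nonneg_right (pw 0 (by norm_num)) G0
  have f5 : 0 ≤ B ^ 12 * X := by positivity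
  have f6 : 0 ≤ B ^ 12 * q := by positivity
  linarith

end Crest.Agent.T156.Alt.L25

end
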