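import Crest.Agent.T156.Q4A_49
import Crest.Agent.T156.LInt_31
import Crest.Agent.T156.BuH_74_Mg
import Crest.Agent.T156.TL1cB_74
import Crest.Agent.T156.RtN_93
import Crest.Agent.T156.LOc_25
import Crest.Agent.T156.TLp1_26
import Crest.Agent.T156.TLpM_73
import Crest.Agent.T156.TLp_62
import Crest.Agent.T156.TLpA_62
import Crest.Agent.T156.TLt_5
import Crest.Agent.T156.TLpC_73_Mg
import Crest.Agent.T156.TkED_94
import Crest.Agent.T156.Lag_8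

-- ▼ part T156/Q4S_49
section

/-!
# Row 156, block (L): the square of the label clock (helper49)
-/

set_option autoImplicit false

noncomputable section

namespace Crest.Agent.T156.Alt.L31

open Real Crest.Agent.T156.Alt.L69

/-- **(Q4S')** -/
def Q4S' : Prop := CL fun E Λ S M m a => ∀ p lam K t0 t1 Y, Hx E lam S M m a p → 1 ≤ K →
  p.l ≤ t0 → L4 S p.V p.X t0 (min t1 S.C) Y → 0 ≤ Y →
  ∑ y ∈ (Finset.range S.J).filter fun y => t0 ≤ M.s y ∧ M.s y ≤ t1,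
    M.dz m a y * min (E61.u4 M m a y ^ 2) (K * G89.Ug S p.Lg (M.s y) ^ 2) ^ 2 ≤
    Λ * lam ^ 5 * K ^ 2 * (Y + if 1 ≤ 8 * S.C ^ 5 * t1 then p.N else 0) ∧ 0 ≤ p.N

theorem q4S' : Q4S' := fun C => (V49.q4 C).mono fun _ H ε hε η hη => (H ε hε η hη).mono
  fun _ H S M b1 b2 b3 h m a I _ lam K t0 t1 Y x K1 ht l4 Y0 =>
    H S M b1 b2 b3 h m a I _ _ _ _ _ _ _ _ _ _ _ _ _ _ _ _ _ _ _ _ _ _ _ lam K t0 t1 Y x.ln x.lp x.lc
      x.ap.all x.l1 x.cru K1 (x.ln.l0l.trans ht) l4 Y0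

end Crest.Agent.T156.Alt.L31

end
end

-- ▼ part T156/BuG_75
section

/-!
# Row 156, block (L): **(BuS)** (helper75)
-/

set_option autoImplicit false

noncomputable section

namespace Crest.Agent.T156.Alt.B75

open MeasureTheory Set Real
open Crest.Agent.R164.GC Crest.Agent.R339.B Crest.Agent.R339.Var Crest.Agent.T157.Pf
open Crest.Agent.T156.Gap27 (HLip)
open Crest.Agent.T156.Alt.Mp9 Crest.Agent.T156.Alt.L69 Crest.Agent.T156.Alt.C74
open Crest.Agent.T156.Alt.L31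

variable {S : Sc} {M : Md} {m : ℕ} {a E lam W L Λ K θ0 : ℝ} {p : Pa} {Gn : ℕ → Prop} {V0 u v : ℕ}

theorem eps_num {C ε : ℝ} (C1 : 1 ≤ C) (K1 : 1 ≤ K) (h0 : 0 < θ0) (h1 : θ0 ≤ 1)
    (e : ε * (10 ^ 5 * (K * C ^ 2)) = θ0) : 0 < ε ∧ ε ≤ 1 ∧
    (17 + 24 * K + 96 * C ^ 2) * ε + (24 * K * ε) ^ 2 / θ0 ≤ θ0 ∧
    8192 * ((200 + 48 * K) * C ^ 2 * ε) ^ 2 ≤ θ0 ^ 2 := by
  have C2 : 1 ≤ C ^ 2 := one_le_pow₀ C1
  have a1 : K ≤ K * C ^ 2 := le_mul_of_one_le_right (by linarith) C2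
  have a2 : C ^ 2 ≤ K * C ^ 2 := le_mul_of_one_le_left (by linarith) K1
  have ε0 : 0 < ε := (mul_pos_iff_of_pos_right (show 0 < 10 ^ 5 * (K * C ^ 2) by linarith)).1
    (by linarith)
  have b0 := mul_le_mul_of_nonneg_left (K1.trans a1) ε0.le
  have b1 := mul_le_mul_of_nonneg_left a1 ε0.le
  have b2 := mul_le_mul_of_nonneg_left a2 ε0.le
  refine ⟨ε0, by linarith, ?_, ?_⟩
  · have : (24 * K * ε) ^ 2 / θ0 ≤ θ0 / 2 := by
      rw [div_le_iff₀ h0]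
      have := pow_le_pow_left₀ (by positivity) (show 24 * K * ε ≤ θ0 / 2 by linarith) 2
      nlinarith
    linarith
  · have := pow_le_pow_left₀ (by positivity)
      (show (200 + 48 * K) * C ^ 2 * ε ≤ θ0 / 100 by linarith) 2
    nlinarith

theorem bk_num (c : Cl S M) (hm : S.In m a) (H : Hx E lam S M m a p) (lW : lam ≤ W)
    (WE : W ^ 1000 ≤ E) (G : Ng E W S M m a p Gn V0) (hu : Vs M p Gn u) (hv : Ve S M m a Gn V0 v)
    (uv : u < v) (A5 : 5 ≤ S.A) (θ1 : S.θ ≤ 1) (vn : S.v ≤ 1 / S.n) (K1 : 1 ≤ K)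
    (hA : HLip Pr.AA (2 * S.C) K) (hN : HLip Pr.NN (2 * S.C) K) (h0 : 0 < θ0) (h1 : θ0 ≤ 1)
    (hL : 10 ^ 21 * S.C ^ 41 * K ^ 2 ≤ θ0 ^ 2 * L) (LE : L ^ 18 ≤ E) (LΛ : L ^ 2 ≤ Λ)
    (N0 : 0 ≤ p.N)
    (hQ : ∀ t0 t1 Y, p.l ≤ t0 → L4 S p.V p.X t0 (min t1 S.C) Y → 0 ≤ Y →
      ∑ y ∈ (Finset.range S.J).filter fun y => t0 ≤ M.s y ∧ M.s y ≤ t1,
        M.dz m a y * min (E61.u4 M m a y ^ 2) (2 * W ^ 2 * G89.Ug S p.Lg (M.s y) ^ 2) ^ 2 ≤
        L * lam ^ 5 * (2 * W ^ 2) ^ 2 * (Y + if 1 ≤ 8 * S.C ^ 5 * t1 then p.N else 0)) :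
    ∃ r1 r2 ω β f, Bk (Λ * W ^ 30) θ0 S M m a p Gn u v r1 r2 ω β f := by
  have C1 := c.C1
  have C0 := c.C0
  have F1 := c.F1
  have l1 := H.l1
  have W1 : 1 ≤ W := l1.trans lW
  have K2 : 1 ≤ K ^ 2 := one_le_pow₀ K1
  have t2 : θ0 ^ 2 ≤ 1 := pow_le_one₀ h0.le h1
  have x1 : ∀ i, i ≤ 41 → S.C ^ i ≤ S.C ^ 41 * K ^ 2 := fun i h =>
    (pow_le_pow_right₀ C1 h).trans (le_mul_of_one_le_right (by positivity) K2)
  have L0 : 0 < L := (mul_pos_iff_of_pos_left (pow_pos h0 2)).1 (lt_of_lt_of_le (by positivity) hL)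
  have tL : θ0 ^ 2 * L ≤ L := mul_le_of_le_one_left L0.le t2
  have x2 : ∀ i, i ≤ 41 → 10 ^ 21 * S.C ^ i ≤ θ0 ^ 2 * L := fun i h => by linarith [x1 i h]
  have L1 : 1 ≤ L := by linarith [x2 0 (by norm_num), pow_zero S.C]
  have LE' : L ≤ E := (le_self_pow₀ L1 (by norm_num)).trans LE
  have LΛ' : L ≤ Λ := (le_self_pow₀ L1 (by norm_num)).trans LΛ
  have E1 : 1 ≤ E := L1.trans LE'
  have pW : ∀ i, i ≤ 30 → L * W ^ i ≤ Λ * W ^ 30 := fun i h =>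
    mul_le_mul LΛ' (pow_le_pow_right₀ W1 h) (by positivity) (by linarith)
  obtain ⟨ε, e⟩ : ∃ ε, ε * (10 ^ 5 * (K * S.C ^ 2)) = θ0 :=
    ⟨_, div_mul_cancel₀ _ (by positivity)⟩
  obtain ⟨ε0, ε1, hε, hε2⟩ := eps_num C1 K1 h0 h1 e
  have hE : (1536 * S.C ^ 7 * W ^ 4) ^ 6 * S.F ^ 3 ≤ ε ^ 6 * E := by
    have a1 : 1536 * S.C ^ 7 ≤ ε * L := by
      refine le_of_mul_le_mul_right ?_ (show 0 < 10 ^ 5 * (K * S.C ^ 2) by positivity)
      rw [mul_right_comm ε, e]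
      have b1 := mul_le_mul (pow_le_pow_right₀ C1 (show 9 ≤ 41 by norm_num))
        (le_self_pow₀ K1 two_ne_zero) (by positivity) (by positivity)
      have b2 := mul_le_mul_of_nonneg_right (pow_le_of_le_one h0.le h1 two_ne_zero) L0.le
      have b3 : 0 ≤ S.C ^ 41 * K ^ 2 := by positivity
      linarith
    have a2 : L ^ 6 * W ^ 24 * S.F ^ 3 ≤ E := by
      refine Tn15.le3 (by linarith) ?_
      have b1 := (pow_le_pow_right₀ W1 (show 72 ≤ 1000 by norm_num)).trans WE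
      have b2 := (pow_le_pow_right₀ F1 (show 9 ≤ 40 by norm_num)).trans H.F40
      calc _ = L ^ 18 * W ^ 72 * S.F ^ 9 := by ring
        _ ≤ E * E * E := by gcongr
        _ = _ := by ring
    calc _ ≤ (ε * L * W ^ 4) ^ 6 * S.F ^ 3 := by gcongr
      _ = ε ^ 6 * (L ^ 6 * W ^ 24 * S.F ^ 3) := by ring
      _ ≤ _ := by gcongr
  have B := bdK c hm H G W1 θ1 ε0 ε1 hE hu hv uv
  have B' := B
  unfold BdK at B'
  have A := B'.A
  have C2 := x2 2 (by norm_num)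
  have q1 : 1 ≤ L * lam ^ 5 * (2 * W ^ 2) ^ 2 := one_le_mul_of_one_le_of_one_le
    (one_le_mul_of_one_le_of_one_le L1 (one_le_pow₀ l1))
    (one_le_pow₀ (by linarith [one_le_pow₀ (n := 2) W1]))
  have q2 : 10 ^ 8 * S.C ^ 10 * (W ^ 2 * (L * lam ^ 5 * (2 * W ^ 2) ^ 2)) ≤ Λ * W ^ 30 :=
    calc _ = 4 * 10 ^ 8 * S.C ^ 10 * L * (lam ^ 5 * W ^ 6) := by ring
      _ ≤ L * L * (W ^ 5 * W ^ 25) := by
        gcongr
        · linarith [x2 10 (by norm_num), pow_pos C0 10]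
        · norm_num
      _ = L ^ 2 * W ^ 30 := by ring
      _ ≤ _ := by gcongr
  have q3 := fun t0 t1 Y (a1 : p.l ≤ t0) (_ : 12 * S.C ^ 7 * t0 < 1) a3 a4 =>
    (hQ t0 t1 Y a1 a3 a4).trans (mul_le_mul_of_nonneg_left (show _ ≤ Y +
      if 1 ≤ 8 * S.C ^ 5 * t1 then p.N + cB M S p.η t0 S.C else 0 by
        split_ifs
        · linarith [cB_nn9 c p.η t0 S.C]
        · exact le_rfl) (zero_le_one.trans q1))
  obtain ⟨_, _, _, R, -⟩ := B'.resB (cm := 1) (by linarith) hA hN h0 h1 hε zero_le_one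
    fun y a1 a2 _ => (B'.c1 y a1 a2).trans (mul_le_one₀ ε1 (A.mn_pos y).le (B'.mn1 y))
  obtain ⟨r1, r2, β, h⟩ := bk_of (W' := Λ * W ^ 30) H G W1 hu hv B (by linarith [sq_nonneg S.C]) vn
    (by linarith) hA hN h0 h1 hε (le_trans (mul_le_mul_of_nonneg_right
      (by linarith [x2 8 (by norm_num), pow_pos C0 8]) (by positivity)) (pW 3 (by norm_num)))
    (fun t0 t' Y a1 a2 a3 a4 a5 a6 => B74.pw_W B' A5 W1 q1 N0 q2 q3 le_rfl B'.A_pos.le
      ((A.sb_mono (Nat.succ_le_succ uv.le)).trans_lt B'.hJ) a1 a2 a3 a4 a5 a6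
      ((B74.v_mesh c A5).trans (mul_le_mul_of_nonneg_right
        (by linarith [le_self_pow₀ C1 (show 10 ≠ 0 by norm_num)]) (by positivity))))
    (B74.hF_of B' H.ce H.ln A5 (by linarith [sq_nonneg S.C]) W1 l1 (by linarith) h0 h1 H.Vl H.cru
      R.lH hε2 (calc
        _ ≤ 10 ^ 16 * S.C ^ 41 * ((266 * K) ^ 2 * W ^ 2 * W) := by gcongr; linarith
        _ = 70756 * 10 ^ 16 * (S.C ^ 41 * K ^ 2) * W ^ 3 := by ring
        _ ≤ θ0 ^ 2 * L * W ^ 3 := mul_le_mul_of_nonneg_right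
          (by linarith [mul_pos (pow_pos C0 41) (show 0 < K ^ 2 by linarith)]) (by positivity)
        _ ≤ _ := by rw [mul_assoc]; exact mul_le_mul_of_nonneg_left (pW 3 (by norm_num)) (by positivity)))
    (B74.hΩ_of B' A5 W1 q1 N0 q2 q3 (by
      have b1 : E ≤ p.Lg := (le_mul_of_one_le_right (by linarith) (one_le_pow₀ F1)).trans H.ln.Lg0
      have b2 := (pow_le_pow_right₀ W1 (show 8 ≤ 1000 by norm_num)).trans WE
      have b3 : 0 < p.Lg := by linarith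
      rw [div_pow, ← mul_div_assoc, div_le_iff₀ (by positivity)]
      calc _ = 2 ^ 18 * S.C ^ 4 * W ^ 8 := by ring
        _ ≤ θ0 ^ 2 * L * W ^ 8 := mul_le_mul_of_nonneg_right
          (by linarith [x2 4 (by norm_num), pow_pos C0 4]) (by positivity)
        _ ≤ θ0 ^ 2 * p.Lg * p.Lg := by gcongr <;> linarith
        _ = _ := by ring))
  exact ⟨r1, r2, _, β, _, h⟩

end Crest.Agent.T156.Alt.B75

namespace Crest.Agent.T156.Alt.L31

open Real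

/-- **(BuS)** -/
theorem buS75 : BuS := fun θ hθ => q4S'.glue fun C => ⟨5, fun A hA ε η hε hη => by
  obtain ⟨K, K1, hK⟩ := Gap27.hlip (2 * C)
  obtain ⟨h0, h1⟩ := hθ C
  refine ⟨ε, min (ε / 18) (η / 2), max C (10 ^ 21 * C ^ 41 * K ^ 2 / θ C ^ 2), hε, by positivity,
    fun S M m a R c hm q p lam W Gn V0 H lW WE G u v hu hv uv => ?_⟩
  obtain rfl := R.hC
  have A5 : 5 ≤ S.A := R.hA ▸ hA
  obtain ⟨-, -, hA, hN, -⟩ := hK _ le_rfl
  have W1 := H.l1.trans lW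
  have k1 : 1 ≤ 2 * W ^ 2 := by linarith [one_le_pow₀ (n := 2) W1]
  refine B75.bk_num (L := (S.n : ℝ) ^ min (ε / 18) (η / 2)) c hm H lW WE G hu hv uv A5
    (by nlinarith [c.msθ, R.log1, c.θ0]) ?_ K1 hA hN h0 h1
    ((div_le_iff₀' (by positivity)).1 ((le_max_right _ _).trans R.K_le)) ?_ ?_ ?_
    fun t0 t1 Y a1 a2 a3 => (q p lam _ t0 t1 Y H k1 a1 a2 a3).1
  · have a1 : S.C ≤ S.n := ((le_max_left _ _).trans R.K_log).trans (log_le_self R.N0.le)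
    have n0 := R.N0
    refine (B74.v_mesh c A5).trans ?_
    rw [mul_one_div, div_le_div_iff₀ (by positivity) n0, one_mul]
    nlinarith [R.N1, mul_pos n0 n0]
  · rw [Pre29.rp_pow]; exact Pre29.rp_le R.n1 (by push_cast; linarith [min_le_left (ε / 18) (η / 2)])
  · rw [Pre29.rp_pow]; exact Pre29.rp_le R.n1 (by push_cast; linarith [min_le_right (ε / 18) (η / 2)])
  · exact (q p lam 1 (max p.l (S.C + 1)) 0 0 H le_rfl (le_max_left _ _) (fun t a1 a2 => absurd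
      ((le_max_right _ _).trans (a1.trans (a2.trans (min_le_right _ _)))) (by linarith)) le_rfl).2⟩

end Crest.Agent.T156.Alt.L31

end
end

-- ▼ part T156/TL1c_74
section

/-!
# Row 156, block (L): (TL1cx) from the bulk output (helper74)
-/

set_option autoImplicit false

noncomputable section

namespace Crest.Agent.T156.Alt.C74

open MeasureTheory Set Real
open Crest.Agent.R164.GC Crest.Agent.R339.B Crest.Agent.R339.Var Crest.Agent.T157.Pf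
open Crest.Agent.T156.Zb9
open Crest.Agent.T156.Cut8 (LB Res Jf int_split int_mono int_le_const int_sub_le Fr EU)
open Crest.Agent.T156.Alt.Mp9 Crest.Agent.T156.Alt.L69

variable {S : Sc} {M : Md} {m : ℕ} {a : ℝ}

theorem cB_nn (h : Cl S M) (η : ℝ → ℝ) (t t' : ℝ) : 0 ≤ cB M S η t t' :=
  Finset.sum_nonneg fun k _ => mul_nonneg (L25.dx_nn h k) (add_nonneg
    (mul_nonneg (zero_le_one.trans (Ab33.cr_one S _))
      (div_nonneg (sq_nonneg _) (L25.mf_pos' h (h.s_nn k)).le))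
    (le_min (by positivity) (div_nonneg (sq_nonneg _) (L25.mf_pos' h (h.s_nn k)).le)))

theorem L4_nn (h : Cl S M) {V X t0 t1 Y : ℝ} (V0 : 0 ≤ V) (X0 : 0 ≤ X) (h0 : 0 < t0) (h1 : t0 ≤ t1)
    (H : L4 S V X t0 t1 Y) : 0 ≤ Y := by
  refine le_trans ?_ (H t0 le_rfl h1)
  have c : 0 ≤ cl S V t0 := add_nonneg (mul_nonneg (zero_le_one.trans (Ab33.cr_one S _)) h0.le) V0
  have w : 0 ≤ S.w3 t0 := div_nonneg (by linarith [h.F1])
    (mul_nonneg (mul_nonneg h.N0.le h0.le) (h.ms_pos h0.le).le)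
  have : 0 ≤ ws S V t0 := mul_nonneg (div_nonneg c h0.le) (rpow_nonneg w _)
  have : 0 ≤ min X (cl S V t0 ^ 3) := le_min X0 (by positivity)
  positivity

theorem pow_le_E {L F E : ℝ} (L1 : 1 ≤ L) (F1 : 1 ≤ F) (hL : L ^ 1000 ≤ E) (hF : F ^ 40 ≤ E) :
    L ^ 62 * F ^ 12 ≤ E := by
  have E1 : 1 ≤ E := (one_le_pow₀ L1).trans hL
  refine le_of_pow_le_pow_left₀ (n := 10) (by norm_num) (by linarith) ?_
  calc (L ^ 62 * F ^ 12) ^ 10 = L ^ 620 * (F ^ 40) ^ 3 := by ring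
    _ ≤ E ^ 7 * E ^ 3 := mul_le_mul (((pow_le_pow_right₀ L1 (by norm_num)).trans hL).trans
        (le_self_pow₀ E1 (by norm_num))) (pow_le_pow_left₀ (by positivity) hF 3) (by positivity)
        (by positivity)
    _ = E ^ 10 := by ring

/-- the output of the level `t` -/
theorem out (C c : ℝ) (c0 : 0 < c) : ∃ K : ℝ, 1 ≤ K ∧ ∀ {S : Sc} {M : Md} {m : ℕ}
    {a G1 θ0 L l X X2 Eg s ρ t En I2 : ℝ} {η r1 r2 ω β f : ℝ → ℝ} {u : ℕ},
    At S M m a (2 * C) → S.C = C → CeiG S M G1 →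
    (∀ t t', 0 ≤ t → t ≤ t' → S.ms t' ≤ S.ms t + t' ^ 2) → K ≤ L →
    Bo S M m a (2 * C) θ0 L l X X2 Eg η u s ρ r1 r2 ω β f →
    Nl S M m a (2 * C) L l X X2 η t (L ^ 60 * S.F ^ 12 * En) En I2 →
    EE M S m a (2 * C) c u (2 * t) ≤ 16 * (L * (L ^ 60 * S.F ^ 12 * En)) →
    S.v ≤ 1 / (S.n : ℝ) ^ 4 → 2 * M.s S.jl ≤ l → ∀ t0 t', l ≤ t0 → t0 ≤ t' → t' ≤ t →
    ∑ k ∈ M.blk S t0 t', dx M k * M.del m a k ^ 2 ≤ L ^ 64 * S.F ^ 12 *
      (min (√(t' * En)) (En / mf S t0) + GS M S t0 t' + 1 / (S.n : ℝ) ^ 2) := by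
  obtain ⟨K0, K1, HR⟩ := root_bd rtN C
  obtain ⟨Rk, hRk⟩ : ∃ x, x = 2 + 32 / c := ⟨_, rfl⟩
  have Rk0 : 0 < Rk := by rw [hRk]; positivity
  have p1 : 0 ≤ 2 ^ 26 * C ^ 8 * Rk := by positivity
  have p2 : 0 ≤ 9 * C ^ 2 * Rk := by positivity
  have p3 : 0 ≤ 12288 * C ^ 6 := by positivity
  refine ⟨K0 + 2 ^ 26 * C ^ 8 * Rk + 9 * C ^ 2 * Rk + 12288 * C ^ 6 + Rk, by linarith, ?_⟩
  intro S M m a G1 θ0 L l X X2 Eg s ρ t En I2 η r1 r2 ω β f u A hC E sub hL Z N hE v4 jl t0 t' h0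
    h1 h2
  subst hC
  have C1 := A.cl.C1
  have C0 := A.c_pos
  have F1 := A.cl.F1
  have c2 : 1 ≤ S.C ^ 2 := one_le_pow₀ C1
  have cp : ∀ i ≤ 6, S.C ^ i ≤ S.C ^ 6 := fun i hi => pow_le_pow_right₀ C1 hi
  have c1 : S.C ≤ S.C ^ 6 := le_self_pow₀ C1 (by norm_num)
  obtain ⟨L1, a1, a4, a5, a2, a3, a6, -, -, -, a10⟩ := N.basic A.cl (by linarith [cp 2 (by norm_num)])
  obtain ⟨b1, b2, hR0⟩ := HR c0 A rfl E sub (by linarith) Z N hE
  rw [← hRk] at hR0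
  have y2 := N.y2
  have l0 := N.l0
  obtain ⟨y, hy⟩ : ∃ y, y = L ^ 60 * S.F ^ 12 * En := ⟨_, rfl⟩
  rw [← hy] at hR0 hE y2 a10
  have y0 : 0 ≤ y := by rw [hy]; positivity
  have x0 := (A.sb_mem (Z.uJ.le.trans A.cl.i3)).1
  have sJ := Z.s1.2
  have sT := sJ.le.trans A.sJ_T
  have δ0 : 0 < S.C * S.v := mul_pos C0 A.cl.v0
  have ll : l ≤ L * l := le_mul_of_one_le_left l0.le L1
  have d1 := mul_le_mul_of_nonneg_right c2 δ0.le
  have rD := root_D A (x := sb M m a (u + 1) + L * l) Z.ju Z.uJ (by linarith) (by linarith)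
    (by linarith [Z.su.2]) (by linarith)
  obtain ⟨eJ, eH⟩ := EE_J A c0 Z.uJ (show _ ≤ 2 * t by linarith) hE
  have e16 : t / (16 * S.C) * (16 * S.C) = t := by field_simp
  obtain ⟨-, -, μ1, -, -⟩ := nums1 C1 δ0 a5 a2 a3 a10 (by linarith [cp 3 (by norm_num)]) e16
  have Ly : y ≤ L * y := le_mul_of_one_le_left y0 L1
  have hW : 2 / c * (16 * (L * y)) + (S.C * S.v) ^ 2 * (2 * S.C) ^ 3 + (S.C * S.v) ^ 4 * (2 * S.C) ≤
      Rk * (L * y) := by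
    have : 2 / c * (16 * (L * y)) = 32 / c * (L * y) := by ring
    have : 0 ≤ S.C * S.v / S.C := by positivity
    rw [hRk]; linarith
  have t5 : 0 < t ^ 5 := pow_pos (by linarith) 5
  have key := A.loc_two_74 (t := t) (t0 := t0) (t' := t') (by linarith) eJ
    (fun x x0 xb => mass_loc A Z.uJ Z.R.lH (by linarith) (by linarith) rD.2.2 x0 xb) (by
      refine lt_of_mul_lt_mul_left ?_ (show 0 ≤ L by linarith)
      have q1 := mul_le_mul_of_nonneg_left hW (show 0 ≤ L * (2 ^ 25 * S.C ^ 8) by positivity)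
      have q2 := mul_le_mul_of_nonneg_left y2 (show 0 ≤ 2 ^ 25 * S.C ^ 8 * Rk by positivity)
      have q3 := mul_lt_mul_of_pos_right (show 2 ^ 25 * S.C ^ 8 * Rk < L by linarith) t5
      linarith)
    (by linarith [mul_le_mul_of_nonneg_right (le_self_pow₀ C1 two_ne_zero) δ0.le]) (by linarith) h1 h2
  refine key.trans ?_
  have m0 := A.ms_pos (show 0 ≤ t0 by linarith)
  have mA := A.ms_pos x0
  have t'0 : 0 ≤ t' := by linarith
  have P1 : 1 ≤ L ^ 64 * S.F ^ 12 := one_le_mul_of_one_le_of_one_le (one_le_pow₀ L1) (one_le_pow₀ F1)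
  have LP : L ≤ L ^ 64 * S.F ^ 12 := (le_self_pow₀ L1 (by norm_num)).trans
    (le_mul_of_one_le_right (by positivity) (one_le_pow₀ F1))
  have s1 : 4096 * S.C ^ 5 * √(t' * (2 / c * (16 * (L * y)) + (S.C * S.v) ^ 2 * (2 * S.C) ^ 3 +
      (S.C * S.v) ^ 4 * (2 * S.C))) ≤ L ^ 64 * S.F ^ 12 * √(t' * En) := by
    have q1 : t' * (Rk * (L * y)) ≤ (L ^ 31 * S.F ^ 6) ^ 2 * (t' * En) := by
      have := mul_le_mul_of_nonneg_right (show Rk ≤ L by linarith)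
        (show 0 ≤ t' * (L * y) by positivity)
      calc _ ≤ L * (t' * (L * y)) := by linarith
        _ = _ := by rw [hy]; ring
    have q2 := sqrt_le_sqrt ((mul_le_mul_of_nonneg_left hW t'0).trans q1)
    rw [sqrt_mul (sq_nonneg _), sqrt_sq (by positivity)] at q2
    have q3 : 4096 * S.C ^ 5 * (L ^ 31 * S.F ^ 6) ≤ L ^ 64 * S.F ^ 12 := by
      calc _ ≤ L * (L ^ 31 * S.F ^ 6) := by gcongr; linarith [cp 5 (by norm_num)]
        _ = L ^ 32 * S.F ^ 6 := by ring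
        _ ≤ _ := by gcongr <;> norm_num
    calc _ ≤ 4096 * S.C ^ 5 * (L ^ 31 * S.F ^ 6 * √(t' * En)) := by gcongr
      _ = 4096 * S.C ^ 5 * (L ^ 31 * S.F ^ 6) * √(t' * En) := by ring
      _ ≤ _ := by gcongr
  have s2 : 128 * S.C * ((S.ms (sb M m a (u + 1)) * (sb M m a (u + 1) *
      (3 * S.C * (sb M m a (u + 1) + L * l)) ^ 2) + 384 * S.C ^ 5 * S.F *
      ∫ r in sb M m a (u + 1)..2 * t, HH M S m a (2 * S.C) r * uu M S m a (2 * S.C) r) / S.ms t0) ≤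
      L ^ 64 * S.F ^ 12 * (En / mf S t0) := by
    generalize ∫ r in sb M m a (u + 1)..2 * t, HH M S m a (2 * S.C) r * uu M S m a (2 * S.C) r = I at *
    generalize S.ms (sb M m a (u + 1)) = w at *
    generalize sb M m a (u + 1) = x at *
    have hx : x ≤ x + L * l := by linarith
    generalize x + L * l = z at *
    have z0 : 0 ≤ z := x0.trans hx
    have q1 : w * (x * (3 * S.C * z) ^ 2) ≤ 9 * S.C ^ 2 * (Rk * y) := by
      have r1 : z ^ 3 * w ≤ Rk * y := le_trans (mul_le_mul_of_nonneg_left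
        (by linarith [sq_nonneg z, sq_nonneg (ts S l)]) (pow_nonneg z0 3)) hR0
      calc _ ≤ w * (z * (3 * S.C * z) ^ 2) := by gcongr
        _ = 9 * S.C ^ 2 * (z ^ 3 * w) := by ring
        _ ≤ _ := by gcongr
    have q2 := mul_le_mul_of_nonneg_left eH (show 0 ≤ 384 * S.C ^ 5 * S.F by positivity)
    have FL : y ≤ S.F * (L * y) := Ly.trans (le_mul_of_one_le_left (by positivity) F1)
    have q3 := mul_le_mul_of_nonneg_left FL p2
    have q4 := mul_le_mul_of_nonneg_right (show 9 * S.C ^ 2 * Rk + 12288 * S.C ^ 5 ≤ L by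
      linarith [cp 5 (by norm_num)]) (show 0 ≤ S.F * (L * y) by positivity)
    have q5 : w * (x * (3 * S.C * z) ^ 2) + 384 * S.C ^ 5 * S.F * I ≤ L * (S.F * (L * y)) := by
      linarith
    have q6 : En / mf S t0 = S.F * En / S.ms t0 := by unfold mf; field_simp
    rw [q6, ← mul_div_assoc, ← mul_div_assoc]
    refine div_le_div_of_nonneg_right ?_ m0.le
    calc _ ≤ L * (L * (S.F * (L * y))) := (mul_le_mul_of_nonneg_left q5 (by positivity)).trans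
          (mul_le_mul_of_nonneg_right (by linarith) (by positivity))
      _ = L ^ 63 * S.F ^ 12 * (S.F * En) := by rw [hy]; ring
      _ ≤ _ := by gcongr; norm_num
  have n1 : (1 : ℝ) ≤ S.n := by exact_mod_cast A.cl.n1
  have n2 : 0 < 1 / (S.n : ℝ) ^ 2 := by positivity
  have s3 : S.v ^ 2 ≤ 1 / (S.n : ℝ) ^ 2 := by
    have q1 : S.v ≤ 1 / (S.n : ℝ) :=
      v4.trans (one_div_le_one_div_of_le (by linarith) (le_self_pow₀ n1 (by norm_num)))
    have := pow_le_pow_left₀ A.cl.v0.le q1 2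
    rwa [div_pow, one_pow] at this
  have s4 : (S.C / (m + 1)) ^ 2 ≤ S.C ^ 2 * (1 / (S.n : ℝ) ^ 2) := by
    have q1 : (S.n : ℝ) ≤ m + 1 := by
      have : (S.n : ℝ) ≤ m := by exact_mod_cast A.mem.m1
      linarith
    rw [div_pow, mul_one_div]
    gcongr
  have s5 := mul_le_mul_of_nonneg_left s3 (show 0 ≤ 64 * S.C ^ 4 by positivity)
  have s6 := mul_le_mul_of_nonneg_right (show 64 * S.C ^ 4 + 4 * S.C ^ 2 ≤ L ^ 64 * S.F ^ 12 by
    linarith [cp 4 (by norm_num), cp 2 (by norm_num)]) n2.le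
  have s7 := mul_le_mul_of_nonneg_right (show 4 ≤ L ^ 64 * S.F ^ 12 by
    linarith [cp 0 (by norm_num), pow_zero S.C]) (L25.GS_nn A.cl t0 t')
  have e0 : 0 ≤ 32 * S.C * ((S.C * S.v) ^ 2 * (2 * S.C)) := by positivity
  rw [mul_add (L ^ 64 * S.F ^ 12), mul_add (L ^ 64 * S.F ^ 12), mul_min_of_nonneg _ _ (by linarith)]
  have := min_le_min (s1.trans (le_add_of_nonneg_right e0)) (add_le_add s2 (le_refl
    (32 * S.C * ((S.C * S.v) ^ 2 * (2 * S.C)))))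
  rw [min_add_add_right] at this
  linarith

set_option maxHeartbeats 1000000 in
theorem tl1cx_of (h : BoS) : TL1cx := by
  have key : ∀ C : ℝ, ∃ θ0 K c : ℝ, 0 < θ0 ∧ θ0 ≤ 1 ∧ 0 < c ∧ (1 ≤ C → ∀ {S : Sc} {M : Md} {m : ℕ}
      {a G1 L l X X2 Eg s ρ t y En I2 : ℝ} {η r1 r2 ω β f : ℝ → ℝ} {u : ℕ},
      At S M m a (2 * C) → S.C = C → CeiG S M G1 →
      (∀ t t', 0 ≤ t → t ≤ t' → S.ms t' ≤ S.ms t + t' ^ 2) → K ≤ L →
      Bo S M m a (2 * C) θ0 L l X X2 Eg η u s ρ r1 r2 ω β f →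
      Nl S M m a (2 * C) L l X X2 η t y En I2 → EE M S m a (2 * C) c u (2 * t) ≤ 16 * (L * y) →
      EE M S m a (2 * C) c u t ≤ L * y) := fun C => by
    by_cases C1 : 1 ≤ C
    · obtain ⟨B, B1, H⟩ := Gap27.hlip (2 * C)
      have F := (H _ le_rfl).2.2.2.2.2
      obtain ⟨θ0, K, a, b, -, d⟩ := step rtN C _ B C1 B1 F
      exact ⟨θ0, K, _, a, b, F.c_pos, fun _ => d⟩
    · exact ⟨1, 1, 1, one_pos, le_rfl, one_pos, fun c => absurd c C1⟩
  choose θ K c θ0 θ1 c0 st using key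
  have gen : ∀ R : CP, CL (fun E Λ S M m a => Cl S M → R E Λ S M m a) → CL R :=
    fun R H => H.mono fun _ _ _ _ _ _ _ _ c _ h => h c
  refine gen _ (CL.glue' (h θ fun C => ⟨θ0 C, θ1 C⟩) ?_ 5 (i := 1) le_rfl 1000 64 ?_)
  · intro E Λ Λ' S M m a L1 hL H cl G1 u1 u2 j γ Lc ηc τ l X Xp Vt V2 Lg Lp X2 X3 X4 G0 η N' N t g En
      a1 a2 a3 a4 a5 a6 a7 a8 a9 a10 a11 t0 t' b1 b2 b3
    have := H cl G1 u1 u2 j γ Lc ηc τ l X Xp Vt V2 Lg Lp X2 X3 X4 G0 η N' N t g En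
      a1 a2 a3 a4 a5 a6 a7 a8 a9 a10 a11 t0 t' b1 b2 b3
    have p := (Finset.sum_nonneg fun k _ => mul_nonneg (L25.dx_nn cl k) (sq_nonneg _)).trans this
    rw [mul_assoc] at this p ⊢
    exact this.trans (mul_le_mul_of_nonneg_right hL
      (le_of_mul_le_mul_left (a := Λ) (by rwa [mul_zero]) (by linarith)))
  intro C A ε η' ε0 η0
  obtain ⟨K2, -, ho⟩ := out C (c C) (c0 C)
  refine ⟨max (max (K C) K2) (c C + 1), ?_⟩
  intro S M m a R hA hε hη cl I H _ G1 u1 u2 j γ Lc ηc τ l X Xp Vt V2 Lg Lp X2 X3 X4 G0 η N' N t g En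
    ce ln l4 lp lc f40 ap ap2 ht0 ht1 hh
  rw [pow_one] at ln lp lc f40 ht0 ht1 hh
  have v4 := L25.v4_of R cl hA
  have L1 := R.Λ1
  have hK := R.K_le
  have CL := R.C2_le
  have n1 := R.N1
  have hLE : ((S.n : ℝ) ^ η') ^ 1000 ≤ (S.n : ℝ) ^ ε := by
    rw [← rpow_natCast, ← rpow_mul R.N0.le]
    exact rpow_le_rpow_of_exponent_le n1.le (by push_cast at hε ⊢; linarith)
  have hLn : ((S.n : ℝ) ^ η') ^ 2 ≤ S.n := by
    rw [← rpow_natCast, ← rpow_mul R.N0.le]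
    exact (rpow_le_rpow_of_exponent_le n1.le (by push_cast at hη ⊢; linarith)).trans_eq (rpow_one _)
  have L2 : 2 ≤ (S.n : ℝ) ^ η' := by linarith [R.num_le]
  have θ1' := R.θ1 cl
  obtain ⟨u, s, ρ, r1, r2, ω, β, f, Z⟩ := H G1 u1 u2 j γ Lc ηc τ l X Xp Vt V2 Lg Lp X2 X3 X4 G0 η
    N' N ce ln l4 lp lc f40 hLE ap ap2
  have hC := R.hC
  generalize (S.n : ℝ) ^ η' = L at *
  generalize (S.n : ℝ) ^ ε = E at *
  subst hC
  have C1 := cl.C1
  have F1 := cl.F1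
  have At' : At S M m a (2 * S.C) :=
    ⟨cl, I, by linarith [cl.b1, ln.HJ], by linarith [cl.sT]⟩
  have LE : 2 * L ≤ E := le_trans (by nlinarith only [L2])
    ((pow_le_pow_right₀ L1 (by norm_num : 2 ≤ 1000)).trans hLE)
  have E0 : 0 < E := by linarith
  have sj := cl.s_pos (cl.i0.trans cl.i1)
  have jl : 2 * M.s S.jl ≤ l := le_trans (mul_le_mul_of_nonneg_right (by linarith) sj.le) ln.l0s
  have l0 : 0 < l := by linarith
  have l1 : l ≤ 1 := (le_mul_of_one_le_left l0.le (by linarith)).trans ln.l1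
  have cc : l ≤ cr S l * l := le_mul_of_one_le_left l0.le (Ab33.cr_one S l)
  have t0 : 0 < t := lt_of_lt_of_le (mul_pos E0 (l0.trans_le cc)) ht0
  have W0' := W0_nn cl l0
  have X40 := L4_nn cl (by linarith) ln.X0.le l0 (l1.trans C1) l4
  have N0 : 0 ≤ N := le_trans (div_nonneg (by
    have := L25.GP_nn cl
    have := L25.GS_nn cl (1 / (8 * S.C ^ 2)) S.C
    positivity) cl.θ0.le) lc.c2
  have cB0 := cB_nn cl η l
  obtain ⟨Eg, hEg⟩ : ∃ x, x = l ^ 5 + S.ms l * l ^ 3 + cB M S η l S.C + X2 ^ 2 + X4 + N := ⟨_, rfl⟩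
  rw [← hEg] at Z hh
  have X2E : X2 ^ 2 ≤ Eg := by
    have := cB0 S.C
    unfold W0 at W0'
    linarith
  have Eg0 : 0 ≤ Eg := (sq_nonneg _).trans X2E
  have me : L * (S.C * S.v) ≤ l ^ 5 := by
    have m0 := cl.ms_pos l0.le
    have q1 := ln.l0w
    unfold Sc.w3 at q1
    rw [div_le_iff₀ (by positivity)] at q1
    have q2 : 1 ≤ S.n * l ^ 4 := by
      have := mul_le_mul_of_nonneg_left ((cl.ms1 l).trans θ1') (show 0 ≤ S.n * l ^ 4 by positivity)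
      linarith
    have q3 : 1 ≤ S.n * l := q2.trans (mul_le_mul_of_nonneg_left
      (pow_le_of_le_one l0.le l1 (by norm_num)) (by positivity))
    have q4 := one_le_mul_of_one_le_of_one_le q2 q3
    rw [le_div_iff₀ (by positivity)] at v4
    have q5 : L * S.C ≤ S.n := by nlinarith only [hLn, CL, C1, L1]
    have q6 := mul_le_mul_of_nonneg_right q5 cl.v0.le
    have q7 : (S.n : ℝ) ^ 3 ≤ S.n ^ 4 := pow_le_pow_right₀ n1.le (by norm_num)
    have q8 := mul_le_mul_of_nonneg_left q7 cl.v0.le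
    refine le_of_mul_le_mul_left ?_ (show (0 : ℝ) < S.n ^ 2 by positivity)
    have q9 := mul_le_mul_of_nonneg_left q6 (show (0 : ℝ) ≤ S.n ^ 2 by positivity)
    linarith
  have pE := pow_le_E L1 F1 hLE f40
  have gJ := Z.gJ
  have io2 : io M S m a (2 * S.C) ^ 2 ≤ 2 * S.C * (L * S.F ^ 12 * Eg) := by
    have q := Cut8.int_abs_le (LB.of_cont (Lab36.jf_cont At'.LB_u At'.T_nn)) le_rfl At'.T_nn le_rfl gJ
    rw [sub_zero] at q
    have := pow_le_pow_left₀ (intervalIntegral.integral_nonneg At'.T_nn fun _ _ => abs_nonneg _) q 2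
    rwa [sq_sqrt (by positivity)] at this
  have nl : ∀ r, t ≤ r → E * r ≤ 1 → Nl S M m a (2 * S.C) L l X X2 η r (L ^ 60 * S.F ^ 12 * En r)
      (En r) (2 * S.C * (L * S.F ^ 12 * Eg)) := fun r h1 h2 => by
    obtain ⟨-, q2, q3, q4, q5, -, -⟩ := hh r h1 h2
    have r0 : 0 < r := t0.trans_le h1
    have p1 : 0 ≤ (η r + g r) ^ 2 / r := by positivity
    have p2 : 0 ≤ r * Eg := by positivity
    have p3 := cB0 (4 * r)
    have p4 : r * Eg ≤ En r := by unfold W0 at W0'; linarith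
    have m4 := cl.ms_pos (show 0 ≤ 4 * r by linarith)
    refine ⟨l0, me, ((mul_le_mul_of_nonneg_right LE (by linarith)).trans ht0).trans h1,
      (mul_le_mul_of_nonneg_right LE r0.le).trans h2, ?_, by unfold W0; linarith, by unfold W0; linarith,
      (mul_le_mul_of_nonneg_left X2E r0.le).trans p4, q4, le_rfl, ?_, io2, ?_⟩
    · have := pow_le_pow_left₀ (by positivity) q2 2
      rw [mul_pow, sq_sqrt m4.le] at this
      refine le_trans (mul_le_mul_of_nonneg_right ?_ m4.le) this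
      rw [sq]
      exact mul_le_mul (by linarith) ((pow_le_pow_right₀ F1 (by norm_num)).trans f40)
        (by positivity) E0.le
    · calc _ = L ^ 62 * S.F ^ 12 * En r := by ring
        _ ≤ E * En r := mul_le_mul_of_nonneg_right pE (p2.trans p4)
        _ ≤ _ := q3
    · calc _ = 2 * S.C * L * S.F ^ 12 * (r * Eg) := by ring
        _ ≤ L * L * S.F ^ 12 * En r := by gcongr
        _ = L ^ 2 * S.F ^ 12 * En r := by ring
        _ ≤ _ := by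
          have := p2.trans p4
          gcongr
          norm_num
  have x0 := (At'.sb_mem (Z.uJ.le.trans cl.i3)).1
  have sT := Z.s1.2.le.trans At'.sJ_T
  have top : ∀ r, t ≤ r → r ≤ 1 / E → 1 / E < 2 * r →
      EE M S m a (2 * S.C) (c S.C) u (2 * r) ≤ 16 * (L * (L ^ 60 * S.F ^ 12 * En r)) := by
    intro r h1 h2 h3
    rw [le_div_iff₀ E0] at h2
    rw [div_lt_iff₀ E0] at h3
    have N := nl r h1 (by linarith)
    have q1 := (hh r h1 (by linarith)).2.2.2.2.2.2 (by linarith)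
    have b1 : sb M m a (u + 1) ≤ 2 * r := by
      have := N.t0
      have := Z.cru
      linarith
    have b2 : 2 * r ≤ s := le_of_mul_le_mul_left (by linarith [N.t1, Z.s1.1]) (show 0 < L by linarith)
    have j1 := (int_sub_le At'.LB_J2 le_rfl le_rfl (x0.trans b1) (b2.trans sT) le_rfl
      fun _ _ _ => sq_nonneg _).trans gJ
    have j2 := (int_sub_le (Z.R.lH.mul At'.LB_u) x0 le_rfl b1 b2 sT
      fun x hx _ => Hu_nn At' (x0.trans hx.le)).trans Z.gH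
    have j3 := mul_le_mul_of_nonneg_left j1 (c0 S.C).le
    have j4 : (c S.C + 1) * (L * S.F ^ 12 * Eg) ≤ L * (L ^ 60 * S.F ^ 12 * En r) := by
      have : L ≤ L ^ 60 := le_self_pow₀ L1 (by norm_num)
      have := (le_max_right _ _).trans hK
      gcongr
    have j5 : 0 ≤ L * (L ^ 60 * S.F ^ 12 * En r) := by
      have := Eg0.trans q1
      positivity
    unfold EE EU
    linarith
  have dbl : ∀ r, t ≤ r → 2 * r ≤ 1 / E → L * (L ^ 60 * S.F ^ 12 * En (2 * r)) ≤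
      16 * (L * (L ^ 60 * S.F ^ 12 * En r)) := fun r h1 h2 => by
    rw [le_div_iff₀ E0] at h2
    have r0 : 0 < r := t0.trans_le h1
    have := mul_le_mul_of_nonneg_left ((hh r h1 (by linarith [mul_pos r0 E0])).2.2.2.2.2.1 (by linarith))
      (show 0 ≤ L * (L ^ 60 * S.F ^ 12) by positivity)
    linarith
  have all := Cut8.dyad (e := EE M S m a (2 * S.C) (c S.C) u)
    (a := fun r => L * (L ^ 60 * S.F ^ 12 * En r)) (t1 := 1 / E) t0
    (fun r h1 h2 h3 => st S.C C1 At' rfl ce ln.sub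
      (((le_max_left _ _).trans (le_max_left _ _)).trans hK) Z
      (nl r h1 (by rw [le_div_iff₀ E0] at h2; linarith)) h3) dbl top
  refine ho At' rfl ce ln.sub (((le_max_right _ _).trans (le_max_left _ _)).trans hK) Z
    (nl t le_rfl ht1) ?_ v4 jl
  rcases le_or_gt (2 * t) (1 / E) with h2 | h2
  · exact (all (2 * t) (by linarith) h2).trans (dbl t le_rfl h2)
  · exact top t le_rfl (by rw [le_div_iff₀ E0]; linarith) h2

end Crest.Agent.T156.Alt.C74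

end
end

-- ▼ part T156/TLpF_26
section

/-!
# Row 156, block (L), the corner: the final sum (helper26)
-/

set_option autoImplicit false

noncomputable section

namespace Crest.Agent.T156.Alt.L62

open Real Finset
open Crest.Agent.T156.Alt.L69 Crest.Agent.T156.Alt.Mp9 Crest.Agent.T156.Alt.L63

variable {S : Sc} {M : Md} {m : ℕ} {a T : ℝ}

/-- the last window and the plateau from the located part and the corner sum -/
theorem fin26 (A : At S M m a T) {k0 : ℕ} {D Z : ℝ} (k2 : k0 < S.J)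
    (k3 : 3 / 4 * M.s S.J ≤ M.s k0)
    (loc : ∀ k, 3 / 4 * M.s S.J ≤ M.s k → k ≤ k0 → |sb M m a (k + 1) - M.s k| ≤ D)
    (hZ : ∑ k ∈ Ioc k0 S.Jp, dx M k * (sb M m a (k + 1) - M.s k) ^ 2 ≤ Z) :
    ∑ k ∈ (Ioo S.jl S.J).filter fun k => 3 / 4 * M.s S.J ≤ M.s k, dx M k * M.del m a k ^ 2 +
      Pla M S m a 2 ≤ 3 * (D ^ 2 + Z + GS M S (M.s S.J / 2) S.C + GP M S + (S.C / (m + 1)) ^ 2) := by
  classical
  have h := A.cl
  have i3 := h.i3
  have sJ : 0 < M.s S.J := h.s_pos (by have := h.jl_lt; omega)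
  set P : ℕ → Prop := fun k => M.s k < 3 / 4 * M.s S.J with hP
  have b2 : P (Nat.findGreatest P S.J) :=
    Nat.findGreatest_spec (Nat.zero_le _) (show M.s 0 < _ by rw [h.s0]; linarith)
  have b3 : ∀ k, Nat.findGreatest P S.J < k → k ≤ S.J → ¬P k := fun k =>
    Nat.findGreatest_is_greatest
  generalize Nat.findGreatest P S.J = i at b2 b3
  have up : ∀ k, 3 / 4 * M.s S.J ≤ M.s k → i < k := fun k q => lt_of_not_ge fun x =>
    absurd (q.trans (h.sm x)) (not_le.2 b2)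
  have ik := up k0 k3
  have dj : Disjoint ((Ioo S.jl S.J).filter fun k => 3 / 4 * M.s S.J ≤ M.s k) (Icc S.J S.Jp) :=
    disjoint_left.2 fun k p q => by
      have := (mem_Ioo.1 (mem_filter.1 p).1).2
      have := (mem_Icc.1 q).1
      omega
  have e := A.del_sq73 (i := i) (U := ((Ioo S.jl S.J).filter fun k => 3 / 4 * M.s S.J ≤ M.s k) ∪
    Icc S.J S.Jp) (by omega) fun k hk => by
      rcases mem_union.1 hk with p | p
      · have := (mem_Ioo.1 (mem_filter.1 p).1).2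
        exact mem_Ioc.2 ⟨up k (mem_filter.1 p).2, by omega⟩
      · have := mem_Icc.1 p
        exact mem_Ioc.2 ⟨by omega, this.2⟩
  rw [sum_union dj, sum_union dj, ← sum_Ioc_consecutive _ ik.le (show k0 ≤ S.Jp by omega)] at e
  have a1 : ∑ k ∈ Ioc i k0, dx M k * (sb M m a (k + 1) - M.s k) ^ 2 ≤ D ^ 2 := by
    refine (sum_le_sum (g := fun k => dx M k * D ^ 2) fun k hk => ?_).trans ?_
    · obtain ⟨p, q⟩ := mem_Ioc.1 hk
      refine mul_le_mul_of_nonneg_left ?_ (A.dz_nn k)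
      rw [← sq_abs]
      exact pow_le_pow_left₀ (abs_nonneg _) (loc k (not_lt.1 (b3 k p (by omega))) q) 2
    · rw [← sum_mul, At.dx_sum73 M ik.le]
      exact mul_le_of_le_one_left (sq_nonneg _) (by linarith [h.leg.z1 k0, h.z_pos i])
  have a2 : ∑ k ∈ (Ioo S.jl S.J).filter fun k => 3 / 4 * M.s S.J ≤ M.s k, dx M k * M.G k ^ 2 ≤
      GS M S (M.s S.J / 2) S.C :=
    sum_le_sum_of_subset_of_nonneg (fun k hk => by
      obtain ⟨p, q⟩ := mem_filter.1 hk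
      exact mem_filter.2 ⟨p, by linarith, h.s_le_C ((mem_Ioo.1 p).2.le.trans i3)⟩)
      fun k _ _ => mul_nonneg (A.dz_nn k) (sq_nonneg _)
  unfold Pla GP
  simp only [sq_abs]
  linarith

end Crest.Agent.T156.Alt.L62

end
end

-- ▼ part T156/TLpN_26
section

/-!
# Row 156, block (L), the corner: the numbers of the quadratic branch (helper26)
-/

set_option autoImplicit false

noncomputable section

namespace Crest.Agent.T156.Alt.L62

open Real Finset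
open Crest.Agent.T156.Alt.L69 Crest.Agent.T156.Alt.Mp9 Crest.Agent.T156.Alt.L63

variable {E L : ℝ} {S : Sc} {M : Md} {m : ℕ} {a G1 u1 u2 j γ Lc ηc τ l0 l X Xp Vt Lg Lp X2 X3 X4
  G0 : ℝ} {η : ℝ → ℝ} {N : ℝ} {g : ℝ → ℝ} {t1 ℓ En p0 α Pq al b t0 f : ℝ} {V k0 : ℕ}

/-- the lines that do not depend on the plateau nodes; `D = L (p0 + b)`, `g0 = L (X2 + 1 / n)` -/
structure N26 (L : ℝ) (S : Sc) (M : Md) (m : ℕ) (a X2 ℓ p0 b α al : ℝ) (k0 : ℕ) (t0 : ℝ) :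
    Prop where
  α0 : 0 < α
  αa : α ≤ al
  ℓα : ℓ ≤ α
  uα : S.u0 ≤ α
  nℓ : 1 / (S.n : ℝ) ≤ ℓ
  Dℓ : 100 * (L * (p0 + b)) ≤ ℓ
  θ1 : 100 * S.C ^ 3 * S.θ ≤ ℓ
  θ2 : 100 * S.C ^ 3 * S.θ ≤ ℓ ^ 2
  vℓ : 100 * S.C ^ 3 * S.v ≤ ℓ
  hp : ∀ t ∈ Set.Icc 0 (2 * S.C), Hq S M m a t ≤ al
  g0 : L * (X2 + 1 / S.n) ≤ ℓ ^ 2
  la : L * X2 ≤ ℓ ^ 2
  Gk : ∀ k, M.s S.J / 2 ≤ M.s k → M.s k + ℓ / 8 ≤ M.s S.J → k < S.J → |M.G k| ≤ α ^ 3
  jl : 2 * M.s S.jl < M.s S.J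
  k0 : 3 / 4 * M.s S.J ≤ M.s k0
  hJ : |Jq S M m a t0| ≤ L * p0
  /-- any middle node of the plateau -/
  mid : ∀ w κ, S.J ≤ w → w ≤ S.Jp → 1 ≤ κ * L → κ ≤ du M w → κ ≤ M.z w - M.z (S.J - 1) →
    |sb M m a (w + 1) - M.s S.J| ≤ al ∧ |M.G w| ≤ L * α ^ 3

theorem sq_div_le {Y κ y : ℝ} (L1 : 1 ≤ L) (κ0 : 0 < κ) (h : 1 ≤ κ * L) (hy : √Y ≤ y) :
    √(Y / κ) ≤ L * y := by
  have y0 := (sqrt_nonneg _).trans hy
  have a1 := (sqrt_le_left y0).1 hy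
  refine sqrt_le_iff.2 ⟨by positivity, ?_⟩
  rw [div_le_iff₀ κ0]
  have a2 : 1 ≤ L ^ 2 * κ := by nlinarith
  nlinarith [mul_le_mul_of_nonneg_left a2 (sq_nonneg y)]

theorem n26 (H : Cx E L S M m a G1 u1 u2 j γ Lc ηc τ l0 l X Xp Vt Lg Lp X2 X3 X4 G0 η N g t1
      (M.s S.J) ℓ En p0) (Q : LQ E S M X Xp Vt Lg Lp X2 G0 u1 u2 j γ η g ℓ α p0 Pq)
    (hx : 0 ≤ x0 S M X Xp Vt Lg Lp G0 u1 j γ ℓ η)
    (P : L63.P1 E L S M m a X X2 ℓ p0 b V k0 t0 f) (hal : L ^ 2 * α ≤ al) :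
    N26 L S M m a X2 ℓ p0 b α al k0 t0 := by
  have h := H.cl
  have A := H.A
  have C0 := h.C0
  have C1 := h.C1
  have L1 := H.L1
  have L0 : 0 < L := one_pos.trans_le L1
  have ℓ0 := H.ℓ0
  have θ0 := h.θ0
  have μ0 := H.μ0
  have E0 := zero_le_one.trans H.E1
  have u0 := H.lp.u0
  have j1 := H.ap.j0
  have s1 := sqrt_nonneg X
  have s2 := sqrt_nonneg (GS M S 0 S.C + GP M S)
  have s3 := sq_nonneg l0
  have s4 := sqrt_nonneg (GP M S)
  have s5 := H.lt.g0 (M.s S.J)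
  have a1 := Q.a1
  have a3 := Q.a3
  have ℓα : ℓ ≤ α := by linarith
  have α0 := ℓ0.trans_le ℓα
  have LL : L * α ≤ L ^ 2 * α := mul_le_mul_of_nonneg_right (le_self_pow₀ L1 two_ne_zero) α0.le
  have αL := le_mul_of_one_le_left α0.le L1
  have nℓ : 1 / (S.n : ℝ) ≤ ℓ := by simpa using H.dv H.E1 μ0.le H.μℓ
  have P0 : 0 ≤ p0 + b := by linarith [P.p00, P.b0]
  have D1 : 500 * S.C ^ 0 * L ^ 1 * (p0 + b) ≤ 5 * ℓ := H.dv (H.LL 0 (by norm_num) 1) P0 P.sm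
  have θE : E * S.θ ≤ ℓ ^ 2 := by
    have := pow_le_pow_left₀ (by positivity) H.lt.ℓ1 2
    rw [mul_pow, sq_sqrt θ0.le] at this
    exact (mul_le_mul_of_nonneg_right (le_self_pow₀ H.E1 two_ne_zero) θ0.le).trans this
  have θ2 : 100 * S.C ^ 3 * S.θ ≤ ℓ ^ 2 := H.dv (H.KE 3 (by norm_num)) θ0.le θE
  have θ3 : 2 * S.C ^ 0 * L ^ 1 * S.θ ≤ ℓ ^ 2 := H.dv (H.LL 0 (by norm_num) 1) θ0.le θE
  have ℓ2 : ℓ ^ 2 ≤ ℓ := pow_le_of_le_one ℓ0.le H.ℓ1 two_ne_zero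
  have x1 : X2 ≤ S.θ := by
    have := H.ln.th3
    rw [H.mf_eq] at this
    simpa using H.dv H.E1 H.X20 (this.trans (h.ms1 l))
  have x2 : 1 / (S.n : ℝ) ≤ S.θ := H.μms zero_le_one
  have g0 : L * (X2 + 1 / S.n) ≤ ℓ ^ 2 := by
    linarith [mul_le_mul_of_nonneg_left (add_le_add x1 x2) L0.le]
  have m1 : 1 / ((m : ℝ) + 1) ≤ 1 / S.n := one_div_le_one_div_of_le h.N0 (by
    have : (S.n : ℝ) ≤ m := by exact_mod_cast H.mem.m1
    linarith)
  have lu := H.ltu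
  have l0' := H.l0'
  have v1 : S.v ≤ 1 / S.n := by simpa using H.dv H.E1 h.v0.le H.vμ
  have fl : ∀ k, S.J ≤ k → k ≤ S.Jp → M.s k = M.s S.J := fun k p q =>
    le_antisymm ((h.sm q).trans Q.flat.le) (h.sm p)
  refine ⟨α0, by linarith, ℓα, by linarith, nℓ, by linarith, θ2.trans ℓ2, θ2,
    (H.dv (H.KE 3 (by norm_num)) h.v0.le H.vμ).trans nℓ, fun t ht => ?_, g0,
    by linarith [mul_pos L0 μ0], fun k p q r => ?_, by linarith [H.jl_l0, H.ln.l0l],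
    by linarith [P.low, P.k3], ?_, fun w κ w1 w2 κ1 κ2 κ3 => ?_⟩
  · have c1 : S.C * S.θ ≤ 1 / 2 := by
      have := mul_le_mul_of_nonneg_right (le_self_pow₀ C1 (n := 3) (by norm_num)) θ0.le
      linarith [H.ℓ1, mul_pos C0 θ0]
    have := T5.hp_le A (γ := 0) (Z := α) c1 H.jl_l0 (H.ln.l0l.trans H.l1) H.ln.X0
      (by simpa using H.dv H.E1 H.ln.X0.le H.ln.X1) (by linarith [Q.flat]) H.ap.all j1
      (by linarith) (by linarith) (by linarith) ht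
    refine this.trans ?_
    have c2 := mul_le_mul_of_nonneg_right (H.KL (c := 300) 5 (by norm_num)) α0.le
    have c3 := mul_le_mul_of_nonneg_right C1 (show 0 ≤ 100 * S.C ^ 4 * α by positivity)
    linarith
  · have := H.lt.g1 (M.s S.J) k (H.idx (k := k) (by linarith) (by linarith)).1 r (by linarith)
      (by linarith) q
    linarith
  · refine le_trans ?_ (P.hq t0 (by linarith [P.low]) le_rfl).1
    have := intervalIntegral.integral_nonneg (μ := MeasureTheory.volume) (a := 0) (b := 2 * S.C)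
      (f := fun s => |Jq S M m a s|) (by positivity) fun _ _ => abs_nonneg _
    unfold Hq Rig.Hp
    rw [A.okh.2]
    linarith
  · have κ0 : 0 < κ := (mul_pos_iff_of_pos_right L0).1 (one_pos.trans_le κ1)
    have jw : ∀ k, S.J ≤ k → S.jl < k := fun k p => h.jl_lt.trans_le p
    have kN : ∀ k, k ≤ S.Jp → k ≤ M.N := fun k p => p.trans h.i4.le
    have d1 := mid62 h (f := M.del m a) (Y := X) w1 w2 (fun i k p q r => by
      unfold Md.del Md.q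
      rw [fl i p (q.trans r), fl k (p.trans q) r]
      linarith [rb_mono (M := M) (a := a) A.m_pos q]) (by
        have := H.Sdel (lo := S.J - 1) (hi := S.Jp) (by have := h.j0_lt; omega) le_rfl
        unfold Ap63.Sx at this
        simp only [sq_abs] at this
        rwa [show Icc S.J S.Jp = Ioc (S.J - 1) S.Jp by
          ext k; simp only [mem_Icc, mem_Ioc]; have := h.j0_lt; omega]) κ0 κ2 κ3
    have d2 := mid62 h (f := M.G) (Y := GP M S) w1 w2 (fun i k p q r => by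
      unfold Md.G Md.q
      rw [fl i p (q.trans r), fl k (p.trans q) r, h.d_eq (jw i p) (kN i (q.trans r)),
        h.d_eq (jw k (p.trans q)) (kN k r)]
      linarith [h.leg.Hm q]) le_rfl κ0 κ2 κ3
    have d3 := d1.trans (sq_div_le L1 κ0 κ1 (show √X ≤ α by linarith))
    have d4 := d2.trans (sq_div_le L1 κ0 κ1 (show √(GP M S) ≤ α ^ 3 by linarith))
    refine ⟨?_, d4⟩
    have α1 : α ≤ 1 := by simpa using H.dv H.E1 α0.le Q.a2
    have d5 := mul_le_mul_of_nonneg_left (pow_le_of_le_one α0.le α1 (n := 3) (by norm_num)) L0.le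
    obtain ⟨t1, t2⟩ := A.tail_mem (kN w w2)
    have e1 := At.sb_sub M m a w
    have d0 : 0 ≤ M.d w := by linarith [h.d_ge w]
    have d6 : |M.d w * M.del m a w| ≤ S.C * (L * α) := by
      rw [abs_mul, abs_of_nonneg d0]
      exact mul_le_mul ((h.d_le (kN w w2)).trans h.b1) d3 (abs_nonneg _) C0.le
    have d7 := mul_le_mul_of_nonneg_left (nℓ.trans (ℓα.trans αL)) C0.le
    have d8 := mul_le_mul_of_nonneg_right (H.KL (c := 3) 1 (by norm_num)) (mul_pos L0 α0).le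
    have d9 := le_mul_of_one_le_left (mul_pos L0 α0).le C1
    rw [← fl w w1 w2, e1]
    rw [abs_le] at d4 d6 ⊢
    exact ⟨by linarith [H.Cm, d4.1, d6.1], by linarith [d4.2, d6.2, mul_pos C0 μ0]⟩

end Crest.Agent.T156.Alt.L62

end
end

-- ▼ part T156/TLpZ_26
section

/-!
# Row 156, block (L), the corner: (TLp) from its two inputs (helper26)
-/

set_option autoImplicit false

noncomputable section

namespace Crest.Agent.T156.Alt.L62

open Real Finset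
open Crest.Agent.T156.Alt.L69 Crest.Agent.T156.Alt.Mp9 Crest.Agent.T156.Alt.L63

variable {E L : ℝ} {S : Sc} {M : Md} {m : ℕ} {a G1 u1 u2 j γ Lc ηc τ l0 l X Xp Vt Lg Lp X2 X3 X4
  G0 : ℝ} {η : ℝ → ℝ} {N : ℝ} {g : ℝ → ℝ} {t1 ℓ En p0 α Pq t0 f K u0 ρ : ℝ} {V k0 : ℕ}
  {Pn : ℕ → Prop}

theorem tlp_at (H : Cx E L S M m a G1 u1 u2 j γ Lc ηc τ l0 l X Xp Vt Lg Lp X2 X3 X4 G0 η N g t1
      (M.s S.J) ℓ En p0) (Q : LQ E S M X Xp Vt Lg Lp X2 G0 u1 u2 j γ η g ℓ α p0 Pq)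
    (P : L63.P1 E L S M m a X X2 ℓ p0 (bs S Lg X2 (g (M.s S.J)) η (M.s S.J)) V k0 t0 f)
    (R : PN S M m a (2 * S.C) Pn (fun k => L * (Lg ^ 2 * ap M S Xp Vt γ k) ^ 2)
      (L * x0 S M X Xp Vt Lg Lp G0 u1 j γ ℓ η) (L * X2) (8 * u2) (ℓ / (100 * S.C ^ 3)) ℓ
      (100 * S.C ^ 3))
    (K1 : 1 ≤ K) (KL : K ≤ L) (ρ0 : 0 < ρ) (ρ1 : ρ ≤ u0) (ρ2 : 2 * S.C * ρ ≤ 1) (ρ3 : 1 ≤ ρ / 2 * L)
    (core : ∀ {D p g0 x la al u' u κ Y GP : ℝ} {w kA : ℕ} {ez er : ℕ → ℝ},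
      W1 S M m a (2 * S.C) ℓ D p g0 V k0 t0 f →
      PN S M m a (2 * S.C) Pn ez x la u' (ℓ / (100 * S.C ^ 3)) ℓ (100 * S.C ^ 3) →
      Np73 S M m a (2 * S.C) u0 κ (K * al) u la Y Pn er w kA →
      Nu73 S M m a (2 * S.C) ℓ D g0 x la al ez w → 100 * K * al ≤ κ →
      ∑ j ∈ Icc S.J S.Jp, (M.z j - M.z (j - 1)) * M.G j ^ 2 ≤ GP →
      ∑ k ∈ Ioc k0 S.Jp, dx M k * (sb M m a (k + 1) - M.s k) ^ 2 ≤
        K ^ 8 / κ ^ 2 * (p ^ 2 + D ^ 2 + al ^ 3 + (√GP / (√κ * √al) + Y + u * (2 * S.C) ^ 2))) :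
    ∑ k ∈ (Ioo S.jl S.J).filter fun k => 3 / 4 * M.s S.J ≤ M.s k, dx M k * M.del m a k ^ 2 +
      Pla M S m a 2 ≤ L ^ 18 * Pq := by
  have h := H.cl
  have C0 := h.C0
  have C1 := h.C1
  have L1 := H.L1
  have L9 := H.L9
  have L0 : 0 < L := one_pos.trans_le L1
  have ℓ0 := H.ℓ0
  have μ0 := H.μ0
  have hx : 0 ≤ x0 S M X Xp Vt Lg Lp G0 u1 j γ ℓ η := nonneg_of_mul_nonneg_right R.x00 L0
  have n := n26 H Q hx P (le_refl (L ^ 2 * α))
  have α0 := n.α0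
  have pq := Q.pq
  have a3 := Q.a3
  have u20 : 0 ≤ u2 := by linarith [h.last, h.leg.z1 (S.Jp - 1), H.lp.u1a, H.lp.u1b.1]
  have s1 := GP_nn h
  have s2 := GS_nn h (M.s S.J / 2) S.C
  have s3 := sqrt_nonneg (GP M S / α)
  have s4 := sqrt_nonneg (GP M S)
  have s5 := H.lt.g0 (M.s S.J)
  have s6 : 0 < 1 / (S.n : ℝ) ^ 2 := by have := h.N0; positivity
  have p00 := P.p00
  have b0 := P.b0
  generalize bs S Lg X2 (g (M.s S.J)) η (M.s S.J) = b at P n pq b0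
  generalize x0 S M X Xp Vt Lg Lp G0 u1 j γ ℓ η = x at R hx a3
  have s7 := sq_nonneg (p0 + b)
  have s8 := pow_pos α0 3
  have Pq0 : 0 ≤ Pq := by linarith
  have sm : ∀ y, y * L ≤ 1 → y ≤ ρ / 2 := fun y q => le_of_mul_le_mul_right (q.trans ρ3) L0
  have iv : ∀ y, 0 ≤ y → 2 * y / ρ ≤ L * y := fun y q => by
    rw [div_le_iff₀ ρ0]; nlinarith [mul_le_mul_of_nonneg_left ρ3 q]
  have up : ∀ i k : ℕ, i ≤ k → ∀ y, 0 ≤ y → L ^ i * y ≤ L ^ k * y := fun i k q y r =>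
    mul_le_mul_of_nonneg_right (pow_le_pow_right₀ L1 q) r
  have big : ∀ (c : ℝ) (i k : ℕ) y, k = i + 1 → c ≤ 10 ^ 9 → 0 ≤ y → c * (L ^ i * y) ≤ L ^ k * y :=
    fun c i k y e q r => by
      rw [e, pow_succ', mul_assoc]
      exact mul_le_mul_of_nonneg_right (q.trans L9) (by positivity)
  have al0 : 0 < L ^ 2 * α := by positivity
  have aa1 := le_mul_of_one_le_left al0.le K1
  have aa2 : 100 * K * (L ^ 2 * α) ≤ ρ / 2 := sm _ (by
    have a1 : 100 * S.C ^ 0 * L ^ 4 * α ≤ 1 := H.dv (H.LL 0 (by norm_num) 4) α0.le Q.a2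
    linarith [mul_le_mul_of_nonneg_right KL (show 0 ≤ 100 * (L ^ 2 * α) * L by positivity)])
  have μ2 : 1 / (S.n : ℝ) ^ 2 ≤ 1 / S.n := by
    rw [← one_div_pow]
    exact pow_le_of_le_one μ0.le (H.μ1.trans H.l1) two_ne_zero
  have U1 : 2 * (8 * u2 + 1 / (S.n : ℝ) ^ 2) ≤ ρ / 2 := sm _ (by
    have a1 : 32 * S.C ^ 0 * L ^ 1 * u2 ≤ 1 := H.dv (H.LL 0 (by norm_num) 1) u20 H.lp.u1b.2
    have a2 : 4 * S.C ^ 0 * L ^ 1 * (1 / S.n) ≤ l := H.dv (H.LL 0 (by norm_num) 1) μ0.le H.μl'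
    linarith [mul_le_mul_of_nonneg_left μ2 L0.le, H.l1])
  have ρ4 : ρ ≤ 1 := by nlinarith
  obtain ⟨w, kA, k⟩ := R.pick h (ρ := ρ) (a0 := 3 * (K * (L ^ 2 * α))) ρ2 (by linarith)
    (by linarith) (by linarith [n.uα, n.αa]) (by linarith)
  have hZ : EZ S M Pn (fun k => L * (Lg ^ 2 * ap M S Xp Vt γ k) ^ 2) (K * (L ^ 2 * α))
      (8 * u2 + 1 / (S.n : ℝ) ^ 2) (L * α ^ 3) := fun i q1 q2 q3 => by
    have := mul_le_mul_of_nonneg_left (Q.a4 i (R.mem i q1).1 (R.mem i q1).2.le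
      (by linarith [n.αa]) (by linarith)) L0.le
    linarith
  have Z0 : 0 ≤ L * α ^ 3 := by positivity
  have xZ := mul_le_mul_of_nonneg_left (show x ≤ α ^ 3 by linarith) L0.le
  have iZ := iv _ Z0
  have wJ := (R.mem w k.pw).1
  obtain ⟨m1, m2⟩ := n.mid w (ρ / 2) wJ k.w0 ρ3 k.κ1 k.κ2
  have lg := H.lg
  have lg1 : 1 ≤ log (S.n : ℝ) := by linarith [H.Cn]
  have ℓa : ℓ ≤ L ^ 2 * α := n.ℓα.trans n.αa
  have ℓ2 := pow_le_pow_left₀ ℓ0.le ℓa 2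
  have c1 := up 1 2 (by norm_num) _ s8.le
  have c2 := up 3 6 (by norm_num) _ s8.le
  have c3 := big 2 2 3 _ rfl (by norm_num) s8.le
  have c4 := up 0 6 (by norm_num) _ s8.le
  have v0 := mul_pos (pow_pos C0 2) h.v0
  have z := core (D := L * (p0 + b)) (p := L * p0) (g0 := L * (X2 + 1 / S.n)) (al := L ^ 2 * α)
    (κ := ρ / 2) (u := 8 * u2 + 1 / (S.n : ℝ) ^ 2) (GP := GP M S) (w := w) (kA := kA)
    (Y := (L * x + 4 * (L * α ^ 3) / ρ + 4 * S.C * (L * α ^ 3)) * (3 * L))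
    (er := er M (L * x) (L * α ^ 3) ρ (8 * u2 + 1 / (S.n : ℝ) ^ 2))
    ⟨⟨P.V1, P.V2⟩, P.sV, P.yV, P.dich, ⟨P.t0a, P.t0b.le⟩, P.low, fun t q r => (P.hq t q r).2, n.hJ,
      ⟨h.i1.trans P.k1.le, P.k2.trans P.V2⟩, ⟨P.k3, P.k4⟩, P.k5, ⟨P.f1, P.f2⟩,
      by have := P.X20; positivity, P.f3⟩ R
    ⟨k.pw, ⟨k.k1.le, k.k2⟩, by linarith [k.w1], ⟨by linarith, k.κ1, k.κ2⟩,
      ⟨by linarith [k.a1], by linarith [k.a2]⟩, by linarith,
      er_nn R.x00 Z0 ρ0.le (by linarith),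
      R.lo h k hZ Z0 (by linarith) (by linarith) (by linarith) (by linarith [n.uα, n.αa]) le_rfl
        (by linarith) ρ0,
      R.hi h k hZ Z0 (by linarith) (by linarith) (by linarith) (by linarith) ρ0,
      R.sum h k Z0 (by linarith) (by linarith) (by linarith) (by linarith) ρ0
        (by have := log_le_log μ0 (show 1 / (S.n : ℝ) ≤ 3 * (K * (L ^ 2 * α)) by linarith [n.nℓ])
            rw [one_div, log_inv] at this
            linarith)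
        (by have := log_le_log (half_pos s6)
              (show 1 / (S.n : ℝ) ^ 2 / 2 ≤ (8 * u2 + 1 / (S.n : ℝ) ^ 2) / 2 by linarith)
            rw [log_div s6.ne' two_ne_zero, log_div one_ne_zero (pow_pos h.N0 2).ne', log_one,
              log_pow] at this
            push_cast at this
            linarith [log_two_lt_d9])⟩
    ⟨Q.flat, by linarith [n.jl], ℓa, by linarith [n.Dℓ, mul_nonneg L0.le (show 0 ≤ p0 + b by
        linarith)], n.θ2.trans ℓ2,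
      by nlinarith [n.vℓ, mul_le_mul_of_nonneg_right C1 v0.le], n.hp, n.g0.trans ℓ2, n.la.trans ℓ2,
      by linarith [R.ezw k hZ ρ0 (by linarith) (by linarith)],
      by linarith [le_abs_self (M.G w)], fun i q1 q2 q3 => by linarith [n.Gk i q2 q3 q1], m1⟩
    aa2 le_rfl
  have e1 : K ^ 8 / (ρ / 2) ^ 2 ≤ L ^ 10 := by
    rw [div_le_iff₀ (by positivity)]
    have a1 := pow_le_pow_left₀ (by linarith) KL 8
    have a2 := mul_le_mul_of_nonneg_left (one_le_pow₀ (n := 2) ρ3) (pow_pos L0 8).le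
    linarith
  have e2 : √(GP M S) / (√(ρ / 2) * √(L ^ 2 * α)) ≤ √(GP M S / α) := by
    rw [sqrt_div s1, ← sqrt_mul (by linarith)]
    refine div_le_div_of_nonneg_left s4 (sqrt_pos.2 α0) (sqrt_le_sqrt ?_)
    nlinarith [mul_le_mul_of_nonneg_right ρ3 (mul_pos L0 α0).le, le_mul_of_one_le_left α0.le L1]
  have e3 : (L * p0) ^ 2 ≤ (L * (p0 + b)) ^ 2 :=
    pow_le_pow_left₀ (by positivity) (mul_le_mul_of_nonneg_left (by linarith) L0.le) 2
  have e4 : (L * (p0 + b)) ^ 2 ≤ L ^ 2 * Pq := by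
    rw [mul_pow]; exact mul_le_mul_of_nonneg_left (by linarith) (by positivity)
  have e5 : L ^ 6 * α ^ 3 ≤ L ^ 6 * Pq := mul_le_mul_of_nonneg_left (by linarith) (by positivity)
  have e6 : (L * x + 4 * (L * α ^ 3) / ρ + 4 * S.C * (L * α ^ 3)) * (3 * L) ≤ L ^ 6 * α ^ 3 := by
    have a1 := mul_le_mul_of_nonneg_right (H.KL (c := 4) 1 (by norm_num)) Z0
    have a2 : 4 * (L * α ^ 3) / ρ = 2 * (2 * (L * α ^ 3) / ρ) := by ring
    have a4 := mul_le_mul_of_nonneg_right (show L * x + 4 * (L * α ^ 3) / ρ + 4 * S.C * (L * α ^ 3)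
      ≤ 4 * (L ^ 2 * α ^ 3) by linarith) (show 0 ≤ 3 * L by linarith)
    linarith [big 12 3 4 _ rfl (by norm_num) s8.le, up 4 6 (by norm_num) _ s8.le]
  have e7 : (8 * u2 + 1 / (S.n : ℝ) ^ 2) * (2 * S.C) ^ 2 ≤ L ^ 1 * Pq := by
    have a1 := mul_le_mul_of_nonneg_right (show 8 * u2 + 1 / (S.n : ℝ) ^ 2 ≤ 8 * Pq by linarith)
      (sq_nonneg (2 * S.C))
    linarith [mul_le_mul_of_nonneg_right (H.KL (c := 32) 2 (by norm_num)) Pq0]
  have e8 : (S.C / (m + 1)) ^ 2 ≤ L ^ 1 * Pq := by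
    have a1 := pow_le_pow_left₀ (by positivity) H.Cm 2
    rw [mul_pow, one_div_pow] at a1
    have a2 := mul_le_mul (H.KL (c := 1) 2 (by norm_num)) (show 1 / (S.n : ℝ) ^ 2 ≤ Pq by linarith)
      s6.le L0.le
    linarith
  have e9 := z.trans (mul_le_mul e1 (show _ ≤ L ^ 7 * Pq by
    linarith [up 2 6 (by norm_num) _ Pq0, up 1 6 (by norm_num) _ Pq0, up 0 6 (by norm_num) _ Pq0,
      big 6 6 7 _ rfl (by norm_num) Pq0]) (by have := R.x00; positivity) (by positivity))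
  refine (fin26 H.A (P.k2.trans P.V2) n.k0 P.loc e9).trans ?_
  linarith [up 2 17 (by norm_num) _ Pq0, up 1 17 (by norm_num) _ Pq0, up 0 17 (by norm_num) _ Pq0,
    big 12 17 18 _ rfl (by norm_num) Pq0]

/-- **(TLp)** -/
theorem tlp_of (h1 : P1S) (h2 : PNS) : TLp := by
  unfold TLp
  refine CL.mono (P := fun E Λ S M m a => Cl S M → _) ?_ fun _ _ _ _ _ _ _ _ h _ p => p h
  refine CL.glue' (CL.and h1 h2) (fun E Λ Λ' S M m a c1 c2 h hc G1 u1 u2 j γ Lc ηc τ l0 l X Xp Vt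
      Lg Lp X2 X3 X4 G0 η N g t1 ℓ En p0 α Pq hy q => ?_) 2 le_rfl 15 18 fun C A ε η hε hη => ?_
  · have := h hc _ _ _ _ _ _ _ _ _ _ _ _ _ _ _ _ _ _ _ _ _ _ _ _ _ _ _ _ hy q
    refine this.trans (mul_le_mul_of_nonneg_right c2 (nonneg_of_mul_nonneg_right
      (le_trans (add_nonneg ?_ ?_) this) (by linarith)))
    · exact sum_nonneg fun k _ => mul_nonneg (dx0 hc k) (sq_nonneg _)
    · exact sum_nonneg fun k _ => mul_nonneg (dx0 hc k) (by positivity)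
  obtain ⟨K, u0, K1, u00, HK⟩ := core73 (2 * C)
  refine ⟨max (max K (2 / min u0 (1 / (2 * C)))) (10 ^ 9 * C ^ 13), fun S M m a G _ e1 _ h hm P _ G1
    u1 u2 j γ Lc ηc τ l0 l X Xp Vt Lg Lp X2 X3 X4 G0 η' N g t1 ℓ En p0 α Pq hy q => ?_⟩
  rw [pow_one] at hy q
  obtain ⟨V, k0, t0, f, p⟩ := P.1 _ _ _ _ _ _ _ _ _ _ _ _ _ _ _ _ _ _ _ _ _ _ _ _ _ _ hy
  obtain ⟨Pn, r⟩ := P.2 _ _ _ _ _ _ _ _ _ _ _ _ _ _ _ _ _ _ _ _ _ _ _ _ _ _ hy
  have n0 := G.N0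
  have C0 := h.C0
  have H : Cx ((S.n : ℝ) ^ ε) ((S.n : ℝ) ^ η) S M m a G1 u1 u2 j γ Lc ηc τ l0 l X Xp Vt Lg Lp X2 X3
      X4 G0 η' N g t1 (M.s S.J) ℓ En p0 := by
    refine ⟨hy, h, hm, ?_, ?_, G.log_le, ?_, ?_⟩
    · rw [G.hC]; exact (le_max_right _ _).trans G.K_le
    · rw [← rpow_natCast, ← rpow_mul n0.le]
      exact rpow_le_rpow_of_exponent_le G.N1.le (by rw [mul_comm]; exact e1)
    · rw [G.hC]; exact G.C_log
    · have a2 : (S.n : ℝ) ^ 2 ≤ (S.n : ℝ) ^ S.A := pow_le_pow_right₀ G.N1.le (G.hA ▸ G.A2)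
      rw [one_div, inv_pow, ← div_eq_mul_inv, le_div_iff₀ (pow_pos n0 2)]
      exact (mul_le_mul_of_nonneg_left a2 h.v0.le).trans h.v2
  have k := (le_max_left _ _).trans G.K_le
  rw [← G.hC] at k HK
  have ρ0 : 0 < min u0 (1 / (2 * S.C)) := by positivity
  refine tlp_at H q p r K1 ((le_max_left _ _).trans k) ρ0 (min_le_left _ _) ?_ ?_
    fun a1 a2 a3 a4 a5 a6 => (HK H.A le_rfl (by linarith) a1 a2 a3 a4 a5 a6).2
  · have := min_le_right u0 (1 / (2 * S.C))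
    rwa [le_div_iff₀ (by positivity), mul_comm] at this
  · have := (le_max_right _ _).trans k
    rw [div_le_iff₀ ρ0] at this
    linarith

end Crest.Agent.T156.Alt.L62

end
end

-- ▼ part T156/BwA_14

/-!
# Row 156, block (L): kit for (BwS) (helper14)
-/

set_option autoImplicit false

noncomputable section

namespace Crest.Agent.T156.Cut8

open MeasureTheory Set

/-- the bulk data from a continuation above `s` -/
theorem lb_core {T θ W a' s A c0 : ℝ} {zh zb ρ H m r1 r2 ω β f : ℝ → ℝ} {Q : ℝ → ℝ → Prop}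
    (R : Res T (fun t => zb t - zh t) ρ H r1 r2 ω β (fun t => Gap27.xi θ (m t) (f t)
      (∫ u in (0 : ℝ)..T, |Jf T zh zb u|) (zb t - zh t) (Jf T zh zb t)) A s) (lf : LB T f)
    (hF : ∫ t in A..s, f t ≤ W + ∫ t in A..s, H t * (zb t - zh t))
    (hΩ : ∫ t in A..s, ω t ^ 2 ≤ W + θ ^ 2 * ∫ t in A..s, (zb t - zh t) ^ 4)
    (nm : ∀ t, A < t → t < s → ∃ A0 A1 A2, 0 ≤ A1 ∧ Gap27.NumM θ (m t) (f t) A0 A1 A2 ∧
      |r1 t| + β t ≤ A0 + A1 * |zb t - zh t| +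
        A2 * (|Jf T zh zb t| + ∫ u in (0 : ℝ)..T, |Jf T zh zb u|)) (e : r2 s = c0)
    (hC : ∀ A' E, A ≤ A' → A' ≤ a' → (∫ t in A'..T, Jf T zh zb t ^ 2) +
      (∫ t in (0 : ℝ)..A', |Jf T zh zb t|) ^ 2 ≤ E →
      Cont T (fun t => zb t - zh t) ρ c0 (β s) A' s (θ * E + W) (Q E)) :
    Lb T θ W zh zb ρ H m A a' s Q r1 r2 ω β f :=
  ⟨R, lf, hF, hΩ, nm, fun A' E a b c => by
    obtain ⟨Z, z0, q, x⟩ := hC A' E a b c _ _ _ _ _ _ (R.sub a le_rfl) e rfl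
    exact ⟨Z, z0, q, x.extA.mono (by linarith)⟩⟩

end Crest.Agent.T156.Cut8

namespace Crest.Agent.T156.Alt.L63.Cx

open Real
open Crest.Agent.T156.Alt.L69 Crest.Agent.T156.Alt.Mp9

variable {E L : ℝ} {S : Sc} {M : Md} {m : ℕ} {a G1 u1 u2 j γ Lc ηc τ l0 l X Xp Vt Lg Lp X2 X3 X4
  G0 : ℝ} {η : ℝ → ℝ} {N : ℝ} {g : ℝ → ℝ} {t1 tu ℓ En p0 : ℝ}
  (H : Cx E L S M m a G1 u1 u2 j γ Lc ηc τ l0 l X Xp Vt Lg Lp X2 X3 X4 G0 η N g t1 tu ℓ En p0)
include H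

/-- the sources of the bulk and of the continuation -/
theorem src14 : 0 ≤ N ∧ 0 ≤ X4 ∧ 0 ≤ cB M S η (t1 / 2) S.C ∧ 0 ≤ 1 / (S.n : ℝ) ^ 3 ∧
    N + X2 ^ 2 + X4 + cB M S η (t1 / 2) S.C + 1 / (S.n : ℝ) ^ 3 ≤ 2 * En := by
  have t0 := H.t10
  have c0 : 0 ≤ cB M S η (t1 / 2) S.C := Finset.sum_nonneg fun k _ => by
    have := mf_pos H.cl (H.cl.s_nn k)
    have := cr1 S (M.s k)
    have : 0 ≤ min (|M.G k| ^ ((4 : ℝ) / 3)) (M.G k ^ 2 / mf S (M.s k)) :=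
      le_min (by positivity) (by positivity)
    exact mul_nonneg (dx_nn H.cl k) (by positivity)
  have x0 : 0 ≤ X4 := by
    have := H.w30 t0
    have c := t0.trans_le (H.cl_ge t0.le)
    have : 0 ≤ ws S (X ^ ((1 : ℝ) / 3)) t1 := by unfold ws; positivity
    have : 0 ≤ min X (L69.cl S (X ^ ((1 : ℝ) / 3)) t1 ^ 3) := le_min H.ln.X0.le (by positivity)
    exact le_trans (by positivity) (H.lt.x4 t1 (by linarith) (H.t11.trans H.cl.C1))
  have n0 : 0 ≤ N := by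
    have := GP_nn H.cl
    have := GS_nn H.cl (1 / (8 * S.C ^ 2)) S.C
    have := H.cl.θ0
    exact le_trans (by positivity) H.lp.c2
  have a2 : 0 ≤ l ^ 3 * X := (mul_pos (pow_pos H.l0' 3) H.ln.X0).le
  have a3 : 0 ≤ (S.ms t1 * bs S Lg X2 (g t1) η t1) ^ 2 / t1 := by positivity
  have a4 : 1 / (S.n : ℝ) ^ 3 ≤ En := by
    rw [← one_div_pow]
    exact (pow_le_pow_of_le_one H.μ0.le (H.μ1.trans H.l1) (by norm_num)).trans H.μEn
  have := H.cl.N0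
  exact ⟨n0, x0, c0, by positivity, by linarith [H.lt.en]⟩

theorem Et14 : E * t1 ≤ M.s S.J := H.lt.t1b.trans H.lt.tu1

theorem num14 : l ≤ t1 / 2 ∧ 4 * S.C ^ 4 * (t1 / 2) ≤ S.C ∧ 12 * S.C ^ 7 * (t1 / 2) < 1 ∧
    E * (t1 / 2) ≤ S.C ∧ 1000 * t1 ≤ M.s S.J ∧ M.s S.J ≤ S.C := by
  have t0 := H.t10
  have C0 := H.cl.C0
  have sC := H.cl.s_le_C H.cl.i3
  have a := H.Et14.trans sC
  have b1 : 2 * S.C ^ 4 * t1 ≤ S.C := H.dv (H.KE 4 (by norm_num)) t0.le a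
  have b2 : 12 * S.C ^ 8 * t1 ≤ S.C := H.dv (H.KE 8 (by norm_num)) t0.le a
  have b3 : 12 * S.C ^ 7 * t1 ≤ 1 := le_of_mul_le_mul_left (by linarith) C0
  have b4 : 0 < S.C ^ 7 * t1 := by positivity
  have b5 : 0 ≤ E * t1 := mul_nonneg (by linarith [H.E1]) t0.le
  exact ⟨by linarith [H.lt.t1a], by linarith, by linarith, by linarith,
    H.t1u.trans H.lt.tu1, sC⟩

end Crest.Agent.T156.Alt.L63.Cx

end
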