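import Crest.Agent.T156.CLad_90

/-!
# Row 156, block C: the centred mixed word, objects and pieces (helper84)
-/

set_option autoImplicit false

noncomputable section

namespace Crest.Agent.T156.Cas.C40.Mx84

open MeasureTheory Real Set Filter Topology
open Crest.Agent.T157.E Crest.Agent.T157.Casc Crest.Agent.T157.SL
open Crest.Agent.T157.G1 (ov)
open Mul55 G90 Nu87 Ck32
open Cw55 (Uc)

/-- four leaves leaving one path at the levels `y`, `s`, `u`, `u` -/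
def cat (K y s u : ℕ) : Fin 4 → Fin 4 → ℕ :=
  R90.lf K (fun _ _ : Unit => K) (fun _ => ()) ![y, s, u, u]

/-- the canonical bulk factor `E R₀₁² (U_u (2, 3) - δ_u)` -/
def Bk (D : CD) (y s u : ℕ) : ℝ := R90.TK (fun _ => 1) D.B 0 (cat D.B.length y s u)
  fun x => ov (x 0) (x 1) ^ 2 * Uc D u (x 2) (x 3)

/-- summed over the low split -/
def GG (D : CD) (s u : ℕ) : ℝ := ∑ y ∈ D.lo, D.dx y * (D.τ y ^ 2 * Bk D y s u)

/-- the square norm of a centred node functional -/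
def nrm (D : CD) (N : ℕ → ℝ) : ℝ :=
  pE (fun _ => 1) D.B 0 fun p _ => (∑ t ∈ D.up, N t * (D.nd t p - D.del t)) ^ 2

/-- the gain `min 1 e` -/
def mm (D : CD) (t : ℕ) : ℝ := min 1 (D.e t)

/-- all low splits are moved to `J` -/
def sety {r : ℕ} (J : ℕ) (σ : SM r) : SM r := fun a b => if σ a b ≤ J then J else σ a b

/-- the weak bound -/
def WkS : Prop := ∀ τ0 : ℝ, ∃ C : ℝ, 0 ≤ C ∧ ∀ D : CD, D.Ok τ0 → ∀ s, D.J < s →
  ∀ (N : ℕ → ℝ) (f : ℝ), 0 ≤ f → nrm D N ≤ f ^ 2 →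
    |∑ u ∈ D.up, N u * GG D s u| ≤ C * (D.Lv2 * f + (∑ u ∈ D.up, |N u|) * D.tl)

/-- the bulk factor against the canonical one: legs `a ~ b`, `c ~ d ~ p ~ q` -/
def BkS : Prop := ∃ C : ℝ, 0 ≤ C ∧ ∀ (τ0 : ℝ) (D : CD), D.Ok τ0 → ∀ (r : ℕ) (σ : SM r),
  Rz D.B.length σ → ∀ (a b c d p q : Fin r) (y u : ℕ), σ a c = y → y ∈ D.lo → D.J < σ a b →
    D.J < σ c d → D.J < σ c p → p ≠ q → σ p q = u → u ∈ D.up →
    |TB D σ (fun x => ov (x a) (x c) * ov (x b) (x d) * Uc D u (x p) (x q)) - Bk D y (σ c p) u| ≤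
      C * ((if a = b then 0 else D.v y (σ a b) + D.X ^ 2 * D.g u ^ 2) +
        (if c = d then 0 else if u ≤ σ c d then mm D u * D.v y (σ c d)
          else D.v y (σ c d) + D.X ^ 2 * D.g u ^ 2) +
        D.X * (D.v y u + D.v u u) + D.tl)


/-- the site factor does not see the low splits -/
def SmS : Prop := ∃ C : ℝ, 0 ≤ C ∧ ∀ (τ0 : ℝ) (D : CD), D.Ok τ0 → ∀ r ≤ 8, ∀ σ : SM r,
  Rz D.B.length σ → ∀ A : EL r, A.length ≤ 4 →
    |Ck32.TS D σ (se D A σ) - Ck32.TS D (sety D.J σ) (se D A (sety D.J σ))| ≤ C * D.X ^ 3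

/-- the ladder cost of a low edge `(a, c)` and an upper pair `(b, d)` -/
def lad (D : CD) (k : ℕ) (a c b d : Fin (1 + k + 1)) (σ : SM (1 + k + 1)) : ℝ :=
  if σ a c ∈ D.lo ∧ σ b d ∈ D.up then
    (if D.W.isSome = true ∧ σ b d = σ (Ck32.mk k).1 (Ck32.mk k).2 then 1 else mm D (σ b d)) *
      D.v (σ a c) (σ b d)
  else 0


/-- bounded multipliers on both measures -/
def Gm (D : CD) : Prop := ∀ φ : ℕ → ℝ, (∀ t, |φ t| ≤ 1) →
  nrm D (fun t => D.dx t * φ t) ≤ D.f0 (D.J + 1) ^ 2 ∧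
    nrm D (fun t => D.om t * φ t) ≤ D.f1 (D.J + 1) ^ 2

/-- the signed measure of the first pair, on the upper levels in both directions -/
def ms (D : CD) (j : ℕ) : ℝ := if j ∈ D.up then D.dd (D.dx j) (D.om j) else 0

section graph
variable (D : CD) (k : ℕ) (a c b d p q : Fin (1 + k + 1)) (σ : SM (1 + k + 1))

/-- the site edges -/
def sA : EL (1 + k + 1) := L90.mA D k ++ [(a, c), (b, d), (p, q)]

/-- the term of one graph -/
def FF : ℝ := TB D σ (fun x => (Mx23.pL D).1 (σ a c) (x a) (x c) *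
    (Mx23.pL D).1 (σ b d) (x b) (x d) * (Mx23.pC D).1 (σ p q) (x p) (x q)) *
  Ck32.TS D σ (se D (sA D k a c b d p q) σ)

open Classical in
/-- its canonical form -/
def FC : ℝ := if ¬W90.Cl σ D.J 3 ∧ σ a c ∈ D.lo ∧ σ b d ≤ D.J ∧ σ p q ∈ D.up then
    D.τ (σ a c) ^ 2 * Bk D (σ a c) (max (σ a p) (σ c p)) (σ p q) * (D.τ (σ p q) / 8 *
      Ck32.TS D (sety D.J σ) (se D (sA D k a c b d p q) (sety D.J σ)))
  else 0

end graph

/-- reduction to the canonical form, graph by graph -/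
def RedS : Prop := ∀ τ0 : ℝ, ∃ C : ℝ, 0 ≤ C ∧ ∀ D : CD, D.Ok τ0 → ∀ k ≤ 6,
  ∀ a c b d p q : Fin (1 + k + 1), a ≠ c → b ≠ d → p ≠ q →
    ∃ ψ : SM (1 + k + 1) → ℝ, av D k ψ ≤ C * D.Err ∧ ∀ σ, Sup D k σ →
      |FF D k a c b d p q σ - FC D k a c b d p q σ| ≤ ψ σ

/-- the canonical part -/
def MainS : Prop := ∀ τ0 : ℝ, ∃ C : ℝ, 0 ≤ C ∧ ∀ D : CD, D.Ok τ0 → Gm D → ∀ k ≤ 6,
  ∀ a c b d p q : Fin (1 + k + 1), a ≠ c → b ≠ d → p ≠ q →
    |avt D.B (ms D) k (FC D k a c b d p q)| ≤ C * D.Err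

end Crest.Agent.T156.Cas.C40.Mx84

end
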