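import Crest.Agent.T156.CQ2_10_Mg
import Crest.Agent.T156.SFReg_97
import Crest.Agent.T156.EDef_91

/-!
# Row 156 (helper52): the word `[aU, aU]` in the test direction, definitions and leaves

The marked edge (level `j`) is put last: `dm_j * Tm = 2 Ful ((wA A * cM) * ee)` for any weights
`L`; the laws (`T` site, `B` bulk) are separate lists of the same length.
-/

set_option autoImplicit false
set_option linter.all false

noncomputable section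

namespace Crest.Agent.T156.Cas.Q21

open Finset
open Crest.Agent.T157.E Crest.Agent.T157.Casc Crest.Agent.T157.SL
open Crest.Agent.T156.Rect52 (mx)
open Crest.Agent.T156.Cas.Q75
open Crest.Agent.T156.Cas.Q75.A10 (ind)
open Crest.ProbabilityR.SpinGlassDynamics (spin)
open Nu87

/-- reference of the marked edge; factor and reference of the two other edges -/
abbrev Rf : Type := (ℕ → ℝ) × (ℕ → ℝ) × (ℕ → ℝ)

/-- `α e e' - β` -/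
def aK (α β : ℕ → ℝ) : ℕ → Bool → Bool → ℝ := fun j x y => α j * (spin x * spin y) - β j

/-- three site edges -/
def S3 (T : List (Lv Bool)) (q : Rf) {R : ℕ} (τ : SM R) (a b c d e f : Fin R) : ℝ :=
  TM (fun _ => 1) T 0 τ fun x =>
    ed (eK q.1) a b x τ * (ed (aK q.2.1 q.2.2) c d x τ * ed (aK q.2.1 q.2.2) e f x τ)

/-- label weight of two edges -/
def wA (A : ℕ → ℕ → ℝ) : Tw :=
  ⟨fun σ => A (σ 0 1) (σ 0 1), fun σ => A (σ 1 2) (σ 0 1), fun σ => A (σ 2 3) (σ 0 1)⟩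

/-- `1` off `j` -/
def nj (j x : ℕ) : ℝ := if x = j then 0 else 1

/-- steps that touch the marked level or the top -/
def Bad (j K i : ℕ) : Prop := i = j ∨ i + 1 = j ∨ i + 1 = K

instance (j K i : ℕ) : Decidable (Bad j K i) := by unfold Bad; infer_instance

section
variable {Θ : Type} (L : List (Lv Θ)) (T : List (Lv Bool)) (q : Rf) (j : ℕ)

/-- the marked edge, at level `j`, added to the tree `ρ` with the edges `c d`, `e f` -/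
def Mk {r : ℕ} (ρ : SM (r + 1)) (c d e f : Fin (r + 1)) : ℝ :=
  ∑ a : Fin (r + 3), ∑ b : Fin (r + 3), E91.cf r a b * avc L ρ 2 fun τ =>
    if τ a b = j then S3 T q τ a b c.succ.succ d.succ.succ e.succ.succ f.succ.succ else 0

/-- the marked site coefficient -/
def cM : Tw := ⟨fun σ => Mk L T q j σ 0 1 0 1, fun σ => Mk L T q j σ 1 2 0 1,
  fun σ => Mk L T q j σ 2 3 0 1⟩

/-- normalised, both edges off `j` -/
def cN : Tw := (wt (fun x => nj j x / dm L 0 j) (nj j)).mul (cM L T q j)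

/-- the weight of a position -/
def omg (t : ℕ) : ℝ := if t = j then 1 + 1 / dm L 0 j else 1

/-- marked pair first -/
def Tm {Ω : Type} [Fintype Ω] (w : Ω → ℝ) (B : List (Lv Ω)) (h : Ω → ℝ) (U : ℕ → Ω → Ω → ℝ)
    (A : ℕ → ℕ → ℝ) : ℝ :=
  E91.D2 fun c d e f => avc (r := 1) L (tw L.length j) 4 fun τ => A (τ c d) (τ e f) *
    TM w B h τ (fun x => ed U c d x τ * ed U e f x τ) * S3 T q τ 4 5 c d e f

open Classical in
/-- total weight of the marked edge on `ρ` -/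
def wg {r : ℕ} (ρ : SM r) : ℝ := dm L 0 j + if ∃ a b, a ≠ b ∧ ρ a b = j then 1 else 0

end

/-- wherever the marked edge is put at level `j`, a cluster above `i` is odd -/
def OddE (K j i : ℕ) {r : ℕ} (ρ : SM (r + 1)) (c d e f : Fin (r + 1)) : Prop :=
  ∀ (τ : SM (r + 3)) (a b : Fin (r + 3)), Rz K τ → (∀ u v, τ u.succ.succ v.succ.succ = ρ u v) →
    a ≠ b → τ a b = j → Site94.OddAt τ ![a, c.succ.succ, e.succ.succ]
      ![b, d.succ.succ, f.succ.succ] univ i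

/-- **bounds of the marked coefficient** -/
structure MkH {Θ : Type} (L : List (Lv Θ)) (T : List (Lv Bool)) (q : Rf) (j : ℕ) (C : ℝ)
    (P a : ℕ → ℝ) : Prop where
  m0 : ∀ r ≤ 3, ∀ ρ : SM (r + 1), Rz L.length ρ → ∀ c d e f, |Mk L T q j ρ c d e f| ≤ C * wg L j ρ
  mp : ∀ r ≤ 3, ∀ ρ : SM (r + 1), Rz L.length ρ → ∀ c d e f i, OddE L.length j i ρ c d e f →
    |Mk L T q j ρ c d e f| ≤ C * wg L j ρ * P i
  m1 : ∀ r ≤ 3, ∀ ρ ρ' : SM (r + 1), Rz L.length ρ → Rz L.length ρ' → ∀ c d e f i,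
    i < L.length → ¬ Bad j L.length i → Ker15.Mv i ρ ρ' →
    |Mk L T q j ρ' c d e f - Mk L T q j ρ c d e f| ≤ C * wg L j ρ * a i
  m1p : ∀ r ≤ 3, ∀ ρ ρ' : SM (r + 1), Rz L.length ρ → Rz L.length ρ' → ∀ c d e f i,
    i < L.length → ¬ Bad j L.length i → Ker15.Mv i ρ ρ' → ∀ i' ≤ i, OddE L.length j i' ρ c d e f →
    OddE L.length j i' ρ' c d e f →
    |Mk L T q j ρ' c d e f - Mk L T q j ρ c d e f| ≤ C * wg L j ρ * (P i' * a i)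
  m2 : ∀ r ≤ 3, ∀ ρ₀ ρ₁ ρ₂ ρ₃ : SM (r + 1), Rz L.length ρ₀ → Rz L.length ρ₁ → Rz L.length ρ₂ →
    Rz L.length ρ₃ → ∀ c d e f i i', i < i' → i' < L.length → ¬ Bad j L.length i →
    ¬ Bad j L.length i' → Ker15.Mv i ρ₀ ρ₁ → Ker15.Mv i' ρ₀ ρ₂ →
    (∀ u v, ρ₃ u v + ρ₀ u v = ρ₁ u v + ρ₂ u v) →
    |Mk L T q j ρ₃ c d e f - Mk L T q j ρ₁ c d e f -
      (Mk L T q j ρ₂ c d e f - Mk L T q j ρ₀ c d e f)| ≤ C * wg L j ρ₀ * (a i * a i')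

section reg
variable {Θ : Type} (L : List (Lv Θ)) (T : Tw)

/-- `Reg` with a weight `ω` on the leg position and on the branch point -/
structure RegW (j₁ : ℕ) (c₀ : ℝ) (p s ω : ℕ → ℝ) : Prop where
  l0 : ∀ y x t, j₁ ≤ y → y ≤ x → x ≤ L.length → y ≤ t → t ≤ L.length + 1 →
    |T.lo L.length y x t| ≤ p y * ω t
  lx : ∀ y x, j₁ ≤ y → y ≤ x → x ≤ L.length → |T.lo L.length y x x| ≤ p y ∧
    |T.lo L.length y x y| ≤ p y
  m1 : ∀ x, j₁ ≤ x → x < L.length → |LO L T j₁ (x + 1) - LO L T j₁ x| ≤ p j₁ * s x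
  md : ∀ i, j₁ ≤ i → i < L.length → |LO L T (i + 1) (i + 1) - LO L T i (i + 1)| ≤ s i ∧
    |LO L T i (i + 1) - LO L T i i| ≤ s i
  m2 : ∀ i j, j₁ ≤ i → i < j → j < L.length → |mx (LO L T) i j| ≤ s i * s j
  p1 : ∀ y u x, j₁ ≤ y → y ≤ u → u < x → x < L.length →
    |cP L T y u (x + 1) - cP L T y u x| ≤ p y * s x
  o0 : ∀ z x k, z < x → z < k → j₁ ≤ x → j₁ ≤ k → x ≤ L.length → k ≤ L.length →
    |T.off L.length z x k| ≤ ω z * c₀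
  o1 : ∀ z x k, z < x → z < k → j₁ ≤ x → j₁ ≤ k → x < L.length → k ≤ L.length →
    |T.off L.length z (x + 1) k - T.off L.length z x k| ≤ ω z * s x ∧
    |T.off L.length z k (x + 1) - T.off L.length z k x| ≤ ω z * s x
  o2 : ∀ z x k, z < x → z < k → j₁ ≤ x → j₁ ≤ k → x < L.length → k < L.length → x ≠ k →
    |mx (T.off L.length z) x k| ≤ ω z * (s x * s k)

/-- one edge at the level `j`: regularity in the level of the other edge -/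
structure RowR (j₁ j : ℕ) (c₀ : ℝ) (p s : ℕ → ℝ) : Prop where
  dn0 : ∀ y t, j₁ ≤ y → y < j → y ≤ t → t ≤ L.length + 1 → |T.lo L.length y j t| ≤ p y
  dn1 : ∀ y, j₁ ≤ y → y + 1 < j → |LO L T (y + 1) j - LO L T y j| ≤ s y
  up0 : ∀ x t, j < x → x ≤ L.length → j ≤ t → t ≤ L.length + 1 → |T.lo L.length j x t| ≤ c₀
  up1 : ∀ x, j < x → x < L.length → |LO L T j (x + 1) - LO L T j x| ≤ s x
  upp : ∀ u x, j ≤ u → u < x → x < L.length → |cP L T j u (x + 1) - cP L T j u x| ≤ s x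
  of0 : ∀ z k, z < j → z < k → k ≤ L.length → |T.off L.length z j k| ≤ c₀
  of1 : ∀ z k, z < j → z < k → j₁ ≤ k → k < L.length → k ≠ j → k + 1 ≠ j →
    |T.off L.length z j (k + 1) - T.off L.length z j k| ≤ s k

/-- both edges at one node -/
structure SnR (j : ℕ) (C : ℝ) (P : ℕ → ℝ) : Prop where
  nn : ∀ x t t', x ≠ j → x ≤ t → x ≤ t' → x ≤ L.length → t ≤ L.length + 1 → t' ≤ L.length + 1 →
    |T.sN L.length x t t'| ≤ C * (dm L 0 j + ind j t + ind j t') ∧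
    (t ≠ j → t ≤ L.length → |T.sN L.length x t t'| ≤ C * (dm L 0 j + ind j t') * P t) ∧
    (t' ≠ j → t' ≤ L.length → |T.sN L.length x t t'| ≤ C * (dm L 0 j + ind j t) * P t')
  bb : ∀ t t', j ≤ t → j ≤ t' → t ≤ L.length + 1 → t' ≤ L.length + 1 →
    |T.sN L.length j t t'| ≤ C ∧ (j < t → j < t' → |T.sN L.length j t t'| ≤ C * P j)
  ab : (∀ σ, Rz L.length σ → |T.f3 σ| ≤ C) ∧ ∀ σ, Rz L.length σ → |T.f4 σ| ≤ C

end reg

/-- the base side (the fields of `NH` that do not read `c`) -/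
structure BH {Θ : Type} (L : List (Lv Θ)) (B : Tw) (j₁ : ℕ) (c₀ : ℝ) (p s a : ℕ → ℝ)
    (b : ℕ → ℕ → ℝ) {V : Type} [AddCommGroup V] [Module ℝ V] (ip : LinearMap.BilinForm ℝ V)
    (δ : ℕ → V) (π : ℕ → ℕ → V) (P : ℕ → V →ₗ[ℝ] V) : Prop where
  mono : Mono 0 L
  btr : B.tr.Eqv B L.length
  bs : Bs L.length B ip δ π P a
  lo3 : ∀ y x t, y ≤ x → x < t → t ≤ L.length + 1 → x ≤ L.length →
    |B.lo L.length y x t - (ip (δ x) (δ y) + ip (δ x) (π y x))| ≤ b y x * a x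
  b0 : ∀ y x, 0 ≤ b y x
  c1 : 1 ≤ c₀
  pc : ∀ y, p y ≤ c₀
  p0 : ∀ y, 0 ≤ p y
  ds : ∀ i, dm L 0 i ≤ s i
  low : ∑ z ∈ range j₁, dm L 0 z ≤ p j₁

/-- the weights after moving the mass `ε` to the level `j` -/
structure Pert {Θ : Type} (L L' : List (Lv Θ)) (j : ℕ) (ε : ℝ) : Prop where
  len : L'.length = L.length
  mono : Mono 0 L'
  dm : ∀ i, dm L' 0 i = (1 - ε) * dm L 0 i + ε * ind j i
  ex : ∀ i, ex L' i = (1 - ε) * ex L i + if j ≤ i then ε else 0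

/-! ### generic leaves -/

/-- (swap) [52] -/
def SwapS : Prop := ∀ (Θ : Type) [Fintype Θ] (L : List (Lv Θ)) (T : List (Lv Bool)) (q : Rf) (j : ℕ)
  (Ω : Type) [Fintype Ω] (w : Ω → ℝ) (B : List (Lv Ω)) (h : Ω → ℝ) (U : ℕ → Ω → Ω → ℝ)
  (A : ℕ → ℕ → ℝ), Wt w → T.length = L.length → B.length = L.length → j ≤ L.length →
  (∀ i x y, U i x y = U i y x) →
  dm L 0 j * Tm L T q j w B h U A = 2 * Ful L (((wA A).mul (cM L T q j)).mul (ee w B h U U)) ∧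
  (cM L T q j).Sy L.length ∧ (cM L T q j).tr.Eqv (cM L T q j) L.length

/-- (limit) [23] -/
def PertS : Prop := ∀ (Θ : Type) [Fintype Θ] (L : List (Lv Θ)) (j : ℕ), Mono 0 L → j ≤ L.length →
  ∃ L' : ℝ → List (Lv Θ), L' 0 = L ∧ (∀ ε, 0 ≤ ε → ε ≤ 1 → Pert L (L' ε) j ε) ∧
    ∀ (r k : ℕ) (σ : SM (r + 1)) (φ : SM (r + k + 1) → ℝ), Continuous fun ε => avc (L' ε) σ k φ

/-- (marked coefficient) [91] -/
def MkS : Prop := ∃ C : ℝ, 1 ≤ C ∧ ∀ (Θ : Type) [Fintype Θ] (L : List (Lv Θ)) (T : List (Lv Bool))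
  (q : Rf) (P a : ℕ → ℝ) (j : ℕ), T.length = L.length → Mono 0 L → Ker15.R1 T → Mono 0 T →
  |q.1 j| ≤ 1 → (∀ i, 0 ≤ q.2.1 i ∧ q.2.1 i ≤ 1 ∧ |q.2.2 i| ≤ 1) → j < L.length →
  (∀ i, (∀ ε > 0, ∃ s, 0 < s ∧ Ker15.tm T i ≤ s ∧ min 1 (Ker15.PB 10 s) ≤ P i + ε) ∧
    (∀ i' ≤ i, |q.2.2 i'| ≤ P i) ∧ (j ≤ i → |q.1 j| ≤ P i)) →
  (∀ i < L.length, SF97.vv T i ≤ a i ∧ |q.2.1 (i + 1) - q.2.1 i| ≤ a i ∧
    |q.2.2 (i + 1) - q.2.2 i| ≤ a i) → MkH L T q j C P a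

/-- (regularity, both edges off `j`) [53] -/
def RegWS : Prop := ∀ C : ℝ, 1 ≤ C → ∃ C' : ℝ, 2 ≤ C' ∧ ∀ (Θ : Type) (L : List (Lv Θ))
  (T : List (Lv Bool)) (q : Rf) (P a : ℕ → ℝ) (j j₁ : ℕ), Mono 0 L → j < L.length → 0 < dm L 0 j →
  MkH L T q j C P a → (∀ i, 0 ≤ P i ∧ P i ≤ C) → 1 ≤ P L.length → (∀ i, 0 ≤ a i) →
  (∀ i, ¬ Bad j L.length i → dm L 0 i + dm L 0 (i + 1) ≤ a i) →
  RegW L (cN L T q j) j₁ C' (fun y => C' * P y)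
    (fun i => C' * (a i + if Bad j L.length i then 1 else 0)) (omg L j)

/-- (regularity, an edge at `j`, and same node) [97 or 16] -/
def RowRS : Prop := ∀ C : ℝ, 1 ≤ C → ∃ C' : ℝ, 1 ≤ C' ∧ ∀ (Θ : Type) (L : List (Lv Θ))
  (T : List (Lv Bool)) (q : Rf) (P a : ℕ → ℝ) (j j₁ : ℕ), Mono 0 L → j < L.length →
  MkH L T q j C P a → (∀ i, 0 ≤ P i ∧ P i ≤ C) → 1 ≤ P L.length → (∀ i, 0 ≤ a i) →
  (∀ i, ¬ Bad j L.length i → dm L 0 i + dm L 0 (i + 1) ≤ a i) →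
  RowR L (cM L T q j) j₁ j C' (fun y => C' * P y)
    (fun i => C' * (a i + if i + 1 = L.length then 1 else 0)) ∧ SnR L (cM L T q j) j C' P


/-- the part of a row error without `δ_j` -/
def RwE {Θ : Type} (L : List (Lv Θ)) (j₁ j : ℕ) (p s a : ℕ → ℝ) (b : ℕ → ℕ → ℝ) (f : ℕ → ℝ) : ℝ :=
  a j * (f (j + 1) + ∑ i ∈ Ico j₁ L.length, s i * f (i + 1)) +
    ∑ y ∈ Ico j₁ j, dm L 0 y * (p y * (b y j * a j)) +
    ∑ x ∈ Ioc j L.length, dm L 0 x * (b j x * a x)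

/-- (one edge at `j`, crude in `δ_j`) [38] -/
def RowBS : Prop := ∀ (Θ : Type) (L : List (Lv Θ)) (c B : Tw) (j₁ j : ℕ) (c₀ g : ℝ)
  (p s a ψ f : ℕ → ℝ) (b : ℕ → ℕ → ℝ) (V : Type) [AddCommGroup V] [Module ℝ V]
  (ip : LinearMap.BilinForm ℝ V) (δ : ℕ → V) (π : ℕ → ℕ → V) (P : ℕ → V →ₗ[ℝ] V),
  BH L B j₁ c₀ p s a b ip δ π P → c.tr.Eqv c L.length → RowR L c j₁ j c₀ p s → j₁ ≤ j →
  j < L.length → Wf L j₁ ip δ ψ f → ψ j = 0 → 0 ≤ g → ip (δ j) (δ j) ≤ g ^ 2 →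
  (∀ y, j₁ ≤ y → y + 1 < j → p y ≤ p (y + 1) ∧ p (y + 1) - p y ≤ s y) →
  (∀ (m t : ℕ) (θ : ℕ → ℝ), j₁ ≤ m → t ≤ L.length → (∀ y, |θ y| ≤ 1) → θ j = 0 →
    ip (∑ y ∈ Icc m t, (dm L 0 y * θ y) • π y t) (∑ y ∈ Icc m t, (dm L 0 y * θ y) • π y t) ≤
      (2 * f m) ^ 2) →
  NL L (((wt ψ (ind j)).mul c).mul B) = NL L (((wt (ind j) ψ).mul c).mul B) ∧
  |NL L (((wt (ind j) ψ).mul c).mul B)| ≤ 100 * c₀ * dm L 0 j *
    (g * (p j₁ * f j₁ + ∑ i ∈ Ico j₁ L.length, s i * f (i + 1) + f j + f (j + 1)) +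
      RwE L j₁ j p s a b f)

/-- (one edge at `j`, summed over `j` with a density `α`) [18] -/
def RowAS : Prop := ∃ C : ℝ, 0 ≤ C ∧ ∀ (Θ : Type) (L : List (Lv Θ)) (c : ℕ → Tw) (B : Tw) (j₁ : ℕ)
  (c₀ g : ℝ) (p s a φ f α l A : ℕ → ℝ) (b : ℕ → ℕ → ℝ) (V : Type) [AddCommGroup V] [Module ℝ V]
  (ip : LinearMap.BilinForm ℝ V) (δ : ℕ → V) (π : ℕ → ℕ → V) (P : ℕ → V →ₗ[ℝ] V),
  BH L B j₁ c₀ p s a b ip δ π P → dm L 0 L.length = 0 →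
  (∀ j, j₁ ≤ j → j < L.length → (c j).tr.Eqv (c j) L.length ∧ RowR L (c j) j₁ j c₀ p s) →
  Wf L j₁ ip δ φ f → (∀ y, f (y + 1) ≤ f y) →
  (∀ y, j₁ ≤ y → y + 1 < L.length → |φ (y + 1) - φ y| ≤ s y) →
  (∀ j, ip (δ j) (δ j) ≤ g ^ 2) → (∀ j, 0 ≤ A j) → (∀ j, 0 < l j) → (∀ j, l j ≤ l (j + 1)) →
  (∀ θ : ℕ → ℝ, ip (∑ x ∈ Ico j₁ L.length, (dm L 0 x * θ x) • δ x)
    (∑ x ∈ Ico j₁ L.length, (dm L 0 x * θ x) • δ x) ≤
      ∑ x ∈ Ico j₁ L.length, dm L 0 x * (θ x ^ 2 * A x)) →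
  |∑ j ∈ Ico j₁ L.length, α j * NL L (((wt (ind j) fun x => nj j x * φ x).mul (c j)).mul B)| ≤
    C * c₀ * (Real.log (L.length + 2) * (1 + ∑ i ∈ Ico j₁ L.length, s i) *
        ∑ x ∈ Ico j₁ L.length, dm L 0 x * (α x ^ 2 * A x / l x + l x * A x) +
      √(∑ x ∈ Ico j₁ L.length, dm L 0 x * (α x ^ 2 * A x)) *
        (p j₁ * f j₁ + ∑ i ∈ Ico j₁ L.length, s i * f (i + 1) +
          ∑ y ∈ Ico j₁ L.length, dm L 0 y * (p y * a y)) +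
      ∑ j ∈ Ico j₁ L.length, |α j| * dm L 0 j * (g ^ 2 * dm L 0 j + RwE L j₁ j p s a b f))

/-! ### leaves on `CD` -/

open C40 C40.Q10 C40.N75

/-- the centred two-edge word minus its local part, marked pair at `j`, weights `L` -/
def Tj {Θ : Type} (D : CD) (L : List (Lv Θ)) (q : Rf) (j : ℕ) (φ ψ : ℕ → ℝ) : ℝ :=
  Tm L D.S q j (fun _ => 1) D.B 0 (oU D.rb) (fun x y => φ x * ψ y) -
    Tm L D.S q j (fun _ => 1) D.B 0 (fun _ _ _ => 1)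
      fun x y => if x = y then φ x * ψ x * (D.u 2 x - D.del x ^ 2) else 0

/-- (frame) [87] -/
def LinkT : Prop := ∀ (τ0 : ℝ) (D : CD), D.Ok τ0 → D.W.isSome = true →
  D.tw [C40.aU, C40.aU] - (D.QM + D.LOC) =
    ∑ j ∈ D.up, D.om j * Tj D D.B (D.q, fun _ => 1, D.q) j (ph D) (ph D)

/-- the factor `τ` inside the site edges (levels cut at `K`): steps `≤ dv`, `β ≤ sig` -/
def Rq (D : CD) : Rf := (D.q, fun x => D.τ (min x D.K) / (1 + D.τ D.K),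
  fun x => D.τ (min x D.K) * D.q (min x D.K) / (1 + D.τ D.K))

/-- `√ v` on the diagonal -/
def av (D : CD) (t : ℕ) : ℝ := √(D.v t t)

/-- the levels above the cut, off `j` -/
def nu (D : CD) (j x : ℕ) : ℝ := nj j x * if D.J < x then 1 else 0

/-- a parity size with steps `≤ dv` -/
def Pm (D : CD) (y : ℕ) : ℝ :=
  if y ∈ D.up then min 1 (D.e (D.J + 1) + (D.sig y - D.sig (D.J + 1))) else 1

/-- the row error -/
def Rw (D : CD) (j : ℕ) : ℝ := av D j * (D.f0 j + D.sv D.f0 D.J + D.hi (av D) j) +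
  (D.e j * D.v j j + ∑ y ∈ Finset.Ico 1 j, D.dx y * D.v y j)

/-- (martingale parts in weak form, from `wkp`) -/
def PiS : Prop := ∀ (τ0 : ℝ) (D : CD), D.Ok τ0 → ∀ (m t : ℕ) (θ : ℕ → ℝ), D.J < m → t ≤ D.K →
  (∀ y, |θ y| ≤ 1) →
  Base53.ipE wt_one90 D.B 0
    (∑ y ∈ Icc m t, (D.dx y * θ y) • Base53.pV D.B (Q33.sl D.n) wt_one90 y t)
    (∑ y ∈ Icc m t, (D.dx y * θ y) • Base53.pV D.B (Q33.sl D.n) wt_one90 y t) ≤ (2 * fz D D.f0 m) ^ 2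

/-- (both edges off `j`) from `SwapS PertS MkS RegWS RowRS NHWS` [75] -/
def NNS : Prop := ∀ τ0 : ℝ, ∃ C : ℝ, 0 ≤ C ∧ ∀ D : CD, D.Ok τ0 → ∀ j ∈ D.up,
  |Tj D D.B (Rq D) j (nu D j) (nu D j)| ≤ C * (D.E0 + D.f0 j * (D.f0 j + D.sv D.f0 D.J) +
    ∑ y ∈ Finset.Ico 1 j, D.dx y * D.v y j)

/-- (both edges at `j`) from `SwapS PertS MkS RowRS`, `NL_ind` -/
def BBS : Prop := ∀ τ0 : ℝ, ∃ C : ℝ, 0 ≤ C ∧ ∀ D : CD, D.Ok τ0 → ∀ j ∈ D.up,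
  |Tj D D.B (Rq D) j (ind j) (ind j)| ≤ C * (D.dx j + D.e j * D.v j j)

/-- (one edge at `j`, crude) from `SwapS PertS MkS RowRS RowBS PiS` [38] -/
def OBS : Prop := ∀ τ0 : ℝ, ∃ C : ℝ, 0 ≤ C ∧ ∀ D : CD, D.Ok τ0 → ∀ j ∈ D.up,
  |Tj D D.B (Rq D) j (ind j) (nu D j) + Tj D D.B (Rq D) j (nu D j) (ind j)| ≤
    C * (√(D.u 2 j) * (D.f0 j + D.sv D.f0 D.J) + Rw D j)

/-- (one edge at `j`, density) from `SwapS MkS RowRS RowAS` [18] -/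
def OAS : Prop := ∀ τ0 : ℝ, ∃ C : ℝ, 0 ≤ C ∧ ∀ D : CD, D.Ok τ0 → ∀ a l A : ℕ → ℝ,
  (∀ j ∈ D.up, D.om j = D.dx j * a j) → (∀ j, 0 < l j) → (∀ j, l j ≤ l (j + 1)) → D.Add A →
  |∑ j ∈ D.up, D.om j *
    (Tj D D.B (Rq D) j (ind j) (nu D j) + Tj D D.B (Rq D) j (nu D j) (ind j))| ≤
    C * (Real.log (D.K + 2) * (1 + D.sv (fun _ => 1) D.J) *
        D.I (fun t => a t ^ 2 * A t / l t + l t * A t) +
      (D.sv D.f0 D.J + D.I fun t => D.e t * av D t) * √(D.I fun t => a t ^ 2 * A t) +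
      D.Iw fun j => D.dx j + Rw D j)

end Crest.Agent.T156.Cas.Q21

end
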