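import Crest.Agent.T156.Ker_15
import Crest.Agent.T156.Mul_55
import Crest.Agent.T156.Top_31
import Crest.Agent.T156.Spl_27
import Crest.Agent.T156.L0B_49
import Crest.Agent.T156.BrB_55
import Crest.Agent.T156.HmC_32

-- ▼ part T156/Ef_49
section

/-!
# Row 156 (helper49): leaf E-f of docs/T156_91E.md

The second tree derivative of the site overlap at the node `j` in the direction of the node `j`
is `Γ'' = N - 2 ζ A` up to the weight of the node.
-/

set_option autoImplicit false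

noncomputable section

namespace Crest.Agent.T156.Cas.Ef49

open MeasureTheory Real Set Filter Topology
open Crest.Agent.T157.E Crest.Agent.T157.Casc Crest.Agent.T157.SL
open Crest.Agent.T157.Casc.C (Same Rk1)
open Crest.Agent.R339.Var Crest.Agent.R339.B Crest.Agent.T157.Pf
open Crest.ProbabilityR.SpinGlassDynamics (spin)
open Crest.Agent.T156.Cas.Ker15 Crest.Agent.T156.Cas.One15

/-- `ε ε'` at the level `j` only -/
def ek (j : ℕ) : ℕ → Bool → Bool → ℝ := fun k a b => if k = j then spin a * spin b else 0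

/-- the site number, normalised kernel -/
def kap1 (L : List (Lv Bool)) (j : ℕ) : ℝ :=
  twoF j (fun a b => spin a * spin b) ((Dop L (ek j))^[2] (TEf (fun _ => 1) L 0))

/-- the model cascade of a list -/
def cs (ℓ : List (ℝ × ℝ)) : List (Lv Bool) := ℓ.map (C.sl spin)

/-- accumulated variance -/
def tk (ℓ : List (ℝ × ℝ)) (k : ℕ) : ℝ := R339.Var.TT (ℓ.take k)

variable {L L' : List (Lv Bool)} {ℓ : List (ℝ × ℝ)}

theorem same_of (H : List.Forall₂ (Rk1 spin) L ℓ) : ∀ {L' : List (Lv Bool)},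
    List.Forall₂ (Rk1 spin) L' ℓ → List.Forall₂ Same L L' := by
  induction H with
  | nil => intro L' H'; cases H'; exact .nil
  | cons h1 _ ih =>
    intro L' H'
    cases H' with
    | cons h2 h3 =>
      exact .cons ⟨h1.1.trans h2.1.symm, funext fun a => funext fun b =>
        (h1.2.2 a b).trans (h2.2.2 a b).symm⟩ (ih h3)

theorem tilt_of (H : List.Forall₂ (Rk1 spin) L ℓ) : L.map Lv.m = ℓ.map Prod.fst := by
  induction H with
  | nil => rfl
  | cons h1 _ ih => rw [List.map_cons, List.map_cons, ih, h1.1]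

theorem nn_adm : ∀ {ℓ : List (ℝ × ℝ)}, Adm 1 ℓ → ∀ p ∈ ℓ, 0 ≤ p.2
  | [], _, _, h => absurd h List.not_mem_nil
  | _ :: _, h, p, hp => by
    rcases List.mem_cons.1 hp with rfl | hp
    · exact h.2.2.1
    · exact nn_adm h.2.2.2 p hp

theorem rk_cs (h : Adm 1 ℓ) : List.Forall₂ (Rk1 spin) (cs ℓ) ℓ := C.forall₂_sl spin (nn_adm h)

theorem mono_cs : ∀ {ℓ : List (ℝ × ℝ)}, Adm 1 ℓ → ∀ {m : ℝ}, m ≤ headLv 1 ℓ → Mono m (cs ℓ)
  | [], _, _, h => h
  | _ :: _, h, _, hm => ⟨hm, mono_cs h.2.2.2 h.2.1⟩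

theorem mono0 (h : Adm 1 ℓ) : Mono 0 (cs ℓ) := mono_cs h (h.head_pos one_pos).le

theorem cacc_rk (H : List.Forall₂ (Rk1 spin) L ℓ) (a b : Bool) :
    ∀ k, cacc L k a b = tk ℓ k * (spin a * spin b) := by
  induction H with
  | nil => intro k; simp [cacc, tk, R339.Var.TT]
  | cons h1 _ ih =>
    intro k
    cases k with
    | zero => simp [cacc, tk, R339.Var.TT]
    | succ k =>
      rw [Sd.cacc_cons, ih, h1.2.2, tk, tk, List.take_succ_cons, One15.TT_cons]
      ring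

theorem tk_app (A X : List (ℝ × ℝ)) (k : ℕ) : tk (A ++ X) k = tk A k + tk X (k - A.length) := by
  rw [tk, List.take_append, Ker.TT_append]
  rfl

theorem adm_app : ∀ (A : List (ℝ × ℝ)) {X X' : List (ℝ × ℝ)}, Adm 1 (A ++ X) → Adm 1 X' →
    headLv 1 X' = headLv 1 X → Adm 1 (A ++ X')
  | [], _, _, _, h, _ => h
  | [_], _, _, h, h', e => ⟨h.1, h.2.1.trans_eq e.symm, h.2.2.1, h'⟩
  | _ :: q :: A, _, _, h, h', e => ⟨h.1, h.2.1, h.2.2.1, adm_app (q :: A) h.2.2.2 h' e⟩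

theorem adm_suf : ∀ (A : List (ℝ × ℝ)) {X : List (ℝ × ℝ)}, Adm 1 (A ++ X) → Adm 1 X
  | [], _, h => h
  | _ :: A, _, h => adm_suf A h.2.2.2

theorem lvr_app : ∀ (A : List (ℝ × ℝ)) {X X' : List (ℝ × ℝ)}, (∀ t, lvr 1 X' t = lvr 1 X t) →
    ∀ t, lvr 1 (A ++ X') t = lvr 1 (A ++ X) t
  | [], _, _, h, t => h t
  | p :: A, _, _, h, t => by simp only [List.cons_append, lvr, lvr_app A h]

theorem lvr_shift : ∀ (A : List (ℝ × ℝ)) {X : List (ℝ × ℝ)}, (∀ p ∈ A, 0 ≤ p.2) → ∀ t, 0 ≤ t →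
    lvr 1 (A ++ X) (R339.Var.TT A + t) = lvr 1 X t
  | [], _, _, t, _ => by simp [R339.Var.TT]
  | p :: A, X, h, t, ht => by
    have h0 := One15.TT_nonneg fun q hq => h q (List.mem_cons_of_mem _ hq)
    simp only [List.cons_append, lvr, One15.TT_cons]
    rw [if_neg (by linarith), show p.2 + R339.Var.TT A + t - p.2 = R339.Var.TT A + t by ring,
      lvr_shift A (fun q hq => h q (List.mem_cons_of_mem _ hq)) t ht]

theorem gam_cs (h : Adm 1 ℓ) {j : ℕ} (hj : j ≤ ℓ.length) :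
    TE (fun _ => 1) (Sh.two j) (cs ℓ) 0 (fun x => spin (x (Sh.twoL j)) * spin (x (Sh.twoR j))) =
      Pr.Gam ℓ (tk ℓ j) := by
  have h1 := twoF_TEf w1 j (fun a b => spin a * spin b) (cs ℓ) 0
  have h2 := pi2_spin (rk_cs h) hj 0
  rw [zero_smul] at h2
  refine (h1.trans h2).trans ?_
  unfold Pr.Gam Pr.Et Pr.Dk tk
  rw [Pp.Dn_zero]

theorem abs_ss {κ : Type} (a b : κ) (x : κ → Bool) : |spin (x a) * spin (x b)| ≤ 1 := by
  rw [abs_mul, One15.abs_spin, One15.abs_spin, one_mul]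

theorem coef {α β C D : ℝ} (H : ∀ T ∈ Ioo (0 : ℝ) 1, |α * T + β * T ^ 2 / 2| ≤ C * T ^ 3 + D * T ^ 2) :
    |β| ≤ 6 * D := by
  have key : ∀ T ∈ Ioo (0 : ℝ) 1, |β| ≤ 6 * D + 5 * C * T := fun T hT => by
    have a1 := abs_le.1 (H T hT)
    have a2 := abs_le.1 (H (T / 2) ⟨by linarith [hT.1], by linarith [hT.1, hT.2]⟩)
    have p : 0 < T ^ 2 := pow_pos hT.1 2
    rw [abs_le]
    constructor
    · refine le_of_mul_le_mul_right ?_ p
      nlinarith [a1.1, a2.2]
    · refine le_of_mul_le_mul_right ?_ p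
      nlinarith [a1.2, a2.1]
  have lim : Tendsto (fun T : ℝ => 6 * D + 5 * C * T) (𝓝[>] 0) (𝓝 (6 * D + 5 * C * 0)) :=
    ((by fun_prop : Continuous fun T : ℝ => 6 * D + 5 * C * T).tendsto 0).mono_left
      nhdsWithin_le_nhds
  rw [mul_zero, add_zero] at lim
  refine ge_of_tendsto lim ?_
  filter_upwards [Ioo_mem_nhdsGT one_pos] with T hT using key T hT

/-- second order expansion of `Γ` to the right of a point where the tilt is locally constant -/
theorem gam_taylor (h : Adm 1 ℓ) {σ v m : ℝ} (h0 : 0 ≤ σ) (hv : σ + v ≤ R339.Var.TT ℓ)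
    (hm : ∀ e, 0 ≤ e → e < v → lvr 1 ℓ (σ + e) = m) : ∃ C : ℝ, ∀ e, 0 ≤ e → e < v →
    |Pr.Gam ℓ (σ + e) - Pr.Gam ℓ σ - Pr.GG ℓ σ * e -
      (Pr.NN ℓ σ - 2 * m * Pr.AA ℓ σ) * e ^ 2 / 2| ≤ C * e ^ 3 := by
  obtain ⟨u, hu, q, -⟩ := Spl27.exists_ok h
  have S := Ker.same_le h hu.1 q.tt.le fun s h1 _ => (q.lv s h1.le).symm
  have ap := L0.ap_of_ok hu
  obtain ⟨C, c1, hC⟩ := L0.Gd_up (R339.Var.TT u)
  refine ⟨C, fun e e0 e1 => ?_⟩
  have t1 : σ + e ≤ R339.Var.TT u := by rw [← q.tt]; linarith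
  have ms : σ ∈ Icc 0 (R339.Var.TT ℓ) := ⟨h0, by linarith⟩
  rw [← S.gam _ ⟨by linarith, by linarith⟩, ← S.gam _ ms, ← S.gg _ ms, ← S.nn _ ms, ← S.aa _ ms]
  have lv : ∀ r ∈ Icc σ (σ + e), lvr 1 u r = m := fun r hr => by
    rw [← q.lv r (h0.trans hr.1), ← hm (r - σ) (by linarith [hr.1]) (by linarith [hr.2])]
    congr 1
    ring
  have e2 : Pr.NN u σ - 2 * m * Pr.AA u σ = L0.Gd u σ := by
    unfold L0.Gd
    rw [lv σ ⟨le_rfl, by linarith⟩]
    rfl
  rw [e2, L0.Gam_eq, L0.GG_eq]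
  have le : σ ≤ σ + e := by linarith
  have g1 : ∀ r ∈ Icc σ (σ + e), |Pp.Ode3.Gp u r - Pp.Ode3.Gp u σ - L0.Gd u σ * (r - σ)| ≤
      C * e * e := fun r hr => by
    have := abs_sub_le_of_rder (f := fun r => Pp.Ode3.Gp u r - L0.Gd u σ * r) (C := C * e)
      (((Pp.Ode3.Gp_cont ap).mono (Icc_subset_Icc h0 t1)).sub (by fun_prop))
      (fun s hs => (Pp.Ode3.Gp_rder ap (h0.trans hs.1) (hs.2.trans_le t1)).sub
        ((hasDerivWithinAt_id s _).const_mul (L0.Gd u σ))) ⟨le_rfl, le⟩ hr (fun s hs => by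
        rw [min_eq_left hr.1, max_eq_right hr.1] at hs
        have s1 : s ≤ σ + e := hs.2.le.trans hr.2
        have := hC u ap le_rfl σ s h0 hs.1 (s1.trans t1)
        rw [lv s ⟨hs.1, s1⟩, lv σ ⟨le_rfl, le⟩, sub_self, mul_zero, add_zero] at this
        rw [mul_one]
        exact this.trans (mul_le_mul_of_nonneg_left (by linarith) (by linarith)))
    rw [abs_of_nonneg (sub_nonneg.2 hr.1)] at this
    calc _ = |Pp.Ode3.Gp u r - L0.Gd u σ * r - (Pp.Ode3.Gp u σ - L0.Gd u σ * σ)| := by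
          congr 1; ring
      _ ≤ _ := this
      _ ≤ _ := mul_le_mul_of_nonneg_left (by linarith [hr.2]) (by positivity)
  have := abs_sub_le_of_rder (f := fun r => Pp.Ode3.Gam u r -
      (Pp.Ode3.Gp u σ * (r - σ) + L0.Gd u σ / 2 * (r - σ) ^ 2)) (C := C * e * e)
    (((Pp.Ode3.Gam_cont ap).mono (Icc_subset_Icc h0 t1)).sub (by fun_prop))
    (fun s hs => (Pp.Ode3.Gam_rder ap (h0.trans hs.1) (hs.2.trans_le t1)).sub
      (L0.dquad _ _ σ s).hasDerivWithinAt) ⟨le_rfl, le⟩ ⟨le, le_rfl⟩ (fun s hs => by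
      rw [min_eq_left le, max_eq_right le] at hs
      rw [← sub_sub]
      exact g1 s ⟨hs.1, hs.2.le⟩)
  simp only [add_sub_cancel_left, sub_self, abs_of_nonneg e0] at this
  calc _ = |Pp.Ode3.Gam u (σ + e) - (Pp.Ode3.Gp u σ * e + L0.Gd u σ / 2 * e ^ 2) -
        (Pp.Ode3.Gam u σ - (Pp.Ode3.Gp u σ * 0 + L0.Gd u σ / 2 * 0 ^ 2))| := by congr 1; ring
    _ ≤ _ := this
    _ = _ := by ring

section split

variable (A B : List (ℝ × ℝ)) (m' v' m v : ℝ)

/-- the node moved by `e` -/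
def l2 (e : ℝ) : List (ℝ × ℝ) := A ++ (m', v' + e) :: (m, v - e) :: B

/-- the refined list: the tilt jumps at `u`, the node sits at `e` -/
def l3 (u e : ℝ) : List (ℝ × ℝ) := A ++ (m', v' + u) :: (m, e - u) :: (m, v - e) :: B

theorem tk_l2 (e : ℝ) (k : ℕ) : tk (l2 A B m' v' m v e) k =
    tk (l2 A B m' v' m v 0) k + if k = A.length + 1 then e else 0 := by
  rw [l2, l2, tk_app, tk_app, add_assoc]
  congr 1
  have : k = A.length + 1 ↔ k - A.length = 1 := by omega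
  simp only [this]
  rcases k - A.length with _ | _ | i
  · simp [tk, R339.Var.TT]
  · simp [tk, R339.Var.TT]
  · simp only [tk, List.take_succ_cons, One15.TT_cons]
    rw [if_neg (by omega)]
    ring

theorem tk_l3 (u e : ℝ) (k : ℕ) : tk (l3 A B m' v' m v u e) k = tk (l3 A B m' v' m v 0 0) k +
    ((if k = A.length + 1 then u else 0) + if k = A.length + 2 then e else 0) := by
  rw [l3, l3, tk_app, tk_app, add_assoc]
  congr 1
  have h1 : k = A.length + 1 ↔ k - A.length = 1 := by omega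
  have h2 : k = A.length + 2 ↔ k - A.length = 2 := by omega
  simp only [h1, h2]
  rcases k - A.length with _ | _ | _ | i
  · simp [tk, R339.Var.TT]
  · simp [tk, R339.Var.TT]
  · simp only [tk, List.take_succ_cons, List.take_zero, One15.TT_cons]
    norm_num
    ring
  · simp only [tk, List.take_succ_cons, One15.TT_cons]
    rw [if_neg (by omega), if_neg (by omega)]
    ring

theorem tk_l2_node (e : ℝ) : tk (l2 A B m' v' m v e) (A.length + 1) = R339.Var.TT A + v' + e := by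
  rw [l2, tk_app, Nat.add_sub_cancel_left, tk, List.take_of_length_le (Nat.le_succ _)]
  simp [tk, R339.Var.TT, add_assoc]

theorem tk_l3_node (u e : ℝ) : tk (l3 A B m' v' m v u e) (A.length + 2) = R339.Var.TT A + v' + e := by
  rw [l3, tk_app, Nat.add_sub_cancel_left, tk, List.take_of_length_le (Nat.le_add_right _ _)]
  simp only [tk, List.take_succ_cons, List.take_zero, One15.TT_cons]
  simp only [R339.Var.TT, List.map_nil, List.sum_nil]
  ring

theorem TT_l2 (e : ℝ) : R339.Var.TT (l2 A B m' v' m v e) = R339.Var.TT A + v' + v + R339.Var.TT B := by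
  simp only [l2, Ker.TT_append, One15.TT_cons]
  ring

theorem TT_l3 (u e : ℝ) : R339.Var.TT (l3 A B m' v' m v u e) = R339.Var.TT A + v' + v + R339.Var.TT B := by
  simp only [l3, Ker.TT_append, One15.TT_cons]
  ring

theorem st_l2 (e e' : ℝ) : ST (cs (l2 A B m' v' m v e)) (cs (l2 A B m' v' m v e')) := by
  simp [Ker15.ST, cs, l2, Function.comp_def, C.sl]

theorem st_l3 (u e u' e' : ℝ) :
    ST (cs (l3 A B m' v' m v u e)) (cs (l3 A B m' v' m v u' e')) := by
  simp [Ker15.ST, cs, l3, Function.comp_def, C.sl]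

theorem len_l2 (e : ℝ) : (l2 A B m' v' m v e).length = A.length + 2 + B.length := by
  simp [l2]; omega

theorem len_l3 (u e : ℝ) : (l3 A B m' v' m v u e).length = A.length + 3 + B.length := by
  simp [l3]; omega

theorem dm_l3 (u e : ℝ) : dm (cs (l3 A B m' v' m v u e)) 0 (A.length + 1) = m - m' := by
  simp [dm, exP, T157.Casc.ex, cs, l3, C.sl]

theorem dm_l2 (e : ℝ) : dm (cs (l2 A B m' v' m v e)) 0 (A.length + 1) = m - m' := by
  simp [dm, exP, T157.Casc.ex, cs, l2, C.sl]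

variable {A B m' v' m v}

theorem adm_l2 (h : Adm 1 (l2 A B m' v' m v 0)) {e : ℝ} (h0 : 0 ≤ e) (h1 : e ≤ v) :
    Adm 1 (l2 A B m' v' m v e) := by
  have a := adm_suf A h
  have a1 : 0 ≤ v' + 0 := a.2.2.1
  exact adm_app A h ⟨a.1, a.2.1, by linarith, a.2.2.2.1, a.2.2.2.2.1, sub_nonneg.2 h1,
    a.2.2.2.2.2.2⟩ rfl

theorem adm_l3 (h : Adm 1 (l2 A B m' v' m v 0)) {u e : ℝ} (h0 : 0 ≤ u) (h2 : u ≤ e) (h1 : e ≤ v) :
    Adm 1 (l3 A B m' v' m v u e) := by
  have a := adm_suf A h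
  have a1 : 0 ≤ v' + 0 := a.2.2.1
  exact adm_app A h ⟨a.1, a.2.1, by linarith, a.2.2.2.1, le_rfl, sub_nonneg.2 h2, a.2.2.2.1,
    a.2.2.2.2.1, sub_nonneg.2 h1, a.2.2.2.2.2.2⟩ rfl

theorem lvr_l3 {u e : ℝ} (h1 : e ≤ v) (t : ℝ) :
    lvr 1 (l3 A B m' v' m v u e) t = lvr 1 (l2 A B m' v' m v u) t := by
  refine lvr_app A (fun t => ?_) t
  simp only [lvr]
  split_ifs with a b c d c
  · rfl
  · rfl
  · exact absurd (by linarith) c
  · rfl
  · exact absurd (by linarith) c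
  · exact absurd (by linarith) d
  · congr 1
    ring

theorem gam_l3 (h : Adm 1 (l2 A B m' v' m v 0)) {u e : ℝ} (h0 : 0 ≤ u) (h2 : u ≤ e) (h1 : e ≤ v) :
    Pr.Gam (l3 A B m' v' m v u e) (R339.Var.TT A + v' + e) =
      Pr.Gam (l2 A B m' v' m v u) (R339.Var.TT A + v' + e) := by
  have a := adm_suf A h
  have a1 : 0 ≤ v' + 0 := a.2.2.1
  have a2 := One15.TT_nonneg (nn_adm a.2.2.2.2.2.2)
  have a3 := One15.TT_nonneg (nn_adm (Ker.adm_pre _ h))
  refine (Ker.same_le (adm_l2 h h0 (h2.trans h1)) (adm_l3 h h0 h2 h1)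
    (by rw [TT_l2, TT_l3]) fun s _ _ => lvr_l3 h1 s).gam _ ⟨by linarith, ?_⟩
  rw [TT_l2]
  linarith

/-- moving the jump of the tilt costs the weight of the node -/
theorem jump (h : Adm 1 (l2 A B m' v' m v 0)) : ∃ K : ℝ, ∀ e, 0 ≤ e → e ≤ v →
    |Pr.Gam (l2 A B m' v' m v e) (R339.Var.TT A + v' + e) - Pr.Gam (l2 A B m' v' m v 0) (R339.Var.TT A + v' + e) -
      K * e| ≤ 640 * (m - m') * e ^ 2 := by
  set j := A.length + 1 with hj
  set s := Sh.two (A.length + 2) with hs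
  set F : (s.Lf → Bool) → ℝ := fun x => spin (x (Sh.twoL _)) * spin (x (Sh.twoR _)) with hF
  set M0 := cs (l3 A B m' v' m v 0 0) with hM0
  set E : ℕ → Bool → Bool → ℝ := fun k a b => 1 / 2 * ek j k a b with hE
  refine ⟨sg (-1) M0 s fun τ => TE (fun _ => 1) τ.sh M0 0 (τ.ev E F), fun e e0 e1 => ?_⟩
  have a0 := adm_l3 h le_rfl le_rfl (e0.trans e1)
  have a1 := adm_l3 h le_rfl e0 e1
  have a2 := adm_l3 h e0 le_rfl e1
  rw [← gam_l3 h e0 le_rfl e1, ← gam_l3 h le_rfl e0 e1]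
  have g1 := gam_cs a1 (j := A.length + 2) (by rw [len_l3]; omega)
  have g2 := gam_cs a2 (j := A.length + 2) (by rw [len_l3]; omega)
  rw [tk_l3_node] at g1 g2
  rw [← g1, ← g2]
  set M1 := cs (l3 A B m' v' m v 0 e) with hM1
  set M2 := cs (l3 A B m' v' m v e e) with hM2
  have H : ST M1 M2 := st_l3 ..
  have H0 : ST M0 M1 := st_l3 ..
  have len : M1.length = A.length + 3 + B.length := by rw [hM1, cs, List.length_map, len_l3]
  have d : ∀ k a b, dC M1 M2 k a b = e * ek j k a b := fun k a b => by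
    rw [dC, cacc_rk (rk_cs a1), cacc_rk (rk_cs a2), tk_l3 _ _ _ _ _ _ e e, tk_l3 _ _ _ _ _ _ 0 e, ek]
    split_ifs <;> ring
  obtain ⟨θ, hθ, eq⟩ := ker1_eq w1 H (c := 0) (fun y => by
    rw [d, ek, if_neg (by omega), mul_zero]) s 0 F
  rw [eq, ← sg_tilt _ H0, mul_comm _ e, ← sg_const_mul, ← sg_sub]
  have mo := mono0 a0
  refine (abs_sg_le mo s (Ψ := fun τ => (fun k => if k = j then 16 * e ^ 2 else 0) τ.j)
    fun τ hτ => ?_).trans ((sg_lvl mo s (g := fun k => if k = j then 16 * e ^ 2 else 0)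
      fun k => by split_ifs <;> positivity).trans (le_of_eq ?_))
  · have e3 : τ.ev (hK M1 M2) F = fun x => e * τ.ev E F x := by
      funext x
      simp only [GT.ev, hK, d, hE]
      ring
    rw [e3, Law.TE_const_mul w1, ← mul_sub, abs_mul, abs_of_nonneg e0]
    by_cases hτj : τ.j = j
    · simp only [hτj, if_true]
      have k := ker1 w1 mo (H0.trans (st_mid H θ).symm) (c := 0) (fun y => by
          rw [dC, cacc_mid ⟨hθ.1.le, hθ.2.le⟩ _ _ H, d, cacc_rk (rk_cs a1), cacc_rk (rk_cs a0),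
            tk_l3 _ _ _ _ _ _ 0 e, ek, H0.len, len, if_neg (by omega), if_neg (by omega),
            if_neg (by omega)]
          ring) τ.sh (N := 4) (hτ.card.trans (by rw [hs, Wt87.card_two])) 0
        (F := τ.ev E F) (b := 1 * (1 / 2)) (g := e) (abs_ev τ (abs_ss _ _) fun x y => by
          rw [hE]
          simp only [ek, hτj, if_true, abs_mul, One15.abs_spin]
          norm_num) fun k _ x y => by
          rw [dC, cacc_mid ⟨hθ.1.le, hθ.2.le⟩ _ _ H, d, cacc_rk (rk_cs a1), cacc_rk (rk_cs a0),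
            tk_l3 _ _ _ _ _ _ 0 e, ek]
          have hs1 : |spin x * spin y| = 1 := by rw [abs_mul, One15.abs_spin, One15.abs_spin, one_mul]
          by_cases c1 : k = j
          · rw [if_pos c1, if_pos c1, if_neg (by omega), show (tk (l3 A B m' v' m v 0 0) k +
              (0 + 0)) * (spin x * spin y) + θ * (e * (spin x * spin y)) -
              tk (l3 A B m' v' m v 0 0) k * (spin x * spin y) = θ * e * (spin x * spin y) by ring,
              abs_mul, hs1, mul_one, abs_of_nonneg (mul_nonneg hθ.1.le e0)]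
            exact mul_le_of_le_one_left e0 hθ.2.le
          · rw [if_neg c1, if_neg c1]
            split_ifs
            · rw [show (tk (l3 A B m' v' m v 0 0) k + (0 + e)) * (spin x * spin y) + θ * (e * 0) -
                tk (l3 A B m' v' m v 0 0) k * (spin x * spin y) = e * (spin x * spin y) by ring,
                abs_mul, hs1, mul_one, abs_of_nonneg e0]
            · simpa using e0
      have := mul_le_mul_of_nonneg_left k e0
      push_cast at this
      nlinarith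
    · have z : τ.ev E F = fun _ => 0 := by
        funext x
        simp only [GT.ev, hE, ek, if_neg hτj, mul_zero]
      simp only [z, Law.TE_const w1, if_neg hτj, sub_self, abs_zero, mul_zero, le_refl]
  · have len0 : (cs (l3 A B m' v' m v 0 0)).length = A.length + 3 + B.length := H0.len.trans len
    rw [Nv, hs, Tay38.prs_two, Wt87.shr_comm _ (Sh.twoR _), Wt87.shr_two, Wt87.card_two,
      min_eq_left (by omega), if_neg (by omega)]
    simp only [mul_ite, mul_zero, Finset.sum_ite_eq', Finset.mem_range]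
    rw [if_pos (by omega), dm_l3]
    push_cast
    ring

theorem dop2_smul {M : List (Lv Bool)} (c : ℝ) (S : ℕ → Bool → Bool → ℝ) (s : Sh)
    (F : (s.Lf → Bool) → ℝ) :
    (Dop M fun j x y => c * S j x y)^[2] (TEf (fun _ => 1) M 0) s F =
      c ^ 2 * (Dop M S)^[2] (TEf (fun _ => 1) M 0) s F := by
  have e : (fun j x y => c * S j x y) = fun j x y => c * S j x y + 0 * S j x y := by
    funext j x y; ring
  have h1 : Dop M (fun j x y => c * S j x y) (TEf (fun _ => 1) M 0) = fun s F =>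
      c * Dop M S (TEf (fun _ => 1) M 0) s F + 0 * Dop M S (TEf (fun _ => 1) M 0) s F := by
    funext s F
    rw [e]
    exact (isLin_TEf w1 M 0).dopS M c 0 S S s F
  show Dop M _ (Dop M _ _) s F = c ^ 2 * Dop M S (Dop M S _) s F
  rw [h1, ((FL.ev s F).dop M _).lin c 0, e, ((isLin_TEf w1 M 0).dop M S).dopS M c 0 S S s F]
  ring

/-- Taylor expansion of the overlap at the moving node -/
theorem move (h : Adm 1 (l2 A B m' v' m v 0)) (hv : 0 ≤ v) : ∃ a C : ℝ, ∀ T ∈ Icc (0 : ℝ) 1,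
    |Pr.Gam (l2 A B m' v' m v (T * v)) (R339.Var.TT A + v' + T * v) -
      Pr.Gam (l2 A B m' v' m v 0) (R339.Var.TT A + v' + 0) - a * T -
      (v / 2) ^ 2 * kap1 (cs (l2 A B m' v' m v 0)) (A.length + 1) * T ^ 2 / 2| ≤ C * T ^ 3 := by
  set j := A.length + 1 with hj
  set F : ((Sh.two j).Lf → Bool) → ℝ := fun x => spin (x (Sh.twoL _)) * spin (x (Sh.twoR _))
    with hF
  have a1 := adm_l2 h hv le_rfl
  set M := cs (l2 A B m' v' m v 0) with hM
  set M1 := cs (l2 A B m' v' m v v) with hM1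
  have H : ST M M1 := st_l2 ..
  have len : M.length = A.length + 2 + B.length := by rw [hM, cs, List.length_map, len_l2]
  have d : ∀ k a b, dC M M1 k a b = v * ek j k a b := fun k a b => by
    rw [dC, cacc_rk (rk_cs a1), cacc_rk (rk_cs h), tk_l2 _ _ _ _ _ _ v, ek]
    split_ifs <;> ring
  obtain ⟨C, hC⟩ := isCompact_Icc.exists_bound_of_continuousOn
    (continuousOn_iDn w1 (sgm M M1) 0 3 (Sh.two j) F)
  refine ⟨iDn (fun _ => 1) (sgm M M1) 0 1 (Sh.two j) F 0, C, fun T hT => ?_⟩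
  have t := taylor_ipl w1 (sgm M M1) 0 (c := 0) (fun y => by
    rw [len_sgm H, iD_sgm H, d, ek, if_neg (by omega), mul_zero]) (Sh.two j) F hT 2
  have aT := adm_l2 h (mul_nonneg hT.1 hv) (mul_le_of_le_one_left hv hT.2)
  have g0 := gam_cs h (j := j) (by rw [len_l2]; omega)
  have gT := gam_cs aT (j := j) (by rw [len_l2]; omega)
  rw [tk_l2_node] at g0 gT
  have e0 : iDn (fun _ => 1) (sgm M M1) 0 0 (Sh.two j) F 0 = TE (fun _ => 1) (Sh.two j) M 0 F :=
    Law.TE_same w1 _ (same0 H) F 0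
  have eT : TE (fun _ => 1) (Sh.two j) (ipl (sgm M M1) T) 0 F =
      TE (fun _ => 1) (Sh.two j) (cs (l2 A B m' v' m v (T * v))) 0 F := by
    have S1 : ST (cs (l2 A B m' v' m v (T * v))) (mid M M1 T) :=
      (st_l2 ..).trans (st_mid H T).symm
    have z : ∀ k x y, dC (cs (l2 A B m' v' m v (T * v))) (mid M M1 T) k x y = 0 := fun k x y => by
      rw [dC, cacc_mid hT _ _ H, d, cacc_rk (rk_cs aT), cacc_rk (rk_cs h),
        tk_l2 _ _ _ _ _ _ (T * v), ek]
      split_ifs <;> ring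
    have k := ker1 w1 (mono0 aT) S1 (c := 0) (fun y => z _ y y) (Sh.two j) le_rfl 0 (F := F)
      (g := 0) (abs_ss _ _) fun k _ x y => by rw [z, abs_zero]
    simp only [mul_zero] at k
    exact sub_eq_zero.1 (abs_nonpos_iff.1 k)
  have e2 : iDn (fun _ => 1) (sgm M M1) 0 2 (Sh.two j) F 0 = (v / 2) ^ 2 * kap1 M j := by
    have f1 : (fun s F => TE (fun _ => 1) s (ipl (sgm M M1) 0) 0 F) = TEf (fun _ => 1) M 0 :=
      TEf_same w1 (same0 H) 0
    have f2 : (fun j x y => 1 / 2 * iD (sgm M M1) j x y) = fun k x y => v / 2 * ek j k x y := by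
      funext k x y
      rw [iD_sgm H, d]
      ring
    rw [iDn, f1, f2, itE_tilt _ (sgm_spec H).2.2.1, ← Dop_iter_eq, dop2_smul]
    rfl
  simp only [Finset.sum_range_succ, Finset.range_zero, Finset.sum_empty, e0, e2, eT] at t
  rw [← g0, ← gT, t]
  have b := intervalIntegral.norm_integral_le_of_norm_le_const (a := 0) (b := T) (C := C * T ^ 2)
    (f := fun t => iDn (fun _ => 1) (sgm M M1) 0 (2 + 1) (Sh.two j) F t * (T - t) ^ 2 /
      (Nat.factorial 2 : ℕ)) fun t ht => by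
      rw [uIoc_of_le hT.1] at ht
      have c1 := hC t ⟨ht.1.le, ht.2.trans hT.2⟩
      have c2 : (T - t) ^ 2 ≤ T ^ 2 := pow_le_pow_left₀ (sub_nonneg.2 ht.2) (by linarith [ht.1]) 2
      rw [Real.norm_eq_abs] at c1 ⊢
      rw [abs_div, abs_mul, abs_of_nonneg (sq_nonneg (T - t))]
      have c3 := mul_le_mul c1 c2 (sq_nonneg _) ((abs_nonneg _).trans c1)
      have c4 : 0 ≤ C * T ^ 2 := mul_nonneg ((abs_nonneg _).trans c1) (sq_nonneg _)
      norm_num [Nat.factorial]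
      linarith
  rw [Real.norm_eq_abs, sub_zero, abs_of_nonneg hT.1] at b
  refine le_trans (le_of_eq ?_) (b.trans_eq (by ring))
  congr 1
  norm_num [Nat.factorial]
  ring

theorem kap_split (h : Adm 1 (l2 A B m' v' m v 0)) (hv : 0 < v) :
    |kap1 (cs (l2 A B m' v' m v 0)) (A.length + 1) - 4 * (Pr.NN (l2 A B m' v' m v 0) (R339.Var.TT A + v') -
      2 * m * Pr.AA (l2 A B m' v' m v 0) (R339.Var.TT A + v'))| ≤ 15360 * (m - m') := by
  have a := adm_suf A h
  have a1 : 0 ≤ v' + 0 := a.2.2.1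
  have a2 := One15.TT_nonneg (nn_adm a.2.2.2.2.2.2)
  have a3 := One15.TT_nonneg (nn_adm (Ker.adm_pre _ h))
  obtain ⟨K, hK⟩ := jump h
  obtain ⟨α, C, hC⟩ := move h hv.le
  obtain ⟨C', hC'⟩ := gam_taylor h (σ := R339.Var.TT A + v') (v := v) (m := m) (by linarith)
    (by rw [TT_l2]; linarith) fun e e0 e1 => by
      rw [l2, add_assoc, lvr_shift A (nn_adm (Ker.adm_pre _ h)) _ (by linarith)]
      simp only [lvr]
      rw [if_neg (by linarith), if_pos (by linarith)]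
  set κ := kap1 (cs (l2 A B m' v' m v 0)) (A.length + 1)
  set G2 := Pr.NN (l2 A B m' v' m v 0) (R339.Var.TT A + v') -
    2 * m * Pr.AA (l2 A B m' v' m v 0) (R339.Var.TT A + v')
  have c := coef (α := α - (Pr.GG (l2 A B m' v' m v 0) (R339.Var.TT A + v') + K) * v)
    (β := (v / 2) ^ 2 * κ - G2 * v ^ 2) (C := C + C' * v ^ 3) (D := 640 * (m - m') * v ^ 2)
    fun T hT => by
      have e0 : 0 ≤ T * v := mul_nonneg hT.1.le hv.le
      have e1 : T * v < v := mul_lt_of_lt_one_left hv hT.2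
      have b1 := abs_le.1 (hK _ e0 e1.le)
      have b2 := abs_le.1 (hC T ⟨hT.1.le, hT.2.le⟩)
      have b3 := abs_le.1 (hC' _ e0 e1)
      rw [add_zero] at b2
      rw [abs_le]
      constructor <;> nlinarith [b1.1, b1.2, b2.1, b2.2, b3.1, b3.2]
  have p : 0 < v ^ 2 / 4 := by positivity
  rw [show (v / 2) ^ 2 * κ - G2 * v ^ 2 = (κ - 4 * G2) * (v ^ 2 / 4) by ring, abs_mul,
    abs_of_pos p] at c
  refine le_of_mul_le_mul_right (c.trans_eq (by ring)) p

end split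


end Crest.Agent.T156.Cas.Ef49

end
end

-- ▼ part T156/EfB_49

/-!
# Row 156 (helper49): leaf E-f for `E91.Dat.kap`

Constants drop out of the site number, and the level after the node may have variance zero.
-/

set_option autoImplicit false

noncomputable section

namespace Crest.Agent.T156.Cas.Ef49

open MeasureTheory Real Set Filter Topology
open Crest.Agent.T157.E Crest.Agent.T157.Casc Crest.Agent.T157.SL
open Crest.Agent.T157.Casc.C (Same Rk1)
open Crest.Agent.R339.Var Crest.Agent.R339.B Crest.Agent.T157.Pf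
open Crest.ProbabilityR.SpinGlassDynamics (spin)
open Crest.Agent.T156.Cas.Ker15 Crest.Agent.T156.Cas.One15

section drop

variable {Ω : Type} [Fintype Ω] {w : Ω → ℝ}

theorem dop_one (hw : Wt w) (M : List (Lv Ω)) (h : Ω → ℝ) {S : ℕ → Ω → Ω → ℝ}
    (hS : S ∈ Mul55.Ok Ω M.length) (s : Sh) (v : ℝ) : Dop M S (TEf w M h) s (fun _ => v) = 0 := by
  obtain ⟨h0, c, hc⟩ := hS
  rw [← dT_eq_Dop hw s M h hc, Mul55.dT_const' hw s M h h0]

/-- a kernel which does not see the configurations does not move the law -/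
theorem dop_cst (hw : Wt w) (M : List (Lv Ω)) (h : Ω → ℝ) {φ : ℕ → ℝ} (h0 : φ 0 = 0) (s : Sh)
    (F : (s.Lf → Ω) → ℝ) : Dop M (fun k _ _ => φ k) (TEf w M h) s F = 0 := by
  have k : ∀ G : (s.Lf → Ω) → ℝ, Dop M (fun k _ _ => φ k) (TEf w M h) s G =
      TE w s M h G * sg (-1) M s fun τ => φ τ.j := fun G => by
    rw [Dop_eq_sg, ← sg_const_mul]
    refine sg_congr _ _ _ fun τ hτ => ?_
    rw [← hτ.TE_e hw M h G]
    exact Law.TE_mul_const hw _ M h _ _
  have z := dop_one hw M h (S := fun k _ _ => φ k)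
    ⟨by funext x y; exact h0, _, fun _ => rfl⟩ s 1
  rw [k, Law.TE_const hw, one_mul] at z
  rw [k, z, mul_zero]

theorem dop_add_cst (hw : Wt w) (M : List (Lv Ω)) (h : Ω → ℝ) (S : ℕ → Ω → Ω → ℝ) {φ : ℕ → ℝ}
    (h0 : φ 0 = 0) : Dop M (fun k x y => S k x y + φ k) (TEf w M h) = Dop M S (TEf w M h) := by
  funext s F
  have := (isLin_TEf hw M h).dopS M 1 1 S (fun k _ _ => φ k) s F
  simpa only [one_mul, dop_cst hw M h h0, add_zero] using this

/-- **constants drop** in a word of two letters and in the test function -/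
theorem two_drop (hw : Wt w) (M : List (Lv Ω)) (h : Ω → ℝ) {S : ℕ → Ω → Ω → ℝ}
    (hS : S ∈ Mul55.Ok Ω M.length) {φ : ℕ → ℝ} (h0 : φ 0 = 0) (j : ℕ) (Q : Ω → Ω → ℝ) (c : ℝ) :
    twoF j (fun x y => Q x y + c) (Dop M (fun k x y => S k x y + φ k)
      (Dop M (fun k x y => S k x y + φ k) (TEf w M h))) =
    twoF j Q (Dop M S (Dop M S (TEf w M h))) := by
  obtain ⟨s0, c0, hc⟩ := id hS
  rw [dop_add_cst hw M h S h0, Dop_comm hw M h (c := c0 + φ M.length) (c' := c0)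
    (by funext x y; simp [s0, h0]) s0 (fun y => by rw [hc]) hc, dop_add_cst hw M h S h0]
  have l := ((isLin_TEf hw M h).dop M S).dop M S (Sh.two j) 1 c
    (fun x => Q (x (Sh.twoL j)) (x (Sh.twoR j))) fun _ => 1
  have z : Dop M S (Dop M S (TEf w M h)) (Sh.two j) (fun _ => 1) = 0 :=
    pd_wordO hw h M (l := [S]) ((FL.ev (Sh.two j) fun _ => 1).dop M S) (fun M' H => by
      have := dop_one hw M' h (S := S) (by rwa [Cav22.len_tilt H]) (Sh.two j) 1
      rwa [Dop_tilt H] at this) fun T hT => by rw [List.mem_singleton.1 hT]; exact hS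
  simp only [one_mul, mul_one, z, mul_zero, add_zero] at l
  exact l

end drop

variable {L : List (Lv Bool)} {ℓ : List (ℝ × ℝ)}

theorem ek_ok {j K : ℕ} (h0 : 0 < j) (hj : j < K) : ek j ∈ Mul55.Ok Bool K :=
  ⟨by funext x y; simp [ek, h0.ne], 0, fun y => by simp [ek, hj.ne']⟩

/-- any centring of the kernel and of the test function, any scale -/
theorem kap_gen {j : ℕ} (h0 : 0 < j) (hj : j < L.length) (c q q' : ℝ) :
    twoF j (fun a b => spin a * spin b - q) ((Dop L fun k a b =>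
      if k = j then c * (spin a * spin b - q') else 0)^[2] (TEf (fun _ => 1) L 0)) =
      c ^ 2 * kap1 L j := by
  have e : (fun k a b => if k = j then c * (spin a * spin b - q') else 0) =
      fun k a b => c * (ek j k a b + if k = j then -q' else 0) := by
    funext k a b
    unfold ek
    split_ifs <;> ring
  rw [e, twoF, dop2_smul]
  congr 1
  exact two_drop w1 L 0 (ek_ok h0 hj) (φ := fun k => if k = j then -q' else 0)
    (if_neg h0.ne) j (fun a b => spin a * spin b) (-q)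

theorem kap_kap1 {Ω : Type} [Fintype Ω] (D : E91.Dat Ω) (ht : D.L.map Lv.m = D.T.map Lv.m) {j : ℕ}
    (h0 : 0 < j) (hj : j < D.K) : D.kap j = kap1 D.T j := by
  have k := kap_gen (L := D.T) h0 (Cav22.len_tilt ht ▸ hj) 1 (D.q j) (D.q j)
  have e : Mul55.cut (· = j) D.eta = fun k a b =>
      if k = j then 1 * (spin a * spin b - D.q j) else 0 := by
    funext k a b
    unfold Mul55.cut
    split_ifs with c
    · rw [c, one_mul]; rfl
    · rfl
  rw [one_pow, one_mul] at k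
  rw [Br55.kap_Dop D ht h0 hj, e, ← k]
  rfl

section zero

variable {A B : List (ℝ × ℝ)} {m' v' m : ℝ}

theorem adm_v (h : Adm 1 (l2 A B m' v' m 0 0)) {ε : ℝ} (h0 : 0 ≤ ε) :
    Adm 1 (l2 A B m' v' m ε 0) := by
  have a := adm_suf A h
  exact adm_app A h ⟨a.1, a.2.1, a.2.2.1, a.2.2.2.1, a.2.2.2.2.1, by simpa using h0,
    a.2.2.2.2.2.2⟩ rfl

theorem tk_v (ε : ℝ) (k : ℕ) : tk (l2 A B m' v' m ε 0) k =
    tk (l2 A B m' v' m 0 0) k + if A.length + 2 ≤ k then ε else 0 := by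
  rw [l2, l2, tk_app, tk_app, add_assoc]
  congr 1
  have : A.length + 2 ≤ k ↔ 2 ≤ k - A.length := by omega
  simp only [this]
  rcases k - A.length with _ | _ | i
  · simp [tk, R339.Var.TT]
  · simp [tk, R339.Var.TT]
  · simp only [tk, List.take_succ_cons, One15.TT_cons]
    rw [if_pos (by omega)]
    ring

theorem st_v (ε : ℝ) : ST (cs (l2 A B m' v' m 0 0)) (cs (l2 A B m' v' m ε 0)) := by
  simp [Ker15.ST, cs, l2, Function.comp_def, C.sl]

theorem lin_lim : Tay38.Lin fun f a => Tendsto f (𝓝[>] (0 : ℝ)) (𝓝 a) :=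
  ⟨tendsto_const_nhds, fun h h' => h.add h', fun c _ _ h => h.const_mul c⟩

theorem lim_of {f : ℝ → ℝ} {a C : ℝ} (H : ∀ ε ∈ Ioo (0 : ℝ) 1, |f ε - a| ≤ C * ε) :
    Tendsto f (𝓝[>] 0) (𝓝 a) := by
  have lim : Tendsto (fun T : ℝ => C * T) (𝓝[>] 0) (𝓝 (C * 0)) :=
    ((by fun_prop : Continuous fun T : ℝ => C * T).tendsto 0).mono_left nhdsWithin_le_nhds
  rw [mul_zero] at lim
  refine tendsto_sub_nhds_zero_iff.1 (squeeze_zero_norm' ?_ lim)
  filter_upwards [Ioo_mem_nhdsGT one_pos] with T hT using H T hT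

theorem kap_lim (h : Adm 1 (l2 A B m' v' m 0 0)) (j : ℕ) :
    Tendsto (fun ε => kap1 (cs (l2 A B m' v' m ε 0)) j) (𝓝[>] 0)
      (𝓝 (kap1 (cs (l2 A B m' v' m 0 0)) j)) := by
  have e : ∀ ε, Dop (cs (l2 A B m' v' m ε 0)) = Dop (cs (l2 A B m' v' m 0 0)) := fun ε =>
    (Dop_tilt (st_v ε)).symm
  simp only [kap1, e, twoF]
  refine lin_lim.iter (cs (l2 A B m' v' m 0 0)) (ek j)
    (Λ := fun ε => TEf (fun _ => 1) (cs (l2 A B m' v' m ε 0)) 0) (fun s F => ?_) 2 _ _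
  obtain ⟨b, hb⟩ := (Set.finite_range fun x => |F x|).bddAbove
  refine lim_of (C := 2 * (Fintype.card s.Lf : ℝ) ^ 2 * b) fun ε hε => ?_
  have d : ∀ k x y, dC (cs (l2 A B m' v' m 0 0)) (cs (l2 A B m' v' m ε 0)) k x y =
      (if A.length + 2 ≤ k then ε else 0) * (spin x * spin y) := fun k x y => by
    rw [dC, cacc_rk (rk_cs h), cacc_rk (rk_cs (adm_v h hε.1.le)), tk_v]
    ring
  refine (ker1 w1 (mono0 h) (st_v ε) (fun y => by rw [d, ← sq, One15.spin_sq, mul_one]) s le_rfl 0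
    (fun x => hb ⟨x, rfl⟩) (g := ε) fun k _ x y => ?_).trans_eq (by ring)
  rw [d, abs_mul, abs_mul, One15.abs_spin, One15.abs_spin, mul_one, mul_one]
  split_ifs
  · exact (abs_of_pos hε.1).le
  · simpa using hε.1.le

theorem lvr_le_app : ∀ (A : List (ℝ × ℝ)) {X X' : List (ℝ × ℝ)},
    (∀ t, lvr 1 X' t ≤ lvr 1 X t) → ∀ t, lvr 1 (A ++ X') t ≤ lvr 1 (A ++ X) t
  | [], _, _, h, t => h t
  | p :: A, _, _, h, t => by
    simp only [List.cons_append, lvr]
    split_ifs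
    exacts [le_rfl, lvr_le_app A h _]

theorem lvr_v (h : Adm 1 (l2 A B m' v' m 0 0)) {ε : ℝ} (h0 : 0 ≤ ε) (t : ℝ) :
    lvr 1 (l2 A B m' v' m ε 0) t ≤ lvr 1 (l2 A B m' v' m 0 0) t := by
  have a := adm_suf A h
  refine lvr_le_app A (fun t => ?_) t
  simp only [lvr]
  split_ifs with c1 c2 c3 c4
  · exact le_rfl
  · exact le_rfl
  · exact a.2.2.2.2.1.trans (Pp.Ode3.headLv_le_lvr a.2.2.2.2.2.2 _)
  · exact absurd (by linarith) c2
  · exact Pp.Ode3.lvr_mono a.2.2.2.2.2.2 (by linarith)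

theorem zs_app : ∀ A X : List (ℝ × ℝ), Ker.Zs (A ++ X) = Ker.Zs A + Ker.Zs X
  | [], _ => (zero_add _).symm
  | p :: A, X => by simp only [List.cons_append, Ker.Zs, zs_app A X, add_assoc]

theorem fun_lim (h : Adm 1 (l2 A B m' v' m 0 0)) {σ : ℝ}
    (hσ : σ ∈ Icc 0 (R339.Var.TT (l2 A B m' v' m 0 0))) :
    Tendsto (fun ε => Pr.NN (l2 A B m' v' m ε 0) σ) (𝓝[>] 0) (𝓝 (Pr.NN (l2 A B m' v' m 0 0) σ)) ∧
    Tendsto (fun ε => Pr.AA (l2 A B m' v' m ε 0) σ) (𝓝[>] 0)
      (𝓝 (Pr.AA (l2 A B m' v' m 0 0) σ)) := by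
  set l := l2 A B m' v' m 0 0 with hl
  obtain ⟨C, c1, hC⟩ := Hm.fun_H (R339.Var.TT l + 1)
  have m0 : 0 < m := (adm_suf A h).2.2.2.1
  have T0 : 0 ≤ R339.Var.TT l := hσ.1.trans hσ.2
  have key : ∀ ε ∈ Ioo (0 : ℝ) 1,
      |Pr.NN (l2 A B m' v' m ε 0) σ - Pr.NN l σ| ≤ C * (R339.Var.TT l + 2) * ε ∧
      |Pr.AA (l2 A B m' v' m ε 0) σ - Pr.AA l σ| ≤ C * (R339.Var.TT l + 2) * ε := fun ε hε => by
    have a1 := Ker.adm_app hε.1.le h
    have a2 := adm_v h hε.1.le
    have t1 : R339.Var.TT (l ++ [(1, ε)]) = R339.Var.TT l + ε := by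
      rw [Ker.TT_append]; simp [R339.Var.TT]
    have t2 : R339.Var.TT (l2 A B m' v' m ε 0) = R339.Var.TT (l ++ [(1, ε)]) := by
      rw [t1, hl, TT_l2, TT_l2]; ring
    have S := Ker.same_le h a1 (by rw [t1]; linarith [hε.1]) fun s _ _ => Ker.lvr_app ε l s
    have ii := fun a b => (Ker.lvr_ii (l ++ [(1, ε)]) a b).sub (Ker.lvr_ii (l2 A B m' v' m ε 0) a b)
    have J : ∀ s ∈ Icc 0 (R339.Var.TT (l ++ [(1, ε)])),
        |Sc48.Jf (l ++ [(1, ε)]) (l2 A B m' v' m ε 0) (R339.Var.TT (l ++ [(1, ε)])) s| ≤ ε := by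
      intro s hs
      have p : ∀ r, 0 ≤ lvr 1 (l ++ [(1, ε)]) r - lvr 1 (l2 A B m' v' m ε 0) r := fun r => by
        rw [Ker.lvr_app]; exact sub_nonneg.2 (lvr_v h hε.1.le r)
      have b1 := intervalIntegral.integral_mono_interval hs.1 hs.2 le_rfl
        (Eventually.of_forall p) (ii _ _)
      have b2 := intervalIntegral.integral_nonneg (μ := volume) hs.2 fun r _ => p r
      rw [intervalIntegral.integral_sub (a := 0) (Ker.lvr_ii _ _ _) (Ker.lvr_ii _ _ _),
        ← Ker.Zs_int (nn_adm a1), ← t2, ← Ker.Zs_int (nn_adm a2), t2] at b1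
      have z : Ker.Zs (l ++ [(1, ε)]) - Ker.Zs (l2 A B m' v' m ε 0) = ε - m * ε := by
        simp only [Ker.Zs, hl, l2, zs_app]
        ring
      rw [Sc48.Jf, ← abs_neg, ← intervalIntegral.integral_neg]
      simp only [neg_sub]
      rw [abs_of_nonneg b2]
      nlinarith [hε.1]
    have hσ' : σ ∈ Icc 0 (R339.Var.TT (l ++ [(1, ε)])) := ⟨hσ.1, by rw [t1]; linarith [hσ.2, hε.1]⟩
    have k := (hC _ _ a1 a2 t2 (by rw [t1]; linarith [hε.2]) σ hσ' _ rfl).1
    have i := intervalIntegral.norm_integral_le_of_norm_le_const (a := 0)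
      (b := R339.Var.TT (l ++ [(1, ε)])) (C := ε) (f := fun s => |Sc48.Jf (l ++ [(1, ε)])
        (l2 A B m' v' m ε 0) (R339.Var.TT (l ++ [(1, ε)])) s|) fun s hs => by
        rw [uIoc_of_le (hσ'.1.trans hσ'.2)] at hs
        rw [Real.norm_eq_abs, abs_abs]
        exact J s ⟨hs.1.le, hs.2⟩
    rw [sub_zero, abs_of_nonneg (hσ'.1.trans hσ'.2), Real.norm_eq_abs] at i
    have b : |Sc48.Jf (l ++ [(1, ε)]) (l2 A B m' v' m ε 0) (R339.Var.TT (l ++ [(1, ε)])) σ| +
        Hm.IJ (l ++ [(1, ε)]) (l2 A B m' v' m ε 0) 0 (R339.Var.TT (l ++ [(1, ε)])) ≤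
        (R339.Var.TT l + 2) * ε := by
      have i2 := (le_abs_self _).trans i
      have := J σ hσ'
      unfold Hm.IJ
      rw [t1] at i2 this ⊢
      nlinarith [hε.1, hε.2]
    have b' := mul_le_mul_of_nonneg_left b (zero_le_one.trans c1)
    rw [← S.nn σ hσ, ← S.aa σ hσ, mul_assoc]
    exact ⟨k.2.2.2.1.trans b', k.2.2.1.trans b'⟩
  exact ⟨lim_of fun ε hε => (key ε hε).1, lim_of fun ε hε => (key ε hε).2⟩

theorem kap_split0 {v : ℝ} (h : Adm 1 (l2 A B m' v' m v 0)) :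
    |kap1 (cs (l2 A B m' v' m v 0)) (A.length + 1) -
      4 * (Pr.NN (l2 A B m' v' m v 0) (R339.Var.TT A + v') -
      2 * m * Pr.AA (l2 A B m' v' m v 0) (R339.Var.TT A + v'))| ≤ 15360 * (m - m') := by
  have a := adm_suf A h
  have hv : 0 ≤ v - 0 := a.2.2.2.2.2.1
  rcases (show 0 ≤ v by linarith).eq_or_lt with rfl | hv
  · have a1 : 0 ≤ v' + 0 := a.2.2.1
    have a2 := One15.TT_nonneg (nn_adm a.2.2.2.2.2.2)
    have a3 := One15.TT_nonneg (nn_adm (Ker.adm_pre _ h))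
    obtain ⟨f1, f2⟩ := fun_lim h (σ := R339.Var.TT A + v') ⟨by linarith, by rw [TT_l2]; linarith⟩
    refine le_of_tendsto ((kap_lim h _).sub ((f1.sub (f2.const_mul (2 * m))).const_mul 4)).abs ?_
    filter_upwards [self_mem_nhdsWithin] with ε hε using kap_split (adm_v h (le_of_lt hε)) hε
  · exact kap_split h hv

end zero

/-- **E-f, normalised kernel, no positivity** -/
theorem kap1_le (H : List.Forall₂ (Rk1 spin) L ℓ) (h : Adm 1 ℓ) {j : ℕ} (h1 : 0 < j)
    (hj : j < L.length) :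
    |kap1 L j - 4 * (Pr.NN ℓ (tm L j) - 2 * T157.Casc.ex L j * Pr.AA ℓ (tm L j))| ≤
      15360 * dm L 0 j := by
  obtain ⟨i, rfl⟩ : ∃ i, j = i + 1 := ⟨j - 1, by omega⟩
  rw [H.length_eq] at hj
  have hi : i < ℓ.length := by omega
  have e : ℓ = l2 (ℓ.take i) (ℓ.drop (i + 2)) ℓ[i].1 ℓ[i].2 ℓ[i + 1].1 ℓ[i + 1].2 0 := by
    rw [l2, add_zero, sub_zero]
    conv_lhs => rw [← List.take_append_drop i ℓ, List.drop_eq_getElem_cons hi,
      List.drop_eq_getElem_cons hj]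
  have len : (ℓ.take i).length = i := List.length_take_of_le hi.le
  have k := kap_split0 (e ▸ h)
  have t := tk_l2_node (ℓ.take i) (ℓ.drop (i + 2)) ℓ[i].1 ℓ[i].2 ℓ[i + 1].1 ℓ[i + 1].2 0
  have d := dm_l2 (ℓ.take i) (ℓ.drop (i + 2)) ℓ[i].1 ℓ[i].2 ℓ[i + 1].1 ℓ[i + 1].2 0
  rw [← e, len] at k t d
  rw [add_zero] at t
  have tl : L.map Lv.m = (cs ℓ).map Lv.m := (tilt_of H).trans (tilt_of (rk_cs h)).symm
  have x : T157.Casc.ex L (i + 1) = ℓ[i + 1].1 := by
    rw [Cav22.ex_tilt tl]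
    simp [T157.Casc.ex, cs, hj, C.sl]
  rw [← t, ← d, ← Cav22.dm_tilt tl] at k
  rw [kap1, Dop_tilt tl, TEf_same w1 (same_of H (rk_cs h)), tm_eq H, x]
  exact k

/-- **E-f** for the site number of `EDef_91` -/
theorem kap_le {Ω : Type} [Fintype Ω] (D : E91.Dat Ω) (ht : D.L.map Lv.m = D.T.map Lv.m)
    (H : List.Forall₂ (Rk1 spin) D.T ℓ) (h : Adm 1 ℓ) {j : ℕ} (h1 : 0 < j) (hj : j < D.K) :
    |D.kap j - 4 * (Pr.NN ℓ (tm D.T j) - 2 * T157.Casc.ex D.L j * Pr.AA ℓ (tm D.T j))| ≤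
      15360 * dm D.L 0 j := by
  rw [kap_kap1 D ht h1 hj, Cav22.ex_tilt ht, Cav22.dm_tilt ht]
  exact kap1_le H h h1 (Cav22.len_tilt ht ▸ hj)

/-- **E-f** on the one path -/
theorem kap_op {n : ℕ} {β : ℝ} {M : List (ℝ × ℝ × ℝ)} {q : ℕ → ℝ} (H : OOk M q)
    (h : Adm 1 (opV n β M q)) (l0 : Lv (Cube n)) (un sg : ℕ → ℝ) (ms : ℝ) {j : ℕ} (h1 : 0 < j)
    (hj : j < M.length) :
    |(E91.opD n β M q l0 un sg ms).kap j -
      4 * (Pr.NN (opV n β M q) (oTau n β M j * q j + fAcc M j) - 2 * T157.Casc.ex (M.map (mxL n β)) j *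
        Pr.AA (opV n β M q) (oTau n β M j * q j + fAcc M j))| ≤
      15360 * dm (M.map (mxL n β)) 0 j := by
  have r : List.Forall₂ (Rk1 spin) (opS n β M q) (opV n β M q) := C.forall₂_sl spin (opV_nn H)
  have k := kap_le (E91.opD n β M q l0 un sg ms) tilt_opS.symm r h h1
    (by rwa [Br55.opD_K])
  have e : tm (E91.opD n β M q l0 un sg ms).T j = oTau n β M j * q j + fAcc M j :=
    (tm_eq r j).trans (opV_acc hj.le)
  rw [e] at k
  exact k

end Crest.Agent.T156.Cas.Ef49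

end
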