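import Crest.Agent.T156.Cpl_91
import Crest.Agent.T156.CondC_31
import Crest.Agent.T156.SclT_90
import Crest.Agent.T156.EDef_91
import Crest.Agent.T156.CaKkt_28
import Crest.Agent.T156.Site_94
import Crest.Agent.T156.EcB_52
import Crest.Agent.T156.Eb_31
import Crest.Agent.T156.Ea_38
import Crest.Agent.T156.ClZb_9
import Crest.Agent.T156.MdOne_67
import Crest.Agent.T156.EfB_49
import Crest.Agent.T156.EgB_33
import Crest.Agent.T156.L0_49

-- ▼ part T156/Ee_91
section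

/-!
# Row 156 (helper91): the source term of the first cavity equation (leaf E-e)
-/

set_option autoImplicit false
set_option linter.unusedSectionVars false

noncomputable section

namespace Crest.Agent.T156.Cas.E91

open MeasureTheory Real Set Filter Topology
open Crest.Agent.T157.E Crest.Agent.T157.Casc Crest.Agent.T157.SL
open Crest.ProbabilityR.SpinGlassDynamics (spin)
open Nu87

variable {Ω : Type} [Fintype Ω] {D : Dat Ω} {tb : ℝ} {c d e f : Fin 6} {τ τ' : SM 6} {i j j' y : ℕ}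

theorem tele91 {a Φ : ℕ → ℝ} {j j' : ℕ} (h : j ≤ j')
    (H : ∀ i, j ≤ i → i < j' → |a (i + 1) - a i| ≤ Φ (i + 1) - Φ i) : |a j' - a j| ≤ Φ j' - Φ j := by
  induction j', h using Nat.le_induction with
  | base => simp
  | succ n hn ih =>
    linarith [abs_sub_le (a (n + 1)) (a n) (a j), ih fun i h1 h2 => H i h1 (by omega),
      H n hn (by omega)]

theorem TM_loc91 {r : ℕ} {w h : Ω → ℝ} {L : List (Lv Ω)} (hw : Wt w) {τ τ' : SM r}
    (hτ : Rz L.length τ) (hτ' : Rz L.length τ') (p : Fin r → Prop)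
    (H : ∀ a b, p a → p b → τ' a b = τ a b) (G : ({a // p a} → Ω) → ℝ) :
    TM w L h τ' (fun x => G fun a => x a) = TM w L h τ fun x => G fun a => x a := by
  obtain ⟨s, e, rfl⟩ := hτ
  obtain ⟨s', e', rfl⟩ := hτ'
  rw [TM_sm hw s L h e.injective, TM_sm hw s' L h e'.injective]
  exact TE_lab hw s' s L h (e'.injective.comp Subtype.val_injective)
    (e.injective.comp Subtype.val_injective) (fun a b _ => H a.1 b.1 a.2 b.2) G

theorem Bf_loc91 (hw : Wt D.w) (hτ : Rz D.K τ) (hτ' : Rz D.K τ')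
    (H : ∀ a b, (a = c ∨ a = d ∨ a = e ∨ a = f) → (b = c ∨ b = d ∨ b = e ∨ b = f) →
      τ' a b = τ a b) : D.Bf c d e f τ' = D.Bf c d e f τ := by
  simp only [Dat.Bf, ed]
  rw [H c d (by simp) (by simp), H e f (by simp) (by simp)]
  exact TM_loc91 hw hτ hτ' _ H fun z => D.U (τ c d) (z ⟨c, by simp⟩) (z ⟨d, by simp⟩) *
    D.U (τ e f) (z ⟨e, by simp⟩) (z ⟨f, by simp⟩)

theorem U_comm91 (y : ℕ) (x x' : Ω) : D.U y x x' = D.U y x' x := by
  simp only [Dat.U, Dat.U0, Lv.cov, mul_comm]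

theorem Bf_cd91 (hτ : Rz D.K τ) : D.Bf d c e f τ = D.Bf c d e f τ := by
  simp only [Dat.Bf, ed, hτ.comm d c, fun x : Fin 6 → Ω => U_comm91 (D := D) (τ c d) (x d) (x c)]

theorem Bf_ef91 (hτ : Rz D.K τ) : D.Bf c d f e τ = D.Bf c d e f τ := by
  simp only [Dat.Bf, ed, hτ.comm f e, fun x : Fin 6 → Ω => U_comm91 (D := D) (τ e f) (x f) (x e)]

theorem lift_eq91 {r K : ℕ} {τ : SM r} (hτ : Rz K τ) {o a b : Fin r}
    (h : ¬(τ a b = i ∧ i ≤ τ a o ∧ i ≤ τ b o)) : lift i o τ a b = τ a b := by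
  have := hτ.ultra b a o
  rw [hτ.comm b a] at this
  exact if_neg (by omega)

theorem Bf_mv91 (hE : EdS) (hw : Wt D.w) (hτ : Rz D.K τ) (hy : y < i) (hi : i < D.K) (o : Fin 6)
    (h1 : τ c d = y) (h2 : τ e f = y) (h3 : τ c e = i) (h4 : i ≤ τ c o) :
    |D.Bf c d e f (lift i o τ) - D.Bf c d e f τ| ≤ D.t y ^ 2 * (D.lam3 y (i + 1) - D.lam3 y i) := by
  have u1 := hτ.ultra e c o
  have u2 := hτ.ultra c o d
  have u3 := hτ.ultra e o f
  rw [hτ.comm e c] at u1
  rw [hτ.comm o d] at u2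
  rw [hτ.comm o f] at u3
  refine (hE Ω D hw y i hy hi).2.2 τ _ c d e f hτ (rz_lift hτ hi o) h1 h2 h3 (if_pos ⟨h3, h4⟩)
    (if_pos ⟨(hτ.comm e c).trans h3, by omega⟩) fun a ha b hb n1 n2 => lift_eq91 hτ ?_
  rintro ⟨k1, k2, k3⟩
  have hab : a ≠ b := fun h => by
    rw [h, hτ.self] at k1
    omega
  simp only [Finset.mem_insert, Finset.mem_singleton] at ha hb
  have ha' : a = c ∨ a = e := by
    rcases ha with h | h | h | h
    exacts [.inl h, by rw [h] at k2; omega, .inr h, by rw [h] at k2; omega]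
  have hb' : b = c ∨ b = e := by
    rcases hb with h | h | h | h
    exacts [.inl h, by rw [h] at k3; omega, .inr h, by rw [h] at k3; omega]
  rcases ha' with h | h <;> rcases hb' with h' | h'
  exacts [hab (h.trans h'.symm), n1 ⟨h, h'⟩, n2 ⟨h, h'⟩, hab (h.trans h'.symm)]

theorem Bf_lift91 (hE : EdS) (hw : Wt D.w) (hτ : Rz D.K τ) (hy : y < i) (hi : i < D.K) (o : Fin 6)
    (h1 : τ c d = y) (h2 : τ e f = y) :
    |D.Bf c d e f (lift i o τ) - D.Bf c d e f τ| ≤ D.t y ^ 2 * (D.lam3 y (i + 1) - D.lam3 y i) := by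
  have hl := rz_lift hτ hi o
  have h1' := (hτ.comm d c).trans h1
  have h2' := (hτ.comm f e).trans h2
  by_cases k1 : τ c e = i ∧ i ≤ τ c o
  · exact Bf_mv91 hE hw hτ hy hi o h1 h2 k1.1 k1.2
  by_cases k2 : τ c f = i ∧ i ≤ τ c o
  · rw [← Bf_ef91 hl, ← Bf_ef91 hτ]
    exact Bf_mv91 hE hw hτ hy hi o h1 h2' k2.1 k2.2
  by_cases k3 : τ d e = i ∧ i ≤ τ d o
  · rw [← Bf_cd91 hl, ← Bf_cd91 hτ]
    exact Bf_mv91 hE hw hτ hy hi o h1' h2 k3.1 k3.2
  by_cases k4 : τ d f = i ∧ i ≤ τ d o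
  · rw [← Bf_cd91 hl, ← Bf_cd91 hτ, ← Bf_ef91 hl, ← Bf_ef91 hτ]
    exact Bf_mv91 hE hw hτ hy hi o h1' h2' k4.1 k4.2
  rw [Bf_loc91 hw hτ hl fun a b ha hb => lift_eq91 hτ ?_, sub_self, abs_zero]
  · exact mul_nonneg (sq_nonneg _) (sub_nonneg.2 (hE Ω D hw y i hy hi).1)
  · have s1 := hτ.self c
    have s2 := hτ.self d
    have s3 := hτ.self e
    have s4 := hτ.self f
    have s5 := hτ.comm c e
    have s6 := hτ.comm c f
    have s7 := hτ.comm d e
    have s8 := hτ.comm d f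
    rcases ha with h | h | h | h <;> rcases hb with h' | h' | h' | h' <;> rw [h, h'] <;> omega

theorem abs_TM91 {r : ℕ} {w h : Ω → ℝ} {L : List (Lv Ω)} (hw : Wt w) {τ : SM r}
    (hτ : Rz L.length τ) {F : (Fin r → Ω) → ℝ} {b : ℝ} (hF : ∀ x, |F x| ≤ b) : |TM w L h τ F| ≤ b :=
  abs_le.2 ⟨(TM_const hw hτ (-b)).ge.trans (TM_mono hw hτ fun x => (abs_le.1 (hF x)).1),
    (TM_mono hw hτ fun x => (abs_le.1 (hF x)).2).trans_eq (TM_const hw hτ b)⟩

theorem abs_eta91 (hD : D.Ok tb) (hy : y ≤ D.K) (a b : Bool) : |D.eta y a b| ≤ 2 := by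
  have := hD.q01 y hy
  refine (abs_sub _ _).trans ?_
  rw [OneP.abs_spin2, abs_of_nonneg this.1]
  linarith [this.2]

theorem abs_eta2 (hD : D.Ok tb) {y' : ℕ} (hy : y ≤ D.K) (hy' : y' ≤ D.K) (a b a' b' : Bool) :
    |D.eta y a b * D.eta y' a' b'| ≤ 4 := by
  rw [abs_mul]
  nlinarith [abs_eta91 hD hy a b, abs_eta91 hD hy' a' b', abs_nonneg (D.eta y a b),
    abs_nonneg (D.eta y' a' b')]

theorem abs_eta3 (hD : D.Ok tb) {y' y'' : ℕ} (hy : y ≤ D.K) (hy' : y' ≤ D.K) (hy'' : y'' ≤ D.K)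
    (a b a' b' a'' b'' : Bool) : |D.eta y a b * D.eta y' a' b' * D.eta y'' a'' b''| ≤ 8 := by
  rw [abs_mul]
  nlinarith [abs_eta2 hD hy hy' a b a' b', abs_eta91 hD hy'' a'' b'', abs_nonneg (D.eta y'' a'' b''),
    abs_nonneg (D.eta y a b * D.eta y' a' b')]

theorem abs_Sf91 (hD : D.Ok tb) (hτ : Rz D.K τ) : |D.Sf c d e f τ| ≤ 8 :=
  abs_TM91 One15.w1 (Cav22.len_tilt hD.tilt ▸ hτ) fun _ =>
    abs_eta3 hD (hτ.le _ _) (hτ.le _ _) (hτ.le _ _) _ _ _ _ _ _

theorem TM_move91 (hD : D.Ok tb) (hτ : Rz D.K τ) (hτ' : Rz D.K τ') (hi : i < D.K)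
    (H : Ker15.Mv i τ τ') {F : (Fin 6 → Bool) → ℝ} {b : ℝ} (hF : ∀ x, |F x| ≤ b) :
    |TM (fun _ => 1) D.T 0 τ' F - TM (fun _ => 1) D.T 0 τ F| ≤
      72 * (b * (Ker15.tm D.T (i + 1) - Ker15.tm D.T i)) := by
  have hT : D.K = D.T.length := Cav22.len_tilt hD.tilt
  rw [hT] at hτ hτ' hi
  obtain ⟨s, e, rfl⟩ := hτ
  obtain ⟨s', e', rfl⟩ := hτ'
  rw [TM_sm One15.w1 s D.T 0 e.injective, TM_sm One15.w1 s' D.T 0 e'.injective]
  refine (Ker15.move1 One15.w1 (Cav22.mono_tilt hD.tilt hD.mono) hi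
    (s := fun b => match b with | true => s' | false => s)
    (e := fun b => match b with | true => e' | false => e)
    (fun b => match b with | true => e'.injective | false => e.injective) H (N := 6) (by norm_num)
    (by simp) 0 hF (v := Ker15.tm D.T (i + 1) - Ker15.tm D.T i) fun x y => ?_).trans_eq
      (by norm_num)
  rw [Ker15.cv, hD.r1.cacc, hD.r1.cacc, ← sub_mul, abs_mul, OneP.abs_spin2, mul_one,
    abs_of_nonneg (sub_nonneg.2 (hD.r1.tm_mono (Nat.le_succ i)))]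


theorem P1_tw91 {K : ℕ} (hi : i ≤ K) (h : P1 (tw K i) y) : y = i := by
  obtain ⟨a, b, hab, e⟩ := h
  fin_cases a <;> fin_cases b
  · exact absurd rfl hab
  · exact e.symm.trans (min_eq_left hi)
  · exact e.symm.trans (min_eq_left hi)
  · exact absurd rfl hab

theorem Psi_tw91 {K : ℕ} (hi : i ≤ K) {g : ℕ → ℝ} (g0 : g i = 0) : Psi K g (tw K i) = 0 :=
  Finset.sum_eq_zero fun y _ => by
    by_cases h : P1 (tw K i) y
    · rw [P1_tw91 hi h, g0, zero_mul]
    · rw [ind_neg h, mul_zero]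

theorem A_le91 (hL : Mono 0 D.L) (hi : i ≤ D.K) {g : ℕ → ℝ} (hg : ∀ y, 0 ≤ g y) (g0 : g i = 0)
    (hcd : c ≠ d) {ψ : SM 6 → ℝ} (H : ∀ τ, Rz D.K τ → τ 4 5 = i → |ψ τ| ≤ g (τ c d)) :
    |D.A i ψ| ≤ 4 * Wp52.Br D.L g := by
  refine (abs_avc_le (r := 1) hL (rz_tw _ _) 4 (ψ := Psi D.K g) fun τ hτ h =>
    (H τ hτ ((h 0 1).trans (tw_01 hi))).trans (le_Psi hg hτ hcd)).trans
    ((avc_Psi hL (rz_tw _ _) hg 4).trans_eq ?_)
  rw [Psi_tw91 hi g0, zero_add]
  norm_num

theorem abs_BS91 (hD : D.Ok tb) (hτ : Rz D.K τ) (hcd : c ≠ d) (hef : e ≠ f) (h : τ c d = τ e f) :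
    |D.Bf c d e f τ| ≤ tb ^ 2 * D.un (τ c d) ^ 2 ∧
      |D.Bf c d e f τ * D.Sf c d e f τ| ≤ 8 * tb ^ 2 * D.un (τ c d) ^ 2 := by
  have h1 := Cond31.abs_Bf_le D hD hτ hcd hef
  rw [← h, add_self_div_two] at h1
  refine ⟨h1, ?_⟩
  rw [abs_mul]
  nlinarith [abs_Sf91 (c := c) (d := d) (e := e) (f := f) hD hτ, abs_nonneg (D.Bf c d e f τ),
    abs_nonneg (D.Sf c d e f τ)]

theorem Br_le_N91 (hL : Mono 0 D.L) {p : ℕ → Prop} [DecidablePred p] {a : ℝ} (ha : 0 ≤ a) :
    Wp52.Br D.L (fun y => if p y then a * D.un y ^ 2 else 0) ≤ a * D.N 2 := by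
  refine (Wp52.Br_mono hL (g' := fun y => a * D.un y ^ 2) fun y _ => ?_).trans_eq
    (Wp52.Br_mul _ _ _)
  split_ifs
  exacts [le_rfl, by positivity]

/-- the part of the source which is transported -/
def phE (D : Dat Ω) (c d e f : Fin 6) (j j' : ℕ) (τ : SM 6) : ℝ :=
  if τ c d = τ e f ∧ (τ c d < j ∨ (j' < τ c d ∧ τ c d ≤ τ c e)) then
    D.Bf c d e f τ * D.Sf c d e f τ else 0



theorem end91 (hI : EiS) (hD : D.Ok tb) (hcd : c ≠ d) (hef : e ≠ f) (hj : j < j') (h3 : j' < D.K)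
    (hi : i = j ∨ i = j') (m1 : dm D.L 0 j ≤ D.ms) (m2 : dm D.L 0 j' ≤ D.ms) {G : ℝ}
    (hG : D.Gm j G) : |D.src c d e f i - D.A i (phE D c d e f j j')| ≤
      32 * tb ^ 2 * (∑ y ∈ Finset.Ioo j j', dm D.L 0 y * D.un y ^ 2 + 8 * D.ms) +
        128 * tb ^ 2 * (G * D.N 1) := by
  have hiK : i ≤ D.K := by omega
  set g : ℕ → ℝ := fun y => if j ≤ y ∧ y ≤ j' ∧ y ≠ i then 8 * tb ^ 2 * D.un y ^ 2 else 0 with hgd
  set k : ℕ → ℝ := fun y => if j' < y then 8 * (D.t y ^ 2 * D.rt2 y) else 0 with hkd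
  have hg : ∀ y, 0 ≤ g y := fun y => by simp only [hgd]; split_ifs <;> positivity
  have hk : ∀ y, 0 ≤ k y := fun y => by
    have := Cond31.rt2_nonneg D y
    simp only [hkd]; split_ifs <;> positivity
  rw [Dat.src, Dat.A, Dat.A, ← avc_sub]
  refine (abs_avc_le (r := 1) hD.mono (rz_tw _ _) 4 (ψ := fun τ => Psi D.K g τ +
    ∑ y ∈ Finset.range (D.K + 1), k y * ind (P2 τ y)) fun τ hτ _ => ?_).trans ?_
  · have s0 : 0 ≤ ∑ y ∈ Finset.range (D.K + 1), k y * ind (P2 τ y) :=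
      Finset.sum_nonneg fun y _ => mul_nonneg (hk y) (ind_nonneg _)
    have s1 := Psi_nonneg (K := D.K) hg τ
    rw [phE]
    split_ifs with k1 k2 k2
    · rw [sub_self, abs_zero]; positivity
    · rw [sub_zero]
      by_cases k3 : j' < τ c d
      · refine le_add_of_nonneg_of_le s1 (le_trans ?_ (Finset.single_le_sum
          (f := fun y => k y * ind (P2 τ y)) (fun y _ => mul_nonneg (hk y) (ind_nonneg _))
          (Finset.mem_range.2 (Nat.lt_succ_of_le (hτ.le c d)))))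
        have k4 : τ c e < τ c d := by omega
        have b1 := (hI Ω D tb hD _ (hτ.le c d)).1 τ c d e f hτ hcd hef rfl k1.1.symm k4
        rw [ind_pos ⟨c, d, e, f, hcd, hef, rfl, k1.1.symm, k4⟩, mul_one, abs_mul]
        simp only [hkd, if_pos k3]
        exact (mul_le_mul b1 (abs_Sf91 hD hτ) (abs_nonneg _) ((abs_nonneg _).trans b1)).trans_eq
          (mul_comm _ _)
      · refine le_add_of_le_of_nonneg (le_trans ?_ (le_Psi hg hτ hcd)) s0
        simp only [hgd, if_pos (show j ≤ τ c d ∧ τ c d ≤ j' ∧ τ c d ≠ i by omega)]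
        exact (abs_BS91 hD hτ hcd hef k1.1).2
    · omega
    · rw [sub_self, abs_zero]; positivity
  rw [avc_add, avc_sum]
  refine add_le_add ((avc_Psi hD.mono (rz_tw _ _) hg 4).trans ?_) ?_
  · rw [Psi_tw91 hiK (if_neg (by omega)), zero_add]
    have b1 := Wp52.Br_mono hD.mono (g := g) (g' := fun y => 8 * tb ^ 2 *
      ((if y ∈ Finset.Ioo j j' then D.un y ^ 2 else 0) + 4 * ind (y = j) + 4 * ind (y = j')))
      fun y _ => by
        have u1 := ind_nonneg (y = j)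
        have u2 := ind_nonneg (y = j')
        have u3 : D.un y ^ 2 ≤ 4 := by nlinarith [hD.un0 y]
        simp only [hgd, Finset.mem_Ioo]
        split_ifs with k1 k2 k2
        · exact mul_le_mul_of_nonneg_left (by linarith) (by positivity)
        · refine mul_le_mul_of_nonneg_left ?_ (by positivity)
          rcases (by omega : y = j ∨ y = j') with h | h <;> rw [ind_pos h] <;> linarith
        · positivity
        · positivity
    rw [Wp52.Br_mul, Wp52.Br_add, Wp52.Br_add, Wp52.Br_mul, Wp52.Br_mul] at b1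
    have b2 := Br_single j hD.mono
    have b3 := Br_single j' hD.mono
    have b4 : Wp52.Br D.L (fun y => if y ∈ Finset.Ioo j j' then D.un y ^ 2 else 0) ≤
        ∑ y ∈ Finset.Ioo j j', dm D.L 0 y * D.un y ^ 2 := by
      simp only [Wp52.Br, mul_ite, mul_zero, Finset.sum_ite_mem]
      exact Finset.sum_le_sum_of_subset_of_nonneg Finset.inter_subset_right fun y _ _ =>
        mul_nonneg (dm_nonneg hD.mono y) (sq_nonneg _)
    push_cast
    nlinarith [sq_nonneg tb]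
  · rw [Dat.N, Dat.I, Finset.mul_sum, Finset.mul_sum]
    refine Finset.sum_le_sum fun y hy => ?_
    have u0 : 0 ≤ G * (dm D.L 0 y * D.un y) :=
      mul_nonneg hG.1 (mul_nonneg (dm_nonneg hD.mono y) (hD.un0 y).1)
    rw [avc_mul, pow_one]
    simp only [hkd]
    split_ifs with k1
    · have b1 := avc_P2 (r := 1) hD.mono (rz_tw D.K i) (y := y)
        (fun h => by have := P1_tw91 hiK h; omega) 4
      have b0 := mul_nonneg (sq_nonneg (D.t y)) (Cond31.rt2_nonneg D y)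
      refine (mul_le_mul_of_nonneg_left b1 (by positivity)).trans ?_
      by_cases ht : D.t y = 0
      · rw [ht]
        nlinarith [mul_nonneg (sq_nonneg tb) u0]
      · have b2 := (hI Ω D tb hD y (Nat.lt_succ_iff.1 (Finset.mem_range.1 hy))).2 j (by omega) G hG ht
        have b3 := mul_le_mul (Cond31.sq_t_le D hD y) b2
          (mul_nonneg (sq_nonneg _) (Cond31.rt2_nonneg D y)) (sq_nonneg _)
        push_cast
        linarith
    · rw [zero_mul]
      positivity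


end Crest.Agent.T156.Cas.E91
end
end

-- ▼ part T156/E1G_6
section

/-!
# Row 156 (helper6): (E1) from its leaves
-/

set_option autoImplicit false
set_option linter.unusedSectionVars false

noncomputable section

namespace Crest.Agent.T156.Cas.E91

open MeasureTheory Real Set Filter Topology
open Crest.Agent.T157.E Crest.Agent.T157.Casc Crest.Agent.T157.SL
open Nu87

namespace G6

theorem D2_add (Φ Ψ : Fin 6 → Fin 6 → Fin 6 → Fin 6 → ℝ) :
    D2 (fun c d e f => Φ c d e f + Ψ c d e f) = D2 Φ + D2 Ψ := by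
  simp only [D2, mul_add, Finset.sum_add_distrib]

theorem D2_sub (Φ Ψ : Fin 6 → Fin 6 → Fin 6 → Fin 6 → ℝ) :
    D2 (fun c d e f => Φ c d e f - Ψ c d e f) = D2 Φ - D2 Ψ := by
  simp only [D2, mul_sub, Finset.sum_sub_distrib]

theorem D2_mul (a : ℝ) (Φ : Fin 6 → Fin 6 → Fin 6 → Fin 6 → ℝ) :
    D2 (fun c d e f => a * Φ c d e f) = a * D2 Φ := by
  simp only [D2, Finset.mul_sum, mul_left_comm a]

theorem abs_sum_fin {n : ℕ} {f : Fin n → ℝ} {X : ℝ} (h : ∀ i, |f i| ≤ X) : |∑ i, f i| ≤ n * X :=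
  (Finset.abs_sum_le_sum_abs _ _).trans ((Finset.sum_le_card_nsmul _ _ X fun i _ => h i).trans_eq
    (by simp))

theorem abs_D2_le {Φ : Fin 6 → Fin 6 → Fin 6 → Fin 6 → ℝ} {X : ℝ} (hX : 0 ≤ X)
    (h : ∀ c d e f, c ≠ d → e ≠ f → |Φ c d e f| ≤ X) : |D2 Φ| ≤ 69120 * X := by
  have key : ∀ (c d : Fin 4) (e f : Fin 6),
      |cf 1 c d * cf 3 e f * Φ c.succ.succ d.succ.succ e f| ≤ 120 * X := fun c d e f => by
    by_cases hcd : c = d
    · rw [hcd, cf_self 1 d, zero_mul, zero_mul, abs_zero]; positivity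
    by_cases hef : e = f
    · rw [hef, cf_self 3 f, mul_zero, zero_mul, abs_zero]; positivity
    have h1 := abs_cf_le 1 c d
    have h2 := abs_cf_le 3 e f
    have h3 := h c.succ.succ d.succ.succ e f (by simpa using hcd) hef
    rw [abs_mul, abs_mul]
    refine mul_le_mul ((mul_le_mul h1 h2 (abs_nonneg _) (by positivity)).trans_eq (by norm_num)) h3
      (abs_nonneg _) (by norm_num)
  refine (abs_sum_fin fun c => abs_sum_fin fun d => abs_sum_fin fun e => abs_sum_fin fun f =>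
    key c d e f).trans_eq ?_
  push_cast
  ring

variable {Ω : Type} [Fintype Ω] (D : Dat Ω) {tb : ℝ}

/-- the source -/
def Src (j : ℕ) : ℝ := D2 fun c d e f => D.src c d e f j

theorem W2_split (j : ℕ) : D.W2 j =
    D2 (fun c d e f => D.A j fun τ => if τ c d = j ∧ τ e f = j then
      (D.Bf c d e f τ - D.t j ^ 2 * D.rt2 j) * D.Sf c d e f τ else 0) +
    D.t j ^ 2 * D.rt2 j * D.kap j +
    D2 (fun c d e f => D.A j fun τ =>
      if τ c d ≠ τ e f then D.Bf c d e f τ * D.Sf c d e f τ else 0) + Src D j := by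
  rw [Dat.kap, Src, ← D2_mul, ← D2_add, ← D2_add, ← D2_add, Dat.W2]
  congr 1
  funext c d e f
  simp only [Dat.src, Dat.A]
  rw [← avc_mul, ← avc_add, ← avc_add, ← avc_add]
  congr 1
  funext τ
  by_cases h1 : τ c d = τ e f
  · by_cases h2 : τ c d = j
    · have h3 : τ e f = j := h1 ▸ h2
      simp only [h2, h3, and_self, if_true, ne_eq, not_true, if_false, and_false]
      ring
    · rw [if_neg fun h => h2 h.1, if_neg fun h => h2 h.1, if_neg (not_not.2 h1), if_pos ⟨h1, h2⟩]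
      ring
  · rw [if_neg fun h => h1 (h.1.trans h.2.symm), if_neg fun h => h1 (h.1.trans h.2.symm), if_pos h1,
      if_neg fun h => h1 h.1]
    ring

variable {D}

theorem I_nonneg (H : D.Ok tb) {g : ℕ → ℝ} (hg : ∀ y ≤ D.K, 0 ≤ g y) : 0 ≤ D.I g :=
  Finset.sum_nonneg fun y hy => mul_nonneg (dm_nonneg H.mono y)
    (hg y (Nat.lt_succ_iff.1 (Finset.mem_range.1 hy)))

theorem N_nonneg (H : D.Ok tb) (k : ℕ) : 0 ≤ D.N k :=
  I_nonneg H fun y _ => pow_nonneg (H.un0 y).1 k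

theorem pz_nonneg (H : D.Ok tb) {y : ℕ} (hy : y ≤ D.K) : 0 ≤ D.pz y :=
  add_nonneg (add_nonneg (le_min zero_le_one (Ker15.PB_nonneg 6 (H.sg0 y))) (H.q01 y hy).1)
    (Nu87.ex_nonneg H.mono y)

theorem gz_nonneg (H : D.Ok tb) (j : ℕ) {y : ℕ} (hy : y ≤ D.K) : 0 ≤ D.gz j y := by
  unfold Dat.gz
  split_ifs
  exacts [pz_nonneg H hy, zero_le_one]

theorem N3p_nonneg (H : D.Ok tb) (j : ℕ) : 0 ≤ D.N3p j :=
  I_nonneg H fun y hy => mul_nonneg (gz_nonneg H j hy) (pow_nonneg (H.un0 y).1 3)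

theorem ms_le_crude (H : D.Ok tb) {n3 : ℝ} (h3 : 0 ≤ n3) (j : ℕ) : D.ms ≤ D.crude n3 j := by
  have h1 := (H.un0 j).1
  have h2 := N_nonneg H
  have h4 : 0 ≤ (D.un j + D.N 1) * (D.N 2 + D.N 1 ^ 2) :=
    mul_nonneg (add_nonneg h1 (h2 1)) (add_nonneg (h2 2) (sq_nonneg _))
  unfold Dat.crude
  linarith [pow_nonneg h1 3, h2 4]

theorem q_le (H : D.Ok tb) {j j' : ℕ} (h : j ≤ j') (h' : j' ≤ D.K) : D.q j ≤ D.q j' := by
  induction j', h using Nat.le_induction with
  | base => exact le_rfl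
  | succ k _ ih => exact (ih (by omega)).trans (H.qm k h')


end G6


end Crest.Agent.T156.Cas.E91

end
end

-- ▼ part T156/Ei_31
section

/-!
# Row 156 (helper31): leaf E-d2, two different nodes of the same depth
-/

set_option autoImplicit false
set_option linter.unusedSectionVars false

noncomputable section

namespace Crest.Agent.T156.Cas.Eb31

open MeasureTheory Real Set Filter Topology
open Crest.Agent.T157.E Crest.Agent.T157.Casc Crest.Agent.T157.SL
open Wt87 Law Nu87 E91 Cond31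

variable {Ω : Type} [Fintype Ω] {w : Ω → ℝ}

theorem cl_eq (s : Sh) {K j : ℕ} (hj : j ≤ K) (a b : s.Lf) :
    s.cl j a = s.cl j b ↔ j ≤ s.shr a b K := by
  have := shr_min s a b j K
  rw [min_eq_left hj] at this
  rw [Clu22.cl_eq_iff, this]
  omega

/-- a pair split at its node of depth `j`, given the states at depth `j` -/
theorem cE_edge (hw : Wt w) (s : Sh) (L : List (Lv Ω)) {j : ℕ} {c d : s.Lf} (hcd : c ≠ d)
    (h1 : s.shr c d L.length = j) (U : Ω → Ω → ℝ) (z : (s.cut j).Lf → Ω → ℝ) :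
    cE w (L.drop j) s j z (fun x => U (x c) (x d)) = Cond31.rt w L j U (z (s.cl j c)) := by
  have hj : j ≤ L.length := h1 ▸ shr_le s c d _
  obtain ⟨c', hc'⟩ := Clu22.exists_inj s j c
  obtain ⟨d', hd'⟩ : ∃ b, s.inj j (s.cl j c) b = d := by
    rw [(cl_eq s hj c d).2 h1.ge]
    exact Clu22.exists_inj s j d
  have e := Clu22.cE_inj hw (L.drop j) s j z (s.cl j c) fun x => U (x c') (x d')
  simp only [hc', hd'] at e
  have e2 := Clu22.shr_inj s j _ c' d' (L.length - j)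
  rw [Nat.sub_add_cancel hj, hc', hd', h1] at e2
  rw [e, TE_pair hw _ _ _ (fun e => hcd (by rw [← hc', ← hd', e])) U, List.length_drop,
    show (s.up j (s.cl j c)).shr c' d' (L.length - j) = 0 by omega, pi2_zero]
  rfl

/-- **two edges on different nodes of depth `j`**: only the node means count -/
theorem TE_sep (hw : Wt w) (s : Sh) (L : List (Lv Ω)) (h : Ω → ℝ) {j : ℕ} {c d e f : s.Lf}
    (hcd : c ≠ d) (hef : e ≠ f) (h1 : s.shr c d L.length = j) (h2 : s.shr e f L.length = j)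
    (h3 : s.shr c e L.length < j) (U U' : Ω → Ω → ℝ) :
    TE w s L h (fun x => U (x c) (x d) * U' (x e) (x f)) = tF w (s.cut j) L h fun p _ =>
      Cond31.rt w L j U (p (s.cl j c) j) * Cond31.rt w L j U' (p (s.cl j e) j) := by
  have hj : j ≤ L.length := h1 ▸ shr_le s c d _
  have hd := (cl_eq s hj c d).2 h1.ge
  have hf := (cl_eq s hj e f).2 h2.ge
  have hne : ¬s.cl j e = s.cl j c := fun h => not_le.2 h3 ((cl_eq s hj c e).1 h.symm)
  rw [TE_cut hw s j]
  refine congrArg (tF w (s.cut j) L h) (funext fun p => funext fun _ => ?_)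
  rw [Clu22.cE_mul hw _ s j _ (· = s.cl j c) (fun x x' h => by simp only [h c rfl, h d hd.symm])
    (fun x x' h => by simp only [h e hne, h f fun e => hne (hf.trans e)]), cE_edge hw s L hcd h1,
    cE_edge hw s L hef h2]

theorem tF_state (hw : Wt w) (s : Sh) (a : s.Lf) (L : List (Lv Ω)) (h : Ω → ℝ) (j : ℕ)
    {Φ : (Ω → ℝ) → ℝ} (hΦ : Eg Φ) : tF w s L h (fun p _ => Φ (p a j)) = node w L j Φ h := by
  rw [tF_marg_node hw s a L h j (Φ := fun _ => Φ) fun _ => hΦ]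
  simp only [← Finset.sum_mul, sum_P hw, one_mul]

theorem abs_TE_sep (hw : Wt w) (s : Sh) (L : List (Lv Ω)) (h : Ω → ℝ) {j : ℕ} {c d e f : s.Lf}
    (hcd : c ≠ d) (hef : e ≠ f) (h1 : s.shr c d L.length = j) (h2 : s.shr e f L.length = j)
    (h3 : s.shr c e L.length < j) (U U' : Ω → Ω → ℝ) :
    |TE w s L h (fun x => U (x c) (x d) * U' (x e) (x f))| ≤
      (node w L j (fun z => Cond31.rt w L j U z ^ 2) h + node w L j (fun z => Cond31.rt w L j U' z ^ 2) h) / 2 := by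
  have g1 := (EgP.state (eg_rt_sq hw L j U) (s.cl j c) j).stT L h
  have g2 := (EgP.state (eg_rt_sq hw L j U') (s.cl j e) j).stT L h
  rw [TE_sep hw s L h hcd hef h1 h2 h3, ← tF_state hw (s.cut j) (s.cl j c) L h j (eg_rt_sq hw L j U),
    ← tF_state hw (s.cut j) (s.cl j e) L h j (eg_rt_sq hw L j U'), tF, tF, tF,
    ← Sd.tX_add hw _ L h (fun _ => g1) (fun _ => g2), div_eq_inv_mul, ← Sd.tX_const_mul]
  refine Lin23.abs_tX_le hw _ L h (fun _ => (g1.add g2).const_mul _) fun g x => ?_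
  rw [abs_le]
  constructor
  · nlinarith [sq_nonneg (Cond31.rt w L j U (stT _ L h g (s.cl j c) j) +
      Cond31.rt w L j U' (stT _ L h g (s.cl j e) j))]
  · nlinarith [sq_nonneg (Cond31.rt w L j U (stT _ L h g (s.cl j c) j) -
      Cond31.rt w L j U' (stT _ L h g (s.cl j e) j))]

theorem abs_TM_sep (hw : Wt w) {r : ℕ} {L : List (Lv Ω)} {h : Ω → ℝ} {σ : SM r}
    (hσ : Rz L.length σ) {j : ℕ} {c d e f : Fin r} (hcd : c ≠ d) (hef : e ≠ f) (h1 : σ c d = j)
    (h2 : σ e f = j) (h3 : σ c e < j) (U : Ω → Ω → ℝ) :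
    |TM w L h σ (fun x => U (x c) (x d) * U (x e) (x f))| ≤
      node w L j (fun z => Cond31.rt w L j U z ^ 2) h := by
  obtain ⟨s, e', rfl⟩ := hσ
  rw [TM_sm hw s L h e'.injective]
  exact (abs_TE_sep hw s L h (fun e => hcd (e'.injective e)) (fun e => hef (e'.injective e))
    h1 h2 h3 U U).trans_eq (by ring)

variable (D : Dat Ω) {tb : ℝ}

theorem Bf_sep (hw : Wt D.w) {τ : SM 6} (hτ : Rz D.K τ) {y : ℕ} {c d e f : Fin 6} (hcd : c ≠ d)
    (hef : e ≠ f) (h1 : τ c d = y) (h2 : τ e f = y) (h3 : τ c e < y) :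
    |D.Bf c d e f τ| ≤ D.t y ^ 2 * D.rt2 y := by
  rw [Bf_eq, h1, h2, ← sq, abs_mul, abs_of_nonneg (sq_nonneg _), rt2_eq D hw]
  exact mul_le_mul_of_nonneg_left (abs_TM_sep hw hτ hcd hef h1 h2 h3 _) (sq_nonneg _)

/-- one level of the weak input -/
theorem Gm_one (H : D.Ok tb) {j y : ℕ} (hy : y ≤ D.K) (hj : j ≤ y) {G : ℝ} (hG : D.Gm j G)
    (ht : D.t y ≠ 0) : dm D.L 0 y ^ 2 * D.rt2 y ≤ G ^ 2 := by
  have h1 := (hG.2 (fun i => if i = y then 1 else 0) (fun i => by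
    unfold Dat.gz
    by_cases h1 : i = y
    · rw [if_pos h1, if_neg (by omega), abs_one]
    · rw [if_neg h1, abs_zero]
      split_ifs with h2
      · exact add_nonneg (add_nonneg (le_min zero_le_one (Ker15.PB_nonneg 6 (H.sg0 i)))
          (H.q01 i (by omega)).1) (Nu87.ex_nonneg H.mono i)
      · exact zero_le_one) fun i hi => if_neg fun e : i = y => ht (e ▸ hi)).1
  have e : ∀ g : ℕ → ℝ, (D.I fun i => (if i = y then 1 else 0) * g i) = dm D.L 0 y * g y := fun g => by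
    simp [Dat.I, Finset.sum_ite_eq', hy]
  simp only [e, mul_pow] at h1
  rwa [Pe.pE_const_mul, Pe.pE_node1 H.wt
    (Φ := fun z => (Sy41.rr D.w (D.L.drop y) D.l0 z - D.q y) ^ 2)
    (((Sy41.eg_rr H.wt _ _).sub (Eg.const _)).pow 2)] at h1

theorem rt2_le_un (H : D.Ok tb) {y : ℕ} (hy : y ≤ D.K) (ht : D.t y ≠ 0) : D.rt2 y ≤ D.un y ^ 2 :=
  (rt2_le D H.wt y).trans (pi2_U0_sq_le_un D H hy ht)

/-- **leaf E-d2** -/
theorem eiS : EiS := fun _ _ D _ H y hy =>
  ⟨fun _ _ _ _ _ hτ hcd hef h1 h2 h3 => Bf_sep D H.wt hτ hcd hef h1 h2 h3, fun j hj G hG ht => by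
    have h1 := Gm_one D H hy hj hG ht
    have h2 := mul_le_mul_of_nonneg_left (rt2_le_un D H hy ht) (sq_nonneg (dm D.L 0 y))
    have h3 := mul_nonneg (sq_nonneg (dm D.L 0 y)) (rt2_nonneg D y)
    have h4 := mul_nonneg (dm_nonneg H.mono y) (H.un0 y).1
    refine (abs_le_of_sq_le_sq' ?_ (mul_nonneg hG.1 h4)).2
    rw [sq, mul_pow G, mul_pow (dm D.L 0 y)]
    exact mul_le_mul h1 h2 h3 (sq_nonneg _)⟩

end Crest.Agent.T156.Cas.Eb31

end
end

-- ▼ part T156/Ed_43
section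

/-!
# Row 156 (helper43): the move of the bulk factor (`E91.EdS`)
-/

set_option autoImplicit false
set_option linter.unusedSectionVars false

noncomputable section

namespace Crest.Agent.T156.Cas.Ed43

open MeasureTheory Real Set Filter Topology
open Crest.Agent.T157.E Crest.Agent.T157.Casc Crest.Agent.T157.SL
open Nu87 Wt87

variable {Ω : Type} [Fintype Ω] {w : Ω → ℝ}

/-- the pair form of two functions -/
def pp (w : Ω → ℝ) (M : List (Lv Ω)) (k : ℕ) (f g : Ω → ℝ) (z : Ω → ℝ) : ℝ :=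
  pi2 w M k (fun x y => f x * g y) z

/-- its increment -/
def dl (w : Ω → ℝ) (M : List (Lv Ω)) (k k' : ℕ) (f g : Ω → ℝ) (z : Ω → ℝ) : ℝ :=
  pp w M k' f g z - pp w M k f g z

theorem pp_swap (M : List (Lv Ω)) (k : ℕ) (f g : Ω → ℝ) (z : Ω → ℝ) :
    pp w M k f g z = pp w M k g f z := by
  simp only [pp, pi2, qf_mul]
  simp only [mul_comm]

theorem pp_one (hw : Wt w) (M : List (Lv Ω)) (k : ℕ) (f : Ω → ℝ) (z : Ω → ℝ) :
    pi2 w M k (fun x _ => f x) z = Pf w M z f := by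
  have e : ∀ z', qf (P w (M.drop k) z') (fun x _ => f x) = ∑ x, P w (M.drop k) z' x * f x :=
    fun z' => by simpa [sum_P hw] using qf_mul (P w (M.drop k) z') f fun _ => 1
  simp only [pi2, e]
  exact node_sum_P hw f M k z

theorem pp_one' (hw : Wt w) (M : List (Lv Ω)) (k : ℕ) (f : Ω → ℝ) (z : Ω → ℝ) :
    pi2 w M k (fun _ y => f y) z = Pf w M z f := by
  rw [← pp_one hw M k f z]
  simp only [pi2]
  congr 1
  funext z'
  exact qf_swap _ fun x _ => f x

theorem pp_cen (hw : Wt w) (M : List (Lv Ω)) (k : ℕ) (f g : Ω → ℝ) (t a : ℝ) (z : Ω → ℝ) :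
    pp w M k (fun x => t * (f x - a)) (fun x => t * (g x - a)) z =
      t ^ 2 * (pp w M k f g z - a * Pf w M z f - a * Pf w M z g + a ^ 2) := by
  rw [← pp_one hw M k f z, ← pp_one' hw M k g z, ← pi2_const hw M k (a ^ 2) z, pp, pp,
    ← pi2_const_mul, ← pi2_const_mul, ← pi2_sub hw, ← pi2_sub hw, ← pi2_add hw, ← pi2_const_mul]
  congr 1
  funext x y
  ring

theorem dl_nonneg (hw : Wt w) (M : List (Lv Ω)) {k k' : ℕ} (hk : k ≤ k') (f : Ω → ℝ) (z : Ω → ℝ) :
    0 ≤ dl w M k k' f f z := by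
  have := Kkt28.pi2_mono hw (⟨Unit, fun x _ => f x, 0⟩ : Lv Ω) M z hk
  have e : (⟨Unit, fun x _ => f x, 0⟩ : Lv Ω).cov = fun x y => f x * f y := by
    funext x y
    simp [Lv.cov]
  rw [e] at this
  exact sub_nonneg.2 this

theorem pp_comb (hw : Wt w) (M : List (Lv Ω)) (k : ℕ) (f g : Ω → ℝ) (ε : ℝ) (z : Ω → ℝ) :
    pp w M k (fun x => f x + ε * g x) (fun x => f x + ε * g x) z =
      pp w M k f f z + 2 * ε * pp w M k f g z + ε ^ 2 * pp w M k g g z := by
  have e : pp w M k (fun x => f x + ε * g x) (fun x => f x + ε * g x) z =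
      pp w M k f f z + ε * pp w M k f g z + ε * pp w M k g f z + ε ^ 2 * pp w M k g g z := by
    simp only [pp, ← pi2_const_mul, ← pi2_add hw]
    congr 1
    funext x y
    ring
  rw [e, pp_swap M k g f]
  ring

/-- the increments are positive forms -/
theorem abs_dl_le (hw : Wt w) (M : List (Lv Ω)) {k k' : ℕ} (hk : k ≤ k') (f g : Ω → ℝ)
    (z : Ω → ℝ) : |dl w M k k' f g z| ≤ (dl w M k k' f f z + dl w M k k' g g z) / 2 := by
  have h1 := dl_nonneg hw M hk (fun x => f x + 1 * g x) z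
  have h2 := dl_nonneg hw M hk (fun x => f x + (-1) * g x) z
  simp only [dl, pp_comb hw] at h1 h2 ⊢
  rw [abs_le]
  constructor <;> nlinarith

theorem pp_le (hw : Wt w) (M : List (Lv Ω)) (k : ℕ) (f : Ω → ℝ) (z : Ω → ℝ) :
    pp w M k f f z ≤ Pf w M z fun x => f x ^ 2 := by
  have : pi2 w M k (fun x y => f x * f y) z ≤
      pi2 w M k (fun x y => 1 / 2 * f x ^ 2 + 1 / 2 * f y ^ 2) z :=
    node_mono hw (eg_qf hw _ _) (eg_qf hw _ _) (fun z => qf_mono (P_nonneg hw _ z)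
      fun x y => by nlinarith [sq_nonneg (f x - f y)]) M k z
  rw [pi2_add hw, pi2_const_mul, pi2_const_mul, pp_one hw M k fun x => f x ^ 2,
    pp_one' hw M k fun x => f x ^ 2] at this
  unfold pp
  linarith

/-- a pair split at `k + y` grafted on the leaf `a` at `y` -/
abbrev G2 (s : Sh) (a : s.Lf) (y k : ℕ) : Sh := (s.graft a y).graft (s.nw a y) (k + y)

/-- the old leaves -/
def oe (s : Sh) (a : s.Lf) (y k : ℕ) (b : s.Lf) : (G2 s a y k).Lf :=
  (s.graft a y).emb (s.nw a y) (k + y) (s.emb a y b)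

/-- the first new leaf -/
def n1 (s : Sh) (a : s.Lf) (y k : ℕ) : (G2 s a y k).Lf :=
  (s.graft a y).emb (s.nw a y) (k + y) (s.nw a y)

/-- the second new leaf -/
def n2 (s : Sh) (a : s.Lf) (y k : ℕ) : (G2 s a y k).Lf := (s.graft a y).nw (s.nw a y) (k + y)

/-- the law of a grafted pair -/
theorem TE_G2 (hw : Wt w) (s : Sh) (a : s.Lf) (y k : ℕ) (L : List (Lv Ω)) (h : Ω → ℝ)
    (K : (s.Lf → Ω) → Ω → Ω → ℝ) :
    TE w (G2 s a y k) L h (fun x => K (fun b => x (oe s a y k b)) (x (n1 s a y k)) (x (n2 s a y k))) =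
      tX w s L h fun g x => pi2 w (L.drop y) k (K x) (stT s L h g a y) := by
  classical
  have e1 : ∀ (x : s.Lf → Ω) (φ : (s.Lf → Ω) → ℝ), ∑ v, (if x = v then 1 else 0) * φ v = φ x :=
    fun x φ => by simp
  have h1 := fun v => graft_pi2 hw s a y k L h (fun x => if x = v then 1 else 0) (K v)
  have h2 := Finset.sum_congr (rfl : (Finset.univ : Finset (s.Lf → Ω)) = _) fun v _ => h1 v
  have h3 := Sd.tX_sum hw (G2 s a y k) L h (Finset.univ : Finset (s.Lf → Ω))
    (F := fun v _ x => (if (fun b => x (oe s a y k b)) = v then 1 else 0) *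
      K v (x (n1 s a y k)) (x (n2 s a y k))) fun v _ x => Eg.const _
  have h4 := Sd.tX_sum hw s L h (Finset.univ : Finset (s.Lf → Ω))
    (F := fun v g x => (if x = v then 1 else 0) * pi2 w (L.drop y) k (K v) (stT s L h g a y))
    fun v _ x => (Sp38.eg_node s L h (eg_pi2 hw _ k (K v)) a y).const_mul _
  have h5 := h3.trans (h2.trans h4.symm)
  simp only [e1] at h5
  exact h5

variable {κ : Type} [Finite κ]

/-- any tree with the same split matrix on the labels -/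
theorem TE_lab2 (hw : Wt w) (L : List (Lv Ω)) (h : Ω → ℝ) {s s₂ : Sh} {a : s.Lf} {y k : ℕ}
    (hk : k + y ≤ L.length) {ι : κ → s.Lf} {ι₂ : κ → s₂.Lf} (hι : Function.Injective ι)
    (hι₂ : Function.Injective ι₂) {c e : s₂.Lf} (hce : c ≠ e) (hc : ∀ b, c ≠ ι₂ b)
    (he : ∀ b, e ≠ ι₂ b) (h1 : s₂.shr c e L.length = k + y) (h2 : ∀ b, s₂.shr c (ι₂ b) L.length = y)
    (h3 : ∀ b, s₂.shr e (ι₂ b) L.length = y) (h4 : ∀ b, s.shr (ι b) a y = y)
    (h5 : ∀ b b', s₂.shr (ι₂ b) (ι₂ b') L.length = s.shr (ι b) (ι b') L.length)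
    (Φ : (κ → Ω) → Ω → Ω → ℝ) :
    TE w s₂ L h (fun x => Φ (fun b => x (ι₂ b)) (x c) (x e)) =
      tX w s L h fun g x => pi2 w (L.drop y) k (Φ fun b => x (ι b)) (stT s L h g a y) := by
  rw [← TE_G2 hw s a y k L h fun x => Φ fun b => x (ι b)]
  have hy : y ≤ L.length := by omega
  have s12 : (G2 s a y k).shr (n1 s a y k) (n2 s a y k) L.length = k + y := by
    rw [n1, n2, shr_nw, shr_self, min_eq_left hk]
  have s1o : ∀ b, (G2 s a y k).shr (n1 s a y k) (oe s a y k (ι b)) L.length = y := fun b => by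
    rw [n1, oe, shr_emb, shr_nw', min_eq_left hy, h4]
  have s2o : ∀ b, (G2 s a y k).shr (n2 s a y k) (oe s a y k (ι b)) L.length = y := fun b => by
    rw [n2, oe, shr_nw', shr_nw, min_eq_left hk, min_eq_left (Nat.le_add_left y k), h4]
  have soo : ∀ b b', (G2 s a y k).shr (oe s a y k (ι b)) (oe s a y k (ι b')) L.length =
      s.shr (ι b) (ι b') L.length := fun b b' => by rw [oe, oe, shr_emb, shr_emb]
  have n12 : n1 s a y k ≠ n2 s a y k := Tay38.emb_ne _ _ _ _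
  have n1o : ∀ b, n1 s a y k ≠ oe s a y k b := fun b e =>
    Tay38.emb_ne _ _ _ _ (Tay38.emb_inj _ _ _ e).symm
  have n2o : ∀ b, n2 s a y k ≠ oe s a y k b := fun b e => Tay38.emb_ne _ _ _ _ e.symm
  refine TE_lab hw (κ := Bool ⊕ κ) s₂ (G2 s a y k) L h
    (e := Sum.elim (fun b => cond b c e) ι₂)
    (e' := Sum.elim (fun b => cond b (n1 s a y k) (n2 s a y k)) fun b => oe s a y k (ι b)) ?_ ?_ ?_
    fun v => Φ (fun b => v (.inr b)) (v (.inl true)) (v (.inl false))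
  · rintro ((_ | _) | b) ((_ | _) | b') hh <;> simp only [Sum.elim_inl, Sum.elim_inr, cond] at hh
    exacts [rfl, (hce hh.symm).elim, (he _ hh).elim, (hce hh).elim, rfl, (hc _ hh).elim,
      (he _ hh.symm).elim, (hc _ hh.symm).elim, congrArg _ (hι₂ hh)]
  · rintro ((_ | _) | b) ((_ | _) | b') hh <;> simp only [Sum.elim_inl, Sum.elim_inr, cond] at hh
    exacts [rfl, (n12 hh.symm).elim, (n2o _ hh).elim, (n12 hh).elim, rfl, (n1o _ hh).elim,
      (n2o _ hh.symm).elim, (n1o _ hh.symm).elim,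
      congrArg _ (hι (Tay38.emb_inj _ _ _ (Tay38.emb_inj _ _ _ hh)))]
  · rintro ((_ | _) | b) ((_ | _) | b') hh <;> simp only [Sum.elim_inl, Sum.elim_inr, cond]
    · exact (hh rfl).elim
    · rw [shr_comm, h1, shr_comm, s12]
    · rw [h3, s2o]
    · rw [h1, s12]
    · exact (hh rfl).elim
    · rw [h2, s1o]
    · rw [shr_comm, h3, shr_comm, s2o]
    · rw [shr_comm, h2, shr_comm, s1o]
    · rw [h5, soo]

/-- matrix form -/
theorem TM_lab2 (hw : Wt w) (L : List (Lv Ω)) (h : Ω → ℝ) {s : Sh} {a : s.Lf} {y k r : ℕ}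
    (hk : k + y ≤ L.length) {ι : κ → s.Lf} {τ : SM r} (hτ : Rz L.length τ) {ι₂ : κ → Fin r}
    (hι : Function.Injective ι) (hι₂ : Function.Injective ι₂) {c e : Fin r} (hce : c ≠ e)
    (hc : ∀ b, c ≠ ι₂ b) (he : ∀ b, e ≠ ι₂ b) (h1 : τ c e = k + y) (h2 : ∀ b, τ c (ι₂ b) = y)
    (h3 : ∀ b, τ e (ι₂ b) = y) (h4 : ∀ b, s.shr (ι b) a y = y)
    (h5 : ∀ b b', τ (ι₂ b) (ι₂ b') = s.shr (ι b) (ι b') L.length) (Φ : (κ → Ω) → Ω → Ω → ℝ) :
    TM w L h τ (fun x => Φ (fun b => x (ι₂ b)) (x c) (x e)) =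
      tX w s L h fun g x => pi2 w (L.drop y) k (Φ fun b => x (ι b)) (stT s L h g a y) := by
  obtain ⟨s₂, e₂, rfl⟩ := hτ
  rw [TM_sm hw s₂ L h e₂.injective]
  exact TE_lab2 hw L h hk hι (e₂.injective.comp hι₂) (fun e => hce (e₂.injective e))
    (fun b e => hc b (e₂.injective e)) (fun b e => he b (e₂.injective e)) h1 h2 h3 h4 h5 Φ

theorem cov_comm (l : Lv Ω) (x y : Ω) : l.cov x y = l.cov y x := by
  simp only [Lv.cov, mul_comm]

open E91

/-- `lam3` read on any tree -/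
theorem lam3_eq (D : Dat Ω) (hw : Wt D.w) {s : Sh} {a b : s.Lf} {y k : ℕ} (hk : k + y ≤ D.K)
    (hb : s.shr b a y = y) : D.lam3 y (k + y) = tX D.w s D.L D.h fun g x =>
      pp D.w (D.L.drop y) k (fun u => D.l0.cov u (x b)) (fun u => D.l0.cov u (x b))
        (stT s D.L D.h g a y) := by
  have hy : y ≤ D.K := by omega
  have t10 : tw D.K y 1 0 = y := min_eq_left hy
  refine TM_lab2 hw D.L D.h (κ := Unit) hk (ι := fun _ => b) ((rz_tw D.K y).gr 0 (k + y))
    (ι₂ := fun _ => 2) (fun _ _ _ => rfl) (fun _ _ _ => rfl) (c := 0) (e := 1) (by decide)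
    (fun _ => by decide) (fun _ => by decide) ?_ (fun _ => ?_) (fun _ => ?_) (fun _ => hb)
    (fun _ _ => ?_) fun v u u' => D.l0.cov u (v ()) * D.l0.cov u' (v ())
  · exact min_eq_left hk
  · show min (k + y) (tw D.K y 1 0) = y
    rw [t10, min_eq_right (Nat.le_add_left y k)]
  · exact tw_01 hy
  · rw [shr_self]
    rfl

theorem eg_pp (hw : Wt w) (s : Sh) (L : List (Lv Ω)) (h : Ω → ℝ) (M : List (Lv Ω)) (k : ℕ)
    (f g : Ω → ℝ) (a : s.Lf) (y : ℕ) : Eg fun p => pp w M k f g (stT s L h p a y) :=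
  Sp38.eg_node s L h (eg_pi2 hw M k _) a y

theorem lam3_sub (D : Dat Ω) (hw : Wt D.w) {s : Sh} {a b : s.Lf} {y k k' : ℕ} (hkk : k ≤ k')
    (hk : k' + y ≤ D.K) (hb : s.shr b a y = y) :
    D.lam3 y (k' + y) - D.lam3 y (k + y) = tX D.w s D.L D.h fun g x =>
      dl D.w (D.L.drop y) k k' (fun u => D.l0.cov u (x b)) (fun u => D.l0.cov u (x b))
        (stT s D.L D.h g a y) := by
  rw [lam3_eq D hw hk hb, lam3_eq D hw (by omega) hb,
    ← Sd.tX_sub hw _ _ _ (fun _ => eg_pp hw _ _ _ _ _ _ _ _ _) fun _ => eg_pp hw _ _ _ _ _ _ _ _ _]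
  rfl

theorem lam3_le (D : Dat Ω) (hw : Wt D.w) {y i : ℕ} (h1 : y ≤ i) (h2 : i ≤ D.K) :
    D.lam3 y i ≤ pi2 D.w D.L y (fun x x' => D.l0.cov x x' ^ 2) D.h := by
  obtain ⟨k, rfl⟩ : ∃ k, i = k + y := ⟨i - y, by omega⟩
  rw [lam3_eq D hw (s := .one) (a := ()) (b := ()) h2 rfl, ← tX_two hw]
  refine le_trans ?_ (graft_leaf hw .one () y D.L D.h fun x u => D.l0.cov (x ()) u ^ 2).ge
  refine Sd.tX_mono hw _ _ _ (fun _ => eg_pp hw _ _ _ _ _ _ _ _ _)
    (fun _ => Eg.sum _ fun u _ => (Sp38.eg_node .one D.L D.h (eg_P hw _ u) () y).mul_const _)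
    fun g x => (pp_le hw _ _ _ _).trans_eq ?_
  simp only [Pf, cov_comm D.l0 (x ())]

theorem lam3_mono (D : Dat Ω) (hw : Wt D.w) {y i i' : ℕ} (h1 : y ≤ i) (h2 : i ≤ i')
    (h3 : i' ≤ D.K) : D.lam3 y i ≤ D.lam3 y i' := by
  obtain ⟨k, rfl⟩ : ∃ k, i = k + y := ⟨i - y, by omega⟩
  obtain ⟨k', rfl⟩ : ∃ k', i' = k' + y := ⟨i' - y, by omega⟩
  rw [← sub_nonneg, lam3_sub D hw (s := .one) (a := ()) (b := ()) (by omega) h3 rfl]
  exact Sd.tX_nonneg hw _ _ _ fun g x => dl_nonneg hw _ (by omega) _ _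

/-- **the move of the bulk factor, any jump** -/
theorem edJ (D : Dat Ω) (hw : Wt D.w) {y i i' : ℕ} (hyi : y < i) (hi : i < D.K) (hii : i ≤ i')
    (hi' : i' ≤ D.K) {τ τ' : SM 6} {c d e f : Fin 6} (hτ : Rz D.K τ) (hτ' : Rz D.K τ')
    (hcd : τ c d = y) (hef : τ e f = y) (hce : τ c e = i) (hce' : τ' c e = i')
    (H : ∀ a ∈ ({c, d, e, f} : Finset (Fin 6)), ∀ b ∈ ({c, d, e, f} : Finset (Fin 6)),
      ¬(a = c ∧ b = e) → ¬(a = e ∧ b = c) → τ' a b = τ a b) :
    |D.Bf c d e f τ' - D.Bf c d e f τ| ≤ D.t y ^ 2 * (D.lam3 y i' - D.lam3 y i) := by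
  obtain ⟨k, rfl⟩ : ∃ k, i = k + y := ⟨i - y, by omega⟩
  obtain ⟨k', rfl⟩ : ∃ k', i' = k' + y := ⟨i' - y, by omega⟩
  have hkk : k ≤ k' := by omega
  have eg_dl : ∀ (s : Sh) (f g : Ω → ℝ) (a : s.Lf),
      Eg fun p => dl D.w (D.L.drop y) k k' f g (stT s D.L D.h p a y) := fun s f g a =>
    (eg_pp hw _ _ _ _ _ _ _ _ _).sub (eg_pp hw _ _ _ _ _ _ _ _ _)
  have hK : D.K = D.L.length := rfl
  have u1 := hτ.ultra c e f
  have u2 := hτ.ultra e c d
  have u3 := hτ.ultra e c f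
  have u4 := hτ.ultra c e d
  have u5 := hτ.ultra d c f
  have c1 := hτ.comm c e
  have c2 := hτ.comm f c
  have c3 := hτ.comm d e
  have c4 := hτ.comm d c
  have hcf : τ c f = y := by omega
  have hed : τ e d = y := by omega
  have hdf : y ≤ τ d f := by omega
  have ne : ∀ {a b : Fin 6}, τ a b < D.K → a ≠ b := fun {a b} hab e => by
    rw [e, hτ.self] at hab
    omega
  have nce : c ≠ e := ne (by omega)
  have g2 : ∀ b : {b : Fin 6 // b = d ∨ b = f}, τ c b.1 = y := by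
    rintro ⟨b, rfl | rfl⟩ <;> assumption
  have g3 : ∀ b : {b : Fin 6 // b = d ∨ b = f}, τ e b.1 = y := by
    rintro ⟨b, rfl | rfl⟩ <;> assumption
  have nc : ∀ b : {b : Fin 6 // b = d ∨ b = f}, c ≠ b.1 := fun b => ne (by rw [g2]; omega)
  have ne' : ∀ b : {b : Fin 6 // b = d ∨ b = f}, e ≠ b.1 := fun b => ne (by rw [g3]; omega)
  have mem : ∀ b : {b : Fin 6 // b = d ∨ b = f}, b.1 ∈ ({c, d, e, f} : Finset (Fin 6)) := by
    rintro ⟨b, rfl | rfl⟩ <;> simp
  have g2' : ∀ b : {b : Fin 6 // b = d ∨ b = f}, τ' c b.1 = y := fun b =>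
    (H c (by simp) b.1 (mem b) (fun h => ne' b h.2.symm) fun h => nce h.1).trans (g2 b)
  have g3' : ∀ b : {b : Fin 6 // b = d ∨ b = f}, τ' e b.1 = y := fun b =>
    (H e (by simp) b.1 (mem b) (fun h => nce h.1.symm) fun h => nc b h.2.symm).trans (g3 b)
  have g5 : ∀ b b' : {b : Fin 6 // b = d ∨ b = f}, τ' b.1 b'.1 = τ b.1 b'.1 := fun b b' =>
    H b.1 (mem b) b'.1 (mem b') (fun h => nc b h.1.symm) fun h => ne' b h.1.symm
  obtain ⟨s, e₀, hs⟩ := id hτ
  have g4 : ∀ b : {b : Fin 6 // b = d ∨ b = f}, s.shr (e₀ b.1) (e₀ d) y = y := by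
    have key : ∀ b, y ≤ τ b d → s.shr (e₀ b) (e₀ d) y = y := fun b hb => by
      have := shr_min s (e₀ b) (e₀ d) y D.K
      rw [min_eq_left (by omega)] at this
      rw [hs] at hb
      rw [this]
      exact min_eq_left hb
    rintro ⟨b, rfl | rfl⟩
    · exact key _ (by rw [hτ.self]; omega)
    · exact key _ (by rw [hτ.comm]; exact hdf)
  have inj : Function.Injective fun b : {b : Fin 6 // b = d ∨ b = f} => e₀ b.1 :=
    e₀.injective.comp Subtype.val_injective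
  have B0 := TM_lab2 hw D.L D.h (k := k) (by omega) hτ inj Subtype.val_injective nce nc ne' hce g2 g3 g4
    (fun b b' => by rw [hs]; rfl)
    fun v u u' => D.U y u (v ⟨d, .inl rfl⟩) * D.U y u' (v ⟨f, .inr rfl⟩)
  have B1 := TM_lab2 hw D.L D.h hi' hτ' inj Subtype.val_injective nce nc ne' hce' g2' g3' g4
    (fun b b' => by rw [g5, hs]; rfl)
    fun v u u' => D.U y u (v ⟨d, .inl rfl⟩) * D.U y u' (v ⟨f, .inr rfl⟩)
  have hcd' : τ' c d = y := g2' ⟨d, .inl rfl⟩
  have hef' : τ' e f = y := g3' ⟨f, .inr rfl⟩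
  have e1 : D.Bf c d e f τ' - D.Bf c d e f τ = D.t y ^ 2 * tX D.w s D.L D.h fun g x =>
      dl D.w (D.L.drop y) k k' (fun u => D.l0.cov u (x (e₀ d))) (fun u => D.l0.cov u (x (e₀ f)))
        (stT s D.L D.h g (e₀ d) y) := by
    simp only [Dat.Bf, ed, hcd, hef, hcd', hef']
    rw [B0, B1, ← Sd.tX_const_mul, ← Sd.tX_sub hw _ _ _
      (fun _ => Sp38.eg_node s D.L D.h (eg_pi2 hw _ _ _) _ y)
      fun _ => Sp38.eg_node s D.L D.h (eg_pi2 hw _ _ _) _ y]
    congr 1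
    funext g x
    have a1 := pp_cen hw (D.L.drop y) k' (fun u => D.l0.cov u (x (e₀ d)))
      (fun u => D.l0.cov u (x (e₀ f))) (D.t y) (D.q y) (stT s D.L D.h g (e₀ d) y)
    have a2 := pp_cen hw (D.L.drop y) k (fun u => D.l0.cov u (x (e₀ d)))
      (fun u => D.l0.cov u (x (e₀ f))) (D.t y) (D.q y) (stT s D.L D.h g (e₀ d) y)
    refine (congrArg₂ (· - ·) a1 a2).trans ?_
    rw [dl]
    ring
  have l1 := lam3_sub D hw hkk hi' (g4 ⟨d, .inl rfl⟩)
  have l2 := lam3_sub D hw hkk hi' (g4 ⟨f, .inr rfl⟩)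
  rw [e1, abs_mul, abs_of_nonneg (sq_nonneg _)]
  refine mul_le_mul_of_nonneg_left ?_ (sq_nonneg _)
  have l3 : D.lam3 y (k' + y) - D.lam3 y (k + y) = tX D.w s D.L D.h fun g x => 1 / 2 *
      (dl D.w (D.L.drop y) k k' (fun u => D.l0.cov u (x (e₀ d))) (fun u => D.l0.cov u (x (e₀ d)))
        (stT s D.L D.h g (e₀ d) y) +
      dl D.w (D.L.drop y) k k' (fun u => D.l0.cov u (x (e₀ f))) (fun u => D.l0.cov u (x (e₀ f)))
        (stT s D.L D.h g (e₀ d) y)) := by
    rw [Sd.tX_const_mul, Sd.tX_add hw _ _ _ (fun _ => eg_dl _ _ _ _) fun _ => eg_dl _ _ _ _, ← l1,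
      ← l2]
    ring
  rw [l3, abs_le]
  refine ⟨?_, Sd.tX_mono hw _ _ _ (fun _ => eg_dl _ _ _ _)
    (fun _ => ((eg_dl _ _ _ _).add (eg_dl _ _ _ _)).const_mul _) fun g x => by
      linarith [(abs_le.1 (abs_dl_le hw (D.L.drop y) hkk (fun u => D.l0.cov u (x (e₀ d)))
        (fun u => D.l0.cov u (x (e₀ f))) (stT s D.L D.h g (e₀ d) y))).2]⟩
  rw [← neg_one_mul, ← Sd.tX_const_mul]
  exact Sd.tX_mono hw _ _ _ (fun _ => (((eg_dl _ _ _ _).add (eg_dl _ _ _ _)).const_mul _).const_mul _)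
    (fun _ => eg_dl _ _ _ _) fun g x => by
      linarith [(abs_le.1 (abs_dl_le hw (D.L.drop y) hkk (fun u => D.l0.cov u (x (e₀ d)))
        (fun u => D.l0.cov u (x (e₀ f))) (stT s D.L D.h g (e₀ d) y))).1]

/-- **E-d** -/
theorem edS : EdS := fun _ _ D hw _ _ hyi hi =>
  ⟨lam3_mono D hw hyi.le (Nat.le_succ _) hi, lam3_le D hw (by omega) hi,
    fun _ _ _ _ _ _ hτ hτ' hcd hef hce hce' _ H =>
      edJ D hw hyi hi (Nat.le_succ _) hi hτ hτ' hcd hef hce hce' H⟩

end Crest.Agent.T156.Cas.Ed43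

end
end

-- ▼ part T156/EcSite_6
section

/-!
# Row 156 (helper6): the site factor of a pattern with two different levels
-/

set_option autoImplicit false
set_option linter.unusedSectionVars false

noncomputable section

namespace Crest.Agent.T156.Cas.E91

open MeasureTheory Real Set Filter Topology
open Crest.Agent.T157.E Crest.Agent.T157.Casc Crest.Agent.T157.SL
open Nu87 Site94

variable {Ω : Type} [Fintype Ω]

theorem Sf_eq_SF (D : Dat Ω) (c d e f : Fin 6) (τ : SM 6) : D.Sf c d e f τ =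
    SF D.T (fun _ : Fin 3 => D.q) ![4, c, e] ![5, d, f] Finset.univ τ := by
  simp only [Dat.Sf, SF, Fin.prod_univ_three]
  rfl

/-- an edge of another level does not cross both clusters of an edge at its level -/
theorem not_crs_both {r K : ℕ} {τ : SM r} (h : Rz K τ) {c d e f : Fin r} (hne : τ c d ≠ τ e f) :
    ¬Crs τ c (τ c d) e f ∨ ¬Crs τ d (τ c d) e f := by
  by_contra hc
  rw [not_or, not_not, not_not] at hc
  have h0 := hc.1.le h
  have h1 := h.ultra c e d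
  have h2 := h.ultra c f d
  have h3 := h.ultra e c f
  have h4 := h.ultra c d f
  have h5 := h.ultra f c e
  have h6 := h.ultra c d e
  have e1 := h.comm e d
  have e2 := h.comm f d
  have e3 := h.comm e c
  have e4 := h.comm f c
  have e5 := h.comm f e
  unfold Crs at hc
  omega

theorem sf_le (D : Dat Ω) {tb : ℝ} (hD : D.Ok tb) {j : ℕ} {τ : SM 6} (h : Rz D.K τ)
    (h45 : τ 4 5 = j) {c d e f : Fin 6} (hne : τ c d ≠ τ e f) :
    |D.Sf c d e f τ| ≤ 8 * D.gz j (τ c d) := by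
  have hT : Rz D.T.length τ := Cav22.len_tilt hD.tilt ▸ h
  have hq : ∀ a b, |D.q (τ a b)| ≤ 1 := fun a b => by
    obtain ⟨h0, h1⟩ := hD.q01 _ (h.le a b)
    rwa [abs_of_nonneg h0]
  have h8 : (2 : ℝ) ^ (Finset.univ : Finset (Fin 3)).card = 8 := by norm_num
  rw [Sf_eq_SF, Dat.gz, ← h8]
  split_ifs with hy
  swap
  · rw [mul_one]
    exact abs_SF_le hT fun _ _ => hq _ _
  have hK : τ c d < D.K := hy.trans_le (h45 ▸ h.le 4 5)
  have hq0 := (hD.q01 _ hK.le).1
  have hx := Nu87.ex_nonneg hD.mono (τ c d)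
  have hP := Ker15.PB_nonneg 6 (hD.sg0 (τ c d))
  refine SF_le fun A _ => ?_
  by_cases h1 : (1 : Fin 3) ∈ A
  · obtain ⟨a, ha, hc⟩ : ∃ a, ¬Crs τ a (τ c d) e f ∧ Crs τ a (τ c d) c d := by
      rcases not_crs_both h hne with h' | h'
      · exact ⟨c, h', by unfold Crs; rw [h.self]; omega⟩
      · exact ⟨d, h', by unfold Crs; rw [h.self, h.comm d c]; omega⟩
    have h2 : ¬Crs τ a (τ c d) 4 5 := fun h' => by have := h'.le h; omega
    have ho : Odd (bdM τ (dg ![4, c, e] ![5, d, f] A) a (τ c d)) := by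
      rw [Nat.odd_iff, bdM_dg]
      have : (A.filter fun i => Crs τ a (τ c d) ((![4, c, e] : Fin 3 → Fin 6) i)
          ((![5, d, f] : Fin 3 → Fin 6) i)) = {1} := by
        ext i
        rw [Finset.mem_filter, Finset.mem_singleton]
        refine ⟨fun hi => ?_, fun hi => hi ▸ ⟨h1, hc⟩⟩
        fin_cases i
        exacts [absurd hi.2 h2, rfl, absurd hi.2 ha]
      rw [this]
      rfl
    have h3 := par1M hD.r1.rk (Cav22.mono_tilt hD.tilt hD.mono) hT _ a (hD.sg0 (τ c d)) _ ho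
      ((Ker15.tm_eq hD.r1.rk _).symm.trans_le (hD.sgt _))
    refine (mul_le_of_le_one_left (abs_nonneg _) (abs_q_le (fun _ _ => hq _ _) A)).trans ?_
    have h4 : _ ≤ min 1 (Ker15.PB 6 (D.sg (τ c d))) := le_min (abs_TM_mo hT 0 _) h3
    unfold Dat.pz
    linarith
  · have he : (1 : Fin 3) ∈ Finset.univ \ A := by simpa using h1
    refine (mul_le_of_le_one_right (abs_nonneg _) (abs_TM_mo hT 0 _)).trans ?_
    rw [← Finset.mul_prod_erase _ _ he, abs_mul, abs_neg, Finset.abs_prod]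
    refine (mul_le_of_le_one_right (abs_nonneg _) (Finset.prod_le_one (fun _ _ => abs_nonneg _)
      fun i _ => by rw [abs_neg]; exact hq _ _)).trans ?_
    have h4 : 0 ≤ min 1 (Ker15.PB 6 (D.sg (τ c d))) := le_min zero_le_one hP
    have h5 : |D.q (τ c d)| = D.q (τ c d) := abs_of_nonneg hq0
    unfold Dat.pz
    change |D.q (τ c d)| ≤ _
    linarith

end Crest.Agent.T156.Cas.E91

end
end

-- ▼ part T156/EcC_52
section

/-!
# Row 156, (E1): the leaf E-c in the names of `EDef_91` (helper52)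
-/

set_option autoImplicit false
set_option linter.unusedSectionVars false

noncomputable section

namespace Crest.Agent.T156.Cas.Ec52

open Crest.Agent.T157.E Crest.Agent.T157.Casc Crest.Agent.T157.SL
open Nu87 Wp52 E91

variable {Ω : Type} [Fintype Ω] {D : Dat Ω} {tb : ℝ}

theorem gz_nonneg (H : D.Ok tb) {j : ℕ} (hj : j ≤ D.K) (y : ℕ) : 0 ≤ D.gz j y := by
  unfold Dat.gz Dat.pz
  split_ifs with hy
  · have := (H.q01 y (hy.le.trans hj)).1
    have := ex_nonneg H.mono y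
    have := le_min zero_le_one (Ker15.PB_nonneg 6 (H.sg0 y))
    linarith
  · exact zero_le_one

theorem Pf_U (hw : Wt D.w) (y : ℕ) (z : Ω → ℝ) (x : Ω) : Pf D.w (D.L.drop y) z (D.U y x) =
    D.t y * (D.l0.fld (Sy41.mv D.w (D.L.drop y) D.l0 z) x - D.q y) := by
  have e : D.l0.fld (Sy41.mv D.w (D.L.drop y) D.l0 z) x
      = ∑ x', P D.w (D.L.drop y) z x' * D.l0.cov x x' := by
    simp only [Lv.fld, Sy41.mv, Pf, Lv.cov, Finset.mul_sum]
    exact Finset.sum_comm.trans (Finset.sum_congr rfl fun _ _ => Finset.sum_congr rfl fun _ _ => by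
      ring)
  rw [e]
  simp only [Pf, Dat.U, Dat.U0, mul_left_comm _ (D.t y), ← Finset.mul_sum, mul_sub,
    Finset.sum_sub_distrib, ← Finset.sum_mul, sum_P hw, one_mul]

theorem qf_U (hw : Wt D.w) (y : ℕ) (z : Ω → ℝ) : qf (P D.w (D.L.drop y) z) (D.U y) =
    D.t y * (Sy41.rr D.w (D.L.drop y) D.l0 z - D.q y) := by
  rw [← Cond31.rt_U0 D hw]
  exact qf_const_mul _ _ _

theorem fr_of (H : D.Ok tb) {j : ℕ} (hj : j ≤ D.K) {G : ℝ} (hG : D.Gm j G) :
    Fr D.w D.L D.h (tw D.K j) j D.U D.U (fun y => 8 * D.gz j y) (fun y => |tb| * D.un y)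
      (8 * (|tb| + 1) * G) where
  hw := H.wt
  hL := H.mono
  h0 := rz_tw _ _
  hj a b hab := by
    fin_cases a <;> fin_cases b
    exacts [absurd rfl hab, tw_01 hj, ((rz_tw _ _).comm _ _).trans (tw_01 hj), absurd rfl hab]
  hg y := mul_nonneg (by norm_num) (gz_nonneg H hj y)
  hu y := mul_nonneg (abs_nonneg _) (H.un0 y).1
  hG := mul_nonneg (by positivity) hG.1
  hU y hy := by
    simp only [Dat.U, mul_pow, pi2_const_mul, sq_abs]
    by_cases ht : D.t y = 0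
    · rw [ht, sq, zero_mul, zero_mul]; positivity
    · exact mul_le_mul (Cond31.sq_t_le D H y) (Cond31.pi2_U0_sq_le_un D H hy ht)
        (pi2_nonneg H.wt _ _ (fun _ _ => sq_nonneg _) _) (sq_nonneg _)
  gm φ hφ := by
    have c0 : 0 < 8 * (|tb| + 1) := by positivity
    set c := 8 * (|tb| + 1) with hc
    obtain ⟨h1, h2⟩ := hG.2 (fun y => φ y * D.t y / c) (fun y => by
      rw [abs_div, abs_of_pos c0, div_le_iff₀ c0, abs_mul]
      refine (mul_le_mul (hφ y) (show _ ≤ |tb| + 1 by linarith [H.tb y, le_abs_self tb])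
        (abs_nonneg _) (mul_nonneg (by norm_num) (gz_nonneg H hj y))).trans (le_of_eq ?_)
      rw [hc]; ring) fun y hy => by rw [hy, mul_zero, zero_div]
    have e : ∀ Z : ℕ → ℝ, (∑ y ∈ Finset.range (D.L.length + 1), dm D.L 0 y * φ y * (D.t y * Z y)) ^ 2
        = c ^ 2 * (D.I fun y => φ y * D.t y / c * Z y) ^ 2 := fun Z => by
      rw [← mul_pow, Dat.I, Finset.mul_sum]
      congr 1
      exact Finset.sum_congr rfl fun y _ => by field_simp
    simp only [Pf_U H.wt, qf_U H.wt, e, Pe.pE_const_mul, mul_pow c]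
    exact ⟨mul_le_mul_of_nonneg_left h2 (sq_nonneg _), mul_le_mul_of_nonneg_left h1 (sq_nonneg _)⟩

/-- **leaf E-c** -/
theorem ecS : EcS := fun tb => ⟨12 * (cW 1 4 3 * (8 * (|tb| + 1)) * |tb|),
  by have := cW_nonneg 1 4 3; positivity, fun Ω _ D H j hj _ G hG c d e f hcd hef => by
  have F := fr_of H hj.le hG
  have hU : ∀ y x x', D.U y x x' = D.U y x' x := fun y x x' => by
    simp only [Dat.U, Dat.U0, Lv.cov, mul_comm]
  have h1 := ec (k := 4) F hU hcd hef
    (S := fun τ => if τ 4 5 = j ∧ τ c d ≠ τ e f ∧ τ c d ≠ j then D.Sf c d e f τ else 0)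
    (fun τ hτ => by
      split_ifs with hp
      · exact sf_le D H hτ hp.1 hp.2.1
      · rw [abs_zero]; exact F.hg _)
    fun τ _ hs => ⟨(of_cut hs).1.2.2, (of_cut hs).1.2.1⟩
  have h2 := ec (k := 4) F hU hef hcd
    (S := fun τ => if τ 4 5 = j ∧ τ c d ≠ τ e f ∧ τ c d = j then D.Sf e f c d τ else 0)
    (fun τ hτ => by
      split_ifs with hp
      · exact sf_le D H hτ hp.1 hp.2.1.symm
      · rw [abs_zero]; exact F.hg _)
    fun τ _ hs => ⟨fun h => (of_cut hs).1.2.1 ((of_cut hs).1.2.2.trans h.symm),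
      (of_cut hs).1.2.1.symm⟩
  refine le_trans (le_of_eq ?_) ((abs_add_le _ _).trans ((add_le_add h1 h2).trans (le_of_eq ?_)))
  · rw [← avc_add, Dat.A]
    congr 1
    refine avc_congr' (rz_tw _ _) 4 fun τ _ hτ => ?_
    have h45 : τ 4 5 = j := (hτ 0 1).trans (tw_01 hj.le)
    have e1 : D.Sf e f c d τ = D.Sf c d e f τ := by simp only [Dat.Sf, mul_right_comm]
    have e2 : (TM D.w D.L D.h τ fun x => ed D.U e f x τ * ed D.U c d x τ) = D.Bf c d e f τ := by
      simp only [Dat.Bf, mul_comm]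
    rw [e1, e2, ← Dat.Bf]
    by_cases a1 : τ c d = τ e f <;> by_cases a2 : τ c d = j <;> simp [a1, a2, h45, mul_comm]
  · rw [Br_mul, show Br D.L D.un = D.N 1 by simp only [Dat.N, Dat.I, Br, pow_one]]
    ring⟩

end Crest.Agent.T156.Cas.Ec52

end
end

-- ▼ part T156/EaB_38
section

/-!
# Row 156 (helper38): leaf E-a, the crude classes
-/

set_option autoImplicit false
set_option linter.unusedSectionVars false

noncomputable section

namespace Crest.Agent.T156.Cas.Ea38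

open MeasureTheory Real Set Filter Topology
open Crest.Agent.T157.E Crest.Agent.T157.Casc Crest.Agent.T157.SL
open Crest.ProbabilityR.SpinGlassDynamics (spin)
open Crest.Agent.T157.G1 (ov)
open Wt87 Ws38 OneP

section generic
variable {Ω : Type} [Fintype Ω] {w : Ω → ℝ} {L : List (Lv Ω)} {h : Ω → ℝ} {s : Sh} {j : ℕ}

theorem hold (hw : Wt w) {A B C D F : (s.Lf → Ω) → ℝ} {a b c d k k' z z' : ℝ} (hA : Q4 w s L h A a)
    (hB : Q4 w s L h B b) (hC : Q4 w s L h C c) (hD : Q4 w s L h D d) (hk : |k| ≤ k')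
    (hF : ∀ x, F x = k * (A x * B x * C x * D x)) (hz : |z| ≤ z') :
    |TE w s L h F * z| ≤ k' * (a * b * c * d) * z' := by
  rw [funext hF, Law.TE_const_mul hw, abs_mul, abs_mul]
  have h0 := (abs_nonneg _).trans hk
  exact mul_le_mul (mul_le_mul hk (holder hw hA hB hC hD) (abs_nonneg _) h0) hz (abs_nonneg _)
    (mul_nonneg h0 ((abs_nonneg _).trans (holder hw hA hB hC hD)))

theorem I_const (c : ℝ) : I L j (fun _ => c) = 2 * c := by
  rw [I, ← Finset.sum_mul, sum_dm, ex_length]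
  ring

theorem I_mono' (hM : Mono 0 L) (ht : dm L 0 L.length = 0) (hj : j < L.length) {f g : ℕ → ℝ}
    (H : ∀ y < L.length, f y ≤ g y) : I L j f ≤ I L j g := by
  simp only [I, Finset.sum_range_succ, ht, zero_mul, add_zero]
  exact add_le_add (Finset.sum_le_sum fun y hy => mul_le_mul_of_nonneg_left
    (H y (Finset.mem_range.1 hy)) (dm_nonneg hM y)) (H j hj)

theorem W2p (hM : Mono 0 L) (hj : j ≤ L.length) {f g : ℕ → ℝ} {c : ℝ} (hc : 0 ≤ c)
    (hf : ∀ y, 0 ≤ f y) (hg : ∀ y, 0 ≤ g y) {Φ : (τ : GT (Sh.two j)) → GT τ.sh → ℝ}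
    (H : ∀ τ, τ.Mem _ L.length → ∀ τ', τ'.Mem _ L.length → |Φ τ τ'| ≤ c * (f τ.j * g τ'.j)) :
    |sg (-1) L (Sh.two j) fun τ => sg (-1) L τ.sh (Φ τ)| ≤
      4500 ^ 2 * c * (I L j f * I L j g + I L j fun y => f y * g y) := by
  refine (W2 hM hj (D := fun y y' => c * (f y * g y'))
    (fun y y' => mul_nonneg hc (mul_nonneg (hf y) (hg y'))) H).trans_eq ?_
  simp only [I_add, I_mul, I_mul']
  ring

end generic

variable {n : ℕ} {β : ℝ} {M : List (ℝ × ℝ × ℝ)} {q u σ : ℕ → ℝ} {T : ℝ} {j : ℕ}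

/-- parity size seen from the test node -/
def gz (n : ℕ) (β : ℝ) (M : List (ℝ × ℝ × ℝ)) (q σ : ℕ → ℝ) (j y : ℕ) : ℝ :=
  if y < j then min 1 (Ker15.PB 6 (σ y)) + q y + ex (bL n β M) y else 1

/-- the constant of (E1c) -/
def c1 (T : ℝ) : ℝ := 4 * cOp T 2 1 2 + 2 * cOp T 1 1 2

/-- the constant of the crude classes -/
def c2 (T : ℝ) : ℝ := 2 * cOp T 4 3 2 + 8 * cOp T 3 3 2 + 8 * cOp T 2 3 2 + 80 * T +
  480 * (T * c1 T) + 4500 ^ 2 * 20 * T ^ 2 + 4500 ^ 3 * 40 * T ^ 3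

theorem c1_nonneg (h : 0 ≤ T) : 0 ≤ c1 T := by
  have := cOp_nonneg h 2 1 2
  have := cOp_nonneg h 1 1 2
  unfold c1
  positivity

theorem c2_nonneg (h : 0 ≤ T) : 0 ≤ c2 T := by
  have := cOp_nonneg h 2 3 2
  have := cOp_nonneg h 3 3 2
  have := cOp_nonneg h 4 3 2
  have := c1_nonneg h
  unfold c2
  positivity

section words
variable (U : Cube n → Cube n → ℝ) (Z : Bool → Bool → ℝ)

theorem Pk (k : ℕ) : opP n β M q k j U Z =
    ∑ f : Fin k → Bool, opW n β M q (List.ofFn f) (Sh.two j) (pr2 j U) (pr2 j Z) := opC_eq_sum _ _ _ _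

theorem sum1 (F : List Bool → ℝ) : ∑ f : Fin 1 → Bool, F (List.ofFn f) = F [true] + F [false] := by
  rw [Hy.sum_succ, Hy.sum_zero fun l => F (true :: l), Hy.sum_zero fun l => F (false :: l)]

theorem sum2 (F : List Bool → ℝ) : ∑ f : Fin 2 → Bool, F (List.ofFn f) =
    F [true, true] + F [true, false] + (F [false, true] + F [false, false]) := by
  rw [Hy.sum_succ, sum1 fun l => F (true :: l), sum1 fun l => F (false :: l)]

theorem P1 : opP n β M q 1 j (oU q j) Z = opW n β M q [true] (Sh.two j) (pr2 j (oU q j)) (pr2 j Z) +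
    opW n β M q [false] (Sh.two j) (pr2 j (oU q j)) (pr2 j Z) :=
  (Pk _ Z 1).trans (sum1 fun l => opW n β M q l _ _ _)

theorem P2 : opP n β M q 2 j U Z = opW n β M q [true, true] (Sh.two j) (pr2 j U) (pr2 j Z) +
    opW n β M q [true, false] (Sh.two j) (pr2 j U) (pr2 j Z) +
    (opW n β M q [false, true] (Sh.two j) (pr2 j U) (pr2 j Z) +
      opW n β M q [false, false] (Sh.two j) (pr2 j U) (pr2 j Z)) :=
  (Pk U Z 2).trans (sum2 fun l => opW n β M q l _ _ _)

theorem P3 : opP n β M q 3 j U Z = opW n β M q [true, true, true] (Sh.two j) (pr2 j U) (pr2 j Z) +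
    opW n β M q [true, true, false] (Sh.two j) (pr2 j U) (pr2 j Z) +
    (opW n β M q [true, false, true] (Sh.two j) (pr2 j U) (pr2 j Z) +
      opW n β M q [true, false, false] (Sh.two j) (pr2 j U) (pr2 j Z)) +
    (opW n β M q [false, true, true] (Sh.two j) (pr2 j U) (pr2 j Z) +
      opW n β M q [false, true, false] (Sh.two j) (pr2 j U) (pr2 j Z) +
      (opW n β M q [false, false, true] (Sh.two j) (pr2 j U) (pr2 j Z) +
        opW n β M q [false, false, false] (Sh.two j) (pr2 j U) (pr2 j Z))) := by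
  rw [Pk, Hy.sum_succ 2 fun l => opW n β M q l _ _ _, sum2 fun l => opW n β M q (true :: l) _ _ _,
    sum2 fun l => opW n β M q (false :: l) _ _ _]

end words

namespace Hy

variable (H : Hy n β M q u σ T)
include H

theorem gz_mem (hj : j ≤ M.length) (y : ℕ) : gz n β M q σ j y ∈ Icc (0 : ℝ) 3 := by
  unfold gz
  split_ifs with h
  · have h1 := H.ok.mem (h.le.trans hj)
    have h2 := le_min zero_le_one (Ker15.PB_nonneg 6 (H.s0 y))
    constructor <;> linarith [h1.1, h1.2, min_le_left 1 (Ker15.PB 6 (σ y)),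
      Nu87.ex_nonneg H.mono y, Tay38.ex_le_one H.mono y]
  · norm_num

theorem site1 (hj : j ≤ M.length) {s : Sh} (hN : Fintype.card s.Lf ≤ 8) {a b c d : s.Lf} {y : ℕ}
    (hab : s.shr a b (bL n β M).length = j) (hcd : s.shr c d (bL n β M).length = y)
    {F : (s.Lf → Bool) → ℝ} (hF : ∀ x, F x = oE q j (x a) (x b) * oE q y (x c) (x d)) :
    |TE (fun _ => 1) s (opS n β M q) 0 F| ≤ 4 * gz n β M q σ j y := by
  rw [len] at hab hcd
  have hy : y ≤ M.length := hcd ▸ shr_le _ _ _ _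
  unfold gz
  split_ifs with h
  · have h1 := H.ok.mem hy
    have h2 := site H.r1 H.monoS hN (h.trans_le hj) (k := k2 c d) (p := c)
      (by rw [bd_cross (h.trans_le hj) hcd (.inl (by rw [shr_self]; omega))]; exact odd_one)
      (hab ▸ h) (H.s0 y) (H.st y) (H.ok.mem hj) (c := q y) (fun x => by
        rw [mo_k2, oE, sub_sub_cancel_left, abs_neg, abs_of_nonneg h1.1]) hF
    linarith [Nu87.ex_nonneg H.mono y, h1.1]
  · refine H.abs_site fun x => ?_
    rw [hF, abs_mul]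
    linarith [mul_le_mul (abs_oE_le H.ok hj (x a) (x b)) (abs_oE_le H.ok hy (x c) (x d))
      (abs_nonneg _) zero_le_two]

theorem site3 (hj : j ≤ M.length) {s : Sh} (hN : Fintype.card s.Lf ≤ 8) {a b c d c' d' c'' d'' : s.Lf}
    {y : ℕ} (hy : y < j) (hab : s.shr a b (bL n β M).length = j)
    (h1 : s.shr c d (bL n β M).length = y) (h2 : s.shr c' d' (bL n β M).length = y)
    (h3 : s.shr c'' d'' (bL n β M).length = y) (hc : ¬3 ≤ cl (bL n β M).length y s)
    {F : (s.Lf → Bool) → ℝ} (hF : ∀ x, F x = oE q j (x a) (x b) *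
      (oE q y (x c) (x d) * oE q y (x c') (x d') * oE q y (x c'') (x d''))) :
    |TE (fun _ => 1) s (opS n β M q) 0 F| ≤ 16 * gz n β M q σ j y := by
  rw [len] at hab h1 h2 h3 hc
  have hK := hy.trans_le hj
  have key : ∀ {e f : s.Lf}, s.shr e f M.length = y → One15.bd s (k2 e f) c y = 1 := fun e =>
    bd_cross hK e (by
      by_contra hn
      push Not at hn
      exact hc (three_le_cl hK hn.1 hn.2 e.le))
  have h4 := H.ok.mem hK.le
  have h5 := site H.r1 H.monoS hN hK (k := k2 c d + k2 c' d' + k2 c'' d'') (p := c)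
    (by rw [bd_add, bd_add, key h1, key h2, key h3]; decide) (hab ▸ hy) (H.s0 y) (H.st y)
    (H.ok.mem hj) (c := 7 * q y) (fun x => by
      rw [One15.mo_add, One15.mo_add, mo_k2, mo_k2, mo_k2]
      exact cub7 (abs_spin2 _ _) (abs_spin2 _ _) (abs_spin2 _ _) h4) hF
  have h6 := le_min zero_le_one (Ker15.PB_nonneg 6 (H.s0 y))
  rw [gz, if_pos hy]
  linarith [Nu87.ex_nonneg H.mono y, h4.1]

theorem ht (y : ℕ) : |oTau n β M y / 2| ≤ T ∧ |-(oTau n β M y / 4)| ≤ T := by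
  have h1 := H.t0 y
  have h2 := H.tT y
  constructor <;> rw [abs_le] <;> constructor <;> linarith

theorem ht2 {a b : ℝ} (ha : |a| ≤ T) (hb : |b| ≤ T) : |a * b| ≤ T ^ 2 := by
  rw [abs_mul, sq]
  exact mul_le_mul ha hb (abs_nonneg _) H.T0

theorem qb (hj : j ≤ M.length) (h : oTau n β M j ≠ 0) :
    Q4 (fun _ => 1) (Sh.two j) (bL n β M) 0 (pr2 j (oU q j)) (u j) := Uc_eq h ▸ H.q2 hj

theorem Ub (hj : j < M.length) (h : oTau n β M j ≠ 0) :
    |opW n β M q [false] (Sh.two j) (pr2 j (oU q j)) (pr2 j fun _ _ => 1)| ≤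
      80 * T * (u j * I (bL n β M) j fun y => u y ^ 2) := by
  rw [opW1]
  refine (W1 H.mono (len (n := n) (β := β) ▸ hj.le) (D := fun y => T * u j * u y ^ 2)
    (fun y => mul_nonneg (mul_nonneg H.T0 (H.u0 j)) (sq_nonneg _)) fun τ hτ => ?_).trans_eq
    (by rw [I_mul]; ring)
  refine (hold wt_one90 ((H.qb hj.le h).e wt_one90 hτ) (H.qe hτ) (H.qe hτ) (Q4.one wt_one90)
    (H.ht τ.j).2 (fun x => ?_) (z' := 1) (H.abs_site fun x => ?_)).trans_eq (by ring)
  · simp only [GT.ev, be_eq]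
    ring
  · simp [GT.ev, pr2, oZs]

theorem Ua (hj : j < M.length) (h : oTau n β M j ≠ 0) :
    |opW n β M q [true] (Sh.two j) (pr2 j (oU q j)) (pr2 j fun _ _ => 1)| ≤
      80 * (T * c1 T) * (u j * (4 * (I (bL n β M) j (fun y => u y ^ 2) - u j ^ 2) +
        2 * I (bL n β M) j fun y => u y ^ 2)) := by
  rw [opW1]
  refine (W1 H.mono (len (n := n) (β := β) ▸ hj.le)
    (D := fun y => |oTau n β M y / 2| * (u j * u y * 1 * 1) * |E38.rj n β M q y|)
    (fun y => by have := H.u0 j; have := H.u0 y; positivity) fun τ hτ => ?_).trans ?_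
  · refine hold wt_one90 ((H.qb hj.le h).e wt_one90 hτ) (H.qe hτ) (Q4.one wt_one90)
      (Q4.one wt_one90) le_rfl (fun x => ?_) (le_of_eq ?_)
    · simp only [GT.ev, al_eq]
      ring
    · rw [E38.rj, ← GT.Mem.TE_pair wt_one90 (by rw [opS_length]; exact len (n := n) (β := β) ▸ hτ)]
      congr 2
      funext x
      exact one_mul _
  · set N := I (bL n β M) j (fun y => u y ^ 2) - u j ^ 2 with hN
    have N0 : 0 ≤ N := by
      rw [hN, I, add_sub_cancel_right]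
      exact Tay38.N0_nonneg H.mono fun _ => sq_nonneg _
    have c0 : 0 ≤ c1 T := c1_nonneg H.T0
    refine (mul_le_mul_of_nonneg_left (I_mono' H.mono (by rw [len]; exact H.top) (by rwa [len])
      (g := fun y => T * c1 T * u j * (2 * N + 2 * u y ^ 2)) fun y hy => ?_) (by norm_num)).trans_eq
      (by rw [I_mul, I_add, I_const, I_mul]; ring)
    have p0 : 0 ≤ N + u y ^ 2 := add_nonneg N0 (sq_nonneg _)
    by_cases ht : oTau n β M y = 0
    · simp only [ht, zero_div, abs_zero, zero_mul]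
      exact mul_nonneg (mul_nonneg (mul_nonneg H.T0 c0) (H.u0 j)) (by linarith)
    have h1 : |E38.rj n β M q y| ≤ c1 T * (N + u y ^ 2) := by
      refine (H.e1c (len (n := n) (β := β) ▸ hy) ht).trans_eq ?_
      rw [hN, I, I, add_sub_cancel_right, c1]
    have h2 := mul_le_mul (mul_le_mul (H.ht y).1 (mul_le_mul_of_nonneg_left (H.u2 y) (H.u0 j))
      (mul_nonneg (H.u0 j) (H.u0 y)) H.T0) h1 (abs_nonneg _)
      (mul_nonneg H.T0 (mul_nonneg (H.u0 j) zero_le_two))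
    simp only [mul_one]
    linarith

theorem Uaa (hj : j < M.length) (h : oTau n β M j ≠ 0) :
    |opW n β M q [true, true] (Sh.two j) (pr2 j (oU q j)) (pr2 j fun _ _ => 1)| ≤
      4500 ^ 2 * (4 * T ^ 2 * u j) *
        (I (bL n β M) j u * I (bL n β M) j u + I (bL n β M) j fun y => u y * u y) := by
  rw [opW2]
  refine W2p H.mono (len (n := n) (β := β) ▸ hj.le)
    (mul_nonneg (by positivity) (H.u0 j)) H.u0 H.u0 fun τ hτ τ' hτ' => ?_
  refine (hold wt_one90 (((H.qb hj.le h).e wt_one90 hτ).e wt_one90 hτ') ((H.qe hτ).e wt_one90 hτ')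
    (H.qe hτ') (Q4.one wt_one90) (H.ht2 (H.ht τ.j).1 (H.ht τ'.j).1) (fun x => ?_)
    (H.abs_site (H.ev2 hτ' (H.ev2 hτ (c := 1) fun x => abs_one.le)))).trans_eq (by ring)
  simp only [GT.ev, al_eq]
  ring

theorem sh2 (hj : j ≤ M.length) {τ : GT (Sh.two j)} (hτ : τ.Mem _ (bL n β M).length) {τ' : GT τ.sh}
    (hτ' : τ'.Mem _ (bL n β M).length) : Fintype.card τ'.sh.Lf ≤ 6 ∧ τ'.sh.shr
      (τ'.e (τ.e (Sh.twoL j))) (τ'.e (τ.e (Sh.twoR j))) (bL n β M).length = j := by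
  have h1 := hτ.card
  have h2 := hτ'.card
  rw [card_two] at h1
  exact ⟨by omega, by rw [hτ'.shr_e, hτ.shr_e, shr_two, len, min_eq_left hj]⟩

theorem Eab (hj : j < M.length) :
    |opW n β M q [true, false] (Sh.two j) (pr2 j fun _ _ => 1) (pr2 j (oE q j))| ≤
      4500 ^ 2 * (4 * T ^ 2) * (I (bL n β M) j (fun y => gz n β M q σ j y * u y) *
        I (bL n β M) j (fun y => u y ^ 2) +
        I (bL n β M) j fun y => gz n β M q σ j y * u y * u y ^ 2) := by
  rw [opW2]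
  refine W2p H.mono (len (n := n) (β := β) ▸ hj.le) (by positivity)
    (fun y => mul_nonneg (H.gz_mem hj.le y).1 (H.u0 y)) (fun _ => sq_nonneg _)
    fun τ hτ τ' hτ' => ?_
  have h1 := H.sh2 hj.le hτ hτ'
  refine (hold wt_one90 ((H.qe hτ).e wt_one90 hτ') (H.qe hτ') (H.qe hτ') (Q4.one wt_one90)
    (H.ht2 (H.ht τ.j).1 (H.ht τ'.j).2) (fun x => ?_) (H.site1 hj.le (h1.1.trans (by norm_num)) h1.2
      ((hτ'.shr_e _ _ _).trans hτ.shr) fun x => mul_one _)).trans_eq (by ring)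
  simp only [GT.ev, al_eq, be_eq, pr2]
  ring

theorem Eba (hj : j < M.length) :
    |opW n β M q [false, true] (Sh.two j) (pr2 j fun _ _ => 1) (pr2 j (oE q j))| ≤
      4500 ^ 2 * (4 * T ^ 2) * (I (bL n β M) j (fun y => u y ^ 2) *
        I (bL n β M) j (fun y => gz n β M q σ j y * u y) +
        I (bL n β M) j fun y => u y ^ 2 * (gz n β M q σ j y * u y)) := by
  rw [opW2]
  refine W2p H.mono (len (n := n) (β := β) ▸ hj.le) (by positivity) (fun _ => sq_nonneg _)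
    (fun y => mul_nonneg (H.gz_mem hj.le y).1 (H.u0 y)) fun τ hτ τ' hτ' => ?_
  have h1 := H.sh2 hj.le hτ hτ'
  refine (hold wt_one90 ((H.qe hτ).e wt_one90 hτ') ((H.qe hτ).e wt_one90 hτ') (H.qe hτ')
    (Q4.one wt_one90) (H.ht2 (H.ht τ.j).2 (H.ht τ'.j).1) (fun x => ?_)
    (H.site1 hj.le (h1.1.trans (by norm_num)) h1.2 hτ'.shr fun x =>
      congrArg (· * _) (mul_one _))).trans_eq (by ring)
  simp only [GT.ev, al_eq, be_eq, pr2]
  ring

theorem Eaaa (hj : j < M.length) :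
    |opW n β M q [true, true, true] (Sh.two j) (pr2 j fun _ _ => 1) (pr2 j (oE q j))| ≤
      4500 ^ 3 * (16 * T ^ 3) * (3 * I (bL n β M) j u ^ 3 +
        9 * (I (bL n β M) j u * I (bL n β M) j fun y => u y ^ 2) +
        3 * I (bL n β M) j fun y => gz n β M q σ j y * u y ^ 3) := by
  have hj' : j ≤ (bL n β M).length := len (n := n) (β := β) ▸ hj.le
  have T0 := H.T0
  have c0 : 0 ≤ 16 * T ^ 3 := by positivity
  have g := H.gz_mem hj.le
  have u3 : ∀ y y' y'', 0 ≤ u y * u y' * u y'' := fun y y' y'' =>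
    mul_nonneg (mul_nonneg (H.u0 _) (H.u0 _)) (H.u0 _)
  set D : ℕ → ℕ → ℕ → ℝ := fun y y' y'' => 16 * T ^ 3 * (u y * u y' * u y'' *
    if y' = y ∧ y'' = y then gz n β M q σ j y else 1) with hD
  have D0 : ∀ y y' y'', 0 ≤ D y y' y'' := fun y y' y'' => mul_nonneg c0 (mul_nonneg (u3 _ _ _)
    (by split_ifs; exacts [(g y).1, zero_le_one]))
  have D3 : ∀ y y' y'', D y y' y'' ≤ 16 * T ^ 3 * (3 * (u y * u y' * u y'')) := fun y y' y'' =>
    mul_le_mul_of_nonneg_left ((mul_le_mul_of_nonneg_left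
      (by split_ifs; exacts [(g y).2, by norm_num]) (u3 _ _ _)).trans_eq (mul_comm _ _)) c0
  rw [opW3]
  refine (W3 H.mono hj' D0 (E := fun y => 16 * T ^ 3 * u y ^ 3)
    (fun y => mul_nonneg c0 (pow_nonneg (H.u0 y) 3)) fun τ hτ τ' hτ' τ'' hτ'' => ?_).trans ?_
  · have key : ∀ z, |TE (fun _ => 1) τ''.sh (opS n β M q) 0 (τ''.ev (oZs q true)
        (τ'.ev (oZs q true) (τ.ev (oZs q true) (pr2 j (oE q j)))))| ≤ 16 * z → _ ≤
          16 * T ^ 3 * (u τ.j * u τ'.j * u τ''.j * z) := fun z hz =>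
      (hold wt_one90 (((H.qe hτ).e wt_one90 hτ').e wt_one90 hτ'') ((H.qe hτ').e wt_one90 hτ'')
        (H.qe hτ'') (Q4.one wt_one90) (k' := T ^ 2 * T)
        (k := oTau n β M τ.j / 2 * (oTau n β M τ'.j / 2) * (oTau n β M τ''.j / 2))
        (F := τ''.ev (oUb n β M q true) (τ'.ev (oUb n β M q true) (τ.ev (oUb n β M q true)
          (pr2 j fun _ _ => 1))))
        ((abs_mul _ _).trans_le (mul_le_mul (H.ht2 (H.ht τ.j).1 (H.ht τ'.j).1) (H.ht τ''.j).1
          (abs_nonneg _) (sq_nonneg _))) (fun x => by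
            simp only [GT.ev, al_eq, pr2]
            ring) hz).trans_eq (by ring)
    have k1 := key 1 (H.abs_site fun x =>
      (H.ev2 hτ'' (H.ev2 hτ' (H.ev2 hτ (H.eta2 hj.le))) x).trans_eq (by norm_num))
    have e0 : 0 ≤ if τ.j < j ∧ 3 ≤ cl (bL n β M).length τ.j τ''.sh then 16 * T ^ 3 * u τ.j ^ 3
        else 0 := by split_ifs; exacts [mul_nonneg c0 (pow_nonneg (H.u0 _) 3), le_rfl]
    by_cases h1 : τ'.j = τ.j ∧ τ''.j = τ.j
    · by_cases h2 : τ.j < j
      · by_cases h3 : 3 ≤ cl (bL n β M).length τ.j τ''.sh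
        · rw [if_pos ⟨h2, h3⟩]
          refine le_add_of_nonneg_of_le (D0 _ _ _) (k1.trans_eq ?_)
          rw [h1.1, h1.2]
          ring
        · refine le_add_of_le_of_nonneg ?_ e0
          simp only [hD, if_pos h1]
          have h4 := H.sh2 hj.le hτ hτ'
          refine key _ (H.site3 hj.le (hτ''.card.trans (by omega)) h2 ((hτ''.shr_e _ _ _).trans h4.2)
            ((hτ''.shr_e _ _ _).trans ((hτ'.shr_e _ _ _).trans hτ.shr))
            ((hτ''.shr_e _ _ _).trans (hτ'.shr.trans h1.1)) (hτ''.shr.trans h1.2) h3 fun x => ?_)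
          simp only [GT.ev, oZs, pr2, h1.1, h1.2]
          ring
      · refine le_add_of_le_of_nonneg ?_ e0
        simpa only [hD, if_pos h1, gz, if_neg h2] using k1
    · refine le_add_of_le_of_nonneg ?_ e0
      simpa only [hD, if_neg h1] using k1
  · rw [mul_assoc]
    refine mul_le_mul_of_nonneg_left ?_ (by norm_num)
    have a1 : ∀ y y', I (bL n β M) j (D y y') ≤
        16 * T ^ 3 * 3 * (u y * (u y' * I (bL n β M) j u)) := fun y y' =>
      (I_mono H.mono hj' fun y'' _ => D3 y y' y'').trans_eq (by simp only [I_mul]; ring)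
    have a2 : ∀ y, I (bL n β M) j (T3 (bL n β M) j D y) + T3 (bL n β M) j D y y ≤
        16 * T ^ 3 * (3 * I (bL n β M) j u ^ 2 + 3 * I (bL n β M) j fun y => u y ^ 2) * u y +
        (16 * T ^ 3 * 6 * I (bL n β M) j u * u y ^ 2 +
          16 * T ^ 3 * 2 * (gz n β M q σ j y * u y ^ 3)) := fun y => by
      have b1 := I_mono H.mono hj' (f := T3 (bL n β M) j D y) (g := fun y' =>
        16 * T ^ 3 * 3 * (u y * I (bL n β M) j u + u y ^ 2) * u y' +
          16 * T ^ 3 * 3 * u y * u y' ^ 2) fun y' _ => by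
          rw [T3]
          linarith [a1 y y', D3 y y' y, D3 y y' y']
      rw [I_add, I_mul, I_mul] at b1
      have b2 : D y y y = 16 * T ^ 3 * (gz n β M q σ j y * u y ^ 3) := by
        simp only [hD, and_self, if_true]
        ring
      rw [T3, b2]
      linarith [a1 y y]
    have a3 := (I_mono H.mono hj' fun y _ => a2 y).trans_eq
      (by rw [I_add, I_add, I_mul, I_mul, I_mul])
    have a4 : ∑ y ∈ Finset.range ((bL n β M).length + 1), dm (bL n β M) 0 y *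
        (if y < j then ex (bL n β M) y * (16 * T ^ 3 * u y ^ 3) else 0) ≤
        16 * T ^ 3 * I (bL n β M) j fun y => gz n β M q σ j y * u y ^ 3 := by
      rw [← I_mul, I]
      refine le_add_of_le_of_nonneg (Finset.sum_le_sum fun y _ =>
        mul_le_mul_of_nonneg_left ?_ (dm_nonneg H.mono y))
        (mul_nonneg c0 (mul_nonneg (g j).1 (pow_nonneg (H.u0 j) 3)))
      split_ifs with h
      · rw [mul_left_comm, gz, if_pos h]
        refine mul_le_mul_of_nonneg_left (mul_le_mul_of_nonneg_right ?_ (pow_nonneg (H.u0 y) 3)) c0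
        linarith [(H.ok.mem (h.trans hj).le).1, le_min zero_le_one (Ker15.PB_nonneg 6 (H.s0 y))]
      · exact mul_nonneg c0 (mul_nonneg (g y).1 (pow_nonneg (H.u0 y) 3))
    linarith

/-- words of degree at least four -/
theorem w4 (hj : j ≤ M.length) (m : ℕ) (l : List (Bool × ℕ)) (hp : m + (l.map Prod.snd).sum = 3 + 1)
    (hl : ∀ r ∈ l, r.2 = 1 ∨ r = (false, 2)) {U : Cube n → Cube n → ℝ} {Z : Bool → Bool → ℝ}
    (hU : ∀ x x', |U x x'| ≤ |Uc n β M q j x x'| ^ m) (hZ : ∀ a b, |Z a b| ≤ 2) :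
    |opW n β M q (l.map Prod.fst) (Sh.two j) (pr2 j U) (pr2 j Z)| ≤
      cOp T l.length 3 2 * 2 * (2 * I (bL n β M) j fun y => u y ^ 4) := by
  have := H.wd_le ⟨le_rfl, zero_le_one⟩ (m := m) (p := 3)
    (l := l.map fun r => (oLt n β M q r.1, r.2)) (by rwa [List.map_map]) (fun r hr y hy x x' => by
      obtain ⟨r, hr', rfl⟩ := List.mem_map.1 hr
      rcases hl r hr' with e | rfl
      · exact (H.lt_le r.1 hy x x').1.trans_eq (by rw [e])
      · exact (H.lt_le false hy x x').2) hj (Q := fun x x' => U x.1 x'.1 * Z x.2 x'.2) zero_le_two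
    (fun x x' => by
      rw [abs_mul, mul_comm]
      exact mul_le_mul (hZ _ _) (hU _ _) (abs_nonneg _) zero_le_two) fun y hy => H.a4 hy
  rw [List.map_map, List.length_map] at this
  rw [← WdO_op_zero H.hn H.ok, List.map_map]
  exact this

theorem main (hj : j < M.length) (h : oTau n β M j ≠ 0) {R : ℝ} (R0 : 0 ≤ R)
    (r1 : I (bL n β M) j u ^ 3 ≤ R) (r2 : I (bL n β M) j u * I (bL n β M) j (fun y => u y ^ 2) ≤ R)
    (r3 : I (bL n β M) j (fun y => gz n β M q σ j y * u y ^ 3) ≤ R)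
    (r4 : I (bL n β M) j (fun y => u y ^ 4) ≤ R) :
    |E38.rj n β M q j +
      opW n β M q [true, true] (Sh.two j) (pr2 j fun _ _ => 1) (pr2 j (oE q j)) / 2| ≤ c2 T * R := by
  have hj' : j ≤ (bL n β M).length := len (n := n) (β := β) ▸ hj.le
  have T0 := H.T0
  have g := H.gz_mem hj.le
  have k1 : ∀ x x' : Cube n, |(1 : ℝ)| ≤ |Uc n β M q j x x'| ^ 0 := fun _ _ => by simp
  have k2 : ∀ x x', |oU q j x x'| ≤ |Uc n β M q j x x'| ^ 1 := fun _ _ => by simp [Uc_eq h]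
  have k3 : ∀ _ _ : Bool, |(1 : ℝ)| ≤ 2 := fun _ _ => by simp
  have k4 := abs_oE_le H.ok hj.le
  have b4 : ∀ k, cOp T k 3 2 * 2 * (2 * I (bL n β M) j fun y => u y ^ 4) ≤ 4 * cOp T k 3 2 * R :=
    fun k => by nlinarith [mul_le_mul_of_nonneg_left r4 (cOp_nonneg T0 k 3 2)]
  have t1 := H.tay 0 3 hj.le k1 k4 fun y hy => H.a4 hy
  have t2 := H.tay 1 2 hj.le k2 k3 fun y hy => H.a4 hy
  have w1 := (H.w4 hj.le 0 [(false, 2), (false, 2)] rfl (by simp) k1 k4).trans (b4 _)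
  have w2 := (H.w4 hj.le 0 [(true, 1), (true, 1), (false, 2)] rfl (by simp) k1 k4).trans (b4 _)
  have w3 := (H.w4 hj.le 0 [(true, 1), (false, 2), (true, 1)] rfl (by simp) k1 k4).trans (b4 _)
  have w5 := (H.w4 hj.le 0 [(true, 1), (false, 1), (false, 2)] rfl (by simp) k1 k4).trans (b4 _)
  have w6 := (H.w4 hj.le 0 [(false, 2), (true, 1), (true, 1)] rfl (by simp) k1 k4).trans (b4 _)
  have w7 := (H.w4 hj.le 0 [(false, 2), (true, 1), (false, 1)] rfl (by simp) k1 k4).trans (b4 _)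
  have w8 := (H.w4 hj.le 0 [(false, 2), (false, 1), (true, 1)] rfl (by simp) k1 k4).trans (b4 _)
  have w9 := (H.w4 hj.le 0 [(false, 2), (false, 1), (false, 1)] rfl (by simp) k1 k4).trans (b4 _)
  have v1 := (H.w4 hj.le 1 [(true, 1), (false, 2)] rfl (by simp) k2 k3).trans (b4 _)
  have v2 := (H.w4 hj.le 1 [(false, 2), (true, 1)] rfl (by simp) k2 k3).trans (b4 _)
  have v3 := (H.w4 hj.le 1 [(false, 2), (false, 1)] rfl (by simp) k2 k3).trans (b4 _)
  have i0 := I_nonneg (j := j) H.mono H.u0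
  have i2 := I_nonneg (j := j) H.mono (f := fun y => u y ^ 2) fun _ => sq_nonneg _
  have i1 : u j ≤ I (bL n β M) j u := le_add_of_nonneg_left (Tay38.N0_nonneg H.mono H.u0)
  have i3 : u j * I (bL n β M) j (fun y => u y ^ 2) ≤ R :=
    (mul_le_mul_of_nonneg_right i1 i2).trans r2
  have i4 : I (bL n β M) j (fun y => gz n β M q σ j y * u y) * I (bL n β M) j (fun y => u y ^ 2) ≤
      3 * R := by
    have := (I_mono H.mono hj' (f := fun y => gz n β M q σ j y * u y) fun y _ =>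
      mul_le_mul_of_nonneg_right (g y).2 (H.u0 y)).trans_eq (I_mul 3 u)
    linarith [mul_le_mul_of_nonneg_right this i2]
  have c0 : 0 ≤ c1 T := c1_nonneg T0
  have x1 := (H.Ub hj h).trans (mul_le_mul_of_nonneg_left i3 (by positivity))
  have x2 := (H.Ua hj h).trans (mul_le_mul_of_nonneg_left (c := 6 * R)
    (by nlinarith [mul_nonneg (H.u0 j) (sq_nonneg (u j))]) (by positivity))
  have x3 : |opW n β M q [true, true] (Sh.two j) (pr2 j (oU q j)) (pr2 j fun _ _ => 1)| ≤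
      4500 ^ 2 * (4 * T ^ 2) * (2 * R) := by
    refine (H.Uaa hj h).trans ?_
    simp only [← sq]
    rw [← mul_assoc, mul_assoc (_ * _)]
    refine mul_le_mul_of_nonneg_left ?_ (by positivity)
    nlinarith [mul_le_mul_of_nonneg_right i1 (sq_nonneg (I (bL n β M) j u))]
  have x4 := (H.Eab hj).trans (mul_le_mul_of_nonneg_left (c := 4 * R) (by
    rw [show (fun y => gz n β M q σ j y * u y * u y ^ 2) = fun y => gz n β M q σ j y * u y ^ 3 from
      funext fun y => by ring]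
    linarith) (by positivity))
  have x5 := (H.Eba hj).trans (mul_le_mul_of_nonneg_left (c := 4 * R) (by
    rw [show (fun y => u y ^ 2 * (gz n β M q σ j y * u y)) = fun y => gz n β M q σ j y * u y ^ 3 from
      funext fun y => by ring]
    linarith) (by positivity))
  have x6 := (H.Eaaa hj).trans (mul_le_mul_of_nonneg_left (c := 15 * R) (by linarith)
    (by positivity))
  have s1 := b4 4
  have s2 := b4 3
  rw [H.sym] at t1
  simp only [Finset.sum_range_succ, Finset.range_zero, Finset.sum_empty, H.P0E, H.P0U hj h,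
    H.P1E hj, P1, P2, P3, zero_add, Nat.factorial, Nat.reduceAdd] at t1 t2
  simp only [List.map_cons, List.map_nil, List.length_cons, List.length_nil, zero_add,
    Nat.reduceAdd] at w1 w2 w3 w5 w6 w7 w8 w9 v1 v2 v3
  push_cast at t1 t2
  have n2 := mul_nonneg (cOp_nonneg T0 2 3 2) R0
  have n3 := mul_nonneg (cOp_nonneg T0 3 3 2) R0
  have n4 := mul_nonneg (cOp_nonneg T0 4 3 2) R0
  have n5 := mul_nonneg (sq_nonneg T) R0
  have n6 := mul_nonneg (pow_nonneg T0 3) R0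
  rw [abs_le] at t1 t2 w1 w2 w3 w5 w6 w7 w8 w9 v1 v2 v3 x1 x2 x3 x4 x5 x6 ⊢
  rw [c2]
  constructor
  · linarith [t1.1, t1.2, t2.1, t2.2, w1.2, w2.2, w3.2, w5.2, w6.2, w7.2, w8.2, w9.2, v1.1, v2.1, v3.1,
      x1.1, x2.1, x3.1, x4.2, x5.2, x6.2]
  · linarith [t1.1, t1.2, t2.1, t2.2, w1.1, w2.1, w3.1, w5.1, w6.1, w7.1, w8.1, w9.1, v1.2, v2.2, v3.2,
      x1.2, x2.2, x3.2, x4.1, x5.1, x6.1]

end Hy

theorem young {a b N2 N3 N4 : ℝ} (ha : 0 ≤ a) (h2 : a ≤ 2) (hb : 0 ≤ b) (n2 : 0 ≤ N2) (n3 : 0 ≤ N3)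
    (n4 : 0 ≤ N4) {R : ℝ} (hR : a ^ 3 + N3 + (a + b) * (N2 + b ^ 2) + N4 ≤ R) :
    (b + a) ^ 3 ≤ 4 * R ∧ (b + a) * (N2 + a ^ 2) ≤ 4 * R ∧ N3 + a ^ 3 ≤ 4 * R ∧
      N4 + a ^ 4 ≤ 4 * R := by
  have p1 := mul_nonneg ha n2
  have p2 := mul_nonneg hb n2
  have p3 := pow_nonneg ha 3
  have p4 := pow_nonneg hb 3
  have p5 := mul_nonneg ha (sq_nonneg b)
  have p6 := mul_nonneg (add_nonneg ha hb) (sq_nonneg (a - b))
  have p7 := mul_le_mul_of_nonneg_right h2 p3
  refine ⟨?_, ?_, ?_, ?_⟩ <;> nlinarith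

/-- **leaf E-a** -/
theorem eaS (p : Bool) : E91.EaS p := fun tb => by
  refine ⟨c1 (2 * |tb|) + 12 * c2 (2 * |tb|), add_nonneg (c1_nonneg (by positivity))
    (mul_nonneg (by norm_num) (c2_nonneg (by positivity))),
    fun n β M q l0 un sg ms hn ok hl D hD O j hj ht _ => ?_⟩
  subst hD
  have c1' := c1_nonneg (T := 2 * |tb|) (by positivity)
  have c2' := c2_nonneg (T := 2 * |tb|) (by positivity)
  have hK := Br55.opD_K (β := β) (M := M) (q := q) (l0 := l0) un sg ms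
  have ne : ∀ {y}, oTau n β M y ≠ 0 → oTau n β M y / 2 ≠ 0 := fun h => div_ne_zero h two_ne_zero
  have H : Hy n β M q un sg (2 * |tb|) :=
    ⟨hn, ok, O.mono, by linarith [le_abs_self tb, (abs_le.1 (O.tb M.length)).2,
        show (E91.opD n β M q l0 un sg ms).t M.length = oTau n β M M.length / 2 from rfl],
      fun y => (O.un0 y).1, fun y => (O.un0 y).2,
      fun y hy h => Br55.opD_U0 (β := β) (M := M) hl un sg ms ▸ O.mom y (hK ▸ hy) (ne h),
      fun y hy h => Br55.opD_U0 (β := β) (M := M) hl un sg ms ▸ O.cen y (hK ▸ hy) (ne h),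
      hK ▸ O.top, O.r1, O.sg0, O.sgt⟩
  have h : oTau n β M j ≠ 0 := fun e => ht (div_eq_zero_iff.2 (.inl e))
  rw [hK] at hj
  set D := E91.opD n β M q l0 un sg ms with hD
  have N0 : ∀ k, 0 ≤ D.N k := fun k =>
    Tay38.N0_nonneg H.mono fun y => pow_nonneg (H.u0 y) k
  have e1 : I (bL n β M) j un = D.N 1 + un j := by
    simp only [E91.Dat.N, pow_one]
    rfl
  have e2 : ∀ k, I (bL n β M) j (fun y => un y ^ k) = D.N k + un j ^ k := fun _ => rfl
  have e3 : I (bL n β M) j (fun y => gz n β M q sg j y * un y ^ 3) = D.N3p j + un j ^ 3 := by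
    rw [I, show gz n β M q sg j j = 1 from if_neg (lt_irrefl j), one_mul]
    rfl
  have g := H.gz_mem hj.le
  have P0 : 0 ≤ D.N3p j := Tay38.N0_nonneg H.mono fun y => mul_nonneg (g y).1 (pow_nonneg (H.u0 y) 3)
  have P3 : D.N3p j ≤ 3 * D.N 3 := by
    rw [E91.Dat.N3p, E91.Dat.N, E91.Dat.I, E91.Dat.I, Finset.mul_sum]
    refine Finset.sum_le_sum fun y _ => ?_
    rw [mul_left_comm 3]
    exact mul_le_mul_of_nonneg_left (mul_le_mul_of_nonneg_right (g y).2 (pow_nonneg (H.u0 y) 3))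
      (dm_nonneg H.mono y)
  have u0 := H.u0 j
  refine ⟨(H.e1c hj h).trans ?_, ?_⟩
  · rw [e2]
    refine mul_le_mul (le_add_of_nonneg_right (by positivity)) ?_
      (add_nonneg (N0 2) (sq_nonneg _)) (by positivity)
    change _ ≤ (un j + _) ^ 2 + _
    nlinarith [N0 1, mul_nonneg u0 (N0 1)]
  · have C0 : ∀ x, 0 ≤ x → un j ^ 3 + x + (un j + D.N 1) * (D.N 2 + D.N 1 ^ 2) + D.N 4 ≤
        D.crude x j ∧ 0 ≤ un j ^ 3 + (un j + D.N 1) * (D.N 2 + D.N 1 ^ 2) + D.N 4 := fun x _ =>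
      ⟨le_add_of_nonneg_right O.ms0, by have := N0 1; have := N0 2; have := N0 4; positivity⟩
    have hR : un j ^ 3 + D.N3p j + (un j + D.N 1) * (D.N 2 + D.N 1 ^ 2) + D.N 4 ≤
        3 * D.crude (if p then D.N3p j else D.N 3) j := by
      cases p
      · have := C0 _ (N0 3)
        simp only [Bool.false_eq_true, if_false]
        linarith [this.1, this.2]
      · have := C0 _ P0
        simp only [if_true]
        linarith [this.1, this.2]
    obtain ⟨y1, y2, y3, y4⟩ := young u0 (H.u2 j) (N0 1) (N0 2) P0 (N0 4) hR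
    have R0 : 0 ≤ D.crude (if p then D.N3p j else D.N 3) j := by
      linarith [pow_nonneg u0 3]
    rw [← Br55.opW_W2 hn ok hl un sg ms hj.le]
    refine (H.main hj h (by positivity) (e1 ▸ y1) (e1 ▸ e2 2 ▸ y2) (e3 ▸ y3) (e2 4 ▸ y4)).trans ?_
    nlinarith [mul_nonneg c1' R0]

end Crest.Agent.T156.Cas.Ea38

end
end

-- ▼ part T156/ClE1_61
section

/-!
# Row 156 (helper61): the first cavity equation (E1) on the abstract models
-/

set_option autoImplicit false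
set_option linter.unusedSectionVars false

noncomputable section

namespace Crest.Agent.T156.Alt.E61

open MeasureTheory Real Set Filter Topology
open Crest.Agent.T157.E Crest.Agent.T157.Casc Crest.Agent.T157.SL
open Crest.Agent.T157.G1 (ov)
open Crest.Agent.T156.Cas Crest.Agent.T156.Cas.Sy41 Crest.Agent.T156.Cas.Q33
open Crest.Agent.T156.Alt.Md67 Crest.Agent.T156.Alt.Mp9
open Crest.ProbabilityR.SpinGlassDynamics (spin)

/-- the majorant in cascade indices -/
def ux (M : Md) (u : ℕ → ℝ) : ℕ → ℝ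
  | 0 => 0
  | k + 1 => if k < M.N then u k else 2

/-- the data of (E1): reference `rb`, majorant `u`, mesh `ms` -/
def eD (M : Md) (m : ℕ) (a : ℝ) (u : ℕ → ℝ) (ms : ℝ) : E91.Dat (Cube m) :=
  E91.opD m 1 (M.Mx a) (qx M (M.rb m a)) (sl m) (ux M u)
    (fun y => Ker15.tm (opS m 1 (M.Mx a) (qx M (M.rb m a))) y + ms) ms

/-- `u k` majorises the `L⁴` norm of `R - rb k` at the split `k` -/
structure Mj (M : Md) (m : ℕ) (a : ℝ) (u : ℕ → ℝ) : Prop where
  u0 : ∀ k, 0 ≤ u k ∧ u k ≤ 2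
  mom : ∀ k < M.N, M.E2 m a (fun r => (r - M.rb m a k) ^ 4) k ≤ u k ^ 4

/-- `N_i = ∑ dz u^i` -/
def Nu (M : Md) (m : ℕ) (a : ℝ) (u : ℕ → ℝ) (i : ℕ) : ℝ :=
  ∑ k ∈ Finset.range M.N, M.dz m a k * u k ^ i

/-- parity size of the node `k` -/
def pb (M : Md) (m : ℕ) (a ms : ℝ) (k : ℕ) : ℝ :=
  min 1 (2600 * (sb M m a (k + 1) + ms)) + M.rb m a k + M.z k

/-- parity form of `N_3` seen from the node `j` -/
def N3 (M : Md) (m : ℕ) (a : ℝ) (u : ℕ → ℝ) (ms : ℝ) (j : ℕ) : ℝ :=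
  ∑ k ∈ Finset.range M.N, M.dz m a k * ((if k < j then pb M m a ms k else 1) * u k ^ 3)

/-- `Var (rh k)` -/
def r2 (M : Md) (m : ℕ) (a : ℝ) (k : ℕ) : ℝ :=
  node (fun _ => 1) (M.L m a) (k + 1) (fun z => (M.rh m a k z - M.rb m a k) ^ 2) 0

/-- `E (R - rb)² - Var (rh)` -/
def Vn (M : Md) (m : ℕ) (a : ℝ) (k : ℕ) : ℝ :=
  tc (fun _ => 1) (M.L m a) (sl m) 0 (k + 1) + 2 * vv (fun _ => 1) (M.L m a) (sl m) 0 (k + 1)

/-- `VV` -/
def VVn (M : Md) (m : ℕ) (a : ℝ) (j : ℕ) : ℝ :=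
  ∑ k ∈ Finset.range j, M.dz m a k * Eg33.vt (fun _ => 1) (M.L m a) (sl m) 0 (k + 1) (j + 1)

/-- the node error without the `Γ''` term -/
def en (M : Md) (m : ℕ) (a : ℝ) (u : ℕ → ℝ) (ms n3 G : ℝ) (k : ℕ) : ℝ :=
  15360 * ms * r2 M m a k + pb M m a ms k * Vn M m a k + G * (u k + Nu M m a u 1) + VVn M m a k +
    (u k ^ 3 + n3 + (u k + Nu M m a u 1) * (Nu M m a u 2 + Nu M m a u 1 ^ 2) + Nu M m a u 4 + ms)

variable {S : Sc} {M : Md} {m : ℕ} {a T ms : ℝ} {u : ℕ → ℝ}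

theorem ux_succ {k : ℕ} (hk : k < M.N) : ux M u (k + 1) = u k := if_pos hk

theorem eD_L : (eD M m a u ms).L = M.L m a := rfl
theorem eD_K : (eD M m a u ms).K = M.N + 1 := len_L
theorem eD_t (y : ℕ) : (eD M m a u ms).t y = oTau m 1 (M.Mx a) y / 2 := rfl
theorem eD_t0 : (eD M m a u ms).t 0 = 0 := by rw [eD_t, oTau_zero, zero_div]
theorem eD_q {k : ℕ} (hk : k < M.N) : (eD M m a u ms).q (k + 1) = M.rb m a k := qx_succ hk
theorem eD_un {k : ℕ} (hk : k < M.N) : (eD M m a u ms).un (k + 1) = u k := ux_succ hk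

theorem oTau_nn {x : ℝ} (h : M.Leg x) (y : ℕ) : 0 ≤ oTau m 1 (M.Mx a) y :=
  mul_nonneg (sq_nonneg _) (List.sum_nonneg fun p hp => by
    obtain ⟨c, hc, rfl⟩ := List.mem_map.1 hp
    exact (Mx_nn h c (List.mem_of_mem_take hc)).1)

theorem rk {x : ℝ} (h : M.Leg x) (hm : 0 < m) : List.Forall₂ (C.Rk1 spin)
    (opS m 1 (M.Mx a) (qx M (M.rb m a))) (opV m 1 (M.Mx a) (qx M (M.rb m a))) :=
  rk_opS ((rf_rb hm a).ook h)

theorem eD_U0 (hm : 0 < m) {k : ℕ} (hk : k < M.N) :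
    (eD M m a u ms).U0 (k + 1) = fun x x' => ov x x' - M.rb m a k := by
  funext x x'
  rw [E91.Dat.U0, eD_q hk, ← sl_cov hm]; rfl

/-- **admissible data** -/
theorem eD_ok (G : Lg M m a) (ht : Top M) (hu : Mj M m a u) (h0 : 0 < ms) {tb : ℝ}
    (hb : M.b ≤ tb) : (eD M m a u ms).Ok tb := by
  have hm := G.m0
  have r := rk (a := a) G.toLeg hm
  have O := (rf_rb (M := M) hm a).ook (a := a) G.toLeg
  have b0 : 0 ≤ M.b := d_nonneg G.toLeg _
  refine ⟨Link33.wt1, G.monoL, tilt_opS.symm, Ker15.r1_of r, fun y => ?_,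
    fun y => le_add_of_nonneg_right h0.le, fun y hy => ?_, fun y hy => O.mono y (by
      rw [len_Mx]; rwa [eD_K] at hy), fun x x' => ?_, fun y => ?_, fun y => ?_,
    fun y hy h => ?_, fun y hy h => ?_, ?_, h0.le⟩
  · have := (Ker15.r1_of r).tm_mono (Nat.zero_le y)
    have e : Ker15.tm (opS m 1 (M.Mx a) (qx M (M.rb m a))) 0 = 0 := by simp [Ker15.tm, cacc]
    show 0 < Ker15.tm _ y + ms
    linarith
  · rcases y with _ | k
    · exact ⟨le_rfl, zero_le_one⟩
    · rcases lt_or_ge k M.N with hk | hk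
      · rw [eD_q hk]; exact ⟨rb_nonneg hm k, rb_le_one hm k⟩
      · rw [show (eD M m a u ms).q (k + 1) = 1 from qx_top hk]; exact ⟨zero_le_one, le_rfl⟩
  · rw [show (eD M m a u ms).l0.cov x x' = ov x x' from sl_cov hm x x']; exact abs_ov_le x x'
  · have := oTau_nn (m := m) (a := a) G.toLeg y
    have := oTau_le (m := m) (a := a) G.toLeg y
    rw [eD_t, abs_of_nonneg (by linarith)]; linarith
  · rcases y with _ | k
    · exact ⟨le_rfl, zero_le_two⟩
    · show 0 ≤ ux M u (k + 1) ∧ ux M u (k + 1) ≤ 2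
      rw [ux]
      split_ifs
      exacts [hu.u0 k, ⟨zero_le_two, le_rfl⟩]
  · rcases y with _ | k
    · exact absurd eD_t0 h
    · rcases lt_or_ge k M.N with hk | hk
      · rw [eD_U0 hm hk, eD_un hk]; exact hu.mom k hk
      · rw [show (eD M m a u ms).un (k + 1) = 2 from if_neg (by omega)]
        refine (T157.Casc.pi2_mono Link33.wt1 _ _ (K' := fun _ _ => 2 ^ 4) (fun x x' => ?_) _).trans
          (pi2_const Link33.wt1 _ _ _ _).le
        rw [E91.Dat.U0, show (eD M m a u ms).q (k + 1) = 1 from qx_top hk,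
          show (eD M m a u ms).l0.cov x x' = ov x x' from sl_cov hm x x',
          ← Even.pow_abs (by decide)]
        have := abs_le.1 (abs_ov_le x x')
        exact pow_le_pow_left₀ (abs_nonneg _) (abs_le.2 ⟨by linarith, by linarith⟩) _
  · rcases y with _ | k
    · exact absurd eD_t0 h
    · rw [eD_K] at hy
      rw [eD_U0 hm (by omega)]
      have := E2_sub (M := M) (m := m) (a := a) id (fun _ => M.rb m a k) k
      rw [E2_const] at this
      exact this.trans (sub_self _)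
  · rw [eD_K]; exact dz_last G.toLeg ht

theorem I_eq (G : Lg M m a) (ht : Top M) {g : ℕ → ℝ} (h0 : g 0 = 0) :
    (eD M m a u ms).I g = ∑ k ∈ Finset.range M.N, M.dz m a k * g (k + 1) := by
  have := sum_top (m := m) (a := a) G.toLeg ht g
  rw [h0, mul_zero, zero_add, len_Mx, ← eD_K (m := m) (a := a) (u := u) (ms := ms)] at this
  exact this

theorem N_eq (G : Lg M m a) (ht : Top M) {i : ℕ} (hi : i ≠ 0) :
    (eD M m a u ms).N i = Nu M m a u i := by
  rw [E91.Dat.N, I_eq G ht (show (0 : ℝ) ^ i = 0 from zero_pow hi)]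
  exact Finset.sum_congr rfl fun k hk => by rw [eD_un (Finset.mem_range.1 hk)]

theorem tm_eq (G : Lg M m a) {k : ℕ} (hk : k < M.N) :
    Ker15.tm (eD M m a u ms).T (k + 1) = sb M m a (k + 1) := by
  refine (Ker15.tm_eq (rk G.toLeg G.m0) _).trans ((TT_Mx G.toLeg hk).trans ?_)
  simp only [sb, tp, kp]; ring

theorem min_PB {σ : ℝ} (h : 0 < σ) : min 1 (Ker15.PB 6 σ) ≤ min 1 (2600 * σ) := by
  refine le_min (min_le_left _ _) ?_
  rcases le_total σ 1 with h1 | h1
  · refine (min_le_right _ _).trans ?_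
    have a1 : √σ ≤ 1 := sqrt_le_iff.2 ⟨zero_le_one, by rwa [one_pow]⟩
    have a2 : exp (1 / 2 + √σ) ≤ exp (1 / 2) * exp 1 := by
      rw [← exp_add]; exact exp_le_exp.2 (by linarith)
    have a3 : exp (1 / 2) ≤ 1.65 := by
      refine abs_le_of_sq_le_sq' ?_ (by norm_num) |>.2
      rw [sq, ← exp_add, add_halves]
      linarith [exp_one_lt_d9]
    have a4 : exp (1 / 2) * exp 1 ≤ 1.65 * 2.72 :=
      mul_le_mul a3 (by linarith [exp_one_lt_d9]) (exp_pos _).le (by norm_num)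
    rw [Ker15.PB]
    refine mul_le_mul_of_nonneg_right ?_ h.le
    push_cast
    linarith
  · exact (min_le_left _ _).trans (by linarith)

theorem sb_nn (G : Lg M m a) (k : ℕ) : 0 ≤ sb M m a (k + 1) :=
  add_nonneg (mul_nonneg (mul_nonneg (kp_mem m).1 (d_nonneg G.toLeg k)) (rb_nonneg G.m0 k))
    (H_nonneg G.toLeg k)

theorem pz_le (G : Lg M m a) (h0 : 0 < ms) {k : ℕ} (hk : k < M.N) :
    (eD M m a u ms).pz (k + 1) ≤ pb M m a ms k := by
  have e : (eD M m a u ms).sg (k + 1) = sb M m a (k + 1) + ms :=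
    congrArg (· + ms) (tm_eq (u := u) (ms := ms) G hk)
  have := min_PB (add_pos_of_nonneg_of_pos (sb_nn G k) h0)
  rw [E91.Dat.pz, e, eD_q hk, eD_L, ex_succ G.toLeg, pb]
  linarith

theorem pb_nn (G : Lg M m a) (h0 : 0 < ms) (k : ℕ) : 0 ≤ pb M m a ms k :=
  add_nonneg (add_nonneg (le_min zero_le_one (by have := sb_nn G k; positivity))
    (rb_nonneg G.m0 k)) (G.z_nonneg k)

theorem pb_le (G : Lg M m a) (k : ℕ) : pb M m a ms k ≤ 3 := by
  have := min_le_left 1 (2600 * (sb M m a (k + 1) + ms))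
  have := rb_le_one (M := M) (a := a) G.m0 k
  have := G.z1 k
  rw [pb]; linarith

theorem gz_le (G : Lg M m a) (h0 : 0 < ms) (j : ℕ) {k : ℕ} (hk : k < M.N) :
    (eD M m a u ms).gz (j + 1) (k + 1) ≤ if k < j then pb M m a ms k else 1 := by
  rw [E91.Dat.gz]
  by_cases h : k < j
  · rw [if_pos h, if_pos (Nat.succ_lt_succ h)]; exact pz_le G h0 hk
  · rw [if_neg h, if_neg (by omega)]

theorem N3p_le (G : Lg M m a) (ht : Top M) (hu : Mj M m a u) (h0 : 0 < ms) (j : ℕ) :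
    (eD M m a u ms).N3p (j + 1) ≤ N3 M m a u ms j := by
  rw [E91.Dat.N3p, I_eq G ht (by rw [show (eD M m a u ms).un 0 = 0 from rfl]; simp)]
  refine Finset.sum_le_sum fun k hk => mul_le_mul_of_nonneg_left ?_ (G.dz_nonneg k)
  rw [eD_un (Finset.mem_range.1 hk)]
  exact mul_le_mul_of_nonneg_right (gz_le G h0 j (Finset.mem_range.1 hk)) (pow_nonneg (hu.u0 k).1 3)

theorem rt2_eq (hm : 0 < m) {k : ℕ} (hk : k < M.N) : (eD M m a u ms).rt2 (k + 1) = r2 M m a k := by
  rw [E91.Dat.rt2, eD_q hk, r2, rh_eq (sl_cov hm)]; rfl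

theorem V_eq (k : ℕ) : (eD M m a u ms).V (k + 1) = Vn M m a k := Eg33.V_eq' _ Link33.wt1 _

theorem r2_nn (k : ℕ) : 0 ≤ r2 M m a k := node_nonneg _ (fun _ => sq_nonneg _) _ _ _

theorem Vn_nn (k : ℕ) : 0 ≤ Vn M m a k :=
  add_nonneg (tc_nonneg _ _ _ _) (mul_nonneg zero_le_two (vv_nonneg Link33.wt1 _ _ _ _))

theorem VV_le (G : Lg M m a) (j : ℕ) : (eD M m a u ms).VV (j + 1) ≤ VVn M m a j := by
  rw [Eg33.VV_eq _ Link33.wt1, ← Finset.range_eq_Ico, Finset.sum_range_succ', Eg33.cw,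
    if_pos eD_t0, zero_mul, add_zero]
  exact Finset.sum_le_sum fun k _ => mul_le_mul_of_nonneg_right (Eg33.cw_le _ G.monoL _)
    (Eg33.vt_nonneg Link33.wt1 _ _ _ _ _)

theorem lg (A : At S M m a T) : Lg M m a := lg_cl A.cl (n_pos A.cl) A.mem

theorem sb_same (A : At S M m a T) {k : ℕ} (hk : k ≤ S.Jp) :
    sb M m a (k + 1) ∈ Icc 0 (min T (kp m * M.b + M.H M.N)) := by
  have G := lg A
  refine ⟨sb_nn G k, le_min (A.sb_mem hk).2 ?_⟩
  have h1 := mul_le_mul_of_nonneg_left (d_le_b G.toLeg (A.jp_le hk)) (kp_mem m).1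
  have h2 := mul_le_of_le_one_right (mul_nonneg (kp_mem m).1 (d_nonneg G.toLeg k))
    (rb_le_one (M := M) (a := a) G.m0 k)
  have h3 := G.Hm (A.jp_le hk)
  simp only [sb]; linarith

theorem same (A : At S M m a T) : Ker.Same (lb M S m a T) (opV m 1 (M.Mx a) (qx M (M.rb m a)))
    (min T (kp m * M.b + M.H M.N)) :=
  (A.same_op ((rf_rb A.m_pos a).ook A.cl.leg) fun _ hk => qx_succ (hk.trans_lt A.cl.i4)).2.2.2

theorem sig_eq (k : ℕ) :
    tp M m k * M.rb m a k + M.H k = sb M m a (k + 1) := by simp only [sb, tp, kp]; ring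

/-- the residual of `EDef_91` is the residual of `ClZb_9` -/
theorem res_eq (A : At S M m a T) {k : ℕ} (hk : k ≤ S.Jp) :
    (eD M m a u ms).res (k + 1) = res M S m a T k := by
  have G := lg A
  have k1 := hk.trans_lt A.cl.i4
  have e := pi2_sub One15.w1 (eD M m a u ms).T (k + 1) (fun e e' => spin e * spin e')
    (fun _ _ => (eD M m a u ms).q (k + 1)) 0
  rw [pi2_const One15.w1, eD_q k1] at e
  have g := Gam_Mx (m := m) (a := a) G.toLeg (rf_rb G.m0 a) k1
  rw [sig_eq, (same A).gam _ (sb_same A hk)] at g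
  rw [res, ← g, E91.Dat.res]
  rw [← eD_q (m := m) (a := a) (u := u) (ms := ms) k1] at e ⊢
  exact e

/-- the site number against `Γ''` of the mean profile -/
theorem kap_le (A : At S M m a T) {k : ℕ} (h1 : S.jl ≤ k) (hk : k ≤ S.Jp) :
    |(eD M m a u ms).kap (k + 1) - 4 * L0.Gd (lb M S m a T) (sb M m a (k + 1))| ≤
      15360 * M.dz m a k := by
  have G := lg A
  have k1 := hk.trans_lt A.cl.i4
  have e := Ef49.kap_op (n := m) (β := 1) ((rf_rb G.m0 a).ook (a := a) G.toLeg)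
    (adm_Mx G A.a_pos (rf_rb G.m0 a)) (sl m) (ux M u)
    (fun y => Ker15.tm (opS m 1 (M.Mx a) (qx M (M.rb m a))) y + ms) ms (Nat.succ_pos k)
    (by rw [len_Mx]; omega)
  rw [oTau_tp k1.le, qx_succ k1, fAcc_Mx G.toLeg k1.le, sig_eq, (same A).nn _ (sb_same A hk),
    (same A).aa _ (sb_same A hk)] at e
  erw [ex_succ G.toLeg] at e
  rw [← A.lvb_node h1 hk] at e
  exact e

theorem d_lo (h : Cl S M) (k : ℕ) : 1 / S.C ≤ M.d k := by
  have c : 1 / S.C ≤ 1 := (div_le_one (by linarith [h.C1])).2 h.C1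
  have := h.b0
  have := h.leg.dm (Nat.zero_le k)
  linarith

theorem t_ne (A : At S M m a T) {k : ℕ} (hk : k ≤ S.Jp) : (eD M m a u ms).t (k + 1) ≠ 0 := by
  have : 0 < M.d k := (one_div_pos.2 A.c_pos).trans_le (d_lo A.cl k)
  have m0 : (0 : ℝ) < m := Nat.cast_pos.2 A.m_pos
  rw [eD_t, oTau_tp (A.jp_le hk), tp]
  positivity

theorem eta0_le (A : At S M m a T) (h0 : 0 < ms) {k : ℕ} (h1 : S.jl ≤ k) (hk : k ≤ S.Jp)
    (hd : M.dz m a k ≤ ms) {n3 n3' : ℝ} (h3 : n3 ≤ n3') (G : ℝ) :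
    (eD M m a u ms).eta0 n3 G (k + 1) ≤ en M m a u ms n3' G k +
      4 * r2 M m a k * |L0.Gd (lb M S m a T) (sb M m a (k + 1))| := by
  have L := lg A
  have t := top_cl A.cl
  have k1 := hk.trans_lt A.cl.i4
  have a1 := kap_le (u := u) (ms := ms) A h1 hk
  have a2 : |(eD M m a u ms).kap (k + 1)| ≤
      15360 * ms + 4 * |L0.Gd (lb M S m a T) (sb M m a (k + 1))| := by
    have := abs_sub_abs_le_abs_sub ((eD M m a u ms).kap (k + 1))
      (4 * L0.Gd (lb M S m a T) (sb M m a (k + 1)))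
    rw [abs_mul, abs_of_pos (show (0 : ℝ) < 4 by norm_num)] at this
    linarith
  have a3 := mul_le_mul_of_nonneg_right a2 (r2_nn (M := M) (m := m) (a := a) k)
  have a4 := mul_le_mul_of_nonneg_right (pz_le (u := u) L h0 k1) (Vn_nn (M := M) (m := m) (a := a) k)
  have a5 := VV_le (u := u) (ms := ms) L k
  rw [E91.Dat.eta0, E91.Dat.crude, rt2_eq L.m0 k1, V_eq, eD_un k1, N_eq L t one_ne_zero,
    N_eq L t two_ne_zero, N_eq L t (by decide : 4 ≠ 0), en, show (eD M m a u ms).ms = ms from rfl]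
  linarith

theorem Nu_nn (G : Lg M m a) (hu : Mj M m a u) (i : ℕ) : 0 ≤ Nu M m a u i :=
  Finset.sum_nonneg fun k _ => mul_nonneg (G.dz_nonneg k) (pow_nonneg (hu.u0 k).1 i)

theorem rb_sub (A : At S M m a T) {i j : ℕ} (hij : i ≤ j) :
    M.rb m a j - M.rb m a i ≤ 2 * S.C * (sb M m a (j + 1) - sb M m a (i + 1)) := by
  have G := lg A
  have m1 : (1 : ℝ) ≤ m := Nat.one_le_cast.2 A.m_pos
  have k1 : 1 / 2 ≤ kp m := by rw [kp, div_le_div_iff₀ two_pos (by positivity)]; linarith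
  have c0 := A.c_pos
  have p : 1 / 2 * (1 / S.C) ≤ kp m * M.d i :=
    mul_le_mul k1 (d_lo A.cl i) (by positivity) (kp_mem m).1
  have q := mul_le_mul_of_nonneg_right (mul_le_mul_of_nonneg_left (G.dm hij) (kp_mem m).1)
    (rb_nonneg (M := M) (a := a) G.m0 j)
  have r := mul_le_mul_of_nonneg_right p (sub_nonneg.2 (Md67.rb_mono (M := M) (a := a) G.m0 hij))
  have := G.Hm hij
  rw [← div_le_iff₀' (by positivity), show (M.rb m a j - M.rb m a i) / (2 * S.C) =
    1 / 2 * (1 / S.C) * (M.rb m a j - M.rb m a i) by field_simp]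
  simp only [sb]; linarith


/-- `N 3` or its parity form -/
def n3 (p : Bool) (M : Md) (m : ℕ) (a : ℝ) (u : ℕ → ℝ) (ms : ℝ) (j : ℕ) : ℝ :=
  if p then N3 M m a u ms j else Nu M m a u 3

/-- a test node: in `[jl, Jp]`, small weight, weak input `G` -/
structure Tn (S : Sc) (M : Md) (m : ℕ) (a : ℝ) (u : ℕ → ℝ) (ms : ℝ) (k : ℕ) (G : ℝ) : Prop where
  lo : S.jl ≤ k
  hi : k ≤ S.Jp
  dz : M.dz m a k ≤ ms
  gm : (eD M m a u ms).Gm (k + 1) G




end Crest.Agent.T156.Alt.E61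

end
private theorem rz_079a6db559 : type_of% @_root_.Crest.Agent.T156.Alt.E61.ux.eq_1 := @_root_.Crest.Agent.T156.Alt.E61.ux.eq_1 -- L27
end

-- ▼ part T156/E2_91
section

/-!
# Row 156 (helper91): the first cavity equation without the tilt in the clock

The law of the grafts is invariant under merging the depths `i` and `i + 1` (`avc_mrg`).
-/

set_option autoImplicit false
set_option linter.unusedSectionVars false

noncomputable section

namespace Crest.Agent.T156.Cas.E91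

open MeasureTheory Real Set Filter Topology
open Crest.Agent.T157.E Crest.Agent.T157.Casc Crest.Agent.T157.SL
open Crest.Agent.T157.G1 (ov)
open Nu87 Site94

variable {Ω : Type} [Fintype Ω]

/-- the clock between two nodes, without the tilt -/
def Dat.clk2 (D : Dat Ω) (j j' : ℕ) : ℝ := D.N 2 * (Ker15.tm D.T j' - Ker15.tm D.T j +
  (D.q j' - D.q j)) + ∑ y ∈ Finset.Ioo j j', dm D.L 0 y * D.un y ^ 2

/-- the second moments below the node `j` -/
def Dat.low (D : Dat Ω) (j : ℕ) : ℝ := ∑ y ∈ Finset.range j, dm D.L 0 y * D.un y ^ 2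

/-- the source, second form -/
def EeS2 : Prop := ∀ tb : ℝ, ∃ C : ℝ, 0 ≤ C ∧ ∀ (Ω : Type) [Fintype Ω] (D : Dat Ω), D.Ok tb →
  ∀ c d e f : Fin 6, c ≠ d → e ≠ f → ∀ j < D.K, 0 ≤ D.VV j ∧
    |D.src c d e f j| ≤ C * (D.pz j * D.N 2 + D.low j) ∧
    ∀ j' < D.K, j < j' → dm D.L 0 j ≤ D.ms → dm D.L 0 j' ≤ D.ms → ∀ G, D.Gm j G →
      |D.src c d e f j' - D.src c d e f j| ≤ C * (D.clk2 j j' + D.VV j + D.ms + G * D.N 1)

/-- **(E1)**, second form -/
def E1S2 (p : Bool) : Prop := ∀ tb : ℝ, ∃ C : ℝ, 0 ≤ C ∧ ∀ (n : ℕ) (β : ℝ)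
  (M : List (ℝ × ℝ × ℝ)) (q : ℕ → ℝ) (l0 : Lv (Cube n)) (un sg : ℕ → ℝ) (ms : ℝ), 0 < n →
  OOk M q → (∀ x y, l0.cov x y = ov x y) → ∀ D : Dat (Cube n), D = opD n β M q l0 un sg ms →
  D.Ok tb → ∀ j < D.K, D.t j ≠ 0 → dm D.L 0 j ≤ D.ms → ∀ G, D.Gm j G →
    |D.res j| ≤ C * (D.eta0 (if p then D.N3p j else D.N 3) G j + (D.pz j * D.N 2 + D.low j)) ∧
    ∀ j' < D.K, j < j' → D.t j' ≠ 0 → dm D.L 0 j' ≤ D.ms → ∀ G', D.Gm j' G' →
      |D.res j' - D.res j| ≤ C * (D.eta0 (if p then D.N3p j else D.N 3) G j +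
        D.eta0 (if p then D.N3p j' else D.N 3) G' j' + D.clk2 j j')

/-! ### merging two depths -/

/-- the depth `i + 1` goes to `i` -/
def mg (i t : ℕ) : ℕ := if t = i + 1 then i else t

/-- the merged split matrix -/
def mrg {r : ℕ} (i : ℕ) (τ : SM r) : SM r := fun a b => mg i (τ a b)

theorem mg_min (i a b : ℕ) : mg i (min a b) = min (mg i a) (mg i b) := by
  unfold mg
  split_ifs <;> omega

theorem mg_mg (i a : ℕ) : mg i (mg i a) = mg i a := by
  unfold mg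
  split_ifs <;> omega

section merge

variable {r K i : ℕ} {L : List (Lv Ω)}

theorem rz_mrg {τ : SM (r + 1)} (h : Rz K τ) (hi : i + 1 < K) : Rz K (mrg i τ) := by
  refine rz_of_um ⟨fun a => ?_, fun a b => ?_, fun a b c => ?_⟩
  · rw [mrg, h.self]
    exact if_neg hi.ne'
  · rw [mrg, mrg, h.comm]
  · have := h.ultra a b c
    simp only [mrg, mg]
    split_ifs <;> omega

theorem mrg_gr (τ : SM r) (hi : i + 1 < K) (a : Fin r) (t : ℕ) :
    mrg i (gr K τ a t) = gr K (mrg i τ) a (mg i t) := by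
  funext b c
  refine Fin.cases ?_ (fun b => ?_) b <;> refine Fin.cases ?_ (fun c => ?_) c
  · exact if_neg hi.ne'
  · exact mg_min _ _ _
  · exact mg_min _ _ _
  · rfl

theorem mrg_mrg (τ : SM r) : mrg i (mrg i τ) = mrg i τ := by
  funext a b
  exact mg_mg _ _

theorem up1_mrg (hi : i + 1 < L.length) (ψ : SM (r + 2) → ℝ) (τ : SM (r + 1)) :
    up1 L (fun σ => ψ (mrg i σ)) (mrg i τ) = up1 L (fun σ => ψ (mrg i σ)) τ := by
  simp only [up1, Ws, mrg_gr _ hi, mrg_mrg]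
  congr 2
  refine Finset.sum_congr rfl fun m _ => congrArg _ (Finset.sum_congr rfl fun a _ => ?_)
  by_cases h : m = i
  · rw [h, show mg i (i + 1) = mg i i by simp [mg], sub_self, zero_div, zero_div]
  · rw [show cls (mrg i τ) a (m + 1) = cls τ a (m + 1) from congrArg Finset.card
      (Finset.filter_congr fun b _ => by simp only [mrg, mg]; split_ifs <;> omega)]

/-- **merge invariance** -/
theorem avc_mrg (hi : i + 1 < L.length) (σ : SM (r + 1)) : ∀ (k : ℕ) (ψ : SM (r + k + 1) → ℝ),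
    avc L (mrg i σ) k (fun τ => ψ (mrg i τ)) = avc L σ k fun τ => ψ (mrg i τ)
  | 0, ψ => congrArg ψ (mrg_mrg σ)
  | k + 1, ψ => by
      have e : up1 (r := r + k) L (fun τ => ψ (mrg i τ)) =
          fun τ => up1 (r := r + k) L (fun τ => ψ (mrg i τ)) (mrg i τ) :=
        funext fun τ => (up1_mrg hi ψ τ).symm
      exact (congrArg (avc L _ k) e).trans ((avc_mrg hi σ k _).trans (congrArg (avc L σ k) e).symm)

theorem mrg_tw (hi : i + 1 < K) : mrg i (tw K (i + 1)) = tw K i := by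
  rw [tw, mrg_gr _ hi, tw]
  congr 1
  · funext a b
    exact if_neg hi.ne'
  · exact if_pos rfl

end merge

variable {D : Dat Ω} {tb : ℝ} {c d e f : Fin 6} {τ τ' : SM 6} {i j j' y : ℕ}

theorem Sf_mrg (hD : D.Ok tb) (hτ : Rz D.K τ) (hi : i + 1 < D.K) (h45 : τ 4 5 = i ∨ τ 4 5 = i + 1)
    (h1 : τ c d ≠ i + 1) (h2 : τ e f ≠ i + 1) : |D.Sf c d e f τ - D.Sf c d e f (mrg i τ)| ≤
      576 * (Ker15.tm D.T (i + 1) - Ker15.tm D.T i) + 4 * (D.q (i + 1) - D.q i) := by
  have e0 : mrg i τ 4 5 = i := by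
    simp only [mrg, mg]
    split_ifs <;> omega
  have e1 : mrg i τ c d = τ c d := if_neg h1
  have e2 : mrg i τ e f = τ e f := if_neg h2
  have hr := rz_mrg hτ hi
  simp only [Dat.Sf, ed, e0, e1, e2]
  refine (abs_sub_le _ _ _).trans (add_le_add ((TM_move91 (i := i) hD hr hτ (by omega)
    (fun a b => ?_) fun x => abs_eta3 hD (hτ.le _ _) (hτ.le _ _) (hτ.le _ _) _ _ _ _ _ _).trans_eq
      (by ring)) ?_)
  · simp only [mrg, mg]
    split_ifs with h
    exacts [.inr ⟨rfl, h⟩, .inl rfl]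
  · rw [← TM_sub]
    refine abs_TM91 One15.w1 (Cav22.len_tilt hD.tilt ▸ hr) fun x => ?_
    have h3 := abs_eta2 hD (hτ.le c d) (hτ.le e f) (x c) (x d) (x e) (x f)
    have h4 := sub_nonneg.2 (hD.qm i (by omega))
    rw [mul_assoc, mul_assoc, ← sub_mul, abs_mul, Dat.eta, Dat.eta, sub_sub_sub_cancel_left,
      abs_sub_comm, mul_comm]
    refine mul_le_mul h3 ?_ (abs_nonneg _) (by norm_num)
    rcases h45 with h | h <;> rw [h]
    · rwa [sub_self, abs_zero]
    · exact (abs_of_nonneg h4).le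

theorem mrg_cases {K : ℕ} (hτ : Rz K τ) (hy : y < i) (hi : i + 1 < K) (h1 : τ c d = y)
    (h2 : τ e f = y) {a b : Fin 6} (ha : a = c ∨ a = d ∨ a = e ∨ a = f)
    (hb : b = c ∨ b = d ∨ b = e ∨ b = f) :
    (τ a b = i + 1 → ((τ c e = i + 1 ∨ τ c f = i + 1) ∧ i ≤ τ a c) ∨
      ((τ d e = i + 1 ∨ τ d f = i + 1) ∧ i ≤ τ a d)) ∧
    (τ a b = i → ¬((τ c e = i + 1 ∨ τ c f = i + 1) ∧ i ≤ τ a c) ∧
      ¬((τ d e = i + 1 ∨ τ d f = i + 1) ∧ i ≤ τ a d)) := by
  have s1 := hτ.self c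
  have s2 := hτ.self d
  have s3 := hτ.self e
  have s4 := hτ.self f
  have s5 := hτ.comm c e
  have s6 := hτ.comm c f
  have s7 := hτ.comm d e
  have s8 := hτ.comm d f
  have s9 := hτ.comm c d
  have s10 := hτ.comm e f
  have u1 := hτ.ultra c e d
  have u2 := hτ.ultra c f d
  have u3 := hτ.ultra e c f
  have u4 := hτ.ultra e d f
  rcases ha with h | h | h | h <;> rcases hb with h' | h' | h' | h' <;> rw [h, h'] <;> omega

theorem mrg_fin {p p' : Prop} [Decidable p] [Decidable p'] {x u u' : ℕ}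
    (f1 : x = i + 1 → (p ∧ i ≤ u) ∨ (p' ∧ i ≤ u')) (f2 : x = i → ¬(p ∧ i ≤ u) ∧ ¬(p' ∧ i ≤ u')) :
    (if p' ∧ (if p ∧ mg i x = i ∧ i ≤ u then i + 1 else mg i x) = i ∧
        (p ∧ mg i u' = i ∧ i ≤ u ∨ i ≤ u') then i + 1
      else if p ∧ mg i x = i ∧ i ≤ u then i + 1 else mg i x) = x := by
  unfold mg
  by_cases hp : p <;> by_cases hp' : p' <;> simp only [hp, hp', true_and, false_and, false_or,
    or_false, not_false_eq_true, and_true, if_false, imp_false] at f1 f2 ⊢ <;> split_ifs <;> omega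

theorem Bf_mrg (hE : EdS) (hw : Wt D.w) (hτ : Rz D.K τ) (hy : y < i) (hi : i + 1 < D.K)
    (h1 : τ c d = y) (h2 : τ e f = y) : |D.Bf c d e f τ - D.Bf c d e f (mrg i τ)| ≤
      2 * (D.t y ^ 2 * (D.lam3 y (i + 1) - D.lam3 y i)) := by
  have hi' : i < D.K := by omega
  have h0 := mul_nonneg (sq_nonneg (D.t y)) (sub_nonneg.2 (hE Ω D hw y i hy hi').1)
  have key : ∀ (p : Prop) [Decidable p] (o : Fin 6) (ρ : SM 6), Rz D.K ρ → ρ c d = y → ρ e f = y →
      Rz D.K (if p then lift i o ρ else ρ) ∧ (if p then lift i o ρ else ρ) c d = y ∧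
      (if p then lift i o ρ else ρ) e f = y ∧ |D.Bf c d e f (if p then lift i o ρ else ρ) -
        D.Bf c d e f ρ| ≤ D.t y ^ 2 * (D.lam3 y (i + 1) - D.lam3 y i) := fun p _ o ρ hρ a1 a2 => by
    split_ifs
    · exact ⟨rz_lift hρ hi' o, (if_neg (by omega)).trans a1, (if_neg (by omega)).trans a2,
        Bf_lift91 hE hw hρ hy hi' o a1 a2⟩
    · exact ⟨hρ, a1, a2, by rwa [sub_self, abs_zero]⟩
  obtain ⟨b1, b2, b3, b4⟩ := key (τ c e = i + 1 ∨ τ c f = i + 1) c _ (rz_mrg hτ hi)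
    ((if_neg (by omega)).trans h1) ((if_neg (by omega)).trans h2)
  obtain ⟨b5, -, -, b6⟩ := key (τ d e = i + 1 ∨ τ d f = i + 1) d _ b1 b2 b3
  rw [Bf_loc91 hw hτ b5 fun a b ha hb => ?_] at b6
  · linarith [abs_sub_le (D.Bf c d e f τ) (D.Bf c d e f
      (if τ c e = i + 1 ∨ τ c f = i + 1 then lift i c (mrg i τ) else mrg i τ))
      (D.Bf c d e f (mrg i τ))]
  obtain ⟨f1, f2⟩ := mrg_cases hτ hy hi h1 h2 ha hb
  have e1 : ∀ (p : Prop) [Decidable p] (o : Fin 6) (ρ : SM 6) (a b : Fin 6),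
      (if p then lift i o ρ else ρ) a b = if p ∧ ρ a b = i ∧ i ≤ ρ a o then i + 1 else ρ a b :=
    fun p _ o ρ a b => by
      by_cases h : p <;> simp [h, lift]
  have e2 : ∀ (p : Prop) [Decidable p] (x : ℕ),
      i ≤ (if p then i + 1 else x) ↔ p ∨ i ≤ x := fun p _ x => by
    by_cases h : p <;> simp [h]
  have e3 : ∀ x, i ≤ mg i x ↔ i ≤ x := fun x => by
    unfold mg
    split_ifs <;> omega
  simp only [e1, e2, mrg, e3]
  exact mrg_fin f1 f2

/-- the potential of the transport -/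
def poE2 (D : Dat Ω) (tb : ℝ) (j i : ℕ) : ℝ :=
  tb ^ 2 * D.N 2 * (4608 * Ker15.tm D.T i + 32 * D.q i) +
    128 * ∑ y ∈ Finset.range j, dm D.L 0 y * (D.t y ^ 2 * D.lam3 y i)

theorem step92 (hE : EdS) (hD : D.Ok tb) (hcd : c ≠ d) (hef : e ≠ f) (h1 : j ≤ i) (h2 : i < j')
    (h3 : j' < D.K) : |D.A (i + 1) (phE D c d e f j j') - D.A i (phE D c d e f j j')| ≤
      poE2 D tb j (i + 1) - poE2 D tb j i := by
  have hi : i < D.K := h2.trans h3
  have hi1 : i + 1 < D.K := by omega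
  have hv := sub_nonneg.2 (hD.r1.tm_mono (Nat.le_succ i))
  have hq := sub_nonneg.2 (hD.qm i hi)
  set v := 576 * (Ker15.tm D.T (i + 1) - Ker15.tm D.T i) + 4 * (D.q (i + 1) - D.q i) with hvd
  have hv0 : 0 ≤ v := by positivity
  have hl : ∀ y < j, 0 ≤ D.t y ^ 2 * (D.lam3 y (i + 1) - D.lam3 y i) := fun y hy =>
    mul_nonneg (sq_nonneg _) (sub_nonneg.2 (hE Ω D hD.wt y i (by omega) hi).1)
  have c4 := Br_le_N91 (p := fun y => y < j ∨ j' < y) hD.mono (a := tb ^ 2 * v) (by positivity)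
  have c5 : Wp52.Br D.L (fun y => if y ∈ Finset.range j then
      D.t y ^ 2 * (D.lam3 y (i + 1) - D.lam3 y i) else 0) =
      ∑ y ∈ Finset.range j, dm D.L 0 y * (D.t y ^ 2 * D.lam3 y (i + 1)) -
        ∑ y ∈ Finset.range j, dm D.L 0 y * (D.t y ^ 2 * D.lam3 y i) := by
    simp only [Wp52.Br, mul_ite, mul_zero, Finset.sum_ite_mem]
    rw [Finset.inter_eq_right.2 (Finset.range_subset_range.2 (by have : D.K = D.L.length := rfl; omega)),
      ← Finset.sum_sub_distrib]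
    exact Finset.sum_congr rfl fun _ _ => by ring
  have c2 := fun (i' : ℕ) (hi' : i' = i ∨ i' = i + 1) => A_le91 (i := i') hD.mono (by omega)
    (g := fun y => (if y < j ∨ j' < y then tb ^ 2 * v * D.un y ^ 2 else 0) +
      16 * if y ∈ Finset.range j then D.t y ^ 2 * (D.lam3 y (i + 1) - D.lam3 y i) else 0)
    (fun y => add_nonneg (by split_ifs <;> positivity) (mul_nonneg (by norm_num) (by
      split_ifs with h
      exacts [hl y (Finset.mem_range.1 h), le_rfl])))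
    (by rw [if_neg (by omega), if_neg (by rw [Finset.mem_range]; omega)]; simp) hcd
    (ψ := fun τ => phE D c d e f j j' τ - phE D c d e f j j' (mrg i τ)) fun τ hτ h45 => by
      have g0 : 0 ≤ (if τ c d ∈ Finset.range j then
          D.t (τ c d) ^ 2 * (D.lam3 (τ c d) (i + 1) - D.lam3 (τ c d) i) else 0) := by
        split_ifs with h
        exacts [hl _ (Finset.mem_range.1 h), le_rfl]
      by_cases k : τ c d = τ e f ∧ (τ c d < j ∨ (j' < τ c d ∧ τ c d ≤ τ c e))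
      · have k' : mrg i τ c d = mrg i τ e f ∧ (mrg i τ c d < j ∨
            (j' < mrg i τ c d ∧ mrg i τ c d ≤ mrg i τ c e)) := by
          simp only [mrg, mg]
          split_ifs <;> omega
        have b1 := (abs_BS91 hD hτ hcd hef k.1).1
        have b2 := Sf_mrg (c := c) (d := d) (e := e) (f := f) hD hτ hi1 (by omega) (by omega)
          (by omega)
        have b3 := abs_Sf91 (c := c) (d := d) (e := e) (f := f) hD (rz_mrg hτ hi1)
        have b4 : |D.Bf c d e f τ - D.Bf c d e f (mrg i τ)| ≤ 2 * (if τ c d ∈ Finset.range j then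
            D.t (τ c d) ^ 2 * (D.lam3 (τ c d) (i + 1) - D.lam3 (τ c d) i) else 0) := by
          split_ifs with h
          · exact Bf_mrg hE hD.wt hτ (by have := Finset.mem_range.1 h; omega) hi1 rfl k.1.symm
          · rw [Finset.mem_range] at h
            rw [Bf_loc91 hD.wt hτ (rz_mrg hτ hi1) fun a b ha hb => if_neg fun k2 => ?_, sub_self,
              abs_zero, mul_zero]
            have m : ∀ a, (a = c ∨ a = d ∨ a = e ∨ a = f) → j' < τ c a := fun a ha => by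
              have s1 := hτ.self c
              have s2 := hτ.ultra c e f
              rcases ha with h | h | h | h <;> rw [h] <;> omega
            have s3 := hτ.ultra a c b
            rw [hτ.comm a c] at s3
            have := m a ha
            have := m b hb
            omega
        simp only [phE, if_pos k, if_pos k', if_pos (show τ c d < j ∨ j' < τ c d by omega)]
        rw [show ∀ a b a' b' : ℝ, a * b - a' * b' = a * (b - b') + (a - a') * b' from
          fun _ _ _ _ => by ring]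
        refine (abs_add_le _ _).trans (add_le_add ?_ ?_) <;> rw [abs_mul]
        · exact (mul_le_mul b1 b2 (abs_nonneg _) (by positivity)).trans_eq (by ring)
        · exact (mul_le_mul b4 b3 (abs_nonneg _) (by positivity)).trans_eq (by ring)
      · have k' : ¬(mrg i τ c d = mrg i τ e f ∧ (mrg i τ c d < j ∨
            (j' < mrg i τ c d ∧ mrg i τ c d ≤ mrg i τ c e))) := by
          simp only [mrg, mg]
          split_ifs <;> omega
        simp only [phE, if_neg k, if_neg k', sub_self, abs_zero]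
        exact add_nonneg (by split_ifs <;> positivity) (mul_nonneg (by norm_num) g0)
  have c6 := c2 i (.inl rfl)
  have c7 := c2 (i + 1) (.inr rfl)
  have c8 := avc_mrg (r := 1) (L := D.L) hi1 (tw D.K (i + 1)) 4 (phE D c d e f j j')
  rw [mrg_tw hi1] at c8
  rw [Wp52.Br_add, Wp52.Br_mul, c5, Dat.A, avc_sub] at c6 c7
  rw [← c8] at c7
  rw [abs_sub_comm] at c6
  refine ((abs_sub_le _ _ _).trans (add_le_add c7 c6)).trans ?_
  rw [poE2, poE2]
  rw [hvd] at c4 ⊢
  linarith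

/-- both edges above the test node: an odd cluster -/
theorem sf_hi (hD : D.Ok tb) (h : Rz D.K τ) (hK : j < D.K) (h45 : τ 4 5 = j) (h1 : j < τ c d)
    (h2 : j < τ e f) : |D.Sf c d e f τ| ≤ 8 * D.pz j := by
  have hT : Rz D.T.length τ := Cav22.len_tilt hD.tilt ▸ h
  have hq : ∀ a b, |D.q (τ a b)| ≤ 1 := fun a b => by
    obtain ⟨h0, h1⟩ := hD.q01 _ (h.le a b)
    rwa [abs_of_nonneg h0]
  have h8 : (2 : ℝ) ^ (Finset.univ : Finset (Fin 3)).card = 8 := by norm_num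
  rw [Sf_eq_SF, ← h8]
  have hq0 := (hD.q01 _ hK.le).1
  have hx := Nu87.ex_nonneg hD.mono j
  have hP := Ker15.PB_nonneg 6 (hD.sg0 j)
  refine SF_le fun A _ => ?_
  by_cases h0 : (0 : Fin 3) ∈ A
  · have hc : Crs τ 4 j 4 5 := by unfold Crs; rw [h.self]; omega
    have n1 : ¬Crs τ 4 j c d := fun h' => by have := h'.le h; omega
    have n2 : ¬Crs τ 4 j e f := fun h' => by have := h'.le h; omega
    have ho : Odd (bdM τ (dg ![4, c, e] ![5, d, f] A) 4 j) := by
      rw [Nat.odd_iff, bdM_dg]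
      have : (A.filter fun i => Crs τ 4 j ((![4, c, e] : Fin 3 → Fin 6) i)
          ((![5, d, f] : Fin 3 → Fin 6) i)) = {0} := by
        ext i
        rw [Finset.mem_filter, Finset.mem_singleton]
        refine ⟨fun hi => ?_, fun hi => hi ▸ ⟨h0, hc⟩⟩
        fin_cases i
        exacts [rfl, absurd hi.2 n1, absurd hi.2 n2]
      rw [this]
      rfl
    have h3 := par1M hD.r1.rk (Cav22.mono_tilt hD.tilt hD.mono) hT _ 4 (hD.sg0 j) _ ho
      ((Ker15.tm_eq hD.r1.rk _).symm.trans_le (hD.sgt _))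
    refine (mul_le_of_le_one_left (abs_nonneg _) (abs_q_le (fun _ _ => hq _ _) A)).trans ?_
    have h4 : _ ≤ min 1 (Ker15.PB 6 (D.sg j)) := le_min (abs_TM_mo hT 0 _) h3
    unfold Dat.pz
    linarith
  · have he : (0 : Fin 3) ∈ Finset.univ \ A := by simpa using h0
    refine (mul_le_of_le_one_right (abs_nonneg _) (abs_TM_mo hT 0 _)).trans ?_
    rw [← Finset.mul_prod_erase _ _ he, abs_mul, abs_neg, Finset.abs_prod]
    refine (mul_le_of_le_one_right (abs_nonneg _) (Finset.prod_le_one (fun _ _ => abs_nonneg _)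
      fun i _ => by rw [abs_neg]; exact hq _ _)).trans ?_
    have h4 : 0 ≤ min 1 (Ker15.PB 6 (D.sg j)) := le_min zero_le_one hP
    have h5 : |D.q j| = D.q j := abs_of_nonneg hq0
    unfold Dat.pz
    change |D.q (τ 4 5)| ≤ _
    rw [h45]
    linarith

/-- **the source**, second form -/
theorem eeS2_of (hE : EdS) (hI : EiS) : EeS2 := fun tb =>
  ⟨4700 * tb ^ 2, by positivity, fun Ω _ D hD c d e f hcd hef j hj => by
    have hp : ∀ y < j, 0 ≤ pi2 D.w D.L y (fun x x' => D.l0.cov x x' ^ 2) D.h - D.lam3 y j :=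
      fun y hy => sub_nonneg.2 ((hE Ω D hD.wt y j hy hj).1.trans (hE Ω D hD.wt y j hy hj).2.1)
    have hV : 0 ≤ D.VV j := Finset.sum_nonneg fun y hy => by
      split_ifs
      exacts [le_rfl, mul_nonneg (dm_nonneg hD.mono y) (hp y (Finset.mem_range.1 hy))]
    have hN := G6.N_nonneg hD
    have t0 := sq_nonneg tb
    refine ⟨hV, ?_, fun j' hj' hjj m1 m2 G hG => ?_⟩
    · have hz := G6.pz_nonneg hD hj.le
      refine (A_le91 hD.mono hj.le (g := fun y =>
        (if j < y then 8 * tb ^ 2 * D.pz j * D.un y ^ 2 else 0) +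
          8 * tb ^ 2 * if y ∈ Finset.range j then D.un y ^ 2 else 0)
        (fun y => by split_ifs <;> positivity) (by simp) hcd fun τ hτ h45 => ?_).trans ?_
      · simp only [Finset.mem_range]
        split_ifs with k1 k2 k3 k3
        · omega
        · rw [mul_zero, add_zero, abs_mul]
          exact (mul_le_mul (abs_BS91 hD hτ hcd hef k1.1).1 (sf_hi hD hτ hj h45 k2 (k1.1 ▸ k2))
            (abs_nonneg _) (by positivity)).trans_eq (by ring)
        · rw [zero_add]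
          exact (abs_BS91 hD hτ hcd hef k1.1).2
        · omega
        all_goals rw [abs_zero]; positivity
      · have b1 := Br_le_N91 (p := fun y => j < y) hD.mono (a := 8 * tb ^ 2 * D.pz j) (by positivity)
        have b2 : Wp52.Br D.L (fun y => if y ∈ Finset.range j then D.un y ^ 2 else 0) = D.low j := by
          simp only [Wp52.Br, mul_ite, mul_zero, Finset.sum_ite_mem]
          rw [Finset.inter_eq_right.2 (Finset.range_subset_range.2
            (by have : D.K = D.L.length := rfl; omega)), Dat.low]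
        have b3 : 0 ≤ D.low j :=
          Finset.sum_nonneg fun y _ => mul_nonneg (dm_nonneg hD.mono y) (sq_nonneg _)
        rw [Wp52.Br_add, Wp52.Br_mul, b2]
        nlinarith [mul_nonneg t0 (mul_nonneg hz (hN 2)), mul_nonneg t0 b3]
    have a1 := end91 hI hD hcd hef hjj hj' (.inl rfl) m1 m2 hG
    have a2 := end91 hI hD hcd hef hjj hj' (.inr rfl) m1 m2 hG
    have a3 := tele91 (a := fun i => D.A i (phE D c d e f j j')) (Φ := poE2 D tb j) hjj.le
      fun i h1 h2 => step92 hE hD hcd hef h1 h2 hj'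
    have x4 := hD.r1.tm_mono hjj.le
    have x5 := G6.q_le hD hjj.le hj'.le
    have x6 : ∑ y ∈ Finset.range j, dm D.L 0 y * (D.t y ^ 2 * D.lam3 y j') -
        ∑ y ∈ Finset.range j, dm D.L 0 y * (D.t y ^ 2 * D.lam3 y j) ≤ tb ^ 2 * D.VV j := by
      rw [← Finset.sum_sub_distrib, Dat.VV, Finset.mul_sum]
      refine Finset.sum_le_sum fun y hy => ?_
      have hy' := Finset.mem_range.1 hy
      split_ifs with ht
      · simp [ht]
      · obtain ⟨i, rfl⟩ : ∃ i, j' = i + 1 := ⟨j' - 1, by omega⟩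
        have b1 := (hE Ω D hD.wt y i (by omega) (by omega)).2.1
        have b2 := mul_nonneg (dm_nonneg hD.mono y) (hp y hy')
        have b3 := mul_le_mul_of_nonneg_right (Cond31.sq_t_le D hD y) b2
        have b4 := mul_le_mul_of_nonneg_left b1 (mul_nonneg (dm_nonneg hD.mono y) (sq_nonneg (D.t y)))
        linarith
    have x8 : 0 ≤ ∑ y ∈ Finset.Ioo j j', dm D.L 0 y * D.un y ^ 2 :=
      Finset.sum_nonneg fun y _ => mul_nonneg (dm_nonneg hD.mono y) (sq_nonneg _)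
    have x9 := mul_nonneg hG.1 (hN 1)
    have n0 := mul_nonneg t0 (hN 2)
    have y4 := mul_le_mul_of_nonneg_left x4 n0
    have y5 := mul_le_mul_of_nonneg_left x5 n0
    have y7 := mul_nonneg t0 x8
    have y8 := mul_nonneg t0 x9
    have y9 := mul_nonneg t0 hD.ms0
    have y10 := mul_nonneg t0 hV
    have a4 := abs_sub_le (D.src c d e f j') (D.A j' (phE D c d e f j j')) (D.src c d e f j)
    have a5 := abs_sub_le (D.A j' (phE D c d e f j j')) (D.A j (phE D c d e f j j'))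
      (D.src c d e f j)
    rw [abs_sub_comm] at a1
    simp only [poE2] at a3
    rw [Dat.clk2]
    linarith⟩

open G6 in
/-- **(E1)**, second form, from the leaves -/
theorem e1S2_of (p : Bool) (ha : EaS p) (hb : EbS) (hc : EcS) (he : EeS2) : E1S2 p := by
  intro tb
  obtain ⟨Ca, a0, ha⟩ := ha tb
  obtain ⟨Cb, b0, hb⟩ := hb tb
  obtain ⟨Cc, c0, hc⟩ := hc tb
  obtain ⟨Ce, e0, he⟩ := he tb
  set C1 := Ca + 69120 * Cb + tb ^ 2 + 69120 * Cc with hC1
  have C0 : 0 ≤ C1 := by positivity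
  refine ⟨C1 + 69120 * Ce, by positivity, fun n β M q l0 un sg ms hn hM hl D hD H => ?_⟩
  have h3 : ∀ j, 0 ≤ if p then D.N3p j else D.N 3 := fun j => by
    split_ifs
    exacts [N3p_nonneg H j, N_nonneg H 3]
  have key : ∀ j < D.K, D.t j ≠ 0 → dm D.L 0 j ≤ D.ms → ∀ G, D.Gm j G →
      |D.res j + Src D j / 2| ≤ C1 * D.eta0 (if p then D.N3p j else D.N 3) G j ∧
      D.VV j + D.ms + G * D.N 1 ≤ D.eta0 (if p then D.N3p j else D.N 3) G j ∧
      0 ≤ D.eta0 (if p then D.N3p j else D.N 3) G j := fun j hj ht hm G hG => by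
    have h1 := (ha n β M q l0 un sg ms hn hM hl D hD H j hj ht hm).2
    obtain ⟨hV, h2⟩ := hb _ D H j hj hm
    have x1 : 0 ≤ |D.kap j| * D.rt2 j := mul_nonneg (abs_nonneg _) (Cond31.rt2_nonneg D j)
    have x2 : 0 ≤ D.pz j * D.V j := mul_nonneg (pz_nonneg H hj.le) hV
    have x3 : 0 ≤ G * D.N 1 := mul_nonneg hG.1 (N_nonneg H 1)
    have x3' : 0 ≤ G * D.un j := mul_nonneg hG.1 (H.un0 j).1
    have x4 := (he _ D H 0 1 0 1 (by decide) (by decide) j hj).1
    have x5 := ms_le_crude H (h3 j) j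
    have x6 := H.ms0
    have h4 := abs_D2_le (mul_nonneg b0 (add_nonneg x2 x6)) h2
    have h5 := abs_D2_le (mul_nonneg c0 (mul_nonneg hG.1 (add_nonneg (H.un0 j).1 (N_nonneg H 1))))
      (hc _ D H j hj ht G hG)
    have h6 : |D.t j ^ 2 * D.rt2 j * D.kap j| ≤ tb ^ 2 * (|D.kap j| * D.rt2 j) := by
      rw [abs_mul, abs_of_nonneg (mul_nonneg (sq_nonneg _) (Cond31.rt2_nonneg D j)), mul_assoc,
        mul_comm (D.rt2 j)]
      exact mul_le_mul_of_nonneg_right (Cond31.sq_t_le D H j) x1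
    rw [W2_split] at h1
    generalize (if p then D.N3p j else D.N 3) = n3 at *
    have hE : D.eta0 n3 G j = |D.kap j| * D.rt2 j + D.pz j * D.V j + (G * D.un j + G * D.N 1) +
        D.VV j + D.crude n3 j := by rw [Dat.eta0]; ring
    have y0 : 0 ≤ D.eta0 n3 G j := by linarith
    have y1 := mul_le_mul_of_nonneg_left (show D.crude n3 j ≤ D.eta0 n3 G j by linarith) a0
    have y2 := mul_le_mul_of_nonneg_left
      (show D.pz j * D.V j + D.ms ≤ D.eta0 n3 G j by linarith) b0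
    have y3 := mul_le_mul_of_nonneg_left
      (show |D.kap j| * D.rt2 j ≤ D.eta0 n3 G j by linarith) (sq_nonneg tb)
    have y4 := mul_le_mul_of_nonneg_left
      (show G * (D.un j + D.N 1) ≤ D.eta0 n3 G j by linarith) c0
    have y5 := mul_nonneg b0 y0
    have y6 := mul_nonneg (sq_nonneg tb) y0
    have y7 := mul_nonneg c0 y0
    refine ⟨?_, by linarith, y0⟩
    rw [abs_le] at h1 h4 h5 h6 ⊢
    rw [hC1]
    constructor <;> linarith [h1.1, h1.2, h4.1, h4.2, h5.1, h5.2, h6.1, h6.2]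
  intro j hj ht hm G hG
  obtain ⟨k1, k2, k3⟩ := key j hj ht hm G hG
  have n2 : 0 ≤ D.pz j * D.N 2 + D.low j := add_nonneg (mul_nonneg (pz_nonneg H hj.le)
    (N_nonneg H 2)) (Finset.sum_nonneg fun y _ => mul_nonneg (dm_nonneg H.mono y) (sq_nonneg _))
  refine ⟨?_, fun j' hj' hjj ht' hm' G' hG' => ?_⟩
  · have h1 : |Src D j| ≤ _ := abs_D2_le (mul_nonneg e0 n2) fun c d e f hcd hef =>
      (he _ D H c d e f hcd hef j hj).2.1
    have y1 := mul_nonneg e0 k3
    have y2 := mul_nonneg C0 n2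
    have y3 := mul_nonneg e0 n2
    rw [abs_le] at h1 k1 ⊢
    constructor <;> linarith [h1.1, h1.2, k1.1, k1.2]
  · obtain ⟨l1, -, l3⟩ := key j' hj' ht' hm' G' hG'
    have z0 : 0 ≤ D.clk2 j j' := add_nonneg (mul_nonneg (N_nonneg H 2) (by
      linarith [H.r1.tm_mono hjj.le, q_le H hjj.le hj'.le])) (Finset.sum_nonneg fun y _ =>
        mul_nonneg (dm_nonneg H.mono y) (sq_nonneg _))
    have x4 := (he _ D H 0 1 0 1 (by decide) (by decide) j hj).1
    have x3 : 0 ≤ G * D.N 1 := mul_nonneg hG.1 (N_nonneg H 1)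
    have h1 := abs_D2_le (mul_nonneg e0 (by linarith [H.ms0])) fun c d e f hcd hef =>
      (he _ D H c d e f hcd hef j hj).2.2 j' hj' hjj hm hm' G hG
    rw [D2_sub] at h1
    change |Src D j' - Src D j| ≤ _ at h1
    have y1 := mul_le_mul_of_nonneg_left k2 e0
    have y2 := mul_nonneg C0 z0
    have y3 := mul_nonneg e0 z0
    have y4 := mul_nonneg e0 k3
    have y5 := mul_nonneg e0 l3
    rw [abs_le] at h1 k1 l1 ⊢
    constructor <;> linarith [h1.1, h1.2, k1.1, k1.2, l1.1, l1.2]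

/-- **(E1)**, second form -/
theorem e1S2 (p : Bool) : E1S2 p :=
  e1S2_of p (Ea38.eaS p) Eb31.ebS Ec52.ecS (eeS2_of Ed43.edS Eb31.eiS)

end Crest.Agent.T156.Cas.E91
end
end

-- ▼ part T156/ClE1b_61

/-!
# Row 156 (helper61): (E1) on the class without the label clock; sizes of the majorant
-/

set_option autoImplicit false
set_option linter.unusedSectionVars false

noncomputable section

namespace Crest.Agent.T156.Alt.E61

open MeasureTheory Real Set Filter Topology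
open Crest.Agent.T157.E Crest.Agent.T157.Casc Crest.Agent.T157.SL
open Crest.Agent.T157.G1 (ov)
open Crest.Agent.T156.Cas Crest.Agent.T156.Cas.Sy41 Crest.Agent.T156.Cas.Q33
open Crest.Agent.T156.Alt.Md67 Crest.Agent.T156.Alt.Mp9

variable {S : Sc} {M : Md} {m : ℕ} {a T ms : ℝ} {u : ℕ → ℝ}

theorem clk2_le (A : At S M m a T) (hu : Mj M m a u) {i j : ℕ} (hij : i < j) (hj : j ≤ S.Jp) :
    (eD M m a u ms).clk2 (i + 1) (j + 1) ≤
      (1 + 2 * S.C) * Nu M m a u 2 * (sb M m a (j + 1) - sb M m a (i + 1)) +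
        ∑ k ∈ Finset.Ioo i j, M.dz m a k * u k ^ 2 := by
  have G := lg A
  have j1 := hj.trans_lt A.cl.i4
  have e : ∑ y ∈ Finset.Ioo (i + 1) (j + 1), dm (eD M m a u ms).L 0 y * (eD M m a u ms).un y ^ 2 =
      ∑ k ∈ Finset.Ioo i j, M.dz m a k * u k ^ 2 := by
    rw [← Finset.map_add_right_Ioo, Finset.sum_map]
    exact Finset.sum_congr rfl fun k hk => by
      have := (Finset.mem_Ioo.1 hk).2
      show M.dz m a k * (eD M m a u ms).un (k + 1) ^ 2 = _
      rw [eD_un (by omega)]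
  have := mul_le_mul_of_nonneg_left (rb_sub A hij.le) (Nu_nn G hu 2)
  rw [E91.Dat.clk2, e, N_eq G (top_cl A.cl) two_ne_zero, tm_eq G j1, tm_eq G (hij.trans j1),
    eD_q j1, eD_q (hij.trans j1)]
  linarith

theorem low_eq {j : ℕ} (hj : j < M.N) :
    (eD M m a u ms).low (j + 1) = ∑ k ∈ Finset.range j, M.dz m a k * u k ^ 2 := by
  rw [E91.Dat.low, Finset.sum_range_succ', show (eD M m a u ms).un 0 = 0 from rfl,
    zero_pow two_ne_zero, mul_zero, add_zero]
  exact Finset.sum_congr rfl fun k hk => by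
    rw [eD_un ((Finset.mem_range.1 hk).trans hj)]; rfl

/-- **(E1) on the class**, no label clock -/
def E1C2 (p : Bool) : Prop := ∀ tb : ℝ, ∃ C : ℝ, 0 ≤ C ∧ ∀ (S : Sc) (M : Md) (m : ℕ) (a T : ℝ)
  (u : ℕ → ℝ) (ms : ℝ), At S M m a T → M.b ≤ tb → Mj M m a u → 0 < ms → ∀ i G, Tn S M m a u ms i G →
    |res M S m a T i| ≤ C * (en M m a u ms (n3 p M m a u ms i) G i +
      4 * r2 M m a i * |L0.Gd (lb M S m a T) (sb M m a (i + 1))| +
      (pb M m a ms i * Nu M m a u 2 + ∑ k ∈ Finset.range i, M.dz m a k * u k ^ 2)) ∧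
    ∀ j G', Tn S M m a u ms j G' → i < j → |res M S m a T j - res M S m a T i| ≤
      C * (en M m a u ms (n3 p M m a u ms i) G i +
        4 * r2 M m a i * |L0.Gd (lb M S m a T) (sb M m a (i + 1))| +
        (en M m a u ms (n3 p M m a u ms j) G' j +
        4 * r2 M m a j * |L0.Gd (lb M S m a T) (sb M m a (j + 1))|) +
        ((1 + 2 * S.C) * Nu M m a u 2 * (sb M m a (j + 1) - sb M m a (i + 1)) +
        ∑ k ∈ Finset.Ioo i j, M.dz m a k * u k ^ 2))

theorem e1C2 (p : Bool) : E1C2 p := fun tb => by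
  obtain ⟨C, C0, h⟩ := E91.e1S2 p tb
  refine ⟨C, C0, fun S M m a T u ms A hb hu h0 i G Ti => ?_⟩
  have L := lg A
  have t := top_cl A.cl
  have h3 : ∀ k, (if p then (eD M m a u ms).N3p (k + 1) else (eD M m a u ms).N 3) ≤
      n3 p M m a u ms k := fun k => by
    cases p
    · exact (N_eq L t (by decide : 3 ≠ 0)).le
    · exact N3p_le L t hu h0 k
  have K : ∀ k ≤ S.Jp, k + 1 < (eD M m a u ms).K := fun k hk => by
    rw [eD_K]; exact Nat.succ_lt_succ (hk.trans_lt A.cl.i4)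
  obtain ⟨h1, h2⟩ := h m 1 _ _ _ _ _ _ L.m0 ((rf_rb L.m0 a).ook L.toLeg) (sl_cov L.m0)
    (eD M m a u ms) rfl (eD_ok L t hu h0 hb) (i + 1) (K i Ti.hi) (t_ne A Ti.hi) Ti.dz G Ti.gm
  have ei := eta0_le (u := u) A h0 Ti.lo Ti.hi Ti.dz (h3 i) G
  refine ⟨?_, fun j G' Tj hij => ?_⟩
  · have i1 := Ti.hi.trans_lt A.cl.i4
    rw [res_eq A Ti.hi, N_eq L t two_ne_zero, low_eq i1] at h1
    have := mul_le_mul_of_nonneg_right (pz_le (u := u) L h0 i1) (Nu_nn L hu 2)
    exact h1.trans (mul_le_mul_of_nonneg_left (by linarith) C0)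
  · have := h2 (j + 1) (K j Tj.hi) (Nat.succ_lt_succ hij) (t_ne A Tj.hi) Tj.dz G' Tj.gm
    rw [res_eq A Ti.hi, res_eq A Tj.hi] at this
    have ej := eta0_le (u := u) A h0 Tj.lo Tj.hi Tj.dz (h3 j) G'
    have ck := clk2_le (ms := ms) A hu hij Tj.hi
    exact this.trans (mul_le_mul_of_nonneg_left (by linarith) C0)

/-! ### signs -/

theorem N3_nn (G : Lg M m a) (hu : Mj M m a u) (h0 : 0 < ms) (j : ℕ) : 0 ≤ N3 M m a u ms j :=
  Finset.sum_nonneg fun k _ => mul_nonneg (G.dz_nonneg k) (mul_nonneg (by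
    split_ifs
    exacts [pb_nn G h0 k, zero_le_one]) (pow_nonneg (hu.u0 k).1 3))

theorem n3_nn (p : Bool) (G : Lg M m a) (hu : Mj M m a u) (h0 : 0 < ms) (j : ℕ) :
    0 ≤ n3 p M m a u ms j := by
  cases p
  exacts [Nu_nn G hu 3, N3_nn G hu h0 j]

theorem VVn_nn (G : Lg M m a) (j : ℕ) : 0 ≤ VVn M m a j := Finset.sum_nonneg fun k _ =>
  mul_nonneg (G.dz_nonneg k) (Eg33.vt_nonneg Link33.wt1 _ _ _ _ _)



/-! ### the exact `L⁴` norm -/

/-- `‖R - rb k‖₄` -/
def u4 (M : Md) (m : ℕ) (a : ℝ) (k : ℕ) : ℝ := √(√(M.E2 m a (fun r => (r - M.rb m a k) ^ 4) k))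

/-- `E (R - rb k)²` -/
def U2 (M : Md) (m : ℕ) (a : ℝ) (k : ℕ) : ℝ := M.E2 m a (fun r => (r - M.rb m a k) ^ 2) k

theorem u4_nn (k : ℕ) : 0 ≤ u4 M m a k := sqrt_nonneg _

theorem u4_pow (k : ℕ) : u4 M m a k ^ 4 = M.E2 m a (fun r => (r - M.rb m a k) ^ 4) k := by
  rw [show u4 M m a k ^ 4 = (u4 M m a k ^ 2) ^ 2 by ring, u4, sq_sqrt (sqrt_nonneg _),
    sq_sqrt (E2_nonneg (fun _ _ => by positivity) k)]

theorem u4_le {k : ℕ} {b : ℝ} (hb : 0 ≤ b)
    (h : M.E2 m a (fun r => (r - M.rb m a k) ^ 4) k ≤ b ^ 4) : u4 M m a k ≤ b :=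
  le_of_pow_le_pow_left₀ (by decide : 4 ≠ 0) hb ((u4_pow k).trans_le h)

theorem mj_u4 (hm : 0 < m) : Mj M m a (u4 M m a) := by
  refine ⟨fun k => ⟨u4_nn k, u4_le zero_le_two (E2_le (fun r hr => ?_) k)⟩,
    fun k _ => (u4_pow k).ge⟩
  have := abs_le.1 hr
  have := rb_nonneg (M := M) (a := a) hm k
  have := rb_le_one (M := M) (a := a) hm k
  rw [← Even.pow_abs (by decide)]
  exact pow_le_pow_left₀ (abs_nonneg _) (abs_le.2 ⟨by linarith, by linarith⟩) _

theorem U2_nn (k : ℕ) : 0 ≤ U2 M m a k := E2_nonneg (fun _ _ => sq_nonneg _) k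

/-- Jensen -/
theorem E2_sq_le (f : ℝ → ℝ) (k : ℕ) : M.E2 m a f k ^ 2 ≤ M.E2 m a (fun r => f r ^ 2) k := by
  have h := E2_nonneg (M := M) (m := m) (a := a) (f := fun r => (f r - M.E2 m a f k) ^ 2)
    (fun _ _ => sq_nonneg _) k
  rw [show (fun r => (f r - M.E2 m a f k) ^ 2) =
    fun r => (f r ^ 2 - 2 * M.E2 m a f k * f r) + M.E2 m a f k ^ 2 from funext fun r => by ring,
    E2_add, E2_sub, E2_mul, E2_const] at h
  nlinarith

theorem U2_le {k : ℕ} (hu : Mj M m a u) (hk : k < M.N) : U2 M m a k ≤ u k ^ 2 := by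
  have := (E2_sq_le (M := M) (m := m) (a := a) (fun r => (r - M.rb m a k) ^ 2) k)
  simp only [← pow_mul] at this
  refine le_of_pow_le_pow_left₀ two_ne_zero (sq_nonneg _) ?_
  rw [← pow_mul]
  exact this.trans (hu.mom k hk)

theorem U2_eq (hm : 0 < m) (k : ℕ) : U2 M m a k = r2 M m a k + Vn M m a k := by
  have := Eg33.V_eq Link33.wt1 (M.L m a) (sl m) 0 (k + 1) (M.rb m a k)
  simp only [sl_cov hm, ← rh_eq (sl_cov hm)] at this
  rw [U2, r2, Vn, ← this, Md.E2]; ring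

theorem r2_le (hm : 0 < m) (k : ℕ) : r2 M m a k ≤ U2 M m a k := by
  rw [U2_eq hm]; exact le_add_of_nonneg_right (Vn_nn k)

theorem Vn_le (hm : 0 < m) (k : ℕ) : Vn M m a k ≤ U2 M m a k := by
  rw [U2_eq hm]; exact le_add_of_nonneg_left (r2_nn k)

/-- any centre -/
theorem u4_le_c {k : ℕ} {b c : ℝ} (hb : 0 ≤ b)
    (h : M.E2 m a (fun r => (r - c) ^ 4) k ≤ b ^ 4) : |M.rb m a k - c| ≤ b ∧ u4 M m a k ≤ 2 * b := by
  have h1 := E2_sq_le (M := M) (m := m) (a := a) (fun r => (r - c) ^ 2) k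
  simp only [← pow_mul] at h1
  have h2 : (M.rb m a k - c) ^ 4 ≤ b ^ 4 := by
    have := pow_le_pow_left₀ (sq_nonneg _) (sq_le_E2 (M := M) (m := m) (a := a) c k) 2
    rw [← pow_mul] at this
    exact this.trans (h1.trans h)
  refine ⟨le_of_pow_le_pow_left₀ (by decide : 4 ≠ 0) hb (by rwa [Even.pow_abs (by decide)]),
    u4_le (by positivity) ?_⟩
  have h3 := E2_mono (M := M) (m := m) (a := a) (f := fun r => (r - M.rb m a k) ^ 4)
    (g := fun r => 8 * (r - c) ^ 4 + 8 * b ^ 4) (fun r _ => by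
      have e : r - M.rb m a k = (r - c) - (M.rb m a k - c) := by ring
      rw [e]
      generalize r - c = x at *
      generalize M.rb m a k - c = y at *
      nlinarith [sq_nonneg (x ^ 2 - y ^ 2), sq_nonneg ((x + y) ^ 2), sq_nonneg (x + y),
        mul_nonneg (sq_nonneg (x + y)) (sq_nonneg (x - y))]) k
  rw [E2_add, E2_mul, E2_const] at h3
  nlinarith


/-! ### sums -/

theorem dz_hi (h : Cl S M) {k : ℕ} (hk : S.Jp < k) : M.dz m a k = 0 := by
  rw [dz_up h.leg (by omega), h.top k hk.le, h.top (k - 1) (by omega), sub_self]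

theorem dz_low (h : Cl S M) {k : ℕ} (h0 : 0 < k) (hk : k ≤ S.j0) : M.dz m a k = 0 := by
  rw [dz_up h.leg h0, h.low k hk, h.low (k - 1) (by omega), sub_self]

/-- only the root node and the nodes of `(j0, Jp]` carry weight -/
theorem sum_N (h : Cl S M) (g : ℕ → ℝ) : ∑ k ∈ Finset.range M.N, M.dz m a k * g k =
    M.dz m a 0 * g 0 + ∑ k ∈ Finset.Ioc S.j0 S.Jp, M.dz m a k * g k := by
  have i4 := h.i4
  rw [← Finset.sum_insert (f := fun k => M.dz m a k * g k) (by simp)]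
  refine (Finset.sum_subset (fun k hk => ?_) fun k _ hk => ?_).symm
  · simp only [Finset.mem_insert, Finset.mem_Ioc, Finset.mem_range] at hk ⊢
    omega
  · simp only [Finset.mem_insert, Finset.mem_Ioc, not_or, not_and_or, not_lt, not_le] at hk
    rcases hk.2 with c | c
    · rw [dz_low h (by omega) c, zero_mul]
    · rw [dz_hi h c, zero_mul]

theorem Nu_one_sq (G : Lg M m a) : Nu M m a u 1 ^ 2 ≤ Nu M m a u 2 := by
  have h := Finset.sum_mul_sq_le_sq_mul_sq (Finset.range M.N) (fun k => √(M.dz m a k))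
    fun k => √(M.dz m a k) * u k
  simp only [mul_pow, sq_sqrt (G.dz_nonneg _), ← mul_assoc, mul_self_sqrt (G.dz_nonneg _)] at h
  have h1 := G.sum_dz_le (Finset.range M.N)
  have h2 : 0 ≤ Nu M m a u 2 := Finset.sum_nonneg fun k _ => mul_nonneg (G.dz_nonneg k) (sq_nonneg _)
  simp only [Nu, pow_one]
  exact h.trans (mul_le_of_le_one_left h2 (by linarith [G.a0]))

theorem Nu_add_le (G : Lg M m a) (hu : Mj M m a u) {B : ℝ}
    (hB : ∀ k < M.N, M.dz m a k ≠ 0 → u k ≤ B) (i j : ℕ) :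
    Nu M m a u (i + j) ≤ B ^ j * Nu M m a u i := by
  rw [Nu, Nu, Finset.mul_sum]
  refine Finset.sum_le_sum fun k hk => ?_
  rcases eq_or_ne (M.dz m a k) 0 with e | e
  · simp [e]
  · have := mul_le_mul_of_nonneg_left (pow_le_pow_left₀ (hu.u0 k).1 (hB k (Finset.mem_range.1 hk) e) j)
      (mul_nonneg (G.dz_nonneg k) (pow_nonneg (hu.u0 k).1 i))
    rw [pow_add]
    linarith

theorem pb_le' (G : Lg M m a) {k : ℕ} (hk : k ≤ M.N) :
    pb M m a ms k ≤ 2600 * (M.b * M.rb m a k + M.H k + ms) + M.rb m a k + M.z k := by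
  have h1 := min_le_right 1 (2600 * (sb M m a (k + 1) + ms))
  have h2 : kp m * M.d k ≤ M.b :=
    (mul_le_of_le_one_left (d_nonneg G.toLeg k) (kp_mem m).2).trans (d_le_b G.toLeg hk)
  have h3 := mul_le_mul_of_nonneg_right h2 (rb_nonneg (M := M) (a := a) G.m0 k)
  simp only [pb, sb] at h1 ⊢
  linarith

/-- `N3` split at the test node -/
theorem N3_eq {j : ℕ} (hj : j ≤ M.N) : N3 M m a u ms j =
    ∑ k ∈ Finset.range j, M.dz m a k * (pb M m a ms k * u k ^ 3) +
      ∑ k ∈ Finset.Ico j M.N, M.dz m a k * u k ^ 3 := by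
  rw [N3, ← Finset.sum_range_add_sum_Ico _ hj]
  congr 1
  · exact Finset.sum_congr rfl fun k hk => by rw [if_pos (Finset.mem_range.1 hk)]
  · exact Finset.sum_congr rfl fun k hk => by
      rw [if_neg (not_lt.2 (Finset.mem_Ico.1 hk).1), one_mul]

/-- **layer cake**: `u ≤ α i + e i` for every `i < I`, `u ≤ 2 α I` -/
theorem cake {ι : Type} (s : Finset ι) {w u : ι → ℝ} {α B : ℕ → ℝ} {e : ℕ → ι → ℝ} {I : ℕ} {X : ℝ}
    (hw : ∀ k ∈ s, 0 ≤ w k) (h0 : ∀ k ∈ s, 0 ≤ u k) (hα : ∀ i, 0 < α i)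
    (hX : ∑ k ∈ s, w k ≤ X) (hu : ∀ k ∈ s, ∀ i < I, u k ≤ α i + e i k)
    (hI : ∀ k ∈ s, u k ≤ 2 * α I) (hB : ∀ i < I, ∑ k ∈ s, w k * e i k ^ 2 ≤ B i) (p : ℕ) :
    ∑ k ∈ s, w k * u k ^ p ≤
      (2 * α 0) ^ p * X + ∑ i ∈ Finset.range I, (2 * α (i + 1)) ^ p / α i ^ 2 * B i := by
  have c0 : ∀ i, 0 ≤ (2 * α (i + 1)) ^ p / α i ^ 2 := fun i => by
    have := hα (i + 1); positivity
  have key : ∀ k ∈ s, u k ^ p ≤
      (2 * α 0) ^ p + ∑ i ∈ Finset.range I, (2 * α (i + 1)) ^ p / α i ^ 2 * e i k ^ 2 := by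
    intro k hk
    have ex : ∃ i, u k ≤ 2 * α i := ⟨I, hI k hk⟩
    have n0 : 0 ≤ ∑ i ∈ Finset.range I, (2 * α (i + 1)) ^ p / α i ^ 2 * e i k ^ 2 :=
      Finset.sum_nonneg fun i _ => mul_nonneg (c0 i) (sq_nonneg _)
    have a1 := Nat.find_spec ex
    have a2 : Nat.find ex ≤ I := Nat.find_min' ex (hI k hk)
    rcases hj : Nat.find ex with _ | j
    · rw [hj] at a1
      exact (pow_le_pow_left₀ (h0 k hk) a1 p).trans (le_add_of_nonneg_right n0)
    · rw [hj] at a1 a2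
      have a3 := not_le.1 (Nat.find_min ex (show j < Nat.find ex by omega))
      have a4 := hu k hk j (by omega)
      have a5 : α j ^ 2 ≤ e j k ^ 2 := pow_le_pow_left₀ (hα j).le (by linarith) 2
      have a6 : (2 * α (j + 1)) ^ p ≤ (2 * α (j + 1)) ^ p / α j ^ 2 * e j k ^ 2 := by
        have := mul_le_mul_of_nonneg_left a5 (c0 j)
        rwa [div_mul_cancel₀ _ (pow_pos (hα j) 2).ne'] at this
      have a7 := Finset.single_le_sum (f := fun i => (2 * α (i + 1)) ^ p / α i ^ 2 * e i k ^ 2)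
        (fun i _ => mul_nonneg (c0 i) (sq_nonneg _)) (Finset.mem_range.2 (show j < I by omega))
      have a8 : 0 ≤ (2 * α 0) ^ p := by have := hα 0; positivity
      linarith [pow_le_pow_left₀ (h0 k hk) a1 p]
  refine (Finset.sum_le_sum fun k hk => mul_le_mul_of_nonneg_left (key k hk) (hw k hk)).trans ?_
  simp only [mul_add, Finset.sum_add_distrib, Finset.mul_sum]
  rw [← Finset.sum_mul, Finset.sum_comm, mul_comm]
  refine add_le_add (mul_le_mul_of_nonneg_left hX (by have := hα 0; positivity))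
    (Finset.sum_le_sum fun i hi => ?_)
  refine le_trans (le_of_eq ?_) (mul_le_mul_of_nonneg_left (hB i (Finset.mem_range.1 hi)) (c0 i))
  rw [Finset.mul_sum]
  exact Finset.sum_congr rfl fun _ _ => by ring

end Crest.Agent.T156.Alt.E61

end
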