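import Crest.Agent.T156.QOne_33

/-!
# Row 156, block (Q): fluctuations about the mean profile (helper5)

Sandwich between two windows of nodes, abstract window systems, sliding windows, optimisation of
the window length, gaps and good nodes, higher moments.
-/

set_option autoImplicit false
set_option linter.unusedSectionVars false

noncomputable section

namespace Crest.Agent.T156.Cas.Wr5

open MeasureTheory Real Set Filter Topology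
open Crest.Agent.T157.E Crest.Agent.T157.Casc Crest.Agent.T157.SL
open Crest.Agent.T156.Cas.Sy41 Crest.Agent.T156.Cas.Q33

/-! ### frame-free facts -/

theorem sum_ind {N : ℕ} {U : Finset ℕ} (hU : ∀ k ∈ U, 1 ≤ k ∧ k ≤ N) (d G : ℕ → ℝ) (c : ℝ) :
    ∑ k ∈ Finset.range N, d (k + 1) * (if k + 1 ∈ U then c else 0) * G (k + 1) =
      c * ∑ k ∈ U, d k * G k := by
  rw [Finset.range_eq_Ico, Finset.sum_Ico_add' (fun k => d k * (if k ∈ U then c else 0) * G k) 0 N 1,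
    zero_add, Finset.mul_sum]
  rw [← Finset.sum_subset (s₁ := U) (fun k hk => by
    have := hU k hk; exact Finset.mem_Ico.2 ⟨this.1, by omega⟩) fun k _ hk => by simp [hk]]
  exact Finset.sum_congr rfl fun k hk => by rw [if_pos hk]; ring

/-- double sums with bounded multiplicity -/
theorem sum_mult {S E : Finset ℕ} {W : ℕ → Finset ℕ} {F : ℕ → ℝ} {u : ℕ} (hW : ∀ j ∈ S, W j ⊆ E)
    (hF : ∀ k ∈ E, 0 ≤ F k) (hu : ∀ k ∈ E, (S.filter fun j => k ∈ W j).card ≤ u) :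
    ∑ j ∈ S, ∑ k ∈ W j, F k ≤ u * ∑ k ∈ E, F k := by
  have e : ∀ j ∈ S, ∑ k ∈ W j, F k = ∑ k ∈ E, if k ∈ W j then F k else 0 := fun j hj => by
    rw [← Finset.sum_filter]
    congr 1
    ext k
    simp only [Finset.mem_filter]
    exact ⟨fun h => ⟨hW j hj h, h⟩, fun h => h.2⟩
  rw [Finset.sum_congr rfl e, Finset.sum_comm, Finset.mul_sum]
  refine Finset.sum_le_sum fun k hk => ?_
  rw [← Finset.sum_filter, Finset.sum_const, nsmul_eq_mul]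
  exact mul_le_mul_of_nonneg_right (by exact_mod_cast hu k hk) (hF k hk)

theorem avg_le {U : Finset ℕ} {d r : ℕ → ℝ} (hd : ∀ k, 0 ≤ d k) (hM : 0 < ∑ k ∈ U, d k) {q e : ℝ}
    (he : ∀ k ∈ U, |r k - q| ≤ e) :
    ((∑ k ∈ U, d k)⁻¹ * ∑ k ∈ U, d k * r k - q) ^ 2 ≤ e ^ 2 := by
  set M := ∑ k ∈ U, d k with hMd
  have e1 : M⁻¹ * ∑ k ∈ U, d k * r k - q = M⁻¹ * ∑ k ∈ U, d k * (r k - q) := by
    simp only [mul_sub, Finset.sum_sub_distrib, ← Finset.sum_mul, ← hMd]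
    field_simp
  have e2 : |∑ k ∈ U, d k * (r k - q)| ≤ M * e := by
    refine (Finset.abs_sum_le_sum_abs _ _).trans ?_
    rw [hMd, Finset.sum_mul]
    refine Finset.sum_le_sum fun k hk => ?_
    rw [abs_mul, abs_of_nonneg (hd k)]
    exact mul_le_mul_of_nonneg_left (he k hk) (hd k)
  have e3 : |M⁻¹ * ∑ k ∈ U, d k * (r k - q)| ≤ e := by
    rw [abs_mul, abs_of_pos (inv_pos.2 hM), inv_mul_le_iff₀ hM]
    exact e2
  rw [e1, ← sq_abs]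
  exact pow_le_pow_left₀ (abs_nonneg _) e3 2




variable {Ω : Type} [Fintype Ω] {w : Ω → ℝ}

/-- `E (ρ_j - q)²` -/
def sq2 (w : Ω → ℝ) (L : List (Lv Ω)) (l₀ : Lv Ω) (h : Ω → ℝ) (q : ℝ) (j : ℕ) : ℝ :=
  node w L j (fun z => (rr w (L.drop j) l₀ z - q) ^ 2) h

/-- `Var ρ_j` -/
def vr (w : Ω → ℝ) (L : List (Lv Ω)) (l₀ : Lv Ω) (h : Ω → ℝ) (j : ℕ) : ℝ :=
  sq2 w L l₀ h (rho w L l₀ h j) j

/-- `∑_S dm_k E mᵀ A m` -/
def al (w : Ω → ℝ) (L : List (Lv Ω)) (l₀ : Lv Ω) (h : Ω → ℝ) (S : Finset ℕ) : ℝ :=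
  ∑ k ∈ S, dm L 0 k * aa w L l₀ h k

/-- `∑_S dm_k E V` -/
def vl (w : Ω → ℝ) (L : List (Lv Ω)) (l₀ : Lv Ω) (h : Ω → ℝ) (S : Finset ℕ) : ℝ :=
  ∑ k ∈ S, dm L 0 k * vv w L l₀ h k

variable {L : List (Lv Ω)} {l₀ : Lv Ω}



/-- bias plus variance -/
theorem sq2_eq (hw : Wt w) (L : List (Lv Ω)) (l₀ : Lv Ω) (h : Ω → ℝ) (q : ℝ) (j : ℕ) :
    sq2 w L l₀ h q j = vr w L l₀ h j + (rho w L l₀ h j - q) ^ 2 := by
  have er := eg_rr hw (L.drop j) l₀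
  have e : ∀ q : ℝ, sq2 w L l₀ h q j = node w L j (fun z => rr w (L.drop j) l₀ z ^ 2) h +
      (-(2 * q)) * rho w L l₀ h j + q ^ 2 := fun q => by
    have e1 : (fun z => (rr w (L.drop j) l₀ z - q) ^ 2) = fun z =>
        rr w (L.drop j) l₀ z ^ 2 + (-(2 * q)) * rr w (L.drop j) l₀ z + q ^ 2 := by
      funext z; ring
    rw [sq2, e1, node_add hw ((er.pow 2).add (er.const_mul _)) (Eg.const _),
      node_add hw (er.pow 2) (er.const_mul _), node_const_mul]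
    simp only [C.node_const hw]
    rfl
  rw [vr, e, e]; ring

theorem al_nonneg (hw : Wt w) (hL : Mono 0 L) (l₀ : Lv Ω) (h : Ω → ℝ) (S : Finset ℕ) :
    0 ≤ al w L l₀ h S :=
  Finset.sum_nonneg fun k _ => mul_nonneg (dm_nonneg hL k) (aa_nonneg hw hL l₀ h k)

theorem vl_nonneg (hw : Wt w) (hL : Mono 0 L) (l₀ : Lv Ω) (h : Ω → ℝ) (S : Finset ℕ) :
    0 ≤ vl w L l₀ h S :=
  Finset.sum_nonneg fun k _ => mul_nonneg (dm_nonneg hL k) (vv_nonneg hw l₀ h L k)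

theorem vl_le (hw : Wt w) (hL : Mono 0 L) (l₀ : Lv Ω) (h : Ω → ℝ) {S : Finset ℕ} {x : ℝ}
    (hx : 0 < x) (hx' : ∀ j ∈ S, x ≤ ex L j) : vl w L l₀ h S ≤ al w L l₀ h S / x :=
  vv_win hw hL l₀ h (fun k _ => dm_nonneg hL k) hx hx'

/-- pairs: `E (R - q)² = E (ρ - q)² + tr C² + 2 V` -/
theorem pair_eq (hw : Wt w) (L : List (Lv Ω)) (l₀ : Lv Ω) (h : Ω → ℝ) (q : ℝ) (j : ℕ) :
    pi2 w L j (fun x y => (l₀.cov x y - q) ^ 2) h =
      sq2 w L l₀ h q j + tc w L l₀ h j + 2 * vv w L l₀ h j := by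
  rw [pi2_sq hw, sq2, tc, vv]; ring

/-! ### higher moments -/



theorem pi2_le2 (hw : Wt w) (L : List (Lv Ω)) (j : ℕ) {K A B : Ω → Ω → ℝ} {a b : ℝ}
    (e : ∀ x y, K x y ≤ a * A x y + b * B x y) (h : Ω → ℝ) :
    pi2 w L j K h ≤ a * pi2 w L j A h + b * pi2 w L j B h :=
  node_le2 hw (eg_qf hw _ K) (eg_qf hw _ A) (eg_qf hw _ B) (fun z => by
    rw [← qf_const_mul, ← qf_const_mul, ← qf_add]
    exact qf_mono (P_nonneg hw _ z) e) L j h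



/-! ### windows -/

section win
variable (hw : Wt w) (hL : Mono 0 L) (h : Ω → ℝ) {T : Set (Equiv.Perm Ω)}
  (hT : ∀ τ ∈ T, Sym w L h τ) (htr : ∀ x y, w x ≠ 0 → w y ≠ 0 → ∃ τ ∈ T, τ x = y)
  (h₀ : ∀ τ ∈ T, ∀ x y, l₀.cov (τ x) (τ y) = l₀.cov x y)
include hw hL hT htr h₀

/-- **one node between two windows** -/
theorem sq_win {j : ℕ} {U D : Finset ℕ} (hU : ∀ k ∈ U, j ≤ k ∧ 1 ≤ k ∧ k ≤ L.length)
    (hD : ∀ k ∈ D, k ≤ j ∧ 1 ≤ k ∧ k ≤ L.length) {M M' : ℝ} (hM : 0 < M) (hM' : 0 < M')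
    (h1 : M ≤ ∑ k ∈ U, dm L 0 k) (h2 : M' ≤ ∑ k ∈ D, dm L 0 k) {q e e' : ℝ}
    (he : ∀ k ∈ U, |rho w L l₀ h k - q| ≤ e) (he' : ∀ k ∈ D, |rho w L l₀ h k - q| ≤ e') :
    sq2 w L l₀ h q j ≤ 8 * (al w L l₀ h U / M ^ 2) + 8 * (al w L l₀ h D / M' ^ 2) + 2 * e ^ 2 +
      2 * e' ^ 2 + 8 * vv w L l₀ h j + 8 * (vl w L l₀ h D / M') := by
  have p1 := hM.trans_le h1
  have p2 := hM'.trans_le h2
  have a1 := avg_le (r := rho w L l₀ h) (dm_nonneg hL) p1 he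
  have a2 := avg_le (r := rho w L l₀ h) (dm_nonneg hL) p2 he'
  have u1 : ∀ k ∈ U, 1 ≤ k ∧ k ≤ L.length := fun k hk => (hU k hk).2
  have u2 : ∀ k ∈ D, 1 ≤ k ∧ k ≤ L.length := fun k hk => (hD k hk).2
  set MU := ∑ k ∈ U, dm L 0 k with hMU
  set MD := ∑ k ∈ D, dm L 0 k with hMD
  have i1 := inv_pos.2 p1
  have i2 := inv_pos.2 p2
  have key := sand hw hL h hT htr l₀ h₀ j (φ := fun k => if k ∈ U then MU⁻¹ else 0)
    (φ' := fun k => if k ∈ D then MD⁻¹ else 0) (b := MU⁻¹ + MD⁻¹)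
    (fun k => by split_ifs <;> constructor <;> linarith)
    (fun k => by split_ifs <;> constructor <;> linarith)
    (by have := sum_ind u1 (dm L 0) (fun _ => 1) MU⁻¹
        simp only [mul_one] at this
        rw [this, ← hMU, inv_mul_cancel₀ p1.ne'])
    (by have := sum_ind u2 (dm L 0) (fun _ => 1) MD⁻¹
        simp only [mul_one] at this
        rw [this, ← hMD, inv_mul_cancel₀ p2.ne'])
    (fun k hk => if_neg fun hk' => by have := (hU k hk').1; omega)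
    (fun k hk => if_neg fun hk' => by have := (hD k hk').1; omega) q
  have e1 : ∀ (S : Finset ℕ) (c : ℝ) (k : ℕ), (if k ∈ S then c else 0) ^ 2 =
      if k ∈ S then c ^ 2 else 0 := fun S c k => by split_ifs <;> simp
  simp only [e1, mul_add, add_mul, Finset.sum_add_distrib] at key
  rw [sum_ind u1 (dm L 0) (fun k => node w L k (mAm w (L.drop k) l₀) h),
    sum_ind u2 (dm L 0) (fun k => node w L k (mAm w (L.drop k) l₀) h),
    sum_ind u1 (dm L 0) (rho w L l₀ h), sum_ind u2 (dm L 0) (rho w L l₀ h),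
    sum_ind u2 (dm L 0) (fun k => node w L k (Vq w (L.drop k) l₀) h)] at key
  have b1 : MU⁻¹ ^ 2 * al w L l₀ h U ≤ al w L l₀ h U / M ^ 2 := by
    rw [inv_pow, ← div_eq_inv_mul]
    exact div_le_div_of_nonneg_left (al_nonneg hw hL l₀ h U) (by positivity)
      (pow_le_pow_left₀ hM.le h1 2)
  have b2 : MD⁻¹ ^ 2 * al w L l₀ h D ≤ al w L l₀ h D / M' ^ 2 := by
    rw [inv_pow, ← div_eq_inv_mul]
    exact div_le_div_of_nonneg_left (al_nonneg hw hL l₀ h D) (by positivity)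
      (pow_le_pow_left₀ hM'.le h2 2)
  have b3 : MD⁻¹ * vl w L l₀ h D ≤ vl w L l₀ h D / M' := by
    rw [← div_eq_inv_mul]
    exact div_le_div_of_nonneg_left (vl_nonneg hw hL l₀ h D) hM' h2
  simp only [al, vl, aa, vv] at b1 b2 b3
  simp only [sq2, al, vl, aa, vv]
  linarith

/-- **abstract window system**: masses `≥ M`, multiplicity `≤ u` -/
theorem sq_sys {S E : Finset ℕ} {U D : ℕ → Finset ℕ} (hE : ∀ k ∈ E, 1 ≤ k ∧ k ≤ L.length)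
    (hU : ∀ j ∈ S, U j ⊆ E ∧ ∀ k ∈ U j, j ≤ k) (hD : ∀ j ∈ S, D j ⊆ E ∧ ∀ k ∈ D j, k ≤ j)
    {M : ℝ} (hM : 0 < M) (h1 : ∀ j ∈ S, M ≤ ∑ k ∈ U j, dm L 0 k)
    (h2 : ∀ j ∈ S, M ≤ ∑ k ∈ D j, dm L 0 k) {u : ℕ}
    (m1 : ∀ k ∈ E, (S.filter fun j => k ∈ U j).card ≤ u)
    (m2 : ∀ k ∈ E, (S.filter fun j => k ∈ D j).card ≤ u) {q e e' c : ℕ → ℝ}
    (he : ∀ j ∈ S, ∀ k ∈ U j, |rho w L l₀ h k - q j| ≤ e j)
    (he' : ∀ j ∈ S, ∀ k ∈ D j, |rho w L l₀ h k - q j| ≤ e' j) {κ : ℝ} (hκ : 0 ≤ κ)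
    (hc : ∀ j ∈ S, 0 ≤ c j ∧ c j ≤ κ) :
    ∑ j ∈ S, c j * sq2 w L l₀ h (q j) j ≤
      κ * u * (16 * (al w L l₀ h E / M ^ 2) + 8 * (vl w L l₀ h E / M)) +
      2 * ∑ j ∈ S, c j * (e j ^ 2 + e' j ^ 2) + 8 * ∑ j ∈ S, c j * vv w L l₀ h j := by
  have s1 := sum_mult (fun j hj => (hU j hj).1) (fun k _ =>
    mul_nonneg (dm_nonneg hL k) (aa_nonneg hw hL l₀ h k)) m1
  have s2 := sum_mult (fun j hj => (hD j hj).1) (fun k _ =>
    mul_nonneg (dm_nonneg hL k) (aa_nonneg hw hL l₀ h k)) m2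
  have s3 := sum_mult (fun j hj => (hD j hj).1) (fun k _ =>
    mul_nonneg (dm_nonneg hL k) (vv_nonneg hw l₀ h L k)) m2
  have t : ∑ j ∈ S, c j * sq2 w L l₀ h (q j) j ≤ ∑ j ∈ S,
      (κ * (8 / M ^ 2) * al w L l₀ h (U j) + κ * (8 / M ^ 2) * al w L l₀ h (D j) +
        κ * (8 / M) * vl w L l₀ h (D j) + 2 * (c j * (e j ^ 2 + e' j ^ 2)) +
        8 * (c j * vv w L l₀ h j)) := by
    refine Finset.sum_le_sum fun j hj => ?_
    have k1 := sq_win hw hL h hT htr h₀ (j := j)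
      (fun k hk => ⟨(hU j hj).2 k hk, hE k ((hU j hj).1 hk)⟩)
      (fun k hk => ⟨(hD j hj).2 k hk, hE k ((hD j hj).1 hk)⟩) hM hM (h1 j hj) (h2 j hj)
      (he j hj) (he' j hj)
    have k2 : 0 ≤ 8 * (al w L l₀ h (U j) / M ^ 2) + 8 * (al w L l₀ h (D j) / M ^ 2) +
        8 * (vl w L l₀ h (D j) / M) := by
      have := al_nonneg hw hL l₀ h (U j)
      have := al_nonneg hw hL l₀ h (D j)
      have := vl_nonneg hw hL l₀ h (D j)
      positivity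
    have k3 := mul_le_mul_of_nonneg_left k1 (hc j hj).1
    have k4 := mul_le_mul_of_nonneg_right (hc j hj).2 k2
    calc _ ≤ _ := k3
      _ = c j * (8 * (al w L l₀ h (U j) / M ^ 2) + 8 * (al w L l₀ h (D j) / M ^ 2) +
          8 * (vl w L l₀ h (D j) / M)) + 2 * (c j * (e j ^ 2 + e' j ^ 2)) +
          8 * (c j * vv w L l₀ h j) := by ring
      _ ≤ κ * (8 * (al w L l₀ h (U j) / M ^ 2) + 8 * (al w L l₀ h (D j) / M ^ 2) +
          8 * (vl w L l₀ h (D j) / M)) + 2 * (c j * (e j ^ 2 + e' j ^ 2)) +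
          8 * (c j * vv w L l₀ h j) := by linarith
      _ = _ := by ring
  simp only [Finset.sum_add_distrib, ← Finset.mul_sum] at t
  have q1 : 0 ≤ κ * (8 / M ^ 2) := by positivity
  have q2 : 0 ≤ κ * (8 / M) := by positivity
  have r1 := mul_le_mul_of_nonneg_left s1 q1
  have r2 := mul_le_mul_of_nonneg_left s2 q1
  have r3 := mul_le_mul_of_nonneg_left s3 q2
  simp only [al, vl] at t ⊢
  calc _ ≤ _ := t
    _ ≤ κ * (8 / M ^ 2) * (u * ∑ k ∈ E, dm L 0 k * aa w L l₀ h k) +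
        κ * (8 / M ^ 2) * (u * ∑ k ∈ E, dm L 0 k * aa w L l₀ h k) +
        κ * (8 / M) * (u * ∑ k ∈ E, dm L 0 k * vv w L l₀ h k) +
        2 * ∑ j ∈ S, c j * (e j ^ 2 + e' j ^ 2) + 8 * ∑ j ∈ S, c j * vv w L l₀ h j := by linarith
    _ = _ := by ring



end win

/-! ### blocks of uniform mass -/

variable {τ : ℕ → ℝ} {Λ σ : ℝ} {A B : ℕ}

/-- the bound on `∑ a_J` over `N` nodes: rise `R₀` inside, look-back slope `g` -/
def lb (Λ σ : ℝ) (D N : ℕ) (top R₀ g : ℝ) : ℝ :=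
  (D + 2) * (N * top / (σ * 2 ^ D) + D * ((R₀ + 2 * g * N) / σ) + Λ * (R₀ + g))



/-- the bound on `a` near a good node -/
def ag (Λ σ : ℝ) (D : ℕ) (top g : ℝ) : ℝ := (D + 2) * (top / (σ * 2 ^ D) + 3 * D * g / σ + Λ * g)

section blk
variable (H : Blk w L l₀ τ Λ σ A B) (h : Ω → ℝ) {T : Set (Equiv.Perm Ω)}
  (hT : ∀ τ ∈ T, Sym w L h τ) (htr : ∀ x y, w x ≠ 0 → w y ≠ 0 → ∃ τ ∈ T, τ x = y)
  (h₀ : ∀ τ ∈ T, ∀ x y, l₀.cov (τ x) (τ y) = l₀.cov x y)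
include H


include hT htr h₀



end blk

/-! ### summed moments -/





end Crest.Agent.T156.Cas.Wr5

end
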