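import Crest.Agent.T156.ClE1b_61
import Crest.Agent.T156.Cost_41
import Crest.Agent.T156.QCl_33
import Crest.Agent.T156.Wr_5

/-!
# Row 156 (helper49): path sizes for (E1), class-free part
-/

set_option autoImplicit false
set_option linter.unusedSectionVars false

noncomputable section

namespace Crest.Agent.T156.Alt.E49

open MeasureTheory Real Set Filter Topology
open Crest.Agent.T157.E Crest.Agent.T157.Casc Crest.Agent.T157.SL
open Crest.Agent.T156.Cas Crest.Agent.T156.Cas.Sy41 Crest.Agent.T156.Cas.Q33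
open Crest.Agent.T156.Alt.Md67 Crest.Agent.T156.Alt.E61
open Crest.Agent.T156.Alt.Cost41 (aM Phi RW)

/-- `E V` at the profile node `k` -/
def vM (M : Md) (m : ℕ) (a : ℝ) (k : ℕ) : ℝ := vv (fun _ => 1) (M.L m a) (sl m) 0 (k + 1)

/-- `E tr C²` at the profile node `k` -/
def tM (M : Md) (m : ℕ) (a : ℝ) (k : ℕ) : ℝ := tc (fun _ => 1) (M.L m a) (sl m) 0 (k + 1)

variable {M : Md} {m : ℕ} {a ms : ℝ} {u : ℕ → ℝ}

theorem Vn_eq (k : ℕ) : Vn M m a k = tM M m a k + 2 * vM M m a k := rfl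

theorem vM_nn (k : ℕ) : 0 ≤ vM M m a k := vv_nonneg Link33.wt1 _ _ _ _

theorem tM_nn (k : ℕ) : 0 ≤ tM M m a k := tc_nonneg _ _ _ _

theorem aM_le_vM (G : Lg M m a) (k : ℕ) : aM M m a k ≤ vM M m a k :=
  node_mono Link33.wt1 (eg_mAm Link33.wt1 _ _) (eg_Vq Link33.wt1 _ _)
    (fun z => (Hess87.sandwich Link33.wt1 _ _ 0 z (Sy41.mono_drop _ G.monoL)).2) _ _ _

theorem z_vM (G : Lg M m a) (k : ℕ) : M.z k * vM M m a k ≤ aM M m a k :=
  vv_le Link33.wt1 G.monoL _ _ (ex_succ G.toLeg k).ge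

theorem vM_le (G : Lg M m a) {k : ℕ} {x : ℝ} (h0 : 0 < x) (hx : x ≤ M.z k) :
    vM M m a k ≤ aM M m a k / x := by
  rw [le_div_iff₀' h0]
  exact (mul_le_mul_of_nonneg_right hx (vM_nn k)).trans (z_vM G k)

theorem aM_le_U2 (G : Lg M m a) (k : ℕ) : 2 * aM M m a k ≤ U2 M m a k := by
  have := Vn_le (M := M) (a := a) G.m0 k
  rw [Vn_eq] at this
  linarith [aM_le_vM G k, tM_nn (M := M) (m := m) (a := a) k]

theorem aM_le_u (G : Lg M m a) (hu : Mj M m a u) {k : ℕ} (hk : k < M.N) :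
    aM M m a k ≤ u k ^ 2 := by
  linarith [aM_le_U2 G k, U2_le hu hk, Cost41.aM_nonneg G k]

theorem Vn_le_u (hm : 0 < m) (hu : Mj M m a u) {k : ℕ} (hk : k < M.N) : Vn M m a k ≤ u k ^ 2 :=
  (Vn_le hm k).trans (U2_le hu hk)

theorem r2_le_u (hm : 0 < m) (hu : Mj M m a u) {k : ℕ} (hk : k < M.N) : r2 M m a k ≤ u k ^ 2 :=
  (r2_le hm k).trans (U2_le hu hk)


theorem sum_dz_div (G : Lg M m a) (z0 : 0 < M.z 0) (N : ℕ) :
    ∑ k ∈ Finset.range (N + 1), M.dz m a k / M.z k ≤ 1 + log (M.z N / M.z 0) := by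
  induction N with
  | zero =>
    rw [Finset.sum_range_one, div_self z0.ne', log_one, add_zero, dz_zero G.toLeg, div_le_one z0]
    linarith [G.a0]
  | succ N ih =>
    have p : 0 < M.z N := z0.trans_le (G.zm (Nat.zero_le _))
    have p' : 0 < M.z (N + 1) := z0.trans_le (G.zm (Nat.zero_le _))
    have l1 : 1 - M.z N / M.z (N + 1) ≤ log (M.z (N + 1) / M.z 0) - log (M.z N / M.z 0) := by
      rw [← log_div (by positivity) (by positivity)]
      have := one_sub_inv_le_log_of_pos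
        (show 0 < M.z (N + 1) / M.z 0 / (M.z N / M.z 0) by positivity)
      refine le_trans (le_of_eq ?_) this
      field_simp
    have e : M.dz m a (N + 1) / M.z (N + 1) = 1 - M.z N / M.z (N + 1) := by
      rw [dz_succ G.toLeg]; field_simp
    rw [Finset.sum_range_succ, e]
    linarith

theorem sum_Sl {f : ℕ → ℝ} (f0 : ∀ k < M.N, 0 ≤ f (k + 1)) :
    ∑ y ∈ Eg33.Sl (eD M m a u ms), f y ≤ ∑ k ∈ Finset.range M.N, f (k + 1) := by
  rw [Finset.range_eq_Ico, Finset.sum_Ico_add' f 0 M.N 1]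
  refine Finset.sum_le_sum_of_subset_of_nonneg (fun y hy => ?_) fun y hy _ => ?_
  · obtain ⟨h1, h2⟩ := Finset.mem_filter.1 hy
    have : y ≠ 0 := fun e => h2 (e ▸ eD_t0)
    rw [Finset.mem_range, eD_K] at h1
    rw [Finset.mem_Ico]; omega
  · obtain ⟨h1, h2⟩ := Finset.mem_Ico.1 hy
    obtain ⟨k, rfl⟩ : ∃ k, y = k + 1 := ⟨y - 1, by omega⟩
    exact f0 k (by omega)


/-- `tr C²` at a node with field -/
theorem tM_le (G : Lg M m a) {k : ℕ} (hk : k < M.N) {σ x : ℝ} (σ0 : 0 < σ) (x0 : 0 < x)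
    (hx : x ≤ M.z k) (hσ : σ ≤ M.z k * ((M.H (k + 1) - M.H k) * m)) :
    tM M m a k ≤ (2 / (σ * x) + 2 / x ^ 2) * (M.rb m a (k + 1) - M.rb m a k) := by
  have z0 : 0 < M.z k := x0.trans_le hx
  have h1 := (C33.dt G).ta_le 0 (j := k + 1) (by rw [len_L]; omega)
  have h2 := tc_le Link33.wt1 G.monoL (sl m) 0 z0.le (ex_succ G.toLeg k).ge
  rw [C33.tau_succ, ← rb_eq (sl_cov G.m0), ← rb_eq (sl_cov G.m0), mul_one] at h1
  set τ := (M.H (k + 1) - M.H k) * m
  set d := M.rb m a (k + 1) - M.rb m a k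
  have d0 : 0 ≤ d := sub_nonneg.2 (Md67.rb_mono G.m0 k.le_succ)
  have τ0 : 0 < τ := (pos_iff_pos_of_mul_pos (σ0.trans_le hσ)).1 z0
  have h3 : tM M m a k ≤ (2 / (τ * M.z k ^ 2) + 2 / M.z k ^ 2) * d := by
    have := (mul_le_mul_of_nonneg_left h2 τ0.le).trans h1
    rw [show (2 / (τ * M.z k ^ 2) + 2 / M.z k ^ 2) * d = (2 + 2 * τ) * d / (τ * M.z k ^ 2) by
      field_simp, le_div_iff₀ (by positivity), tM]
    linarith
  refine h3.trans (mul_le_mul_of_nonneg_right (add_le_add ?_ ?_) d0)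
  · refine div_le_div_of_nonneg_left zero_le_two (by positivity) ?_
    have := mul_le_mul hσ hx x0.le (by positivity)
    linarith
  · exact div_le_div_of_nonneg_left zero_le_two (by positivity) (pow_le_pow_left₀ x0.le hx 2)

/-- **`VV` from a window `[t, j)`** -/
theorem VVn_win (G : Lg M m a) {t j : ℕ} (htj : t ≤ j) (hj : j ≤ M.N) {x S W : ℝ} (x0 : 0 < x)
    (hx : x ≤ M.z t) (S0 : 0 < S)
    (hS : S ≤ ∑ k ∈ Finset.Ico t j, M.z k * ((M.H (k + 1) - M.H k) * m)) (W0 : 0 < W)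
    (hW : W ≤ ∑ k ∈ Finset.Ico t j, M.dz m a k) :
    VVn M m a j ≤ M.rb m a j / S +
      (1 + M.z t / W) * ∑ k ∈ Finset.Ico t j, M.dz m a k * tM M m a k +
        (∑ k ∈ Finset.Ico t j, M.dz m a k * aM M m a k) / x := by
  have zt : 0 < M.z t := x0.trans_le hx
  have zj : M.z t ≤ M.z j := G.zm htj
  have e : ∀ (f : ℕ → ℝ) (i : ℕ), ∑ y ∈ Finset.Ico (i + 1) (j + 1), f y =
      ∑ k ∈ Finset.Ico i j, f (k + 1) := fun f i => (Finset.sum_Ico_add' f i j 1).symm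
  have hX : ∑ y ∈ Finset.Ico (0 + 1) (t + 1), dm (M.L m a) 0 y ≤ M.z t := by
    rw [← Finset.sum_Ico_add' _ 0 t 1]
    have := sum_dz_range (m := m) (a := a) G.toLeg t
    rw [Finset.sum_range_succ, Finset.range_eq_Ico] at this
    simp only [dm_succ]
    linarith [G.dz_nonneg t, G.a0]
  have := Eg33.vv_sum (C33.dt G) 0 (b := 0 + 1) (t := t + 1) (j := j + 1) (by omega) (by omega)
    (by rw [len_L]; omega) (zt.trans_le zj) (ex_succ G.toLeg j).ge S0 (by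
      rw [e]; simpa only [ex_succ G.toLeg, C33.tau_succ] using hS)
    (c := dm (M.L m a) 0) (dm_nonneg G.monoL) hX W0 (by rw [e]; exact hW)
  rw [e, e, e, ← rb_eq (sl_cov G.m0), ← Finset.range_eq_Ico] at this
  refine le_trans this (add_le_add (add_le_add ?_ le_rfl) ?_)
  · have r := rb_nonneg (M := M) (a := a) G.m0 j
    rw [mul_div_assoc', div_le_div_iff₀ (by have := zt.trans_le zj; positivity) S0]
    have := mul_le_mul_of_nonneg_right zj (mul_nonneg r S0.le)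
    linarith
  · rw [Finset.sum_div]
    refine Finset.sum_le_sum fun k hk => ?_
    rw [mul_div_assoc]
    exact mul_le_mul_of_nonneg_left (vM_le G x0 (hx.trans (G.zm (Finset.mem_Ico.1 hk).1)))
      (G.dz_nonneg k)

theorem r2_eq (hm : 0 < m) (k : ℕ) :
    r2 M m a k = Wr5.vr (fun _ => 1) (M.L m a) (sl m) 0 (k + 1) := by
  rw [r2, rh_eq (sl_cov hm), rb_eq (sl_cov hm)]; rfl

/-! ### sequences -/

theorem RW_top {ρ W : ℕ → ℝ} {j0 N : ℕ} {B : ℝ} (hρ : Monotone ρ) (ρ0 : 0 ≤ ρ j0) (h : j0 ≤ N)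
    (hW : ∀ j, j0 ≤ j → j ≤ N → W j ≤ B) : RW ρ W j0 N ≤ B * ρ N := by
  refine (Cost41.RW_mono (W' := fun _ => B) hρ ρ0 h hW).trans (le_of_eq ?_)
  rw [RW, ← Finset.sum_mul, Cost41.tele ρ h]
  ring

/-- the mirror of `RW_low` below a corner `b` -/
theorem RW_up {ρ : ℕ → ℝ} {c b : ℕ} {v l Λ : ℝ} (h : c < b) (v0 : 0 ≤ v) (l0 : 0 < l) (Λ0 : 0 ≤ Λ)
    (hρ : ∀ i, c + i < b → ρ b - ρ (b - 1 - i) ≤ Λ * (i * v + l)) :
    ∑ j ∈ Finset.Ioc c b, (ρ j - ρ (j - 1)) * (1 / (((b - j : ℕ) : ℝ) * v + l)) ≤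
      Λ * (1 + log (1 + b * v / l)) := by
  have k := Cost41.RW_low (ρ := fun i => ρ b - ρ (b - 1 - i)) (y := fun i => (i : ℝ) * v + l)
    (j0 := 0) (N := b - c - 1) (B := 1) (Nat.zero_le _) zero_le_one Λ0 (by simpa using l0)
    (fun i j hij => add_le_add (mul_le_mul_of_nonneg_right (Nat.cast_le.2 hij) v0) le_rfl)
    fun j _ hj => hρ j (by omega)
  have e : ∑ j ∈ Finset.Ioc c b, (ρ j - ρ (j - 1)) * (1 / (((b - j : ℕ) : ℝ) * v + l)) =
      RW (fun i => ρ b - ρ (b - 1 - i)) (fun i => 1 / ((i : ℝ) * v + l)) 0 (b - c - 1) := by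
    rw [RW, ← Finset.add_sum_erase _ _ (Finset.mem_Ioc.2 ⟨h, le_rfl⟩ : b ∈ Finset.Ioc c b)]
    congr 1
    · simp
    · refine Finset.sum_nbij' (fun j => b - j) (fun i => b - i) (fun j hj => ?_) (fun i hi => ?_)
        (fun j hj => ?_) (fun i hi => ?_) fun j hj => ?_
      all_goals simp only [Finset.mem_erase, Finset.mem_Ioc] at *
      · omega
      · omega
      · omega
      · omega
      · rw [show b - 1 - (b - j) = j - 1 by omega, show b - 1 - (b - j - 1) = j by omega]; ring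
  rw [e]
  refine k.trans ?_
  rw [mul_one]
  refine mul_le_mul_of_nonneg_left (add_le_add le_rfl (log_le_log (by simp; positivity) ?_)) Λ0
  have : ((b - c - 1 : ℕ) : ℝ) ≤ b := Nat.cast_le.2 (by omega)
  have := mul_le_mul_of_nonneg_right this v0
  simp only [Nat.cast_zero, zero_mul, zero_add]
  rw [div_le_iff₀ l0, add_mul, div_mul_cancel₀ _ l0.ne']
  linarith


end Crest.Agent.T156.Alt.E49

end
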