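import Crest.Agent.T156.ClSzB_61
import Crest.Agent.T156.TL0B_9
import Crest.Agent.T156.TLtD_5

/-!
# Row 156, block (L) (helper61): the crude location `L cl V`, `N 2` from the top sum
-/

set_option autoImplicit false

noncomputable section

namespace Crest.Agent.T156.Alt.Sz9.C61

open Real Finset Filter
open Crest.Agent.T156.Alt.E61 Crest.Agent.T156.Alt.Md67 Crest.Agent.T156.Alt.C33
open Crest.Agent.T156.Alt.L69 Crest.Agent.T156.Alt.Mp9

variable {S : Sc} {M : Md} {m : ℕ} {a lam E l0 X V L : ℝ}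

theorem cl_ge {t : ℝ} (V0 : 0 ≤ V) (ht : 0 ≤ t) : t ≤ cl S V t :=
  (cc_ge S ht).trans (le_add_of_nonneg_right V0)

theorem cl_mono (h : Cl S M) {t t' : ℝ} (ht : 0 < t) (htt : t ≤ t') : cl S V t ≤ cl S V t' :=
  add_le_add (cc_mono h ht htt) le_rfl

/-- **`Cf` for `L cl V`** -/
theorem cf_cl (h : Cl S M) (l1 : 0 < l0) (V0 : 0 ≤ V) (L1 : 1 ≤ L) (h1 : E * M.s S.jl ≤ l0)
    (h2 : S.w3 l0 ≤ l0 ^ 3) (h3 : E * l0 ≤ 1)
    (cru : ∀ k ≤ S.Jp, M.rb m a k ≤ L * cl S V (max (M.z k) l0)) :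
    Cf E S M m a l0 fun t => L * cl S V t := by
  have L0 : 0 < L := by linarith
  have ge : ∀ t, l0 ≤ t → cc S t ≤ L * cl S V t := fun t ht =>
    (le_add_of_nonneg_right V0).trans (le_mul_of_one_le_left
      ((l1.le.trans ht).trans (cl_ge V0 (l1.le.trans ht))) L1)
  refine ⟨h1, h2, h3, fun t t' a1 a2 => mul_le_mul_of_nonneg_left (cl_mono h (l1.trans_le a1) a2)
    L0.le, fun t ht => (cc_ge S (l1.le.trans ht)).trans (ge t ht), fun t ht => ?_,
    fun t t' a1 a2 => ?_, cru⟩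
  · have t0 := l1.trans_le ht
    refine le_trans ?_ (pow_le_pow_left₀ (t0.le.trans (cc_ge S t0.le)) (ge t ht) 3)
    rw [cc_cube h t0]; exact le_max_right _ _
  · have t0 := l1.trans_le a1
    have t1 := t0.trans_le a2
    have b1 := cr_dbl h t0 a2
    have b2 : V / t' ≤ V / t := div_le_div_of_nonneg_left V0 t0 a2
    have b3 : 0 ≤ V / t := by positivity
    rw [cl, cl, mul_div_assoc, mul_div_assoc, add_div, add_div, mul_div_cancel_right₀ _ t0.ne',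
      mul_div_cancel_right₀ _ t1.ne', mul_left_comm]
    exact mul_le_mul_of_nonneg_left (by linarith) L0.le

theorem wc_cl (t : ℝ) : wc S (fun t => L * cl S V t) t = L * ws S V t := by
  unfold wc ws; ring

/-- **crude location from the a priori bound** -/
theorem cru_phi (F : Fn S M m a) (hX : Phi M S m a ≤ X) (X0 : 0 < X) (h8 : 8 * S.C ^ 3 * X ≤ 1)
    (hV : X ^ ((1 : ℝ) / 3) ≤ V) (l1 : 0 ≤ l0) (k : ℕ) :
    M.rb m a k ≤ 3 * S.C * cl S V (max (M.z k) l0) := by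
  have C0 := F.C0
  have C1 := F.C1
  have R0 : 0 < X ^ ((1 : ℝ) / 3) := by positivity
  have z0 := F.z_pos k
  have g := cc_ge S (l1.trans (le_max_right (M.z k) l0))
  have g' := le_max_left (M.z k) l0
  have e : cl S V (max (M.z k) l0) = cc S (max (M.z k) l0) + V := rfl
  rw [e]
  rcases le_total (2 * S.C * M.z k) 1 with c | c
  · have := start (T := max (M.b + M.H S.Jp) (M.s S.Jp))
      ⟨F.toCl, F.toIn, le_max_left _ _, le_max_right _ _⟩ hX R0 (cube_rp X0.le).ge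
      (le_of_pow_le_pow_left₀ three_ne_zero zero_le_one (by
        rw [mul_pow, mul_pow, cube_rp X0.le]; linarith)) c
    have f := F.fine.trans (F.leg.zm (Nat.zero_le k))
    nlinarith [mul_le_mul_of_nonneg_left f C0.le, mul_le_mul_of_nonneg_left hV C0.le,
      mul_le_mul_of_nonneg_left (g'.trans g) C0.le, mul_le_mul_of_nonneg_right C1 R0.le,
      mul_pos C0 R0]
  · have := rb_le_one (M := M) (a := a) F.lg.m0 k
    nlinarith [mul_le_mul_of_nonneg_left (g'.trans g) C0.le, mul_pos C0 z0,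
      mul_nonneg C0.le (R0.le.trans hV)]


/-- `Cf` from the a priori bound -/
theorem cf_phi (F : Fn S M m a) (hX : Phi M S m a ≤ X) (X0 : 0 < X) (X1 : E * X ≤ 1)
    (hE : 8 * S.C ^ 3 ≤ E) (hV : X ^ ((1 : ℝ) / 3) ≤ V) (h1 : E * M.s S.jl ≤ l0)
    (h2 : S.w3 l0 ≤ l0 ^ 3) (h3 : E * l0 ≤ 1) :
    Cf E S M m a l0 fun t => 3 * S.C * cl S V t := by
  have C1 := F.C1
  have s0 := F.toCl.s_pos (F.i0.trans F.i1)
  have l1 : 0 < l0 := lt_of_lt_of_le (mul_pos (lt_of_lt_of_le (by positivity) hE) s0) h1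
  exact cf_cl F.toCl l1 (le_trans (by positivity) hV) (by linarith) h1 h2 h3 fun k _ =>
    cru_phi F hX X0 ((mul_le_mul_of_nonneg_right hE X0.le).trans X1) hV l1.le k

theorem Nu_split (u : ℕ → ℝ) (i : ℕ) : Nu M m a u i =
    ∑ k ∈ Bk S M, M.dz m a k * u k ^ i + ∑ k ∈ Tp S M, M.dz m a k * u k ^ i :=
  (sum_filter_add_sum_filter_not _ _ _).symm

/-- the bulk part of `N 2` under the a priori bound only -/
theorem bk2 (K : Kx lam S M m a) (b1 : 10 ^ 15 * S.C ^ 27 ≤ lam) (b2 : lam ≤ E)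
    (hX : Phi M S m a ≤ X) (X0 : 0 < X) (X1 : E * X ≤ 1) (hV : X ^ ((1 : ℝ) / 3) ≤ V)
    (h1 : E * M.s S.jl ≤ l0) (h2 : S.w3 l0 ≤ l0 ^ 3) (h3 : E * l0 ≤ 1) {X2 : ℝ}
    (x2a : l0 * cl S V l0 ^ 2 ≤ X2) (x2b : ∀ t, l0 ≤ t → t ≤ S.C → min (t * cl S V t ^ 2)
      (t * ws S V t ^ 2 + (t * ws S V t ^ 2) ^ ((3 : ℝ) / 7) * X ^ ((4 : ℝ) / 7)) ≤ X2) :
    0 ≤ X2 ∧ ∑ k ∈ Bk S M, M.dz m a k * u4 M m a k ^ 2 ≤ lam ^ 7 * X2 := by
  have F := K.fn
  have C1 := F.C1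
  have C0 := F.C0
  have l2 := K.l2
  have H := cf_phi F hX X0 X1 ((B61.cst_le C1 b1 (by norm_num) (by norm_num)).trans b2) hV h1 h2 h3
  have hE : 8 * S.C ^ 2 ≤ E := (B61.cst_le C1 b1 (by norm_num) (by norm_num)).trans b2
  have l1 := H.pos F hE
  have V0 : 0 ≤ V := le_trans (by positivity) hV
  have X20 : 0 ≤ X2 := le_trans (by positivity) x2a
  have X1' : X ≤ 1 := (le_mul_of_one_le_left X0.le (by linarith)).trans X1
  refine ⟨X20, ?_⟩
  rw [← sum_filter_add_sum_filter_not _ fun k => l0 ≤ M.s k]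
  have e7 : lam ^ 6 * X2 + lam ^ 6 * X2 ≤ lam ^ 7 * X2 := by
    have : 0 ≤ lam ^ 6 * X2 := by positivity
    nlinarith
  refine (add_le_add ((B61.up_sum K (B := 9 * 10 ^ 13 * S.C ^ 26 * lam ^ 2 * X2) l1 (by positivity)
    fun p a1 a2 => (B61.blk_opt K H hE a1 a2 hX X0 X1' rfl rfl rfl).1.trans ?_).trans
    (B61.lam_le 2 l2 (B61.cst_le C1 b1 (by norm_num) (by norm_num)) (by norm_num) X20))
    ((B61.sums_low K H hE 2).1.trans ?_)).trans e7
  · have t0 := l1.trans_le a1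
    have c0 := t0.trans_le (cl_ge (S := S) V0 t0.le)
    have k1 : 1 ≤ (3 * S.C) ^ 2 := one_le_pow₀ (by linarith)
    have e : ∀ x, M.s p * (3 * S.C * x) ^ 2 = (3 * S.C) ^ 2 * (M.s p * x ^ 2) := fun x => by ring
    rw [wc_cl, show 9 * 10 ^ 13 * S.C ^ 26 * lam ^ 2 * X2 =
      10 ^ 13 * S.C ^ 24 * lam ^ 2 * ((3 * S.C) ^ 2 * X2) by ring]
    refine mul_le_mul_of_nonneg_left ((min_sc (by positivity) (e _).le ?_).trans
      (mul_le_mul_of_nonneg_left (x2b _ a1 (F.toCl.s_le_C (by have := F.i3; omega)))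
        (by positivity))) (by positivity)
    rw [mul_add]
    exact add_le_add (e _).le (geo9 (by positivity) (le_min X0.le (by positivity)) (by positivity)
      X0.le (by positivity) (by norm_num) (by norm_num) (by norm_num) (e _).le
      ((min_le_left _ _).trans (le_mul_of_one_le_left X0.le k1)))
  · refine le_trans ?_ (B61.lam_le (c := 972 * S.C ^ 8) 1 l2
      (B61.cst_le C1 b1 (by norm_num) (by norm_num)) (by norm_num) X20)
    calc _ = lam * (972 * S.C ^ 8 * lam ^ 1 * (l0 * cl S V l0 ^ 2)) := by ring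
      _ ≤ _ := by gcongr

/-- the sum over the top window and the plateau under the hypotheses of `TLt` -/
def SzT2 : Prop := CL fun E Λ S M m a => ∀ l0 X Xp Vt X2 u1 j γ Lp,
  TH E S M m a l0 X Xp Vt X2 u1 j γ Lp →
    ∑ k ∈ Tp S M, M.dz m a k * u4 M m a k ^ 2 ≤ Λ * X2


/-- **`SzN2` from the top sum** -/
theorem szN2_of (h : SzT2) : SzN2 := by
  have key : CL fun E Λ S M m a => ∀ Λ', Λ ≤ Λ' → ∀ l0 X Xp Vt X2 u1 j γ Lp,
      TH E S M m a l0 X Xp Vt X2 u1 j γ Lp → Nu M m a (u4 M m a) 2 ≤ Λ' * X2 := by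
    refine (kx_ev.and h).glue' (fun _ _ _ _ _ _ _ _ h H _ h' => H _ (h.trans h')) 0 le_rfl 1 8
      fun C _ _ η _ _ => ⟨10 ^ 15 * C ^ 27,
        fun S M m a G _ b1 _ _ _ ⟨K, T⟩ Λ hΛ l0 X Xp Vt X2 u1 j γ Lp H => ?_⟩
    rw [pow_one] at H
    obtain ⟨X20, B⟩ := bk2 K (by rw [G.hC]; exact G.K_le) (Pre29.rp_le G.n1 (by simpa using b1))
      H.pri.all H.X0 H.X1 le_rfl H.l0s H.l0w H.l01 H.x2a H.x2b
    have T' := T _ _ _ _ _ _ _ _ _ H
    have l2 := K.l2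
    generalize (S.n : ℝ) ^ η = l at B T' l2 hΛ
    rw [Nu_split (S := S)]
    have a1 : l * X2 ≤ l ^ 7 * X2 :=
      mul_le_mul_of_nonneg_right (le_self_pow₀ (by linarith) (by norm_num)) X20
    have a2 : 0 ≤ l ^ 7 * X2 := by positivity
    nlinarith [mul_le_mul_of_nonneg_right hΛ X20]
  exact key.mono fun _ _ _ _ _ _ _ _ _ _ H => H _ le_rfl

end Crest.Agent.T156.Alt.Sz9.C61

end
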