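import Crest.Agent.T156.EDef_91
import Crest.Agent.T156.Wp_52

/-!
# Row 156 (helper91): moving the node of the base pair by one level

`lift i o τ` moves the node of depth `i` on the path of `o` to depth `i + 1`; `up1_lift` is the exact
weight identity, `cpl` the coupling bound, `avc_P1`, `avc_P2` the weights of one label and of two
nodes with the same label.
-/

set_option autoImplicit false
set_option linter.unusedSectionVars false

noncomputable section

namespace Crest.Agent.T156.Cas.E91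

open MeasureTheory Real Set Filter Topology
open Crest.Agent.T157.E Crest.Agent.T157.Casc Crest.Agent.T157.SL
open Nu87

variable {Ω : Type} {r K : ℕ} {L : List (Lv Ω)}

theorem rz_of_um {σ : SM (r + 1)} (H : Ker15.Um K σ) : Rz K σ := by
  obtain ⟨s, e, h1, h2, h3⟩ := H.lab
  have hb : Function.Bijective e := (Fintype.bijective_iff_injective_and_card e).2
    ⟨h2, le_antisymm (Fintype.card_le_of_injective e h2) (by simpa using h1)⟩
  exact ⟨s, Equiv.ofBijective e hb, h3.symm⟩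

/-- the node of depth `i` on the path of `o` goes to depth `i + 1` -/
def lift (i : ℕ) (o : Fin r) (τ : SM r) : SM r :=
  fun a b => if τ a b = i ∧ i ≤ τ a o then i + 1 else τ a b

theorem rz_lift {τ : SM (r + 1)} (h : Rz K τ) {i : ℕ} (hi : i < K) (o : Fin (r + 1)) :
    Rz K (lift i o τ) := by
  refine rz_of_um ⟨fun a => ?_, fun a b => ?_, fun a b c => ?_⟩
  · simp only [lift, h.self]
    rw [if_neg (by omega)]
  · have h1 := h.ultra a b o
    have h2 := h.ultra b a o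
    have h3 := h.comm a b
    simp only [lift]
    split_ifs <;> omega
  · have h1 := h.ultra a b c
    have h2 := h.ultra a b o
    have h3 := h.ultra b a o
    have h4 := h.comm a b
    simp only [lift]
    split_ifs <;> omega







/-! ### labels -/

/-- the label `y` occurs -/
def P1 (τ : SM r) (y : ℕ) : Prop := ∃ a b, a ≠ b ∧ τ a b = y

/-- two different nodes carry the label `y` -/
def P2 (τ : SM r) (y : ℕ) : Prop :=
  ∃ a b c d, a ≠ b ∧ c ≠ d ∧ τ a b = y ∧ τ c d = y ∧ τ a c < y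

open Classical in
/-- indicator -/
def ind (p : Prop) : ℝ := if p then 1 else 0

theorem ind_nonneg (p : Prop) : 0 ≤ ind p := by unfold ind; split_ifs <;> norm_num

theorem ind_le_one (p : Prop) : ind p ≤ 1 := by unfold ind; split_ifs <;> norm_num

theorem ind_pos {p : Prop} (h : p) : ind p = 1 := if_pos h

theorem ind_neg {p : Prop} (h : ¬p) : ind p = 0 := if_neg h

theorem ind_mono {p q : Prop} (h : p → q) : ind p ≤ ind q := by
  by_cases hp : p
  · rw [ind_pos hp, ind_pos (h hp)]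
  · rw [ind_neg hp]
    exact ind_nonneg q

theorem P1_gr {τ : SM r} (h : Rz K τ) {a : Fin r} {t y : ℕ} (ht : t ≤ K)
    (H : P1 (gr K τ a t) y) : P1 τ y ∨ t = y := by
  obtain ⟨b, c, hbc, e⟩ := H
  have k : ∀ b, min t (τ b a) = y → P1 τ y ∨ t = y := fun b e => by
    by_cases h1 : t = y
    · exact .inr h1
    · refine .inl ⟨b, a, fun hb => ?_, by omega⟩
      rw [hb, h.self] at e
      omega
  revert hbc e
  refine Fin.cases ?_ (fun b => ?_) b <;> refine Fin.cases ?_ (fun c => ?_) c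
  · exact fun h _ => absurd rfl h
  · exact fun _ e => k c e
  · exact fun _ e => k b e
  · exact fun hbc e => .inl ⟨b, c, fun h => hbc (by rw [h]), e⟩

/-- a pair of the grafted matrix with label `y` has an old representative, unless it is new -/
theorem rep_gr {τ : SM r} (h : Rz K τ) {a : Fin r} {t y : ℕ} (ht : t ≤ K)
    (hn : t ≠ y ∨ ∃ b, b ≠ a ∧ τ a b = t) {b c : Fin (r + 1)} (hbc : b ≠ c)
    (e : gr K τ a t b c = y) : ∃ b' c', b' ≠ c' ∧ τ b' c' = y ∧ y ≤ gr K τ a t b b'.succ := by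
  have k : ∀ c, min t (τ c a) = y → ∃ c', a ≠ c' ∧ τ a c' = y ∧ y ≤ t := fun c e => by
    by_cases h1 : τ c a < t
    · refine ⟨c, fun hc => ?_, by rw [h.comm]; omega, by omega⟩
      rw [← hc, h.self] at h1
      omega
    · rcases hn with hn | ⟨b, hb, hb'⟩
      · omega
      · exact ⟨b, hb.symm, by omega, by omega⟩
  revert hbc e
  refine Fin.cases ?_ (fun b => ?_) b <;> refine Fin.cases ?_ (fun c => ?_) c
  · exact fun h _ => absurd rfl h
  · intro _ e
    obtain ⟨c', h1, h2, h3⟩ := k c e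
    exact ⟨a, c', h1, h2, by rw [gr_0s, h.self]; omega⟩
  · intro _ e
    obtain ⟨c', h1, h2, h3⟩ := k b e
    rw [gr_s0] at e
    exact ⟨a, c', h1, h2, by rw [gr_ss]; omega⟩
  · intro hbc e
    exact ⟨b, c, fun h => hbc (by rw [h]), e, by rw [gr_ss, h.self]; exact e ▸ h.le b c⟩

theorem P2_old {τ : SM r} (h : Rz K τ) {a : Fin r} {t y : ℕ} (ht : t ≤ K)
    (hn : t ≠ y ∨ ∃ b, b ≠ a ∧ τ a b = t) (H : P2 (gr K τ a t) y) : P2 τ y := by
  obtain ⟨b, c, d, e, hbc, hde, e1, e2, e3⟩ := H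
  obtain ⟨b', c', h1, h2, h3⟩ := rep_gr h ht hn hbc e1
  obtain ⟨d', e', h4, h5, h6⟩ := rep_gr h ht hn hde e2
  refine ⟨b', c', d', e', h1, h4, h2, h5, ?_⟩
  have g := h.gr a t
  have u1 := g.ultra b b'.succ d'.succ
  have u2 := g.ultra b d'.succ d
  rw [g.comm d'.succ d] at u2
  rw [gr_ss] at u1
  omega

theorem P2_P1 {τ : SM r} (h : Rz K τ) {a : Fin r} {t y : ℕ} (H : P2 (gr K τ a t) y) : P1 τ y := by
  obtain ⟨b, c, d, e, hbc, hde, e1, e2, e3⟩ := H
  have g := h.gr a t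
  have u1 := g.ultra b c d
  have u2 := g.ultra b e d
  have u3 := g.ultra b c e
  rw [g.comm e d] at u2
  by_cases h0 : b = 0 ∨ c = 0
  · have hd : d ≠ 0 := by
      rintro rfl
      rcases h0 with rfl | rfl
      · rw [gr_00] at e3
        exact absurd (e1 ▸ g.le _ _) (not_le.2 e3)
      · omega
    have he : e ≠ 0 := by
      rintro rfl
      rcases h0 with rfl | rfl
      · have := g.comm 0 d
        omega
      · omega
    obtain ⟨d, rfl⟩ := Fin.exists_succ_eq.2 hd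
    obtain ⟨e, rfl⟩ := Fin.exists_succ_eq.2 he
    exact ⟨d, e, fun h => hde (by rw [h]), e2⟩
  · obtain ⟨b, rfl⟩ := Fin.exists_succ_eq.2 fun h => h0 (.inl h)
    obtain ⟨c, rfl⟩ := Fin.exists_succ_eq.2 fun h => h0 (.inr h)
    exact ⟨b, c, fun h => hbc (by rw [h]), e1⟩

theorem Br_single (y : ℕ) (hL : Mono 0 L) :
    Wp52.Br L (fun t => ind (t = y)) ≤ dm L 0 y := by
  rw [Wp52.Br]
  simp only [ind, mul_ite, mul_one, mul_zero, Finset.sum_ite_eq']
  split_ifs
  · exact le_rfl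
  · exact dm_nonneg hL y

theorem up1_new (hL : Mono 0 L) {τ : SM (r + 1)} (h : Rz L.length τ) {φ : SM (r + 2) → ℝ} {y : ℕ}
    {c : ℝ} (hc : 0 ≤ c) (h0 : ∀ σ, 0 ≤ φ σ)
    (h1 : ∀ a, ∀ t ≤ L.length, φ (gr L.length τ a t) ≤ c * ind (t = y))
    (h2 : ∀ a b, b ≠ a → φ (gr L.length τ a (τ a b)) = 0) : up1 L φ τ ≤ c * dm L 0 y := by
  rw [up1, div_le_iff₀ (by positivity)]
  refine (Wp52.Ws_le hL h fun a j _ => h0 _).trans ((Finset.sum_le_card_nsmul _ _ (c * dm L 0 y)
    fun a _ => ?_).trans (by simp [mul_comm]))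
  rw [Finset.sum_eq_zero fun b hb => by rw [h2 a b (Finset.ne_of_mem_erase hb), mul_zero], add_zero]
  refine (Wp52.Br_mono hL (h1 a)).trans ?_
  rw [Wp52.Br_mul]
  exact mul_le_mul_of_nonneg_left (Br_single y hL) hc

variable [Fintype Ω] {σ : SM (r + 1)}

theorem up1_le_one (hL : Mono 0 L) {τ : SM (r + 1)} (h : Rz L.length τ) (p : SM (r + 2) → Prop) :
    up1 L (fun σ => ind (p σ)) τ ≤ 1 :=
  (up1_mono hL h (ψ := fun _ => 1) fun _ _ => ind_le_one _).trans_eq (congrFun (up1_const 1) τ)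

theorem up1_P1 (hL : Mono 0 L) {τ : SM (r + 1)} (h : Rz L.length τ) (y : ℕ) :
    up1 L (fun σ => ind (P1 σ y)) τ ≤ ind (P1 τ y) + dm L 0 y := by
  by_cases H : P1 τ y
  · rw [ind_pos H]
    linarith [up1_le_one hL h fun σ => P1 σ y, dm_nonneg hL y]
  · rw [ind_neg H, zero_add, ← one_mul (dm L 0 y)]
    refine up1_new hL h zero_le_one (fun _ => ind_nonneg _) (fun a t ht => ?_) fun a b hb => ?_
    · rw [one_mul]
      exact ind_mono fun H' => (P1_gr h ht H').resolve_left H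
    · exact ind_neg fun H' => H ((P1_gr h (h.le a b) H').elim id fun e => ⟨a, b, hb.symm, e⟩)

theorem up1_P2 (hL : Mono 0 L) {τ : SM (r + 1)} (h : Rz L.length τ) (y : ℕ) :
    up1 L (fun σ => ind (P2 σ y)) τ ≤ ind (P2 τ y) + ind (P1 τ y) * dm L 0 y := by
  by_cases H : P2 τ y
  · rw [ind_pos H]
    linarith [up1_le_one hL h fun σ => P2 σ y, mul_nonneg (ind_nonneg (P1 τ y)) (dm_nonneg hL y)]
  · rw [ind_neg H, zero_add]
    refine up1_new hL h (ind_nonneg _) (fun _ => ind_nonneg _) (fun a t ht => ?_) fun a b hb => ?_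
    · by_cases H' : P2 (gr L.length τ a t) y
      · rw [ind_pos H', ind_pos (P2_P1 h H'), ind_pos (by
          by_contra e
          exact H (P2_old h ht (.inl e) H')), one_mul]
      · rw [ind_neg H']
        exact mul_nonneg (ind_nonneg _) (ind_nonneg _)
    · exact ind_neg fun H' => H (P2_old h (h.le a b) (.inr ⟨b, hb, rfl⟩) H')

theorem avc_P1 (hL : Mono 0 L) (hσ : Rz L.length σ) (y : ℕ) : ∀ k : ℕ,
    avc L σ k (fun τ => ind (P1 τ y)) ≤ ind (P1 σ y) + k * dm L 0 y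
  | 0 => by simp [avc]
  | k + 1 => by
      refine (avc_mono hL hσ k (ψ := fun τ => ind (P1 τ y) + dm L 0 y) fun τ hτ =>
        up1_P1 hL hτ y).trans ?_
      rw [avc_add, avc_const]
      push_cast
      linarith [avc_P1 hL hσ y k]

theorem avc_P2 (hL : Mono 0 L) (hσ : Rz L.length σ) {y : ℕ} (hy : ¬P1 σ y) : ∀ k : ℕ,
    avc L σ k (fun τ => ind (P2 τ y)) ≤ k ^ 2 * dm L 0 y ^ 2
  | 0 => by
      rw [avc, ind_neg fun ⟨a, b, _, _, h, _, e, _⟩ => hy ⟨a, b, h, e⟩]
      positivity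
  | k + 1 => by
      refine (avc_mono hL hσ k (ψ := fun τ => ind (P2 τ y) + dm L 0 y * ind (P1 τ y)) fun τ hτ =>
        (up1_P2 hL hτ y).trans_eq (by ring)).trans ?_
      rw [avc_add, avc_mul]
      have h1 := avc_P1 hL hσ y k
      rw [ind_neg hy, zero_add] at h1
      have h2 := dm_nonneg hL y
      have h3 := mul_le_mul_of_nonneg_left h1 h2
      have h4 := avc_P2 hL hσ hy k
      have h5 : (0 : ℝ) ≤ k := Nat.cast_nonneg k
      push_cast
      nlinarith [mul_nonneg h5 (sq_nonneg (dm L 0 y)), sq_nonneg (dm L 0 y)]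

/-- the potential of the labels that occur -/
def Psi (K : ℕ) (g : ℕ → ℝ) (τ : SM r) : ℝ := ∑ y ∈ Finset.range (K + 1), g y * ind (P1 τ y)

theorem le_Psi {g : ℕ → ℝ} (hg : ∀ y, 0 ≤ g y) {τ : SM r} (h : Rz K τ) {c d : Fin r} (hcd : c ≠ d) :
    g (τ c d) ≤ Psi K g τ := by
  refine le_trans ?_ (Finset.single_le_sum (f := fun y => g y * ind (P1 τ y))
    (fun y _ => mul_nonneg (hg y) (ind_nonneg _)) (Finset.mem_range.2 (Nat.lt_succ_of_le (h.le c d))))
  rw [ind_pos ⟨c, d, hcd, rfl⟩, mul_one]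

theorem Psi_nonneg {g : ℕ → ℝ} (hg : ∀ y, 0 ≤ g y) (τ : SM r) : 0 ≤ Psi K g τ :=
  Finset.sum_nonneg fun y _ => mul_nonneg (hg y) (ind_nonneg _)

theorem avc_Psi (hL : Mono 0 L) (hσ : Rz L.length σ) {g : ℕ → ℝ} (hg : ∀ y, 0 ≤ g y) (k : ℕ) :
    avc L σ k (Psi L.length g) ≤ Psi L.length g σ + k * Wp52.Br L g := by
  unfold Psi
  rw [avc_sum, Wp52.Br, Finset.mul_sum, ← Finset.sum_add_distrib]
  refine Finset.sum_le_sum fun y _ => ?_
  rw [avc_mul]
  nlinarith [mul_le_mul_of_nonneg_left (avc_P1 hL hσ y k) (hg y)]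

theorem abs_avc_le (hL : Mono 0 L) (hσ : Rz L.length σ) (k : ℕ) {φ ψ : SM (r + k + 1) → ℝ}
    (e : ∀ τ, Rz L.length τ → (∀ a b, τ (old k a) (old k b) = σ a b) → |φ τ| ≤ ψ τ) :
    |avc L σ k φ| ≤ avc L σ k ψ := by
  refine abs_le.2 ⟨?_, avc_mono' hL hσ k fun τ hτ h => (abs_le.1 (e τ hτ h)).2⟩
  have := avc_mono' hL hσ k (φ := fun τ => -1 * ψ τ) (ψ := φ) fun τ hτ h => by
    simpa using (abs_le.1 (e τ hτ h)).1
  rwa [avc_mul, neg_one_mul] at this



end Crest.Agent.T156.Cas.E91
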