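import Crest.Agent.T156.CutN_93

-- ▼ part T156/CutM_93
section

/-!
# Row 156, text (L) (helper93): nested cuts, part of the source absorbed in the energy
-/

set_option autoImplicit false

noncomputable section

namespace Crest.Agent.T156.Cut8

open MeasureTheory Set intervalIntegral Filter Topology

variable {T : ℝ}

theorem Zn.sub {c θ : ℝ} {zh zb ρ H r1 r2 ω β m f : ℝ → ℝ} {a s K2 e2 Ff Ω x y F1 : ℝ}
    (Z : Zn T c θ zh zb ρ H r1 r2 ω β m f a s K2 e2 Ff Ω) (hx : a ≤ x) (hy : y ≤ s)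
    (hF : ∫ t in x..y, f t ≤ F1) : Zn T c θ zh zb ρ H r1 r2 ω β m f x y K2 e2 F1 Ω :=
  ⟨Z.R.sub hx hy, Z.a0.trans hx, hy.trans Z.sT, Z.θ0, Z.K0, Z.lm, Z.lf,
    fun t u v => Z.f0 t (by linarith) (by linarith), hF,
    fun p q u v w => Z.mass p q (hx.trans u) v (w.trans hy),
    fun p q u v w => Z.om p q (hx.trans u) v (w.trans hy)⟩

theorem Mz.sub {zh zb H e : ℝ → ℝ} {x y γ M η c1 C1 δ x' y' : ℝ}
    (h : Mz zh zb H e x y γ M η c1 C1 δ) (hx : x ≤ x') (hy : y' ≤ y) :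
    Mz zh zb H e x' y' γ M η c1 C1 δ :=
  ⟨fun t t' u v w => h.lo t t' (hx.trans u) v (w.trans hy),
    fun t u v => h.crude t (hx.trans u) (v.trans hy),
    fun t u v => h.hH t (hx.trans u) (v.trans_le hy),
    fun t u v => h.hη t (hx.trans u) (v.trans_le hy)⟩


variable {P : Type} {c C : ℝ} {ok : P → Prop} {z Γ G : P → ℝ → ℝ} {pb ph : P}
  {H r1 r2 ω β m f : ℝ → ℝ}
  {θ a b s K2 e2 F0 Ff Ω γ g L M η c1 C1 δ μ E0 a' b' len ε Gm K3 θ1 P0 : ℝ} {Q : ℝ → Prop}



end Crest.Agent.T156.Cut8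
end
namespace Crest.Agent.T156.Cut8.Fr
end Crest.Agent.T156.Cut8.Fr
end

-- ▼ part T156/CutA_93

/-!
# Row 156, text (L) (helper93): cuts with the residual of the margin absorbed
(the proofs follow `Cut_8`, `CutB_8`)
-/

set_option autoImplicit false

noncomputable section

namespace Crest.Agent.T156.Cut8

open MeasureTheory Set intervalIntegral Filter Topology

variable {T : ℝ} {P : Type} {c C : ℝ} {ok : P → Prop} {z Γ G : P → ℝ → ℝ}

/-- the residual `e` is absorbed: `e v ≤ η v + k + M v² + v⁴` -/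
def Ab (e η k M : ℝ) : Prop := ∀ v, 0 ≤ v → e * v ≤ η * v + k + M * v ^ 2 + v ^ 4

/-- the error of a cut -/
def cutErr' (c C L M η α D ε len : ℝ) : ℝ :=
  38 * η * α + (57 * M + 38 * (20 * α / L + D) ^ 2) * α * (20 * α / L + D) +
    2 * C ^ 2 / c * (800 * L * α ^ 2 + len * (ε + 40 * L * α) ^ 2)

theorem Fr.cut_est' (F : Fr T c C ok z Γ G) {pb ph ps : P} (hb : ok pb) (hh : ok ph) (hs : ok ps)
    {a a1 b0 b α E0 L M η ε B0 : ℝ} (ha : 0 ≤ a) (h1 : a ≤ a1) (h2 : a1 ≤ b0) (h3 : b0 ≤ b)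
    (hbT : b ≤ T) (hL1 : a1 - a ≤ L) (hL2 : b - b0 ≤ L) (hM : 0 < M) (hη0 : 0 ≤ η) (hE0 : 0 ≤ E0)
    (h : Cmp T (z ph) (z pb) (z ps) a a1 b0 b α E0)
    {H r1 r2 w k : ℝ → ℝ} (lk : LB T k) (k0 : ∀ t, a < t → t < b → 0 ≤ k t) (lH : LB T H) (l1 : LB T r1) (l2 : LB T r2) (lw : LB T w)
    (heq : ∀ t, a < t → t < b → Γ pb t - Γ ph t + H t = r1 t + r2 t)
    (hr2 : ∀ t ∈ Icc a b, r2 t = r2 a + ∫ s in a..t, w s)
    (hH0 : ∀ t, a < t → t < b → 0 ≤ H t * (z pb t - z ph t))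
    (hH : ∀ t, a < t → t < b → t < a1 ∨ b0 ≤ t → H t ^ 2 ≤ M * (H t * (z pb t - z ph t)))
    (hη : ∀ t, a < t → t < b → t < a1 ∨ b0 ≤ t → ∀ v, 0 ≤ v →
      |r1 t| * v ≤ η * v + k t + M * v ^ 2 + v ^ 4)
    (hε : (∫ t in (0 : ℝ)..a, |Jf T (z ph) (z pb) t|) + (∫ t in b..T, |Jf T (z ph) (z pb) t|) ≤ ε)
    (hB0 : 0 ≤ B0) (hB : a1 = 0 → r2 0 * Jf T (z ph) (z pb) 0 ≤ B0) :
    c / 2 * (∫ t in a1..b0, Jf T (z ph) (z pb) t ^ 2) +
        (∫ t in a..b, H t * (z pb t - z ph t)) / 2 ≤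
      (∫ t in a..b, r1 t * (z pb t - z ph t)) + (∫ t in a..b, k t) + B0 + 38 * η * α +
        (∫ t in a..b, w t ^ 2) / c + (57 * M + 38 * E0 ^ 2) * α * E0 +
        2 * C ^ 2 / c * (800 * L * α ^ 2 + (b - a) * (ε + 40 * L * α) ^ 2) := by
  have hab : a ≤ b := by linarith
  have hT : 0 ≤ T := by linarith
  have hL : 0 ≤ L := by linarith
  have hα : 0 ≤ α := (abs_nonneg _).trans h.upJ
  have hc := F.c_pos
  have ma : a ∈ Icc 0 T := ⟨ha, by linarith⟩
  have ma1 : a1 ∈ Icc 0 T := ⟨by linarith, by linarith⟩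
  have mb0 : b0 ∈ Icc 0 T := ⟨by linarith, by linarith⟩
  have mb : b ∈ Icc 0 T := ⟨by linarith, hbT⟩
  have m0 : (0 : ℝ) ∈ Icc 0 T := left_mem_Icc.mpr hT
  have mT : T ∈ Icc 0 T := right_mem_Icc.mpr hT
  have ld : LB T fun t => z pb t - z ps t := (F.lbz hb).sub (F.lbz hs)
  have le : LB T fun t => z ps t - z ph t := (F.lbz hs).sub (F.lbz hh)
  have lz : LB T fun t => z pb t - z ph t := (F.lbz hb).sub (F.lbz hh)
  have lJ := F.lbJ hh hb mT
  have lK := F.lbJ hh hs mT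
  have lS := F.lbJ hs hb mb
  have lG : LB T fun t => G ps t - G ph t := (LB.of_cont (F.cont ps hs)).sub (.of_cont (F.cont ph hh))
  have sp : ∀ {x y : ℝ}, x ∈ Icc 0 T → y ∈ Icc 0 T →
      Jf T (z ph) (z ps) x = (∫ t in x..y, (z ps t - z ph t)) + Jf T (z ph) (z ps) y :=
    fun hx hy => int_split le hx hy mT
  have K1 : ∀ t, b ≤ t → t ≤ T → Jf T (z ph) (z ps) t = Jf T (z ph) (z pb) t := fun t t0 t1 =>
    integral_congr_Ioo_of_le t1 fun s hs => by
      simp only [h.out s (by linarith [hs.1]) hs.2 (.inr (t0.trans hs.1.le))]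
  have K3 : ∀ t, a1 ≤ t → t ≤ b0 → Jf T (z ph) (z ps) t = 0 := fun t t0 t1 => by
    rw [sp ⟨by linarith, by linarith⟩ mb0, sp mb0 mb, h.up, K1 b le_rfl hbT,
      int_zero t1 fun s s0 s1 => by rw [h.mid s (by linarith) s1, sub_self]]
    ring
  have K4 : ∀ t, b0 ≤ t → t ≤ b → |Jf T (z ph) (z ps) t| ≤ 20 * α := fun t t0 t1 => by
    rw [sp ⟨by linarith, by linarith⟩ mb, K1 b le_rfl hbT]
    have := abs_int_le le mb0.1 t0 t1 le_rfl hbT
    linarith [abs_add_le (∫ s in t..b, (z ps s - z ph s)) (Jf T (z ph) (z pb) b), h.upJ, h.up1]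
  have K5 : ∀ t, a ≤ t → t ≤ a1 → |Jf T (z ph) (z ps) t| ≤ 20 * α := fun t t0 t1 => by
    rw [sp ⟨by linarith, by linarith⟩ ma1, K3 a1 le_rfl h2, add_zero]
    have := abs_int_le le ha t0 t1 le_rfl ma1.2
    linarith [h.low1]
  have K6 : ∫ t in (0 : ℝ)..a, |Jf T (z ph) (z ps) t| = ∫ t in (0 : ℝ)..a, |Jf T (z ph) (z pb) t| := by
    rcases h.low with h0 | h0
    · rw [show a = 0 by linarith]; simp
    · refine integral_congr_Ioo_of_le ha fun t ht => ?_
      have mt : t ∈ Icc 0 T := ⟨ht.1.le, by linarith [ht.2]⟩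
      have e : ∫ s in t..a, (z ps s - z ph s) = ∫ s in t..a, (z pb s - z ph s) :=
        integral_congr_Ioo_of_le ht.2.le fun s hs => by
          simp only [h.out s (by linarith [hs.1, ht.1]) (by linarith [hs.2]) (.inl hs.2)]
      rw [sp mt ma, sp ma ma1, K3 a1 le_rfl h2, h0, e, add_zero]
      exact congrArg _ (int_split lz mt ma mT).symm
  have eS : ∀ t ∈ Icc 0 T, Jf b (z ps) (z pb) t = Jf T (z ph) (z pb) t - Jf T (z ph) (z ps) t :=
    fun t ht => by
      unfold Jf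
      rw [← integral_sub (lz.ii ht mT) (le.ii ht mT)]
      simp only [sub_sub_sub_cancel_right]
      rw [int_split ld ht mb mT, int_zero hbT fun s s0 s1 => by
        rw [h.out s (by linarith) s1 (.inr s0.le), sub_self], add_zero]
  have three : ∀ {u : ℝ → ℝ}, LB T u → ∫ t in a..b, u t =
      (∫ t in a..a1, u t) + (∫ t in a1..b0, u t) + ∫ t in b0..b, u t := fun lu => by
    rw [int_split lu ma ma1 mb, int_split lu ma1 mb0 mb]; ring
  have core := F.core hb hh hs (M := M) ha hab hbT h.out lH l1 l2 lw heq hr2 fun t t0 t1 => by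
    by_cases hw : t < a1 ∨ b0 ≤ t
    · have := hH t t0 t1 hw
      refine le_of_mul_le_mul_left ?_ hM
      nlinarith [sq_nonneg (H t - M * (z ps t - z ph t))]
    · push Not at hw
      rw [h.mid t hw.1 hw.2, sub_self]
      linarith [hH0 t t0 t1]
  -- the left side
  have s1 : ∫ t in a1..b0, Jf T (z ph) (z pb) t ^ 2 ≤ ∫ t in a..b, Jf b (z ps) (z pb) t ^ 2 := by
    refine le_of_eq_of_le ?_ (int_sub_le lS.sq ha h1 h2 h3 hbT fun _ _ _ => sq_nonneg _)
    refine integral_congr_Ioo_of_le h2 fun t ht => ?_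
    rw [eS t ⟨by linarith [ht.1], by linarith [ht.2]⟩, K3 t ht.1.le ht.2.le, sub_zero]
  have e1 : ∫ t in a..b, |z ps t - z ph t| ≤ 38 * α := by
    rw [three le.abs, int_zero h2 fun s s0 s1 => by rw [h.mid s s0.le s1, sub_self, abs_zero]]
    linarith [h.up1, h.low1]
  have s4 : ∫ t in a..b, (z ps t - z ph t) ^ 2 ≤ 38 * α * E0 := by
    have m := int_mono le.sq ((LB.const E0).mul le.abs) ha hab hbT fun t t0 t1 => by
      rw [← sq_abs, pow_two]
      exact mul_le_mul_of_nonneg_right (h.sup t t0 t1) (abs_nonneg _)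
    rw [intervalIntegral.integral_const_mul] at m
    linarith [mul_le_mul_of_nonneg_left e1 hE0]
  have s2 : ∫ t in a..b, r1 t * (z pb t - z ps t) ≤
      (∫ t in a..b, r1 t * (z pb t - z ph t)) + (∫ t in a..b, k t) + 38 * η * α +
        (M + E0 ^ 2) * (38 * α * E0) := by
    have m := int_mono (l1.mul ld) ((((l1.mul lz).add lk).add ((LB.const η).mul le.abs)).add
      ((LB.const (M + E0 ^ 2)).mul le.sq)) ha hab hbT fun t t0 t1 => by
        by_cases hw : t < a1 ∨ b0 ≤ t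
        · have h5 := hη t t0 t1 hw _ (abs_nonneg (z ps t - z ph t))
          have h6 := mul_le_mul_of_nonneg_right
            (pow_le_pow_left₀ (abs_nonneg _) (h.sup t t0 t1) 2) (sq_nonneg (z ps t - z ph t))
          rw [← abs_mul, show |z ps t - z ph t| ^ 4 = |z ps t - z ph t| ^ 2 * |z ps t - z ph t| ^ 2
            by ring] at h5
          rw [sq_abs] at h5 h6
          linarith [neg_abs_le (r1 t * (z ps t - z ph t))]
        · push Not at hw
          rw [h.mid t hw.1 hw.2]; simpa using k0 t t0 t1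
    rw [integral_add ((((l1.mul lz).add lk).add ((LB.const η).mul le.abs)).ii ma mb)
        (((LB.const _).mul le.sq).ii ma mb),
      integral_add (((l1.mul lz).add lk).ii ma mb) (((LB.const η).mul le.abs).ii ma mb),
      integral_add ((l1.mul lz).ii ma mb) (lk.ii ma mb),
      intervalIntegral.integral_const_mul, intervalIntegral.integral_const_mul] at m
    linarith [mul_le_mul_of_nonneg_left e1 hη0,
      mul_le_mul_of_nonneg_left s4 (show 0 ≤ M + E0 ^ 2 by positivity)]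
  have s3 : (r2 a - (Γ ps a - Γ ph a)) * Jf b (z ps) (z pb) a ≤ B0 := by
    rcases h.low with h0 | h0
    · have : a = 0 := by linarith
      subst this
      rw [eS 0 m0, K3 0 h0.le (by linarith), F.gam ps hs 0 m0, F.gam ph hh 0 m0]
      simpa using hB h0
    · rw [eS a ma, sp ma ma1, K3 a1 le_rfl h2, h0]; simpa using hB0
  have s5 : ∫ t in (0 : ℝ)..T, |Jf T (z ph) (z ps) t| ≤ ε + 40 * L * α := by
    rw [int_split lK.abs m0 ma mT, int_split lK.abs ma mb mT, three lK.abs, K6,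
      int_zero h2 fun s s0 s1 => by rw [K3 s s0.le s1.le, abs_zero],
      integral_congr_Ioo_of_le hbT (g := fun t => |Jf T (z ph) (z pb) t|) fun t ht => by
        simp only [K1 t ht.1.le ht.2.le]]
    have m1 := int_le_const lK.abs ha h1 ma1.2 fun t t0 t1 => K5 t t0.le t1.le
    have m2 := int_le_const lK.abs mb0.1 h3 hbT fun t t0 t1 => K4 t t0.le t1.le
    have m3 := mul_le_mul_of_nonneg_right hL1 (show 0 ≤ 20 * α by positivity)
    have m4 := mul_le_mul_of_nonneg_right hL2 (show 0 ≤ 20 * α by positivity)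
    linarith
  have s6 : ∫ t in a..b, Jf T (z ph) (z ps) t ^ 2 ≤ 800 * L * α ^ 2 := by
    rw [three lK.sq, int_zero h2 fun s s0 s1 => by rw [K3 s s0.le s1.le]; ring]
    have m1 := int_le_const lK.sq (K := (20 * α) ^ 2) ha h1 ma1.2 fun t t0 t1 =>
      sq_le_sq' (abs_le.mp (K5 t t0.le t1.le)).1 (abs_le.mp (K5 t t0.le t1.le)).2
    have m2 := int_le_const lK.sq (K := (20 * α) ^ 2) mb0.1 h3 hbT fun t t0 t1 =>
      sq_le_sq' (abs_le.mp (K4 t t0.le t1.le)).1 (abs_le.mp (K4 t t0.le t1.le)).2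
    have m3 := mul_le_mul_of_nonneg_right hL1 (sq_nonneg (20 * α))
    have m4 := mul_le_mul_of_nonneg_right hL2 (sq_nonneg (20 * α))
    linarith
  have s7 : ∫ t in a..b, (G ps t - G ph t) ^ 2 ≤
      2 * C ^ 2 * (800 * L * α ^ 2 + (b - a) * (ε + 40 * L * α) ^ 2) := by
    have m := int_mono lG.sq ((LB.const (2 * C ^ 2)).mul (lK.sq.add (.const ((ε + 40 * L * α) ^ 2))))
      ha hab hbT fun t t0 t1 => by
        have h5 := (F.lip ph ps hh hs t ⟨by linarith, by linarith⟩).trans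
          (mul_le_mul_of_nonneg_left (add_le_add le_rfl s5) F.C_nn)
        have h6 := sq_le_sq' (abs_le.mp h5).1 (abs_le.mp h5).2
        rw [← sq_abs (Jf T (z ph) (z ps) t)]
        nlinarith [mul_nonneg (sq_nonneg C)
          (sq_nonneg (|Jf T (z ph) (z ps) t| - (ε + 40 * L * α)))]
    rw [intervalIntegral.integral_const_mul, integral_add (lK.sq.ii ma mb) ((LB.const _).ii ma mb),
      intervalIntegral.integral_const, smul_eq_mul] at m
    exact m.trans (mul_le_mul_of_nonneg_left (add_le_add s6 le_rfl) (by positivity))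
  have s8 := div_le_div_of_nonneg_right s7 hc.le
  have s9 := mul_le_mul_of_nonneg_left s4 (show 0 ≤ M / 2 by positivity)
  have s10 := mul_le_mul_of_nonneg_left s1 (show 0 ≤ c / 2 by positivity)
  rw [mul_div_right_comm] at s8
  linarith

theorem Fr.fin' (F : Fr T c C ok z Γ G) {pb ph ps : P} (hb : ok pb) (hh : ok ph) (hs : ok ps)
    {A A' B' B a a1 b0 b α D L M η ε B0 : ℝ} (hA : 0 ≤ A) (h0 : A ≤ a) (h1 : a ≤ a1) (h1' : a1 ≤ A')
    (h2 : A' ≤ B') (h2' : B' ≤ b0) (h3 : b0 ≤ b) (h4 : b ≤ B) (hBT : B ≤ T) (hL1 : a1 - a ≤ L)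
    (hL2 : b - b0 ≤ L) (hM : 0 < M) (hη0 : 0 ≤ η) (hE0 : 0 ≤ 20 * α / L + D)
    (h : Cmp T (z ph) (z pb) (z ps) a a1 b0 b α (20 * α / L + D)) {H r1 r2 ω β ξ : ℝ → ℝ}
    (R : Res T (fun t => z pb t - z ph t) (fun t => Γ pb t - Γ ph t) H r1 r2 ω β ξ A B)
    (hH : ∀ t, A < t → t < B → t < a1 ∨ b0 ≤ t → H t ^ 2 ≤ M * (H t * (z pb t - z ph t)))
    (hη : ∀ t, A < t → t < B → t < a1 ∨ b0 ≤ t → Ab (|r1 t| + β t) η (ξ t) M)
    (hε : (∫ t in (0 : ℝ)..A', |Jf T (z ph) (z pb) t|) + (∫ t in B'..T, |Jf T (z ph) (z pb) t|) ≤ ε ∨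
      (∫ t in (0 : ℝ)..a, |Jf T (z ph) (z pb) t|) + (∫ t in b..T, |Jf T (z ph) (z pb) t|) ≤ ε)
    (hB0 : 0 ≤ B0) (hB : a1 = 0 → (|r2 0| + β 0) * |Jf T (z ph) (z pb) 0| ≤ B0) :
    c / 2 * (∫ t in A'..B', Jf T (z ph) (z pb) t ^ 2) +
        (∫ t in A'..B', H t * (z pb t - z ph t)) / 2 ≤
      2 * (∫ t in A..B, ξ t) + B0 + (∫ t in A..B, ω t ^ 2) / c +
        cutErr' c C L M η α D ε (B - A) := by
  have ha : 0 ≤ a := by linarith
  have hab : a ≤ b := by linarith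
  have hbT : b ≤ T := by linarith
  have hT : 0 ≤ T := by linarith
  have hc := F.c_pos
  have ma : a ∈ Icc 0 T := ⟨ha, by linarith⟩
  have mT : T ∈ Icc 0 T := right_mem_Icc.mpr hT
  have lz : LB T fun t => z pb t - z ph t := (F.lbz hb).sub (F.lbz hh)
  have lJ := F.lbJ hh hb mT
  have eΩ : ∀ s t, a ≤ s → s ≤ t → t ≤ b →
      |(∫ u in a..t, ω u) - ∫ u in a..s, ω u| = ∫ u in s..t, ω u := fun s t s0 s1 s2 => by
    rw [int_split R.lω ma (b := s) (c := t) ⟨by linarith, by linarith⟩ ⟨by linarith, by linarith⟩,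
      add_sub_cancel_left, abs_of_nonneg]
    simpa using int_mono (LB.const 0) R.lω (by linarith) s1 (by linarith) fun u u0 u1 =>
      R.ω_nn u (by linarith) (by linarith)
  obtain ⟨r', q1, q2⟩ := exists_reg (r := r2) (Ω := fun t => ∫ u in a..t, ω u) (β := β) hab
    fun s hs t ht => by
      rcases le_total s t with e | e
      · rw [eΩ s t hs.1 e ht.2]
        linarith [le_abs_self (r2 t - r2 s), R.slow s t (h0.trans hs.1) e (ht.2.trans h4)]
      · rw [abs_sub_comm, eΩ t s ht.1 e hs.2]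
        linarith [neg_abs_le (r2 s - r2 t), R.slow t s (h0.trans ht.1) e (hs.2.trans h4)]
  obtain ⟨w, lw, w1, w2⟩ := exists_dens (r := r') R.lω ha hab hbT fun s t s0 s1 s2 => by
    rw [← eΩ s t s0 s1 s2]; exact q1 s ⟨s0, by linarith⟩ t ⟨by linarith, s2⟩
  have l2 : LB T fun t => r' a + ∫ s in a..t, w s := by
    refine (LB.const _).add (.of_cont ((lw.tail ma).neg.congr fun t _ => ?_))
    simp only [Pi.neg_apply]; rw [integral_symm]
  have lρ : LB T fun t => Γ pb t - Γ ph t + H t := ((F.lbΓ hb hT).sub (F.lbΓ hh hT)).add R.lH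
  have dev : ∀ t, a < t → t < b →
      |Γ pb t - Γ ph t + H t - (r' a + ∫ s in a..t, w s) - r1 t| ≤ β t := fun t t0 t1 => by
    have e := R.eq t (by linarith) (by linarith)
    rw [← w1 t ⟨t0.le, t1.le⟩, e, abs_sub_comm]
    convert q2 t ⟨t0.le, t1.le⟩ using 2
    ring
  have hε' : (∫ t in (0 : ℝ)..a, |Jf T (z ph) (z pb) t|) +
      (∫ t in b..T, |Jf T (z ph) (z pb) t|) ≤ ε := by
    rcases hε with e | e
    · have m1 := int_sub_le lJ.abs le_rfl le_rfl ha (show a ≤ A' by linarith) (by linarith)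
        fun _ _ _ => abs_nonneg _
      have m2 := int_sub_le lJ.abs (show 0 ≤ B' by linarith) (show B' ≤ b by linarith) hbT le_rfl
        le_rfl fun _ _ _ => abs_nonneg _
      linarith
    · exact e
  have m := F.cut_est' hb hh hs ha h1 (by linarith) h3 hbT hL1 hL2 hM hη0 hE0 h R.lξ
    (fun t t0 t1 => R.ξ_nn t (by linarith) (by linarith)) R.lH (lρ.sub l2) l2 lw
    (fun t _ _ => by ring) (fun t _ => by simp)
    (fun t t0 t1 => R.H_nn t (by linarith) (by linarith))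
    (fun t t0 t1 => hH t (by linarith) (by linarith))
    (fun t t0 t1 hw v hv => by
      refine le_trans (mul_le_mul_of_nonneg_right ?_ hv) (hη t (by linarith) (by linarith) hw v hv)
      have e2 := abs_add_le (Γ pb t - Γ ph t + H t - (r' a + ∫ s in a..t, w s) - r1 t) (r1 t)
      rw [sub_add_cancel] at e2
      linarith [dev t t0 t1]) hε' hB0 fun e => by
      have ea : a = 0 := by linarith
      subst ea
      refine le_trans ?_ (hB e)
      have e1 := q2 0 (left_mem_Icc.mpr hab)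
      have e2 := abs_add_le (r' 0 - r2 0) (r2 0)
      rw [sub_add_cancel] at e2
      rw [integral_same, add_zero]
      refine (le_abs_self _).trans ?_
      rw [abs_mul]
      exact mul_le_mul_of_nonneg_right (by linarith) (abs_nonneg _)
  have m1 := int_sub_le lJ.sq (show 0 ≤ a1 by linarith) h1' h2 h2' (by linarith)
    fun _ _ _ => sq_nonneg _
  have m2 := int_sub_le (R.lH.mul lz) ha (show a ≤ A' by linarith) h2 (show B' ≤ b by linarith) hbT
    fun t t0 t1 => R.H_nn t (by linarith) (by linarith)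
  have m3 := int_mono ((lρ.sub l2).mul lz) R.lξ ha hab hbT fun t t0 t1 => by
    have e1 := mul_le_mul_of_nonneg_right (dev t t0 t1) (abs_nonneg (z pb t - z ph t))
    rw [← abs_mul] at e1
    have e2 := R.pair t (by linarith) (by linarith)
    linarith [le_abs_self ((Γ pb t - Γ ph t + H t - (r' a + ∫ s in a..t, w s) - r1 t) *
      (z pb t - z ph t))]
  have m4 := int_sub_le R.lξ hA h0 hab h4 hBT R.ξ_nn
  have m5 := div_le_div_of_nonneg_right
    (w2.trans (int_sub_le R.lω.sq hA h0 hab h4 hBT fun _ _ _ => sq_nonneg _)) hc.le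
  have m6 := mul_le_mul_of_nonneg_left m1 (show 0 ≤ c / 2 by positivity)
  have m7 : 2 * C ^ 2 / c * (800 * L * α ^ 2 + (b - a) * (ε + 40 * L * α) ^ 2) ≤
      2 * C ^ 2 / c * (800 * L * α ^ 2 + (B - A) * (ε + 40 * L * α) ^ 2) :=
    mul_le_mul_of_nonneg_left (add_le_add le_rfl
      (mul_le_mul_of_nonneg_right (by linarith) (sq_nonneg _))) (by positivity)
  unfold cutErr'
  linarith


/-- **upper cut**: `[0, B']` inside `[0, B]` -/
theorem Fr.block_up' (F : Fr T c C ok z Γ G) {pb ph : P} (hb : ok pb) (hh : ok ph)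
    {B' B α D L M η ε c1 δ0 B0 : ℝ} (h2 : 0 ≤ B') (hBT : B ≤ T) (hL : 0 < L)
    (hM : 0 < M) (hη0 : 0 ≤ η) (up : Mar T (z ph) (z pb) B' B (B' + L) B L c1 δ0 D α)
    {H r1 r2 ω β ξ : ℝ → ℝ}
    (R : Res T (fun t => z pb t - z ph t) (fun t => Γ pb t - Γ ph t) H r1 r2 ω β ξ 0 B)
    (hH : ∀ t, B' ≤ t → t < B → H t ^ 2 ≤ M * (H t * (z pb t - z ph t)))
    (hη : ∀ t, B' ≤ t → t < B → Ab (|r1 t| + β t) η (ξ t) M)
    (hε : ∫ t in B'..T, |Jf T (z ph) (z pb) t| ≤ ε)
    (hB : (|r2 0| + β 0) * |Jf T (z ph) (z pb) 0| ≤ B0) (hB0 : 0 ≤ B0) :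
    c / 2 * (∫ t in (0 : ℝ)..B', Jf T (z ph) (z pb) t ^ 2) +
        (∫ t in (0 : ℝ)..B', H t * (z pb t - z ph t)) / 2 ≤
      2 * (∫ t in (0 : ℝ)..B, ξ t) + B0 + (∫ t in (0 : ℝ)..B, ω t ^ 2) / c +
        cutErr' c C L M η α D ε B := by
  have l2 := up.lt
  obtain ⟨b, b0, b1, pb'⟩ := F.pt hb hh (by linarith) hBT up
  obtain ⟨b', rfl⟩ : ∃ b', b = b' + L := ⟨b - L, by ring⟩
  obtain ⟨ps, hs, h⟩ := F.cmp_up hb hh (b0 := b') (by linarith) hL (by linarith)
    (pb' b' (by linarith) b1.le)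
  simpa using F.fin' hb hh hs (A := 0) (A' := 0) (ε := ε) le_rfl le_rfl le_rfl le_rfl h2 (by linarith)
    (by linarith) b1.le hBT (by linarith) (by linarith) hM hη0 (up.nn hL) h R
    (fun t t0 t1 e => hH t (by rcases e with e | e <;> linarith) t1)
    (fun t t0 t1 e => hη t (by rcases e with e | e <;> linarith) t1)
    (.inl (by simpa using hε)) hB0 fun _ => hB


end Crest.Agent.T156.Cut8
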