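import Crest.Agent.T156.CaVar_6
import Crest.Agent.T156.CaPe_45

-- ▼ part T156/Gir_68
section

/-!
# Row 156, cascade frame (helper68): Itô formula inside a level, Girsanov identity

* `heat`, `hjb`, `ito` : the generator of a level split at time `ρ`;
* `gir`, `kl` : drift of the value of a second weight `w'` under the path law of `w`;
* `tele` : telescoping along the path.
-/

set_option autoImplicit false
set_option linter.unusedSectionVars false

noncomputable section

namespace Crest.Agent.T156.Cas.Gir68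

open MeasureTheory Real Set Filter Topology
open Crest.Agent.T157.E Crest.Agent.T157.Casc Crest.Agent.T157.SL
open Var6 (vT vT_at vT_S vT_c1 vT_cont)

variable {Ω : Type} [Fintype Ω] {w w' : Ω → ℝ} {I : Set ℝ}

open Classical in
/-- the heat equation along a moving level -/
theorem heat (hI : IsOpen I) {l : TL Ω} (hl : l.OkD I) {G a : Pt Ω → ℝ} {b : Ω → Pt Ω → ℝ}
    (h : Sm I G a b) {t : ℝ} (ht : t ∈ I) {c : Ω → Ω → (Ω → ℝ) → ℝ}
    (hc : ∀ x, Gr (fun z => b x (t, z)) (c x)) (z : Ω → ℝ) :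
    HasDerivAt (fun s => ∫ g, G (s, z + (l.at s).fld g) ∂gv l.ι)
      (∫ g, (a (t, z + (l.at t).fld g) +
        ∑ x, ∑ y, l.S t x y * c x y (z + (l.at t).fld g)) ∂gv l.ι) t := by
  have h1 := ((h.iL hI hl).fd (t, z) ht).comp_hasDerivAt t
    ((hasDerivAt_id t).prodMk (hasDerivAt_const t z))
  refine h1.congr_deriv ?_
  rw [D2_apply]
  simp only [mul_one, Pi.zero_apply, mul_zero, Finset.sum_const_zero, add_zero]
  have ia : Integrable (fun g => a (t, z + (l.at t).fld g)) (gv l.ι) :=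
    (eg_of_EG h.ega ht).int (l.at t) z
  have ib : ∀ x i, Integrable (fun g : l.ι → ℝ => g i * b x (t, z + (l.at t).fld g)) (gv l.ι) :=
    fun x i => eg_int_g (I := I) (H := fun q => q.2 (.inr i) * b x (sh l q))
      ((EG.coord _).mul (hl.toOkC.eg_sh (h.egb x))) (p := (t, z)) ht
  have ic : ∀ x y, Integrable (fun g : l.ι → ℝ => c x y (z + (l.at t).fld g)) (gv l.ι) :=
    fun x y => ((hc x).eg' y).int (l.at t) z
  have e1 : iL l (fun q => a (sh l q) + ∑ x, b x (sh l q) * dfl l x q) (t, z) =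
      ∫ g, (a (t, z + (l.at t).fld g) +
        ∑ x, ∑ i, l.A' t x i * (g i * b x (t, z + (l.at t).fld g))) ∂gv l.ι := by
    refine integral_congr_ae (.of_forall fun g => ?_)
    show a (t, z + (l.at t).fld g) + ∑ x, b x (t, z + (l.at t).fld g) * ∑ i, l.A' t x i * g i = _
    simp only [Finset.mul_sum]
    congr 1
    exact Finset.sum_congr rfl fun x _ => Finset.sum_congr rfl fun i _ => by ring
  rw [e1, integral_add ia (integrable_finsetSum _ fun x _ => integrable_finsetSum _ fun i _ =>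
      (ib x i).const_mul _), integral_add ia (integrable_finsetSum _ fun x _ =>
      integrable_finsetSum _ fun y _ => (ic x y).const_mul _),
    integral_finsetSum _ fun x _ => integrable_finsetSum _ fun i _ => (ib x i).const_mul _,
    integral_finsetSum _ fun x _ => integrable_finsetSum _ fun y _ => (ic x y).const_mul _]
  congr 1
  refine Finset.sum_congr rfl fun x _ => ?_
  rw [integral_finsetSum _ fun i _ => (ib x i).const_mul _,
    integral_finsetSum _ fun y _ => (ic x y).const_mul _]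
  simp only [integral_const_mul]
  have e2 : ∀ i, ∫ g : l.ι → ℝ, g i * b x (t, z + (l.at t).fld g) ∂gv l.ι =
      ∑ y, l.A t y i * ∫ g, c x y (z + (l.at t).fld g) ∂gv l.ι :=
    fun i => stein_fld (hc x) (l.at t) z i
  simp only [e2, TL.S, Finset.mul_sum, Finset.sum_mul]
  exact Finset.sum_comm.trans (Finset.sum_congr rfl fun y _ => Finset.sum_congr rfl fun i _ =>
    by ring)

/-- the rest of a level and what follows it -/
def rest (l : Lv Ω) (m : ℝ) (L : List (Lv Ω)) : List (TL Ω) := vT l 1 (-1) m :: L.map Lv.cst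

theorem rest_at (l : Lv Ω) (m : ℝ) (L : List (Lv Ω)) (t : ℝ) :
    atL (rest l m L) t = lv l (1 - t) m :: L := by
  rw [rest, Var6.atL_cons, atL_cst, vT_at, neg_one_mul, ← sub_eq_add_neg]

theorem rest_okD (l : Lv Ω) (m : ℝ) (L : List (Lv Ω)) (h : (vT l 1 (-1) m).OkD I) :
    ∀ k ∈ rest l m L, k.OkD I := by
  intro k hk
  rcases List.mem_cons.1 hk with rfl | hk
  · exact h
  · exact cst_ok L _ k hk

theorem rest_okC (l : Lv Ω) (m : ℝ) (L : List (Lv Ω)) : ∀ k ∈ rest l m L, k.OkC (Icc 0 1) := by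
  intro k hk
  rcases List.mem_cons.1 hk with rfl | hk
  · exact TL.okC_of_compact isCompact_Icc (vT_cont l 1 (-1) m)
  · exact (cst_ok L _ k hk).toOkC

theorem cov_symm (l : Lv Ω) (x y : Ω) : l.cov x y = l.cov y x :=
  Finset.sum_congr rfl fun _ _ => mul_comm _ _

theorem lv_cov (l : Lv Ω) {v : ℝ} (hv : 0 ≤ v) (m : ℝ) (x y : Ω) :
    (lv l v m).cov x y = v * l.cov x y := by
  show ∑ i, √v * l.A x i * (√v * l.A y i) = v * ∑ i, l.A x i * l.A y i
  rw [Finset.mul_sum]
  refine Finset.sum_congr rfl fun i _ => ?_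
  have := mul_self_sqrt hv
  linear_combination (l.A x i * l.A y i) * this

open Classical in
/-- the Hamilton–Jacobi–Bellman equation inside a level -/
theorem hjb (hw : Wt w) (hI : IsOpen I) (l : Lv Ω) (m : ℝ) (L : List (Lv Ω))
    (h2 : (vT l 1 (-1) m).OkD I) {t : ℝ} (ht : t ∈ I) (ht1 : t < 1) (z : Ω → ℝ) :
    D0 w (rest l m L) (t, z) = -(∑ x, ∑ y, l.cov x y * (Hs w (lv l (1 - t) m :: L) z x y +
      m * (P w (lv l (1 - t) m :: L) z x * P w (lv l (1 - t) m :: L) z y))) / 2 := by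
  have hS : ∀ j, Sacc (rest l m L) t (j + 1) = fun x y => -1 / 2 * l.cov x y := fun j => by
    rw [rest, Sacc_cons, Var6.Sacc_cst]
    ext x y
    rw [vT_S l 1 (-1) m t (by linarith), add_zero]
  rw [D0_eq hw ht hI _ (rest_okD l m L h2) m, rest_at, sum_Hs hw]
  have e1 : (rest l m L).length = L.length + 1 := by simp [rest]
  rw [e1, hS]
  have e2 : pair w (lv l (1 - t) m :: L) m (Sacc (rest l m L) t) z =
      -1 / 2 * pair w (lv l (1 - t) m :: L) m (fun _ => l.cov) z := by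
    simp only [pair, hS, sub_self, zero_mul, zero_add]
    rw [← tE_const_mul]
    congr 1
    ext y
    simp only [pair_eq_sum hw, pi2_const_mul, Finset.mul_sum]
    exact Finset.sum_congr rfl fun _ _ => by ring
  rw [e2]
  simp only [mul_left_comm _ (-1 / 2 : ℝ), ← Finset.mul_sum]
  ring

theorem X_spl (hw : Wt w) (l : Lv Ω) (m : ℝ) (L : List (Lv Ω)) {s : ℝ} (h0 : 0 ≤ s) (h1 : s ≤ 1) :
    X w (lv l s m :: lv l (1 - s) m :: L) = X w (lv l 1 m :: L) :=
  (C.X_split hw (l := lv l 1 m) (l1 := lv l s m) (l2 := lv l (1 - s) m) rfl rfl (fun x y => by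
    rw [lv_cov l zero_le_one, lv_cov l h0, lv_cov l (by linarith)]; ring) L).symm

open Classical in
/-- **Itô formula** inside a level, under the path law -/
theorem ito (hw : Wt w) (hI : IsOpen I) (hI' : I ⊆ Ioo 0 1) (l : Lv Ω) (m : ℝ) (L : List (Lv Ω))
    (h1 : (vT l 0 1 m).OkD I) (h2 : (vT l 1 (-1) m).OkD I) {G a : Pt Ω → ℝ} {b : Ω → Pt Ω → ℝ}
    (hG : Sm I G a b) {t : ℝ} (ht : t ∈ I) {c : Ω → Ω → (Ω → ℝ) → ℝ}
    (hc : ∀ x, Gr (fun z => b x (t, z)) (c x)) (z : Ω → ℝ) :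
    HasDerivAt (fun s => tE (lv l s m) (X w (lv l (1 - s) m :: L)) (fun y => G (s, y)) z)
      (tE (lv l t m) (X w (lv l (1 - t) m :: L)) (fun y => a (t, y) +
        (∑ x, ∑ x', l.cov x x' * c x x' y) / 2 +
        m * ∑ x, ∑ x', l.cov x x' * (P w (lv l (1 - t) m :: L) y x * b x' (t, y))) z) t := by
  have hD := rest_okD l m L h2
  have hu := sm_XP hI hw hD
  have lu := lg_XP hw fun k hk => (hD k hk).toOkC
  have hΨ := ((hu.const_mul m).exp (lu.exp m)).mul hG
  set M := lv l (1 - t) m :: L with hM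
  have gE := (gr_X hw M).exp (lg_X hw M) m
  have gΨ : ∀ x, Gr (fun z => exp (m * XP w (rest l m L) (t, z)) *
      (m * PP w (rest l m L) x (t, z)) * G (t, z) +
        exp (m * XP w (rest l m L) (t, z)) * b x (t, z)) _ := fun x => by
    simp only [XP, PP, rest_at, ← hM]
    exact ((gE.mul ((gr_P hw M x).const_mul m)).mul (gr_of_Sm hG ht)).add (gE.mul (hc x))
  have key := heat hI h1 hΨ ht gΨ z
  have hf : ∀ s (g : (vT l 0 1 m).ι → ℝ), ((vT l 0 1 m).at s).fld g = (lv l s m).fld g :=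
    fun s g => funext fun x => by
      show ∑ i : l.ι, √(0 + 1 * s) * l.A x i * g i = ∑ i : l.ι, √s * l.A x i * g i
      rw [zero_add, one_mul]
  simp only [hf] at key
  have hZ : ∀ s ∈ I, ∫ g, exp (m * X w (lv l (1 - s) m :: L) (z + (lv l s m).fld g)) ∂gv l.ι =
      exp (m * X w (lv l 1 m :: L) z) := fun s hs => by
    rw [← X_spl hw l m L (hI' hs).1.le (hI' hs).2.le]
    exact (Pe.exp_X_cons hw (lv l s m) _ z).symm
  have key2 := key.div_const (exp (m * X w (lv l 1 m :: L) z))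
  refine (key2.congr_of_eventuallyEq ?_).congr_deriv ?_
  · filter_upwards [hI.mem_nhds ht] with s hs
    rw [← hZ s hs]
    simp only [XP, rest_at]
    rfl
  · rw [← hZ t ht, tE]
    simp only [XP, rest_at, ← hM]
    congr 1
    refine integral_congr_ae (.of_forall fun g => ?_)
    simp only [hjb hw hI l m L h2 ht (hI' ht).2, ← hM,
      vT_S l 0 1 m t (by simpa using (hI' ht).1)]
    obtain ⟨y, hy⟩ : ∃ y, y = z + (lv l t m).fld g := ⟨_, rfl⟩
    simp only [← hy]
    have sw : ∑ x, ∑ x', l.cov x x' * (P w M y x' * b x (t, y)) =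
        ∑ x, ∑ x', l.cov x x' * (P w M y x * b x' (t, y)) :=
      Finset.sum_comm.trans (Finset.sum_congr rfl fun x _ => Finset.sum_congr rfl fun x' _ => by
        rw [cov_symm])
    have ex : ∑ x, ∑ x', 1 / 2 * l.cov x x' *
        ((exp (m * X w M y) * (m * P w M y x') * (m * P w M y x) +
            exp (m * X w M y) * (m * Hs w M y x x')) * G (t, y) +
          exp (m * X w M y) * (m * P w M y x) * b x' (t, y) +
          (exp (m * X w M y) * (m * P w M y x') * b x (t, y) + exp (m * X w M y) * c x x' y)) =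
        exp (m * X w M y) / 2 * (m * G (t, y) *
          (∑ x, ∑ x', l.cov x x' * (Hs w M y x x' + m * (P w M y x * P w M y x'))) +
          m * (∑ x, ∑ x', l.cov x x' * (P w M y x * b x' (t, y))) +
          m * (∑ x, ∑ x', l.cov x x' * (P w M y x' * b x (t, y))) +
          ∑ x, ∑ x', l.cov x x' * c x x' y) := by
      simp only [Finset.mul_sum, ← Finset.sum_add_distrib]
      exact Finset.sum_congr rfl fun x _ => Finset.sum_congr rfl fun x' _ => by ring
    rw [ex, sw]
    ring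

/-- an open interval around `t` on which the split levels are smooth -/
theorem exists_I (l : Lv Ω) (m : ℝ) {t : ℝ} (ht : t ∈ Ioo (0 : ℝ) 1) : ∃ I : Set ℝ, IsOpen I ∧
    I ⊆ Ioo 0 1 ∧ t ∈ I ∧ (vT l 0 1 m).OkD I ∧ (vT l 1 (-1) m).OkD I := by
  have hs : Icc (t / 2) ((1 + t) / 2) ⊆ Ioo 0 1 := fun s hs =>
    ⟨by linarith [hs.1, ht.1], by linarith [hs.2, ht.2]⟩
  exact ⟨Ioo (t / 2) ((1 + t) / 2), isOpen_Ioo, Ioo_subset_Icc_self.trans hs,
    ⟨by linarith [ht.1], by linarith [ht.2]⟩,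
    (vT_c1 l 0 1 m (I := Ioo 0 1) fun s hs => by simpa using hs.1).okD hs,
    (vT_c1 l 1 (-1) m (I := Ioo 0 1) fun s hs => by linarith [hs.2]).okD hs⟩

open Classical in
/-- joint continuity of an expectation at the split point -/
theorem eg_spl (hw : Wt w) (l : Lv Ω) (m : ℝ) (L : List (Lv Ω)) {G : Pt Ω → ℝ}
    (hG : EG (Icc 0 1) G) : EG (Icc 0 1) fun p : Pt Ω =>
      tE (lv l p.1 m) (X w (lv l (1 - p.1) m :: L)) (fun y => G (p.1, y)) p.2 :=
  ((lg_XP hw (rest_okC l m L)).eg_tP (TL.okC_of_compact isCompact_Icc (vT_cont l 0 1 m))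
    hG).congr fun p _ => by
      rw [tP_eq]
      simp only [XP, rest_at, vT_at, zero_add, one_mul]

/-- mixed quadratic form -/
def mx (p p' : Ω → ℝ) (K : Ω → Ω → ℝ) : ℝ := ∑ x, ∑ y, p x * p' y * K x y

/-- the drift of the value of `w'` under the path law of `w` -/
def dri (w w' : Ω → ℝ) (m : ℝ) (K : Ω → Ω → ℝ) (M : List (Lv Ω)) (y : Ω → ℝ) : ℝ :=
  m * mx (P w M y) (P w' M y) K - m / 2 * qf (P w' M y) K

open Classical in
theorem eg_dri (hw : Wt w) (hw' : Wt w') (l : Lv Ω) (m m' : ℝ) (K : Ω → Ω → ℝ) (L : List (Lv Ω)) :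
    EG (Icc 0 1) fun p : Pt Ω => dri w w' m' K (lv l (1 - p.1) m :: L) p.2 := by
  have hP : ∀ {v : Ω → ℝ}, Wt v → ∀ x, EG (Icc 0 1) fun p : Pt Ω =>
      P v (lv l (1 - p.1) m :: L) p.2 x := fun hv x =>
    (eg_PP hv (rest_okC l m L) x).congr fun p _ => by simp only [PP, rest_at]
  exact ((EG.sum _ fun x _ => EG.sum _ fun y _ =>
    ((hP hw x).mul (hP hw' y)).mul (EG.const _)).const_mul _).sub
    ((EG.sum _ fun x _ => EG.sum _ fun y _ =>
    ((hP hw' x).mul (hP hw' y)).mul (EG.const _)).const_mul _)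

open Classical in
theorem gir1 (hw : Wt w) (hw' : Wt w') (l : Lv Ω) (m : ℝ) (L : List (Lv Ω)) (z : Ω → ℝ) :
    tE (lv l 1 m) (X w L) (X w' L) z - X w' (lv l 1 m :: L) z = ∫ ρ in (0 : ℝ)..1,
      tE (lv l ρ m) (X w (lv l (1 - ρ) m :: L)) (dri w w' m l.cov (lv l (1 - ρ) m :: L)) z := by
  have cz : ∀ {G : Pt Ω → ℝ}, EG (Icc 0 1) G → ContinuousOn (fun ρ => G (ρ, z)) (Icc 0 1) :=
    fun hG => hG.cont.comp (f := fun ρ : ℝ => ((ρ, z) : Pt Ω)) (by fun_prop)
      fun _ ht => ⟨ht, trivial⟩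
  have hc := cz (eg_spl hw l m L (lg_XP hw' (rest_okC l m L)).eg)
  have hi := (cz (eg_spl hw l m L (eg_dri hw hw' l m m l.cov L))).intervalIntegrable_of_Icc
    (μ := volume) zero_le_one
  have hd : ∀ t ∈ Ioo (0 : ℝ) 1, HasDerivAt (fun s => tE (lv l s m) (X w (lv l (1 - s) m :: L))
      (fun y => XP w' (rest l m L) (s, y)) z) (tE (lv l t m) (X w (lv l (1 - t) m :: L))
        (fun y => dri w w' m l.cov (lv l (1 - t) m :: L) y) z) t := by
    intro t ht
    obtain ⟨I, hI, hI', htI, h1, h2⟩ := exists_I l m ht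
    refine (ito hw hI hI' l m L h1 h2 (sm_XP hI hw' (rest_okD l m L h2)) htI
      (c := fun x y z => Hs w' (lv l (1 - t) m :: L) z x y) (fun x => by
        simpa only [PP, rest_at] using gr_P hw' (lv l (1 - t) m :: L) x) z).congr_deriv ?_
    congr 1
    ext y
    rw [hjb hw' hI l m L h2 htI ht.2]
    simp only [PP, rest_at, dri, mx, qf, mul_add, Finset.sum_add_distrib]
    have e1 : ∀ p p' : Ω → ℝ, ∑ x, ∑ x', l.cov x x' * (p x * p' x') =
        ∑ x, ∑ x', p x * p' x' * l.cov x x' := fun p p' =>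
      Finset.sum_congr rfl fun _ _ => Finset.sum_congr rfl fun _ _ => mul_comm _ _
    simp only [mul_left_comm (l.cov _ _) m, ← Finset.mul_sum, e1]
    ring
  have ftc := intervalIntegral.integral_eq_sub_of_hasDerivAt_of_le zero_le_one hc hd hi
  rw [ftc]
  simp only [XP, rest_at]
  have z1 : ∀ v : Ω → ℝ, X v (lv l (1 - 1) m :: L) = X v L := fun v => by
    rw [C.X_cons, C.step_of_zero (l := lv l (1 - 1) m) fun x i => by simp]
  rw [z1, z1, C.tE_of_zero (l := lv l 0 m) (fun x i => by simp), sub_zero]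

open Classical in
/-- Fubini for one level -/
theorem tE_int {F : (Ω → ℝ) → ℝ} (hF : Lg F) (l : Lv Ω) {Θ : Pt Ω → ℝ} (hΘ : EG (Icc 0 1) Θ)
    (z : Ω → ℝ) : tE l F (fun y => ∫ ρ in (0 : ℝ)..1, Θ (ρ, y)) z =
      ∫ ρ in (0 : ℝ)..1, tE l F (fun y => Θ (ρ, y)) z := by
  have hH := (l.cst_okD (Icc 0 1)).toOkC.eg_sh (((hF.exp l.m).toEG (Icc 0 1)).mul hΘ)
  obtain ⟨C, c, -, -, h3⟩ := eg_bd2 hH
  have hi : Integrable (Function.uncurry fun (ρ : ℝ) (g : l.ι → ℝ) =>
      exp (l.m * F (z + l.fld g)) * Θ (ρ, z + l.fld g))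
      ((volume.restrict (uIoc 0 1)).prod (gv l.ι)) := by
    rw [uIoc_of_le zero_le_one]
    have hm : AEStronglyMeasurable (Function.uncurry fun (ρ : ℝ) (g : l.ι → ℝ) =>
        exp (l.m * F (z + l.fld g)) * Θ (ρ, z + l.fld g))
        ((volume.restrict (Ioc 0 1)).prod (gv l.ι)) := by
      rw [Measure.restrict_prod_eq_prod_univ]
      refine ContinuousOn.aestronglyMeasurable ?_ (measurableSet_Ioc.prod MeasurableSet.univ)
      exact hH.cont.comp (f := fun q : ℝ × (l.ι → ℝ) => jn (q.1, z) q.2)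
        (cont_jn.comp (f := fun q : ℝ × (l.ι → ℝ) => (((q.1, z) : Pt Ω), q.2))
          (by fun_prop)).continuousOn fun q hq => ⟨Ioc_subset_Icc_self hq.1, trivial⟩
    refine (((int_exp c).const_mul (C * exp (c * ‖z‖))).comp_snd _).mono' hm ?_
    rw [Measure.restrict_prod_eq_prod_univ]
    refine (ae_restrict_iff' (measurableSet_Ioc.prod MeasurableSet.univ)).2 (.of_forall ?_)
    exact fun q hq => h3 (q.1, z) q.2 (Ioc_subset_Icc_self hq.1)
  simp only [tE]
  rw [intervalIntegral.integral_div, intervalIntegral_integral_swap hi]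
  simp only [intervalIntegral.integral_const_mul]

open Classical in
/-- Fubini for a block of levels -/
theorem nodeT_int {F : (Ω → ℝ) → ℝ} (hF : Lg F) {Θ : Pt Ω → ℝ} (hΘ : EG (Icc 0 1) Θ) :
    ∀ (M : List (Lv Ω)) (z : Ω → ℝ), nodeT F M (fun y => ∫ ρ in (0 : ℝ)..1, Θ (ρ, y)) z =
      ∫ ρ in (0 : ℝ)..1, nodeT F M (fun y => Θ (ρ, y)) z
  | [], _ => rfl
  | l :: M, z => by
    have hF' : LG (Icc 0 1) fun p : Pt Ω => F p.2 :=
      ⟨hF.cont.mono fun _ _ => ⟨trivial, trivial⟩, hF.bd.imp fun _ => .imp fun _ h =>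
        ⟨h.1, h.2.1, fun p _ => h.2.2 p trivial⟩⟩
    have h1 : Lg (XT F M) := (Var6.pre (I := univ) hF (EG.const 0) M).1
    show tE l (XT F M) (nodeT F M fun y => ∫ ρ in (0 : ℝ)..1, Θ (ρ, y)) z = _
    rw [show nodeT F M (fun y => ∫ ρ in (0 : ℝ)..1, Θ (ρ, y)) = _ from
      funext (nodeT_int hF hΘ M)]
    exact tE_int h1 l (Var6.pre hF' hΘ M).2 z

theorem node_succ (w : Ω → ℝ) (L₁ L₂ : List (Lv Ω)) (l : Lv Ω) (Φ : (Ω → ℝ) → ℝ) :
    node w (L₁ ++ l :: L₂) (L₁.length + 1) Φ = nodeT (X w (l :: L₂)) L₁ (tE l (X w L₂) Φ) := by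
  rw [add_comm, ← node_node, List.drop_left, node_cons, node_zero, Var6.node_app]

/-- a one-level identity under a prefix -/
theorem node_int (hw : Wt w) (L₁ L₂ : List (Lv Ω)) (l : Lv Ω) (m : ℝ) {Θ : Pt Ω → ℝ}
    (hΘ : EG (Icc 0 1) Θ) (h : Ω → ℝ) :
    node w (L₁ ++ lv l 1 m :: L₂) L₁.length (fun z => ∫ ρ in (0 : ℝ)..1,
      tE (lv l ρ m) (X w (lv l (1 - ρ) m :: L₂)) (fun y => Θ (ρ, y)) z) h =
    ∫ ρ in (0 : ℝ)..1, node w (L₁ ++ lv l ρ m :: lv l (1 - ρ) m :: L₂) (L₁.length + 1)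
      (fun y => Θ (ρ, y)) h := by
  rw [Var6.node_app, nodeT_int (lg_X hw _) (eg_spl hw l m L₂ hΘ)]
  refine intervalIntegral.integral_congr fun ρ hρ => ?_
  rw [uIcc_of_le zero_le_one] at hρ
  simp only [node_succ, X_spl hw l m L₂ hρ.1 hρ.2]

/-- **Girsanov identity**: the drift of `X w'` over one level under the path law of `w` -/
theorem gir (hw : Wt w) (hw' : Wt w') (L₁ L₂ : List (Lv Ω)) (l : Lv Ω) (h : Ω → ℝ) :
    node w (L₁ ++ l :: L₂) (L₁.length + 1) (X w' L₂) h -
      node w (L₁ ++ l :: L₂) L₁.length (X w' (l :: L₂)) h =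
    ∫ ρ in (0 : ℝ)..1, node w (L₁ ++ lv l ρ l.m :: lv l (1 - ρ) l.m :: L₂) (L₁.length + 1)
      (dri w w' l.m l.cov (lv l (1 - ρ) l.m :: L₂)) h := by
  have e : lv l 1 l.m = l := Var6.lv_one l l.m
  rw [← node_int hw L₁ L₂ l l.m (eg_dri hw hw' l l.m l.m l.cov L₂) h]
  simp only [← gir1 hw hw', e]
  rw [node_sub hw ((lg_X hw' L₂).eg.tE (lg_X hw L₂) l) (lg_X hw' _).eg, node_succ]
  simp only [Var6.node_app]

theorem dri_sub (w w' : Ω → ℝ) (m : ℝ) {K : Ω → Ω → ℝ} (hK : ∀ x y, K x y = K y x)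
    (M : List (Lv Ω)) (y : Ω → ℝ) :
    dri w w m K M y - dri w w' m K M y = m / 2 * qf (fun x => P w M y x - P w' M y x) K := by
  have sw : mx (P w' M y) (P w M y) K = mx (P w M y) (P w' M y) K :=
    Finset.sum_comm.trans (Finset.sum_congr rfl fun x _ => Finset.sum_congr rfl fun x' _ => by
      rw [hK]; ring)
  have e : qf (fun x => P w M y x - P w' M y x) K = mx (P w M y) (P w M y) K -
      mx (P w M y) (P w' M y) K - mx (P w' M y) (P w M y) K + qf (P w' M y) K := by
    simp only [qf, mx, ← Finset.sum_sub_distrib, ← Finset.sum_add_distrib]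
    exact Finset.sum_congr rfl fun _ _ => Finset.sum_congr rfl fun _ _ => by ring
  rw [e, sw]
  simp only [dri]
  rw [show qf (P w M y) K = mx (P w M y) (P w M y) K from rfl]
  ring

theorem eg_dri' (hw : Wt w) (hw' : Wt w') (m : ℝ) (K : Ω → Ω → ℝ) (M : List (Lv Ω)) :
    Eg (dri w w' m K M) :=
  ((Eg.sum _ fun x _ => Eg.sum _ fun y _ =>
    ((eg_P hw M x).mul (eg_P hw' M y)).mul_const _).const_mul _).sub ((eg_qf hw' M K).const_mul _)

open Classical in
/-- continuity in the split time of an expectation at the split point -/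
theorem cont_spl (hw : Wt w) (L₁ L₂ : List (Lv Ω)) (l : Lv Ω) (m : ℝ) {Θ : Pt Ω → ℝ}
    (hΘ : EG (Icc 0 1) Θ) (h : Ω → ℝ) : ContinuousOn (fun ρ =>
      node w (L₁ ++ lv l ρ m :: lv l (1 - ρ) m :: L₂) (L₁.length + 1) (fun y => Θ (ρ, y)) h)
      (Icc 0 1) := by
  have hF := lg_X hw (lv l 1 m :: L₂)
  have hF' : LG (Icc 0 1) fun p : Pt Ω => X w (lv l 1 m :: L₂) p.2 :=
    ⟨hF.cont.mono fun _ _ => ⟨trivial, trivial⟩, hF.bd.imp fun _ => .imp fun _ h =>
      ⟨h.1, h.2.1, fun p _ => h.2.2 p trivial⟩⟩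
  refine ((Var6.pre hF' (eg_spl hw l m L₂ hΘ) L₁).2.cont.comp
    (f := fun ρ : ℝ => ((ρ, h) : Pt Ω)) (by fun_prop) fun _ ht => ⟨ht, trivial⟩).congr
    fun ρ hρ => ?_
  simp only [node_succ, X_spl hw l m L₂ hρ.1 hρ.2, Function.comp_def]

/-- **relative entropy of one level** (`KL_j / m_j`): with `A = X w - X w'`,
`E^w [A_{j+1} - A_j] = (m / 2) ∫ E^w |∇ Φ^w - ∇ Φ^w'|²` -/
theorem kl (hw : Wt w) (hw' : Wt w') (L₁ L₂ : List (Lv Ω)) (l : Lv Ω) (h : Ω → ℝ) :
    node w (L₁ ++ l :: L₂) (L₁.length + 1) (fun z => X w L₂ z - X w' L₂ z) h -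
      node w (L₁ ++ l :: L₂) L₁.length (fun z => X w (l :: L₂) z - X w' (l :: L₂) z) h =
    l.m / 2 * ∫ ρ in (0 : ℝ)..1,
      node w (L₁ ++ lv l ρ l.m :: lv l (1 - ρ) l.m :: L₂) (L₁.length + 1) (fun y =>
        qf (fun x => P w (lv l (1 - ρ) l.m :: L₂) y x - P w' (lv l (1 - ρ) l.m :: L₂) y x)
          l.cov) h := by
  have i1 := fun (v : Ω → ℝ) (hv : Wt v) => (cont_spl hw L₁ L₂ l l.m
    (eg_dri hw hv l l.m l.m l.cov L₂) h).intervalIntegrable_of_Icc (μ := volume) zero_le_one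
  rw [node_sub hw (lg_X hw _).eg (lg_X hw' _).eg, node_sub hw (lg_X hw _).eg (lg_X hw' _).eg]
  have e1 := gir hw hw L₁ L₂ l h
  have e2 := gir hw hw' L₁ L₂ l h
  have e3 := intervalIntegral.integral_sub (i1 w hw) (i1 w' hw')
  rw [← intervalIntegral.integral_const_mul]
  beta_reduce
  rw [sub_sub_sub_comm, e1, e2, ← e3]
  refine intervalIntegral.integral_congr fun ρ _ => ?_
  have e4 := congrFun (node_sub hw (eg_dri' hw hw l.m l.cov (lv l (1 - ρ) l.m :: L₂))
    (eg_dri' hw hw' l.m l.cov (lv l (1 - ρ) l.m :: L₂))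
    (L₁ ++ lv l ρ l.m :: lv l (1 - ρ) l.m :: L₂) (L₁.length + 1)) h
  simp only [dri_sub w w' l.m (cov_symm l), node_const_mul] at e4
  exact e4.symm

/-- telescoping along the path -/
theorem tele (w : Ω → ℝ) (L : List (Lv Ω)) (Φ : ℕ → (Ω → ℝ) → ℝ) (h : Ω → ℝ) {i k : ℕ}
    (hik : i ≤ k) : node w L k (Φ k) h - node w L i (Φ i) h =
      ∑ j ∈ Finset.Ico i k, (node w L (j + 1) (Φ (j + 1)) h - node w L j (Φ j) h) := by
  rw [Finset.sum_Ico_sub (fun j => node w L j (Φ j) h) hik]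

end Crest.Agent.T156.Cas.Gir68

end
end

-- ▼ part T156/Ent_68

/-!
# Row 156, cascade frame (helper68): energy, Euler identity, entropy as a mark
-/

set_option autoImplicit false
set_option linter.unusedSectionVars false

noncomputable section

namespace Crest.Agent.T156.Cas.Gir68

open MeasureTheory Real Set Filter Topology
open Crest.Agent.T157.E Crest.Agent.T157.Casc Crest.Agent.T157.SL

variable {Ω : Type} [Fintype Ω] {w w' : Ω → ℝ}

/-! ### energy -/

theorem cacc_zero (L : List (Lv Ω)) : cacc L 0 = fun _ _ => 0 := by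
  ext x y; simp [cacc]

theorem cacc_cons (l : Lv Ω) (L : List (Lv Ω)) (j : ℕ) :
    cacc (l :: L) (j + 1) = fun x y => l.cov x y + cacc L j x y := by
  ext x y; simp [cacc]

theorem eg_Pf (hw : Wt w) (L : List (Lv Ω)) (f : Ω → ℝ) : Eg fun z => Pf w L z f :=
  Eg.sum _ fun x _ => (eg_P hw L x).mul_const _

theorem eg_Pfz (hw : Wt w) (L : List (Lv Ω)) : Eg fun z => Pf w L z z :=
  Eg.sum _ fun x _ => (eg_P hw L x).mul (Eg.coord x)

theorem tE_Pf (hw : Wt w) (l : Lv Ω) (L : List (Lv Ω)) (f h : Ω → ℝ) :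
    tE l (X w L) (fun z => Pf w L z f) h = Pf w (l :: L) h f := by
  simp only [Pf]
  rw [tE_sum (lg_X hw L) _ fun x _ => (eg_P hw L x).mul_const _]
  simp only [tE_mul_const]
  rfl

/-- integration by parts for the energy of one level -/
theorem tE_Pfz (hw : Wt w) (l : Lv Ω) (L : List (Lv Ω)) (h : Ω → ℝ) :
    tE l (X w L) (fun z => Pf w L z z) h = Pf w (l :: L) h (fun x => h x + l.cov x x) -
      tE l (X w L) (pair w L l.m fun _ => l.cov) h := by
  have hX := lg_X hw L
  have e0 : ∀ x y, Eg fun z => Hs w L z x y + l.m * (P w L z x * P w L z y) :=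
    fun x y => (eg_Hs hw L x y).add (((eg_P hw L x).mul (eg_P hw L y)).const_mul _)
  have i1 : ∀ x, Integrable (fun g => exp (l.m * X w L (h + l.fld g)) * P w L (h + l.fld g) x)
      (gv l.ι) := fun x => hX.int (eg_P hw L x) l h
  obtain ⟨B, hB0, hB⟩ := Pe.fld_bd l
  have i2 : ∀ x i, Integrable (fun g : l.ι → ℝ => g i *
      (exp (l.m * X w L (h + l.fld g)) * P w L (h + l.fld g) x)) (gv l.ι) := fun x i =>
    Pe.eg_int ((Eg.coord i).mul (Pe.eg_comp ((hX.exp l.m).mul (eg_P hw L x))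
      (φ := fun g => h + l.fld g) (continuous_const.add (Pe.cont_fld l)) hB0
      fun g => (norm_add_le _ _).trans (add_le_add le_rfl (hB g))))
  have e1 : tE l (X w L) (fun z => Pf w L z z) h = Pf w (l :: L) h h + ∑ x, ∑ i, l.A x i *
      ((∫ g, g i * (exp (l.m * X w L (h + l.fld g)) * P w L (h + l.fld g) x) ∂gv l.ι) /
        ∫ g, exp (l.m * X w L (h + l.fld g)) ∂gv l.ι) := by
    rw [← tE_Pf hw, tE, tE]
    simp only [← mul_div_assoc, ← Finset.sum_div, ← integral_const_mul]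
    rw [← add_div]
    congr 1
    have e2 : ∀ x, ∑ i, ∫ g : l.ι → ℝ, l.A x i * (g i *
        (exp (l.m * X w L (h + l.fld g)) * P w L (h + l.fld g) x)) ∂gv l.ι =
        ∫ g : l.ι → ℝ, ∑ i, l.A x i * (g i *
        (exp (l.m * X w L (h + l.fld g)) * P w L (h + l.fld g) x)) ∂gv l.ι := fun x =>
      (integral_finsetSum _ fun i _ => (i2 x i).const_mul _).symm
    simp only [e2]
    rw [← integral_finsetSum _ fun x _ => integrable_finsetSum _ fun i _ => (i2 x i).const_mul _,
      ← integral_add (hX.int (eg_Pf hw L h) l h) (integrable_finsetSum _ fun x _ =>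
        integrable_finsetSum _ fun i _ => (i2 x i).const_mul _)]
    refine integral_congr_ae (.of_forall fun g => ?_)
    simp only [Pf, Finset.mul_sum, ← Finset.sum_add_distrib]
    refine Finset.sum_congr rfl fun x _ => ?_
    rw [show (h + l.fld g) x = h x + ∑ i, l.A x i * g i from rfl, mul_add, mul_add,
      Finset.mul_sum, Finset.mul_sum]
    congr 1
    exact Finset.sum_congr rfl fun i _ => by ring
  have e3 : ∑ x, ∑ i, l.A x i * ∑ y, l.A y i * tE l (X w L)
      (fun z => Hs w L z x y + l.m * (P w L z x * P w L z y)) h =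
      tE l (X w L) (fun z => Pf w L z (fun x => l.cov x x) - pair w L l.m (fun _ => l.cov) z) h := by
    simp only [Pf, ← sum_Hs hw l.cov L l.m]
    rw [tE_sum hX _ fun x _ => Eg.sum _ fun y _ => (e0 x y).const_mul _]
    refine Finset.sum_congr rfl fun x _ => ?_
    rw [tE_sum hX _ fun y _ => (e0 x y).const_mul _]
    simp only [tE_const_mul]
    simp only [Lv.cov, Finset.mul_sum, Finset.sum_mul]
    exact Finset.sum_comm.trans (Finset.sum_congr rfl fun y _ => Finset.sum_congr rfl fun i _ =>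
      by ring)
  rw [e1]
  simp only [stein_tE (gr_P hw L _) (gr_X hw L) hX]
  rw [e3, tE_sub hX (eg_Pf hw L _) (eg_pair hw _ _ _), tE_Pf hw]
  simp only [Pf, mul_add, Finset.sum_add_distrib]
  ring

/-- **energy of the leaf** -/
theorem energy (hw : Wt w) : ∀ (L : List (Lv Ω)) (m0 : ℝ) (h : Ω → ℝ),
    node w L L.length (fun z => Pf w [] z z) h =
      Pf w L h (fun x => h x + cacc L L.length x x) - pair w L m0 (cacc L) h
  | [], m0, h => by simp [pair, cacc_zero, qf]
  | l :: L, m0, h => by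
    have hX := lg_X hw L
    have e1 : node w L L.length (fun z => Pf w [] z z) = fun z =>
        Pf w L z z + Pf w L z (fun x => cacc L L.length x x) - pair w L l.m (cacc L) z := by
      ext z
      rw [energy hw L l.m z]
      simp only [Pf, mul_add, Finset.sum_add_distrib]
    have e2 : pair w (l :: L) m0 (cacc (l :: L)) h = tE l (X w L) (fun z =>
        pair w L l.m (fun _ => l.cov) z + pair w L l.m (cacc L) z) h := by
      simp only [pair, cacc_zero, cacc_cons, qf, mul_zero, Finset.sum_const_zero, zero_add]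
      congr 1
      ext z
      exact pair_add hw L l.m _ _ z
    rw [List.length_cons, node_cons, e1, e2,
      tE_sub hX ((eg_Pfz hw L).add (eg_Pf hw L _)) (eg_pair hw _ _ _),
      tE_add hX (eg_Pfz hw L) (eg_Pf hw L _), tE_add hX (eg_pair hw _ _ _) (eg_pair hw _ _ _),
      tE_Pfz hw, tE_Pf hw, cacc_cons]
    simp only [Pf, mul_add, Finset.sum_add_distrib]
    ring

/-! ### jumps of the value and the Euler identity -/

/-- the list `L` with level `j` split at time `ρ` -/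
def spl (L : List (Lv Ω)) (j : ℕ) (l : Lv Ω) (ρ : ℝ) : List (Lv Ω) :=
  L.take j ++ lv l ρ l.m :: lv l (1 - ρ) l.m :: L.drop (j + 1)

/-- `(m_j / 2) ∫ ρ dh` over level `j` -/
def jm (w : Ω → ℝ) (L : List (Lv Ω)) (j : ℕ) (h : Ω → ℝ) : ℝ := match L[j]? with
  | none => 0
  | some l => l.m / 2 * ∫ ρ in (0 : ℝ)..1, pi2 w (spl L j l ρ) (j + 1) l.cov h

theorem jump (hw : Wt w) (L₁ L₂ : List (Lv Ω)) (l : Lv Ω) (h : Ω → ℝ) :
    node w (L₁ ++ l :: L₂) (L₁.length + 1) (X w L₂) h -
      node w (L₁ ++ l :: L₂) L₁.length (X w (l :: L₂)) h = l.m / 2 * ∫ ρ in (0 : ℝ)..1,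
      pi2 w (L₁ ++ lv l ρ l.m :: lv l (1 - ρ) l.m :: L₂) (L₁.length + 1) l.cov h := by
  rw [gir hw hw, ← intervalIntegral.integral_const_mul]
  refine intervalIntegral.integral_congr fun ρ _ => ?_
  have e : (L₁ ++ lv l ρ l.m :: lv l (1 - ρ) l.m :: L₂).drop (L₁.length + 1) =
      lv l (1 - ρ) l.m :: L₂ := by simp
  have e2 : dri w w l.m l.cov (lv l (1 - ρ) l.m :: L₂) =
      fun y => l.m / 2 * qf (P w (lv l (1 - ρ) l.m :: L₂) y) l.cov := by
    ext y
    show l.m * qf _ _ - _ = _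
    ring
  simp only [pi2, e, e2, node_const_mul]

theorem jm_eq (hw : Wt w) (L : List (Lv Ω)) {j : ℕ} (hj : j < L.length) (h : Ω → ℝ) :
    node w L (j + 1) (X w (L.drop (j + 1))) h - node w L j (X w (L.drop j)) h = jm w L j h := by
  have e := jump hw (L.take j) (L.drop (j + 1)) L[j] h
  rw [List.length_take_of_le hj.le, ← List.drop_eq_getElem_cons hj, List.take_append_drop] at e
  rw [e, jm, List.getElem?_eq_getElem hj]
  rfl

/-- thermal entropy (relative to `w`) at the end of the path -/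
def Sn (w z : Ω → ℝ) : ℝ := X w [] z - Pf w [] z z

theorem eg_Sn (hw : Wt w) : Eg (Sn w) := (lg_X hw []).eg.sub (eg_Pfz hw [])

/-- **Euler identity**: mean value at node `i` = energy + entropy − later jumps -/
theorem euler (hw : Wt w) (L : List (Lv Ω)) (m0 : ℝ) (h : Ω → ℝ) {i : ℕ} (hi : i ≤ L.length) :
    node w L i (X w (L.drop i)) h = Pf w L h (fun x => h x + cacc L L.length x x) -
      pair w L m0 (cacc L) h + node w L L.length (Sn w) h -
        ∑ j ∈ Finset.Ico i L.length, jm w L j h := by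
  have e1 := tele w L (fun j => X w (L.drop j)) h hi
  rw [Finset.sum_congr rfl fun j hj => jm_eq hw L (Finset.mem_Ico.1 hj).2 h, List.drop_length] at e1
  have e2 := congrFun (node_sub hw (lg_X hw []).eg (eg_Pfz hw []) L L.length) h
  rw [energy hw L m0] at e2
  change node w L L.length (Sn w) h = _ at e2
  linarith

/-! ### a last level of tilt one changes nothing below it -/



theorem sum_shift {v : ℝ} {f : Ω → ℝ} (hv : ∀ x, w x ≠ 0 → f x = v) (h : Ω → ℝ) (x : Ω) :
    w x * exp ((h + f) x) = w x * exp (h x) * exp v := by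
  by_cases hx : w x = 0
  · simp [hx]
  · rw [Pi.add_apply, hv x hx, exp_add, mul_assoc]

variable {l : Lv Ω} {v : ℝ}






/-! ### the entropy after a strong mark -/

open Classical in
theorem Sn_eq (hw : Wt w) (z : Ω → ℝ) :
    exp (X w [] z) * Sn w z = ∑ x, w x * exp (z x) * (X w [] z - z x) := by
  have e : ∀ x, exp (X w [] z) * P w [] z x = w x * exp (z x) := fun x => by
    rw [C.exp_X_nil hw]
    simp only [P, prob]
    rw [mul_div_cancel₀ _ (wt_exp hw z).pos.ne']
  simp only [Sn, Pf, mul_sub, Finset.sum_sub_distrib, Finset.mul_sum, ← mul_assoc, e,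
    ← Finset.sum_mul]
  rw [C.exp_X_nil hw]

theorem Sn_nonneg (hw : Wt w) (h01 : ∀ x, w x = 0 ∨ w x = 1) (z : Ω → ℝ) : 0 ≤ Sn w z := by
  refine (mul_nonneg_iff_of_pos_left (exp_pos (X w [] z))).1 ?_
  rw [Sn_eq hw]
  refine Finset.sum_nonneg fun x _ => ?_
  rcases h01 x with hx | hx
  · simp [hx]
  · refine mul_nonneg (mul_nonneg (hw.nn x) (exp_pos _).le) (sub_nonneg.2 (exp_le_exp.1 ?_))
    rw [C.exp_X_nil hw, ← one_mul (exp (z x)), ← hx]
    exact Finset.single_le_sum (f := fun x => w x * exp (z x))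
      (fun y _ => mul_nonneg (hw.nn y) (exp_pos _).le) (Finset.mem_univ x)

open Classical in
theorem Sn_le (hw : Wt w) (h01 : ∀ x, w x = 0 ∨ w x = 1) (z : Ω → ℝ) :
    exp (X w [] z) * Sn w z ≤
      2 * ∑ x, ∑ y ∈ Finset.univ.erase x, w x * w y * exp ((z x + z y) / 2) := by
  rw [Sn_eq hw, Finset.mul_sum]
  refine Finset.sum_le_sum fun x _ => ?_
  have a0 : ∀ y, 0 ≤ w y * exp (z y / 2) := fun y => mul_nonneg (hw.nn y) (exp_pos _).le
  rcases h01 x with hx | hx
  · simp [hx]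
  · set A := ∑ y ∈ Finset.univ.erase x, w y * exp (z y / 2) with hA
    have A0 : 0 ≤ A := Finset.sum_nonneg fun y _ => a0 y
    have hp := exp_pos (z x / 2)
    have h1 : exp (X w [] z) ≤ (exp (z x / 2) + A) ^ 2 := by
      have h2 : exp (z x / 2) + A = ∑ y, w y * exp (z y / 2) := by
        rw [← Finset.add_sum_erase _ _ (Finset.mem_univ x), hx, one_mul]
      rw [h2, C.exp_X_nil hw]
      refine le_trans (le_of_eq (Finset.sum_congr rfl fun y _ => ?_))
        (Finset.sum_sq_le_sq_sum_of_nonneg fun y _ => a0 y)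
      rw [mul_pow, sq (exp _), ← exp_add, add_halves]
      rcases h01 y with hy | hy <;> simp [hy]
    have h3 : exp (z x / 2) + A ≤ exp (z x / 2 + A / exp (z x / 2)) := by
      rw [exp_add]
      have := mul_le_mul_of_nonneg_left (add_one_le_exp (A / exp (z x / 2))) hp.le
      rw [mul_add, mul_div_cancel₀ _ hp.ne', mul_one] at this
      linarith
    have h4 : X w [] z ≤ 2 * (z x / 2 + A / exp (z x / 2)) := by
      refine exp_le_exp.1 (h1.trans ?_)
      rw [two_mul, exp_add, ← sq]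
      exact pow_le_pow_left₀ (by positivity) h3 2
    have h5 : ∑ y ∈ Finset.univ.erase x, w x * w y * exp ((z x + z y) / 2) =
        exp (z x / 2) * A := by
      rw [hA, Finset.mul_sum]
      exact Finset.sum_congr rfl fun y _ => by rw [hx, add_div, exp_add]; ring
    have h6 : exp (z x) = exp (z x / 2) * exp (z x / 2) := by rw [← exp_add, add_halves]
    rw [h5, hx, one_mul, h6]
    have h7 : exp (z x / 2) * (A / exp (z x / 2)) = A := mul_div_cancel₀ _ hp.ne'
    have h8 := mul_le_mul_of_nonneg_left (show X w [] z - z x ≤ 2 * (A / exp (z x / 2)) by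
      linarith) (mul_pos hp hp).le
    calc _ ≤ _ := h8
      _ = 2 * (exp (z x / 2) * (exp (z x / 2) * (A / exp (z x / 2)))) := by ring
      _ = _ := by rw [h7]

open Classical in
/-- the entropy left after a mark of tilt one -/
theorem tE_Sn_le (hw : Wt w) (h01 : ∀ x, w x = 0 ∨ w x = 1) (hm : l.m = 1)
    (hv : ∀ x, w x ≠ 0 → l.cov x x = v) {B : ℝ} (hB : ∀ x, w x ≠ 0 →
      ∑ y ∈ Finset.univ.erase x, w y * exp (-(v - l.cov x y) / 4) ≤ B) (h : Ω → ℝ) :
    tE l (X w []) (Sn w) h ≤ 2 * B := by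
  have e1 : ∀ x y, ∀ g, exp (((h + l.fld g) x + (h + l.fld g) y) / 2) =
      exp ((h x + h y) / 2) * exp (∑ i, (l.A x i + l.A y i) / 2 * g i) := fun x y g => by
    rw [← exp_add]
    congr 1
    simp only [Pi.add_apply, Lv.fld, div_mul_eq_mul_div, add_mul, ← Finset.sum_div,
      Finset.sum_add_distrib]
    ring
  have i1 : ∀ x y, Integrable (fun g => w x * w y *
      exp (((h + l.fld g) x + (h + l.fld g) y) / 2)) (gv l.ι) := fun x y => by
    simp only [e1]
    exact ((C.integrable_exp_lin _).const_mul _).const_mul _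
  have e2 : ∀ x y, ∫ g, w x * w y * exp (((h + l.fld g) x + (h + l.fld g) y) / 2) ∂gv l.ι =
      w x * w y * exp ((h x + h y) / 2) * exp (-(v - l.cov x y) / 4) * exp (v / 2) := by
    intro x y
    by_cases hx : w x = 0
    · simp [hx]
    by_cases hy : w y = 0
    · simp [hy]
    simp only [e1]
    rw [integral_const_mul, integral_const_mul, C.int_exp_lin]
    have e3 : ∑ i, (l.A x i + l.A y i) / 2 * ((l.A x i + l.A y i) / 2) =
        (l.cov x x + l.cov y y + 2 * l.cov x y) / 4 := by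
      simp only [Lv.cov, Finset.mul_sum, ← Finset.sum_add_distrib, Finset.sum_div]
      exact Finset.sum_congr rfl fun i _ => by ring
    rw [e3, hv x hx, hv y hy, show (v + v + 2 * l.cov x y) / 4 / 2 =
      -(v - l.cov x y) / 4 + v / 2 by ring, exp_add]
    ring
  have e4 : ∫ g, exp (X w [] (h + l.fld g)) ∂gv l.ι = (∑ x, w x * exp (h x)) * exp (v / 2) := by
    rw [C.int_exp_X_nil hw, Finset.sum_mul]
    exact Finset.sum_congr rfl fun x _ => sum_shift (v := v / 2) (f := fun x => l.cov x x / 2)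
      (fun x hx => by rw [hv x hx]) h x
  have hZ := (lg_X hw []).Z_pos l h
  have hi := (lg_X hw []).int (eg_Sn hw) l h
  rw [tE, div_le_iff₀ hZ]
  simp only [hm, one_mul] at hi ⊢
  refine (integral_mono hi ((integrable_finsetSum _ fun x _ => integrable_finsetSum _ fun y _ =>
    i1 x y).const_mul 2) fun g => Sn_le hw h01 _).trans ?_
  rw [integral_const_mul, integral_finsetSum _ fun x _ => integrable_finsetSum _ fun y _ => i1 x y,
    e4, mul_assoc]
  refine mul_le_mul_of_nonneg_left ?_ zero_le_two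
  simp only [integral_finsetSum _ fun y _ => i1 _ y, e2, ← Finset.sum_mul]
  rw [← mul_assoc]
  refine mul_le_mul_of_nonneg_right ?_ (exp_pos _).le
  have am : ∀ x y, w x * w y * exp ((h x + h y) / 2) * exp (-(v - l.cov x y) / 4) ≤
      (w x * exp (h x) * (w y * exp (-(v - l.cov x y) / 4)) +
        w y * exp (h y) * (w x * exp (-(v - l.cov y x) / 4))) / 2 := fun x y => by
    have h1 : exp ((h x + h y) / 2) ≤ (exp (h x) + exp (h y)) / 2 := by
      have := convexOn_exp.2 (mem_univ (h x)) (mem_univ (h y)) (show (0 : ℝ) ≤ 1 / 2 by norm_num)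
        (show (0 : ℝ) ≤ 1 / 2 by norm_num) (by norm_num)
      simp only [smul_eq_mul] at this
      rw [show (h x + h y) / 2 = 1 / 2 * h x + 1 / 2 * h y by ring]
      linarith
    have h2 := mul_le_mul_of_nonneg_left h1 (mul_nonneg (mul_nonneg (hw.nn x) (hw.nn y))
      (exp_pos (-(v - l.cov x y) / 4)).le)
    rw [cov_symm l y x]
    linarith
  have sw : ∑ x, ∑ y ∈ Finset.univ.erase x, w y * exp (h y) * (w x * exp (-(v - l.cov y x) / 4)) =
      ∑ x, ∑ y ∈ Finset.univ.erase x, w x * exp (h x) * (w y * exp (-(v - l.cov x y) / 4)) :=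
    Finset.sum_comm' fun x y => by simp [eq_comm]
  refine (Finset.sum_le_sum fun x _ => Finset.sum_le_sum fun y _ => am x y).trans ?_
  simp only [← Finset.sum_div, Finset.sum_add_distrib, sw, add_self_div_two]
  rw [Finset.mul_sum]
  refine Finset.sum_le_sum fun x _ => ?_
  rw [← Finset.mul_sum, mul_comm B]
  by_cases hx : w x = 0
  · simp [hx]
  · exact mul_le_mul_of_nonneg_left (hB x hx) (mul_nonneg (hw.nn x) (exp_pos _).le)

open Classical in
theorem node_Sn_le (hw : Wt w) (h01 : ∀ x, w x = 0 ∨ w x = 1) (hm : l.m = 1)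
    (hv : ∀ x, w x ≠ 0 → l.cov x x = v) {B : ℝ} (hB : ∀ x, w x ≠ 0 →
      ∑ y ∈ Finset.univ.erase x, w y * exp (-(v - l.cov x y) / 4) ≤ B) (L : List (Lv Ω))
    (h : Ω → ℝ) : 0 ≤ node w (L ++ [l]) (L.length + 1) (Sn w) h ∧
      node w (L ++ [l]) (L.length + 1) (Sn w) h ≤ 2 * B := by
  refine ⟨node_nonneg w (Sn_nonneg hw h01) _ _ _, ?_⟩
  rw [add_comm L.length, ← node_node, List.drop_left, node_cons, node_zero]
  exact node_le hw ((eg_Sn hw).tE (lg_X hw []) l) (tE_Sn_le hw h01 hm hv hB) _ _ _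

/-- the Hamming sum on the cube -/
theorem sum_cube (n : ℕ) (U : ℝ) (x : Cube n) :
    ∑ y ∈ Finset.univ.erase x, exp (-(U * n - U * ∑ i, sv x i * sv y i) / 4) =
      (1 + exp (-U / 2)) ^ n - 1 := by
  have e1 : ∀ y : Cube n, exp (-(U * n - U * ∑ i, sv x i * sv y i) / 4) =
      ∏ i, if y i = x i then 1 else exp (-U / 2) := fun y => by
    have e2 : -(U * n - U * ∑ i, sv x i * sv y i) / 4 =
        ∑ i, -(U - U * (sv x i * sv y i)) / 4 := by
      rw [← Finset.sum_div, Finset.sum_neg_distrib, Finset.sum_sub_distrib, ← Finset.mul_sum]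
      simp [mul_comm]
    rw [e2, exp_sum]
    refine Finset.prod_congr rfl fun i _ => ?_
    simp only [sv]
    cases x i <;> cases y i <;>
      simp [Crest.ProbabilityR.SpinGlassDynamics.spin] <;> ring_nf
  rw [eq_sub_iff_add_eq]
  simp only [e1]
  have e3 := Finset.sum_erase_add Finset.univ
    (fun y : Cube n => ∏ i, if y i = x i then (1 : ℝ) else exp (-U / 2)) (Finset.mem_univ x)
  simp only [if_true, Finset.prod_const_one] at e3
  rw [e3, ← Fintype.piFinset_univ,
    ← Finset.prod_univ_sum (fun _ => Finset.univ) fun i b => if b = x i then (1 : ℝ) else exp (-U / 2)]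
  have e4 : ∀ i, ∑ b : Bool, (if b = x i then (1 : ℝ) else exp (-U / 2)) = 1 + exp (-U / 2) :=
    fun i => by cases x i <;> simp [add_comm]
  simp only [e4, Finset.prod_const, Finset.card_univ, Fintype.card_fin]


end Crest.Agent.T156.Cas.Gir68

end
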