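import Crest.Agent.T156.PSharp_81
import Crest.Agent.T156.PrC_28
import Crest.Agent.T156.Ker_31
import Crest.Agent.T156.PlatS_10

/-!
Row 156, ALT, text (P) (helper97): two lists that differ only below a time `s` (merged low
levels), mixed differences, the susceptibilities `χ_y`, and the time derivative of the replicon
coefficient.
-/

set_option autoImplicit false

namespace Crest.Agent.T156.Pr.Mer97

open MeasureTheory Set
open Crest.Agent.R164.GC Crest.Agent.R339.B Crest.Agent.R339.Var Crest.Agent.T157.Pf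
open Crest.Agent.T156.Pp (Dn Dn_succ Dn_bd Dn_zero Dn_one)
open Crest.Agent.T156.Pp.Ode3 (AP X2 dz_ii int_le_const lvr_pos lvr_le_one lvr_ii lvr_mono)

noncomputable section

/-- sharp comparison of the laws (31) -/
def LipS : Prop := ∀ T0 : ℝ, ∃ C : ℝ, 1 ≤ C ∧ ∀ l l', Ok l → Ok l' → TT l' = TT l → TT l ≤ T0 →
  ∀ t ∈ Icc 0 (TT l), ∀ (F : ℝ → ℝ) (K : ℝ), BD F → (∀ x, |deriv F x| ≤ K) →
    |Et l' t F - Et l t F| ≤ C * K * ((∫ s in (0:ℝ)..t, |lvr 1 l' s - lvr 1 l s|) +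
      (∫ s in (0:ℝ)..t, lvr 1 l s) * ∫ s in t..TT l, |lvr 1 l' s - lvr 1 l s|) ∧
    ((∀ x, F (-x) = F x) → (∀ x, |deriv (deriv F) x| ≤ K) →
      |Et l' t F - Et l t F| ≤ C * K * ((∫ s in (0:ℝ)..t, s * |lvr 1 l' s - lvr 1 l s|) +
        t * (∫ s in (0:ℝ)..t, lvr 1 l s) * ∫ s in t..TT l, |lvr 1 l' s - lvr 1 l s|))

theorem lipS : LipS := by
  intro T0
  obtain ⟨C, hC, H⟩ := Ker.EX_lip T0
  refine ⟨C, hC, fun l l' h h' e hT t ht F K hF hK => ?_⟩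
  obtain ⟨a, -, b⟩ := H l l' h.1 h'.1 e hT t ht F K hF hK 0 _ _ rfl rfl
  refine ⟨a, fun he h2 => ?_⟩
  have := b he h2
  rw [show (0:ℝ) ^ 2 = 0 by norm_num, mul_zero, add_zero] at this
  exact this

/-! ### test functions with two bounded derivatives -/

structure B2 (F : ℝ → ℝ) (K : ℝ) : Prop where
  bd : BD F
  l0 : ∀ x, |F x| ≤ K
  l1 : ∀ x, |deriv F x| ≤ K
  l2 : ∀ x, |deriv (deriv F) x| ≤ K

theorem B2.nn {F : ℝ → ℝ} {K : ℝ} (h : B2 F K) : 0 ≤ K := (abs_nonneg _).trans (h.l0 0)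

theorem B2.mono {F : ℝ → ℝ} {K L : ℝ} (h : B2 F K) (hK : K ≤ L) : B2 F L :=
  ⟨h.bd, fun x => (h.l0 x).trans hK, fun x => (h.l1 x).trans hK, fun x => (h.l2 x).trans hK⟩

theorem abs_mul_le' {a b K L : ℝ} (ha : |a| ≤ K) (hb : |b| ≤ L) : |a * b| ≤ K * L := by
  rw [abs_mul]
  exact mul_le_mul ha hb (abs_nonneg _) ((abs_nonneg _).trans ha)

theorem B2.mul {F G : ℝ → ℝ} {K L : ℝ} (h : B2 F K) (g : B2 G L) :
    B2 (fun x => F x * G x) (4 * (K * L)) := by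
  have k0 : 0 ≤ K * L := mul_nonneg h.nn g.nn
  have e1 : deriv (fun x => F x * G x) = fun x => deriv F x * G x + F x * deriv G x :=
    funext fun x => ((h.bd.hasDerivAt x).fun_mul (g.bd.hasDerivAt x)).deriv
  refine ⟨h.bd.mul g.bd, fun x => ?_, fun x => ?_, fun x => ?_⟩
  · have := abs_mul_le' (h.l0 x) (g.l0 x)
    linarith
  · rw [e1]
    have a := abs_mul_le' (h.l1 x) (g.l0 x)
    have b := abs_mul_le' (h.l0 x) (g.l1 x)
    have := abs_add_le (deriv F x * G x) (F x * deriv G x)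
    linarith
  · rw [e1, (((h.bd.deriv.hasDerivAt x).fun_mul (g.bd.hasDerivAt x)).fun_add
      ((h.bd.hasDerivAt x).fun_mul (g.bd.deriv.hasDerivAt x))).deriv]
    have a := abs_le.1 (abs_mul_le' (h.l2 x) (g.l0 x))
    have b := abs_le.1 (abs_mul_le' (h.l1 x) (g.l1 x))
    have c := abs_le.1 (abs_mul_le' (h.l0 x) (g.l2 x))
    rw [abs_le]
    constructor <;> linarith [a.1, a.2, b.1, b.2, c.1, c.2]

theorem b2_Dk (T : ℝ) : ∃ C : ℝ, 1 ≤ C ∧ ∀ l, Adm 1 l → TT l ≤ T → ∀ t, 0 ≤ t → ∀ j ≤ 3,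
    B2 (Dk j l t) C := by
  obtain ⟨C, h1, hC⟩ := Pp.Ode3.Dn_PhiT T 5
  refine ⟨C, h1, fun l h hT t ht j hj => ⟨Dn_bd (PhiT_prof one_pos l t) j,
    hC l h hT t ht j (by omega), fun x => ?_, fun x => ?_⟩⟩
  · unfold Dk
    rw [← Dn_succ]
    exact hC l h hT t ht _ (by omega) x
  · unfold Dk
    rw [← Dn_succ, ← Dn_succ]
    exact hC l h hT t ht _ (by omega) x

theorem Dk_neg (l : List (ℝ × ℝ)) (t : ℝ) (j : ℕ) (x : ℝ) :
    Dk j l t (-x) = (-1) ^ (j + 1) * Dk j l t x := by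
  unfold Dk
  refine Ker.Dn_neg (fun y => ?_) j x
  rw [Lip62.PhiT_eq_rest]
  exact Ker.PhiL_even _ y

theorem Dk_sq_neg (l : List (ℝ × ℝ)) (t : ℝ) (j : ℕ) (x : ℝ) :
    Dk j l t (-x) * Dk j l t (-x) = Dk j l t x * Dk j l t x := by
  rw [Dk_neg]
  rcases neg_one_pow_eq_or ℝ (j + 1) with h | h <;> rw [h] <;> ring

theorem Dk1_neg (l : List (ℝ × ℝ)) (t x : ℝ) : Dk 1 l t (-x) = Dk 1 l t x := by
  rw [Dk_neg]; ring


/-! ### lists that differ only below `s` -/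

/-- `l` and `k` have the same tilts from `s` on, tilts `≤ m` before -/
structure Low (m s : ℝ) (l k : List (ℝ × ℝ)) : Prop where
  ok : Ok l
  ok' : Ok k
  tt : TT k = TT l
  s0 : 0 ≤ s
  sT : s ≤ TT l
  m0 : 0 ≤ m
  eq : ∀ t, s ≤ t → lvr 1 k t = lvr 1 l t
  le : ∀ t, 0 ≤ t → t < s → lvr 1 l t ≤ m
  le' : ∀ t, 0 ≤ t → t < s → lvr 1 k t ≤ m

section low

variable {m s : ℝ} {l k l' k' : List (ℝ × ℝ)}

theorem Low.symm (h : Low m s l k) : Low m s k l :=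
  ⟨h.ok', h.ok, h.tt.symm, h.s0, h.tt ▸ h.sT, h.m0, fun t ht => (h.eq t ht).symm, h.le', h.le⟩

theorem Low.dz (h : Low m s l k) {t : ℝ} (h0 : 0 ≤ t) (h1 : t < s) :
    |lvr 1 k t - lvr 1 l t| ≤ m := by
  have a := lvr_pos h.ok.1 t
  have b := lvr_pos h.ok'.1 t
  rw [abs_le]
  constructor <;> linarith [h.le t h0 h1, h.le' t h0 h1]

theorem Low.up (h : Low m s l k) (g : ℝ → ℝ) {t u : ℝ} (ht : s ≤ t) (hu : s ≤ u) :
    ∫ r in t..u, g r * |lvr 1 k r - lvr 1 l r| = 0 := by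
  rw [intervalIntegral.integral_congr (g := fun _ => 0) fun r hr => ?_]
  · simp
  · have : s ≤ r := (le_min ht hu).trans hr.1
    simp [h.eq r this]

theorem Low.up1 (h : Low m s l k) {t u : ℝ} (ht : s ≤ t) (hu : s ≤ u) :
    ∫ r in t..u, |lvr 1 k r - lvr 1 l r| = 0 := by
  simpa using h.up (fun _ => 1) ht hu



theorem Low.intW (h : Low m s l k) {t : ℝ} (ht : s ≤ t) :
    ∫ r in (0:ℝ)..t, r * |lvr 1 k r - lvr 1 l r| ≤ m * s ^ 2 := by
  have ii : ∀ a b : ℝ, IntervalIntegrable (fun r => r * |lvr 1 k r - lvr 1 l r|) volume a b :=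
    fun a b => (dz_ii h.ok.1 h.ok'.1 a b).continuousOn_mul continuousOn_id
  rw [← intervalIntegral.integral_add_adjacent_intervals (ii 0 s) (ii s t),
    h.up (fun r => r) le_rfl ht, add_zero]
  refine (le_abs_self _).trans ((int_le_const (K := s * m) h.s0 fun r a b => ?_).trans_eq
    (by ring))
  exact abs_mul_le' (by rw [abs_of_pos a]; exact b.le) (by rw [abs_abs]; exact h.dz a.le b)


end low

/-- **(St)**: above `s` the profiles agree and the even moments differ by `O(m s²)` -/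
theorem St (T0 : ℝ) : ∃ C : ℝ, 1 ≤ C ∧ ∀ (m s : ℝ) (l k : List (ℝ × ℝ)),
    Low m s l k → TT l ≤ T0 → ∀ t ∈ Icc s (TT l), PhiT 1 k t = PhiT 1 l t ∧
      (∀ (F : ℝ → ℝ) (K : ℝ), B2 F K → (∀ x, F (-x) = F x) →
        |Et k t F - Et l t F| ≤ C * K * (m * s ^ 2)) ∧
      |Gam k t - Gam l t| ≤ C * (m * s ^ 2) ∧ |GG k t - GG l t| ≤ C * (m * s ^ 2) ∧
      |AA k t - AA l t| ≤ C * (m * s ^ 2) ∧ |NN k t - NN l t| ≤ C * (m * s ^ 2) ∧
      |X2 k t - X2 l t| ≤ C * (m * s ^ 2) := by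
  obtain ⟨C2, -, H2⟩ := Ker.lip2S T0
  obtain ⟨C, hC, HS⟩ := lipS T0
  obtain ⟨K, hK, hB⟩ := b2_Dk T0
  have K3 : 1 ≤ 16 * K ^ 3 := by nlinarith [one_le_pow₀ (n := 3) hK]
  refine ⟨C * (16 * K ^ 3), by nlinarith, fun m s l k h hT t ht => ?_⟩
  have t0 : 0 ≤ t := h.s0.trans ht.1
  have hP := (H2 l k h.ok h.ok' h.tt hT s ⟨h.s0, h.sT⟩ h.eq t ht).1
  have ms : 0 ≤ m * s ^ 2 := mul_nonneg h.m0 (sq_nonneg s)
  have key : ∀ (F : ℝ → ℝ) (K : ℝ), B2 F K → (∀ x, F (-x) = F x) →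
      |Et k t F - Et l t F| ≤ C * K * (m * s ^ 2) := fun F L hF he => by
    have := (HS l k h.ok h.ok' h.tt hT t ⟨t0, ht.2⟩ F L hF.bd hF.l1).2 he hF.l2
    rw [h.up1 ht.1 h.sT, mul_zero, add_zero] at this
    exact this.trans (mul_le_mul_of_nonneg_left (h.intW ht.1) (mul_nonneg (by linarith) hF.nn))
  have key' : ∀ F : ℝ → ℝ, B2 F (16 * K ^ 3) → (∀ x, F (-x) = F x) →
      |Et k t F - Et l t F| ≤ C * (16 * K ^ 3) * (m * s ^ 2) := fun F => key F _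
  have hD : ∀ j, Dk j k t = Dk j l t := fun j => by unfold Dk; rw [hP]
  have b := hB l h.ok.1 hT t t0
  have q2 : 4 * (K * K) ≤ 16 * K ^ 3 := by nlinarith
  have sq : ∀ j ≤ 3, |(Et k t fun x => Dk j k t x ^ 2) - Et l t fun x => Dk j l t x ^ 2| ≤
      C * (16 * K ^ 3) * (m * s ^ 2) := fun j hj => by
    simp only [hD, sq]
    simpa only [sq] using key' _ (((b j hj).mul (b j hj)).mono q2) (Dk_sq_neg l t j)
  refine ⟨hP, fun F L hF he => (key F L hF he).trans ?_, sq 0 (by norm_num), sq 1 (by norm_num),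
    ?_, sq 2 (by norm_num), ?_⟩
  · have : C * L ≤ C * (16 * K ^ 3) * L := by
      have := hF.nn
      have : 0 ≤ C * L := by positivity
      nlinarith
    exact mul_le_mul_of_nonneg_right this ms
  · unfold AA
    have e : ∀ x, Dk 1 l t x ^ 3 = Dk 1 l t x * Dk 1 l t x * Dk 1 l t x := fun x => by ring
    simp only [hD, e]
    exact key' _ ((((b 1 (by norm_num)).mul (b 1 (by norm_num))).mul (b 1 (by norm_num))).mono
      (le_of_eq (by ring))) fun x => by rw [Dk1_neg]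
  · show |Et k t (Dk 1 k t) - Et l t (Dk 1 l t)| ≤ _
    rw [hD]
    exact key' _ ((b 1 (by norm_num)).mono (by nlinarith [one_le_pow₀ (n := 2) hK])) (Dk1_neg l t)







theorem alg {c x x' y y' A B E e e' : ℝ} (hc : 0 < c) (hx : c ≤ x) (hx' : c ≤ x') (x1 : x ≤ 1)
    (y0 : 0 ≤ y) (y1 : y ≤ 1) (y0' : 0 ≤ y') (y1' : y' ≤ 1) (hA : |y - x| ≤ A)
    (hA' : |y' - x'| ≤ A) (hB : |(y' - y) - (x' - x)| ≤ B) (hE : |x' - x| ≤ E) (he : |e| ≤ 1) :
    |1 - (1 - e) / x ^ 2 * y ^ 2 - e| ≤ 4 * c⁻¹ ^ 2 * A ∧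
    |(1 - (1 - e') / x' ^ 2 * y' ^ 2) - (1 - (1 - e) / x ^ 2 * y ^ 2) - (e' - e)| ≤
      2 * c⁻¹ ^ 2 * (|e' - e| * A) + 4 * c⁻¹ ^ 3 * (B + A * E) := by
  have x0 : 0 < x := hc.trans_le hx
  have x0' : 0 < x' := hc.trans_le hx'
  set R := c⁻¹ with hR
  have R1 : 1 ≤ R := (one_le_inv₀ hc).2 (hx.trans x1)
  have r1 : |x⁻¹| ≤ R := by rw [abs_of_pos (inv_pos.2 x0)]; exact inv_anti₀ hc hx
  have r2 : |x'⁻¹| ≤ R := by rw [abs_of_pos (inv_pos.2 x0')]; exact inv_anti₀ hc hx'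
  have A0 : 0 ≤ A := (abs_nonneg _).trans hA
  have B0 : 0 ≤ B := (abs_nonneg _).trans hB
  have E0 : 0 ≤ E := (abs_nonneg _).trans hE
  have p1 : |y * x⁻¹| ≤ 1 * R := abs_mul_le' (by rw [abs_of_nonneg y0]; exact y1) r1
  have p2 : |y' * x'⁻¹| ≤ 1 * R := abs_mul_le' (by rw [abs_of_nonneg y0']; exact y1') r2
  have e1 : |1 - e| ≤ 2 := by rw [abs_le] at he ⊢; constructor <;> linarith [he.1, he.2]
  have s1 : |1 + y * x⁻¹| ≤ 2 * R := by
    rw [abs_le] at p1 ⊢; constructor <;> linarith [p1.1, p1.2]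
  have s2 : |1 + y' * x'⁻¹| ≤ 2 * R := by
    rw [abs_le] at p2 ⊢; constructor <;> linarith [p2.1, p2.2]
  have s3 : |y' * x'⁻¹ + y * x⁻¹| ≤ 2 * R := by
    rw [abs_le] at p1 p2 ⊢; constructor <;> linarith [p1.1, p1.2, p2.1, p2.2]
  have q1 := abs_mul_le' (abs_mul_le' hA r1) s1
  have q2 := abs_mul_le' (abs_mul_le' hA' r2) s2
  have q3 := abs_mul_le' hB r2
  have q4 := abs_mul_le' hA (abs_mul_le' hE (abs_mul_le' r1 r2))
  have q5 : |((y' - y) - (x' - x)) * x'⁻¹ - (y - x) * ((x' - x) * (x⁻¹ * x'⁻¹))| ≤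
      B * R + A * (E * (R * R)) := (abs_sub _ _).trans (add_le_add q3 q4)
  constructor
  · have := abs_mul_le' e1 q1
    rw [show 1 - (1 - e) / x ^ 2 * y ^ 2 - e = -((1 - e) * ((y - x) * x⁻¹ * (1 + y * x⁻¹))) by
      field_simp; ring, abs_neg]
    exact this.trans_eq (by ring)
  · have t1 := abs_mul_le' (le_refl |e' - e|) q2
    have t2 := abs_mul_le' e1 (abs_mul_le' q5 s3)
    rw [show (1 - (1 - e') / x' ^ 2 * y' ^ 2) - (1 - (1 - e) / x ^ 2 * y ^ 2) - (e' - e) =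
      (e' - e) * ((y' - x') * x'⁻¹ * (1 + y' * x'⁻¹)) - (1 - e) * ((((y' - y) - (x' - x)) * x'⁻¹ -
        (y - x) * ((x' - x) * (x⁻¹ * x'⁻¹))) * (y' * x'⁻¹ + y * x⁻¹)) by field_simp; ring]
    refine (abs_sub _ _).trans ((add_le_add t1 t2).trans ?_)
    have : B * R ^ 2 ≤ B * R ^ 3 :=
      mul_le_mul_of_nonneg_left (pow_le_pow_right₀ R1 (by norm_num)) B0
    nlinarith


/-! ### the merged list -/

/-- the part of a list after the time `t`, without empty blocks -/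
def rs : List (ℝ × ℝ) → ℝ → List (ℝ × ℝ)
  | [], _ => []
  | p :: l, t => if t < p.2 then (p.1, p.2 - t) :: l else rs l (t - p.2)

theorem rs_spec : ∀ {l : List (ℝ × ℝ)}, Ok l → ∀ {t : ℝ}, 0 ≤ t → Ok (rs l t) ∧
    headLv 1 (rs l t) = lvr 1 l t ∧ (t ≤ TT l → TT (rs l t) = TT l - t) ∧
    ∀ u, 0 ≤ u → lvr 1 (rs l t) u = lvr 1 l (u + t)
  | [], h, t, ht => ⟨h, rfl, fun a => by
      have : t ≤ 0 := by simpa [TT] using a
      simp [rs, TT, le_antisymm this ht], fun _ _ => rfl⟩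
  | p :: l, h, t, ht => by
    unfold rs
    split_ifs with h1
    · refine ⟨⟨⟨h.1.1, h.1.2.1, by simpa using h1.le, h.1.2.2.2⟩, fun q hq => ?_⟩, ?_, fun _ => ?_,
        fun u hu => ?_⟩
      · rcases List.mem_cons.1 hq with a | a
        · rw [a]; simpa using h1
        · exact h.2 q (List.mem_cons_of_mem _ a)
      · simp only [headLv, lvr, if_pos h1]
      · simp only [TT_cons]; ring
      · simp only [lvr, lt_sub_iff_add_lt]
        rw [show u - (p.2 - t) = u + t - p.2 by ring]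
    · obtain ⟨a, b, c, d⟩ := rs_spec (Plat10.ok_tail h) (t := t - p.2) (by linarith)
      refine ⟨a, ?_, fun e => ?_, fun u hu => ?_⟩
      · rw [b]; simp only [lvr, if_neg h1]
      · rw [TT_cons] at e ⊢
        rw [c (by linarith)]; ring
      · rw [d u hu]
        simp only [lvr]
        rw [if_neg (by linarith), show u + (t - p.2) = u + t - p.2 by ring]


/-- all levels below the time `s` merged into one level of tilt `m` -/
def mg (m s : ℝ) (l : List (ℝ × ℝ)) : List (ℝ × ℝ) := (m, s) :: rs l s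



/-! ### the time derivative of `G` -/


theorem NN_lip (T0 : ℝ) : ∃ K : ℝ, 1 ≤ K ∧ ∀ l, Ok l → TT l ≤ T0 → ∀ s ∈ Icc 0 (TT l),
    ∀ t ∈ Icc 0 (TT l), |NN l t - NN l s| ≤ K * |t - s| := by
  obtain ⟨K, hK, hB⟩ := b2_Dk T0
  refine ⟨K * K + 24, by nlinarith, fun l h hT s hs t ht => ?_⟩
  have hA := AP.of_ok h
  refine abs_sub_le_of_rder (Pp.Ode3.Nm_cont hA) (fun r hr => Pp.Ode3.Nm_rder hA hr.1 hr.2) hs ht
    fun r hr => ?_
  have r0 : 0 ≤ r := (le_min hs.1 ht.1).trans hr.1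
  have a1 := Pp.Ode3.N4_nonneg l r
  have a2 : Pp.Ode3.N4 l r ≤ K * K := Pp.Ode3.Et_le Pp.bfn_W3 fun y => by
    have := abs_mul_le' ((hB l h.1 hT r r0 3 le_rfl).l0 y) ((hB l h.1 hT r r0 3 le_rfl).l0 y)
    unfold Pp.W3
    rw [sq]
    exact (le_abs_self _).trans this
  have a3 := Pp.Ode3.Bm_nonneg h.1 r
  have a4 := (Pp.Ode3.Bm_le_Nm h.1 r).trans (Pp.Ode3.Nm_le_four h.1 r)
  have a5 := lvr_pos h.1 r
  have a6 := lvr_le_one h.1 r
  rw [abs_le]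
  constructor <;> nlinarith

variable {b0 c C η v : ℝ} {J : ℕ} {z : ℕ → ℝ}




/-! ### reveal slices: constants that do not depend on their length -/


/-- slices of tilt `1` -/
def Top (R : List (ℝ × ℝ)) : Prop := ∀ p ∈ R, p.1 = 1 ∧ 0 < p.2

theorem Top.nn {R : List (ℝ × ℝ)} (h : Top R) : ∀ p ∈ R, p.1 = 1 ∧ 0 ≤ p.2 :=
  fun p hp => ⟨(h p hp).1, (h p hp).2.le⟩

theorem Top.adm : ∀ {R : List (ℝ × ℝ)}, Top R → Adm 1 R ∧ headLv 1 R = 1
  | [], _ => ⟨trivial, rfl⟩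
  | p :: R, h => by
    obtain ⟨a, b⟩ := Top.adm (R := R) fun q hq => h q (List.mem_cons_of_mem _ hq)
    have := h p List.mem_cons_self
    exact ⟨⟨by rw [this.1]; exact one_pos, by rw [this.1, b], this.2.le, a⟩, this.1⟩











end

end Crest.Agent.T156.Pr.Mer97
private theorem rz_f97d0387df : type_of% @_root_.Crest.Agent.T156.Pr.Mer97.rs.eq_def := @_root_.Crest.Agent.T156.Pr.Mer97.rs.eq_def -- L450
private theorem rz_6693fad04c : type_of% @_root_.Crest.Agent.T156.Pr.Mer97.rs.eq_1 := @_root_.Crest.Agent.T156.Pr.Mer97.rs.eq_1 -- L450
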