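import Crest.Agent.T156.CaItp_16
import Crest.Agent.T156.Mov_21
import Crest.Agent.T156.CaSpB_38
import Crest.Agent.T156.CaLaw_45

-- ▼ part T156/Sch_6

/-!
# Row 156 (helper6): symmetry of the second variation of a cascade

`B2 w M h S S'` is the derivative, in the direction of the accumulated kernels `S'`, of the first
variation `ND w M S 0 h` of the value in the direction `S`.  `B2_symm`: it is symmetric for ALL
kernels vanishing at the root (they need not be realised by a path of cascades).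
-/

set_option autoImplicit false
set_option linter.unusedSectionVars false

noncomputable section

namespace Crest.Agent.T156.Cas

open MeasureTheory Real Set Filter Topology
open Crest.Agent.T157.E Crest.Agent.T157.Casc Crest.Agent.T157.SL
open Crest.Agent.T157.Casc.C (Same)

namespace Sch6

/-! ### two lemmas of calculus -/

/-- a function that is continuous along every path is continuous -/
theorem cont_of_paths {E : Type*} [NormedAddCommGroup E] [NormedSpace ℝ E] [CompleteSpace E]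
    {f : E → ℝ} (H : ∀ γ : ℝ → E, Continuous γ → Continuous fun t => f (γ t)) : Continuous f := by
  refine continuous_iff_seqContinuous.2 fun u a hu => tendsto_of_subseq_tendsto fun ns hns => ?_
  have h1 : ∀ n : ℕ, ∃ k, ‖u (ns k) - a‖ ≤ (1 / 2 : ℝ) ^ n := fun n =>
    ((tendsto_iff_norm_sub_tendsto_zero.1 (hu.comp hns)).eventually
      (ge_mem_nhds (by positivity : (0 : ℝ) < (1 / 2) ^ n))).exists
  choose ms hms using h1
  refine ⟨ms, ?_⟩
  let φ : ℕ → ℝ → ℝ := fun n t => max 0 (1 - |4 * (2 ^ n * t - 1)|)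
  let γ : ℝ → E := fun t => a + ∑' n, φ n t • (u (ns (ms n)) - a)
  have hγ : Continuous γ := by
    refine continuous_const.add (continuous_tsum (fun n => ?_) summable_geometric_two fun n t => ?_)
    · exact (by fun_prop : Continuous (φ n)).smul continuous_const
    · rw [norm_smul, Real.norm_eq_abs, abs_of_nonneg (le_max_left _ _)]
      refine (mul_le_of_le_one_left (norm_nonneg _) (max_le zero_le_one ?_)).trans (hms n)
      linarith [abs_nonneg (4 * (2 ^ n * t - 1))]
  have h0 : γ 0 = a := by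
    have : ∀ n, φ n 0 = 0 := fun n => max_eq_left (by norm_num)
    simp only [γ, this, zero_smul, tsum_zero, add_zero]
  have hk : ∀ k, γ ((1 / 2) ^ k) = u (ns (ms k)) := fun k => by
    have e1 : φ k ((1 / 2) ^ k) = 1 := by
      simp only [φ, ← mul_pow]
      norm_num
    have e2 : ∀ n, n ≠ k → φ n ((1 / 2) ^ k) = 0 := fun n hn => by
      refine max_eq_left (sub_nonpos.2 ?_)
      rcases lt_or_gt_of_ne hn with h | h
      · obtain ⟨d, rfl⟩ := Nat.exists_eq_add_of_lt h
        have : (2 : ℝ) ^ n * (1 / 2) ^ (n + d + 1) = (1 / 2) ^ d * (1 / 2) := by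
          rw [add_assoc, pow_add, ← mul_assoc, ← mul_pow, pow_succ]
          norm_num
        have h2 : (1 / 2 : ℝ) ^ d ≤ 1 := pow_le_one₀ (by norm_num) (by norm_num)
        rw [this]
        exact le_abs.2 (.inr (by linarith))
      · obtain ⟨d, rfl⟩ := Nat.exists_eq_add_of_lt h
        have : (2 : ℝ) ^ (k + d + 1) * (1 / 2) ^ k = 2 ^ d * 2 := by
          rw [add_assoc, pow_add, mul_right_comm, ← mul_pow, pow_succ]
          norm_num
        have h2 : (1 : ℝ) ≤ 2 ^ d := one_le_pow₀ (by norm_num)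
        rw [this]
        exact le_abs.2 (.inl (by linarith))
    simp only [γ]
    rw [tsum_eq_single k fun n hn => by rw [e2 n hn, zero_smul], e1, one_smul, add_sub_cancel]
  have h2 := ((H γ hγ).tendsto 0).comp
    (tendsto_pow_atTop_nhds_zero_of_lt_one (r := (1 / 2 : ℝ)) (by norm_num) (by norm_num))
  rw [h0] at h2
  exact h2.congr fun k => by simp only [Function.comp, hk]

theorem mixed {f f1 f12 : ℝ → ℝ → ℝ} (h1 : ∀ s t, HasDerivAt (fun s => f s t) (f1 s t) s)
    (h12 : ∀ s t, HasDerivAt (fun t => f1 s t) (f12 s t) t) {e : ℝ} (he : 0 < e) :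
    ∃ s ∈ Ioo 0 e, ∃ t ∈ Ioo 0 e, f e e - f e 0 - (f 0 e - f 0 0) = e * (e * f12 s t) := by
  obtain ⟨s, hs, es⟩ := exists_hasDerivAt_eq_slope (fun s => f s e - f s 0)
    (fun s => f1 s e - f1 s 0) he
    (fun s _ => ((h1 s e).sub (h1 s 0)).continuousAt.continuousWithinAt)
    fun s _ => (h1 s e).sub (h1 s 0)
  obtain ⟨t, ht, et⟩ := exists_hasDerivAt_eq_slope (fun t => f1 s t) (fun t => f12 s t) he
    (fun t _ => (h12 s t).continuousAt.continuousWithinAt) fun t _ => h12 s t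
  refine ⟨s, hs, t, ht, ?_⟩
  rw [sub_zero, eq_div_iff he.ne'] at es et
  rw [← es, ← et]
  ring

/-- Schwarz -/
theorem schwarz {f f1 f2 f12 f21 : ℝ → ℝ → ℝ} (h1 : ∀ s t, HasDerivAt (fun s => f s t) (f1 s t) s)
    (h2 : ∀ s t, HasDerivAt (fun t => f s t) (f2 s t) t)
    (h12 : ∀ s t, HasDerivAt (fun t => f1 s t) (f12 s t) t)
    (h21 : ∀ s t, HasDerivAt (fun s => f2 s t) (f21 s t) s)
    (c12 : Continuous fun p : ℝ × ℝ => f12 p.1 p.2) (c21 : Continuous fun p : ℝ × ℝ => f21 p.1 p.2) :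
    f12 0 0 = f21 0 0 := by
  have hp : ∀ n : ℕ, (0 : ℝ) < 1 / ((n : ℝ) + 1) := fun n => by positivity
  choose s hs t ht e using fun n : ℕ => mixed h1 h12 (hp n)
  choose t' ht' s' hs' e' using fun n : ℕ => mixed (f := fun t s => f s t) (f1 := fun t s => f2 s t)
    (f12 := fun t s => f21 s t) (fun t s => h2 s t) (fun t s => h21 s t) (hp n)
  have z : ∀ u : ℕ → ℝ, (∀ n : ℕ, u n ∈ Ioo 0 (1 / ((n : ℝ) + 1))) → Tendsto u atTop (𝓝 0) :=
    fun u hu => squeeze_zero (fun n => (hu n).1.le) (fun n => (hu n).2.le)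
      tendsto_one_div_add_atTop_nhds_zero_nat
  have l1 := (c12.tendsto (0, 0)).comp ((z s hs).prodMk_nhds (z t ht))
  have l2 := (c21.tendsto (0, 0)).comp ((z s' hs').prodMk_nhds (z t' ht'))
  refine tendsto_nhds_unique l1 (l2.congr fun n => ?_)
  have : 1 / ((n : ℝ) + 1) * (1 / ((n : ℝ) + 1) * f21 (s' n) (t' n)) =
      1 / ((n : ℝ) + 1) * (1 / ((n : ℝ) + 1) * f12 (s n) (t n)) := by
    rw [← e n, ← e' n]
    ring
  exact mul_left_cancel₀ (hp n).ne' (mul_left_cancel₀ (hp n).ne' this)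

/-! ### quantities that depend on the tilts only -/

variable {Ω : Type}

theorem len_congr {M M' : List (Lv Ω)} (H : M.map Lv.m = M'.map Lv.m) : M.length = M'.length := by
  simpa using congrArg List.length H

theorem ex_congr {M M' : List (Lv Ω)} (H : M.map Lv.m = M'.map Lv.m) (j : ℕ) :
    ex M j = ex M' j := by
  have e : ∀ M : List (Lv Ω), ex M j = ((M.map Lv.m)[j]?).getD 1 := fun M => by
    simp only [ex, List.getElem?_map]
    cases M[j]? <;> rfl
  rw [e, e, H]

theorem dm_congr {M M' : List (Lv Ω)} (H : M.map Lv.m = M'.map Lv.m) (m0 : ℝ) (j : ℕ) :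
    dm M m0 j = dm M' m0 j := by
  cases j <;> simp only [dm, exP, ex_congr H]

theorem drop_congr {M M' : List (Lv Ω)} (H : M.map Lv.m = M'.map Lv.m) (j : ℕ) :
    (M.drop j).map Lv.m = (M'.drop j).map Lv.m := by rw [List.map_drop, List.map_drop, H]

theorem cf_congr : ∀ (s : Sh) {M M' : List (Lv Ω)}, M.map Lv.m = M'.map Lv.m →
    ∀ (a : s.Lf) (j : ℕ), cf s M a j = cf s M' a j
  | .one, _, _, _, _, 0 => rfl
  | .one, _, _, H, _, j + 1 => dm_congr H 0 (j + 1)
  | .step _, [], [], _, _, _ => rfl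
  | .step _, [], _ :: _, H, _, _ => by simp at H
  | .step _, _ :: _, [], H, _, _ => by simp at H
  | .step _, _ :: _, _ :: _, _, _, 0 => rfl
  | .step s, l :: L, l' :: L', H, a, j + 1 => by
      simp only [List.map_cons, List.cons.injEq] at H
      refine (Sp38.cf_step s l L a j).trans (Eq.trans ?_ (Sp38.cf_step s l' L' a j).symm)
      rw [cf_congr s H.2 a j, ex_congr H.2, H.1]
  | .split s _, _, _, H, .inl a, j => cf_congr s H a j
  | .split _ s, _, _, H, .inr a, j => cf_congr s H a j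

theorem cw_congr (s : Sh) {M M' : List (Lv Ω)} (H : M.map Lv.m = M'.map Lv.m) (a : s.Lf) (j : ℕ) :
    cw s M a j = cw s M' a j := by rw [cw, cw, cf_congr s H, ex_congr H]

theorem shr_le : ∀ (s : Sh) (a b : s.Lf) (j : ℕ), s.shr a b j ≤ j
  | .one, _, _, _ => le_rfl
  | .step _, _, _, 0 => le_rfl
  | .step s, a, b, j + 1 => Nat.succ_le_succ (shr_le s a b j)
  | .split s _, .inl a, .inl b, j => shr_le s a b j
  | .split _ t, .inr a, .inr b, j => shr_le t a b j
  | .split _ _, .inl _, .inr _, _ => Nat.zero_le _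
  | .split _ _, .inr _, .inl _, _ => Nat.zero_le _

theorem same_m {M M' : List (Lv Ω)} (H : List.Forall₂ Same M M') : M.map Lv.m = M'.map Lv.m := by
  induction H with
  | nil => rfl
  | cons h _ ih => rw [List.map_cons, List.map_cons, h.1, ih]


variable [Fintype Ω] {w : Ω → ℝ}

/-! ### the replica form of the derivative -/

theorem dT_congr (s : Sh) (M : List (Lv Ω)) (h : Ω → ℝ) {S S' : ℕ → Ω → Ω → ℝ}
    (H : ∀ j ≤ M.length, S j = S' j) (F : (s.Lf → Ω) → ℝ) : dT w s M h S F = dT w s M h S' F := by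
  have e1 : ∀ (a b : s.Lf) j, j ≤ M.length → S (s.shr a b j) = S' (s.shr a b j) :=
    fun a b j hj => H _ ((shr_le s a b j).trans hj)
  simp only [dT, e1 _ _ _ le_rfl, H _ le_rfl]
  congr 1
  · congr 1
    refine Finset.sum_congr rfl fun a _ => Finset.sum_congr rfl fun j hj => ?_
    simp only [e1 _ _ _ (Nat.lt_succ_iff.1 (Finset.mem_range.1 hj))]
  · refine Finset.sum_congr rfl fun a _ => Finset.sum_congr rfl fun j hj => ?_
    have hj' := Nat.lt_succ_iff.1 (Finset.mem_range.1 hj)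
    simp only [fun a b k => e1 a b (min j k) ((min_le_left _ _).trans hj')]
    congr 2
    refine Finset.sum_congr rfl fun i hi => ?_
    have := Finset.mem_range.1 hi
    rw [H (i + j) (by omega)]

theorem dT_same (hw : Wt w) (s : Sh) {M M' : List (Lv Ω)} (H : List.Forall₂ Same M M') (h : Ω → ℝ)
    (S : ℕ → Ω → Ω → ℝ) (F : (s.Lf → Ω) → ℝ) : dT w s M h S F = dT w s M' h S F := by
  have hm := same_m H
  have e : ∀ (s : Sh) (F : (s.Lf → Ω) → ℝ),
      tX w s M h (fun _ x => F x) = tX w s M' h fun _ x => F x := fun s F => Law.TE_same hw s H F h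
  simp only [dT, e, len_congr hm, cw_congr _ hm, dm_congr (drop_congr hm _)]

theorem tX_lin (hw : Wt w) (s : Sh) (M : List (Lv Ω)) (h : Ω → ℝ) (a b : ℝ)
    (F G : (s.Lf → Ω) → ℝ) : tX w s M h (fun _ x => a * F x + b * G x) =
      a * tX w s M h (fun _ x => F x) + b * tX w s M h fun _ x => G x :=
  (Law.TE_add hw s M h _ _).trans (by rw [Law.TE_const_mul hw, Law.TE_const_mul hw]; rfl)

/-- linearity in the kernels -/
theorem dT_linS (hw : Wt w) (s : Sh) (M : List (Lv Ω)) (h : Ω → ℝ) (a b : ℝ)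
    (S S' : ℕ → Ω → Ω → ℝ) (F : (s.Lf → Ω) → ℝ) :
    dT w s M h (fun j x y => a * S j x y + b * S' j x y) F =
      a * dT w s M h S F + b * dT w s M h S' F := by
  have e : ∀ u v z : ℝ, u * (a * v + b * z) = a * (u * v) + b * (u * z) := fun u v z => by ring
  simp only [dT, e, tX_lin hw, Finset.sum_add_distrib, ← Finset.mul_sum, mul_add]
  ring

/-- linearity in the test function -/
theorem dT_linF (hw : Wt w) (s : Sh) (M : List (Lv Ω)) (h : Ω → ℝ) (a b : ℝ)
    (S : ℕ → Ω → Ω → ℝ) (F G : (s.Lf → Ω) → ℝ) :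
    dT w s M h S (fun x => a * F x + b * G x) = a * dT w s M h S F + b * dT w s M h S G := by
  have e : ∀ u v z : ℝ, (a * v + b * z) * u = a * (v * u) + b * (z * u) := fun u v z => by ring
  simp only [dT, e, tX_lin hw, Finset.sum_add_distrib, ← Finset.mul_sum, mul_add, mul_left_comm _ a,
    mul_left_comm _ b]
  ring

/-- a family of cascades with fixed tilts and continuous laws -/
structure CF (w : Ω → ℝ) (h : Ω → ℝ) {E : Type*} [TopologicalSpace E] (M0 : List (Lv Ω))
    (M : E → List (Lv Ω)) : Prop where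
  m : ∀ q, (M q).map Lv.m = M0.map Lv.m
  pt : ∀ (s : Sh) (x : s.Lf → Ω), Continuous fun q => PT w s (M q) h x

variable {E : Type*} [TopologicalSpace E] {h : Ω → ℝ} {M0 : List (Lv Ω)} {M : E → List (Lv Ω)}

theorem CF.tX (hw : Wt w) (H : CF w h M0 M) (s : Sh) {F : E → (s.Lf → Ω) → ℝ}
    (hF : ∀ x, Continuous fun q => F q x) : Continuous fun q => tX w s (M q) h fun _ x => F q x := by
  have e : ∀ q, (Cas.tX w s (M q) h fun _ x => F q x) = ∑ x, PT w s (M q) h x * F q x :=
    fun q => Law.TE_eq hw s (M q) h (F q)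
  simp only [e]
  exact continuous_finsetSum _ fun x _ => (H.pt s x).mul (hF x)

theorem CF.dT (hw : Wt w) (H : CF w h M0 M) (s : Sh) {S : E → ℕ → Ω → Ω → ℝ}
    (hS : ∀ j x y, Continuous fun q => S q j x y) {F : E → (s.Lf → Ω) → ℝ}
    (hF : ∀ x, Continuous fun q => F q x) : Continuous fun q => dT w s (M q) h (S q) (F q) := by
  simp only [Cas.dT, fun q => len_congr (H.m q), fun q => cw_congr s (H.m q),
    fun q j => dm_congr (drop_congr (H.m q) j)]
  refine ((continuous_finsetSum _ fun a _ => continuous_finsetSum _ fun b _ => ?_).sub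
    (continuous_finsetSum _ fun a _ => continuous_finsetSum _ fun j _ => continuous_const.mul
      (((continuous_finsetSum _ fun b _ => ?_).add (continuous_finsetSum _ fun b _ => ?_)).add
        ?_))).add
    (continuous_finsetSum _ fun a _ => continuous_finsetSum _ fun j _ => continuous_const.mul
      ((continuous_finsetSum _ fun b _ => continuous_finsetSum _ fun k _ =>
        continuous_const.mul ?_).add
        (continuous_finsetSum _ fun i _ => continuous_const.mul ?_)))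
  all_goals exact H.tX hw _ fun x => (hF _).mul (hS _ _ _)

theorem TE_twoLR (hw : Wt w) (K : Ω → Ω → ℝ) : ∀ (j : ℕ) (L : List (Lv Ω)) (h : Ω → ℝ),
    TE w (Sh.two j) L h (fun x => K (x (Sh.twoL j)) (x (Sh.twoR j))) = pi2 w L j K h
  | 0, L, h => by
    refine (Law.TE_split hw .one .one L h _).trans ((Law.TE_one hw L h _).trans ?_)
    have e' : ∀ x : Ω, (TE w .one L h fun x' => K x (x' ())) = Pf w L h (K x) := fun x =>
      Law.TE_one hw L h _
    rw [pi2_zero]
    refine (congrArg (Pf w L h) (funext e')).trans ?_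
    simp only [Pf, qf, Finset.mul_sum, mul_assoc]
  | j + 1, [], h => by
    refine (Law.TE_step_nil w (Sh.two j) h _).trans ((TE_twoLR hw K j [] h).trans ?_)
    simp [pi2]
  | j + 1, l :: L, h => by
    refine (Law.TE_step hw (Sh.two j) l L h _).trans ?_
    rw [pi2_cons]
    exact congrArg (fun Φ => tE l (X w L) Φ h) (funext fun z => TE_twoLR hw K j L z)

/-- the first variation in replica form -/
theorem ND_eq (hw : Wt w) (M : List (Lv Ω)) (S : ℕ → Ω → Ω → ℝ) (h : Ω → ℝ) :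
    ND w M S 0 h = tX w .one M h (fun _ x => S M.length (x ()) (x ())) -
      ∑ j ∈ Finset.range (M.length + 1), dm M 0 j *
        tX w (Sh.two j) M h fun _ x => S j (x (Sh.twoL j)) (x (Sh.twoR j)) := by
  have e1 := Law.TE_one hw M h fun x => S M.length (x ()) (x ())
  have e2 := fun j => TE_twoLR hw (S j) j M h
  simp only [TE] at e1 e2
  simp only [ND, e1, e2, List.drop_zero, zero_add, pair_eq_sum hw]

end Sch6

variable {Ω : Type} [Fintype Ω] {w : Ω → ℝ}

/-- the second variation: derivative of `ND w · S 0 h` in the direction `S'` -/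
def B2 (w : Ω → ℝ) (M : List (Lv Ω)) (h : Ω → ℝ) (S S' : ℕ → Ω → Ω → ℝ) : ℝ :=
  dT w .one M h S' (fun x => S M.length (x ()) (x ())) -
    ∑ j ∈ Finset.range (M.length + 1), dm M 0 j *
      dT w (Sh.two j) M h S' fun x => S j (x (Sh.twoL j)) (x (Sh.twoR j))

/-- derivative of the first variation, frozen kernels -/
theorem hasDerivAt_ND (hw : Wt w) {I : Set ℝ} (hI : IsOpen I) {L : List (TL Ω)}
    (hL : ∀ l ∈ L, l.C1 I) {u : ℝ} (hu : u ∈ I) (h : Ω → ℝ) (S : ℕ → Ω → Ω → ℝ) :
    HasDerivAt (fun t => ND w (atL L t) S 0 h) (B2 w (atL L u) h S (Sacc L u)) u := by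
  simp only [Sch6.ND_eq hw, B2, Sp38.len_at, fun t => Sp38.dm_at t u L]
  exact (hasDerivAt_tX_t hw hI hL hu .one h _).sub (HasDerivAt.fun_sum fun j _ =>
    (hasDerivAt_tX_t hw hI hL hu (Sh.two j) h _).const_mul _)

theorem hasDerivAt_X_ND (hw : Wt w) {I : Set ℝ} (hI : IsOpen I) {L : List (TL Ω)}
    (hL : ∀ l ∈ L, l.C1 I) {u : ℝ} (hu : u ∈ I) (h : Ω → ℝ) :
    HasDerivAt (fun t => X w (atL L t) h) (ND w (atL L u) (Sacc L u) 0 h) u := by
  refine (hasDerivAt_X hw hI hL hu (b := fun _ => h) (b' := 0)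
    fun x => hasDerivAt_const u (h x)).congr_deriv ?_
  simp only [DX, ND, Pf, List.drop_zero, zero_add, Pi.zero_apply, Sp38.len_at]

theorem B2_congr (M : List (Lv Ω)) (h : Ω → ℝ) {S T S' T' : ℕ → Ω → Ω → ℝ}
    (H : ∀ j ≤ M.length, S j = T j) (H' : ∀ j ≤ M.length, S' j = T' j) :
    B2 w M h S S' = B2 w M h T T' := by
  simp only [B2, Sch6.dT_congr _ M h H', H _ le_rfl]
  congr 1
  exact Finset.sum_congr rfl fun j hj => by rw [H j (Nat.lt_succ_iff.1 (Finset.mem_range.1 hj))]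

theorem B2_same (hw : Wt w) {M M' : List (Lv Ω)} (H : List.Forall₂ Same M M') (h : Ω → ℝ)
    (S S' : ℕ → Ω → Ω → ℝ) : B2 w M h S S' = B2 w M' h S S' := by
  have hm := Sch6.same_m H
  simp only [B2, Sch6.dT_same hw _ H, Sch6.len_congr hm, Sch6.dm_congr hm]

theorem B2_lin_left (hw : Wt w) (M : List (Lv Ω)) (h : Ω → ℝ) (a b : ℝ)
    (S T S' : ℕ → Ω → Ω → ℝ) : B2 w M h (fun j x y => a * S j x y + b * T j x y) S' =
      a * B2 w M h S S' + b * B2 w M h T S' := by
  simp only [B2, Sch6.dT_linF hw, mul_add, Finset.sum_add_distrib, mul_left_comm _ a,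
    mul_left_comm _ b, ← Finset.mul_sum]
  ring

theorem B2_lin_right (hw : Wt w) (M : List (Lv Ω)) (h : Ω → ℝ) (a b : ℝ)
    (S S' T' : ℕ → Ω → Ω → ℝ) : B2 w M h S (fun j x y => a * S' j x y + b * T' j x y) =
      a * B2 w M h S S' + b * B2 w M h S T' := by
  simp only [B2, Sch6.dT_linS hw, mul_add, Finset.sum_add_distrib, mul_left_comm _ a,
    mul_left_comm _ b, ← Finset.mul_sum]
  ring

theorem ND_lin (hw : Wt w) (M : List (Lv Ω)) (h : Ω → ℝ) (a b : ℝ) (S T : ℕ → Ω → Ω → ℝ) :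
    ND w M (fun j x y => a * S j x y + b * T j x y) 0 h = a * ND w M S 0 h + b * ND w M T 0 h := by
  simp only [Sch6.ND_eq hw, Sch6.tX_lin hw, mul_add, Finset.sum_add_distrib, mul_left_comm _ a,
    mul_left_comm _ b, ← Finset.mul_sum]
  ring

theorem ND_swap (hw : Wt w) (M : List (Lv Ω)) (h : Ω → ℝ) (S : ℕ → Ω → Ω → ℝ) :
    ND w M (fun j x y => S j y x) 0 h = ND w M S 0 h := by
  have e : ∀ (p : Ω → ℝ) (K : Ω → Ω → ℝ), qf p (fun x y => K y x) = qf p K := fun p K => by
    rw [qf, qf, Finset.sum_comm]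
    exact Finset.sum_congr rfl fun x _ => Finset.sum_congr rfl fun y _ => by ring
  have e2 : ∀ j, pi2 w M j (fun x y => S j y x) h = pi2 w M j (S j) h := fun j =>
    congrArg (fun Φ => node w M j Φ h) (funext fun z => e _ _)
  simp only [ND, pair_eq_sum hw, List.drop_zero, zero_add, e2]

namespace Sch6

variable {E : Type*} [TopologicalSpace E] {h : Ω → ℝ} {M0 : List (Lv Ω)} {M : E → List (Lv Ω)}

theorem CF.ND (hw : Wt w) (H : CF w h M0 M) {S : E → ℕ → Ω → Ω → ℝ}
    (hS : ∀ j x y, Continuous fun q => S q j x y) : Continuous fun q => ND w (M q) (S q) 0 h := by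
  simp only [ND_eq hw, fun q => len_congr (H.m q), fun q => dm_congr (H.m q)]
  exact (H.tX hw _ fun x => hS _ _ _).sub (continuous_finsetSum _ fun j _ =>
    continuous_const.mul (H.tX hw _ fun x => hS _ _ _))

theorem CF.B2 (hw : Wt w) (H : CF w h M0 M) {S S' : E → ℕ → Ω → Ω → ℝ}
    (hS : ∀ j x y, Continuous fun q => S q j x y) (hS' : ∀ j x y, Continuous fun q => S' q j x y) :
    Continuous fun q => B2 w (M q) h (S q) (S' q) := by
  simp only [Cas.B2, fun q => len_congr (H.m q), fun q => dm_congr (H.m q)]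
  exact (H.dT hw _ hS' fun x => hS _ _ _).sub (continuous_finsetSum _ fun j _ =>
    continuous_const.mul (H.dT hw _ hS' fun x => hS _ _ _))

/-! ### a family that realises every kernel -/

open Classical in
/-- extra features -/
def kv (S S' : ℕ → Ω → Ω → ℝ) (j : ℕ) (q : ℝ × ℝ × ℝ) (x z : Ω) : ℝ :=
  q.1 * (if x = z then 1 else 0) + q.2.1 * (S (j + 1) x z - S j x z) +
    q.2.2 * (S' (j + 1) x z - S' j x z)

def aT (γ γ' : ℝ → ℝ × ℝ × ℝ) : List (Lv Ω) → (ℕ → Ω → Ω → ℝ) → (ℕ → Ω → Ω → ℝ) → List (TL Ω)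
  | [], _, _ => []
  | l :: M, S, S' => ⟨l.ι ⊕ Ω, fun t x => Sum.elim (l.A x) (kv S S' 0 (γ t) x),
      fun t x => Sum.elim 0 (kv S S' 0 (γ' t) x), l.m⟩ ::
      aT γ γ' M (fun j => S (j + 1)) fun j => S' (j + 1)

def aug (q : ℝ × ℝ × ℝ) : List (Lv Ω) → (ℕ → Ω → Ω → ℝ) → (ℕ → Ω → Ω → ℝ) → List (Lv Ω)
  | [], _, _ => []
  | l :: M, S, S' => ⟨l.ι ⊕ Ω, fun x => Sum.elim (l.A x) (kv S S' 0 q x), l.m⟩ ::
      aug q M (fun j => S (j + 1)) fun j => S' (j + 1)

theorem atL_aT (γ γ' : ℝ → ℝ × ℝ × ℝ) (t : ℝ) : ∀ (M : List (Lv Ω)) (S S' : ℕ → Ω → Ω → ℝ),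
    atL (aT γ γ' M S S') t = aug (γ t) M S S'
  | [], _, _ => rfl
  | _ :: M, _, _ => congrArg (List.cons _) (atL_aT γ γ' t M _ _)

theorem m_aug (q : ℝ × ℝ × ℝ) : ∀ (M : List (Lv Ω)) (S S' : ℕ → Ω → Ω → ℝ),
    (aug q M S S').map Lv.m = M.map Lv.m
  | [], _, _ => rfl
  | _ :: M, _, _ => congrArg (List.cons _) (m_aug q M _ _)

theorem same_aug : ∀ (M : List (Lv Ω)) (S S' : ℕ → Ω → Ω → ℝ),
    List.Forall₂ Same (aug 0 M S S') M
  | [], _, _ => .nil
  | l :: M, S, S' => .cons ⟨rfl, by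
      funext x y
      show ∑ i : l.ι ⊕ Ω, _ = _
      simp [Fintype.sum_sum_type, kv, Lv.cov]⟩ (same_aug M _ _)

/-- accumulated kernels of the family at `q` in the direction `q'` -/
def Sq (S S' : ℕ → Ω → Ω → ℝ) (n : ℕ) (q' q : ℝ × ℝ × ℝ) (j : ℕ) (x y : Ω) : ℝ :=
  ∑ i ∈ Finset.range (min j n), ∑ z, kv S S' i q' x z * kv S S' i q y z

theorem Sacc_aT (γ γ' : ℝ → ℝ × ℝ × ℝ) (t : ℝ) (x y : Ω) :
    ∀ (M : List (Lv Ω)) (S S' : ℕ → Ω → Ω → ℝ) (j : ℕ),
      Sacc (aT γ γ' M S S') t j x y = Sq S S' M.length (γ' t) (γ t) j x y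
  | [], _, _, _ => by simp [aT, Sacc, Sq]
  | _ :: _, _, _, 0 => by simp [Sacc, Sq]
  | l :: M, S, S', j + 1 => by
      rw [aT, Sp38.Sacc_cons', Sacc_aT γ γ' t x y M, Sq, Sq, List.length_cons, Nat.succ_min_succ,
        Finset.sum_range_succ', add_comm]
      congr 1
      show ∑ i : l.ι ⊕ Ω, _ = _
      simp [Fintype.sum_sum_type]

theorem cont_kv (S S' : ℕ → Ω → Ω → ℝ) (j : ℕ) (x z : Ω) : Continuous fun q => kv S S' j q x z := by
  unfold kv
  fun_prop

theorem cont_Sq (S S' : ℕ → Ω → Ω → ℝ) (n : ℕ) (q' : ℝ × ℝ × ℝ) (j : ℕ) (x y : Ω) :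
    Continuous fun q => Sq S S' n q' q j x y :=
  continuous_finsetSum _ fun _ _ => continuous_finsetSum _ fun _ _ =>
    continuous_const.mul (cont_kv ..)

theorem okC_aT {γ : ℝ → ℝ × ℝ × ℝ} (γ' : ℝ → ℝ × ℝ × ℝ) (hγ : Continuous γ) {K : Set ℝ}
    (hK : IsCompact K) : ∀ (M : List (Lv Ω)) (S S' : ℕ → Ω → Ω → ℝ), ∀ l ∈ aT γ γ' M S S', l.OkC K
  | [], _, _, _, hl => by simp [aT] at hl
  | l :: M, S, S', k, hk => by
      rcases List.mem_cons.1 hk with rfl | hk
      · refine TL.okC_of_compact hK fun x i => ?_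
        rcases i with i | i
        · exact continuousOn_const
        · exact ((cont_kv S S' 0 x i).comp hγ).continuousOn
      · exact okC_aT γ' hγ hK M _ _ k hk

theorem kv_line (S S' : ℕ → Ω → Ω → ℝ) (j : ℕ) (p v : ℝ × ℝ × ℝ) (t : ℝ) (x z : Ω) :
    kv S S' j (p + t • v) x z = kv S S' j p x z + t * kv S S' j v x z := by
  simp only [kv, Prod.fst_add, Prod.snd_add, Prod.smul_fst, Prod.smul_snd, smul_eq_mul]
  ring

theorem c1_aT (p v : ℝ × ℝ × ℝ) : ∀ (M : List (Lv Ω)) (S S' : ℕ → Ω → Ω → ℝ),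
    ∀ l ∈ aT (fun t => p + t • v) (fun _ => v) M S S', l.C1 univ
  | [], _, _, _, hl => by simp [aT] at hl
  | l :: M, S, S', k, hk => by
      rcases List.mem_cons.1 hk with rfl | hk
      · refine ⟨fun t _ x i => ?_, fun x i => continuousOn_const⟩
        rcases i with i | i
        · exact hasDerivAt_const _ _
        · show HasDerivAt (fun t => kv S S' 0 (p + t • v) x i) (kv S S' 0 v x i) t
          simp only [kv_line]
          exact ((hasDerivAt_mul_const _).const_add _)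
      · exact c1_aT p v M _ _ k hk

theorem cf_aug (hw : Wt w) (h : Ω → ℝ) (M : List (Lv Ω)) (S S' : ℕ → Ω → Ω → ℝ) :
    CF w h M fun q => aug q M S S' := by
  refine ⟨fun q => m_aug q M S S', fun s x => cont_of_paths fun γ hγ => ?_⟩
  refine continuous_iff_continuousAt.2 fun t => ?_
  have := continuousOn_tX_atL hw s (okC_aT γ hγ (isCompact_Icc (a := t - 1) (b := t + 1)) M S S') h
    fun y => by classical exact if y = x then 1 else 0
  have e : (fun t => PT w s (aug (γ t) M S S') h x) = fun t => TE w s (atL (aT γ γ M S S') t) h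
      fun y => by classical exact if y = x then 1 else 0 := funext fun t => by
    rw [atL_aT, Law.PT_eq]
  rw [e]
  exact this.continuousAt (Icc_mem_nhds (by linarith) (by linarith))

theorem Sq_line (S S' : ℕ → Ω → Ω → ℝ) (n : ℕ) (q' p v : ℝ × ℝ × ℝ) (t : ℝ) :
    Sq S S' n q' (p + t • v) = fun j x y => 1 * Sq S S' n q' p j x y + t * Sq S S' n q' v j x y := by
  funext j x y
  simp only [Sq, kv_line, mul_add, Finset.sum_add_distrib, one_mul, Finset.mul_sum, mul_left_comm]

theorem der1 (hw : Wt w) (h : Ω → ℝ) (M : List (Lv Ω)) (S S' : ℕ → Ω → Ω → ℝ) (p v : ℝ × ℝ × ℝ)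
    (t : ℝ) : HasDerivAt (fun t : ℝ => X w (aug (p + t • v) M S S') h)
      (ND w (aug (p + t • v) M S S') (Sq S S' M.length v (p + t • v)) 0 h) t := by
  have := hasDerivAt_X_ND hw isOpen_univ (c1_aT p v M S S') (mem_univ t) h
  rw [show Sacc (aT (fun t => p + t • v) (fun _ => v) M S S') t = _ from
    funext fun j => funext fun x => funext fun y => Sacc_aT _ _ t x y M S S' j] at this
  simpa only [atL_aT] using this

theorem der2 (hw : Wt w) (h : Ω → ℝ) (M : List (Lv Ω)) (S S' : ℕ → Ω → Ω → ℝ)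
    (p v u : ℝ × ℝ × ℝ) (t : ℝ) :
    HasDerivAt (fun t : ℝ => ND w (aug (p + t • v) M S S') (Sq S S' M.length u (p + t • v)) 0 h)
      (B2 w (aug (p + t • v) M S S') h (Sq S S' M.length u (p + t • v))
        (Sq S S' M.length v (p + t • v)) +
        ND w (aug (p + t • v) M S S') (Sq S S' M.length u v) 0 h) t := by
  have key : ∀ T, HasDerivAt (fun t : ℝ => ND w (aug (p + t • v) M S S') T 0 h)
      (B2 w (aug (p + t • v) M S S') h T (Sq S S' M.length v (p + t • v))) t := fun T => by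
    have := hasDerivAt_ND hw isOpen_univ (c1_aT p v M S S') (mem_univ t) h T
    rw [show Sacc (aT (fun t => p + t • v) (fun _ => v) M S S') t = _ from
      funext fun j => funext fun x => funext fun y => Sacc_aT _ _ t x y M S S' j] at this
    simpa only [atL_aT] using this
  simp only [Sq_line S S' M.length u, ND_lin hw, B2_lin_left hw]
  refine (((key _).const_mul 1).add ((hasDerivAt_id t).mul (key _))).congr_deriv ?_
  simp only [id]
  ring

theorem Sq_zero {S S' : ℕ → Ω → Ω → ℝ} (h0 : S 0 = 0) (h0' : S' 0 = 0) (n : ℕ) (e a b : ℝ) {j : ℕ}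
    (hj : j ≤ n) : Sq S S' n (0, a, b) (e, 0, 0) j =
      fun x y => (e * a) * S j x y + (e * b) * S' j x y := by
  classical
  funext x y
  have e1 := Finset.sum_range_sub (fun i => S i x y) j
  have e2 := Finset.sum_range_sub (fun i => S' i x y) j
  simp only [h0, h0', Pi.zero_apply, sub_zero] at e1 e2
  rw [← e1, ← e2, Sq, min_eq_left hj, Finset.mul_sum, Finset.mul_sum, ← Finset.sum_add_distrib]
  refine Finset.sum_congr rfl fun i _ => ?_
  simp only [kv, zero_mul, zero_add, add_zero, mul_ite, mul_one, mul_zero, Finset.sum_ite_eq,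
    Finset.mem_univ, if_true, ite_self]
  ring

theorem symm_aug (hw : Wt w) (h : Ω → ℝ) (M : List (Lv Ω)) {S S' : ℕ → Ω → Ω → ℝ} (h0 : S 0 = 0)
    (h0' : S' 0 = 0) {e : ℝ} (he : e ≠ 0) :
    B2 w (aug (e, 0, 0) M S S') h S S' = B2 w (aug (e, 0, 0) M S S') h S' S := by
  have p1 : ∀ s t : ℝ, ((e, 0, t) : ℝ × ℝ × ℝ) + s • ((0, 1, 0) : ℝ × ℝ × ℝ) = (e, s, t) :=
    fun s t => by simp
  have p2 : ∀ s t : ℝ, ((e, s, 0) : ℝ × ℝ × ℝ) + t • ((0, 0, 1) : ℝ × ℝ × ℝ) = (e, s, t) :=
    fun s t => by simp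
  have cf : CF w h M fun p : ℝ × ℝ => aug (e, p.1, p.2) M S S' :=
    ⟨fun q => m_aug _ M S S', fun s x => ((cf_aug hw h M S S').pt s x).comp (by fun_prop)⟩
  have cs : ∀ u j x y, Continuous fun p : ℝ × ℝ => Sq S S' M.length u (e, p.1, p.2) j x y :=
    fun u j x y => (cont_Sq S S' _ u j x y).comp (by fun_prop)
  have key := schwarz (f := fun s t => X w (aug (e, s, t) M S S') h)
    (f1 := fun s t => ND w (aug (e, s, t) M S S') (Sq S S' M.length (0, 1, 0) (e, s, t)) 0 h)
    (f2 := fun s t => ND w (aug (e, s, t) M S S') (Sq S S' M.length (0, 0, 1) (e, s, t)) 0 h)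
    (f12 := fun s t => B2 w (aug (e, s, t) M S S') h (Sq S S' M.length (0, 1, 0) (e, s, t))
      (Sq S S' M.length (0, 0, 1) (e, s, t)) +
      ND w (aug (e, s, t) M S S') (Sq S S' M.length (0, 1, 0) (0, 0, 1)) 0 h)
    (f21 := fun s t => B2 w (aug (e, s, t) M S S') h (Sq S S' M.length (0, 0, 1) (e, s, t))
      (Sq S S' M.length (0, 1, 0) (e, s, t)) +
      ND w (aug (e, s, t) M S S') (Sq S S' M.length (0, 0, 1) (0, 1, 0)) 0 h)
    (fun s t => by simpa only [p1] using der1 hw h M S S' (e, 0, t) (0, 1, 0) s)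
    (fun s t => by simpa only [p2] using der1 hw h M S S' (e, s, 0) (0, 0, 1) t)
    (fun s t => by simpa only [p2] using der2 hw h M S S' (e, s, 0) (0, 0, 1) (0, 1, 0) t)
    (fun s t => by simpa only [p1] using der2 hw h M S S' (e, 0, t) (0, 1, 0) (0, 0, 1) s)
    ((cf.B2 hw (cs _) (cs _)).add (cf.ND hw fun _ _ _ => continuous_const))
    ((cf.B2 hw (cs _) (cs _)).add (cf.ND hw fun _ _ _ => continuous_const))
  have e1 : Sq S S' M.length (0, 0, 1) (0, 1, 0) =
      fun j x y => Sq S S' M.length (0, 1, 0) (0, 0, 1) j y x := by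
    funext j x y
    simp only [Sq, mul_comm]
  rw [e1, ND_swap hw, add_left_inj] at key
  have hl := len_congr (m_aug (e, 0, 0) M S S')
  have a1 : ∀ j ≤ (aug (e, 0, 0) M S S').length, Sq S S' M.length (0, 1, 0) (e, 0, 0) j =
      (fun j x y => e * S j x y + 0 * S j x y) j := fun j hj => by
    rw [Sq_zero h0 h0' _ _ _ _ (hl ▸ hj)]
    simp
  have a2 : ∀ j ≤ (aug (e, 0, 0) M S S').length, Sq S S' M.length (0, 0, 1) (e, 0, 0) j =
      (fun j x y => e * S' j x y + 0 * S' j x y) j := fun j hj => by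
    rw [Sq_zero h0 h0' _ _ _ _ (hl ▸ hj)]
    simp
  rw [B2_congr _ h a1 a2, B2_congr _ h a2 a1] at key
  simp only [B2_lin_left hw, B2_lin_right hw] at key
  simp only [zero_mul, add_zero] at key
  exact mul_left_cancel₀ he (mul_left_cancel₀ he key)

/-- passage to the limit `e → 0` -/
theorem eq_of_ne {f g : ℝ → ℝ} (hf : Continuous f) (hg : Continuous g)
    (H : ∀ e, e ≠ 0 → f e = g e) : f 0 = g 0 :=
  congrFun (hf.ext_on (dense_compl_singleton 0) hg fun e he => H e he) 0

end Sch6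

/-- **symmetry of the second variation** -/
theorem B2_symm (hw : Wt w) (M : List (Lv Ω)) (h : Ω → ℝ) {S S' : ℕ → Ω → Ω → ℝ} (h0 : S 0 = 0)
    (h0' : S' 0 = 0) : B2 w M h S S' = B2 w M h S' S := by
  have cf : Sch6.CF w h M fun e : ℝ => Sch6.aug (e, 0, 0) M S S' :=
    ⟨fun q => Sch6.m_aug _ M S S', fun s x => ((Sch6.cf_aug hw h M S S').pt s x).comp (by fun_prop)⟩
  have := Sch6.eq_of_ne (cf.B2 hw (S := fun _ => S) (S' := fun _ => S')
    (fun _ _ _ => continuous_const) fun _ _ _ => continuous_const)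
    (cf.B2 hw (S := fun _ => S') (S' := fun _ => S)
    (fun _ _ _ => continuous_const) fun _ _ _ => continuous_const)
    fun e he => Sch6.symm_aug hw h M h0 h0' he
  rwa [show ((0, 0, 0) : ℝ × ℝ × ℝ) = 0 from rfl, B2_same hw (Sch6.same_aug M S S'),
    B2_same hw (Sch6.same_aug M S S')] at this

end Crest.Agent.T156.Cas

end
private theorem rz_7901baeccb : type_of% @_root_.Crest.Agent.T156.Cas.Sch6.aT.eq_def := @_root_.Crest.Agent.T156.Cas.Sch6.aT.eq_def -- L369
private theorem rz_067ef7e95c : type_of% @_root_.Crest.Agent.T156.Cas.Sch6.aT.eq_1 := @_root_.Crest.Agent.T156.Cas.Sch6.aT.eq_1 -- L369
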