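import Crest.Agent.T156.PrU_28
import Crest.Agent.T156.Top_31
import Crest.Agent.T156.PMer_97
import Crest.Agent.T156.Spl_27
import Crest.Agent.T156.CaSpB_38
import Crest.Agent.T156.CaLaw_45
import Crest.Agent.T156.Mov_21
import Crest.Agent.T156.PrB_28
import Crest.Agent.T156.One_15
import Crest.Agent.T156.Sch_6
import Crest.Agent.T156.PSharp_81

-- ▼ part T156/PrG_28
section

/-!
Row 156, ALT, text (P) (helper28): two node vectors with the same labels; first-order expansion of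
the node values with constants that depend only on the time where the tilt reaches `1`.
-/

set_option autoImplicit false

namespace Crest.Agent.T156.Pr

open MeasureTheory Set Filter Topology
open Crest.Agent.R164.GC Crest.Agent.R339.B Crest.Agent.R339.Var Crest.Agent.T157.Pf
open Crest.Agent.T156.Pp Crest.Agent.T156.Ker Crest.Agent.T156.Pp.Area50

noncomputable section

theorem red {T1 : ℝ} {l : List (ℝ × ℝ)} (h : Tp T1 l) : ∃ u, Ok u ∧ TT u = T1 ∧ Same u l T1 ∧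
    ∀ s, 0 ≤ s → lvr 1 u s = lvr 1 l s := by
  obtain ⟨a, b, c, -⟩ := h.ext
  obtain ⟨u, o, e, -⟩ := Spl27.exists_ok a
  have tu : TT u = T1 := e.tt.symm.trans b
  have lv : ∀ s, 0 ≤ s → lvr 1 u s = lvr 1 l s := fun s hs => by rw [← e.lv s hs, c]
  exact ⟨u, o, tu, tu ▸ same_le o.1 h.adm (tu.trans_le h.mem.2) fun s hs _ => (lv s hs.le).symm,
    lv⟩

/-- (Cmp) with a constant depending only on the time where the tilt reaches `1` -/
theorem cmp' (T : ℝ) : ∃ C : ℝ, 1 ≤ C ∧ ∀ (T1 : ℝ) (l l' : List (ℝ × ℝ)), Tp T1 l → Tp T1 l' →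
    T1 ≤ T → ∀ C0 η t : ℝ, 0 ≤ C0 → 0 ≤ η → t ∈ Icc 0 T1 →
    (∀ s, 0 ≤ s → s < t → lvr 1 l s ≤ C0 * s + η) →
    |(GG l' t - GG l' 0) - (GG l t - GG l 0) +
      2 * ∫ s in (0:ℝ)..t, (lvr 1 l' s - lvr 1 l s) * AA l' s| ≤
      C * Nf l l' 0 T1 * ((1 + C0) * t ^ 2 + η * t) := by
  obtain ⟨C, h1, hC⟩ := cmpS T
  refine ⟨C, h1, fun T1 l l' h h' hT C0 η t c0 e0 ht hl => ?_⟩
  obtain ⟨u, o, tu, su, lu⟩ := red h
  obtain ⟨u', o', tu', su', lu'⟩ := red h'
  have z : (0:ℝ) ∈ Icc 0 T1 := ⟨le_rfl, h.mem.1⟩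
  have := hC u u' o o' (tu'.trans tu.symm) (tu.trans_le hT) C0 η t c0 e0 (by rw [tu]; exact ht)
    fun s h0 h1 => by rw [lu s h0]; exact hl s h0 h1
  have e1 : dist1 u u' = Nf l l' 0 T1 := by
    unfold dist1 Nf
    rw [tu]
    refine intervalIntegral.integral_congr fun s hs => ?_
    rw [uIcc_of_le h.mem.1] at hs
    simp only [lu s hs.1, lu' s hs.1]
  have e2 : ∫ s in (0:ℝ)..t, (lvr 1 l' s - lvr 1 l s) * AA l' s =
      ∫ s in (0:ℝ)..t, (lvr 1 u' s - lvr 1 u s) * AA u' s := by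
    refine intervalIntegral.integral_congr fun s hs => ?_
    rw [uIcc_of_le ht.1] at hs
    simp only [lu s hs.1, lu' s hs.1, su'.aa s ⟨hs.1, hs.2.trans ht.2⟩]
  rwa [su.gg t ht, su.gg 0 z, su'.gg t ht, su'.gg 0 z, e2, ← e1]

theorem shift {f f' : ℝ → ℝ} {T a b c E : ℝ} (hc : ContinuousOn f (Icc 0 T))
    (hd : ∀ r, 0 ≤ r → r < T → HasDerivWithinAt f (f' r) (Ici r) r) (ha : 0 ≤ a) (hab : a ≤ b)
    (hb : b ≤ T) (h : ∀ r ∈ Ico a b, |f' r - c| ≤ E) : |f b - f a - c * (b - a)| ≤ E * (b - a) := by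
  have := abs_sub_le_of_rder (a := 0) (b := T) (C := E) (f := fun r => f r - c * r)
    (f' := fun r => f' r - c * 1) (hc.sub (by fun_prop))
    (fun r hr => (hd r hr.1 hr.2).sub ((hasDerivWithinAt_id r _).const_mul c))
    (s := a) (t := b) ⟨ha, hab.trans hb⟩ ⟨ha.trans hab, hb⟩ (fun r hr => by
      rw [min_eq_left hab, max_eq_right hab] at hr
      rw [mul_one]; exact h r hr)
  rw [abs_of_nonneg (sub_nonneg.2 hab)] at this
  convert this using 2
  ring

/-- two node vectors at distance `Δ`, seen from the node `k` -/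
structure Pair (z : ℕ → ℝ) (N k : ℕ) (T1 Δ : ℝ) (s u : ℕ → ℝ) : Prop where
  lab : Lab z N
  kN : k ≤ N
  s0 : s 0 = 0
  u0 : u 0 = 0
  sm : StrictMono s
  um : StrictMono u
  ts : Tp T1 (lst z s N)
  tu : Tp T1 (lst z u N)
  d : ∀ j ≤ N, |u j - s j| ≤ Δ
  lo : ∀ j < k, s j ≤ min (s k) (u k) ∧ u j ≤ min (s k) (u k)

namespace Pair

variable {z s u : ℕ → ℝ} {N k : ℕ} {T1 Δ : ℝ}

theorem symm (h : Pair z N k T1 Δ s u) : Pair z N k T1 Δ u s :=
  ⟨h.lab, h.kN, h.u0, h.s0, h.um, h.sm, h.tu, h.ts, fun j hj => abs_sub_comm (u j) (s j) ▸ h.d j hj,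
    fun j hj => min_comm (s k) (u k) ▸ (h.lo j hj).symm⟩

theorem ok (h : Pair z N k T1 Δ s u) : Ok (lst z s N) ∧ TT (lst z s N) = s N :=
  ⟨(areaS z s N h.lab h.s0 h.sm).1.1, (areaS z s N h.lab h.s0 h.sm).1.2.1⟩

theorem nn (h : Pair z N k T1 Δ s u) (j : ℕ) : 0 ≤ s j := h.s0 ▸ h.sm.monotone (Nat.zero_le j)

theorem d0 (h : Pair z N k T1 Δ s u) : 0 ≤ Δ := (abs_nonneg _).trans (h.d 0 (Nat.zero_le _))

theorem m0 (h : Pair z N k T1 Δ s u) : 0 ≤ min (s k) (u k) := le_min (h.nn k) (h.symm.nn k)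

theorem mN (h : Pair z N k T1 Δ s u) : min (s k) (u k) ≤ s N :=
  (min_le_left _ _).trans (h.sm.monotone h.kN)

theorem mN' (h : Pair z N k T1 Δ s u) : min (s k) (u k) ≤ u N :=
  (min_le_right _ _).trans (h.um.monotone h.kN)

theorem gap (h : Pair z N k T1 Δ s u) : s k - min (s k) (u k) ≤ Δ := by
  refine le_trans ?_ (h.d k h.kN)
  rcases le_total (s k) (u k) with a | a
  · rw [min_eq_left a, sub_self]; exact abs_nonneg _
  · rw [min_eq_right a, abs_sub_comm]; exact le_abs_self _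

theorem up (h : Pair z N k T1 Δ s u) : Up z N := up_of_mono h.lab.mono N

theorem wt (h : Pair z N k T1 Δ s u) {a b : ℝ} (hab : a ≤ b) {g : ℝ → ℝ} (hg : Continuous g)
    (h0 : ∀ r ∈ Icc a b, 0 ≤ g r) {G : ℕ → ℝ}
    (hG : ∀ j < N, ∀ r ∈ Icc a b, min (s (j + 1)) (u (j + 1)) ≤ r →
      r ≤ max (s (j + 1)) (u (j + 1)) → g r ≤ G (j + 1)) :
    ∫ r in a..b, g r * |lvr 1 (lst z u N) r - lvr 1 (lst z s N) r| ≤
      ∑ j ∈ Finset.range N, dm z j * (G (j + 1) * |cl a b (u (j + 1)) - cl a b (s (j + 1))|) := by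
  rw [lvr_lst h.lab h.s0 h.sm.monotone, lvr_lst h.lab h.u0 h.um.monotone]
  simp only [mul_comm (g _)]
  exact area_abs_le s u h.up hab (hg.intervalIntegrable _ _) h0 hG

theorem Nf_le (h : Pair z N k T1 Δ s u) {a b : ℝ} (hab : a ≤ b) :
    Nf (lst z s N) (lst z u N) a b ≤ ∑ j ∈ Finset.range N, dm z j * |u (j + 1) - s (j + 1)| := by
  unfold Nf
  rw [lvr_lst h.lab h.s0 h.sm.monotone, lvr_lst h.lab h.u0 h.um.monotone]
  exact area_L1' s u h.up hab

theorem sum_le (h : Pair z N k T1 Δ s u) :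
    ∑ j ∈ Finset.range N, dm z j * |u (j + 1) - s (j + 1)| ≤ Δ :=
  calc _ ≤ ∑ j ∈ Finset.range N, dm z j * Δ := Finset.sum_le_sum fun j hj =>
        mul_le_mul_of_nonneg_left (h.d _ (Finset.mem_range.1 hj)) (h.lab.dm_nn j)
    _ = (∑ j ∈ Finset.range N, dm z j) * Δ := by rw [Finset.sum_mul]
    _ ≤ Δ := mul_le_of_le_one_left h.d0 h.lab.sum_le

theorem max_le (h : Pair z N k T1 Δ s u) {j : ℕ} (hj : j ≤ N) : max (s j) (u j) ≤ s j + Δ :=
  _root_.max_le (by linarith [h.d0]) (by linarith [(abs_le.1 (h.d j hj)).2])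

theorem min_ge (h : Pair z N k T1 Δ s u) {j : ℕ} (hj : k ≤ j) :
    min (s k) (u k) ≤ min (s j) (u j) := min_le_min (h.sm.monotone hj) (h.um.monotone hj)

/-- the weighted norm below the node -/
theorem Wf_le (h : Pair z N k T1 Δ s u) :
    Wf (lst z s N) (lst z u N) (min (min (s k) (u k)) T1) ≤ ∑ j ∈ Finset.range N,
      dm z j * ((if j + 1 < k then s (j + 1) + Δ else 0) * |u (j + 1) - s (j + 1)|) := by
  have m0 : 0 ≤ min (min (s k) (u k)) T1 := le_min h.m0 h.ts.mem.1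
  refine (h.wt m0 continuous_id (fun r hr => hr.1) (G := fun j => s j + Δ)
    fun j hj r _ _ h2 => h2.trans (h.max_le hj)).trans (Finset.sum_le_sum fun j _ =>
      mul_le_mul_of_nonneg_left ?_ (h.lab.dm_nn j))
  split_ifs with a
  · exact mul_le_mul_of_nonneg_left (cl_lip _ _ _ _) (add_nonneg (h.nn _) h.d0)
  · have := (min_le_left _ T1).trans (h.min_ge (not_lt.1 a))
    rw [cl_of_ge m0 (this.trans (min_le_left _ _)), cl_of_ge m0 (this.trans (min_le_right _ _))]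
    simp

/-- the plain norm above the node -/
theorem Nf_up (h : Pair z N k T1 Δ s u) :
    Nf (lst z s N) (lst z u N) (min (min (s k) (u k)) T1) T1 ≤ ∑ j ∈ Finset.range N,
      dm z j * ((if j + 1 < k then 0 else 1) * |u (j + 1) - s (j + 1)|) := by
  rcases le_total T1 (min (s k) (u k)) with b | b
  · rw [min_eq_right b, Nf, intervalIntegral.integral_same]
    exact Finset.sum_nonneg fun j _ => mul_nonneg (h.lab.dm_nn j)
      (mul_nonneg (by split_ifs <;> norm_num) (abs_nonneg _))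
  rw [min_eq_left b]
  have := h.wt b (g := fun _ => 1) continuous_const (fun _ _ => zero_le_one) (G := fun _ => 1)
    fun _ _ _ _ _ _ => le_rfl
  simp only [one_mul] at this
  refine this.trans (Finset.sum_le_sum fun j _ => mul_le_mul_of_nonneg_left ?_ (h.lab.dm_nn j))
  split_ifs with a
  · rw [cl_of_le (h.lo _ a).1, cl_of_le (h.lo _ a).2]
    simp
  · rw [one_mul]; exact cl_lip _ _ _ _

theorem lvr_slice (h : Pair z N k T1 Δ s u) {r : ℝ} (h1 : min (s k) (u k) ≤ r) (h2 : r < s k) :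
    lvr 1 (lst z s N) r = z (k - 1) := by
  rcases k with _ | k
  · exact absurd (h.m0.trans h1) (by rw [h.s0] at h2; exact not_le.2 h2)
  · exact (areaS z s N h.lab h.s0 h.sm).1.2.2.1 k r ((h.lo k (Nat.lt_succ_self k)).1.trans h1) h2

end Pair

/-- left derivative of `G` at the node `k` -/
def Gl (z : ℕ → ℝ) (l : List (ℝ × ℝ)) (k : ℕ) (t : ℝ) : ℝ := NN l t - 2 * z (k - 1) * AA l t

/-- kernel of the response of `Γ` at the node `k` -/
def K1 (s : ℕ → ℝ) (k j : ℕ) : ℝ := min (s j) (s k)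
/-- kernel of the response of `G` at the node `k` -/
def K2 (s : ℕ → ℝ) (k j : ℕ) : ℝ := if j < k then s j else 1

theorem tri {a b c d e x y z : ℝ} (h1 : |a| ≤ x) (h2 : |b| ≤ y) (h3 : |c| ≤ z) (he : d = a - b + c)
    (hf : x + y + z ≤ e) : |d| ≤ e := by
  rw [he]
  have := abs_add_le (a - b) c
  have := abs_sub a b
  linarith

set_option maxHeartbeats 800000 in
/-- first-order expansions up to `K Δ²`; `C` depends only on `T`, `K` also on `T0` -/
theorem pair_exp (T : ℝ) : ∃ C : ℝ, 1 ≤ C ∧ ∀ T0 : ℝ, ∃ K : ℝ, 0 ≤ K ∧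
    ∀ (z s u : ℕ → ℝ) (N k : ℕ) (T1 Δ : ℝ), Pair z N k T1 Δ s u → T1 ≤ T → s N ≤ T0 → u N ≤ T0 →
    |Gam (lst z u N) (u k) - Gam (lst z s N) (s k) - GG (lst z s N) (s k) * (u k - s k)| ≤
      C * ∑ j ∈ Finset.range N, dm z j * (K1 s k (j + 1) * |u (j + 1) - s (j + 1)|) + K * Δ ^ 2 ∧
    |GG (lst z u N) (u k) - GG (lst z s N) (s k) - Gl z (lst z s N) k (s k) * (u k - s k)| ≤
      C * ∑ j ∈ Finset.range N, dm z j * (K2 s k (j + 1) * |u (j + 1) - s (j + 1)|) + K * Δ ^ 2 ∧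
    ∀ C0 η : ℝ, 0 ≤ C0 → 0 ≤ η → s k ≤ T1 →
      (∀ r, 0 ≤ r → r < s k → lvr 1 (lst z s N) r ≤ C0 * r + η) →
      |GG (lst z u N) (u k) - GG (lst z u N) 0 - (GG (lst z s N) (s k) - GG (lst z s N) 0) -
        Gl z (lst z s N) k (s k) * (u k - s k) - 2 * ∑ j ∈ Finset.range N, dm z j *
          ((if j + 1 < k then AA (lst z s N) (s (j + 1)) else 0) * (u (j + 1) - s (j + 1)))| ≤
      C * ((1 + C0) * s k ^ 2 + η * s k) *
        ∑ j ∈ Finset.range N, dm z j * |u (j + 1) - s (j + 1)| + K * Δ ^ 2 := by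
  obtain ⟨C1, c1, hF⟩ := fun_lip' T
  obtain ⟨C2, c2, hC⟩ := cmp' T
  refine ⟨C1 + C2, by linarith, fun T0 => ?_⟩
  obtain ⟨C3, c3, hO⟩ := Ode3.odeS T0
  obtain ⟨C4, c4, hN⟩ := Mer97.NN_lip T0
  set B := C1 * (|T| + |T0| + 2) with hB
  have B0 : 0 ≤ B := by positivity
  set E := 2 * C3 + 2 * C4 + 60 + 3 * B with hE
  refine ⟨2 * E + C1 + 2 * (15 + B), by positivity,
    fun z s u N k T1 Δ h hT hs hu => ?_⟩
  obtain ⟨o, e⟩ := h.ok
  obtain ⟨o', e'⟩ := h.symm.ok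
  set l := lst z s N with hl
  set l' := lst z u N with hl'
  set m := min (s k) (u k) with hm
  have d0 := h.d0
  have sN := h.sm.monotone h.kN
  have uN := h.um.monotone h.kN
  obtain ⟨⟨a1, a2, a3, -⟩, a4, -, a5⟩ := hO l o (e.trans_le hs)
  obtain ⟨⟨b1, b2, b3, -⟩, b4, -, b5⟩ := hO l' o' (e'.trans_le hu)
  have a6 := hN l o (e.trans_le hs)
  have b6 := hN l' o' (e'.trans_le hu)
  rw [e] at a1 a2 a3 a4 a5 a6
  rw [e'] at b1 b2 b3 b4 b5 b6
  -- crude comparison at equal times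
  have cr : ∀ t, 0 ≤ t → t ≤ s N → t ≤ u N → |GG l' t - GG l t| ≤ B * Δ ∧
      |AA l' t - AA l t| ≤ B * Δ ∧ |NN l' t - NN l t| ≤ B * Δ := fun t t0 t1 t2 => by
    obtain ⟨-, f1, f2, f3, -⟩ := hF T1 l l' h.ts h.tu hT t t0 (e ▸ t1) (e' ▸ t2) _ _ rfl rfl
    have m1 : 0 ≤ min t T1 := le_min t0 h.ts.mem.1
    have w1 := Ker.Wf_le (l := l) (l' := l') (Y := |T| + 1) m1 fun r h1 h2 => absurd h1 (by
      linarith [min_le_right t T1, le_abs_self T])
    have n1 := (h.Nf_le m1).trans h.sum_le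
    have n2 := (h.Nf_le (min_le_right t T1)).trans h.sum_le
    have n3 := mul_le_mul_of_nonneg_left n1 (show 0 ≤ |T| + 1 by positivity)
    have n4 : t * Nf l l' (min t T1) T1 ≤ |T0| * Δ :=
      mul_le_mul (t1.trans (hs.trans (le_abs_self _))) n2 (Nf_nonneg _ _ (min_le_right _ _))
        (abs_nonneg _)
    have n5 : 0 ≤ |T0| * Δ := by positivity
    have q : ∀ x, x ≤ (|T| + |T0| + 2) * Δ → C1 * x ≤ B * Δ := fun x hx => by
      rw [hB, mul_assoc]; exact mul_le_mul_of_nonneg_left hx (by linarith only [c1])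
    exact ⟨f1.trans (q _ (by linarith only [w1, n2, n3, n5])),
      f2.trans (q _ (by linarith only [w1, n2, n3, n5])),
      f3.trans (q _ (by linarith only [w1, n3, n4, d0]))⟩
  have m0 := h.m0
  have ms : m ≤ s k := min_le_left _ _
  have mu : m ≤ u k := min_le_right _ _
  have g1 : s k - m ≤ Δ := h.gap
  have g2 : u k - m ≤ Δ := by rw [hm, min_comm]; exact h.symm.gap
  have Im : m ∈ Icc 0 (s N) := ⟨m0, h.mN⟩
  have Im' : m ∈ Icc 0 (u N) := ⟨m0, h.mN'⟩
  have Is : s k ∈ Icc 0 (s N) := ⟨h.nn k, sN⟩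
  obtain ⟨r1, r2, r3⟩ := cr m m0 h.mN h.mN'
  have z1 : |z (k - 1)| ≤ 1 := by
    rw [abs_of_pos (h.lab.pos.trans_le (h.lab.mono (Nat.zero_le _))), ← h.lab.top N le_rfl]
    exact h.lab.mono ((Nat.sub_le _ _).trans h.kN)
  have lp : ∀ {x c r t : ℝ}, |x| ≤ c * |r - t| → 0 ≤ c → |r - t| ≤ Δ → |x| ≤ c * Δ :=
    fun h1 h2 h3 => h1.trans (mul_le_mul_of_nonneg_left h3 h2)
  have e1 : ∀ r ∈ Icc m (s k), |r - s k| ≤ Δ := fun r hr => by
    rw [abs_le]; constructor <;> linarith only [hr.1, hr.2, g1, d0]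
  have e2 : ∀ r ∈ Ico m (u k), |r - m| ≤ Δ := fun r hr => by
    rw [abs_le]; constructor <;> linarith only [hr.1, hr.2, g2, d0]
  have sG : ∀ r ∈ Icc m (s k), |GG l r - GG l (s k)| ≤ C3 * Δ ∧ |AA l r - AA l (s k)| ≤ 15 * Δ ∧
      |NN l r - NN l (s k)| ≤ C4 * Δ := fun r hr => by
    have Ir : r ∈ Icc 0 (s N) := ⟨m0.trans hr.1, hr.2.trans sN⟩
    have := (a5 r Ir).2.2.2.2.2.2.2.2.2.2.2.2 _ Is
    exact ⟨lp this.2 (by linarith only [c3]) (e1 r hr), lp this.1 (by norm_num) (e1 r hr),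
      lp (a6 _ Is r Ir) (by linarith only [c4]) (e1 r hr)⟩
  have uG : ∀ r ∈ Ico m (u k), |GG l' r - GG l (s k)| ≤ (2 * C3 + B) * Δ ∧
      |AA l' r - AA l (s k)| ≤ (30 + B) * Δ ∧ |NN l' r - NN l (s k)| ≤ (2 * C4 + B) * Δ :=
    fun r hr => by
    have Ir : r ∈ Icc 0 (u N) := ⟨m0.trans hr.1, hr.2.le.trans uN⟩
    have := (b5 r Ir).2.2.2.2.2.2.2.2.2.2.2.2 _ Im'
    obtain ⟨x1, x2, x3⟩ := sG m ⟨le_rfl, ms⟩
    have y1 := lp this.2 (by linarith only [c3]) (e2 r hr)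
    have y2 := lp this.1 (by norm_num) (e2 r hr)
    have y3 := lp (b6 _ Im' r Ir) (by linarith only [c4]) (e2 r hr)
    rw [abs_sub_comm] at r1 r2 r3
    exact ⟨tri y1 r1 x1 (by ring) (by linarith), tri y2 r2 x2 (by ring) (by linarith),
      tri y3 r3 x3 (by ring) (by linarith)⟩
  have EE : ∀ x, x ≤ E → x * Δ ≤ E * Δ := fun x hx => mul_le_mul_of_nonneg_right hx d0
  have E0 : 0 ≤ E * Δ := by positivity
  have gl : ∀ {n n' a a' x y : ℝ}, |n' - n| ≤ x * Δ → |a' - a| ≤ y * Δ → x + 2 * y ≤ E →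
      |n' - 2 * z (k - 1) * a' - (n - 2 * z (k - 1) * a)| ≤ E * Δ := fun {n n' a a' x y} p q r => by
    rw [show n' - 2 * z (k - 1) * a' - (n - 2 * z (k - 1) * a) =
      (n' - n) - 2 * (z (k - 1) * (a' - a)) by ring]
    refine (abs_sub _ _).trans ?_
    rw [abs_mul, abs_mul, abs_two]
    have := mul_le_of_le_one_left (abs_nonneg (a' - a)) z1
    linarith only [this, p, q, EE _ r]
  have fin : ∀ {x t : ℝ}, |x| ≤ E * Δ * t → t ≤ Δ → |x| ≤ E * Δ ^ 2 := fun p q =>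
    p.trans ((mul_le_mul_of_nonneg_left q E0).trans_eq (by ring))
  have s1 := fin (shift a1 (fun r h0 h1 => (a4 r h0 h1).1) m0 ms sN (c := GG l (s k)) fun r hr =>
    (sG r ⟨hr.1, hr.2.le⟩).1.trans (EE _ (by linarith only [hE, c3, c4, B0]))) g1
  have s2 := fin (shift b1 (fun r h0 h1 => (b4 r h0 h1).1) m0 mu uN (c := GG l (s k)) fun r hr =>
    (uG r hr).1.trans (EE _ (by linarith only [hE, c3, c4, B0]))) g2
  have s3 := fin (shift a2 (fun r h0 h1 => (a4 r h0 h1).2.1) m0 ms sN (c := Gl z l k (s k))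
    fun r hr => by
      rw [h.lvr_slice hr.1 hr.2]
      exact gl (sG r ⟨hr.1, hr.2.le⟩).2.2 (sG r ⟨hr.1, hr.2.le⟩).2.1
        (by linarith only [hE, c3, c4, B0])) g1
  have s4 := fin (shift b2 (fun r h0 h1 => (b4 r h0 h1).2.1) m0 mu uN (c := Gl z l k (s k))
    fun r hr => by
      rw [h.symm.lvr_slice (by rw [min_comm]; exact hr.1) hr.2]
      exact gl (uG r hr).2.2 (uG r hr).2.1 (by linarith only [hE, c3, c4, B0])) g2
  obtain ⟨f1, f2, -⟩ := hF T1 l l' h.ts h.tu hT m m0 (e ▸ h.mN) (e' ▸ h.mN') _ _ rfl rfl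
  have w1 := h.Wf_le
  have w2 := h.Nf_up
  have w3 := mul_le_mul_of_nonneg_left h.sum_le d0
  have w4 := mul_le_mul_of_nonneg_left w2 m0
  rw [Finset.mul_sum] at w3 w4
  have p0 : 0 ≤ 2 * (15 + B) * Δ ^ 2 := by positivity
  have p1 : 0 ≤ C1 * Δ ^ 2 := by positivity
  have ker : ∀ (Kr : ℕ → ℝ) (x : ℝ), (∀ j, 0 ≤ Kr j) → x ≤ ∑ j ∈ Finset.range N,
      (dm z j * (Kr (j + 1) * |u (j + 1) - s (j + 1)|) + Δ * (dm z j * |u (j + 1) - s (j + 1)|)) →
      C1 * x ≤ (C1 + C2) * ∑ j ∈ Finset.range N, dm z j * (Kr (j + 1) * |u (j + 1) - s (j + 1)|) +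
        C1 * Δ ^ 2 := fun Kr x k0 hx => by
    rw [Finset.sum_add_distrib] at hx
    have q0 : 0 ≤ ∑ j ∈ Finset.range N, dm z j * (Kr (j + 1) * |u (j + 1) - s (j + 1)|) :=
      Finset.sum_nonneg fun j _ => mul_nonneg (h.lab.dm_nn j) (mul_nonneg (k0 _) (abs_nonneg _))
    have q1 := mul_le_mul_of_nonneg_left (hx.trans (add_le_add le_rfl w3))
      (show 0 ≤ C1 by linarith only [c1])
    have q2 := mul_nonneg (show 0 ≤ C2 by linarith only [c2]) q0
    linarith only [q1, q2]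
  refine ⟨tri s2 s1 (f1.trans (ker (K1 s k) _ (fun j => le_min (h.nn _) (h.nn _)) ?_)) (by ring)
      (by linarith only [p0]),
    tri s4 s3 (f2.trans (ker (K2 s k) _ (fun j => ?_) ?_)) (by ring) (by linarith only [p0]),
    fun C0 η c0 η0 hk hl => ?_⟩
  · refine (add_le_add w1 w4).trans ?_
    rw [← Finset.sum_add_distrib]
    refine Finset.sum_le_sum fun j _ => ?_
    have q := mul_nonneg (h.lab.dm_nn j) (abs_nonneg (u (j + 1) - s (j + 1)))
    unfold K1
    split_ifs with a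
    · rw [min_eq_left (h.sm.monotone a.le)]
      linarith
    · rw [min_eq_right (h.sm.monotone (not_lt.1 a))]
      have := mul_le_mul_of_nonneg_right ms q
      have := mul_nonneg d0 q
      linarith
  · unfold K2
    split_ifs
    · exact h.nn _
    · exact zero_le_one
  · refine (add_le_add w1 w2).trans ?_
    rw [← Finset.sum_add_distrib]
    refine Finset.sum_le_sum fun j _ => ?_
    have q := mul_nonneg d0 (mul_nonneg (h.lab.dm_nn j) (abs_nonneg (u (j + 1) - s (j + 1))))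
    unfold K2
    split_ifs with a <;> linarith
  · have c := hC T1 l l' h.ts h.tu hT C0 η m c0 η0 ⟨m0, ms.trans hk⟩
      fun r h0 h1 => hl r h0 (h1.trans_le ms)
    have ap := area_approx s u h.up m0 (g := AA l')
      ((b3.mono (Icc_subset_Icc le_rfl h.mN')).intervalIntegrable_of_Icc m0)
      (c := fun j => if j < k then AA l (s j) else AA l' m) (E := fun _ => (15 + B) * Δ)
      fun j hj r hr => by
        split_ifs with a
        · obtain ⟨y1, y2⟩ := h.lo _ a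
          rw [cl_of_mem (h.symm.nn _) y2, cl_of_mem (h.nn _) y1] at hr
          have r0 : 0 ≤ r := (le_min (h.symm.nn _) (h.nn _)).trans hr.1
          have r1 : r ≤ m := hr.2.trans (max_le y2 y1)
          have x1 := (cr r r0 (r1.trans h.mN) (r1.trans h.mN')).2.1
          have x2 := ((a5 r ⟨r0, r1.trans h.mN⟩).2.2.2.2.2.2.2.2.2.2.2.2 (s (j + 1))
            ⟨h.nn _, y1.trans h.mN⟩).1
          have x3 : |r - s (j + 1)| ≤ Δ := by
            rw [abs_sub_comm]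
            exact (abs_sub_right_of_mem_uIcc hr).trans (abs_sub_comm (u _) _ ▸ h.d _ hj)
          have := abs_sub_le (AA l' r) (AA l r) (AA l (s (j + 1)))
          linarith only [this, x1, lp x2 (by norm_num) x3]
        · have y := h.min_ge (not_lt.1 a)
          rw [cl_of_ge m0 (y.trans (min_le_right _ _)), cl_of_ge m0 (y.trans (min_le_left _ _)),
            uIcc_self, mem_singleton_iff] at hr
          rw [hr, sub_self, abs_zero]
          positivity
    rw [← lvr_lst h.lab h.s0 h.sm.monotone, ← lvr_lst h.lab h.u0 h.um.monotone] at ap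
    have x1 : ∑ j ∈ Finset.range N, (z (j + 1) - z j) * ((if j + 1 < k then AA l (s (j + 1))
        else AA l' m) * (cl 0 m (s (j + 1)) - cl 0 m (u (j + 1)))) = -∑ j ∈ Finset.range N, dm z j *
          ((if j + 1 < k then AA l (s (j + 1)) else 0) * (u (j + 1) - s (j + 1))) := by
      rw [← Finset.sum_neg_distrib]
      refine Finset.sum_congr rfl fun j _ => ?_
      split_ifs with a
      · rw [cl_of_mem (h.symm.nn _) (h.lo _ a).2, cl_of_mem (h.nn _) (h.lo _ a).1, dm]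
        ring
      · have y := h.min_ge (not_lt.1 a)
        rw [cl_of_ge m0 (y.trans (min_le_right _ _)), cl_of_ge m0 (y.trans (min_le_left _ _))]
        simp
    have x2 : ∑ j ∈ Finset.range N, (z (j + 1) - z j) * ((15 + B) * Δ *
        |cl 0 m (s (j + 1)) - cl 0 m (u (j + 1))|) ≤ (15 + B) * Δ ^ 2 := by
      refine le_trans ?_ ((mul_le_mul_of_nonneg_left w3 (show 0 ≤ 15 + B by positivity)).trans_eq
        (by ring))
      rw [Finset.mul_sum]
      refine Finset.sum_le_sum fun j _ => ?_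
      have := mul_le_mul_of_nonneg_left ((cl_lip 0 m (s (j + 1)) (u (j + 1))).trans_eq
        (abs_sub_comm _ _)) (mul_nonneg (h.lab.dm_nn j) (show 0 ≤ (15 + B) * Δ by positivity))
      unfold dm at this ⊢
      linarith only [this]
    rw [x1] at ap
    have x3 := abs_le.1 (ap.trans x2)
    have x4 : C2 * Nf l l' 0 T1 * ((1 + C0) * m ^ 2 + η * m) ≤ (C1 + C2) *
        ((1 + C0) * s k ^ 2 + η * s k) * ∑ j ∈ Finset.range N, dm z j * |u (j + 1) - s (j + 1)| := by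
      have n0 := Nf_nonneg l l' h.ts.mem.1
      have sk := h.nn k
      rw [mul_right_comm]
      refine mul_le_mul (mul_le_mul (by linarith only [c1]) ?_ (by positivity)
        (by linarith only [c1, c2])) (h.Nf_le h.ts.mem.1) n0 (by positivity)
      gcongr
    have x5 := abs_le.1 (c.trans x4)
    have x6 := abs_le.1 s3
    have x7 := abs_le.1 s4
    rw [abs_le]
    constructor <;> linarith only [x3.1, x3.2, x5.1, x5.2, x6.1, x6.2, x7.1, x7.2, p1]

end

end Crest.Agent.T156.Pr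
end

-- ▼ part T156/SelfAdj_52
section

/-!
# Row 156 (helper52): self-adjointness of the linearised cavity equation

`Bq2 w L h S' S` is the derivative in the kernel direction `S` of the first variation `Gk1 w L h S'`
of the value.  It is symmetric (Schwarz).  The skeleton `dS` of `dT` gives linearity, transport and
the factorisation of `dT` on product systems.
-/

set_option autoImplicit false
set_option linter.unusedSectionVars false

noncomputable section

namespace Crest.Agent.T156.Cas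

open MeasureTheory Real Set Filter Topology
open Crest.Agent.T157.E Crest.Agent.T157.Casc Crest.Agent.T157.SL
open Crest.Agent.T157.Casc.C (Same addLv addLv_cov X_same)

namespace SA52

variable {Ω Ω' : Type} {V W : Type} [AddCommGroup V] [Module ℝ V] [AddCommGroup W] [Module ℝ W]

/-! ### the skeleton of `dT` -/

/-- the terms of `dT`: shape, embedding of the old leaves, depth, the two leaves of the kernel -/
abbrev Tm (s : Sh) (V : Type) : Type := (s' : Sh) → (s.Lf → s'.Lf) → ℕ → s'.Lf → s'.Lf → V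

/-- the weights of `dT` applied to arbitrary terms -/
def dS (s : Sh) (M : List (Lv Ω)) (T : Tm s V) : V :=
  ∑ a, ∑ b, T s id (s.shr a b M.length) a b -
  ∑ a, ∑ j ∈ Finset.range (M.length + 1), cw s M a j •
    (∑ b, T (s.graft a j) (s.emb a j) (s.shr b a j) (s.emb a j b) (s.nw a j) +
      ∑ b, T (s.graft a j) (s.emb a j) (s.shr a b j) (s.nw a j) (s.emb a j b) +
      T (s.graft a j) (s.emb a j) M.length (s.nw a j) (s.nw a j)) +
  ∑ a, ∑ j ∈ Finset.range (M.length + 1), cw s M a j •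
    (∑ b, ∑ k ∈ Finset.range (M.length + 1), cw s M b k •
      T ((s.graft b k).graft (s.emb b k a) j)
        (fun c => (s.graft b k).emb (s.emb b k a) j (s.emb b k c)) (s.shr a b (min j k))
        ((s.graft b k).nw (s.emb b k a) j) ((s.graft b k).emb (s.emb b k a) j (s.nw b k)) +
    ∑ i ∈ Finset.range (M.length - j + 1), dm (M.drop j) 0 i •
      T ((s.graft a j).graft (s.nw a j) (i + j))
        (fun b => (s.graft a j).emb (s.nw a j) (i + j) (s.emb a j b)) (i + j)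
        ((s.graft a j).emb (s.nw a j) (i + j) (s.nw a j)) ((s.graft a j).nw (s.nw a j) (i + j)))

/-- the old leaves keep their law -/
def Mg (s s' : Sh) (e : s.Lf → s'.Lf) : Prop :=
  ∀ (Ω : Type) [Fintype Ω] (w : Ω → ℝ), Wt w → ∀ (L : List (Lv Ω)) (h : Ω → ℝ)
    (F : (s.Lf → Ω) → ℝ), TE w s' L h (fun x => F fun c => x (e c)) = TE w s L h F



theorem Mg.comp {s s' s'' : Sh} {e : s.Lf → s'.Lf} {e' : s'.Lf → s''.Lf} (H : Mg s s' e)
    (H' : Mg s' s'' e') : Mg s s'' fun c => e' (e c) := fun Ω _ w hw L h F =>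
  (H' Ω w hw L h fun x => F fun c => x (e c)).trans (H Ω w hw L h F)



theorem dS_map (s : Sh) (M : List (Lv Ω)) (T : Tm s V) (φ : V →ₗ[ℝ] W) :
    φ (dS s M T) = dS s M fun s' e j u v => φ (T s' e j u v) := by
  simp only [dS, map_add, map_sub, map_sum, map_smul]



theorem dS_mul (s : Sh) (M : List (Lv Ω)) (c : ℝ) (T : Tm s ℝ) :
    dS s M (fun s' e j u v => c * T s' e j u v) = c * dS s M T :=
  (dS_map s M T (LinearMap.mul ℝ ℝ c)).symm


/-- same tilts -/
def Tl (M : List (Lv Ω)) (M' : List (Lv Ω')) : Prop := M.map Lv.m = M'.map Lv.m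

theorem Tl.len {M : List (Lv Ω)} {M' : List (Lv Ω')} (H : Tl M M') : M.length = M'.length := by
  simpa using congrArg List.length H

theorem Tl.ex {M : List (Lv Ω)} {M' : List (Lv Ω')} (H : Tl M M') (j : ℕ) : ex M j = ex M' j := by
  have := congrArg (·[j]?) H
  simp only [List.getElem?_map] at this
  unfold T157.Casc.ex
  cases h1 : M[j]? <;> cases h2 : M'[j]? <;> simp_all

theorem Tl.dm {M : List (Lv Ω)} {M' : List (Lv Ω')} (H : Tl M M') (m0 : ℝ) (j : ℕ) :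
    dm M m0 j = dm M' m0 j := by
  cases j <;> simp only [T157.Casc.dm, exP, H.ex]

theorem Tl.drop {M : List (Lv Ω)} {M' : List (Lv Ω')} (H : Tl M M') (j : ℕ) :
    Tl (M.drop j) (M'.drop j) := by
  unfold Tl
  rw [List.map_drop, List.map_drop, H]

theorem Tl.cf : ∀ (s : Sh) {M : List (Lv Ω)} {M' : List (Lv Ω')}, Tl M M' → ∀ a j,
    cf s M a j = cf s M' a j
  | .one, _, _, _, _, 0 => rfl
  | .one, _, _, H, _, j + 1 => H.dm 0 (j + 1)
  | .step s, [], [], H, a, j => by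
      show Cas.cf s [] a j + _ = Cas.cf s [] a j + _
      rw [Tl.cf s H a j]
  | .step _, [], _ :: _, H, _, _ => by simp [Tl] at H
  | .step _, _ :: _, [], H, _, _ => by simp [Tl] at H
  | .step _, _ :: _, _ :: _, _, _, 0 => rfl
  | .step s, l :: M, l' :: M', H, a, j + 1 => by
      have H' : l.m = l'.m ∧ Tl M M' := by simpa [Tl] using H
      refine (Sp38.cf_step s l M a j).trans (Eq.trans ?_ (Sp38.cf_step s l' M' a j).symm)
      rw [Tl.cf s H'.2 a j, H'.2.ex, H'.1]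
  | .split s _, _, _, H, .inl a, j => Tl.cf s H a j
  | .split _ t, _, _, H, .inr a, j => Tl.cf t H a j

theorem Tl.cw (s : Sh) {M : List (Lv Ω)} {M' : List (Lv Ω')} (H : Tl M M') (a : s.Lf) (j : ℕ) :
    cw s M a j = cw s M' a j := by
  rw [Cas.cw, Cas.cw, H.cf, H.ex]

theorem Tl.dS (s : Sh) {M : List (Lv Ω)} {M' : List (Lv Ω')} (H : Tl M M') (T : Tm s V) :
    dS s M T = dS s M' T := by
  simp only [SA52.dS, H.len, H.cw, (H.drop _).dm]


theorem tl_map {α : Type*} (T : List α) {f : α → Lv Ω} {g : α → Lv Ω'} (H : ∀ a, (f a).m = (g a).m) :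
    Tl (T.map f) (T.map g) := by
  simp only [Tl, List.map_map]
  exact List.map_congr_left fun a _ => H a


variable [Fintype Ω] {w : Ω → ℝ}

theorem dT_eq (w : Ω → ℝ) (s : Sh) (M : List (Lv Ω)) (h : Ω → ℝ) (S : ℕ → Ω → Ω → ℝ)
    (F : (s.Lf → Ω) → ℝ) : dT w s M h S F = dS s M fun s' e j u v =>
      TE w s' M h fun x => F (fun c => x (e c)) * S j (x u) (x v) := rfl

end SA52

open SA52

variable {Ω : Type} [Fintype Ω] {w : Ω → ℝ}




theorem dT_mulS52 (hw : Wt w) (s : Sh) (M : List (Lv Ω)) (h : Ω → ℝ) (c : ℝ) (S : ℕ → Ω → Ω → ℝ)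
    (F : (s.Lf → Ω) → ℝ) : dT w s M h (fun j x y => c * S j x y) F = c * dT w s M h S F := by
  simp only [dT_eq, mul_left_comm _ c, Law.TE_const_mul hw, dS_mul]









namespace SA52

theorem two_ne : ∀ j : ℕ, Sh.twoL j ≠ Sh.twoR j
  | 0 => Sum.inl_ne_inr
  | j + 1 => two_ne j




theorem atL_tl (L : List (TL Ω)) (t u : ℝ) : Tl (atL L t) (atL L u) := tl_map L fun _ => rfl




/-! ### Schwarz at a corner -/







/-! ### the two-parameter family -/

/-- covariance `b + t k` -/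
def t1 (b k : Lv Ω) : TL Ω :=
  ⟨b.ι ⊕ k.ι, fun t x => Sum.elim (b.A x) fun i => √t * k.A x i,
    fun t x => Sum.elim 0 fun i => 1 / (2 * √t) * k.A x i, b.m⟩





variable {α : Type}

/-- half the accumulated covariance -/
def hk (T : List α) (k : α → Lv Ω) (j : ℕ) (x y : Ω) : ℝ := 1 / 2 * cacc (T.map k) j x y



/-- the cascade with covariances `b + s k + t k'` -/
def Q2 (T : List α) (b k k' : α → Lv Ω) (s t : ℝ) : List (Lv Ω) :=
  atL (T.map fun p => t1 ((t1 (b p) (k' p)).at t) (k p)) s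










open Classical in
/-- a symmetric kernel is a difference of two covariances -/
def pm (D : Ω → Ω → ℝ) (σ : ℝ) : Lv Ω :=
  ⟨Ω, fun x i => (D x i + σ * if x = i then 1 else 0) / 2, 0⟩





end SA52





/-- variance moves in replica form -/
theorem hasDerivAt_TE_mat52 (hw : Wt w) {I : Set ℝ} (hI : IsOpen I) (s : Sh) {L : List (ML Ω)}
    (hL : ∀ p ∈ L, p.Ok I) (h : Ω → ℝ) (F : (s.Lf → Ω) → ℝ) {t : ℝ} (ht : t ∈ I) :
    HasDerivAt (fun t => TE w s (mat L t) h F) (dT w s (mat L t) h (dcov L t) F / 2) t := by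
  have hC : ∀ k ∈ L.map ML.tl, k.C1 I := fun k hk => by
    obtain ⟨p, hp, rfl⟩ := List.mem_map.1 hk
    exact (hL p hp).c1
  have key : HasDerivAt (fun t => TE w s (atL (L.map ML.tl) t) h F) _ t :=
    hasDerivAt_tX_t hw hI hC ht s h F
  have e : Sacc (L.map ML.tl) t = fun j y y' => 1 / 2 * dcov L t j y y' :=
    funext fun j => funext fun y => funext fun y' => Sacc_tl ht y y' L hL j
  simp only [atL_tl, e, dT_mulS52 hw] at key
  exact key.congr_deriv (by ring)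


end Crest.Agent.T156.Cas

end
end

-- ▼ part T156/PrD_28
section

/-!
Row 156, ALT, text (P) (helper28): the node values `Γ(σ_j)`, `G(σ_j)`, `A(σ_j)`, `χ` are `C¹`
along every `C¹` path of node times; dictionary with the site cascade.
-/

set_option autoImplicit false
set_option linter.unusedSectionVars false

noncomputable section

namespace Crest.Agent.T156.Cas

open MeasureTheory Real Set Filter Topology
open Crest.Agent.T157.E Crest.Agent.T157.Casc Crest.Agent.T157.SL Crest.Agent.T157.Casc.C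
open Crest.ProbabilityR.SpinGlassDynamics (spin)

namespace D28

/-- `C¹` on `I` -/
def C1 (I : Set ℝ) (f : ℝ → ℝ) : Prop :=
  ∃ f' : ℝ → ℝ, (∀ t ∈ I, HasDerivAt f (f' t) t) ∧ ContinuousOn f' I

theorem C1.der {I : Set ℝ} {f : ℝ → ℝ} (h : C1 I f) {t : ℝ} (ht : t ∈ I) :
    HasDerivAt f (deriv f t) t := by
  obtain ⟨f', a, -⟩ := h
  exact (a t ht).differentiableAt.hasDerivAt

theorem C1.cont' {I : Set ℝ} {f : ℝ → ℝ} (h : C1 I f) : ContinuousOn (deriv f) I := by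
  obtain ⟨f', a, b⟩ := h
  exact b.congr fun t ht => (a t ht).deriv

theorem C1.cont {I : Set ℝ} {f : ℝ → ℝ} (h : C1 I f) : ContinuousOn f I :=
  fun _ ht => (h.der ht).continuousAt.continuousWithinAt

theorem C1.const (I : Set ℝ) (c : ℝ) : C1 I fun _ => c :=
  ⟨fun _ => 0, fun t _ => hasDerivAt_const t c, continuousOn_const⟩

theorem C1.sub {I : Set ℝ} {f g : ℝ → ℝ} (h : C1 I f) (h' : C1 I g) : C1 I fun t => f t - g t :=
  ⟨_, fun _ ht => (h.der ht).sub (h'.der ht), h.cont'.sub h'.cont'⟩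

theorem C1.add {I : Set ℝ} {f g : ℝ → ℝ} (h : C1 I f) (h' : C1 I g) : C1 I fun t => f t + g t :=
  ⟨_, fun _ ht => (h.der ht).add (h'.der ht), h.cont'.add h'.cont'⟩

theorem C1.mul {I : Set ℝ} {f g : ℝ → ℝ} (h : C1 I f) (h' : C1 I g) : C1 I fun t => f t * g t :=
  ⟨_, fun _ ht => (h.der ht).mul (h'.der ht), (h.cont'.mul h'.cont).add (h.cont.mul h'.cont')⟩

theorem C1.div {I : Set ℝ} {f g : ℝ → ℝ} (h : C1 I f) (h' : C1 I g) (h0 : ∀ t ∈ I, g t ≠ 0) :
    C1 I fun t => f t / g t :=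
  ⟨_, fun t ht => (h.der ht).div (h'.der ht) (h0 t ht),
    ((h.cont'.mul h'.cont).sub (h.cont.mul h'.cont')).div (h'.cont.pow 2)
      fun t ht => pow_ne_zero 2 (h0 t ht)⟩

theorem C1.congr {I : Set ℝ} (hI : IsOpen I) {f g : ℝ → ℝ} (h : C1 I f) (e : ∀ t ∈ I, g t = f t) :
    C1 I g :=
  ⟨_, fun _ ht => (h.der ht).congr_of_eventuallyEq (by
    filter_upwards [hI.mem_nhds ht] with u hu using e u hu), h.cont'⟩

variable {Ω : Type} [Fintype Ω] {w : Ω → ℝ}

theorem dcov_cont {I : Set ℝ} (x y : Ω) : ∀ {L : List (ML Ω)}, (∀ p ∈ L, p.Ok I) → ∀ j,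
    ContinuousOn (fun t => dcov L t j x y) I
  | [], _, j => by simp only [dcov_nil]; exact continuousOn_const
  | _ :: _, _, 0 => by simp only [dcov_zero]; exact continuousOn_const
  | p :: L, h, j + 1 => by
    simp only [dcov_cons]
    refine ContinuousOn.add (ContinuousOn.mul ?_ continuousOn_const)
      (dcov_cont x y (fun q hq => h q (List.mem_cons_of_mem _ hq)) j)
    rcases h p List.mem_cons_self with a | a
    · exact a.2
    · exact continuousOn_const.congr fun t _ => (a t).2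

theorem mat_m (L : List (ML Ω)) (s t : ℝ) : (mat L s).map Lv.m = (mat L t).map Lv.m := by
  simp only [mat, List.map_map]; rfl

theorem dT_cont (hw : Wt w) {I : Set ℝ} (hI : IsOpen I) (s : Sh) {L : List (ML Ω)}
    (hL : ∀ p ∈ L, p.Ok I) (h : Ω → ℝ) (F : (s.Lf → Ω) → ℝ) :
    ContinuousOn (fun t => dT w s (mat L t) h (dcov L t) F) I := by
  have cf : Sch6.CF w h (mat L 0) fun t : I => mat L t := ⟨fun t => mat_m L _ _, fun s x => by
    simp only [Law.PT_eq]
    exact ContinuousOn.domRestrict (f := fun t => TE w s (mat L t) h _)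
      fun t ht => (hasDerivAt_TE_mat52 hw hI s hL h _ ht).continuousAt.continuousWithinAt⟩
  exact continuousOn_iff_continuous_domRestrict.2 (cf.dT hw s (S := fun t : I => dcov L t)
    (fun j x y => (dcov_cont x y hL j).domRestrict)
    (F := fun _ => F) fun _ => continuous_const)

theorem c1_TE (hw : Wt w) {I : Set ℝ} (hI : IsOpen I) (s : Sh) {L : List (ML Ω)}
    (hL : ∀ p ∈ L, p.Ok I) (h : Ω → ℝ) (F : (s.Lf → Ω) → ℝ) : C1 I fun t => TE w s (mat L t) h F :=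
  ⟨_, fun _ ht => hasDerivAt_TE_mat52 hw hI s hL h F ht, (dT_cont hw hI s hL h F).div_const 2⟩

/-- a tree expectation for all lists with the tilts of `M` -/
def TR (w : Ω → ℝ) (M : List (Lv Ω)) (Φ : List (Lv Ω) → (Ω → ℝ) → ℝ) : Prop :=
  ∃ (s : Sh) (F : (s.Lf → Ω) → ℝ), ∀ L, L.map Lv.m = M.map Lv.m → ∀ z, Φ L z = TE w s L z F

variable {M : List (Lv Ω)} {Φ Ψ : List (Lv Ω) → (Ω → ℝ) → ℝ}

theorem TR.c1 (hw : Wt w) {I : Set ℝ} (hI : IsOpen I) {L : List (ML Ω)} (hL : ∀ p ∈ L, p.Ok I)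
    (H : TR w (mat L 0) Φ) (h : Ω → ℝ) : C1 I fun t => Φ (mat L t) h := by
  obtain ⟨s, F, e⟩ := H
  simp only [fun t => e (mat L t) (mat_m L t 0)]
  exact c1_TE hw hI s hL h F

theorem TR.congr (H : TR w M Φ) (e : ∀ L, L.map Lv.m = M.map Lv.m → ∀ z, Ψ L z = Φ L z) :
    TR w M Ψ := by
  obtain ⟨s, F, a⟩ := H
  exact ⟨s, F, fun L hL z => (e L hL z).trans (a L hL z)⟩

theorem TR.const (hw : Wt w) (M : List (Lv Ω)) (c : ℝ) : TR w M fun _ _ => c :=
  ⟨.one, fun _ => c, fun L _ z => (Law.TE_const hw _ L z c).symm⟩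

theorem TR.mul (hw : Wt w) (H : TR w M Φ) (H' : TR w M Ψ) : TR w M fun L z => Φ L z * Ψ L z := by
  obtain ⟨s, F, a⟩ := H
  obtain ⟨t, G, b⟩ := H'
  refine ⟨.split s t, fun x => F (fun c => x (.inl c)) * G fun c => x (.inr c), fun L hL z => ?_⟩
  beta_reduce
  rw [Law.TE_split hw, a L hL, b L hL]
  simp only [Sum.elim_inl, Sum.elim_inr, Law.TE_eq hw, Finset.sum_mul, Finset.mul_sum]
  rw [Finset.sum_comm]
  exact Finset.sum_congr rfl fun x _ => Finset.sum_congr rfl fun y _ => by ring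

theorem TR.add (hw : Wt w) (H : TR w M Φ) (H' : TR w M Ψ) : TR w M fun L z => Φ L z + Ψ L z := by
  obtain ⟨s, F, a⟩ := H
  obtain ⟨t, G, b⟩ := H'
  refine ⟨.split s t, fun x => F (fun c => x (.inl c)) + G fun c => x (.inr c), fun L hL z => ?_⟩
  beta_reduce
  rw [Law.TE_split hw, a L hL, b L hL]
  simp only [Sum.elim_inl, Sum.elim_inr, Law.TE_add hw, Law.TE_const hw]

theorem TR.sum (hw : Wt w) {κ : Type} (S : Finset κ) {Φ : κ → List (Lv Ω) → (Ω → ℝ) → ℝ}
    (H : ∀ k ∈ S, TR w M (Φ k)) : TR w M fun L z => ∑ k ∈ S, Φ k L z := by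
  classical
  induction S using Finset.induction_on with
  | empty => simpa using TR.const hw M 0
  | insert k S hk ih =>
    simp only [Finset.sum_insert hk]
    exact (H k (Finset.mem_insert_self _ _)).add hw
      (ih fun j hj => H j (Finset.mem_insert_of_mem hj))

theorem TR.node (hw : Wt w) : ∀ (j : ℕ) {M : List (Lv Ω)}, TR w (M.drop j) Φ →
    TR w M fun L z => node w L j (Φ (L.drop j)) z
  | 0, _, H => H.congr fun L _ z => by simp
  | j + 1, [], H => H.congr fun L hL z => by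
    obtain rfl : L = [] := by simpa using hL
    simp
  | j + 1, m :: M, H => by
    obtain ⟨s, F, a⟩ := TR.node hw j (M := M) H
    refine ⟨.step s, F, fun L hL z => ?_⟩
    rcases L with _ | ⟨l, L⟩
    · simp at hL
    · have hL' : L.map Lv.m = M.map Lv.m := by simpa using (List.cons.inj hL).2
      refine Eq.trans ?_ (Law.TE_step hw s l L z F).symm
      exact congrArg (fun G => tE l (X w L) G z) (funext (a L hL'))

theorem TR.pf (hw : Wt w) (M : List (Lv Ω)) (f : Ω → ℝ) : TR w M fun L z => Pf w L z f :=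
  ⟨.one, fun x => f (x ()), fun L _ z => (Law.TE_one hw L z fun x => f (x ())).symm⟩

theorem TR.pi2 (hw : Wt w) (M : List (Lv Ω)) (j : ℕ) {K : Ω → Ω → ℝ} (hK : ∀ x y, K x y = K y x) :
    TR w M fun L z => pi2 w L j K z :=
  ⟨Sh.two j, fun x => K (x (Sh.twoL j)) (x (Sh.twoR j)), fun L _ z =>
    (Law.TE_two hw K j L z _ _ (SA52.two_ne j) hK).symm⟩

theorem Hb_eq (hw : Wt w) (L : List (Lv Ω)) (z f : Ω → ℝ) : Hb w L z f f =
    Pf w L z (fun x => f x * f x) - ∑ j ∈ Finset.range (L.length + 1),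
      dm L 0 j * pi2 w L j (fun x y => f x * f y) z := by
  have := sum_Hs hw (fun x y => f x * f y) L 0 z
  simp only [zero_mul, add_zero, pair_eq_sum hw] at this
  exact this

theorem TR.hb (hw : Wt w) (M : List (Lv Ω)) (f : Ω → ℝ) : TR w M fun L z => Hb w L z f f := by
  refine ((TR.pf hw M fun x => f x * f x).add hw (TR.sum hw (Finset.range (M.length + 1))
    fun j _ => (TR.const hw M (-dm M 0 j)).mul hw
      (TR.pi2 hw M j (K := fun x y => f x * f y) fun x y => mul_comm _ _))).congr fun L hL z => ?_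
  rw [Hb_eq hw, Sch6.len_congr hL]
  simp only [Sch6.dm_congr hL, neg_mul, Finset.sum_neg_distrib]
  ring

end D28

end Crest.Agent.T156.Cas

namespace Crest.Agent.T156.Pr

open MeasureTheory Set Filter Topology
open Crest.Agent.T157.E Crest.Agent.T157.Casc Crest.Agent.T157.SL Crest.Agent.T157.Casc.C
open Crest.Agent.R339.B Crest.Agent.R339.Var Crest.Agent.T157.Pf
open Crest.Agent.T156.Cas Crest.Agent.T156.Cas.D28 Crest.Agent.T156.Pp
open Crest.ProbabilityR.SpinGlassDynamics (spin)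

/-- a `C¹` path of node times -/
structure NP (I : Set ℝ) (s s' : ℝ → ℕ → ℝ) : Prop where
  op : IsOpen I
  der : ∀ τ ∈ I, ∀ j, HasDerivAt (fun τ => s τ j) (s' τ j) τ
  cont : ∀ j, ContinuousOn (fun τ => s' τ j) I
  zero : ∀ τ ∈ I, s τ 0 = 0
  sm : ∀ τ ∈ I, StrictMono (s τ)

/-- the moving site cascade -/
def sML (z : ℕ → ℝ) (s s' : ℝ → ℕ → ℝ) (N : ℕ) : List (ML Bool) :=
  List.ofFn fun k : Fin N =>
    ⟨sl spin (z k, 1), fun τ => s τ (k + 1) - s τ k, fun τ => s' τ (k + 1) - s' τ k⟩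

variable {I : Set ℝ} {s s' : ℝ → ℕ → ℝ} {z : ℕ → ℝ} {N : ℕ}

theorem NP.ok (h : NP I s s') (z : ℕ → ℝ) (N : ℕ) : ∀ p ∈ sML z s s' N, p.Ok I := by
  intro p hp
  obtain ⟨k, rfl⟩ := (List.mem_ofFn' _ _).1 hp
  exact Or.inl ⟨fun τ hτ => ⟨(h.der τ hτ _).sub (h.der τ hτ _),
    sub_pos.2 (h.sm τ hτ (Nat.lt_succ_self _))⟩, (h.cont _).sub (h.cont _)⟩

theorem NP.rk (h : NP I s s') (z : ℕ → ℝ) (N : ℕ) {τ : ℝ} (hτ : τ ∈ I) :
    List.Forall₂ (Rk1 spin) (mat (sML z s s' N) τ) (lst z (s τ) N) := by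
  rw [mat, sML, List.map_ofFn, lst, List.forall₂_iff_get]
  refine ⟨by simp, fun i h1 h2 => ?_⟩
  have p : 0 ≤ s τ (i + 1) - s τ i := (sub_pos.2 (h.sm τ hτ (Nat.lt_succ_self _))).le
  simp only [List.get_eq_getElem, List.getElem_ofFn, Function.comp]
  refine ⟨rfl, p, fun a b => ?_⟩
  show ∑ _i : Unit, √(s τ (i + 1) - s τ i) * (√1 * spin a) *
    (√(s τ (i + 1) - s τ i) * (√1 * spin b)) = (s τ (i + 1) - s τ i) * (spin a * spin b)
  simp only [Finset.univ_unique, Finset.sum_singleton, Real.sqrt_one, one_mul]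
  linear_combination (spin a * spin b) * Real.mul_self_sqrt p

theorem TT_take (z s : ℕ → ℝ) : ∀ {j N : ℕ}, j ≤ N → TT ((lst z s N).take j) = s j - s 0 := by
  intro j N hj
  induction j with
  | zero => simp [TT]
  | succ j ih =>
    have hl : j < (lst z s N).length := by simp [lst]; omega
    rw [List.take_succ_eq_append_getElem hl]
    have := ih (by omega)
    unfold TT at this ⊢
    rw [List.map_append, List.sum_append, this]
    simp [lst]

/-- node values as cascade expectations -/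
theorem NP.node (h : NP I s s') (z : ℕ → ℝ) {N j : ℕ} (hj : j ≤ N) {τ : ℝ} (hτ : τ ∈ I)
    (a b : ℕ) : (Et (lst z (s τ) N) (s τ j) fun x =>
      Dk 0 (lst z (s τ) N) (s τ j) x ^ a * Dk 1 (lst z (s τ) N) (s τ j) x ^ b) =
    node (fun _ => 1) (mat (sML z s s' N) τ) j (fun y =>
      Pf (fun _ => 1) ((mat (sML z s s' N) τ).drop j) y spin ^ a *
        Hb (fun _ => 1) ((mat (sML z s s' N) τ).drop j) y spin spin ^ b) 0 := by
  have := One15.node_G (h.rk z N hτ) (j := j) (by simpa [lst] using hj)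
    (G := fun u v => u ^ a * v ^ b) (by fun_prop) 0
  rw [TT_take z _ hj, h.zero τ hτ, sub_zero, zero_smul] at this
  rw [this]
  unfold Et Dk
  rw [Dn_zero, Dn_one]

theorem NP.Gam_pi2 (h : NP I s s') (z : ℕ → ℝ) {N j : ℕ} (hj : j ≤ N) {τ : ℝ} (hτ : τ ∈ I) :
    Gam (lst z (s τ) N) (s τ j) =
      pi2 (fun _ => 1) (mat (sML z s s' N) τ) j (fun a b => spin a * spin b) 0 := by
  have := One15.pi2_spin (h.rk z N hτ) (j := j) (by simpa [lst] using hj) 0
  rw [TT_take z _ hj, h.zero τ hτ, sub_zero, zero_smul] at this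
  rw [this]
  unfold Gam Et Dk
  rw [Dn_zero]

theorem TR.pow {Ω : Type} [Fintype Ω] {w : Ω → ℝ} (hw : Wt w) {M : List (Lv Ω)}
    {Φ : List (Lv Ω) → (Ω → ℝ) → ℝ} (H : TR w M Φ) : ∀ k : ℕ, TR w M fun L z => Φ L z ^ k
  | 0 => (TR.const hw M 1).congr fun _ _ _ => pow_zero _
  | k + 1 => ((TR.pow hw H k).mul hw H).congr fun _ _ _ => pow_succ _ _

theorem NP.c1_node (h : NP I s s') (z : ℕ → ℝ) {N j : ℕ} (hj : j ≤ N) (a b : ℕ) :
    C1 I fun τ => Et (lst z (s τ) N) (s τ j) fun x =>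
      Dk 0 (lst z (s τ) N) (s τ j) x ^ a * Dk 1 (lst z (s τ) N) (s τ j) x ^ b :=
  ((TR.node One15.w1 j (((TR.pow One15.w1 (TR.pf One15.w1 _ spin) a).mul One15.w1
    (TR.pow One15.w1 (TR.hb One15.w1 _ spin) b)))).c1 One15.w1 h.op (h.ok z N) 0).congr h.op
    fun _ hτ => h.node z hj hτ a b

theorem NP.c1_Gam (h : NP I s s') (z : ℕ → ℝ) {N j : ℕ} (hj : j ≤ N) :
    C1 I fun τ => Gam (lst z (s τ) N) (s τ j) := by
  simpa [Gam] using h.c1_node z hj 2 0

theorem NP.c1_GG (h : NP I s s') (z : ℕ → ℝ) {N j : ℕ} (hj : j ≤ N) :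
    C1 I fun τ => GG (lst z (s τ) N) (s τ j) := by
  simpa [GG] using h.c1_node z hj 0 2


theorem NP.c1_chi (h : NP I s s') (z : ℕ → ℝ) (N : ℕ) : C1 I fun τ => chi (lst z (s τ) N) := by
  refine (h.c1_node z (Nat.zero_le N) 0 1).congr h.op fun τ hτ => ?_
  rw [h.zero τ hτ]
  unfold Et chi
  rw [One15.EX_zero _ (One15.nn_of (h.rk z N hτ))]
  simp



theorem dcov_sML (z : ℕ → ℝ) (s s' : ℝ → ℕ → ℝ) (τ : ℝ) (a b : Bool) {j N : ℕ} (hj : j ≤ N) :
    dcov (sML z s s' N) τ j a b = (s' τ j - s' τ 0) * (spin a * spin b) := by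
  induction j with
  | zero => simp [dcov]
  | succ j ih =>
    have hl : j < (sML z s s' N).length := by simp [sML]; omega
    have := ih (by omega)
    unfold dcov at this ⊢
    rw [List.take_succ_eq_append_getElem hl, List.map_append, List.sum_append, this]
    simp only [sML, List.getElem_ofFn, List.map_cons, List.map_nil, List.sum_cons, List.sum_nil,
      (rk1_sl spin (p := (z j, 1)) zero_le_one).2.2]
    ring

end Crest.Agent.T156.Pr

end
end

-- ▼ part T156/PrH_28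

/-!
Row 156, ALT, text (P) (helper28): derivatives of the node values along any `C¹` path of node
times; constants depend only on the time where the tilt reaches `1`.
-/

set_option autoImplicit false

namespace Crest.Agent.T156.Pr

open MeasureTheory Set Filter Topology
open Crest.Agent.R164.GC Crest.Agent.R339.B Crest.Agent.R339.Var Crest.Agent.T157.Pf
open Crest.Agent.T156.Pp Crest.Agent.T156.Ker Crest.Agent.T156.Cas.D28

noncomputable section

theorem tend_abs {f : ℝ → ℝ} {f' τ : ℝ} (hf : HasDerivAt f f' τ) :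
    Tendsto (fun u => |f u - f τ| / |u - τ|) (𝓝[≠] τ) (𝓝 |f'|) := by
  refine (hasDerivAt_iff_tendsto_slope.1 hf).abs.congr fun u => ?_
  rw [slope_def_field, abs_div]

theorem der_le {ι : Type} (S S' : Finset ι) {f : ℝ → ℝ} {g : ι → ℝ → ℝ} {f' τ K : ℝ} {g' d : ι → ℝ}
    (hf : HasDerivAt f f' τ) (hg : ∀ i, HasDerivAt (g i) (g' i) τ)
    (h : ∀ᶠ u in 𝓝 τ, |f u - f τ| ≤
      ∑ i ∈ S, d i * |g i u - g i τ| + K * (∑ i ∈ S', |g i u - g i τ|) ^ 2) :
    |f'| ≤ ∑ i ∈ S, d i * |g' i| := by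
  have t1 := tendsto_finsetSum S fun i _ => (tend_abs (hg i)).const_mul (d i)
  have t2 := tendsto_finsetSum S' fun i _ => tend_abs (hg i)
  have t3 : Tendsto (fun u => ∑ i ∈ S', |g i u - g i τ|) (𝓝[≠] τ) (𝓝 0) := by
    have := tendsto_finsetSum S' fun i _ =>
      (((hg i).continuousAt.tendsto.sub_const (g i τ)).abs).mono_left
        (nhdsWithin_le_nhds (s := {τ}ᶜ))
    simpa using this
  have t4 := t1.add ((t3.mul t2).const_mul K)
  rw [zero_mul, mul_zero, add_zero] at t4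
  refine le_of_tendsto_of_tendsto (tend_abs hf) t4 ?_
  filter_upwards [h.filter_mono nhdsWithin_le_nhds] with u hu
  refine (div_le_div_of_nonneg_right hu (abs_nonneg _)).trans (le_of_eq ?_)
  simp only [← Finset.sum_div, ← mul_div_assoc]
  ring

variable {I : Set ℝ} {s s' : ℝ → ℕ → ℝ} {z : ℕ → ℝ} {N : ℕ}

theorem NP.d0 (h : NP I s s') {τ : ℝ} (hτ : τ ∈ I) : s' τ 0 = 0 :=
  (h.der τ hτ 0).unique ((hasDerivAt_const τ (0:ℝ)).congr_of_eventuallyEq (by
    filter_upwards [h.op.mem_nhds hτ] with u hu using h.zero u hu))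

theorem NP.pair (h : NP I s s') (hz : Lab z N) {T1 : ℝ} (hT : ∀ τ ∈ I, Tp T1 (lst z (s τ) N))
    {τ : ℝ} (hτ : τ ∈ I) {k : ℕ} (hk : k ≤ N) : ∀ᶠ u in 𝓝 τ,
    Pair z N k T1 (∑ j ∈ Finset.range (N + 1), |s u j - s τ j|) (s τ) (s u) ∧
      s u N ≤ s τ N + 1 := by
  have c := fun j => (h.der τ hτ j).continuousAt
  have e1 : ∀ᶠ u in 𝓝 τ, ∀ j ∈ Finset.range k, s τ j < s u k ∧ s u j < s τ k :=
    (Finset.eventually_all _).2 fun j hj =>
      have a := h.sm τ hτ (Finset.mem_range.1 hj)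
      ((c k).eventually (lt_mem_nhds a)).and ((c j).eventually (gt_mem_nhds a))
  filter_upwards [h.op.mem_nhds hτ, e1, (c N).eventually (gt_mem_nhds (lt_add_one (s τ N)))]
    with u hu a b
  refine ⟨⟨hz, hk, h.zero τ hτ, h.zero u hu, h.sm τ hτ, h.sm u hu, hT τ hτ, hT u hu,
    fun j hj => Finset.single_le_sum (f := fun j => |s u j - s τ j|) (fun _ _ => abs_nonneg _)
      (Finset.mem_range.2 (Nat.lt_succ_of_le hj)), fun j hj => ?_⟩, b.le⟩
  obtain ⟨a1, a2⟩ := a j (Finset.mem_range.2 hj)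
  exact ⟨le_min (h.sm τ hτ hj).le a1.le, le_min a2.le (h.sm u hu hj).le⟩

theorem sum_sh (N : ℕ) (f : ℕ → ℝ) (d : ℕ → ℝ) : ∑ j ∈ Finset.range N, d j * f (j + 1) =
    ∑ j ∈ Finset.Ico 1 (N + 1), d (j - 1) * f j := by
  rw [Finset.sum_Ico_eq_sum_range]
  simp [add_comm]

/-- `∑ dm_j c_j |σ_j'|` -/
def Dw (z : ℕ → ℝ) (N : ℕ) (c σ : ℕ → ℝ) : ℝ :=
  ∑ j ∈ Finset.range N, dm z j * (c (j + 1) * |σ (j + 1)|)

theorem der_le' {f : ℝ → ℝ} {f' τ K C : ℝ} {c : ℕ → ℝ} (hf : HasDerivAt f f' τ)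
    (hg : ∀ j, HasDerivAt (fun u => s u j) (s' τ j) τ)
    (h : ∀ᶠ u in 𝓝 τ, |f u - f τ| ≤ C * Dw z N c (fun j => s u j - s τ j) +
      K * (∑ j ∈ Finset.range (N + 1), |s u j - s τ j|) ^ 2) : |f'| ≤ C * Dw z N c (s' τ) := by
  have e : ∀ σ : ℕ → ℝ, C * Dw z N c σ =
      ∑ j ∈ Finset.Ico 1 (N + 1), C * dm z (j - 1) * c j * |σ j| := fun σ => by
    rw [Dw, sum_sh N (fun j => c j * |σ j|), Finset.mul_sum]
    exact Finset.sum_congr rfl fun j _ => by ring
  simp only [e] at h ⊢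
  exact der_le _ _ hf hg h

/-- **derivatives of `Γ(σ_k)` and `G(σ_k)`** -/
theorem node_der (T : ℝ) : ∃ C : ℝ, 1 ≤ C ∧ ∀ (I : Set ℝ) (s s' : ℝ → ℕ → ℝ) (z : ℕ → ℝ) (N : ℕ)
    (T1 : ℝ), NP I s s' → Lab z N → (∀ τ ∈ I, Tp T1 (lst z (s τ) N)) → T1 ≤ T → ∀ τ ∈ I, ∀ k ≤ N,
    |deriv (fun u => Gam (lst z (s u) N) (s u k)) τ - GG (lst z (s τ) N) (s τ k) * s' τ k| ≤
      C * Dw z N (K1 (s τ) k) (s' τ) ∧
    |deriv (fun u => GG (lst z (s u) N) (s u k)) τ -
      Gl z (lst z (s τ) N) k (s τ k) * s' τ k| ≤ C * Dw z N (K2 (s τ) k) (s' τ) ∧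
    ∀ C0 η : ℝ, 0 ≤ C0 → 0 ≤ η → s τ k ≤ T1 →
      (∀ r, 0 ≤ r → r < s τ k → lvr 1 (lst z (s τ) N) r ≤ C0 * r + η) →
      |deriv (fun u => GG (lst z (s u) N) (s u k)) τ - deriv (fun u => GG (lst z (s u) N) (s u 0)) τ -
        Gl z (lst z (s τ) N) k (s τ k) * s' τ k - 2 * ∑ j ∈ Finset.range N, dm z j *
          ((if j + 1 < k then AA (lst z (s τ) N) (s τ (j + 1)) else 0) * s' τ (j + 1))| ≤
      C * ((1 + C0) * s τ k ^ 2 + η * s τ k) * Dw z N 1 (s' τ) := by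
  obtain ⟨C, c1, hC⟩ := pair_exp T
  refine ⟨C, c1, fun I s s' z N T1 h hz hT h1 τ hτ k hk => ?_⟩
  obtain ⟨K, -, hK⟩ := hC (s τ N + 1)
  have P := h.pair hz hT hτ hk
  have d := h.der τ hτ
  refine ⟨der_le' (K := K) (((h.c1_Gam z hk).der hτ).sub ((d k).const_mul _)) d ?_,
    der_le' (K := K) (((h.c1_GG z hk).der hτ).sub ((d k).const_mul _)) d ?_,
    fun C0 η c0 e0 a b => der_le' (K := K) (((((h.c1_GG z hk).der hτ).sub
      ((h.c1_GG z (Nat.zero_le N)).der hτ)).sub ((d k).const_mul _)).sub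
      ((HasDerivAt.fun_sum fun j _ => ((d (j + 1)).const_mul _).const_mul _).const_mul 2)) d ?_⟩
  · filter_upwards [P] with u hu
    refine le_trans (le_of_eq ?_) (hK _ _ _ _ _ _ _ hu.1 h1 (by linarith) hu.2).1
    congr 1
    simp only [Pi.sub_apply]
    ring
  · filter_upwards [P] with u hu
    refine le_trans (le_of_eq ?_) (hK _ _ _ _ _ _ _ hu.1 h1 (by linarith) hu.2).2.1
    congr 1
    simp only [Pi.sub_apply]
    ring
  · filter_upwards [P] with u hu
    refine (le_of_eq ?_).trans (((hK _ _ _ _ _ _ _ hu.1 h1 (by linarith) hu.2).2.2 C0 η c0 e0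
      a b).trans (le_of_eq ?_))
    · congr 1
      simp only [Pi.sub_apply, hu.1.s0, hu.1.u0, mul_sub, Finset.sum_sub_distrib]
      ring
    · simp [Dw]

theorem Tp_chi {T T1 : ℝ} {l : List (ℝ × ℝ)} (h : Tp T1 l) (hT : T1 ≤ T) :
    Real.exp (-T) ≤ chi l := by
  obtain ⟨u, o, tu, su, -⟩ := red h
  rw [su.chi]
  exact Sharp81.chi_ge o (tu.trans_le hT)

theorem NP.c1_bb (h : NP I s s') (hz : Lab z N) {eps : ℝ → ℝ} (he : C1 I eps) :
    C1 I fun τ => bb (lst z (s τ) N) (eps τ) := by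
  have c := h.c1_chi z N
  refine (((C1.const I 1).sub he).div (c.mul c) fun τ hτ => ?_).congr h.op fun τ _ => by
    unfold bb; rw [sq]
  have o := (areaS z (s τ) N hz (h.zero τ hτ) (h.sm τ hτ)).1.1
  have := (Real.exp_pos _).trans_le (Sharp81.chi_ge o le_rfl)
  positivity

theorem NP.c1_ee (h : NP I s s') (hz : Lab z N) {eps : ℝ → ℝ} (he : C1 I eps) {k : ℕ}
    (hk : k ≤ N) : C1 I fun τ => ee (lst z (s τ) N) (eps τ) (s τ k) :=
  (C1.const I 1).sub ((h.c1_bb hz he).mul (h.c1_GG z hk))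


/-- **derivatives of `b` and of `e(σ_k)`** -/
theorem ee_der (T : ℝ) : ∃ C : ℝ, 1 ≤ C ∧ ∀ (I : Set ℝ) (s s' : ℝ → ℕ → ℝ) (z : ℕ → ℝ) (N : ℕ)
    (T1 : ℝ) (eps : ℝ → ℝ), NP I s s' → Lab z N → (∀ τ ∈ I, Tp T1 (lst z (s τ) N)) → T1 ≤ T →
    C1 I eps → ∀ τ ∈ I, 0 ≤ eps τ → eps τ ≤ 1 / 4 →
    (3 / 4 ≤ bb (lst z (s τ) N) (eps τ) ∧ bb (lst z (s τ) N) (eps τ) ≤ C ∧
      |deriv (fun u => bb (lst z (s u) N) (eps u)) τ| ≤ C * (Dw z N 1 (s' τ) + |deriv eps τ|)) ∧
    ∀ k ≤ N,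
      deriv (fun u => ee (lst z (s u) N) (eps u) (s u k)) τ =
        -deriv (fun u => bb (lst z (s u) N) (eps u)) τ * GG (lst z (s τ) N) (s τ k) -
          bb (lst z (s τ) N) (eps τ) * deriv (fun u => GG (lst z (s u) N) (s u k)) τ ∧
      ∀ C0 η : ℝ, 0 ≤ C0 → 0 ≤ η → s τ k ≤ T1 →
      (∀ r, 0 ≤ r → r < s τ k → lvr 1 (lst z (s τ) N) r ≤ C0 * r + η) →
      |deriv (fun u => ee (lst z (s u) N) (eps u) (s u k)) τ - deriv eps τ +
        bb (lst z (s τ) N) (eps τ) * (Gl z (lst z (s τ) N) k (s τ k) * s' τ k +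
          2 * ∑ j ∈ Finset.range N, dm z j *
          ((if j + 1 < k then AA (lst z (s τ) N) (s τ (j + 1)) else 0) * s' τ (j + 1)))| ≤
      C * (Dw z N 1 (s' τ) + |deriv eps τ|) * ((1 + C0) * s τ k ^ 2 + η * s τ k +
        |ee (lst z (s τ) N) (eps τ) (s τ k) - eps τ|) := by
  obtain ⟨C, c1, hC⟩ := node_der T
  set X := Real.exp |T| ^ 2 with hX
  have X1 : 1 ≤ X := one_le_pow₀ (Real.one_le_exp (abs_nonneg T))
  have X2 : 1 ≤ X * X * C := one_le_mul_of_one_le_of_one_le (by nlinarith) c1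
  refine ⟨2 * (X * X * C), by linarith, fun I s s' z N T1 eps h hz hT h1 he τ hτ e0 e1 => ?_⟩
  have hN := hC I s s' z N T1 h hz hT h1 τ hτ
  have g0 : ∀ u ∈ I, GG (lst z (s u) N) (s u 0) = chi (lst z (s u) N) ^ 2 ∧
      0 < chi (lst z (s u) N) ∧ chi (lst z (s u) N) ≤ 1 := fun u hu => by
    obtain ⟨C0, -, hO⟩ := Ode3.odeS (TT (lst z (s u) N))
    obtain ⟨-, -, ⟨-, a, -, -, -, b⟩, -⟩ :=
      hO _ (areaS z (s u) N hz (h.zero u hu) (h.sm u hu)).1.1 le_rfl
    rw [h.zero u hu]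
    exact ⟨a, b⟩
  have db := (h.c1_bb hz he).der hτ
  have dg := fun k (hk : k ≤ N) => (h.c1_GG z hk).der hτ
  have bm : ∀ u ∈ I, bb (lst z (s u) N) (eps u) * GG (lst z (s u) N) (s u 0) = 1 - eps u :=
    fun u hu => by rw [(g0 u hu).1]; exact bb_mul (g0 u hu).2.1 _
  have id0 := (db.mul (dg 0 (Nat.zero_le N))).unique
    (((he.der hτ).const_sub 1).congr_of_eventuallyEq (by
      filter_upwards [h.op.mem_nhds hτ] with u hu using bm u hu))
  have b0 := bm τ hτ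
  have a0 := (hN 0 (Nat.zero_le N)).2.1
  rw [h.d0 hτ, mul_zero, sub_zero, show K2 (s τ) 0 = 1 from funext fun j => by simp [K2]] at a0
  have x1 : 1 ≤ X * GG (lst z (s τ) N) (s τ 0) := by
    rw [(g0 τ hτ).1, hX, ← mul_pow]
    refine one_le_pow₀ ?_
    have := mul_le_mul_of_nonneg_left (Tp_chi (hT τ hτ) (h1.trans (le_abs_self T)))
      (Real.exp_pos |T|).le
    rwa [← Real.exp_add, add_neg_cancel, Real.exp_zero] at this
  have x2 : GG (lst z (s τ) N) (s τ 0) ≤ 1 := by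
    rw [(g0 τ hτ).1]; exact pow_le_one₀ (g0 τ hτ).2.1.le (g0 τ hτ).2.2
  have x3 : 0 ≤ bb (lst z (s τ) N) (eps τ) := div_nonneg (by linarith) (sq_nonneg _)
  have D0 : 0 ≤ Dw z N 1 (s' τ) := Finset.sum_nonneg fun j _ =>
    mul_nonneg (hz.dm_nn j) (mul_nonneg zero_le_one (abs_nonneg _))
  set b := bb (lst z (s τ) N) (eps τ)
  set b' := deriv (fun u => bb (lst z (s u) N) (eps u)) τ
  set g := GG (lst z (s τ) N) (s τ 0)
  set g' := deriv (fun u => GG (lst z (s u) N) (s u 0)) τ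
  set D := Dw z N 1 (s' τ)
  set ε' := deriv eps τ
  have y1 : 3 / 4 ≤ b := by nlinarith only [b0, x2, x3, e1]
  have y2 : b ≤ X := by nlinarith only [b0, x1, x3, e0, X1]
  have a1 := abs_nonneg ε'
  have y3 : |b'| ≤ X * X * C * (D + |ε'|) := by
    have g1 : 0 ≤ g := by nlinarith only [x1, X1]
    have q1 : |b'| * g ≤ |ε'| + X * (C * D) := by
      rw [← abs_of_nonneg g1, ← abs_mul, show b' * g = -ε' - b * g' by linarith only [id0]]
      refine (abs_sub _ _).trans ?_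
      rw [abs_neg, abs_mul, abs_of_nonneg x3]
      exact add_le_add le_rfl (mul_le_mul y2 a0 (abs_nonneg _) (by linarith only [X1]))
    have q2 := mul_le_mul_of_nonneg_left q1 (show 0 ≤ X by linarith only [X1])
    have q3 := mul_le_mul_of_nonneg_left x1 (abs_nonneg b')
    have q4 : X ≤ X * X * C := by nlinarith only [X1, c1, mul_nonneg (sub_nonneg.2 X1) (sub_nonneg.2 c1)]
    have q5 := mul_le_mul_of_nonneg_right q4 a1
    linarith only [q2, q3, q5]
  have p0 : 0 ≤ X * X * C * (D + |ε'|) := by positivity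
  refine ⟨⟨y1, by nlinarith only [y2, X1, c1, mul_nonneg (sub_nonneg.2 X1) (sub_nonneg.2 c1)],
    by linarith only [y3, p0]⟩, fun k hk => ?_⟩
  have de : deriv (fun u => ee (lst z (s u) N) (eps u) (s u k)) τ =
      -b' * GG (lst z (s τ) N) (s τ k) - b * deriv (fun u => GG (lst z (s u) N) (s u k)) τ :=
    ((db.mul (dg k hk)).const_sub 1).deriv.trans (by ring)
  refine ⟨de, fun C0 η c0 η0 a c => ?_⟩
  have q := (hN k hk).2.2 C0 η c0 η0 a c
  have sk : 0 ≤ s τ k := h.zero τ hτ ▸ (h.sm τ hτ).monotone (Nat.zero_le k)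
  have w1 : ee (lst z (s τ) N) (eps τ) (s τ k) - eps τ = -b * (GG (lst z (s τ) N) (s τ k) - g) := by
    unfold ee; linear_combination -b0
  have w2 : |GG (lst z (s τ) N) (s τ k) - g| ≤ 2 * |ee (lst z (s τ) N) (eps τ) (s τ k) - eps τ| := by
    rw [w1, abs_mul, abs_neg, abs_of_nonneg x3]
    nlinarith only [y1, abs_nonneg (GG (lst z (s τ) N) (s τ k) - g)]
  have w3 := mul_le_mul y3 w2 (abs_nonneg _) p0
  have w4 := mul_le_mul y2 q (abs_nonneg _) (by linarith only [X1])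
  rw [← abs_mul] at w3
  rw [← abs_of_nonneg x3, ← abs_mul] at w4
  set R := (1 + C0) * s τ k ^ 2 + η * s τ k
  have R0 : 0 ≤ R := by positivity
  have w5 : X * (C * R * D) ≤ 2 * (X * X * C) * (D + |ε'|) * R := by
    have : X * C * D ≤ 2 * (X * X * C) * (D + |ε'|) :=
      mul_le_mul (by nlinarith only [X1, c1, mul_nonneg (sub_nonneg.2 X1) (sub_nonneg.2 c1)])
        (by linarith only [a1]) D0 (by positivity)
    have := mul_le_mul_of_nonneg_right this R0
    linarith only [this]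
  have w6 := abs_le.1 (w4.trans w5)
  have w7 := abs_le.1 w3
  rw [de, abs_le]
  constructor <;> linarith only [w6.1, w6.2, w7.1, w7.2, id0, congrArg (b * ·) id0]

end

end Crest.Agent.T156.Pr
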