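import Crest.Agent.T156.AltDef_88

/-!
# Row 156, ALT: calculus of `sm`, `om`, `zz`, `rs` (helper13)
-/

set_option autoImplicit false

noncomputable section

namespace Crest.Agent.T156.Alt.Rs13

open Real Set

/-! ### the step -/

/-- clamp to `[0, 1]` -/
def cl (u : ℝ) : ℝ := max 0 (min u 1)

theorem cl_nn (u : ℝ) : 0 ≤ cl u := le_max_left _ _
theorem cl_le (u : ℝ) : cl u ≤ 1 := max_le zero_le_one (min_le_right _ _)
theorem cl_mono : Monotone cl := fun _ _ h => max_le_max le_rfl (min_le_min h le_rfl)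
theorem cl_sub {u u' : ℝ} (h : u ≤ u') : cl u' - cl u ≤ u' - u := by
  unfold cl
  rcases le_total u 1 with a | a <;> rcases le_total u' 1 with b | b <;>
  rcases le_total 0 u with c | c <;> rcases le_total 0 u' with d | d <;>
  simp only [min_def, max_def] <;> split_ifs <;> linarith

theorem sm_eq (u : ℝ) : sm u = 3 * cl u ^ 2 - 2 * cl u ^ 3 := rfl

theorem sm_zero {u : ℝ} (h : u ≤ 0) : sm u = 0 := by
  have : cl u = 0 := max_eq_left ((min_le_left _ _).trans h)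
  rw [sm_eq, this]; ring

theorem sm_one {u : ℝ} (h : 1 ≤ u) : sm u = 1 := by
  have : cl u = 1 := by unfold cl; rw [min_eq_right h]; exact max_eq_right zero_le_one
  rw [sm_eq, this]; ring


theorem sm_nn (u : ℝ) : 0 ≤ sm u := by
  have a := cl_nn u
  have b := cl_le u
  rw [sm_eq]; nlinarith [mul_nonneg (sq_nonneg (cl u)) (sub_nonneg.2 b), sq_nonneg (cl u)]

theorem sm_le (u : ℝ) : sm u ≤ 1 := by
  have a := cl_nn u
  have b := cl_le u
  rw [sm_eq]; nlinarith [mul_nonneg (sq_nonneg (1 - cl u)) a, sq_nonneg (1 - cl u)]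

/-- increments: monotone, slope at most `3 / 2` -/
theorem sm_sub {u u' : ℝ} (h : u ≤ u') : 0 ≤ sm u' - sm u ∧ sm u' - sm u ≤ 3 / 2 * (u' - u) := by
  have a := cl_nn u
  have b := cl_le u'
  have c := cl_mono h
  have d := cl_sub h
  set s := cl u
  set t := cl u'
  have e : sm u' - sm u = (t - s) * (3 * (t + s) - 2 * (t ^ 2 + t * s + s ^ 2)) := by
    rw [sm_eq, sm_eq]; ring
  have f0 : 0 ≤ 3 * (t + s) - 2 * (t ^ 2 + t * s + s ^ 2) := by nlinarith
  have f1 : 3 * (t + s) - 2 * (t ^ 2 + t * s + s ^ 2) ≤ 3 / 2 := by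
    nlinarith [sq_nonneg (t + s - 1), sq_nonneg (t - s)]
  rw [e]
  refine ⟨mul_nonneg (by linarith) f0, ?_⟩
  nlinarith [mul_le_mul_of_nonneg_left f1 (sub_nonneg.2 c)]








/-! ### the bump `t (1 - sm (t / y - 1))` -/

/-- shape of the displacement -/
def bu (y t : ℝ) : ℝ := t * (1 - sm (t / y - 1))

theorem bu_nn {y t : ℝ} (ht : 0 ≤ t) : 0 ≤ bu y t := mul_nonneg ht (sub_nonneg.2 (sm_le _))
theorem bu_hi {y t : ℝ} (hy : 0 < y) (h : 2 * y ≤ t) : bu y t = 0 := by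
  unfold bu; rw [sm_one (by rw [le_sub_iff_add_le, le_div_iff₀ hy]; linarith)]; ring

theorem bu_sub {y t t' : ℝ} (hy : 0 < y) (ht : 0 ≤ t) (h : t ≤ t') :
    -(3 * (t' - t)) ≤ bu y t' - bu y t ∧ bu y t' - bu y t ≤ t' - t := by
  have a := sm_sub (u := t / y - 1) (u' := t' / y - 1)
    (by linarith [div_le_div_of_nonneg_right h hy.le])
  have b := sm_le (t' / y - 1)
  have c := sm_nn (t' / y - 1)
  have e : bu y t' - bu y t = (t' - t) * (1 - sm (t' / y - 1)) -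
      t * (sm (t' / y - 1) - sm (t / y - 1)) := by unfold bu; ring
  constructor
  · rcases le_total (2 * y) t with d | d
    · rw [bu_hi hy d, bu_hi hy (d.trans h)]; linarith
    · have f : t * (sm (t' / y - 1) - sm (t / y - 1)) ≤ 2 * y * (3 / 2 * (t' / y - 1 - (t / y - 1))) :=
        mul_le_mul d a.2 a.1 (by linarith)
      have g : 2 * y * (3 / 2 * (t' / y - 1 - (t / y - 1))) = 3 * (t' - t) := by field_simp; ring
      rw [e]; nlinarith [mul_nonneg (sub_nonneg.2 h) (sub_nonneg.2 b)]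
  · rw [e]; nlinarith [mul_nonneg ht a.1, mul_nonneg (sub_nonneg.2 h) c]




theorem om_eq (p : Pm) (τ y : ℝ) (j : ℕ) : p.om τ y j = τ * p.κ * bu y (j * p.v) := by
  unfold Pm.om bu; ring

/-- **the displacement is admissible** -/
theorem om_Om (p : Pm) {τ y : ℝ} (hv : 0 < p.v) (hκ : 0 ≤ p.κ) (h0 : 0 ≤ τ) (h1 : τ ≤ 1)
    (hy : 0 < y) : Pr.Om p.v (2 * y) (4 * p.κ) (p.om τ y) := by
  have hτ : 0 ≤ τ * p.κ := mul_nonneg h0 hκ
  refine ⟨by simp [om_eq, bu], fun j => ?_, fun j h => ?_, fun j => ?_⟩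
  · rw [om_eq]; exact mul_nonneg hτ (bu_nn (by positivity))
  · rw [om_eq, bu_hi hy h, mul_zero]
  · have a := bu_sub (y := y) (t := j * p.v) (t' := ((j + 1 : ℕ) : ℝ) * p.v) hy (by positivity)
      (by push_cast; nlinarith)
    have e : ((j + 1 : ℕ) : ℝ) * p.v - j * p.v = p.v := by push_cast; ring
    rw [e] at a
    rw [om_eq, om_eq, ← mul_sub, abs_mul, abs_of_nonneg hτ]
    have b : |bu y (((j + 1 : ℕ) : ℝ) * p.v) - bu y (j * p.v)| ≤ 4 * p.v :=
      abs_le.2 ⟨by linarith [a.1], by linarith [a.2]⟩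
    have c : τ * p.κ ≤ p.κ := by nlinarith
    nlinarith [mul_le_mul c b (abs_nonneg _) hκ]


/-! ### labels -/

section zz
variable {p : Pm} {b0 c C η : ℝ}




theorem I_le (hv : 0 < p.v) (hx : p.xs ≤ 1) (hI : 0 < p.I) : p.xs + (p.I + 1) * p.v ≤ 1 := by
  have a : (⌊(1 - p.xs) / p.v⌋₊ : ℝ) ≤ (1 - p.xs) / p.v :=
    Nat.floor_le (div_nonneg (by linarith) hv.le)
  have b : ⌊(1 - p.xs) / p.v⌋₊ = p.I + 1 := by unfold Pm.I at hI ⊢; omega
  rw [b, le_div_iff₀ hv] at a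
  push_cast at a
  linarith










end zz

/-! ### times -/




theorem H_lo (p : Pm) (τ y : ℝ) {k : ℕ} (h : k ≤ p.j0) : p.H τ y k = 0 := by simp [Pm.H, h]

theorem H_hi (p : Pm) (τ y : ℝ) {k : ℕ} (h : p.j0 < k) : p.H τ y k =
    p.ss τ y k - p.b τ y * p.q τ y k + p.μ τ y * p.rs τ y (p.zz (k - 1)) := by
  simp [Pm.H, not_le.2 h]


/-! ### static marks -/

/-- lower part -/
def r1 (w lg xs x : ℝ) : ℝ :=
  if x ≤ xs then -(w ^ ((2 : ℝ) / 3) * sm (1 - (xs - x) / (lg * w ^ ((2 : ℝ) / 3))))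
    else -(w / √(x - xs + w ^ ((2 : ℝ) / 3)))

/-- upper part -/
def r2 (w v x : ℝ) : ℝ := log ((1 + w / √(1 - max x (1 / 2) + v)) / (1 + w / √(1 / 2 + v)))


theorem div_sqrt_W {w : ℝ} (hw : 0 < w) : w / √(w ^ ((2 : ℝ) / 3)) = w ^ ((2 : ℝ) / 3) := by
  rw [Real.sqrt_eq_rpow, ← Real.rpow_mul hw.le, div_eq_iff (by positivity), ← Real.rpow_add hw]
  norm_num

/-- increments of `w / √u` -/
theorem inv_sqrt_sub {w u u' : ℝ} (hw : 0 ≤ w) (hu : 0 < u) (h : u ≤ u') :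
    w * (u' - u) / (2 * (u' * √u')) ≤ w / √u - w / √u' ∧
      w / √u - w / √u' ≤ w * (u' - u) / (2 * (u * √u)) := by
  have hu' : 0 < u' := hu.trans_le h
  obtain ⟨s, hs, rfl⟩ : ∃ s : ℝ, 0 < s ∧ u = s ^ 2 := ⟨√u, sqrt_pos.2 hu, (sq_sqrt hu.le).symm⟩
  obtain ⟨t, ht, rfl⟩ : ∃ t : ℝ, 0 < t ∧ u' = t ^ 2 := ⟨√u', sqrt_pos.2 hu', (sq_sqrt hu'.le).symm⟩
  have hst : s ≤ t := by nlinarith
  rw [sqrt_sq hs.le, sqrt_sq ht.le]
  have e : w / s - w / t = w * (t - s) / (s * t) := by field_simp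
  rw [e]
  have k : 0 ≤ w * (t - s) := mul_nonneg hw (sub_nonneg.2 hst)
  constructor
  · rw [div_le_div_iff₀ (by positivity) (by positivity)]
    have : (t + s) * (s * t) ≤ 2 * (t ^ 2 * t) := by
      nlinarith [mul_pos hs ht, mul_le_mul_of_nonneg_left hst ht.le,
        mul_nonneg (mul_pos hs ht).le (sub_nonneg.2 hst), mul_nonneg (mul_pos ht ht).le (sub_nonneg.2 hst)]
    nlinarith [mul_le_mul_of_nonneg_left this k]
  · rw [div_le_div_iff₀ (by positivity) (by positivity)]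
    have : 2 * (s ^ 2 * s) ≤ (t + s) * (s * t) := by
      nlinarith [mul_pos hs ht, mul_le_mul_of_nonneg_left hst hs.le,
        mul_nonneg (mul_pos hs ht).le (sub_nonneg.2 hst), mul_nonneg (mul_pos hs hs).le (sub_nonneg.2 hst)]
    nlinarith [mul_le_mul_of_nonneg_left this k]

section r
variable {w lg xs v x x' : ℝ}

theorem r1_lo (h : x ≤ xs) :
    r1 w lg xs x = -(w ^ ((2 : ℝ) / 3) * sm (1 - (xs - x) / (lg * w ^ ((2 : ℝ) / 3)))) := by
  simp [r1, h]

theorem r1_hi (hw : 0 < w) (h : xs ≤ x) : r1 w lg xs x = -(w / √(x - xs + w ^ ((2 : ℝ) / 3))) := by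
  rcases h.eq_or_lt with a | a
  · rw [r1_lo a.ge, ← a, sub_self, zero_div, sub_zero, sm_one le_rfl, zero_add, div_sqrt_W hw, mul_one]
  · simp [r1, not_le.2 a]

theorem r1_xs (hw : 0 < w) : r1 w lg xs xs = -w ^ ((2 : ℝ) / 3) := by
  rw [r1_hi hw le_rfl, sub_self, zero_add, div_sqrt_W hw]

theorem r1_zero (hw : 0 < w) (hl : 0 < lg) (h : x + lg * w ^ ((2 : ℝ) / 3) ≤ xs) :
    r1 w lg xs x = 0 := by
  have a : 0 < lg * w ^ ((2 : ℝ) / 3) := by positivity
  rw [r1_lo (by linarith), sm_zero, mul_zero, neg_zero]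
  rw [sub_nonpos, le_div_iff₀ a]; linarith

/-- below `xs`: decreasing with slope at most `3 / (2 lg)` -/
theorem r1_sub_lo (hw : 0 < w) (hl : 0 < lg) (h : x ≤ x') (h' : x' ≤ xs) :
    -(3 / (2 * lg) * (x' - x)) ≤ r1 w lg xs x' - r1 w lg xs x ∧ r1 w lg xs x' - r1 w lg xs x ≤ 0 := by
  have hW : 0 < w ^ ((2 : ℝ) / 3) := by positivity
  set W := w ^ ((2 : ℝ) / 3) with hWd
  have a := sm_sub (u := 1 - (xs - x) / (lg * W)) (u' := 1 - (xs - x') / (lg * W))
    (by linarith [div_le_div_of_nonneg_right (show xs - x' ≤ xs - x by linarith) (mul_pos hl hW).le])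
  rw [r1_lo h', r1_lo (h.trans h'), ← hWd]
  have e : W * (3 / 2 * (1 - (xs - x') / (lg * W) - (1 - (xs - x) / (lg * W)))) =
      3 / (2 * lg) * (x' - x) := by field_simp; ring
  constructor
  · nlinarith [mul_le_mul_of_nonneg_left a.2 hW.le]
  · nlinarith [mul_nonneg hW.le a.1]

/-- above `xs`: increasing, two-sided increments -/
theorem r1_sub_hi (hw : 0 < w) (h : xs ≤ x) (h' : x ≤ x') :
    w * (x' - x) / (2 * ((x' - xs + w ^ ((2 : ℝ) / 3)) * √(x' - xs + w ^ ((2 : ℝ) / 3)))) ≤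
      r1 w lg xs x' - r1 w lg xs x ∧
    r1 w lg xs x' - r1 w lg xs x ≤
      w * (x' - x) / (2 * ((x - xs + w ^ ((2 : ℝ) / 3)) * √(x - xs + w ^ ((2 : ℝ) / 3)))) := by
  have hW : 0 < w ^ ((2 : ℝ) / 3) := by positivity
  have a := inv_sqrt_sub (w := w) (u := x - xs + w ^ ((2 : ℝ) / 3)) (u' := x' - xs + w ^ ((2 : ℝ) / 3))
    hw.le (by linarith) (by linarith)
  have e : x' - xs + w ^ ((2 : ℝ) / 3) - (x - xs + w ^ ((2 : ℝ) / 3)) = x' - x := by ring
  rw [e] at a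
  rw [r1_hi hw h, r1_hi hw (h.trans h')]
  constructor <;> linarith [a.1, a.2]

theorem r1_lt (hw : 0 < w) (h : xs ≤ x) (h' : x < x') : r1 w lg xs x < r1 w lg xs x' := by
  have hW : 0 < w ^ ((2 : ℝ) / 3) := by positivity
  have a := (r1_sub_hi (lg := lg) hw h h'.le).1
  have u : 0 < x' - xs + w ^ ((2 : ℝ) / 3) := by linarith
  have b : 0 < w * (x' - x) / (2 * ((x' - xs + w ^ ((2 : ℝ) / 3)) * √(x' - xs + w ^ ((2 : ℝ) / 3)))) :=
    div_pos (mul_pos hw (sub_pos.2 h')) (by have := sqrt_pos.2 u; positivity)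
  linarith

theorem r1_bd (hw : 0 < w) (x : ℝ) : -w ^ ((2 : ℝ) / 3) ≤ r1 w lg xs x ∧ r1 w lg xs x ≤ 0 := by
  have hW : 0 < w ^ ((2 : ℝ) / 3) := by positivity
  rcases le_total x xs with a | a
  · rw [r1_lo a]
    constructor
    · nlinarith [sm_le (1 - (xs - x) / (lg * w ^ ((2 : ℝ) / 3)))]
    · nlinarith [sm_nn (1 - (xs - x) / (lg * w ^ ((2 : ℝ) / 3)))]
  · constructor
    · rcases a.eq_or_lt with b | b
      · rw [← b, r1_xs hw]
      · rw [← r1_xs (lg := lg) (xs := xs) hw]; exact (r1_lt hw le_rfl b).le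
    · rw [r1_hi hw a]; exact neg_nonpos.2 (div_nonneg hw.le (sqrt_nonneg _))



theorem log_sub_bd {a b : ℝ} (ha : 0 ≤ a) (h : a ≤ b) :
    (b - a) / (1 + b) ≤ log (1 + b) - log (1 + a) ∧ log (1 + b) - log (1 + a) ≤ (b - a) / (1 + a) := by
  have hb : 0 ≤ b := ha.trans h
  constructor
  · have := log_le_sub_one_of_pos (x := (1 + a) / (1 + b)) (by positivity)
    rw [log_div (by positivity) (by positivity)] at this
    have e : (1 + a) / (1 + b) - 1 = -((b - a) / (1 + b)) := by field_simp; ring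
    linarith
  · have := log_le_sub_one_of_pos (x := (1 + b) / (1 + a)) (by positivity)
    rw [log_div (by positivity) (by positivity)] at this
    have e : (1 + b) / (1 + a) - 1 = (b - a) / (1 + a) := by field_simp; ring
    linarith





end r

section rs
variable {p : Pm} {τ y x x' : ℝ}









end rs

end Crest.Agent.T156.Alt.Rs13

end
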