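import Crest.Agent.T156.MdDer_77
import Crest.Agent.T156.AltFam_88
import Crest.Agent.T156.PrH_28
import Crest.Agent.T156.Rs_13
import Crest.Agent.T156.GrDef_62

-- ▼ part T156/FamDer_77
section

/-!
# Row 156, ALT route: a differentiable family of models is a stage (helper77)
-/

set_option autoImplicit false
set_option linter.unusedSectionVars false

noncomputable section

namespace Crest.Agent.T156.Alt.Md77

open MeasureTheory Real Set Filter Topology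
open Crest.Agent.T156.Cas.D28 (C1)

/-- a family with fixed tilts, continuous on `[t0, t1]`, differentiable inside -/
structure Path (M : ℝ → Md) (d' H' : ℝ → ℕ → ℝ) (t0 t1 : ℝ) : Prop where
  hN : ∀ t, (M t).N = (M t0).N
  hz : ∀ t, (M t).z = (M t0).z
  cd : ∀ k ≤ (M t0).N, ContinuousOn (fun t => (M t).d k) (Icc t0 t1)
  cH : ∀ k ≤ (M t0).N, ContinuousOn (fun t => (M t).H k) (Icc t0 t1)
  hd : ∀ t ∈ Ioo t0 t1, ∀ k ≤ (M t0).N, HasDerivAt (fun t => (M t).d k) (d' t k) t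
  hH : ∀ t ∈ Ioo t0 t1, ∀ k ≤ (M t0).N, HasDerivAt (fun t => (M t).H k) (H' t k) t
  h0 : ∀ t, H' t 0 = 0
  inc : ∀ t ∈ Ioo t0 t1, Inc (M t)

namespace Path

variable {M : ℝ → Md} {d' H' : ℝ → ℕ → ℝ} {t0 t1 : ℝ} {m : ℕ}

theorem cont (h : Path M d' H' t0 t1) (m : ℕ) (a : ℝ) :
    ContinuousOn (fun t => (M t).V m a) (Icc t0 t1) := V_cont h.hN h.hz h.cd h.cH

theorem der (h : Path M d' H' t0 t1) (hm : 0 < m) (a : ℝ) {t : ℝ} (ht : t ∈ Ioo t0 t1) :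
    HasDerivAt (fun t => (M t).V m a) (DV (M t) m a (d' t) (H' t)) t :=
  hasDerivWithinAt_univ.1 (V_der hm h.hN h.hz (fun k hk => (h.hd t ht k hk).hasDerivWithinAt)
    (fun k hk => (h.hH t ht k hk).hasDerivWithinAt) (h.h0 t) (h.inc t ht)
    (eventually_of_mem (nhdsWithin_le_nhds (Ioo_mem_nhds ht.1 ht.2)) h.inc))

/-- **integrated form**: a bound by the derivative of a clock `Φ` -/
theorem le_clock (h : Path M d' H' t0 t1) (hm : 0 < m) (a a' : ℝ) {Φ φ : ℝ → ℝ}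
    (hc : ContinuousOn Φ (Icc t0 t1)) (hΦ : ∀ t ∈ Ioo t0 t1, HasDerivAt Φ (φ t) t)
    (hb : ∀ t ∈ Ioo t0 t1, |DV (M t) m a' (d' t) (H' t) - DV (M t) m a (d' t) (H' t)| ≤ φ t)
    {t : ℝ} (ht : t ∈ Icc t0 t1) :
    |(M t).V m a' - (M t).V m a - ((M t0).V m a' - (M t0).V m a)| ≤ Φ t - Φ t0 := by
  rcases ht.1.eq_or_lt with rfl | h0
  · simp
  have s1 : Icc t0 t ⊆ Icc t0 t1 := Icc_subset_Icc_right ht.2
  have s2 : Ioo t0 t ⊆ Ioo t0 t1 := Ioo_subset_Ioo_right ht.2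
  have key : ∀ σ : ℝ, |σ| = 1 → σ * ((M t).V m a' - (M t).V m a - ((M t0).V m a' - (M t0).V m a)) ≤
      Φ t - Φ t0 := fun σ hσ => by
    obtain ⟨u, hu, e⟩ := exists_hasDerivAt_eq_slope
      (fun t => Φ t - σ * ((M t).V m a' - (M t).V m a)) _ h0
      ((hc.sub (continuousOn_const.mul ((h.cont m a').sub (h.cont m a)))).mono s1)
      fun u hu => (hΦ u (s2 hu)).fun_sub
        (((h.der hm a' (s2 hu)).fun_sub (h.der hm a (s2 hu))).const_mul σ)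
    have p : 0 ≤ φ u - σ * (DV (M u) m a' (d' u) (H' u) - DV (M u) m a (d' u) (H' u)) := by
      have := le_abs_self (σ * (DV (M u) m a' (d' u) (H' u) - DV (M u) m a (d' u) (H' u)))
      rw [abs_mul, hσ, one_mul] at this
      linarith [hb u (s2 hu)]
    rw [e, le_div_iff₀ (sub_pos.2 h0)] at p
    linarith
  have k1 := key 1 abs_one
  have k2 := key (-1) (by simp)
  exact abs_le.2 ⟨by linarith, by linarith⟩

/-- **a path is a stage** (clock form) -/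
theorem stage (h : Path M d' H' t0 t1) (h01 : t0 ≤ t1) {n : ℕ} (hn : 0 < n) {s γ C δ : ℝ}
    (hs : 0 ≤ s) (leg : ∀ t ∈ Icc t0 t1, (M t).Leg (s * (n : ℝ) ^ (γ - 1 / 6)) ∧ (M t).d 0 ≤ C)
    {Φ φ : ℝ → ℝ} (hc : ContinuousOn Φ (Icc t0 t1)) (hΦ : ∀ t ∈ Ioo t0 t1, HasDerivAt Φ (φ t) t)
    (hδ : ∀ t ∈ Icc t0 t1, Φ t - Φ t0 ≤ δ)
    (hb : ∀ a a' Q : ℝ, Win n s γ a a' → 0 ≤ Q → WT n (M '' Icc t0 t1) a a' Q → ∀ m, n ≤ m →
      m ≤ 2 * n → ∀ t ∈ Ioo t0 t1, |DV (M t) m a' (d' t) (H' t) - DV (M t) m a (d' t) (H' t)| ≤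
        φ t * ((n : ℝ) ^ ((1 : ℝ) / 6) * (Q * s ^ 2 + s ^ 5))) :
    Stage n s γ C δ (M t0) (M '' Icc t0 t1) := by
  refine ⟨⟨t0, ⟨le_rfl, h01⟩, rfl⟩, ?_, fun a a' Q hw hQ hW m m1 m2 => ?_⟩
  · rintro _ ⟨t, ht, rfl⟩
    exact leg t ht
  · rintro _ ⟨t, ht, rfl⟩
    have := h.le_clock (hn.trans_le m1) a a'
      (Φ := fun t => Φ t * ((n : ℝ) ^ ((1 : ℝ) / 6) * (Q * s ^ 2 + s ^ 5)))
      (hc.mul continuousOn_const) (fun t ht => (hΦ t ht).mul_const _) (hb a a' Q hw hQ hW m m1 m2) ht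
    rw [← sub_mul] at this
    rw [mul_assoc]
    exact this.trans (mul_le_mul_of_nonneg_right (hδ t ht) (by positivity))


/-- logarithmic bound: `t |∂| ≤ ε …` -/
theorem stage_log (h : Path M d' H' t0 t1) (h0 : 0 < t0) (h01 : t0 ≤ t1) {n : ℕ} (hn : 0 < n)
    {s γ C ε : ℝ} (hs : 0 ≤ s) (hε : 0 ≤ ε)
    (leg : ∀ t ∈ Icc t0 t1, (M t).Leg (s * (n : ℝ) ^ (γ - 1 / 6)) ∧ (M t).d 0 ≤ C)
    (hb : ∀ a a' Q : ℝ, Win n s γ a a' → 0 ≤ Q → WT n (M '' Icc t0 t1) a a' Q → ∀ m, n ≤ m →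
      m ≤ 2 * n → ∀ t ∈ Ioo t0 t1, t * |DV (M t) m a' (d' t) (H' t) - DV (M t) m a (d' t) (H' t)| ≤
        ε * ((n : ℝ) ^ ((1 : ℝ) / 6) * (Q * s ^ 2 + s ^ 5))) :
    Stage n s γ C (ε * log (t1 / t0)) (M t0) (M '' Icc t0 t1) :=
  h.stage h01 hn hs leg (Φ := fun t => ε * log t) (φ := fun t => ε * t⁻¹)
    (continuousOn_const.mul (continuousOn_log.mono fun t ht => (h0.trans_le ht.1).ne'))
    (fun t ht => (hasDerivAt_log (h0.trans ht.1).ne').const_mul ε)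
    (fun t ht => by
      rw [log_div (h0.trans_le h01).ne' h0.ne', ← mul_sub]
      exact mul_le_mul_of_nonneg_left
        (sub_le_sub_right (log_le_log (h0.trans_le ht.1) ht.2) _) hε)
    fun a a' Q hw hQ hW m m1 m2 t ht => by
      have := hb a a' Q hw hQ hW m m1 m2 t ht
      rw [mul_right_comm, ← div_eq_mul_inv, le_div_iff₀ (h0.trans ht.1), mul_comm]
      exact this

end Path

/-! ### families read off a `C¹` path of reference times -/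

section ref
variable {I : Set ℝ} {s s' : ℝ → ℕ → ℝ} {z₀ : ℕ → ℝ} {N₀ j : ℕ} {ν : ℕ → ℕ} {b : ℝ → ℝ}
  {g : ℕ → ℝ} {M : ℝ → Md} {t0 t1 : ℝ}

/-- reference overlap at the reference node `i` -/
def qr (z₀ : ℕ → ℝ) (N₀ : ℕ) (s : ℝ → ℕ → ℝ) (i : ℕ) (t : ℝ) : ℝ :=
  Pr.Gam (Pr.lst z₀ (s t) N₀) (s t i)

/-- velocity of the marks `s - b q + g` above `j` -/
def hr (z₀ : ℕ → ℝ) (N₀ j : ℕ) (ν : ℕ → ℕ) (s s' : ℝ → ℕ → ℝ) (b : ℝ → ℝ) (t : ℝ) (k : ℕ) : ℝ :=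
  if k ≤ j then 0 else s' t (ν k) - (deriv b t * qr z₀ N₀ s (ν k) t + b t * deriv (qr z₀ N₀ s (ν k)) t)

theorem path_ref (h : Pr.NP I s s') (hb : C1 I b) (hI : Icc t0 t1 ⊆ I)
    (hN : ∀ t, (M t).N = (M t0).N) (hz : ∀ t, (M t).z = (M t0).z) (hν : ∀ k ≤ (M t0).N, ν k ≤ N₀)
    (hd : ∀ t ∈ I, ∀ k ≤ (M t0).N, (M t).d k = b t)
    (hH : ∀ t ∈ I, ∀ k ≤ (M t0).N, (M t).H k =
      if k ≤ j then 0 else s t (ν k) - b t * qr z₀ N₀ s (ν k) t + g k)
    (inc : ∀ t ∈ Ioo t0 t1, Inc (M t)) :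
    Path M (fun t _ => deriv b t) (hr z₀ N₀ j ν s s' b) t0 t1 := by
  have dd : ∀ t ∈ I, ∀ k ≤ (M t0).N, HasDerivAt (fun t => (M t).d k) (deriv b t) t :=
    fun t ht k hk => (hb.der ht).congr_of_eventuallyEq (by
      filter_upwards [h.op.mem_nhds ht] with u hu using hd u hu k hk)
  have dH : ∀ t ∈ I, ∀ k ≤ (M t0).N,
      HasDerivAt (fun t => (M t).H k) (hr z₀ N₀ j ν s s' b t k) t := fun t ht k hk => by
    refine HasDerivAt.congr_of_eventuallyEq (f := fun t =>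
      if k ≤ j then 0 else s t (ν k) - b t * qr z₀ N₀ s (ν k) t + g k) ?_ (by
      filter_upwards [h.op.mem_nhds ht] with u hu using hH u hu k hk)
    unfold hr
    split_ifs
    · exact hasDerivAt_const _ _
    · exact ((h.der t ht _).fun_sub ((hb.der ht).fun_mul
        ((h.c1_Gam z₀ (hν k hk)).der ht))).add_const _
  exact ⟨hN, hz, fun k hk t ht => (dd t (hI ht) k hk).continuousAt.continuousWithinAt,
    fun k hk t ht => (dH t (hI ht) k hk).continuousAt.continuousWithinAt,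
    fun t ht => dd t (hI (Ioo_subset_Icc_self ht)), fun t ht => dH t (hI (Ioo_subset_Icc_self ht)),
    fun t => if_pos j.zero_le, inc⟩

/-- **the derivative around the reference**: only the root and the nodes above `j` appear, with
`b' q + H' = s' - b q'` -/
theorem DV_ref_sub (M : Md) (m : ℕ) (a a' t : ℝ) (hj : ∀ k, 1 ≤ k → k ≤ j → M.dz m a k = 0) :
    DV M m a' (fun _ => deriv b t) (hr z₀ N₀ j ν s s' b t) -
      DV M m a (fun _ => deriv b t) (hr z₀ N₀ j ν s s' b t) = -(m * (deriv b t / 4 *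
      (M.dz m a' 0 * M.E2 m a' (fun r => r ^ 2) 0 - M.dz m a 0 * M.E2 m a (fun r => r ^ 2) 0) +
      ∑ k ∈ Finset.Ioc j M.N, M.dz m a k * (deriv b t / 4 *
        (M.E2 m a' (fun r => (r - qr z₀ N₀ s (ν k) t) ^ 2) k -
          M.E2 m a (fun r => (r - qr z₀ N₀ s (ν k) t) ^ 2) k) +
        (s' t (ν k) - b t * deriv (qr z₀ N₀ s (ν k)) t) / 2 * (M.rb m a' k - M.rb m a k)))) := by
  rw [DV_sub M a a' (fun k => qr z₀ N₀ s (ν k) t) (if_pos j.zero_le)]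
  congr 3
  rw [Finset.range_eq_Ico, Finset.sum_Ico_add' (fun k => M.dz m a k * (deriv b t / 4 *
        (M.E2 m a' (fun r => (r - qr z₀ N₀ s (ν k) t) ^ 2) k -
          M.E2 m a (fun r => (r - qr z₀ N₀ s (ν k) t) ^ 2) k) +
        (deriv b t * qr z₀ N₀ s (ν k) t + hr z₀ N₀ j ν s s' b t k) / 2 *
          (M.rb m a' k - M.rb m a k))) 0 M.N 1]
  symm
  refine Finset.sum_subset_zero_on_sdiff (fun k hk => ?_) (fun k hk => ?_) fun k hk => ?_
  · simp only [Finset.mem_Ioc, Finset.mem_Ico] at *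
    omega
  · simp only [Finset.mem_sdiff, Finset.mem_Ioc, Finset.mem_Ico] at hk
    rw [hj k (by omega) (by omega), zero_mul]
  · rw [hr, if_neg (not_le.2 (Finset.mem_Ioc.1 hk).1)]
    ring

end ref

end Crest.Agent.T156.Alt.Md77

end
end

-- ▼ part T156/FamDerB_77

/-!
# Row 156, ALT route: `d/dt V` along `famO` for a `C¹` displacement (helper77)
-/

set_option autoImplicit false
set_option linter.unusedSectionVars false

noncomputable section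

namespace Crest.Agent.T156.Alt.Md77

open MeasureTheory Real Set Filter Topology
open Crest.Agent.T156.Cas.D28 (C1)

/-- a `C¹` family of displacements `om t` and of defects `eps t` on the open set `I` -/
structure OP (p : Pm) (I : Set ℝ) (om om' : ℝ → ℕ → ℝ) (eps : ℝ → ℝ) (Y : ℝ) : Prop where
  op : IsOpen I
  v0 : 0 < p.v
  lab : Pr.Lab p.z p.J
  hY : Y ≤ p.J * p.v
  hom : ∀ t ∈ I, Pr.Om p.v Y (1 / 2) (om t)
  der : ∀ t ∈ I, ∀ j, HasDerivAt (fun t => om t j) (om' t j) t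
  cont : ∀ j, ContinuousOn (fun t => om' t j) I
  ce : C1 I eps

/-- reference node of the profile node `k` (static plateau) -/
def nu (p : Pm) (P : Pl) (k : ℕ) : ℕ := if k ≤ p.J then k else p.J + (k - p.Jp P)

/-- the reference list and the W variance -/
abbrev lo (p : Pm) (om : ℕ → ℝ) : List (ℝ × ℝ) := Pr.lo p.z p.v om (p.J + p.Nr)
abbrev bo (p : Pm) (om : ℝ → ℕ → ℝ) (eps : ℝ → ℝ) (t : ℝ) : ℝ := Pr.bb (lo p (om t)) (eps t)

/-- velocity of the displacement at the profile node `k` -/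
def dom (p : Pm) (om' : ℝ → ℕ → ℝ) (t : ℝ) (k : ℕ) : ℝ := if k ≤ p.J then om' t k else 0

/-- `b' q + H' = - om' - b q'` -/
def ph (p : Pm) (P : Pl) (om om' : ℝ → ℕ → ℝ) (eps : ℝ → ℝ) (t : ℝ) (k : ℕ) : ℝ :=
  -dom p om' t k - bo p om eps t * deriv (fun t => p.qO P (om t) k) t

/-- `H'` -/
def dH (p : Pm) (P : Pl) (om om' : ℝ → ℕ → ℝ) (eps : ℝ → ℝ) (t : ℝ) (k : ℕ) : ℝ :=
  if k ≤ p.jf then 0 else ph p P om om' eps t k - deriv (bo p om eps) t * p.qO P (om t) k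

theorem nu_le (p : Pm) (P : Pl) {k : ℕ} (hk : k ≤ p.NP P) : nu p P k ≤ p.J + p.Nr := by
  unfold nu Pm.NP Pm.Jp at *
  split_ifs <;> omega

namespace OP

variable {p : Pm} {I : Set ℝ} {om om' : ℝ → ℕ → ℝ} {eps : ℝ → ℝ} {Y : ℝ} {P : Pl} {t : ℝ}
  (h : OP p I om om' eps Y)
include h

theorem np : Pr.NP I (fun t => Pr.sig p.v (om t)) fun t j => -om' t j :=
  ⟨h.op, fun t ht j => (h.der t ht j).const_sub _, fun j => (h.cont j).neg,
    fun t ht => (h.hom t ht).sig0, fun t ht => (h.hom t ht).sm h.v0 le_rfl⟩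

theorem labN : Pr.Lab p.z (p.J + p.Nr) := h.lab.up (Nat.le_add_right _ _)

theorem c1_b : C1 I (bo p om eps) := h.np.c1_bb h.labN h.ce

theorem hi {j : ℕ} (hj : p.J ≤ j) : Y ≤ j * p.v :=
  h.hY.trans (mul_le_mul_of_nonneg_right (by exact_mod_cast hj) h.v0.le)

theorem om'_hi (ht : t ∈ I) {j : ℕ} (hj : p.J ≤ j) : om' t j = 0 :=
  (h.der t ht j).unique ((hasDerivAt_const t (0 : ℝ)).congr_of_eventuallyEq (by
    filter_upwards [h.op.mem_nhds ht] with u hu using (h.hom u hu).supp j (h.hi hj)))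

theorem dom_eq (ht : t ∈ I) (P : Pl) (k : ℕ) : dom p om' t k = om' t (nu p P k) := by
  unfold dom nu
  split_ifs
  · rfl
  · exact (h.om'_hi ht (Nat.le_add_right _ _)).symm

theorem sO_eq (hg : P.γ = 0) (ht : t ∈ I) (k : ℕ) :
    p.sO P (om t) k = Pr.sig p.v (om t) (nu p P k) := by
  unfold Pm.sO nu
  split_ifs
  · rfl
  · rw [(h.hom t ht).sig_eq (h.hi (Nat.le_add_right _ _)), hg]
    push_cast
    ring

theorem qO_eq (hg : P.γ = 0) (ht : t ∈ I) (k : ℕ) : p.qO P (om t) k =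
    qr p.z (p.J + p.Nr) (fun t => Pr.sig p.v (om t)) (nu p P k) t := by
  rw [Pm.qO, Pm.lO, if_pos hg, h.sO_eq hg ht]
  rfl

theorem dq_eq (hg : P.γ = 0) (ht : t ∈ I) (k : ℕ) : deriv (fun t => p.qO P (om t) k) t =
    deriv (qr p.z (p.J + p.Nr) (fun t => Pr.sig p.v (om t)) (nu p P k)) t :=
  EventuallyEq.deriv_eq (by
    filter_upwards [h.op.mem_nhds ht] with u hu using h.qO_eq hg hu k)

theorem c1_q (hg : P.γ = 0) {k : ℕ} (hk : k ≤ p.NP P) : C1 I fun t => p.qO P (om t) k :=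
  (h.np.c1_Gam p.z (nu_le p P hk)).congr h.op fun _ ht => h.qO_eq hg ht k

theorem dH_eq (hg : P.γ = 0) (ht : t ∈ I) : dH p P om om' eps t =
    hr p.z (p.J + p.Nr) p.jf (nu p P) (fun t => Pr.sig p.v (om t)) (fun t j => -om' t j)
      (bo p om eps) t := by
  funext k
  rw [dH, hr, ph, h.dom_eq ht P, h.dq_eq hg ht, h.qO_eq hg ht]
  split_ifs
  · rfl
  · ring

/-- **the family is a path** (`M t` any models with the data of `famO P (om t) jf (b t) 0 g`) -/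
theorem path (hg : P.γ = 0) {t0 t1 : ℝ} (hI : Icc t0 t1 ⊆ I) {M : ℝ → Md} {g : ℕ → ℝ}
    (hg0 : ∀ k ≤ p.jf, g k = 0) (hN : ∀ t, (M t).N = p.NP P) (hz : ∀ t, (M t).z = (M t0).z)
    (hd : ∀ t k, (M t).d k = bo p om eps t)
    (hH : ∀ t k, (M t).H k = p.HO P (om t) (bo p om eps t) k + g k)
    (inc : ∀ t ∈ Ioo t0 t1, Inc (M t)) :
    Path M (fun t _ => deriv (bo p om eps) t) (dH p P om om' eps) t0 t1 := by
  have := path_ref (z₀ := p.z) (N₀ := p.J + p.Nr) (j := p.jf) (ν := nu p P)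
    (g := fun k => P.hs (p.xP P k) + g k) (M := M) h.np h.c1_b hI (fun t => by rw [hN, hN]) hz
    (fun k hk => nu_le p P (hN t0 ▸ hk)) (fun t _ k _ => hd t k) (fun t ht k _ => by
      rw [hH, Pm.HO, h.sO_eq hg ht, h.qO_eq hg ht]
      split_ifs with a
      · rw [hg0 k a, add_zero]
      · ring) inc
  exact ⟨this.hN, this.hz, this.cd, this.cH, this.hd, fun t ht => by
    rw [h.dH_eq hg (hI (Ioo_subset_Icc_self ht))]
    exact this.hH t ht, fun t => if_pos p.jf.zero_le, inc⟩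

theorem path_famO (hg : P.γ = 0) {t0 t1 : ℝ} (hI : Icc t0 t1 ⊆ I) {g : ℕ → ℝ}
    (hg0 : ∀ k ≤ p.jf, g k = 0)
    (inc : ∀ t ∈ Ioo t0 t1, Inc (p.famO P (om t) p.jf (bo p om eps t) 0 g)) :
    Path (fun t => p.famO P (om t) p.jf (bo p om eps t) 0 g) (fun t _ => deriv (bo p om eps) t)
      (dH p P om om' eps) t0 t1 :=
  h.path hg hI hg0 (fun _ => rfl) (fun _ => rfl) (fun t k => by simp [Pm.famO])
    (fun t k => by simp [Pm.famO]) inc

/-- **the derivative around the reference** -/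
theorem DV_sub (hg : P.γ = 0) (ht : t ∈ I) (M : Md) (m : ℕ) (a a' : ℝ)
    (hj : ∀ k, 1 ≤ k → k ≤ p.jf → M.dz m a k = 0) :
    DV M m a' (fun _ => deriv (bo p om eps) t) (dH p P om om' eps t) -
      DV M m a (fun _ => deriv (bo p om eps) t) (dH p P om om' eps t) =
      -(m * (deriv (bo p om eps) t / 4 *
      (M.dz m a' 0 * M.E2 m a' (fun r => r ^ 2) 0 - M.dz m a 0 * M.E2 m a (fun r => r ^ 2) 0) +
      ∑ k ∈ Finset.Ioc p.jf M.N, M.dz m a k * (deriv (bo p om eps) t / 4 *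
        (M.E2 m a' (fun r => (r - p.qO P (om t) k) ^ 2) k -
          M.E2 m a (fun r => (r - p.qO P (om t) k) ^ 2) k) +
        ph p P om om' eps t k / 2 * (M.rb m a' k - M.rb m a k)))) := by
  rw [h.dH_eq hg ht, DV_ref_sub M m a a' t hj]
  simp only [ph, h.dom_eq ht P, h.dq_eq hg ht, h.qO_eq hg ht]

theorem tp (ht : t ∈ I) : Ker.Tp (p.J * p.v) (lo p (om t)) :=
  (Ker.lo_same h.lab le_rfl (Nat.le_add_right _ _) (h.hom t ht) h.v0 le_rfl h.hY).2.1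

end OP

theorem Dw_neg (z : ℕ → ℝ) (N : ℕ) (c σ : ℕ → ℝ) : Pr.Dw z N c (fun j => -σ j) = Pr.Dw z N c σ := by
  simp only [Pr.Dw, abs_neg]

/-- **sizes of `b'` and of `φ`**: `φ_k = - e_k om'_k + O (Loff)` -/
theorem ph_bd (T : ℝ) : ∃ C : ℝ, 1 ≤ C ∧ ∀ (p : Pm) (I : Set ℝ) (om om' : ℝ → ℕ → ℝ) (eps : ℝ → ℝ)
    (Y : ℝ), OP p I om om' eps Y → p.J * p.v ≤ T → ∀ t ∈ I, 0 ≤ eps t → eps t ≤ 1 / 4 →
    (3 / 4 ≤ bo p om eps t ∧ bo p om eps t ≤ C ∧
      |deriv (bo p om eps) t| ≤ C * (Pr.Dw p.z (p.J + p.Nr) 1 (om' t) + |deriv eps t|)) ∧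
    ∀ P : Pl, P.γ = 0 → ∀ k ≤ p.NP P,
      |ph p P om om' eps t k + Pr.ee (lo p (om t)) (eps t) (p.sO P (om t) k) * dom p om' t k| ≤
        C * Pr.Dw p.z (p.J + p.Nr) (fun j => min (Pr.sig p.v (om t) j) (p.sO P (om t) k)) (om' t) := by
  obtain ⟨C, c1, hC⟩ := Pr.node_der T
  obtain ⟨D, d1, hD⟩ := Pr.ee_der T
  refine ⟨D * C, one_le_mul_of_one_le_of_one_le d1 c1, fun p I om om' eps Y h hT t ht e0 e1 => ?_⟩
  obtain ⟨⟨b1, b2, b3⟩, -⟩ := hD I _ _ p.z _ _ eps h.np h.labN (fun _ => h.tp) hT h.ce t ht e0 e1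
  rw [Dw_neg] at b3
  have hDC : D ≤ D * C := le_mul_of_one_le_right (by linarith) c1
  refine ⟨⟨b1, b2.trans hDC, b3.trans (mul_le_mul_of_nonneg_right hDC ?_)⟩, fun P hg k hk => ?_⟩
  · exact (mul_nonneg_iff_of_pos_left (by linarith : 0 < D)).1 ((abs_nonneg _).trans b3)
  · have := (hC I _ _ p.z _ _ h.np h.labN (fun _ => h.tp) hT t ht _ (nu_le p P hk)).1
    rw [Dw_neg] at this
    rw [ph, h.dom_eq ht P, h.dq_eq hg ht, h.sO_eq hg ht, Pr.ee]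
    have e : ∀ o b q G : ℝ, -o - b * q + (1 - b * G) * o = -(b * (q - G * -o)) := fun _ _ _ _ => by
      ring
    rw [e, abs_neg, abs_mul, abs_of_nonneg (le_trans (by norm_num) b1 : 0 ≤ bo p om eps t), mul_assoc]
    exact mul_le_mul b2 this (abs_nonneg _) (by linarith)

/-! ### the graded path -/

theorem hasDerivAt_pos_sq (u : ℝ) : HasDerivAt (fun u : ℝ => max 0 u ^ 2) (2 * max 0 u) u := by
  rcases lt_trichotomy u 0 with h | rfl | h
  · rw [max_eq_left h.le, mul_zero]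
    exact (hasDerivAt_const u (0 : ℝ)).congr_of_eventuallyEq (by
      filter_upwards [Iio_mem_nhds h] with v hv
      rw [max_eq_left (le_of_lt hv)]
      ring)
  · rw [max_self, mul_zero, hasDerivAt_iff_isLittleO]
    have h2 : (fun u' : ℝ => (u' - 0) ^ 2) =o[𝓝 0] fun u' => u' - 0 := by
      simpa using Asymptotics.isLittleO_pow_sub_sub (0 : ℝ) (m := 2) (by norm_num)
    refine (Asymptotics.IsBigO.of_bound' (Eventually.of_forall fun v => ?_)).trans_isLittleO h2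
    simp only [max_self, smul_zero, sub_zero, Real.norm_eq_abs, abs_pow, sq_abs, ne_eq,
      OfNat.ofNat_ne_zero, not_false_eq_true, zero_pow]
    rcases le_total v 0 with a | a
    · rw [max_eq_left a]
      nlinarith [sq_nonneg v]
    · rw [max_eq_right a]
  · rw [max_eq_right h.le]
    refine HasDerivAt.congr_of_eventuallyEq (f := fun v : ℝ => v ^ 2)
      (by simpa using hasDerivAt_pow 2 u) ?_
    filter_upwards [Ioi_mem_nhds h] with v hv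
    rw [max_eq_right (le_of_lt hv)]

/-- `∂_σ gS σ t = 2 (√t - σ)₊` -/
theorem hasDerivAt_gS (σ t : ℝ) : HasDerivAt (fun σ => gS σ t) (2 * max 0 (√t - σ)) σ := by
  have := ((hasDerivAt_pos_sq (√t - σ)).comp σ ((hasDerivAt_id' σ).const_sub √t)).const_sub t
  exact this.congr_deriv (by ring)

theorem gS_le (σ t : ℝ) : gS σ t ≤ t := sub_le_self _ (sq_nonneg _)

theorem gS_nn {σ t : ℝ} (hσ : 0 ≤ σ) (ht : 0 ≤ t) : 0 ≤ gS σ t := by
  rcases le_total (√t) σ with h | h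
  · rwa [gS_lo h]
  · rw [gS_hi ht h]
    nlinarith

theorem gS_inc {σ t t' : ℝ} (hσ : 0 ≤ σ) (ht : 0 ≤ t) (h : t ≤ t') :
    0 ≤ gS σ t' - gS σ t ∧ gS σ t' - gS σ t ≤ t' - t := by
  have a := sqrt_le_sqrt h
  have b := sq_sqrt ht
  have c := sq_sqrt (ht.trans h)
  have d := sqrt_nonneg t
  rcases le_total (√t) σ with h1 | h1 <;> rcases le_total (√t') σ with h2 | h2
  · rw [gS_lo h1, gS_lo h2]
    constructor <;> linarith
  · rw [gS_lo h1, gS_hi (ht.trans h) h2]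
    constructor <;> nlinarith [sq_nonneg (√t' - σ)]
  · rw [gS_hi ht h1, gS_lo h2]
    constructor <;> nlinarith
  · rw [gS_hi ht h1, gS_hi (ht.trans h) h2]
    constructor <;> nlinarith

theorem omG_Om (p : Pm) {σ : ℝ} (hv : 0 < p.v) (hκ : 0 ≤ p.κ) (hσ : 0 ≤ σ) (hy : 0 < p.ye) :
    Pr.Om p.v (2 * p.ye) (4 * p.κ) (p.omG σ) := by
  have z : ∀ t, 2 * p.ye ≤ t → sm (t / p.ye - 1) = 1 := fun t h =>
    Rs13.sm_one (by rw [le_sub_iff_add_le, le_div_iff₀ hy]; linarith)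
  refine ⟨by simp [Pm.omG, gS_lo (t := 0) (by simpa using hσ)], fun j => ?_, fun j h => ?_,
    fun j => ?_⟩
  · exact mul_nonneg (mul_nonneg hκ (gS_nn hσ (by positivity))) (sub_nonneg.2 (Rs13.sm_le _))
  · rw [Pm.omG, z _ h]
    ring
  · have t0 : 0 ≤ (j : ℝ) * p.v := by positivity
    have e : ((j + 1 : ℕ) : ℝ) * p.v = j * p.v + p.v := by push_cast; ring
    rw [Pm.omG, Pm.omG, e, mul_assoc, mul_assoc, ← mul_sub, abs_mul, abs_of_nonneg hκ,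
      show 4 * p.κ * p.v = p.κ * (4 * p.v) by ring]
    refine mul_le_mul_of_nonneg_left ?_ hκ
    generalize (j : ℝ) * p.v = t at t0
    rcases le_total (2 * p.ye) t with h | h
    · rw [z _ h, z _ (by linarith)]
      simpa using hv.le
    · obtain ⟨g1, g2⟩ := gS_inc hσ t0 (t' := t + p.v) (by linarith)
      obtain ⟨s1, s2⟩ := Rs13.sm_sub (u := t / p.ye - 1) (u' := (t + p.v) / p.ye - 1)
        (by gcongr; linarith)
      have s3 : gS σ t * (sm ((t + p.v) / p.ye - 1) - sm (t / p.ye - 1)) ≤ 3 * p.v :=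
        (mul_le_mul ((gS_le σ t).trans h) s2 s1 (by positivity)).trans (le_of_eq (by field_simp; ring))
      have s4 := mul_nonneg (gS_nn hσ t0) s1
      have s5 := mul_nonneg g1 (sub_nonneg.2 (Rs13.sm_le ((t + p.v) / p.ye - 1)))
      have s6 := mul_nonneg g1 (Rs13.sm_nn ((t + p.v) / p.ye - 1))
      rw [abs_le]
      constructor <;> nlinarith

/-- `∂_σ omG` -/
def omG' (p : Pm) (σ : ℝ) (j : ℕ) : ℝ :=
  p.κ * (2 * max 0 (√(j * p.v) - σ)) * (1 - sm (j * p.v / p.ye - 1))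

/-- `∂_σ epsG` -/
theorem hasDerivAt_epsG (p : Pm) (σ : ℝ) :
    HasDerivAt p.epsG (p.κ * p.r * (2 * max 0 (√p.r - σ))) σ := (hasDerivAt_gS σ p.r).const_mul _

theorem op_gst (p : Pm) (hv : 0 < p.v) (hl : Pr.Lab p.z p.J) (hκ : 0 ≤ p.κ) (hκ' : p.κ ≤ 1 / 8)
    (hy : 0 < p.ye) (hY : 2 * p.ye ≤ p.J * p.v) :
    OP p (Ioi 0) p.omG (omG' p) p.epsG (2 * p.ye) where
  op := isOpen_Ioi
  v0 := hv
  lab := hl
  hY := hY
  hom σ hσ :=
    have h := omG_Om p hv hκ (le_of_lt hσ) hy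
    ⟨h.zero, h.nn, h.supp, fun j => (h.lip j).trans (by nlinarith)⟩
  der σ _ j := ((hasDerivAt_gS σ _).const_mul _).mul_const _
  cont j := by unfold omG'; fun_prop
  ce := ⟨_, fun σ _ => hasDerivAt_epsG p σ, by fun_prop⟩

theorem bo_gst (p : Pm) : bo p p.omG p.epsG = p.bG := rfl

/-- **the graded family is a path** -/
theorem path_gst {p : Pm} {Y : ℝ} (h : OP p (Ioi 0) p.omG (omG' p) p.epsG Y) {P : Pl} (hg : P.γ = 0)
    {σ σ' : ℝ} (h0 : 0 < σ) (inc : ∀ t ∈ Ioo σ σ', Inc (p.gst P t)) :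
    Path (p.gst P) (fun t _ => deriv p.bG t) (dH p P p.omG (omG' p) p.epsG) σ σ' :=
  h.path_famO hg (fun _ ht => h0.trans_le ht.1) (fun _ _ => rfl) inc

/-- the `σ`-derivative of `V a' - V a` at the member `σ`, up to the factor `-m` -/
def DG (p : Pm) (P : Pl) (σ : ℝ) (m : ℕ) (a a' : ℝ) : ℝ :=
  deriv p.bG σ / 4 * ((p.gst P σ).dz m a' 0 * (p.gst P σ).E2 m a' (fun r => r ^ 2) 0 -
      (p.gst P σ).dz m a 0 * (p.gst P σ).E2 m a (fun r => r ^ 2) 0) +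
    ∑ k ∈ Finset.Ioc p.jf (p.NP P), (p.gst P σ).dz m a k * (deriv p.bG σ / 4 *
      ((p.gst P σ).E2 m a' (fun r => (r - (p.gst P σ).q k) ^ 2) k -
        (p.gst P σ).E2 m a (fun r => (r - (p.gst P σ).q k) ^ 2) k) +
      ph p P p.omG (omG' p) p.epsG σ k / 2 * ((p.gst P σ).rb m a' k - (p.gst P σ).rb m a k))

theorem dz_low (M : Md) (m : ℕ) (a : ℝ) {k : ℕ} (h1 : 1 ≤ k) (hk : k < M.N)
    (hz : M.z k = M.z (k - 1)) : M.dz m a k = 0 := by
  obtain ⟨k, rfl⟩ := Nat.exists_eq_add_of_le' h1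
  have e : ∀ j < M.N, T157.Casc.ex (M.L m a) (j + 1) = M.z j := fun j hj => by
    simp [T157.Casc.ex, Md.L, Md.Mx, Md.Mu, hj, Cas.mxL_m]
  rw [Md.dz, T157.Casc.dm, T157.Casc.exP, e _ hk, e _ (by omega), hz]
  simp

/-- **one octave (or any interval) of the graded path from a bound of `σ |DG|`** -/
theorem go_gst {p : Pm} {Y : ℝ} (h : OP p (Ioi 0) p.omG (omG' p) p.epsG Y) {P : Pl} (hg : P.γ = 0)
    (hn : 0 < p.n) (hs : 0 ≤ p.s) (hj : p.jf < p.NP P) {σ σ' ε : ℝ} (h0 : 0 < σ) (h1 : σ ≤ σ')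
    (hε : 0 ≤ ε) (leg : ∀ t ∈ Icc σ σ', (p.gst P t).Leg p.am ∧ p.bG t ≤ p.β ^ 2)
    (hb : ∀ a a' Q : ℝ, Win p.n p.s p.ga a a' → 0 ≤ Q → WT p.n (p.gst P '' Icc σ σ') a a' Q →
      ∀ m, p.n ≤ m → m ≤ 2 * p.n → ∀ t ∈ Ioo σ σ', t * (m * |DG p P t m a a'|) ≤
        ε * ((p.n : ℝ) ^ ((1 : ℝ) / 6) * (Q * p.s ^ 2 + p.s ^ 5))) :
    Go (ε * log (σ' / σ)) p (p.gst P σ) (p.gst P σ') := by
  refine ⟨_, (path_gst h hg h0 fun t ht => inc_of_leg (leg t (Ioo_subset_Icc_self ht)).1).stage_log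
    h0 h1 hn hs hε (fun t ht => ⟨(leg t ht).1, by simpa [Pm.gst, Pm.famO] using (leg t ht).2⟩)
    fun a a' Q hw hQ hW m m1 m2 t ht => ?_, σ', ⟨h1, le_rfl⟩, rfl⟩
  have := h.DV_sub hg (show t ∈ Ioi 0 from h0.trans ht.1) (p.gst P t) m a a' fun k k1 k2 =>
    dz_low _ m a k1 (k2.trans_lt hj) (by
      simp only [Pm.gst, Pm.famO, max_eq_right k2, max_eq_right ((Nat.sub_le k 1).trans k2)])
  rw [bo_gst] at this
  rw [this, abs_neg, abs_mul, Nat.abs_cast]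
  exact hb a a' Q hw hQ hW m m1 m2 t ht

end Crest.Agent.T156.Alt.Md77

end
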