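import Crest.Agent.T156.Gu_71
import Crest.Agent.T156.Cap_64

/-!
Row 156 (helper71): stability of the class of the soft recursion under deposits and moves, and the
clipped and capped deposit rule.
-/

set_option autoImplicit false
set_option linter.unusedSectionVars false

noncomputable section

namespace Crest.Agent.T156.Alt.Gu71

open MeasureTheory Real Set Filter Topology
open Crest.Agent.T157.E Crest.Agent.T157.Casc Crest.Agent.T157.SL
open Crest.Agent.T156.Cas Crest.Agent.T156.Alt.Md77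
open Crest.Agent.T156.Alt.Md67 (Lg)

/-! ### a weighted `L²` norm -/

/-- `(∑_{k ∈ S} ω k f k²)^{1/2}` -/
def nrm (ω : ℕ → ℝ) (S : Finset ℕ) (f : ℕ → ℝ) : ℝ := √(∑ k ∈ S, ω k * f k ^ 2)

section nrm
variable {ω : ℕ → ℝ} {S : Finset ℕ} {f g : ℕ → ℝ}

theorem nrm_nonneg : 0 ≤ nrm ω S f := sqrt_nonneg _

theorem nrm_sq (hω : ∀ k ∈ S, 0 ≤ ω k) : nrm ω S f ^ 2 = ∑ k ∈ S, ω k * f k ^ 2 :=
  sq_sqrt (Finset.sum_nonneg fun k hk => mul_nonneg (hω k hk) (sq_nonneg _))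

theorem nrm_le {B : ℝ} (hB : 0 ≤ B) (h : ∑ k ∈ S, ω k * f k ^ 2 ≤ B ^ 2) : nrm ω S f ≤ B :=
  (sqrt_le_left hB).2 h

theorem sq_le_of_nrm (hω : ∀ k ∈ S, 0 ≤ ω k) {B : ℝ} (h : nrm ω S f ≤ B) :
    ∑ k ∈ S, ω k * f k ^ 2 ≤ B ^ 2 := by
  rw [← nrm_sq hω]; exact pow_le_pow_left₀ nrm_nonneg h 2


theorem nrm_congr (h : ∀ k ∈ S, f k = g k) : nrm ω S f = nrm ω S g := by
  rw [nrm, nrm, Finset.sum_congr rfl fun k hk => by rw [h k hk]]

theorem nrm_zero : nrm ω S (fun _ => 0) = 0 := by simp [nrm]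

theorem nrm_mul (c : ℝ) : nrm ω S (fun k => c * f k) = |c| * nrm ω S f := by
  rw [nrm, nrm, ← sqrt_sq_eq_abs, ← sqrt_mul (sq_nonneg c), Finset.mul_sum]
  congr 1
  exact Finset.sum_congr rfl fun k _ => by ring

theorem sum_mul_le (hω : ∀ k ∈ S, 0 ≤ ω k) :
    ∑ k ∈ S, ω k * (f k * g k) ≤ nrm ω S f * nrm ω S g := by
  have := Real.sum_mul_le_sqrt_mul_sqrt S (fun k => √(ω k) * f k) fun k => √(ω k) * g k
  rwa [Finset.sum_congr rfl (g := fun k => ω k * (f k * g k)) fun k hk => by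
      linear_combination (f k * g k) * mul_self_sqrt (hω k hk),
    Finset.sum_congr rfl (f := fun k => (√(ω k) * f k) ^ 2) (g := fun k => ω k * f k ^ 2)
      fun k hk => by rw [mul_pow, sq_sqrt (hω k hk)],
    Finset.sum_congr rfl (f := fun k => (√(ω k) * g k) ^ 2) (g := fun k => ω k * g k ^ 2)
      fun k hk => by rw [mul_pow, sq_sqrt (hω k hk)]] at this

theorem nrm_add (hω : ∀ k ∈ S, 0 ≤ ω k) :
    nrm ω S (fun k => f k + g k) ≤ nrm ω S f + nrm ω S g := by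
  refine nrm_le (add_nonneg nrm_nonneg nrm_nonneg) ?_
  rw [add_sq, nrm_sq hω, nrm_sq hω, Finset.sum_congr rfl (g := fun k => ω k * f k ^ 2 +
    2 * (ω k * (f k * g k)) + ω k * g k ^ 2) fun k _ => by ring, Finset.sum_add_distrib,
    Finset.sum_add_distrib, ← Finset.mul_sum]
  linarith [sum_mul_le (f := f) (g := g) hω]

theorem nrm_sub (hω : ∀ k ∈ S, 0 ≤ ω k) :
    nrm ω S (fun k => f k - g k) ≤ nrm ω S f + nrm ω S g := by
  have := nrm_add (f := f) (g := fun k => -1 * g k) hω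
  rw [nrm_mul] at this
  simpa [sub_eq_add_neg] using this


end nrm

/-! ### mark changes with a floor, a ceiling and a residual -/

/-- `F` vanishes up to `j`, has increments in `[lo, hi]`, and is `γ`-close to `u c` -/
structure AB (j : ℕ) (c ω : ℕ → ℝ) (S : Finset ℕ) (u : ℝ) (lo hi : ℕ → ℝ) (γ : ℝ) (F : ℕ → ℝ) :
    Prop where
  low : ∀ k ≤ j, F k = 0
  fl : ∀ k, lo k ≤ F (k + 1) - F k
  ce : ∀ k, F (k + 1) - F k ≤ hi k
  res : nrm ω S (fun k => F k - u * c k) ≤ γ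

section AB
variable {j : ℕ} {c ω lo hi lo' hi' F F' : ℕ → ℝ} {S : Finset ℕ} {u u' γ γ' : ℝ}

theorem AB.zero : AB j c ω S 0 (fun _ => 0) (fun _ => 0) 0 fun _ => 0 :=
  ⟨fun _ _ => rfl, fun _ => by simp, fun _ => by simp, by simp [nrm]⟩

theorem AB.mono (h : AB j c ω S u lo hi γ F) (h1 : ∀ k, lo' k ≤ lo k) (h2 : ∀ k, hi k ≤ hi' k)
    (h3 : γ ≤ γ') : AB j c ω S u lo' hi' γ' F :=
  ⟨h.low, fun k => (h1 k).trans (h.fl k), fun k => (h.ce k).trans (h2 k), h.res.trans h3⟩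

theorem AB.add (hω : ∀ k ∈ S, 0 ≤ ω k) (h : AB j c ω S u lo hi γ F)
    (h' : AB j c ω S u' lo' hi' γ' F') : AB j c ω S (u + u') (fun k => lo k + lo' k)
      (fun k => hi k + hi' k) (γ + γ') fun k => F k + F' k :=
  ⟨fun k hk => by rw [h.low k hk, h'.low k hk, add_zero], fun k => by linarith [h.fl k, h'.fl k],
    fun k => by linarith [h.ce k, h'.ce k],
    ((nrm_congr fun k _ => by ring).trans_le (nrm_add hω)).trans (add_le_add h.res h'.res)⟩

theorem AB.smul (h : AB j c ω S u lo hi γ F) {t : ℝ} (ht : 0 ≤ t) :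
    AB j c ω S (t * u) (fun k => t * lo k) (fun k => t * hi k) (t * γ) fun k => t * F k :=
  ⟨fun k hk => by rw [h.low k hk, mul_zero],
    fun k => by rw [← mul_sub]; exact mul_le_mul_of_nonneg_left (h.fl k) ht,
    fun k => by rw [← mul_sub]; exact mul_le_mul_of_nonneg_left (h.ce k) ht, by
      rw [nrm_congr (g := fun k => t * (F k - u * c k)) fun k _ => by ring, nrm_mul,
        abs_of_nonneg ht]
      exact mul_le_mul_of_nonneg_left h.res ht⟩

theorem AB.monotone (h : AB j c ω S u lo hi γ F) (h0 : ∀ k, 0 ≤ lo k) : Monotone F :=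
  monotone_nat_of_le_succ fun k => sub_nonneg.1 ((h0 k).trans (h.fl k))

/-- change of the clock -/
theorem AB.clock (hω : ∀ k ∈ S, 0 ≤ ω k) (h : AB j c ω S u lo hi γ F) (hu : 0 ≤ u) {c' : ℕ → ℝ}
    {δ : ℝ} (hc : nrm ω S (fun k => c k - c' k) ≤ δ) : AB j c' ω S u lo hi (γ + u * δ) F :=
  ⟨h.low, h.fl, h.ce, ((nrm_congr (g := fun k => (F k - u * c k) + u * (c k - c' k))
    fun k _ => by ring).trans_le (nrm_add hω)).trans (add_le_add h.res (by
      rw [nrm_mul, abs_of_nonneg hu]; exact mul_le_mul_of_nonneg_left hc hu))⟩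

end AB

/-! ### the class -/

/-- data of the class: merged zone `j`, clock `c`, weights `ω` on `S`, rates of floor, ceiling and
residual -/
structure KD where
  j : ℕ
  c : ℕ → ℝ
  ω : ℕ → ℝ
  S : Finset ℕ
  fl : ℕ → ℝ
  ce : ℕ → ℝ
  g : ℝ

namespace KD

variable (D : KD)

/-- a mark change at the time `u` with the constants `α` (floor), `β` (ceiling), `γ` (residual) -/
def At (u α β γ : ℝ) (F : ℕ → ℝ) : Prop :=
  AB D.j D.c D.ω D.S u (fun k => α * D.fl k) (fun k => β * D.ce k) (γ * D.g) F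

/-- **the class `K(u)` over `M`** -/
def K (M : Md) (u : ℝ) (N : Md) : Prop := ∃ F, N = sh M u F ∧ D.At u (u / 2) (2 * u) (4 * u) F

/-- a deposit -/
def Dep (r : ℕ → ℝ) : Prop := D.At 1 1 1 1 r

/-- a move at the time `u` -/
def Mov (u : ℝ) (G : ℕ → ℝ) : Prop := D.At 0 (-(u / 2)) u u G

structure Ok : Prop where
  ω0 : ∀ k ∈ D.S, 0 ≤ D.ω k
  fl0 : ∀ k, 0 ≤ D.fl k
  ce0 : ∀ k, 0 ≤ D.ce k
  g0 : 0 ≤ D.g

variable {D} {M N : Md} {u u' α α' β β' γ γ' x : ℝ} {F F' G : ℕ → ℝ}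

theorem At.add (H : D.Ok) (h : D.At u α β γ F) (h' : D.At u' α' β' γ' F') :
    D.At (u + u') (α + α') (β + β') (γ + γ') fun k => F k + F' k :=
  (AB.add H.ω0 h h').mono (fun _ => (add_mul _ _ _).le) (fun _ => (add_mul _ _ _).ge)
    (add_mul _ _ _).ge

theorem At.mono (H : D.Ok) (h : D.At u α β γ F) (h1 : α' ≤ α) (h2 : β ≤ β') (h3 : γ ≤ γ') :
    D.At u α' β' γ' F :=
  AB.mono h (fun k => mul_le_mul_of_nonneg_right h1 (H.fl0 k))
    (fun k => mul_le_mul_of_nonneg_right h2 (H.ce0 k)) (mul_le_mul_of_nonneg_right h3 H.g0)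

theorem At.zero : D.At 0 0 0 0 fun _ => 0 :=
  AB.zero.mono (fun _ => (zero_mul _).le) (fun _ => (zero_mul _).ge) (zero_mul _).ge

theorem Dep.smul {r : ℕ → ℝ} (h : D.Dep r) {t : ℝ} (ht : 0 ≤ t) : D.At t t t t fun k => t * r k := by
  have := AB.smul h ht
  simp only [one_mul, mul_one] at this
  exact this


theorem K.N_eq (h : D.K M u N) : N.N = M.N := by obtain ⟨F, rfl, -⟩ := h; rfl

theorem K.z_eq (h : D.K M u N) : N.z = M.z := by obtain ⟨F, rfl, -⟩ := h; rfl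


theorem K.d_eq (h : D.K M u N) (k : ℕ) : N.d k = M.d k - u := by obtain ⟨F, rfl, -⟩ := h; rfl

theorem K.dz_eq (h : D.K M u N) (m : ℕ) (a : ℝ) : N.dz m a = M.dz m a :=
  funext fun k => dz_free h.N_eq h.z_eq k

theorem K.leg (H : D.Ok) (h : D.K M u N) (hM : M.Leg x) (h0 : 0 ≤ u) (hu : u ≤ M.d 0) : N.Leg x := by
  obtain ⟨F, rfl, h⟩ := h
  exact sh_leg hM hu (h.low 0 (Nat.zero_le _))
    (AB.monotone h fun k => mul_nonneg (by linarith) (H.fl0 k))

theorem K.lg (H : D.Ok) (h : D.K M u N) {m : ℕ} {a : ℝ} (G : Lg M m a) (h0 : 0 ≤ u)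
    (hu : u ≤ M.d 0) : Lg N m a := ⟨h.leg H G.toLeg h0 hu, G.m0, G.a0⟩


theorem K.low (h : D.K M u N) {k : ℕ} (hk : k ≤ D.j) : N.H k = M.H k := by
  obtain ⟨F, rfl, h⟩ := h
  simp only [sh, h.low k hk, add_zero]

theorem K.res (h : D.K M u N) :
    nrm D.ω D.S (fun k => N.H k - M.H k - u * D.c k) ≤ 4 * u * D.g := by
  obtain ⟨F, rfl, h⟩ := h
  simpa only [sh, add_sub_cancel_left] using h.res

/-- the residual `Md.G` of a member -/
theorem K.G_eq (h : D.K M u N) (k : ℕ) : N.G k = M.G k + (N.H k - M.H k - u * M.q k) := by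
  obtain ⟨F, rfl, -⟩ := h
  rw [sh_G]
  simp only [sh, add_sub_cancel_left]

/-- the moved model is legal -/
theorem K.mov_lg (H : D.Ok) (h : D.K M u N) (hG : D.Mov u G) {m : ℕ} {a : ℝ} (L : Lg M m a)
    (hu : u ≤ M.d 0) : Lg (sh N 0 G) m a := by
  obtain ⟨F, rfl, h⟩ := h
  have := h.add H hG
  rw [sh_sh]
  exact sh_lg L (by linarith) (this.low 0 (Nat.zero_le _))
    (AB.monotone this fun k => by simp)

variable {ρ : Md → ℕ → ℝ} {h : ℝ}

theorem acc_at (H : D.Ok) (h0 : 0 ≤ h) : ∀ i : ℕ, (∀ l < i, D.Dep (ρ (eu ρ h N l))) →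
    D.At (i * h) (i * h) (i * h) (i * h) (acc ρ h N i)
  | 0, _ => by
    rw [show acc ρ h N 0 = fun _ => 0 from funext fun _ => Finset.sum_range_zero _]
    simpa only [Nat.cast_zero, zero_mul] using At.zero (D := D)
  | i + 1, hi => by
    have := (acc_at H h0 i fun l hl => hi l (by omega)).add H ((hi i i.lt_succ_self).smul h0)
    rw [show acc ρ h N (i + 1) = fun k => acc ρ h N i k + h * ρ (eu ρ h N i) k from
      funext fun _ => Finset.sum_range_succ _ _]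
    simpa only [Nat.cast_add, Nat.cast_one, add_mul, one_mul] using this

/-- **the Euler path stays in the class** -/
theorem K.eu (H : D.Ok) (hN : D.K M u N) (h0 : 0 ≤ h) {i : ℕ}
    (hi : ∀ l < i, D.Dep (ρ (eu ρ h N l))) : D.K M (u + i * h) (eu ρ h N i) := by
  have b := acc_at H h0 i hi
  rw [eu_eq, co]
  obtain ⟨F, rfl, hF⟩ := hN
  have : 0 ≤ i * h := by positivity
  exact ⟨_, sh_sh _ _ _ _ _, (hF.add H b).mono H (by linarith) (by linarith) (by linarith)⟩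

/-- **the moved end is in the class** once the time has doubled -/
theorem K.co (H : D.Ok) (hN : D.K M u N) (hG : D.Mov u G) (h0 : 0 ≤ h) (hu : 0 ≤ u) {i : ℕ}
    (hiu : u ≤ i * h) (hi : ∀ l < i, D.Dep (ρ (Gu71.eu ρ h N l))) :
    D.K M (u + i * h) (co ρ h N (sh N 0 G) i) := by
  have b := acc_at H h0 i hi
  rw [Gu71.co]
  obtain ⟨F, rfl, hF⟩ := hN
  have c := (hF.add H hG).add H b
  refine ⟨_, by rw [sh_sh, sh_sh, zero_add], ?_⟩
  rw [add_zero] at c
  simp only [add_assoc] at c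
  exact c.mono H (by linarith) (by linarith) (by linarith)


end KD

/-! ### the clipped rule `(1 - t) c + t g` -/

/-- deposit `(1 - t) c + t g` above the node `j` (`t`, `g` depend on the model) -/
def rG (j : ℕ) (c : ℕ → ℝ) (t : Md → ℝ) (g : Md → ℕ → ℝ) (M : Md) (k : ℕ) : ℝ :=
  if k ≤ j then 0 else (1 - t M) * c k + t M * g M k

section rG
variable {j : ℕ} {c : ℕ → ℝ} {t : Md → ℝ} {g : Md → ℕ → ℝ} {M : Md} {R θ a : ℝ} {m : ℕ}

theorem rG_lo {k : ℕ} (hk : k ≤ j) : rG j c t g M k = 0 := if_pos hk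

theorem rG_hi {k : ℕ} (hk : j < k) : rG j c t g M k = (1 - t M) * c k + t M * g M k :=
  if_neg (by omega)

theorem rG_res {k : ℕ} (hk : j < k) : rG j c t g M k - c k = t M * (g M k - c k) := by
  rw [rG_hi hk]; ring

theorem rG_inc {k : ℕ} (hk : j < k) : rG j c t g M (k + 1) - rG j c t g M k =
    (1 - t M) * (c (k + 1) - c k) + t M * (g M (k + 1) - g M k) := by
  rw [rG_hi hk, rG_hi (hk.trans k.lt_succ_self)]; ring

theorem rG_dp (hc : Ck c j R) (h0 : 0 ≤ t M) (h1 : t M ≤ 1) (hg : Ck (g M) j R) :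
    Dp (rG j c t g M) R := by
  have h1' := sub_nonneg.2 h1
  refine ⟨rG_lo (Nat.zero_le j), monotone_nat_of_le_succ fun k => ?_, fun k => ?_⟩
  · rcases lt_trichotomy k j with hk | rfl | hk
    · rw [rG_lo hk.le, rG_lo hk]
    · rw [rG_lo le_rfl, rG_hi k.lt_succ_self]
      exact add_nonneg (mul_nonneg h1' hc.nn) (mul_nonneg h0 hg.nn)
    · rw [← sub_nonneg, rG_inc hk]
      exact add_nonneg (mul_nonneg h1' (sub_nonneg.2 (hc.up k hk)))
        (mul_nonneg h0 (sub_nonneg.2 (hg.up k hk)))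
  · rcases le_or_gt k j with hk | hk
    · rw [rG_lo hk]; linarith [hc.R1]
    · rw [rG_hi hk]
      have := mul_le_mul_of_nonneg_left (hc.le k hk) h1'
      have := mul_le_mul_of_nonneg_left (hg.le k hk) h0
      linarith

/-- **the clipped rule is a deposit of the class** -/
theorem rG_dep {D : KD} (hc : Ck D.c D.j R) (h0 : 0 ≤ t M) (h1 : t M ≤ 1 - θ) (hθ : 0 ≤ θ)
    (hg : Ck (g M) D.j R) (hS : ∀ k ∈ D.S, D.j < k) (f0 : ∀ k ≤ D.j, D.fl k ≤ 0)
    (f1 : ∀ k, D.j < k → D.fl k ≤ θ * (D.c (k + 1) - D.c k)) (c0 : ∀ k < D.j, 0 ≤ D.ce k)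
    (cj : R ≤ D.ce D.j) (c1 : ∀ k, D.j < k → D.c (k + 1) - D.c k ≤ D.ce k)
    (c2 : ∀ k, D.j < k → g M (k + 1) - g M k ≤ D.ce k)
    (hr : t M * nrm D.ω D.S (fun k => g M k - D.c k) ≤ D.g) : D.Dep (rG D.j D.c t g M) := by
  have P := rG_dp hc h0 (by linarith) hg
  refine ⟨fun k hk => rG_lo hk, fun k => ?_, fun k => ?_, ?_⟩
  · rw [one_mul]
    rcases le_or_gt k D.j with hk | hk
    · exact (f0 k hk).trans (sub_nonneg.2 (P.mono k.le_succ))
    · rw [rG_inc hk]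
      have := mul_nonneg h0 (sub_nonneg.2 (hg.up k hk))
      have := mul_le_mul_of_nonneg_right (show θ ≤ 1 - t M by linarith) (sub_nonneg.2 (hc.up k hk))
      linarith [f1 k hk]
  · rw [one_mul]
    rcases lt_trichotomy k D.j with hk | rfl | hk
    · rw [rG_lo hk.le, rG_lo hk, sub_self]; exact c0 k hk
    · rw [rG_lo le_rfl, sub_zero]; exact (P.le _).trans cj
    · rw [rG_inc hk]
      have := mul_le_mul_of_nonneg_left (c1 k hk) (show 0 ≤ 1 - t M by linarith)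
      have := mul_le_mul_of_nonneg_left (c2 k hk) h0
      linarith
  · rw [one_mul, nrm_congr (g := fun k => t M * (g M k - D.c k)) fun k hk => by
      rw [one_mul, rG_res (hS k hk)], nrm_mul, abs_of_nonneg h0]
    exact hr

/-- the remainder of any deposit that vanishes up to `j` -/
theorem Rem_eq (hj : j ≤ M.N) {r : ℕ → ℝ} (hr : ∀ k ≤ j, r k = 0) :
    Rem M m a r = Fl M m a j + Ph M m a r (M.dz m a) (Finset.Ioc j M.N) := by
  rw [Rem, Fl, Ph, Finset.range_eq_Ico, ← Finset.sum_Ico_consecutive _ (Nat.zero_le (j + 1))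
    (Nat.add_le_add_right hj 1), ← Finset.range_eq_Ico, add_assoc, ← Finset.sum_add_distrib,
    Finset.Ico_add_one_add_one_eq_Ioc]
  congr 1
  · exact Finset.sum_congr rfl fun k hk => by
      rw [hr k (Nat.lt_succ_iff.1 (Finset.mem_range.1 hk))]; simp only [sub_zero]
  · exact Finset.sum_congr rfl fun k _ => by rw [Md67.E2_sq_expand, Md67.E2_sq_expand]; ring


/-- crude bound of the remainder -/
theorem Rem_le (G : Lg M m a) {r : ℕ → ℝ} (hr : Dp r R) : Rem M m a r ≤ (1 + R) ^ 2 := by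
  refine (Finset.sum_le_sum fun k _ => mul_le_mul_of_nonneg_left
    (Md67.E2_le (c := (1 + R) ^ 2) (fun y hy => sq_le_sq' ?_ ?_) k) (G.dz_nonneg k)).trans ?_
  · linarith [(abs_le.1 hy).1, hr.le k]
  · linarith [(abs_le.1 hy).2, hr.nn k, hr.le k]
  · rw [← Finset.sum_mul]
    exact mul_le_of_le_one_left (sq_nonneg _) ((G.sum_dz_le _).trans (sub_le_self _ G.a0))

/-- the clip `min (1 - θ) (g / n)` -/
def clip (θ γ n : ℝ) : ℝ := min (1 - θ) (γ / n)

theorem clip_nonneg {γ n : ℝ} (hθ : θ ≤ 1) (hγ : 0 ≤ γ) (hn : 0 ≤ n) : 0 ≤ clip θ γ n :=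
  le_min (sub_nonneg.2 hθ) (div_nonneg hγ hn)

theorem clip_le {γ n : ℝ} : clip θ γ n ≤ 1 - θ := min_le_left _ _

theorem clip_mul {γ n : ℝ} (hγ : 0 ≤ γ) (hn : 0 ≤ n) : clip θ γ n * n ≤ γ := by
  rcases hn.eq_or_lt with rfl | h
  · rwa [mul_zero]
  · exact (le_div_iff₀ h).1 (min_le_right _ _)


/-- the capped mean overlap -/
def gC (lam : ℕ → ℝ) (m : ℕ) (a : ℝ) (M : Md) : ℕ → ℝ := Cap64.cap (M.rb m a) lam

theorem gC_ck (hm : 0 < m) {lam : ℕ → ℝ} (hl : ∀ k, 0 ≤ lam k) (hR : 1 ≤ R) (M : Md) :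
    Ck (gC lam m a M) j R :=
  ⟨Cap64.cap_nonneg (Md67.rb_nonneg hm) hl _,
    fun k _ => Cap64.cap_mono (Md67.rb_mono hm) hl k.le_succ,
    fun k _ => ((Cap64.cap_le k).trans (Md67.rb_le_one hm k)).trans hR, hR⟩

theorem gC_inc (lam : ℕ → ℝ) (M : Md) (k : ℕ) : gC lam m a M (k + 1) - gC lam m a M k ≤ lam k :=
  Cap64.cap_inc k


end rG

/-! ### the rule of the class -/

namespace KD

variable (D : KD)

/-- distance of the capped mean overlap from the clock -/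
def dist (lam : ℕ → ℝ) (m : ℕ) (a : ℝ) (M : Md) : ℝ :=
  nrm D.ω D.S fun k => gC lam m a M k - D.c k

/-- **the clipped and capped rule** -/
def rule (θ : ℝ) (lam : ℕ → ℝ) (m : ℕ) (a : ℝ) : Md → ℕ → ℝ :=
  rG D.j D.c (fun M => if D.dist lam m a M ≤ D.g then 1 - θ else clip θ D.g (D.dist lam m a M))
    (gC lam m a)

/-- the static hypotheses -/
structure Rk (θ R : ℝ) (lam : ℕ → ℝ) : Prop extends D.Ok where
  θ0 : 0 ≤ θ
  θ1 : θ ≤ 1
  ck : Ck D.c D.j R
  sub : ∀ k ∈ D.S, D.j < k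
  l0 : ∀ k, 0 ≤ lam k
  f0 : ∀ k ≤ D.j, D.fl k ≤ 0
  f1 : ∀ k, D.j < k → D.fl k ≤ θ * (D.c (k + 1) - D.c k)
  cj : R ≤ D.ce D.j
  c1 : ∀ k, D.j < k → D.c (k + 1) - D.c k ≤ D.ce k
  c2 : ∀ k, D.j < k → lam k ≤ D.ce k

variable {D} {θ R a u h : ℝ} {lam G : ℕ → ℝ} {m : ℕ} {M N : Md}

theorem Rk.t_mem (H : D.Rk θ R lam) (M : Md) :
    0 ≤ (if D.dist lam m a M ≤ D.g then 1 - θ else clip θ D.g (D.dist lam m a M)) ∧
      (if D.dist lam m a M ≤ D.g then 1 - θ else clip θ D.g (D.dist lam m a M)) ≤ 1 - θ := by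
  split_ifs
  · exact ⟨sub_nonneg.2 H.θ1, le_rfl⟩
  · exact ⟨clip_nonneg H.θ1 H.g0 nrm_nonneg, clip_le⟩

theorem Rk.dp (H : D.Rk θ R lam) (hm : 0 < m) (M : Md) : Dp (D.rule θ lam m a M) R :=
  rG_dp H.ck (H.t_mem M).1 ((H.t_mem M).2.trans (sub_le_self _ H.θ0)) (gC_ck hm H.l0 H.ck.R1 M)

theorem Rk.rl (H : D.Rk θ R lam) (hm : 0 < m) (M : Md) : Rl (D.rule θ lam m a) R M m a :=
  fun _ _ _ => H.dp hm _

/-- **always a deposit of the class** (no hypothesis on the model) -/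
theorem Rk.dep (H : D.Rk θ R lam) (hm : 0 < m) (M : Md) : D.Dep (D.rule θ lam m a M) := by
  refine rG_dep H.ck (H.t_mem M).1 (H.t_mem M).2 H.θ0 (gC_ck hm H.l0 H.ck.R1 M) H.sub H.f0 H.f1
    (fun k _ => H.ce0 k) H.cj H.c1 (fun k hk => (gC_inc lam M k).trans (H.c2 k hk)) ?_
  change _ * D.dist lam m a M ≤ _
  split_ifs with h
  · exact (mul_le_of_le_one_left nrm_nonneg (sub_le_self _ H.θ0)).trans h
  · exact clip_mul H.g0 nrm_nonneg

theorem Rk.eu (H : D.Rk θ R lam) (hm : 0 < m) (hN : D.K M u N) (h0 : 0 ≤ h) (i : ℕ) :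
    D.K M (u + i * h) (eu (D.rule θ lam m a) h N i) := hN.eu H.toOk h0 fun _ _ => H.dep hm _

theorem Rk.co (H : D.Rk θ R lam) (hm : 0 < m) (hN : D.K M u N) (hG : D.Mov u G) (h0 : 0 ≤ h)
    (hu : 0 ≤ u) {i : ℕ} (hi : u ≤ i * h) :
    D.K M (u + i * h) (co (D.rule θ lam m a) h N (sh N 0 G) i) :=
  hN.co H.toOk hG h0 hu hi fun _ _ => H.dep hm _



/-- **the double step in the class**: first step crude, later remainders `≤ X` -/
theorem Rk.step (H : D.Rk θ R lam) (L : Lg M m a) (hN : D.K M u N) (hG : D.Mov u G) (h0 : 0 ≤ h)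
    (hu : 0 ≤ u) (hs : m * h * (5 + 10 * R) ≤ 1) {i : ℕ} (hi : u + i * h ≤ M.d 0) {X : ℝ}
    (hX0 : 0 ≤ X) (hX : ∀ l, 0 < l → l < i → Rem (Gu71.eu (D.rule θ lam m a) h N l) m a
      (D.rule θ lam m a (Gu71.eu (D.rule θ lam m a) h N l)) ≤ X) :
    (sh N 0 G).V m a - N.V m a ≤ (Gu71.co (D.rule θ lam m a) h N (sh N 0 G) i).V m a -
      (Gu71.eu (D.rule θ lam m a) h N i).V m a + m * (h * (1 + R) ^ 2 + i * h * X) := by
  have ih : 0 ≤ i * h := by positivity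
  have LN := hN.lg H.toOk L hu (by linarith)
  have e : (i : ℝ) * h ≤ N.d 0 := by rw [hN.d_eq]; linarith
  have hρ := H.rl (a := a) L.m0 N
  refine (V_path LN (hN.mov_lg H.toOk hG L (by linarith)) rfl rfl hρ h0 i e
    (by simpa only [sh, sub_zero] using e)).trans (add_le_add_right ?_ _)
  have hm : (0 : ℝ) ≤ m := Nat.cast_nonneg m
  have b0 := (exp_le_exp.2 hs).trans exp_one_lt_three.le
  have b1 : ∀ l ∈ Finset.range i, h * Rem (Gu71.eu (D.rule θ lam m a) h N l) m a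
      (D.rule θ lam m a (Gu71.eu (D.rule θ lam m a) h N l)) ≤
        (if l = 0 then h * (1 + R) ^ 2 else 0) + h * X := fun l hl => by
    split_ifs with h1
    · subst h1
      have := mul_le_mul_of_nonneg_left (Rem_le LN (H.dp (a := a) L.m0 N)) h0
      have := mul_nonneg h0 hX0
      change h * Rem N m a (D.rule θ lam m a N) ≤ _
      linarith
    · rw [zero_add]
      exact mul_le_mul_of_nonneg_left (hX l (Nat.pos_of_ne_zero h1) (Finset.mem_range.1 hl)) h0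
  have b2 := Finset.sum_le_sum b1
  rw [Finset.sum_add_distrib, Finset.sum_ite_eq', Finset.sum_const, Finset.card_range,
    nsmul_eq_mul] at b2
  have b3 : (if 0 ∈ Finset.range i then h * (1 + R) ^ 2 else 0) ≤ h * (1 + R) ^ 2 := by
    split_ifs
    · exact le_rfl
    · positivity
  have b4 : 0 ≤ h * (1 + R) ^ 2 + i * h * X := by positivity
  calc _ ≤ m * exp (m * h * (5 + 10 * R)) / 4 * (h * (1 + R) ^ 2 + i * h * X) :=
        mul_le_mul_of_nonneg_left (by linarith) (by positivity)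
    _ ≤ _ := mul_le_mul_of_nonneg_right (by nlinarith) b4

end KD

end Crest.Agent.T156.Alt.Gu71

end
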