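import Crest.Agent.T156.HessT_65

/-!
Row 156 (helper65): site words `Wd L V k` (iterated responses of `Γ_k` to moves of the node
times): derivative along a path, mean value form, invariance under removal of empty slices.
-/

set_option autoImplicit false
set_option linter.unusedSectionVars false

noncomputable section

namespace Crest.Agent.T156.Hess65

open MeasureTheory Real Set Filter Topology
open Crest.Agent.T157.E Crest.Agent.T157.Casc Crest.Agent.T157.SL Crest.Agent.T157.Casc.C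
open Crest.Agent.R339.B Crest.Agent.R339.Var Crest.Agent.T157 Crest.Agent.T156.Cas
open Crest.ProbabilityR.SpinGlassDynamics (spin)
open Crest.Agent.T156.Pp Crest.Agent.T156.Pp.Ode3 Crest.Agent.T156.Pp.Area50
open Crest.Agent.T156.Sc48 (Eqv eqv_zero)

/-- the letter of the direction `f` -/
def lt2 (f : ℕ → ℝ) : ℕ → Bool → Bool → ℝ := ek fun i => f i / 2

/-- **site word**: the derivative of `Γ_k` in the directions `V` of the node times -/
def Wd (L : List (Lv Bool)) (V : List (ℕ → ℝ)) (k : ℕ) : ℝ :=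
  twoF k (fun x y => spin x * spin y) (WdO L (V.map lt2) (TEf (fun _ => 1) L 0))

variable {L L' : List (Lv Bool)} {ℓ : List (ℝ × ℝ)}


theorem Wd_nil (H : List.Forall₂ (Rk1 spin) L ℓ) {k : ℕ} (hk : k ≤ L.length) :
    Wd L [] k = Gam ℓ (tm ℓ k) := by
  rw [← pi2_Gam H hk, ← twoF_TEf One15.w1]
  rfl

theorem Wd_same (H : List.Forall₂ Same L L') (V : List (ℕ → ℝ)) : Wd L V = Wd L' V := by
  funext j
  have : TEf (fun _ => (1 : ℝ)) L 0 = TEf (fun _ => 1) L' 0 :=
    funext fun s => funext fun F => Law.TE_same One15.w1 s H F 0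
  rw [Wd, Wd, this, WdO_tilt (Sch6.same_m H)]

theorem Wd_rk1 (H : List.Forall₂ (Rk1 spin) L ℓ) (H' : List.Forall₂ (Rk1 spin) L' ℓ)
    (V : List (ℕ → ℝ)) : Wd L V = Wd L' V := Wd_same (same_of_rk1 H H') V

theorem lin_wdO {Ω : Type} {R : (ℝ → ℝ) → ℝ → Prop} (H : Tay38.Lin R) (M : List (Lv Ω))
    {Λ : ℝ → Fn Ω} {Λ' : Fn Ω} (h : ∀ s F, R (fun t => Λ t s F) (Λ' s F)) :
    ∀ (V : List (ℕ → Ω → Ω → ℝ)) (s : Sh) (F : (s.Lf → Ω) → ℝ),
      R (fun t => WdO M V (Λ t) s F) (WdO M V Λ' s F)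
  | [] => h
  | S :: V => H.dop M S (lin_wdO H M h V)

theorem WdO_at {Ω : Type} (M : List (TL Ω)) (t u : ℝ) : WdO (atL M t) = WdO (atL M u) := by
  funext V Λ
  simp only [WdO, funext (Dop_at M t u)]

theorem cont_Wd {M : List (TL Bool)} {I : Set ℝ} (hL : ∀ l ∈ M, l.OkC I) (V : List (ℕ → ℝ))
    (k : ℕ) : ContinuousOn (fun t => Wd (atL M t) V k) I := by
  simp only [Wd, fun t => WdO_at M t 0]
  exact lin_wdO (Tay38.lin_cont I) _ (Λ := fun t => TEf (fun _ => 1) (atL M t) 0)
    (Λ' := fun _ _ => 0) (fun s F => Sp38.continuousOn_tX One15.w1 hL s 0 F) _ _ _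

/-- **derivative of a site word** along a path whose node times move with velocity `om` -/
theorem der_Wd {P : List (ML Bool)} {I : Set ℝ} (hI : IsOpen I) (hP : ∀ p ∈ P, p.Ok I) {u : ℝ}
    (hu : u ∈ I) {om : ℕ → ℝ}
    (hS : ∀ j ≤ P.length, ∀ x y, dcov P u j x y = om j * (spin x * spin y))
    (V : List (ℕ → ℝ)) (k : ℕ) :
    HasDerivAt (fun t => Wd (mat P t) V k) (Wd (mat P u) (V ++ [om]) k) u := by
  have e : ∀ j ≤ P.length, Sacc (P.map ML.tl) u j = lt2 om j := fun j hj => by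
    funext x y
    rw [Sacc_tl hu x y P hP j, hS j hj, lt2, ek]
    ring
  simp only [← atL_tl, Wd, fun t => WdO_at (P.map ML.tl) t u, List.map_append, WdO_append]
  refine lin_wdO (Tay38.lin_der u) _ (Λ := fun t => TEf (fun _ => 1) (atL (P.map ML.tl) t) 0)
    (fun s F => ?_) _ _ _
  have := hasDerivAt_Dop_iter One15.w1 hI (L := P.map ML.tl) (fun k hk => by
      obtain ⟨p, hp, rfl⟩ := List.mem_map.1 hk
      exact (hP p hp).c1) hu rfl (c := om P.length / 2)
    (fun y => by rw [List.length_map, e _ le_rfl, lt2, ek, ← sq, One15.spin_sq, mul_one]) 0 u 0 s F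
  rw [Dop_congrS _ (S' := lt2 om) fun j hj => e j (by simpa [atL] using hj)] at this
  exact this

variable {z z' s s' σ f : ℕ → ℝ} {N N' : ℕ}

theorem der_pth {I : Set ℝ} (hI : IsOpen I) (hP : ∀ j < N, f (j + 1) - f j = 0 ∨
    ∀ t ∈ I, 0 < s (j + 1) - s j + (f (j + 1) - f j) * t) (h0 : f 0 = 0) {u : ℝ} (hu : u ∈ I)
    (V : List (ℕ → ℝ)) (k : ℕ) :
    HasDerivAt (fun t => Wd (mat (pth z s f N) t) V k) (Wd (mat (pth z s f N) u) (V ++ [f]) k) u :=
  der_Wd hI (fun p hp => by
      obtain ⟨j, rfl⟩ := List.mem_ofFn.1 hp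
      exact ML.aff_ok _ _ _ _ (hP j j.2)) hu
    (fun j hj x y => by rw [dcov_pth, h0, sub_zero, min_eq_left (len_pth z s f N ▸ hj)]) V k

theorem cont_pth (z s f : ℕ → ℝ) (N : ℕ) (V : List (ℕ → ℝ)) (k : ℕ) :
    ContinuousOn (fun t => Wd (mat (pth z s f N) t) V k) (Icc 0 1) := by
  simpa only [atL_tl] using cont_Wd (pth_okC z s f N isCompact_Icc) V k

/-- **mean value form**: two vectors of node times on the same labels -/
theorem mvt_Wd (hs : Up s N) (hs' : Up s' N) (h0 : s' 0 = s 0)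
    (H : List.Forall₂ (Rk1 spin) L (lsg z s N)) (H' : List.Forall₂ (Rk1 spin) L' (lsg z s' N))
    (V : List (ℕ → ℝ)) (k : ℕ) : ∃ θ ∈ Ioo (0 : ℝ) 1, ∃ M : List (Lv Bool),
      List.Forall₂ (Rk1 spin) M (lsg z (fun j => s j + θ * (s' j - s j)) N) ∧
      Wd L' V k - Wd L V k = Wd M (V ++ [fun j => s' j - s j]) k := by
  have up : ∀ t ∈ Icc (0 : ℝ) 1, Up (fun j => s j + t * (s' j - s j)) N := fun t ht j hj => by
    have a := mul_nonneg (sub_nonneg.2 ht.2) (sub_nonneg.2 (hs j hj))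
    have b := mul_nonneg ht.1 (sub_nonneg.2 (hs' j hj))
    show s j + t * (s' j - s j) ≤ s (j + 1) + t * (s' (j + 1) - s (j + 1))
    linarith
  obtain ⟨θ, hθ, e⟩ := exists_hasDerivAt_eq_slope
    (fun t => Wd (mat (pth z s (fun j => s' j - s j) N) t) V k) _ one_pos (cont_pth _ _ _ _ V k)
    fun t ht => der_pth isOpen_Ioo (fun j hj => by
      by_cases h : s' (j + 1) - s (j + 1) - (s' j - s j) = 0
      · exact Or.inl h
      · refine Or.inr fun t ht => ?_
        have a := sub_nonneg.2 (hs j hj)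
        have b := sub_nonneg.2 (hs' j hj)
        have a' := mul_nonneg (sub_nonneg.2 ht.2.le) a
        have b' := mul_nonneg ht.1.le b
        rcases a.eq_or_lt with c | c
        · have := mul_pos ht.1 (lt_of_le_of_ne b fun d => h (by linarith))
          nlinarith
        · have := mul_pos (sub_pos.2 ht.2) c
          nlinarith) (by simp [h0]) ht V k
  have R0 := rk1_pth 0 N z s _ (up 0 (by simp))
  have R1 := rk1_pth 1 N z s _ (up 1 (by simp))
  simp only [zero_mul, add_zero, one_mul, add_sub_cancel] at R0 R1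
  refine ⟨θ, hθ, _, rk1_pth θ N z s _ (up θ (Ioo_subset_Icc_self hθ)), ?_⟩
  rw [e, Wd_rk1 R0 H, Wd_rk1 R1 H', sub_zero, div_one]

/-- `ν` collapses the nodes `0 … N'` onto `0 … N`; the collapsed slices have arbitrary tilts -/
structure Col (ν : ℕ → ℕ) (z' z : ℕ → ℝ) (N' N : ℕ) : Prop where
  zero : ν 0 = 0
  top : ν N' = N
  step : ∀ k < N', (ν (k + 1) = ν k ∧ z' k ≠ 0) ∨ (ν (k + 1) = ν k + 1 ∧ z' k = z (ν k))

theorem col_mono {ν : ℕ → ℕ} {N' : ℕ} (h : ∀ k < N', ν (k + 1) = ν k ∨ ν (k + 1) = ν k + 1)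
    {i j : ℕ} (hij : i ≤ j) (hj : j ≤ N') : ν i ≤ ν j := by
  induction j, hij using Nat.le_induction with
  | base => exact le_rfl
  | succ k _ ih => have := ih (by omega); have := h k (by omega); omega

theorem col_eqv (z σ : ℕ → ℝ) : ∀ (N' : ℕ) (ν : ℕ → ℕ) (z' : ℕ → ℝ) (c N : ℕ), ν 0 = c →
    ν N' = c + N → Up σ (c + N) →
    (∀ k < N', (ν (k + 1) = ν k ∧ z' k ≠ 0) ∨ (ν (k + 1) = ν k + 1 ∧ z' k = z (ν k))) →
    Eqv (lsg z' (fun j => σ (ν j)) N') (lsg (fun j => z (c + j)) (fun j => σ (c + j)) N)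
  | 0, ν, z', c, N, h0, h1, _, _ => by
    obtain rfl : N = 0 := by omega
    simpa [lsg] using Eqv.refl []
  | N' + 1, ν, z', c, N, h0, h1, hσ, h => by
    have mo := fun i j => col_mono (ν := ν) (N' := N' + 1) (i := i) (j := j)
      fun k hk => (h k hk).imp And.left And.left
    rw [lsg_succ]
    rcases h 0 (Nat.succ_pos _) with ⟨a, b⟩ | ⟨a, b⟩
    · rw [zero_add] at a
      rw [a, sub_self]
      refine (eqv_zero b fun q hq => ?_).trans (col_eqv z σ N' (fun j => ν (j + 1)) _ c N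
        (a.trans h0) h1 hσ fun k hk => h (k + 1) (by omega))
      obtain ⟨j, rfl⟩ := List.mem_ofFn.1 hq
      exact sub_nonneg.2 (hσ.le (mo _ _ (Nat.le_succ _) (by omega))
        (h1 ▸ mo _ _ (by omega) le_rfl))
    · rw [zero_add] at a
      have := mo 1 (N' + 1) (by omega) le_rfl
      obtain ⟨N, rfl⟩ : ∃ M, N = M + 1 := ⟨N - 1, by omega⟩
      rw [lsg_succ, a, b, h0]
      have ih := col_eqv z σ N' (fun j => ν (j + 1)) (fun j => z' (j + 1)) (c + 1) N (a.trans (h0 ▸ rfl))
        (by rw [h1]; ring) (by rwa [add_assoc, add_comm 1]) fun k hk => h (k + 1) (by omega)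
      simp only [add_assoc, add_comm 1] at ih
      exact ih.cons _

namespace Col

variable {ν : ℕ → ℕ} (h : Col ν z' z N' N)
include h

theorem mono {i j : ℕ} (hij : i ≤ j) (hj : j ≤ N') : ν i ≤ ν j :=
  col_mono (fun k hk => (h.step k hk).imp And.left And.left) hij hj

theorem le {k : ℕ} (hk : k ≤ N') : ν k ≤ N := h.top ▸ h.mono hk le_rfl

theorem up (hσ : Up σ N) : Up (fun j => σ (ν j)) N' := fun j hj =>
  hσ.le (h.mono (Nat.le_succ j) hj) (h.le hj)

theorem eqv (hσ : Up σ N) : Eqv (lsg z' (fun j => σ (ν j)) N') (lsg z σ N) := by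
  simpa using col_eqv z σ N' ν z' 0 N h.zero (by rw [h.top, zero_add]) (by rwa [zero_add]) h.step

/-- **empty slices do not matter** -/
theorem wd (V : List (ℕ → ℝ)) (hV : ∀ f ∈ V, f 0 = 0) {k : ℕ} (hk : k ≤ N') :
    ∀ {σ : ℕ → ℝ}, σ 0 = 0 → Up σ N → ∀ {L L' : List (Lv Bool)},
      List.Forall₂ (Rk1 spin) L (lsg z σ N) →
      List.Forall₂ (Rk1 spin) L' (lsg z' (fun j => σ (ν j)) N') →
      Wd L' (V.map fun f j => f (ν j)) k = Wd L V (ν k) := by
  have len : ∀ {L z ℓ N}, List.Forall₂ (Rk1 spin) L (lsg z ℓ N) → L.length = N := fun H => by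
    rw [H.length_eq, lsg, List.length_ofFn]
  induction V using List.reverseRecOn with
  | nil =>
    intro σ h0 hσ L L' H H'
    rw [List.map_nil, Wd_nil H (len H ▸ h.le hk), Wd_nil H' (len H' ▸ hk), tm_lsg _ _ _ _ hk,
      tm_lsg _ _ _ _ (h.le hk), h.zero, Gam_QQ, Gam_QQ, (h.eqv hσ).qq
        (sub_nonneg.2 (hσ.le (Nat.zero_le _) (h.le hk)))]
  | append_singleton V f ih =>
    have ih' := @ih fun g hg => hV g (by simp [hg])
    have f0 := hV f (by simp)
    have strict : ∀ {σ : ℕ → ℝ}, σ 0 = 0 → (∀ j < N, σ j < σ (j + 1)) →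
        ∀ {L L' : List (Lv Bool)}, List.Forall₂ (Rk1 spin) L (lsg z σ N) →
        List.Forall₂ (Rk1 spin) L' (lsg z' (fun j => σ (ν j)) N') →
        Wd L' ((V ++ [f]).map fun f j => f (ν j)) k = Wd L (V ++ [f]) (ν k) := by
      intro σ h0 hσ L L' H H'
      have : ∀ᶠ t in 𝓝 (0 : ℝ), ∀ j ∈ Finset.range N, 0 < σ (j + 1) - σ j + (f (j + 1) - f j) * t :=
        (Finset.eventually_all _).2 fun j hj => continuousAt_const.eventually_lt (by fun_prop)
          (by simpa using hσ j (Finset.mem_range.1 hj))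
      obtain ⟨I, hI, oI, i0⟩ := eventually_nhds_iff.1 this
      have up : ∀ t ∈ I, Up (fun j => σ j + t * f j) N := fun t ht j hj => by
        have := hI t ht j (Finset.mem_range.2 hj)
        show σ j + t * f j ≤ σ (j + 1) + t * f (j + 1)
        linarith
      have d1 := der_pth (z := z) (s := σ) oI
        (fun j hj => Or.inr fun t ht => hI t ht j (Finset.mem_range.2 hj)) f0 i0 V (ν k)
      have d2 := der_pth (z := z') (s := fun j => σ (ν j)) (f := fun j => f (ν j)) (N := N') oI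
        (fun j hj => by
          rcases h.step j hj with ⟨a, -⟩ | ⟨a, -⟩
          · exact Or.inl (by rw [a, sub_self])
          · refine Or.inr fun t ht => ?_
            have := h.le (k := j + 1) hj
            rw [a]
            exact hI t ht _ (Finset.mem_range.2 (by omega))) (by rw [h.zero, f0]) i0
        (V.map fun f j => f (ν j)) k
      have e := d2.unique (d1.congr_of_eventuallyEq (by
        filter_upwards [oI.mem_nhds i0] with t ht
        exact ih' (σ := fun j => σ j + t * f j) (by simp [h0, f0]) (up t ht)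
          (rk1_pth t N z σ f (up t ht)) (rk1_pth t N' z' _ _ (h.up (up t ht)))))
      have R := rk1_pth 0 N z σ f (up 0 i0)
      have R' := rk1_pth 0 N' z' (fun j => σ (ν j)) (fun j => f (ν j)) (h.up (up 0 i0))
      simp only [zero_mul, add_zero] at R R'
      rw [Wd_rk1 R H, Wd_rk1 R' H'] at e
      rw [List.map_append]
      exact e
    intro σ h0 hσ L L' H H'
    have up : ∀ t, 0 ≤ t → Up (fun j => σ j + t * j) N := fun t a j hj => by
      have := hσ j hj
      show σ j + t * j ≤ σ (j + 1) + t * (j + 1 : ℕ)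
      push_cast
      linarith
    have c1 := cont_pth z σ (fun j => j) N (V ++ [f]) (ν k) 0 (by simp)
    have c2 := cont_pth z' (fun j => σ (ν j)) (fun j => ν j) N'
      ((V ++ [f]).map fun f j => f (ν j)) k 0 (by simp)
    have e : ∀ t ∈ Ioc (0 : ℝ) 1, Wd (mat (pth z' (fun j => σ (ν j)) (fun j => ν j) N') t)
        ((V ++ [f]).map fun f j => f (ν j)) k =
        Wd (mat (pth z σ (fun j => j) N) t) (V ++ [f]) (ν k) := fun t ht =>
      strict (σ := fun j => σ j + t * j) (by simp [h0]) (fun j hj => by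
          have := hσ j hj
          have := ht.1
          show σ j + t * j < σ (j + 1) + t * (j + 1 : ℕ)
          push_cast
          linarith) (rk1_pth t N z σ _ (up t ht.1.le))
        (rk1_pth t N' z' _ _ (h.up (up t ht.1.le)))
    have R := rk1_pth 0 N z σ _ (up 0 le_rfl)
    have R' := rk1_pth 0 N' z' (fun j => σ (ν j)) (fun j => ν j) (h.up (up 0 le_rfl))
    simp only [zero_mul, add_zero] at R R'
    rw [← Wd_rk1 R H, ← Wd_rk1 R' H']
    exact le_antisymm
      (ContinuousWithinAt.closure_le (s := Ioc 0 1) (x := 0) (by simp)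
        (c2.mono Ioc_subset_Icc_self) (c1.mono Ioc_subset_Icc_self) fun t ht => (e t ht).le)
      (ContinuousWithinAt.closure_le (s := Ioc 0 1) (x := 0) (by simp)
        (c1.mono Ioc_subset_Icc_self) (c2.mono Ioc_subset_Icc_self) fun t ht => (e t ht).ge)

end Col

end Crest.Agent.T156.Hess65

end
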