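import Crest.Agent.T156.HbD_68
import Crest.Agent.T156.R1Mix_65

/-!
# Row 156 (helper68): words and zero levels, crude bounds, Taylor formula, continuity
-/

set_option autoImplicit false
set_option linter.all false

noncomputable section

namespace Crest.Agent.T156.Cas.Hb68

open MeasureTheory Real Set Filter Topology
open Crest.Agent.T157.E Crest.Agent.T157.Casc Crest.Agent.T157.SL
open Crest.ProbabilityR.SpinGlassDynamics (spin)
open Nu87 Ker15 Hom68 Mul55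

section gen

variable {Ω : Type} [Fintype Ω] {w : Ω → ℝ} {r : ℕ}

/-! ### zero levels -/

theorem ex_ins (l : Lv Ω) (B : List (Lv Ω)) : ∀ (A : List (Lv Ω)) (j : ℕ),
    ex (A ++ l :: B) (up A.length j) = ex (A ++ B) j
  | [], _ => rfl
  | _ :: _, 0 => rfl
  | a :: A, j + 1 => by
    have e : up (a :: A).length (j + 1) = up A.length j + 1 := by
      simp only [up, List.length_cons]; split_ifs <;> omega
    rw [e]
    exact ex_ins l B A j

theorem sum_up' (T : ℕ → ℝ) {n K : ℕ} (h : n ≤ K) :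
    ∑ j ∈ Finset.range (K + 1), T j = T n + ∑ j ∈ Finset.range K, T (up n j) := by
  induction K, h using Nat.le_induction with
  | base =>
    rw [Finset.sum_range_succ, add_comm]
    exact congrArg _ (Finset.sum_congr rfl fun j hj => by rw [up, if_pos (Finset.mem_range.1 hj)])
  | succ K h ih =>
    rw [Finset.sum_range_succ, ih, Finset.sum_range_succ, up, if_neg (by omega), add_assoc]

theorem Ws_ref (A B : List (Lv Ω)) (l : Lv Ω) (τ : SM r) (G : Fin r → ℕ → ℝ) :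
    Ws (A ++ l :: B) τ (fun a j => G a (dn A.length j)) =
      Ws (A ++ B) (fun a b => dn A.length (τ a b)) G := by
  have h : A.length ≤ (A ++ B).length := by simp
  have e1 : dn A.length ((A ++ B).length + 1) = (A ++ B).length := by
    rw [dn, if_neg (by omega)]; rfl
  have e2 : dn A.length (A.length + 1) = dn A.length A.length := by
    rw [dn, dn, if_neg (by omega), if_pos le_rfl]; rfl
  have e3 : ∀ j, dn A.length (up A.length j + 1) = j + 1 := fun j => by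
    unfold dn up; split_ifs <;> omega
  have e4 : ∀ a j, cls τ a (up A.length j + 1) =
      cls (fun a b => dn A.length (τ a b)) a (j + 1) := fun a j =>
    congrArg Finset.card (Finset.filter_congr fun b _ => by
      show _ ↔ j + 1 ≤ dn A.length (τ a b)
      unfold dn up; split_ifs <;> omega)
  rw [Ws, Ws, len_ins, e1, sum_up' _ h, e2]
  simp only [sub_self, zero_div, Finset.sum_const_zero, mul_zero, zero_add, ex_ins, dn_up, e3, e4]

theorem gr_dn {n K : ℕ} (h : n ≤ K) (τ : SM r) (a : Fin r) (j : ℕ) :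
    (fun b c => dn n (gr (K + 1) τ a j b c)) = gr K (fun a b => dn n (τ a b)) a (dn n j) := by
  funext b c
  refine Fin.cases ?_ (fun b => ?_) b <;> refine Fin.cases ?_ (fun c => ?_) c
  · rw [gr_00, gr_00, dn, if_neg (by omega)]; rfl
  · rw [gr_0s, gr_0s, (dn_mono n).map_min]
  · rw [gr_s0, gr_s0, (dn_mono n).map_min]
  · rfl

theorem up1_ref (A B : List (Lv Ω)) (l : Lv Ω) (τ : SM (r + 1)) (φ : SM (r + 2) → ℝ) :
    up1 (A ++ l :: B) (fun σ => φ fun a b => dn A.length (σ a b)) τ =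
      up1 (A ++ B) φ fun a b => dn A.length (τ a b) := by
  rw [up1, up1, ← Ws_ref A B l, len_ins]
  simp only [gr_dn (show A.length ≤ (A ++ B).length by simp)]

/-- a letter read on the refined cascade -/
def rd {α : Type} (n : ℕ) (S : ℕ → α) : ℕ → α := fun j => S (dn n j)

theorem nW_ref (hw : Wt w) (A B : List (Lv Ω)) (μ : ℝ) (h : Ω → ℝ) :
    ∀ (U : List (ℕ → Ω → Ω → ℝ)) {r : ℕ} (τ : SM (r + 1)), Rz (A ++ z0 Ω μ :: B).length τ →
    ∀ F : RF Ω (r + 1), nW w (A ++ z0 Ω μ :: B) h (U.map (rd A.length)) τ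
      (fun x σ => F x fun a b => dn A.length (σ a b)) =
      nW w (A ++ B) h U (fun a b => dn A.length (τ a b)) F
  | [], _, τ, hτ, F => TM_del hw A B μ hτ h _
  | S :: U, r, τ, hτ, F => by
    rw [nW, ← up1_ref A B (z0 Ω μ)]
    refine up1_congr hτ fun τ' hτ' => ?_
    rw [← up1_ref A B (z0 Ω μ)]
    exact up1_congr hτ' fun σ hσ => nW_ref hw A B μ h U σ hσ (Dr S F)

theorem rd_mem {n K : ℕ} (h : n ≤ K) {S : ℕ → Ω → Ω → ℝ} (hS : S ∈ Ok Ω K) :
    rd n S ∈ Ok Ω (K + 1) := by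
  have e1 : dn n (K + 1) = K := by rw [dn, if_neg (by omega)]; rfl
  have e0 : dn n 0 = 0 := if_pos (Nat.zero_le _)
  rw [mem_Ok, rd, rd, e1, e0]
  exact hS

theorem tw_dn {n K : ℕ} (h : n ≤ K) (j : ℕ) :
    (fun a b => dn n (tw (K + 1) j a b)) = tw K (dn n j) := by
  have e1 : dn n (K + 1) = K := by rw [dn, if_neg (by omega)]; rfl
  rw [tw, gr_dn h, tw]
  simp only [e1]

/-- **zero levels do not matter** -/
theorem twoF_ref (hw : Wt w) (A B : List (Lv Ω)) (μ : ℝ) (h : Ω → ℝ)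
    {U : List (ℕ → Ω → Ω → ℝ)} (hU : ∀ S ∈ U, S ∈ Ok Ω (A ++ B).length) {j : ℕ}
    (hj : j ≤ (A ++ B).length + 1) (Q : Ω → Ω → ℝ) :
    twoF j Q (WdO (A ++ z0 Ω μ :: B) (U.map (rd A.length)) (TEf w (A ++ z0 Ω μ :: B) h)) =
      twoF (dn A.length j) Q (WdO (A ++ B) U (TEf w (A ++ B) h)) := by
  have hn : A.length ≤ (A ++ B).length := by simp
  have e1 := twoF_eq_nW (L := A ++ z0 Ω μ :: B) (h := h) hw (U := U.map (rd A.length))
    (fun S hS => by
      obtain ⟨T, hT, rfl⟩ := List.mem_map.1 hS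
      rw [len_ins]; exact rd_mem hn (hU T hT)) (j := j) (by rwa [len_ins]) fun _ => Q
  have e2 := twoF_eq_nW (h := h) hw hU (j := dn A.length j) (by unfold dn; split_ifs <;> omega)
    fun _ => Q
  refine e1.trans (Eq.trans ?_ e2.symm)
  rw [← tw_dn hn, ← len_ins A B (z0 Ω μ)]
  exact nW_ref hw A B μ h U _ (rz_tw _ _) (ed (fun _ => Q) 0 1)

theorem dm_ref (A B : List (Lv Ω)) (l : Lv Ω) (g : ℕ → ℝ) :
    ∑ j ∈ Finset.range ((A ++ l :: B).length + 1), dm (A ++ l :: B) 0 j * g (dn A.length j) =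
      ∑ j ∈ Finset.range ((A ++ B).length + 1), dm (A ++ B) 0 j * g j := by
  have hn : A.length ≤ (A ++ B).length := by simp
  have e1 := avm_one (L := A ++ l :: B) fun σ => g (dn A.length (σ 0 1))
  have e2 := avm_one (L := A ++ B) fun σ => g (σ 0 1)
  have e3 := up1_ref A B l (fun _ _ : Fin 1 => (A ++ l :: B).length) fun σ => g (σ 0 1)
  have e4 : dn A.length (A ++ l :: B).length = (A ++ B).length := by
    rw [len_ins, dn, if_neg (by omega)]; rfl
  simp only [e4] at e3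
  refine Eq.trans ?_ ((e1.symm.trans (e3.trans e2)).trans ?_) <;>
    exact Finset.sum_congr rfl fun j hj => by
      rw [tw_01 (Nat.lt_succ_iff.1 (Finset.mem_range.1 hj))]

/-! ### crude bounds -/

/-- the constant of a word -/
def cW (N k : ℕ) : ℝ := (4 * ((N + 2 * k : ℕ) : ℝ) ^ 2) ^ k

theorem cW_nonneg (N k : ℕ) : 0 ≤ cW N k := by unfold cW; positivity

theorem abs_WdO (hw : Wt w) {M M' : List (Lv Ω)} (hM : Mono 0 M) (h : Ω → ℝ) :
    ∀ (U : List (ℕ → Ω → Ω → ℝ)), (∀ S ∈ U, ∀ j x y, |S j x y| ≤ 1) → ∀ (s : Sh) (N : ℕ),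
    Fintype.card s.Lf ≤ N → ∀ (F : (s.Lf → Ω) → ℝ) (b : ℝ), 0 ≤ b → (∀ x, |F x| ≤ b) →
    |WdO M U (TEf w M' h) s F| ≤ cW N U.length * b
  | [], _, s, N, _, F, b, _, hF => (One15.abs_TE_le hw s M' h hF).trans_eq (by simp [cW])
  | S :: U, hU, s, N, hN, F, b, b0, hF => by
    have c0 := cW_nonneg (N + 2) U.length
    rw [WdO_cons, Dop_eq_sg]
    refine (abs_sg_le hM s (Ψ := fun _ => cW (N + 2) U.length * b) fun τ hτ =>
      abs_WdO hw hM h U (fun T hT => hU T (by simp [hT])) τ.sh (N + 2) (hτ.card.trans (by omega))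
        _ b b0 fun x => (abs_ev τ hF (hU S (by simp) _) x).trans_eq (mul_one b)).trans
      ((sg_le M s hN (by positivity)).trans ?_)
    rw [← mul_assoc]
    refine mul_le_mul_of_nonneg_right ?_ b0
    have e : N + 2 + 2 * U.length = N + 2 * (U.length + 1) := by ring
    rw [cW, cW, List.length_cons, pow_succ' _ U.length, e]
    gcongr
    omega

/-- the first letter is weighted -/
theorem abs_two (hw : Wt w) {M : List (Lv Ω)} (hM : Mono 0 M) (M' : List (Lv Ω)) (h : Ω → ℝ)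
    {S : ℕ → Ω → Ω → ℝ} {g : ℕ → ℝ} (hS : ∀ j x y, |S j x y| ≤ g j) {U : List (ℕ → Ω → Ω → ℝ)}
    (hU : ∀ S ∈ U, ∀ j x y, |S j x y| ≤ 1) {k : ℕ} (hk : k ≤ M.length) {Q : Ω → Ω → ℝ}
    (hQ : ∀ x y, |Q x y| ≤ 1) : |twoF k Q (WdO M (S :: U) (TEf w M' h))| ≤
      80 * cW 4 U.length * (g k + ∑ j ∈ Finset.range (M.length + 1), dm M 0 j * g j) := by
  obtain ⟨y, -⟩ := Finset.nonempty_of_sum_ne_zero hw.2.ne'
  have g0 : ∀ j, 0 ≤ g j := fun j => (abs_nonneg _).trans (hS j y y)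
  have c0 := cW_nonneg 4 U.length
  have n0 := Tay38.N0_nonneg hM g0
  rw [twoF, WdO_cons, Dop_eq_sg]
  refine (abs_sg_le hM _ (Ψ := fun τ => cW 4 U.length * g τ.j) fun τ hτ =>
    abs_WdO hw hM h U hU τ.sh 4 (hτ.card.trans (by rw [Wt87.card_two])) _ _ (g0 _) fun x =>
      (abs_ev τ (fun x => hQ _ _) (hS _) x).trans_eq (one_mul _)).trans ?_
  rw [sg_const_mul]
  refine (mul_le_mul_of_nonneg_left (sg_lvl hM _ g0) c0).trans ?_
  rw [Wt87.card_two, Nv, Tay38.prs_two, Wt87.shr_comm _ (Sh.twoR k), Wt87.shr_two, min_eq_left hk]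
  have := mul_nonneg c0 n0
  push_cast
  nlinarith

/-! ### Taylor formula along a segment -/

variable {M M' : List (Lv Ω)}

theorem TEf_mid0 (hw : Wt w) (H : ST M M') (h : Ω → ℝ) : TEf w (mid M M' 0) h = TEf w M h :=
  funext fun s => funext fun F => Law.TE_same hw s (same0 H) F h

theorem TEf_mid1 (hw : Wt w) (H : ST M M') (h : Ω → ℝ) : TEf w (mid M M' 1) h = TEf w M' h :=
  funext fun s => funext fun F => Law.TE_same hw s (same1 H) F h

theorem der_word (hw : Wt w) (H : ST M M') {c : ℝ} (hc : ∀ y, dC M M' M.length y y = c)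
    (h : Ω → ℝ) {Φ : Fn Ω → ℝ} (hΦ : FL Φ) (V : List (ℕ → Ω → Ω → ℝ)) {t : ℝ}
    (ht : t ∈ Ioo (0 : ℝ) 1) : HasDerivAt (fun t => Φ (WdO M V (TEf w (mid M M' t) h)))
      (Φ (WdO M (V ++ [hK M M']) (TEf w (mid M M' t) h))) t := by
  rw [WdO_append]
  refine hΦ _ (Tay38.lin_der t) (fun t => WdO M V (TEf w (mid M M' t) h)) _
    (Hess65.lin_wdO (Tay38.lin_der t) M (Λ := fun t => TEf w (mid M M' t) h) (fun s F => ?_) V)
  rw [WdO_cons, WdO_nil, Dop_eq_sg]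
  exact der_mid hw H hc s h F ht

theorem cont_word (hw : Wt w) (M M' : List (Lv Ω)) (h : Ω → ℝ) {Φ : Fn Ω → ℝ} (hΦ : FL Φ)
    (V : List (ℕ → Ω → Ω → ℝ)) :
    ContinuousOn (fun t => Φ (WdO M V (TEf w (mid M M' t) h))) (Icc 0 1) :=
  hΦ _ (Tay38.lin_cont _) (fun t => WdO M V (TEf w (mid M M' t) h)) (WdO M V fun _ _ => 0)
    (Hess65.lin_wdO (Tay38.lin_cont _) M (Λ := fun t => TEf w (mid M M' t) h) (Λ' := fun _ _ => 0)
      (fun s F => cont_mid hw M M' s h F) V)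

theorem tay_word (hw : Wt w) (H : ST M M') {c : ℝ} (hc : ∀ y, dC M M' M.length y y = c)
    (h : Ω → ℝ) {Φ : Fn Ω → ℝ} (hΦ : FL Φ) (V : List (ℕ → Ω → Ω → ℝ)) (k : ℕ) :
    ∃ θ ∈ Ioo (0 : ℝ) 1, Φ (WdO M V (TEf w M' h)) = ∑ i ∈ Finset.range (k + 1),
      Φ (WdO M (V ++ List.replicate i (hK M M')) (TEf w M h)) / i.factorial +
      Φ (WdO M (V ++ List.replicate (k + 1) (hK M M')) (TEf w (mid M M' θ) h)) /
        (k + 1).factorial := by
  obtain ⟨θ, hθ, e⟩ := Tay38.taylor_seq zero_lt_one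
    (fun i t => Φ (WdO M (V ++ List.replicate i (hK M M')) (TEf w (mid M M' t) h))) k
    (fun i _ => cont_word hw M M' h hΦ _) fun i _ t ht => by
      rw [List.replicate_succ', ← List.append_assoc]
      exact der_word hw H hc h hΦ _ ht
  refine ⟨θ, hθ, ?_⟩
  simpa only [TEf_mid0 hw H, TEf_mid1 hw H, sub_zero, one_pow, mul_one, List.replicate_zero,
    List.append_nil] using e

/-! ### continuity -/

/-- convergence of cascades -/
structure Tz (w : Ω → ℝ) (h : Ω → ℝ) (𝓕 : Filter ℝ) (R : ℝ → List (Lv Ω)) (R₀ : List (Lv Ω)) :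
    Prop where
  len : ∀ t, (R t).length = R₀.length
  ex : ∀ j, Tendsto (fun t => ex (R t) j) 𝓕 (𝓝 (ex R₀ j))
  tm : ∀ (r : ℕ) (τ : SM r), Rz R₀.length τ → ∀ G,
    Tendsto (fun t => TM w (R t) h τ G) 𝓕 (𝓝 (TM w R₀ h τ G))

variable {h : Ω → ℝ} {𝓕 : Filter ℝ} {R : ℝ → List (Lv Ω)} {R₀ : List (Lv Ω)}

theorem Tz.up1 (H : Tz w h 𝓕 R R₀) {τ : SM (r + 1)} (hτ : Rz R₀.length τ)
    {φ : ℝ → SM (r + 2) → ℝ} {φ₀ : SM (r + 2) → ℝ}
    (e : ∀ σ, Rz R₀.length σ → Tendsto (fun t => φ t σ) 𝓕 (𝓝 (φ₀ σ))) :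
    Tendsto (fun t => up1 (R t) (φ t) τ) 𝓕 (𝓝 (up1 R₀ φ₀ τ)) := by
  simp only [Cas.up1, Ws, H.len]
  exact ((tendsto_finset_sum _ fun a _ => e _ (hτ.gr a _)).add (tendsto_finset_sum _ fun j _ =>
    (H.ex j).mul (tendsto_finset_sum _ fun a _ =>
      ((e _ (hτ.gr a _)).sub (e _ (hτ.gr a _))).div_const _))).div_const _

theorem Tz.nW (H : Tz w h 𝓕 R R₀) : ∀ (U : List (ℕ → Ω → Ω → ℝ)) {r : ℕ} (τ : SM (r + 1)),
    Rz R₀.length τ → ∀ F : RF Ω (r + 1),
    Tendsto (fun t => nW w (R t) h U τ F) 𝓕 (𝓝 (nW w R₀ h U τ F))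
  | [], _, τ, hτ, F => H.tm _ τ hτ _
  | S :: U, _, τ, hτ, F => H.up1 hτ fun _ hσ => H.up1 hσ fun σ hσ => H.nW U σ hσ (Dr S F)

theorem Tz.two (hw : Wt w) (H : Tz w h 𝓕 R R₀) {U : List (ℕ → Ω → Ω → ℝ)}
    (hU : ∀ S ∈ U, S ∈ Ok Ω R₀.length) {j : ℕ} (hj : j ≤ R₀.length) (Q : Ω → Ω → ℝ) :
    Tendsto (fun t => twoF j Q (WdO (R t) U (TEf w (R t) h))) 𝓕
      (𝓝 (twoF j Q (WdO R₀ U (TEf w R₀ h)))) := by
  have e := fun t => twoF_eq_nW (L := R t) (h := h) hw (U := U) (by rw [H.len]; exact hU)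
    (j := j) (by rw [H.len]; exact hj) fun _ => Q
  simp only [H.len] at e
  simp only [e, twoF_eq_nW (h := h) hw hU hj fun _ => Q]
  exact H.nW U _ (rz_tw _ _) _

theorem Tz.dm (H : Tz w h 𝓕 R R₀) : ∀ j, Tendsto (fun t => dm (R t) 0 j) 𝓕 (𝓝 (dm R₀ 0 j))
  | 0 => (H.ex 0).sub tendsto_const_nhds
  | j + 1 => (H.ex _).sub (H.ex j)

theorem tz_of (hw : Wt w) (hl : ∀ t, (R t).length = R₀.length)
    (he : ∀ j, Tendsto (fun t => ex (R t) j) 𝓕 (𝓝 (ex R₀ j))) {δ : ℕ → ℝ → ℝ}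
    (hδ : ∀ N, Tendsto (δ N) 𝓕 (𝓝 0)) (hC : ∀ N, ∀ᶠ t in 𝓕, Cl w N R₀ h (R t) h (δ N t)) :
    Tz w h 𝓕 R R₀ := ⟨hl, he, fun r τ hτ G => by
  obtain ⟨b, hb⟩ := (Set.finite_range fun x => |G x|).bddAbove
  refine tendsto_sub_nhds_zero_iff.1 (squeeze_zero_norm' ((hC r).mono fun t ht =>
    ht.2 r τ le_rfl hτ G b fun x => hb ⟨x, rfl⟩) ?_)
  simpa using (hδ r).mul_const b⟩

end gen

/-! ### site words -/

open R1J (W sk ind n1)

theorem W_ref (A B : List (Lv Bool)) (μ : ℝ) {V : List (ℕ → ℝ)} (hV : ∀ f ∈ V, f 0 = 0) {j : ℕ}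
    (hj : j ≤ (A ++ B).length + 1) :
    W (A ++ z0 Bool μ :: B) j (V.map (rd A.length)) = W (A ++ B) (dn A.length j) V := by
  have := twoF_ref One15.w1 A B μ 0 (Hd50.sk_all hV) hj fun a b => spin a * spin b
  rw [List.map_map] at this
  rw [W, List.map_map]
  exact this

theorem n1_ref (A B : List (Lv Bool)) (l : Lv Bool) (f : ℕ → ℝ) :
    n1 (A ++ l :: B) (rd A.length f) = n1 (A ++ B) f := dm_ref A B l fun j => |f j|

theorem rf_split {L : List (Lv Bool)} {i : ℕ} (hi : i < L.length) (b : Bool) :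
    ∃ (A B : List (Lv Bool)) (μ : ℝ), rf L i b = A ++ z0 Bool μ :: B ∧ A ++ B = L ∧
      A.length = i + b.toNat := by
  obtain ⟨m, e⟩ := rf_eq L i b hi
  exact ⟨_, _, m, e, List.take_append_drop _ _,
    List.length_take_of_le (by cases b <;> simp <;> omega)⟩

/-- **refinement invariance** -/
theorem W_rf {L : List (Lv Bool)} {i : ℕ} (hi : i < L.length) (b : Bool) {V : List (ℕ → ℝ)}
    (hV : ∀ f ∈ V, f 0 = 0) {j : ℕ} (hj : j ≤ L.length + 1) :
    W (rf L i b) j (V.map (rd (i + b.toNat))) = W L (dn (i + b.toNat) j) V := by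
  obtain ⟨A, B, μ, e, rfl, e'⟩ := rf_split hi b
  rw [e, ← e']
  exact W_ref A B μ hV hj


theorem abs_sk (f : ℕ → ℝ) (j : ℕ) (x y : Bool) : |sk f j x y| ≤ |f j| := by
  rw [sk, abs_mul, abs_mul, One15.abs_spin, One15.abs_spin, abs_div, _root_.abs_two]
  linarith [abs_nonneg (f j)]

theorem abs_W' {L : List (Lv Bool)} (hL : Mono 0 L) (M : List (Lv Bool)) (h : Bool → ℝ) {k : ℕ}
    (hk : k ≤ L.length) (f : ℕ → ℝ) {V : List (ℕ → ℝ)} (hV : ∀ g ∈ V, ∀ j, |g j| ≤ 1) :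
    |twoF k (fun a b => spin a * spin b) (WdO L ((f :: V).map sk) (TEf (fun _ => 1) M h))| ≤
      80 * cW 4 V.length * (|f k| + n1 L f) := by
  have := abs_two One15.w1 hL M h (abs_sk f) (U := V.map sk) (fun S hS j x y => by
    obtain ⟨g, hg, rfl⟩ := List.mem_map.1 hS
    exact (abs_sk g j x y).trans (hV g hg j)) hk (Q := fun a b => spin a * spin b)
    fun x y => by simp [abs_mul, One15.abs_spin]
  rwa [List.length_map] at this

/-- **crude bound**, any length, the first letter weighted -/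
theorem abs_W {L : List (Lv Bool)} (hL : Mono 0 L) {k : ℕ} (hk : k ≤ L.length) (f : ℕ → ℝ)
    {V : List (ℕ → ℝ)} (hV : ∀ g ∈ V, ∀ j, |g j| ≤ 1) :
    |W L k (f :: V)| ≤ 80 * cW 4 V.length * (|f k| + n1 L f) := abs_W' hL L 0 hk f hV

end Crest.Agent.T156.Cas.Hb68

end
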