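import Crest.Agent.T156.NuW_87
import Crest.Agent.T156.CluB_22
import Crest.Agent.T156.SclT_90
import Crest.Agent.T156.CaTrf_56

/-!
# Row 156 (helper68): homogeneity of tree expectations

`At R h n K σ F` is the response of `TM R h σ F` to a unit tilt jump at the node `n`.
-/

set_option autoImplicit false
set_option linter.unusedSectionVars false
set_option linter.unusedVariables false

noncomputable section

namespace Crest.Agent.T156.Cas.Hom68

open MeasureTheory Real Set Filter Topology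
open Crest.Agent.T157.E Crest.Agent.T157.Casc Crest.Agent.T157.SL
open Crest.Agent.T157.Casc.C (Same)
open Nu87 Ker15

variable {Ω : Type} [Fintype Ω] {w : Ω → ℝ} {r : ℕ}

/-- a kernel on one level -/
def sgl (n : ℕ) (K : Ω → Ω → ℝ) : ℕ → Ω → Ω → ℝ := fun i => if i = n then K else 0

/-- sum over the branches above the node of depth `n` -/
def Br (σ : SM r) (n : ℕ) (G : Fin r → ℝ) : ℝ := ∑ a, G a / cls σ a (n + 1)

/-- the atom operator on functions of split matrices -/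
def AtW (R : List (Lv Ω)) (n : ℕ) (σ : SM r) (Ψ₁ : SM (r + 1) → ℝ) (Ψ₂ : SM (r + 2) → ℝ) : ℝ :=
  -Br σ n (fun a => Ψ₁ (gr R.length σ a n)) +
    Ws R σ (fun a j => if j = n then 0 else
      Br (gr R.length σ a j) n fun c => Ψ₂ (gr R.length (gr R.length σ a j) c n)) +
    Br σ n fun a => Ws R (gr R.length σ a n) fun c k => Ψ₂ (gr R.length (gr R.length σ a n) c k)

/-- old end, new end -/
def Q1 (w : Ω → ℝ) (R : List (Lv Ω)) (h : Ω → ℝ) (S : ℕ → Ω → Ω → ℝ) (F : (Fin r → Ω) → ℝ) :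
    SM (r + 1) → ℝ := fun τ => TM w R h τ fun x => F (fun c => x c.succ) *
      (∑ b : Fin r, (ed S b.succ 0 x τ + ed S 0 b.succ x τ) + ed S 0 0 x τ)

/-- two new ends -/
def Q2 (w : Ω → ℝ) (R : List (Lv Ω)) (h : Ω → ℝ) (S : ℕ → Ω → Ω → ℝ) (F : (Fin r → Ω) → ℝ) :
    SM (r + 2) → ℝ := fun τ => TM w R h τ fun x => F (fun b => x b.succ.succ) * ed S 0 1 x τ

/-- **the atom operator** -/
def At (w : Ω → ℝ) (R : List (Lv Ω)) (h : Ω → ℝ) (n : ℕ) (K : Ω → Ω → ℝ) (σ : SM r)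
    (F : (Fin r → Ω) → ℝ) : ℝ := AtW R n σ (Q1 w R h (sgl n K) F) (Q2 w R h (sgl n K) F)

theorem dM_Q (R : List (Lv Ω)) (h : Ω → ℝ) (S : ℕ → Ω → Ω → ℝ) (σ : SM r) (F : (Fin r → Ω) → ℝ) :
    dM w R h S σ F = TM w R h σ (fun x => F x * ∑ a, ∑ b, ed S a b x σ) -
      Ws R σ (fun a j => Q1 w R h S F (gr R.length σ a j)) +
      Ws R σ fun a j => Ws R (gr R.length σ a j) fun c k =>
        Q2 w R h S F (gr R.length (gr R.length σ a j) c k) := rfl

theorem TM_zero (R : List (Lv Ω)) (h : Ω → ℝ) (σ : SM r) : TM w R h σ (fun _ => 0) = 0 := by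
  simp [TM]

/-- weights of a node without split -/
theorem Ws_single (R : List (Lv Ω)) {σ : SM r} {n : ℕ} (h0 : 0 < n) (hn : n < R.length)
    (hσ : ∀ a b, σ a b ≠ n) {G : Fin r → ℕ → ℝ} (hG : ∀ a j, j ≤ R.length → j ≠ n → G a j = 0) :
    Ws R σ G = dm R 0 n * Br σ n fun a => G a n := by
  obtain ⟨n, rfl⟩ := Nat.exists_eq_succ_of_ne_zero h0.ne'
  have hc : ∀ a, cls σ a (n + 1) = cls σ a (n + 1 + 1) := fun a =>
    congrArg Finset.card (Finset.filter_congr fun b _ => by have := hσ a b; omega)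
  rw [Ws, Finset.sum_eq_zero fun a _ => hG a _ le_rfl hn.ne', zero_add,
    Finset.sum_eq_add n (n + 1) (by omega) (fun j hj hne => by
      have := Finset.mem_range.1 hj
      rw [Finset.sum_eq_zero fun a _ => by
        rw [hG a j this.le hne.2, hG a (j + 1) this (by omega), sub_zero, zero_div], mul_zero])
      (fun h => absurd (Finset.mem_range.2 (by omega)) h)
      (fun h => absurd (Finset.mem_range.2 hn) h)]
  simp only [fun a => hG a n (by omega) (by omega), fun a => hG a (n + 1 + 1) hn (by omega), hc,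
    zero_sub, sub_zero, neg_div, Finset.sum_neg_distrib, dm, exP, Br]
  ring

theorem gr_ne {K n : ℕ} {σ : SM r} (hK : K ≠ n) (hσ : ∀ a b, σ a b ≠ n) (a : Fin r) {j : ℕ}
    (hj : j ≠ n) : ∀ b c, gr K σ a j b c ≠ n := fun b c => by
  refine Fin.cases ?_ (fun b => ?_) b <;> refine Fin.cases ?_ (fun c => ?_) c
  · exact hK
  · rw [gr_0s]; have := hσ c a; omega
  · rw [gr_s0]; have := hσ b a; omega
  · exact hσ b c

theorem ed_sgl {n : ℕ} (K : Ω → Ω → ℝ) {τ : SM r} {a b : Fin r} (h : τ a b ≠ n) (x : Fin r → Ω) :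
    ed (sgl n K) a b x τ = 0 := by simp [ed, sgl, h]

/-- **(S)** a node without split responds through its tilt jump -/
theorem dM_single (R : List (Lv Ω)) (h : Ω → ℝ) {σ : SM r} {n : ℕ} (h0 : 0 < n)
    (hn : n < R.length) (hσ : ∀ a b, σ a b ≠ n) (K : Ω → Ω → ℝ) (F : (Fin r → Ω) → ℝ) :
    dM w R h (sgl n K) σ F = dm R 0 n * At w R h n K σ F := by
  have e1 : Ws R σ (fun a j => Q1 w R h (sgl n K) F (gr R.length σ a j)) = _ :=
    Ws_single R h0 hn hσ fun a j _ hj => by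
      simp only [Q1, ed_sgl K (gr_ne hn.ne' hσ a hj _ _), add_zero, Finset.sum_const_zero, mul_zero,
        TM_zero]
  have e2 : Ws R σ (fun a j => if j = n then Ws R (gr R.length σ a n) fun c k =>
      Q2 w R h (sgl n K) F (gr R.length (gr R.length σ a n) c k) else 0) = _ :=
    Ws_single R h0 hn hσ fun a j _ hj => if_neg hj
  have e3 : (Ws R σ fun a j => Ws R (gr R.length σ a j) fun c k =>
      Q2 w R h (sgl n K) F (gr R.length (gr R.length σ a j) c k)) =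
      Ws R σ fun a j => dm R 0 n * (if j = n then 0 else Br (gr R.length σ a j) n fun c =>
        Q2 w R h (sgl n K) F (gr R.length (gr R.length σ a j) c n)) +
        if j = n then Ws R (gr R.length σ a n) fun c k =>
          Q2 w R h (sgl n K) F (gr R.length (gr R.length σ a n) c k) else 0 :=
    Ws_congr R σ fun a j _ => by
      by_cases hj : j = n
      · simp [hj]
      · rw [if_neg hj, if_neg hj, add_zero]
        refine Ws_single R h0 hn (gr_ne hn.ne' hσ a hj) fun c k _ hk => ?_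
        simp only [Q2, ed_sgl K (gr_ne hn.ne' (gr_ne hn.ne' hσ a hj) c hk _ _), mul_zero, TM_zero]
  rw [dM_Q, e1, e3, Ws_add, Ws_mul, e2]
  simp only [ed_sgl K (hσ _ _), Finset.sum_const_zero, mul_zero, TM_zero, At, AtW, if_true]
  ring

/-! ### bounds -/

theorem abs_Br (σ : SM r) (n : ℕ) {G : Fin r → ℝ} {p : ℝ} (hG : ∀ a, |G a| ≤ p) :
    |Br σ n G| ≤ r * p := by
  refine (Finset.abs_sum_le_sum_abs _ _).trans ((Finset.sum_le_card_nsmul _ _ p
    fun a _ => le_trans ?_ (hG a)).trans_eq (by simp))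
  rw [abs_div, Nat.abs_cast]
  rcases Nat.eq_zero_or_pos (cls σ a (n + 1)) with e | e
  · simp [e]
  · exact div_le_self (abs_nonneg _) (by exact_mod_cast e)

theorem abs_Ws {R : List (Lv Ω)} (hR : Mono 0 R) {σ : SM r} (hσ : Rz R.length σ)
    {G : Fin r → ℕ → ℝ} (hN : NCm σ G) {p : ℝ} (hG : ∀ a j, |G a j| ≤ p) : |Ws R σ G| ≤ r * p := by
  have h1 := Ws_mono hR hσ hN (G' := fun _ _ => p) (fun _ _ _ _ => rfl)
    fun a j _ => (abs_le.1 (hG a j)).2
  have h2 := Ws_mono hR hσ (G := fun _ _ => -p) (fun _ _ _ _ => rfl) hN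
    fun a j _ => (abs_le.1 (hG a j)).1
  rw [Ws_const, Fintype.card_fin] at h1 h2
  exact abs_le.2 ⟨by linarith, h1⟩

theorem Ws_wt {R R' : List (Lv Ω)} (hl : R'.length = R.length) (σ : SM r) {G : Fin r → ℕ → ℝ}
    {p D : ℝ} (hp : 0 ≤ p) (hG : ∀ a j, |G a j| ≤ p)
    (hD : ∑ j ∈ Finset.range R.length, |ex R' j - ex R j| ≤ D) :
    |Ws R' σ G - Ws R σ G| ≤ D * (r * (2 * p)) := by
  rw [Ws, Ws, hl, add_sub_add_left_eq_sub, ← Finset.sum_sub_distrib]
  refine (Finset.abs_sum_le_sum_abs _ _).trans (le_trans (Finset.sum_le_sum fun j _ => ?_)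
    ((Finset.sum_mul _ _ _).ge.trans (mul_le_mul_of_nonneg_right hD (by positivity))))
  rw [← sub_mul, abs_mul]
  exact mul_le_mul_of_nonneg_left (abs_Br σ j (G := fun a => G a j - G a (j + 1)) fun a =>
    (abs_sub _ _).trans (by linarith [hG a j, hG a (j + 1)])) (abs_nonneg _)

theorem ncm_ite {K n : ℕ} {σ : SM r} (hσ : Rz K σ) (φ : SM (r + 1) → ℝ) :
    NCm σ fun a j => if j = n then 0 else φ (gr K σ a j) := fun _ _ _ e => by
  simp only [hσ.gr_eq e]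

theorem abs_ite0 {p : Prop} [Decidable p] {a v : ℝ} (h : |a| ≤ v) : |if p then 0 else a| ≤ v := by
  split_ifs
  · rw [abs_zero]; exact (abs_nonneg _).trans h
  · exact h

theorem abs_AtW {R : List (Lv Ω)} (hR : Mono 0 R) (n : ℕ) {σ : SM r} (hσ : Rz R.length σ)
    {Ψ₁ : SM (r + 1) → ℝ} {Ψ₂ : SM (r + 2) → ℝ} {p₁ p₂ : ℝ}
    (h1 : ∀ τ, Rz R.length τ → |Ψ₁ τ| ≤ p₁) (h2 : ∀ τ, Rz R.length τ → |Ψ₂ τ| ≤ p₂) :
    |AtW R n σ Ψ₁ Ψ₂| ≤ r * p₁ + 2 * (r * ((r + 1 : ℕ) * p₂)) := by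
  have a1 := abs_Br σ n fun a => h1 _ (hσ.gr a n)
  have a2 := abs_Ws hR hσ (ncm_ite (n := n) hσ fun τ => Br τ n fun c => Ψ₂ (gr R.length τ c n))
    fun a j => abs_ite0 (abs_Br _ n fun c => h2 _ ((hσ.gr a j).gr c n))
  have a3 := abs_Br σ n fun a => abs_Ws hR (hσ.gr a n) ((hσ.gr a n).ncm Ψ₂)
    fun c k => h2 _ ((hσ.gr a n).gr c k)
  rw [AtW]
  refine (abs_add_three _ _ _).trans ?_
  rw [abs_neg]
  linarith

theorem Br_sub (σ : SM r) (n : ℕ) (G G' : Fin r → ℝ) :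
    Br σ n (fun a => G a - G' a) = Br σ n G - Br σ n G' := by
  simp only [Br, sub_div, Finset.sum_sub_distrib]


theorem AtW_sub (R : List (Lv Ω)) (n : ℕ) (σ : SM r) (Ψ₁ Ψ₁' : SM (r + 1) → ℝ)
    (Ψ₂ Ψ₂' : SM (r + 2) → ℝ) : AtW R n σ (fun τ => Ψ₁ τ - Ψ₁' τ) (fun τ => Ψ₂ τ - Ψ₂' τ) =
      AtW R n σ Ψ₁ Ψ₂ - AtW R n σ Ψ₁' Ψ₂' := by
  have : ∀ (p : Prop) [Decidable p] (a b : ℝ), (if p then 0 else a - b) =
      (if p then 0 else a) - if p then 0 else b := fun p _ a b => by split_ifs <;> simp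
  simp only [AtW, Br_sub, Ws_sub, this]
  ring


theorem AtW_wt {R R' : List (Lv Ω)} (hl : R'.length = R.length) (n : ℕ) {σ : SM r}
    (hσ : Rz R.length σ) (Ψ₁ : SM (r + 1) → ℝ) {Ψ₂ : SM (r + 2) → ℝ} {p D : ℝ} (hp : 0 ≤ p)
    (h2 : ∀ τ, Rz R.length τ → |Ψ₂ τ| ≤ p)
    (hD : ∑ j ∈ Finset.range R.length, |ex R' j - ex R j| ≤ D) :
    |AtW R' n σ Ψ₁ Ψ₂ - AtW R n σ Ψ₁ Ψ₂| ≤ 4 * (D * (r * ((r + 1 : ℕ) * p))) := by
  have a2 := Ws_wt hl σ (G := fun a j => if j = n then 0 else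
      Br (gr R.length σ a j) n fun c => Ψ₂ (gr R.length (gr R.length σ a j) c n)) (by positivity)
    (fun a j => abs_ite0 (abs_Br _ n fun c => h2 _ ((hσ.gr a j).gr c n))) hD
  have a3 := abs_Br σ n fun a => Ws_wt hl (gr R.length σ a n)
    (G := fun c k => Ψ₂ (gr R.length (gr R.length σ a n) c k)) hp
    (fun c k => h2 _ ((hσ.gr a n).gr c k)) hD
  rw [Br_sub] at a3
  rw [AtW, AtW, hl]
  have b2 := abs_le.1 a2
  have b3 := abs_le.1 a3
  refine abs_le.2 ⟨?_, ?_⟩ <;> nlinarith [b2.1, b2.2, b3.1, b3.2]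

/-- the constant of the atom operator -/
def cA (r : ℕ) : ℝ := r * (4 * r + 3)


theorem abs_TM (hw : Wt w) {R : List (Lv Ω)} (h : Ω → ℝ) {σ : SM r} (hσ : Rz R.length σ)
    {F : (Fin r → Ω) → ℝ} {b : ℝ} (hF : ∀ x, |F x| ≤ b) : |TM w R h σ F| ≤ b := by
  obtain ⟨s, e, rfl⟩ := hσ
  rw [TM_sm hw s R h e.injective]
  exact One15.abs_TE_le hw s R h fun x => hF _

theorem abs_ed {n : ℕ} {K : Ω → Ω → ℝ} {g : ℝ} (hK : ∀ x y, |K x y| ≤ g) (a b : Fin r)
    (x : Fin r → Ω) (τ : SM r) : |ed (sgl n K) a b x τ| ≤ g := by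
  unfold ed sgl
  split_ifs
  · exact hK _ _
  · simpa using (abs_nonneg _).trans (hK (x a) (x b))

theorem abs_q1 {n : ℕ} {K : Ω → Ω → ℝ} {g b : ℝ} (hK : ∀ x y, |K x y| ≤ g)
    {F : (Fin r → Ω) → ℝ} (hF : ∀ x, |F x| ≤ b) (τ : SM (r + 1)) (x : Fin (r + 1) → Ω) :
    |F (fun c => x c.succ) * (∑ b : Fin r, (ed (sgl n K) b.succ 0 x τ + ed (sgl n K) 0 b.succ x τ) +
      ed (sgl n K) 0 0 x τ)| ≤ (2 * r + 1) * (b * g) := by
  have h1 : |∑ b : Fin r, (ed (sgl n K) b.succ 0 x τ + ed (sgl n K) 0 b.succ x τ)| ≤ r * (2 * g) :=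
    (Finset.abs_sum_le_sum_abs _ _).trans ((Finset.sum_le_card_nsmul _ _ (2 * g) fun c _ =>
      (abs_add_le _ _).trans (by
        linarith [abs_ed (n := n) hK c.succ 0 x τ, abs_ed (n := n) hK 0 c.succ x τ])).trans_eq
          (by simp))
  rw [abs_mul]
  refine (mul_le_mul (hF _) ((abs_add_le _ _).trans (add_le_add h1 (abs_ed hK 0 0 x τ)))
    (abs_nonneg _) ((abs_nonneg _).trans (hF fun c => x c.succ))).trans_eq (by ring)

theorem abs_q2 {n : ℕ} {K : Ω → Ω → ℝ} {g b : ℝ} (hK : ∀ x y, |K x y| ≤ g)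
    {F : (Fin r → Ω) → ℝ} (hF : ∀ x, |F x| ≤ b) (τ : SM (r + 2)) (x : Fin (r + 2) → Ω) :
    |F (fun b => x b.succ.succ) * ed (sgl n K) 0 1 x τ| ≤ b * g := by
  rw [abs_mul]
  exact mul_le_mul (hF _) (abs_ed hK 0 1 x τ) (abs_nonneg _)
    ((abs_nonneg _).trans (hF fun c => x c.succ.succ))

theorem abs_At (hw : Wt w) {R : List (Lv Ω)} (hR : Mono 0 R) (h : Ω → ℝ) (n : ℕ) {σ : SM r}
    (hσ : Rz R.length σ) {K : Ω → Ω → ℝ} {g b : ℝ} (hK : ∀ x y, |K x y| ≤ g)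
    {F : (Fin r → Ω) → ℝ} (hF : ∀ x, |F x| ≤ b) : |At w R h n K σ F| ≤ cA r * (b * g) :=
  (abs_AtW hR n hσ (fun τ hτ => abs_TM hw h hτ (abs_q1 hK hF τ))
    fun τ hτ => abs_TM hw h hτ (abs_q2 hK hF τ)).trans_eq (by unfold cA; push_cast; ring)


/-- the laws of at most `N` replicas are `δ`-close -/
def Cl (w : Ω → ℝ) (N : ℕ) (R : List (Lv Ω)) (h : Ω → ℝ) (R' : List (Lv Ω)) (h' : Ω → ℝ) (δ : ℝ) :
    Prop := R'.length = R.length ∧ ∀ (r : ℕ) (τ : SM r), r ≤ N → Rz R.length τ →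
  ∀ (G : (Fin r → Ω) → ℝ) (b : ℝ), (∀ x, |G x| ≤ b) → |TM w R' h' τ G - TM w R h τ G| ≤ δ * b

section cl
variable {N : ℕ} {R R' R'' : List (Lv Ω)} {h h' h'' : Ω → ℝ} {δ δ' : ℝ}

theorem Cl.trans (H : Cl w N R h R' h' δ) (H' : Cl w N R' h' R'' h'' δ') :
    Cl w N R h R'' h'' (δ + δ') := ⟨H'.1.trans H.1, fun r τ hr hτ G b hG =>
  (abs_sub_le _ _ _).trans (by
    linarith [H.2 r τ hr hτ G b hG, H'.2 r τ hr (H.1 ▸ hτ) G b hG])⟩

theorem Cl.mono (hw : Wt w) (H : Cl w N R h R' h' δ) (e : δ ≤ δ') : Cl w N R h R' h' δ' :=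
  ⟨H.1, fun r τ hr hτ G b hG => (H.2 r τ hr hτ G b hG).trans
    (mul_le_mul_of_nonneg_right e ((abs_nonneg _).trans (abs_TM hw h hτ hG)))⟩

theorem Cl.refl (N : ℕ) (R : List (Lv Ω)) (h : Ω → ℝ) : Cl w N R h R h 0 :=
  ⟨rfl, fun _ _ _ _ _ _ _ => by simp⟩

theorem Cl.at (hw : Wt w) (hR : Mono 0 R) (H : Cl w (r + 2) R h R' h' δ) (n : ℕ) {σ : SM r}
    (hσ : Rz R.length σ) {K : Ω → Ω → ℝ} {g b D : ℝ} (hK : ∀ x y, |K x y| ≤ g)
    {F : (Fin r → Ω) → ℝ} (hF : ∀ x, |F x| ≤ b)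
    (hD : ∑ j ∈ Finset.range R.length, |ex R' j - ex R j| ≤ D) :
    |At w R' h' n K σ F - At w R h n K σ F| ≤ (δ * cA r + 4 * D * (r * (r + 1))) * (b * g) := by
  have q2 : ∀ τ, Rz R.length τ → |Q2 w R' h' (sgl n K) F τ| ≤ b * g := fun τ hτ =>
    abs_TM hw h' (H.1 ▸ hτ) (abs_q2 hK hF τ)
  obtain ⟨y, -⟩ := Finset.nonempty_of_sum_ne_zero hw.2.ne'
  have a1 := AtW_wt H.1 n hσ (Q1 w R' h' (sgl n K) F) (mul_nonneg
    ((abs_nonneg _).trans (hF fun _ => y)) ((abs_nonneg _).trans (hK y y))) q2 hD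
  have a2 := abs_AtW hR n hσ
    (Ψ₁ := fun τ => Q1 w R' h' (sgl n K) F τ - Q1 w R h (sgl n K) F τ)
    (Ψ₂ := fun τ => Q2 w R' h' (sgl n K) F τ - Q2 w R h (sgl n K) F τ)
    (fun τ hτ => H.2 _ τ (by omega) hτ _ _ (abs_q1 hK hF τ))
    fun τ hτ => H.2 _ τ le_rfl hτ _ _ (abs_q2 hK hF τ)
  rw [AtW_sub] at a2
  refine (abs_sub_le _ _ _).trans ((add_le_add a1 a2).trans_eq ?_)
  unfold cA
  push_cast
  ring

theorem Cl.dL (hR : Mono 0 R) (H : Cl w (r + 1) R h R' h' δ) (hT : ST R R') {σ : SM r}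
    (hσ : Rz R.length σ) {f : Ω → ℝ} {c b : ℝ} (hf : ∀ y, |f y| ≤ c) {F : (Fin r → Ω) → ℝ}
    (hF : ∀ x, |F x| ≤ b) :
    |Cas.dL w R' h' σ f F - Cas.dL w R h σ f F| ≤ 2 * r * (δ * (b * c)) := by
  have e : ∀ x y, |F x * f y| ≤ b * c := fun x y => by
    rw [abs_mul]
    exact mul_le_mul (hF x) (hf y) (abs_nonneg _) ((abs_nonneg _).trans (hF x))
  have a1 : |∑ a, (TM w R' h' σ (fun x => F x * f (x a)) - TM w R h σ fun x => F x * f (x a))| ≤
      r * (δ * (b * c)) := (Finset.abs_sum_le_sum_abs _ _).trans ((Finset.sum_le_card_nsmul _ _ _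
        fun a _ => H.2 _ σ (by omega) hσ _ _ fun x => e x _).trans_eq (by simp))
  have a2 := abs_Ws hR hσ (hσ.ncm fun τ =>
    TM w R' h' τ (fun x => F (fun c => x c.succ) * f (x 0)) -
      TM w R h τ fun x => F (fun c => x c.succ) * f (x 0))
    fun a j => H.2 _ _ le_rfl (hσ.gr a j) _ _ fun x => e _ _
  have e2 : ∀ G, Ws R' σ G = Ws R σ G := fun G => by
    simp only [Ws, H.1, Cav22.ex_tilt hT]
  rw [Ws_sub] at a2
  rw [Finset.sum_sub_distrib] at a1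
  rw [Cas.dL, Cas.dL, e2, H.1]
  have b1 := abs_le.1 a1
  have b2 := abs_le.1 a2
  exact abs_le.2 ⟨by linarith [b1.1, b2.2], by linarith [b1.2, b2.1]⟩

theorem cl_cov (hw : Wt w) (hR : Mono 0 R) (H : ST R R') {c g : ℝ}
    (hc : ∀ y, dC R R' R.length y y = c) (hg : ∀ j ≤ R.length, ∀ x y, |dC R R' j x y| ≤ g)
    (N : ℕ) (h : Ω → ℝ) : Cl w N R h R' h (2 * N ^ 2 * g) := by
  refine ⟨H.len.symm, fun r τ hr hτ G b hG => ?_⟩
  obtain ⟨s, e, rfl⟩ := hτ
  have e1 := TM_sm hw s R' h e.injective G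
  rw [← H.len] at e1
  rw [e1, TM_sm hw s R h e.injective]
  exact (ker1 hw hR H hc s (N := N) (by rw [← Fintype.card_congr e]; simpa) h
    (fun x => hG _) hg).trans_eq (by ring)


end cl

/-! ### zero levels -/

theorem rz_map {K K' : ℕ} {σ : SM r} (hσ : Rz K σ) {f : ℕ → ℕ} (hf : Monotone f) (e : f K = K') :
    Rz K' fun a b => f (σ a b) := by
  cases r with
  | zero => obtain ⟨s, e, -⟩ := hσ; exact (e.symm s.fst).elim0
  | succ r => exact rz_of_um ⟨fun a => by rw [hσ.self, e], fun a b => by rw [hσ.comm],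
      fun a b c => by rw [← hf.map_min]; exact hf (hσ.ultra a b c)⟩

/-- a free node at depth `n` -/
def up (n i : ℕ) : ℕ := if i < n then i else i + 1

theorem up_mono (n : ℕ) : Monotone (up n) := fun a b h => by unfold up; split_ifs <;> omega

theorem dn_mono (n : ℕ) : Monotone (dn n) := fun a b h => by unfold dn; split_ifs <;> omega

theorem up_ne (n i : ℕ) : up n i ≠ n := by unfold up; split_ifs <;> omega

theorem dn_up (n i : ℕ) : dn n (up n i) = i := by unfold dn up; split_ifs <;> omega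

theorem dn_up' (n i : ℕ) : dn n (up (n + 1) i) = i := by unfold dn up; split_ifs <;> omega

/-- the split matrix with a free node at depth `n` -/
def lift (n : ℕ) (σ : SM r) : SM r := fun a b => up n (σ a b)

theorem rz_lift {K n : ℕ} {σ : SM r} (hσ : Rz K σ) (hn : n ≤ K) : Rz (K + 1) (lift n σ) :=
  rz_map hσ (up_mono n) (if_neg (by omega))

theorem len_ins (A B : List (Lv Ω)) (l : Lv Ω) : (A ++ l :: B).length = (A ++ B).length + 1 := by
  simp only [List.length_append, List.length_cons]; omega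

theorem rz_dn (A B : List (Lv Ω)) (l : Lv Ω) {τ : SM r} (hτ : Rz (A ++ l :: B).length τ) :
    Rz (A ++ B).length fun a b => dn A.length (τ a b) :=
  rz_map hτ (dn_mono _) (by rw [len_ins, dn, if_neg (by simp)]; rfl)

theorem TM_del (hw : Wt w) (A B : List (Lv Ω)) (μ : ℝ) {τ : SM r}
    (hτ : Rz (A ++ z0 Ω μ :: B).length τ) (h : Ω → ℝ) (F : (Fin r → Ω) → ℝ) :
    TM w (A ++ z0 Ω μ :: B) h τ F = TM w (A ++ B) h (fun a b => dn A.length (τ a b)) F := by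
  obtain ⟨s, e, rfl⟩ := hτ
  rw [TM_sm hw s _ h e.injective, TE_del hw (l := z0 Ω μ) (a := Empty.elim) (fun _ => rfl)]
  refine (TM_sm hw (s.del A.length) (A ++ B) h ((delL_inj s _).comp e.injective) F).symm.trans ?_
  congr 1
  funext a b
  rw [len_ins]
  exact shr_del s _ _ _ _ (by simp)

theorem Cl.ins (hw : Wt w) {N : ℕ} {A B A' B' : List (Lv Ω)} {h h' : Ω → ℝ} {δ : ℝ}
    (H : Cl w N (A ++ B) h (A' ++ B') h' δ) (e : A'.length = A.length) (μ μ' : ℝ) :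
    Cl w N (A ++ z0 Ω μ :: B) h (A' ++ z0 Ω μ' :: B') h' δ := by
  have e1 : (A' ++ z0 Ω μ' :: B').length = (A ++ z0 Ω μ :: B).length := by
    rw [len_ins, len_ins, H.1]
  refine ⟨e1, fun r τ hr hτ G b hG => ?_⟩
  rw [TM_del hw A B μ hτ, TM_del hw A' B' μ' (e1 ▸ hτ), e]
  exact H.2 r _ hr (rz_dn A B _ hτ) G b hG

theorem TM_mvt (hw : Wt w) {M M' : List (Lv Ω)} (H : ST M M') {c : ℝ}
    (hc : ∀ y, dC M M' M.length y y = c) {σ : SM r} (hσ : Rz M.length σ) (h : Ω → ℝ)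
    (F : (Fin r → Ω) → ℝ) : ∃ θ ∈ Ioo (0 : ℝ) 1,
      TM w M' h σ F - TM w M h σ F = dM w (mid M M' θ) h (hK M M') σ F := by
  obtain ⟨s, e, rfl⟩ := hσ
  obtain ⟨θ, hθ, e0⟩ := ker1_eq hw H hc s h fun x => F fun a => x (e a)
  refine ⟨θ, hθ, ?_⟩
  have e1 := TM_sm hw s M' h e.injective F
  have e2 := dT_eq_dM (L := mid M M' θ) (h := h) hw e (hK M M') F
  rw [← H.len] at e1
  rw [dT_eq_sg hw s _ h (c := 1 / 2 * c) (fun y => by rw [(st_mid H θ).len, hK, hc]),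
    sg_tilt _ (st_mid H θ), (st_mid H θ).len] at e2
  rw [e1, TM_sm hw s M h e.injective, e0, e2]

/-! ### one slice changes its tilt -/

/-- the level `l` has its own tilt -/
def M0 (A : List (Lv Ω)) (l : Lv Ω) (B : List (Lv Ω)) (μ : ℝ) : List (Lv Ω) :=
  A ++ z0 Ω μ :: l :: B

/-- the level `l` has the tilt `μ` -/
def M1 (A : List (Lv Ω)) (l : Lv Ω) (B : List (Lv Ω)) (μ : ℝ) : List (Lv Ω) :=
  A ++ rt l μ :: z0 Ω l.m :: B

theorem st_M (A : List (Lv Ω)) (l : Lv Ω) (B : List (Lv Ω)) (μ : ℝ) :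
    ST (M0 A l B μ) (M1 A l B μ) := by simp [Ker15.ST, M0, M1, z0]

theorem dC_M (l : Lv Ω) (B : List (Lv Ω)) (μ : ℝ) (x y : Ω) : ∀ (A : List (Lv Ω)) (j : ℕ),
    dC (M0 A l B μ) (M1 A l B μ) j x y = if j = A.length + 1 then l.cov x y else 0
  | [], 0 => by simp [dC, cacc]
  | [], 1 => by
    simp only [dC, M0, M1, List.nil_append, Sd.cacc_cons, Sd.cacc_zero, z0_cov]
    simp [Lv.cov]
  | [], j + 2 => by
    simp only [dC, M0, M1, List.nil_append, Sd.cacc_cons, z0_cov]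
    simp [Lv.cov]
  | a :: A, 0 => by simp [dC, cacc]
  | a :: A, j + 1 => by
    have := dC_M l B μ x y A j
    simp only [dC, M0, M1, List.cons_append, Sd.cacc_cons, List.length_cons,
      Nat.add_right_cancel_iff] at this ⊢
    rw [← this]; ring

theorem len_M0 (A : List (Lv Ω)) (l : Lv Ω) (B : List (Lv Ω)) (μ : ℝ) :
    (M0 A l B μ).length = (A ++ l :: B).length + 1 := len_ins A (l :: B) _

theorem dm_M0 (A : List (Lv Ω)) (l : Lv Ω) (B : List (Lv Ω)) (μ : ℝ) :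
    dm (M0 A l B μ) 0 (A.length + 1) = l.m - μ := by
  simp [dm, exP, T157.Casc.ex, M0, z0]

/-- half the covariance of a level -/
def hc (l : Lv Ω) (x y : Ω) : ℝ := 1 / 2 * l.cov x y

theorem slice (hw : Wt w) (A : List (Lv Ω)) (l : Lv Ω) (B : List (Lv Ω)) (μ : ℝ) {σ : SM r}
    (hσ : Rz (A ++ l :: B).length σ) (h : Ω → ℝ) (F : (Fin r → Ω) → ℝ) : ∃ θ ∈ Ioo (0 : ℝ) 1,
      TM w (A ++ rt l μ :: B) h σ F - TM w (A ++ l :: B) h σ F = (l.m - μ) *
        At w (mid (M0 A l B μ) (M1 A l B μ) θ) h (A.length + 1) (hc l) (lift (A.length + 1) σ) F := by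
  have hl : A.length + 1 ≤ (A ++ l :: B).length := by simp
  have h1 : Rz (M0 A l B μ).length (lift (A.length + 1) σ) := len_M0 A l B μ ▸ rz_lift hσ hl
  obtain ⟨θ, hθ, e⟩ := TM_mvt hw (st_M A l B μ) (c := 0)
    (fun y => by rw [dC_M, len_M0, if_neg (by omega)]) h1 h F
  refine ⟨θ, hθ, ?_⟩
  have e1 : hK (M0 A l B μ) (M1 A l B μ) = sgl (A.length + 1) (hc l) := by
    funext j x y
    rw [hK, dC_M, sgl]
    split_ifs <;> simp [hc]
  have e2 := TM_del hw A (l :: B) μ h1 h F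
  have e3 := TM_del hw (A ++ [rt l μ]) B l.m (τ := lift (A.length + 1) σ)
    (by simpa [M0] using h1) h F
  simp only [lift, dn_up'] at e2
  simp only [lift, List.length_append, List.length_singleton, dn_up, List.append_assoc,
    List.singleton_append] at e3
  rw [e1, dM_single _ h (σ := lift (A.length + 1) σ) (n := A.length + 1) (Nat.succ_pos _)
    (by rw [(st_mid (st_M A l B μ) θ).len, len_M0]; omega)
    (fun _ _ => up_ne _ _), Cav22.dm_tilt (st_mid (st_M A l B μ) θ), dm_M0] at e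
  rw [← e, ← e2, ← e3]
  rfl

/-! ### all tilts are multiplied by `λ` -/

/-- the tilt times `λ` -/
def ts (lam : ℝ) (l : Lv Ω) : Lv Ω := rt l (lam * l.m)

/-- the first `i` tilts times `λ` -/
def Tl (lam : ℝ) (L : List (Lv Ω)) (i : ℕ) : List (Lv Ω) := (L.take i).map (ts lam) ++ L.drop i

/-- the same with a zero level -/
def Z (lam : ℝ) (L : List (Lv Ω)) (i : ℕ) : List (Lv Ω) :=
  (L.take i).map (ts lam) ++ z0 Ω (lam * ex L i) :: L.drop i

/-- half the covariance of the level `i` -/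
def kc (L : List (Lv Ω)) (i : ℕ) (x y : Ω) : ℝ := 1 / 2 * cv L i x y

theorem ts_one (l : Lv Ω) : ts 1 l = l := by cases l; simp [ts]

theorem Z_one : ∀ (L : List (Lv Ω)) (i : ℕ), i < L.length → Z 1 L i = rf L i false
  | [], _, h => absurd h (by simp)
  | l :: L, 0, _ => by simp [Z, rf, T157.Casc.ex]
  | l :: L, i + 1, h => by
    rw [rf, ← Z_one L i (by simpa using h), Z, Z, List.take_succ_cons, List.map_cons, ts_one]
    rfl

theorem ex_Z (lam : ℝ) : ∀ (L : List (Lv Ω)) (i j : ℕ), i < L.length →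
    ex (Z lam L i) j = if j ≤ i then lam * ex L j else ex L (j - 1)
  | [], _, _, h => absurd h (by simp)
  | _ :: _, 0, 0, _ => rfl
  | _ :: _, 0, _ + 1, _ => rfl
  | _ :: _, _ + 1, 0, _ => rfl
  | l :: L, i + 1, j + 1, h => by
    refine (ex_Z lam L i j (by simpa using h)).trans ?_
    by_cases e : j ≤ i
    · rw [if_pos e, if_pos (by omega)]; rfl
    · obtain ⟨j, rfl⟩ := Nat.exists_eq_succ_of_ne_zero (n := j) (by omega)
      rw [if_neg e, if_neg (by omega)]; rfl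

theorem mono_ex : ∀ {L : List (Lv Ω)} {m : ℝ}, Mono m L → m ≤ ex L 0 ∧ Mono (ex L 0) L
  | [], _, h => ⟨h, le_rfl⟩
  | _ :: _, _, h => ⟨h.1, le_rfl, h.2⟩

theorem mono_Z {lam : ℝ} (h0 : 0 ≤ lam) (h1 : lam ≤ 1) : ∀ (i : ℕ) {L : List (Lv Ω)} {m m' : ℝ},
    Mono m L → 0 ≤ m → m' ≤ lam * m → Mono m' (Z lam L i)
  | 0, L, m, m', h, hm, e => ⟨e.trans (mul_le_mul_of_nonneg_left (mono_ex h).1 h0),
      Cav22.mono_weak (mul_le_of_le_one_left (hm.trans (mono_ex h).1) h1) (mono_ex h).2⟩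
  | i + 1, [], m, m', h, _, e => ⟨e.trans (mul_le_mul_of_nonneg_left h h0),
      (mul_one lam).trans_le h1⟩
  | i + 1, l :: L, m, m', h, hm, e => ⟨e.trans (mul_le_mul_of_nonneg_left h.1 h0),
      mono_Z h0 h1 i h.2 (hm.trans h.1) le_rfl⟩

theorem len_Tl (lam : ℝ) (L : List (Lv Ω)) (i : ℕ) : (Tl lam L i).length = L.length := by
  rw [Tl, List.length_append, List.length_map, ← List.length_append, List.take_append_drop]

theorem len_Z (lam : ℝ) (L : List (Lv Ω)) (i : ℕ) : (Z lam L i).length = L.length + 1 :=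
  (len_ins _ _ _).trans (congrArg (· + 1) (len_Tl lam L i))

section step
variable {L : List (Lv Ω)} {lam : ℝ} {i : ℕ}

theorem step (hw : Wt w) (hi : i < L.length) (lam : ℝ) {σ : SM r} (hσ : Rz L.length σ) (h : Ω → ℝ)
    (F : (Fin r → Ω) → ℝ) : ∃ R : List (Lv Ω), Ker15.ST (Z lam L i) R ∧
      (∀ y, dC (Z lam L i) R (Z lam L i).length y y = 0) ∧
      (∀ j x y, |dC (Z lam L i) R j x y| ≤ |cv L i x y|) ∧
      TM w (Tl lam L (i + 1)) h σ F - TM w (Tl lam L i) h σ F =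
        (1 - lam) * ex L i * At w R h (i + 1) (kc L i) (lift (i + 1) σ) F := by
  have e0 : ex L i = L[i].m := by simp [T157.Casc.ex, List.getElem?_eq_getElem hi]
  have e1 : ((L.take i).map (ts lam)).length = i := by simp; omega
  have e2 : Tl lam L i = (L.take i).map (ts lam) ++ L[i] :: L.drop (i + 1) := by
    rw [Tl, List.drop_eq_getElem_cons hi]
  have e3 : Tl lam L (i + 1) = (L.take i).map (ts lam) ++ rt L[i] (lam * ex L i) ::
      L.drop (i + 1) := by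
    rw [Tl, List.take_add_one, List.getElem?_eq_getElem hi, e0, List.map_append, List.append_assoc]
    rfl
  have e4 : Z lam L i = M0 ((L.take i).map (ts lam)) L[i] (L.drop (i + 1)) (lam * ex L i) := by
    rw [Z, M0, List.drop_eq_getElem_cons hi]
  have e5 : kc L i = hc L[i] := by funext x y; rw [kc, cv_eq L i hi, hc]
  obtain ⟨θ, hθ, e⟩ := slice hw ((L.take i).map (ts lam)) L[i] (L.drop (i + 1)) (lam * ex L i)
    (σ := σ) (by rwa [← e2, len_Tl]) h F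
  have H := st_M ((L.take i).map (ts lam)) L[i] (L.drop (i + 1)) (lam * ex L i)
  have e6 : ∀ j x y, dC (Z lam L i) (mid _ _ θ) j x y = θ * if j = i + 1 then cv L i x y else 0 :=
    fun j x y => by
      rw [e4, dC, cacc_mid (Ioo_subset_Icc_self hθ) x y H, dC_M, e1, cv_eq L i hi]; ring
  refine ⟨_, (congrArg _ e4).trans (st_mid H θ).symm, fun y => ?_, fun j x y => ?_, ?_⟩
  · rw [e6, len_Z, if_neg (by omega), mul_zero]
  · rw [e6, abs_mul, abs_of_pos hθ.1]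
    exact (mul_le_of_le_one_left (abs_nonneg _) hθ.2.le).trans (abs_ite le_rfl)
  · rw [e3, e2, e, e1, e5, ← e0]; ring

theorem abs_kc {g : ℝ} (hg : ∀ x y, |cv L i x y| ≤ g) (x y : Ω) : |kc L i x y| ≤ g / 2 := by
  rw [kc, abs_mul, abs_of_pos (by norm_num : (0 : ℝ) < 1 / 2)]
  linarith [hg x y]

variable (hw : Wt w) (hL : Mono 0 L) (h0 : 0 ≤ lam) (h1 : lam ≤ 1)
include hw hL h0 h1

theorem step_le (hi : i < L.length) {σ : SM r} (hσ : Rz L.length σ) (h : Ω → ℝ)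
    {F : (Fin r → Ω) → ℝ} {b g : ℝ} (hF : ∀ x, |F x| ≤ b) (hg : ∀ x y, |cv L i x y| ≤ g) :
    |TM w (Tl lam L (i + 1)) h σ F - TM w (Tl lam L i) h σ F| ≤
      (1 - lam) * ex L i * (cA r * (b * (g / 2))) ∧
    |TM w (Tl lam L (i + 1)) h σ F - TM w (Tl lam L i) h σ F -
      (1 - lam) * ex L i * At w (Z lam L i) h (i + 1) (kc L i) (lift (i + 1) σ) F| ≤
      (1 - lam) * ex L i * ((r + 2) ^ 2 * cA r * (b * g ^ 2)) := by
  obtain ⟨R, H, c0, c1, e⟩ := step hw hi lam hσ h F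
  have hZ : Mono 0 (Z lam L i) := mono_Z h0 h1 i hL le_rfl (by simp)
  have hr : Rz (Z lam L i).length (lift (i + 1) σ) := len_Z lam L i ▸ rz_lift hσ hi
  have hp : 0 ≤ (1 - lam) * ex L i := mul_nonneg (sub_nonneg.2 h1) (ex_nonneg hL i)
  rw [e, ← mul_sub, abs_mul, abs_mul ((1 - lam) * ex L i), abs_of_nonneg hp]
  refine ⟨mul_le_mul_of_nonneg_left (abs_At hw (Cav22.mono_tilt H hZ) h _ (H.len ▸ hr)
    (abs_kc hg) hF) hp, mul_le_mul_of_nonneg_left (((cl_cov hw hZ H c0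
      (fun j _ x y => (c1 j x y).trans (hg x y)) (r + 2) h).at hw hZ _ hr (abs_kc hg) hF (D := 0)
        (by simp [Cav22.ex_tilt H])).trans_eq ?_) hp⟩
  push_cast
  ring

/-- **(TILT)** -/
theorem cl_tilt {g : ℕ → ℝ} (hg : ∀ i x y, |cv L i x y| ≤ g i) (N : ℕ) (h : Ω → ℝ) :
    ∀ k ≤ L.length, Cl w N L h (Tl lam L k) h
      ((1 - lam) * (cA N * ∑ i ∈ Finset.range k, ex L i * (g i / 2)))
  | 0, _ => by simpa [Tl] using Cl.refl N L h
  | k + 1, hk => by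
    rw [Finset.sum_range_succ, mul_add, mul_add]
    refine (cl_tilt hg N h k (by omega)).trans ⟨by rw [len_Tl, len_Tl], fun r τ hr hτ G b hG => ?_⟩
    have b0 := (abs_nonneg _).trans (abs_TM hw h hτ hG)
    obtain ⟨y, -⟩ := Finset.nonempty_of_sum_ne_zero hw.2.ne'
    have g0 := (abs_nonneg _).trans (hg k y y)
    have m0 := ex_nonneg hL k
    have : cA r ≤ cA N := by
      have : (r : ℝ) ≤ N := by exact_mod_cast hr
      unfold cA; gcongr
    have := sub_nonneg.2 h1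
    refine (step_le hw hL h0 h1 hk (len_Tl lam L k ▸ hτ) h hG (hg k)).1.trans ?_
    calc _ = (1 - lam) * (cA r * (ex L k * (g k / 2))) * b := by ring
      _ ≤ _ := by gcongr


end step

/-! ### scaling of the features -/

/-- features times `t` -/
def fs (l : Lv Ω) : TL Ω := ⟨l.ι, fun t x i => t * l.A x i, fun _ x i => l.A x i, l.m⟩

/-- all features times `t` -/
def Sc (L : List (Lv Ω)) (t : ℝ) : List (Lv Ω) := atL (L.map fs) t

theorem Sc_cons (l : Lv Ω) (L : List (Lv Ω)) (t : ℝ) :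
    Sc (l :: L) t = (fs l).at t :: Sc L t := rfl

theorem Sc_one : ∀ L : List (Lv Ω), Sc L 1 = L
  | [] => rfl
  | l :: L => by rw [Sc_cons, Sc_one L]; cases l; simp [fs]

theorem st_Sc (t : ℝ) : ∀ L : List (Lv Ω), Ker15.ST L (Sc L t)
  | [] => rfl
  | l :: L => congrArg (l.m :: ·) (st_Sc t L)

theorem cacc_Sc (t : ℝ) (x y : Ω) : ∀ (L : List (Lv Ω)) (j : ℕ),
    cacc (Sc L t) j x y = t ^ 2 * cacc L j x y
  | [], j => by simp [Sc, atL, cacc]
  | l :: L, 0 => by simp [cacc]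
  | l :: L, j + 1 => by
    rw [Sc_cons, Sd.cacc_cons, Sd.cacc_cons, cacc_Sc t x y L j, mul_add]
    congr 1
    simp only [Lv.cov, fs, Finset.mul_sum]
    exact Finset.sum_congr rfl fun i _ => by ring

theorem Sacc_fs (x y : Ω) : ∀ (L : List (Lv Ω)) (j : ℕ), Sacc (L.map fs) 1 j x y = cacc L j x y
  | [], j => by simp [Sacc, cacc]
  | l :: L, 0 => by simp [Sacc, cacc]
  | l :: L, j + 1 => by
    rw [List.map_cons, Sp38.Sacc_cons', Sd.cacc_cons, Sacc_fs x y L j]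
    simp only [TL.S, fs, Lv.cov, one_mul]
    rfl


theorem Tl_Sc (t : ℝ) : ∀ L : List (Lv Ω), Tl t⁻¹ (Sc L t) L.length = L.map (scl t⁻¹)
  | [] => rfl
  | l :: L => by
    rw [List.map_cons, ← Tl_Sc t L]
    simp only [scl, inv_inv]
    rfl





end Crest.Agent.T156.Cas.Hom68

end
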