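import Crest.Agent.T156.LtD_29
import Crest.Agent.T156.NRn_44
import Crest.Agent.T156.TrU_3
import Crest.Agent.T156.LPg_86
import Crest.Agent.T156.LPu_3
import Crest.Agent.T156.LtK_15
import Crest.Agent.T156.LPy_13

-- ▼ part T156/LtC_85
section

/-!
# Row 156 (helper85): the corner costs of `Lp86.NC` on the numbers of `LtD_29`
-/

set_option autoImplicit false
set_option linter.unusedSectionVars false

noncomputable section

namespace Crest.Agent.T156.Alt.Lc85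

open Real Tr3 Lp86
open Crest.Agent.T156.Alt.Kn72 (nu)

/-- exponents of `θ, xM, PhN, la` in the range of (L) -/
structure F (c η μ ω φ a : ℝ) : Prop where
  c0 : 0 < c
  c1 : c ≤ 1 / 2000
  η0 : 0 < η
  η1 : 10000 * η ≤ c
  μ0 : -(1 / 3) - 4 * c ≤ μ
  μ1 : μ ≤ -(7 * c) + η
  ω0 : 0 ≤ ω
  ω1 : μ + 1 / 3 ≤ ω
  ω2 : ω ≤ μ + 1 / 3 + 4 * c
  φ1 : φ ≤ -(71 / 250)
  a0 : -(1 / 3) - c - ω ≤ 2 * a
  a1 : 2 * a ≤ -(1 / 3) + 2 * c

variable {β c0 C0 : ℝ} {A : ℕ} {c η K : ℝ} {p : Pm} {σ t x y : ℝ}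
  (X : Nr44.Cx β c0 C0 A c η K p σ t)
include X

theorem xM0 : 0 < p.xM t := one_pos.trans_le (le_max_left _ _)

theorem facts (nd : p.Need t) : F c η (logb p.n (p.muG t)) (logb p.n (p.xM t)) (logb p.n (p.PhN t))
    (logb p.n (p.laG σ)) := by
  have H := X.H
  have x0 := mul_pos X.θ0 (H.rp0 ((1 : ℝ) / 3))
  have e : logb p.n (p.muG t * (p.n : ℝ) ^ ((1 : ℝ) / 3)) = logb p.n (p.muG t) + 1 / 3 := by
    rw [logb_mul X.θ0.ne' (H.rp0 _).ne', H.lg_rp]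
  have n := H.lg_mono (pow_pos H.κ0 4) nd
  rw [e, logb_pow, H.lg_κ] at n
  push_cast at n
  have w : logb p.n (p.xM t) = max 0 (logb p.n (p.muG t) + 1 / 3) := by
    rw [Pm.xM, lg_max H.N1 one_pos x0, logb_one, e]
  have c0 := H.c_pos; have c1 := X.hc; have h0 := H.η_pos; have h1 := X.hη
  have w0 : 0 ≤ logb p.n (p.xM t) := w ▸ le_max_left _ _
  have w1 : logb p.n (p.muG t) + 1 / 3 ≤ logb p.n (p.xM t) := w ▸ le_max_right _ _
  have v1 := X.lg_θν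
  have v2 := H.lg_mono X.ν0 ((H.oct_mt X.o).1.trans (Pm.mt_le' _))
  rw [lg_max H.N1 X.θ0 (mul_pos H.κ0 (H.rp0 _)), logb_mul H.κ0.ne' (H.rp0 _).ne', H.lg_κ,
    H.lg_rp] at v2
  refine ⟨c0, c1, h0, h1, by linarith, (H.lg_muG66 X.Mt).2.1, w0, w1,
    w ▸ max_le (by linarith) (by linarith), ?_, ?_, ?_⟩
  · obtain ⟨-, -, e0, e1, s0, s1, x0, x1, m0, m1, m2, up⟩ := Nr44.ex H X.hy
    rcases up with up | up | ⟨up, _, _⟩ | up | ⟨up, _⟩ | up | up | ⟨up, _, _⟩ | ⟨up, _⟩ | up |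
      ⟨up, _⟩ <;> linarith
  · rcases X.lg_pl with ⟨_, _, _, _⟩ | ⟨_, _, _, _⟩ <;> rcases le_max_iff.1 v2 with b | b <;>
      linarith
  · rcases X.lg_pl with ⟨_, _, _, _⟩ | ⟨_, _, _, _⟩ <;> linarith

theorem uc (e : ℝ) : U p.n (p.nc e) (e * c) := by
  rw [Pm.nc, X.H.hc]; exact (B.of X.H).up _
theorem dc (e : ℝ) : D p.n (p.nc e) (e * c) := by
  rw [Pm.nc, X.H.hc]; exact B.dp _
theorem uθ : U p.n (p.muG t) (logb p.n (p.muG t)) := (B.of X.H).ul X.θ0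
theorem dθ : D p.n (p.muG t) (logb p.n (p.muG t)) := (B.of X.H).dl X.θ0
theorem uw : U p.n (p.wL t) (-1 - logb p.n (p.muG t)) :=
  (B.of X.H).mono ((B.of X.H).div B.one ((B.of X.H).dmul B.dn (dθ X))) (by linarith)
theorem uLc : U p.n (p.LcL t) (c / 50 + logb p.n (p.xM t) / 4) :=
  (B.of X.H).mono ((B.of X.H).mul (uc X _) ((B.of X.H).rpw ((B.of X.H).ul (xM0 X)) _)) (by linarith)
theorem dLc : D p.n (p.LcL t) (c / 50 + logb p.n (p.xM t) / 4) :=
  (B.of X.H).dmono ((B.of X.H).dmul (dc X _) ((B.of X.H).drpw ((B.of X.H).dl (xM0 X)) _))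
    (by linarith)

/-- the budget -/
theorem dBu : D p.n (p.BuL σ t) (21 / 40 * c + 2 * logb p.n (p.laG σ)) := by
  have H := B.of X.H
  refine H.dmono (H.dmul (dc X _) (H.dpow (H.dmul (H.dl X.sM0) (H.dl X.la0)) 2)) ?_
  push_cast
  linarith [X.lg_sM.1]

variable (nd : p.Need t)
include nd

theorem uPh : U p.n (p.PhN t) (-(71 / 250)) := (B.of X.H).mono ((B.of X.H).ul X.Ph0) (facts X nd).φ1

theorem uuc : U p.n (p.ucL t) (-(11 / 50)) := by
  have H := B.of X.H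
  obtain ⟨_, _, _, _, _, _, _, _, _, _, _, _⟩ := facts X nd
  exact H.mono (H.mul (H.rpw (uLc X) _) (H.rpw (uw X) _)) (by linarith)

theorem uX2 : U p.n (p.X2L t) (-(283 / 1000)) := by
  have H := B.of X.H
  obtain ⟨_, _, _, _, _, _, _, _, _, _, _, _⟩ := facts X nd
  exact H.mono (H.mul (uc X _) ((uPh X nd).min_l (mul_nonneg (sq_nonneg _)
    (le_max_of_le_right (H.rp _).le)))) (by linarith)

theorem uX3 : U p.n (p.X3L t) (-(53 / 125)) := by
  have H := B.of X.H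
  obtain ⟨_, _, _, _, _, _, _, _, _, _, _, _⟩ := facts X nd
  exact H.add (H.up _) (H.rpw (uX2 X nd) _) (by linarith) (by linarith)

theorem uG0 : U p.n (p.G0L σ t) (-(141 / 500)) := by
  have H := B.of X.H
  obtain ⟨_, _, _, _, _, _, _, _, _, _, _, _⟩ := facts (σ := σ) X nd
  exact H.add3 (H.div (H.mul (uc X _) (H.up _)) (H.dsqrt (H.dl (xM0 X))))
    (H.mul (uc X _) (H.sqrt (H.div (H.mul (uw X) (H.sqrt (uPh X nd))) (H.dl X.la0))))
    (uX2 X nd) (by linarith) (by linarith) (by linarith)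

theorem ul0 : U p.n (p.l0L t) (-(11 / 100)) := by
  have H := B.of X.H
  obtain ⟨_, _, _, _, _, _, _, _, _, _, _, _⟩ := facts X nd
  have a := Nr44.lw1 X.H
  have b := Nr44.lw2 X.H X.Mt
  have d := (X.H.lg_muG66 X.Mt).2.2
  refine U.max (H.mono (H.mul (H.pow (uc X _) 2) (H.ul X.H.rj0)) ?_)
    (H.mono (H.mul (H.cst (y := 8) (by norm_num) (by norm_num))
      (U.max (a := -(3 / 25)) (H.mono (H.ul a.1) ?_) (H.mono (H.ul b.1) ?_))) (by linarith))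
  · rw [X.H.lg_rj]; push_cast; linarith [X.H.lg_s.2]
  · rw [a.2]; linarith
  · rw [b.2]; linarith

theorem uj : U p.n (p.jL σ t) (-(7 / 50)) := by
  have H := B.of X.H
  obtain ⟨_, _, _, _, _, _, _, _, _, _, _, _⟩ := facts (σ := σ) X nd
  refine H.add3 (H.sqrt (uPh X nd))
    (H.sqrt (H.mul (uc X _) (H.pow (H.mul (uθ X) (H.ul X.la0)) 2))) (H.pow (ul0 X nd) 2) ?_ ?_ ?_
  all_goals
    push_cast
    linarith

variable (x0 : 0 < x) (hx : x ^ 3 = y) (hy : y ≤ p.PhN t)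
include x0 hx hy

omit X nd hy in
theorem y3 : y ^ ((1 : ℝ) / 3) = x := by
  rw [← hx, ← rpow_natCast, ← rpow_mul x0.le]; norm_num

theorem lgx : 3 * logb p.n x ≤ -(71 / 250) := by
  have a := X.H.lg_mono (pow_pos x0 3) (hx.trans_le hy)
  rw [logb_pow] at a
  push_cast at a
  linarith [(facts X nd).φ1]

theorem uec : U p.n (p.ecL σ t y) (-(21 / 50)) := by
  have H := B.of X.H
  obtain ⟨_, _, _, _, _, _, _, _, _, _, _, _⟩ := facts (σ := σ) X nd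
  have l := lgx X nd x0 hx hy
  have u := uuc X nd
  have p1 := H.pc (c := -(21 / 50)) (H.pow u 3) (by push_cast; linarith)
  have p2 := H.pc (c := -(21 / 50)) (H.mul (H.pow u 2) (H.add3 (c := η) (uθ X) (uj X nd) (H.ul x0)
    (by linarith) (by linarith) (by linarith))) (by push_cast; linarith)
  have p3 := H.pc (c := -(21 / 50)) (H.mul (H.add3 (c := -(281 / 1000))
    (H.sqrt (H.mul (uLc X) (uw X))) (uG0 X nd) (uX2 X nd) (by linarith) (by linarith) (by linarith))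
    (H.add (c := -(141 / 1000)) u (H.sqrt (uX2 X nd)) (by linarith) (by linarith))) (by linarith)
  have p4 := H.pc (c := -(21 / 50)) (uX3 X nd) (by linarith)
  have p5 := H.pc (c := -(21 / 50)) (H.div B.one B.dn) (by linarith)
  rw [Pm.ecL, y3 x0 hx]
  exact H.tot 5 (by linarith) (by linarith)

/-- the three pieces of `tauL` -/
theorem uτ {b : ℝ} (h1 : logb p.n x - c / 50 - logb p.n (p.xM t) / 4 + η ≤ b)
    (h2 : -(21 / 50) - logb p.n (p.muG t) + η ≤ b) (h3 : (-1 - logb p.n (p.muG t)) / 3 + η ≤ b) :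
    U p.n (p.tauL σ t y) b := by
  have H := B.of X.H
  rw [Pm.tauL, y3 x0 hx]
  exact H.add3 (H.div (H.ul x0) (dLc X)) (H.div (uec X nd x0 hx hy) (dθ X)) (H.rpw (uw X) _)
    (by linarith) (by linarith) (by linarith)

/-- **the corner half of `NC`** for any `N` above the two terms of `NL` -/
theorem corner' {N : ℝ} (h1 : p.BuL σ t ≤ N) (h2 : p.nc (1 / 20) * p.muG t * y ^ ((4 : ℝ) / 3) ≤ N) :
    ∃ B m, p.muG t * (p.tauL σ t y ^ 3 + p.laG σ ^ 2) ≤ N ∧ mn (p.muG t) (p.ecL σ t y) ≤ N ∧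
      (p.wL t * x ^ 3) ^ ((3 : ℝ) / 4) + p.muG t * (p.jL σ t ^ 9 + (x ^ 3) ^ 3) ≤ N ∧
      0 ≤ p.jL σ t + p.tauL σ t y ∧ p.muG t + p.jL σ t + p.tauL σ t y ≤ B ∧ min B x ≤ m ∧
      mn (p.muG t) (p.X2L t * x + B * m ^ 2) ≤ N ∧
      ((p.X2L t + B * m) ^ 3 ≤ N ∨ p.EL * (p.X2L t + B * m) ≤ p.muG t) := by
  have H := B.of X.H
  obtain ⟨_, _, _, _, _, _, _, _, _, _, _, _⟩ := facts (σ := σ) X nd
  have l := lgx X nd x0 hx hy
  have d1 := (dBu X).of_le h1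
  have N0 := H.pos d1
  have n1 := X.H.lg_mono (H.rp _) d1
  have d2 : D p.n N _ := (H.dmul (H.dmul (dc X _) (dθ X))
    (H.drpw (hx ▸ H.dpow (H.dl x0) 3) ((4 : ℝ) / 3))).of_le h2
  have n2 := X.H.lg_mono (H.rp _) d2
  rw [X.H.lg_rp] at n1 n2
  push_cast at n2
  have dN := H.dl N0
  have ux := H.ul x0
  have θ := uθ X
  have j := uj X nd
  have χ := uX2 X nd
  have τ := @uτ _ _ _ _ _ _ _ _ _ _ _ _ X nd x0 hx hy
  generalize logb p.n N = ν at *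
  have t1 := τ (b := (ν - logb p.n (p.muG t) - η) / 3) (by linarith) (by linarith) (by linarith)
  have t0 := τ (b := -(2 / 25) - logb p.n (p.xM t) / 4) (by linarith) (by linarith) (by linarith)
  have c3 : p.muG t * (p.tauL σ t y ^ 3 + p.laG σ ^ 2) ≤ N :=
    H.le (H.mul θ (H.add (c := ν - logb p.n (p.muG t)) (H.pow t1 3) (H.pow (H.ul X.la0) 2)
      (by push_cast; linarith) (by push_cast; linarith))) dN (by linarith)
  have c8 : mn (p.muG t) (p.ecL σ t y) ≤ N := (min_le_right _ _).trans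
    (H.le (H.div (H.pow (uec X nd x0 hx hy) 2) (dθ X)) dN (by push_cast; linarith))
  have c9 : (p.wL t * x ^ 3) ^ ((3 : ℝ) / 4) + p.muG t * (p.jL σ t ^ 9 + (x ^ 3) ^ 3) ≤ N :=
    H.le (H.add (c := ν) (H.rpw (H.mul (uw X) (H.pow ux 3)) _) (H.mul θ (H.add (c := -(4 / 5))
      (H.pow j 9) (H.pow (H.pow ux 3) 3) (by push_cast; linarith) (by push_cast; linarith)))
      (by push_cast; linarith) (by linarith)) dN le_rfl
  have jt := add_nonneg j.1 t0.1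
  rcases le_total (logb p.n (p.muG t)) (-(1 / 8)) with q | q
  · have b := H.add3 (c := 2 / 9 * (-(1 / 3) - c - logb p.n (p.xM t)) - η) θ j t0 (by linarith)
      (by linarith) (by linarith)
    refine ⟨_, _, c3, c8, c9, jt, le_rfl, min_le_left _ _, (min_le_left _ _).trans
      (H.le (H.rpw (H.add (c := 2 / 3 * ν) (H.mul χ ux) (H.mul b (H.pow b 2)) ?_ ?_) _) dN ?_),
      .inl (H.le (H.pow (H.add (c := ν / 3) χ (H.mul b b) ?_ ?_) 3) dN ?_)⟩
    all_goals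
      push_cast
      linarith
  · have b := H.add3 (c := logb p.n (p.muG t) + η) θ j t0 le_rfl (by linarith) (by linarith)
    refine ⟨_, _, c3, c8, c9, jt, le_rfl, min_le_right _ _, (min_le_right _ _).trans
      (H.le (H.div (H.pow (H.add (c := (ν + logb p.n (p.muG t)) / 2) (H.mul χ ux)
        (H.mul b (H.pow ux 2)) ?_ ?_) 2) (dθ X)) dN ?_),
      .inr (H.le (H.mul (uc X _) (H.add (c := logb p.n (p.muG t) - c) χ (H.mul b ux) ?_ ?_))
        (dθ X) ?_)⟩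
    all_goals
      push_cast
      linarith


end Crest.Agent.T156.Alt.Lc85

end
end

-- ▼ part T156/LPs_13
section

/-!
# Row 156 (helper13): `Lp86.NS` on the numbers of `LtD_29`
-/

set_option autoImplicit false
set_option linter.unusedSectionVars false

noncomputable section

namespace Crest.Agent.T156.Alt.Lx13

open Real Tr3 Lq3 Lp86 Kn72

/-- the exponents of the data under `Need`; `X = lg xM`, `φ = lg PhN` -/
structure Dn (c η μ a v uu X φ : ℝ) : Prop where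
  c0 : 0 < c
  c1 : c ≤ 1 / 2000
  η0 : 0 < η
  η1 : 10000 * η ≤ c
  X0 : 0 ≤ X
  X1 : μ + 1 / 3 ≤ X
  X2 : X ≤ μ + 1 / 3 + 4 * c
  X3 : X ≤ 1 / 3 - 7 * c
  μ1 : μ ≤ -(7 * c)
  a1 : -(1 / 6) - c / 2 - X / 2 ≤ a
  a2 : a ≤ -(1 / 6) + 3 / 2 * c + η - X / 2
  v1 : -(1 / 6) + 3 / 4 * c ≤ v
  v2 : v ≤ -(1 / 6) + 3 * c
  u1 : -(1 / 2) - c / 4 - X ≤ uu
  u2 : uu ≤ -(1 / 2) + 4 * c - X
  φ1 : -(1 / 2) + c / 2 ≤ φ
  φ2 : 2 * a ≤ φ
  φ3 : φ ≤ -(1 / 9)

theorem Dn.ez {c η μ a v uu X φ ξ vt χ p3 : ℝ} (h : Dn c η μ a v uu X φ) (ξ1 : 2 * a ≤ 3 * ξ)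
    (ξ2 : 3 * ξ ≤ φ) (hv : vt ≤ c / 100 + (4 * c - 47 / 300) / 3 ∨ vt ≤ c / 100 - 1 / 6 + X / 2)
    (hχ : φ ≤ χ ∨ 2 / 3 * φ - 7 / 60 ≤ χ) (p1 : -(101 / 200) ≤ p3) (p2 : 3 / 2 * χ ≤ p3) :
    ∃ q r, EZ η μ a v uu ξ vt (-(51 / 100) - X) 0 χ p3 (-(51 / 100) - X - η) q r := by
  obtain ⟨c0, c1, η0, η1, X0, X1, X2, X3, μ1, a1, a2, v1, v2, u1, u2, φ1, φ2, φ3⟩ := h
  obtain ⟨q, q1, q2, q3⟩ : ∃ q, 3 / 2 * ξ - uu / 2 + 2 * η ≤ q ∧ vt + 2 * η ≤ q ∧
      (q ≤ φ / 2 + 1 / 4 + c / 8 + X / 2 + 2 * η ∨ q ≤ vt + 2 * η) := by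
    rcases le_total (3 / 2 * ξ - uu / 2) vt with e | e
    · exact ⟨_, by linarith, le_rfl, .inr le_rfl⟩
    · exact ⟨_, le_rfl, by linarith, .inl (by linarith)⟩
  obtain ⟨r, r1, r2, r3⟩ : ∃ r, -1 - μ + 9 / 2 * ξ - a + 5 * η ≤ 2 * r ∧
      -1 - μ + 3 * ξ + q + 2 * η ≤ 2 * r ∧
      (2 * r ≤ -1 - μ + 9 / 2 * ξ - a + 5 * η ∨ 2 * r ≤ -1 - μ + 3 * ξ + q + 2 * η) := by
    rcases le_total (-1 - μ + 9 / 2 * ξ - a + 5 * η) (-1 - μ + 3 * ξ + q + 2 * η) with e | e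
    · exact ⟨(-1 - μ + 3 * ξ + q + 2 * η) / 2, by linarith, by linarith, .inr (by linarith)⟩
    · exact ⟨(-1 - μ + 9 / 2 * ξ - a + 5 * η) / 2, by linarith, by linarith, .inl (by linarith)⟩
  have k : χ ≥ -(1 / 2) := by rcases hχ with e | e <;> linarith
  have w : vt ≤ -(1 / 20) + X / 2 := by rcases hv with e | e <;> linarith
  refine ⟨q, r, by linarith, by linarith, by linarith, ⟨by linarith, by linarith, by linarith⟩,
    .inl ⟨q1, q2⟩, by linarith, le_rfl, by linarith, by linarith, ?_, ?_, by linarith, by linarith,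
    .inl (by linarith), by linarith, ?_, r1, r2, by linarith, by linarith, ?_, ?_, by linarith,
    by linarith, by linarith, ?_, ?_⟩
  · rcases hχ with e | e <;> linarith
  · rcases hχ with e | e <;> rcases q3 with e | e <;> linarith
  · rcases hv with e | e <;> rcases q3 with e | e <;> linarith
  · rcases hχ with e | e <;> linarith
  · rcases hχ with e | e <;> rcases r3 with e | e <;> rcases q3 with e | e <;> linarith
  · rcases hχ with e | e <;> rcases r3 with e | e <;> rcases q3 with e | e <;> linarith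
  · rcases hv with e | e <;> rcases hχ with e | e <;> rcases r3 with e | e <;>
      rcases q3 with e | e <;> linarith

theorem ns_mono {n C u0 la V U h x Vt Q w u dm Λ s z ρ L P2 P3 P2' P3' : ℝ}
    (S : NS n C u0 la V U h x Vt Q w u dm Λ s z ρ L P2 P3) (a : P2 ≤ P2') (b : P3 ≤ P3') :
    NS n C u0 la V U h x Vt Q w u dm Λ s z ρ L P2' P3' :=
  ⟨S.ct, S.V0, S.hQ, S.uU, S.L1, S.far, S.σ0, S.σ1, S.z1, S.ρ0, S.ρ1, S.n2.trans a, S.n3.trans b⟩

variable {β c0 C0 c0' C0' η' : ℝ} {A : ℕ} {c η K K' : ℝ} {p : Pm} {σ t x y : ℝ} {Q : Pl}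
  (X : Nr44.Cx β c0 C0 A c η K' p σ t)
include X

theorem t_nc (e : ℝ) : T p.n (p.nc e) (e * c) := by
  rw [Pm.nc, X.H.hc]; exact tp (B.of X.H) _

theorem xM0 : 0 < p.xM t := one_pos.trans_le (le_max_left _ _)

theorem lg_xM : logb p.n (p.xM t) = max 0 (logb p.n (p.muG t) + 1 / 3) := by
  rw [Pm.xM, lg_max X.H.N1 one_pos (mul_pos X.θ0 (X.H.rp0 _)), logb_one,
    logb_mul X.θ0.ne' (X.H.rp0 _).ne', X.H.lg_rp]

theorem need_lg (nd : p.Need t) : -(4 * c) ≤ logb p.n (p.muG t) + 1 / 3 := by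
  have a := X.H.lg_mono (pow_pos X.H.κ0 4) nd
  rw [logb_mul X.θ0.ne' (X.H.rp0 _).ne', X.H.lg_rp, logb_pow, X.H.lg_κ] at a
  push_cast at a; linarith

theorem t_uL : T p.n (p.uL t) (-(51 / 100) - logb p.n (p.xM t)) := by
  have H := B.of X.H
  have a := tl H (xM0 X)
  rw [Pm.uL, neg_div]
  exact ⟨H.div (H.up _) a.2, H.ddiv (B.dp _) a.1 (xM0 X)⟩

theorem la_Xlo : p.laG σ ^ 2 ≤ p.XloL σ t := by
  have H := B.of X.H
  refine le_min (X.la_Pt.trans (min_le_left _ _)) (H.le (H.pow (H.ul X.la0) 2)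
    (H.ddiv (H.dmul (t_nc X _).2 (H.dmul (t_nc X _).2 (H.dpow (H.dmul (H.dl X.sM0) (H.dl X.la0)) 2)))
      (H.ul X.θ0) X.θ0) ?_)
  push_cast
  linarith [X.lg_sM.1, (X.H.lg_muG' X.Mt).2, X.H.c_pos]

theorem d_X2 : D p.n (p.X2L t)
    (min (logb p.n (p.PhN t)) (2 / 3 * logb p.n (p.PhN t) - 7 / 60)) := by
  have H := B.of X.H
  refine H.dmono (H.dmul (t_nc X _).2 (D.min (a := min (logb p.n (p.PhN t))
    (2 / 3 * logb p.n (p.PhN t) - 7 / 60)) (H.dmono (H.dl X.Ph0) (min_le_left _ _))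
    (H.dmono (H.dmul (H.dpow (H.drpw (H.dl X.Ph0) _) 2) ((B.dp _).of_le (le_max_right _ _)))
      ((min_le_right _ _).trans (le_of_eq (by push_cast; ring)))))) (by linarith [X.H.c_pos])

variable (G : GrD K c0' C0' η' p σ t Q) (nd : p.Need t)
include G nd

theorem dn : Dn c η (logb p.n (p.muG t)) (logb p.n (p.laG σ)) (logb p.n (p.Vc (nu p σ)))
    (logb p.n (p.u2 (nu p σ))) (logb p.n (p.xM t)) (logb p.n (p.PhN t)) := by
  have L := lg_gst X G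
  have n := need_lg X nd
  have c0 := X.H.c_pos
  have c1 := X.hc
  have η0 := X.H.η_pos
  have η1 := X.hη
  have b := X.H.lg_PhG_bds X.hy.hη X.hy.hε X.Mt X.E1 X.hy.E2
  have φ := X.lg_Ph
  have x0 := le_max_left 0 (logb p.n (p.muG t) + 1 / 3)
  have x1 := le_max_right 0 (logb p.n (p.muG t) + 1 / 3)
  have x2 : max 0 (logb p.n (p.muG t) + 1 / 3) ≤ logb p.n (p.muG t) + 1 / 3 + 4 * c :=
    max_le (by linarith) (by linarith)
  have x3 : max 0 (logb p.n (p.muG t) + 1 / 3) ≤ 1 / 3 - 7 * c :=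
    max_le (by linarith) (by linarith [L.μ1.2])
  have w : logb p.n (nu p σ) + 1 / 3 ≤ max 0 (logb p.n (p.muG t) + 1 / 3) := by
    rcases le_max_iff.1 L.ν2 with e | e <;> linarith
  have w' := L.ν1.1
  rw [← lg_xM X] at x0 x1 x2 x3 w
  refine ⟨c0, c1, η0, η1, x0, x1, x2, x3, L.μ1.2, ?_, ?_, ?_, ?_, ?_, ?_, by linarith [b.1],
    by linarith [X.lg_laΦ], by linarith [b.2]⟩
  all_goals rcases L.pl with ⟨_, _, _, _⟩ | ⟨_, _, _, _⟩ <;> linarith

theorem u_VL : U p.n (p.VL σ t)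
    (c / 100 + max ((4 * c - 47 / 300) / 3) (logb p.n (p.xM t) / 2 - 1 / 6)) := by
  have H := B.of X.H
  have d := dn X G nd
  have a := le_max_left ((4 * c - 47 / 300) / 3) (logb p.n (p.xM t) / 2 - 1 / 6)
  have b := le_max_right ((4 * c - 47 / 300) / 3) (logb p.n (p.xM t) / 2 - 1 / 6)
  refine H.mono (H.mul (t_nc X _).1 (U.max (U.max
    (H.mono (H.rpw (H.div (tw X G).1 (t_uL X).2) _) (le_trans ?_ a))
    (H.mono (H.sqrt (H.ul X.θ0)) (le_trans ?_ b))) (U.max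
    (H.mono (H.sqrt (H.ul X.Ph0)) (le_trans ?_ a)) (H.mono (H.ul X.Vc0) (le_trans ?_ a)))))
    (by linarith)
  all_goals linarith [d.X1, d.X2, d.φ3, d.v2, d.c0, d.c1]

/-- **the lines of the sizes** -/
theorem ezL (y0 : p.XloL σ t ≤ y) (y1 : y ≤ p.PhN t) (x0 : 0 < x) (hx : x ^ 3 = y) :
    ∃ vt χ p3 d q r, U p.n (p.VL σ t) vt ∧ D p.n (p.X2L t) χ ∧ D p.n (p.X3L t) p3 ∧
      EZ η (logb p.n (p.muG t)) (logb p.n (p.laG σ)) (logb p.n (p.Vc (nu p σ)))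
        (logb p.n (p.u2 (nu p σ))) (logb p.n x) vt (-(51 / 100) - logb p.n (p.xM t)) 0 χ p3
        d q r := by
  have H := B.of X.H
  have a := X.H.lg_mono (pow_pos X.la0 2) (((la_Xlo X).trans y0).trans_eq hx.symm)
  have b := X.H.lg_mono (pow_pos x0 3) (hx.trans_le y1)
  rw [logb_pow] at b
  rw [logb_pow, logb_pow] at a
  push_cast at a b
  have e := d_X2 X
  have e0 := (H.pos e).le
  obtain ⟨q, r, Z⟩ := (dn X G nd).ez a b
    (vt := c / 100 + max ((4 * c - 47 / 300) / 3) (logb p.n (p.xM t) / 2 - 1 / 6))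
    ((max_choice _ _).imp (fun h => by rw [h]) fun h => by rw [h]; linarith)
    ((min_choice _ _).imp (fun h => h.ge) fun h => h.ge) (le_max_left _ _) (le_max_right _ _)
  refine ⟨_, _, _, _, q, r, u_VL X G nd, e, ?_, Z⟩
  rcases max_choice (-(101 / 200)) (3 / 2 * min (logb p.n (p.PhN t))
    (2 / 3 * logb p.n (p.PhN t) - 7 / 60)) with h | h <;> rw [h]
  · rw [← neg_div]
    exact (B.dp _).of_le (le_add_of_nonneg_right (rpow_nonneg e0 _))
  · exact (H.drpw e _).of_le (le_add_of_nonneg_left (H.rp _).le)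

/-- **`NS` on `LtD_29`** -/
theorem nsL (y0 : p.XloL σ t ≤ y) (y1 : y ≤ p.PhN t) (x0 : 0 < x) (hx : x ^ 3 = y) :
    ∃ q dm s z ρ, NS p.n (8 * K ^ 2) (Plt13.u0 p (nu p σ)) (p.laG σ) (p.Vc (nu p σ)) (p.u2 (nu p σ))
      (hh p) x (p.VL σ t) q (p.wL t) (p.uL t) dm (12 * log p.n) s z ρ 1 (p.X2L t) (p.X3L t) := by
  obtain ⟨vt, χ, p3, d, q, r, hV, h2, h3, Z⟩ := ezL X G nd y0 y1 x0 hx
  obtain ⟨dm, s, z, S⟩ := ns X G (tl (B.of X.H) x0) hV (t_uL X) ⟨B.one, B.done⟩ Z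
  exact ⟨_, dm, s, z, _, ns_mono S h2 h3⟩

end Crest.Agent.T156.Alt.Lx13

end
end

-- ▼ part T156/LtC2_85
section

/-!
# Row 156 (helper85): `Lp86.NC` on the numbers of `LtD_29`
-/

set_option autoImplicit false
set_option linter.unusedSectionVars false

noncomputable section

namespace Crest.Agent.T156.Alt.Lc85

open Real Tr3 Lp86 Lq3
open Crest.Agent.T156.Alt.Kn72 (nu)

set_option maxHeartbeats 1000000 in
theorem x2_lin {s c ε x μ φ ω z χ : ℝ} (h : Nr44.Ex s c ε x μ φ) (he : 1000 * ε = c)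
    (hc : c ≤ 1 / 2000) (μ0 : -(1 / 3) - 4 * c ≤ μ) (ω2 : ω ≤ μ + 1 / 3 + 4 * c)
    (hz : z = s ∨ z = -(2 * c) - μ) (χ1 : χ ≤ c / 1000 + φ)
    (χ2 : χ ≤ c / 1000 + 2 / 3 * φ + (c / 100 + (s + c / 13 - 1 / 6)) ∨
      χ ≤ c / 1000 + 2 / 3 * φ - 7 / 60) : 2 * χ - μ + c ≤ 2 * z - 1 / 3 - c - ω := by
  obtain ⟨c0, c1, e0, e1, s0, s1, x0, x1, m0, m1, m2, up⟩ := h
  rcases hz with hz | hz <;> rcases χ2 with χ2 | χ2 <;>
  rcases up with up | up | ⟨up, _, _⟩ | up | ⟨up, _⟩ | up | up | ⟨up, _, _⟩ | ⟨up, _⟩ | up |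
    ⟨up, _⟩ <;> linarith

variable {β c0 C0 c0' C0' η' : ℝ} {A : ℕ} {c η K K' : ℝ} {p : Pm} {σ t x y : ℝ} {Q : Pl}
  (X : Nr44.Cx β c0 C0 A c η K' p σ t)
include X

theorem sM_eq : logb p.n (p.sM t) = logb p.n p.s ∨
    logb p.n (p.sM t) = -(2 * c) - logb p.n (p.muG t) := by
  have a := pow_pos X.H.κ0 2
  rw [Pm.sM]
  refine (min_choice _ _).imp (fun h => by rw [h]) fun h => ?_
  rw [h, logb_div a.ne' X.θ0.ne', logb_pow, X.H.lg_κ]; push_cast; ring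

variable (nd : p.Need t)
include nd

/-- `X2² / θ ≤ κ BuL` -/
theorem x2_Bu : 2 * logb p.n (p.X2L t) - logb p.n (p.muG t) + c ≤ logb p.n (p.BuL σ t) := by
  obtain ⟨_, _, _, _, μ0, _, _, _, ω2, _, _, _⟩ := facts (σ := σ) X nd
  have := x2_lin (Nr44.ex X.H X.hy) (by ring) X.hc μ0 ω2 (sM_eq X) (Lt15.lg_X2L X).1
    (Lt15.lg_X2L X).2.1
  linarith [Lt15.lg_BuL X]

variable (G : GrD K c0' C0' η' p σ t Q) (x0 : 0 < x) (hx : x ^ 3 = y) (hy : y ≤ p.PhN t)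
include G x0 hx hy

omit x0 hx hy in
theorem uV : U p.n (p.VL σ t) 0 := by
  obtain ⟨_, _, _, _, _, _, _, _, _, _, _, _⟩ := facts (σ := σ) X nd
  have := max_le (show (4 * c - 47 / 300) / 3 ≤ -c by linarith)
    (show logb p.n (p.xM t) / 2 - 1 / 6 ≤ -c by linarith)
  exact (B.of X.H).mono (Lx13.u_VL X G nd) (by linarith)

/-- `e2`, `c1'`, `c2`, `c4` -/
theorem ncB {e1 N : ℝ} (he : U p.n e1 (-(2 / 5))) (h1 : p.BuL σ t ≤ N) :
    (∃ e, e1 + p.G0L σ t ^ 2 + p.X2L t + p.X2L t * (x + p.VL σ t) ≤ e ∧ mn (p.muG t) e ≤ N) ∧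
      Lx13.Gm p K σ t / p.muG t ≤ N ∧
      p.uL t ^ 2 + p.uL t * (e1 + p.X2L t + √(Lx13.Gm p K σ t / p.uL t)) +
        (p.uL t * p.muG t) ^ ((3 : ℝ) / 2) ≤ N := by
  have H := B.of X.H
  obtain ⟨_, _, _, _, _, _, _, _, _, _, _, _⟩ := facts (σ := σ) X nd
  have l := lgx X nd x0 hx hy
  have d1 := (dBu X).of_le h1
  have n1 := X.H.lg_mono (H.rp _) d1
  have n2 := X.H.lg_mono (Lt15.BuL0 X) h1
  rw [X.H.lg_rp] at n1
  have dN := H.dl (H.pos d1)
  have k := x2_Bu (σ := σ) X nd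
  have χ := H.ul (Lt15.X2L0 X)
  have u := Lx13.t_uL X
  have Γ := (xd X G).Γ
  generalize logb p.n N = ν at *
  refine ⟨⟨_, le_rfl, (min_le_right _ _).trans (H.le (H.div (H.pow (a := (ν + logb p.n (p.muG t)) / 2)
    ?_ 2) (dθ X)) dN (by push_cast; linarith))⟩, H.le (H.div Γ (dθ X)) dN (by linarith), ?_⟩
  · have p1 := H.pc (c := (ν + logb p.n (p.muG t)) / 2) he (by linarith)
    have p2 := H.pc (c := (ν + logb p.n (p.muG t)) / 2) (H.pow (uG0 (σ := σ) X nd) 2)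
      (by push_cast; linarith)
    have p3 := H.pc (c := (ν + logb p.n (p.muG t)) / 2) χ (by linarith)
    have p4 := H.pc (c := (ν + logb p.n (p.muG t)) / 2) (H.mul χ (H.add (c := η) (H.ul x0)
      (uV X nd G) (by linarith) (by linarith))) (by linarith)
    exact H.tot 4 (by linarith) (by linarith)
  · refine H.le (H.add3 (c := ν) (H.pow u.1 2) (H.mul u.1 (H.add3
      (c := ν + 51 / 100 + logb p.n (p.xM t) - η) he (uX2 X nd) (H.sqrt (H.div Γ u.2)) ?_ ?_ ?_))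
      (H.rpw (H.mul u.1 (uθ X)) _) ?_ ?_ ?_) dN le_rfl
    all_goals
      push_cast
      linarith

/-- **`NC` on `LtD_29`**, for any `N` above the two terms of `NL` -/
theorem ncL' {e1 N : ℝ} (y0 : p.XloL σ t ≤ y) (he : U p.n e1 (-(2 / 5))) (h1 : p.BuL σ t ≤ N)
    (h2 : p.nc (1 / 20) * p.muG t * y ^ ((4 : ℝ) / 3) ≤ N) :
    ∃ q dm z aM e B m, NC p.EL p.n (8 * K ^ 2) (p.muG t) (Plt13.u0 p (nu p σ)) (p.laG σ)
      (p.Vc (nu p σ)) (p.u2 (nu p σ)) (Lx13.hh p) (Lx13.Gm p K σ t) x (p.VL σ t) (p.VL σ t) q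
      (p.wL t) (p.uL t) dm (12 * log p.n) z aM (p.X2L t) p.LgL (p.X2L t) (p.G0L σ t) (p.jL σ t)
      (p.ecL σ t y) (p.tauL σ t y) e1 e B m N := by
  have H := B.of X.H
  obtain ⟨⟨e, e2, c1'⟩, c2, c4⟩ := ncB X nd G x0 hx hy he h1
  obtain ⟨b, m, c3, c8, c9, jτ, A1, m1, c5, c5'⟩ := corner' X nd x0 hx hy h1 h2
  obtain ⟨_, _, _, _, _, _, _, _, _, _, _, _⟩ := facts (σ := σ) X nd
  obtain ⟨-, -, -, -, -, -, -, _, -, -, _, -, _, _, -, -, -, -⟩ := Lx13.dn X G nd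
  have l := lgx X nd x0 hx hy
  have a := X.H.lg_mono (pow_pos X.la0 2) (((Lx13.la_Xlo X).trans y0).trans_eq hx.symm)
  rw [logb_pow, logb_pow] at a
  push_cast at a
  have Y := xd X G
  have u := Lx13.t_uL X
  have V := uV X nd G
  have w := uw X
  have dm := dm_d (d := -(51 / 100) - logb p.n (p.xM t) - η) H (tu X G).2 Y.ud u.2
    ⟨by linarith, by linarith, by linarith⟩
  refine ⟨_, _, _, 0, e, b, m, ct X G (tl H x0) u.2 (by linarith) (by linarith) (by linarith),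
    ⟨V.1, le_rfl⟩, qq (q := 7 / 25) Y (H.ul x0) V (.inl ⟨by linarith, by linarith⟩),
    zz (lm := η) (z := -(7 / 10) - logb p.n (p.muG t)) Y (H.ul x0) V w u.2
      ⟨by linarith, by linarith, .inl le_rfl, by linarith, by linarith, by linarith⟩,
    .inl (H.le (H.mul (lam X) (H.mul (H.pow (H.pow (uc X _) 2) 6)
      (H.add (c := -(7 / 20) - logb p.n (p.xM t))
        (H.mul (H.cst (y := 4) (by norm_num) (by norm_num)) (H.up _))
        (H.mul (H.cst (y := 16) (by norm_num) (by norm_num))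
          (bD_u (b := -(1 / 2) - logb p.n (p.xM t)) Y w dm 1 ?_ ?_)) ?_ ?_)))
      ((dBu X).of_le h1) ?_), e2, c1', c2, c3, c4, c8, c9, jτ, A1, m1, c5, c5'⟩
  all_goals
    push_cast
    linarith

/-- **`NC` on `LtD_29`** -/
theorem ncL {e1 : ℝ} (y0 : p.XloL σ t ≤ y) (he : U p.n e1 (-(2 / 5))) :
    ∃ q dm z aM e B m, NC p.EL p.n (8 * K ^ 2) (p.muG t) (Plt13.u0 p (nu p σ)) (p.laG σ)
      (p.Vc (nu p σ)) (p.u2 (nu p σ)) (Lx13.hh p) (Lx13.Gm p K σ t) x (p.VL σ t) (p.VL σ t) q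
      (p.wL t) (p.uL t) dm (12 * log p.n) z aM (p.X2L t) p.LgL (p.X2L t) (p.G0L σ t) (p.jL σ t)
      (p.ecL σ t y) (p.tauL σ t y) e1 e B m (p.NL σ t y) := by
  have y0' : 0 ≤ y := hx ▸ (pow_pos x0 3).le
  exact ncL' X nd G x0 hx hy y0 he (Lt15.BuL_le X y0') (le_add_of_nonneg_left (Lt15.BuL0 X).le)

end Crest.Agent.T156.Alt.Lc85

end
end

-- ▼ part T156/LPa_72

/-!
# Row 156 (helper72): the lines `NA` of `LP` on the table `LtD_29`
-/

set_option autoImplicit false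
set_option linter.unusedSectionVars false

noncomputable section

namespace Crest.Agent.T156.Alt.La72

open Real Lt15

variable {β c0 C0 : ℝ} {A : ℕ} {c η K : ℝ} {p : Pm} {σ t x y : ℝ}
  (X : Nr44.Cx β c0 C0 A c η K p σ t) (nd : p.Need t)
include X nd

/-- crude upper exponents -/
theorem up : logb p.n (p.X2L t) ≤ c / 1000 + logb p.n (p.PhN t) ∧
    logb p.n (p.X2L t) ≤ 2 / 3 * logb p.n (p.PhN t) - 113 / 1000 ∧
    (logb p.n (p.jL σ t) ≤ η + logb p.n (p.PhN t) / 2 ∨ logb p.n (p.jL σ t) ≤ -1 / 7) := by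
  have hc := X.hc; have hη := X.hη; have η0 := X.H.η_pos
  have s := X.H.lg_s.2
  have n1 := (need_iff X).1 nd
  obtain ⟨a1, a2, -⟩ := lg_X2L X
  obtain ⟨-, θ2, θ3⟩ := lg_θ X
  obtain ⟨-, l2, -⟩ := lg_la X nd
  refine ⟨a1, by rcases a2 with e | e <;> linarith, ?_⟩
  rcases (lg_jL X).2 with e | e | e
  · exact .inl e
  · exact .inr (by linarith)
  · rcases (lg_l0L X).2 with f | f | f <;> exact .inr (by linarith)

/-- lower exponent of the a priori energy -/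
theorem lo (h : p.XloL σ t ≤ y) : logb p.n (p.PhN t) ≤ logb p.n y ∨
    -(1 / 3) - c / 2 - logb p.n (p.muG t) - logb p.n (p.xM t) ≤ logb p.n y := by
  have a := X.H.lg_mono (XloL0 X) h
  rw [lg_XloL X, lg_BuL X, min_le_iff] at a
  exact a.imp id fun e => by linarith [X.lg_sM.1, (lg_la X nd).1, X.H.c_pos]

set_option maxHeartbeats 1600000 in
theorem ec_le (h : p.XloL σ t ≤ y) (x0 : 0 < x) (hx : x ^ 3 = y) :
    p.ucL t ^ 3 + p.ucL t ^ 2 * (p.muG t + p.jL σ t + x) +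
      (√(p.LcL t * p.wL t) + p.G0L σ t + p.X2L t) * (p.ucL t + √(p.X2L t)) + p.X3L t + 1 / p.n ≤
      p.muG t * x / 3 := by
  have H := X.H
  have hc := X.hc; have hη := X.hη; have η0 := H.η_pos
  have N0 := H.N0; have θ0 := X.θ0; have u0 := ucL0 X; have j0 := jL0 X; have L0 := LcL0 X
  have w0 := wL0 X; have G0 := G0L0 X; have X0 := X2L0 X
  have n1 := (need_iff X).1 nd
  have θ2 := (lg_θ X).2.1
  have φ1 := (lg_Ph_lo X).1
  have φ2 := lg_Ph_hi X nd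
  have l1 := (lg_la X nd).1
  obtain ⟨a1, a2, a3⟩ := up X nd
  have g := (lg_G0L X).2.2.2
  have lu := lg_ucL X
  have lL := lg_LcL X
  have lw := lg_wL X
  have ly := lo X nd h
  have m := lg_xM X
  have c := (H.lg_num (x := 42) (by norm_num) (by norm_num)).2
  rw [← hx, logb_pow] at ly
  push_cast at ly
  have k : ∀ v, 0 < v → η + logb p.n v ≤ logb p.n (p.muG t) + logb p.n x → 42 * v ≤ p.muG t * x :=
    fun v v0 e => H.le_of_lg (by positivity) (by positivity) (by lg_norm; linarith)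
  have k1 := k (p.ucL t ^ 3) (by positivity) (by
    lg_norm; rcases m with ⟨m, m'⟩ | ⟨m, m'⟩ <;> rcases ly with e | e <;> linarith)
  have k2 := k (p.ucL t ^ 2 * p.muG t) (by positivity) (by
    lg_norm; rcases m with ⟨m, m'⟩ | ⟨m, m'⟩ <;> rcases ly with e | e <;> linarith)
  have k3 := k (p.ucL t ^ 2 * p.jL σ t) (by positivity) (by
    lg_norm
    rcases m with ⟨m, m'⟩ | ⟨m, m'⟩ <;> rcases ly with e | e <;> rcases a3 with f | f <;> linarith)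
  have k4 := k (p.ucL t ^ 2 * x) (by positivity) (by
    lg_norm; rcases m with ⟨m, m'⟩ | ⟨m, m'⟩ <;> linarith)
  have k5 := k (√(p.LcL t * p.wL t) * p.ucL t) (by positivity) (by
    lg_norm; rcases m with ⟨m, m'⟩ | ⟨m, m'⟩ <;> rcases ly with e | e <;> linarith)
  have k6 := k (√(p.LcL t * p.wL t) * √(p.X2L t)) (by positivity) (by
    lg_norm; rcases m with ⟨m, m'⟩ | ⟨m, m'⟩ <;> rcases ly with e | e <;> linarith)
  have k7 := k (p.G0L σ t * p.ucL t) (by positivity) (by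
    lg_norm
    rcases m with ⟨m, m'⟩ | ⟨m, m'⟩ <;> rcases ly with e | e <;> rcases g with f | f | f <;> linarith)
  have k8 := k (p.G0L σ t * √(p.X2L t)) (by positivity) (by
    lg_norm
    rcases m with ⟨m, m'⟩ | ⟨m, m'⟩ <;> rcases ly with e | e <;> rcases g with f | f | f <;> linarith)
  have k9 := k (p.X2L t * p.ucL t) (by positivity) (by
    lg_norm; rcases m with ⟨m, m'⟩ | ⟨m, m'⟩ <;> rcases ly with e | e <;> linarith)
  have k10 := k (p.X2L t * √(p.X2L t)) (by positivity) (by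
    lg_norm; rcases m with ⟨m, m'⟩ | ⟨m, m'⟩ <;> rcases ly with e | e <;> linarith)
  have k11 := k ((p.n : ℝ) ^ (-(101 : ℝ) / 200)) (by positivity) (by
    rw [H.lg_rp]; rcases m with ⟨m, m'⟩ | ⟨m, m'⟩ <;> rcases ly with e | e <;> linarith)
  have k12 := k (p.X2L t ^ ((3 : ℝ) / 2)) (by positivity) (by
    lg_norm; rcases m with ⟨m, m'⟩ | ⟨m, m'⟩ <;> rcases ly with e | e <;> linarith)
  have k13 := k (1 / p.n) (by positivity) (by
    lg_norm; rw [H.lg_n]; rcases m with ⟨m, m'⟩ | ⟨m, m'⟩ <;> rcases ly with e | e <;> linarith)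
  rw [Pm.X3L]
  nlinarith [mul_pos θ0 x0]

set_option maxHeartbeats 1600000 in
/-- **`NA` on the table** -/
theorem naL (h : p.XloL σ t ≤ y) (h' : y ≤ p.PhN t) (x0 : 0 < x) (hx : x ^ 3 = y) {P2 P3 : ℝ}
    (h2 : P2 ≤ p.X2L t) (h3 : P3 ≤ p.X3L t) :
    Lp86.NA p.EL p.n (p.muG t) (p.laG σ) (Lx13.hh p) x (p.wL t) (p.uL t) (p.uL t) 1 P2 P3 p.LgL
      (p.LcL t) (p.ucL t) (p.X2L t) (p.X3L t) (p.G0L σ t) (p.jL σ t) (p.ecL σ t y) (p.tauL σ t y) := by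
  have H := X.H
  have hc := X.hc; have hη := X.hη; have η0 := H.η_pos
  have N0 := H.N0; have θ0 := X.θ0; have u0 := ucL0 X; have j0 := jL0 X; have L0 := LcL0 X
  have w0 := wL0 X; have G0 := G0L0 X; have X0 := X2L0 X; have E0 := EL0 H; have v0 := uL0 X
  have a0 := X.la0
  have n1 := (need_iff X).1 nd
  have θ2 := (lg_θ X).2.1
  have φ1 := (lg_Ph_lo X).1
  have φ2 := lg_Ph_hi X nd
  obtain ⟨-, -, a3⟩ := up X nd
  obtain ⟨g1, g2, -⟩ := lg_G0L X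
  have lu := lg_ucL X
  have lL := lg_LcL X
  have lw := lg_wL X
  have lE := lg_EL H
  have lv := lg_uL X
  have ly := lo X nd h
  have ly' := H.lg_mono ((XloL0 X).trans_le h) h'
  have m := lg_xM X
  have c2 := (H.lg_num (x := 2) (by norm_num) (by norm_num)).2
  have c3 := (H.lg_num (x := 3) (by norm_num) (by norm_num)).2
  have c8 := (H.lg_num (x := 8) (by norm_num) (by norm_num)).2
  have c24 := (H.lg_num (x := 24) (by norm_num) (by norm_num)).2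
  have e3 : y ^ ((1 : ℝ) / 3) = x := by
    rw [← hx, ← rpow_natCast, ← rpow_mul x0.le]; norm_num
  have ec := ec_le X nd h x0 hx
  rw [← hx, logb_pow] at ly ly'
  push_cast at ly ly'
  have w3 : 0 < p.wL t ^ ((1 : ℝ) / 3) := by positivity
  have e0 : 0 < p.ecL σ t y := by
    have := X3L0 X
    rw [Pm.ecL, e3]; positivity
  have t1 : p.tauL σ t y ≤ x := by
    have b1 : 3 * (x / p.LcL t) ≤ x := H.le_of_lg (by positivity) x0 (by
      lg_norm; rcases m with ⟨m, m'⟩ | ⟨m, m'⟩ <;> linarith)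
    have b2 : 3 * p.wL t ^ ((1 : ℝ) / 3) ≤ x := H.le_of_lg (by positivity) x0 (by
      lg_norm; rcases m with ⟨m, m'⟩ | ⟨m, m'⟩ <;> rcases ly with e | e <;> linarith)
    have b3 : p.ecL σ t y / p.muG t ≤ x / 3 := by
      rw [div_le_iff₀ θ0, Pm.ecL, e3]; linarith
    rw [Pm.tauL, e3]
    linarith
  have x1 : 2 * (p.EL * x) ≤ 1 := H.le_of_lg (by positivity) one_pos (by lg_norm; linarith)
  have j1 : 2 * (p.EL * p.jL σ t) ≤ 1 := H.le_of_lg (by positivity) one_pos (by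
    lg_norm; rcases a3 with f | f <;> linarith)
  have b1 : 24 * (p.wL t * (√(x ^ 3) / p.laG σ)) ≤ p.G0L σ t ^ 2 :=
    H.le_of_lg (by positivity) (by positivity) (by lg_norm; linarith)
  have b2 : 8 * p.wL t ≤ p.G0L σ t ^ 2 := H.le_of_lg (by positivity) (by positivity) (by
    lg_norm; rcases m with ⟨m, m'⟩ | ⟨m, m'⟩ <;> linarith)
  refine ⟨EL1 H, by rw [Pm.wL, one_div_mul_cancel (by positivity)], by nlinarith [mul_pos E0 x0],
    le_rfl, H.le_of_lg (by positivity) one_pos ?_, by rw [one_pow]; exact H.N1.le,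
    one_le_pow₀ (EL1 H), h2, h3, H.le_of_lg v0 G0 ?_, ?_,
    H.le_of_lg (H.rp0 _) (by positivity) ?_,
    ⟨H.le_of_lg (LgL0 H) L0 ?_, H.le_of_lg L0 N0 ?_⟩, u0.le,
    H.le_of_lg (by positivity) (by positivity) ?_, j0.le, by rw [Pm.ecL, e3],
    H.le_of_lg (by positivity) θ0 ?_, by rw [Pm.tauL, e3]; linarith, t1,
    by nlinarith [mul_le_mul_of_nonneg_left t1 E0.le], ?_⟩
  · lg_norm; rcases m with ⟨m, m'⟩ | ⟨m, m'⟩ <;> linarith
  · rcases m with ⟨m, m'⟩ | ⟨m, m'⟩ <;> linarith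
  · rw [mul_div_assoc]; linarith
  · rw [H.lg_rp]; lg_norm; rcases m with ⟨m, m'⟩ | ⟨m, m'⟩ <;> linarith
  · rw [lg_LgL H]; rcases m with ⟨m, m'⟩ | ⟨m, m'⟩ <;> linarith
  · rw [H.lg_n]; rcases m with ⟨m, m'⟩ | ⟨m, m'⟩ <;> linarith
  · lg_norm; linarith
  · lg_norm; rcases m with ⟨m, m'⟩ | ⟨m, m'⟩ <;> linarith
  · refine (Ps64.cube3 w0.le).ge.trans (pow_le_pow_left₀ w3.le ?_ 3)
    rw [Pm.tauL, e3]
    exact le_add_of_nonneg_left (by positivity)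

end Crest.Agent.T156.Alt.La72

end
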