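import Crest.Agent.T156.Crv_56
import Crest.Agent.T156.CaTilt_43
import Crest.Agent.T156.SgnCas_69
import Crest.Agent.T156.CaKkt_28
import Crest.Agent.T156.Ent_68

-- ▼ part T156/Ann_56
section

/-!
# Row 156: small marks are free (they move to tilt `1` by the dyadic transfer) (helper56)
-/

set_option autoImplicit false
set_option linter.unusedSectionVars false

noncomputable section

namespace Crest.Agent.T156.Cas

open MeasureTheory Real Set Filter Topology
open Crest.Agent.T157.E Crest.Agent.T157.Casc Crest.Agent.T157.SL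
open Trf

variable {Ω : Type} [Fintype Ω] {w : Ω → ℝ}

/-- affine moves of the tilts of the upper levels give a family -/
theorem fam_tl (hw : Wt w) {l : Lv Ω} {M : List (Lv Ω)} {L : List (Lv Ω × ℝ)} {h : Ω → ℝ}
    {T : Set (Equiv.Perm Ω)} {x₀ : Ω} {α β : ℝ}
    (hL : ∀ p ∈ L, ∀ t ∈ Icc α β, 0 ≤ p.1.m + t * p.2)
    (hT : ∀ τ ∈ T, Sym w (l :: M ++ L.map Prod.fst) h τ) (htr : ∀ x, w x ≠ 0 → ∃ τ ∈ T, τ x₀ = x) :
    Fam w l M (tl L) h T x₀ α β :=
  ⟨hw, tiltStmt Ω w hw L α β hL, fun τ hτ t _ => ⟨(hT τ hτ).w, (hT τ hτ).h, fun k hk => by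
    rcases List.mem_append.1 hk with hk | hk
    · exact (hT τ hτ).cov k (List.mem_append_left _ hk)
    · obtain ⟨p, hp, rfl⟩ := List.mem_map.1 hk
      exact (hT τ hτ).cov p.1 (List.mem_append_right _ (List.mem_map_of_mem hp))⟩, htr⟩

/-- slopes of the value along an affine move of the tilts -/
theorem tl_sub (hw : Wt w) {c : Lv Ω × ℝ → ℝ} {t t' : ℝ} (ht : t ≤ t') :
    ∀ L : List (Lv Ω × ℝ), (∀ p ∈ L, ∀ x, p.1.cov x x ≤ c p) → ∀ z,
      X w (tl L t) z + (t' - t) / 2 * (L.map fun p => min p.2 0 * c p).sum ≤ X w (tl L t') z ∧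
      X w (tl L t') z ≤ X w (tl L t) z + (t' - t) / 2 * (L.map fun p => max p.2 0 * c p).sum
  | [], _, z => by simp [tl]
  | p :: L, hc, z => by
    have ih := tl_sub hw ht L fun q hq => hc q (List.mem_cons_of_mem _ hq)
    have a1 := C.X_append_le hw hw (fun z => (ih z).2) [rt p.1 (p.1.m + t' * p.2)] z
    have a2 := C.X_append_le hw hw (M := tl L t) (M' := tl L t')
      (c := -((t' - t) / 2 * (L.map fun p => min p.2 0 * c p).sum))
      (fun z => by linarith [(ih z).1]) [rt p.1 (p.1.m + t' * p.2)] z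
    have e : ∀ u, tl (p :: L) u = rt p.1 (p.1.m + u * p.2) :: tl L u := fun _ => rfl
    simp only [List.singleton_append] at a1 a2
    simp only [e, List.map_cons, List.sum_cons]
    rcases le_total 0 p.2 with h0 | h0
    · have b := X_rt_sub hw p.1 (tl L t) z (hc p (by simp)) (a := p.1.m + t * p.2)
        (a' := p.1.m + t' * p.2) (by nlinarith)
      rw [min_eq_right h0, max_eq_left h0]
      constructor <;> linarith [b.1, b.2]
    · have b := X_rt_sub hw p.1 (tl L t) z (hc p (by simp)) (a := p.1.m + t' * p.2)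
        (a' := p.1.m + t * p.2) (by nlinarith)
      rw [min_eq_left h0, max_eq_right h0]
      constructor <;> linarith [b.1, b.2]

/-- the tilt `m ≥ x` after the move that carries `x` to `u` and fixes `1` -/
def upm (x m u : ℝ) : ℝ := (m - x) / (1 - x) + u * ((1 - m) / (1 - x))

/-- all tilts move affinely to `1`; `u` is the position of the tilt `x` -/
def upT (N : List (Lv Ω)) (x u : ℝ) : List (Lv Ω) := N.map fun l => rt l (upm x l.m u)

namespace Ann56

variable {x m m' u : ℝ}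

theorem upm_self (hx : x < 1) : upm x m x = m := by
  have : 1 - x ≠ 0 := by linarith
  unfold upm; field_simp; ring

theorem upm_one (hx : x < 1) : upm x m 1 = 1 := by
  have : 1 - x ≠ 0 := by linarith
  unfold upm; field_simp; ring

theorem upm_low (hx : x < 1) : upm x x u = u := by
  have : 1 - x ≠ 0 := by linarith
  unfold upm; field_simp; ring

theorem upm_top (hx : x < 1) : upm x 1 u = 1 := by
  have : 1 - x ≠ 0 := by linarith
  unfold upm; field_simp; ring

theorem upm_mono (hx : x < 1) (hu : u ≤ 1) (h : m ≤ m') : upm x m u ≤ upm x m' u := by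
  have h0 : 0 < 1 - x := by linarith
  have e : upm x m' u - upm x m u = (m' - m) * (1 - u) / (1 - x) := by
    unfold upm; field_simp; ring
  have := div_nonneg (mul_nonneg (sub_nonneg.2 h) (sub_nonneg.2 hu)) h0.le
  linarith

theorem le_upm (hx : x < 1) (hu : x ≤ u) (h : m ≤ 1) : m ≤ upm x m u := by
  have h0 : 0 < 1 - x := by linarith
  have e : upm x m u - m = (u - x) * (1 - m) / (1 - x) := by
    unfold upm; field_simp; ring
  have := div_nonneg (mul_nonneg (sub_nonneg.2 hu) (sub_nonneg.2 h)) h0.le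
  linarith


theorem mono_mem : ∀ {N : List (Lv Ω)} {m0 : ℝ}, Mono m0 N → ∀ l ∈ N, m0 ≤ l.m ∧ l.m ≤ 1
  | [], _, _, _, hl => by simp at hl
  | k :: N, _, h, l, hl => by
    rcases List.mem_cons.1 hl with rfl | hl
    · exact ⟨h.1, (mono_ex h.2).trans (ex_le_one h.2)⟩
    · exact ⟨h.1.trans (mono_mem h.2 l hl).1, (mono_mem h.2 l hl).2⟩

theorem mono_up (hx : x < 1) (hu : u ≤ 1) : ∀ {N : List (Lv Ω)} {m0 : ℝ}, Mono m0 N →
    Mono (upm x m0 u) (upT N x u)
  | [], _, h => (upm_mono hx hu h).trans_eq (upm_top hx)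
  | _ :: _, _, h => ⟨upm_mono hx hu h.1, mono_up hx hu h.2⟩

theorem mono_app_up (hx : x < 1) (hu : u ∈ Icc x 1) {N : List (Lv Ω)} :
    ∀ {M : List (Lv Ω)} {m0 : ℝ}, Mono m0 (M ++ N) → Mono m0 (M ++ upT N x u)
  | [], _, h => mono_le (mono_up hx hu.2 h)
      (le_upm hx hu.1 ((mono_ex h).trans (ex_le_one h)))
  | _ :: _, _, h => ⟨h.1, mono_app_up hx hu h.2⟩

/-- the move in the form `tl` -/
def pr (N : List (Lv Ω)) (x : ℝ) : List (Lv Ω × ℝ) :=
  N.map fun l => (rt l ((l.m - x) / (1 - x)), (1 - l.m) / (1 - x))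

theorem tl_pr (N : List (Lv Ω)) (x : ℝ) : tl (pr N x) = upT N x := by
  funext u
  simp only [tl, pr, upT, List.map_map]
  rfl

theorem X_top (hw : Wt w) (x₀ : Ω) : ∀ N : List (Lv Ω),
    (∀ l ∈ N, l.m = 1 ∧ ∀ y, l.cov y y = l.cov x₀ x₀) → ∃ c, ∀ z, X w N z = X w [] z + c
  | [], _ => ⟨0, fun z => by simp⟩
  | l :: N, H => by
    obtain ⟨c, hc⟩ := X_top hw x₀ N fun k hk => H k (List.mem_cons_of_mem _ hk)
    refine ⟨l.cov x₀ x₀ / 2 + c, fun z => ?_⟩
    have a1 := C.X_append_le hw hw (fun z => (hc z).le) [l] z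
    have a2 := C.X_append_le hw hw (M := []) (M' := N) (c := -c)
      (fun z => by linarith [hc z]) [l] z
    have b := C.X_annealed_const hw (H l (by simp)).1 (H l (by simp)).2 z
    simp only [List.singleton_append] at a1 a2
    linarith

end Ann56

open Ann56



theorem mono_upT {N : List (Lv Ω)} {x u : ℝ} (hx : x < 1) (hu : u ≤ 1) (h : Mono x N) :
    Mono u (upT N x u) := by
  have := mono_up hx hu h
  rwa [upm_low hx] at this

/-- **small marks are free**: along the move to tilt `1`, from any point `u` of the path -/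
theorem anneal (hw : Wt w) {l : Lv Ω} {M N : List (Lv Ω)} {h : Ω → ℝ} {T : Set (Equiv.Perm Ω)}
    {x₀ : Ω} {a a' x u W S : ℝ} {J : ℕ} (hT : ∀ τ ∈ T, Sym w (l :: M ++ N) h τ)
    (htr : ∀ y, w y ≠ 0 → ∃ τ ∈ T, τ x₀ = y) (hd : ∀ k ∈ N, ∀ y, k.cov y y = k.cov x₀ x₀)
    (ha : 0 < a) (haa : a ≤ a') (hx : a' < x) (hx1 : x < 1) (hu : u ∈ Icc x 1)
    (hM : Mono a' (M ++ N)) (hN : Mono x N) (hJ : 1 - a' ≤ 2 ^ J * (x - a'))
    (hS : (N.map fun k => (1 - k.m) * k.cov x₀ x₀).sum ≤ 2 * (1 - x) * S)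
    (hW : ∀ v ∈ Icc x 1, Wd w l (M ++ upT N x v) h a a' ≤ W) :
    |X w (rt l a' :: M ++ upT N x u) h - X w (rt l a :: M ++ upT N x u) h -
      (X w (rt l a' :: M) h - X w (rt l a :: M) h)| ≤ J * √(6 * (a' - a) * W * S) := by
  have h0 : 0 < 1 - x := by linarith
  have hr : ∀ k ∈ N, 0 ≤ (1 - k.m) / (1 - x) := fun k hk =>
    div_nonneg (sub_nonneg.2 (mono_mem hN k hk).2) h0.le
  have H : Fam w l M (upT N x) h T x₀ u 1 := by
    rw [← tl_pr]
    refine fam_tl hw (fun p hp t ht => ?_) (fun τ hτ => ⟨(hT τ hτ).w, (hT τ hτ).h, fun k hk => ?_⟩)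
      htr
    · obtain ⟨k, hk, rfl⟩ := List.mem_map.1 hp
      exact add_nonneg (div_nonneg (sub_nonneg.2 (mono_mem hN k hk).1) h0.le)
        (mul_nonneg (by linarith [hu.1, ht.1]) (hr k hk))
    · rcases List.mem_append.1 hk with hk | hk
      · exact (hT τ hτ).cov k (List.mem_append_left _ hk)
      · obtain ⟨p, hp, rfl⟩ := List.mem_map.1 hk
        obtain ⟨k', hk', rfl⟩ := List.mem_map.1 hp
        exact (hT τ hτ).cov k' (List.mem_append_right _ hk')
  have hcov : ∀ k : Lv Ω, 0 ≤ k.cov x₀ x₀ := fun k => Finset.sum_nonneg fun _ _ => mul_self_nonneg _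
  have hS0 : 0 ≤ S := by
    have : 0 ≤ (N.map fun k => (1 - k.m) * k.cov x₀ x₀).sum := List.sum_nonneg fun r hr => by
      obtain ⟨k, hk, rfl⟩ := List.mem_map.1 hr
      exact mul_nonneg (sub_nonneg.2 (mono_mem hN k hk).2) (hcov k)
    exact nonneg_of_mul_nonneg_right (this.trans hS) (by linarith)
  have sl : ∀ t t', t ≤ t' → ∀ z, X w (upT N x t) z ≤ X w (upT N x t') z + 0 ∧
      X w (upT N x t') z ≤ X w (upT N x t) z + S * (t' - t) := fun t t' ht z => by
    have b := tl_sub hw (c := fun p => p.1.cov x₀ x₀) ht (pr N x) (fun p hp y => by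
      obtain ⟨k, hk, rfl⟩ := List.mem_map.1 hp
      exact (hd k hk y).le) z
    have e1 : ((pr N x).map fun p => min p.2 0 * p.1.cov x₀ x₀).sum = 0 :=
      List.sum_eq_zero fun r hr' => by
        obtain ⟨p, hp, rfl⟩ := List.mem_map.1 hr'
        obtain ⟨k, hk, rfl⟩ := List.mem_map.1 hp
        simp only [min_eq_right (hr k hk), zero_mul]
    have e2 : ((pr N x).map fun p => max p.2 0 * p.1.cov x₀ x₀).sum =
        (1 - x)⁻¹ * (N.map fun k => (1 - k.m) * k.cov x₀ x₀).sum := by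
      rw [← List.sum_map_mul_left, pr, List.map_map]
      refine congrArg _ (List.map_congr_left fun k hk => ?_)
      show max ((1 - k.m) / (1 - x)) 0 * k.cov x₀ x₀ = _
      rw [max_eq_left (hr k hk)]
      ring
    have e3 : (1 - x)⁻¹ * (N.map fun k => (1 - k.m) * k.cov x₀ x₀).sum ≤ 2 * S := by
      rw [inv_mul_le_iff₀ h0]; linarith
    rw [tl_pr, e1, e2] at b
    have := mul_le_mul_of_nonneg_left e3 (show 0 ≤ (t' - t) / 2 by linarith)
    constructor <;> linarith [b.1, b.2]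
  have key := H.transfer_dyadic (a := a) (a' := a') (K := S) (W := W) (S := S) (lo := fun _ => 0)
    (J := J) ha haa (hx.trans_le hu.1) hu.2
    (hJ.trans (mul_le_mul_of_nonneg_left (by linarith [hu.1]) (by positivity)))
    ((Wd_nonneg hw l _ h haa).trans (hW 1 ⟨hx1.le, le_rfl⟩)) hS0
    (fun t ht => mono_app_up hx1 ⟨hu.1.trans ht.1, ht.2⟩ hM)
    (fun t ht => mono_ex (mono_upT hx1 ht.2 hN))
    (fun t _ t' _ z => by
      rcases le_total t t' with h1 | h1
      · rw [abs_sub_comm, abs_sub_comm t, abs_of_nonneg (sub_nonneg.2 h1), abs_le]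
        have := mul_nonneg hS0 (sub_nonneg.2 h1)
        constructor <;> linarith [(sl t t' h1 z).1, (sl t t' h1 z).2]
      · rw [abs_of_nonneg (sub_nonneg.2 h1), abs_le]
        have := mul_nonneg hS0 (sub_nonneg.2 h1)
        constructor <;> linarith [(sl t' t h1 z).1, (sl t' t h1 z).2])
    (fun t ht => hW t ⟨hu.1.trans ht.1, ht.2⟩)
    (fun s _ t _ t' _ h1 => by
      have b1 := C.X_append_le hw hw (fun z => (sl t t' h1 z).1) (rt l s :: M) h
      have b2 := C.X_append_le hw hw (fun z => (sl t t' h1 z).2) (rt l s :: M) h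
      constructor <;> linarith)
  obtain ⟨c, hc⟩ := X_top hw x₀ (upT N x 1) fun k hk => by
    obtain ⟨k', hk', rfl⟩ := List.mem_map.1 hk
    exact ⟨upm_one hx1, hd k' hk'⟩
  have top : ∀ s, X w (rt l s :: M ++ upT N x 1) h = X w (rt l s :: M) h + c := fun s => by
    have a1 := C.X_append_le hw hw (fun z => (hc z).le) (rt l s :: M) h
    have a2 := C.X_append_le hw hw (M := []) (M' := upT N x 1) (c := -c)
      (fun z => by linarith [hc z]) (rt l s :: M) h
    rw [List.append_nil] at a1 a2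
    linarith
  rw [top, top, abs_sub_comm] at key
  refine le_of_eq_of_le (congrArg _ ?_) key
  ring


/-! ### the cube, in terms of curves -/

theorem ov_diag {n : ℕ} {k : Lv (Cube n)} (hk : OvLv k) (x₀ y : Cube n) :
    k.cov y y = k.cov x₀ x₀ := by
  obtain ⟨τ, hτ, rfl⟩ := TS_trans x₀ y
  exact (sym_act₀ (L := [k]) (by simpa using hk) τ hτ).cov k (by simp) x₀ x₀




/-- the number of dyadic steps -/
theorem exists_J {d : ℝ} (h0 : 0 < d) (h1 : d ≤ 1) :
    ∃ J : ℕ, 1 ≤ 2 ^ J * d ∧ (J : ℝ) ≤ 1 + 2 * log d⁻¹ := by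
  have hl : 0 ≤ log d⁻¹ := log_nonneg (one_le_inv₀ h0 |>.2 h1)
  have l2 : (1 : ℝ) / 2 ≤ log 2 := by linarith [log_two_gt_d9]
  refine ⟨⌈2 * log d⁻¹⌉₊, ?_, by linarith [Nat.ceil_lt_add_one (show 0 ≤ 2 * log d⁻¹ by linarith)]⟩
  rw [← div_le_iff₀ h0, one_div, ← exp_log (inv_pos.2 h0), ← exp_log (show (0 : ℝ) < 2 ^ _ by
    positivity), log_pow, exp_le_exp, exp_log (inv_pos.2 h0)]
  have := mul_le_mul (Nat.le_ceil (2 * log d⁻¹)) l2 (by norm_num) (by positivity)
  linarith

end Crest.Agent.T156.Cas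

end
end

-- ▼ part T156/Lift_72

/-!
# Row 156: finite lifts of tilts, with the slope read in the END model (helper72)
-/

set_option autoImplicit false
set_option linter.unusedSectionVars false

noncomputable section

namespace Crest.Agent.T156.Cas.Lift72

open MeasureTheory Real Set Filter Topology
open Crest.Agent.T157.E Crest.Agent.T157.Casc Crest.Agent.T157.SL
open Trf

variable {Ω : Type} [Fintype Ω] {w : Ω → ℝ}

theorem lg_cmul {F : (Ω → ℝ) → ℝ} (hF : Lg F) (c : ℝ) : Lg fun z => c * F z := by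
  obtain ⟨C, d, -, -, h⟩ := hF.bd
  refine Lg.of (continuous_const.mul hF.eg.cont) (|c| * C) (|c| * d) fun z => ?_
  have := mul_le_mul_of_nonneg_left (h (0, z) trivial) (abs_nonneg c)
  rw [abs_mul]
  simp only at this
  linarith

/-- one step with a lower tilt and another terminal value -/
theorem step_low {F G : (Ω → ℝ) → ℝ} (hF : Lg F) (hG : Lg G) (l : Lv Ω) {m : ℝ} (h0 : 0 < m)
    (hm : m ≤ l.m) (z : Ω → ℝ) :
    step l F z - step (rt l m) G z ≤
      (l.m - m) / m * (tE l F F z - step l F z) + tE l F (fun z => F z - G z) z := by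
  have hl : 0 < l.m := h0.trans_le hm
  have key := step_ge (l := rt l m) (lg_cmul hF (l.m / m)) hG h0.le z
  have e0 : ∀ u : ℝ, m * (l.m / m * u) = l.m * u := fun u => by field_simp
  have e1 : step (rt l m) (fun z => l.m / m * F z) z = l.m / m * step l F z := by
    simp only [step, h0.ne', hl.ne', if_false, e0]
    field_simp
    rfl
  have e2 : ∀ Φ : (Ω → ℝ) → ℝ, tE (rt l m) (fun z => l.m / m * F z) Φ z = tE l F Φ z := fun Φ => by
    simp only [tE, e0]
    rfl
  rw [e1, e2, tE_sub hF hG.eg (hF.eg.const_mul _), tE_const_mul] at key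
  rw [tE_sub hF hF.eg hG.eg]
  have e3 : (l.m - m) / m = l.m / m - 1 := by field_simp
  rw [e3]
  linarith

/-- the jump of the value across one level is at most half the tilt times the overlap after it -/
theorem jump_le (hw : Wt w) (l : Lv Ω) (L : List (Lv Ω)) (hl : 0 ≤ l.m) (z : Ω → ℝ) :
    tE l (X w L) (X w L) z - step l (X w L) z ≤ l.m / 2 * pi2 w (l :: L) 1 l.cov z := by
  have a := Gir68.jump hw [] L l z
  have b := (Kkt28.int_inside hw l l [] L l.m z).2
  simp only [List.nil_append, List.length_nil, zero_add, node_zero] at a b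
  have e : node w (l :: L) 1 (X w L) z = tE l (X w L) (X w L) z := by
    rw [node_cons, node_zero]
  rw [e] at a
  exact (le_of_eq a).trans (mul_le_mul_of_nonneg_left b (by linarith))

/-- the slope at the end of the move: `∑ rate * overlap / 2`, read in the END model -/
def Es (w : Ω → ℝ) (M : List (Lv Ω)) (L : List (Lv Ω × ℝ)) (β : ℝ) (h : Ω → ℝ) : ℝ :=
  ∑ k : Fin L.length, L[k].2 / 2 * pi2 w (M ++ tl L β) (M.length + k + 1) L[k].1.cov h

theorem eg_Es (hw : Wt w) (M : List (Lv Ω)) (L : List (Lv Ω × ℝ)) (β : ℝ) : Eg (Es w M L β) := by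
  unfold Es
  exact Eg.sum _ fun k _ => (eg_pi2 hw _ _ _).const_mul _

theorem Es_nonneg (M : List (Lv Ω)) {L : List (Lv Ω × ℝ)} (hL : ∀ p ∈ L, 0 ≤ p.2) (β : ℝ)
    (h : Ω → ℝ) : 0 ≤ Es w M L β h :=
  Finset.sum_nonneg fun k _ => mul_nonneg (div_nonneg (hL _ (List.getElem_mem _)) zero_le_two)
    (Kkt28.pi2_cov_nonneg _ _ _ _)

theorem Es_cons (hw : Wt w) (l : Lv Ω) (M : List (Lv Ω)) (L : List (Lv Ω × ℝ)) (β : ℝ)
    (h : Ω → ℝ) : Es w (l :: M) L β h = tE l (X w (M ++ tl L β)) (Es w M L β) h := by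
  unfold Es
  rw [tE_sum (lg_X hw _) _ fun k _ => (eg_pi2 hw _ _ _).const_mul _]
  refine Finset.sum_congr rfl fun k _ => ?_
  rw [tE_const_mul, List.cons_append, List.length_cons,
    show M.length + 1 + (k : ℕ) + 1 = (M.length + k + 1) + 1 by ring, pi2_cons]

theorem tl_cons (p : Lv Ω × ℝ) (L : List (Lv Ω × ℝ)) (t : ℝ) :
    tl (p :: L) t = rt p.1 (p.1.m + t * p.2) :: tl L t := rfl

theorem Es_nil_cons (hw : Wt w) (p : Lv Ω × ℝ) (L : List (Lv Ω × ℝ)) (β : ℝ) (h : Ω → ℝ) :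
    Es w [] (p :: L) β h = p.2 / 2 * pi2 w (tl (p :: L) β) 1 p.1.cov h +
      tE (rt p.1 (p.1.m + β * p.2)) (X w (tl L β)) (Es w [] L β) h := by
  have e := Es_cons hw (rt p.1 (p.1.m + β * p.2)) [] L β h
  rw [List.nil_append] at e
  rw [← e]
  unfold Es
  simp only [List.length_cons, Fin.sum_univ_succ, List.nil_append, List.length_nil, zero_add,
    Fin.val_zero, Fin.val_succ, Fin.getElem_fin, List.getElem_cons_zero, List.getElem_cons_succ,
    tl_cons, List.cons_append]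
  congr 1
  refine Finset.sum_congr rfl fun k _ => ?_
  rw [add_comm 1 (k : ℕ)]

theorem tl_end₀ (hw : Wt w) {t β : ℝ} (ht : 0 < t) (htβ : t ≤ β) :
    ∀ L : List (Lv Ω × ℝ), (∀ p ∈ L, 0 ≤ p.1.m ∧ 0 ≤ p.2 ∧ 0 < p.1.m + t * p.2) → ∀ h,
      X w (tl L β) h - X w (tl L t) h ≤ (β - t) * (β / t) * Es w [] L β h
  | [], _, h => by simp [tl, Es]
  | p :: L, hL, h => by
    obtain ⟨p1, p2, p3⟩ := hL p (by simp)
    have ih := tl_end₀ hw ht htβ L fun q hq => hL q (List.mem_cons_of_mem _ hq)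
    have hle : p.1.m + t * p.2 ≤ p.1.m + β * p.2 := by nlinarith
    have a := step_low (lg_X hw (tl L β)) (lg_X hw (tl L t)) (rt p.1 (p.1.m + β * p.2)) p3 hle h
    have b := jump_le hw (rt p.1 (p.1.m + β * p.2)) (tl L β) (p3.le.trans hle) h
    have c := tE_mono (lg_X hw (tl L β)) ((lg_X hw (tl L β)).eg.sub (lg_X hw (tl L t)).eg)
      ((eg_Es hw [] L β).const_mul ((β - t) * (β / t))) ih (rt p.1 (p.1.m + β * p.2)) h
    rw [tE_const_mul] at c
    rw [Es_nil_cons hw, tl_cons, tl_cons]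
    set Q := pi2 w (rt p.1 (p.1.m + β * p.2) :: tl L β) 1 p.1.cov h with hQ
    have Q0 : 0 ≤ Q := Kkt28.pi2_cov_nonneg _ _ _ _
    have b' : tE (rt p.1 (p.1.m + β * p.2)) (X w (tl L β)) (X w (tl L β)) h -
        step (rt p.1 (p.1.m + β * p.2)) (X w (tl L β)) h ≤ (p.1.m + β * p.2) / 2 * Q := b
    have c0 : 0 ≤ (p.1.m + β * p.2 - (p.1.m + t * p.2)) / (p.1.m + t * p.2) :=
      div_nonneg (sub_nonneg.2 hle) p3.le
    have d := mul_le_mul_of_nonneg_left b' c0
    have e : (p.1.m + β * p.2 - (p.1.m + t * p.2)) / (p.1.m + t * p.2) *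
        ((p.1.m + β * p.2) / 2 * Q) ≤ (β - t) * (β / t) * (p.2 / 2 * Q) := by
      have r : (p.1.m + β * p.2) / (p.1.m + t * p.2) ≤ β / t := by
        rw [div_le_div_iff₀ p3 ht]; nlinarith
      have := mul_le_mul_of_nonneg_left r
        (show 0 ≤ (β - t) * (p.2 / 2 * Q) from mul_nonneg (sub_nonneg.2 htβ) (by positivity))
      refine le_of_eq_of_le ?_ (this.trans_eq (by ring))
      field_simp
      ring
    show step (rt p.1 (p.1.m + β * p.2)) (X w (tl L β)) h -
      step (rt p.1 (p.1.m + t * p.2)) (X w (tl L t)) h ≤ _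
    have a' : step (rt p.1 (p.1.m + β * p.2)) (X w (tl L β)) h -
        step (rt p.1 (p.1.m + t * p.2)) (X w (tl L t)) h ≤
        (p.1.m + β * p.2 - (p.1.m + t * p.2)) / (p.1.m + t * p.2) *
          (tE (rt p.1 (p.1.m + β * p.2)) (X w (tl L β)) (X w (tl L β)) h -
            step (rt p.1 (p.1.m + β * p.2)) (X w (tl L β)) h) +
        tE (rt p.1 (p.1.m + β * p.2)) (X w (tl L β))
          (fun z => X w (tl L β) z - X w (tl L t) z) h := a
    rw [mul_add]
    linarith

/-- the value drops at most by the end slope (times `β / t`) -/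
theorem tl_end (hw : Wt w) {t β : ℝ} (ht : 0 < t) (htβ : t ≤ β) {L : List (Lv Ω × ℝ)}
    (hL : ∀ p ∈ L, 0 ≤ p.1.m ∧ 0 ≤ p.2 ∧ 0 < p.1.m + t * p.2) :
    ∀ M : List (Lv Ω), (∀ l ∈ M, 0 ≤ l.m) → ∀ h,
      X w (M ++ tl L β) h - X w (M ++ tl L t) h ≤ (β - t) * (β / t) * Es w M L β h
  | [], _, h => tl_end₀ hw ht htβ L hL h
  | l :: M, hM, h => by
    have ih := tl_end hw ht htβ hL M fun k hk => hM k (List.mem_cons_of_mem _ hk)
    have a := step_ge (l := l) (lg_X hw (M ++ tl L β)) (lg_X hw (M ++ tl L t)) (hM l (by simp)) h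
    have c := tE_mono (lg_X hw (M ++ tl L β))
      ((lg_X hw (M ++ tl L β)).eg.sub (lg_X hw (M ++ tl L t)).eg)
      ((eg_Es hw M L β).const_mul ((β - t) * (β / t))) ih l h
    rw [tE_const_mul, tE_sub (lg_X hw _) (lg_X hw _).eg (lg_X hw _).eg] at c
    rw [tE_sub (lg_X hw _) (lg_X hw _).eg (lg_X hw _).eg] at a
    rw [Es_cons hw]
    show step l (X w (M ++ tl L β)) h - step l (X w (M ++ tl L t)) h ≤ _
    linarith

theorem tl_pre (M : List (Lv Ω)) (L : List (Lv Ω × ℝ)) (t : ℝ) :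
    tl (M.map (fun l => (l, (0 : ℝ))) ++ L) t = M ++ tl L t := by
  simp only [tl, List.map_append, List.map_map]
  congr 1
  conv_rhs => rw [← List.map_id M]
  exact List.map_congr_left fun l _ => by simp

/-- **all slopes of an upward move lie between `0` and the end slope** -/
theorem slope_le (hw : Wt w) {α β : ℝ} (hα : 0 < α) {M : List (Lv Ω)} {L : List (Lv Ω × ℝ)}
    (hM : ∀ l ∈ M, 0 ≤ l.m) (hL : ∀ p ∈ L, 0 ≤ p.1.m ∧ 0 ≤ p.2 ∧ 0 < p.1.m + α * p.2)
    (h : Ω → ℝ) {t t' : ℝ} (ht : t ∈ Icc α β) (ht' : t' ∈ Icc α β) (htt : t ≤ t') :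
    X w (M ++ tl L t) h ≤ X w (M ++ tl L t') h ∧
      X w (M ++ tl L t') h - X w (M ++ tl L t) h ≤ Es w M L β h * (t' - t) := by
  classical
  constructor
  · have b := fun z => (tl_sub hw (c := fun p => ∑ x, |p.1.cov x x|) htt L (fun p _ x =>
      (le_abs_self _).trans (Finset.single_le_sum (f := fun x => |p.1.cov x x|)
        (fun _ _ => abs_nonneg _) (Finset.mem_univ x))) z).1
    have e1 : (L.map fun p => min p.2 0 * ∑ x, |p.1.cov x x|).sum = 0 :=
      List.sum_eq_zero fun r hr' => by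
        obtain ⟨p, hp, rfl⟩ := List.mem_map.1 hr'
        simp only [min_eq_right (hL p hp).2.1, zero_mul]
    have := C.X_append_le hw hw (M := tl L t) (M' := tl L t') (c := 0)
      (fun z => by have := b z; rw [e1] at this; linarith) M h
    linarith
  rcases htt.eq_or_lt with rfl | hlt
  · simp
  have cj := tiltStmt Ω w hw (M.map (fun l => (l, (0 : ℝ))) ++ L) α β fun p hp u hu => by
    rcases List.mem_append.1 hp with hp | hp
    · obtain ⟨l, hl, rfl⟩ := List.mem_map.1 hp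
      simpa using hM l hl
    · have := hL p hp
      nlinarith [this.1, this.2.1, hu.1]
  have cv : ConvexOn ℝ (Icc α β) fun u => X w (M ++ tl L u) h :=
    ⟨convex_Icc _ _, fun u hu u' hu' a b ha hb hab => by
      have := cj.2 (x := (h, u)) (y := (h, u')) ⟨trivial, hu⟩ ⟨trivial, hu'⟩ ha hb hab
      simpa [← add_smul, hab, tl_pre] using this⟩
  have hβ : t < β := hlt.trans_le ht'.2
  have mβ : β ∈ Icc α β := ⟨ht.1.trans ht.2, le_rfl⟩
  have s1 := cv.secant_mono ht ht' mβ hlt.ne' hβ.ne' ht'.2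
  rw [← div_le_iff₀ (sub_pos.2 hlt)]
  refine s1.trans ?_
  have lim : Tendsto (fun u : ℝ => β / u * Es w M L β h) (𝓝[<] β) (𝓝 (Es w M L β h)) := by
    have hb : β ≠ 0 := (hα.trans_le mβ.1).ne'
    have : ContinuousAt (fun u : ℝ => β / u * Es w M L β h) β :=
      (continuousAt_const.div continuousAt_id hb).mul continuousAt_const
    have h2 := this.tendsto.mono_left (nhdsWithin_le_nhds (s := Iio β))
    simpa [hb] using h2
  refine ge_of_tendsto lim ?_
  filter_upwards [Ioo_mem_nhdsLT hβ] with u hu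
  have mu : u ∈ Icc α β := ⟨ht.1.trans hu.1.le, hu.2.le⟩
  have s2 := cv.secant_mono mβ ht mu hβ.ne hu.2.ne hu.1.le
  have sw : ∀ p q u v : ℝ, (p - q) / (u - v) = (q - p) / (v - u) := fun p q u v => by
    rw [← neg_sub q p, ← neg_sub v u, neg_div_neg_eq]
  rw [sw, sw _ _ u] at s2
  refine s2.trans ?_
  have u0 : 0 < u := hα.trans_le mu.1
  have e := tl_end hw u0 hu.2.le (L := L) (fun p hp => ⟨(hL p hp).1, (hL p hp).2.1, by
    nlinarith [(hL p hp).2.1, (hL p hp).2.2, mu.1]⟩) M hM h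
  rw [div_le_iff₀ (sub_pos.2 hu.2)]
  linarith

/-- **finite lift**: levels move up along `tl L t`, `t ∈ [α, β]`; the slope is read at `β` -/
theorem lift (hw : Wt w) {l : Lv Ω} {M : List (Lv Ω)} {L : List (Lv Ω × ℝ)} {h : Ω → ℝ}
    {T : Set (Equiv.Perm Ω)} {x₀ : Ω} {a a' α β W S : ℝ} {J : ℕ}
    (hT : ∀ τ ∈ T, Sym w (l :: M ++ L.map Prod.fst) h τ) (htr : ∀ y, w y ≠ 0 → ∃ τ ∈ T, τ x₀ = y)
    (ha : 0 < a) (haa : a ≤ a') (hα : a' < α) (hαβ : α ≤ β) (hJ : β - a' ≤ 2 ^ J * (α - a'))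
    (hL : ∀ p ∈ L, 0 ≤ p.1.m ∧ 0 ≤ p.2 ∧ 0 < p.1.m + α * p.2)
    (hm : ∀ t ∈ Icc α β, Mono a' (M ++ tl L t)) (hy : ∀ t ∈ Icc α β, t ≤ ex (tl L t) 0)
    (hW : ∀ t ∈ Icc α β, Wd w l (M ++ tl L t) h a a' ≤ W)
    (hS : ∀ s ∈ Icc a a', Es w (rt l s :: M) L β h ≤ S) :
    |X w (rt l a' :: M ++ tl L β) h - X w (rt l a :: M ++ tl L β) h -
      (X w (rt l a' :: M ++ tl L α) h - X w (rt l a :: M ++ tl L α) h)| ≤
      J * √(6 * (a' - a) * W * S) := by
  classical
  have hα0 : 0 < α := (ha.trans_le haa).trans hα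
  have mα : α ∈ Icc α β := ⟨le_rfl, hαβ⟩
  have hM : ∀ k ∈ M, 0 ≤ k.m := fun k hk => (ha.le.trans haa).trans
    (Ann56.mono_mem (hm α mα) k (List.mem_append_left _ hk)).1
  have H : Fam w l M (tl L) h T x₀ α β := fam_tl hw (fun p hp t ht => by
    nlinarith [(hL p hp).1, (hL p hp).2.1, ht.1]) hT htr
  set c : Lv Ω × ℝ → ℝ := fun p => ∑ x, |p.1.cov x x| with hc
  have hcc : ∀ p ∈ L, ∀ x, p.1.cov x x ≤ c p := fun p _ x => (le_abs_self _).trans
    (Finset.single_le_sum (f := fun x => |p.1.cov x x|) (fun _ _ => abs_nonneg _)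
      (Finset.mem_univ x))
  set K := |(L.map fun p => min p.2 0 * c p).sum| + |(L.map fun p => max p.2 0 * c p).sum| with hK
  have sl : ∀ t t', t ≤ t' → ∀ z, |X w (tl L t') z - X w (tl L t) z| ≤ K * (t' - t) :=
    fun t t' h1 z => by
      have b := tl_sub hw (c := c) h1 L hcc z
      have d := sub_nonneg.2 h1
      have i1 := mul_le_mul_of_nonneg_left (neg_abs_le (L.map fun p => min p.2 0 * c p).sum) d
      have i2 := mul_le_mul_of_nonneg_left (le_abs_self (L.map fun p => max p.2 0 * c p).sum) d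
      have i3 := mul_nonneg d (abs_nonneg (L.map fun p => min p.2 0 * c p).sum)
      have i4 := mul_nonneg d (abs_nonneg (L.map fun p => max p.2 0 * c p).sum)
      rw [abs_le, hK]
      constructor <;> nlinarith [b.1, b.2]
  have hS0 : 0 ≤ S := (Es_nonneg _ (fun p hp => (hL p hp).2.1) β h).trans (hS a ⟨le_rfl, haa⟩)
  have key := H.transfer_dyadic (a := a) (a' := a') (K := K) (W := W) (S := S) (lo := fun _ => 0)
    (J := J) ha haa hα hαβ hJ ((Wd_nonneg hw l _ h haa).trans (hW α mα)) hS0 hm hy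
    (fun t _ t' _ z => by
      rcases le_total t t' with h1 | h1
      · rw [abs_sub_comm, abs_sub_comm t, abs_of_nonneg (sub_nonneg.2 h1)]
        exact sl t t' h1 z
      · rw [abs_of_nonneg (sub_nonneg.2 h1)]
        exact sl t' t h1 z)
    hW
    (fun s hs t ht t' ht' h1 => by
      have b := slope_le hw hα0 (M := rt l s :: M) (fun k hk => by
        rcases List.mem_cons.1 hk with rfl | hk
        · exact ha.le.trans hs.1
        · exact hM k hk) hL h ht ht' h1
      have := mul_le_mul_of_nonneg_right (hS s hs) (sub_nonneg.2 h1)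
      constructor <;> linarith [b.1, b.2])
  refine le_of_eq_of_le (congrArg _ ?_) key
  ring

/-- the family of one moving level above fixed levels -/
def one (k : Lv Ω) (N : List (Lv Ω)) : List (Lv Ω × ℝ) :=
  (rt k 0, 1) :: N.map fun l => (l, (0 : ℝ))

theorem tl_one (k : Lv Ω) (N : List (Lv Ω)) (t : ℝ) : tl (one k N) t = rt k t :: N := by
  have := tl_pre N [] t
  simp only [List.append_nil, tl, List.map_nil] at this
  simp only [one, tl, List.map_cons, this]
  simp

theorem Es_one (M : List (Lv Ω)) (k : Lv Ω) (N : List (Lv Ω)) (β : ℝ) (h : Ω → ℝ) :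
    Es w M (one k N) β h = pi2 w (M ++ rt k β :: N) (M.length + 1) k.cov h / 2 := by
  unfold Es
  rw [tl_one]
  have e : ∀ f : Fin (one k N).length → ℝ, ∑ i, f i =
      f ⟨0, by simp [one]⟩ + ∑ i : Fin (N.map fun l => (l, (0 : ℝ))).length,
        f ⟨i + 1, by have := i.2; simp only [one, List.length_cons]; omega⟩ := fun f =>
    Fin.sum_univ_succ (n := (N.map fun l => (l, (0 : ℝ))).length) f
  rw [e, Finset.sum_eq_zero fun i _ => ?_]
  · show 1 / 2 * pi2 w (M ++ rt k β :: N) (M.length + 1) k.cov h + 0 = _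
    ring
  · simp [one]

/-- **lift of one level** `k` from the tilt `α` to the tilt `β` -/
theorem lift_one (hw : Wt w) {l k : Lv Ω} {M N : List (Lv Ω)} {h : Ω → ℝ}
    {T : Set (Equiv.Perm Ω)} {x₀ : Ω} {a a' α β W S : ℝ} {J : ℕ}
    (hT : ∀ τ ∈ T, Sym w (l :: M ++ k :: N) h τ) (htr : ∀ y, w y ≠ 0 → ∃ τ ∈ T, τ x₀ = y)
    (ha : 0 < a) (haa : a ≤ a') (hα : a' < α) (hαβ : α ≤ β) (hJ : β - a' ≤ 2 ^ J * (α - a'))
    (hM : Mono a' (M ++ rt k α :: N)) (hN : Mono β N)
    (hW : ∀ t ∈ Icc α β, Wd w l (M ++ rt k t :: N) h a a' ≤ W)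
    (hS : ∀ s ∈ Icc a a', pi2 w (rt l s :: M ++ rt k β :: N) (M.length + 2) k.cov h ≤ 2 * S) :
    |X w (rt l a' :: M ++ rt k β :: N) h - X w (rt l a :: M ++ rt k β :: N) h -
      (X w (rt l a' :: M ++ rt k α :: N) h - X w (rt l a :: M ++ rt k α :: N) h)| ≤
      J * √(6 * (a' - a) * W * S) := by
  have hα0 : 0 < α := (ha.trans_le haa).trans hα
  have mono : ∀ t ∈ Icc α β, ∀ (M : List (Lv Ω)) (m0 : ℝ), Mono m0 (M ++ rt k α :: N) →
      Mono m0 (M ++ rt k t :: N) := fun t ht M => by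
    induction M with
    | nil => exact fun m0 h => ⟨h.1.trans ht.1, mono_le hN ht.2⟩
    | cons j M ih => exact fun m0 h => ⟨h.1, ih _ h.2⟩
  have := lift hw (l := l) (M := M) (L := one k N) (h := h) (T := T) (x₀ := x₀) (W := W) (S := S)
    (fun τ hτ => ⟨(hT τ hτ).w, (hT τ hτ).h, fun j hj => by
      rcases List.mem_append.1 hj with hj | hj
      · exact (hT τ hτ).cov j (List.mem_append_left _ hj)
      · obtain ⟨p, hp, rfl⟩ := List.mem_map.1 hj
        rcases List.mem_cons.1 hp with rfl | hp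
        · exact (hT τ hτ).cov k (by simp)
        · obtain ⟨j, hj', rfl⟩ := List.mem_map.1 hp
          exact (hT τ hτ).cov j (List.mem_append_right _ (List.mem_cons_of_mem _ hj'))⟩)
    htr ha haa hα hαβ hJ (fun p hp => by
      rcases List.mem_cons.1 hp with rfl | hp
      · exact ⟨le_rfl, zero_le_one, by simpa using hα0⟩
      · obtain ⟨j, hj, rfl⟩ := List.mem_map.1 hp
        have := (Ann56.mono_mem hN j hj).1
        exact ⟨by linarith, le_rfl, by simp; linarith⟩)
    (fun t ht => by rw [tl_one]; exact mono t ht M _ hM)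
    (fun t _ => by rw [tl_one]; exact le_rfl)
    (fun t ht => by rw [tl_one]; exact hW t ht)
    (fun s hs => by
      rw [Es_one]
      have := hS s hs
      simp only [List.length_cons, List.cons_append] at this ⊢
      linarith)
  simpa only [tl_one] using this


end Crest.Agent.T156.Cas.Lift72

end
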