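import Crest.Agent.T156.FamSm_28
import Crest.Agent.T156.SprM_41
import Crest.Agent.T156.PlW_13

/-!
# Row 156, stage C (helper28): membership of the models with static data `α rF` and spread `γ`
-/

set_option autoImplicit false

noncomputable section

namespace Crest.Agent.T156.Alt

open MeasureTheory Real Set Filter Topology
open Crest.Agent.R164.GC Crest.Agent.R339.B Crest.Agent.R339.Var Crest.Agent.T157.Pf
open Crest.Agent.T156.Pr Crest.Agent.T156.Alt.Plt13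

/-- plateau data with static part `α rF μe` -/
structure AlD (p : Pm) (α : ℝ) (P : Pl) : Prop where
  a0 : 0 ≤ α
  a1 : α ≤ 1
  rs : ∀ x, P.rs x = α * p.rF p.μe x
  hs : ∀ x, P.hs x = p.μe * P.rs x
  g0 : 0 ≤ P.γ
  g1 : P.γ ≤ (p.n : ℝ) ^ (-(7 / 20 : ℝ))
  pos : 0 < α ∨ 0 < P.γ
  gv : P.γ = 0 ∨ 36 * p.lL * p.v ≤ P.γ
  x0 : P.x 0 = p.xs
  xm : ∀ i < P.I, P.x i < P.x (i + 1)
  shg : Shg p p.μe P.x P.I
  st : ∀ i < P.I,
    p.v / 4 ≤ P.γ * (p.lsp P.γ (P.x (i + 1)) - p.lsp P.γ (P.x i)) +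
        (P.rs (P.x (i + 1)) - P.rs (P.x i)) ∧
      P.γ * (p.lsp P.γ (P.x (i + 1)) - p.lsp P.γ (P.x i)) + (P.rs (P.x (i + 1)) - P.rs (P.x i)) ≤
        12 * p.v
  e2 : 1 - P.x P.I ≤ (p.n : ℝ) ^ (-(2 : ℝ))

/-- clock density, residual and scales -/
def Pm.alDen (p : Pm) (α γ x : ℝ) : ℝ := α * dn p p.μe x + γ * p.ld γ x
def Pm.alU (p : Pm) (γ : ℝ) : ℝ := if γ = 0 then u0 p p.μe else p.l0' γ
def Pm.alG2 (p : Pm) (K α : ℝ) : ℝ := 5 * K * (α * p.μe * p.la p.μe) ^ 2 * log p.n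
def Pm.alS (p : Pm) (K α : ℝ) (P : Pl) : Sc :=
  p.scl P (p.om 1 p.ye) (8 * K ^ 2) p.jf (p.ms 1 p.ye) (p.alDen α P.γ) (p.alG2 K α) (p.alU P.γ)
    ((p.n : ℝ) ^ (-(2 : ℝ)))

/-- numbers -/
structure AlN (K c0 C0 η : ℝ) (p : Pm) : Prop where
  nm : Nm p p.μe
  base : Base (p.β ^ 2) c0 C0 η p.v p.J p.z
  C1 : 1 ≤ C0
  K1 : 500 ≤ K
  J0 : 0 < p.J
  x1 : 1 / K ≤ p.xs
  x2 : p.xs ≤ 1 - 1 / K
  lg : 12 * C0 * K ≤ log p.n
  ul : log p.n * u0 p p.μe ≤ 1 / (2 * K)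
  la : p.la p.μe * C0 * K ≤ 1
  ye : C0 * (p.v + 2 * p.ye) ≤ 1 / (2 * K)
  ry : 0 ≤ p.r ∧ p.r ≤ p.ye
  om : ∀ k : ℕ, 2 * p.ye ≤ k * p.v → p.om 1 p.ye k = 0
  μ0 : 0 < p.μe
  μ1 : p.μe ≤ 1
  jJ : p.jf < p.J
  gl : 16 * (p.n : ℝ) ^ (-(7 / 20 : ℝ)) ≤ p.la p.μe
  gv : 36 * p.lL * p.v ≤ (p.n : ℝ) ^ (-(7 / 20 : ℝ))

namespace AlN

variable {K c0 C0 η α : ℝ} {p : Pm} {P : Pl} (h : AlN K c0 C0 η p)
include h

theorem K0 : 0 < K := by linarith [h.K1]

theorem rF0 {x : ℝ} (hx : x ≤ 1 / (2 * K)) : p.rF p.μe x = 0 := by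
  have K0 := h.K0
  have a : 1 / K = 2 * (1 / (2 * K)) := by field_simp
  refine h.nm.rF_zero (hx.trans (one_div_le_one_div_of_le two_pos (by linarith [h.K1]))) ?_
  linarith [h.x1, h.ul]

theorem z_le {k : ℕ} (hk : k < p.J) : p.z k ≤ p.xs := h.base.lab.mono (by omega)

omit h in
theorem ms_nn (t : ℝ) : 0 ≤ p.ms 1 p.ye t := by unfold Pm.ms Pm.κ; positivity

/-- where the static data do not vanish the mass is the top mass -/
theorem ms_top {k : ℕ} (hk : k < p.J) (hz : 1 / (2 * K) < p.z k) :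
    p.ms 1 p.ye (sig p.v (p.om 1 p.ye) k) = p.μe := by
  have a := (PP3.z_bds h.base k hk).2
  have b : 2 * p.ye ≤ k * p.v := by
    refine le_of_mul_le_mul_left ?_ (show 0 < C0 by linarith [h.C1])
    linarith [h.ye]
  unfold Pm.ms Pm.μe Pm.μ sig
  rw [h.om k b, min_eq_right (by linarith [h.ry.1, h.ry.2]), max_eq_right h.ry.2]

theorem top_le {x : ℝ} (hx : x ≤ p.xs) : 1 / K ≤ 1 - x := by linarith [h.x2]

theorem d_lo {k : ℕ} (h1 : 1 ≤ k) (hk : k < p.J) :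
    -(p.v / (8 * K)) ≤ p.rF p.μe (p.z k) - p.rF p.μe (p.z (k - 1)) ∧
      p.rF p.μe (p.z k) - p.rF p.μe (p.z (k - 1)) ≤ K * p.v := by
  have K0 := h.K0
  have v0 := h.base.v_pos
  have C1 := h.C1
  have m := h.base.lab.mono (Nat.sub_le k 1)
  have d : p.z k - p.z (k - 1) ≤ C0 * p.v := by
    have := (h.base.slo (k - 1) (by omega)).2
    unfold dm at this
    rwa [Nat.sub_add_cancel h1] at this
  obtain ⟨a, b⟩ := h.nm.rF_sub_lo m (h.z_le hk)
  have l0 : 0 < log (p.n:ℝ) := by linarith [h.nm.l1]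
  refine ⟨le_trans (neg_le_neg ?_) a, b.trans ?_⟩
  · refine (mul_le_mul_of_nonneg_left d (by positivity)).trans ?_
    rw [div_mul_eq_mul_div, div_le_div_iff₀ (by positivity) (by positivity)]
    linarith [mul_le_mul_of_nonneg_left h.lg v0.le]
  · have t := h.top_le (h.z_le hk)
    have t0 : 0 < 1 / K := by positivity
    have t1 : 1 - p.z k ≤ 1 := by
      linarith [h.base.lab.pos.le.trans (h.base.lab.mono (Nat.zero_le k))]
    have s : 1 / K ≤ √(1 - p.z k) := t.trans (le_sqrt_of_sq_le (by nlinarith))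
    rw [div_le_iff₀ (mul_pos (by linarith) (by linarith))]
    have e1 := mul_le_mul_of_nonneg_left (mul_le_mul t s t0.le (by linarith))
      (show 0 ≤ K * p.v by positivity)
    have e2 : K * p.v * (1 / K * (1 / K)) = p.v / K := by field_simp
    have e3 : p.la p.μe * (C0 * p.v) ≤ p.v / K := by
      rw [le_div_iff₀ K0]; linarith [mul_le_mul_of_nonneg_left h.la v0.le]
    linarith [mul_le_mul_of_nonneg_left d h.nm.lp.le]

theorem sq_lo {x : ℝ} (hx : x ≤ p.xs) : p.rF p.μe x ^ 2 ≤ 4 * K * p.la p.μe ^ 2 +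
    if p.xs - log p.n * u0 p p.μe < x then u0 p p.μe ^ 2 else 0 := by
  have K0 := h.K0
  have t := h.top_le hx
  have t0 : 0 < 1 - x := lt_of_lt_of_le (by positivity) t
  obtain ⟨a, -, b⟩ := h.nm.rF_bd (x := x) (by linarith)
  have c : (2 * (p.la p.μe / √(1 - x))) ^ 2 ≤ 4 * K * p.la p.μe ^ 2 := by
    rw [mul_pow, div_pow, sq_sqrt t0.le, ← mul_div_assoc, div_le_iff₀ t0]
    rw [div_le_iff₀ K0] at t
    nlinarith [sq_nonneg (p.la p.μe)]
  have c0 : 0 ≤ 2 * (p.la p.μe / √(1 - x)) := by have := h.nm.lp; positivity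
  split_ifs with e
  · rcases le_total 0 (p.rF p.μe x) with f | f
    · linarith [pow_le_pow_left₀ f b 2, sq_nonneg (u0 p p.μe)]
    · nlinarith [sq_nonneg (2 * (p.la p.μe / √(1 - x)))]
  · have f : 0 ≤ p.rF p.μe x := by
      unfold Pm.rF
      rw [rB_eq, Rs13.r1_zero h.nm.lp (by linarith [h.nm.l1]) (by unfold u0 at e; linarith), zero_add]
      exact (h.nm.top_bd (by linarith)).1
    linarith [pow_le_pow_left₀ f b 2]

theorem sum_lo (j : ℕ) : ∑ k ∈ Finset.Ioc j (p.J - 1),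
    (p.z k - p.z (k - 1)) * p.rF p.μe (p.z (k - 1)) ^ 2 ≤
      (4 * K + log p.n) * p.la p.μe ^ 2 := by
  have zm := h.base.lab.mono
  have u := h.nm.u0p
  have l1 := h.nm.l1
  have K0 := h.K0
  set c := p.xs - log p.n * u0 p p.μe with hc
  have key : ∀ N ≤ p.J - 1, ∑ k ∈ Finset.Ioc j N,
      (p.z k - p.z (k - 1)) * p.rF p.μe (p.z (k - 1)) ^ 2 ≤
      4 * K * p.la p.μe ^ 2 * p.z N + u0 p p.μe ^ 2 * (max (p.z N) c - c) := by
    intro N
    induction N with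
    | zero =>
      intro _
      have := h.base.lab.pos
      have := sub_nonneg.2 (le_max_right (p.z 0) c)
      rw [Finset.Ioc_eq_empty (by omega), Finset.sum_empty]; positivity
    | succ N ih =>
      intro hN
      have a := ih (by omega)
      have m := sub_nonneg.2 (zm (Nat.le_succ N))
      have b := mul_le_mul_of_nonneg_left (h.sq_lo (h.z_le (k := N) (by omega))) m
      have d : (p.z (N + 1) - p.z N) * (if c < p.z N then u0 p p.μe ^ 2 else 0) ≤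
          u0 p p.μe ^ 2 * (max (p.z (N + 1)) c - max (p.z N) c) := by
        split_ifs with e
        · rw [max_eq_left e.le, max_eq_left (by linarith), mul_comm]
        · rw [mul_zero]
          exact mul_nonneg (sq_nonneg _) (sub_nonneg.2 (max_le_max_right _ (by linarith)))
      rcases le_or_gt j N with e | e
      · rw [Finset.sum_Ioc_succ_top e, Nat.add_sub_cancel]; linarith
      · have := h.base.lab.pos.le.trans (zm (Nat.zero_le (N + 1)))
        have := sub_nonneg.2 (le_max_right (p.z (N + 1)) c)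
        rw [Finset.Ioc_eq_empty (by omega), Finset.sum_empty]; positivity
  refine (key _ le_rfl).trans ?_
  have e : u0 p p.μe ^ 3 = p.la p.μe ^ 2 := by
    unfold u0; rw [← rpow_natCast, ← rpow_mul h.nm.lp.le]; norm_num
  have x : p.z (p.J - 1) = p.xs := rfl
  have : 0 ≤ log p.n * u0 p p.μe := by positivity
  rw [x, max_eq_left (by linarith), hc, ← e]
  have := mul_le_of_le_one_right (show 0 ≤ 4 * K * u0 p p.μe ^ 3 by positivity) h.nm.xs1.le
  linarith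

theorem l0'_le {γ : ℝ} (hγ : γ ≤ (p.n : ℝ) ^ (-(7 / 20 : ℝ))) : p.l0' γ ≤ u0 p p.μe := by
  have n0 := h.nm.np
  have a : 1 / ((p.n : ℝ) + 1) ≤ (p.n : ℝ) ^ (-(7 / 20 : ℝ)) := by
    refine (one_div_le_one_div_of_le n0 (by linarith)).trans ?_
    rw [one_div, ← rpow_neg_one]
    exact rpow_le_rpow_of_exponent_le (by linarith [h.nm.n2]) (by norm_num)
  linarith [p.l0'_le γ, max_le hγ a, h.gl, h.nm.l_le_u0, rpow_pos_of_pos n0 (-(7 / 20 : ℝ))]

theorem alU_le {γ : ℝ} (hγ : γ ≤ (p.n : ℝ) ^ (-(7 / 20 : ℝ))) : p.alU γ ≤ u0 p p.μe := by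
  unfold Pm.alU
  split_ifs
  · exact le_rfl
  · exact h.l0'_le hγ


/-- the spread is slower than the static clock -/
theorem γ_step {γ a b : ℝ} (g0 : 0 ≤ γ) (hγ : γ ≤ (p.n : ℝ) ^ (-(7 / 20 : ℝ))) (ha : p.xs ≤ a)
    (hab : a ≤ b) (hb : b < 1) (hs : b - a ≤ 1 - b) :
    8 * (γ * (p.lsp γ b - p.lsp γ a)) ≤ dn p p.μe a * (b - a) := by
  have N := h.nm
  have L := p.lL_ge
  have w := p.l0'_pos γ
  have w' := p.l1'_pos
  have l0 := N.lp
  have V0 := N.Vp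
  have u := N.u0p
  have gl : 16 * γ ≤ p.la p.μe := by linarith [h.gl]
  have y0 : 0 ≤ a - p.xs := by linarith
  have A0 : 0 < a - p.xs + u0 p p.μe := by linarith
  have q0 : 0 < 1 - a := by linarith
  have sA := sqrt_pos.2 A0
  have c1 : 8 * (γ * (1 / (a - p.xs + p.l0' γ))) ≤
      p.lL * db (p.la p.μe) (a - p.xs + u0 p p.μe) := by
    unfold db
    rw [mul_one_div, ← mul_div_assoc, ← mul_div_assoc, div_le_div_iff₀ (by linarith) (by positivity)]
    rcases le_total (a - p.xs) (u0 p p.μe) with c | c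
    · have e : u0 p p.μe * √(u0 p p.μe) = p.la p.μe := by
        have := N.fb_u0
        unfold Plt13.fb at this
        rw [div_eq_iff (sqrt_pos.2 u).ne'] at this
        exact this.symm
      have s : √(a - p.xs + u0 p p.μe) ≤ 2 * √(u0 p p.μe) :=
        sqrt_le_iff.2 ⟨by positivity, by rw [mul_pow, sq_sqrt u.le]; linarith⟩
      have t := mul_le_mul (show a - p.xs + u0 p p.μe ≤ 2 * u0 p p.μe by linarith) s sA.le
        (by positivity)
      have t1 := mul_le_mul_of_nonneg_left t g0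
      have t2 := mul_le_mul_of_nonneg_left (p.γ_l0' γ) l0.le
      have t3 : 0 ≤ p.lL * p.la p.μe * (a - p.xs) := by positivity
      have t4 : γ * (2 * u0 p p.μe * (2 * √(u0 p p.μe))) = 4 * (p.la p.μe * γ) := by
        rw [← e]; ring
      linarith
    · have s : √(a - p.xs + u0 p p.μe) ≤ 2 :=
        sqrt_le_iff.2 ⟨by norm_num, by linarith [N.u0_le, N.x0]⟩
      have t := mul_le_mul (show a - p.xs + u0 p p.μe ≤ 2 * (a - p.xs) by linarith) s sA.le
        (by positivity)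
      have t1 := mul_le_mul_of_nonneg_left t g0
      have t2 := mul_le_mul_of_nonneg_right gl y0
      have t3 := mul_le_mul_of_nonneg_right L (mul_nonneg l0.le y0)
      have t4 : 0 ≤ p.lL * p.la p.μe * p.l0' γ := by positivity
      have t5 := mul_nonneg l0.le y0
      linarith
  have c2 : 8 * (γ * (1 / (1 - b + p.l1'))) ≤ p.lL * dt (p.Vc p.μe) (p.la p.μe) (1 - a) := by
    have s : √(1 - a) ≤ 1 := sqrt_le_one.2 (by linarith [N.x0])
    have s0 := sqrt_nonneg (1 - a)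
    have d1 : p.la p.μe / (4 * (1 - a)) ≤ dt (p.Vc p.μe) (p.la p.μe) (1 - a) := by
      unfold dt
      rw [div_le_div_iff₀ (by positivity) (by positivity)]
      have := mul_le_mul_of_nonneg_left (show p.Vc p.μe * √(1 - a) + p.la p.μe ≤ 2 * p.Vc p.μe by
        linarith [mul_le_of_le_one_right V0.le s, N.lV]) (mul_pos l0 q0).le
      linarith
    have d2 : 8 * (γ * (1 / (1 - b + p.l1'))) ≤ 6 * (p.la p.μe / (4 * (1 - a))) := by
      rw [mul_one_div, ← mul_div_assoc, ← mul_div_assoc,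
        div_le_div_iff₀ (by linarith) (by positivity)]
      have t1 := mul_le_mul_of_nonneg_right gl q0.le
      have t2 := mul_le_mul_of_nonneg_left (show 1 - a ≤ 2 * (1 - b + p.l1') by linarith) l0.le
      have t3 : 0 ≤ p.la p.μe * (1 - b + p.l1') := mul_nonneg l0.le (by linarith)
      linarith
    exact d2.trans (mul_le_mul L d1 (by positivity) (by linarith))
  have c3 : 0 ≤ p.lL * dt 1 (√(p.u2 p.μe)) (1 - a) := by unfold dt; positivity
  have c4 := mul_le_mul_of_nonneg_left (p.lsp_sub γ ha hab hb.le).2 g0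
  have d : 0 ≤ b - a := by linarith
  refine le_of_mul_le_mul_left ?_ p.lL_pos
  unfold dn
  rw [den_eq ha (by linarith)]
  rw [div_eq_mul_one_div (b - a), div_eq_mul_one_div (b - a) (1 - b + _)] at c4
  linarith [mul_le_mul_of_nonneg_right c1 d, mul_le_mul_of_nonneg_right c2 d, mul_nonneg c3 d]

variable (D : AlD p α P)
include D

theorem x_lt {i : ℕ} (hi : i ≤ P.I) : P.x i < 1 := D.shg.lt h.nm hi

theorem drF {i : ℕ} (hi : i < P.I) : 0 ≤ p.rF p.μe (P.x (i + 1)) - p.rF p.μe (P.x i) :=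
  sub_nonneg.2 (h.nm.clw.le (D.shg.ge hi.le) (D.xm i hi).le (h.x_lt D hi))

theorem dls {i : ℕ} (hi : i < P.I) : 0 ≤ p.lsp P.γ (P.x (i + 1)) - p.lsp P.γ (P.x i) :=
  sub_nonneg.2 (p.lsp_le _ (D.shg.ge hi.le) (D.xm i hi).le (h.x_lt D hi).le)

/-- the cells lie in the shells of the scale -/
theorem shU {i : ℕ} (hi : i < P.I) :
    P.x (i + 1) - P.x i ≤ min (P.x i - p.xs + p.alU P.γ) (1 - P.x (i + 1)) := by
  unfold Pm.alU
  split_ifs with e
  · exact D.shg.sh i hi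
  have g0 := lt_of_le_of_ne D.g0 (Ne.symm e)
  have n1 : 1 ≤ p.n := by exact_mod_cast (show (1:ℝ) ≤ p.n by linarith [h.nm.n2])
  refine p.lsp_shell _ (D.shg.ge hi.le) (D.xm i hi).le ((p.l1'_le3 n1).trans (D.shg.top hi)) ?_
  refine le_of_mul_le_mul_left ?_ g0
  have a := (D.st i hi).2
  rw [D.rs, D.rs, ← mul_sub] at a
  have b := mul_le_mul_of_nonneg_left (show P.γ * (p.lsp P.γ (P.x (i + 1)) - p.lsp P.γ (P.x i)) ≤
    12 * p.v by linarith [mul_nonneg D.a0 (h.drF D hi)]) p.lL_pos.le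
  linarith [D.gv.resolve_left e]

theorem zP_x {i : ℕ} (hi : i ≤ P.I) : p.zP P (p.J + i - 1) = P.x i := by
  have := h.J0
  rcases Nat.eq_zero_or_pos i with e | e
  · rw [e, add_zero, Mem37.zP_lo (by omega), D.x0]; rfl
  · rw [Mem37.zP_mid (by omega) (by unfold Pm.Jp; omega)]
    congr 1; omega

theorem sum_rF {j : ℕ} (hj : j < p.J) : ∑ k ∈ Finset.Ioc j (p.Jp P),
    (p.zP P k - p.zP P (k - 1)) * p.rF p.μe (p.xP P k) ^ 2 ≤
      5 * K * p.la p.μe ^ 2 * log p.n := by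
  have J0 := h.J0
  have a := h.sum_lo j
  have b := D.shg.sum_env h.nm
  have key : ∀ N ≤ P.I, ∑ k ∈ Finset.Ioc j (p.J - 1 + N),
      (p.zP P k - p.zP P (k - 1)) * p.rF p.μe (p.xP P k) ^ 2 ≤ (4 * K + log p.n) * p.la p.μe ^ 2 +
        ∑ i ∈ Finset.range N, (P.x (i + 1) - P.x i) * env p p.μe (P.x i) ^ 2 := by
    intro N
    induction N with
    | zero =>
      intro _
      rw [Finset.sum_range_zero, add_zero, add_zero]
      refine le_trans (le_of_eq (Finset.sum_congr rfl fun k hk => ?_)) a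
      have := (Finset.mem_Ioc.1 hk).2
      rw [Mem37.xP_lo (by unfold Pm.Jp; omega), Mem37.zP_lo (by omega), Mem37.zP_lo (by omega)]
    | succ N ih =>
      intro hN
      rw [← add_assoc, Finset.sum_Ioc_succ_top (by omega), Finset.sum_range_succ,
        Mem37.xP_lo (by unfold Pm.Jp; omega), show p.J - 1 + N + 1 - 1 = p.J + N - 1 by omega,
        show p.J - 1 + N + 1 = p.J + (N + 1) - 1 by omega, h.zP_x D hN, h.zP_x D (by omega)]
      have c := h.nm.abs_rF_env (D.shg.ge (i := N) (by omega)) (h.x_lt D (by omega))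
      have d := mul_le_mul_of_nonneg_left (sq_le_sq' (abs_le.1 c).1 (abs_le.1 c).2)
        (sub_nonneg.2 (D.xm N hN).le)
      linarith [ih (by omega)]
  have c := key _ le_rfl
  rw [show p.Jp P = p.J - 1 + P.I + 1 by unfold Pm.Jp; omega, Finset.sum_Ioc_succ_top (by omega),
    Mem37.xP_lo (by unfold Pm.Jp; omega), Mem37.zP_hi (by unfold Pm.Jp; omega),
    show p.J - 1 + P.I + 1 - 1 = p.J + P.I - 1 by omega, h.zP_x D le_rfl]
  have t0 : 0 < 1 - P.x P.I := sub_pos.2 (h.x_lt D le_rfl)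
  obtain ⟨r1, -, r2⟩ := h.nm.rF_bd (h.x_lt D le_rfl)
  have l2 : (p.n : ℝ) ^ (-(2 : ℝ)) ≤ p.la p.μe ^ 2 := by
    have := pow_le_pow_left₀ (one_div_pos.2 h.nm.np).le h.nm.nl 2
    rwa [rpow_neg h.nm.np.le, rpow_two, ← one_div, ← one_div_pow]
  have d : (1 - P.x P.I) * p.rF p.μe (P.x P.I) ^ 2 ≤ 4 * p.la p.μe ^ 2 := by
    rcases le_total 0 (p.rF p.μe (P.x P.I)) with f | f
    · refine (mul_le_mul_of_nonneg_left (pow_le_pow_left₀ f r2 2) t0.le).trans_eq ?_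
      rw [mul_pow, div_pow, sq_sqrt t0.le]; field_simp; ring
    · have : p.rF p.μe (P.x P.I) ^ 2 ≤ 1 := by nlinarith [h.nm.u0_le]
      linarith [mul_le_of_le_one_right t0.le this, D.e2, sq_nonneg (p.la p.μe)]
  have q := sq_nonneg (p.la p.μe)
  have e1 := mul_le_mul_of_nonneg_left h.nm.l1 (show 0 ≤ (4 * K + 4) * p.la p.μe ^ 2 by
    have := h.K0; positivity)
  have e2 := mul_le_mul_of_nonneg_right h.K1 (mul_nonneg q (zero_le_one.trans h.nm.l1))
  linarith [mul_nonneg q (zero_le_one.trans h.nm.l1)]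

theorem Iv : P.I * p.v ≤ 100 * log p.n := by
  have a : ∀ i ≤ P.I, (i : ℝ) * (p.v / 4) ≤
      P.γ * p.lsp P.γ (P.x i) + (P.rs (P.x i) - P.rs (P.x 0)) := fun i => by
    induction i with
    | zero => simp [D.x0]
    | succ i ih => intro hi; push_cast; linarith [ih (by omega), (D.st i hi).1]
  have b := a _ le_rfl
  have c := h.nm.rise_le (h.x_lt D (Nat.zero_le _)) D.shg.hi
  have l1 := h.nm.l1
  have d : α * (p.rF p.μe (P.x P.I) - p.rF p.μe (P.x 0)) ≤ 7 * log p.n :=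
    (mul_le_mul_of_nonneg_left c D.a0).trans (mul_le_of_le_one_left (by linarith) D.a1)
  have e : P.γ ≤ 1 :=
    D.g1.trans (rpow_le_one_of_one_le_of_nonpos (by linarith [h.nm.n2]) (by norm_num))
  have f := mul_le_of_le_one_right D.g0
    (p.lsp_le_one P.γ h.nm.x0.le (D.shg.ge le_rfl) (h.x_lt D le_rfl).le)
  rw [D.rs, D.rs] at b
  linarith

theorem u1 {k : ℕ} (h1 : 1 ≤ k) (hk : k < p.J) :
    -(p.ms 1 p.ye (sig p.v (p.om 1 p.ye) k) * p.v / (4 * K)) ≤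
        P.hs (p.z k) - P.hs (p.z (k - 1)) ∧
      P.hs (p.z k) - P.hs (p.z (k - 1)) ≤ K * p.ms 1 p.ye (sig p.v (p.om 1 p.ye) k) * p.v := by
  have K0 := h.K0
  have v0 := h.base.v_pos
  have m0 := ms_nn (p := p) (sig p.v (p.om 1 p.ye) k)
  rw [D.hs, D.hs, D.rs, D.rs, ← mul_sub, ← mul_sub]
  rcases le_or_gt (p.z k) (1 / (2 * K)) with a | a
  · rw [h.rF0 a, h.rF0 ((h.base.lab.mono (Nat.sub_le k 1)).trans a), sub_self, mul_zero, mul_zero]
    exact ⟨neg_nonpos.2 (by positivity), by positivity⟩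
  · obtain ⟨b, c⟩ := h.d_lo h1 hk
    have b1 : -(p.v / (4 * K)) ≤ α * (p.rF p.μe (p.z k) - p.rF p.μe (p.z (k - 1))) := by
      have := mul_le_mul_of_nonneg_left b D.a0
      have := mul_le_of_le_one_left (show 0 ≤ p.v / (8 * K) by positivity) D.a1
      have : p.v / (8 * K) ≤ p.v / (4 * K) := div_le_div_of_nonneg_left v0.le (by positivity)
        (by linarith)
      linarith
    have c1 := (mul_le_mul_of_nonneg_left c D.a0).trans
      (mul_le_of_le_one_left (by positivity) D.a1)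
    rw [h.ms_top hk a, mul_div_assoc]
    constructor <;>
      linarith [mul_le_mul_of_nonneg_left b1 h.μ0.le, mul_le_mul_of_nonneg_left c1 h.μ0.le]

theorem plD (hA : 1 ≤ p.A) : PlD K p P p.ye (p.alDen α P.γ) (p.alG2 K α) (p.alU P.γ)
    ((p.n : ℝ) ^ (-(2 : ℝ))) := by
  have hj := h.jJ
  have K0 := h.K0
  have K1 := h.K1
  have v0 := h.base.v_pos
  have a0 := D.a0
  have g0 := D.g0
  refine ⟨g0, D.g1, D.x0, D.xm, (h.x_lt D le_rfl).le, h.Iv D, fun x hx => ?_,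
    fun k a b => ⟨?_, ?_, (h.u1 D (by omega) b).1⟩, fun i hi => ⟨?_, ?_, ?_, ?_⟩, ?_, ?_,
    fun i hi => ?_, fun x => ?_, fun x x' a b c d => ?_, D.e2⟩
  · rw [D.hs, D.rs, h.rF0 hx]; simp
  · have := mul_le_mul_of_nonneg_left (h.d_lo (by omega) b).1 a0
    have := mul_le_of_le_one_left (show 0 ≤ p.v / (8 * K) by positivity) D.a1
    rw [D.rs, D.rs]; linarith
  · rw [D.rs, D.rs, ← mul_sub]
    exact (mul_le_mul_of_nonneg_left (h.d_lo (by omega) b).2 a0).trans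
      (mul_le_of_le_one_left (by positivity) D.a1)
  · exact (div_le_div_of_nonneg_left v0.le (by norm_num) (by linarith)).trans (D.st i hi).1
  · exact (D.st i hi).2.trans (mul_le_mul_of_nonneg_right (by linarith) v0.le)
  · rw [D.rs, D.rs, ← mul_sub]; exact mul_nonneg a0 (h.drF D hi)
  · rw [D.hs, D.hs, ← mul_sub]
    refine mul_le_mul_of_nonneg_right (div_le_self h.μ0.le (by linarith)) ?_
    rw [D.rs, D.rs, ← mul_sub]; exact mul_nonneg a0 (h.drF D hi)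
  · have a := (abs_le.1 (h.nm.abs_rF_log D.shg.hi)).2
    have l1 := h.nm.l1
    have b : p.μe * α ≤ 1 := mul_le_one₀ h.μ1 a0 D.a1
    have c := (mul_le_mul_of_nonneg_left a (mul_nonneg h.μ0.le a0)).trans
      (mul_le_of_le_one_left (by linarith) b)
    have d : 6 ≤ K * p.A := le_trans (by linarith) (le_mul_of_one_le_right K0.le (Nat.one_le_cast.2 hA))
    rw [D.hs, D.rs]
    linarith [mul_le_mul_of_nonneg_right d (zero_le_one.trans l1)]
  · have := mul_le_mul_of_nonneg_left (h.sum_rF D hj) (sq_nonneg (α * p.μe))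
    rw [Finset.mul_sum] at this
    refine le_trans (le_of_eq (Finset.sum_congr rfl fun k _ => ?_)) (this.trans_eq ?_)
    · rw [D.hs, D.rs]; ring
    · unfold Pm.alG2; ring
  · obtain ⟨s1, s2⟩ := h.nm.clw.slope _ _ (D.shg.ge hi.le) (D.xm i hi).le (h.x_lt D hi) (D.shg.sh i hi)
    obtain ⟨t1, t2⟩ := D.st i hi
    rw [D.rs, D.rs] at t1 t2
    have s3 := mul_le_mul_of_nonneg_left s1 a0
    have s4 := mul_le_mul_of_nonneg_left s2 a0
    have s5 : P.γ * (p.ld P.γ (P.x i) * (P.x (i + 1) - P.x i)) ≤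
        2 * (P.γ * (p.lsp P.γ (P.x (i + 1)) - p.lsp P.γ (P.x i))) ∧
        P.γ * (p.lsp P.γ (P.x (i + 1)) - p.lsp P.γ (P.x i)) ≤
        2 * (P.γ * (p.ld P.γ (P.x i) * (P.x (i + 1) - P.x i))) := by
      by_cases e : P.γ = 0
      · simp [e]
      · have b := h.shU D hi
        rw [Pm.alU, if_neg e] at b
        obtain ⟨b1, b2⟩ := p.lsp_slope P.γ (D.shg.ge hi.le) (D.xm i hi).le (h.x_lt D hi).le b
        constructor <;>
          linarith [mul_le_mul_of_nonneg_left b1 g0, mul_le_mul_of_nonneg_left b2 g0]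
    have s8 := mul_nonneg g0 (h.dls D hi)
    have s9 := mul_nonneg g0 (mul_nonneg (p.ld_pos P.γ (P.x i)).le (sub_nonneg.2 (D.xm i hi).le))
    have s6 : p.v / K ≤ p.v / 500 := div_le_div_of_nonneg_left v0.le (by norm_num) K1
    have s7 := mul_le_mul_of_nonneg_right K1 v0.le
    unfold Pm.alDen
    constructor <;> linarith [s5.1, s5.2]
  · have := h.nm.den0 x
    have := p.ld_pos P.γ x
    unfold Pm.alDen
    rcases D.pos with e | e <;> positivity
  · obtain ⟨e1, e2⟩ := h.nm.dens a b c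
      (d.trans (min_le_min_right _ (by linarith [h.alU_le D.g1])))
    have f1 := mul_le_mul_of_nonneg_left (e1.trans (mul_le_mul_of_nonneg_right
      (show 3 ≤ K by linarith) (h.nm.den0 x').le)) a0
    have f2 := mul_le_mul_of_nonneg_left (e2.trans (mul_le_mul_of_nonneg_right
      (show 3 ≤ K by linarith) (h.nm.den0 x).le)) a0
    have f3 : P.γ * p.ld P.γ x ≤ K * (P.γ * p.ld P.γ x') ∧
        P.γ * p.ld P.γ x' ≤ K * (P.γ * p.ld P.γ x) := by
      by_cases e : P.γ = 0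
      · simp [e]
      · rw [Pm.alU, if_neg e] at d
        obtain ⟨b1, b2⟩ := p.ld_dens P.γ a b c.le d
        have b3 := mul_le_mul_of_nonneg_left (b1.trans (mul_le_mul_of_nonneg_right
          (show 2 ≤ K by linarith) (p.ld_pos _ x').le)) g0
        have b4 := mul_le_mul_of_nonneg_left (b2.trans (mul_le_mul_of_nonneg_right
          (show 2 ≤ K by linarith) (p.ld_pos _ x).le)) g0
        constructor <;> linarith
    unfold Pm.alDen
    constructor <;> linarith [f3.1, f3.2]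

end AlN

theorem la_eq (p : Pm) (hn : 1 ≤ (p.n : ℝ)) (hc : p.c ≤ 1 / 200) :
    p.μe = (p.n : ℝ) ^ (-(7 * p.c)) ∧ p.la p.μe = (p.n : ℝ) ^ (-(1 / 3) + 3 * p.c) := by
  have n0 : (0:ℝ) < p.n := by linarith
  have e : p.μe = (p.n : ℝ) ^ (-(7 * p.c)) := by
    unfold Pm.μe Pm.μ Pm.ye
    rw [one_mul, ← pow_mul, ← pow_succ', Pm.κ, ← rpow_natCast, ← rpow_mul n0.le]
    congr 1; push_cast; ring
  refine ⟨e, ?_⟩
  unfold Pm.la Pm.mu'
  rw [e, ← rpow_add n0, ← rpow_mul n0.le, ← rpow_mul n0.le,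
    min_eq_right (rpow_le_rpow_of_exponent_le hn (by linarith)), ← rpow_add n0]
  congr 1; ring

theorem ev_lL' (B β : ℝ) : ∀ᶠ n : ℕ in atTop, ∀ p : Pm, p.β = β → p.n = n → 2 ≤ p.A →
    B * p.lL * p.v ≤ (p.n : ℝ) ^ (-(7 / 20 : ℝ)) := by
  filter_upwards [ev_lL (√|B| * β)] with n h p e1 e2 hA
  have a := h { p with β := √|B| * β } rfl e2 hA
  have b : ({ p with β := √|B| * β } : Pm).v = |B| * p.v := by
    unfold Pm.v; simp only [e1, mul_pow, sq_sqrt (abs_nonneg B)]; ring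
  have c : 0 ≤ p.lL * p.v := mul_nonneg p.lL_pos.le (by unfold Pm.v; positivity)
  rw [b] at a
  change 9 * p.lL * (|B| * p.v) ≤ (p.n : ℝ) ^ (-(7 / 20 : ℝ)) at a
  nlinarith [mul_le_mul_of_nonneg_right (le_abs_self B) c, mul_nonneg (abs_nonneg B) c]

theorem ev_alN (β : ℝ) (hβ : 1 < β) (c0 C0 : ℝ) (hc0 : 0 < c0) (hC0 : 1 ≤ C0) :
    ∃ K1 : ℝ, ∀ K, K1 ≤ K → ∀ A : ℕ, 2 ≤ A → ∀ c : ℝ, 0 < c → c ≤ 1 / 200 →
      ∀ᶠ n : ℕ in atTop, All β c0 C0 A c n fun p => AlN K c0 C0 (C0 / (p.n : ℝ) ^ p.A) p := by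
  obtain ⟨C2, c2, H2⟩ := gpO β hβ c0 C0 hc0 hC0
  obtain ⟨K', c3, -, H3⟩ := fin_nm hβ c0 C0 hc0 hC0
  refine ⟨C2 + 500, fun K hK A hA c hc hc' => ?_⟩
  have K0 : 0 < K := by linarith
  have d0 : 0 < 1 / (6 * C0 * K) := by positivity
  have t1 := (tendsto_rpow_atTop (y := 1 / 60) (by positivity)).comp
    (tendsto_natCast_atTop_atTop (R := ℝ))
  filter_upwards [H2 A hA c hc hc', PP3.ev_small β c0 C0 hA hc hc' d0, ev_Big K' one_pos,
    tendsto_logn.eventually_ge_atTop (12 * C0 * K), ev_log (2 * K) (show (0:ℝ) < 1 / 5 by norm_num),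
    PP3.ev_rpow (show (0:ℝ) < 3 / 10 by norm_num) d0, t1.eventually_ge_atTop 16, ev_lL' 36 β]
    with n h2 hS hB h4 h5 h6 h7 h8 p e1 e2 e3 e4 hp
  have S := hS p e1 e2 e3 e4 hp
  obtain ⟨⟨-, a1, a2, a3, a4, a5⟩, -⟩ := h2 p e1 e2 e3 e4 hp
  have X : Ctx β c0 C0 K' 1 p :=
    ⟨e1, hp, hc0, hC0, e3 ▸ hA, e4 ▸ hc, e4 ▸ hc', one_pos, e2 ▸ hB⟩
  simp only [Function.comp] at h7
  rw [← e2] at h4 h5 h6 h7
  rw [← e4] at hc hc'
  have n1 := S.n1
  have n0 : (0:ℝ) < p.n := by linarith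
  obtain ⟨l1, l2⟩ := la_eq p n1 hc'
  have ry := X.r_le_ye
  obtain ⟨k0, r0, m0, -⟩ := PP3.mem_facts S hp.s1 (Or.inr ⟨rfl, ry, le_rfl⟩ : p.Mem 1 p.ye)
  have v0 := hp.base.v_pos
  have μκ : p.μe ≤ p.κ := by rw [l1]; exact rpow_le_rpow_of_exponent_le n1 (by linarith)
  have μ0 : p.μ0 ≤ p.μe := by rw [l1]; exact rpow_le_rpow_of_exponent_le n1 (by linarith)
  have iK : 1 / K ≤ 1 / C2 := one_div_le_one_div_of_le (by linarith) (by linarith)
  have vδ : p.v ≤ 1 / (6 * C0 * K) := by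
    have := S.ηv
    have : 0 ≤ C0 / (p.n:ℝ) ^ p.A := by positivity
    have := mul_le_of_le_one_right d0.le S.μ1
    linarith
  refine ⟨(H3 p X).2 _ μ0 μκ, e1 ▸ hp.base, hC0, by linarith, a2, iK.trans a3, by linarith, h4, ?_,
    ?_, ?_, ⟨r0.le, ry⟩, fun k hk => ?_, m0.trans_le μ0,
    μκ.trans (rpow_le_one_of_one_le_of_nonpos n1 (by linarith)), ?_, ?_,
    h8 p e1 e2 (e3 ▸ hA)⟩
  · have a : u0 p p.μe ≤ (p.n : ℝ) ^ (-(1 / 5 : ℝ)) := by
      unfold u0; rw [l2, ← rpow_mul n0.le]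
      exact rpow_le_rpow_of_exponent_le n1 (by linarith)
    have b := mul_le_mul h5 a (by unfold u0; rw [l2]; positivity) (by positivity)
    rw [← rpow_add n0, add_neg_cancel, rpow_zero] at b
    rw [le_div_iff₀ (by positivity)]; linarith
  · have a : p.la p.μe ≤ 1 / (6 * C0 * K) := by
      rw [l2]; exact (rpow_le_rpow_of_exponent_le n1 (by linarith)).trans h6
    rw [le_div_iff₀ (by positivity)] at a
    have : 0 ≤ p.la p.μe * C0 * K := by rw [l2]; positivity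
    linarith
  · have a := mul_le_mul_of_nonneg_left (show p.v + 2 * p.ye ≤ 3 * (1 / (6 * C0 * K)) by
      linarith [S.ye]) (zero_le_one.trans hC0)
    refine a.trans_eq ?_
    field_simp; norm_num
  · unfold Pm.om
    rw [PP3.sm_hi (by rw [le_sub_iff_add_le, le_div_iff₀ (by linarith)]; linarith)]; ring
  · have : (p.jf : ℝ) * p.v < p.J * p.v := by linarith
    exact_mod_cast lt_of_mul_lt_mul_right this v0.le
  · have a := mul_le_mul_of_nonneg_right h7 (rpow_pos_of_pos n0 (-(7 / 20 : ℝ))).le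
    rw [← rpow_add n0] at a
    rw [l2]; exact a.trans (rpow_le_rpow_of_exponent_le n1 (by linarith))

/-- **floor of the marks on the reveal nodes** -/
theorem MemD.flr_rev {K c0 C0 η Y : ℝ} {p : Pm} {P : Pl} {om : ℕ → ℝ} {jl : ℕ} {b₁ be : ℝ}
    {ms den : ℝ → ℝ} {g2 u0 ue : ℝ} (h : MemD K c0 C0 η Y p P om jl b₁ be ms den g2 u0 ue)
    (mJ : ms 1 ≤ ms (p.J * p.v)) {k : ℕ} (c : p.Jp P ≤ k) (d : k < p.NP P) :
    ms 1 / K * p.v ≤ p.HO P om (b₁ + be) (k + 1) - p.HO P om (b₁ + be) k := by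
  have jf := h.jfl
  have jJ := h.jlJ
  have JJ := Mem37.J_le (p := p) (P := P)
  rw [MemD.H_hi (k := k + 1) (by omega), MemD.H_hi (k := k) (by omega), Mem37.xP_hi c,
    Mem37.xP_hi (c.trans (Nat.le_succ k))]
  have ds := h.geo.ds_hi c
  have := (Spr41.mk_inc h.geo.ok (b₁ + be) (lo := ms 1 / K) (hi := 1) (h.geo.sP_nn k)
    (h.geo.sP_mono (Nat.le_succ k)) (h.geo.sP_le_tt d) fun r hr => ?_).1
  · rw [show p.sO P om k.succ = p.sO P om (k + 1) from rfl, ds] at this; linarith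
  · have T0 := h.geo.sP_nn (p.Jp P)
    have r1 := (h.geo.sP_mono c).trans hr.1
    have e1 := (platS _ h.geo.ok _ r T0 r1 (hr.2.trans (h.geo.sP_le_tt d)) h.geo.ref.2.2.2).1
    have e2 : exp (-((r - p.sO P om (p.Jp P)) / 2)) ≤ 1 := exp_le_one_iff.2 (by linarith)
    have e3 := mul_le_mul_of_nonneg_right e2 (Mem37.GG_nn (p.lO P om) (p.sO P om (p.Jp P)))
    have e4 := (h.crit _ ⟨T0, le_rfl⟩).1
    have e5 := div_le_div_of_nonneg_right (mJ.trans (h.msm (h.geo.sP_J ▸ h.geo.sP_mono JJ))) h.K0.le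
    have b0 : 0 ≤ b₁ + be := by linarith [h.b0, h.be0]
    have e6 := mul_le_mul_of_nonneg_left (e1.trans e3) b0
    have e7 := mul_nonneg b0 (Mem37.GG_nn (p.lO P om) r)
    unfold Spr41.ec at e4 ⊢
    constructor <;> linarith

/-- everything about one member -/
structure AlM (K c0 C0 α : ℝ) (p : Pm) (P : Pl) : Prop where
  mem : MemD K c0 C0 (C0 / (p.n : ℝ) ^ p.A) (2 * p.ye) p P (p.om 1 p.ye) p.jf (p.b 1 p.ye) 0
    (p.ms 1 p.ye) (p.alDen α P.γ) (p.alG2 K α) (p.alU P.γ) ((p.n : ℝ) ^ (-(2 : ℝ)))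
  cr : CrF K p P p.ye
  m1 : p.ms 1 p.ye 1 = p.μe
  mJ : p.ms 1 p.ye (p.J * p.v) = p.μe
  cl : Cl (p.alS K α P) (p.tst P p.ye)
  cei : Cei (p.alS K α P) (p.tst P p.ye)
  rev : ∀ k, p.Jp P ≤ k → k < p.NP P →
    p.μe / K * p.v ≤ (p.tst P p.ye).H (k + 1) - (p.tst P p.ye).H k

/-- **membership for all data `AlD`** -/
theorem memAl (β : ℝ) (hβ : 1 < β) (c0 C0 : ℝ) (hc0 : 0 < c0) (hC0 : 1 ≤ C0) :
    ∃ K1 : ℝ, 1 ≤ K1 ∧ ∀ K, K1 ≤ K → ∀ A : ℕ, 2 ≤ A → ∀ c : ℝ, 0 < c → c ≤ 1 / 200 →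
      ∀ᶠ n : ℕ in atTop, All β c0 C0 A c n fun p => AlN K c0 C0 (C0 / (p.n : ℝ) ^ p.A) p ∧
        ∀ α P, AlD p α P → AlM K c0 C0 α p P := by
  obtain ⟨K1, k1, H1⟩ := memT β hβ c0 C0 hc0 hC0
  obtain ⟨K2, H2⟩ := ev_alN β hβ c0 C0 hc0 hC0
  refine ⟨max K1 K2, le_max_of_le_left k1, fun K hK A hA c hc hc' => ?_⟩
  filter_upwards [H1 K ((le_max_left _ _).trans hK) A hA c hc hc',
    H2 K ((le_max_right _ _).trans hK) A hA c hc hc'] with n h1 h2 p e1 e2 e3 e4 hp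
  have N := h2 p e1 e2 e3 e4 hp
  refine ⟨N, fun α P D => ?_⟩
  obtain ⟨a, b1, -, b2, b3, b4⟩ := h1 p e1 e2 e3 e4 hp _ P _ _ _ _ N.ry.2 le_rfl
    (N.plD D (by omega))
  have mJ := (b1.trans b4.symm).le
  refine ⟨a, b2, b1, b4, a.cl, a.cei' b3 mJ (fun k x y => ?_) fun i hi => ?_, fun k x y => ?_⟩
  · rw [Mem37.sP_lo y.le]; exact (N.u1 D (by omega) y).2
  · rw [D.hs, D.hs, ← mul_sub, b1]
    refine mul_le_mul_of_nonneg_right (le_mul_of_one_le_left N.μ0.le a.K1) ?_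
    rw [D.rs, D.rs, ← mul_sub]; exact mul_nonneg D.a0 (N.drF D hi)
  · have := a.flr_rev mJ x y
    rw [b1] at this
    show _ ≤ p.HO P _ (p.b 1 p.ye + 0) (k + 1) + 0 - (p.HO P _ (p.b 1 p.ye + 0) k + 0)
    rw [add_zero (p.HO _ _ _ _), add_zero (p.HO _ _ _ _)]
    exact this

/-! ### instances -/

/-- the static data -/
theorem alD_plOk {p : Pm} {P : Pl} (h : Nm p p.μe) (H : p.PlOk p.μe P) : AlD p 1 P := by
  have v0 := h.v0
  refine ⟨zero_le_one, le_rfl, fun x => by rw [H.rs, one_mul], fun x => by rw [H.hs, H.rs], H.g.ge,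
    by rw [H.g]; positivity, Or.inl one_pos, Or.inl H.g, H.x0,
    fun i _ => H.xm (Nat.lt_succ_self i), shg_of h H, fun i hi => ?_, H.e2⟩
  rw [H.g]
  constructor <;> linarith [(H.st i hi).1, (H.st i hi).2]

/-- the grids of stage C2 are shell grids -/
theorem AlN.al_shg {K c0 C0 η α : ℝ} {p : Pm} {P : Pl} (N : AlN K c0 C0 η p)
    (H : p.AlOk (7 / 20) α P) (a0 : 0 ≤ α) : Shg p p.μe P.x P.I := by
  have h := N.nm
  have g0 : 0 < (p.n : ℝ) ^ (-(7 / 20 : ℝ)) := rpow_pos_of_pos h.np _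
  have n1 : 1 ≤ p.n := by exact_mod_cast (show (1:ℝ) ≤ p.n by linarith [h.n2])
  refine ⟨H.x0.ge, fun i _ => H.xm.monotone (Nat.le_succ i), H.e3, fun i hi => ?_⟩
  have x0 : p.xs ≤ P.x i := H.x0 ▸ H.xm.monotone (Nat.zero_le i)
  have x1 := H.xm.monotone (show i + 1 ≤ P.I from hi)
  have m := H.xm.monotone (Nat.le_succ i)
  refine (p.lsp_shell ((p.n : ℝ) ^ (-(7 / 20 : ℝ))) x0 m
    ((p.l1'_le3 n1).trans (by linarith [H.e3])) ?_).trans
    (min_le_min_right _ (by linarith [N.l0'_le le_rfl]))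
  refine le_of_mul_le_mul_left ?_ g0
  have d := mul_nonneg a0 (sub_nonneg.2 (h.clw.le x0 m (x1.trans_lt H.e1)))
  have b := mul_le_mul_of_nonneg_left (show (p.n : ℝ) ^ (-(7 / 20 : ℝ)) *
    (p.lsp ((p.n : ℝ) ^ (-(7 / 20 : ℝ))) (P.x (i + 1)) - p.lsp ((p.n : ℝ) ^ (-(7 / 20 : ℝ))) (P.x i))
    ≤ 3 * p.v by linarith [(H.st i hi).2]) p.lL_pos.le
  linarith [N.gv, mul_pos p.lL_pos h.v0]

/-- grids of stage C2 -/
theorem alD_alOk {K c0 C0 η : ℝ} {p : Pm} {P : Pl} {α α' : ℝ} (N : AlN K c0 C0 η p)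
    (H : p.AlOk (7 / 20) α P) (a0 : 0 ≤ α) (a1 : α ≤ 1) (a2 : α / 2 ≤ α') (a3 : α' ≤ α) :
    AlD p α' (p.alP (7 / 20) P α') := by
  have h := N.nm
  have G := N.al_shg H a0
  have g0 : 0 < (p.n : ℝ) ^ (-(7 / 20 : ℝ)) := rpow_pos_of_pos h.np _
  refine ⟨by linarith, a3.trans a1, fun _ => rfl, fun x => ?_, g0.le, le_rfl, Or.inr g0,
    Or.inr N.gv, H.x0, fun i _ => H.xm (Nat.lt_succ_self i), G, fun i hi => ?_, H.e2⟩
  · show α' * (p.μe * p.rF p.μe x) = p.μe * (α' * p.rF p.μe x)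
    ring
  · obtain ⟨s1, s2⟩ := H.st i hi
    have d := sub_nonneg.2 (h.clw.le (G.ge hi.le) (G.mono i hi) (G.lt h hi))
    have d1 := mul_le_mul_of_nonneg_right a2 d
    have d2 := mul_le_mul_of_nonneg_right a3 d
    have d3 := mul_nonneg g0.le (sub_nonneg.2 (p.lsp_le ((p.n : ℝ) ^ (-(7 / 20 : ℝ))) (G.ge hi.le)
      (G.mono i hi) (G.lt h hi).le))
    have v0 := h.v0
    simp only [Pm.alP]
    constructor <;> linarith

/-- the end of stage C1 -/
theorem alD_one {K c0 C0 η : ℝ} {p : Pm} {P : Pl} (N : AlN K c0 C0 η p) (H : p.PlOk p.μe P) :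
    AlD p 1 (p.alP (7 / 20) P 1) := by
  have h := N.nm
  have G := shg_of h H
  have g0 : 0 < (p.n : ℝ) ^ (-(7 / 20 : ℝ)) := rpow_pos_of_pos h.np _
  refine ⟨zero_le_one, le_rfl, fun _ => rfl, fun x => ?_, g0.le, le_rfl, Or.inr g0, Or.inr N.gv,
    H.x0, fun i _ => H.xm (Nat.lt_succ_self i), G, fun i hi => ?_, H.e2⟩
  · show 1 * (p.μe * p.rF p.μe x) = p.μe * (1 * p.rF p.μe x)
    ring
  · obtain ⟨s1, s2⟩ := H.st i hi
    rw [H.rs] at s1 s2
    have a := N.γ_step g0.le le_rfl (G.ge hi.le) (G.mono i hi) (G.lt h hi)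
      ((G.sh i hi).trans (min_le_right _ _))
    have b := (h.clw.slope _ _ (G.ge hi.le) (G.mono i hi) (G.lt h hi) (G.sh i hi)).1
    have d3 := mul_nonneg g0.le (sub_nonneg.2 (p.lsp_le ((p.n : ℝ) ^ (-(7 / 20 : ℝ))) (G.ge hi.le)
      (G.mono i hi) (G.lt h hi).le))
    have v0 := h.v0
    simp only [Pm.alP]
    constructor <;> linarith

/-- the end model: spread only -/
theorem alD_spOk {K c0 C0 η : ℝ} {p : Pm} {P : Pl} (N : AlN K c0 C0 η p)
    (H : p.SpOk (7 / 20) P) : AlD p 0 P := by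
  have h := N.nm
  have n1 : 1 ≤ p.n := by exact_mod_cast (show (1:ℝ) ≤ p.n by linarith [h.n2])
  have gv : 36 * p.lL * p.v ≤ P.γ := H.g' ▸ N.gv
  have v0 := h.v0
  refine ⟨le_rfl, zero_le_one, fun x => by simp [H.rs], fun x => by simp [H.rs, H.hs],
    (H.γ0 n1).le, H.g'.le, Or.inr (H.γ0 n1), Or.inr gv, H.x0, fun i _ => H.xm (Nat.lt_succ_self i),
    ⟨H.x0.ge, fun i _ => H.xm.monotone (Nat.le_succ i), H.e1, fun i hi => ?_⟩, fun i hi => ?_, H.e2⟩
  · exact (H.shell n1 (by linarith [mul_pos p.lL_pos v0]) hi).trans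
      (min_le_min_right _ (by linarith [N.l0'_le H.g'.le]))
  · simp only [H.rs, Pi.zero_apply, sub_self, add_zero]
    constructor <;> linarith [(H.st i hi).1, (H.st i hi).2]





end Crest.Agent.T156.Alt

end
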