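import Crest.Agent.T156.R2B_85
import Crest.Agent.T156.CInB_12
import Crest.Agent.T156.MvL_30
import Crest.Agent.T156.Swm_78

-- ▼ part T156/R2W_40
section

/-!
# Row 156, R2 (helper40): weak inputs of a test measure at `CD` level, constant envelopes
-/

set_option autoImplicit false
set_option linter.unusedSectionVars false

noncomputable section

namespace Crest.Agent.T156.Cas.C40.R40

open Real Finset
open Crest.Agent.T157.E Crest.Agent.T157.Casc Crest.Agent.T157.SL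
open CD

/-- weighted Cauchy–Schwarz -/
theorem cs {ι : Type*} (s : Finset ι) {μ ν : ι → ℝ} (h : ∀ i ∈ s, |μ i| ≤ ν i) (Y : ι → ℝ) :
    (∑ i ∈ s, μ i * Y i) ^ 2 ≤ (∑ i ∈ s, ν i) * ∑ i ∈ s, ν i * Y i ^ 2 :=
  sum_sq_le_sum_mul_sum_of_sq_le_mul s (fun i hi => (abs_nonneg _).trans (h i hi))
    (fun i hi => mul_nonneg ((abs_nonneg _).trans (h i hi)) (sq_nonneg _)) fun i hi => by
      rw [mul_pow, ← mul_assoc, ← sq, ← sq_abs (μ i)]
      exact mul_le_mul_of_nonneg_right (pow_le_pow_left₀ (abs_nonneg _) (h i hi) 2) (sq_nonneg _)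

variable (D : CD)

/-- node (`false`) or leaf (`true`) variable along the path -/
def yv (b : Bool) (t : ℕ) (p : NI D.B → ℝ) (x : Cube D.n) : ℝ := bif b then D.lf t p x else D.nd t p

theorem eg_l (t : ℕ) (x : Cube D.n) :
    Eg fun z => Pf (fun _ => 1) (D.B.drop t) z (oU D.q t x) :=
  Eg.sum _ fun y _ => (eg_P wt_one90 _ y).mul_const _

theorem eg_yv (b : Bool) (t : ℕ) (x : Cube D.n) : Eg fun p => yv D b t p x := by
  cases b
  · exact Pe.eg_st D.B 0 t (eg_qf wt_one90 _ (oU D.q t))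
  · exact Pe.eg_st D.B 0 t (eg_l D t x)

theorem jen (L : List (Lv (Cube D.n))) (z f : Cube D.n → ℝ) :
    (∑ x, P (fun _ => 1) L z x * f x) ^ 2 ≤ ∑ x, P (fun _ => 1) L z x * f x ^ 2 := by
  have := cs univ (μ := P (fun _ => 1) L z) (ν := P (fun _ => 1) L z)
    (fun x _ => (abs_of_nonneg (P_nonneg wt_one90 L z x)).le) f
  rwa [sum_P wt_one90, one_mul] at this

theorem yv_sq (b : Bool) (t : ℕ) :
    pE (fun _ => 1) D.B 0 (fun p x => yv D b t p x ^ 2) ≤ D.u 2 t := by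
  have k : ∀ z, ∑ x, P (fun _ => 1) (D.B.drop t) z x *
      Pf (fun _ => 1) (D.B.drop t) z (oU D.q t x) ^ 2 ≤
      qf (P (fun _ => 1) (D.B.drop t) z) fun x y => |oU D.q t x y| ^ 2 := fun z => by
    simp only [qf, mul_assoc, ← mul_sum, sq_abs]
    exact sum_le_sum fun x _ => mul_le_mul_of_nonneg_left (jen D _ z _) (P_nonneg wt_one90 _ z x)
  cases b
  · refine (Pe.pE_node1 wt_one90 ((eg_qf wt_one90 _ (oU D.q t)).pow 2) D.B t 0).trans_le
      (node_mono wt_one90 ((eg_qf wt_one90 _ _).pow 2) (eg_qf wt_one90 _ _) (fun z => ?_) _ _ _)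
    refine le_trans ?_ (k z)
    simp only [qf, mul_assoc, ← mul_sum]
    exact jen D _ z _
  · exact (Pe.pE_node wt_one90 (fun x z => Pf (fun _ => 1) (D.B.drop t) z (oU D.q t x) ^ 2)
      (fun x => (eg_l D t x).pow 2) D.B t 0).trans_le (node_mono wt_one90
        (Eg.sum _ fun x _ => (eg_P wt_one90 _ x).mul ((eg_l D t x).pow 2)) (eg_qf wt_one90 _ _) k _ _ _)

theorem pE_c (c : ℝ) : pE (fun _ => 1) D.B 0 (fun _ _ => c) = c := Sy41.pE_const wt_one90 _ _ c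

theorem cv_sq (b : Bool) (t : ℕ) :
    pE (fun _ => 1) D.B 0 (fun p x => (yv D b t p x - D.del t) ^ 2) ≤ 4 * D.u 2 t := by
  have e := eg_yv D b t
  refine (Eg33.pE_mono' wt_one90 D.B 0 (G := fun p x => 2 * yv D b t p x ^ 2 + 2 * D.del t ^ 2)
    (fun x => ((e x).sub (Eg.const _)).pow 2)
    (fun x => (((e x).pow 2).const_mul _).add (Eg.const _))
    fun p x => by nlinarith [sq_nonneg (yv D b t p x + D.del t)]).trans ?_
  rw [Eg33.pE_add' wt_one90 D.B 0 (fun x => ((e x).pow 2).const_mul _) fun _ => Eg.const _,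
    Pe.pE_const_mul, pE_c]
  linarith [yv_sq D b t, R85.del_sq_le D t]

theorem pE_cs (s : Finset ℕ) {μ ν σ : ℕ → ℝ} (h : ∀ i ∈ s, |μ i| ≤ ν i)
    {Y : ℕ → (NI D.B → ℝ) → Cube D.n → ℝ} (e : ∀ t x, Eg fun p => Y t p x)
    (hY : ∀ t, pE (fun _ => 1) D.B 0 (fun p x => Y t p x ^ 2) ≤ σ t) :
    pE (fun _ => 1) D.B 0 (fun p x => (∑ t ∈ s, μ t * Y t p x) ^ 2) ≤
      (∑ t ∈ s, ν t) * ∑ t ∈ s, ν t * σ t := by
  have n0 : ∀ i ∈ s, 0 ≤ ν i := fun i hi => (abs_nonneg _).trans (h i hi)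
  refine (Eg33.pE_mono' wt_one90 D.B 0
    (G := fun p x => (∑ t ∈ s, ν t) * ∑ t ∈ s, ν t * Y t p x ^ 2)
    (fun x => (Eg.sum _ fun t _ => (e t x).const_mul _).pow 2)
    (fun x => (Eg.sum _ fun t _ => ((e t x).pow 2).const_mul _).const_mul _)
    fun p x => cs s h _).trans ?_
  rw [Pe.pE_const_mul, Eg33.pE_sum' wt_one90 D.B 0 s fun t x => ((e t x).pow 2).const_mul _]
  refine mul_le_mul_of_nonneg_left (sum_le_sum fun t ht => ?_) (sum_nonneg n0)
  rw [Pe.pE_const_mul]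
  exact mul_le_mul_of_nonneg_left (hY t) (n0 t ht)

theorem tail_sub (j : ℕ) : D.tail j ⊆ D.up := fun t ht => by
  rw [mem_Ico] at ht; rw [mem_Ioo]; omega

variable {D}

/-- both weak inputs with one constant -/
def WK (D : CD) (ω : ℕ → ℝ) (c : ℝ) : Prop :=
  D.Wk2 ω (fun _ => c) (fun _ => c) ∧ D.Wp ω fun _ => c

theorem wk_of {ω : ℕ → ℝ} {c : ℝ} (c0 : 0 ≤ c)
    (h1 : ∀ b j, pE (fun _ => 1) D.B 0
      (fun p x => (∑ t ∈ D.tail j, ω t * yv D b t p x) ^ 2) ≤ c ^ 2)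
    (h2 : ∀ φ : ℕ → ℝ, (∀ t, |φ t| ≤ 1) → ∀ b j, pE (fun _ => 1) D.B 0
      (fun p x => (∑ t ∈ D.tail j, ω t * φ t * (yv D b t p x - D.del t)) ^ 2) ≤ c ^ 2) :
    WK D ω c := by
  have k := h2 (fun _ => 1) fun _ => abs_one.le
  simp only [mul_one] at k
  exact ⟨⟨fun _ => ⟨c0, c0⟩, fun _ => ⟨le_rfl, le_rfl⟩, h1 false, h1 true, k false, k true⟩,
    fun φ hφ j => ⟨h2 φ hφ false j, h2 φ hφ true j⟩⟩

/-- **any measure**: Cauchy–Schwarz -/
theorem wk_any {ω : ℕ → ℝ} {c w m : ℝ} (c0 : 0 ≤ c) (hw : ∑ t ∈ D.up, |ω t| ≤ w)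
    (hm : ∑ t ∈ D.up, |ω t| * D.u 2 t ≤ m) (hc : 4 * (w * m) ≤ c ^ 2) : WK D ω c := by
  have a1 : ∀ j, ∑ t ∈ D.tail j, |ω t| ≤ w := fun j =>
    (sum_le_sum_of_subset_of_nonneg (tail_sub D j) fun _ _ _ => abs_nonneg _).trans hw
  have a2 : ∀ j, ∑ t ∈ D.tail j, |ω t| * D.u 2 t ≤ m := fun j =>
    (sum_le_sum_of_subset_of_nonneg (tail_sub D j) fun t _ _ =>
      mul_nonneg (abs_nonneg _) (D.u0 2 t)).trans hm
  have w0 : 0 ≤ w := (sum_nonneg fun _ _ => abs_nonneg _).trans hw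
  have s0 : ∀ j, 0 ≤ ∑ t ∈ D.tail j, |ω t| * D.u 2 t := fun j =>
    sum_nonneg fun t _ => mul_nonneg (abs_nonneg _) (D.u0 2 t)
  have a3 := fun j => mul_le_mul (a1 j) (a2 j) (s0 j) w0
  refine wk_of c0 (fun b j => (pE_cs D _ (fun _ _ => le_rfl) (eg_yv D b) (yv_sq D b)).trans ?_)
    fun φ hφ b j => (pE_cs D _ (ν := fun t => |ω t|) (fun t _ => ?_)
      (fun t x => (eg_yv D b t x).sub (Eg.const _)) (cv_sq D b)).trans ?_
  · linarith [a3 j, mul_nonneg w0 ((s0 j).trans (a2 j))]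
  · rw [abs_mul]; exact mul_le_of_le_one_right (abs_nonneg _) (hφ t)
  · simp only [mul_left_comm _ (4 : ℝ), ← mul_sum]
    linarith [a3 j]

/-- **a measure with a density**: the additive variance bound -/
theorem wk_den {τ0 : ℝ} (h : D.Ok τ0) {ω a α A : ℕ → ℝ} {c : ℝ} (c0 : 0 ≤ c) (H : D.Add A)
    (e : ∀ t ∈ D.up, ω t = D.dx t * a t) (ha : ∀ t ∈ D.up, |a t| ≤ α t)
    (hc : 2 * D.I (fun t => α t ^ 2 * A t) + 2 * D.I (fun t => α t ^ 2 * D.u 2 t) ≤ c ^ 2) :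
    WK D ω c := by
  have i2 : 0 ≤ D.I (fun t => α t ^ 2 * D.u 2 t) := h.I0 fun t _ => mul_nonneg (sq_nonneg _) (D.u0 2 t)
  have i1 : 0 ≤ D.I (fun t => α t ^ 2 * A t) := h.I0 fun t _ => mul_nonneg (sq_nonneg _) (H.1 t)
  have k : ∀ φ : ℕ → ℝ, (∀ t, |φ t| ≤ 1) → ∀ b j, pE (fun _ => 1) D.B 0
      (fun p x => (∑ t ∈ D.tail j, ω t * φ t * (yv D b t p x - D.del t)) ^ 2) ≤
      D.I (fun t => α t ^ 2 * A t) := fun φ hφ b j => by
    have := Alt.CIn12.add_tl H h.dx0 j (φ := fun t => a t * φ t) (α := α) (fun t ht => by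
        rw [abs_mul]
        exact (mul_le_of_le_one_right (abs_nonneg _) (hφ t)).trans (ha t (tail_sub D j ht)))
      (f := D.I fun t => α t ^ 2 * A t) (sum_le_sum_of_subset_of_nonneg (tail_sub D j)
        fun t _ _ => mul_nonneg (h.dx0 t) (mul_nonneg (sq_nonneg _) (H.1 t)))
    have e' : ∀ Y : ℕ → ℝ, ∑ t ∈ D.tail j, ω t * φ t * Y t =
        ∑ t ∈ D.tail j, D.dx t * (a t * φ t) * Y t := fun Y =>
      sum_congr rfl fun t ht => by rw [e t (tail_sub D j ht), mul_assoc (D.dx t)]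
    simp only [e']
    cases b
    exacts [this.1, this.2]
  refine wk_of c0 (fun b j => ?_) fun φ hφ b j => (k φ hφ b j).trans (by linarith)
  have k1 := k (fun _ => 1) (fun _ => abs_one.le) b j
  simp only [mul_one] at k1
  have eg : ∀ x, Eg fun p => ∑ t ∈ D.tail j, ω t * (yv D b t p x - D.del t) := fun x =>
    Eg.sum _ fun t _ => ((eg_yv D b t x).sub (Eg.const _)).const_mul _
  have m : (∑ t ∈ D.tail j, ω t * D.del t) ^ 2 ≤ D.I fun t => α t ^ 2 * D.u 2 t := by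
    have := cs (D.tail j) (μ := D.dx) (ν := D.dx) (fun t _ => (abs_of_nonneg (h.dx0 t)).le)
      fun t => a t * D.del t
    rw [sum_congr rfl fun t ht => by rw [e t (tail_sub D j ht), mul_assoc]]
    refine this.trans ((mul_le_of_le_one_left (sum_nonneg fun t _ => mul_nonneg (h.dx0 t)
      (sq_nonneg _)) (h.sum_dx_one fun t ht => (mem_Ico.1 ht).2.le)).trans
      ((sum_le_sum fun t ht => mul_le_mul_of_nonneg_left ?_ (h.dx0 t)).trans
        (sum_le_sum_of_subset_of_nonneg (tail_sub D j) fun t _ _ =>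
          mul_nonneg (h.dx0 t) (mul_nonneg (sq_nonneg _) (D.u0 2 t)))))
    rw [mul_pow, ← sq_abs (a t)]
    exact mul_le_mul (pow_le_pow_left₀ (abs_nonneg _) (ha t (tail_sub D j ht)) 2)
      (R85.del_sq_le D t) (sq_nonneg _) (sq_nonneg _)
  refine (Eg33.pE_mono' wt_one90 D.B 0 (G := fun p x =>
      2 * (∑ t ∈ D.tail j, ω t * (yv D b t p x - D.del t)) ^ 2 +
        2 * (∑ t ∈ D.tail j, ω t * D.del t) ^ 2)
    (fun x => (Eg.sum _ fun t _ => (eg_yv D b t x).const_mul _).pow 2)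
    (fun x => (((eg x).pow 2).const_mul _).add (Eg.const _)) fun p x => ?_).trans ?_
  · simp only [mul_sub, sum_sub_distrib]
    nlinarith [sq_nonneg (∑ t ∈ D.tail j, ω t * yv D b t p x - 2 * ∑ t ∈ D.tail j, ω t * D.del t)]
  · rw [Eg33.pE_add' wt_one90 D.B 0 (fun x => ((eg x).pow 2).const_mul _) fun _ => Eg.const _,
      Pe.pE_const_mul, pE_c]
    linarith

end Crest.Agent.T156.Cas.C40.R40

end
end

-- ▼ part T156/MvX_30

/-!
# Row 156: the legs on nodes of large tilt, the sandwich on a model (helper30)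
-/

set_option autoImplicit false
set_option linter.unusedSectionVars false

noncomputable section

namespace Crest.Agent.T156.Cas.Mv30

open Real Set
open Crest.Agent.T157.E Crest.Agent.T157.Casc Crest.Agent.T157.SL
open Crest.Agent.T157.G1 (ov fl FL)
open Crest.Agent.T156.Cas.Q33 Crest.Agent.T156.Cas.Sy41 Crest.Agent.T156.Alt
open Crest.Agent.T156.Alt.Md67 Crest.Agent.T156.Alt.Cost41 Apt7

variable {M : Md} {m : ℕ} {a : ℝ}

/-- **legs**: tilt `≥ x` from `j0` on, field steps in `[σ, 1 / m]` -/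
theorem legsX (G : Lg M m a) {j0 K : ℕ} {σ cm x : ℝ} {c : ℕ → ℝ} (σ0 : 0 < σ) (x0 : 0 < x)
    (h : j0 < M.N) (hx : x ≤ M.z j0) (lo : ∀ i, j0 ≤ i → i < M.N → σ ≤ M.H (i + 1) - M.H i)
    (hi : ∀ i, j0 ≤ i → i < M.N → (M.H (i + 1) - M.H i) * m ≤ 1)
    (hK : M.H M.N - M.H j0 ≤ 2 ^ K * (x * σ)) (cm0 : 0 ≤ cm)
    (hc : ∀ k ∈ Finset.Ioo j0 M.N, 0 ≤ c k ∧ c k ≤ cm) :
    ∑ k ∈ Finset.Ioo j0 M.N, c k * pM M m a k ≤ 4 * (K + 2) ^ 2 * (cm / (σ * m) / x ^ 2) := by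
  have m0 : (0 : ℝ) < m := Nat.cast_pos.2 G.m0
  have z1 : ∀ i, j0 ≤ i → x ≤ M.z i := fun i hi => hx.trans (G.zm hi)
  have x1 : x ≤ 1 := hx.trans (G.z1 _)
  have eov : (sl m).cov = ov := funext fun x => funext (sl_cov G.m0 x)
  have sm : σ * m ≤ 1 := (mul_le_mul_of_nonneg_right (lo j0 le_rfl h) m0.le).trans (hi j0 le_rfl h)
  set κ := cm / (σ * m) with hκ
  have κ0 : 0 ≤ κ := by positivity
  have eκ : cm = κ * (σ * m) := by rw [hκ]; field_simp
  have cκ : cm ≤ κ / x := (eκ.trans_le (mul_le_of_le_one_right κ0 sm)).trans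
    (le_div_self κ0 x0 x1)
  have st : ∀ i, j0 ≤ i → i < M.N → x * σ ≤ M.z i * (M.H (i + 1) - M.H i) := fun i a b =>
    mul_le_mul (z1 i a) (lo i a b) σ0.le (x0.le.trans (z1 i a))
  have P : Phi M M.N - Phi M j0 ≤ M.H M.N - M.H j0 := by
    rw [Phi_sub M h.le, ← Finset.sum_Ico_sub M.H h.le]
    exact Finset.sum_le_sum fun j _ =>
      mul_le_of_le_one_left (sub_nonneg.2 (G.Hm (Nat.le_succ j))) (G.z1 j)
  have h1 := G.dt.tc_win 0 (lo := j0 + 2) (hi := M.N + 1) (by omega) len_L.ge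
    (c := fun j => c (j - 1)) (κ := κ) (t := 1) (x := x) κ0 (fun j hj => ?_) (fun j hj => ?_)
    x0 fun j hj => ?_
  rotate_left
  · obtain ⟨k, rfl⟩ : ∃ k, j = k + 1 := ⟨j - 1, by have := Finset.mem_Ico.1 hj; omega⟩
    have := Finset.mem_Ico.1 hj
    rw [dh_succ (by omega), Nat.add_sub_cancel]
    refine ((hc k (Finset.mem_Ioo.2 ⟨by omega, by omega⟩)).2.trans_eq eκ).trans ?_
    exact mul_le_mul_of_nonneg_left (mul_le_mul_of_nonneg_right (lo k (by omega) (by omega)) m0.le) κ0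
  · obtain ⟨k, rfl⟩ : ∃ k, j = k + 1 := ⟨j - 1, by have := Finset.mem_Ico.1 hj; omega⟩
    have := Finset.mem_Ico.1 hj
    rw [dh_succ (by omega), mul_one]
    exact hi k (by omega) (by omega)
  · obtain ⟨k, rfl⟩ : ∃ k, j = k + 1 := ⟨j - 1, by have := Finset.mem_Ico.1 hj; omega⟩
    have := Finset.mem_Ico.1 hj
    rw [ex_succ G.toLeg]
    exact z1 k (by omega)
  have r1 : rho (fun _ => 1) (M.L m a) (sl m) 0 (M.N + 1) ≤ 1 := by
    rw [← rb_eq (sl_cov G.m0)]; exact rb_le_one G.m0 _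
  have r0 := rho_nonneg (w := fun _ => 1) (sl m) 0 (M.L m a) (j0 + 2)
  have e1 : ∑ j ∈ Finset.Ico (j0 + 2) (M.N + 1), c (j - 1) * tc (fun _ => 1) (M.L m a) (sl m) 0 j =
      ∑ k ∈ Finset.Ioo j0 M.N, c k * tc (fun _ => 1) (M.L m a) (sl m) 0 (k + 1) := by
    rw [← Finset.sum_Ico_add' _ (j0 + 1) M.N 1]; rfl
  have h2 := cost G (c := fun k => if k < M.N then c k else 0) (W := fun _ => κ / x * m) (cm := cm)
    (K := K) (mul_pos x0 σ0) h.le le_rfl st (P.trans hK) (fun k a _ => by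
      split_ifs with e; exacts [(hc k (Finset.mem_Ioo.2 ⟨a, e⟩)).1, le_rfl]) cm0 (fun k a _ => by
      split_ifs with e; exacts [(hc k (Finset.mem_Ioo.2 ⟨a, e⟩)).2, cm0]) (fun _ _ _ => by positivity)
    fun j k a b d => by
      rw [Phi_sub M b.le, Finset.mul_sum,
        ← Finset.Ico_add_one_add_one_eq_Ioc, ← Finset.sum_Ico_add' _ j k 1]
      refine Finset.sum_le_sum fun i hi => ?_
      have := Finset.mem_Ico.1 hi
      have h3 := mul_le_mul_of_nonneg_left (st i (by omega) (by omega))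
        (show 0 ≤ κ / x * m by positivity)
      refine le_trans ?_ h3
      rw [show κ / x * m * (x * σ) = cm by rw [eκ]; field_simp]
      split_ifs with e; exacts [(hc _ (Finset.mem_Ioo.2 ⟨by omega, e⟩)).2, cm0]
  have h3 := RW_const (ρ := M.rb m a) (W := fun _ => κ / x * m) (j0 := j0) (N := M.N)
    (B := κ / x * m) (rb_mono G.m0) (rb_nonneg G.m0 _) h.le (rb_le_one G.m0 _) (by positivity)
    fun _ _ _ => le_rfl
  have h4 : x * ∑ k ∈ Finset.Ioo j0 M.N, c k * vv (fun _ => 1) (M.L m a) (sl m) 0 (k + 1) ≤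
      ∑ k ∈ Finset.Ioc j0 M.N, (if k < M.N then c k else 0) * aM M m a k := by
    rw [← Finset.Ioo_insert_right h, Finset.sum_insert (by simp), if_neg (lt_irrefl _), zero_mul,
      zero_add, Finset.mul_sum]
    refine Finset.sum_le_sum fun k hk => ?_
    have := Finset.mem_Ioo.1 hk
    rw [if_pos this.2, mul_left_comm]
    exact mul_le_mul_of_nonneg_left (vv_le Link33.wt1 G.monoL (sl m) 0 (x := x) (j := k + 1) (by
      rw [ex_succ G.toLeg]; exact z1 k this.1.le)) (hc k hk).1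
  have h5 : 2 / (m : ℝ) * ((1 + K) * RW (M.rb m a) (fun _ => κ / x * m) j0 M.N) ≤
      2 * (1 + K) * (κ / x) :=
    (mul_le_mul_of_nonneg_left (mul_le_mul_of_nonneg_left h3 (by positivity))
      (by positivity)).trans_eq (by field_simp)
  have h6 := (h4.trans h2).trans
    (mul_le_mul_of_nonneg_left (add_le_add h5 cκ) (show (0 : ℝ) ≤ K + 2 by positivity))
  rw [← le_div_iff₀' x0, show ((K : ℝ) + 2) * (2 * (1 + K) * (κ / x) + κ / x) / x =
    (K + 2) * (2 * K + 3) * (κ / x ^ 2) by field_simp; ring] at h6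
  have h7 := h1.trans (div_le_div_of_nonneg_right (mul_le_of_le_one_right (by positivity)
    (show _ ≤ (1 : ℝ) by linarith)) (sq_nonneg x))
  simp only [pM, ← eov, pv_eq Link33.wt1, mul_add, Finset.sum_add_distrib, mul_left_comm _ (2 : ℝ),
    ← Finset.mul_sum]
  rw [e1, mul_div_right_comm] at h7
  have k0 : (0 : ℝ) ≤ K := Nat.cast_nonneg K
  nlinarith [mul_nonneg (show 0 ≤ κ / x ^ 2 by positivity) k0]

/-- `E (R - c)²` at the profile node `k` -/
abbrev uM2 (M : Md) (m : ℕ) (a c : ℝ) (k : ℕ) : ℝ := M.E2 m a (fun R => |R - c| ^ 2) k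

theorem uM2_shift {c c' d : ℝ} (h : |c' - c| ≤ d) (k : ℕ) :
    uM2 M m a c k ≤ 2 * uM2 M m a c' k + 2 * d ^ 2 := by
  have := E2_mono (M := M) (m := m) (a := a) (f := fun R => |R - c| ^ 2)
    (g := fun R => 2 * |R - c'| ^ 2 + 2 * d ^ 2) (fun r _ => by
      have := sq_le_sq' (abs_le.1 h).1 (abs_le.1 h).2
      rw [sq_abs, sq_abs]
      linarith [sq_nonneg (r - c' - (c' - c))]) k
  rwa [E2_add, E2_mul, E2_const] at this

/-- **the sandwich** -/
theorem sand {i k s : ℕ} (h1 : i ≤ k) (h2 : k ≤ s) {c ci cs d : ℝ} (hi : |ci - c| ≤ d)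
    (hs : |cs - c| ≤ d) : uM2 M m a c k ≤
      36 * pM M m a k + 72 * (uM2 M m a ci i + uM2 M m a cs s) + 144 * d ^ 2 := by
  have h : uM2 M m a c k ≤ 6 ^ (0 + 2) * (pM M m a k + uM2 M m a c i + uM2 M m a c s) :=
    Swm78.swm_ov (n := m) 1 (M.Mx a) (Nat.succ_le_succ h1) (Nat.succ_le_succ h2) c 0
  rw [show (6 : ℝ) ^ (0 + 2) = 36 by norm_num] at h
  linarith [uM2_shift (M := M) (m := m) (a := a) hi i, uM2_shift (M := M) (m := m) (a := a) hs s]

end Crest.Agent.T156.Cas.Mv30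

end
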