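import Crest.Agent.T156.TL2Q_63
import Crest.Agent.T156.TL0D_9
import Crest.Agent.T156.GdT_65

/-!
# Row 156, block (L), (TL2): the good nodes of the thick levels from the net (helper51)
-/

set_option autoImplicit false

noncomputable section

namespace Crest.Agent.T156.Alt.L63

open Real Finset
open Crest.Agent.T156.Alt.L69 Crest.Agent.T156.Alt.Mp9
open Crest.Agent.T156.Alt.G89 (NG NdS Tau Ug gd)

variable {E L : ℝ} {S : Sc} {M : Md} {m : ℕ} {a G1 u1 u2 j γ Lc ηc τ l0 l X Xp Vt Lg Lp X2 X3 X4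
  G0 : ℝ} {η : ℝ → ℝ} {N : ℝ} {g : ℝ → ℝ} {t1 tu ℓ En p0 : ℝ}

namespace Cx

variable (H : Cx E L S M m a G1 u1 u2 j γ Lc ηc τ l0 l X Xp Vt Lg Lp X2 X3 X4 G0 η N g t1 tu ℓ
  En p0)
include H

theorem Cθ51 : S.C * S.θ ≤ 1 / 2 := by nlinarith [H.cl.msθ, H.Cn, H.cl.θ0]
theorem γ051 : 0 ≤ γ := (sub_nonneg.2 (H.cl.sm H.cl.i3)).trans H.lp.γ0
theorem ELg51 : E ≤ Lg := by simpa [H.lt.F1] using H.ln.Lg0
theorem vl51 : E * S.v ≤ l := H.vμ.trans H.μ1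
theorem vℓ51 : E * S.v ≤ ℓ := H.vμ.trans (by simpa using H.dv H.E1 H.μ0.le H.μℓ)
theorem j051 : 0 ≤ j := le_trans (by positivity) H.ap.j0
theorem jl51 {k : ℕ} (h1 : l ≤ M.s k) : S.jl < k :=
  lt_of_not_ge fun c => by linarith [H.cl.sm c, H.jl_l0, H.lt.l2, H.l00]

/-- location on the sloped part, away from its ends -/
theorem loc51 {k : ℕ} (h1 : l ≤ M.s k) (k2 : k < S.J) :
    -(4 * S.C ^ 3 * (X ^ ((1 : ℝ) / 3) + S.v)) ≤ M.del m a k ∧
      (X ^ ((1 : ℝ) / 3) ≤ M.z (S.J - 1) - M.z (k - 1) →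
        M.del m a k ≤ 4 * S.C ^ 3 * (X ^ ((1 : ℝ) / 3) + S.v)) := by
  have h := H.cl
  have C1 := h.C1
  have C0 := h.C0
  have v0 := h.v0
  have R0 := H.R0
  have i3 := h.i3
  have i4 := h.i4
  have l0 := H.l0'
  have k1 := h.i1.trans_lt (H.jl51 h1)
  have c1 : S.C ^ 2 ≤ S.C ^ 3 := pow_le_pow_right₀ C1 (by norm_num)
  obtain ⟨p, q⟩ := crude (z := M.z) (f := M.rb m a) (g := M.q) (lo := S.j0) (hi := S.J - 1) (k := k)
    h.leg.zm (rb_mono H.A.m_pos) (L := S.C ^ 2) (e := S.C ^ 3 * S.v)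
    (ρ := 2 * S.C ^ 3 * (X ^ ((1 : ℝ) / 3) + S.v)) (one_le_pow₀ C1) (by positivity) R0
    (by nlinarith [mul_le_mul_of_nonneg_right c1 R0.le, mul_pos (pow_pos C0 3) v0])
    (fun i k a b => h.q_mono a (by omega))
    (fun i k a b c => (Ap63.q_slow h (b.trans k.le_succ) (by omega)).trans
      (H.s_lip a b (by omega)))
    ((H.Sdel le_rfl (by omega)).trans_eq H.R3.symm) k1 (by omega)
  unfold Md.del
  refine ⟨?_, fun hz => by linarith [p hz]⟩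
  rcases q with q | q
  · linarith
  · exfalso
    have a1 := (h.q_tel H.Cθ51 (i := S.j0 + 1) (j := k) k1 (by omega)).1
    rw [div_le_iff₀ (by positivity)] at a1
    have a2 := (h.ss _ h.j0_lt).2
    have a3 := h.sm h.i1
    have a4 : 100 * M.s S.jl ≤ l :=
      (H.dv (by linarith [H.E9]) H.jl0.le H.ln.l0s).trans H.ln.l0l
    have a5 : 100 * S.C * S.v ≤ l := H.dv (by linarith [H.CE]) v0.le H.vl51
    have a6 : 100 * S.C ^ 4 * S.v ≤ l := H.dv (H.KE 4 (by norm_num)) v0.le H.vl51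
    have a7 : 100 * S.C ^ 4 * X ^ ((1 : ℝ) / 3) ≤ l := H.dv (H.KE 4 (by norm_num)) R0.le H.lt.lX
    have a8 := mul_le_mul_of_nonneg_right (show M.q k - M.q (S.j0 + 1) ≤
      2 * S.C ^ 3 * (X ^ ((1 : ℝ) / 3) + S.v) by linarith) (show 0 ≤ 2 * S.C by positivity)
    nlinarith

/-- time length against label length -/
theorem ds51 {i k : ℕ} {D D' : ℝ} (i0 : S.jl < i) (ik : i ≤ k) (k2 : k < S.J)
    (hi : -D' ≤ M.del m a i) (hk : M.del m a k ≤ D) :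
    G89.ds M m a i k ≤ 2 * S.C ^ 3 * (M.z k - M.z i) + S.C * (D + D') := by
  have h := H.cl
  have C1 := h.C1
  have C0 := h.C0
  have kN : k ≤ M.N := (k2.trans h.J_lt).le
  have z0 := sub_nonneg.2 (h.leg.zm ik)
  have a1 := H.A.h_up H.ce.up i0 ik k2
  rw [H.lt.F1, mul_one] at a1
  have a2 : S.C ^ 2 * S.ms (M.s k) ≤ S.C ^ 3 := by
    rw [pow_succ S.C 2]
    exact mul_le_mul_of_nonneg_left (((h.ms1 _).trans H.θ1).trans C1) (by positivity)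
  have a3 := (Ap63.q_slow h ik (k2.le.trans h.i3)).trans (Ap63.s_z h (h.i1.trans i0.le) ik k2)
  have a4 : M.rb m a k - M.rb m a i ≤ S.C ^ 2 * (M.z k - M.z i) + (D + D') := by
    unfold Md.del at hi hk; linarith
  have a5 : kp m * M.b ≤ S.C := (mul_le_of_le_one_left (by linarith [h.b_ge]) (kp_mem m).2).trans h.b1
  have a6 := mul_le_mul a5 a4 (sub_nonneg.2 (rb_mono H.A.m_pos ik)) C0.le
  simp only [G89.ds, sb, h.d_eq i0 (ik.trans kN), h.d_eq (i0.trans_le ik) kN]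
  nlinarith [mul_le_mul_of_nonneg_right a2 z0]

theorem Ug51 {t t' : ℝ} (h1 : l ≤ t) (h2 : t ≤ t') : 0 ≤ Ug S Lg t' ∧ Ug S Lg t' ≤ uw S Lg t := by
  have h := H.cl
  have t0 := H.l0'.trans_le h1
  have L1 := H.E1.trans H.ELg51
  obtain ⟨a1, a2, -⟩ := Gd65.Ug_le h L1 (t0.trans_le h2)
  have c2 := cr1 S t'
  have w0' := H.w30 (t0.trans_le h2)
  have w1 : S.w3 t' ≤ S.w3 t := by
    have := h.ms_pos t0.le
    have := h.N0
    have := h.msm h2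
    have := h.F1
    have := t0.trans_le h2
    unfold Sc.w3
    gcongr
  have a3 : uw S Lg t' ≤ 2 * uw S Lg t := by
    have := Sz9.cr_dbl h t0 h2
    have := cr1 S t
    calc _ ≤ Lg ^ 2 * (2 * cr S t) * S.w3 t ^ ((1 : ℝ) / 3) := by unfold uw; gcongr
      _ = _ := by unfold uw; ring
  exact ⟨a1, by nlinarith [H.ELg51, H.E9]⟩

/-- the small lengths against `Lg ℓ` -/
theorem small51 : E * (S.θ + j + γ + X ^ ((1 : ℝ) / 3) + S.v) ≤ 4 * (Lg * ℓ) := by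
  have E1 := H.E1
  have a0 : ℓ ≤ Lg * ℓ := le_mul_of_one_le_left H.ℓ0.le (E1.trans H.ELg51)
  have a1 : S.θ ≤ √S.θ := le_sqrt_of_sq_le (by nlinarith [H.cl.θ0, H.θ1])
  linarith [H.lt.ℓ1, H.vℓ51, H.jg, H.lt.Lg3, mul_le_mul_of_nonneg_left a1 (zero_le_one.trans E1)]

theorem tau51 (O : ∀ k, S.J ≤ 8 * k → k < S.J →
      Gd65.Out L S M m a (2 * S.C) j γ (X ^ ((1 : ℝ) / 3)) k) :
    Tau E S M m a (2 * S.C) Lg (L * (S.θ + j + γ + X ^ ((1 : ℝ) / 3))) (ℓ / E) η := by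
  have E1 := H.E1
  have E0 : 0 < E := by linarith
  have ℓ0 := H.ℓ0
  have L1 := H.L1
  have Lg1 := E1.trans H.ELg51
  have Z0 : 0 ≤ S.θ + j + γ + X ^ ((1 : ℝ) / 3) := by
    linarith [H.cl.θ0, H.R0, H.j051, H.γ051]
  refine Gd65.tau_ln H.cl H.ln (H.KE 5 (by norm_num)) (fun k a b => (O k (by omega) b).2.2)
    (by positivity) (div_le_div_of_nonneg_right (le_of_mul_le_mul_left ?_ E0) E0.le) ?_
  · have a1 : E * (L * (S.θ + j + γ + X ^ ((1 : ℝ) / 3)) / Lg ^ 2) ≤ 4 * L * ℓ := by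
      rw [← mul_div_assoc, div_le_iff₀ (by positivity)]
      have b1 := mul_le_mul_of_nonneg_left H.small51 (zero_le_one.trans L1)
      have b2 := mul_le_mul_of_nonneg_left (le_self_pow₀ Lg1 two_ne_zero)
        (show 0 ≤ 4 * L * ℓ by positivity)
      linarith [mul_nonneg (mul_nonneg (zero_le_one.trans L1) E0.le) H.cl.v0.le]
    have a2 : 5 * L ≤ E := by nlinarith [H.LE 2, H.L9]
    linarith [H.lt.ℓ1, mul_le_mul_of_nonneg_right a2 ℓ0.le, mul_le_mul_of_nonneg_right L1 ℓ0.le]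
  · rw [show E * (ℓ / E) ^ 2 = ℓ * (ℓ / E) by field_simp]
    exact mul_le_one₀ H.ℓ1 (by positivity) (div_le_one_of_le₀ (H.ℓ1.trans E1) E0.le)

theorem ni51 (T : Sz9.TpS L S M m a X2 X3 G0 η) {Λ : ℝ} (hΛ : L ^ 2 ≤ Λ) :
    Nd22.NI Λ S M m a l0 (X ^ ((1 : ℝ) / 3)) X2 G0 (L * (X3 + η 1)) ∧
      L * (X3 + η 1) ≤ Λ * η S.C := by
  have h := H.cl
  have C0 := h.C0
  have C1 := h.C1
  have L1 := H.L1
  have R0 := H.R0
  have L2 : L ≤ Λ := (le_self_pow₀ L1 two_ne_zero).trans hΛ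
  refine ⟨⟨L1.trans L2, fun k hk => ?_, T.1.trans (mul_le_mul_of_nonneg_right L2 H.X20), T.2.1,
    T.2.2.trans (mul_le_mul_of_nonneg_right L2 (sq_nonneg _))⟩, ?_⟩
  · have z0 := h.z_pos k
    have m1 := le_max_left (M.z k) l0
    have m2 := le_max_right (M.z k) l0
    have a1 : max (M.z k) l0 + X ^ ((1 : ℝ) / 3) ≤ L69.cl S (X ^ ((1 : ℝ) / 3)) (max (M.z k) l0) := by
      have := le_mul_of_one_le_left (z0.le.trans m1) (cr1 S (max (M.z k) l0))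
      unfold L69.cl; linarith
    refine le_trans ?_ (mul_le_mul ((H.KL (c := 3) 1 (by norm_num)).trans L2) a1 (by positivity)
      (by linarith))
    rw [pow_one]
    have b0 := mul_le_mul_of_nonneg_left m1 C0.le
    have b1 := mul_pos C0 R0
    have b2 := mul_pos C0 z0
    rcases le_total (2 * S.C * M.z k) 1 with c | c
    · have a2 := Sz9.start H.A H.ap.all R0 H.R3.ge
        ((H.dv (by linarith [H.CE]) R0.le H.lt.lX).trans H.l1) c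
      have a3 := (h.s_bds h.jl_lt.le).1
      have a4 : (1 : ℝ) ≤ S.jl := by exact_mod_cast h.i0.trans h.i1
      rw [← mul_div_assoc, div_le_iff₀ C0] at a3
      have a5 : 2 * S.C ^ 2 * M.s S.jl ≤ l0 := H.dv (H.KE 2 (by norm_num)) H.jl0.le H.ln.l0s
      have a6 : S.v ≤ M.s S.jl * S.C := (le_mul_of_one_le_left h.v0.le a4).trans a3
      have a7 : 2 * (S.C * S.v) ≤ max (M.z k) l0 := by
        linarith [mul_le_mul_of_nonneg_left a6 C0.le]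
      linarith [mul_le_mul_of_nonneg_left a7 C0.le, le_mul_of_one_le_left R0.le C1]
    · linarith [(rb_mem (M := M) (a := a) H.A.m_pos k).2]
  · have lC := H.l1.trans C1
    have η0 := H.μ0.le.trans (H.μη lC le_rfl)
    have a1 : X3 ≤ η S.C := by
      have := H.w30 C0
      have := cr1 S S.C
      have u0 : 0 ≤ uw S Lg S.C := by unfold uw; positivity
      have := h.ms_pos C0.le
      have := H.l00
      have g0 : 0 ≤ G0 := le_trans (by positivity) H.ln.g0a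
      have := H.X20
      have := H.μ0
      have : 0 ≤ min (S.ms S.C / S.C) S.C := le_min (by positivity) C0.le
      have : 0 ≤ uw S Lg S.C ^ 3 + uw S Lg S.C ^ 2 * min (S.ms S.C / S.C) S.C +
        (√(Lg * cr S S.C * gg S S.C) + G0 + X2) * (uw S Lg S.C + √X2) := by positivity
      linarith [H.ln.ηb S.C lC le_rfl]
    have a2 : ∀ i : ℕ, η 1 ≤ 16 ^ i * η (2 ^ i) := fun i => by
      induction i with
      | zero => simp
      | succ i ih =>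
        rw [pow_succ, pow_succ' (2 : ℝ), mul_assoc]
        exact ih.trans (mul_le_mul_of_nonneg_left (H.ln.η2 _ (by positivity)) (by positivity))
    obtain ⟨i, i1, i2⟩ := exists_nat_pow_near C1 one_lt_two
    have a3 : (16 : ℝ) ^ (i + 1) ≤ 16 * S.C ^ 4 := by
      rw [pow_succ', show (16 : ℝ) ^ i = (2 ^ i) ^ 4 by rw [← pow_mul, mul_comm, pow_mul]; norm_num]
      gcongr
    have a4 := (a2 (i + 1)).trans ((mul_le_mul_of_nonneg_left (H.ln.ηa i2.le) (by positivity)).trans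
      (mul_le_mul_of_nonneg_right a3 η0))
    have a5 := mul_le_mul_of_nonneg_right (H.KL (c := 17) 4 (by norm_num)) η0
    have a6 := mul_le_mul_of_nonneg_right (one_le_pow₀ (n := 4) C1) η0
    refine le_trans ?_ (mul_le_mul_of_nonneg_right hΛ η0)
    rw [sq, mul_assoc]
    exact mul_le_mul_of_nonneg_left (by linarith) (by linarith)

variable {W τ1 : ℝ} {Gn : ℕ → Prop} {V0 : ℕ}

section
variable (G : NG E W S M m a (2 * S.C) l Lg X2 τ1 η Gn V0) (W1 : 1 ≤ W) (WE : L ^ 2 * W ≤ E)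
include G W1 WE

omit G in
theorem WLg51 {c : ℝ} (k : ℕ) (hc : c ≤ 10 ^ 9) (hk : k ≤ 13 := by norm_num) :
    c * S.C ^ k * W ≤ E ∧ c * S.C ^ k * W ≤ Lg := by
  have a := (mul_le_mul_of_nonneg_right ((H.KL k hc hk).trans (le_self_pow₀ H.L1 two_ne_zero))
    (zero_le_one.trans W1)).trans WE
  exact ⟨a, a.trans H.ELg51⟩

/-- a good node just above the level `9 l / 8` -/
theorem low51 : ∃ i, Gn i ∧ 9 / 8 * l ≤ M.s i ∧ M.s i < 5 / 4 * l ∧ i ≤ V0 := by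
  have h := H.cl
  have C0 := h.C0
  have C1 := h.C1
  have v0 := h.v0
  have l0 := H.l0'
  have sJ : 2 * (E * l) ≤ M.s S.J := by
    linarith [mul_le_mul_of_nonneg_left H.lt.t1a (zero_le_one.trans H.E1), H.lt.t1b, H.lt.tu1]
  have E9 := mul_le_mul_of_nonneg_right H.E9 l0.le
  obtain ⟨k, kJ, k1, k2, -⟩ := h.exists_node (t := 9 / 8 * l) (by positivity) (by linarith)
  have k3 := (h.ss k kJ).2
  have a0 : 100 * S.C * S.v ≤ l := H.dv (by linarith [H.CE]) v0.le H.vl51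
  obtain ⟨n, n1, n2⟩ : ∃ n : ℕ, 16 * S.C * S.v * n ≤ l ∧ l < 16 * S.C * S.v * (n + 1) :=
    ⟨⌊l / (16 * S.C * S.v)⌋₊, (le_div_iff₀' (by positivity)).1 (Nat.floor_le (by positivity)),
      (div_lt_iff₀' (by positivity)).1 (Nat.lt_floor_add_one _)⟩
  obtain ⟨p1, p2⟩ := h.s_bds (k := k + 1) kJ
  rw [← mul_div_assoc, div_le_iff₀ C0] at p1
  have J1 := (h.s_bds le_rfl).2
  have n0 : (0 : ℝ) ≤ n := n.cast_nonneg
  have cv := mul_pos C0 v0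
  have b1 : 2 * n ≤ k + 1 := by
    have : (2 : ℝ) * n ≤ (k + 1 : ℕ) := le_of_mul_le_mul_right (by linarith) cv
    exact_mod_cast this
  have b2 : 8 * (k + 1 + n) ≤ 5 * S.J := by
    have c1 : (n : ℝ) ≤ (k + 1 : ℕ) := by exact_mod_cast (show n ≤ k + 1 by omega)
    have c2 := mul_le_mul_of_nonneg_left (p1.trans (mul_le_mul_of_nonneg_right
      (show M.s (k + 1) ≤ 2 * l by linarith) C0.le)) C0.le
    have c3 := mul_le_mul_of_nonneg_right (H.KE (c := 32) 2 (by norm_num)) l0.le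
    have : (8 : ℝ) * ((k + 1 : ℕ) + n) ≤ 5 * S.J := le_of_mul_le_mul_right (by
      linarith [mul_le_mul_of_nonneg_right c1 cv.le, mul_pos (pow_pos C0 2) l0]) cv
    exact_mod_cast this
  obtain ⟨i, i1, i2, gi⟩ := G.ex (k + 1) (k + 1 + n) (by linarith) (by omega) (by omega) (by omega) (by
    have c1 := mul_le_mul_of_nonneg_right (H.WLg51 W1 WE (c := 32) 1 (by norm_num)).2
      (show 0 ≤ S.v * (n + 1) by positivity)
    have c2 := mul_le_mul_of_nonneg_left (show M.s (k + 1) ≤ 2 * (16 * S.C * S.v * (n + 1)) by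
      linarith) (zero_le_one.trans W1)
    push_cast
    linarith)
  have c1 := (h.s_tel (Nat.le_add_right (k + 1) n) (by omega)).2
  push_cast at c1
  exact ⟨i, gi, k2.le.trans (h.sm i1), by linarith [h.sm i2], G.big i gi (by omega)⟩

omit G W1 WE in
theorem far51 {V : ℕ} (h1 : l ≤ M.s V) (hV : M.s V + ℓ / 5 ≤ tu) :
    V < S.J ∧ ℓ ≤ 10 * S.C ^ 2 * (M.z (S.J - 1) - M.z V) := by
  have h := H.cl
  have ℓ0 := H.ℓ0
  obtain ⟨v1, v2⟩ := H.idx h1 (by linarith)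
  have a1 := Ap63.s_z h (h.i1.trans v1.le) (show V ≤ S.J - 1 by omega) (by omega)
  have a2 := (h.ss (S.J - 1) (by omega)).2
  rw [show S.J - 1 + 1 = S.J by omega] at a2
  have a3 : 100 * S.C * S.v ≤ ℓ := H.dv (by linarith [H.CE, h.C0]) h.v0.le H.vℓ51
  exact ⟨v2, by linarith [H.lt.tu1, mul_pos h.C0 h.v0]⟩

omit G in
/-- a label length bounded by the time length over `Lg` -/
theorem half51 {w d x y : ℝ} (w0 : 0 ≤ w) (h1 : w ≤ x + W / Lg * d) (h2 : d ≤ 2 * S.C ^ 3 * w + y) :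
    w ≤ 2 * x + 2 * W * (y / Lg) := by
  have Lg0 : 0 < Lg := by linarith [H.E1, H.ELg51]
  have a1 := mul_le_mul_of_nonneg_left h2 (show 0 ≤ W / Lg by positivity)
  have a2 : W / Lg * (2 * S.C ^ 3) ≤ 1 / 2 := by
    rw [div_mul_eq_mul_div, div_le_iff₀ Lg0]
    linarith [(H.WLg51 W1 WE (c := 4) 3 (by norm_num)).2]
  have a3 := mul_le_mul_of_nonneg_right a2 w0
  have e : W / Lg * y = W * (y / Lg) := by ring
  linarith

/-- the gap around a window without good nodes -/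
theorem gap51 {U p q : ℕ} (hU : 5 / 4 * l ≤ M.s U) (h1 : U ≤ p) (h2 : p ≤ q) (h3 : q ≤ V0)
    (c : ¬ ∃ i, p ≤ i ∧ i ≤ q ∧ Gn i) : ∃ i k, i ≤ p ∧ q < k ∧ 9 / 8 * l ≤ M.s i ∧ Nx Gn i V0 i k := by
  classical
  have h := H.cl
  have no : ∀ y, p ≤ y → y ≤ q → ¬ Gn y := fun y a b d => c ⟨y, a, b, d⟩
  obtain ⟨i0, g0, s0, s1, -⟩ := H.low51 G W1 WE
  have i0p : i0 ≤ p := le_trans (le_of_not_ge fun d => by linarith [h.sm d]) h1
  have gi : Gn (Nat.findGreatest Gn p) := Nat.findGreatest_spec i0p g0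
  have i1 : i0 ≤ Nat.findGreatest Gn p := Nat.le_findGreatest i0p g0
  have i2 := Nat.findGreatest_le (P := Gn) p
  have i3 := fun y (a : Nat.findGreatest Gn p < y) (b : y ≤ p) => Nat.findGreatest_is_greatest a b
  generalize Nat.findGreatest Gn p = i at gi i1 i2 i3
  have ex : ∃ k, q ≤ k ∧ Gn k := ⟨V0, h3, G.gV⟩
  obtain ⟨k1, gk⟩ := Nat.find_spec ex
  have k2 : Nat.find ex ≤ V0 := Nat.find_min' ex ⟨h3, G.gV⟩
  have k3 := fun y (a : y < Nat.find ex) => Nat.find_min ex a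
  generalize Nat.find ex = k at k1 gk k2 k3
  have k4 : q < k := lt_of_le_of_ne k1 fun e => no q h2 le_rfl (e ▸ gk)
  refine ⟨i, k, i2, k4, s0.trans (h.sm i1), le_rfl, by omega, k2, gi, gk, fun y a b d => ?_⟩
  rcases le_total y p with e | e
  · exact i3 y a e d
  rcases le_total y q with f | f
  · exact no y e f d
  · exact k3 y b ⟨f, d⟩

/-- a short window from the location at the upper end of the gap -/
theorem win51 {i k : ℕ} (si : l ≤ M.s i) (ik : i < k) (n : Nx Gn i V0 i k)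
    (hk : M.del m a k ≤ 8 * S.C ^ 3 * (X ^ ((1 : ℝ) / 3) + S.v)) :
    M.z (k - 1) - M.z i < L * W * (X ^ ((1 : ℝ) / 3) / Lg + S.v) := by
  have h := H.cl
  have C0 := h.C0
  have v0 := h.v0
  have R0 := H.R0
  have Lg1 := H.E1.trans H.ELg51
  have hV0 := G.hV
  have k2 := n.2.2.1
  have a1 := (G.lab i k si ik (by omega) n.2.2.2.1 (Or.inl n.2.2.2.2.1) n.2.2.2.2.2).1
  have W0 : 0 < W := by linarith
  have x0 : 0 < W * (X ^ ((1 : ℝ) / 3) / Lg) := by positivity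
  have x1 := mul_pos W0 v0
  have a4 := mul_le_mul_of_nonneg_right (H.KL (c := 100) 4 (by norm_num)) (add_pos x0 x1).le
  have a5 := mul_pos (pow_pos C0 4) (add_pos x0 x1)
  have b6 := H.ds51 (H.jl51 si) ik.le (by omega) (H.loc51 si (by omega)).1 hk
  have b7 := (h.zs (k - 1) (by have := H.jl51 si; have := h.i1; omega) (by omega)).2
  rw [show k - 1 + 1 = k by omega] at b7
  have b8 := H.half51 W1 WE (x := 0) (y := 14 * S.C ^ 4 * (X ^ ((1 : ℝ) / 3) + S.v))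
    (sub_nonneg.2 (h.leg.zm (show i ≤ k - 1 by omega))) (by rwa [zero_add]) (by
      linarith [mul_le_mul_of_nonneg_left b7 (show 0 ≤ 2 * S.C ^ 3 by positivity),
        mul_pos (pow_pos C0 4) R0])
  have b9 := mul_le_mul_of_nonneg_left (div_le_self v0.le Lg1) (show 0 ≤ S.C ^ 4 * W by positivity)
  have e : 2 * W * (14 * S.C ^ 4 * (X ^ ((1 : ℝ) / 3) + S.v) / Lg) =
    28 * (S.C ^ 4 * (W * (X ^ ((1 : ℝ) / 3) / Lg)) + S.C ^ 4 * W * (S.v / Lg)) := by ring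
  linarith

omit WE in
theorem nt52 {Λ : ℝ} (hΛ : L * W ≤ Λ) {U V : ℕ} (hU : 5 / 4 * l ≤ M.s U) (V1 : U ≤ V → V ≤ V0)
    (hex : ∀ p q, U ≤ p → p ≤ q → q ≤ V →
      L * W * (X ^ ((1 : ℝ) / 3) / Lg + S.v) ≤ M.z q - M.z p → ∃ i, p ≤ i ∧ i ≤ q ∧ Gn i) :
    Nt E Λ S M m a Lg X X2 η Gn U V := by
  have h := H.cl
  have l0 := H.l0'
  have L9 := H.L9
  have W0 : 0 ≤ W := by linarith
  have Lg0 : 0 < Lg := by linarith [H.E1, H.ELg51]
  have LW : 2 * W ≤ Λ := (mul_le_mul_of_nonneg_right (by linarith) W0).trans hΛ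
  have sl : ∀ i, U ≤ i → l ≤ M.s i := fun i a => by linarith [h.sm a]
  have nx : ∀ i k, Nx Gn U V i k → Nx Gn U V0 i k := fun i k n =>
    ⟨n.1, n.2.1, n.2.2.1.trans (V1 (n.1.trans (n.2.1.trans n.2.2.1))), n.2.2.2⟩
  have hV0 := G.hV
  refine ⟨fun i k a1 a2 a3 gi gk => ?_, fun i k y n a1 a2 => ?_, fun i k n => ?_,
    fun p q a1 a2 a3 a4 => hex p q a1 a2 a3
      ((mul_le_mul_of_nonneg_right hΛ (by have := H.R0; have := h.v0; positivity)).trans a4),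
    fun i k n => ?_⟩
  · have kV := a3.trans (V1 (by omega))
    have b1 := G.e1 i k (sl i a1) a2 kV gi gk
    have η0 := H.μ0.le.trans (H.μη (sl i a1) (h.s_le_C (by have := h.i3; omega)))
    have b2 := mul_le_mul_of_nonneg_left (H.ln.ηa (h.sm a2)) W0
    obtain ⟨u1, u2⟩ := H.Ug51 (sl i a1) le_rfl
    obtain ⟨u3, u4⟩ := H.Ug51 (sl i a1) (h.sm a2)
    have b3 := mul_le_mul_of_nonneg_left (mul_le_mul_of_nonneg_right (pow_le_pow_left₀ u1 u2 2)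
      (abs_nonneg (L0.Gd (lb M S m a (2 * S.C)) (sb M m a (i + 1))))) W0
    have b4 := mul_le_mul_of_nonneg_left (mul_le_mul_of_nonneg_right (pow_le_pow_left₀ u3 u4 2)
      (abs_nonneg (L0.Gd (lb M S m a (2 * S.C)) (sb M m a (k + 1))))) W0
    have c1 : 0 ≤ X2 * (sb M m a (k + 1) - sb M m a (i + 1)) := mul_nonneg H.X20 (G89.ds_nn H.A a2)
    have c2 : 0 ≤ ∑ y ∈ Ioo i k, M.dz m a y * E61.u4 M m a y ^ 2 := sum_nonneg fun y _ =>
      mul_nonneg ((E61.lg H.A).dz_nonneg y) (sq_nonneg _)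
    have c3 : 0 ≤ uw S Lg (M.s i) ^ 2 * (|L0.Gd (lb M S m a (2 * S.C)) (sb M m a (i + 1))| +
      |L0.Gd (lb M S m a (2 * S.C)) (sb M m a (k + 1))|) := by positivity
    refine le_trans ?_ (mul_le_mul_of_nonneg_right LW (by positivity))
    unfold gd G89.ds at b1
    linarith [mul_nonneg W0 c1, mul_nonneg W0 c2, mul_nonneg W0 c3]
  · obtain ⟨u1, u2⟩ := H.Ug51 (sl i n.1) (h.sm a1)
    have d0 := G89.ds_nn H.A n.2.1
    exact (G.u4 U i k y (nx i k n) (sl i n.1) a1 a2).trans (mul_le_mul (by linarith)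
      (add_le_add u2 le_rfl) (by positivity) (by linarith))
  · rcases n.2.1.eq_or_lt with rfl | c
    · rw [sub_self, mul_zero, add_zero]
      linarith [mul_pos h.C0 h.v0]
    · have kV := (nx i k n).2.2.1
      refine (G.lab i k (sl i n.1) c (by omega) n.2.2.2.1 (Or.inl n.2.2.2.2.1) n.2.2.2.2.2).2.trans
        (add_le_add le_rfl (add_le_add le_rfl (mul_le_mul_of_nonneg_right
          (div_le_div_of_nonneg_right (by linarith) Lg0.le) (G89.ds_nn H.A n.2.1))))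
  · have b1 := G.sh U i k (nx i k n) (by linarith [h.sm n.1])
    rw [H.mf_eq] at b1
    exact b1.trans (le_mul_of_one_le_left (pow_pos (h.ms_pos (h.s_nn i)) 3).le (by linarith))

end

variable (G : NG E W S M m a (2 * S.C) l Lg X2 (ℓ / E) η Gn V0) (W1 : 1 ≤ W) (WE : L ^ 2 * W ≤ E)
include G W1 WE

/-- the net reaches the top of the thick zone -/
theorem top51 (O : M.del m a (S.J - 1) ≤ L * (S.θ + γ + X ^ ((1 : ℝ) / 3))) {V : ℕ}
    (h1 : l ≤ M.s V) (hV : M.s V + ℓ / 5 ≤ tu) : V ≤ V0 := by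
  have h := H.cl
  have C0 := h.C0
  have E0 : 0 < E := by linarith [H.E1]
  have Lg0 : 0 < Lg := E0.trans_le H.ELg51
  have ℓ0 := H.ℓ0
  have L1 := H.L1
  have R0 := H.R0
  have θ0 := h.θ0
  have g0 := H.γ051
  have j0 := H.j051
  have v0 := h.v0
  obtain ⟨i, -, i1, -, i2⟩ := H.low51 G W1 WE
  have s0 : l ≤ M.s V0 := by linarith [h.sm i2, H.l0']
  have hV0 := G.hV
  by_contra c
  have a1 := h.leg.zm (not_le.1 c).le
  have a2 := (H.far51 h1 hV).2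
  have a3 := H.half51 W1 WE (sub_nonneg.2 (h.leg.zm (show V0 ≤ S.J - 1 by omega))) G.top
    (H.ds51 (H.jl51 s0) (by omega) (by omega) (H.loc51 s0 (by omega)).1 O)
  set Z := S.θ + j + γ + X ^ ((1 : ℝ) / 3) + S.v
  have a4 : S.C * (L * (S.θ + γ + X ^ ((1 : ℝ) / 3)) + 4 * S.C ^ 3 * (X ^ ((1 : ℝ) / 3) + S.v)) / Lg ≤
      8 * S.C * L * (ℓ / E) := by
    have b1 : L * (S.θ + γ + X ^ ((1 : ℝ) / 3)) ≤ L * Z :=
      mul_le_mul_of_nonneg_left (by linarith) (by linarith)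
    have b2 : 4 * S.C ^ 3 * (X ^ ((1 : ℝ) / 3) + S.v) ≤ L * Z :=
      mul_le_mul (H.KL 3 (by norm_num)) (by linarith) (by positivity) (by linarith)
    have b3 : Z ≤ 4 * (Lg * (ℓ / E)) := by
      rw [← mul_div_assoc, ← mul_div_assoc, le_div_iff₀' E0]; exact H.small51
    rw [div_le_iff₀ Lg0]
    linarith [mul_le_mul_of_nonneg_left (add_le_add b1 b2) C0.le,
      mul_le_mul_of_nonneg_left b3 (show 0 ≤ 2 * S.C * L by positivity)]
  have τ0 : 0 < ℓ / E := by positivity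
  have a5 := mul_le_mul_of_nonneg_left a4 (show 0 ≤ 2 * W by linarith)
  have a6 : 1000 * S.C ^ 3 * L * W * (ℓ / E) ≤ ℓ := by
    have b1 : _ ≤ E := (mul_le_mul_of_nonneg_right (mul_le_mul_of_nonneg_right
      (H.KL (c := 1000) 3 (by norm_num)) (zero_le_one.trans L1)) (zero_le_one.trans W1)).trans
      (by rwa [← sq])
    exact (mul_le_mul_of_nonneg_right b1 τ0.le).trans_eq (by field_simp)
  have a7 : W * (ℓ / E) ≤ S.C * L * (W * (ℓ / E)) :=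
    le_mul_of_one_le_left (by positivity) (one_le_mul_of_one_le_of_one_le h.C1 L1)
  have a8 := mul_le_mul_of_nonneg_left (show M.z (S.J - 1) - M.z V ≤
    18 * (S.C * L * (W * (ℓ / E))) by linarith) (show 0 ≤ 10 * S.C ^ 2 by positivity)
  linarith

/-- long label windows contain good nodes -/
theorem ex51 {U V p q : ℕ} (hU : 5 / 4 * l ≤ M.s U) (hV : M.s V + ℓ / 5 ≤ tu) (V1 : V ≤ V0)
    (h1 : U ≤ p) (h2 : p ≤ q) (h3 : q ≤ V)
    (hw : L * W * (X ^ ((1 : ℝ) / 3) / Lg + S.v) ≤ M.z q - M.z p) : ∃ i, p ≤ i ∧ i ≤ q ∧ Gn i := by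
  have h := H.cl
  have C0 := h.C0
  have v0 := h.v0
  have R0 := H.R0
  have l0 := H.l0'
  have E1 := H.E1
  have Lg0 : 0 < Lg := by linarith [H.ELg51]
  have hV0 := G.hV
  by_contra c
  obtain ⟨i, k, i2, k4, si, n⟩ := H.gap51 G W1 WE hU h1 h2 (h3.trans V1) c
  have k2 := n.2.2.1
  have sl : l ≤ M.s i := by linarith
  have a1 := (G.lab i k sl (by omega) (by omega) n.2.2.2.1 (Or.inl n.2.2.2.2.1) n.2.2.2.2.2).1
  have d0 := G89.ds_nn H.A (show i ≤ k by omega)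
  have a2 : G89.ds M m a i k ≤ √S.θ := by
    have b1 := G.sh i i k n si
    rw [H.mf_eq] at b1
    have b2 := ((le_mul_of_one_le_left (by positivity) E1).trans b1).trans
      (pow_le_pow_left₀ (h.ms_pos (h.s_nn i)).le (h.ms1 _) 3)
    exact le_sqrt_of_sq_le (le_of_pow_le_pow_left₀ three_ne_zero h.θ0.le (by rwa [← pow_mul]))
  have a3 : M.z q - M.z p ≤ M.z (k - 1) - M.z i := by
    linarith [h.leg.zm (show q ≤ k - 1 by omega), h.leg.zm i2]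
  rcases le_total √S.θ (X ^ ((1 : ℝ) / 3)) with c | c
  · have W0 : 0 < W := by linarith
    have x0 : 0 < W * (X ^ ((1 : ℝ) / 3) / Lg) := by positivity
    have x1 := mul_pos W0 v0
    have b1 := mul_le_mul_of_nonneg_left (a2.trans c) (show 0 ≤ W / Lg by positivity)
    have e : W / Lg * X ^ ((1 : ℝ) / 3) = W * (X ^ ((1 : ℝ) / 3) / Lg) := by ring
    linarith [mul_le_mul_of_nonneg_right H.L1 (add_pos x0 x1).le]
  have b0 : W / Lg ≤ 1 := div_le_one_of_le₀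
    (by simpa using (H.WLg51 W1 WE (c := 1) 0 (by norm_num)).2) Lg0.le
  have b1 := (a1.trans (mul_le_of_le_one_left d0 b0)).trans a2
  have b2 := (H.far51 (sl.trans (h.sm (by omega))) hV).2
  have b3 : 20 * S.C ^ 2 * √S.θ ≤ ℓ := H.dv (H.KE 2 (by norm_num)) (sqrt_nonneg _) H.lt.ℓ1
  have b4 : 2 * √S.θ ≤ M.z (S.J - 1) - M.z V :=
    le_of_mul_le_mul_left (a := 10 * S.C ^ 2) (by linarith) (by positivity)
  have b5 := (H.loc51 (sl.trans (h.sm (show i ≤ k by omega))) (show k < S.J by omega)).2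
    (by linarith [h.leg.zm (show i ≤ V by omega)])
  linarith [H.win51 G W1 WE sl (by omega) n
    (by linarith [mul_pos (pow_pos C0 3) (add_pos R0 v0)])]

theorem nt51 (O : M.del m a (S.J - 1) ≤ L * (S.θ + γ + X ^ ((1 : ℝ) / 3))) {Λ : ℝ}
    (hΛ : L * W ≤ Λ) {U V : ℕ} (hU : 5 / 4 * l ≤ M.s U) (hV : M.s V + ℓ / 5 ≤ tu) :
    Nt E Λ S M m a Lg X X2 η Gn U V :=
  have V1 : U ≤ V → V ≤ V0 := fun b => H.top51 G W1 WE O (by linarith [H.cl.sm b, H.l0']) hV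
  H.nt52 G W1 hΛ hU V1 fun _ _ a1 a2 a3 => H.ex51 G W1 WE hU hV (V1 (by omega)) a1 a2 a3

end Cx

/-- the top sums at general levels (`SzT9` is the case `l0 = l`, `V = cr l * l`) -/
def SzTG : Prop := CL fun E Λ S M m a => ∀ G1 u1 u2 j γ Lc ηc τ l0 l V X Xp Vt Lg Lp X2 X3 G0 η N,
  CeiG S M G1 → LN E S M l0 l V X Lg X2 X3 G0 η →
  LP E S M Xp Vt Lg Lp X2 X3 G0 G1 u1 u2 j γ Lc ηc τ η N →
  Ap S M m a l0 X Xp Vt u1 j → Sz9.TpS Λ S M m a X2 X3 G0 η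


/-- the top sums under `Hy` -/
def SzTH : Prop := CL fun E Λ S M m a =>
  ∀ G1 u1 u2 j γ Lc ηc τ l0 l X Xp Vt Lg Lp X2 X3 X4 G0 η N g t1 tu ℓ En p0,
  Hy E S M m a G1 u1 u2 j γ Lc ηc τ l0 l X Xp Vt Lg Lp X2 X3 X4 G0 η N g t1 tu ℓ En p0 →
  Sz9.TpS Λ S M m a X2 X3 G0 η

theorem szTH_of (h : SzTG) : SzTH :=
  CL.mono h fun _ _ _ _ _ _ _ _ _ _ H _ _ _ _ _ _ _ _ _ _ _ _ _ _ _ _ _ _ _ _ _ _ _ _ _ _ _ Y =>
    H _ _ _ _ _ _ _ _ _ _ _ _ _ _ _ _ _ _ _ _ _ Y.ce Y.ln Y.lp Y.ap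

/-- glue with the context `Cx`: margin `L ^ 200 ≤ E`, any output loss above `L ^ 40` -/
theorem cx51 {P R : CP} (H : CL P)
    (h : ∀ E L Λ S M m a, L ^ 200 ≤ E → L ^ 40 ≤ Λ → 1 ≤ L →
      (∀ G1 u1 u2 j γ Lc ηc τ l0 l X Xp Vt Lg Lp X2 X3 X4 G0 η N g t1 tu ℓ En p0,
        Hy E S M m a G1 u1 u2 j γ Lc ηc τ l0 l X Xp Vt Lg Lp X2 X3 X4 G0 η N g t1 tu ℓ En p0 →
        Cx E L S M m a G1 u1 u2 j γ Lc ηc τ l0 l X Xp Vt Lg Lp X2 X3 X4 G0 η N g t1 tu ℓ En p0) →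
      P E L S M m a → R E Λ S M m a) : CL R := by
  refine CL.mono (P := fun E Λ S M m a => ∀ Λ', Λ ≤ Λ' → R E Λ' S M m a) ?_
    fun _ _ _ _ _ _ _ _ _ _ H => H _ le_rfl
  refine H.glue' (fun _ _ _ _ _ _ _ _ h2 H Λ' h3 => H Λ' (h2.trans h3)) 2
    (i := 1) le_rfl 200 40 fun C A ε η hε hη => ⟨10 ^ 9 * C ^ 13,
      fun S M m a R hA h1 h2 c I q Λ hΛ => ?_⟩
  obtain rfl := R.hC
  rw [pow_one]
  have n1 : 1 ≤ S.n := c.n1
  have n0 := c.N0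
  have LE : ((S.n : ℝ) ^ η) ^ 200 ≤ (S.n : ℝ) ^ ε := by
    rw [Pre29.rp_pow]; exact Pre29.rp_le n1 (by push_cast at h1 ⊢; linarith)
  refine h _ _ _ S M m a LE hΛ R.Λ1 (fun _ _ _ _ _ _ _ _ _ _ _ _ _ _ _ _ _ _ _ _ _ _ _ _ _ _ _ Y =>
    ⟨Y, c, I, R.K_le, (pow_le_pow_right₀ R.Λ1 (by norm_num)).trans LE, R.log_le, R.C_log, ?_⟩) q
  have b1 : S.v * (S.n : ℝ) ^ 2 ≤ S.C := le_trans (mul_le_mul_of_nonneg_left
    (pow_le_pow_right₀ (by exact_mod_cast n1) (R.hA ▸ R.A2)) c.v0.le) c.v2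
  rwa [one_div_pow, mul_one_div, le_div_iff₀ (by positivity)]

/-- crude location and top sums under `Hy` -/
def NiS : Prop := CL fun E Λ S M m a =>
  ∀ G1 u1 u2 j γ Lc ηc τ l0 l X Xp Vt Lg Lp X2 X3 X4 G0 η N g t1 tu ℓ En p0,
  Hy E S M m a G1 u1 u2 j γ Lc ηc τ l0 l X Xp Vt Lg Lp X2 X3 X4 G0 η N g t1 tu ℓ En p0 →
  ∃ W3, Nd22.NI Λ S M m a l0 (X ^ ((1 : ℝ) / 3)) X2 G0 W3 ∧ W3 ≤ Λ * η S.C

theorem niS_of' (hT : SzTH) : NiS :=
  cx51 hT fun _ _ _ _ _ _ _ _ hΛ L1 c q _ _ _ _ _ _ _ _ _ _ _ _ _ _ _ _ _ _ _ _ _ _ _ _ _ _ _ Y =>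
    ⟨_, (c _ _ _ _ _ _ _ _ _ _ _ _ _ _ _ _ _ _ _ _ _ _ _ _ _ _ _ Y).ni51
      (q _ _ _ _ _ _ _ _ _ _ _ _ _ _ _ _ _ _ _ _ _ _ _ _ _ _ _ Y)
      ((pow_le_pow_right₀ L1 (by norm_num)).trans hΛ)⟩

theorem niS_of (hT : SzTG) : NiS := niS_of' (szTH_of hT)

/-- the net under `Hy`, at a loss `W ≤ Λ` -/
def NgH : Prop := CL fun E Λ S M m a =>
  ∀ G1 u1 u2 j γ Lc ηc τ l0 l X Xp Vt Lg Lp X2 X3 X4 G0 η N g t1 tu ℓ En p0,
  Hy E S M m a G1 u1 u2 j γ Lc ηc τ l0 l X Xp Vt Lg Lp X2 X3 X4 G0 η N g t1 tu ℓ En p0 →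
  At S M m a (2 * S.C) ∧ ∃ (W : ℝ) (Gn : ℕ → Prop) (V0 : ℕ), 1 ≤ W ∧ W ≤ Λ ∧
    NG E W S M m a (2 * S.C) l Lg X2 (ℓ / E) η Gn V0 ∧
    (∃ i, Gn i ∧ 9 / 8 * l ≤ M.s i ∧ M.s i < 5 / 4 * l ∧ i ≤ V0) ∧
    (∀ V, l ≤ M.s V → M.s V + ℓ / 5 ≤ tu → V ≤ V0) ∧
    ∀ U V, 5 / 4 * l ≤ M.s U → M.s V + ℓ / 5 ≤ tu → Nt E Λ S M m a Lg X X2 η Gn U V

theorem ngH_of (hT : SzTH) (hN : NdS) : NgH := by
  refine cx51 ((CL.and hN hT).and Gd65.gdT) fun E L Λ S M m a LE hΛ L1 c ⟨⟨q1, q2⟩, q3⟩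
    G1 u1 u2 j γ Lc ηc τ l0 l X Xp Vt Lg Lp X2 X3 X4 G0 η N g t1 tu ℓ En p0 Y => ?_
  have H := c _ _ _ _ _ _ _ _ _ _ _ _ _ _ _ _ _ _ _ _ _ _ _ _ _ _ _ Y
  have O := (q3 l0 X Xp Vt u1 γ j _ H.A le_rfl Y.ln.l0s (Y.ln.l0l.trans H.l1) Y.ln.X0 Y.ln.X1
    Y.lp.γ0 Y.lp.γ1 Y.ap).1
  obtain ⟨n1, n2⟩ := H.ni51 (q2 _ _ _ _ _ _ _ _ _ _ _ _ _ _ _ _ _ _ _ _ _ _ _ _ _ _ _ Y) le_rfl
  obtain ⟨Gn, V0, G⟩ := q1 G1 l0 l _ X Lg X2 X3 G0 η _ _ _ _ _ Y.ce Y.ln Y.lp.rev Y.ap.all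
    (le_trans (by simpa using H.dv H.E1 H.R0.le Y.lt.lX)
      (le_mul_of_one_le_left H.l0'.le (Cx.cr1 S l)))
    (by rwa [← pow_mul]) n1 n2 H.A le_rfl (H.tau51 O)
  rw [max_eq_left Y.lt.l2, ← pow_mul, ← pow_succ'] at G
  have J0 := H.cl.j0_lt
  have i2 := H.cl.i2
  have W1 := one_le_pow₀ (n := 2 * 16 + 1) L1
  have WE : L ^ 2 * L ^ (2 * 16 + 1) ≤ E := by
    rw [← pow_add]; exact (pow_le_pow_right₀ L1 (by norm_num)).trans LE
  have O1 := (le_abs_self _).trans (O (S.J - 1) (by omega) (by omega)).1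
  exact ⟨H.A, _, Gn, V0, W1, (pow_le_pow_right₀ L1 (by norm_num)).trans hΛ, G, H.low51 G W1 WE,
    fun V => H.top51 G W1 WE O1, fun U V => H.nt51 G W1 WE O1
      (by rw [← pow_succ']; exact (pow_le_pow_right₀ L1 (by norm_num)).trans hΛ)⟩

/-- **(NdT)** -/
theorem ndT_of' (hT : SzTH) (hN : NdS) : NdT :=
  CL.mono (ngH_of hT hN)
    fun _ _ _ _ _ _ _ _ _ _ H _ _ _ _ _ _ _ _ _ _ _ _ _ _ _ _ _ _ _ _ _ _ _ _ _ _ _ Y =>
    let ⟨_, _, Gn, _, _, _, _, _, _, h⟩ := H _ _ _ _ _ _ _ _ _ _ _ _ _ _ _ _ _ _ _ _ _ _ _ _ _ _ _ Y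
    ⟨Gn, h⟩

theorem ndT_of (hT : SzTG) (hN : NdS) : NdT := ndT_of' (szTH_of hT) hN

end Crest.Agent.T156.Alt.L63

end
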