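import Crest.Agent.T156.SrNB_66

-- ▼ part T156/NxA_43
section

/-!
# Row 156, R1: the number `N` of the kit (helper43)

The lines `N1`–`N4`, `a3`, `a4` of `NX` follow from lines of `NR`, up to one window of masses.
-/

set_option autoImplicit false
set_option linter.all false

noncomputable section

namespace Crest.Agent.T156.Alt

open Real Set

/-- the lines on `N`; `d5 = δ n5` -/
structure NL43 (ms P : ℝ → ℝ) (θ l l0 T Pt u1 d5 N : ℝ) : Prop where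
  n1 : l ^ 2 ≤ N
  n2 : ∀ x, l0 ≤ x → x ≤ T → x * P x ≤ N ^ 2
  n3 : Pt ≤ N ^ 2
  n4 : u1 ≤ N
  a3 : θ * N * l ^ 3 ≤ d5
  a4 : ∀ u, l0 ≤ u → u ≤ T → ms u * P u * N ≤ d5 * u

namespace Reg

variable {β c0 C0 : ℝ} {A : ℕ} {c η K : ℝ} {p : Pm} (H : Reg β c0 C0 A c η K p) {σ E ε Φ : ℝ}
include H

/-- `ms u / u ≤ θ / ye` above `r` -/
theorem ms_div43 (M : p.MemG σ) {u : ℝ} (hu : p.r ≤ u) : p.msG σ u * p.ye ≤ p.muG σ * u := by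
  have a1 := Tc_le hu
  have a2 := Gr29.gS_mono (H.sgG_pos M).le (H.Tc_le_ye u)
  have a3 := (gS_pos (H.sgG_pos M) (H.Tc0 u)).le
  have a4 := mul_le_mul a1 a2 a3 ((H.Tc0 u).le.trans a1)
  have a5 := mul_le_mul_of_nonneg_left a4 (mul_pos H.κ0 H.ye0).le
  rw [Pm.msG_eq, Pm.muG]
  linarith

/-- the three phases in exponents -/
theorem lg_ph43 (hη : η ≤ ε) (hε : 1000 * ε ≤ c) (M : p.MemG σ) (E1 : 1 ≤ E)
    (E2 : E ≤ (p.n : ℝ) ^ ε) (Φ0 : 0 < Φ) (hΦ : Φ ≤ (p.n : ℝ) ^ ε * p.PhG E σ) :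
    logb p.n Φ ≤ 0 ∧
    (logb p.n (p.muG σ) + 3 * c + 3 / 2 * logb p.n Φ + 2 * ε ≤ 5 * logb p.n p.s - 5 / 6 ∨
      (2 / 3 * logb p.n Φ ≤ logb p.n p.s - 1 / 6 ∧
        (logb p.n Φ + ε ≤ 2 * logb p.n p.s - 1 / 3 ∨
          (-(4 * c) ≤ logb p.n (p.muG σ) + 1 / 3 ∧ logb p.n (p.muG σ) + 1 / 3 ≤ ε)))) := by
  obtain ⟨u1, u2, u3⟩ := H.lg_muG66 M
  obtain ⟨s1, s2⟩ := H.lg_s
  obtain ⟨x1, x2⟩ := H.lg_sgG M
  have r1 := H.lg_r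
  have c0 := H.c_pos
  have c1 := H.c_le
  have η0 := H.η_pos
  have ph := H.lg_Phi hη hε M E1 E2 Φ0 hΦ
  refine ⟨by
    rcases ph with h | h | ⟨h, h', h''⟩ | h | ⟨h, h'⟩ | h | h | ⟨h, h', h''⟩ | ⟨h, h'⟩ | h | ⟨h, h'⟩ <;>
      linarith, ?_⟩
  rcases le_total (logb p.n (p.muG σ) + 1 / 3) (-(4 * c)) with k | k
  · left
    rcases ph with h | h | ⟨h, h', h''⟩ | h | ⟨h, h'⟩ | h | h | ⟨h, h', h''⟩ | ⟨h, h'⟩ | h | ⟨h, h'⟩ <;>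
      linarith
  · right
    rcases ph with h | h | ⟨h, h', h''⟩ | h | ⟨h, h'⟩ | h | h | ⟨h, h', h''⟩ | ⟨h, h'⟩ | h | ⟨h, h'⟩ <;>
      first
        | exact ⟨by linarith, .inl (by linarith)⟩
        | exact ⟨by linarith, .inr ⟨k, by linarith⟩⟩

/-- **the number `N`** -/
theorem nx43 (hη : η ≤ ε) (hε : 1000 * ε ≤ c) (M : p.MemG σ) (E1 : 1 ≤ E)
    (E2 : E ≤ (p.n : ℝ) ^ ε) (Φ0 : 0 < Φ) (hΦ : Φ ≤ (p.n : ℝ) ^ ε * p.PhG E σ)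
    {δ l l0 T L Pt u1 : ℝ} {P : ℝ → ℝ} (δ0 : (p.n : ℝ) ^ (-ε) ≤ δ) (δ1 : δ ≤ 1)
    (hT : T ≤ (p.n : ℝ) ^ ε) (l3 : l ^ 3 = Φ) (r0 : p.r ≤ l0) (l0l : l0 ≤ l)
    (P0 : ∀ t, 0 ≤ P t ∧ P t ≤ Φ) (L1 : 1 ≤ L) (h1 : u1 ≤ Pt) (h2 : Pt ≤ Φ)
    (b : ∀ t, l0 ≤ t → t ≤ T → p.msG σ t * P t * max t l ^ 3 / t ^ 4 ≤
      δ ^ 2 * ((p.n : ℝ) ^ (-(2 : ℝ) / 3) * p.s ^ 4))
    (c' : p.muG σ * L * Pt ≤ δ ^ 2 * ((p.n : ℝ) ^ (-(2 : ℝ) / 3) * p.s ^ 4))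
    (i : ∀ t, l0 ≤ t → t ≤ T → p.muG σ * L * (t * P t) ≤
      δ ^ 2 * ((p.n : ℝ) ^ (-(2 : ℝ) / 3) * p.s ^ 4))
    (l5 : p.muG σ * l ^ 5 ≤ δ * ((p.n : ℝ) ^ (-(5 : ℝ) / 6) * p.s ^ 5))
    (n' : p.muG σ * Φ ^ 2 ≤ L * p.s ^ 6 / p.n)
    (win : p.κ ^ 4 ≤ p.muG σ * (p.n : ℝ) ^ ((1 : ℝ) / 3) →
      p.muG σ * (p.n : ℝ) ^ ((1 : ℝ) / 3) ≤ (p.n : ℝ) ^ ε →
      Pt ≤ (p.s * (p.n : ℝ) ^ (-(1 : ℝ) / 6) / δ) ^ 2 ∧
        ∀ x, l ≤ x → x ≤ T → x * P x ≤ (p.s * (p.n : ℝ) ^ (-(1 : ℝ) / 6) / δ) ^ 2) :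
    ∃ N, 0 < N ∧ NL43 (p.msG σ) P (p.muG σ) l l0 T Pt u1
      (δ * ((p.n : ℝ) ^ (-(5 : ℝ) / 6) * p.s ^ 5)) N := by
  have a0 := H.N0
  have a1 := H.s0
  have a2 := H.muG_pos M
  have a3 := H.ye0
  have a4 := H.κ0
  have η0 := H.η_pos
  have d0 : 0 < δ := (H.rp0 _).trans_le δ0
  have d1 := H.lg_mono (H.rp0 _) δ0
  have d2 := H.lg_np d0 δ1
  rw [H.lg_rp] at d1
  have u0 : 0 < l0 := H.r0.trans_le r0
  have l0' : 0 < l := u0.trans_le l0l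
  have L0 : 0 < L := by linarith
  have e3 : logb p.n Φ = 3 * logb p.n l := by rw [← l3]; lg_norm
  have T1 : 1 ≤ (p.n : ℝ) ^ ε := E1.trans E2
  obtain ⟨p0, ph⟩ := H.lg_ph43 hη hε M E1 E2 Φ0 hΦ
  have Φ1 : Φ ≤ 1 := H.le_of_lg Φ0 one_pos (by rwa [logb_one])
  have xP : ∀ x, l0 ≤ x → x ≤ T → x * P x ≤ (p.n : ℝ) ^ ε * Φ := fun x hx hx' =>
    mul_le_mul (hx'.trans hT) (P0 x).2 (P0 x).1 (by positivity)
  have PΦ : Pt ≤ (p.n : ℝ) ^ ε * Φ := h2.trans (le_mul_of_one_le_left Φ0.le T1)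
  have n4 : ∀ N : ℝ, 0 < N → Pt ≤ N ^ 2 → u1 ≤ N := fun N h0 h => by
    rcases le_total N 1 with k | k
    · nlinarith
    · linarith
  rcases ph with ph | ⟨p1, ph⟩
  · have k : p.muG σ * √((p.n : ℝ) ^ ε * Φ) * Φ ≤
        δ * ((p.n : ℝ) ^ (-(5 : ℝ) / 6) * p.s ^ 5) * p.ye := by
      refine H.le_of_lg (by positivity) (by positivity) ?_
      lg_norm
      rw [H.lg_n, H.lg_ye]
      linarith
    have sq : √((p.n : ℝ) ^ ε * Φ) ^ 2 = (p.n : ℝ) ^ ε * Φ := sq_sqrt (by positivity)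
    have N0 : 0 < √((p.n : ℝ) ^ ε * Φ) := by positivity
    refine ⟨_, N0, ?_, fun x hx hx' => (xP x hx hx').trans sq.ge, PΦ.trans sq.ge,
      n4 _ N0 (PΦ.trans sq.ge), ?_,
      fun u hu hu' => ?_⟩
    · refine H.le_of_lg (by positivity) N0 ?_
      lg_norm
      rw [H.lg_n]
      linarith
    · rw [l3]
      exact k.trans (mul_le_of_le_one_right (by positivity) H.ye1)
    · have m1 := H.ms_div43 M (r0.trans hu)
      have m2 := (H.msG_pos M u).le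
      have u' : 0 < u := u0.trans_le hu
      refine le_of_mul_le_mul_right ?_ a3
      calc _ = p.msG σ u * p.ye * (P u * √((p.n : ℝ) ^ ε * Φ)) := by ring
        _ ≤ p.muG σ * u * (Φ * √((p.n : ℝ) ^ ε * Φ)) :=
          mul_le_mul m1 (mul_le_mul_of_nonneg_right (P0 u).2 N0.le)
            (mul_nonneg (P0 u).1 N0.le) (by positivity)
        _ = p.muG σ * √((p.n : ℝ) ^ ε * Φ) * Φ * u := by ring
        _ ≤ _ * u := mul_le_mul_of_nonneg_right k u'.le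
        _ = _ := by ring
  · set A' := p.s * (p.n : ℝ) ^ (-(1 : ℝ) / 6) / δ with hA
    set B' := √(δ ^ 2 * ((p.n : ℝ) ^ (-(2 : ℝ) / 3) * p.s ^ 4) / (p.muG σ * L)) with hB
    have A0 : 0 < A' := by positivity
    have B0 : 0 < B' := by positivity
    have B2 : B' ^ 2 = δ ^ 2 * ((p.n : ℝ) ^ (-(2 : ℝ) / 3) * p.s ^ 4) / (p.muG σ * L) :=
      sq_sqrt (by positivity)
    have hw : Pt ≤ A' ^ 2 ∧ ∀ x, l ≤ x → x ≤ T → x * P x ≤ A' ^ 2 := by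
      rcases ph with ph | ⟨q1, q2⟩
      · have k : (p.n : ℝ) ^ ε * Φ ≤ A' ^ 2 := by
          refine H.le_of_lg (by positivity) (by positivity) ?_
          rw [hA]
          lg_norm
          rw [H.lg_n]
          linarith
        exact ⟨PΦ.trans k, fun x hx hx' => (xP x (l0l.trans hx) hx').trans k⟩
      · refine win ?_ ?_ <;> refine H.le_of_lg (by positivity) (by positivity) ?_ <;> lg_norm <;>
          simp only [H.lg_n, H.lg_κ] <;> linarith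
    have mn : ∀ y : ℝ, y ≤ A' ^ 2 → p.muG σ * L * y ≤
        δ ^ 2 * ((p.n : ℝ) ^ (-(2 : ℝ) / 3) * p.s ^ 4) → y ≤ max (l ^ 2) (min A' B') ^ 2 :=
      fun y k1 k2 => by
        have k3 : y ≤ B' ^ 2 := by
          rw [B2, le_div_iff₀ (by positivity)]
          linarith
        refine le_trans ?_ (pow_le_pow_left₀ (lt_min A0 B0).le (le_max_right _ _) 2)
        rcases min_choice A' B' with e | e <;> rwa [e]
    have N0 : 0 < max (l ^ 2) (min A' B') := (pow_pos l0' 2).trans_le (le_max_left _ _)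
    have NA : max (l ^ 2) (min A' B') ≤ A' := max_le (by
      refine H.le_of_lg (by positivity) A0 ?_
      rw [hA]
      lg_norm
      rw [H.lg_n]
      linarith) (min_le_left _ _)
    refine ⟨_, N0, le_max_left _ _, fun x hx hx' => ?_,
      mn _ hw.1 c', n4 _ N0 (mn _ hw.1 c'), ?_, fun u hu hu' => ?_⟩
    · rcases le_total l x with k | k
      · exact mn _ (hw.2 x k hx') (i x hx hx')
      · refine (mul_le_mul k (P0 x).2 (P0 x).1 l0'.le).trans (le_trans (le_of_eq ?_)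
          (pow_le_pow_left₀ (sq_nonneg l) (le_max_left _ _) 2))
        rw [← l3]
        ring
    · rcases max_choice (l ^ 2) (min A' B') with e | e <;> rw [e]
      · exact le_trans (le_of_eq (by ring)) l5
      · refine (mul_le_mul_of_nonneg_right (mul_le_mul_of_nonneg_left (min_le_right _ _) a2.le)
          (by positivity)).trans (H.le_of_lg (by positivity) (by positivity) ?_)
        have k := H.lg_mono (by positivity) n'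
        rw [hB, l3]
        revert k
        lg_norm
        rw [H.lg_n]
        intro k
        linarith
    · have u' : 0 < u := u0.trans_le hu
      have m2 := mul_nonneg (H.msG_pos M u).le (P0 u).1
      have k1 := b u hu hu'
      rw [div_le_iff₀ (by positivity)] at k1
      have k2 := mul_le_mul_of_nonneg_left
        (pow_le_pow_left₀ u'.le (le_max_left u l) 3) m2
      have k3 : p.msG σ u * P u ≤ δ ^ 2 * ((p.n : ℝ) ^ (-(2 : ℝ) / 3) * p.s ^ 4) * u :=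
        le_of_mul_le_mul_right (by linarith) (pow_pos u' 3)
      refine (mul_le_mul k3 NA N0.le (by positivity)).trans (le_of_eq ?_)
      have e : (p.n : ℝ) ^ (-(5 : ℝ) / 6) =
          (p.n : ℝ) ^ (-(2 : ℝ) / 3) * (p.n : ℝ) ^ (-(1 : ℝ) / 6) := by
        rw [← rpow_add a0]
        norm_num
      rw [hA, e]
      field_simp

end Reg

end Crest.Agent.T156.Alt

end
end

-- ▼ part T156/NxB_43

/-!
# Row 156, R1: the lines of `NX` on `Φ = n^{c/4000} PhG`, `δ = n^{-c/4000}` (helper43)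
-/

set_option autoImplicit false
set_option linter.all false

noncomputable section

namespace Crest.Agent.T156.Alt

open Real Set

namespace Reg

variable {β c0 C0 : ℝ} {A : ℕ} {c η K : ℝ} {p : Pm} (H : Reg β c0 C0 A c η K p) {σ t E : ℝ}
include H

/-- above `θ n^{1/3} = κ⁴` the energy is at most `s² n^{-1/3}` -/
theorem lg_win43 (hη : 10000 * η ≤ c) (M : p.MemG σ) (E1 : 1 ≤ E)
    (E2 : E ≤ (p.n : ℝ) ^ (c / 1000)) (w : -(4 * c) ≤ logb p.n (p.muG σ) + 1 / 3) :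
    logb p.n (p.PhG E σ) ≤ 2 * logb p.n p.s - 1 / 3 + η := by
  have E0 : 0 < E := by linarith
  have a3 := H.lg_nn E1
  have a4 := (H.lg_mono E0 E2).trans_eq (H.lg_rp _)
  obtain ⟨u1, u2, u3⟩ := H.lg_muG66 M
  obtain ⟨s1, s2⟩ := H.lg_s
  obtain ⟨-, -, -, y4⟩ := H.lg_yS M E0
  obtain ⟨-, p4⟩ := H.lg_PhG M E0
  have l1 := H.lg_laG M
  have t1 := H.lg_rtG (σ := σ) E0
  have t3 := min_le_right (logb p.n (p.yG E σ)) 0
  have r1 := H.lg_r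
  have c0 := H.c_pos
  have c1 := H.c_le
  have η0 := H.η_pos
  rcases p4 with p4 | p4 | p4 | p4
  · rcases y4 with y4 | y4 | ⟨y4, y5⟩ <;> linarith
  · linarith
  · rcases l1 with ⟨l1, l2⟩ | ⟨l0, l1, l2⟩ | ⟨l0, l1, l2⟩ | ⟨l1, l2⟩ <;> linarith
  · linarith

omit H in
theorem oct_l (o : p.OctR σ t) : p.MemG σ := ⟨o.1, o.2.1.trans o.2.2.2⟩
omit H in
theorem oct_r (o : p.OctR σ t) : p.MemG t := ⟨o.1.trans o.2.1, o.2.2.2⟩

/-- the masses along an octave -/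
theorem lg_oct43 (o : p.OctR σ t) : logb p.n (p.muG σ) ≤ logb p.n (p.muG t) ∧
    logb p.n (p.muG t) ≤ logb p.n (p.muG σ) + η := by
  have m1 := H.muG_pos (oct_l o)
  have m2 := H.muG_pos (oct_r o)
  have a1 := H.muG_oct (H.sgG_pos (oct_r o)) (σ' := σ) le_rfl (by linarith [o.2.1])
  have a2 := H.lg_mono m2 (H.muG_oct (H.sgG_pos (oct_l o)) (σ' := t) one_le_two o.2.2.1)
  rw [logb_mul two_ne_zero m1.ne'] at a2
  exact ⟨H.lg_mono m1 (by linarith), by linarith [H.lg_two66.2]⟩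

/-- the static marks along an octave -/
theorem lg_la43 (o : p.OctR σ t) : 2 * logb p.n (p.laG σ) ≤ 2 * logb p.n (p.laG t) + η ∧
    2 * logb p.n (p.laG t) ≤ 2 * logb p.n (p.laG σ) ∧
    1 / 5 ≤ 2 * logb p.n (p.laG σ) + 1 + logb p.n (p.muG σ) := by
  obtain ⟨a1, a2⟩ := H.lg_oct43 o
  obtain ⟨u1, u2, u3⟩ := H.lg_muG66 (oct_l o)
  obtain ⟨x1, x2⟩ := H.lg_sgG (oct_l o)
  have c0 := H.c_pos
  have c1 := H.c_le
  have η0 := H.η_pos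
  refine ⟨?_, ?_, ?_⟩
  · rcases H.lg_laG (oct_l o) with ⟨l1, l2⟩ | ⟨l0, l1, l2⟩ | ⟨l0, l1, l2⟩ | ⟨l1, l2⟩ <;>
    rcases H.lg_laG (oct_r o) with ⟨k1, k2⟩ | ⟨k0, k1, k2⟩ | ⟨k0, k1, k2⟩ | ⟨k1, k2⟩ <;> linarith
  · rcases H.lg_laG (oct_l o) with ⟨l1, l2⟩ | ⟨l0, l1, l2⟩ | ⟨l0, l1, l2⟩ | ⟨l1, l2⟩ <;>
    rcases H.lg_laG (oct_r o) with ⟨k1, k2⟩ | ⟨k0, k1, k2⟩ | ⟨k0, k1, k2⟩ | ⟨k1, k2⟩ <;> linarith
  · rcases H.lg_laG (oct_l o) with ⟨l1, l2⟩ | ⟨l0, l1, l2⟩ | ⟨l0, l1, l2⟩ | ⟨l1, l2⟩ <;>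
    rcases u1 with u1 | u1 <;> linarith

/-- `NX.la`, first half -/
theorem la_Ph43 (hη : 10000 * η ≤ c) (o : p.OctR σ t) (E0 : 0 < E) :
    p.laG σ ^ 2 ≤ (p.n : ℝ) ^ (c / 4000) * p.PhG E t := by
  have a0 := H.laG0 (oct_l o)
  have a1 := H.PhG0 (oct_r o) E0
  have a2 := H.N0
  have b1 := (H.lg_la43 o).1
  have b2 := (H.lg_PhG (oct_r o) E0).1.2.2.1
  have c0 := H.c_pos
  refine H.le_of_lg (by positivity) (by positivity) ?_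
  lg_norm
  rw [H.lg_n]
  linarith

/-- the lines of `NX` on `Λ₀ = n^{c/200} √Pt / la` -/
theorem lam43 (o : p.OctR σ t) {Pt : ℝ} (h1 : p.laG σ ^ 2 ≤ Pt)
    (h2 : Pt ≤ (p.n : ℝ) ^ c * p.s ^ 2 * p.laG σ ^ 2) (hc : c ≤ 1 / 1000) :
    (p.n : ℝ) ^ (c / 200) * (√Pt / p.laG σ) ≤ (p.n : ℝ) ^ ((1 : ℝ) / 18) ∧
    Pt ≤ ((p.n : ℝ) ^ (c / 200) * (√Pt / p.laG σ) * p.laG σ) ^ 2 ∧
    (p.n : ℝ) ^ (c / 200) * (√Pt / p.laG σ) / (p.n * p.muG t) ≤ Pt ∧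
    (p.n : ℝ) ^ (c / 200) ≤ (p.n : ℝ) ^ (c / 200) * (√Pt / p.laG σ) := by
  have a0 := H.laG0 (oct_l o)
  have a1 : 0 < Pt := (pow_pos a0 2).trans_le h1
  have a2 := H.N0
  have a3 := H.s0
  have a4 := H.muG_pos (oct_r o)
  have b1 := H.lg_mono (by positivity) h1
  have b2 := H.lg_mono a1 h2
  have b3 := (H.lg_la43 o).2.2
  have b4 := (H.lg_oct43 o).1
  obtain ⟨s1, s2⟩ := H.lg_s
  have c0 := H.c_pos
  revert b1 b2
  lg_norm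
  rw [H.lg_n]
  intro b1 b2
  refine ⟨?_, ?_, ?_, ?_⟩ <;> refine H.le_of_lg (by positivity) (by positivity) ?_ <;> lg_norm <;>
    rw [H.lg_n] <;> linarith

/-- **the number `N`, no side condition** -/
theorem nx43' (hη : 10000 * η ≤ c) (M : p.MemG t) {Φ δ l l0 T L Pt u1 : ℝ} {P : ℝ → ℝ}
    (hΦ : Φ = (p.n : ℝ) ^ (c / 4000) * p.PhG ((p.n : ℝ) ^ (c / 1000)) t)
    (hδ : δ = (p.n : ℝ) ^ (-(c / 4000)))
    (hT : T ≤ (p.n : ℝ) ^ η) (l3 : l ^ 3 = Φ) (r0 : p.r ≤ l0) (l0l : l0 ≤ l)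
    (P0 : ∀ t, 0 ≤ P t ∧ P t ≤ Φ) (L1 : 1 ≤ L) (h1 : u1 ≤ Pt) (h2 : Pt ≤ Φ)
    (b : ∀ x, l0 ≤ x → x ≤ T → p.msG t x * P x * max x l ^ 3 / x ^ 4 ≤
      δ ^ 2 * ((p.n : ℝ) ^ (-(2 : ℝ) / 3) * p.s ^ 4))
    (c' : p.muG t * L * Pt ≤ δ ^ 2 * ((p.n : ℝ) ^ (-(2 : ℝ) / 3) * p.s ^ 4))
    (i : ∀ x, l0 ≤ x → x ≤ T → p.muG t * L * (x * P x) ≤
      δ ^ 2 * ((p.n : ℝ) ^ (-(2 : ℝ) / 3) * p.s ^ 4))
    (l5 : p.muG t * l ^ 5 ≤ δ * ((p.n : ℝ) ^ (-(5 : ℝ) / 6) * p.s ^ 5))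
    (n' : p.muG t * Φ ^ 2 ≤ L * p.s ^ 6 / p.n) :
    ∃ N, 0 < N ∧ NL43 (p.msG t) P (p.muG t) l l0 T Pt u1
      (δ * ((p.n : ℝ) ^ (-(5 : ℝ) / 6) * p.s ^ 5)) N := by
  have c0 := H.c_pos
  have η0 := H.η_pos
  have a0 := H.N0
  have a1 := H.s0
  have a2 := H.muG_pos M
  have a4 := H.κ0
  have n1 := H.N1.le
  have E1 : 1 ≤ (p.n : ℝ) ^ (c / 1000) := one_le_rpow n1 (by linarith)
  have g0 := H.PhG0 M (H.rp0 (c / 1000))
  have Φ0 : 0 < Φ := by rw [hΦ]; positivity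
  have d0 : 0 < δ := by rw [hδ]; positivity
  refine H.nx43 (ε := c / 1000) (by linarith) (by linarith) M E1 le_rfl Φ0
    (hΦ.trans_le (mul_le_mul_of_nonneg_right (rpow_le_rpow_of_exponent_le n1 (by linarith)) g0.le))
    (hδ ▸ rpow_le_rpow_of_exponent_le n1 (by linarith))
    (hδ ▸ rpow_le_one_of_one_le_of_nonpos n1 (by linarith))
    (hT.trans (rpow_le_rpow_of_exponent_le n1 (by linarith))) l3 r0 l0l P0 L1 h1 h2 b c' i l5 n'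
    fun w _ => ?_
  have w' := H.lg_mono (by positivity) w
  revert w'
  lg_norm
  rw [H.lg_n, H.lg_κ]
  intro w'
  have k0 := H.lg_win43 hη M E1 le_rfl (by linarith)
  have k : (p.n : ℝ) ^ η * Φ ≤ (p.s * (p.n : ℝ) ^ (-(1 : ℝ) / 6) / δ) ^ 2 := by
    refine H.le_of_lg (by positivity) (by positivity) ?_
    rw [hΦ, hδ]
    lg_norm
    rw [H.lg_n]
    linarith
  exact ⟨(h2.trans (le_mul_of_one_le_left Φ0.le (one_le_rpow n1 η0.le))).trans k,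
    fun x _ hx => (mul_le_mul (hx.trans hT) (P0 x).2 (P0 x).1 (by positivity)).trans k⟩

end Reg

end Crest.Agent.T156.Alt

end
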