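import Crest.Agent.T156.PSharp_81

/-!
Row 156 (helper81): text (P), reference numbers of a profile that is LINEAR on `[r, t1)`:
the facts (A), (B), (H) of docs/T156_58.md.
-/

set_option autoImplicit false

namespace Crest.Agent.T156.Pr.Ref81

open MeasureTheory Set Filter
open Crest.Agent.R164.GC Crest.Agent.R339.B Crest.Agent.R339.Var Crest.Agent.T157.Pf
open Crest.Agent.T156.Pp (Dn)
open Crest.Agent.T156.Pp.Ode3 (AP X2)

noncomputable section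

/-- the tilt function is `α t` up to `K t² + δ` on `[r, t1)`, and up to `Λ t` more below `r` -/
structure LinZ (l : List (ℝ × ℝ)) (α Λ r K δ t1 : ℝ) : Prop where
  lo : ∀ t, 0 ≤ t → t < t1 → |lvr 1 l t - α * t| ≤ Λ * t + (K * t ^ 2 + δ)
  hi : ∀ t, r ≤ t → t < t1 → |lvr 1 l t - α * t| ≤ K * t ^ 2 + δ

/-- replicon coefficient -/
def eb (l : List (ℝ × ℝ)) (b t : ℝ) : ℝ := 1 - b * GG l t
/-- marks -/
def hb (l : List (ℝ × ℝ)) (b t : ℝ) : ℝ := t - b * Gam l t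
/-- quadratic coefficient of `e` -/
def k3 (l : List (ℝ × ℝ)) (b α : ℝ) : ℝ := b * (chi l ^ 3 * α - k4 l ^ 2 / 2)
/-- constant part of `e` above `r` -/
def e1 (l : List (ℝ × ℝ)) (b α r : ℝ) : ℝ := eb l b r - k3 l b α * r ^ 2
/-- constant part of `h` above `r` -/
def c0 (l : List (ℝ × ℝ)) (b α r : ℝ) : ℝ := hb l b r - e1 l b α r * r - k3 l b α * r ^ 3 / 3
/-- `χ₁ = E[Φ_xx + x Φ_x²]` -/
def cx (l : List (ℝ × ℝ)) (x t : ℝ) : ℝ := X2 l t + x * Gam l t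
/-- `∫_0^x q² dx` -/
def I2 (l : List (ℝ × ℝ)) (x t : ℝ) : ℝ :=
  x * Gam l t ^ 2 - ∫ s in (0:ℝ)..t, 2 * (lvr 1 l s * (Gam l s * GG l s))

/-- all side conditions -/
structure Ctx (l : List (ℝ × ℝ)) (b α Λ r K δ t1 : ℝ) : Prop where
  ok : Ok l
  lin : LinZ l α Λ r K δ t1
  K1 : 1 ≤ K
  b0 : 0 ≤ b
  bK : b ≤ K
  a0 : 0 ≤ α
  aK : α ≤ K
  L0 : 0 ≤ Λ
  L1 : Λ ≤ 1
  d0 : 0 ≤ δ
  d1 : δ ≤ 1
  r0 : 0 ≤ r
  rt : r ≤ t1
  t1T : t1 ≤ TT l
  t11 : t1 ≤ 1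
  kK : k4 l ^ 2 ≤ K
  gd : ∀ t ∈ Icc 0 (TT l), |NN l t - 2 * lvr 1 l t * AA l t -
    (k4 l ^ 2 * t - 2 * chi l ^ 3 * lvr 1 l t)| ≤ K * t ^ 2 + 30 * (lvr 1 l t * t)

theorem LinZ.mono {l : List (ℝ × ℝ)} {α Λ r K K' δ t1 : ℝ} (h : LinZ l α Λ r K δ t1) (hK : K ≤ K') :
    LinZ l α Λ r K' δ t1 :=
  ⟨fun t a b => (h.lo t a b).trans (by gcongr), fun t a b => (h.hi t a b).trans (by gcongr)⟩

/-- the analytic side conditions hold after enlarging `K` -/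
theorem exists_ctx (T0 K : ℝ) : ∃ K' : ℝ, K ≤ K' ∧ 1 ≤ K' ∧ ∀ (l : List (ℝ × ℝ)) (b α Λ r δ t1 : ℝ),
    Ok l → TT l ≤ T0 → LinZ l α Λ r K δ t1 → 0 ≤ b → b ≤ K → 0 ≤ α → α ≤ K → 0 ≤ Λ → Λ ≤ 1 →
    0 ≤ δ → δ ≤ 1 → 0 ≤ r → r ≤ t1 → t1 ≤ TT l → t1 ≤ 1 → Ctx l b α Λ r K' δ t1 := by
  obtain ⟨K0, h0, hK0⟩ := Sharp81.Gd_near T0
  obtain ⟨K4, -, hK4⟩ := Sharp81.k4_sq_le T0
  have m1 : K ≤ max K (max K0 K4) := le_max_left _ _
  have m2 : K0 ≤ max K (max K0 K4) := (le_max_left _ _).trans (le_max_right _ _)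
  have m3 : K4 ≤ max K (max K0 K4) := (le_max_right _ _).trans (le_max_right _ _)
  refine ⟨_, m1, h0.trans m2, fun l b α Λ r δ t1 ok hT hl b0 bK a0 aK L0 L1 d0 d1 r0 rt tT t11 =>
    ⟨ok, hl.mono m1, h0.trans m2, b0, bK.trans m1, a0, aK.trans m1, L0, L1, d0, d1, r0, rt, tT, t11,
      (hK4 l ok hT).trans m3, fun t ht => (hK0 l ok hT t ht).trans (by gcongr)⟩⟩

theorem amul {a b A B : ℝ} (ha : |a| ≤ A) (hb : |b| ≤ B) : |a * b| ≤ A * B := by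
  rw [abs_mul]; exact mul_le_mul ha hb (abs_nonneg _) ((abs_nonneg _).trans ha)

theorem mvt_cmp {f f' g g' : ℝ → ℝ} {a t E : ℝ} (hat : a ≤ t) (hf : ContinuousOn f (Icc a t))
    (hd : ∀ s ∈ Ico a t, HasDerivWithinAt f (f' s) (Ici s) s) (hg : ∀ s, HasDerivAt g (g' s) s)
    (hb : ∀ s ∈ Ico a t, |f' s - g' s| ≤ E) : |f t - f a - (g t - g a)| ≤ E * (t - a) := by
  have := norm_image_sub_le_of_norm_deriv_right_le_segment (f := fun s => f s - g s)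
    (f' := fun s => f' s - g' s) (C := E) (a := a) (b := t)
    (hf.sub (fun s _ => (hg s).continuousAt.continuousWithinAt))
    (fun s hs => (hd s hs).sub (hg s).hasDerivWithinAt) hb t ⟨hat, le_rfl⟩
  rw [Real.norm_eq_abs] at this
  convert this using 2
  ring


variable {l : List (ℝ × ℝ)} {b α Λ r K δ t1 s t x : ℝ}

namespace Ctx

theorem ap (h : Ctx l b α Λ r K δ t1) : AP l := Pp.Ode3.AP.of_ok h.ok
theorem chi0 (h : Ctx l b α Λ r K δ t1) : 0 < chi l := by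
  rw [Pp.Ode3.chi_eq h.ap]; exact Pp.Ode3.chi_pos h.ap
theorem chi1 (h : Ctx l b α Λ r K δ t1) : chi l ≤ 1 := by
  rw [Pp.Ode3.chi_eq h.ap]; exact Pp.Ode3.chi_le h.ap
theorem chiP (h : Ctx l b α Λ r K δ t1) (k : ℕ) : |chi l ^ k| ≤ 1 := by
  rw [abs_of_pos (pow_pos h.chi0 k)]; exact pow_le_one₀ h.chi0.le h.chi1
theorem absb (h : Ctx l b α Λ r K δ t1) : |b| ≤ K := by rw [abs_of_nonneg h.b0]; exact h.bK
theorem absa (h : Ctx l b α Λ r K δ t1) : |α| ≤ K := by rw [abs_of_nonneg h.a0]; exact h.aK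
theorem G0 (h : Ctx l b α Λ r K δ t1) : GG l 0 = chi l ^ 2 := by
  rw [Pp.Ode3.chi_eq h.ap]; exact Pp.Ode3.Gp_zero h.ap
theorem Gam0 (h : Ctx l b α Λ r K δ t1) : Gam l 0 = 0 := Pp.Ode3.Gam_zero h.ap
theorem X0 (h : Ctx l b α Λ r K δ t1) : X2 l 0 = chi l := by
  rw [Pp.Ode3.chi_eq h.ap]; exact Pp.Ode3.X2_zero h.ap
theorem absG (h : Ctx l b α Λ r K δ t1) (t : ℝ) : |GG l t| ≤ 1 :=
  abs_le.2 ⟨by linarith [Pp.Ode3.Gp_nonneg l t, show GG l t = Pp.Ode3.Gp l t from rfl],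
    Pp.Ode3.Gp_le_one h.ok.1 t⟩
theorem mem (h : Ctx l b α Λ r K δ t1) (h0 : 0 ≤ t) (h1 : t ≤ t1) : t ∈ Icc 0 (TT l) :=
  ⟨h0, h1.trans h.t1T⟩
theorem absGam (h : Ctx l b α Λ r K δ t1) (h0 : 0 ≤ t) (h1 : t ≤ t1) : |Gam l t| ≤ t :=
  abs_le.2 ⟨by linarith [Pp.Ode3.Gam_nonneg l t, show Gam l t = Pp.Ode3.Gam l t from rfl],
    Pp.Ode3.Gam_le h.ap (h.mem h0 h1)⟩
theorem cG (h : Ctx l b α Λ r K δ t1) (h0 : 0 ≤ s) (h1 : t ≤ t1) : ContinuousOn (GG l) (Icc s t) :=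
  (Pp.Ode3.Gp_cont h.ap).mono (Icc_subset_Icc h0 (h1.trans h.t1T))
theorem cGam (h : Ctx l b α Λ r K δ t1) (h0 : 0 ≤ s) (h1 : t ≤ t1) :
    ContinuousOn (Gam l) (Icc s t) :=
  (Pp.Ode3.Gam_cont h.ap).mono (Icc_subset_Icc h0 (h1.trans h.t1T))
theorem cX (h : Ctx l b α Λ r K δ t1) (h0 : 0 ≤ s) (h1 : t ≤ t1) : ContinuousOn (X2 l) (Icc s t) :=
  (Pp.Ode3.X2_cont h.ap).mono (Icc_subset_Icc h0 (h1.trans h.t1T))
theorem dG (h : Ctx l b α Λ r K δ t1) (h0 : 0 ≤ s) (h1 : s < t1) :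
    HasDerivWithinAt (GG l) (NN l s - 2 * lvr 1 l s * AA l s) (Ici s) s :=
  Pp.Ode3.Gp_rder h.ap h0 (h1.trans_le h.t1T)
theorem dGam (h : Ctx l b α Λ r K δ t1) (h0 : 0 ≤ s) (h1 : s < t1) :
    HasDerivWithinAt (Gam l) (GG l s) (Ici s) s := Pp.Ode3.Gam_rder h.ap h0 (h1.trans_le h.t1T)
theorem dX (h : Ctx l b α Λ r K δ t1) (h0 : 0 ≤ s) (h1 : s < t1) :
    HasDerivWithinAt (X2 l) (-(lvr 1 l s * GG l s)) (Ici s) s :=
  Pp.Ode3.X2_rder h.ap h0 (h1.trans_le h.t1T)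

theorem z_le (h : Ctx l b α Λ r K δ t1) (h0 : 0 ≤ s) (h1 : s < t1) :
    |lvr 1 l s| ≤ 3 * K * (s + δ) := by
  rw [abs_of_pos (Pp.Ode3.lvr_pos h.ok.1 s)]
  have a := (abs_le.1 (h.lin.lo s h0 h1)).2
  have s1 : s ≤ 1 := h1.le.trans h.t11
  have K1 := h.K1
  have a1 := mul_le_mul_of_nonneg_right h.aK h0
  have a2 := mul_le_mul_of_nonneg_right (h.L1.trans K1) h0
  have a3 : K * s ^ 2 ≤ K * s := mul_le_mul_of_nonneg_left (by nlinarith) (by linarith)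
  have a4 : δ ≤ 3 * K * δ := le_mul_of_one_le_left h.d0 (by linarith)
  linarith

theorem tau (h : Ctx l b α Λ r K δ t1) (h0 : 0 ≤ s) (hs : s ≤ t) (h1 : t ≤ t1) :
    (s + δ) * s ≤ t ^ 2 + δ ∧ (s + δ) * t ≤ t ^ 2 + δ ∧ s ^ 2 ≤ t ^ 2 := by
  have t1 : t ≤ 1 := h1.trans h.t11
  have d := h.d0
  refine ⟨by nlinarith, by nlinarith, by nlinarith⟩

/-- remainder of `G'` -/
theorem R1 (h : Ctx l b α Λ r K δ t1) (h0 : 0 ≤ s) (h1 : s < t1) :
    |NN l s - 2 * lvr 1 l s * AA l s - (k4 l ^ 2 * s - 2 * chi l ^ 3 * lvr 1 l s)| ≤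
      91 * K * ((s + δ) * s) := by
  refine (h.gd s (h.mem h0 h1.le)).trans ?_
  have a := mul_le_mul_of_nonneg_right ((le_abs_self _).trans (h.z_le h0 h1)) h0
  have : 0 ≤ K * (δ * s) := by have := h.K1; have := h.d0; positivity
  nlinarith

theorem G_near (h : Ctx l b α Λ r K δ t1) (h0 : 0 ≤ t) (h1 : t ≤ t1) :
    |GG l t - chi l ^ 2| ≤ 98 * K * ((t + δ) * t) := by
  have := mvt_cmp (f := GG l) (g := fun _ => 0) (g' := fun _ => 0) (E := 98 * K * (t + δ)) h0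
    (h.cG le_rfl h1) (fun s hs => h.dG hs.1 (hs.2.trans_le h1)) (fun s => hasDerivAt_const s 0)
    (fun s hs => by
      have s1 : s < t1 := hs.2.trans_le h1
      have a := abs_le.1 (h.R1 hs.1 s1)
      have b := abs_le.1 (amul (h.chiP 3) (h.z_le hs.1 s1))
      have c := mul_le_mul_of_nonneg_right h.kK hs.1
      have c' : 0 ≤ k4 l ^ 2 * s := mul_nonneg (sq_nonneg _) hs.1
      have K0 : 0 ≤ K := by linarith [h.K1]
      have d0 := h.d0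
      have e : K * ((s + δ) * s) ≤ K * (t + δ) := mul_le_mul_of_nonneg_left (by
        have : s ≤ 1 := s1.le.trans h.t11
        nlinarith [hs.1, hs.2]) K0
      have e2 : K * s ≤ K * t := mul_le_mul_of_nonneg_left hs.2.le K0
      have e3 : 0 ≤ K * δ := by positivity
      have e4 : 0 ≤ K * t := by positivity
      rw [abs_le]; constructor <;> linarith [a.1, a.2, b.1, b.2])
  rw [h.G0] at this
  simpa [mul_assoc] using this

theorem Gam_near (h : Ctx l b α Λ r K δ t1) (h0 : 0 ≤ t) (h1 : t ≤ t1) :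
    |Gam l t - chi l ^ 2 * t| ≤ 98 * K * ((t + δ) * t) * t := by
  have := mvt_cmp (f := Gam l) (g := fun s => chi l ^ 2 * s) (g' := fun _ => chi l ^ 2)
    (E := 98 * K * ((t + δ) * t)) h0
    (h.cGam le_rfl h1) (fun s hs => h.dGam hs.1 (hs.2.trans_le h1))
    (fun s => by simpa using (hasDerivAt_id s).const_mul (chi l ^ 2))
    (fun s hs => (h.G_near hs.1 (hs.2.le.trans h1)).trans (by
      have := h.K1; have := h.d0; have := hs.1; have := hs.2.le; gcongr))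
  rw [h.Gam0] at this
  simpa using this

theorem X_near (h : Ctx l b α Λ r K δ t1) (h0 : 0 ≤ t) (h1 : t ≤ t1) :
    |X2 l t - chi l| ≤ 3 * K * ((t + δ) * t) := by
  have := mvt_cmp (f := X2 l) (g := fun _ => 0) (g' := fun _ => 0) (E := 3 * K * (t + δ)) h0
    (h.cX le_rfl h1) (fun s hs => h.dX hs.1 (hs.2.trans_le h1)) (fun s => hasDerivAt_const s 0)
    (fun s hs => by
      rw [sub_zero, abs_neg]
      refine (amul (h.z_le hs.1 (hs.2.trans_le h1)) (h.absG s)).trans ?_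
      have := h.K1; have := h.d0; have := hs.1; have := hs.2.le
      rw [mul_one]; gcongr)
  rw [h.X0] at this
  simpa [mul_assoc] using this

theorem ce (h : Ctx l b α Λ r K δ t1) (h0 : 0 ≤ s) (h1 : t ≤ t1) : ContinuousOn (eb l b) (Icc s t) :=
  continuousOn_const.sub (continuousOn_const.mul (h.cG h0 h1))
theorem ch (h : Ctx l b α Λ r K δ t1) (h0 : 0 ≤ s) (h1 : t ≤ t1) : ContinuousOn (hb l b) (Icc s t) :=
  continuousOn_id.sub (continuousOn_const.mul (h.cGam h0 h1))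
theorem de (h : Ctx l b α Λ r K δ t1) (h0 : 0 ≤ s) (h1 : s < t1) :
    HasDerivWithinAt (eb l b) (-(b * (NN l s - 2 * lvr 1 l s * AA l s))) (Ici s) s :=
  ((h.dG h0 h1).const_mul b).const_sub 1
theorem dh (h : Ctx l b α Λ r K δ t1) (h0 : 0 ≤ s) (h1 : s < t1) :
    HasDerivWithinAt (hb l b) (eb l b s) (Ici s) s :=
  (hasDerivWithinAt_id s _).sub ((h.dGam h0 h1).const_mul b)

theorem de_near (h : Ctx l b α Λ r K δ t1) (h0 : 0 ≤ s) (hs : s ≤ t) (h1 : s < t1) (h2 : t ≤ t1)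
    {D : ℝ} (hD : |lvr 1 l s - α * s| ≤ D + (K * s ^ 2 + δ)) :
    |-(b * (NN l s - 2 * lvr 1 l s * AA l s)) - k3 l b α * (2 * s)| ≤
      2 * K * D + 93 * K ^ 2 * (t ^ 2 + δ) := by
  have a := amul h.absb (h.R1 h0 h1)
  have c := amul h.absb (amul (h.chiP 3) hD)
  obtain ⟨t1, -, t3⟩ := h.tau h0 hs h2
  have K1 := h.K1
  have e1 : K * (91 * K * ((s + δ) * s)) ≤ 91 * K ^ 2 * (t ^ 2 + δ) := by
    have := mul_le_mul_of_nonneg_left t1 (show 0 ≤ 91 * K ^ 2 by positivity)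
    linarith
  have e2 : K * (K * s ^ 2 + δ) ≤ K ^ 2 * (t ^ 2 + δ) := by
    have p1 := mul_le_mul_of_nonneg_left t3 (show 0 ≤ K ^ 2 by positivity)
    have p2 : K * δ ≤ K ^ 2 * δ := mul_le_mul_of_nonneg_right (by nlinarith) h.d0
    linarith
  have a' := abs_le.1 a
  have c' := abs_le.1 c
  unfold k3
  rw [abs_le]; constructor <;> linarith [a'.1, a'.2, c'.1, c'.2]

theorem hd_sq (c d s : ℝ) : HasDerivAt (fun s => d + c * s ^ 2) (c * (2 * s)) s := by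
  simpa using ((hasDerivAt_pow 2 s).const_mul c).const_add d

theorem hd_cub (c d s : ℝ) : HasDerivAt (fun s => d * s + c * s ^ 3 / 3) (d + c * s ^ 2) s := by
  have := ((hasDerivAt_id s).const_mul d).add (((hasDerivAt_pow 3 s).const_mul c).div_const 3)
  refine HasDerivAt.congr_deriv this ?_
  norm_num
  ring

/-- `e` above `r` -/
theorem e_hi (h : Ctx l b α Λ r K δ t1) (h0 : r ≤ t) (h1 : t ≤ t1) :
    |eb l b t - e1 l b α r - k3 l b α * t ^ 2| ≤ 93 * K ^ 2 * (t ^ 2 + δ) * t := by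
  have := mvt_cmp (f := eb l b) (g := fun s => 0 + k3 l b α * s ^ 2)
    (E := 93 * K ^ 2 * (t ^ 2 + δ)) h0 (h.ce h.r0 h1)
    (fun s hs => h.de (h.r0.trans hs.1) (hs.2.trans_le h1)) (hd_sq _ _) (fun s hs => by
      simpa using h.de_near (h.r0.trans hs.1) hs.2.le (hs.2.trans_le h1) h1 (D := 0)
        (by simpa using h.lin.hi s hs.1 (hs.2.trans_le h1)))
  refine (le_of_eq ?_).trans (this.trans ?_)
  · unfold e1; congr 1; ring
  · have := h.d0; have := h.r0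
    gcongr; linarith

/-- `e` everywhere -/
theorem e_lo (h : Ctx l b α Λ r K δ t1) (h0 : 0 ≤ t) (h1 : t ≤ t1) :
    |eb l b t - (1 - b * chi l ^ 2) - k3 l b α * t ^ 2| ≤
      (2 * K * (Λ * t) + 93 * K ^ 2 * (t ^ 2 + δ)) * t := by
  have := mvt_cmp (f := eb l b) (g := fun s => 0 + k3 l b α * s ^ 2)
    (E := 2 * K * (Λ * t) + 93 * K ^ 2 * (t ^ 2 + δ)) h0 (h.ce le_rfl h1)
    (fun s hs => h.de hs.1 (hs.2.trans_le h1)) (hd_sq _ _) (fun s hs =>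
      h.de_near hs.1 hs.2.le (hs.2.trans_le h1) h1 ((h.lin.lo s hs.1 (hs.2.trans_le h1)).trans (by
        have := h.L0; have := hs.2.le; gcongr)))
  refine (le_of_eq ?_).trans (this.trans (by rw [sub_zero]))
  unfold eb; rw [h.G0]; congr 1; ring

theorem e1_near (h : Ctx l b α Λ r K δ t1) :
    |e1 l b α r - (1 - b * chi l ^ 2)| ≤ (2 * K * (Λ * r) + 93 * K ^ 2 * (r ^ 2 + δ)) * r := by
  refine (le_of_eq ?_).trans (h.e_lo h.r0 h.rt)
  unfold e1; congr 1; ring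


/-- `h` everywhere -/
theorem h_lo (h : Ctx l b α Λ r K δ t1) (h0 : 0 ≤ t) (h1 : t ≤ t1) :
    |hb l b t - (1 - b * chi l ^ 2) * t - k3 l b α * t ^ 3 / 3| ≤
      (2 * K * (Λ * t) + 93 * K ^ 2 * (t ^ 2 + δ)) * t ^ 2 := by
  have := mvt_cmp (f := hb l b) (g := fun s => (1 - b * chi l ^ 2) * s + k3 l b α * s ^ 3 / 3)
    (E := (2 * K * (Λ * t) + 93 * K ^ 2 * (t ^ 2 + δ)) * t) h0 (h.ch le_rfl h1)
    (fun s hs => h.dh hs.1 (hs.2.trans_le h1)) (hd_cub _ _) (fun s hs => by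
      rw [← sub_sub]
      refine (h.e_lo hs.1 (hs.2.le.trans h1)).trans ?_
      have := h.d0; have := hs.1; have := hs.2.le; have := h.K1; have := h.L0
      gcongr)
  refine (le_of_eq ?_).trans (this.trans (le_of_eq (by ring)))
  have : hb l b 0 = 0 := by unfold hb; rw [h.Gam0]; ring
  rw [this]; congr 1; ring

theorem c0_le (h : Ctx l b α Λ r K δ t1) :
    |c0 l b α r| ≤ 2 * ((2 * K * (Λ * r) + 93 * K ^ 2 * (r ^ 2 + δ)) * r ^ 2) := by
  have a := abs_le.1 (h.h_lo h.r0 h.rt)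
  have c := abs_le.1 (amul h.e1_near (abs_of_nonneg h.r0).le)
  unfold c0
  rw [abs_le]; constructor <;> linarith [a.1, a.2, c.1, c.2]

/-- `e + 2 b χ E Φ_xx` does not see the tilts to leading order -/
theorem phi_near (h : Ctx l b α Λ r K δ t1) (h0 : 0 ≤ t) (h1 : t ≤ t1) :
    |eb l b t + 2 * b * chi l * (X2 l t - chi l) - (1 - b * chi l ^ 2) + b * k4 l ^ 2 / 2 * t ^ 2| ≤
      1267 * K ^ 3 * (t ^ 2 + δ) * t := by
  have := mvt_cmp (f := fun s => eb l b s + 2 * b * chi l * X2 l s)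
    (g := fun s => 0 + -(b * k4 l ^ 2 / 2) * s ^ 2) (E := 1267 * K ^ 3 * (t ^ 2 + δ)) h0
    ((h.ce le_rfl h1).add (continuousOn_const.mul (h.cX le_rfl h1)))
    (fun s hs => (h.de hs.1 (hs.2.trans_le h1)).add
      ((h.dX hs.1 (hs.2.trans_le h1)).const_mul _)) (hd_sq _ _) (fun s hs => by
      have s1 : s < t1 := hs.2.trans_le h1
      have a := abs_le.1 (amul h.absb (h.R1 hs.1 s1))
      have c := abs_le.1 (amul h.absb (amul (h.chiP 1)
        (amul (h.z_le hs.1 s1) (h.G_near hs.1 s1.le))))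
      obtain ⟨t1, -, -⟩ := h.tau hs.1 hs.2.le h1
      have K1 := h.K1
      have d0 := h.d0
      have p0 : 0 ≤ (s + δ) * s := by have := hs.1; positivity
      have p1 : s + δ ≤ 2 := by linarith [s1.le.trans h.t11, h.d1]
      have e1 : K * (91 * K * ((s + δ) * s)) ≤ 91 * K ^ 3 * (t ^ 2 + δ) := by
        calc _ = 91 * K ^ 2 * ((s + δ) * s) := by ring
          _ ≤ _ := by gcongr; norm_num
      have e2 : K * (1 * (3 * K * (s + δ) * (98 * K * ((s + δ) * s)))) ≤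
          588 * K ^ 3 * (t ^ 2 + δ) := by
        calc _ = 294 * K ^ 3 * ((s + δ) * ((s + δ) * s)) := by ring
          _ ≤ 294 * K ^ 3 * (2 * (t ^ 2 + δ)) := by gcongr
          _ = _ := by ring
      rw [abs_le]; constructor <;> linarith [a.1, a.2, c.1, c.2])
  refine (le_of_eq ?_).trans (this.trans (by rw [sub_zero]))
  unfold eb; rw [h.G0, h.X0]; congr 1; ring

theorem x_le (h : Ctx l b α Λ r K δ t1) (h0 : 0 ≤ t) (h1 : t ≤ t1)
    (hx : |x - α * t| ≤ K * t ^ 2 + δ) : |x| ≤ 2 * K * (t + δ) := by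
  have a := abs_le.1 hx
  have K1 := h.K1
  have a1 := mul_le_mul_of_nonneg_right h.aK h0
  have a2 := mul_nonneg h.a0 h0
  have a3 : K * t ^ 2 ≤ K * t := mul_le_mul_of_nonneg_left (by nlinarith [h1.trans h.t11]) (by linarith)
  have a4 : δ ≤ 2 * K * δ := le_mul_of_one_le_left h.d0 (by linarith)
  have a5 : 0 ≤ K * t := by positivity
  rw [abs_le]; constructor <;> linarith [a.1, a.2]

theorem cx_near (h : Ctx l b α Λ r K δ t1) (h0 : 0 ≤ t) (h1 : t ≤ t1)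
    (hx : |x - α * t| ≤ K * t ^ 2 + δ) : |cx l x t - chi l| ≤ 5 * K * ((t + δ) * t) := by
  have a := abs_le.1 (h.X_near h0 h1)
  have c := abs_le.1 (amul (h.x_le h0 h1 hx) (h.absGam h0 h1))
  unfold cx
  rw [abs_le]; constructor <;> linarith [a.1, a.2, c.1, c.2]

theorem xq_near (h : Ctx l b α Λ r K δ t1) (h0 : 0 ≤ t) (h1 : t ≤ t1)
    (hx : |x - α * t| ≤ K * t ^ 2 + δ) :
    |x * Gam l t - α * chi l ^ 2 * t ^ 2| ≤ 99 * K ^ 2 * (t ^ 2 + δ) * t := by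
  have a := abs_le.1 (amul hx (h.absGam h0 h1))
  have c := abs_le.1 (amul (amul h.absa (abs_of_nonneg h0).le) (h.Gam_near h0 h1))
  obtain ⟨t1, -, -⟩ := h.tau h0 le_rfl h1
  have K1 := h.K1
  have d0 := h.d0
  have tt : t ≤ 1 := h1.trans h.t11
  have e1 : (K * t ^ 2 + δ) * t ≤ K ^ 2 * (t ^ 2 + δ) * t := by
    gcongr
    have p1 : K * t ^ 2 ≤ K ^ 2 * t ^ 2 := mul_le_mul_of_nonneg_right (by nlinarith) (sq_nonneg _)
    have p2 : δ ≤ K ^ 2 * δ := le_mul_of_one_le_left d0 (by nlinarith)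
    linarith
  have e2 : K * t * (98 * K * ((t + δ) * t) * t) ≤ 98 * K ^ 2 * (t ^ 2 + δ) * t := by
    calc _ = 98 * K ^ 2 * ((t + δ) * t) * (t * t) := by ring
      _ ≤ _ := by gcongr; nlinarith
  rw [abs_le]; constructor <;> linarith [a.1, a.2, c.1, c.2]

/-- **(A)**, form `1 - b χ₁² + b χ₁ x q` -/
theorem A_near (h : Ctx l b α Λ r K δ t1) (h0 : r ≤ t) (h1 : t ≤ t1)
    (hx : |x - α * t| ≤ K * t ^ 2 + δ) :
    |1 - b * cx l x t ^ 2 + b * cx l x t * (x * Gam l t) - e1 l b α r| ≤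
      1600 * K ^ 3 * (t ^ 2 + δ) * t := by
  have t0 := h.r0.trans h0
  have a1 := abs_le.1 (h.phi_near t0 h1)
  have a2 := abs_le.1 (h.e_hi h0 h1)
  have a3 := abs_le.1 (amul h.absb (amul (h.chiP 1) (h.xq_near t0 h1 hx)))
  have u := h.cx_near t0 h1 hx
  have a4 := abs_le.1 (amul h.absb (amul u u))
  have a5 := abs_le.1 (amul h.absb (amul u (amul (h.x_le t0 h1 hx) (h.absGam t0 h1))))
  obtain ⟨t1, -, -⟩ := h.tau t0 le_rfl h1
  have K1 := h.K1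
  have d0 := h.d0
  have p1 : t + δ ≤ 2 := by linarith [h1.trans h.t11, h.d1]
  have q : ((t + δ) * t) * ((t + δ) * t) ≤ (t ^ 2 + δ) * (2 * t) := by gcongr
  have q' := mul_le_mul_of_nonneg_left q (show 0 ≤ K ^ 3 by positivity)
  have e1 : K ^ 2 * (t ^ 2 + δ) * t ≤ K ^ 3 * (t ^ 2 + δ) * t := by
    gcongr; norm_num
  have e0 : 0 ≤ K ^ 3 * (t ^ 2 + δ) * t := by positivity
  have key : 1 - b * cx l x t ^ 2 + b * cx l x t * (x * Gam l t) - Ref81.e1 l b α r =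
      -(eb l b t + 2 * b * chi l * (X2 l t - chi l) - (1 - b * chi l ^ 2) +
        b * k4 l ^ 2 / 2 * t ^ 2) + (eb l b t - Ref81.e1 l b α r - k3 l b α * t ^ 2) -
      b * (chi l ^ 1 * (x * Gam l t - α * chi l ^ 2 * t ^ 2)) -
      b * ((cx l x t - chi l) * (cx l x t - chi l)) +
      b * ((cx l x t - chi l) * (x * Gam l t)) := by
    unfold cx k3; ring
  rw [key, abs_le]
  constructor <;> linarith [a1.1, a1.2, a2.1, a2.2, a3.1, a3.2, a4.1, a4.2, a5.1, a5.2]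

/-- **(A)**, form `μ + √b x q` -/
theorem A_near' (h : Ctx l b α Λ r K δ t1) (h0 : r ≤ t) (h1 : t ≤ t1)
    (hx : |x - α * t| ≤ K * t ^ 2 + δ) :
    |1 - b * cx l x t ^ 2 + √b * (x * Gam l t) - e1 l b α r| ≤
      1620 * K ^ 3 * (t ^ 2 + δ) * t + 2 * K ^ 2 * |1 - b * chi l ^ 2| * (t ^ 2 + δ) := by
  have t0 := h.r0.trans h0
  have a1 := abs_le.1 (h.A_near h0 h1 hx)
  have u := h.cx_near t0 h1 hx
  have xq := amul (h.x_le t0 h1 hx) (h.absGam t0 h1)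
  have a5 := abs_le.1 (amul h.absb (amul u xq))
  have K1 := h.K1
  have d0 := h.d0
  have sb : |√b| ≤ K := by
    rw [abs_of_nonneg (Real.sqrt_nonneg _)]
    exact Real.sqrt_le_iff.2 ⟨by linarith, h.bK.trans (by nlinarith)⟩
  have ss : √b * √b = b := Real.mul_self_sqrt h.b0
  have y : |1 - √b * chi l| ≤ |1 - b * chi l ^ 2| := by
    have y0 : 0 ≤ √b * chi l := mul_nonneg (Real.sqrt_nonneg _) h.chi0.le
    have : 1 - b * chi l ^ 2 = (1 - √b * chi l) * (1 + √b * chi l) := by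
      rw [← ss, Real.sqrt_mul_self (Real.sqrt_nonneg _)]; ring
    rw [this, abs_mul, abs_of_nonneg (by linarith : 0 ≤ 1 + √b * chi l)]
    exact le_mul_of_one_le_right (abs_nonneg _) (by linarith)
  have a6 := abs_le.1 (amul (amul sb y) xq)
  obtain ⟨t1, -, -⟩ := h.tau t0 le_rfl h1
  have p1 : t + δ ≤ 2 := by linarith [h1.trans h.t11, h.d1]
  have q : ((t + δ) * t) * ((t + δ) * t) ≤ (t ^ 2 + δ) * (2 * t) := by gcongr
  have q' := mul_le_mul_of_nonneg_left q (show 0 ≤ K ^ 3 by positivity)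
  have q2 := mul_le_mul_of_nonneg_left t1
    (show 0 ≤ 2 * K ^ 2 * |1 - b * chi l ^ 2| by positivity)
  have key : 1 - b * cx l x t ^ 2 + √b * (x * Gam l t) - Ref81.e1 l b α r =
      (1 - b * cx l x t ^ 2 + b * cx l x t * (x * Gam l t) - Ref81.e1 l b α r) -
      b * ((cx l x t - chi l) * (x * Gam l t)) + √b * (1 - √b * chi l) * (x * Gam l t) := by
    linear_combination (chi l * (x * Gam l t)) * ss
  rw [key, abs_le]
  constructor <;> linarith [a1.1, a1.2, a5.1, a5.2, a6.1, a6.2]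

end Ctx

end

end Crest.Agent.T156.Pr.Ref81
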